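import Vale.Agent.Lib.P154.PChain.BN.L

set_option linter.all false

namespace Vale.Agent.Lib.P154.PChain.BN.S0

open Vale.Agent.Lib.P154.Chain

noncomputable def pc0 : PT := (PT.nd (nat_lit 3517566) (PT.nd (nat_lit 3380130) (PT.nd (nat_lit 3311412) (PT.nd (nat_lit 3311256) (PT.nd (nat_lit 3277014) (PT.nd (nat_lit 3276936) PT.nil (PT.lf (nat_lit 76) (nat_lit 6) (nat_lit 1) (nat_lit 3) (nat_lit 117) (nat_lit 95) (nat_lit 118))) (PT.lf (nat_lit 76) (nat_lit 6) (nat_lit 1) (nat_lit 1) (nat_lit 118) (nat_lit 95) (nat_lit 117))) (PT.nd (nat_lit 78) (PT.lf (nat_lit 152) (nat_lit 6) (nat_lit 2) (nat_lit 3) (nat_lit 116) (nat_lit 96) (nat_lit 118)) (PT.lf (nat_lit 228) (nat_lit 3) (nat_lit 3) (nat_lit 1) (nat_lit 117) (nat_lit 96) (nat_lit 117)))) (PT.nd (nat_lit 34320) (PT.nd (nat_lit 34242) (PT.lf (nat_lit 152) (nat_lit 6) (nat_lit 2) (nat_lit 1) (nat_lit 118) (nat_lit 96) (nat_lit 116)) (PT.lf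 (nat_lit 304) (nat_lit 6) (nat_lit 4) (nat_lit 3) (nat_lit 116) (nat_lit 97) (nat_lit 117))) (PT.nd (nat_lit 34242) (PT.lf (nat_lit 304) (nat_lit 6) (nat_lit 4) (nat_lit 1) (nat_lit 117) (nat_lit 97) (nat_lit 116)) (PT.nd (nat_lit 78) (PT.lf (nat_lit 380) (nat_lit 6) (nat_lit 5) (nat_lit 3) (nat_lit 115) (nat_lit 98) (nat_lit 117)) (PT.lf (nat_lit 456) (nat_lit 3) (nat_lit 6) (nat_lit 1) (nat_lit 116) (nat_lit 98) (nat_lit 116)))))) (PT.nd (nat_lit 68718) (PT.nd (nat_lit 34320) (PT.nd (nat_lit 34242) (PT.lf (nat_lit 380) (nat_lit 6) (nat_lit 5) (nat_lit 1) (nat_lit 117) (nat_lit 98) (nat_lit 115)) (PT.lf (nat_lit 532) (nat_lit 6) (nat_lit 7) (nat_lit 3) (nat_lit 115) (nat_lit 99) (nat_lit 116))) (PT.nd (nat_lit 34242) (PT.lf (nat_lit 532) (nat_lit 6) (nat_lit 7) (nat_lit 1) (nat_lit 116) (nat_lit 99) (nat_lit 115)) (PT.nd (nat_lit 78) (PT.lf (nat_lit 608) (nat_lit 6) (nat_lit 8) (nat_lit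 3) (nat_lit 114) (nat_lit 100) (nat_lit 116)) (PT.lf (nat_lit 684) (nat_lit 3) (nat_lit 9) (nat_lit 1) (nat_lit 115) (nat_lit 100) (nat_lit 115))))) (PT.nd (nat_lit 34320) (PT.nd (nat_lit 34242) (PT.lf (nat_lit 608) (nat_lit 6) (nat_lit 8) (nat_lit 1) (nat_lit 116) (nat_lit 100) (nat_lit 114)) (PT.lf (nat_lit 760) (nat_lit 6) (nat_lit 10) (nat_lit 3) (nat_lit 114) (nat_lit 101) (nat_lit 115))) (PT.nd (nat_lit 34242) (PT.lf (nat_lit 760) (nat_lit 6) (nat_lit 10) (nat_lit 1) (nat_lit 115) (nat_lit 101) (nat_lit 114)) (PT.nd (nat_lit 78) (PT.lf (nat_lit 836) (nat_lit 6) (nat_lit 11) (nat_lit 3) (nat_lit 113) (nat_lit 102) (nat_lit 115)) (PT.lf (nat_lit 912) (nat_lit 3) (nat_lit 12) (nat_lit 1) (nat_lit 114) (nat_lit 102) (nat_lit 114))))))) (PT.nd (nat_lit 102960) (PT.nd (nat_lit 34398) (PT.nd (nat_lit 34242) (PT.nd (nat_lit 34164) (PT.lf (nat_lit 836) (nat_lit 6) (nat_lit 11) (nat_lit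 1) (nat_lit 115) (nat_lit 102) (nat_lit 113)) (PT.lf (nat_lit 988) (nat_lit 6) (nat_lit 13) (nat_lit 3) (nat_lit 112) (nat_lit 103) (nat_lit 115))) (PT.nd (nat_lit 78) (PT.lf (nat_lit 1064) (nat_lit 6) (nat_lit 14) (nat_lit 3) (nat_lit 113) (nat_lit 103) (nat_lit 114)) (PT.lf (nat_lit 1064) (nat_lit 6) (nat_lit 14) (nat_lit 1) (nat_lit 114) (nat_lit 103) (nat_lit 113)))) (PT.nd (nat_lit 34242) (PT.nd (nat_lit 34164) (PT.lf (nat_lit 988) (nat_lit 6) (nat_lit 13) (nat_lit 1) (nat_lit 115) (nat_lit 103) (nat_lit 112)) (PT.lf (nat_lit 1140) (nat_lit 6) (nat_lit 15) (nat_lit 3) (nat_lit 112) (nat_lit 104) (nat_lit 114))) (PT.nd (nat_lit 78) (PT.lf (nat_lit 1216) (nat_lit 3) (nat_lit 16) (nat_lit 1) (nat_lit 113) (nat_lit 104) (nat_lit 113)) (PT.nd (nat_lit 34164) (PT.lf (nat_lit 1140) (nat_lit 6) (nat_lit 15) (nat_lit 1) (nat_lit 114) (nat_lit 104) (nat_lit 112)) (PT.lf (nat_lit 1292) (nat_lit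 6) (nat_lit 17) (nat_lit 3) (nat_lit 111) (nat_lit 105) (nat_lit 114)))))) (PT.nd (nat_lit 34398) (PT.nd (nat_lit 156) (PT.nd (nat_lit 78) (PT.lf (nat_lit 1368) (nat_lit 6) (nat_lit 18) (nat_lit 3) (nat_lit 112) (nat_lit 105) (nat_lit 113)) (PT.lf (nat_lit 1368) (nat_lit 6) (nat_lit 18) (nat_lit 1) (nat_lit 113) (nat_lit 105) (nat_lit 112))) (PT.nd (nat_lit 34086) (PT.lf (nat_lit 1292) (nat_lit 6) (nat_lit 17) (nat_lit 1) (nat_lit 114) (nat_lit 105) (nat_lit 111)) (PT.nd (nat_lit 78) (PT.lf (nat_lit 1596) (nat_lit 6) (nat_lit 21) (nat_lit 3) (nat_lit 110) (nat_lit 106) (nat_lit 114)) (PT.lf (nat_lit 1672) (nat_lit 6) (nat_lit 22) (nat_lit 3) (nat_lit 111) (nat_lit 106) (nat_lit 113))))) (PT.nd (nat_lit 156) (PT.nd (nat_lit 78) (PT.lf (nat_lit 1748) (nat_lit 3) (nat_lit 23) (nat_lit 1) (nat_lit 112) (nat_lit 106) (nat_lit 112)) (PT.lf (nat_lit 1672) (nat_lit 6) (nat_lit 22) (nat_lit 1)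 (nat_lit 113) (nat_lit 106) (nat_lit 111))) (PT.nd (nat_lit 34008) (PT.lf (nat_lit 1596) (nat_lit 6) (nat_lit 21) (nat_lit 1) (nat_lit 114) (nat_lit 106) (nat_lit 110)) (PT.nd (nat_lit 78) (PT.lf (nat_lit 1520) (nat_lit 6) (nat_lit 20) (nat_lit 3) (nat_lit 109) (nat_lit 107) (nat_lit 114)) (PT.lf (nat_lit 1900) (nat_lit 6) (nat_lit 25) (nat_lit 3) (nat_lit 110) (nat_lit 107) (nat_lit 113))))))))
noncomputable def pc1 : PT := (PT.nd (nat_lit 102804) (PT.nd (nat_lit 34554) (PT.nd (nat_lit 34164) (PT.nd (nat_lit 156) (PT.nd (nat_lit 78) (PT.lf (nat_lit 1976) (nat_lit 6) (nat_lit 26) (nat_lit 3) (nat_lit 111) (nat_lit 107) (nat_lit 112)) (PT.lf (nat_lit 1976) (nat_lit 6) (nat_lit 26) (nat_lit 1) (nat_lit 112) (nat_lit 107) (nat_lit 111))) (PT.nd (nat_lit 78) (PT.lf (nat_lit 1900) (nat_lit 6) (nat_lit 25) (nat_lit 1) (nat_lit 113) (nat_lit 107) (nat_lit 110)) (PT.lf (nat_lit 1520) (nat_lit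 6) (nat_lit 20) (nat_lit 1) (nat_lit 114) (nat_lit 107) (nat_lit 109)))) (PT.nd (nat_lit 156) (PT.nd (nat_lit 78) (PT.lf (nat_lit 1444) (nat_lit 3) (nat_lit 19) (nat_lit 3) (nat_lit 108) (nat_lit 108) (nat_lit 114)) (PT.lf (nat_lit 1824) (nat_lit 6) (nat_lit 24) (nat_lit 3) (nat_lit 109) (nat_lit 108) (nat_lit 113))) (PT.nd (nat_lit 78) (PT.lf (nat_lit 2128) (nat_lit 6) (nat_lit 28) (nat_lit 3) (nat_lit 110) (nat_lit 108) (nat_lit 112)) (PT.nd (nat_lit 78) (PT.lf (nat_lit 2204) (nat_lit 3) (nat_lit 29) (nat_lit 1) (nat_lit 111) (nat_lit 108) (nat_lit 111)) (PT.lf (nat_lit 2128) (nat_lit 6) (nat_lit 28) (nat_lit 1) (nat_lit 112) (nat_lit 108) (nat_lit 110)))))) (PT.nd (nat_lit 34164) (PT.nd (nat_lit 33930) (PT.nd (nat_lit 78) (PT.lf (nat_lit 1824) (nat_lit 6) (nat_lit 24) (nat_lit 1) (nat_lit 113) (nat_lit 108) (nat_lit 109)) (PT.lf (nat_lit 1444) (nat_lit 3) (nat_lit 19) (nat_lit 0)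 (nat_lit 114) (nat_lit 108) (nat_lit 108))) (PT.nd (nat_lit 78) (PT.lf (nat_lit 1520) (nat_lit 6) (nat_lit 20) (nat_lit 5) (nat_lit 107) (nat_lit 109) (nat_lit 114)) (PT.nd (nat_lit 78) (PT.lf (nat_lit 1824) (nat_lit 6) (nat_lit 24) (nat_lit 5) (nat_lit 108) (nat_lit 109) (nat_lit 113)) (PT.lf (nat_lit 2052) (nat_lit 3) (nat_lit 27) (nat_lit 3) (nat_lit 109) (nat_lit 109) (nat_lit 112))))) (PT.nd (nat_lit 156) (PT.nd (nat_lit 78) (PT.lf (nat_lit 2280) (nat_lit 6) (nat_lit 30) (nat_lit 3) (nat_lit 110) (nat_lit 109) (nat_lit 111)) (PT.lf (nat_lit 2280) (nat_lit 6) (nat_lit 30) (nat_lit 1) (nat_lit 111) (nat_lit 109) (nat_lit 110))) (PT.nd (nat_lit 78) (PT.lf (nat_lit 2052) (nat_lit 3) (nat_lit 27) (nat_lit 0) (nat_lit 112) (nat_lit 109) (nat_lit 109)) (PT.nd (nat_lit 78) (PT.lf (nat_lit 1824) (nat_lit 6) (nat_lit 24) (nat_lit 0) (nat_lit 113) (nat_lit 109) (nat_lit 108)) (PT.lf (nat_lit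 1520) (nat_lit 6) (nat_lit 20) (nat_lit 0) (nat_lit 114) (nat_lit 109) (nat_lit 107))))))) (PT.nd (nat_lit 34398) (PT.nd (nat_lit 390) (PT.nd (nat_lit 156) (PT.nd (nat_lit 78) (PT.lf (nat_lit 1596) (nat_lit 6) (nat_lit 21) (nat_lit 5) (nat_lit 106) (nat_lit 110) (nat_lit 114)) (PT.lf (nat_lit 1900) (nat_lit 6) (nat_lit 25) (nat_lit 5) (nat_lit 107) (nat_lit 110) (nat_lit 113))) (PT.nd (nat_lit 78) (PT.lf (nat_lit 2128) (nat_lit 6) (nat_lit 28) (nat_lit 5) (nat_lit 108) (nat_lit 110) (nat_lit 112)) (PT.nd (nat_lit 78) (PT.lf (nat_lit 2280) (nat_lit 6) (nat_lit 30) (nat_lit 5) (nat_lit 109) (nat_lit 110) (nat_lit 111)) (PT.lf (nat_lit 2356) (nat_lit 1) (nat_lit 31) (nat_lit 0) (nat_lit 110) (nat_lit 110) (nat_lit 110))))) (PT.nd (nat_lit 156) (PT.nd (nat_lit 78) (PT.lf (nat_lit 2280) (nat_lit 6) (nat_lit 30) (nat_lit 0) (nat_lit 111) (nat_lit 110) (nat_lit 109)) (PT.lf (nat_lit 2128) (nat_lit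 6) (nat_lit 28) (nat_lit 0) (nat_lit 112) (nat_lit 110) (nat_lit 108))) (PT.nd (nat_lit 78) (PT.lf (nat_lit 1900) (nat_lit 6) (nat_lit 25) (nat_lit 0) (nat_lit 113) (nat_lit 110) (nat_lit 107)) (PT.nd (nat_lit 33696) (PT.lf (nat_lit 1596) (nat_lit 6) (nat_lit 21) (nat_lit 0) (nat_lit 114) (nat_lit 110) (nat_lit 106)) (PT.lf (nat_lit 1292) (nat_lit 6) (nat_lit 17) (nat_lit 5) (nat_lit 105) (nat_lit 111) (nat_lit 114)))))) (PT.nd (nat_lit 390) (PT.nd (nat_lit 156) (PT.nd (nat_lit 78) (PT.lf (nat_lit 1672) (nat_lit 6) (nat_lit 22) (nat_lit 5) (nat_lit 106) (nat_lit 111) (nat_lit 113)) (PT.lf (nat_lit 1976) (nat_lit 6) (nat_lit 26) (nat_lit 5) (nat_lit 107) (nat_lit 111) (nat_lit 112))) (PT.nd (nat_lit 78) (PT.lf (nat_lit 2204) (nat_lit 3) (nat_lit 29) (nat_lit 4) (nat_lit 108) (nat_lit 111) (nat_lit 111)) (PT.nd (nat_lit 78) (PT.lf (nat_lit 2280) (nat_lit 6) (nat_lit 30) (nat_lit 4) (nat_lit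 109) (nat_lit 111) (nat_lit 110)) (PT.lf (nat_lit 2280) (nat_lit 6) (nat_lit 30) (nat_lit 2) (nat_lit 110) (nat_lit 111) (nat_lit 109))))) (PT.nd (nat_lit 156) (PT.nd (nat_lit 78) (PT.lf (nat_lit 2204) (nat_lit 3) (nat_lit 29) (nat_lit 0) (nat_lit 111) (nat_lit 111) (nat_lit 108)) (PT.lf (nat_lit 1976) (nat_lit 6) (nat_lit 26) (nat_lit 0) (nat_lit 112) (nat_lit 111) (nat_lit 107))) (PT.nd (nat_lit 78) (PT.lf (nat_lit 1672) (nat_lit 6) (nat_lit 22) (nat_lit 0) (nat_lit 113) (nat_lit 111) (nat_lit 106)) (PT.nd (nat_lit 33540) (PT.lf (nat_lit 1292) (nat_lit 6) (nat_lit 17) (nat_lit 0) (nat_lit 114) (nat_lit 111) (nat_lit 105)) (PT.lf (nat_lit 988) (nat_lit 6) (nat_lit 13) (nat_lit 5) (nat_lit 103) (nat_lit 112) (nat_lit 115))))))))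
noncomputable def pc2 : PT := (PT.nd (nat_lit 34788) (PT.nd (nat_lit 702) (PT.nd (nat_lit 312) (PT.nd (nat_lit 156) (PT.nd (nat_lit 78) (PT.lf (nat_lit 1140) (nat_lit 6) (nat_lit 15) (nat_lit 5) (nat_lit 104) (nat_lit 112) (nat_lit 114)) (PT.lf (nat_lit 1368) (nat_lit 6) (nat_lit 18) (nat_lit 5) (nat_lit 105) (nat_lit 112) (nat_lit 113))) (PT.nd (nat_lit 78) (PT.lf (nat_lit 1748) (nat_lit 3) (nat_lit 23) (nat_lit 4) (nat_lit 106) (nat_lit 112) (nat_lit 112)) (PT.lf (nat_lit 1976) (nat_lit 6) (nat_lit 26) (nat_lit 4) (nat_lit 107) (nat_lit 112) (nat_lit 111)))) (PT.nd (nat_lit 156) (PT.nd (nat_lit 78) (PT.lf (nat_lit 2128) (nat_lit 6) (nat_lit 28) (nat_lit 4) (nat_lit 108) (nat_lit 112) (nat_lit 110)) (PT.lf (nat_lit 2052) (nat_lit 3) (nat_lit 27) (nat_lit 2) (nat_lit 109) (nat_lit 112) (nat_lit 109))) (PT.nd (nat_lit 78) (PT.lf (nat_lit 2128) (nat_lit 6) (nat_lit 28) (nat_lit 2) (nat_lit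 110) (nat_lit 112) (nat_lit 108)) (PT.nd (nat_lit 78) (PT.lf (nat_lit 1976) (nat_lit 6) (nat_lit 26) (nat_lit 2) (nat_lit 111) (nat_lit 112) (nat_lit 107)) (PT.lf (nat_lit 1748) (nat_lit 3) (nat_lit 23) (nat_lit 0) (nat_lit 112) (nat_lit 112) (nat_lit 106)))))) (PT.nd (nat_lit 33696) (PT.nd (nat_lit 156) (PT.nd (nat_lit 78) (PT.lf (nat_lit 1368) (nat_lit 6) (nat_lit 18) (nat_lit 0) (nat_lit 113) (nat_lit 112) (nat_lit 105)) (PT.lf (nat_lit 1140) (nat_lit 6) (nat_lit 15) (nat_lit 0) (nat_lit 114) (nat_lit 112) (nat_lit 104))) (PT.nd (nat_lit 33384) (PT.lf (nat_lit 988) (nat_lit 6) (nat_lit 13) (nat_lit 0) (nat_lit 115) (nat_lit 112) (nat_lit 103)) (PT.nd (nat_lit 78) (PT.lf (nat_lit 836) (nat_lit 6) (nat_lit 11) (nat_lit 5) (nat_lit 102) (nat_lit 113) (nat_lit 115)) (PT.lf (nat_lit 1064) (nat_lit 6) (nat_lit 14) (nat_lit 5) (nat_lit 103) (nat_lit 113) (nat_lit 114))))) (PT.nd (nat_lit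 156) (PT.nd (nat_lit 78) (PT.lf (nat_lit 1216) (nat_lit 3) (nat_lit 16) (nat_lit 4) (nat_lit 104) (nat_lit 113) (nat_lit 113)) (PT.lf (nat_lit 1368) (nat_lit 6) (nat_lit 18) (nat_lit 4) (nat_lit 105) (nat_lit 113) (nat_lit 112))) (PT.nd (nat_lit 78) (PT.lf (nat_lit 1672) (nat_lit 6) (nat_lit 22) (nat_lit 4) (nat_lit 106) (nat_lit 113) (nat_lit 111)) (PT.nd (nat_lit 78) (PT.lf (nat_lit 1900) (nat_lit 6) (nat_lit 25) (nat_lit 4) (nat_lit 107) (nat_lit 113) (nat_lit 110)) (PT.lf (nat_lit 1824) (nat_lit 6) (nat_lit 24) (nat_lit 4) (nat_lit 108) (nat_lit 113) (nat_lit 109))))))) (PT.nd (nat_lit 33852) (PT.nd (nat_lit 312) (PT.nd (nat_lit 156) (PT.nd (nat_lit 78) (PT.lf (nat_lit 1824) (nat_lit 6) (nat_lit 24) (nat_lit 2) (nat_lit 109) (nat_lit 113) (nat_lit 108)) (PT.lf (nat_lit 1900) (nat_lit 6) (nat_lit 25) (nat_lit 2) (nat_lit 110) (nat_lit 113) (nat_lit 107))) (PT.nd (nat_lit 78) (PT.lf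 (nat_lit 1672) (nat_lit 6) (nat_lit 22) (nat_lit 2) (nat_lit 111) (nat_lit 113) (nat_lit 106)) (PT.lf (nat_lit 1368) (nat_lit 6) (nat_lit 18) (nat_lit 2) (nat_lit 112) (nat_lit 113) (nat_lit 105)))) (PT.nd (nat_lit 156) (PT.nd (nat_lit 78) (PT.lf (nat_lit 1216) (nat_lit 3) (nat_lit 16) (nat_lit 0) (nat_lit 113) (nat_lit 113) (nat_lit 104)) (PT.lf (nat_lit 1064) (nat_lit 6) (nat_lit 14) (nat_lit 0) (nat_lit 114) (nat_lit 113) (nat_lit 103))) (PT.nd (nat_lit 33228) (PT.lf (nat_lit 836) (nat_lit 6) (nat_lit 11) (nat_lit 0) (nat_lit 115) (nat_lit 113) (nat_lit 102)) (PT.nd (nat_lit 78) (PT.lf (nat_lit 608) (nat_lit 6) (nat_lit 8) (nat_lit 5) (nat_lit 100) (nat_lit 114) (nat_lit 116)) (PT.lf (nat_lit 760) (nat_lit 6) (nat_lit 10) (nat_lit 5) (nat_lit 101) (nat_lit 114) (nat_lit 115)))))) (PT.nd (nat_lit 390) (PT.nd (nat_lit 156) (PT.nd (nat_lit 78) (PT.lf (nat_lit 912) (nat_lit 3) (nat_lit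 12) (nat_lit 4) (nat_lit 102) (nat_lit 114) (nat_lit 114)) (PT.lf (nat_lit 1064) (nat_lit 6) (nat_lit 14) (nat_lit 4) (nat_lit 103) (nat_lit 114) (nat_lit 113))) (PT.nd (nat_lit 78) (PT.lf (nat_lit 1140) (nat_lit 6) (nat_lit 15) (nat_lit 4) (nat_lit 104) (nat_lit 114) (nat_lit 112)) (PT.nd (nat_lit 78) (PT.lf (nat_lit 1292) (nat_lit 6) (nat_lit 17) (nat_lit 4) (nat_lit 105) (nat_lit 114) (nat_lit 111)) (PT.lf (nat_lit 1596) (nat_lit 6) (nat_lit 21) (nat_lit 4) (nat_lit 106) (nat_lit 114) (nat_lit 110))))) (PT.nd (nat_lit 156) (PT.nd (nat_lit 78) (PT.lf (nat_lit 1520) (nat_lit 6) (nat_lit 20) (nat_lit 4) (nat_lit 107) (nat_lit 114) (nat_lit 109)) (PT.lf (nat_lit 1444) (nat_lit 3) (nat_lit 19) (nat_lit 2) (nat_lit 108) (nat_lit 114) (nat_lit 108))) (PT.nd (nat_lit 78) (PT.lf (nat_lit 1520) (nat_lit 6) (nat_lit 20) (nat_lit 2) (nat_lit 109) (nat_lit 114) (nat_lit 107)) (PT.nd (nat_lit 78)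 (PT.lf (nat_lit 1596) (nat_lit 6) (nat_lit 21) (nat_lit 2) (nat_lit 110) (nat_lit 114) (nat_lit 106)) (PT.lf (nat_lit 1292) (nat_lit 6) (nat_lit 17) (nat_lit 2) (nat_lit 111) (nat_lit 114) (nat_lit 105))))))))
noncomputable def pc3 : PT := (PT.nd (nat_lit 67704) (PT.nd (nat_lit 33618) (PT.nd (nat_lit 312) (PT.nd (nat_lit 156) (PT.nd (nat_lit 78) (PT.lf (nat_lit 1140) (nat_lit 6) (nat_lit 15) (nat_lit 2) (nat_lit 112) (nat_lit 114) (nat_lit 104)) (PT.lf (nat_lit 1064) (nat_lit 6) (nat_lit 14) (nat_lit 2) (nat_lit 113) (nat_lit 114) (nat_lit 103))) (PT.nd (nat_lit 78) (PT.lf (nat_lit 912) (nat_lit 3) (nat_lit 12) (nat_lit 0) (nat_lit 114) (nat_lit 114) (nat_lit 102)) (PT.lf (nat_lit 760) (nat_lit 6) (nat_lit 10) (nat_lit 0) (nat_lit 115) (nat_lit 114) (nat_lit 101)))) (PT.nd (nat_lit 33072) (PT.nd (nat_lit 32994) (PT.lf (nat_lit 608) (nat_lit 6) (nat_lit 8) (nat_lit 0) (nat_lit 116) (nat_lit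 114) (nat_lit 100)) (PT.lf (nat_lit 380) (nat_lit 6) (nat_lit 5) (nat_lit 5) (nat_lit 98) (nat_lit 115) (nat_lit 117))) (PT.nd (nat_lit 78) (PT.lf (nat_lit 532) (nat_lit 6) (nat_lit 7) (nat_lit 5) (nat_lit 99) (nat_lit 115) (nat_lit 116)) (PT.nd (nat_lit 78) (PT.lf (nat_lit 684) (nat_lit 3) (nat_lit 9) (nat_lit 4) (nat_lit 100) (nat_lit 115) (nat_lit 115)) (PT.lf (nat_lit 760) (nat_lit 6) (nat_lit 10) (nat_lit 4) (nat_lit 101) (nat_lit 115) (nat_lit 114)))))) (PT.nd (nat_lit 1014) (PT.nd (nat_lit 780) (PT.nd (nat_lit 78) (PT.lf (nat_lit 836) (nat_lit 6) (nat_lit 11) (nat_lit 4) (nat_lit 102) (nat_lit 115) (nat_lit 113)) (PT.lf (nat_lit 988) (nat_lit 6) (nat_lit 13) (nat_lit 4) (nat_lit 103) (nat_lit 115) (nat_lit 112))) (PT.nd (nat_lit 78) (PT.lf (nat_lit 988) (nat_lit 6) (nat_lit 13) (nat_lit 2) (nat_lit 112) (nat_lit 115) (nat_lit 103)) (PT.nd (nat_lit 78) (PT.lf (nat_lit 836) (nat_lit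 6) (nat_lit 11) (nat_lit 2) (nat_lit 113) (nat_lit 115) (nat_lit 102)) (PT.lf (nat_lit 760) (nat_lit 6) (nat_lit 10) (nat_lit 2) (nat_lit 114) (nat_lit 115) (nat_lit 101))))) (PT.nd (nat_lit 156) (PT.nd (nat_lit 78) (PT.lf (nat_lit 684) (nat_lit 3) (nat_lit 9) (nat_lit 0) (nat_lit 115) (nat_lit 115) (nat_lit 100)) (PT.lf (nat_lit 532) (nat_lit 6) (nat_lit 7) (nat_lit 0) (nat_lit 116) (nat_lit 115) (nat_lit 99))) (PT.nd (nat_lit 32760) (PT.lf (nat_lit 380) (nat_lit 6) (nat_lit 5) (nat_lit 0) (nat_lit 117) (nat_lit 115) (nat_lit 98)) (PT.nd (nat_lit 78) (PT.lf (nat_lit 152) (nat_lit 6) (nat_lit 2) (nat_lit 5) (nat_lit 96) (nat_lit 116) (nat_lit 118)) (PT.lf (nat_lit 304) (nat_lit 6) (nat_lit 4) (nat_lit 5) (nat_lit 97) (nat_lit 116) (nat_lit 117))))))) (PT.nd (nat_lit 34320) (PT.nd (nat_lit 1404) (PT.nd (nat_lit 156) (PT.nd (nat_lit 78) (PT.lf (nat_lit 456) (nat_lit 3) (nat_lit 6) (nat_lit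 4) (nat_lit 98) (nat_lit 116) (nat_lit 116)) (PT.lf (nat_lit 532) (nat_lit 6) (nat_lit 7) (nat_lit 4) (nat_lit 99) (nat_lit 116) (nat_lit 115))) (PT.nd (nat_lit 1092) (PT.lf (nat_lit 608) (nat_lit 6) (nat_lit 8) (nat_lit 4) (nat_lit 100) (nat_lit 116) (nat_lit 114)) (PT.nd (nat_lit 78) (PT.lf (nat_lit 608) (nat_lit 6) (nat_lit 8) (nat_lit 2) (nat_lit 114) (nat_lit 116) (nat_lit 100)) (PT.lf (nat_lit 532) (nat_lit 6) (nat_lit 7) (nat_lit 2) (nat_lit 115) (nat_lit 116) (nat_lit 99))))) (PT.nd (nat_lit 156) (PT.nd (nat_lit 78) (PT.lf (nat_lit 456) (nat_lit 3) (nat_lit 6) (nat_lit 0) (nat_lit 116) (nat_lit 116) (nat_lit 98)) (PT.lf (nat_lit 304) (nat_lit 6) (nat_lit 4) (nat_lit 0) (nat_lit 117) (nat_lit 116) (nat_lit 97))) (PT.nd (nat_lit 32604) (PT.lf (nat_lit 152) (nat_lit 6) (nat_lit 2) (nat_lit 0) (nat_lit 118) (nat_lit 116) (nat_lit 96)) (PT.nd (nat_lit 78) (PT.lf (nat_lit 76) (nat_lit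 6) (nat_lit 1) (nat_lit 5) (nat_lit 95) (nat_lit 117) (nat_lit 118)) (PT.lf (nat_lit 228) (nat_lit 3) (nat_lit 3) (nat_lit 4) (nat_lit 96) (nat_lit 117) (nat_lit 117)))))) (PT.nd (nat_lit 1638) (PT.nd (nat_lit 1404) (PT.nd (nat_lit 78) (PT.lf (nat_lit 304) (nat_lit 6) (nat_lit 4) (nat_lit 4) (nat_lit 97) (nat_lit 117) (nat_lit 116)) (PT.lf (nat_lit 380) (nat_lit 6) (nat_lit 5) (nat_lit 4) (nat_lit 98) (nat_lit 117) (nat_lit 115))) (PT.nd (nat_lit 78) (PT.lf (nat_lit 380) (nat_lit 6) (nat_lit 5) (nat_lit 2) (nat_lit 115) (nat_lit 117) (nat_lit 98)) (PT.nd (nat_lit 78) (PT.lf (nat_lit 304) (nat_lit 6) (nat_lit 4) (nat_lit 2) (nat_lit 116) (nat_lit 117) (nat_lit 97)) (PT.lf (nat_lit 228) (nat_lit 3) (nat_lit 3) (nat_lit 0) (nat_lit 117) (nat_lit 117) (nat_lit 96))))) (PT.nd (nat_lit 32682) (PT.nd (nat_lit 32604) (PT.lf (nat_lit 76) (nat_lit 6) (nat_lit 1) (nat_lit 0) (nat_lit 118) (nat_lit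 117) (nat_lit 95)) (PT.lf (nat_lit 76) (nat_lit 6) (nat_lit 1) (nat_lit 4) (nat_lit 95) (nat_lit 118) (nat_lit 117))) (PT.nd (nat_lit 1560) (PT.lf (nat_lit 152) (nat_lit 6) (nat_lit 2) (nat_lit 4) (nat_lit 96) (nat_lit 118) (nat_lit 116)) (PT.nd (nat_lit 78) (PT.lf (nat_lit 152) (nat_lit 6) (nat_lit 2) (nat_lit 2) (nat_lit 116) (nat_lit 118) (nat_lit 96)) (PT.lf (nat_lit 76) (nat_lit 6) (nat_lit 1) (nat_lit 2) (nat_lit 117) (nat_lit 118) (nat_lit 95))))))))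
noncomputable def xc0 : XT := (XT.nd (nat_lit 137202) (nat_lit 0) (nat_lit 0) (XT.nd (nat_lit 68718) (nat_lit 0) (nat_lit 0) (XT.nd (nat_lit 34398) (nat_lit 0) (nat_lit 0) (XT.nd (nat_lit 34242) (nat_lit 0) (nat_lit 0) (XT.nd (nat_lit 78) (nat_lit 0) (nat_lit 0) (XT.lf (nat_lit 0) (nat_lit 42061932795226) (nat_lit 152) (nat_lit 81222551477846) (nat_lit 0) (nat_lit 42061932795226) (nat_lit 1) (nat_lit 5) (nat_lit 3) (nat_lit 4) (nat_lit 1) (nat_lit 4) (nat_lit 310) (nat_lit 175) (nat_lit 175)) (XT.lf (nat_lit 0) (nat_lit 96742488418079) (nat_lit 152) (nat_lit 186811777431557) (nat_lit 0) (nat_lit 96742486600394) (nat_lit 1) (nat_lit 5) (nat_lit 3) (nat_lit 4) (nat_lit 1) (nat_lit 4) (nat_lit 311) (nat_lit 175) (nat_lit 174))) (XT.nd (nat_lit 78) (nat_lit 0) (nat_lit 0) (XT.lf (nat_lit 0) (nat_lit 31804825613145) (nat_lit 152) (nat_lit 61416001178710) (nat_lit 0) (nat_lit 31804825613145)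 (nat_lit 1) (nat_lit 5) (nat_lit 3) (nat_lit 4) (nat_lit 1) (nat_lit 4) (nat_lit 308) (nat_lit 176) (nat_lit 176)) (XT.lf (nat_lit 0) (nat_lit 73151148347649) (nat_lit 152) (nat_lit 141256698098422) (nat_lit 0) (nat_lit 73151146257312) (nat_lit 1) (nat_lit 5) (nat_lit 3) (nat_lit 4) (nat_lit 1) (nat_lit 4) (nat_lit 309) (nat_lit 176) (nat_lit 175)))) (XT.nd (nat_lit 34164) (nat_lit 0) (nat_lit 0) (XT.nd (nat_lit 34086) (nat_lit 0) (nat_lit 0) (XT.lf (nat_lit 0) (nat_lit 84123865631727) (nat_lit 152) (nat_lit 162445107090578) (nat_lit 0) (nat_lit 84123861723705) (nat_lit 1) (nat_lit 5) (nat_lit 3) (nat_lit 4) (nat_lit 1) (nat_lit 4) (nat_lit 310) (nat_lit 176) (nat_lit 174)) (XT.lf (nat_lit 0) (nat_lit 24048973196995) (nat_lit 152) (nat_lit 46439416084581) (nat_lit 0) (nat_lit 24048973196995) (nat_lit 1) (nat_lit 5) (nat_lit 3) (nat_lit 4) (nat_lit 1) (nat_lit 4) (nat_lit 306) (nat_lit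 177) (nat_lit 177))) (XT.nd (nat_lit 78) (nat_lit 0) (nat_lit 0) (XT.lf (nat_lit 0) (nat_lit 55312695206118) (nat_lit 152) (nat_lit 106810536690033) (nat_lit 0) (nat_lit 55312692802230) (nat_lit 1) (nat_lit 5) (nat_lit 3) (nat_lit 4) (nat_lit 1) (nat_lit 4) (nat_lit 307) (nat_lit 177) (nat_lit 176)) (XT.lf (nat_lit 0) (nat_lit 63609651273755) (nat_lit 152) (nat_lit 122832007112540) (nat_lit 0) (nat_lit 63609646779530) (nat_lit 1) (nat_lit 5) (nat_lit 3) (nat_lit 4) (nat_lit 1) (nat_lit 4) (nat_lit 308) (nat_lit 177) (nat_lit 175))))) (XT.nd (nat_lit 34164) (nat_lit 0) (nat_lit 0) (XT.nd (nat_lit 34008) (nat_lit 0) (nat_lit 0) (XT.nd (nat_lit 78) (nat_lit 0) (nat_lit 0) (XT.lf (nat_lit 0) (nat_lit 73151146346051) (nat_lit 152) (nat_lit 141256706988427) (nat_lit 0) (nat_lit 73151140034141) (nat_lit 1) (nat_lit 5) (nat_lit 3) (nat_lit 4) (nat_lit 1) (nat_lit 4) (nat_lit 309) (nat_lit 177)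 (nat_lit 174)) (XT.lf (nat_lit 0) (nat_lit 84123861848334) (nat_lit 152) (nat_lit 162445119576136) (nat_lit 0) (nat_lit 84123853955829) (nat_lit 1) (nat_lit 5) (nat_lit 3) (nat_lit 4) (nat_lit 1) (nat_lit 4) (nat_lit 310) (nat_lit 177) (nat_lit 173))) (XT.nd (nat_lit 78) (nat_lit 0) (nat_lit 0) (XT.lf (nat_lit 0) (nat_lit 18184427866055) (nat_lit 152) (nat_lit 35114980466315) (nat_lit 0) (nat_lit 18184427866055) (nat_lit 1) (nat_lit 5) (nat_lit 3) (nat_lit 4) (nat_lit 1) (nat_lit 4) (nat_lit 304) (nat_lit 178) (nat_lit 178)) (XT.lf (nat_lit 0) (nat_lit 41824249472911) (nat_lit 152) (nat_lit 80764316722346) (nat_lit 0) (nat_lit 41824246708440) (nat_lit 1) (nat_lit 5) (nat_lit 3) (nat_lit 4) (nat_lit 1) (nat_lit 4) (nat_lit 305) (nat_lit 178) (nat_lit 177)))) (XT.nd (nat_lit 156) (nat_lit 0) (nat_lit 0) (XT.nd (nat_lit 78) (nat_lit 0) (nat_lit 0) (XT.lf (nat_lit 0) (nat_lit 48097946448575)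 (nat_lit 152) (nat_lit 92878837637549) (nat_lit 0) (nat_lit 48097941280216) (nat_lit 1) (nat_lit 5) (nat_lit 3) (nat_lit 4) (nat_lit 1) (nat_lit 4) (nat_lit 306) (nat_lit 178) (nat_lit 176)) (XT.lf (nat_lit 0) (nat_lit 55312692904280) (nat_lit 152) (nat_lit 106810546913539) (nat_lit 0) (nat_lit 55312685645583) (nat_lit 1) (nat_lit 5) (nat_lit 3) (nat_lit 4) (nat_lit 1) (nat_lit 4) (nat_lit 307) (nat_lit 178) (nat_lit 175))) (XT.nd (nat_lit 78) (nat_lit 0) (nat_lit 0) (XT.lf (nat_lit 0) (nat_lit 63609646922853) (nat_lit 152) (nat_lit 122832021470931) (nat_lit 0) (nat_lit 63609637846472) (nat_lit 1) (nat_lit 5) (nat_lit 3) (nat_lit 4) (nat_lit 1) (nat_lit 4) (nat_lit 308) (nat_lit 178) (nat_lit 174)) (XT.nd (nat_lit 34008) (nat_lit 0) (nat_lit 0) (XT.lf (nat_lit 0) (nat_lit 73151140213355) (nat_lit 152) (nat_lit 141256724942371) (nat_lit 0) (nat_lit 73151129556379) (nat_lit 1) (nat_lit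 5) (nat_lit 3) (nat_lit 4) (nat_lit 1) (nat_lit 4) (nat_lit 309) (nat_lit 178) (nat_lit 173)) (XT.lf (nat_lit 0) (nat_lit 36368855794884) (nat_lit 152) (nat_lit 70229967221275) (nat_lit 0) (nat_lit 36368849851271) (nat_lit 1) (nat_lit 5) (nat_lit 3) (nat_lit 4) (nat_lit 1) (nat_lit 4) (nat_lit 304) (nat_lit 179) (nat_lit 177))))))) (XT.nd (nat_lit 68250) (nat_lit 0) (nat_lit 0) (XT.nd (nat_lit 34008) (nat_lit 0) (nat_lit 0) (XT.nd (nat_lit 156) (nat_lit 0) (nat_lit 0) (XT.nd (nat_lit 78) (nat_lit 0) (nat_lit 0) (XT.lf (nat_lit 0) (nat_lit 41824246825797) (nat_lit 152) (nat_lit 80764328479377) (nat_lit 0) (nat_lit 41824238478296) (nat_lit 1) (nat_lit 5) (nat_lit 3) (nat_lit 4) (nat_lit 1) (nat_lit 4) (nat_lit 305) (nat_lit 179) (nat_lit 176)) (XT.lf (nat_lit 0) (nat_lit 48097941445038) (nat_lit 152) (nat_lit 92878854149699) (nat_lit 0) (nat_lit 48097931007200) (nat_lit 1) (nat_lit 5)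 (nat_lit 3) (nat_lit 4) (nat_lit 1) (nat_lit 4) (nat_lit 306) (nat_lit 179) (nat_lit 175))) (XT.nd (nat_lit 78) (nat_lit 0) (nat_lit 0) (XT.lf (nat_lit 0) (nat_lit 55312685851679) (nat_lit 152) (nat_lit 106810567560574) (nat_lit 0) (nat_lit 55312673596157) (nat_lit 1) (nat_lit 5) (nat_lit 3) (nat_lit 4) (nat_lit 1) (nat_lit 4) (nat_lit 307) (nat_lit 179) (nat_lit 174)) (XT.lf (nat_lit 0) (nat_lit 63609638088459) (nat_lit 152) (nat_lit 122832045713519) (nat_lit 0) (nat_lit 63609624252341) (nat_lit 1) (nat_lit 5) (nat_lit 3) (nat_lit 4) (nat_lit 1) (nat_lit 4) (nat_lit 308) (nat_lit 179) (nat_lit 173)))) (XT.nd (nat_lit 390) (nat_lit 0) (nat_lit 0) (XT.nd (nat_lit 312) (nat_lit 0) (nat_lit 0) (XT.lf (nat_lit 0) (nat_lit 10396894027670) (nat_lit 152) (nat_lit 20077345355280) (nat_lit 0) (nat_lit 10396894027670) (nat_lit 1) (nat_lit 5) (nat_lit 3) (nat_lit 4) (nat_lit 1) (nat_lit 4) (nat_lit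 300) (nat_lit 180) (nat_lit 180)) (XT.lf (nat_lit 0) (nat_lit 36368850040816) (nat_lit 152) (nat_lit 70229986210248) (nat_lit 0) (nat_lit 36368838037302) (nat_lit 1) (nat_lit 5) (nat_lit 3) (nat_lit 4) (nat_lit 1) (nat_lit 4) (nat_lit 304) (nat_lit 180) (nat_lit 176))) (XT.nd (nat_lit 78) (nat_lit 0) (nat_lit 0) (XT.lf (nat_lit 0) (nat_lit 41824238715307) (nat_lit 152) (nat_lit 80764352223468) (nat_lit 0) (nat_lit 41824224621456) (nat_lit 1) (nat_lit 5) (nat_lit 3) (nat_lit 4) (nat_lit 1) (nat_lit 4) (nat_lit 305) (nat_lit 180) (nat_lit 175)) (XT.nd (nat_lit 78) (nat_lit 0) (nat_lit 0) (XT.lf (nat_lit 0) (nat_lit 48097931285484) (nat_lit 152) (nat_lit 92878882028676) (nat_lit 0) (nat_lit 48097915373949) (nat_lit 1) (nat_lit 5) (nat_lit 3) (nat_lit 4) (nat_lit 1) (nat_lit 4) (nat_lit 306) (nat_lit 180) (nat_lit 174)) (XT.lf (nat_lit 0) (nat_lit 55312673910331) (nat_lit 152) (nat_lit 106810599035104)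 (nat_lit 0) (nat_lit 55312656418200) (nat_lit 1) (nat_lit 5) (nat_lit 3) (nat_lit 4) (nat_lit 1) (nat_lit 4) (nat_lit 307) (nat_lit 180) (nat_lit 173)))))) (XT.nd (nat_lit 34320) (nat_lit 0) (nat_lit 0) (XT.nd (nat_lit 546) (nat_lit 0) (nat_lit 0) (XT.nd (nat_lit 78) (nat_lit 0) (nat_lit 0) (XT.lf (nat_lit 0) (nat_lit 7861468132821) (nat_lit 152) (nat_lit 15181524965964) (nat_lit 0) (nat_lit 7861468132821) (nat_lit 1) (nat_lit 5) (nat_lit 3) (nat_lit 4) (nat_lit 1) (nat_lit 4) (nat_lit 298) (nat_lit 181) (nat_lit 181)) (XT.lf (nat_lit 0) (nat_lit 18081476141792) (nat_lit 152) (nat_lit 34917297008389) (nat_lit 0) (nat_lit 18081471937377) (nat_lit 1) (nat_lit 5) (nat_lit 3) (nat_lit 4) (nat_lit 1) (nat_lit 4) (nat_lit 299) (nat_lit 181) (nat_lit 180))) (XT.nd (nat_lit 33696) (nat_lit 0) (nat_lit 0) (XT.lf (nat_lit 0) (nat_lit 41824224982757) (nat_lit 152) (nat_lit 80764388419177) (nat_lit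 0) (nat_lit 41824204866806) (nat_lit 1) (nat_lit 5) (nat_lit 3) (nat_lit 4) (nat_lit 1) (nat_lit 4) (nat_lit 305) (nat_lit 181) (nat_lit 174)) (XT.lf (nat_lit 0) (nat_lit 5944310281668) (nat_lit 152) (nat_lit 11479606495276) (nat_lit 0) (nat_lit 5944310281668) (nat_lit 1) (nat_lit 5) (nat_lit 3) (nat_lit 4) (nat_lit 1) (nat_lit 4) (nat_lit 296) (nat_lit 182) (nat_lit 182)))) (XT.nd (nat_lit 156) (nat_lit 0) (nat_lit 0) (XT.nd (nat_lit 78) (nat_lit 0) (nat_lit 0) (XT.lf (nat_lit 0) (nat_lit 13672027999584) (nat_lit 152) (nat_lit 26402852963807) (nat_lit 0) (nat_lit 13672023164507) (nat_lit 1) (nat_lit 5) (nat_lit 3) (nat_lit 4) (nat_lit 1) (nat_lit 4) (nat_lit 297) (nat_lit 182) (nat_lit 181)) (XT.lf (nat_lit 0) (nat_lit 15722936361112) (nat_lit 152) (nat_lit 30363059496171) (nat_lit 0) (nat_lit 15722927321620) (nat_lit 1) (nat_lit 5) (nat_lit 3) (nat_lit 4) (nat_lit 1) (nat_lit 4) (nat_lit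 298) (nat_lit 182) (nat_lit 180))) (XT.nd (nat_lit 1170) (nat_lit 0) (nat_lit 0) (XT.lf (nat_lit 0) (nat_lit 18081472115863) (nat_lit 152) (nat_lit 34917314889363) (nat_lit 0) (nat_lit 18081459420357) (nat_lit 1) (nat_lit 5) (nat_lit 3) (nat_lit 4) (nat_lit 1) (nat_lit 4) (nat_lit 299) (nat_lit 182) (nat_lit 179)) (XT.nd (nat_lit 78) (nat_lit 0) (nat_lit 0) (XT.lf (nat_lit 0) (nat_lit 147133244639273) (nat_lit 152) (nat_lit 284117368677005) (nat_lit 0) (nat_lit 147133210565707) (nat_lit 1) (nat_lit 5) (nat_lit 3) (nat_lit 4) (nat_lit 1) (nat_lit 4) (nat_lit 314) (nat_lit 182) (nat_lit 164)) (XT.lf (nat_lit 0) (nat_lit 169203273875235) (nat_lit 152) (nat_lit 326734876914846) (nat_lit 0) (nat_lit 169203239410968) (nat_lit 1) (nat_lit 5) (nat_lit 3) (nat_lit 4) (nat_lit 1) (nat_lit 4) (nat_lit 315) (nat_lit 182) (nat_lit 163))))))))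
noncomputable def xc1 : XT := (XT.nd (nat_lit 67470) (nat_lit 0) (nat_lit 0) (XT.nd (nat_lit 34320) (nat_lit 0) (nat_lit 0) (XT.nd (nat_lit 32916) (nat_lit 0) (nat_lit 0) (XT.nd (nat_lit 32760) (nat_lit 0) (nat_lit 0) (XT.nd (nat_lit 32682) (nat_lit 0) (nat_lit 0) (XT.lf (nat_lit 0) (nat_lit 194583806673172) (nat_lit 152) (nat_lit 375745013049967) (nat_lit 0) (nat_lit 194583771869168) (nat_lit 1) (nat_lit 5) (nat_lit 3) (nat_lit 4) (nat_lit 1) (nat_lit 4) (nat_lit 316) (nat_lit 182) (nat_lit 162)) (XT.lf (nat_lit 0) (nat_lit 4494650153916) (nat_lit 152) (nat_lit 8680453166670) (nat_lit 0) (nat_lit 4494650153916) (nat_lit 1) (nat_lit 5) (nat_lit 3) (nat_lit 4) (nat_lit 1) (nat_lit 4) (nat_lit 294) (nat_lit 183) (nat_lit 183))) (XT.nd (nat_lit 78) (nat_lit 0) (nat_lit 0) (XT.lf (nat_lit 0) (nat_lit 10337826858518) (nat_lit 152) (nat_lit 19964764011714) (nat_lit 0) (nat_lit 10337821298180)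 (nat_lit 1) (nat_lit 5) (nat_lit 3) (nat_lit 4) (nat_lit 1) (nat_lit 4) (nat_lit 295) (nat_lit 183) (nat_lit 182)) (XT.lf (nat_lit 0) (nat_lit 11888620673125) (nat_lit 152) (nat_lit 22959223989432) (nat_lit 0) (nat_lit 11888610277709) (nat_lit 1) (nat_lit 5) (nat_lit 3) (nat_lit 4) (nat_lit 1) (nat_lit 4) (nat_lit 296) (nat_lit 183) (nat_lit 181)))) (XT.nd (nat_lit 156) (nat_lit 0) (nat_lit 0) (XT.nd (nat_lit 78) (nat_lit 0) (nat_lit 0) (XT.lf (nat_lit 0) (nat_lit 13672023369765) (nat_lit 152) (nat_lit 26402873526928) (nat_lit 0) (nat_lit 13672008769934) (nat_lit 1) (nat_lit 5) (nat_lit 3) (nat_lit 4) (nat_lit 1) (nat_lit 4) (nat_lit 297) (nat_lit 183) (nat_lit 180)) (XT.lf (nat_lit 0) (nat_lit 15722927609895) (nat_lit 152) (nat_lit 30363088376024) (nat_lit 0) (nat_lit 15722909354051) (nat_lit 1) (nat_lit 5) (nat_lit 3) (nat_lit 4) (nat_lit 1) (nat_lit 4) (nat_lit 298) (nat_lit 183)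 (nat_lit 179))) (XT.nd (nat_lit 1092) (nat_lit 0) (nat_lit 0) (XT.lf (nat_lit 0) (nat_lit 18081459780821) (nat_lit 152) (nat_lit 34917351001158) (nat_lit 0) (nat_lit 18081438345835) (nat_lit 1) (nat_lit 5) (nat_lit 3) (nat_lit 4) (nat_lit 1) (nat_lit 4) (nat_lit 299) (nat_lit 183) (nat_lit 178)) (XT.nd (nat_lit 78) (nat_lit 0) (nat_lit 0) (XT.lf (nat_lit 0) (nat_lit 127941881194898) (nat_lit 152) (nat_lit 247058745033963) (nat_lit 0) (nat_lit 127941841560992) (nat_lit 1) (nat_lit 5) (nat_lit 3) (nat_lit 4) (nat_lit 1) (nat_lit 4) (nat_lit 313) (nat_lit 183) (nat_lit 164)) (XT.lf (nat_lit 0) (nat_lit 147133211348282) (nat_lit 152) (nat_lit 284117447076636) (nat_lit 0) (nat_lit 147133171323678) (nat_lit 1) (nat_lit 5) (nat_lit 3) (nat_lit 4) (nat_lit 1) (nat_lit 4) (nat_lit 314) (nat_lit 183) (nat_lit 163)))))) (XT.nd (nat_lit 32760) (nat_lit 0) (nat_lit 0) (XT.nd (nat_lit 32604) (nat_lit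 0) (nat_lit 0) (XT.nd (nat_lit 78) (nat_lit 0) (nat_lit 0) (XT.lf (nat_lit 0) (nat_lit 169203240201258) (nat_lit 152) (nat_lit 326734956087316) (nat_lit 0) (nat_lit 169203199836916) (nat_lit 1) (nat_lit 5) (nat_lit 3) (nat_lit 4) (nat_lit 1) (nat_lit 4) (nat_lit 315) (nat_lit 183) (nat_lit 162)) (XT.lf (nat_lit 0) (nat_lit 194583772666166) (nat_lit 152) (nat_lit 375745092894473) (nat_lit 0) (nat_lit 194583732006399) (nat_lit 1) (nat_lit 5) (nat_lit 3) (nat_lit 4) (nat_lit 1) (nat_lit 4) (nat_lit 316) (nat_lit 183) (nat_lit 161))) (XT.nd (nat_lit 78) (nat_lit 0) (nat_lit 0) (XT.lf (nat_lit 0) (nat_lit 3398483465283) (nat_lit 152) (nat_lit 6563924315283) (nat_lit 0) (nat_lit 3398483465283) (nat_lit 1) (nat_lit 5) (nat_lit 3) (nat_lit 4) (nat_lit 1) (nat_lit 4) (nat_lit 292) (nat_lit 184) (nat_lit 184)) (XT.lf (nat_lit 0) (nat_lit 7816663200337) (nat_lit 152) (nat_lit 15096705912779) (nat_lit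 0) (nat_lit 7816656805947) (nat_lit 1) (nat_lit 5) (nat_lit 3) (nat_lit 4) (nat_lit 1) (nat_lit 4) (nat_lit 293) (nat_lit 184) (nat_lit 183)))) (XT.nd (nat_lit 156) (nat_lit 0) (nat_lit 0) (XT.nd (nat_lit 78) (nat_lit 0) (nat_lit 0) (XT.lf (nat_lit 0) (nat_lit 8989300434091) (nat_lit 152) (nat_lit 17360918982051) (nat_lit 0) (nat_lit 8989288479363) (nat_lit 1) (nat_lit 5) (nat_lit 3) (nat_lit 4) (nat_lit 1) (nat_lit 4) (nat_lit 294) (nat_lit 184) (nat_lit 182)) (XT.lf (nat_lit 0) (nat_lit 10337821534227) (nat_lit 152) (nat_lit 19964787659303) (nat_lit 0) (nat_lit 10337804744421) (nat_lit 1) (nat_lit 5) (nat_lit 3) (nat_lit 4) (nat_lit 1) (nat_lit 4) (nat_lit 295) (nat_lit 184) (nat_lit 181))) (XT.nd (nat_lit 78) (nat_lit 0) (nat_lit 0) (XT.lf (nat_lit 0) (nat_lit 11888610609225) (nat_lit 152) (nat_lit 22959257201263) (nat_lit 0) (nat_lit 11888589615005) (nat_lit 1) (nat_lit 5) (nat_lit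 3) (nat_lit 4) (nat_lit 1) (nat_lit 4) (nat_lit 296) (nat_lit 184) (nat_lit 180)) (XT.nd (nat_lit 78) (nat_lit 0) (nat_lit 0) (XT.lf (nat_lit 0) (nat_lit 13672009184467) (nat_lit 152) (nat_lit 26402915055492) (nat_lit 0) (nat_lit 13671984534233) (nat_lit 1) (nat_lit 5) (nat_lit 3) (nat_lit 4) (nat_lit 1) (nat_lit 4) (nat_lit 297) (nat_lit 184) (nat_lit 179)) (XT.lf (nat_lit 0) (nat_lit 15722909840772) (nat_lit 152) (nat_lit 30363137136529) (nat_lit 0) (nat_lit 15722882011396) (nat_lit 1) (nat_lit 5) (nat_lit 3) (nat_lit 4) (nat_lit 1) (nat_lit 4) (nat_lit 298) (nat_lit 184) (nat_lit 178))))))) (XT.nd (nat_lit 34008) (nat_lit 0) (nat_lit 0) (XT.nd (nat_lit 1326) (nat_lit 0) (nat_lit 0) (XT.nd (nat_lit 1170) (nat_lit 0) (nat_lit 0) (XT.nd (nat_lit 1092) (nat_lit 0) (nat_lit 0) (XT.lf (nat_lit 0) (nat_lit 18081438895329) (nat_lit 152) (nat_lit 34917406050307) (nat_lit 0) (nat_lit 18081408301482)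 (nat_lit 1) (nat_lit 5) (nat_lit 3) (nat_lit 4) (nat_lit 1) (nat_lit 4) (nat_lit 299) (nat_lit 184) (nat_lit 177)) (XT.lf (nat_lit 0) (nat_lit 127941842469825) (nat_lit 152) (nat_lit 247058836082305) (nat_lit 0) (nat_lit 127941796050831) (nat_lit 1) (nat_lit 5) (nat_lit 3) (nat_lit 4) (nat_lit 1) (nat_lit 4) (nat_lit 313) (nat_lit 184) (nat_lit 163))) (XT.nd (nat_lit 78) (nat_lit 0) (nat_lit 0) (XT.lf (nat_lit 0) (nat_lit 147133172240226) (nat_lit 152) (nat_lit 284117538897818) (nat_lit 0) (nat_lit 147133125481493) (nat_lit 1) (nat_lit 5) (nat_lit 3) (nat_lit 4) (nat_lit 1) (nat_lit 4) (nat_lit 314) (nat_lit 184) (nat_lit 162)) (XT.lf (nat_lit 0) (nat_lit 169203200760172) (nat_lit 152) (nat_lit 326735048580532) (nat_lit 0) (nat_lit 169203153706015) (nat_lit 1) (nat_lit 5) (nat_lit 3) (nat_lit 4) (nat_lit 1) (nat_lit 4) (nat_lit 315) (nat_lit 184) (nat_lit 161)))) (XT.nd (nat_lit 32448)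 (nat_lit 0) (nat_lit 0) (XT.nd (nat_lit 32370) (nat_lit 0) (nat_lit 0) (XT.lf (nat_lit 0) (nat_lit 194583732935489) (nat_lit 152) (nat_lit 375745185972067) (nat_lit 0) (nat_lit 194583685624439) (nat_lit 1) (nat_lit 5) (nat_lit 3) (nat_lit 4) (nat_lit 1) (nat_lit 4) (nat_lit 316) (nat_lit 184) (nat_lit 160)) (XT.lf (nat_lit 0) (nat_lit 2569606297573) (nat_lit 152) (nat_lit 4963562621261) (nat_lit 0) (nat_lit 2569606297573) (nat_lit 1) (nat_lit 5) (nat_lit 3) (nat_lit 4) (nat_lit 1) (nat_lit 4) (nat_lit 290) (nat_lit 185) (nat_lit 185))) (XT.nd (nat_lit 78) (nat_lit 0) (nat_lit 0) (XT.lf (nat_lit 0) (nat_lit 5910268399133) (nat_lit 152) (nat_lit 11415826014674) (nat_lit 0) (nat_lit 5910261045585) (nat_lit 1) (nat_lit 5) (nat_lit 3) (nat_lit 4) (nat_lit 1) (nat_lit 4) (nat_lit 291) (nat_lit 185) (nat_lit 184)) (XT.nd (nat_lit 78) (nat_lit 0) (nat_lit 0) (XT.lf (nat_lit 0) (nat_lit 6796967075762)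 (nat_lit 152) (nat_lit 13127863176583) (nat_lit 0) (nat_lit 6796953327824) (nat_lit 1) (nat_lit 5) (nat_lit 3) (nat_lit 4) (nat_lit 1) (nat_lit 4) (nat_lit 292) (nat_lit 185) (nat_lit 183)) (XT.lf (nat_lit 0) (nat_lit 7816657077402) (nat_lit 152) (nat_lit 15096733107506) (nat_lit 0) (nat_lit 7816637769125) (nat_lit 1) (nat_lit 5) (nat_lit 3) (nat_lit 4) (nat_lit 1) (nat_lit 4) (nat_lit 293) (nat_lit 185) (nat_lit 182)))))) (XT.nd (nat_lit 312) (nat_lit 0) (nat_lit 0) (XT.nd (nat_lit 156) (nat_lit 0) (nat_lit 0) (XT.nd (nat_lit 78) (nat_lit 0) (nat_lit 0) (XT.lf (nat_lit 0) (nat_lit 8989288860606) (nat_lit 152) (nat_lit 17360957175657) (nat_lit 0) (nat_lit 8989264717252) (nat_lit 1) (nat_lit 5) (nat_lit 3) (nat_lit 4) (nat_lit 1) (nat_lit 4) (nat_lit 294) (nat_lit 185) (nat_lit 181)) (XT.lf (nat_lit 0) (nat_lit 10337805221134) (nat_lit 152) (nat_lit 19964835417151) (nat_lit 0) (nat_lit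 10337776873365) (nat_lit 1) (nat_lit 5) (nat_lit 3) (nat_lit 4) (nat_lit 1) (nat_lit 4) (nat_lit 295) (nat_lit 185) (nat_lit 180))) (XT.nd (nat_lit 78) (nat_lit 0) (nat_lit 0) (XT.lf (nat_lit 0) (nat_lit 11888590174734) (nat_lit 152) (nat_lit 22959313275843) (nat_lit 0) (nat_lit 11888558170952) (nat_lit 1) (nat_lit 5) (nat_lit 3) (nat_lit 4) (nat_lit 1) (nat_lit 4) (nat_lit 296) (nat_lit 185) (nat_lit 179)) (XT.lf (nat_lit 0) (nat_lit 13671985166151) (nat_lit 152) (nat_lit 26402978362013) (nat_lit 0) (nat_lit 13671949983228) (nat_lit 1) (nat_lit 5) (nat_lit 3) (nat_lit 4) (nat_lit 1) (nat_lit 4) (nat_lit 297) (nat_lit 185) (nat_lit 178)))) (XT.nd (nat_lit 1092) (nat_lit 0) (nat_lit 0) (XT.nd (nat_lit 78) (nat_lit 0) (nat_lit 0) (XT.lf (nat_lit 0) (nat_lit 15722882706087) (nat_lit 152) (nat_lit 30363206731695) (nat_lit 0) (nat_lit 15722844758692) (nat_lit 1) (nat_lit 5) (nat_lit 3) (nat_lit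 4) (nat_lit 1) (nat_lit 4) (nat_lit 298) (nat_lit 185) (nat_lit 177)) (XT.lf (nat_lit 0) (nat_lit 18081409050757) (nat_lit 152) (nat_lit 34917481113860) (nat_lit 0) (nat_lit 18081368699474) (nat_lit 1) (nat_lit 5) (nat_lit 3) (nat_lit 4) (nat_lit 1) (nat_lit 4) (nat_lit 299) (nat_lit 185) (nat_lit 176))) (XT.nd (nat_lit 78) (nat_lit 0) (nat_lit 0) (XT.lf (nat_lit 0) (nat_lit 111253683935718) (nat_lit 152) (nat_lit 214833984151526) (nat_lit 0) (nat_lit 111253630163177) (nat_lit 1) (nat_lit 5) (nat_lit 3) (nat_lit 4) (nat_lit 1) (nat_lit 4) (nat_lit 312) (nat_lit 185) (nat_lit 163)) (XT.nd (nat_lit 78) (nat_lit 0) (nat_lit 0) (XT.lf (nat_lit 0) (nat_lit 127941797112575) (nat_lit 152) (nat_lit 247058942449503) (nat_lit 0) (nat_lit 127941743000295) (nat_lit 1) (nat_lit 5) (nat_lit 3) (nat_lit 4) (nat_lit 1) (nat_lit 4) (nat_lit 313) (nat_lit 185) (nat_lit 162)) (XT.lf (nat_lit 0) (nat_lit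 147133126549945) (nat_lit 152) (nat_lit 284117645937050) (nat_lit 0) (nat_lit 147133072142240) (nat_lit 1) (nat_lit 5) (nat_lit 3) (nat_lit 4) (nat_lit 1) (nat_lit 4) (nat_lit 314) (nat_lit 185) (nat_lit 161))))))))
noncomputable def xc2 : XT := (XT.nd (nat_lit 66690) (nat_lit 0) (nat_lit 0) (XT.nd (nat_lit 32838) (nat_lit 0) (nat_lit 0) (XT.nd (nat_lit 32526) (nat_lit 0) (nat_lit 0) (XT.nd (nat_lit 32370) (nat_lit 0) (nat_lit 0) (XT.nd (nat_lit 32292) (nat_lit 0) (nat_lit 0) (XT.lf (nat_lit 0) (nat_lit 169203154780300) (nat_lit 152) (nat_lit 326735156204143) (nat_lit 0) (nat_lit 169203100115704) (nat_lit 1) (nat_lit 5) (nat_lit 3) (nat_lit 4) (nat_lit 1) (nat_lit 4) (nat_lit 315) (nat_lit 185) (nat_lit 160)) (XT.lf (nat_lit 0) (nat_lit 1942835758276) (nat_lit 152) (nat_lit 3753503183589) (nat_lit 0) (nat_lit 1942835758276) (nat_lit 1) (nat_lit 5) (nat_lit 3) (nat_lit 4) (nat_lit 1)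 (nat_lit 4) (nat_lit 288) (nat_lit 186) (nat_lit 186))) (XT.nd (nat_lit 78) (nat_lit 0) (nat_lit 0) (XT.lf (nat_lit 0) (nat_lit 4468722245957) (nat_lit 152) (nat_lit 8632634105894) (nat_lit 0) (nat_lit 4468713789376) (nat_lit 1) (nat_lit 5) (nat_lit 3) (nat_lit 4) (nat_lit 1) (nat_lit 4) (nat_lit 289) (nat_lit 186) (nat_lit 185)) (XT.lf (nat_lit 0) (nat_lit 5139212762123) (nat_lit 152) (nat_lit 9927141970443) (nat_lit 0) (nat_lit 5139196951994) (nat_lit 1) (nat_lit 5) (nat_lit 3) (nat_lit 4) (nat_lit 1) (nat_lit 4) (nat_lit 290) (nat_lit 186) (nat_lit 184)))) (XT.nd (nat_lit 156) (nat_lit 0) (nat_lit 0) (XT.nd (nat_lit 78) (nat_lit 0) (nat_lit 0) (XT.lf (nat_lit 0) (nat_lit 5910261357758) (nat_lit 152) (nat_lit 11415857288610) (nat_lit 0) (nat_lit 5910239153240) (nat_lit 1) (nat_lit 5) (nat_lit 3) (nat_lit 4) (nat_lit 1) (nat_lit 4) (nat_lit 291) (nat_lit 186) (nat_lit 183)) (XT.lf (nat_lit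 0) (nat_lit 6796953766255) (nat_lit 152) (nat_lit 13127907099230) (nat_lit 0) (nat_lit 6796926001398) (nat_lit 1) (nat_lit 5) (nat_lit 3) (nat_lit 4) (nat_lit 1) (nat_lit 4) (nat_lit 292) (nat_lit 186) (nat_lit 182))) (XT.nd (nat_lit 78) (nat_lit 0) (nat_lit 0) (XT.lf (nat_lit 0) (nat_lit 7816638317345) (nat_lit 152) (nat_lit 15096788029031) (nat_lit 0) (nat_lit 7816605717411) (nat_lit 1) (nat_lit 5) (nat_lit 3) (nat_lit 4) (nat_lit 1) (nat_lit 4) (nat_lit 293) (nat_lit 186) (nat_lit 181)) (XT.lf (nat_lit 0) (nat_lit 8989265360941) (nat_lit 152) (nat_lit 17361021661424) (nat_lit 0) (nat_lit 8989228556592) (nat_lit 1) (nat_lit 5) (nat_lit 3) (nat_lit 4) (nat_lit 1) (nat_lit 4) (nat_lit 294) (nat_lit 186) (nat_lit 180))))) (XT.nd (nat_lit 312) (nat_lit 0) (nat_lit 0) (XT.nd (nat_lit 156) (nat_lit 0) (nat_lit 0) (XT.nd (nat_lit 78) (nat_lit 0) (nat_lit 0) (XT.lf (nat_lit 0) (nat_lit 10337777600071)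 (nat_lit 152) (nat_lit 19964908219651) (nat_lit 0) (nat_lit 10337737139708) (nat_lit 1) (nat_lit 5) (nat_lit 3) (nat_lit 4) (nat_lit 1) (nat_lit 4) (nat_lit 295) (nat_lit 186) (nat_lit 179)) (XT.lf (nat_lit 0) (nat_lit 11888558969846) (nat_lit 152) (nat_lit 22959393310285) (nat_lit 0) (nat_lit 11888515330342) (nat_lit 1) (nat_lit 5) (nat_lit 3) (nat_lit 4) (nat_lit 1) (nat_lit 4) (nat_lit 296) (nat_lit 186) (nat_lit 178))) (XT.nd (nat_lit 78) (nat_lit 0) (nat_lit 0) (XT.lf (nat_lit 0) (nat_lit 13671950844894) (nat_lit 152) (nat_lit 26403064685099) (nat_lit 0) (nat_lit 13671904440919) (nat_lit 1) (nat_lit 5) (nat_lit 3) (nat_lit 4) (nat_lit 1) (nat_lit 4) (nat_lit 297) (nat_lit 186) (nat_lit 177)) (XT.lf (nat_lit 0) (nat_lit 15722845674943) (nat_lit 152) (nat_lit 30363298523167) (nat_lit 0) (nat_lit 15722796867080) (nat_lit 1) (nat_lit 5) (nat_lit 3) (nat_lit 4) (nat_lit 1) (nat_lit 4)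 (nat_lit 298) (nat_lit 186) (nat_lit 176)))) (XT.nd (nat_lit 1170) (nat_lit 0) (nat_lit 0) (XT.nd (nat_lit 1092) (nat_lit 0) (nat_lit 0) (XT.lf (nat_lit 0) (nat_lit 18081369663190) (nat_lit 152) (nat_lit 34917577660451) (nat_lit 0) (nat_lit 18081318764990) (nat_lit 1) (nat_lit 5) (nat_lit 3) (nat_lit 4) (nat_lit 1) (nat_lit 4) (nat_lit 299) (nat_lit 186) (nat_lit 175)) (XT.lf (nat_lit 0) (nat_lit 127941744235723) (nat_lit 152) (nat_lit 247059066216655) (nat_lit 0) (nat_lit 127941681371438) (nat_lit 1) (nat_lit 5) (nat_lit 3) (nat_lit 4) (nat_lit 1) (nat_lit 4) (nat_lit 313) (nat_lit 186) (nat_lit 161))) (XT.nd (nat_lit 32214) (nat_lit 0) (nat_lit 0) (XT.lf (nat_lit 0) (nat_lit 147133073383502) (nat_lit 152) (nat_lit 284117770288580) (nat_lit 0) (nat_lit 147133010262326) (nat_lit 1) (nat_lit 5) (nat_lit 3) (nat_lit 4) (nat_lit 1) (nat_lit 4) (nat_lit 314) (nat_lit 186) (nat_lit 160))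 (XT.nd (nat_lit 78) (nat_lit 0) (nat_lit 0) (XT.lf (nat_lit 0) (nat_lit 1468883818476) (nat_lit 152) (nat_lit 2838574913785) (nat_lit 0) (nat_lit 1468883818476) (nat_lit 1) (nat_lit 5) (nat_lit 3) (nat_lit 4) (nat_lit 1) (nat_lit 4) (nat_lit 286) (nat_lit 187) (nat_lit 187)) (XT.lf (nat_lit 0) (nat_lit 3378662784705) (nat_lit 152) (nat_lit 6528235602889) (nat_lit 0) (nat_lit 3378653059638) (nat_lit 1) (nat_lit 5) (nat_lit 3) (nat_lit 4) (nat_lit 1) (nat_lit 4) (nat_lit 287) (nat_lit 187) (nat_lit 186))))))) (XT.nd (nat_lit 702) (nat_lit 0) (nat_lit 0) (XT.nd (nat_lit 312) (nat_lit 0) (nat_lit 0) (XT.nd (nat_lit 156) (nat_lit 0) (nat_lit 0) (XT.nd (nat_lit 78) (nat_lit 0) (nat_lit 0) (XT.lf (nat_lit 0) (nat_lit 3885671708574) (nat_lit 152) (nat_lit 7507025604286) (nat_lit 0) (nat_lit 3885653526927) (nat_lit 1) (nat_lit 5) (nat_lit 3) (nat_lit 4) (nat_lit 1) (nat_lit 4) (nat_lit 288) (nat_lit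 187) (nat_lit 185)) (XT.lf (nat_lit 0) (nat_lit 4468714148375) (nat_lit 152) (nat_lit 8632670070921) (nat_lit 0) (nat_lit 4468688613179) (nat_lit 1) (nat_lit 5) (nat_lit 3) (nat_lit 4) (nat_lit 1) (nat_lit 4) (nat_lit 289) (nat_lit 187) (nat_lit 184))) (XT.nd (nat_lit 78) (nat_lit 0) (nat_lit 0) (XT.lf (nat_lit 0) (nat_lit 5139197456189) (nat_lit 152) (nat_lit 9927192481486) (nat_lit 0) (nat_lit 5139165526604) (nat_lit 1) (nat_lit 5) (nat_lit 3) (nat_lit 4) (nat_lit 1) (nat_lit 4) (nat_lit 290) (nat_lit 187) (nat_lit 183)) (XT.lf (nat_lit 0) (nat_lit 5910239783692) (nat_lit 152) (nat_lit 11415920448364) (nat_lit 0) (nat_lit 5910202293768) (nat_lit 1) (nat_lit 5) (nat_lit 3) (nat_lit 4) (nat_lit 1) (nat_lit 4) (nat_lit 291) (nat_lit 187) (nat_lit 182)))) (XT.nd (nat_lit 156) (nat_lit 0) (nat_lit 0) (XT.nd (nat_lit 78) (nat_lit 0) (nat_lit 0) (XT.lf (nat_lit 0) (nat_lit 6796926741640)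 (nat_lit 152) (nat_lit 13127981257862) (nat_lit 0) (nat_lit 6796884416639) (nat_lit 1) (nat_lit 5) (nat_lit 3) (nat_lit 4) (nat_lit 1) (nat_lit 4) (nat_lit 292) (nat_lit 187) (nat_lit 181)) (XT.lf (nat_lit 0) (nat_lit 7816606553122) (nat_lit 152) (nat_lit 15096871751906) (nat_lit 0) (nat_lit 7816560023706) (nat_lit 1) (nat_lit 5) (nat_lit 3) (nat_lit 4) (nat_lit 1) (nat_lit 4) (nat_lit 293) (nat_lit 187) (nat_lit 180))) (XT.nd (nat_lit 78) (nat_lit 0) (nat_lit 0) (XT.lf (nat_lit 0) (nat_lit 8989229475320) (nat_lit 152) (nat_lit 17361113701032) (nat_lit 0) (nat_lit 8989179289891) (nat_lit 1) (nat_lit 5) (nat_lit 3) (nat_lit 4) (nat_lit 1) (nat_lit 4) (nat_lit 294) (nat_lit 187) (nat_lit 179)) (XT.nd (nat_lit 78) (nat_lit 0) (nat_lit 0) (XT.lf (nat_lit 0) (nat_lit 10337738130625) (nat_lit 152) (nat_lit 19965007491199) (nat_lit 0) (nat_lit 10337684766053) (nat_lit 1) (nat_lit 5) (nat_lit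 3) (nat_lit 4) (nat_lit 1) (nat_lit 4) (nat_lit 295) (nat_lit 187) (nat_lit 178)) (XT.lf (nat_lit 0) (nat_lit 11888516384031) (nat_lit 152) (nat_lit 22959498870478) (nat_lit 0) (nat_lit 11888460254988) (nat_lit 1) (nat_lit 5) (nat_lit 3) (nat_lit 4) (nat_lit 1) (nat_lit 4) (nat_lit 296) (nat_lit 187) (nat_lit 177)))))) (XT.nd (nat_lit 312) (nat_lit 0) (nat_lit 0) (XT.nd (nat_lit 156) (nat_lit 0) (nat_lit 0) (XT.nd (nat_lit 78) (nat_lit 0) (nat_lit 0) (XT.lf (nat_lit 0) (nat_lit 13671905549192) (nat_lit 152) (nat_lit 26403175713679) (nat_lit 0) (nat_lit 13671847016262) (nat_lit 1) (nat_lit 5) (nat_lit 3) (nat_lit 4) (nat_lit 1) (nat_lit 4) (nat_lit 297) (nat_lit 187) (nat_lit 176)) (XT.lf (nat_lit 0) (nat_lit 15722798022818) (nat_lit 152) (nat_lit 30363414306866) (nat_lit 0) (nat_lit 15722737399551) (nat_lit 1) (nat_lit 5) (nat_lit 3) (nat_lit 4) (nat_lit 1) (nat_lit 4) (nat_lit 298)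 (nat_lit 187) (nat_lit 175))) (XT.nd (nat_lit 78) (nat_lit 0) (nat_lit 0) (XT.lf (nat_lit 0) (nat_lit 18081319962002) (nat_lit 152) (nat_lit 34917697579035) (nat_lit 0) (nat_lit 18081257521050) (nat_lit 1) (nat_lit 5) (nat_lit 3) (nat_lit 4) (nat_lit 1) (nat_lit 4) (nat_lit 299) (nat_lit 187) (nat_lit 174)) (XT.lf (nat_lit 0) (nat_lit 20793616361206) (nat_lit 152) (nat_lit 40155131072468) (nat_lit 0) (nat_lit 20793552339659) (nat_lit 1) (nat_lit 5) (nat_lit 3) (nat_lit 4) (nat_lit 1) (nat_lit 4) (nat_lit 300) (nat_lit 187) (nat_lit 173)))) (XT.nd (nat_lit 156) (nat_lit 0) (nat_lit 0) (XT.nd (nat_lit 78) (nat_lit 0) (nat_lit 0) (XT.lf (nat_lit 0) (nat_lit 23912753889110) (nat_lit 152) (nat_lit 46178186312037) (nat_lit 0) (nat_lit 23912688493132) (nat_lit 1) (nat_lit 5) (nat_lit 3) (nat_lit 4) (nat_lit 1) (nat_lit 4) (nat_lit 301) (nat_lit 187) (nat_lit 172)) (XT.lf (nat_lit 0) (nat_lit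 27499759149521) (nat_lit 152) (nat_lit 53104705682864) (nat_lit 0) (nat_lit 27499692558385) (nat_lit 1) (nat_lit 5) (nat_lit 3) (nat_lit 4) (nat_lit 1) (nat_lit 4) (nat_lit 302) (nat_lit 187) (nat_lit 171))) (XT.nd (nat_lit 78) (nat_lit 0) (nat_lit 0) (XT.lf (nat_lit 0) (nat_lit 31624812680142) (nat_lit 152) (nat_lit 61070208042204) (nat_lit 0) (nat_lit 31624745049739) (nat_lit 1) (nat_lit 5) (nat_lit 3) (nat_lit 4) (nat_lit 1) (nat_lit 4) (nat_lit 303) (nat_lit 187) (nat_lit 170)) (XT.nd (nat_lit 32838) (nat_lit 0) (nat_lit 0) (XT.lf (nat_lit 0) (nat_lit 36368622050051) (nat_lit 152) (nat_lit 70230540175348) (nat_lit 0) (nat_lit 36368553515938) (nat_lit 1) (nat_lit 5) (nat_lit 3) (nat_lit 4) (nat_lit 1) (nat_lit 4) (nat_lit 304) (nat_lit 187) (nat_lit 169)) (XT.lf (nat_lit 0) (nat_lit 1110481190082) (nat_lit 152) (nat_lit 2146815784241) (nat_lit 0) (nat_lit 1110481190082) (nat_lit 1)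 (nat_lit 5) (nat_lit 3) (nat_lit 4) (nat_lit 1) (nat_lit 4) (nat_lit 284) (nat_lit 188) (nat_lit 188))))))))
noncomputable def xc3 : XT := (XT.nd (nat_lit 1404) (nat_lit 0) (nat_lit 0) (XT.nd (nat_lit 702) (nat_lit 0) (nat_lit 0) (XT.nd (nat_lit 312) (nat_lit 0) (nat_lit 0) (XT.nd (nat_lit 156) (nat_lit 0) (nat_lit 0) (XT.nd (nat_lit 78) (nat_lit 0) (nat_lit 0) (XT.lf (nat_lit 0) (nat_lit 2554371239730) (nat_lit 152) (nat_lit 4937116600117) (nat_lit 0) (nat_lit 2554360055903) (nat_lit 1) (nat_lit 5) (nat_lit 3) (nat_lit 4) (nat_lit 1) (nat_lit 4) (nat_lit 285) (nat_lit 188) (nat_lit 187)) (XT.lf (nat_lit 0) (nat_lit 2937767857778) (nat_lit 152) (nat_lit 5677171950243) (nat_lit 0) (nat_lit 2937746948883) (nat_lit 1) (nat_lit 5) (nat_lit 3) (nat_lit 4) (nat_lit 1) (nat_lit 4) (nat_lit 286) (nat_lit 188) (nat_lit 186))) (XT.nd (nat_lit 78) (nat_lit 0) (nat_lit 0) (XT.lf (nat_lit 0) (nat_lit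 3378653472486) (nat_lit 152) (nat_lit 6528276962670) (nat_lit 0) (nat_lit 3378624107011) (nat_lit 1) (nat_lit 5) (nat_lit 3) (nat_lit 4) (nat_lit 1) (nat_lit 4) (nat_lit 287) (nat_lit 188) (nat_lit 185)) (XT.lf (nat_lit 0) (nat_lit 3885654106751) (nat_lit 152) (nat_lit 7507083691987) (nat_lit 0) (nat_lit 3885617387727) (nat_lit 1) (nat_lit 5) (nat_lit 3) (nat_lit 4) (nat_lit 1) (nat_lit 4) (nat_lit 288) (nat_lit 188) (nat_lit 184)))) (XT.nd (nat_lit 156) (nat_lit 0) (nat_lit 0) (XT.nd (nat_lit 78) (nat_lit 0) (nat_lit 0) (XT.lf (nat_lit 0) (nat_lit 4468689338200) (nat_lit 152) (nat_lit 8632742704638) (nat_lit 0) (nat_lit 4468646224787) (nat_lit 1) (nat_lit 5) (nat_lit 3) (nat_lit 4) (nat_lit 1) (nat_lit 4) (nat_lit 289) (nat_lit 188) (nat_lit 183)) (XT.lf (nat_lit 0) (nat_lit 5139166377882) (nat_lit 152) (nat_lit 9927277763914) (nat_lit 0) (nat_lit 5139117704130) (nat_lit 1) (nat_lit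 5) (nat_lit 3) (nat_lit 4) (nat_lit 1) (nat_lit 4) (nat_lit 290) (nat_lit 188) (nat_lit 182))) (XT.nd (nat_lit 78) (nat_lit 0) (nat_lit 0) (XT.lf (nat_lit 0) (nat_lit 5910203254836) (nat_lit 152) (nat_lit 11416016729670) (nat_lit 0) (nat_lit 5910149746007) (nat_lit 1) (nat_lit 5) (nat_lit 3) (nat_lit 4) (nat_lit 1) (nat_lit 4) (nat_lit 291) (nat_lit 188) (nat_lit 181)) (XT.nd (nat_lit 78) (nat_lit 0) (nat_lit 0) (XT.lf (nat_lit 0) (nat_lit 6796885473176) (nat_lit 152) (nat_lit 13128087103411) (nat_lit 0) (nat_lit 6796827759932) (nat_lit 1) (nat_lit 5) (nat_lit 3) (nat_lit 4) (nat_lit 1) (nat_lit 4) (nat_lit 292) (nat_lit 188) (nat_lit 180)) (XT.lf (nat_lit 0) (nat_lit 7816561163259) (nat_lit 152) (nat_lit 15096985914187) (nat_lit 0) (nat_lit 7816499794002) (nat_lit 1) (nat_lit 5) (nat_lit 3) (nat_lit 4) (nat_lit 1) (nat_lit 4) (nat_lit 293) (nat_lit 188) (nat_lit 179)))))) (XT.nd (nat_lit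 312) (nat_lit 0) (nat_lit 0) (XT.nd (nat_lit 156) (nat_lit 0) (nat_lit 0) (XT.nd (nat_lit 78) (nat_lit 0) (nat_lit 0) (XT.lf (nat_lit 0) (nat_lit 8989180501633) (nat_lit 152) (nat_lit 17361235095254) (nat_lit 0) (nat_lit 8989115953234) (nat_lit 1) (nat_lit 5) (nat_lit 3) (nat_lit 4) (nat_lit 1) (nat_lit 4) (nat_lit 294) (nat_lit 188) (nat_lit 178)) (XT.lf (nat_lit 0) (nat_lit 10337686040568) (nat_lit 152) (nat_lit 19965135174066) (nat_lit 0) (nat_lit 10337618727698) (nat_lit 1) (nat_lit 5) (nat_lit 3) (nat_lit 4) (nat_lit 1) (nat_lit 4) (nat_lit 295) (nat_lit 188) (nat_lit 177))) (XT.nd (nat_lit 78) (nat_lit 0) (nat_lit 0) (XT.lf (nat_lit 0) (nat_lit 11888461584087) (nat_lit 152) (nat_lit 22959632021731) (nat_lit 0) (nat_lit 11888391867330) (nat_lit 1) (nat_lit 5) (nat_lit 3) (nat_lit 4) (nat_lit 1) (nat_lit 4) (nat_lit 296) (nat_lit 188) (nat_lit 176)) (XT.lf (nat_lit 0) (nat_lit 13671848392826)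 (nat_lit 152) (nat_lit 26403313620051) (nat_lit 0) (nat_lit 13671776585731) (nat_lit 1) (nat_lit 5) (nat_lit 3) (nat_lit 4) (nat_lit 1) (nat_lit 4) (nat_lit 297) (nat_lit 188) (nat_lit 175)))) (XT.nd (nat_lit 156) (nat_lit 0) (nat_lit 0) (XT.nd (nat_lit 78) (nat_lit 0) (nat_lit 0) (XT.lf (nat_lit 0) (nat_lit 15722738817389) (nat_lit 152) (nat_lit 30363556348123) (nat_lit 0) (nat_lit 15722665192609) (nat_lit 1) (nat_lit 5) (nat_lit 3) (nat_lit 4) (nat_lit 1) (nat_lit 4) (nat_lit 298) (nat_lit 188) (nat_lit 174)) (XT.lf (nat_lit 0) (nat_lit 18081258974779) (nat_lit 152) (nat_lit 34917843215845) (nat_lit 0) (nat_lit 18081183769403) (nat_lit 1) (nat_lit 5) (nat_lit 3) (nat_lit 4) (nat_lit 1) (nat_lit 4) (nat_lit 299) (nat_lit 188) (nat_lit 173))) (XT.nd (nat_lit 78) (nat_lit 0) (nat_lit 0) (XT.lf (nat_lit 0) (nat_lit 20793553824596) (nat_lit 152) (nat_lit 40155279835847) (nat_lit 0) (nat_lit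 20793477244790) (nat_lit 1) (nat_lit 5) (nat_lit 3) (nat_lit 4) (nat_lit 1) (nat_lit 4) (nat_lit 300) (nat_lit 188) (nat_lit 172)) (XT.nd (nat_lit 78) (nat_lit 0) (nat_lit 0) (XT.lf (nat_lit 0) (nat_lit 23912690005208) (nat_lit 152) (nat_lit 46178337794170) (nat_lit 0) (nat_lit 23912612230245) (nat_lit 1) (nat_lit 5) (nat_lit 3) (nat_lit 4) (nat_lit 1) (nat_lit 4) (nat_lit 301) (nat_lit 188) (nat_lit 171)) (XT.lf (nat_lit 0) (nat_lit 27499694094060) (nat_lit 152) (nat_lit 53104859529132) (nat_lit 0) (nat_lit 27499615279829) (nat_lit 1) (nat_lit 5) (nat_lit 3) (nat_lit 4) (nat_lit 1) (nat_lit 4) (nat_lit 302) (nat_lit 188) (nat_lit 170))))))) (XT.nd (nat_lit 33228) (nat_lit 0) (nat_lit 0) (XT.nd (nat_lit 32838) (nat_lit 0) (nat_lit 0) (XT.nd (nat_lit 156) (nat_lit 0) (nat_lit 0) (XT.nd (nat_lit 78) (nat_lit 0) (nat_lit 0) (XT.lf (nat_lit 0) (nat_lit 31624746605934) (nat_lit 152) (nat_lit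 61070363944240) (nat_lit 0) (nat_lit 31624666887993) (nat_lit 1) (nat_lit 5) (nat_lit 3) (nat_lit 4) (nat_lit 1) (nat_lit 4) (nat_lit 303) (nat_lit 188) (nat_lit 169)) (XT.lf (nat_lit 0) (nat_lit 36368555089977) (nat_lit 152) (nat_lit 70230697865010) (nat_lit 0) (nat_lit 36368474586201) (nat_lit 1) (nat_lit 5) (nat_lit 3) (nat_lit 4) (nat_lit 1) (nat_lit 4) (nat_lit 304) (nat_lit 188) (nat_lit 168))) (XT.nd (nat_lit 32604) (nat_lit 0) (nat_lit 0) (XT.lf (nat_lit 0) (nat_lit 41823933190440) (nat_lit 152) (nat_lit 80765085215977) (nat_lit 0) (nat_lit 41823852003329) (nat_lit 1) (nat_lit 5) (nat_lit 3) (nat_lit 4) (nat_lit 1) (nat_lit 4) (nat_lit 305) (nat_lit 188) (nat_lit 167)) (XT.lf (nat_lit 0) (nat_lit 839446411191) (nat_lit 152) (nat_lit 1623813299998) (nat_lit 0) (nat_lit 839446411191) (nat_lit 1) (nat_lit 5) (nat_lit 3) (nat_lit 4) (nat_lit 1) (nat_lit 4) (nat_lit 282) (nat_lit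 189) (nat_lit 189)))) (XT.nd (nat_lit 156) (nat_lit 0) (nat_lit 0) (XT.nd (nat_lit 78) (nat_lit 0) (nat_lit 0) (XT.lf (nat_lit 0) (nat_lit 1931030923663) (nat_lit 152) (nat_lit 3734126930811) (nat_lit 0) (nat_lit 1931018062261) (nat_lit 1) (nat_lit 5) (nat_lit 3) (nat_lit 4) (nat_lit 1) (nat_lit 4) (nat_lit 283) (nat_lit 189) (nat_lit 188)) (XT.lf (nat_lit 0) (nat_lit 2220962634114) (nat_lit 152) (nat_lit 4293657009558) (nat_lit 0) (nat_lit 2220938588885) (nat_lit 1) (nat_lit 5) (nat_lit 3) (nat_lit 4) (nat_lit 1) (nat_lit 4) (nat_lit 284) (nat_lit 189) (nat_lit 187))) (XT.nd (nat_lit 78) (nat_lit 0) (nat_lit 0) (XT.lf (nat_lit 0) (nat_lit 2554360530678) (nat_lit 152) (nat_lit 4937164163865) (nat_lit 0) (nat_lit 2554326760382) (nat_lit 1) (nat_lit 5) (nat_lit 3) (nat_lit 4) (nat_lit 1) (nat_lit 4) (nat_lit 285) (nat_lit 189) (nat_lit 186)) (XT.nd (nat_lit 78) (nat_lit 0) (nat_lit 0)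 (XT.lf (nat_lit 0) (nat_lit 2937747615681) (nat_lit 152) (nat_lit 5677238751099) (nat_lit 0) (nat_lit 2937705388804) (nat_lit 1) (nat_lit 5) (nat_lit 3) (nat_lit 4) (nat_lit 1) (nat_lit 4) (nat_lit 286) (nat_lit 189) (nat_lit 185)) (XT.lf (nat_lit 0) (nat_lit 3378624940784) (nat_lit 152) (nat_lit 6528360491444) (nat_lit 0) (nat_lit 3378575360360) (nat_lit 1) (nat_lit 5) (nat_lit 3) (nat_lit 4) (nat_lit 1) (nat_lit 4) (nat_lit 287) (nat_lit 189) (nat_lit 184)))))) (XT.nd (nat_lit 312) (nat_lit 0) (nat_lit 0) (XT.nd (nat_lit 156) (nat_lit 0) (nat_lit 0) (XT.nd (nat_lit 78) (nat_lit 0) (nat_lit 0) (XT.lf (nat_lit 0) (nat_lit 3885618366698) (nat_lit 152) (nat_lit 7507181766779) (nat_lit 0) (nat_lit 3885562391883) (nat_lit 1) (nat_lit 5) (nat_lit 3) (nat_lit 4) (nat_lit 1) (nat_lit 4) (nat_lit 288) (nat_lit 189) (nat_lit 183)) (XT.lf (nat_lit 0) (nat_lit 4468647330015) (nat_lit 152) (nat_lit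 8632853428140) (nat_lit 0) (nat_lit 4468585794861) (nat_lit 1) (nat_lit 5) (nat_lit 3) (nat_lit 4) (nat_lit 1) (nat_lit 4) (nat_lit 289) (nat_lit 189) (nat_lit 182))) (XT.nd (nat_lit 78) (nat_lit 0) (nat_lit 0) (XT.lf (nat_lit 0) (nat_lit 5139118919148) (nat_lit 152) (nat_lit 9927399486295) (nat_lit 0) (nat_lit 5139052548917) (nat_lit 1) (nat_lit 5) (nat_lit 3) (nat_lit 4) (nat_lit 1) (nat_lit 4) (nat_lit 290) (nat_lit 189) (nat_lit 181)) (XT.lf (nat_lit 0) (nat_lit 5910151056494) (nat_lit 152) (nat_lit 11416148016293) (nat_lit 0) (nat_lit 5910080481848) (nat_lit 1) (nat_lit 5) (nat_lit 3) (nat_lit 4) (nat_lit 1) (nat_lit 4) (nat_lit 291) (nat_lit 189) (nat_lit 180)))) (XT.nd (nat_lit 156) (nat_lit 0) (nat_lit 0) (XT.nd (nat_lit 78) (nat_lit 0) (nat_lit 0) (XT.lf (nat_lit 0) (nat_lit 6796829153435) (nat_lit 152) (nat_lit 13128226706766) (nat_lit 0) (nat_lit 6796754922776) (nat_lit 1)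 (nat_lit 5) (nat_lit 3) (nat_lit 4) (nat_lit 1) (nat_lit 4) (nat_lit 292) (nat_lit 189) (nat_lit 179)) (XT.lf (nat_lit 0) (nat_lit 7816501259694) (nat_lit 152) (nat_lit 15097132749484) (nat_lit 0) (nat_lit 7816423849893) (nat_lit 1) (nat_lit 5) (nat_lit 3) (nat_lit 4) (nat_lit 1) (nat_lit 4) (nat_lit 293) (nat_lit 189) (nat_lit 178))) (XT.nd (nat_lit 78) (nat_lit 0) (nat_lit 0) (XT.lf (nat_lit 0) (nat_lit 8989117481698) (nat_lit 152) (nat_lit 17361388219195) (nat_lit 0) (nat_lit 8989037307426) (nat_lit 1) (nat_lit 5) (nat_lit 3) (nat_lit 4) (nat_lit 1) (nat_lit 4) (nat_lit 294) (nat_lit 189) (nat_lit 177)) (XT.nd (nat_lit 78) (nat_lit 0) (nat_lit 0) (XT.lf (nat_lit 0) (nat_lit 10337620310747) (nat_lit 152) (nat_lit 19965293766393) (nat_lit 0) (nat_lit 10337537732587) (nat_lit 1) (nat_lit 5) (nat_lit 3) (nat_lit 4) (nat_lit 1) (nat_lit 4) (nat_lit 295) (nat_lit 189) (nat_lit 176)) (XT.lf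 (nat_lit 0) (nat_lit 11888393497843) (nat_lit 152) (nat_lit 22959795369177) (nat_lit 0) (nat_lit 11888308829347) (nat_lit 1) (nat_lit 5) (nat_lit 3) (nat_lit 4) (nat_lit 1) (nat_lit 4) (nat_lit 296) (nat_lit 189) (nat_lit 175))))))))
noncomputable def xc4 : XT := (XT.nd (nat_lit 33696) (nat_lit 0) (nat_lit 0) (XT.nd (nat_lit 624) (nat_lit 0) (nat_lit 0) (XT.nd (nat_lit 312) (nat_lit 0) (nat_lit 0) (XT.nd (nat_lit 156) (nat_lit 0) (nat_lit 0) (XT.nd (nat_lit 78) (nat_lit 0) (nat_lit 0) (XT.lf (nat_lit 0) (nat_lit 13671778257519) (nat_lit 152) (nat_lit 26403481102383) (nat_lit 0) (nat_lit 13671691771337) (nat_lit 1) (nat_lit 5) (nat_lit 3) (nat_lit 4) (nat_lit 1) (nat_lit 4) (nat_lit 297) (nat_lit 189) (nat_lit 174)) (XT.lf (nat_lit 0) (nat_lit 15722666900287) (nat_lit 152) (nat_lit 30363727426008) (nat_lit 0) (nat_lit 15722578833510) (nat_lit 1) (nat_lit 5) (nat_lit 3) (nat_lit 4) (nat_lit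 1) (nat_lit 4) (nat_lit 298) (nat_lit 189) (nat_lit 173))) (XT.nd (nat_lit 78) (nat_lit 0) (nat_lit 0) (XT.lf (nat_lit 0) (nat_lit 18081185508291) (nat_lit 152) (nat_lit 34918017420298) (nat_lit 0) (nat_lit 18081096067083) (nat_lit 1) (nat_lit 5) (nat_lit 3) (nat_lit 4) (nat_lit 1) (nat_lit 4) (nat_lit 299) (nat_lit 189) (nat_lit 172)) (XT.lf (nat_lit 0) (nat_lit 20793479010816) (nat_lit 152) (nat_lit 40155456759054) (nat_lit 0) (nat_lit 20793388374451) (nat_lit 1) (nat_lit 5) (nat_lit 3) (nat_lit 4) (nat_lit 1) (nat_lit 4) (nat_lit 300) (nat_lit 189) (nat_lit 171)))) (XT.nd (nat_lit 156) (nat_lit 0) (nat_lit 0) (XT.nd (nat_lit 78) (nat_lit 0) (nat_lit 0) (XT.lf (nat_lit 0) (nat_lit 23912614019868) (nat_lit 152) (nat_lit 46178517081512) (nat_lit 0) (nat_lit 23912522344237) (nat_lit 1) (nat_lit 5) (nat_lit 3) (nat_lit 4) (nat_lit 1) (nat_lit 4) (nat_lit 301) (nat_lit 189) (nat_lit 170))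 (XT.lf (nat_lit 0) (nat_lit 27499617089974) (nat_lit 152) (nat_lit 53105040872242) (nat_lit 0) (nat_lit 27499524510632) (nat_lit 1) (nat_lit 5) (nat_lit 3) (nat_lit 4) (nat_lit 1) (nat_lit 4) (nat_lit 302) (nat_lit 189) (nat_lit 169))) (XT.nd (nat_lit 78) (nat_lit 0) (nat_lit 0) (XT.lf (nat_lit 0) (nat_lit 31624668715982) (nat_lit 152) (nat_lit 61070547074977) (nat_lit 0) (nat_lit 31624575350804) (nat_lit 1) (nat_lit 5) (nat_lit 3) (nat_lit 4) (nat_lit 1) (nat_lit 4) (nat_lit 303) (nat_lit 189) (nat_lit 168)) (XT.lf (nat_lit 0) (nat_lit 36368476429705) (nat_lit 152) (nat_lit 70230882550203) (nat_lit 0) (nat_lit 36368382381193) (nat_lit 1) (nat_lit 5) (nat_lit 3) (nat_lit 4) (nat_lit 1) (nat_lit 4) (nat_lit 304) (nat_lit 189) (nat_lit 167))))) (XT.nd (nat_lit 32682) (nat_lit 0) (nat_lit 0) (XT.nd (nat_lit 32526) (nat_lit 0) (nat_lit 0) (XT.nd (nat_lit 32448) (nat_lit 0) (nat_lit 0) (XT.lf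 (nat_lit 0) (nat_lit 41823853860326) (nat_lit 152) (nat_lit 80765271252871) (nat_lit 0) (nat_lit 41823759217609) (nat_lit 1) (nat_lit 5) (nat_lit 3) (nat_lit 4) (nat_lit 1) (nat_lit 4) (nat_lit 305) (nat_lit 189) (nat_lit 166)) (XT.lf (nat_lit 0) (nat_lit 634469643265) (nat_lit 152) (nat_lit 1228425104540) (nat_lit 0) (nat_lit 634469643265) (nat_lit 1) (nat_lit 5) (nat_lit 3) (nat_lit 4) (nat_lit 1) (nat_lit 4) (nat_lit 280) (nat_lit 190) (nat_lit 190))) (XT.nd (nat_lit 78) (nat_lit 0) (nat_lit 0) (XT.lf (nat_lit 0) (nat_lit 1459629984120) (nat_lit 152) (nat_lit 2824637532381) (nat_lit 0) (nat_lit 1459615193508) (nat_lit 1) (nat_lit 5) (nat_lit 3) (nat_lit 4) (nat_lit 1) (nat_lit 4) (nat_lit 281) (nat_lit 190) (nat_lit 189)) (XT.lf (nat_lit 0) (nat_lit 1678893114425) (nat_lit 152) (nat_lit 3247655857232) (nat_lit 0) (nat_lit 1678865462411) (nat_lit 1) (nat_lit 5) (nat_lit 3) (nat_lit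 4) (nat_lit 1) (nat_lit 4) (nat_lit 282) (nat_lit 190) (nat_lit 188)))) (XT.nd (nat_lit 156) (nat_lit 0) (nat_lit 0) (XT.nd (nat_lit 78) (nat_lit 0) (nat_lit 0) (XT.lf (nat_lit 0) (nat_lit 1931018608253) (nat_lit 152) (nat_lit 3734181629121) (nat_lit 0) (nat_lit 1930979772412) (nat_lit 1) (nat_lit 5) (nat_lit 3) (nat_lit 4) (nat_lit 1) (nat_lit 4) (nat_lit 283) (nat_lit 190) (nat_lit 187)) (XT.lf (nat_lit 0) (nat_lit 2220939355702) (nat_lit 152) (nat_lit 4293733830541) (nat_lit 0) (nat_lit 2220890794794) (nat_lit 1) (nat_lit 5) (nat_lit 3) (nat_lit 4) (nat_lit 1) (nat_lit 4) (nat_lit 284) (nat_lit 190) (nat_lit 186))) (XT.nd (nat_lit 78) (nat_lit 0) (nat_lit 0) (XT.lf (nat_lit 0) (nat_lit 2554327719222) (nat_lit 152) (nat_lit 4937260221956) (nat_lit 0) (nat_lit 2554270701733) (nat_lit 1) (nat_lit 5) (nat_lit 3) (nat_lit 4) (nat_lit 1) (nat_lit 4) (nat_lit 285) (nat_lit 190) (nat_lit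 185)) (XT.nd (nat_lit 78) (nat_lit 0) (nat_lit 0) (XT.lf (nat_lit 0) (nat_lit 2937706514620) (nat_lit 152) (nat_lit 5677351537109) (nat_lit 0) (nat_lit 2937642143583) (nat_lit 1) (nat_lit 5) (nat_lit 3) (nat_lit 4) (nat_lit 1) (nat_lit 4) (nat_lit 286) (nat_lit 190) (nat_lit 184)) (XT.lf (nat_lit 0) (nat_lit 3378576631372) (nat_lit 152) (nat_lit 6528487823472) (nat_lit 0) (nat_lit 3378505865946) (nat_lit 1) (nat_lit 5) (nat_lit 3) (nat_lit 4) (nat_lit 1) (nat_lit 4) (nat_lit 287) (nat_lit 190) (nat_lit 183))))))) (XT.nd (nat_lit 702) (nat_lit 0) (nat_lit 0) (XT.nd (nat_lit 312) (nat_lit 0) (nat_lit 0) (XT.nd (nat_lit 156) (nat_lit 0) (nat_lit 0) (XT.nd (nat_lit 78) (nat_lit 0) (nat_lit 0) (XT.lf (nat_lit 0) (nat_lit 3885563789154) (nat_lit 152) (nat_lit 7507321747516) (nat_lit 0) (nat_lit 3885487463388) (nat_lit 1) (nat_lit 5) (nat_lit 3) (nat_lit 4) (nat_lit 1) (nat_lit 4) (nat_lit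 288) (nat_lit 190) (nat_lit 182)) (XT.lf (nat_lit 0) (nat_lit 4468587301921) (nat_lit 152) (nat_lit 8633004407756) (nat_lit 0) (nat_lit 4468506141079) (nat_lit 1) (nat_lit 5) (nat_lit 3) (nat_lit 4) (nat_lit 1) (nat_lit 4) (nat_lit 289) (nat_lit 190) (nat_lit 181))) (XT.nd (nat_lit 78) (nat_lit 0) (nat_lit 0) (XT.lf (nat_lit 0) (nat_lit 5139054151446) (nat_lit 152) (nat_lit 9927560030153) (nat_lit 0) (nat_lit 5138968786189) (nat_lit 1) (nat_lit 5) (nat_lit 3) (nat_lit 4) (nat_lit 1) (nat_lit 4) (nat_lit 290) (nat_lit 190) (nat_lit 180)) (XT.lf (nat_lit 0) (nat_lit 5910082167394) (nat_lit 152) (nat_lit 11416316876884) (nat_lit 0) (nat_lit 5909993146123) (nat_lit 1) (nat_lit 5) (nat_lit 3) (nat_lit 4) (nat_lit 1) (nat_lit 4) (nat_lit 291) (nat_lit 190) (nat_lit 179)))) (XT.nd (nat_lit 156) (nat_lit 0) (nat_lit 0) (XT.nd (nat_lit 78) (nat_lit 0) (nat_lit 0) (XT.lf (nat_lit 0) (nat_lit 6796756680510)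 (nat_lit 152) (nat_lit 13128402799298) (nat_lit 0) (nat_lit 6796664480098) (nat_lit 1) (nat_lit 5) (nat_lit 3) (nat_lit 4) (nat_lit 1) (nat_lit 4) (nat_lit 292) (nat_lit 190) (nat_lit 178)) (XT.lf (nat_lit 0) (nat_lit 7816425670400) (nat_lit 152) (nat_lit 15097315130660) (nat_lit 0) (nat_lit 7816330705516) (nat_lit 1) (nat_lit 5) (nat_lit 3) (nat_lit 4) (nat_lit 1) (nat_lit 4) (nat_lit 293) (nat_lit 190) (nat_lit 177))) (XT.nd (nat_lit 78) (nat_lit 0) (nat_lit 0) (XT.lf (nat_lit 0) (nat_lit 8989039182517) (nat_lit 152) (nat_lit 17361576068758) (nat_lit 0) (nat_lit 8988941813746) (nat_lit 1) (nat_lit 5) (nat_lit 3) (nat_lit 4) (nat_lit 1) (nat_lit 4) (nat_lit 294) (nat_lit 190) (nat_lit 176)) (XT.nd (nat_lit 78) (nat_lit 0) (nat_lit 0) (XT.lf (nat_lit 0) (nat_lit 10337539655143) (nat_lit 152) (nat_lit 19965486371075) (nat_lit 0) (nat_lit 10337440196034) (nat_lit 1) (nat_lit 5) (nat_lit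 3) (nat_lit 4) (nat_lit 1) (nat_lit 4) (nat_lit 295) (nat_lit 190) (nat_lit 175)) (XT.lf (nat_lit 0) (nat_lit 11888310793177) (nat_lit 152) (nat_lit 22959992108745) (nat_lit 0) (nat_lit 11888209516383) (nat_lit 1) (nat_lit 5) (nat_lit 3) (nat_lit 4) (nat_lit 1) (nat_lit 4) (nat_lit 296) (nat_lit 190) (nat_lit 174)))))) (XT.nd (nat_lit 312) (nat_lit 0) (nat_lit 0) (XT.nd (nat_lit 156) (nat_lit 0) (nat_lit 0) (XT.nd (nat_lit 78) (nat_lit 0) (nat_lit 0) (XT.lf (nat_lit 0) (nat_lit 13671693771057) (nat_lit 152) (nat_lit 26403681437503) (nat_lit 0) (nat_lit 13671590913669) (nat_lit 1) (nat_lit 5) (nat_lit 3) (nat_lit 4) (nat_lit 1) (nat_lit 4) (nat_lit 297) (nat_lit 190) (nat_lit 173)) (XT.lf (nat_lit 0) (nat_lit 15722580864440) (nat_lit 152) (nat_lit 30363930887697) (nat_lit 0) (nat_lit 15722476632620) (nat_lit 1) (nat_lit 5) (nat_lit 3) (nat_lit 4) (nat_lit 1) (nat_lit 4) (nat_lit 298)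 (nat_lit 190) (nat_lit 172))) (XT.nd (nat_lit 78) (nat_lit 0) (nat_lit 0) (XT.lf (nat_lit 0) (nat_lit 18081098125151) (nat_lit 152) (nat_lit 34918223600741) (nat_lit 0) (nat_lit 18080992698174) (nat_lit 1) (nat_lit 5) (nat_lit 3) (nat_lit 4) (nat_lit 1) (nat_lit 4) (nat_lit 299) (nat_lit 190) (nat_lit 171)) (XT.lf (nat_lit 0) (nat_lit 20793390456117) (nat_lit 152) (nat_lit 40155665303631) (nat_lit 0) (nat_lit 20793283989874) (nat_lit 1) (nat_lit 5) (nat_lit 3) (nat_lit 4) (nat_lit 1) (nat_lit 4) (nat_lit 300) (nat_lit 190) (nat_lit 170)))) (XT.nd (nat_lit 156) (nat_lit 0) (nat_lit 0) (XT.nd (nat_lit 78) (nat_lit 0) (nat_lit 0) (XT.lf (nat_lit 0) (nat_lit 23912524446423) (nat_lit 152) (nat_lit 46178727681859) (nat_lit 0) (nat_lit 23912417076469) (nat_lit 1) (nat_lit 5) (nat_lit 3) (nat_lit 4) (nat_lit 1) (nat_lit 4) (nat_lit 301) (nat_lit 190) (nat_lit 169)) (XT.lf (nat_lit 0) (nat_lit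 27499526630662) (nat_lit 152) (nat_lit 53105253260214) (nat_lit 0) (nat_lit 27499418474873) (nat_lit 1) (nat_lit 5) (nat_lit 3) (nat_lit 4) (nat_lit 1) (nat_lit 4) (nat_lit 302) (nat_lit 190) (nat_lit 168))) (XT.nd (nat_lit 78) (nat_lit 0) (nat_lit 0) (XT.lf (nat_lit 0) (nat_lit 31624577486351) (nat_lit 152) (nat_lit 61070761017405) (nat_lit 0) (nat_lit 31624468647227) (nat_lit 1) (nat_lit 5) (nat_lit 3) (nat_lit 4) (nat_lit 1) (nat_lit 4) (nat_lit 303) (nat_lit 190) (nat_lit 167)) (XT.nd (nat_lit 32370) (nat_lit 0) (nat_lit 0) (XT.lf (nat_lit 0) (nat_lit 36368384530232) (nat_lit 152) (nat_lit 70231097844333) (nat_lit 0) (nat_lit 36368275096903) (nat_lit 1) (nat_lit 5) (nat_lit 3) (nat_lit 4) (nat_lit 1) (nat_lit 4) (nat_lit 304) (nat_lit 190) (nat_lit 166)) (XT.lf (nat_lit 0) (nat_lit 479436891565) (nat_lit 152) (nat_lit 929543168552) (nat_lit 0) (nat_lit 479436891565) (nat_lit 1) (nat_lit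 5) (nat_lit 3) (nat_lit 4) (nat_lit 1) (nat_lit 4) (nat_lit 278) (nat_lit 191) (nat_lit 191))))))))
noncomputable def xc5 : XT := (XT.nd (nat_lit 1404) (nat_lit 0) (nat_lit 0) (XT.nd (nat_lit 702) (nat_lit 0) (nat_lit 0) (XT.nd (nat_lit 312) (nat_lit 0) (nat_lit 0) (XT.nd (nat_lit 156) (nat_lit 0) (nat_lit 0) (XT.nd (nat_lit 78) (nat_lit 0) (nat_lit 0) (XT.lf (nat_lit 0) (nat_lit 1103107125903) (nat_lit 152) (nat_lit 2137098048399) (nat_lit 0) (nat_lit 1103090116700) (nat_lit 1) (nat_lit 5) (nat_lit 3) (nat_lit 4) (nat_lit 1) (nat_lit 4) (nat_lit 279) (nat_lit 191) (nat_lit 190)) (XT.lf (nat_lit 0) (nat_lit 1268939622378) (nat_lit 152) (nat_lit 2456883854902) (nat_lit 0) (nat_lit 1268907822562) (nat_lit 1) (nat_lit 5) (nat_lit 3) (nat_lit 4) (nat_lit 1) (nat_lit 4) (nat_lit 280) (nat_lit 191) (nat_lit 189))) (XT.nd (nat_lit 78) (nat_lit 0) (nat_lit 0) (XT.lf (nat_lit 0) (nat_lit 1459615821399)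 (nat_lit 152) (nat_lit 2824700435437) (nat_lit 0) (nat_lit 1459571160182) (nat_lit 1) (nat_lit 5) (nat_lit 3) (nat_lit 4) (nat_lit 1) (nat_lit 4) (nat_lit 281) (nat_lit 191) (nat_lit 188)) (XT.lf (nat_lit 0) (nat_lit 1678866344251) (nat_lit 152) (nat_lit 3247744201363) (nat_lit 0) (nat_lit 1678810499207) (nat_lit 1) (nat_lit 5) (nat_lit 3) (nat_lit 4) (nat_lit 1) (nat_lit 4) (nat_lit 282) (nat_lit 191) (nat_lit 187)))) (XT.nd (nat_lit 156) (nat_lit 0) (nat_lit 0) (XT.nd (nat_lit 78) (nat_lit 0) (nat_lit 0) (XT.lf (nat_lit 0) (nat_lit 1930980875078) (nat_lit 152) (nat_lit 3734292095926) (nat_lit 0) (nat_lit 1930915304966) (nat_lit 1) (nat_lit 5) (nat_lit 3) (nat_lit 4) (nat_lit 1) (nat_lit 4) (nat_lit 283) (nat_lit 191) (nat_lit 186)) (XT.lf (nat_lit 0) (nat_lit 2220892089482) (nat_lit 152) (nat_lit 4293863534454) (nat_lit 0) (nat_lit 2220818062790) (nat_lit 1) (nat_lit 5) (nat_lit 3)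 (nat_lit 4) (nat_lit 1) (nat_lit 4) (nat_lit 284) (nat_lit 191) (nat_lit 185))) (XT.nd (nat_lit 78) (nat_lit 0) (nat_lit 0) (XT.lf (nat_lit 0) (nat_lit 2554272163397) (nat_lit 152) (nat_lit 4937406653787) (nat_lit 0) (nat_lit 2554190783157) (nat_lit 1) (nat_lit 5) (nat_lit 3) (nat_lit 4) (nat_lit 1) (nat_lit 4) (nat_lit 285) (nat_lit 191) (nat_lit 184)) (XT.nd (nat_lit 78) (nat_lit 0) (nat_lit 0) (XT.lf (nat_lit 0) (nat_lit 2937643750444) (nat_lit 152) (nat_lit 5677512514958) (nat_lit 0) (nat_lit 2937555975814) (nat_lit 1) (nat_lit 5) (nat_lit 3) (nat_lit 4) (nat_lit 1) (nat_lit 4) (nat_lit 286) (nat_lit 191) (nat_lit 183)) (XT.lf (nat_lit 0) (nat_lit 3378507599064) (nat_lit 152) (nat_lit 6528661450031) (nat_lit 0) (nat_lit 3378414264095) (nat_lit 1) (nat_lit 5) (nat_lit 3) (nat_lit 4) (nat_lit 1) (nat_lit 4) (nat_lit 287) (nat_lit 191) (nat_lit 182)))))) (XT.nd (nat_lit 312) (nat_lit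 0) (nat_lit 0) (XT.nd (nat_lit 156) (nat_lit 0) (nat_lit 0) (XT.nd (nat_lit 78) (nat_lit 0) (nat_lit 0) (XT.lf (nat_lit 0) (nat_lit 3885489306296) (nat_lit 152) (nat_lit 7507506372954) (nat_lit 0) (nat_lit 3885391136250) (nat_lit 1) (nat_lit 5) (nat_lit 3) (nat_lit 4) (nat_lit 1) (nat_lit 4) (nat_lit 288) (nat_lit 191) (nat_lit 181)) (XT.lf (nat_lit 0) (nat_lit 4468508079456) (nat_lit 152) (nat_lit 8633198597436) (nat_lit 0) (nat_lit 4468405704995) (nat_lit 1) (nat_lit 5) (nat_lit 3) (nat_lit 4) (nat_lit 1) (nat_lit 4) (nat_lit 289) (nat_lit 191) (nat_lit 180))) (XT.nd (nat_lit 78) (nat_lit 0) (nat_lit 0) (XT.lf (nat_lit 0) (nat_lit 5138970807583) (nat_lit 152) (nat_lit 9927762536565) (nat_lit 0) (nat_lit 5138864777108) (nat_lit 1) (nat_lit 5) (nat_lit 3) (nat_lit 4) (nat_lit 1) (nat_lit 4) (nat_lit 290) (nat_lit 191) (nat_lit 179)) (XT.lf (nat_lit 0) (nat_lit 5909995239705) (nat_lit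 152) (nat_lit 11416526615237) (nat_lit 0) (nat_lit 5909886030089) (nat_lit 1) (nat_lit 5) (nat_lit 3) (nat_lit 4) (nat_lit 1) (nat_lit 4) (nat_lit 291) (nat_lit 191) (nat_lit 178)))) (XT.nd (nat_lit 156) (nat_lit 0) (nat_lit 0) (XT.nd (nat_lit 78) (nat_lit 0) (nat_lit 0) (XT.lf (nat_lit 0) (nat_lit 6796666636452) (nat_lit 152) (nat_lit 13128618826296) (nat_lit 0) (nat_lit 6796554662365) (nat_lit 1) (nat_lit 5) (nat_lit 3) (nat_lit 4) (nat_lit 1) (nat_lit 4) (nat_lit 292) (nat_lit 191) (nat_lit 177)) (XT.lf (nat_lit 0) (nat_lit 7816332916456) (nat_lit 152) (nat_lit 15097536626045) (nat_lit 0) (nat_lit 7816218538481) (nat_lit 1) (nat_lit 5) (nat_lit 3) (nat_lit 4) (nat_lit 1) (nat_lit 4) (nat_lit 293) (nat_lit 191) (nat_lit 176))) (XT.nd (nat_lit 78) (nat_lit 0) (nat_lit 0) (XT.lf (nat_lit 0) (nat_lit 8988944072150) (nat_lit 152) (nat_lit 17361802319261) (nat_lit 0) (nat_lit 8988827603838)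 (nat_lit 1) (nat_lit 5) (nat_lit 3) (nat_lit 4) (nat_lit 1) (nat_lit 4) (nat_lit 294) (nat_lit 191) (nat_lit 175)) (XT.nd (nat_lit 78) (nat_lit 0) (nat_lit 0) (XT.lf (nat_lit 0) (nat_lit 10337442495713) (nat_lit 152) (nat_lit 19965716756464) (nat_lit 0) (nat_lit 10337324209716) (nat_lit 1) (nat_lit 5) (nat_lit 3) (nat_lit 4) (nat_lit 1) (nat_lit 4) (nat_lit 295) (nat_lit 191) (nat_lit 174)) (XT.lf (nat_lit 0) (nat_lit 11888211851952) (nat_lit 152) (nat_lit 22960226089687) (nat_lit 0) (nat_lit 11888091985360) (nat_lit 1) (nat_lit 5) (nat_lit 3) (nat_lit 4) (nat_lit 1) (nat_lit 4) (nat_lit 296) (nat_lit 191) (nat_lit 173))))))) (XT.nd (nat_lit 32838) (nat_lit 0) (nat_lit 0) (XT.nd (nat_lit 312) (nat_lit 0) (nat_lit 0) (XT.nd (nat_lit 156) (nat_lit 0) (nat_lit 0) (XT.nd (nat_lit 78) (nat_lit 0) (nat_lit 0) (XT.lf (nat_lit 0) (nat_lit 13671593280446) (nat_lit 152) (nat_lit 26403918545013)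 (nat_lit 0) (nat_lit 13671472039423) (nat_lit 1) (nat_lit 5) (nat_lit 3) (nat_lit 4) (nat_lit 1) (nat_lit 4) (nat_lit 297) (nat_lit 191) (nat_lit 172)) (XT.lf (nat_lit 0) (nat_lit 15722479026536) (nat_lit 152) (nat_lit 30364170713961) (nat_lit 0) (nat_lit 15722356590356) (nat_lit 1) (nat_lit 5) (nat_lit 3) (nat_lit 4) (nat_lit 1) (nat_lit 4) (nat_lit 298) (nat_lit 191) (nat_lit 171))) (XT.nd (nat_lit 78) (nat_lit 0) (nat_lit 0) (XT.lf (nat_lit 0) (nat_lit 18080995115689) (nat_lit 152) (nat_lit 34918465791140) (nat_lit 0) (nat_lit 18080871640241) (nat_lit 1) (nat_lit 5) (nat_lit 3) (nat_lit 4) (nat_lit 1) (nat_lit 4) (nat_lit 299) (nat_lit 191) (nat_lit 170)) (XT.lf (nat_lit 0) (nat_lit 20793286427908) (nat_lit 152) (nat_lit 40155909549799) (nat_lit 0) (nat_lit 20793162048751) (nat_lit 1) (nat_lit 5) (nat_lit 3) (nat_lit 4) (nat_lit 1) (nat_lit 4) (nat_lit 300) (nat_lit 191) (nat_lit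 169)))) (XT.nd (nat_lit 156) (nat_lit 0) (nat_lit 0) (XT.nd (nat_lit 78) (nat_lit 0) (nat_lit 0) (XT.lf (nat_lit 0) (nat_lit 23912419532348) (nat_lit 152) (nat_lit 46178973715651) (nat_lit 0) (nat_lit 23912294367355) (nat_lit 1) (nat_lit 5) (nat_lit 3) (nat_lit 4) (nat_lit 1) (nat_lit 4) (nat_lit 301) (nat_lit 191) (nat_lit 168)) (XT.lf (nat_lit 0) (nat_lit 27499420946268) (nat_lit 152) (nat_lit 53105500848464) (nat_lit 0) (nat_lit 27499295097940) (nat_lit 1) (nat_lit 5) (nat_lit 3) (nat_lit 4) (nat_lit 1) (nat_lit 4) (nat_lit 302) (nat_lit 191) (nat_lit 167))) (XT.nd (nat_lit 78) (nat_lit 0) (nat_lit 0) (XT.lf (nat_lit 0) (nat_lit 31624471132114) (nat_lit 152) (nat_lit 61071009957356) (nat_lit 0) (nat_lit 31624344689582) (nat_lit 1) (nat_lit 5) (nat_lit 3) (nat_lit 4) (nat_lit 1) (nat_lit 4) (nat_lit 303) (nat_lit 191) (nat_lit 166)) (XT.nd (nat_lit 32214) (nat_lit 0) (nat_lit 0) (XT.lf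 (nat_lit 0) (nat_lit 36368277593524) (nat_lit 152) (nat_lit 70231347959677) (nat_lit 0) (nat_lit 36368150634292) (nat_lit 1) (nat_lit 5) (nat_lit 3) (nat_lit 4) (nat_lit 1) (nat_lit 4) (nat_lit 304) (nat_lit 191) (nat_lit 165)) (XT.lf (nat_lit 0) (nat_lit 362162861452) (nat_lit 152) (nat_lit 703647081137) (nat_lit 0) (nat_lit 362162861452) (nat_lit 1) (nat_lit 5) (nat_lit 3) (nat_lit 4) (nat_lit 1) (nat_lit 4) (nat_lit 276) (nat_lit 192) (nat_lit 192)))))) (XT.nd (nat_lit 312) (nat_lit 0) (nat_lit 0) (XT.nd (nat_lit 156) (nat_lit 0) (nat_lit 0) (XT.nd (nat_lit 78) (nat_lit 0) (nat_lit 0) (XT.lf (nat_lit 0) (nat_lit 833437197938) (nat_lit 152) (nat_lit 1617409361452) (nat_lit 0) (nat_lit 833417637354) (nat_lit 1) (nat_lit 5) (nat_lit 3) (nat_lit 4) (nat_lit 1) (nat_lit 4) (nat_lit 277) (nat_lit 192) (nat_lit 191)) (XT.lf (nat_lit 0) (nat_lit 958874169356) (nat_lit 152) (nat_lit 1859125029799)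 (nat_lit 0) (nat_lit 958837599568) (nat_lit 1) (nat_lit 5) (nat_lit 3) (nat_lit 4) (nat_lit 1) (nat_lit 4) (nat_lit 278) (nat_lit 192) (nat_lit 190))) (XT.nd (nat_lit 78) (nat_lit 0) (nat_lit 0) (XT.lf (nat_lit 0) (nat_lit 1103090838774) (nat_lit 152) (nat_lit 2137170386914) (nat_lit 0) (nat_lit 1103039478374) (nat_lit 1) (nat_lit 5) (nat_lit 3) (nat_lit 4) (nat_lit 1) (nat_lit 4) (nat_lit 279) (nat_lit 192) (nat_lit 189)) (XT.lf (nat_lit 0) (nat_lit 1268908836679) (nat_lit 152) (nat_lit 2456985450653) (nat_lit 0) (nat_lit 1268844614877) (nat_lit 1) (nat_lit 5) (nat_lit 3) (nat_lit 4) (nat_lit 1) (nat_lit 4) (nat_lit 280) (nat_lit 192) (nat_lit 188)))) (XT.nd (nat_lit 156) (nat_lit 0) (nat_lit 0) (XT.nd (nat_lit 78) (nat_lit 0) (nat_lit 0) (XT.lf (nat_lit 0) (nat_lit 1459572428248) (nat_lit 152) (nat_lit 2824827472263) (nat_lit 0) (nat_lit 1459497022619) (nat_lit 1) (nat_lit 5) (nat_lit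 3) (nat_lit 4) (nat_lit 1) (nat_lit 4) (nat_lit 281) (nat_lit 192) (nat_lit 187)) (XT.lf (nat_lit 0) (nat_lit 1678811988098) (nat_lit 152) (nat_lit 3247893360862) (nat_lit 0) (nat_lit 1678726857402) (nat_lit 1) (nat_lit 5) (nat_lit 3) (nat_lit 4) (nat_lit 1) (nat_lit 4) (nat_lit 282) (nat_lit 192) (nat_lit 186))) (XT.nd (nat_lit 78) (nat_lit 0) (nat_lit 0) (XT.lf (nat_lit 0) (nat_lit 1930916985880) (nat_lit 152) (nat_lit 3734460492532) (nat_lit 0) (nat_lit 1930823398604) (nat_lit 1) (nat_lit 5) (nat_lit 3) (nat_lit 4) (nat_lit 1) (nat_lit 4) (nat_lit 283) (nat_lit 192) (nat_lit 185)) (XT.nd (nat_lit 78) (nat_lit 0) (nat_lit 0) (XT.lf (nat_lit 0) (nat_lit 2220819910680) (nat_lit 152) (nat_lit 4294048658979) (nat_lit 0) (nat_lit 2220718969855) (nat_lit 1) (nat_lit 5) (nat_lit 3) (nat_lit 4) (nat_lit 1) (nat_lit 4) (nat_lit 284) (nat_lit 192) (nat_lit 184)) (XT.lf (nat_lit 0) (nat_lit 2554192776243)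 (nat_lit 152) (nat_lit 4937606324330) (nat_lit 0) (nat_lit 2554085441029) (nat_lit 1) (nat_lit 5) (nat_lit 3) (nat_lit 4) (nat_lit 1) (nat_lit 4) (nat_lit 285) (nat_lit 192) (nat_lit 183))))))))
noncomputable def xc6 : XT := (XT.nd (nat_lit 1326) (nat_lit 0) (nat_lit 0) (XT.nd (nat_lit 624) (nat_lit 0) (nat_lit 0) (XT.nd (nat_lit 312) (nat_lit 0) (nat_lit 0) (XT.nd (nat_lit 156) (nat_lit 0) (nat_lit 0) (XT.nd (nat_lit 78) (nat_lit 0) (nat_lit 0) (XT.lf (nat_lit 0) (nat_lit 2937558095158) (nat_lit 152) (nat_lit 5677724834211) (nat_lit 0) (nat_lit 2937445199605) (nat_lit 1) (nat_lit 5) (nat_lit 3) (nat_lit 4) (nat_lit 1) (nat_lit 4) (nat_lit 286) (nat_lit 192) (nat_lit 182)) (XT.lf (nat_lit 0) (nat_lit 3378416493229) (nat_lit 152) (nat_lit 6528884768162) (nat_lit 0) (nat_lit 3378298762599) (nat_lit 1) (nat_lit 5) (nat_lit 3) (nat_lit 4) (nat_lit 1) (nat_lit 4) (nat_lit 287) (nat_lit 192)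 (nat_lit 181))) (XT.nd (nat_lit 78) (nat_lit 0) (nat_lit 0) (XT.lf (nat_lit 0) (nat_lit 3885393460853) (nat_lit 152) (nat_lit 7507739255328) (nat_lit 0) (nat_lit 3885271525808) (nat_lit 1) (nat_lit 5) (nat_lit 3) (nat_lit 4) (nat_lit 1) (nat_lit 4) (nat_lit 288) (nat_lit 192) (nat_lit 180)) (XT.lf (nat_lit 0) (nat_lit 4468408112614) (nat_lit 152) (nat_lit 8633439796542) (nat_lit 0) (nat_lit 4468282521556) (nat_lit 1) (nat_lit 5) (nat_lit 3) (nat_lit 4) (nat_lit 1) (nat_lit 4) (nat_lit 289) (nat_lit 192) (nat_lit 179)))) (XT.nd (nat_lit 156) (nat_lit 0) (nat_lit 0) (XT.nd (nat_lit 78) (nat_lit 0) (nat_lit 0) (XT.lf (nat_lit 0) (nat_lit 5138867256916) (nat_lit 152) (nat_lit 9928010967613) (nat_lit 0) (nat_lit 5138738486716) (nat_lit 1) (nat_lit 5) (nat_lit 3) (nat_lit 4) (nat_lit 1) (nat_lit 4) (nat_lit 290) (nat_lit 192) (nat_lit 178)) (XT.lf (nat_lit 0) (nat_lit 5909888572670) (nat_lit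 152) (nat_lit 11416781334929) (nat_lit 0) (nat_lit 5909757037998) (nat_lit 1) (nat_lit 5) (nat_lit 3) (nat_lit 4) (nat_lit 1) (nat_lit 4) (nat_lit 291) (nat_lit 192) (nat_lit 177))) (XT.nd (nat_lit 78) (nat_lit 0) (nat_lit 0) (XT.lf (nat_lit 0) (nat_lit 6796557259530) (nat_lit 152) (nat_lit 13128879014375) (nat_lit 0) (nat_lit 6796423320971) (nat_lit 1) (nat_lit 5) (nat_lit 3) (nat_lit 4) (nat_lit 1) (nat_lit 4) (nat_lit 292) (nat_lit 192) (nat_lit 176)) (XT.lf (nat_lit 0) (nat_lit 7816221183111) (nat_lit 152) (nat_lit 15097801569242) (nat_lit 0) (nat_lit 7816085154214) (nat_lit 1) (nat_lit 5) (nat_lit 3) (nat_lit 4) (nat_lit 1) (nat_lit 4) (nat_lit 293) (nat_lit 192) (nat_lit 175))))) (XT.nd (nat_lit 312) (nat_lit 0) (nat_lit 0) (XT.nd (nat_lit 156) (nat_lit 0) (nat_lit 0) (XT.nd (nat_lit 78) (nat_lit 0) (nat_lit 0) (XT.lf (nat_lit 0) (nat_lit 8988830289742) (nat_lit 152) (nat_lit 17362071397344)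 (nat_lit 0) (nat_lit 8988692443161) (nat_lit 1) (nat_lit 5) (nat_lit 3) (nat_lit 4) (nat_lit 1) (nat_lit 4) (nat_lit 294) (nat_lit 192) (nat_lit 174)) (XT.lf (nat_lit 0) (nat_lit 10337326931510) (nat_lit 152) (nat_lit 19965989430100) (nat_lit 0) (nat_lit 10337187504334) (nat_lit 1) (nat_lit 5) (nat_lit 3) (nat_lit 4) (nat_lit 1) (nat_lit 4) (nat_lit 295) (nat_lit 192) (nat_lit 173))) (XT.nd (nat_lit 78) (nat_lit 0) (nat_lit 0) (XT.lf (nat_lit 0) (nat_lit 11888094738363) (nat_lit 152) (nat_lit 22960501889890) (nat_lit 0) (nat_lit 11887953936756) (nat_lit 1) (nat_lit 5) (nat_lit 3) (nat_lit 4) (nat_lit 1) (nat_lit 4) (nat_lit 296) (nat_lit 192) (nat_lit 172)) (XT.lf (nat_lit 0) (nat_lit 13671474819565) (nat_lit 152) (nat_lit 26404197063971) (nat_lit 0) (nat_lit 13671332822801) (nat_lit 1) (nat_lit 5) (nat_lit 3) (nat_lit 4) (nat_lit 1) (nat_lit 4) (nat_lit 297) (nat_lit 192) (nat_lit 171))))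 (XT.nd (nat_lit 156) (nat_lit 0) (nat_lit 0) (XT.nd (nat_lit 78) (nat_lit 0) (nat_lit 0) (XT.lf (nat_lit 0) (nat_lit 15722359394096) (nat_lit 152) (nat_lit 30364451597054) (nat_lit 0) (nat_lit 15722216358065) (nat_lit 1) (nat_lit 5) (nat_lit 3) (nat_lit 4) (nat_lit 1) (nat_lit 4) (nat_lit 298) (nat_lit 192) (nat_lit 170)) (XT.lf (nat_lit 0) (nat_lit 18080874464502) (nat_lit 152) (nat_lit 34918748730002) (nat_lit 0) (nat_lit 18080730524760) (nat_lit 1) (nat_lit 5) (nat_lit 3) (nat_lit 4) (nat_lit 1) (nat_lit 4) (nat_lit 299) (nat_lit 192) (nat_lit 169))) (XT.nd (nat_lit 78) (nat_lit 0) (nat_lit 0) (XT.lf (nat_lit 0) (nat_lit 20793164890855) (nat_lit 152) (nat_lit 40156194276286) (nat_lit 0) (nat_lit 20793020165278) (nat_lit 1) (nat_lit 5) (nat_lit 3) (nat_lit 4) (nat_lit 1) (nat_lit 4) (nat_lit 300) (nat_lit 192) (nat_lit 168)) (XT.nd (nat_lit 78) (nat_lit 0) (nat_lit 0) (XT.lf (nat_lit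 0) (nat_lit 23912297224976) (nat_lit 152) (nat_lit 46179259996595) (nat_lit 0) (nat_lit 23912151816064) (nat_lit 1) (nat_lit 5) (nat_lit 3) (nat_lit 4) (nat_lit 1) (nat_lit 4) (nat_lit 301) (nat_lit 192) (nat_lit 167)) (XT.lf (nat_lit 0) (nat_lit 27499297969053) (nat_lit 152) (nat_lit 53105788481109) (nat_lit 0) (nat_lit 27499151965937) (nat_lit 1) (nat_lit 5) (nat_lit 3) (nat_lit 4) (nat_lit 1) (nat_lit 4) (nat_lit 302) (nat_lit 192) (nat_lit 166))))))) (XT.nd (nat_lit 32760) (nat_lit 0) (nat_lit 0) (XT.nd (nat_lit 32370) (nat_lit 0) (nat_lit 0) (XT.nd (nat_lit 32214) (nat_lit 0) (nat_lit 0) (XT.nd (nat_lit 32136) (nat_lit 0) (nat_lit 0) (XT.lf (nat_lit 0) (nat_lit 31624347572428) (nat_lit 152) (nat_lit 61071298765394) (nat_lit 0) (nat_lit 31624201052612) (nat_lit 1) (nat_lit 5) (nat_lit 3) (nat_lit 4) (nat_lit 1) (nat_lit 4) (nat_lit 303) (nat_lit 192) (nat_lit 165)) (XT.lf (nat_lit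 0) (nat_lit 273432800047) (nat_lit 152) (nat_lit 532954020284) (nat_lit 0) (nat_lit 273432800047) (nat_lit 1) (nat_lit 5) (nat_lit 3) (nat_lit 4) (nat_lit 1) (nat_lit 4) (nat_lit 274) (nat_lit 193) (nat_lit 193))) (XT.nd (nat_lit 78) (nat_lit 0) (nat_lit 0) (XT.lf (nat_lit 0) (nat_lit 629427449197) (nat_lit 152) (nat_lit 1224668482716) (nat_lit 0) (nat_lit 629404954525) (nat_lit 1) (nat_lit 5) (nat_lit 3) (nat_lit 4) (nat_lit 1) (nat_lit 4) (nat_lit 275) (nat_lit 193) (nat_lit 192)) (XT.lf (nat_lit 0) (nat_lit 724326167063) (nat_lit 152) (nat_lit 1407338658872) (nat_lit 0) (nat_lit 724284111807) (nat_lit 1) (nat_lit 5) (nat_lit 3) (nat_lit 4) (nat_lit 1) (nat_lit 4) (nat_lit 276) (nat_lit 193) (nat_lit 191)))) (XT.nd (nat_lit 156) (nat_lit 0) (nat_lit 0) (XT.nd (nat_lit 78) (nat_lit 0) (nat_lit 0) (XT.lf (nat_lit 0) (nat_lit 833418467739) (nat_lit 152) (nat_lit 1617492550744) (nat_lit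 0) (nat_lit 833359403279) (nat_lit 1) (nat_lit 5) (nat_lit 3) (nat_lit 4) (nat_lit 1) (nat_lit 4) (nat_lit 277) (nat_lit 193) (nat_lit 190)) (XT.lf (nat_lit 0) (nat_lit 958838765802) (nat_lit 152) (nat_lit 1859241864913) (nat_lit 0) (nat_lit 958764910731) (nat_lit 1) (nat_lit 5) (nat_lit 3) (nat_lit 4) (nat_lit 1) (nat_lit 4) (nat_lit 278) (nat_lit 193) (nat_lit 189))) (XT.nd (nat_lit 78) (nat_lit 0) (nat_lit 0) (XT.lf (nat_lit 0) (nat_lit 1103040936650) (nat_lit 152) (nat_lit 2137316479264) (nat_lit 0) (nat_lit 1102954220177) (nat_lit 1) (nat_lit 5) (nat_lit 3) (nat_lit 4) (nat_lit 1) (nat_lit 4) (nat_lit 279) (nat_lit 193) (nat_lit 188)) (XT.nd (nat_lit 78) (nat_lit 0) (nat_lit 0) (XT.lf (nat_lit 0) (nat_lit 1268846327103) (nat_lit 152) (nat_lit 2457156984077) (nat_lit 0) (nat_lit 1268748426802) (nat_lit 1) (nat_lit 5) (nat_lit 3) (nat_lit 4) (nat_lit 1) (nat_lit 4) (nat_lit 280) (nat_lit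 193) (nat_lit 187)) (XT.lf (nat_lit 0) (nat_lit 1459498955670) (nat_lit 152) (nat_lit 2825021128360) (nat_lit 0) (nat_lit 1459391330302) (nat_lit 1) (nat_lit 5) (nat_lit 3) (nat_lit 4) (nat_lit 1) (nat_lit 4) (nat_lit 281) (nat_lit 193) (nat_lit 186)))))) (XT.nd (nat_lit 312) (nat_lit 0) (nat_lit 0) (XT.nd (nat_lit 156) (nat_lit 0) (nat_lit 0) (XT.nd (nat_lit 78) (nat_lit 0) (nat_lit 0) (XT.lf (nat_lit 0) (nat_lit 1678728982476) (nat_lit 152) (nat_lit 3248106254067) (nat_lit 0) (nat_lit 1678612900528) (nat_lit 1) (nat_lit 5) (nat_lit 3) (nat_lit 4) (nat_lit 1) (nat_lit 4) (nat_lit 282) (nat_lit 193) (nat_lit 185)) (XT.lf (nat_lit 0) (nat_lit 1930825690653) (nat_lit 152) (nat_lit 3734690113656) (nat_lit 0) (nat_lit 1930702255157) (nat_lit 1) (nat_lit 5) (nat_lit 3) (nat_lit 4) (nat_lit 1) (nat_lit 4) (nat_lit 283) (nat_lit 193) (nat_lit 184))) (XT.nd (nat_lit 78) (nat_lit 0) (nat_lit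 0) (XT.lf (nat_lit 0) (nat_lit 2220721407101) (nat_lit 152) (nat_lit 4294292826120) (nat_lit 0) (nat_lit 2220591577215) (nat_lit 1) (nat_lit 5) (nat_lit 3) (nat_lit 4) (nat_lit 1) (nat_lit 4) (nat_lit 284) (nat_lit 193) (nat_lit 183)) (XT.lf (nat_lit 0) (nat_lit 2554088004533) (nat_lit 152) (nat_lit 4937863140181) (nat_lit 0) (nat_lit 2553952614308) (nat_lit 1) (nat_lit 5) (nat_lit 3) (nat_lit 4) (nat_lit 1) (nat_lit 4) (nat_lit 285) (nat_lit 193) (nat_lit 182)))) (XT.nd (nat_lit 156) (nat_lit 0) (nat_lit 0) (XT.nd (nat_lit 78) (nat_lit 0) (nat_lit 0) (XT.lf (nat_lit 0) (nat_lit 2937447872899) (nat_lit 152) (nat_lit 5677992648940) (nat_lit 0) (nat_lit 2937307647597) (nat_lit 1) (nat_lit 5) (nat_lit 3) (nat_lit 4) (nat_lit 1) (nat_lit 4) (nat_lit 286) (nat_lit 193) (nat_lit 181)) (XT.lf (nat_lit 0) (nat_lit 3378301531361) (nat_lit 152) (nat_lit 6529162147134) (nat_lit 0) (nat_lit 3378157101644)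 (nat_lit 1) (nat_lit 5) (nat_lit 3) (nat_lit 4) (nat_lit 1) (nat_lit 4) (nat_lit 287) (nat_lit 193) (nat_lit 180))) (XT.nd (nat_lit 78) (nat_lit 0) (nat_lit 0) (XT.lf (nat_lit 0) (nat_lit 3885274377587) (nat_lit 152) (nat_lit 7508024951032) (nat_lit 0) (nat_lit 3885126291857) (nat_lit 1) (nat_lit 5) (nat_lit 3) (nat_lit 4) (nat_lit 1) (nat_lit 4) (nat_lit 288) (nat_lit 193) (nat_lit 179)) (XT.nd (nat_lit 78) (nat_lit 0) (nat_lit 0) (XT.lf (nat_lit 0) (nat_lit 4468285445523) (nat_lit 152) (nat_lit 8633732724188) (nat_lit 0) (nat_lit 4468134180651) (nat_lit 1) (nat_lit 5) (nat_lit 3) (nat_lit 4) (nat_lit 1) (nat_lit 4) (nat_lit 289) (nat_lit 193) (nat_lit 178)) (XT.lf (nat_lit 0) (nat_lit 5138741473456) (nat_lit 152) (nat_lit 9928310183903) (nat_lit 0) (nat_lit 5138587444113) (nat_lit 1) (nat_lit 5) (nat_lit 3) (nat_lit 4) (nat_lit 1) (nat_lit 4) (nat_lit 290) (nat_lit 193) (nat_lit 177))))))))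
noncomputable def xc7 : XT := (XT.nd (nat_lit 33384) (nat_lit 0) (nat_lit 0) (XT.nd (nat_lit 702) (nat_lit 0) (nat_lit 0) (XT.nd (nat_lit 312) (nat_lit 0) (nat_lit 0) (XT.nd (nat_lit 156) (nat_lit 0) (nat_lit 0) (XT.nd (nat_lit 78) (nat_lit 0) (nat_lit 0) (XT.lf (nat_lit 0) (nat_lit 5909760079323) (nat_lit 152) (nat_lit 11417086019606) (nat_lit 0) (nat_lit 5909603646092) (nat_lit 1) (nat_lit 5) (nat_lit 3) (nat_lit 4) (nat_lit 1) (nat_lit 4) (nat_lit 291) (nat_lit 193) (nat_lit 176)) (XT.lf (nat_lit 0) (nat_lit 6796426409761) (nat_lit 152) (nat_lit 13129188454170) (nat_lit 0) (nat_lit 6796267886192) (nat_lit 1) (nat_lit 5) (nat_lit 3) (nat_lit 4) (nat_lit 1) (nat_lit 4) (nat_lit 292) (nat_lit 193) (nat_lit 175))) (XT.nd (nat_lit 78) (nat_lit 0) (nat_lit 0) (XT.lf (nat_lit 0) (nat_lit 7816088284278) (nat_lit 152) (nat_lit 15098115143923) (nat_lit 0) (nat_lit 7815927943025) (nat_lit 1)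 (nat_lit 5) (nat_lit 3) (nat_lit 4) (nat_lit 1) (nat_lit 4) (nat_lit 293) (nat_lit 193) (nat_lit 174)) (XT.lf (nat_lit 0) (nat_lit 8988695609115) (nat_lit 152) (nat_lit 17362388567578) (nat_lit 0) (nat_lit 8988533687266) (nat_lit 1) (nat_lit 5) (nat_lit 3) (nat_lit 4) (nat_lit 1) (nat_lit 4) (nat_lit 294) (nat_lit 193) (nat_lit 173)))) (XT.nd (nat_lit 156) (nat_lit 0) (nat_lit 0) (XT.nd (nat_lit 78) (nat_lit 0) (nat_lit 0) (XT.lf (nat_lit 0) (nat_lit 10337190701496) (nat_lit 152) (nat_lit 19966309726902) (nat_lit 0) (nat_lit 10337027405218) (nat_lit 1) (nat_lit 5) (nat_lit 3) (nat_lit 4) (nat_lit 1) (nat_lit 4) (nat_lit 295) (nat_lit 193) (nat_lit 172)) (XT.lf (nat_lit 0) (nat_lit 11887957161057) (nat_lit 152) (nat_lit 22960824905447) (nat_lit 0) (nat_lit 11887792669621) (nat_lit 1) (nat_lit 5) (nat_lit 3) (nat_lit 4) (nat_lit 1) (nat_lit 4) (nat_lit 296) (nat_lit 193) (nat_lit 171)))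 (XT.nd (nat_lit 78) (nat_lit 0) (nat_lit 0) (XT.lf (nat_lit 0) (nat_lit 13671336070700) (nat_lit 152) (nat_lit 26404522443662) (nat_lit 0) (nat_lit 13671170539997) (nat_lit 1) (nat_lit 5) (nat_lit 3) (nat_lit 4) (nat_lit 1) (nat_lit 4) (nat_lit 297) (nat_lit 193) (nat_lit 170)) (XT.nd (nat_lit 78) (nat_lit 0) (nat_lit 0) (XT.lf (nat_lit 0) (nat_lit 15722219626485) (nat_lit 152) (nat_lit 30364779032514) (nat_lit 0) (nat_lit 15722053192071) (nat_lit 1) (nat_lit 5) (nat_lit 3) (nat_lit 4) (nat_lit 1) (nat_lit 4) (nat_lit 298) (nat_lit 193) (nat_lit 169)) (XT.lf (nat_lit 0) (nat_lit 18080733811024) (nat_lit 152) (nat_lit 34919077953087) (nat_lit 0) (nat_lit 18080566590775) (nat_lit 1) (nat_lit 5) (nat_lit 3) (nat_lit 4) (nat_lit 1) (nat_lit 4) (nat_lit 299) (nat_lit 193) (nat_lit 168)))))) (XT.nd (nat_lit 32292) (nat_lit 0) (nat_lit 0) (XT.nd (nat_lit 156) (nat_lit 0) (nat_lit 0) (XT.nd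 (nat_lit 78) (nat_lit 0) (nat_lit 0) (XT.lf (nat_lit 0) (nat_lit 20793023467058) (nat_lit 152) (nat_lit 40156525053828) (nat_lit 0) (nat_lit 20792855563474) (nat_lit 1) (nat_lit 5) (nat_lit 3) (nat_lit 4) (nat_lit 1) (nat_lit 4) (nat_lit 300) (nat_lit 193) (nat_lit 167)) (XT.lf (nat_lit 0) (nat_lit 23912155131336) (nat_lit 152) (nat_lit 46179592125839) (nat_lit 0) (nat_lit 23911986633548) (nat_lit 1) (nat_lit 5) (nat_lit 3) (nat_lit 4) (nat_lit 1) (nat_lit 4) (nat_lit 301) (nat_lit 193) (nat_lit 166))) (XT.nd (nat_lit 32058) (nat_lit 0) (nat_lit 0) (XT.lf (nat_lit 0) (nat_lit 27499155292942) (nat_lit 152) (nat_lit 53106121785745) (nat_lit 0) (nat_lit 27498986278455) (nat_lit 1) (nat_lit 5) (nat_lit 3) (nat_lit 4) (nat_lit 1) (nat_lit 4) (nat_lit 302) (nat_lit 193) (nat_lit 165)) (XT.lf (nat_lit 0) (nat_lit 206277972892) (nat_lit 152) (nat_lit 404019903649) (nat_lit 0) (nat_lit 206277972892)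 (nat_lit 1) (nat_lit 5) (nat_lit 3) (nat_lit 4) (nat_lit 1) (nat_lit 4) (nat_lit 272) (nat_lit 194) (nat_lit 194)))) (XT.nd (nat_lit 156) (nat_lit 0) (nat_lit 0) (XT.nd (nat_lit 78) (nat_lit 0) (nat_lit 0) (XT.lf (nat_lit 0) (nat_lit 475051148103) (nat_lit 152) (nat_lit 927951149865) (nat_lit 0) (nat_lit 475025279230) (nat_lit 1) (nat_lit 5) (nat_lit 3) (nat_lit 4) (nat_lit 1) (nat_lit 4) (nat_lit 273) (nat_lit 194) (nat_lit 193)) (XT.lf (nat_lit 0) (nat_lit 546866110878) (nat_lit 152) (nat_lit 1065959211656) (nat_lit 0) (nat_lit 546817747334) (nat_lit 1) (nat_lit 5) (nat_lit 3) (nat_lit 4) (nat_lit 1) (nat_lit 4) (nat_lit 274) (nat_lit 194) (nat_lit 192))) (XT.nd (nat_lit 78) (nat_lit 0) (nat_lit 0) (XT.lf (nat_lit 0) (nat_lit 629405909468) (nat_lit 152) (nat_lit 1224764150402) (nat_lit 0) (nat_lit 629337985339) (nat_lit 1) (nat_lit 5) (nat_lit 3) (nat_lit 4) (nat_lit 1) (nat_lit 4)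 (nat_lit 275) (nat_lit 194) (nat_lit 191)) (XT.nd (nat_lit 78) (nat_lit 0) (nat_lit 0) (XT.lf (nat_lit 0) (nat_lit 724285452976) (nat_lit 152) (nat_lit 1407473019253) (nat_lit 0) (nat_lit 724200519644) (nat_lit 1) (nat_lit 5) (nat_lit 3) (nat_lit 4) (nat_lit 1) (nat_lit 4) (nat_lit 276) (nat_lit 194) (nat_lit 190)) (XT.lf (nat_lit 0) (nat_lit 833361080296) (nat_lit 152) (nat_lit 1617660556946) (nat_lit 0) (nat_lit 833261356352) (nat_lit 1) (nat_lit 5) (nat_lit 3) (nat_lit 4) (nat_lit 1) (nat_lit 4) (nat_lit 277) (nat_lit 194) (nat_lit 189))))))) (XT.nd (nat_lit 702) (nat_lit 0) (nat_lit 0) (XT.nd (nat_lit 312) (nat_lit 0) (nat_lit 0) (XT.nd (nat_lit 156) (nat_lit 0) (nat_lit 0) (XT.nd (nat_lit 78) (nat_lit 0) (nat_lit 0) (XT.lf (nat_lit 0) (nat_lit 958766879790) (nat_lit 152) (nat_lit 1859439128350) (nat_lit 0) (nat_lit 958654294444) (nat_lit 1) (nat_lit 5) (nat_lit 3) (nat_lit 4) (nat_lit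 1) (nat_lit 4) (nat_lit 278) (nat_lit 194) (nat_lit 188)) (XT.lf (nat_lit 0) (nat_lit 1102956443185) (nat_lit 152) (nat_lit 2137539183775) (nat_lit 0) (nat_lit 1102832674012) (nat_lit 1) (nat_lit 5) (nat_lit 3) (nat_lit 4) (nat_lit 1) (nat_lit 4) (nat_lit 279) (nat_lit 194) (nat_lit 187))) (XT.nd (nat_lit 78) (nat_lit 0) (nat_lit 0) (XT.lf (nat_lit 0) (nat_lit 1268750870637) (nat_lit 152) (nat_lit 2457401811262) (nat_lit 0) (nat_lit 1268617376396) (nat_lit 1) (nat_lit 5) (nat_lit 3) (nat_lit 4) (nat_lit 1) (nat_lit 4) (nat_lit 280) (nat_lit 194) (nat_lit 186)) (XT.lf (nat_lit 0) (nat_lit 1459393966159) (nat_lit 152) (nat_lit 2825285192653) (nat_lit 0) (nat_lit 1459252015338) (nat_lit 1) (nat_lit 5) (nat_lit 3) (nat_lit 4) (nat_lit 1) (nat_lit 4) (nat_lit 281) (nat_lit 194) (nat_lit 185)))) (XT.nd (nat_lit 156) (nat_lit 0) (nat_lit 0) (XT.nd (nat_lit 78) (nat_lit 0) (nat_lit 0) (XT.lf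 (nat_lit 0) (nat_lit 1678615703360) (nat_lit 152) (nat_lit 3248387046279) (nat_lit 0) (nat_lit 1678466398992) (nat_lit 1) (nat_lit 5) (nat_lit 3) (nat_lit 4) (nat_lit 1) (nat_lit 4) (nat_lit 282) (nat_lit 194) (nat_lit 184)) (XT.lf (nat_lit 0) (nat_lit 1930705203186) (nat_lit 152) (nat_lit 3734985451885) (nat_lit 0) (nat_lit 1930549504428) (nat_lit 1) (nat_lit 5) (nat_lit 3) (nat_lit 4) (nat_lit 1) (nat_lit 4) (nat_lit 283) (nat_lit 194) (nat_lit 183))) (XT.nd (nat_lit 78) (nat_lit 0) (nat_lit 0) (XT.lf (nat_lit 0) (nat_lit 2220594651503) (nat_lit 152) (nat_lit 4294600813060) (nat_lit 0) (nat_lit 2220433392405) (nat_lit 1) (nat_lit 5) (nat_lit 3) (nat_lit 4) (nat_lit 1) (nat_lit 4) (nat_lit 284) (nat_lit 194) (nat_lit 182)) (XT.nd (nat_lit 78) (nat_lit 0) (nat_lit 0) (XT.lf (nat_lit 0) (nat_lit 2553955798385) (nat_lit 152) (nat_lit 4938182125999) (nat_lit 0) (nat_lit 2553789704210) (nat_lit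 1) (nat_lit 5) (nat_lit 3) (nat_lit 4) (nat_lit 1) (nat_lit 4) (nat_lit 285) (nat_lit 194) (nat_lit 181)) (XT.lf (nat_lit 0) (nat_lit 2937310927142) (nat_lit 152) (nat_lit 5678321199001) (nat_lit 0) (nat_lit 2937140628553) (nat_lit 1) (nat_lit 5) (nat_lit 3) (nat_lit 4) (nat_lit 1) (nat_lit 4) (nat_lit 286) (nat_lit 194) (nat_lit 180)))))) (XT.nd (nat_lit 312) (nat_lit 0) (nat_lit 0) (XT.nd (nat_lit 156) (nat_lit 0) (nat_lit 0) (XT.nd (nat_lit 78) (nat_lit 0) (nat_lit 0) (XT.lf (nat_lit 0) (nat_lit 3378160464207) (nat_lit 152) (nat_lit 6529499013927) (nat_lit 0) (nat_lit 3377986509604) (nat_lit 1) (nat_lit 5) (nat_lit 3) (nat_lit 4) (nat_lit 1) (nat_lit 4) (nat_lit 287) (nat_lit 194) (nat_lit 179)) (XT.lf (nat_lit 0) (nat_lit 3885129726608) (nat_lit 152) (nat_lit 7508369049766) (nat_lit 0) (nat_lit 3884952592863) (nat_lit 1) (nat_lit 5) (nat_lit 3) (nat_lit 4) (nat_lit 1) (nat_lit 4)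 (nat_lit 288) (nat_lit 194) (nat_lit 178))) (XT.nd (nat_lit 78) (nat_lit 0) (nat_lit 0) (XT.lf (nat_lit 0) (nat_lit 4468137678175) (nat_lit 152) (nat_lit 8634083111566) (nat_lit 0) (nat_lit 4467957779959) (nat_lit 1) (nat_lit 5) (nat_lit 3) (nat_lit 4) (nat_lit 1) (nat_lit 4) (nat_lit 289) (nat_lit 194) (nat_lit 177)) (XT.lf (nat_lit 0) (nat_lit 5138590996221) (nat_lit 152) (nat_lit 9928666039668) (nat_lit 0) (nat_lit 5138408694117) (nat_lit 1) (nat_lit 5) (nat_lit 3) (nat_lit 4) (nat_lit 1) (nat_lit 4) (nat_lit 290) (nat_lit 194) (nat_lit 176)))) (XT.nd (nat_lit 156) (nat_lit 0) (nat_lit 0) (XT.nd (nat_lit 78) (nat_lit 0) (nat_lit 0) (XT.lf (nat_lit 0) (nat_lit 5909607245665) (nat_lit 152) (nat_lit 11417446630490) (nat_lit 0) (nat_lit 5909422853224) (nat_lit 1) (nat_lit 5) (nat_lit 3) (nat_lit 4) (nat_lit 1) (nat_lit 4) (nat_lit 291) (nat_lit 194) (nat_lit 175)) (XT.lf (nat_lit 0) (nat_lit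 6796271527039) (nat_lit 152) (nat_lit 13129553199940) (nat_lit 0) (nat_lit 6796085316914) (nat_lit 1) (nat_lit 5) (nat_lit 3) (nat_lit 4) (nat_lit 1) (nat_lit 4) (nat_lit 292) (nat_lit 194) (nat_lit 174))) (XT.nd (nat_lit 78) (nat_lit 0) (nat_lit 0) (XT.lf (nat_lit 0) (nat_lit 7815931619762) (nat_lit 152) (nat_lit 15098483485246) (nat_lit 0) (nat_lit 7815743829041) (nat_lit 1) (nat_lit 5) (nat_lit 3) (nat_lit 4) (nat_lit 1) (nat_lit 4) (nat_lit 293) (nat_lit 194) (nat_lit 173)) (XT.nd (nat_lit 78) (nat_lit 0) (nat_lit 0) (XT.lf (nat_lit 0) (nat_lit 8988537395213) (nat_lit 152) (nat_lit 17362760035468) (nat_lit 0) (nat_lit 8988348230061) (nat_lit 1) (nat_lit 5) (nat_lit 3) (nat_lit 4) (nat_lit 1) (nat_lit 4) (nat_lit 294) (nat_lit 194) (nat_lit 172)) (XT.lf (nat_lit 0) (nat_lit 10337031140302) (nat_lit 152) (nat_lit 19966683913547) (nat_lit 0) (nat_lit 10336840779994) (nat_lit 1) (nat_lit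 5) (nat_lit 3) (nat_lit 4) (nat_lit 1) (nat_lit 4) (nat_lit 295) (nat_lit 194) (nat_lit 171))))))))
noncomputable def xc8 : XT := (XT.nd (nat_lit 33228) (nat_lit 0) (nat_lit 0) (XT.nd (nat_lit 32526) (nat_lit 0) (nat_lit 0) (XT.nd (nat_lit 312) (nat_lit 0) (nat_lit 0) (XT.nd (nat_lit 156) (nat_lit 0) (nat_lit 0) (XT.nd (nat_lit 78) (nat_lit 0) (nat_lit 0) (XT.lf (nat_lit 0) (nat_lit 11887796428304) (nat_lit 152) (nat_lit 22961201456226) (nat_lit 0) (nat_lit 11887605028728) (nat_lit 1) (nat_lit 5) (nat_lit 3) (nat_lit 4) (nat_lit 1) (nat_lit 4) (nat_lit 296) (nat_lit 194) (nat_lit 170)) (XT.lf (nat_lit 0) (nat_lit 13671174319201) (nat_lit 152) (nat_lit 26404901050210) (nat_lit 0) (nat_lit 13670982015914) (nat_lit 1) (nat_lit 5) (nat_lit 3) (nat_lit 4) (nat_lit 1) (nat_lit 4) (nat_lit 297) (nat_lit 194) (nat_lit 169))) (XT.nd (nat_lit 78) (nat_lit 0) (nat_lit 0) (XT.lf (nat_lit 0) (nat_lit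 15722056989119) (nat_lit 152) (nat_lit 30365159426687) (nat_lit 0) (nat_lit 15721863899997) (nat_lit 1) (nat_lit 5) (nat_lit 3) (nat_lit 4) (nat_lit 1) (nat_lit 4) (nat_lit 298) (nat_lit 194) (nat_lit 168)) (XT.lf (nat_lit 0) (nat_lit 18080570403339) (nat_lit 152) (nat_lit 34919459901717) (nat_lit 0) (nat_lit 18080376630882) (nat_lit 1) (nat_lit 5) (nat_lit 3) (nat_lit 4) (nat_lit 1) (nat_lit 4) (nat_lit 299) (nat_lit 194) (nat_lit 167)))) (XT.nd (nat_lit 32058) (nat_lit 0) (nat_lit 0) (XT.nd (nat_lit 78) (nat_lit 0) (nat_lit 0) (XT.lf (nat_lit 0) (nat_lit 20792859389530) (nat_lit 152) (nat_lit 40156908354160) (nat_lit 0) (nat_lit 20792665022870) (nat_lit 1) (nat_lit 5) (nat_lit 3) (nat_lit 4) (nat_lit 1) (nat_lit 4) (nat_lit 300) (nat_lit 194) (nat_lit 166)) (XT.lf (nat_lit 0) (nat_lit 23911990471337) (nat_lit 152) (nat_lit 46179976601563) (nat_lit 0) (nat_lit 23911795587977) (nat_lit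 1) (nat_lit 5) (nat_lit 3) (nat_lit 4) (nat_lit 1) (nat_lit 4) (nat_lit 301) (nat_lit 194) (nat_lit 165))) (XT.nd (nat_lit 78) (nat_lit 0) (nat_lit 0) (XT.lf (nat_lit 0) (nat_lit 155427799515) (nat_lit 152) (nat_lit 306681702294) (nat_lit 0) (nat_lit 155427799515) (nat_lit 1) (nat_lit 5) (nat_lit 3) (nat_lit 4) (nat_lit 1) (nat_lit 4) (nat_lit 270) (nat_lit 195) (nat_lit 195)) (XT.lf (nat_lit 0) (nat_lit 358187520905) (nat_lit 152) (nat_lit 703879092470) (nat_lit 0) (nat_lit 358157771702) (nat_lit 1) (nat_lit 5) (nat_lit 3) (nat_lit 4) (nat_lit 1) (nat_lit 4) (nat_lit 271) (nat_lit 195) (nat_lit 194))))) (XT.nd (nat_lit 312) (nat_lit 0) (nat_lit 0) (XT.nd (nat_lit 156) (nat_lit 0) (nat_lit 0) (XT.nd (nat_lit 78) (nat_lit 0) (nat_lit 0) (XT.lf (nat_lit 0) (nat_lit 412556533185) (nat_lit 152) (nat_lit 808098654049) (nat_lit 0) (nat_lit 412500915109) (nat_lit 1) (nat_lit 5) (nat_lit 3)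 (nat_lit 4) (nat_lit 1) (nat_lit 4) (nat_lit 272) (nat_lit 195) (nat_lit 193)) (XT.lf (nat_lit 0) (nat_lit 475026377414) (nat_lit 152) (nat_lit 928061167704) (nat_lit 0) (nat_lit 474948264667) (nat_lit 1) (nat_lit 5) (nat_lit 3) (nat_lit 4) (nat_lit 1) (nat_lit 4) (nat_lit 273) (nat_lit 195) (nat_lit 192))) (XT.nd (nat_lit 78) (nat_lit 0) (nat_lit 0) (XT.lf (nat_lit 0) (nat_lit 546819289677) (nat_lit 152) (nat_lit 1066113726093) (nat_lit 0) (nat_lit 546721616345) (nat_lit 1) (nat_lit 5) (nat_lit 3) (nat_lit 4) (nat_lit 1) (nat_lit 4) (nat_lit 274) (nat_lit 195) (nat_lit 191)) (XT.lf (nat_lit 0) (nat_lit 629339913909) (nat_lit 152) (nat_lit 1224957357534) (nat_lit 0) (nat_lit 629225231373) (nat_lit 1) (nat_lit 5) (nat_lit 3) (nat_lit 4) (nat_lit 1) (nat_lit 4) (nat_lit 275) (nat_lit 195) (nat_lit 190)))) (XT.nd (nat_lit 156) (nat_lit 0) (nat_lit 0) (XT.nd (nat_lit 78) (nat_lit 0) (nat_lit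 0) (XT.lf (nat_lit 0) (nat_lit 724202784062) (nat_lit 152) (nat_lit 1407699872205) (nat_lit 0) (nat_lit 724073310914) (nat_lit 1) (nat_lit 5) (nat_lit 3) (nat_lit 4) (nat_lit 1) (nat_lit 4) (nat_lit 276) (nat_lit 195) (nat_lit 189)) (XT.lf (nat_lit 0) (nat_lit 833263912812) (nat_lit 152) (nat_lit 1617916667135) (nat_lit 0) (nat_lit 833121578263) (nat_lit 1) (nat_lit 5) (nat_lit 3) (nat_lit 4) (nat_lit 1) (nat_lit 4) (nat_lit 277) (nat_lit 195) (nat_lit 188))) (XT.nd (nat_lit 78) (nat_lit 0) (nat_lit 0) (XT.lf (nat_lit 0) (nat_lit 958657104854) (nat_lit 152) (nat_lit 1859720679613) (nat_lit 0) (nat_lit 958503586477) (nat_lit 1) (nat_lit 5) (nat_lit 3) (nat_lit 4) (nat_lit 1) (nat_lit 4) (nat_lit 278) (nat_lit 195) (nat_lit 187)) (XT.nd (nat_lit 78) (nat_lit 0) (nat_lit 0) (XT.lf (nat_lit 0) (nat_lit 1102835705248) (nat_lit 152) (nat_lit 2137842857712) (nat_lit 0) (nat_lit 1102672461804)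 (nat_lit 1) (nat_lit 5) (nat_lit 3) (nat_lit 4) (nat_lit 1) (nat_lit 4) (nat_lit 279) (nat_lit 195) (nat_lit 186)) (XT.lf (nat_lit 0) (nat_lit 1268620599654) (nat_lit 152) (nat_lit 2457724722306) (nat_lit 0) (nat_lit 1268448899630) (nat_lit 1) (nat_lit 5) (nat_lit 3) (nat_lit 4) (nat_lit 1) (nat_lit 4) (nat_lit 280) (nat_lit 195) (nat_lit 185))))))) (XT.nd (nat_lit 702) (nat_lit 0) (nat_lit 0) (XT.nd (nat_lit 312) (nat_lit 0) (nat_lit 0) (XT.nd (nat_lit 156) (nat_lit 0) (nat_lit 0) (XT.nd (nat_lit 78) (nat_lit 0) (nat_lit 0) (XT.lf (nat_lit 0) (nat_lit 1459255405572) (nat_lit 152) (nat_lit 2825624831616) (nat_lit 0) (nat_lit 1459076352000) (nat_lit 1) (nat_lit 5) (nat_lit 3) (nat_lit 4) (nat_lit 1) (nat_lit 4) (nat_lit 281) (nat_lit 195) (nat_lit 184)) (XT.lf (nat_lit 0) (nat_lit 1678469934422) (nat_lit 152) (nat_lit 3248741231259) (nat_lit 0) (nat_lit 1678284486460) (nat_lit 1) (nat_lit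 5) (nat_lit 3) (nat_lit 4) (nat_lit 1) (nat_lit 4) (nat_lit 282) (nat_lit 195) (nat_lit 183))) (XT.nd (nat_lit 78) (nat_lit 0) (nat_lit 0) (XT.lf (nat_lit 0) (nat_lit 1930553166116) (nat_lit 152) (nat_lit 3735352285576) (nat_lit 0) (nat_lit 1930362157815) (nat_lit 1) (nat_lit 5) (nat_lit 3) (nat_lit 4) (nat_lit 1) (nat_lit 4) (nat_lit 283) (nat_lit 195) (nat_lit 182)) (XT.lf (nat_lit 0) (nat_lit 2220437163883) (nat_lit 152) (nat_lit 4294978645629) (nat_lit 0) (nat_lit 2220241320505) (nat_lit 1) (nat_lit 5) (nat_lit 3) (nat_lit 4) (nat_lit 1) (nat_lit 4) (nat_lit 284) (nat_lit 195) (nat_lit 181)))) (XT.nd (nat_lit 156) (nat_lit 0) (nat_lit 0) (XT.nd (nat_lit 78) (nat_lit 0) (nat_lit 0) (XT.lf (nat_lit 0) (nat_lit 2553793571157) (nat_lit 152) (nat_lit 4938569522811) (nat_lit 0) (nat_lit 2553593523364) (nat_lit 1) (nat_lit 5) (nat_lit 3) (nat_lit 4) (nat_lit 1) (nat_lit 4) (nat_lit 285)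 (nat_lit 195) (nat_lit 180)) (XT.lf (nat_lit 0) (nat_lit 2937144578516) (nat_lit 152) (nat_lit 5678716912545) (nat_lit 0) (nat_lit 2936940874710) (nat_lit 1) (nat_lit 5) (nat_lit 3) (nat_lit 4) (nat_lit 1) (nat_lit 4) (nat_lit 286) (nat_lit 195) (nat_lit 179))) (XT.nd (nat_lit 78) (nat_lit 0) (nat_lit 0) (XT.lf (nat_lit 0) (nat_lit 3377990531756) (nat_lit 152) (nat_lit 6529901959412) (nat_lit 0) (nat_lit 3377783648808) (nat_lit 1) (nat_lit 5) (nat_lit 3) (nat_lit 4) (nat_lit 1) (nat_lit 4) (nat_lit 287) (nat_lit 195) (nat_lit 178)) (XT.nd (nat_lit 78) (nat_lit 0) (nat_lit 0) (XT.lf (nat_lit 0) (nat_lit 3884956677787) (nat_lit 152) (nat_lit 7508778283895) (nat_lit 0) (nat_lit 3884747030368) (nat_lit 1) (nat_lit 5) (nat_lit 3) (nat_lit 4) (nat_lit 1) (nat_lit 4) (nat_lit 288) (nat_lit 195) (nat_lit 177)) (XT.lf (nat_lit 0) (nat_lit 4467961919468) (nat_lit 152) (nat_lit 8634497814082) (nat_lit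 0) (nat_lit 4467749868161) (nat_lit 1) (nat_lit 5) (nat_lit 3) (nat_lit 4) (nat_lit 1) (nat_lit 4) (nat_lit 289) (nat_lit 195) (nat_lit 176)))))) (XT.nd (nat_lit 312) (nat_lit 0) (nat_lit 0) (XT.nd (nat_lit 156) (nat_lit 0) (nat_lit 0) (XT.nd (nat_lit 78) (nat_lit 0) (nat_lit 0) (XT.lf (nat_lit 0) (nat_lit 5138412881091) (nat_lit 152) (nat_lit 9929085497302) (nat_lit 0) (nat_lit 5138198739447) (nat_lit 1) (nat_lit 5) (nat_lit 3) (nat_lit 4) (nat_lit 1) (nat_lit 4) (nat_lit 290) (nat_lit 195) (nat_lit 175)) (XT.lf (nat_lit 0) (nat_lit 5909427081472) (nat_lit 152) (nat_lit 11417870223010) (nat_lit 0) (nat_lit 5909211122143) (nat_lit 1) (nat_lit 5) (nat_lit 3) (nat_lit 4) (nat_lit 1) (nat_lit 4) (nat_lit 291) (nat_lit 195) (nat_lit 174))) (XT.nd (nat_lit 78) (nat_lit 0) (nat_lit 0) (XT.lf (nat_lit 0) (nat_lit 6796089581052) (nat_lit 152) (nat_lit 13129980388013) (nat_lit 0) (nat_lit 6795872041128)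 (nat_lit 1) (nat_lit 5) (nat_lit 3) (nat_lit 4) (nat_lit 1) (nat_lit 4) (nat_lit 292) (nat_lit 195) (nat_lit 173)) (XT.lf (nat_lit 0) (nat_lit 7815748124389) (nat_lit 152) (nat_lit 15098913799887) (nat_lit 0) (nat_lit 7815529210034) (nat_lit 1) (nat_lit 5) (nat_lit 3) (nat_lit 4) (nat_lit 1) (nat_lit 4) (nat_lit 293) (nat_lit 195) (nat_lit 172)))) (XT.nd (nat_lit 156) (nat_lit 0) (nat_lit 0) (XT.nd (nat_lit 78) (nat_lit 0) (nat_lit 0) (XT.lf (nat_lit 0) (nat_lit 8988352552547) (nat_lit 152) (nat_lit 17363193068864) (nat_lit 0) (nat_lit 8988132443035) (nat_lit 1) (nat_lit 5) (nat_lit 3) (nat_lit 4) (nat_lit 1) (nat_lit 4) (nat_lit 294) (nat_lit 195) (nat_lit 171)) (XT.lf (nat_lit 0) (nat_lit 10336845126077) (nat_lit 152) (nat_lit 19967119311077) (nat_lit 0) (nat_lit 10336623977298) (nat_lit 1) (nat_lit 5) (nat_lit 3) (nat_lit 4) (nat_lit 1) (nat_lit 4) (nat_lit 295) (nat_lit 195) (nat_lit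 170))) (XT.nd (nat_lit 78) (nat_lit 0) (nat_lit 0) (XT.lf (nat_lit 0) (nat_lit 11887609395333) (nat_lit 152) (nat_lit 22961638909525) (nat_lit 0) (nat_lit 11887387342843) (nat_lit 1) (nat_lit 5) (nat_lit 3) (nat_lit 4) (nat_lit 1) (nat_lit 4) (nat_lit 296) (nat_lit 195) (nat_lit 169)) (XT.nd (nat_lit 78) (nat_lit 0) (nat_lit 0) (XT.lf (nat_lit 0) (nat_lit 13670986400363) (nat_lit 152) (nat_lit 26405340291135) (nat_lit 0) (nat_lit 13670763562038) (nat_lit 1) (nat_lit 5) (nat_lit 3) (nat_lit 4) (nat_lit 1) (nat_lit 4) (nat_lit 297) (nat_lit 195) (nat_lit 168)) (XT.lf (nat_lit 0) (nat_lit 15721868299962) (nat_lit 152) (nat_lit 30365600222068) (nat_lit 0) (nat_lit 15721644778302) (nat_lit 1) (nat_lit 5) (nat_lit 3) (nat_lit 4) (nat_lit 1) (nat_lit 4) (nat_lit 298) (nat_lit 195) (nat_lit 167))))))))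
noncomputable def xc9 : XT := (XT.nd (nat_lit 32916) (nat_lit 0) (nat_lit 0) (XT.nd (nat_lit 32214) (nat_lit 0) (nat_lit 0) (XT.nd (nat_lit 780) (nat_lit 0) (nat_lit 0) (XT.nd (nat_lit 624) (nat_lit 0) (nat_lit 0) (XT.nd (nat_lit 78) (nat_lit 0) (nat_lit 0) (XT.lf (nat_lit 0) (nat_lit 18080381044339) (nat_lit 152) (nat_lit 34919902048800) (nat_lit 0) (nat_lit 18080156928475) (nat_lit 1) (nat_lit 5) (nat_lit 3) (nat_lit 4) (nat_lit 1) (nat_lit 4) (nat_lit 299) (nat_lit 195) (nat_lit 166)) (XT.lf (nat_lit 0) (nat_lit 20792669448060) (nat_lit 152) (nat_lit 40157351676635) (nat_lit 0) (nat_lit 20792444815496) (nat_lit 1) (nat_lit 5) (nat_lit 3) (nat_lit 4) (nat_lit 1) (nat_lit 4) (nat_lit 300) (nat_lit 195) (nat_lit 165))) (XT.nd (nat_lit 78) (nat_lit 0) (nat_lit 0) (XT.lf (nat_lit 0) (nat_lit 55311440000167) (nat_lit 152) (nat_lit 106813492675416) (nat_lit 0) (nat_lit 55311213217917) (nat_lit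 1) (nat_lit 5) (nat_lit 3) (nat_lit 4) (nat_lit 1) (nat_lit 4) (nat_lit 307) (nat_lit 195) (nat_lit 158)) (XT.lf (nat_lit 0) (nat_lit 63608381627725) (nat_lit 152) (nat_lit 122834992237128) (nat_lit 0) (nat_lit 63608154676565) (nat_lit 1) (nat_lit 5) (nat_lit 3) (nat_lit 4) (nat_lit 1) (nat_lit 4) (nat_lit 308) (nat_lit 195) (nat_lit 157)))) (XT.nd (nat_lit 31200) (nat_lit 0) (nat_lit 0) (XT.nd (nat_lit 78) (nat_lit 0) (nat_lit 0) (XT.lf (nat_lit 0) (nat_lit 73149864143430) (nat_lit 152) (nat_lit 141259717451454) (nat_lit 0) (nat_lit 73149637045392) (nat_lit 1) (nat_lit 5) (nat_lit 3) (nat_lit 4) (nat_lit 1) (nat_lit 4) (nat_lit 309) (nat_lit 195) (nat_lit 156)) (XT.lf (nat_lit 0) (nat_lit 84122568726939) (nat_lit 152) (nat_lit 162448152072588) (nat_lit 0) (nat_lit 84122341501181) (nat_lit 1) (nat_lit 5) (nat_lit 3) (nat_lit 4) (nat_lit 1) (nat_lit 4) (nat_lit 310) (nat_lit 195) (nat_lit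 155))) (XT.nd (nat_lit 78) (nat_lit 0) (nat_lit 0) (XT.lf (nat_lit 0) (nat_lit 116895565427) (nat_lit 152) (nat_lit 233257729357) (nat_lit 0) (nat_lit 116895565427) (nat_lit 1) (nat_lit 5) (nat_lit 3) (nat_lit 4) (nat_lit 1) (nat_lit 4) (nat_lit 268) (nat_lit 196) (nat_lit 196)) (XT.nd (nat_lit 78) (nat_lit 0) (nat_lit 0) (XT.lf (nat_lit 0) (nat_lit 269668919806) (nat_lit 152) (nat_lit 534780631294) (nat_lit 0) (nat_lit 269634708222) (nat_lit 1) (nat_lit 5) (nat_lit 3) (nat_lit 4) (nat_lit 1) (nat_lit 4) (nat_lit 269) (nat_lit 196) (nat_lit 195)) (XT.lf (nat_lit 0) (nat_lit 310856274542) (nat_lit 152) (nat_lit 613431078353) (nat_lit 0) (nat_lit 310792313755) (nat_lit 1) (nat_lit 5) (nat_lit 3) (nat_lit 4) (nat_lit 1) (nat_lit 4) (nat_lit 270) (nat_lit 196) (nat_lit 194)))))) (XT.nd (nat_lit 312) (nat_lit 0) (nat_lit 0) (XT.nd (nat_lit 156) (nat_lit 0) (nat_lit 0) (XT.nd (nat_lit 78)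 (nat_lit 0) (nat_lit 0) (XT.lf (nat_lit 0) (nat_lit 358159034614) (nat_lit 152) (nat_lit 704005612985) (nat_lit 0) (nat_lit 358069204954) (nat_lit 1) (nat_lit 5) (nat_lit 3) (nat_lit 4) (nat_lit 1) (nat_lit 4) (nat_lit 271) (nat_lit 196) (nat_lit 193)) (XT.lf (nat_lit 0) (nat_lit 412502688804) (nat_lit 152) (nat_lit 808276345652) (nat_lit 0) (nat_lit 412390364472) (nat_lit 1) (nat_lit 5) (nat_lit 3) (nat_lit 4) (nat_lit 1) (nat_lit 4) (nat_lit 272) (nat_lit 196) (nat_lit 192))) (XT.nd (nat_lit 78) (nat_lit 0) (nat_lit 0) (XT.lf (nat_lit 0) (nat_lit 474950482522) (nat_lit 152) (nat_lit 928283355905) (nat_lit 0) (nat_lit 474818597606) (nat_lit 1) (nat_lit 5) (nat_lit 3) (nat_lit 4) (nat_lit 1) (nat_lit 4) (nat_lit 273) (nat_lit 196) (nat_lit 191)) (XT.lf (nat_lit 0) (nat_lit 546724220426) (nat_lit 152) (nat_lit 1066374606989) (nat_lit 0) (nat_lit 546575326307) (nat_lit 1) (nat_lit 5) (nat_lit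 3) (nat_lit 4) (nat_lit 1) (nat_lit 4) (nat_lit 274) (nat_lit 196) (nat_lit 190)))) (XT.nd (nat_lit 156) (nat_lit 0) (nat_lit 0) (XT.nd (nat_lit 78) (nat_lit 0) (nat_lit 0) (XT.lf (nat_lit 0) (nat_lit 629228171302) (nat_lit 152) (nat_lit 1225251884251) (nat_lit 0) (nat_lit 629064486571) (nat_lit 1) (nat_lit 5) (nat_lit 3) (nat_lit 4) (nat_lit 1) (nat_lit 4) (nat_lit 275) (nat_lit 196) (nat_lit 189)) (XT.lf (nat_lit 0) (nat_lit 724076542885) (nat_lit 152) (nat_lit 1408023656158) (nat_lit 0) (nat_lit 723899996752) (nat_lit 1) (nat_lit 5) (nat_lit 3) (nat_lit 4) (nat_lit 1) (nat_lit 4) (nat_lit 276) (nat_lit 196) (nat_lit 188))) (XT.nd (nat_lit 78) (nat_lit 0) (nat_lit 0) (XT.lf (nat_lit 0) (nat_lit 833125064184) (nat_lit 152) (nat_lit 1618265892162) (nat_lit 0) (nat_lit 832937334224) (nat_lit 1) (nat_lit 5) (nat_lit 3) (nat_lit 4) (nat_lit 1) (nat_lit 4) (nat_lit 277) (nat_lit 196) (nat_lit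 187)) (XT.nd (nat_lit 78) (nat_lit 0) (nat_lit 0) (XT.lf (nat_lit 0) (nat_lit 958507293224) (nat_lit 152) (nat_lit 1860092027314) (nat_lit 0) (nat_lit 958309838196) (nat_lit 1) (nat_lit 5) (nat_lit 3) (nat_lit 4) (nat_lit 1) (nat_lit 4) (nat_lit 278) (nat_lit 196) (nat_lit 186)) (XT.lf (nat_lit 0) (nat_lit 1102676360573) (nat_lit 152) (nat_lit 2138233442520) (nat_lit 0) (nat_lit 1102470448965) (nat_lit 1) (nat_lit 5) (nat_lit 3) (nat_lit 4) (nat_lit 1) (nat_lit 4) (nat_lit 279) (nat_lit 196) (nat_lit 185))))))) (XT.nd (nat_lit 702) (nat_lit 0) (nat_lit 0) (XT.nd (nat_lit 312) (nat_lit 0) (nat_lit 0) (XT.nd (nat_lit 156) (nat_lit 0) (nat_lit 0) (XT.nd (nat_lit 78) (nat_lit 0) (nat_lit 0) (XT.lf (nat_lit 0) (nat_lit 1268452965375) (nat_lit 152) (nat_lit 2458132035033) (nat_lit 0) (nat_lit 1268239700219) (nat_lit 1) (nat_lit 5) (nat_lit 3) (nat_lit 4) (nat_lit 1) (nat_lit 4) (nat_lit 280)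 (nat_lit 196) (nat_lit 184)) (XT.lf (nat_lit 0) (nat_lit 1459080562941) (nat_lit 152) (nat_lit 2826046690360) (nat_lit 0) (nat_lit 1458860903395) (nat_lit 1) (nat_lit 5) (nat_lit 3) (nat_lit 4) (nat_lit 1) (nat_lit 4) (nat_lit 281) (nat_lit 196) (nat_lit 183))) (XT.nd (nat_lit 78) (nat_lit 0) (nat_lit 0) (XT.lf (nat_lit 0) (nat_lit 1678288823659) (nat_lit 152) (nat_lit 3249175738714) (nat_lit 0) (nat_lit 1678063603775) (nat_lit 1) (nat_lit 5) (nat_lit 3) (nat_lit 4) (nat_lit 1) (nat_lit 4) (nat_lit 282) (nat_lit 196) (nat_lit 182)) (XT.lf (nat_lit 0) (nat_lit 1930366604804) (nat_lit 152) (nat_lit 3735797791909) (nat_lit 0) (nat_lit 1930136549842) (nat_lit 1) (nat_lit 5) (nat_lit 3) (nat_lit 4) (nat_lit 1) (nat_lit 4) (nat_lit 283) (nat_lit 196) (nat_lit 181)))) (XT.nd (nat_lit 156) (nat_lit 0) (nat_lit 0) (XT.nd (nat_lit 78) (nat_lit 0) (nat_lit 0) (XT.lf (nat_lit 0) (nat_lit 2220245862963)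 (nat_lit 152) (nat_lit 4295433716204) (nat_lit 0) (nat_lit 2220011603586) (nat_lit 1) (nat_lit 5) (nat_lit 3) (nat_lit 4) (nat_lit 1) (nat_lit 4) (nat_lit 284) (nat_lit 196) (nat_lit 180)) (XT.lf (nat_lit 0) (nat_lit 2553598148839) (nat_lit 152) (nat_lit 4939032910118) (nat_lit 0) (nat_lit 2553360233449) (nat_lit 1) (nat_lit 5) (nat_lit 3) (nat_lit 4) (nat_lit 1) (nat_lit 4) (nat_lit 285) (nat_lit 196) (nat_lit 179))) (XT.nd (nat_lit 78) (nat_lit 0) (nat_lit 0) (XT.lf (nat_lit 0) (nat_lit 2936945572373) (nat_lit 152) (nat_lit 5679187531794) (nat_lit 0) (nat_lit 2936704477841) (nat_lit 1) (nat_lit 5) (nat_lit 3) (nat_lit 4) (nat_lit 1) (nat_lit 4) (nat_lit 286) (nat_lit 196) (nat_lit 178)) (XT.nd (nat_lit 78) (nat_lit 0) (nat_lit 0) (XT.lf (nat_lit 0) (nat_lit 3377788409243) (nat_lit 152) (nat_lit 6530378867306) (nat_lit 0) (nat_lit 3377544550240) (nat_lit 1) (nat_lit 5) (nat_lit 3) (nat_lit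 4) (nat_lit 1) (nat_lit 4) (nat_lit 287) (nat_lit 196) (nat_lit 177)) (XT.lf (nat_lit 0) (nat_lit 3884751845388) (nat_lit 152) (nat_lit 7509260660175) (nat_lit 0) (nat_lit 3884505582497) (nat_lit 1) (nat_lit 5) (nat_lit 3) (nat_lit 4) (nat_lit 1) (nat_lit 4) (nat_lit 288) (nat_lit 196) (nat_lit 176)))))) (XT.nd (nat_lit 312) (nat_lit 0) (nat_lit 0) (XT.nd (nat_lit 156) (nat_lit 0) (nat_lit 0) (XT.nd (nat_lit 78) (nat_lit 0) (nat_lit 0) (XT.lf (nat_lit 0) (nat_lit 4467754730646) (nat_lit 152) (nat_lit 8634984945481) (nat_lit 0) (nat_lit 4467506377418) (nat_lit 1) (nat_lit 5) (nat_lit 3) (nat_lit 4) (nat_lit 1) (nat_lit 4) (nat_lit 289) (nat_lit 196) (nat_lit 175)) (XT.lf (nat_lit 0) (nat_lit 5138203643206) (nat_lit 152) (nat_lit 9929576763587) (nat_lit 0) (nat_lit 5137953472293) (nat_lit 1) (nat_lit 5) (nat_lit 3) (nat_lit 4) (nat_lit 1) (nat_lit 4) (nat_lit 290) (nat_lit 196) (nat_lit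 174))) (XT.nd (nat_lit 78) (nat_lit 0) (nat_lit 0) (XT.lf (nat_lit 0) (nat_lit 5909216061792) (nat_lit 152) (nat_lit 11418365084848) (nat_lit 0) (nat_lit 5908964310284) (nat_lit 1) (nat_lit 5) (nat_lit 3) (nat_lit 4) (nat_lit 1) (nat_lit 4) (nat_lit 291) (nat_lit 196) (nat_lit 173)) (XT.lf (nat_lit 0) (nat_lit 6795877011986) (nat_lit 152) (nat_lit 13130478376418) (nat_lit 0) (nat_lit 6795623886047) (nat_lit 1) (nat_lit 5) (nat_lit 3) (nat_lit 4) (nat_lit 1) (nat_lit 4) (nat_lit 292) (nat_lit 196) (nat_lit 172)))) (XT.nd (nat_lit 156) (nat_lit 0) (nat_lit 0) (XT.nd (nat_lit 78) (nat_lit 0) (nat_lit 0) (XT.lf (nat_lit 0) (nat_lit 7815534208030) (nat_lit 152) (nat_lit 15099414507047) (nat_lit 0) (nat_lit 7815279886934) (nat_lit 1) (nat_lit 5) (nat_lit 3) (nat_lit 4) (nat_lit 1) (nat_lit 4) (nat_lit 293) (nat_lit 196) (nat_lit 171)) (XT.lf (nat_lit 0) (nat_lit 8988137464630) (nat_lit 152)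 (nat_lit 17363696140159) (nat_lit 0) (nat_lit 8987882104267) (nat_lit 1) (nat_lit 5) (nat_lit 3) (nat_lit 4) (nat_lit 1) (nat_lit 4) (nat_lit 294) (nat_lit 196) (nat_lit 170))) (XT.nd (nat_lit 78) (nat_lit 0) (nat_lit 0) (XT.lf (nat_lit 0) (nat_lit 10336629019414) (nat_lit 152) (nat_lit 19967624438140) (nat_lit 0) (nat_lit 10336372755340) (nat_lit 1) (nat_lit 5) (nat_lit 3) (nat_lit 4) (nat_lit 1) (nat_lit 4) (nat_lit 295) (nat_lit 196) (nat_lit 169)) (XT.nd (nat_lit 78) (nat_lit 0) (nat_lit 0) (XT.lf (nat_lit 0) (nat_lit 11887392402802) (nat_lit 152) (nat_lit 22962145824214) (nat_lit 0) (nat_lit 11887135352893) (nat_lit 1) (nat_lit 5) (nat_lit 3) (nat_lit 4) (nat_lit 1) (nat_lit 4) (nat_lit 296) (nat_lit 196) (nat_lit 168)) (XT.lf (nat_lit 0) (nat_lit 13670768637513) (nat_lit 152) (nat_lit 26405848760280) (nat_lit 0) (nat_lit 13670510904270) (nat_lit 1) (nat_lit 5) (nat_lit 3) (nat_lit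 4) (nat_lit 1) (nat_lit 4) (nat_lit 297) (nat_lit 196) (nat_lit 167))))))))
noncomputable def xc10 : XT := (XT.nd (nat_lit 32526) (nat_lit 0) (nat_lit 0) (XT.nd (nat_lit 1014) (nat_lit 0) (nat_lit 0) (XT.nd (nat_lit 702) (nat_lit 0) (nat_lit 0) (XT.nd (nat_lit 546) (nat_lit 0) (nat_lit 0) (XT.nd (nat_lit 78) (nat_lit 0) (nat_lit 0) (XT.lf (nat_lit 0) (nat_lit 15721649867270) (nat_lit 152) (nat_lit 30366110042915) (nat_lit 0) (nat_lit 15721391539822) (nat_lit 1) (nat_lit 5) (nat_lit 3) (nat_lit 4) (nat_lit 1) (nat_lit 4) (nat_lit 298) (nat_lit 196) (nat_lit 166)) (XT.lf (nat_lit 0) (nat_lit 18080162029176) (nat_lit 152) (nat_lit 34920413045039) (nat_lit 0) (nat_lit 18079903185029) (nat_lit 1) (nat_lit 5) (nat_lit 3) (nat_lit 4) (nat_lit 1) (nat_lit 4) (nat_lit 299) (nat_lit 196) (nat_lit 165))) (XT.nd (nat_lit 78) (nat_lit 0) (nat_lit 0) (XT.lf (nat_lit 0) (nat_lit 41822805986067) (nat_lit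 152) (nat_lit 80767716105536) (nat_lit 0) (nat_lit 41822545186480) (nat_lit 1) (nat_lit 5) (nat_lit 3) (nat_lit 4) (nat_lit 1) (nat_lit 4) (nat_lit 305) (nat_lit 196) (nat_lit 159)) (XT.lf (nat_lit 0) (nat_lit 48096486355640) (nat_lit 152) (nat_lit 92882270530825) (nat_lit 0) (nat_lit 48096225361806) (nat_lit 1) (nat_lit 5) (nat_lit 3) (nat_lit 4) (nat_lit 1) (nat_lit 4) (nat_lit 306) (nat_lit 196) (nat_lit 158)))) (XT.nd (nat_lit 156) (nat_lit 0) (nat_lit 0) (XT.nd (nat_lit 78) (nat_lit 0) (nat_lit 0) (XT.lf (nat_lit 0) (nat_lit 55311218371266) (nat_lit 152) (nat_lit 106814008946020) (nat_lit 0) (nat_lit 55310957208522) (nat_lit 1) (nat_lit 5) (nat_lit 3) (nat_lit 4) (nat_lit 1) (nat_lit 4) (nat_lit 307) (nat_lit 196) (nat_lit 157)) (XT.lf (nat_lit 0) (nat_lit 63608159833249) (nat_lit 152) (nat_lit 122835508841852) (nat_lit 0) (nat_lit 63607898523626) (nat_lit 1) (nat_lit 5) (nat_lit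 3) (nat_lit 4) (nat_lit 1) (nat_lit 4) (nat_lit 308) (nat_lit 196) (nat_lit 156))) (XT.nd (nat_lit 78) (nat_lit 0) (nat_lit 0) (XT.lf (nat_lit 0) (nat_lit 73149642204977) (nat_lit 152) (nat_lit 141260234346717) (nat_lit 0) (nat_lit 73149380767634) (nat_lit 1) (nat_lit 5) (nat_lit 3) (nat_lit 4) (nat_lit 1) (nat_lit 4) (nat_lit 309) (nat_lit 196) (nat_lit 155)) (XT.lf (nat_lit 0) (nat_lit 84122346663287) (nat_lit 152) (nat_lit 162448669220494) (nat_lit 0) (nat_lit 84122085114883) (nat_lit 1) (nat_lit 5) (nat_lit 3) (nat_lit 4) (nat_lit 1) (nat_lit 4) (nat_lit 310) (nat_lit 196) (nat_lit 154))))) (XT.nd (nat_lit 31122) (nat_lit 0) (nat_lit 0) (XT.nd (nat_lit 30966) (nat_lit 0) (nat_lit 0) (XT.nd (nat_lit 30888) (nat_lit 0) (nat_lit 0) (XT.lf (nat_lit 0) (nat_lit 96740956556277) (nat_lit 152) (nat_lit 186815369797670) (nat_lit 0) (nat_lit 96740694911299) (nat_lit 1) (nat_lit 5) (nat_lit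 3) (nat_lit 4) (nat_lit 1) (nat_lit 4) (nat_lit 311) (nat_lit 196) (nat_lit 153)) (XT.lf (nat_lit 0) (nat_lit 87665133501) (nat_lit 152) (nat_lit 177943002537) (nat_lit 0) (nat_lit 87665133501) (nat_lit 1) (nat_lit 5) (nat_lit 3) (nat_lit 4) (nat_lit 1) (nat_lit 4) (nat_lit 266) (nat_lit 197) (nat_lit 197))) (XT.nd (nat_lit 78) (nat_lit 0) (nat_lit 0) (XT.lf (nat_lit 0) (nat_lit 202560294272) (nat_lit 152) (nat_lit 407299937674) (nat_lit 0) (nat_lit 202520950951) (nat_lit 1) (nat_lit 5) (nat_lit 3) (nat_lit 4) (nat_lit 1) (nat_lit 4) (nat_lit 267) (nat_lit 197) (nat_lit 196)) (XT.lf (nat_lit 0) (nat_lit 233791907693) (nat_lit 152) (nat_lit 466593283544) (nat_lit 0) (nat_lit 233718352788) (nat_lit 1) (nat_lit 5) (nat_lit 3) (nat_lit 4) (nat_lit 1) (nat_lit 4) (nat_lit 268) (nat_lit 197) (nat_lit 195)))) (XT.nd (nat_lit 156) (nat_lit 0) (nat_lit 0) (XT.nd (nat_lit 78) (nat_lit 0) (nat_lit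 0) (XT.lf (nat_lit 0) (nat_lit 269636160571) (nat_lit 152) (nat_lit 534926129887) (nat_lit 0) (nat_lit 269532856462) (nat_lit 1) (nat_lit 5) (nat_lit 3) (nat_lit 4) (nat_lit 1) (nat_lit 4) (nat_lit 269) (nat_lit 197) (nat_lit 194)) (XT.lf (nat_lit 0) (nat_lit 310794353505) (nat_lit 152) (nat_lit 613635423697) (nat_lit 0) (nat_lit 310665180523) (nat_lit 1) (nat_lit 5) (nat_lit 3) (nat_lit 4) (nat_lit 1) (nat_lit 4) (nat_lit 270) (nat_lit 197) (nat_lit 193))) (XT.nd (nat_lit 78) (nat_lit 0) (nat_lit 0) (XT.lf (nat_lit 0) (nat_lit 358071755487) (nat_lit 152) (nat_lit 704261129417) (nat_lit 0) (nat_lit 357920087834) (nat_lit 1) (nat_lit 5) (nat_lit 3) (nat_lit 4) (nat_lit 1) (nat_lit 4) (nat_lit 271) (nat_lit 197) (nat_lit 192)) (XT.nd (nat_lit 78) (nat_lit 0) (nat_lit 0) (XT.lf (nat_lit 0) (nat_lit 412393359165) (nat_lit 152) (nat_lit 808576358682) (nat_lit 0) (nat_lit 412222130928) (nat_lit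 1) (nat_lit 5) (nat_lit 3) (nat_lit 4) (nat_lit 1) (nat_lit 4) (nat_lit 272) (nat_lit 197) (nat_lit 191)) (XT.lf (nat_lit 0) (nat_lit 474821978524) (nat_lit 152) (nat_lit 928622061630) (nat_lit 0) (nat_lit 474633741083) (nat_lit 1) (nat_lit 5) (nat_lit 3) (nat_lit 4) (nat_lit 1) (nat_lit 4) (nat_lit 273) (nat_lit 197) (nat_lit 190))))))) (XT.nd (nat_lit 702) (nat_lit 0) (nat_lit 0) (XT.nd (nat_lit 312) (nat_lit 0) (nat_lit 0) (XT.nd (nat_lit 156) (nat_lit 0) (nat_lit 0) (XT.nd (nat_lit 78) (nat_lit 0) (nat_lit 0) (XT.lf (nat_lit 0) (nat_lit 546579043073) (nat_lit 152) (nat_lit 1066746958535) (nat_lit 0) (nat_lit 546376015020) (nat_lit 1) (nat_lit 5) (nat_lit 3) (nat_lit 4) (nat_lit 1) (nat_lit 4) (nat_lit 274) (nat_lit 197) (nat_lit 189)) (XT.lf (nat_lit 0) (nat_lit 629068495380) (nat_lit 152) (nat_lit 1225653493032) (nat_lit 0) (nat_lit 628852605925) (nat_lit 1) (nat_lit 5) (nat_lit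 3) (nat_lit 4) (nat_lit 1) (nat_lit 4) (nat_lit 275) (nat_lit 197) (nat_lit 188))) (XT.nd (nat_lit 78) (nat_lit 0) (nat_lit 0) (XT.lf (nat_lit 0) (nat_lit 723904259511) (nat_lit 152) (nat_lit 1408450706014) (nat_lit 0) (nat_lit 723677186229) (nat_lit 1) (nat_lit 5) (nat_lit 3) (nat_lit 4) (nat_lit 1) (nat_lit 4) (nat_lit 276) (nat_lit 197) (nat_lit 187)) (XT.lf (nat_lit 0) (nat_lit 832941817808) (nat_lit 152) (nat_lit 1618715064691) (nat_lit 0) (nat_lit 832705019458) (nat_lit 1) (nat_lit 5) (nat_lit 3) (nat_lit 4) (nat_lit 1) (nat_lit 4) (nat_lit 277) (nat_lit 197) (nat_lit 186)))) (XT.nd (nat_lit 156) (nat_lit 0) (nat_lit 0) (XT.nd (nat_lit 78) (nat_lit 0) (nat_lit 0) (XT.lf (nat_lit 0) (nat_lit 958314513803) (nat_lit 152) (nat_lit 1860560436950) (nat_lit 0) (nat_lit 958069258873) (nat_lit 1) (nat_lit 5) (nat_lit 3) (nat_lit 4) (nat_lit 1) (nat_lit 4) (nat_lit 278) (nat_lit 197) (nat_lit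 185)) (XT.lf (nat_lit 0) (nat_lit 1102475291547) (nat_lit 152) (nat_lit 2138718580076) (nat_lit 0) (nat_lit 1102222683069) (nat_lit 1) (nat_lit 5) (nat_lit 3) (nat_lit 4) (nat_lit 1) (nat_lit 4) (nat_lit 279) (nat_lit 197) (nat_lit 184))) (XT.nd (nat_lit 78) (nat_lit 0) (nat_lit 0) (XT.lf (nat_lit 0) (nat_lit 1268244687998) (nat_lit 152) (nat_lit 2458631718606) (nat_lit 0) (nat_lit 1267985685130) (nat_lit 1) (nat_lit 5) (nat_lit 3) (nat_lit 4) (nat_lit 1) (nat_lit 4) (nat_lit 280) (nat_lit 197) (nat_lit 183)) (XT.nd (nat_lit 78) (nat_lit 0) (nat_lit 0) (XT.lf (nat_lit 0) (nat_lit 1458866017432) (nat_lit 152) (nat_lit 2826559022643) (nat_lit 0) (nat_lit 1458601454226) (nat_lit 1) (nat_lit 5) (nat_lit 3) (nat_lit 4) (nat_lit 1) (nat_lit 4) (nat_lit 281) (nat_lit 197) (nat_lit 182)) (XT.lf (nat_lit 0) (nat_lit 1678068827601) (nat_lit 152) (nat_lit 3249699069875) (nat_lit 0) (nat_lit 1677799429318)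 (nat_lit 1) (nat_lit 5) (nat_lit 3) (nat_lit 4) (nat_lit 1) (nat_lit 4) (nat_lit 282) (nat_lit 197) (nat_lit 181)))))) (XT.nd (nat_lit 312) (nat_lit 0) (nat_lit 0) (XT.nd (nat_lit 156) (nat_lit 0) (nat_lit 0) (XT.nd (nat_lit 78) (nat_lit 0) (nat_lit 0) (XT.lf (nat_lit 0) (nat_lit 1930141869138) (nat_lit 152) (nat_lit 3736330687313) (nat_lit 0) (nat_lit 1929868266439) (nat_lit 1) (nat_lit 5) (nat_lit 3) (nat_lit 4) (nat_lit 1) (nat_lit 4) (nat_lit 283) (nat_lit 197) (nat_lit 180)) (XT.lf (nat_lit 0) (nat_lit 2220017005898) (nat_lit 152) (nat_lit 4295974928341) (nat_lit 0) (nat_lit 2219739747186) (nat_lit 1) (nat_lit 5) (nat_lit 3) (nat_lit 4) (nat_lit 1) (nat_lit 4) (nat_lit 284) (nat_lit 197) (nat_lit 179))) (XT.nd (nat_lit 78) (nat_lit 0) (nat_lit 0) (XT.lf (nat_lit 0) (nat_lit 2553365707949) (nat_lit 152) (nat_lit 4939581354196) (nat_lit 0) (nat_lit 2553085270096) (nat_lit 1) (nat_lit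 5) (nat_lit 3) (nat_lit 4) (nat_lit 1) (nat_lit 4) (nat_lit 285) (nat_lit 197) (nat_lit 178)) (XT.lf (nat_lit 0) (nat_lit 2936710015114) (nat_lit 152) (nat_lit 5679742264516) (nat_lit 0) (nat_lit 2936426812789) (nat_lit 1) (nat_lit 5) (nat_lit 3) (nat_lit 4) (nat_lit 1) (nat_lit 4) (nat_lit 286) (nat_lit 197) (nat_lit 177)))) (XT.nd (nat_lit 156) (nat_lit 0) (nat_lit 0) (XT.nd (nat_lit 78) (nat_lit 0) (nat_lit 0) (XT.lf (nat_lit 0) (nat_lit 3377550142098) (nat_lit 152) (nat_lit 6530939068414) (nat_lit 0) (nat_lit 3377264535886) (nat_lit 1) (nat_lit 5) (nat_lit 3) (nat_lit 4) (nat_lit 1) (nat_lit 4) (nat_lit 287) (nat_lit 197) (nat_lit 176)) (XT.lf (nat_lit 0) (nat_lit 3884511221820) (nat_lit 152) (nat_lit 7509825616403) (nat_lit 0) (nat_lit 3884223525270) (nat_lit 1) (nat_lit 5) (nat_lit 3) (nat_lit 4) (nat_lit 1) (nat_lit 4) (nat_lit 288) (nat_lit 197) (nat_lit 175))) (XT.nd (nat_lit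 78) (nat_lit 0) (nat_lit 0) (XT.lf (nat_lit 0) (nat_lit 4467512058014) (nat_lit 152) (nat_lit 8635554036594) (nat_lit 0) (nat_lit 4467222543780) (nat_lit 1) (nat_lit 5) (nat_lit 3) (nat_lit 4) (nat_lit 1) (nat_lit 4) (nat_lit 289) (nat_lit 197) (nat_lit 174)) (XT.nd (nat_lit 78) (nat_lit 0) (nat_lit 0) (XT.lf (nat_lit 0) (nat_lit 5137959188780) (nat_lit 152) (nat_lit 9930149450253) (nat_lit 0) (nat_lit 5137668093951) (nat_lit 1) (nat_lit 5) (nat_lit 3) (nat_lit 4) (nat_lit 1) (nat_lit 4) (nat_lit 290) (nat_lit 197) (nat_lit 173)) (XT.lf (nat_lit 0) (nat_lit 5908970057980) (nat_lit 152) (nat_lit 11418940898082) (nat_lit 0) (nat_lit 5908677588720) (nat_lit 1) (nat_lit 5) (nat_lit 3) (nat_lit 4) (nat_lit 1) (nat_lit 4) (nat_lit 291) (nat_lit 197) (nat_lit 172))))))))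
noncomputable def xc11 : XT := (XT.nd (nat_lit 32448) (nat_lit 0) (nat_lit 0) (XT.nd (nat_lit 1092) (nat_lit 0) (nat_lit 0) (XT.nd (nat_lit 312) (nat_lit 0) (nat_lit 0) (XT.nd (nat_lit 156) (nat_lit 0) (nat_lit 0) (XT.nd (nat_lit 78) (nat_lit 0) (nat_lit 0) (XT.lf (nat_lit 0) (nat_lit 6795629660882) (nat_lit 152) (nat_lit 13131056908407) (nat_lit 0) (nat_lit 6795335996464) (nat_lit 1) (nat_lit 5) (nat_lit 3) (nat_lit 4) (nat_lit 1) (nat_lit 4) (nat_lit 292) (nat_lit 197) (nat_lit 171)) (XT.lf (nat_lit 0) (nat_lit 7815285685367) (nat_lit 152) (nat_lit 15099995403170) (nat_lit 0) (nat_lit 7814990981682) (nat_lit 1) (nat_lit 5) (nat_lit 3) (nat_lit 4) (nat_lit 1) (nat_lit 4) (nat_lit 293) (nat_lit 197) (nat_lit 170))) (XT.nd (nat_lit 78) (nat_lit 0) (nat_lit 0) (XT.lf (nat_lit 0) (nat_lit 8987887923220) (nat_lit 152) (nat_lit 17364279092050) (nat_lit 0) (nat_lit 8987592315825) (nat_lit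 1) (nat_lit 5) (nat_lit 3) (nat_lit 4) (nat_lit 1) (nat_lit 4) (nat_lit 294) (nat_lit 197) (nat_lit 169)) (XT.lf (nat_lit 0) (nat_lit 10336378592137) (nat_lit 152) (nat_lit 19968209177658) (nat_lit 0) (nat_lit 10336082198907) (nat_lit 1) (nat_lit 5) (nat_lit 3) (nat_lit 4) (nat_lit 1) (nat_lit 4) (nat_lit 295) (nat_lit 197) (nat_lit 168)))) (XT.nd (nat_lit 156) (nat_lit 0) (nat_lit 0) (XT.nd (nat_lit 78) (nat_lit 0) (nat_lit 0) (XT.lf (nat_lit 0) (nat_lit 11887141205207) (nat_lit 152) (nat_lit 22962732118188) (nat_lit 0) (nat_lit 11886844128642) (nat_lit 1) (nat_lit 5) (nat_lit 3) (nat_lit 4) (nat_lit 1) (nat_lit 4) (nat_lit 296) (nat_lit 197) (nat_lit 167)) (XT.lf (nat_lit 0) (nat_lit 13670516770076) (nat_lit 152) (nat_lit 26406436405956) (nat_lit 0) (nat_lit 13670219099306) (nat_lit 1) (nat_lit 5) (nat_lit 3) (nat_lit 4) (nat_lit 1) (nat_lit 4) (nat_lit 297) (nat_lit 197) (nat_lit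 166))) (XT.nd (nat_lit 78) (nat_lit 0) (nat_lit 0) (XT.lf (nat_lit 0) (nat_lit 15721397417361) (nat_lit 152) (nat_lit 30366698863983) (nat_lit 0) (nat_lit 15721099229892) (nat_lit 1) (nat_lit 5) (nat_lit 3) (nat_lit 4) (nat_lit 1) (nat_lit 4) (nat_lit 298) (nat_lit 197) (nat_lit 165)) (XT.nd (nat_lit 468) (nat_lit 0) (nat_lit 0) (XT.lf (nat_lit 0) (nat_lit 18079909072769) (nat_lit 152) (nat_lit 34921002888188) (nat_lit 0) (nat_lit 18079610435997) (nat_lit 1) (nat_lit 5) (nat_lit 3) (nat_lit 4) (nat_lit 1) (nat_lit 4) (nat_lit 299) (nat_lit 197) (nat_lit 164)) (XT.lf (nat_lit 0) (nat_lit 41822551112831) (nat_lit 152) (nat_lit 80768309816731) (nat_lit 0) (nat_lit 41822250775676) (nat_lit 1) (nat_lit 5) (nat_lit 3) (nat_lit 4) (nat_lit 1) (nat_lit 4) (nat_lit 305) (nat_lit 197) (nat_lit 158)))))) (XT.nd (nat_lit 312) (nat_lit 0) (nat_lit 0) (XT.nd (nat_lit 156) (nat_lit 0) (nat_lit 0) (XT.nd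 (nat_lit 78) (nat_lit 0) (nat_lit 0) (XT.lf (nat_lit 0) (nat_lit 48096231291993) (nat_lit 152) (nat_lit 92882864626258) (nat_lit 0) (nat_lit 48095930785928) (nat_lit 1) (nat_lit 5) (nat_lit 3) (nat_lit 4) (nat_lit 1) (nat_lit 4) (nat_lit 306) (nat_lit 197) (nat_lit 157)) (XT.lf (nat_lit 0) (nat_lit 55310963142043) (nat_lit 152) (nat_lit 106814603375573) (nat_lit 0) (nat_lit 55310662489100) (nat_lit 1) (nat_lit 5) (nat_lit 3) (nat_lit 4) (nat_lit 1) (nat_lit 4) (nat_lit 307) (nat_lit 197) (nat_lit 156))) (XT.nd (nat_lit 78) (nat_lit 0) (nat_lit 0) (XT.lf (nat_lit 0) (nat_lit 63607904460048) (nat_lit 152) (nat_lit 122836103561943) (nat_lit 0) (nat_lit 63607603679384) (nat_lit 1) (nat_lit 5) (nat_lit 3) (nat_lit 4) (nat_lit 1) (nat_lit 4) (nat_lit 308) (nat_lit 197) (nat_lit 155)) (XT.lf (nat_lit 0) (nat_lit 73149386706578) (nat_lit 152) (nat_lit 141260829319452) (nat_lit 0) (nat_lit 73149085814853)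 (nat_lit 1) (nat_lit 5) (nat_lit 3) (nat_lit 4) (nat_lit 1) (nat_lit 4) (nat_lit 309) (nat_lit 197) (nat_lit 154)))) (XT.nd (nat_lit 30810) (nat_lit 0) (nat_lit 0) (XT.nd (nat_lit 78) (nat_lit 0) (nat_lit 0) (XT.lf (nat_lit 0) (nat_lit 84122091056020) (nat_lit 152) (nat_lit 162449264412918) (nat_lit 0) (nat_lit 84121790067720) (nat_lit 1) (nat_lit 5) (nat_lit 3) (nat_lit 4) (nat_lit 1) (nat_lit 4) (nat_lit 310) (nat_lit 197) (nat_lit 153)) (XT.lf (nat_lit 0) (nat_lit 96740700854343) (nat_lit 152) (nat_lit 186815965181127) (nat_lit 0) (nat_lit 96740399782065) (nat_lit 1) (nat_lit 5) (nat_lit 3) (nat_lit 4) (nat_lit 1) (nat_lit 4) (nat_lit 311) (nat_lit 197) (nat_lit 152))) (XT.nd (nat_lit 78) (nat_lit 0) (nat_lit 0) (XT.lf (nat_lit 0) (nat_lit 65454021302) (nat_lit 152) (nat_lit 136352119289) (nat_lit 0) (nat_lit 65454021302) (nat_lit 1) (nat_lit 5) (nat_lit 3) (nat_lit 4) (nat_lit 1)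 (nat_lit 4) (nat_lit 264) (nat_lit 198) (nat_lit 198)) (XT.nd (nat_lit 78) (nat_lit 0) (nat_lit 0) (XT.lf (nat_lit 0) (nat_lit 151614309298) (nat_lit 152) (nat_lit 311345560979) (nat_lit 0) (nat_lit 151569064478) (nat_lit 1) (nat_lit 5) (nat_lit 3) (nat_lit 4) (nat_lit 1) (nat_lit 4) (nat_lit 265) (nat_lit 198) (nat_lit 197)) (XT.lf (nat_lit 0) (nat_lit 175331160365) (nat_lit 152) (nat_lit 355975503628) (nat_lit 0) (nat_lit 175246572224) (nat_lit 1) (nat_lit 5) (nat_lit 3) (nat_lit 4) (nat_lit 1) (nat_lit 4) (nat_lit 266) (nat_lit 198) (nat_lit 196))))))) (XT.nd (nat_lit 702) (nat_lit 0) (nat_lit 0) (XT.nd (nat_lit 312) (nat_lit 0) (nat_lit 0) (XT.nd (nat_lit 156) (nat_lit 0) (nat_lit 0) (XT.nd (nat_lit 78) (nat_lit 0) (nat_lit 0) (XT.lf (nat_lit 0) (nat_lit 202522621152) (nat_lit 152) (nat_lit 407467261055) (nat_lit 0) (nat_lit 202403821427) (nat_lit 1) (nat_lit 5) (nat_lit 3) (nat_lit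 4) (nat_lit 1) (nat_lit 4) (nat_lit 267) (nat_lit 198) (nat_lit 195)) (XT.lf (nat_lit 0) (nat_lit 233720698500) (nat_lit 152) (nat_lit 466828280689) (nat_lit 0) (nat_lit 233572149571) (nat_lit 1) (nat_lit 5) (nat_lit 3) (nat_lit 4) (nat_lit 1) (nat_lit 4) (nat_lit 268) (nat_lit 198) (nat_lit 194))) (XT.nd (nat_lit 78) (nat_lit 0) (nat_lit 0) (XT.lf (nat_lit 0) (nat_lit 269535789575) (nat_lit 152) (nat_lit 535219973783) (nat_lit 0) (nat_lit 269361371774) (nat_lit 1) (nat_lit 5) (nat_lit 3) (nat_lit 4) (nat_lit 1) (nat_lit 4) (nat_lit 269) (nat_lit 198) (nat_lit 193)) (XT.lf (nat_lit 0) (nat_lit 310668624420) (nat_lit 152) (nat_lit 613980438681) (nat_lit 0) (nat_lit 310471711947) (nat_lit 1) (nat_lit 5) (nat_lit 3) (nat_lit 4) (nat_lit 1) (nat_lit 4) (nat_lit 270) (nat_lit 198) (nat_lit 192)))) (XT.nd (nat_lit 156) (nat_lit 0) (nat_lit 0) (XT.nd (nat_lit 78) (nat_lit 0) (nat_lit 0) (XT.lf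 (nat_lit 0) (nat_lit 357923975890) (nat_lit 152) (nat_lit 704650641000) (nat_lit 0) (nat_lit 357707502832) (nat_lit 1) (nat_lit 5) (nat_lit 3) (nat_lit 4) (nat_lit 1) (nat_lit 4) (nat_lit 271) (nat_lit 198) (nat_lit 191)) (XT.lf (nat_lit 0) (nat_lit 412226405209) (nat_lit 152) (nat_lit 809004562960) (nat_lit 0) (nat_lit 411992922948) (nat_lit 1) (nat_lit 5) (nat_lit 3) (nat_lit 4) (nat_lit 1) (nat_lit 4) (nat_lit 272) (nat_lit 198) (nat_lit 190))) (XT.nd (nat_lit 78) (nat_lit 0) (nat_lit 0) (XT.lf (nat_lit 0) (nat_lit 474638351213) (nat_lit 152) (nat_lit 929083911728) (nat_lit 0) (nat_lit 474390078341) (nat_lit 1) (nat_lit 5) (nat_lit 3) (nat_lit 4) (nat_lit 1) (nat_lit 4) (nat_lit 273) (nat_lit 198) (nat_lit 189)) (XT.nd (nat_lit 78) (nat_lit 0) (nat_lit 0) (XT.lf (nat_lit 0) (nat_lit 546380917193) (nat_lit 152) (nat_lit 1067238065868) (nat_lit 0) (nat_lit 546119782918) (nat_lit 1)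 (nat_lit 5) (nat_lit 3) (nat_lit 4) (nat_lit 1) (nat_lit 4) (nat_lit 274) (nat_lit 198) (nat_lit 188)) (XT.lf (nat_lit 0) (nat_lit 628857762047) (nat_lit 152) (nat_lit 1226170041440) (nat_lit 0) (nat_lit 628585443946) (nat_lit 1) (nat_lit 5) (nat_lit 3) (nat_lit 4) (nat_lit 1) (nat_lit 4) (nat_lit 275) (nat_lit 198) (nat_lit 187)))))) (XT.nd (nat_lit 312) (nat_lit 0) (nat_lit 0) (XT.nd (nat_lit 156) (nat_lit 0) (nat_lit 0) (XT.nd (nat_lit 78) (nat_lit 0) (nat_lit 0) (XT.lf (nat_lit 0) (nat_lit 723682563177) (nat_lit 152) (nat_lit 1408989377095) (nat_lit 0) (nat_lit 723400520007) (nat_lit 1) (nat_lit 5) (nat_lit 3) (nat_lit 4) (nat_lit 1) (nat_lit 4) (nat_lit 276) (nat_lit 198) (nat_lit 186)) (XT.lf (nat_lit 0) (nat_lit 832710588429) (nat_lit 152) (nat_lit 1619272972880) (nat_lit 0) (nat_lit 832420088679) (nat_lit 1) (nat_lit 5) (nat_lit 3) (nat_lit 4) (nat_lit 1) (nat_lit 4) (nat_lit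 277) (nat_lit 198) (nat_lit 185))) (XT.nd (nat_lit 78) (nat_lit 0) (nat_lit 0) (XT.lf (nat_lit 0) (nat_lit 958074994819) (nat_lit 152) (nat_lit 1861135073059) (nat_lit 0) (nat_lit 957777141521) (nat_lit 1) (nat_lit 5) (nat_lit 3) (nat_lit 4) (nat_lit 1) (nat_lit 4) (nat_lit 278) (nat_lit 198) (nat_lit 184)) (XT.lf (nat_lit 0) (nat_lit 1102228564212) (nat_lit 152) (nat_lit 2139307762201) (nat_lit 0) (nat_lit 1101924316525) (nat_lit 1) (nat_lit 5) (nat_lit 3) (nat_lit 4) (nat_lit 1) (nat_lit 4) (nat_lit 279) (nat_lit 198) (nat_lit 183)))) (XT.nd (nat_lit 156) (nat_lit 0) (nat_lit 0) (XT.nd (nat_lit 78) (nat_lit 0) (nat_lit 0) (XT.lf (nat_lit 0) (nat_lit 1267991692531) (nat_lit 152) (nat_lit 2459233549442) (nat_lit 0) (nat_lit 1267681884505) (nat_lit 1) (nat_lit 5) (nat_lit 3) (nat_lit 4) (nat_lit 1) (nat_lit 4) (nat_lit 280) (nat_lit 198) (nat_lit 182)) (XT.lf (nat_lit 0) (nat_lit 1458607571416)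 (nat_lit 152) (nat_lit 2827171852358) (nat_lit 0) (nat_lit 1458292928313) (nat_lit 1) (nat_lit 5) (nat_lit 3) (nat_lit 4) (nat_lit 1) (nat_lit 4) (nat_lit 281) (nat_lit 198) (nat_lit 181))) (XT.nd (nat_lit 78) (nat_lit 0) (nat_lit 0) (XT.lf (nat_lit 0) (nat_lit 1677805641977) (nat_lit 152) (nat_lit 3250321463832) (nat_lit 0) (nat_lit 1677486794458) (nat_lit 1) (nat_lit 5) (nat_lit 3) (nat_lit 4) (nat_lit 1) (nat_lit 4) (nat_lit 282) (nat_lit 198) (nat_lit 180)) (XT.nd (nat_lit 78) (nat_lit 0) (nat_lit 0) (XT.lf (nat_lit 0) (nat_lit 1929874562115) (nat_lit 152) (nat_lit 3736961398002) (nat_lit 0) (nat_lit 1929552058583) (nat_lit 1) (nat_lit 5) (nat_lit 3) (nat_lit 4) (nat_lit 1) (nat_lit 4) (nat_lit 283) (nat_lit 198) (nat_lit 179)) (XT.lf (nat_lit 0) (nat_lit 2219746115050) (nat_lit 152) (nat_lit 4296612870971) (nat_lit 0) (nat_lit 2219420432377) (nat_lit 1) (nat_lit 5) (nat_lit 3) (nat_lit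 4) (nat_lit 1) (nat_lit 4) (nat_lit 284) (nat_lit 198) (nat_lit 178))))))))
noncomputable def xc12 : XT := (XT.nd (nat_lit 1638) (nat_lit 0) (nat_lit 0) (XT.nd (nat_lit 624) (nat_lit 0) (nat_lit 0) (XT.nd (nat_lit 312) (nat_lit 0) (nat_lit 0) (XT.nd (nat_lit 156) (nat_lit 0) (nat_lit 0) (XT.nd (nat_lit 78) (nat_lit 0) (nat_lit 0) (XT.lf (nat_lit 0) (nat_lit 2553091700732) (nat_lit 152) (nat_lit 4940225585471) (nat_lit 0) (nat_lit 2552763253588) (nat_lit 1) (nat_lit 5) (nat_lit 3) (nat_lit 4) (nat_lit 1) (nat_lit 4) (nat_lit 285) (nat_lit 198) (nat_lit 177)) (XT.lf (nat_lit 0) (nat_lit 2936433298011) (nat_lit 152) (nat_lit 5680391964177) (nat_lit 0) (nat_lit 2936102446978) (nat_lit 1) (nat_lit 5) (nat_lit 3) (nat_lit 4) (nat_lit 1) (nat_lit 4) (nat_lit 286) (nat_lit 198) (nat_lit 176))) (XT.nd (nat_lit 78) (nat_lit 0) (nat_lit 0) (XT.lf (nat_lit 0) (nat_lit 3377271068572) (nat_lit 152)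 (nat_lit 6531593523194) (nat_lit 0) (nat_lit 3376938127202) (nat_lit 1) (nat_lit 5) (nat_lit 3) (nat_lit 4) (nat_lit 1) (nat_lit 4) (nat_lit 287) (nat_lit 198) (nat_lit 175)) (XT.lf (nat_lit 0) (nat_lit 3884230099230) (nat_lit 152) (nat_lit 7510484206069) (nat_lit 0) (nat_lit 3883895340176) (nat_lit 1) (nat_lit 5) (nat_lit 3) (nat_lit 4) (nat_lit 1) (nat_lit 4) (nat_lit 288) (nat_lit 198) (nat_lit 174)))) (XT.nd (nat_lit 156) (nat_lit 0) (nat_lit 0) (XT.nd (nat_lit 78) (nat_lit 0) (nat_lit 0) (XT.lf (nat_lit 0) (nat_lit 4467229153631) (nat_lit 152) (nat_lit 8636216221813) (nat_lit 0) (nat_lit 4466892813981) (nat_lit 1) (nat_lit 5) (nat_lit 3) (nat_lit 4) (nat_lit 1) (nat_lit 4) (nat_lit 289) (nat_lit 198) (nat_lit 173)) (XT.lf (nat_lit 0) (nat_lit 5137674735010) (nat_lit 152) (nat_lit 9930814762040) (nat_lit 0) (nat_lit 5137337020930) (nat_lit 1) (nat_lit 5) (nat_lit 3) (nat_lit 4) (nat_lit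 1) (nat_lit 4) (nat_lit 290) (nat_lit 198) (nat_lit 172))) (XT.nd (nat_lit 78) (nat_lit 0) (nat_lit 0) (XT.lf (nat_lit 0) (nat_lit 5908684256918) (nat_lit 152) (nat_lit 11419608928623) (nat_lit 0) (nat_lit 5908345347680) (nat_lit 1) (nat_lit 5) (nat_lit 3) (nat_lit 4) (nat_lit 1) (nat_lit 4) (nat_lit 291) (nat_lit 198) (nat_lit 171)) (XT.lf (nat_lit 0) (nat_lit 6795342688260) (nat_lit 152) (nat_lit 13131727303083) (nat_lit 0) (nat_lit 6795002739756) (nat_lit 1) (nat_lit 5) (nat_lit 3) (nat_lit 4) (nat_lit 1) (nat_lit 4) (nat_lit 292) (nat_lit 198) (nat_lit 170))))) (XT.nd (nat_lit 312) (nat_lit 0) (nat_lit 0) (XT.nd (nat_lit 156) (nat_lit 0) (nat_lit 0) (XT.nd (nat_lit 78) (nat_lit 0) (nat_lit 0) (XT.lf (nat_lit 0) (nat_lit 7814997693999) (nat_lit 152) (nat_lit 15100667853614) (nat_lit 0) (nat_lit 7814656841784) (nat_lit 1) (nat_lit 5) (nat_lit 3) (nat_lit 4) (nat_lit 1) (nat_lit 4)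 (nat_lit 293) (nat_lit 198) (nat_lit 169)) (XT.lf (nat_lit 0) (nat_lit 8987599045985) (nat_lit 152) (nat_lit 17364953330120) (nat_lit 0) (nat_lit 8987257407935) (nat_lit 1) (nat_lit 5) (nat_lit 3) (nat_lit 4) (nat_lit 1) (nat_lit 4) (nat_lit 294) (nat_lit 198) (nat_lit 168))) (XT.nd (nat_lit 78) (nat_lit 0) (nat_lit 0) (XT.lf (nat_lit 0) (nat_lit 10336088944584) (nat_lit 152) (nat_lit 19968884970184) (nat_lit 0) (nat_lit 10335746623199) (nat_lit 1) (nat_lit 5) (nat_lit 3) (nat_lit 4) (nat_lit 1) (nat_lit 4) (nat_lit 295) (nat_lit 198) (nat_lit 167)) (XT.lf (nat_lit 0) (nat_lit 11886850887811) (nat_lit 152) (nat_lit 22963409262416) (nat_lit 0) (nat_lit 11886507972222) (nat_lit 1) (nat_lit 5) (nat_lit 3) (nat_lit 4) (nat_lit 1) (nat_lit 4) (nat_lit 296) (nat_lit 198) (nat_lit 166)))) (XT.nd (nat_lit 156) (nat_lit 0) (nat_lit 0) (XT.nd (nat_lit 78) (nat_lit 0) (nat_lit 0) (XT.lf (nat_lit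 0) (nat_lit 13670225870208) (nat_lit 152) (nat_lit 26407114725577) (nat_lit 0) (nat_lit 13669882437919) (nat_lit 1) (nat_lit 5) (nat_lit 3) (nat_lit 4) (nat_lit 1) (nat_lit 4) (nat_lit 297) (nat_lit 198) (nat_lit 165)) (XT.lf (nat_lit 0) (nat_lit 15721106010996) (nat_lit 152) (nat_lit 30367378205685) (nat_lit 0) (nat_lit 15720762129403) (nat_lit 1) (nat_lit 5) (nat_lit 3) (nat_lit 4) (nat_lit 1) (nat_lit 4) (nat_lit 298) (nat_lit 198) (nat_lit 164))) (XT.nd (nat_lit 390) (nat_lit 0) (nat_lit 0) (XT.lf (nat_lit 0) (nat_lit 18079617225972) (nat_lit 152) (nat_lit 34921683118655) (nat_lit 0) (nat_lit 18079272953681) (nat_lit 1) (nat_lit 5) (nat_lit 3) (nat_lit 4) (nat_lit 1) (nat_lit 4) (nat_lit 299) (nat_lit 198) (nat_lit 163)) (XT.nd (nat_lit 78) (nat_lit 0) (nat_lit 0) (XT.lf (nat_lit 0) (nat_lit 36366883364814) (nat_lit 152) (nat_lit 70234598258290) (nat_lit 0) (nat_lit 36366537782839)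 (nat_lit 1) (nat_lit 5) (nat_lit 3) (nat_lit 4) (nat_lit 1) (nat_lit 4) (nat_lit 304) (nat_lit 198) (nat_lit 158)) (XT.lf (nat_lit 0) (nat_lit 41822257599226) (nat_lit 152) (nat_lit 80768993410716) (nat_lit 0) (nat_lit 41821911848340) (nat_lit 1) (nat_lit 5) (nat_lit 3) (nat_lit 4) (nat_lit 1) (nat_lit 4) (nat_lit 305) (nat_lit 198) (nat_lit 157))))))) (XT.nd (nat_lit 31278) (nat_lit 0) (nat_lit 0) (XT.nd (nat_lit 312) (nat_lit 0) (nat_lit 0) (XT.nd (nat_lit 156) (nat_lit 0) (nat_lit 0) (XT.nd (nat_lit 78) (nat_lit 0) (nat_lit 0) (XT.lf (nat_lit 0) (nat_lit 48095937612813) (nat_lit 152) (nat_lit 92883548554364) (nat_lit 0) (nat_lit 48095591715049) (nat_lit 1) (nat_lit 5) (nat_lit 3) (nat_lit 4) (nat_lit 1) (nat_lit 4) (nat_lit 306) (nat_lit 198) (nat_lit 156)) (XT.lf (nat_lit 0) (nat_lit 55310669318885) (nat_lit 152) (nat_lit 106815287594217) (nat_lit 0) (nat_lit 55310323293401) (nat_lit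 1) (nat_lit 5) (nat_lit 3) (nat_lit 4) (nat_lit 1) (nat_lit 4) (nat_lit 307) (nat_lit 198) (nat_lit 155))) (XT.nd (nat_lit 78) (nat_lit 0) (nat_lit 0) (XT.lf (nat_lit 0) (nat_lit 63607610511692) (nat_lit 152) (nat_lit 122836788033231) (nat_lit 0) (nat_lit 63607264375147) (nat_lit 1) (nat_lit 5) (nat_lit 3) (nat_lit 4) (nat_lit 1) (nat_lit 4) (nat_lit 308) (nat_lit 198) (nat_lit 154)) (XT.lf (nat_lit 0) (nat_lit 73149092649353) (nat_lit 152) (nat_lit 141261514010428) (nat_lit 0) (nat_lit 73148746416233) (nat_lit 1) (nat_lit 5) (nat_lit 3) (nat_lit 4) (nat_lit 1) (nat_lit 4) (nat_lit 309) (nat_lit 198) (nat_lit 153)))) (XT.nd (nat_lit 30732) (nat_lit 0) (nat_lit 0) (XT.nd (nat_lit 30654) (nat_lit 0) (nat_lit 0) (XT.lf (nat_lit 0) (nat_lit 84121796904127) (nat_lit 152) (nat_lit 162449949294928) (nat_lit 0) (nat_lit 84121450587030) (nat_lit 1) (nat_lit 5) (nat_lit 3) (nat_lit 4) (nat_lit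 1) (nat_lit 4) (nat_lit 310) (nat_lit 198) (nat_lit 152)) (XT.lf (nat_lit 0) (nat_lit 48534217333) (nat_lit 152) (nat_lit 105173683021) (nat_lit 0) (nat_lit 48534217333) (nat_lit 1) (nat_lit 5) (nat_lit 3) (nat_lit 4) (nat_lit 1) (nat_lit 4) (nat_lit 262) (nat_lit 199) (nat_lit 199))) (XT.nd (nat_lit 78) (nat_lit 0) (nat_lit 0) (XT.lf (nat_lit 0) (nat_lit 112859269216) (nat_lit 152) (nat_lit 239295510554) (nat_lit 0) (nat_lit 112807237674) (nat_lit 1) (nat_lit 5) (nat_lit 3) (nat_lit 4) (nat_lit 1) (nat_lit 4) (nat_lit 263) (nat_lit 199) (nat_lit 198)) (XT.nd (nat_lit 78) (nat_lit 0) (nat_lit 0) (XT.lf (nat_lit 0) (nat_lit 130909069972) (nat_lit 152) (nat_lit 272807161914) (nat_lit 0) (nat_lit 130811793609) (nat_lit 1) (nat_lit 5) (nat_lit 3) (nat_lit 4) (nat_lit 1) (nat_lit 4) (nat_lit 264) (nat_lit 199) (nat_lit 197)) (XT.lf (nat_lit 0) (nat_lit 151570985210) (nat_lit 152) (nat_lit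 311537982867) (nat_lit 0) (nat_lit 151434365526) (nat_lit 1) (nat_lit 5) (nat_lit 3) (nat_lit 4) (nat_lit 1) (nat_lit 4) (nat_lit 265) (nat_lit 199) (nat_lit 196)))))) (XT.nd (nat_lit 312) (nat_lit 0) (nat_lit 0) (XT.nd (nat_lit 156) (nat_lit 0) (nat_lit 0) (XT.nd (nat_lit 78) (nat_lit 0) (nat_lit 0) (XT.lf (nat_lit 0) (nat_lit 175249269793) (nat_lit 152) (nat_lit 356245750345) (nat_lit 0) (nat_lit 175078438525) (nat_lit 1) (nat_lit 5) (nat_lit 3) (nat_lit 4) (nat_lit 1) (nat_lit 4) (nat_lit 266) (nat_lit 199) (nat_lit 195)) (XT.lf (nat_lit 0) (nat_lit 202407194507) (nat_lit 152) (nat_lit 407805181536) (nat_lit 0) (nat_lit 202206614035) (nat_lit 1) (nat_lit 5) (nat_lit 3) (nat_lit 4) (nat_lit 1) (nat_lit 4) (nat_lit 267) (nat_lit 199) (nat_lit 194))) (XT.nd (nat_lit 78) (nat_lit 0) (nat_lit 0) (XT.lf (nat_lit 0) (nat_lit 233576110052) (nat_lit 152) (nat_lit 467225047921) (nat_lit 0)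 (nat_lit 233349660708) (nat_lit 1) (nat_lit 5) (nat_lit 3) (nat_lit 4) (nat_lit 1) (nat_lit 4) (nat_lit 268) (nat_lit 199) (nat_lit 193)) (XT.lf (nat_lit 0) (nat_lit 269365843038) (nat_lit 152) (nat_lit 535667912104) (nat_lit 0) (nat_lit 269116899023) (nat_lit 1) (nat_lit 5) (nat_lit 3) (nat_lit 4) (nat_lit 1) (nat_lit 4) (nat_lit 269) (nat_lit 199) (nat_lit 192)))) (XT.nd (nat_lit 156) (nat_lit 0) (nat_lit 0) (XT.nd (nat_lit 78) (nat_lit 0) (nat_lit 0) (XT.lf (nat_lit 0) (nat_lit 310476627371) (nat_lit 152) (nat_lit 614472873600) (nat_lit 0) (nat_lit 310208122771) (nat_lit 1) (nat_lit 5) (nat_lit 3) (nat_lit 4) (nat_lit 1) (nat_lit 4) (nat_lit 270) (nat_lit 199) (nat_lit 191)) (XT.lf (nat_lit 0) (nat_lit 357712804482) (nat_lit 152) (nat_lit 705181768613) (nat_lit 0) (nat_lit 357427290679) (nat_lit 1) (nat_lit 5) (nat_lit 3) (nat_lit 4) (nat_lit 1) (nat_lit 4) (nat_lit 271) (nat_lit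 199) (nat_lit 190))) (XT.nd (nat_lit 78) (nat_lit 0) (nat_lit 0) (XT.lf (nat_lit 0) (nat_lit 411998560447) (nat_lit 152) (nat_lit 809569336394) (nat_lit 0) (nat_lit 411698256031) (nat_lit 1) (nat_lit 5) (nat_lit 3) (nat_lit 4) (nat_lit 1) (nat_lit 4) (nat_lit 272) (nat_lit 199) (nat_lit 189)) (XT.nd (nat_lit 78) (nat_lit 0) (nat_lit 0) (XT.lf (nat_lit 0) (nat_lit 474396007881) (nat_lit 152) (nat_lit 929677942398) (nat_lit 0) (nat_lit 474082842064) (nat_lit 1) (nat_lit 5) (nat_lit 3) (nat_lit 4) (nat_lit 1) (nat_lit 4) (nat_lit 273) (nat_lit 199) (nat_lit 188)) (XT.lf (nat_lit 0) (nat_lit 546125966408) (nat_lit 152) (nat_lit 1067857537613) (nat_lit 0) (nat_lit 545801616764) (nat_lit 1) (nat_lit 5) (nat_lit 3) (nat_lit 4) (nat_lit 1) (nat_lit 4) (nat_lit 274) (nat_lit 199) (nat_lit 187))))))))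
noncomputable def xc13 : XT := (XT.nd (nat_lit 1404) (nat_lit 0) (nat_lit 0) (XT.nd (nat_lit 702) (nat_lit 0) (nat_lit 0) (XT.nd (nat_lit 312) (nat_lit 0) (nat_lit 0) (XT.nd (nat_lit 156) (nat_lit 0) (nat_lit 0) (XT.nd (nat_lit 78) (nat_lit 0) (nat_lit 0) (XT.lf (nat_lit 0) (nat_lit 628591848261) (nat_lit 152) (nat_lit 1226811635858) (nat_lit 0) (nat_lit 628257773549) (nat_lit 1) (nat_lit 5) (nat_lit 3) (nat_lit 4) (nat_lit 1) (nat_lit 4) (nat_lit 275) (nat_lit 199) (nat_lit 186)) (XT.lf (nat_lit 0) (nat_lit 723407116345) (nat_lit 152) (nat_lit 1409650208620) (nat_lit 0) (nat_lit 723064585053) (nat_lit 1) (nat_lit 5) (nat_lit 3) (nat_lit 4) (nat_lit 1) (nat_lit 4) (nat_lit 276) (nat_lit 199) (nat_lit 185))) (XT.nd (nat_lit 78) (nat_lit 0) (nat_lit 0) (XT.lf (nat_lit 0) (nat_lit 832426851993) (nat_lit 152) (nat_lit 1619950532324) (nat_lit 0) (nat_lit 832076967153) (nat_lit 1) (nat_lit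 5) (nat_lit 3) (nat_lit 4) (nat_lit 1) (nat_lit 4) (nat_lit 277) (nat_lit 199) (nat_lit 184)) (XT.lf (nat_lit 0) (nat_lit 957784050032) (nat_lit 152) (nat_lit 1861827178520) (nat_lit 0) (nat_lit 957427770802) (nat_lit 1) (nat_lit 5) (nat_lit 3) (nat_lit 4) (nat_lit 1) (nat_lit 4) (nat_lit 278) (nat_lit 199) (nat_lit 183)))) (XT.nd (nat_lit 156) (nat_lit 0) (nat_lit 0) (XT.nd (nat_lit 78) (nat_lit 0) (nat_lit 0) (XT.lf (nat_lit 0) (nat_lit 1101931351293) (nat_lit 152) (nat_lit 2140012516373) (nat_lit 0) (nat_lit 1101569511724) (nat_lit 1) (nat_lit 5) (nat_lit 3) (nat_lit 4) (nat_lit 1) (nat_lit 4) (nat_lit 279) (nat_lit 199) (nat_lit 182)) (XT.lf (nat_lit 0) (nat_lit 1267689029063) (nat_lit 152) (nat_lit 2459949302492) (nat_lit 0) (nat_lit 1267322354417) (nat_lit 1) (nat_lit 5) (nat_lit 3) (nat_lit 4) (nat_lit 1) (nat_lit 4) (nat_lit 280) (nat_lit 199) (nat_lit 181))) (XT.nd (nat_lit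 78) (nat_lit 0) (nat_lit 0) (XT.lf (nat_lit 0) (nat_lit 1458300168340) (nat_lit 152) (nat_lit 2827897169650) (nat_lit 0) (nat_lit 1457929289279) (nat_lit 1) (nat_lit 5) (nat_lit 3) (nat_lit 4) (nat_lit 1) (nat_lit 4) (nat_lit 281) (nat_lit 199) (nat_lit 180)) (XT.nd (nat_lit 78) (nat_lit 0) (nat_lit 0) (XT.lf (nat_lit 0) (nat_lit 1677494117502) (nat_lit 152) (nat_lit 3251055097857) (nat_lit 0) (nat_lit 1677119582428) (nat_lit 1) (nat_lit 5) (nat_lit 3) (nat_lit 4) (nat_lit 1) (nat_lit 4) (nat_lit 282) (nat_lit 199) (nat_lit 179)) (XT.lf (nat_lit 0) (nat_lit 1929559453815) (nat_lit 152) (nat_lit 3737702263968) (nat_lit 0) (nat_lit 1929181739599) (nat_lit 1) (nat_lit 5) (nat_lit 3) (nat_lit 4) (nat_lit 1) (nat_lit 4) (nat_lit 283) (nat_lit 199) (nat_lit 178)))))) (XT.nd (nat_lit 312) (nat_lit 0) (nat_lit 0) (XT.nd (nat_lit 156) (nat_lit 0) (nat_lit 0) (XT.nd (nat_lit 78) (nat_lit 0) (nat_lit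 0) (XT.lf (nat_lit 0) (nat_lit 2219427890381) (nat_lit 152) (nat_lit 4297360025582) (nat_lit 0) (nat_lit 2219047411694) (nat_lit 1) (nat_lit 5) (nat_lit 3) (nat_lit 4) (nat_lit 1) (nat_lit 4) (nat_lit 284) (nat_lit 199) (nat_lit 177)) (XT.lf (nat_lit 0) (nat_lit 2552770766177) (nat_lit 152) (nat_lit 4940978208468) (nat_lit 0) (nat_lit 2552387883602) (nat_lit 1) (nat_lit 5) (nat_lit 3) (nat_lit 4) (nat_lit 1) (nat_lit 4) (nat_lit 285) (nat_lit 199) (nat_lit 176))) (XT.nd (nat_lit 78) (nat_lit 0) (nat_lit 0) (XT.lf (nat_lit 0) (nat_lit 2936110007032) (nat_lit 152) (nat_lit 5681149342293) (nat_lit 0) (nat_lit 2935725034120) (nat_lit 1) (nat_lit 5) (nat_lit 3) (nat_lit 4) (nat_lit 1) (nat_lit 4) (nat_lit 286) (nat_lit 199) (nat_lit 175)) (XT.lf (nat_lit 0) (nat_lit 3376945728530) (nat_lit 152) (nat_lit 6532355036196) (nat_lit 0) (nat_lit 3376558937933) (nat_lit 1) (nat_lit 5) (nat_lit 3)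 (nat_lit 4) (nat_lit 1) (nat_lit 4) (nat_lit 287) (nat_lit 199) (nat_lit 174)))) (XT.nd (nat_lit 156) (nat_lit 0) (nat_lit 0) (XT.nd (nat_lit 78) (nat_lit 0) (nat_lit 0) (XT.lf (nat_lit 0) (nat_lit 3883902977395) (nat_lit 152) (nat_lit 7511249314624) (nat_lit 0) (nat_lit 3883514606203) (nat_lit 1) (nat_lit 5) (nat_lit 3) (nat_lit 4) (nat_lit 1) (nat_lit 4) (nat_lit 288) (nat_lit 199) (nat_lit 173)) (XT.lf (nat_lit 0) (nat_lit 4466900482408) (nat_lit 152) (nat_lit 8636984456936) (nat_lit 0) (nat_lit 4466510736786) (nat_lit 1) (nat_lit 5) (nat_lit 3) (nat_lit 4) (nat_lit 1) (nat_lit 4) (nat_lit 289) (nat_lit 199) (nat_lit 172))) (XT.nd (nat_lit 78) (nat_lit 0) (nat_lit 0) (XT.lf (nat_lit 0) (nat_lit 5137344716495) (nat_lit 152) (nat_lit 9931585715917) (nat_lit 0) (nat_lit 5136953775715) (nat_lit 1) (nat_lit 5) (nat_lit 3) (nat_lit 4) (nat_lit 1) (nat_lit 4) (nat_lit 290) (nat_lit 199)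 (nat_lit 171)) (XT.nd (nat_lit 78) (nat_lit 0) (nat_lit 0) (XT.lf (nat_lit 0) (nat_lit 5908353066844) (nat_lit 152) (nat_lit 11420382246634) (nat_lit 0) (nat_lit 5907961086797) (nat_lit 1) (nat_lit 5) (nat_lit 3) (nat_lit 4) (nat_lit 1) (nat_lit 4) (nat_lit 291) (nat_lit 199) (nat_lit 170)) (XT.lf (nat_lit 0) (nat_lit 6795010479440) (nat_lit 152) (nat_lit 13132502676863) (nat_lit 0) (nat_lit 6794617595683) (nat_lit 1) (nat_lit 5) (nat_lit 3) (nat_lit 4) (nat_lit 1) (nat_lit 4) (nat_lit 292) (nat_lit 199) (nat_lit 169))))))) (XT.nd (nat_lit 1014) (nat_lit 0) (nat_lit 0) (XT.nd (nat_lit 312) (nat_lit 0) (nat_lit 0) (XT.nd (nat_lit 156) (nat_lit 0) (nat_lit 0) (XT.nd (nat_lit 78) (nat_lit 0) (nat_lit 0) (XT.lf (nat_lit 0) (nat_lit 7814664599312) (nat_lit 152) (nat_lit 15101445015020) (nat_lit 0) (nat_lit 7814270929720) (nat_lit 1) (nat_lit 5) (nat_lit 3) (nat_lit 4) (nat_lit 1) (nat_lit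 4) (nat_lit 293) (nat_lit 199) (nat_lit 168)) (XT.lf (nat_lit 0) (nat_lit 8987265180980) (nat_lit 152) (nat_lit 17365732045983) (nat_lit 0) (nat_lit 8986870828052) (nat_lit 1) (nat_lit 5) (nat_lit 3) (nat_lit 4) (nat_lit 1) (nat_lit 4) (nat_lit 294) (nat_lit 199) (nat_lit 167))) (XT.nd (nat_lit 78) (nat_lit 0) (nat_lit 0) (XT.lf (nat_lit 0) (nat_lit 10335754409736) (nat_lit 152) (nat_lit 19969665037748) (nat_lit 0) (nat_lit 10335359462604) (nat_lit 1) (nat_lit 5) (nat_lit 3) (nat_lit 4) (nat_lit 1) (nat_lit 4) (nat_lit 295) (nat_lit 199) (nat_lit 166)) (XT.lf (nat_lit 0) (nat_lit 11886515770491) (nat_lit 152) (nat_lit 22964190505373) (nat_lit 0) (nat_lit 11886120306660) (nat_lit 1) (nat_lit 5) (nat_lit 3) (nat_lit 4) (nat_lit 1) (nat_lit 4) (nat_lit 296) (nat_lit 199) (nat_lit 165)))) (XT.nd (nat_lit 156) (nat_lit 0) (nat_lit 0) (XT.nd (nat_lit 78) (nat_lit 0) (nat_lit 0) (XT.lf (nat_lit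 0) (nat_lit 13669890246391) (nat_lit 152) (nat_lit 26407896990614) (nat_lit 0) (nat_lit 13669494333256) (nat_lit 1) (nat_lit 5) (nat_lit 3) (nat_lit 4) (nat_lit 1) (nat_lit 4) (nat_lit 297) (nat_lit 199) (nat_lit 164)) (XT.lf (nat_lit 0) (nat_lit 15720769946747) (nat_lit 152) (nat_lit 30368161359488) (nat_lit 0) (nat_lit 15720373642912) (nat_lit 1) (nat_lit 5) (nat_lit 3) (nat_lit 4) (nat_lit 1) (nat_lit 4) (nat_lit 298) (nat_lit 199) (nat_lit 163))) (XT.nd (nat_lit 390) (nat_lit 0) (nat_lit 0) (XT.lf (nat_lit 0) (nat_lit 18079280778739) (nat_lit 152) (nat_lit 34922467045298) (nat_lit 0) (nat_lit 18078884135166) (nat_lit 1) (nat_lit 5) (nat_lit 3) (nat_lit 4) (nat_lit 1) (nat_lit 4) (nat_lit 299) (nat_lit 199) (nat_lit 162)) (XT.nd (nat_lit 78) (nat_lit 0) (nat_lit 0) (XT.lf (nat_lit 0) (nat_lit 36366545633757) (nat_lit 152) (nat_lit 70235384775612) (nat_lit 0) (nat_lit 36366147851329)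 (nat_lit 1) (nat_lit 5) (nat_lit 3) (nat_lit 4) (nat_lit 1) (nat_lit 4) (nat_lit 304) (nat_lit 199) (nat_lit 157)) (XT.lf (nat_lit 0) (nat_lit 41821919702593) (nat_lit 152) (nat_lit 80769780262157) (nat_lit 0) (nat_lit 41821521773287) (nat_lit 1) (nat_lit 5) (nat_lit 3) (nat_lit 4) (nat_lit 1) (nat_lit 4) (nat_lit 305) (nat_lit 199) (nat_lit 156)))))) (XT.nd (nat_lit 312) (nat_lit 0) (nat_lit 0) (XT.nd (nat_lit 156) (nat_lit 0) (nat_lit 0) (XT.nd (nat_lit 78) (nat_lit 0) (nat_lit 0) (XT.lf (nat_lit 0) (nat_lit 48095599572203) (nat_lit 152) (nat_lit 92884335696344) (nat_lit 0) (nat_lit 48095201515176) (nat_lit 1) (nat_lit 5) (nat_lit 3) (nat_lit 4) (nat_lit 1) (nat_lit 4) (nat_lit 306) (nat_lit 199) (nat_lit 155)) (XT.lf (nat_lit 0) (nat_lit 55310331153076) (nat_lit 152) (nat_lit 106816074988840) (nat_lit 0) (nat_lit 55309932984989) (nat_lit 1) (nat_lit 5) (nat_lit 3) (nat_lit 4) (nat_lit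 1) (nat_lit 4) (nat_lit 307) (nat_lit 199) (nat_lit 154))) (XT.nd (nat_lit 78) (nat_lit 0) (nat_lit 0) (XT.lf (nat_lit 0) (nat_lit 63607272237015) (nat_lit 152) (nat_lit 122837575647543) (nat_lit 0) (nat_lit 63606873972353) (nat_lit 1) (nat_lit 5) (nat_lit 3) (nat_lit 4) (nat_lit 1) (nat_lit 4) (nat_lit 308) (nat_lit 199) (nat_lit 153)) (XT.lf (nat_lit 0) (nat_lit 73148754280008) (nat_lit 152) (nat_lit 141262301815774) (nat_lit 0) (nat_lit 73148355931368) (nat_lit 1) (nat_lit 5) (nat_lit 3) (nat_lit 4) (nat_lit 1) (nat_lit 4) (nat_lit 309) (nat_lit 199) (nat_lit 152)))) (XT.nd (nat_lit 30576) (nat_lit 0) (nat_lit 0) (XT.nd (nat_lit 30498) (nat_lit 0) (nat_lit 0) (XT.lf (nat_lit 0) (nat_lit 84121458452463) (nat_lit 152) (nat_lit 162450737266392) (nat_lit 0) (nat_lit 84121060030798) (nat_lit 1) (nat_lit 5) (nat_lit 3) (nat_lit 4) (nat_lit 1) (nat_lit 4) (nat_lit 310) (nat_lit 199) (nat_lit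 151)) (XT.lf (nat_lit 0) (nat_lit 35596650755) (nat_lit 152) (nat_lit 81909089605) (nat_lit 0) (nat_lit 35596650755) (nat_lit 1) (nat_lit 5) (nat_lit 3) (nat_lit 4) (nat_lit 1) (nat_lit 4) (nat_lit 260) (nat_lit 200) (nat_lit 200))) (XT.nd (nat_lit 78) (nat_lit 0) (nat_lit 0) (XT.lf (nat_lit 0) (nat_lit 83287451488) (nat_lit 152) (nat_lit 185396351639) (nat_lit 0) (nat_lit 83227615214) (nat_lit 1) (nat_lit 5) (nat_lit 3) (nat_lit 4) (nat_lit 1) (nat_lit 4) (nat_lit 261) (nat_lit 200) (nat_lit 199)) (XT.nd (nat_lit 78) (nat_lit 0) (nat_lit 0) (XT.lf (nat_lit 0) (nat_lit 97069616141) (nat_lit 152) (nat_lit 210465727879) (nat_lit 0) (nat_lit 96957748324) (nat_lit 1) (nat_lit 5) (nat_lit 3) (nat_lit 4) (nat_lit 1) (nat_lit 4) (nat_lit 262) (nat_lit 200) (nat_lit 198)) (XT.lf (nat_lit 0) (nat_lit 112809446515) (nat_lit 152) (nat_lit 239516795726) (nat_lit 0) (nat_lit 112652333878) (nat_lit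 1) (nat_lit 5) (nat_lit 3) (nat_lit 4) (nat_lit 1) (nat_lit 4) (nat_lit 263) (nat_lit 200) (nat_lit 197))))))))
noncomputable def xc14 : XT := (XT.nd (nat_lit 1404) (nat_lit 0) (nat_lit 0) (XT.nd (nat_lit 702) (nat_lit 0) (nat_lit 0) (XT.nd (nat_lit 312) (nat_lit 0) (nat_lit 0) (XT.nd (nat_lit 156) (nat_lit 0) (nat_lit 0) (XT.nd (nat_lit 78) (nat_lit 0) (nat_lit 0) (XT.lf (nat_lit 0) (nat_lit 130814895814) (nat_lit 152) (nat_lit 273117945639) (nat_lit 0) (nat_lit 130618439856) (nat_lit 1) (nat_lit 5) (nat_lit 3) (nat_lit 4) (nat_lit 1) (nat_lit 4) (nat_lit 264) (nat_lit 200) (nat_lit 196)) (XT.lf (nat_lit 0) (nat_lit 151438244568) (nat_lit 152) (nat_lit 311926591421) (nat_lit 0) (nat_lit 151207577026) (nat_lit 1) (nat_lit 5) (nat_lit 3) (nat_lit 4) (nat_lit 1) (nat_lit 4) (nat_lit 265) (nat_lit 200) (nat_lit 195))) (XT.nd (nat_lit 78) (nat_lit 0) (nat_lit 0) (XT.lf (nat_lit 0) (nat_lit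 175082993078) (nat_lit 152) (nat_lit 356702032662) (nat_lit 0) (nat_lit 174822576332) (nat_lit 1) (nat_lit 5) (nat_lit 3) (nat_lit 4) (nat_lit 1) (nat_lit 4) (nat_lit 266) (nat_lit 200) (nat_lit 194)) (XT.lf (nat_lit 0) (nat_lit 202211755989) (nat_lit 152) (nat_lit 408320310605) (nat_lit 0) (nat_lit 201925470371) (nat_lit 1) (nat_lit 5) (nat_lit 3) (nat_lit 4) (nat_lit 1) (nat_lit 4) (nat_lit 267) (nat_lit 200) (nat_lit 193)))) (XT.nd (nat_lit 156) (nat_lit 0) (nat_lit 0) (XT.nd (nat_lit 78) (nat_lit 0) (nat_lit 0) (XT.lf (nat_lit 0) (nat_lit 233355313446) (nat_lit 152) (nat_lit 467791348078) (nat_lit 0) (nat_lit 233046533156) (nat_lit 1) (nat_lit 5) (nat_lit 3) (nat_lit 4) (nat_lit 1) (nat_lit 4) (nat_lit 268) (nat_lit 200) (nat_lit 192)) (XT.lf (nat_lit 0) (nat_lit 269122995920) (nat_lit 152) (nat_lit 536278708859) (nat_lit 0) (nat_lit 268794655046) (nat_lit 1) (nat_lit 5) (nat_lit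 3) (nat_lit 4) (nat_lit 1) (nat_lit 4) (nat_lit 269) (nat_lit 200) (nat_lit 191))) (XT.nd (nat_lit 78) (nat_lit 0) (nat_lit 0) (XT.lf (nat_lit 0) (nat_lit 310214605894) (nat_lit 152) (nat_lit 615122363049) (nat_lit 0) (nat_lit 309869255816) (nat_lit 1) (nat_lit 5) (nat_lit 3) (nat_lit 4) (nat_lit 1) (nat_lit 4) (nat_lit 270) (nat_lit 200) (nat_lit 190)) (XT.nd (nat_lit 78) (nat_lit 0) (nat_lit 0) (XT.lf (nat_lit 0) (nat_lit 357434109650) (nat_lit 152) (nat_lit 705864903883) (nat_lit 0) (nat_lit 357073968960) (nat_lit 1) (nat_lit 5) (nat_lit 3) (nat_lit 4) (nat_lit 1) (nat_lit 4) (nat_lit 271) (nat_lit 200) (nat_lit 189)) (XT.lf (nat_lit 0) (nat_lit 411705367044) (nat_lit 152) (nat_lit 810281728899) (nat_lit 0) (nat_lit 411332364953) (nat_lit 1) (nat_lit 5) (nat_lit 3) (nat_lit 4) (nat_lit 1) (nat_lit 4) (nat_lit 272) (nat_lit 200) (nat_lit 188)))))) (XT.nd (nat_lit 312) (nat_lit 0) (nat_lit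 0) (XT.nd (nat_lit 156) (nat_lit 0) (nat_lit 0) (XT.nd (nat_lit 78) (nat_lit 0) (nat_lit 0) (XT.lf (nat_lit 0) (nat_lit 474090207027) (nat_lit 152) (nat_lit 930415775978) (nat_lit 0) (nat_lit 473706021108) (nat_lit 1) (nat_lit 5) (nat_lit 3) (nat_lit 4) (nat_lit 1) (nat_lit 4) (nat_lit 273) (nat_lit 200) (nat_lit 187)) (XT.lf (nat_lit 0) (nat_lit 545809202552) (nat_lit 152) (nat_lit 1068617493866) (nat_lit 0) (nat_lit 545415291566) (nat_lit 1) (nat_lit 5) (nat_lit 3) (nat_lit 4) (nat_lit 1) (nat_lit 4) (nat_lit 274) (nat_lit 200) (nat_lit 186))) (XT.nd (nat_lit 78) (nat_lit 0) (nat_lit 0) (XT.lf (nat_lit 0) (nat_lit 628265551360) (nat_lit 152) (nat_lit 1227590829219) (nat_lit 0) (nat_lit 627863183794) (nat_lit 1) (nat_lit 5) (nat_lit 3) (nat_lit 4) (nat_lit 1) (nat_lit 4) (nat_lit 275) (nat_lit 200) (nat_lit 185)) (XT.lf (nat_lit 0) (nat_lit 723072529840) (nat_lit 152) (nat_lit 1410446129901)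 (nat_lit 0) (nat_lit 722662808726) (nat_lit 1) (nat_lit 5) (nat_lit 3) (nat_lit 4) (nat_lit 1) (nat_lit 4) (nat_lit 276) (nat_lit 200) (nat_lit 184)))) (XT.nd (nat_lit 156) (nat_lit 0) (nat_lit 0) (XT.nd (nat_lit 78) (nat_lit 0) (nat_lit 0) (XT.lf (nat_lit 0) (nat_lit 832085057136) (nat_lit 152) (nat_lit 1620760999622) (nat_lit 0) (nat_lit 831668941632) (nat_lit 1) (nat_lit 5) (nat_lit 3) (nat_lit 4) (nat_lit 1) (nat_lit 4) (nat_lit 277) (nat_lit 200) (nat_lit 183)) (XT.lf (nat_lit 0) (nat_lit 957435987043) (nat_lit 152) (nat_lit 1862650294528) (nat_lit 0) (nat_lit 957014311201) (nat_lit 1) (nat_lit 5) (nat_lit 3) (nat_lit 4) (nat_lit 1) (nat_lit 4) (nat_lit 278) (nat_lit 200) (nat_lit 182))) (XT.nd (nat_lit 78) (nat_lit 0) (nat_lit 0) (XT.lf (nat_lit 0) (nat_lit 1101577837755) (nat_lit 152) (nat_lit 2140846631259) (nat_lit 0) (nat_lit 1101151326835) (nat_lit 1) (nat_lit 5) (nat_lit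 3) (nat_lit 4) (nat_lit 1) (nat_lit 4) (nat_lit 279) (nat_lit 200) (nat_lit 181)) (XT.nd (nat_lit 78) (nat_lit 0) (nat_lit 0) (XT.lf (nat_lit 0) (nat_lit 1267330775916) (nat_lit 152) (nat_lit 2460792981621) (nat_lit 0) (nat_lit 1266900060581) (nat_lit 1) (nat_lit 5) (nat_lit 3) (nat_lit 4) (nat_lit 1) (nat_lit 4) (nat_lit 280) (nat_lit 200) (nat_lit 180)) (XT.lf (nat_lit 0) (nat_lit 1457937793795) (nat_lit 152) (nat_lit 2828749165512) (nat_lit 0) (nat_lit 1457503422447) (nat_lit 1) (nat_lit 5) (nat_lit 3) (nat_lit 4) (nat_lit 1) (nat_lit 4) (nat_lit 281) (nat_lit 200) (nat_lit 179))))))) (XT.nd (nat_lit 702) (nat_lit 0) (nat_lit 0) (XT.nd (nat_lit 312) (nat_lit 0) (nat_lit 0) (XT.nd (nat_lit 156) (nat_lit 0) (nat_lit 0) (XT.nd (nat_lit 78) (nat_lit 0) (nat_lit 0) (XT.lf (nat_lit 0) (nat_lit 1677128159133) (nat_lit 152) (nat_lit 3251914325659) (nat_lit 0) (nat_lit 1676690608643) (nat_lit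 1) (nat_lit 5) (nat_lit 3) (nat_lit 4) (nat_lit 1) (nat_lit 4) (nat_lit 282) (nat_lit 200) (nat_lit 178)) (XT.lf (nat_lit 0) (nat_lit 1929190379077) (nat_lit 152) (nat_lit 3738567780415) (nat_lit 0) (nat_lit 1928750064115) (nat_lit 1) (nat_lit 5) (nat_lit 3) (nat_lit 4) (nat_lit 1) (nat_lit 4) (nat_lit 283) (nat_lit 200) (nat_lit 177))) (XT.nd (nat_lit 78) (nat_lit 0) (nat_lit 0) (XT.lf (nat_lit 0) (nat_lit 2219056105756) (nat_lit 152) (nat_lit 4298231010415) (nat_lit 0) (nat_lit 2218613386907) (nat_lit 1) (nat_lit 5) (nat_lit 3) (nat_lit 4) (nat_lit 1) (nat_lit 4) (nat_lit 284) (nat_lit 200) (nat_lit 176)) (XT.lf (nat_lit 0) (nat_lit 2552396625129) (nat_lit 152) (nat_lit 4941853948420) (nat_lit 0) (nat_lit 2551951815943) (nat_lit 1) (nat_lit 5) (nat_lit 3) (nat_lit 4) (nat_lit 1) (nat_lit 4) (nat_lit 285) (nat_lit 200) (nat_lit 175)))) (XT.nd (nat_lit 156) (nat_lit 0) (nat_lit 0) (XT.nd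 (nat_lit 78) (nat_lit 0) (nat_lit 0) (XT.lf (nat_lit 0) (nat_lit 2935733816921) (nat_lit 152) (nat_lit 5682029217131) (nat_lit 0) (nat_lit 2935287190050) (nat_lit 1) (nat_lit 5) (nat_lit 3) (nat_lit 4) (nat_lit 1) (nat_lit 4) (nat_lit 286) (nat_lit 200) (nat_lit 174)) (XT.lf (nat_lit 0) (nat_lit 3376567756625) (nat_lit 152) (nat_lit 6533238506587) (nat_lit 0) (nat_lit 3376119549158) (nat_lit 1) (nat_lit 5) (nat_lit 3) (nat_lit 4) (nat_lit 1) (nat_lit 4) (nat_lit 287) (nat_lit 200) (nat_lit 173))) (XT.nd (nat_lit 78) (nat_lit 0) (nat_lit 0) (XT.lf (nat_lit 0) (nat_lit 3883523456103) (nat_lit 152) (nat_lit 7512135911582) (nat_lit 0) (nat_lit 3883073874206) (nat_lit 1) (nat_lit 5) (nat_lit 3) (nat_lit 4) (nat_lit 1) (nat_lit 4) (nat_lit 288) (nat_lit 200) (nat_lit 172)) (XT.nd (nat_lit 78) (nat_lit 0) (nat_lit 0) (XT.lf (nat_lit 0) (nat_lit 4466519613824) (nat_lit 152) (nat_lit 8637873772649)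 (nat_lit 0) (nat_lit 4466068836770) (nat_lit 1) (nat_lit 5) (nat_lit 3) (nat_lit 4) (nat_lit 1) (nat_lit 4) (nat_lit 289) (nat_lit 200) (nat_lit 171)) (XT.lf (nat_lit 0) (nat_lit 5136962676353) (nat_lit 152) (nat_lit 9932477395765) (nat_lit 0) (nat_lit 5136510860031) (nat_lit 1) (nat_lit 5) (nat_lit 3) (nat_lit 4) (nat_lit 1) (nat_lit 4) (nat_lit 290) (nat_lit 200) (nat_lit 170)))))) (XT.nd (nat_lit 312) (nat_lit 0) (nat_lit 0) (XT.nd (nat_lit 156) (nat_lit 0) (nat_lit 0) (XT.nd (nat_lit 78) (nat_lit 0) (nat_lit 0) (XT.lf (nat_lit 0) (nat_lit 5907970007955) (nat_lit 152) (nat_lit 11421275982251) (nat_lit 0) (nat_lit 5907517287923) (nat_lit 1) (nat_lit 5) (nat_lit 3) (nat_lit 4) (nat_lit 1) (nat_lit 4) (nat_lit 291) (nat_lit 200) (nat_lit 169)) (XT.lf (nat_lit 0) (nat_lit 6794626534684) (nat_lit 152) (nat_lit 13133398200105) (nat_lit 0) (nat_lit 6794173028817) (nat_lit 1) (nat_lit 5)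 (nat_lit 3) (nat_lit 4) (nat_lit 1) (nat_lit 4) (nat_lit 292) (nat_lit 200) (nat_lit 168))) (XT.nd (nat_lit 78) (nat_lit 0) (nat_lit 0) (XT.lf (nat_lit 0) (nat_lit 7814279884237) (nat_lit 152) (nat_lit 15102342092719) (nat_lit 0) (nat_lit 7813825695035) (nat_lit 1) (nat_lit 5) (nat_lit 3) (nat_lit 4) (nat_lit 1) (nat_lit 4) (nat_lit 293) (nat_lit 200) (nat_lit 167)) (XT.lf (nat_lit 0) (nat_lit 8986879796062) (nat_lit 152) (nat_lit 17366630475383) (nat_lit 0) (nat_lit 8986425012656) (nat_lit 1) (nat_lit 5) (nat_lit 3) (nat_lit 4) (nat_lit 1) (nat_lit 4) (nat_lit 294) (nat_lit 200) (nat_lit 166)))) (XT.nd (nat_lit 156) (nat_lit 0) (nat_lit 0) (XT.nd (nat_lit 78) (nat_lit 0) (nat_lit 0) (XT.lf (nat_lit 0) (nat_lit 10335368442347) (nat_lit 152) (nat_lit 19970564642541) (nat_lit 0) (nat_lit 10334913142241) (nat_lit 1) (nat_lit 5) (nat_lit 3) (nat_lit 4) (nat_lit 1) (nat_lit 4) (nat_lit 295)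 (nat_lit 200) (nat_lit 165)) (XT.lf (nat_lit 0) (nat_lit 11886129296605) (nat_lit 152) (nat_lit 22965091132246) (nat_lit 0) (nat_lit 11885673547196) (nat_lit 1) (nat_lit 5) (nat_lit 3) (nat_lit 4) (nat_lit 1) (nat_lit 4) (nat_lit 296) (nat_lit 200) (nat_lit 164))) (XT.nd (nat_lit 78) (nat_lit 0) (nat_lit 0) (XT.lf (nat_lit 0) (nat_lit 13669503332073) (nat_lit 152) (nat_lit 26408798506253) (nat_lit 0) (nat_lit 13669047191964) (nat_lit 1) (nat_lit 5) (nat_lit 3) (nat_lit 4) (nat_lit 1) (nat_lit 4) (nat_lit 297) (nat_lit 200) (nat_lit 163)) (XT.nd (nat_lit 78) (nat_lit 0) (nat_lit 0) (XT.lf (nat_lit 0) (nat_lit 15720382649444) (nat_lit 152) (nat_lit 30369063647966) (nat_lit 0) (nat_lit 15719926169597) (nat_lit 1) (nat_lit 5) (nat_lit 3) (nat_lit 4) (nat_lit 1) (nat_lit 4) (nat_lit 298) (nat_lit 200) (nat_lit 162)) (XT.lf (nat_lit 0) (nat_lit 18078893148405) (nat_lit 152) (nat_lit 34923370005811)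 (nat_lit 0) (nat_lit 18078436373134) (nat_lit 1) (nat_lit 5) (nat_lit 3) (nat_lit 4) (nat_lit 1) (nat_lit 4) (nat_lit 299) (nat_lit 200) (nat_lit 161))))))))
noncomputable def xc15 : XT := (XT.nd (nat_lit 31746) (nat_lit 0) (nat_lit 0) (XT.nd (nat_lit 31044) (nat_lit 0) (nat_lit 0) (XT.nd (nat_lit 312) (nat_lit 0) (nat_lit 0) (XT.nd (nat_lit 156) (nat_lit 0) (nat_lit 0) (XT.nd (nat_lit 78) (nat_lit 0) (nat_lit 0) (XT.lf (nat_lit 0) (nat_lit 36366156887055) (nat_lit 152) (nat_lit 70236289988889) (nat_lit 0) (nat_lit 36365699121475) (nat_lit 1) (nat_lit 5) (nat_lit 3) (nat_lit 4) (nat_lit 1) (nat_lit 4) (nat_lit 304) (nat_lit 200) (nat_lit 156)) (XT.lf (nat_lit 0) (nat_lit 41821530811914) (nat_lit 152) (nat_lit 80770685765974) (nat_lit 0) (nat_lit 41821072918613) (nat_lit 1) (nat_lit 5) (nat_lit 3) (nat_lit 4) (nat_lit 1) (nat_lit 4) (nat_lit 305) (nat_lit 200) (nat_lit 155))) (XT.nd (nat_lit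 78) (nat_lit 0) (nat_lit 0) (XT.lf (nat_lit 0) (nat_lit 48095210556324) (nat_lit 152) (nat_lit 92885241452803) (nat_lit 0) (nat_lit 48094752551963) (nat_lit 1) (nat_lit 5) (nat_lit 3) (nat_lit 4) (nat_lit 1) (nat_lit 4) (nat_lit 306) (nat_lit 200) (nat_lit 154)) (XT.lf (nat_lit 0) (nat_lit 55309942028330) (nat_lit 152) (nat_lit 106816980964989) (nat_lit 0) (nat_lit 55309483927394) (nat_lit 1) (nat_lit 5) (nat_lit 3) (nat_lit 4) (nat_lit 1) (nat_lit 4) (nat_lit 307) (nat_lit 200) (nat_lit 153)))) (XT.nd (nat_lit 30498) (nat_lit 0) (nat_lit 0) (XT.nd (nat_lit 78) (nat_lit 0) (nat_lit 0) (XT.lf (nat_lit 0) (nat_lit 63606883017601) (nat_lit 152) (nat_lit 122838481814725) (nat_lit 0) (nat_lit 63606424832686) (nat_lit 1) (nat_lit 5) (nat_lit 3) (nat_lit 4) (nat_lit 1) (nat_lit 4) (nat_lit 308) (nat_lit 200) (nat_lit 152)) (XT.lf (nat_lit 0) (nat_lit 73148364978274) (nat_lit 152) (nat_lit 141263208149074)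 (nat_lit 0) (nat_lit 73147906720335) (nat_lit 1) (nat_lit 5) (nat_lit 3) (nat_lit 4) (nat_lit 1) (nat_lit 4) (nat_lit 309) (nat_lit 200) (nat_lit 151))) (XT.nd (nat_lit 78) (nat_lit 0) (nat_lit 0) (XT.lf (nat_lit 0) (nat_lit 25648663167) (nat_lit 152) (nat_lit 64675115905) (nat_lit 0) (nat_lit 25648663167) (nat_lit 1) (nat_lit 5) (nat_lit 3) (nat_lit 4) (nat_lit 1) (nat_lit 4) (nat_lit 258) (nat_lit 201) (nat_lit 201)) (XT.nd (nat_lit 78) (nat_lit 0) (nat_lit 0) (XT.lf (nat_lit 0) (nat_lit 60619353249) (nat_lit 152) (nat_lit 145309028961) (nat_lit 0) (nat_lit 60550541534) (nat_lit 1) (nat_lit 5) (nat_lit 3) (nat_lit 4) (nat_lit 1) (nat_lit 4) (nat_lit 259) (nat_lit 201) (nat_lit 200)) (XT.lf (nat_lit 0) (nat_lit 71194660205) (nat_lit 152) (nat_lit 163954295323) (nat_lit 0) (nat_lit 71066012215) (nat_lit 1) (nat_lit 5) (nat_lit 3) (nat_lit 4) (nat_lit 1) (nat_lit 4) (nat_lit 260) (nat_lit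 201) (nat_lit 199)))))) (XT.nd (nat_lit 312) (nat_lit 0) (nat_lit 0) (XT.nd (nat_lit 156) (nat_lit 0) (nat_lit 0) (XT.nd (nat_lit 78) (nat_lit 0) (nat_lit 0) (XT.lf (nat_lit 0) (nat_lit 83230155381) (nat_lit 152) (nat_lit 185650829587) (nat_lit 0) (nat_lit 83049475849) (nat_lit 1) (nat_lit 5) (nat_lit 3) (nat_lit 4) (nat_lit 1) (nat_lit 4) (nat_lit 261) (nat_lit 201) (nat_lit 198)) (XT.lf (nat_lit 0) (nat_lit 96961315859) (nat_lit 152) (nat_lit 210823129162) (nat_lit 0) (nat_lit 96735391507) (nat_lit 1) (nat_lit 5) (nat_lit 3) (nat_lit 4) (nat_lit 1) (nat_lit 4) (nat_lit 262) (nat_lit 201) (nat_lit 197))) (XT.nd (nat_lit 78) (nat_lit 0) (nat_lit 0) (XT.lf (nat_lit 0) (nat_lit 112656794777) (nat_lit 152) (nat_lit 239963695562) (nat_lit 0) (nat_lit 112391527103) (nat_lit 1) (nat_lit 5) (nat_lit 3) (nat_lit 4) (nat_lit 1) (nat_lit 4) (nat_lit 263) (nat_lit 201) (nat_lit 196)) (XT.lf (nat_lit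 0) (nat_lit 130623677592) (nat_lit 152) (nat_lit 273642670304) (nat_lit 0) (nat_lit 130324198335) (nat_lit 1) (nat_lit 5) (nat_lit 3) (nat_lit 4) (nat_lit 1) (nat_lit 4) (nat_lit 264) (nat_lit 201) (nat_lit 195)))) (XT.nd (nat_lit 156) (nat_lit 0) (nat_lit 0) (XT.nd (nat_lit 78) (nat_lit 0) (nat_lit 0) (XT.lf (nat_lit 0) (nat_lit 151213490273) (nat_lit 152) (nat_lit 312518989849) (nat_lit 0) (nat_lit 150884261812) (nat_lit 1) (nat_lit 5) (nat_lit 3) (nat_lit 4) (nat_lit 1) (nat_lit 4) (nat_lit 265) (nat_lit 201) (nat_lit 194)) (XT.lf (nat_lit 0) (nat_lit 174829076981) (nat_lit 152) (nat_lit 357353277842) (nat_lit 0) (nat_lit 174473979647) (nat_lit 1) (nat_lit 5) (nat_lit 3) (nat_lit 4) (nat_lit 1) (nat_lit 4) (nat_lit 266) (nat_lit 201) (nat_lit 193))) (XT.nd (nat_lit 78) (nat_lit 0) (nat_lit 0) (XT.lf (nat_lit 0) (nat_lit 201932481803) (nat_lit 152) (nat_lit 409022726873) (nat_lit 0)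 (nat_lit 201554889798) (nat_lit 1) (nat_lit 5) (nat_lit 3) (nat_lit 4) (nat_lit 1) (nat_lit 4) (nat_lit 267) (nat_lit 201) (nat_lit 192)) (XT.nd (nat_lit 78) (nat_lit 0) (nat_lit 0) (XT.lf (nat_lit 0) (nat_lit 233053988747) (nat_lit 152) (nat_lit 468538260944) (nat_lit 0) (nat_lit 232656836158) (nat_lit 1) (nat_lit 5) (nat_lit 3) (nat_lit 4) (nat_lit 1) (nat_lit 4) (nat_lit 268) (nat_lit 201) (nat_lit 191)) (XT.lf (nat_lit 0) (nat_lit 268802496862) (nat_lit 152) (nat_lit 537064314419) (nat_lit 0) (nat_lit 268388335069) (nat_lit 1) (nat_lit 5) (nat_lit 3) (nat_lit 4) (nat_lit 1) (nat_lit 4) (nat_lit 269) (nat_lit 201) (nat_lit 190))))))) (XT.nd (nat_lit 702) (nat_lit 0) (nat_lit 0) (XT.nd (nat_lit 312) (nat_lit 0) (nat_lit 0) (XT.nd (nat_lit 156) (nat_lit 0) (nat_lit 0) (XT.nd (nat_lit 78) (nat_lit 0) (nat_lit 0) (XT.lf (nat_lit 0) (nat_lit 309877433481) (nat_lit 152) (nat_lit 615941614431)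 (nat_lit 0) (nat_lit 309448481076) (nat_lit 1) (nat_lit 5) (nat_lit 3) (nat_lit 4) (nat_lit 1) (nat_lit 4) (nat_lit 270) (nat_lit 201) (nat_lit 189)) (XT.lf (nat_lit 0) (nat_lit 357082438668) (nat_lit 152) (nat_lit 706713412501) (nat_lit 0) (nat_lit 356640624861) (nat_lit 1) (nat_lit 5) (nat_lit 3) (nat_lit 4) (nat_lit 1) (nat_lit 4) (nat_lit 271) (nat_lit 201) (nat_lit 188))) (XT.nd (nat_lit 78) (nat_lit 0) (nat_lit 0) (XT.lf (nat_lit 0) (nat_lit 411341088610) (nat_lit 152) (nat_lit 811155678591) (nat_lit 0) (nat_lit 410888090976) (nat_lit 1) (nat_lit 5) (nat_lit 3) (nat_lit 4) (nat_lit 1) (nat_lit 4) (nat_lit 272) (nat_lit 201) (nat_lit 187)) (XT.lf (nat_lit 0) (nat_lit 473714965591) (nat_lit 152) (nat_lit 931311848343) (nat_lit 0) (nat_lit 473252242889) (nat_lit 1) (nat_lit 5) (nat_lit 3) (nat_lit 4) (nat_lit 1) (nat_lit 4) (nat_lit 273) (nat_lit 201) (nat_lit 186)))) (XT.nd (nat_lit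 156) (nat_lit 0) (nat_lit 0) (XT.nd (nat_lit 78) (nat_lit 0) (nat_lit 0) (XT.lf (nat_lit 0) (nat_lit 545424428072) (nat_lit 152) (nat_lit 1069532803339) (nat_lit 0) (nat_lit 544953248790) (nat_lit 1) (nat_lit 5) (nat_lit 3) (nat_lit 4) (nat_lit 1) (nat_lit 4) (nat_lit 274) (nat_lit 201) (nat_lit 185)) (XT.lf (nat_lit 0) (nat_lit 627872487275) (nat_lit 152) (nat_lit 1228522866611) (nat_lit 0) (nat_lit 627393954446) (nat_lit 1) (nat_lit 5) (nat_lit 3) (nat_lit 4) (nat_lit 1) (nat_lit 4) (nat_lit 275) (nat_lit 201) (nat_lit 184))) (XT.nd (nat_lit 78) (nat_lit 0) (nat_lit 0) (XT.lf (nat_lit 0) (nat_lit 722672257404) (nat_lit 152) (nat_lit 1411392713310) (nat_lit 0) (nat_lit 722187330184) (nat_lit 1) (nat_lit 5) (nat_lit 3) (nat_lit 4) (nat_lit 1) (nat_lit 4) (nat_lit 276) (nat_lit 201) (nat_lit 183)) (XT.nd (nat_lit 78) (nat_lit 0) (nat_lit 0) (XT.lf (nat_lit 0) (nat_lit 831678516568) (nat_lit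 152) (nat_lit 1621720231741) (nat_lit 0) (nat_lit 831188029010) (nat_lit 1) (nat_lit 5) (nat_lit 3) (nat_lit 4) (nat_lit 1) (nat_lit 4) (nat_lit 277) (nat_lit 201) (nat_lit 182)) (XT.lf (nat_lit 0) (nat_lit 957023995925) (nat_lit 152) (nat_lit 1863620525526) (nat_lit 0) (nat_lit 956528673290) (nat_lit 1) (nat_lit 5) (nat_lit 3) (nat_lit 4) (nat_lit 1) (nat_lit 4) (nat_lit 278) (nat_lit 201) (nat_lit 181)))))) (XT.nd (nat_lit 312) (nat_lit 0) (nat_lit 0) (XT.nd (nat_lit 156) (nat_lit 0) (nat_lit 0) (XT.nd (nat_lit 78) (nat_lit 0) (nat_lit 0) (XT.lf (nat_lit 0) (nat_lit 1101161107029) (nat_lit 152) (nat_lit 2141826426500) (nat_lit 0) (nat_lit 1100661579979) (nat_lit 1) (nat_lit 5) (nat_lit 3) (nat_lit 4) (nat_lit 1) (nat_lit 4) (nat_lit 279) (nat_lit 201) (nat_lit 180)) (XT.lf (nat_lit 0) (nat_lit 1266909923792) (nat_lit 152) (nat_lit 2461781093594) (nat_lit 0) (nat_lit 1266406740728)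 (nat_lit 1) (nat_lit 5) (nat_lit 3) (nat_lit 4) (nat_lit 1) (nat_lit 4) (nat_lit 280) (nat_lit 201) (nat_lit 179))) (XT.nd (nat_lit 78) (nat_lit 0) (nat_lit 0) (XT.lf (nat_lit 0) (nat_lit 1457513357846) (nat_lit 152) (nat_lit 2829744509425) (nat_lit 0) (nat_lit 1457006995641) (nat_lit 1) (nat_lit 5) (nat_lit 3) (nat_lit 4) (nat_lit 1) (nat_lit 4) (nat_lit 281) (nat_lit 201) (nat_lit 178)) (XT.lf (nat_lit 0) (nat_lit 1676700606814) (nat_lit 152) (nat_lit 3252915958218) (nat_lit 0) (nat_lit 1676191480138) (nat_lit 1) (nat_lit 5) (nat_lit 3) (nat_lit 4) (nat_lit 1) (nat_lit 4) (nat_lit 282) (nat_lit 201) (nat_lit 177)))) (XT.nd (nat_lit 156) (nat_lit 0) (nat_lit 0) (XT.nd (nat_lit 78) (nat_lit 0) (nat_lit 0) (XT.lf (nat_lit 0) (nat_lit 1928760116872) (nat_lit 152) (nat_lit 3739574881360) (nat_lit 0) (nat_lit 1928248586307) (nat_lit 1) (nat_lit 5) (nat_lit 3) (nat_lit 4) (nat_lit 1) (nat_lit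 4) (nat_lit 283) (nat_lit 201) (nat_lit 176)) (XT.lf (nat_lit 0) (nat_lit 2218623487129) (nat_lit 152) (nat_lit 4299242866479) (nat_lit 0) (nat_lit 2218109866227) (nat_lit 1) (nat_lit 5) (nat_lit 3) (nat_lit 4) (nat_lit 1) (nat_lit 4) (nat_lit 284) (nat_lit 201) (nat_lit 175))) (XT.nd (nat_lit 78) (nat_lit 0) (nat_lit 0) (XT.lf (nat_lit 0) (nat_lit 2551961957438) (nat_lit 152) (nat_lit 4942869939370) (nat_lit 0) (nat_lit 2551446518852) (nat_lit 1) (nat_lit 5) (nat_lit 3) (nat_lit 4) (nat_lit 1) (nat_lit 4) (nat_lit 285) (nat_lit 201) (nat_lit 174)) (XT.nd (nat_lit 78) (nat_lit 0) (nat_lit 0) (XT.lf (nat_lit 0) (nat_lit 2935297367436) (nat_lit 152) (nat_lit 5683048803633) (nat_lit 0) (nat_lit 2934780348254) (nat_lit 1) (nat_lit 5) (nat_lit 3) (nat_lit 4) (nat_lit 1) (nat_lit 4) (nat_lit 286) (nat_lit 201) (nat_lit 173)) (XT.lf (nat_lit 0) (nat_lit 3376129757753) (nat_lit 152) (nat_lit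 6534261219657) (nat_lit 0) (nat_lit 3375611364141) (nat_lit 1) (nat_lit 5) (nat_lit 3) (nat_lit 4) (nat_lit 1) (nat_lit 4) (nat_lit 287) (nat_lit 201) (nat_lit 172))))))))
noncomputable def xc16 : XT := (XT.nd (nat_lit 31902) (nat_lit 0) (nat_lit 0) (XT.nd (nat_lit 624) (nat_lit 0) (nat_lit 0) (XT.nd (nat_lit 312) (nat_lit 0) (nat_lit 0) (XT.nd (nat_lit 156) (nat_lit 0) (nat_lit 0) (XT.nd (nat_lit 78) (nat_lit 0) (nat_lit 0) (XT.lf (nat_lit 0) (nat_lit 3883084109939) (nat_lit 152) (nat_lit 7513161343407) (nat_lit 0) (nat_lit 3882564521169) (nat_lit 1) (nat_lit 5) (nat_lit 3) (nat_lit 4) (nat_lit 1) (nat_lit 4) (nat_lit 288) (nat_lit 201) (nat_lit 171)) (XT.lf (nat_lit 0) (nat_lit 4466079096101) (nat_lit 152) (nat_lit 8638901568608) (nat_lit 0) (nat_lit 4465558468065) (nat_lit 1) (nat_lit 5) (nat_lit 3) (nat_lit 4) (nat_lit 1) (nat_lit 4) (nat_lit 289) (nat_lit 201) (nat_lit 170))) (XT.nd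 (nat_lit 78) (nat_lit 0) (nat_lit 0) (XT.lf (nat_lit 0) (nat_lit 5136521139883) (nat_lit 152) (nat_lit 9933507247493) (nat_lit 0) (nat_lit 5135999608136) (nat_lit 1) (nat_lit 5) (nat_lit 3) (nat_lit 4) (nat_lit 1) (nat_lit 4) (nat_lit 290) (nat_lit 201) (nat_lit 169)) (XT.lf (nat_lit 0) (nat_lit 5907527585619) (nat_lit 152) (nat_lit 11422307621605) (nat_lit 0) (nat_lit 5907005268036) (nat_lit 1) (nat_lit 5) (nat_lit 3) (nat_lit 4) (nat_lit 1) (nat_lit 4) (nat_lit 291) (nat_lit 201) (nat_lit 168)))) (XT.nd (nat_lit 156) (nat_lit 0) (nat_lit 0) (XT.nd (nat_lit 78) (nat_lit 0) (nat_lit 0) (XT.lf (nat_lit 0) (nat_lit 6794183342029) (nat_lit 152) (nat_lit 13134431393915) (nat_lit 0) (nat_lit 6793660341112) (nat_lit 1) (nat_lit 5) (nat_lit 3) (nat_lit 4) (nat_lit 1) (nat_lit 4) (nat_lit 292) (nat_lit 201) (nat_lit 167)) (XT.lf (nat_lit 0) (nat_lit 7813836021740) (nat_lit 152) (nat_lit 15103376638231)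 (nat_lit 0) (nat_lit 7813312426618) (nat_lit 1) (nat_lit 5) (nat_lit 3) (nat_lit 4) (nat_lit 1) (nat_lit 4) (nat_lit 293) (nat_lit 201) (nat_lit 166))) (XT.nd (nat_lit 78) (nat_lit 0) (nat_lit 0) (XT.lf (nat_lit 0) (nat_lit 8986435351093) (nat_lit 152) (nat_lit 17367666196287) (nat_lit 0) (nat_lit 8985911239272) (nat_lit 1) (nat_lit 5) (nat_lit 3) (nat_lit 4) (nat_lit 1) (nat_lit 4) (nat_lit 294) (nat_lit 201) (nat_lit 165)) (XT.lf (nat_lit 0) (nat_lit 10334923490881) (nat_lit 152) (nat_lit 19971601385526) (nat_lit 0) (nat_lit 10334398929756) (nat_lit 1) (nat_lit 5) (nat_lit 3) (nat_lit 4) (nat_lit 1) (nat_lit 4) (nat_lit 295) (nat_lit 201) (nat_lit 164))))) (XT.nd (nat_lit 624) (nat_lit 0) (nat_lit 0) (XT.nd (nat_lit 156) (nat_lit 0) (nat_lit 0) (XT.nd (nat_lit 78) (nat_lit 0) (nat_lit 0) (XT.lf (nat_lit 0) (nat_lit 11885683904707) (nat_lit 152) (nat_lit 22966128763997) (nat_lit 0)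 (nat_lit 11885158952883) (nat_lit 1) (nat_lit 5) (nat_lit 3) (nat_lit 4) (nat_lit 1) (nat_lit 4) (nat_lit 296) (nat_lit 201) (nat_lit 163)) (XT.lf (nat_lit 0) (nat_lit 13669057557190) (nat_lit 152) (nat_lit 26409836910843) (nat_lit 0) (nat_lit 13668532265627) (nat_lit 1) (nat_lit 5) (nat_lit 3) (nat_lit 4) (nat_lit 1) (nat_lit 4) (nat_lit 297) (nat_lit 201) (nat_lit 162))) (XT.nd (nat_lit 78) (nat_lit 0) (nat_lit 0) (XT.lf (nat_lit 0) (nat_lit 15719936541530) (nat_lit 152) (nat_lit 30370102724591) (nat_lit 0) (nat_lit 15719410954544) (nat_lit 1) (nat_lit 5) (nat_lit 3) (nat_lit 4) (nat_lit 1) (nat_lit 4) (nat_lit 298) (nat_lit 201) (nat_lit 161)) (XT.lf (nat_lit 0) (nat_lit 18078446750901) (nat_lit 152) (nat_lit 34924409666814) (nat_lit 0) (nat_lit 18077920907023) (nat_lit 1) (nat_lit 5) (nat_lit 3) (nat_lit 4) (nat_lit 1) (nat_lit 4) (nat_lit 299) (nat_lit 201) (nat_lit 160)))) (XT.nd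 (nat_lit 156) (nat_lit 0) (nat_lit 0) (XT.nd (nat_lit 78) (nat_lit 0) (nat_lit 0) (XT.lf (nat_lit 0) (nat_lit 36365709518795) (nat_lit 152) (nat_lit 70237331608817) (nat_lit 0) (nat_lit 36365182813780) (nat_lit 1) (nat_lit 5) (nat_lit 3) (nat_lit 4) (nat_lit 1) (nat_lit 4) (nat_lit 304) (nat_lit 201) (nat_lit 155)) (XT.lf (nat_lit 0) (nat_lit 41821083318455) (nat_lit 152) (nat_lit 80771727638544) (nat_lit 0) (nat_lit 41820556502378) (nat_lit 1) (nat_lit 5) (nat_lit 3) (nat_lit 4) (nat_lit 1) (nat_lit 4) (nat_lit 305) (nat_lit 201) (nat_lit 154))) (XT.nd (nat_lit 78) (nat_lit 0) (nat_lit 0) (XT.lf (nat_lit 0) (nat_lit 48094762953998) (nat_lit 152) (nat_lit 92886283545063) (nat_lit 0) (nat_lit 48094236041346) (nat_lit 1) (nat_lit 5) (nat_lit 3) (nat_lit 4) (nat_lit 1) (nat_lit 4) (nat_lit 306) (nat_lit 201) (nat_lit 153)) (XT.nd (nat_lit 78) (nat_lit 0) (nat_lit 0) (XT.lf (nat_lit 0) (nat_lit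 55309494331336) (nat_lit 152) (nat_lit 106818023248283) (nat_lit 0) (nat_lit 55308967334706) (nat_lit 1) (nat_lit 5) (nat_lit 3) (nat_lit 4) (nat_lit 1) (nat_lit 4) (nat_lit 307) (nat_lit 201) (nat_lit 152)) (XT.lf (nat_lit 0) (nat_lit 63606435238286) (nat_lit 152) (nat_lit 122839524264136) (nat_lit 0) (nat_lit 63605908168632) (nat_lit 1) (nat_lit 5) (nat_lit 3) (nat_lit 4) (nat_lit 1) (nat_lit 4) (nat_lit 308) (nat_lit 201) (nat_lit 151))))))) (XT.nd (nat_lit 702) (nat_lit 0) (nat_lit 0) (XT.nd (nat_lit 312) (nat_lit 0) (nat_lit 0) (XT.nd (nat_lit 156) (nat_lit 0) (nat_lit 0) (XT.nd (nat_lit 78) (nat_lit 0) (nat_lit 0) (XT.lf (nat_lit 0) (nat_lit 17936427519) (nat_lit 152) (nat_lit 52054767306) (nat_lit 0) (nat_lit 17936427519) (nat_lit 1) (nat_lit 5) (nat_lit 3) (nat_lit 4) (nat_lit 1) (nat_lit 4) (nat_lit 256) (nat_lit 202) (nat_lit 202)) (XT.lf (nat_lit 0) (nat_lit 43125325452) (nat_lit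 152) (nat_lit 115765666538) (nat_lit 0) (nat_lit 43046191979) (nat_lit 1) (nat_lit 5) (nat_lit 3) (nat_lit 4) (nat_lit 1) (nat_lit 4) (nat_lit 257) (nat_lit 202) (nat_lit 201))) (XT.nd (nat_lit 78) (nat_lit 0) (nat_lit 0) (XT.lf (nat_lit 0) (nat_lit 51298888833) (nat_lit 152) (nat_lit 129506765339) (nat_lit 0) (nat_lit 51150943645) (nat_lit 1) (nat_lit 5) (nat_lit 3) (nat_lit 4) (nat_lit 1) (nat_lit 4) (nat_lit 258) (nat_lit 202) (nat_lit 200)) (XT.lf (nat_lit 0) (nat_lit 60553462726) (nat_lit 152) (nat_lit 145601678601) (nat_lit 0) (nat_lit 60345681264) (nat_lit 1) (nat_lit 5) (nat_lit 3) (nat_lit 4) (nat_lit 1) (nat_lit 4) (nat_lit 259) (nat_lit 202) (nat_lit 199)))) (XT.nd (nat_lit 156) (nat_lit 0) (nat_lit 0) (XT.nd (nat_lit 78) (nat_lit 0) (nat_lit 0) (XT.lf (nat_lit 0) (nat_lit 71070114881) (nat_lit 152) (nat_lit 164365306799) (nat_lit 0) (nat_lit 70810301876) (nat_lit 1) (nat_lit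 5) (nat_lit 3) (nat_lit 4) (nat_lit 1) (nat_lit 4) (nat_lit 260) (nat_lit 202) (nat_lit 198)) (XT.lf (nat_lit 0) (nat_lit 83054605882) (nat_lit 152) (nat_lit 186164764398) (nat_lit 0) (nat_lit 82749548058) (nat_lit 1) (nat_lit 5) (nat_lit 3) (nat_lit 4) (nat_lit 1) (nat_lit 4) (nat_lit 261) (nat_lit 202) (nat_lit 197))) (XT.nd (nat_lit 78) (nat_lit 0) (nat_lit 0) (XT.lf (nat_lit 0) (nat_lit 96741414904) (nat_lit 152) (nat_lit 211426562526) (nat_lit 0) (nat_lit 96397013757) (nat_lit 1) (nat_lit 5) (nat_lit 3) (nat_lit 4) (nat_lit 1) (nat_lit 4) (nat_lit 262) (nat_lit 202) (nat_lit 196)) (XT.nd (nat_lit 78) (nat_lit 0) (nat_lit 0) (XT.lf (nat_lit 0) (nat_lit 112398327338) (nat_lit 152) (nat_lit 240644953755) (nat_lit 0) (nat_lit 112019714608) (nat_lit 1) (nat_lit 5) (nat_lit 3) (nat_lit 4) (nat_lit 1) (nat_lit 4) (nat_lit 263) (nat_lit 202) (nat_lit 195)) (XT.lf (nat_lit 0) (nat_lit 130331674080)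 (nat_lit 152) (nat_lit 274391602261) (nat_lit 0) (nat_lit 129923312147) (nat_lit 1) (nat_lit 5) (nat_lit 3) (nat_lit 4) (nat_lit 1) (nat_lit 4) (nat_lit 264) (nat_lit 202) (nat_lit 194)))))) (XT.nd (nat_lit 312) (nat_lit 0) (nat_lit 0) (XT.nd (nat_lit 156) (nat_lit 0) (nat_lit 0) (XT.nd (nat_lit 78) (nat_lit 0) (nat_lit 0) (XT.lf (nat_lit 0) (nat_lit 150892324959) (nat_lit 152) (nat_lit 313326768558) (nat_lit 0) (nat_lit 150458094153) (nat_lit 1) (nat_lit 5) (nat_lit 3) (nat_lit 4) (nat_lit 1) (nat_lit 4) (nat_lit 265) (nat_lit 202) (nat_lit 193)) (XT.lf (nat_lit 0) (nat_lit 174482553577) (nat_lit 152) (nat_lit 358212227638) (nat_lit 0) (nat_lit 174025828099) (nat_lit 1) (nat_lit 5) (nat_lit 3) (nat_lit 4) (nat_lit 1) (nat_lit 4) (nat_lit 266) (nat_lit 202) (nat_lit 192))) (XT.nd (nat_lit 78) (nat_lit 0) (nat_lit 0) (XT.lf (nat_lit 0) (nat_lit 201563907887) (nat_lit 152) (nat_lit 409926173267)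 (nat_lit 0) (nat_lit 201087621825) (nat_lit 1) (nat_lit 5) (nat_lit 3) (nat_lit 4) (nat_lit 1) (nat_lit 4) (nat_lit 267) (nat_lit 202) (nat_lit 191)) (XT.lf (nat_lit 0) (nat_lit 232666240473) (nat_lit 152) (nat_lit 469480400033) (nat_lit 0) (nat_lit 232172945207) (nat_lit 1) (nat_lit 5) (nat_lit 3) (nat_lit 4) (nat_lit 1) (nat_lit 4) (nat_lit 268) (nat_lit 202) (nat_lit 190)))) (XT.nd (nat_lit 156) (nat_lit 0) (nat_lit 0) (XT.nd (nat_lit 78) (nat_lit 0) (nat_lit 0) (XT.lf (nat_lit 0) (nat_lit 268398075233) (nat_lit 152) (nat_lit 538040099329) (nat_lit 0) (nat_lit 267889989355) (nat_lit 1) (nat_lit 5) (nat_lit 3) (nat_lit 4) (nat_lit 1) (nat_lit 4) (nat_lit 269) (nat_lit 202) (nat_lit 189)) (XT.lf (nat_lit 0) (nat_lit 309458513282) (nat_lit 152) (nat_lit 616946656576) (nat_lit 0) (nat_lit 308937566003) (nat_lit 1) (nat_lit 5) (nat_lit 3) (nat_lit 4) (nat_lit 1) (nat_lit 4) (nat_lit 270)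 (nat_lit 202) (nat_lit 188))) (XT.nd (nat_lit 78) (nat_lit 0) (nat_lit 0) (XT.lf (nat_lit 0) (nat_lit 356650911016) (nat_lit 152) (nat_lit 707743895721) (nat_lit 0) (nat_lit 356118779910) (nat_lit 1) (nat_lit 5) (nat_lit 3) (nat_lit 4) (nat_lit 1) (nat_lit 4) (nat_lit 271) (nat_lit 202) (nat_lit 187)) (XT.nd (nat_lit 78) (nat_lit 0) (nat_lit 0) (XT.lf (nat_lit 0) (nat_lit 410898597957) (nat_lit 152) (nat_lit 812208284485) (nat_lit 0) (nat_lit 410356741783) (nat_lit 1) (nat_lit 5) (nat_lit 3) (nat_lit 4) (nat_lit 1) (nat_lit 4) (nat_lit 272) (nat_lit 202) (nat_lit 186)) (XT.lf (nat_lit 0) (nat_lit 473262941893) (nat_lit 152) (nat_lit 932383691344) (nat_lit 0) (nat_lit 472712629139) (nat_lit 1) (nat_lit 5) (nat_lit 3) (nat_lit 4) (nat_lit 1) (nat_lit 4) (nat_lit 273) (nat_lit 202) (nat_lit 185))))))))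
noncomputable def xc17 : XT := (XT.nd (nat_lit 1404) (nat_lit 0) (nat_lit 0) (XT.nd (nat_lit 702) (nat_lit 0) (nat_lit 0) (XT.nd (nat_lit 312) (nat_lit 0) (nat_lit 0) (XT.nd (nat_lit 156) (nat_lit 0) (nat_lit 0) (XT.nd (nat_lit 78) (nat_lit 0) (nat_lit 0) (XT.lf (nat_lit 0) (nat_lit 544964114769) (nat_lit 152) (nat_lit 1070621374259) (nat_lit 0) (nat_lit 544406448467) (nat_lit 1) (nat_lit 5) (nat_lit 3) (nat_lit 4) (nat_lit 1) (nat_lit 4) (nat_lit 274) (nat_lit 202) (nat_lit 184)) (XT.lf (nat_lit 0) (nat_lit 627404965621) (nat_lit 152) (nat_lit 1229625983548) (nat_lit 0) (nat_lit 626840904930) (nat_lit 1) (nat_lit 5) (nat_lit 3) (nat_lit 4) (nat_lit 1) (nat_lit 4) (nat_lit 275) (nat_lit 202) (nat_lit 183))) (XT.nd (nat_lit 78) (nat_lit 0) (nat_lit 0) (XT.lf (nat_lit 0) (nat_lit 722198467618) (nat_lit 152) (nat_lit 1412508478958) (nat_lit 0) (nat_lit 721628846587) (nat_lit 1) (nat_lit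 5) (nat_lit 3) (nat_lit 4) (nat_lit 1) (nat_lit 4) (nat_lit 276) (nat_lit 202) (nat_lit 182)) (XT.lf (nat_lit 0) (nat_lit 831199276233) (nat_lit 152) (nat_lit 1622846996268) (nat_lit 0) (nat_lit 830624820125) (nat_lit 1) (nat_lit 5) (nat_lit 3) (nat_lit 4) (nat_lit 1) (nat_lit 4) (nat_lit 277) (nat_lit 202) (nat_lit 181)))) (XT.nd (nat_lit 156) (nat_lit 0) (nat_lit 0) (XT.nd (nat_lit 78) (nat_lit 0) (nat_lit 0) (XT.lf (nat_lit 0) (nat_lit 956540015982) (nat_lit 152) (nat_lit 1864756854295) (nat_lit 0) (nat_lit 955961355459) (nat_lit 1) (nat_lit 5) (nat_lit 3) (nat_lit 4) (nat_lit 1) (nat_lit 4) (nat_lit 278) (nat_lit 202) (nat_lit 180)) (XT.lf (nat_lit 0) (nat_lit 1100673005688) (nat_lit 152) (nat_lit 2142971072000) (nat_lit 0) (nat_lit 1100090689152) (nat_lit 1) (nat_lit 5) (nat_lit 3) (nat_lit 4) (nat_lit 1) (nat_lit 4) (nat_lit 279) (nat_lit 202) (nat_lit 179))) (XT.nd (nat_lit 78)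 (nat_lit 0) (nat_lit 0) (XT.lf (nat_lit 0) (nat_lit 1266418238626) (nat_lit 152) (nat_lit 2462932971036) (nat_lit 0) (nat_lit 1265832742948) (nat_lit 1) (nat_lit 5) (nat_lit 3) (nat_lit 4) (nat_lit 1) (nat_lit 4) (nat_lit 280) (nat_lit 202) (nat_lit 178)) (XT.nd (nat_lit 78) (nat_lit 0) (nat_lit 0) (XT.lf (nat_lit 0) (nat_lit 1457018556310) (nat_lit 152) (nat_lit 2830902675512) (nat_lit 0) (nat_lit 1456430296161) (nat_lit 1) (nat_lit 5) (nat_lit 3) (nat_lit 4) (nat_lit 1) (nat_lit 4) (nat_lit 281) (nat_lit 202) (nat_lit 177)) (XT.lf (nat_lit 0) (nat_lit 1676203095392) (nat_lit 152) (nat_lit 3254079592691) (nat_lit 0) (nat_lit 1675612431355) (nat_lit 1) (nat_lit 5) (nat_lit 3) (nat_lit 4) (nat_lit 1) (nat_lit 4) (nat_lit 282) (nat_lit 202) (nat_lit 176)))))) (XT.nd (nat_lit 312) (nat_lit 0) (nat_lit 0) (XT.nd (nat_lit 156) (nat_lit 0) (nat_lit 0) (XT.nd (nat_lit 78) (nat_lit 0) (nat_lit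 0) (XT.lf (nat_lit 0) (nat_lit 1928260249027) (nat_lit 152) (nat_lit 3740743270952) (nat_lit 0) (nat_lit 1927667494653) (nat_lit 1) (nat_lit 5) (nat_lit 3) (nat_lit 4) (nat_lit 1) (nat_lit 4) (nat_lit 283) (nat_lit 202) (nat_lit 175)) (XT.lf (nat_lit 0) (nat_lit 2218121570220) (nat_lit 152) (nat_lit 4300415390956) (nat_lit 0) (nat_lit 2217526998162) (nat_lit 1) (nat_lit 5) (nat_lit 3) (nat_lit 4) (nat_lit 1) (nat_lit 4) (nat_lit 284) (nat_lit 202) (nat_lit 174))) (XT.nd (nat_lit 78) (nat_lit 0) (nat_lit 0) (XT.lf (nat_lit 0) (nat_lit 2551458258735) (nat_lit 152) (nat_lit 4944046059400) (nat_lit 0) (nat_lit 2550862106081) (nat_lit 1) (nat_lit 5) (nat_lit 3) (nat_lit 4) (nat_lit 1) (nat_lit 4) (nat_lit 285) (nat_lit 202) (nat_lit 173)) (XT.lf (nat_lit 0) (nat_lit 2934792119347) (nat_lit 152) (nat_lit 5684228050232) (nat_lit 0) (nat_lit 2934194592262) (nat_lit 1) (nat_lit 5) (nat_lit 3)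 (nat_lit 4) (nat_lit 1) (nat_lit 4) (nat_lit 286) (nat_lit 202) (nat_lit 172)))) (XT.nd (nat_lit 156) (nat_lit 0) (nat_lit 0) (XT.nd (nat_lit 78) (nat_lit 0) (nat_lit 0) (XT.lf (nat_lit 0) (nat_lit 3375623162372) (nat_lit 152) (nat_lit 6535443185010) (nat_lit 0) (nat_lit 3375024440130) (nat_lit 1) (nat_lit 5) (nat_lit 3) (nat_lit 4) (nat_lit 1) (nat_lit 4) (nat_lit 287) (nat_lit 202) (nat_lit 171)) (XT.lf (nat_lit 0) (nat_lit 3882576342999) (nat_lit 152) (nat_lit 7514345672894) (nat_lit 0) (nat_lit 3881976581490) (nat_lit 1) (nat_lit 5) (nat_lit 3) (nat_lit 4) (nat_lit 1) (nat_lit 4) (nat_lit 288) (nat_lit 202) (nat_lit 170))) (XT.nd (nat_lit 78) (nat_lit 0) (nat_lit 0) (XT.lf (nat_lit 0) (nat_lit 4465570310415) (nat_lit 152) (nat_lit 8640087953864) (nat_lit 0) (nat_lit 4464969645195) (nat_lit 1) (nat_lit 5) (nat_lit 3) (nat_lit 4) (nat_lit 1) (nat_lit 4) (nat_lit 289) (nat_lit 202)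 (nat_lit 169)) (XT.nd (nat_lit 78) (nat_lit 0) (nat_lit 0) (XT.lf (nat_lit 0) (nat_lit 5136011468330) (nat_lit 152) (nat_lit 9934695420374) (nat_lit 0) (nat_lit 5135410017275) (nat_lit 1) (nat_lit 5) (nat_lit 3) (nat_lit 4) (nat_lit 1) (nat_lit 4) (nat_lit 290) (nat_lit 202) (nat_lit 168)) (XT.lf (nat_lit 0) (nat_lit 5907017143746) (nat_lit 152) (nat_lit 11423497348943) (nat_lit 0) (nat_lit 5906415009357) (nat_lit 1) (nat_lit 5) (nat_lit 3) (nat_lit 4) (nat_lit 1) (nat_lit 4) (nat_lit 291) (nat_lit 202) (nat_lit 167))))))) (XT.nd (nat_lit 1014) (nat_lit 0) (nat_lit 0) (XT.nd (nat_lit 312) (nat_lit 0) (nat_lit 0) (XT.nd (nat_lit 156) (nat_lit 0) (nat_lit 0) (XT.nd (nat_lit 78) (nat_lit 0) (nat_lit 0) (XT.lf (nat_lit 0) (nat_lit 6793672230315) (nat_lit 152) (nat_lit 13135622472955) (nat_lit 0) (nat_lit 6793069501720) (nat_lit 1) (nat_lit 5) (nat_lit 3) (nat_lit 4) (nat_lit 1) (nat_lit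 4) (nat_lit 292) (nat_lit 202) (nat_lit 166)) (XT.lf (nat_lit 0) (nat_lit 7813324327554) (nat_lit 152) (nat_lit 15104568892663) (nat_lit 0) (nat_lit 7812721082260) (nat_lit 1) (nat_lit 5) (nat_lit 3) (nat_lit 4) (nat_lit 1) (nat_lit 4) (nat_lit 293) (nat_lit 202) (nat_lit 165))) (XT.nd (nat_lit 78) (nat_lit 0) (nat_lit 0) (XT.lf (nat_lit 0) (nat_lit 8985923150410) (nat_lit 152) (nat_lit 17368859472801) (nat_lit 0) (nat_lit 8985319455812) (nat_lit 1) (nat_lit 5) (nat_lit 3) (nat_lit 4) (nat_lit 1) (nat_lit 4) (nat_lit 294) (nat_lit 202) (nat_lit 164)) (XT.lf (nat_lit 0) (nat_lit 10334410849765) (nat_lit 152) (nat_lit 19972795550805) (nat_lit 0) (nat_lit 10333806764468) (nat_lit 1) (nat_lit 5) (nat_lit 3) (nat_lit 4) (nat_lit 1) (nat_lit 4) (nat_lit 295) (nat_lit 202) (nat_lit 163)))) (XT.nd (nat_lit 156) (nat_lit 0) (nat_lit 0) (XT.nd (nat_lit 78) (nat_lit 0) (nat_lit 0) (XT.lf (nat_lit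 0) (nat_lit 11885170880606) (nat_lit 152) (nat_lit 22967323702115) (nat_lit 0) (nat_lit 11884566455572) (nat_lit 1) (nat_lit 5) (nat_lit 3) (nat_lit 4) (nat_lit 1) (nat_lit 4) (nat_lit 296) (nat_lit 202) (nat_lit 162)) (XT.lf (nat_lit 0) (nat_lit 13668544200059) (nat_lit 152) (nat_lit 26411032520996) (nat_lit 0) (nat_lit 13667939479600) (nat_lit 1) (nat_lit 5) (nat_lit 3) (nat_lit 4) (nat_lit 1) (nat_lit 4) (nat_lit 297) (nat_lit 202) (nat_lit 161))) (XT.nd (nat_lit 78) (nat_lit 0) (nat_lit 0) (XT.lf (nat_lit 0) (nat_lit 15719422894809) (nat_lit 152) (nat_lit 30371298919122) (nat_lit 0) (nat_lit 15718817917458) (nat_lit 1) (nat_lit 5) (nat_lit 3) (nat_lit 4) (nat_lit 1) (nat_lit 4) (nat_lit 298) (nat_lit 202) (nat_lit 160)) (XT.nd (nat_lit 390) (nat_lit 0) (nat_lit 0) (XT.lf (nat_lit 0) (nat_lit 18077932852360) (nat_lit 152) (nat_lit 34925606369499) (nat_lit 0) (nat_lit 18077327651627)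 (nat_lit 1) (nat_lit 5) (nat_lit 3) (nat_lit 4) (nat_lit 1) (nat_lit 4) (nat_lit 299) (nat_lit 202) (nat_lit 159)) (XT.lf (nat_lit 0) (nat_lit 36365194776120) (nat_lit 152) (nat_lit 70238530014916) (nat_lit 0) (nat_lit 36364588826570) (nat_lit 1) (nat_lit 5) (nat_lit 3) (nat_lit 4) (nat_lit 1) (nat_lit 4) (nat_lit 304) (nat_lit 202) (nat_lit 154)))))) (XT.nd (nat_lit 30576) (nat_lit 0) (nat_lit 0) (XT.nd (nat_lit 30420) (nat_lit 0) (nat_lit 0) (XT.nd (nat_lit 78) (nat_lit 0) (nat_lit 0) (XT.lf (nat_lit 0) (nat_lit 41820568466912) (nat_lit 152) (nat_lit 80772926264333) (nat_lit 0) (nat_lit 41819962420788) (nat_lit 1) (nat_lit 5) (nat_lit 3) (nat_lit 4) (nat_lit 1) (nat_lit 4) (nat_lit 305) (nat_lit 202) (nat_lit 153)) (XT.lf (nat_lit 0) (nat_lit 48094248007786) (nat_lit 152) (nat_lit 92887482361885) (nat_lit 0) (nat_lit 48093641877684) (nat_lit 1) (nat_lit 5) (nat_lit 3) (nat_lit 4) (nat_lit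 1) (nat_lit 4) (nat_lit 306) (nat_lit 202) (nat_lit 152))) (XT.nd (nat_lit 78) (nat_lit 0) (nat_lit 0) (XT.lf (nat_lit 0) (nat_lit 11886222366) (nat_lit 152) (nat_lit 42984633830) (nat_lit 0) (nat_lit 11886222366) (nat_lit 1) (nat_lit 5) (nat_lit 3) (nat_lit 4) (nat_lit 1) (nat_lit 4) (nat_lit 254) (nat_lit 203) (nat_lit 203)) (XT.lf (nat_lit 0) (nat_lit 29490584924) (nat_lit 152) (nat_lit 94310314805) (nat_lit 0) (nat_lit 29399581430) (nat_lit 1) (nat_lit 5) (nat_lit 3) (nat_lit 4) (nat_lit 1) (nat_lit 4) (nat_lit 255) (nat_lit 203) (nat_lit 202)))) (XT.nd (nat_lit 156) (nat_lit 0) (nat_lit 0) (XT.nd (nat_lit 78) (nat_lit 0) (nat_lit 0) (XT.lf (nat_lit 0) (nat_lit 35874651910) (nat_lit 152) (nat_lit 104289548169) (nat_lit 0) (nat_lit 35704514944) (nat_lit 1) (nat_lit 5) (nat_lit 3) (nat_lit 4) (nat_lit 1) (nat_lit 4) (nat_lit 256) (nat_lit 203) (nat_lit 201)) (XT.lf (nat_lit 0) (nat_lit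 43049551350) (nat_lit 152) (nat_lit 116102213624) (nat_lit 0) (nat_lit 42810602669) (nat_lit 1) (nat_lit 5) (nat_lit 3) (nat_lit 4) (nat_lit 1) (nat_lit 4) (nat_lit 257) (nat_lit 203) (nat_lit 200))) (XT.nd (nat_lit 78) (nat_lit 0) (nat_lit 0) (XT.lf (nat_lit 0) (nat_lit 51155661710) (nat_lit 152) (nat_lit 129979428537) (nat_lit 0) (nat_lit 50856876755) (nat_lit 1) (nat_lit 5) (nat_lit 3) (nat_lit 4) (nat_lit 1) (nat_lit 4) (nat_lit 258) (nat_lit 203) (nat_lit 199)) (XT.nd (nat_lit 78) (nat_lit 0) (nat_lit 0) (XT.lf (nat_lit 0) (nat_lit 60351580802) (nat_lit 152) (nat_lit 146192703634) (nat_lit 0) (nat_lit 60000764304) (nat_lit 1) (nat_lit 5) (nat_lit 3) (nat_lit 4) (nat_lit 1) (nat_lit 4) (nat_lit 259) (nat_lit 203) (nat_lit 198)) (XT.lf (nat_lit 0) (nat_lit 70817228782) (nat_lit 152) (nat_lit 165059255168) (nat_lit 0) (nat_lit 70421167464) (nat_lit 1) (nat_lit 5) (nat_lit 3) (nat_lit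 4) (nat_lit 1) (nat_lit 4) (nat_lit 260) (nat_lit 203) (nat_lit 197))))))))
noncomputable def xc18 : XT := (XT.nd (nat_lit 1326) (nat_lit 0) (nat_lit 0) (XT.nd (nat_lit 624) (nat_lit 0) (nat_lit 0) (XT.nd (nat_lit 312) (nat_lit 0) (nat_lit 0) (XT.nd (nat_lit 156) (nat_lit 0) (nat_lit 0) (XT.nd (nat_lit 78) (nat_lit 0) (nat_lit 0) (XT.lf (nat_lit 0) (nat_lit 82757368328) (nat_lit 152) (nat_lit 186948211320) (nat_lit 0) (nat_lit 82321963688) (nat_lit 1) (nat_lit 5) (nat_lit 3) (nat_lit 4) (nat_lit 1) (nat_lit 4) (nat_lit 261) (nat_lit 203) (nat_lit 196)) (XT.lf (nat_lit 0) (nat_lit 96405610865) (nat_lit 152) (nat_lit 212287834277) (nat_lit 0) (nat_lit 95935994641) (nat_lit 1) (nat_lit 5) (nat_lit 3) (nat_lit 4) (nat_lit 1) (nat_lit 4) (nat_lit 262) (nat_lit 203) (nat_lit 195))) (XT.nd (nat_lit 78) (nat_lit 0) (nat_lit 0) (XT.lf (nat_lit 0) (nat_lit 112028987226) (nat_lit 152) (nat_lit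 241573899270) (nat_lit 0) (nat_lit 111529621799) (nat_lit 1) (nat_lit 5) (nat_lit 3) (nat_lit 4) (nat_lit 1) (nat_lit 4) (nat_lit 263) (nat_lit 203) (nat_lit 194)) (XT.lf (nat_lit 0) (nat_lit 129933172166) (nat_lit 152) (nat_lit 275379394527) (nat_lit 0) (nat_lit 129407937867) (nat_lit 1) (nat_lit 5) (nat_lit 3) (nat_lit 4) (nat_lit 1) (nat_lit 4) (nat_lit 264) (nat_lit 203) (nat_lit 193)))) (XT.nd (nat_lit 156) (nat_lit 0) (nat_lit 0) (XT.nd (nat_lit 78) (nat_lit 0) (nat_lit 0) (XT.lf (nat_lit 0) (nat_lit 150468464955) (nat_lit 152) (nat_lit 314365731912) (nat_lit 0) (nat_lit 149920735984) (nat_lit 1) (nat_lit 5) (nat_lit 3) (nat_lit 4) (nat_lit 1) (nat_lit 4) (nat_lit 265) (nat_lit 203) (nat_lit 192)) (XT.lf (nat_lit 0) (nat_lit 174036643062) (nat_lit 152) (nat_lit 359295687591) (nat_lit 0) (nat_lit 173469353506) (nat_lit 1) (nat_lit 5) (nat_lit 3) (nat_lit 4) (nat_lit 1) (nat_lit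 4) (nat_lit 266) (nat_lit 203) (nat_lit 191))) (XT.nd (nat_lit 78) (nat_lit 0) (nat_lit 0) (XT.lf (nat_lit 0) (nat_lit 201098823013) (nat_lit 152) (nat_lit 411048325914) (nat_lit 0) (nat_lit 200514524254) (nat_lit 1) (nat_lit 5) (nat_lit 3) (nat_lit 4) (nat_lit 1) (nat_lit 4) (nat_lit 267) (nat_lit 203) (nat_lit 190)) (XT.lf (nat_lit 0) (nat_lit 232184482244) (nat_lit 152) (nat_lit 470636198501) (nat_lit 0) (nat_lit 231585392873) (nat_lit 1) (nat_lit 5) (nat_lit 3) (nat_lit 4) (nat_lit 1) (nat_lit 4) (nat_lit 268) (nat_lit 203) (nat_lit 189))))) (XT.nd (nat_lit 312) (nat_lit 0) (nat_lit 0) (XT.nd (nat_lit 156) (nat_lit 0) (nat_lit 0) (XT.nd (nat_lit 78) (nat_lit 0) (nat_lit 0) (XT.lf (nat_lit 0) (nat_lit 267901818434) (nat_lit 152) (nat_lit 539225155032) (nat_lit 0) (nat_lit 267289867661) (nat_lit 1) (nat_lit 5) (nat_lit 3) (nat_lit 4) (nat_lit 1) (nat_lit 4) (nat_lit 269) (nat_lit 203)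 (nat_lit 188)) (XT.lf (nat_lit 0) (nat_lit 308949649031) (nat_lit 152) (nat_lit 618157153354) (nat_lit 0) (nat_lit 308326514431) (nat_lit 1) (nat_lit 5) (nat_lit 3) (nat_lit 4) (nat_lit 1) (nat_lit 4) (nat_lit 270) (nat_lit 203) (nat_lit 187))) (XT.nd (nat_lit 78) (nat_lit 0) (nat_lit 0) (XT.lf (nat_lit 0) (nat_lit 356131083764) (nat_lit 152) (nat_lit 708976515172) (nat_lit 0) (nat_lit 355498224096) (nat_lit 1) (nat_lit 5) (nat_lit 3) (nat_lit 4) (nat_lit 1) (nat_lit 4) (nat_lit 271) (nat_lit 203) (nat_lit 186)) (XT.lf (nat_lit 0) (nat_lit 410369237660) (nat_lit 152) (nat_lit 813460141043) (nat_lit 0) (nat_lit 409727921412) (nat_lit 1) (nat_lit 5) (nat_lit 3) (nat_lit 4) (nat_lit 1) (nat_lit 4) (nat_lit 272) (nat_lit 203) (nat_lit 185)))) (XT.nd (nat_lit 156) (nat_lit 0) (nat_lit 0) (XT.nd (nat_lit 78) (nat_lit 0) (nat_lit 0) (XT.lf (nat_lit 0) (nat_lit 472725291991) (nat_lit 152) (nat_lit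 933652275822) (nat_lit 0) (nat_lit 472076622195) (nat_lit 1) (nat_lit 5) (nat_lit 3) (nat_lit 4) (nat_lit 1) (nat_lit 4) (nat_lit 273) (nat_lit 203) (nat_lit 184)) (XT.lf (nat_lit 0) (nat_lit 544419256516) (nat_lit 152) (nat_lit 1071904504754) (nat_lit 0) (nat_lit 543764192330) (nat_lit 1) (nat_lit 5) (nat_lit 3) (nat_lit 4) (nat_lit 1) (nat_lit 4) (nat_lit 274) (nat_lit 203) (nat_lit 183))) (XT.nd (nat_lit 78) (nat_lit 0) (nat_lit 0) (XT.lf (nat_lit 0) (nat_lit 626853839236) (nat_lit 152) (nat_lit 1230921762753) (nat_lit 0) (nat_lit 626193214712) (nat_lit 1) (nat_lit 5) (nat_lit 3) (nat_lit 4) (nat_lit 1) (nat_lit 4) (nat_lit 275) (nat_lit 203) (nat_lit 182)) (XT.nd (nat_lit 78) (nat_lit 0) (nat_lit 0) (XT.lf (nat_lit 0) (nat_lit 721641890683) (nat_lit 152) (nat_lit 1413815257041) (nat_lit 0) (nat_lit 720976431082) (nat_lit 1) (nat_lit 5) (nat_lit 3) (nat_lit 4) (nat_lit 1) (nat_lit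 4) (nat_lit 276) (nat_lit 203) (nat_lit 181)) (XT.lf (nat_lit 0) (nat_lit 830637959690) (nat_lit 152) (nat_lit 1624163338594) (nat_lit 0) (nat_lit 829968295674) (nat_lit 1) (nat_lit 5) (nat_lit 3) (nat_lit 4) (nat_lit 1) (nat_lit 4) (nat_lit 277) (nat_lit 203) (nat_lit 180))))))) (XT.nd (nat_lit 702) (nat_lit 0) (nat_lit 0) (XT.nd (nat_lit 312) (nat_lit 0) (nat_lit 0) (XT.nd (nat_lit 156) (nat_lit 0) (nat_lit 0) (XT.nd (nat_lit 78) (nat_lit 0) (nat_lit 0) (XT.lf (nat_lit 0) (nat_lit 955974578041) (nat_lit 152) (nat_lit 1866081513353) (nat_lit 0) (nat_lit 955301258012) (nat_lit 1) (nat_lit 5) (nat_lit 3) (nat_lit 4) (nat_lit 1) (nat_lit 4) (nat_lit 278) (nat_lit 203) (nat_lit 179)) (XT.lf (nat_lit 0) (nat_lit 1100103983922) (nat_lit 152) (nat_lit 2144302963000) (nat_lit 0) (nat_lit 1099427484750) (nat_lit 1) (nat_lit 5) (nat_lit 3) (nat_lit 4) (nat_lit 1) (nat_lit 4) (nat_lit 279) (nat_lit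 203) (nat_lit 178))) (XT.nd (nat_lit 78) (nat_lit 0) (nat_lit 0) (XT.lf (nat_lit 0) (nat_lit 1265846100490) (nat_lit 152) (nat_lit 2464271150680) (nat_lit 0) (nat_lit 1265166836848) (nat_lit 1) (nat_lit 5) (nat_lit 3) (nat_lit 4) (nat_lit 1) (nat_lit 4) (nat_lit 280) (nat_lit 203) (nat_lit 177)) (XT.lf (nat_lit 0) (nat_lit 1456443708289) (nat_lit 152) (nat_lit 2832246323543) (nat_lit 0) (nat_lit 1455762040758) (nat_lit 1) (nat_lit 5) (nat_lit 3) (nat_lit 4) (nat_lit 1) (nat_lit 4) (nat_lit 281) (nat_lit 203) (nat_lit 176)))) (XT.nd (nat_lit 156) (nat_lit 0) (nat_lit 0) (XT.nd (nat_lit 78) (nat_lit 0) (nat_lit 0) (XT.lf (nat_lit 0) (nat_lit 1675625890947) (nat_lit 152) (nat_lit 3255427995840) (nat_lit 0) (nat_lit 1674942133080) (nat_lit 1) (nat_lit 5) (nat_lit 3) (nat_lit 4) (nat_lit 1) (nat_lit 4) (nat_lit 282) (nat_lit 203) (nat_lit 175)) (XT.lf (nat_lit 0) (nat_lit 1927680995519) (nat_lit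 152) (nat_lit 3742095808987) (nat_lit 0) (nat_lit 1926995419967) (nat_lit 1) (nat_lit 5) (nat_lit 3) (nat_lit 4) (nat_lit 1) (nat_lit 4) (nat_lit 283) (nat_lit 203) (nat_lit 174))) (XT.nd (nat_lit 78) (nat_lit 0) (nat_lit 0) (XT.lf (nat_lit 0) (nat_lit 2217540534918) (nat_lit 152) (nat_lit 4301771524544) (nat_lit 0) (nat_lit 2216853378771) (nat_lit 1) (nat_lit 5) (nat_lit 3) (nat_lit 4) (nat_lit 1) (nat_lit 4) (nat_lit 284) (nat_lit 203) (nat_lit 173)) (XT.nd (nat_lit 78) (nat_lit 0) (nat_lit 0) (XT.lf (nat_lit 0) (nat_lit 2550875674047) (nat_lit 152) (nat_lit 4945405319556) (nat_lit 0) (nat_lit 2550187143468) (nat_lit 1) (nat_lit 5) (nat_lit 3) (nat_lit 4) (nat_lit 1) (nat_lit 4) (nat_lit 285) (nat_lit 203) (nat_lit 172)) (XT.lf (nat_lit 0) (nat_lit 2934208187366) (nat_lit 152) (nat_lit 5685590029142) (nat_lit 0) (nat_lit 2933518461630) (nat_lit 1) (nat_lit 5) (nat_lit 3) (nat_lit 4)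 (nat_lit 1) (nat_lit 4) (nat_lit 286) (nat_lit 203) (nat_lit 171)))))) (XT.nd (nat_lit 312) (nat_lit 0) (nat_lit 0) (XT.nd (nat_lit 156) (nat_lit 0) (nat_lit 0) (XT.nd (nat_lit 78) (nat_lit 0) (nat_lit 0) (XT.lf (nat_lit 0) (nat_lit 3375038058832) (nat_lit 152) (nat_lit 6536807528055) (nat_lit 0) (nat_lit 3374347293829) (nat_lit 1) (nat_lit 5) (nat_lit 3) (nat_lit 4) (nat_lit 1) (nat_lit 4) (nat_lit 287) (nat_lit 203) (nat_lit 170)) (XT.lf (nat_lit 0) (nat_lit 3881990220712) (nat_lit 152) (nat_lit 7515712071708) (nat_lit 0) (nat_lit 3881298551999) (nat_lit 1) (nat_lit 5) (nat_lit 3) (nat_lit 4) (nat_lit 1) (nat_lit 4) (nat_lit 288) (nat_lit 203) (nat_lit 169))) (XT.nd (nat_lit 78) (nat_lit 0) (nat_lit 0) (XT.lf (nat_lit 0) (nat_lit 4464983302262) (nat_lit 152) (nat_lit 8641456140304) (nat_lit 0) (nat_lit 4464290847713) (nat_lit 1) (nat_lit 5) (nat_lit 3) (nat_lit 4) (nat_lit 1) (nat_lit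 4) (nat_lit 289) (nat_lit 203) (nat_lit 168)) (XT.lf (nat_lit 0) (nat_lit 5135423689858) (nat_lit 152) (nat_lit 9936065161270) (nat_lit 0) (nat_lit 5134730551975) (nat_lit 1) (nat_lit 5) (nat_lit 3) (nat_lit 4) (nat_lit 1) (nat_lit 4) (nat_lit 290) (nat_lit 203) (nat_lit 167)))) (XT.nd (nat_lit 156) (nat_lit 0) (nat_lit 0) (XT.nd (nat_lit 78) (nat_lit 0) (nat_lit 0) (XT.lf (nat_lit 0) (nat_lit 5906428695432) (nat_lit 152) (nat_lit 11424868441540) (nat_lit 0) (nat_lit 5905734963345) (nat_lit 1) (nat_lit 5) (nat_lit 3) (nat_lit 4) (nat_lit 1) (nat_lit 4) (nat_lit 291) (nat_lit 203) (nat_lit 166)) (XT.lf (nat_lit 0) (nat_lit 6793083199529) (nat_lit 152) (nat_lit 13136994740945) (nat_lit 0) (nat_lit 6792388950742) (nat_lit 1) (nat_lit 5) (nat_lit 3) (nat_lit 4) (nat_lit 1) (nat_lit 4) (nat_lit 292) (nat_lit 203) (nat_lit 165))) (XT.nd (nat_lit 78) (nat_lit 0) (nat_lit 0) (XT.lf (nat_lit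 0) (nat_lit 7812734790270) (nat_lit 152) (nat_lit 15105942182734) (nat_lit 0) (nat_lit 7812040092180) (nat_lit 1) (nat_lit 5) (nat_lit 3) (nat_lit 4) (nat_lit 1) (nat_lit 4) (nat_lit 293) (nat_lit 203) (nat_lit 164)) (XT.nd (nat_lit 78) (nat_lit 0) (nat_lit 0) (XT.lf (nat_lit 0) (nat_lit 8985333172694) (nat_lit 152) (nat_lit 17370233651637) (nat_lit 0) (nat_lit 8984638083904) (nat_lit 1) (nat_lit 5) (nat_lit 3) (nat_lit 4) (nat_lit 1) (nat_lit 4) (nat_lit 294) (nat_lit 203) (nat_lit 163)) (XT.lf (nat_lit 0) (nat_lit 10333820489065) (nat_lit 152) (nat_lit 19974170502481) (nat_lit 0) (nat_lit 10333125060537) (nat_lit 1) (nat_lit 5) (nat_lit 3) (nat_lit 4) (nat_lit 1) (nat_lit 4) (nat_lit 295) (nat_lit 203) (nat_lit 162))))))))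
noncomputable def xc19 : XT := (XT.nd (nat_lit 32136) (nat_lit 0) (nat_lit 0) (XT.nd (nat_lit 31434) (nat_lit 0) (nat_lit 0) (XT.nd (nat_lit 31044) (nat_lit 0) (nat_lit 0) (XT.nd (nat_lit 156) (nat_lit 0) (nat_lit 0) (XT.nd (nat_lit 78) (nat_lit 0) (nat_lit 0) (XT.lf (nat_lit 0) (nat_lit 11884580186876) (nat_lit 152) (nat_lit 22968699325826) (nat_lit 0) (nat_lit 11883884462923) (nat_lit 1) (nat_lit 5) (nat_lit 3) (nat_lit 4) (nat_lit 1) (nat_lit 4) (nat_lit 296) (nat_lit 203) (nat_lit 161)) (XT.lf (nat_lit 0) (nat_lit 13667953216738) (nat_lit 152) (nat_lit 26412408729085) (nat_lit 0) (nat_lit 13667257235894) (nat_lit 1) (nat_lit 5) (nat_lit 3) (nat_lit 4) (nat_lit 1) (nat_lit 4) (nat_lit 297) (nat_lit 203) (nat_lit 160))) (XT.nd (nat_lit 30810) (nat_lit 0) (nat_lit 0) (XT.lf (nat_lit 0) (nat_lit 15718831659668) (nat_lit 152) (nat_lit 30372675635365) (nat_lit 0) (nat_lit 15718135455441)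 (nat_lit 1) (nat_lit 5) (nat_lit 3) (nat_lit 4) (nat_lit 1) (nat_lit 4) (nat_lit 298) (nat_lit 203) (nat_lit 159)) (XT.lf (nat_lit 0) (nat_lit 7059953996) (nat_lit 152) (nat_lit 36669872518) (nat_lit 0) (nat_lit 7059953996) (nat_lit 1) (nat_lit 5) (nat_lit 3) (nat_lit 4) (nat_lit 1) (nat_lit 4) (nat_lit 252) (nat_lit 204) (nat_lit 204)))) (XT.nd (nat_lit 156) (nat_lit 0) (nat_lit 0) (XT.nd (nat_lit 78) (nat_lit 0) (nat_lit 0) (XT.lf (nat_lit 0) (nat_lit 18713008696) (nat_lit 152) (nat_lit 79103212336) (nat_lit 0) (nat_lit 18608354679) (nat_lit 1) (nat_lit 5) (nat_lit 3) (nat_lit 4) (nat_lit 1) (nat_lit 4) (nat_lit 253) (nat_lit 204) (nat_lit 203)) (XT.lf (nat_lit 0) (nat_lit 23774511136) (nat_lit 152) (nat_lit 86176283252) (nat_lit 0) (nat_lit 23578853625) (nat_lit 1) (nat_lit 5) (nat_lit 3) (nat_lit 4) (nat_lit 1) (nat_lit 4) (nat_lit 254) (nat_lit 204) (nat_lit 202))) (XT.nd (nat_lit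 78) (nat_lit 0) (nat_lit 0) (XT.lf (nat_lit 0) (nat_lit 29403444707) (nat_lit 152) (nat_lit 94697343954) (nat_lit 0) (nat_lit 29128653724) (nat_lit 1) (nat_lit 5) (nat_lit 3) (nat_lit 4) (nat_lit 1) (nat_lit 4) (nat_lit 255) (nat_lit 204) (nat_lit 201)) (XT.nd (nat_lit 78) (nat_lit 0) (nat_lit 0) (XT.lf (nat_lit 0) (nat_lit 35709940719) (nat_lit 152) (nat_lit 104833110846) (nat_lit 0) (nat_lit 35366338021) (nat_lit 1) (nat_lit 5) (nat_lit 3) (nat_lit 4) (nat_lit 1) (nat_lit 4) (nat_lit 256) (nat_lit 204) (nat_lit 200)) (XT.lf (nat_lit 0) (nat_lit 42817387138) (nat_lit 152) (nat_lit 116781892412) (nat_lit 0) (nat_lit 42413948165) (nat_lit 1) (nat_lit 5) (nat_lit 3) (nat_lit 4) (nat_lit 1) (nat_lit 4) (nat_lit 257) (nat_lit 204) (nat_lit 199)))))) (XT.nd (nat_lit 312) (nat_lit 0) (nat_lit 0) (XT.nd (nat_lit 156) (nat_lit 0) (nat_lit 0) (XT.nd (nat_lit 78) (nat_lit 0) (nat_lit 0) (XT.lf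 (nat_lit 0) (nat_lit 50864842697) (nat_lit 152) (nat_lit 130777469161) (nat_lit 0) (nat_lit 50409372181) (nat_lit 1) (nat_lit 5) (nat_lit 3) (nat_lit 4) (nat_lit 1) (nat_lit 4) (nat_lit 258) (nat_lit 204) (nat_lit 198)) (XT.lf (nat_lit 0) (nat_lit 60009757614) (nat_lit 152) (nat_lit 147093667594) (nat_lit 0) (nat_lit 59509042279) (nat_lit 1) (nat_lit 5) (nat_lit 3) (nat_lit 4) (nat_lit 1) (nat_lit 4) (nat_lit 259) (nat_lit 204) (nat_lit 197))) (XT.nd (nat_lit 78) (nat_lit 0) (nat_lit 0) (XT.lf (nat_lit 0) (nat_lit 70431054137) (nat_lit 152) (nat_lit 166049717681) (nat_lit 0) (nat_lit 69890995481) (nat_lit 1) (nat_lit 5) (nat_lit 3) (nat_lit 4) (nat_lit 1) (nat_lit 4) (nat_lit 260) (nat_lit 204) (nat_lit 196)) (XT.lf (nat_lit 0) (nat_lit 82332627199) (nat_lit 152) (nat_lit 188016498662) (nat_lit 0) (nat_lit 81758356958) (nat_lit 1) (nat_lit 5) (nat_lit 3) (nat_lit 4) (nat_lit 1) (nat_lit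 4) (nat_lit 261) (nat_lit 204) (nat_lit 195)))) (XT.nd (nat_lit 156) (nat_lit 0) (nat_lit 0) (XT.nd (nat_lit 78) (nat_lit 0) (nat_lit 0) (XT.lf (nat_lit 0) (nat_lit 95947333664) (nat_lit 152) (nat_lit 213423795383) (nat_lit 0) (nat_lit 95343314219) (nat_lit 1) (nat_lit 5) (nat_lit 3) (nat_lit 4) (nat_lit 1) (nat_lit 4) (nat_lit 262) (nat_lit 204) (nat_lit 194)) (XT.lf (nat_lit 0) (nat_lit 111541548222) (nat_lit 152) (nat_lit 242768707127) (nat_lit 0) (nat_lit 110911659905) (nat_lit 1) (nat_lit 5) (nat_lit 3) (nat_lit 4) (nat_lit 1) (nat_lit 4) (nat_lit 263) (nat_lit 204) (nat_lit 193))) (XT.nd (nat_lit 78) (nat_lit 0) (nat_lit 0) (XT.lf (nat_lit 0) (nat_lit 129420375073) (nat_lit 152) (nat_lit 276625373472) (nat_lit 0) (nat_lit 128767992085) (nat_lit 1) (nat_lit 5) (nat_lit 3) (nat_lit 4) (nat_lit 1) (nat_lit 4) (nat_lit 264) (nat_lit 204) (nat_lit 192)) (XT.nd (nat_lit 78) (nat_lit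 0) (nat_lit 0) (XT.lf (nat_lit 0) (nat_lit 149933617350) (nat_lit 152) (nat_lit 315656207455) (nat_lit 0) (nat_lit 149261673777) (nat_lit 1) (nat_lit 5) (nat_lit 3) (nat_lit 4) (nat_lit 1) (nat_lit 4) (nat_lit 265) (nat_lit 204) (nat_lit 191)) (XT.lf (nat_lit 0) (nat_lit 173482621098) (nat_lit 152) (nat_lit 360624855828) (nat_lit 0) (nat_lit 172793668322) (nat_lit 1) (nat_lit 5) (nat_lit 3) (nat_lit 4) (nat_lit 1) (nat_lit 4) (nat_lit 266) (nat_lit 204) (nat_lit 190))))))) (XT.nd (nat_lit 702) (nat_lit 0) (nat_lit 0) (XT.nd (nat_lit 312) (nat_lit 0) (nat_lit 0) (XT.nd (nat_lit 156) (nat_lit 0) (nat_lit 0) (XT.nd (nat_lit 78) (nat_lit 0) (nat_lit 0) (XT.lf (nat_lit 0) (nat_lit 200528127694) (nat_lit 152) (nat_lit 412411139972) (nat_lit 0) (nat_lit 199824384306) (nat_lit 1) (nat_lit 5) (nat_lit 3) (nat_lit 4) (nat_lit 1) (nat_lit 4) (nat_lit 267) (nat_lit 204) (nat_lit 189)) (XT.lf (nat_lit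 0) (nat_lit 231599288355) (nat_lit 152) (nat_lit 472028269795) (nat_lit 0) (nat_lit 230882683565) (nat_lit 1) (nat_lit 5) (nat_lit 3) (nat_lit 4) (nat_lit 1) (nat_lit 4) (nat_lit 268) (nat_lit 204) (nat_lit 188))) (XT.nd (nat_lit 78) (nat_lit 0) (nat_lit 0) (XT.lf (nat_lit 0) (nat_lit 267304017093) (nat_lit 152) (nat_lit 540642667401) (nat_lit 0) (nat_lit 266576228476) (nat_lit 1) (nat_lit 5) (nat_lit 3) (nat_lit 4) (nat_lit 1) (nat_lit 4) (nat_lit 269) (nat_lit 204) (nat_lit 187)) (XT.lf (nat_lit 0) (nat_lit 308340884689) (nat_lit 152) (nat_lit 619596788396) (nat_lit 0) (nat_lit 307603371004) (nat_lit 1) (nat_lit 5) (nat_lit 3) (nat_lit 4) (nat_lit 1) (nat_lit 4) (nat_lit 270) (nat_lit 204) (nat_lit 186)))) (XT.nd (nat_lit 156) (nat_lit 0) (nat_lit 0) (XT.nd (nat_lit 78) (nat_lit 0) (nat_lit 0) (XT.lf (nat_lit 0) (nat_lit 355512786376) (nat_lit 152) (nat_lit 710435387321) (nat_lit 0)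 (nat_lit 354766816111) (nat_lit 1) (nat_lit 5) (nat_lit 3) (nat_lit 4) (nat_lit 1) (nat_lit 4) (nat_lit 271) (nat_lit 204) (nat_lit 185)) (XT.lf (nat_lit 0) (nat_lit 409742650668) (nat_lit 152) (nat_lit 814935741112) (nat_lit 0) (nat_lit 408989326855) (nat_lit 1) (nat_lit 5) (nat_lit 3) (nat_lit 4) (nat_lit 1) (nat_lit 4) (nat_lit 272) (nat_lit 204) (nat_lit 184))) (XT.nd (nat_lit 78) (nat_lit 0) (nat_lit 0) (XT.lf (nat_lit 0) (nat_lit 472091496648) (nat_lit 152) (nat_lit 935142421908) (nat_lit 0) (nat_lit 471331778445) (nat_lit 1) (nat_lit 5) (nat_lit 3) (nat_lit 4) (nat_lit 1) (nat_lit 4) (nat_lit 273) (nat_lit 204) (nat_lit 183)) (XT.nd (nat_lit 78) (nat_lit 0) (nat_lit 0) (XT.lf (nat_lit 0) (nat_lit 543779193041) (nat_lit 152) (nat_lit 1073407299551) (nat_lit 0) (nat_lit 543013914499) (nat_lit 1) (nat_lit 5) (nat_lit 3) (nat_lit 4) (nat_lit 1) (nat_lit 4) (nat_lit 274) (nat_lit 204)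 (nat_lit 182)) (XT.lf (nat_lit 0) (nat_lit 626208325212) (nat_lit 152) (nat_lit 1232435556428) (nat_lit 0) (nat_lit 625438211593) (nat_lit 1) (nat_lit 5) (nat_lit 3) (nat_lit 4) (nat_lit 1) (nat_lit 4) (nat_lit 275) (nat_lit 204) (nat_lit 181)))))) (XT.nd (nat_lit 312) (nat_lit 0) (nat_lit 0) (XT.nd (nat_lit 156) (nat_lit 0) (nat_lit 0) (XT.nd (nat_lit 78) (nat_lit 0) (nat_lit 0) (XT.lf (nat_lit 0) (nat_lit 720991637051) (nat_lit 152) (nat_lit 1415338614959) (nat_lit 0) (nat_lit 720217319017) (nat_lit 1) (nat_lit 5) (nat_lit 3) (nat_lit 4) (nat_lit 1) (nat_lit 4) (nat_lit 276) (nat_lit 204) (nat_lit 180)) (XT.lf (nat_lit 0) (nat_lit 829983584659) (nat_lit 152) (nat_lit 1625695013243) (nat_lit 0) (nat_lit 829205610612) (nat_lit 1) (nat_lit 5) (nat_lit 3) (nat_lit 4) (nat_lit 1) (nat_lit 4) (nat_lit 277) (nat_lit 204) (nat_lit 179))) (XT.nd (nat_lit 78) (nat_lit 0) (nat_lit 0) (XT.lf (nat_lit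 0) (nat_lit 955316619185) (nat_lit 152) (nat_lit 1867620419944) (nat_lit 0) (nat_lit 954535465997) (nat_lit 1) (nat_lit 5) (nat_lit 3) (nat_lit 4) (nat_lit 1) (nat_lit 4) (nat_lit 278) (nat_lit 204) (nat_lit 178)) (XT.lf (nat_lit 0) (nat_lit 1099442908697) (nat_lit 152) (nat_lit 2145848158235) (nat_lit 0) (nat_lit 1098658991037) (nat_lit 1) (nat_lit 5) (nat_lit 3) (nat_lit 4) (nat_lit 1) (nat_lit 4) (nat_lit 279) (nat_lit 204) (nat_lit 177)))) (XT.nd (nat_lit 156) (nat_lit 0) (nat_lit 0) (XT.nd (nat_lit 78) (nat_lit 0) (nat_lit 0) (XT.lf (nat_lit 0) (nat_lit 1265182315379) (nat_lit 152) (nat_lit 2465821814302) (nat_lit 0) (nat_lit 1264395993831) (nat_lit 1) (nat_lit 5) (nat_lit 3) (nat_lit 4) (nat_lit 1) (nat_lit 4) (nat_lit 280) (nat_lit 204) (nat_lit 176)) (XT.lf (nat_lit 0) (nat_lit 1455777566754) (nat_lit 152) (nat_lit 2833801742283) (nat_lit 0) (nat_lit 1454989154869) (nat_lit 1)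 (nat_lit 5) (nat_lit 3) (nat_lit 4) (nat_lit 1) (nat_lit 4) (nat_lit 281) (nat_lit 204) (nat_lit 175))) (XT.nd (nat_lit 78) (nat_lit 0) (nat_lit 0) (XT.lf (nat_lit 0) (nat_lit 1674957700350) (nat_lit 152) (nat_lit 3256987549467) (nat_lit 0) (nat_lit 1674167470780) (nat_lit 1) (nat_lit 5) (nat_lit 3) (nat_lit 4) (nat_lit 1) (nat_lit 4) (nat_lit 282) (nat_lit 204) (nat_lit 174)) (XT.nd (nat_lit 78) (nat_lit 0) (nat_lit 0) (XT.lf (nat_lit 0) (nat_lit 1927011023127) (nat_lit 152) (nat_lit 3743658958166) (nat_lit 0) (nat_lit 1926219212962) (nat_lit 1) (nat_lit 5) (nat_lit 3) (nat_lit 4) (nat_lit 1) (nat_lit 4) (nat_lit 283) (nat_lit 204) (nat_lit 173)) (XT.lf (nat_lit 0) (nat_lit 2216869013140) (nat_lit 152) (nat_lit 4303337800292) (nat_lit 0) (nat_lit 2216075828544) (nat_lit 1) (nat_lit 5) (nat_lit 3) (nat_lit 4) (nat_lit 1) (nat_lit 4) (nat_lit 284) (nat_lit 204) (nat_lit 172))))))))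
noncomputable def xc20 : XT := (XT.nd (nat_lit 31668) (nat_lit 0) (nat_lit 0) (XT.nd (nat_lit 624) (nat_lit 0) (nat_lit 0) (XT.nd (nat_lit 312) (nat_lit 0) (nat_lit 0) (XT.nd (nat_lit 156) (nat_lit 0) (nat_lit 0) (XT.nd (nat_lit 78) (nat_lit 0) (nat_lit 0) (XT.lf (nat_lit 0) (nat_lit 2550202804976) (nat_lit 152) (nat_lit 4946974314058) (nat_lit 0) (nat_lit 2549408425223) (nat_lit 1) (nat_lit 5) (nat_lit 3) (nat_lit 4) (nat_lit 1) (nat_lit 4) (nat_lit 285) (nat_lit 204) (nat_lit 171)) (XT.lf (nat_lit 0) (nat_lit 2933534146737) (nat_lit 152) (nat_lit 5687161387778) (nat_lit 0) (nat_lit 2932738727717) (nat_lit 1) (nat_lit 5) (nat_lit 3) (nat_lit 4) (nat_lit 1) (nat_lit 4) (nat_lit 286) (nat_lit 204) (nat_lit 170))) (XT.nd (nat_lit 78) (nat_lit 0) (nat_lit 0) (XT.lf (nat_lit 0) (nat_lit 3374362999456) (nat_lit 152) (nat_lit 6538380942460) (nat_lit 0) (nat_lit 3373566676725) (nat_lit 1) (nat_lit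 5) (nat_lit 3) (nat_lit 4) (nat_lit 1) (nat_lit 4) (nat_lit 287) (nat_lit 204) (nat_lit 169)) (XT.lf (nat_lit 0) (nat_lit 3881314275470) (nat_lit 152) (nat_lit 7517287273739) (nat_lit 0) (nat_lit 3880517166904) (nat_lit 1) (nat_lit 5) (nat_lit 3) (nat_lit 4) (nat_lit 1) (nat_lit 4) (nat_lit 288) (nat_lit 204) (nat_lit 168)))) (XT.nd (nat_lit 156) (nat_lit 0) (nat_lit 0) (XT.nd (nat_lit 78) (nat_lit 0) (nat_lit 0) (XT.lf (nat_lit 0) (nat_lit 4464306586700) (nat_lit 152) (nat_lit 8643032896791) (nat_lit 0) (nat_lit 4463508794800) (nat_lit 1) (nat_lit 5) (nat_lit 3) (nat_lit 4) (nat_lit 1) (nat_lit 4) (nat_lit 289) (nat_lit 204) (nat_lit 167)) (XT.lf (nat_lit 0) (nat_lit 5134746304454) (nat_lit 152) (nat_lit 9937643269459) (nat_lit 0) (nat_lit 5133947918349) (nat_lit 1) (nat_lit 5) (nat_lit 3) (nat_lit 4) (nat_lit 1) (nat_lit 4) (nat_lit 290) (nat_lit 204) (nat_lit 166))) (XT.nd (nat_lit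 78) (nat_lit 0) (nat_lit 0) (XT.lf (nat_lit 0) (nat_lit 5905750727557) (nat_lit 152) (nat_lit 11426447725122) (nat_lit 0) (nat_lit 5904951824752) (nat_lit 1) (nat_lit 5) (nat_lit 3) (nat_lit 4) (nat_lit 1) (nat_lit 4) (nat_lit 291) (nat_lit 204) (nat_lit 165)) (XT.lf (nat_lit 0) (nat_lit 6792404725156) (nat_lit 152) (nat_lit 13138575046607) (nat_lit 0) (nat_lit 6791605373048) (nat_lit 1) (nat_lit 5) (nat_lit 3) (nat_lit 4) (nat_lit 1) (nat_lit 4) (nat_lit 292) (nat_lit 204) (nat_lit 164))))) (XT.nd (nat_lit 312) (nat_lit 0) (nat_lit 0) (XT.nd (nat_lit 156) (nat_lit 0) (nat_lit 0) (XT.nd (nat_lit 78) (nat_lit 0) (nat_lit 0) (XT.lf (nat_lit 0) (nat_lit 7812055875465) (nat_lit 152) (nat_lit 15107523377161) (nat_lit 0) (nat_lit 7811256132658) (nat_lit 1) (nat_lit 5) (nat_lit 3) (nat_lit 4) (nat_lit 1) (nat_lit 4) (nat_lit 293) (nat_lit 204) (nat_lit 163)) (XT.lf (nat_lit 0) (nat_lit 8984653874905)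 (nat_lit 152) (nat_lit 17371815618904) (nat_lit 0) (nat_lit 8983853792359) (nat_lit 1) (nat_lit 5) (nat_lit 3) (nat_lit 4) (nat_lit 1) (nat_lit 4) (nat_lit 294) (nat_lit 204) (nat_lit 162))) (XT.nd (nat_lit 78) (nat_lit 0) (nat_lit 0) (XT.lf (nat_lit 0) (nat_lit 10333140858245) (nat_lit 152) (nat_lit 19975753141783) (nat_lit 0) (nat_lit 10332340480275) (nat_lit 1) (nat_lit 5) (nat_lit 3) (nat_lit 4) (nat_lit 1) (nat_lit 4) (nat_lit 295) (nat_lit 204) (nat_lit 161)) (XT.lf (nat_lit 0) (nat_lit 11883900266465) (nat_lit 152) (nat_lit 22970282549506) (nat_lit 0) (nat_lit 11883099631604) (nat_lit 1) (nat_lit 5) (nat_lit 3) (nat_lit 4) (nat_lit 1) (nat_lit 4) (nat_lit 296) (nat_lit 204) (nat_lit 160)))) (XT.nd (nat_lit 1326) (nat_lit 0) (nat_lit 0) (XT.nd (nat_lit 78) (nat_lit 0) (nat_lit 0) (XT.lf (nat_lit 0) (nat_lit 13667273044508) (nat_lit 152) (nat_lit 26413992460919) (nat_lit 0) (nat_lit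 13666472186263) (nat_lit 1) (nat_lit 5) (nat_lit 3) (nat_lit 4) (nat_lit 1) (nat_lit 4) (nat_lit 297) (nat_lit 204) (nat_lit 159)) (XT.lf (nat_lit 0) (nat_lit 15718151268466) (nat_lit 152) (nat_lit 30374259809073) (nat_lit 0) (nat_lit 15717350215975) (nat_lit 1) (nat_lit 5) (nat_lit 3) (nat_lit 4) (nat_lit 1) (nat_lit 4) (nat_lit 298) (nat_lit 204) (nat_lit 158))) (XT.nd (nat_lit 78) (nat_lit 0) (nat_lit 0) (XT.lf (nat_lit 0) (nat_lit 147128280100458) (nat_lit 152) (nat_lit 284128931101410) (nat_lit 0) (nat_lit 147127477891378) (nat_lit 1) (nat_lit 5) (nat_lit 3) (nat_lit 4) (nat_lit 1) (nat_lit 4) (nat_lit 314) (nat_lit 204) (nat_lit 142)) (XT.nd (nat_lit 78) (nat_lit 0) (nat_lit 0) (XT.lf (nat_lit 0) (nat_lit 169198306535858) (nat_lit 152) (nat_lit 326746444990611) (nat_lit 0) (nat_lit 169197504308728) (nat_lit 1) (nat_lit 5) (nat_lit 3) (nat_lit 4) (nat_lit 1) (nat_lit 4) (nat_lit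 315) (nat_lit 204) (nat_lit 141)) (XT.lf (nat_lit 0) (nat_lit 194578836898527) (nat_lit 152) (nat_lit 375756586039960) (nat_lit 0) (nat_lit 194578034655700) (nat_lit 1) (nat_lit 5) (nat_lit 3) (nat_lit 4) (nat_lit 1) (nat_lit 4) (nat_lit 316) (nat_lit 204) (nat_lit 140))))))) (XT.nd (nat_lit 702) (nat_lit 0) (nat_lit 0) (XT.nd (nat_lit 312) (nat_lit 0) (nat_lit 0) (XT.nd (nat_lit 156) (nat_lit 0) (nat_lit 0) (XT.nd (nat_lit 78) (nat_lit 0) (nat_lit 0) (XT.lf (nat_lit 0) (nat_lit 3121441066) (nat_lit 152) (nat_lit 32520102820) (nat_lit 0) (nat_lit 3121441066) (nat_lit 1) (nat_lit 5) (nat_lit 3) (nat_lit 4) (nat_lit 1) (nat_lit 4) (nat_lit 250) (nat_lit 205) (nat_lit 205)) (XT.lf (nat_lit 0) (nat_lit 10025696132) (nat_lit 152) (nat_lit 68773117862) (nat_lit 0) (nat_lit 9905344012) (nat_lit 1) (nat_lit 5) (nat_lit 3) (nat_lit 4) (nat_lit 1) (nat_lit 4) (nat_lit 251) (nat_lit 205) (nat_lit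 204))) (XT.nd (nat_lit 78) (nat_lit 0) (nat_lit 0) (XT.lf (nat_lit 0) (nat_lit 14122284357) (nat_lit 152) (nat_lit 73577812967) (nat_lit 0) (nat_lit 13897278219) (nat_lit 1) (nat_lit 5) (nat_lit 3) (nat_lit 4) (nat_lit 1) (nat_lit 4) (nat_lit 252) (nat_lit 205) (nat_lit 203)) (XT.lf (nat_lit 0) (nat_lit 18612797447) (nat_lit 152) (nat_lit 79548295857) (nat_lit 0) (nat_lit 18296787816) (nat_lit 1) (nat_lit 5) (nat_lit 3) (nat_lit 4) (nat_lit 1) (nat_lit 4) (nat_lit 253) (nat_lit 205) (nat_lit 202)))) (XT.nd (nat_lit 156) (nat_lit 0) (nat_lit 0) (XT.nd (nat_lit 78) (nat_lit 0) (nat_lit 0) (XT.lf (nat_lit 0) (nat_lit 23585093266) (nat_lit 152) (nat_lit 86801380330) (nat_lit 0) (nat_lit 23189950162) (nat_lit 1) (nat_lit 5) (nat_lit 3) (nat_lit 4) (nat_lit 1) (nat_lit 4) (nat_lit 254) (nat_lit 205) (nat_lit 201)) (XT.lf (nat_lit 0) (nat_lit 29136455863) (nat_lit 152) (nat_lit 95478974560)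 (nat_lit 0) (nat_lit 28672501044) (nat_lit 1) (nat_lit 5) (nat_lit 3) (nat_lit 4) (nat_lit 1) (nat_lit 4) (nat_lit 255) (nat_lit 205) (nat_lit 200))) (XT.nd (nat_lit 78) (nat_lit 0) (nat_lit 0) (XT.lf (nat_lit 0) (nat_lit 35375498854) (nat_lit 152) (nat_lit 105750857564) (nat_lit 0) (nat_lit 34851707761) (nat_lit 1) (nat_lit 5) (nat_lit 3) (nat_lit 4) (nat_lit 1) (nat_lit 4) (nat_lit 256) (nat_lit 205) (nat_lit 199)) (XT.nd (nat_lit 78) (nat_lit 0) (nat_lit 0) (XT.lf (nat_lit 0) (nat_lit 42424290472) (nat_lit 152) (nat_lit 117818000967) (nat_lit 0) (nat_lit 41848467836) (nat_lit 1) (nat_lit 5) (nat_lit 3) (nat_lit 4) (nat_lit 1) (nat_lit 4) (nat_lit 257) (nat_lit 205) (nat_lit 198)) (XT.lf (nat_lit 0) (nat_lit 50420741856) (nat_lit 152) (nat_lit 131916501051) (nat_lit 0) (nat_lit 49799674400) (nat_lit 1) (nat_lit 5) (nat_lit 3) (nat_lit 4) (nat_lit 1) (nat_lit 4) (nat_lit 258) (nat_lit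 205) (nat_lit 197)))))) (XT.nd (nat_lit 312) (nat_lit 0) (nat_lit 0) (XT.nd (nat_lit 156) (nat_lit 0) (nat_lit 0) (XT.nd (nat_lit 78) (nat_lit 0) (nat_lit 0) (XT.lf (nat_lit 0) (nat_lit 59521305316) (nat_lit 152) (nat_lit 148322198037) (nat_lit 0) (nat_lit 58860894539) (nat_lit 1) (nat_lit 5) (nat_lit 3) (nat_lit 4) (nat_lit 1) (nat_lit 4) (nat_lit 259) (nat_lit 205) (nat_lit 196)) (XT.lf (nat_lit 0) (nat_lit 69904035356) (nat_lit 152) (nat_lit 167356072953) (nat_lit 0) (nat_lit 69209412995) (nat_lit 1) (nat_lit 5) (nat_lit 3) (nat_lit 4) (nat_lit 1) (nat_lit 4) (nat_lit 260) (nat_lit 205) (nat_lit 195))) (XT.nd (nat_lit 78) (nat_lit 0) (nat_lit 0) (XT.lf (nat_lit 0) (nat_lit 81772072345) (nat_lit 152) (nat_lit 189390527698) (nat_lit 0) (nat_lit 81047700781) (nat_lit 1) (nat_lit 5) (nat_lit 3) (nat_lit 4) (nat_lit 1) (nat_lit 4) (nat_lit 261) (nat_lit 205) (nat_lit 194)) (XT.lf (nat_lit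 0) (nat_lit 95357617007) (nat_lit 152) (nat_lit 214856671170) (nat_lit 0) (nat_lit 94607376570) (nat_lit 1) (nat_lit 5) (nat_lit 3) (nat_lit 4) (nat_lit 1) (nat_lit 4) (nat_lit 262) (nat_lit 205) (nat_lit 193)))) (XT.nd (nat_lit 156) (nat_lit 0) (nat_lit 0) (XT.nd (nat_lit 78) (nat_lit 0) (nat_lit 0) (XT.lf (nat_lit 0) (nat_lit 110926473476) (nat_lit 152) (nat_lit 244252754002) (nat_lit 0) (nat_lit 110153738368) (nat_lit 1) (nat_lit 5) (nat_lit 3) (nat_lit 4) (nat_lit 1) (nat_lit 4) (nat_lit 263) (nat_lit 205) (nat_lit 192)) (XT.lf (nat_lit 0) (nat_lit 128783249815) (nat_lit 152) (nat_lit 278153916945) (nat_lit 0) (nat_lit 127990954122) (nat_lit 1) (nat_lit 5) (nat_lit 3) (nat_lit 4) (nat_lit 1) (nat_lit 4) (nat_lit 264) (nat_lit 205) (nat_lit 191))) (XT.nd (nat_lit 78) (nat_lit 0) (nat_lit 0) (XT.lf (nat_lit 0) (nat_lit 149277317734) (nat_lit 152) (nat_lit 317223443622) (nat_lit 0)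 (nat_lit 148468012837) (nat_lit 1) (nat_lit 5) (nat_lit 3) (nat_lit 4) (nat_lit 1) (nat_lit 4) (nat_lit 265) (nat_lit 205) (nat_lit 190)) (XT.nd (nat_lit 78) (nat_lit 0) (nat_lit 0) (XT.lf (nat_lit 0) (nat_lit 172809648126) (nat_lit 152) (nat_lit 362225737816) (nat_lit 0) (nat_lit 171985552618) (nat_lit 1) (nat_lit 5) (nat_lit 3) (nat_lit 4) (nat_lit 1) (nat_lit 4) (nat_lit 266) (nat_lit 205) (nat_lit 189)) (XT.lf (nat_lit 0) (nat_lit 199840656153) (nat_lit 152) (nat_lit 414041279196) (nat_lit 0) (nat_lit 199003699243) (nat_lit 1) (nat_lit 5) (nat_lit 3) (nat_lit 4) (nat_lit 1) (nat_lit 4) (nat_lit 267) (nat_lit 205) (nat_lit 188))))))))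
noncomputable def xc21 : XT := (XT.nd (nat_lit 1404) (nat_lit 0) (nat_lit 0) (XT.nd (nat_lit 702) (nat_lit 0) (nat_lit 0) (XT.nd (nat_lit 312) (nat_lit 0) (nat_lit 0) (XT.nd (nat_lit 156) (nat_lit 0) (nat_lit 0) (XT.nd (nat_lit 78) (nat_lit 0) (nat_lit 0) (XT.lf (nat_lit 0) (nat_lit 230899209362) (nat_lit 152) (nat_lit 473683850094) (nat_lit 0) (nat_lit 230051068624) (nat_lit 1) (nat_lit 5) (nat_lit 3) (nat_lit 4) (nat_lit 1) (nat_lit 4) (nat_lit 268) (nat_lit 205) (nat_lit 187)) (XT.lf (nat_lit 0) (nat_lit 266592975098) (nat_lit 152) (nat_lit 542320370373) (nat_lit 0) (nat_lit 265735109293) (nat_lit 1) (nat_lit 5) (nat_lit 3) (nat_lit 4) (nat_lit 1) (nat_lit 4) (nat_lit 269) (nat_lit 205) (nat_lit 186))) (XT.nd (nat_lit 78) (nat_lit 0) (nat_lit 0) (XT.lf (nat_lit 0) (nat_lit 307620309648) (nat_lit 152) (nat_lit 621293728476) (nat_lit 0) (nat_lit 306753987263) (nat_lit 1) (nat_lit 5)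 (nat_lit 3) (nat_lit 4) (nat_lit 1) (nat_lit 4) (nat_lit 270) (nat_lit 205) (nat_lit 185)) (XT.lf (nat_lit 0) (nat_lit 354783921732) (nat_lit 152) (nat_lit 712149055320) (nat_lit 0) (nat_lit 353910245799) (nat_lit 1) (nat_lit 5) (nat_lit 3) (nat_lit 4) (nat_lit 1) (nat_lit 4) (nat_lit 271) (nat_lit 205) (nat_lit 184)))) (XT.nd (nat_lit 156) (nat_lit 0) (nat_lit 0) (XT.nd (nat_lit 78) (nat_lit 0) (nat_lit 0) (XT.lf (nat_lit 0) (nat_lit 409006577672) (nat_lit 152) (nat_lit 816663955128) (nat_lit 0) (nat_lit 408126507349) (nat_lit 1) (nat_lit 5) (nat_lit 3) (nat_lit 4) (nat_lit 1) (nat_lit 4) (nat_lit 272) (nat_lit 205) (nat_lit 183)) (XT.lf (nat_lit 0) (nat_lit 471349155520) (nat_lit 152) (nat_lit 936883284634) (nat_lit 0) (nat_lit 470463524858) (nat_lit 1) (nat_lit 5) (nat_lit 3) (nat_lit 4) (nat_lit 1) (nat_lit 4) (nat_lit 273) (nat_lit 205) (nat_lit 182))) (XT.nd (nat_lit 78) (nat_lit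 0) (nat_lit 0) (XT.lf (nat_lit 0) (nat_lit 543031401364) (nat_lit 152) (nat_lit 1075159161155) (nat_lit 0) (nat_lit 542140935625) (nat_lit 1) (nat_lit 5) (nat_lit 3) (nat_lit 4) (nat_lit 1) (nat_lit 4) (nat_lit 274) (nat_lit 205) (nat_lit 181)) (XT.nd (nat_lit 78) (nat_lit 0) (nat_lit 0) (XT.lf (nat_lit 0) (nat_lit 625455793926) (nat_lit 152) (nat_lit 1234196982275) (nat_lit 0) (nat_lit 624561123772) (nat_lit 1) (nat_lit 5) (nat_lit 3) (nat_lit 4) (nat_lit 1) (nat_lit 4) (nat_lit 275) (nat_lit 205) (nat_lit 180)) (XT.lf (nat_lit 0) (nat_lit 720234984367) (nat_lit 152) (nat_lit 1417108357538) (nat_lit 0) (nat_lit 719336658200) (nat_lit 1) (nat_lit 5) (nat_lit 3) (nat_lit 4) (nat_lit 1) (nat_lit 4) (nat_lit 276) (nat_lit 205) (nat_lit 179)))))) (XT.nd (nat_lit 312) (nat_lit 0) (nat_lit 0) (XT.nd (nat_lit 156) (nat_lit 0) (nat_lit 0) (XT.nd (nat_lit 78) (nat_lit 0) (nat_lit 0) (XT.lf (nat_lit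 0) (nat_lit 829223348150) (nat_lit 152) (nat_lit 1627471987764) (nat_lit 0) (nat_lit 828321842842) (nat_lit 1) (nat_lit 5) (nat_lit 3) (nat_lit 4) (nat_lit 1) (nat_lit 4) (nat_lit 277) (nat_lit 205) (nat_lit 178)) (XT.lf (nat_lit 0) (nat_lit 954553266307) (nat_lit 152) (nat_lit 1869403683109) (nat_lit 0) (nat_lit 953648996528) (nat_lit 1) (nat_lit 5) (nat_lit 3) (nat_lit 4) (nat_lit 1) (nat_lit 4) (nat_lit 278) (nat_lit 205) (nat_lit 177))) (XT.nd (nat_lit 78) (nat_lit 0) (nat_lit 0) (XT.lf (nat_lit 0) (nat_lit 1098676845932) (nat_lit 152) (nat_lit 2147636889787) (nat_lit 0) (nat_lit 1097770172265) (nat_lit 1) (nat_lit 5) (nat_lit 3) (nat_lit 4) (nat_lit 1) (nat_lit 4) (nat_lit 279) (nat_lit 205) (nat_lit 176)) (XT.lf (nat_lit 0) (nat_lit 1264413896192) (nat_lit 152) (nat_lit 2467615300972) (nat_lit 0) (nat_lit 1263505132187) (nat_lit 1) (nat_lit 5) (nat_lit 3) (nat_lit 4) (nat_lit 1)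 (nat_lit 4) (nat_lit 280) (nat_lit 205) (nat_lit 175)))) (XT.nd (nat_lit 156) (nat_lit 0) (nat_lit 0) (XT.nd (nat_lit 78) (nat_lit 0) (nat_lit 0) (XT.lf (nat_lit 0) (nat_lit 1455007098504) (nat_lit 152) (nat_lit 2835599363839) (nat_lit 0) (nat_lit 1454096516814) (nat_lit 1) (nat_lit 5) (nat_lit 3) (nat_lit 4) (nat_lit 1) (nat_lit 4) (nat_lit 281) (nat_lit 205) (nat_lit 174)) (XT.lf (nat_lit 0) (nat_lit 1674185450305) (nat_lit 152) (nat_lit 3258788766576) (nat_lit 0) (nat_lit 1673273288020) (nat_lit 1) (nat_lit 5) (nat_lit 3) (nat_lit 4) (nat_lit 1) (nat_lit 4) (nat_lit 282) (nat_lit 205) (nat_lit 173))) (XT.nd (nat_lit 78) (nat_lit 0) (nat_lit 0) (XT.lf (nat_lit 0) (nat_lit 1926237223696) (nat_lit 152) (nat_lit 3745463301843) (nat_lit 0) (nat_lit 1925323686980) (nat_lit 1) (nat_lit 5) (nat_lit 3) (nat_lit 4) (nat_lit 1) (nat_lit 4) (nat_lit 283) (nat_lit 205) (nat_lit 172)) (XT.nd (nat_lit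 78) (nat_lit 0) (nat_lit 0) (XT.lf (nat_lit 0) (nat_lit 2216093866416) (nat_lit 152) (nat_lit 4305144862723) (nat_lit 0) (nat_lit 2215179134543) (nat_lit 1) (nat_lit 5) (nat_lit 3) (nat_lit 4) (nat_lit 1) (nat_lit 4) (nat_lit 284) (nat_lit 205) (nat_lit 171)) (XT.lf (nat_lit 0) (nat_lit 2549426486694) (nat_lit 152) (nat_lit 4948783740624) (nat_lit 0) (nat_lit 2548510715554) (nat_lit 1) (nat_lit 5) (nat_lit 3) (nat_lit 4) (nat_lit 1) (nat_lit 4) (nat_lit 285) (nat_lit 205) (nat_lit 170))))))) (XT.nd (nat_lit 702) (nat_lit 0) (nat_lit 0) (XT.nd (nat_lit 312) (nat_lit 0) (nat_lit 0) (XT.nd (nat_lit 156) (nat_lit 0) (nat_lit 0) (XT.nd (nat_lit 78) (nat_lit 0) (nat_lit 0) (XT.lf (nat_lit 0) (nat_lit 2932756809708) (nat_lit 152) (nat_lit 5688972870113) (nat_lit 0) (nat_lit 2931840134857) (nat_lit 1) (nat_lit 5) (nat_lit 3) (nat_lit 4) (nat_lit 1) (nat_lit 4) (nat_lit 286) (nat_lit 205) (nat_lit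 169)) (XT.lf (nat_lit 0) (nat_lit 3373584776560) (nat_lit 152) (nat_lit 6540194212420) (nat_lit 0) (nat_lit 3372667315875) (nat_lit 1) (nat_lit 5) (nat_lit 3) (nat_lit 4) (nat_lit 1) (nat_lit 4) (nat_lit 287) (nat_lit 205) (nat_lit 168))) (XT.nd (nat_lit 78) (nat_lit 0) (nat_lit 0) (XT.lf (nat_lit 0) (nat_lit 3880535282255) (nat_lit 152) (nat_lit 7519102098155) (nat_lit 0) (nat_lit 3879617138235) (nat_lit 1) (nat_lit 5) (nat_lit 3) (nat_lit 4) (nat_lit 1) (nat_lit 4) (nat_lit 288) (nat_lit 205) (nat_lit 167)) (XT.lf (nat_lit 0) (nat_lit 4463526923643) (nat_lit 152) (nat_lit 8644849072909) (nat_lit 0) (nat_lit 4462608185418) (nat_lit 1) (nat_lit 5) (nat_lit 3) (nat_lit 4) (nat_lit 1) (nat_lit 4) (nat_lit 289) (nat_lit 205) (nat_lit 166)))) (XT.nd (nat_lit 156) (nat_lit 0) (nat_lit 0) (XT.nd (nat_lit 78) (nat_lit 0) (nat_lit 0) (XT.lf (nat_lit 0) (nat_lit 5133966058925) (nat_lit 152) (nat_lit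 9939460620970) (nat_lit 0) (nat_lit 5133046804001) (nat_lit 1) (nat_lit 5) (nat_lit 3) (nat_lit 4) (nat_lit 1) (nat_lit 4) (nat_lit 290) (nat_lit 205) (nat_lit 165)) (XT.lf (nat_lit 0) (nat_lit 5904969975531) (nat_lit 152) (nat_lit 11428266098713) (nat_lit 0) (nat_lit 5904050271303) (nat_lit 1) (nat_lit 5) (nat_lit 3) (nat_lit 4) (nat_lit 1) (nat_lit 4) (nat_lit 291) (nat_lit 205) (nat_lit 164))) (XT.nd (nat_lit 78) (nat_lit 0) (nat_lit 0) (XT.lf (nat_lit 0) (nat_lit 6791623532698) (nat_lit 152) (nat_lit 13140394308964) (nat_lit 0) (nat_lit 6790703437770) (nat_lit 1) (nat_lit 5) (nat_lit 3) (nat_lit 4) (nat_lit 1) (nat_lit 4) (nat_lit 292) (nat_lit 205) (nat_lit 163)) (XT.nd (nat_lit 78) (nat_lit 0) (nat_lit 0) (XT.lf (nat_lit 0) (nat_lit 7811274300023) (nat_lit 152) (nat_lit 15109343412358) (nat_lit 0) (nat_lit 7810353865357) (nat_lit 1) (nat_lit 5) (nat_lit 3) (nat_lit 4) (nat_lit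 1) (nat_lit 4) (nat_lit 293) (nat_lit 205) (nat_lit 162)) (XT.lf (nat_lit 0) (nat_lit 8983871966432) (nat_lit 152) (nat_lit 17373636326136) (nat_lit 0) (nat_lit 8982951236342) (nat_lit 1) (nat_lit 5) (nat_lit 3) (nat_lit 4) (nat_lit 1) (nat_lit 4) (nat_lit 294) (nat_lit 205) (nat_lit 161)))))) (XT.nd (nat_lit 1404) (nat_lit 0) (nat_lit 0) (XT.nd (nat_lit 156) (nat_lit 0) (nat_lit 0) (XT.nd (nat_lit 78) (nat_lit 0) (nat_lit 0) (XT.lf (nat_lit 0) (nat_lit 10332358660181) (nat_lit 152) (nat_lit 19977574433392) (nat_lit 0) (nat_lit 10331437673200) (nat_lit 1) (nat_lit 5) (nat_lit 3) (nat_lit 4) (nat_lit 1) (nat_lit 4) (nat_lit 295) (nat_lit 205) (nat_lit 160)) (XT.lf (nat_lit 0) (nat_lit 11883117816582) (nat_lit 152) (nat_lit 22972104349270) (nat_lit 0) (nat_lit 11882196606218) (nat_lit 1) (nat_lit 5) (nat_lit 3) (nat_lit 4) (nat_lit 1) (nat_lit 4) (nat_lit 296) (nat_lit 205) (nat_lit 159)))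 (XT.nd (nat_lit 78) (nat_lit 0) (nat_lit 0) (XT.lf (nat_lit 0) (nat_lit 13666490375653) (nat_lit 152) (nat_lit 26415814702557) (nat_lit 0) (nat_lit 13665568971042) (nat_lit 1) (nat_lit 5) (nat_lit 3) (nat_lit 4) (nat_lit 1) (nat_lit 4) (nat_lit 297) (nat_lit 205) (nat_lit 158)) (XT.lf (nat_lit 0) (nat_lit 15717368409200) (nat_lit 152) (nat_lit 30376082434949) (nat_lit 0) (nat_lit 15716446835679) (nat_lit 1) (nat_lit 5) (nat_lit 3) (nat_lit 4) (nat_lit 1) (nat_lit 4) (nat_lit 298) (nat_lit 205) (nat_lit 157)))) (XT.nd (nat_lit 156) (nat_lit 0) (nat_lit 0) (XT.nd (nat_lit 78) (nat_lit 0) (nat_lit 0) (XT.lf (nat_lit 0) (nat_lit 127936168754615) (nat_lit 152) (nat_lit 247072048321094) (nat_lit 0) (nat_lit 127935246193415) (nat_lit 1) (nat_lit 5) (nat_lit 3) (nat_lit 4) (nat_lit 1) (nat_lit 4) (nat_lit 313) (nat_lit 205) (nat_lit 142)) (XT.lf (nat_lit 0) (nat_lit 147127496107440) (nat_lit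 152) (nat_lit 284130756015129) (nat_lit 0) (nat_lit 147126573528189) (nat_lit 1) (nat_lit 5) (nat_lit 3) (nat_lit 4) (nat_lit 1) (nat_lit 4) (nat_lit 314) (nat_lit 205) (nat_lit 141))) (XT.nd (nat_lit 78) (nat_lit 0) (nat_lit 0) (XT.lf (nat_lit 0) (nat_lit 169197522525146) (nat_lit 152) (nat_lit 326748269940035) (nat_lit 0) (nat_lit 169196599930199) (nat_lit 1) (nat_lit 5) (nat_lit 3) (nat_lit 4) (nat_lit 1) (nat_lit 4) (nat_lit 315) (nat_lit 205) (nat_lit 140)) (XT.nd (nat_lit 29094) (nat_lit 0) (nat_lit 152) (XT.lf (nat_lit 0) (nat_lit 194578052872428) (nat_lit 152) (nat_lit 375758411020434) (nat_lit 0) (nat_lit 194577130263831) (nat_lit 1) (nat_lit 5) (nat_lit 3) (nat_lit 4) (nat_lit 1) (nat_lit 4) (nat_lit 316) (nat_lit 205) (nat_lit 139)) (XT.lf (nat_lit 0) (nat_lit 29356816046) (nat_lit 76) (nat_lit 180576433) (nat_lit 76) (nat_lit 180576433) (nat_lit 3) (nat_lit 4) (nat_lit 4)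 (nat_lit 5) (nat_lit 4) (nat_lit 4) (nat_lit 248) (nat_lit 206) (nat_lit 206))))))))
noncomputable def xc22 : XT := (XT.nd (nat_lit 1326) (nat_lit 0) (nat_lit 0) (XT.nd (nat_lit 624) (nat_lit 0) (nat_lit 0) (XT.nd (nat_lit 312) (nat_lit 0) (nat_lit 0) (XT.nd (nat_lit 156) (nat_lit 0) (nat_lit 0) (XT.nd (nat_lit 78) (nat_lit 0) (nat_lit 0) (XT.lf (nat_lit 0) (nat_lit 2838235717) (nat_lit 152) (nat_lit 62306041062) (nat_lit 0) (nat_lit 2699830779) (nat_lit 1) (nat_lit 5) (nat_lit 3) (nat_lit 4) (nat_lit 1) (nat_lit 4) (nat_lit 249) (nat_lit 206) (nat_lit 205)) (XT.lf (nat_lit 0) (nat_lit 6245614951) (nat_lit 152) (nat_lit 65313983760) (nat_lit 0) (nat_lit 5986857893) (nat_lit 1) (nat_lit 5) (nat_lit 3) (nat_lit 4) (nat_lit 1) (nat_lit 4) (nat_lit 250) (nat_lit 206) (nat_lit 204))) (XT.nd (nat_lit 78) (nat_lit 0) (nat_lit 0) (XT.lf (nat_lit 0) (nat_lit 9910453195) (nat_lit 152) (nat_lit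 69284963912) (nat_lit 0) (nat_lit 9547042119) (nat_lit 1) (nat_lit 5) (nat_lit 3) (nat_lit 4) (nat_lit 1) (nat_lit 4) (nat_lit 251) (nat_lit 206) (nat_lit 203)) (XT.lf (nat_lit 0) (nat_lit 13904453807) (nat_lit 152) (nat_lit 74296674607) (nat_lit 0) (nat_lit 13450039238) (nat_lit 1) (nat_lit 5) (nat_lit 3) (nat_lit 4) (nat_lit 1) (nat_lit 4) (nat_lit 252) (nat_lit 206) (nat_lit 202)))) (XT.nd (nat_lit 156) (nat_lit 0) (nat_lit 0) (XT.nd (nat_lit 78) (nat_lit 0) (nat_lit 0) (XT.lf (nat_lit 0) (nat_lit 18305760276) (nat_lit 152) (nat_lit 80447171055) (nat_lit 0) (nat_lit 17772212234) (nat_lit 1) (nat_lit 5) (nat_lit 3) (nat_lit 4) (nat_lit 1) (nat_lit 4) (nat_lit 253) (nat_lit 206) (nat_lit 201)) (XT.lf (nat_lit 0) (nat_lit 23200485121) (nat_lit 152) (nat_lit 87856789057) (nat_lit 0) (nat_lit 22598125364) (nat_lit 1) (nat_lit 5) (nat_lit 3) (nat_lit 4) (nat_lit 1) (nat_lit 4) (nat_lit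 254) (nat_lit 206) (nat_lit 200))) (XT.nd (nat_lit 78) (nat_lit 0) (nat_lit 0) (XT.lf (nat_lit 0) (nat_lit 28684394697) (nat_lit 152) (nat_lit 96670499398) (nat_lit 0) (nat_lit 28022198666) (nat_lit 1) (nat_lit 5) (nat_lit 3) (nat_lit 4) (nat_lit 1) (nat_lit 4) (nat_lit 255) (nat_lit 206) (nat_lit 199)) (XT.lf (nat_lit 0) (nat_lit 34864782887) (nat_lit 152) (nat_lit 107060744238) (nat_lit 0) (nat_lit 34150555313) (nat_lit 1) (nat_lit 5) (nat_lit 3) (nat_lit 4) (nat_lit 1) (nat_lit 4) (nat_lit 256) (nat_lit 206) (nat_lit 198))))) (XT.nd (nat_lit 312) (nat_lit 0) (nat_lit 0) (XT.nd (nat_lit 156) (nat_lit 0) (nat_lit 0) (XT.nd (nat_lit 78) (nat_lit 0) (nat_lit 0) (XT.lf (nat_lit 0) (nat_lit 41862570329) (nat_lit 152) (nat_lit 119230810976) (nat_lit 0) (nat_lit 41103097936) (nat_lit 1) (nat_lit 5) (nat_lit 3) (nat_lit 4) (nat_lit 1) (nat_lit 4) (nat_lit 257) (nat_lit 206) (nat_lit 197))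 (XT.lf (nat_lit 0) (nat_lit 49814670257) (nat_lit 152) (nat_lit 133418809614) (nat_lit 0) (nat_lit 49015854542) (nat_lit 1) (nat_lit 5) (nat_lit 3) (nat_lit 4) (nat_lit 1) (nat_lit 4) (nat_lit 258) (nat_lit 206) (nat_lit 196))) (XT.nd (nat_lit 78) (nat_lit 0) (nat_lit 0) (XT.lf (nat_lit 0) (nat_lit 58876667234) (nat_lit 152) (nat_lit 149902331428) (nat_lit 0) (nat_lit 58043639935) (nat_lit 1) (nat_lit 5) (nat_lit 3) (nat_lit 4) (nat_lit 1) (nat_lit 4) (nat_lit 259) (nat_lit 206) (nat_lit 195)) (XT.lf (nat_lit 0) (nat_lit 69225861201) (nat_lit 152) (nat_lit 169003880107) (nat_lit 0) (nat_lit 68363084698) (nat_lit 1) (nat_lit 5) (nat_lit 3) (nat_lit 4) (nat_lit 1) (nat_lit 4) (nat_lit 260) (nat_lit 206) (nat_lit 194)))) (XT.nd (nat_lit 156) (nat_lit 0) (nat_lit 0) (XT.nd (nat_lit 78) (nat_lit 0) (nat_lit 0) (XT.lf (nat_lit 0) (nat_lit 81064736387) (nat_lit 152) (nat_lit 191097181604) (nat_lit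 0) (nat_lit 80176091012) (nat_lit 1) (nat_lit 5) (nat_lit 3) (nat_lit 4) (nat_lit 1) (nat_lit 4) (nat_lit 261) (nat_lit 206) (nat_lit 193)) (XT.lf (nat_lit 0) (nat_lit 94624922960) (nat_lit 152) (nat_lit 216614496164) (nat_lit 0) (nat_lit 93713782913) (nat_lit 1) (nat_lit 5) (nat_lit 3) (nat_lit 4) (nat_lit 1) (nat_lit 4) (nat_lit 262) (nat_lit 206) (nat_lit 192))) (XT.nd (nat_lit 78) (nat_lit 0) (nat_lit 0) (XT.lf (nat_lit 0) (nat_lit 110171728917) (nat_lit 152) (nat_lit 246055075594) (nat_lit 0) (nat_lit 109241028286) (nat_lit 1) (nat_lit 5) (nat_lit 3) (nat_lit 4) (nat_lit 1) (nat_lit 4) (nat_lit 263) (nat_lit 206) (nat_lit 191)) (XT.nd (nat_lit 78) (nat_lit 0) (nat_lit 0) (XT.lf (nat_lit 0) (nat_lit 128009330897) (nat_lit 152) (nat_lit 279994931232) (nat_lit 0) (nat_lit 127061621063) (nat_lit 1) (nat_lit 5) (nat_lit 3) (nat_lit 4) (nat_lit 1) (nat_lit 4) (nat_lit 264) (nat_lit 206)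 (nat_lit 190)) (XT.lf (nat_lit 0) (nat_lit 148486725461) (nat_lit 152) (nat_lit 319098103730) (nat_lit 0) (nat_lit 147524225014) (nat_lit 1) (nat_lit 5) (nat_lit 3) (nat_lit 4) (nat_lit 1) (nat_lit 4) (nat_lit 265) (nat_lit 206) (nat_lit 189))))))) (XT.nd (nat_lit 702) (nat_lit 0) (nat_lit 0) (XT.nd (nat_lit 312) (nat_lit 0) (nat_lit 0) (XT.nd (nat_lit 156) (nat_lit 0) (nat_lit 0) (XT.nd (nat_lit 78) (nat_lit 0) (nat_lit 0) (XT.lf (nat_lit 0) (nat_lit 172004557284) (nat_lit 152) (nat_lit 364129655160) (nat_lit 0) (nat_lit 171029195436) (nat_lit 1) (nat_lit 5) (nat_lit 3) (nat_lit 4) (nat_lit 1) (nat_lit 4) (nat_lit 266) (nat_lit 206) (nat_lit 188)) (XT.lf (nat_lit 0) (nat_lit 199022957858) (nat_lit 152) (nat_lit 415970637614) (nat_lit 0) (nat_lit 198036412183) (nat_lit 1) (nat_lit 5) (nat_lit 3) (nat_lit 4) (nat_lit 1) (nat_lit 4) (nat_lit 267) (nat_lit 206) (nat_lit 187))) (XT.nd (nat_lit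 78) (nat_lit 0) (nat_lit 0) (XT.lf (nat_lit 0) (nat_lit 230070548065) (nat_lit 152) (nat_lit 475635331185) (nat_lit 0) (nat_lit 229074277322) (nat_lit 1) (nat_lit 5) (nat_lit 3) (nat_lit 4) (nat_lit 1) (nat_lit 4) (nat_lit 268) (nat_lit 206) (nat_lit 186)) (XT.lf (nat_lit 0) (nat_lit 265754780757) (nat_lit 152) (nat_lit 544291088572) (nat_lit 0) (nat_lit 264750053434) (nat_lit 1) (nat_lit 5) (nat_lit 3) (nat_lit 4) (nat_lit 1) (nat_lit 4) (nat_lit 269) (nat_lit 206) (nat_lit 185)))) (XT.nd (nat_lit 156) (nat_lit 0) (nat_lit 0) (XT.nd (nat_lit 78) (nat_lit 0) (nat_lit 0) (XT.lf (nat_lit 0) (nat_lit 306773825703) (nat_lit 152) (nat_lit 623281174594) (nat_lit 0) (nat_lit 305761744831) (nat_lit 1) (nat_lit 5) (nat_lit 3) (nat_lit 4) (nat_lit 1) (nat_lit 4) (nat_lit 270) (nat_lit 206) (nat_lit 184)) (XT.lf (nat_lit 0) (nat_lit 353930229435) (nat_lit 152) (nat_lit 714151047455) (nat_lit 0)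 (nat_lit 352911754174) (nat_lit 1) (nat_lit 5) (nat_lit 3) (nat_lit 4) (nat_lit 1) (nat_lit 4) (nat_lit 271) (nat_lit 206) (nat_lit 183))) (XT.nd (nat_lit 78) (nat_lit 0) (nat_lit 0) (XT.lf (nat_lit 0) (nat_lit 408146617243) (nat_lit 152) (nat_lit 818678595974) (nat_lit 0) (nat_lit 407122581643) (nat_lit 1) (nat_lit 5) (nat_lit 3) (nat_lit 4) (nat_lit 1) (nat_lit 4) (nat_lit 272) (nat_lit 206) (nat_lit 182)) (XT.nd (nat_lit 78) (nat_lit 0) (nat_lit 0) (XT.lf (nat_lit 0) (nat_lit 470483744541) (nat_lit 152) (nat_lit 938908924358) (nat_lit 0) (nat_lit 469454873864) (nat_lit 1) (nat_lit 5) (nat_lit 3) (nat_lit 4) (nat_lit 1) (nat_lit 4) (nat_lit 273) (nat_lit 206) (nat_lit 181)) (XT.lf (nat_lit 0) (nat_lit 542161250777) (nat_lit 152) (nat_lit 1077194365122) (nat_lit 0) (nat_lit 541128175685) (nat_lit 1) (nat_lit 5) (nat_lit 3) (nat_lit 4) (nat_lit 1) (nat_lit 4) (nat_lit 274) (nat_lit 206)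 (nat_lit 180)))))) (XT.nd (nat_lit 312) (nat_lit 0) (nat_lit 0) (XT.nd (nat_lit 156) (nat_lit 0) (nat_lit 0) (XT.nd (nat_lit 78) (nat_lit 0) (nat_lit 0) (XT.lf (nat_lit 0) (nat_lit 624581521941) (nat_lit 152) (nat_lit 1236240502974) (nat_lit 0) (nat_lit 623544790836) (nat_lit 1) (nat_lit 5) (nat_lit 3) (nat_lit 4) (nat_lit 1) (nat_lit 4) (nat_lit 275) (nat_lit 206) (nat_lit 179)) (XT.lf (nat_lit 0) (nat_lit 719357128557) (nat_lit 152) (nat_lit 1419159110178) (nat_lit 0) (nat_lit 718317218310) (nat_lit 1) (nat_lit 5) (nat_lit 3) (nat_lit 4) (nat_lit 1) (nat_lit 4) (nat_lit 276) (nat_lit 206) (nat_lit 178))) (XT.nd (nat_lit 78) (nat_lit 0) (nat_lit 0) (XT.lf (nat_lit 0) (nat_lit 828342375971) (nat_lit 152) (nat_lit 1629529029048) (nat_lit 0) (nat_lit 827299701253) (nat_lit 1) (nat_lit 5) (nat_lit 3) (nat_lit 4) (nat_lit 1) (nat_lit 4) (nat_lit 277) (nat_lit 206) (nat_lit 177)) (XT.lf (nat_lit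 0) (nat_lit 953669584242) (nat_lit 152) (nat_lit 1871466192780) (nat_lit 0) (nat_lit 952624505636) (nat_lit 1) (nat_lit 5) (nat_lit 3) (nat_lit 4) (nat_lit 1) (nat_lit 4) (nat_lit 278) (nat_lit 206) (nat_lit 176)))) (XT.nd (nat_lit 156) (nat_lit 0) (nat_lit 0) (XT.nd (nat_lit 78) (nat_lit 0) (nat_lit 0) (XT.lf (nat_lit 0) (nat_lit 1097790807444) (nat_lit 152) (nat_lit 2149704154577) (nat_lit 0) (nat_lit 1096743638501) (nat_lit 1) (nat_lit 5) (nat_lit 3) (nat_lit 4) (nat_lit 1) (nat_lit 4) (nat_lit 279) (nat_lit 206) (nat_lit 175)) (XT.lf (nat_lit 0) (nat_lit 1263525808640) (nat_lit 152) (nat_lit 2469686700648) (nat_lit 0) (nat_lit 1262476822012) (nat_lit 1) (nat_lit 5) (nat_lit 3) (nat_lit 4) (nat_lit 1) (nat_lit 4) (nat_lit 280) (nat_lit 206) (nat_lit 174))) (XT.nd (nat_lit 78) (nat_lit 0) (nat_lit 0) (XT.lf (nat_lit 0) (nat_lit 1454117229158) (nat_lit 152) (nat_lit 2837674359068) (nat_lit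 0) (nat_lit 1453066661935) (nat_lit 1) (nat_lit 5) (nat_lit 3) (nat_lit 4) (nat_lit 1) (nat_lit 4) (nat_lit 281) (nat_lit 206) (nat_lit 173)) (XT.nd (nat_lit 78) (nat_lit 0) (nat_lit 0) (XT.lf (nat_lit 0) (nat_lit 1673294031573) (nat_lit 152) (nat_lit 3260866888372) (nat_lit 0) (nat_lit 1672242089919) (nat_lit 1) (nat_lit 5) (nat_lit 3) (nat_lit 4) (nat_lit 1) (nat_lit 4) (nat_lit 282) (nat_lit 206) (nat_lit 172)) (XT.lf (nat_lit 0) (nat_lit 1925344457671) (nat_lit 152) (nat_lit 3747544142394) (nat_lit 0) (nat_lit 1924291320860) (nat_lit 1) (nat_lit 5) (nat_lit 3) (nat_lit 4) (nat_lit 1) (nat_lit 4) (nat_lit 283) (nat_lit 206) (nat_lit 171))))))))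
noncomputable def xc23 : XT := (XT.nd (nat_lit 31434) (nat_lit 0) (nat_lit 0) (XT.nd (nat_lit 702) (nat_lit 0) (nat_lit 0) (XT.nd (nat_lit 312) (nat_lit 0) (nat_lit 0) (XT.nd (nat_lit 156) (nat_lit 0) (nat_lit 0) (XT.nd (nat_lit 78) (nat_lit 0) (nat_lit 0) (XT.lf (nat_lit 0) (nat_lit 2215199928833) (nat_lit 152) (nat_lit 4307228067408) (nat_lit 0) (nat_lit 2214145752755) (nat_lit 1) (nat_lit 5) (nat_lit 3) (nat_lit 4) (nat_lit 1) (nat_lit 4) (nat_lit 284) (nat_lit 206) (nat_lit 170)) (XT.lf (nat_lit 0) (nat_lit 2548531530364) (nat_lit 152) (nat_lit 4950869001078) (nat_lit 0) (nat_lit 2547476450575) (nat_lit 1) (nat_lit 5) (nat_lit 3) (nat_lit 4) (nat_lit 1) (nat_lit 4) (nat_lit 285) (nat_lit 206) (nat_lit 169))) (XT.nd (nat_lit 78) (nat_lit 0) (nat_lit 0) (XT.lf (nat_lit 0) (nat_lit 2931860967511) (nat_lit 152) (nat_lit 5691059918193) (nat_lit 0) (nat_lit 2930805101887) (nat_lit 1) (nat_lit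 5) (nat_lit 3) (nat_lit 4) (nat_lit 1) (nat_lit 4) (nat_lit 286) (nat_lit 206) (nat_lit 168)) (XT.lf (nat_lit 0) (nat_lit 3372688164045) (nat_lit 152) (nat_lit 6542282814957) (nat_lit 0) (nat_lit 3371631615086) (nat_lit 1) (nat_lit 5) (nat_lit 3) (nat_lit 4) (nat_lit 1) (nat_lit 4) (nat_lit 287) (nat_lit 206) (nat_lit 167)))) (XT.nd (nat_lit 156) (nat_lit 0) (nat_lit 0) (XT.nd (nat_lit 78) (nat_lit 0) (nat_lit 0) (XT.lf (nat_lit 0) (nat_lit 3879637999897) (nat_lit 152) (nat_lit 7521192052393) (nat_lit 0) (nat_lit 3878580856734) (nat_lit 1) (nat_lit 5) (nat_lit 3) (nat_lit 4) (nat_lit 1) (nat_lit 4) (nat_lit 288) (nat_lit 206) (nat_lit 166)) (XT.lf (nat_lit 0) (nat_lit 4462629058814) (nat_lit 152) (nat_lit 8646940202540) (nat_lit 0) (nat_lit 4461571398951) (nat_lit 1) (nat_lit 5) (nat_lit 3) (nat_lit 4) (nat_lit 1) (nat_lit 4) (nat_lit 289) (nat_lit 206) (nat_lit 165))) (XT.nd (nat_lit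 78) (nat_lit 0) (nat_lit 0) (XT.lf (nat_lit 0) (nat_lit 5133067687599) (nat_lit 152) (nat_lit 9941552772681) (nat_lit 0) (nat_lit 5132009578432) (nat_lit 1) (nat_lit 5) (nat_lit 3) (nat_lit 4) (nat_lit 1) (nat_lit 4) (nat_lit 290) (nat_lit 206) (nat_lit 164)) (XT.nd (nat_lit 78) (nat_lit 0) (nat_lit 0) (XT.lf (nat_lit 0) (nat_lit 5904071163772) (nat_lit 152) (nat_lit 11430359139190) (nat_lit 0) (nat_lit 5903012663906) (nat_lit 1) (nat_lit 5) (nat_lit 3) (nat_lit 4) (nat_lit 1) (nat_lit 4) (nat_lit 291) (nat_lit 206) (nat_lit 163)) (XT.lf (nat_lit 0) (nat_lit 6790724337954) (nat_lit 152) (nat_lit 13142488122281) (nat_lit 0) (nat_lit 6789665498350) (nat_lit 1) (nat_lit 5) (nat_lit 3) (nat_lit 4) (nat_lit 1) (nat_lit 4) (nat_lit 292) (nat_lit 206) (nat_lit 162)))))) (XT.nd (nat_lit 312) (nat_lit 0) (nat_lit 0) (XT.nd (nat_lit 156) (nat_lit 0) (nat_lit 0) (XT.nd (nat_lit 78) (nat_lit 0)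 (nat_lit 0) (XT.lf (nat_lit 0) (nat_lit 7810374772249) (nat_lit 152) (nat_lit 15111437897709) (nat_lit 0) (nat_lit 7809315637221) (nat_lit 1) (nat_lit 5) (nat_lit 3) (nat_lit 4) (nat_lit 1) (nat_lit 4) (nat_lit 293) (nat_lit 206) (nat_lit 161)) (XT.lf (nat_lit 0) (nat_lit 8982972149067) (nat_lit 152) (nat_lit 17375731395865) (nat_lit 0) (nat_lit 8981912757148) (nat_lit 1) (nat_lit 5) (nat_lit 3) (nat_lit 4) (nat_lit 1) (nat_lit 4) (nat_lit 294) (nat_lit 206) (nat_lit 160))) (XT.nd (nat_lit 78) (nat_lit 0) (nat_lit 0) (XT.lf (nat_lit 0) (nat_lit 10331458590997) (nat_lit 152) (nat_lit 19979670011276) (nat_lit 0) (nat_lit 10330398975695) (nat_lit 1) (nat_lit 5) (nat_lit 3) (nat_lit 4) (nat_lit 1) (nat_lit 4) (nat_lit 295) (nat_lit 206) (nat_lit 159)) (XT.lf (nat_lit 0) (nat_lit 11882217528426) (nat_lit 152) (nat_lit 22974200369027) (nat_lit 0) (nat_lit 11881157718877) (nat_lit 1) (nat_lit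 5) (nat_lit 3) (nat_lit 4) (nat_lit 1) (nat_lit 4) (nat_lit 296) (nat_lit 206) (nat_lit 158)))) (XT.nd (nat_lit 1248) (nat_lit 0) (nat_lit 0) (XT.nd (nat_lit 78) (nat_lit 0) (nat_lit 0) (XT.lf (nat_lit 0) (nat_lit 13665589897085) (nat_lit 152) (nat_lit 26417911106552) (nat_lit 0) (nat_lit 13664529918626) (nat_lit 1) (nat_lit 5) (nat_lit 3) (nat_lit 4) (nat_lit 1) (nat_lit 4) (nat_lit 297) (nat_lit 206) (nat_lit 157)) (XT.lf (nat_lit 0) (nat_lit 15716467765057) (nat_lit 152) (nat_lit 30378179173064) (nat_lit 0) (nat_lit 15715407639720) (nat_lit 1) (nat_lit 5) (nat_lit 3) (nat_lit 4) (nat_lit 1) (nat_lit 4) (nat_lit 298) (nat_lit 206) (nat_lit 156))) (XT.nd (nat_lit 78) (nat_lit 0) (nat_lit 0) (XT.lf (nat_lit 0) (nat_lit 127935267142296) (nat_lit 152) (nat_lit 247074147012932) (nat_lit 0) (nat_lit 127934206158107) (nat_lit 1) (nat_lit 5) (nat_lit 3) (nat_lit 4) (nat_lit 1) (nat_lit 4)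 (nat_lit 313) (nat_lit 206) (nat_lit 141)) (XT.nd (nat_lit 78) (nat_lit 0) (nat_lit 0) (XT.lf (nat_lit 0) (nat_lit 147126594477426) (nat_lit 152) (nat_lit 284132854742672) (nat_lit 0) (nat_lit 147125533477542) (nat_lit 1) (nat_lit 5) (nat_lit 3) (nat_lit 4) (nat_lit 1) (nat_lit 4) (nat_lit 314) (nat_lit 206) (nat_lit 140)) (XT.lf (nat_lit 0) (nat_lit 169196620879746) (nat_lit 152) (nat_lit 326750368698628) (nat_lit 0) (nat_lit 169195559866212) (nat_lit 1) (nat_lit 5) (nat_lit 3) (nat_lit 4) (nat_lit 1) (nat_lit 4) (nat_lit 315) (nat_lit 206) (nat_lit 139))))))) (XT.nd (nat_lit 702) (nat_lit 0) (nat_lit 0) (XT.nd (nat_lit 312) (nat_lit 0) (nat_lit 0) (XT.nd (nat_lit 156) (nat_lit 152) (nat_lit 0) (XT.nd (nat_lit 78) (nat_lit 0) (nat_lit 0) (XT.lf (nat_lit 0) (nat_lit 17000328167) (nat_lit 76) (nat_lit 2935124086) (nat_lit 76) (nat_lit 2935124086) (nat_lit 3) (nat_lit 4) (nat_lit 4) (nat_lit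 5) (nat_lit 4) (nat_lit 4) (nat_lit 246) (nat_lit 207) (nat_lit 207)) (XT.lf (nat_lit 0) (nat_lit 45633169687) (nat_lit 76) (nat_lit 3325037682) (nat_lit 76) (nat_lit 3141997151) (nat_lit 3) (nat_lit 4) (nat_lit 4) (nat_lit 5) (nat_lit 4) (nat_lit 4) (nat_lit 247) (nat_lit 207) (nat_lit 206))) (XT.nd (nat_lit 78) (nat_lit 152) (nat_lit 0) (XT.lf (nat_lit 0) (nat_lit 58455433875) (nat_lit 76) (nat_lit 671278420) (nat_lit 76) (nat_lit 329072211) (nat_lit 3) (nat_lit 4) (nat_lit 4) (nat_lit 5) (nat_lit 4) (nat_lit 4) (nat_lit 248) (nat_lit 207) (nat_lit 205)) (XT.lf (nat_lit 0) (nat_lit 2705706340) (nat_lit 152) (nat_lit 62894664019) (nat_lit 0) (nat_lit 2287783603) (nat_lit 1) (nat_lit 5) (nat_lit 3) (nat_lit 4) (nat_lit 1) (nat_lit 4) (nat_lit 249) (nat_lit 207) (nat_lit 204)))) (XT.nd (nat_lit 156) (nat_lit 0) (nat_lit 0) (XT.nd (nat_lit 78) (nat_lit 0) (nat_lit 0) (XT.lf (nat_lit 0)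 (nat_lit 5995109818) (nat_lit 152) (nat_lit 66140674646) (nat_lit 0) (nat_lit 5472533064) (nat_lit 1) (nat_lit 5) (nat_lit 3) (nat_lit 4) (nat_lit 1) (nat_lit 4) (nat_lit 250) (nat_lit 207) (nat_lit 203)) (XT.lf (nat_lit 0) (nat_lit 9557360449) (nat_lit 152) (nat_lit 70318670389) (nat_lit 0) (nat_lit 8943780201) (nat_lit 1) (nat_lit 5) (nat_lit 3) (nat_lit 4) (nat_lit 1) (nat_lit 4) (nat_lit 251) (nat_lit 207) (nat_lit 202))) (XT.nd (nat_lit 78) (nat_lit 0) (nat_lit 0) (XT.lf (nat_lit 0) (nat_lit 13462154440) (nat_lit 152) (nat_lit 75510394642) (nat_lit 0) (nat_lit 12769440719) (nat_lit 1) (nat_lit 5) (nat_lit 3) (nat_lit 4) (nat_lit 1) (nat_lit 4) (nat_lit 252) (nat_lit 207) (nat_lit 201)) (XT.nd (nat_lit 78) (nat_lit 0) (nat_lit 0) (XT.lf (nat_lit 0) (nat_lit 17785889935) (nat_lit 152) (nat_lit 81817424618) (nat_lit 0) (nat_lit 17024364499) (nat_lit 1) (nat_lit 5) (nat_lit 3) (nat_lit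 4) (nat_lit 1) (nat_lit 4) (nat_lit 253) (nat_lit 207) (nat_lit 200)) (XT.lf (nat_lit 0) (nat_lit 22613161758) (nat_lit 152) (nat_lit 89363158731) (nat_lit 0) (nat_lit 21791800048) (nat_lit 1) (nat_lit 5) (nat_lit 3) (nat_lit 4) (nat_lit 1) (nat_lit 4) (nat_lit 254) (nat_lit 207) (nat_lit 199)))))) (XT.nd (nat_lit 312) (nat_lit 0) (nat_lit 0) (XT.nd (nat_lit 156) (nat_lit 0) (nat_lit 0) (XT.nd (nat_lit 78) (nat_lit 0) (nat_lit 0) (XT.lf (nat_lit 0) (nat_lit 28038416533) (nat_lit 152) (nat_lit 98295230909) (nat_lit 0) (nat_lit 27165023281) (nat_lit 1) (nat_lit 5) (nat_lit 3) (nat_lit 4) (nat_lit 1) (nat_lit 4) (nat_lit 255) (nat_lit 207) (nat_lit 198)) (XT.lf (nat_lit 0) (nat_lit 34167800548) (nat_lit 152) (nat_lit 108788399085) (nat_lit 0) (nat_lit 33249162476) (nat_lit 1) (nat_lit 5) (nat_lit 3) (nat_lit 4) (nat_lit 1) (nat_lit 4) (nat_lit 256) (nat_lit 207) (nat_lit 197))) (XT.nd (nat_lit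 78) (nat_lit 0) (nat_lit 0) (XT.lf (nat_lit 0) (nat_lit 41121236535) (nat_lit 152) (nat_lit 121047964376) (nat_lit 0) (nat_lit 40163255141) (nat_lit 1) (nat_lit 5) (nat_lit 3) (nat_lit 4) (nat_lit 1) (nat_lit 4) (nat_lit 257) (nat_lit 207) (nat_lit 196)) (XT.lf (nat_lit 0) (nat_lit 49034769979) (nat_lit 152) (nat_lit 135313787842) (nat_lit 0) (nat_lit 48042577001) (nat_lit 1) (nat_lit 5) (nat_lit 3) (nat_lit 4) (nat_lit 1) (nat_lit 4) (nat_lit 258) (nat_lit 207) (nat_lit 195)))) (XT.nd (nat_lit 156) (nat_lit 0) (nat_lit 0) (XT.nd (nat_lit 78) (nat_lit 0) (nat_lit 0) (XT.lf (nat_lit 0) (nat_lit 58063230883) (nat_lit 152) (nat_lit 151864983420) (nat_lit 0) (nat_lit 57041288701) (nat_lit 1) (nat_lit 5) (nat_lit 3) (nat_lit 4) (nat_lit 1) (nat_lit 4) (nat_lit 259) (nat_lit 207) (nat_lit 194)) (XT.lf (nat_lit 0) (nat_lit 68383263047) (nat_lit 152) (nat_lit 171025378851) (nat_lit 0) (nat_lit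 67335451993) (nat_lit 1) (nat_lit 5) (nat_lit 3) (nat_lit 4) (nat_lit 1) (nat_lit 4) (nat_lit 260) (nat_lit 207) (nat_lit 193))) (XT.nd (nat_lit 78) (nat_lit 0) (nat_lit 0) (XT.lf (nat_lit 0) (nat_lit 80196780144) (nat_lit 152) (nat_lit 193169851435) (nat_lit 0) (nat_lit 79126474419) (nat_lit 1) (nat_lit 5) (nat_lit 3) (nat_lit 4) (nat_lit 1) (nat_lit 4) (nat_lit 261) (nat_lit 207) (nat_lit 192)) (XT.nd (nat_lit 78) (nat_lit 0) (nat_lit 0) (XT.lf (nat_lit 0) (nat_lit 93734916205) (nat_lit 152) (nat_lit 218731662593) (nat_lit 0) (nat_lit 92645049895) (nat_lit 1) (nat_lit 5) (nat_lit 3) (nat_lit 4) (nat_lit 1) (nat_lit 4) (nat_lit 262) (nat_lit 207) (nat_lit 191)) (XT.lf (nat_lit 0) (nat_lit 109262547804) (nat_lit 152) (nat_lit 248210934718) (nat_lit 0) (nat_lit 108155672290) (nat_lit 1) (nat_lit 5) (nat_lit 3) (nat_lit 4) (nat_lit 1) (nat_lit 4) (nat_lit 263) (nat_lit 207) (nat_lit 190))))))))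
noncomputable def xc24 : XT := (XT.nd (nat_lit 1326) (nat_lit 0) (nat_lit 0) (XT.nd (nat_lit 624) (nat_lit 0) (nat_lit 0) (XT.nd (nat_lit 312) (nat_lit 0) (nat_lit 0) (XT.nd (nat_lit 156) (nat_lit 0) (nat_lit 0) (XT.nd (nat_lit 78) (nat_lit 0) (nat_lit 0) (XT.lf (nat_lit 0) (nat_lit 127083476428) (nat_lit 152) (nat_lit 282184436177) (nat_lit 0) (nat_lit 125961810303) (nat_lit 1) (nat_lit 5) (nat_lit 3) (nat_lit 4) (nat_lit 1) (nat_lit 4) (nat_lit 264) (nat_lit 207) (nat_lit 189)) (XT.lf (nat_lit 0) (nat_lit 147546372422) (nat_lit 152) (nat_lit 321316865911) (nat_lit 0) (nat_lit 146411844895) (nat_lit 1) (nat_lit 5) (nat_lit 3) (nat_lit 4) (nat_lit 1) (nat_lit 4) (nat_lit 265) (nat_lit 207) (nat_lit 188))) (XT.nd (nat_lit 78) (nat_lit 0) (nat_lit 0) (XT.lf (nat_lit 0) (nat_lit 171051596793) (nat_lit 152) (nat_lit 366373858415) (nat_lit 0) (nat_lit 169905885439) (nat_lit 1) (nat_lit 5)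 (nat_lit 3) (nat_lit 4) (nat_lit 1) (nat_lit 4) (nat_lit 266) (nat_lit 207) (nat_lit 187)) (XT.lf (nat_lit 0) (nat_lit 198059034366) (nat_lit 152) (nat_lit 418236963543) (nat_lit 0) (nat_lit 196903597944) (nat_lit 1) (nat_lit 5) (nat_lit 3) (nat_lit 4) (nat_lit 1) (nat_lit 4) (nat_lit 267) (nat_lit 207) (nat_lit 186)))) (XT.nd (nat_lit 156) (nat_lit 0) (nat_lit 0) (XT.nd (nat_lit 78) (nat_lit 0) (nat_lit 0) (XT.lf (nat_lit 0) (nat_lit 229097091528) (nat_lit 152) (nat_lit 477920894221) (nat_lit 0) (nat_lit 227933198526) (nat_lit 1) (nat_lit 5) (nat_lit 3) (nat_lit 4) (nat_lit 1) (nat_lit 4) (nat_lit 268) (nat_lit 207) (nat_lit 185)) (XT.lf (nat_lit 0) (nat_lit 264773034615) (nat_lit 152) (nat_lit 546593379527) (nat_lit 0) (nat_lit 263601788065) (nat_lit 1) (nat_lit 5) (nat_lit 3) (nat_lit 4) (nat_lit 1) (nat_lit 4) (nat_lit 269) (nat_lit 207) (nat_lit 184))) (XT.nd (nat_lit 78) (nat_lit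 0) (nat_lit 0) (XT.lf (nat_lit 0) (nat_lit 305784871210) (nat_lit 152) (nat_lit 625598011566) (nat_lit 0) (nat_lit 304607230270) (nat_lit 1) (nat_lit 5) (nat_lit 3) (nat_lit 4) (nat_lit 1) (nat_lit 4) (nat_lit 270) (nat_lit 207) (nat_lit 183)) (XT.lf (nat_lit 0) (nat_lit 352935006810) (nat_lit 152) (nat_lit 716480533138) (nat_lit 0) (nat_lit 351751805531) (nat_lit 1) (nat_lit 5) (nat_lit 3) (nat_lit 4) (nat_lit 1) (nat_lit 4) (nat_lit 271) (nat_lit 207) (nat_lit 182))))) (XT.nd (nat_lit 312) (nat_lit 0) (nat_lit 0) (XT.nd (nat_lit 156) (nat_lit 0) (nat_lit 0) (XT.nd (nat_lit 78) (nat_lit 0) (nat_lit 0) (XT.lf (nat_lit 0) (nat_lit 407145944069) (nat_lit 152) (nat_lit 821019080535) (nat_lit 0) (nat_lit 405957907713) (nat_lit 1) (nat_lit 5) (nat_lit 3) (nat_lit 4) (nat_lit 1) (nat_lit 4) (nat_lit 272) (nat_lit 207) (nat_lit 181)) (XT.lf (nat_lit 0) (nat_lit 469478331759) (nat_lit 152) (nat_lit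 941258973162) (nat_lit 0) (nat_lit 468286090988) (nat_lit 1) (nat_lit 5) (nat_lit 3) (nat_lit 4) (nat_lit 1) (nat_lit 4) (nat_lit 273) (nat_lit 207) (nat_lit 180))) (XT.nd (nat_lit 78) (nat_lit 0) (nat_lit 0) (XT.lf (nat_lit 0) (nat_lit 541151716596) (nat_lit 152) (nat_lit 1079552730657) (nat_lit 0) (nat_lit 539955819812) (nat_lit 1) (nat_lit 5) (nat_lit 3) (nat_lit 4) (nat_lit 1) (nat_lit 4) (nat_lit 274) (nat_lit 207) (nat_lit 179)) (XT.lf (nat_lit 0) (nat_lit 623568403936) (nat_lit 152) (nat_lit 1238606100451) (nat_lit 0) (nat_lit 622369328010) (nat_lit 1) (nat_lit 5) (nat_lit 3) (nat_lit 4) (nat_lit 1) (nat_lit 4) (nat_lit 275) (nat_lit 207) (nat_lit 178)))) (XT.nd (nat_lit 156) (nat_lit 0) (nat_lit 0) (XT.nd (nat_lit 78) (nat_lit 0) (nat_lit 0) (XT.lf (nat_lit 0) (nat_lit 718340894182) (nat_lit 152) (nat_lit 1421530996299) (nat_lit 0) (nat_lit 717139053785) (nat_lit 1) (nat_lit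 5) (nat_lit 3) (nat_lit 4) (nat_lit 1) (nat_lit 4) (nat_lit 276) (nat_lit 207) (nat_lit 177)) (XT.lf (nat_lit 0) (nat_lit 827323431710) (nat_lit 152) (nat_lit 1631906383556) (nat_lit 0) (nat_lit 826119187425) (nat_lit 1) (nat_lit 5) (nat_lit 3) (nat_lit 4) (nat_lit 1) (nat_lit 4) (nat_lit 277) (nat_lit 207) (nat_lit 176))) (XT.nd (nat_lit 78) (nat_lit 0) (nat_lit 0) (XT.lf (nat_lit 0) (nat_lit 952648283558) (nat_lit 152) (nat_lit 1873848302407) (nat_lit 0) (nat_lit 951441948936) (nat_lit 1) (nat_lit 5) (nat_lit 3) (nat_lit 4) (nat_lit 1) (nat_lit 4) (nat_lit 278) (nat_lit 207) (nat_lit 175)) (XT.nd (nat_lit 78) (nat_lit 0) (nat_lit 0) (XT.lf (nat_lit 0) (nat_lit 1096767457696) (nat_lit 152) (nat_lit 2152090399089) (nat_lit 0) (nat_lit 1095559305390) (nat_lit 1) (nat_lit 5) (nat_lit 3) (nat_lit 4) (nat_lit 1) (nat_lit 4) (nat_lit 279) (nat_lit 207) (nat_lit 174)) (XT.lf (nat_lit 0) (nat_lit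 1262500677098) (nat_lit 152) (nat_lit 2472076540713) (nat_lit 0) (nat_lit 1261290944196) (nat_lit 1) (nat_lit 5) (nat_lit 3) (nat_lit 4) (nat_lit 1) (nat_lit 4) (nat_lit 280) (nat_lit 207) (nat_lit 173))))))) (XT.nd (nat_lit 702) (nat_lit 0) (nat_lit 0) (XT.nd (nat_lit 312) (nat_lit 0) (nat_lit 0) (XT.nd (nat_lit 156) (nat_lit 0) (nat_lit 0) (XT.nd (nat_lit 78) (nat_lit 0) (nat_lit 0) (XT.lf (nat_lit 0) (nat_lit 1453090548230) (nat_lit 152) (nat_lit 2840067325701) (nat_lit 0) (nat_lit 1451879440897) (nat_lit 1) (nat_lit 5) (nat_lit 3) (nat_lit 4) (nat_lit 1) (nat_lit 4) (nat_lit 281) (nat_lit 207) (nat_lit 172)) (XT.lf (nat_lit 0) (nat_lit 1672266003352) (nat_lit 152) (nat_lit 3263262573760) (nat_lit 0) (nat_lit 1671053700862) (nat_lit 1) (nat_lit 5) (nat_lit 3) (nat_lit 4) (nat_lit 1) (nat_lit 4) (nat_lit 282) (nat_lit 207) (nat_lit 171))) (XT.nd (nat_lit 78) (nat_lit 0) (nat_lit 0)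 (XT.lf (nat_lit 0) (nat_lit 1924315257892) (nat_lit 152) (nat_lit 3749942191916) (nat_lit 0) (nat_lit 1923101916135) (nat_lit 1) (nat_lit 5) (nat_lit 3) (nat_lit 4) (nat_lit 1) (nat_lit 4) (nat_lit 283) (nat_lit 207) (nat_lit 170)) (XT.lf (nat_lit 0) (nat_lit 2214169710307) (nat_lit 152) (nat_lit 4309628172700) (nat_lit 0) (nat_lit 2212955464839) (nat_lit 1) (nat_lit 5) (nat_lit 3) (nat_lit 4) (nat_lit 1) (nat_lit 4) (nat_lit 284) (nat_lit 207) (nat_lit 169)))) (XT.nd (nat_lit 156) (nat_lit 0) (nat_lit 0) (XT.nd (nat_lit 78) (nat_lit 0) (nat_lit 0) (XT.lf (nat_lit 0) (nat_lit 2547500425971) (nat_lit 152) (nat_lit 4953270893995) (nat_lit 0) (nat_lit 2546285394668) (nat_lit 1) (nat_lit 5) (nat_lit 3) (nat_lit 4) (nat_lit 1) (nat_lit 4) (nat_lit 285) (nat_lit 207) (nat_lit 168)) (XT.lf (nat_lit 0) (nat_lit 2930829092799) (nat_lit 152) (nat_lit 5693463365566) (nat_lit 0) (nat_lit 2929613378162)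 (nat_lit 1) (nat_lit 5) (nat_lit 3) (nat_lit 4) (nat_lit 1) (nat_lit 4) (nat_lit 286) (nat_lit 207) (nat_lit 167))) (XT.nd (nat_lit 78) (nat_lit 0) (nat_lit 0) (XT.lf (nat_lit 0) (nat_lit 3371655619491) (nat_lit 152) (nat_lit 6544687614031) (nat_lit 0) (nat_lit 3370439310649) (nat_lit 1) (nat_lit 5) (nat_lit 3) (nat_lit 4) (nat_lit 1) (nat_lit 4) (nat_lit 287) (nat_lit 207) (nat_lit 166)) (XT.nd (nat_lit 78) (nat_lit 0) (nat_lit 0) (XT.lf (nat_lit 0) (nat_lit 3878604872872) (nat_lit 152) (nat_lit 7523598026861) (nat_lit 0) (nat_lit 3877388047330) (nat_lit 1) (nat_lit 5) (nat_lit 3) (nat_lit 4) (nat_lit 1) (nat_lit 4) (nat_lit 288) (nat_lit 207) (nat_lit 165)) (XT.lf (nat_lit 0) (nat_lit 4461595425291) (nat_lit 152) (nat_lit 8649347199088) (nat_lit 0) (nat_lit 4460378150446) (nat_lit 1) (nat_lit 5) (nat_lit 3) (nat_lit 4) (nat_lit 1) (nat_lit 4) (nat_lit 289) (nat_lit 207) (nat_lit 164))))))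 (XT.nd (nat_lit 312) (nat_lit 0) (nat_lit 0) (XT.nd (nat_lit 156) (nat_lit 0) (nat_lit 0) (XT.nd (nat_lit 78) (nat_lit 0) (nat_lit 0) (XT.lf (nat_lit 0) (nat_lit 5132033613643) (nat_lit 152) (nat_lit 9943960657995) (nat_lit 0) (nat_lit 5130815948099) (nat_lit 1) (nat_lit 5) (nat_lit 3) (nat_lit 4) (nat_lit 1) (nat_lit 4) (nat_lit 290) (nat_lit 207) (nat_lit 163)) (XT.lf (nat_lit 0) (nat_lit 5903036706832) (nat_lit 152) (nat_lit 11432767797343) (nat_lit 0) (nat_lit 5901818701550) (nat_lit 1) (nat_lit 5) (nat_lit 3) (nat_lit 4) (nat_lit 1) (nat_lit 4) (nat_lit 291) (nat_lit 207) (nat_lit 162))) (XT.nd (nat_lit 78) (nat_lit 0) (nat_lit 0) (XT.lf (nat_lit 0) (nat_lit 6789689547984) (nat_lit 152) (nat_lit 13144897452469) (nat_lit 0) (nat_lit 6788471247277) (nat_lit 1) (nat_lit 5) (nat_lit 3) (nat_lit 4) (nat_lit 1) (nat_lit 4) (nat_lit 292) (nat_lit 207) (nat_lit 161)) (XT.lf (nat_lit 0)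 (nat_lit 7809339692688) (nat_lit 152) (nat_lit 15113847812275) (nat_lit 0) (nat_lit 7808121135090) (nat_lit 1) (nat_lit 5) (nat_lit 3) (nat_lit 4) (nat_lit 1) (nat_lit 4) (nat_lit 293) (nat_lit 207) (nat_lit 160)))) (XT.nd (nat_lit 156) (nat_lit 0) (nat_lit 0) (XT.nd (nat_lit 78) (nat_lit 0) (nat_lit 0) (XT.lf (nat_lit 0) (nat_lit 8981936817687) (nat_lit 152) (nat_lit 17378141818585) (nat_lit 0) (nat_lit 8980718036706) (nat_lit 1) (nat_lit 5) (nat_lit 3) (nat_lit 4) (nat_lit 1) (nat_lit 4) (nat_lit 294) (nat_lit 207) (nat_lit 159)) (XT.lf (nat_lit 0) (nat_lit 10330423040645) (nat_lit 152) (nat_lit 19982080875870) (nat_lit 0) (nat_lit 10329204065417) (nat_lit 1) (nat_lit 5) (nat_lit 3) (nat_lit 4) (nat_lit 1) (nat_lit 4) (nat_lit 295) (nat_lit 207) (nat_lit 158))) (XT.nd (nat_lit 78) (nat_lit 0) (nat_lit 0) (XT.lf (nat_lit 0) (nat_lit 11881181787662) (nat_lit 152) (nat_lit 22976611617859)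 (nat_lit 0) (nat_lit 11879962643524) (nat_lit 1) (nat_lit 5) (nat_lit 3) (nat_lit 4) (nat_lit 1) (nat_lit 4) (nat_lit 296) (nat_lit 207) (nat_lit 157)) (XT.nd (nat_lit 78) (nat_lit 0) (nat_lit 0) (XT.lf (nat_lit 0) (nat_lit 13664553990747) (nat_lit 152) (nat_lit 26420322689504) (nat_lit 0) (nat_lit 13663334699731) (nat_lit 1) (nat_lit 5) (nat_lit 3) (nat_lit 4) (nat_lit 1) (nat_lit 4) (nat_lit 297) (nat_lit 207) (nat_lit 156)) (XT.lf (nat_lit 0) (nat_lit 15715431714741) (nat_lit 152) (nat_lit 30380591046555) (nat_lit 0) (nat_lit 15714212296005) (nat_lit 1) (nat_lit 5) (nat_lit 3) (nat_lit 4) (nat_lit 1) (nat_lit 4) (nat_lit 298) (nat_lit 207) (nat_lit 155))))))))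
noncomputable def xc25 : XT := (XT.nd (nat_lit 30264) (nat_lit 0) (nat_lit 0) (XT.nd (nat_lit 29562) (nat_lit 0) (nat_lit 0) (XT.nd (nat_lit 29172) (nat_lit 0) (nat_lit 0) (XT.nd (nat_lit 29016) (nat_lit 0) (nat_lit 152) (XT.nd (nat_lit 78) (nat_lit 0) (nat_lit 0) (XT.lf (nat_lit 0) (nat_lit 127934230250086) (nat_lit 152) (nat_lit 247076560585313) (nat_lit 0) (nat_lit 127933010084523) (nat_lit 1) (nat_lit 5) (nat_lit 3) (nat_lit 4) (nat_lit 1) (nat_lit 4) (nat_lit 313) (nat_lit 207) (nat_lit 140)) (XT.lf (nat_lit 0) (nat_lit 147125557569830) (nat_lit 152) (nat_lit 284135268346101) (nat_lit 0) (nat_lit 147124337390618) (nat_lit 1) (nat_lit 5) (nat_lit 3) (nat_lit 4) (nat_lit 1) (nat_lit 4) (nat_lit 314) (nat_lit 207) (nat_lit 139))) (XT.nd (nat_lit 78) (nat_lit 0) (nat_lit 0) (XT.lf (nat_lit 0) (nat_lit 6877401751) (nat_lit 76) (nat_lit 5437745204) (nat_lit 76) (nat_lit 5437745204) (nat_lit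 3) (nat_lit 4) (nat_lit 4) (nat_lit 5) (nat_lit 4) (nat_lit 4) (nat_lit 244) (nat_lit 208) (nat_lit 208)) (XT.lf (nat_lit 0) (nat_lit 23330301165) (nat_lit 76) (nat_lit 8567204097) (nat_lit 76) (nat_lit 8356707486) (nat_lit 3) (nat_lit 4) (nat_lit 4) (nat_lit 5) (nat_lit 4) (nat_lit 4) (nat_lit 245) (nat_lit 208) (nat_lit 207)))) (XT.nd (nat_lit 156) (nat_lit 152) (nat_lit 0) (XT.nd (nat_lit 78) (nat_lit 0) (nat_lit 0) (XT.lf (nat_lit 0) (nat_lit 33703728384) (nat_lit 76) (nat_lit 6226892560) (nat_lit 76) (nat_lit 5833355419) (nat_lit 3) (nat_lit 4) (nat_lit 4) (nat_lit 5) (nat_lit 4) (nat_lit 4) (nat_lit 246) (nat_lit 208) (nat_lit 206)) (XT.lf (nat_lit 0) (nat_lit 45078043519) (nat_lit 76) (nat_lit 3808767094) (nat_lit 76) (nat_lit 3256064274) (nat_lit 3) (nat_lit 4) (nat_lit 4) (nat_lit 5) (nat_lit 4) (nat_lit 4) (nat_lit 247) (nat_lit 208) (nat_lit 205))) (XT.nd (nat_lit 78) (nat_lit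 152) (nat_lit 0) (XT.lf (nat_lit 0) (nat_lit 57675787518) (nat_lit 76) (nat_lit 1265516548) (nat_lit 76) (nat_lit 574408791) (nat_lit 3) (nat_lit 4) (nat_lit 4) (nat_lit 5) (nat_lit 4) (nat_lit 4) (nat_lit 248) (nat_lit 208) (nat_lit 204)) (XT.nd (nat_lit 78) (nat_lit 0) (nat_lit 0) (XT.lf (nat_lit 0) (nat_lit 2299649681) (nat_lit 152) (nat_lit 64083426468) (nat_lit 0) (nat_lit 1594032396) (nat_lit 1) (nat_lit 5) (nat_lit 3) (nat_lit 4) (nat_lit 1) (nat_lit 4) (nat_lit 249) (nat_lit 208) (nat_lit 203)) (XT.lf (nat_lit 0) (nat_lit 5486465546) (nat_lit 152) (nat_lit 67536452686) (nat_lit 0) (nat_lit 4689844768) (nat_lit 1) (nat_lit 5) (nat_lit 3) (nat_lit 4) (nat_lit 1) (nat_lit 4) (nat_lit 250) (nat_lit 208) (nat_lit 202)))))) (XT.nd (nat_lit 312) (nat_lit 0) (nat_lit 0) (XT.nd (nat_lit 156) (nat_lit 0) (nat_lit 0) (XT.nd (nat_lit 78) (nat_lit 0) (nat_lit 0) (XT.lf (nat_lit 0) (nat_lit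 8959509556) (nat_lit 152) (nat_lit 71894461987) (nat_lit 0) (nat_lit 8083755305) (nat_lit 1) (nat_lit 5) (nat_lit 3) (nat_lit 4) (nat_lit 1) (nat_lit 4) (nat_lit 251) (nat_lit 208) (nat_lit 201)) (XT.lf (nat_lit 0) (nat_lit 12786732573) (nat_lit 152) (nat_lit 77242719768) (nat_lit 0) (nat_lit 11842166607) (nat_lit 1) (nat_lit 5) (nat_lit 3) (nat_lit 4) (nat_lit 1) (nat_lit 4) (nat_lit 252) (nat_lit 208) (nat_lit 200))) (XT.nd (nat_lit 78) (nat_lit 0) (nat_lit 0) (XT.lf (nat_lit 0) (nat_lit 17043015047) (nat_lit 152) (nat_lit 83685865856) (nat_lit 0) (nat_lit 16038612806) (nat_lit 1) (nat_lit 5) (nat_lit 3) (nat_lit 4) (nat_lit 1) (nat_lit 4) (nat_lit 253) (nat_lit 208) (nat_lit 199)) (XT.lf (nat_lit 0) (nat_lit 21811632069) (nat_lit 152) (nat_lit 91349961805) (nat_lit 0) (nat_lit 20755198286) (nat_lit 1) (nat_lit 5) (nat_lit 3) (nat_lit 4) (nat_lit 1) (nat_lit 4) (nat_lit 254) (nat_lit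 208) (nat_lit 198)))) (XT.nd (nat_lit 156) (nat_lit 0) (nat_lit 0) (XT.nd (nat_lit 78) (nat_lit 0) (nat_lit 0) (XT.lf (nat_lit 0) (nat_lit 27185882669) (nat_lit 152) (nat_lit 100384957318) (nat_lit 0) (nat_lit 26084204066) (nat_lit 1) (nat_lit 5) (nat_lit 3) (nat_lit 4) (nat_lit 1) (nat_lit 4) (nat_lit 255) (nat_lit 208) (nat_lit 197)) (XT.lf (nat_lit 0) (nat_lit 33270915228) (nat_lit 152) (nat_lit 110967624047) (nat_lit 0) (nat_lit 32129893304) (nat_lit 1) (nat_lit 5) (nat_lit 3) (nat_lit 4) (nat_lit 1) (nat_lit 4) (nat_lit 256) (nat_lit 208) (nat_lit 196))) (XT.nd (nat_lit 78) (nat_lit 0) (nat_lit 0) (XT.lf (nat_lit 0) (nat_lit 40185784731) (nat_lit 152) (nat_lit 123305014167) (nat_lit 0) (nat_lit 39010551222) (nat_lit 1) (nat_lit 5) (nat_lit 3) (nat_lit 4) (nat_lit 1) (nat_lit 4) (nat_lit 257) (nat_lit 208) (nat_lit 195)) (XT.nd (nat_lit 78) (nat_lit 0) (nat_lit 0) (XT.lf (nat_lit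 0) (nat_lit 48065782102) (nat_lit 152) (nat_lit 137638511397) (nat_lit 0) (nat_lit 46860799390) (nat_lit 1) (nat_lit 5) (nat_lit 3) (nat_lit 4) (nat_lit 1) (nat_lit 4) (nat_lit 258) (nat_lit 208) (nat_lit 194)) (XT.lf (nat_lit 0) (nat_lit 57065081203) (nat_lit 152) (nat_lit 154248553726) (nat_lit 0) (nat_lit 55834229619) (nat_lit 1) (nat_lit 5) (nat_lit 3) (nat_lit 4) (nat_lit 1) (nat_lit 4) (nat_lit 259) (nat_lit 208) (nat_lit 193))))))) (XT.nd (nat_lit 702) (nat_lit 0) (nat_lit 0) (XT.nd (nat_lit 312) (nat_lit 0) (nat_lit 0) (XT.nd (nat_lit 156) (nat_lit 0) (nat_lit 0) (XT.nd (nat_lit 78) (nat_lit 0) (nat_lit 0) (XT.lf (nat_lit 0) (nat_lit 67359755278) (nat_lit 152) (nat_lit 173460120245) (nat_lit 0) (nat_lit 66106409022) (nat_lit 1) (nat_lit 5) (nat_lit 3) (nat_lit 4) (nat_lit 1) (nat_lit 4) (nat_lit 260) (nat_lit 208) (nat_lit 192)) (XT.lf (nat_lit 0) (nat_lit 79151221863) (nat_lit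 152) (nat_lit 195649089427) (nat_lit 0) (nat_lit 77878315023) (nat_lit 1) (nat_lit 5) (nat_lit 3) (nat_lit 4) (nat_lit 1) (nat_lit 4) (nat_lit 261) (nat_lit 208) (nat_lit 191))) (XT.nd (nat_lit 78) (nat_lit 0) (nat_lit 0) (XT.lf (nat_lit 0) (nat_lit 92670183565) (nat_lit 152) (nat_lit 221249593280) (nat_lit 0) (nat_lit 91380267521) (nat_lit 1) (nat_lit 5) (nat_lit 3) (nat_lit 4) (nat_lit 1) (nat_lit 4) (nat_lit 262) (nat_lit 208) (nat_lit 190)) (XT.lf (nat_lit 0) (nat_lit 108181141809) (nat_lit 152) (nat_lit 250762511226) (nat_lit 0) (nat_lit 106876435153) (nat_lit 1) (nat_lit 5) (nat_lit 3) (nat_lit 4) (nat_lit 1) (nat_lit 4) (nat_lit 263) (nat_lit 208) (nat_lit 189)))) (XT.nd (nat_lit 156) (nat_lit 0) (nat_lit 0) (XT.nd (nat_lit 78) (nat_lit 0) (nat_lit 0) (XT.lf (nat_lit 0) (nat_lit 125987571864) (nat_lit 152) (nat_lit 284765269920) (nat_lit 0) (nat_lit 124670003807) (nat_lit 1) (nat_lit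 5) (nat_lit 3) (nat_lit 4) (nat_lit 1) (nat_lit 4) (nat_lit 264) (nat_lit 208) (nat_lit 188)) (XT.lf (nat_lit 0) (nat_lit 146437860406) (nat_lit 152) (nat_lit 323923140728) (nat_lit 0) (nat_lit 145109108521) (nat_lit 1) (nat_lit 5) (nat_lit 3) (nat_lit 4) (nat_lit 1) (nat_lit 4) (nat_lit 265) (nat_lit 208) (nat_lit 187))) (XT.nd (nat_lit 78) (nat_lit 0) (nat_lit 0) (XT.lf (nat_lit 0) (nat_lit 169932121775) (nat_lit 152) (nat_lit 369002255906) (nat_lit 0) (nat_lit 168593644823) (nat_lit 1) (nat_lit 5) (nat_lit 3) (nat_lit 4) (nat_lit 1) (nat_lit 4) (nat_lit 266) (nat_lit 208) (nat_lit 186)) (XT.nd (nat_lit 78) (nat_lit 0) (nat_lit 0) (XT.lf (nat_lit 0) (nat_lit 196930026303) (nat_lit 152) (nat_lit 420884598141) (nat_lit 0) (nat_lit 195583092770) (nat_lit 1) (nat_lit 5) (nat_lit 3) (nat_lit 4) (nat_lit 1) (nat_lit 4) (nat_lit 267) (nat_lit 208) (nat_lit 185)) (XT.lf (nat_lit 0) (nat_lit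 227959793861) (nat_lit 152) (nat_lit 480585256739) (nat_lit 0) (nat_lit 226605506780) (nat_lit 1) (nat_lit 5) (nat_lit 3) (nat_lit 4) (nat_lit 1) (nat_lit 4) (nat_lit 268) (nat_lit 208) (nat_lit 184)))))) (XT.nd (nat_lit 312) (nat_lit 0) (nat_lit 0) (XT.nd (nat_lit 156) (nat_lit 0) (nat_lit 0) (XT.nd (nat_lit 78) (nat_lit 0) (nat_lit 0) (XT.lf (nat_lit 0) (nat_lit 263628528596) (nat_lit 152) (nat_lit 549272288062) (nat_lit 0) (nat_lit 262267847126) (nat_lit 1) (nat_lit 5) (nat_lit 3) (nat_lit 4) (nat_lit 1) (nat_lit 4) (nat_lit 269) (nat_lit 208) (nat_lit 183)) (XT.lf (nat_lit 0) (nat_lit 304634097059) (nat_lit 152) (nat_lit 628289568811) (nat_lit 0) (nat_lit 303267855250) (nat_lit 1) (nat_lit 5) (nat_lit 3) (nat_lit 4) (nat_lit 1) (nat_lit 4) (nat_lit 270) (nat_lit 208) (nat_lit 182))) (XT.nd (nat_lit 78) (nat_lit 0) (nat_lit 0) (XT.lf (nat_lit 0) (nat_lit 351778782110) (nat_lit 152)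 (nat_lit 719183089262) (nat_lit 0) (nat_lit 350407705223) (nat_lit 1) (nat_lit 5) (nat_lit 3) (nat_lit 4) (nat_lit 1) (nat_lit 4) (nat_lit 271) (nat_lit 208) (nat_lit 181)) (XT.lf (nat_lit 0) (nat_lit 405984979760) (nat_lit 152) (nat_lit 823731200901) (nat_lit 0) (nat_lit 404609698459) (nat_lit 1) (nat_lit 5) (nat_lit 3) (nat_lit 4) (nat_lit 1) (nat_lit 4) (nat_lit 272) (nat_lit 208) (nat_lit 180)))) (XT.nd (nat_lit 156) (nat_lit 0) (nat_lit 0) (XT.nd (nat_lit 78) (nat_lit 0) (nat_lit 0) (XT.lf (nat_lit 0) (nat_lit 468313246052) (nat_lit 152) (nat_lit 943979410260) (nat_lit 0) (nat_lit 466934308738) (nat_lit 1) (nat_lit 5) (nat_lit 3) (nat_lit 4) (nat_lit 1) (nat_lit 4) (nat_lit 273) (nat_lit 208) (nat_lit 179)) (XT.lf (nat_lit 0) (nat_lit 539983047065) (nat_lit 152) (nat_lit 1082280399697) (nat_lit 0) (nat_lit 538600930608) (nat_lit 1) (nat_lit 5) (nat_lit 3) (nat_lit 4) (nat_lit 1)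 (nat_lit 4) (nat_lit 274) (nat_lit 208) (nat_lit 178))) (XT.nd (nat_lit 78) (nat_lit 0) (nat_lit 0) (XT.lf (nat_lit 0) (nat_lit 622396618035) (nat_lit 152) (nat_lit 1241340058135) (nat_lit 0) (nat_lit 621011737108) (nat_lit 1) (nat_lit 5) (nat_lit 3) (nat_lit 4) (nat_lit 1) (nat_lit 4) (nat_lit 275) (nat_lit 208) (nat_lit 177)) (XT.nd (nat_lit 78) (nat_lit 0) (nat_lit 0) (XT.lf (nat_lit 0) (nat_lit 717166398395) (nat_lit 152) (nat_lit 1424270422370) (nat_lit 0) (nat_lit 715779113580) (nat_lit 1) (nat_lit 5) (nat_lit 3) (nat_lit 4) (nat_lit 1) (nat_lit 4) (nat_lit 276) (nat_lit 208) (nat_lit 176)) (XT.lf (nat_lit 0) (nat_lit 826146579500) (nat_lit 152) (nat_lit 1634650564746) (nat_lit 0) (nat_lit 824757204347) (nat_lit 1) (nat_lit 5) (nat_lit 3) (nat_lit 4) (nat_lit 1) (nat_lit 4) (nat_lit 277) (nat_lit 208) (nat_lit 175))))))))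
noncomputable def xc26 : XT := (XT.nd (nat_lit 1326) (nat_lit 0) (nat_lit 0) (XT.nd (nat_lit 624) (nat_lit 0) (nat_lit 0) (XT.nd (nat_lit 312) (nat_lit 0) (nat_lit 0) (XT.nd (nat_lit 156) (nat_lit 0) (nat_lit 0) (XT.nd (nat_lit 78) (nat_lit 0) (nat_lit 0) (XT.lf (nat_lit 0) (nat_lit 951469382284) (nat_lit 152) (nat_lit 1876596618482) (nat_lit 0) (nat_lit 950078189447) (nat_lit 1) (nat_lit 5) (nat_lit 3) (nat_lit 4) (nat_lit 1) (nat_lit 4) (nat_lit 278) (nat_lit 208) (nat_lit 174)) (XT.lf (nat_lit 0) (nat_lit 1095586774629) (nat_lit 152) (nat_lit 2154842310718) (nat_lit 0) (nat_lit 1094194001196) (nat_lit 1) (nat_lit 5) (nat_lit 3) (nat_lit 4) (nat_lit 1) (nat_lit 4) (nat_lit 279) (nat_lit 208) (nat_lit 173))) (XT.nd (nat_lit 78) (nat_lit 0) (nat_lit 0) (XT.lf (nat_lit 0) (nat_lit 1261318444644) (nat_lit 152) (nat_lit 2474831578909) (nat_lit 0) (nat_lit 1259924296781) (nat_lit 1) (nat_lit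 5) (nat_lit 3) (nat_lit 4) (nat_lit 1) (nat_lit 4) (nat_lit 280) (nat_lit 208) (nat_lit 172)) (XT.lf (nat_lit 0) (nat_lit 1451906968483) (nat_lit 152) (nat_lit 2842825082652) (nat_lit 0) (nat_lit 1450511625463) (nat_lit 1) (nat_lit 5) (nat_lit 3) (nat_lit 4) (nat_lit 1) (nat_lit 4) (nat_lit 281) (nat_lit 208) (nat_lit 171)))) (XT.nd (nat_lit 156) (nat_lit 0) (nat_lit 0) (XT.nd (nat_lit 78) (nat_lit 0) (nat_lit 0) (XT.lf (nat_lit 0) (nat_lit 1671081252047) (nat_lit 152) (nat_lit 3266022694845) (nat_lit 0) (nat_lit 1669684869759) (nat_lit 1) (nat_lit 5) (nat_lit 3) (nat_lit 4) (nat_lit 1) (nat_lit 4) (nat_lit 282) (nat_lit 208) (nat_lit 170)) (XT.lf (nat_lit 0) (nat_lit 1923129487840) (nat_lit 152) (nat_lit 3752704368770) (nat_lit 0) (nat_lit 1921732201842) (nat_lit 1) (nat_lit 5) (nat_lit 3) (nat_lit 4) (nat_lit 1) (nat_lit 4) (nat_lit 283) (nat_lit 208) (nat_lit 169))) (XT.nd (nat_lit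 78) (nat_lit 0) (nat_lit 0) (XT.lf (nat_lit 0) (nat_lit 2212983054389) (nat_lit 152) (nat_lit 4312392137179) (nat_lit 0) (nat_lit 2211584982555) (nat_lit 1) (nat_lit 5) (nat_lit 3) (nat_lit 4) (nat_lit 1) (nat_lit 4) (nat_lit 284) (nat_lit 208) (nat_lit 168)) (XT.lf (nat_lit 0) (nat_lit 2546312999734) (nat_lit 152) (nat_lit 4956036412931) (nat_lit 0) (nat_lit 2544914244566) (nat_lit 1) (nat_lit 5) (nat_lit 3) (nat_lit 4) (nat_lit 1) (nat_lit 4) (nat_lit 285) (nat_lit 208) (nat_lit 167))))) (XT.nd (nat_lit 312) (nat_lit 0) (nat_lit 0) (XT.nd (nat_lit 156) (nat_lit 0) (nat_lit 0) (XT.nd (nat_lit 78) (nat_lit 0) (nat_lit 0) (XT.lf (nat_lit 0) (nat_lit 2929640996720) (nat_lit 152) (nat_lit 5696230236204) (nat_lit 0) (nat_lit 2928241647347) (nat_lit 1) (nat_lit 5) (nat_lit 3) (nat_lit 4) (nat_lit 1) (nat_lit 4) (nat_lit 286) (nat_lit 208) (nat_lit 166)) (XT.lf (nat_lit 0) (nat_lit 3370466940939)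 (nat_lit 152) (nat_lit 6547455660062) (nat_lit 0) (nat_lit 3369067074867) (nat_lit 1) (nat_lit 5) (nat_lit 3) (nat_lit 4) (nat_lit 1) (nat_lit 4) (nat_lit 287) (nat_lit 208) (nat_lit 165))) (XT.nd (nat_lit 78) (nat_lit 0) (nat_lit 0) (XT.lf (nat_lit 0) (nat_lit 3877415687823) (nat_lit 152) (nat_lit 7526367094972) (nat_lit 0) (nat_lit 3876015372447) (nat_lit 1) (nat_lit 5) (nat_lit 3) (nat_lit 4) (nat_lit 1) (nat_lit 4) (nat_lit 288) (nat_lit 208) (nat_lit 164)) (XT.lf (nat_lit 0) (nat_lit 4460405799810) (nat_lit 152) (nat_lit 8652117155964) (nat_lit 0) (nat_lit 4459005093735) (nat_lit 1) (nat_lit 5) (nat_lit 3) (nat_lit 4) (nat_lit 1) (nat_lit 4) (nat_lit 289) (nat_lit 208) (nat_lit 163)))) (XT.nd (nat_lit 156) (nat_lit 0) (nat_lit 0) (XT.nd (nat_lit 78) (nat_lit 0) (nat_lit 0) (XT.lf (nat_lit 0) (nat_lit 5130843605178) (nat_lit 152) (nat_lit 9946731387711) (nat_lit 0) (nat_lit 5129442559365)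 (nat_lit 1) (nat_lit 5) (nat_lit 3) (nat_lit 4) (nat_lit 1) (nat_lit 4) (nat_lit 290) (nat_lit 208) (nat_lit 162)) (XT.lf (nat_lit 0) (nat_lit 5901846365337) (nat_lit 152) (nat_lit 11435539199094) (nat_lit 0) (nat_lit 5900445024099) (nat_lit 1) (nat_lit 5) (nat_lit 3) (nat_lit 4) (nat_lit 1) (nat_lit 4) (nat_lit 291) (nat_lit 208) (nat_lit 161))) (XT.nd (nat_lit 78) (nat_lit 0) (nat_lit 0) (XT.lf (nat_lit 0) (nat_lit 6788498916897) (nat_lit 152) (nat_lit 13147669438597) (nat_lit 0) (nat_lit 6787097318769) (nat_lit 1) (nat_lit 5) (nat_lit 3) (nat_lit 4) (nat_lit 1) (nat_lit 4) (nat_lit 292) (nat_lit 208) (nat_lit 160)) (XT.nd (nat_lit 78) (nat_lit 0) (nat_lit 0) (XT.lf (nat_lit 0) (nat_lit 7808148809782) (nat_lit 152) (nat_lit 15116620306559) (nat_lit 0) (nat_lit 7806746988270) (nat_lit 1) (nat_lit 5) (nat_lit 3) (nat_lit 4) (nat_lit 1) (nat_lit 4) (nat_lit 293) (nat_lit 208) (nat_lit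 159)) (XT.lf (nat_lit 0) (nat_lit 8980745715809) (nat_lit 152) (nat_lit 17380914754742) (nat_lit 0) (nat_lit 8979343700050) (nat_lit 1) (nat_lit 5) (nat_lit 3) (nat_lit 4) (nat_lit 1) (nat_lit 4) (nat_lit 294) (nat_lit 208) (nat_lit 158))))))) (XT.nd (nat_lit 30654) (nat_lit 0) (nat_lit 0) (XT.nd (nat_lit 30264) (nat_lit 0) (nat_lit 152) (XT.nd (nat_lit 156) (nat_lit 0) (nat_lit 0) (XT.nd (nat_lit 78) (nat_lit 0) (nat_lit 0) (XT.lf (nat_lit 0) (nat_lit 10329231748355) (nat_lit 152) (nat_lit 19984854196265) (nat_lit 0) (nat_lit 10327829563687) (nat_lit 1) (nat_lit 5) (nat_lit 3) (nat_lit 4) (nat_lit 1) (nat_lit 4) (nat_lit 295) (nat_lit 208) (nat_lit 157)) (XT.lf (nat_lit 0) (nat_lit 11879990329798) (nat_lit 152) (nat_lit 22979385272374) (nat_lit 0) (nat_lit 11878587998252) (nat_lit 1) (nat_lit 5) (nat_lit 3) (nat_lit 4) (nat_lit 1) (nat_lit 4) (nat_lit 296) (nat_lit 208) (nat_lit 156)))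 (XT.nd (nat_lit 78) (nat_lit 0) (nat_lit 0) (XT.lf (nat_lit 0) (nat_lit 13663362388905) (nat_lit 152) (nat_lit 26423096634558) (nat_lit 0) (nat_lit 13661959929638) (nat_lit 1) (nat_lit 5) (nat_lit 3) (nat_lit 4) (nat_lit 1) (nat_lit 4) (nat_lit 297) (nat_lit 208) (nat_lit 155)) (XT.lf (nat_lit 0) (nat_lit 15714239987700) (nat_lit 152) (nat_lit 30383365244252) (nat_lit 0) (nat_lit 15712837417373) (nat_lit 1) (nat_lit 5) (nat_lit 3) (nat_lit 4) (nat_lit 1) (nat_lit 4) (nat_lit 298) (nat_lit 208) (nat_lit 154)))) (XT.nd (nat_lit 156) (nat_lit 0) (nat_lit 0) (XT.nd (nat_lit 78) (nat_lit 76) (nat_lit 0) (XT.lf (nat_lit 0) (nat_lit 6208562815) (nat_lit 152) (nat_lit 1524584753) (nat_lit 0) (nat_lit 6208562815) (nat_lit 4) (nat_lit 5) (nat_lit 6) (nat_lit 4) (nat_lit 4) (nat_lit 4) (nat_lit 242) (nat_lit 209) (nat_lit 209)) (XT.lf (nat_lit 0) (nat_lit 4789888702) (nat_lit 76) (nat_lit 13438984721)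 (nat_lit 76) (nat_lit 13196913619) (nat_lit 3) (nat_lit 4) (nat_lit 4) (nat_lit 5) (nat_lit 4) (nat_lit 4) (nat_lit 243) (nat_lit 209) (nat_lit 208))) (XT.nd (nat_lit 78) (nat_lit 0) (nat_lit 0) (XT.lf (nat_lit 0) (nat_lit 13413336359) (nat_lit 76) (nat_lit 11285631454) (nat_lit 76) (nat_lit 10833063742) (nat_lit 3) (nat_lit 4) (nat_lit 4) (nat_lit 5) (nat_lit 4) (nat_lit 4) (nat_lit 244) (nat_lit 209) (nat_lit 207)) (XT.nd (nat_lit 78) (nat_lit 0) (nat_lit 0) (XT.lf (nat_lit 0) (nat_lit 22691906072) (nat_lit 76) (nat_lit 9123492920) (nat_lit 76) (nat_lit 8487884678) (nat_lit 3) (nat_lit 4) (nat_lit 4) (nat_lit 5) (nat_lit 4) (nat_lit 4) (nat_lit 245) (nat_lit 209) (nat_lit 206)) (XT.lf (nat_lit 0) (nat_lit 32807135074) (nat_lit 76) (nat_lit 6910266407) (nat_lit 76) (nat_lit 6115492486) (nat_lit 3) (nat_lit 4) (nat_lit 4) (nat_lit 5) (nat_lit 4) (nat_lit 4) (nat_lit 246) (nat_lit 209)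 (nat_lit 205)))))) (XT.nd (nat_lit 312) (nat_lit 0) (nat_lit 0) (XT.nd (nat_lit 156) (nat_lit 152) (nat_lit 0) (XT.nd (nat_lit 78) (nat_lit 0) (nat_lit 0) (XT.lf (nat_lit 0) (nat_lit 43956930020) (nat_lit 76) (nat_lit 4602649658) (nat_lit 76) (nat_lit 3669470798) (nat_lit 3) (nat_lit 4) (nat_lit 4) (nat_lit 5) (nat_lit 4) (nat_lit 4) (nat_lit 247) (nat_lit 209) (nat_lit 204)) (XT.lf (nat_lit 0) (nat_lit 56359439072) (nat_lit 76) (nat_lit 2155493648) (nat_lit 76) (nat_lit 1101962669) (nat_lit 3) (nat_lit 4) (nat_lit 4) (nat_lit 5) (nat_lit 4) (nat_lit 4) (nat_lit 248) (nat_lit 209) (nat_lit 203))) (XT.nd (nat_lit 78) (nat_lit 0) (nat_lit 0) (XT.lf (nat_lit 0) (nat_lit 1612121155) (nat_lit 152) (nat_lit 65895586805) (nat_lit 0) (nat_lit 605003766) (nat_lit 1) (nat_lit 5) (nat_lit 3) (nat_lit 4) (nat_lit 1) (nat_lit 4) (nat_lit 249) (nat_lit 209) (nat_lit 202)) (XT.lf (nat_lit 0) (nat_lit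 4709730399) (nat_lit 152) (nat_lit 69528626581) (nat_lit 0) (nat_lit 3623479538) (nat_lit 1) (nat_lit 5) (nat_lit 3) (nat_lit 4) (nat_lit 1) (nat_lit 4) (nat_lit 250) (nat_lit 209) (nat_lit 201)))) (XT.nd (nat_lit 156) (nat_lit 0) (nat_lit 0) (XT.nd (nat_lit 78) (nat_lit 0) (nat_lit 0) (XT.lf (nat_lit 0) (nat_lit 8105203435) (nat_lit 152) (nat_lit 74043169410) (nat_lit 0) (nat_lit 6950140858) (nat_lit 1) (nat_lit 5) (nat_lit 3) (nat_lit 4) (nat_lit 1) (nat_lit 4) (nat_lit 251) (nat_lit 209) (nat_lit 200)) (XT.lf (nat_lit 0) (nat_lit 11864973431) (nat_lit 152) (nat_lit 79527543302) (nat_lit 0) (nat_lit 10650074580) (nat_lit 1) (nat_lit 5) (nat_lit 3) (nat_lit 4) (nat_lit 1) (nat_lit 4) (nat_lit 252) (nat_lit 209) (nat_lit 199))) (XT.nd (nat_lit 78) (nat_lit 0) (nat_lit 0) (XT.lf (nat_lit 0) (nat_lit 16062601103) (nat_lit 152) (nat_lit 86089051227) (nat_lit 0) (nat_lit 14795670710) (nat_lit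 1) (nat_lit 5) (nat_lit 3) (nat_lit 4) (nat_lit 1) (nat_lit 4) (nat_lit 253) (nat_lit 209) (nat_lit 198)) (XT.nd (nat_lit 78) (nat_lit 0) (nat_lit 0) (XT.lf (nat_lit 0) (nat_lit 20780213951) (nat_lit 152) (nat_lit 93856070512) (nat_lit 0) (nat_lit 19468038738) (nat_lit 1) (nat_lit 5) (nat_lit 3) (nat_lit 4) (nat_lit 1) (nat_lit 4) (nat_lit 254) (nat_lit 209) (nat_lit 197)) (XT.lf (nat_lit 0) (nat_lit 26110113095) (nat_lit 152) (nat_lit 102980564578) (nat_lit 0) (nat_lit 24758594560) (nat_lit 1) (nat_lit 5) (nat_lit 3) (nat_lit 4) (nat_lit 1) (nat_lit 4) (nat_lit 255) (nat_lit 209) (nat_lit 196))))))))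
noncomputable def xc27 : XT := (XT.nd (nat_lit 1404) (nat_lit 0) (nat_lit 0) (XT.nd (nat_lit 702) (nat_lit 0) (nat_lit 0) (XT.nd (nat_lit 312) (nat_lit 0) (nat_lit 0) (XT.nd (nat_lit 156) (nat_lit 0) (nat_lit 0) (XT.nd (nat_lit 78) (nat_lit 0) (nat_lit 0) (XT.lf (nat_lit 0) (nat_lit 32156579170) (nat_lit 152) (nat_lit 113641056135) (nat_lit 0) (nat_lit 30770849051) (nat_lit 1) (nat_lit 5) (nat_lit 3) (nat_lit 4) (nat_lit 1) (nat_lit 4) (nat_lit 256) (nat_lit 209) (nat_lit 195)) (XT.lf (nat_lit 0) (nat_lit 39037912599) (nat_lit 152) (nat_lit 126046120019) (nat_lit 0) (nat_lit 37622433277) (nat_lit 1) (nat_lit 5) (nat_lit 3) (nat_lit 4) (nat_lit 1) (nat_lit 4) (nat_lit 257) (nat_lit 209) (nat_lit 194))) (XT.nd (nat_lit 78) (nat_lit 0) (nat_lit 0) (XT.lf (nat_lit 0) (nat_lit 46888748168) (nat_lit 152) (nat_lit 140438464000) (nat_lit 0) (nat_lit 45447399973) (nat_lit 1) (nat_lit 5) (nat_lit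 3) (nat_lit 4) (nat_lit 1) (nat_lit 4) (nat_lit 258) (nat_lit 209) (nat_lit 193)) (XT.lf (nat_lit 0) (nat_lit 55862689180) (nat_lit 152) (nat_lit 157099677418) (nat_lit 0) (nat_lit 54398846314) (nat_lit 1) (nat_lit 5) (nat_lit 3) (nat_lit 4) (nat_lit 1) (nat_lit 4) (nat_lit 259) (nat_lit 209) (nat_lit 192)))) (XT.nd (nat_lit 156) (nat_lit 0) (nat_lit 0) (XT.nd (nat_lit 78) (nat_lit 0) (nat_lit 0) (XT.lf (nat_lit 0) (nat_lit 66135312743) (nat_lit 152) (nat_lit 176355740534) (nat_lit 0) (nat_lit 64651909293) (nat_lit 1) (nat_lit 5) (nat_lit 3) (nat_lit 4) (nat_lit 1) (nat_lit 4) (nat_lit 260) (nat_lit 209) (nat_lit 191)) (XT.lf (nat_lit 0) (nat_lit 77907604970) (nat_lit 152) (nat_lit 198583402411) (nat_lit 0) (nat_lit 76407192315) (nat_lit 1) (nat_lit 5) (nat_lit 3) (nat_lit 4) (nat_lit 1) (nat_lit 4) (nat_lit 261) (nat_lit 209) (nat_lit 190))) (XT.nd (nat_lit 78) (nat_lit 0) (nat_lit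 0) (XT.lf (nat_lit 0) (nat_lit 91409893316) (nat_lit 152) (nat_lit 224217552085) (nat_lit 0) (nat_lit 89894690050) (nat_lit 1) (nat_lit 5) (nat_lit 3) (nat_lit 4) (nat_lit 1) (nat_lit 4) (nat_lit 262) (nat_lit 209) (nat_lit 189)) (XT.nd (nat_lit 78) (nat_lit 0) (nat_lit 0) (XT.lf (nat_lit 0) (nat_lit 106906352990) (nat_lit 152) (nat_lit 253759727266) (nat_lit 0) (nat_lit 105378288323) (nat_lit 1) (nat_lit 5) (nat_lit 3) (nat_lit 4) (nat_lit 1) (nat_lit 4) (nat_lit 263) (nat_lit 209) (nat_lit 188)) (XT.lf (nat_lit 0) (nat_lit 124700175593) (nat_lit 152) (nat_lit 287787927035) (nat_lit 0) (nat_lit 123160927098) (nat_lit 1) (nat_lit 5) (nat_lit 3) (nat_lit 4) (nat_lit 1) (nat_lit 4) (nat_lit 264) (nat_lit 209) (nat_lit 187)))))) (XT.nd (nat_lit 312) (nat_lit 0) (nat_lit 0) (XT.nd (nat_lit 156) (nat_lit 0) (nat_lit 0) (XT.nd (nat_lit 78) (nat_lit 0) (nat_lit 0) (XT.lf (nat_lit 0) (nat_lit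 145139501133) (nat_lit 152) (nat_lit 326967920517) (nat_lit 0) (nat_lit 143590527571) (nat_lit 1) (nat_lit 5) (nat_lit 3) (nat_lit 4) (nat_lit 1) (nat_lit 4) (nat_lit 265) (nat_lit 209) (nat_lit 186)) (XT.lf (nat_lit 0) (nat_lit 168624229458) (nat_lit 152) (nat_lit 372066272802) (nat_lit 0) (nat_lit 167066799315) (nat_lit 1) (nat_lit 5) (nat_lit 3) (nat_lit 4) (nat_lit 1) (nat_lit 4) (nat_lit 266) (nat_lit 209) (nat_lit 185))) (XT.nd (nat_lit 78) (nat_lit 0) (nat_lit 0) (XT.lf (nat_lit 0) (nat_lit 195613844381) (nat_lit 152) (nat_lit 423965342957) (nat_lit 0) (nat_lit 194049060690) (nat_lit 1) (nat_lit 5) (nat_lit 3) (nat_lit 4) (nat_lit 1) (nat_lit 4) (nat_lit 267) (nat_lit 209) (nat_lit 184)) (XT.lf (nat_lit 0) (nat_lit 226636403587) (nat_lit 152) (nat_lit 483680547571) (nat_lit 0) (nat_lit 225065225507) (nat_lit 1) (nat_lit 5) (nat_lit 3) (nat_lit 4) (nat_lit 1) (nat_lit 4) (nat_lit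 268) (nat_lit 209) (nat_lit 183)))) (XT.nd (nat_lit 156) (nat_lit 0) (nat_lit 0) (XT.nd (nat_lit 78) (nat_lit 0) (nat_lit 0) (XT.lf (nat_lit 0) (nat_lit 262298870191) (nat_lit 152) (nat_lit 552380227605) (nat_lit 0) (nat_lit 260722131772) (nat_lit 1) (nat_lit 5) (nat_lit 3) (nat_lit 4) (nat_lit 1) (nat_lit 4) (nat_lit 269) (nat_lit 209) (nat_lit 182)) (XT.lf (nat_lit 0) (nat_lit 303298988104) (nat_lit 152) (nat_lit 631408507233) (nat_lit 0) (nat_lit 301717414608) (nat_lit 1) (nat_lit 5) (nat_lit 3) (nat_lit 4) (nat_lit 1) (nat_lit 4) (nat_lit 270) (nat_lit 209) (nat_lit 181))) (XT.nd (nat_lit 78) (nat_lit 0) (nat_lit 0) (XT.lf (nat_lit 0) (nat_lit 350438933547) (nat_lit 152) (nat_lit 722311591925) (nat_lit 0) (nat_lit 348853155635) (nat_lit 1) (nat_lit 5) (nat_lit 3) (nat_lit 4) (nat_lit 1) (nat_lit 4) (nat_lit 271) (nat_lit 209) (nat_lit 180)) (XT.nd (nat_lit 78) (nat_lit 0) (nat_lit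 0) (XT.lf (nat_lit 0) (nat_lit 404641009799) (nat_lit 152) (nat_lit 826868020297) (nat_lit 0) (nat_lit 403051575875) (nat_lit 1) (nat_lit 5) (nat_lit 3) (nat_lit 4) (nat_lit 1) (nat_lit 4) (nat_lit 272) (nat_lit 209) (nat_lit 179)) (XT.lf (nat_lit 0) (nat_lit 466965692266) (nat_lit 152) (nat_lit 947123461597) (nat_lit 0) (nat_lit 465373079200) (nat_lit 1) (nat_lit 5) (nat_lit 3) (nat_lit 4) (nat_lit 1) (nat_lit 4) (nat_lit 273) (nat_lit 209) (nat_lit 178))))))) (XT.nd (nat_lit 702) (nat_lit 0) (nat_lit 0) (XT.nd (nat_lit 312) (nat_lit 0) (nat_lit 0) (XT.nd (nat_lit 156) (nat_lit 0) (nat_lit 0) (XT.nd (nat_lit 78) (nat_lit 0) (nat_lit 0) (XT.lf (nat_lit 0) (nat_lit 538632376910) (nat_lit 152) (nat_lit 1085430739679) (nat_lit 0) (nat_lit 537036999372) (nat_lit 1) (nat_lit 5) (nat_lit 3) (nat_lit 4) (nat_lit 1) (nat_lit 4) (nat_lit 274) (nat_lit 209) (nat_lit 177)) (XT.lf (nat_lit 0) (nat_lit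 621043237994) (nat_lit 152) (nat_lit 1244495866503) (nat_lit 0) (nat_lit 619445456568) (nat_lit 1) (nat_lit 5) (nat_lit 3) (nat_lit 4) (nat_lit 1) (nat_lit 4) (nat_lit 275) (nat_lit 209) (nat_lit 176))) (XT.nd (nat_lit 78) (nat_lit 0) (nat_lit 0) (XT.lf (nat_lit 0) (nat_lit 715810661931) (nat_lit 152) (nat_lit 1427430985857) (nat_lit 0) (nat_lit 714210790168) (nat_lit 1) (nat_lit 5) (nat_lit 3) (nat_lit 4) (nat_lit 1) (nat_lit 4) (nat_lit 276) (nat_lit 209) (nat_lit 175)) (XT.lf (nat_lit 0) (nat_lit 824788793972) (nat_lit 152) (nat_lit 1637815263118) (nat_lit 0) (nat_lit 823187104525) (nat_lit 1) (nat_lit 5) (nat_lit 3) (nat_lit 4) (nat_lit 1) (nat_lit 4) (nat_lit 277) (nat_lit 209) (nat_lit 174)))) (XT.nd (nat_lit 156) (nat_lit 0) (nat_lit 0) (XT.nd (nat_lit 78) (nat_lit 0) (nat_lit 0) (XT.lf (nat_lit 0) (nat_lit 950109814962) (nat_lit 152) (nat_lit 1879764912408) (nat_lit 0) (nat_lit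 948506544920) (nat_lit 1) (nat_lit 5) (nat_lit 3) (nat_lit 4) (nat_lit 1) (nat_lit 4) (nat_lit 278) (nat_lit 209) (nat_lit 173)) (XT.lf (nat_lit 0) (nat_lit 1094225657921) (nat_lit 152) (nat_lit 2158013731211) (nat_lit 0) (nat_lit 1092621013447) (nat_lit 1) (nat_lit 5) (nat_lit 3) (nat_lit 4) (nat_lit 1) (nat_lit 4) (nat_lit 279) (nat_lit 209) (nat_lit 172))) (XT.nd (nat_lit 78) (nat_lit 0) (nat_lit 0) (XT.lf (nat_lit 0) (nat_lit 1259955980643) (nat_lit 152) (nat_lit 2478005718157) (nat_lit 0) (nat_lit 1258350141013) (nat_lit 1) (nat_lit 5) (nat_lit 3) (nat_lit 4) (nat_lit 1) (nat_lit 4) (nat_lit 280) (nat_lit 209) (nat_lit 171)) (XT.nd (nat_lit 78) (nat_lit 0) (nat_lit 0) (XT.lf (nat_lit 0) (nat_lit 1450543332924) (nat_lit 152) (nat_lit 2846001586034) (nat_lit 0) (nat_lit 1448936454026) (nat_lit 1) (nat_lit 5) (nat_lit 3) (nat_lit 4) (nat_lit 1) (nat_lit 4) (nat_lit 281) (nat_lit 209)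 (nat_lit 170)) (XT.lf (nat_lit 0) (nat_lit 1669716597741) (nat_lit 152) (nat_lit 3269201253996) (nat_lit 0) (nat_lit 1668108815133) (nat_lit 1) (nat_lit 5) (nat_lit 3) (nat_lit 4) (nat_lit 1) (nat_lit 4) (nat_lit 282) (nat_lit 209) (nat_lit 169)))))) (XT.nd (nat_lit 312) (nat_lit 0) (nat_lit 0) (XT.nd (nat_lit 156) (nat_lit 0) (nat_lit 0) (XT.nd (nat_lit 78) (nat_lit 0) (nat_lit 0) (XT.lf (nat_lit 0) (nat_lit 1921763947667) (nat_lit 152) (nat_lit 3755884715547) (nat_lit 0) (nat_lit 1920155379224) (nat_lit 1) (nat_lit 5) (nat_lit 3) (nat_lit 4) (nat_lit 1) (nat_lit 4) (nat_lit 283) (nat_lit 209) (nat_lit 168)) (XT.lf (nat_lit 0) (nat_lit 2211616743897) (nat_lit 152) (nat_lit 4315574038412) (nat_lit 0) (nat_lit 2210007492118) (nat_lit 1) (nat_lit 5) (nat_lit 3) (nat_lit 4) (nat_lit 1) (nat_lit 4) (nat_lit 284) (nat_lit 209) (nat_lit 167))) (XT.nd (nat_lit 78) (nat_lit 0) (nat_lit 0) (XT.lf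 (nat_lit 0) (nat_lit 2544946019400) (nat_lit 152) (nat_lit 4959219665866) (nat_lit 0) (nat_lit 2543336173417) (nat_lit 1) (nat_lit 5) (nat_lit 3) (nat_lit 4) (nat_lit 1) (nat_lit 4) (nat_lit 285) (nat_lit 209) (nat_lit 166)) (XT.lf (nat_lit 0) (nat_lit 2928273433914) (nat_lit 152) (nat_lit 5699414664531) (nat_lit 0) (nat_lit 2926663071232) (nat_lit 1) (nat_lit 5) (nat_lit 3) (nat_lit 4) (nat_lit 1) (nat_lit 4) (nat_lit 286) (nat_lit 209) (nat_lit 165)))) (XT.nd (nat_lit 156) (nat_lit 0) (nat_lit 0) (XT.nd (nat_lit 78) (nat_lit 0) (nat_lit 0) (XT.lf (nat_lit 0) (nat_lit 3369098871637) (nat_lit 152) (nat_lit 6550641110470) (nat_lit 0) (nat_lit 3367488059650) (nat_lit 1) (nat_lit 5) (nat_lit 3) (nat_lit 4) (nat_lit 1) (nat_lit 4) (nat_lit 287) (nat_lit 209) (nat_lit 164)) (XT.lf (nat_lit 0) (nat_lit 3876047178088) (nat_lit 152) (nat_lit 7529553434145) (nat_lit 0) (nat_lit 3874435975403)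 (nat_lit 1) (nat_lit 5) (nat_lit 3) (nat_lit 4) (nat_lit 1) (nat_lit 4) (nat_lit 288) (nat_lit 209) (nat_lit 163))) (XT.nd (nat_lit 78) (nat_lit 0) (nat_lit 0) (XT.lf (nat_lit 0) (nat_lit 4459036907090) (nat_lit 152) (nat_lit 8655304267978) (nat_lit 0) (nat_lit 4457425364667) (nat_lit 1) (nat_lit 5) (nat_lit 3) (nat_lit 4) (nat_lit 1) (nat_lit 4) (nat_lit 289) (nat_lit 209) (nat_lit 162)) (XT.nd (nat_lit 78) (nat_lit 0) (nat_lit 0) (XT.lf (nat_lit 0) (nat_lit 5129474379428) (nat_lit 152) (nat_lit 9949919171759) (nat_lit 0) (nat_lit 5127862541580) (nat_lit 1) (nat_lit 5) (nat_lit 3) (nat_lit 4) (nat_lit 1) (nat_lit 4) (nat_lit 290) (nat_lit 209) (nat_lit 161)) (XT.lf (nat_lit 0) (nat_lit 5900476849995) (nat_lit 152) (nat_lit 11438727567520) (nat_lit 0) (nat_lit 5898864755256) (nat_lit 1) (nat_lit 5) (nat_lit 3) (nat_lit 4) (nat_lit 1) (nat_lit 4) (nat_lit 291) (nat_lit 209) (nat_lit 160))))))))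
noncomputable def xc28 : XT := (XT.nd (nat_lit 30654) (nat_lit 0) (nat_lit 0) (XT.nd (nat_lit 624) (nat_lit 0) (nat_lit 0) (XT.nd (nat_lit 312) (nat_lit 0) (nat_lit 0) (XT.nd (nat_lit 156) (nat_lit 0) (nat_lit 0) (XT.nd (nat_lit 78) (nat_lit 0) (nat_lit 0) (XT.lf (nat_lit 0) (nat_lit 6787129149738) (nat_lit 152) (nat_lit 13150858315178) (nat_lit 0) (nat_lit 6785516831615) (nat_lit 1) (nat_lit 5) (nat_lit 3) (nat_lit 4) (nat_lit 1) (nat_lit 4) (nat_lit 292) (nat_lit 209) (nat_lit 159)) (XT.lf (nat_lit 0) (nat_lit 7806778823650) (nat_lit 152) (nat_lit 15119809625013) (nat_lit 0) (nat_lit 7805166311281) (nat_lit 1) (nat_lit 5) (nat_lit 3) (nat_lit 4) (nat_lit 1) (nat_lit 4) (nat_lit 293) (nat_lit 209) (nat_lit 158))) (XT.nd (nat_lit 78) (nat_lit 0) (nat_lit 0) (XT.lf (nat_lit 0) (nat_lit 8979375539265) (nat_lit 152) (nat_lit 17384104457434) (nat_lit 0) (nat_lit 8977762857987) (nat_lit 1)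 (nat_lit 5) (nat_lit 3) (nat_lit 4) (nat_lit 1) (nat_lit 4) (nat_lit 294) (nat_lit 209) (nat_lit 157)) (XT.lf (nat_lit 0) (nat_lit 10327861406237) (nat_lit 152) (nat_lit 19988044233077) (nat_lit 0) (nat_lit 10326248578080) (nat_lit 1) (nat_lit 5) (nat_lit 3) (nat_lit 4) (nat_lit 1) (nat_lit 4) (nat_lit 295) (nat_lit 209) (nat_lit 156)))) (XT.nd (nat_lit 156) (nat_lit 0) (nat_lit 0) (XT.nd (nat_lit 78) (nat_lit 0) (nat_lit 0) (XT.lf (nat_lit 0) (nat_lit 11878619843702) (nat_lit 152) (nat_lit 22982575599725) (nat_lit 0) (nat_lit 11877006887825) (nat_lit 1) (nat_lit 5) (nat_lit 3) (nat_lit 4) (nat_lit 1) (nat_lit 4) (nat_lit 296) (nat_lit 209) (nat_lit 155)) (XT.lf (nat_lit 0) (nat_lit 13661991777610) (nat_lit 152) (nat_lit 26426287214552) (nat_lit 0) (nat_lit 13660378710672) (nat_lit 1) (nat_lit 5) (nat_lit 3) (nat_lit 4) (nat_lit 1) (nat_lit 4) (nat_lit 297) (nat_lit 209) (nat_lit 154)))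 (XT.nd (nat_lit 78) (nat_lit 0) (nat_lit 0) (XT.lf (nat_lit 0) (nat_lit 15712869267538) (nat_lit 152) (nat_lit 30386556043935) (nat_lit 0) (nat_lit 15711256104025) (nat_lit 1) (nat_lit 5) (nat_lit 3) (nat_lit 4) (nat_lit 1) (nat_lit 4) (nat_lit 298) (nat_lit 209) (nat_lit 153)) (XT.lf (nat_lit 0) (nat_lit 18071378177418) (nat_lit 152) (nat_lit 34940865608449) (nat_lit 0) (nat_lit 18069764929927) (nat_lit 1) (nat_lit 5) (nat_lit 3) (nat_lit 4) (nat_lit 1) (nat_lit 4) (nat_lit 299) (nat_lit 209) (nat_lit 152))))) (XT.nd (nat_lit 312) (nat_lit 0) (nat_lit 0) (XT.nd (nat_lit 156) (nat_lit 0) (nat_lit 0) (XT.nd (nat_lit 78) (nat_lit 0) (nat_lit 0) (XT.lf (nat_lit 0) (nat_lit 20783663246793) (nat_lit 152) (nat_lit 40178321964791) (nat_lit 0) (nat_lit 20782049926278) (nat_lit 1) (nat_lit 5) (nat_lit 3) (nat_lit 4) (nat_lit 1) (nat_lit 4) (nat_lit 300) (nat_lit 209) (nat_lit 151)) (XT.lf (nat_lit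 0) (nat_lit 23902790922672) (nat_lit 152) (nat_lit 46201397085150) (nat_lit 0) (nat_lit 23901177538657) (nat_lit 1) (nat_lit 5) (nat_lit 3) (nat_lit 4) (nat_lit 1) (nat_lit 4) (nat_lit 301) (nat_lit 209) (nat_lit 150))) (XT.nd (nat_lit 78) (nat_lit 0) (nat_lit 0) (XT.lf (nat_lit 0) (nat_lit 27489787616105) (nat_lit 152) (nat_lit 53127933743620) (nat_lit 0) (nat_lit 27488174176873) (nat_lit 1) (nat_lit 5) (nat_lit 3) (nat_lit 4) (nat_lit 1) (nat_lit 4) (nat_lit 302) (nat_lit 209) (nat_lit 149)) (XT.lf (nat_lit 0) (nat_lit 31614833697179) (nat_lit 152) (nat_lit 61093451135693) (nat_lit 0) (nat_lit 31613220209933) (nat_lit 1) (nat_lit 5) (nat_lit 3) (nat_lit 4) (nat_lit 1) (nat_lit 4) (nat_lit 303) (nat_lit 209) (nat_lit 148)))) (XT.nd (nat_lit 29484) (nat_lit 0) (nat_lit 152) (XT.nd (nat_lit 29406) (nat_lit 0) (nat_lit 228) (XT.lf (nat_lit 0) (nat_lit 36358636589222) (nat_lit 152) (nat_lit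 70253796340779) (nat_lit 0) (nat_lit 36357023060223) (nat_lit 1) (nat_lit 5) (nat_lit 3) (nat_lit 4) (nat_lit 1) (nat_lit 4) (nat_lit 304) (nat_lit 209) (nat_lit 147)) (XT.lf (nat_lit 0) (nat_lit 1373222767) (nat_lit 152) (nat_lit 8354014867) (nat_lit 0) (nat_lit 1373222767) (nat_lit 4) (nat_lit 5) (nat_lit 6) (nat_lit 4) (nat_lit 4) (nat_lit 4) (nat_lit 240) (nat_lit 210) (nat_lit 210))) (XT.nd (nat_lit 78) (nat_lit 76) (nat_lit 0) (XT.lf (nat_lit 0) (nat_lit 7471878217) (nat_lit 152) (nat_lit 10163728882) (nat_lit 0) (nat_lit 7193496450) (nat_lit 4) (nat_lit 5) (nat_lit 6) (nat_lit 4) (nat_lit 4) (nat_lit 4) (nat_lit 241) (nat_lit 210) (nat_lit 209)) (XT.nd (nat_lit 78) (nat_lit 76) (nat_lit 0) (XT.lf (nat_lit 0) (nat_lit 12512360960) (nat_lit 152) (nat_lit 3406896989) (nat_lit 0) (nat_lit 11991908091) (nat_lit 4) (nat_lit 5) (nat_lit 6) (nat_lit 4) (nat_lit 4) (nat_lit 4) (nat_lit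 242) (nat_lit 210) (nat_lit 208)) (XT.lf (nat_lit 0) (nat_lit 4055734346) (nat_lit 76) (nat_lit 14078716867) (nat_lit 76) (nat_lit 13347767388) (nat_lit 3) (nat_lit 4) (nat_lit 4) (nat_lit 5) (nat_lit 4) (nat_lit 4) (nat_lit 243) (nat_lit 210) (nat_lit 207))))))) (XT.nd (nat_lit 702) (nat_lit 0) (nat_lit 0) (XT.nd (nat_lit 312) (nat_lit 152) (nat_lit 0) (XT.nd (nat_lit 156) (nat_lit 0) (nat_lit 0) (XT.nd (nat_lit 78) (nat_lit 0) (nat_lit 0) (XT.lf (nat_lit 0) (nat_lit 12382254053) (nat_lit 76) (nat_lit 12071511379) (nat_lit 76) (nat_lit 11157521369) (nat_lit 3) (nat_lit 4) (nat_lit 4) (nat_lit 5) (nat_lit 4) (nat_lit 4) (nat_lit 244) (nat_lit 210) (nat_lit 206)) (XT.lf (nat_lit 0) (nat_lit 21402625548) (nat_lit 76) (nat_lit 10036457869) (nat_lit 76) (nat_lit 8963302180) (nat_lit 3) (nat_lit 4) (nat_lit 4) (nat_lit 5) (nat_lit 4) (nat_lit 4) (nat_lit 245) (nat_lit 210) (nat_lit 205)))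 (XT.nd (nat_lit 78) (nat_lit 0) (nat_lit 0) (XT.lf (nat_lit 0) (nat_lit 31293334361) (nat_lit 76) (nat_lit 7933740072) (nat_lit 76) (nat_lit 6722179446) (nat_lit 3) (nat_lit 4) (nat_lit 4) (nat_lit 5) (nat_lit 4) (nat_lit 4) (nat_lit 246) (nat_lit 210) (nat_lit 204)) (XT.lf (nat_lit 0) (nat_lit 42247894360) (nat_lit 76) (nat_lit 5722217859) (nat_lit 76) (nat_lit 4390305112) (nat_lit 3) (nat_lit 4) (nat_lit 4) (nat_lit 5) (nat_lit 4) (nat_lit 4) (nat_lit 247) (nat_lit 210) (nat_lit 203)))) (XT.nd (nat_lit 156) (nat_lit 76) (nat_lit 0) (XT.nd (nat_lit 78) (nat_lit 76) (nat_lit 0) (XT.lf (nat_lit 0) (nat_lit 54480633892) (nat_lit 76) (nat_lit 3358622315) (nat_lit 76) (nat_lit 1922055551) (nat_lit 3) (nat_lit 4) (nat_lit 4) (nat_lit 5) (nat_lit 4) (nat_lit 4) (nat_lit 248) (nat_lit 210) (nat_lit 202)) (XT.lf (nat_lit 0) (nat_lit 665794768) (nat_lit 152) (nat_lit 96111505) (nat_lit 76) (nat_lit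 67530291489) (nat_lit 2) (nat_lit 5) (nat_lit 4) (nat_lit 5) (nat_lit 3) (nat_lit 4) (nat_lit 249) (nat_lit 210) (nat_lit 201))) (XT.nd (nat_lit 78) (nat_lit 0) (nat_lit 0) (XT.lf (nat_lit 0) (nat_lit 3649707385) (nat_lit 152) (nat_lit 72156173646) (nat_lit 0) (nat_lit 2252573707) (nat_lit 1) (nat_lit 5) (nat_lit 3) (nat_lit 4) (nat_lit 1) (nat_lit 4) (nat_lit 250) (nat_lit 210) (nat_lit 200)) (XT.nd (nat_lit 78) (nat_lit 0) (nat_lit 0) (XT.lf (nat_lit 0) (nat_lit 6977727400) (nat_lit 152) (nat_lit 76806832586) (nat_lit 0) (nat_lit 5520757448) (nat_lit 1) (nat_lit 5) (nat_lit 3) (nat_lit 4) (nat_lit 1) (nat_lit 4) (nat_lit 251) (nat_lit 210) (nat_lit 199)) (XT.lf (nat_lit 0) (nat_lit 10678842595) (nat_lit 152) (nat_lit 82409568315) (nat_lit 0) (nat_lit 9169841099) (nat_lit 1) (nat_lit 5) (nat_lit 3) (nat_lit 4) (nat_lit 1) (nat_lit 4) (nat_lit 252) (nat_lit 210) (nat_lit 198)))))) (XT.nd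 (nat_lit 312) (nat_lit 0) (nat_lit 0) (XT.nd (nat_lit 156) (nat_lit 0) (nat_lit 0) (XT.nd (nat_lit 78) (nat_lit 0) (nat_lit 0) (XT.lf (nat_lit 0) (nat_lit 14825466092) (nat_lit 152) (nat_lit 89073999575) (nat_lit 0) (nat_lit 13271219777) (nat_lit 1) (nat_lit 5) (nat_lit 3) (nat_lit 4) (nat_lit 1) (nat_lit 4) (nat_lit 253) (nat_lit 210) (nat_lit 197)) (XT.lf (nat_lit 0) (nat_lit 19498727484) (nat_lit 152) (nat_lit 96930517413) (nat_lit 0) (nat_lit 17905137847) (nat_lit 1) (nat_lit 5) (nat_lit 3) (nat_lit 4) (nat_lit 1) (nat_lit 4) (nat_lit 254) (nat_lit 210) (nat_lit 196))) (XT.nd (nat_lit 78) (nat_lit 0) (nat_lit 0) (XT.lf (nat_lit 0) (nat_lit 24790060144) (nat_lit 152) (nat_lit 106132836307) (nat_lit 0) (nat_lit 23162258923) (nat_lit 1) (nat_lit 5) (nat_lit 3) (nat_lit 4) (nat_lit 1) (nat_lit 4) (nat_lit 255) (nat_lit 210) (nat_lit 195)) (XT.lf (nat_lit 0) (nat_lit 30802990146) (nat_lit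 152) (nat_lit 116861001629) (nat_lit 0) (nat_lit 29145439722) (nat_lit 1) (nat_lit 5) (nat_lit 3) (nat_lit 4) (nat_lit 1) (nat_lit 4) (nat_lit 256) (nat_lit 210) (nat_lit 194)))) (XT.nd (nat_lit 156) (nat_lit 0) (nat_lit 0) (XT.nd (nat_lit 78) (nat_lit 0) (nat_lit 0) (XT.lf (nat_lit 0) (nat_lit 37655161773) (nat_lit 152) (nat_lit 129324912263) (nat_lit 0) (nat_lit 35971742476) (nat_lit 1) (nat_lit 5) (nat_lit 3) (nat_lit 4) (nat_lit 1) (nat_lit 4) (nat_lit 257) (nat_lit 210) (nat_lit 193)) (XT.lf (nat_lit 0) (nat_lit 45480639252) (nat_lit 152) (nat_lit 143768427333) (nat_lit 0) (nat_lit 43774725284) (nat_lit 1) (nat_lit 5) (nat_lit 3) (nat_lit 4) (nat_lit 1) (nat_lit 4) (nat_lit 258) (nat_lit 210) (nat_lit 192))) (XT.nd (nat_lit 78) (nat_lit 0) (nat_lit 0) (XT.lf (nat_lit 0) (nat_lit 54432529753) (nat_lit 152) (nat_lit 160474137349) (nat_lit 0) (nat_lit 52707055200) (nat_lit 1) (nat_lit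 5) (nat_lit 3) (nat_lit 4) (nat_lit 1) (nat_lit 4) (nat_lit 259) (nat_lit 210) (nat_lit 191)) (XT.nd (nat_lit 78) (nat_lit 0) (nat_lit 0) (XT.lf (nat_lit 0) (nat_lit 64685978957) (nat_lit 152) (nat_lit 179768893160) (nat_lit 0) (nat_lit 62943495201) (nat_lit 1) (nat_lit 5) (nat_lit 3) (nat_lit 4) (nat_lit 1) (nat_lit 4) (nat_lit 260) (nat_lit 210) (nat_lit 190)) (XT.lf (nat_lit 0) (nat_lit 76441597828) (nat_lit 152) (nat_lit 202030200858) (nat_lit 0) (nat_lit 74684323460) (nat_lit 1) (nat_lit 5) (nat_lit 3) (nat_lit 4) (nat_lit 1) (nat_lit 4) (nat_lit 261) (nat_lit 210) (nat_lit 189))))))))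
noncomputable def xc29 : XT := (XT.nd (nat_lit 1404) (nat_lit 0) (nat_lit 0) (XT.nd (nat_lit 702) (nat_lit 0) (nat_lit 0) (XT.nd (nat_lit 312) (nat_lit 0) (nat_lit 0) (XT.nd (nat_lit 156) (nat_lit 0) (nat_lit 0) (XT.nd (nat_lit 78) (nat_lit 0) (nat_lit 0) (XT.lf (nat_lit 0) (nat_lit 89929387605) (nat_lit 152) (nat_lit 227693607767) (nat_lit 0) (nat_lit 88159251836) (nat_lit 1) (nat_lit 5) (nat_lit 3) (nat_lit 4) (nat_lit 1) (nat_lit 4) (nat_lit 262) (nat_lit 210) (nat_lit 188)) (XT.lf (nat_lit 0) (nat_lit 105413239827) (nat_lit 152) (nat_lit 257261224023) (nat_lit 0) (nat_lit 103631920230) (nat_lit 1) (nat_lit 5) (nat_lit 3) (nat_lit 4) (nat_lit 1) (nat_lit 4) (nat_lit 263) (nat_lit 210) (nat_lit 187))) (XT.nd (nat_lit 78) (nat_lit 0) (nat_lit 0) (XT.lf (nat_lit 0) (nat_lit 123196099428) (nat_lit 152) (nat_lit 291311546465) (nat_lit 0) (nat_lit 121405054764) (nat_lit 1) (nat_lit 5) (nat_lit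 3) (nat_lit 4) (nat_lit 1) (nat_lit 4) (nat_lit 264) (nat_lit 210) (nat_lit 186)) (XT.lf (nat_lit 0) (nat_lit 143625891923) (nat_lit 152) (nat_lit 330510777054) (nat_lit 0) (nat_lit 141826390679) (nat_lit 1) (nat_lit 5) (nat_lit 3) (nat_lit 4) (nat_lit 1) (nat_lit 4) (nat_lit 265) (nat_lit 210) (nat_lit 185)))) (XT.nd (nat_lit 156) (nat_lit 0) (nat_lit 0) (XT.nd (nat_lit 78) (nat_lit 0) (nat_lit 0) (XT.lf (nat_lit 0) (nat_lit 167102330643) (nat_lit 152) (nat_lit 375625857259) (nat_lit 0) (nat_lit 165295475851) (nat_lit 1) (nat_lit 5) (nat_lit 3) (nat_lit 4) (nat_lit 1) (nat_lit 4) (nat_lit 266) (nat_lit 210) (nat_lit 184)) (XT.lf (nat_lit 0) (nat_lit 194084737215) (nat_lit 152) (nat_lit 427539473431) (nat_lit 0) (nat_lit 192271488033) (nat_lit 1) (nat_lit 5) (nat_lit 3) (nat_lit 4) (nat_lit 1) (nat_lit 4) (nat_lit 267) (nat_lit 210) (nat_lit 183))) (XT.nd (nat_lit 78) (nat_lit 0) (nat_lit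 0) (XT.lf (nat_lit 0) (nat_lit 225101028290) (nat_lit 152) (nat_lit 487267326755) (nat_lit 0) (nat_lit 223282218769) (nat_lit 1) (nat_lit 5) (nat_lit 3) (nat_lit 4) (nat_lit 1) (nat_lit 4) (nat_lit 268) (nat_lit 210) (nat_lit 182)) (XT.nd (nat_lit 78) (nat_lit 0) (nat_lit 0) (XT.lf (nat_lit 0) (nat_lit 260758044344) (nat_lit 152) (nat_lit 555978005668) (nat_lit 0) (nat_lit 258934399746) (nat_lit 1) (nat_lit 5) (nat_lit 3) (nat_lit 4) (nat_lit 1) (nat_lit 4) (nat_lit 269) (nat_lit 210) (nat_lit 181)) (XT.lf (nat_lit 0) (nat_lit 301753422649) (nat_lit 152) (nat_lit 635015849538) (nat_lit 0) (nat_lit 299925573636) (nat_lit 1) (nat_lit 5) (nat_lit 3) (nat_lit 4) (nat_lit 1) (nat_lit 4) (nat_lit 270) (nat_lit 210) (nat_lit 180)))))) (XT.nd (nat_lit 312) (nat_lit 0) (nat_lit 0) (XT.nd (nat_lit 156) (nat_lit 0) (nat_lit 0) (XT.nd (nat_lit 78) (nat_lit 0) (nat_lit 0) (XT.lf (nat_lit 0) (nat_lit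 348889246693) (nat_lit 152) (nat_lit 725927250963) (nat_lit 0) (nat_lit 347057741667) (nat_lit 1) (nat_lit 5) (nat_lit 3) (nat_lit 4) (nat_lit 1) (nat_lit 4) (nat_lit 271) (nat_lit 210) (nat_lit 179)) (XT.lf (nat_lit 0) (nat_lit 403087739121) (nat_lit 152) (nat_lit 830490911275) (nat_lit 0) (nat_lit 401253054953) (nat_lit 1) (nat_lit 5) (nat_lit 3) (nat_lit 4) (nat_lit 1) (nat_lit 4) (nat_lit 272) (nat_lit 210) (nat_lit 178))) (XT.nd (nat_lit 78) (nat_lit 0) (nat_lit 0) (XT.lf (nat_lit 0) (nat_lit 465409305219) (nat_lit 152) (nat_lit 950752641221) (nat_lit 0) (nat_lit 463571856579) (nat_lit 1) (nat_lit 5) (nat_lit 3) (nat_lit 4) (nat_lit 1) (nat_lit 4) (nat_lit 273) (nat_lit 210) (nat_lit 177)) (XT.lf (nat_lit 0) (nat_lit 537073279976) (nat_lit 152) (nat_lit 1089065387688) (nat_lit 0) (nat_lit 535233427448) (nat_lit 1) (nat_lit 5) (nat_lit 3) (nat_lit 4) (nat_lit 1) (nat_lit 4) (nat_lit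 274) (nat_lit 210) (nat_lit 176)))) (XT.nd (nat_lit 156) (nat_lit 0) (nat_lit 0) (XT.nd (nat_lit 78) (nat_lit 0) (nat_lit 0) (XT.lf (nat_lit 0) (nat_lit 619481784637) (nat_lit 152) (nat_lit 1248135269632) (nat_lit 0) (nat_lit 617639841772) (nat_lit 1) (nat_lit 5) (nat_lit 3) (nat_lit 4) (nat_lit 1) (nat_lit 4) (nat_lit 275) (nat_lit 210) (nat_lit 175)) (XT.lf (nat_lit 0) (nat_lit 714247159510) (nat_lit 152) (nat_lit 1431074523871) (nat_lit 0) (nat_lit 712403398961) (nat_lit 1) (nat_lit 5) (nat_lit 3) (nat_lit 4) (nat_lit 1) (nat_lit 4) (nat_lit 276) (nat_lit 210) (nat_lit 174))) (XT.nd (nat_lit 78) (nat_lit 0) (nat_lit 0) (XT.lf (nat_lit 0) (nat_lit 823223509758) (nat_lit 152) (nat_lit 1641462396686) (nat_lit 0) (nat_lit 821378168613) (nat_lit 1) (nat_lit 5) (nat_lit 3) (nat_lit 4) (nat_lit 1) (nat_lit 4) (nat_lit 277) (nat_lit 210) (nat_lit 173)) (XT.nd (nat_lit 78) (nat_lit 0) (nat_lit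 0) (XT.lf (nat_lit 0) (nat_lit 948542981362) (nat_lit 152) (nat_lit 1883415172543) (nat_lit 0) (nat_lit 946696265786) (nat_lit 1) (nat_lit 5) (nat_lit 3) (nat_lit 4) (nat_lit 1) (nat_lit 4) (nat_lit 278) (nat_lit 210) (nat_lit 172)) (XT.lf (nat_lit 0) (nat_lit 1092657477027) (nat_lit 152) (nat_lit 2161666710101) (nat_lit 0) (nat_lit 1090809566295) (nat_lit 1) (nat_lit 5) (nat_lit 3) (nat_lit 4) (nat_lit 1) (nat_lit 4) (nat_lit 279) (nat_lit 210) (nat_lit 171))))))) (XT.nd (nat_lit 702) (nat_lit 0) (nat_lit 0) (XT.nd (nat_lit 312) (nat_lit 0) (nat_lit 0) (XT.nd (nat_lit 156) (nat_lit 0) (nat_lit 0) (XT.nd (nat_lit 78) (nat_lit 0) (nat_lit 0) (XT.lf (nat_lit 0) (nat_lit 1258386628191) (nat_lit 152) (nat_lit 2481661061181) (nat_lit 0) (nat_lit 1256537678192) (nat_lit 1) (nat_lit 5) (nat_lit 3) (nat_lit 4) (nat_lit 1) (nat_lit 4) (nat_lit 280) (nat_lit 210) (nat_lit 170)) (XT.lf (nat_lit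 0) (nat_lit 1448972961725) (nat_lit 152) (nat_lit 2849658984827) (nat_lit 0) (nat_lit 1447123108015) (nat_lit 1) (nat_lit 5) (nat_lit 3) (nat_lit 4) (nat_lit 1) (nat_lit 4) (nat_lit 281) (nat_lit 210) (nat_lit 169))) (XT.nd (nat_lit 78) (nat_lit 0) (nat_lit 0) (XT.lf (nat_lit 0) (nat_lit 1668145340676) (nat_lit 152) (nat_lit 3272860440415) (nat_lit 0) (nat_lit 1666294701130) (nat_lit 1) (nat_lit 5) (nat_lit 3) (nat_lit 4) (nat_lit 1) (nat_lit 4) (nat_lit 282) (nat_lit 210) (nat_lit 168)) (XT.lf (nat_lit 0) (nat_lit 1920191920283) (nat_lit 152) (nat_lit 3759545456422) (nat_lit 0) (nat_lit 1918340597403) (nat_lit 1) (nat_lit 5) (nat_lit 3) (nat_lit 4) (nat_lit 1) (nat_lit 4) (nat_lit 283) (nat_lit 210) (nat_lit 167)))) (XT.nd (nat_lit 156) (nat_lit 0) (nat_lit 0) (XT.nd (nat_lit 78) (nat_lit 0) (nat_lit 0) (XT.lf (nat_lit 0) (nat_lit 2210044046670) (nat_lit 152) (nat_lit 4319236130989)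 (nat_lit 0) (nat_lit 2208192129586) (nat_lit 1) (nat_lit 5) (nat_lit 3) (nat_lit 4) (nat_lit 1) (nat_lit 4) (nat_lit 284) (nat_lit 210) (nat_lit 166)) (XT.lf (nat_lit 0) (nat_lit 2543372739702) (nat_lit 152) (nat_lit 4962882933835) (nat_lit 0) (nat_lit 2541520305918) (nat_lit 1) (nat_lit 5) (nat_lit 3) (nat_lit 4) (nat_lit 1) (nat_lit 4) (nat_lit 285) (nat_lit 210) (nat_lit 165))) (XT.nd (nat_lit 78) (nat_lit 0) (nat_lit 0) (XT.lf (nat_lit 0) (nat_lit 2926699647719) (nat_lit 152) (nat_lit 5703078954581) (nat_lit 0) (nat_lit 2924846764631) (nat_lit 1) (nat_lit 5) (nat_lit 3) (nat_lit 4) (nat_lit 1) (nat_lit 4) (nat_lit 286) (nat_lit 210) (nat_lit 164)) (XT.nd (nat_lit 78) (nat_lit 0) (nat_lit 0) (XT.lf (nat_lit 0) (nat_lit 3367524645009) (nat_lit 152) (nat_lit 6554306289285) (nat_lit 0) (nat_lit 3365671371222) (nat_lit 1) (nat_lit 5) (nat_lit 3) (nat_lit 4) (nat_lit 1) (nat_lit 4) (nat_lit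 287) (nat_lit 210) (nat_lit 163)) (XT.lf (nat_lit 0) (nat_lit 3874472568476) (nat_lit 152) (nat_lit 7533219385801) (nat_lit 0) (nat_lit 3872618954951) (nat_lit 1) (nat_lit 5) (nat_lit 3) (nat_lit 4) (nat_lit 1) (nat_lit 4) (nat_lit 288) (nat_lit 210) (nat_lit 162)))))) (XT.nd (nat_lit 312) (nat_lit 0) (nat_lit 0) (XT.nd (nat_lit 156) (nat_lit 0) (nat_lit 0) (XT.nd (nat_lit 78) (nat_lit 0) (nat_lit 0) (XT.lf (nat_lit 0) (nat_lit 4457461964448) (nat_lit 152) (nat_lit 8658970891667) (nat_lit 0) (nat_lit 4455608055498) (nat_lit 1) (nat_lit 5) (nat_lit 3) (nat_lit 4) (nat_lit 1) (nat_lit 4) (nat_lit 289) (nat_lit 210) (nat_lit 161)) (XT.lf (nat_lit 0) (nat_lit 5127899147194) (nat_lit 152) (nat_lit 9953586379827) (nat_lit 0) (nat_lit 5126044981354) (nat_lit 1) (nat_lit 5) (nat_lit 3) (nat_lit 4) (nat_lit 1) (nat_lit 4) (nat_lit 290) (nat_lit 210) (nat_lit 160))) (XT.nd (nat_lit 78) (nat_lit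 0) (nat_lit 0) (XT.lf (nat_lit 0) (nat_lit 5898901365943) (nat_lit 152) (nat_lit 11442395283742) (nat_lit 0) (nat_lit 5897046976719) (nat_lit 1) (nat_lit 5) (nat_lit 3) (nat_lit 4) (nat_lit 1) (nat_lit 4) (nat_lit 291) (nat_lit 210) (nat_lit 159)) (XT.lf (nat_lit 0) (nat_lit 6785553446712) (nat_lit 152) (nat_lit 13154526473274) (nat_lit 0) (nat_lit 6783698863242) (nat_lit 1) (nat_lit 5) (nat_lit 3) (nat_lit 4) (nat_lit 1) (nat_lit 4) (nat_lit 292) (nat_lit 210) (nat_lit 158)))) (XT.nd (nat_lit 156) (nat_lit 0) (nat_lit 0) (XT.nd (nat_lit 78) (nat_lit 0) (nat_lit 0) (XT.lf (nat_lit 0) (nat_lit 7805202930214) (nat_lit 152) (nat_lit 15123478167347) (nat_lit 0) (nat_lit 7803348177833) (nat_lit 1) (nat_lit 5) (nat_lit 3) (nat_lit 4) (nat_lit 1) (nat_lit 4) (nat_lit 293) (nat_lit 210) (nat_lit 157)) (XT.lf (nat_lit 0) (nat_lit 8977799480254) (nat_lit 152) (nat_lit 17387773333888) (nat_lit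 0) (nat_lit 8975944580996) (nat_lit 1) (nat_lit 5) (nat_lit 3) (nat_lit 4) (nat_lit 1) (nat_lit 4) (nat_lit 294) (nat_lit 210) (nat_lit 156))) (XT.nd (nat_lit 78) (nat_lit 0) (nat_lit 0) (XT.lf (nat_lit 0) (nat_lit 10326285203248) (nat_lit 152) (nat_lit 19991713400070) (nat_lit 0) (nat_lit 10324430176269) (nat_lit 1) (nat_lit 5) (nat_lit 3) (nat_lit 4) (nat_lit 1) (nat_lit 4) (nat_lit 295) (nat_lit 210) (nat_lit 155)) (XT.nd (nat_lit 78) (nat_lit 0) (nat_lit 0) (XT.lf (nat_lit 0) (nat_lit 11877043515514) (nat_lit 152) (nat_lit 22986245019360) (nat_lit 0) (nat_lit 11875188377475) (nat_lit 1) (nat_lit 5) (nat_lit 3) (nat_lit 4) (nat_lit 1) (nat_lit 4) (nat_lit 296) (nat_lit 210) (nat_lit 154)) (XT.lf (nat_lit 0) (nat_lit 13660415340554) (nat_lit 152) (nat_lit 26429956853877) (nat_lit 0) (nat_lit 13658560105940) (nat_lit 1) (nat_lit 5) (nat_lit 3) (nat_lit 4) (nat_lit 1) (nat_lit 4) (nat_lit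 297) (nat_lit 210) (nat_lit 153))))))))
noncomputable def xc30 : XT := (XT.nd (nat_lit 30576) (nat_lit 0) (nat_lit 0) (XT.nd (nat_lit 29874) (nat_lit 0) (nat_lit 152) (XT.nd (nat_lit 312) (nat_lit 0) (nat_lit 0) (XT.nd (nat_lit 156) (nat_lit 0) (nat_lit 0) (XT.nd (nat_lit 78) (nat_lit 0) (nat_lit 0) (XT.lf (nat_lit 0) (nat_lit 15711292735814) (nat_lit 152) (nat_lit 30390225874294) (nat_lit 0) (nat_lit 15709437417221) (nat_lit 1) (nat_lit 5) (nat_lit 3) (nat_lit 4) (nat_lit 1) (nat_lit 4) (nat_lit 298) (nat_lit 210) (nat_lit 152)) (XT.lf (nat_lit 0) (nat_lit 18069801563375) (nat_lit 152) (nat_lit 34944535604924) (nat_lit 0) (nat_lit 18067946171758) (nat_lit 1) (nat_lit 5) (nat_lit 3) (nat_lit 4) (nat_lit 1) (nat_lit 4) (nat_lit 299) (nat_lit 210) (nat_lit 151))) (XT.nd (nat_lit 78) (nat_lit 0) (nat_lit 0) (XT.lf (nat_lit 0) (nat_lit 20782086561167) (nat_lit 152) (nat_lit 40181992105716)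 (nat_lit 0) (nat_lit 20780231106051) (nat_lit 1) (nat_lit 5) (nat_lit 3) (nat_lit 4) (nat_lit 1) (nat_lit 4) (nat_lit 300) (nat_lit 210) (nat_lit 150)) (XT.lf (nat_lit 0) (nat_lit 23901214174801) (nat_lit 152) (nat_lit 46205067351683) (nat_lit 0) (nat_lit 23899358664467) (nat_lit 1) (nat_lit 5) (nat_lit 3) (nat_lit 4) (nat_lit 1) (nat_lit 4) (nat_lit 301) (nat_lit 210) (nat_lit 149)))) (XT.nd (nat_lit 156) (nat_lit 0) (nat_lit 0) (XT.nd (nat_lit 78) (nat_lit 0) (nat_lit 0) (XT.lf (nat_lit 0) (nat_lit 27488210814106) (nat_lit 152) (nat_lit 53131604119377) (nat_lit 0) (nat_lit 27486355255758) (nat_lit 1) (nat_lit 5) (nat_lit 3) (nat_lit 4) (nat_lit 1) (nat_lit 4) (nat_lit 302) (nat_lit 210) (nat_lit 148)) (XT.lf (nat_lit 0) (nat_lit 31613256848114) (nat_lit 152) (nat_lit 61097121606428) (nat_lit 0) (nat_lit 31611401248014) (nat_lit 1) (nat_lit 5) (nat_lit 3) (nat_lit 4) (nat_lit 1) (nat_lit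 4) (nat_lit 303) (nat_lit 210) (nat_lit 147))) (XT.nd (nat_lit 29250) (nat_lit 0) (nat_lit 380) (XT.lf (nat_lit 0) (nat_lit 36357059699229) (nat_lit 152) (nat_lit 70257466894104) (nat_lit 0) (nat_lit 36355204062823) (nat_lit 1) (nat_lit 5) (nat_lit 3) (nat_lit 4) (nat_lit 1) (nat_lit 4) (nat_lit 304) (nat_lit 210) (nat_lit 146)) (XT.nd (nat_lit 78) (nat_lit 0) (nat_lit 0) (XT.lf (nat_lit 0) (nat_lit 3655396720) (nat_lit 76) (nat_lit 2654772646) (nat_lit 76) (nat_lit 2654772646) (nat_lit 6) (nat_lit 4) (nat_lit 7) (nat_lit 5) (nat_lit 7) (nat_lit 4) (nat_lit 238) (nat_lit 211) (nat_lit 211)) (XT.lf (nat_lit 0) (nat_lit 16886976879) (nat_lit 76) (nat_lit 1707841554) (nat_lit 76) (nat_lit 1339681667) (nat_lit 6) (nat_lit 4) (nat_lit 7) (nat_lit 5) (nat_lit 7) (nat_lit 4) (nat_lit 239) (nat_lit 211) (nat_lit 210)))))) (XT.nd (nat_lit 312) (nat_lit 0) (nat_lit 0) (XT.nd (nat_lit 156) (nat_lit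 76) (nat_lit 0) (XT.nd (nat_lit 78) (nat_lit 0) (nat_lit 0) (XT.lf (nat_lit 0) (nat_lit 2855966163) (nat_lit 152) (nat_lit 17119416340) (nat_lit 0) (nat_lit 2257445364) (nat_lit 4) (nat_lit 5) (nat_lit 6) (nat_lit 4) (nat_lit 4) (nat_lit 4) (nat_lit 240) (nat_lit 211) (nat_lit 209)) (XT.lf (nat_lit 0) (nat_lit 7398252407) (nat_lit 152) (nat_lit 10932842969) (nat_lit 0) (nat_lit 6557660506) (nat_lit 4) (nat_lit 5) (nat_lit 6) (nat_lit 4) (nat_lit 4) (nat_lit 4) (nat_lit 241) (nat_lit 211) (nat_lit 208))) (XT.nd (nat_lit 78) (nat_lit 76) (nat_lit 0) (XT.lf (nat_lit 0) (nat_lit 12279477378) (nat_lit 152) (nat_lit 4487078453) (nat_lit 0) (nat_lit 11228388867) (nat_lit 4) (nat_lit 5) (nat_lit 6) (nat_lit 4) (nat_lit 4) (nat_lit 4) (nat_lit 242) (nat_lit 211) (nat_lit 207)) (XT.lf (nat_lit 0) (nat_lit 2573061743) (nat_lit 76) (nat_lit 15128626558) (nat_lit 76) (nat_lit 13894497516) (nat_lit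 3) (nat_lit 4) (nat_lit 4) (nat_lit 5) (nat_lit 4) (nat_lit 4) (nat_lit 243) (nat_lit 211) (nat_lit 206)))) (XT.nd (nat_lit 156) (nat_lit 0) (nat_lit 0) (XT.nd (nat_lit 78) (nat_lit 0) (nat_lit 0) (XT.lf (nat_lit 0) (nat_lit 10641383232) (nat_lit 76) (nat_lit 13248506094) (nat_lit 76) (nat_lit 11855211373) (nat_lit 3) (nat_lit 4) (nat_lit 4) (nat_lit 5) (nat_lit 4) (nat_lit 4) (nat_lit 244) (nat_lit 211) (nat_lit 205)) (XT.lf (nat_lit 0) (nat_lit 19437234539) (nat_lit 76) (nat_lit 11323961300) (nat_lit 76) (nat_lit 9792261641) (nat_lit 3) (nat_lit 4) (nat_lit 4) (nat_lit 5) (nat_lit 4) (nat_lit 4) (nat_lit 245) (nat_lit 211) (nat_lit 204))) (XT.nd (nat_lit 78) (nat_lit 0) (nat_lit 0) (XT.lf (nat_lit 0) (nat_lit 29132708404) (nat_lit 76) (nat_lit 9317338039) (nat_lit 76) (nat_lit 7665286261) (nat_lit 3) (nat_lit 4) (nat_lit 4) (nat_lit 5) (nat_lit 4) (nat_lit 4) (nat_lit 246) (nat_lit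 211) (nat_lit 203)) (XT.nd (nat_lit 78) (nat_lit 0) (nat_lit 0) (XT.lf (nat_lit 0) (nat_lit 39917498884) (nat_lit 76) (nat_lit 7189376292) (nat_lit 76) (nat_lit 5432670496) (nat_lit 3) (nat_lit 4) (nat_lit 4) (nat_lit 5) (nat_lit 4) (nat_lit 4) (nat_lit 247) (nat_lit 211) (nat_lit 202)) (XT.lf (nat_lit 0) (nat_lit 52002612748) (nat_lit 76) (nat_lit 4898442023) (nat_lit 76) (nat_lit 3050732734) (nat_lit 3) (nat_lit 4) (nat_lit 4) (nat_lit 5) (nat_lit 4) (nat_lit 4) (nat_lit 248) (nat_lit 211) (nat_lit 201))))))) (XT.nd (nat_lit 702) (nat_lit 0) (nat_lit 0) (XT.nd (nat_lit 312) (nat_lit 0) (nat_lit 0) (XT.nd (nat_lit 156) (nat_lit 0) (nat_lit 0) (XT.nd (nat_lit 78) (nat_lit 152) (nat_lit 0) (XT.lf (nat_lit 0) (nat_lit 65624497875) (nat_lit 76) (nat_lit 2399712607) (nat_lit 76) (nat_lit 472869845) (nat_lit 3) (nat_lit 4) (nat_lit 4) (nat_lit 5) (nat_lit 4) (nat_lit 4) (nat_lit 249) (nat_lit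 211) (nat_lit 200)) (XT.lf (nat_lit 0) (nat_lit 2285656924) (nat_lit 152) (nat_lit 75470502411) (nat_lit 0) (nat_lit 550305204) (nat_lit 1) (nat_lit 5) (nat_lit 3) (nat_lit 4) (nat_lit 1) (nat_lit 4) (nat_lit 250) (nat_lit 211) (nat_lit 199))) (XT.nd (nat_lit 78) (nat_lit 0) (nat_lit 0) (XT.lf (nat_lit 0) (nat_lit 5555022137) (nat_lit 152) (nat_lit 80239523187) (nat_lit 0) (nat_lit 3767638875) (nat_lit 1) (nat_lit 5) (nat_lit 3) (nat_lit 4) (nat_lit 1) (nat_lit 4) (nat_lit 251) (nat_lit 211) (nat_lit 198)) (XT.lf (nat_lit 0) (nat_lit 9205133157) (nat_lit 152) (nat_lit 85945182251) (nat_lit 0) (nat_lit 7372505075) (nat_lit 1) (nat_lit 5) (nat_lit 3) (nat_lit 4) (nat_lit 1) (nat_lit 4) (nat_lit 252) (nat_lit 211) (nat_lit 197)))) (XT.nd (nat_lit 156) (nat_lit 0) (nat_lit 0) (XT.nd (nat_lit 78) (nat_lit 0) (nat_lit 0) (XT.lf (nat_lit 0) (nat_lit 13307405199) (nat_lit 152) (nat_lit 92699112064)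 (nat_lit 0) (nat_lit 11435433795) (nat_lit 1) (nat_lit 5) (nat_lit 3) (nat_lit 4) (nat_lit 1) (nat_lit 4) (nat_lit 253) (nat_lit 211) (nat_lit 196)) (XT.lf (nat_lit 0) (nat_lit 17942100106) (nat_lit 152) (nat_lit 100633454730) (nat_lit 0) (nat_lit 16035917119) (nat_lit 1) (nat_lit 5) (nat_lit 3) (nat_lit 4) (nat_lit 1) (nat_lit 4) (nat_lit 254) (nat_lit 211) (nat_lit 195))) (XT.nd (nat_lit 78) (nat_lit 0) (nat_lit 0) (XT.lf (nat_lit 0) (nat_lit 23199896693) (nat_lit 152) (nat_lit 109903447389) (nat_lit 0) (nat_lit 21263964502) (nat_lit 1) (nat_lit 5) (nat_lit 3) (nat_lit 4) (nat_lit 1) (nat_lit 4) (nat_lit 255) (nat_lit 211) (nat_lit 194)) (XT.nd (nat_lit 78) (nat_lit 0) (nat_lit 0) (XT.lf (nat_lit 0) (nat_lit 29183664893) (nat_lit 152) (nat_lit 120690459462) (nat_lit 0) (nat_lit 27221863829) (nat_lit 1) (nat_lit 5) (nat_lit 3) (nat_lit 4) (nat_lit 1) (nat_lit 4) (nat_lit 256) (nat_lit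 211) (nat_lit 193)) (XT.lf (nat_lit 0) (nat_lit 36010478431) (nat_lit 152) (nat_lit 133205541184) (nat_lit 0) (nat_lit 34026182696) (nat_lit 1) (nat_lit 5) (nat_lit 3) (nat_lit 4) (nat_lit 1) (nat_lit 4) (nat_lit 257) (nat_lit 211) (nat_lit 192)))))) (XT.nd (nat_lit 312) (nat_lit 0) (nat_lit 0) (XT.nd (nat_lit 156) (nat_lit 0) (nat_lit 0) (XT.nd (nat_lit 78) (nat_lit 0) (nat_lit 0) (XT.lf (nat_lit 0) (nat_lit 43813905398) (nat_lit 152) (nat_lit 147693552852) (nat_lit 0) (nat_lit 41810049079) (nat_lit 1) (nat_lit 5) (nat_lit 3) (nat_lit 4) (nat_lit 1) (nat_lit 4) (nat_lit 258) (nat_lit 211) (nat_lit 191)) (XT.lf (nat_lit 0) (nat_lit 52746621540) (nat_lit 152) (nat_lit 164437955562) (nat_lit 0) (nat_lit 50725756017) (nat_lit 1) (nat_lit 5) (nat_lit 3) (nat_lit 4) (nat_lit 1) (nat_lit 4) (nat_lit 259) (nat_lit 211) (nat_lit 190))) (XT.nd (nat_lit 78) (nat_lit 0) (nat_lit 0) (XT.lf (nat_lit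 0) (nat_lit 62983397389) (nat_lit 152) (nat_lit 183766357194) (nat_lit 0) (nat_lit 60947741254) (nat_lit 1) (nat_lit 5) (nat_lit 3) (nat_lit 4) (nat_lit 1) (nat_lit 4) (nat_lit 260) (nat_lit 211) (nat_lit 189)) (XT.lf (nat_lit 0) (nat_lit 74724517690) (nat_lit 152) (nat_lit 206056922128) (nat_lit 0) (nat_lit 72676000154) (nat_lit 1) (nat_lit 5) (nat_lit 3) (nat_lit 4) (nat_lit 1) (nat_lit 4) (nat_lit 261) (nat_lit 211) (nat_lit 188)))) (XT.nd (nat_lit 156) (nat_lit 0) (nat_lit 0) (XT.nd (nat_lit 78) (nat_lit 0) (nat_lit 0) (XT.lf (nat_lit 0) (nat_lit 88199700015) (nat_lit 152) (nat_lit 231745770112) (nat_lit 0) (nat_lit 86139998652) (nat_lit 1) (nat_lit 5) (nat_lit 3) (nat_lit 4) (nat_lit 1) (nat_lit 4) (nat_lit 262) (nat_lit 211) (nat_lit 187)) (XT.lf (nat_lit 0) (nat_lit 103672589236) (nat_lit 152) (nat_lit 261335509041) (nat_lit 0) (nat_lit 101603162804) (nat_lit 1) (nat_lit 5) (nat_lit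 3) (nat_lit 4) (nat_lit 1) (nat_lit 4) (nat_lit 263) (nat_lit 211) (nat_lit 186))) (XT.nd (nat_lit 78) (nat_lit 0) (nat_lit 0) (XT.lf (nat_lit 0) (nat_lit 121445915792) (nat_lit 152) (nat_lit 295405068591) (nat_lit 0) (nat_lit 119368032780) (nat_lit 1) (nat_lit 5) (nat_lit 3) (nat_lit 4) (nat_lit 1) (nat_lit 4) (nat_lit 264) (nat_lit 211) (nat_lit 185)) (XT.nd (nat_lit 78) (nat_lit 0) (nat_lit 0) (XT.lf (nat_lit 0) (nat_lit 141867418683) (nat_lit 152) (nat_lit 334621027099) (nat_lit 0) (nat_lit 139782182123) (nat_lit 1) (nat_lit 5) (nat_lit 3) (nat_lit 4) (nat_lit 1) (nat_lit 4) (nat_lit 265) (nat_lit 211) (nat_lit 184)) (XT.lf (nat_lit 0) (nat_lit 165336649051) (nat_lit 152) (nat_lit 379750653321) (nat_lit 0) (nat_lit 163245018102) (nat_lit 1) (nat_lit 5) (nat_lit 3) (nat_lit 4) (nat_lit 1) (nat_lit 4) (nat_lit 266) (nat_lit 211) (nat_lit 183))))))))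
noncomputable def xc31 : XT := (XT.nd (nat_lit 1404) (nat_lit 0) (nat_lit 0) (XT.nd (nat_lit 702) (nat_lit 0) (nat_lit 0) (XT.nd (nat_lit 312) (nat_lit 0) (nat_lit 0) (XT.nd (nat_lit 156) (nat_lit 0) (nat_lit 0) (XT.nd (nat_lit 78) (nat_lit 0) (nat_lit 0) (XT.lf (nat_lit 0) (nat_lit 192312787491) (nat_lit 152) (nat_lit 431676918203) (nat_lit 0) (nat_lit 190215596203) (nat_lit 1) (nat_lit 5) (nat_lit 3) (nat_lit 4) (nat_lit 1) (nat_lit 4) (nat_lit 267) (nat_lit 211) (nat_lit 182)) (XT.lf (nat_lit 0) (nat_lit 223323628016) (nat_lit 152) (nat_lit 491415770406) (nat_lit 0) (nat_lit 221221601651) (nat_lit 1) (nat_lit 5) (nat_lit 3) (nat_lit 4) (nat_lit 1) (nat_lit 4) (nat_lit 268) (nat_lit 211) (nat_lit 181))) (XT.nd (nat_lit 78) (nat_lit 0) (nat_lit 0) (XT.lf (nat_lit 0) (nat_lit 258975904463) (nat_lit 152) (nat_lit 560136013561) (nat_lit 0) (nat_lit 256869673682) (nat_lit 1) (nat_lit 5)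 (nat_lit 3) (nat_lit 4) (nat_lit 1) (nat_lit 4) (nat_lit 269) (nat_lit 211) (nat_lit 180)) (XT.lf (nat_lit 0) (nat_lit 299967161369) (nat_lit 152) (nat_lit 639182174163) (nat_lit 0) (nat_lit 297857274576) (nat_lit 1) (nat_lit 5) (nat_lit 3) (nat_lit 4) (nat_lit 1) (nat_lit 4) (nat_lit 270) (nat_lit 211) (nat_lit 179)))) (XT.nd (nat_lit 156) (nat_lit 0) (nat_lit 0) (XT.nd (nat_lit 78) (nat_lit 0) (nat_lit 0) (XT.lf (nat_lit 0) (nat_lit 347099401589) (nat_lit 152) (nat_lit 730100807530) (nat_lit 0) (nat_lit 344986335653) (nat_lit 1) (nat_lit 5) (nat_lit 3) (nat_lit 4) (nat_lit 1) (nat_lit 4) (nat_lit 271) (nat_lit 211) (nat_lit 178)) (XT.lf (nat_lit 0) (nat_lit 401294777647) (nat_lit 152) (nat_lit 834670756487) (nat_lit 0) (nat_lit 399178947240) (nat_lit 1) (nat_lit 5) (nat_lit 3) (nat_lit 4) (nat_lit 1) (nat_lit 4) (nat_lit 272) (nat_lit 211) (nat_lit 177))) (XT.nd (nat_lit 78) (nat_lit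 0) (nat_lit 0) (XT.lf (nat_lit 0) (nat_lit 463613633858) (nat_lit 152) (nat_lit 954937954818) (nat_lit 0) (nat_lit 461495399564) (nat_lit 1) (nat_lit 5) (nat_lit 3) (nat_lit 4) (nat_lit 1) (nat_lit 4) (nat_lit 273) (nat_lit 211) (nat_lit 176)) (XT.nd (nat_lit 78) (nat_lit 0) (nat_lit 0) (XT.lf (nat_lit 0) (nat_lit 535275252192) (nat_lit 152) (nat_lit 1093255456405) (nat_lit 0) (nat_lit 533154927561) (nat_lit 1) (nat_lit 5) (nat_lit 3) (nat_lit 4) (nat_lit 1) (nat_lit 4) (nat_lit 274) (nat_lit 211) (nat_lit 175)) (XT.lf (nat_lit 0) (nat_lit 617681707790) (nat_lit 152) (nat_lit 1252329473234) (nat_lit 0) (nat_lit 615559565474) (nat_lit 1) (nat_lit 5) (nat_lit 3) (nat_lit 4) (nat_lit 1) (nat_lit 4) (nat_lit 275) (nat_lit 211) (nat_lit 174)))))) (XT.nd (nat_lit 312) (nat_lit 0) (nat_lit 0) (XT.nd (nat_lit 156) (nat_lit 0) (nat_lit 0) (XT.nd (nat_lit 78) (nat_lit 0) (nat_lit 0) (XT.lf (nat_lit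 0) (nat_lit 712445300869) (nat_lit 152) (nat_lit 1435272323027) (nat_lit 0) (nat_lit 710321577958) (nat_lit 1) (nat_lit 5) (nat_lit 3) (nat_lit 4) (nat_lit 1) (nat_lit 4) (nat_lit 276) (nat_lit 211) (nat_lit 173)) (XT.lf (nat_lit 0) (nat_lit 821420101730) (nat_lit 152) (nat_lit 1645663322409) (nat_lit 0) (nat_lit 819295004388) (nat_lit 1) (nat_lit 5) (nat_lit 3) (nat_lit 4) (nat_lit 1) (nat_lit 4) (nat_lit 277) (nat_lit 211) (nat_lit 172))) (XT.nd (nat_lit 78) (nat_lit 0) (nat_lit 0) (XT.lf (nat_lit 0) (nat_lit 946738226042) (nat_lit 152) (nat_lit 1887618817020) (nat_lit 0) (nat_lit 944611933542) (nat_lit 1) (nat_lit 5) (nat_lit 3) (nat_lit 4) (nat_lit 1) (nat_lit 4) (nat_lit 278) (nat_lit 211) (nat_lit 171)) (XT.lf (nat_lit 0) (nat_lit 1090851550149) (nat_lit 152) (nat_lit 2165872718713) (nat_lit 0) (nat_lit 1088724218382) (nat_lit 1) (nat_lit 5) (nat_lit 3) (nat_lit 4) (nat_lit 1)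 (nat_lit 4) (nat_lit 279) (nat_lit 211) (nat_lit 170)))) (XT.nd (nat_lit 156) (nat_lit 0) (nat_lit 0) (XT.nd (nat_lit 78) (nat_lit 0) (nat_lit 0) (XT.lf (nat_lit 0) (nat_lit 1256579682566) (nat_lit 152) (nat_lit 2485869125562) (nat_lit 0) (nat_lit 1254451447089) (nat_lit 1) (nat_lit 5) (nat_lit 3) (nat_lit 4) (nat_lit 1) (nat_lit 4) (nat_lit 280) (nat_lit 211) (nat_lit 169)) (XT.lf (nat_lit 0) (nat_lit 1447165130233) (nat_lit 152) (nat_lit 2853868836834) (nat_lit 0) (nat_lit 1445036108921) (nat_lit 1) (nat_lit 5) (nat_lit 3) (nat_lit 4) (nat_lit 1) (nat_lit 4) (nat_lit 281) (nat_lit 211) (nat_lit 168))) (XT.nd (nat_lit 78) (nat_lit 0) (nat_lit 0) (XT.lf (nat_lit 0) (nat_lit 1666336738865) (nat_lit 152) (nat_lit 3277071846878) (nat_lit 0) (nat_lit 1664207034218) (nat_lit 1) (nat_lit 5) (nat_lit 3) (nat_lit 4) (nat_lit 1) (nat_lit 4) (nat_lit 282) (nat_lit 211) (nat_lit 167)) (XT.nd (nat_lit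 78) (nat_lit 0) (nat_lit 0) (XT.lf (nat_lit 0) (nat_lit 1918382648630) (nat_lit 152) (nat_lit 3763758214587) (nat_lit 0) (nat_lit 1916252349778) (nat_lit 1) (nat_lit 5) (nat_lit 3) (nat_lit 4) (nat_lit 1) (nat_lit 4) (nat_lit 283) (nat_lit 211) (nat_lit 166)) (XT.lf (nat_lit 0) (nat_lit 2208234192546) (nat_lit 152) (nat_lit 4323450064546) (nat_lit 0) (nat_lit 2206103376995) (nat_lit 1) (nat_lit 5) (nat_lit 3) (nat_lit 4) (nat_lit 1) (nat_lit 4) (nat_lit 284) (nat_lit 211) (nat_lit 165))))))) (XT.nd (nat_lit 702) (nat_lit 0) (nat_lit 0) (XT.nd (nat_lit 312) (nat_lit 0) (nat_lit 0) (XT.nd (nat_lit 156) (nat_lit 0) (nat_lit 0) (XT.nd (nat_lit 78) (nat_lit 0) (nat_lit 0) (XT.lf (nat_lit 0) (nat_lit 2541562379080) (nat_lit 152) (nat_lit 4967097889473) (nat_lit 0) (nat_lit 2539431114225) (nat_lit 1) (nat_lit 5) (nat_lit 3) (nat_lit 4) (nat_lit 1) (nat_lit 4) (nat_lit 285) (nat_lit 211) (nat_lit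 164)) (XT.lf (nat_lit 0) (nat_lit 2924888846664) (nat_lit 152) (nat_lit 5707294798984) (nat_lit 0) (nat_lit 2922757191111) (nat_lit 1) (nat_lit 5) (nat_lit 3) (nat_lit 4) (nat_lit 1) (nat_lit 4) (nat_lit 286) (nat_lit 211) (nat_lit 163))) (XT.nd (nat_lit 78) (nat_lit 0) (nat_lit 0) (XT.lf (nat_lit 0) (nat_lit 3365713460970) (nat_lit 152) (nat_lit 6558522906528) (nat_lit 0) (nat_lit 3363581465678) (nat_lit 1) (nat_lit 5) (nat_lit 3) (nat_lit 4) (nat_lit 1) (nat_lit 4) (nat_lit 287) (nat_lit 211) (nat_lit 162)) (XT.lf (nat_lit 0) (nat_lit 3872661051407) (nat_lit 152) (nat_lit 7537436675078) (nat_lit 0) (nat_lit 3870528760690) (nat_lit 1) (nat_lit 5) (nat_lit 3) (nat_lit 4) (nat_lit 1) (nat_lit 4) (nat_lit 288) (nat_lit 211) (nat_lit 161)))) (XT.nd (nat_lit 156) (nat_lit 0) (nat_lit 0) (XT.nd (nat_lit 78) (nat_lit 0) (nat_lit 0) (XT.lf (nat_lit 0) (nat_lit 4455650157788) (nat_lit 152) (nat_lit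 8663188765323) (nat_lit 0) (nat_lit 4453517610180) (nat_lit 1) (nat_lit 5) (nat_lit 3) (nat_lit 4) (nat_lit 1) (nat_lit 4) (nat_lit 289) (nat_lit 211) (nat_lit 160)) (XT.lf (nat_lit 0) (nat_lit 5126087088716) (nat_lit 152) (nat_lit 9957804761637) (nat_lit 0) (nat_lit 5123954317725) (nat_lit 1) (nat_lit 5) (nat_lit 3) (nat_lit 4) (nat_lit 1) (nat_lit 4) (nat_lit 290) (nat_lit 211) (nat_lit 159))) (XT.nd (nat_lit 78) (nat_lit 0) (nat_lit 0) (XT.lf (nat_lit 0) (nat_lit 5897089088491) (nat_lit 152) (nat_lit 11446614107426) (nat_lit 0) (nat_lit 5894956123254) (nat_lit 1) (nat_lit 5) (nat_lit 3) (nat_lit 4) (nat_lit 1) (nat_lit 4) (nat_lit 291) (nat_lit 211) (nat_lit 158)) (XT.nd (nat_lit 78) (nat_lit 0) (nat_lit 0) (XT.lf (nat_lit 0) (nat_lit 6783740978850) (nat_lit 152) (nat_lit 13158745681196) (nat_lit 0) (nat_lit 6781607844702) (nat_lit 1) (nat_lit 5) (nat_lit 3) (nat_lit 4) (nat_lit 1)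 (nat_lit 4) (nat_lit 292) (nat_lit 211) (nat_lit 157)) (XT.lf (nat_lit 0) (nat_lit 7803390296776) (nat_lit 152) (nat_lit 15127697709388) (nat_lit 0) (nat_lit 7801257015751) (nat_lit 1) (nat_lit 5) (nat_lit 3) (nat_lit 4) (nat_lit 1) (nat_lit 4) (nat_lit 293) (nat_lit 211) (nat_lit 156)))))) (XT.nd (nat_lit 312) (nat_lit 0) (nat_lit 0) (XT.nd (nat_lit 156) (nat_lit 0) (nat_lit 0) (XT.nd (nat_lit 78) (nat_lit 0) (nat_lit 0) (XT.lf (nat_lit 0) (nat_lit 8975986702839) (nat_lit 152) (nat_lit 17391993166469) (nat_lit 0) (nat_lit 8973853294093) (nat_lit 1) (nat_lit 5) (nat_lit 3) (nat_lit 4) (nat_lit 1) (nat_lit 4) (nat_lit 294) (nat_lit 211) (nat_lit 155)) (XT.lf (nat_lit 0) (nat_lit 10324472300634) (nat_lit 152) (nat_lit 19995933485293) (nat_lit 0) (nat_lit 10322338780827) (nat_lit 1) (nat_lit 5) (nat_lit 3) (nat_lit 4) (nat_lit 1) (nat_lit 4) (nat_lit 295) (nat_lit 211) (nat_lit 154))) (XT.nd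 (nat_lit 78) (nat_lit 0) (nat_lit 0) (XT.lf (nat_lit 0) (nat_lit 11875230504032) (nat_lit 152) (nat_lit 22990465324273) (nat_lit 0) (nat_lit 11873096887651) (nat_lit 1) (nat_lit 5) (nat_lit 3) (nat_lit 4) (nat_lit 1) (nat_lit 4) (nat_lit 296) (nat_lit 211) (nat_lit 153)) (XT.lf (nat_lit 0) (nat_lit 13658602234404) (nat_lit 152) (nat_lit 26434177349824) (nat_lit 0) (nat_lit 13656468534045) (nat_lit 1) (nat_lit 5) (nat_lit 3) (nat_lit 4) (nat_lit 1) (nat_lit 4) (nat_lit 297) (nat_lit 211) (nat_lit 152)))) (XT.nd (nat_lit 156) (nat_lit 0) (nat_lit 0) (XT.nd (nat_lit 78) (nat_lit 0) (nat_lit 0) (XT.lf (nat_lit 0) (nat_lit 15709479547344) (nat_lit 152) (nat_lit 30394446536358) (nat_lit 0) (nat_lit 15707345773960) (nat_lit 1) (nat_lit 5) (nat_lit 3) (nat_lit 4) (nat_lit 1) (nat_lit 4) (nat_lit 298) (nat_lit 211) (nat_lit 151)) (XT.lf (nat_lit 0) (nat_lit 18067988303323) (nat_lit 152) (nat_lit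 34948756411437) (nat_lit 0) (nat_lit 18065854466439) (nat_lit 1) (nat_lit 5) (nat_lit 3) (nat_lit 4) (nat_lit 1) (nat_lit 4) (nat_lit 299) (nat_lit 211) (nat_lit 150))) (XT.nd (nat_lit 78) (nat_lit 0) (nat_lit 0) (XT.lf (nat_lit 0) (nat_lit 20780273238869) (nat_lit 152) (nat_lit 40186213037837) (nat_lit 0) (nat_lit 20778139346769) (nat_lit 1) (nat_lit 5) (nat_lit 3) (nat_lit 4) (nat_lit 1) (nat_lit 4) (nat_lit 300) (nat_lit 211) (nat_lit 149)) (XT.nd (nat_lit 78) (nat_lit 0) (nat_lit 0) (XT.lf (nat_lit 0) (nat_lit 23899400798376) (nat_lit 152) (nat_lit 46209288393028) (nat_lit 0) (nat_lit 23897266858260) (nat_lit 1) (nat_lit 5) (nat_lit 3) (nat_lit 4) (nat_lit 1) (nat_lit 4) (nat_lit 301) (nat_lit 211) (nat_lit 148)) (XT.lf (nat_lit 0) (nat_lit 27486397390615) (nat_lit 152) (nat_lit 53135825255700) (nat_lit 0) (nat_lit 27484263408747) (nat_lit 1) (nat_lit 5) (nat_lit 3) (nat_lit 4) (nat_lit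 1) (nat_lit 4) (nat_lit 302) (nat_lit 211) (nat_lit 147))))))))
noncomputable def xc32 : XT := (XT.nd (nat_lit 30342) (nat_lit 0) (nat_lit 0) (XT.nd (nat_lit 29640) (nat_lit 0) (nat_lit 76) (XT.nd (nat_lit 29328) (nat_lit 0) (nat_lit 228) (XT.nd (nat_lit 29172) (nat_lit 0) (nat_lit 456) (XT.nd (nat_lit 78) (nat_lit 0) (nat_lit 0) (XT.lf (nat_lit 0) (nat_lit 31611443383695) (nat_lit 152) (nat_lit 61101342825341) (nat_lit 0) (nat_lit 31609309365522) (nat_lit 1) (nat_lit 5) (nat_lit 3) (nat_lit 4) (nat_lit 1) (nat_lit 4) (nat_lit 303) (nat_lit 211) (nat_lit 146)) (XT.lf (nat_lit 0) (nat_lit 36355246199221) (nat_lit 152) (nat_lit 70261688184833) (nat_lit 0) (nat_lit 36353112149477) (nat_lit 1) (nat_lit 5) (nat_lit 3) (nat_lit 4) (nat_lit 1) (nat_lit 4) (nat_lit 304) (nat_lit 211) (nat_lit 145))) (XT.nd (nat_lit 78) (nat_lit 0) (nat_lit 0) (XT.lf (nat_lit 0) (nat_lit 1412074103) (nat_lit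 152) (nat_lit 4550277714) (nat_lit 0) (nat_lit 1412074103) (nat_lit 7) (nat_lit 5) (nat_lit 9) (nat_lit 4) (nat_lit 7) (nat_lit 4) (nat_lit 236) (nat_lit 212) (nat_lit 212)) (XT.lf (nat_lit 0) (nat_lit 7537624878) (nat_lit 152) (nat_lit 1582285538) (nat_lit 0) (nat_lit 7114241008) (nat_lit 7) (nat_lit 5) (nat_lit 9) (nat_lit 4) (nat_lit 7) (nat_lit 4) (nat_lit 237) (nat_lit 212) (nat_lit 211)))) (XT.nd (nat_lit 156) (nat_lit 152) (nat_lit 0) (XT.nd (nat_lit 78) (nat_lit 0) (nat_lit 0) (XT.lf (nat_lit 0) (nat_lit 6925358694) (nat_lit 76) (nat_lit 5913599693) (nat_lit 76) (nat_lit 5122055937) (nat_lit 6) (nat_lit 4) (nat_lit 7) (nat_lit 5) (nat_lit 7) (nat_lit 4) (nat_lit 238) (nat_lit 212) (nat_lit 210)) (XT.lf (nat_lit 0) (nat_lit 16166381483) (nat_lit 76) (nat_lit 2469000763) (nat_lit 76) (nat_lit 1357317974) (nat_lit 6) (nat_lit 4) (nat_lit 7) (nat_lit 5) (nat_lit 7) (nat_lit 4) (nat_lit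 239) (nat_lit 212) (nat_lit 209))) (XT.nd (nat_lit 78) (nat_lit 0) (nat_lit 0) (XT.lf (nat_lit 0) (nat_lit 2588150044) (nat_lit 152) (nat_lit 18361625024) (nat_lit 0) (nat_lit 1379398256) (nat_lit 4) (nat_lit 5) (nat_lit 6) (nat_lit 4) (nat_lit 4) (nat_lit 4) (nat_lit 240) (nat_lit 212) (nat_lit 208)) (XT.lf (nat_lit 0) (nat_lit 6971178516) (nat_lit 152) (nat_lit 12486119030) (nat_lit 0) (nat_lit 5551930118) (nat_lit 4) (nat_lit 5) (nat_lit 6) (nat_lit 4) (nat_lit 4) (nat_lit 4) (nat_lit 241) (nat_lit 212) (nat_lit 207))))) (XT.nd (nat_lit 312) (nat_lit 76) (nat_lit 0) (XT.nd (nat_lit 156) (nat_lit 0) (nat_lit 0) (XT.nd (nat_lit 78) (nat_lit 76) (nat_lit 0) (XT.lf (nat_lit 0) (nat_lit 11713918467) (nat_lit 152) (nat_lit 6310847884) (nat_lit 0) (nat_lit 10111629538) (nat_lit 4) (nat_lit 5) (nat_lit 6) (nat_lit 4) (nat_lit 4) (nat_lit 4) (nat_lit 242) (nat_lit 212) (nat_lit 206)) (XT.lf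 (nat_lit 0) (nat_lit 312862082) (nat_lit 76) (nat_lit 16609255504) (nat_lit 76) (nat_lit 14847800897) (nat_lit 3) (nat_lit 4) (nat_lit 4) (nat_lit 5) (nat_lit 4) (nat_lit 4) (nat_lit 243) (nat_lit 212) (nat_lit 205))) (XT.nd (nat_lit 78) (nat_lit 0) (nat_lit 0) (XT.lf (nat_lit 0) (nat_lit 8156663382) (nat_lit 76) (nat_lit 14839643756) (nat_lit 76) (nat_lit 12939784210) (nat_lit 3) (nat_lit 4) (nat_lit 4) (nat_lit 5) (nat_lit 4) (nat_lit 4) (nat_lit 244) (nat_lit 212) (nat_lit 204)) (XT.lf (nat_lit 0) (nat_lit 16757279742) (nat_lit 76) (nat_lit 13011193498) (nat_lit 76) (nat_lit 10990981832) (nat_lit 3) (nat_lit 4) (nat_lit 4) (nat_lit 5) (nat_lit 4) (nat_lit 4) (nat_lit 245) (nat_lit 212) (nat_lit 203)))) (XT.nd (nat_lit 156) (nat_lit 76) (nat_lit 0) (XT.nd (nat_lit 78) (nat_lit 0) (nat_lit 0) (XT.lf (nat_lit 0) (nat_lit 26282984088) (nat_lit 76) (nat_lit 11088130704) (nat_lit 76) (nat_lit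 8963265021) (nat_lit 3) (nat_lit 4) (nat_lit 4) (nat_lit 5) (nat_lit 4) (nat_lit 4) (nat_lit 246) (nat_lit 212) (nat_lit 202)) (XT.lf (nat_lit 0) (nat_lit 36920148899) (nat_lit 76) (nat_lit 9032830231) (nat_lit 76) (nat_lit 6816961055) (nat_lit 3) (nat_lit 4) (nat_lit 4) (nat_lit 5) (nat_lit 4) (nat_lit 4) (nat_lit 247) (nat_lit 212) (nat_lit 201))) (XT.nd (nat_lit 78) (nat_lit 76) (nat_lit 0) (XT.lf (nat_lit 0) (nat_lit 48876892616) (nat_lit 76) (nat_lit 6805079680) (nat_lit 76) (nat_lit 4510077031) (nat_lit 3) (nat_lit 4) (nat_lit 4) (nat_lit 5) (nat_lit 4) (nat_lit 4) (nat_lit 248) (nat_lit 212) (nat_lit 200)) (XT.nd (nat_lit 78) (nat_lit 76) (nat_lit 0) (XT.lf (nat_lit 0) (nat_lit 62387151529) (nat_lit 76) (nat_lit 4361292626) (nat_lit 76) (nat_lit 1997478262) (nat_lit 3) (nat_lit 4) (nat_lit 4) (nat_lit 5) (nat_lit 4) (nat_lit 4) (nat_lit 249) (nat_lit 212) (nat_lit 199)) (XT.lf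 (nat_lit 0) (nat_lit 701444531) (nat_lit 152) (nat_lit 915544895) (nat_lit 76) (nat_lit 76977145840) (nat_lit 2) (nat_lit 5) (nat_lit 4) (nat_lit 5) (nat_lit 3) (nat_lit 4) (nat_lit 250) (nat_lit 212) (nat_lit 198))))))) (XT.nd (nat_lit 702) (nat_lit 0) (nat_lit 0) (XT.nd (nat_lit 312) (nat_lit 0) (nat_lit 0) (XT.nd (nat_lit 156) (nat_lit 0) (nat_lit 0) (XT.nd (nat_lit 78) (nat_lit 0) (nat_lit 0) (XT.lf (nat_lit 0) (nat_lit 3809252110) (nat_lit 152) (nat_lit 84408402549) (nat_lit 0) (nat_lit 1656484996) (nat_lit 1) (nat_lit 5) (nat_lit 3) (nat_lit 4) (nat_lit 1) (nat_lit 4) (nat_lit 251) (nat_lit 212) (nat_lit 197)) (XT.lf (nat_lit 0) (nat_lit 7415011673) (nat_lit 152) (nat_lit 90203560167) (nat_lit 0) (nat_lit 5222901237) (nat_lit 1) (nat_lit 5) (nat_lit 3) (nat_lit 4) (nat_lit 1) (nat_lit 4) (nat_lit 252) (nat_lit 212) (nat_lit 196))) (XT.nd (nat_lit 78) (nat_lit 0) (nat_lit 0) (XT.lf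 (nat_lit 0) (nat_lit 11478717231) (nat_lit 152) (nat_lit 97035314808) (nat_lit 0) (nat_lit 9252395211) (nat_lit 1) (nat_lit 5) (nat_lit 3) (nat_lit 4) (nat_lit 1) (nat_lit 4) (nat_lit 253) (nat_lit 212) (nat_lit 195)) (XT.lf (nat_lit 0) (nat_lit 16079876065) (nat_lit 152) (nat_lit 105037331238) (nat_lit 0) (nat_lit 13823804842) (nat_lit 1) (nat_lit 5) (nat_lit 3) (nat_lit 4) (nat_lit 1) (nat_lit 4) (nat_lit 254) (nat_lit 212) (nat_lit 194)))) (XT.nd (nat_lit 156) (nat_lit 0) (nat_lit 0) (XT.nd (nat_lit 78) (nat_lit 0) (nat_lit 0) (XT.lf (nat_lit 0) (nat_lit 21308510850) (nat_lit 152) (nat_lit 114366170648) (nat_lit 0) (nat_lit 19026570754) (nat_lit 1) (nat_lit 5) (nat_lit 3) (nat_lit 4) (nat_lit 1) (nat_lit 4) (nat_lit 255) (nat_lit 212) (nat_lit 193)) (XT.lf (nat_lit 0) (nat_lit 27266920960) (nat_lit 152) (nat_lit 125204353809) (nat_lit 0) (nat_lit 24962486193) (nat_lit 1) (nat_lit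 5) (nat_lit 3) (nat_lit 4) (nat_lit 1) (nat_lit 4) (nat_lit 256) (nat_lit 212) (nat_lit 192))) (XT.nd (nat_lit 78) (nat_lit 0) (nat_lit 0) (XT.lf (nat_lit 0) (nat_lit 34071683986) (nat_lit 152) (nat_lit 137763932130) (nat_lit 0) (nat_lit 31747688635) (nat_lit 1) (nat_lit 5) (nat_lit 3) (nat_lit 4) (nat_lit 1) (nat_lit 4) (nat_lit 257) (nat_lit 212) (nat_lit 191)) (XT.nd (nat_lit 78) (nat_lit 0) (nat_lit 0) (XT.lf (nat_lit 0) (nat_lit 41855936595) (nat_lit 152) (nat_lit 152290636492) (nat_lit 0) (nat_lit 39514932040) (nat_lit 1) (nat_lit 5) (nat_lit 3) (nat_lit 4) (nat_lit 1) (nat_lit 4) (nat_lit 258) (nat_lit 212) (nat_lit 190)) (XT.lf (nat_lit 0) (nat_lit 50771979381) (nat_lit 152) (nat_lit 169068685023) (nat_lit 0) (nat_lit 48416184214) (nat_lit 1) (nat_lit 5) (nat_lit 3) (nat_lit 4) (nat_lit 1) (nat_lit 4) (nat_lit 259) (nat_lit 212) (nat_lit 189)))))) (XT.nd (nat_lit 312) (nat_lit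 0) (nat_lit 0) (XT.nd (nat_lit 156) (nat_lit 0) (nat_lit 0) (XT.nd (nat_lit 78) (nat_lit 0) (nat_lit 0) (XT.lf (nat_lit 0) (nat_lit 60994256661) (nat_lit 152) (nat_lit 188426343891) (nat_lit 0) (nat_lit 58625600092) (nat_lit 1) (nat_lit 5) (nat_lit 3) (nat_lit 4) (nat_lit 1) (nat_lit 4) (nat_lit 260) (nat_lit 212) (nat_lit 188)) (XT.lf (nat_lit 0) (nat_lit 72722769510) (nat_lit 152) (nat_lit 210742349899) (nat_lit 0) (nat_lit 70342929114) (nat_lit 1) (nat_lit 5) (nat_lit 3) (nat_lit 4) (nat_lit 1) (nat_lit 4) (nat_lit 261) (nat_lit 212) (nat_lit 187))) (XT.nd (nat_lit 78) (nat_lit 0) (nat_lit 0) (XT.lf (nat_lit 0) (nat_lit 86186988834) (nat_lit 152) (nat_lit 236453320556) (nat_lit 0) (nat_lit 83797423370) (nat_lit 1) (nat_lit 5) (nat_lit 3) (nat_lit 4) (nat_lit 1) (nat_lit 4) (nat_lit 262) (nat_lit 212) (nat_lit 186)) (XT.lf (nat_lit 0) (nat_lit 101650345009) (nat_lit 152) (nat_lit 266062296593)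 (nat_lit 0) (nat_lit 99252322965) (nat_lit 1) (nat_lit 5) (nat_lit 3) (nat_lit 4) (nat_lit 1) (nat_lit 4) (nat_lit 263) (nat_lit 212) (nat_lit 185)))) (XT.nd (nat_lit 156) (nat_lit 0) (nat_lit 0) (XT.nd (nat_lit 78) (nat_lit 0) (nat_lit 0) (XT.lf (nat_lit 0) (nat_lit 119415381961) (nat_lit 152) (nat_lit 300148584062) (nat_lit 0) (nat_lit 117010006369) (nat_lit 1) (nat_lit 5) (nat_lit 3) (nat_lit 4) (nat_lit 1) (nat_lit 4) (nat_lit 264) (nat_lit 212) (nat_lit 184)) (XT.lf (nat_lit 0) (nat_lit 139829676500) (nat_lit 152) (nat_lit 339379088588) (nat_lit 0) (nat_lit 137417906519) (nat_lit 1) (nat_lit 5) (nat_lit 3) (nat_lit 4) (nat_lit 1) (nat_lit 4) (nat_lit 265) (nat_lit 212) (nat_lit 183))) (XT.nd (nat_lit 78) (nat_lit 0) (nat_lit 0) (XT.lf (nat_lit 0) (nat_lit 163292638737) (nat_lit 152) (nat_lit 384521363519) (nat_lit 0) (nat_lit 160875308416) (nat_lit 1) (nat_lit 5) (nat_lit 3) (nat_lit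 4) (nat_lit 1) (nat_lit 4) (nat_lit 266) (nat_lit 212) (nat_lit 182)) (XT.nd (nat_lit 78) (nat_lit 0) (nat_lit 0) (XT.lf (nat_lit 0) (nat_lit 190263326627) (nat_lit 152) (nat_lit 436458627280) (nat_lit 0) (nat_lit 187841161230) (nat_lit 1) (nat_lit 5) (nat_lit 3) (nat_lit 4) (nat_lit 1) (nat_lit 4) (nat_lit 267) (nat_lit 212) (nat_lit 181)) (XT.lf (nat_lit 0) (nat_lit 221269427544) (nat_lit 152) (nat_lit 496207043726) (nat_lit 0) (nat_lit 218843057732) (nat_lit 1) (nat_lit 5) (nat_lit 3) (nat_lit 4) (nat_lit 1) (nat_lit 4) (nat_lit 268) (nat_lit 212) (nat_lit 180))))))))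
noncomputable def xc33 : XT := (XT.nd (nat_lit 1404) (nat_lit 0) (nat_lit 0) (XT.nd (nat_lit 702) (nat_lit 0) (nat_lit 0) (XT.nd (nat_lit 312) (nat_lit 0) (nat_lit 0) (XT.nd (nat_lit 156) (nat_lit 0) (nat_lit 0) (XT.nd (nat_lit 78) (nat_lit 0) (nat_lit 0) (XT.lf (nat_lit 0) (nat_lit 256917582592) (nat_lit 152) (nat_lit 564935603613) (nat_lit 0) (nat_lit 254487556766) (nat_lit 1) (nat_lit 5) (nat_lit 3) (nat_lit 4) (nat_lit 1) (nat_lit 4) (nat_lit 269) (nat_lit 212) (nat_lit 179)) (XT.lf (nat_lit 0) (nat_lit 297905255674) (nat_lit 152) (nat_lit 643988996156) (nat_lit 0) (nat_lit 295472050707) (nat_lit 1) (nat_lit 5) (nat_lit 3) (nat_lit 4) (nat_lit 1) (nat_lit 4) (nat_lit 270) (nat_lit 212) (nat_lit 178))) (XT.nd (nat_lit 78) (nat_lit 0) (nat_lit 0) (XT.lf (nat_lit 0) (nat_lit 345034379524) (nat_lit 152) (nat_lit 734913918167) (nat_lit 0) (nat_lit 342598410086) (nat_lit 1) (nat_lit 5)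 (nat_lit 3) (nat_lit 4) (nat_lit 1) (nat_lit 4) (nat_lit 271) (nat_lit 212) (nat_lit 177)) (XT.lf (nat_lit 0) (nat_lit 399227045696) (nat_lit 152) (nat_lit 839489335511) (nat_lit 0) (nat_lit 396788672370) (nat_lit 1) (nat_lit 5) (nat_lit 3) (nat_lit 4) (nat_lit 1) (nat_lit 4) (nat_lit 272) (nat_lit 212) (nat_lit 176)))) (XT.nd (nat_lit 156) (nat_lit 0) (nat_lit 0) (XT.nd (nat_lit 78) (nat_lit 0) (nat_lit 0) (XT.lf (nat_lit 0) (nat_lit 461543545485) (nat_lit 152) (nat_lit 959761288961) (nat_lit 0) (nat_lit 459103081821) (nat_lit 1) (nat_lit 5) (nat_lit 3) (nat_lit 4) (nat_lit 1) (nat_lit 4) (nat_lit 273) (nat_lit 212) (nat_lit 175)) (XT.lf (nat_lit 0) (nat_lit 533203114755) (nat_lit 152) (nat_lit 1098082925434) (nat_lit 0) (nat_lit 530760833407) (nat_lit 1) (nat_lit 5) (nat_lit 3) (nat_lit 4) (nat_lit 1) (nat_lit 4) (nat_lit 274) (nat_lit 212) (nat_lit 174))) (XT.nd (nat_lit 78) (nat_lit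 0) (nat_lit 0) (XT.lf (nat_lit 0) (nat_lit 615607788558) (nat_lit 152) (nat_lit 1257160537816) (nat_lit 0) (nat_lit 613163926615) (nat_lit 1) (nat_lit 5) (nat_lit 3) (nat_lit 4) (nat_lit 1) (nat_lit 4) (nat_lit 275) (nat_lit 212) (nat_lit 173)) (XT.nd (nat_lit 78) (nat_lit 0) (nat_lit 0) (XT.lf (nat_lit 0) (nat_lit 710369832252) (nat_lit 152) (nat_lit 1440106514176) (nat_lit 0) (nat_lit 707924595877) (nat_lit 1) (nat_lit 5) (nat_lit 3) (nat_lit 4) (nat_lit 1) (nat_lit 4) (nat_lit 276) (nat_lit 212) (nat_lit 172)) (XT.lf (nat_lit 0) (nat_lit 819343285820) (nat_lit 152) (nat_lit 1650500232313) (nat_lit 0) (nat_lit 816896854289) (nat_lit 1) (nat_lit 5) (nat_lit 3) (nat_lit 4) (nat_lit 1) (nat_lit 4) (nat_lit 277) (nat_lit 212) (nat_lit 171)))))) (XT.nd (nat_lit 312) (nat_lit 0) (nat_lit 0) (XT.nd (nat_lit 156) (nat_lit 0) (nat_lit 0) (XT.nd (nat_lit 78) (nat_lit 0) (nat_lit 0) (XT.lf (nat_lit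 0) (nat_lit 944660238573) (nat_lit 152) (nat_lit 1892458091059) (nat_lit 0) (nat_lit 942212767774) (nat_lit 1) (nat_lit 5) (nat_lit 3) (nat_lit 4) (nat_lit 1) (nat_lit 4) (nat_lit 278) (nat_lit 212) (nat_lit 170)) (XT.lf (nat_lit 0) (nat_lit 1088772543933) (nat_lit 152) (nat_lit 2170714048520) (nat_lit 0) (nat_lit 1086324169424) (nat_lit 1) (nat_lit 5) (nat_lit 3) (nat_lit 4) (nat_lit 1) (nat_lit 4) (nat_lit 279) (nat_lit 212) (nat_lit 169))) (XT.nd (nat_lit 78) (nat_lit 0) (nat_lit 0) (XT.lf (nat_lit 0) (nat_lit 1254499790484) (nat_lit 152) (nat_lit 2490712242995) (nat_lit 0) (nat_lit 1252050630140) (nat_lit 1) (nat_lit 5) (nat_lit 3) (nat_lit 4) (nat_lit 1) (nat_lit 4) (nat_lit 280) (nat_lit 212) (nat_lit 168)) (XT.lf (nat_lit 0) (nat_lit 1445084467832) (nat_lit 152) (nat_lit 2858713508723) (nat_lit 0) (nat_lit 1442634624153) (nat_lit 1) (nat_lit 5) (nat_lit 3) (nat_lit 4) (nat_lit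 1) (nat_lit 4) (nat_lit 281) (nat_lit 212) (nat_lit 167)))) (XT.nd (nat_lit 156) (nat_lit 0) (nat_lit 0) (XT.nd (nat_lit 78) (nat_lit 0) (nat_lit 0) (XT.lf (nat_lit 0) (nat_lit 1664255406621) (nat_lit 152) (nat_lit 3281917870469) (nat_lit 0) (nat_lit 1661804968738) (nat_lit 1) (nat_lit 5) (nat_lit 3) (nat_lit 4) (nat_lit 1) (nat_lit 4) (nat_lit 282) (nat_lit 212) (nat_lit 166)) (XT.lf (nat_lit 0) (nat_lit 1916300733915) (nat_lit 152) (nat_lit 3768605413570) (nat_lit 0) (nat_lit 1913849779332) (nat_lit 1) (nat_lit 5) (nat_lit 3) (nat_lit 4) (nat_lit 1) (nat_lit 4) (nat_lit 283) (nat_lit 212) (nat_lit 165))) (XT.nd (nat_lit 78) (nat_lit 0) (nat_lit 0) (XT.lf (nat_lit 0) (nat_lit 2206151771333) (nat_lit 152) (nat_lit 4328298285610) (nat_lit 0) (nat_lit 2203700367446) (nat_lit 1) (nat_lit 5) (nat_lit 3) (nat_lit 4) (nat_lit 1) (nat_lit 4) (nat_lit 284) (nat_lit 212) (nat_lit 164)) (XT.nd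 (nat_lit 78) (nat_lit 0) (nat_lit 0) (XT.lf (nat_lit 0) (nat_lit 2539479517435) (nat_lit 152) (nat_lit 4971946999302) (nat_lit 0) (nat_lit 2537027722849) (nat_lit 1) (nat_lit 5) (nat_lit 3) (nat_lit 4) (nat_lit 1) (nat_lit 4) (nat_lit 285) (nat_lit 212) (nat_lit 163)) (XT.lf (nat_lit 0) (nat_lit 2922805602035) (nat_lit 152) (nat_lit 5712144681654) (nat_lit 0) (nat_lit 2920353467711) (nat_lit 1) (nat_lit 5) (nat_lit 3) (nat_lit 4) (nat_lit 1) (nat_lit 4) (nat_lit 286) (nat_lit 212) (nat_lit 162))))))) (XT.nd (nat_lit 702) (nat_lit 0) (nat_lit 0) (XT.nd (nat_lit 312) (nat_lit 0) (nat_lit 0) (XT.nd (nat_lit 156) (nat_lit 0) (nat_lit 0) (XT.nd (nat_lit 78) (nat_lit 0) (nat_lit 0) (XT.lf (nat_lit 0) (nat_lit 3363629883311) (nat_lit 152) (nat_lit 6563373461232) (nat_lit 0) (nat_lit 3361177453562) (nat_lit 1) (nat_lit 5) (nat_lit 3) (nat_lit 4) (nat_lit 1) (nat_lit 4) (nat_lit 287) (nat_lit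 212) (nat_lit 161)) (XT.lf (nat_lit 0) (nat_lit 3870577184156) (nat_lit 152) (nat_lit 7542287814160) (nat_lit 0) (nat_lit 3868124497516) (nat_lit 1) (nat_lit 5) (nat_lit 3) (nat_lit 4) (nat_lit 1) (nat_lit 4) (nat_lit 288) (nat_lit 212) (nat_lit 160))) (XT.nd (nat_lit 78) (nat_lit 0) (nat_lit 0) (XT.lf (nat_lit 0) (nat_lit 4453566038718) (nat_lit 152) (nat_lit 8668040412560) (nat_lit 0) (nat_lit 4451113128695) (nat_lit 1) (nat_lit 5) (nat_lit 3) (nat_lit 4) (nat_lit 1) (nat_lit 4) (nat_lit 289) (nat_lit 212) (nat_lit 159)) (XT.lf (nat_lit 0) (nat_lit 5124002750674) (nat_lit 152) (nat_lit 9962656850747) (nat_lit 0) (nat_lit 5121549646404) (nat_lit 1) (nat_lit 5) (nat_lit 3) (nat_lit 4) (nat_lit 1) (nat_lit 4) (nat_lit 290) (nat_lit 212) (nat_lit 158)))) (XT.nd (nat_lit 156) (nat_lit 0) (nat_lit 0) (XT.nd (nat_lit 78) (nat_lit 0) (nat_lit 0) (XT.lf (nat_lit 0) (nat_lit 5895004560038) (nat_lit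 152) (nat_lit 11451466580774) (nat_lit 0) (nat_lit 5892551286859) (nat_lit 1) (nat_lit 5) (nat_lit 3) (nat_lit 4) (nat_lit 1) (nat_lit 4) (nat_lit 291) (nat_lit 212) (nat_lit 157)) (XT.lf (nat_lit 0) (nat_lit 6781656284822) (nat_lit 152) (nat_lit 13163598488664) (nat_lit 0) (nat_lit 6779202864764) (nat_lit 1) (nat_lit 5) (nat_lit 3) (nat_lit 4) (nat_lit 1) (nat_lit 4) (nat_lit 292) (nat_lit 212) (nat_lit 156))) (XT.nd (nat_lit 78) (nat_lit 0) (nat_lit 0) (XT.lf (nat_lit 0) (nat_lit 7801305458770) (nat_lit 152) (nat_lit 15132550807395) (nat_lit 0) (nat_lit 7798851910992) (nat_lit 1) (nat_lit 5) (nat_lit 3) (nat_lit 4) (nat_lit 1) (nat_lit 4) (nat_lit 293) (nat_lit 212) (nat_lit 155)) (XT.nd (nat_lit 78) (nat_lit 0) (nat_lit 0) (XT.lf (nat_lit 0) (nat_lit 8973901739635) (nat_lit 152) (nat_lit 17396846517119) (nat_lit 0) (nat_lit 8971448080796) (nat_lit 1) (nat_lit 5) (nat_lit 3) (nat_lit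 4) (nat_lit 1) (nat_lit 4) (nat_lit 294) (nat_lit 212) (nat_lit 154)) (XT.lf (nat_lit 0) (nat_lit 10322387228562) (nat_lit 152) (nat_lit 20000787055632) (nat_lit 0) (nat_lit 10319933473148) (nat_lit 1) (nat_lit 5) (nat_lit 3) (nat_lit 4) (nat_lit 1) (nat_lit 4) (nat_lit 295) (nat_lit 212) (nat_lit 153)))))) (XT.nd (nat_lit 312) (nat_lit 0) (nat_lit 0) (XT.nd (nat_lit 156) (nat_lit 0) (nat_lit 0) (XT.nd (nat_lit 78) (nat_lit 0) (nat_lit 0) (XT.lf (nat_lit 0) (nat_lit 11873145337292) (nat_lit 152) (nat_lit 22995319085646) (nat_lit 0) (nat_lit 11870691497900) (nat_lit 1) (nat_lit 5) (nat_lit 3) (nat_lit 4) (nat_lit 1) (nat_lit 4) (nat_lit 296) (nat_lit 212) (nat_lit 152)) (XT.lf (nat_lit 0) (nat_lit 13656516985344) (nat_lit 152) (nat_lit 26439031277314) (nat_lit 0) (nat_lit 13654063072928) (nat_lit 1) (nat_lit 5) (nat_lit 3) (nat_lit 4) (nat_lit 1) (nat_lit 4) (nat_lit 297) (nat_lit 212)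 (nat_lit 151))) (XT.nd (nat_lit 78) (nat_lit 0) (nat_lit 0) (XT.lf (nat_lit 0) (nat_lit 15707394226701) (nat_lit 152) (nat_lit 30399300608297) (nat_lit 0) (nat_lit 15704940250786) (nat_lit 1) (nat_lit 5) (nat_lit 3) (nat_lit 4) (nat_lit 1) (nat_lit 4) (nat_lit 298) (nat_lit 212) (nat_lit 150)) (XT.lf (nat_lit 0) (nat_lit 18065902920434) (nat_lit 152) (nat_lit 34953610608985) (nat_lit 0) (nat_lit 18063448889301) (nat_lit 1) (nat_lit 5) (nat_lit 3) (nat_lit 4) (nat_lit 1) (nat_lit 4) (nat_lit 299) (nat_lit 212) (nat_lit 149)))) (XT.nd (nat_lit 156) (nat_lit 0) (nat_lit 0) (XT.nd (nat_lit 78) (nat_lit 0) (nat_lit 0) (XT.lf (nat_lit 0) (nat_lit 20778187801854) (nat_lit 152) (nat_lit 40191067344608) (nat_lit 0) (nat_lit 20775733722707) (nat_lit 1) (nat_lit 5) (nat_lit 3) (nat_lit 4) (nat_lit 1) (nat_lit 4) (nat_lit 300) (nat_lit 212) (nat_lit 148)) (XT.lf (nat_lit 0) (nat_lit 23897315314294)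 (nat_lit 152) (nat_lit 46214142794777) (nat_lit 0) (nat_lit 23894861193394) (nat_lit 1) (nat_lit 5) (nat_lit 3) (nat_lit 4) (nat_lit 1) (nat_lit 4) (nat_lit 301) (nat_lit 212) (nat_lit 147))) (XT.nd (nat_lit 78) (nat_lit 0) (nat_lit 0) (XT.lf (nat_lit 0) (nat_lit 27484311865605) (nat_lit 152) (nat_lit 53140679740039) (nat_lit 0) (nat_lit 27481857708400) (nat_lit 1) (nat_lit 5) (nat_lit 3) (nat_lit 4) (nat_lit 1) (nat_lit 4) (nat_lit 302) (nat_lit 212) (nat_lit 146)) (XT.nd (nat_lit 78) (nat_lit 0) (nat_lit 0) (XT.lf (nat_lit 0) (nat_lit 31609357823097) (nat_lit 152) (nat_lit 61106197381496) (nat_lit 0) (nat_lit 31606903634321) (nat_lit 1) (nat_lit 5) (nat_lit 3) (nat_lit 4) (nat_lit 1) (nat_lit 4) (nat_lit 303) (nat_lit 212) (nat_lit 145)) (XT.lf (nat_lit 0) (nat_lit 36353160607675) (nat_lit 152) (nat_lit 70266542803438) (nat_lit 0) (nat_lit 36350706391447) (nat_lit 1) (nat_lit 5) (nat_lit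 3) (nat_lit 4) (nat_lit 1) (nat_lit 4) (nat_lit 304) (nat_lit 212) (nat_lit 144))))))))
noncomputable def xc34 : XT := (XT.nd (nat_lit 1326) (nat_lit 152) (nat_lit 0) (XT.nd (nat_lit 624) (nat_lit 76) (nat_lit 0) (XT.nd (nat_lit 312) (nat_lit 228) (nat_lit 0) (XT.nd (nat_lit 156) (nat_lit 152) (nat_lit 0) (XT.nd (nat_lit 78) (nat_lit 0) (nat_lit 0) (XT.lf (nat_lit 0) (nat_lit 1087890832) (nat_lit 76) (nat_lit 2542783470) (nat_lit 76) (nat_lit 2542783470) (nat_lit 9) (nat_lit 4) (nat_lit 10) (nat_lit 5) (nat_lit 10) (nat_lit 4) (nat_lit 234) (nat_lit 213) (nat_lit 213)) (XT.lf (nat_lit 0) (nat_lit 10739051213) (nat_lit 76) (nat_lit 1651654361) (nat_lit 76) (nat_lit 1091729193) (nat_lit 9) (nat_lit 4) (nat_lit 10) (nat_lit 5) (nat_lit 10) (nat_lit 4) (nat_lit 235) (nat_lit 213) (nat_lit 212))) (XT.nd (nat_lit 78) (nat_lit 0) (nat_lit 0) (XT.lf (nat_lit 0) (nat_lit 3093914843) (nat_lit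 152) (nat_lit 9504344211) (nat_lit 0) (nat_lit 2183639523) (nat_lit 7) (nat_lit 5) (nat_lit 9) (nat_lit 4) (nat_lit 7) (nat_lit 4) (nat_lit 236) (nat_lit 213) (nat_lit 211)) (XT.lf (nat_lit 0) (nat_lit 7618587330) (nat_lit 152) (nat_lit 2337195000) (nat_lit 0) (nat_lit 6340152123) (nat_lit 7) (nat_lit 5) (nat_lit 9) (nat_lit 4) (nat_lit 7) (nat_lit 4) (nat_lit 237) (nat_lit 213) (nat_lit 210)))) (XT.nd (nat_lit 156) (nat_lit 152) (nat_lit 0) (XT.nd (nat_lit 78) (nat_lit 0) (nat_lit 0) (XT.lf (nat_lit 0) (nat_lit 5761513339) (nat_lit 76) (nat_lit 6946037593) (nat_lit 76) (nat_lit 5347463353) (nat_lit 6) (nat_lit 4) (nat_lit 7) (nat_lit 5) (nat_lit 7) (nat_lit 4) (nat_lit 238) (nat_lit 213) (nat_lit 209)) (XT.lf (nat_lit 0) (nat_lit 14711092087) (nat_lit 76) (nat_lit 3638051539) (nat_lit 76) (nat_lit 1761095533) (nat_lit 6) (nat_lit 4) (nat_lit 7) (nat_lit 5) (nat_lit 7) (nat_lit 4) (nat_lit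 239) (nat_lit 213) (nat_lit 208))) (XT.nd (nat_lit 78) (nat_lit 0) (nat_lit 0) (XT.lf (nat_lit 0) (nat_lit 1937757296) (nat_lit 152) (nat_lit 20458959869) (nat_lit 0) (nat_lit 95125028) (nat_lit 4) (nat_lit 5) (nat_lit 6) (nat_lit 4) (nat_lit 4) (nat_lit 4) (nat_lit 240) (nat_lit 213) (nat_lit 207)) (XT.lf (nat_lit 0) (nat_lit 6182300749) (nat_lit 152) (nat_lit 14853947246) (nat_lit 0) (nat_lit 4156627950) (nat_lit 4) (nat_lit 5) (nat_lit 6) (nat_lit 4) (nat_lit 4) (nat_lit 4) (nat_lit 241) (nat_lit 213) (nat_lit 206))))) (XT.nd (nat_lit 312) (nat_lit 0) (nat_lit 0) (XT.nd (nat_lit 156) (nat_lit 76) (nat_lit 0) (XT.nd (nat_lit 78) (nat_lit 0) (nat_lit 0) (XT.lf (nat_lit 0) (nat_lit 10804618944) (nat_lit 152) (nat_lit 8913887726) (nat_lit 0) (nat_lit 8619780466) (nat_lit 4) (nat_lit 5) (nat_lit 6) (nat_lit 4) (nat_lit 4) (nat_lit 4) (nat_lit 242) (nat_lit 213) (nat_lit 205)) (XT.lf (nat_lit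 0) (nat_lit 15895148541) (nat_lit 152) (nat_lit 2522562755) (nat_lit 0) (nat_lit 13571905126) (nat_lit 4) (nat_lit 5) (nat_lit 6) (nat_lit 4) (nat_lit 4) (nat_lit 4) (nat_lit 243) (nat_lit 213) (nat_lit 204))) (XT.nd (nat_lit 78) (nat_lit 0) (nat_lit 0) (XT.lf (nat_lit 0) (nat_lit 4879480419) (nat_lit 76) (nat_lit 16876055320) (nat_lit 76) (nat_lit 14432459784) (nat_lit 3) (nat_lit 4) (nat_lit 4) (nat_lit 5) (nat_lit 4) (nat_lit 4) (nat_lit 244) (nat_lit 213) (nat_lit 203)) (XT.lf (nat_lit 0) (nat_lit 13310327259) (nat_lit 76) (nat_lit 15131165528) (nat_lit 76) (nat_lit 12582915975) (nat_lit 3) (nat_lit 4) (nat_lit 4) (nat_lit 5) (nat_lit 4) (nat_lit 4) (nat_lit 245) (nat_lit 213) (nat_lit 202)))) (XT.nd (nat_lit 156) (nat_lit 0) (nat_lit 0) (XT.nd (nat_lit 78) (nat_lit 0) (nat_lit 0) (XT.lf (nat_lit 0) (nat_lit 22688405937) (nat_lit 76) (nat_lit 13280764009) (nat_lit 76) (nat_lit 10641510962)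 (nat_lit 3) (nat_lit 4) (nat_lit 4) (nat_lit 5) (nat_lit 4) (nat_lit 4) (nat_lit 246) (nat_lit 213) (nat_lit 201)) (XT.lf (nat_lit 0) (nat_lit 33197200601) (nat_lit 76) (nat_lit 11288647254) (nat_lit 76) (nat_lit 8570260735) (nat_lit 3) (nat_lit 4) (nat_lit 4) (nat_lit 5) (nat_lit 4) (nat_lit 4) (nat_lit 247) (nat_lit 213) (nat_lit 200))) (XT.nd (nat_lit 78) (nat_lit 0) (nat_lit 0) (XT.lf (nat_lit 0) (nat_lit 45042318103) (nat_lit 76) (nat_lit 9115839065) (nat_lit 76) (nat_lit 6328640831) (nat_lit 3) (nat_lit 4) (nat_lit 4) (nat_lit 5) (nat_lit 4) (nat_lit 4) (nat_lit 248) (nat_lit 213) (nat_lit 199)) (XT.nd (nat_lit 78) (nat_lit 0) (nat_lit 0) (XT.lf (nat_lit 0) (nat_lit 58455510742) (nat_lit 76) (nat_lit 6719827979) (nat_lit 76) (nat_lit 3872793471) (nat_lit 3) (nat_lit 4) (nat_lit 4) (nat_lit 5) (nat_lit 4) (nat_lit 4) (nat_lit 249) (nat_lit 213) (nat_lit 198)) (XT.lf (nat_lit 0)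 (nat_lit 73699210548) (nat_lit 76) (nat_lit 4053735518) (nat_lit 76) (nat_lit 1154669467) (nat_lit 3) (nat_lit 4) (nat_lit 4) (nat_lit 5) (nat_lit 4) (nat_lit 4) (nat_lit 250) (nat_lit 213) (nat_lit 197))))))) (XT.nd (nat_lit 702) (nat_lit 0) (nat_lit 0) (XT.nd (nat_lit 312) (nat_lit 0) (nat_lit 0) (XT.nd (nat_lit 156) (nat_lit 0) (nat_lit 0) (XT.nd (nat_lit 78) (nat_lit 0) (nat_lit 0) (XT.lf (nat_lit 0) (nat_lit 807610172) (nat_lit 76) (nat_lit 937469382) (nat_lit 152) (nat_lit 88496384930) (nat_lit 1) (nat_lit 5) (nat_lit 2) (nat_lit 5) (nat_lit 3) (nat_lit 4) (nat_lit 251) (nat_lit 213) (nat_lit 196)) (XT.lf (nat_lit 0) (nat_lit 5273454026) (nat_lit 152) (nat_lit 95268018151) (nat_lit 0) (nat_lit 2678972120) (nat_lit 1) (nat_lit 5) (nat_lit 3) (nat_lit 4) (nat_lit 1) (nat_lit 4) (nat_lit 252) (nat_lit 213) (nat_lit 195))) (XT.nd (nat_lit 78) (nat_lit 0) (nat_lit 0) (XT.lf (nat_lit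 0) (nat_lit 9303623511) (nat_lit 152) (nat_lit 102167446556) (nat_lit 0) (nat_lit 6679392401) (nat_lit 1) (nat_lit 5) (nat_lit 3) (nat_lit 4) (nat_lit 1) (nat_lit 4) (nat_lit 253) (nat_lit 213) (nat_lit 194)) (XT.lf (nat_lit 0) (nat_lit 13875620543) (nat_lit 152) (nat_lit 110228309738) (nat_lit 0) (nat_lit 11225520561) (nat_lit 1) (nat_lit 5) (nat_lit 3) (nat_lit 4) (nat_lit 1) (nat_lit 4) (nat_lit 254) (nat_lit 213) (nat_lit 193)))) (XT.nd (nat_lit 156) (nat_lit 0) (nat_lit 0) (XT.nd (nat_lit 78) (nat_lit 0) (nat_lit 0) (XT.lf (nat_lit 0) (nat_lit 19078897238) (nat_lit 152) (nat_lit 119608320236) (nat_lit 0) (nat_lit 16406302584) (nat_lit 1) (nat_lit 5) (nat_lit 3) (nat_lit 4) (nat_lit 1) (nat_lit 4) (nat_lit 255) (nat_lit 213) (nat_lit 192)) (XT.lf (nat_lit 0) (nat_lit 25015256837) (nat_lit 152) (nat_lit 130490999995) (nat_lit 0) (nat_lit 22323101598) (nat_lit 1) (nat_lit 5) (nat_lit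 3) (nat_lit 4) (nat_lit 1) (nat_lit 4) (nat_lit 256) (nat_lit 213) (nat_lit 191))) (XT.nd (nat_lit 78) (nat_lit 0) (nat_lit 0) (XT.lf (nat_lit 0) (nat_lit 31800845504) (nat_lit 152) (nat_lit 143089271010) (nat_lit 0) (nat_lit 29091681062) (nat_lit 1) (nat_lit 5) (nat_lit 3) (nat_lit 4) (nat_lit 1) (nat_lit 4) (nat_lit 257) (nat_lit 213) (nat_lit 190)) (XT.nd (nat_lit 78) (nat_lit 0) (nat_lit 0) (XT.lf (nat_lit 0) (nat_lit 39568424758) (nat_lit 152) (nat_lit 157649621193) (nat_lit 0) (nat_lit 36844469704) (nat_lit 1) (nat_lit 5) (nat_lit 3) (nat_lit 4) (nat_lit 1) (nat_lit 4) (nat_lit 258) (nat_lit 213) (nat_lit 189)) (XT.lf (nat_lit 0) (nat_lit 48469968974) (nat_lit 152) (nat_lit 174456926960) (nat_lit 0) (nat_lit 45733152519) (nat_lit 1) (nat_lit 5) (nat_lit 3) (nat_lit 4) (nat_lit 1) (nat_lit 4) (nat_lit 259) (nat_lit 213) (nat_lit 188)))))) (XT.nd (nat_lit 312) (nat_lit 0) (nat_lit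 0) (XT.nd (nat_lit 156) (nat_lit 0) (nat_lit 0) (XT.nd (nat_lit 78) (nat_lit 0) (nat_lit 0) (XT.lf (nat_lit 0) (nat_lit 58679638802) (nat_lit 152) (nat_lit 193840026902) (nat_lit 0) (nat_lit 55931638519) (nat_lit 1) (nat_lit 5) (nat_lit 3) (nat_lit 4) (nat_lit 1) (nat_lit 4) (nat_lit 260) (nat_lit 213) (nat_lit 187)) (XT.lf (nat_lit 0) (nat_lit 70397188649) (nat_lit 152) (nat_lit 216178155583) (nat_lit 0) (nat_lit 67639463299) (nat_lit 1) (nat_lit 5) (nat_lit 3) (nat_lit 4) (nat_lit 1) (nat_lit 4) (nat_lit 261) (nat_lit 213) (nat_lit 186))) (XT.nd (nat_lit 78) (nat_lit 0) (nat_lit 0) (XT.lf (nat_lit 0) (nat_lit 83851874928) (nat_lit 152) (nat_lit 241908363348) (nat_lit 0) (nat_lit 81085692997) (nat_lit 1) (nat_lit 5) (nat_lit 3) (nat_lit 4) (nat_lit 1) (nat_lit 4) (nat_lit 262) (nat_lit 213) (nat_lit 185)) (XT.lf (nat_lit 0) (nat_lit 99306941499) (nat_lit 152) (nat_lit 271534067304)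 (nat_lit 0) (nat_lit 96533406020) (nat_lit 1) (nat_lit 5) (nat_lit 3) (nat_lit 4) (nat_lit 1) (nat_lit 4) (nat_lit 263) (nat_lit 213) (nat_lit 184)))) (XT.nd (nat_lit 156) (nat_lit 0) (nat_lit 0) (XT.nd (nat_lit 78) (nat_lit 0) (nat_lit 0) (XT.lf (nat_lit 0) (nat_lit 117064770099) (nat_lit 152) (nat_lit 305634900790) (nat_lit 0) (nat_lit 114284840231) (nat_lit 1) (nat_lit 5) (nat_lit 3) (nat_lit 4) (nat_lit 1) (nat_lit 4) (nat_lit 264) (nat_lit 213) (nat_lit 183)) (XT.lf (nat_lit 0) (nat_lit 137472796506) (nat_lit 152) (nat_lit 344878054026) (nat_lit 0) (nat_lit 134687306299) (nat_lit 1) (nat_lit 5) (nat_lit 3) (nat_lit 4) (nat_lit 1) (nat_lit 4) (nat_lit 265) (nat_lit 213) (nat_lit 182))) (XT.nd (nat_lit 78) (nat_lit 0) (nat_lit 0) (XT.lf (nat_lit 0) (nat_lit 160930308194) (nat_lit 152) (nat_lit 390031327837) (nat_lit 0) (nat_lit 158139982909) (nat_lit 1) (nat_lit 5) (nat_lit 3) (nat_lit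 4) (nat_lit 1) (nat_lit 4) (nat_lit 266) (nat_lit 213) (nat_lit 181)) (XT.nd (nat_lit 78) (nat_lit 0) (nat_lit 0) (XT.lf (nat_lit 0) (nat_lit 187896256476) (nat_lit 152) (nat_lit 441978155840) (nat_lit 0) (nat_lit 185101726777) (nat_lit 1) (nat_lit 5) (nat_lit 3) (nat_lit 4) (nat_lit 1) (nat_lit 4) (nat_lit 267) (nat_lit 213) (nat_lit 180)) (XT.lf (nat_lit 0) (nat_lit 218898235995) (nat_lit 152) (nat_lit 501734889018) (nat_lit 0) (nat_lit 216100050282) (nat_lit 1) (nat_lit 5) (nat_lit 3) (nat_lit 4) (nat_lit 1) (nat_lit 4) (nat_lit 268) (nat_lit 213) (nat_lit 179))))))))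
noncomputable def xc35 : XT := (XT.nd (nat_lit 1404) (nat_lit 0) (nat_lit 0) (XT.nd (nat_lit 702) (nat_lit 0) (nat_lit 0) (XT.nd (nat_lit 312) (nat_lit 0) (nat_lit 0) (XT.nd (nat_lit 156) (nat_lit 0) (nat_lit 0) (XT.nd (nat_lit 78) (nat_lit 0) (nat_lit 0) (XT.lf (nat_lit 0) (nat_lit 254542807218) (nat_lit 152) (nat_lit 570470680846) (nat_lit 0) (nat_lit 251741442364) (nat_lit 1) (nat_lit 5) (nat_lit 3) (nat_lit 4) (nat_lit 1) (nat_lit 4) (nat_lit 269) (nat_lit 213) (nat_lit 178)) (XT.lf (nat_lit 0) (nat_lit 295527363930) (nat_lit 152) (nat_lit 649530362034) (nat_lit 0) (nat_lit 292723234605) (nat_lit 1) (nat_lit 5) (nat_lit 3) (nat_lit 4) (nat_lit 1) (nat_lit 4) (nat_lit 270) (nat_lit 213) (nat_lit 177))) (XT.nd (nat_lit 78) (nat_lit 0) (nat_lit 0) (XT.lf (nat_lit 0) (nat_lit 342653777894) (nat_lit 152) (nat_lit 740460752431) (nat_lit 0) (nat_lit 339847244681) (nat_lit 1) (nat_lit 5)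 (nat_lit 3) (nat_lit 4) (nat_lit 1) (nat_lit 4) (nat_lit 271) (nat_lit 213) (nat_lit 176)) (XT.lf (nat_lit 0) (nat_lit 396844087643) (nat_lit 152) (nat_lit 845040924894) (nat_lit 0) (nat_lit 394035464093) (nat_lit 1) (nat_lit 5) (nat_lit 3) (nat_lit 4) (nat_lit 1) (nat_lit 4) (nat_lit 272) (nat_lit 213) (nat_lit 175)))) (XT.nd (nat_lit 156) (nat_lit 0) (nat_lit 0) (XT.nd (nat_lit 78) (nat_lit 0) (nat_lit 0) (XT.lf (nat_lit 0) (nat_lit 459158538368) (nat_lit 152) (nat_lit 965317013230) (nat_lit 0) (nat_lit 456348097133) (nat_lit 1) (nat_lit 5) (nat_lit 3) (nat_lit 4) (nat_lit 1) (nat_lit 4) (nat_lit 273) (nat_lit 213) (nat_lit 174)) (XT.lf (nat_lit 0) (nat_lit 530816325845) (nat_lit 152) (nat_lit 1103642245255) (nat_lit 0) (nat_lit 528004304014) (nat_lit 1) (nat_lit 5) (nat_lit 3) (nat_lit 4) (nat_lit 1) (nat_lit 4) (nat_lit 274) (nat_lit 213) (nat_lit 173))) (XT.nd (nat_lit 78) (nat_lit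 0) (nat_lit 0) (XT.lf (nat_lit 0) (nat_lit 613219450262) (nat_lit 152) (nat_lit 1262722984205) (nat_lit 0) (nat_lit 610406054000) (nat_lit 1) (nat_lit 5) (nat_lit 3) (nat_lit 4) (nat_lit 1) (nat_lit 4) (nat_lit 275) (nat_lit 213) (nat_lit 172)) (XT.nd (nat_lit 78) (nat_lit 0) (nat_lit 0) (XT.lf (nat_lit 0) (nat_lit 707980146662) (nat_lit 152) (nat_lit 1445671679320) (nat_lit 0) (nat_lit 705165555244) (nat_lit 1) (nat_lit 5) (nat_lit 3) (nat_lit 4) (nat_lit 1) (nat_lit 4) (nat_lit 276) (nat_lit 213) (nat_lit 171)) (XT.lf (nat_lit 0) (nat_lit 816952428672) (nat_lit 152) (nat_lit 1656067761591) (nat_lit 0) (nat_lit 814136797987) (nat_lit 1) (nat_lit 5) (nat_lit 3) (nat_lit 4) (nat_lit 1) (nat_lit 4) (nat_lit 277) (nat_lit 213) (nat_lit 170)))))) (XT.nd (nat_lit 312) (nat_lit 0) (nat_lit 0) (XT.nd (nat_lit 156) (nat_lit 0) (nat_lit 0) (XT.nd (nat_lit 78) (nat_lit 0) (nat_lit 0) (XT.lf (nat_lit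 0) (nat_lit 942268362678) (nat_lit 152) (nat_lit 1898027676106) (nat_lit 0) (nat_lit 939451828282) (nat_lit 1) (nat_lit 5) (nat_lit 3) (nat_lit 4) (nat_lit 1) (nat_lit 4) (nat_lit 278) (nat_lit 213) (nat_lit 169)) (XT.lf (nat_lit 0) (nat_lit 1086379782172) (nat_lit 152) (nat_lit 2176285421193) (nat_lit 0) (nat_lit 1083562461941) (nat_lit 1) (nat_lit 5) (nat_lit 3) (nat_lit 4) (nat_lit 1) (nat_lit 4) (nat_lit 279) (nat_lit 213) (nat_lit 168))) (XT.nd (nat_lit 78) (nat_lit 0) (nat_lit 0) (XT.lf (nat_lit 0) (nat_lit 1252106258404) (nat_lit 152) (nat_lit 2496285170124) (nat_lit 0) (nat_lit 1249288254838) (nat_lit 1) (nat_lit 5) (nat_lit 3) (nat_lit 4) (nat_lit 1) (nat_lit 4) (nat_lit 280) (nat_lit 213) (nat_lit 167)) (XT.lf (nat_lit 0) (nat_lit 1442690265910) (nat_lit 152) (nat_lit 2864287787554) (nat_lit 0) (nat_lit 1439871668139) (nat_lit 1) (nat_lit 5) (nat_lit 3) (nat_lit 4) (nat_lit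 1) (nat_lit 4) (nat_lit 281) (nat_lit 213) (nat_lit 166)))) (XT.nd (nat_lit 156) (nat_lit 0) (nat_lit 0) (XT.nd (nat_lit 78) (nat_lit 0) (nat_lit 0) (XT.lf (nat_lit 0) (nat_lit 1661860622227) (nat_lit 152) (nat_lit 3287493324692) (nat_lit 0) (nat_lit 1659041507757) (nat_lit 1) (nat_lit 5) (nat_lit 3) (nat_lit 4) (nat_lit 1) (nat_lit 4) (nat_lit 282) (nat_lit 213) (nat_lit 165)) (XT.lf (nat_lit 0) (nat_lit 1913905443023) (nat_lit 152) (nat_lit 3774181889874) (nat_lit 0) (nat_lit 1911085879250) (nat_lit 1) (nat_lit 5) (nat_lit 3) (nat_lit 4) (nat_lit 1) (nat_lit 4) (nat_lit 283) (nat_lit 213) (nat_lit 164))) (XT.nd (nat_lit 78) (nat_lit 0) (nat_lit 0) (XT.lf (nat_lit 0) (nat_lit 2203756040010) (nat_lit 152) (nat_lit 4333875650680) (nat_lit 0) (nat_lit 2200936085537) (nat_lit 1) (nat_lit 5) (nat_lit 3) (nat_lit 4) (nat_lit 1) (nat_lit 4) (nat_lit 284) (nat_lit 213) (nat_lit 163)) (XT.nd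 (nat_lit 78) (nat_lit 0) (nat_lit 0) (XT.lf (nat_lit 0) (nat_lit 2537083403127) (nat_lit 152) (nat_lit 4977525137212) (nat_lit 0) (nat_lit 2534263108916) (nat_lit 1) (nat_lit 5) (nat_lit 3) (nat_lit 4) (nat_lit 1) (nat_lit 4) (nat_lit 285) (nat_lit 213) (nat_lit 162)) (XT.lf (nat_lit 0) (nat_lit 2920409154697) (nat_lit 152) (nat_lit 5717723491598) (nat_lit 0) (nat_lit 2917588565061) (nat_lit 1) (nat_lit 5) (nat_lit 3) (nat_lit 4) (nat_lit 1) (nat_lit 4) (nat_lit 286) (nat_lit 213) (nat_lit 161))))))) (XT.nd (nat_lit 702) (nat_lit 0) (nat_lit 0) (XT.nd (nat_lit 312) (nat_lit 0) (nat_lit 0) (XT.nd (nat_lit 156) (nat_lit 0) (nat_lit 0) (XT.nd (nat_lit 78) (nat_lit 0) (nat_lit 0) (XT.lf (nat_lit 0) (nat_lit 3361233146381) (nat_lit 152) (nat_lit 6568952855554) (nat_lit 0) (nat_lit 3358412299854) (nat_lit 1) (nat_lit 5) (nat_lit 3) (nat_lit 4) (nat_lit 1) (nat_lit 4) (nat_lit 287) (nat_lit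 213) (nat_lit 160)) (XT.lf (nat_lit 0) (nat_lit 3868180195408) (nat_lit 152) (nat_lit 7547867716637) (nat_lit 0) (nat_lit 3865359125498) (nat_lit 1) (nat_lit 5) (nat_lit 3) (nat_lit 4) (nat_lit 1) (nat_lit 4) (nat_lit 288) (nat_lit 213) (nat_lit 159))) (XT.nd (nat_lit 78) (nat_lit 0) (nat_lit 0) (XT.lf (nat_lit 0) (nat_lit 4451168830997) (nat_lit 152) (nat_lit 8673620756910) (nat_lit 0) (nat_lit 4448347566841) (nat_lit 1) (nat_lit 5) (nat_lit 3) (nat_lit 4) (nat_lit 1) (nat_lit 4) (nat_lit 289) (nat_lit 213) (nat_lit 158)) (XT.lf (nat_lit 0) (nat_lit 5121605352542) (nat_lit 152) (nat_lit 9968237579335) (nat_lit 0) (nat_lit 5118783919475) (nat_lit 1) (nat_lit 5) (nat_lit 3) (nat_lit 4) (nat_lit 1) (nat_lit 4) (nat_lit 290) (nat_lit 213) (nat_lit 157)))) (XT.nd (nat_lit 156) (nat_lit 0) (nat_lit 0) (XT.nd (nat_lit 78) (nat_lit 0) (nat_lit 0) (XT.lf (nat_lit 0) (nat_lit 5892606996332) (nat_lit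 152) (nat_lit 11457047643483) (nat_lit 0) (nat_lit 5889785416387) (nat_lit 1) (nat_lit 5) (nat_lit 3) (nat_lit 4) (nat_lit 1) (nat_lit 4) (nat_lit 291) (nat_lit 213) (nat_lit 156)) (XT.lf (nat_lit 0) (nat_lit 6779258577137) (nat_lit 152) (nat_lit 13169179841911) (nat_lit 0) (nat_lit 6776436869472) (nat_lit 1) (nat_lit 5) (nat_lit 3) (nat_lit 4) (nat_lit 1) (nat_lit 4) (nat_lit 292) (nat_lit 213) (nat_lit 155))) (XT.nd (nat_lit 78) (nat_lit 0) (nat_lit 0) (XT.lf (nat_lit 0) (nat_lit 7798907625887) (nat_lit 152) (nat_lit 15138132413285) (nat_lit 0) (nat_lit 7796085807161) (nat_lit 1) (nat_lit 5) (nat_lit 3) (nat_lit 4) (nat_lit 1) (nat_lit 4) (nat_lit 293) (nat_lit 213) (nat_lit 154)) (XT.nd (nat_lit 78) (nat_lit 0) (nat_lit 0) (XT.lf (nat_lit 0) (nat_lit 8971503797883) (nat_lit 152) (nat_lit 17402428342698) (nat_lit 0) (nat_lit 8968681882582) (nat_lit 1) (nat_lit 5) (nat_lit 3) (nat_lit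 4) (nat_lit 1) (nat_lit 4) (nat_lit 294) (nat_lit 213) (nat_lit 153)) (XT.lf (nat_lit 0) (nat_lit 10319989192142) (nat_lit 152) (nat_lit 20006369072246) (nat_lit 0) (nat_lit 10317167192864) (nat_lit 1) (nat_lit 5) (nat_lit 3) (nat_lit 4) (nat_lit 1) (nat_lit 4) (nat_lit 295) (nat_lit 213) (nat_lit 152)))))) (XT.nd (nat_lit 312) (nat_lit 0) (nat_lit 0) (XT.nd (nat_lit 156) (nat_lit 0) (nat_lit 0) (XT.nd (nat_lit 78) (nat_lit 0) (nat_lit 0) (XT.lf (nat_lit 0) (nat_lit 11870747218553) (nat_lit 152) (nat_lit 23000901268377) (nat_lit 0) (nat_lit 11867925146250) (nat_lit 1) (nat_lit 5) (nat_lit 3) (nat_lit 4) (nat_lit 1) (nat_lit 4) (nat_lit 296) (nat_lit 213) (nat_lit 151)) (XT.lf (nat_lit 0) (nat_lit 13654118795022) (nat_lit 152) (nat_lit 26444613604493) (nat_lit 0) (nat_lit 13651296659220) (nat_lit 1) (nat_lit 5) (nat_lit 3) (nat_lit 4) (nat_lit 1) (nat_lit 4) (nat_lit 297) (nat_lit 213)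 (nat_lit 150))) (XT.nd (nat_lit 78) (nat_lit 0) (nat_lit 0) (XT.lf (nat_lit 0) (nat_lit 15704995974134) (nat_lit 152) (nat_lit 30404883061084) (nat_lit 0) (nat_lit 15702173783114) (nat_lit 1) (nat_lit 5) (nat_lit 3) (nat_lit 4) (nat_lit 1) (nat_lit 4) (nat_lit 298) (nat_lit 213) (nat_lit 149)) (XT.lf (nat_lit 0) (nat_lit 18063504613740) (nat_lit 152) (nat_lit 34959193170996) (nat_lit 0) (nat_lit 18060682374705) (nat_lit 1) (nat_lit 5) (nat_lit 3) (nat_lit 4) (nat_lit 1) (nat_lit 4) (nat_lit 299) (nat_lit 213) (nat_lit 148)))) (XT.nd (nat_lit 156) (nat_lit 0) (nat_lit 0) (XT.nd (nat_lit 78) (nat_lit 0) (nat_lit 0) (XT.lf (nat_lit 0) (nat_lit 20775789448093) (nat_lit 152) (nat_lit 40196650001598) (nat_lit 0) (nat_lit 20772967167307) (nat_lit 1) (nat_lit 5) (nat_lit 3) (nat_lit 4) (nat_lit 1) (nat_lit 4) (nat_lit 300) (nat_lit 213) (nat_lit 147)) (XT.lf (nat_lit 0) (nat_lit 23894916919605)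 (nat_lit 152) (nat_lit 46219725534356) (nat_lit 0) (nat_lit 23892094602513) (nat_lit 1) (nat_lit 5) (nat_lit 3) (nat_lit 4) (nat_lit 1) (nat_lit 4) (nat_lit 301) (nat_lit 213) (nat_lit 146))) (XT.nd (nat_lit 78) (nat_lit 0) (nat_lit 0) (XT.lf (nat_lit 0) (nat_lit 27481913435328) (nat_lit 152) (nat_lit 53146262551435) (nat_lit 0) (nat_lit 27479091086665) (nat_lit 1) (nat_lit 5) (nat_lit 3) (nat_lit 4) (nat_lit 1) (nat_lit 4) (nat_lit 302) (nat_lit 213) (nat_lit 145)) (XT.nd (nat_lit 28860) (nat_lit 0) (nat_lit 836) (XT.lf (nat_lit 0) (nat_lit 31606959361872) (nat_lit 152) (nat_lit 61111780255341) (nat_lit 0) (nat_lit 31604136985756) (nat_lit 1) (nat_lit 5) (nat_lit 3) (nat_lit 4) (nat_lit 1) (nat_lit 4) (nat_lit 303) (nat_lit 213) (nat_lit 144)) (XT.lf (nat_lit 0) (nat_lit 4474618367) (nat_lit 152) (nat_lit 398343986) (nat_lit 152) (nat_lit 398343986) (nat_lit 12) (nat_lit 4) (nat_lit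 14) (nat_lit 5) (nat_lit 14) (nat_lit 4) (nat_lit 232) (nat_lit 214) (nat_lit 214))))))))
noncomputable def xc36 : XT := (XT.nd (nat_lit 1326) (nat_lit 152) (nat_lit 0) (XT.nd (nat_lit 624) (nat_lit 152) (nat_lit 0) (XT.nd (nat_lit 312) (nat_lit 152) (nat_lit 0) (XT.nd (nat_lit 156) (nat_lit 152) (nat_lit 0) (XT.nd (nat_lit 78) (nat_lit 76) (nat_lit 0) (XT.lf (nat_lit 0) (nat_lit 3294125115) (nat_lit 152) (nat_lit 5438977186) (nat_lit 0) (nat_lit 2650211172) (nat_lit 10) (nat_lit 5) (nat_lit 12) (nat_lit 4) (nat_lit 10) (nat_lit 4) (nat_lit 233) (nat_lit 214) (nat_lit 213)) (XT.lf (nat_lit 0) (nat_lit 1801377014) (nat_lit 76) (nat_lit 5890973325) (nat_lit 76) (nat_lit 4687134213) (nat_lit 9) (nat_lit 4) (nat_lit 10) (nat_lit 5) (nat_lit 10) (nat_lit 4) (nat_lit 234) (nat_lit 214) (nat_lit 212))) (XT.nd (nat_lit 78) (nat_lit 152) (nat_lit 0) (XT.lf (nat_lit 0) (nat_lit 10039077302) (nat_lit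 76) (nat_lit 2597488953) (nat_lit 76) (nat_lit 906758391) (nat_lit 9) (nat_lit 4) (nat_lit 10) (nat_lit 5) (nat_lit 10) (nat_lit 4) (nat_lit 235) (nat_lit 214) (nat_lit 211)) (XT.lf (nat_lit 0) (nat_lit 2998217477) (nat_lit 152) (nat_lit 10723610772) (nat_lit 0) (nat_lit 1159857102) (nat_lit 7) (nat_lit 5) (nat_lit 9) (nat_lit 4) (nat_lit 7) (nat_lit 4) (nat_lit 236) (nat_lit 214) (nat_lit 210)))) (XT.nd (nat_lit 156) (nat_lit 76) (nat_lit 0) (XT.nd (nat_lit 78) (nat_lit 76) (nat_lit 0) (XT.lf (nat_lit 0) (nat_lit 7358712411) (nat_lit 152) (nat_lit 3861783892) (nat_lit 0) (nat_lit 5200213004) (nat_lit 7) (nat_lit 5) (nat_lit 9) (nat_lit 4) (nat_lit 7) (nat_lit 4) (nat_lit 237) (nat_lit 214) (nat_lit 209)) (XT.lf (nat_lit 0) (nat_lit 3796486490) (nat_lit 76) (nat_lit 8427058862) (nat_lit 76) (nat_lit 5990177688) (nat_lit 6) (nat_lit 4) (nat_lit 7) (nat_lit 5) (nat_lit 7) (nat_lit 4) (nat_lit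 238) (nat_lit 214) (nat_lit 208))) (XT.nd (nat_lit 78) (nat_lit 76) (nat_lit 0) (XT.lf (nat_lit 0) (nat_lit 12492635635) (nat_lit 76) (nat_lit 5237866616) (nat_lit 76) (nat_lit 2558914340) (nat_lit 6) (nat_lit 4) (nat_lit 7) (nat_lit 5) (nat_lit 7) (nat_lit 4) (nat_lit 239) (nat_lit 214) (nat_lit 207)) (XT.lf (nat_lit 0) (nat_lit 999392665) (nat_lit 152) (nat_lit 740754654) (nat_lit 76) (nat_lit 20967770336) (nat_lit 5) (nat_lit 5) (nat_lit 7) (nat_lit 5) (nat_lit 6) (nat_lit 4) (nat_lit 240) (nat_lit 214) (nat_lit 206))))) (XT.nd (nat_lit 312) (nat_lit 0) (nat_lit 0) (XT.nd (nat_lit 156) (nat_lit 76) (nat_lit 0) (XT.nd (nat_lit 78) (nat_lit 0) (nat_lit 0) (XT.lf (nat_lit 0) (nat_lit 5016184541) (nat_lit 152) (nat_lit 18082654692) (nat_lit 0) (nat_lit 2344454613) (nat_lit 4) (nat_lit 5) (nat_lit 6) (nat_lit 4) (nat_lit 4) (nat_lit 4) (nat_lit 241) (nat_lit 214) (nat_lit 205)) (XT.lf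 (nat_lit 0) (nat_lit 9533788166) (nat_lit 152) (nat_lit 12347127021) (nat_lit 0) (nat_lit 6723653300) (nat_lit 4) (nat_lit 5) (nat_lit 6) (nat_lit 4) (nat_lit 4) (nat_lit 4) (nat_lit 242) (nat_lit 214) (nat_lit 204))) (XT.nd (nat_lit 78) (nat_lit 76) (nat_lit 0) (XT.lf (nat_lit 0) (nat_lit 14533261615) (nat_lit 152) (nat_lit 6133655832) (nat_lit 0) (nat_lit 11602774630) (nat_lit 4) (nat_lit 5) (nat_lit 6) (nat_lit 4) (nat_lit 4) (nat_lit 4) (nat_lit 243) (nat_lit 214) (nat_lit 203)) (XT.lf (nat_lit 0) (nat_lit 745715545) (nat_lit 76) (nat_lit 19397583621) (nat_lit 76) (nat_lit 16362442617) (nat_lit 3) (nat_lit 4) (nat_lit 4) (nat_lit 5) (nat_lit 4) (nat_lit 4) (nat_lit 244) (nat_lit 214) (nat_lit 202)))) (XT.nd (nat_lit 156) (nat_lit 0) (nat_lit 0) (XT.nd (nat_lit 78) (nat_lit 0) (nat_lit 0) (XT.lf (nat_lit 0) (nat_lit 9028936716) (nat_lit 76) (nat_lit 17725355104) (nat_lit 76) (nat_lit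 14599210607) (nat_lit 3) (nat_lit 4) (nat_lit 4) (nat_lit 5) (nat_lit 4) (nat_lit 4) (nat_lit 245) (nat_lit 214) (nat_lit 201)) (XT.lf (nat_lit 0) (nat_lit 18278645247) (nat_lit 76) (nat_lit 15938137302) (nat_lit 76) (nat_lit 12732859332) (nat_lit 3) (nat_lit 4) (nat_lit 4) (nat_lit 5) (nat_lit 4) (nat_lit 4) (nat_lit 246) (nat_lit 214) (nat_lit 200))) (XT.nd (nat_lit 78) (nat_lit 0) (nat_lit 0) (XT.lf (nat_lit 0) (nat_lit 28675813696) (nat_lit 76) (nat_lit 14000962910) (nat_lit 76) (nat_lit 10726873225) (nat_lit 3) (nat_lit 4) (nat_lit 4) (nat_lit 5) (nat_lit 4) (nat_lit 4) (nat_lit 247) (nat_lit 214) (nat_lit 199)) (XT.nd (nat_lit 78) (nat_lit 0) (nat_lit 0) (XT.lf (nat_lit 0) (nat_lit 40423864924) (nat_lit 76) (nat_lit 11875930689) (nat_lit 76) (nat_lit 8542004730) (nat_lit 3) (nat_lit 4) (nat_lit 4) (nat_lit 5) (nat_lit 4) (nat_lit 4) (nat_lit 248) (nat_lit 214) (nat_lit 198)) (XT.lf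 (nat_lit 0) (nat_lit 53752652108) (nat_lit 76) (nat_lit 9521463923) (nat_lit 76) (nat_lit 6135506421) (nat_lit 3) (nat_lit 4) (nat_lit 4) (nat_lit 5) (nat_lit 4) (nat_lit 4) (nat_lit 249) (nat_lit 214) (nat_lit 197))))))) (XT.nd (nat_lit 702) (nat_lit 0) (nat_lit 0) (XT.nd (nat_lit 312) (nat_lit 0) (nat_lit 0) (XT.nd (nat_lit 156) (nat_lit 152) (nat_lit 0) (XT.nd (nat_lit 78) (nat_lit 0) (nat_lit 0) (XT.lf (nat_lit 0) (nat_lit 68922955866) (nat_lit 76) (nat_lit 6891496957) (nat_lit 76) (nat_lit 3460294636) (nat_lit 3) (nat_lit 4) (nat_lit 4) (nat_lit 5) (nat_lit 4) (nat_lit 4) (nat_lit 250) (nat_lit 214) (nat_lit 196)) (XT.lf (nat_lit 0) (nat_lit 86231586490) (nat_lit 76) (nat_lit 3934573916) (nat_lit 76) (nat_lit 464028273) (nat_lit 3) (nat_lit 4) (nat_lit 4) (nat_lit 5) (nat_lit 4) (nat_lit 4) (nat_lit 251) (nat_lit 214) (nat_lit 195))) (XT.nd (nat_lit 78) (nat_lit 0) (nat_lit 0) (XT.lf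 (nat_lit 0) (nat_lit 2413350234) (nat_lit 76) (nat_lit 339257886) (nat_lit 152) (nat_lit 100912433484) (nat_lit 1) (nat_lit 5) (nat_lit 2) (nat_lit 5) (nat_lit 3) (nat_lit 4) (nat_lit 252) (nat_lit 214) (nat_lit 194)) (XT.lf (nat_lit 0) (nat_lit 6739567858) (nat_lit 152) (nat_lit 108195918582) (nat_lit 0) (nat_lit 3666084006) (nat_lit 1) (nat_lit 5) (nat_lit 3) (nat_lit 4) (nat_lit 1) (nat_lit 4) (nat_lit 253) (nat_lit 214) (nat_lit 193)))) (XT.nd (nat_lit 156) (nat_lit 0) (nat_lit 0) (XT.nd (nat_lit 78) (nat_lit 0) (nat_lit 0) (XT.lf (nat_lit 0) (nat_lit 11286206801) (nat_lit 152) (nat_lit 116307952851) (nat_lit 0) (nat_lit 8190228277) (nat_lit 1) (nat_lit 5) (nat_lit 3) (nat_lit 4) (nat_lit 1) (nat_lit 4) (nat_lit 254) (nat_lit 214) (nat_lit 192)) (XT.lf (nat_lit 0) (nat_lit 16467432984) (nat_lit 152) (nat_lit 125732459947) (nat_lit 0) (nat_lit 13351893876) (nat_lit 1) (nat_lit 5)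 (nat_lit 3) (nat_lit 4) (nat_lit 1) (nat_lit 4) (nat_lit 255) (nat_lit 214) (nat_lit 191))) (XT.nd (nat_lit 78) (nat_lit 0) (nat_lit 0) (XT.lf (nat_lit 0) (nat_lit 22384618224) (nat_lit 152) (nat_lit 136653832401) (nat_lit 0) (nat_lit 19252069912) (nat_lit 1) (nat_lit 5) (nat_lit 3) (nat_lit 4) (nat_lit 1) (nat_lit 4) (nat_lit 256) (nat_lit 214) (nat_lit 190)) (XT.nd (nat_lit 78) (nat_lit 0) (nat_lit 0) (XT.lf (nat_lit 0) (nat_lit 29153533536) (nat_lit 152) (nat_lit 149285749237) (nat_lit 0) (nat_lit 26006194612) (nat_lit 1) (nat_lit 5) (nat_lit 3) (nat_lit 4) (nat_lit 1) (nat_lit 4) (nat_lit 257) (nat_lit 214) (nat_lit 189)) (XT.lf (nat_lit 0) (nat_lit 36906614220) (nat_lit 152) (nat_lit 163875356655) (nat_lit 0) (nat_lit 33746413894) (nat_lit 1) (nat_lit 5) (nat_lit 3) (nat_lit 4) (nat_lit 1) (nat_lit 4) (nat_lit 258) (nat_lit 214) (nat_lit 188)))))) (XT.nd (nat_lit 312) (nat_lit 0)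 (nat_lit 0) (XT.nd (nat_lit 156) (nat_lit 0) (nat_lit 0) (XT.nd (nat_lit 78) (nat_lit 0) (nat_lit 0) (XT.lf (nat_lit 0) (nat_lit 45795550984) (nat_lit 152) (nat_lit 180708103497) (nat_lit 0) (nat_lit 42624166831) (nat_lit 1) (nat_lit 5) (nat_lit 3) (nat_lit 4) (nat_lit 1) (nat_lit 4) (nat_lit 259) (nat_lit 214) (nat_lit 187)) (XT.lf (nat_lit 0) (nat_lit 55994257810) (nat_lit 152) (nat_lit 200113326113) (nat_lit 0) (nat_lit 52813148590) (nat_lit 1) (nat_lit 5) (nat_lit 3) (nat_lit 4) (nat_lit 1) (nat_lit 4) (nat_lit 260) (nat_lit 214) (nat_lit 186))) (XT.nd (nat_lit 78) (nat_lit 0) (nat_lit 0) (XT.lf (nat_lit 0) (nat_lit 67702274613) (nat_lit 152) (nat_lit 222470691902) (nat_lit 0) (nat_lit 64512708812) (nat_lit 1) (nat_lit 5) (nat_lit 3) (nat_lit 4) (nat_lit 1) (nat_lit 4) (nat_lit 261) (nat_lit 214) (nat_lit 185)) (XT.lf (nat_lit 0) (nat_lit 81148671287) (nat_lit 152) (nat_lit 248217627586)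 (nat_lit 0) (nat_lit 77951751938) (nat_lit 1) (nat_lit 5) (nat_lit 3) (nat_lit 4) (nat_lit 1) (nat_lit 4) (nat_lit 262) (nat_lit 214) (nat_lit 184)))) (XT.nd (nat_lit 156) (nat_lit 0) (nat_lit 0) (XT.nd (nat_lit 78) (nat_lit 0) (nat_lit 0) (XT.lf (nat_lit 0) (nat_lit 96596529506) (nat_lit 152) (nat_lit 277857877559) (nat_lit 0) (nat_lit 93393215768) (nat_lit 1) (nat_lit 5) (nat_lit 3) (nat_lit 4) (nat_lit 1) (nat_lit 4) (nat_lit 263) (nat_lit 214) (nat_lit 183)) (XT.lf (nat_lit 0) (nat_lit 114348089975) (nat_lit 152) (nat_lit 311971359755) (nat_lit 0) (nat_lit 111139215898) (nat_lit 1) (nat_lit 5) (nat_lit 3) (nat_lit 4) (nat_lit 1) (nat_lit 4) (nat_lit 264) (nat_lit 214) (nat_lit 182))) (XT.nd (nat_lit 78) (nat_lit 0) (nat_lit 0) (XT.lf (nat_lit 0) (nat_lit 134750665833) (nat_lit 152) (nat_lit 351225511870) (nat_lit 0) (nat_lit 131536956678) (nat_lit 1) (nat_lit 5) (nat_lit 3) (nat_lit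 4) (nat_lit 1) (nat_lit 4) (nat_lit 265) (nat_lit 214) (nat_lit 181)) (XT.nd (nat_lit 78) (nat_lit 0) (nat_lit 0) (XT.lf (nat_lit 0) (nat_lit 158203437912) (nat_lit 152) (nat_lit 396388349922) (nat_lit 0) (nat_lit 154985524342) (nat_lit 1) (nat_lit 5) (nat_lit 3) (nat_lit 4) (nat_lit 1) (nat_lit 4) (nat_lit 266) (nat_lit 214) (nat_lit 180)) (XT.lf (nat_lit 0) (nat_lit 185165264796) (nat_lit 152) (nat_lit 448343494658) (nat_lit 0) (nat_lit 181943695214) (nat_lit 1) (nat_lit 5) (nat_lit 3) (nat_lit 4) (nat_lit 1) (nat_lit 4) (nat_lit 267) (nat_lit 214) (nat_lit 179))))))))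
noncomputable def xc37 : XT := (XT.nd (nat_lit 1404) (nat_lit 0) (nat_lit 0) (XT.nd (nat_lit 702) (nat_lit 0) (nat_lit 0) (XT.nd (nat_lit 312) (nat_lit 0) (nat_lit 0) (XT.nd (nat_lit 156) (nat_lit 0) (nat_lit 0) (XT.nd (nat_lit 78) (nat_lit 0) (nat_lit 0) (XT.lf (nat_lit 0) (nat_lit 216163660490) (nat_lit 152) (nat_lit 508107459777) (nat_lit 0) (nat_lit 212938911766) (nat_lit 1) (nat_lit 5) (nat_lit 3) (nat_lit 4) (nat_lit 1) (nat_lit 4) (nat_lit 268) (nat_lit 214) (nat_lit 178)) (XT.lf (nat_lit 0) (nat_lit 251805115344) (nat_lit 152) (nat_lit 576849540249) (nat_lit 0) (nat_lit 248577602148) (nat_lit 1) (nat_lit 5) (nat_lit 3) (nat_lit 4) (nat_lit 1) (nat_lit 4) (nat_lit 269) (nat_lit 214) (nat_lit 177))) (XT.nd (nat_lit 78) (nat_lit 0) (nat_lit 0) (XT.lf (nat_lit 0) (nat_lit 292786962170) (nat_lit 152) (nat_lit 655914689824) (nat_lit 0) (nat_lit 289557045087) (nat_lit 1) (nat_lit 5)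 (nat_lit 3) (nat_lit 4) (nat_lit 1) (nat_lit 4) (nat_lit 270) (nat_lit 214) (nat_lit 176)) (XT.lf (nat_lit 0) (nat_lit 339911019711) (nat_lit 152) (nat_lit 746849835340) (nat_lit 0) (nat_lit 336679012290) (nat_lit 1) (nat_lit 5) (nat_lit 3) (nat_lit 4) (nat_lit 1) (nat_lit 4) (nat_lit 271) (nat_lit 214) (nat_lit 175)))) (XT.nd (nat_lit 156) (nat_lit 0) (nat_lit 0) (XT.nd (nat_lit 78) (nat_lit 0) (nat_lit 0) (XT.lf (nat_lit 0) (nat_lit 394099280396) (nat_lit 152) (nat_lit 851434142688) (nat_lit 0) (nat_lit 390865455291) (nat_lit 1) (nat_lit 5) (nat_lit 3) (nat_lit 4) (nat_lit 1) (nat_lit 4) (nat_lit 272) (nat_lit 214) (nat_lit 174)) (XT.lf (nat_lit 0) (nat_lit 456411949327) (nat_lit 152) (nat_lit 971713826578) (nat_lit 0) (nat_lit 453176543627) (nat_lit 1) (nat_lit 5) (nat_lit 3) (nat_lit 4) (nat_lit 1) (nat_lit 4) (nat_lit 273) (nat_lit 214) (nat_lit 173))) (XT.nd (nat_lit 78) (nat_lit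 0) (nat_lit 0) (XT.lf (nat_lit 0) (nat_lit 528068187417) (nat_lit 152) (nat_lit 1110042185171) (nat_lit 0) (nat_lit 524831407286) (nat_lit 1) (nat_lit 5) (nat_lit 3) (nat_lit 4) (nat_lit 1) (nat_lit 4) (nat_lit 274) (nat_lit 214) (nat_lit 172)) (XT.nd (nat_lit 78) (nat_lit 0) (nat_lit 0) (XT.lf (nat_lit 0) (nat_lit 610469964542) (nat_lit 152) (nat_lit 1269125642875) (nat_lit 0) (nat_lit 607231989253) (nat_lit 1) (nat_lit 5) (nat_lit 3) (nat_lit 4) (nat_lit 1) (nat_lit 4) (nat_lit 275) (nat_lit 214) (nat_lit 171)) (XT.lf (nat_lit 0) (nat_lit 705229489384) (nat_lit 152) (nat_lit 1452076702125) (nat_lit 0) (nat_lit 701990474828) (nat_lit 1) (nat_lit 5) (nat_lit 3) (nat_lit 4) (nat_lit 1) (nat_lit 4) (nat_lit 276) (nat_lit 214) (nat_lit 170)))))) (XT.nd (nat_lit 312) (nat_lit 0) (nat_lit 0) (XT.nd (nat_lit 156) (nat_lit 0) (nat_lit 0) (XT.nd (nat_lit 78) (nat_lit 0) (nat_lit 0) (XT.lf (nat_lit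 0) (nat_lit 814200752647) (nat_lit 152) (nat_lit 1662474840165) (nat_lit 0) (nat_lit 810960834381) (nat_lit 1) (nat_lit 5) (nat_lit 3) (nat_lit 4) (nat_lit 1) (nat_lit 4) (nat_lit 277) (nat_lit 214) (nat_lit 169)) (XT.lf (nat_lit 0) (nat_lit 939515800786) (nat_lit 152) (nat_lit 1904436542305) (nat_lit 0) (nat_lit 936275096685) (nat_lit 1) (nat_lit 5) (nat_lit 3) (nat_lit 4) (nat_lit 1) (nat_lit 4) (nat_lit 278) (nat_lit 214) (nat_lit 168))) (XT.nd (nat_lit 78) (nat_lit 0) (nat_lit 0) (XT.lf (nat_lit 0) (nat_lit 1083626449961) (nat_lit 152) (nat_lit 2182695841848) (nat_lit 0) (nat_lit 1080385062525) (nat_lit 1) (nat_lit 5) (nat_lit 3) (nat_lit 4) (nat_lit 1) (nat_lit 4) (nat_lit 279) (nat_lit 214) (nat_lit 167)) (XT.lf (nat_lit 0) (nat_lit 1249352256351) (nat_lit 152) (nat_lit 2502696942481) (nat_lit 0) (nat_lit 1246110274710) (nat_lit 1) (nat_lit 5) (nat_lit 3) (nat_lit 4) (nat_lit 1)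 (nat_lit 4) (nat_lit 280) (nat_lit 214) (nat_lit 166)))) (XT.nd (nat_lit 156) (nat_lit 0) (nat_lit 0) (XT.nd (nat_lit 78) (nat_lit 0) (nat_lit 0) (XT.lf (nat_lit 0) (nat_lit 1439935681385) (nat_lit 152) (nat_lit 2870700735304) (nat_lit 0) (nat_lit 1436693183045) (nat_lit 1) (nat_lit 5) (nat_lit 3) (nat_lit 4) (nat_lit 1) (nat_lit 4) (nat_lit 281) (nat_lit 214) (nat_lit 165)) (XT.lf (nat_lit 0) (nat_lit 1659105531205) (nat_lit 152) (nat_lit 3293907294522) (nat_lit 0) (nat_lit 1655862583561) (nat_lit 1) (nat_lit 5) (nat_lit 3) (nat_lit 4) (nat_lit 1) (nat_lit 4) (nat_lit 282) (nat_lit 214) (nat_lit 164))) (XT.nd (nat_lit 78) (nat_lit 0) (nat_lit 0) (XT.lf (nat_lit 0) (nat_lit 1911149911569) (nat_lit 152) (nat_lit 3780596748470) (nat_lit 0) (nat_lit 1907906573226) (nat_lit 1) (nat_lit 5) (nat_lit 3) (nat_lit 4) (nat_lit 1) (nat_lit 4) (nat_lit 283) (nat_lit 214) (nat_lit 163)) (XT.nd (nat_lit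 78) (nat_lit 0) (nat_lit 0) (XT.lf (nat_lit 0) (nat_lit 2201000125571) (nat_lit 152) (nat_lit 4340291282116) (nat_lit 0) (nat_lit 2197756447490) (nat_lit 1) (nat_lit 5) (nat_lit 3) (nat_lit 4) (nat_lit 1) (nat_lit 4) (nat_lit 284) (nat_lit 214) (nat_lit 162)) (XT.lf (nat_lit 0) (nat_lit 2534327155658) (nat_lit 152) (nat_lit 4983941440682) (nat_lit 0) (nat_lit 2531083182152) (nat_lit 1) (nat_lit 5) (nat_lit 3) (nat_lit 4) (nat_lit 1) (nat_lit 4) (nat_lit 285) (nat_lit 214) (nat_lit 161))))))) (XT.nd (nat_lit 702) (nat_lit 0) (nat_lit 0) (XT.nd (nat_lit 312) (nat_lit 0) (nat_lit 0) (XT.nd (nat_lit 156) (nat_lit 0) (nat_lit 0) (XT.nd (nat_lit 78) (nat_lit 0) (nat_lit 0) (XT.lf (nat_lit 0) (nat_lit 2917652617636) (nat_lit 152) (nat_lit 5724140379446) (nat_lit 0) (nat_lit 2914408387240) (nat_lit 1) (nat_lit 5) (nat_lit 3) (nat_lit 4) (nat_lit 1) (nat_lit 4) (nat_lit 286) (nat_lit 214) (nat_lit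 160)) (XT.lf (nat_lit 0) (nat_lit 3358476357502) (nat_lit 152) (nat_lit 6575370251557) (nat_lit 0) (nat_lit 3355231903722) (nat_lit 1) (nat_lit 5) (nat_lit 3) (nat_lit 4) (nat_lit 1) (nat_lit 4) (nat_lit 287) (nat_lit 214) (nat_lit 159))) (XT.nd (nat_lit 78) (nat_lit 0) (nat_lit 0) (XT.lf (nat_lit 0) (nat_lit 3865423187556) (nat_lit 152) (nat_lit 7554285554513) (nat_lit 0) (nat_lit 3862178539530) (nat_lit 1) (nat_lit 5) (nat_lit 3) (nat_lit 4) (nat_lit 1) (nat_lit 4) (nat_lit 288) (nat_lit 214) (nat_lit 158)) (XT.lf (nat_lit 0) (nat_lit 4448411632735) (nat_lit 152) (nat_lit 8680038979024) (nat_lit 0) (nat_lit 4445166815798) (nat_lit 1) (nat_lit 5) (nat_lit 3) (nat_lit 4) (nat_lit 1) (nat_lit 4) (nat_lit 289) (nat_lit 214) (nat_lit 157)))) (XT.nd (nat_lit 156) (nat_lit 0) (nat_lit 0) (XT.nd (nat_lit 78) (nat_lit 0) (nat_lit 0) (XT.lf (nat_lit 0) (nat_lit 5118847988704) (nat_lit 152) (nat_lit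 9974656135570) (nat_lit 0) (nat_lit 5115603024889) (nat_lit 1) (nat_lit 5) (nat_lit 3) (nat_lit 4) (nat_lit 1) (nat_lit 4) (nat_lit 290) (nat_lit 214) (nat_lit 156)) (XT.lf (nat_lit 0) (nat_lit 5889849488516) (nat_lit 152) (nat_lit 11463466490256) (nat_lit 0) (nat_lit 5886604396981) (nat_lit 1) (nat_lit 5) (nat_lit 3) (nat_lit 4) (nat_lit 1) (nat_lit 4) (nat_lit 291) (nat_lit 214) (nat_lit 155))) (XT.nd (nat_lit 78) (nat_lit 0) (nat_lit 0) (XT.lf (nat_lit 0) (nat_lit 6776500944123) (nat_lit 152) (nat_lit 13175598941327) (nat_lit 0) (nat_lit 6773255741527) (nat_lit 1) (nat_lit 5) (nat_lit 3) (nat_lit 4) (nat_lit 1) (nat_lit 4) (nat_lit 292) (nat_lit 214) (nat_lit 154)) (XT.nd (nat_lit 78) (nat_lit 0) (nat_lit 0) (XT.lf (nat_lit 0) (nat_lit 7796149884005) (nat_lit 152) (nat_lit 15144551732391) (nat_lit 0) (nat_lit 7792904584834) (nat_lit 1) (nat_lit 5) (nat_lit 3) (nat_lit 4) (nat_lit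 1) (nat_lit 4) (nat_lit 293) (nat_lit 214) (nat_lit 153)) (XT.lf (nat_lit 0) (nat_lit 8968745961333) (nat_lit 152) (nat_lit 17408847852837) (nat_lit 0) (nat_lit 8965500578184) (nat_lit 1) (nat_lit 5) (nat_lit 3) (nat_lit 4) (nat_lit 1) (nat_lit 4) (nat_lit 294) (nat_lit 214) (nat_lit 152)))))) (XT.nd (nat_lit 312) (nat_lit 0) (nat_lit 0) (XT.nd (nat_lit 156) (nat_lit 0) (nat_lit 0) (XT.nd (nat_lit 78) (nat_lit 0) (nat_lit 0) (XT.lf (nat_lit 0) (nat_lit 10317231273272) (nat_lit 152) (nat_lit 20012788748502) (nat_lit 0) (nat_lit 10313985817099) (nat_lit 1) (nat_lit 5) (nat_lit 3) (nat_lit 4) (nat_lit 1) (nat_lit 4) (nat_lit 295) (nat_lit 214) (nat_lit 151)) (XT.lf (nat_lit 0) (nat_lit 11867989228100) (nat_lit 152) (nat_lit 23007321089082) (nat_lit 0) (nat_lit 11864743708428) (nat_lit 1) (nat_lit 5) (nat_lit 3) (nat_lit 4) (nat_lit 1) (nat_lit 4) (nat_lit 296) (nat_lit 214) (nat_lit 150)))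 (XT.nd (nat_lit 78) (nat_lit 0) (nat_lit 0) (XT.lf (nat_lit 0) (nat_lit 13651360742324) (nat_lit 152) (nat_lit 26451033550806) (nat_lit 0) (nat_lit 13648115167434) (nat_lit 1) (nat_lit 5) (nat_lit 3) (nat_lit 4) (nat_lit 1) (nat_lit 4) (nat_lit 297) (nat_lit 214) (nat_lit 149)) (XT.lf (nat_lit 0) (nat_lit 15702237867309) (nat_lit 152) (nat_lit 30411303116622) (nat_lit 0) (nat_lit 15698992244405) (nat_lit 1) (nat_lit 5) (nat_lit 3) (nat_lit 4) (nat_lit 1) (nat_lit 4) (nat_lit 298) (nat_lit 214) (nat_lit 148)))) (XT.nd (nat_lit 156) (nat_lit 0) (nat_lit 0) (XT.nd (nat_lit 78) (nat_lit 0) (nat_lit 0) (XT.lf (nat_lit 0) (nat_lit 18060746459848) (nat_lit 152) (nat_lit 34965613321512) (nat_lit 0) (nat_lit 18057500795192) (nat_lit 1) (nat_lit 5) (nat_lit 3) (nat_lit 4) (nat_lit 1) (nat_lit 4) (nat_lit 299) (nat_lit 214) (nat_lit 147)) (XT.lf (nat_lit 0) (nat_lit 20773031253274) (nat_lit 152)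 (nat_lit 40203070234703) (nat_lit 0) (nat_lit 20769785552312) (nat_lit 1) (nat_lit 5) (nat_lit 3) (nat_lit 4) (nat_lit 1) (nat_lit 4) (nat_lit 300) (nat_lit 214) (nat_lit 146))) (XT.nd (nat_lit 78) (nat_lit 0) (nat_lit 0) (XT.lf (nat_lit 0) (nat_lit 23892158689197) (nat_lit 152) (nat_lit 46226145839278) (nat_lit 0) (nat_lit 23888912956664) (nat_lit 1) (nat_lit 5) (nat_lit 3) (nat_lit 4) (nat_lit 1) (nat_lit 4) (nat_lit 301) (nat_lit 214) (nat_lit 145)) (XT.nd (nat_lit 78) (nat_lit 0) (nat_lit 0) (XT.lf (nat_lit 0) (nat_lit 27479155173972) (nat_lit 152) (nat_lit 53152682918806) (nat_lit 0) (nat_lit 27475909413986) (nat_lit 1) (nat_lit 5) (nat_lit 3) (nat_lit 4) (nat_lit 1) (nat_lit 4) (nat_lit 302) (nat_lit 214) (nat_lit 144)) (XT.lf (nat_lit 0) (nat_lit 31604201073606) (nat_lit 152) (nat_lit 61118200677016) (nat_lit 0) (nat_lit 31600955289748) (nat_lit 1) (nat_lit 5) (nat_lit 3) (nat_lit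 4) (nat_lit 1) (nat_lit 4) (nat_lit 303) (nat_lit 214) (nat_lit 143))))))))
noncomputable def xc38 : XT := (XT.nd (nat_lit 1326) (nat_lit 152) (nat_lit 0) (XT.nd (nat_lit 624) (nat_lit 304) (nat_lit 0) (XT.nd (nat_lit 312) (nat_lit 228) (nat_lit 0) (XT.nd (nat_lit 156) (nat_lit 152) (nat_lit 0) (XT.nd (nat_lit 78) (nat_lit 152) (nat_lit 0) (XT.lf (nat_lit 0) (nat_lit 977885356) (nat_lit 152) (nat_lit 2620639713) (nat_lit 0) (nat_lit 977885356) (nat_lit 14) (nat_lit 5) (nat_lit 16) (nat_lit 4) (nat_lit 14) (nat_lit 4) (nat_lit 230) (nat_lit 215) (nat_lit 215)) (XT.lf (nat_lit 0) (nat_lit 1251323864) (nat_lit 152) (nat_lit 4701218246) (nat_lit 152) (nat_lit 3849642056) (nat_lit 12) (nat_lit 4) (nat_lit 14) (nat_lit 5) (nat_lit 14) (nat_lit 4) (nat_lit 231) (nat_lit 215) (nat_lit 214))) (XT.nd (nat_lit 78) (nat_lit 152) (nat_lit 0) (XT.lf (nat_lit 0) (nat_lit 8638254776) (nat_lit 152) (nat_lit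 1763329347) (nat_lit 152) (nat_lit 171252123) (nat_lit 12) (nat_lit 4) (nat_lit 14) (nat_lit 5) (nat_lit 14) (nat_lit 4) (nat_lit 232) (nat_lit 215) (nat_lit 213)) (XT.lf (nat_lit 0) (nat_lit 3610196989) (nat_lit 152) (nat_lit 6172283187) (nat_lit 0) (nat_lit 1665856844) (nat_lit 10) (nat_lit 5) (nat_lit 12) (nat_lit 4) (nat_lit 10) (nat_lit 4) (nat_lit 233) (nat_lit 215) (nat_lit 212)))) (XT.nd (nat_lit 156) (nat_lit 152) (nat_lit 0) (XT.nd (nat_lit 78) (nat_lit 0) (nat_lit 0) (XT.lf (nat_lit 0) (nat_lit 670837756) (nat_lit 76) (nat_lit 7119111314) (nat_lit 76) (nat_lit 4687879717) (nat_lit 9) (nat_lit 4) (nat_lit 10) (nat_lit 5) (nat_lit 10) (nat_lit 4) (nat_lit 234) (nat_lit 215) (nat_lit 211)) (XT.lf (nat_lit 0) (nat_lit 8625434339) (nat_lit 76) (nat_lit 3947738428) (nat_lit 76) (nat_lit 1093122962) (nat_lit 9) (nat_lit 4) (nat_lit 10) (nat_lit 5) (nat_lit 10) (nat_lit 4) (nat_lit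 235) (nat_lit 215) (nat_lit 210))) (XT.nd (nat_lit 78) (nat_lit 0) (nat_lit 0) (XT.lf (nat_lit 0) (nat_lit 2253985368) (nat_lit 76) (nat_lit 293345199) (nat_lit 152) (nat_lit 12501011928) (nat_lit 7) (nat_lit 5) (nat_lit 8) (nat_lit 5) (nat_lit 9) (nat_lit 4) (nat_lit 236) (nat_lit 215) (nat_lit 209)) (XT.lf (nat_lit 0) (nat_lit 6752915613) (nat_lit 152) (nat_lit 6185881127) (nat_lit 0) (nat_lit 3672120496) (nat_lit 7) (nat_lit 5) (nat_lit 9) (nat_lit 4) (nat_lit 7) (nat_lit 4) (nat_lit 237) (nat_lit 215) (nat_lit 208))))) (XT.nd (nat_lit 312) (nat_lit 76) (nat_lit 0) (XT.nd (nat_lit 156) (nat_lit 152) (nat_lit 0) (XT.nd (nat_lit 78) (nat_lit 0) (nat_lit 0) (XT.lf (nat_lit 0) (nat_lit 991831969) (nat_lit 76) (nat_lit 10385640006) (nat_lit 76) (nat_lit 7062773787) (nat_lit 6) (nat_lit 4) (nat_lit 7) (nat_lit 5) (nat_lit 7) (nat_lit 4) (nat_lit 238) (nat_lit 215) (nat_lit 207)) (XT.lf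 (nat_lit 0) (nat_lit 9467607546) (nat_lit 76) (nat_lit 7299746722) (nat_lit 76) (nat_lit 3766383892) (nat_lit 6) (nat_lit 4) (nat_lit 7) (nat_lit 5) (nat_lit 7) (nat_lit 4) (nat_lit 239) (nat_lit 215) (nat_lit 206))) (XT.nd (nat_lit 78) (nat_lit 152) (nat_lit 0) (XT.lf (nat_lit 0) (nat_lit 18802746704) (nat_lit 76) (nat_lit 3944093591) (nat_lit 76) (nat_lit 227690231) (nat_lit 6) (nat_lit 4) (nat_lit 7) (nat_lit 5) (nat_lit 7) (nat_lit 4) (nat_lit 240) (nat_lit 215) (nat_lit 205)) (XT.lf (nat_lit 0) (nat_lit 3450014576) (nat_lit 152) (nat_lit 22235411730) (nat_lit 0) (nat_lit 79954542) (nat_lit 4) (nat_lit 5) (nat_lit 6) (nat_lit 4) (nat_lit 4) (nat_lit 4) (nat_lit 241) (nat_lit 215) (nat_lit 204)))) (XT.nd (nat_lit 156) (nat_lit 76) (nat_lit 0) (XT.nd (nat_lit 78) (nat_lit 0) (nat_lit 0) (XT.lf (nat_lit 0) (nat_lit 7876562053) (nat_lit 152) (nat_lit 16677737842) (nat_lit 0) (nat_lit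 4386149899) (nat_lit 4) (nat_lit 5) (nat_lit 6) (nat_lit 4) (nat_lit 4) (nat_lit 4) (nat_lit 242) (nat_lit 215) (nat_lit 203)) (XT.lf (nat_lit 0) (nat_lit 12796856243) (nat_lit 152) (nat_lit 10618922115) (nat_lit 0) (nat_lit 9201790072) (nat_lit 4) (nat_lit 5) (nat_lit 6) (nat_lit 4) (nat_lit 4) (nat_lit 4) (nat_lit 243) (nat_lit 215) (nat_lit 202))) (XT.nd (nat_lit 78) (nat_lit 76) (nat_lit 0) (XT.lf (nat_lit 0) (nat_lit 18307163773) (nat_lit 152) (nat_lit 3940422503) (nat_lit 0) (nat_lit 14621094108) (nat_lit 4) (nat_lit 5) (nat_lit 6) (nat_lit 4) (nat_lit 4) (nat_lit 4) (nat_lit 244) (nat_lit 215) (nat_lit 201)) (XT.nd (nat_lit 78) (nat_lit 0) (nat_lit 0) (XT.lf (nat_lit 0) (nat_lit 3829341775) (nat_lit 76) (nat_lit 20844518108) (nat_lit 76) (nat_lit 17079314971) (nat_lit 3) (nat_lit 4) (nat_lit 4) (nat_lit 5) (nat_lit 4) (nat_lit 4) (nat_lit 245) (nat_lit 215) (nat_lit 200)) (XT.lf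 (nat_lit 0) (nat_lit 12967424092) (nat_lit 76) (nat_lit 19112242669) (nat_lit 76) (nat_lit 15278227816) (nat_lit 3) (nat_lit 4) (nat_lit 4) (nat_lit 5) (nat_lit 4) (nat_lit 4) (nat_lit 246) (nat_lit 215) (nat_lit 199))))))) (XT.nd (nat_lit 702) (nat_lit 0) (nat_lit 0) (XT.nd (nat_lit 312) (nat_lit 152) (nat_lit 0) (XT.nd (nat_lit 156) (nat_lit 0) (nat_lit 0) (XT.nd (nat_lit 78) (nat_lit 0) (nat_lit 0) (XT.lf (nat_lit 0) (nat_lit 23267526267) (nat_lit 76) (nat_lit 17222844244) (nat_lit 76) (nat_lit 13328993118) (nat_lit 3) (nat_lit 4) (nat_lit 4) (nat_lit 5) (nat_lit 4) (nat_lit 4) (nat_lit 247) (nat_lit 215) (nat_lit 198)) (XT.lf (nat_lit 0) (nat_lit 34931172041) (nat_lit 76) (nat_lit 15139356344) (nat_lit 76) (nat_lit 11193473674) (nat_lit 3) (nat_lit 4) (nat_lit 4) (nat_lit 5) (nat_lit 4) (nat_lit 4) (nat_lit 248) (nat_lit 215) (nat_lit 197))) (XT.nd (nat_lit 78) (nat_lit 0) (nat_lit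 0) (XT.lf (nat_lit 0) (nat_lit 48186563176) (nat_lit 76) (nat_lit 12821015073) (nat_lit 76) (nat_lit 8829887584) (nat_lit 3) (nat_lit 4) (nat_lit 4) (nat_lit 5) (nat_lit 4) (nat_lit 4) (nat_lit 249) (nat_lit 215) (nat_lit 196)) (XT.lf (nat_lit 0) (nat_lit 63293044284) (nat_lit 76) (nat_lit 10222461582) (nat_lit 76) (nat_lit 6191990771) (nat_lit 3) (nat_lit 4) (nat_lit 4) (nat_lit 5) (nat_lit 4) (nat_lit 4) (nat_lit 250) (nat_lit 215) (nat_lit 195)))) (XT.nd (nat_lit 156) (nat_lit 76) (nat_lit 0) (XT.nd (nat_lit 78) (nat_lit 76) (nat_lit 0) (XT.lf (nat_lit 0) (nat_lit 80546176950) (nat_lit 76) (nat_lit 7292854605) (nat_lit 76) (nat_lit 3228172210) (nat_lit 3) (nat_lit 4) (nat_lit 4) (nat_lit 5) (nat_lit 4) (nat_lit 4) (nat_lit 251) (nat_lit 215) (nat_lit 194)) (XT.lf (nat_lit 0) (nat_lit 108912162) (nat_lit 152) (nat_lit 3860270448) (nat_lit 76) (nat_lit 100168917168) (nat_lit 2) (nat_lit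 5) (nat_lit 4) (nat_lit 5) (nat_lit 3) (nat_lit 4) (nat_lit 252) (nat_lit 215) (nat_lit 193))) (XT.nd (nat_lit 78) (nat_lit 0) (nat_lit 0) (XT.lf (nat_lit 0) (nat_lit 3736383965) (nat_lit 152) (nat_lit 115238679250) (nat_lit 0) (nat_lit 153513991) (nat_lit 1) (nat_lit 5) (nat_lit 3) (nat_lit 4) (nat_lit 1) (nat_lit 4) (nat_lit 253) (nat_lit 215) (nat_lit 192)) (XT.nd (nat_lit 78) (nat_lit 0) (nat_lit 0) (XT.lf (nat_lit 0) (nat_lit 8260972396) (nat_lit 152) (nat_lit 123395210118) (nat_lit 0) (nat_lit 4658541837) (nat_lit 1) (nat_lit 5) (nat_lit 3) (nat_lit 4) (nat_lit 1) (nat_lit 4) (nat_lit 254) (nat_lit 215) (nat_lit 191)) (XT.lf (nat_lit 0) (nat_lit 13423024221) (nat_lit 152) (nat_lit 132858409909) (nat_lit 0) (nat_lit 9803584458) (nat_lit 1) (nat_lit 5) (nat_lit 3) (nat_lit 4) (nat_lit 1) (nat_lit 4) (nat_lit 255) (nat_lit 215) (nat_lit 190)))))) (XT.nd (nat_lit 312) (nat_lit 0) (nat_lit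 0) (XT.nd (nat_lit 156) (nat_lit 0) (nat_lit 0) (XT.nd (nat_lit 78) (nat_lit 0) (nat_lit 0) (XT.lf (nat_lit 0) (nat_lit 19323536105) (nat_lit 152) (nat_lit 143813428183) (nat_lit 0) (nat_lit 15689305731) (nat_lit 1) (nat_lit 5) (nat_lit 3) (nat_lit 4) (nat_lit 1) (nat_lit 4) (nat_lit 256) (nat_lit 215) (nat_lit 189)) (XT.lf (nat_lit 0) (nat_lit 26077952847) (nat_lit 152) (nat_lit 156474602255) (nat_lit 0) (nat_lit 22430861072) (nat_lit 1) (nat_lit 5) (nat_lit 3) (nat_lit 4) (nat_lit 1) (nat_lit 4) (nat_lit 257) (nat_lit 215) (nat_lit 188))) (XT.nd (nat_lit 78) (nat_lit 0) (nat_lit 0) (XT.lf (nat_lit 0) (nat_lit 33818426079) (nat_lit 152) (nat_lit 171089650748) (nat_lit 0) (nat_lit 30160150476) (nat_lit 1) (nat_lit 5) (nat_lit 3) (nat_lit 4) (nat_lit 1) (nat_lit 4) (nat_lit 258) (nat_lit 215) (nat_lit 187)) (XT.lf (nat_lit 0) (nat_lit 42696399842) (nat_lit 152) (nat_lit 187944520263)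 (nat_lit 0) (nat_lit 39028399172) (nat_lit 1) (nat_lit 5) (nat_lit 3) (nat_lit 4) (nat_lit 1) (nat_lit 4) (nat_lit 259) (nat_lit 215) (nat_lit 186)))) (XT.nd (nat_lit 156) (nat_lit 0) (nat_lit 0) (XT.nd (nat_lit 78) (nat_lit 0) (nat_lit 0) (XT.lf (nat_lit 0) (nat_lit 52885573623) (nat_lit 152) (nat_lit 207368979986) (nat_lit 0) (nat_lit 49209116372) (nat_lit 1) (nat_lit 5) (nat_lit 3) (nat_lit 4) (nat_lit 1) (nat_lit 4) (nat_lit 260) (nat_lit 215) (nat_lit 185)) (XT.lf (nat_lit 0) (nat_lit 64585300821) (nat_lit 152) (nat_lit 229743073694) (nat_lit 0) (nat_lit 60901490022) (nat_lit 1) (nat_lit 5) (nat_lit 3) (nat_lit 4) (nat_lit 1) (nat_lit 4) (nat_lit 261) (nat_lit 215) (nat_lit 184))) (XT.nd (nat_lit 78) (nat_lit 0) (nat_lit 0) (XT.lf (nat_lit 0) (nat_lit 78024489144) (nat_lit 152) (nat_lit 255504555395) (nat_lit 0) (nat_lit 74334283955) (nat_lit 1) (nat_lit 5) (nat_lit 3) (nat_lit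 4) (nat_lit 1) (nat_lit 4) (nat_lit 262) (nat_lit 215) (nat_lit 183)) (XT.nd (nat_lit 78) (nat_lit 0) (nat_lit 0) (XT.lf (nat_lit 0) (nat_lit 93466079231) (nat_lit 152) (nat_lit 285157454079) (nat_lit 0) (nat_lit 89770313704) (nat_lit 1) (nat_lit 5) (nat_lit 3) (nat_lit 4) (nat_lit 1) (nat_lit 4) (nat_lit 263) (nat_lit 215) (nat_lit 182)) (XT.lf (nat_lit 0) (nat_lit 111212189151) (nat_lit 152) (nat_lit 319281935154) (nat_lit 0) (nat_lit 107511588546) (nat_lit 1) (nat_lit 5) (nat_lit 3) (nat_lit 4) (nat_lit 1) (nat_lit 4) (nat_lit 264) (nat_lit 215) (nat_lit 181))))))))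
noncomputable def xc39 : XT := (XT.nd (nat_lit 1404) (nat_lit 0) (nat_lit 0) (XT.nd (nat_lit 702) (nat_lit 0) (nat_lit 0) (XT.nd (nat_lit 312) (nat_lit 0) (nat_lit 0) (XT.nd (nat_lit 156) (nat_lit 0) (nat_lit 0) (XT.nd (nat_lit 78) (nat_lit 0) (nat_lit 0) (XT.lf (nat_lit 0) (nat_lit 131610025400) (nat_lit 152) (nat_lit 358545651510) (nat_lit 0) (nat_lit 127905220381) (nat_lit 1) (nat_lit 5) (nat_lit 3) (nat_lit 4) (nat_lit 1) (nat_lit 4) (nat_lit 265) (nat_lit 215) (nat_lit 180)) (XT.lf (nat_lit 0) (nat_lit 155058676081) (nat_lit 152) (nat_lit 403716806296) (nat_lit 0) (nat_lit 151350215048) (nat_lit 1) (nat_lit 5) (nat_lit 3) (nat_lit 4) (nat_lit 1) (nat_lit 4) (nat_lit 266) (nat_lit 215) (nat_lit 179))) (XT.nd (nat_lit 78) (nat_lit 0) (nat_lit 0) (XT.lf (nat_lit 0) (nat_lit 182016919140) (nat_lit 152) (nat_lit 455679182972) (nat_lit 0) (nat_lit 178305278966) (nat_lit 1) (nat_lit 5)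 (nat_lit 3) (nat_lit 4) (nat_lit 1) (nat_lit 4) (nat_lit 267) (nat_lit 215) (nat_lit 178)) (XT.lf (nat_lit 0) (nat_lit 213012198465) (nat_lit 152) (nat_lit 515449436736) (nat_lit 0) (nat_lit 209297793819) (nat_lit 1) (nat_lit 5) (nat_lit 3) (nat_lit 4) (nat_lit 1) (nat_lit 4) (nat_lit 268) (nat_lit 215) (nat_lit 177)))) (XT.nd (nat_lit 156) (nat_lit 0) (nat_lit 0) (XT.nd (nat_lit 78) (nat_lit 0) (nat_lit 0) (XT.lf (nat_lit 0) (nat_lit 248650943432) (nat_lit 152) (nat_lit 584196985595) (nat_lit 0) (nat_lit 244934134899) (nat_lit 1) (nat_lit 5) (nat_lit 3) (nat_lit 4) (nat_lit 1) (nat_lit 4) (nat_lit 269) (nat_lit 215) (nat_lit 176)) (XT.lf (nat_lit 0) (nat_lit 289630433836) (nat_lit 152) (nat_lit 663266890288) (nat_lit 0) (nat_lit 285911534965) (nat_lit 1) (nat_lit 5) (nat_lit 3) (nat_lit 4) (nat_lit 1) (nat_lit 4) (nat_lit 270) (nat_lit 215) (nat_lit 175))) (XT.nd (nat_lit 78) (nat_lit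 0) (nat_lit 0) (XT.lf (nat_lit 0) (nat_lit 336752442313) (nat_lit 152) (nat_lit 754206170690) (nat_lit 0) (nat_lit 333031725758) (nat_lit 1) (nat_lit 5) (nat_lit 3) (nat_lit 4) (nat_lit 1) (nat_lit 4) (nat_lit 271) (nat_lit 215) (nat_lit 174)) (XT.nd (nat_lit 78) (nat_lit 0) (nat_lit 0) (XT.lf (nat_lit 0) (nat_lit 390938921205) (nat_lit 152) (nat_lit 858794073591) (nat_lit 0) (nat_lit 387216624054) (nat_lit 1) (nat_lit 5) (nat_lit 3) (nat_lit 4) (nat_lit 1) (nat_lit 4) (nat_lit 272) (nat_lit 215) (nat_lit 173)) (XT.lf (nat_lit 0) (nat_lit 453250040749) (nat_lit 152) (nat_lit 979076884048) (nat_lit 0) (nat_lit 449526369167) (nat_lit 1) (nat_lit 5) (nat_lit 3) (nat_lit 4) (nat_lit 1) (nat_lit 4) (nat_lit 273) (nat_lit 215) (nat_lit 172)))))) (XT.nd (nat_lit 312) (nat_lit 0) (nat_lit 0) (XT.nd (nat_lit 156) (nat_lit 0) (nat_lit 0) (XT.nd (nat_lit 78) (nat_lit 0) (nat_lit 0) (XT.lf (nat_lit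 0) (nat_lit 524904931546) (nat_lit 152) (nat_lit 1117407961396) (nat_lit 0) (nat_lit 521180064808) (nat_lit 1) (nat_lit 5) (nat_lit 3) (nat_lit 4) (nat_lit 1) (nat_lit 4) (nat_lit 274) (nat_lit 215) (nat_lit 171)) (XT.lf (nat_lit 0) (nat_lit 607305537112) (nat_lit 152) (nat_lit 1276493783235) (nat_lit 0) (nat_lit 603579631107) (nat_lit 1) (nat_lit 5) (nat_lit 3) (nat_lit 4) (nat_lit 1) (nat_lit 4) (nat_lit 275) (nat_lit 215) (nat_lit 170))) (XT.nd (nat_lit 78) (nat_lit 0) (nat_lit 0) (XT.lf (nat_lit 0) (nat_lit 702064043208) (nat_lit 152) (nat_lit 1459446898253) (nat_lit 0) (nat_lit 698337233492) (nat_lit 1) (nat_lit 5) (nat_lit 3) (nat_lit 4) (nat_lit 1) (nat_lit 4) (nat_lit 276) (nat_lit 215) (nat_lit 169)) (XT.lf (nat_lit 0) (nat_lit 811034420605) (nat_lit 152) (nat_lit 1669846823919) (nat_lit 0) (nat_lit 807306825053) (nat_lit 1) (nat_lit 5) (nat_lit 3) (nat_lit 4) (nat_lit 1) (nat_lit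 4) (nat_lit 277) (nat_lit 215) (nat_lit 168)))) (XT.nd (nat_lit 156) (nat_lit 0) (nat_lit 0) (XT.nd (nat_lit 78) (nat_lit 0) (nat_lit 0) (XT.lf (nat_lit 0) (nat_lit 936348698425) (nat_lit 152) (nat_lit 1911810080516) (nat_lit 0) (nat_lit 932620419539) (nat_lit 1) (nat_lit 5) (nat_lit 3) (nat_lit 4) (nat_lit 1) (nat_lit 4) (nat_lit 278) (nat_lit 215) (nat_lit 167)) (XT.lf (nat_lit 0) (nat_lit 1080458677757) (nat_lit 152) (nat_lit 2190070731760) (nat_lit 0) (nat_lit 1076729804667) (nat_lit 1) (nat_lit 5) (nat_lit 3) (nat_lit 4) (nat_lit 1) (nat_lit 4) (nat_lit 279) (nat_lit 215) (nat_lit 166))) (XT.nd (nat_lit 78) (nat_lit 0) (nat_lit 0) (XT.lf (nat_lit 0) (nat_lit 1246183901675) (nat_lit 152) (nat_lit 2510073007786) (nat_lit 0) (nat_lit 1242454511885) (nat_lit 1) (nat_lit 5) (nat_lit 3) (nat_lit 4) (nat_lit 1) (nat_lit 4) (nat_lit 280) (nat_lit 215) (nat_lit 165)) (XT.nd (nat_lit 78)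 (nat_lit 0) (nat_lit 0) (XT.lf (nat_lit 0) (nat_lit 1436766820212) (nat_lit 152) (nat_lit 2878077822689) (nat_lit 0) (nat_lit 1433036981118) (nat_lit 1) (nat_lit 5) (nat_lit 3) (nat_lit 4) (nat_lit 1) (nat_lit 4) (nat_lit 281) (nat_lit 215) (nat_lit 164)) (XT.lf (nat_lit 0) (nat_lit 1655936229600) (nat_lit 152) (nat_lit 3301285270674) (nat_lit 0) (nat_lit 1652205999807) (nat_lit 1) (nat_lit 5) (nat_lit 3) (nat_lit 4) (nat_lit 1) (nat_lit 4) (nat_lit 282) (nat_lit 215) (nat_lit 163))))))) (XT.nd (nat_lit 702) (nat_lit 0) (nat_lit 0) (XT.nd (nat_lit 312) (nat_lit 0) (nat_lit 0) (XT.nd (nat_lit 156) (nat_lit 0) (nat_lit 0) (XT.nd (nat_lit 78) (nat_lit 0) (nat_lit 0) (XT.lf (nat_lit 0) (nat_lit 1907980226980) (nat_lit 152) (nat_lit 3787975497461) (nat_lit 0) (nat_lit 1904249657448) (nat_lit 1) (nat_lit 5) (nat_lit 3) (nat_lit 4) (nat_lit 1) (nat_lit 4) (nat_lit 283) (nat_lit 215) (nat_lit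 162)) (XT.lf (nat_lit 0) (nat_lit 2197830107951) (nat_lit 152) (nat_lit 4347670703141) (nat_lit 0) (nat_lit 2194099242995) (nat_lit 1) (nat_lit 5) (nat_lit 3) (nat_lit 4) (nat_lit 1) (nat_lit 4) (nat_lit 284) (nat_lit 215) (nat_lit 161))) (XT.nd (nat_lit 78) (nat_lit 0) (nat_lit 0) (XT.lf (nat_lit 0) (nat_lit 2531156848447) (nat_lit 152) (nat_lit 4991321446085) (nat_lit 0) (nat_lit 2527425726600) (nat_lit 1) (nat_lit 5) (nat_lit 3) (nat_lit 4) (nat_lit 1) (nat_lit 4) (nat_lit 285) (nat_lit 215) (nat_lit 160)) (XT.lf (nat_lit 0) (nat_lit 2914482058607) (nat_lit 152) (nat_lit 5731520893004) (nat_lit 0) (nat_lit 2910750713377) (nat_lit 1) (nat_lit 5) (nat_lit 3) (nat_lit 4) (nat_lit 1) (nat_lit 4) (nat_lit 286) (nat_lit 215) (nat_lit 159)))) (XT.nd (nat_lit 156) (nat_lit 0) (nat_lit 0) (XT.nd (nat_lit 78) (nat_lit 0) (nat_lit 0) (XT.lf (nat_lit 0) (nat_lit 3355305579500) (nat_lit 152) (nat_lit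 6582751206989) (nat_lit 0) (nat_lit 3351574040023) (nat_lit 1) (nat_lit 5) (nat_lit 3) (nat_lit 4) (nat_lit 1) (nat_lit 4) (nat_lit 287) (nat_lit 215) (nat_lit 158)) (XT.lf (nat_lit 0) (nat_lit 3862252219143) (nat_lit 152) (nat_lit 7561666894183) (nat_lit 0) (nat_lit 3858520510756) (nat_lit 1) (nat_lit 5) (nat_lit 3) (nat_lit 4) (nat_lit 1) (nat_lit 4) (nat_lit 288) (nat_lit 215) (nat_lit 157))) (XT.nd (nat_lit 78) (nat_lit 0) (nat_lit 0) (XT.lf (nat_lit 0) (nat_lit 4445240498746) (nat_lit 152) (nat_lit 8687420652814) (nat_lit 0) (nat_lit 4441508643482) (nat_lit 1) (nat_lit 5) (nat_lit 3) (nat_lit 4) (nat_lit 1) (nat_lit 4) (nat_lit 289) (nat_lit 215) (nat_lit 156)) (XT.nd (nat_lit 78) (nat_lit 0) (nat_lit 0) (XT.lf (nat_lit 0) (nat_lit 5115676710738) (nat_lit 152) (nat_lit 9982038099898) (nat_lit 0) (nat_lit 5111944727753) (nat_lit 1) (nat_lit 5) (nat_lit 3) (nat_lit 4) (nat_lit 1)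 (nat_lit 4) (nat_lit 290) (nat_lit 215) (nat_lit 155)) (XT.lf (nat_lit 0) (nat_lit 5886678085351) (nat_lit 152) (nat_lit 11470848707227) (nat_lit 0) (nat_lit 5882945991305) (nat_lit 1) (nat_lit 5) (nat_lit 3) (nat_lit 4) (nat_lit 1) (nat_lit 4) (nat_lit 291) (nat_lit 215) (nat_lit 154)))))) (XT.nd (nat_lit 312) (nat_lit 0) (nat_lit 0) (XT.nd (nat_lit 156) (nat_lit 0) (nat_lit 0) (XT.nd (nat_lit 78) (nat_lit 0) (nat_lit 0) (XT.lf (nat_lit 0) (nat_lit 6773329432090) (nat_lit 152) (nat_lit 13182981377988) (nat_lit 0) (nat_lit 6769597241469) (nat_lit 1) (nat_lit 5) (nat_lit 3) (nat_lit 4) (nat_lit 1) (nat_lit 4) (nat_lit 292) (nat_lit 215) (nat_lit 153)) (XT.lf (nat_lit 0) (nat_lit 7792978277304) (nat_lit 152) (nat_lit 15151934360085) (nat_lit 0) (nat_lit 7789246002705) (nat_lit 1) (nat_lit 5) (nat_lit 3) (nat_lit 4) (nat_lit 1) (nat_lit 4) (nat_lit 293) (nat_lit 215) (nat_lit 152))) (XT.nd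 (nat_lit 78) (nat_lit 0) (nat_lit 0) (XT.lf (nat_lit 0) (nat_lit 8965574272312) (nat_lit 152) (nat_lit 17416230646649) (nat_lit 0) (nat_lit 8961841924689) (nat_lit 1) (nat_lit 5) (nat_lit 3) (nat_lit 4) (nat_lit 1) (nat_lit 4) (nat_lit 294) (nat_lit 215) (nat_lit 151)) (XT.lf (nat_lit 0) (nat_lit 10314059512669) (nat_lit 152) (nat_lit 20020171686762) (nat_lit 0) (nat_lit 10310327101546) (nat_lit 1) (nat_lit 5) (nat_lit 3) (nat_lit 4) (nat_lit 1) (nat_lit 4) (nat_lit 295) (nat_lit 215) (nat_lit 150)))) (XT.nd (nat_lit 156) (nat_lit 0) (nat_lit 0) (XT.nd (nat_lit 78) (nat_lit 0) (nat_lit 0) (XT.lf (nat_lit 0) (nat_lit 11864817405251) (nat_lit 152) (nat_lit 23014704152951) (nat_lit 0) (nat_lit 11861084938911) (nat_lit 1) (nat_lit 5) (nat_lit 3) (nat_lit 4) (nat_lit 1) (nat_lit 4) (nat_lit 296) (nat_lit 215) (nat_lit 149)) (XT.lf (nat_lit 0) (nat_lit 13648188865348) (nat_lit 152) (nat_lit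 26458416723899) (nat_lit 0) (nat_lit 13644456350994) (nat_lit 1) (nat_lit 5) (nat_lit 3) (nat_lit 4) (nat_lit 1) (nat_lit 4) (nat_lit 297) (nat_lit 215) (nat_lit 148))) (XT.nd (nat_lit 78) (nat_lit 0) (nat_lit 0) (XT.lf (nat_lit 0) (nat_lit 15699065943267) (nat_lit 152) (nat_lit 30418686384693) (nat_lit 0) (nat_lit 15695333387160) (nat_lit 1) (nat_lit 5) (nat_lit 3) (nat_lit 4) (nat_lit 1) (nat_lit 4) (nat_lit 298) (nat_lit 215) (nat_lit 147)) (XT.nd (nat_lit 78) (nat_lit 0) (nat_lit 0) (XT.lf (nat_lit 0) (nat_lit 18057574494878) (nat_lit 152) (nat_lit 34972996672172) (nat_lit 0) (nat_lit 18053841902466) (nat_lit 1) (nat_lit 5) (nat_lit 3) (nat_lit 4) (nat_lit 1) (nat_lit 4) (nat_lit 299) (nat_lit 215) (nat_lit 146)) (XT.lf (nat_lit 0) (nat_lit 20769859252715) (nat_lit 152) (nat_lit 40210453657180) (nat_lit 0) (nat_lit 20766126628732) (nat_lit 1) (nat_lit 5) (nat_lit 3) (nat_lit 4) (nat_lit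 1) (nat_lit 4) (nat_lit 300) (nat_lit 215) (nat_lit 145))))))))
noncomputable def xc40 : XT := (XT.nd (nat_lit 29874) (nat_lit 0) (nat_lit 0) (XT.nd (nat_lit 29172) (nat_lit 0) (nat_lit 228) (XT.nd (nat_lit 28860) (nat_lit 0) (nat_lit 684) (XT.nd (nat_lit 28704) (nat_lit 0) (nat_lit 1140) (XT.nd (nat_lit 78) (nat_lit 0) (nat_lit 0) (XT.lf (nat_lit 0) (nat_lit 23888986657691) (nat_lit 152) (nat_lit 46233529324204) (nat_lit 0) (nat_lit 23885254006255) (nat_lit 1) (nat_lit 5) (nat_lit 3) (nat_lit 4) (nat_lit 1) (nat_lit 4) (nat_lit 301) (nat_lit 215) (nat_lit 144)) (XT.lf (nat_lit 0) (nat_lit 27475983115555) (nat_lit 152) (nat_lit 53160066458036) (nat_lit 0) (nat_lit 27472250440248) (nat_lit 1) (nat_lit 5) (nat_lit 3) (nat_lit 4) (nat_lit 1) (nat_lit 4) (nat_lit 302) (nat_lit 215) (nat_lit 143))) (XT.nd (nat_lit 78) (nat_lit 152) (nat_lit 0) (XT.lf (nat_lit 0) (nat_lit 1954097132) (nat_lit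 380) (nat_lit 149768859) (nat_lit 0) (nat_lit 1954097132) (nat_lit 18) (nat_lit 5) (nat_lit 23) (nat_lit 4) (nat_lit 18) (nat_lit 4) (nat_lit 228) (nat_lit 216) (nat_lit 216)) (XT.lf (nat_lit 0) (nat_lit 5975390540) (nat_lit 152) (nat_lit 1878950863) (nat_lit 152) (nat_lit 752741352) (nat_lit 16) (nat_lit 4) (nat_lit 18) (nat_lit 5) (nat_lit 18) (nat_lit 4) (nat_lit 229) (nat_lit 216) (nat_lit 215)))) (XT.nd (nat_lit 156) (nat_lit 152) (nat_lit 0) (XT.nd (nat_lit 78) (nat_lit 152) (nat_lit 0) (XT.lf (nat_lit 0) (nat_lit 2724587706) (nat_lit 152) (nat_lit 5567070050) (nat_lit 0) (nat_lit 893698898) (nat_lit 14) (nat_lit 5) (nat_lit 16) (nat_lit 4) (nat_lit 14) (nat_lit 4) (nat_lit 230) (nat_lit 216) (nat_lit 214)) (XT.lf (nat_lit 0) (nat_lit 582712654) (nat_lit 152) (nat_lit 5927921010) (nat_lit 152) (nat_lit 3356531167) (nat_lit 12) (nat_lit 4) (nat_lit 14) (nat_lit 5) (nat_lit 14) (nat_lit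 4) (nat_lit 231) (nat_lit 216) (nat_lit 213))) (XT.nd (nat_lit 78) (nat_lit 76) (nat_lit 0) (XT.lf (nat_lit 0) (nat_lit 114067487) (nat_lit 228) (nat_lit 2970058688) (nat_lit 76) (nat_lit 7579194366) (nat_lit 11) (nat_lit 5) (nat_lit 14) (nat_lit 5) (nat_lit 12) (nat_lit 4) (nat_lit 232) (nat_lit 216) (nat_lit 212)) (XT.lf (nat_lit 0) (nat_lit 3604610809) (nat_lit 152) (nat_lit 7653242482) (nat_lit 0) (nat_lit 321803023) (nat_lit 10) (nat_lit 5) (nat_lit 12) (nat_lit 4) (nat_lit 10) (nat_lit 4) (nat_lit 233) (nat_lit 216) (nat_lit 211))))) (XT.nd (nat_lit 312) (nat_lit 228) (nat_lit 0) (XT.nd (nat_lit 156) (nat_lit 152) (nat_lit 0) (XT.nd (nat_lit 78) (nat_lit 76) (nat_lit 0) (XT.lf (nat_lit 0) (nat_lit 7607315430) (nat_lit 152) (nat_lit 1127744010) (nat_lit 0) (nat_lit 3901123775) (nat_lit 10) (nat_lit 5) (nat_lit 12) (nat_lit 4) (nat_lit 10) (nat_lit 4) (nat_lit 234) (nat_lit 216)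 (nat_lit 210)) (XT.lf (nat_lit 0) (nat_lit 6470464091) (nat_lit 76) (nat_lit 5728820710) (nat_lit 76) (nat_lit 1654469168) (nat_lit 9) (nat_lit 4) (nat_lit 10) (nat_lit 5) (nat_lit 10) (nat_lit 4) (nat_lit 235) (nat_lit 216) (nat_lit 209))) (XT.nd (nat_lit 78) (nat_lit 76) (nat_lit 0) (XT.lf (nat_lit 0) (nat_lit 1814767218) (nat_lit 152) (nat_lit 492741054) (nat_lit 76) (nat_lit 12965272197) (nat_lit 8) (nat_lit 5) (nat_lit 10) (nat_lit 5) (nat_lit 9) (nat_lit 4) (nat_lit 236) (nat_lit 216) (nat_lit 208)) (XT.lf (nat_lit 0) (nat_lit 5789344390) (nat_lit 152) (nat_lit 9354958172) (nat_lit 0) (nat_lit 1725977136) (nat_lit 7) (nat_lit 5) (nat_lit 9) (nat_lit 4) (nat_lit 7) (nat_lit 4) (nat_lit 237) (nat_lit 216) (nat_lit 207)))) (XT.nd (nat_lit 156) (nat_lit 152) (nat_lit 0) (XT.nd (nat_lit 78) (nat_lit 76) (nat_lit 0) (XT.lf (nat_lit 0) (nat_lit 10264881700) (nat_lit 152) (nat_lit 2466299204)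 (nat_lit 0) (nat_lit 5991017836) (nat_lit 7) (nat_lit 5) (nat_lit 9) (nat_lit 4) (nat_lit 7) (nat_lit 4) (nat_lit 238) (nat_lit 216) (nat_lit 206)) (XT.lf (nat_lit 0) (nat_lit 5576822488) (nat_lit 76) (nat_lit 9864032990) (nat_lit 76) (nat_lit 5407128595) (nat_lit 6) (nat_lit 4) (nat_lit 7) (nat_lit 5) (nat_lit 7) (nat_lit 4) (nat_lit 239) (nat_lit 216) (nat_lit 205))) (XT.nd (nat_lit 78) (nat_lit 152) (nat_lit 0) (XT.lf (nat_lit 0) (nat_lit 14745327569) (nat_lit 76) (nat_lit 6586488715) (nat_lit 76) (nat_lit 1970418641) (nat_lit 6) (nat_lit 4) (nat_lit 7) (nat_lit 5) (nat_lit 7) (nat_lit 4) (nat_lit 240) (nat_lit 216) (nat_lit 204)) (XT.nd (nat_lit 78) (nat_lit 76) (nat_lit 0) (XT.lf (nat_lit 0) (nat_lit 1631673601) (nat_lit 152) (nat_lit 1246376768) (nat_lit 76) (nat_lit 23260609506) (nat_lit 5) (nat_lit 5) (nat_lit 7) (nat_lit 5) (nat_lit 6) (nat_lit 4) (nat_lit 241) (nat_lit 216)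 (nat_lit 203)) (XT.lf (nat_lit 0) (nat_lit 5800516615) (nat_lit 152) (nat_lit 21990449531) (nat_lit 0) (nat_lit 1561536501) (nat_lit 4) (nat_lit 5) (nat_lit 6) (nat_lit 4) (nat_lit 4) (nat_lit 4) (nat_lit 242) (nat_lit 216) (nat_lit 202))))))) (XT.nd (nat_lit 702) (nat_lit 152) (nat_lit 0) (XT.nd (nat_lit 312) (nat_lit 0) (nat_lit 0) (XT.nd (nat_lit 156) (nat_lit 76) (nat_lit 0) (XT.nd (nat_lit 78) (nat_lit 0) (nat_lit 0) (XT.lf (nat_lit 0) (nat_lit 10651959276) (nat_lit 152) (nat_lit 16066116815) (nat_lit 0) (nat_lit 6321975668) (nat_lit 4) (nat_lit 5) (nat_lit 6) (nat_lit 4) (nat_lit 4) (nat_lit 4) (nat_lit 243) (nat_lit 216) (nat_lit 201)) (XT.lf (nat_lit 0) (nat_lit 16102395910) (nat_lit 152) (nat_lit 9504558951) (nat_lit 0) (nat_lit 11693278830) (nat_lit 4) (nat_lit 5) (nat_lit 6) (nat_lit 4) (nat_lit 4) (nat_lit 4) (nat_lit 244) (nat_lit 216) (nat_lit 200))) (XT.nd (nat_lit 78)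 (nat_lit 76) (nat_lit 0) (XT.lf (nat_lit 0) (nat_lit 22258465496) (nat_lit 152) (nat_lit 2177397634) (nat_lit 0) (nat_lit 17780536700) (nat_lit 4) (nat_lit 5) (nat_lit 6) (nat_lit 4) (nat_lit 4) (nat_lit 4) (nat_lit 245) (nat_lit 216) (nat_lit 199)) (XT.lf (nat_lit 0) (nat_lit 6650827275) (nat_lit 76) (nat_lit 22865182172) (nat_lit 76) (nat_lit 18327417102) (nat_lit 3) (nat_lit 4) (nat_lit 4) (nat_lit 5) (nat_lit 4) (nat_lit 4) (nat_lit 246) (nat_lit 216) (nat_lit 198)))) (XT.nd (nat_lit 156) (nat_lit 0) (nat_lit 0) (XT.nd (nat_lit 78) (nat_lit 0) (nat_lit 0) (XT.lf (nat_lit 0) (nat_lit 16866523996) (nat_lit 76) (nat_lit 21017328067) (nat_lit 76) (nat_lit 16427531454) (nat_lit 3) (nat_lit 4) (nat_lit 4) (nat_lit 5) (nat_lit 4) (nat_lit 4) (nat_lit 247) (nat_lit 216) (nat_lit 197)) (XT.lf (nat_lit 0) (nat_lit 28456773721) (nat_lit 76) (nat_lit 18969965662) (nat_lit 76) (nat_lit 14334924229)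 (nat_lit 3) (nat_lit 4) (nat_lit 4) (nat_lit 5) (nat_lit 4) (nat_lit 4) (nat_lit 248) (nat_lit 216) (nat_lit 196))) (XT.nd (nat_lit 78) (nat_lit 0) (nat_lit 0) (XT.lf (nat_lit 0) (nat_lit 41648342206) (nat_lit 76) (nat_lit 16683037865) (nat_lit 76) (nat_lit 12008653112) (nat_lit 3) (nat_lit 4) (nat_lit 4) (nat_lit 5) (nat_lit 4) (nat_lit 4) (nat_lit 249) (nat_lit 216) (nat_lit 195)) (XT.nd (nat_lit 78) (nat_lit 0) (nat_lit 0) (XT.lf (nat_lit 0) (nat_lit 56699325357) (nat_lit 76) (nat_lit 14111800438) (nat_lit 76) (nat_lit 9403204101) (nat_lit 3) (nat_lit 4) (nat_lit 4) (nat_lit 5) (nat_lit 4) (nat_lit 4) (nat_lit 250) (nat_lit 216) (nat_lit 194)) (XT.lf (nat_lit 0) (nat_lit 73904198930) (nat_lit 76) (nat_lit 11205946562) (nat_lit 76) (nat_lit 6467601021) (nat_lit 3) (nat_lit 4) (nat_lit 4) (nat_lit 5) (nat_lit 4) (nat_lit 4) (nat_lit 251) (nat_lit 216) (nat_lit 193)))))) (XT.nd (nat_lit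 312) (nat_lit 0) (nat_lit 0) (XT.nd (nat_lit 156) (nat_lit 76) (nat_lit 0) (XT.nd (nat_lit 78) (nat_lit 76) (nat_lit 0) (XT.lf (nat_lit 0) (nat_lit 93599580017) (nat_lit 76) (nat_lit 7908622573) (nat_lit 76) (nat_lit 3144408159) (nat_lit 3) (nat_lit 4) (nat_lit 4) (nat_lit 5) (nat_lit 4) (nat_lit 4) (nat_lit 252) (nat_lit 216) (nat_lit 192)) (XT.lf (nat_lit 0) (nat_lit 575182461) (nat_lit 152) (nat_lit 3550066792) (nat_lit 76) (nat_lit 115565564214) (nat_lit 2) (nat_lit 5) (nat_lit 4) (nat_lit 5) (nat_lit 3) (nat_lit 4) (nat_lit 253) (nat_lit 216) (nat_lit 191))) (XT.nd (nat_lit 78) (nat_lit 0) (nat_lit 0) (XT.lf (nat_lit 0) (nat_lit 4740727959) (nat_lit 152) (nat_lit 131628745268) (nat_lit 0) (nat_lit 561363029) (nat_lit 1) (nat_lit 5) (nat_lit 3) (nat_lit 4) (nat_lit 1) (nat_lit 4) (nat_lit 254) (nat_lit 216) (nat_lit 190)) (XT.lf (nat_lit 0) (nat_lit 9886106429) (nat_lit 152) (nat_lit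 141125590879) (nat_lit 0) (nat_lit 5691950887) (nat_lit 1) (nat_lit 5) (nat_lit 3) (nat_lit 4) (nat_lit 1) (nat_lit 4) (nat_lit 255) (nat_lit 216) (nat_lit 189)))) (XT.nd (nat_lit 156) (nat_lit 0) (nat_lit 0) (XT.nd (nat_lit 78) (nat_lit 0) (nat_lit 0) (XT.lf (nat_lit 0) (nat_lit 15772119744) (nat_lit 152) (nat_lit 152109866389) (nat_lit 0) (nat_lit 11565102800) (nat_lit 1) (nat_lit 5) (nat_lit 3) (nat_lit 4) (nat_lit 1) (nat_lit 4) (nat_lit 256) (nat_lit 216) (nat_lit 188)) (XT.lf (nat_lit 0) (nat_lit 22513929034) (nat_lit 152) (nat_lit 164796481535) (nat_lit 0) (nat_lit 18295728263) (nat_lit 1) (nat_lit 5) (nat_lit 3) (nat_lit 4) (nat_lit 1) (nat_lit 4) (nat_lit 257) (nat_lit 216) (nat_lit 187))) (XT.nd (nat_lit 78) (nat_lit 0) (nat_lit 0) (XT.lf (nat_lit 0) (nat_lit 30243439264) (nat_lit 152) (nat_lit 179433652702) (nat_lit 0) (nat_lit 26015513425) (nat_lit 1) (nat_lit 5) (nat_lit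 3) (nat_lit 4) (nat_lit 1) (nat_lit 4) (nat_lit 258) (nat_lit 216) (nat_lit 186)) (XT.nd (nat_lit 78) (nat_lit 0) (nat_lit 0) (XT.lf (nat_lit 0) (nat_lit 39111879982) (nat_lit 152) (nat_lit 196307759324) (nat_lit 0) (nat_lit 34875497563) (nat_lit 1) (nat_lit 5) (nat_lit 3) (nat_lit 4) (nat_lit 1) (nat_lit 4) (nat_lit 259) (nat_lit 216) (nat_lit 185)) (XT.lf (nat_lit 0) (nat_lit 49292764158) (nat_lit 152) (nat_lit 215748946967) (nat_lit 0) (nat_lit 45049028191) (nat_lit 1) (nat_lit 5) (nat_lit 3) (nat_lit 4) (nat_lit 1) (nat_lit 4) (nat_lit 260) (nat_lit 216) (nat_lit 184))))))))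
noncomputable def xc41 : XT := (XT.nd (nat_lit 1404) (nat_lit 0) (nat_lit 0) (XT.nd (nat_lit 702) (nat_lit 0) (nat_lit 0) (XT.nd (nat_lit 312) (nat_lit 0) (nat_lit 0) (XT.nd (nat_lit 156) (nat_lit 0) (nat_lit 0) (XT.nd (nat_lit 78) (nat_lit 0) (nat_lit 0) (XT.lf (nat_lit 0) (nat_lit 60985283005) (nat_lit 152) (nat_lit 238137586692) (nat_lit 0) (nat_lit 56735152649) (nat_lit 1) (nat_lit 5) (nat_lit 3) (nat_lit 4) (nat_lit 1) (nat_lit 4) (nat_lit 261) (nat_lit 216) (nat_lit 183)) (XT.lf (nat_lit 0) (nat_lit 74418203196) (nat_lit 152) (nat_lit 263911717104) (nat_lit 0) (nat_lit 70162512501) (nat_lit 1) (nat_lit 5) (nat_lit 3) (nat_lit 4) (nat_lit 1) (nat_lit 4) (nat_lit 262) (nat_lit 216) (nat_lit 182))) (XT.nd (nat_lit 78) (nat_lit 0) (nat_lit 0) (XT.lf (nat_lit 0) (nat_lit 89854342734) (nat_lit 152) (nat_lit 293575614666) (nat_lit 0) (nat_lit 85593816961) (nat_lit 1) (nat_lit 5) (nat_lit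 3) (nat_lit 4) (nat_lit 1) (nat_lit 4) (nat_lit 263) (nat_lit 216) (nat_lit 181)) (XT.lf (nat_lit 0) (nat_lit 107595713045) (nat_lit 152) (nat_lit 327709659983) (nat_lit 0) (nat_lit 103330982858) (nat_lit 1) (nat_lit 5) (nat_lit 3) (nat_lit 4) (nat_lit 1) (nat_lit 4) (nat_lit 264) (nat_lit 216) (nat_lit 180)))) (XT.nd (nat_lit 156) (nat_lit 0) (nat_lit 0) (XT.nd (nat_lit 78) (nat_lit 0) (nat_lit 0) (XT.lf (nat_lit 0) (nat_lit 127989427897) (nat_lit 152) (nat_lit 366981693072) (nat_lit 0) (nat_lit 123721041696) (nat_lit 1) (nat_lit 5) (nat_lit 3) (nat_lit 4) (nat_lit 1) (nat_lit 4) (nat_lit 265) (nat_lit 216) (nat_lit 179)) (XT.lf (nat_lit 0) (nat_lit 151434494752) (nat_lit 152) (nat_lit 412160079798) (nat_lit 0) (nat_lit 147162929410) (nat_lit 1) (nat_lit 5) (nat_lit 3) (nat_lit 4) (nat_lit 1) (nat_lit 4) (nat_lit 266) (nat_lit 216) (nat_lit 178))) (XT.nd (nat_lit 78) (nat_lit 0) (nat_lit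 0) (XT.lf (nat_lit 0) (nat_lit 178389621443) (nat_lit 152) (nat_lit 464128745119) (nat_lit 0) (nat_lit 174115291629) (nat_lit 1) (nat_lit 5) (nat_lit 3) (nat_lit 4) (nat_lit 1) (nat_lit 4) (nat_lit 267) (nat_lit 216) (nat_lit 177)) (XT.nd (nat_lit 78) (nat_lit 0) (nat_lit 0) (XT.lf (nat_lit 0) (nat_lit 209382190881) (nat_lit 152) (nat_lit 523904467269) (nat_lit 0) (nat_lit 205105457179) (nat_lit 1) (nat_lit 5) (nat_lit 3) (nat_lit 4) (nat_lit 1) (nat_lit 4) (nat_lit 268) (nat_lit 216) (nat_lit 176)) (XT.lf (nat_lit 0) (nat_lit 245018579425) (nat_lit 152) (nat_lit 592656771247) (nat_lit 0) (nat_lit 240739755386) (nat_lit 1) (nat_lit 5) (nat_lit 3) (nat_lit 4) (nat_lit 1) (nat_lit 4) (nat_lit 269) (nat_lit 216) (nat_lit 175)))))) (XT.nd (nat_lit 312) (nat_lit 0) (nat_lit 0) (XT.nd (nat_lit 156) (nat_lit 0) (nat_lit 0) (XT.nd (nat_lit 78) (nat_lit 0) (nat_lit 0) (XT.lf (nat_lit 0) (nat_lit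 285996020765) (nat_lit 152) (nat_lit 671730810827) (nat_lit 0) (nat_lit 281715379042) (nat_lit 1) (nat_lit 5) (nat_lit 3) (nat_lit 4) (nat_lit 1) (nat_lit 4) (nat_lit 270) (nat_lit 216) (nat_lit 174)) (XT.lf (nat_lit 0) (nat_lit 333116247448) (nat_lit 152) (nat_lit 762673686782) (nat_lit 0) (nat_lit 328834025130) (nat_lit 1) (nat_lit 5) (nat_lit 3) (nat_lit 4) (nat_lit 1) (nat_lit 4) (nat_lit 271) (nat_lit 216) (nat_lit 173))) (XT.nd (nat_lit 78) (nat_lit 0) (nat_lit 0) (XT.lf (nat_lit 0) (nat_lit 387301176953) (nat_lit 152) (nat_lit 867264716250) (nat_lit 0) (nat_lit 383017580204) (nat_lit 1) (nat_lit 5) (nat_lit 3) (nat_lit 4) (nat_lit 1) (nat_lit 4) (nat_lit 272) (nat_lit 216) (nat_lit 172)) (XT.lf (nat_lit 0) (nat_lit 449610949206) (nat_lit 152) (nat_lit 987550245462) (nat_lit 0) (nat_lit 445326157299) (nat_lit 1) (nat_lit 5) (nat_lit 3) (nat_lit 4) (nat_lit 1) (nat_lit 4) (nat_lit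 273) (nat_lit 216) (nat_lit 171)))) (XT.nd (nat_lit 156) (nat_lit 0) (nat_lit 0) (XT.nd (nat_lit 78) (nat_lit 0) (nat_lit 0) (XT.lf (nat_lit 0) (nat_lit 521264668444) (nat_lit 152) (nat_lit 1125883686944) (nat_lit 0) (nat_lit 516978837271) (nat_lit 1) (nat_lit 5) (nat_lit 3) (nat_lit 4) (nat_lit 1) (nat_lit 4) (nat_lit 274) (nat_lit 216) (nat_lit 170)) (XT.lf (nat_lit 0) (nat_lit 603664255264) (nat_lit 152) (nat_lit 1284971564552) (nat_lit 0) (nat_lit 599377520379) (nat_lit 1) (nat_lit 5) (nat_lit 3) (nat_lit 4) (nat_lit 1) (nat_lit 4) (nat_lit 275) (nat_lit 216) (nat_lit 169))) (XT.nd (nat_lit 78) (nat_lit 0) (nat_lit 0) (XT.lf (nat_lit 0) (nat_lit 698421875492) (nat_lit 152) (nat_lit 1467926467196) (nat_lit 0) (nat_lit 694134354773) (nat_lit 1) (nat_lit 5) (nat_lit 3) (nat_lit 4) (nat_lit 1) (nat_lit 4) (nat_lit 276) (nat_lit 216) (nat_lit 168)) (XT.nd (nat_lit 78) (nat_lit 0) (nat_lit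 0) (XT.lf (nat_lit 0) (nat_lit 807391482570) (nat_lit 152) (nat_lit 1678327947318) (nat_lit 0) (nat_lit 803103278516) (nat_lit 1) (nat_lit 5) (nat_lit 3) (nat_lit 4) (nat_lit 1) (nat_lit 4) (nat_lit 277) (nat_lit 216) (nat_lit 167)) (XT.lf (nat_lit 0) (nat_lit 932705090548) (nat_lit 152) (nat_lit 1920292555616) (nat_lit 0) (nat_lit 928416292289) (nat_lit 1) (nat_lit 5) (nat_lit 3) (nat_lit 4) (nat_lit 1) (nat_lit 4) (nat_lit 278) (nat_lit 216) (nat_lit 166))))))) (XT.nd (nat_lit 702) (nat_lit 0) (nat_lit 0) (XT.nd (nat_lit 312) (nat_lit 0) (nat_lit 0) (XT.nd (nat_lit 156) (nat_lit 0) (nat_lit 0) (XT.nd (nat_lit 78) (nat_lit 0) (nat_lit 0) (XT.lf (nat_lit 0) (nat_lit 1076814487409) (nat_lit 152) (nat_lit 2198554382254) (nat_lit 0) (nat_lit 1072525172451) (nat_lit 1) (nat_lit 5) (nat_lit 3) (nat_lit 4) (nat_lit 1) (nat_lit 4) (nat_lit 279) (nat_lit 216) (nat_lit 165)) (XT.lf (nat_lit 0)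 (nat_lit 1242539204830) (nat_lit 152) (nat_lit 2518557680360) (nat_lit 0) (nat_lit 1238249440568) (nat_lit 1) (nat_lit 5) (nat_lit 3) (nat_lit 4) (nat_lit 1) (nat_lit 4) (nat_lit 280) (nat_lit 216) (nat_lit 164))) (XT.nd (nat_lit 78) (nat_lit 0) (nat_lit 0) (XT.lf (nat_lit 0) (nat_lit 1433121682934) (nat_lit 152) (nat_lit 2886563384029) (nat_lit 0) (nat_lit 1428831527973) (nat_lit 1) (nat_lit 5) (nat_lit 3) (nat_lit 4) (nat_lit 1) (nat_lit 4) (nat_lit 281) (nat_lit 216) (nat_lit 163)) (XT.lf (nat_lit 0) (nat_lit 1652290709338) (nat_lit 152) (nat_lit 3309771604853) (nat_lit 0) (nat_lit 1648000214638) (nat_lit 1) (nat_lit 5) (nat_lit 3) (nat_lit 4) (nat_lit 1) (nat_lit 4) (nat_lit 282) (nat_lit 216) (nat_lit 162)))) (XT.nd (nat_lit 156) (nat_lit 0) (nat_lit 0) (XT.nd (nat_lit 78) (nat_lit 0) (nat_lit 0) (XT.lf (nat_lit 0) (nat_lit 1904334373687) (nat_lit 152) (nat_lit 3796462503675) (nat_lit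 0) (nat_lit 1900043583563) (nat_lit 1) (nat_lit 5) (nat_lit 3) (nat_lit 4) (nat_lit 1) (nat_lit 4) (nat_lit 283) (nat_lit 216) (nat_lit 161)) (XT.lf (nat_lit 0) (nat_lit 2194183965067) (nat_lit 152) (nat_lit 4356158293733) (nat_lit 0) (nat_lit 2189892918052) (nat_lit 1) (nat_lit 5) (nat_lit 3) (nat_lit 4) (nat_lit 1) (nat_lit 4) (nat_lit 284) (nat_lit 216) (nat_lit 160))) (XT.nd (nat_lit 78) (nat_lit 0) (nat_lit 0) (XT.lf (nat_lit 0) (nat_lit 2527510453744) (nat_lit 152) (nat_lit 4999809544832) (nat_lit 0) (nat_lit 2523219183346) (nat_lit 1) (nat_lit 5) (nat_lit 3) (nat_lit 4) (nat_lit 1) (nat_lit 4) (nat_lit 285) (nat_lit 216) (nat_lit 159)) (XT.nd (nat_lit 78) (nat_lit 0) (nat_lit 0) (XT.lf (nat_lit 0) (nat_lit 2910835444932) (nat_lit 152) (nat_lit 5740009433624) (nat_lit 0) (nat_lit 2906543980287) (nat_lit 1) (nat_lit 5) (nat_lit 3) (nat_lit 4) (nat_lit 1) (nat_lit 4) (nat_lit 286)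 (nat_lit 216) (nat_lit 158)) (XT.lf (nat_lit 0) (nat_lit 3351658775413) (nat_lit 152) (nat_lit 6591240131847) (nat_lit 0) (nat_lit 3347367141859) (nat_lit 1) (nat_lit 5) (nat_lit 3) (nat_lit 4) (nat_lit 1) (nat_lit 4) (nat_lit 287) (nat_lit 216) (nat_lit 157)))))) (XT.nd (nat_lit 312) (nat_lit 0) (nat_lit 0) (XT.nd (nat_lit 156) (nat_lit 0) (nat_lit 0) (XT.nd (nat_lit 78) (nat_lit 0) (nat_lit 0) (XT.lf (nat_lit 0) (nat_lit 3858605249482) (nat_lit 152) (nat_lit 7570156153160) (nat_lit 0) (nat_lit 3854313469049) (nat_lit 1) (nat_lit 5) (nat_lit 3) (nat_lit 4) (nat_lit 1) (nat_lit 4) (nat_lit 288) (nat_lit 216) (nat_lit 156)) (XT.lf (nat_lit 0) (nat_lit 4441593385107) (nat_lit 152) (nat_lit 8695910202330) (nat_lit 0) (nat_lit 4437301476954) (nat_lit 1) (nat_lit 5) (nat_lit 3) (nat_lit 4) (nat_lit 1) (nat_lit 4) (nat_lit 289) (nat_lit 216) (nat_lit 155))) (XT.nd (nat_lit 78) (nat_lit 0)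 (nat_lit 0) (XT.lf (nat_lit 0) (nat_lit 5112029471900) (nat_lit 152) (nat_lit 9990527902058) (nat_lit 0) (nat_lit 5107737452686) (nat_lit 1) (nat_lit 5) (nat_lit 3) (nat_lit 4) (nat_lit 1) (nat_lit 4) (nat_lit 290) (nat_lit 216) (nat_lit 154)) (XT.lf (nat_lit 0) (nat_lit 5883030737646) (nat_lit 152) (nat_lit 11479338729076) (nat_lit 0) (nat_lit 5878738621857) (nat_lit 1) (nat_lit 5) (nat_lit 3) (nat_lit 4) (nat_lit 1) (nat_lit 4) (nat_lit 291) (nat_lit 216) (nat_lit 153)))) (XT.nd (nat_lit 156) (nat_lit 0) (nat_lit 0) (XT.nd (nat_lit 78) (nat_lit 0) (nat_lit 0) (XT.lf (nat_lit 0) (nat_lit 6769681989717) (nat_lit 152) (nat_lit 13191471590870) (nat_lit 0) (nat_lit 6765389789950) (nat_lit 1) (nat_lit 5) (nat_lit 3) (nat_lit 4) (nat_lit 1) (nat_lit 4) (nat_lit 292) (nat_lit 216) (nat_lit 152)) (XT.lf (nat_lit 0) (nat_lit 7789330752611) (nat_lit 152) (nat_lit 15160424739085) (nat_lit 0) (nat_lit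 7785038479819) (nat_lit 1) (nat_lit 5) (nat_lit 3) (nat_lit 4) (nat_lit 1) (nat_lit 4) (nat_lit 293) (nat_lit 216) (nat_lit 151))) (XT.nd (nat_lit 78) (nat_lit 0) (nat_lit 0) (XT.lf (nat_lit 0) (nat_lit 8961926676036) (nat_lit 152) (nat_lit 17424721170098) (nat_lit 0) (nat_lit 8957634339745) (nat_lit 1) (nat_lit 5) (nat_lit 3) (nat_lit 4) (nat_lit 1) (nat_lit 4) (nat_lit 294) (nat_lit 216) (nat_lit 150)) (XT.nd (nat_lit 78) (nat_lit 0) (nat_lit 0) (XT.lf (nat_lit 0) (nat_lit 10310411854147) (nat_lit 152) (nat_lit 20028662335819) (nat_lit 0) (nat_lit 10306119462640) (nat_lit 1) (nat_lit 5) (nat_lit 3) (nat_lit 4) (nat_lit 1) (nat_lit 4) (nat_lit 295) (nat_lit 216) (nat_lit 149)) (XT.lf (nat_lit 0) (nat_lit 11861169692603) (nat_lit 152) (nat_lit 23023194911232) (nat_lit 0) (nat_lit 11856877253080) (nat_lit 1) (nat_lit 5) (nat_lit 3) (nat_lit 4) (nat_lit 1) (nat_lit 4) (nat_lit 296) (nat_lit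 216) (nat_lit 148))))))))
noncomputable def xc42 : XT := (XT.nd (nat_lit 29796) (nat_lit 0) (nat_lit 0) (XT.nd (nat_lit 29094) (nat_lit 0) (nat_lit 456) (XT.nd (nat_lit 312) (nat_lit 0) (nat_lit 0) (XT.nd (nat_lit 156) (nat_lit 0) (nat_lit 0) (XT.nd (nat_lit 78) (nat_lit 0) (nat_lit 0) (XT.lf (nat_lit 0) (nat_lit 13644541105633) (nat_lit 152) (nat_lit 26466907577159) (nat_lit 0) (nat_lit 13640248624359) (nat_lit 1) (nat_lit 5) (nat_lit 3) (nat_lit 4) (nat_lit 1) (nat_lit 4) (nat_lit 297) (nat_lit 216) (nat_lit 147)) (XT.lf (nat_lit 0) (nat_lit 15695418142624) (nat_lit 152) (nat_lit 30427177320541) (nat_lit 0) (nat_lit 15691125625043) (nat_lit 1) (nat_lit 5) (nat_lit 3) (nat_lit 4) (nat_lit 1) (nat_lit 4) (nat_lit 298) (nat_lit 216) (nat_lit 146))) (XT.nd (nat_lit 78) (nat_lit 0) (nat_lit 0) (XT.lf (nat_lit 0) (nat_lit 18053926658646) (nat_lit 152) (nat_lit 34981487679837) (nat_lit 0)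 (nat_lit 18049634109495) (nat_lit 1) (nat_lit 5) (nat_lit 3) (nat_lit 4) (nat_lit 1) (nat_lit 4) (nat_lit 299) (nat_lit 216) (nat_lit 145)) (XT.lf (nat_lit 0) (nat_lit 20766211385536) (nat_lit 152) (nat_lit 40218944727294) (nat_lit 0) (nat_lit 20761918808932) (nat_lit 1) (nat_lit 5) (nat_lit 3) (nat_lit 4) (nat_lit 1) (nat_lit 4) (nat_lit 300) (nat_lit 216) (nat_lit 144)))) (XT.nd (nat_lit 28626) (nat_lit 0) (nat_lit 1292) (XT.nd (nat_lit 28548) (nat_lit 0) (nat_lit 1672) (XT.lf (nat_lit 0) (nat_lit 23885338763601) (nat_lit 152) (nat_lit 46242020448623) (nat_lit 0) (nat_lit 23881046163126) (nat_lit 1) (nat_lit 5) (nat_lit 3) (nat_lit 4) (nat_lit 1) (nat_lit 4) (nat_lit 301) (nat_lit 216) (nat_lit 143)) (XT.lf (nat_lit 0) (nat_lit 2044581085) (nat_lit 228) (nat_lit 816288655) (nat_lit 228) (nat_lit 816288655) (nat_lit 23) (nat_lit 4) (nat_lit 26) (nat_lit 5) (nat_lit 26) (nat_lit 4) (nat_lit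 226) (nat_lit 217) (nat_lit 217))) (XT.nd (nat_lit 78) (nat_lit 0) (nat_lit 0) (XT.lf (nat_lit 0) (nat_lit 1612496340) (nat_lit 380) (nat_lit 5785270081) (nat_lit 0) (nat_lit 317355402) (nat_lit 18) (nat_lit 5) (nat_lit 23) (nat_lit 4) (nat_lit 18) (nat_lit 4) (nat_lit 227) (nat_lit 217) (nat_lit 216)) (XT.lf (nat_lit 0) (nat_lit 5002988350) (nat_lit 380) (nat_lit 562623552) (nat_lit 0) (nat_lit 2581637901) (nat_lit 18) (nat_lit 5) (nat_lit 23) (nat_lit 4) (nat_lit 18) (nat_lit 4) (nat_lit 228) (nat_lit 217) (nat_lit 215))))) (XT.nd (nat_lit 312) (nat_lit 304) (nat_lit 0) (XT.nd (nat_lit 156) (nat_lit 228) (nat_lit 0) (XT.nd (nat_lit 78) (nat_lit 76) (nat_lit 0) (XT.lf (nat_lit 0) (nat_lit 76126366) (nat_lit 228) (nat_lit 3236991378) (nat_lit 76) (nat_lit 5355360960) (nat_lit 15) (nat_lit 5) (nat_lit 18) (nat_lit 5) (nat_lit 16) (nat_lit 4) (nat_lit 229) (nat_lit 217) (nat_lit 214))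 (XT.lf (nat_lit 0) (nat_lit 2707567793) (nat_lit 76) (nat_lit 529551764) (nat_lit 152) (nat_lit 6043191927) (nat_lit 14) (nat_lit 5) (nat_lit 15) (nat_lit 5) (nat_lit 16) (nat_lit 4) (nat_lit 230) (nat_lit 217) (nat_lit 213))) (XT.nd (nat_lit 78) (nat_lit 228) (nat_lit 0) (XT.lf (nat_lit 0) (nat_lit 6817944085) (nat_lit 152) (nat_lit 699255004) (nat_lit 0) (nat_lit 2476430788) (nat_lit 14) (nat_lit 5) (nat_lit 16) (nat_lit 4) (nat_lit 14) (nat_lit 4) (nat_lit 231) (nat_lit 217) (nat_lit 212)) (XT.lf (nat_lit 0) (nat_lit 89743433) (nat_lit 228) (nat_lit 4708490083) (nat_lit 76) (nat_lit 6019338922) (nat_lit 11) (nat_lit 5) (nat_lit 14) (nat_lit 5) (nat_lit 12) (nat_lit 4) (nat_lit 232) (nat_lit 217) (nat_lit 211)))) (XT.nd (nat_lit 156) (nat_lit 228) (nat_lit 0) (XT.nd (nat_lit 78) (nat_lit 0) (nat_lit 0) (XT.lf (nat_lit 0) (nat_lit 1795397375) (nat_lit 76) (nat_lit 1545871131) (nat_lit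 152) (nat_lit 8428970456) (nat_lit 10) (nat_lit 5) (nat_lit 11) (nat_lit 5) (nat_lit 12) (nat_lit 4) (nat_lit 233) (nat_lit 217) (nat_lit 210)) (XT.lf (nat_lit 0) (nat_lit 7150162337) (nat_lit 152) (nat_lit 3609592632) (nat_lit 0) (nat_lit 2096498176) (nat_lit 10) (nat_lit 5) (nat_lit 12) (nat_lit 4) (nat_lit 10) (nat_lit 4) (nat_lit 234) (nat_lit 217) (nat_lit 209))) (XT.nd (nat_lit 78) (nat_lit 152) (nat_lit 0) (XT.lf (nat_lit 0) (nat_lit 3532004098) (nat_lit 76) (nat_lit 7975583063) (nat_lit 76) (nat_lit 2601779869) (nat_lit 9) (nat_lit 4) (nat_lit 10) (nat_lit 5) (nat_lit 10) (nat_lit 4) (nat_lit 235) (nat_lit 217) (nat_lit 208)) (XT.nd (nat_lit 78) (nat_lit 76) (nat_lit 0) (XT.lf (nat_lit 0) (nat_lit 840610633) (nat_lit 152) (nat_lit 3844872097) (nat_lit 76) (nat_lit 10865745329) (nat_lit 8) (nat_lit 5) (nat_lit 10) (nat_lit 5) (nat_lit 9) (nat_lit 4) (nat_lit 236) (nat_lit 217)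 (nat_lit 207)) (XT.lf (nat_lit 0) (nat_lit 3737500746) (nat_lit 76) (nat_lit 742386140) (nat_lit 152) (nat_lit 12719373195) (nat_lit 7) (nat_lit 5) (nat_lit 8) (nat_lit 5) (nat_lit 9) (nat_lit 4) (nat_lit 237) (nat_lit 217) (nat_lit 206))))))) (XT.nd (nat_lit 702) (nat_lit 228) (nat_lit 0) (XT.nd (nat_lit 312) (nat_lit 152) (nat_lit 0) (XT.nd (nat_lit 156) (nat_lit 0) (nat_lit 0) (XT.nd (nat_lit 78) (nat_lit 76) (nat_lit 0) (XT.lf (nat_lit 0) (nat_lit 8830814522) (nat_lit 152) (nat_lit 6716928775) (nat_lit 0) (nat_lit 3522333937) (nat_lit 7) (nat_lit 5) (nat_lit 9) (nat_lit 4) (nat_lit 7) (nat_lit 4) (nat_lit 238) (nat_lit 217) (nat_lit 205)) (XT.lf (nat_lit 0) (nat_lit 744156405) (nat_lit 76) (nat_lit 12980896239) (nat_lit 76) (nat_lit 7513249975) (nat_lit 6) (nat_lit 4) (nat_lit 7) (nat_lit 5) (nat_lit 7) (nat_lit 4) (nat_lit 239) (nat_lit 217) (nat_lit 204))) (XT.nd (nat_lit 78) (nat_lit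 0) (nat_lit 0) (XT.lf (nat_lit 0) (nat_lit 9767762288) (nat_lit 76) (nat_lit 9771272708) (nat_lit 76) (nat_lit 4165221506) (nat_lit 6) (nat_lit 4) (nat_lit 7) (nat_lit 5) (nat_lit 7) (nat_lit 4) (nat_lit 240) (nat_lit 217) (nat_lit 203)) (XT.lf (nat_lit 0) (nat_lit 19874010553) (nat_lit 76) (nat_lit 6207187908) (nat_lit 76) (nat_lit 480784587) (nat_lit 6) (nat_lit 4) (nat_lit 7) (nat_lit 5) (nat_lit 7) (nat_lit 4) (nat_lit 241) (nat_lit 217) (nat_lit 202)))) (XT.nd (nat_lit 156) (nat_lit 0) (nat_lit 0) (XT.nd (nat_lit 78) (nat_lit 0) (nat_lit 0) (XT.lf (nat_lit 0) (nat_lit 1365206652) (nat_lit 76) (nat_lit 1981892878) (nat_lit 152) (nat_lit 26489379525) (nat_lit 4) (nat_lit 5) (nat_lit 5) (nat_lit 5) (nat_lit 6) (nat_lit 4) (nat_lit 242) (nat_lit 217) (nat_lit 201)) (XT.lf (nat_lit 0) (nat_lit 8056605338) (nat_lit 152) (nat_lit 22581815479) (nat_lit 0) (nat_lit 2906987223) (nat_lit 4)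 (nat_lit 5) (nat_lit 6) (nat_lit 4) (nat_lit 4) (nat_lit 4) (nat_lit 243) (nat_lit 217) (nat_lit 200))) (XT.nd (nat_lit 78) (nat_lit 0) (nat_lit 0) (XT.lf (nat_lit 0) (nat_lit 13454980324) (nat_lit 152) (nat_lit 16121946092) (nat_lit 0) (nat_lit 8236550494) (nat_lit 4) (nat_lit 5) (nat_lit 6) (nat_lit 4) (nat_lit 4) (nat_lit 4) (nat_lit 244) (nat_lit 217) (nat_lit 199)) (XT.nd (nat_lit 78) (nat_lit 0) (nat_lit 0) (XT.lf (nat_lit 0) (nat_lit 19565778912) (nat_lit 152) (nat_lit 8883209538) (nat_lit 0) (nat_lit 14287512807) (nat_lit 4) (nat_lit 5) (nat_lit 6) (nat_lit 4) (nat_lit 4) (nat_lit 4) (nat_lit 245) (nat_lit 217) (nat_lit 198)) (XT.lf (nat_lit 0) (nat_lit 26508560203) (nat_lit 152) (nat_lit 723978361) (nat_lit 0) (nat_lit 21178262556) (nat_lit 4) (nat_lit 5) (nat_lit 6) (nat_lit 4) (nat_lit 4) (nat_lit 4) (nat_lit 246) (nat_lit 217) (nat_lit 197)))))) (XT.nd (nat_lit 312) (nat_lit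 152) (nat_lit 0) (XT.nd (nat_lit 156) (nat_lit 0) (nat_lit 0) (XT.nd (nat_lit 78) (nat_lit 0) (nat_lit 0) (XT.lf (nat_lit 0) (nat_lit 9347569880) (nat_lit 76) (nat_lit 25458654278) (nat_lit 76) (nat_lit 20083111811) (nat_lit 3) (nat_lit 4) (nat_lit 4) (nat_lit 5) (nat_lit 4) (nat_lit 4) (nat_lit 247) (nat_lit 217) (nat_lit 196)) (XT.lf (nat_lit 0) (nat_lit 20873996954) (nat_lit 76) (nat_lit 23442705347) (nat_lit 76) (nat_lit 18027819559) (nat_lit 3) (nat_lit 4) (nat_lit 4) (nat_lit 5) (nat_lit 4) (nat_lit 4) (nat_lit 248) (nat_lit 217) (nat_lit 195))) (XT.nd (nat_lit 78) (nat_lit 0) (nat_lit 0) (XT.lf (nat_lit 0) (nat_lit 34010067483) (nat_lit 76) (nat_lit 21183093616) (nat_lit 76) (nat_lit 15733996243) (nat_lit 3) (nat_lit 4) (nat_lit 4) (nat_lit 5) (nat_lit 4) (nat_lit 4) (nat_lit 249) (nat_lit 217) (nat_lit 194)) (XT.lf (nat_lit 0) (nat_lit 49012791540) (nat_lit 76) (nat_lit 18635609288)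 (nat_lit 76) (nat_lit 13156762712) (nat_lit 3) (nat_lit 4) (nat_lit 4) (nat_lit 5) (nat_lit 4) (nat_lit 4) (nat_lit 250) (nat_lit 217) (nat_lit 193)))) (XT.nd (nat_lit 156) (nat_lit 152) (nat_lit 0) (XT.nd (nat_lit 78) (nat_lit 0) (nat_lit 0) (XT.lf (nat_lit 0) (nat_lit 66175700685) (nat_lit 76) (nat_lit 15750410281) (nat_lit 76) (nat_lit 10245694832) (nat_lit 3) (nat_lit 4) (nat_lit 4) (nat_lit 5) (nat_lit 4) (nat_lit 4) (nat_lit 251) (nat_lit 217) (nat_lit 192)) (XT.lf (nat_lit 0) (nat_lit 85834590965) (nat_lit 76) (nat_lit 12471047047) (nat_lit 76) (nat_lit 6943836927) (nat_lit 3) (nat_lit 4) (nat_lit 4) (nat_lit 5) (nat_lit 4) (nat_lit 4) (nat_lit 252) (nat_lit 217) (nat_lit 191))) (XT.nd (nat_lit 78) (nat_lit 152) (nat_lit 0) (XT.lf (nat_lit 0) (nat_lit 108374092842) (nat_lit 76) (nat_lit 8733358134) (nat_lit 76) (nat_lit 3186587429) (nat_lit 3) (nat_lit 4) (nat_lit 4) (nat_lit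 5) (nat_lit 4) (nat_lit 4) (nat_lit 253) (nat_lit 217) (nat_lit 190)) (XT.nd (nat_lit 78) (nat_lit 76) (nat_lit 0) (XT.lf (nat_lit 0) (nat_lit 1001674178) (nat_lit 152) (nat_lit 3410180423) (nat_lit 76) (nat_lit 133181162151) (nat_lit 2) (nat_lit 5) (nat_lit 4) (nat_lit 5) (nat_lit 3) (nat_lit 4) (nat_lit 254) (nat_lit 217) (nat_lit 189)) (XT.lf (nat_lit 0) (nat_lit 5787479043) (nat_lit 152) (nat_lit 150695752052) (nat_lit 0) (nat_lit 936548156) (nat_lit 1) (nat_lit 5) (nat_lit 3) (nat_lit 4) (nat_lit 1) (nat_lit 4) (nat_lit 255) (nat_lit 217) (nat_lit 188))))))))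
noncomputable def xc43 : XT := (XT.nd (nat_lit 1404) (nat_lit 0) (nat_lit 0) (XT.nd (nat_lit 702) (nat_lit 0) (nat_lit 0) (XT.nd (nat_lit 312) (nat_lit 0) (nat_lit 0) (XT.nd (nat_lit 156) (nat_lit 0) (nat_lit 0) (XT.nd (nat_lit 78) (nat_lit 0) (nat_lit 0) (XT.lf (nat_lit 0) (nat_lit 11660884906) (nat_lit 152) (nat_lit 161705468636) (nat_lit 0) (nat_lit 6798770192) (nat_lit 1) (nat_lit 5) (nat_lit 3) (nat_lit 4) (nat_lit 1) (nat_lit 4) (nat_lit 256) (nat_lit 217) (nat_lit 187)) (XT.lf (nat_lit 0) (nat_lit 18391731195) (nat_lit 152) (nat_lit 174414206456) (nat_lit 0) (nat_lit 13519891413) (nat_lit 1) (nat_lit 5) (nat_lit 3) (nat_lit 4) (nat_lit 1) (nat_lit 4) (nat_lit 257) (nat_lit 217) (nat_lit 186))) (XT.nd (nat_lit 78) (nat_lit 0) (nat_lit 0) (XT.lf (nat_lit 0) (nat_lit 26111708380) (nat_lit 152) (nat_lit 189070614730) (nat_lit 0) (nat_lit 21231412018) (nat_lit 1) (nat_lit 5) (nat_lit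 3) (nat_lit 4) (nat_lit 1) (nat_lit 4) (nat_lit 258) (nat_lit 217) (nat_lit 185)) (XT.lf (nat_lit 0) (nat_lit 34971859494) (nat_lit 152) (nat_lit 205961449272) (nat_lit 0) (nat_lit 30084209583) (nat_lit 1) (nat_lit 5) (nat_lit 3) (nat_lit 4) (nat_lit 1) (nat_lit 4) (nat_lit 259) (nat_lit 217) (nat_lit 184)))) (XT.nd (nat_lit 156) (nat_lit 0) (nat_lit 0) (XT.nd (nat_lit 78) (nat_lit 0) (nat_lit 0) (XT.lf (nat_lit 0) (nat_lit 45145535318) (nat_lit 152) (nat_lit 225417182931) (nat_lit 0) (nat_lit 40251491019) (nat_lit 1) (nat_lit 5) (nat_lit 3) (nat_lit 4) (nat_lit 1) (nat_lit 4) (nat_lit 260) (nat_lit 217) (nat_lit 183)) (XT.lf (nat_lit 0) (nat_lit 56831786034) (nat_lit 152) (nat_lit 247818471367) (nat_lit 0) (nat_lit 51932181395) (nat_lit 1) (nat_lit 5) (nat_lit 3) (nat_lit 4) (nat_lit 1) (nat_lit 4) (nat_lit 261) (nat_lit 217) (nat_lit 182))) (XT.nd (nat_lit 78) (nat_lit 0) (nat_lit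 0) (XT.lf (nat_lit 0) (nat_lit 70259255675) (nat_lit 152) (nat_lit 273603600657) (nat_lit 0) (nat_lit 65354815959) (nat_lit 1) (nat_lit 5) (nat_lit 3) (nat_lit 4) (nat_lit 1) (nat_lit 4) (nat_lit 262) (nat_lit 217) (nat_lit 181)) (XT.nd (nat_lit 78) (nat_lit 0) (nat_lit 0) (XT.lf (nat_lit 0) (nat_lit 85690655605) (nat_lit 152) (nat_lit 303277062461) (nat_lit 0) (nat_lit 80782011474) (nat_lit 1) (nat_lit 5) (nat_lit 3) (nat_lit 4) (nat_lit 1) (nat_lit 4) (nat_lit 263) (nat_lit 217) (nat_lit 180)) (XT.lf (nat_lit 0) (nat_lit 103427904518) (nat_lit 152) (nat_lit 337419424511) (nat_lit 0) (nat_lit 98515604374) (nat_lit 1) (nat_lit 5) (nat_lit 3) (nat_lit 4) (nat_lit 1) (nat_lit 4) (nat_lit 264) (nat_lit 217) (nat_lit 179)))))) (XT.nd (nat_lit 312) (nat_lit 0) (nat_lit 0) (XT.nd (nat_lit 156) (nat_lit 0) (nat_lit 0) (XT.nd (nat_lit 78) (nat_lit 0) (nat_lit 0) (XT.lf (nat_lit 0) (nat_lit 123818035544)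 (nat_lit 152) (nat_lit 376698689541) (nat_lit 0) (nat_lit 118902556258) (nat_lit 1) (nat_lit 5) (nat_lit 3) (nat_lit 4) (nat_lit 1) (nat_lit 4) (nat_lit 265) (nat_lit 217) (nat_lit 178)) (XT.lf (nat_lit 0) (nat_lit 147259986031) (nat_lit 152) (nat_lit 421883364912) (nat_lit 0) (nat_lit 142341742274) (nat_lit 1) (nat_lit 5) (nat_lit 3) (nat_lit 4) (nat_lit 1) (nat_lit 4) (nat_lit 266) (nat_lit 217) (nat_lit 177))) (XT.nd (nat_lit 78) (nat_lit 0) (nat_lit 0) (XT.lf (nat_lit 0) (nat_lit 174212402835) (nat_lit 152) (nat_lit 473857498620) (nat_lit 0) (nat_lit 169291755190) (nat_lit 1) (nat_lit 5) (nat_lit 3) (nat_lit 4) (nat_lit 1) (nat_lit 4) (nat_lit 267) (nat_lit 217) (nat_lit 176)) (XT.lf (nat_lit 0) (nat_lit 205202615850) (nat_lit 152) (nat_lit 533637975888) (nat_lit 0) (nat_lit 200279877868) (nat_lit 1) (nat_lit 5) (nat_lit 3) (nat_lit 4) (nat_lit 1) (nat_lit 4) (nat_lit 268) (nat_lit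 217) (nat_lit 175)))) (XT.nd (nat_lit 156) (nat_lit 0) (nat_lit 0) (XT.nd (nat_lit 78) (nat_lit 0) (nat_lit 0) (XT.lf (nat_lit 0) (nat_lit 240836955331) (nat_lit 152) (nat_lit 602394414752) (nat_lit 0) (nat_lit 235912399664) (nat_lit 1) (nat_lit 5) (nat_lit 3) (nat_lit 4) (nat_lit 1) (nat_lit 4) (nat_lit 269) (nat_lit 217) (nat_lit 174)) (XT.lf (nat_lit 0) (nat_lit 281812614876) (nat_lit 152) (nat_lit 681472049885) (nat_lit 0) (nat_lit 276886478614) (nat_lit 1) (nat_lit 5) (nat_lit 3) (nat_lit 4) (nat_lit 1) (nat_lit 4) (nat_lit 270) (nat_lit 217) (nat_lit 173))) (XT.nd (nat_lit 78) (nat_lit 0) (nat_lit 0) (XT.lf (nat_lit 0) (nat_lit 328931292173) (nat_lit 152) (nat_lit 772418052407) (nat_lit 0) (nat_lit 324003781481) (nat_lit 1) (nat_lit 5) (nat_lit 3) (nat_lit 4) (nat_lit 1) (nat_lit 4) (nat_lit 271) (nat_lit 217) (nat_lit 172)) (XT.nd (nat_lit 78) (nat_lit 0) (nat_lit 0) (XT.lf (nat_lit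 0) (nat_lit 383114874386) (nat_lit 152) (nat_lit 877011800631) (nat_lit 0) (nat_lit 378186168536) (nat_lit 1) (nat_lit 5) (nat_lit 3) (nat_lit 4) (nat_lit 1) (nat_lit 4) (nat_lit 272) (nat_lit 217) (nat_lit 171)) (XT.lf (nat_lit 0) (nat_lit 445423475079) (nat_lit 152) (nat_lit 997299693977) (nat_lit 0) (nat_lit 440493729962) (nat_lit 1) (nat_lit 5) (nat_lit 3) (nat_lit 4) (nat_lit 1) (nat_lit 4) (nat_lit 273) (nat_lit 217) (nat_lit 170))))))) (XT.nd (nat_lit 702) (nat_lit 0) (nat_lit 0) (XT.nd (nat_lit 312) (nat_lit 0) (nat_lit 0) (XT.nd (nat_lit 156) (nat_lit 0) (nat_lit 0) (XT.nd (nat_lit 78) (nat_lit 0) (nat_lit 0) (XT.lf (nat_lit 0) (nat_lit 517076175571) (nat_lit 152) (nat_lit 1135635191228) (nat_lit 0) (nat_lit 512145526744) (nat_lit 1) (nat_lit 5) (nat_lit 3) (nat_lit 4) (nat_lit 1) (nat_lit 4) (nat_lit 274) (nat_lit 217) (nat_lit 169)) (XT.lf (nat_lit 0) (nat_lit 599474876524)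 (nat_lit 152) (nat_lit 1294724856461) (nat_lit 0) (nat_lit 594543441861) (nat_lit 1) (nat_lit 5) (nat_lit 3) (nat_lit 4) (nat_lit 1) (nat_lit 4) (nat_lit 275) (nat_lit 217) (nat_lit 168))) (XT.nd (nat_lit 78) (nat_lit 0) (nat_lit 0) (XT.lf (nat_lit 0) (nat_lit 694231726434) (nat_lit 152) (nat_lit 1477681313561) (nat_lit 0) (nat_lit 689299608437) (nat_lit 1) (nat_lit 5) (nat_lit 3) (nat_lit 4) (nat_lit 1) (nat_lit 4) (nat_lit 276) (nat_lit 217) (nat_lit 167)) (XT.lf (nat_lit 0) (nat_lit 803200663669) (nat_lit 152) (nat_lit 1688084145385) (nat_lit 0) (nat_lit 798267951467) (nat_lit 1) (nat_lit 5) (nat_lit 3) (nat_lit 4) (nat_lit 1) (nat_lit 4) (nat_lit 277) (nat_lit 217) (nat_lit 166)))) (XT.nd (nat_lit 156) (nat_lit 0) (nat_lit 0) (XT.nd (nat_lit 78) (nat_lit 0) (nat_lit 0) (XT.lf (nat_lit 0) (nat_lit 928513689176) (nat_lit 152) (nat_lit 1930049929076) (nat_lit 0) (nat_lit 923580460274)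 (nat_lit 1) (nat_lit 5) (nat_lit 3) (nat_lit 4) (nat_lit 1) (nat_lit 4) (nat_lit 278) (nat_lit 217) (nat_lit 165)) (XT.lf (nat_lit 0) (nat_lit 1072622579539) (nat_lit 152) (nat_lit 2208312777794) (nat_lit 0) (nat_lit 1067688901334) (nat_lit 1) (nat_lit 5) (nat_lit 3) (nat_lit 4) (nat_lit 1) (nat_lit 4) (nat_lit 279) (nat_lit 217) (nat_lit 164))) (XT.nd (nat_lit 78) (nat_lit 0) (nat_lit 0) (XT.lf (nat_lit 0) (nat_lit 1238346856528) (nat_lit 152) (nat_lit 2528316964666) (nat_lit 0) (nat_lit 1233412787624) (nat_lit 1) (nat_lit 5) (nat_lit 3) (nat_lit 4) (nat_lit 1) (nat_lit 4) (nat_lit 280) (nat_lit 217) (nat_lit 163)) (XT.nd (nat_lit 78) (nat_lit 0) (nat_lit 0) (XT.lf (nat_lit 0) (nat_lit 1428928951648) (nat_lit 152) (nat_lit 2896323441174) (nat_lit 0) (nat_lit 1423994543005) (nat_lit 1) (nat_lit 5) (nat_lit 3) (nat_lit 4) (nat_lit 1) (nat_lit 4) (nat_lit 281) (nat_lit 217) (nat_lit 162))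 (XT.lf (nat_lit 0) (nat_lit 1648097645021) (nat_lit 152) (nat_lit 3319532334033) (nat_lit 0) (nat_lit 1643162940954) (nat_lit 1) (nat_lit 5) (nat_lit 3) (nat_lit 4) (nat_lit 1) (nat_lit 4) (nat_lit 282) (nat_lit 217) (nat_lit 161)))))) (XT.nd (nat_lit 312) (nat_lit 0) (nat_lit 0) (XT.nd (nat_lit 156) (nat_lit 0) (nat_lit 0) (XT.nd (nat_lit 78) (nat_lit 0) (nat_lit 0) (XT.lf (nat_lit 0) (nat_lit 1900141019779) (nat_lit 152) (nat_lit 3806223817233) (nat_lit 0) (nat_lit 1895206058821) (nat_lit 1) (nat_lit 5) (nat_lit 3) (nat_lit 4) (nat_lit 1) (nat_lit 4) (nat_lit 283) (nat_lit 217) (nat_lit 160)) (XT.lf (nat_lit 0) (nat_lit 2189990359340) (nat_lit 152) (nat_lit 4365920115446) (nat_lit 0) (nat_lit 2185055174999) (nat_lit 1) (nat_lit 5) (nat_lit 3) (nat_lit 4) (nat_lit 1) (nat_lit 4) (nat_lit 284) (nat_lit 217) (nat_lit 159))) (XT.nd (nat_lit 78) (nat_lit 0) (nat_lit 0) (XT.lf (nat_lit 0)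 (nat_lit 2523316629045) (nat_lit 152) (nat_lit 5009571808418) (nat_lit 0) (nat_lit 2518381250457) (nat_lit 1) (nat_lit 5) (nat_lit 3) (nat_lit 4) (nat_lit 1) (nat_lit 4) (nat_lit 285) (nat_lit 217) (nat_lit 158)) (XT.lf (nat_lit 0) (nat_lit 2906641429821) (nat_lit 152) (nat_lit 5749772081448) (nat_lit 0) (nat_lit 2901705882323) (nat_lit 1) (nat_lit 5) (nat_lit 3) (nat_lit 4) (nat_lit 1) (nat_lit 4) (nat_lit 286) (nat_lit 217) (nat_lit 157)))) (XT.nd (nat_lit 156) (nat_lit 0) (nat_lit 0) (XT.nd (nat_lit 78) (nat_lit 0) (nat_lit 0) (XT.lf (nat_lit 0) (nat_lit 3347464594728) (nat_lit 152) (nat_lit 6601003113791) (nat_lit 0) (nat_lit 3342528900352) (nat_lit 1) (nat_lit 5) (nat_lit 3) (nat_lit 4) (nat_lit 1) (nat_lit 4) (nat_lit 287) (nat_lit 217) (nat_lit 156)) (XT.lf (nat_lit 0) (nat_lit 3854410924818) (nat_lit 152) (nat_lit 7579919425644) (nat_lit 0) (nat_lit 3849475102722) (nat_lit 1)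 (nat_lit 5) (nat_lit 3) (nat_lit 4) (nat_lit 1) (nat_lit 4) (nat_lit 288) (nat_lit 217) (nat_lit 155))) (XT.nd (nat_lit 78) (nat_lit 0) (nat_lit 0) (XT.lf (nat_lit 0) (nat_lit 4437398935246) (nat_lit 152) (nat_lit 8705673727457) (nat_lit 0) (nat_lit 4432463002088) (nat_lit 1) (nat_lit 5) (nat_lit 3) (nat_lit 4) (nat_lit 1) (nat_lit 4) (nat_lit 289) (nat_lit 217) (nat_lit 154)) (XT.nd (nat_lit 78) (nat_lit 0) (nat_lit 0) (XT.lf (nat_lit 0) (nat_lit 5107834913170) (nat_lit 152) (nat_lit 10000291646873) (nat_lit 0) (nat_lit 5102898883438) (nat_lit 1) (nat_lit 5) (nat_lit 3) (nat_lit 4) (nat_lit 1) (nat_lit 4) (nat_lit 290) (nat_lit 217) (nat_lit 153)) (XT.lf (nat_lit 0) (nat_lit 5878836084248) (nat_lit 152) (nat_lit 11489102664926) (nat_lit 0) (nat_lit 5873899970538) (nat_lit 1) (nat_lit 5) (nat_lit 3) (nat_lit 4) (nat_lit 1) (nat_lit 4) (nat_lit 291) (nat_lit 217) (nat_lit 152))))))))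
noncomputable def xc44 : XT := (XT.nd (nat_lit 29484) (nat_lit 0) (nat_lit 228) (XT.nd (nat_lit 1170) (nat_lit 0) (nat_lit 0) (XT.nd (nat_lit 312) (nat_lit 0) (nat_lit 0) (XT.nd (nat_lit 156) (nat_lit 0) (nat_lit 0) (XT.nd (nat_lit 78) (nat_lit 0) (nat_lit 0) (XT.lf (nat_lit 0) (nat_lit 6765487253999) (nat_lit 152) (nat_lit 13201235692837) (nat_lit 0) (nat_lit 6760551067265) (nat_lit 1) (nat_lit 5) (nat_lit 3) (nat_lit 4) (nat_lit 1) (nat_lit 4) (nat_lit 292) (nat_lit 217) (nat_lit 151)) (XT.lf (nat_lit 0) (nat_lit 7785135945311) (nat_lit 152) (nat_lit 15170188985500) (nat_lit 0) (nat_lit 7780199695077) (nat_lit 1) (nat_lit 5) (nat_lit 3) (nat_lit 4) (nat_lit 1) (nat_lit 4) (nat_lit 293) (nat_lit 217) (nat_lit 150))) (XT.nd (nat_lit 78) (nat_lit 0) (nat_lit 0) (XT.lf (nat_lit 0) (nat_lit 8957731806491) (nat_lit 152) (nat_lit 17434485542121) (nat_lit 0) (nat_lit 8952795501039) (nat_lit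 1) (nat_lit 5) (nat_lit 3) (nat_lit 4) (nat_lit 1) (nat_lit 4) (nat_lit 294) (nat_lit 217) (nat_lit 149)) (XT.lf (nat_lit 0) (nat_lit 10306216930475) (nat_lit 152) (nat_lit 20038426817067) (nat_lit 0) (nat_lit 10301280577009) (nat_lit 1) (nat_lit 5) (nat_lit 3) (nat_lit 4) (nat_lit 1) (nat_lit 4) (nat_lit 295) (nat_lit 217) (nat_lit 148)))) (XT.nd (nat_lit 156) (nat_lit 0) (nat_lit 0) (XT.nd (nat_lit 78) (nat_lit 0) (nat_lit 0) (XT.lf (nat_lit 0) (nat_lit 11856974721864) (nat_lit 152) (nat_lit 23032959487458) (nat_lit 0) (nat_lit 11852038326646) (nat_lit 1) (nat_lit 5) (nat_lit 3) (nat_lit 4) (nat_lit 1) (nat_lit 4) (nat_lit 296) (nat_lit 217) (nat_lit 147)) (XT.lf (nat_lit 0) (nat_lit 13640346093966) (nat_lit 152) (nat_lit 26476672235974) (nat_lit 0) (nat_lit 13635409662443) (nat_lit 1) (nat_lit 5) (nat_lit 3) (nat_lit 4) (nat_lit 1) (nat_lit 4) (nat_lit 297) (nat_lit 217) (nat_lit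 146))) (XT.nd (nat_lit 78) (nat_lit 0) (nat_lit 0) (XT.lf (nat_lit 0) (nat_lit 15691223095368) (nat_lit 152) (nat_lit 30436942051173) (nat_lit 0) (nat_lit 15686286632274) (nat_lit 1) (nat_lit 5) (nat_lit 3) (nat_lit 4) (nat_lit 1) (nat_lit 4) (nat_lit 298) (nat_lit 217) (nat_lit 145)) (XT.lf (nat_lit 0) (nat_lit 18049731580443) (nat_lit 152) (nat_lit 34991252472919) (nat_lit 0) (nat_lit 18044795089896) (nat_lit 1) (nat_lit 5) (nat_lit 3) (nat_lit 4) (nat_lit 1) (nat_lit 4) (nat_lit 299) (nat_lit 217) (nat_lit 144))))) (XT.nd (nat_lit 27924) (nat_lit 0) (nat_lit 1292) (XT.nd (nat_lit 156) (nat_lit 0) (nat_lit 0) (XT.nd (nat_lit 78) (nat_lit 0) (nat_lit 0) (XT.lf (nat_lit 0) (nat_lit 55280771423412) (nat_lit 152) (nat_lit 106884881668126) (nat_lit 0) (nat_lit 55275834809676) (nat_lit 1) (nat_lit 5) (nat_lit 3) (nat_lit 4) (nat_lit 1) (nat_lit 4) (nat_lit 307) (nat_lit 217) (nat_lit 136))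 (XT.lf (nat_lit 0) (nat_lit 63577711840210) (nat_lit 152) (nat_lit 122906383673077) (nat_lit 0) (nat_lit 63572775218671) (nat_lit 1) (nat_lit 5) (nat_lit 3) (nat_lit 4) (nat_lit 1) (nat_lit 4) (nat_lit 308) (nat_lit 217) (nat_lit 135))) (XT.nd (nat_lit 78) (nat_lit 0) (nat_lit 0) (XT.lf (nat_lit 0) (nat_lit 73119193303082) (nat_lit 152) (nat_lit 141331111011960) (nat_lit 0) (nat_lit 73114256674756) (nat_lit 1) (nat_lit 5) (nat_lit 3) (nat_lit 4) (nat_lit 1) (nat_lit 4) (nat_lit 309) (nat_lit 217) (nat_lit 134)) (XT.lf (nat_lit 0) (nat_lit 84091896971082) (nat_lit 152) (nat_lit 162519547480534) (nat_lit 0) (nat_lit 84086960336856) (nat_lit 1) (nat_lit 5) (nat_lit 3) (nat_lit 4) (nat_lit 1) (nat_lit 4) (nat_lit 310) (nat_lit 217) (nat_lit 133)))) (XT.nd (nat_lit 156) (nat_lit 608) (nat_lit 0) (XT.nd (nat_lit 78) (nat_lit 0) (nat_lit 0) (XT.lf (nat_lit 0) (nat_lit 380123453) (nat_lit 228)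 (nat_lit 2658833383) (nat_lit 0) (nat_lit 380123453) (nat_lit 26) (nat_lit 5) (nat_lit 29) (nat_lit 4) (nat_lit 26) (nat_lit 4) (nat_lit 224) (nat_lit 218) (nat_lit 218)) (XT.lf (nat_lit 0) (nat_lit 3891252436) (nat_lit 228) (nat_lit 1003651955) (nat_lit 0) (nat_lit 2178428545) (nat_lit 26) (nat_lit 5) (nat_lit 29) (nat_lit 4) (nat_lit 26) (nat_lit 4) (nat_lit 225) (nat_lit 218) (nat_lit 217))) (XT.nd (nat_lit 78) (nat_lit 380) (nat_lit 0) (XT.lf (nat_lit 0) (nat_lit 3867375060) (nat_lit 228) (nat_lit 3360901182) (nat_lit 228) (nat_lit 158665214) (nat_lit 23) (nat_lit 4) (nat_lit 26) (nat_lit 5) (nat_lit 26) (nat_lit 4) (nat_lit 226) (nat_lit 218) (nat_lit 216)) (XT.nd (nat_lit 78) (nat_lit 0) (nat_lit 0) (XT.lf (nat_lit 0) (nat_lit 1366765579) (nat_lit 304) (nat_lit 1360742553) (nat_lit 380) (nat_lit 5046507516) (nat_lit 18) (nat_lit 5) (nat_lit 22) (nat_lit 5) (nat_lit 23) (nat_lit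 4) (nat_lit 227) (nat_lit 218) (nat_lit 215)) (XT.lf (nat_lit 0) (nat_lit 5887440041) (nat_lit 380) (nat_lit 1357028384) (nat_lit 0) (nat_lit 997364895) (nat_lit 18) (nat_lit 5) (nat_lit 23) (nat_lit 4) (nat_lit 18) (nat_lit 4) (nat_lit 228) (nat_lit 218) (nat_lit 214))))))) (XT.nd (nat_lit 702) (nat_lit 304) (nat_lit 0) (XT.nd (nat_lit 312) (nat_lit 304) (nat_lit 0) (XT.nd (nat_lit 156) (nat_lit 152) (nat_lit 0) (XT.nd (nat_lit 78) (nat_lit 76) (nat_lit 0) (XT.lf (nat_lit 0) (nat_lit 588792600) (nat_lit 228) (nat_lit 4475747244) (nat_lit 76) (nat_lit 3725484775) (nat_lit 15) (nat_lit 5) (nat_lit 18) (nat_lit 5) (nat_lit 16) (nat_lit 4) (nat_lit 229) (nat_lit 218) (nat_lit 213)) (XT.lf (nat_lit 0) (nat_lit 1122737804) (nat_lit 76) (nat_lit 2414420416) (nat_lit 152) (nat_lit 5897320315) (nat_lit 14) (nat_lit 5) (nat_lit 15) (nat_lit 5) (nat_lit 16) (nat_lit 4) (nat_lit 230) (nat_lit 218)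 (nat_lit 212))) (XT.nd (nat_lit 78) (nat_lit 152) (nat_lit 0) (XT.lf (nat_lit 0) (nat_lit 6901530065) (nat_lit 152) (nat_lit 2574416275) (nat_lit 0) (nat_lit 704950663) (nat_lit 14) (nat_lit 5) (nat_lit 16) (nat_lit 4) (nat_lit 14) (nat_lit 4) (nat_lit 231) (nat_lit 218) (nat_lit 211)) (XT.lf (nat_lit 0) (nat_lit 3850882136) (nat_lit 152) (nat_lit 6935348921) (nat_lit 152) (nat_lit 251878068) (nat_lit 12) (nat_lit 4) (nat_lit 14) (nat_lit 5) (nat_lit 14) (nat_lit 4) (nat_lit 232) (nat_lit 218) (nat_lit 210)))) (XT.nd (nat_lit 156) (nat_lit 152) (nat_lit 0) (XT.nd (nat_lit 78) (nat_lit 76) (nat_lit 0) (XT.lf (nat_lit 0) (nat_lit 2829941749) (nat_lit 228) (nat_lit 1022479962) (nat_lit 76) (nat_lit 8169153443) (nat_lit 11) (nat_lit 5) (nat_lit 14) (nat_lit 5) (nat_lit 12) (nat_lit 4) (nat_lit 233) (nat_lit 218) (nat_lit 209)) (XT.lf (nat_lit 0) (nat_lit 6257341359) (nat_lit 76) (nat_lit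 129800951) (nat_lit 152) (nat_lit 6758562463) (nat_lit 10) (nat_lit 5) (nat_lit 11) (nat_lit 5) (nat_lit 12) (nat_lit 4) (nat_lit 234) (nat_lit 218) (nat_lit 208))) (XT.nd (nat_lit 78) (nat_lit 152) (nat_lit 0) (XT.lf (nat_lit 0) (nat_lit 10494792477) (nat_lit 152) (nat_lit 225408674) (nat_lit 0) (nat_lit 3716398006) (nat_lit 10) (nat_lit 5) (nat_lit 12) (nat_lit 4) (nat_lit 10) (nat_lit 4) (nat_lit 235) (nat_lit 218) (nat_lit 207)) (XT.nd (nat_lit 78) (nat_lit 76) (nat_lit 0) (XT.lf (nat_lit 0) (nat_lit 7808990163) (nat_lit 76) (nat_lit 7555642195) (nat_lit 76) (nat_lit 535176622) (nat_lit 9) (nat_lit 4) (nat_lit 10) (nat_lit 5) (nat_lit 10) (nat_lit 4) (nat_lit 236) (nat_lit 218) (nat_lit 206)) (XT.lf (nat_lit 0) (nat_lit 2912913229) (nat_lit 152) (nat_lit 968198739) (nat_lit 76) (nat_lit 13706084501) (nat_lit 8) (nat_lit 5) (nat_lit 10) (nat_lit 5) (nat_lit 9) (nat_lit 4) (nat_lit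 237) (nat_lit 218) (nat_lit 205)))))) (XT.nd (nat_lit 312) (nat_lit 152) (nat_lit 0) (XT.nd (nat_lit 156) (nat_lit 76) (nat_lit 0) (XT.nd (nat_lit 78) (nat_lit 0) (nat_lit 0) (XT.lf (nat_lit 0) (nat_lit 7006142959) (nat_lit 152) (nat_lit 11931520974) (nat_lit 0) (nat_lit 559184077) (nat_lit 7) (nat_lit 5) (nat_lit 9) (nat_lit 4) (nat_lit 7) (nat_lit 4) (nat_lit 238) (nat_lit 218) (nat_lit 204)) (XT.lf (nat_lit 0) (nat_lit 11798588665) (nat_lit 152) (nat_lit 4668685011) (nat_lit 0) (nat_lit 5213224845) (nat_lit 7) (nat_lit 5) (nat_lit 9) (nat_lit 4) (nat_lit 7) (nat_lit 4) (nat_lit 239) (nat_lit 218) (nat_lit 203))) (XT.nd (nat_lit 78) (nat_lit 0) (nat_lit 0) (XT.lf (nat_lit 0) (nat_lit 3772663715) (nat_lit 76) (nat_lit 13560756561) (nat_lit 76) (nat_lit 6855040621) (nat_lit 6) (nat_lit 4) (nat_lit 7) (nat_lit 5) (nat_lit 7) (nat_lit 4) (nat_lit 240) (nat_lit 218) (nat_lit 202)) (XT.lf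 (nat_lit 0) (nat_lit 13769347369) (nat_lit 76) (nat_lit 10048029602) (nat_lit 76) (nat_lit 3237659645) (nat_lit 6) (nat_lit 4) (nat_lit 7) (nat_lit 5) (nat_lit 7) (nat_lit 4) (nat_lit 241) (nat_lit 218) (nat_lit 201)))) (XT.nd (nat_lit 156) (nat_lit 0) (nat_lit 0) (XT.nd (nat_lit 78) (nat_lit 76) (nat_lit 0) (XT.lf (nat_lit 0) (nat_lit 726011858) (nat_lit 152) (nat_lit 5340447953) (nat_lit 76) (nat_lit 24296732908) (nat_lit 5) (nat_lit 5) (nat_lit 7) (nat_lit 5) (nat_lit 6) (nat_lit 4) (nat_lit 242) (nat_lit 218) (nat_lit 200)) (XT.lf (nat_lit 0) (nat_lit 3792003294) (nat_lit 76) (nat_lit 1218466574) (nat_lit 152) (nat_lit 29125486697) (nat_lit 4) (nat_lit 5) (nat_lit 5) (nat_lit 5) (nat_lit 6) (nat_lit 4) (nat_lit 243) (nat_lit 218) (nat_lit 199))) (XT.nd (nat_lit 78) (nat_lit 0) (nat_lit 0) (XT.lf (nat_lit 0) (nat_lit 10313119754) (nat_lit 152) (nat_lit 23922054544) (nat_lit 0) (nat_lit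 4183277459) (nat_lit 4) (nat_lit 5) (nat_lit 6) (nat_lit 4) (nat_lit 4) (nat_lit 4) (nat_lit 244) (nat_lit 218) (nat_lit 198)) (XT.nd (nat_lit 78) (nat_lit 0) (nat_lit 0) (XT.lf (nat_lit 0) (nat_lit 16384552255) (nat_lit 152) (nat_lit 16760209088) (nat_lit 0) (nat_lit 10202678418) (nat_lit 4) (nat_lit 5) (nat_lit 6) (nat_lit 4) (nat_lit 4) (nat_lit 4) (nat_lit 245) (nat_lit 218) (nat_lit 197)) (XT.lf (nat_lit 0) (nat_lit 23293102168) (nat_lit 152) (nat_lit 8667839735) (nat_lit 0) (nat_lit 17065983511) (nat_lit 4) (nat_lit 5) (nat_lit 6) (nat_lit 4) (nat_lit 4) (nat_lit 4) (nat_lit 246) (nat_lit 218) (nat_lit 196))))))))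
noncomputable def xc45 : XT := (XT.nd (nat_lit 1404) (nat_lit 0) (nat_lit 0) (XT.nd (nat_lit 702) (nat_lit 76) (nat_lit 0) (XT.nd (nat_lit 312) (nat_lit 76) (nat_lit 0) (XT.nd (nat_lit 156) (nat_lit 0) (nat_lit 0) (XT.nd (nat_lit 78) (nat_lit 0) (nat_lit 0) (XT.lf (nat_lit 0) (nat_lit 563553948) (nat_lit 76) (nat_lit 30633718391) (nat_lit 76) (nat_lit 24367256413) (nat_lit 3) (nat_lit 4) (nat_lit 4) (nat_lit 5) (nat_lit 4) (nat_lit 4) (nat_lit 247) (nat_lit 218) (nat_lit 195)) (XT.lf (nat_lit 0) (nat_lit 12034483066) (nat_lit 76) (nat_lit 28645085525) (nat_lit 76) (nat_lit 22344411962) (nat_lit 3) (nat_lit 4) (nat_lit 4) (nat_lit 5) (nat_lit 4) (nat_lit 4) (nat_lit 248) (nat_lit 218) (nat_lit 194))) (XT.nd (nat_lit 78) (nat_lit 0) (nat_lit 0) (XT.lf (nat_lit 0) (nat_lit 25122294501) (nat_lit 76) (nat_lit 26409226892) (nat_lit 76) (nat_lit 20078804127) (nat_lit 3) (nat_lit 4) (nat_lit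 4) (nat_lit 5) (nat_lit 4) (nat_lit 4) (nat_lit 249) (nat_lit 218) (nat_lit 193)) (XT.lf (nat_lit 0) (nat_lit 40083054130) (nat_lit 76) (nat_lit 23882397434) (nat_lit 76) (nat_lit 17526105796) (nat_lit 3) (nat_lit 4) (nat_lit 4) (nat_lit 5) (nat_lit 4) (nat_lit 4) (nat_lit 250) (nat_lit 218) (nat_lit 192)))) (XT.nd (nat_lit 156) (nat_lit 76) (nat_lit 0) (XT.nd (nat_lit 78) (nat_lit 0) (nat_lit 0) (XT.lf (nat_lit 0) (nat_lit 57209472467) (nat_lit 76) (nat_lit 21015159183) (nat_lit 76) (nat_lit 14636372873) (nat_lit 3) (nat_lit 4) (nat_lit 4) (nat_lit 5) (nat_lit 4) (nat_lit 4) (nat_lit 251) (nat_lit 218) (nat_lit 191)) (XT.lf (nat_lit 0) (nat_lit 76836631609) (nat_lit 76) (nat_lit 17751413998) (nat_lit 76) (nat_lit 11353067104) (nat_lit 3) (nat_lit 4) (nat_lit 4) (nat_lit 5) (nat_lit 4) (nat_lit 4) (nat_lit 252) (nat_lit 218) (nat_lit 190))) (XT.nd (nat_lit 78) (nat_lit 76) (nat_lit 0)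 (XT.lf (nat_lit 0) (nat_lit 99348541194) (nat_lit 76) (nat_lit 14027305996) (nat_lit 76) (nat_lit 7611949898) (nat_lit 3) (nat_lit 4) (nat_lit 4) (nat_lit 5) (nat_lit 4) (nat_lit 4) (nat_lit 253) (nat_lit 218) (nat_lit 189)) (XT.nd (nat_lit 78) (nat_lit 76) (nat_lit 0) (XT.lf (nat_lit 0) (nat_lit 125185651624) (nat_lit 76) (nat_lit 9769972194) (nat_lit 76) (nat_lit 3339825484) (nat_lit 3) (nat_lit 4) (nat_lit 4) (nat_lit 5) (nat_lit 4) (nat_lit 4) (nat_lit 254) (nat_lit 218) (nat_lit 188)) (XT.lf (nat_lit 0) (nat_lit 1409176230) (nat_lit 152) (nat_lit 3413279215) (nat_lit 76) (nat_lit 153370633868) (nat_lit 2) (nat_lit 5) (nat_lit 4) (nat_lit 5) (nat_lit 3) (nat_lit 4) (nat_lit 255) (nat_lit 218) (nat_lit 187)))))) (XT.nd (nat_lit 312) (nat_lit 0) (nat_lit 0) (XT.nd (nat_lit 156) (nat_lit 0) (nat_lit 0) (XT.nd (nat_lit 78) (nat_lit 0) (nat_lit 0) (XT.lf (nat_lit 0) (nat_lit 6909394389)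 (nat_lit 152) (nat_lit 172787974969) (nat_lit 0) (nat_lit 1297053573) (nat_lit 1) (nat_lit 5) (nat_lit 3) (nat_lit 4) (nat_lit 1) (nat_lit 4) (nat_lit 256) (nat_lit 218) (nat_lit 186)) (XT.lf (nat_lit 0) (nat_lit 13630707633) (nat_lit 152) (nat_lit 185515949896) (nat_lit 0) (nat_lit 8009910236) (nat_lit 1) (nat_lit 5) (nat_lit 3) (nat_lit 4) (nat_lit 1) (nat_lit 4) (nat_lit 257) (nat_lit 218) (nat_lit 185))) (XT.nd (nat_lit 78) (nat_lit 0) (nat_lit 0) (XT.lf (nat_lit 0) (nat_lit 21342395214) (nat_lit 152) (nat_lit 200189086089) (nat_lit 0) (nat_lit 15714244269) (nat_lit 1) (nat_lit 5) (nat_lit 3) (nat_lit 4) (nat_lit 1) (nat_lit 4) (nat_lit 258) (nat_lit 218) (nat_lit 184)) (XT.lf (nat_lit 0) (nat_lit 30195337976) (nat_lit 152) (nat_lit 217094466648) (nat_lit 0) (nat_lit 24560792642) (nat_lit 1) (nat_lit 5) (nat_lit 3) (nat_lit 4) (nat_lit 1) (nat_lit 4) (nat_lit 259) (nat_lit 218) (nat_lit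 183)))) (XT.nd (nat_lit 156) (nat_lit 0) (nat_lit 0) (XT.nd (nat_lit 78) (nat_lit 0) (nat_lit 0) (XT.lf (nat_lit 0) (nat_lit 40362745669) (nat_lit 152) (nat_lit 236562849018) (nat_lit 0) (nat_lit 34722639996) (nat_lit 1) (nat_lit 5) (nat_lit 3) (nat_lit 4) (nat_lit 1) (nat_lit 4) (nat_lit 260) (nat_lit 218) (nat_lit 182)) (XT.lf (nat_lit 0) (nat_lit 52043545835) (nat_lit 152) (nat_lit 258975136332) (nat_lit 0) (nat_lit 46398605084) (nat_lit 1) (nat_lit 5) (nat_lit 3) (nat_lit 4) (nat_lit 1) (nat_lit 4) (nat_lit 261) (nat_lit 218) (nat_lit 181))) (XT.nd (nat_lit 78) (nat_lit 0) (nat_lit 0) (XT.lf (nat_lit 0) (nat_lit 65466275868) (nat_lit 152) (nat_lit 284769829864) (nat_lit 0) (nat_lit 59817130702) (nat_lit 1) (nat_lit 5) (nat_lit 3) (nat_lit 4) (nat_lit 1) (nat_lit 4) (nat_lit 262) (nat_lit 218) (nat_lit 180)) (XT.nd (nat_lit 78) (nat_lit 0) (nat_lit 0) (XT.lf (nat_lit 0) (nat_lit 80893554399)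 (nat_lit 152) (nat_lit 314451608401) (nat_lit 0) (nat_lit 75240753221) (nat_lit 1) (nat_lit 5) (nat_lit 3) (nat_lit 4) (nat_lit 1) (nat_lit 4) (nat_lit 263) (nat_lit 218) (nat_lit 179)) (XT.lf (nat_lit 0) (nat_lit 98627219487) (nat_lit 152) (nat_lit 348601202392) (nat_lit 0) (nat_lit 92971239167) (nat_lit 1) (nat_lit 5) (nat_lit 3) (nat_lit 4) (nat_lit 1) (nat_lit 4) (nat_lit 264) (nat_lit 218) (nat_lit 178))))))) (XT.nd (nat_lit 702) (nat_lit 0) (nat_lit 0) (XT.nd (nat_lit 312) (nat_lit 0) (nat_lit 0) (XT.nd (nat_lit 156) (nat_lit 0) (nat_lit 0) (XT.nd (nat_lit 78) (nat_lit 0) (nat_lit 0) (XT.lf (nat_lit 0) (nat_lit 119014234145) (nat_lit 152) (nat_lit 387886756067) (nat_lit 0) (nat_lit 113355489353) (nat_lit 1) (nat_lit 5) (nat_lit 3) (nat_lit 4) (nat_lit 1) (nat_lit 4) (nat_lit 265) (nat_lit 218) (nat_lit 177)) (XT.lf (nat_lit 0) (nat_lit 142453474745) (nat_lit 152) (nat_lit 433076899824)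 (nat_lit 0) (nat_lit 136792326066) (nat_lit 1) (nat_lit 5) (nat_lit 3) (nat_lit 4) (nat_lit 1) (nat_lit 4) (nat_lit 266) (nat_lit 218) (nat_lit 176))) (XT.nd (nat_lit 78) (nat_lit 0) (nat_lit 0) (XT.lf (nat_lit 0) (nat_lit 169403535126) (nat_lit 152) (nat_lit 485055788650) (nat_lit 0) (nat_lit 163740296109) (nat_lit 1) (nat_lit 5) (nat_lit 3) (nat_lit 4) (nat_lit 1) (nat_lit 4) (nat_lit 267) (nat_lit 218) (nat_lit 175)) (XT.lf (nat_lit 0) (nat_lit 200391699078) (nat_lit 152) (nat_lit 544840400805) (nat_lit 0) (nat_lit 194726642376) (nat_lit 1) (nat_lit 5) (nat_lit 3) (nat_lit 4) (nat_lit 1) (nat_lit 4) (nat_lit 268) (nat_lit 218) (nat_lit 174)))) (XT.nd (nat_lit 156) (nat_lit 0) (nat_lit 0) (XT.nd (nat_lit 78) (nat_lit 0) (nat_lit 0) (XT.lf (nat_lit 0) (nat_lit 236024256764) (nat_lit 152) (nat_lit 613600435222) (nat_lit 0) (nat_lit 230357619468) (nat_lit 1) (nat_lit 5) (nat_lit 3) (nat_lit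 4) (nat_lit 1) (nat_lit 4) (nat_lit 269) (nat_lit 218) (nat_lit 173)) (XT.lf (nat_lit 0) (nat_lit 276998366924) (nat_lit 152) (nat_lit 692681196922) (nat_lit 0) (nat_lit 271330355196) (nat_lit 1) (nat_lit 5) (nat_lit 3) (nat_lit 4) (nat_lit 1) (nat_lit 4) (nat_lit 270) (nat_lit 218) (nat_lit 172))) (XT.nd (nat_lit 78) (nat_lit 0) (nat_lit 0) (XT.lf (nat_lit 0) (nat_lit 324115696928) (nat_lit 152) (nat_lit 783629918199) (nat_lit 0) (nat_lit 318446490044) (nat_lit 1) (nat_lit 5) (nat_lit 3) (nat_lit 4) (nat_lit 1) (nat_lit 4) (nat_lit 271) (nat_lit 218) (nat_lit 171)) (XT.nd (nat_lit 78) (nat_lit 0) (nat_lit 0) (XT.lf (nat_lit 0) (nat_lit 378298107582) (nat_lit 152) (nat_lit 888226030557) (nat_lit 0) (nat_lit 372627861431) (nat_lit 1) (nat_lit 5) (nat_lit 3) (nat_lit 4) (nat_lit 1) (nat_lit 4) (nat_lit 272) (nat_lit 218) (nat_lit 170)) (XT.lf (nat_lit 0) (nat_lit 440605689529) (nat_lit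 152) (nat_lit 1008515979672) (nat_lit 0) (nat_lit 434934539667) (nat_lit 1) (nat_lit 5) (nat_lit 3) (nat_lit 4) (nat_lit 1) (nat_lit 4) (nat_lit 273) (nat_lit 218) (nat_lit 169)))))) (XT.nd (nat_lit 312) (nat_lit 0) (nat_lit 0) (XT.nd (nat_lit 156) (nat_lit 0) (nat_lit 0) (XT.nd (nat_lit 78) (nat_lit 0) (nat_lit 0) (XT.lf (nat_lit 0) (nat_lit 512257504154) (nat_lit 152) (nat_lit 1146853264548) (nat_lit 0) (nat_lit 506585568457) (nat_lit 1) (nat_lit 5) (nat_lit 3) (nat_lit 4) (nat_lit 1) (nat_lit 4) (nat_lit 274) (nat_lit 218) (nat_lit 168)) (XT.lf (nat_lit 0) (nat_lit 594655434788) (nat_lit 152) (nat_lit 1305944484238) (nat_lit 0) (nat_lit 588982815756) (nat_lit 1) (nat_lit 5) (nat_lit 3) (nat_lit 4) (nat_lit 1) (nat_lit 4) (nat_lit 275) (nat_lit 218) (nat_lit 167))) (XT.nd (nat_lit 78) (nat_lit 0) (nat_lit 0) (XT.lf (nat_lit 0) (nat_lit 689411614856) (nat_lit 152) (nat_lit 1488902293040)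 (nat_lit 0) (nat_lit 683738401619) (nat_lit 1) (nat_lit 5) (nat_lit 3) (nat_lit 4) (nat_lit 1) (nat_lit 4) (nat_lit 276) (nat_lit 218) (nat_lit 166)) (XT.lf (nat_lit 0) (nat_lit 798379969619) (nat_lit 152) (nat_lit 1699306300256) (nat_lit 0) (nat_lit 792706239683) (nat_lit 1) (nat_lit 5) (nat_lit 3) (nat_lit 4) (nat_lit 1) (nat_lit 4) (nat_lit 277) (nat_lit 218) (nat_lit 165)))) (XT.nd (nat_lit 156) (nat_lit 0) (nat_lit 0) (XT.nd (nat_lit 78) (nat_lit 0) (nat_lit 0) (XT.lf (nat_lit 0) (nat_lit 923692488629) (nat_lit 152) (nat_lit 1941273106028) (nat_lit 0) (nat_lit 918018309389) (nat_lit 1) (nat_lit 5) (nat_lit 3) (nat_lit 4) (nat_lit 1) (nat_lit 4) (nat_lit 278) (nat_lit 218) (nat_lit 164)) (XT.lf (nat_lit 0) (nat_lit 1067800938560) (nat_lit 152) (nat_lit 2219536843512) (nat_lit 0) (nat_lit 1062126368621) (nat_lit 1) (nat_lit 5) (nat_lit 3) (nat_lit 4) (nat_lit 1) (nat_lit 4) (nat_lit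 279) (nat_lit 218) (nat_lit 163))) (XT.nd (nat_lit 78) (nat_lit 0) (nat_lit 0) (XT.lf (nat_lit 0) (nat_lit 1233524832564) (nat_lit 152) (nat_lit 2539541803223) (nat_lit 0) (nat_lit 1227849922887) (nat_lit 1) (nat_lit 5) (nat_lit 3) (nat_lit 4) (nat_lit 1) (nat_lit 4) (nat_lit 280) (nat_lit 218) (nat_lit 162)) (XT.nd (nat_lit 78) (nat_lit 0) (nat_lit 0) (XT.lf (nat_lit 0) (nat_lit 1424106594654) (nat_lit 152) (nat_lit 2907548951766) (nat_lit 0) (nat_lit 1418431389552) (nat_lit 1) (nat_lit 5) (nat_lit 3) (nat_lit 4) (nat_lit 1) (nat_lit 4) (nat_lit 281) (nat_lit 218) (nat_lit 161)) (XT.lf (nat_lit 0) (nat_lit 1643274998436) (nat_lit 152) (nat_lit 3330758429003) (nat_lit 0) (nat_lit 1637599536443) (nat_lit 1) (nat_lit 5) (nat_lit 3) (nat_lit 4) (nat_lit 1) (nat_lit 4) (nat_lit 282) (nat_lit 218) (nat_lit 160))))))))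
noncomputable def xc46 : XT := (XT.nd (nat_lit 1872) (nat_lit 0) (nat_lit 0) (XT.nd (nat_lit 702) (nat_lit 0) (nat_lit 0) (XT.nd (nat_lit 312) (nat_lit 0) (nat_lit 0) (XT.nd (nat_lit 156) (nat_lit 0) (nat_lit 0) (XT.nd (nat_lit 78) (nat_lit 0) (nat_lit 0) (XT.lf (nat_lit 0) (nat_lit 1895318121375) (nat_lit 152) (nat_lit 3817450420357) (nat_lit 0) (nat_lit 1889642435999) (nat_lit 1) (nat_lit 5) (nat_lit 3) (nat_lit 4) (nat_lit 1) (nat_lit 4) (nat_lit 283) (nat_lit 218) (nat_lit 159)) (XT.lf (nat_lit 0) (nat_lit 2185167241964) (nat_lit 152) (nat_lit 4377147160444) (nat_lit 0) (nat_lit 2179491362341) (nat_lit 1) (nat_lit 5) (nat_lit 3) (nat_lit 4) (nat_lit 1) (nat_lit 4) (nat_lit 284) (nat_lit 218) (nat_lit 158))) (XT.nd (nat_lit 78) (nat_lit 0) (nat_lit 0) (XT.lf (nat_lit 0) (nat_lit 2518493321257) (nat_lit 152) (nat_lit 5020799237654) (nat_lit 0) (nat_lit 2512817272725) (nat_lit 1) (nat_lit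 5) (nat_lit 3) (nat_lit 4) (nat_lit 1) (nat_lit 4) (nat_lit 285) (nat_lit 218) (nat_lit 157)) (XT.lf (nat_lit 0) (nat_lit 2901817956459) (nat_lit 152) (nat_lit 5760999844804) (nat_lit 0) (nat_lit 2896141761048) (nat_lit 1) (nat_lit 5) (nat_lit 3) (nat_lit 4) (nat_lit 1) (nat_lit 4) (nat_lit 286) (nat_lit 218) (nat_lit 156)))) (XT.nd (nat_lit 156) (nat_lit 0) (nat_lit 0) (XT.nd (nat_lit 78) (nat_lit 0) (nat_lit 0) (XT.lf (nat_lit 0) (nat_lit 3342640977388) (nat_lit 152) (nat_lit 6612231167686) (nat_lit 0) (nat_lit 3336964654257) (nat_lit 1) (nat_lit 5) (nat_lit 3) (nat_lit 4) (nat_lit 1) (nat_lit 4) (nat_lit 287) (nat_lit 218) (nat_lit 155)) (XT.lf (nat_lit 0) (nat_lit 3849587182279) (nat_lit 152) (nat_lit 7591147732182) (nat_lit 0) (nat_lit 3843910748087) (nat_lit 1) (nat_lit 5) (nat_lit 3) (nat_lit 4) (nat_lit 1) (nat_lit 4) (nat_lit 288) (nat_lit 218) (nat_lit 154))) (XT.nd (nat_lit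 78) (nat_lit 0) (nat_lit 0) (XT.lf (nat_lit 0) (nat_lit 4432575083838) (nat_lit 152) (nat_lit 8716902253684) (nat_lit 0) (nat_lit 4426898553072) (nat_lit 1) (nat_lit 5) (nat_lit 3) (nat_lit 4) (nat_lit 1) (nat_lit 4) (nat_lit 289) (nat_lit 218) (nat_lit 153)) (XT.nd (nat_lit 78) (nat_lit 0) (nat_lit 0) (XT.lf (nat_lit 0) (nat_lit 5103010967095) (nat_lit 152) (nat_lit 10011520364134) (nat_lit 0) (nat_lit 5097334352351) (nat_lit 1) (nat_lit 5) (nat_lit 3) (nat_lit 4) (nat_lit 1) (nat_lit 4) (nat_lit 290) (nat_lit 218) (nat_lit 152)) (XT.lf (nat_lit 0) (nat_lit 5874012055853) (nat_lit 152) (nat_lit 11500331548303) (nat_lit 0) (nat_lit 5868335368084) (nat_lit 1) (nat_lit 5) (nat_lit 3) (nat_lit 4) (nat_lit 1) (nat_lit 4) (nat_lit 291) (nat_lit 218) (nat_lit 151)))))) (XT.nd (nat_lit 312) (nat_lit 0) (nat_lit 0) (XT.nd (nat_lit 156) (nat_lit 0) (nat_lit 0) (XT.nd (nat_lit 78) (nat_lit 0)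 (nat_lit 0) (XT.lf (nat_lit 0) (nat_lit 6760663154022) (nat_lit 152) (nat_lit 13212464720664) (nat_lit 0) (nat_lit 6754986402753) (nat_lit 1) (nat_lit 5) (nat_lit 3) (nat_lit 4) (nat_lit 1) (nat_lit 4) (nat_lit 292) (nat_lit 218) (nat_lit 150)) (XT.lf (nat_lit 0) (nat_lit 7780311783087) (nat_lit 152) (nat_lit 15181418138936) (nat_lit 0) (nat_lit 7774634976602) (nat_lit 1) (nat_lit 5) (nat_lit 3) (nat_lit 4) (nat_lit 1) (nat_lit 4) (nat_lit 293) (nat_lit 218) (nat_lit 149))) (XT.nd (nat_lit 78) (nat_lit 0) (nat_lit 0) (XT.lf (nat_lit 0) (nat_lit 8952907590140) (nat_lit 152) (nat_lit 17445714804781) (nat_lit 0) (nat_lit 8947230735640) (nat_lit 1) (nat_lit 5) (nat_lit 3) (nat_lit 4) (nat_lit 1) (nat_lit 4) (nat_lit 294) (nat_lit 218) (nat_lit 148)) (XT.lf (nat_lit 0) (nat_lit 10301392667058) (nat_lit 152) (nat_lit 20049656174705) (nat_lit 0) (nat_lit 10295715770806) (nat_lit 1) (nat_lit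 5) (nat_lit 3) (nat_lit 4) (nat_lit 1) (nat_lit 4) (nat_lit 295) (nat_lit 218) (nat_lit 147)))) (XT.nd (nat_lit 156) (nat_lit 0) (nat_lit 0) (XT.nd (nat_lit 78) (nat_lit 0) (nat_lit 0) (XT.lf (nat_lit 0) (nat_lit 11852150417519) (nat_lit 152) (nat_lit 23044188927684) (nat_lit 0) (nat_lit 11846473484961) (nat_lit 1) (nat_lit 5) (nat_lit 3) (nat_lit 4) (nat_lit 1) (nat_lit 4) (nat_lit 296) (nat_lit 218) (nat_lit 146)) (XT.lf (nat_lit 0) (nat_lit 13635521754033) (nat_lit 152) (nat_lit 26487901748017) (nat_lit 0) (nat_lit 13629844789904) (nat_lit 1) (nat_lit 5) (nat_lit 3) (nat_lit 4) (nat_lit 1) (nat_lit 4) (nat_lit 297) (nat_lit 218) (nat_lit 145))) (XT.nd (nat_lit 546) (nat_lit 0) (nat_lit 0) (XT.lf (nat_lit 0) (nat_lit 15686398724487) (nat_lit 152) (nat_lit 30448171625666) (nat_lit 0) (nat_lit 15680721732906) (nat_lit 1) (nat_lit 5) (nat_lit 3) (nat_lit 4) (nat_lit 1) (nat_lit 4) (nat_lit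 298) (nat_lit 218) (nat_lit 144)) (XT.nd (nat_lit 78) (nat_lit 0) (nat_lit 0) (XT.lf (nat_lit 0) (nat_lit 41787537122799) (nat_lit 152) (nat_lit 80849813447153) (nat_lit 0) (nat_lit 41781860017003) (nat_lit 1) (nat_lit 5) (nat_lit 3) (nat_lit 4) (nat_lit 1) (nat_lit 4) (nat_lit 305) (nat_lit 218) (nat_lit 137)) (XT.lf (nat_lit 0) (nat_lit 48061216099999) (nat_lit 152) (nat_lit 92964370682168) (nat_lit 0) (nat_lit 48055538985229) (nat_lit 1) (nat_lit 5) (nat_lit 3) (nat_lit 4) (nat_lit 1) (nat_lit 4) (nat_lit 306) (nat_lit 218) (nat_lit 136))))))) (XT.nd (nat_lit 28158) (nat_lit 0) (nat_lit 684) (XT.nd (nat_lit 27768) (nat_lit 0) (nat_lit 1596) (XT.nd (nat_lit 156) (nat_lit 0) (nat_lit 0) (XT.nd (nat_lit 78) (nat_lit 0) (nat_lit 0) (XT.lf (nat_lit 0) (nat_lit 55275946904864) (nat_lit 152) (nat_lit 106896111540602) (nat_lit 0) (nat_lit 55270269782290) (nat_lit 1) (nat_lit 5) (nat_lit 3)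 (nat_lit 4) (nat_lit 1) (nat_lit 4) (nat_lit 307) (nat_lit 218) (nat_lit 135)) (XT.lf (nat_lit 0) (nat_lit 63572887314013) (nat_lit 152) (nat_lit 122917613560989) (nat_lit 0) (nat_lit 63567210184653) (nat_lit 1) (nat_lit 5) (nat_lit 3) (nat_lit 4) (nat_lit 1) (nat_lit 4) (nat_lit 308) (nat_lit 218) (nat_lit 134))) (XT.nd (nat_lit 78) (nat_lit 0) (nat_lit 0) (XT.lf (nat_lit 0) (nat_lit 73114368770233) (nat_lit 152) (nat_lit 141342340913295) (nat_lit 0) (nat_lit 73108691634972) (nat_lit 1) (nat_lit 5) (nat_lit 3) (nat_lit 4) (nat_lit 1) (nat_lit 4) (nat_lit 309) (nat_lit 218) (nat_lit 133)) (XT.lf (nat_lit 0) (nat_lit 84087072432449) (nat_lit 152) (nat_lit 162530777393542) (nat_lit 0) (nat_lit 84081395292057) (nat_lit 1) (nat_lit 5) (nat_lit 3) (nat_lit 4) (nat_lit 1) (nat_lit 4) (nat_lit 310) (nat_lit 218) (nat_lit 132)))) (XT.nd (nat_lit 156) (nat_lit 532) (nat_lit 0) (XT.nd (nat_lit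 78) (nat_lit 0) (nat_lit 0) (XT.lf (nat_lit 0) (nat_lit 40158615) (nat_lit 76) (nat_lit 1612727452) (nat_lit 76) (nat_lit 1612727452) (nat_lit 29) (nat_lit 4) (nat_lit 30) (nat_lit 5) (nat_lit 30) (nat_lit 4) (nat_lit 222) (nat_lit 219) (nat_lit 219)) (XT.lf (nat_lit 0) (nat_lit 3989977609) (nat_lit 76) (nat_lit 2470176091) (nat_lit 76) (nat_lit 204966497) (nat_lit 29) (nat_lit 4) (nat_lit 30) (nat_lit 5) (nat_lit 30) (nat_lit 4) (nat_lit 223) (nat_lit 219) (nat_lit 218))) (XT.nd (nat_lit 78) (nat_lit 304) (nat_lit 0) (XT.lf (nat_lit 0) (nat_lit 1262437182) (nat_lit 152) (nat_lit 1294490375) (nat_lit 228) (nat_lit 4309126878) (nat_lit 26) (nat_lit 5) (nat_lit 28) (nat_lit 5) (nat_lit 29) (nat_lit 4) (nat_lit 224) (nat_lit 219) (nat_lit 217)) (XT.nd (nat_lit 78) (nat_lit 304) (nat_lit 0) (XT.lf (nat_lit 0) (nat_lit 5437227604) (nat_lit 228) (nat_lit 1438042444) (nat_lit 0) (nat_lit 265244162)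 (nat_lit 26) (nat_lit 5) (nat_lit 29) (nat_lit 4) (nat_lit 26) (nat_lit 4) (nat_lit 225) (nat_lit 219) (nat_lit 216)) (XT.lf (nat_lit 0) (nat_lit 992662336) (nat_lit 304) (nat_lit 4332900356) (nat_lit 76) (nat_lit 2153122912) (nat_lit 22) (nat_lit 5) (nat_lit 26) (nat_lit 5) (nat_lit 23) (nat_lit 4) (nat_lit 226) (nat_lit 219) (nat_lit 215)))))) (XT.nd (nat_lit 312) (nat_lit 380) (nat_lit 0) (XT.nd (nat_lit 156) (nat_lit 228) (nat_lit 0) (XT.nd (nat_lit 78) (nat_lit 0) (nat_lit 0) (XT.lf (nat_lit 0) (nat_lit 263774266) (nat_lit 304) (nat_lit 3390694644) (nat_lit 380) (nat_lit 4242947258) (nat_lit 18) (nat_lit 5) (nat_lit 22) (nat_lit 5) (nat_lit 23) (nat_lit 4) (nat_lit 227) (nat_lit 219) (nat_lit 214)) (XT.lf (nat_lit 0) (nat_lit 5657461311) (nat_lit 304) (nat_lit 961193488) (nat_lit 380) (nat_lit 1776902400) (nat_lit 18) (nat_lit 5) (nat_lit 22) (nat_lit 5) (nat_lit 23) (nat_lit 4)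 (nat_lit 228) (nat_lit 219) (nat_lit 213))) (XT.nd (nat_lit 78) (nat_lit 0) (nat_lit 0) (XT.lf (nat_lit 0) (nat_lit 862302015) (nat_lit 228) (nat_lit 6341026927) (nat_lit 76) (nat_lit 1775445042) (nat_lit 15) (nat_lit 5) (nat_lit 18) (nat_lit 5) (nat_lit 16) (nat_lit 4) (nat_lit 229) (nat_lit 219) (nat_lit 212)) (XT.lf (nat_lit 0) (nat_lit 3636348638) (nat_lit 228) (nat_lit 1020740630) (nat_lit 76) (nat_lit 4992918654) (nat_lit 15) (nat_lit 5) (nat_lit 18) (nat_lit 5) (nat_lit 16) (nat_lit 4) (nat_lit 230) (nat_lit 219) (nat_lit 211)))) (XT.nd (nat_lit 156) (nat_lit 152) (nat_lit 0) (XT.nd (nat_lit 78) (nat_lit 152) (nat_lit 0) (XT.lf (nat_lit 0) (nat_lit 5229954961) (nat_lit 76) (nat_lit 1574124262) (nat_lit 152) (nat_lit 3622393072) (nat_lit 14) (nat_lit 5) (nat_lit 15) (nat_lit 5) (nat_lit 16) (nat_lit 4) (nat_lit 231) (nat_lit 219) (nat_lit 210)) (XT.lf (nat_lit 0) (nat_lit 866276451)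 (nat_lit 152) (nat_lit 9529082952) (nat_lit 152) (nat_lit 932816151) (nat_lit 12) (nat_lit 4) (nat_lit 14) (nat_lit 5) (nat_lit 14) (nat_lit 4) (nat_lit 232) (nat_lit 219) (nat_lit 209))) (XT.nd (nat_lit 78) (nat_lit 76) (nat_lit 0) (XT.lf (nat_lit 0) (nat_lit 2107203216) (nat_lit 228) (nat_lit 4433939773) (nat_lit 76) (nat_lit 5790452809) (nat_lit 11) (nat_lit 5) (nat_lit 14) (nat_lit 5) (nat_lit 12) (nat_lit 4) (nat_lit 233) (nat_lit 219) (nat_lit 208)) (XT.nd (nat_lit 78) (nat_lit 0) (nat_lit 0) (XT.lf (nat_lit 0) (nat_lit 2355004261) (nat_lit 76) (nat_lit 3058749218) (nat_lit 152) (nat_lit 8079883786) (nat_lit 10) (nat_lit 5) (nat_lit 11) (nat_lit 5) (nat_lit 12) (nat_lit 4) (nat_lit 234) (nat_lit 219) (nat_lit 207)) (XT.lf (nat_lit 0) (nat_lit 9314776824) (nat_lit 152) (nat_lit 4501851841) (nat_lit 0) (nat_lit 999170314) (nat_lit 10) (nat_lit 5) (nat_lit 12) (nat_lit 4) (nat_lit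 10) (nat_lit 4) (nat_lit 235) (nat_lit 219) (nat_lit 206))))))))
noncomputable def xc47 : XT := (XT.nd (nat_lit 1404) (nat_lit 152) (nat_lit 0) (XT.nd (nat_lit 702) (nat_lit 76) (nat_lit 0) (XT.nd (nat_lit 312) (nat_lit 228) (nat_lit 0) (XT.nd (nat_lit 156) (nat_lit 76) (nat_lit 0) (XT.nd (nat_lit 78) (nat_lit 76) (nat_lit 0) (XT.lf (nat_lit 0) (nat_lit 2973869293) (nat_lit 76) (nat_lit 10936322045) (nat_lit 76) (nat_lit 2410218925) (nat_lit 9) (nat_lit 4) (nat_lit 10) (nat_lit 5) (nat_lit 10) (nat_lit 4) (nat_lit 236) (nat_lit 219) (nat_lit 205)) (XT.lf (nat_lit 0) (nat_lit 1131696167) (nat_lit 152) (nat_lit 6275996890) (nat_lit 76) (nat_lit 10622896223) (nat_lit 8) (nat_lit 5) (nat_lit 10) (nat_lit 5) (nat_lit 9) (nat_lit 4) (nat_lit 237) (nat_lit 219) (nat_lit 204))) (XT.nd (nat_lit 78) (nat_lit 0) (nat_lit 0) (XT.lf (nat_lit 0) (nat_lit 1644221074) (nat_lit 76) (nat_lit 3245327950)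 (nat_lit 152) (nat_lit 15101154591) (nat_lit 7) (nat_lit 5) (nat_lit 8) (nat_lit 5) (nat_lit 9) (nat_lit 4) (nat_lit 238) (nat_lit 219) (nat_lit 203)) (XT.lf (nat_lit 0) (nat_lit 9485892198) (nat_lit 152) (nat_lit 11064046442) (nat_lit 0) (nat_lit 1653966747) (nat_lit 7) (nat_lit 5) (nat_lit 9) (nat_lit 4) (nat_lit 7) (nat_lit 4) (nat_lit 239) (nat_lit 219) (nat_lit 202)))) (XT.nd (nat_lit 156) (nat_lit 152) (nat_lit 0) (XT.nd (nat_lit 78) (nat_lit 76) (nat_lit 0) (XT.lf (nat_lit 0) (nat_lit 14810835917) (nat_lit 152) (nat_lit 3058376739) (nat_lit 0) (nat_lit 6874256449) (nat_lit 7) (nat_lit 5) (nat_lit 9) (nat_lit 4) (nat_lit 7) (nat_lit 4) (nat_lit 240) (nat_lit 219) (nat_lit 201)) (XT.lf (nat_lit 0) (nat_lit 6544146523) (nat_lit 76) (nat_lit 14561014383) (nat_lit 76) (nat_lit 6533431421) (nat_lit 6) (nat_lit 4) (nat_lit 7) (nat_lit 5) (nat_lit 7) (nat_lit 4) (nat_lit 241) (nat_lit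 219) (nat_lit 200))) (XT.nd (nat_lit 78) (nat_lit 152) (nat_lit 0) (XT.lf (nat_lit 0) (nat_lit 17752647953) (nat_lit 76) (nat_lit 10656229119) (nat_lit 76) (nat_lit 2549512685) (nat_lit 6) (nat_lit 4) (nat_lit 7) (nat_lit 5) (nat_lit 7) (nat_lit 4) (nat_lit 242) (nat_lit 219) (nat_lit 199)) (XT.nd (nat_lit 78) (nat_lit 76) (nat_lit 0) (XT.lf (nat_lit 0) (nat_lit 1764736662) (nat_lit 152) (nat_lit 4381344324) (nat_lit 76) (nat_lit 28630553241) (nat_lit 5) (nat_lit 5) (nat_lit 7) (nat_lit 5) (nat_lit 6) (nat_lit 4) (nat_lit 243) (nat_lit 219) (nat_lit 198)) (XT.lf (nat_lit 0) (nat_lit 6040966846) (nat_lit 76) (nat_lit 599187232) (nat_lit 152) (nat_lit 32483118958) (nat_lit 4) (nat_lit 5) (nat_lit 5) (nat_lit 5) (nat_lit 6) (nat_lit 4) (nat_lit 244) (nat_lit 219) (nat_lit 197)))))) (XT.nd (nat_lit 312) (nat_lit 0) (nat_lit 0) (XT.nd (nat_lit 156) (nat_lit 76) (nat_lit 0) (XT.nd (nat_lit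 78) (nat_lit 0) (nat_lit 0) (XT.lf (nat_lit 0) (nat_lit 12652544136) (nat_lit 152) (nat_lit 25962511493) (nat_lit 0) (nat_lit 5446112861) (nat_lit 4) (nat_lit 5) (nat_lit 6) (nat_lit 4) (nat_lit 4) (nat_lit 4) (nat_lit 245) (nat_lit 219) (nat_lit 196)) (XT.lf (nat_lit 0) (nat_lit 19531327632) (nat_lit 152) (nat_lit 17928282857) (nat_lit 0) (nat_lit 12285553036) (nat_lit 4) (nat_lit 5) (nat_lit 6) (nat_lit 4) (nat_lit 4) (nat_lit 4) (nat_lit 246) (nat_lit 219) (nat_lit 195))) (XT.nd (nat_lit 78) (nat_lit 76) (nat_lit 0) (XT.lf (nat_lit 0) (nat_lit 27386278396) (nat_lit 152) (nat_lit 8797617787) (nat_lit 0) (nat_lit 20106292216) (nat_lit 4) (nat_lit 5) (nat_lit 6) (nat_lit 4) (nat_lit 4) (nat_lit 4) (nat_lit 247) (nat_lit 219) (nat_lit 194)) (XT.lf (nat_lit 0) (nat_lit 1765285043) (nat_lit 76) (nat_lit 34678891893) (nat_lit 76) (nat_lit 27369156509) (nat_lit 3) (nat_lit 4) (nat_lit 4)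 (nat_lit 5) (nat_lit 4) (nat_lit 4) (nat_lit 248) (nat_lit 219) (nat_lit 193)))) (XT.nd (nat_lit 156) (nat_lit 0) (nat_lit 0) (XT.nd (nat_lit 78) (nat_lit 0) (nat_lit 0) (XT.lf (nat_lit 0) (nat_lit 14811132050) (nat_lit 76) (nat_lit 32463688130) (nat_lit 76) (nat_lit 25128083873) (nat_lit 3) (nat_lit 4) (nat_lit 4) (nat_lit 5) (nat_lit 4) (nat_lit 4) (nat_lit 249) (nat_lit 219) (nat_lit 192)) (XT.lf (nat_lit 0) (nat_lit 29735400871) (nat_lit 76) (nat_lit 29954819428) (nat_lit 76) (nat_lit 22596720499) (nat_lit 3) (nat_lit 4) (nat_lit 4) (nat_lit 5) (nat_lit 4) (nat_lit 4) (nat_lit 250) (nat_lit 219) (nat_lit 191))) (XT.nd (nat_lit 78) (nat_lit 0) (nat_lit 0) (XT.lf (nat_lit 0) (nat_lit 46830088071) (nat_lit 76) (nat_lit 27103199225) (nat_lit 76) (nat_lit 19725539712) (nat_lit 3) (nat_lit 4) (nat_lit 4) (nat_lit 5) (nat_lit 4) (nat_lit 4) (nat_lit 251) (nat_lit 219) (nat_lit 190)) (XT.nd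 (nat_lit 78) (nat_lit 0) (nat_lit 0) (XT.lf (nat_lit 0) (nat_lit 66429654921) (nat_lit 76) (nat_lit 23853034952) (nat_lit 76) (nat_lit 16458366236) (nat_lit 3) (nat_lit 4) (nat_lit 4) (nat_lit 5) (nat_lit 4) (nat_lit 4) (nat_lit 252) (nat_lit 219) (nat_lit 189)) (XT.lf (nat_lit 0) (nat_lit 88917571207) (nat_lit 76) (nat_lit 20140736438) (nat_lit 76) (nat_lit 12731277110) (nat_lit 3) (nat_lit 4) (nat_lit 4) (nat_lit 5) (nat_lit 4) (nat_lit 4) (nat_lit 253) (nat_lit 219) (nat_lit 188))))))) (XT.nd (nat_lit 702) (nat_lit 0) (nat_lit 0) (XT.nd (nat_lit 312) (nat_lit 0) (nat_lit 0) (XT.nd (nat_lit 156) (nat_lit 152) (nat_lit 0) (XT.nd (nat_lit 78) (nat_lit 0) (nat_lit 0) (XT.lf (nat_lit 0) (nat_lit 114733817900) (nat_lit 76) (nat_lit 15893671757) (nat_lit 76) (nat_lit 8471351027) (nat_lit 3) (nat_lit 4) (nat_lit 4) (nat_lit 5) (nat_lit 4) (nat_lit 4) (nat_lit 254) (nat_lit 219) (nat_lit 187))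 (XT.lf (nat_lit 0) (nat_lit 144383495478) (nat_lit 76) (nat_lit 11028746163) (nat_lit 76) (nat_lit 3595241606) (nat_lit 3) (nat_lit 4) (nat_lit 4) (nat_lit 5) (nat_lit 4) (nat_lit 4) (nat_lit 255) (nat_lit 219) (nat_lit 186))) (XT.nd (nat_lit 78) (nat_lit 76) (nat_lit 0) (XT.lf (nat_lit 0) (nat_lit 1815071322) (nat_lit 152) (nat_lit 3540826280) (nat_lit 76) (nat_lit 176536756279) (nat_lit 2) (nat_lit 5) (nat_lit 4) (nat_lit 5) (nat_lit 3) (nat_lit 4) (nat_lit 256) (nat_lit 219) (nat_lit 185)) (XT.lf (nat_lit 0) (nat_lit 8137707888) (nat_lit 152) (nat_lit 198318919879) (nat_lit 0) (nat_lit 1657980753) (nat_lit 1) (nat_lit 5) (nat_lit 3) (nat_lit 4) (nat_lit 1) (nat_lit 4) (nat_lit 257) (nat_lit 219) (nat_lit 184)))) (XT.nd (nat_lit 156) (nat_lit 0) (nat_lit 0) (XT.nd (nat_lit 78) (nat_lit 0) (nat_lit 0) (XT.lf (nat_lit 0) (nat_lit 15842187117) (nat_lit 152) (nat_lit 213006602089) (nat_lit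 0) (nat_lit 9356065593) (nat_lit 1) (nat_lit 5) (nat_lit 3) (nat_lit 4) (nat_lit 1) (nat_lit 4) (nat_lit 258) (nat_lit 219) (nat_lit 183)) (XT.lf (nat_lit 0) (nat_lit 24688861747) (nat_lit 152) (nat_lit 229924631358) (nat_lit 0) (nat_lit 18197179884) (nat_lit 1) (nat_lit 5) (nat_lit 3) (nat_lit 4) (nat_lit 1) (nat_lit 4) (nat_lit 259) (nat_lit 219) (nat_lit 182))) (XT.nd (nat_lit 78) (nat_lit 0) (nat_lit 0) (XT.lf (nat_lit 0) (nat_lit 34850818891) (nat_lit 152) (nat_lit 249404012606) (nat_lit 0) (nat_lit 28354301951) (nat_lit 1) (nat_lit 5) (nat_lit 3) (nat_lit 4) (nat_lit 1) (nat_lit 4) (nat_lit 260) (nat_lit 219) (nat_lit 181)) (XT.nd (nat_lit 78) (nat_lit 0) (nat_lit 0) (XT.lf (nat_lit 0) (nat_lit 46526879449) (nat_lit 152) (nat_lit 271825864163) (nat_lit 0) (nat_lit 40026158093) (nat_lit 1) (nat_lit 5) (nat_lit 3) (nat_lit 4) (nat_lit 1) (nat_lit 4) (nat_lit 261) (nat_lit 219) (nat_lit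 180)) (XT.lf (nat_lit 0) (nat_lit 59945488083) (nat_lit 152) (nat_lit 297628874427) (nat_lit 0) (nat_lit 53441110715) (nat_lit 1) (nat_lit 5) (nat_lit 3) (nat_lit 4) (nat_lit 1) (nat_lit 4) (nat_lit 262) (nat_lit 219) (nat_lit 179)))))) (XT.nd (nat_lit 312) (nat_lit 0) (nat_lit 0) (XT.nd (nat_lit 156) (nat_lit 0) (nat_lit 0) (XT.nd (nat_lit 78) (nat_lit 0) (nat_lit 0) (XT.lf (nat_lit 0) (nat_lit 75369182790) (nat_lit 152) (nat_lit 327317884905) (nat_lit 0) (nat_lit 68861626280) (nat_lit 1) (nat_lit 5) (nat_lit 3) (nat_lit 4) (nat_lit 1) (nat_lit 4) (nat_lit 263) (nat_lit 219) (nat_lit 178)) (XT.lf (nat_lit 0) (nat_lit 93099731509) (nat_lit 152) (nat_lit 361473767540) (nat_lit 0) (nat_lit 86589410528) (nat_lit 1) (nat_lit 5) (nat_lit 3) (nat_lit 4) (nat_lit 1) (nat_lit 4) (nat_lit 264) (nat_lit 219) (nat_lit 177))) (XT.nd (nat_lit 78) (nat_lit 0) (nat_lit 0) (XT.lf (nat_lit 0) (nat_lit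 113484036280) (nat_lit 152) (nat_lit 400764789602) (nat_lit 0) (nat_lit 106971311411) (nat_lit 1) (nat_lit 5) (nat_lit 3) (nat_lit 4) (nat_lit 1) (nat_lit 4) (nat_lit 265) (nat_lit 219) (nat_lit 176)) (XT.lf (nat_lit 0) (nat_lit 136920920457) (nat_lit 152) (nat_lit 445959688478) (nat_lit 0) (nat_lit 130406105251) (nat_lit 1) (nat_lit 5) (nat_lit 3) (nat_lit 4) (nat_lit 1) (nat_lit 4) (nat_lit 266) (nat_lit 219) (nat_lit 175)))) (XT.nd (nat_lit 156) (nat_lit 0) (nat_lit 0) (XT.nd (nat_lit 78) (nat_lit 0) (nat_lit 0) (XT.lf (nat_lit 0) (nat_lit 163868931775) (nat_lit 152) (nat_lit 497942712190) (nat_lit 0) (nat_lit 157352298884) (nat_lit 1) (nat_lit 5) (nat_lit 3) (nat_lit 4) (nat_lit 1) (nat_lit 4) (nat_lit 267) (nat_lit 219) (nat_lit 174)) (XT.lf (nat_lit 0) (nat_lit 194855313932) (nat_lit 152) (nat_lit 557730919898) (nat_lit 0) (nat_lit 188337100446) (nat_lit 1) (nat_lit 5) (nat_lit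 3) (nat_lit 4) (nat_lit 1) (nat_lit 4) (nat_lit 268) (nat_lit 219) (nat_lit 173))) (XT.nd (nat_lit 78) (nat_lit 0) (nat_lit 0) (XT.lf (nat_lit 0) (nat_lit 230486322233) (nat_lit 152) (nat_lit 626494080882) (nat_lit 0) (nat_lit 223966734315) (nat_lit 1) (nat_lit 5) (nat_lit 3) (nat_lit 4) (nat_lit 1) (nat_lit 4) (nat_lit 269) (nat_lit 219) (nat_lit 172)) (XT.nd (nat_lit 78) (nat_lit 0) (nat_lit 0) (XT.lf (nat_lit 0) (nat_lit 271459085099) (nat_lit 152) (nat_lit 705577561337) (nat_lit 0) (nat_lit 264938302025) (nat_lit 1) (nat_lit 5) (nat_lit 3) (nat_lit 4) (nat_lit 1) (nat_lit 4) (nat_lit 270) (nat_lit 219) (nat_lit 171)) (XT.lf (nat_lit 0) (nat_lit 318575243545) (nat_lit 152) (nat_lit 796528646749) (nat_lit 0) (nat_lit 312053421204) (nat_lit 1) (nat_lit 5) (nat_lit 3) (nat_lit 4) (nat_lit 1) (nat_lit 4) (nat_lit 271) (nat_lit 219) (nat_lit 170))))))))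
noncomputable def xc48 : XT := (XT.nd (nat_lit 1326) (nat_lit 0) (nat_lit 0) (XT.nd (nat_lit 624) (nat_lit 0) (nat_lit 0) (XT.nd (nat_lit 312) (nat_lit 0) (nat_lit 0) (XT.nd (nat_lit 156) (nat_lit 0) (nat_lit 0) (XT.nd (nat_lit 78) (nat_lit 0) (nat_lit 0) (XT.lf (nat_lit 0) (nat_lit 372756635453) (nat_lit 152) (nat_lit 901126814875) (nat_lit 0) (nat_lit 366233909401) (nat_lit 1) (nat_lit 5) (nat_lit 3) (nat_lit 4) (nat_lit 1) (nat_lit 4) (nat_lit 272) (nat_lit 219) (nat_lit 169)) (XT.lf (nat_lit 0) (nat_lit 435063331533) (nat_lit 152) (nat_lit 1021418551616) (nat_lit 0) (nat_lit 428539819646) (nat_lit 1) (nat_lit 5) (nat_lit 3) (nat_lit 4) (nat_lit 1) (nat_lit 4) (nat_lit 273) (nat_lit 219) (nat_lit 168))) (XT.nd (nat_lit 78) (nat_lit 0) (nat_lit 0) (XT.lf (nat_lit 0) (nat_lit 506714375839) (nat_lit 152) (nat_lit 1159757390949) (nat_lit 0) (nat_lit 500190180617) (nat_lit 1) (nat_lit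 5) (nat_lit 3) (nat_lit 4) (nat_lit 1) (nat_lit 4) (nat_lit 274) (nat_lit 219) (nat_lit 167)) (XT.lf (nat_lit 0) (nat_lit 589111636631) (nat_lit 152) (nat_lit 1318849962340) (nat_lit 0) (nat_lit 582586847204) (nat_lit 1) (nat_lit 5) (nat_lit 3) (nat_lit 4) (nat_lit 1) (nat_lit 4) (nat_lit 275) (nat_lit 219) (nat_lit 166)))) (XT.nd (nat_lit 156) (nat_lit 0) (nat_lit 0) (XT.nd (nat_lit 78) (nat_lit 0) (nat_lit 0) (XT.lf (nat_lit 0) (nat_lit 683867234227) (nat_lit 152) (nat_lit 1501808946535) (nat_lit 0) (nat_lit 677341928101) (nat_lit 1) (nat_lit 5) (nat_lit 3) (nat_lit 4) (nat_lit 1) (nat_lit 4) (nat_lit 276) (nat_lit 219) (nat_lit 165)) (XT.lf (nat_lit 0) (nat_lit 792835082493) (nat_lit 152) (nat_lit 1712213975831) (nat_lit 0) (nat_lit 786309327063) (nat_lit 1) (nat_lit 5) (nat_lit 3) (nat_lit 4) (nat_lit 1) (nat_lit 4) (nat_lit 277) (nat_lit 219) (nat_lit 164))) (XT.nd (nat_lit 78)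 (nat_lit 0) (nat_lit 0) (XT.lf (nat_lit 0) (nat_lit 918147161070) (nat_lit 152) (nat_lit 1954181670369) (nat_lit 0) (nat_lit 911621014941) (nat_lit 1) (nat_lit 5) (nat_lit 3) (nat_lit 4) (nat_lit 1) (nat_lit 4) (nat_lit 278) (nat_lit 219) (nat_lit 163)) (XT.lf (nat_lit 0) (nat_lit 1062255228017) (nat_lit 152) (nat_lit 2232446180692) (nat_lit 0) (nat_lit 1055728742150) (nat_lit 1) (nat_lit 5) (nat_lit 3) (nat_lit 4) (nat_lit 1) (nat_lit 4) (nat_lit 279) (nat_lit 219) (nat_lit 162))))) (XT.nd (nat_lit 312) (nat_lit 0) (nat_lit 0) (XT.nd (nat_lit 156) (nat_lit 0) (nat_lit 0) (XT.nd (nat_lit 78) (nat_lit 0) (nat_lit 0) (XT.lf (nat_lit 0) (nat_lit 1227978788990) (nat_lit 152) (nat_lit 2552451812439) (nat_lit 0) (nat_lit 1221452007699) (nat_lit 1) (nat_lit 5) (nat_lit 3) (nat_lit 4) (nat_lit 1) (nat_lit 4) (nat_lit 280) (nat_lit 219) (nat_lit 161)) (XT.lf (nat_lit 0) (nat_lit 1418560261489)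 (nat_lit 152) (nat_lit 2920459545359) (nat_lit 0) (nat_lit 1412033223306) (nat_lit 1) (nat_lit 5) (nat_lit 3) (nat_lit 4) (nat_lit 1) (nat_lit 4) (nat_lit 281) (nat_lit 219) (nat_lit 160))) (XT.nd (nat_lit 78) (nat_lit 0) (nat_lit 0) (XT.lf (nat_lit 0) (nat_lit 1637728413452) (nat_lit 152) (nat_lit 3343669530751) (nat_lit 0) (nat_lit 1631201151886) (nat_lit 1) (nat_lit 5) (nat_lit 3) (nat_lit 4) (nat_lit 1) (nat_lit 4) (nat_lit 282) (nat_lit 219) (nat_lit 159)) (XT.lf (nat_lit 0) (nat_lit 1889771317419) (nat_lit 152) (nat_lit 3830361963979) (nat_lit 0) (nat_lit 1883243861606) (nat_lit 1) (nat_lit 5) (nat_lit 3) (nat_lit 4) (nat_lit 1) (nat_lit 4) (nat_lit 283) (nat_lit 219) (nat_lit 158)))) (XT.nd (nat_lit 156) (nat_lit 0) (nat_lit 0) (XT.nd (nat_lit 78) (nat_lit 0) (nat_lit 0) (XT.lf (nat_lit 0) (nat_lit 2179620247597) (nat_lit 152) (nat_lit 4390059088303) (nat_lit 0) (nat_lit 2173092622874)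 (nat_lit 1) (nat_lit 5) (nat_lit 3) (nat_lit 4) (nat_lit 1) (nat_lit 4) (nat_lit 284) (nat_lit 219) (nat_lit 157)) (XT.lf (nat_lit 0) (nat_lit 2512946161315) (nat_lit 152) (nat_lit 5033711499634) (nat_lit 0) (nat_lit 2506418389715) (nat_lit 1) (nat_lit 5) (nat_lit 3) (nat_lit 4) (nat_lit 1) (nat_lit 4) (nat_lit 285) (nat_lit 219) (nat_lit 156))) (XT.nd (nat_lit 78) (nat_lit 0) (nat_lit 0) (XT.lf (nat_lit 0) (nat_lit 2896270652539) (nat_lit 152) (nat_lit 5773912397323) (nat_lit 0) (nat_lit 2889742753218) (nat_lit 1) (nat_lit 5) (nat_lit 3) (nat_lit 4) (nat_lit 1) (nat_lit 4) (nat_lit 286) (nat_lit 219) (nat_lit 155)) (XT.nd (nat_lit 78) (nat_lit 0) (nat_lit 0) (XT.lf (nat_lit 0) (nat_lit 3337093548269) (nat_lit 152) (nat_lit 6625143972847) (nat_lit 0) (nat_lit 3330565537887) (nat_lit 1) (nat_lit 5) (nat_lit 3) (nat_lit 4) (nat_lit 1) (nat_lit 4) (nat_lit 287) (nat_lit 219) (nat_lit 154))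 (XT.lf (nat_lit 0) (nat_lit 3844039644293) (nat_lit 152) (nat_lit 7604060757032) (nat_lit 0) (nat_lit 3837511537336) (nat_lit 1) (nat_lit 5) (nat_lit 3) (nat_lit 4) (nat_lit 1) (nat_lit 4) (nat_lit 288) (nat_lit 219) (nat_lit 153))))))) (XT.nd (nat_lit 1248) (nat_lit 0) (nat_lit 0) (XT.nd (nat_lit 312) (nat_lit 0) (nat_lit 0) (XT.nd (nat_lit 156) (nat_lit 0) (nat_lit 0) (XT.nd (nat_lit 78) (nat_lit 0) (nat_lit 0) (XT.lf (nat_lit 0) (nat_lit 4427027451184) (nat_lit 152) (nat_lit 8729815469568) (nat_lit 0) (nat_lit 4420499260249) (nat_lit 1) (nat_lit 5) (nat_lit 3) (nat_lit 4) (nat_lit 1) (nat_lit 4) (nat_lit 289) (nat_lit 219) (nat_lit 152)) (XT.lf (nat_lit 0) (nat_lit 5097463252121) (nat_lit 152) (nat_lit 10024433746135) (nat_lit 0) (nat_lit 5090934988162) (nat_lit 1) (nat_lit 5) (nat_lit 3) (nat_lit 4) (nat_lit 1) (nat_lit 4) (nat_lit 290) (nat_lit 219) (nat_lit 151))) (XT.nd (nat_lit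 78) (nat_lit 0) (nat_lit 0) (XT.lf (nat_lit 0) (nat_lit 5868464269296) (nat_lit 152) (nat_lit 11513245074754) (nat_lit 0) (nat_lit 5861935941837) (nat_lit 1) (nat_lit 5) (nat_lit 3) (nat_lit 4) (nat_lit 1) (nat_lit 4) (nat_lit 291) (nat_lit 219) (nat_lit 150)) (XT.lf (nat_lit 0) (nat_lit 6755115305219) (nat_lit 152) (nat_lit 13225378372722) (nat_lit 0) (nat_lit 6748586922543) (nat_lit 1) (nat_lit 5) (nat_lit 3) (nat_lit 4) (nat_lit 1) (nat_lit 4) (nat_lit 292) (nat_lit 219) (nat_lit 149)))) (XT.nd (nat_lit 156) (nat_lit 0) (nat_lit 0) (XT.nd (nat_lit 78) (nat_lit 0) (nat_lit 0) (XT.lf (nat_lit 0) (nat_lit 7774763880158) (nat_lit 152) (nat_lit 15194331900219) (nat_lit 0) (nat_lit 7768235449468) (nat_lit 1) (nat_lit 5) (nat_lit 3) (nat_lit 4) (nat_lit 1) (nat_lit 4) (nat_lit 293) (nat_lit 219) (nat_lit 148)) (XT.lf (nat_lit 0) (nat_lit 8947359640144) (nat_lit 152) (nat_lit 17458628661041)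 (nat_lit 0) (nat_lit 8940831167702) (nat_lit 1) (nat_lit 5) (nat_lit 3) (nat_lit 4) (nat_lit 1) (nat_lit 4) (nat_lit 294) (nat_lit 219) (nat_lit 147))) (XT.nd (nat_lit 78) (nat_lit 0) (nat_lit 0) (XT.lf (nat_lit 0) (nat_lit 10295844676135) (nat_lit 152) (nat_lit 20062570113555) (nat_lit 0) (nat_lit 10289316167386) (nat_lit 1) (nat_lit 5) (nat_lit 3) (nat_lit 4) (nat_lit 1) (nat_lit 4) (nat_lit 295) (nat_lit 219) (nat_lit 146)) (XT.nd (nat_lit 78) (nat_lit 0) (nat_lit 0) (XT.lf (nat_lit 0) (nat_lit 11846602391007) (nat_lit 152) (nat_lit 23057102938351) (nat_lit 0) (nat_lit 11840073850688) (nat_lit 1) (nat_lit 5) (nat_lit 3) (nat_lit 4) (nat_lit 1) (nat_lit 4) (nat_lit 296) (nat_lit 219) (nat_lit 145)) (XT.lf (nat_lit 0) (nat_lit 13629973696573) (nat_lit 152) (nat_lit 26500815821133) (nat_lit 0) (nat_lit 13623445128802) (nat_lit 1) (nat_lit 5) (nat_lit 3) (nat_lit 4) (nat_lit 1) (nat_lit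 4) (nat_lit 297) (nat_lit 219) (nat_lit 144)))))) (XT.nd (nat_lit 312) (nat_lit 0) (nat_lit 0) (XT.nd (nat_lit 156) (nat_lit 0) (nat_lit 0) (XT.nd (nat_lit 78) (nat_lit 0) (nat_lit 0) (XT.lf (nat_lit 0) (nat_lit 41781988926469) (nat_lit 152) (nat_lit 80862727800499) (nat_lit 0) (nat_lit 41775460235510) (nat_lit 1) (nat_lit 5) (nat_lit 3) (nat_lit 4) (nat_lit 1) (nat_lit 4) (nat_lit 305) (nat_lit 219) (nat_lit 136)) (XT.lf (nat_lit 0) (nat_lit 48055667894872) (nat_lit 152) (nat_lit 92977285053267) (nat_lit 0) (nat_lit 48049139196108) (nat_lit 1) (nat_lit 5) (nat_lit 3) (nat_lit 4) (nat_lit 1) (nat_lit 4) (nat_lit 306) (nat_lit 219) (nat_lit 135))) (XT.nd (nat_lit 78) (nat_lit 0) (nat_lit 0) (XT.lf (nat_lit 0) (nat_lit 55270398692088) (nat_lit 152) (nat_lit 106909025927137) (nat_lit 0) (nat_lit 55263869986538) (nat_lit 1) (nat_lit 5) (nat_lit 3) (nat_lit 4) (nat_lit 1) (nat_lit 4) (nat_lit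 307) (nat_lit 219) (nat_lit 134)) (XT.lf (nat_lit 0) (nat_lit 63567339094585) (nat_lit 152) (nat_lit 122930527960948) (nat_lit 0) (nat_lit 63560810383134) (nat_lit 1) (nat_lit 5) (nat_lit 3) (nat_lit 4) (nat_lit 1) (nat_lit 4) (nat_lit 308) (nat_lit 219) (nat_lit 133)))) (XT.nd (nat_lit 27456) (nat_lit 0) (nat_lit 2204) (XT.nd (nat_lit 78) (nat_lit 0) (nat_lit 0) (XT.lf (nat_lit 0) (nat_lit 73108820545020) (nat_lit 152) (nat_lit 141355255324926) (nat_lit 0) (nat_lit 73102291828439) (nat_lit 1) (nat_lit 5) (nat_lit 3) (nat_lit 4) (nat_lit 1) (nat_lit 4) (nat_lit 309) (nat_lit 219) (nat_lit 132)) (XT.lf (nat_lit 0) (nat_lit 84081524202207) (nat_lit 152) (nat_lit 162543691815322) (nat_lit 0) (nat_lit 84074995481163) (nat_lit 1) (nat_lit 5) (nat_lit 3) (nat_lit 4) (nat_lit 1) (nat_lit 4) (nat_lit 310) (nat_lit 219) (nat_lit 131))) (XT.nd (nat_lit 78) (nat_lit 76) (nat_lit 0) (XT.lf (nat_lit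 0) (nat_lit 1073741823) (nat_lit 0) (nat_lit 0) (nat_lit 0) (nat_lit 0) (nat_lit 31) (nat_lit 0) (nat_lit 1) (nat_lit 0) (nat_lit 1) (nat_lit 0) (nat_lit 220) (nat_lit 220) (nat_lit 220)) (XT.nd (nat_lit 78) (nat_lit 0) (nat_lit 0) (XT.lf (nat_lit 0) (nat_lit 2871692496) (nat_lit 76) (nat_lit 3325605181) (nat_lit 0) (nat_lit 266701462) (nat_lit 30) (nat_lit 5) (nat_lit 31) (nat_lit 0) (nat_lit 30) (nat_lit 4) (nat_lit 221) (nat_lit 220) (nat_lit 219)) (XT.lf (nat_lit 0) (nat_lit 5675523089) (nat_lit 76) (nat_lit 88224998) (nat_lit 0) (nat_lit 805322461) (nat_lit 30) (nat_lit 5) (nat_lit 31) (nat_lit 0) (nat_lit 30) (nat_lit 4) (nat_lit 222) (nat_lit 220) (nat_lit 218))))))))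
noncomputable def xc49 : XT := (XT.nd (nat_lit 1404) (nat_lit 456) (nat_lit 0) (XT.nd (nat_lit 702) (nat_lit 532) (nat_lit 0) (XT.nd (nat_lit 312) (nat_lit 608) (nat_lit 0) (XT.nd (nat_lit 156) (nat_lit 304) (nat_lit 0) (XT.nd (nat_lit 78) (nat_lit 152) (nat_lit 0) (XT.lf (nat_lit 0) (nat_lit 1713408255) (nat_lit 152) (nat_lit 3156120353) (nat_lit 76) (nat_lit 1855784772) (nat_lit 28) (nat_lit 5) (nat_lit 30) (nat_lit 5) (nat_lit 29) (nat_lit 4) (nat_lit 223) (nat_lit 220) (nat_lit 217)) (XT.lf (nat_lit 0) (nat_lit 555718343) (nat_lit 152) (nat_lit 3680788789) (nat_lit 228) (nat_lit 2723231143) (nat_lit 26) (nat_lit 5) (nat_lit 28) (nat_lit 5) (nat_lit 29) (nat_lit 4) (nat_lit 224) (nat_lit 220) (nat_lit 216))) (XT.nd (nat_lit 78) (nat_lit 304) (nat_lit 0) (XT.lf (nat_lit 0) (nat_lit 4862296421) (nat_lit 152) (nat_lit 2070020086) (nat_lit 228) (nat_lit 331017398) (nat_lit 26) (nat_lit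 5) (nat_lit 28) (nat_lit 5) (nat_lit 29) (nat_lit 4) (nat_lit 225) (nat_lit 220) (nat_lit 215)) (XT.lf (nat_lit 0) (nat_lit 1946621845) (nat_lit 304) (nat_lit 5673306518) (nat_lit 76) (nat_lit 18580322) (nat_lit 22) (nat_lit 5) (nat_lit 26) (nat_lit 5) (nat_lit 23) (nat_lit 4) (nat_lit 226) (nat_lit 220) (nat_lit 214)))) (XT.nd (nat_lit 156) (nat_lit 304) (nat_lit 0) (XT.nd (nat_lit 78) (nat_lit 304) (nat_lit 0) (XT.lf (nat_lit 0) (nat_lit 4454402801) (nat_lit 304) (nat_lit 1260890081) (nat_lit 76) (nat_lit 2366011667) (nat_lit 22) (nat_lit 5) (nat_lit 26) (nat_lit 5) (nat_lit 23) (nat_lit 4) (nat_lit 227) (nat_lit 220) (nat_lit 213)) (XT.lf (nat_lit 0) (nat_lit 3856106401) (nat_lit 304) (nat_lit 3374376712) (nat_lit 380) (nat_lit 1378014353) (nat_lit 18) (nat_lit 5) (nat_lit 22) (nat_lit 5) (nat_lit 23) (nat_lit 4) (nat_lit 228) (nat_lit 220) (nat_lit 212))) (XT.nd (nat_lit 78) (nat_lit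 76) (nat_lit 0) (XT.lf (nat_lit 0) (nat_lit 341237969) (nat_lit 152) (nat_lit 584991148) (nat_lit 228) (nat_lit 8308557116) (nat_lit 15) (nat_lit 5) (nat_lit 17) (nat_lit 5) (nat_lit 18) (nat_lit 5) (nat_lit 229) (nat_lit 220) (nat_lit 211)) (XT.nd (nat_lit 78) (nat_lit 76) (nat_lit 0) (XT.lf (nat_lit 0) (nat_lit 3564897011) (nat_lit 228) (nat_lit 3704034269) (nat_lit 76) (nat_lit 2657945417) (nat_lit 15) (nat_lit 5) (nat_lit 18) (nat_lit 5) (nat_lit 16) (nat_lit 4) (nat_lit 230) (nat_lit 220) (nat_lit 210)) (XT.lf (nat_lit 0) (nat_lit 2136480067) (nat_lit 76) (nat_lit 4371396380) (nat_lit 152) (nat_lit 4229655311) (nat_lit 14) (nat_lit 5) (nat_lit 15) (nat_lit 5) (nat_lit 16) (nat_lit 4) (nat_lit 231) (nat_lit 220) (nat_lit 209)))))) (XT.nd (nat_lit 312) (nat_lit 228) (nat_lit 0) (XT.nd (nat_lit 156) (nat_lit 76) (nat_lit 0) (XT.nd (nat_lit 78) (nat_lit 228) (nat_lit 0) (XT.lf (nat_lit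 0) (nat_lit 8992751788) (nat_lit 76) (nat_lit 901010980) (nat_lit 152) (nat_lit 1776696992) (nat_lit 14) (nat_lit 5) (nat_lit 15) (nat_lit 5) (nat_lit 16) (nat_lit 4) (nat_lit 232) (nat_lit 220) (nat_lit 208)) (XT.lf (nat_lit 0) (nat_lit 1084568795) (nat_lit 228) (nat_lit 8665566699) (nat_lit 76) (nat_lit 2967382560) (nat_lit 11) (nat_lit 5) (nat_lit 14) (nat_lit 5) (nat_lit 12) (nat_lit 4) (nat_lit 233) (nat_lit 220) (nat_lit 207))) (XT.nd (nat_lit 78) (nat_lit 76) (nat_lit 0) (XT.lf (nat_lit 0) (nat_lit 4216157406) (nat_lit 228) (nat_lit 2211032952) (nat_lit 76) (nat_lit 7478886717) (nat_lit 11) (nat_lit 5) (nat_lit 14) (nat_lit 5) (nat_lit 12) (nat_lit 4) (nat_lit 234) (nat_lit 220) (nat_lit 206)) (XT.lf (nat_lit 0) (nat_lit 5464980060) (nat_lit 76) (nat_lit 2434007167) (nat_lit 152) (nat_lit 7362218249) (nat_lit 10) (nat_lit 5) (nat_lit 11) (nat_lit 5) (nat_lit 12) (nat_lit 4) (nat_lit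 235) (nat_lit 220) (nat_lit 205)))) (XT.nd (nat_lit 156) (nat_lit 152) (nat_lit 0) (XT.nd (nat_lit 78) (nat_lit 76) (nat_lit 0) (XT.lf (nat_lit 0) (nat_lit 12205939787) (nat_lit 152) (nat_lit 2595968869) (nat_lit 0) (nat_lit 2007384057) (nat_lit 10) (nat_lit 5) (nat_lit 12) (nat_lit 4) (nat_lit 10) (nat_lit 4) (nat_lit 236) (nat_lit 220) (nat_lit 204)) (XT.lf (nat_lit 0) (nat_lit 5883784947) (nat_lit 76) (nat_lit 11514041116) (nat_lit 76) (nat_lit 1156319708) (nat_lit 9) (nat_lit 4) (nat_lit 10) (nat_lit 5) (nat_lit 10) (nat_lit 4) (nat_lit 237) (nat_lit 220) (nat_lit 203))) (XT.nd (nat_lit 78) (nat_lit 76) (nat_lit 0) (XT.lf (nat_lit 0) (nat_lit 2581115917) (nat_lit 152) (nat_lit 4946727123) (nat_lit 76) (nat_lit 13012239178) (nat_lit 8) (nat_lit 5) (nat_lit 10) (nat_lit 5) (nat_lit 9) (nat_lit 4) (nat_lit 238) (nat_lit 220) (nat_lit 202)) (XT.nd (nat_lit 78) (nat_lit 0) (nat_lit 0)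 (XT.lf (nat_lit 0) (nat_lit 4058311295) (nat_lit 76) (nat_lit 2767172314) (nat_lit 152) (nat_lit 15980714862) (nat_lit 7) (nat_lit 5) (nat_lit 8) (nat_lit 5) (nat_lit 9) (nat_lit 4) (nat_lit 239) (nat_lit 220) (nat_lit 201)) (XT.lf (nat_lit 0) (nat_lit 11989175117) (nat_lit 152) (nat_lit 10714426431) (nat_lit 0) (nat_lit 2666451218) (nat_lit 7) (nat_lit 5) (nat_lit 9) (nat_lit 4) (nat_lit 7) (nat_lit 4) (nat_lit 240) (nat_lit 220) (nat_lit 200))))))) (XT.nd (nat_lit 702) (nat_lit 152) (nat_lit 0) (XT.nd (nat_lit 312) (nat_lit 152) (nat_lit 0) (XT.nd (nat_lit 156) (nat_lit 76) (nat_lit 0) (XT.nd (nat_lit 78) (nat_lit 76) (nat_lit 0) (XT.lf (nat_lit 0) (nat_lit 17971938774) (nat_lit 152) (nat_lit 1769979356) (nat_lit 0) (nat_lit 8570081402) (nat_lit 7) (nat_lit 5) (nat_lit 9) (nat_lit 4) (nat_lit 7) (nat_lit 4) (nat_lit 241) (nat_lit 220) (nat_lit 199)) (XT.lf (nat_lit 0) (nat_lit 9193506309)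 (nat_lit 76) (nat_lit 15963423128) (nat_lit 76) (nat_lit 6492754041) (nat_lit 6) (nat_lit 4) (nat_lit 7) (nat_lit 5) (nat_lit 7) (nat_lit 4) (nat_lit 242) (nat_lit 220) (nat_lit 198))) (XT.nd (nat_lit 78) (nat_lit 76) (nat_lit 0) (XT.lf (nat_lit 0) (nat_lit 21865751936) (nat_lit 76) (nat_lit 11574886607) (nat_lit 76) (nat_lit 2044381245) (nat_lit 6) (nat_lit 4) (nat_lit 7) (nat_lit 5) (nat_lit 7) (nat_lit 4) (nat_lit 243) (nat_lit 220) (nat_lit 197)) (XT.lf (nat_lit 0) (nat_lit 2732526954) (nat_lit 152) (nat_lit 3707603952) (nat_lit 76) (nat_lit 33446353919) (nat_lit 5) (nat_lit 5) (nat_lit 7) (nat_lit 5) (nat_lit 6) (nat_lit 4) (nat_lit 244) (nat_lit 220) (nat_lit 196)))) (XT.nd (nat_lit 156) (nat_lit 76) (nat_lit 0) (XT.nd (nat_lit 78) (nat_lit 0) (nat_lit 0) (XT.lf (nat_lit 0) (nat_lit 8217556529) (nat_lit 76) (nat_lit 82600797) (nat_lit 152) (nat_lit 36590981325) (nat_lit 4) (nat_lit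 5) (nat_lit 5) (nat_lit 5) (nat_lit 6) (nat_lit 4) (nat_lit 245) (nat_lit 220) (nat_lit 195)) (XT.lf (nat_lit 0) (nat_lit 15149636660) (nat_lit 152) (nat_lit 28686490308) (nat_lit 0) (nat_lit 6743440968) (nat_lit 4) (nat_lit 5) (nat_lit 6) (nat_lit 4) (nat_lit 4) (nat_lit 4) (nat_lit 246) (nat_lit 220) (nat_lit 194))) (XT.nd (nat_lit 78) (nat_lit 76) (nat_lit 0) (XT.lf (nat_lit 0) (nat_lit 22982079737) (nat_lit 152) (nat_lit 19599787974) (nat_lit 0) (nat_lit 14546134842) (nat_lit 4) (nat_lit 5) (nat_lit 6) (nat_lit 4) (nat_lit 4) (nat_lit 4) (nat_lit 247) (nat_lit 220) (nat_lit 193)) (XT.nd (nat_lit 78) (nat_lit 76) (nat_lit 0) (XT.lf (nat_lit 0) (nat_lit 31947309686) (nat_lit 152) (nat_lit 9232271489) (nat_lit 0) (nat_lit 23485495918) (nat_lit 4) (nat_lit 5) (nat_lit 6) (nat_lit 4) (nat_lit 4) (nat_lit 4) (nat_lit 248) (nat_lit 220) (nat_lit 192)) (XT.lf (nat_lit 0) (nat_lit 2874839995)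 (nat_lit 76) (nat_lit 39464934178) (nat_lit 76) (nat_lit 30980625739) (nat_lit 3) (nat_lit 4) (nat_lit 4) (nat_lit 5) (nat_lit 4) (nat_lit 4) (nat_lit 249) (nat_lit 220) (nat_lit 191)))))) (XT.nd (nat_lit 312) (nat_lit 152) (nat_lit 0) (XT.nd (nat_lit 156) (nat_lit 0) (nat_lit 0) (XT.nd (nat_lit 78) (nat_lit 0) (nat_lit 0) (XT.lf (nat_lit 0) (nat_lit 17767377680) (nat_lit 76) (nat_lit 36971683524) (nat_lit 76) (nat_lit 28467814501) (nat_lit 3) (nat_lit 4) (nat_lit 4) (nat_lit 5) (nat_lit 4) (nat_lit 4) (nat_lit 250) (nat_lit 220) (nat_lit 190)) (XT.lf (nat_lit 0) (nat_lit 34834472586) (nat_lit 76) (nat_lit 34133644233) (nat_lit 76) (nat_lit 25612766006) (nat_lit 3) (nat_lit 4) (nat_lit 4) (nat_lit 5) (nat_lit 4) (nat_lit 4) (nat_lit 251) (nat_lit 220) (nat_lit 189))) (XT.nd (nat_lit 78) (nat_lit 0) (nat_lit 0) (XT.lf (nat_lit 0) (nat_lit 54410046138) (nat_lit 76) (nat_lit 30895289449)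 (nat_lit 76) (nat_lit 22359620610) (nat_lit 3) (nat_lit 4) (nat_lit 4) (nat_lit 5) (nat_lit 4) (nat_lit 4) (nat_lit 252) (nat_lit 220) (nat_lit 188)) (XT.lf (nat_lit 0) (nat_lit 76877098686) (nat_lit 76) (nat_lit 27193260056) (nat_lit 76) (nat_lit 18644729815) (nat_lit 3) (nat_lit 4) (nat_lit 4) (nat_lit 5) (nat_lit 4) (nat_lit 4) (nat_lit 253) (nat_lit 220) (nat_lit 187)))) (XT.nd (nat_lit 156) (nat_lit 152) (nat_lit 0) (XT.nd (nat_lit 78) (nat_lit 0) (nat_lit 0) (XT.lf (nat_lit 0) (nat_lit 102675202998) (nat_lit 76) (nat_lit 22955125044) (nat_lit 76) (nat_lit 14395410976) (nat_lit 3) (nat_lit 4) (nat_lit 4) (nat_lit 5) (nat_lit 4) (nat_lit 4) (nat_lit 254) (nat_lit 220) (nat_lit 186)) (XT.lf (nat_lit 0) (nat_lit 132309104594) (nat_lit 76) (nat_lit 18097964381) (nat_lit 76) (nat_lit 9528525246) (nat_lit 3) (nat_lit 4) (nat_lit 4) (nat_lit 5) (nat_lit 4) (nat_lit 4) (nat_lit 255) (nat_lit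 220) (nat_lit 185))) (XT.nd (nat_lit 78) (nat_lit 152) (nat_lit 0) (XT.lf (nat_lit 0) (nat_lit 166358597199) (nat_lit 76) (nat_lit 12526746662) (nat_lit 76) (nat_lit 3948850947) (nat_lit 3) (nat_lit 4) (nat_lit 4) (nat_lit 5) (nat_lit 4) (nat_lit 4) (nat_lit 256) (nat_lit 220) (nat_lit 184)) (XT.nd (nat_lit 78) (nat_lit 76) (nat_lit 0) (XT.lf (nat_lit 0) (nat_lit 2234416072) (nat_lit 152) (nat_lit 3781254708) (nat_lit 76) (nat_lit 203138651445) (nat_lit 2) (nat_lit 5) (nat_lit 4) (nat_lit 5) (nat_lit 3) (nat_lit 4) (nat_lit 257) (nat_lit 220) (nat_lit 183)) (XT.lf (nat_lit 0) (nat_lit 9503471322) (nat_lit 152) (nat_lit 227773940216) (nat_lit 0) (nat_lit 2032476841) (nat_lit 1) (nat_lit 5) (nat_lit 3) (nat_lit 4) (nat_lit 1) (nat_lit 4) (nat_lit 258) (nat_lit 220) (nat_lit 182))))))))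
noncomputable def xc50 : XT := (XT.nd (nat_lit 1326) (nat_lit 0) (nat_lit 0) (XT.nd (nat_lit 624) (nat_lit 0) (nat_lit 0) (XT.nd (nat_lit 312) (nat_lit 0) (nat_lit 0) (XT.nd (nat_lit 156) (nat_lit 0) (nat_lit 0) (XT.nd (nat_lit 78) (nat_lit 0) (nat_lit 0) (XT.lf (nat_lit 0) (nat_lit 18344695403) (nat_lit 152) (nat_lit 244702968363) (nat_lit 0) (nat_lit 10868865845) (nat_lit 1) (nat_lit 5) (nat_lit 3) (nat_lit 4) (nat_lit 1) (nat_lit 4) (nat_lit 259) (nat_lit 220) (nat_lit 181)) (XT.lf (nat_lit 0) (nat_lit 28501912939) (nat_lit 152) (nat_lit 264191913854) (nat_lit 0) (nat_lit 21021878965) (nat_lit 1) (nat_lit 5) (nat_lit 3) (nat_lit 4) (nat_lit 1) (nat_lit 4) (nat_lit 260) (nat_lit 220) (nat_lit 180))) (XT.nd (nat_lit 78) (nat_lit 0) (nat_lit 0) (XT.lf (nat_lit 0) (nat_lit 40173852098) (nat_lit 152) (nat_lit 286622082143) (nat_lit 0) (nat_lit 32690162111) (nat_lit 1) (nat_lit 5) (nat_lit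 3) (nat_lit 4) (nat_lit 1) (nat_lit 4) (nat_lit 261) (nat_lit 220) (nat_lit 179)) (XT.lf (nat_lit 0) (nat_lit 53588876908) (nat_lit 152) (nat_lit 312432324348) (nat_lit 0) (nat_lit 46102007780) (nat_lit 1) (nat_lit 5) (nat_lit 3) (nat_lit 4) (nat_lit 1) (nat_lit 4) (nat_lit 262) (nat_lit 220) (nat_lit 178)))) (XT.nd (nat_lit 156) (nat_lit 0) (nat_lit 0) (XT.nd (nat_lit 78) (nat_lit 0) (nat_lit 0) (XT.lf (nat_lit 0) (nat_lit 69009455245) (nat_lit 152) (nat_lit 342127623471) (nat_lit 0) (nat_lit 61519821646) (nat_lit 1) (nat_lit 5) (nat_lit 3) (nat_lit 4) (nat_lit 1) (nat_lit 4) (nat_lit 263) (nat_lit 220) (nat_lit 177)) (XT.lf (nat_lit 0) (nat_lit 86737294078) (nat_lit 152) (nat_lit 376288974493) (nat_lit 0) (nat_lit 79245256590) (nat_lit 1) (nat_lit 5) (nat_lit 3) (nat_lit 4) (nat_lit 1) (nat_lit 4) (nat_lit 264) (nat_lit 220) (nat_lit 176))) (XT.nd (nat_lit 78) (nat_lit 0) (nat_lit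 0) (XT.lf (nat_lit 0) (nat_lit 107119242426) (nat_lit 152) (nat_lit 415584751673) (nat_lit 0) (nat_lit 99625114601) (nat_lit 1) (nat_lit 5) (nat_lit 3) (nat_lit 4) (nat_lit 1) (nat_lit 4) (nat_lit 265) (nat_lit 220) (nat_lit 175)) (XT.lf (nat_lit 0) (nat_lit 130554077540) (nat_lit 152) (nat_lit 460783785435) (nat_lit 0) (nat_lit 123058132030) (nat_lit 1) (nat_lit 5) (nat_lit 3) (nat_lit 4) (nat_lit 1) (nat_lit 4) (nat_lit 266) (nat_lit 220) (nat_lit 174))))) (XT.nd (nat_lit 312) (nat_lit 0) (nat_lit 0) (XT.nd (nat_lit 156) (nat_lit 0) (nat_lit 0) (XT.nd (nat_lit 78) (nat_lit 0) (nat_lit 0) (XT.lf (nat_lit 0) (nat_lit 157500307063) (nat_lit 152) (nat_lit 512770404700) (nat_lit 0) (nat_lit 150002780958) (nat_lit 1) (nat_lit 5) (nat_lit 3) (nat_lit 4) (nat_lit 1) (nat_lit 4) (nat_lit 267) (nat_lit 220) (nat_lit 173)) (XT.lf (nat_lit 0) (nat_lit 188485139834) (nat_lit 152) (nat_lit 572561738975)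 (nat_lit 0) (nat_lit 180986239299) (nat_lit 1) (nat_lit 5) (nat_lit 3) (nat_lit 4) (nat_lit 1) (nat_lit 4) (nat_lit 268) (nat_lit 220) (nat_lit 172))) (XT.nd (nat_lit 78) (nat_lit 0) (nat_lit 0) (XT.lf (nat_lit 0) (nat_lit 224114800842) (nat_lit 152) (nat_lit 641327618714) (nat_lit 0) (nat_lit 216614705150) (nat_lit 1) (nat_lit 5) (nat_lit 3) (nat_lit 4) (nat_lit 1) (nat_lit 4) (nat_lit 269) (nat_lit 220) (nat_lit 171)) (XT.lf (nat_lit 0) (nat_lit 265086392150) (nat_lit 152) (nat_lit 720413463303) (nat_lit 0) (nat_lit 257585257191) (nat_lit 1) (nat_lit 5) (nat_lit 3) (nat_lit 4) (nat_lit 1) (nat_lit 4) (nat_lit 270) (nat_lit 220) (nat_lit 170)))) (XT.nd (nat_lit 156) (nat_lit 0) (nat_lit 0) (XT.nd (nat_lit 78) (nat_lit 0) (nat_lit 0) (XT.lf (nat_lit 0) (nat_lit 312201531850) (nat_lit 152) (nat_lit 811366604484) (nat_lit 0) (nat_lit 304699493179) (nat_lit 1) (nat_lit 5) (nat_lit 3) (nat_lit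 4) (nat_lit 1) (nat_lit 4) (nat_lit 271) (nat_lit 220) (nat_lit 169)) (XT.lf (nat_lit 0) (nat_lit 366382037890) (nat_lit 152) (nat_lit 915966560236) (nat_lit 0) (nat_lit 358879213385) (nat_lit 1) (nat_lit 5) (nat_lit 3) (nat_lit 4) (nat_lit 1) (nat_lit 4) (nat_lit 272) (nat_lit 220) (nat_lit 168))) (XT.nd (nat_lit 78) (nat_lit 0) (nat_lit 0) (XT.lf (nat_lit 0) (nat_lit 428687963652) (nat_lit 152) (nat_lit 1036259851433) (nat_lit 0) (nat_lit 421184455811) (nat_lit 1) (nat_lit 5) (nat_lit 3) (nat_lit 4) (nat_lit 1) (nat_lit 4) (nat_lit 273) (nat_lit 220) (nat_lit 167)) (XT.nd (nat_lit 78) (nat_lit 0) (nat_lit 0) (XT.lf (nat_lit 0) (nat_lit 500338338116) (nat_lit 152) (nat_lit 1174600042468) (nat_lit 0) (nat_lit 492834236071) (nat_lit 1) (nat_lit 5) (nat_lit 3) (nat_lit 4) (nat_lit 1) (nat_lit 4) (nat_lit 274) (nat_lit 220) (nat_lit 166)) (XT.lf (nat_lit 0) (nat_lit 582735016435) (nat_lit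 152) (nat_lit 1333693789252) (nat_lit 0) (nat_lit 575230397691) (nat_lit 1) (nat_lit 5) (nat_lit 3) (nat_lit 4) (nat_lit 1) (nat_lit 4) (nat_lit 275) (nat_lit 220) (nat_lit 165))))))) (XT.nd (nat_lit 702) (nat_lit 0) (nat_lit 0) (XT.nd (nat_lit 312) (nat_lit 0) (nat_lit 0) (XT.nd (nat_lit 156) (nat_lit 0) (nat_lit 0) (XT.nd (nat_lit 78) (nat_lit 0) (nat_lit 0) (XT.lf (nat_lit 0) (nat_lit 677490107534) (nat_lit 152) (nat_lit 1516653795527) (nat_lit 0) (nat_lit 669985039486) (nat_lit 1) (nat_lit 5) (nat_lit 3) (nat_lit 4) (nat_lit 1) (nat_lit 4) (nat_lit 276) (nat_lit 220) (nat_lit 164)) (XT.lf (nat_lit 0) (nat_lit 786457515368) (nat_lit 152) (nat_lit 1727059713589) (nat_lit 0) (nat_lit 778952056621) (nat_lit 1) (nat_lit 5) (nat_lit 3) (nat_lit 4) (nat_lit 1) (nat_lit 4) (nat_lit 277) (nat_lit 220) (nat_lit 163))) (XT.nd (nat_lit 78) (nat_lit 0) (nat_lit 0) (XT.lf (nat_lit 0) (nat_lit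 911769210961) (nat_lit 152) (nat_lit 1969028180966) (nat_lit 0) (nat_lit 904263412475) (nat_lit 1) (nat_lit 5) (nat_lit 3) (nat_lit 4) (nat_lit 1) (nat_lit 4) (nat_lit 278) (nat_lit 220) (nat_lit 162)) (XT.lf (nat_lit 0) (nat_lit 1055876944877) (nat_lit 152) (nat_lit 2247293363325) (nat_lit 0) (nat_lit 1048370850967) (nat_lit 1) (nat_lit 5) (nat_lit 3) (nat_lit 4) (nat_lit 1) (nat_lit 4) (nat_lit 279) (nat_lit 220) (nat_lit 161)))) (XT.nd (nat_lit 156) (nat_lit 0) (nat_lit 0) (XT.nd (nat_lit 78) (nat_lit 0) (nat_lit 0) (XT.lf (nat_lit 0) (nat_lit 1221600216260) (nat_lit 152) (nat_lit 2567299579449) (nat_lit 0) (nat_lit 1214093865459) (nat_lit 1) (nat_lit 5) (nat_lit 3) (nat_lit 4) (nat_lit 1) (nat_lit 4) (nat_lit 280) (nat_lit 220) (nat_lit 160)) (XT.lf (nat_lit 0) (nat_lit 1412181436939) (nat_lit 152) (nat_lit 2935307820524) (nat_lit 0) (nat_lit 1404674862755) (nat_lit 1) (nat_lit 5)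 (nat_lit 3) (nat_lit 4) (nat_lit 1) (nat_lit 4) (nat_lit 281) (nat_lit 220) (nat_lit 159))) (XT.nd (nat_lit 78) (nat_lit 0) (nat_lit 0) (XT.lf (nat_lit 0) (nat_lit 1631349369930) (nat_lit 152) (nat_lit 3358518247789) (nat_lit 0) (nat_lit 1623842601499) (nat_lit 1) (nat_lit 5) (nat_lit 3) (nat_lit 4) (nat_lit 1) (nat_lit 4) (nat_lit 282) (nat_lit 220) (nat_lit 158)) (XT.nd (nat_lit 78) (nat_lit 0) (nat_lit 0) (XT.lf (nat_lit 0) (nat_lit 1883392083486) (nat_lit 152) (nat_lit 3845211065255) (nat_lit 0) (nat_lit 1875885146145) (nat_lit 1) (nat_lit 5) (nat_lit 3) (nat_lit 4) (nat_lit 1) (nat_lit 4) (nat_lit 283) (nat_lit 220) (nat_lit 157)) (XT.lf (nat_lit 0) (nat_lit 2173240848089) (nat_lit 152) (nat_lit 4404908523699) (nat_lit 0) (nat_lit 2165733763870) (nat_lit 1) (nat_lit 5) (nat_lit 3) (nat_lit 4) (nat_lit 1) (nat_lit 4) (nat_lit 284) (nat_lit 220) (nat_lit 156)))))) (XT.nd (nat_lit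 312) (nat_lit 0) (nat_lit 0) (XT.nd (nat_lit 156) (nat_lit 0) (nat_lit 0) (XT.nd (nat_lit 78) (nat_lit 0) (nat_lit 0) (XT.lf (nat_lit 0) (nat_lit 2506566617829) (nat_lit 152) (nat_lit 5048561225569) (nat_lit 0) (nat_lit 2499059405890) (nat_lit 1) (nat_lit 5) (nat_lit 3) (nat_lit 4) (nat_lit 1) (nat_lit 4) (nat_lit 285) (nat_lit 220) (nat_lit 155)) (XT.lf (nat_lit 0) (nat_lit 2889890983854) (nat_lit 152) (nat_lit 5788762375901) (nat_lit 0) (nat_lit 2882383660854) (nat_lit 1) (nat_lit 5) (nat_lit 3) (nat_lit 4) (nat_lit 1) (nat_lit 4) (nat_lit 286) (nat_lit 220) (nat_lit 154))) (XT.nd (nat_lit 78) (nat_lit 0) (nat_lit 0) (XT.lf (nat_lit 0) (nat_lit 3330713770717) (nat_lit 152) (nat_lit 6639994171114) (nat_lit 0) (nat_lit 3323206351142) (nat_lit 1) (nat_lit 5) (nat_lit 3) (nat_lit 4) (nat_lit 1) (nat_lit 4) (nat_lit 287) (nat_lit 220) (nat_lit 153)) (XT.lf (nat_lit 0) (nat_lit 3837659772072)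 (nat_lit 152) (nat_lit 7618911146333) (nat_lit 0) (nat_lit 3830152268519) (nat_lit 1) (nat_lit 5) (nat_lit 3) (nat_lit 4) (nat_lit 1) (nat_lit 4) (nat_lit 288) (nat_lit 220) (nat_lit 152)))) (XT.nd (nat_lit 156) (nat_lit 0) (nat_lit 0) (XT.nd (nat_lit 78) (nat_lit 0) (nat_lit 0) (XT.lf (nat_lit 0) (nat_lit 4420647496644) (nat_lit 152) (nat_lit 8744666024986) (nat_lit 0) (nat_lit 4413139920066) (nat_lit 1) (nat_lit 5) (nat_lit 3) (nat_lit 4) (nat_lit 1) (nat_lit 4) (nat_lit 289) (nat_lit 220) (nat_lit 151)) (XT.lf (nat_lit 0) (nat_lit 5091083225998) (nat_lit 152) (nat_lit 10039284446003) (nat_lit 0) (nat_lit 5083575585921) (nat_lit 1) (nat_lit 5) (nat_lit 3) (nat_lit 4) (nat_lit 1) (nat_lit 4) (nat_lit 290) (nat_lit 220) (nat_lit 150))) (XT.nd (nat_lit 78) (nat_lit 0) (nat_lit 0) (XT.lf (nat_lit 0) (nat_lit 5862084180927) (nat_lit 152) (nat_lit 11528095900229) (nat_lit 0) (nat_lit 5854576485633)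 (nat_lit 1) (nat_lit 5) (nat_lit 3) (nat_lit 4) (nat_lit 1) (nat_lit 4) (nat_lit 291) (nat_lit 220) (nat_lit 149)) (XT.nd (nat_lit 78) (nat_lit 0) (nat_lit 0) (XT.lf (nat_lit 0) (nat_lit 6748735162724) (nat_lit 152) (nat_lit 13240229307422) (nat_lit 0) (nat_lit 6741227419415) (nat_lit 1) (nat_lit 5) (nat_lit 3) (nat_lit 4) (nat_lit 1) (nat_lit 4) (nat_lit 292) (nat_lit 220) (nat_lit 148)) (XT.lf (nat_lit 0) (nat_lit 7768383690596) (nat_lit 152) (nat_lit 15209182929896) (nat_lit 0) (nat_lit 7760875905535) (nat_lit 1) (nat_lit 5) (nat_lit 3) (nat_lit 4) (nat_lit 1) (nat_lit 4) (nat_lit 293) (nat_lit 220) (nat_lit 147))))))))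
noncomputable def xc51 : XT := (XT.nd (nat_lit 29250) (nat_lit 0) (nat_lit 304) (XT.nd (nat_lit 1170) (nat_lit 0) (nat_lit 0) (XT.nd (nat_lit 780) (nat_lit 0) (nat_lit 0) (XT.nd (nat_lit 156) (nat_lit 0) (nat_lit 0) (XT.nd (nat_lit 78) (nat_lit 0) (nat_lit 0) (XT.lf (nat_lit 0) (nat_lit 8940979409655) (nat_lit 152) (nat_lit 17473479773308) (nat_lit 0) (nat_lit 8933471588288) (nat_lit 1) (nat_lit 5) (nat_lit 3) (nat_lit 4) (nat_lit 1) (nat_lit 4) (nat_lit 294) (nat_lit 220) (nat_lit 146)) (XT.lf (nat_lit 0) (nat_lit 10289464410056) (nat_lit 152) (nat_lit 20077421297638) (nat_lit 0) (nat_lit 10281956557119) (nat_lit 1) (nat_lit 5) (nat_lit 3) (nat_lit 4) (nat_lit 1) (nat_lit 4) (nat_lit 295) (nat_lit 220) (nat_lit 145))) (XT.nd (nat_lit 78) (nat_lit 0) (nat_lit 0) (XT.lf (nat_lit 0) (nat_lit 11840222093981) (nat_lit 152) (nat_lit 23071954184884) (nat_lit 0) (nat_lit 11832714213591) (nat_lit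 1) (nat_lit 5) (nat_lit 3) (nat_lit 4) (nat_lit 1) (nat_lit 4) (nat_lit 296) (nat_lit 220) (nat_lit 144)) (XT.lf (nat_lit 0) (nat_lit 13623593372637) (nat_lit 152) (nat_lit 26515667121970) (nat_lit 0) (nat_lit 13616085468375) (nat_lit 1) (nat_lit 5) (nat_lit 3) (nat_lit 4) (nat_lit 1) (nat_lit 4) (nat_lit 297) (nat_lit 220) (nat_lit 143)))) (XT.nd (nat_lit 156) (nat_lit 0) (nat_lit 0) (XT.nd (nat_lit 78) (nat_lit 0) (nat_lit 0) (XT.lf (nat_lit 0) (nat_lit 36320235458125) (nat_lit 152) (nat_lit 70343181749350) (nat_lit 0) (nat_lit 36312727454547) (nat_lit 1) (nat_lit 5) (nat_lit 3) (nat_lit 4) (nat_lit 1) (nat_lit 4) (nat_lit 304) (nat_lit 220) (nat_lit 136)) (XT.lf (nat_lit 0) (nat_lit 41775608481777) (nat_lit 152) (nat_lit 80877579345015) (nat_lit 0) (nat_lit 41768100470395) (nat_lit 1) (nat_lit 5) (nat_lit 3) (nat_lit 4) (nat_lit 1) (nat_lit 4) (nat_lit 305) (nat_lit 220) (nat_lit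 135))) (XT.nd (nat_lit 78) (nat_lit 0) (nat_lit 0) (XT.lf (nat_lit 0) (nat_lit 48049287442530) (nat_lit 152) (nat_lit 92992136613219) (nat_lit 0) (nat_lit 48041779424362) (nat_lit 1) (nat_lit 5) (nat_lit 3) (nat_lit 4) (nat_lit 1) (nat_lit 4) (nat_lit 306) (nat_lit 220) (nat_lit 134)) (XT.nd (nat_lit 78) (nat_lit 0) (nat_lit 0) (XT.lf (nat_lit 0) (nat_lit 55264018233094) (nat_lit 152) (nat_lit 106923877500512) (nat_lit 0) (nat_lit 55256510209025) (nat_lit 1) (nat_lit 5) (nat_lit 3) (nat_lit 4) (nat_lit 1) (nat_lit 4) (nat_lit 307) (nat_lit 220) (nat_lit 133)) (XT.lf (nat_lit 0) (nat_lit 63560958629806) (nat_lit 152) (nat_lit 122945379545995) (nat_lit 0) (nat_lit 63553450600607) (nat_lit 1) (nat_lit 5) (nat_lit 3) (nat_lit 4) (nat_lit 1) (nat_lit 4) (nat_lit 308) (nat_lit 220) (nat_lit 132)))))) (XT.nd (nat_lit 27690) (nat_lit 0) (nat_lit 1596) (XT.nd (nat_lit 27534) (nat_lit 0) (nat_lit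 1976) (XT.nd (nat_lit 78) (nat_lit 0) (nat_lit 0) (XT.lf (nat_lit 0) (nat_lit 73102440075212) (nat_lit 152) (nat_lit 141370106920123) (nat_lit 0) (nat_lit 73094932041550) (nat_lit 1) (nat_lit 5) (nat_lit 3) (nat_lit 4) (nat_lit 1) (nat_lit 4) (nat_lit 309) (nat_lit 220) (nat_lit 131)) (XT.lf (nat_lit 0) (nat_lit 84075143728025) (nat_lit 152) (nat_lit 162558543419345) (nat_lit 0) (nat_lit 84067635690483) (nat_lit 1) (nat_lit 5) (nat_lit 3) (nat_lit 4) (nat_lit 1) (nat_lit 4) (nat_lit 310) (nat_lit 220) (nat_lit 130))) (XT.nd (nat_lit 78) (nat_lit 228) (nat_lit 0) (XT.lf (nat_lit 0) (nat_lit 1370580509) (nat_lit 0) (nat_lit 1370580509) (nat_lit 76) (nat_lit 522471118) (nat_lit 30) (nat_lit 5) (nat_lit 30) (nat_lit 3) (nat_lit 31) (nat_lit 0) (nat_lit 221) (nat_lit 221) (nat_lit 218)) (XT.lf (nat_lit 0) (nat_lit 1263173939) (nat_lit 228) (nat_lit 717734501) (nat_lit 228) (nat_lit 4679600240)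 (nat_lit 27) (nat_lit 3) (nat_lit 30) (nat_lit 3) (nat_lit 30) (nat_lit 5) (nat_lit 222) (nat_lit 221) (nat_lit 217)))) (XT.nd (nat_lit 156) (nat_lit 380) (nat_lit 0) (XT.nd (nat_lit 78) (nat_lit 0) (nat_lit 76) (XT.lf (nat_lit 76) (nat_lit 2772014410) (nat_lit 0) (nat_lit 746177321) (nat_lit 228) (nat_lit 3335549613) (nat_lit 28) (nat_lit 5) (nat_lit 27) (nat_lit 3) (nat_lit 30) (nat_lit 5) (nat_lit 223) (nat_lit 221) (nat_lit 216)) (XT.lf (nat_lit 0) (nat_lit 5821048039) (nat_lit 152) (nat_lit 522670474) (nat_lit 76) (nat_lit 778946368) (nat_lit 28) (nat_lit 5) (nat_lit 30) (nat_lit 5) (nat_lit 29) (nat_lit 4) (nat_lit 224) (nat_lit 221) (nat_lit 215))) (XT.nd (nat_lit 78) (nat_lit 228) (nat_lit 0) (XT.lf (nat_lit 0) (nat_lit 810374187) (nat_lit 228) (nat_lit 3885699541) (nat_lit 76) (nat_lit 2751988099) (nat_lit 25) (nat_lit 5) (nat_lit 28) (nat_lit 5) (nat_lit 26) (nat_lit 5) (nat_lit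 225) (nat_lit 221) (nat_lit 214)) (XT.nd (nat_lit 78) (nat_lit 0) (nat_lit 0) (XT.lf (nat_lit 0) (nat_lit 183273469) (nat_lit 228) (nat_lit 2662998845) (nat_lit 304) (nat_lit 5007710491) (nat_lit 22) (nat_lit 5) (nat_lit 25) (nat_lit 5) (nat_lit 26) (nat_lit 5) (nat_lit 226) (nat_lit 221) (nat_lit 213)) (XT.lf (nat_lit 0) (nat_lit 5041105742) (nat_lit 228) (nat_lit 81620514) (nat_lit 304) (nat_lit 3209587514) (nat_lit 22) (nat_lit 5) (nat_lit 25) (nat_lit 5) (nat_lit 26) (nat_lit 5) (nat_lit 227) (nat_lit 221) (nat_lit 212))))))) (XT.nd (nat_lit 702) (nat_lit 380) (nat_lit 0) (XT.nd (nat_lit 312) (nat_lit 380) (nat_lit 0) (XT.nd (nat_lit 156) (nat_lit 152) (nat_lit 0) (XT.nd (nat_lit 78) (nat_lit 76) (nat_lit 0) (XT.lf (nat_lit 0) (nat_lit 1497631290) (nat_lit 304) (nat_lit 6191929478) (nat_lit 380) (nat_lit 1202059790) (nat_lit 18) (nat_lit 5) (nat_lit 22) (nat_lit 5) (nat_lit 23) (nat_lit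 4) (nat_lit 228) (nat_lit 221) (nat_lit 211)) (XT.lf (nat_lit 0) (nat_lit 968205900) (nat_lit 380) (nat_lit 2464800013) (nat_lit 76) (nat_lit 6102107206) (nat_lit 17) (nat_lit 5) (nat_lit 22) (nat_lit 5) (nat_lit 18) (nat_lit 5) (nat_lit 229) (nat_lit 221) (nat_lit 210))) (XT.nd (nat_lit 78) (nat_lit 0) (nat_lit 0) (XT.lf (nat_lit 0) (nat_lit 3193852283) (nat_lit 152) (nat_lit 84564548) (nat_lit 228) (nat_lit 6998533310) (nat_lit 15) (nat_lit 5) (nat_lit 17) (nat_lit 5) (nat_lit 18) (nat_lit 5) (nat_lit 230) (nat_lit 221) (nat_lit 209)) (XT.lf (nat_lit 0) (nat_lit 6045378023) (nat_lit 228) (nat_lit 1546485008) (nat_lit 76) (nat_lit 3522560571) (nat_lit 15) (nat_lit 5) (nat_lit 18) (nat_lit 5) (nat_lit 16) (nat_lit 4) (nat_lit 231) (nat_lit 221) (nat_lit 208)))) (XT.nd (nat_lit 156) (nat_lit 304) (nat_lit 0) (XT.nd (nat_lit 78) (nat_lit 0) (nat_lit 0) (XT.lf (nat_lit 0) (nat_lit 5046781278)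 (nat_lit 76) (nat_lit 4236469384) (nat_lit 152) (nat_lit 2786664443) (nat_lit 14) (nat_lit 5) (nat_lit 15) (nat_lit 5) (nat_lit 16) (nat_lit 4) (nat_lit 232) (nat_lit 221) (nat_lit 207)) (XT.lf (nat_lit 0) (nat_lit 12593689949) (nat_lit 76) (nat_lit 348652668) (nat_lit 152) (nat_lit 236732701) (nat_lit 14) (nat_lit 5) (nat_lit 15) (nat_lit 5) (nat_lit 16) (nat_lit 4) (nat_lit 233) (nat_lit 221) (nat_lit 206))) (XT.nd (nat_lit 78) (nat_lit 76) (nat_lit 0) (XT.lf (nat_lit 0) (nat_lit 2806274730) (nat_lit 228) (nat_lit 7454099281) (nat_lit 76) (nat_lit 4125416889) (nat_lit 11) (nat_lit 5) (nat_lit 14) (nat_lit 5) (nat_lit 12) (nat_lit 4) (nat_lit 234) (nat_lit 221) (nat_lit 205)) (XT.nd (nat_lit 78) (nat_lit 76) (nat_lit 0) (XT.lf (nat_lit 0) (nat_lit 6204251118) (nat_lit 228) (nat_lit 358946658) (nat_lit 76) (nat_lit 9220656198) (nat_lit 11) (nat_lit 5) (nat_lit 14) (nat_lit 5) (nat_lit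 12) (nat_lit 4) (nat_lit 235) (nat_lit 221) (nat_lit 204)) (XT.lf (nat_lit 0) (nat_lit 8369207341) (nat_lit 76) (nat_lit 1979785418) (nat_lit 152) (nat_lit 7007459791) (nat_lit 10) (nat_lit 5) (nat_lit 11) (nat_lit 5) (nat_lit 12) (nat_lit 4) (nat_lit 236) (nat_lit 221) (nat_lit 203)))))) (XT.nd (nat_lit 312) (nat_lit 152) (nat_lit 0) (XT.nd (nat_lit 156) (nat_lit 152) (nat_lit 0) (XT.nd (nat_lit 78) (nat_lit 76) (nat_lit 0) (XT.lf (nat_lit 0) (nat_lit 15166468893) (nat_lit 152) (nat_lit 1033635845) (nat_lit 0) (nat_lit 2957518657) (nat_lit 10) (nat_lit 5) (nat_lit 12) (nat_lit 4) (nat_lit 10) (nat_lit 4) (nat_lit 237) (nat_lit 221) (nat_lit 202)) (XT.lf (nat_lit 0) (nat_lit 8629366117) (nat_lit 76) (nat_lit 12437571302) (nat_lit 76) (nat_lit 108268945) (nat_lit 9) (nat_lit 4) (nat_lit 10) (nat_lit 5) (nat_lit 10) (nat_lit 4) (nat_lit 238) (nat_lit 221) (nat_lit 201))) (XT.nd (nat_lit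 78) (nat_lit 76) (nat_lit 0) (XT.lf (nat_lit 0) (nat_lit 3935894136) (nat_lit 152) (nat_lit 3971783980) (nat_lit 76) (nat_lit 15565896244) (nat_lit 8) (nat_lit 5) (nat_lit 10) (nat_lit 5) (nat_lit 9) (nat_lit 4) (nat_lit 239) (nat_lit 221) (nat_lit 200)) (XT.lf (nat_lit 0) (nat_lit 6305966919) (nat_lit 76) (nat_lit 2452603679) (nat_lit 152) (nat_lit 17330099658) (nat_lit 7) (nat_lit 5) (nat_lit 8) (nat_lit 5) (nat_lit 9) (nat_lit 4) (nat_lit 240) (nat_lit 221) (nat_lit 199)))) (XT.nd (nat_lit 156) (nat_lit 152) (nat_lit 0) (XT.nd (nat_lit 78) (nat_lit 0) (nat_lit 0) (XT.lf (nat_lit 0) (nat_lit 14604488314) (nat_lit 152) (nat_lit 10802326140) (nat_lit 0) (nat_lit 3644407149) (nat_lit 7) (nat_lit 5) (nat_lit 9) (nat_lit 4) (nat_lit 7) (nat_lit 4) (nat_lit 241) (nat_lit 221) (nat_lit 198)) (XT.lf (nat_lit 0) (nat_lit 21378109528) (nat_lit 152) (nat_lit 714376907) (nat_lit 0) (nat_lit 10358192089)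 (nat_lit 7) (nat_lit 5) (nat_lit 9) (nat_lit 4) (nat_lit 7) (nat_lit 4) (nat_lit 242) (nat_lit 221) (nat_lit 197))) (XT.nd (nat_lit 78) (nat_lit 76) (nat_lit 0) (XT.lf (nat_lit 0) (nat_lit 11833581637) (nat_lit 76) (nat_lit 17766826267) (nat_lit 76) (nat_lit 6694877284) (nat_lit 6) (nat_lit 4) (nat_lit 7) (nat_lit 5) (nat_lit 7) (nat_lit 4) (nat_lit 243) (nat_lit 221) (nat_lit 196)) (XT.nd (nat_lit 78) (nat_lit 76) (nat_lit 0) (XT.lf (nat_lit 0) (nat_lit 26242179406) (nat_lit 76) (nat_lit 12797110615) (nat_lit 76) (nat_lit 1679916812) (nat_lit 6) (nat_lit 4) (nat_lit 7) (nat_lit 5) (nat_lit 7) (nat_lit 4) (nat_lit 244) (nat_lit 221) (nat_lit 195)) (XT.lf (nat_lit 0) (nat_lit 3674035329) (nat_lit 152) (nat_lit 3257361164) (nat_lit 76) (nat_lit 38857422464) (nat_lit 5) (nat_lit 5) (nat_lit 7) (nat_lit 5) (nat_lit 6) (nat_lit 4) (nat_lit 245) (nat_lit 221) (nat_lit 194))))))))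
noncomputable def xc52 : XT := (XT.nd (nat_lit 1326) (nat_lit 0) (nat_lit 0) (XT.nd (nat_lit 624) (nat_lit 152) (nat_lit 0) (XT.nd (nat_lit 312) (nat_lit 76) (nat_lit 0) (XT.nd (nat_lit 156) (nat_lit 0) (nat_lit 0) (XT.nd (nat_lit 78) (nat_lit 0) (nat_lit 0) (XT.lf (nat_lit 0) (nat_lit 10062300514) (nat_lit 152) (nat_lit 41152948758) (nat_lit 0) (nat_lit 331214681) (nat_lit 4) (nat_lit 5) (nat_lit 6) (nat_lit 4) (nat_lit 4) (nat_lit 4) (nat_lit 246) (nat_lit 221) (nat_lit 193)) (XT.lf (nat_lit 0) (nat_lit 17875171689) (nat_lit 152) (nat_lit 32104474888) (nat_lit 0) (nat_lit 8118216983) (nat_lit 4) (nat_lit 5) (nat_lit 6) (nat_lit 4) (nat_lit 4) (nat_lit 4) (nat_lit 247) (nat_lit 221) (nat_lit 192))) (XT.nd (nat_lit 78) (nat_lit 0) (nat_lit 0) (XT.lf (nat_lit 0) (nat_lit 26823382593) (nat_lit 152) (nat_lit 21770200547) (nat_lit 0) (nat_lit 17043933216) (nat_lit 4) (nat_lit 5) (nat_lit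 6) (nat_lit 4) (nat_lit 4) (nat_lit 4) (nat_lit 248) (nat_lit 221) (nat_lit 191)) (XT.lf (nat_lit 0) (nat_lit 37082006917) (nat_lit 152) (nat_lit 9947933410) (nat_lit 0) (nat_lit 27282996956) (nat_lit 4) (nat_lit 5) (nat_lit 6) (nat_lit 4) (nat_lit 4) (nat_lit 4) (nat_lit 249) (nat_lit 221) (nat_lit 190)))) (XT.nd (nat_lit 156) (nat_lit 0) (nat_lit 0) (XT.nd (nat_lit 78) (nat_lit 0) (nat_lit 0) (XT.lf (nat_lit 0) (nat_lit 3944827579) (nat_lit 76) (nat_lit 45070276196) (nat_lit 76) (nat_lit 35254257031) (nat_lit 3) (nat_lit 4) (nat_lit 4) (nat_lit 5) (nat_lit 4) (nat_lit 4) (nat_lit 250) (nat_lit 221) (nat_lit 189)) (XT.lf (nat_lit 0) (nat_lit 20987929187) (nat_lit 76) (nat_lit 42244046393) (nat_lit 76) (nat_lit 32413236617) (nat_lit 3) (nat_lit 4) (nat_lit 4) (nat_lit 5) (nat_lit 4) (nat_lit 4) (nat_lit 251) (nat_lit 221) (nat_lit 188))) (XT.nd (nat_lit 78) (nat_lit 0) (nat_lit 0) (XT.lf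 (nat_lit 0) (nat_lit 40542639001) (nat_lit 76) (nat_lit 39015960730) (nat_lit 76) (nat_lit 29172289551) (nat_lit 3) (nat_lit 4) (nat_lit 4) (nat_lit 5) (nat_lit 4) (nat_lit 4) (nat_lit 252) (nat_lit 221) (nat_lit 187)) (XT.lf (nat_lit 0) (nat_lit 62991549169) (nat_lit 76) (nat_lit 35322861006) (nat_lit 76) (nat_lit 25468006001) (nat_lit 3) (nat_lit 4) (nat_lit 4) (nat_lit 5) (nat_lit 4) (nat_lit 4) (nat_lit 253) (nat_lit 221) (nat_lit 186))))) (XT.nd (nat_lit 312) (nat_lit 152) (nat_lit 0) (XT.nd (nat_lit 156) (nat_lit 0) (nat_lit 0) (XT.nd (nat_lit 78) (nat_lit 0) (nat_lit 0) (XT.lf (nat_lit 0) (nat_lit 88773877498) (nat_lit 76) (nat_lit 31092490925) (nat_lit 76) (nat_lit 21227910852) (nat_lit 3) (nat_lit 4) (nat_lit 4) (nat_lit 5) (nat_lit 4) (nat_lit 4) (nat_lit 254) (nat_lit 221) (nat_lit 185)) (XT.lf (nat_lit 0) (nat_lit 118394060847) (nat_lit 76) (nat_lit 26242082376) (nat_lit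 76) (nat_lit 16369045722) (nat_lit 3) (nat_lit 4) (nat_lit 4) (nat_lit 5) (nat_lit 4) (nat_lit 4) (nat_lit 255) (nat_lit 221) (nat_lit 184))) (XT.nd (nat_lit 78) (nat_lit 0) (nat_lit 0) (XT.lf (nat_lit 0) (nat_lit 152431624543) (nat_lit 76) (nat_lit 20676736060) (nat_lit 76) (nat_lit 10796345858) (nat_lit 3) (nat_lit 4) (nat_lit 4) (nat_lit 5) (nat_lit 4) (nat_lit 4) (nat_lit 256) (nat_lit 221) (nat_lit 183)) (XT.lf (nat_lit 0) (nat_lit 191552520918) (nat_lit 76) (nat_lit 14287564768) (nat_lit 76) (nat_lit 4400780176) (nat_lit 3) (nat_lit 4) (nat_lit 4) (nat_lit 5) (nat_lit 4) (nat_lit 4) (nat_lit 257) (nat_lit 221) (nat_lit 182)))) (XT.nd (nat_lit 156) (nat_lit 0) (nat_lit 0) (XT.nd (nat_lit 78) (nat_lit 76) (nat_lit 0) (XT.lf (nat_lit 0) (nat_lit 2680795156) (nat_lit 152) (nat_lit 4128635343) (nat_lit 76) (nat_lit 233701231185) (nat_lit 2) (nat_lit 5) (nat_lit 4) (nat_lit 5) (nat_lit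 3) (nat_lit 4) (nat_lit 258) (nat_lit 221) (nat_lit 181)) (XT.lf (nat_lit 0) (nat_lit 11038713950) (nat_lit 152) (nat_lit 261718619040) (nat_lit 0) (nat_lit 2432470465) (nat_lit 1) (nat_lit 5) (nat_lit 3) (nat_lit 4) (nat_lit 1) (nat_lit 4) (nat_lit 259) (nat_lit 221) (nat_lit 180))) (XT.nd (nat_lit 78) (nat_lit 0) (nat_lit 0) (XT.lf (nat_lit 0) (nat_lit 21191810087) (nat_lit 152) (nat_lit 281215881263) (nat_lit 0) (nat_lit 12581910589) (nat_lit 1) (nat_lit 5) (nat_lit 3) (nat_lit 4) (nat_lit 1) (nat_lit 4) (nat_lit 260) (nat_lit 221) (nat_lit 179)) (XT.nd (nat_lit 78) (nat_lit 0) (nat_lit 0) (XT.lf (nat_lit 0) (nat_lit 32860165422) (nat_lit 152) (nat_lit 303653281493) (nat_lit 0) (nat_lit 24247086782) (nat_lit 1) (nat_lit 5) (nat_lit 3) (nat_lit 4) (nat_lit 1) (nat_lit 4) (nat_lit 261) (nat_lit 221) (nat_lit 178)) (XT.lf (nat_lit 0) (nat_lit 46272073862) (nat_lit 152) (nat_lit 329469812343)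 (nat_lit 0) (nat_lit 37656230752) (nat_lit 1) (nat_lit 5) (nat_lit 3) (nat_lit 4) (nat_lit 1) (nat_lit 4) (nat_lit 262) (nat_lit 221) (nat_lit 177))))))) (XT.nd (nat_lit 702) (nat_lit 0) (nat_lit 0) (XT.nd (nat_lit 312) (nat_lit 0) (nat_lit 0) (XT.nd (nat_lit 156) (nat_lit 0) (nat_lit 0) (XT.nd (nat_lit 78) (nat_lit 0) (nat_lit 0) (XT.lf (nat_lit 0) (nat_lit 61689942313) (nat_lit 152) (nat_lit 359170579852) (nat_lit 0) (nat_lit 53071695315) (nat_lit 1) (nat_lit 5) (nat_lit 3) (nat_lit 4) (nat_lit 1) (nat_lit 4) (nat_lit 263) (nat_lit 221) (nat_lit 176)) (XT.lf (nat_lit 0) (nat_lit 79415424723) (nat_lit 152) (nat_lit 393336685993) (nat_lit 0) (nat_lit 70795087387) (nat_lit 1) (nat_lit 5) (nat_lit 3) (nat_lit 4) (nat_lit 1) (nat_lit 4) (nat_lit 264) (nat_lit 221) (nat_lit 175))) (XT.nd (nat_lit 78) (nat_lit 0) (nat_lit 0) (XT.lf (nat_lit 0) (nat_lit 99795324007) (nat_lit 152) (nat_lit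 432636598059) (nat_lit 0) (nat_lit 91173168987) (nat_lit 1) (nat_lit 5) (nat_lit 3) (nat_lit 4) (nat_lit 1) (nat_lit 4) (nat_lit 265) (nat_lit 221) (nat_lit 174)) (XT.lf (nat_lit 0) (nat_lit 123228377327) (nat_lit 152) (nat_lit 477839227374) (nat_lit 0) (nat_lit 114604641711) (nat_lit 1) (nat_lit 5) (nat_lit 3) (nat_lit 4) (nat_lit 1) (nat_lit 4) (nat_lit 266) (nat_lit 221) (nat_lit 173)))) (XT.nd (nat_lit 156) (nat_lit 0) (nat_lit 0) (XT.nd (nat_lit 78) (nat_lit 0) (nat_lit 0) (XT.lf (nat_lit 0) (nat_lit 150173057464) (nat_lit 152) (nat_lit 529828973207) (nat_lit 0) (nat_lit 141547947418) (nat_lit 1) (nat_lit 5) (nat_lit 3) (nat_lit 4) (nat_lit 1) (nat_lit 4) (nat_lit 267) (nat_lit 221) (nat_lit 172)) (XT.lf (nat_lit 0) (nat_lit 181156542943) (nat_lit 152) (nat_lit 589623026237) (nat_lit 0) (nat_lit 172530237739) (nat_lit 1) (nat_lit 5) (nat_lit 3) (nat_lit 4) (nat_lit 1) (nat_lit 4)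 (nat_lit 268) (nat_lit 221) (nat_lit 171))) (XT.nd (nat_lit 78) (nat_lit 0) (nat_lit 0) (XT.lf (nat_lit 0) (nat_lit 216785032392) (nat_lit 152) (nat_lit 658391270110) (nat_lit 0) (nat_lit 208157687921) (nat_lit 1) (nat_lit 5) (nat_lit 3) (nat_lit 4) (nat_lit 1) (nat_lit 4) (nat_lit 269) (nat_lit 221) (nat_lit 170)) (XT.nd (nat_lit 78) (nat_lit 0) (nat_lit 0) (XT.lf (nat_lit 0) (nat_lit 257755604954) (nat_lit 152) (nat_lit 737479170468) (nat_lit 0) (nat_lit 249127356773) (nat_lit 1) (nat_lit 5) (nat_lit 3) (nat_lit 4) (nat_lit 1) (nat_lit 4) (nat_lit 270) (nat_lit 221) (nat_lit 169)) (XT.lf (nat_lit 0) (nat_lit 304869858786) (nat_lit 152) (nat_lit 828434099274) (nat_lit 0) (nat_lit 296240824770) (nat_lit 1) (nat_lit 5) (nat_lit 3) (nat_lit 4) (nat_lit 1) (nat_lit 4) (nat_lit 271) (nat_lit 221) (nat_lit 168)))))) (XT.nd (nat_lit 312) (nat_lit 0) (nat_lit 0) (XT.nd (nat_lit 156) (nat_lit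 0) (nat_lit 0) (XT.nd (nat_lit 78) (nat_lit 0) (nat_lit 0) (XT.lf (nat_lit 0) (nat_lit 359049594508) (nat_lit 152) (nat_lit 933035609483) (nat_lit 0) (nat_lit 350419877157) (nat_lit 1) (nat_lit 5) (nat_lit 3) (nat_lit 4) (nat_lit 1) (nat_lit 4) (nat_lit 272) (nat_lit 221) (nat_lit 167)) (XT.lf (nat_lit 0) (nat_lit 421354850427) (nat_lit 152) (nat_lit 1053330252381) (nat_lit 0) (nat_lit 412724538871) (nat_lit 1) (nat_lit 5) (nat_lit 3) (nat_lit 4) (nat_lit 1) (nat_lit 4) (nat_lit 273) (nat_lit 221) (nat_lit 166))) (XT.nd (nat_lit 78) (nat_lit 0) (nat_lit 0) (XT.lf (nat_lit 0) (nat_lit 493004642419) (nat_lit 152) (nat_lit 1191671618809) (nat_lit 0) (nat_lit 484373814164) (nat_lit 1) (nat_lit 5) (nat_lit 3) (nat_lit 4) (nat_lit 1) (nat_lit 4) (nat_lit 274) (nat_lit 221) (nat_lit 165)) (XT.lf (nat_lit 0) (nat_lit 575400814242) (nat_lit 152) (nat_lit 1350766387673) (nat_lit 0) (nat_lit 566769536683)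 (nat_lit 1) (nat_lit 5) (nat_lit 3) (nat_lit 4) (nat_lit 1) (nat_lit 4) (nat_lit 275) (nat_lit 221) (nat_lit 164)))) (XT.nd (nat_lit 156) (nat_lit 0) (nat_lit 0) (XT.nd (nat_lit 78) (nat_lit 0) (nat_lit 0) (XT.lf (nat_lit 0) (nat_lit 670155464908) (nat_lit 152) (nat_lit 1533727282714) (nat_lit 0) (nat_lit 661523796650) (nat_lit 1) (nat_lit 5) (nat_lit 3) (nat_lit 4) (nat_lit 1) (nat_lit 4) (nat_lit 276) (nat_lit 221) (nat_lit 163)) (XT.lf (nat_lit 0) (nat_lit 779122489758) (nat_lit 152) (nat_lit 1744133973616) (nat_lit 0) (nat_lit 770490481762) (nat_lit 1) (nat_lit 5) (nat_lit 3) (nat_lit 4) (nat_lit 1) (nat_lit 4) (nat_lit 277) (nat_lit 221) (nat_lit 162))) (XT.nd (nat_lit 78) (nat_lit 0) (nat_lit 0) (XT.lf (nat_lit 0) (nat_lit 904433852320) (nat_lit 152) (nat_lit 1986103113028) (nat_lit 0) (nat_lit 895801548899) (nat_lit 1) (nat_lit 5) (nat_lit 3) (nat_lit 4) (nat_lit 1) (nat_lit 4)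 (nat_lit 278) (nat_lit 221) (nat_lit 161)) (XT.nd (nat_lit 78) (nat_lit 0) (nat_lit 0) (XT.lf (nat_lit 0) (nat_lit 1048541296645) (nat_lit 152) (nat_lit 2264368879764) (nat_lit 0) (nat_lit 1039908736333) (nat_lit 1) (nat_lit 5) (nat_lit 3) (nat_lit 4) (nat_lit 1) (nat_lit 4) (nat_lit 279) (nat_lit 221) (nat_lit 160)) (XT.lf (nat_lit 0) (nat_lit 1214264316209) (nat_lit 152) (nat_lit 2584375604043) (nat_lit 0) (nat_lit 1205631532514) (nat_lit 1) (nat_lit 5) (nat_lit 3) (nat_lit 4) (nat_lit 1) (nat_lit 4) (nat_lit 280) (nat_lit 221) (nat_lit 159))))))))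
noncomputable def xc53 : XT := (XT.nd (nat_lit 1872) (nat_lit 0) (nat_lit 0) (XT.nd (nat_lit 702) (nat_lit 0) (nat_lit 0) (XT.nd (nat_lit 312) (nat_lit 0) (nat_lit 0) (XT.nd (nat_lit 156) (nat_lit 0) (nat_lit 0) (XT.nd (nat_lit 78) (nat_lit 0) (nat_lit 0) (XT.lf (nat_lit 0) (nat_lit 1404845317916) (nat_lit 152) (nat_lit 2952384286992) (nat_lit 0) (nat_lit 1396212339975) (nat_lit 1) (nat_lit 5) (nat_lit 3) (nat_lit 4) (nat_lit 1) (nat_lit 4) (nat_lit 281) (nat_lit 221) (nat_lit 158)) (XT.lf (nat_lit 0) (nat_lit 1624013060496) (nat_lit 152) (nat_lit 3375595098494) (nat_lit 0) (nat_lit 1615379913644) (nat_lit 1) (nat_lit 5) (nat_lit 3) (nat_lit 4) (nat_lit 1) (nat_lit 4) (nat_lit 282) (nat_lit 221) (nat_lit 157))) (XT.nd (nat_lit 78) (nat_lit 0) (nat_lit 0) (XT.lf (nat_lit 0) (nat_lit 1876055608477) (nat_lit 152) (nat_lit 3862288250081) (nat_lit 0) (nat_lit 1867422314747) (nat_lit 1) (nat_lit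 5) (nat_lit 3) (nat_lit 4) (nat_lit 1) (nat_lit 4) (nat_lit 283) (nat_lit 221) (nat_lit 156)) (XT.lf (nat_lit 0) (nat_lit 2165904229101) (nat_lit 152) (nat_lit 4421985999064) (nat_lit 0) (nat_lit 2157270807651) (nat_lit 1) (nat_lit 5) (nat_lit 3) (nat_lit 4) (nat_lit 1) (nat_lit 4) (nat_lit 284) (nat_lit 221) (nat_lit 155)))) (XT.nd (nat_lit 156) (nat_lit 0) (nat_lit 0) (XT.nd (nat_lit 78) (nat_lit 0) (nat_lit 0) (XT.lf (nat_lit 0) (nat_lit 2499229873644) (nat_lit 152) (nat_lit 5065638953576) (nat_lit 0) (nat_lit 2490596341133) (nat_lit 1) (nat_lit 5) (nat_lit 3) (nat_lit 4) (nat_lit 1) (nat_lit 4) (nat_lit 285) (nat_lit 221) (nat_lit 154)) (XT.lf (nat_lit 0) (nat_lit 2882554130801) (nat_lit 152) (nat_lit 5805840323597) (nat_lit 0) (nat_lit 2873920501715) (nat_lit 1) (nat_lit 5) (nat_lit 3) (nat_lit 4) (nat_lit 1) (nat_lit 4) (nat_lit 286) (nat_lit 221) (nat_lit 153))) (XT.nd (nat_lit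 78) (nat_lit 0) (nat_lit 0) (XT.lf (nat_lit 0) (nat_lit 3323376822995) (nat_lit 152) (nat_lit 6657072309845) (nat_lit 0) (nat_lit 3314743109931) (nat_lit 1) (nat_lit 5) (nat_lit 3) (nat_lit 4) (nat_lit 1) (nat_lit 4) (nat_lit 287) (nat_lit 221) (nat_lit 152)) (XT.nd (nat_lit 78) (nat_lit 0) (nat_lit 0) (XT.lf (nat_lit 0) (nat_lit 3830322742031) (nat_lit 152) (nat_lit 7635989451181) (nat_lit 0) (nat_lit 3821688955943) (nat_lit 1) (nat_lit 5) (nat_lit 3) (nat_lit 4) (nat_lit 1) (nat_lit 4) (nat_lit 288) (nat_lit 221) (nat_lit 151)) (XT.lf (nat_lit 0) (nat_lit 4413310395020) (nat_lit 152) (nat_lit 8761744474283) (nat_lit 0) (nat_lit 4404676545432) (nat_lit 1) (nat_lit 5) (nat_lit 3) (nat_lit 4) (nat_lit 1) (nat_lit 4) (nat_lit 289) (nat_lit 221) (nat_lit 150)))))) (XT.nd (nat_lit 312) (nat_lit 0) (nat_lit 0) (XT.nd (nat_lit 156) (nat_lit 0) (nat_lit 0) (XT.nd (nat_lit 78) (nat_lit 0) (nat_lit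 0) (XT.lf (nat_lit 0) (nat_lit 5083746062128) (nat_lit 152) (nat_lit 10056363020907) (nat_lit 0) (nat_lit 5075112157323) (nat_lit 1) (nat_lit 5) (nat_lit 3) (nat_lit 4) (nat_lit 1) (nat_lit 4) (nat_lit 290) (nat_lit 221) (nat_lit 149)) (XT.lf (nat_lit 0) (nat_lit 5854746962931) (nat_lit 152) (nat_lit 11545174584358) (nat_lit 0) (nat_lit 5846113010111) (nat_lit 1) (nat_lit 5) (nat_lit 3) (nat_lit 4) (nat_lit 1) (nat_lit 4) (nat_lit 291) (nat_lit 221) (nat_lit 148))) (XT.nd (nat_lit 78) (nat_lit 0) (nat_lit 0) (XT.lf (nat_lit 0) (nat_lit 6741397897660) (nat_lit 152) (nat_lit 13257308086529) (nat_lit 0) (nat_lit 6732763903089) (nat_lit 1) (nat_lit 5) (nat_lit 3) (nat_lit 4) (nat_lit 1) (nat_lit 4) (nat_lit 292) (nat_lit 221) (nat_lit 147)) (XT.lf (nat_lit 0) (nat_lit 7761046384605) (nat_lit 152) (nat_lit 15226261791592) (nat_lit 0) (nat_lit 7752412353728) (nat_lit 1) (nat_lit 5) (nat_lit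 3) (nat_lit 4) (nat_lit 1) (nat_lit 4) (nat_lit 293) (nat_lit 221) (nat_lit 146)))) (XT.nd (nat_lit 156) (nat_lit 0) (nat_lit 0) (XT.nd (nat_lit 78) (nat_lit 0) (nat_lit 0) (XT.lf (nat_lit 0) (nat_lit 8933642068075) (nat_lit 152) (nat_lit 17490558706821) (nat_lit 0) (nat_lit 8925008005627) (nat_lit 1) (nat_lit 5) (nat_lit 3) (nat_lit 4) (nat_lit 1) (nat_lit 4) (nat_lit 294) (nat_lit 221) (nat_lit 145)) (XT.lf (nat_lit 0) (nat_lit 10282127037529) (nat_lit 152) (nat_lit 20094500293601) (nat_lit 0) (nat_lit 10273492947628) (nat_lit 1) (nat_lit 5) (nat_lit 3) (nat_lit 4) (nat_lit 1) (nat_lit 4) (nat_lit 295) (nat_lit 221) (nat_lit 144))) (XT.nd (nat_lit 78) (nat_lit 0) (nat_lit 0) (XT.lf (nat_lit 0) (nat_lit 11832884694543) (nat_lit 152) (nat_lit 23089033235150) (nat_lit 0) (nat_lit 11824250580771) (nat_lit 1) (nat_lit 5) (nat_lit 3) (nat_lit 4) (nat_lit 1) (nat_lit 4) (nat_lit 296) (nat_lit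 221) (nat_lit 143)) (XT.nd (nat_lit 546) (nat_lit 0) (nat_lit 0) (XT.lf (nat_lit 0) (nat_lit 13616255949799) (nat_lit 152) (nat_lit 26532746219457) (nat_lit 0) (nat_lit 13607621815268) (nat_lit 1) (nat_lit 5) (nat_lit 3) (nat_lit 4) (nat_lit 1) (nat_lit 4) (nat_lit 297) (nat_lit 221) (nat_lit 142)) (XT.lf (nat_lit 0) (nat_lit 36312897937931) (nat_lit 152) (nat_lit 70360261043295) (nat_lit 0) (nat_lit 36304263717038) (nat_lit 1) (nat_lit 5) (nat_lit 3) (nat_lit 4) (nat_lit 1) (nat_lit 4) (nat_lit 304) (nat_lit 221) (nat_lit 135))))))) (XT.nd (nat_lit 28236) (nat_lit 0) (nat_lit 760) (XT.nd (nat_lit 312) (nat_lit 0) (nat_lit 0) (XT.nd (nat_lit 156) (nat_lit 0) (nat_lit 0) (XT.nd (nat_lit 78) (nat_lit 0) (nat_lit 0) (XT.lf (nat_lit 0) (nat_lit 41768270953933) (nat_lit 152) (nat_lit 80894658654397) (nat_lit 0) (nat_lit 41759636726255) (nat_lit 1) (nat_lit 5) (nat_lit 3) (nat_lit 4) (nat_lit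 1) (nat_lit 4) (nat_lit 305) (nat_lit 221) (nat_lit 134)) (XT.lf (nat_lit 0) (nat_lit 48041949908034) (nat_lit 152) (nat_lit 93009215936023) (nat_lit 0) (nat_lit 48033315674455) (nat_lit 1) (nat_lit 5) (nat_lit 3) (nat_lit 4) (nat_lit 1) (nat_lit 4) (nat_lit 306) (nat_lit 221) (nat_lit 133))) (XT.nd (nat_lit 78) (nat_lit 0) (nat_lit 0) (XT.lf (nat_lit 0) (nat_lit 55256680692814) (nat_lit 152) (nat_lit 106940956834989) (nat_lit 0) (nat_lit 55248046454103) (nat_lit 1) (nat_lit 5) (nat_lit 3) (nat_lit 4) (nat_lit 1) (nat_lit 4) (nat_lit 307) (nat_lit 221) (nat_lit 132)) (XT.lf (nat_lit 0) (nat_lit 63553621084497) (nat_lit 152) (nat_lit 122962458890622) (nat_lit 0) (nat_lit 63544986841324) (nat_lit 1) (nat_lit 5) (nat_lit 3) (nat_lit 4) (nat_lit 1) (nat_lit 4) (nat_lit 308) (nat_lit 221) (nat_lit 131)))) (XT.nd (nat_lit 27690) (nat_lit 0) (nat_lit 1748) (XT.nd (nat_lit 27612) (nat_lit 0)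 (nat_lit 1976) (XT.lf (nat_lit 0) (nat_lit 73095102525529) (nat_lit 152) (nat_lit 141387186273575) (nat_lit 0) (nat_lit 73086468278476) (nat_lit 1) (nat_lit 5) (nat_lit 3) (nat_lit 4) (nat_lit 1) (nat_lit 4) (nat_lit 309) (nat_lit 221) (nat_lit 130)) (XT.lf (nat_lit 0) (nat_lit 1644452732) (nat_lit 228) (nat_lit 882110597) (nat_lit 228) (nat_lit 882110597) (nat_lit 27) (nat_lit 3) (nat_lit 30) (nat_lit 3) (nat_lit 30) (nat_lit 5) (nat_lit 222) (nat_lit 222) (nat_lit 216))) (XT.nd (nat_lit 78) (nat_lit 228) (nat_lit 0) (XT.lf (nat_lit 76) (nat_lit 1518523858) (nat_lit 0) (nat_lit 3808837056) (nat_lit 228) (nat_lit 1717166212) (nat_lit 28) (nat_lit 5) (nat_lit 27) (nat_lit 3) (nat_lit 30) (nat_lit 5) (nat_lit 223) (nat_lit 222) (nat_lit 215)) (XT.nd (nat_lit 78) (nat_lit 0) (nat_lit 76) (XT.lf (nat_lit 0) (nat_lit 96365115) (nat_lit 228) (nat_lit 2050307378) (nat_lit 304) (nat_lit 5194746455)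 (nat_lit 24) (nat_lit 5) (nat_lit 27) (nat_lit 3) (nat_lit 28) (nat_lit 5) (nat_lit 224) (nat_lit 222) (nat_lit 214)) (XT.lf (nat_lit 0) (nat_lit 1793242454) (nat_lit 228) (nat_lit 5879304560) (nat_lit 76) (nat_lit 32030975) (nat_lit 25) (nat_lit 5) (nat_lit 28) (nat_lit 5) (nat_lit 26) (nat_lit 5) (nat_lit 225) (nat_lit 222) (nat_lit 213)))))) (XT.nd (nat_lit 312) (nat_lit 456) (nat_lit 0) (XT.nd (nat_lit 156) (nat_lit 380) (nat_lit 0) (XT.nd (nat_lit 78) (nat_lit 228) (nat_lit 0) (XT.lf (nat_lit 0) (nat_lit 3701898561) (nat_lit 228) (nat_lit 1936043540) (nat_lit 76) (nat_lit 2492479217) (nat_lit 25) (nat_lit 5) (nat_lit 28) (nat_lit 5) (nat_lit 26) (nat_lit 5) (nat_lit 226) (nat_lit 222) (nat_lit 212)) (XT.lf (nat_lit 0) (nat_lit 2628161289) (nat_lit 228) (nat_lit 3153819158) (nat_lit 304) (nat_lit 2856954645) (nat_lit 22) (nat_lit 5) (nat_lit 25) (nat_lit 5) (nat_lit 26) (nat_lit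 5) (nat_lit 227) (nat_lit 222) (nat_lit 211))) (XT.nd (nat_lit 78) (nat_lit 380) (nat_lit 0) (XT.lf (nat_lit 0) (nat_lit 7899355777) (nat_lit 228) (nat_lit 173316189) (nat_lit 304) (nat_lit 1167623536) (nat_lit 22) (nat_lit 5) (nat_lit 25) (nat_lit 5) (nat_lit 26) (nat_lit 5) (nat_lit 228) (nat_lit 222) (nat_lit 210)) (XT.lf (nat_lit 0) (nat_lit 837951428) (nat_lit 380) (nat_lit 5893820645) (nat_lit 76) (nat_lit 3176523861) (nat_lit 17) (nat_lit 5) (nat_lit 22) (nat_lit 5) (nat_lit 18) (nat_lit 5) (nat_lit 229) (nat_lit 222) (nat_lit 209)))) (XT.nd (nat_lit 156) (nat_lit 304) (nat_lit 0) (XT.nd (nat_lit 78) (nat_lit 152) (nat_lit 0) (XT.lf (nat_lit 0) (nat_lit 2937134316) (nat_lit 380) (nat_lit 615366909) (nat_lit 76) (nat_lit 7129701601) (nat_lit 17) (nat_lit 5) (nat_lit 22) (nat_lit 5) (nat_lit 18) (nat_lit 5) (nat_lit 230) (nat_lit 222) (nat_lit 208)) (XT.lf (nat_lit 0) (nat_lit 5458105917)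 (nat_lit 228) (nat_lit 5782270957) (nat_lit 76) (nat_lit 316559300) (nat_lit 15) (nat_lit 5) (nat_lit 18) (nat_lit 5) (nat_lit 16) (nat_lit 4) (nat_lit 231) (nat_lit 222) (nat_lit 207))) (XT.nd (nat_lit 78) (nat_lit 228) (nat_lit 0) (XT.lf (nat_lit 0) (nat_lit 299763806) (nat_lit 76) (nat_lit 8136097364) (nat_lit 152) (nat_lit 4115898415) (nat_lit 14) (nat_lit 5) (nat_lit 15) (nat_lit 5) (nat_lit 16) (nat_lit 4) (nat_lit 232) (nat_lit 222) (nat_lit 206)) (XT.nd (nat_lit 78) (nat_lit 228) (nat_lit 0) (XT.lf (nat_lit 0) (nat_lit 7762081420) (nat_lit 76) (nat_lit 4274105044) (nat_lit 152) (nat_lit 1633821640) (nat_lit 14) (nat_lit 5) (nat_lit 15) (nat_lit 5) (nat_lit 16) (nat_lit 4) (nat_lit 233) (nat_lit 222) (nat_lit 205)) (XT.lf (nat_lit 0) (nat_lit 1059005086) (nat_lit 228) (nat_lit 13686435220) (nat_lit 76) (nat_lit 211351493) (nat_lit 11) (nat_lit 5) (nat_lit 14) (nat_lit 5) (nat_lit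 12) (nat_lit 4) (nat_lit 234) (nat_lit 222) (nat_lit 204))))))))
noncomputable def xc54 : XT := (XT.nd (nat_lit 1404) (nat_lit 152) (nat_lit 0) (XT.nd (nat_lit 702) (nat_lit 228) (nat_lit 0) (XT.nd (nat_lit 312) (nat_lit 228) (nat_lit 0) (XT.nd (nat_lit 156) (nat_lit 76) (nat_lit 0) (XT.nd (nat_lit 78) (nat_lit 76) (nat_lit 0) (XT.lf (nat_lit 0) (nat_lit 4406059506) (nat_lit 228) (nat_lit 6673308750) (nat_lit 76) (nat_lit 5283304617) (nat_lit 11) (nat_lit 5) (nat_lit 14) (nat_lit 5) (nat_lit 12) (nat_lit 4) (nat_lit 235) (nat_lit 222) (nat_lit 203)) (XT.lf (nat_lit 0) (nat_lit 1359462173) (nat_lit 76) (nat_lit 6856800403) (nat_lit 152) (nat_lit 9769345922) (nat_lit 10) (nat_lit 5) (nat_lit 11) (nat_lit 5) (nat_lit 12) (nat_lit 4) (nat_lit 236) (nat_lit 222) (nat_lit 202))) (XT.nd (nat_lit 78) (nat_lit 76) (nat_lit 0) (XT.lf (nat_lit 0) (nat_lit 11200755000) (nat_lit 76) (nat_lit 1657227467)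 (nat_lit 152) (nat_lit 6955296193) (nat_lit 10) (nat_lit 5) (nat_lit 11) (nat_lit 5) (nat_lit 12) (nat_lit 4) (nat_lit 237) (nat_lit 222) (nat_lit 201)) (XT.lf (nat_lit 0) (nat_lit 315163880) (nat_lit 76) (nat_lit 17993494336) (nat_lit 76) (nat_lit 3589790488) (nat_lit 9) (nat_lit 4) (nat_lit 10) (nat_lit 5) (nat_lit 10) (nat_lit 4) (nat_lit 238) (nat_lit 222) (nat_lit 200)))) (XT.nd (nat_lit 156) (nat_lit 152) (nat_lit 0) (XT.nd (nat_lit 78) (nat_lit 0) (nat_lit 0) (XT.lf (nat_lit 0) (nat_lit 727976113) (nat_lit 152) (nat_lit 12929558697) (nat_lit 76) (nat_lit 10566447431) (nat_lit 8) (nat_lit 5) (nat_lit 10) (nat_lit 5) (nat_lit 9) (nat_lit 4) (nat_lit 239) (nat_lit 222) (nat_lit 199)) (XT.lf (nat_lit 0) (nat_lit 5257931059) (nat_lit 152) (nat_lit 3269289035) (nat_lit 76) (nat_lit 18355843961) (nat_lit 8) (nat_lit 5) (nat_lit 10) (nat_lit 5) (nat_lit 9) (nat_lit 4) (nat_lit 240) (nat_lit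 222) (nat_lit 198))) (XT.nd (nat_lit 78) (nat_lit 76) (nat_lit 0) (XT.lf (nat_lit 0) (nat_lit 8491112565) (nat_lit 76) (nat_lit 2268778176) (nat_lit 152) (nat_lit 19137385924) (nat_lit 7) (nat_lit 5) (nat_lit 8) (nat_lit 5) (nat_lit 9) (nat_lit 4) (nat_lit 241) (nat_lit 222) (nat_lit 197)) (XT.nd (nat_lit 78) (nat_lit 76) (nat_lit 0) (XT.lf (nat_lit 0) (nat_lit 17412883247) (nat_lit 152) (nat_lit 11273893015) (nat_lit 0) (nat_lit 4628110375) (nat_lit 7) (nat_lit 5) (nat_lit 9) (nat_lit 4) (nat_lit 7) (nat_lit 4) (nat_lit 242) (nat_lit 222) (nat_lit 196)) (XT.lf (nat_lit 0) (nat_lit 194745013) (nat_lit 76) (nat_lit 24935294212) (nat_lit 76) (nat_lit 12105276519) (nat_lit 6) (nat_lit 4) (nat_lit 7) (nat_lit 5) (nat_lit 7) (nat_lit 4) (nat_lit 243) (nat_lit 222) (nat_lit 195)))))) (XT.nd (nat_lit 312) (nat_lit 76) (nat_lit 0) (XT.nd (nat_lit 156) (nat_lit 152) (nat_lit 0) (XT.nd (nat_lit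 78) (nat_lit 0) (nat_lit 0) (XT.lf (nat_lit 0) (nat_lit 14562153387) (nat_lit 76) (nat_lit 19984885874) (nat_lit 76) (nat_lit 7115524860) (nat_lit 6) (nat_lit 4) (nat_lit 7) (nat_lit 5) (nat_lit 7) (nat_lit 4) (nat_lit 244) (nat_lit 222) (nat_lit 194)) (XT.lf (nat_lit 0) (nat_lit 31007666756) (nat_lit 76) (nat_lit 14328012569) (nat_lit 76) (nat_lit 1424439972) (nat_lit 6) (nat_lit 4) (nat_lit 7) (nat_lit 5) (nat_lit 7) (nat_lit 4) (nat_lit 245) (nat_lit 222) (nat_lit 193))) (XT.nd (nat_lit 78) (nat_lit 76) (nat_lit 0) (XT.lf (nat_lit 0) (nat_lit 4627128782) (nat_lit 152) (nat_lit 2984994919) (nat_lit 76) (nat_lit 44984043741) (nat_lit 5) (nat_lit 5) (nat_lit 7) (nat_lit 5) (nat_lit 6) (nat_lit 4) (nat_lit 246) (nat_lit 222) (nat_lit 192)) (XT.lf (nat_lit 0) (nat_lit 11965636487) (nat_lit 152) (nat_lit 46556335449) (nat_lit 0) (nat_lit 696775031) (nat_lit 4) (nat_lit 5) (nat_lit 6) (nat_lit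 4) (nat_lit 4) (nat_lit 4) (nat_lit 247) (nat_lit 222) (nat_lit 191)))) (XT.nd (nat_lit 156) (nat_lit 76) (nat_lit 0) (XT.nd (nat_lit 78) (nat_lit 0) (nat_lit 0) (XT.lf (nat_lit 0) (nat_lit 20899048221) (nat_lit 152) (nat_lit 36250967319) (nat_lit 0) (nat_lit 9610626181) (nat_lit 4) (nat_lit 5) (nat_lit 6) (nat_lit 4) (nat_lit 4) (nat_lit 4) (nat_lit 248) (nat_lit 222) (nat_lit 190)) (XT.lf (nat_lit 0) (nat_lit 31144803702) (nat_lit 152) (nat_lit 24453836018) (nat_lit 0) (nat_lit 19839372459) (nat_lit 4) (nat_lit 5) (nat_lit 6) (nat_lit 4) (nat_lit 4) (nat_lit 4) (nat_lit 249) (nat_lit 222) (nat_lit 189))) (XT.nd (nat_lit 78) (nat_lit 76) (nat_lit 0) (XT.lf (nat_lit 0) (nat_lit 42903363364) (nat_lit 152) (nat_lit 10934128107) (nat_lit 0) (nat_lit 31583141509) (nat_lit 4) (nat_lit 5) (nat_lit 6) (nat_lit 4) (nat_lit 4) (nat_lit 4) (nat_lit 250) (nat_lit 222) (nat_lit 188)) (XT.nd (nat_lit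 78) (nat_lit 0) (nat_lit 0) (XT.lf (nat_lit 0) (nat_lit 5019547243) (nat_lit 76) (nat_lit 51593087487) (nat_lit 76) (nat_lit 40260004230) (nat_lit 3) (nat_lit 4) (nat_lit 4) (nat_lit 5) (nat_lit 4) (nat_lit 4) (nat_lit 251) (nat_lit 222) (nat_lit 187)) (XT.lf (nat_lit 0) (nat_lit 24556114676) (nat_lit 76) (nat_lit 48373931493) (nat_lit 76) (nat_lit 37029664409) (nat_lit 3) (nat_lit 4) (nat_lit 4) (nat_lit 5) (nat_lit 4) (nat_lit 4) (nat_lit 252) (nat_lit 222) (nat_lit 186))))))) (XT.nd (nat_lit 702) (nat_lit 0) (nat_lit 0) (XT.nd (nat_lit 312) (nat_lit 152) (nat_lit 0) (XT.nd (nat_lit 156) (nat_lit 0) (nat_lit 0) (XT.nd (nat_lit 78) (nat_lit 0) (nat_lit 0) (XT.lf (nat_lit 0) (nat_lit 46989248861) (nat_lit 76) (nat_lit 44688596700) (nat_lit 76) (nat_lit 33334604548) (nat_lit 3) (nat_lit 4) (nat_lit 4) (nat_lit 5) (nat_lit 4) (nat_lit 4) (nat_lit 253) (nat_lit 222) (nat_lit 185)) (XT.lf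 (nat_lit 0) (nat_lit 72757858943) (nat_lit 76) (nat_lit 40464978732) (nat_lit 76) (nat_lit 29102530000) (nat_lit 3) (nat_lit 4) (nat_lit 4) (nat_lit 5) (nat_lit 4) (nat_lit 4) (nat_lit 254) (nat_lit 222) (nat_lit 184))) (XT.nd (nat_lit 78) (nat_lit 0) (nat_lit 0) (XT.lf (nat_lit 0) (nat_lit 102366113383) (nat_lit 76) (nat_lit 35620441586) (nat_lit 76) (nat_lit 24250639306) (nat_lit 3) (nat_lit 4) (nat_lit 4) (nat_lit 5) (nat_lit 4) (nat_lit 4) (nat_lit 255) (nat_lit 222) (nat_lit 183)) (XT.lf (nat_lit 0) (nat_lit 136393304114) (nat_lit 76) (nat_lit 30060200838) (nat_lit 76) (nat_lit 18684004168) (nat_lit 3) (nat_lit 4) (nat_lit 4) (nat_lit 5) (nat_lit 4) (nat_lit 4) (nat_lit 256) (nat_lit 222) (nat_lit 182)))) (XT.nd (nat_lit 156) (nat_lit 152) (nat_lit 0) (XT.nd (nat_lit 78) (nat_lit 0) (nat_lit 0) (XT.lf (nat_lit 0) (nat_lit 175505180519) (nat_lit 76) (nat_lit 23675469170) (nat_lit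 76) (nat_lit 12293712161) (nat_lit 3) (nat_lit 4) (nat_lit 4) (nat_lit 5) (nat_lit 4) (nat_lit 4) (nat_lit 257) (nat_lit 222) (nat_lit 181)) (XT.lf (nat_lit 0) (nat_lit 220466974965) (nat_lit 76) (nat_lit 16341327918) (nat_lit 76) (nat_lit 4954735832) (nat_lit 3) (nat_lit 4) (nat_lit 4) (nat_lit 5) (nat_lit 4) (nat_lit 4) (nat_lit 258) (nat_lit 222) (nat_lit 180))) (XT.nd (nat_lit 78) (nat_lit 76) (nat_lit 0) (XT.lf (nat_lit 0) (nat_lit 3167010213) (nat_lit 152) (nat_lit 4581724540) (nat_lit 76) (nat_lit 268825816257) (nat_lit 2) (nat_lit 5) (nat_lit 4) (nat_lit 5) (nat_lit 3) (nat_lit 4) (nat_lit 259) (nat_lit 222) (nat_lit 179)) (XT.nd (nat_lit 78) (nat_lit 0) (nat_lit 0) (XT.lf (nat_lit 0) (nat_lit 12777486585) (nat_lit 152) (nat_lit 300808992457) (nat_lit 0) (nat_lit 2869267007) (nat_lit 1) (nat_lit 5) (nat_lit 3) (nat_lit 4) (nat_lit 1) (nat_lit 4) (nat_lit 260) (nat_lit 222) (nat_lit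 178)) (XT.lf (nat_lit 0) (nat_lit 24442725550) (nat_lit 152) (nat_lit 323252681332) (nat_lit 0) (nat_lit 14531741502) (nat_lit 1) (nat_lit 5) (nat_lit 3) (nat_lit 4) (nat_lit 1) (nat_lit 4) (nat_lit 261) (nat_lit 222) (nat_lit 177)))))) (XT.nd (nat_lit 312) (nat_lit 0) (nat_lit 0) (XT.nd (nat_lit 156) (nat_lit 0) (nat_lit 0) (XT.nd (nat_lit 78) (nat_lit 0) (nat_lit 0) (XT.lf (nat_lit 0) (nat_lit 37851924104) (nat_lit 152) (nat_lit 349074680569) (nat_lit 0) (nat_lit 27938536168) (nat_lit 1) (nat_lit 5) (nat_lit 3) (nat_lit 4) (nat_lit 1) (nat_lit 4) (nat_lit 262) (nat_lit 222) (nat_lit 176)) (XT.lf (nat_lit 0) (nat_lit 53267436132) (nat_lit 152) (nat_lit 378780203196) (nat_lit 0) (nat_lit 43351957859) (nat_lit 1) (nat_lit 5) (nat_lit 3) (nat_lit 4) (nat_lit 1) (nat_lit 4) (nat_lit 263) (nat_lit 222) (nat_lit 175))) (XT.nd (nat_lit 78) (nat_lit 0) (nat_lit 0) (XT.lf (nat_lit 0) (nat_lit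 70990869478) (nat_lit 152) (nat_lit 412950444223) (nat_lit 0) (nat_lit 61073573520) (nat_lit 1) (nat_lit 5) (nat_lit 3) (nat_lit 4) (nat_lit 1) (nat_lit 4) (nat_lit 264) (nat_lit 222) (nat_lit 174)) (XT.lf (nat_lit 0) (nat_lit 91368986969) (nat_lit 152) (nat_lit 452253951842) (nat_lit 0) (nat_lit 81450110415) (nat_lit 1) (nat_lit 5) (nat_lit 3) (nat_lit 4) (nat_lit 1) (nat_lit 4) (nat_lit 265) (nat_lit 222) (nat_lit 173)))) (XT.nd (nat_lit 156) (nat_lit 0) (nat_lit 0) (XT.nd (nat_lit 78) (nat_lit 0) (nat_lit 0) (XT.lf (nat_lit 0) (nat_lit 114800490902) (nat_lit 152) (nat_lit 497459707724) (nat_lit 0) (nat_lit 104880239918) (nat_lit 1) (nat_lit 5) (nat_lit 3) (nat_lit 4) (nat_lit 1) (nat_lit 4) (nat_lit 266) (nat_lit 222) (nat_lit 172)) (XT.lf (nat_lit 0) (nat_lit 141743823746) (nat_lit 152) (nat_lit 549452172312) (nat_lit 0) (nat_lit 131822377605) (nat_lit 1) (nat_lit 5) (nat_lit 3)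 (nat_lit 4) (nat_lit 1) (nat_lit 4) (nat_lit 267) (nat_lit 222) (nat_lit 171))) (XT.nd (nat_lit 78) (nat_lit 0) (nat_lit 0) (XT.lf (nat_lit 0) (nat_lit 172726137667) (nat_lit 152) (nat_lit 609248589476) (nat_lit 0) (nat_lit 162803652258) (nat_lit 1) (nat_lit 5) (nat_lit 3) (nat_lit 4) (nat_lit 1) (nat_lit 4) (nat_lit 268) (nat_lit 222) (nat_lit 170)) (XT.nd (nat_lit 78) (nat_lit 0) (nat_lit 0) (XT.lf (nat_lit 0) (nat_lit 208353608369) (nat_lit 152) (nat_lit 678018889119) (nat_lit 0) (nat_lit 198430219250) (nat_lit 1) (nat_lit 5) (nat_lit 3) (nat_lit 4) (nat_lit 1) (nat_lit 4) (nat_lit 269) (nat_lit 222) (nat_lit 169)) (XT.lf (nat_lit 0) (nat_lit 249323295064) (nat_lit 152) (nat_lit 757108577102) (nat_lit 0) (nat_lit 239399120110) (nat_lit 1) (nat_lit 5) (nat_lit 3) (nat_lit 4) (nat_lit 1) (nat_lit 4) (nat_lit 270) (nat_lit 222) (nat_lit 168))))))))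
noncomputable def xc55 : XT := (XT.nd (nat_lit 1404) (nat_lit 0) (nat_lit 0) (XT.nd (nat_lit 702) (nat_lit 0) (nat_lit 0) (XT.nd (nat_lit 312) (nat_lit 0) (nat_lit 0) (XT.nd (nat_lit 156) (nat_lit 0) (nat_lit 0) (XT.nd (nat_lit 78) (nat_lit 0) (nat_lit 0) (XT.lf (nat_lit 0) (nat_lit 296436778578) (nat_lit 152) (nat_lit 848065060365) (nat_lit 0) (nat_lit 286511920289) (nat_lit 1) (nat_lit 5) (nat_lit 3) (nat_lit 4) (nat_lit 1) (nat_lit 4) (nat_lit 271) (nat_lit 222) (nat_lit 167)) (XT.lf (nat_lit 0) (nat_lit 350615844457) (nat_lit 152) (nat_lit 952667922275) (nat_lit 0) (nat_lit 340690391964) (nat_lit 1) (nat_lit 5) (nat_lit 3) (nat_lit 4) (nat_lit 1) (nat_lit 4) (nat_lit 272) (nat_lit 222) (nat_lit 166))) (XT.nd (nat_lit 78) (nat_lit 0) (nat_lit 0) (XT.lf (nat_lit 0) (nat_lit 412920517904) (nat_lit 152) (nat_lit 1072963740566) (nat_lit 0) (nat_lit 402994548711) (nat_lit 1) (nat_lit 5)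 (nat_lit 3) (nat_lit 4) (nat_lit 1) (nat_lit 4) (nat_lit 273) (nat_lit 222) (nat_lit 165)) (XT.lf (nat_lit 0) (nat_lit 484569803400) (nat_lit 152) (nat_lit 1211306129074) (nat_lit 0) (nat_lit 474643384903) (nat_lit 1) (nat_lit 5) (nat_lit 3) (nat_lit 4) (nat_lit 1) (nat_lit 4) (nat_lit 274) (nat_lit 222) (nat_lit 164)))) (XT.nd (nat_lit 156) (nat_lit 0) (nat_lit 0) (XT.nd (nat_lit 78) (nat_lit 0) (nat_lit 0) (XT.lf (nat_lit 0) (nat_lit 566965534790) (nat_lit 152) (nat_lit 1370401786704) (nat_lit 0) (nat_lit 557038725594) (nat_lit 1) (nat_lit 5) (nat_lit 3) (nat_lit 4) (nat_lit 1) (nat_lit 4) (nat_lit 275) (nat_lit 222) (nat_lit 163)) (XT.lf (nat_lit 0) (nat_lit 661719802472) (nat_lit 152) (nat_lit 1553363454585) (nat_lit 0) (nat_lit 651792653538) (nat_lit 1) (nat_lit 5) (nat_lit 3) (nat_lit 4) (nat_lit 1) (nat_lit 4) (nat_lit 276) (nat_lit 222) (nat_lit 162))) (XT.nd (nat_lit 78) (nat_lit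 0) (nat_lit 0) (XT.lf (nat_lit 0) (nat_lit 770686494291) (nat_lit 152) (nat_lit 1763770817521) (nat_lit 0) (nat_lit 760759049933) (nat_lit 1) (nat_lit 5) (nat_lit 3) (nat_lit 4) (nat_lit 1) (nat_lit 4) (nat_lit 277) (nat_lit 222) (nat_lit 161)) (XT.nd (nat_lit 78) (nat_lit 0) (nat_lit 0) (XT.lf (nat_lit 0) (nat_lit 895997567262) (nat_lit 152) (nat_lit 2005740541311) (nat_lit 0) (nat_lit 886069866013) (nat_lit 1) (nat_lit 5) (nat_lit 3) (nat_lit 4) (nat_lit 1) (nat_lit 4) (nat_lit 278) (nat_lit 222) (nat_lit 160)) (XT.lf (nat_lit 0) (nat_lit 1040104759769) (nat_lit 152) (nat_lit 2284006816202) (nat_lit 0) (nat_lit 1030176835136) (nat_lit 1) (nat_lit 5) (nat_lit 3) (nat_lit 4) (nat_lit 1) (nat_lit 4) (nat_lit 279) (nat_lit 222) (nat_lit 159)))))) (XT.nd (nat_lit 312) (nat_lit 0) (nat_lit 0) (XT.nd (nat_lit 156) (nat_lit 0) (nat_lit 0) (XT.nd (nat_lit 78) (nat_lit 0) (nat_lit 0) (XT.lf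 (nat_lit 0) (nat_lit 1205827560360) (nat_lit 152) (nat_lit 2604013982354) (nat_lit 0) (nat_lit 1195899441480) (nat_lit 1) (nat_lit 5) (nat_lit 3) (nat_lit 4) (nat_lit 1) (nat_lit 4) (nat_lit 280) (nat_lit 222) (nat_lit 158)) (XT.lf (nat_lit 0) (nat_lit 1396408371656) (nat_lit 152) (nat_lit 2972023049541) (nat_lit 0) (nat_lit 1386480083867) (nat_lit 1) (nat_lit 5) (nat_lit 3) (nat_lit 4) (nat_lit 1) (nat_lit 4) (nat_lit 281) (nat_lit 222) (nat_lit 157))) (XT.nd (nat_lit 78) (nat_lit 0) (nat_lit 0) (XT.lf (nat_lit 0) (nat_lit 1615575948661) (nat_lit 152) (nat_lit 3395234195164) (nat_lit 0) (nat_lit 1605647513993) (nat_lit 1) (nat_lit 5) (nat_lit 3) (nat_lit 4) (nat_lit 1) (nat_lit 4) (nat_lit 282) (nat_lit 222) (nat_lit 156)) (XT.lf (nat_lit 0) (nat_lit 1867618352663) (nat_lit 152) (nat_lit 3881927637289) (nat_lit 0) (nat_lit 1857689790276) (nat_lit 1) (nat_lit 5) (nat_lit 3) (nat_lit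 4) (nat_lit 1) (nat_lit 4) (nat_lit 283) (nat_lit 222) (nat_lit 155)))) (XT.nd (nat_lit 156) (nat_lit 0) (nat_lit 0) (XT.nd (nat_lit 78) (nat_lit 0) (nat_lit 0) (XT.lf (nat_lit 0) (nat_lit 2157466848090) (nat_lit 152) (nat_lit 4441625638915) (nat_lit 0) (nat_lit 2147538174641) (nat_lit 1) (nat_lit 5) (nat_lit 3) (nat_lit 4) (nat_lit 1) (nat_lit 4) (nat_lit 284) (nat_lit 222) (nat_lit 154)) (XT.lf (nat_lit 0) (nat_lit 2490792383764) (nat_lit 152) (nat_lit 5085278813116) (nat_lit 0) (nat_lit 2480863613740) (nat_lit 1) (nat_lit 5) (nat_lit 3) (nat_lit 4) (nat_lit 1) (nat_lit 4) (nat_lit 285) (nat_lit 222) (nat_lit 153))) (XT.nd (nat_lit 78) (nat_lit 0) (nat_lit 0) (XT.lf (nat_lit 0) (nat_lit 2874116546253) (nat_lit 152) (nat_lit 5825480374172) (nat_lit 0) (nat_lit 2864187692251) (nat_lit 1) (nat_lit 5) (nat_lit 3) (nat_lit 4) (nat_lit 1) (nat_lit 4) (nat_lit 286) (nat_lit 222) (nat_lit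 152)) (XT.nd (nat_lit 78) (nat_lit 0) (nat_lit 0) (XT.lf (nat_lit 0) (nat_lit 3314939156127) (nat_lit 152) (nat_lit 6676712526536) (nat_lit 0) (nat_lit 3305010229101) (nat_lit 1) (nat_lit 5) (nat_lit 3) (nat_lit 4) (nat_lit 1) (nat_lit 4) (nat_lit 287) (nat_lit 222) (nat_lit 151)) (XT.lf (nat_lit 0) (nat_lit 3821885003581) (nat_lit 152) (nat_lit 7655629812321) (nat_lit 0) (nat_lit 3811956013055) (nat_lit 1) (nat_lit 5) (nat_lit 3) (nat_lit 4) (nat_lit 1) (nat_lit 4) (nat_lit 288) (nat_lit 222) (nat_lit 150))))))) (XT.nd (nat_lit 1170) (nat_lit 0) (nat_lit 0) (XT.nd (nat_lit 312) (nat_lit 0) (nat_lit 0) (XT.nd (nat_lit 156) (nat_lit 0) (nat_lit 0) (XT.nd (nat_lit 78) (nat_lit 0) (nat_lit 0) (XT.lf (nat_lit 0) (nat_lit 4404872594324) (nat_lit 152) (nat_lit 8781384961031) (nat_lit 0) (nat_lit 4394943548581) (nat_lit 1) (nat_lit 5) (nat_lit 3) (nat_lit 4) (nat_lit 1) (nat_lit 4) (nat_lit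 289) (nat_lit 222) (nat_lit 149)) (XT.lf (nat_lit 0) (nat_lit 5075308207306) (nat_lit 152) (nat_lit 10076003616880) (nat_lit 0) (nat_lit 5065379113548) (nat_lit 1) (nat_lit 5) (nat_lit 3) (nat_lit 4) (nat_lit 1) (nat_lit 4) (nat_lit 290) (nat_lit 222) (nat_lit 148))) (XT.nd (nat_lit 78) (nat_lit 0) (nat_lit 0) (XT.lf (nat_lit 0) (nat_lit 5846309061042) (nat_lit 152) (nat_lit 11564815275309) (nat_lit 0) (nat_lit 5836379925532) (nat_lit 1) (nat_lit 5) (nat_lit 3) (nat_lit 4) (nat_lit 1) (nat_lit 4) (nat_lit 291) (nat_lit 222) (nat_lit 147)) (XT.lf (nat_lit 0) (nat_lit 6732959954844) (nat_lit 152) (nat_lit 13276948860069) (nat_lit 0) (nat_lit 6723030783028) (nat_lit 1) (nat_lit 5) (nat_lit 3) (nat_lit 4) (nat_lit 1) (nat_lit 4) (nat_lit 292) (nat_lit 222) (nat_lit 146)))) (XT.nd (nat_lit 156) (nat_lit 0) (nat_lit 0) (XT.nd (nat_lit 78) (nat_lit 0) (nat_lit 0) (XT.lf (nat_lit 0) (nat_lit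 7752608406199) (nat_lit 152) (nat_lit 15245902636949) (nat_lit 0) (nat_lit 7742679202813) (nat_lit 1) (nat_lit 5) (nat_lit 3) (nat_lit 4) (nat_lit 1) (nat_lit 4) (nat_lit 293) (nat_lit 222) (nat_lit 145)) (XT.lf (nat_lit 0) (nat_lit 8925204058722) (nat_lit 152) (nat_lit 17510199614627) (nat_lit 0) (nat_lit 8915274827883) (nat_lit 1) (nat_lit 5) (nat_lit 3) (nat_lit 4) (nat_lit 1) (nat_lit 4) (nat_lit 294) (nat_lit 222) (nat_lit 144))) (XT.nd (nat_lit 78) (nat_lit 0) (nat_lit 0) (XT.lf (nat_lit 0) (nat_lit 10273689001265) (nat_lit 152) (nat_lit 20114141255711) (nat_lit 0) (nat_lit 10263759746555) (nat_lit 1) (nat_lit 5) (nat_lit 3) (nat_lit 4) (nat_lit 1) (nat_lit 4) (nat_lit 295) (nat_lit 222) (nat_lit 143)) (XT.nd (nat_lit 78) (nat_lit 0) (nat_lit 0) (XT.lf (nat_lit 0) (nat_lit 11824446634879) (nat_lit 152) (nat_lit 23108674244481) (nat_lit 0) (nat_lit 11814517359411) (nat_lit 1) (nat_lit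 5) (nat_lit 3) (nat_lit 4) (nat_lit 1) (nat_lit 4) (nat_lit 296) (nat_lit 222) (nat_lit 142)) (XT.lf (nat_lit 0) (nat_lit 13607817869786) (nat_lit 152) (nat_lit 26552387269849) (nat_lit 0) (nat_lit 13597888576267) (nat_lit 1) (nat_lit 5) (nat_lit 3) (nat_lit 4) (nat_lit 1) (nat_lit 4) (nat_lit 297) (nat_lit 222) (nat_lit 141)))))) (XT.nd (nat_lit 312) (nat_lit 0) (nat_lit 0) (XT.nd (nat_lit 156) (nat_lit 0) (nat_lit 0) (XT.nd (nat_lit 78) (nat_lit 0) (nat_lit 0) (XT.lf (nat_lit 0) (nat_lit 36304459773262) (nat_lit 152) (nat_lit 70379902264520) (nat_lit 0) (nat_lit 36294530404645) (nat_lit 1) (nat_lit 5) (nat_lit 3) (nat_lit 4) (nat_lit 1) (nat_lit 4) (nat_lit 304) (nat_lit 222) (nat_lit 134)) (XT.lf (nat_lit 0) (nat_lit 41759832782612) (nat_lit 152) (nat_lit 80914299889045) (nat_lit 0) (nat_lit 41749903408095) (nat_lit 1) (nat_lit 5) (nat_lit 3) (nat_lit 4) (nat_lit 1) (nat_lit 4) (nat_lit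 305) (nat_lit 222) (nat_lit 133))) (XT.nd (nat_lit 78) (nat_lit 0) (nat_lit 0) (XT.lf (nat_lit 0) (nat_lit 48033511730929) (nat_lit 152) (nat_lit 93028857182344) (nat_lit 0) (nat_lit 48023582351280) (nat_lit 1) (nat_lit 5) (nat_lit 3) (nat_lit 4) (nat_lit 1) (nat_lit 4) (nat_lit 306) (nat_lit 222) (nat_lit 132)) (XT.lf (nat_lit 0) (nat_lit 55248242510679) (nat_lit 152) (nat_lit 106960598091460) (nat_lit 0) (nat_lit 55238313126569) (nat_lit 1) (nat_lit 5) (nat_lit 3) (nat_lit 4) (nat_lit 1) (nat_lit 4) (nat_lit 307) (nat_lit 222) (nat_lit 131)))) (XT.nd (nat_lit 27846) (nat_lit 0) (nat_lit 1748) (XT.nd (nat_lit 27768) (nat_lit 0) (nat_lit 1976) (XT.lf (nat_lit 0) (nat_lit 63545182897988) (nat_lit 152) (nat_lit 122982100155918) (nat_lit 0) (nat_lit 63535253509998) (nat_lit 1) (nat_lit 5) (nat_lit 3) (nat_lit 4) (nat_lit 1) (nat_lit 4) (nat_lit 308) (nat_lit 222) (nat_lit 130)) (XT.lf (nat_lit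 0) (nat_lit 3548438924) (nat_lit 228) (nat_lit 54110213) (nat_lit 228) (nat_lit 54110213) (nat_lit 27) (nat_lit 3) (nat_lit 30) (nat_lit 3) (nat_lit 30) (nat_lit 5) (nat_lit 223) (nat_lit 223) (nat_lit 214))) (XT.nd (nat_lit 78) (nat_lit 0) (nat_lit 0) (XT.lf (nat_lit 0) (nat_lit 1323455641) (nat_lit 228) (nat_lit 4112400982) (nat_lit 304) (nat_lit 2186998564) (nat_lit 24) (nat_lit 5) (nat_lit 27) (nat_lit 3) (nat_lit 28) (nat_lit 5) (nat_lit 224) (nat_lit 223) (nat_lit 213)) (XT.nd (nat_lit 78) (nat_lit 0) (nat_lit 0) (XT.lf (nat_lit 0) (nat_lit 2825943077) (nat_lit 228) (nat_lit 478955261) (nat_lit 304) (nat_lit 4711110426) (nat_lit 24) (nat_lit 5) (nat_lit 27) (nat_lit 3) (nat_lit 28) (nat_lit 5) (nat_lit 225) (nat_lit 223) (nat_lit 212)) (XT.lf (nat_lit 76) (nat_lit 3894483702) (nat_lit 0) (nat_lit 601312216) (nat_lit 304) (nat_lit 3982603664) (nat_lit 25) (nat_lit 5) (nat_lit 24)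 (nat_lit 5) (nat_lit 28) (nat_lit 5) (nat_lit 226) (nat_lit 223) (nat_lit 211))))))))
noncomputable def xc56 : XT := (XT.nd (nat_lit 1326) (nat_lit 456) (nat_lit 0) (XT.nd (nat_lit 624) (nat_lit 532) (nat_lit 0) (XT.nd (nat_lit 312) (nat_lit 228) (nat_lit 0) (XT.nd (nat_lit 156) (nat_lit 380) (nat_lit 0) (XT.nd (nat_lit 78) (nat_lit 228) (nat_lit 0) (XT.lf (nat_lit 0) (nat_lit 6351677293) (nat_lit 228) (nat_lit 311507968) (nat_lit 76) (nat_lit 2357990345) (nat_lit 25) (nat_lit 5) (nat_lit 28) (nat_lit 5) (nat_lit 26) (nat_lit 5) (nat_lit 227) (nat_lit 223) (nat_lit 210)) (XT.lf (nat_lit 0) (nat_lit 4850284763) (nat_lit 228) (nat_lit 3695981248) (nat_lit 304) (nat_lit 1091235142) (nat_lit 22) (nat_lit 5) (nat_lit 25) (nat_lit 5) (nat_lit 26) (nat_lit 5) (nat_lit 228) (nat_lit 223) (nat_lit 209))) (XT.nd (nat_lit 78) (nat_lit 0) (nat_lit 0) (XT.lf (nat_lit 0) (nat_lit 310095780) (nat_lit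 304) (nat_lit 217706280) (nat_lit 380) (nat_lit 9834601297) (nat_lit 17) (nat_lit 5) (nat_lit 21) (nat_lit 5) (nat_lit 22) (nat_lit 5) (nat_lit 229) (nat_lit 223) (nat_lit 208)) (XT.lf (nat_lit 0) (nat_lit 2549468082) (nat_lit 380) (nat_lit 4848195389) (nat_lit 76) (nat_lit 3750635756) (nat_lit 17) (nat_lit 5) (nat_lit 22) (nat_lit 5) (nat_lit 18) (nat_lit 5) (nat_lit 230) (nat_lit 223) (nat_lit 207)))) (XT.nd (nat_lit 156) (nat_lit 76) (nat_lit 0) (XT.nd (nat_lit 78) (nat_lit 0) (nat_lit 0) (XT.lf (nat_lit 0) (nat_lit 1065153995) (nat_lit 152) (nat_lit 3735633563) (nat_lit 228) (nat_lit 7263007138) (nat_lit 15) (nat_lit 5) (nat_lit 17) (nat_lit 5) (nat_lit 18) (nat_lit 5) (nat_lit 231) (nat_lit 223) (nat_lit 206)) (XT.lf (nat_lit 0) (nat_lit 7556181687) (nat_lit 228) (nat_lit 4865668540) (nat_lit 76) (nat_lit 670395355) (nat_lit 15) (nat_lit 5) (nat_lit 18) (nat_lit 5) (nat_lit 16)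 (nat_lit 4) (nat_lit 232) (nat_lit 223) (nat_lit 205))) (XT.nd (nat_lit 78) (nat_lit 0) (nat_lit 0) (XT.lf (nat_lit 0) (nat_lit 2047583117) (nat_lit 76) (nat_lit 8836655667) (nat_lit 152) (nat_lit 3367333204) (nat_lit 14) (nat_lit 5) (nat_lit 15) (nat_lit 5) (nat_lit 16) (nat_lit 4) (nat_lit 233) (nat_lit 223) (nat_lit 204)) (XT.lf (nat_lit 0) (nat_lit 10407136885) (nat_lit 76) (nat_lit 4463171842) (nat_lit 152) (nat_lit 691112301) (nat_lit 14) (nat_lit 5) (nat_lit 15) (nat_lit 5) (nat_lit 16) (nat_lit 4) (nat_lit 234) (nat_lit 223) (nat_lit 203))))) (XT.nd (nat_lit 312) (nat_lit 228) (nat_lit 0) (XT.nd (nat_lit 156) (nat_lit 76) (nat_lit 0) (XT.nd (nat_lit 78) (nat_lit 0) (nat_lit 0) (XT.lf (nat_lit 0) (nat_lit 2242937211) (nat_lit 228) (nat_lit 14088178396) (nat_lit 76) (nat_lit 711815256) (nat_lit 11) (nat_lit 5) (nat_lit 14) (nat_lit 5) (nat_lit 12) (nat_lit 4) (nat_lit 235) (nat_lit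 223) (nat_lit 202)) (XT.lf (nat_lit 0) (nat_lit 5958343528) (nat_lit 228) (nat_lit 6238459751) (nat_lit 76) (nat_lit 6483418604) (nat_lit 11) (nat_lit 5) (nat_lit 14) (nat_lit 5) (nat_lit 12) (nat_lit 4) (nat_lit 236) (nat_lit 223) (nat_lit 201))) (XT.nd (nat_lit 78) (nat_lit 0) (nat_lit 0) (XT.lf (nat_lit 0) (nat_lit 2933961114) (nat_lit 76) (nat_lit 7346602408) (nat_lit 152) (nat_lit 10275371666) (nat_lit 10) (nat_lit 5) (nat_lit 11) (nat_lit 5) (nat_lit 12) (nat_lit 4) (nat_lit 237) (nat_lit 223) (nat_lit 200)) (XT.lf (nat_lit 0) (nat_lit 14072676611) (nat_lit 76) (nat_lit 1437361104) (nat_lit 152) (nat_lit 7164350496) (nat_lit 10) (nat_lit 5) (nat_lit 11) (nat_lit 5) (nat_lit 12) (nat_lit 4) (nat_lit 238) (nat_lit 223) (nat_lit 199)))) (XT.nd (nat_lit 156) (nat_lit 76) (nat_lit 0) (XT.nd (nat_lit 78) (nat_lit 76) (nat_lit 0) (XT.lf (nat_lit 0) (nat_lit 1587400033) (nat_lit 76) (nat_lit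 20164154234) (nat_lit 76) (nat_lit 3325103825) (nat_lit 9) (nat_lit 4) (nat_lit 10) (nat_lit 5) (nat_lit 10) (nat_lit 4) (nat_lit 239) (nat_lit 223) (nat_lit 198)) (XT.lf (nat_lit 0) (nat_lit 1473392358) (nat_lit 152) (nat_lit 13740068552) (nat_lit 76) (nat_lit 12547121746) (nat_lit 8) (nat_lit 5) (nat_lit 10) (nat_lit 5) (nat_lit 9) (nat_lit 4) (nat_lit 240) (nat_lit 223) (nat_lit 197))) (XT.nd (nat_lit 78) (nat_lit 76) (nat_lit 0) (XT.lf (nat_lit 0) (nat_lit 6599855352) (nat_lit 152) (nat_lit 2778009390) (nat_lit 76) (nat_lit 21453313773) (nat_lit 8) (nat_lit 5) (nat_lit 10) (nat_lit 5) (nat_lit 9) (nat_lit 4) (nat_lit 241) (nat_lit 223) (nat_lit 196)) (XT.nd (nat_lit 78) (nat_lit 0) (nat_lit 0) (XT.lf (nat_lit 0) (nat_lit 10701830949) (nat_lit 76) (nat_lit 2191918301) (nat_lit 152) (nat_lit 21408955111) (nat_lit 7) (nat_lit 5) (nat_lit 8) (nat_lit 5) (nat_lit 9) (nat_lit 4) (nat_lit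 242) (nat_lit 223) (nat_lit 195)) (XT.lf (nat_lit 0) (nat_lit 20491902075) (nat_lit 152) (nat_lit 12096332699) (nat_lit 0) (nat_lit 5652793588) (nat_lit 7) (nat_lit 5) (nat_lit 9) (nat_lit 4) (nat_lit 7) (nat_lit 4) (nat_lit 243) (nat_lit 223) (nat_lit 194))))))) (XT.nd (nat_lit 702) (nat_lit 152) (nat_lit 0) (XT.nd (nat_lit 312) (nat_lit 152) (nat_lit 0) (XT.nd (nat_lit 156) (nat_lit 76) (nat_lit 0) (XT.nd (nat_lit 78) (nat_lit 0) (nat_lit 0) (XT.lf (nat_lit 0) (nat_lit 1053117204) (nat_lit 76) (nat_lit 28286923706) (nat_lit 76) (nat_lit 13413603635) (nat_lit 6) (nat_lit 4) (nat_lit 7) (nat_lit 5) (nat_lit 7) (nat_lit 4) (nat_lit 244) (nat_lit 223) (nat_lit 193)) (XT.lf (nat_lit 0) (nat_lit 17467485472) (nat_lit 76) (nat_lit 22644649505) (nat_lit 76) (nat_lit 7741580230) (nat_lit 6) (nat_lit 4) (nat_lit 7) (nat_lit 5) (nat_lit 7) (nat_lit 4) (nat_lit 245) (nat_lit 223) (nat_lit 192)))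 (XT.nd (nat_lit 78) (nat_lit 76) (nat_lit 0) (XT.lf (nat_lit 0) (nat_lit 36285781184) (nat_lit 76) (nat_lit 16183328150) (nat_lit 76) (nat_lit 1254390003) (nat_lit 6) (nat_lit 4) (nat_lit 7) (nat_lit 5) (nat_lit 7) (nat_lit 4) (nat_lit 246) (nat_lit 223) (nat_lit 191)) (XT.lf (nat_lit 0) (nat_lit 5625158895) (nat_lit 152) (nat_lit 2857341193) (nat_lit 76) (nat_lit 51956987093) (nat_lit 5) (nat_lit 5) (nat_lit 7) (nat_lit 5) (nat_lit 6) (nat_lit 4) (nat_lit 247) (nat_lit 223) (nat_lit 190)))) (XT.nd (nat_lit 156) (nat_lit 76) (nat_lit 0) (XT.nd (nat_lit 78) (nat_lit 0) (nat_lit 0) (XT.lf (nat_lit 0) (nat_lit 14058395680) (nat_lit 152) (nat_lit 52957891155) (nat_lit 0) (nat_lit 1040140547) (nat_lit 4) (nat_lit 5) (nat_lit 6) (nat_lit 4) (nat_lit 4) (nat_lit 4) (nat_lit 248) (nat_lit 223) (nat_lit 189)) (XT.lf (nat_lit 0) (nat_lit 24292960863) (nat_lit 152) (nat_lit 41182617103) (nat_lit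 0) (nat_lit 11259915118) (nat_lit 4) (nat_lit 5) (nat_lit 6) (nat_lit 4) (nat_lit 4) (nat_lit 4) (nat_lit 249) (nat_lit 223) (nat_lit 188))) (XT.nd (nat_lit 78) (nat_lit 76) (nat_lit 0) (XT.lf (nat_lit 0) (nat_lit 36041789831) (nat_lit 152) (nat_lit 27681915496) (nat_lit 0) (nat_lit 22995882684) (nat_lit 4) (nat_lit 5) (nat_lit 6) (nat_lit 4) (nat_lit 4) (nat_lit 4) (nat_lit 250) (nat_lit 223) (nat_lit 187)) (XT.nd (nat_lit 78) (nat_lit 76) (nat_lit 0) (XT.lf (nat_lit 0) (nat_lit 49534750976) (nat_lit 152) (nat_lit 12191642171) (nat_lit 0) (nat_lit 36477660002) (nat_lit 4) (nat_lit 5) (nat_lit 6) (nat_lit 4) (nat_lit 4) (nat_lit 4) (nat_lit 251) (nat_lit 223) (nat_lit 186)) (XT.lf (nat_lit 0) (nat_lit 6137693338) (nat_lit 76) (nat_lit 59152292471) (nat_lit 76) (nat_lit 46085476429) (nat_lit 3) (nat_lit 4) (nat_lit 4) (nat_lit 5) (nat_lit 4) (nat_lit 4) (nat_lit 252) (nat_lit 223) (nat_lit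 185)))))) (XT.nd (nat_lit 312) (nat_lit 152) (nat_lit 0) (XT.nd (nat_lit 156) (nat_lit 0) (nat_lit 0) (XT.nd (nat_lit 78) (nat_lit 0) (nat_lit 0) (XT.lf (nat_lit 0) (nat_lit 28557109277) (nat_lit 76) (nat_lit 55473709791) (nat_lit 76) (nat_lit 42398437170) (nat_lit 3) (nat_lit 4) (nat_lit 4) (nat_lit 5) (nat_lit 4) (nat_lit 4) (nat_lit 253) (nat_lit 223) (nat_lit 184)) (XT.lf (nat_lit 0) (nat_lit 54313790450) (nat_lit 76) (nat_lit 51255963227) (nat_lit 76) (nat_lit 38173337057) (nat_lit 3) (nat_lit 4) (nat_lit 4) (nat_lit 5) (nat_lit 4) (nat_lit 4) (nat_lit 254) (nat_lit 223) (nat_lit 183))) (XT.nd (nat_lit 78) (nat_lit 0) (nat_lit 0) (XT.lf (nat_lit 0) (nat_lit 83911671924) (nat_lit 76) (nat_lit 46416531648) (nat_lit 76) (nat_lit 33327511088) (nat_lit 3) (nat_lit 4) (nat_lit 4) (nat_lit 5) (nat_lit 4) (nat_lit 4) (nat_lit 255) (nat_lit 223) (nat_lit 182)) (XT.lf (nat_lit 0) (nat_lit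 117929842685) (nat_lit 76) (nat_lit 40860730524) (nat_lit 76) (nat_lit 27766149625) (nat_lit 3) (nat_lit 4) (nat_lit 4) (nat_lit 5) (nat_lit 4) (nat_lit 4) (nat_lit 256) (nat_lit 223) (nat_lit 181)))) (XT.nd (nat_lit 156) (nat_lit 152) (nat_lit 0) (XT.nd (nat_lit 78) (nat_lit 0) (nat_lit 0) (XT.lf (nat_lit 0) (nat_lit 157033875639) (nat_lit 76) (nat_lit 34479859399) (nat_lit 76) (nat_lit 21380443423) (nat_lit 3) (nat_lit 4) (nat_lit 4) (nat_lit 5) (nat_lit 4) (nat_lit 4) (nat_lit 257) (nat_lit 223) (nat_lit 180)) (XT.lf (nat_lit 0) (nat_lit 201988849692) (nat_lit 76) (nat_lit 27149075141) (nat_lit 76) (nat_lit 14045454750) (nat_lit 3) (nat_lit 4) (nat_lit 4) (nat_lit 5) (nat_lit 4) (nat_lit 4) (nat_lit 258) (nat_lit 223) (nat_lit 179))) (XT.nd (nat_lit 78) (nat_lit 152) (nat_lit 0) (XT.lf (nat_lit 0) (nat_lit 253674318683) (nat_lit 76) (nat_lit 18724949363) (nat_lit 76) (nat_lit 5617672959)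 (nat_lit 3) (nat_lit 4) (nat_lit 4) (nat_lit 5) (nat_lit 4) (nat_lit 4) (nat_lit 259) (nat_lit 223) (nat_lit 178)) (XT.nd (nat_lit 78) (nat_lit 76) (nat_lit 0) (XT.lf (nat_lit 0) (nat_lit 3705650240) (nat_lit 152) (nat_lit 5143307529) (nat_lit 76) (nat_lit 309202165365) (nat_lit 2) (nat_lit 5) (nat_lit 4) (nat_lit 5) (nat_lit 3) (nat_lit 4) (nat_lit 260) (nat_lit 223) (nat_lit 177)) (XT.lf (nat_lit 0) (nat_lit 14756843441) (nat_lit 152) (nat_lit 345803748177) (nat_lit 0) (nat_lit 3354043427) (nat_lit 1) (nat_lit 5) (nat_lit 3) (nat_lit 4) (nat_lit 1) (nat_lit 4) (nat_lit 261) (nat_lit 223) (nat_lit 176))))))))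
noncomputable def xc57 : XT := (XT.nd (nat_lit 1404) (nat_lit 0) (nat_lit 0) (XT.nd (nat_lit 702) (nat_lit 0) (nat_lit 0) (XT.nd (nat_lit 312) (nat_lit 0) (nat_lit 0) (XT.nd (nat_lit 156) (nat_lit 0) (nat_lit 0) (XT.nd (nat_lit 78) (nat_lit 0) (nat_lit 0) (XT.lf (nat_lit 0) (nat_lit 28163685573) (nat_lit 152) (nat_lit 371630502533) (nat_lit 0) (nat_lit 16758795221) (nat_lit 1) (nat_lit 5) (nat_lit 3) (nat_lit 4) (nat_lit 1) (nat_lit 4) (nat_lit 262) (nat_lit 223) (nat_lit 175)) (XT.lf (nat_lit 0) (nat_lit 43577148538) (nat_lit 152) (nat_lit 401340160047) (nat_lit 0) (nat_lit 32170440501) (nat_lit 1) (nat_lit 5) (nat_lit 3) (nat_lit 4) (nat_lit 1) (nat_lit 4) (nat_lit 263) (nat_lit 223) (nat_lit 174))) (XT.nd (nat_lit 78) (nat_lit 0) (nat_lit 0) (XT.lf (nat_lit 0) (nat_lit 61298800089) (nat_lit 152) (nat_lit 435513996626) (nat_lit 0) (nat_lit 49890511458) (nat_lit 1) (nat_lit 5) (nat_lit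 3) (nat_lit 4) (nat_lit 1) (nat_lit 4) (nat_lit 264) (nat_lit 223) (nat_lit 173)) (XT.lf (nat_lit 0) (nat_lit 81675368193) (nat_lit 152) (nat_lit 474820630813) (nat_lit 0) (nat_lit 70265705131) (nat_lit 1) (nat_lit 5) (nat_lit 3) (nat_lit 4) (nat_lit 1) (nat_lit 4) (nat_lit 265) (nat_lit 223) (nat_lit 172)))) (XT.nd (nat_lit 156) (nat_lit 0) (nat_lit 0) (XT.nd (nat_lit 78) (nat_lit 0) (nat_lit 0) (XT.lf (nat_lit 0) (nat_lit 105105524834) (nat_lit 152) (nat_lit 520029105450) (nat_lit 0) (nat_lit 93694666615) (nat_lit 1) (nat_lit 5) (nat_lit 3) (nat_lit 4) (nat_lit 1) (nat_lit 4) (nat_lit 266) (nat_lit 223) (nat_lit 171)) (XT.lf (nat_lit 0) (nat_lit 132047686120) (nat_lit 152) (nat_lit 572023934172) (nat_lit 0) (nat_lit 120635788633) (nat_lit 1) (nat_lit 5) (nat_lit 3) (nat_lit 4) (nat_lit 1) (nat_lit 4) (nat_lit 267) (nat_lit 223) (nat_lit 170))) (XT.nd (nat_lit 78) (nat_lit 0) (nat_lit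 0) (XT.lf (nat_lit 0) (nat_lit 163028981294) (nat_lit 152) (nat_lit 631822407105) (nat_lit 0) (nat_lit 151616180096) (nat_lit 1) (nat_lit 5) (nat_lit 3) (nat_lit 4) (nat_lit 1) (nat_lit 4) (nat_lit 268) (nat_lit 223) (nat_lit 169)) (XT.nd (nat_lit 78) (nat_lit 0) (nat_lit 0) (XT.lf (nat_lit 0) (nat_lit 198655566130) (nat_lit 152) (nat_lit 700594494373) (nat_lit 0) (nat_lit 187241979097) (nat_lit 1) (nat_lit 5) (nat_lit 3) (nat_lit 4) (nat_lit 1) (nat_lit 4) (nat_lit 269) (nat_lit 223) (nat_lit 168)) (XT.lf (nat_lit 0) (nat_lit 239624482506) (nat_lit 152) (nat_lit 779685736813) (nat_lit 0) (nat_lit 228210212138) (nat_lit 1) (nat_lit 5) (nat_lit 3) (nat_lit 4) (nat_lit 1) (nat_lit 4) (nat_lit 270) (nat_lit 223) (nat_lit 167)))))) (XT.nd (nat_lit 312) (nat_lit 0) (nat_lit 0) (XT.nd (nat_lit 156) (nat_lit 0) (nat_lit 0) (XT.nd (nat_lit 78) (nat_lit 0) (nat_lit 0) (XT.lf (nat_lit 0) (nat_lit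 286737296177) (nat_lit 152) (nat_lit 870643571777) (nat_lit 0) (nat_lit 275322431605) (nat_lit 1) (nat_lit 5) (nat_lit 3) (nat_lit 4) (nat_lit 1) (nat_lit 4) (nat_lit 271) (nat_lit 223) (nat_lit 166)) (XT.lf (nat_lit 0) (nat_lit 340915779585) (nat_lit 152) (nat_lit 975247609080) (nat_lit 0) (nat_lit 329500398313) (nat_lit 1) (nat_lit 5) (nat_lit 3) (nat_lit 4) (nat_lit 1) (nat_lit 4) (nat_lit 272) (nat_lit 223) (nat_lit 165))) (XT.nd (nat_lit 78) (nat_lit 0) (nat_lit 0) (XT.lf (nat_lit 0) (nat_lit 403219946535) (nat_lit 152) (nat_lit 1095544449452) (nat_lit 0) (nat_lit 391804115959) (nat_lit 1) (nat_lit 5) (nat_lit 3) (nat_lit 4) (nat_lit 1) (nat_lit 4) (nat_lit 273) (nat_lit 223) (nat_lit 164)) (XT.lf (nat_lit 0) (nat_lit 474868791598) (nat_lit 152) (nat_lit 1233887726725) (nat_lit 0) (nat_lit 463452570324) (nat_lit 1) (nat_lit 5) (nat_lit 3) (nat_lit 4) (nat_lit 1) (nat_lit 4) (nat_lit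 274) (nat_lit 223) (nat_lit 163)))) (XT.nd (nat_lit 156) (nat_lit 0) (nat_lit 0) (XT.nd (nat_lit 78) (nat_lit 0) (nat_lit 0) (XT.lf (nat_lit 0) (nat_lit 557264140003) (nat_lit 152) (nat_lit 1392984157195) (nat_lit 0) (nat_lit 545847578991) (nat_lit 1) (nat_lit 5) (nat_lit 3) (nat_lit 4) (nat_lit 1) (nat_lit 4) (nat_lit 275) (nat_lit 223) (nat_lit 162)) (XT.lf (nat_lit 0) (nat_lit 652018074655) (nat_lit 152) (nat_lit 1575946497110) (nat_lit 0) (nat_lit 640601218218) (nat_lit 1) (nat_lit 5) (nat_lit 3) (nat_lit 4) (nat_lit 1) (nat_lit 4) (nat_lit 276) (nat_lit 223) (nat_lit 161))) (XT.nd (nat_lit 78) (nat_lit 0) (nat_lit 0) (XT.lf (nat_lit 0) (nat_lit 760984476883) (nat_lit 152) (nat_lit 1786354444425) (nat_lit 0) (nat_lit 749567363555) (nat_lit 1) (nat_lit 5) (nat_lit 3) (nat_lit 4) (nat_lit 1) (nat_lit 4) (nat_lit 277) (nat_lit 223) (nat_lit 160)) (XT.nd (nat_lit 78) (nat_lit 0) (nat_lit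 0) (XT.lf (nat_lit 0) (nat_lit 886295298035) (nat_lit 152) (nat_lit 2028324676369) (nat_lit 0) (nat_lit 874877961324) (nat_lit 1) (nat_lit 5) (nat_lit 3) (nat_lit 4) (nat_lit 1) (nat_lit 4) (nat_lit 278) (nat_lit 223) (nat_lit 159)) (XT.lf (nat_lit 0) (nat_lit 1030402271569) (nat_lit 152) (nat_lit 2306591393133) (nat_lit 0) (nat_lit 1018984740611) (nat_lit 1) (nat_lit 5) (nat_lit 3) (nat_lit 4) (nat_lit 1) (nat_lit 4) (nat_lit 279) (nat_lit 223) (nat_lit 158))))))) (XT.nd (nat_lit 702) (nat_lit 0) (nat_lit 0) (XT.nd (nat_lit 312) (nat_lit 0) (nat_lit 0) (XT.nd (nat_lit 156) (nat_lit 0) (nat_lit 0) (XT.nd (nat_lit 78) (nat_lit 0) (nat_lit 0) (XT.lf (nat_lit 0) (nat_lit 1196124881749) (nat_lit 152) (nat_lit 2626598943524) (nat_lit 0) (nat_lit 1184707181882) (nat_lit 1) (nat_lit 5) (nat_lit 3) (nat_lit 4) (nat_lit 1) (nat_lit 4) (nat_lit 280) (nat_lit 223) (nat_lit 157)) (XT.lf (nat_lit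 0) (nat_lit 1386705527471) (nat_lit 152) (nat_lit 2994608344831) (nat_lit 0) (nat_lit 1375287680725) (nat_lit 1) (nat_lit 5) (nat_lit 3) (nat_lit 4) (nat_lit 1) (nat_lit 4) (nat_lit 281) (nat_lit 223) (nat_lit 156))) (XT.nd (nat_lit 78) (nat_lit 0) (nat_lit 0) (XT.lf (nat_lit 0) (nat_lit 1605872960497) (nat_lit 152) (nat_lit 3417819780992) (nat_lit 0) (nat_lit 1594454986031) (nat_lit 1) (nat_lit 5) (nat_lit 3) (nat_lit 4) (nat_lit 1) (nat_lit 4) (nat_lit 282) (nat_lit 223) (nat_lit 155)) (XT.lf (nat_lit 0) (nat_lit 1857915239302) (nat_lit 152) (nat_lit 3904513475760) (nat_lit 0) (nat_lit 1846497153775) (nat_lit 1) (nat_lit 5) (nat_lit 3) (nat_lit 4) (nat_lit 1) (nat_lit 4) (nat_lit 283) (nat_lit 223) (nat_lit 154)))) (XT.nd (nat_lit 156) (nat_lit 0) (nat_lit 0) (XT.nd (nat_lit 78) (nat_lit 0) (nat_lit 0) (XT.lf (nat_lit 0) (nat_lit 2147763625860) (nat_lit 152) (nat_lit 4464211697075)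 (nat_lit 0) (nat_lit 2136345443758) (nat_lit 1) (nat_lit 5) (nat_lit 3) (nat_lit 4) (nat_lit 1) (nat_lit 4) (nat_lit 284) (nat_lit 223) (nat_lit 153)) (XT.lf (nat_lit 0) (nat_lit 2481089066866) (nat_lit 152) (nat_lit 5107865062311) (nat_lit 0) (nat_lit 2469670800786) (nat_lit 1) (nat_lit 5) (nat_lit 3) (nat_lit 4) (nat_lit 1) (nat_lit 4) (nat_lit 285) (nat_lit 223) (nat_lit 152))) (XT.nd (nat_lit 78) (nat_lit 0) (nat_lit 0) (XT.lf (nat_lit 0) (nat_lit 2864413147035) (nat_lit 152) (nat_lit 5848066789483) (nat_lit 0) (nat_lit 2852994807931) (nat_lit 1) (nat_lit 5) (nat_lit 3) (nat_lit 4) (nat_lit 1) (nat_lit 4) (nat_lit 286) (nat_lit 223) (nat_lit 151)) (XT.nd (nat_lit 78) (nat_lit 0) (nat_lit 0) (XT.lf (nat_lit 0) (nat_lit 3305235685327) (nat_lit 152) (nat_lit 6699299086297) (nat_lit 0) (nat_lit 3293817282723) (nat_lit 1) (nat_lit 5) (nat_lit 3) (nat_lit 4) (nat_lit 1) (nat_lit 4) (nat_lit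 287) (nat_lit 223) (nat_lit 150)) (XT.lf (nat_lit 0) (nat_lit 3812181470535) (nat_lit 152) (nat_lit 7678216497690) (nat_lit 0) (nat_lit 3800763012714) (nat_lit 1) (nat_lit 5) (nat_lit 3) (nat_lit 4) (nat_lit 1) (nat_lit 4) (nat_lit 288) (nat_lit 223) (nat_lit 149)))))) (XT.nd (nat_lit 312) (nat_lit 0) (nat_lit 0) (XT.nd (nat_lit 156) (nat_lit 0) (nat_lit 0) (XT.nd (nat_lit 78) (nat_lit 0) (nat_lit 0) (XT.lf (nat_lit 0) (nat_lit 4395169007151) (nat_lit 152) (nat_lit 8803971755625) (nat_lit 0) (nat_lit 4383750501315) (nat_lit 1) (nat_lit 5) (nat_lit 3) (nat_lit 4) (nat_lit 1) (nat_lit 4) (nat_lit 289) (nat_lit 223) (nat_lit 148)) (XT.lf (nat_lit 0) (nat_lit 5065604573066) (nat_lit 152) (nat_lit 10098590506451) (nat_lit 0) (nat_lit 5054186025479) (nat_lit 1) (nat_lit 5) (nat_lit 3) (nat_lit 4) (nat_lit 1) (nat_lit 4) (nat_lit 290) (nat_lit 223) (nat_lit 147))) (XT.nd (nat_lit 78) (nat_lit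 0) (nat_lit 0) (XT.lf (nat_lit 0) (nat_lit 5836605385875) (nat_lit 152) (nat_lit 11587402247469) (nat_lit 0) (nat_lit 5825186801981) (nat_lit 1) (nat_lit 5) (nat_lit 3) (nat_lit 4) (nat_lit 1) (nat_lit 4) (nat_lit 291) (nat_lit 223) (nat_lit 146)) (XT.lf (nat_lit 0) (nat_lit 6723256244087) (nat_lit 152) (nat_lit 13299535904046) (nat_lit 0) (nat_lit 6711837628623) (nat_lit 1) (nat_lit 5) (nat_lit 3) (nat_lit 4) (nat_lit 1) (nat_lit 4) (nat_lit 292) (nat_lit 223) (nat_lit 145)))) (XT.nd (nat_lit 156) (nat_lit 0) (nat_lit 0) (XT.nd (nat_lit 78) (nat_lit 0) (nat_lit 0) (XT.lf (nat_lit 0) (nat_lit 7742904664496) (nat_lit 152) (nat_lit 15268489743376) (nat_lit 0) (nat_lit 7731486021579) (nat_lit 1) (nat_lit 5) (nat_lit 3) (nat_lit 4) (nat_lit 1) (nat_lit 4) (nat_lit 293) (nat_lit 223) (nat_lit 144)) (XT.lf (nat_lit 0) (nat_lit 8915500290108) (nat_lit 152) (nat_lit 17532786775358) (nat_lit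 0) (nat_lit 8904081623319) (nat_lit 1) (nat_lit 5) (nat_lit 3) (nat_lit 4) (nat_lit 1) (nat_lit 4) (nat_lit 294) (nat_lit 223) (nat_lit 143))) (XT.nd (nat_lit 78) (nat_lit 0) (nat_lit 0) (XT.lf (nat_lit 0) (nat_lit 10263985209251) (nat_lit 152) (nat_lit 20136728463662) (nat_lit 0) (nat_lit 10252566521704) (nat_lit 1) (nat_lit 5) (nat_lit 3) (nat_lit 4) (nat_lit 1) (nat_lit 4) (nat_lit 295) (nat_lit 223) (nat_lit 142)) (XT.nd (nat_lit 624) (nat_lit 0) (nat_lit 0) (XT.lf (nat_lit 0) (nat_lit 11814742822516) (nat_lit 152) (nat_lit 23131261493494) (nat_lit 0) (nat_lit 11803324116919) (nat_lit 1) (nat_lit 5) (nat_lit 3) (nat_lit 4) (nat_lit 1) (nat_lit 4) (nat_lit 296) (nat_lit 223) (nat_lit 141)) (XT.lf (nat_lit 0) (nat_lit 36294755869590) (nat_lit 152) (nat_lit 70402489697789) (nat_lit 0) (nat_lit 36283337082995) (nat_lit 1) (nat_lit 5) (nat_lit 3) (nat_lit 4) (nat_lit 1) (nat_lit 4) (nat_lit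 304) (nat_lit 223) (nat_lit 133))))))))
noncomputable def xc58 : XT := (XT.nd (nat_lit 29172) (nat_lit 0) (nat_lit 152) (XT.nd (nat_lit 28470) (nat_lit 0) (nat_lit 760) (XT.nd (nat_lit 28158) (nat_lit 0) (nat_lit 1596) (XT.nd (nat_lit 156) (nat_lit 0) (nat_lit 0) (XT.nd (nat_lit 78) (nat_lit 0) (nat_lit 0) (XT.lf (nat_lit 0) (nat_lit 41750128873156) (nat_lit 152) (nat_lit 80936887333986) (nat_lit 0) (nat_lit 41738710081429) (nat_lit 1) (nat_lit 5) (nat_lit 3) (nat_lit 4) (nat_lit 1) (nat_lit 4) (nat_lit 305) (nat_lit 223) (nat_lit 132)) (XT.lf (nat_lit 0) (nat_lit 48023807816443) (nat_lit 152) (nat_lit 93051444637435) (nat_lit 0) (nat_lit 48012389020254) (nat_lit 1) (nat_lit 5) (nat_lit 3) (nat_lit 4) (nat_lit 1) (nat_lit 4) (nat_lit 306) (nat_lit 223) (nat_lit 131))) (XT.nd (nat_lit 27924) (nat_lit 0) (nat_lit 1748) (XT.lf (nat_lit 0) (nat_lit 55238538591820) (nat_lit 152) (nat_lit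 106983185555376) (nat_lit 0) (nat_lit 55227119791751) (nat_lit 1) (nat_lit 5) (nat_lit 3) (nat_lit 4) (nat_lit 1) (nat_lit 4) (nat_lit 307) (nat_lit 223) (nat_lit 130)) (XT.lf (nat_lit 0) (nat_lit 633733087) (nat_lit 0) (nat_lit 633733087) (nat_lit 228) (nat_lit 2721661815) (nat_lit 24) (nat_lit 5) (nat_lit 24) (nat_lit 3) (nat_lit 27) (nat_lit 3) (nat_lit 224) (nat_lit 224) (nat_lit 212)))) (XT.nd (nat_lit 156) (nat_lit 152) (nat_lit 0) (XT.nd (nat_lit 78) (nat_lit 0) (nat_lit 0) (XT.lf (nat_lit 0) (nat_lit 3882950679) (nat_lit 228) (nat_lit 3095436587) (nat_lit 304) (nat_lit 1416919655) (nat_lit 24) (nat_lit 5) (nat_lit 27) (nat_lit 3) (nat_lit 28) (nat_lit 5) (nat_lit 225) (nat_lit 224) (nat_lit 211)) (XT.lf (nat_lit 76) (nat_lit 954933198) (nat_lit 0) (nat_lit 4387466296) (nat_lit 304) (nat_lit 3547491022) (nat_lit 25) (nat_lit 5) (nat_lit 24) (nat_lit 5) (nat_lit 28) (nat_lit 5)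 (nat_lit 226) (nat_lit 224) (nat_lit 210))) (XT.nd (nat_lit 78) (nat_lit 152) (nat_lit 0) (XT.lf (nat_lit 76) (nat_lit 5834795205) (nat_lit 0) (nat_lit 1176762496) (nat_lit 304) (nat_lit 2449667030) (nat_lit 25) (nat_lit 5) (nat_lit 24) (nat_lit 5) (nat_lit 28) (nat_lit 5) (nat_lit 227) (nat_lit 224) (nat_lit 209)) (XT.lf (nat_lit 0) (nat_lit 1196234224) (nat_lit 228) (nat_lit 7741466506) (nat_lit 304) (nat_lit 1180594415) (nat_lit 22) (nat_lit 5) (nat_lit 25) (nat_lit 5) (nat_lit 26) (nat_lit 5) (nat_lit 228) (nat_lit 224) (nat_lit 208))))) (XT.nd (nat_lit 312) (nat_lit 304) (nat_lit 0) (XT.nd (nat_lit 156) (nat_lit 152) (nat_lit 0) (XT.nd (nat_lit 78) (nat_lit 304) (nat_lit 0) (XT.lf (nat_lit 0) (nat_lit 368267639) (nat_lit 304) (nat_lit 3915101814) (nat_lit 76) (nat_lit 6572463950) (nat_lit 21) (nat_lit 5) (nat_lit 25) (nat_lit 5) (nat_lit 22) (nat_lit 5) (nat_lit 229) (nat_lit 224)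 (nat_lit 207)) (XT.lf (nat_lit 0) (nat_lit 1824923900) (nat_lit 304) (nat_lit 157166783) (nat_lit 380) (nat_lit 9721129339) (nat_lit 17) (nat_lit 5) (nat_lit 21) (nat_lit 5) (nat_lit 22) (nat_lit 5) (nat_lit 230) (nat_lit 224) (nat_lit 206))) (XT.nd (nat_lit 78) (nat_lit 152) (nat_lit 0) (XT.lf (nat_lit 0) (nat_lit 4130999024) (nat_lit 380) (nat_lit 4116295509) (nat_lit 76) (nat_lit 4387055934) (nat_lit 17) (nat_lit 5) (nat_lit 22) (nat_lit 5) (nat_lit 18) (nat_lit 5) (nat_lit 231) (nat_lit 224) (nat_lit 205)) (XT.lf (nat_lit 0) (nat_lit 2617732229) (nat_lit 152) (nat_lit 4003551536) (nat_lit 228) (nat_lit 7081521654) (nat_lit 15) (nat_lit 5) (nat_lit 17) (nat_lit 5) (nat_lit 18) (nat_lit 5) (nat_lit 232) (nat_lit 224) (nat_lit 204)))) (XT.nd (nat_lit 156) (nat_lit 228) (nat_lit 0) (XT.nd (nat_lit 78) (nat_lit 76) (nat_lit 0) (XT.lf (nat_lit 0) (nat_lit 9656988813) (nat_lit 228) (nat_lit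 4246601573) (nat_lit 76) (nat_lit 1002600904) (nat_lit 15) (nat_lit 5) (nat_lit 18) (nat_lit 5) (nat_lit 16) (nat_lit 4) (nat_lit 233) (nat_lit 224) (nat_lit 203)) (XT.lf (nat_lit 0) (nat_lit 3642323412) (nat_lit 76) (nat_lit 9769067967) (nat_lit 152) (nat_lit 2839578762) (nat_lit 14) (nat_lit 5) (nat_lit 15) (nat_lit 5) (nat_lit 16) (nat_lit 4) (nat_lit 234) (nat_lit 224) (nat_lit 202))) (XT.nd (nat_lit 78) (nat_lit 152) (nat_lit 0) (XT.lf (nat_lit 0) (nat_lit 94153745) (nat_lit 152) (nat_lit 4691758243) (nat_lit 76) (nat_lit 12988786633) (nat_lit 13) (nat_lit 5) (nat_lit 15) (nat_lit 5) (nat_lit 14) (nat_lit 5) (nat_lit 235) (nat_lit 224) (nat_lit 201)) (XT.nd (nat_lit 78) (nat_lit 0) (nat_lit 0) (XT.lf (nat_lit 0) (nat_lit 3354486573) (nat_lit 228) (nat_lit 14952844015) (nat_lit 76) (nat_lit 1173038235) (nat_lit 11) (nat_lit 5) (nat_lit 14) (nat_lit 5) (nat_lit 12) (nat_lit 4) (nat_lit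 236) (nat_lit 224) (nat_lit 200)) (XT.lf (nat_lit 0) (nat_lit 7526102693) (nat_lit 228) (nat_lit 6088523375) (nat_lit 76) (nat_lit 7764149386) (nat_lit 11) (nat_lit 5) (nat_lit 14) (nat_lit 5) (nat_lit 12) (nat_lit 4) (nat_lit 237) (nat_lit 224) (nat_lit 199))))))) (XT.nd (nat_lit 702) (nat_lit 228) (nat_lit 0) (XT.nd (nat_lit 312) (nat_lit 152) (nat_lit 0) (XT.nd (nat_lit 156) (nat_lit 152) (nat_lit 0) (XT.nd (nat_lit 78) (nat_lit 0) (nat_lit 0) (XT.lf (nat_lit 0) (nat_lit 4410410378) (nat_lit 76) (nat_lit 8041244522) (nat_lit 152) (nat_lit 11091251219) (nat_lit 10) (nat_lit 5) (nat_lit 11) (nat_lit 5) (nat_lit 12) (nat_lit 4) (nat_lit 238) (nat_lit 224) (nat_lit 198)) (XT.lf (nat_lit 0) (nat_lit 17084756447) (nat_lit 76) (nat_lit 1298749403) (nat_lit 152) (nat_lit 7608197682) (nat_lit 10) (nat_lit 5) (nat_lit 11) (nat_lit 5) (nat_lit 12) (nat_lit 4) (nat_lit 239) (nat_lit 224) (nat_lit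 197))) (XT.nd (nat_lit 78) (nat_lit 76) (nat_lit 0) (XT.lf (nat_lit 0) (nat_lit 2751756972) (nat_lit 76) (nat_lit 22789258086) (nat_lit 76) (nat_lit 3216568654) (nat_lit 9) (nat_lit 4) (nat_lit 10) (nat_lit 5) (nat_lit 10) (nat_lit 4) (nat_lit 240) (nat_lit 224) (nat_lit 196)) (XT.lf (nat_lit 0) (nat_lit 2175474806) (nat_lit 152) (nat_lit 14947450140) (nat_lit 76) (nat_lit 14728401502) (nat_lit 8) (nat_lit 5) (nat_lit 10) (nat_lit 5) (nat_lit 9) (nat_lit 4) (nat_lit 241) (nat_lit 224) (nat_lit 195)))) (XT.nd (nat_lit 156) (nat_lit 76) (nat_lit 0) (XT.nd (nat_lit 78) (nat_lit 76) (nat_lit 0) (XT.lf (nat_lit 0) (nat_lit 8008158519) (nat_lit 152) (nat_lit 2452424977) (nat_lit 76) (nat_lit 24931494747) (nat_lit 8) (nat_lit 5) (nat_lit 10) (nat_lit 5) (nat_lit 9) (nat_lit 4) (nat_lit 242) (nat_lit 224) (nat_lit 194)) (XT.lf (nat_lit 0) (nat_lit 13015651149) (nat_lit 76) (nat_lit 2205260601)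 (nat_lit 152) (nat_lit 24167339057) (nat_lit 7) (nat_lit 5) (nat_lit 8) (nat_lit 5) (nat_lit 9) (nat_lit 4) (nat_lit 243) (nat_lit 224) (nat_lit 193))) (XT.nd (nat_lit 78) (nat_lit 76) (nat_lit 0) (XT.lf (nat_lit 0) (nat_lit 23918871765) (nat_lit 152) (nat_lit 13253962741) (nat_lit 0) (nat_lit 6750592896) (nat_lit 7) (nat_lit 5) (nat_lit 9) (nat_lit 4) (nat_lit 7) (nat_lit 4) (nat_lit 244) (nat_lit 224) (nat_lit 192)) (XT.nd (nat_lit 78) (nat_lit 0) (nat_lit 0) (XT.lf (nat_lit 0) (nat_lit 1838049199) (nat_lit 76) (nat_lit 32236075958) (nat_lit 76) (nat_lit 15041928216) (nat_lit 6) (nat_lit 4) (nat_lit 7) (nat_lit 5) (nat_lit 7) (nat_lit 4) (nat_lit 245) (nat_lit 224) (nat_lit 191)) (XT.lf (nat_lit 0) (nat_lit 20632794741) (nat_lit 76) (nat_lit 25785793623) (nat_lit 76) (nat_lit 8569151209) (nat_lit 6) (nat_lit 4) (nat_lit 7) (nat_lit 5) (nat_lit 7) (nat_lit 4) (nat_lit 246) (nat_lit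 224) (nat_lit 190)))))) (XT.nd (nat_lit 312) (nat_lit 76) (nat_lit 0) (XT.nd (nat_lit 156) (nat_lit 76) (nat_lit 0) (XT.nd (nat_lit 78) (nat_lit 76) (nat_lit 0) (XT.lf (nat_lit 0) (nat_lit 42202723534) (nat_lit 76) (nat_lit 18388607105) (nat_lit 76) (nat_lit 1152404107) (nat_lit 6) (nat_lit 4) (nat_lit 7) (nat_lit 5) (nat_lit 7) (nat_lit 4) (nat_lit 247) (nat_lit 224) (nat_lit 189)) (XT.lf (nat_lit 0) (nat_lit 6698770761) (nat_lit 152) (nat_lit 2850855064) (nat_lit 76) (nat_lit 59920922146) (nat_lit 5) (nat_lit 5) (nat_lit 7) (nat_lit 5) (nat_lit 6) (nat_lit 4) (nat_lit 248) (nat_lit 224) (nat_lit 188))) (XT.nd (nat_lit 78) (nat_lit 0) (nat_lit 0) (XT.lf (nat_lit 0) (nat_lit 16392420606) (nat_lit 152) (nat_lit 60461578903) (nat_lit 0) (nat_lit 1376765985) (nat_lit 4) (nat_lit 5) (nat_lit 6) (nat_lit 4) (nat_lit 4) (nat_lit 4) (nat_lit 249) (nat_lit 224) (nat_lit 187)) (XT.lf (nat_lit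 0) (nat_lit 28132788100) (nat_lit 152) (nat_lit 46977404516) (nat_lit 0) (nat_lit 13105949652) (nat_lit 4) (nat_lit 5) (nat_lit 6) (nat_lit 4) (nat_lit 4) (nat_lit 4) (nat_lit 250) (nat_lit 224) (nat_lit 186)))) (XT.nd (nat_lit 156) (nat_lit 76) (nat_lit 0) (XT.nd (nat_lit 78) (nat_lit 0) (nat_lit 0) (XT.lf (nat_lit 0) (nat_lit 41618391442) (nat_lit 152) (nat_lit 31501502688) (nat_lit 0) (nat_lit 26581827927) (nat_lit 4) (nat_lit 5) (nat_lit 6) (nat_lit 4) (nat_lit 4) (nat_lit 4) (nat_lit 251) (nat_lit 224) (nat_lit 185)) (XT.lf (nat_lit 0) (nat_lit 57113079394) (nat_lit 152) (nat_lit 13731084034) (nat_lit 0) (nat_lit 42068059298) (nat_lit 4) (nat_lit 5) (nat_lit 6) (nat_lit 4) (nat_lit 4) (nat_lit 4) (nat_lit 252) (nat_lit 224) (nat_lit 184))) (XT.nd (nat_lit 78) (nat_lit 0) (nat_lit 0) (XT.lf (nat_lit 0) (nat_lit 7334501599) (nat_lit 76) (nat_lit 67889213363) (nat_lit 76) (nat_lit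 52836839719) (nat_lit 3) (nat_lit 4) (nat_lit 4) (nat_lit 5) (nat_lit 4) (nat_lit 4) (nat_lit 253) (nat_lit 224) (nat_lit 183)) (XT.nd (nat_lit 78) (nat_lit 0) (nat_lit 0) (XT.lf (nat_lit 0) (nat_lit 33080809807) (nat_lit 76) (nat_lit 63676572366) (nat_lit 76) (nat_lit 48617804333) (nat_lit 3) (nat_lit 4) (nat_lit 4) (nat_lit 5) (nat_lit 4) (nat_lit 4) (nat_lit 254) (nat_lit 224) (nat_lit 182)) (XT.lf (nat_lit 0) (nat_lit 62669671312) (nat_lit 76) (nat_lit 58841580411) (nat_lit 76) (nat_lit 43777252039) (nat_lit 3) (nat_lit 4) (nat_lit 4) (nat_lit 5) (nat_lit 4) (nat_lit 4) (nat_lit 255) (nat_lit 224) (nat_lit 181))))))))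
noncomputable def xc59 : XT := (XT.nd (nat_lit 1404) (nat_lit 0) (nat_lit 0) (XT.nd (nat_lit 702) (nat_lit 0) (nat_lit 0) (XT.nd (nat_lit 312) (nat_lit 152) (nat_lit 0) (XT.nd (nat_lit 156) (nat_lit 0) (nat_lit 0) (XT.nd (nat_lit 78) (nat_lit 0) (nat_lit 0) (XT.lf (nat_lit 0) (nat_lit 96679998622) (nat_lit 76) (nat_lit 53289639830) (nat_lit 76) (nat_lit 38220476381) (nat_lit 3) (nat_lit 4) (nat_lit 4) (nat_lit 5) (nat_lit 4) (nat_lit 4) (nat_lit 256) (nat_lit 224) (nat_lit 180)) (XT.lf (nat_lit 0) (nat_lit 135777211183) (nat_lit 76) (nat_lit 46912125699) (nat_lit 76) (nat_lit 31838757834) (nat_lit 3) (nat_lit 4) (nat_lit 4) (nat_lit 5) (nat_lit 4) (nat_lit 4) (nat_lit 257) (nat_lit 224) (nat_lit 179))) (XT.nd (nat_lit 78) (nat_lit 0) (nat_lit 0) (XT.lf (nat_lit 0) (nat_lit 180726254459) (nat_lit 76) (nat_lit 39584260566) (nat_lit 76) (nat_lit 24507236688) (nat_lit 3) (nat_lit 4) (nat_lit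 4) (nat_lit 5) (nat_lit 4) (nat_lit 4) (nat_lit 258) (nat_lit 224) (nat_lit 178)) (XT.lf (nat_lit 0) (nat_lit 232406566253) (nat_lit 76) (nat_lit 31162673158) (nat_lit 76) (nat_lit 16082470138) (nat_lit 3) (nat_lit 4) (nat_lit 4) (nat_lit 5) (nat_lit 4) (nat_lit 4) (nat_lit 259) (nat_lit 224) (nat_lit 177)))) (XT.nd (nat_lit 156) (nat_lit 76) (nat_lit 0) (XT.nd (nat_lit 78) (nat_lit 76) (nat_lit 0) (XT.lf (nat_lit 0) (nat_lit 291829283101) (nat_lit 76) (nat_lit 21482593286) (nat_lit 76) (nat_lit 6399625795) (nat_lit 3) (nat_lit 4) (nat_lit 4) (nat_lit 5) (nat_lit 4) (nat_lit 4) (nat_lit 260) (nat_lit 224) (nat_lit 176)) (XT.lf (nat_lit 0) (nat_lit 4309579813) (nat_lit 152) (nat_lit 5819774779) (nat_lit 76) (nat_lit 355622170071) (nat_lit 2) (nat_lit 5) (nat_lit 4) (nat_lit 5) (nat_lit 3) (nat_lit 4) (nat_lit 261) (nat_lit 224) (nat_lit 175))) (XT.nd (nat_lit 78) (nat_lit 0) (nat_lit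 0) (XT.lf (nat_lit 0) (nat_lit 17017805776) (nat_lit 152) (nat_lit 397578587797) (nat_lit 0) (nat_lit 3898273849) (nat_lit 1) (nat_lit 5) (nat_lit 3) (nat_lit 4) (nat_lit 1) (nat_lit 4) (nat_lit 262) (nat_lit 224) (nat_lit 174)) (XT.nd (nat_lit 78) (nat_lit 0) (nat_lit 0) (XT.lf (nat_lit 0) (nat_lit 32429486946) (nat_lit 152) (nat_lit 427291840863) (nat_lit 0) (nat_lit 19308374424) (nat_lit 1) (nat_lit 5) (nat_lit 3) (nat_lit 4) (nat_lit 1) (nat_lit 4) (nat_lit 263) (nat_lit 224) (nat_lit 173)) (XT.lf (nat_lit 0) (nat_lit 50149589112) (nat_lit 152) (nat_lit 461468804010) (nat_lit 0) (nat_lit 37027102159) (nat_lit 1) (nat_lit 5) (nat_lit 3) (nat_lit 4) (nat_lit 1) (nat_lit 4) (nat_lit 264) (nat_lit 224) (nat_lit 172)))))) (XT.nd (nat_lit 312) (nat_lit 0) (nat_lit 0) (XT.nd (nat_lit 156) (nat_lit 0) (nat_lit 0) (XT.nd (nat_lit 78) (nat_lit 0) (nat_lit 0) (XT.lf (nat_lit 0) (nat_lit 70524809923)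 (nat_lit 152) (nat_lit 500778156951) (nat_lit 0) (nat_lit 57401127813) (nat_lit 1) (nat_lit 5) (nat_lit 3) (nat_lit 4) (nat_lit 1) (nat_lit 4) (nat_lit 265) (nat_lit 224) (nat_lit 171)) (XT.lf (nat_lit 0) (nat_lit 93953795005) (nat_lit 152) (nat_lit 545988995723) (nat_lit 0) (nat_lit 80829073629) (nat_lit 1) (nat_lit 5) (nat_lit 3) (nat_lit 4) (nat_lit 1) (nat_lit 4) (nat_lit 266) (nat_lit 224) (nat_lit 170))) (XT.nd (nat_lit 78) (nat_lit 0) (nat_lit 0) (XT.lf (nat_lit 0) (nat_lit 120894937545) (nat_lit 152) (nat_lit 597985880214) (nat_lit 0) (nat_lit 107769312457) (nat_lit 1) (nat_lit 5) (nat_lit 3) (nat_lit 4) (nat_lit 1) (nat_lit 4) (nat_lit 267) (nat_lit 224) (nat_lit 169)) (XT.lf (nat_lit 0) (nat_lit 151875346851) (nat_lit 152) (nat_lit 657786140773) (nat_lit 0) (nat_lit 138748935929) (nat_lit 1) (nat_lit 5) (nat_lit 3) (nat_lit 4) (nat_lit 1) (nat_lit 4) (nat_lit 268) (nat_lit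 224) (nat_lit 168)))) (XT.nd (nat_lit 156) (nat_lit 0) (nat_lit 0) (XT.nd (nat_lit 78) (nat_lit 0) (nat_lit 0) (XT.lf (nat_lit 0) (nat_lit 187501161369) (nat_lit 152) (nat_lit 726559782497) (nat_lit 0) (nat_lit 174374067111) (nat_lit 1) (nat_lit 5) (nat_lit 3) (nat_lit 4) (nat_lit 1) (nat_lit 4) (nat_lit 269) (nat_lit 224) (nat_lit 167)) (XT.lf (nat_lit 0) (nat_lit 228469407902) (nat_lit 152) (nat_lit 805652376639) (nat_lit 0) (nat_lit 215341719440) (nat_lit 1) (nat_lit 5) (nat_lit 3) (nat_lit 4) (nat_lit 1) (nat_lit 4) (nat_lit 270) (nat_lit 224) (nat_lit 166))) (XT.nd (nat_lit 78) (nat_lit 0) (nat_lit 0) (XT.lf (nat_lit 0) (nat_lit 275581639102) (nat_lit 152) (nat_lit 896611386996) (nat_lit 0) (nat_lit 262453433940) (nat_lit 1) (nat_lit 5) (nat_lit 3) (nat_lit 4) (nat_lit 1) (nat_lit 4) (nat_lit 271) (nat_lit 224) (nat_lit 165)) (XT.nd (nat_lit 78) (nat_lit 0) (nat_lit 0) (XT.lf (nat_lit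 0) (nat_lit 329759616012) (nat_lit 152) (nat_lit 1001216446379) (nat_lit 0) (nat_lit 316630961547) (nat_lit 1) (nat_lit 5) (nat_lit 3) (nat_lit 4) (nat_lit 1) (nat_lit 4) (nat_lit 272) (nat_lit 224) (nat_lit 164)) (XT.lf (nat_lit 0) (nat_lit 392063342530) (nat_lit 152) (nat_lit 1121514175516) (nat_lit 0) (nat_lit 378934297366) (nat_lit 1) (nat_lit 5) (nat_lit 3) (nat_lit 4) (nat_lit 1) (nat_lit 4) (nat_lit 273) (nat_lit 224) (nat_lit 163))))))) (XT.nd (nat_lit 702) (nat_lit 0) (nat_lit 0) (XT.nd (nat_lit 312) (nat_lit 0) (nat_lit 0) (XT.nd (nat_lit 156) (nat_lit 0) (nat_lit 0) (XT.nd (nat_lit 78) (nat_lit 0) (nat_lit 0) (XT.lf (nat_lit 0) (nat_lit 463711804608) (nat_lit 152) (nat_lit 1259858225630) (nat_lit 0) (nat_lit 450582419706) (nat_lit 1) (nat_lit 5) (nat_lit 3) (nat_lit 4) (nat_lit 1) (nat_lit 4) (nat_lit 274) (nat_lit 224) (nat_lit 162)) (XT.lf (nat_lit 0) (nat_lit 546106819984)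 (nat_lit 152) (nat_lit 1418955328134) (nat_lit 0) (nat_lit 532977139657) (nat_lit 1) (nat_lit 5) (nat_lit 3) (nat_lit 4) (nat_lit 1) (nat_lit 4) (nat_lit 275) (nat_lit 224) (nat_lit 161))) (XT.nd (nat_lit 78) (nat_lit 0) (nat_lit 0) (XT.lf (nat_lit 0) (nat_lit 640860465044) (nat_lit 152) (nat_lit 1601918252427) (nat_lit 0) (nat_lit 627730527826) (nat_lit 1) (nat_lit 5) (nat_lit 3) (nat_lit 4) (nat_lit 1) (nat_lit 4) (nat_lit 276) (nat_lit 224) (nat_lit 160)) (XT.lf (nat_lit 0) (nat_lit 749826615454) (nat_lit 152) (nat_lit 1812326707896) (nat_lit 0) (nat_lit 736696454852) (nat_lit 1) (nat_lit 5) (nat_lit 3) (nat_lit 4) (nat_lit 1) (nat_lit 4) (nat_lit 277) (nat_lit 224) (nat_lit 159)))) (XT.nd (nat_lit 156) (nat_lit 0) (nat_lit 0) (XT.nd (nat_lit 78) (nat_lit 0) (nat_lit 0) (XT.lf (nat_lit 0) (nat_lit 875137217633) (nat_lit 152) (nat_lit 2054297381714) (nat_lit 0) (nat_lit 862006862786)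 (nat_lit 1) (nat_lit 5) (nat_lit 3) (nat_lit 4) (nat_lit 1) (nat_lit 4) (nat_lit 278) (nat_lit 224) (nat_lit 158)) (XT.lf (nat_lit 0) (nat_lit 1019244000756) (nat_lit 152) (nat_lit 2332564482716) (nat_lit 0) (nat_lit 1006113476998) (nat_lit 1) (nat_lit 5) (nat_lit 3) (nat_lit 4) (nat_lit 1) (nat_lit 4) (nat_lit 279) (nat_lit 224) (nat_lit 157))) (XT.nd (nat_lit 78) (nat_lit 0) (nat_lit 0) (XT.lf (nat_lit 0) (nat_lit 1184966445361) (nat_lit 152) (nat_lit 2652572367227) (nat_lit 0) (nat_lit 1171835774726) (nat_lit 1) (nat_lit 5) (nat_lit 3) (nat_lit 4) (nat_lit 1) (nat_lit 4) (nat_lit 280) (nat_lit 224) (nat_lit 156)) (XT.nd (nat_lit 78) (nat_lit 0) (nat_lit 0) (XT.lf (nat_lit 0) (nat_lit 1375546947105) (nat_lit 152) (nat_lit 3020582059073) (nat_lit 0) (nat_lit 1362416148749) (nat_lit 1) (nat_lit 5) (nat_lit 3) (nat_lit 4) (nat_lit 1) (nat_lit 4) (nat_lit 281) (nat_lit 224) (nat_lit 155))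 (XT.lf (nat_lit 0) (nat_lit 1594714254933) (nat_lit 152) (nat_lit 3443793747877) (nat_lit 0) (nat_lit 1581583345516) (nat_lit 1) (nat_lit 5) (nat_lit 3) (nat_lit 4) (nat_lit 1) (nat_lit 4) (nat_lit 282) (nat_lit 224) (nat_lit 154)))))) (XT.nd (nat_lit 312) (nat_lit 0) (nat_lit 0) (XT.nd (nat_lit 156) (nat_lit 0) (nat_lit 0) (XT.nd (nat_lit 78) (nat_lit 0) (nat_lit 0) (XT.lf (nat_lit 0) (nat_lit 1846756424869) (nat_lit 152) (nat_lit 3930487662334) (nat_lit 0) (nat_lit 1833625418877) (nat_lit 1) (nat_lit 5) (nat_lit 3) (nat_lit 4) (nat_lit 1) (nat_lit 4) (nat_lit 283) (nat_lit 224) (nat_lit 153)) (XT.lf (nat_lit 0) (nat_lit 2136604716760) (nat_lit 152) (nat_lit 4490186074684) (nat_lit 0) (nat_lit 2123473626790) (nat_lit 1) (nat_lit 5) (nat_lit 3) (nat_lit 4) (nat_lit 1) (nat_lit 4) (nat_lit 284) (nat_lit 224) (nat_lit 152))) (XT.nd (nat_lit 78) (nat_lit 0) (nat_lit 0) (XT.lf (nat_lit 0)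 (nat_lit 2469930075446) (nat_lit 152) (nat_lit 5133839606036) (nat_lit 0) (nat_lit 2456798912451) (nat_lit 1) (nat_lit 5) (nat_lit 3) (nat_lit 4) (nat_lit 1) (nat_lit 4) (nat_lit 285) (nat_lit 224) (nat_lit 151)) (XT.lf (nat_lit 0) (nat_lit 2853254084032) (nat_lit 152) (nat_lit 5874041477657) (nat_lit 0) (nat_lit 2840122857538) (nat_lit 1) (nat_lit 5) (nat_lit 3) (nat_lit 4) (nat_lit 1) (nat_lit 4) (nat_lit 286) (nat_lit 224) (nat_lit 150)))) (XT.nd (nat_lit 156) (nat_lit 0) (nat_lit 0) (XT.nd (nat_lit 78) (nat_lit 0) (nat_lit 0) (XT.lf (nat_lit 0) (nat_lit 3294076560079) (nat_lit 152) (nat_lit 6725273900079) (nat_lit 0) (nat_lit 3280945278368) (nat_lit 1) (nat_lit 5) (nat_lit 3) (nat_lit 4) (nat_lit 1) (nat_lit 4) (nat_lit 287) (nat_lit 224) (nat_lit 149)) (XT.lf (nat_lit 0) (nat_lit 3801022291159) (nat_lit 152) (nat_lit 7704191420697) (nat_lit 0) (nat_lit 3787890961434) (nat_lit 1)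 (nat_lit 5) (nat_lit 3) (nat_lit 4) (nat_lit 1) (nat_lit 4) (nat_lit 288) (nat_lit 224) (nat_lit 148))) (XT.nd (nat_lit 78) (nat_lit 0) (nat_lit 0) (XT.lf (nat_lit 0) (nat_lit 4384009780709) (nat_lit 152) (nat_lit 8829946773609) (nat_lit 0) (nat_lit 4370878409231) (nat_lit 1) (nat_lit 5) (nat_lit 3) (nat_lit 4) (nat_lit 1) (nat_lit 4) (nat_lit 289) (nat_lit 224) (nat_lit 147)) (XT.nd (nat_lit 78) (nat_lit 0) (nat_lit 0) (XT.lf (nat_lit 0) (nat_lit 5054445305697) (nat_lit 152) (nat_lit 10124565607025) (nat_lit 0) (nat_lit 5041313897913) (nat_lit 1) (nat_lit 5) (nat_lit 3) (nat_lit 4) (nat_lit 1) (nat_lit 4) (nat_lit 290) (nat_lit 224) (nat_lit 146)) (XT.lf (nat_lit 0) (nat_lit 5825446082916) (nat_lit 152) (nat_lit 11613377419860) (nat_lit 0) (nat_lit 5812314643562) (nat_lit 1) (nat_lit 5) (nat_lit 3) (nat_lit 4) (nat_lit 1) (nat_lit 4) (nat_lit 291) (nat_lit 224) (nat_lit 145))))))))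
noncomputable def xc60 : XT := (XT.nd (nat_lit 29952) (nat_lit 0) (nat_lit 228) (XT.nd (nat_lit 29250) (nat_lit 0) (nat_lit 1064) (XT.nd (nat_lit 312) (nat_lit 0) (nat_lit 0) (XT.nd (nat_lit 156) (nat_lit 0) (nat_lit 0) (XT.nd (nat_lit 78) (nat_lit 0) (nat_lit 0) (XT.lf (nat_lit 0) (nat_lit 6712096910182) (nat_lit 152) (nat_lit 13325511138886) (nat_lit 0) (nat_lit 6698965443375) (nat_lit 1) (nat_lit 5) (nat_lit 3) (nat_lit 4) (nat_lit 1) (nat_lit 4) (nat_lit 292) (nat_lit 224) (nat_lit 144)) (XT.lf (nat_lit 0) (nat_lit 7731745303680) (nat_lit 152) (nat_lit 15294465032519) (nat_lit 0) (nat_lit 7718613813001) (nat_lit 1) (nat_lit 5) (nat_lit 3) (nat_lit 4) (nat_lit 1) (nat_lit 4) (nat_lit 293) (nat_lit 224) (nat_lit 143))) (XT.nd (nat_lit 78) (nat_lit 0) (nat_lit 0) (XT.lf (nat_lit 0) (nat_lit 8904340905891) (nat_lit 152) (nat_lit 17558762111722) (nat_lit 0) (nat_lit 8891209394454) (nat_lit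 1) (nat_lit 5) (nat_lit 3) (nat_lit 4) (nat_lit 1) (nat_lit 4) (nat_lit 294) (nat_lit 224) (nat_lit 142)) (XT.lf (nat_lit 0) (nat_lit 10252825804686) (nat_lit 152) (nat_lit 20162703841088) (nat_lit 0) (nat_lit 10239694275199) (nat_lit 1) (nat_lit 5) (nat_lit 3) (nat_lit 4) (nat_lit 1) (nat_lit 4) (nat_lit 295) (nat_lit 224) (nat_lit 141)))) (XT.nd (nat_lit 156) (nat_lit 0) (nat_lit 0) (XT.nd (nat_lit 78) (nat_lit 0) (nat_lit 0) (XT.lf (nat_lit 0) (nat_lit 11803583400257) (nat_lit 152) (nat_lit 23157236906625) (nat_lit 0) (nat_lit 11790451855074) (nat_lit 1) (nat_lit 5) (nat_lit 3) (nat_lit 4) (nat_lit 1) (nat_lit 4) (nat_lit 296) (nat_lit 224) (nat_lit 140)) (XT.lf (nat_lit 0) (nat_lit 13586954602084) (nat_lit 152) (nat_lit 26600949998748) (nat_lit 0) (nat_lit 13573823043252) (nat_lit 1) (nat_lit 5) (nat_lit 3) (nat_lit 4) (nat_lit 1) (nat_lit 4) (nat_lit 297) (nat_lit 224) (nat_lit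 139))) (XT.nd (nat_lit 28704) (nat_lit 0) (nat_lit 1748) (XT.lf (nat_lit 0) (nat_lit 15637831455420) (nat_lit 152) (nat_lit 30561220112735) (nat_lit 0) (nat_lit 15624699884719) (nat_lit 1) (nat_lit 5) (nat_lit 3) (nat_lit 4) (nat_lit 1) (nat_lit 4) (nat_lit 298) (nat_lit 224) (nat_lit 138)) (XT.lf (nat_lit 0) (nat_lit 1252899926) (nat_lit 0) (nat_lit 1252899926) (nat_lit 228) (nat_lit 1917147862) (nat_lit 24) (nat_lit 5) (nat_lit 24) (nat_lit 3) (nat_lit 27) (nat_lit 3) (nat_lit 225) (nat_lit 225) (nat_lit 210))))) (XT.nd (nat_lit 312) (nat_lit 456) (nat_lit 0) (XT.nd (nat_lit 156) (nat_lit 228) (nat_lit 0) (XT.nd (nat_lit 78) (nat_lit 0) (nat_lit 0) (XT.lf (nat_lit 0) (nat_lit 6250630854) (nat_lit 228) (nat_lit 2324345994) (nat_lit 304) (nat_lit 799114546) (nat_lit 24) (nat_lit 5) (nat_lit 27) (nat_lit 3) (nat_lit 28) (nat_lit 5) (nat_lit 226) (nat_lit 225) (nat_lit 209)) (XT.lf (nat_lit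 76) (nat_lit 2277424437) (nat_lit 0) (nat_lit 5467545760) (nat_lit 304) (nat_lit 2227156255) (nat_lit 25) (nat_lit 5) (nat_lit 24) (nat_lit 5) (nat_lit 28) (nat_lit 5) (nat_lit 227) (nat_lit 225) (nat_lit 208))) (XT.nd (nat_lit 78) (nat_lit 228) (nat_lit 0) (XT.lf (nat_lit 76) (nat_lit 7735450364) (nat_lit 0) (nat_lit 1720198192) (nat_lit 304) (nat_lit 1206283675) (nat_lit 25) (nat_lit 5) (nat_lit 24) (nat_lit 5) (nat_lit 28) (nat_lit 5) (nat_lit 228) (nat_lit 225) (nat_lit 207)) (XT.lf (nat_lit 0) (nat_lit 77505376) (nat_lit 304) (nat_lit 8866556969) (nat_lit 76) (nat_lit 2495986013) (nat_lit 21) (nat_lit 5) (nat_lit 25) (nat_lit 5) (nat_lit 22) (nat_lit 5) (nat_lit 229) (nat_lit 225) (nat_lit 206)))) (XT.nd (nat_lit 156) (nat_lit 152) (nat_lit 0) (XT.nd (nat_lit 78) (nat_lit 304) (nat_lit 0) (XT.lf (nat_lit 0) (nat_lit 1566393501) (nat_lit 304) (nat_lit 3339241600) (nat_lit 76) (nat_lit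 7400813420) (nat_lit 21) (nat_lit 5) (nat_lit 25) (nat_lit 5) (nat_lit 22) (nat_lit 5) (nat_lit 230) (nat_lit 225) (nat_lit 205)) (XT.lf (nat_lit 0) (nat_lit 3208918632) (nat_lit 304) (nat_lit 110272660) (nat_lit 380) (nat_lit 9978041913) (nat_lit 17) (nat_lit 5) (nat_lit 21) (nat_lit 5) (nat_lit 22) (nat_lit 5) (nat_lit 231) (nat_lit 225) (nat_lit 204))) (XT.nd (nat_lit 78) (nat_lit 152) (nat_lit 0) (XT.lf (nat_lit 0) (nat_lit 5657348862) (nat_lit 380) (nat_lit 3630428539) (nat_lit 76) (nat_lit 5100936490) (nat_lit 17) (nat_lit 5) (nat_lit 22) (nat_lit 5) (nat_lit 18) (nat_lit 5) (nat_lit 232) (nat_lit 225) (nat_lit 203)) (XT.nd (nat_lit 78) (nat_lit 0) (nat_lit 0) (XT.lf (nat_lit 0) (nat_lit 4063552846) (nat_lit 152) (nat_lit 4382967395) (nat_lit 228) (nat_lit 7182739276) (nat_lit 15) (nat_lit 5) (nat_lit 17) (nat_lit 5) (nat_lit 18) (nat_lit 5) (nat_lit 233) (nat_lit 225) (nat_lit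 202)) (XT.lf (nat_lit 0) (nat_lit 11837015300) (nat_lit 228) (nat_lit 3863616575) (nat_lit 76) (nat_lit 1328148882) (nat_lit 15) (nat_lit 5) (nat_lit 18) (nat_lit 5) (nat_lit 16) (nat_lit 4) (nat_lit 234) (nat_lit 225) (nat_lit 201))))))) (XT.nd (nat_lit 702) (nat_lit 304) (nat_lit 0) (XT.nd (nat_lit 312) (nat_lit 228) (nat_lit 0) (XT.nd (nat_lit 156) (nat_lit 152) (nat_lit 0) (XT.nd (nat_lit 78) (nat_lit 76) (nat_lit 0) (XT.lf (nat_lit 0) (nat_lit 5162284647) (nat_lit 76) (nat_lit 10937198634) (nat_lit 152) (nat_lit 2484529246) (nat_lit 14) (nat_lit 5) (nat_lit 15) (nat_lit 5) (nat_lit 16) (nat_lit 4) (nat_lit 235) (nat_lit 225) (nat_lit 200)) (XT.lf (nat_lit 0) (nat_lit 726935525) (nat_lit 152) (nat_lit 4486063823) (nat_lit 76) (nat_lit 15132726690) (nat_lit 13) (nat_lit 5) (nat_lit 15) (nat_lit 5) (nat_lit 14) (nat_lit 5) (nat_lit 236) (nat_lit 225) (nat_lit 199))) (XT.nd (nat_lit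 78) (nat_lit 0) (nat_lit 0) (XT.lf (nat_lit 0) (nat_lit 4443753154) (nat_lit 228) (nat_lit 16251679018) (nat_lit 76) (nat_lit 1617009615) (nat_lit 11) (nat_lit 5) (nat_lit 14) (nat_lit 5) (nat_lit 12) (nat_lit 4) (nat_lit 237) (nat_lit 225) (nat_lit 198)) (XT.lf (nat_lit 0) (nat_lit 9164664701) (nat_lit 228) (nat_lit 6180852664) (nat_lit 76) (nat_lit 9161828877) (nat_lit 11) (nat_lit 5) (nat_lit 14) (nat_lit 5) (nat_lit 12) (nat_lit 4) (nat_lit 238) (nat_lit 225) (nat_lit 197)))) (XT.nd (nat_lit 156) (nat_lit 152) (nat_lit 0) (XT.nd (nat_lit 78) (nat_lit 0) (nat_lit 0) (XT.lf (nat_lit 0) (nat_lit 5855605277) (nat_lit 76) (nat_lit 8939417404) (nat_lit 152) (nat_lit 12206412477) (nat_lit 10) (nat_lit 5) (nat_lit 11) (nat_lit 5) (nat_lit 12) (nat_lit 4) (nat_lit 239) (nat_lit 225) (nat_lit 196)) (XT.lf (nat_lit 0) (nat_lit 20328890212) (nat_lit 76) (nat_lit 1225723729) (nat_lit 152) (nat_lit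 8272447835) (nat_lit 10) (nat_lit 5) (nat_lit 11) (nat_lit 5) (nat_lit 12) (nat_lit 4) (nat_lit 240) (nat_lit 225) (nat_lit 195))) (XT.nd (nat_lit 78) (nat_lit 76) (nat_lit 0) (XT.lf (nat_lit 0) (nat_lit 3864896272) (nat_lit 76) (nat_lit 25905552823) (nat_lit 76) (nat_lit 3239847340) (nat_lit 9) (nat_lit 4) (nat_lit 10) (nat_lit 5) (nat_lit 10) (nat_lit 4) (nat_lit 241) (nat_lit 225) (nat_lit 194)) (XT.nd (nat_lit 78) (nat_lit 0) (nat_lit 0) (XT.lf (nat_lit 0) (nat_lit 2865556779) (nat_lit 152) (nat_lit 16544101729) (nat_lit 76) (nat_lit 17163908604) (nat_lit 8) (nat_lit 5) (nat_lit 10) (nat_lit 5) (nat_lit 9) (nat_lit 4) (nat_lit 242) (nat_lit 225) (nat_lit 193)) (XT.lf (nat_lit 0) (nat_lit 9525695994) (nat_lit 152) (nat_lit 2259014000) (nat_lit 76) (nat_lit 28867955373) (nat_lit 8) (nat_lit 5) (nat_lit 10) (nat_lit 5) (nat_lit 9) (nat_lit 4) (nat_lit 243) (nat_lit 225) (nat_lit 192))))))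 (XT.nd (nat_lit 312) (nat_lit 152) (nat_lit 0) (XT.nd (nat_lit 156) (nat_lit 76) (nat_lit 0) (XT.nd (nat_lit 78) (nat_lit 0) (nat_lit 0) (XT.lf (nat_lit 0) (nat_lit 15503761058) (nat_lit 76) (nat_lit 2297527616) (nat_lit 152) (nat_lit 27449937594) (nat_lit 7) (nat_lit 5) (nat_lit 8) (nat_lit 5) (nat_lit 9) (nat_lit 4) (nat_lit 244) (nat_lit 225) (nat_lit 191)) (XT.lf (nat_lit 0) (nat_lit 27773760661) (nat_lit 152) (nat_lit 14745406972) (nat_lit 0) (nat_lit 7952127214) (nat_lit 7) (nat_lit 5) (nat_lit 9) (nat_lit 4) (nat_lit 7) (nat_lit 4) (nat_lit 245) (nat_lit 225) (nat_lit 190))) (XT.nd (nat_lit 78) (nat_lit 0) (nat_lit 0) (XT.lf (nat_lit 0) (nat_lit 2587831751) (nat_lit 76) (nat_lit 36849267083) (nat_lit 76) (nat_lit 17008073052) (nat_lit 6) (nat_lit 4) (nat_lit 7) (nat_lit 5) (nat_lit 7) (nat_lit 4) (nat_lit 246) (nat_lit 225) (nat_lit 189)) (XT.lf (nat_lit 0) (nat_lit 24139953232)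 (nat_lit 76) (nat_lit 29460427651) (nat_lit 76) (nat_lit 9602224415) (nat_lit 6) (nat_lit 4) (nat_lit 7) (nat_lit 5) (nat_lit 7) (nat_lit 4) (nat_lit 247) (nat_lit 225) (nat_lit 188)))) (XT.nd (nat_lit 156) (nat_lit 76) (nat_lit 0) (XT.nd (nat_lit 78) (nat_lit 76) (nat_lit 0) (XT.lf (nat_lit 0) (nat_lit 48891601003) (nat_lit 76) (nat_lit 20978867723) (nat_lit 76) (nat_lit 1105873875) (nat_lit 6) (nat_lit 4) (nat_lit 7) (nat_lit 5) (nat_lit 7) (nat_lit 4) (nat_lit 248) (nat_lit 225) (nat_lit 187)) (XT.lf (nat_lit 0) (nat_lit 7877376947) (nat_lit 152) (nat_lit 2949494811) (nat_lit 76) (nat_lit 69037897509) (nat_lit 5) (nat_lit 5) (nat_lit 7) (nat_lit 5) (nat_lit 6) (nat_lit 4) (nat_lit 249) (nat_lit 225) (nat_lit 186))) (XT.nd (nat_lit 78) (nat_lit 0) (nat_lit 0) (XT.lf (nat_lit 0) (nat_lit 19021616833) (nat_lit 152) (nat_lit 69198115606) (nat_lit 0) (nat_lit 1719843723) (nat_lit 4) (nat_lit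 5) (nat_lit 6) (nat_lit 4) (nat_lit 4) (nat_lit 4) (nat_lit 250) (nat_lit 225) (nat_lit 185)) (XT.nd (nat_lit 78) (nat_lit 0) (nat_lit 0) (XT.lf (nat_lit 0) (nat_lit 32500822086) (nat_lit 152) (nat_lit 53734710731) (nat_lit 0) (nat_lit 15190592396) (nat_lit 4) (nat_lit 5) (nat_lit 6) (nat_lit 4) (nat_lit 4) (nat_lit 4) (nat_lit 251) (nat_lit 225) (nat_lit 184)) (XT.lf (nat_lit 0) (nat_lit 47989946481) (nat_lit 152) (nat_lit 35975158993) (nat_lit 0) (nat_lit 30672363243) (nat_lit 4) (nat_lit 5) (nat_lit 6) (nat_lit 4) (nat_lit 4) (nat_lit 4) (nat_lit 252) (nat_lit 225) (nat_lit 183))))))))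
noncomputable def xc61 : XT := (XT.nd (nat_lit 1404) (nat_lit 0) (nat_lit 0) (XT.nd (nat_lit 702) (nat_lit 152) (nat_lit 0) (XT.nd (nat_lit 312) (nat_lit 0) (nat_lit 0) (XT.nd (nat_lit 156) (nat_lit 0) (nat_lit 0) (XT.nd (nat_lit 78) (nat_lit 76) (nat_lit 0) (XT.lf (nat_lit 0) (nat_lit 65792038105) (nat_lit 152) (nat_lit 15571990902) (nat_lit 0) (nat_lit 48468060477) (nat_lit 4) (nat_lit 5) (nat_lit 6) (nat_lit 4) (nat_lit 4) (nat_lit 4) (nat_lit 253) (nat_lit 225) (nat_lit 182)) (XT.lf (nat_lit 0) (nat_lit 8643489134) (nat_lit 76) (nat_lit 77969818068) (nat_lit 76) (nat_lit 60640280101) (nat_lit 3) (nat_lit 4) (nat_lit 4) (nat_lit 5) (nat_lit 4) (nat_lit 4) (nat_lit 254) (nat_lit 225) (nat_lit 181))) (XT.nd (nat_lit 78) (nat_lit 0) (nat_lit 0) (XT.lf (nat_lit 0) (nat_lit 38224507187) (nat_lit 76) (nat_lit 73138686656) (nat_lit 76) (nat_lit 55804313612) (nat_lit 3) (nat_lit 4) (nat_lit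 4) (nat_lit 5) (nat_lit 4) (nat_lit 4) (nat_lit 255) (nat_lit 225) (nat_lit 180)) (XT.lf (nat_lit 0) (nat_lit 72228014104) (nat_lit 76) (nat_lit 67590103069) (nat_lit 76) (nat_lit 50251525610) (nat_lit 3) (nat_lit 4) (nat_lit 4) (nat_lit 5) (nat_lit 4) (nat_lit 4) (nat_lit 256) (nat_lit 225) (nat_lit 179)))) (XT.nd (nat_lit 156) (nat_lit 0) (nat_lit 0) (XT.nd (nat_lit 78) (nat_lit 0) (nat_lit 0) (XT.lf (nat_lit 0) (nat_lit 111319295889) (nat_lit 76) (nat_lit 61215508062) (nat_lit 76) (nat_lit 43873274590) (nat_lit 3) (nat_lit 4) (nat_lit 4) (nat_lit 5) (nat_lit 4) (nat_lit 4) (nat_lit 257) (nat_lit 225) (nat_lit 178)) (XT.lf (nat_lit 0) (nat_lit 156263181968) (nat_lit 76) (nat_lit 53890181299) (nat_lit 76) (nat_lit 36544768685) (nat_lit 3) (nat_lit 4) (nat_lit 4) (nat_lit 5) (nat_lit 4) (nat_lit 4) (nat_lit 258) (nat_lit 225) (nat_lit 177))) (XT.nd (nat_lit 78) (nat_lit 0) (nat_lit 0)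 (XT.lf (nat_lit 0) (nat_lit 207939009243) (nat_lit 76) (nat_lit 45470801169) (nat_lit 76) (nat_lit 28122624084) (nat_lit 3) (nat_lit 4) (nat_lit 4) (nat_lit 5) (nat_lit 4) (nat_lit 4) (nat_lit 259) (nat_lit 225) (nat_lit 176)) (XT.nd (nat_lit 78) (nat_lit 0) (nat_lit 0) (XT.lf (nat_lit 0) (nat_lit 267357826509) (nat_lit 76) (nat_lit 35792640669) (nat_lit 76) (nat_lit 18442059696) (nat_lit 3) (nat_lit 4) (nat_lit 4) (nat_lit 5) (nat_lit 4) (nat_lit 4) (nat_lit 260) (nat_lit 225) (nat_lit 175)) (XT.lf (nat_lit 0) (nat_lit 335682175842) (nat_lit 76) (nat_lit 24666344485) (nat_lit 76) (nat_lit 7313673175) (nat_lit 3) (nat_lit 4) (nat_lit 4) (nat_lit 5) (nat_lit 4) (nat_lit 4) (nat_lit 261) (nat_lit 225) (nat_lit 174)))))) (XT.nd (nat_lit 312) (nat_lit 0) (nat_lit 0) (XT.nd (nat_lit 156) (nat_lit 0) (nat_lit 0) (XT.nd (nat_lit 78) (nat_lit 76) (nat_lit 0) (XT.lf (nat_lit 0) (nat_lit 4992373713)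 (nat_lit 152) (nat_lit 6620885511) (nat_lit 76) (nat_lit 408995499288) (nat_lit 2) (nat_lit 5) (nat_lit 4) (nat_lit 5) (nat_lit 3) (nat_lit 4) (nat_lit 262) (nat_lit 225) (nat_lit 173)) (XT.lf (nat_lit 0) (nat_lit 19606344935) (nat_lit 152) (nat_lit 457142995923) (nat_lit 0) (nat_lit 4514110509) (nat_lit 1) (nat_lit 5) (nat_lit 3) (nat_lit 4) (nat_lit 1) (nat_lit 4) (nat_lit 263) (nat_lit 225) (nat_lit 172))) (XT.nd (nat_lit 78) (nat_lit 0) (nat_lit 0) (XT.lf (nat_lit 0) (nat_lit 37325099808) (nat_lit 152) (nat_lit 491322677824) (nat_lit 0) (nat_lit 22231670225) (nat_lit 1) (nat_lit 5) (nat_lit 3) (nat_lit 4) (nat_lit 1) (nat_lit 4) (nat_lit 264) (nat_lit 225) (nat_lit 171)) (XT.lf (nat_lit 0) (nat_lit 57699149061) (nat_lit 152) (nat_lit 530634394900) (nat_lit 0) (nat_lit 42604680211) (nat_lit 1) (nat_lit 5) (nat_lit 3) (nat_lit 4) (nat_lit 1) (nat_lit 4) (nat_lit 265) (nat_lit 225)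 (nat_lit 170)))) (XT.nd (nat_lit 156) (nat_lit 0) (nat_lit 0) (XT.nd (nat_lit 78) (nat_lit 0) (nat_lit 0) (XT.lf (nat_lit 0) (nat_lit 81127115397) (nat_lit 152) (nat_lit 575847289441) (nat_lit 0) (nat_lit 66031742836) (nat_lit 1) (nat_lit 5) (nat_lit 3) (nat_lit 4) (nat_lit 1) (nat_lit 4) (nat_lit 266) (nat_lit 225) (nat_lit 169)) (XT.lf (nat_lit 0) (nat_lit 108067372069) (nat_lit 152) (nat_lit 627845961557) (nat_lit 0) (nat_lit 92971213673) (nat_lit 1) (nat_lit 5) (nat_lit 3) (nat_lit 4) (nat_lit 1) (nat_lit 4) (nat_lit 267) (nat_lit 225) (nat_lit 168))) (XT.nd (nat_lit 78) (nat_lit 0) (nat_lit 0) (XT.lf (nat_lit 0) (nat_lit 139047011057) (nat_lit 152) (nat_lit 687647776572) (nat_lit 0) (nat_lit 123950169326) (nat_lit 1) (nat_lit 5) (nat_lit 3) (nat_lit 4) (nat_lit 1) (nat_lit 4) (nat_lit 268) (nat_lit 225) (nat_lit 167)) (XT.nd (nat_lit 78) (nat_lit 0) (nat_lit 0) (XT.lf (nat_lit 0)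 (nat_lit 174672155732) (nat_lit 152) (nat_lit 756422769998) (nat_lit 0) (nat_lit 159574719797) (nat_lit 1) (nat_lit 5) (nat_lit 3) (nat_lit 4) (nat_lit 1) (nat_lit 4) (nat_lit 269) (nat_lit 225) (nat_lit 166)) (XT.lf (nat_lit 0) (nat_lit 215639819794) (nat_lit 152) (nat_lit 835516539533) (nat_lit 0) (nat_lit 200541867159) (nat_lit 1) (nat_lit 5) (nat_lit 3) (nat_lit 4) (nat_lit 1) (nat_lit 4) (nat_lit 270) (nat_lit 225) (nat_lit 165))))))) (XT.nd (nat_lit 702) (nat_lit 0) (nat_lit 0) (XT.nd (nat_lit 312) (nat_lit 0) (nat_lit 0) (XT.nd (nat_lit 156) (nat_lit 0) (nat_lit 0) (XT.nd (nat_lit 78) (nat_lit 0) (nat_lit 0) (XT.lf (nat_lit 0) (nat_lit 262751544496) (nat_lit 152) (nat_lit 926476571970) (nat_lit 0) (nat_lit 247653142558) (nat_lit 1) (nat_lit 5) (nat_lit 3) (nat_lit 4) (nat_lit 1) (nat_lit 4) (nat_lit 271) (nat_lit 225) (nat_lit 164)) (XT.lf (nat_lit 0) (nat_lit 316929080975) (nat_lit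 152) (nat_lit 1031082520119) (nat_lit 0) (nat_lit 301830288337) (nat_lit 1) (nat_lit 5) (nat_lit 3) (nat_lit 4) (nat_lit 1) (nat_lit 4) (nat_lit 272) (nat_lit 225) (nat_lit 163))) (XT.nd (nat_lit 78) (nat_lit 0) (nat_lit 0) (XT.lf (nat_lit 0) (nat_lit 379232424508) (nat_lit 152) (nat_lit 1151381022096) (nat_lit 0) (nat_lit 364133292132) (nat_lit 1) (nat_lit 5) (nat_lit 3) (nat_lit 4) (nat_lit 1) (nat_lit 4) (nat_lit 273) (nat_lit 225) (nat_lit 162)) (XT.lf (nat_lit 0) (nat_lit 450880553556) (nat_lit 152) (nat_lit 1289725744244) (nat_lit 0) (nat_lit 435781125755) (nat_lit 1) (nat_lit 5) (nat_lit 3) (nat_lit 4) (nat_lit 1) (nat_lit 4) (nat_lit 274) (nat_lit 225) (nat_lit 161)))) (XT.nd (nat_lit 156) (nat_lit 0) (nat_lit 0) (XT.nd (nat_lit 78) (nat_lit 0) (nat_lit 0) (XT.lf (nat_lit 0) (nat_lit 533275279340) (nat_lit 152) (nat_lit 1448823431127) (nat_lit 0) (nat_lit 518175594649) (nat_lit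 1) (nat_lit 5) (nat_lit 3) (nat_lit 4) (nat_lit 1) (nat_lit 4) (nat_lit 275) (nat_lit 225) (nat_lit 160)) (XT.lf (nat_lit 0) (nat_lit 628028672582) (nat_lit 152) (nat_lit 1631786863574) (nat_lit 0) (nat_lit 612928764507) (nat_lit 1) (nat_lit 5) (nat_lit 3) (nat_lit 4) (nat_lit 1) (nat_lit 4) (nat_lit 276) (nat_lit 225) (nat_lit 159))) (XT.nd (nat_lit 78) (nat_lit 0) (nat_lit 0) (XT.lf (nat_lit 0) (nat_lit 736994604019) (nat_lit 152) (nat_lit 1842195760917) (nat_lit 0) (nat_lit 721894501697) (nat_lit 1) (nat_lit 5) (nat_lit 3) (nat_lit 4) (nat_lit 1) (nat_lit 4) (nat_lit 277) (nat_lit 225) (nat_lit 158)) (XT.nd (nat_lit 78) (nat_lit 0) (nat_lit 0) (XT.lf (nat_lit 0) (nat_lit 862305015787) (nat_lit 152) (nat_lit 2084166818973) (nat_lit 0) (nat_lit 847204744556) (nat_lit 1) (nat_lit 5) (nat_lit 3) (nat_lit 4) (nat_lit 1) (nat_lit 4) (nat_lit 278) (nat_lit 225) (nat_lit 157)) (XT.lf (nat_lit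 0) (nat_lit 1006411633335) (nat_lit 152) (nat_lit 2362434254095) (nat_lit 0) (nat_lit 991311215226) (nat_lit 1) (nat_lit 5) (nat_lit 3) (nat_lit 4) (nat_lit 1) (nat_lit 4) (nat_lit 279) (nat_lit 225) (nat_lit 156)))))) (XT.nd (nat_lit 312) (nat_lit 0) (nat_lit 0) (XT.nd (nat_lit 156) (nat_lit 0) (nat_lit 0) (XT.nd (nat_lit 78) (nat_lit 0) (nat_lit 0) (XT.lf (nat_lit 0) (nat_lit 1172133933963) (nat_lit 152) (nat_lit 2682442429144) (nat_lit 0) (nat_lit 1157033388133) (nat_lit 1) (nat_lit 5) (nat_lit 3) (nat_lit 4) (nat_lit 1) (nat_lit 4) (nat_lit 280) (nat_lit 225) (nat_lit 155)) (XT.lf (nat_lit 0) (nat_lit 1362714310507) (nat_lit 152) (nat_lit 3050452373633) (nat_lit 0) (nat_lit 1347613653617) (nat_lit 1) (nat_lit 5) (nat_lit 3) (nat_lit 4) (nat_lit 1) (nat_lit 4) (nat_lit 281) (nat_lit 225) (nat_lit 154))) (XT.nd (nat_lit 78) (nat_lit 0) (nat_lit 0) (XT.lf (nat_lit 0) (nat_lit 1581881509468)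 (nat_lit 152) (nat_lit 3473664282127) (nat_lit 0) (nat_lit 1566780756002) (nat_lit 1) (nat_lit 5) (nat_lit 3) (nat_lit 4) (nat_lit 1) (nat_lit 4) (nat_lit 282) (nat_lit 225) (nat_lit 153)) (XT.lf (nat_lit 0) (nat_lit 1833923584736) (nat_lit 152) (nat_lit 3960358387618) (nat_lit 0) (nat_lit 1818822747292) (nat_lit 1) (nat_lit 5) (nat_lit 3) (nat_lit 4) (nat_lit 1) (nat_lit 4) (nat_lit 283) (nat_lit 225) (nat_lit 152)))) (XT.nd (nat_lit 156) (nat_lit 0) (nat_lit 0) (XT.nd (nat_lit 78) (nat_lit 0) (nat_lit 0) (XT.lf (nat_lit 0) (nat_lit 2123771794306) (nat_lit 152) (nat_lit 4520056966084) (nat_lit 0) (nat_lit 2108670883838) (nat_lit 1) (nat_lit 5) (nat_lit 3) (nat_lit 4) (nat_lit 1) (nat_lit 4) (nat_lit 284) (nat_lit 225) (nat_lit 151)) (XT.lf (nat_lit 0) (nat_lit 2457097081410) (nat_lit 152) (nat_lit 5163710641886) (nat_lit 0) (nat_lit 2441996107442) (nat_lit 1) (nat_lit 5) (nat_lit 3)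 (nat_lit 4) (nat_lit 1) (nat_lit 4) (nat_lit 285) (nat_lit 225) (nat_lit 150))) (XT.nd (nat_lit 78) (nat_lit 0) (nat_lit 0) (XT.lf (nat_lit 0) (nat_lit 2840421027751) (nat_lit 152) (nat_lit 5903912639115) (nat_lit 0) (nat_lit 2825319998566) (nat_lit 1) (nat_lit 5) (nat_lit 3) (nat_lit 4) (nat_lit 1) (nat_lit 4) (nat_lit 286) (nat_lit 225) (nat_lit 149)) (XT.nd (nat_lit 78) (nat_lit 0) (nat_lit 0) (XT.lf (nat_lit 0) (nat_lit 3281243449670) (nat_lit 152) (nat_lit 6755145170761) (nat_lit 0) (nat_lit 3266142372471) (nat_lit 1) (nat_lit 5) (nat_lit 3) (nat_lit 4) (nat_lit 1) (nat_lit 4) (nat_lit 287) (nat_lit 225) (nat_lit 148)) (XT.lf (nat_lit 0) (nat_lit 3788189133685) (nat_lit 152) (nat_lit 7734062786356) (nat_lit 0) (nat_lit 3773088014733) (nat_lit 1) (nat_lit 5) (nat_lit 3) (nat_lit 4) (nat_lit 1) (nat_lit 4) (nat_lit 288) (nat_lit 225) (nat_lit 147))))))))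
noncomputable def xc62 : XT := (XT.nd (nat_lit 30108) (nat_lit 0) (nat_lit 228) (XT.nd (nat_lit 702) (nat_lit 0) (nat_lit 0) (XT.nd (nat_lit 312) (nat_lit 0) (nat_lit 0) (XT.nd (nat_lit 156) (nat_lit 0) (nat_lit 0) (XT.nd (nat_lit 78) (nat_lit 0) (nat_lit 0) (XT.lf (nat_lit 0) (nat_lit 4371176582307) (nat_lit 152) (nat_lit 8859818221858) (nat_lit 0) (nat_lit 4356075427049) (nat_lit 1) (nat_lit 5) (nat_lit 3) (nat_lit 4) (nat_lit 1) (nat_lit 4) (nat_lit 289) (nat_lit 225) (nat_lit 146)) (XT.lf (nat_lit 0) (nat_lit 5041612071705) (nat_lit 152) (nat_lit 10154437127091) (nat_lit 0) (nat_lit 5026510884877) (nat_lit 1) (nat_lit 5) (nat_lit 3) (nat_lit 4) (nat_lit 1) (nat_lit 4) (nat_lit 290) (nat_lit 225) (nat_lit 145))) (XT.nd (nat_lit 78) (nat_lit 0) (nat_lit 0) (XT.lf (nat_lit 0) (nat_lit 5812612817977) (nat_lit 152) (nat_lit 11643249002375) (nat_lit 0) (nat_lit 5797511603697) (nat_lit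 1) (nat_lit 5) (nat_lit 3) (nat_lit 4) (nat_lit 1) (nat_lit 4) (nat_lit 291) (nat_lit 225) (nat_lit 144)) (XT.lf (nat_lit 0) (nat_lit 6699263618332) (nat_lit 152) (nat_lit 13355382775705) (nat_lit 0) (nat_lit 6684162380180) (nat_lit 1) (nat_lit 5) (nat_lit 3) (nat_lit 4) (nat_lit 1) (nat_lit 4) (nat_lit 292) (nat_lit 225) (nat_lit 143)))) (XT.nd (nat_lit 156) (nat_lit 0) (nat_lit 0) (XT.nd (nat_lit 78) (nat_lit 0) (nat_lit 0) (XT.lf (nat_lit 0) (nat_lit 7718911988430) (nat_lit 152) (nat_lit 15324336716559) (nat_lit 0) (nat_lit 7703810729519) (nat_lit 1) (nat_lit 5) (nat_lit 3) (nat_lit 4) (nat_lit 1) (nat_lit 4) (nat_lit 293) (nat_lit 225) (nat_lit 142)) (XT.lf (nat_lit 0) (nat_lit 8891507570293) (nat_lit 152) (nat_lit 17588633836824) (nat_lit 0) (nat_lit 8876406293332) (nat_lit 1) (nat_lit 5) (nat_lit 3) (nat_lit 4) (nat_lit 1) (nat_lit 4) (nat_lit 294) (nat_lit 225) (nat_lit 141)))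 (XT.nd (nat_lit 78) (nat_lit 0) (nat_lit 0) (XT.lf (nat_lit 0) (nat_lit 10239992451394) (nat_lit 152) (nat_lit 20192575601895) (nat_lit 0) (nat_lit 10224891158737) (nat_lit 1) (nat_lit 5) (nat_lit 3) (nat_lit 4) (nat_lit 1) (nat_lit 4) (nat_lit 295) (nat_lit 225) (nat_lit 140)) (XT.nd (nat_lit 78) (nat_lit 0) (nat_lit 0) (XT.lf (nat_lit 0) (nat_lit 11790750031579) (nat_lit 152) (nat_lit 23187108698481) (nat_lit 0) (nat_lit 11775648725273) (nat_lit 1) (nat_lit 5) (nat_lit 3) (nat_lit 4) (nat_lit 1) (nat_lit 4) (nat_lit 296) (nat_lit 225) (nat_lit 139)) (XT.lf (nat_lit 0) (nat_lit 13574121220027) (nat_lit 152) (nat_lit 26630821817602) (nat_lit 0) (nat_lit 13559019901852) (nat_lit 1) (nat_lit 5) (nat_lit 3) (nat_lit 4) (nat_lit 1) (nat_lit 4) (nat_lit 297) (nat_lit 225) (nat_lit 138)))))) (XT.nd (nat_lit 29016) (nat_lit 0) (nat_lit 1216) (XT.nd (nat_lit 28860) (nat_lit 0) (nat_lit 1748)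 (XT.nd (nat_lit 28782) (nat_lit 0) (nat_lit 1748) (XT.lf (nat_lit 0) (nat_lit 15624998061728) (nat_lit 152) (nat_lit 30591091955066) (nat_lit 0) (nat_lit 15609896733233) (nat_lit 1) (nat_lit 5) (nat_lit 3) (nat_lit 4) (nat_lit 1) (nat_lit 4) (nat_lit 298) (nat_lit 225) (nat_lit 137)) (XT.lf (nat_lit 0) (nat_lit 1837135011) (nat_lit 0) (nat_lit 1837135011) (nat_lit 228) (nat_lit 1287696809) (nat_lit 24) (nat_lit 5) (nat_lit 24) (nat_lit 3) (nat_lit 27) (nat_lit 3) (nat_lit 226) (nat_lit 226) (nat_lit 208))) (XT.nd (nat_lit 78) (nat_lit 0) (nat_lit 0) (XT.lf (nat_lit 0) (nat_lit 8538121568) (nat_lit 228) (nat_lit 1738853409) (nat_lit 304) (nat_lit 291123083) (nat_lit 24) (nat_lit 5) (nat_lit 27) (nat_lit 3) (nat_lit 28) (nat_lit 5) (nat_lit 227) (nat_lit 226) (nat_lit 207)) (XT.lf (nat_lit 76) (nat_lit 3510721475) (nat_lit 0) (nat_lit 6606739643) (nat_lit 304) (nat_lit 1160504990) (nat_lit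 25) (nat_lit 5) (nat_lit 24) (nat_lit 5) (nat_lit 28) (nat_lit 5) (nat_lit 228) (nat_lit 226) (nat_lit 206)))) (XT.nd (nat_lit 156) (nat_lit 304) (nat_lit 0) (XT.nd (nat_lit 78) (nat_lit 228) (nat_lit 0) (XT.lf (nat_lit 76) (nat_lit 9671144764) (nat_lit 0) (nat_lit 2255673154) (nat_lit 304) (nat_lit 169204745) (nat_lit 25) (nat_lit 5) (nat_lit 24) (nat_lit 5) (nat_lit 28) (nat_lit 5) (nat_lit 229) (nat_lit 226) (nat_lit 205)) (XT.lf (nat_lit 0) (nat_lit 1082944848) (nat_lit 304) (nat_lit 9185127048) (nat_lit 76) (nat_lit 2733409895) (nat_lit 21) (nat_lit 5) (nat_lit 25) (nat_lit 5) (nat_lit 22) (nat_lit 5) (nat_lit 230) (nat_lit 226) (nat_lit 204))) (XT.nd (nat_lit 78) (nat_lit 304) (nat_lit 0) (XT.lf (nat_lit 0) (nat_lit 2665538322) (nat_lit 304) (nat_lit 2960637870) (nat_lit 76) (nat_lit 8391827590) (nat_lit 21) (nat_lit 5) (nat_lit 25) (nat_lit 5) (nat_lit 22) (nat_lit 5) (nat_lit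 231) (nat_lit 226) (nat_lit 203)) (XT.nd (nat_lit 78) (nat_lit 0) (nat_lit 0) (XT.lf (nat_lit 0) (nat_lit 4529769580) (nat_lit 304) (nat_lit 73528765) (nat_lit 380) (nat_lit 10566425458) (nat_lit 17) (nat_lit 5) (nat_lit 21) (nat_lit 5) (nat_lit 22) (nat_lit 5) (nat_lit 232) (nat_lit 226) (nat_lit 202)) (XT.lf (nat_lit 0) (nat_lit 7191546643) (nat_lit 380) (nat_lit 3340730971) (nat_lit 76) (nat_lit 5908286540) (nat_lit 17) (nat_lit 5) (nat_lit 22) (nat_lit 5) (nat_lit 18) (nat_lit 5) (nat_lit 233) (nat_lit 226) (nat_lit 201))))))) (XT.nd (nat_lit 702) (nat_lit 380) (nat_lit 0) (XT.nd (nat_lit 312) (nat_lit 304) (nat_lit 0) (XT.nd (nat_lit 156) (nat_lit 152) (nat_lit 0) (XT.nd (nat_lit 78) (nat_lit 0) (nat_lit 0) (XT.lf (nat_lit 0) (nat_lit 5469426629) (nat_lit 152) (nat_lit 4873216382) (nat_lit 228) (nat_lit 7533488068) (nat_lit 15) (nat_lit 5) (nat_lit 17) (nat_lit 5) (nat_lit 18) (nat_lit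 5) (nat_lit 234) (nat_lit 226) (nat_lit 200)) (XT.lf (nat_lit 0) (nat_lit 14165670177) (nat_lit 228) (nat_lit 3671911246) (nat_lit 76) (nat_lit 1659815707) (nat_lit 15) (nat_lit 5) (nat_lit 18) (nat_lit 5) (nat_lit 16) (nat_lit 4) (nat_lit 235) (nat_lit 226) (nat_lit 199))) (XT.nd (nat_lit 78) (nat_lit 76) (nat_lit 0) (XT.lf (nat_lit 0) (nat_lit 6672818440) (nat_lit 76) (nat_lit 12353030204) (nat_lit 152) (nat_lit 2266670765) (nat_lit 14) (nat_lit 5) (nat_lit 15) (nat_lit 5) (nat_lit 16) (nat_lit 4) (nat_lit 236) (nat_lit 226) (nat_lit 198)) (XT.lf (nat_lit 0) (nat_lit 1303770727) (nat_lit 152) (nat_lit 4471292371) (nat_lit 76) (nat_lit 17550554078) (nat_lit 13) (nat_lit 5) (nat_lit 15) (nat_lit 5) (nat_lit 14) (nat_lit 5) (nat_lit 237) (nat_lit 226) (nat_lit 197)))) (XT.nd (nat_lit 156) (nat_lit 152) (nat_lit 0) (XT.nd (nat_lit 78) (nat_lit 0) (nat_lit 0) (XT.lf (nat_lit 0) (nat_lit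 5553487088) (nat_lit 228) (nat_lit 17975561987) (nat_lit 76) (nat_lit 2062219390) (nat_lit 11) (nat_lit 5) (nat_lit 14) (nat_lit 5) (nat_lit 12) (nat_lit 4) (nat_lit 238) (nat_lit 226) (nat_lit 196)) (XT.lf (nat_lit 0) (nat_lit 10924730459) (nat_lit 228) (nat_lit 6487225013) (nat_lit 76) (nat_lit 10712327846) (nat_lit 11) (nat_lit 5) (nat_lit 14) (nat_lit 5) (nat_lit 12) (nat_lit 4) (nat_lit 239) (nat_lit 226) (nat_lit 195))) (XT.nd (nat_lit 78) (nat_lit 76) (nat_lit 0) (XT.lf (nat_lit 0) (nat_lit 7326485459) (nat_lit 76) (nat_lit 10047427332) (nat_lit 152) (nat_lit 13622609566) (nat_lit 10) (nat_lit 5) (nat_lit 11) (nat_lit 5) (nat_lit 12) (nat_lit 4) (nat_lit 240) (nat_lit 226) (nat_lit 194)) (XT.nd (nat_lit 78) (nat_lit 76) (nat_lit 0) (XT.lf (nat_lit 0) (nat_lit 23893475388) (nat_lit 76) (nat_lit 1207058217) (nat_lit 152) (nat_lit 9152649982) (nat_lit 10) (nat_lit 5) (nat_lit 11)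 (nat_lit 5) (nat_lit 12) (nat_lit 4) (nat_lit 241) (nat_lit 226) (nat_lit 193)) (XT.lf (nat_lit 0) (nat_lit 4974215404) (nat_lit 76) (nat_lit 29562959300) (nat_lit 76) (nat_lit 3378598268) (nat_lit 9) (nat_lit 4) (nat_lit 10) (nat_lit 5) (nat_lit 10) (nat_lit 4) (nat_lit 242) (nat_lit 226) (nat_lit 192)))))) (XT.nd (nat_lit 312) (nat_lit 228) (nat_lit 0) (XT.nd (nat_lit 156) (nat_lit 76) (nat_lit 0) (XT.nd (nat_lit 78) (nat_lit 0) (nat_lit 0) (XT.lf (nat_lit 0) (nat_lit 3570445685) (nat_lit 152) (nat_lit 18537652011) (nat_lit 76) (nat_lit 19909570037) (nat_lit 8) (nat_lit 5) (nat_lit 10) (nat_lit 5) (nat_lit 9) (nat_lit 4) (nat_lit 243) (nat_lit 226) (nat_lit 191)) (XT.lf (nat_lit 0) (nat_lit 11193728992) (nat_lit 152) (nat_lit 2173461772) (nat_lit 76) (nat_lit 33346909672) (nat_lit 8) (nat_lit 5) (nat_lit 10) (nat_lit 5) (nat_lit 9) (nat_lit 4) (nat_lit 244) (nat_lit 226) (nat_lit 190)))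 (XT.nd (nat_lit 78) (nat_lit 0) (nat_lit 0) (XT.lf (nat_lit 0) (nat_lit 18234438439) (nat_lit 76) (nat_lit 2461799801) (nat_lit 152) (nat_lit 31308447271) (nat_lit 7) (nat_lit 5) (nat_lit 8) (nat_lit 5) (nat_lit 9) (nat_lit 4) (nat_lit 245) (nat_lit 226) (nat_lit 189)) (XT.lf (nat_lit 0) (nat_lit 32141759075) (nat_lit 152) (nat_lit 16581679129) (nat_lit 0) (nat_lit 9287816151) (nat_lit 7) (nat_lit 5) (nat_lit 9) (nat_lit 4) (nat_lit 7) (nat_lit 4) (nat_lit 246) (nat_lit 226) (nat_lit 188)))) (XT.nd (nat_lit 156) (nat_lit 152) (nat_lit 0) (XT.nd (nat_lit 78) (nat_lit 0) (nat_lit 0) (XT.lf (nat_lit 0) (nat_lit 3334475453) (nat_lit 76) (nat_lit 42208626698) (nat_lit 76) (nat_lit 19339893162) (nat_lit 6) (nat_lit 4) (nat_lit 7) (nat_lit 5) (nat_lit 7) (nat_lit 4) (nat_lit 247) (nat_lit 226) (nat_lit 187)) (XT.lf (nat_lit 0) (nat_lit 28072658337) (nat_lit 76) (nat_lit 33733378365) (nat_lit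 76) (nat_lit 10851783427) (nat_lit 6) (nat_lit 4) (nat_lit 7) (nat_lit 5) (nat_lit 7) (nat_lit 4) (nat_lit 248) (nat_lit 226) (nat_lit 186))) (XT.nd (nat_lit 78) (nat_lit 152) (nat_lit 0) (XT.lf (nat_lit 0) (nat_lit 56496395171) (nat_lit 76) (nat_lit 23998642722) (nat_lit 76) (nat_lit 1105863957) (nat_lit 6) (nat_lit 4) (nat_lit 7) (nat_lit 5) (nat_lit 7) (nat_lit 4) (nat_lit 249) (nat_lit 226) (nat_lit 185)) (XT.nd (nat_lit 78) (nat_lit 76) (nat_lit 0) (XT.lf (nat_lit 0) (nat_lit 9190394129) (nat_lit 152) (nat_lit 3143156453) (nat_lit 76) (nat_lit 79491001449) (nat_lit 5) (nat_lit 5) (nat_lit 7) (nat_lit 5) (nat_lit 6) (nat_lit 4) (nat_lit 250) (nat_lit 226) (nat_lit 184)) (XT.lf (nat_lit 0) (nat_lit 22003655681) (nat_lit 152) (nat_lit 79326263849) (nat_lit 0) (nat_lit 2081081409) (nat_lit 4) (nat_lit 5) (nat_lit 6) (nat_lit 4) (nat_lit 4) (nat_lit 4) (nat_lit 251) (nat_lit 226) (nat_lit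 183))))))))
noncomputable def xc63 : XT := (XT.nd (nat_lit 1404) (nat_lit 0) (nat_lit 0) (XT.nd (nat_lit 702) (nat_lit 152) (nat_lit 0) (XT.nd (nat_lit 312) (nat_lit 0) (nat_lit 0) (XT.nd (nat_lit 156) (nat_lit 76) (nat_lit 0) (XT.nd (nat_lit 78) (nat_lit 0) (nat_lit 0) (XT.lf (nat_lit 0) (nat_lit 37487942201) (nat_lit 152) (nat_lit 61576161603) (nat_lit 0) (nat_lit 17558973540) (nat_lit 4) (nat_lit 5) (nat_lit 6) (nat_lit 4) (nat_lit 4) (nat_lit 4) (nat_lit 252) (nat_lit 226) (nat_lit 182)) (XT.lf (nat_lit 0) (nat_lit 55285826977) (nat_lit 152) (nat_lit 41181210461) (nat_lit 0) (nat_lit 35351297977) (nat_lit 4) (nat_lit 5) (nat_lit 6) (nat_lit 4) (nat_lit 4) (nat_lit 4) (nat_lit 253) (nat_lit 226) (nat_lit 181))) (XT.nd (nat_lit 78) (nat_lit 76) (nat_lit 0) (XT.lf (nat_lit 0) (nat_lit 75745529494) (nat_lit 152) (nat_lit 17742378772) (nat_lit 0) (nat_lit 55806165416) (nat_lit 4) (nat_lit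 5) (nat_lit 6) (nat_lit 4) (nat_lit 4) (nat_lit 4) (nat_lit 254) (nat_lit 226) (nat_lit 180)) (XT.lf (nat_lit 0) (nat_lit 10097904599) (nat_lit 76) (nat_lit 89587576374) (nat_lit 76) (nat_lit 69644007881) (nat_lit 3) (nat_lit 4) (nat_lit 4) (nat_lit 5) (nat_lit 4) (nat_lit 4) (nat_lit 255) (nat_lit 226) (nat_lit 179)))) (XT.nd (nat_lit 156) (nat_lit 0) (nat_lit 0) (XT.nd (nat_lit 78) (nat_lit 0) (nat_lit 0) (XT.lf (nat_lit 0) (nat_lit 44095480739) (nat_lit 76) (nat_lit 84041911912) (nat_lit 76) (nat_lit 64094687406) (nat_lit 3) (nat_lit 4) (nat_lit 4) (nat_lit 5) (nat_lit 4) (nat_lit 4) (nat_lit 256) (nat_lit 226) (nat_lit 178)) (XT.lf (nat_lit 0) (nat_lit 83181605327) (nat_lit 76) (nat_lit 77669855275) (nat_lit 76) (nat_lit 57719451627) (nat_lit 3) (nat_lit 4) (nat_lit 4) (nat_lit 5) (nat_lit 4) (nat_lit 4) (nat_lit 257) (nat_lit 226) (nat_lit 177))) (XT.nd (nat_lit 78) (nat_lit 0)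 (nat_lit 0) (XT.lf (nat_lit 0) (nat_lit 128121006887) (nat_lit 76) (nat_lit 70346735789) (nat_lit 76) (nat_lit 50393567671) (nat_lit 3) (nat_lit 4) (nat_lit 4) (nat_lit 5) (nat_lit 4) (nat_lit 4) (nat_lit 258) (nat_lit 226) (nat_lit 176)) (XT.nd (nat_lit 78) (nat_lit 0) (nat_lit 0) (XT.lf (nat_lit 0) (nat_lit 179792934580) (nat_lit 76) (nat_lit 61929275031) (nat_lit 76) (nat_lit 41973703024) (nat_lit 3) (nat_lit 4) (nat_lit 4) (nat_lit 5) (nat_lit 4) (nat_lit 4) (nat_lit 259) (nat_lit 226) (nat_lit 175)) (XT.lf (nat_lit 0) (nat_lit 239208360906) (nat_lit 76) (nat_lit 52252783550) (nat_lit 76) (nat_lit 32295121206) (nat_lit 3) (nat_lit 4) (nat_lit 4) (nat_lit 5) (nat_lit 4) (nat_lit 4) (nat_lit 260) (nat_lit 226) (nat_lit 174)))))) (XT.nd (nat_lit 312) (nat_lit 0) (nat_lit 0) (XT.nd (nat_lit 156) (nat_lit 152) (nat_lit 0) (XT.nd (nat_lit 78) (nat_lit 0) (nat_lit 0) (XT.lf (nat_lit 0)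 (nat_lit 307529761595) (nat_lit 76) (nat_lit 41127938687) (nat_lit 76) (nat_lit 21168458659) (nat_lit 3) (nat_lit 4) (nat_lit 4) (nat_lit 5) (nat_lit 4) (nat_lit 4) (nat_lit 261) (nat_lit 226) (nat_lit 173)) (XT.lf (nat_lit 0) (nat_lit 386093859705) (nat_lit 76) (nat_lit 28337080435) (nat_lit 76) (nat_lit 8376019811) (nat_lit 3) (nat_lit 4) (nat_lit 4) (nat_lit 5) (nat_lit 4) (nat_lit 4) (nat_lit 262) (nat_lit 226) (nat_lit 172))) (XT.nd (nat_lit 78) (nat_lit 76) (nat_lit 0) (XT.lf (nat_lit 0) (nat_lit 5768720831) (nat_lit 152) (nat_lit 7559685267) (nat_lit 76) (nat_lit 470367511293) (nat_lit 2) (nat_lit 5) (nat_lit 4) (nat_lit 5) (nat_lit 3) (nat_lit 4) (nat_lit 263) (nat_lit 226) (nat_lit 171)) (XT.lf (nat_lit 0) (nat_lit 22574418259) (nat_lit 152) (nat_lit 525659715600) (nat_lit 0) (nat_lit 5214739813) (nat_lit 1) (nat_lit 5) (nat_lit 3) (nat_lit 4) (nat_lit 1) (nat_lit 4) (nat_lit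 264) (nat_lit 226) (nat_lit 170)))) (XT.nd (nat_lit 156) (nat_lit 0) (nat_lit 0) (XT.nd (nat_lit 78) (nat_lit 0) (nat_lit 0) (XT.lf (nat_lit 0) (nat_lit 42947448765) (nat_lit 152) (nat_lit 564973488445) (nat_lit 0) (nat_lit 25586866609) (nat_lit 1) (nat_lit 5) (nat_lit 3) (nat_lit 4) (nat_lit 1) (nat_lit 4) (nat_lit 265) (nat_lit 226) (nat_lit 169)) (XT.lf (nat_lit 0) (nat_lit 66374529234) (nat_lit 152) (nat_lit 610188170610) (nat_lit 0) (nat_lit 49013161243) (nat_lit 1) (nat_lit 5) (nat_lit 3) (nat_lit 4) (nat_lit 1) (nat_lit 4) (nat_lit 266) (nat_lit 226) (nat_lit 168))) (XT.nd (nat_lit 78) (nat_lit 0) (nat_lit 0) (XT.lf (nat_lit 0) (nat_lit 93314015587) (nat_lit 152) (nat_lit 662188397183) (nat_lit 0) (nat_lit 75951964262) (nat_lit 1) (nat_lit 5) (nat_lit 3) (nat_lit 4) (nat_lit 1) (nat_lit 4) (nat_lit 267) (nat_lit 226) (nat_lit 167)) (XT.nd (nat_lit 78) (nat_lit 0) (nat_lit 0) (XT.lf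 (nat_lit 0) (nat_lit 124292984733) (nat_lit 152) (nat_lit 721991563900) (nat_lit 0) (nat_lit 106930339203) (nat_lit 1) (nat_lit 5) (nat_lit 3) (nat_lit 4) (nat_lit 1) (nat_lit 4) (nat_lit 268) (nat_lit 226) (nat_lit 166)) (XT.lf (nat_lit 0) (nat_lit 159917546936) (nat_lit 152) (nat_lit 790767732719) (nat_lit 0) (nat_lit 142554384706) (nat_lit 1) (nat_lit 5) (nat_lit 3) (nat_lit 4) (nat_lit 1) (nat_lit 4) (nat_lit 269) (nat_lit 226) (nat_lit 165))))))) (XT.nd (nat_lit 702) (nat_lit 0) (nat_lit 0) (XT.nd (nat_lit 312) (nat_lit 0) (nat_lit 0) (XT.nd (nat_lit 156) (nat_lit 0) (nat_lit 0) (XT.nd (nat_lit 78) (nat_lit 0) (nat_lit 0) (XT.lf (nat_lit 0) (nat_lit 200884704501) (nat_lit 152) (nat_lit 869862524334) (nat_lit 0) (nat_lit 183521092967) (nat_lit 1) (nat_lit 5) (nat_lit 3) (nat_lit 4) (nat_lit 1) (nat_lit 4) (nat_lit 270) (nat_lit 226) (nat_lit 164)) (XT.lf (nat_lit 0) (nat_lit 247995988771)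 (nat_lit 152) (nat_lit 960823445537) (nat_lit 0) (nat_lit 230631986538) (nat_lit 1) (nat_lit 5) (nat_lit 3) (nat_lit 4) (nat_lit 1) (nat_lit 4) (nat_lit 271) (nat_lit 226) (nat_lit 163))) (XT.nd (nat_lit 78) (nat_lit 0) (nat_lit 0) (XT.lf (nat_lit 0) (nat_lit 302173142264) (nat_lit 152) (nat_lit 1065430166526) (nat_lit 0) (nat_lit 284808800294) (nat_lit 1) (nat_lit 5) (nat_lit 3) (nat_lit 4) (nat_lit 1) (nat_lit 4) (nat_lit 272) (nat_lit 226) (nat_lit 162)) (XT.lf (nat_lit 0) (nat_lit 364476152767) (nat_lit 152) (nat_lit 1185729340537) (nat_lit 0) (nat_lit 347111515372) (nat_lit 1) (nat_lit 5) (nat_lit 3) (nat_lit 4) (nat_lit 1) (nat_lit 4) (nat_lit 273) (nat_lit 226) (nat_lit 161)))) (XT.nd (nat_lit 156) (nat_lit 0) (nat_lit 0) (XT.nd (nat_lit 78) (nat_lit 0) (nat_lit 0) (XT.lf (nat_lit 0) (nat_lit 436123992224) (nat_lit 152) (nat_lit 1324074647063) (nat_lit 0) (nat_lit 418759097938)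 (nat_lit 1) (nat_lit 5) (nat_lit 3) (nat_lit 4) (nat_lit 1) (nat_lit 4) (nat_lit 274) (nat_lit 226) (nat_lit 160)) (XT.lf (nat_lit 0) (nat_lit 518518466190) (nat_lit 152) (nat_lit 1483172842100) (nat_lit 0) (nat_lit 501153348520) (nat_lit 1) (nat_lit 5) (nat_lit 3) (nat_lit 4) (nat_lit 1) (nat_lit 4) (nat_lit 275) (nat_lit 226) (nat_lit 159))) (XT.nd (nat_lit 78) (nat_lit 0) (nat_lit 0) (XT.lf (nat_lit 0) (nat_lit 613271640459) (nat_lit 152) (nat_lit 1666136716421) (nat_lit 0) (nat_lit 595906328543) (nat_lit 1) (nat_lit 5) (nat_lit 3) (nat_lit 4) (nat_lit 1) (nat_lit 4) (nat_lit 276) (nat_lit 226) (nat_lit 158)) (XT.nd (nat_lit 78) (nat_lit 0) (nat_lit 0) (XT.lf (nat_lit 0) (nat_lit 722237381485) (nat_lit 152) (nat_lit 1876545998002) (nat_lit 0) (nat_lit 704871900659) (nat_lit 1) (nat_lit 5) (nat_lit 3) (nat_lit 4) (nat_lit 1) (nat_lit 4) (nat_lit 277) (nat_lit 226) (nat_lit 157)) (XT.lf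 (nat_lit 0) (nat_lit 847547627678) (nat_lit 152) (nat_lit 2118517390178) (nat_lit 0) (nat_lit 830181999974) (nat_lit 1) (nat_lit 5) (nat_lit 3) (nat_lit 4) (nat_lit 1) (nat_lit 4) (nat_lit 278) (nat_lit 226) (nat_lit 156)))))) (XT.nd (nat_lit 312) (nat_lit 0) (nat_lit 0) (XT.nd (nat_lit 156) (nat_lit 0) (nat_lit 0) (XT.nd (nat_lit 78) (nat_lit 0) (nat_lit 0) (XT.lf (nat_lit 0) (nat_lit 991654101248) (nat_lit 152) (nat_lit 2396785115839) (nat_lit 0) (nat_lit 974288345824) (nat_lit 1) (nat_lit 5) (nat_lit 3) (nat_lit 4) (nat_lit 1) (nat_lit 4) (nat_lit 279) (nat_lit 226) (nat_lit 155)) (XT.lf (nat_lit 0) (nat_lit 1157376276677) (nat_lit 152) (nat_lit 2716793543531) (nat_lit 0) (nat_lit 1140010410192) (nat_lit 1) (nat_lit 5) (nat_lit 3) (nat_lit 4) (nat_lit 1) (nat_lit 4) (nat_lit 280) (nat_lit 226) (nat_lit 154))) (XT.nd (nat_lit 78) (nat_lit 0) (nat_lit 0) (XT.lf (nat_lit 0) (nat_lit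 1347956544354) (nat_lit 152) (nat_lit 3084803707709) (nat_lit 0) (nat_lit 1330590581294) (nat_lit 1) (nat_lit 5) (nat_lit 3) (nat_lit 4) (nat_lit 1) (nat_lit 4) (nat_lit 281) (nat_lit 226) (nat_lit 153)) (XT.lf (nat_lit 0) (nat_lit 1567123648646) (nat_lit 152) (nat_lit 3508015807237) (nat_lit 0) (nat_lit 1549757601608) (nat_lit 1) (nat_lit 5) (nat_lit 3) (nat_lit 4) (nat_lit 1) (nat_lit 4) (nat_lit 282) (nat_lit 226) (nat_lit 152)))) (XT.nd (nat_lit 156) (nat_lit 0) (nat_lit 0) (XT.nd (nat_lit 78) (nat_lit 0) (nat_lit 0) (XT.lf (nat_lit 0) (nat_lit 1819165641595) (nat_lit 152) (nat_lit 3994710078845) (nat_lit 0) (nat_lit 1801799521532) (nat_lit 1) (nat_lit 5) (nat_lit 3) (nat_lit 4) (nat_lit 1) (nat_lit 4) (nat_lit 283) (nat_lit 226) (nat_lit 151)) (XT.lf (nat_lit 0) (nat_lit 2109013779583) (nat_lit 152) (nat_lit 4554408801760) (nat_lit 0) (nat_lit 2091647596020) (nat_lit 1) (nat_lit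 5) (nat_lit 3) (nat_lit 4) (nat_lit 1) (nat_lit 4) (nat_lit 284) (nat_lit 226) (nat_lit 150))) (XT.nd (nat_lit 78) (nat_lit 0) (nat_lit 0) (XT.lf (nat_lit 0) (nat_lit 2442339004440) (nat_lit 152) (nat_lit 5198062603170) (nat_lit 0) (nat_lit 2424972765661) (nat_lit 1) (nat_lit 5) (nat_lit 3) (nat_lit 4) (nat_lit 1) (nat_lit 4) (nat_lit 285) (nat_lit 226) (nat_lit 149)) (XT.nd (nat_lit 78) (nat_lit 0) (nat_lit 0) (XT.lf (nat_lit 0) (nat_lit 2825662896655) (nat_lit 152) (nat_lit 5938264709624) (nat_lit 0) (nat_lit 2808296609861) (nat_lit 1) (nat_lit 5) (nat_lit 3) (nat_lit 4) (nat_lit 1) (nat_lit 4) (nat_lit 286) (nat_lit 226) (nat_lit 148)) (XT.lf (nat_lit 0) (nat_lit 3266485271508) (nat_lit 152) (nat_lit 6789497336248) (nat_lit 0) (nat_lit 3249118942962) (nat_lit 1) (nat_lit 5) (nat_lit 3) (nat_lit 4) (nat_lit 1) (nat_lit 4) (nat_lit 287) (nat_lit 226) (nat_lit 147))))))))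
noncomputable def xc64 : XT := (XT.nd (nat_lit 30186) (nat_lit 0) (nat_lit 304) (XT.nd (nat_lit 624) (nat_lit 0) (nat_lit 0) (XT.nd (nat_lit 312) (nat_lit 0) (nat_lit 0) (XT.nd (nat_lit 156) (nat_lit 0) (nat_lit 0) (XT.nd (nat_lit 78) (nat_lit 0) (nat_lit 0) (XT.lf (nat_lit 0) (nat_lit 3773430914594) (nat_lit 152) (nat_lit 7768415034432) (nat_lit 0) (nat_lit 3756064549742) (nat_lit 1) (nat_lit 5) (nat_lit 3) (nat_lit 4) (nat_lit 1) (nat_lit 4) (nat_lit 288) (nat_lit 226) (nat_lit 146)) (XT.lf (nat_lit 0) (nat_lit 4356418327627) (nat_lit 152) (nat_lit 8894170541751) (nat_lit 0) (nat_lit 4339051931204) (nat_lit 1) (nat_lit 5) (nat_lit 3) (nat_lit 4) (nat_lit 1) (nat_lit 4) (nat_lit 289) (nat_lit 226) (nat_lit 145))) (XT.nd (nat_lit 78) (nat_lit 0) (nat_lit 0) (XT.lf (nat_lit 0) (nat_lit 5026853786078) (nat_lit 152) (nat_lit 10188789509433) (nat_lit 0) (nat_lit 5009487362203) (nat_lit 1)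 (nat_lit 5) (nat_lit 3) (nat_lit 4) (nat_lit 1) (nat_lit 4) (nat_lit 290) (nat_lit 226) (nat_lit 144)) (XT.lf (nat_lit 0) (nat_lit 5797854505440) (nat_lit 152) (nat_lit 11677601439021) (nat_lit 0) (nat_lit 5780488057693) (nat_lit 1) (nat_lit 5) (nat_lit 3) (nat_lit 4) (nat_lit 1) (nat_lit 4) (nat_lit 291) (nat_lit 226) (nat_lit 143)))) (XT.nd (nat_lit 156) (nat_lit 0) (nat_lit 0) (XT.nd (nat_lit 78) (nat_lit 0) (nat_lit 0) (XT.lf (nat_lit 0) (nat_lit 6684505282395) (nat_lit 152) (nat_lit 13389735259572) (nat_lit 0) (nat_lit 6667138813890) (nat_lit 1) (nat_lit 5) (nat_lit 3) (nat_lit 4) (nat_lit 1) (nat_lit 4) (nat_lit 292) (nat_lit 226) (nat_lit 142)) (XT.lf (nat_lit 0) (nat_lit 7704153632144) (nat_lit 152) (nat_lit 15358689241487) (nat_lit 0) (nat_lit 7686787145588) (nat_lit 1) (nat_lit 5) (nat_lit 3) (nat_lit 4) (nat_lit 1) (nat_lit 4) (nat_lit 293) (nat_lit 226) (nat_lit 141))) (XT.nd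 (nat_lit 78) (nat_lit 0) (nat_lit 0) (XT.lf (nat_lit 0) (nat_lit 8876749196313) (nat_lit 152) (nat_lit 17622986397457) (nat_lit 0) (nat_lit 8859382694061) (nat_lit 1) (nat_lit 5) (nat_lit 3) (nat_lit 4) (nat_lit 1) (nat_lit 4) (nat_lit 294) (nat_lit 226) (nat_lit 140)) (XT.lf (nat_lit 0) (nat_lit 10225234062027) (nat_lit 152) (nat_lit 20226928193577) (nat_lit 0) (nat_lit 10207867546127) (nat_lit 1) (nat_lit 5) (nat_lit 3) (nat_lit 4) (nat_lit 1) (nat_lit 4) (nat_lit 295) (nat_lit 226) (nat_lit 139))))) (XT.nd (nat_lit 29172) (nat_lit 0) (nat_lit 1216) (XT.nd (nat_lit 29016) (nat_lit 0) (nat_lit 1748) (XT.nd (nat_lit 78) (nat_lit 0) (nat_lit 0) (XT.lf (nat_lit 0) (nat_lit 11775991628833) (nat_lit 152) (nat_lit 23221461317162) (nat_lit 0) (nat_lit 11758625101064) (nat_lit 1) (nat_lit 5) (nat_lit 3) (nat_lit 4) (nat_lit 1) (nat_lit 4) (nat_lit 296) (nat_lit 226) (nat_lit 138)) (XT.lf (nat_lit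 0) (nat_lit 13559362805647) (nat_lit 152) (nat_lit 26665174459759) (nat_lit 0) (nat_lit 13541996267557) (nat_lit 1) (nat_lit 5) (nat_lit 3) (nat_lit 4) (nat_lit 1) (nat_lit 4) (nat_lit 297) (nat_lit 226) (nat_lit 137))) (XT.nd (nat_lit 78) (nat_lit 0) (nat_lit 0) (XT.lf (nat_lit 0) (nat_lit 2412365070) (nat_lit 0) (nat_lit 2412365070) (nat_lit 228) (nat_lit 787450021) (nat_lit 24) (nat_lit 5) (nat_lit 24) (nat_lit 3) (nat_lit 27) (nat_lit 3) (nat_lit 227) (nat_lit 227) (nat_lit 206)) (XT.lf (nat_lit 0) (nat_lit 10692279308) (nat_lit 0) (nat_lit 153637680) (nat_lit 228) (nat_lit 1146058112) (nat_lit 24) (nat_lit 5) (nat_lit 24) (nat_lit 3) (nat_lit 27) (nat_lit 3) (nat_lit 228) (nat_lit 227) (nat_lit 205)))) (XT.nd (nat_lit 156) (nat_lit 228) (nat_lit 0) (XT.nd (nat_lit 78) (nat_lit 304) (nat_lit 0) (XT.lf (nat_lit 76) (nat_lit 4711570431) (nat_lit 0) (nat_lit 7839007314) (nat_lit 304)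 (nat_lit 275431624) (nat_lit 25) (nat_lit 5) (nat_lit 24) (nat_lit 5) (nat_lit 28) (nat_lit 5) (nat_lit 229) (nat_lit 227) (nat_lit 204)) (XT.lf (nat_lit 0) (nat_lit 661743395) (nat_lit 304) (nat_lit 2107478057) (nat_lit 380) (nat_lit 11011778242) (nat_lit 20) (nat_lit 5) (nat_lit 24) (nat_lit 5) (nat_lit 25) (nat_lit 5) (nat_lit 230) (nat_lit 227) (nat_lit 203))) (XT.nd (nat_lit 78) (nat_lit 304) (nat_lit 0) (XT.lf (nat_lit 0) (nat_lit 1996852486) (nat_lit 304) (nat_lit 9798122218) (nat_lit 76) (nat_lit 3039849341) (nat_lit 21) (nat_lit 5) (nat_lit 25) (nat_lit 5) (nat_lit 22) (nat_lit 5) (nat_lit 231) (nat_lit 227) (nat_lit 202)) (XT.nd (nat_lit 78) (nat_lit 304) (nat_lit 0) (XT.lf (nat_lit 0) (nat_lit 3718817688) (nat_lit 304) (nat_lit 2739712778) (nat_lit 76) (nat_lit 9560539086) (nat_lit 21) (nat_lit 5) (nat_lit 25) (nat_lit 5) (nat_lit 22) (nat_lit 5) (nat_lit 232) (nat_lit 227)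 (nat_lit 201)) (XT.lf (nat_lit 0) (nat_lit 5844027573) (nat_lit 304) (nat_lit 44267120) (nat_lit 380) (nat_lit 11464566787) (nat_lit 17) (nat_lit 5) (nat_lit 21) (nat_lit 5) (nat_lit 22) (nat_lit 5) (nat_lit 233) (nat_lit 227) (nat_lit 200))))))) (XT.nd (nat_lit 702) (nat_lit 380) (nat_lit 0) (XT.nd (nat_lit 312) (nat_lit 304) (nat_lit 0) (XT.nd (nat_lit 156) (nat_lit 76) (nat_lit 0) (XT.nd (nat_lit 78) (nat_lit 152) (nat_lit 0) (XT.lf (nat_lit 0) (nat_lit 8788687299) (nat_lit 380) (nat_lit 3211018802) (nat_lit 76) (nat_lit 6826446025) (nat_lit 17) (nat_lit 5) (nat_lit 22) (nat_lit 5) (nat_lit 18) (nat_lit 5) (nat_lit 234) (nat_lit 227) (nat_lit 199)) (XT.lf (nat_lit 0) (nat_lit 6891988719) (nat_lit 152) (nat_lit 5477774551) (nat_lit 228) (nat_lit 8114050333) (nat_lit 15) (nat_lit 5) (nat_lit 17) (nat_lit 5) (nat_lit 18) (nat_lit 5) (nat_lit 235) (nat_lit 227) (nat_lit 198))) (XT.nd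 (nat_lit 78) (nat_lit 76) (nat_lit 0) (XT.lf (nat_lit 0) (nat_lit 16708745718) (nat_lit 228) (nat_lit 3639523783) (nat_lit 76) (nat_lit 2008935128) (nat_lit 15) (nat_lit 5) (nat_lit 18) (nat_lit 5) (nat_lit 16) (nat_lit 4) (nat_lit 236) (nat_lit 227) (nat_lit 197)) (XT.lf (nat_lit 0) (nat_lit 8230407441) (nat_lit 76) (nat_lit 14036042787) (nat_lit 152) (nat_lit 2160139911) (nat_lit 14) (nat_lit 5) (nat_lit 15) (nat_lit 5) (nat_lit 16) (nat_lit 4) (nat_lit 237) (nat_lit 227) (nat_lit 196)))) (XT.nd (nat_lit 156) (nat_lit 76) (nat_lit 0) (XT.nd (nat_lit 78) (nat_lit 152) (nat_lit 0) (XT.lf (nat_lit 0) (nat_lit 1853056466) (nat_lit 152) (nat_lit 4622000574) (nat_lit 76) (nat_lit 20294984738) (nat_lit 13) (nat_lit 5) (nat_lit 15) (nat_lit 5) (nat_lit 14) (nat_lit 5) (nat_lit 238) (nat_lit 227) (nat_lit 195)) (XT.lf (nat_lit 0) (nat_lit 6721611067) (nat_lit 228) (nat_lit 20132108849) (nat_lit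 76) (nat_lit 2524791114) (nat_lit 11) (nat_lit 5) (nat_lit 14) (nat_lit 5) (nat_lit 12) (nat_lit 4) (nat_lit 239) (nat_lit 227) (nat_lit 194))) (XT.nd (nat_lit 78) (nat_lit 76) (nat_lit 0) (XT.lf (nat_lit 0) (nat_lit 12854832129) (nat_lit 228) (nat_lit 6990928386) (nat_lit 76) (nat_lit 12452428166) (nat_lit 11) (nat_lit 5) (nat_lit 14) (nat_lit 5) (nat_lit 12) (nat_lit 4) (nat_lit 240) (nat_lit 227) (nat_lit 193)) (XT.nd (nat_lit 78) (nat_lit 0) (nat_lit 0) (XT.lf (nat_lit 0) (nat_lit 8873503185) (nat_lit 76) (nat_lit 11378433544) (nat_lit 152) (nat_lit 15352379238) (nat_lit 10) (nat_lit 5) (nat_lit 11) (nat_lit 5) (nat_lit 12) (nat_lit 4) (nat_lit 241) (nat_lit 227) (nat_lit 192)) (XT.lf (nat_lit 0) (nat_lit 27867100963) (nat_lit 76) (nat_lit 1234979656) (nat_lit 152) (nat_lit 10252832903) (nat_lit 10) (nat_lit 5) (nat_lit 11) (nat_lit 5) (nat_lit 12) (nat_lit 4) (nat_lit 242) (nat_lit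 227) (nat_lit 191)))))) (XT.nd (nat_lit 312) (nat_lit 152) (nat_lit 0) (XT.nd (nat_lit 156) (nat_lit 76) (nat_lit 0) (XT.nd (nat_lit 78) (nat_lit 76) (nat_lit 0) (XT.lf (nat_lit 0) (nat_lit 6120789825) (nat_lit 76) (nat_lit 33824679983) (nat_lit 76) (nat_lit 3622835138) (nat_lit 9) (nat_lit 4) (nat_lit 10) (nat_lit 5) (nat_lit 10) (nat_lit 4) (nat_lit 243) (nat_lit 227) (nat_lit 190)) (XT.lf (nat_lit 0) (nat_lit 4313993928) (nat_lit 152) (nat_lit 20949252571) (nat_lit 76) (nat_lit 23025362929) (nat_lit 8) (nat_lit 5) (nat_lit 10) (nat_lit 5) (nat_lit 9) (nat_lit 4) (nat_lit 244) (nat_lit 227) (nat_lit 189))) (XT.nd (nat_lit 78) (nat_lit 76) (nat_lit 0) (XT.lf (nat_lit 0) (nat_lit 13053641724) (nat_lit 152) (nat_lit 2178570393) (nat_lit 76) (nat_lit 38461430807) (nat_lit 8) (nat_lit 5) (nat_lit 10) (nat_lit 5) (nat_lit 9) (nat_lit 4) (nat_lit 245) (nat_lit 227) (nat_lit 188)) (XT.lf (nat_lit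 0) (nat_lit 21275928002) (nat_lit 76) (nat_lit 2694694000) (nat_lit 152) (nat_lit 35808887548) (nat_lit 7) (nat_lit 5) (nat_lit 8) (nat_lit 5) (nat_lit 9) (nat_lit 4) (nat_lit 246) (nat_lit 227) (nat_lit 187)))) (XT.nd (nat_lit 156) (nat_lit 76) (nat_lit 0) (XT.nd (nat_lit 78) (nat_lit 76) (nat_lit 0) (XT.lf (nat_lit 0) (nat_lit 37115714290) (nat_lit 152) (nat_lit 18784969646) (nat_lit 0) (nat_lit 10789018710) (nat_lit 7) (nat_lit 5) (nat_lit 9) (nat_lit 4) (nat_lit 7) (nat_lit 4) (nat_lit 247) (nat_lit 227) (nat_lit 186)) (XT.lf (nat_lit 0) (nat_lit 4105700789) (nat_lit 76) (nat_lit 48412865543) (nat_lit 76) (nat_lit 22074986135) (nat_lit 6) (nat_lit 4) (nat_lit 7) (nat_lit 5) (nat_lit 7) (nat_lit 4) (nat_lit 248) (nat_lit 227) (nat_lit 185))) (XT.nd (nat_lit 78) (nat_lit 76) (nat_lit 0) (XT.lf (nat_lit 0) (nat_lit 32519256234) (nat_lit 76) (nat_lit 38682902373) (nat_lit 76) (nat_lit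 12335297898) (nat_lit 6) (nat_lit 4) (nat_lit 7) (nat_lit 5) (nat_lit 7) (nat_lit 4) (nat_lit 249) (nat_lit 227) (nat_lit 184)) (XT.nd (nat_lit 78) (nat_lit 76) (nat_lit 0) (XT.lf (nat_lit 0) (nat_lit 65175810226) (nat_lit 76) (nat_lit 27502367176) (nat_lit 76) (nat_lit 1146306121) (nat_lit 6) (nat_lit 4) (nat_lit 7) (nat_lit 5) (nat_lit 7) (nat_lit 4) (nat_lit 250) (nat_lit 227) (nat_lit 183)) (XT.lf (nat_lit 0) (nat_lit 10668318572) (nat_lit 152) (nat_lit 3426529671) (nat_lit 76) (nat_lit 91488314664) (nat_lit 5) (nat_lit 5) (nat_lit 7) (nat_lit 5) (nat_lit 6) (nat_lit 4) (nat_lit 251) (nat_lit 227) (nat_lit 182))))))))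
noncomputable def xc65 : XT := (XT.nd (nat_lit 1404) (nat_lit 0) (nat_lit 0) (XT.nd (nat_lit 702) (nat_lit 152) (nat_lit 0) (XT.nd (nat_lit 312) (nat_lit 76) (nat_lit 0) (XT.nd (nat_lit 156) (nat_lit 0) (nat_lit 0) (XT.nd (nat_lit 78) (nat_lit 0) (nat_lit 0) (XT.lf (nat_lit 0) (nat_lit 25401592557) (nat_lit 152) (nat_lit 91034981046) (nat_lit 0) (nat_lit 2471323867) (nat_lit 4) (nat_lit 5) (nat_lit 6) (nat_lit 4) (nat_lit 4) (nat_lit 4) (nat_lit 252) (nat_lit 227) (nat_lit 181)) (XT.lf (nat_lit 0) (nat_lit 43195819205) (nat_lit 152) (nat_lit 70647175078) (nat_lit 0) (nat_lit 20260715438) (nat_lit 4) (nat_lit 5) (nat_lit 6) (nat_lit 4) (nat_lit 4) (nat_lit 4) (nat_lit 253) (nat_lit 227) (nat_lit 180))) (XT.nd (nat_lit 78) (nat_lit 0) (nat_lit 0) (XT.lf (nat_lit 0) (nat_lit 63652340740) (nat_lit 152) (nat_lit 47214556582) (nat_lit 0) (nat_lit 40713032558) (nat_lit 4) (nat_lit 5) (nat_lit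 6) (nat_lit 4) (nat_lit 4) (nat_lit 4) (nat_lit 254) (nat_lit 227) (nat_lit 179)) (XT.lf (nat_lit 0) (nat_lit 87171393453) (nat_lit 152) (nat_lit 20278661284) (nat_lit 0) (nat_lit 64228429258) (nat_lit 4) (nat_lit 5) (nat_lit 6) (nat_lit 4) (nat_lit 4) (nat_lit 4) (nat_lit 255) (nat_lit 227) (nat_lit 178)))) (XT.nd (nat_lit 156) (nat_lit 0) (nat_lit 0) (XT.nd (nat_lit 78) (nat_lit 0) (nat_lit 0) (XT.lf (nat_lit 0) (nat_lit 11731979396) (nat_lit 76) (nat_lit 102966949576) (nat_lit 76) (nat_lit 80020806239) (nat_lit 3) (nat_lit 4) (nat_lit 4) (nat_lit 5) (nat_lit 4) (nat_lit 4) (nat_lit 256) (nat_lit 227) (nat_lit 177)) (XT.lf (nat_lit 0) (nat_lit 50813619465) (nat_lit 76) (nat_lit 96597100217) (nat_lit 76) (nat_lit 73648192409) (nat_lit 3) (nat_lit 4) (nat_lit 4) (nat_lit 5) (nat_lit 4) (nat_lit 4) (nat_lit 257) (nat_lit 227) (nat_lit 176))) (XT.nd (nat_lit 78) (nat_lit 0) (nat_lit 0)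 (XT.lf (nat_lit 0) (nat_lit 95749121443) (nat_lit 76) (nat_lit 89275900103) (nat_lit 76) (nat_lit 66324588408) (nat_lit 3) (nat_lit 4) (nat_lit 4) (nat_lit 5) (nat_lit 4) (nat_lit 4) (nat_lit 258) (nat_lit 227) (nat_lit 175)) (XT.nd (nat_lit 78) (nat_lit 0) (nat_lit 0) (XT.lf (nat_lit 0) (nat_lit 147417658196) (nat_lit 76) (nat_lit 80860108364) (nat_lit 76) (nat_lit 57906706331) (nat_lit 3) (nat_lit 4) (nat_lit 4) (nat_lit 5) (nat_lit 4) (nat_lit 4) (nat_lit 259) (nat_lit 227) (nat_lit 174)) (XT.lf (nat_lit 0) (nat_lit 206830135877) (nat_lit 76) (nat_lit 71185068204) (nat_lit 76) (nat_lit 48229848487) (nat_lit 3) (nat_lit 4) (nat_lit 4) (nat_lit 5) (nat_lit 4) (nat_lit 4) (nat_lit 260) (nat_lit 227) (nat_lit 173)))))) (XT.nd (nat_lit 312) (nat_lit 76) (nat_lit 0) (XT.nd (nat_lit 156) (nat_lit 76) (nat_lit 0) (XT.nd (nat_lit 78) (nat_lit 0) (nat_lit 0) (XT.lf (nat_lit 0) (nat_lit 275148972528)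 (nat_lit 76) (nat_lit 60061485360) (nat_lit 76) (nat_lit 37104685047) (nat_lit 3) (nat_lit 4) (nat_lit 4) (nat_lit 5) (nat_lit 4) (nat_lit 4) (nat_lit 261) (nat_lit 227) (nat_lit 172)) (XT.lf (nat_lit 0) (nat_lit 353710841040) (nat_lit 76) (nat_lit 47271724514) (nat_lit 76) (nat_lit 24313549770) (nat_lit 3) (nat_lit 4) (nat_lit 4) (nat_lit 5) (nat_lit 4) (nat_lit 4) (nat_lit 262) (nat_lit 227) (nat_lit 171))) (XT.nd (nat_lit 78) (nat_lit 76) (nat_lit 0) (XT.lf (nat_lit 0) (nat_lit 444052821448) (nat_lit 76) (nat_lit 32565551216) (nat_lit 76) (nat_lit 9606181315) (nat_lit 3) (nat_lit 4) (nat_lit 4) (nat_lit 5) (nat_lit 4) (nat_lit 4) (nat_lit 263) (nat_lit 227) (nat_lit 170)) (XT.lf (nat_lit 0) (nat_lit 6654816147) (nat_lit 152) (nat_lit 8652554451) (nat_lit 76) (nat_lit 540939792703) (nat_lit 2) (nat_lit 5) (nat_lit 4) (nat_lit 5) (nat_lit 3) (nat_lit 4) (nat_lit 264) (nat_lit 227) (nat_lit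 169)))) (XT.nd (nat_lit 156) (nat_lit 0) (nat_lit 0) (XT.nd (nat_lit 78) (nat_lit 0) (nat_lit 0) (XT.lf (nat_lit 0) (nat_lit 25981088811) (nat_lit 152) (nat_lit 604467289415) (nat_lit 0) (nat_lit 6014729786) (nat_lit 1) (nat_lit 5) (nat_lit 3) (nat_lit 4) (nat_lit 1) (nat_lit 4) (nat_lit 265) (nat_lit 227) (nat_lit 168)) (XT.lf (nat_lit 0) (nat_lit 49407398961) (nat_lit 152) (nat_lit 649683526038) (nat_lit 0) (nat_lit 29440356601) (nat_lit 1) (nat_lit 5) (nat_lit 3) (nat_lit 4) (nat_lit 1) (nat_lit 4) (nat_lit 266) (nat_lit 227) (nat_lit 167))) (XT.nd (nat_lit 78) (nat_lit 0) (nat_lit 0) (XT.lf (nat_lit 0) (nat_lit 76346215472) (nat_lit 152) (nat_lit 701685104312) (nat_lit 0) (nat_lit 56378578908) (nat_lit 1) (nat_lit 5) (nat_lit 3) (nat_lit 4) (nat_lit 1) (nat_lit 4) (nat_lit 267) (nat_lit 227) (nat_lit 166)) (XT.nd (nat_lit 78) (nat_lit 0) (nat_lit 0) (XT.lf (nat_lit 0) (nat_lit 107324602146)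 (nat_lit 152) (nat_lit 761489446421) (nat_lit 0) (nat_lit 87356448882) (nat_lit 1) (nat_lit 5) (nat_lit 3) (nat_lit 4) (nat_lit 1) (nat_lit 4) (nat_lit 268) (nat_lit 227) (nat_lit 165)) (XT.lf (nat_lit 0) (nat_lit 142948657852) (nat_lit 152) (nat_lit 830266637321) (nat_lit 0) (nat_lit 122980055284) (nat_lit 1) (nat_lit 5) (nat_lit 3) (nat_lit 4) (nat_lit 1) (nat_lit 4) (nat_lit 269) (nat_lit 227) (nat_lit 164))))))) (XT.nd (nat_lit 702) (nat_lit 0) (nat_lit 0) (XT.nd (nat_lit 312) (nat_lit 0) (nat_lit 0) (XT.nd (nat_lit 156) (nat_lit 0) (nat_lit 0) (XT.nd (nat_lit 78) (nat_lit 0) (nat_lit 0) (XT.lf (nat_lit 0) (nat_lit 183915374984) (nat_lit 152) (nat_lit 909362317701) (nat_lit 0) (nat_lit 163946381718) (nat_lit 1) (nat_lit 5) (nat_lit 3) (nat_lit 4) (nat_lit 1) (nat_lit 4) (nat_lit 270) (nat_lit 227) (nat_lit 163)) (XT.lf (nat_lit 0) (nat_lit 231026276269) (nat_lit 152) (nat_lit 1000324011744)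 (nat_lit 0) (nat_lit 211056943265) (nat_lit 1) (nat_lit 5) (nat_lit 3) (nat_lit 4) (nat_lit 1) (nat_lit 4) (nat_lit 271) (nat_lit 227) (nat_lit 162))) (XT.nd (nat_lit 78) (nat_lit 0) (nat_lit 0) (XT.lf (nat_lit 0) (nat_lit 285203096733) (nat_lit 152) (nat_lit 1104931404767) (nat_lit 0) (nat_lit 265233468304) (nat_lit 1) (nat_lit 5) (nat_lit 3) (nat_lit 4) (nat_lit 1) (nat_lit 4) (nat_lit 272) (nat_lit 227) (nat_lit 161)) (XT.lf (nat_lit 0) (nat_lit 347505817645) (nat_lit 152) (nat_lit 1225231163157) (nat_lit 0) (nat_lit 327535932325) (nat_lit 1) (nat_lit 5) (nat_lit 3) (nat_lit 4) (nat_lit 1) (nat_lit 4) (nat_lit 273) (nat_lit 227) (nat_lit 160)))) (XT.nd (nat_lit 156) (nat_lit 0) (nat_lit 0) (XT.nd (nat_lit 78) (nat_lit 0) (nat_lit 0) (XT.lf (nat_lit 0) (nat_lit 419153405283) (nat_lit 152) (nat_lit 1363576977837) (nat_lit 0) (nat_lit 399183296580) (nat_lit 1) (nat_lit 5) (nat_lit 3)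 (nat_lit 4) (nat_lit 1) (nat_lit 4) (nat_lit 274) (nat_lit 227) (nat_lit 159)) (XT.lf (nat_lit 0) (nat_lit 501547660276) (nat_lit 152) (nat_lit 1522675614748) (nat_lit 0) (nat_lit 481577357326) (nat_lit 1) (nat_lit 5) (nat_lit 3) (nat_lit 4) (nat_lit 1) (nat_lit 4) (nat_lit 275) (nat_lit 227) (nat_lit 158))) (XT.nd (nat_lit 78) (nat_lit 0) (nat_lit 0) (XT.lf (nat_lit 0) (nat_lit 596300644134) (nat_lit 152) (nat_lit 1705639873307) (nat_lit 0) (nat_lit 576330172274) (nat_lit 1) (nat_lit 5) (nat_lit 3) (nat_lit 4) (nat_lit 1) (nat_lit 4) (nat_lit 276) (nat_lit 227) (nat_lit 157)) (XT.nd (nat_lit 78) (nat_lit 0) (nat_lit 0) (XT.lf (nat_lit 0) (nat_lit 705266219585) (nat_lit 152) (nat_lit 1916049489008) (nat_lit 0) (nat_lit 685295600847) (nat_lit 1) (nat_lit 5) (nat_lit 3) (nat_lit 4) (nat_lit 1) (nat_lit 4) (nat_lit 277) (nat_lit 227) (nat_lit 156)) (XT.lf (nat_lit 0) (nat_lit 830576321800)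 (nat_lit 152) (nat_lit 2158021171723) (nat_lit 0) (nat_lit 810605575342) (nat_lit 1) (nat_lit 5) (nat_lit 3) (nat_lit 4) (nat_lit 1) (nat_lit 4) (nat_lit 278) (nat_lit 227) (nat_lit 155)))))) (XT.nd (nat_lit 312) (nat_lit 0) (nat_lit 0) (XT.nd (nat_lit 156) (nat_lit 0) (nat_lit 0) (XT.nd (nat_lit 78) (nat_lit 0) (nat_lit 0) (XT.lf (nat_lit 0) (nat_lit 974682670172) (nat_lit 152) (nat_lit 2436289150027) (nat_lit 0) (nat_lit 954711812653) (nat_lit 1) (nat_lit 5) (nat_lit 3) (nat_lit 4) (nat_lit 1) (nat_lit 4) (nat_lit 279) (nat_lit 227) (nat_lit 154)) (XT.lf (nat_lit 0) (nat_lit 1140404736733) (nat_lit 152) (nat_lit 2756297797408) (nat_lit 0) (nat_lit 1120433782639) (nat_lit 1) (nat_lit 5) (nat_lit 3) (nat_lit 4) (nat_lit 1) (nat_lit 4) (nat_lit 280) (nat_lit 227) (nat_lit 153))) (XT.nd (nat_lit 78) (nat_lit 0) (nat_lit 0) (XT.lf (nat_lit 0) (nat_lit 1330984909742) (nat_lit 152) (nat_lit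 3124308152620) (nat_lit 0) (nat_lit 1311013871669) (nat_lit 1) (nat_lit 5) (nat_lit 3) (nat_lit 4) (nat_lit 1) (nat_lit 4) (nat_lit 281) (nat_lit 227) (nat_lit 152)) (XT.lf (nat_lit 0) (nat_lit 1550151931714) (nat_lit 152) (nat_lit 3547520418265) (nat_lit 0) (nat_lit 1530180820617) (nat_lit 1) (nat_lit 5) (nat_lit 3) (nat_lit 4) (nat_lit 1) (nat_lit 4) (nat_lit 282) (nat_lit 227) (nat_lit 151)))) (XT.nd (nat_lit 156) (nat_lit 0) (nat_lit 0) (XT.nd (nat_lit 78) (nat_lit 0) (nat_lit 0) (XT.lf (nat_lit 0) (nat_lit 1802193853080) (nat_lit 152) (nat_lit 4034214834322) (nat_lit 0) (nat_lit 1782222678484) (nat_lit 1) (nat_lit 5) (nat_lit 3) (nat_lit 4) (nat_lit 1) (nat_lit 4) (nat_lit 283) (nat_lit 227) (nat_lit 150)) (XT.lf (nat_lit 0) (nat_lit 2092041928822) (nat_lit 152) (nat_lit 4593913682845) (nat_lit 0) (nat_lit 2072070699009) (nat_lit 1) (nat_lit 5) (nat_lit 3) (nat_lit 4) (nat_lit 1)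 (nat_lit 4) (nat_lit 284) (nat_lit 227) (nat_lit 149))) (XT.nd (nat_lit 78) (nat_lit 0) (nat_lit 0) (XT.lf (nat_lit 0) (nat_lit 2425367099553) (nat_lit 152) (nat_lit 5237567593479) (nat_lit 0) (nat_lit 2405395821725) (nat_lit 1) (nat_lit 5) (nat_lit 3) (nat_lit 4) (nat_lit 1) (nat_lit 4) (nat_lit 285) (nat_lit 227) (nat_lit 148)) (XT.nd (nat_lit 78) (nat_lit 0) (nat_lit 0) (XT.lf (nat_lit 0) (nat_lit 2808690944701) (nat_lit 152) (nat_lit 5977769794911) (nat_lit 0) (nat_lit 2788719625121) (nat_lit 1) (nat_lit 5) (nat_lit 3) (nat_lit 4) (nat_lit 1) (nat_lit 4) (nat_lit 286) (nat_lit 227) (nat_lit 147)) (XT.lf (nat_lit 0) (nat_lit 3249513278626) (nat_lit 152) (nat_lit 6829002504124) (nat_lit 0) (nat_lit 3229541922740) (nat_lit 1) (nat_lit 5) (nat_lit 3) (nat_lit 4) (nat_lit 1) (nat_lit 4) (nat_lit 287) (nat_lit 227) (nat_lit 146))))))))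
noncomputable def xc66 : XT := (XT.nd (nat_lit 30108) (nat_lit 0) (nat_lit 380) (XT.nd (nat_lit 624) (nat_lit 0) (nat_lit 0) (XT.nd (nat_lit 312) (nat_lit 0) (nat_lit 0) (XT.nd (nat_lit 156) (nat_lit 0) (nat_lit 0) (XT.nd (nat_lit 78) (nat_lit 0) (nat_lit 0) (XT.lf (nat_lit 0) (nat_lit 3756458886123) (nat_lit 152) (nat_lit 7807920274125) (nat_lit 0) (nat_lit 3736487498667) (nat_lit 1) (nat_lit 5) (nat_lit 3) (nat_lit 4) (nat_lit 1) (nat_lit 4) (nat_lit 288) (nat_lit 227) (nat_lit 145)) (XT.lf (nat_lit 0) (nat_lit 4339446268209) (nat_lit 152) (nat_lit 8933675843893) (nat_lit 0) (nat_lit 4319474853300) (nat_lit 1) (nat_lit 5) (nat_lit 3) (nat_lit 4) (nat_lit 1) (nat_lit 4) (nat_lit 289) (nat_lit 227) (nat_lit 144))) (XT.nd (nat_lit 78) (nat_lit 0) (nat_lit 0) (XT.lf (nat_lit 0) (nat_lit 5009881699750) (nat_lit 152) (nat_lit 10228294865880) (nat_lit 0) (nat_lit 4989910260969) (nat_lit 1)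 (nat_lit 5) (nat_lit 3) (nat_lit 4) (nat_lit 1) (nat_lit 4) (nat_lit 290) (nat_lit 227) (nat_lit 143)) (XT.lf (nat_lit 0) (nat_lit 5780882395711) (nat_lit 152) (nat_lit 11717106842688) (nat_lit 0) (nat_lit 5760910936172) (nat_lit 1) (nat_lit 5) (nat_lit 3) (nat_lit 4) (nat_lit 1) (nat_lit 4) (nat_lit 291) (nat_lit 227) (nat_lit 142)))) (XT.nd (nat_lit 156) (nat_lit 0) (nat_lit 0) (XT.nd (nat_lit 78) (nat_lit 0) (nat_lit 0) (XT.lf (nat_lit 0) (nat_lit 6667533152317) (nat_lit 152) (nat_lit 13429240704301) (nat_lit 0) (nat_lit 6647561674728) (nat_lit 1) (nat_lit 5) (nat_lit 3) (nat_lit 4) (nat_lit 1) (nat_lit 4) (nat_lit 292) (nat_lit 227) (nat_lit 141)) (XT.lf (nat_lit 0) (nat_lit 7687181484373) (nat_lit 152) (nat_lit 15398194721922) (nat_lit 0) (nat_lit 7667209991087) (nat_lit 1) (nat_lit 5) (nat_lit 3) (nat_lit 4) (nat_lit 1) (nat_lit 4) (nat_lit 293) (nat_lit 227) (nat_lit 140))) (XT.nd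 (nat_lit 78) (nat_lit 0) (nat_lit 0) (XT.lf (nat_lit 0) (nat_lit 8859777033156) (nat_lit 152) (nat_lit 17662491908940) (nat_lit 0) (nat_lit 8839805526221) (nat_lit 1) (nat_lit 5) (nat_lit 3) (nat_lit 4) (nat_lit 1) (nat_lit 4) (nat_lit 294) (nat_lit 227) (nat_lit 139)) (XT.lf (nat_lit 0) (nat_lit 10208261885491) (nat_lit 152) (nat_lit 20266433732058) (nat_lit 0) (nat_lit 10188290366688) (nat_lit 1) (nat_lit 5) (nat_lit 3) (nat_lit 4) (nat_lit 1) (nat_lit 4) (nat_lit 295) (nat_lit 227) (nat_lit 138))))) (XT.nd (nat_lit 29094) (nat_lit 0) (nat_lit 1444) (XT.nd (nat_lit 1404) (nat_lit 0) (nat_lit 0) (XT.nd (nat_lit 78) (nat_lit 0) (nat_lit 0) (XT.lf (nat_lit 0) (nat_lit 11759019440663) (nat_lit 152) (nat_lit 23260966879120) (nat_lit 0) (nat_lit 11739047911539) (nat_lit 1) (nat_lit 5) (nat_lit 3) (nat_lit 4) (nat_lit 1) (nat_lit 4) (nat_lit 296) (nat_lit 227) (nat_lit 137)) (XT.lf (nat_lit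 0) (nat_lit 13542390607359) (nat_lit 152) (nat_lit 26704680042133) (nat_lit 0) (nat_lit 13522419069262) (nat_lit 1) (nat_lit 5) (nat_lit 3) (nat_lit 4) (nat_lit 1) (nat_lit 4) (nat_lit 297) (nat_lit 227) (nat_lit 136))) (XT.nd (nat_lit 78) (nat_lit 0) (nat_lit 0) (XT.lf (nat_lit 0) (nat_lit 147003387919240) (nat_lit 152) (nat_lit 284419638345565) (nat_lit 0) (nat_lit 146983416326873) (nat_lit 1) (nat_lit 5) (nat_lit 3) (nat_lit 4) (nat_lit 1) (nat_lit 4) (nat_lit 314) (nat_lit 227) (nat_lit 119)) (XT.lf (nat_lit 0) (nat_lit 169073414224436) (nat_lit 152) (nat_lit 327037152497512) (nat_lit 0) (nat_lit 169053442631344) (nat_lit 1) (nat_lit 5) (nat_lit 3) (nat_lit 4) (nat_lit 1) (nat_lit 4) (nat_lit 315) (nat_lit 227) (nat_lit 118)))) (XT.nd (nat_lit 156) (nat_lit 304) (nat_lit 0) (XT.nd (nat_lit 78) (nat_lit 0) (nat_lit 0) (XT.lf (nat_lit 0) (nat_lit 3000805697) (nat_lit 0) (nat_lit 3000805697)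 (nat_lit 228) (nat_lit 381256514) (nat_lit 24) (nat_lit 5) (nat_lit 24) (nat_lit 3) (nat_lit 27) (nat_lit 3) (nat_lit 228) (nat_lit 228) (nat_lit 204)) (XT.lf (nat_lit 0) (nat_lit 12690183580) (nat_lit 0) (nat_lit 570745707) (nat_lit 228) (nat_lit 406121595) (nat_lit 24) (nat_lit 5) (nat_lit 24) (nat_lit 3) (nat_lit 27) (nat_lit 3) (nat_lit 229) (nat_lit 228) (nat_lit 203))) (XT.nd (nat_lit 78) (nat_lit 0) (nat_lit 0) (XT.lf (nat_lit 0) (nat_lit 441022592) (nat_lit 304) (nat_lit 8733207110) (nat_lit 380) (nat_lit 5464052812) (nat_lit 20) (nat_lit 5) (nat_lit 24) (nat_lit 5) (nat_lit 25) (nat_lit 5) (nat_lit 230) (nat_lit 228) (nat_lit 202)) (XT.nd (nat_lit 78) (nat_lit 0) (nat_lit 76) (XT.lf (nat_lit 0) (nat_lit 1395413607) (nat_lit 304) (nat_lit 1914659002) (nat_lit 380) (nat_lit 12439298230) (nat_lit 20) (nat_lit 5) (nat_lit 24) (nat_lit 5) (nat_lit 25) (nat_lit 5) (nat_lit 231) (nat_lit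 228) (nat_lit 201)) (XT.lf (nat_lit 0) (nat_lit 2864596548) (nat_lit 304) (nat_lit 10689561619) (nat_lit 76) (nat_lit 3417511402) (nat_lit 21) (nat_lit 5) (nat_lit 25) (nat_lit 5) (nat_lit 22) (nat_lit 5) (nat_lit 232) (nat_lit 228) (nat_lit 200))))))) (XT.nd (nat_lit 702) (nat_lit 380) (nat_lit 0) (XT.nd (nat_lit 312) (nat_lit 304) (nat_lit 0) (XT.nd (nat_lit 156) (nat_lit 152) (nat_lit 0) (XT.nd (nat_lit 78) (nat_lit 304) (nat_lit 0) (XT.lf (nat_lit 0) (nat_lit 4770741376) (nat_lit 304) (nat_lit 2647818450) (nat_lit 76) (nat_lit 10926519653) (nat_lit 21) (nat_lit 5) (nat_lit 25) (nat_lit 5) (nat_lit 22) (nat_lit 5) (nat_lit 233) (nat_lit 228) (nat_lit 199)) (XT.lf (nat_lit 0) (nat_lit 7200626079) (nat_lit 304) (nat_lit 20441434) (nat_lit 380) (nat_lit 12664915329) (nat_lit 17) (nat_lit 5) (nat_lit 21) (nat_lit 5) (nat_lit 22) (nat_lit 5) (nat_lit 234) (nat_lit 228) (nat_lit 198)))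 (XT.nd (nat_lit 78) (nat_lit 152) (nat_lit 0) (XT.lf (nat_lit 0) (nat_lit 10498981818) (nat_lit 380) (nat_lit 3215679702) (nat_lit 76) (nat_lit 7874546392) (nat_lit 17) (nat_lit 5) (nat_lit 22) (nat_lit 5) (nat_lit 18) (nat_lit 5) (nat_lit 235) (nat_lit 228) (nat_lit 197)) (XT.lf (nat_lit 0) (nat_lit 8381097496) (nat_lit 152) (nat_lit 6203845809) (nat_lit 228) (nat_lit 8915686469) (nat_lit 15) (nat_lit 5) (nat_lit 17) (nat_lit 5) (nat_lit 18) (nat_lit 5) (nat_lit 236) (nat_lit 228) (nat_lit 196)))) (XT.nd (nat_lit 156) (nat_lit 228) (nat_lit 0) (XT.nd (nat_lit 78) (nat_lit 76) (nat_lit 0) (XT.lf (nat_lit 0) (nat_lit 19531295772) (nat_lit 228) (nat_lit 3744488909) (nat_lit 76) (nat_lit 2386000966) (nat_lit 15) (nat_lit 5) (nat_lit 18) (nat_lit 5) (nat_lit 16) (nat_lit 4) (nat_lit 237) (nat_lit 228) (nat_lit 195)) (XT.lf (nat_lit 0) (nat_lit 9885888206) (nat_lit 76) (nat_lit 16012948678)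 (nat_lit 152) (nat_lit 2146518955) (nat_lit 14) (nat_lit 5) (nat_lit 15) (nat_lit 5) (nat_lit 16) (nat_lit 4) (nat_lit 238) (nat_lit 228) (nat_lit 194))) (XT.nd (nat_lit 78) (nat_lit 152) (nat_lit 0) (XT.lf (nat_lit 0) (nat_lit 2398478173) (nat_lit 152) (nat_lit 4922116802) (nat_lit 76) (nat_lit 23423805265) (nat_lit 13) (nat_lit 5) (nat_lit 15) (nat_lit 5) (nat_lit 14) (nat_lit 5) (nat_lit 239) (nat_lit 228) (nat_lit 193)) (XT.nd (nat_lit 78) (nat_lit 0) (nat_lit 0) (XT.lf (nat_lit 0) (nat_lit 7983237162) (nat_lit 228) (nat_lit 22743768325) (nat_lit 76) (nat_lit 3019380341) (nat_lit 11) (nat_lit 5) (nat_lit 14) (nat_lit 5) (nat_lit 12) (nat_lit 4) (nat_lit 240) (nat_lit 228) (nat_lit 192)) (XT.lf (nat_lit 0) (nat_lit 15003391239) (nat_lit 228) (nat_lit 7684648642) (nat_lit 76) (nat_lit 14421049399) (nat_lit 11) (nat_lit 5) (nat_lit 14) (nat_lit 5) (nat_lit 12) (nat_lit 4) (nat_lit 241)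 (nat_lit 228) (nat_lit 191)))))) (XT.nd (nat_lit 312) (nat_lit 152) (nat_lit 0) (XT.nd (nat_lit 156) (nat_lit 152) (nat_lit 0) (XT.nd (nat_lit 78) (nat_lit 0) (nat_lit 0) (XT.lf (nat_lit 0) (nat_lit 10543314983) (nat_lit 76) (nat_lit 12952035712) (nat_lit 152) (nat_lit 17418093013) (nat_lit 10) (nat_lit 5) (nat_lit 11) (nat_lit 5) (nat_lit 12) (nat_lit 4) (nat_lit 242) (nat_lit 228) (nat_lit 190)) (XT.lf (nat_lit 0) (nat_lit 32341762907) (nat_lit 76) (nat_lit 1304432809) (nat_lit 152) (nat_lit 11584546438) (nat_lit 10) (nat_lit 5) (nat_lit 11) (nat_lit 5) (nat_lit 12) (nat_lit 4) (nat_lit 243) (nat_lit 228) (nat_lit 189))) (XT.nd (nat_lit 78) (nat_lit 76) (nat_lit 0) (XT.lf (nat_lit 0) (nat_lit 7341700065) (nat_lit 76) (nat_lit 38767778418) (nat_lit 76) (nat_lit 3967732717) (nat_lit 9) (nat_lit 4) (nat_lit 10) (nat_lit 5) (nat_lit 10) (nat_lit 4) (nat_lit 244) (nat_lit 228) (nat_lit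 188)) (XT.lf (nat_lit 0) (nat_lit 5118356829) (nat_lit 152) (nat_lit 23812587722) (nat_lit 76) (nat_lit 26576980136) (nat_lit 8) (nat_lit 5) (nat_lit 10) (nat_lit 5) (nat_lit 9) (nat_lit 4) (nat_lit 245) (nat_lit 228) (nat_lit 187)))) (XT.nd (nat_lit 156) (nat_lit 76) (nat_lit 0) (XT.nd (nat_lit 78) (nat_lit 76) (nat_lit 0) (XT.lf (nat_lit 0) (nat_lit 15148439123) (nat_lit 152) (nat_lit 2262701400) (nat_lit 76) (nat_lit 44315700009) (nat_lit 8) (nat_lit 5) (nat_lit 10) (nat_lit 5) (nat_lit 9) (nat_lit 4) (nat_lit 246) (nat_lit 228) (nat_lit 186)) (XT.lf (nat_lit 0) (nat_lit 24698942002) (nat_lit 76) (nat_lit 2995778425) (nat_lit 152) (nat_lit 41032147475) (nat_lit 7) (nat_lit 5) (nat_lit 8) (nat_lit 5) (nat_lit 9) (nat_lit 4) (nat_lit 247) (nat_lit 228) (nat_lit 185))) (XT.nd (nat_lit 78) (nat_lit 76) (nat_lit 0) (XT.lf (nat_lit 0) (nat_lit 42798528034) (nat_lit 152) (nat_lit 21387999515)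 (nat_lit 0) (nat_lit 12489057820) (nat_lit 7) (nat_lit 5) (nat_lit 9) (nat_lit 4) (nat_lit 7) (nat_lit 4) (nat_lit 248) (nat_lit 228) (nat_lit 184)) (XT.nd (nat_lit 78) (nat_lit 0) (nat_lit 0) (XT.lf (nat_lit 0) (nat_lit 4926511687) (nat_lit 76) (nat_lit 55578723420) (nat_lit 76) (nat_lit 25260796627) (nat_lit 6) (nat_lit 4) (nat_lit 7) (nat_lit 5) (nat_lit 7) (nat_lit 4) (nat_lit 249) (nat_lit 228) (nat_lit 183)) (XT.lf (nat_lit 0) (nat_lit 37575367086) (nat_lit 76) (nat_lit 44401796899) (nat_lit 76) (nat_lit 14076516557) (nat_lit 6) (nat_lit 4) (nat_lit 7) (nat_lit 5) (nat_lit 7) (nat_lit 4) (nat_lit 250) (nat_lit 228) (nat_lit 182))))))))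
noncomputable def xc67 : XT := (XT.nd (nat_lit 1404) (nat_lit 0) (nat_lit 0) (XT.nd (nat_lit 702) (nat_lit 152) (nat_lit 0) (XT.nd (nat_lit 312) (nat_lit 76) (nat_lit 0) (XT.nd (nat_lit 156) (nat_lit 76) (nat_lit 0) (XT.nd (nat_lit 78) (nat_lit 76) (nat_lit 0) (XT.lf (nat_lit 0) (nat_lit 75107157775) (nat_lit 76) (nat_lit 31555078053) (nat_lit 76) (nat_lit 1223403321) (nat_lit 6) (nat_lit 4) (nat_lit 7) (nat_lit 5) (nat_lit 7) (nat_lit 4) (nat_lit 251) (nat_lit 228) (nat_lit 181)) (XT.lf (nat_lit 0) (nat_lit 12343700818) (nat_lit 152) (nat_lit 3798278310) (nat_lit 76) (nat_lit 105267261672) (nat_lit 5) (nat_lit 5) (nat_lit 7) (nat_lit 5) (nat_lit 6) (nat_lit 4) (nat_lit 252) (nat_lit 228) (nat_lit 180))) (XT.nd (nat_lit 78) (nat_lit 0) (nat_lit 0) (XT.lf (nat_lit 0) (nat_lit 29285471156) (nat_lit 152) (nat_lit 104546392755) (nat_lit 0) (nat_lit 2901062332) (nat_lit 4) (nat_lit 5) (nat_lit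 6) (nat_lit 4) (nat_lit 4) (nat_lit 4) (nat_lit 253) (nat_lit 228) (nat_lit 179)) (XT.lf (nat_lit 0) (nat_lit 49739226620) (nat_lit 152) (nat_lit 81119177037) (nat_lit 0) (nat_lit 23351161783) (nat_lit 4) (nat_lit 5) (nat_lit 6) (nat_lit 4) (nat_lit 4) (nat_lit 4) (nat_lit 254) (nat_lit 228) (nat_lit 178)))) (XT.nd (nat_lit 156) (nat_lit 76) (nat_lit 0) (XT.nd (nat_lit 78) (nat_lit 0) (nat_lit 0) (XT.lf (nat_lit 0) (nat_lit 73255874055) (nat_lit 152) (nat_lit 54187979806) (nat_lit 0) (nat_lit 46864630076) (nat_lit 4) (nat_lit 5) (nat_lit 6) (nat_lit 4) (nat_lit 4) (nat_lit 4) (nat_lit 255) (nat_lit 228) (nat_lit 177)) (XT.lf (nat_lit 0) (nat_lit 100295521779) (nat_lit 152) (nat_lit 23225886335) (nat_lit 0) (nat_lit 73901513329) (nat_lit 4) (nat_lit 5) (nat_lit 6) (nat_lit 4) (nat_lit 4) (nat_lit 4) (nat_lit 256) (nat_lit 228) (nat_lit 176))) (XT.nd (nat_lit 78) (nat_lit 0) (nat_lit 0)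 (XT.lf (nat_lit 0) (nat_lit 13582051623) (nat_lit 76) (nat_lit 118367558550) (nat_lit 76) (nat_lit 91971146212) (nat_lit 3) (nat_lit 4) (nat_lit 4) (nat_lit 5) (nat_lit 4) (nat_lit 4) (nat_lit 257) (nat_lit 228) (nat_lit 175)) (XT.nd (nat_lit 78) (nat_lit 0) (nat_lit 0) (XT.lf (nat_lit 0) (nat_lit 58514162661) (nat_lit 76) (nat_lit 111048027456) (nat_lit 76) (nat_lit 84649524780) (nat_lit 3) (nat_lit 4) (nat_lit 4) (nat_lit 5) (nat_lit 4) (nat_lit 4) (nat_lit 258) (nat_lit 228) (nat_lit 174)) (XT.lf (nat_lit 0) (nat_lit 110179750770) (nat_lit 76) (nat_lit 102633687037) (nat_lit 76) (nat_lit 76233366678) (nat_lit 3) (nat_lit 4) (nat_lit 4) (nat_lit 5) (nat_lit 4) (nat_lit 4) (nat_lit 259) (nat_lit 228) (nat_lit 173)))))) (XT.nd (nat_lit 312) (nat_lit 152) (nat_lit 0) (XT.nd (nat_lit 156) (nat_lit 0) (nat_lit 0) (XT.nd (nat_lit 78) (nat_lit 0) (nat_lit 0) (XT.lf (nat_lit 0) (nat_lit 169589664412)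 (nat_lit 76) (nat_lit 92959908896) (nat_lit 76) (nat_lit 66558007941) (nat_lit 3) (nat_lit 4) (nat_lit 4) (nat_lit 5) (nat_lit 4) (nat_lit 4) (nat_lit 260) (nat_lit 228) (nat_lit 172)) (XT.lf (nat_lit 0) (nat_lit 237906271465) (nat_lit 76) (nat_lit 81837423459) (nat_lit 76) (nat_lit 55434148073) (nat_lit 3) (nat_lit 4) (nat_lit 4) (nat_lit 5) (nat_lit 4) (nat_lit 4) (nat_lit 261) (nat_lit 228) (nat_lit 171))) (XT.nd (nat_lit 78) (nat_lit 0) (nat_lit 0) (XT.lf (nat_lit 0) (nat_lit 316466201195) (nat_lit 76) (nat_lit 69048616880) (nat_lit 76) (nat_lit 42644146337) (nat_lit 3) (nat_lit 4) (nat_lit 4) (nat_lit 5) (nat_lit 4) (nat_lit 4) (nat_lit 262) (nat_lit 228) (nat_lit 170)) (XT.lf (nat_lit 0) (nat_lit 406806495707) (nat_lit 76) (nat_lit 54343273379) (nat_lit 76) (nat_lit 27937763569) (nat_lit 3) (nat_lit 4) (nat_lit 4) (nat_lit 5) (nat_lit 4) (nat_lit 4) (nat_lit 263) (nat_lit 228)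 (nat_lit 169)))) (XT.nd (nat_lit 156) (nat_lit 76) (nat_lit 0) (XT.nd (nat_lit 78) (nat_lit 76) (nat_lit 0) (XT.lf (nat_lit 0) (nat_lit 510694682501) (nat_lit 76) (nat_lit 37433679714) (nat_lit 76) (nat_lit 11027266193) (nat_lit 3) (nat_lit 4) (nat_lit 4) (nat_lit 5) (nat_lit 4) (nat_lit 4) (nat_lit 264) (nat_lit 228) (nat_lit 168)) (XT.lf (nat_lit 0) (nat_lit 7668756672) (nat_lit 152) (nat_lit 9919372509) (nat_lit 76) (nat_lit 622093733039) (nat_lit 2) (nat_lit 5) (nat_lit 4) (nat_lit 5) (nat_lit 3) (nat_lit 4) (nat_lit 265) (nat_lit 228) (nat_lit 167))) (XT.nd (nat_lit 78) (nat_lit 0) (nat_lit 0) (XT.lf (nat_lit 0) (nat_lit 29893758985) (nat_lit 152) (nat_lit 695106090937) (nat_lit 0) (nat_lit 6930382732) (nat_lit 1) (nat_lit 5) (nat_lit 3) (nat_lit 4) (nat_lit 1) (nat_lit 4) (nat_lit 266) (nat_lit 228) (nat_lit 166)) (XT.nd (nat_lit 78) (nat_lit 0) (nat_lit 0) (XT.lf (nat_lit 0) (nat_lit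 56831993025) (nat_lit 152) (nat_lit 747108844604) (nat_lit 0) (nat_lit 33868100072) (nat_lit 1) (nat_lit 5) (nat_lit 3) (nat_lit 4) (nat_lit 1) (nat_lit 4) (nat_lit 267) (nat_lit 228) (nat_lit 165)) (XT.lf (nat_lit 0) (nat_lit 87809873201) (nat_lit 152) (nat_lit 806914208794) (nat_lit 0) (nat_lit 64845530945) (nat_lit 1) (nat_lit 5) (nat_lit 3) (nat_lit 4) (nat_lit 1) (nat_lit 4) (nat_lit 268) (nat_lit 228) (nat_lit 164))))))) (XT.nd (nat_lit 702) (nat_lit 0) (nat_lit 0) (XT.nd (nat_lit 312) (nat_lit 0) (nat_lit 0) (XT.nd (nat_lit 156) (nat_lit 0) (nat_lit 0) (XT.nd (nat_lit 78) (nat_lit 0) (nat_lit 0) (XT.lf (nat_lit 0) (nat_lit 123433488475) (nat_lit 152) (nat_lit 875692288459) (nat_lit 0) (nat_lit 100468755520) (nat_lit 1) (nat_lit 5) (nat_lit 3) (nat_lit 4) (nat_lit 1) (nat_lit 4) (nat_lit 269) (nat_lit 228) (nat_lit 163)) (XT.lf (nat_lit 0) (nat_lit 164399822623) (nat_lit 152) (nat_lit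 954788741679) (nat_lit 0) (nat_lit 141434749929) (nat_lit 1) (nat_lit 5) (nat_lit 3) (nat_lit 4) (nat_lit 1) (nat_lit 4) (nat_lit 270) (nat_lit 228) (nat_lit 162))) (XT.nd (nat_lit 78) (nat_lit 0) (nat_lit 0) (XT.lf (nat_lit 0) (nat_lit 211510390878) (nat_lit 152) (nat_lit 1045751107757) (nat_lit 0) (nat_lit 188545022760) (nat_lit 1) (nat_lit 5) (nat_lit 3) (nat_lit 4) (nat_lit 1) (nat_lit 4) (nat_lit 271) (nat_lit 228) (nat_lit 161)) (XT.lf (nat_lit 0) (nat_lit 265686921750) (nat_lit 152) (nat_lit 1150359085158) (nat_lit 0) (nat_lit 242721296741) (nat_lit 1) (nat_lit 5) (nat_lit 3) (nat_lit 4) (nat_lit 1) (nat_lit 4) (nat_lit 272) (nat_lit 228) (nat_lit 160)))) (XT.nd (nat_lit 156) (nat_lit 0) (nat_lit 0) (XT.nd (nat_lit 78) (nat_lit 0) (nat_lit 0) (XT.lf (nat_lit 0) (nat_lit 327989390843) (nat_lit 152) (nat_lit 1270659351702) (nat_lit 0) (nat_lit 305023542451) (nat_lit 1) (nat_lit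 5) (nat_lit 3) (nat_lit 4) (nat_lit 1) (nat_lit 4) (nat_lit 273) (nat_lit 228) (nat_lit 159)) (XT.lf (nat_lit 0) (nat_lit 399636759509) (nat_lit 152) (nat_lit 1409005608256) (nat_lit 0) (nat_lit 376670716870) (nat_lit 1) (nat_lit 5) (nat_lit 3) (nat_lit 4) (nat_lit 1) (nat_lit 4) (nat_lit 274) (nat_lit 228) (nat_lit 158))) (XT.nd (nat_lit 78) (nat_lit 0) (nat_lit 0) (XT.lf (nat_lit 0) (nat_lit 482030824091) (nat_lit 152) (nat_lit 1568104629405) (nat_lit 0) (nat_lit 459064612542) (nat_lit 1) (nat_lit 5) (nat_lit 3) (nat_lit 4) (nat_lit 1) (nat_lit 4) (nat_lit 275) (nat_lit 228) (nat_lit 157)) (XT.nd (nat_lit 78) (nat_lit 0) (nat_lit 0) (XT.lf (nat_lit 0) (nat_lit 576783642374) (nat_lit 152) (nat_lit 1751069222084) (nat_lit 0) (nat_lit 553817283947) (nat_lit 1) (nat_lit 5) (nat_lit 3) (nat_lit 4) (nat_lit 1) (nat_lit 4) (nat_lit 276) (nat_lit 228) (nat_lit 156)) (XT.lf (nat_lit 0) (nat_lit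 685749073847) (nat_lit 152) (nat_lit 1961479128324) (nat_lit 0) (nat_lit 662782587700) (nat_lit 1) (nat_lit 5) (nat_lit 3) (nat_lit 4) (nat_lit 1) (nat_lit 4) (nat_lit 277) (nat_lit 228) (nat_lit 155)))))) (XT.nd (nat_lit 312) (nat_lit 0) (nat_lit 0) (XT.nd (nat_lit 156) (nat_lit 0) (nat_lit 0) (XT.nd (nat_lit 78) (nat_lit 0) (nat_lit 0) (XT.lf (nat_lit 0) (nat_lit 811059050864) (nat_lit 152) (nat_lit 2203451063681) (nat_lit 0) (nat_lit 788092453656) (nat_lit 1) (nat_lit 5) (nat_lit 3) (nat_lit 4) (nat_lit 1) (nat_lit 4) (nat_lit 278) (nat_lit 228) (nat_lit 154)) (XT.lf (nat_lit 0) (nat_lit 955165290368) (nat_lit 152) (nat_lit 2481719261674) (nat_lit 0) (nat_lit 932198596585) (nat_lit 1) (nat_lit 5) (nat_lit 3) (nat_lit 4) (nat_lit 1) (nat_lit 4) (nat_lit 279) (nat_lit 228) (nat_lit 153))) (XT.nd (nat_lit 78) (nat_lit 0) (nat_lit 0) (XT.lf (nat_lit 0) (nat_lit 1120887262261) (nat_lit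 152) (nat_lit 2801728100090) (nat_lit 0) (nat_lit 1097920484499) (nat_lit 1) (nat_lit 5) (nat_lit 3) (nat_lit 4) (nat_lit 1) (nat_lit 4) (nat_lit 280) (nat_lit 228) (nat_lit 152)) (XT.lf (nat_lit 0) (nat_lit 1311467352950) (nat_lit 152) (nat_lit 3169738621419) (nat_lit 0) (nat_lit 1288500502164) (nat_lit 1) (nat_lit 5) (nat_lit 3) (nat_lit 4) (nat_lit 1) (nat_lit 4) (nat_lit 281) (nat_lit 228) (nat_lit 151)))) (XT.nd (nat_lit 156) (nat_lit 0) (nat_lit 0) (XT.nd (nat_lit 78) (nat_lit 0) (nat_lit 0) (XT.lf (nat_lit 0) (nat_lit 1530634303339) (nat_lit 152) (nat_lit 3592951031512) (nat_lit 0) (nat_lit 1507667389054) (nat_lit 1) (nat_lit 5) (nat_lit 3) (nat_lit 4) (nat_lit 1) (nat_lit 4) (nat_lit 282) (nat_lit 228) (nat_lit 150)) (XT.lf (nat_lit 0) (nat_lit 1782676162459) (nat_lit 152) (nat_lit 4079645573178) (nat_lit 0) (nat_lit 1759709192957) (nat_lit 1) (nat_lit 5) (nat_lit 3) (nat_lit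 4) (nat_lit 1) (nat_lit 4) (nat_lit 283) (nat_lit 228) (nat_lit 149))) (XT.nd (nat_lit 78) (nat_lit 0) (nat_lit 0) (XT.lf (nat_lit 0) (nat_lit 2072524184075) (nat_lit 152) (nat_lit 4639344530925) (nat_lit 0) (nat_lit 2049557166558) (nat_lit 1) (nat_lit 5) (nat_lit 3) (nat_lit 4) (nat_lit 1) (nat_lit 4) (nat_lit 284) (nat_lit 228) (nat_lit 148)) (XT.nd (nat_lit 78) (nat_lit 0) (nat_lit 0) (XT.lf (nat_lit 0) (nat_lit 2405849307739) (nat_lit 152) (nat_lit 5282998536537) (nat_lit 0) (nat_lit 2382882248471) (nat_lit 1) (nat_lit 5) (nat_lit 3) (nat_lit 4) (nat_lit 1) (nat_lit 4) (nat_lit 285) (nat_lit 228) (nat_lit 147)) (XT.lf (nat_lit 0) (nat_lit 2789173111959) (nat_lit 152) (nat_lit 6023200820558) (nat_lit 0) (nat_lit 2766206016384) (nat_lit 1) (nat_lit 5) (nat_lit 3) (nat_lit 4) (nat_lit 1) (nat_lit 4) (nat_lit 286) (nat_lit 228) (nat_lit 146))))))))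
noncomputable def xc68 : XT := (XT.nd (nat_lit 30342) (nat_lit 0) (nat_lit 380) (XT.nd (nat_lit 624) (nat_lit 0) (nat_lit 0) (XT.nd (nat_lit 312) (nat_lit 0) (nat_lit 0) (XT.nd (nat_lit 156) (nat_lit 0) (nat_lit 0) (XT.nd (nat_lit 78) (nat_lit 0) (nat_lit 0) (XT.lf (nat_lit 0) (nat_lit 3229995410295) (nat_lit 152) (nat_lit 6874433601588) (nat_lit 0) (nat_lit 3207028283150) (nat_lit 1) (nat_lit 5) (nat_lit 3) (nat_lit 4) (nat_lit 1) (nat_lit 4) (nat_lit 287) (nat_lit 228) (nat_lit 145)) (XT.lf (nat_lit 0) (nat_lit 3736940986846) (nat_lit 152) (nat_lit 7853351434039) (nat_lit 0) (nat_lit 3713973832248) (nat_lit 1) (nat_lit 5) (nat_lit 3) (nat_lit 4) (nat_lit 1) (nat_lit 4) (nat_lit 288) (nat_lit 228) (nat_lit 144))) (XT.nd (nat_lit 78) (nat_lit 0) (nat_lit 0) (XT.lf (nat_lit 0) (nat_lit 4319928342021) (nat_lit 152) (nat_lit 8979107058111) (nat_lit 0) (nat_lit 4296961163551) (nat_lit 1)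 (nat_lit 5) (nat_lit 3) (nat_lit 4) (nat_lit 1) (nat_lit 4) (nat_lit 289) (nat_lit 228) (nat_lit 143)) (XT.lf (nat_lit 0) (nat_lit 4990363750161) (nat_lit 152) (nat_lit 10273726127318) (nat_lit 0) (nat_lit 4967396550933) (nat_lit 1) (nat_lit 5) (nat_lit 3) (nat_lit 4) (nat_lit 1) (nat_lit 4) (nat_lit 290) (nat_lit 228) (nat_lit 142)))) (XT.nd (nat_lit 156) (nat_lit 0) (nat_lit 0) (XT.nd (nat_lit 78) (nat_lit 0) (nat_lit 0) (XT.lf (nat_lit 0) (nat_lit 5761364425774) (nat_lit 152) (nat_lit 11762538145188) (nat_lit 0) (nat_lit 5738397208496) (nat_lit 1) (nat_lit 5) (nat_lit 3) (nat_lit 4) (nat_lit 1) (nat_lit 4) (nat_lit 291) (nat_lit 228) (nat_lit 141)) (XT.lf (nat_lit 0) (nat_lit 6648015164686) (nat_lit 152) (nat_lit 13474672042506) (nat_lit 0) (nat_lit 6625047931712) (nat_lit 1) (nat_lit 5) (nat_lit 3) (nat_lit 4) (nat_lit 1) (nat_lit 4) (nat_lit 292) (nat_lit 228) (nat_lit 140))) (XT.nd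 (nat_lit 78) (nat_lit 0) (nat_lit 0) (XT.lf (nat_lit 0) (nat_lit 7667663481355) (nat_lit 152) (nat_lit 15443626091175) (nat_lit 0) (nat_lit 7644696234732) (nat_lit 1) (nat_lit 5) (nat_lit 3) (nat_lit 4) (nat_lit 1) (nat_lit 4) (nat_lit 293) (nat_lit 228) (nat_lit 139)) (XT.lf (nat_lit 0) (nat_lit 8840259016759) (nat_lit 152) (nat_lit 17707923305192) (nat_lit 0) (nat_lit 8817291758267) (nat_lit 1) (nat_lit 5) (nat_lit 3) (nat_lit 4) (nat_lit 1) (nat_lit 4) (nat_lit 294) (nat_lit 228) (nat_lit 138))))) (XT.nd (nat_lit 29328) (nat_lit 0) (nat_lit 1368) (XT.nd (nat_lit 1482) (nat_lit 0) (nat_lit 0) (XT.nd (nat_lit 78) (nat_lit 0) (nat_lit 0) (XT.lf (nat_lit 0) (nat_lit 10188743857460) (nat_lit 152) (nat_lit 20311865151788) (nat_lit 0) (nat_lit 10165776588648) (nat_lit 1) (nat_lit 5) (nat_lit 3) (nat_lit 4) (nat_lit 1) (nat_lit 4) (nat_lit 295) (nat_lit 228) (nat_lit 137)) (XT.lf (nat_lit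 0) (nat_lit 11739501402515) (nat_lit 152) (nat_lit 23306398319264) (nat_lit 0) (nat_lit 11716534124729) (nat_lit 1) (nat_lit 5) (nat_lit 3) (nat_lit 4) (nat_lit 1) (nat_lit 4) (nat_lit 296) (nat_lit 228) (nat_lit 136))) (XT.nd (nat_lit 27768) (nat_lit 0) (nat_lit 1748) (XT.lf (nat_lit 0) (nat_lit 146983869819098) (nat_lit 152) (nat_lit 284465069910811) (nat_lit 0) (nat_lit 146960902486318) (nat_lit 1) (nat_lit 5) (nat_lit 3) (nat_lit 4) (nat_lit 1) (nat_lit 4) (nat_lit 314) (nat_lit 228) (nat_lit 118)) (XT.lf (nat_lit 0) (nat_lit 3622258019) (nat_lit 0) (nat_lit 3622258019) (nat_lit 228) (nat_lit 41990542) (nat_lit 24) (nat_lit 5) (nat_lit 24) (nat_lit 3) (nat_lit 27) (nat_lit 3) (nat_lit 229) (nat_lit 229) (nat_lit 202)))) (XT.nd (nat_lit 156) (nat_lit 0) (nat_lit 76) (XT.nd (nat_lit 78) (nat_lit 0) (nat_lit 76) (XT.lf (nat_lit 0) (nat_lit 202642468) (nat_lit 380) (nat_lit 741090190)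 (nat_lit 380) (nat_lit 14678443744) (nat_lit 19) (nat_lit 3) (nat_lit 24) (nat_lit 3) (nat_lit 24) (nat_lit 5) (nat_lit 230) (nat_lit 229) (nat_lit 201)) (XT.lf (nat_lit 0) (nat_lit 1058835722) (nat_lit 304) (nat_lit 9600630991) (nat_lit 380) (nat_lit 6088663561) (nat_lit 20) (nat_lit 5) (nat_lit 24) (nat_lit 5) (nat_lit 25) (nat_lit 5) (nat_lit 231) (nat_lit 229) (nat_lit 200))) (XT.nd (nat_lit 78) (nat_lit 0) (nat_lit 76) (XT.lf (nat_lit 0) (nat_lit 2084429771) (nat_lit 304) (nat_lit 1817025517) (nat_lit 380) (nat_lit 14135630206) (nat_lit 20) (nat_lit 5) (nat_lit 24) (nat_lit 5) (nat_lit 25) (nat_lit 5) (nat_lit 232) (nat_lit 229) (nat_lit 199)) (XT.nd (nat_lit 78) (nat_lit 0) (nat_lit 0) (XT.lf (nat_lit 0) (nat_lit 3723939103) (nat_lit 304) (nat_lit 11855733909) (nat_lit 76) (nat_lit 3870920464) (nat_lit 21) (nat_lit 5) (nat_lit 25) (nat_lit 5) (nat_lit 22) (nat_lit 5) (nat_lit 233)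 (nat_lit 229) (nat_lit 198)) (XT.lf (nat_lit 0) (nat_lit 5859963950) (nat_lit 304) (nat_lit 2664763433) (nat_lit 76) (nat_lit 12514003994) (nat_lit 21) (nat_lit 5) (nat_lit 25) (nat_lit 5) (nat_lit 22) (nat_lit 5) (nat_lit 234) (nat_lit 229) (nat_lit 197))))))) (XT.nd (nat_lit 702) (nat_lit 304) (nat_lit 0) (XT.nd (nat_lit 312) (nat_lit 380) (nat_lit 0) (XT.nd (nat_lit 156) (nat_lit 152) (nat_lit 0) (XT.nd (nat_lit 78) (nat_lit 0) (nat_lit 0) (XT.lf (nat_lit 0) (nat_lit 8643664695) (nat_lit 304) (nat_lit 471162) (nat_lit 380) (nat_lit 14171959641) (nat_lit 17) (nat_lit 5) (nat_lit 21) (nat_lit 5) (nat_lit 22) (nat_lit 5) (nat_lit 235) (nat_lit 229) (nat_lit 196)) (XT.lf (nat_lit 0) (nat_lit 12370230925) (nat_lit 380) (nat_lit 3337357238) (nat_lit 76) (nat_lit 9073976716) (nat_lit 17) (nat_lit 5) (nat_lit 22) (nat_lit 5) (nat_lit 18) (nat_lit 5) (nat_lit 236) (nat_lit 229) (nat_lit 195)))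 (XT.nd (nat_lit 78) (nat_lit 0) (nat_lit 0) (XT.lf (nat_lit 0) (nat_lit 9982542249) (nat_lit 152) (nat_lit 7062139183) (nat_lit 228) (nat_lit 9938883361) (nat_lit 15) (nat_lit 5) (nat_lit 17) (nat_lit 5) (nat_lit 18) (nat_lit 5) (nat_lit 237) (nat_lit 229) (nat_lit 194)) (XT.lf (nat_lit 0) (nat_lit 22700111648) (nat_lit 228) (nat_lit 3972730532) (nat_lit 76) (nat_lit 2801160520) (nat_lit 15) (nat_lit 5) (nat_lit 18) (nat_lit 5) (nat_lit 16) (nat_lit 4) (nat_lit 238) (nat_lit 229) (nat_lit 193)))) (XT.nd (nat_lit 156) (nat_lit 228) (nat_lit 0) (XT.nd (nat_lit 78) (nat_lit 76) (nat_lit 0) (XT.lf (nat_lit 0) (nat_lit 11687047163) (nat_lit 76) (nat_lit 18317726120) (nat_lit 152) (nat_lit 2213190982) (nat_lit 14) (nat_lit 5) (nat_lit 15) (nat_lit 5) (nat_lit 16) (nat_lit 4) (nat_lit 239) (nat_lit 229) (nat_lit 192)) (XT.lf (nat_lit 0) (nat_lit 2960490531) (nat_lit 152) (nat_lit 5363130838)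 (nat_lit 76) (nat_lit 27001325254) (nat_lit 13) (nat_lit 5) (nat_lit 15) (nat_lit 5) (nat_lit 14) (nat_lit 5) (nat_lit 240) (nat_lit 229) (nat_lit 191))) (XT.nd (nat_lit 78) (nat_lit 76) (nat_lit 0) (XT.lf (nat_lit 0) (nat_lit 9372317772) (nat_lit 228) (nat_lit 25846708356) (nat_lit 76) (nat_lit 3559902182) (nat_lit 11) (nat_lit 5) (nat_lit 14) (nat_lit 5) (nat_lit 12) (nat_lit 4) (nat_lit 241) (nat_lit 229) (nat_lit 190)) (XT.nd (nat_lit 78) (nat_lit 76) (nat_lit 0) (XT.lf (nat_lit 0) (nat_lit 17420504304) (nat_lit 228) (nat_lit 8568976184) (nat_lit 76) (nat_lit 16660393583) (nat_lit 11) (nat_lit 5) (nat_lit 14) (nat_lit 5) (nat_lit 12) (nat_lit 4) (nat_lit 242) (nat_lit 229) (nat_lit 189)) (XT.lf (nat_lit 0) (nat_lit 12380983360) (nat_lit 76) (nat_lit 14794150812) (nat_lit 152) (nat_lit 19851492704) (nat_lit 10) (nat_lit 5) (nat_lit 11) (nat_lit 5) (nat_lit 12) (nat_lit 4) (nat_lit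 243) (nat_lit 229) (nat_lit 188)))))) (XT.nd (nat_lit 312) (nat_lit 152) (nat_lit 0) (XT.nd (nat_lit 156) (nat_lit 76) (nat_lit 0) (XT.nd (nat_lit 78) (nat_lit 76) (nat_lit 0) (XT.lf (nat_lit 0) (nat_lit 37415784848) (nat_lit 76) (nat_lit 1412540986) (nat_lit 152) (nat_lit 13166302959) (nat_lit 10) (nat_lit 5) (nat_lit 11) (nat_lit 5) (nat_lit 12) (nat_lit 4) (nat_lit 244) (nat_lit 229) (nat_lit 187)) (XT.lf (nat_lit 0) (nat_lit 8671909151) (nat_lit 76) (nat_lit 44484190125) (nat_lit 76) (nat_lit 4412777169) (nat_lit 9) (nat_lit 4) (nat_lit 10) (nat_lit 5) (nat_lit 10) (nat_lit 4) (nat_lit 245) (nat_lit 229) (nat_lit 186))) (XT.nd (nat_lit 78) (nat_lit 0) (nat_lit 0) (XT.lf (nat_lit 0) (nat_lit 6005024388) (nat_lit 152) (nat_lit 27173471922) (nat_lit 76) (nat_lit 30637487662) (nat_lit 8) (nat_lit 5) (nat_lit 10) (nat_lit 5) (nat_lit 9) (nat_lit 4) (nat_lit 246) (nat_lit 229) (nat_lit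 185)) (XT.lf (nat_lit 0) (nat_lit 17524108500) (nat_lit 152) (nat_lit 2418624907) (nat_lit 76) (nat_lit 51027368493) (nat_lit 8) (nat_lit 5) (nat_lit 10) (nat_lit 5) (nat_lit 9) (nat_lit 4) (nat_lit 247) (nat_lit 229) (nat_lit 184)))) (XT.nd (nat_lit 156) (nat_lit 76) (nat_lit 0) (XT.nd (nat_lit 78) (nat_lit 0) (nat_lit 0) (XT.lf (nat_lit 0) (nat_lit 28578924928) (nat_lit 76) (nat_lit 3367171899) (nat_lit 152) (nat_lit 47075004979) (nat_lit 7) (nat_lit 5) (nat_lit 8) (nat_lit 5) (nat_lit 9) (nat_lit 4) (nat_lit 248) (nat_lit 229) (nat_lit 183)) (XT.lf (nat_lit 0) (nat_lit 49305609016) (nat_lit 152) (nat_lit 24433843617) (nat_lit 0) (nat_lit 14424183074) (nat_lit 7) (nat_lit 5) (nat_lit 9) (nat_lit 4) (nat_lit 7) (nat_lit 4) (nat_lit 249) (nat_lit 229) (nat_lit 182))) (XT.nd (nat_lit 78) (nat_lit 0) (nat_lit 0) (XT.lf (nat_lit 0) (nat_lit 5820464454) (nat_lit 76) (nat_lit 63842887734)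 (nat_lit 76) (nat_lit 28955067403) (nat_lit 6) (nat_lit 4) (nat_lit 7) (nat_lit 5) (nat_lit 7) (nat_lit 4) (nat_lit 250) (nat_lit 229) (nat_lit 181)) (XT.nd (nat_lit 78) (nat_lit 0) (nat_lit 0) (XT.lf (nat_lit 0) (nat_lit 43346433901) (nat_lit 76) (nat_lit 50998897564) (nat_lit 76) (nat_lit 16105516895) (nat_lit 6) (nat_lit 4) (nat_lit 7) (nat_lit 5) (nat_lit 7) (nat_lit 4) (nat_lit 251) (nat_lit 229) (nat_lit 180)) (XT.lf (nat_lit 0) (nat_lit 86490415573) (nat_lit 76) (nat_lit 36233410309) (nat_lit 76) (nat_lit 1335194562) (nat_lit 6) (nat_lit 4) (nat_lit 7) (nat_lit 5) (nat_lit 7) (nat_lit 4) (nat_lit 252) (nat_lit 229) (nat_lit 179))))))))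
noncomputable def xc69 : XT := (XT.nd (nat_lit 1404) (nat_lit 0) (nat_lit 0) (XT.nd (nat_lit 702) (nat_lit 152) (nat_lit 0) (XT.nd (nat_lit 312) (nat_lit 76) (nat_lit 0) (XT.nd (nat_lit 156) (nat_lit 0) (nat_lit 0) (XT.nd (nat_lit 78) (nat_lit 76) (nat_lit 0) (XT.lf (nat_lit 0) (nat_lit 14252068387) (nat_lit 152) (nat_lit 4260473128) (nat_lit 76) (nat_lit 121099467980) (nat_lit 5) (nat_lit 5) (nat_lit 7) (nat_lit 5) (nat_lit 6) (nat_lit 4) (nat_lit 253) (nat_lit 229) (nat_lit 178)) (XT.lf (nat_lit 0) (nat_lit 33733974034) (nat_lit 152) (nat_lit 120119591405) (nat_lit 0) (nat_lit 3380864317) (nat_lit 4) (nat_lit 5) (nat_lit 6) (nat_lit 4) (nat_lit 4) (nat_lit 4) (nat_lit 254) (nat_lit 229) (nat_lit 177))) (XT.nd (nat_lit 78) (nat_lit 0) (nat_lit 0) (XT.lf (nat_lit 0) (nat_lit 57248529922) (nat_lit 152) (nat_lit 93192479450) (nat_lit 0) (nat_lit 26892655733) (nat_lit 4) (nat_lit 5) (nat_lit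 6) (nat_lit 4) (nat_lit 4) (nat_lit 4) (nat_lit 255) (nat_lit 229) (nat_lit 176)) (XT.lf (nat_lit 0) (nat_lit 84286358910) (nat_lit 152) (nat_lit 62233938393) (nat_lit 0) (nat_lit 53928080833) (nat_lit 4) (nat_lit 5) (nat_lit 6) (nat_lit 4) (nat_lit 4) (nat_lit 4) (nat_lit 256) (nat_lit 229) (nat_lit 175)))) (XT.nd (nat_lit 156) (nat_lit 0) (nat_lit 0) (XT.nd (nat_lit 78) (nat_lit 76) (nat_lit 0) (XT.lf (nat_lit 0) (nat_lit 115376462000) (nat_lit 152) (nat_lit 26638257647) (nat_lit 0) (nat_lit 85016093586) (nat_lit 4) (nat_lit 5) (nat_lit 6) (nat_lit 4) (nat_lit 4) (nat_lit 4) (nat_lit 257) (nat_lit 229) (nat_lit 174)) (XT.lf (nat_lit 0) (nat_lit 15687620476) (nat_lit 76) (nat_lit 136089094251) (nat_lit 76) (nat_lit 105726908152) (nat_lit 3) (nat_lit 4) (nat_lit 4) (nat_lit 5) (nat_lit 4) (nat_lit 4) (nat_lit 258) (nat_lit 229) (nat_lit 173))) (XT.nd (nat_lit 78) (nat_lit 0) (nat_lit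 0) (XT.lf (nat_lit 0) (nat_lit 67350644547) (nat_lit 76) (nat_lit 127676015851) (nat_lit 76) (nat_lit 97312249157) (nat_lit 3) (nat_lit 4) (nat_lit 4) (nat_lit 5) (nat_lit 4) (nat_lit 4) (nat_lit 259) (nat_lit 229) (nat_lit 172)) (XT.nd (nat_lit 78) (nat_lit 0) (nat_lit 0) (XT.lf (nat_lit 0) (nat_lit 126758328591) (nat_lit 76) (nat_lit 118003335117) (nat_lit 76) (nat_lit 87638193992) (nat_lit 3) (nat_lit 4) (nat_lit 4) (nat_lit 5) (nat_lit 4) (nat_lit 4) (nat_lit 260) (nat_lit 229) (nat_lit 171)) (XT.lf (nat_lit 0) (nat_lit 195072996862) (nat_lit 76) (nat_lit 106881803946) (nat_lit 76) (nat_lit 76515467665) (nat_lit 3) (nat_lit 4) (nat_lit 4) (nat_lit 5) (nat_lit 4) (nat_lit 4) (nat_lit 261) (nat_lit 229) (nat_lit 170)))))) (XT.nd (nat_lit 312) (nat_lit 152) (nat_lit 0) (XT.nd (nat_lit 156) (nat_lit 0) (nat_lit 0) (XT.nd (nat_lit 78) (nat_lit 0) (nat_lit 0) (XT.lf (nat_lit 0) (nat_lit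 273631240695) (nat_lit 76) (nat_lit 94093827165) (nat_lit 76) (nat_lit 63726451616) (nat_lit 3) (nat_lit 4) (nat_lit 4) (nat_lit 5) (nat_lit 4) (nat_lit 4) (nat_lit 262) (nat_lit 229) (nat_lit 169)) (XT.lf (nat_lit 0) (nat_lit 363970069210) (nat_lit 76) (nat_lit 79389205228) (nat_lit 76) (nat_lit 49020925968) (nat_lit 3) (nat_lit 4) (nat_lit 4) (nat_lit 5) (nat_lit 4) (nat_lit 4) (nat_lit 263) (nat_lit 229) (nat_lit 168))) (XT.nd (nat_lit 78) (nat_lit 0) (nat_lit 0) (XT.lf (nat_lit 0) (nat_lit 467856981224) (nat_lit 76) (nat_lit 62480239008) (nat_lit 76) (nat_lit 32111173914) (nat_lit 3) (nat_lit 4) (nat_lit 4) (nat_lit 5) (nat_lit 4) (nat_lit 4) (nat_lit 264) (nat_lit 229) (nat_lit 167)) (XT.lf (nat_lit 0) (nat_lit 587324546756) (nat_lit 76) (nat_lit 43036100908) (nat_lit 76) (nat_lit 12666352478) (nat_lit 3) (nat_lit 4) (nat_lit 4) (nat_lit 5) (nat_lit 4) (nat_lit 4) (nat_lit 265)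 (nat_lit 229) (nat_lit 166)))) (XT.nd (nat_lit 156) (nat_lit 0) (nat_lit 0) (XT.nd (nat_lit 78) (nat_lit 76) (nat_lit 0) (XT.lf (nat_lit 0) (nat_lit 8830955317) (nat_lit 152) (nat_lit 11383788700) (nat_lit 76) (nat_lit 715417601260) (nat_lit 2) (nat_lit 5) (nat_lit 4) (nat_lit 5) (nat_lit 3) (nat_lit 4) (nat_lit 266) (nat_lit 229) (nat_lit 165)) (XT.lf (nat_lit 0) (nat_lit 34389548242) (nat_lit 152) (nat_lit 799348343413) (nat_lit 0) (nat_lit 7980105343) (nat_lit 1) (nat_lit 5) (nat_lit 3) (nat_lit 4) (nat_lit 1) (nat_lit 4) (nat_lit 267) (nat_lit 229) (nat_lit 164))) (XT.nd (nat_lit 78) (nat_lit 0) (nat_lit 0) (XT.lf (nat_lit 0) (nat_lit 65366987986) (nat_lit 152) (nat_lit 859154596369) (nat_lit 0) (nat_lit 38957154389) (nat_lit 1) (nat_lit 5) (nat_lit 3) (nat_lit 4) (nat_lit 1) (nat_lit 4) (nat_lit 268) (nat_lit 229) (nat_lit 163)) (XT.nd (nat_lit 78) (nat_lit 0) (nat_lit 0) (XT.lf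 (nat_lit 0) (nat_lit 100990220275) (nat_lit 152) (nat_lit 927933448874) (nat_lit 0) (nat_lit 74580046939) (nat_lit 1) (nat_lit 5) (nat_lit 3) (nat_lit 4) (nat_lit 1) (nat_lit 4) (nat_lit 269) (nat_lit 229) (nat_lit 162)) (XT.lf (nat_lit 0) (nat_lit 141956221393) (nat_lit 152) (nat_lit 1007030574128) (nat_lit 0) (nat_lit 115545752633) (nat_lit 1) (nat_lit 5) (nat_lit 3) (nat_lit 4) (nat_lit 1) (nat_lit 4) (nat_lit 270) (nat_lit 229) (nat_lit 161))))))) (XT.nd (nat_lit 702) (nat_lit 0) (nat_lit 0) (XT.nd (nat_lit 312) (nat_lit 0) (nat_lit 0) (XT.nd (nat_lit 156) (nat_lit 0) (nat_lit 0) (XT.nd (nat_lit 78) (nat_lit 0) (nat_lit 0) (XT.lf (nat_lit 0) (nat_lit 189066500057) (nat_lit 152) (nat_lit 1097993524583) (nat_lit 0) (nat_lit 162655774406) (nat_lit 1) (nat_lit 5) (nat_lit 3) (nat_lit 4) (nat_lit 1) (nat_lit 4) (nat_lit 271) (nat_lit 229) (nat_lit 160)) (XT.lf (nat_lit 0) (nat_lit 243242779110)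 (nat_lit 152) (nat_lit 1202602010139) (nat_lit 0) (nat_lit 216831830076) (nat_lit 1) (nat_lit 5) (nat_lit 3) (nat_lit 4) (nat_lit 1) (nat_lit 4) (nat_lit 272) (nat_lit 229) (nat_lit 159))) (XT.nd (nat_lit 78) (nat_lit 0) (nat_lit 0) (XT.lf (nat_lit 0) (nat_lit 305545029231) (nat_lit 152) (nat_lit 1322902718557) (nat_lit 0) (nat_lit 279133885950) (nat_lit 1) (nat_lit 5) (nat_lit 3) (nat_lit 4) (nat_lit 1) (nat_lit 4) (nat_lit 273) (nat_lit 229) (nat_lit 158)) (XT.lf (nat_lit 0) (nat_lit 377192207485) (nat_lit 152) (nat_lit 1461249359349) (nat_lit 0) (nat_lit 350780895294) (nat_lit 1) (nat_lit 5) (nat_lit 3) (nat_lit 4) (nat_lit 1) (nat_lit 4) (nat_lit 274) (nat_lit 229) (nat_lit 157)))) (XT.nd (nat_lit 156) (nat_lit 0) (nat_lit 0) (XT.nd (nat_lit 78) (nat_lit 0) (nat_lit 0) (XT.lf (nat_lit 0) (nat_lit 459586106492) (nat_lit 152) (nat_lit 1620348714618) (nat_lit 0) (nat_lit 433174647423)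 (nat_lit 1) (nat_lit 5) (nat_lit 3) (nat_lit 4) (nat_lit 1) (nat_lit 4) (nat_lit 275) (nat_lit 229) (nat_lit 156)) (XT.lf (nat_lit 0) (nat_lit 554338780798) (nat_lit 152) (nat_lit 1803313597836) (nat_lit 0) (nat_lit 527927194008) (nat_lit 1) (nat_lit 5) (nat_lit 3) (nat_lit 4) (nat_lit 1) (nat_lit 4) (nat_lit 276) (nat_lit 229) (nat_lit 155))) (XT.nd (nat_lit 78) (nat_lit 0) (nat_lit 0) (XT.lf (nat_lit 0) (nat_lit 663304087072) (nat_lit 152) (nat_lit 2013723756718) (nat_lit 0) (nat_lit 636892389222) (nat_lit 1) (nat_lit 5) (nat_lit 3) (nat_lit 4) (nat_lit 1) (nat_lit 4) (nat_lit 277) (nat_lit 229) (nat_lit 154)) (XT.nd (nat_lit 78) (nat_lit 0) (nat_lit 0) (XT.lf (nat_lit 0) (nat_lit 788613955221) (nat_lit 152) (nat_lit 2255695911765) (nat_lit 0) (nat_lit 762202160796) (nat_lit 1) (nat_lit 5) (nat_lit 3) (nat_lit 4) (nat_lit 1) (nat_lit 4) (nat_lit 278) (nat_lit 229) (nat_lit 153)) (XT.lf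 (nat_lit 0) (nat_lit 932720100057) (nat_lit 152) (nat_lit 2533964300793) (nat_lit 0) (nat_lit 906308221653) (nat_lit 1) (nat_lit 5) (nat_lit 3) (nat_lit 4) (nat_lit 1) (nat_lit 4) (nat_lit 279) (nat_lit 229) (nat_lit 152)))))) (XT.nd (nat_lit 312) (nat_lit 0) (nat_lit 0) (XT.nd (nat_lit 156) (nat_lit 0) (nat_lit 0) (XT.nd (nat_lit 78) (nat_lit 0) (nat_lit 0) (XT.lf (nat_lit 0) (nat_lit 1098441989630) (nat_lit 152) (nat_lit 2853973305325) (nat_lit 0) (nat_lit 1072030038202) (nat_lit 1) (nat_lit 5) (nat_lit 3) (nat_lit 4) (nat_lit 1) (nat_lit 4) (nat_lit 280) (nat_lit 229) (nat_lit 151)) (XT.lf (nat_lit 0) (nat_lit 1289022008736) (nat_lit 152) (nat_lit 3221983971103) (nat_lit 0) (nat_lit 1262609993809) (nat_lit 1) (nat_lit 5) (nat_lit 3) (nat_lit 4) (nat_lit 1) (nat_lit 4) (nat_lit 281) (nat_lit 229) (nat_lit 150))) (XT.nd (nat_lit 78) (nat_lit 0) (nat_lit 0) (XT.lf (nat_lit 0) (nat_lit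 1508188896880) (nat_lit 152) (nat_lit 3645196506805) (nat_lit 0) (nat_lit 1481776826736) (nat_lit 1) (nat_lit 5) (nat_lit 3) (nat_lit 4) (nat_lit 1) (nat_lit 4) (nat_lit 282) (nat_lit 229) (nat_lit 149)) (XT.lf (nat_lit 0) (nat_lit 1760230701873) (nat_lit 152) (nat_lit 4131891157695) (nat_lit 0) (nat_lit 1733818583714) (nat_lit 1) (nat_lit 5) (nat_lit 3) (nat_lit 4) (nat_lit 1) (nat_lit 4) (nat_lit 283) (nat_lit 229) (nat_lit 148)))) (XT.nd (nat_lit 156) (nat_lit 0) (nat_lit 0) (XT.nd (nat_lit 78) (nat_lit 0) (nat_lit 0) (XT.lf (nat_lit 0) (nat_lit 2050078676422) (nat_lit 152) (nat_lit 4691590210420) (nat_lit 0) (nat_lit 2023666516511) (nat_lit 1) (nat_lit 5) (nat_lit 3) (nat_lit 4) (nat_lit 1) (nat_lit 4) (nat_lit 284) (nat_lit 229) (nat_lit 147)) (XT.lf (nat_lit 0) (nat_lit 2383403759159) (nat_lit 152) (nat_lit 5335244298621) (nat_lit 0) (nat_lit 2356991562942) (nat_lit 1) (nat_lit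 5) (nat_lit 3) (nat_lit 4) (nat_lit 1) (nat_lit 4) (nat_lit 285) (nat_lit 229) (nat_lit 146))) (XT.nd (nat_lit 78) (nat_lit 0) (nat_lit 0) (XT.lf (nat_lit 0) (nat_lit 2766727527790) (nat_lit 152) (nat_lit 6075446654459) (nat_lit 0) (nat_lit 2740315300002) (nat_lit 1) (nat_lit 5) (nat_lit 3) (nat_lit 4) (nat_lit 1) (nat_lit 4) (nat_lit 286) (nat_lit 229) (nat_lit 145)) (XT.nd (nat_lit 78) (nat_lit 0) (nat_lit 0) (XT.lf (nat_lit 0) (nat_lit 3207549795179) (nat_lit 152) (nat_lit 6926679497938) (nat_lit 0) (nat_lit 3181137539939) (nat_lit 1) (nat_lit 5) (nat_lit 3) (nat_lit 4) (nat_lit 1) (nat_lit 4) (nat_lit 287) (nat_lit 229) (nat_lit 144)) (XT.lf (nat_lit 0) (nat_lit 3714495344819) (nat_lit 152) (nat_lit 7905597384693) (nat_lit 0) (nat_lit 3688083065707) (nat_lit 1) (nat_lit 5) (nat_lit 3) (nat_lit 4) (nat_lit 1) (nat_lit 4) (nat_lit 288) (nat_lit 229) (nat_lit 143))))))))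
noncomputable def xc70 : XT := (XT.nd (nat_lit 30498) (nat_lit 0) (nat_lit 228) (XT.nd (nat_lit 29796) (nat_lit 0) (nat_lit 1064) (XT.nd (nat_lit 312) (nat_lit 0) (nat_lit 0) (XT.nd (nat_lit 156) (nat_lit 0) (nat_lit 0) (XT.nd (nat_lit 78) (nat_lit 0) (nat_lit 0) (XT.lf (nat_lit 0) (nat_lit 4297482676593) (nat_lit 152) (nat_lit 9031353055985) (nat_lit 0) (nat_lit 4271070376723) (nat_lit 1) (nat_lit 5) (nat_lit 3) (nat_lit 4) (nat_lit 1) (nat_lit 4) (nat_lit 289) (nat_lit 229) (nat_lit 142)) (XT.lf (nat_lit 0) (nat_lit 4967918064386) (nat_lit 152) (nat_lit 10325972166254) (nat_lit 0) (nat_lit 4941505746465) (nat_lit 1) (nat_lit 5) (nat_lit 3) (nat_lit 4) (nat_lit 1) (nat_lit 4) (nat_lit 290) (nat_lit 229) (nat_lit 141))) (XT.nd (nat_lit 78) (nat_lit 0) (nat_lit 0) (XT.lf (nat_lit 0) (nat_lit 5738918722304) (nat_lit 152) (nat_lit 11814784219830) (nat_lit 0) (nat_lit 5712506388688) (nat_lit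 1) (nat_lit 5) (nat_lit 3) (nat_lit 4) (nat_lit 1) (nat_lit 4) (nat_lit 291) (nat_lit 229) (nat_lit 140)) (XT.lf (nat_lit 0) (nat_lit 6625569445830) (nat_lit 152) (nat_lit 13526918148196) (nat_lit 0) (nat_lit 6599157098565) (nat_lit 1) (nat_lit 5) (nat_lit 3) (nat_lit 4) (nat_lit 1) (nat_lit 4) (nat_lit 292) (nat_lit 229) (nat_lit 139)))) (XT.nd (nat_lit 156) (nat_lit 0) (nat_lit 0) (XT.nd (nat_lit 78) (nat_lit 0) (nat_lit 0) (XT.lf (nat_lit 0) (nat_lit 7645217749120) (nat_lit 152) (nat_lit 15495872223864) (nat_lit 0) (nat_lit 7618805389986) (nat_lit 1) (nat_lit 5) (nat_lit 3) (nat_lit 4) (nat_lit 1) (nat_lit 4) (nat_lit 293) (nat_lit 229) (nat_lit 138)) (XT.lf (nat_lit 0) (nat_lit 8817813272890) (nat_lit 152) (nat_lit 17760169461358) (nat_lit 0) (nat_lit 8791400903435) (nat_lit 1) (nat_lit 5) (nat_lit 3) (nat_lit 4) (nat_lit 1) (nat_lit 4) (nat_lit 294) (nat_lit 229) (nat_lit 137)))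 (XT.nd (nat_lit 78) (nat_lit 0) (nat_lit 0) (XT.lf (nat_lit 0) (nat_lit 10166298103474) (nat_lit 152) (nat_lit 20364111328368) (nat_lit 0) (nat_lit 10139885725045) (nat_lit 1) (nat_lit 5) (nat_lit 3) (nat_lit 4) (nat_lit 1) (nat_lit 4) (nat_lit 295) (nat_lit 229) (nat_lit 136)) (XT.lf (nat_lit 0) (nat_lit 11717055639732) (nat_lit 152) (nat_lit 23358644513597) (nat_lit 0) (nat_lit 11690643253500) (nat_lit 1) (nat_lit 5) (nat_lit 3) (nat_lit 4) (nat_lit 1) (nat_lit 4) (nat_lit 296) (nat_lit 229) (nat_lit 135))))) (XT.nd (nat_lit 312) (nat_lit 304) (nat_lit 0) (XT.nd (nat_lit 156) (nat_lit 0) (nat_lit 76) (XT.nd (nat_lit 78) (nat_lit 0) (nat_lit 0) (XT.lf (nat_lit 0) (nat_lit 229098250) (nat_lit 380) (nat_lit 4054074086) (nat_lit 380) (nat_lit 4054074086) (nat_lit 19) (nat_lit 3) (nat_lit 24) (nat_lit 3) (nat_lit 24) (nat_lit 5) (nat_lit 230) (nat_lit 230) (nat_lit 200)) (XT.lf (nat_lit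 0) (nat_lit 707975086) (nat_lit 380) (nat_lit 577797700) (nat_lit 380) (nat_lit 16605754287) (nat_lit 19) (nat_lit 3) (nat_lit 24) (nat_lit 3) (nat_lit 24) (nat_lit 5) (nat_lit 231) (nat_lit 230) (nat_lit 199))) (XT.nd (nat_lit 78) (nat_lit 0) (nat_lit 0) (XT.lf (nat_lit 0) (nat_lit 1634795101) (nat_lit 304) (nat_lit 10706088826) (nat_lit 380) (nat_lit 6854517218) (nat_lit 20) (nat_lit 5) (nat_lit 24) (nat_lit 5) (nat_lit 25) (nat_lit 5) (nat_lit 232) (nat_lit 230) (nat_lit 198)) (XT.lf (nat_lit 0) (nat_lit 2759819472) (nat_lit 304) (nat_lit 1798590812) (nat_lit 380) (nat_lit 16127760931) (nat_lit 20) (nat_lit 5) (nat_lit 24) (nat_lit 5) (nat_lit 25) (nat_lit 5) (nat_lit 233) (nat_lit 230) (nat_lit 197)))) (XT.nd (nat_lit 156) (nat_lit 456) (nat_lit 0) (XT.nd (nat_lit 78) (nat_lit 0) (nat_lit 0) (XT.lf (nat_lit 0) (nat_lit 4607409419) (nat_lit 304) (nat_lit 13303461139) (nat_lit 76)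 (nat_lit 4406781483) (nat_lit 21) (nat_lit 5) (nat_lit 25) (nat_lit 5) (nat_lit 22) (nat_lit 5) (nat_lit 234) (nat_lit 230) (nat_lit 196)) (XT.lf (nat_lit 0) (nat_lit 7021462413) (nat_lit 304) (nat_lit 2776971116) (nat_lit 76) (nat_lit 14352168028) (nat_lit 21) (nat_lit 5) (nat_lit 25) (nat_lit 5) (nat_lit 22) (nat_lit 5) (nat_lit 235) (nat_lit 230) (nat_lit 195))) (XT.nd (nat_lit 78) (nat_lit 152) (nat_lit 0) (XT.lf (nat_lit 0) (nat_lit 10198474524) (nat_lit 380) (nat_lit 15984643058) (nat_lit 76) (nat_lit 15374544) (nat_lit 17) (nat_lit 5) (nat_lit 22) (nat_lit 5) (nat_lit 18) (nat_lit 5) (nat_lit 236) (nat_lit 230) (nat_lit 194)) (XT.nd (nat_lit 78) (nat_lit 152) (nat_lit 0) (XT.lf (nat_lit 0) (nat_lit 14449887933) (nat_lit 380) (nat_lit 3565239145) (nat_lit 76) (nat_lit 10448871609) (nat_lit 17) (nat_lit 5) (nat_lit 22) (nat_lit 5) (nat_lit 18) (nat_lit 5) (nat_lit 237) (nat_lit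 230) (nat_lit 193)) (XT.lf (nat_lit 0) (nat_lit 11740248825) (nat_lit 152) (nat_lit 8066803351) (nat_lit 228) (nat_lit 11192168735) (nat_lit 15) (nat_lit 5) (nat_lit 17) (nat_lit 5) (nat_lit 18) (nat_lit 5) (nat_lit 238) (nat_lit 230) (nat_lit 192))))))) (XT.nd (nat_lit 702) (nat_lit 304) (nat_lit 0) (XT.nd (nat_lit 312) (nat_lit 228) (nat_lit 0) (XT.nd (nat_lit 156) (nat_lit 228) (nat_lit 0) (XT.nd (nat_lit 78) (nat_lit 76) (nat_lit 0) (XT.lf (nat_lit 0) (nat_lit 26285938611) (nat_lit 228) (nat_lit 4316517833) (nat_lit 76) (nat_lit 3264630938) (nat_lit 15) (nat_lit 5) (nat_lit 18) (nat_lit 5) (nat_lit 16) (nat_lit 4) (nat_lit 239) (nat_lit 230) (nat_lit 191)) (XT.lf (nat_lit 0) (nat_lit 13680766413) (nat_lit 76) (nat_lit 20991914444) (nat_lit 152) (nat_lit 2352121753) (nat_lit 14) (nat_lit 5) (nat_lit 15) (nat_lit 5) (nat_lit 16) (nat_lit 4) (nat_lit 240) (nat_lit 230) (nat_lit 190)))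 (XT.nd (nat_lit 78) (nat_lit 152) (nat_lit 0) (XT.lf (nat_lit 0) (nat_lit 3557487085) (nat_lit 152) (nat_lit 5942796317) (nat_lit 76) (nat_lit 31099878825) (nat_lit 13) (nat_lit 5) (nat_lit 15) (nat_lit 5) (nat_lit 14) (nat_lit 5) (nat_lit 241) (nat_lit 230) (nat_lit 189)) (XT.lf (nat_lit 0) (nat_lit 10923038811) (nat_lit 228) (nat_lit 29490349605) (nat_lit 76) (nat_lit 4160136878) (nat_lit 11) (nat_lit 5) (nat_lit 14) (nat_lit 5) (nat_lit 12) (nat_lit 4) (nat_lit 242) (nat_lit 230) (nat_lit 188)))) (XT.nd (nat_lit 156) (nat_lit 152) (nat_lit 0) (XT.nd (nat_lit 78) (nat_lit 76) (nat_lit 0) (XT.lf (nat_lit 0) (nat_lit 20159556796) (nat_lit 228) (nat_lit 9651396521) (nat_lit 76) (nat_lit 19217060767) (nat_lit 11) (nat_lit 5) (nat_lit 14) (nat_lit 5) (nat_lit 12) (nat_lit 4) (nat_lit 243) (nat_lit 230) (nat_lit 187)) (XT.lf (nat_lit 0) (nat_lit 14431833042) (nat_lit 76) (nat_lit 16937137134)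 (nat_lit 152) (nat_lit 22693629266) (nat_lit 10) (nat_lit 5) (nat_lit 11) (nat_lit 5) (nat_lit 12) (nat_lit 4) (nat_lit 244) (nat_lit 230) (nat_lit 186))) (XT.nd (nat_lit 78) (nat_lit 152) (nat_lit 0) (XT.lf (nat_lit 0) (nat_lit 43196589251) (nat_lit 76) (nat_lit 1558216655) (nat_lit 152) (nat_lit 15023346365) (nat_lit 10) (nat_lit 5) (nat_lit 11) (nat_lit 5) (nat_lit 12) (nat_lit 4) (nat_lit 245) (nat_lit 230) (nat_lit 185)) (XT.nd (nat_lit 78) (nat_lit 76) (nat_lit 0) (XT.lf (nat_lit 0) (nat_lit 10145817698) (nat_lit 76) (nat_lit 51082145633) (nat_lit 76) (nat_lit 4961184893) (nat_lit 9) (nat_lit 4) (nat_lit 10) (nat_lit 5) (nat_lit 10) (nat_lit 4) (nat_lit 246) (nat_lit 230) (nat_lit 184)) (XT.lf (nat_lit 0) (nat_lit 6995694141) (nat_lit 152) (nat_lit 31089943403) (nat_lit 76) (nat_lit 35289035579) (nat_lit 8) (nat_lit 5) (nat_lit 10) (nat_lit 5) (nat_lit 9) (nat_lit 4) (nat_lit 247)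 (nat_lit 230) (nat_lit 183)))))) (XT.nd (nat_lit 312) (nat_lit 152) (nat_lit 0) (XT.nd (nat_lit 156) (nat_lit 76) (nat_lit 0) (XT.nd (nat_lit 78) (nat_lit 76) (nat_lit 0) (XT.lf (nat_lit 0) (nat_lit 20230912684) (nat_lit 152) (nat_lit 2642680116) (nat_lit 76) (nat_lit 58730103999) (nat_lit 8) (nat_lit 5) (nat_lit 10) (nat_lit 5) (nat_lit 9) (nat_lit 4) (nat_lit 248) (nat_lit 230) (nat_lit 182)) (XT.lf (nat_lit 0) (nat_lit 32998195898) (nat_lit 76) (nat_lit 3813288675) (nat_lit 152) (nat_lit 54051594390) (nat_lit 7) (nat_lit 5) (nat_lit 8) (nat_lit 5) (nat_lit 9) (nat_lit 4) (nat_lit 249) (nat_lit 230) (nat_lit 181))) (XT.nd (nat_lit 78) (nat_lit 76) (nat_lit 0) (XT.lf (nat_lit 0) (nat_lit 56767463054) (nat_lit 152) (nat_lit 27976155831) (nat_lit 0) (nat_lit 16634514945) (nat_lit 7) (nat_lit 5) (nat_lit 9) (nat_lit 4) (nat_lit 7) (nat_lit 4) (nat_lit 250) (nat_lit 230) (nat_lit 180))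 (XT.lf (nat_lit 0) (nat_lit 6810718255) (nat_lit 76) (nat_lit 73364391442) (nat_lit 76) (nat_lit 33226608256) (nat_lit 6) (nat_lit 4) (nat_lit 7) (nat_lit 5) (nat_lit 7) (nat_lit 4) (nat_lit 251) (nat_lit 230) (nat_lit 179)))) (XT.nd (nat_lit 156) (nat_lit 152) (nat_lit 0) (XT.nd (nat_lit 78) (nat_lit 0) (nat_lit 0) (XT.lf (nat_lit 0) (nat_lit 49950298232) (nat_lit 76) (nat_lit 58600967459) (nat_lit 76) (nat_lit 18458979857) (nat_lit 6) (nat_lit 4) (nat_lit 7) (nat_lit 5) (nat_lit 7) (nat_lit 4) (nat_lit 252) (nat_lit 230) (nat_lit 178)) (XT.lf (nat_lit 0) (nat_lit 99552585949) (nat_lit 76) (nat_lit 41626887298) (nat_lit 76) (nat_lit 1481243684) (nat_lit 6) (nat_lit 4) (nat_lit 7) (nat_lit 5) (nat_lit 7) (nat_lit 4) (nat_lit 253) (nat_lit 230) (nat_lit 177))) (XT.nd (nat_lit 78) (nat_lit 76) (nat_lit 0) (XT.lf (nat_lit 0) (nat_lit 16432837017) (nat_lit 152) (nat_lit 4818223168) (nat_lit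 76) (nat_lit 139296234724) (nat_lit 5) (nat_lit 5) (nat_lit 7) (nat_lit 5) (nat_lit 6) (nat_lit 4) (nat_lit 254) (nat_lit 230) (nat_lit 176)) (XT.nd (nat_lit 78) (nat_lit 0) (nat_lit 0) (XT.lf (nat_lit 0) (nat_lit 38836173886) (nat_lit 152) (nat_lit 138055291731) (nat_lit 0) (nat_lit 3921750210) (nat_lit 4) (nat_lit 5) (nat_lit 6) (nat_lit 4) (nat_lit 4) (nat_lit 4) (nat_lit 255) (nat_lit 230) (nat_lit 175)) (XT.lf (nat_lit 0) (nat_lit 65872421364) (nat_lit 152) (nat_lit 107099839729) (nat_lit 0) (nat_lit 30955907350) (nat_lit 4) (nat_lit 5) (nat_lit 6) (nat_lit 4) (nat_lit 4) (nat_lit 4) (nat_lit 256) (nat_lit 230) (nat_lit 174))))))))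
noncomputable def xc71 : XT := (XT.nd (nat_lit 1404) (nat_lit 0) (nat_lit 0) (XT.nd (nat_lit 702) (nat_lit 152) (nat_lit 0) (XT.nd (nat_lit 312) (nat_lit 0) (nat_lit 0) (XT.nd (nat_lit 156) (nat_lit 76) (nat_lit 0) (XT.nd (nat_lit 78) (nat_lit 0) (nat_lit 0) (XT.lf (nat_lit 0) (nat_lit 96961149228) (nat_lit 152) (nat_lit 71506845118) (nat_lit 0) (nat_lit 62042817530) (nat_lit 4) (nat_lit 5) (nat_lit 6) (nat_lit 4) (nat_lit 4) (nat_lit 4) (nat_lit 257) (nat_lit 230) (nat_lit 173)) (XT.lf (nat_lit 0) (nat_lit 132710615196) (nat_lit 152) (nat_lit 30579923221) (nat_lit 0) (nat_lit 97790702903) (nat_lit 4) (nat_lit 5) (nat_lit 6) (nat_lit 4) (nat_lit 4) (nat_lit 4) (nat_lit 258) (nat_lit 230) (nat_lit 172))) (XT.nd (nat_lit 78) (nat_lit 0) (nat_lit 0) (XT.lf (nat_lit 0) (nat_lit 18092378753) (nat_lit 76) (nat_lit 156477053412) (nat_lit 76) (nat_lit 121555766688) (nat_lit 3) (nat_lit 4) (nat_lit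 4) (nat_lit 5) (nat_lit 4) (nat_lit 4) (nat_lit 259) (nat_lit 230) (nat_lit 171)) (XT.lf (nat_lit 0) (nat_lit 77498124016) (nat_lit 76) (nat_lit 146805326945) (nat_lit 76) (nat_lit 111882845064) (nat_lit 3) (nat_lit 4) (nat_lit 4) (nat_lit 5) (nat_lit 4) (nat_lit 4) (nat_lit 260) (nat_lit 230) (nat_lit 170)))) (XT.nd (nat_lit 156) (nat_lit 0) (nat_lit 0) (XT.nd (nat_lit 78) (nat_lit 0) (nat_lit 0) (XT.lf (nat_lit 0) (nat_lit 145811106390) (nat_lit 76) (nat_lit 135684625572) (nat_lit 76) (nat_lit 100761104424) (nat_lit 3) (nat_lit 4) (nat_lit 4) (nat_lit 5) (nat_lit 4) (nat_lit 4) (nat_lit 261) (nat_lit 230) (nat_lit 169)) (XT.lf (nat_lit 0) (nat_lit 224367884227) (nat_lit 76) (nat_lit 122897370354) (nat_lit 76) (nat_lit 87972945495) (nat_lit 3) (nat_lit 4) (nat_lit 4) (nat_lit 5) (nat_lit 4) (nat_lit 4) (nat_lit 262) (nat_lit 230) (nat_lit 168))) (XT.nd (nat_lit 78) (nat_lit 0) (nat_lit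 0) (XT.lf (nat_lit 0) (nat_lit 314705437961) (nat_lit 76) (nat_lit 108193375862) (nat_lit 76) (nat_lit 73268165168) (nat_lit 3) (nat_lit 4) (nat_lit 4) (nat_lit 5) (nat_lit 4) (nat_lit 4) (nat_lit 263) (nat_lit 230) (nat_lit 167)) (XT.nd (nat_lit 78) (nat_lit 0) (nat_lit 0) (XT.lf (nat_lit 0) (nat_lit 418591241471) (nat_lit 76) (nat_lit 91284955248) (nat_lit 76) (nat_lit 56359061220) (nat_lit 3) (nat_lit 4) (nat_lit 4) (nat_lit 5) (nat_lit 4) (nat_lit 4) (nat_lit 264) (nat_lit 230) (nat_lit 166)) (XT.lf (nat_lit 0) (nat_lit 538057843086) (nat_lit 76) (nat_lit 71841291587) (nat_lit 76) (nat_lit 36914803354) (nat_lit 3) (nat_lit 4) (nat_lit 4) (nat_lit 5) (nat_lit 4) (nat_lit 4) (nat_lit 265) (nat_lit 230) (nat_lit 165)))))) (XT.nd (nat_lit 312) (nat_lit 0) (nat_lit 0) (XT.nd (nat_lit 156) (nat_lit 76) (nat_lit 0) (XT.nd (nat_lit 78) (nat_lit 76) (nat_lit 0) (XT.lf (nat_lit 0) (nat_lit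 675442632837) (nat_lit 76) (nat_lit 49481965372) (nat_lit 76) (nat_lit 14554960440) (nat_lit 3) (nat_lit 4) (nat_lit 4) (nat_lit 5) (nat_lit 4) (nat_lit 4) (nat_lit 266) (nat_lit 230) (nat_lit 164)) (XT.lf (nat_lit 0) (nat_lit 10164585492) (nat_lit 152) (nat_lit 13073595428) (nat_lit 76) (nat_lit 822737657906) (nat_lit 2) (nat_lit 5) (nat_lit 4) (nat_lit 5) (nat_lit 3) (nat_lit 4) (nat_lit 267) (nat_lit 230) (nat_lit 163))) (XT.nd (nat_lit 78) (nat_lit 0) (nat_lit 0) (XT.lf (nat_lit 0) (nat_lit 39556846572) (nat_lit 152) (nat_lit 919232703685) (nat_lit 0) (nat_lit 9184807497) (nat_lit 1) (nat_lit 5) (nat_lit 3) (nat_lit 4) (nat_lit 1) (nat_lit 4) (nat_lit 268) (nat_lit 230) (nat_lit 162)) (XT.lf (nat_lit 0) (nat_lit 75179745831) (nat_lit 152) (nat_lit 988012228224) (nat_lit 0) (nat_lit 44807411332) (nat_lit 1) (nat_lit 5) (nat_lit 3) (nat_lit 4) (nat_lit 1) (nat_lit 4) (nat_lit 269)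 (nat_lit 230) (nat_lit 161)))) (XT.nd (nat_lit 156) (nat_lit 0) (nat_lit 0) (XT.nd (nat_lit 78) (nat_lit 0) (nat_lit 0) (XT.lf (nat_lit 0) (nat_lit 116145457357) (nat_lit 152) (nat_lit 1067109937857) (nat_lit 0) (nat_lit 85772865967) (nat_lit 1) (nat_lit 5) (nat_lit 3) (nat_lit 4) (nat_lit 1) (nat_lit 4) (nat_lit 270) (nat_lit 230) (nat_lit 160)) (XT.lf (nat_lit 0) (nat_lit 163255484202) (nat_lit 152) (nat_lit 1158073396467) (nat_lit 0) (nat_lit 132882669429) (nat_lit 1) (nat_lit 5) (nat_lit 3) (nat_lit 4) (nat_lit 1) (nat_lit 4) (nat_lit 271) (nat_lit 230) (nat_lit 159))) (XT.nd (nat_lit 78) (nat_lit 0) (nat_lit 0) (XT.lf (nat_lit 0) (nat_lit 217431544283) (nat_lit 152) (nat_lit 1262682323897) (nat_lit 0) (nat_lit 187058535264) (nat_lit 1) (nat_lit 5) (nat_lit 3) (nat_lit 4) (nat_lit 1) (nat_lit 4) (nat_lit 272) (nat_lit 230) (nat_lit 158)) (XT.nd (nat_lit 78) (nat_lit 0) (nat_lit 0)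 (XT.lf (nat_lit 0) (nat_lit 279733603993) (nat_lit 152) (nat_lit 1382983416552) (nat_lit 0) (nat_lit 249360426063) (nat_lit 1) (nat_lit 5) (nat_lit 3) (nat_lit 4) (nat_lit 1) (nat_lit 4) (nat_lit 273) (nat_lit 230) (nat_lit 157)) (XT.lf (nat_lit 0) (nat_lit 351380616672) (nat_lit 152) (nat_lit 1521330391464) (nat_lit 0) (nat_lit 321007291865) (nat_lit 1) (nat_lit 5) (nat_lit 3) (nat_lit 4) (nat_lit 1) (nat_lit 4) (nat_lit 274) (nat_lit 230) (nat_lit 156))))))) (XT.nd (nat_lit 702) (nat_lit 0) (nat_lit 0) (XT.nd (nat_lit 312) (nat_lit 0) (nat_lit 0) (XT.nd (nat_lit 156) (nat_lit 0) (nat_lit 0) (XT.nd (nat_lit 78) (nat_lit 0) (nat_lit 0) (XT.lf (nat_lit 0) (nat_lit 433774371701) (nat_lit 152) (nat_lit 1680430037272) (nat_lit 0) (nat_lit 403400919173) (nat_lit 1) (nat_lit 5) (nat_lit 3) (nat_lit 4) (nat_lit 1) (nat_lit 4) (nat_lit 275) (nat_lit 230) (nat_lit 155)) (XT.lf (nat_lit 0) (nat_lit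 528526920808) (nat_lit 152) (nat_lit 1863395173133) (nat_lit 0) (nat_lit 498153357219) (nat_lit 1) (nat_lit 5) (nat_lit 3) (nat_lit 4) (nat_lit 1) (nat_lit 4) (nat_lit 276) (nat_lit 230) (nat_lit 154))) (XT.nd (nat_lit 78) (nat_lit 0) (nat_lit 0) (XT.lf (nat_lit 0) (nat_lit 637492118214) (nat_lit 152) (nat_lit 2073805551704) (nat_lit 0) (nat_lit 607118458051) (nat_lit 1) (nat_lit 5) (nat_lit 3) (nat_lit 4) (nat_lit 1) (nat_lit 4) (nat_lit 277) (nat_lit 230) (nat_lit 153)) (XT.lf (nat_lit 0) (nat_lit 762801891696) (nat_lit 152) (nat_lit 2315777897785) (nat_lit 0) (nat_lit 732428147554) (nat_lit 1) (nat_lit 5) (nat_lit 3) (nat_lit 4) (nat_lit 1) (nat_lit 4) (nat_lit 278) (nat_lit 230) (nat_lit 152)))) (XT.nd (nat_lit 156) (nat_lit 0) (nat_lit 0) (XT.nd (nat_lit 78) (nat_lit 0) (nat_lit 0) (XT.lf (nat_lit 0) (nat_lit 906907954211) (nat_lit 152) (nat_lit 2594046452929) (nat_lit 0) (nat_lit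 876534137045) (nat_lit 1) (nat_lit 5) (nat_lit 3) (nat_lit 4) (nat_lit 1) (nat_lit 4) (nat_lit 279) (nat_lit 230) (nat_lit 151)) (XT.lf (nat_lit 0) (nat_lit 1072629772202) (nat_lit 152) (nat_lit 2914055601911) (nat_lit 0) (nat_lit 1042255891536) (nat_lit 1) (nat_lit 5) (nat_lit 3) (nat_lit 4) (nat_lit 1) (nat_lit 4) (nat_lit 280) (nat_lit 230) (nat_lit 150))) (XT.nd (nat_lit 78) (nat_lit 0) (nat_lit 0) (XT.lf (nat_lit 0) (nat_lit 1263209729062) (nat_lit 152) (nat_lit 3282066393297) (nat_lit 0) (nat_lit 1232835793179) (nat_lit 1) (nat_lit 5) (nat_lit 3) (nat_lit 4) (nat_lit 1) (nat_lit 4) (nat_lit 281) (nat_lit 230) (nat_lit 149)) (XT.nd (nat_lit 78) (nat_lit 0) (nat_lit 0) (XT.lf (nat_lit 0) (nat_lit 1482376563080) (nat_lit 152) (nat_lit 3705279038223) (nat_lit 0) (nat_lit 1452002579182) (nat_lit 1) (nat_lit 5) (nat_lit 3) (nat_lit 4) (nat_lit 1) (nat_lit 4) (nat_lit 282) (nat_lit 230)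 (nat_lit 148)) (XT.lf (nat_lit 0) (nat_lit 1734418321006) (nat_lit 152) (nat_lit 4191973784091) (nat_lit 0) (nat_lit 1704044295357) (nat_lit 1) (nat_lit 5) (nat_lit 3) (nat_lit 4) (nat_lit 1) (nat_lit 4) (nat_lit 283) (nat_lit 230) (nat_lit 147)))))) (XT.nd (nat_lit 312) (nat_lit 0) (nat_lit 0) (XT.nd (nat_lit 156) (nat_lit 0) (nat_lit 0) (XT.nd (nat_lit 78) (nat_lit 0) (nat_lit 0) (XT.lf (nat_lit 0) (nat_lit 2024266254627) (nat_lit 152) (nat_lit 4751672919406) (nat_lit 0) (nat_lit 1993892192672) (nat_lit 1) (nat_lit 5) (nat_lit 3) (nat_lit 4) (nat_lit 1) (nat_lit 4) (nat_lit 284) (nat_lit 230) (nat_lit 146)) (XT.lf (nat_lit 0) (nat_lit 2357591301775) (nat_lit 152) (nat_lit 5395327079424) (nat_lit 0) (nat_lit 2327217208249) (nat_lit 1) (nat_lit 5) (nat_lit 3) (nat_lit 4) (nat_lit 1) (nat_lit 4) (nat_lit 285) (nat_lit 230) (nat_lit 145))) (XT.nd (nat_lit 78) (nat_lit 0) (nat_lit 0) (XT.lf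 (nat_lit 0) (nat_lit 2740915039459) (nat_lit 152) (nat_lit 6135529497711) (nat_lit 0) (nat_lit 2710540918480) (nat_lit 1) (nat_lit 5) (nat_lit 3) (nat_lit 4) (nat_lit 1) (nat_lit 4) (nat_lit 286) (nat_lit 230) (nat_lit 144)) (XT.lf (nat_lit 0) (nat_lit 3181737279937) (nat_lit 152) (nat_lit 6986762395494) (nat_lit 0) (nat_lit 3151363135087) (nat_lit 1) (nat_lit 5) (nat_lit 3) (nat_lit 4) (nat_lit 1) (nat_lit 4) (nat_lit 287) (nat_lit 230) (nat_lit 143)))) (XT.nd (nat_lit 156) (nat_lit 0) (nat_lit 0) (XT.nd (nat_lit 78) (nat_lit 0) (nat_lit 0) (XT.lf (nat_lit 0) (nat_lit 3688682806177) (nat_lit 152) (nat_lit 7965680329469) (nat_lit 0) (nat_lit 3658308640568) (nat_lit 1) (nat_lit 5) (nat_lit 3) (nat_lit 4) (nat_lit 1) (nat_lit 4) (nat_lit 288) (nat_lit 230) (nat_lit 142)) (XT.lf (nat_lit 0) (nat_lit 4271670117603) (nat_lit 152) (nat_lit 9091436041823) (nat_lit 0) (nat_lit 4241295933944)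 (nat_lit 1) (nat_lit 5) (nat_lit 3) (nat_lit 4) (nat_lit 1) (nat_lit 4) (nat_lit 289) (nat_lit 230) (nat_lit 141))) (XT.nd (nat_lit 78) (nat_lit 0) (nat_lit 0) (XT.lf (nat_lit 0) (nat_lit 4942105487701) (nat_lit 152) (nat_lit 10386055187797) (nat_lit 0) (nat_lit 4911731288346) (nat_lit 1) (nat_lit 5) (nat_lit 3) (nat_lit 4) (nat_lit 1) (nat_lit 4) (nat_lit 290) (nat_lit 230) (nat_lit 140)) (XT.nd (nat_lit 78) (nat_lit 0) (nat_lit 0) (XT.lf (nat_lit 0) (nat_lit 5713106130234) (nat_lit 152) (nat_lit 11874867272421) (nat_lit 0) (nat_lit 5682731917230) (nat_lit 1) (nat_lit 5) (nat_lit 3) (nat_lit 4) (nat_lit 1) (nat_lit 4) (nat_lit 291) (nat_lit 230) (nat_lit 139)) (XT.lf (nat_lit 0) (nat_lit 6599756840381) (nat_lit 152) (nat_lit 13587001227786) (nat_lit 0) (nat_lit 6569382615508) (nat_lit 1) (nat_lit 5) (nat_lit 3) (nat_lit 4) (nat_lit 1) (nat_lit 4) (nat_lit 292) (nat_lit 230) (nat_lit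 138))))))))
noncomputable def xc72 : XT := (XT.nd (nat_lit 30576) (nat_lit 0) (nat_lit 152) (XT.nd (nat_lit 29874) (nat_lit 0) (nat_lit 760) (XT.nd (nat_lit 29562) (nat_lit 0) (nat_lit 1368) (XT.nd (nat_lit 156) (nat_lit 0) (nat_lit 0) (XT.nd (nat_lit 78) (nat_lit 0) (nat_lit 0) (XT.lf (nat_lit 0) (nat_lit 7619405132036) (nat_lit 152) (nat_lit 15555955326932) (nat_lit 0) (nat_lit 7589030896843) (nat_lit 1) (nat_lit 5) (nat_lit 3) (nat_lit 4) (nat_lit 1) (nat_lit 4) (nat_lit 293) (nat_lit 230) (nat_lit 137)) (XT.lf (nat_lit 0) (nat_lit 8792000645689) (nat_lit 152) (nat_lit 17820252584841) (nat_lit 0) (nat_lit 8761626401522) (nat_lit 1) (nat_lit 5) (nat_lit 3) (nat_lit 4) (nat_lit 1) (nat_lit 4) (nat_lit 294) (nat_lit 230) (nat_lit 136))) (XT.nd (nat_lit 78) (nat_lit 0) (nat_lit 0) (XT.lf (nat_lit 0) (nat_lit 10140485467476) (nat_lit 152) (nat_lit 20424194469603) (nat_lit 0) (nat_lit 10110111215505)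 (nat_lit 1) (nat_lit 5) (nat_lit 3) (nat_lit 4) (nat_lit 1) (nat_lit 4) (nat_lit 295) (nat_lit 230) (nat_lit 135)) (XT.lf (nat_lit 0) (nat_lit 11691242996085) (nat_lit 152) (nat_lit 23418727670268) (nat_lit 0) (nat_lit 11660868737328) (nat_lit 1) (nat_lit 5) (nat_lit 3) (nat_lit 4) (nat_lit 1) (nat_lit 4) (nat_lit 296) (nat_lit 230) (nat_lit 134)))) (XT.nd (nat_lit 156) (nat_lit 0) (nat_lit 76) (XT.nd (nat_lit 78) (nat_lit 0) (nat_lit 0) (XT.lf (nat_lit 0) (nat_lit 469957008) (nat_lit 380) (nat_lit 4542856495) (nat_lit 380) (nat_lit 4542856495) (nat_lit 19) (nat_lit 3) (nat_lit 24) (nat_lit 3) (nat_lit 24) (nat_lit 5) (nat_lit 231) (nat_lit 231) (nat_lit 198)) (XT.lf (nat_lit 0) (nat_lit 1173291385) (nat_lit 380) (nat_lit 456939175) (nat_lit 380) (nat_lit 18889089250) (nat_lit 19) (nat_lit 3) (nat_lit 24) (nat_lit 3) (nat_lit 24) (nat_lit 5) (nat_lit 232) (nat_lit 231) (nat_lit 197)))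 (XT.nd (nat_lit 78) (nat_lit 0) (nat_lit 0) (XT.lf (nat_lit 0) (nat_lit 2195427614) (nat_lit 304) (nat_lit 12058968643) (nat_lit 380) (nat_lit 7771204535) (nat_lit 20) (nat_lit 5) (nat_lit 24) (nat_lit 5) (nat_lit 25) (nat_lit 5) (nat_lit 233) (nat_lit 231) (nat_lit 196)) (XT.lf (nat_lit 0) (nat_lit 3448064782) (nat_lit 304) (nat_lit 1848350297) (nat_lit 380) (nat_lit 18449977013) (nat_lit 20) (nat_lit 5) (nat_lit 24) (nat_lit 5) (nat_lit 25) (nat_lit 5) (nat_lit 234) (nat_lit 231) (nat_lit 195))))) (XT.nd (nat_lit 312) (nat_lit 456) (nat_lit 0) (XT.nd (nat_lit 156) (nat_lit 304) (nat_lit 0) (XT.nd (nat_lit 78) (nat_lit 0) (nat_lit 0) (XT.lf (nat_lit 0) (nat_lit 5544176371) (nat_lit 304) (nat_lit 15048974370) (nat_lit 76) (nat_lit 5033940823) (nat_lit 21) (nat_lit 5) (nat_lit 25) (nat_lit 5) (nat_lit 22) (nat_lit 5) (nat_lit 235) (nat_lit 231) (nat_lit 194)) (XT.lf (nat_lit 0) (nat_lit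 8288295287) (nat_lit 304) (nat_lit 2976120313) (nat_lit 76) (nat_lit 16475551595) (nat_lit 21) (nat_lit 5) (nat_lit 25) (nat_lit 5) (nat_lit 22) (nat_lit 5) (nat_lit 236) (nat_lit 231) (nat_lit 193))) (XT.nd (nat_lit 78) (nat_lit 0) (nat_lit 0) (XT.lf (nat_lit 0) (nat_lit 11923134720) (nat_lit 380) (nat_lit 18145190231) (nat_lit 76) (nat_lit 29679322) (nat_lit 17) (nat_lit 5) (nat_lit 22) (nat_lit 5) (nat_lit 18) (nat_lit 5) (nat_lit 237) (nat_lit 231) (nat_lit 192)) (XT.lf (nat_lit 0) (nat_lit 16786839833) (nat_lit 380) (nat_lit 3893808247) (nat_lit 76) (nat_lit 12026635912) (nat_lit 17) (nat_lit 5) (nat_lit 22) (nat_lit 5) (nat_lit 18) (nat_lit 5) (nat_lit 238) (nat_lit 231) (nat_lit 191)))) (XT.nd (nat_lit 156) (nat_lit 304) (nat_lit 0) (XT.nd (nat_lit 78) (nat_lit 0) (nat_lit 0) (XT.lf (nat_lit 0) (nat_lit 13698129429) (nat_lit 152) (nat_lit 9235495530) (nat_lit 228) (nat_lit 12691374288)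 (nat_lit 15) (nat_lit 5) (nat_lit 17) (nat_lit 5) (nat_lit 18) (nat_lit 5) (nat_lit 239) (nat_lit 231) (nat_lit 190)) (XT.lf (nat_lit 0) (nat_lit 30365547901) (nat_lit 228) (nat_lit 4773354844) (nat_lit 76) (nat_lit 3787063832) (nat_lit 15) (nat_lit 5) (nat_lit 18) (nat_lit 5) (nat_lit 16) (nat_lit 4) (nat_lit 240) (nat_lit 231) (nat_lit 189))) (XT.nd (nat_lit 78) (nat_lit 228) (nat_lit 0) (XT.lf (nat_lit 0) (nat_lit 15914856555) (nat_lit 76) (nat_lit 24085147287) (nat_lit 152) (nat_lit 2558968086) (nat_lit 14) (nat_lit 5) (nat_lit 15) (nat_lit 5) (nat_lit 16) (nat_lit 4) (nat_lit 241) (nat_lit 231) (nat_lit 188)) (XT.nd (nat_lit 78) (nat_lit 152) (nat_lit 0) (XT.lf (nat_lit 0) (nat_lit 4206741886) (nat_lit 152) (nat_lit 6664231532) (nat_lit 76) (nat_lit 35801423811) (nat_lit 13) (nat_lit 5) (nat_lit 15) (nat_lit 5) (nat_lit 14) (nat_lit 5) (nat_lit 242) (nat_lit 231) (nat_lit 187))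 (XT.lf (nat_lit 0) (nat_lit 12671039716) (nat_lit 228) (nat_lit 33737444575) (nat_lit 76) (nat_lit 4834251450) (nat_lit 11) (nat_lit 5) (nat_lit 14) (nat_lit 5) (nat_lit 12) (nat_lit 4) (nat_lit 243) (nat_lit 231) (nat_lit 186))))))) (XT.nd (nat_lit 702) (nat_lit 228) (nat_lit 0) (XT.nd (nat_lit 312) (nat_lit 228) (nat_lit 0) (XT.nd (nat_lit 156) (nat_lit 76) (nat_lit 0) (XT.nd (nat_lit 78) (nat_lit 76) (nat_lit 0) (XT.lf (nat_lit 0) (nat_lit 23278746910) (nat_lit 228) (nat_lit 10945664720) (nat_lit 76) (nat_lit 22143179918) (nat_lit 11) (nat_lit 5) (nat_lit 14) (nat_lit 5) (nat_lit 12) (nat_lit 4) (nat_lit 244) (nat_lit 231) (nat_lit 185)) (XT.lf (nat_lit 0) (nat_lit 16743074673) (nat_lit 76) (nat_lit 19420137723) (nat_lit 152) (nat_lit 25995150145) (nat_lit 10) (nat_lit 5) (nat_lit 11) (nat_lit 5) (nat_lit 12) (nat_lit 4) (nat_lit 245) (nat_lit 231) (nat_lit 184))) (XT.nd (nat_lit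 78) (nat_lit 76) (nat_lit 0) (XT.lf (nat_lit 0) (nat_lit 49803439965) (nat_lit 76) (nat_lit 1741888301) (nat_lit 152) (nat_lit 17187697441) (nat_lit 10) (nat_lit 5) (nat_lit 11) (nat_lit 5) (nat_lit 12) (nat_lit 4) (nat_lit 246) (nat_lit 231) (nat_lit 183)) (XT.lf (nat_lit 0) (nat_lit 11798595589) (nat_lit 76) (nat_lit 58688003954) (nat_lit 76) (nat_lit 5619533627) (nat_lit 9) (nat_lit 4) (nat_lit 10) (nat_lit 5) (nat_lit 10) (nat_lit 4) (nat_lit 247) (nat_lit 231) (nat_lit 182)))) (XT.nd (nat_lit 156) (nat_lit 152) (nat_lit 0) (XT.nd (nat_lit 78) (nat_lit 0) (nat_lit 0) (XT.lf (nat_lit 0) (nat_lit 8113037747) (nat_lit 152) (nat_lit 35632792716) (nat_lit 76) (nat_lit 40624678075) (nat_lit 8) (nat_lit 5) (nat_lit 10) (nat_lit 5) (nat_lit 9) (nat_lit 4) (nat_lit 248) (nat_lit 231) (nat_lit 181)) (XT.lf (nat_lit 0) (nat_lit 23324670878) (nat_lit 152) (nat_lit 2934175874) (nat_lit 76) (nat_lit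 67576391042) (nat_lit 8) (nat_lit 5) (nat_lit 10) (nat_lit 5) (nat_lit 9) (nat_lit 4) (nat_lit 249) (nat_lit 231) (nat_lit 180))) (XT.nd (nat_lit 78) (nat_lit 76) (nat_lit 0) (XT.lf (nat_lit 0) (nat_lit 38048063076) (nat_lit 76) (nat_lit 4340700495) (nat_lit 152) (nat_lit 62095317416) (nat_lit 7) (nat_lit 5) (nat_lit 8) (nat_lit 5) (nat_lit 9) (nat_lit 4) (nat_lit 250) (nat_lit 231) (nat_lit 179)) (XT.nd (nat_lit 78) (nat_lit 76) (nat_lit 0) (XT.lf (nat_lit 0) (nat_lit 65332497586) (nat_lit 152) (nat_lit 32079751736) (nat_lit 0) (nat_lit 19165007429) (nat_lit 7) (nat_lit 5) (nat_lit 9) (nat_lit 4) (nat_lit 7) (nat_lit 4) (nat_lit 251) (nat_lit 231) (nat_lit 178)) (XT.lf (nat_lit 0) (nat_lit 7920934032) (nat_lit 76) (nat_lit 84327515602) (nat_lit 76) (nat_lit 38156369432) (nat_lit 6) (nat_lit 4) (nat_lit 7) (nat_lit 5) (nat_lit 7) (nat_lit 4) (nat_lit 252) (nat_lit 231) (nat_lit 177))))))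 (XT.nd (nat_lit 312) (nat_lit 76) (nat_lit 0) (XT.nd (nat_lit 156) (nat_lit 152) (nat_lit 0) (XT.nd (nat_lit 78) (nat_lit 0) (nat_lit 0) (XT.lf (nat_lit 0) (nat_lit 57519893435) (nat_lit 76) (nat_lit 67354995571) (nat_lit 76) (nat_lit 21180670260) (nat_lit 6) (nat_lit 4) (nat_lit 7) (nat_lit 5) (nat_lit 7) (nat_lit 4) (nat_lit 253) (nat_lit 231) (nat_lit 176)) (XT.lf (nat_lit 0) (nat_lit 114552474249) (nat_lit 76) (nat_lit 47839514301) (nat_lit 76) (nat_lit 1662424519) (nat_lit 6) (nat_lit 4) (nat_lit 7) (nat_lit 5) (nat_lit 7) (nat_lit 4) (nat_lit 254) (nat_lit 231) (nat_lit 175))) (XT.nd (nat_lit 78) (nat_lit 76) (nat_lit 0) (XT.lf (nat_lit 0) (nat_lit 18930245270) (nat_lit 152) (nat_lit 5479466338) (nat_lit 76) (nat_lit 160214750497) (nat_lit 5) (nat_lit 5) (nat_lit 7) (nat_lit 5) (nat_lit 6) (nat_lit 4) (nat_lit 255) (nat_lit 231) (nat_lit 174)) (XT.lf (nat_lit 0) (nat_lit 44693436450)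 (nat_lit 152) (nat_lit 158701401457) (nat_lit 0) (nat_lit 4535537312) (nat_lit 4) (nat_lit 5) (nat_lit 6) (nat_lit 4) (nat_lit 4) (nat_lit 4) (nat_lit 256) (nat_lit 231) (nat_lit 173)))) (XT.nd (nat_lit 156) (nat_lit 76) (nat_lit 0) (XT.nd (nat_lit 78) (nat_lit 0) (nat_lit 0) (XT.lf (nat_lit 0) (nat_lit 75780968465) (nat_lit 152) (nat_lit 123110742616) (nat_lit 0) (nat_lit 35621488732) (nat_lit 4) (nat_lit 5) (nat_lit 6) (nat_lit 4) (nat_lit 4) (nat_lit 4) (nat_lit 257) (nat_lit 231) (nat_lit 172)) (XT.lf (nat_lit 0) (nat_lit 111529394565) (nat_lit 152) (nat_lit 82185851823) (nat_lit 0) (nat_lit 71368540402) (nat_lit 4) (nat_lit 5) (nat_lit 6) (nat_lit 4) (nat_lit 4) (nat_lit 4) (nat_lit 258) (nat_lit 231) (nat_lit 171))) (XT.nd (nat_lit 78) (nat_lit 76) (nat_lit 0) (XT.lf (nat_lit 0) (nat_lit 152638140479) (nat_lit 152) (nat_lit 35126024693) (nat_lit 0) (nat_lit 112476091159) (nat_lit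 4) (nat_lit 5) (nat_lit 6) (nat_lit 4) (nat_lit 4) (nat_lit 4) (nat_lit 259) (nat_lit 231) (nat_lit 170)) (XT.nd (nat_lit 78) (nat_lit 0) (nat_lit 0) (XT.lf (nat_lit 0) (nat_lit 20845264077) (nat_lit 76) (nat_lit 179929401612) (nat_lit 76) (nat_lit 139766313024) (nat_lit 3) (nat_lit 4) (nat_lit 4) (nat_lit 5) (nat_lit 4) (nat_lit 4) (nat_lit 260) (nat_lit 231) (nat_lit 169)) (XT.lf (nat_lit 0) (nat_lit 89156780454) (nat_lit 76) (nat_lit 168809421802) (nat_lit 76) (nat_lit 128645429504) (nat_lit 3) (nat_lit 4) (nat_lit 4) (nat_lit 5) (nat_lit 4) (nat_lit 4) (nat_lit 261) (nat_lit 231) (nat_lit 168))))))))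
noncomputable def xc73 : XT := (XT.nd (nat_lit 1404) (nat_lit 0) (nat_lit 0) (XT.nd (nat_lit 702) (nat_lit 0) (nat_lit 0) (XT.nd (nat_lit 312) (nat_lit 152) (nat_lit 0) (XT.nd (nat_lit 156) (nat_lit 0) (nat_lit 0) (XT.nd (nat_lit 78) (nat_lit 0) (nat_lit 0) (XT.lf (nat_lit 0) (nat_lit 167712283511) (nat_lit 76) (nat_lit 156022794030) (nat_lit 76) (nat_lit 115858015897) (nat_lit 3) (nat_lit 4) (nat_lit 4) (nat_lit 5) (nat_lit 4) (nat_lit 4) (nat_lit 262) (nat_lit 231) (nat_lit 167)) (XT.lf (nat_lit 0) (nat_lit 258048728740) (nat_lit 76) (nat_lit 141319345144) (nat_lit 76) (nat_lit 101153883676) (nat_lit 3) (nat_lit 4) (nat_lit 4) (nat_lit 5) (nat_lit 4) (nat_lit 4) (nat_lit 263) (nat_lit 231) (nat_lit 166))) (XT.nd (nat_lit 78) (nat_lit 0) (nat_lit 0) (XT.lf (nat_lit 0) (nat_lit 361933568333) (nat_lit 76) (nat_lit 124411398969) (nat_lit 76) (nat_lit 84245343297) (nat_lit 3) (nat_lit 4)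 (nat_lit 4) (nat_lit 5) (nat_lit 4) (nat_lit 4) (nat_lit 264) (nat_lit 231) (nat_lit 165)) (XT.lf (nat_lit 0) (nat_lit 481399331759) (nat_lit 76) (nat_lit 104968147864) (nat_lit 76) (nat_lit 64801575492) (nat_lit 3) (nat_lit 4) (nat_lit 4) (nat_lit 5) (nat_lit 4) (nat_lit 4) (nat_lit 265) (nat_lit 231) (nat_lit 164)))) (XT.nd (nat_lit 156) (nat_lit 152) (nat_lit 0) (XT.nd (nat_lit 78) (nat_lit 0) (nat_lit 0) (XT.lf (nat_lit 0) (nat_lit 618783392651) (nat_lit 76) (nat_lit 82609180393) (nat_lit 76) (nat_lit 42442158718) (nat_lit 3) (nat_lit 4) (nat_lit 4) (nat_lit 5) (nat_lit 4) (nat_lit 4) (nat_lit 266) (nat_lit 231) (nat_lit 163)) (XT.lf (nat_lit 0) (nat_lit 776773700026) (nat_lit 76) (nat_lit 56897038498) (nat_lit 76) (nat_lit 16729626123) (nat_lit 3) (nat_lit 4) (nat_lit 4) (nat_lit 5) (nat_lit 4) (nat_lit 4) (nat_lit 267) (nat_lit 231) (nat_lit 162))) (XT.nd (nat_lit 78) (nat_lit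 76) (nat_lit 0) (XT.lf (nat_lit 0) (nat_lit 11696068685) (nat_lit 152) (nat_lit 15021204438) (nat_lit 76) (nat_lit 946153914499) (nat_lit 2) (nat_lit 5) (nat_lit 4) (nat_lit 5) (nat_lit 3) (nat_lit 4) (nat_lit 268) (nat_lit 231) (nat_lit 161)) (XT.nd (nat_lit 78) (nat_lit 0) (nat_lit 0) (XT.lf (nat_lit 0) (nat_lit 45497077598) (nat_lit 152) (nat_lit 1057104080890) (nat_lit 0) (nat_lit 10568340609) (nat_lit 1) (nat_lit 5) (nat_lit 3) (nat_lit 4) (nat_lit 1) (nat_lit 4) (nat_lit 269) (nat_lit 231) (nat_lit 160)) (XT.lf (nat_lit 0) (nat_lit 86462537306) (nat_lit 152) (nat_lit 1136202298678) (nat_lit 0) (nat_lit 51533576933) (nat_lit 1) (nat_lit 5) (nat_lit 3) (nat_lit 4) (nat_lit 1) (nat_lit 4) (nat_lit 270) (nat_lit 231) (nat_lit 159)))))) (XT.nd (nat_lit 312) (nat_lit 0) (nat_lit 0) (XT.nd (nat_lit 156) (nat_lit 0) (nat_lit 0) (XT.nd (nat_lit 78) (nat_lit 0) (nat_lit 0) (XT.lf (nat_lit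 0) (nat_lit 133572345178) (nat_lit 152) (nat_lit 1227166199161) (nat_lit 0) (nat_lit 98643190559) (nat_lit 1) (nat_lit 5) (nat_lit 3) (nat_lit 4) (nat_lit 1) (nat_lit 4) (nat_lit 271) (nat_lit 231) (nat_lit 158)) (XT.lf (nat_lit 0) (nat_lit 187748214848) (nat_lit 152) (nat_lit 1331775510829) (nat_lit 0) (nat_lit 152818891319) (nat_lit 1) (nat_lit 5) (nat_lit 3) (nat_lit 4) (nat_lit 1) (nat_lit 4) (nat_lit 272) (nat_lit 231) (nat_lit 157))) (XT.nd (nat_lit 78) (nat_lit 0) (nat_lit 0) (XT.lf (nat_lit 0) (nat_lit 250050108983) (nat_lit 152) (nat_lit 1452076937604) (nat_lit 0) (nat_lit 215120638575) (nat_lit 1) (nat_lit 5) (nat_lit 3) (nat_lit 4) (nat_lit 1) (nat_lit 4) (nat_lit 273) (nat_lit 231) (nat_lit 156)) (XT.lf (nat_lit 0) (nat_lit 321696977684) (nat_lit 152) (nat_lit 1590424203056) (nat_lit 0) (nat_lit 286767379557) (nat_lit 1) (nat_lit 5) (nat_lit 3) (nat_lit 4) (nat_lit 1) (nat_lit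 4) (nat_lit 274) (nat_lit 231) (nat_lit 155)))) (XT.nd (nat_lit 156) (nat_lit 0) (nat_lit 0) (XT.nd (nat_lit 78) (nat_lit 0) (nat_lit 0) (XT.lf (nat_lit 0) (nat_lit 404090607515) (nat_lit 152) (nat_lit 1749524101506) (nat_lit 0) (nat_lit 369160898327) (nat_lit 1) (nat_lit 5) (nat_lit 3) (nat_lit 4) (nat_lit 1) (nat_lit 4) (nat_lit 275) (nat_lit 231) (nat_lit 154)) (XT.lf (nat_lit 0) (nat_lit 498843047754) (nat_lit 152) (nat_lit 1932489457056) (nat_lit 0) (nat_lit 463913241990) (nat_lit 1) (nat_lit 5) (nat_lit 3) (nat_lit 4) (nat_lit 1) (nat_lit 4) (nat_lit 276) (nat_lit 231) (nat_lit 153))) (XT.nd (nat_lit 78) (nat_lit 0) (nat_lit 0) (XT.lf (nat_lit 0) (nat_lit 607808150492) (nat_lit 152) (nat_lit 2142900026662) (nat_lit 0) (nat_lit 572878260751) (nat_lit 1) (nat_lit 5) (nat_lit 3) (nat_lit 4) (nat_lit 1) (nat_lit 4) (nat_lit 277) (nat_lit 231) (nat_lit 152)) (XT.nd (nat_lit 78) (nat_lit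 0) (nat_lit 0) (XT.lf (nat_lit 0) (nat_lit 733117841653) (nat_lit 152) (nat_lit 2384872538860) (nat_lit 0) (nat_lit 698187878888) (nat_lit 1) (nat_lit 5) (nat_lit 3) (nat_lit 4) (nat_lit 1) (nat_lit 4) (nat_lit 278) (nat_lit 231) (nat_lit 151)) (XT.lf (nat_lit 0) (nat_lit 877223832586) (nat_lit 152) (nat_lit 2663141238453) (nat_lit 0) (nat_lit 842293806321) (nat_lit 1) (nat_lit 5) (nat_lit 3) (nat_lit 4) (nat_lit 1) (nat_lit 4) (nat_lit 279) (nat_lit 231) (nat_lit 150))))))) (XT.nd (nat_lit 702) (nat_lit 0) (nat_lit 0) (XT.nd (nat_lit 312) (nat_lit 0) (nat_lit 0) (XT.nd (nat_lit 156) (nat_lit 0) (nat_lit 0) (XT.nd (nat_lit 78) (nat_lit 0) (nat_lit 0) (XT.lf (nat_lit 0) (nat_lit 1042945588331) (nat_lit 152) (nat_lit 2983150513042) (nat_lit 0) (nat_lit 1008015506849) (nat_lit 1) (nat_lit 5) (nat_lit 3) (nat_lit 4) (nat_lit 1) (nat_lit 4) (nat_lit 280) (nat_lit 231) (nat_lit 149)) (XT.lf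 (nat_lit 0) (nat_lit 1233525491065) (nat_lit 152) (nat_lit 3351161413653) (nat_lit 0) (nat_lit 1198595361568) (nat_lit 1) (nat_lit 5) (nat_lit 3) (nat_lit 4) (nat_lit 1) (nat_lit 4) (nat_lit 281) (nat_lit 231) (nat_lit 148))) (XT.nd (nat_lit 78) (nat_lit 0) (nat_lit 0) (XT.lf (nat_lit 0) (nat_lit 1452692278016) (nat_lit 152) (nat_lit 3774374153557) (nat_lit 0) (nat_lit 1417762106767) (nat_lit 1) (nat_lit 5) (nat_lit 3) (nat_lit 4) (nat_lit 1) (nat_lit 4) (nat_lit 282) (nat_lit 231) (nat_lit 147)) (XT.lf (nat_lit 0) (nat_lit 1704733995015) (nat_lit 152) (nat_lit 4261068982014) (nat_lit 0) (nat_lit 1669803787460) (nat_lit 1) (nat_lit 5) (nat_lit 3) (nat_lit 4) (nat_lit 1) (nat_lit 4) (nat_lit 283) (nat_lit 231) (nat_lit 146)))) (XT.nd (nat_lit 156) (nat_lit 0) (nat_lit 0) (XT.nd (nat_lit 78) (nat_lit 0) (nat_lit 0) (XT.lf (nat_lit 0) (nat_lit 1994581893047) (nat_lit 152) (nat_lit 4820768189145)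 (nat_lit 0) (nat_lit 1959651653921) (nat_lit 1) (nat_lit 5) (nat_lit 3) (nat_lit 4) (nat_lit 1) (nat_lit 4) (nat_lit 284) (nat_lit 231) (nat_lit 145)) (XT.lf (nat_lit 0) (nat_lit 2327906909247) (nat_lit 152) (nat_lit 5464422411613) (nat_lit 0) (nat_lit 2292976642669) (nat_lit 1) (nat_lit 5) (nat_lit 3) (nat_lit 4) (nat_lit 1) (nat_lit 4) (nat_lit 285) (nat_lit 231) (nat_lit 144))) (XT.nd (nat_lit 78) (nat_lit 0) (nat_lit 0) (XT.lf (nat_lit 0) (nat_lit 2711230620021) (nat_lit 152) (nat_lit 6204624884204) (nat_lit 0) (nat_lit 2676300329571) (nat_lit 1) (nat_lit 5) (nat_lit 3) (nat_lit 4) (nat_lit 1) (nat_lit 4) (nat_lit 286) (nat_lit 231) (nat_lit 143)) (XT.nd (nat_lit 78) (nat_lit 0) (nat_lit 0) (XT.lf (nat_lit 0) (nat_lit 3152052837099) (nat_lit 152) (nat_lit 7055857829208) (nat_lit 0) (nat_lit 3117122525890) (nat_lit 1) (nat_lit 5) (nat_lit 3) (nat_lit 4) (nat_lit 1) (nat_lit 4) (nat_lit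 287) (nat_lit 231) (nat_lit 142)) (XT.lf (nat_lit 0) (nat_lit 3658998342990) (nat_lit 152) (nat_lit 8034775804244) (nat_lit 0) (nat_lit 3624068013731) (nat_lit 1) (nat_lit 5) (nat_lit 3) (nat_lit 4) (nat_lit 1) (nat_lit 4) (nat_lit 288) (nat_lit 231) (nat_lit 141)))))) (XT.nd (nat_lit 312) (nat_lit 0) (nat_lit 0) (XT.nd (nat_lit 156) (nat_lit 0) (nat_lit 0) (XT.nd (nat_lit 78) (nat_lit 0) (nat_lit 0) (XT.lf (nat_lit 0) (nat_lit 4241985636722) (nat_lit 152) (nat_lit 9160531552304) (nat_lit 0) (nat_lit 4207055291767) (nat_lit 1) (nat_lit 5) (nat_lit 3) (nat_lit 4) (nat_lit 1) (nat_lit 4) (nat_lit 289) (nat_lit 231) (nat_lit 140)) (XT.lf (nat_lit 0) (nat_lit 4912420991434) (nat_lit 152) (nat_lit 10455150729326) (nat_lit 0) (nat_lit 4877490632830) (nat_lit 1) (nat_lit 5) (nat_lit 3) (nat_lit 4) (nat_lit 1) (nat_lit 4) (nat_lit 290) (nat_lit 231) (nat_lit 139))) (XT.nd (nat_lit 78) (nat_lit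 0) (nat_lit 0) (XT.lf (nat_lit 0) (nat_lit 5683421620587) (nat_lit 152) (nat_lit 11943962840949) (nat_lit 0) (nat_lit 5648491250115) (nat_lit 1) (nat_lit 5) (nat_lit 3) (nat_lit 4) (nat_lit 1) (nat_lit 4) (nat_lit 291) (nat_lit 231) (nat_lit 138)) (XT.lf (nat_lit 0) (nat_lit 6570072319100) (nat_lit 152) (nat_lit 13656096819791) (nat_lit 0) (nat_lit 6535141938307) (nat_lit 1) (nat_lit 5) (nat_lit 3) (nat_lit 4) (nat_lit 1) (nat_lit 4) (nat_lit 292) (nat_lit 231) (nat_lit 137)))) (XT.nd (nat_lit 156) (nat_lit 0) (nat_lit 0) (XT.nd (nat_lit 78) (nat_lit 0) (nat_lit 0) (XT.lf (nat_lit 0) (nat_lit 7589720600639) (nat_lit 152) (nat_lit 15625050939351) (nat_lit 0) (nat_lit 7554790210872) (nat_lit 1) (nat_lit 5) (nat_lit 3) (nat_lit 4) (nat_lit 1) (nat_lit 4) (nat_lit 293) (nat_lit 231) (nat_lit 136)) (XT.lf (nat_lit 0) (nat_lit 8762316105494) (nat_lit 152) (nat_lit 17889348215012) (nat_lit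 0) (nat_lit 8727385707924) (nat_lit 1) (nat_lit 5) (nat_lit 3) (nat_lit 4) (nat_lit 1) (nat_lit 4) (nat_lit 294) (nat_lit 231) (nat_lit 135))) (XT.nd (nat_lit 78) (nat_lit 0) (nat_lit 0) (XT.lf (nat_lit 0) (nat_lit 10110800919632) (nat_lit 152) (nat_lit 20493290115211) (nat_lit 0) (nat_lit 10075870515275) (nat_lit 1) (nat_lit 5) (nat_lit 3) (nat_lit 4) (nat_lit 1) (nat_lit 4) (nat_lit 295) (nat_lit 231) (nat_lit 134)) (XT.nd (nat_lit 234) (nat_lit 0) (nat_lit 0) (XT.lf (nat_lit 0) (nat_lit 11661558441588) (nat_lit 152) (nat_lit 23487823329299) (nat_lit 0) (nat_lit 11626628031331) (nat_lit 1) (nat_lit 5) (nat_lit 3) (nat_lit 4) (nat_lit 1) (nat_lit 4) (nat_lit 296) (nat_lit 231) (nat_lit 133)) (XT.lf (nat_lit 0) (nat_lit 17854314684994) (nat_lit 152) (nat_lit 35446117556144) (nat_lit 0) (nat_lit 17819384261264) (nat_lit 1) (nat_lit 5) (nat_lit 3) (nat_lit 4) (nat_lit 1) (nat_lit 4) (nat_lit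 299) (nat_lit 231) (nat_lit 130))))))))
noncomputable def xc74 : XT := (XT.nd (nat_lit 30108) (nat_lit 0) (nat_lit 152) (XT.nd (nat_lit 29406) (nat_lit 0) (nat_lit 760) (XT.nd (nat_lit 29094) (nat_lit 0) (nat_lit 1368) (XT.nd (nat_lit 156) (nat_lit 0) (nat_lit 0) (XT.nd (nat_lit 78) (nat_lit 0) (nat_lit 0) (XT.lf (nat_lit 0) (nat_lit 20566599230924) (nat_lit 152) (nat_lit 40683574968766) (nat_lit 0) (nat_lit 20531668803820) (nat_lit 1) (nat_lit 5) (nat_lit 3) (nat_lit 4) (nat_lit 1) (nat_lit 4) (nat_lit 300) (nat_lit 231) (nat_lit 129)) (XT.lf (nat_lit 0) (nat_lit 23685726451634) (nat_lit 152) (nat_lit 46706651007629) (nat_lit 0) (nat_lit 23650796021596) (nat_lit 1) (nat_lit 5) (nat_lit 3) (nat_lit 4) (nat_lit 1) (nat_lit 4) (nat_lit 301) (nat_lit 231) (nat_lit 128))) (XT.nd (nat_lit 78) (nat_lit 0) (nat_lit 0) (XT.lf (nat_lit 0) (nat_lit 27272722749267) (nat_lit 152) (nat_lit 53633188464799)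 (nat_lit 0) (nat_lit 27237792316678) (nat_lit 1) (nat_lit 5) (nat_lit 3) (nat_lit 4) (nat_lit 1) (nat_lit 4) (nat_lit 302) (nat_lit 231) (nat_lit 127)) (XT.lf (nat_lit 0) (nat_lit 31397768486168) (nat_lit 152) (nat_lit 61598706551393) (nat_lit 0) (nat_lit 31362838051361) (nat_lit 1) (nat_lit 5) (nat_lit 3) (nat_lit 4) (nat_lit 1) (nat_lit 4) (nat_lit 303) (nat_lit 231) (nat_lit 126)))) (XT.nd (nat_lit 156) (nat_lit 0) (nat_lit 76) (XT.nd (nat_lit 78) (nat_lit 0) (nat_lit 0) (XT.lf (nat_lit 0) (nat_lit 696589705) (nat_lit 380) (nat_lit 5134055326) (nat_lit 380) (nat_lit 5134055326) (nat_lit 19) (nat_lit 3) (nat_lit 24) (nat_lit 3) (nat_lit 24) (nat_lit 5) (nat_lit 232) (nat_lit 232) (nat_lit 196)) (XT.lf (nat_lit 0) (nat_lit 1620831434) (nat_lit 380) (nat_lit 368558932) (nat_lit 380) (nat_lit 21565531518) (nat_lit 19) (nat_lit 3) (nat_lit 24) (nat_lit 3) (nat_lit 24) (nat_lit 5) (nat_lit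 233) (nat_lit 232) (nat_lit 195))) (XT.nd (nat_lit 78) (nat_lit 0) (nat_lit 0) (XT.lf (nat_lit 0) (nat_lit 2763239486) (nat_lit 304) (nat_lit 13676484255) (nat_lit 380) (nat_lit 8852582556) (nat_lit 20) (nat_lit 5) (nat_lit 24) (nat_lit 5) (nat_lit 25) (nat_lit 5) (nat_lit 234) (nat_lit 232) (nat_lit 194)) (XT.lf (nat_lit 0) (nat_lit 4172663830) (nat_lit 304) (nat_lit 1959229203) (nat_lit 380) (nat_lit 21144166906) (nat_lit 20) (nat_lit 5) (nat_lit 24) (nat_lit 5) (nat_lit 25) (nat_lit 5) (nat_lit 235) (nat_lit 232) (nat_lit 193))))) (XT.nd (nat_lit 312) (nat_lit 456) (nat_lit 0) (XT.nd (nat_lit 156) (nat_lit 304) (nat_lit 0) (XT.nd (nat_lit 78) (nat_lit 0) (nat_lit 0) (XT.lf (nat_lit 0) (nat_lit 6561553706) (nat_lit 304) (nat_lit 17117280117) (nat_lit 76) (nat_lit 5763430523) (nat_lit 21) (nat_lit 5) (nat_lit 25) (nat_lit 5) (nat_lit 22) (nat_lit 5) (nat_lit 236) (nat_lit 232) (nat_lit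 192)) (XT.lf (nat_lit 0) (nat_lit 9693062084) (nat_lit 304) (nat_lit 3258155396) (nat_lit 76) (nat_lit 18924622227) (nat_lit 21) (nat_lit 5) (nat_lit 25) (nat_lit 5) (nat_lit 22) (nat_lit 5) (nat_lit 237) (nat_lit 232) (nat_lit 191))) (XT.nd (nat_lit 78) (nat_lit 0) (nat_lit 0) (XT.lf (nat_lit 0) (nat_lit 13858969023) (nat_lit 380) (nat_lit 20687649835) (nat_lit 76) (nat_lit 43203883) (nat_lit 17) (nat_lit 5) (nat_lit 22) (nat_lit 5) (nat_lit 18) (nat_lit 5) (nat_lit 238) (nat_lit 232) (nat_lit 190)) (XT.lf (nat_lit 0) (nat_lit 19433008500) (nat_lit 380) (nat_lit 4321949980) (nat_lit 76) (nat_lit 13838520571) (nat_lit 17) (nat_lit 5) (nat_lit 22) (nat_lit 5) (nat_lit 18) (nat_lit 5) (nat_lit 239) (nat_lit 232) (nat_lit 189)))) (XT.nd (nat_lit 156) (nat_lit 304) (nat_lit 0) (XT.nd (nat_lit 78) (nat_lit 0) (nat_lit 0) (XT.lf (nat_lit 0) (nat_lit 15901690643) (nat_lit 152) (nat_lit 10589569709)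 (nat_lit 228) (nat_lit 14459262089) (nat_lit 15) (nat_lit 5) (nat_lit 17) (nat_lit 5) (nat_lit 18) (nat_lit 5) (nat_lit 240) (nat_lit 232) (nat_lit 188)) (XT.lf (nat_lit 0) (nat_lit 35023758914) (nat_lit 228) (nat_lit 5345206339) (nat_lit 76) (nat_lit 4379878229) (nat_lit 15) (nat_lit 5) (nat_lit 18) (nat_lit 5) (nat_lit 16) (nat_lit 4) (nat_lit 241) (nat_lit 232) (nat_lit 187))) (XT.nd (nat_lit 78) (nat_lit 228) (nat_lit 0) (XT.lf (nat_lit 0) (nat_lit 18439684418) (nat_lit 76) (nat_lit 27655912329) (nat_lit 152) (nat_lit 2832437549) (nat_lit 14) (nat_lit 5) (nat_lit 15) (nat_lit 5) (nat_lit 16) (nat_lit 4) (nat_lit 242) (nat_lit 232) (nat_lit 186)) (XT.nd (nat_lit 78) (nat_lit 152) (nat_lit 0) (XT.lf (nat_lit 0) (nat_lit 4925187375) (nat_lit 152) (nat_lit 7535333761) (nat_lit 76) (nat_lit 41199284386) (nat_lit 13) (nat_lit 5) (nat_lit 15) (nat_lit 5) (nat_lit 14) (nat_lit 5) (nat_lit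 243) (nat_lit 232) (nat_lit 185)) (XT.lf (nat_lit 0) (nat_lit 14654527495) (nat_lit 228) (nat_lit 38664634063) (nat_lit 76) (nat_lit 5597267459) (nat_lit 11) (nat_lit 5) (nat_lit 14) (nat_lit 5) (nat_lit 12) (nat_lit 4) (nat_lit 244) (nat_lit 232) (nat_lit 184))))))) (XT.nd (nat_lit 702) (nat_lit 228) (nat_lit 0) (XT.nd (nat_lit 312) (nat_lit 228) (nat_lit 0) (XT.nd (nat_lit 156) (nat_lit 76) (nat_lit 0) (XT.nd (nat_lit 78) (nat_lit 76) (nat_lit 0) (XT.lf (nat_lit 0) (nat_lit 26842586618) (nat_lit 228) (nat_lit 12471490777) (nat_lit 76) (nat_lit 25497594550) (nat_lit 11) (nat_lit 5) (nat_lit 14) (nat_lit 5) (nat_lit 12) (nat_lit 4) (nat_lit 245) (nat_lit 232) (nat_lit 183)) (XT.lf (nat_lit 0) (nat_lit 19365285723) (nat_lit 76) (nat_lit 22289627205) (nat_lit 152) (nat_lit 29816900164) (nat_lit 10) (nat_lit 5) (nat_lit 11) (nat_lit 5) (nat_lit 12) (nat_lit 4) (nat_lit 246) (nat_lit 232)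 (nat_lit 182))) (XT.nd (nat_lit 78) (nat_lit 76) (nat_lit 0) (XT.lf (nat_lit 0) (nat_lit 57370260176) (nat_lit 76) (nat_lit 1965318349) (nat_lit 152) (nat_lit 19698441185) (nat_lit 10) (nat_lit 5) (nat_lit 11) (nat_lit 5) (nat_lit 12) (nat_lit 4) (nat_lit 247) (nat_lit 232) (nat_lit 181)) (XT.lf (nat_lit 0) (nat_lit 13667368093) (nat_lit 76) (nat_lit 67448510011) (nat_lit 76) (nat_lit 6397564617) (nat_lit 9) (nat_lit 4) (nat_lit 10) (nat_lit 5) (nat_lit 10) (nat_lit 4) (nat_lit 248) (nat_lit 232) (nat_lit 180)))) (XT.nd (nat_lit 156) (nat_lit 152) (nat_lit 0) (XT.nd (nat_lit 78) (nat_lit 0) (nat_lit 0) (XT.lf (nat_lit 0) (nat_lit 9381403228) (nat_lit 152) (nat_lit 40886488790) (nat_lit 76) (nat_lit 46750354953) (nat_lit 8) (nat_lit 5) (nat_lit 10) (nat_lit 5) (nat_lit 9) (nat_lit 4) (nat_lit 249) (nat_lit 232) (nat_lit 179)) (XT.lf (nat_lit 0) (nat_lit 26868075700) (nat_lit 152) (nat_lit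 3294978052) (nat_lit 76) (nat_lit 77740654192) (nat_lit 8) (nat_lit 5) (nat_lit 10) (nat_lit 5) (nat_lit 9) (nat_lit 4) (nat_lit 250) (nat_lit 232) (nat_lit 178))) (XT.nd (nat_lit 78) (nat_lit 76) (nat_lit 0) (XT.lf (nat_lit 0) (nat_lit 43830991095) (nat_lit 76) (nat_lit 4958095564) (nat_lit 152) (nat_lit 71361209635) (nat_lit 7) (nat_lit 5) (nat_lit 8) (nat_lit 5) (nat_lit 9) (nat_lit 4) (nat_lit 251) (nat_lit 232) (nat_lit 177)) (XT.nd (nat_lit 78) (nat_lit 76) (nat_lit 0) (XT.lf (nat_lit 0) (nat_lit 75170115191) (nat_lit 152) (nat_lit 36821523593) (nat_lit 0) (nat_lit 22066461941) (nat_lit 7) (nat_lit 5) (nat_lit 9) (nat_lit 4) (nat_lit 7) (nat_lit 4) (nat_lit 252) (nat_lit 232) (nat_lit 176)) (XT.lf (nat_lit 0) (nat_lit 9176074545) (nat_lit 76) (nat_lit 96945236850) (nat_lit 76) (nat_lit 43838819129) (nat_lit 6) (nat_lit 4) (nat_lit 7) (nat_lit 5) (nat_lit 7) (nat_lit 4) (nat_lit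 253) (nat_lit 232) (nat_lit 175)))))) (XT.nd (nat_lit 312) (nat_lit 76) (nat_lit 0) (XT.nd (nat_lit 156) (nat_lit 152) (nat_lit 0) (XT.nd (nat_lit 78) (nat_lit 0) (nat_lit 0) (XT.lf (nat_lit 0) (nat_lit 66206138675) (nat_lit 76) (nat_lit 77430935262) (nat_lit 76) (nat_lit 24322113653) (nat_lit 6) (nat_lit 4) (nat_lit 7) (nat_lit 5) (nat_lit 7) (nat_lit 4) (nat_lit 254) (nat_lit 232) (nat_lit 174)) (XT.lf (nat_lit 0) (nat_lit 131786007321) (nat_lit 76) (nat_lit 54991693929) (nat_lit 76) (nat_lit 1880781982) (nat_lit 6) (nat_lit 4) (nat_lit 7) (nat_lit 5) (nat_lit 7) (nat_lit 4) (nat_lit 255) (nat_lit 232) (nat_lit 173))) (XT.nd (nat_lit 78) (nat_lit 76) (nat_lit 0) (XT.lf (nat_lit 0) (nat_lit 21794343649) (nat_lit 152) (nat_lit 6254890784) (nat_lit 76) (nat_lit 184265171437) (nat_lit 5) (nat_lit 5) (nat_lit 7) (nat_lit 5) (nat_lit 6) (nat_lit 4) (nat_lit 256) (nat_lit 232) (nat_lit 172))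 (XT.lf (nat_lit 0) (nat_lit 51421524871) (nat_lit 152) (nat_lit 182459591612) (nat_lit 0) (nat_lit 5235168152) (nat_lit 4) (nat_lit 5) (nat_lit 6) (nat_lit 4) (nat_lit 4) (nat_lit 4) (nat_lit 257) (nat_lit 232) (nat_lit 171)))) (XT.nd (nat_lit 156) (nat_lit 76) (nat_lit 0) (XT.nd (nat_lit 78) (nat_lit 0) (nat_lit 0) (XT.lf (nat_lit 0) (nat_lit 87169046738) (nat_lit 152) (nat_lit 141536466997) (nat_lit 0) (nat_lit 40981494862) (nat_lit 4) (nat_lit 5) (nat_lit 6) (nat_lit 4) (nat_lit 4) (nat_lit 4) (nat_lit 258) (nat_lit 232) (nat_lit 170)) (XT.lf (nat_lit 0) (nat_lit 128277006362) (nat_lit 152) (nat_lit 94478175673) (nat_lit 0) (nat_lit 82088415219) (nat_lit 4) (nat_lit 5) (nat_lit 6) (nat_lit 4) (nat_lit 4) (nat_lit 4) (nat_lit 259) (nat_lit 232) (nat_lit 169))) (XT.nd (nat_lit 78) (nat_lit 76) (nat_lit 0) (XT.lf (nat_lit 0) (nat_lit 175549689909) (nat_lit 152) (nat_lit 40364011942)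 (nat_lit 0) (nat_lit 129360195056) (nat_lit 4) (nat_lit 5) (nat_lit 6) (nat_lit 4) (nat_lit 4) (nat_lit 4) (nat_lit 260) (nat_lit 232) (nat_lit 168)) (XT.nd (nat_lit 78) (nat_lit 0) (nat_lit 0) (XT.lf (nat_lit 0) (nat_lit 24001564850) (nat_lit 76) (nat_lit 206904286476) (nat_lit 76) (nat_lit 160714005787) (nat_lit 3) (nat_lit 4) (nat_lit 4) (nat_lit 5) (nat_lit 4) (nat_lit 4) (nat_lit 261) (nat_lit 232) (nat_lit 167)) (XT.lf (nat_lit 0) (nat_lit 102555959402) (nat_lit 76) (nat_lit 194118204309) (nat_lit 76) (nat_lit 147927240286) (nat_lit 3) (nat_lit 4) (nat_lit 4) (nat_lit 5) (nat_lit 4) (nat_lit 4) (nat_lit 262) (nat_lit 232) (nat_lit 166))))))))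
noncomputable def xc75 : XT := (XT.nd (nat_lit 1404) (nat_lit 0) (nat_lit 0) (XT.nd (nat_lit 702) (nat_lit 0) (nat_lit 0) (XT.nd (nat_lit 312) (nat_lit 152) (nat_lit 0) (XT.nd (nat_lit 156) (nat_lit 0) (nat_lit 0) (XT.nd (nat_lit 78) (nat_lit 0) (nat_lit 0) (XT.lf (nat_lit 0) (nat_lit 192891440715) (nat_lit 76) (nat_lit 179415229862) (nat_lit 76) (nat_lit 133223671634) (nat_lit 3) (nat_lit 4) (nat_lit 4) (nat_lit 5) (nat_lit 4) (nat_lit 4) (nat_lit 263) (nat_lit 232) (nat_lit 165)) (XT.lf (nat_lit 0) (nat_lit 296775442119) (nat_lit 76) (nat_lit 162507696244) (nat_lit 76) (nat_lit 116315621317) (nat_lit 3) (nat_lit 4) (nat_lit 4) (nat_lit 5) (nat_lit 4) (nat_lit 4) (nat_lit 264) (nat_lit 232) (nat_lit 164))) (XT.nd (nat_lit 78) (nat_lit 0) (nat_lit 0) (XT.lf (nat_lit 0) (nat_lit 416240476686) (nat_lit 76) (nat_lit 143064803883) (nat_lit 76) (nat_lit 96872279652) (nat_lit 3) (nat_lit 4)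 (nat_lit 4) (nat_lit 5) (nat_lit 4) (nat_lit 4) (nat_lit 265) (nat_lit 232) (nat_lit 163)) (XT.lf (nat_lit 0) (nat_lit 553623903786) (nat_lit 76) (nat_lit 120706148364) (nat_lit 76) (nat_lit 74513233434) (nat_lit 3) (nat_lit 4) (nat_lit 4) (nat_lit 5) (nat_lit 4) (nat_lit 4) (nat_lit 266) (nat_lit 232) (nat_lit 162)))) (XT.nd (nat_lit 156) (nat_lit 152) (nat_lit 0) (XT.nd (nat_lit 78) (nat_lit 0) (nat_lit 0) (XT.lf (nat_lit 0) (nat_lit 711613660038) (nat_lit 76) (nat_lit 94994277731) (nat_lit 76) (nat_lit 48801023063) (nat_lit 3) (nat_lit 4) (nat_lit 4) (nat_lit 5) (nat_lit 4) (nat_lit 4) (nat_lit 267) (nat_lit 232) (nat_lit 161)) (XT.lf (nat_lit 0) (nat_lit 893300849369) (nat_lit 76) (nat_lit 65426133646) (nat_lit 76) (nat_lit 19232583553) (nat_lit 3) (nat_lit 4) (nat_lit 4) (nat_lit 5) (nat_lit 4) (nat_lit 4) (nat_lit 268) (nat_lit 232) (nat_lit 160))) (XT.nd (nat_lit 78) (nat_lit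 76) (nat_lit 0) (XT.lf (nat_lit 0) (nat_lit 13455617264) (nat_lit 152) (nat_lit 17264229865) (nat_lit 76) (nat_lit 1088081242057) (nat_lit 2) (nat_lit 5) (nat_lit 4) (nat_lit 5) (nat_lit 3) (nat_lit 4) (nat_lit 269) (nat_lit 232) (nat_lit 159)) (XT.nd (nat_lit 78) (nat_lit 0) (nat_lit 0) (XT.lf (nat_lit 0) (nat_lit 52326708455) (nat_lit 152) (nat_lit 1215659463650) (nat_lit 0) (nat_lit 12157986397) (nat_lit 1) (nat_lit 5) (nat_lit 3) (nat_lit 4) (nat_lit 1) (nat_lit 4) (nat_lit 270) (nat_lit 232) (nat_lit 158)) (XT.lf (nat_lit 0) (nat_lit 99436325917) (nat_lit 152) (nat_lit 1306623748371) (nat_lit 0) (nat_lit 59267434949) (nat_lit 1) (nat_lit 5) (nat_lit 3) (nat_lit 4) (nat_lit 1) (nat_lit 4) (nat_lit 271) (nat_lit 232) (nat_lit 157)))))) (XT.nd (nat_lit 312) (nat_lit 0) (nat_lit 0) (XT.nd (nat_lit 156) (nat_lit 0) (nat_lit 0) (XT.nd (nat_lit 78) (nat_lit 0) (nat_lit 0) (XT.lf (nat_lit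 0) (nat_lit 153612030012) (nat_lit 152) (nat_lit 1411233394159) (nat_lit 0) (nat_lit 113442992166) (nat_lit 1) (nat_lit 5) (nat_lit 3) (nat_lit 4) (nat_lit 1) (nat_lit 4) (nat_lit 272) (nat_lit 232) (nat_lit 156)) (XT.lf (nat_lit 0) (nat_lit 215913780168) (nat_lit 152) (nat_lit 1531535111473) (nat_lit 0) (nat_lit 175744614602) (nat_lit 1) (nat_lit 5) (nat_lit 3) (nat_lit 4) (nat_lit 1) (nat_lit 4) (nat_lit 273) (nat_lit 232) (nat_lit 155))) (XT.nd (nat_lit 78) (nat_lit 0) (nat_lit 0) (XT.lf (nat_lit 0) (nat_lit 287560523672) (nat_lit 152) (nat_lit 1669882629567) (nat_lit 0) (nat_lit 247391247044) (nat_lit 1) (nat_lit 5) (nat_lit 3) (nat_lit 4) (nat_lit 1) (nat_lit 4) (nat_lit 274) (nat_lit 232) (nat_lit 154)) (XT.lf (nat_lit 0) (nat_lit 369954044634) (nat_lit 152) (nat_lit 1828982747707) (nat_lit 0) (nat_lit 329784671432) (nat_lit 1) (nat_lit 5) (nat_lit 3) (nat_lit 4) (nat_lit 1) (nat_lit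 4) (nat_lit 275) (nat_lit 232) (nat_lit 153)))) (XT.nd (nat_lit 156) (nat_lit 0) (nat_lit 0) (XT.nd (nat_lit 78) (nat_lit 0) (nat_lit 0) (XT.lf (nat_lit 0) (nat_lit 464706390205) (nat_lit 152) (nat_lit 2011948294291) (nat_lit 0) (nat_lit 424536933024) (nat_lit 1) (nat_lit 5) (nat_lit 3) (nat_lit 4) (nat_lit 1) (nat_lit 4) (nat_lit 276) (nat_lit 232) (nat_lit 152)) (XT.lf (nat_lit 0) (nat_lit 573671410624) (nat_lit 152) (nat_lit 2222359030014) (nat_lit 0) (nat_lit 533501880418) (nat_lit 1) (nat_lit 5) (nat_lit 3) (nat_lit 4) (nat_lit 1) (nat_lit 4) (nat_lit 277) (nat_lit 232) (nat_lit 151))) (XT.nd (nat_lit 78) (nat_lit 0) (nat_lit 0) (XT.lf (nat_lit 0) (nat_lit 698981030202) (nat_lit 152) (nat_lit 2464331686661) (nat_lit 0) (nat_lit 658811436498) (nat_lit 1) (nat_lit 5) (nat_lit 3) (nat_lit 4) (nat_lit 1) (nat_lit 4) (nat_lit 278) (nat_lit 232) (nat_lit 150)) (XT.nd (nat_lit 78) (nat_lit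 0) (nat_lit 0) (XT.lf (nat_lit 0) (nat_lit 843086958890) (nat_lit 152) (nat_lit 2742600511862) (nat_lit 0) (nat_lit 802917309968) (nat_lit 1) (nat_lit 5) (nat_lit 3) (nat_lit 4) (nat_lit 1) (nat_lit 4) (nat_lit 279) (nat_lit 232) (nat_lit 149)) (XT.lf (nat_lit 0) (nat_lit 1008808660508) (nat_lit 152) (nat_lit 3062609895676) (nat_lit 0) (nat_lit 968638963571) (nat_lit 1) (nat_lit 5) (nat_lit 3) (nat_lit 4) (nat_lit 1) (nat_lit 4) (nat_lit 280) (nat_lit 232) (nat_lit 148))))))) (XT.nd (nat_lit 702) (nat_lit 0) (nat_lit 0) (XT.nd (nat_lit 312) (nat_lit 0) (nat_lit 0) (XT.nd (nat_lit 156) (nat_lit 0) (nat_lit 0) (XT.nd (nat_lit 78) (nat_lit 0) (nat_lit 0) (XT.lf (nat_lit 0) (nat_lit 1199388516175) (nat_lit 152) (nat_lit 3430620891264) (nat_lit 0) (nat_lit 1159218777486) (nat_lit 1) (nat_lit 5) (nat_lit 3) (nat_lit 4) (nat_lit 1) (nat_lit 4) (nat_lit 281) (nat_lit 232) (nat_lit 147)) (XT.lf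 (nat_lit 0) (nat_lit 1418555262198) (nat_lit 152) (nat_lit 3853833713757) (nat_lit 0) (nat_lit 1378385487204) (nat_lit 1) (nat_lit 5) (nat_lit 3) (nat_lit 4) (nat_lit 1) (nat_lit 4) (nat_lit 282) (nat_lit 232) (nat_lit 146))) (XT.nd (nat_lit 78) (nat_lit 0) (nat_lit 0) (XT.lf (nat_lit 0) (nat_lit 1670596943608) (nat_lit 152) (nat_lit 4340528614031) (nat_lit 0) (nat_lit 1630427137043) (nat_lit 1) (nat_lit 5) (nat_lit 3) (nat_lit 4) (nat_lit 1) (nat_lit 4) (nat_lit 283) (nat_lit 232) (nat_lit 145)) (XT.lf (nat_lit 0) (nat_lit 1960444810693) (nat_lit 152) (nat_lit 4900227883612) (nat_lit 0) (nat_lit 1920274976675) (nat_lit 1) (nat_lit 5) (nat_lit 3) (nat_lit 4) (nat_lit 1) (nat_lit 4) (nat_lit 284) (nat_lit 232) (nat_lit 144)))) (XT.nd (nat_lit 156) (nat_lit 0) (nat_lit 0) (XT.nd (nat_lit 78) (nat_lit 0) (nat_lit 0) (XT.lf (nat_lit 0) (nat_lit 2293769799983) (nat_lit 152) (nat_lit 5543882160383)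 (nat_lit 0) (nat_lit 2253599942094) (nat_lit 1) (nat_lit 5) (nat_lit 3) (nat_lit 4) (nat_lit 1) (nat_lit 4) (nat_lit 285) (nat_lit 232) (nat_lit 143)) (XT.lf (nat_lit 0) (nat_lit 2677093487355) (nat_lit 152) (nat_lit 6284084680195) (nat_lit 0) (nat_lit 2636923608708) (nat_lit 1) (nat_lit 5) (nat_lit 3) (nat_lit 4) (nat_lit 1) (nat_lit 4) (nat_lit 286) (nat_lit 232) (nat_lit 142))) (XT.nd (nat_lit 78) (nat_lit 0) (nat_lit 0) (XT.lf (nat_lit 0) (nat_lit 3117915684085) (nat_lit 152) (nat_lit 7135317666260) (nat_lit 0) (nat_lit 3077745787387) (nat_lit 1) (nat_lit 5) (nat_lit 3) (nat_lit 4) (nat_lit 1) (nat_lit 4) (nat_lit 287) (nat_lit 232) (nat_lit 141)) (XT.nd (nat_lit 78) (nat_lit 0) (nat_lit 0) (XT.lf (nat_lit 0) (nat_lit 3624861172282) (nat_lit 152) (nat_lit 8114235677003) (nat_lit 0) (nat_lit 3584691259888) (nat_lit 1) (nat_lit 5) (nat_lit 3) (nat_lit 4) (nat_lit 1) (nat_lit 4) (nat_lit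 288) (nat_lit 232) (nat_lit 140)) (XT.lf (nat_lit 0) (nat_lit 4207848450628) (nat_lit 152) (nat_lit 9239991456111) (nat_lit 0) (nat_lit 4167678524586) (nat_lit 1) (nat_lit 5) (nat_lit 3) (nat_lit 4) (nat_lit 1) (nat_lit 4) (nat_lit 289) (nat_lit 232) (nat_lit 139)))))) (XT.nd (nat_lit 312) (nat_lit 0) (nat_lit 0) (XT.nd (nat_lit 156) (nat_lit 0) (nat_lit 0) (XT.nd (nat_lit 78) (nat_lit 0) (nat_lit 0) (XT.lf (nat_lit 0) (nat_lit 4878283791961) (nat_lit 152) (nat_lit 10534610660132) (nat_lit 0) (nat_lit 4838113854050) (nat_lit 1) (nat_lit 5) (nat_lit 3) (nat_lit 4) (nat_lit 1) (nat_lit 4) (nat_lit 290) (nat_lit 232) (nat_lit 138)) (XT.lf (nat_lit 0) (nat_lit 5649284409480) (nat_lit 152) (nat_lit 12023422795232) (nat_lit 0) (nat_lit 5609114461248) (nat_lit 1) (nat_lit 5) (nat_lit 3) (nat_lit 4) (nat_lit 1) (nat_lit 4) (nat_lit 291) (nat_lit 232) (nat_lit 137))) (XT.nd (nat_lit 78) (nat_lit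 0) (nat_lit 0) (XT.lf (nat_lit 0) (nat_lit 6535935097876) (nat_lit 152) (nat_lit 13735556794489) (nat_lit 0) (nat_lit 6495765140670) (nat_lit 1) (nat_lit 5) (nat_lit 3) (nat_lit 4) (nat_lit 1) (nat_lit 4) (nat_lit 292) (nat_lit 232) (nat_lit 136)) (XT.lf (nat_lit 0) (nat_lit 7555583370618) (nat_lit 152) (nat_lit 15704510931801) (nat_lit 0) (nat_lit 7515413405608) (nat_lit 1) (nat_lit 5) (nat_lit 3) (nat_lit 4) (nat_lit 1) (nat_lit 4) (nat_lit 293) (nat_lit 232) (nat_lit 135)))) (XT.nd (nat_lit 156) (nat_lit 0) (nat_lit 0) (XT.nd (nat_lit 78) (nat_lit 0) (nat_lit 0) (XT.lf (nat_lit 0) (nat_lit 8728178867824) (nat_lit 152) (nat_lit 17968808222898) (nat_lit 0) (nat_lit 8688008896028) (nat_lit 1) (nat_lit 5) (nat_lit 3) (nat_lit 4) (nat_lit 1) (nat_lit 4) (nat_lit 294) (nat_lit 232) (nat_lit 134)) (XT.lf (nat_lit 0) (nat_lit 10076663675309) (nat_lit 152) (nat_lit 20572750136520) (nat_lit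 0) (nat_lit 10036493697613) (nat_lit 1) (nat_lit 5) (nat_lit 3) (nat_lit 4) (nat_lit 1) (nat_lit 4) (nat_lit 295) (nat_lit 232) (nat_lit 133))) (XT.nd (nat_lit 156) (nat_lit 0) (nat_lit 0) (XT.lf (nat_lit 0) (nat_lit 11627421191482) (nat_lit 152) (nat_lit 23567283362280) (nat_lit 0) (nat_lit 11587251208654) (nat_lit 1) (nat_lit 5) (nat_lit 3) (nat_lit 4) (nat_lit 1) (nat_lit 4) (nat_lit 296) (nat_lit 232) (nat_lit 132)) (XT.nd (nat_lit 78) (nat_lit 0) (nat_lit 0) (XT.lf (nat_lit 0) (nat_lit 15461669117564) (nat_lit 152) (nat_lit 30971266828866) (nat_lit 0) (nat_lit 15421499126395) (nat_lit 1) (nat_lit 5) (nat_lit 3) (nat_lit 4) (nat_lit 1) (nat_lit 4) (nat_lit 298) (nat_lit 232) (nat_lit 130)) (XT.lf (nat_lit 0) (nat_lit 17820177421680) (nat_lit 152) (nat_lit 35525577615776) (nat_lit 0) (nat_lit 17780007427137) (nat_lit 1) (nat_lit 5) (nat_lit 3) (nat_lit 4) (nat_lit 1) (nat_lit 4) (nat_lit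 299) (nat_lit 232) (nat_lit 129))))))))
noncomputable def xc76 : XT := (XT.nd (nat_lit 30108) (nat_lit 0) (nat_lit 152) (XT.nd (nat_lit 29406) (nat_lit 0) (nat_lit 912) (XT.nd (nat_lit 312) (nat_lit 0) (nat_lit 0) (XT.nd (nat_lit 156) (nat_lit 0) (nat_lit 0) (XT.nd (nat_lit 78) (nat_lit 0) (nat_lit 0) (XT.lf (nat_lit 0) (nat_lit 20532461964303) (nat_lit 152) (nat_lit 40763035035071) (nat_lit 0) (nat_lit 20492291966827) (nat_lit 1) (nat_lit 5) (nat_lit 3) (nat_lit 4) (nat_lit 1) (nat_lit 4) (nat_lit 300) (nat_lit 232) (nat_lit 128)) (XT.lf (nat_lit 0) (nat_lit 23651589182137) (nat_lit 152) (nat_lit 46786111079738) (nat_lit 0) (nat_lit 23611419182109) (nat_lit 1) (nat_lit 5) (nat_lit 3) (nat_lit 4) (nat_lit 1) (nat_lit 4) (nat_lit 301) (nat_lit 232) (nat_lit 127))) (XT.nd (nat_lit 78) (nat_lit 0) (nat_lit 0) (XT.lf (nat_lit 0) (nat_lit 27238585477269) (nat_lit 152) (nat_lit 53712648541953)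 (nat_lit 0) (nat_lit 27198415475023) (nat_lit 1) (nat_lit 5) (nat_lit 3) (nat_lit 4) (nat_lit 1) (nat_lit 4) (nat_lit 302) (nat_lit 232) (nat_lit 126)) (XT.lf (nat_lit 0) (nat_lit 31363631211996) (nat_lit 152) (nat_lit 61678166632936) (nat_lit 0) (nat_lit 31323461207821) (nat_lit 1) (nat_lit 5) (nat_lit 3) (nat_lit 4) (nat_lit 1) (nat_lit 4) (nat_lit 303) (nat_lit 232) (nat_lit 125)))) (XT.nd (nat_lit 28938) (nat_lit 0) (nat_lit 1368) (XT.nd (nat_lit 28860) (nat_lit 0) (nat_lit 1368) (XT.lf (nat_lit 0) (nat_lit 36107433802867) (nat_lit 152) (nat_lit 70838512445769) (nat_lit 0) (nat_lit 36067263797015) (nat_lit 1) (nat_lit 5) (nat_lit 3) (nat_lit 4) (nat_lit 1) (nat_lit 4) (nat_lit 304) (nat_lit 232) (nat_lit 124)) (XT.lf (nat_lit 0) (nat_lit 919141788) (nat_lit 380) (nat_lit 5835937051) (nat_lit 380) (nat_lit 5835937051) (nat_lit 19) (nat_lit 3) (nat_lit 24) (nat_lit 3) (nat_lit 24)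 (nat_lit 5) (nat_lit 233) (nat_lit 233) (nat_lit 194))) (XT.nd (nat_lit 78) (nat_lit 0) (nat_lit 76) (XT.lf (nat_lit 0) (nat_lit 2069284195) (nat_lit 380) (nat_lit 305187861) (nat_lit 380) (nat_lit 24681706335) (nat_lit 19) (nat_lit 3) (nat_lit 24) (nat_lit 3) (nat_lit 24) (nat_lit 5) (nat_lit 234) (nat_lit 233) (nat_lit 193)) (XT.lf (nat_lit 0) (nat_lit 3358063957) (nat_lit 304) (nat_lit 15583284165) (nat_lit 380) (nat_lit 10116725018) (nat_lit 20) (nat_lit 5) (nat_lit 24) (nat_lit 5) (nat_lit 25) (nat_lit 5) (nat_lit 235) (nat_lit 233) (nat_lit 192))))) (XT.nd (nat_lit 312) (nat_lit 304) (nat_lit 0) (XT.nd (nat_lit 156) (nat_lit 228) (nat_lit 0) (XT.nd (nat_lit 78) (nat_lit 0) (nat_lit 76) (XT.lf (nat_lit 0) (nat_lit 4955379533) (nat_lit 304) (nat_lit 2127311211) (nat_lit 380) (nat_lit 24260361575) (nat_lit 20) (nat_lit 5) (nat_lit 24) (nat_lit 5) (nat_lit 25) (nat_lit 5) (nat_lit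 236) (nat_lit 233) (nat_lit 191)) (XT.lf (nat_lit 0) (nat_lit 7686241114) (nat_lit 304) (nat_lit 19541930426) (nat_lit 76) (nat_lit 6608586747) (nat_lit 21) (nat_lit 5) (nat_lit 25) (nat_lit 5) (nat_lit 22) (nat_lit 5) (nat_lit 237) (nat_lit 233) (nat_lit 190))) (XT.nd (nat_lit 78) (nat_lit 304) (nat_lit 0) (XT.lf (nat_lit 0) (nat_lit 11269155616) (nat_lit 304) (nat_lit 3622581569) (nat_lit 76) (nat_lit 21746482209) (nat_lit 21) (nat_lit 5) (nat_lit 25) (nat_lit 5) (nat_lit 22) (nat_lit 5) (nat_lit 238) (nat_lit 233) (nat_lit 189)) (XT.lf (nat_lit 0) (nat_lit 16049242805) (nat_lit 380) (nat_lit 23655206436) (nat_lit 76) (nat_lit 56544701) (nat_lit 17) (nat_lit 5) (nat_lit 22) (nat_lit 5) (nat_lit 18) (nat_lit 5) (nat_lit 239) (nat_lit 233) (nat_lit 188)))) (XT.nd (nat_lit 156) (nat_lit 152) (nat_lit 0) (XT.nd (nat_lit 78) (nat_lit 152) (nat_lit 0) (XT.lf (nat_lit 0) (nat_lit 22444854060)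 (nat_lit 380) (nat_lit 4852337369) (nat_lit 76) (nat_lit 15920264079) (nat_lit 17) (nat_lit 5) (nat_lit 22) (nat_lit 5) (nat_lit 18) (nat_lit 5) (nat_lit 240) (nat_lit 233) (nat_lit 187)) (XT.lf (nat_lit 0) (nat_lit 18399490024) (nat_lit 152) (nat_lit 12154375561) (nat_lit 228) (nat_lit 16525453223) (nat_lit 15) (nat_lit 5) (nat_lit 17) (nat_lit 5) (nat_lit 18) (nat_lit 5) (nat_lit 241) (nat_lit 233) (nat_lit 186))) (XT.nd (nat_lit 78) (nat_lit 152) (nat_lit 0) (XT.lf (nat_lit 0) (nat_lit 40355491997) (nat_lit 228) (nat_lit 6037987872) (nat_lit 76) (nat_lit 5055578166) (nat_lit 15) (nat_lit 5) (nat_lit 18) (nat_lit 5) (nat_lit 16) (nat_lit 4) (nat_lit 242) (nat_lit 233) (nat_lit 185)) (XT.nd (nat_lit 78) (nat_lit 76) (nat_lit 0) (XT.lf (nat_lit 0) (nat_lit 21309681980) (nat_lit 76) (nat_lit 31772535814) (nat_lit 152) (nat_lit 3173843257) (nat_lit 14) (nat_lit 5) (nat_lit 15) (nat_lit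 5) (nat_lit 16) (nat_lit 4) (nat_lit 243) (nat_lit 233) (nat_lit 184)) (XT.lf (nat_lit 0) (nat_lit 5730078303) (nat_lit 152) (nat_lit 8568444789) (nat_lit 76) (nat_lit 47400082151) (nat_lit 13) (nat_lit 5) (nat_lit 15) (nat_lit 5) (nat_lit 14) (nat_lit 5) (nat_lit 244) (nat_lit 233) (nat_lit 183))))))) (XT.nd (nat_lit 702) (nat_lit 304) (nat_lit 0) (XT.nd (nat_lit 312) (nat_lit 228) (nat_lit 0) (XT.nd (nat_lit 156) (nat_lit 76) (nat_lit 0) (XT.nd (nat_lit 78) (nat_lit 0) (nat_lit 0) (XT.lf (nat_lit 0) (nat_lit 16915339377) (nat_lit 228) (nat_lit 44363439041) (nat_lit 76) (nat_lit 6465499008) (nat_lit 11) (nat_lit 5) (nat_lit 14) (nat_lit 5) (nat_lit 12) (nat_lit 4) (nat_lit 245) (nat_lit 233) (nat_lit 182)) (XT.lf (nat_lit 0) (nat_lit 30923437877) (nat_lit 228) (nat_lit 14254483845) (nat_lit 76) (nat_lit 29347139324) (nat_lit 11) (nat_lit 5) (nat_lit 14) (nat_lit 5) (nat_lit 12) (nat_lit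 4) (nat_lit 246) (nat_lit 233) (nat_lit 181))) (XT.nd (nat_lit 78) (nat_lit 0) (nat_lit 0) (XT.lf (nat_lit 0) (nat_lit 22353821378) (nat_lit 76) (nat_lit 25600155463) (nat_lit 152) (nat_lit 34230817038) (nat_lit 10) (nat_lit 5) (nat_lit 11) (nat_lit 5) (nat_lit 12) (nat_lit 4) (nat_lit 247) (nat_lit 233) (nat_lit 180)) (XT.lf (nat_lit 0) (nat_lit 66048619026) (nat_lit 76) (nat_lit 2231493646) (nat_lit 152) (nat_lit 22602235058) (nat_lit 10) (nat_lit 5) (nat_lit 11) (nat_lit 5) (nat_lit 12) (nat_lit 4) (nat_lit 248) (nat_lit 233) (nat_lit 179)))) (XT.nd (nat_lit 156) (nat_lit 76) (nat_lit 0) (XT.nd (nat_lit 78) (nat_lit 76) (nat_lit 0) (XT.lf (nat_lit 0) (nat_lit 15792318801) (nat_lit 76) (nat_lit 77533503309) (nat_lit 76) (nat_lit 7308126301) (nat_lit 9) (nat_lit 4) (nat_lit 10) (nat_lit 5) (nat_lit 10) (nat_lit 4) (nat_lit 249) (nat_lit 233) (nat_lit 178)) (XT.lf (nat_lit 0) (nat_lit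 10827486922) (nat_lit 152) (nat_lit 46950484540) (nat_lit 76) (nat_lit 53787086017) (nat_lit 8) (nat_lit 5) (nat_lit 10) (nat_lit 5) (nat_lit 9) (nat_lit 4) (nat_lit 250) (nat_lit 233) (nat_lit 177))) (XT.nd (nat_lit 78) (nat_lit 76) (nat_lit 0) (XT.lf (nat_lit 0) (nat_lit 30932089846) (nat_lit 152) (nat_lit 3729244266) (nat_lit 76) (nat_lit 89422776512) (nat_lit 8) (nat_lit 5) (nat_lit 10) (nat_lit 5) (nat_lit 9) (nat_lit 4) (nat_lit 251) (nat_lit 233) (nat_lit 176)) (XT.nd (nat_lit 78) (nat_lit 0) (nat_lit 0) (XT.lf (nat_lit 0) (nat_lit 50462893867) (nat_lit 76) (nat_lit 5676320292) (nat_lit 152) (nat_lit 82028789649) (nat_lit 7) (nat_lit 5) (nat_lit 8) (nat_lit 5) (nat_lit 9) (nat_lit 4) (nat_lit 252) (nat_lit 233) (nat_lit 175)) (XT.lf (nat_lit 0) (nat_lit 86474171576) (nat_lit 152) (nat_lit 42291677725) (nat_lit 0) (nat_lit 25396622838) (nat_lit 7) (nat_lit 5) (nat_lit 9) (nat_lit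 4) (nat_lit 7) (nat_lit 4) (nat_lit 253) (nat_lit 233) (nat_lit 174)))))) (XT.nd (nat_lit 312) (nat_lit 152) (nat_lit 0) (XT.nd (nat_lit 156) (nat_lit 76) (nat_lit 0) (XT.nd (nat_lit 78) (nat_lit 0) (nat_lit 0) (XT.lf (nat_lit 0) (nat_lit 10603147661) (nat_lit 76) (nat_lit 111463274860) (nat_lit 76) (nat_lit 50383635784) (nat_lit 6) (nat_lit 4) (nat_lit 7) (nat_lit 5) (nat_lit 7) (nat_lit 4) (nat_lit 254) (nat_lit 233) (nat_lit 173)) (XT.lf (nat_lit 0) (nat_lit 76181113332) (nat_lit 76) (nat_lit 89024925536) (nat_lit 76) (nat_lit 27943468775) (nat_lit 6) (nat_lit 4) (nat_lit 7) (nat_lit 5) (nat_lit 7) (nat_lit 4) (nat_lit 255) (nat_lit 233) (nat_lit 172))) (XT.nd (nat_lit 78) (nat_lit 76) (nat_lit 0) (XT.lf (nat_lit 0) (nat_lit 151592216119) (nat_lit 76) (nat_lit 63222491483) (nat_lit 76) (nat_lit 2139454127) (nat_lit 6) (nat_lit 4) (nat_lit 7) (nat_lit 5) (nat_lit 7) (nat_lit 4) (nat_lit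 256) (nat_lit 233) (nat_lit 171)) (XT.lf (nat_lit 0) (nat_lit 25082067286) (nat_lit 152) (nat_lit 7157967121) (nat_lit 76) (nat_lit 211918715294) (nat_lit 5) (nat_lit 5) (nat_lit 7) (nat_lit 5) (nat_lit 6) (nat_lit 4) (nat_lit 257) (nat_lit 233) (nat_lit 170)))) (XT.nd (nat_lit 156) (nat_lit 76) (nat_lit 0) (XT.nd (nat_lit 78) (nat_lit 0) (nat_lit 0) (XT.lf (nat_lit 0) (nat_lit 59152956213) (nat_lit 152) (nat_lit 209792976431) (nat_lit 0) (nat_lit 6035037132) (nat_lit 4) (nat_lit 5) (nat_lit 6) (nat_lit 4) (nat_lit 4) (nat_lit 4) (nat_lit 258) (nat_lit 233) (nat_lit 169)) (XT.lf (nat_lit 0) (nat_lit 100260232106) (nat_lit 152) (nat_lit 162736020592) (nat_lit 0) (nat_lit 47141409315) (nat_lit 4) (nat_lit 5) (nat_lit 6) (nat_lit 4) (nat_lit 4) (nat_lit 4) (nat_lit 259) (nat_lit 233) (nat_lit 168))) (XT.nd (nat_lit 78) (nat_lit 76) (nat_lit 0) (XT.lf (nat_lit 0) (nat_lit 147532321105) (nat_lit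 152) (nat_lit 108623018151) (nat_lit 0) (nat_lit 94412712478) (nat_lit 4) (nat_lit 5) (nat_lit 6) (nat_lit 4) (nat_lit 4) (nat_lit 4) (nat_lit 260) (nat_lit 233) (nat_lit 167)) (XT.nd (nat_lit 78) (nat_lit 76) (nat_lit 0) (XT.lf (nat_lit 0) (nat_lit 201894111908) (nat_lit 152) (nat_lit 46395236452) (nat_lit 0) (nat_lit 148773819946) (nat_lit 4) (nat_lit 5) (nat_lit 6) (nat_lit 4) (nat_lit 4) (nat_lit 4) (nat_lit 261) (nat_lit 233) (nat_lit 166)) (XT.lf (nat_lit 0) (nat_lit 27624114256) (nat_lit 76) (nat_lit 237928946175) (nat_lit 76) (nat_lit 184808060008) (nat_lit 3) (nat_lit 4) (nat_lit 4) (nat_lit 5) (nat_lit 4) (nat_lit 4) (nat_lit 262) (nat_lit 233) (nat_lit 165))))))))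
noncomputable def xc77 : XT := (XT.nd (nat_lit 1404) (nat_lit 0) (nat_lit 0) (XT.nd (nat_lit 702) (nat_lit 0) (nat_lit 0) (XT.nd (nat_lit 312) (nat_lit 152) (nat_lit 0) (XT.nd (nat_lit 156) (nat_lit 0) (nat_lit 0) (XT.nd (nat_lit 78) (nat_lit 0) (nat_lit 0) (XT.lf (nat_lit 0) (nat_lit 117958757380) (nat_lit 76) (nat_lit 223226384284) (nat_lit 76) (nat_lit 170104981418) (nat_lit 3) (nat_lit 4) (nat_lit 4) (nat_lit 5) (nat_lit 4) (nat_lit 4) (nat_lit 263) (nat_lit 233) (nat_lit 164)) (XT.lf (nat_lit 0) (nat_lit 221842029925) (nat_lit 76) (nat_lit 206319209410) (nat_lit 76) (nat_lit 153197357240) (nat_lit 3) (nat_lit 4) (nat_lit 4) (nat_lit 5) (nat_lit 4) (nat_lit 4) (nat_lit 264) (nat_lit 233) (nat_lit 163))) (XT.nd (nat_lit 78) (nat_lit 0) (nat_lit 0) (XT.lf (nat_lit 0) (nat_lit 341306430700) (nat_lit 76) (nat_lit 186876629000) (nat_lit 76) (nat_lit 133754386132) (nat_lit 3) (nat_lit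 4) (nat_lit 4) (nat_lit 5) (nat_lit 4) (nat_lit 4) (nat_lit 265) (nat_lit 233) (nat_lit 162)) (XT.lf (nat_lit 0) (nat_lit 478689306678) (nat_lit 76) (nat_lit 164518244744) (nat_lit 76) (nat_lit 111395662137) (nat_lit 3) (nat_lit 4) (nat_lit 4) (nat_lit 5) (nat_lit 4) (nat_lit 4) (nat_lit 266) (nat_lit 233) (nat_lit 161)))) (XT.nd (nat_lit 156) (nat_lit 152) (nat_lit 0) (XT.nd (nat_lit 78) (nat_lit 0) (nat_lit 0) (XT.lf (nat_lit 0) (nat_lit 636678583693) (nat_lit 76) (nat_lit 138806609991) (nat_lit 76) (nat_lit 85683731960) (nat_lit 3) (nat_lit 4) (nat_lit 4) (nat_lit 5) (nat_lit 4) (nat_lit 4) (nat_lit 267) (nat_lit 233) (nat_lit 160)) (XT.lf (nat_lit 0) (nat_lit 818365356295) (nat_lit 76) (nat_lit 109238671019) (nat_lit 76) (nat_lit 56115536097) (nat_lit 3) (nat_lit 4) (nat_lit 4) (nat_lit 5) (nat_lit 4) (nat_lit 4) (nat_lit 268) (nat_lit 233) (nat_lit 159))) (XT.nd (nat_lit 78) (nat_lit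 152) (nat_lit 0) (XT.lf (nat_lit 0) (nat_lit 1027304365688) (nat_lit 76) (nat_lit 75235924673) (nat_lit 76) (nat_lit 22112566368) (nat_lit 3) (nat_lit 4) (nat_lit 4) (nat_lit 5) (nat_lit 4) (nat_lit 4) (nat_lit 269) (nat_lit 233) (nat_lit 158)) (XT.nd (nat_lit 78) (nat_lit 76) (nat_lit 0) (XT.lf (nat_lit 0) (nat_lit 15477845128) (nat_lit 152) (nat_lit 19846185525) (nat_lit 76) (nat_lit 1251296634705) (nat_lit 2) (nat_lit 5) (nat_lit 4) (nat_lit 5) (nat_lit 3) (nat_lit 4) (nat_lit 270) (nat_lit 233) (nat_lit 157)) (XT.lf (nat_lit 0) (nat_lit 60179547781) (nat_lit 152) (nat_lit 1398000648321) (nat_lit 0) (nat_lit 13985007379) (nat_lit 1) (nat_lit 5) (nat_lit 3) (nat_lit 4) (nat_lit 1) (nat_lit 4) (nat_lit 271) (nat_lit 233) (nat_lit 156)))))) (XT.nd (nat_lit 312) (nat_lit 0) (nat_lit 0) (XT.nd (nat_lit 156) (nat_lit 0) (nat_lit 0) (XT.nd (nat_lit 78) (nat_lit 0) (nat_lit 0) (XT.lf (nat_lit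 0) (nat_lit 114355107898) (nat_lit 152) (nat_lit 1502610584647) (nat_lit 0) (nat_lit 68160439776) (nat_lit 1) (nat_lit 5) (nat_lit 3) (nat_lit 4) (nat_lit 1) (nat_lit 4) (nat_lit 272) (nat_lit 233) (nat_lit 155)) (XT.lf (nat_lit 0) (nat_lit 176656732856) (nat_lit 152) (nat_lit 1622912554605) (nat_lit 0) (nat_lit 130461953673) (nat_lit 1) (nat_lit 5) (nat_lit 3) (nat_lit 4) (nat_lit 1) (nat_lit 4) (nat_lit 273) (nat_lit 233) (nat_lit 154))) (XT.nd (nat_lit 78) (nat_lit 0) (nat_lit 0) (XT.lf (nat_lit 0) (nat_lit 248303367491) (nat_lit 152) (nat_lit 1761260292388) (nat_lit 0) (nat_lit 202108491733) (nat_lit 1) (nat_lit 5) (nat_lit 3) (nat_lit 4) (nat_lit 1) (nat_lit 4) (nat_lit 274) (nat_lit 233) (nat_lit 153)) (XT.lf (nat_lit 0) (nat_lit 330696793785) (nat_lit 152) (nat_lit 1920360601562) (nat_lit 0) (nat_lit 284501834050) (nat_lit 1) (nat_lit 5) (nat_lit 3) (nat_lit 4) (nat_lit 1) (nat_lit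 4) (nat_lit 275) (nat_lit 233) (nat_lit 152)))) (XT.nd (nat_lit 156) (nat_lit 0) (nat_lit 0) (XT.nd (nat_lit 78) (nat_lit 0) (nat_lit 0) (XT.lf (nat_lit 0) (nat_lit 425449057036) (nat_lit 152) (nat_lit 2103326314262) (nat_lit 0) (nat_lit 379254024276) (nat_lit 1) (nat_lit 5) (nat_lit 3) (nat_lit 4) (nat_lit 1) (nat_lit 4) (nat_lit 276) (nat_lit 233) (nat_lit 151)) (XT.lf (nat_lit 0) (nat_lit 534414005872) (nat_lit 152) (nat_lit 2313737194434) (nat_lit 0) (nat_lit 488218909612) (nat_lit 1) (nat_lit 5) (nat_lit 3) (nat_lit 4) (nat_lit 1) (nat_lit 4) (nat_lit 277) (nat_lit 233) (nat_lit 150))) (XT.nd (nat_lit 78) (nat_lit 0) (nat_lit 0) (XT.lf (nat_lit 0) (nat_lit 659723563205) (nat_lit 152) (nat_lit 2555709976689) (nat_lit 0) (nat_lit 613528411728) (nat_lit 1) (nat_lit 5) (nat_lit 3) (nat_lit 4) (nat_lit 1) (nat_lit 4) (nat_lit 278) (nat_lit 233) (nat_lit 149)) (XT.nd (nat_lit 78) (nat_lit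 0) (nat_lit 0) (XT.lf (nat_lit 0) (nat_lit 803829437766) (nat_lit 152) (nat_lit 2833978911115) (nat_lit 0) (nat_lit 757634238274) (nat_lit 1) (nat_lit 5) (nat_lit 3) (nat_lit 4) (nat_lit 1) (nat_lit 4) (nat_lit 279) (nat_lit 233) (nat_lit 148)) (XT.lf (nat_lit 0) (nat_lit 969551092317) (nat_lit 152) (nat_lit 3153988389907) (nat_lit 0) (nat_lit 923355851074) (nat_lit 1) (nat_lit 5) (nat_lit 3) (nat_lit 4) (nat_lit 1) (nat_lit 4) (nat_lit 280) (nat_lit 233) (nat_lit 147))))))) (XT.nd (nat_lit 702) (nat_lit 0) (nat_lit 0) (XT.nd (nat_lit 312) (nat_lit 0) (nat_lit 0) (XT.nd (nat_lit 156) (nat_lit 0) (nat_lit 0) (XT.nd (nat_lit 78) (nat_lit 0) (nat_lit 0) (XT.lf (nat_lit 0) (nat_lit 1160130907057) (nat_lit 152) (nat_lit 3521999468084) (nat_lit 0) (nat_lit 1113935629507) (nat_lit 1) (nat_lit 5) (nat_lit 3) (nat_lit 4) (nat_lit 1) (nat_lit 4) (nat_lit 281) (nat_lit 233) (nat_lit 146)) (XT.lf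 (nat_lit 0) (nat_lit 1379297617491) (nat_lit 152) (nat_lit 3945212362394) (nat_lit 0) (nat_lit 1333102308371) (nat_lit 1) (nat_lit 5) (nat_lit 3) (nat_lit 4) (nat_lit 1) (nat_lit 4) (nat_lit 282) (nat_lit 233) (nat_lit 145))) (XT.nd (nat_lit 78) (nat_lit 0) (nat_lit 0) (XT.lf (nat_lit 0) (nat_lit 1631339267953) (nat_lit 152) (nat_lit 4431907325117) (nat_lit 0) (nat_lit 1585143931381) (nat_lit 1) (nat_lit 5) (nat_lit 3) (nat_lit 4) (nat_lit 1) (nat_lit 4) (nat_lit 283) (nat_lit 233) (nat_lit 144)) (XT.lf (nat_lit 0) (nat_lit 1921187108128) (nat_lit 152) (nat_lit 4991606649002) (nat_lit 0) (nat_lit 1874991747683) (nat_lit 1) (nat_lit 5) (nat_lit 3) (nat_lit 4) (nat_lit 1) (nat_lit 4) (nat_lit 284) (nat_lit 233) (nat_lit 143)))) (XT.nd (nat_lit 156) (nat_lit 0) (nat_lit 0) (XT.nd (nat_lit 78) (nat_lit 0) (nat_lit 0) (XT.lf (nat_lit 0) (nat_lit 2254512074017) (nat_lit 152) (nat_lit 5635260972994)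 (nat_lit 0) (nat_lit 2208316692815) (nat_lit 1) (nat_lit 5) (nat_lit 3) (nat_lit 4) (nat_lit 1) (nat_lit 4) (nat_lit 285) (nat_lit 233) (nat_lit 142)) (XT.lf (nat_lit 0) (nat_lit 2637835741042) (nat_lit 152) (nat_lit 6375463533867) (nat_lit 0) (nat_lit 2591640341789) (nat_lit 1) (nat_lit 5) (nat_lit 3) (nat_lit 4) (nat_lit 1) (nat_lit 4) (nat_lit 286) (nat_lit 233) (nat_lit 141))) (XT.nd (nat_lit 78) (nat_lit 0) (nat_lit 0) (XT.lf (nat_lit 0) (nat_lit 3078657920078) (nat_lit 152) (nat_lit 7226696555638) (nat_lit 0) (nat_lit 3032462505128) (nat_lit 1) (nat_lit 5) (nat_lit 3) (nat_lit 4) (nat_lit 1) (nat_lit 4) (nat_lit 287) (nat_lit 233) (nat_lit 140)) (XT.nd (nat_lit 78) (nat_lit 0) (nat_lit 0) (XT.lf (nat_lit 0) (nat_lit 3585603392888) (nat_lit 152) (nat_lit 8205614597429) (nat_lit 0) (nat_lit 3539407964290) (nat_lit 1) (nat_lit 5) (nat_lit 3) (nat_lit 4) (nat_lit 1) (nat_lit 4) (nat_lit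 288) (nat_lit 233) (nat_lit 139)) (XT.lf (nat_lit 0) (nat_lit 4168590657855) (nat_lit 152) (nat_lit 9331370403536) (nat_lit 0) (nat_lit 4122395217389) (nat_lit 1) (nat_lit 5) (nat_lit 3) (nat_lit 4) (nat_lit 1) (nat_lit 4) (nat_lit 289) (nat_lit 233) (nat_lit 138)))))) (XT.nd (nat_lit 312) (nat_lit 0) (nat_lit 0) (XT.nd (nat_lit 156) (nat_lit 0) (nat_lit 0) (XT.nd (nat_lit 78) (nat_lit 0) (nat_lit 0) (XT.lf (nat_lit 0) (nat_lit 4839025987554) (nat_lit 152) (nat_lit 10625989631034) (nat_lit 0) (nat_lit 4792830536767) (nat_lit 1) (nat_lit 5) (nat_lit 3) (nat_lit 4) (nat_lit 1) (nat_lit 4) (nat_lit 290) (nat_lit 233) (nat_lit 137)) (XT.lf (nat_lit 0) (nat_lit 5610026594956) (nat_lit 152) (nat_lit 12114801786549) (nat_lit 0) (nat_lit 5563831135195) (nat_lit 1) (nat_lit 5) (nat_lit 3) (nat_lit 4) (nat_lit 1) (nat_lit 4) (nat_lit 291) (nat_lit 233) (nat_lit 136))) (XT.nd (nat_lit 78) (nat_lit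 0) (nat_lit 0) (XT.lf (nat_lit 0) (nat_lit 6496677274555) (nat_lit 152) (nat_lit 13826935803557) (nat_lit 0) (nat_lit 6450481806990) (nat_lit 1) (nat_lit 5) (nat_lit 3) (nat_lit 4) (nat_lit 1) (nat_lit 4) (nat_lit 292) (nat_lit 233) (nat_lit 135)) (XT.lf (nat_lit 0) (nat_lit 7516325539647) (nat_lit 152) (nat_lit 15795889956306) (nat_lit 0) (nat_lit 7470130065296) (nat_lit 1) (nat_lit 5) (nat_lit 3) (nat_lit 4) (nat_lit 1) (nat_lit 4) (nat_lit 293) (nat_lit 233) (nat_lit 134)))) (XT.nd (nat_lit 156) (nat_lit 0) (nat_lit 0) (XT.nd (nat_lit 78) (nat_lit 0) (nat_lit 0) (XT.lf (nat_lit 0) (nat_lit 8688921030201) (nat_lit 152) (nat_lit 18060187260827) (nat_lit 0) (nat_lit 8642725549950) (nat_lit 1) (nat_lit 5) (nat_lit 3) (nat_lit 4) (nat_lit 1) (nat_lit 4) (nat_lit 294) (nat_lit 233) (nat_lit 133)) (XT.lf (nat_lit 0) (nat_lit 10037405831903) (nat_lit 152) (nat_lit 20664129186121) (nat_lit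 0) (nat_lit 9991210346520) (nat_lit 1) (nat_lit 5) (nat_lit 3) (nat_lit 4) (nat_lit 1) (nat_lit 4) (nat_lit 295) (nat_lit 233) (nat_lit 132))) (XT.nd (nat_lit 78) (nat_lit 0) (nat_lit 0) (XT.lf (nat_lit 0) (nat_lit 11588163343045) (nat_lit 152) (nat_lit 23658662422031) (nat_lit 0) (nat_lit 11541967853201) (nat_lit 1) (nat_lit 5) (nat_lit 3) (nat_lit 4) (nat_lit 1) (nat_lit 4) (nat_lit 296) (nat_lit 233) (nat_lit 131)) (XT.nd (nat_lit 78) (nat_lit 0) (nat_lit 0) (XT.lf (nat_lit 0) (nat_lit 13371534471456) (nat_lit 152) (nat_lit 27102375662303) (nat_lit 0) (nat_lit 13325338977731) (nat_lit 1) (nat_lit 5) (nat_lit 3) (nat_lit 4) (nat_lit 1) (nat_lit 4) (nat_lit 297) (nat_lit 233) (nat_lit 130)) (XT.lf (nat_lit 0) (nat_lit 15422411260951) (nat_lit 152) (nat_lit 31062645905117) (nat_lit 0) (nat_lit 15376215763853) (nat_lit 1) (nat_lit 5) (nat_lit 3) (nat_lit 4) (nat_lit 1) (nat_lit 4) (nat_lit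 298) (nat_lit 233) (nat_lit 129))))))))
noncomputable def xc78 : XT := (XT.nd (nat_lit 30264) (nat_lit 0) (nat_lit 152) (XT.nd (nat_lit 29562) (nat_lit 0) (nat_lit 912) (XT.nd (nat_lit 312) (nat_lit 0) (nat_lit 0) (XT.nd (nat_lit 156) (nat_lit 0) (nat_lit 0) (XT.nd (nat_lit 78) (nat_lit 0) (nat_lit 0) (XT.lf (nat_lit 0) (nat_lit 17780919561760) (nat_lit 152) (nat_lit 35616956698701) (nat_lit 0) (nat_lit 17734724061728) (nat_lit 1) (nat_lit 5) (nat_lit 3) (nat_lit 4) (nat_lit 1) (nat_lit 4) (nat_lit 299) (nat_lit 233) (nat_lit 128)) (XT.lf (nat_lit 0) (nat_lit 20493204101507) (nat_lit 152) (nat_lit 40854414123799) (nat_lit 0) (nat_lit 20447008598924) (nat_lit 1) (nat_lit 5) (nat_lit 3) (nat_lit 4) (nat_lit 1) (nat_lit 4) (nat_lit 300) (nat_lit 233) (nat_lit 127))) (XT.nd (nat_lit 78) (nat_lit 0) (nat_lit 0) (XT.lf (nat_lit 0) (nat_lit 23612331316840) (nat_lit 152) (nat_lit 46877490173512)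 (nat_lit 0) (nat_lit 23566135812039) (nat_lit 1) (nat_lit 5) (nat_lit 3) (nat_lit 4) (nat_lit 1) (nat_lit 4) (nat_lit 301) (nat_lit 233) (nat_lit 126)) (XT.lf (nat_lit 0) (nat_lit 27199327609798) (nat_lit 152) (nat_lit 53804027640116) (nat_lit 0) (nat_lit 27153132103068) (nat_lit 1) (nat_lit 5) (nat_lit 3) (nat_lit 4) (nat_lit 1) (nat_lit 4) (nat_lit 302) (nat_lit 233) (nat_lit 125)))) (XT.nd (nat_lit 29016) (nat_lit 0) (nat_lit 1368) (XT.nd (nat_lit 78) (nat_lit 0) (nat_lit 0) (XT.lf (nat_lit 0) (nat_lit 31324373342634) (nat_lit 152) (nat_lit 61769545734914) (nat_lit 0) (nat_lit 31278177834226) (nat_lit 1) (nat_lit 5) (nat_lit 3) (nat_lit 4) (nat_lit 1) (nat_lit 4) (nat_lit 303) (nat_lit 233) (nat_lit 124)) (XT.lf (nat_lit 0) (nat_lit 36068175931860) (nat_lit 152) (nat_lit 70929891551065) (nat_lit 0) (nat_lit 36021980421994) (nat_lit 1) (nat_lit 5) (nat_lit 3) (nat_lit 4) (nat_lit 1)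 (nat_lit 4) (nat_lit 304) (nat_lit 233) (nat_lit 123))) (XT.nd (nat_lit 78) (nat_lit 0) (nat_lit 0) (XT.lf (nat_lit 0) (nat_lit 1146286119) (nat_lit 380) (nat_lit 6659738517) (nat_lit 380) (nat_lit 6659738517) (nat_lit 19) (nat_lit 3) (nat_lit 24) (nat_lit 3) (nat_lit 24) (nat_lit 5) (nat_lit 234) (nat_lit 234) (nat_lit 192)) (XT.nd (nat_lit 78) (nat_lit 0) (nat_lit 76) (XT.lf (nat_lit 0) (nat_lit 2534934327) (nat_lit 380) (nat_lit 261245881) (nat_lit 380) (nat_lit 28294242126) (nat_lit 19) (nat_lit 3) (nat_lit 24) (nat_lit 3) (nat_lit 24) (nat_lit 5) (nat_lit 235) (nat_lit 234) (nat_lit 191)) (XT.lf (nat_lit 0) (nat_lit 3998135402) (nat_lit 304) (nat_lit 17811383422) (nat_lit 380) (nat_lit 11586033452) (nat_lit 20) (nat_lit 5) (nat_lit 24) (nat_lit 5) (nat_lit 25) (nat_lit 5) (nat_lit 236) (nat_lit 234) (nat_lit 190)))))) (XT.nd (nat_lit 312) (nat_lit 304) (nat_lit 0) (XT.nd (nat_lit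 156) (nat_lit 228) (nat_lit 0) (XT.nd (nat_lit 78) (nat_lit 0) (nat_lit 76) (XT.lf (nat_lit 0) (nat_lit 5817261986) (nat_lit 304) (nat_lit 2351283225) (nat_lit 380) (nat_lit 27857502490) (nat_lit 20) (nat_lit 5) (nat_lit 24) (nat_lit 5) (nat_lit 25) (nat_lit 5) (nat_lit 237) (nat_lit 234) (nat_lit 189)) (XT.lf (nat_lit 0) (nat_lit 8945380950) (nat_lit 304) (nat_lit 22365135523) (nat_lit 76) (nat_lit 7585237062) (nat_lit 21) (nat_lit 5) (nat_lit 25) (nat_lit 5) (nat_lit 22) (nat_lit 5) (nat_lit 238) (nat_lit 234) (nat_lit 188))) (XT.nd (nat_lit 78) (nat_lit 304) (nat_lit 0) (XT.lf (nat_lit 0) (nat_lit 13051879974) (nat_lit 304) (nat_lit 4071982311) (nat_lit 76) (nat_lit 24995726108) (nat_lit 21) (nat_lit 5) (nat_lit 25) (nat_lit 5) (nat_lit 22) (nat_lit 5) (nat_lit 239) (nat_lit 234) (nat_lit 187)) (XT.lf (nat_lit 0) (nat_lit 18540885126) (nat_lit 380) (nat_lit 27100961221) (nat_lit 76)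 (nat_lit 70213731) (nat_lit 17) (nat_lit 5) (nat_lit 22) (nat_lit 5) (nat_lit 18) (nat_lit 5) (nat_lit 240) (nat_lit 234) (nat_lit 186)))) (XT.nd (nat_lit 156) (nat_lit 152) (nat_lit 0) (XT.nd (nat_lit 78) (nat_lit 152) (nat_lit 0) (XT.lf (nat_lit 0) (nat_lit 25884848169) (nat_lit 380) (nat_lit 5491034774) (nat_lit 76) (nat_lit 18312814408) (nat_lit 17) (nat_lit 5) (nat_lit 22) (nat_lit 5) (nat_lit 18) (nat_lit 5) (nat_lit 241) (nat_lit 234) (nat_lit 185)) (XT.lf (nat_lit 0) (nat_lit 21244514310) (nat_lit 152) (nat_lit 13959664521) (nat_lit 228) (nat_lit 18926616629) (nat_lit 15) (nat_lit 5) (nat_lit 17) (nat_lit 5) (nat_lit 18) (nat_lit 5) (nat_lit 242) (nat_lit 234) (nat_lit 184))) (XT.nd (nat_lit 78) (nat_lit 152) (nat_lit 0) (XT.lf (nat_lit 0) (nat_lit 46467922977) (nat_lit 228) (nat_lit 6861266833) (nat_lit 76) (nat_lit 5828068542) (nat_lit 15) (nat_lit 5) (nat_lit 18) (nat_lit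 5) (nat_lit 16) (nat_lit 4) (nat_lit 243) (nat_lit 234) (nat_lit 183)) (XT.nd (nat_lit 78) (nat_lit 76) (nat_lit 0) (XT.lf (nat_lit 0) (nat_lit 24584807169) (nat_lit 76) (nat_lit 36514398519) (nat_lit 152) (nat_lit 3586812052) (nat_lit 14) (nat_lit 5) (nat_lit 15) (nat_lit 5) (nat_lit 16) (nat_lit 4) (nat_lit 244) (nat_lit 234) (nat_lit 182)) (XT.lf (nat_lit 0) (nat_lit 6639580840) (nat_lit 152) (nat_lit 9780222633) (nat_lit 76) (nat_lit 54525901737) (nat_lit 13) (nat_lit 5) (nat_lit 15) (nat_lit 5) (nat_lit 14) (nat_lit 5) (nat_lit 245) (nat_lit 234) (nat_lit 181))))))) (XT.nd (nat_lit 702) (nat_lit 304) (nat_lit 0) (XT.nd (nat_lit 312) (nat_lit 228) (nat_lit 0) (XT.nd (nat_lit 156) (nat_lit 76) (nat_lit 0) (XT.nd (nat_lit 78) (nat_lit 0) (nat_lit 0) (XT.lf (nat_lit 0) (nat_lit 19499999646) (nat_lit 228) (nat_lit 50941667463) (nat_lit 76) (nat_lit 7456980896) (nat_lit 11) (nat_lit 5)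 (nat_lit 14) (nat_lit 5) (nat_lit 12) (nat_lit 4) (nat_lit 246) (nat_lit 234) (nat_lit 180)) (XT.lf (nat_lit 0) (nat_lit 35603135614) (nat_lit 228) (nat_lit 16326319523) (nat_lit 76) (nat_lit 33768042428) (nat_lit 11) (nat_lit 5) (nat_lit 14) (nat_lit 5) (nat_lit 12) (nat_lit 4) (nat_lit 247) (nat_lit 234) (nat_lit 179))) (XT.nd (nat_lit 78) (nat_lit 0) (nat_lit 0) (XT.lf (nat_lit 0) (nat_lit 25770216170) (nat_lit 76) (nat_lit 29415289690) (nat_lit 152) (nat_lit 39321115851) (nat_lit 10) (nat_lit 5) (nat_lit 11) (nat_lit 5) (nat_lit 12) (nat_lit 4) (nat_lit 248) (nat_lit 234) (nat_lit 178)) (XT.lf (nat_lit 0) (nat_lit 76010974128) (nat_lit 76) (nat_lit 2544575005) (nat_lit 152) (nat_lit 25954027932) (nat_lit 10) (nat_lit 5) (nat_lit 11) (nat_lit 5) (nat_lit 12) (nat_lit 4) (nat_lit 249) (nat_lit 234) (nat_lit 177)))) (XT.nd (nat_lit 156) (nat_lit 76) (nat_lit 0) (XT.nd (nat_lit 78) (nat_lit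 76) (nat_lit 0) (XT.lf (nat_lit 0) (nat_lit 18217760567) (nat_lit 76) (nat_lit 89139118066) (nat_lit 76) (nat_lit 8367239001) (nat_lit 9) (nat_lit 4) (nat_lit 10) (nat_lit 5) (nat_lit 10) (nat_lit 4) (nat_lit 250) (nat_lit 234) (nat_lit 176)) (XT.lf (nat_lit 0) (nat_lit 12481003691) (nat_lit 152) (nat_lit 53940900270) (nat_lit 76) (nat_lit 61873430825) (nat_lit 8) (nat_lit 5) (nat_lit 10) (nat_lit 5) (nat_lit 9) (nat_lit 4) (nat_lit 251) (nat_lit 234) (nat_lit 175))) (XT.nd (nat_lit 78) (nat_lit 76) (nat_lit 0) (XT.lf (nat_lit 0) (nat_lit 35597463089) (nat_lit 152) (nat_lit 4243277035) (nat_lit 76) (nat_lit 102852090298) (nat_lit 8) (nat_lit 5) (nat_lit 10) (nat_lit 5) (nat_lit 9) (nat_lit 4) (nat_lit 252) (nat_lit 234) (nat_lit 174)) (XT.nd (nat_lit 78) (nat_lit 0) (nat_lit 0) (XT.lf (nat_lit 0) (nat_lit 58075620279) (nat_lit 76) (nat_lit 6508494532) (nat_lit 152) (nat_lit 94305432155)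 (nat_lit 7) (nat_lit 5) (nat_lit 8) (nat_lit 5) (nat_lit 9) (nat_lit 4) (nat_lit 253) (nat_lit 234) (nat_lit 173)) (XT.lf (nat_lit 0) (nat_lit 99466876976) (nat_lit 152) (nat_lit 48595297507) (nat_lit 0) (nat_lit 29221384018) (nat_lit 7) (nat_lit 5) (nat_lit 9) (nat_lit 4) (nat_lit 7) (nat_lit 4) (nat_lit 254) (nat_lit 234) (nat_lit 172)))))) (XT.nd (nat_lit 312) (nat_lit 152) (nat_lit 0) (XT.nd (nat_lit 156) (nat_lit 76) (nat_lit 0) (XT.nd (nat_lit 78) (nat_lit 0) (nat_lit 0) (XT.lf (nat_lit 0) (nat_lit 12231927510) (nat_lit 76) (nat_lit 128164809553) (nat_lit 76) (nat_lit 57917735999) (nat_lit 6) (nat_lit 4) (nat_lit 7) (nat_lit 5) (nat_lit 7) (nat_lit 4) (nat_lit 255) (nat_lit 234) (nat_lit 171)) (XT.lf (nat_lit 0) (nat_lit 87641591376) (nat_lit 76) (nat_lit 102363049988) (nat_lit 76) (nat_lit 32114602003) (nat_lit 6) (nat_lit 4) (nat_lit 7) (nat_lit 5) (nat_lit 7) (nat_lit 4) (nat_lit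 256) (nat_lit 234) (nat_lit 170))) (XT.nd (nat_lit 78) (nat_lit 76) (nat_lit 0) (XT.lf (nat_lit 0) (nat_lit 174360014663) (nat_lit 76) (nat_lit 72692287485) (nat_lit 76) (nat_lit 2442644343) (nat_lit 6) (nat_lit 4) (nat_lit 7) (nat_lit 5) (nat_lit 7) (nat_lit 4) (nat_lit 257) (nat_lit 234) (nat_lit 169)) (XT.lf (nat_lit 0) (nat_lit 28858420546) (nat_lit 152) (nat_lit 8205078233) (nat_lit 76) (nat_lit 243716933281) (nat_lit 5) (nat_lit 5) (nat_lit 7) (nat_lit 5) (nat_lit 6) (nat_lit 4) (nat_lit 258) (nat_lit 234) (nat_lit 168)))) (XT.nd (nat_lit 156) (nat_lit 76) (nat_lit 0) (XT.nd (nat_lit 78) (nat_lit 0) (nat_lit 0) (XT.lf (nat_lit 0) (nat_lit 68039663434) (nat_lit 152) (nat_lit 241235039022) (nat_lit 0) (nat_lit 6951327678) (nat_lit 4) (nat_lit 5) (nat_lit 6) (nat_lit 4) (nat_lit 4) (nat_lit 4) (nat_lit 259) (nat_lit 234) (nat_lit 167)) (XT.lf (nat_lit 0) (nat_lit 115311235435) (nat_lit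 152) (nat_lit 187123046399) (nat_lit 0) (nat_lit 54222216344) (nat_lit 4) (nat_lit 5) (nat_lit 6) (nat_lit 4) (nat_lit 4) (nat_lit 4) (nat_lit 260) (nat_lit 234) (nat_lit 166))) (XT.nd (nat_lit 78) (nat_lit 76) (nat_lit 0) (XT.lf (nat_lit 0) (nat_lit 169672576673) (nat_lit 152) (nat_lit 124896142803) (nat_lit 0) (nat_lit 108582963378) (nat_lit 4) (nat_lit 5) (nat_lit 6) (nat_lit 4) (nat_lit 4) (nat_lit 4) (nat_lit 261) (nat_lit 234) (nat_lit 165)) (XT.nd (nat_lit 78) (nat_lit 76) (nat_lit 0) (XT.lf (nat_lit 0) (nat_lit 232187278609) (nat_lit 152) (nat_lit 53336845336) (nat_lit 0) (nat_lit 171097148614) (nat_lit 4) (nat_lit 5) (nat_lit 6) (nat_lit 4) (nat_lit 4) (nat_lit 4) (nat_lit 262) (nat_lit 234) (nat_lit 164)) (XT.lf (nat_lit 0) (nat_lit 31784604497) (nat_lit 76) (nat_lit 273609983169) (nat_lit 76) (nat_lit 212519403870) (nat_lit 3) (nat_lit 4) (nat_lit 4) (nat_lit 5) (nat_lit 4)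 (nat_lit 4) (nat_lit 263) (nat_lit 234) (nat_lit 163))))))))
noncomputable def xc79 : XT := (XT.nd (nat_lit 1404) (nat_lit 0) (nat_lit 0) (XT.nd (nat_lit 702) (nat_lit 0) (nat_lit 0) (XT.nd (nat_lit 312) (nat_lit 152) (nat_lit 0) (XT.nd (nat_lit 156) (nat_lit 0) (nat_lit 0) (XT.nd (nat_lit 78) (nat_lit 0) (nat_lit 0) (XT.lf (nat_lit 0) (nat_lit 135667243250) (nat_lit 76) (nat_lit 256703120246) (nat_lit 76) (nat_lit 195612150249) (nat_lit 3) (nat_lit 4) (nat_lit 4) (nat_lit 5) (nat_lit 4) (nat_lit 4) (nat_lit 264) (nat_lit 234) (nat_lit 162)) (XT.lf (nat_lit 0) (nat_lit 255131092903) (nat_lit 76) (nat_lit 237260811100) (nat_lit 76) (nat_lit 176169501364) (nat_lit 3) (nat_lit 4) (nat_lit 4) (nat_lit 5) (nat_lit 4) (nat_lit 4) (nat_lit 265) (nat_lit 234) (nat_lit 161))) (XT.nd (nat_lit 78) (nat_lit 0) (nat_lit 0) (XT.lf (nat_lit 0) (nat_lit 392513489644) (nat_lit 76) (nat_lit 214902662723)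 (nat_lit 76) (nat_lit 153811057562) (nat_lit 3) (nat_lit 4) (nat_lit 4) (nat_lit 5) (nat_lit 4) (nat_lit 4) (nat_lit 266) (nat_lit 234) (nat_lit 160)) (XT.lf (nat_lit 0) (nat_lit 550502349931) (nat_lit 76) (nat_lit 189191233084) (nat_lit 76) (nat_lit 128099371032) (nat_lit 3) (nat_lit 4) (nat_lit 4) (nat_lit 5) (nat_lit 4) (nat_lit 4) (nat_lit 267) (nat_lit 234) (nat_lit 159)))) (XT.nd (nat_lit 156) (nat_lit 152) (nat_lit 0) (XT.nd (nat_lit 78) (nat_lit 0) (nat_lit 0) (XT.lf (nat_lit 0) (nat_lit 732188760161) (nat_lit 76) (nat_lit 159623472471) (nat_lit 76) (nat_lit 98531387036) (nat_lit 3) (nat_lit 4) (nat_lit 4) (nat_lit 5) (nat_lit 4) (nat_lit 4) (nat_lit 268) (nat_lit 234) (nat_lit 158)) (XT.lf (nat_lit 0) (nat_lit 941127454447) (nat_lit 76) (nat_lit 125620881221) (nat_lit 76) (nat_lit 64528601539) (nat_lit 3) (nat_lit 4) (nat_lit 4) (nat_lit 5) (nat_lit 4) (nat_lit 4) (nat_lit 269)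 (nat_lit 234) (nat_lit 157))) (XT.nd (nat_lit 78) (nat_lit 152) (nat_lit 0) (XT.lf (nat_lit 0) (nat_lit 1181406363765) (nat_lit 76) (nat_lit 86518191243) (nat_lit 76) (nat_lit 25425742652) (nat_lit 3) (nat_lit 4) (nat_lit 4) (nat_lit 5) (nat_lit 4) (nat_lit 4) (nat_lit 270) (nat_lit 234) (nat_lit 156)) (XT.nd (nat_lit 78) (nat_lit 76) (nat_lit 0) (XT.lf (nat_lit 0) (nat_lit 17802459723) (nat_lit 152) (nat_lit 22817307063) (nat_lit 76) (nat_lit 1438993554364) (nat_lit 2) (nat_lit 5) (nat_lit 4) (nat_lit 5) (nat_lit 3) (nat_lit 4) (nat_lit 271) (nat_lit 234) (nat_lit 155)) (XT.lf (nat_lit 0) (nat_lit 69209378290) (nat_lit 152) (nat_lit 1607694896891) (nat_lit 0) (nat_lit 16085271168) (nat_lit 1) (nat_lit 5) (nat_lit 3) (nat_lit 4) (nat_lit 1) (nat_lit 4) (nat_lit 272) (nat_lit 234) (nat_lit 154)))))) (XT.nd (nat_lit 312) (nat_lit 0) (nat_lit 0) (XT.nd (nat_lit 156) (nat_lit 0) (nat_lit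 0) (XT.nd (nat_lit 78) (nat_lit 0) (nat_lit 0) (XT.lf (nat_lit 0) (nat_lit 131510894380) (nat_lit 152) (nat_lit 1727997086537) (nat_lit 0) (nat_lit 78386690683) (nat_lit 1) (nat_lit 5) (nat_lit 3) (nat_lit 4) (nat_lit 1) (nat_lit 4) (nat_lit 273) (nat_lit 234) (nat_lit 153)) (XT.lf (nat_lit 0) (nat_lit 203157434347) (nat_lit 152) (nat_lit 1866345015355) (nat_lit 0) (nat_lit 150033146672) (nat_lit 1) (nat_lit 5) (nat_lit 3) (nat_lit 4) (nat_lit 1) (nat_lit 4) (nat_lit 274) (nat_lit 234) (nat_lit 152))) (XT.nd (nat_lit 78) (nat_lit 0) (nat_lit 0) (XT.lf (nat_lit 0) (nat_lit 285550778321) (nat_lit 152) (nat_lit 2025445490645) (nat_lit 0) (nat_lit 232426417623) (nat_lit 1) (nat_lit 5) (nat_lit 3) (nat_lit 4) (nat_lit 1) (nat_lit 4) (nat_lit 275) (nat_lit 234) (nat_lit 151)) (XT.lf (nat_lit 0) (nat_lit 380302969990) (nat_lit 152) (nat_lit 2208411347795) (nat_lit 0) (nat_lit 327178545791)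 (nat_lit 1) (nat_lit 5) (nat_lit 3) (nat_lit 4) (nat_lit 1) (nat_lit 4) (nat_lit 276) (nat_lit 234) (nat_lit 150)))) (XT.nd (nat_lit 156) (nat_lit 0) (nat_lit 0) (XT.nd (nat_lit 78) (nat_lit 0) (nat_lit 0) (XT.lf (nat_lit 0) (nat_lit 489267856580) (nat_lit 152) (nat_lit 2418822353575) (nat_lit 0) (nat_lit 436143377165) (nat_lit 1) (nat_lit 5) (nat_lit 3) (nat_lit 4) (nat_lit 1) (nat_lit 4) (nat_lit 277) (nat_lit 234) (nat_lit 149)) (XT.lf (nat_lit 0) (nat_lit 614577359786) (nat_lit 152) (nat_lit 2660795245054) (nat_lit 0) (nat_lit 561452832356) (nat_lit 1) (nat_lit 5) (nat_lit 3) (nat_lit 4) (nat_lit 1) (nat_lit 4) (nat_lit 278) (nat_lit 234) (nat_lit 148))) (XT.nd (nat_lit 78) (nat_lit 0) (nat_lit 0) (XT.lf (nat_lit 0) (nat_lit 758683187280) (nat_lit 152) (nat_lit 2939064274458) (nat_lit 0) (nat_lit 705558618098) (nat_lit 1) (nat_lit 5) (nat_lit 3) (nat_lit 4) (nat_lit 1) (nat_lit 4)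 (nat_lit 279) (nat_lit 234) (nat_lit 147)) (XT.nd (nat_lit 78) (nat_lit 0) (nat_lit 0) (XT.lf (nat_lit 0) (nat_lit 924404800904) (nat_lit 152) (nat_lit 3259073835839) (nat_lit 0) (nat_lit 871280195416) (nat_lit 1) (nat_lit 5) (nat_lit 3) (nat_lit 4) (nat_lit 1) (nat_lit 4) (nat_lit 280) (nat_lit 234) (nat_lit 146)) (XT.lf (nat_lit 0) (nat_lit 1114984580054) (nat_lit 152) (nat_lit 3627084985833) (nat_lit 0) (nat_lit 1061859942996) (nat_lit 1) (nat_lit 5) (nat_lit 3) (nat_lit 4) (nat_lit 1) (nat_lit 4) (nat_lit 281) (nat_lit 234) (nat_lit 145))))))) (XT.nd (nat_lit 702) (nat_lit 0) (nat_lit 0) (XT.nd (nat_lit 312) (nat_lit 0) (nat_lit 0) (XT.nd (nat_lit 156) (nat_lit 0) (nat_lit 0) (XT.nd (nat_lit 78) (nat_lit 0) (nat_lit 0) (XT.lf (nat_lit 0) (nat_lit 1334151259541) (nat_lit 152) (nat_lit 4050297942593) (nat_lit 0) (nat_lit 1281026595030) (nat_lit 1) (nat_lit 5) (nat_lit 3) (nat_lit 4)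 (nat_lit 1) (nat_lit 4) (nat_lit 282) (nat_lit 234) (nat_lit 144)) (XT.lf (nat_lit 0) (nat_lit 1586192883093) (nat_lit 152) (nat_lit 4536992959620) (nat_lit 0) (nat_lit 1533068194710) (nat_lit 1) (nat_lit 5) (nat_lit 3) (nat_lit 4) (nat_lit 1) (nat_lit 4) (nat_lit 283) (nat_lit 234) (nat_lit 143))) (XT.nd (nat_lit 78) (nat_lit 0) (nat_lit 0) (XT.lf (nat_lit 0) (nat_lit 1876040699867) (nat_lit 152) (nat_lit 5096692330725) (nat_lit 0) (nat_lit 1822915990726) (nat_lit 1) (nat_lit 5) (nat_lit 3) (nat_lit 4) (nat_lit 1) (nat_lit 4) (nat_lit 284) (nat_lit 234) (nat_lit 142)) (XT.lf (nat_lit 0) (nat_lit 2209365645409) (nat_lit 152) (nat_lit 5740346695779) (nat_lit 0) (nat_lit 2156240918217) (nat_lit 1) (nat_lit 5) (nat_lit 3) (nat_lit 4) (nat_lit 1) (nat_lit 4) (nat_lit 285) (nat_lit 234) (nat_lit 141)))) (XT.nd (nat_lit 156) (nat_lit 0) (nat_lit 0) (XT.nd (nat_lit 78) (nat_lit 0) (nat_lit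 0) (XT.lf (nat_lit 0) (nat_lit 2592689294739) (nat_lit 152) (nat_lit 6480549292358) (nat_lit 0) (nat_lit 2539564551851) (nat_lit 1) (nat_lit 5) (nat_lit 3) (nat_lit 4) (nat_lit 1) (nat_lit 4) (nat_lit 286) (nat_lit 234) (nat_lit 140)) (XT.lf (nat_lit 0) (nat_lit 3033511458388) (nat_lit 152) (nat_lit 7331782345177) (nat_lit 0) (nat_lit 2980386701852) (nat_lit 1) (nat_lit 5) (nat_lit 3) (nat_lit 4) (nat_lit 1) (nat_lit 4) (nat_lit 287) (nat_lit 234) (nat_lit 139))) (XT.nd (nat_lit 78) (nat_lit 0) (nat_lit 0) (XT.lf (nat_lit 0) (nat_lit 3540456917820) (nat_lit 152) (nat_lit 8310700413967) (nat_lit 0) (nat_lit 3487332149415) (nat_lit 1) (nat_lit 5) (nat_lit 3) (nat_lit 4) (nat_lit 1) (nat_lit 4) (nat_lit 288) (nat_lit 234) (nat_lit 138)) (XT.nd (nat_lit 78) (nat_lit 0) (nat_lit 0) (XT.lf (nat_lit 0) (nat_lit 4123444171153) (nat_lit 152) (nat_lit 9436456243550) (nat_lit 0) (nat_lit 4070319392427)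 (nat_lit 1) (nat_lit 5) (nat_lit 3) (nat_lit 4) (nat_lit 1) (nat_lit 4) (nat_lit 289) (nat_lit 234) (nat_lit 137)) (XT.lf (nat_lit 0) (nat_lit 4793879490734) (nat_lit 152) (nat_lit 10731075491463) (nat_lit 0) (nat_lit 4740754703035) (nat_lit 1) (nat_lit 5) (nat_lit 3) (nat_lit 4) (nat_lit 1) (nat_lit 4) (nat_lit 290) (nat_lit 234) (nat_lit 136)))))) (XT.nd (nat_lit 312) (nat_lit 0) (nat_lit 0) (XT.nd (nat_lit 156) (nat_lit 0) (nat_lit 0) (XT.nd (nat_lit 78) (nat_lit 0) (nat_lit 0) (XT.lf (nat_lit 0) (nat_lit 5564880089340) (nat_lit 152) (nat_lit 12219887664730) (nat_lit 0) (nat_lit 5511755293836) (nat_lit 1) (nat_lit 5) (nat_lit 3) (nat_lit 4) (nat_lit 1) (nat_lit 4) (nat_lit 291) (nat_lit 234) (nat_lit 135)) (XT.lf (nat_lit 0) (nat_lit 6451530761289) (nat_lit 152) (nat_lit 13932021697175) (nat_lit 0) (nat_lit 6398405959000) (nat_lit 1) (nat_lit 5) (nat_lit 3) (nat_lit 4) (nat_lit 1)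 (nat_lit 4) (nat_lit 292) (nat_lit 234) (nat_lit 134))) (XT.nd (nat_lit 78) (nat_lit 0) (nat_lit 0) (XT.lf (nat_lit 0) (nat_lit 7471179019729) (nat_lit 152) (nat_lit 15900975863347) (nat_lit 0) (nat_lit 7418054211539) (nat_lit 1) (nat_lit 5) (nat_lit 3) (nat_lit 4) (nat_lit 1) (nat_lit 4) (nat_lit 293) (nat_lit 234) (nat_lit 133)) (XT.lf (nat_lit 0) (nat_lit 8643774504499) (nat_lit 152) (nat_lit 18165273179540) (nat_lit 0) (nat_lit 8590649691178) (nat_lit 1) (nat_lit 5) (nat_lit 3) (nat_lit 4) (nat_lit 1) (nat_lit 4) (nat_lit 294) (nat_lit 234) (nat_lit 132)))) (XT.nd (nat_lit 156) (nat_lit 0) (nat_lit 0) (XT.nd (nat_lit 78) (nat_lit 0) (nat_lit 0) (XT.lf (nat_lit 0) (nat_lit 9992259301171) (nat_lit 152) (nat_lit 20769215114983) (nat_lit 0) (nat_lit 9939134483388) (nat_lit 1) (nat_lit 5) (nat_lit 3) (nat_lit 4) (nat_lit 1) (nat_lit 4) (nat_lit 295) (nat_lit 234) (nat_lit 131)) (XT.lf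 (nat_lit 0) (nat_lit 11543016807940) (nat_lit 152) (nat_lit 23763748359719) (nat_lit 0) (nat_lit 11489891986277) (nat_lit 1) (nat_lit 5) (nat_lit 3) (nat_lit 4) (nat_lit 1) (nat_lit 4) (nat_lit 296) (nat_lit 234) (nat_lit 130))) (XT.nd (nat_lit 78) (nat_lit 0) (nat_lit 0) (XT.lf (nat_lit 0) (nat_lit 13326387932547) (nat_lit 152) (nat_lit 27207461607666) (nat_lit 0) (nat_lit 13273263107510) (nat_lit 1) (nat_lit 5) (nat_lit 3) (nat_lit 4) (nat_lit 1) (nat_lit 4) (nat_lit 297) (nat_lit 234) (nat_lit 129)) (XT.nd (nat_lit 78) (nat_lit 0) (nat_lit 0) (XT.lf (nat_lit 0) (nat_lit 15377264718735) (nat_lit 152) (nat_lit 31167731857154) (nat_lit 0) (nat_lit 15324139890764) (nat_lit 1) (nat_lit 5) (nat_lit 3) (nat_lit 4) (nat_lit 1) (nat_lit 4) (nat_lit 298) (nat_lit 234) (nat_lit 128)) (XT.lf (nat_lit 0) (nat_lit 17735773016668) (nat_lit 152) (nat_lit 35722042656541) (nat_lit 0) (nat_lit 17682648186147)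 (nat_lit 1) (nat_lit 5) (nat_lit 3) (nat_lit 4) (nat_lit 1) (nat_lit 4) (nat_lit 299) (nat_lit 234) (nat_lit 127))))))))
noncomputable def xc80 : XT := (XT.nd (nat_lit 30264) (nat_lit 0) (nat_lit 152) (XT.nd (nat_lit 29562) (nat_lit 0) (nat_lit 912) (XT.nd (nat_lit 312) (nat_lit 0) (nat_lit 0) (XT.nd (nat_lit 156) (nat_lit 0) (nat_lit 0) (XT.nd (nat_lit 78) (nat_lit 0) (nat_lit 0) (XT.lf (nat_lit 0) (nat_lit 20448057553915) (nat_lit 152) (nat_lit 40959500086686) (nat_lit 0) (nat_lit 20394932721175) (nat_lit 1) (nat_lit 5) (nat_lit 3) (nat_lit 4) (nat_lit 1) (nat_lit 4) (nat_lit 300) (nat_lit 234) (nat_lit 126)) (XT.lf (nat_lit 0) (nat_lit 23567184767073) (nat_lit 152) (nat_lit 46982576140786) (nat_lit 0) (nat_lit 23514059932404) (nat_lit 1) (nat_lit 5) (nat_lit 3) (nat_lit 4) (nat_lit 1) (nat_lit 4) (nat_lit 301) (nat_lit 234) (nat_lit 125))) (XT.nd (nat_lit 78) (nat_lit 0) (nat_lit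 0) (XT.lf (nat_lit 0) (nat_lit 27154181058140) (nat_lit 152) (nat_lit 53909113611206) (nat_lit 0) (nat_lit 27101056221794) (nat_lit 1) (nat_lit 5) (nat_lit 3) (nat_lit 4) (nat_lit 1) (nat_lit 4) (nat_lit 302) (nat_lit 234) (nat_lit 124)) (XT.lf (nat_lit 0) (nat_lit 31279226789332) (nat_lit 152) (nat_lit 61874631709322) (nat_lit 0) (nat_lit 31226101951527) (nat_lit 1) (nat_lit 5) (nat_lit 3) (nat_lit 4) (nat_lit 1) (nat_lit 4) (nat_lit 303) (nat_lit 234) (nat_lit 123)))) (XT.nd (nat_lit 29094) (nat_lit 0) (nat_lit 1368) (XT.nd (nat_lit 29016) (nat_lit 0) (nat_lit 1368) (XT.lf (nat_lit 0) (nat_lit 36023029377128) (nat_lit 152) (nat_lit 71034977528358) (nat_lit 0) (nat_lit 35969904538055) (nat_lit 1) (nat_lit 5) (nat_lit 3) (nat_lit 4) (nat_lit 1) (nat_lit 4) (nat_lit 304) (nat_lit 234) (nat_lit 122)) (XT.lf (nat_lit 0) (nat_lit 1385732299) (nat_lit 380) (nat_lit 7619690530) (nat_lit 380)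 (nat_lit 7619690530) (nat_lit 19) (nat_lit 3) (nat_lit 24) (nat_lit 3) (nat_lit 24) (nat_lit 5) (nat_lit 235) (nat_lit 235) (nat_lit 190))) (XT.nd (nat_lit 78) (nat_lit 0) (nat_lit 76) (XT.lf (nat_lit 0) (nat_lit 3032571453) (nat_lit 380) (nat_lit 232591433) (nat_lit 380) (nat_lit 32470537115) (nat_lit 19) (nat_lit 3) (nat_lit 24) (nat_lit 3) (nat_lit 24) (nat_lit 5) (nat_lit 236) (nat_lit 235) (nat_lit 189)) (XT.lf (nat_lit 0) (nat_lit 4700964862) (nat_lit 304) (nat_lit 20400373832) (nat_lit 380) (nat_lit 13287492104) (nat_lit 20) (nat_lit 5) (nat_lit 24) (nat_lit 5) (nat_lit 25) (nat_lit 5) (nat_lit 237) (nat_lit 235) (nat_lit 188))))) (XT.nd (nat_lit 312) (nat_lit 304) (nat_lit 0) (XT.nd (nat_lit 156) (nat_lit 228) (nat_lit 0) (XT.nd (nat_lit 78) (nat_lit 0) (nat_lit 76) (XT.lf (nat_lit 0) (nat_lit 6779511414) (nat_lit 304) (nat_lit 2632047794) (nat_lit 380) (nat_lit 32004435372)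 (nat_lit 20) (nat_lit 5) (nat_lit 24) (nat_lit 5) (nat_lit 25) (nat_lit 5) (nat_lit 238) (nat_lit 235) (nat_lit 187)) (XT.lf (nat_lit 0) (nat_lit 10367493324) (nat_lit 304) (nat_lit 25638178466) (nat_lit 76) (nat_lit 8711954419) (nat_lit 21) (nat_lit 5) (nat_lit 25) (nat_lit 5) (nat_lit 22) (nat_lit 5) (nat_lit 239) (nat_lit 235) (nat_lit 186))) (XT.nd (nat_lit 78) (nat_lit 304) (nat_lit 0) (XT.lf (nat_lit 0) (nat_lit 15079492607) (nat_lit 304) (nat_lit 4611712366) (nat_lit 76) (nat_lit 28735460501) (nat_lit 21) (nat_lit 5) (nat_lit 25) (nat_lit 5) (nat_lit 22) (nat_lit 5) (nat_lit 240) (nat_lit 235) (nat_lit 185)) (XT.lf (nat_lit 0) (nat_lit 21385727460) (nat_lit 380) (nat_lit 31088580883) (nat_lit 76) (nat_lit 84668153) (nat_lit 17) (nat_lit 5) (nat_lit 22) (nat_lit 5) (nat_lit 18) (nat_lit 5) (nat_lit 241) (nat_lit 235) (nat_lit 184)))) (XT.nd (nat_lit 156) (nat_lit 152) (nat_lit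 0) (XT.nd (nat_lit 78) (nat_lit 152) (nat_lit 0) (XT.lf (nat_lit 0) (nat_lit 29822975017) (nat_lit 380) (nat_lit 6247277362) (nat_lit 76) (nat_lit 21063147319) (nat_lit 17) (nat_lit 5) (nat_lit 22) (nat_lit 5) (nat_lit 18) (nat_lit 5) (nat_lit 242) (nat_lit 235) (nat_lit 183)) (XT.lf (nat_lit 0) (nat_lit 24495539875) (nat_lit 152) (nat_lit 16040103896) (nat_lit 228) (nat_lit 21706891106) (nat_lit 15) (nat_lit 5) (nat_lit 17) (nat_lit 5) (nat_lit 18) (nat_lit 5) (nat_lit 243) (nat_lit 235) (nat_lit 182))) (XT.nd (nat_lit 78) (nat_lit 152) (nat_lit 0) (XT.lf (nat_lit 0) (nat_lit 53482804943) (nat_lit 228) (nat_lit 7828136086) (nat_lit 76) (nat_lit 6712981016) (nat_lit 15) (nat_lit 5) (nat_lit 18) (nat_lit 5) (nat_lit 16) (nat_lit 4) (nat_lit 244) (nat_lit 235) (nat_lit 181)) (XT.nd (nat_lit 78) (nat_lit 76) (nat_lit 0) (XT.lf (nat_lit 0) (nat_lit 28332016253) (nat_lit 76) (nat_lit 41973397490)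 (nat_lit 152) (nat_lit 4077115378) (nat_lit 14) (nat_lit 5) (nat_lit 15) (nat_lit 5) (nat_lit 16) (nat_lit 4) (nat_lit 245) (nat_lit 235) (nat_lit 180)) (XT.lf (nat_lit 0) (nat_lit 7673318186) (nat_lit 152) (nat_lit 11191687881) (nat_lit 76) (nat_lit 62716739561) (nat_lit 13) (nat_lit 5) (nat_lit 15) (nat_lit 5) (nat_lit 14) (nat_lit 5) (nat_lit 246) (nat_lit 235) (nat_lit 179))))))) (XT.nd (nat_lit 702) (nat_lit 304) (nat_lit 0) (XT.nd (nat_lit 312) (nat_lit 228) (nat_lit 0) (XT.nd (nat_lit 156) (nat_lit 76) (nat_lit 0) (XT.nd (nat_lit 78) (nat_lit 0) (nat_lit 0) (XT.lf (nat_lit 0) (nat_lit 22460810075) (nat_lit 228) (nat_lit 58525233323) (nat_lit 76) (nat_lit 8591903861) (nat_lit 11) (nat_lit 5) (nat_lit 14) (nat_lit 5) (nat_lit 12) (nat_lit 4) (nat_lit 247) (nat_lit 235) (nat_lit 178)) (XT.lf (nat_lit 0) (nat_lit 40974745505) (nat_lit 228) (nat_lit 18725107225) (nat_lit 76) (nat_lit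 38847488645) (nat_lit 11) (nat_lit 5) (nat_lit 14) (nat_lit 5) (nat_lit 12) (nat_lit 4) (nat_lit 248) (nat_lit 235) (nat_lit 177))) (XT.nd (nat_lit 78) (nat_lit 0) (nat_lit 0) (XT.lf (nat_lit 0) (nat_lit 29683628812) (nat_lit 76) (nat_lit 33808763415) (nat_lit 152) (nat_lit 45185768111) (nat_lit 10) (nat_lit 5) (nat_lit 11) (nat_lit 5) (nat_lit 12) (nat_lit 4) (nat_lit 249) (nat_lit 235) (nat_lit 176)) (XT.lf (nat_lit 0) (nat_lit 87454255218) (nat_lit 76) (nat_lit 2909896274) (nat_lit 152) (nat_lit 29817988541) (nat_lit 10) (nat_lit 5) (nat_lit 11) (nat_lit 5) (nat_lit 12) (nat_lit 4) (nat_lit 250) (nat_lit 235) (nat_lit 175)))) (XT.nd (nat_lit 156) (nat_lit 76) (nat_lit 0) (XT.nd (nat_lit 78) (nat_lit 76) (nat_lit 0) (XT.lf (nat_lit 0) (nat_lit 20993217806) (nat_lit 76) (nat_lit 102491527750) (nat_lit 76) (nat_lit 9594267199) (nat_lit 9) (nat_lit 4) (nat_lit 10) (nat_lit 5) (nat_lit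 10) (nat_lit 4) (nat_lit 251) (nat_lit 235) (nat_lit 174)) (XT.lf (nat_lit 0) (nat_lit 14375380128) (nat_lit 152) (nat_lit 61992597162) (nat_lit 76) (nat_lit 71168269196) (nat_lit 8) (nat_lit 5) (nat_lit 10) (nat_lit 5) (nat_lit 9) (nat_lit 4) (nat_lit 252) (nat_lit 235) (nat_lit 173))) (XT.nd (nat_lit 78) (nat_lit 76) (nat_lit 0) (XT.lf (nat_lit 0) (nat_lit 40956409407) (nat_lit 152) (nat_lit 4845474548) (nat_lit 76) (nat_lit 118291924493) (nat_lit 8) (nat_lit 5) (nat_lit 10) (nat_lit 5) (nat_lit 9) (nat_lit 4) (nat_lit 253) (nat_lit 235) (nat_lit 172)) (XT.nd (nat_lit 78) (nat_lit 0) (nat_lit 0) (XT.lf (nat_lit 0) (nat_lit 66819698543) (nat_lit 76) (nat_lit 7470194946) (nat_lit 152) (nat_lit 108430319991) (nat_lit 7) (nat_lit 5) (nat_lit 8) (nat_lit 5) (nat_lit 9) (nat_lit 4) (nat_lit 254) (nat_lit 235) (nat_lit 171)) (XT.lf (nat_lit 0) (nat_lit 114403225849) (nat_lit 152) (nat_lit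 55854246668) (nat_lit 0) (nat_lit 33616136236) (nat_lit 7) (nat_lit 5) (nat_lit 9) (nat_lit 4) (nat_lit 7) (nat_lit 4) (nat_lit 255) (nat_lit 235) (nat_lit 170)))))) (XT.nd (nat_lit 312) (nat_lit 152) (nat_lit 0) (XT.nd (nat_lit 156) (nat_lit 76) (nat_lit 0) (XT.nd (nat_lit 78) (nat_lit 0) (nat_lit 0) (XT.lf (nat_lit 0) (nat_lit 14095682762) (nat_lit 76) (nat_lit 147375953266) (nat_lit 76) (nat_lit 66587668496) (nat_lit 6) (nat_lit 4) (nat_lit 7) (nat_lit 5) (nat_lit 7) (nat_lit 4) (nat_lit 256) (nat_lit 235) (nat_lit 169)) (XT.lf (nat_lit 0) (nat_lit 100813018017) (nat_lit 76) (nat_lit 117705700773) (nat_lit 76) (nat_lit 36916376735) (nat_lit 6) (nat_lit 4) (nat_lit 7) (nat_lit 5) (nat_lit 7) (nat_lit 4) (nat_lit 257) (nat_lit 235) (nat_lit 168))) (XT.nd (nat_lit 78) (nat_lit 76) (nat_lit 0) (XT.lf (nat_lit 0) (nat_lit 200535919414) (nat_lit 76) (nat_lit 83585863900) (nat_lit 76) (nat_lit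 2795636152) (nat_lit 6) (nat_lit 4) (nat_lit 7) (nat_lit 5) (nat_lit 7) (nat_lit 4) (nat_lit 258) (nat_lit 235) (nat_lit 167)) (XT.lf (nat_lit 0) (nat_lit 33197802281) (nat_lit 152) (nat_lit 9415738678) (nat_lit 76) (nat_lit 280282345252) (nat_lit 5) (nat_lit 5) (nat_lit 7) (nat_lit 5) (nat_lit 6) (nat_lit 4) (nat_lit 259) (nat_lit 235) (nat_lit 166)))) (XT.nd (nat_lit 156) (nat_lit 76) (nat_lit 0) (XT.nd (nat_lit 78) (nat_lit 0) (nat_lit 0) (XT.lf (nat_lit 0) (nat_lit 78256020352) (nat_lit 152) (nat_lit 277399966805) (nat_lit 0) (nat_lit 8002370857) (nat_lit 4) (nat_lit 5) (nat_lit 6) (nat_lit 4) (nat_lit 4) (nat_lit 4) (nat_lit 260) (nat_lit 235) (nat_lit 165)) (XT.lf (nat_lit 0) (nat_lit 132616970665) (nat_lit 152) (nat_lit 215173826776) (nat_lit 0) (nat_lit 62362804472) (nat_lit 4) (nat_lit 5) (nat_lit 6) (nat_lit 4) (nat_lit 4) (nat_lit 4) (nat_lit 261) (nat_lit 235) (nat_lit 164)))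 (XT.nd (nat_lit 78) (nat_lit 76) (nat_lit 0) (XT.lf (nat_lit 0) (nat_lit 195131332666) (nat_lit 152) (nat_lit 143615193281) (nat_lit 0) (nat_lit 124876717168) (nat_lit 4) (nat_lit 5) (nat_lit 6) (nat_lit 4) (nat_lit 4) (nat_lit 4) (nat_lit 262) (nat_lit 235) (nat_lit 163)) (XT.nd (nat_lit 78) (nat_lit 76) (nat_lit 0) (XT.lf (nat_lit 0) (nat_lit 267022213436) (nat_lit 152) (nat_lit 61324006100) (nat_lit 0) (nat_lit 196767207240) (nat_lit 4) (nat_lit 5) (nat_lit 6) (nat_lit 4) (nat_lit 4) (nat_lit 4) (nat_lit 263) (nat_lit 235) (nat_lit 162)) (XT.lf (nat_lit 0) (nat_lit 36565053661) (nat_lit 76) (nat_lit 314645200923) (nat_lit 76) (nat_lit 244389854988) (nat_lit 3) (nat_lit 4) (nat_lit 4) (nat_lit 5) (nat_lit 4) (nat_lit 4) (nat_lit 264) (nat_lit 235) (nat_lit 161))))))))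
noncomputable def xc81 : XT := (XT.nd (nat_lit 1404) (nat_lit 0) (nat_lit 0) (XT.nd (nat_lit 702) (nat_lit 0) (nat_lit 0) (XT.nd (nat_lit 312) (nat_lit 152) (nat_lit 0) (XT.nd (nat_lit 156) (nat_lit 0) (nat_lit 0) (XT.nd (nat_lit 78) (nat_lit 0) (nat_lit 0) (XT.lf (nat_lit 0) (nat_lit 156028424076) (nat_lit 76) (nat_lit 295203127656) (nat_lit 76) (nat_lit 224947486297) (nat_lit 3) (nat_lit 4) (nat_lit 4) (nat_lit 5) (nat_lit 4) (nat_lit 4) (nat_lit 265) (nat_lit 235) (nat_lit 160)) (XT.lf (nat_lit 0) (nat_lit 293410404089) (nat_lit 76) (nat_lit 272845184393) (nat_lit 76) (nat_lit 202589286143) (nat_lit 3) (nat_lit 4) (nat_lit 4) (nat_lit 5) (nat_lit 4) (nat_lit 4) (nat_lit 266) (nat_lit 235) (nat_lit 159))) (XT.nd (nat_lit 78) (nat_lit 0) (nat_lit 0) (XT.lf (nat_lit 0) (nat_lit 451398902004) (nat_lit 76) (nat_lit 247133933113) (nat_lit 76) (nat_lit 176877811479) (nat_lit 3) (nat_lit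 4) (nat_lit 4) (nat_lit 5) (nat_lit 4) (nat_lit 4) (nat_lit 267) (nat_lit 235) (nat_lit 158)) (XT.lf (nat_lit 0) (nat_lit 633084997128) (nat_lit 76) (nat_lit 217566327595) (nat_lit 76) (nat_lit 147310011715) (nat_lit 3) (nat_lit 4) (nat_lit 4) (nat_lit 5) (nat_lit 4) (nat_lit 4) (nat_lit 268) (nat_lit 235) (nat_lit 157)))) (XT.nd (nat_lit 156) (nat_lit 152) (nat_lit 0) (XT.nd (nat_lit 78) (nat_lit 0) (nat_lit 0) (XT.lf (nat_lit 0) (nat_lit 842023417409) (nat_lit 76) (nat_lit 183563871210) (nat_lit 76) (nat_lit 113307386420) (nat_lit 3) (nat_lit 4) (nat_lit 4) (nat_lit 5) (nat_lit 4) (nat_lit 4) (nat_lit 269) (nat_lit 235) (nat_lit 156)) (XT.lf (nat_lit 0) (nat_lit 1082302088462) (nat_lit 76) (nat_lit 144461298507) (nat_lit 76) (nat_lit 74204666839) (nat_lit 3) (nat_lit 4) (nat_lit 4) (nat_lit 5) (nat_lit 4) (nat_lit 4) (nat_lit 270) (nat_lit 235) (nat_lit 155))) (XT.nd (nat_lit 78) (nat_lit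 152) (nat_lit 0) (XT.lf (nat_lit 0) (nat_lit 1358622114719) (nat_lit 76) (nat_lit 99493559150) (nat_lit 76) (nat_lit 29236799761) (nat_lit 3) (nat_lit 4) (nat_lit 4) (nat_lit 5) (nat_lit 4) (nat_lit 4) (nat_lit 271) (nat_lit 235) (nat_lit 154)) (XT.nd (nat_lit 78) (nat_lit 76) (nat_lit 0) (XT.lf (nat_lit 0) (nat_lit 20475050100) (nat_lit 152) (nat_lit 26235512732) (nat_lit 76) (nat_lit 1654844420753) (nat_lit 2) (nat_lit 5) (nat_lit 4) (nat_lit 5) (nat_lit 3) (nat_lit 4) (nat_lit 272) (nat_lit 235) (nat_lit 153)) (XT.lf (nat_lit 0) (nat_lit 79592976596) (nat_lit 152) (nat_lit 1848844708983) (nat_lit 0) (nat_lit 18499961792) (nat_lit 1) (nat_lit 5) (nat_lit 3) (nat_lit 4) (nat_lit 1) (nat_lit 4) (nat_lit 273) (nat_lit 235) (nat_lit 152)))))) (XT.nd (nat_lit 312) (nat_lit 0) (nat_lit 0) (XT.nd (nat_lit 156) (nat_lit 0) (nat_lit 0) (XT.nd (nat_lit 78) (nat_lit 0) (nat_lit 0) (XT.lf (nat_lit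 0) (nat_lit 151239434243) (nat_lit 152) (nat_lit 1987192803917) (nat_lit 0) (nat_lit 90146346415) (nat_lit 1) (nat_lit 5) (nat_lit 3) (nat_lit 4) (nat_lit 1) (nat_lit 4) (nat_lit 274) (nat_lit 235) (nat_lit 151)) (XT.lf (nat_lit 0) (nat_lit 233632706635) (nat_lit 152) (nat_lit 2146293423657) (nat_lit 0) (nat_lit 172539555308) (nat_lit 1) (nat_lit 5) (nat_lit 3) (nat_lit 4) (nat_lit 1) (nat_lit 4) (nat_lit 275) (nat_lit 235) (nat_lit 150))) (XT.nd (nat_lit 78) (nat_lit 0) (nat_lit 0) (XT.lf (nat_lit 0) (nat_lit 328384836058) (nat_lit 152) (nat_lit 2329259406415) (nat_lit 0) (nat_lit 267291629513) (nat_lit 1) (nat_lit 5) (nat_lit 3) (nat_lit 4) (nat_lit 1) (nat_lit 4) (nat_lit 276) (nat_lit 235) (nat_lit 149)) (XT.lf (nat_lit 0) (nat_lit 437349668521) (nat_lit 152) (nat_lit 2539670521420) (nat_lit 0) (nat_lit 376256413962) (nat_lit 1) (nat_lit 5) (nat_lit 3) (nat_lit 4) (nat_lit 1) (nat_lit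 4) (nat_lit 277) (nat_lit 235) (nat_lit 148)))) (XT.nd (nat_lit 156) (nat_lit 0) (nat_lit 0) (XT.nd (nat_lit 78) (nat_lit 0) (nat_lit 0) (XT.lf (nat_lit 0) (nat_lit 562659124661) (nat_lit 152) (nat_lit 2781643507877) (nat_lit 0) (nat_lit 501565828350) (nat_lit 1) (nat_lit 5) (nat_lit 3) (nat_lit 4) (nat_lit 1) (nat_lit 4) (nat_lit 278) (nat_lit 235) (nat_lit 147)) (XT.lf (nat_lit 0) (nat_lit 706764911227) (nat_lit 152) (nat_lit 3059912619869) (nat_lit 0) (nat_lit 645671578610) (nat_lit 1) (nat_lit 5) (nat_lit 3) (nat_lit 4) (nat_lit 1) (nat_lit 4) (nat_lit 279) (nat_lit 235) (nat_lit 146))) (XT.nd (nat_lit 78) (nat_lit 0) (nat_lit 0) (XT.lf (nat_lit 0) (nat_lit 872486489262) (nat_lit 152) (nat_lit 3379922253067) (nat_lit 0) (nat_lit 811393125074) (nat_lit 1) (nat_lit 5) (nat_lit 3) (nat_lit 4) (nat_lit 1) (nat_lit 4) (nat_lit 280) (nat_lit 235) (nat_lit 145)) (XT.nd (nat_lit 78) (nat_lit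 0) (nat_lit 0) (XT.lf (nat_lit 0) (nat_lit 1063066237465) (nat_lit 152) (nat_lit 3747933465511) (nat_lit 0) (nat_lit 1001972845825) (nat_lit 1) (nat_lit 5) (nat_lit 3) (nat_lit 4) (nat_lit 1) (nat_lit 4) (nat_lit 281) (nat_lit 235) (nat_lit 144)) (XT.lf (nat_lit 0) (nat_lit 1282232890041) (nat_lit 152) (nat_lit 4171146476575) (nat_lit 0) (nat_lit 1221139474529) (nat_lit 1) (nat_lit 5) (nat_lit 3) (nat_lit 4) (nat_lit 1) (nat_lit 4) (nat_lit 282) (nat_lit 235) (nat_lit 143))))))) (XT.nd (nat_lit 702) (nat_lit 0) (nat_lit 0) (XT.nd (nat_lit 312) (nat_lit 0) (nat_lit 0) (XT.nd (nat_lit 156) (nat_lit 0) (nat_lit 0) (XT.nd (nat_lit 78) (nat_lit 0) (nat_lit 0) (XT.lf (nat_lit 0) (nat_lit 1534274490193) (nat_lit 152) (nat_lit 4657841540822) (nat_lit 0) (nat_lit 1473181053923) (nat_lit 1) (nat_lit 5) (nat_lit 3) (nat_lit 4) (nat_lit 1) (nat_lit 4) (nat_lit 283) (nat_lit 235) (nat_lit 142)) (XT.lf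 (nat_lit 0) (nat_lit 1824122286619) (nat_lit 152) (nat_lit 5217540952989) (nat_lit 0) (nat_lit 1763028832298) (nat_lit 1) (nat_lit 5) (nat_lit 3) (nat_lit 4) (nat_lit 1) (nat_lit 4) (nat_lit 284) (nat_lit 235) (nat_lit 141))) (XT.nd (nat_lit 78) (nat_lit 0) (nat_lit 0) (XT.lf (nat_lit 0) (nat_lit 2157447214466) (nat_lit 152) (nat_lit 5861195353748) (nat_lit 0) (nat_lit 2096353744449) (nat_lit 1) (nat_lit 5) (nat_lit 3) (nat_lit 4) (nat_lit 1) (nat_lit 4) (nat_lit 285) (nat_lit 235) (nat_lit 140)) (XT.lf (nat_lit 0) (nat_lit 2540770848410) (nat_lit 152) (nat_lit 6601397981375) (nat_lit 0) (nat_lit 2479677364744) (nat_lit 1) (nat_lit 5) (nat_lit 3) (nat_lit 4) (nat_lit 1) (nat_lit 4) (nat_lit 286) (nat_lit 235) (nat_lit 139)))) (XT.nd (nat_lit 156) (nat_lit 0) (nat_lit 0) (XT.nd (nat_lit 78) (nat_lit 0) (nat_lit 0) (XT.lf (nat_lit 0) (nat_lit 2981592998680) (nat_lit 152) (nat_lit 7452631061194)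 (nat_lit 0) (nat_lit 2920499503146) (nat_lit 1) (nat_lit 5) (nat_lit 3) (nat_lit 4) (nat_lit 1) (nat_lit 4) (nat_lit 287) (nat_lit 235) (nat_lit 138)) (XT.lf (nat_lit 0) (nat_lit 3488538446478) (nat_lit 152) (nat_lit 8431549153460) (nat_lit 0) (nat_lit 3427444940623) (nat_lit 1) (nat_lit 5) (nat_lit 3) (nat_lit 4) (nat_lit 1) (nat_lit 4) (nat_lit 288) (nat_lit 235) (nat_lit 137))) (XT.nd (nat_lit 78) (nat_lit 0) (nat_lit 0) (XT.lf (nat_lit 0) (nat_lit 4071525689694) (nat_lit 152) (nat_lit 9557305003459) (nat_lit 0) (nat_lit 4010432174865) (nat_lit 1) (nat_lit 5) (nat_lit 3) (nat_lit 4) (nat_lit 1) (nat_lit 4) (nat_lit 289) (nat_lit 235) (nat_lit 136)) (XT.nd (nat_lit 78) (nat_lit 0) (nat_lit 0) (XT.lf (nat_lit 0) (nat_lit 4741961000478) (nat_lit 152) (nat_lit 10851924269124) (nat_lit 0) (nat_lit 4680867477846) (nat_lit 1) (nat_lit 5) (nat_lit 3) (nat_lit 4) (nat_lit 1) (nat_lit 4) (nat_lit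 290) (nat_lit 235) (nat_lit 135)) (XT.lf (nat_lit 0) (nat_lit 5512961591434) (nat_lit 152) (nat_lit 12340736457827) (nat_lit 0) (nat_lit 5451868062015) (nat_lit 1) (nat_lit 5) (nat_lit 3) (nat_lit 4) (nat_lit 1) (nat_lit 4) (nat_lit 291) (nat_lit 235) (nat_lit 134)))))) (XT.nd (nat_lit 312) (nat_lit 0) (nat_lit 0) (XT.nd (nat_lit 156) (nat_lit 0) (nat_lit 0) (XT.nd (nat_lit 78) (nat_lit 0) (nat_lit 0) (XT.lf (nat_lit 0) (nat_lit 6399612256731) (nat_lit 152) (nat_lit 14052870503695) (nat_lit 0) (nat_lit 6338518721412) (nat_lit 1) (nat_lit 5) (nat_lit 3) (nat_lit 4) (nat_lit 1) (nat_lit 4) (nat_lit 292) (nat_lit 235) (nat_lit 133)) (XT.lf (nat_lit 0) (nat_lit 7419260509387) (nat_lit 152) (nat_lit 16021824681539) (nat_lit 0) (nat_lit 7358166968937) (nat_lit 1) (nat_lit 5) (nat_lit 3) (nat_lit 4) (nat_lit 1) (nat_lit 4) (nat_lit 293) (nat_lit 235) (nat_lit 132))) (XT.nd (nat_lit 78) (nat_lit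 0) (nat_lit 0) (XT.lf (nat_lit 0) (nat_lit 8591855989128) (nat_lit 152) (nat_lit 18286122007882) (nat_lit 0) (nat_lit 8530762444215) (nat_lit 1) (nat_lit 5) (nat_lit 3) (nat_lit 4) (nat_lit 1) (nat_lit 4) (nat_lit 294) (nat_lit 235) (nat_lit 131)) (XT.lf (nat_lit 0) (nat_lit 9940340781426) (nat_lit 152) (nat_lit 20890063952151) (nat_lit 0) (nat_lit 9879247232633) (nat_lit 1) (nat_lit 5) (nat_lit 3) (nat_lit 4) (nat_lit 1) (nat_lit 4) (nat_lit 295) (nat_lit 235) (nat_lit 130)))) (XT.nd (nat_lit 156) (nat_lit 0) (nat_lit 0) (XT.nd (nat_lit 78) (nat_lit 0) (nat_lit 0) (XT.lf (nat_lit 0) (nat_lit 11491098284391) (nat_lit 152) (nat_lit 23884597204562) (nat_lit 0) (nat_lit 11430004732225) (nat_lit 1) (nat_lit 5) (nat_lit 3) (nat_lit 4) (nat_lit 1) (nat_lit 4) (nat_lit 296) (nat_lit 235) (nat_lit 129)) (XT.lf (nat_lit 0) (nat_lit 13274469405691) (nat_lit 152) (nat_lit 27328310459183) (nat_lit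 0) (nat_lit 13213375850592) (nat_lit 1) (nat_lit 5) (nat_lit 3) (nat_lit 4) (nat_lit 1) (nat_lit 4) (nat_lit 297) (nat_lit 235) (nat_lit 128))) (XT.nd (nat_lit 78) (nat_lit 0) (nat_lit 0) (XT.lf (nat_lit 0) (nat_lit 15325346189003) (nat_lit 152) (nat_lit 31288580714473) (nat_lit 0) (nat_lit 15264252631353) (nat_lit 1) (nat_lit 5) (nat_lit 3) (nat_lit 4) (nat_lit 1) (nat_lit 4) (nat_lit 298) (nat_lit 235) (nat_lit 127)) (XT.nd (nat_lit 78) (nat_lit 0) (nat_lit 0) (XT.lf (nat_lit 0) (nat_lit 17683854484436) (nat_lit 152) (nat_lit 35842891518907) (nat_lit 0) (nat_lit 17622760924567) (nat_lit 1) (nat_lit 5) (nat_lit 3) (nat_lit 4) (nat_lit 1) (nat_lit 4) (nat_lit 299) (nat_lit 235) (nat_lit 126)) (XT.lf (nat_lit 0) (nat_lit 20396139019508) (nat_lit 152) (nat_lit 41080348953439) (nat_lit 0) (nat_lit 20335045457710) (nat_lit 1) (nat_lit 5) (nat_lit 3) (nat_lit 4) (nat_lit 1) (nat_lit 4) (nat_lit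 300) (nat_lit 235) (nat_lit 125))))))))
noncomputable def xc82 : XT := (XT.nd (nat_lit 30420) (nat_lit 0) (nat_lit 152) (XT.nd (nat_lit 29718) (nat_lit 0) (nat_lit 760) (XT.nd (nat_lit 29406) (nat_lit 0) (nat_lit 1368) (XT.nd (nat_lit 156) (nat_lit 0) (nat_lit 0) (XT.nd (nat_lit 78) (nat_lit 0) (nat_lit 0) (XT.lf (nat_lit 0) (nat_lit 23515266230776) (nat_lit 152) (nat_lit 47103425011356) (nat_lit 0) (nat_lit 23454172667300) (nat_lit 1) (nat_lit 5) (nat_lit 3) (nat_lit 4) (nat_lit 1) (nat_lit 4) (nat_lit 301) (nat_lit 235) (nat_lit 124)) (XT.lf (nat_lit 0) (nat_lit 27102262520198) (nat_lit 152) (nat_lit 54029962485093) (nat_lit 0) (nat_lit 27041168955264) (nat_lit 1) (nat_lit 5) (nat_lit 3) (nat_lit 4) (nat_lit 1) (nat_lit 4) (nat_lit 302) (nat_lit 235) (nat_lit 123))) (XT.nd (nat_lit 29172) (nat_lit 0) (nat_lit 1368) (XT.lf (nat_lit 0) (nat_lit 31227308249960) (nat_lit 152) (nat_lit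 61995480586094) (nat_lit 0) (nat_lit 31166214683758) (nat_lit 1) (nat_lit 5) (nat_lit 3) (nat_lit 4) (nat_lit 1) (nat_lit 4) (nat_lit 303) (nat_lit 235) (nat_lit 122)) (XT.lf (nat_lit 0) (nat_lit 1644634308) (nat_lit 380) (nat_lit 8733147879) (nat_lit 380) (nat_lit 8733147879) (nat_lit 19) (nat_lit 3) (nat_lit 24) (nat_lit 3) (nat_lit 24) (nat_lit 5) (nat_lit 236) (nat_lit 236) (nat_lit 188)))) (XT.nd (nat_lit 156) (nat_lit 0) (nat_lit 76) (XT.nd (nat_lit 78) (nat_lit 0) (nat_lit 76) (XT.lf (nat_lit 0) (nat_lit 3576226151) (nat_lit 380) (nat_lit 216182356) (nat_lit 380) (nat_lit 37289819890) (nat_lit 19) (nat_lit 3) (nat_lit 24) (nat_lit 3) (nat_lit 24) (nat_lit 5) (nat_lit 237) (nat_lit 236) (nat_lit 187)) (XT.lf (nat_lit 0) (nat_lit 5484074923) (nat_lit 304) (nat_lit 23397883894) (nat_lit 380) (nat_lit 15253057231) (nat_lit 20) (nat_lit 5) (nat_lit 24) (nat_lit 5) (nat_lit 25) (nat_lit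 5) (nat_lit 238) (nat_lit 236) (nat_lit 186))) (XT.nd (nat_lit 78) (nat_lit 0) (nat_lit 76) (XT.lf (nat_lit 0) (nat_lit 7864234066) (nat_lit 304) (nat_lit 2972467125) (nat_lit 380) (nat_lit 36781136601) (nat_lit 20) (nat_lit 5) (nat_lit 24) (nat_lit 5) (nat_lit 25) (nat_lit 5) (nat_lit 239) (nat_lit 236) (nat_lit 185)) (XT.lf (nat_lit 0) (nat_lit 11983339615) (nat_lit 304) (nat_lit 29422107592) (nat_lit 76) (nat_lit 10010378431) (nat_lit 21) (nat_lit 5) (nat_lit 25) (nat_lit 5) (nat_lit 22) (nat_lit 5) (nat_lit 240) (nat_lit 236) (nat_lit 184))))) (XT.nd (nat_lit 312) (nat_lit 304) (nat_lit 0) (XT.nd (nat_lit 156) (nat_lit 152) (nat_lit 0) (XT.nd (nat_lit 78) (nat_lit 304) (nat_lit 0) (XT.lf (nat_lit 0) (nat_lit 17394218491) (nat_lit 304) (nat_lit 5249732138) (nat_lit 76) (nat_lit 33038502054) (nat_lit 21) (nat_lit 5) (nat_lit 25) (nat_lit 5) (nat_lit 22) (nat_lit 5) (nat_lit 241) (nat_lit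 236) (nat_lit 183)) (XT.lf (nat_lit 0) (nat_lit 24641760163) (nat_lit 380) (nat_lit 35693248339) (nat_lit 76) (nat_lit 100334245) (nat_lit 17) (nat_lit 5) (nat_lit 22) (nat_lit 5) (nat_lit 18) (nat_lit 5) (nat_lit 242) (nat_lit 236) (nat_lit 182))) (XT.nd (nat_lit 78) (nat_lit 152) (nat_lit 0) (XT.lf (nat_lit 0) (nat_lit 34338311342) (nat_lit 380) (nat_lit 7133395335) (nat_lit 76) (nat_lit 24225198434) (nat_lit 17) (nat_lit 5) (nat_lit 22) (nat_lit 5) (nat_lit 18) (nat_lit 5) (nat_lit 243) (nat_lit 236) (nat_lit 181)) (XT.lf (nat_lit 0) (nat_lit 28218527504) (nat_lit 152) (nat_lit 18435903751) (nat_lit 228) (nat_lit 24918525515) (nat_lit 15) (nat_lit 5) (nat_lit 17) (nat_lit 5) (nat_lit 18) (nat_lit 5) (nat_lit 244) (nat_lit 236) (nat_lit 180)))) (XT.nd (nat_lit 156) (nat_lit 228) (nat_lit 0) (XT.nd (nat_lit 78) (nat_lit 76) (nat_lit 0) (XT.lf (nat_lit 0) (nat_lit 61539020407) (nat_lit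 228) (nat_lit 8955233043) (nat_lit 76) (nat_lit 7728020564) (nat_lit 15) (nat_lit 5) (nat_lit 18) (nat_lit 5) (nat_lit 16) (nat_lit 4) (nat_lit 245) (nat_lit 236) (nat_lit 179)) (XT.lf (nat_lit 0) (nat_lit 32626800173) (nat_lit 76) (nat_lit 48255674934) (nat_lit 152) (nat_lit 4652600656) (nat_lit 14) (nat_lit 5) (nat_lit 15) (nat_lit 5) (nat_lit 16) (nat_lit 4) (nat_lit 246) (nat_lit 236) (nat_lit 178))) (XT.nd (nat_lit 78) (nat_lit 152) (nat_lit 0) (XT.lf (nat_lit 0) (nat_lit 8852898311) (nat_lit 152) (nat_lit 12828423560) (nat_lit 76) (nat_lit 72133288349) (nat_lit 13) (nat_lit 5) (nat_lit 15) (nat_lit 5) (nat_lit 14) (nat_lit 5) (nat_lit 247) (nat_lit 236) (nat_lit 177)) (XT.nd (nat_lit 78) (nat_lit 0) (nat_lit 0) (XT.lf (nat_lit 0) (nat_lit 25857009456) (nat_lit 228) (nat_lit 67260400733) (nat_lit 76) (nat_lit 9893071920) (nat_lit 11) (nat_lit 5) (nat_lit 14) (nat_lit 5) (nat_lit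 12) (nat_lit 4) (nat_lit 248) (nat_lit 236) (nat_lit 176)) (XT.lf (nat_lit 0) (nat_lit 47144503305) (nat_lit 228) (nat_lit 21495944971) (nat_lit 76) (nat_lit 44685379317) (nat_lit 11) (nat_lit 5) (nat_lit 14) (nat_lit 5) (nat_lit 12) (nat_lit 4) (nat_lit 249) (nat_lit 236) (nat_lit 175))))))) (XT.nd (nat_lit 702) (nat_lit 228) (nat_lit 0) (XT.nd (nat_lit 312) (nat_lit 152) (nat_lit 0) (XT.nd (nat_lit 156) (nat_lit 152) (nat_lit 0) (XT.nd (nat_lit 78) (nat_lit 0) (nat_lit 0) (XT.lf (nat_lit 0) (nat_lit 34172377456) (nat_lit 76) (nat_lit 38865847509) (nat_lit 152) (nat_lit 51938291084) (nat_lit 10) (nat_lit 5) (nat_lit 11) (nat_lit 5) (nat_lit 12) (nat_lit 4) (nat_lit 250) (nat_lit 236) (nat_lit 174)) (XT.lf (nat_lit 0) (nat_lit 100603875520) (nat_lit 76) (nat_lit 3334006438) (nat_lit 152) (nat_lit 34268650088) (nat_lit 10) (nat_lit 5) (nat_lit 11) (nat_lit 5) (nat_lit 12) (nat_lit 4)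 (nat_lit 251) (nat_lit 236) (nat_lit 173))) (XT.nd (nat_lit 78) (nat_lit 76) (nat_lit 0) (XT.lf (nat_lit 0) (nat_lit 24174558249) (nat_lit 76) (nat_lit 117851299992) (nat_lit 76) (nat_lit 11012191664) (nat_lit 9) (nat_lit 4) (nat_lit 10) (nat_lit 5) (nat_lit 10) (nat_lit 4) (nat_lit 252) (nat_lit 236) (nat_lit 172)) (XT.lf (nat_lit 0) (nat_lit 16548493108) (nat_lit 152) (nat_lit 71261665830) (nat_lit 76) (nat_lit 81853962315) (nat_lit 8) (nat_lit 5) (nat_lit 10) (nat_lit 5) (nat_lit 9) (nat_lit 4) (nat_lit 253) (nat_lit 236) (nat_lit 171)))) (XT.nd (nat_lit 156) (nat_lit 76) (nat_lit 0) (XT.nd (nat_lit 78) (nat_lit 76) (nat_lit 0) (XT.lf (nat_lit 0) (nat_lit 47114484698) (nat_lit 152) (nat_lit 5546364507) (nat_lit 76) (nat_lit 136044802505) (nat_lit 8) (nat_lit 5) (nat_lit 10) (nat_lit 5) (nat_lit 9) (nat_lit 4) (nat_lit 254) (nat_lit 236) (nat_lit 170)) (XT.lf (nat_lit 0) (nat_lit 76867405855)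 (nat_lit 76) (nat_lit 8579704328) (nat_lit 152) (nat_lit 124679044181) (nat_lit 7) (nat_lit 5) (nat_lit 8) (nat_lit 5) (nat_lit 9) (nat_lit 4) (nat_lit 255) (nat_lit 236) (nat_lit 169))) (XT.nd (nat_lit 78) (nat_lit 76) (nat_lit 0) (XT.lf (nat_lit 0) (nat_lit 131576047970) (nat_lit 152) (nat_lit 64209438138) (nat_lit 0) (nat_lit 38667286059) (nat_lit 7) (nat_lit 5) (nat_lit 9) (nat_lit 4) (nat_lit 7) (nat_lit 4) (nat_lit 256) (nat_lit 236) (nat_lit 168)) (XT.nd (nat_lit 78) (nat_lit 0) (nat_lit 0) (XT.lf (nat_lit 0) (nat_lit 16231937729) (nat_lit 76) (nat_lit 169472079549) (nat_lit 76) (nat_lit 76562413928) (nat_lit 6) (nat_lit 4) (nat_lit 7) (nat_lit 5) (nat_lit 7) (nat_lit 4) (nat_lit 257) (nat_lit 236) (nat_lit 167)) (XT.lf (nat_lit 0) (nat_lit 115954016418) (nat_lit 76) (nat_lit 135352628317) (nat_lit 76) (nat_lit 42442176861) (nat_lit 6) (nat_lit 4) (nat_lit 7) (nat_lit 5) (nat_lit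 7) (nat_lit 4) (nat_lit 258) (nat_lit 236) (nat_lit 166)))))) (XT.nd (nat_lit 312) (nat_lit 76) (nat_lit 0) (XT.nd (nat_lit 156) (nat_lit 76) (nat_lit 0) (XT.nd (nat_lit 78) (nat_lit 76) (nat_lit 0) (XT.lf (nat_lit 0) (nat_lit 230632868803) (nat_lit 76) (nat_lit 96115980380) (nat_lit 76) (nat_lit 3204845589) (nat_lit 6) (nat_lit 4) (nat_lit 7) (nat_lit 5) (nat_lit 7) (nat_lit 4) (nat_lit 259) (nat_lit 236) (nat_lit 165)) (XT.lf (nat_lit 0) (nat_lit 38185501850) (nat_lit 152) (nat_lit 10812900017) (nat_lit 76) (nat_lit 322330649387) (nat_lit 5) (nat_lit 5) (nat_lit 7) (nat_lit 5) (nat_lit 6) (nat_lit 4) (nat_lit 260) (nat_lit 236) (nat_lit 164))) (XT.nd (nat_lit 78) (nat_lit 0) (nat_lit 0) (XT.lf (nat_lit 0) (nat_lit 90002292896) (nat_lit 152) (nat_lit 318994590884) (nat_lit 0) (nat_lit 9209035770) (nat_lit 4) (nat_lit 5) (nat_lit 6) (nat_lit 4) (nat_lit 4) (nat_lit 4) (nat_lit 261) (nat_lit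 236) (nat_lit 163)) (XT.lf (nat_lit 0) (nat_lit 152516359301) (nat_lit 152) (nat_lit 247436534756) (nat_lit 0) (nat_lit 71722711476) (nat_lit 4) (nat_lit 5) (nat_lit 6) (nat_lit 4) (nat_lit 4) (nat_lit 4) (nat_lit 262) (nat_lit 236) (nat_lit 162)))) (XT.nd (nat_lit 156) (nat_lit 76) (nat_lit 0) (XT.nd (nat_lit 78) (nat_lit 0) (nat_lit 0) (XT.lf (nat_lit 0) (nat_lit 224406983032) (nat_lit 152) (nat_lit 165145849633) (nat_lit 0) (nat_lit 143612995469) (nat_lit 4) (nat_lit 5) (nat_lit 6) (nat_lit 4) (nat_lit 4) (nat_lit 4) (nat_lit 263) (nat_lit 236) (nat_lit 161)) (XT.lf (nat_lit 0) (nat_lit 307080719770) (nat_lit 152) (nat_lit 70512500371) (nat_lit 0) (nat_lit 226286436782) (nat_lit 4) (nat_lit 5) (nat_lit 6) (nat_lit 4) (nat_lit 4) (nat_lit 4) (nat_lit 264) (nat_lit 236) (nat_lit 160))) (XT.nd (nat_lit 78) (nat_lit 0) (nat_lit 0) (XT.lf (nat_lit 0) (nat_lit 42059458961) (nat_lit 76)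 (nat_lit 361837232689) (nat_lit 76) (nat_lit 281042692811) (nat_lit 3) (nat_lit 4) (nat_lit 4) (nat_lit 5) (nat_lit 4) (nat_lit 4) (nat_lit 265) (nat_lit 236) (nat_lit 159)) (XT.nd (nat_lit 78) (nat_lit 0) (nat_lit 0) (XT.lf (nat_lit 0) (nat_lit 179441076602) (nat_lit 76) (nat_lit 339479467786) (nat_lit 76) (nat_lit 258684704524) (nat_lit 3) (nat_lit 4) (nat_lit 4) (nat_lit 5) (nat_lit 4) (nat_lit 4) (nat_lit 266) (nat_lit 236) (nat_lit 158)) (XT.lf (nat_lit 0) (nat_lit 337429259411) (nat_lit 76) (nat_lit 313768371600) (nat_lit 76) (nat_lit 232973414092) (nat_lit 3) (nat_lit 4) (nat_lit 4) (nat_lit 5) (nat_lit 4) (nat_lit 4) (nat_lit 267) (nat_lit 236) (nat_lit 157))))))))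
noncomputable def xc83 : XT := (XT.nd (nat_lit 1404) (nat_lit 0) (nat_lit 0) (XT.nd (nat_lit 702) (nat_lit 0) (nat_lit 0) (XT.nd (nat_lit 312) (nat_lit 152) (nat_lit 0) (XT.nd (nat_lit 156) (nat_lit 0) (nat_lit 0) (XT.nd (nat_lit 78) (nat_lit 0) (nat_lit 0) (XT.lf (nat_lit 0) (nat_lit 519115080529) (nat_lit 76) (nat_lit 284200900948) (nat_lit 76) (nat_lit 203405774530) (nat_lit 3) (nat_lit 4) (nat_lit 4) (nat_lit 5) (nat_lit 4) (nat_lit 4) (nat_lit 268) (nat_lit 236) (nat_lit 156)) (XT.lf (nat_lit 0) (nat_lit 728053262545) (nat_lit 76) (nat_lit 250198561837) (nat_lit 76) (nat_lit 169403288541) (nat_lit 3) (nat_lit 4) (nat_lit 4) (nat_lit 5) (nat_lit 4) (nat_lit 4) (nat_lit 269) (nat_lit 236) (nat_lit 155))) (XT.nd (nat_lit 78) (nat_lit 0) (nat_lit 0) (XT.lf (nat_lit 0) (nat_lit 968331726410) (nat_lit 76) (nat_lit 211096091112) (nat_lit 76) (nat_lit 130300690095) (nat_lit 3) (nat_lit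 4) (nat_lit 4) (nat_lit 5) (nat_lit 4) (nat_lit 4) (nat_lit 270) (nat_lit 236) (nat_lit 154)) (XT.lf (nat_lit 0) (nat_lit 1244651572504) (nat_lit 76) (nat_lit 166128440431) (nat_lit 76) (nat_lit 85332928353) (nat_lit 3) (nat_lit 4) (nat_lit 4) (nat_lit 5) (nat_lit 4) (nat_lit 4) (nat_lit 271) (nat_lit 236) (nat_lit 153)))) (XT.nd (nat_lit 156) (nat_lit 76) (nat_lit 0) (XT.nd (nat_lit 78) (nat_lit 76) (nat_lit 0) (XT.lf (nat_lit 0) (nat_lit 1562419058686) (nat_lit 76) (nat_lit 114415807933) (nat_lit 76) (nat_lit 33620199281) (nat_lit 3) (nat_lit 4) (nat_lit 4) (nat_lit 5) (nat_lit 4) (nat_lit 4) (nat_lit 272) (nat_lit 236) (nat_lit 152)) (XT.lf (nat_lit 0) (nat_lit 23547987327) (nat_lit 152) (nat_lit 30167519876) (nat_lit 76) (nat_lit 1903072470055) (nat_lit 2) (nat_lit 5) (nat_lit 4) (nat_lit 5) (nat_lit 3) (nat_lit 4) (nat_lit 273) (nat_lit 236) (nat_lit 151))) (XT.nd (nat_lit 78) (nat_lit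 0) (nat_lit 0) (XT.lf (nat_lit 0) (nat_lit 91533580222) (nat_lit 152) (nat_lit 2126168071330) (nat_lit 0) (nat_lit 21276392695) (nat_lit 1) (nat_lit 5) (nat_lit 3) (nat_lit 4) (nat_lit 1) (nat_lit 4) (nat_lit 274) (nat_lit 236) (nat_lit 150)) (XT.nd (nat_lit 78) (nat_lit 0) (nat_lit 0) (XT.lf (nat_lit 0) (nat_lit 173926790368) (nat_lit 152) (nat_lit 2285268816678) (nat_lit 0) (nat_lit 103669547625) (nat_lit 1) (nat_lit 5) (nat_lit 3) (nat_lit 4) (nat_lit 1) (nat_lit 4) (nat_lit 275) (nat_lit 236) (nat_lit 149)) (XT.lf (nat_lit 0) (nat_lit 268678865664) (nat_lit 152) (nat_lit 2468234908661) (nat_lit 0) (nat_lit 198421574906) (nat_lit 1) (nat_lit 5) (nat_lit 3) (nat_lit 4) (nat_lit 1) (nat_lit 4) (nat_lit 276) (nat_lit 236) (nat_lit 148)))))) (XT.nd (nat_lit 312) (nat_lit 0) (nat_lit 0) (XT.nd (nat_lit 156) (nat_lit 0) (nat_lit 0) (XT.nd (nat_lit 78) (nat_lit 0) (nat_lit 0) (XT.lf (nat_lit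 0) (nat_lit 377643651061) (nat_lit 152) (nat_lit 2678646118643) (nat_lit 0) (nat_lit 307386318551) (nat_lit 1) (nat_lit 5) (nat_lit 3) (nat_lit 4) (nat_lit 1) (nat_lit 4) (nat_lit 277) (nat_lit 236) (nat_lit 147)) (XT.lf (nat_lit 0) (nat_lit 502953066273) (nat_lit 152) (nat_lit 2920619187689) (nat_lit 0) (nat_lit 432695697457) (nat_lit 1) (nat_lit 5) (nat_lit 3) (nat_lit 4) (nat_lit 1) (nat_lit 4) (nat_lit 278) (nat_lit 236) (nat_lit 146))) (XT.nd (nat_lit 78) (nat_lit 0) (nat_lit 0) (XT.lf (nat_lit 0) (nat_lit 647058817250) (nat_lit 152) (nat_lit 3198888371499) (nat_lit 0) (nat_lit 576801416863) (nat_lit 1) (nat_lit 5) (nat_lit 3) (nat_lit 4) (nat_lit 1) (nat_lit 4) (nat_lit 279) (nat_lit 236) (nat_lit 145)) (XT.lf (nat_lit 0) (nat_lit 812780364337) (nat_lit 152) (nat_lit 3518898067146) (nat_lit 0) (nat_lit 742522936498) (nat_lit 1) (nat_lit 5) (nat_lit 3) (nat_lit 4) (nat_lit 1) (nat_lit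 4) (nat_lit 280) (nat_lit 236) (nat_lit 144)))) (XT.nd (nat_lit 156) (nat_lit 0) (nat_lit 0) (XT.nd (nat_lit 78) (nat_lit 0) (nat_lit 0) (XT.lf (nat_lit 0) (nat_lit 1003360085630) (nat_lit 152) (nat_lit 3886909333894) (nat_lit 0) (nat_lit 933102633919) (nat_lit 1) (nat_lit 5) (nat_lit 3) (nat_lit 4) (nat_lit 1) (nat_lit 4) (nat_lit 281) (nat_lit 236) (nat_lit 143)) (XT.lf (nat_lit 0) (nat_lit 1222526714806) (nat_lit 152) (nat_lit 4310122392178) (nat_lit 0) (nat_lit 1152269242337) (nat_lit 1) (nat_lit 5) (nat_lit 3) (nat_lit 4) (nat_lit 1) (nat_lit 4) (nat_lit 282) (nat_lit 236) (nat_lit 142))) (XT.nd (nat_lit 78) (nat_lit 0) (nat_lit 0) (XT.lf (nat_lit 0) (nat_lit 1474568294609) (nat_lit 152) (nat_lit 4796817497487) (nat_lit 0) (nat_lit 1404310804090) (nat_lit 1) (nat_lit 5) (nat_lit 3) (nat_lit 4) (nat_lit 1) (nat_lit 4) (nat_lit 283) (nat_lit 236) (nat_lit 141)) (XT.nd (nat_lit 78)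 (nat_lit 0) (nat_lit 0) (XT.lf (nat_lit 0) (nat_lit 1764416073341) (nat_lit 152) (nat_lit 5356516945360) (nat_lit 0) (nat_lit 1694158567125) (nat_lit 1) (nat_lit 5) (nat_lit 3) (nat_lit 4) (nat_lit 1) (nat_lit 4) (nat_lit 284) (nat_lit 236) (nat_lit 140)) (XT.lf (nat_lit 0) (nat_lit 2097740985802) (nat_lit 152) (nat_lit 6000171377167) (nat_lit 0) (nat_lit 2027483465938) (nat_lit 1) (nat_lit 5) (nat_lit 3) (nat_lit 4) (nat_lit 1) (nat_lit 4) (nat_lit 285) (nat_lit 236) (nat_lit 139))))))) (XT.nd (nat_lit 702) (nat_lit 0) (nat_lit 0) (XT.nd (nat_lit 312) (nat_lit 0) (nat_lit 0) (XT.nd (nat_lit 156) (nat_lit 0) (nat_lit 0) (XT.nd (nat_lit 78) (nat_lit 0) (nat_lit 0) (XT.lf (nat_lit 0) (nat_lit 2481064606367) (nat_lit 152) (nat_lit 6740374031793) (nat_lit 0) (nat_lit 2410807074634) (nat_lit 1) (nat_lit 5) (nat_lit 3) (nat_lit 4) (nat_lit 1) (nat_lit 4) (nat_lit 286) (nat_lit 236) (nat_lit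 138)) (XT.lf (nat_lit 0) (nat_lit 2921886745003) (nat_lit 152) (nat_lit 7591607135088) (nat_lit 0) (nat_lit 2851629202949) (nat_lit 1) (nat_lit 5) (nat_lit 3) (nat_lit 4) (nat_lit 1) (nat_lit 4) (nat_lit 287) (nat_lit 236) (nat_lit 137))) (XT.nd (nat_lit 78) (nat_lit 0) (nat_lit 0) (XT.lf (nat_lit 0) (nat_lit 3428832182683) (nat_lit 152) (nat_lit 8570525247770) (nat_lit 0) (nat_lit 3358574631656) (nat_lit 1) (nat_lit 5) (nat_lit 3) (nat_lit 4) (nat_lit 1) (nat_lit 4) (nat_lit 288) (nat_lit 236) (nat_lit 136)) (XT.lf (nat_lit 0) (nat_lit 4011819417102) (nat_lit 152) (nat_lit 9696281115520) (nat_lit 0) (nat_lit 3941561858271) (nat_lit 1) (nat_lit 5) (nat_lit 3) (nat_lit 4) (nat_lit 1) (nat_lit 4) (nat_lit 289) (nat_lit 236) (nat_lit 135)))) (XT.nd (nat_lit 156) (nat_lit 0) (nat_lit 0) (XT.nd (nat_lit 78) (nat_lit 0) (nat_lit 0) (XT.lf (nat_lit 0) (nat_lit 4682254720237) (nat_lit 152) (nat_lit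 10990900396622) (nat_lit 0) (nat_lit 4611997154620) (nat_lit 1) (nat_lit 5) (nat_lit 3) (nat_lit 4) (nat_lit 1) (nat_lit 4) (nat_lit 290) (nat_lit 236) (nat_lit 134)) (XT.lf (nat_lit 0) (nat_lit 5453255304541) (nat_lit 152) (nat_lit 12479712598748) (nat_lit 0) (nat_lit 5382997733023) (nat_lit 1) (nat_lit 5) (nat_lit 3) (nat_lit 4) (nat_lit 1) (nat_lit 4) (nat_lit 291) (nat_lit 236) (nat_lit 133))) (XT.nd (nat_lit 78) (nat_lit 0) (nat_lit 0) (XT.lf (nat_lit 0) (nat_lit 6339905964054) (nat_lit 152) (nat_lit 14191846656289) (nat_lit 0) (nat_lit 6269648387405) (nat_lit 1) (nat_lit 5) (nat_lit 3) (nat_lit 4) (nat_lit 1) (nat_lit 4) (nat_lit 292) (nat_lit 236) (nat_lit 132)) (XT.nd (nat_lit 78) (nat_lit 0) (nat_lit 0) (XT.lf (nat_lit 0) (nat_lit 7359554211680) (nat_lit 152) (nat_lit 16160800844282) (nat_lit 0) (nat_lit 7289296630570) (nat_lit 1) (nat_lit 5) (nat_lit 3) (nat_lit 4) (nat_lit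 1) (nat_lit 4) (nat_lit 293) (nat_lit 236) (nat_lit 131)) (XT.lf (nat_lit 0) (nat_lit 8532149687047) (nat_lit 152) (nat_lit 18425098179451) (nat_lit 0) (nat_lit 8461892102056) (nat_lit 1) (nat_lit 5) (nat_lit 3) (nat_lit 4) (nat_lit 1) (nat_lit 4) (nat_lit 294) (nat_lit 236) (nat_lit 130)))))) (XT.nd (nat_lit 312) (nat_lit 0) (nat_lit 0) (XT.nd (nat_lit 156) (nat_lit 0) (nat_lit 0) (XT.nd (nat_lit 78) (nat_lit 0) (nat_lit 0) (XT.lf (nat_lit 0) (nat_lit 9880634475542) (nat_lit 152) (nat_lit 21029040131395) (nat_lit 0) (nat_lit 9810376887177) (nat_lit 1) (nat_lit 5) (nat_lit 3) (nat_lit 4) (nat_lit 1) (nat_lit 4) (nat_lit 295) (nat_lit 236) (nat_lit 129)) (XT.lf (nat_lit 0) (nat_lit 11431391975200) (nat_lit 152) (nat_lit 24023573390479) (nat_lit 0) (nat_lit 11361134383902) (nat_lit 1) (nat_lit 5) (nat_lit 3) (nat_lit 4) (nat_lit 1) (nat_lit 4) (nat_lit 296) (nat_lit 236) (nat_lit 128)))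 (XT.nd (nat_lit 78) (nat_lit 0) (nat_lit 0) (XT.lf (nat_lit 0) (nat_lit 13214763093625) (nat_lit 152) (nat_lit 27467286650903) (nat_lit 0) (nat_lit 13144505499775) (nat_lit 1) (nat_lit 5) (nat_lit 3) (nat_lit 4) (nat_lit 1) (nat_lit 4) (nat_lit 297) (nat_lit 236) (nat_lit 127)) (XT.lf (nat_lit 0) (nat_lit 15265639874436) (nat_lit 152) (nat_lit 31427556911240) (nat_lit 0) (nat_lit 15195382278368) (nat_lit 1) (nat_lit 5) (nat_lit 3) (nat_lit 4) (nat_lit 1) (nat_lit 4) (nat_lit 298) (nat_lit 236) (nat_lit 126)))) (XT.nd (nat_lit 156) (nat_lit 0) (nat_lit 0) (XT.nd (nat_lit 78) (nat_lit 0) (nat_lit 0) (XT.lf (nat_lit 0) (nat_lit 17624148167694) (nat_lit 152) (nat_lit 35981867720061) (nat_lit 0) (nat_lit 17553890569697) (nat_lit 1) (nat_lit 5) (nat_lit 3) (nat_lit 4) (nat_lit 1) (nat_lit 4) (nat_lit 299) (nat_lit 236) (nat_lit 125)) (XT.lf (nat_lit 0) (nat_lit 20336432700875) (nat_lit 152)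 (nat_lit 41219325158410) (nat_lit 0) (nat_lit 20266175101201) (nat_lit 1) (nat_lit 5) (nat_lit 3) (nat_lit 4) (nat_lit 1) (nat_lit 4) (nat_lit 300) (nat_lit 236) (nat_lit 124))) (XT.nd (nat_lit 78) (nat_lit 0) (nat_lit 0) (XT.lf (nat_lit 0) (nat_lit 23455559910498) (nat_lit 152) (nat_lit 47242401219644) (nat_lit 0) (nat_lit 23385302309366) (nat_lit 1) (nat_lit 5) (nat_lit 3) (nat_lit 4) (nat_lit 1) (nat_lit 4) (nat_lit 301) (nat_lit 236) (nat_lit 123)) (XT.nd (nat_lit 29328) (nat_lit 0) (nat_lit 1368) (XT.lf (nat_lit 0) (nat_lit 27042556198491) (nat_lit 152) (nat_lit 54168938696267) (nat_lit 0) (nat_lit 26972298596091) (nat_lit 1) (nat_lit 5) (nat_lit 3) (nat_lit 4) (nat_lit 1) (nat_lit 4) (nat_lit 302) (nat_lit 236) (nat_lit 122)) (XT.lf (nat_lit 0) (nat_lit 1929924663) (nat_lit 380) (nat_lit 10020816673) (nat_lit 380) (nat_lit 10020816673) (nat_lit 19) (nat_lit 3) (nat_lit 24) (nat_lit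 3) (nat_lit 24) (nat_lit 5) (nat_lit 237) (nat_lit 237) (nat_lit 186))))))))
noncomputable def xc84 : XT := (XT.nd (nat_lit 1326) (nat_lit 380) (nat_lit 0) (XT.nd (nat_lit 624) (nat_lit 532) (nat_lit 0) (XT.nd (nat_lit 312) (nat_lit 304) (nat_lit 0) (XT.nd (nat_lit 156) (nat_lit 0) (nat_lit 76) (XT.nd (nat_lit 78) (nat_lit 0) (nat_lit 76) (XT.lf (nat_lit 0) (nat_lit 4179782176) (nat_lit 380) (nat_lit 209821209) (nat_lit 380) (nat_lit 42844504373) (nat_lit 19) (nat_lit 3) (nat_lit 24) (nat_lit 3) (nat_lit 24) (nat_lit 5) (nat_lit 238) (nat_lit 237) (nat_lit 185)) (XT.lf (nat_lit 0) (nat_lit 6365639153) (nat_lit 304) (nat_lit 26860272707) (nat_lit 380) (nat_lit 17520177488) (nat_lit 20) (nat_lit 5) (nat_lit 24) (nat_lit 5) (nat_lit 25) (nat_lit 5) (nat_lit 239) (nat_lit 237) (nat_lit 184))) (XT.nd (nat_lit 78) (nat_lit 0) (nat_lit 76) (XT.lf (nat_lit 0) (nat_lit 9095132647) (nat_lit 304)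 (nat_lit 3377212175) (nat_lit 380) (nat_lit 42280186806) (nat_lit 20) (nat_lit 5) (nat_lit 24) (nat_lit 5) (nat_lit 25) (nat_lit 5) (nat_lit 240) (nat_lit 237) (nat_lit 183)) (XT.lf (nat_lit 0) (nat_lit 13826755334) (nat_lit 304) (nat_lit 33788695832) (nat_lit 76) (nat_lit 11505606915) (nat_lit 21) (nat_lit 5) (nat_lit 25) (nat_lit 5) (nat_lit 22) (nat_lit 5) (nat_lit 241) (nat_lit 237) (nat_lit 182)))) (XT.nd (nat_lit 156) (nat_lit 152) (nat_lit 0) (XT.nd (nat_lit 78) (nat_lit 304) (nat_lit 0) (XT.lf (nat_lit 0) (nat_lit 20043277158) (nat_lit 304) (nat_lit 5996559005) (nat_lit 76) (nat_lit 37988774509) (nat_lit 21) (nat_lit 5) (nat_lit 25) (nat_lit 5) (nat_lit 22) (nat_lit 5) (nat_lit 242) (nat_lit 237) (nat_lit 181)) (XT.lf (nat_lit 0) (nat_lit 28374450339) (nat_lit 380) (nat_lit 41002910692) (nat_lit 76) (nat_lit 117627006) (nat_lit 17) (nat_lit 5) (nat_lit 22) (nat_lit 5) (nat_lit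 18) (nat_lit 5) (nat_lit 243) (nat_lit 237) (nat_lit 180))) (XT.nd (nat_lit 78) (nat_lit 152) (nat_lit 0) (XT.lf (nat_lit 0) (nat_lit 39520732958) (nat_lit 380) (nat_lit 8164861246) (nat_lit 76) (nat_lit 27860928306) (nat_lit 17) (nat_lit 5) (nat_lit 22) (nat_lit 5) (nat_lit 18) (nat_lit 5) (nat_lit 244) (nat_lit 237) (nat_lit 179)) (XT.lf (nat_lit 0) (nat_lit 32488098047) (nat_lit 152) (nat_lit 21193564755) (nat_lit 228) (nat_lit 28622732125) (nat_lit 15) (nat_lit 5) (nat_lit 17) (nat_lit 5) (nat_lit 18) (nat_lit 5) (nat_lit 245) (nat_lit 237) (nat_lit 178))))) (XT.nd (nat_lit 312) (nat_lit 228) (nat_lit 0) (XT.nd (nat_lit 156) (nat_lit 228) (nat_lit 0) (XT.nd (nat_lit 78) (nat_lit 76) (nat_lit 0) (XT.lf (nat_lit 0) (nat_lit 70795427133) (nat_lit 228) (nat_lit 10262885896) (nat_lit 76) (nat_lit 8893342662) (nat_lit 15) (nat_lit 5) (nat_lit 18) (nat_lit 5) (nat_lit 16) (nat_lit 4) (nat_lit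 246) (nat_lit 237) (nat_lit 177)) (XT.lf (nat_lit 0) (nat_lit 37554832661) (nat_lit 76) (nat_lit 55483642674) (nat_lit 152) (nat_lit 5323207557) (nat_lit 14) (nat_lit 5) (nat_lit 15) (nat_lit 5) (nat_lit 16) (nat_lit 4) (nat_lit 247) (nat_lit 237) (nat_lit 176))) (XT.nd (nat_lit 78) (nat_lit 152) (nat_lit 0) (XT.lf (nat_lit 0) (nat_lit 10202445457) (nat_lit 152) (nat_lit 14720915826) (nat_lit 76) (nat_lit 82960115518) (nat_lit 13) (nat_lit 5) (nat_lit 15) (nat_lit 5) (nat_lit 14) (nat_lit 5) (nat_lit 248) (nat_lit 237) (nat_lit 175)) (XT.lf (nat_lit 0) (nat_lit 29756035634) (nat_lit 228) (nat_lit 77316479680) (nat_lit 76) (nat_lit 11386395643) (nat_lit 11) (nat_lit 5) (nat_lit 14) (nat_lit 5) (nat_lit 12) (nat_lit 4) (nat_lit 249) (nat_lit 237) (nat_lit 174)))) (XT.nd (nat_lit 156) (nat_lit 152) (nat_lit 0) (XT.nd (nat_lit 78) (nat_lit 76) (nat_lit 0) (XT.lf (nat_lit 0) (nat_lit 54233982939)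 (nat_lit 228) (nat_lit 24691657445) (nat_lit 76) (nat_lit 51396327896) (nat_lit 11) (nat_lit 5) (nat_lit 14) (nat_lit 5) (nat_lit 12) (nat_lit 4) (nat_lit 250) (nat_lit 237) (nat_lit 173)) (XT.lf (nat_lit 0) (nat_lit 39325609743) (nat_lit 76) (nat_lit 44684964394) (nat_lit 152) (nat_lit 59709872370) (nat_lit 10) (nat_lit 5) (nat_lit 11) (nat_lit 5) (nat_lit 12) (nat_lit 4) (nat_lit 251) (nat_lit 237) (nat_lit 172))) (XT.nd (nat_lit 78) (nat_lit 152) (nat_lit 0) (XT.lf (nat_lit 0) (nat_lit 115718261777) (nat_lit 76) (nat_lit 3824750672) (nat_lit 152) (nat_lit 39392284665) (nat_lit 10) (nat_lit 5) (nat_lit 11) (nat_lit 5) (nat_lit 12) (nat_lit 4) (nat_lit 252) (nat_lit 237) (nat_lit 171)) (XT.nd (nat_lit 78) (nat_lit 76) (nat_lit 0) (XT.lf (nat_lit 0) (nat_lit 27825209111) (nat_lit 76) (nat_lit 135518441555) (nat_lit 76) (nat_lit 12647978359) (nat_lit 9) (nat_lit 4) (nat_lit 10) (nat_lit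 5) (nat_lit 10) (nat_lit 4) (nat_lit 253) (nat_lit 237) (nat_lit 170)) (XT.lf (nat_lit 0) (nat_lit 19043474795) (nat_lit 152) (nat_lit 81928366815) (nat_lit 76) (nat_lit 94139960434) (nat_lit 8) (nat_lit 5) (nat_lit 10) (nat_lit 5) (nat_lit 9) (nat_lit 4) (nat_lit 254) (nat_lit 237) (nat_lit 169))))))) (XT.nd (nat_lit 702) (nat_lit 76) (nat_lit 0) (XT.nd (nat_lit 312) (nat_lit 152) (nat_lit 0) (XT.nd (nat_lit 156) (nat_lit 76) (nat_lit 0) (XT.nd (nat_lit 78) (nat_lit 76) (nat_lit 0) (XT.lf (nat_lit 0) (nat_lit 54192707595) (nat_lit 152) (nat_lit 6358711454) (nat_lit 76) (nat_lit 156458395726) (nat_lit 8) (nat_lit 5) (nat_lit 10) (nat_lit 5) (nat_lit 9) (nat_lit 4) (nat_lit 255) (nat_lit 237) (nat_lit 168)) (XT.lf (nat_lit 0) (nat_lit 88416233203) (nat_lit 76) (nat_lit 9858327379) (nat_lit 152) (nat_lit 143368935735) (nat_lit 7) (nat_lit 5) (nat_lit 8) (nat_lit 5) (nat_lit 9) (nat_lit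 4) (nat_lit 256) (nat_lit 237) (nat_lit 167))) (XT.nd (nat_lit 78) (nat_lit 76) (nat_lit 0) (XT.lf (nat_lit 0) (nat_lit 151321784649) (nat_lit 152) (nat_lit 73823503741) (nat_lit 0) (nat_lit 44473979640) (nat_lit 7) (nat_lit 5) (nat_lit 9) (nat_lit 4) (nat_lit 7) (nat_lit 4) (nat_lit 257) (nat_lit 237) (nat_lit 166)) (XT.lf (nat_lit 0) (nat_lit 18683289865) (nat_lit 76) (nat_lit 194885128376) (nat_lit 76) (nat_lit 88036640031) (nat_lit 6) (nat_lit 4) (nat_lit 7) (nat_lit 5) (nat_lit 7) (nat_lit 4) (nat_lit 258) (nat_lit 237) (nat_lit 165)))) (XT.nd (nat_lit 156) (nat_lit 152) (nat_lit 0) (XT.nd (nat_lit 78) (nat_lit 0) (nat_lit 0) (XT.lf (nat_lit 0) (nat_lit 133361520164) (nat_lit 76) (nat_lit 155648772038) (nat_lit 76) (nat_lit 48799689489) (nat_lit 6) (nat_lit 4) (nat_lit 7) (nat_lit 5) (nat_lit 7) (nat_lit 4) (nat_lit 259) (nat_lit 237) (nat_lit 164)) (XT.lf (nat_lit 0) (nat_lit 265240321978)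 (nat_lit 76) (nat_lit 110527507414) (nat_lit 76) (nat_lit 3677908165) (nat_lit 6) (nat_lit 4) (nat_lit 7) (nat_lit 5) (nat_lit 7) (nat_lit 4) (nat_lit 260) (nat_lit 237) (nat_lit 163))) (XT.nd (nat_lit 78) (nat_lit 76) (nat_lit 0) (XT.lf (nat_lit 0) (nat_lit 43919398376) (nat_lit 152) (nat_lit 12423342042) (nat_lit 76) (nat_lit 370684747625) (nat_lit 5) (nat_lit 5) (nat_lit 7) (nat_lit 5) (nat_lit 6) (nat_lit 4) (nat_lit 261) (nat_lit 237) (nat_lit 162)) (XT.nd (nat_lit 78) (nat_lit 0) (nat_lit 0) (XT.lf (nat_lit 0) (nat_lit 103508587296) (nat_lit 152) (nat_lit 366832156876) (nat_lit 0) (nat_lit 10595161860) (nat_lit 4) (nat_lit 5) (nat_lit 6) (nat_lit 4) (nat_lit 4) (nat_lit 4) (nat_lit 262) (nat_lit 237) (nat_lit 161)) (XT.lf (nat_lit 0) (nat_lit 175398987514) (nat_lit 152) (nat_lit 284541908325) (nat_lit 0) (nat_lit 82485266654) (nat_lit 4) (nat_lit 5) (nat_lit 6) (nat_lit 4) (nat_lit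 4) (nat_lit 4) (nat_lit 263) (nat_lit 237) (nat_lit 160)))))) (XT.nd (nat_lit 312) (nat_lit 0) (nat_lit 0) (XT.nd (nat_lit 156) (nat_lit 76) (nat_lit 0) (XT.nd (nat_lit 78) (nat_lit 0) (nat_lit 0) (XT.lf (nat_lit 0) (nat_lit 258072529894) (nat_lit 152) (nat_lit 189908938692) (nat_lit 0) (nat_lit 165158552142) (nat_lit 4) (nat_lit 5) (nat_lit 6) (nat_lit 4) (nat_lit 4) (nat_lit 4) (nat_lit 264) (nat_lit 237) (nat_lit 159)) (XT.lf (nat_lit 0) (nat_lit 353146740263) (nat_lit 152) (nat_lit 81081733352) (nat_lit 0) (nat_lit 260232539129) (nat_lit 4) (nat_lit 5) (nat_lit 6) (nat_lit 4) (nat_lit 4) (nat_lit 4) (nat_lit 265) (nat_lit 237) (nat_lit 158))) (XT.nd (nat_lit 78) (nat_lit 0) (nat_lit 0) (XT.lf (nat_lit 0) (nat_lit 48375672513) (nat_lit 76) (nat_lit 416109227142) (nat_lit 76) (nat_lit 323194831760) (nat_lit 3) (nat_lit 4) (nat_lit 4) (nat_lit 5) (nat_lit 4) (nat_lit 4) (nat_lit 266)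 (nat_lit 237) (nat_lit 157)) (XT.lf (nat_lit 0) (nat_lit 206363581316) (nat_lit 76) (nat_lit 390398265822) (nat_lit 76) (nat_lit 297483701531) (nat_lit 3) (nat_lit 4) (nat_lit 4) (nat_lit 5) (nat_lit 4) (nat_lit 4) (nat_lit 267) (nat_lit 237) (nat_lit 156)))) (XT.nd (nat_lit 156) (nat_lit 0) (nat_lit 0) (XT.nd (nat_lit 78) (nat_lit 0) (nat_lit 0) (XT.lf (nat_lit 0) (nat_lit 388049164169) (nat_lit 76) (nat_lit 360830912444) (nat_lit 76) (nat_lit 267916201274) (nat_lit 3) (nat_lit 4) (nat_lit 4) (nat_lit 5) (nat_lit 4) (nat_lit 4) (nat_lit 268) (nat_lit 237) (nat_lit 155)) (XT.lf (nat_lit 0) (nat_lit 596987138998) (nat_lit 76) (nat_lit 326828675310) (nat_lit 76) (nat_lit 233913836421) (nat_lit 3) (nat_lit 4) (nat_lit 4) (nat_lit 5) (nat_lit 4) (nat_lit 4) (nat_lit 269) (nat_lit 237) (nat_lit 154))) (XT.nd (nat_lit 78) (nat_lit 0) (nat_lit 0) (XT.lf (nat_lit 0) (nat_lit 837265422699) (nat_lit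 76) (nat_lit 287726293261) (nat_lit 76) (nat_lit 194811343310) (nat_lit 3) (nat_lit 4) (nat_lit 4) (nat_lit 5) (nat_lit 4) (nat_lit 4) (nat_lit 270) (nat_lit 237) (nat_lit 153)) (XT.nd (nat_lit 78) (nat_lit 0) (nat_lit 0) (XT.lf (nat_lit 0) (nat_lit 1113585112130) (nat_lit 76) (nat_lit 242758719690) (nat_lit 76) (nat_lit 149843673164) (nat_lit 3) (nat_lit 4) (nat_lit 4) (nat_lit 5) (nat_lit 4) (nat_lit 4) (nat_lit 271) (nat_lit 237) (nat_lit 152)) (XT.lf (nat_lit 0) (nat_lit 1431352462083) (nat_lit 76) (nat_lit 191046154244) (nat_lit 76) (nat_lit 98131023741) (nat_lit 3) (nat_lit 4) (nat_lit 4) (nat_lit 5) (nat_lit 4) (nat_lit 4) (nat_lit 272) (nat_lit 237) (nat_lit 151))))))))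
noncomputable def xc85 : XT := (XT.nd (nat_lit 1404) (nat_lit 0) (nat_lit 0) (XT.nd (nat_lit 702) (nat_lit 0) (nat_lit 0) (XT.nd (nat_lit 312) (nat_lit 0) (nat_lit 0) (XT.nd (nat_lit 156) (nat_lit 76) (nat_lit 0) (XT.nd (nat_lit 78) (nat_lit 76) (nat_lit 0) (XT.lf (nat_lit 0) (nat_lit 1796784659839) (nat_lit 76) (nat_lit 131576829340) (nat_lit 76) (nat_lit 38661625812) (nat_lit 3) (nat_lit 4) (nat_lit 4) (nat_lit 5) (nat_lit 4) (nat_lit 4) (nat_lit 273) (nat_lit 237) (nat_lit 150)) (XT.lf (nat_lit 0) (nat_lit 27081455529) (nat_lit 152) (nat_lit 34690137638) (nat_lit 76) (nat_lit 2188534388722) (nat_lit 2) (nat_lit 5) (nat_lit 4) (nat_lit 5) (nat_lit 3) (nat_lit 4) (nat_lit 274) (nat_lit 237) (nat_lit 149))) (XT.nd (nat_lit 78) (nat_lit 0) (nat_lit 0) (XT.lf (nat_lit 0) (nat_lit 105264870288) (nat_lit 152) (nat_lit 2445090753485) (nat_lit 0) (nat_lit 24468937902) (nat_lit 1) (nat_lit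 5) (nat_lit 3) (nat_lit 4) (nat_lit 1) (nat_lit 4) (nat_lit 275) (nat_lit 237) (nat_lit 148)) (XT.lf (nat_lit 0) (nat_lit 200016898517) (nat_lit 152) (nat_lit 2628056940445) (nat_lit 0) (nat_lit 119220924379) (nat_lit 1) (nat_lit 5) (nat_lit 3) (nat_lit 4) (nat_lit 1) (nat_lit 4) (nat_lit 276) (nat_lit 237) (nat_lit 147)))) (XT.nd (nat_lit 156) (nat_lit 0) (nat_lit 0) (XT.nd (nat_lit 78) (nat_lit 0) (nat_lit 0) (XT.lf (nat_lit 0) (nat_lit 308981642986) (nat_lit 152) (nat_lit 2838468233017) (nat_lit 0) (nat_lit 228185632542) (nat_lit 1) (nat_lit 5) (nat_lit 3) (nat_lit 4) (nat_lit 1) (nat_lit 4) (nat_lit 277) (nat_lit 237) (nat_lit 146)) (XT.lf (nat_lit 0) (nat_lit 434291022609) (nat_lit 152) (nat_lit 3080441373880) (nat_lit 0) (nat_lit 353494980594) (nat_lit 1) (nat_lit 5) (nat_lit 3) (nat_lit 4) (nat_lit 1) (nat_lit 4) (nat_lit 278) (nat_lit 237) (nat_lit 145))) (XT.nd (nat_lit 78)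 (nat_lit 0) (nat_lit 0) (XT.lf (nat_lit 0) (nat_lit 578396742639) (nat_lit 152) (nat_lit 3358710620139) (nat_lit 0) (nat_lit 497600673172) (nat_lit 1) (nat_lit 5) (nat_lit 3) (nat_lit 4) (nat_lit 1) (nat_lit 4) (nat_lit 279) (nat_lit 237) (nat_lit 144)) (XT.nd (nat_lit 78) (nat_lit 0) (nat_lit 0) (XT.lf (nat_lit 0) (nat_lit 744118262816) (nat_lit 152) (nat_lit 3678720370090) (nat_lit 0) (nat_lit 663322169477) (nat_lit 1) (nat_lit 5) (nat_lit 3) (nat_lit 4) (nat_lit 1) (nat_lit 4) (nat_lit 280) (nat_lit 237) (nat_lit 143)) (XT.lf (nat_lit 0) (nat_lit 934697960709) (nat_lit 152) (nat_lit 4046731684058) (nat_lit 0) (nat_lit 853901846611) (nat_lit 1) (nat_lit 5) (nat_lit 3) (nat_lit 4) (nat_lit 1) (nat_lit 4) (nat_lit 281) (nat_lit 237) (nat_lit 142)))))) (XT.nd (nat_lit 312) (nat_lit 0) (nat_lit 0) (XT.nd (nat_lit 156) (nat_lit 0) (nat_lit 0) (XT.nd (nat_lit 78) (nat_lit 0) (nat_lit 0)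 (XT.lf (nat_lit 0) (nat_lit 1153864569536) (nat_lit 152) (nat_lit 4469944783404) (nat_lit 0) (nat_lit 1073068437388) (nat_lit 1) (nat_lit 5) (nat_lit 3) (nat_lit 4) (nat_lit 1) (nat_lit 4) (nat_lit 282) (nat_lit 237) (nat_lit 141)) (XT.lf (nat_lit 0) (nat_lit 1405906131646) (nat_lit 152) (nat_lit 4956639924419) (nat_lit 0) (nat_lit 1325109983801) (nat_lit 1) (nat_lit 5) (nat_lit 3) (nat_lit 4) (nat_lit 1) (nat_lit 4) (nat_lit 283) (nat_lit 237) (nat_lit 140))) (XT.nd (nat_lit 78) (nat_lit 0) (nat_lit 0) (XT.lf (nat_lit 0) (nat_lit 1695753894991) (nat_lit 152) (nat_lit 5516339403340) (nat_lit 0) (nat_lit 1614957733498) (nat_lit 1) (nat_lit 5) (nat_lit 3) (nat_lit 4) (nat_lit 1) (nat_lit 4) (nat_lit 284) (nat_lit 237) (nat_lit 139)) (XT.lf (nat_lit 0) (nat_lit 2029078794073) (nat_lit 152) (nat_lit 6159993862146) (nat_lit 0) (nat_lit 1948282620711) (nat_lit 1) (nat_lit 5) (nat_lit 3) (nat_lit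 4) (nat_lit 1) (nat_lit 4) (nat_lit 285) (nat_lit 237) (nat_lit 138)))) (XT.nd (nat_lit 156) (nat_lit 0) (nat_lit 0) (XT.nd (nat_lit 78) (nat_lit 0) (nat_lit 0) (XT.lf (nat_lit 0) (nat_lit 2412402403003) (nat_lit 152) (nat_lit 6900196540249) (nat_lit 0) (nat_lit 2331606219322) (nat_lit 1) (nat_lit 5) (nat_lit 3) (nat_lit 4) (nat_lit 1) (nat_lit 4) (nat_lit 286) (nat_lit 237) (nat_lit 137)) (XT.lf (nat_lit 0) (nat_lit 2853224531523) (nat_lit 152) (nat_lit 7751429663959) (nat_lit 0) (nat_lit 2772428338867) (nat_lit 1) (nat_lit 5) (nat_lit 3) (nat_lit 4) (nat_lit 1) (nat_lit 4) (nat_lit 287) (nat_lit 237) (nat_lit 136))) (XT.nd (nat_lit 78) (nat_lit 0) (nat_lit 0) (XT.lf (nat_lit 0) (nat_lit 3360169960406) (nat_lit 152) (nat_lit 8730347794392) (nat_lit 0) (nat_lit 3279373759946) (nat_lit 1) (nat_lit 5) (nat_lit 3) (nat_lit 4) (nat_lit 1) (nat_lit 4) (nat_lit 288) (nat_lit 237) (nat_lit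 135)) (XT.nd (nat_lit 78) (nat_lit 0) (nat_lit 0) (XT.lf (nat_lit 0) (nat_lit 3943157187176) (nat_lit 152) (nat_lit 9856103677579) (nat_lit 0) (nat_lit 3862360979930) (nat_lit 1) (nat_lit 5) (nat_lit 3) (nat_lit 4) (nat_lit 1) (nat_lit 4) (nat_lit 289) (nat_lit 237) (nat_lit 134)) (XT.lf (nat_lit 0) (nat_lit 4613592483659) (nat_lit 152) (nat_lit 11150722972104) (nat_lit 0) (nat_lit 4532796270512) (nat_lit 1) (nat_lit 5) (nat_lit 3) (nat_lit 4) (nat_lit 1) (nat_lit 4) (nat_lit 290) (nat_lit 237) (nat_lit 133))))))) (XT.nd (nat_lit 780) (nat_lit 0) (nat_lit 0) (XT.nd (nat_lit 312) (nat_lit 0) (nat_lit 0) (XT.nd (nat_lit 156) (nat_lit 0) (nat_lit 0) (XT.nd (nat_lit 78) (nat_lit 0) (nat_lit 0) (XT.lf (nat_lit 0) (nat_lit 5384593062178) (nat_lit 152) (nat_lit 12639535185903) (nat_lit 0) (nat_lit 5303796843901) (nat_lit 1) (nat_lit 5) (nat_lit 3) (nat_lit 4) (nat_lit 1) (nat_lit 4) (nat_lit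 291) (nat_lit 237) (nat_lit 132)) (XT.lf (nat_lit 0) (nat_lit 6271243716662) (nat_lit 152) (nat_lit 14351669253593) (nat_lit 0) (nat_lit 6190447493922) (nat_lit 1) (nat_lit 5) (nat_lit 3) (nat_lit 4) (nat_lit 1) (nat_lit 4) (nat_lit 292) (nat_lit 237) (nat_lit 131))) (XT.nd (nat_lit 78) (nat_lit 0) (nat_lit 0) (XT.lf (nat_lit 0) (nat_lit 7290891959914) (nat_lit 152) (nat_lit 16320623450413) (nat_lit 0) (nat_lit 7210095733295) (nat_lit 1) (nat_lit 5) (nat_lit 3) (nat_lit 4) (nat_lit 1) (nat_lit 4) (nat_lit 293) (nat_lit 237) (nat_lit 130)) (XT.lf (nat_lit 0) (nat_lit 8463487431477) (nat_lit 152) (nat_lit 18584920793256) (nat_lit 0) (nat_lit 8382691201484) (nat_lit 1) (nat_lit 5) (nat_lit 3) (nat_lit 4) (nat_lit 1) (nat_lit 4) (nat_lit 294) (nat_lit 237) (nat_lit 129)))) (XT.nd (nat_lit 234) (nat_lit 0) (nat_lit 0) (XT.nd (nat_lit 156) (nat_lit 0) (nat_lit 0) (XT.lf (nat_lit 0) (nat_lit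 9811972216665) (nat_lit 152) (nat_lit 21188862751874) (nat_lit 0) (nat_lit 9731175983738) (nat_lit 1) (nat_lit 5) (nat_lit 3) (nat_lit 4) (nat_lit 1) (nat_lit 4) (nat_lit 295) (nat_lit 237) (nat_lit 128)) (XT.lf (nat_lit 0) (nat_lit 13146100829371) (nat_lit 152) (nat_lit 27627109282231) (nat_lit 0) (nat_lit 13065304591675) (nat_lit 1) (nat_lit 5) (nat_lit 3) (nat_lit 4) (nat_lit 1) (nat_lit 4) (nat_lit 297) (nat_lit 237) (nat_lit 126))) (XT.nd (nat_lit 78) (nat_lit 0) (nat_lit 0) (XT.lf (nat_lit 0) (nat_lit 15196977608008) (nat_lit 152) (nat_lit 31587379546956) (nat_lit 0) (nat_lit 15116181368383) (nat_lit 1) (nat_lit 5) (nat_lit 3) (nat_lit 4) (nat_lit 1) (nat_lit 4) (nat_lit 298) (nat_lit 237) (nat_lit 125)) (XT.nd (nat_lit 78) (nat_lit 0) (nat_lit 0) (XT.lf (nat_lit 0) (nat_lit 17555485899375) (nat_lit 152) (nat_lit 36141690359593) (nat_lit 0) (nat_lit 17474689658073) (nat_lit 1)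 (nat_lit 5) (nat_lit 3) (nat_lit 4) (nat_lit 1) (nat_lit 4) (nat_lit 299) (nat_lit 237) (nat_lit 124)) (XT.lf (nat_lit 0) (nat_lit 20267770430912) (nat_lit 152) (nat_lit 41379147801259) (nat_lit 0) (nat_lit 20186974188151) (nat_lit 1) (nat_lit 5) (nat_lit 3) (nat_lit 4) (nat_lit 1) (nat_lit 4) (nat_lit 300) (nat_lit 237) (nat_lit 123)))))) (XT.nd (nat_lit 29718) (nat_lit 0) (nat_lit 1216) (XT.nd (nat_lit 29562) (nat_lit 0) (nat_lit 1368) (XT.nd (nat_lit 29484) (nat_lit 0) (nat_lit 1368) (XT.lf (nat_lit 0) (nat_lit 23386897639106) (nat_lit 152) (nat_lit 47402223865379) (nat_lit 0) (nat_lit 23306101395076) (nat_lit 1) (nat_lit 5) (nat_lit 3) (nat_lit 4) (nat_lit 1) (nat_lit 4) (nat_lit 301) (nat_lit 237) (nat_lit 122)) (XT.lf (nat_lit 0) (nat_lit 2248596885) (nat_lit 380) (nat_lit 11507074608) (nat_lit 380) (nat_lit 11507074608) (nat_lit 19) (nat_lit 3) (nat_lit 24) (nat_lit 3) (nat_lit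 24) (nat_lit 5) (nat_lit 238) (nat_lit 238) (nat_lit 184))) (XT.nd (nat_lit 78) (nat_lit 0) (nat_lit 76) (XT.lf (nat_lit 0) (nat_lit 4857503456) (nat_lit 380) (nat_lit 211964711) (nat_lit 380) (nat_lit 49241850350) (nat_lit 19) (nat_lit 3) (nat_lit 24) (nat_lit 3) (nat_lit 24) (nat_lit 5) (nat_lit 239) (nat_lit 238) (nat_lit 183)) (XT.lf (nat_lit 0) (nat_lit 7365061957) (nat_lit 304) (nat_lit 30853552727) (nat_lit 380) (nat_lit 20132447342) (nat_lit 20) (nat_lit 5) (nat_lit 24) (nat_lit 5) (nat_lit 25) (nat_lit 5) (nat_lit 240) (nat_lit 238) (nat_lit 182)))) (XT.nd (nat_lit 156) (nat_lit 228) (nat_lit 0) (XT.nd (nat_lit 78) (nat_lit 0) (nat_lit 76) (XT.lf (nat_lit 0) (nat_lit 10498165093) (nat_lit 304) (nat_lit 3852697579) (nat_lit 380) (nat_lit 48608513288) (nat_lit 20) (nat_lit 5) (nat_lit 24) (nat_lit 5) (nat_lit 25) (nat_lit 5) (nat_lit 241) (nat_lit 238) (nat_lit 181)) (XT.lf (nat_lit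 0) (nat_lit 15935486802) (nat_lit 304) (nat_lit 38821667203) (nat_lit 76) (nat_lit 13226662864) (nat_lit 21) (nat_lit 5) (nat_lit 25) (nat_lit 5) (nat_lit 22) (nat_lit 5) (nat_lit 242) (nat_lit 238) (nat_lit 180))) (XT.nd (nat_lit 78) (nat_lit 304) (nat_lit 0) (XT.lf (nat_lit 0) (nat_lit 23079958442) (nat_lit 304) (nat_lit 6865318504) (nat_lit 76) (nat_lit 43682929739) (nat_lit 21) (nat_lit 5) (nat_lit 25) (nat_lit 5) (nat_lit 22) (nat_lit 5) (nat_lit 243) (nat_lit 238) (nat_lit 179)) (XT.nd (nat_lit 78) (nat_lit 0) (nat_lit 0) (XT.lf (nat_lit 0) (nat_lit 32658161293) (nat_lit 380) (nat_lit 47119831306) (nat_lit 76) (nat_lit 136966802) (nat_lit 17) (nat_lit 5) (nat_lit 22) (nat_lit 5) (nat_lit 18) (nat_lit 5) (nat_lit 244) (nat_lit 238) (nat_lit 178)) (XT.lf (nat_lit 0) (nat_lit 45472793687) (nat_lit 380) (nat_lit 9360446094) (nat_lit 76) (nat_lit 32041542113) (nat_lit 17) (nat_lit 5)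 (nat_lit 22) (nat_lit 5) (nat_lit 18) (nat_lit 5) (nat_lit 245) (nat_lit 238) (nat_lit 177))))))))
noncomputable def xc86 : XT := (XT.nd (nat_lit 1326) (nat_lit 304) (nat_lit 0) (XT.nd (nat_lit 624) (nat_lit 380) (nat_lit 0) (XT.nd (nat_lit 312) (nat_lit 228) (nat_lit 0) (XT.nd (nat_lit 156) (nat_lit 152) (nat_lit 0) (XT.nd (nat_lit 78) (nat_lit 0) (nat_lit 0) (XT.lf (nat_lit 0) (nat_lit 37389132350) (nat_lit 152) (nat_lit 24366758591) (nat_lit 228) (nat_lit 32890756525) (nat_lit 15) (nat_lit 5) (nat_lit 17) (nat_lit 5) (nat_lit 18) (nat_lit 5) (nat_lit 246) (nat_lit 238) (nat_lit 176)) (XT.lf (nat_lit 0) (nat_lit 81434063445) (nat_lit 228) (nat_lit 11775375791) (nat_lit 76) (nat_lit 10231970915) (nat_lit 15) (nat_lit 5) (nat_lit 18) (nat_lit 5) (nat_lit 16) (nat_lit 4) (nat_lit 247) (nat_lit 238) (nat_lit 175))) (XT.nd (nat_lit 78) (nat_lit 76) (nat_lit 0) (XT.lf (nat_lit 0) (nat_lit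 43213775868) (nat_lit 76) (nat_lit 63798337657) (nat_lit 152) (nat_lit 6101058674) (nat_lit 14) (nat_lit 5) (nat_lit 15) (nat_lit 5) (nat_lit 16) (nat_lit 4) (nat_lit 248) (nat_lit 238) (nat_lit 174)) (XT.lf (nat_lit 0) (nat_lit 11749154354) (nat_lit 152) (nat_lit 16905029557) (nat_lit 76) (nat_lit 95409300269) (nat_lit 13) (nat_lit 5) (nat_lit 15) (nat_lit 5) (nat_lit 14) (nat_lit 5) (nat_lit 249) (nat_lit 238) (nat_lit 173)))) (XT.nd (nat_lit 156) (nat_lit 76) (nat_lit 0) (XT.nd (nat_lit 78) (nat_lit 0) (nat_lit 0) (XT.lf (nat_lit 0) (nat_lit 34234922838) (nat_lit 228) (nat_lit 88889013135) (nat_lit 76) (nat_lit 13101434713) (nat_lit 11) (nat_lit 5) (nat_lit 14) (nat_lit 5) (nat_lit 12) (nat_lit 4) (nat_lit 250) (nat_lit 238) (nat_lit 172)) (XT.lf (nat_lit 0) (nat_lit 62382542866) (nat_lit 228) (nat_lit 28373720412) (nat_lit 76) (nat_lit 59111933362) (nat_lit 11) (nat_lit 5) (nat_lit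 14) (nat_lit 5) (nat_lit 12) (nat_lit 4) (nat_lit 251) (nat_lit 238) (nat_lit 171))) (XT.nd (nat_lit 78) (nat_lit 0) (nat_lit 0) (XT.lf (nat_lit 0) (nat_lit 45245151143) (nat_lit 76) (nat_lit 51379572765) (nat_lit 152) (nat_lit 68651863715) (nat_lit 10) (nat_lit 5) (nat_lit 11) (nat_lit 5) (nat_lit 12) (nat_lit 4) (nat_lit 252) (nat_lit 238) (nat_lit 170)) (XT.lf (nat_lit 0) (nat_lit 133094000990) (nat_lit 76) (nat_lit 4391388240) (nat_lit 152) (nat_lit 45288527791) (nat_lit 10) (nat_lit 5) (nat_lit 11) (nat_lit 5) (nat_lit 12) (nat_lit 4) (nat_lit 253) (nat_lit 238) (nat_lit 169))))) (XT.nd (nat_lit 312) (nat_lit 152) (nat_lit 0) (XT.nd (nat_lit 156) (nat_lit 76) (nat_lit 0) (XT.nd (nat_lit 78) (nat_lit 76) (nat_lit 0) (XT.lf (nat_lit 0) (nat_lit 32017491140) (nat_lit 76) (nat_lit 155838227874) (nat_lit 76) (nat_lit 14533045016) (nat_lit 9) (nat_lit 4) (nat_lit 10) (nat_lit 5) (nat_lit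 10) (nat_lit 4) (nat_lit 254) (nat_lit 238) (nat_lit 168)) (XT.lf (nat_lit 0) (nat_lit 21909604877) (nat_lit 152) (nat_lit 94200571637) (nat_lit 76) (nat_lit 108266930887) (nat_lit 8) (nat_lit 5) (nat_lit 10) (nat_lit 5) (nat_lit 9) (nat_lit 4) (nat_lit 255) (nat_lit 238) (nat_lit 167))) (XT.nd (nat_lit 78) (nat_lit 76) (nat_lit 0) (XT.lf (nat_lit 0) (nat_lit 62329969267) (nat_lit 152) (nat_lit 7297691911) (nat_lit 76) (nat_lit 179932351944) (nat_lit 8) (nat_lit 5) (nat_lit 10) (nat_lit 5) (nat_lit 9) (nat_lit 4) (nat_lit 256) (nat_lit 238) (nat_lit 166)) (XT.lf (nat_lit 0) (nat_lit 101692820523) (nat_lit 76) (nat_lit 11330775845) (nat_lit 152) (nat_lit 164865228781) (nat_lit 7) (nat_lit 5) (nat_lit 8) (nat_lit 5) (nat_lit 9) (nat_lit 4) (nat_lit 257) (nat_lit 238) (nat_lit 165)))) (XT.nd (nat_lit 156) (nat_lit 76) (nat_lit 0) (XT.nd (nat_lit 78) (nat_lit 76) (nat_lit 0) (XT.lf (nat_lit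 0) (nat_lit 174027106777) (nat_lit 152) (nat_lit 84883910120) (nat_lit 0) (nat_lit 51150067642) (nat_lit 7) (nat_lit 5) (nat_lit 9) (nat_lit 4) (nat_lit 7) (nat_lit 4) (nat_lit 258) (nat_lit 238) (nat_lit 164)) (XT.lf (nat_lit 0) (nat_lit 21498306200) (nat_lit 76) (nat_lit 224112027609) (nat_lit 76) (nat_lit 101234471774) (nat_lit 6) (nat_lit 4) (nat_lit 7) (nat_lit 5) (nat_lit 7) (nat_lit 4) (nat_lit 259) (nat_lit 238) (nat_lit 163))) (XT.nd (nat_lit 78) (nat_lit 76) (nat_lit 0) (XT.lf (nat_lit 0) (nat_lit 153376637628) (nat_lit 76) (nat_lit 178990983476) (nat_lit 76) (nat_lit 56112978337) (nat_lit 6) (nat_lit 4) (nat_lit 7) (nat_lit 5) (nat_lit 7) (nat_lit 4) (nat_lit 260) (nat_lit 238) (nat_lit 162)) (XT.nd (nat_lit 78) (nat_lit 76) (nat_lit 0) (XT.lf (nat_lit 0) (nat_lit 305035839353) (nat_lit 76) (nat_lit 127102194945) (nat_lit 76) (nat_lit 4223799107) (nat_lit 6) (nat_lit 4) (nat_lit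 7) (nat_lit 5) (nat_lit 7) (nat_lit 4) (nat_lit 261) (nat_lit 238) (nat_lit 161)) (XT.lf (nat_lit 0) (nat_lit 50511898869) (nat_lit 152) (nat_lit 14278153005) (nat_lit 76) (nat_lit 426290863042) (nat_lit 5) (nat_lit 5) (nat_lit 7) (nat_lit 5) (nat_lit 6) (nat_lit 4) (nat_lit 262) (nat_lit 238) (nat_lit 160))))))) (XT.nd (nat_lit 702) (nat_lit 152) (nat_lit 0) (XT.nd (nat_lit 312) (nat_lit 76) (nat_lit 0) (XT.nd (nat_lit 156) (nat_lit 0) (nat_lit 0) (XT.nd (nat_lit 78) (nat_lit 0) (nat_lit 0) (XT.lf (nat_lit 0) (nat_lit 119039374798) (nat_lit 152) (nat_lit 421848192021) (nat_lit 0) (nat_lit 12188043493) (nat_lit 4) (nat_lit 5) (nat_lit 6) (nat_lit 4) (nat_lit 4) (nat_lit 4) (nat_lit 263) (nat_lit 238) (nat_lit 159)) (XT.lf (nat_lit 0) (nat_lit 201712748169) (nat_lit 152) (nat_lit 327215552499) (nat_lit 0) (nat_lit 94861193481) (nat_lit 4) (nat_lit 5) (nat_lit 6) (nat_lit 4) (nat_lit 4)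 (nat_lit 4) (nat_lit 264) (nat_lit 238) (nat_lit 158))) (XT.nd (nat_lit 78) (nat_lit 0) (nat_lit 0) (XT.lf (nat_lit 0) (nat_lit 296786811576) (nat_lit 152) (nat_lit 218388634213) (nat_lit 0) (nat_lit 189935062641) (nat_lit 4) (nat_lit 5) (nat_lit 6) (nat_lit 4) (nat_lit 4) (nat_lit 4) (nat_lit 265) (nat_lit 238) (nat_lit 157)) (XT.lf (nat_lit 0) (nat_lit 406121709736) (nat_lit 152) (nat_lit 93238214849) (nat_lit 0) (nat_lit 299269791891) (nat_lit 4) (nat_lit 5) (nat_lit 6) (nat_lit 4) (nat_lit 4) (nat_lit 4) (nat_lit 266) (nat_lit 238) (nat_lit 156)))) (XT.nd (nat_lit 156) (nat_lit 0) (nat_lit 0) (XT.nd (nat_lit 78) (nat_lit 0) (nat_lit 0) (XT.lf (nat_lit 0) (nat_lit 55637539237) (nat_lit 76) (nat_lit 478522896316) (nat_lit 76) (nat_lit 371670831593) (nat_lit 3) (nat_lit 4) (nat_lit 4) (nat_lit 5) (nat_lit 4) (nat_lit 4) (nat_lit 267) (nat_lit 238) (nat_lit 155)) (XT.lf (nat_lit 0) (nat_lit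 237322914903) (nat_lit 76) (nat_lit 448955644915) (nat_lit 76) (nat_lit 342103452472) (nat_lit 3) (nat_lit 4) (nat_lit 4) (nat_lit 5) (nat_lit 4) (nat_lit 4) (nat_lit 268) (nat_lit 238) (nat_lit 154))) (XT.nd (nat_lit 78) (nat_lit 0) (nat_lit 0) (XT.lf (nat_lit 0) (nat_lit 446260709568) (nat_lit 76) (nat_lit 414953496458) (nat_lit 76) (nat_lit 308101192954) (nat_lit 3) (nat_lit 4) (nat_lit 4) (nat_lit 5) (nat_lit 4) (nat_lit 4) (nat_lit 269) (nat_lit 238) (nat_lit 153)) (XT.nd (nat_lit 78) (nat_lit 0) (nat_lit 0) (XT.lf (nat_lit 0) (nat_lit 686538836606) (nat_lit 76) (nat_lit 375851191518) (nat_lit 76) (nat_lit 268998791439) (nat_lit 3) (nat_lit 4) (nat_lit 4) (nat_lit 5) (nat_lit 4) (nat_lit 4) (nat_lit 270) (nat_lit 238) (nat_lit 152)) (XT.lf (nat_lit 0) (nat_lit 962858389808) (nat_lit 76) (nat_lit 330883684999) (nat_lit 76) (nat_lit 224031200942) (nat_lit 3) (nat_lit 4) (nat_lit 4)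 (nat_lit 5) (nat_lit 4) (nat_lit 4) (nat_lit 271) (nat_lit 238) (nat_lit 151)))))) (XT.nd (nat_lit 312) (nat_lit 76) (nat_lit 0) (XT.nd (nat_lit 156) (nat_lit 76) (nat_lit 0) (XT.nd (nat_lit 78) (nat_lit 0) (nat_lit 0) (XT.lf (nat_lit 0) (nat_lit 1280625621301) (nat_lit 76) (nat_lit 279171177859) (nat_lit 76) (nat_lit 172318620778) (nat_lit 3) (nat_lit 4) (nat_lit 4) (nat_lit 5) (nat_lit 4) (nat_lit 4) (nat_lit 272) (nat_lit 238) (nat_lit 150)) (XT.lf (nat_lit 0) (nat_lit 1646057716048) (nat_lit 76) (nat_lit 219701903656) (nat_lit 76) (nat_lit 112849283075) (nat_lit 3) (nat_lit 4) (nat_lit 4) (nat_lit 5) (nat_lit 4) (nat_lit 4) (nat_lit 273) (nat_lit 238) (nat_lit 149))) (XT.nd (nat_lit 78) (nat_lit 76) (nat_lit 0) (XT.lf (nat_lit 0) (nat_lit 2066304432427) (nat_lit 76) (nat_lit 151312333111) (nat_lit 76) (nat_lit 44459657312) (nat_lit 3) (nat_lit 4) (nat_lit 4) (nat_lit 5) (nat_lit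 4) (nat_lit 4) (nat_lit 274) (nat_lit 238) (nat_lit 148)) (XT.lf (nat_lit 0) (nat_lit 31144634239) (nat_lit 152) (nat_lit 39891760197) (nat_lit 76) (nat_lit 2516815339588) (nat_lit 2) (nat_lit 5) (nat_lit 4) (nat_lit 5) (nat_lit 3) (nat_lit 4) (nat_lit 275) (nat_lit 238) (nat_lit 147)))) (XT.nd (nat_lit 156) (nat_lit 0) (nat_lit 0) (XT.nd (nat_lit 78) (nat_lit 0) (nat_lit 0) (XT.lf (nat_lit 0) (nat_lit 121055548304) (nat_lit 152) (nat_lit 2811852454565) (nat_lit 0) (nat_lit 28140099987) (nat_lit 1) (nat_lit 5) (nat_lit 3) (nat_lit 4) (nat_lit 1) (nat_lit 4) (nat_lit 276) (nat_lit 238) (nat_lit 146)) (XT.lf (nat_lit 0) (nat_lit 230020257184) (nat_lit 152) (nat_lit 3022263818953) (nat_lit 0) (nat_lit 137104777297) (nat_lit 1) (nat_lit 5) (nat_lit 3) (nat_lit 4) (nat_lit 1) (nat_lit 4) (nat_lit 277) (nat_lit 238) (nat_lit 145))) (XT.nd (nat_lit 78) (nat_lit 0) (nat_lit 0) (XT.lf (nat_lit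 0) (nat_lit 355329605860) (nat_lit 152) (nat_lit 3264237022266) (nat_lit 0) (nat_lit 262414098520) (nat_lit 1) (nat_lit 5) (nat_lit 3) (nat_lit 4) (nat_lit 1) (nat_lit 4) (nat_lit 278) (nat_lit 238) (nat_lit 144)) (XT.nd (nat_lit 78) (nat_lit 0) (nat_lit 0) (XT.lf (nat_lit 0) (nat_lit 499435298980) (nat_lit 152) (nat_lit 3542506322829) (nat_lit 0) (nat_lit 406519767768) (nat_lit 1) (nat_lit 5) (nat_lit 3) (nat_lit 4) (nat_lit 1) (nat_lit 4) (nat_lit 279) (nat_lit 238) (nat_lit 143)) (XT.lf (nat_lit 0) (nat_lit 665156795756) (nat_lit 152) (nat_lit 3862516120000) (nat_lit 0) (nat_lit 572241243786) (nat_lit 1) (nat_lit 5) (nat_lit 3) (nat_lit 4) (nat_lit 1) (nat_lit 4) (nat_lit 280) (nat_lit 238) (nat_lit 142))))))))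
noncomputable def xc87 : XT := (XT.nd (nat_lit 1482) (nat_lit 0) (nat_lit 0) (XT.nd (nat_lit 702) (nat_lit 0) (nat_lit 0) (XT.nd (nat_lit 312) (nat_lit 0) (nat_lit 0) (XT.nd (nat_lit 156) (nat_lit 0) (nat_lit 0) (XT.nd (nat_lit 78) (nat_lit 0) (nat_lit 0) (XT.lf (nat_lit 0) (nat_lit 855736473300) (nat_lit 152) (nat_lit 4230527475030) (nat_lit 0) (nat_lit 762820903280) (nat_lit 1) (nat_lit 5) (nat_lit 3) (nat_lit 4) (nat_lit 1) (nat_lit 4) (nat_lit 281) (nat_lit 238) (nat_lit 141)) (XT.lf (nat_lit 0) (nat_lit 1074903064434) (nat_lit 152) (nat_lit 4653740610082) (nat_lit 0) (nat_lit 981987478717) (nat_lit 1) (nat_lit 5) (nat_lit 3) (nat_lit 4) (nat_lit 1) (nat_lit 4) (nat_lit 282) (nat_lit 238) (nat_lit 140))) (XT.nd (nat_lit 78) (nat_lit 0) (nat_lit 0) (XT.lf (nat_lit 0) (nat_lit 1326944611157) (nat_lit 152) (nat_lit 5140435782145) (nat_lit 0) (nat_lit 1234029011791) (nat_lit 1) (nat_lit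 5) (nat_lit 3) (nat_lit 4) (nat_lit 1) (nat_lit 4) (nat_lit 283) (nat_lit 238) (nat_lit 139)) (XT.lf (nat_lit 0) (nat_lit 1616792361123) (nat_lit 152) (nat_lit 5700135288064) (nat_lit 0) (nat_lit 1523876749889) (nat_lit 1) (nat_lit 5) (nat_lit 3) (nat_lit 4) (nat_lit 1) (nat_lit 4) (nat_lit 284) (nat_lit 238) (nat_lit 138)))) (XT.nd (nat_lit 156) (nat_lit 0) (nat_lit 0) (XT.nd (nat_lit 78) (nat_lit 0) (nat_lit 0) (XT.lf (nat_lit 0) (nat_lit 1950117248571) (nat_lit 152) (nat_lit 6343789770348) (nat_lit 0) (nat_lit 1857201627016) (nat_lit 1) (nat_lit 5) (nat_lit 3) (nat_lit 4) (nat_lit 1) (nat_lit 4) (nat_lit 285) (nat_lit 238) (nat_lit 137)) (XT.lf (nat_lit 0) (nat_lit 2333440847385) (nat_lit 152) (nat_lit 7083992468865) (nat_lit 0) (nat_lit 2240525216856) (nat_lit 1) (nat_lit 5) (nat_lit 3) (nat_lit 4) (nat_lit 1) (nat_lit 4) (nat_lit 286) (nat_lit 238) (nat_lit 136))) (XT.nd (nat_lit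 78) (nat_lit 0) (nat_lit 0) (XT.lf (nat_lit 0) (nat_lit 2774262967107) (nat_lit 152) (nat_lit 7935225610327) (nat_lit 0) (nat_lit 2681347328774) (nat_lit 1) (nat_lit 5) (nat_lit 3) (nat_lit 4) (nat_lit 1) (nat_lit 4) (nat_lit 287) (nat_lit 238) (nat_lit 135)) (XT.nd (nat_lit 78) (nat_lit 0) (nat_lit 0) (XT.lf (nat_lit 0) (nat_lit 3281208388341) (nat_lit 152) (nat_lit 8914143756197) (nat_lit 0) (nat_lit 3188292743222) (nat_lit 1) (nat_lit 5) (nat_lit 3) (nat_lit 4) (nat_lit 1) (nat_lit 4) (nat_lit 288) (nat_lit 238) (nat_lit 134)) (XT.lf (nat_lit 0) (nat_lit 3864195608458) (nat_lit 152) (nat_lit 10039899652807) (nat_lit 0) (nat_lit 3771279957439) (nat_lit 1) (nat_lit 5) (nat_lit 3) (nat_lit 4) (nat_lit 1) (nat_lit 4) (nat_lit 289) (nat_lit 238) (nat_lit 133)))))) (XT.nd (nat_lit 312) (nat_lit 0) (nat_lit 0) (XT.nd (nat_lit 156) (nat_lit 0) (nat_lit 0) (XT.nd (nat_lit 78) (nat_lit 0) (nat_lit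 0) (XT.lf (nat_lit 0) (nat_lit 4534630899157) (nat_lit 152) (nat_lit 11334518959004) (nat_lit 0) (nat_lit 4441715243007) (nat_lit 1) (nat_lit 5) (nat_lit 3) (nat_lit 4) (nat_lit 1) (nat_lit 4) (nat_lit 290) (nat_lit 238) (nat_lit 132)) (XT.lf (nat_lit 0) (nat_lit 5305631472647) (nat_lit 152) (nat_lit 12823331182952) (nat_lit 0) (nat_lit 5212715812035) (nat_lit 1) (nat_lit 5) (nat_lit 3) (nat_lit 4) (nat_lit 1) (nat_lit 4) (nat_lit 291) (nat_lit 238) (nat_lit 131))) (XT.nd (nat_lit 78) (nat_lit 0) (nat_lit 0) (XT.lf (nat_lit 0) (nat_lit 6192282122756) (nat_lit 152) (nat_lit 14535465259469) (nat_lit 0) (nat_lit 6099366458265) (nat_lit 1) (nat_lit 5) (nat_lit 3) (nat_lit 4) (nat_lit 1) (nat_lit 4) (nat_lit 292) (nat_lit 238) (nat_lit 130)) (XT.lf (nat_lit 0) (nat_lit 7211930362206) (nat_lit 152) (nat_lit 16504419463963) (nat_lit 0) (nat_lit 7119014694340) (nat_lit 1) (nat_lit 5) (nat_lit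 3) (nat_lit 4) (nat_lit 1) (nat_lit 4) (nat_lit 293) (nat_lit 238) (nat_lit 129)))) (XT.nd (nat_lit 234) (nat_lit 0) (nat_lit 0) (XT.nd (nat_lit 78) (nat_lit 0) (nat_lit 0) (XT.lf (nat_lit 0) (nat_lit 8384525830462) (nat_lit 152) (nat_lit 18768716813480) (nat_lit 0) (nat_lit 8291610159662) (nat_lit 1) (nat_lit 5) (nat_lit 3) (nat_lit 4) (nat_lit 1) (nat_lit 4) (nat_lit 294) (nat_lit 238) (nat_lit 128)) (XT.lf (nat_lit 0) (nat_lit 9733010612774) (nat_lit 152) (nat_lit 21372658777901) (nat_lit 0) (nat_lit 9640094939423) (nat_lit 1) (nat_lit 5) (nat_lit 3) (nat_lit 4) (nat_lit 1) (nat_lit 4) (nat_lit 295) (nat_lit 238) (nat_lit 127))) (XT.nd (nat_lit 78) (nat_lit 0) (nat_lit 0) (XT.lf (nat_lit 0) (nat_lit 13067139220805) (nat_lit 152) (nat_lit 27810905317693) (nat_lit 0) (nat_lit 12974223543307) (nat_lit 1) (nat_lit 5) (nat_lit 3) (nat_lit 4) (nat_lit 1) (nat_lit 4) (nat_lit 297) (nat_lit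 238) (nat_lit 125)) (XT.nd (nat_lit 78) (nat_lit 0) (nat_lit 0) (XT.lf (nat_lit 0) (nat_lit 15118015997551) (nat_lit 152) (nat_lit 31771175586233) (nat_lit 0) (nat_lit 15025100318376) (nat_lit 1) (nat_lit 5) (nat_lit 3) (nat_lit 4) (nat_lit 1) (nat_lit 4) (nat_lit 298) (nat_lit 238) (nat_lit 124)) (XT.lf (nat_lit 0) (nat_lit 17476524287274) (nat_lit 152) (nat_lit 36325486402188) (nat_lit 0) (nat_lit 17383608606640) (nat_lit 1) (nat_lit 5) (nat_lit 3) (nat_lit 4) (nat_lit 1) (nat_lit 4) (nat_lit 299) (nat_lit 238) (nat_lit 123))))))) (XT.nd (nat_lit 30264) (nat_lit 0) (nat_lit 608) (XT.nd (nat_lit 29874) (nat_lit 0) (nat_lit 1216) (XT.nd (nat_lit 29718) (nat_lit 0) (nat_lit 1368) (XT.nd (nat_lit 29640) (nat_lit 0) (nat_lit 1368) (XT.lf (nat_lit 0) (nat_lit 20188808817381) (nat_lit 152) (nat_lit 41562943846740) (nat_lit 0) (nat_lit 20095893135479) (nat_lit 1) (nat_lit 5) (nat_lit 3) (nat_lit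 4) (nat_lit 1) (nat_lit 4) (nat_lit 300) (nat_lit 238) (nat_lit 122)) (XT.lf (nat_lit 0) (nat_lit 2607953354) (nat_lit 380) (nat_lit 13220383765) (nat_lit 380) (nat_lit 13220383765) (nat_lit 19) (nat_lit 3) (nat_lit 24) (nat_lit 3) (nat_lit 24) (nat_lit 5) (nat_lit 239) (nat_lit 239) (nat_lit 182))) (XT.nd (nat_lit 78) (nat_lit 0) (nat_lit 76) (XT.lf (nat_lit 0) (nat_lit 5624506254) (nat_lit 380) (nat_lit 221581967) (nat_lit 380) (nat_lit 56605950451) (nat_lit 19) (nat_lit 3) (nat_lit 24) (nat_lit 3) (nat_lit 24) (nat_lit 5) (nat_lit 240) (nat_lit 239) (nat_lit 181)) (XT.lf (nat_lit 0) (nat_lit 8503527814) (nat_lit 304) (nat_lit 35454545269) (nat_lit 380) (nat_lit 23140400062) (nat_lit 20) (nat_lit 5) (nat_lit 24) (nat_lit 5) (nat_lit 25) (nat_lit 5) (nat_lit 241) (nat_lit 239) (nat_lit 180)))) (XT.nd (nat_lit 156) (nat_lit 228) (nat_lit 0) (XT.nd (nat_lit 78) (nat_lit 0) (nat_lit 76)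 (XT.lf (nat_lit 0) (nat_lit 12102199912) (nat_lit 304) (nat_lit 4407088853) (nat_lit 380) (nat_lit 55889429949) (nat_lit 20) (nat_lit 5) (nat_lit 24) (nat_lit 5) (nat_lit 25) (nat_lit 5) (nat_lit 242) (nat_lit 239) (nat_lit 179)) (XT.lf (nat_lit 0) (nat_lit 18352061745) (nat_lit 304) (nat_lit 44618200457) (nat_lit 76) (nat_lit 15207044078) (nat_lit 21) (nat_lit 5) (nat_lit 25) (nat_lit 5) (nat_lit 22) (nat_lit 5) (nat_lit 243) (nat_lit 239) (nat_lit 178))) (XT.nd (nat_lit 78) (nat_lit 304) (nat_lit 0) (XT.lf (nat_lit 0) (nat_lit 26564779968) (nat_lit 304) (nat_lit 7871884256) (nat_lit 76) (nat_lit 50232222926) (nat_lit 21) (nat_lit 5) (nat_lit 25) (nat_lit 5) (nat_lit 22) (nat_lit 5) (nat_lit 244) (nat_lit 239) (nat_lit 177)) (XT.nd (nat_lit 78) (nat_lit 0) (nat_lit 0) (XT.lf (nat_lit 0) (nat_lit 37577712257) (nat_lit 380) (nat_lit 54162463098) (nat_lit 76) (nat_lit 158794050) (nat_lit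 17) (nat_lit 5) (nat_lit 22) (nat_lit 5) (nat_lit 18) (nat_lit 5) (nat_lit 245) (nat_lit 239) (nat_lit 176)) (XT.lf (nat_lit 0) (nat_lit 52311822974) (nat_lit 380) (nat_lit 10742475700) (nat_lit 76) (nat_lit 36848888411) (nat_lit 17) (nat_lit 5) (nat_lit 22) (nat_lit 5) (nat_lit 18) (nat_lit 5) (nat_lit 246) (nat_lit 239) (nat_lit 175)))))) (XT.nd (nat_lit 312) (nat_lit 304) (nat_lit 0) (XT.nd (nat_lit 156) (nat_lit 152) (nat_lit 0) (XT.nd (nat_lit 78) (nat_lit 0) (nat_lit 0) (XT.lf (nat_lit 0) (nat_lit 43018537815) (nat_lit 152) (nat_lit 28017355838) (nat_lit 228) (nat_lit 37805174979) (nat_lit 15) (nat_lit 5) (nat_lit 17) (nat_lit 5) (nat_lit 18) (nat_lit 5) (nat_lit 247) (nat_lit 239) (nat_lit 174)) (XT.lf (nat_lit 0) (nat_lit 93663783352) (nat_lit 228) (nat_lit 13521309389) (nat_lit 76) (nat_lit 11770265118) (nat_lit 15) (nat_lit 5) (nat_lit 18) (nat_lit 5) (nat_lit 16) (nat_lit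 4) (nat_lit 248) (nat_lit 239) (nat_lit 173))) (XT.nd (nat_lit 78) (nat_lit 76) (nat_lit 0) (XT.lf (nat_lit 0) (nat_lit 49715288984) (nat_lit 76) (nat_lit 73362151505) (nat_lit 152) (nat_lit 7000618219) (nat_lit 14) (nat_lit 5) (nat_lit 15) (nat_lit 5) (nat_lit 16) (nat_lit 4) (nat_lit 249) (nat_lit 239) (nat_lit 172)) (XT.lf (nat_lit 0) (nat_lit 13523884466) (nat_lit 152) (nat_lit 19422618664) (nat_lit 76) (nat_lit 109724602623) (nat_lit 13) (nat_lit 5) (nat_lit 15) (nat_lit 5) (nat_lit 14) (nat_lit 5) (nat_lit 250) (nat_lit 239) (nat_lit 171)))) (XT.nd (nat_lit 156) (nat_lit 152) (nat_lit 0) (XT.nd (nat_lit 78) (nat_lit 0) (nat_lit 0) (XT.lf (nat_lit 0) (nat_lit 39381867774) (nat_lit 228) (nat_lit 102203508018) (nat_lit 76) (nat_lit 15072003208) (nat_lit 11) (nat_lit 5) (nat_lit 14) (nat_lit 5) (nat_lit 12) (nat_lit 4) (nat_lit 251) (nat_lit 239) (nat_lit 170)) (XT.lf (nat_lit 0) (nat_lit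 71750103871) (nat_lit 228) (nat_lit 32613381007) (nat_lit 76) (nat_lit 67983378400) (nat_lit 11) (nat_lit 5) (nat_lit 14) (nat_lit 5) (nat_lit 12) (nat_lit 4) (nat_lit 252) (nat_lit 239) (nat_lit 169))) (XT.nd (nat_lit 78) (nat_lit 76) (nat_lit 0) (XT.lf (nat_lit 0) (nat_lit 52047575942) (nat_lit 76) (nat_lit 59080356477) (nat_lit 152) (nat_lit 78938687121) (nat_lit 10) (nat_lit 5) (nat_lit 11) (nat_lit 5) (nat_lit 12) (nat_lit 4) (nat_lit 253) (nat_lit 239) (nat_lit 168)) (XT.nd (nat_lit 78) (nat_lit 76) (nat_lit 0) (XT.lf (nat_lit 0) (nat_lit 153071711685) (nat_lit 76) (nat_lit 5044746734) (nat_lit 152) (nat_lit 52072279871) (nat_lit 10) (nat_lit 5) (nat_lit 11) (nat_lit 5) (nat_lit 12) (nat_lit 4) (nat_lit 254) (nat_lit 239) (nat_lit 167)) (XT.lf (nat_lit 0) (nat_lit 36834103969) (nat_lit 76) (nat_lit 179207928094) (nat_lit 76) (nat_lit 16703829672) (nat_lit 9) (nat_lit 4) (nat_lit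 10) (nat_lit 5) (nat_lit 10) (nat_lit 4) (nat_lit 255) (nat_lit 239) (nat_lit 166))))))))
noncomputable def xc88 : XT := (XT.nd (nat_lit 1326) (nat_lit 152) (nat_lit 0) (XT.nd (nat_lit 624) (nat_lit 152) (nat_lit 0) (XT.nd (nat_lit 312) (nat_lit 152) (nat_lit 0) (XT.nd (nat_lit 156) (nat_lit 76) (nat_lit 0) (XT.nd (nat_lit 78) (nat_lit 0) (nat_lit 0) (XT.lf (nat_lit 0) (nat_lit 25203311290) (nat_lit 152) (nat_lit 108317764982) (nat_lit 76) (nat_lit 124511489527) (nat_lit 8) (nat_lit 5) (nat_lit 10) (nat_lit 5) (nat_lit 9) (nat_lit 4) (nat_lit 256) (nat_lit 239) (nat_lit 165)) (XT.lf (nat_lit 0) (nat_lit 71685782640) (nat_lit 152) (nat_lit 8381134914) (nat_lit 76) (nat_lit 206926134307) (nat_lit 8) (nat_lit 5) (nat_lit 10) (nat_lit 5) (nat_lit 9) (nat_lit 4) (nat_lit 257) (nat_lit 239) (nat_lit 164))) (XT.nd (nat_lit 78) (nat_lit 0) (nat_lit 0) (XT.lf (nat_lit 0) (nat_lit 116957444804)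 (nat_lit 76) (nat_lit 13025628032) (nat_lit 152) (nat_lit 189588172029) (nat_lit 7) (nat_lit 5) (nat_lit 8) (nat_lit 5) (nat_lit 9) (nat_lit 4) (nat_lit 258) (nat_lit 239) (nat_lit 163)) (XT.lf (nat_lit 0) (nat_lit 200136506957) (nat_lit 152) (nat_lit 97606576652) (nat_lit 0) (nat_lit 58826351743) (nat_lit 7) (nat_lit 5) (nat_lit 9) (nat_lit 4) (nat_lit 7) (nat_lit 4) (nat_lit 259) (nat_lit 239) (nat_lit 162)))) (XT.nd (nat_lit 156) (nat_lit 76) (nat_lit 0) (XT.nd (nat_lit 78) (nat_lit 0) (nat_lit 0) (XT.lf (nat_lit 0) (nat_lit 24732521207) (nat_lit 76) (nat_lit 257724393169) (nat_lit 76) (nat_lit 116413847257) (nat_lit 6) (nat_lit 4) (nat_lit 7) (nat_lit 5) (nat_lit 7) (nat_lit 4) (nat_lit 260) (nat_lit 239) (nat_lit 161)) (XT.lf (nat_lit 0) (nat_lit 176391367253) (nat_lit 76) (nat_lit 205835771362) (nat_lit 76) (nat_lit 64524885711) (nat_lit 6) (nat_lit 4) (nat_lit 7) (nat_lit 5) (nat_lit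 7) (nat_lit 4) (nat_lit 261) (nat_lit 239) (nat_lit 160))) (XT.nd (nat_lit 78) (nat_lit 76) (nat_lit 0) (XT.lf (nat_lit 0) (nat_lit 350798375239) (nat_lit 76) (nat_lit 146164167982) (nat_lit 76) (nat_lit 4852986907) (nat_lit 6) (nat_lit 4) (nat_lit 7) (nat_lit 5) (nat_lit 7) (nat_lit 4) (nat_lit 262) (nat_lit 239) (nat_lit 159)) (XT.lf (nat_lit 0) (nat_lit 58092154956) (nat_lit 152) (nat_lit 16413304809) (nat_lit 76) (nat_lit 490237065863) (nat_lit 5) (nat_lit 5) (nat_lit 7) (nat_lit 5) (nat_lit 6) (nat_lit 4) (nat_lit 263) (nat_lit 239) (nat_lit 158))))) (XT.nd (nat_lit 312) (nat_lit 76) (nat_lit 0) (XT.nd (nat_lit 156) (nat_lit 0) (nat_lit 0) (XT.nd (nat_lit 78) (nat_lit 0) (nat_lit 0) (XT.lf (nat_lit 0) (nat_lit 136898683216) (nat_lit 152) (nat_lit 485118775542) (nat_lit 0) (nat_lit 14018977694) (nat_lit 4) (nat_lit 5) (nat_lit 6) (nat_lit 4) (nat_lit 4) (nat_lit 4) (nat_lit 264)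 (nat_lit 239) (nat_lit 157)) (XT.lf (nat_lit 0) (nat_lit 231972618828) (nat_lit 152) (nat_lit 376292106867) (nat_lit 0) (nat_lit 109092744397) (nat_lit 4) (nat_lit 5) (nat_lit 6) (nat_lit 4) (nat_lit 4) (nat_lit 4) (nat_lit 265) (nat_lit 239) (nat_lit 156))) (XT.nd (nat_lit 78) (nat_lit 0) (nat_lit 0) (XT.lf (nat_lit 0) (nat_lit 341307405863) (nat_lit 152) (nat_lit 251141904557) (nat_lit 0) (nat_lit 218427384553) (nat_lit 4) (nat_lit 5) (nat_lit 6) (nat_lit 4) (nat_lit 4) (nat_lit 4) (nat_lit 266) (nat_lit 239) (nat_lit 155)) (XT.lf (nat_lit 0) (nat_lit 467042203197) (nat_lit 152) (nat_lit 107219577695) (nat_lit 0) (nat_lit 344162054167) (nat_lit 4) (nat_lit 5) (nat_lit 6) (nat_lit 4) (nat_lit 4) (nat_lit 4) (nat_lit 267) (nat_lit 239) (nat_lit 154)))) (XT.nd (nat_lit 156) (nat_lit 0) (nat_lit 0) (XT.nd (nat_lit 78) (nat_lit 0) (nat_lit 0) (XT.lf (nat_lit 0) (nat_lit 63987340896) (nat_lit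 76) (nat_lit 550299277911) (nat_lit 76) (nat_lit 427419017820) (nat_lit 3) (nat_lit 4) (nat_lit 4) (nat_lit 5) (nat_lit 4) (nat_lit 4) (nat_lit 268) (nat_lit 239) (nat_lit 153)) (XT.lf (nat_lit 0) (nat_lit 272924978897) (nat_lit 76) (nat_lit 516297206564) (nat_lit 76) (nat_lit 393416849898) (nat_lit 3) (nat_lit 4) (nat_lit 4) (nat_lit 5) (nat_lit 4) (nat_lit 4) (nat_lit 269) (nat_lit 239) (nat_lit 152))) (XT.nd (nat_lit 78) (nat_lit 0) (nat_lit 0) (XT.lf (nat_lit 0) (nat_lit 513202969706) (nat_lit 76) (nat_lit 477194968676) (nat_lit 76) (nat_lit 354314528032) (nat_lit 3) (nat_lit 4) (nat_lit 4) (nat_lit 5) (nat_lit 4) (nat_lit 4) (nat_lit 270) (nat_lit 239) (nat_lit 151)) (XT.nd (nat_lit 78) (nat_lit 0) (nat_lit 0) (XT.lf (nat_lit 0) (nat_lit 789522404448) (nat_lit 76) (nat_lit 432227520462) (nat_lit 76) (nat_lit 309347006794) (nat_lit 3) (nat_lit 4) (nat_lit 4) (nat_lit 5) (nat_lit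 4) (nat_lit 4) (nat_lit 271) (nat_lit 239) (nat_lit 150)) (XT.lf (nat_lit 0) (nat_lit 1107289532932) (nat_lit 76) (nat_lit 380515064024) (nat_lit 76) (nat_lit 257634486856) (nat_lit 3) (nat_lit 4) (nat_lit 4) (nat_lit 5) (nat_lit 4) (nat_lit 4) (nat_lit 272) (nat_lit 239) (nat_lit 149))))))) (XT.nd (nat_lit 702) (nat_lit 0) (nat_lit 0) (XT.nd (nat_lit 312) (nat_lit 76) (nat_lit 0) (XT.nd (nat_lit 156) (nat_lit 76) (nat_lit 0) (XT.nd (nat_lit 78) (nat_lit 0) (nat_lit 0) (XT.lf (nat_lit 0) (nat_lit 1472721538107) (nat_lit 76) (nat_lit 321045833908) (nat_lit 76) (nat_lit 198165201523) (nat_lit 3) (nat_lit 4) (nat_lit 4) (nat_lit 5) (nat_lit 4) (nat_lit 4) (nat_lit 273) (nat_lit 239) (nat_lit 148)) (XT.lf (nat_lit 0) (nat_lit 1892968176596) (nat_lit 76) (nat_lit 252656301700) (nat_lit 76) (nat_lit 129775621300) (nat_lit 3) (nat_lit 4) (nat_lit 4) (nat_lit 5) (nat_lit 4) (nat_lit 4) (nat_lit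 274) (nat_lit 239) (nat_lit 147))) (XT.nd (nat_lit 78) (nat_lit 76) (nat_lit 0) (XT.lf (nat_lit 0) (nat_lit 2376251665239) (nat_lit 76) (nat_lit 174008411334) (nat_lit 76) (nat_lit 51127689183) (nat_lit 3) (nat_lit 4) (nat_lit 4) (nat_lit 5) (nat_lit 4) (nat_lit 4) (nat_lit 275) (nat_lit 239) (nat_lit 146)) (XT.lf (nat_lit 0) (nat_lit 35817055561) (nat_lit 152) (nat_lit 45874089000) (nat_lit 76) (nat_lit 2894338239814) (nat_lit 2) (nat_lit 5) (nat_lit 4) (nat_lit 5) (nat_lit 3) (nat_lit 4) (nat_lit 276) (nat_lit 239) (nat_lit 145)))) (XT.nd (nat_lit 156) (nat_lit 0) (nat_lit 0) (XT.nd (nat_lit 78) (nat_lit 0) (nat_lit 0) (XT.lf (nat_lit 0) (nat_lit 139214596976) (nat_lit 152) (nat_lit 3233628877046) (nat_lit 0) (nat_lit 32361736082) (nat_lit 1) (nat_lit 5) (nat_lit 3) (nat_lit 4) (nat_lit 1) (nat_lit 4) (nat_lit 277) (nat_lit 239) (nat_lit 144)) (XT.lf (nat_lit 0) (nat_lit 264523918741)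 (nat_lit 152) (nat_lit 3475602134662) (nat_lit 0) (nat_lit 157671033975) (nat_lit 1) (nat_lit 5) (nat_lit 3) (nat_lit 4) (nat_lit 1) (nat_lit 4) (nat_lit 278) (nat_lit 239) (nat_lit 143))) (XT.nd (nat_lit 78) (nat_lit 0) (nat_lit 0) (XT.lf (nat_lit 0) (nat_lit 408629588460) (nat_lit 152) (nat_lit 3753871482446) (nat_lit 0) (nat_lit 301776682936) (nat_lit 1) (nat_lit 5) (nat_lit 3) (nat_lit 4) (nat_lit 1) (nat_lit 4) (nat_lit 279) (nat_lit 239) (nat_lit 142)) (XT.nd (nat_lit 78) (nat_lit 0) (nat_lit 0) (XT.lf (nat_lit 0) (nat_lit 574351064888) (nat_lit 152) (nat_lit 4073881320679) (nat_lit 0) (nat_lit 467498141314) (nat_lit 1) (nat_lit 5) (nat_lit 3) (nat_lit 4) (nat_lit 1) (nat_lit 4) (nat_lit 280) (nat_lit 239) (nat_lit 141)) (XT.lf (nat_lit 0) (nat_lit 764930724738) (nat_lit 152) (nat_lit 4441892711415) (nat_lit 0) (nat_lit 658077785468) (nat_lit 1) (nat_lit 5) (nat_lit 3) (nat_lit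 4) (nat_lit 1) (nat_lit 4) (nat_lit 281) (nat_lit 239) (nat_lit 140)))))) (XT.nd (nat_lit 312) (nat_lit 0) (nat_lit 0) (XT.nd (nat_lit 156) (nat_lit 0) (nat_lit 0) (XT.nd (nat_lit 78) (nat_lit 0) (nat_lit 0) (XT.lf (nat_lit 0) (nat_lit 984097300486) (nat_lit 152) (nat_lit 4865105877514) (nat_lit 0) (nat_lit 877244347566) (nat_lit 1) (nat_lit 5) (nat_lit 3) (nat_lit 4) (nat_lit 1) (nat_lit 4) (nat_lit 282) (nat_lit 239) (nat_lit 139)) (XT.lf (nat_lit 0) (nat_lit 1236138833829) (nat_lit 152) (nat_lit 5351801076576) (nat_lit 0) (nat_lit 1129285869042) (nat_lit 1) (nat_lit 5) (nat_lit 3) (nat_lit 4) (nat_lit 1) (nat_lit 4) (nat_lit 283) (nat_lit 239) (nat_lit 138))) (XT.nd (nat_lit 78) (nat_lit 0) (nat_lit 0) (XT.lf (nat_lit 0) (nat_lit 1525986572161) (nat_lit 152) (nat_lit 5911500605973) (nat_lit 0) (nat_lit 1419133597053) (nat_lit 1) (nat_lit 5) (nat_lit 3) (nat_lit 4) (nat_lit 1) (nat_lit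 4) (nat_lit 284) (nat_lit 239) (nat_lit 137)) (XT.lf (nat_lit 0) (nat_lit 1859311449492) (nat_lit 152) (nat_lit 6555155108671) (nat_lit 0) (nat_lit 1752458465410) (nat_lit 1) (nat_lit 5) (nat_lit 3) (nat_lit 4) (nat_lit 1) (nat_lit 4) (nat_lit 285) (nat_lit 239) (nat_lit 136)))) (XT.nd (nat_lit 156) (nat_lit 0) (nat_lit 0) (XT.nd (nat_lit 78) (nat_lit 0) (nat_lit 0) (XT.lf (nat_lit 0) (nat_lit 2242635039509) (nat_lit 152) (nat_lit 7295357824941) (nat_lit 0) (nat_lit 2135782047623) (nat_lit 1) (nat_lit 5) (nat_lit 3) (nat_lit 4) (nat_lit 1) (nat_lit 4) (nat_lit 286) (nat_lit 239) (nat_lit 135)) (XT.lf (nat_lit 0) (nat_lit 2683457151582) (nat_lit 152) (nat_lit 8146590981839) (nat_lit 0) (nat_lit 2576604152910) (nat_lit 1) (nat_lit 5) (nat_lit 3) (nat_lit 4) (nat_lit 1) (nat_lit 4) (nat_lit 287) (nat_lit 239) (nat_lit 134))) (XT.nd (nat_lit 78) (nat_lit 0) (nat_lit 0) (XT.lf (nat_lit 0)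 (nat_lit 3190402566164) (nat_lit 152) (nat_lit 9125509141132) (nat_lit 0) (nat_lit 3083549561591) (nat_lit 1) (nat_lit 5) (nat_lit 3) (nat_lit 4) (nat_lit 1) (nat_lit 4) (nat_lit 288) (nat_lit 239) (nat_lit 133)) (XT.nd (nat_lit 78) (nat_lit 0) (nat_lit 0) (XT.lf (nat_lit 0) (nat_lit 3773389780497) (nat_lit 152) (nat_lit 10251265049414) (nat_lit 0) (nat_lit 3666536770793) (nat_lit 1) (nat_lit 5) (nat_lit 3) (nat_lit 4) (nat_lit 1) (nat_lit 4) (nat_lit 289) (nat_lit 239) (nat_lit 132)) (XT.lf (nat_lit 0) (nat_lit 4443825066166) (nat_lit 152) (nat_lit 11545884365761) (nat_lit 0) (nat_lit 4336972052000) (nat_lit 1) (nat_lit 5) (nat_lit 3) (nat_lit 4) (nat_lit 1) (nat_lit 4) (nat_lit 290) (nat_lit 239) (nat_lit 131))))))))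
noncomputable def xc89 : XT := (XT.nd (nat_lit 31200) (nat_lit 0) (nat_lit 228) (XT.nd (nat_lit 30498) (nat_lit 0) (nat_lit 1064) (XT.nd (nat_lit 468) (nat_lit 0) (nat_lit 0) (XT.nd (nat_lit 156) (nat_lit 0) (nat_lit 0) (XT.nd (nat_lit 78) (nat_lit 0) (nat_lit 0) (XT.lf (nat_lit 0) (nat_lit 5214825635282) (nat_lit 152) (nat_lit 13034696598535) (nat_lit 0) (nat_lit 5107972617237) (nat_lit 1) (nat_lit 5) (nat_lit 3) (nat_lit 4) (nat_lit 1) (nat_lit 4) (nat_lit 291) (nat_lit 239) (nat_lit 130)) (XT.lf (nat_lit 0) (nat_lit 6101476281589) (nat_lit 152) (nat_lit 14746830682726) (nat_lit 0) (nat_lit 5994623260169) (nat_lit 1) (nat_lit 5) (nat_lit 3) (nat_lit 4) (nat_lit 1) (nat_lit 4) (nat_lit 292) (nat_lit 239) (nat_lit 129))) (XT.nd (nat_lit 78) (nat_lit 0) (nat_lit 0) (XT.lf (nat_lit 0) (nat_lit 7121124517731) (nat_lit 152) (nat_lit 16715784893894) (nat_lit 0) (nat_lit 7014271493378) (nat_lit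 1) (nat_lit 5) (nat_lit 3) (nat_lit 4) (nat_lit 1) (nat_lit 4) (nat_lit 293) (nat_lit 239) (nat_lit 128)) (XT.lf (nat_lit 0) (nat_lit 8293719983111) (nat_lit 152) (nat_lit 18980082249214) (nat_lit 0) (nat_lit 8186866956207) (nat_lit 1) (nat_lit 5) (nat_lit 3) (nat_lit 4) (nat_lit 1) (nat_lit 4) (nat_lit 294) (nat_lit 239) (nat_lit 127)))) (XT.nd (nat_lit 156) (nat_lit 0) (nat_lit 0) (XT.nd (nat_lit 78) (nat_lit 0) (nat_lit 0) (XT.lf (nat_lit 0) (nat_lit 12976333366888) (nat_lit 152) (nat_lit 28022270766677) (nat_lit 0) (nat_lit 12869480334159) (nat_lit 1) (nat_lit 5) (nat_lit 3) (nat_lit 4) (nat_lit 1) (nat_lit 4) (nat_lit 297) (nat_lit 239) (nat_lit 124)) (XT.lf (nat_lit 0) (nat_lit 15027210141990) (nat_lit 152) (nat_lit 31982541038535) (nat_lit 0) (nat_lit 14920357107802) (nat_lit 1) (nat_lit 5) (nat_lit 3) (nat_lit 4) (nat_lit 1) (nat_lit 4) (nat_lit 298) (nat_lit 239) (nat_lit 123)))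 (XT.nd (nat_lit 702) (nat_lit 0) (nat_lit 0) (XT.lf (nat_lit 0) (nat_lit 17385718430283) (nat_lit 152) (nat_lit 36536851857376) (nat_lit 0) (nat_lit 17278865394827) (nat_lit 1) (nat_lit 5) (nat_lit 3) (nat_lit 4) (nat_lit 1) (nat_lit 4) (nat_lit 299) (nat_lit 239) (nat_lit 122)) (XT.nd (nat_lit 29094) (nat_lit 0) (nat_lit 1368) (XT.lf (nat_lit 0) (nat_lit 62913697751086) (nat_lit 152) (nat_lit 124451984952305) (nat_lit 0) (nat_lit 62806844709579) (nat_lit 1) (nat_lit 5) (nat_lit 3) (nat_lit 4) (nat_lit 1) (nat_lit 4) (nat_lit 308) (nat_lit 239) (nat_lit 113)) (XT.lf (nat_lit 0) (nat_lit 3015832131) (nat_lit 380) (nat_lit 15193798960) (nat_lit 380) (nat_lit 15193798960) (nat_lit 19) (nat_lit 3) (nat_lit 24) (nat_lit 3) (nat_lit 24) (nat_lit 5) (nat_lit 240) (nat_lit 240) (nat_lit 180)))))) (XT.nd (nat_lit 312) (nat_lit 304) (nat_lit 0) (XT.nd (nat_lit 156) (nat_lit 0) (nat_lit 76) (XT.nd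 (nat_lit 78) (nat_lit 0) (nat_lit 76) (XT.lf (nat_lit 0) (nat_lit 6497200930) (nat_lit 380) (nat_lit 238049922) (nat_lit 380) (nat_lit 65080073679) (nat_lit 19) (nat_lit 3) (nat_lit 24) (nat_lit 3) (nat_lit 24) (nat_lit 5) (nat_lit 241) (nat_lit 240) (nat_lit 179)) (XT.lf (nat_lit 0) (nat_lit 9804543992) (nat_lit 304) (nat_lit 40752280656) (nat_lit 380) (nat_lit 26602451087) (nat_lit 20) (nat_lit 5) (nat_lit 24) (nat_lit 5) (nat_lit 25) (nat_lit 5) (nat_lit 242) (nat_lit 240) (nat_lit 178))) (XT.nd (nat_lit 78) (nat_lit 0) (nat_lit 76) (XT.lf (nat_lit 0) (nat_lit 13939692512) (nat_lit 304) (nat_lit 5050372700) (nat_lit 380) (nat_lit 64265010543) (nat_lit 20) (nat_lit 5) (nat_lit 24) (nat_lit 5) (nat_lit 25) (nat_lit 5) (nat_lit 243) (nat_lit 240) (nat_lit 177)) (XT.lf (nat_lit 0) (nat_lit 21124721232) (nat_lit 304) (nat_lit 51290728765) (nat_lit 76) (nat_lit 17485364800) (nat_lit 21)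 (nat_lit 5) (nat_lit 25) (nat_lit 5) (nat_lit 22) (nat_lit 5) (nat_lit 244) (nat_lit 240) (nat_lit 176)))) (XT.nd (nat_lit 156) (nat_lit 152) (nat_lit 0) (XT.nd (nat_lit 78) (nat_lit 304) (nat_lit 0) (XT.lf (nat_lit 0) (nat_lit 30566758028) (nat_lit 304) (nat_lit 9035100147) (nat_lit 76) (nat_lit 57764677330) (nat_lit 21) (nat_lit 5) (nat_lit 25) (nat_lit 5) (nat_lit 22) (nat_lit 5) (nat_lit 245) (nat_lit 240) (nat_lit 175)) (XT.lf (nat_lit 0) (nat_lit 43230117125) (nat_lit 380) (nat_lit 62267669687) (nat_lit 76) (nat_lit 183582705) (nat_lit 17) (nat_lit 5) (nat_lit 22) (nat_lit 5) (nat_lit 18) (nat_lit 5) (nat_lit 246) (nat_lit 240) (nat_lit 174))) (XT.nd (nat_lit 78) (nat_lit 152) (nat_lit 0) (XT.lf (nat_lit 0) (nat_lit 60172290360) (nat_lit 380) (nat_lit 12337183685) (nat_lit 76) (nat_lit 42377064758) (nat_lit 17) (nat_lit 5) (nat_lit 22) (nat_lit 5) (nat_lit 18) (nat_lit 5) (nat_lit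 247) (nat_lit 240) (nat_lit 173)) (XT.nd (nat_lit 78) (nat_lit 0) (nat_lit 0) (XT.lf (nat_lit 0) (nat_lit 49487224432) (nat_lit 152) (nat_lit 32216619674) (nat_lit 228) (nat_lit 43461437031) (nat_lit 15) (nat_lit 5) (nat_lit 17) (nat_lit 5) (nat_lit 18) (nat_lit 5) (nat_lit 248) (nat_lit 240) (nat_lit 172)) (XT.lf (nat_lit 0) (nat_lit 107724398410) (nat_lit 228) (nat_lit 15534101056) (nat_lit 76) (nat_lit 13538450304) (nat_lit 15) (nat_lit 5) (nat_lit 18) (nat_lit 5) (nat_lit 16) (nat_lit 4) (nat_lit 249) (nat_lit 240) (nat_lit 171))))))) (XT.nd (nat_lit 702) (nat_lit 304) (nat_lit 0) (XT.nd (nat_lit 312) (nat_lit 228) (nat_lit 0) (XT.nd (nat_lit 156) (nat_lit 152) (nat_lit 0) (XT.nd (nat_lit 78) (nat_lit 76) (nat_lit 0) (XT.lf (nat_lit 0) (nat_lit 57187286858) (nat_lit 76) (nat_lit 84361985157) (nat_lit 152) (nat_lit 8038915672) (nat_lit 14) (nat_lit 5) (nat_lit 15) (nat_lit 5) (nat_lit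 16) (nat_lit 4) (nat_lit 250) (nat_lit 240) (nat_lit 170)) (XT.lf (nat_lit 0) (nat_lit 15561810772) (nat_lit 152) (nat_lit 22322275868) (nat_lit 76) (nat_lit 126186247508) (nat_lit 13) (nat_lit 5) (nat_lit 15) (nat_lit 5) (nat_lit 14) (nat_lit 5) (nat_lit 251) (nat_lit 240) (nat_lit 169))) (XT.nd (nat_lit 78) (nat_lit 0) (nat_lit 0) (XT.lf (nat_lit 0) (nat_lit 45297999744) (nat_lit 228) (nat_lit 117519775554) (nat_lit 76) (nat_lit 17336851544) (nat_lit 11) (nat_lit 5) (nat_lit 14) (nat_lit 5) (nat_lit 12) (nat_lit 4) (nat_lit 252) (nat_lit 240) (nat_lit 168)) (XT.lf (nat_lit 0) (nat_lit 82520316672) (nat_lit 228) (nat_lit 37492989317) (nat_lit 76) (nat_lit 78184405034) (nat_lit 11) (nat_lit 5) (nat_lit 14) (nat_lit 5) (nat_lit 12) (nat_lit 4) (nat_lit 253) (nat_lit 240) (nat_lit 167)))) (XT.nd (nat_lit 156) (nat_lit 152) (nat_lit 0) (XT.nd (nat_lit 78) (nat_lit 0) (nat_lit 0) (XT.lf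 (nat_lit 0) (nat_lit 59866547590) (nat_lit 76) (nat_lit 67937758000) (nat_lit 152) (nat_lit 90771205765) (nat_lit 10) (nat_lit 5) (nat_lit 11) (nat_lit 5) (nat_lit 12) (nat_lit 4) (nat_lit 254) (nat_lit 240) (nat_lit 166)) (XT.lf (nat_lit 0) (nat_lit 176042759965) (nat_lit 76) (nat_lit 5797413571) (nat_lit 152) (nat_lit 59875918005) (nat_lit 10) (nat_lit 5) (nat_lit 11) (nat_lit 5) (nat_lit 12) (nat_lit 4) (nat_lit 255) (nat_lit 240) (nat_lit 165))) (XT.nd (nat_lit 78) (nat_lit 76) (nat_lit 0) (XT.lf (nat_lit 0) (nat_lit 42369797377) (nat_lit 76) (nat_lit 206084554766) (nat_lit 76) (nat_lit 19202468701) (nat_lit 9) (nat_lit 4) (nat_lit 10) (nat_lit 5) (nat_lit 10) (nat_lit 4) (nat_lit 256) (nat_lit 240) (nat_lit 164)) (XT.nd (nat_lit 78) (nat_lit 0) (nat_lit 0) (XT.lf (nat_lit 0) (nat_lit 28989301882) (nat_lit 152) (nat_lit 124555681222) (nat_lit 76) (nat_lit 143191629975) (nat_lit 8)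 (nat_lit 5) (nat_lit 10) (nat_lit 5) (nat_lit 9) (nat_lit 4) (nat_lit 257) (nat_lit 240) (nat_lit 163)) (XT.lf (nat_lit 0) (nat_lit 82443427339) (nat_lit 152) (nat_lit 9629828189) (nat_lit 76) (nat_lit 237968025774) (nat_lit 8) (nat_lit 5) (nat_lit 10) (nat_lit 5) (nat_lit 9) (nat_lit 4) (nat_lit 258) (nat_lit 240) (nat_lit 162)))))) (XT.nd (nat_lit 312) (nat_lit 152) (nat_lit 0) (XT.nd (nat_lit 156) (nat_lit 76) (nat_lit 0) (XT.nd (nat_lit 78) (nat_lit 0) (nat_lit 0) (XT.lf (nat_lit 0) (nat_lit 134509153171) (nat_lit 76) (nat_lit 14975869825) (nat_lit 152) (nat_lit 218021225003) (nat_lit 7) (nat_lit 5) (nat_lit 8) (nat_lit 5) (nat_lit 9) (nat_lit 4) (nat_lit 259) (nat_lit 240) (nat_lit 161)) (XT.lf (nat_lit 0) (nat_lit 230161016394) (nat_lit 152) (nat_lit 112240062215) (nat_lit 0) (nat_lit 67653158158) (nat_lit 7) (nat_lit 5) (nat_lit 9) (nat_lit 4) (nat_lit 7) (nat_lit 4) (nat_lit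 260) (nat_lit 240) (nat_lit 160))) (XT.nd (nat_lit 78) (nat_lit 0) (nat_lit 0) (XT.lf (nat_lit 0) (nat_lit 28449559372) (nat_lit 76) (nat_lit 296379695940) (nat_lit 76) (nat_lit 133871542279) (nat_lit 6) (nat_lit 4) (nat_lit 7) (nat_lit 5) (nat_lit 7) (nat_lit 4) (nat_lit 261) (nat_lit 240) (nat_lit 159)) (XT.lf (nat_lit 0) (nat_lit 202856298413) (nat_lit 76) (nat_lit 236708218627) (nat_lit 76) (nat_lit 74199808075) (nat_lit 6) (nat_lit 4) (nat_lit 7) (nat_lit 5) (nat_lit 7) (nat_lit 4) (nat_lit 262) (nat_lit 240) (nat_lit 158)))) (XT.nd (nat_lit 156) (nat_lit 76) (nat_lit 0) (XT.nd (nat_lit 78) (nat_lit 76) (nat_lit 0) (XT.lf (nat_lit 0) (nat_lit 403423545501) (nat_lit 76) (nat_lit 168086255406) (nat_lit 76) (nat_lit 5577621471) (nat_lit 6) (nat_lit 4) (nat_lit 7) (nat_lit 5) (nat_lit 7) (nat_lit 4) (nat_lit 263) (nat_lit 240) (nat_lit 157)) (XT.lf (nat_lit 0) (nat_lit 66808602968)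 (nat_lit 152) (nat_lit 18870331799) (nat_lit 76) (nat_lit 563774571575) (nat_lit 5) (nat_lit 5) (nat_lit 7) (nat_lit 5) (nat_lit 6) (nat_lit 4) (nat_lit 264) (nat_lit 240) (nat_lit 156))) (XT.nd (nat_lit 78) (nat_lit 0) (nat_lit 0) (XT.lf (nat_lit 0) (nat_lit 157436058249) (nat_lit 152) (nat_lit 557881567085) (nat_lit 0) (nat_lit 16123886864) (nat_lit 4) (nat_lit 5) (nat_lit 6) (nat_lit 4) (nat_lit 4) (nat_lit 4) (nat_lit 265) (nat_lit 240) (nat_lit 155)) (XT.nd (nat_lit 78) (nat_lit 0) (nat_lit 0) (XT.lf (nat_lit 0) (nat_lit 266770748653) (nat_lit 152) (nat_lit 432731553517) (nat_lit 0) (nat_lit 125458449548) (nat_lit 4) (nat_lit 5) (nat_lit 6) (nat_lit 4) (nat_lit 4) (nat_lit 4) (nat_lit 266) (nat_lit 240) (nat_lit 154)) (XT.lf (nat_lit 0) (nat_lit 392505461960) (nat_lit 152) (nat_lit 288809390779) (nat_lit 0) (nat_lit 251193051795) (nat_lit 4) (nat_lit 5) (nat_lit 6) (nat_lit 4) (nat_lit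 4) (nat_lit 4) (nat_lit 267) (nat_lit 240) (nat_lit 153))))))))
noncomputable def xc90 : XT := (XT.nd (nat_lit 1326) (nat_lit 0) (nat_lit 0) (XT.nd (nat_lit 624) (nat_lit 152) (nat_lit 0) (XT.nd (nat_lit 312) (nat_lit 0) (nat_lit 0) (XT.nd (nat_lit 156) (nat_lit 0) (nat_lit 0) (XT.nd (nat_lit 78) (nat_lit 76) (nat_lit 0) (XT.lf (nat_lit 0) (nat_lit 537100225171) (nat_lit 152) (nat_lit 123299210469) (nat_lit 0) (nat_lit 395787718430) (nat_lit 4) (nat_lit 5) (nat_lit 6) (nat_lit 4) (nat_lit 4) (nat_lit 4) (nat_lit 268) (nat_lit 240) (nat_lit 152)) (XT.lf (nat_lit 0) (nat_lit 73588595733) (nat_lit 76) (nat_lit 632842617347) (nat_lit 76) (nat_lit 491530026628) (nat_lit 3) (nat_lit 4) (nat_lit 4) (nat_lit 5) (nat_lit 4) (nat_lit 4) (nat_lit 269) (nat_lit 240) (nat_lit 151))) (XT.nd (nat_lit 78) (nat_lit 0) (nat_lit 0) (XT.lf (nat_lit 0) (nat_lit 313866468083) (nat_lit 76) (nat_lit 593740437765)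 (nat_lit 76) (nat_lit 452427774022) (nat_lit 3) (nat_lit 4) (nat_lit 4) (nat_lit 5) (nat_lit 4) (nat_lit 4) (nat_lit 270) (nat_lit 240) (nat_lit 150)) (XT.lf (nat_lit 0) (nat_lit 590185799815) (nat_lit 76) (nat_lit 548773040252) (nat_lit 76) (nat_lit 407460313010) (nat_lit 3) (nat_lit 4) (nat_lit 4) (nat_lit 5) (nat_lit 4) (nat_lit 4) (nat_lit 271) (nat_lit 240) (nat_lit 149)))) (XT.nd (nat_lit 156) (nat_lit 0) (nat_lit 0) (XT.nd (nat_lit 78) (nat_lit 0) (nat_lit 0) (XT.lf (nat_lit 0) (nat_lit 907952838727) (nat_lit 76) (nat_lit 497060627901) (nat_lit 76) (nat_lit 355747845442) (nat_lit 3) (nat_lit 4) (nat_lit 4) (nat_lit 5) (nat_lit 4) (nat_lit 4) (nat_lit 272) (nat_lit 240) (nat_lit 148)) (XT.lf (nat_lit 0) (nat_lit 1273384766012) (nat_lit 76) (nat_lit 437591436123) (nat_lit 76) (nat_lit 296278605649) (nat_lit 3) (nat_lit 4) (nat_lit 4) (nat_lit 5) (nat_lit 4) (nat_lit 4) (nat_lit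 273) (nat_lit 240) (nat_lit 147))) (XT.nd (nat_lit 78) (nat_lit 0) (nat_lit 0) (XT.lf (nat_lit 0) (nat_lit 1693631336771) (nat_lit 76) (nat_lit 369201937251) (nat_lit 76) (nat_lit 227889065025) (nat_lit 3) (nat_lit 4) (nat_lit 4) (nat_lit 5) (nat_lit 4) (nat_lit 4) (nat_lit 274) (nat_lit 240) (nat_lit 146)) (XT.lf (nat_lit 0) (nat_lit 2176914766518) (nat_lit 76) (nat_lit 290554075874) (nat_lit 76) (nat_lit 149241167342) (nat_lit 3) (nat_lit 4) (nat_lit 4) (nat_lit 5) (nat_lit 4) (nat_lit 4) (nat_lit 275) (nat_lit 240) (nat_lit 145))))) (XT.nd (nat_lit 312) (nat_lit 0) (nat_lit 0) (XT.nd (nat_lit 156) (nat_lit 76) (nat_lit 0) (XT.nd (nat_lit 78) (nat_lit 76) (nat_lit 0) (XT.lf (nat_lit 0) (nat_lit 2732690600619) (nat_lit 76) (nat_lit 200109089485) (nat_lit 76) (nat_lit 58796149383) (nat_lit 3) (nat_lit 4) (nat_lit 4) (nat_lit 5) (nat_lit 4) (nat_lit 4) (nat_lit 276) (nat_lit 240) (nat_lit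 144)) (XT.lf (nat_lit 0) (nat_lit 41190162996) (nat_lit 152) (nat_lit 52754117113) (nat_lit 76) (nat_lit 3328489428934) (nat_lit 2) (nat_lit 5) (nat_lit 4) (nat_lit 5) (nat_lit 3) (nat_lit 4) (nat_lit 277) (nat_lit 240) (nat_lit 143))) (XT.nd (nat_lit 78) (nat_lit 0) (nat_lit 0) (XT.lf (nat_lit 0) (nat_lit 160097328243) (nat_lit 152) (nat_lit 3718672115443) (nat_lit 0) (nat_lit 37216466133) (nat_lit 1) (nat_lit 5) (nat_lit 3) (nat_lit 4) (nat_lit 1) (nat_lit 4) (nat_lit 278) (nat_lit 240) (nat_lit 142)) (XT.lf (nat_lit 0) (nat_lit 304202977614) (nat_lit 152) (nat_lit 3996941504288) (nat_lit 0) (nat_lit 181322097453) (nat_lit 1) (nat_lit 5) (nat_lit 3) (nat_lit 4) (nat_lit 1) (nat_lit 4) (nat_lit 279) (nat_lit 240) (nat_lit 141)))) (XT.nd (nat_lit 156) (nat_lit 0) (nat_lit 0) (XT.nd (nat_lit 78) (nat_lit 0) (nat_lit 0) (XT.lf (nat_lit 0) (nat_lit 469924436348) (nat_lit 152) (nat_lit 4316951378227)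 (nat_lit 0) (nat_lit 347043540491) (nat_lit 1) (nat_lit 5) (nat_lit 3) (nat_lit 4) (nat_lit 1) (nat_lit 4) (nat_lit 280) (nat_lit 240) (nat_lit 140)) (XT.lf (nat_lit 0) (nat_lit 660504080812) (nat_lit 152) (nat_lit 4684962800011) (nat_lit 0) (nat_lit 537623171306) (nat_lit 1) (nat_lit 5) (nat_lit 3) (nat_lit 4) (nat_lit 1) (nat_lit 4) (nat_lit 281) (nat_lit 240) (nat_lit 139))) (XT.nd (nat_lit 78) (nat_lit 0) (nat_lit 0) (XT.lf (nat_lit 0) (nat_lit 879670643180) (nat_lit 152) (nat_lit 5108175993109) (nat_lit 0) (nat_lit 756789721805) (nat_lit 1) (nat_lit 5) (nat_lit 3) (nat_lit 4) (nat_lit 1) (nat_lit 4) (nat_lit 282) (nat_lit 240) (nat_lit 138)) (XT.nd (nat_lit 78) (nat_lit 0) (nat_lit 0) (XT.lf (nat_lit 0) (nat_lit 1131712164889) (nat_lit 152) (nat_lit 5594871215648) (nat_lit 0) (nat_lit 1008831233195) (nat_lit 1) (nat_lit 5) (nat_lit 3) (nat_lit 4) (nat_lit 1) (nat_lit 4) (nat_lit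 283) (nat_lit 240) (nat_lit 137)) (XT.lf (nat_lit 0) (nat_lit 1421559893105) (nat_lit 152) (nat_lit 6154570765460) (nat_lit 0) (nat_lit 1298678952436) (nat_lit 1) (nat_lit 5) (nat_lit 3) (nat_lit 4) (nat_lit 1) (nat_lit 4) (nat_lit 284) (nat_lit 240) (nat_lit 136))))))) (XT.nd (nat_lit 702) (nat_lit 0) (nat_lit 0) (XT.nd (nat_lit 312) (nat_lit 0) (nat_lit 0) (XT.nd (nat_lit 156) (nat_lit 0) (nat_lit 0) (XT.nd (nat_lit 78) (nat_lit 0) (nat_lit 0) (XT.lf (nat_lit 0) (nat_lit 1754884761639) (nat_lit 152) (nat_lit 6798225285910) (nat_lit 0) (nat_lit 1632003813166) (nat_lit 1) (nat_lit 5) (nat_lit 3) (nat_lit 4) (nat_lit 1) (nat_lit 4) (nat_lit 285) (nat_lit 240) (nat_lit 135)) (XT.lf (nat_lit 0) (nat_lit 2138208344006) (nat_lit 152) (nat_lit 7538428017616) (nat_lit 0) (nat_lit 2015327388747) (nat_lit 1) (nat_lit 5) (nat_lit 3) (nat_lit 4) (nat_lit 1) (nat_lit 4) (nat_lit 286) (nat_lit 240)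 (nat_lit 134))) (XT.nd (nat_lit 78) (nat_lit 0) (nat_lit 0) (XT.lf (nat_lit 0) (nat_lit 2579030449427) (nat_lit 152) (nat_lit 8389661187937) (nat_lit 0) (nat_lit 2456149488267) (nat_lit 1) (nat_lit 5) (nat_lit 3) (nat_lit 4) (nat_lit 1) (nat_lit 4) (nat_lit 287) (nat_lit 240) (nat_lit 133)) (XT.lf (nat_lit 0) (nat_lit 3085975858224) (nat_lit 152) (nat_lit 9368579358903) (nat_lit 0) (nat_lit 2963094891934) (nat_lit 1) (nat_lit 5) (nat_lit 3) (nat_lit 4) (nat_lit 1) (nat_lit 4) (nat_lit 288) (nat_lit 240) (nat_lit 132)))) (XT.nd (nat_lit 156) (nat_lit 0) (nat_lit 0) (XT.nd (nat_lit 78) (nat_lit 0) (nat_lit 0) (XT.lf (nat_lit 0) (nat_lit 3668963067528) (nat_lit 152) (nat_lit 10494335277335) (nat_lit 0) (nat_lit 3546082096775) (nat_lit 1) (nat_lit 5) (nat_lit 3) (nat_lit 4) (nat_lit 1) (nat_lit 4) (nat_lit 289) (nat_lit 240) (nat_lit 131)) (XT.lf (nat_lit 0) (nat_lit 4339398348823) (nat_lit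 152) (nat_lit 11788954602507) (nat_lit 0) (nat_lit 4216517374191) (nat_lit 1) (nat_lit 5) (nat_lit 3) (nat_lit 4) (nat_lit 1) (nat_lit 4) (nat_lit 290) (nat_lit 240) (nat_lit 130))) (XT.nd (nat_lit 78) (nat_lit 0) (nat_lit 0) (XT.lf (nat_lit 0) (nat_lit 5110398914136) (nat_lit 152) (nat_lit 13277766842956) (nat_lit 0) (nat_lit 4987517936130) (nat_lit 1) (nat_lit 5) (nat_lit 3) (nat_lit 4) (nat_lit 1) (nat_lit 4) (nat_lit 291) (nat_lit 240) (nat_lit 129)) (XT.nd (nat_lit 78) (nat_lit 0) (nat_lit 0) (XT.lf (nat_lit 0) (nat_lit 5997049557135) (nat_lit 152) (nat_lit 14989900933821) (nat_lit 0) (nat_lit 5874168576196) (nat_lit 1) (nat_lit 5) (nat_lit 3) (nat_lit 4) (nat_lit 1) (nat_lit 4) (nat_lit 292) (nat_lit 240) (nat_lit 128)) (XT.lf (nat_lit 0) (nat_lit 7016697790401) (nat_lit 152) (nat_lit 16958855150792) (nat_lit 0) (nat_lit 6893816806911) (nat_lit 1) (nat_lit 5) (nat_lit 3) (nat_lit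 4) (nat_lit 1) (nat_lit 4) (nat_lit 293) (nat_lit 240) (nat_lit 127)))))) (XT.nd (nat_lit 1170) (nat_lit 0) (nat_lit 0) (XT.nd (nat_lit 1014) (nat_lit 0) (nat_lit 0) (XT.nd (nat_lit 936) (nat_lit 0) (nat_lit 0) (XT.lf (nat_lit 0) (nat_lit 8189293253281) (nat_lit 152) (nat_lit 19223152511158) (nat_lit 0) (nat_lit 8066412267572) (nat_lit 1) (nat_lit 5) (nat_lit 3) (nat_lit 4) (nat_lit 1) (nat_lit 4) (nat_lit 294) (nat_lit 240) (nat_lit 126)) (XT.lf (nat_lit 0) (nat_lit 47297599897506) (nat_lit 152) (nat_lit 94741812153280) (nat_lit 0) (nat_lit 47174718899773) (nat_lit 1) (nat_lit 5) (nat_lit 3) (nat_lit 4) (nat_lit 1) (nat_lit 4) (nat_lit 306) (nat_lit 240) (nat_lit 114))) (XT.nd (nat_lit 78) (nat_lit 0) (nat_lit 0) (XT.lf (nat_lit 0) (nat_lit 54512330646434) (nat_lit 152) (nat_lit 108673553124593) (nat_lit 0) (nat_lit 54389449648340) (nat_lit 1) (nat_lit 5) (nat_lit 3) (nat_lit 4) (nat_lit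 1) (nat_lit 4) (nat_lit 307) (nat_lit 240) (nat_lit 113)) (XT.lf (nat_lit 0) (nat_lit 62809271006941) (nat_lit 152) (nat_lit 124695055243136) (nat_lit 0) (nat_lit 62686390008534) (nat_lit 1) (nat_lit 5) (nat_lit 3) (nat_lit 4) (nat_lit 1) (nat_lit 4) (nat_lit 308) (nat_lit 240) (nat_lit 112)))) (XT.nd (nat_lit 29094) (nat_lit 0) (nat_lit 1368) (XT.nd (nat_lit 78) (nat_lit 0) (nat_lit 0) (XT.lf (nat_lit 0) (nat_lit 72350752420864) (nat_lit 152) (nat_lit 143119782680794) (nat_lit 0) (nat_lit 72227871422184) (nat_lit 1) (nat_lit 5) (nat_lit 3) (nat_lit 4) (nat_lit 1) (nat_lit 4) (nat_lit 309) (nat_lit 240) (nat_lit 111)) (XT.lf (nat_lit 0) (nat_lit 83323456046300) (nat_lit 152) (nat_lit 164308219235261) (nat_lit 0) (nat_lit 83200575047383) (nat_lit 1) (nat_lit 5) (nat_lit 3) (nat_lit 4) (nat_lit 1) (nat_lit 4) (nat_lit 310) (nat_lit 240) (nat_lit 110))) (XT.nd (nat_lit 78) (nat_lit 0) (nat_lit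 0) (XT.lf (nat_lit 0) (nat_lit 3480823794) (nat_lit 380) (nat_lit 17465577787) (nat_lit 380) (nat_lit 17465577787) (nat_lit 19) (nat_lit 3) (nat_lit 24) (nat_lit 3) (nat_lit 24) (nat_lit 5) (nat_lit 241) (nat_lit 241) (nat_lit 178)) (XT.nd (nat_lit 78) (nat_lit 0) (nat_lit 76) (XT.lf (nat_lit 0) (nat_lit 7493723403) (nat_lit 380) (nat_lit 261077381) (nat_lit 380) (nat_lit 74829404701) (nat_lit 19) (nat_lit 3) (nat_lit 24) (nat_lit 3) (nat_lit 24) (nat_lit 5) (nat_lit 242) (nat_lit 241) (nat_lit 177)) (XT.lf (nat_lit 0) (nat_lit 11294497428) (nat_lit 304) (nat_lit 46849662337) (nat_lit 380) (nat_lit 30586006663) (nat_lit 20) (nat_lit 5) (nat_lit 24) (nat_lit 5) (nat_lit 25) (nat_lit 5) (nat_lit 243) (nat_lit 241) (nat_lit 176))))))))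
noncomputable def xc91 : XT := (XT.nd (nat_lit 1404) (nat_lit 456) (nat_lit 0) (XT.nd (nat_lit 702) (nat_lit 456) (nat_lit 0) (XT.nd (nat_lit 312) (nat_lit 304) (nat_lit 0) (XT.nd (nat_lit 156) (nat_lit 228) (nat_lit 0) (XT.nd (nat_lit 78) (nat_lit 0) (nat_lit 76) (XT.lf (nat_lit 0) (nat_lit 16047404509) (nat_lit 304) (nat_lit 5794484764) (nat_lit 380) (nat_lit 73898838571) (nat_lit 20) (nat_lit 5) (nat_lit 24) (nat_lit 5) (nat_lit 25) (nat_lit 5) (nat_lit 244) (nat_lit 241) (nat_lit 175)) (XT.lf (nat_lit 0) (nat_lit 24308439039) (nat_lit 304) (nat_lit 58969062648) (nat_lit 76) (nat_lit 20106100794) (nat_lit 21) (nat_lit 5) (nat_lit 25) (nat_lit 5) (nat_lit 22) (nat_lit 5) (nat_lit 245) (nat_lit 241) (nat_lit 174))) (XT.nd (nat_lit 78) (nat_lit 304) (nat_lit 0) (XT.lf (nat_lit 0) (nat_lit 35164823577) (nat_lit 304) (nat_lit 10377082184) (nat_lit 76) (nat_lit 66427580037) (nat_lit 21)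 (nat_lit 5) (nat_lit 25) (nat_lit 5) (nat_lit 22) (nat_lit 5) (nat_lit 246) (nat_lit 241) (nat_lit 173)) (XT.lf (nat_lit 0) (nat_lit 49726542467) (nat_lit 380) (nat_lit 71593330252) (nat_lit 76) (nat_lit 211853229) (nat_lit 17) (nat_lit 5) (nat_lit 22) (nat_lit 5) (nat_lit 18) (nat_lit 5) (nat_lit 247) (nat_lit 241) (nat_lit 172)))) (XT.nd (nat_lit 156) (nat_lit 152) (nat_lit 0) (XT.nd (nat_lit 78) (nat_lit 152) (nat_lit 0) (XT.lf (nat_lit 0) (nat_lit 69208488499) (nat_lit 380) (nat_lit 14175161336) (nat_lit 76) (nat_lit 48734261965) (nat_lit 17) (nat_lit 5) (nat_lit 22) (nat_lit 5) (nat_lit 18) (nat_lit 5) (nat_lit 248) (nat_lit 241) (nat_lit 171)) (XT.lf (nat_lit 0) (nat_lit 56922335276) (nat_lit 152) (nat_lit 37046587453) (nat_lit 228) (nat_lit 49969677768) (nat_lit 15) (nat_lit 5) (nat_lit 17) (nat_lit 5) (nat_lit 18) (nat_lit 5) (nat_lit 249) (nat_lit 241) (nat_lit 170))) (XT.nd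 (nat_lit 78) (nat_lit 152) (nat_lit 0) (XT.lf (nat_lit 0) (nat_lit 123891411710) (nat_lit 228) (nat_lit 17852568017) (nat_lit 76) (nat_lit 15571218166) (nat_lit 15) (nat_lit 5) (nat_lit 18) (nat_lit 5) (nat_lit 16) (nat_lit 4) (nat_lit 250) (nat_lit 241) (nat_lit 169)) (XT.nd (nat_lit 78) (nat_lit 76) (nat_lit 0) (XT.lf (nat_lit 0) (nat_lit 65776498621) (nat_lit 76) (nat_lit 97012888546) (nat_lit 152) (nat_lit 9235834098) (nat_lit 14) (nat_lit 5) (nat_lit 15) (nat_lit 5) (nat_lit 16) (nat_lit 4) (nat_lit 251) (nat_lit 241) (nat_lit 168)) (XT.lf (nat_lit 0) (nat_lit 17903147520) (nat_lit 152) (nat_lit 25660231164) (nat_lit 76) (nat_lit 145116418653) (nat_lit 13) (nat_lit 5) (nat_lit 15) (nat_lit 5) (nat_lit 14) (nat_lit 5) (nat_lit 252) (nat_lit 241) (nat_lit 167)))))) (XT.nd (nat_lit 312) (nat_lit 228) (nat_lit 0) (XT.nd (nat_lit 156) (nat_lit 76) (nat_lit 0) (XT.nd (nat_lit 78) (nat_lit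 0) (nat_lit 0) (XT.lf (nat_lit 0) (nat_lit 52099392941) (nat_lit 228) (nat_lit 135136960287) (nat_lit 76) (nat_lit 19940440036) (nat_lit 11) (nat_lit 5) (nat_lit 14) (nat_lit 5) (nat_lit 12) (nat_lit 4) (nat_lit 253) (nat_lit 241) (nat_lit 166)) (XT.lf (nat_lit 0) (nat_lit 94904184377) (nat_lit 228) (nat_lit 43107562410) (nat_lit 76) (nat_lit 89914727319) (nat_lit 11) (nat_lit 5) (nat_lit 14) (nat_lit 5) (nat_lit 12) (nat_lit 4) (nat_lit 254) (nat_lit 241) (nat_lit 165))) (XT.nd (nat_lit 78) (nat_lit 0) (nat_lit 0) (XT.lf (nat_lit 0) (nat_lit 68855478884) (nat_lit 76) (nat_lit 78124904158) (nat_lit 152) (nat_lit 104380622415) (nat_lit 10) (nat_lit 5) (nat_lit 11) (nat_lit 5) (nat_lit 12) (nat_lit 4) (nat_lit 255) (nat_lit 241) (nat_lit 164)) (XT.lf (nat_lit 0) (nat_lit 202456955834) (nat_lit 76) (nat_lit 6663966875) (nat_lit 152) (nat_lit 68851858562) (nat_lit 10) (nat_lit 5) (nat_lit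 11) (nat_lit 5) (nat_lit 12) (nat_lit 4) (nat_lit 256) (nat_lit 241) (nat_lit 163)))) (XT.nd (nat_lit 156) (nat_lit 76) (nat_lit 0) (XT.nd (nat_lit 78) (nat_lit 76) (nat_lit 0) (XT.lf (nat_lit 0) (nat_lit 48733265330) (nat_lit 76) (nat_lit 236993788044) (nat_lit 76) (nat_lit 22077594830) (nat_lit 9) (nat_lit 4) (nat_lit 10) (nat_lit 5) (nat_lit 10) (nat_lit 4) (nat_lit 257) (nat_lit 241) (nat_lit 162)) (XT.lf (nat_lit 0) (nat_lit 33341851341) (nat_lit 152) (nat_lit 143231662134) (nat_lit 76) (nat_lit 164672958229) (nat_lit 8) (nat_lit 5) (nat_lit 10) (nat_lit 5) (nat_lit 9) (nat_lit 4) (nat_lit 258) (nat_lit 241) (nat_lit 161))) (XT.nd (nat_lit 78) (nat_lit 76) (nat_lit 0) (XT.lf (nat_lit 0) (nat_lit 94813553767) (nat_lit 152) (nat_lit 11067892615) (nat_lit 76) (nat_lit 273665476386) (nat_lit 8) (nat_lit 5) (nat_lit 10) (nat_lit 5) (nat_lit 9) (nat_lit 4) (nat_lit 259) (nat_lit 241)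 (nat_lit 160)) (XT.nd (nat_lit 78) (nat_lit 0) (nat_lit 0) (XT.lf (nat_lit 0) (nat_lit 154691644594) (nat_lit 76) (nat_lit 17219526358) (nat_lit 152) (nat_lit 250720497350) (nat_lit 7) (nat_lit 5) (nat_lit 8) (nat_lit 5) (nat_lit 9) (nat_lit 4) (nat_lit 260) (nat_lit 241) (nat_lit 159)) (XT.lf (nat_lit 0) (nat_lit 264688218678) (nat_lit 152) (nat_lit 129070399763) (nat_lit 0) (nat_lit 77803289652) (nat_lit 7) (nat_lit 5) (nat_lit 9) (nat_lit 4) (nat_lit 7) (nat_lit 4) (nat_lit 261) (nat_lit 241) (nat_lit 158))))))) (XT.nd (nat_lit 702) (nat_lit 152) (nat_lit 0) (XT.nd (nat_lit 312) (nat_lit 152) (nat_lit 0) (XT.nd (nat_lit 156) (nat_lit 76) (nat_lit 0) (XT.nd (nat_lit 78) (nat_lit 0) (nat_lit 0) (XT.lf (nat_lit 0) (nat_lit 32722407253) (nat_lit 76) (nat_lit 340834112558) (nat_lit 76) (nat_lit 153948960149) (nat_lit 6) (nat_lit 4) (nat_lit 7) (nat_lit 5) (nat_lit 7) (nat_lit 4) (nat_lit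 262) (nat_lit 241) (nat_lit 157)) (XT.lf (nat_lit 0) (nat_lit 233289450980) (nat_lit 76) (nat_lit 272212244662) (nat_lit 76) (nat_lit 85326898006) (nat_lit 6) (nat_lit 4) (nat_lit 7) (nat_lit 5) (nat_lit 7) (nat_lit 4) (nat_lit 263) (nat_lit 241) (nat_lit 156))) (XT.nd (nat_lit 78) (nat_lit 76) (nat_lit 0) (XT.lf (nat_lit 0) (nat_lit 463941171070) (nat_lit 76) (nat_lit 193297274796) (nat_lit 76) (nat_lit 6411759231) (nat_lit 6) (nat_lit 4) (nat_lit 7) (nat_lit 5) (nat_lit 7) (nat_lit 4) (nat_lit 264) (nat_lit 241) (nat_lit 155)) (XT.lf (nat_lit 0) (nat_lit 76831878115) (nat_lit 152) (nat_lit 21697124494) (nat_lit 76) (nat_lit 648342228641) (nat_lit 5) (nat_lit 5) (nat_lit 7) (nat_lit 5) (nat_lit 6) (nat_lit 4) (nat_lit 265) (nat_lit 241) (nat_lit 154)))) (XT.nd (nat_lit 156) (nat_lit 76) (nat_lit 0) (XT.nd (nat_lit 78) (nat_lit 0) (nat_lit 0) (XT.lf (nat_lit 0) (nat_lit 181053412204)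 (nat_lit 152) (nat_lit 641560002686) (nat_lit 0) (nat_lit 18544029453) (nat_lit 4) (nat_lit 5) (nat_lit 6) (nat_lit 4) (nat_lit 4) (nat_lit 4) (nat_lit 266) (nat_lit 241) (nat_lit 153)) (XT.lf (nat_lit 0) (nat_lit 306788052445) (nat_lit 152) (nat_lit 497637982664) (nat_lit 0) (nat_lit 144278573119) (nat_lit 4) (nat_lit 5) (nat_lit 6) (nat_lit 4) (nat_lit 4) (nat_lit 4) (nat_lit 267) (nat_lit 241) (nat_lit 152))) (XT.nd (nat_lit 78) (nat_lit 76) (nat_lit 0) (XT.lf (nat_lit 0) (nat_lit 451382752119) (nat_lit 152) (nat_lit 332127926456) (nat_lit 0) (nat_lit 288873188814) (nat_lit 4) (nat_lit 5) (nat_lit 6) (nat_lit 4) (nat_lit 4) (nat_lit 4) (nat_lit 268) (nat_lit 241) (nat_lit 151)) (XT.nd (nat_lit 78) (nat_lit 76) (nat_lit 0) (XT.lf (nat_lit 0) (nat_lit 617666537959) (nat_lit 152) (nat_lit 141791593832) (nat_lit 0) (nat_lit 455156901630) (nat_lit 4) (nat_lit 5) (nat_lit 6) (nat_lit 4)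 (nat_lit 4) (nat_lit 4) (nat_lit 269) (nat_lit 241) (nat_lit 150)) (XT.lf (nat_lit 0) (nat_lit 84629269746) (nat_lit 76) (nat_lit 727767836224) (nat_lit 76) (nat_lit 565258136396) (nat_lit 3) (nat_lit 4) (nat_lit 4) (nat_lit 5) (nat_lit 4) (nat_lit 4) (nat_lit 270) (nat_lit 241) (nat_lit 149)))))) (XT.nd (nat_lit 312) (nat_lit 152) (nat_lit 0) (XT.nd (nat_lit 156) (nat_lit 0) (nat_lit 0) (XT.nd (nat_lit 78) (nat_lit 0) (nat_lit 0) (XT.lf (nat_lit 0) (nat_lit 360948511906) (nat_lit 76) (nat_lit 682800482799) (nat_lit 76) (nat_lit 520290727754) (nat_lit 3) (nat_lit 4) (nat_lit 4) (nat_lit 5) (nat_lit 4) (nat_lit 4) (nat_lit 271) (nat_lit 241) (nat_lit 148)) (XT.lf (nat_lit 0) (nat_lit 678715472928) (nat_lit 76) (nat_lit 631088108786) (nat_lit 76) (nat_lit 468578305726) (nat_lit 3) (nat_lit 4) (nat_lit 4) (nat_lit 5) (nat_lit 4) (nat_lit 4) (nat_lit 272) (nat_lit 241) (nat_lit 147))) (XT.nd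 (nat_lit 78) (nat_lit 0) (nat_lit 0) (XT.lf (nat_lit 0) (nat_lit 1044147332484) (nat_lit 76) (nat_lit 571618950344) (nat_lit 76) (nat_lit 409109105532) (nat_lit 3) (nat_lit 4) (nat_lit 4) (nat_lit 5) (nat_lit 4) (nat_lit 4) (nat_lit 273) (nat_lit 241) (nat_lit 146)) (XT.lf (nat_lit 0) (nat_lit 1464393844347) (nat_lit 76) (nat_lit 503229480460) (nat_lit 76) (nat_lit 340719599342) (nat_lit 3) (nat_lit 4) (nat_lit 4) (nat_lit 5) (nat_lit 4) (nat_lit 4) (nat_lit 274) (nat_lit 241) (nat_lit 145)))) (XT.nd (nat_lit 156) (nat_lit 152) (nat_lit 0) (XT.nd (nat_lit 78) (nat_lit 0) (nat_lit 0) (XT.lf (nat_lit 0) (nat_lit 1947677222881) (nat_lit 76) (nat_lit 424581644290) (nat_lit 76) (nat_lit 262071731602) (nat_lit 3) (nat_lit 4) (nat_lit 4) (nat_lit 5) (nat_lit 4) (nat_lit 4) (nat_lit 275) (nat_lit 241) (nat_lit 144)) (XT.lf (nat_lit 0) (nat_lit 2503453012447) (nat_lit 76) (nat_lit 334136679821)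 (nat_lit 76) (nat_lit 171626739680) (nat_lit 3) (nat_lit 4) (nat_lit 4) (nat_lit 5) (nat_lit 4) (nat_lit 4) (nat_lit 276) (nat_lit 241) (nat_lit 143))) (XT.nd (nat_lit 78) (nat_lit 152) (nat_lit 0) (XT.lf (nat_lit 0) (nat_lit 3142595087191) (nat_lit 76) (nat_lit 230125011662) (nat_lit 76) (nat_lit 67615047649) (nat_lit 3) (nat_lit 4) (nat_lit 4) (nat_lit 5) (nat_lit 4) (nat_lit 4) (nat_lit 277) (nat_lit 241) (nat_lit 142)) (XT.nd (nat_lit 78) (nat_lit 76) (nat_lit 0) (XT.lf (nat_lit 0) (nat_lit 47369102644) (nat_lit 152) (nat_lit 60666414084) (nat_lit 76) (nat_lit 3827763185919) (nat_lit 2) (nat_lit 5) (nat_lit 4) (nat_lit 5) (nat_lit 3) (nat_lit 4) (nat_lit 278) (nat_lit 241) (nat_lit 141)) (XT.lf (nat_lit 0) (nat_lit 184112337098) (nat_lit 152) (nat_lit 4276472106174) (nat_lit 0) (nat_lit 42799291167) (nat_lit 1) (nat_lit 5) (nat_lit 3) (nat_lit 4) (nat_lit 1) (nat_lit 4) (nat_lit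 279) (nat_lit 241) (nat_lit 140))))))))
noncomputable def xc92 : XT := (XT.nd (nat_lit 2106) (nat_lit 0) (nat_lit 0) (XT.nd (nat_lit 624) (nat_lit 0) (nat_lit 0) (XT.nd (nat_lit 312) (nat_lit 0) (nat_lit 0) (XT.nd (nat_lit 156) (nat_lit 0) (nat_lit 0) (XT.nd (nat_lit 78) (nat_lit 0) (nat_lit 0) (XT.lf (nat_lit 0) (nat_lit 349833780446) (nat_lit 152) (nat_lit 4596482011161) (nat_lit 0) (nat_lit 208520720866) (nat_lit 1) (nat_lit 5) (nat_lit 3) (nat_lit 4) (nat_lit 1) (nat_lit 4) (nat_lit 280) (nat_lit 241) (nat_lit 139)) (XT.lf (nat_lit 0) (nat_lit 540413411531) (nat_lit 152) (nat_lit 4964493459944) (nat_lit 0) (nat_lit 399100340082) (nat_lit 1) (nat_lit 5) (nat_lit 3) (nat_lit 4) (nat_lit 1) (nat_lit 4) (nat_lit 281) (nat_lit 241) (nat_lit 138))) (XT.nd (nat_lit 78) (nat_lit 0) (nat_lit 0) (XT.lf (nat_lit 0) (nat_lit 759579962265) (nat_lit 152) (nat_lit 5387706676519) (nat_lit 0) (nat_lit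 618266880495) (nat_lit 1) (nat_lit 5) (nat_lit 3) (nat_lit 4) (nat_lit 1) (nat_lit 4) (nat_lit 282) (nat_lit 241) (nat_lit 137)) (XT.lf (nat_lit 0) (nat_lit 1011621473858) (nat_lit 152) (nat_lit 5874401919473) (nat_lit 0) (nat_lit 870308383114) (nat_lit 1) (nat_lit 5) (nat_lit 3) (nat_lit 4) (nat_lit 1) (nat_lit 4) (nat_lit 283) (nat_lit 241) (nat_lit 136)))) (XT.nd (nat_lit 156) (nat_lit 0) (nat_lit 0) (XT.nd (nat_lit 78) (nat_lit 0) (nat_lit 0) (XT.lf (nat_lit 0) (nat_lit 1301469193276) (nat_lit 152) (nat_lit 6434101487036) (nat_lit 0) (nat_lit 1160156094728) (nat_lit 1) (nat_lit 5) (nat_lit 3) (nat_lit 4) (nat_lit 1) (nat_lit 4) (nat_lit 284) (nat_lit 241) (nat_lit 135)) (XT.lf (nat_lit 0) (nat_lit 1634794054160) (nat_lit 152) (nat_lit 7077756022923) (nat_lit 0) (nat_lit 1493480948827) (nat_lit 1) (nat_lit 5) (nat_lit 3) (nat_lit 4) (nat_lit 1) (nat_lit 4) (nat_lit 285) (nat_lit 241)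 (nat_lit 134))) (XT.nd (nat_lit 78) (nat_lit 0) (nat_lit 0) (XT.lf (nat_lit 0) (nat_lit 2018117629875) (nat_lit 152) (nat_lit 7817958768052) (nat_lit 0) (nat_lit 1876804518641) (nat_lit 1) (nat_lit 5) (nat_lit 3) (nat_lit 4) (nat_lit 1) (nat_lit 4) (nat_lit 286) (nat_lit 241) (nat_lit 133)) (XT.lf (nat_lit 0) (nat_lit 2458939729512) (nat_lit 152) (nat_lit 8669191950046) (nat_lit 0) (nat_lit 2317626613147) (nat_lit 1) (nat_lit 5) (nat_lit 3) (nat_lit 4) (nat_lit 1) (nat_lit 4) (nat_lit 287) (nat_lit 241) (nat_lit 132))))) (XT.nd (nat_lit 312) (nat_lit 0) (nat_lit 0) (XT.nd (nat_lit 156) (nat_lit 0) (nat_lit 0) (XT.nd (nat_lit 78) (nat_lit 0) (nat_lit 0) (XT.lf (nat_lit 0) (nat_lit 2965885133280) (nat_lit 152) (nat_lit 9648110131161) (nat_lit 0) (nat_lit 2824572012453) (nat_lit 1) (nat_lit 5) (nat_lit 3) (nat_lit 4) (nat_lit 1) (nat_lit 4) (nat_lit 288) (nat_lit 241) (nat_lit 131)) (XT.lf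 (nat_lit 0) (nat_lit 3548872338210) (nat_lit 152) (nat_lit 10773866058419) (nat_lit 0) (nat_lit 3407559213503) (nat_lit 1) (nat_lit 5) (nat_lit 3) (nat_lit 4) (nat_lit 1) (nat_lit 4) (nat_lit 289) (nat_lit 241) (nat_lit 130))) (XT.nd (nat_lit 78) (nat_lit 0) (nat_lit 0) (XT.lf (nat_lit 0) (nat_lit 4219307615702) (nat_lit 152) (nat_lit 12068485391266) (nat_lit 0) (nat_lit 4077994487621) (nat_lit 1) (nat_lit 5) (nat_lit 3) (nat_lit 4) (nat_lit 1) (nat_lit 4) (nat_lit 290) (nat_lit 241) (nat_lit 129)) (XT.lf (nat_lit 0) (nat_lit 4990308177707) (nat_lit 152) (nat_lit 13557297638389) (nat_lit 0) (nat_lit 4848995046693) (nat_lit 1) (nat_lit 5) (nat_lit 3) (nat_lit 4) (nat_lit 1) (nat_lit 4) (nat_lit 291) (nat_lit 241) (nat_lit 128)))) (XT.nd (nat_lit 156) (nat_lit 0) (nat_lit 0) (XT.nd (nat_lit 78) (nat_lit 0) (nat_lit 0) (XT.lf (nat_lit 0) (nat_lit 5876958817831) (nat_lit 152) (nat_lit 15269431735056)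 (nat_lit 0) (nat_lit 5735645684265) (nat_lit 1) (nat_lit 5) (nat_lit 3) (nat_lit 4) (nat_lit 1) (nat_lit 4) (nat_lit 292) (nat_lit 241) (nat_lit 127)) (XT.lf (nat_lit 0) (nat_lit 6896607048596) (nat_lit 152) (nat_lit 17238385957074) (nat_lit 0) (nat_lit 6755293912813) (nat_lit 1) (nat_lit 5) (nat_lit 3) (nat_lit 4) (nat_lit 1) (nat_lit 4) (nat_lit 293) (nat_lit 241) (nat_lit 126))) (XT.nd (nat_lit 858) (nat_lit 0) (nat_lit 0) (XT.lf (nat_lit 0) (nat_lit 8069202509302) (nat_lit 152) (nat_lit 19502683321828) (nat_lit 0) (nat_lit 7927889371589) (nat_lit 1) (nat_lit 5) (nat_lit 3) (nat_lit 4) (nat_lit 1) (nat_lit 4) (nat_lit 294) (nat_lit 241) (nat_lit 125)) (XT.nd (nat_lit 78) (nat_lit 0) (nat_lit 0) (XT.lf (nat_lit 0) (nat_lit 40903830229275) (nat_lit 152) (nat_lit 82906785622089) (nat_lit 0) (nat_lit 40762517081467) (nat_lit 1) (nat_lit 5) (nat_lit 3) (nat_lit 4) (nat_lit 1) (nat_lit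 4) (nat_lit 305) (nat_lit 241) (nat_lit 114)) (XT.lf (nat_lit 0) (nat_lit 47177509141740) (nat_lit 152) (nat_lit 95021342987735) (nat_lit 0) (nat_lit 47036195993571) (nat_lit 1) (nat_lit 5) (nat_lit 3) (nat_lit 4) (nat_lit 1) (nat_lit 4) (nat_lit 306) (nat_lit 241) (nat_lit 113))))))) (XT.nd (nat_lit 29796) (nat_lit 0) (nat_lit 684) (XT.nd (nat_lit 29406) (nat_lit 0) (nat_lit 1368) (XT.nd (nat_lit 156) (nat_lit 0) (nat_lit 0) (XT.nd (nat_lit 78) (nat_lit 0) (nat_lit 0) (XT.lf (nat_lit 0) (nat_lit 54392239890314) (nat_lit 152) (nat_lit 108953083959762) (nat_lit 0) (nat_lit 54250926741832) (nat_lit 1) (nat_lit 5) (nat_lit 3) (nat_lit 4) (nat_lit 1) (nat_lit 4) (nat_lit 307) (nat_lit 241) (nat_lit 112)) (XT.lf (nat_lit 0) (nat_lit 62689180250514) (nat_lit 152) (nat_lit 124974586078925) (nat_lit 0) (nat_lit 62547867101759) (nat_lit 1) (nat_lit 5) (nat_lit 3) (nat_lit 4) (nat_lit 1) (nat_lit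 4) (nat_lit 308) (nat_lit 241) (nat_lit 111))) (XT.nd (nat_lit 29172) (nat_lit 0) (nat_lit 1368) (XT.lf (nat_lit 0) (nat_lit 72230661664169) (nat_lit 152) (nat_lit 143399313517123) (nat_lit 0) (nat_lit 72089348515177) (nat_lit 1) (nat_lit 5) (nat_lit 3) (nat_lit 4) (nat_lit 1) (nat_lit 4) (nat_lit 309) (nat_lit 241) (nat_lit 110)) (XT.lf (nat_lit 0) (nat_lit 4012487508) (nat_lit 380) (nat_lit 20079901399) (nat_lit 380) (nat_lit 20079901399) (nat_lit 19) (nat_lit 3) (nat_lit 24) (nat_lit 3) (nat_lit 24) (nat_lit 5) (nat_lit 242) (nat_lit 242) (nat_lit 176)))) (XT.nd (nat_lit 156) (nat_lit 0) (nat_lit 76) (XT.nd (nat_lit 78) (nat_lit 0) (nat_lit 76) (XT.lf (nat_lit 0) (nat_lit 8634373471) (nat_lit 380) (nat_lit 290651064) (nat_lit 380) (nat_lit 86044227483) (nat_lit 19) (nat_lit 3) (nat_lit 24) (nat_lit 3) (nat_lit 24) (nat_lit 5) (nat_lit 243) (nat_lit 242) (nat_lit 175)) (XT.lf (nat_lit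 0) (nat_lit 13003244320) (nat_lit 304) (nat_lit 53865421390) (nat_lit 380) (nat_lit 35168756747) (nat_lit 20) (nat_lit 5) (nat_lit 24) (nat_lit 5) (nat_lit 25) (nat_lit 5) (nat_lit 244) (nat_lit 242) (nat_lit 174))) (XT.nd (nat_lit 78) (nat_lit 0) (nat_lit 76) (XT.lf (nat_lit 0) (nat_lit 18467186731) (nat_lit 304) (nat_lit 6653492003) (nat_lit 380) (nat_lit 84979185299) (nat_lit 20) (nat_lit 5) (nat_lit 24) (nat_lit 5) (nat_lit 25) (nat_lit 5) (nat_lit 245) (nat_lit 242) (nat_lit 173)) (XT.nd (nat_lit 78) (nat_lit 0) (nat_lit 0) (XT.lf (nat_lit 0) (nat_lit 27966054325) (nat_lit 304) (nat_lit 67802871623) (nat_lit 76) (nat_lit 23120451659) (nat_lit 21) (nat_lit 5) (nat_lit 25) (nat_lit 5) (nat_lit 22) (nat_lit 5) (nat_lit 246) (nat_lit 242) (nat_lit 172)) (XT.lf (nat_lit 0) (nat_lit 40449416184) (nat_lit 304) (nat_lit 11923600667) (nat_lit 76) (nat_lit 76390356821) (nat_lit 21) (nat_lit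 5) (nat_lit 25) (nat_lit 5) (nat_lit 22) (nat_lit 5) (nat_lit 247) (nat_lit 242) (nat_lit 171)))))) (XT.nd (nat_lit 312) (nat_lit 380) (nat_lit 0) (XT.nd (nat_lit 156) (nat_lit 152) (nat_lit 0) (XT.nd (nat_lit 78) (nat_lit 0) (nat_lit 0) (XT.lf (nat_lit 0) (nat_lit 57194527825) (nat_lit 380) (nat_lit 82321373354) (nat_lit 76) (nat_lit 244185556) (nat_lit 17) (nat_lit 5) (nat_lit 22) (nat_lit 5) (nat_lit 18) (nat_lit 5) (nat_lit 248) (nat_lit 242) (nat_lit 170)) (XT.lf (nat_lit 0) (nat_lit 79597591329) (nat_lit 380) (nat_lit 16291908200) (nat_lit 76) (nat_lit 56044883296) (nat_lit 17) (nat_lit 5) (nat_lit 22) (nat_lit 5) (nat_lit 18) (nat_lit 5) (nat_lit 249) (nat_lit 242) (nat_lit 169))) (XT.nd (nat_lit 78) (nat_lit 0) (nat_lit 0) (XT.lf (nat_lit 0) (nat_lit 65469779843) (nat_lit 152) (nat_lit 42601666178) (nat_lit 228) (nat_lit 57456830895) (nat_lit 15) (nat_lit 5) (nat_lit 17) (nat_lit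 5) (nat_lit 18) (nat_lit 5) (nat_lit 250) (nat_lit 242) (nat_lit 168)) (XT.lf (nat_lit 0) (nat_lit 142481439942) (nat_lit 228) (nat_lit 20521645508) (nat_lit 76) (nat_lit 17908413418) (nat_lit 15) (nat_lit 5) (nat_lit 18) (nat_lit 5) (nat_lit 16) (nat_lit 4) (nat_lit 251) (nat_lit 242) (nat_lit 167)))) (XT.nd (nat_lit 156) (nat_lit 228) (nat_lit 0) (XT.nd (nat_lit 78) (nat_lit 76) (nat_lit 0) (XT.lf (nat_lit 0) (nat_lit 75651380775) (nat_lit 76) (nat_lit 111562255186) (nat_lit 152) (nat_lit 10614465223) (nat_lit 14) (nat_lit 5) (nat_lit 15) (nat_lit 5) (nat_lit 16) (nat_lit 4) (nat_lit 252) (nat_lit 242) (nat_lit 166)) (XT.lf (nat_lit 0) (nat_lit 20593961902) (nat_lit 152) (nat_lit 29501412468) (nat_lit 76) (nat_lit 166885570691) (nat_lit 13) (nat_lit 5) (nat_lit 15) (nat_lit 5) (nat_lit 14) (nat_lit 5) (nat_lit 253) (nat_lit 242) (nat_lit 165))) (XT.nd (nat_lit 78) (nat_lit 76) (nat_lit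 0) (XT.lf (nat_lit 0) (nat_lit 59919362929) (nat_lit 228) (nat_lit 155399351891) (nat_lit 76) (nat_lit 22933820415) (nat_lit 11) (nat_lit 5) (nat_lit 14) (nat_lit 5) (nat_lit 12) (nat_lit 4) (nat_lit 254) (nat_lit 242) (nat_lit 164)) (XT.nd (nat_lit 78) (nat_lit 76) (nat_lit 0) (XT.lf (nat_lit 0) (nat_lit 109144212944) (nat_lit 228) (nat_lit 49566607694) (nat_lit 76) (nat_lit 103403948916) (nat_lit 11) (nat_lit 5) (nat_lit 14) (nat_lit 5) (nat_lit 12) (nat_lit 4) (nat_lit 255) (nat_lit 242) (nat_lit 163)) (XT.lf (nat_lit 0) (nat_lit 79190567563) (nat_lit 76) (nat_lit 89840980014) (nat_lit 152) (nat_lit 120032979130) (nat_lit 10) (nat_lit 5) (nat_lit 11) (nat_lit 5) (nat_lit 12) (nat_lit 4) (nat_lit 256) (nat_lit 242) (nat_lit 162))))))))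
noncomputable def xc93 : XT := (XT.nd (nat_lit 1404) (nat_lit 152) (nat_lit 0) (XT.nd (nat_lit 702) (nat_lit 228) (nat_lit 0) (XT.nd (nat_lit 312) (nat_lit 152) (nat_lit 0) (XT.nd (nat_lit 156) (nat_lit 76) (nat_lit 0) (XT.nd (nat_lit 78) (nat_lit 76) (nat_lit 0) (XT.lf (nat_lit 0) (nat_lit 232831383424) (nat_lit 76) (nat_lit 7661249065) (nat_lit 152) (nat_lit 79175518523) (nat_lit 10) (nat_lit 5) (nat_lit 11) (nat_lit 5) (nat_lit 12) (nat_lit 4) (nat_lit 257) (nat_lit 242) (nat_lit 161)) (XT.lf (nat_lit 0) (nat_lit 56049303029) (nat_lit 76) (nat_lit 272540247603) (nat_lit 76) (nat_lit 25385268705) (nat_lit 9) (nat_lit 4) (nat_lit 10) (nat_lit 5) (nat_lit 10) (nat_lit 4) (nat_lit 258) (nat_lit 242) (nat_lit 160))) (XT.nd (nat_lit 78) (nat_lit 0) (nat_lit 0) (XT.lf (nat_lit 0) (nat_lit 38346270196) (nat_lit 152) (nat_lit 164710837713) (nat_lit 76) (nat_lit 189375855655) (nat_lit 8) (nat_lit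 5) (nat_lit 10) (nat_lit 5) (nat_lit 9) (nat_lit 4) (nat_lit 259) (nat_lit 242) (nat_lit 159)) (XT.lf (nat_lit 0) (nat_lit 109038318271) (nat_lit 152) (nat_lit 12723229777) (nat_lit 76) (nat_lit 314716996706) (nat_lit 8) (nat_lit 5) (nat_lit 10) (nat_lit 5) (nat_lit 9) (nat_lit 4) (nat_lit 260) (nat_lit 242) (nat_lit 158)))) (XT.nd (nat_lit 156) (nat_lit 76) (nat_lit 0) (XT.nd (nat_lit 78) (nat_lit 0) (nat_lit 0) (XT.lf (nat_lit 0) (nat_lit 177900017708) (nat_lit 76) (nat_lit 19800395621) (nat_lit 152) (nat_lit 288325614369) (nat_lit 7) (nat_lit 5) (nat_lit 8) (nat_lit 5) (nat_lit 9) (nat_lit 4) (nat_lit 261) (nat_lit 242) (nat_lit 157)) (XT.lf (nat_lit 0) (nat_lit 304393757586) (nat_lit 152) (nat_lit 148426671044) (nat_lit 0) (nat_lit 89475414685) (nat_lit 7) (nat_lit 5) (nat_lit 9) (nat_lit 4) (nat_lit 7) (nat_lit 4) (nat_lit 262) (nat_lit 242) (nat_lit 156))) (XT.nd (nat_lit 78) (nat_lit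 0) (nat_lit 0) (XT.lf (nat_lit 0) (nat_lit 37634862085) (nat_lit 76) (nat_lit 391957310521) (nat_lit 76) (nat_lit 177038798710) (nat_lit 6) (nat_lit 4) (nat_lit 7) (nat_lit 5) (nat_lit 7) (nat_lit 4) (nat_lit 263) (nat_lit 242) (nat_lit 155)) (XT.nd (nat_lit 78) (nat_lit 0) (nat_lit 0) (XT.lf (nat_lit 0) (nat_lit 268286428405) (nat_lit 76) (nat_lit 313042412734) (nat_lit 76) (nat_lit 98123754045) (nat_lit 6) (nat_lit 4) (nat_lit 7) (nat_lit 5) (nat_lit 7) (nat_lit 4) (nat_lit 264) (nat_lit 242) (nat_lit 154)) (XT.lf (nat_lit 0) (nat_lit 533535442189) (nat_lit 76) (nat_lit 222290415036) (nat_lit 76) (nat_lit 7371628627) (nat_lit 6) (nat_lit 4) (nat_lit 7) (nat_lit 5) (nat_lit 7) (nat_lit 4) (nat_lit 265) (nat_lit 242) (nat_lit 153)))))) (XT.nd (nat_lit 312) (nat_lit 76) (nat_lit 0) (XT.nd (nat_lit 156) (nat_lit 0) (nat_lit 0) (XT.nd (nat_lit 78) (nat_lit 76) (nat_lit 0) (XT.lf (nat_lit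 0) (nat_lit 88358160553) (nat_lit 152) (nat_lit 24948852280) (nat_lit 76) (nat_lit 745594675473) (nat_lit 5) (nat_lit 5) (nat_lit 7) (nat_lit 5) (nat_lit 6) (nat_lit 4) (nat_lit 266) (nat_lit 242) (nat_lit 152)) (XT.lf (nat_lit 0) (nat_lit 208212894899) (nat_lit 152) (nat_lit 737791130150) (nat_lit 0) (nat_lit 21326813121) (nat_lit 4) (nat_lit 5) (nat_lit 6) (nat_lit 4) (nat_lit 4) (nat_lit 4) (nat_lit 267) (nat_lit 242) (nat_lit 151))) (XT.nd (nat_lit 78) (nat_lit 0) (nat_lit 0) (XT.lf (nat_lit 0) (nat_lit 352807539324) (nat_lit 152) (nat_lit 572281181856) (nat_lit 0) (nat_lit 165921384521) (nat_lit 4) (nat_lit 5) (nat_lit 6) (nat_lit 4) (nat_lit 4) (nat_lit 4) (nat_lit 268) (nat_lit 242) (nat_lit 150)) (XT.lf (nat_lit 0) (nat_lit 519091277121) (nat_lit 152) (nat_lit 381944943070) (nat_lit 0) (nat_lit 332205058819) (nat_lit 4) (nat_lit 5) (nat_lit 6) (nat_lit 4) (nat_lit 4) (nat_lit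 4) (nat_lit 269) (nat_lit 242) (nat_lit 149)))) (XT.nd (nat_lit 156) (nat_lit 0) (nat_lit 0) (XT.nd (nat_lit 78) (nat_lit 76) (nat_lit 0) (XT.lf (nat_lit 0) (nat_lit 710317485770) (nat_lit 152) (nat_lit 163058443903) (nat_lit 0) (nat_lit 523431212251) (nat_lit 4) (nat_lit 5) (nat_lit 6) (nat_lit 4) (nat_lit 4) (nat_lit 4) (nat_lit 270) (nat_lit 242) (nat_lit 148)) (XT.lf (nat_lit 0) (nat_lit 97325463349) (nat_lit 76) (nat_lit 836932124153) (nat_lit 76) (nat_lit 650045802619) (nat_lit 3) (nat_lit 4) (nat_lit 4) (nat_lit 5) (nat_lit 4) (nat_lit 4) (nat_lit 271) (nat_lit 242) (nat_lit 147))) (XT.nd (nat_lit 78) (nat_lit 0) (nat_lit 0) (XT.lf (nat_lit 0) (nat_lit 415092356640) (nat_lit 76) (nat_lit 785219783476) (nat_lit 76) (nat_lit 598333420190) (nat_lit 3) (nat_lit 4) (nat_lit 4) (nat_lit 5) (nat_lit 4) (nat_lit 4) (nat_lit 272) (nat_lit 242) (nat_lit 146)) (XT.nd (nat_lit 78) (nat_lit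 0) (nat_lit 0) (XT.lf (nat_lit 0) (nat_lit 780524157300) (nat_lit 76) (nat_lit 725750654023) (nat_lit 76) (nat_lit 538864254431) (nat_lit 3) (nat_lit 4) (nat_lit 4) (nat_lit 5) (nat_lit 4) (nat_lit 4) (nat_lit 273) (nat_lit 242) (nat_lit 145)) (XT.lf (nat_lit 0) (nat_lit 1200770617950) (nat_lit 76) (nat_lit 657361209347) (nat_lit 76) (nat_lit 470474778184) (nat_lit 3) (nat_lit 4) (nat_lit 4) (nat_lit 5) (nat_lit 4) (nat_lit 4) (nat_lit 274) (nat_lit 242) (nat_lit 144))))))) (XT.nd (nat_lit 702) (nat_lit 0) (nat_lit 0) (XT.nd (nat_lit 312) (nat_lit 152) (nat_lit 0) (XT.nd (nat_lit 156) (nat_lit 0) (nat_lit 0) (XT.nd (nat_lit 78) (nat_lit 0) (nat_lit 0) (XT.lf (nat_lit 0) (nat_lit 1684053951950) (nat_lit 76) (nat_lit 578713395096) (nat_lit 76) (nat_lit 391826936481) (nat_lit 3) (nat_lit 4) (nat_lit 4) (nat_lit 5) (nat_lit 4) (nat_lit 4) (nat_lit 275) (nat_lit 242) (nat_lit 143)) (XT.lf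 (nat_lit 0) (nat_lit 2239829702792) (nat_lit 76) (nat_lit 488268449687) (nat_lit 76) (nat_lit 301381967201) (nat_lit 3) (nat_lit 4) (nat_lit 4) (nat_lit 5) (nat_lit 4) (nat_lit 4) (nat_lit 276) (nat_lit 242) (nat_lit 142))) (XT.nd (nat_lit 78) (nat_lit 0) (nat_lit 0) (XT.lf (nat_lit 0) (nat_lit 2878971743862) (nat_lit 76) (nat_lit 384256798102) (nat_lit 76) (nat_lit 197370294857) (nat_lit 3) (nat_lit 4) (nat_lit 4) (nat_lit 5) (nat_lit 4) (nat_lit 4) (nat_lit 277) (nat_lit 242) (nat_lit 141)) (XT.lf (nat_lit 0) (nat_lit 3613985028137) (nat_lit 76) (nat_lit 264643429765) (nat_lit 76) (nat_lit 77756908470) (nat_lit 3) (nat_lit 4) (nat_lit 4) (nat_lit 5) (nat_lit 4) (nat_lit 4) (nat_lit 278) (nat_lit 242) (nat_lit 140)))) (XT.nd (nat_lit 156) (nat_lit 0) (nat_lit 0) (XT.nd (nat_lit 78) (nat_lit 76) (nat_lit 0) (XT.lf (nat_lit 0) (nat_lit 54474781991) (nat_lit 152) (nat_lit 69765755709)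 (nat_lit 76) (nat_lit 4401927922895) (nat_lit 2) (nat_lit 5) (nat_lit 4) (nat_lit 5) (nat_lit 3) (nat_lit 4) (nat_lit 279) (nat_lit 242) (nat_lit 139)) (XT.lf (nat_lit 0) (nat_lit 211729497394) (nat_lit 152) (nat_lit 4917942297082) (nat_lit 0) (nat_lit 49219453359) (nat_lit 1) (nat_lit 5) (nat_lit 3) (nat_lit 4) (nat_lit 1) (nat_lit 4) (nat_lit 280) (nat_lit 242) (nat_lit 138))) (XT.nd (nat_lit 78) (nat_lit 0) (nat_lit 0) (XT.lf (nat_lit 0) (nat_lit 402309116844) (nat_lit 152) (nat_lit 5285953769342) (nat_lit 0) (nat_lit 239799062489) (nat_lit 1) (nat_lit 5) (nat_lit 3) (nat_lit 4) (nat_lit 1) (nat_lit 4) (nat_lit 281) (nat_lit 242) (nat_lit 137)) (XT.nd (nat_lit 78) (nat_lit 0) (nat_lit 0) (XT.lf (nat_lit 0) (nat_lit 621475657461) (nat_lit 152) (nat_lit 5709167006332) (nat_lit 0) (nat_lit 458965594132) (nat_lit 1) (nat_lit 5) (nat_lit 3) (nat_lit 4) (nat_lit 1) (nat_lit 4) (nat_lit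 282) (nat_lit 242) (nat_lit 136)) (XT.lf (nat_lit 0) (nat_lit 873517160257) (nat_lit 152) (nat_lit 6195862267038) (nat_lit 0) (nat_lit 711007089124) (nat_lit 1) (nat_lit 5) (nat_lit 3) (nat_lit 4) (nat_lit 1) (nat_lit 4) (nat_lit 283) (nat_lit 242) (nat_lit 135)))))) (XT.nd (nat_lit 312) (nat_lit 0) (nat_lit 0) (XT.nd (nat_lit 156) (nat_lit 0) (nat_lit 0) (XT.nd (nat_lit 78) (nat_lit 0) (nat_lit 0) (XT.lf (nat_lit 0) (nat_lit 1163364872026) (nat_lit 152) (nat_lit 6755561850038) (nat_lit 0) (nat_lit 1000854794107) (nat_lit 1) (nat_lit 5) (nat_lit 3) (nat_lit 4) (nat_lit 1) (nat_lit 4) (nat_lit 284) (nat_lit 242) (nat_lit 134)) (XT.lf (nat_lit 0) (nat_lit 1496689726258) (nat_lit 152) (nat_lit 7399216399347) (nat_lit 0) (nat_lit 1334179642438) (nat_lit 1) (nat_lit 5) (nat_lit 3) (nat_lit 4) (nat_lit 1) (nat_lit 4) (nat_lit 285) (nat_lit 242) (nat_lit 133))) (XT.nd (nat_lit 78) (nat_lit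 0) (nat_lit 0) (XT.lf (nat_lit 0) (nat_lit 1880013296189) (nat_lit 152) (nat_lit 8139419156149) (nat_lit 0) (nat_lit 1717503207238) (nat_lit 1) (nat_lit 5) (nat_lit 3) (nat_lit 4) (nat_lit 1) (nat_lit 4) (nat_lit 286) (nat_lit 242) (nat_lit 132)) (XT.lf (nat_lit 0) (nat_lit 2320835390796) (nat_lit 152) (nat_lit 8990652348293) (nat_lit 0) (nat_lit 2158325297383) (nat_lit 1) (nat_lit 5) (nat_lit 3) (nat_lit 4) (nat_lit 1) (nat_lit 4) (nat_lit 287) (nat_lit 242) (nat_lit 131)))) (XT.nd (nat_lit 156) (nat_lit 0) (nat_lit 0) (XT.nd (nat_lit 78) (nat_lit 0) (nat_lit 0) (XT.lf (nat_lit 0) (nat_lit 2827780790190) (nat_lit 152) (nat_lit 9969570538233) (nat_lit 0) (nat_lit 2665270692897) (nat_lit 1) (nat_lit 5) (nat_lit 3) (nat_lit 4) (nat_lit 1) (nat_lit 4) (nat_lit 288) (nat_lit 242) (nat_lit 130)) (XT.lf (nat_lit 0) (nat_lit 3410767991317) (nat_lit 152) (nat_lit 11095326473166) (nat_lit 0)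 (nat_lit 3248257890650) (nat_lit 1) (nat_lit 5) (nat_lit 3) (nat_lit 4) (nat_lit 1) (nat_lit 4) (nat_lit 289) (nat_lit 242) (nat_lit 129))) (XT.nd (nat_lit 78) (nat_lit 0) (nat_lit 0) (XT.lf (nat_lit 0) (nat_lit 4081203265502) (nat_lit 152) (nat_lit 12389945812687) (nat_lit 0) (nat_lit 3918693161901) (nat_lit 1) (nat_lit 5) (nat_lit 3) (nat_lit 4) (nat_lit 1) (nat_lit 4) (nat_lit 290) (nat_lit 242) (nat_lit 128)) (XT.nd (nat_lit 78) (nat_lit 0) (nat_lit 0) (XT.lf (nat_lit 0) (nat_lit 4852203824632) (nat_lit 152) (nat_lit 13878758065613) (nat_lit 0) (nat_lit 4689693718480) (nat_lit 1) (nat_lit 5) (nat_lit 3) (nat_lit 4) (nat_lit 1) (nat_lit 4) (nat_lit 291) (nat_lit 242) (nat_lit 127)) (XT.lf (nat_lit 0) (nat_lit 5738854462254) (nat_lit 152) (nat_lit 15590892167327) (nat_lit 0) (nat_lit 5576344353885) (nat_lit 1) (nat_lit 5) (nat_lit 3) (nat_lit 4) (nat_lit 1) (nat_lit 4) (nat_lit 292)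 (nat_lit 242) (nat_lit 126))))))))
noncomputable def xc94 : XT := (XT.nd (nat_lit 31434) (nat_lit 0) (nat_lit 152) (XT.nd (nat_lit 30732) (nat_lit 0) (nat_lit 912) (XT.nd (nat_lit 1170) (nat_lit 0) (nat_lit 0) (XT.nd (nat_lit 1014) (nat_lit 0) (nat_lit 0) (XT.nd (nat_lit 936) (nat_lit 0) (nat_lit 0) (XT.lf (nat_lit 0) (nat_lit 6758502690845) (nat_lit 152) (nat_lit 17559846393732) (nat_lit 0) (nat_lit 6595992580547) (nat_lit 1) (nat_lit 5) (nat_lit 3) (nat_lit 4) (nat_lit 1) (nat_lit 4) (nat_lit 293) (nat_lit 242) (nat_lit 125)) (XT.lf (nat_lit 0) (nat_lit 40765725859737) (nat_lit 152) (nat_lit 83228246082533) (nat_lit 0) (nat_lit 40603215738982) (nat_lit 1) (nat_lit 5) (nat_lit 3) (nat_lit 4) (nat_lit 1) (nat_lit 4) (nat_lit 305) (nat_lit 242) (nat_lit 113))) (XT.nd (nat_lit 78) (nat_lit 0) (nat_lit 0) (XT.lf (nat_lit 0) (nat_lit 47039404771848) (nat_lit 152) (nat_lit 95342803448893)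 (nat_lit 0) (nat_lit 46876894650780) (nat_lit 1) (nat_lit 5) (nat_lit 3) (nat_lit 4) (nat_lit 1) (nat_lit 4) (nat_lit 306) (nat_lit 242) (nat_lit 112)) (XT.lf (nat_lit 0) (nat_lit 54254135520115) (nat_lit 152) (nat_lit 109274544421539) (nat_lit 0) (nat_lit 54091625398774) (nat_lit 1) (nat_lit 5) (nat_lit 3) (nat_lit 4) (nat_lit 1) (nat_lit 4) (nat_lit 307) (nat_lit 242) (nat_lit 111)))) (XT.nd (nat_lit 29328) (nat_lit 0) (nat_lit 1368) (XT.nd (nat_lit 78) (nat_lit 0) (nat_lit 0) (XT.lf (nat_lit 0) (nat_lit 62551075880048) (nat_lit 152) (nat_lit 125296046541242) (nat_lit 0) (nat_lit 62388565758470) (nat_lit 1) (nat_lit 5) (nat_lit 3) (nat_lit 4) (nat_lit 1) (nat_lit 4) (nat_lit 308) (nat_lit 242) (nat_lit 110)) (XT.lf (nat_lit 0) (nat_lit 72092557293471) (nat_lit 152) (nat_lit 143720773979908) (nat_lit 0) (nat_lit 71930047171687) (nat_lit 1) (nat_lit 5) (nat_lit 3) (nat_lit 4) (nat_lit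 1) (nat_lit 4) (nat_lit 309) (nat_lit 242) (nat_lit 109))) (XT.nd (nat_lit 78) (nat_lit 0) (nat_lit 0) (XT.lf (nat_lit 0) (nat_lit 4621574355) (nat_lit 380) (nat_lit 23087717946) (nat_lit 380) (nat_lit 23087717946) (nat_lit 19) (nat_lit 3) (nat_lit 24) (nat_lit 3) (nat_lit 24) (nat_lit 5) (nat_lit 243) (nat_lit 243) (nat_lit 174)) (XT.nd (nat_lit 78) (nat_lit 0) (nat_lit 76) (XT.lf (nat_lit 0) (nat_lit 9942075093) (nat_lit 380) (nat_lit 326998876) (nat_lit 380) (nat_lit 98943611757) (nat_lit 19) (nat_lit 3) (nat_lit 24) (nat_lit 3) (nat_lit 24) (nat_lit 5) (nat_lit 244) (nat_lit 243) (nat_lit 173)) (XT.lf (nat_lit 0) (nat_lit 14964749703) (nat_lit 304) (nat_lit 61936395055) (nat_lit 380) (nat_lit 40440175427) (nat_lit 20) (nat_lit 5) (nat_lit 24) (nat_lit 5) (nat_lit 25) (nat_lit 5) (nat_lit 245) (nat_lit 243) (nat_lit 172)))))) (XT.nd (nat_lit 312) (nat_lit 304) (nat_lit 0) (XT.nd (nat_lit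 156) (nat_lit 228) (nat_lit 0) (XT.nd (nat_lit 78) (nat_lit 0) (nat_lit 76) (XT.lf (nat_lit 0) (nat_lit 21246846250) (nat_lit 304) (nat_lit 7643829243) (nat_lit 380) (nat_lit 97722676283) (nat_lit 20) (nat_lit 5) (nat_lit 24) (nat_lit 5) (nat_lit 25) (nat_lit 5) (nat_lit 246) (nat_lit 243) (nat_lit 171)) (XT.lf (nat_lit 0) (nat_lit 32169544274) (nat_lit 304) (nat_lit 77964568589) (nat_lit 76) (nat_lit 26587336607) (nat_lit 21) (nat_lit 5) (nat_lit 25) (nat_lit 5) (nat_lit 22) (nat_lit 5) (nat_lit 247) (nat_lit 243) (nat_lit 170))) (XT.nd (nat_lit 78) (nat_lit 304) (nat_lit 0) (XT.lf (nat_lit 0) (nat_lit 46524291047) (nat_lit 304) (nat_lit 13704546177) (nat_lit 76) (nat_lit 87847881822) (nat_lit 21) (nat_lit 5) (nat_lit 25) (nat_lit 5) (nat_lit 22) (nat_lit 5) (nat_lit 248) (nat_lit 243) (nat_lit 169)) (XT.lf (nat_lit 0) (nat_lit 65780515307) (nat_lit 380) (nat_lit 94661294717) (nat_lit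 76) (nat_lit 281232551) (nat_lit 17) (nat_lit 5) (nat_lit 22) (nat_lit 5) (nat_lit 18) (nat_lit 5) (nat_lit 249) (nat_lit 243) (nat_lit 168)))) (XT.nd (nat_lit 156) (nat_lit 152) (nat_lit 0) (XT.nd (nat_lit 78) (nat_lit 152) (nat_lit 0) (XT.lf (nat_lit 0) (nat_lit 91543150296) (nat_lit 380) (nat_lit 18728490395) (nat_lit 76) (nat_lit 64451980280) (nat_lit 17) (nat_lit 5) (nat_lit 22) (nat_lit 5) (nat_lit 18) (nat_lit 5) (nat_lit 250) (nat_lit 243) (nat_lit 167)) (XT.lf (nat_lit 0) (nat_lit 75297123398) (nat_lit 152) (nat_lit 48990472329) (nat_lit 228) (nat_lit 66069080641) (nat_lit 15) (nat_lit 5) (nat_lit 17) (nat_lit 5) (nat_lit 18) (nat_lit 5) (nat_lit 251) (nat_lit 243) (nat_lit 166))) (XT.nd (nat_lit 78) (nat_lit 152) (nat_lit 0) (XT.lf (nat_lit 0) (nat_lit 163858432096) (nat_lit 228) (nat_lit 23593232440) (nat_lit 76) (nat_lit 20595819118) (nat_lit 15) (nat_lit 5) (nat_lit 18)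 (nat_lit 5) (nat_lit 16) (nat_lit 4) (nat_lit 252) (nat_lit 243) (nat_lit 165)) (XT.nd (nat_lit 78) (nat_lit 76) (nat_lit 0) (XT.lf (nat_lit 0) (nat_lit 87005445063) (nat_lit 76) (nat_lit 128294652713) (nat_lit 152) (nat_lit 12201535582) (nat_lit 14) (nat_lit 5) (nat_lit 15) (nat_lit 5) (nat_lit 16) (nat_lit 4) (nat_lit 253) (nat_lit 243) (nat_lit 164)) (XT.lf (nat_lit 0) (nat_lit 23687095700) (nat_lit 152) (nat_lit 33920686060) (nat_lit 76) (nat_lit 191919683602) (nat_lit 13) (nat_lit 5) (nat_lit 15) (nat_lit 5) (nat_lit 14) (nat_lit 5) (nat_lit 254) (nat_lit 243) (nat_lit 163))))))) (XT.nd (nat_lit 702) (nat_lit 304) (nat_lit 0) (XT.nd (nat_lit 312) (nat_lit 228) (nat_lit 0) (XT.nd (nat_lit 156) (nat_lit 76) (nat_lit 0) (XT.nd (nat_lit 78) (nat_lit 0) (nat_lit 0) (XT.lf (nat_lit 0) (nat_lit 68911094248) (nat_lit 228) (nat_lit 178703090259) (nat_lit 76) (nat_lit 26375643477) (nat_lit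 11) (nat_lit 5) (nat_lit 14) (nat_lit 5) (nat_lit 12) (nat_lit 4) (nat_lit 255) (nat_lit 243) (nat_lit 162)) (XT.lf (nat_lit 0) (nat_lit 125519172607) (nat_lit 228) (nat_lit 56996238487) (nat_lit 76) (nat_lit 118916062992) (nat_lit 11) (nat_lit 5) (nat_lit 14) (nat_lit 5) (nat_lit 12) (nat_lit 4) (nat_lit 256) (nat_lit 243) (nat_lit 161))) (XT.nd (nat_lit 78) (nat_lit 0) (nat_lit 0) (XT.lf (nat_lit 0) (nat_lit 91074269406) (nat_lit 76) (nat_lit 103315115851) (nat_lit 152) (nat_lit 138034344415) (nat_lit 10) (nat_lit 5) (nat_lit 11) (nat_lit 5) (nat_lit 12) (nat_lit 4) (nat_lit 257) (nat_lit 243) (nat_lit 160)) (XT.lf (nat_lit 0) (nat_lit 267760540249) (nat_lit 76) (nat_lit 8808687585) (nat_lit 152) (nat_lit 91048731880) (nat_lit 10) (nat_lit 5) (nat_lit 11) (nat_lit 5) (nat_lit 12) (nat_lit 4) (nat_lit 258) (nat_lit 243) (nat_lit 159)))) (XT.nd (nat_lit 156) (nat_lit 76) (nat_lit 0)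 (XT.nd (nat_lit 78) (nat_lit 76) (nat_lit 0) (XT.lf (nat_lit 0) (nat_lit 64461271564) (nat_lit 76) (nat_lit 313419312231) (nat_lit 76) (nat_lit 29190060636) (nat_lit 9) (nat_lit 4) (nat_lit 10) (nat_lit 5) (nat_lit 10) (nat_lit 4) (nat_lit 259) (nat_lit 243) (nat_lit 158)) (XT.lf (nat_lit 0) (nat_lit 44100585890) (nat_lit 152) (nat_lit 189413248822) (nat_lit 76) (nat_lit 217783711275) (nat_lit 8) (nat_lit 5) (nat_lit 10) (nat_lit 5) (nat_lit 9) (nat_lit 4) (nat_lit 260) (nat_lit 243) (nat_lit 157))) (XT.nd (nat_lit 78) (nat_lit 76) (nat_lit 0) (XT.lf (nat_lit 0) (nat_lit 125396131372) (nat_lit 152) (nat_lit 14628049419) (nat_lit 76) (nat_lit 361925830796) (nat_lit 8) (nat_lit 5) (nat_lit 10) (nat_lit 5) (nat_lit 9) (nat_lit 4) (nat_lit 261) (nat_lit 243) (nat_lit 156)) (XT.nd (nat_lit 78) (nat_lit 0) (nat_lit 0) (XT.lf (nat_lit 0) (nat_lit 204588518607) (nat_lit 76) (nat_lit 22768897543)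 (nat_lit 152) (nat_lit 331572220167) (nat_lit 7) (nat_lit 5) (nat_lit 8) (nat_lit 5) (nat_lit 9) (nat_lit 4) (nat_lit 262) (nat_lit 243) (nat_lit 155)) (XT.lf (nat_lit 0) (nat_lit 350054564971) (nat_lit 152) (nat_lit 170687428840) (nat_lit 0) (nat_lit 102897960601) (nat_lit 7) (nat_lit 5) (nat_lit 9) (nat_lit 4) (nat_lit 7) (nat_lit 4) (nat_lit 263) (nat_lit 243) (nat_lit 154)))))) (XT.nd (nat_lit 312) (nat_lit 152) (nat_lit 0) (XT.nd (nat_lit 156) (nat_lit 76) (nat_lit 0) (XT.nd (nat_lit 78) (nat_lit 0) (nat_lit 0) (XT.lf (nat_lit 0) (nat_lit 43283186856) (nat_lit 76) (nat_lit 450749456119) (nat_lit 76) (nat_lit 203592724029) (nat_lit 6) (nat_lit 4) (nat_lit 7) (nat_lit 5) (nat_lit 7) (nat_lit 4) (nat_lit 264) (nat_lit 243) (nat_lit 153)) (XT.lf (nat_lit 0) (nat_lit 308532084368) (nat_lit 76) (nat_lit 359997512923) (nat_lit 76) (nat_lit 112840669771) (nat_lit 6) (nat_lit 4) (nat_lit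 7) (nat_lit 5) (nat_lit 7) (nat_lit 4) (nat_lit 265) (nat_lit 243) (nat_lit 152))) (XT.nd (nat_lit 78) (nat_lit 76) (nat_lit 0) (XT.lf (nat_lit 0) (nat_lit 613568099128) (nat_lit 76) (nat_lit 255632880142) (nat_lit 76) (nat_lit 8475940416) (nat_lit 6) (nat_lit 4) (nat_lit 7) (nat_lit 5) (nat_lit 7) (nat_lit 4) (nat_lit 266) (nat_lit 243) (nat_lit 151)) (XT.lf (nat_lit 0) (nat_lit 101613019396) (nat_lit 152) (nat_lit 28689032002) (nat_lit 76) (nat_lit 857434718031) (nat_lit 5) (nat_lit 5) (nat_lit 7) (nat_lit 5) (nat_lit 6) (nat_lit 4) (nat_lit 267) (nat_lit 243) (nat_lit 150)))) (XT.nd (nat_lit 156) (nat_lit 76) (nat_lit 0) (XT.nd (nat_lit 78) (nat_lit 0) (nat_lit 0) (XT.lf (nat_lit 0) (nat_lit 239445941318) (nat_lit 152) (nat_lit 848457627318) (nat_lit 0) (nat_lit 24526726771) (nat_lit 4) (nat_lit 5) (nat_lit 6) (nat_lit 4) (nat_lit 4) (nat_lit 4) (nat_lit 268) (nat_lit 243) (nat_lit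 149)) (XT.lf (nat_lit 0) (nat_lit 405729637340) (nat_lit 152) (nat_lit 658121470131) (nat_lit 0) (nat_lit 190810367576) (nat_lit 4) (nat_lit 5) (nat_lit 6) (nat_lit 4) (nat_lit 4) (nat_lit 4) (nat_lit 269) (nat_lit 243) (nat_lit 148))) (XT.nd (nat_lit 78) (nat_lit 76) (nat_lit 0) (XT.lf (nat_lit 0) (nat_lit 596955809661) (nat_lit 152) (nat_lit 439235041919) (nat_lit 0) (nat_lit 382036491882) (nat_lit 4) (nat_lit 5) (nat_lit 6) (nat_lit 4) (nat_lit 4) (nat_lit 4) (nat_lit 270) (nat_lit 243) (nat_lit 147)) (XT.nd (nat_lit 78) (nat_lit 76) (nat_lit 0) (XT.lf (nat_lit 0) (nat_lit 816865839915) (nat_lit 152) (nat_lit 187515782130) (nat_lit 0) (nat_lit 601946480384) (nat_lit 4) (nat_lit 5) (nat_lit 6) (nat_lit 4) (nat_lit 4) (nat_lit 4) (nat_lit 271) (nat_lit 243) (nat_lit 146)) (XT.lf (nat_lit 0) (nat_lit 111925646284) (nat_lit 76) (nat_lit 962471271695) (nat_lit 76) (nat_lit 747551875859)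 (nat_lit 3) (nat_lit 4) (nat_lit 4) (nat_lit 5) (nat_lit 4) (nat_lit 4) (nat_lit 272) (nat_lit 243) (nat_lit 145))))))))
noncomputable def xc95 : XT := (XT.nd (nat_lit 1404) (nat_lit 0) (nat_lit 0) (XT.nd (nat_lit 702) (nat_lit 0) (nat_lit 0) (XT.nd (nat_lit 312) (nat_lit 152) (nat_lit 0) (XT.nd (nat_lit 156) (nat_lit 0) (nat_lit 0) (XT.nd (nat_lit 78) (nat_lit 0) (nat_lit 0) (XT.lf (nat_lit 0) (nat_lit 477357395730) (nat_lit 76) (nat_lit 903002167449) (nat_lit 76) (nat_lit 688082740042) (nat_lit 3) (nat_lit 4) (nat_lit 4) (nat_lit 5) (nat_lit 4) (nat_lit 4) (nat_lit 273) (nat_lit 243) (nat_lit 144)) (XT.lf (nat_lit 0) (nat_lit 897603811847) (nat_lit 76) (nat_lit 834612744692) (nat_lit 76) (nat_lit 619693289833) (nat_lit 3) (nat_lit 4) (nat_lit 4) (nat_lit 5) (nat_lit 4) (nat_lit 4) (nat_lit 274) (nat_lit 243) (nat_lit 143))) (XT.nd (nat_lit 78) (nat_lit 0) (nat_lit 0) (XT.lf (nat_lit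 0) (nat_lit 1380887107122) (nat_lit 76) (nat_lit 755964949502) (nat_lit 76) (nat_lit 541045470770) (nat_lit 3) (nat_lit 4) (nat_lit 4) (nat_lit 5) (nat_lit 4) (nat_lit 4) (nat_lit 275) (nat_lit 243) (nat_lit 142)) (XT.lf (nat_lit 0) (nat_lit 1936662824290) (nat_lit 76) (nat_lit 665520020668) (nat_lit 76) (nat_lit 450600521178) (nat_lit 3) (nat_lit 4) (nat_lit 4) (nat_lit 5) (nat_lit 4) (nat_lit 4) (nat_lit 276) (nat_lit 243) (nat_lit 141)))) (XT.nd (nat_lit 156) (nat_lit 152) (nat_lit 0) (XT.nd (nat_lit 78) (nat_lit 0) (nat_lit 0) (XT.lf (nat_lit 0) (nat_lit 2575804836078) (nat_lit 76) (nat_lit 561508383495) (nat_lit 76) (nat_lit 346588865954) (nat_lit 3) (nat_lit 4) (nat_lit 4) (nat_lit 5) (nat_lit 4) (nat_lit 4) (nat_lit 277) (nat_lit 243) (nat_lit 140)) (XT.lf (nat_lit 0) (nat_lit 3310818094891) (nat_lit 76) (nat_lit 441895027690) (nat_lit 76) (nat_lit 226975494454) (nat_lit 3) (nat_lit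 4) (nat_lit 4) (nat_lit 5) (nat_lit 4) (nat_lit 4) (nat_lit 278) (nat_lit 243) (nat_lit 139))) (XT.nd (nat_lit 78) (nat_lit 152) (nat_lit 0) (XT.lf (nat_lit 0) (nat_lit 4156083294922) (nat_lit 76) (nat_lit 304339691946) (nat_lit 76) (nat_lit 89420145061) (nat_lit 3) (nat_lit 4) (nat_lit 4) (nat_lit 5) (nat_lit 4) (nat_lit 4) (nat_lit 279) (nat_lit 243) (nat_lit 138)) (XT.nd (nat_lit 78) (nat_lit 76) (nat_lit 0) (XT.lf (nat_lit 0) (nat_lit 62646236681) (nat_lit 152) (nat_lit 80230149887) (nat_lit 76) (nat_lit 5062217307238) (nat_lit 2) (nat_lit 5) (nat_lit 4) (nat_lit 5) (nat_lit 3) (nat_lit 4) (nat_lit 280) (nat_lit 243) (nat_lit 137)) (XT.lf (nat_lit 0) (nat_lit 243489156204) (nat_lit 152) (nat_lit 5655633169042) (nat_lit 0) (nat_lit 56602574400) (nat_lit 1) (nat_lit 5) (nat_lit 3) (nat_lit 4) (nat_lit 1) (nat_lit 4) (nat_lit 281) (nat_lit 243) (nat_lit 136)))))) (XT.nd (nat_lit 312)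 (nat_lit 0) (nat_lit 0) (XT.nd (nat_lit 156) (nat_lit 0) (nat_lit 0) (XT.nd (nat_lit 78) (nat_lit 0) (nat_lit 0) (XT.lf (nat_lit 0) (nat_lit 462655688024) (nat_lit 152) (nat_lit 6078846423784) (nat_lit 0) (nat_lit 275769098417) (nat_lit 1) (nat_lit 5) (nat_lit 3) (nat_lit 4) (nat_lit 1) (nat_lit 4) (nat_lit 282) (nat_lit 243) (nat_lit 135)) (XT.lf (nat_lit 0) (nat_lit 714697183170) (nat_lit 152) (nat_lit 6565541699926) (nat_lit 0) (nat_lit 527810586777) (nat_lit 1) (nat_lit 5) (nat_lit 3) (nat_lit 4) (nat_lit 1) (nat_lit 4) (nat_lit 283) (nat_lit 243) (nat_lit 134))) (XT.nd (nat_lit 78) (nat_lit 0) (nat_lit 0) (XT.lf (nat_lit 0) (nat_lit 1004544888287) (nat_lit 152) (nat_lit 7125241296349) (nat_lit 0) (nat_lit 817658285993) (nat_lit 1) (nat_lit 5) (nat_lit 3) (nat_lit 4) (nat_lit 1) (nat_lit 4) (nat_lit 284) (nat_lit 243) (nat_lit 133)) (XT.lf (nat_lit 0) (nat_lit 1337869736735) (nat_lit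 152) (nat_lit 7768895857331) (nat_lit 0) (nat_lit 1150983129310) (nat_lit 1) (nat_lit 5) (nat_lit 3) (nat_lit 4) (nat_lit 1) (nat_lit 4) (nat_lit 285) (nat_lit 243) (nat_lit 132)))) (XT.nd (nat_lit 156) (nat_lit 0) (nat_lit 0) (XT.nd (nat_lit 78) (nat_lit 0) (nat_lit 0) (XT.lf (nat_lit 0) (nat_lit 1721193301636) (nat_lit 152) (nat_lit 8509098624282) (nat_lit 0) (nat_lit 1534306689749) (nat_lit 1) (nat_lit 5) (nat_lit 3) (nat_lit 4) (nat_lit 1) (nat_lit 4) (nat_lit 286) (nat_lit 243) (nat_lit 131)) (XT.lf (nat_lit 0) (nat_lit 2162015391869) (nat_lit 152) (nat_lit 9360331825252) (nat_lit 0) (nat_lit 1975128776103) (nat_lit 1) (nat_lit 5) (nat_lit 3) (nat_lit 4) (nat_lit 1) (nat_lit 4) (nat_lit 287) (nat_lit 243) (nat_lit 130))) (XT.nd (nat_lit 78) (nat_lit 0) (nat_lit 0) (XT.lf (nat_lit 0) (nat_lit 2668960787460) (nat_lit 152) (nat_lit 10339250022867) (nat_lit 0) (nat_lit 2482074168320)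 (nat_lit 1) (nat_lit 5) (nat_lit 3) (nat_lit 4) (nat_lit 1) (nat_lit 4) (nat_lit 288) (nat_lit 243) (nat_lit 129)) (XT.nd (nat_lit 78) (nat_lit 0) (nat_lit 0) (XT.lf (nat_lit 0) (nat_lit 3251947985279) (nat_lit 152) (nat_lit 11465005964474) (nat_lit 0) (nat_lit 3065061363205) (nat_lit 1) (nat_lit 5) (nat_lit 3) (nat_lit 4) (nat_lit 1) (nat_lit 4) (nat_lit 289) (nat_lit 243) (nat_lit 128)) (XT.lf (nat_lit 0) (nat_lit 3922383256589) (nat_lit 152) (nat_lit 12759625309798) (nat_lit 0) (nat_lit 3735496631964) (nat_lit 1) (nat_lit 5) (nat_lit 3) (nat_lit 4) (nat_lit 1) (nat_lit 4) (nat_lit 290) (nat_lit 243) (nat_lit 127))))))) (XT.nd (nat_lit 30888) (nat_lit 0) (nat_lit 988) (XT.nd (nat_lit 1170) (nat_lit 0) (nat_lit 0) (XT.nd (nat_lit 156) (nat_lit 0) (nat_lit 0) (XT.nd (nat_lit 78) (nat_lit 0) (nat_lit 0) (XT.lf (nat_lit 0) (nat_lit 4693383813218) (nat_lit 152) (nat_lit 14248437567770)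 (nat_lit 0) (nat_lit 4506497186375) (nat_lit 1) (nat_lit 5) (nat_lit 3) (nat_lit 4) (nat_lit 1) (nat_lit 4) (nat_lit 291) (nat_lit 243) (nat_lit 126)) (XT.lf (nat_lit 0) (nat_lit 5580034448666) (nat_lit 152) (nat_lit 15960571673872) (nat_lit 0) (nat_lit 5393147819894) (nat_lit 1) (nat_lit 5) (nat_lit 3) (nat_lit 4) (nat_lit 1) (nat_lit 4) (nat_lit 292) (nat_lit 243) (nat_lit 125))) (XT.nd (nat_lit 936) (nat_lit 0) (nat_lit 0) (XT.lf (nat_lit 0) (nat_lit 6599682675366) (nat_lit 152) (nat_lit 17929525904093) (nat_lit 0) (nat_lit 6412796044917) (nat_lit 1) (nat_lit 5) (nat_lit 3) (nat_lit 4) (nat_lit 1) (nat_lit 4) (nat_lit 293) (nat_lit 243) (nat_lit 124)) (XT.lf (nat_lit 0) (nat_lit 40606905834008) (nat_lit 152) (nat_lit 83597925613577) (nat_lit 0) (nat_lit 40420019194466) (nat_lit 1) (nat_lit 5) (nat_lit 3) (nat_lit 4) (nat_lit 1) (nat_lit 4) (nat_lit 305) (nat_lit 243) (nat_lit 112))))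 (XT.nd (nat_lit 156) (nat_lit 0) (nat_lit 0) (XT.nd (nat_lit 78) (nat_lit 0) (nat_lit 0) (XT.lf (nat_lit 0) (nat_lit 46880584745812) (nat_lit 152) (nat_lit 95712482980557) (nat_lit 0) (nat_lit 46693698105997) (nat_lit 1) (nat_lit 5) (nat_lit 3) (nat_lit 4) (nat_lit 1) (nat_lit 4) (nat_lit 306) (nat_lit 243) (nat_lit 111)) (XT.lf (nat_lit 0) (nat_lit 54095315493812) (nat_lit 152) (nat_lit 109644223953743) (nat_lit 0) (nat_lit 53908428853760) (nat_lit 1) (nat_lit 5) (nat_lit 3) (nat_lit 4) (nat_lit 1) (nat_lit 4) (nat_lit 307) (nat_lit 243) (nat_lit 110))) (XT.nd (nat_lit 29406) (nat_lit 0) (nat_lit 1368) (XT.lf (nat_lit 0) (nat_lit 62392255853512) (nat_lit 152) (nat_lit 125665726073914) (nat_lit 0) (nat_lit 62205369213254) (nat_lit 1) (nat_lit 5) (nat_lit 3) (nat_lit 4) (nat_lit 1) (nat_lit 4) (nat_lit 308) (nat_lit 243) (nat_lit 109)) (XT.nd (nat_lit 78) (nat_lit 0) (nat_lit 0) (XT.lf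 (nat_lit 0) (nat_lit 5320265117) (nat_lit 380) (nat_lit 26547723530) (nat_lit 380) (nat_lit 26547723530) (nat_lit 19) (nat_lit 3) (nat_lit 24) (nat_lit 3) (nat_lit 24) (nat_lit 5) (nat_lit 244) (nat_lit 244) (nat_lit 172)) (XT.lf (nat_lit 0) (nat_lit 11442872633) (nat_lit 380) (nat_lit 370566781) (nat_lit 380) (nat_lit 113779671594) (nat_lit 19) (nat_lit 3) (nat_lit 24) (nat_lit 3) (nat_lit 24) (nat_lit 5) (nat_lit 245) (nat_lit 244) (nat_lit 171)))))) (XT.nd (nat_lit 312) (nat_lit 456) (nat_lit 0) (XT.nd (nat_lit 156) (nat_lit 0) (nat_lit 76) (XT.nd (nat_lit 78) (nat_lit 0) (nat_lit 0) (XT.lf (nat_lit 0) (nat_lit 17217793906) (nat_lit 304) (nat_lit 71220170348) (nat_lit 380) (nat_lit 46503256688) (nat_lit 20) (nat_lit 5) (nat_lit 24) (nat_lit 5) (nat_lit 25) (nat_lit 5) (nat_lit 246) (nat_lit 244) (nat_lit 170)) (XT.lf (nat_lit 0) (nat_lit 24441118185) (nat_lit 304) (nat_lit 8784591486)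 (nat_lit 380) (nat_lit 112378516810) (nat_lit 20) (nat_lit 5) (nat_lit 24) (nat_lit 5) (nat_lit 25) (nat_lit 5) (nat_lit 247) (nat_lit 244) (nat_lit 169))) (XT.nd (nat_lit 78) (nat_lit 0) (nat_lit 0) (XT.lf (nat_lit 0) (nat_lit 37001464989) (nat_lit 304) (nat_lit 89652649886) (nat_lit 76) (nat_lit 30574542731) (nat_lit 21) (nat_lit 5) (nat_lit 25) (nat_lit 5) (nat_lit 22) (nat_lit 5) (nat_lit 248) (nat_lit 244) (nat_lit 168)) (XT.lf (nat_lit 0) (nat_lit 53508577377) (nat_lit 304) (nat_lit 15754485502) (nat_lit 76) (nat_lit 101024286385) (nat_lit 21) (nat_lit 5) (nat_lit 25) (nat_lit 5) (nat_lit 22) (nat_lit 5) (nat_lit 249) (nat_lit 244) (nat_lit 167)))) (XT.nd (nat_lit 156) (nat_lit 228) (nat_lit 0) (XT.nd (nat_lit 78) (nat_lit 0) (nat_lit 0) (XT.lf (nat_lit 0) (nat_lit 75652740662) (nat_lit 380) (nat_lit 108854224546) (nat_lit 76) (nat_lit 323734381) (nat_lit 17) (nat_lit 5) (nat_lit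 22) (nat_lit 5) (nat_lit 18) (nat_lit 5) (nat_lit 250) (nat_lit 244) (nat_lit 166)) (XT.lf (nat_lit 0) (nat_lit 105279099413) (nat_lit 380) (nat_lit 21532316669) (nat_lit 76) (nat_lit 74120052928) (nat_lit 17) (nat_lit 5) (nat_lit 22) (nat_lit 5) (nat_lit 18) (nat_lit 5) (nat_lit 251) (nat_lit 244) (nat_lit 165))) (XT.nd (nat_lit 78) (nat_lit 76) (nat_lit 0) (XT.lf (nat_lit 0) (nat_lit 86596891590) (nat_lit 152) (nat_lit 56337951477) (nat_lit 228) (nat_lit 75974698021) (nat_lit 15) (nat_lit 5) (nat_lit 17) (nat_lit 5) (nat_lit 18) (nat_lit 5) (nat_lit 252) (nat_lit 244) (nat_lit 164)) (XT.nd (nat_lit 78) (nat_lit 76) (nat_lit 0) (XT.lf (nat_lit 0) (nat_lit 188440808375) (nat_lit 228) (nat_lit 27127181468) (nat_lit 76) (nat_lit 23686056777) (nat_lit 15) (nat_lit 5) (nat_lit 18) (nat_lit 5) (nat_lit 16) (nat_lit 4) (nat_lit 253) (nat_lit 244) (nat_lit 163)) (XT.lf (nat_lit 0) (nat_lit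 100061068759) (nat_lit 76) (nat_lit 147537383134) (nat_lit 152) (nat_lit 14027910022) (nat_lit 14) (nat_lit 5) (nat_lit 15) (nat_lit 5) (nat_lit 16) (nat_lit 4) (nat_lit 254) (nat_lit 244) (nat_lit 162))))))))
noncomputable def xc96 : XT := (XT.nd (nat_lit 1326) (nat_lit 228) (nat_lit 0) (XT.nd (nat_lit 624) (nat_lit 304) (nat_lit 0) (XT.nd (nat_lit 312) (nat_lit 152) (nat_lit 0) (XT.nd (nat_lit 156) (nat_lit 76) (nat_lit 0) (XT.nd (nat_lit 78) (nat_lit 152) (nat_lit 0) (XT.lf (nat_lit 0) (nat_lit 27243214506) (nat_lit 152) (nat_lit 39004298779) (nat_lit 76) (nat_lit 220708601971) (nat_lit 13) (nat_lit 5) (nat_lit 15) (nat_lit 5) (nat_lit 14) (nat_lit 5) (nat_lit 255) (nat_lit 244) (nat_lit 161)) (XT.lf (nat_lit 0) (nat_lit 79250652055) (nat_lit 228) (nat_lit 205503892615) (nat_lit 76) (nat_lit 30333313250) (nat_lit 11) (nat_lit 5) (nat_lit 14) (nat_lit 5) (nat_lit 12) (nat_lit 4) (nat_lit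 256) (nat_lit 244) (nat_lit 160))) (XT.nd (nat_lit 78) (nat_lit 76) (nat_lit 0) (XT.lf (nat_lit 0) (nat_lit 144349564733) (nat_lit 228) (nat_lit 65541621057) (nat_lit 76) (nat_lit 136754623094) (nat_lit 11) (nat_lit 5) (nat_lit 14) (nat_lit 5) (nat_lit 12) (nat_lit 4) (nat_lit 257) (nat_lit 244) (nat_lit 159)) (XT.lf (nat_lit 0) (nat_lit 104739278783) (nat_lit 76) (nat_lit 118810862498) (nat_lit 152) (nat_lit 158736787884) (nat_lit 10) (nat_lit 5) (nat_lit 11) (nat_lit 5) (nat_lit 12) (nat_lit 4) (nat_lit 258) (nat_lit 244) (nat_lit 158)))) (XT.nd (nat_lit 156) (nat_lit 76) (nat_lit 0) (XT.nd (nat_lit 78) (nat_lit 76) (nat_lit 0) (XT.lf (nat_lit 0) (nat_lit 307927985605) (nat_lit 76) (nat_lit 10128668349) (nat_lit 152) (nat_lit 104703686711) (nat_lit 10) (nat_lit 5) (nat_lit 11) (nat_lit 5) (nat_lit 12) (nat_lit 4) (nat_lit 259) (nat_lit 244) (nat_lit 157)) (XT.lf (nat_lit 0) (nat_lit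 74133920204) (nat_lit 76) (nat_lit 360430717563) (nat_lit 76) (nat_lit 33566302529) (nat_lit 9) (nat_lit 4) (nat_lit 10) (nat_lit 5) (nat_lit 10) (nat_lit 4) (nat_lit 260) (nat_lit 244) (nat_lit 156))) (XT.nd (nat_lit 78) (nat_lit 0) (nat_lit 0) (XT.lf (nat_lit 0) (nat_lit 50717469738) (nat_lit 152) (nat_lit 217822049341) (nat_lit 76) (nat_lit 250452384996) (nat_lit 8) (nat_lit 5) (nat_lit 10) (nat_lit 5) (nat_lit 9) (nat_lit 4) (nat_lit 261) (nat_lit 244) (nat_lit 155)) (XT.lf (nat_lit 0) (nat_lit 144207112786) (nat_lit 152) (nat_lit 16819485697) (nat_lit 76) (nat_lit 416215676746) (nat_lit 8) (nat_lit 5) (nat_lit 10) (nat_lit 5) (nat_lit 9) (nat_lit 4) (nat_lit 262) (nat_lit 244) (nat_lit 154))))) (XT.nd (nat_lit 312) (nat_lit 152) (nat_lit 0) (XT.nd (nat_lit 156) (nat_lit 76) (nat_lit 0) (XT.nd (nat_lit 78) (nat_lit 0) (nat_lit 0) (XT.lf (nat_lit 0) (nat_lit 235279441571) (nat_lit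 76) (nat_lit 26183054539) (nat_lit 152) (nat_lit 381306362184) (nat_lit 7) (nat_lit 5) (nat_lit 8) (nat_lit 5) (nat_lit 9) (nat_lit 4) (nat_lit 263) (nat_lit 244) (nat_lit 153)) (XT.lf (nat_lit 0) (nat_lit 402564068241) (nat_lit 152) (nat_lit 196288091097) (nat_lit 0) (nat_lit 118333587555) (nat_lit 7) (nat_lit 5) (nat_lit 9) (nat_lit 4) (nat_lit 7) (nat_lit 4) (nat_lit 264) (nat_lit 244) (nat_lit 152))) (XT.nd (nat_lit 78) (nat_lit 0) (nat_lit 0) (XT.lf (nat_lit 0) (nat_lit 49778005496) (nat_lit 76) (nat_lit 518360777388) (nat_lit 76) (nat_lit 234130200128) (nat_lit 6) (nat_lit 4) (nat_lit 7) (nat_lit 5) (nat_lit 7) (nat_lit 4) (nat_lit 265) (nat_lit 244) (nat_lit 151)) (XT.lf (nat_lit 0) (nat_lit 354813932338) (nat_lit 76) (nat_lit 413996185818) (nat_lit 76) (nat_lit 129765524580) (nat_lit 6) (nat_lit 4) (nat_lit 7) (nat_lit 5) (nat_lit 7) (nat_lit 4) (nat_lit 266) (nat_lit 244) (nat_lit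 150)))) (XT.nd (nat_lit 156) (nat_lit 76) (nat_lit 0) (XT.nd (nat_lit 78) (nat_lit 76) (nat_lit 0) (XT.lf (nat_lit 0) (nat_lit 705605083836) (nat_lit 76) (nat_lit 293976982561) (nat_lit 76) (nat_lit 9746248298) (nat_lit 6) (nat_lit 4) (nat_lit 7) (nat_lit 5) (nat_lit 7) (nat_lit 4) (nat_lit 267) (nat_lit 244) (nat_lit 149)) (XT.lf (nat_lit 0) (nat_lit 116855830346) (nat_lit 152) (nat_lit 32990762516) (nat_lit 76) (nat_lit 986050561832) (nat_lit 5) (nat_lit 5) (nat_lit 7) (nat_lit 5) (nat_lit 6) (nat_lit 4) (nat_lit 268) (nat_lit 244) (nat_lit 148))) (XT.nd (nat_lit 78) (nat_lit 0) (nat_lit 0) (XT.lf (nat_lit 0) (nat_lit 275363673488) (nat_lit 152) (nat_lit 975724628804) (nat_lit 0) (nat_lit 28206410027) (nat_lit 4) (nat_lit 5) (nat_lit 6) (nat_lit 4) (nat_lit 4) (nat_lit 4) (nat_lit 269) (nat_lit 244) (nat_lit 147)) (XT.nd (nat_lit 78) (nat_lit 0) (nat_lit 0) (XT.lf (nat_lit 0) (nat_lit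 466589814220) (nat_lit 152) (nat_lit 756838262292) (nat_lit 0) (nat_lit 219432509008) (nat_lit 4) (nat_lit 5) (nat_lit 6) (nat_lit 4) (nat_lit 4) (nat_lit 4) (nat_lit 270) (nat_lit 244) (nat_lit 146)) (XT.lf (nat_lit 0) (nat_lit 686499817005) (nat_lit 152) (nat_lit 505119056156) (nat_lit 0) (nat_lit 439342475487) (nat_lit 4) (nat_lit 5) (nat_lit 6) (nat_lit 4) (nat_lit 4) (nat_lit 4) (nat_lit 271) (nat_lit 244) (nat_lit 145))))))) (XT.nd (nat_lit 702) (nat_lit 152) (nat_lit 0) (XT.nd (nat_lit 312) (nat_lit 0) (nat_lit 0) (XT.nd (nat_lit 156) (nat_lit 0) (nat_lit 0) (XT.nd (nat_lit 78) (nat_lit 76) (nat_lit 0) (XT.lf (nat_lit 0) (nat_lit 939396268854) (nat_lit 152) (nat_lit 215642069406) (nat_lit 0) (nat_lit 692238895766) (nat_lit 4) (nat_lit 5) (nat_lit 6) (nat_lit 4) (nat_lit 4) (nat_lit 4) (nat_lit 272) (nat_lit 244) (nat_lit 144)) (XT.lf (nat_lit 0) (nat_lit 128715524178) (nat_lit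 76) (nat_lit 1106841455016) (nat_lit 76) (nat_lit 859684054475) (nat_lit 3) (nat_lit 4) (nat_lit 4) (nat_lit 5) (nat_lit 4) (nat_lit 4) (nat_lit 273) (nat_lit 244) (nat_lit 143))) (XT.nd (nat_lit 78) (nat_lit 0) (nat_lit 0) (XT.lf (nat_lit 0) (nat_lit 548961901569) (nat_lit 76) (nat_lit 1038452051320) (nat_lit 76) (nat_lit 791294626907) (nat_lit 3) (nat_lit 4) (nat_lit 4) (nat_lit 5) (nat_lit 4) (nat_lit 4) (nat_lit 274) (nat_lit 244) (nat_lit 142)) (XT.lf (nat_lit 0) (nat_lit 1032245163171) (nat_lit 76) (nat_lit 959804272704) (nat_lit 76) (nat_lit 712646827532) (nat_lit 3) (nat_lit 4) (nat_lit 4) (nat_lit 5) (nat_lit 4) (nat_lit 4) (nat_lit 275) (nat_lit 244) (nat_lit 141)))) (XT.nd (nat_lit 156) (nat_lit 0) (nat_lit 0) (XT.nd (nat_lit 78) (nat_lit 0) (nat_lit 0) (XT.lf (nat_lit 0) (nat_lit 1588020851058) (nat_lit 76) (nat_lit 869359358281) (nat_lit 76) (nat_lit 622201895060) (nat_lit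 3) (nat_lit 4) (nat_lit 4) (nat_lit 5) (nat_lit 4) (nat_lit 4) (nat_lit 276) (nat_lit 244) (nat_lit 140)) (XT.lf (nat_lit 0) (nat_lit 2227162837384) (nat_lit 76) (nat_lit 765347733641) (nat_lit 76) (nat_lit 518190254723) (nat_lit 3) (nat_lit 4) (nat_lit 4) (nat_lit 5) (nat_lit 4) (nat_lit 4) (nat_lit 277) (nat_lit 244) (nat_lit 139))) (XT.nd (nat_lit 78) (nat_lit 0) (nat_lit 0) (XT.lf (nat_lit 0) (nat_lit 2962176074055) (nat_lit 76) (nat_lit 645734388735) (nat_lit 76) (nat_lit 398576896168) (nat_lit 3) (nat_lit 4) (nat_lit 4) (nat_lit 5) (nat_lit 4) (nat_lit 4) (nat_lit 278) (nat_lit 244) (nat_lit 138)) (XT.nd (nat_lit 78) (nat_lit 0) (nat_lit 0) (XT.lf (nat_lit 0) (nat_lit 3807441254833) (nat_lit 76) (nat_lit 508179062466) (nat_lit 76) (nat_lit 261021558031) (nat_lit 3) (nat_lit 4) (nat_lit 4) (nat_lit 5) (nat_lit 4) (nat_lit 4) (nat_lit 279) (nat_lit 244) (nat_lit 137)) (XT.lf (nat_lit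 0) (nat_lit 4779496176733) (nat_lit 76) (nat_lit 349990454975) (nat_lit 76) (nat_lit 102832940219) (nat_lit 3) (nat_lit 4) (nat_lit 4) (nat_lit 5) (nat_lit 4) (nat_lit 4) (nat_lit 280) (nat_lit 244) (nat_lit 136)))))) (XT.nd (nat_lit 312) (nat_lit 0) (nat_lit 0) (XT.nd (nat_lit 156) (nat_lit 0) (nat_lit 0) (XT.nd (nat_lit 78) (nat_lit 76) (nat_lit 0) (XT.lf (nat_lit 0) (nat_lit 72043351685) (nat_lit 152) (nat_lit 92264317605) (nat_lit 76) (nat_lit 5821550051458) (nat_lit 2) (nat_lit 5) (nat_lit 4) (nat_lit 5) (nat_lit 3) (nat_lit 4) (nat_lit 281) (nat_lit 244) (nat_lit 135)) (XT.lf (nat_lit 0) (nat_lit 280012706724) (nat_lit 152) (nat_lit 6503977787042) (nat_lit 0) (nat_lit 65093114086) (nat_lit 1) (nat_lit 5) (nat_lit 3) (nat_lit 4) (nat_lit 1) (nat_lit 4) (nat_lit 282) (nat_lit 244) (nat_lit 134))) (XT.nd (nat_lit 78) (nat_lit 0) (nat_lit 0) (XT.lf (nat_lit 0) (nat_lit 532054195218)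 (nat_lit 152) (nat_lit 6990673076607) (nat_lit 0) (nat_lit 317134596680) (nat_lit 1) (nat_lit 5) (nat_lit 3) (nat_lit 4) (nat_lit 1) (nat_lit 4) (nat_lit 283) (nat_lit 244) (nat_lit 133)) (XT.lf (nat_lit 0) (nat_lit 821901894551) (nat_lit 152) (nat_lit 7550372684703) (nat_lit 0) (nat_lit 606982290881) (nat_lit 1) (nat_lit 5) (nat_lit 3) (nat_lit 4) (nat_lit 1) (nat_lit 4) (nat_lit 284) (nat_lit 244) (nat_lit 132)))) (XT.nd (nat_lit 156) (nat_lit 0) (nat_lit 0) (XT.nd (nat_lit 78) (nat_lit 0) (nat_lit 0) (XT.lf (nat_lit 0) (nat_lit 1155226737969) (nat_lit 152) (nat_lit 8194027255834) (nat_lit 0) (nat_lit 940307129838) (nat_lit 1) (nat_lit 5) (nat_lit 3) (nat_lit 4) (nat_lit 1) (nat_lit 4) (nat_lit 285) (nat_lit 244) (nat_lit 131)) (XT.lf (nat_lit 0) (nat_lit 1538550298497) (nat_lit 152) (nat_lit 8934230031611) (nat_lit 0) (nat_lit 1323630686485) (nat_lit 1) (nat_lit 5) (nat_lit 3) (nat_lit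 4) (nat_lit 1) (nat_lit 4) (nat_lit 286) (nat_lit 244) (nat_lit 130))) (XT.nd (nat_lit 78) (nat_lit 0) (nat_lit 0) (XT.lf (nat_lit 0) (nat_lit 1979372384926) (nat_lit 152) (nat_lit 9785463240256) (nat_lit 0) (nat_lit 1764452769541) (nat_lit 1) (nat_lit 5) (nat_lit 3) (nat_lit 4) (nat_lit 1) (nat_lit 4) (nat_lit 287) (nat_lit 244) (nat_lit 129)) (XT.nd (nat_lit 78) (nat_lit 0) (nat_lit 0) (XT.lf (nat_lit 0) (nat_lit 2486317777210) (nat_lit 152) (nat_lit 10764381444545) (nat_lit 0) (nat_lit 2271398158891) (nat_lit 1) (nat_lit 5) (nat_lit 3) (nat_lit 4) (nat_lit 1) (nat_lit 4) (nat_lit 288) (nat_lit 244) (nat_lit 128)) (XT.lf (nat_lit 0) (nat_lit 3069304972154) (nat_lit 152) (nat_lit 11890137391954) (nat_lit 0) (nat_lit 2854385351284) (nat_lit 1) (nat_lit 5) (nat_lit 3) (nat_lit 4) (nat_lit 1) (nat_lit 4) (nat_lit 289) (nat_lit 244) (nat_lit 127))))))))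
noncomputable def xc97 : XT := (XT.nd (nat_lit 31746) (nat_lit 0) (nat_lit 228) (XT.nd (nat_lit 31044) (nat_lit 0) (nat_lit 988) (XT.nd (nat_lit 1170) (nat_lit 0) (nat_lit 0) (XT.nd (nat_lit 156) (nat_lit 0) (nat_lit 0) (XT.nd (nat_lit 78) (nat_lit 0) (nat_lit 0) (XT.lf (nat_lit 0) (nat_lit 3739740240962) (nat_lit 152) (nat_lit 13184756742325) (nat_lit 0) (nat_lit 3524820617874) (nat_lit 1) (nat_lit 5) (nat_lit 3) (nat_lit 4) (nat_lit 1) (nat_lit 4) (nat_lit 290) (nat_lit 244) (nat_lit 126)) (XT.lf (nat_lit 0) (nat_lit 4510740795417) (nat_lit 152) (nat_lit 14673569004685) (nat_lit 0) (nat_lit 4295821170400) (nat_lit 1) (nat_lit 5) (nat_lit 3) (nat_lit 4) (nat_lit 1) (nat_lit 4) (nat_lit 291) (nat_lit 244) (nat_lit 125))) (XT.nd (nat_lit 78) (nat_lit 0) (nat_lit 0) (XT.lf (nat_lit 0) (nat_lit 5397391428974) (nat_lit 152) (nat_lit 16385703114602) (nat_lit 0) (nat_lit 5182471802280) (nat_lit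 1) (nat_lit 5) (nat_lit 3) (nat_lit 4) (nat_lit 1) (nat_lit 4) (nat_lit 292) (nat_lit 244) (nat_lit 124)) (XT.lf (nat_lit 0) (nat_lit 6417039654030) (nat_lit 152) (nat_lit 18354657348141) (nat_lit 0) (nat_lit 6202120025877) (nat_lit 1) (nat_lit 5) (nat_lit 3) (nat_lit 4) (nat_lit 1) (nat_lit 4) (nat_lit 293) (nat_lit 244) (nat_lit 123)))) (XT.nd (nat_lit 156) (nat_lit 0) (nat_lit 0) (XT.nd (nat_lit 78) (nat_lit 0) (nat_lit 0) (XT.lf (nat_lit 0) (nat_lit 40424262803759) (nat_lit 152) (nat_lit 84023057075611) (nat_lit 0) (nat_lit 40209343167700) (nat_lit 1) (nat_lit 5) (nat_lit 3) (nat_lit 4) (nat_lit 1) (nat_lit 4) (nat_lit 305) (nat_lit 244) (nat_lit 111)) (XT.lf (nat_lit 0) (nat_lit 46697941715296) (nat_lit 152) (nat_lit 96137614443130) (nat_lit 0) (nat_lit 46483022078999) (nat_lit 1) (nat_lit 5) (nat_lit 3) (nat_lit 4) (nat_lit 1) (nat_lit 4) (nat_lit 306) (nat_lit 244) (nat_lit 110)))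 (XT.nd (nat_lit 29562) (nat_lit 0) (nat_lit 1368) (XT.lf (nat_lit 0) (nat_lit 53912672463063) (nat_lit 152) (nat_lit 110069355416785) (nat_lit 0) (nat_lit 53697752826561) (nat_lit 1) (nat_lit 5) (nat_lit 3) (nat_lit 4) (nat_lit 1) (nat_lit 4) (nat_lit 307) (nat_lit 244) (nat_lit 109)) (XT.nd (nat_lit 78) (nat_lit 0) (nat_lit 0) (XT.lf (nat_lit 0) (nat_lit 6122429353) (nat_lit 380) (nat_lit 30527498613) (nat_lit 380) (nat_lit 30527498613) (nat_lit 19) (nat_lit 3) (nat_lit 24) (nat_lit 3) (nat_lit 24) (nat_lit 5) (nat_lit 245) (nat_lit 245) (nat_lit 170)) (XT.lf (nat_lit 0) (nat_lit 13166476517) (nat_lit 380) (nat_lit 422006673) (nat_lit 380) (nat_lit 130842477209) (nat_lit 19) (nat_lit 3) (nat_lit 24) (nat_lit 3) (nat_lit 24) (nat_lit 5) (nat_lit 246) (nat_lit 245) (nat_lit 169)))))) (XT.nd (nat_lit 312) (nat_lit 456) (nat_lit 0) (XT.nd (nat_lit 156) (nat_lit 0) (nat_lit 76) (XT.nd (nat_lit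 78) (nat_lit 0) (nat_lit 0) (XT.lf (nat_lit 0) (nat_lit 19806762990) (nat_lit 304) (nat_lit 81898141862) (nat_lit 380) (nat_lit 53476518308) (nat_lit 20) (nat_lit 5) (nat_lit 24) (nat_lit 5) (nat_lit 25) (nat_lit 5) (nat_lit 247) (nat_lit 245) (nat_lit 168)) (XT.lf (nat_lit 0) (nat_lit 28112764172) (nat_lit 304) (nat_lit 10097885393) (nat_lit 380) (nat_lit 129233357912) (nat_lit 20) (nat_lit 5) (nat_lit 24) (nat_lit 5) (nat_lit 25) (nat_lit 5) (nat_lit 248) (nat_lit 245) (nat_lit 167))) (XT.nd (nat_lit 78) (nat_lit 0) (nat_lit 0) (XT.lf (nat_lit 0) (nat_lit 42556591409) (nat_lit 304) (nat_lit 103095553803) (nat_lit 76) (nat_lit 35160047870) (nat_lit 21) (nat_lit 5) (nat_lit 25) (nat_lit 5) (nat_lit 22) (nat_lit 5) (nat_lit 249) (nat_lit 245) (nat_lit 166)) (XT.lf (nat_lit 0) (nat_lit 61539130655) (nat_lit 304) (nat_lit 18113316097) (nat_lit 76) (nat_lit 116177341282) (nat_lit 21) (nat_lit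 5) (nat_lit 25) (nat_lit 5) (nat_lit 22) (nat_lit 5) (nat_lit 250) (nat_lit 245) (nat_lit 165)))) (XT.nd (nat_lit 156) (nat_lit 228) (nat_lit 0) (XT.nd (nat_lit 78) (nat_lit 0) (nat_lit 0) (XT.lf (nat_lit 0) (nat_lit 87004544434) (nat_lit 380) (nat_lit 125177621458) (nat_lit 76) (nat_lit 372534196) (nat_lit 17) (nat_lit 5) (nat_lit 22) (nat_lit 5) (nat_lit 18) (nat_lit 5) (nat_lit 251) (nat_lit 245) (nat_lit 164)) (XT.lf (nat_lit 0) (nat_lit 121074349258) (nat_lit 380) (nat_lit 24758045239) (nat_lit 76) (nat_lit 85238269265) (nat_lit 17) (nat_lit 5) (nat_lit 22) (nat_lit 5) (nat_lit 18) (nat_lit 5) (nat_lit 252) (nat_lit 245) (nat_lit 163))) (XT.nd (nat_lit 78) (nat_lit 76) (nat_lit 0) (XT.lf (nat_lit 0) (nat_lit 99590357035) (nat_lit 152) (nat_lit 64787818715) (nat_lit 228) (nat_lit 87367315037) (nat_lit 15) (nat_lit 5) (nat_lit 17) (nat_lit 5) (nat_lit 18) (nat_lit 5) (nat_lit 253)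 (nat_lit 245) (nat_lit 162)) (XT.nd (nat_lit 78) (nat_lit 76) (nat_lit 0) (XT.lf (nat_lit 0) (nat_lit 216709660418) (nat_lit 228) (nat_lit 31192450872) (nat_lit 76) (nat_lit 27239619201) (nat_lit 15) (nat_lit 5) (nat_lit 18) (nat_lit 5) (nat_lit 16) (nat_lit 4) (nat_lit 254) (nat_lit 245) (nat_lit 161)) (XT.lf (nat_lit 0) (nat_lit 115073863806) (nat_lit 76) (nat_lit 169666880974) (nat_lit 152) (nat_lit 16129180913) (nat_lit 14) (nat_lit 5) (nat_lit 15) (nat_lit 5) (nat_lit 16) (nat_lit 4) (nat_lit 255) (nat_lit 245) (nat_lit 160))))))) (XT.nd (nat_lit 702) (nat_lit 228) (nat_lit 0) (XT.nd (nat_lit 312) (nat_lit 228) (nat_lit 0) (XT.nd (nat_lit 156) (nat_lit 76) (nat_lit 0) (XT.nd (nat_lit 78) (nat_lit 152) (nat_lit 0) (XT.lf (nat_lit 0) (nat_lit 31332006286) (nat_lit 152) (nat_lit 44851548367) (nat_lit 76) (nat_lit 253815622572) (nat_lit 13) (nat_lit 5) (nat_lit 15) (nat_lit 5) (nat_lit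 14) (nat_lit 5) (nat_lit 256) (nat_lit 245) (nat_lit 159)) (XT.lf (nat_lit 0) (nat_lit 91140437894) (nat_lit 228) (nat_lit 236325951983) (nat_lit 76) (nat_lit 34884310805) (nat_lit 11) (nat_lit 5) (nat_lit 14) (nat_lit 5) (nat_lit 12) (nat_lit 4) (nat_lit 257) (nat_lit 245) (nat_lit 158))) (XT.nd (nat_lit 78) (nat_lit 76) (nat_lit 0) (XT.lf (nat_lit 0) (nat_lit 166003902078) (nat_lit 228) (nat_lit 75369799412) (nat_lit 76) (nat_lit 157268686617) (nat_lit 11) (nat_lit 5) (nat_lit 14) (nat_lit 5) (nat_lit 12) (nat_lit 4) (nat_lit 258) (nat_lit 245) (nat_lit 157)) (XT.lf (nat_lit 0) (nat_lit 120453096095) (nat_lit 76) (nat_lit 136631341982) (nat_lit 152) (nat_lit 182545258283) (nat_lit 10) (nat_lit 5) (nat_lit 11) (nat_lit 5) (nat_lit 12) (nat_lit 4) (nat_lit 259) (nat_lit 245) (nat_lit 156)))) (XT.nd (nat_lit 156) (nat_lit 152) (nat_lit 0) (XT.nd (nat_lit 78) (nat_lit 76) (nat_lit 0) (XT.lf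 (nat_lit 0) (nat_lit 354119727354) (nat_lit 76) (nat_lit 11646968696) (nat_lit 152) (nat_lit 120407459037) (nat_lit 10) (nat_lit 5) (nat_lit 11) (nat_lit 5) (nat_lit 12) (nat_lit 4) (nat_lit 260) (nat_lit 245) (nat_lit 155)) (XT.lf (nat_lit 0) (nat_lit 85256622909) (nat_lit 76) (nat_lit 414494197406) (nat_lit 76) (nat_lit 38599533578) (nat_lit 9) (nat_lit 4) (nat_lit 10) (nat_lit 5) (nat_lit 10) (nat_lit 4) (nat_lit 261) (nat_lit 245) (nat_lit 154))) (XT.nd (nat_lit 78) (nat_lit 76) (nat_lit 0) (XT.lf (nat_lit 0) (nat_lit 58326448207) (nat_lit 152) (nat_lit 250492947060) (nat_lit 76) (nat_lit 288021087380) (nat_lit 8) (nat_lit 5) (nat_lit 10) (nat_lit 5) (nat_lit 9) (nat_lit 4) (nat_lit 262) (nat_lit 245) (nat_lit 153)) (XT.nd (nat_lit 78) (nat_lit 76) (nat_lit 0) (XT.lf (nat_lit 0) (nat_lit 165839360581) (nat_lit 152) (nat_lit 19340313176) (nat_lit 76) (nat_lit 478648762723) (nat_lit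 8) (nat_lit 5) (nat_lit 10) (nat_lit 5) (nat_lit 9) (nat_lit 4) (nat_lit 263) (nat_lit 245) (nat_lit 152)) (XT.lf (nat_lit 0) (nat_lit 270573357938) (nat_lit 76) (nat_lit 30109622259) (nat_lit 152) (nat_lit 438501037867) (nat_lit 7) (nat_lit 5) (nat_lit 8) (nat_lit 5) (nat_lit 9) (nat_lit 4) (nat_lit 264) (nat_lit 245) (nat_lit 151)))))) (XT.nd (nat_lit 312) (nat_lit 152) (nat_lit 0) (XT.nd (nat_lit 156) (nat_lit 0) (nat_lit 0) (XT.nd (nat_lit 78) (nat_lit 76) (nat_lit 0) (XT.lf (nat_lit 0) (nat_lit 462949675470) (nat_lit 152) (nat_lit 225729450645) (nat_lit 0) (nat_lit 136084331068) (nat_lit 7) (nat_lit 5) (nat_lit 9) (nat_lit 4) (nat_lit 7) (nat_lit 4) (nat_lit 265) (nat_lit 245) (nat_lit 150)) (XT.lf (nat_lit 0) (nat_lit 57246476159) (nat_lit 76) (nat_lit 596114064393) (nat_lit 76) (nat_lit 269248646967) (nat_lit 6) (nat_lit 4) (nat_lit 7) (nat_lit 5) (nat_lit 7) (nat_lit 4) (nat_lit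 266) (nat_lit 245) (nat_lit 149))) (XT.nd (nat_lit 78) (nat_lit 0) (nat_lit 0) (XT.lf (nat_lit 0) (nat_lit 408037561178) (nat_lit 76) (nat_lit 476094892298) (nat_lit 76) (nat_lit 149229411372) (nat_lit 6) (nat_lit 4) (nat_lit 7) (nat_lit 5) (nat_lit 7) (nat_lit 4) (nat_lit 267) (nat_lit 245) (nat_lit 148)) (XT.lf (nat_lit 0) (nat_lit 811447184663) (nat_lit 76) (nat_lit 338072902647) (nat_lit 76) (nat_lit 11207366504) (nat_lit 6) (nat_lit 4) (nat_lit 7) (nat_lit 5) (nat_lit 7) (nat_lit 4) (nat_lit 268) (nat_lit 245) (nat_lit 147)))) (XT.nd (nat_lit 156) (nat_lit 0) (nat_lit 0) (XT.nd (nat_lit 78) (nat_lit 76) (nat_lit 0) (XT.lf (nat_lit 0) (nat_lit 134384853701) (nat_lit 152) (nat_lit 37938148699) (nat_lit 76) (nat_lit 1133958627087) (nat_lit 5) (nat_lit 5) (nat_lit 7) (nat_lit 5) (nat_lit 6) (nat_lit 4) (nat_lit 269) (nat_lit 245) (nat_lit 146)) (XT.lf (nat_lit 0) (nat_lit 316668860406)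 (nat_lit 152) (nat_lit 1122082081074) (nat_lit 0) (nat_lit 32437881354) (nat_lit 4) (nat_lit 5) (nat_lit 6) (nat_lit 4) (nat_lit 4) (nat_lit 4) (nat_lit 270) (nat_lit 245) (nat_lit 145))) (XT.nd (nat_lit 78) (nat_lit 0) (nat_lit 0) (XT.lf (nat_lit 0) (nat_lit 536578839306) (nat_lit 152) (nat_lit 870362921592) (nat_lit 0) (nat_lit 252347828683) (nat_lit 4) (nat_lit 5) (nat_lit 6) (nat_lit 4) (nat_lit 4) (nat_lit 4) (nat_lit 271) (nat_lit 245) (nat_lit 144)) (XT.nd (nat_lit 78) (nat_lit 0) (nat_lit 0) (XT.lf (nat_lit 0) (nat_lit 789475270384) (nat_lit 152) (nat_lit 580885975410) (nat_lit 0) (nat_lit 505244232309) (nat_lit 4) (nat_lit 5) (nat_lit 6) (nat_lit 4) (nat_lit 4) (nat_lit 4) (nat_lit 272) (nat_lit 245) (nat_lit 143)) (XT.lf (nat_lit 0) (nat_lit 1080306127294) (nat_lit 152) (nat_lit 247987563148) (nat_lit 0) (nat_lit 796075065347) (nat_lit 4) (nat_lit 5) (nat_lit 6) (nat_lit 4)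 (nat_lit 4) (nat_lit 4) (nat_lit 273) (nat_lit 245) (nat_lit 142))))))))
noncomputable def xc98 : XT := (XT.nd (nat_lit 1326) (nat_lit 0) (nat_lit 0) (XT.nd (nat_lit 624) (nat_lit 152) (nat_lit 0) (XT.nd (nat_lit 312) (nat_lit 0) (nat_lit 0) (XT.nd (nat_lit 156) (nat_lit 0) (nat_lit 0) (XT.nd (nat_lit 78) (nat_lit 0) (nat_lit 0) (XT.lf (nat_lit 0) (nat_lit 148023632352) (nat_lit 76) (nat_lit 1272867289576) (nat_lit 76) (nat_lit 988636206871) (nat_lit 3) (nat_lit 4) (nat_lit 4) (nat_lit 5) (nat_lit 4) (nat_lit 4) (nat_lit 274) (nat_lit 245) (nat_lit 141)) (XT.lf (nat_lit 0) (nat_lit 631306864672) (nat_lit 76) (nat_lit 1194219525372) (nat_lit 76) (nat_lit 909988424617) (nat_lit 3) (nat_lit 4) (nat_lit 4) (nat_lit 5) (nat_lit 4) (nat_lit 4) (nat_lit 275) (nat_lit 245) (nat_lit 140))) (XT.nd (nat_lit 78) (nat_lit 0) (nat_lit 0) (XT.lf (nat_lit 0) (nat_lit 1187082527097) (nat_lit 76) (nat_lit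 1103774623482) (nat_lit 76) (nat_lit 819543507031) (nat_lit 3) (nat_lit 4) (nat_lit 4) (nat_lit 5) (nat_lit 4) (nat_lit 4) (nat_lit 276) (nat_lit 245) (nat_lit 139)) (XT.lf (nat_lit 0) (nat_lit 1826224491281) (nat_lit 76) (nat_lit 999763009740) (nat_lit 76) (nat_lit 715531879639) (nat_lit 3) (nat_lit 4) (nat_lit 4) (nat_lit 5) (nat_lit 4) (nat_lit 4) (nat_lit 277) (nat_lit 245) (nat_lit 138)))) (XT.nd (nat_lit 156) (nat_lit 0) (nat_lit 0) (XT.nd (nat_lit 78) (nat_lit 0) (nat_lit 0) (XT.lf (nat_lit 0) (nat_lit 2561237708700) (nat_lit 76) (nat_lit 880149674310) (nat_lit 76) (nat_lit 595918532341) (nat_lit 3) (nat_lit 4) (nat_lit 4) (nat_lit 5) (nat_lit 4) (nat_lit 4) (nat_lit 278) (nat_lit 245) (nat_lit 137)) (XT.lf (nat_lit 0) (nat_lit 3406502872736) (nat_lit 76) (nat_lit 742594356282) (nat_lit 76) (nat_lit 458363203992) (nat_lit 3) (nat_lit 4) (nat_lit 4) (nat_lit 5) (nat_lit 4) (nat_lit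 4) (nat_lit 279) (nat_lit 245) (nat_lit 136))) (XT.nd (nat_lit 78) (nat_lit 0) (nat_lit 0) (XT.lf (nat_lit 0) (nat_lit 4378557780078) (nat_lit 76) (nat_lit 584405755955) (nat_lit 76) (nat_lit 300174594692) (nat_lit 3) (nat_lit 4) (nat_lit 4) (nat_lit 5) (nat_lit 4) (nat_lit 4) (nat_lit 280) (nat_lit 245) (nat_lit 135)) (XT.lf (nat_lit 0) (nat_lit 5496420896304) (nat_lit 76) (nat_lit 402488878977) (nat_lit 76) (nat_lit 118257709909) (nat_lit 3) (nat_lit 4) (nat_lit 4) (nat_lit 5) (nat_lit 4) (nat_lit 4) (nat_lit 281) (nat_lit 245) (nat_lit 134))))) (XT.nd (nat_lit 312) (nat_lit 0) (nat_lit 0) (XT.nd (nat_lit 156) (nat_lit 0) (nat_lit 0) (XT.nd (nat_lit 78) (nat_lit 76) (nat_lit 0) (XT.lf (nat_lit 0) (nat_lit 82849990168) (nat_lit 152) (nat_lit 106103696991) (nat_lit 76) (nat_lit 6694782671188) (nat_lit 2) (nat_lit 5) (nat_lit 4) (nat_lit 5) (nat_lit 3) (nat_lit 4) (nat_lit 282) (nat_lit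 245) (nat_lit 133)) (XT.lf (nat_lit 0) (nat_lit 322014746638) (nat_lit 152) (nat_lit 7479574184886) (nat_lit 0) (nat_lit 74857197286) (nat_lit 1) (nat_lit 5) (nat_lit 3) (nat_lit 4) (nat_lit 1) (nat_lit 4) (nat_lit 283) (nat_lit 245) (nat_lit 132))) (XT.nd (nat_lit 78) (nat_lit 0) (nat_lit 0) (XT.lf (nat_lit 0) (nat_lit 611862440940) (nat_lit 152) (nat_lit 8039273803131) (nat_lit 0) (nat_lit 364704887127) (nat_lit 1) (nat_lit 5) (nat_lit 3) (nat_lit 4) (nat_lit 1) (nat_lit 4) (nat_lit 284) (nat_lit 245) (nat_lit 131)) (XT.lf (nat_lit 0) (nat_lit 945187279985) (nat_lit 152) (nat_lit 8682928383089) (nat_lit 0) (nat_lit 698029722292) (nat_lit 1) (nat_lit 5) (nat_lit 3) (nat_lit 4) (nat_lit 1) (nat_lit 4) (nat_lit 285) (nat_lit 245) (nat_lit 130)))) (XT.nd (nat_lit 156) (nat_lit 0) (nat_lit 0) (XT.nd (nat_lit 78) (nat_lit 0) (nat_lit 0) (XT.lf (nat_lit 0) (nat_lit 1328510836709) (nat_lit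 152) (nat_lit 9423131166541) (nat_lit 0) (nat_lit 1081353275643) (nat_lit 1) (nat_lit 5) (nat_lit 3) (nat_lit 4) (nat_lit 1) (nat_lit 4) (nat_lit 286) (nat_lit 245) (nat_lit 129)) (XT.lf (nat_lit 0) (nat_lit 1769332919832) (nat_lit 152) (nat_lit 10274364381858) (nat_lit 0) (nat_lit 1522175355832) (nat_lit 1) (nat_lit 5) (nat_lit 3) (nat_lit 4) (nat_lit 1) (nat_lit 4) (nat_lit 287) (nat_lit 245) (nat_lit 128))) (XT.nd (nat_lit 78) (nat_lit 0) (nat_lit 0) (XT.lf (nat_lit 0) (nat_lit 2276278309240) (nat_lit 152) (nat_lit 11253282591951) (nat_lit 0) (nat_lit 2029120742689) (nat_lit 1) (nat_lit 5) (nat_lit 3) (nat_lit 4) (nat_lit 1) (nat_lit 4) (nat_lit 288) (nat_lit 245) (nat_lit 127)) (XT.nd (nat_lit 78) (nat_lit 0) (nat_lit 0) (XT.lf (nat_lit 0) (nat_lit 2859265501683) (nat_lit 152) (nat_lit 12379038544407) (nat_lit 0) (nat_lit 2612107932913) (nat_lit 1) (nat_lit 5) (nat_lit 3) (nat_lit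 4) (nat_lit 1) (nat_lit 4) (nat_lit 289) (nat_lit 245) (nat_lit 126)) (XT.lf (nat_lit 0) (nat_lit 3529700768317) (nat_lit 152) (nat_lit 13673657899165) (nat_lit 0) (nat_lit 3282543197618) (nat_lit 1) (nat_lit 5) (nat_lit 3) (nat_lit 4) (nat_lit 1) (nat_lit 4) (nat_lit 290) (nat_lit 245) (nat_lit 125))))))) (XT.nd (nat_lit 31356) (nat_lit 0) (nat_lit 684) (XT.nd (nat_lit 30966) (nat_lit 0) (nat_lit 1368) (XT.nd (nat_lit 156) (nat_lit 0) (nat_lit 0) (XT.nd (nat_lit 78) (nat_lit 0) (nat_lit 0) (XT.lf (nat_lit 0) (nat_lit 4300701320881) (nat_lit 152) (nat_lit 15162470165340) (nat_lit 0) (nat_lit 4053543748505) (nat_lit 1) (nat_lit 5) (nat_lit 3) (nat_lit 4) (nat_lit 1) (nat_lit 4) (nat_lit 291) (nat_lit 245) (nat_lit 124)) (XT.lf (nat_lit 0) (nat_lit 5187351952794) (nat_lit 152) (nat_lit 16874604278576) (nat_lit 0) (nat_lit 4940194378959) (nat_lit 1) (nat_lit 5) (nat_lit 3) (nat_lit 4) (nat_lit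 1) (nat_lit 4) (nat_lit 292) (nat_lit 245) (nat_lit 123))) (XT.nd (nat_lit 30732) (nat_lit 0) (nat_lit 1368) (XT.lf (nat_lit 0) (nat_lit 6207000176420) (nat_lit 152) (nat_lit 18843558515000) (nat_lit 0) (nat_lit 5959842601317) (nat_lit 1) (nat_lit 5) (nat_lit 3) (nat_lit 4) (nat_lit 1) (nat_lit 4) (nat_lit 293) (nat_lit 245) (nat_lit 122)) (XT.lf (nat_lit 0) (nat_lit 7043912446) (nat_lit 380) (nat_lit 35104821177) (nat_lit 380) (nat_lit 35104821177) (nat_lit 19) (nat_lit 3) (nat_lit 24) (nat_lit 3) (nat_lit 24) (nat_lit 5) (nat_lit 246) (nat_lit 246) (nat_lit 168)))) (XT.nd (nat_lit 156) (nat_lit 0) (nat_lit 76) (XT.nd (nat_lit 78) (nat_lit 0) (nat_lit 76) (XT.lf (nat_lit 0) (nat_lit 15146871804) (nat_lit 380) (nat_lit 482173365) (nat_lit 380) (nat_lit 150465714481) (nat_lit 19) (nat_lit 3) (nat_lit 24) (nat_lit 3) (nat_lit 24) (nat_lit 5) (nat_lit 247) (nat_lit 246) (nat_lit 167)) (XT.lf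 (nat_lit 0) (nat_lit 22782541142) (nat_lit 304) (nat_lit 94179041563) (nat_lit 380) (nat_lit 61496312211) (nat_lit 20) (nat_lit 5) (nat_lit 24) (nat_lit 5) (nat_lit 25) (nat_lit 5) (nat_lit 248) (nat_lit 246) (nat_lit 166))) (XT.nd (nat_lit 78) (nat_lit 0) (nat_lit 76) (XT.lf (nat_lit 0) (nat_lit 32333821149) (nat_lit 304) (nat_lit 11609245090) (nat_lit 380) (nat_lit 148616897387) (nat_lit 20) (nat_lit 5) (nat_lit 24) (nat_lit 5) (nat_lit 25) (nat_lit 5) (nat_lit 249) (nat_lit 246) (nat_lit 165)) (XT.nd (nat_lit 78) (nat_lit 0) (nat_lit 0) (XT.lf (nat_lit 0) (nat_lit 48943790270) (nat_lit 304) (nat_lit 118556111020) (nat_lit 76) (nat_lit 40433543693) (nat_lit 21) (nat_lit 5) (nat_lit 25) (nat_lit 5) (nat_lit 22) (nat_lit 5) (nat_lit 250) (nat_lit 246) (nat_lit 164)) (XT.lf (nat_lit 0) (nat_lit 70773226470) (nat_lit 304) (nat_lit 20827030160) (nat_lit 76) (nat_lit 133603497815) (nat_lit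 21) (nat_lit 5) (nat_lit 25) (nat_lit 5) (nat_lit 22) (nat_lit 5) (nat_lit 251) (nat_lit 246) (nat_lit 163)))))) (XT.nd (nat_lit 312) (nat_lit 380) (nat_lit 0) (XT.nd (nat_lit 156) (nat_lit 152) (nat_lit 0) (XT.nd (nat_lit 78) (nat_lit 0) (nat_lit 0) (XT.lf (nat_lit 0) (nat_lit 100058169518) (nat_lit 380) (nat_lit 143950682998) (nat_lit 76) (nat_lit 428595541) (nat_lit 17) (nat_lit 5) (nat_lit 22) (nat_lit 5) (nat_lit 18) (nat_lit 5) (nat_lit 252) (nat_lit 246) (nat_lit 162)) (XT.lf (nat_lit 0) (nat_lit 139238061142) (nat_lit 380) (nat_lit 28468637521) (nat_lit 76) (nat_lit 98024167233) (nat_lit 17) (nat_lit 5) (nat_lit 22) (nat_lit 5) (nat_lit 18) (nat_lit 5) (nat_lit 253) (nat_lit 246) (nat_lit 161))) (XT.nd (nat_lit 78) (nat_lit 0) (nat_lit 0) (XT.lf (nat_lit 0) (nat_lit 114531883525) (nat_lit 152) (nat_lit 74505367339) (nat_lit 228) (nat_lit 100469699486) (nat_lit 15) (nat_lit 5)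 (nat_lit 17) (nat_lit 5) (nat_lit 18) (nat_lit 5) (nat_lit 254) (nat_lit 246) (nat_lit 160)) (XT.lf (nat_lit 0) (nat_lit 249218174348) (nat_lit 228) (nat_lit 35868439247) (nat_lit 76) (nat_lit 31326056529) (nat_lit 15) (nat_lit 5) (nat_lit 18) (nat_lit 5) (nat_lit 16) (nat_lit 4) (nat_lit 255) (nat_lit 246) (nat_lit 159)))) (XT.nd (nat_lit 156) (nat_lit 228) (nat_lit 0) (XT.nd (nat_lit 78) (nat_lit 76) (nat_lit 0) (XT.lf (nat_lit 0) (nat_lit 132337691758) (nat_lit 76) (nat_lit 195116074080) (nat_lit 152) (nat_lit 18546353428) (nat_lit 14) (nat_lit 5) (nat_lit 15) (nat_lit 5) (nat_lit 16) (nat_lit 4) (nat_lit 256) (nat_lit 246) (nat_lit 158)) (XT.lf (nat_lit 0) (nat_lit 36033553621) (nat_lit 152) (nat_lit 51576713340) (nat_lit 76) (nat_lit 291888518173) (nat_lit 13) (nat_lit 5) (nat_lit 15) (nat_lit 5) (nat_lit 14) (nat_lit 5) (nat_lit 257) (nat_lit 246) (nat_lit 157))) (XT.nd (nat_lit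 78) (nat_lit 76) (nat_lit 0) (XT.lf (nat_lit 0) (nat_lit 104813158044) (nat_lit 228) (nat_lit 271772179734) (nat_lit 76) (nat_lit 40117713999) (nat_lit 11) (nat_lit 5) (nat_lit 14) (nat_lit 5) (nat_lit 12) (nat_lit 4) (nat_lit 258) (nat_lit 246) (nat_lit 156)) (XT.nd (nat_lit 78) (nat_lit 76) (nat_lit 0) (XT.lf (nat_lit 0) (nat_lit 190905926055) (nat_lit 228) (nat_lit 86672951892) (nat_lit 76) (nat_lit 180859647500) (nat_lit 11) (nat_lit 5) (nat_lit 14) (nat_lit 5) (nat_lit 12) (nat_lit 4) (nat_lit 259) (nat_lit 246) (nat_lit 155)) (XT.lf (nat_lit 0) (nat_lit 138523272604) (nat_lit 76) (nat_lit 157125173797) (nat_lit 152) (nat_lit 209925498608) (nat_lit 10) (nat_lit 5) (nat_lit 11) (nat_lit 5) (nat_lit 12) (nat_lit 4) (nat_lit 260) (nat_lit 246) (nat_lit 154))))))))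
noncomputable def xc99 : XT := (XT.nd (nat_lit 1404) (nat_lit 152) (nat_lit 0) (XT.nd (nat_lit 702) (nat_lit 228) (nat_lit 0) (XT.nd (nat_lit 312) (nat_lit 152) (nat_lit 0) (XT.nd (nat_lit 156) (nat_lit 76) (nat_lit 0) (XT.nd (nat_lit 78) (nat_lit 76) (nat_lit 0) (XT.lf (nat_lit 0) (nat_lit 407239610017) (nat_lit 76) (nat_lit 13393257929) (nat_lit 152) (nat_lit 138467231442) (nat_lit 10) (nat_lit 5) (nat_lit 11) (nat_lit 5) (nat_lit 12) (nat_lit 4) (nat_lit 261) (nat_lit 246) (nat_lit 153)) (XT.lf (nat_lit 0) (nat_lit 98047093414) (nat_lit 76) (nat_lit 476667474246) (nat_lit 76) (nat_lit 44388167335) (nat_lit 9) (nat_lit 4) (nat_lit 10) (nat_lit 5) (nat_lit 10) (nat_lit 4) (nat_lit 262) (nat_lit 246) (nat_lit 152))) (XT.nd (nat_lit 78) (nat_lit 0) (nat_lit 0) (XT.lf (nat_lit 0) (nat_lit 67076442287) (nat_lit 152) (nat_lit 288065067053) (nat_lit 76) (nat_lit 331224889153) (nat_lit 8)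 (nat_lit 5) (nat_lit 10) (nat_lit 5) (nat_lit 9) (nat_lit 4) (nat_lit 263) (nat_lit 246) (nat_lit 151)) (XT.lf (nat_lit 0) (nat_lit 190716157580) (nat_lit 152) (nat_lit 22239775748) (nat_lit 76) (nat_lit 550446632492) (nat_lit 8) (nat_lit 5) (nat_lit 10) (nat_lit 5) (nat_lit 9) (nat_lit 4) (nat_lit 264) (nat_lit 246) (nat_lit 150)))) (XT.nd (nat_lit 156) (nat_lit 76) (nat_lit 0) (XT.nd (nat_lit 78) (nat_lit 0) (nat_lit 0) (XT.lf (nat_lit 0) (nat_lit 311160874015) (nat_lit 76) (nat_lit 34625392282) (nat_lit 152) (nat_lit 504275226708) (nat_lit 7) (nat_lit 5) (nat_lit 8) (nat_lit 5) (nat_lit 9) (nat_lit 4) (nat_lit 265) (nat_lit 246) (nat_lit 149)) (XT.lf (nat_lit 0) (nat_lit 532392880660) (nat_lit 152) (nat_lit 259587466264) (nat_lit 0) (nat_lit 156497514096) (nat_lit 7) (nat_lit 5) (nat_lit 9) (nat_lit 4) (nat_lit 7) (nat_lit 4) (nat_lit 266) (nat_lit 246) (nat_lit 148))) (XT.nd (nat_lit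 78) (nat_lit 0) (nat_lit 0) (XT.lf (nat_lit 0) (nat_lit 65834785835) (nat_lit 76) (nat_lit 685530546754) (nat_lit 76) (nat_lit 309635124972) (nat_lit 6) (nat_lit 4) (nat_lit 7) (nat_lit 5) (nat_lit 7) (nat_lit 4) (nat_lit 267) (nat_lit 246) (nat_lit 147)) (XT.nd (nat_lit 78) (nat_lit 0) (nat_lit 0) (XT.lf (nat_lit 0) (nat_lit 469244359052) (nat_lit 76) (nat_lit 547508580665) (nat_lit 76) (nat_lit 171613110869) (nat_lit 6) (nat_lit 4) (nat_lit 7) (nat_lit 5) (nat_lit 7) (nat_lit 4) (nat_lit 268) (nat_lit 246) (nat_lit 146)) (XT.lf (nat_lit 0) (nat_lit 933165274274) (nat_lit 76) (nat_lit 388783363716) (nat_lit 76) (nat_lit 12887852168) (nat_lit 6) (nat_lit 4) (nat_lit 7) (nat_lit 5) (nat_lit 7) (nat_lit 4) (nat_lit 269) (nat_lit 246) (nat_lit 145)))))) (XT.nd (nat_lit 312) (nat_lit 76) (nat_lit 0) (XT.nd (nat_lit 156) (nat_lit 0) (nat_lit 0) (XT.nd (nat_lit 78) (nat_lit 76) (nat_lit 0)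 (XT.lf (nat_lit 0) (nat_lit 154543072344) (nat_lit 152) (nat_lit 43627942312) (nat_lit 76) (nat_lit 1304052784841) (nat_lit 5) (nat_lit 5) (nat_lit 7) (nat_lit 5) (nat_lit 6) (nat_lit 4) (nat_lit 270) (nat_lit 246) (nat_lit 144)) (XT.lf (nat_lit 0) (nat_lit 364169670295) (nat_lit 152) (nat_lit 1290393454066) (nat_lit 0) (nat_lit 37303949056) (nat_lit 4) (nat_lit 5) (nat_lit 6) (nat_lit 4) (nat_lit 4) (nat_lit 4) (nat_lit 271) (nat_lit 246) (nat_lit 143))) (XT.nd (nat_lit 78) (nat_lit 0) (nat_lit 0) (XT.lf (nat_lit 0) (nat_lit 617066083313) (nat_lit 152) (nat_lit 1000916543162) (nat_lit 0) (nat_lit 290200338202) (nat_lit 4) (nat_lit 5) (nat_lit 6) (nat_lit 4) (nat_lit 4) (nat_lit 4) (nat_lit 272) (nat_lit 246) (nat_lit 142)) (XT.lf (nat_lit 0) (nat_lit 907896924517) (nat_lit 152) (nat_lit 668018161575) (nat_lit 0) (nat_lit 581031158648) (nat_lit 4) (nat_lit 5) (nat_lit 6) (nat_lit 4)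 (nat_lit 4) (nat_lit 4) (nat_lit 273) (nat_lit 246) (nat_lit 141)))) (XT.nd (nat_lit 156) (nat_lit 0) (nat_lit 0) (XT.nd (nat_lit 78) (nat_lit 76) (nat_lit 0) (XT.lf (nat_lit 0) (nat_lit 1242352362540) (nat_lit 152) (nat_lit 285185080101) (nat_lit 0) (nat_lit 915486578621) (nat_lit 4) (nat_lit 5) (nat_lit 6) (nat_lit 4) (nat_lit 4) (nat_lit 4) (nat_lit 274) (nat_lit 246) (nat_lit 140)) (XT.lf (nat_lit 0) (nat_lit 170227766655) (nat_lit 76) (nat_lit 1463797092885) (nat_lit 76) (nat_lit 1136931293270) (nat_lit 3) (nat_lit 4) (nat_lit 4) (nat_lit 5) (nat_lit 4) (nat_lit 4) (nat_lit 275) (nat_lit 246) (nat_lit 139))) (XT.nd (nat_lit 78) (nat_lit 0) (nat_lit 0) (XT.lf (nat_lit 0) (nat_lit 726003406938) (nat_lit 76) (nat_lit 1373352201894) (nat_lit 76) (nat_lit 1046486388629) (nat_lit 3) (nat_lit 4) (nat_lit 4) (nat_lit 5) (nat_lit 4) (nat_lit 4) (nat_lit 276) (nat_lit 246) (nat_lit 138))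 (XT.nd (nat_lit 78) (nat_lit 0) (nat_lit 0) (XT.lf (nat_lit 0) (nat_lit 1365145351870) (nat_lit 76) (nat_lit 1269340597627) (nat_lit 76) (nat_lit 942474772495) (nat_lit 3) (nat_lit 4) (nat_lit 4) (nat_lit 5) (nat_lit 4) (nat_lit 4) (nat_lit 277) (nat_lit 246) (nat_lit 137)) (XT.lf (nat_lit 0) (nat_lit 2100158552546) (nat_lit 76) (nat_lit 1149727270437) (nat_lit 76) (nat_lit 822861434984) (nat_lit 3) (nat_lit 4) (nat_lit 4) (nat_lit 5) (nat_lit 4) (nat_lit 4) (nat_lit 278) (nat_lit 246) (nat_lit 136))))))) (XT.nd (nat_lit 702) (nat_lit 0) (nat_lit 0) (XT.nd (nat_lit 312) (nat_lit 152) (nat_lit 0) (XT.nd (nat_lit 156) (nat_lit 0) (nat_lit 0) (XT.nd (nat_lit 78) (nat_lit 0) (nat_lit 0) (XT.lf (nat_lit 0) (nat_lit 2945423702025) (nat_lit 76) (nat_lit 1012171959575) (nat_lit 76) (nat_lit 685306115148) (nat_lit 3) (nat_lit 4) (nat_lit 4) (nat_lit 5) (nat_lit 4) (nat_lit 4) (nat_lit 279) (nat_lit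 246) (nat_lit 135)) (XT.lf (nat_lit 0) (nat_lit 3917478596708) (nat_lit 76) (nat_lit 853983365480) (nat_lit 76) (nat_lit 527117513249) (nat_lit 3) (nat_lit 4) (nat_lit 4) (nat_lit 5) (nat_lit 4) (nat_lit 4) (nat_lit 280) (nat_lit 246) (nat_lit 134))) (XT.nd (nat_lit 78) (nat_lit 0) (nat_lit 0) (XT.lf (nat_lit 0) (nat_lit 5035341701925) (nat_lit 76) (nat_lit 672066493919) (nat_lit 76) (nat_lit 345200634902) (nat_lit 3) (nat_lit 4) (nat_lit 4) (nat_lit 5) (nat_lit 4) (nat_lit 4) (nat_lit 281) (nat_lit 246) (nat_lit 133)) (XT.lf (nat_lit 0) (nat_lit 6320884252346) (nat_lit 76) (nat_lit 462862101754) (nat_lit 76) (nat_lit 135996236836) (nat_lit 3) (nat_lit 4) (nat_lit 4) (nat_lit 5) (nat_lit 4) (nat_lit 4) (nat_lit 282) (nat_lit 246) (nat_lit 132)))) (XT.nd (nat_lit 156) (nat_lit 0) (nat_lit 0) (XT.nd (nat_lit 78) (nat_lit 76) (nat_lit 0) (XT.lf (nat_lit 0) (nat_lit 95277591324) (nat_lit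 152) (nat_lit 122019048701) (nat_lit 76) (nat_lit 7699000156563) (nat_lit 2) (nat_lit 5) (nat_lit 4) (nat_lit 5) (nat_lit 3) (nat_lit 4) (nat_lit 283) (nat_lit 246) (nat_lit 131)) (XT.lf (nat_lit 0) (nat_lit 370317059885) (nat_lit 152) (nat_lit 8601510108300) (nat_lit 0) (nat_lit 86085864658) (nat_lit 1) (nat_lit 5) (nat_lit 3) (nat_lit 4) (nat_lit 1) (nat_lit 4) (nat_lit 284) (nat_lit 246) (nat_lit 130))) (XT.nd (nat_lit 78) (nat_lit 0) (nat_lit 0) (XT.lf (nat_lit 0) (nat_lit 703641895126) (nat_lit 152) (nat_lit 9245164695932) (nat_lit 0) (nat_lit 419410696526) (nat_lit 1) (nat_lit 5) (nat_lit 3) (nat_lit 4) (nat_lit 1) (nat_lit 4) (nat_lit 285) (nat_lit 246) (nat_lit 129)) (XT.nd (nat_lit 78) (nat_lit 0) (nat_lit 0) (XT.lf (nat_lit 0) (nat_lit 1086965448543) (nat_lit 152) (nat_lit 9985367486057) (nat_lit 0) (nat_lit 802734247009) (nat_lit 1) (nat_lit 5) (nat_lit 3) (nat_lit 4) (nat_lit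 1) (nat_lit 4) (nat_lit 286) (nat_lit 246) (nat_lit 128)) (XT.lf (nat_lit 0) (nat_lit 1527787528790) (nat_lit 152) (nat_lit 10836600707178) (nat_lit 0) (nat_lit 1243556324705) (nat_lit 1) (nat_lit 5) (nat_lit 3) (nat_lit 4) (nat_lit 1) (nat_lit 4) (nat_lit 287) (nat_lit 246) (nat_lit 127)))))) (XT.nd (nat_lit 312) (nat_lit 0) (nat_lit 0) (XT.nd (nat_lit 156) (nat_lit 0) (nat_lit 0) (XT.nd (nat_lit 78) (nat_lit 0) (nat_lit 0) (XT.lf (nat_lit 0) (nat_lit 2034732915698) (nat_lit 152) (nat_lit 11815518922317) (nat_lit 0) (nat_lit 1750501709394) (nat_lit 1) (nat_lit 5) (nat_lit 3) (nat_lit 4) (nat_lit 1) (nat_lit 4) (nat_lit 288) (nat_lit 246) (nat_lit 126)) (XT.lf (nat_lit 0) (nat_lit 2617720105966) (nat_lit 152) (nat_lit 12941274879161) (nat_lit 0) (nat_lit 2333488897733) (nat_lit 1) (nat_lit 5) (nat_lit 3) (nat_lit 4) (nat_lit 1) (nat_lit 4) (nat_lit 289) (nat_lit 246) (nat_lit 125)))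 (XT.nd (nat_lit 78) (nat_lit 0) (nat_lit 0) (XT.lf (nat_lit 0) (nat_lit 3288155370709) (nat_lit 152) (nat_lit 14235894237735) (nat_lit 0) (nat_lit 3003924160799) (nat_lit 1) (nat_lit 5) (nat_lit 3) (nat_lit 4) (nat_lit 1) (nat_lit 4) (nat_lit 290) (nat_lit 246) (nat_lit 124)) (XT.lf (nat_lit 0) (nat_lit 4059155921629) (nat_lit 152) (nat_lit 15724706507228) (nat_lit 0) (nat_lit 3774924710260) (nat_lit 1) (nat_lit 5) (nat_lit 3) (nat_lit 4) (nat_lit 1) (nat_lit 4) (nat_lit 291) (nat_lit 246) (nat_lit 123)))) (XT.nd (nat_lit 156) (nat_lit 0) (nat_lit 0) (XT.nd (nat_lit 78) (nat_lit 0) (nat_lit 0) (XT.lf (nat_lit 0) (nat_lit 4945806552112) (nat_lit 152) (nat_lit 17436840623349) (nat_lit 0) (nat_lit 4661575339475) (nat_lit 1) (nat_lit 5) (nat_lit 3) (nat_lit 4) (nat_lit 1) (nat_lit 4) (nat_lit 292) (nat_lit 246) (nat_lit 122)) (XT.lf (nat_lit 0) (nat_lit 5965454774495) (nat_lit 152) (nat_lit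 19405794862282) (nat_lit 0) (nat_lit 5681223560755) (nat_lit 1) (nat_lit 5) (nat_lit 3) (nat_lit 4) (nat_lit 1) (nat_lit 4) (nat_lit 293) (nat_lit 246) (nat_lit 121))) (XT.nd (nat_lit 78) (nat_lit 0) (nat_lit 0) (XT.lf (nat_lit 0) (nat_lit 7138050227911) (nat_lit 152) (nat_lit 21670092241746) (nat_lit 0) (nat_lit 6853819013212) (nat_lit 1) (nat_lit 5) (nat_lit 3) (nat_lit 4) (nat_lit 1) (nat_lit 4) (nat_lit 294) (nat_lit 246) (nat_lit 120)) (XT.nd (nat_lit 78) (nat_lit 0) (nat_lit 0) (XT.lf (nat_lit 0) (nat_lit 8486534997318) (nat_lit 152) (nat_lit 24274034232208) (nat_lit 0) (nat_lit 8202303781785) (nat_lit 1) (nat_lit 5) (nat_lit 3) (nat_lit 4) (nat_lit 1) (nat_lit 4) (nat_lit 295) (nat_lit 246) (nat_lit 119)) (XT.lf (nat_lit 0) (nat_lit 10037292480379) (nat_lit 152) (nat_lit 27268567524785) (nat_lit 0) (nat_lit 9753061264121) (nat_lit 1) (nat_lit 5) (nat_lit 3) (nat_lit 4) (nat_lit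 1) (nat_lit 4) (nat_lit 296) (nat_lit 246) (nat_lit 118))))))))
noncomputable def xc100 : XT := (XT.nd (nat_lit 31746) (nat_lit 0) (nat_lit 152) (XT.nd (nat_lit 31044) (nat_lit 0) (nat_lit 684) (XT.nd (nat_lit 30732) (nat_lit 0) (nat_lit 1216) (XT.nd (nat_lit 30576) (nat_lit 0) (nat_lit 1368) (XT.nd (nat_lit 30498) (nat_lit 0) (nat_lit 1368) (XT.lf (nat_lit 0) (nat_lit 11820663584370) (nat_lit 152) (nat_lit 30712280814334) (nat_lit 0) (nat_lit 11536432367482) (nat_lit 1) (nat_lit 5) (nat_lit 3) (nat_lit 4) (nat_lit 1) (nat_lit 4) (nat_lit 297) (nat_lit 246) (nat_lit 117)) (XT.lf (nat_lit 0) (nat_lit 8102857492) (nat_lit 380) (nat_lit 40369181611) (nat_lit 380) (nat_lit 40369181611) (nat_lit 19) (nat_lit 3) (nat_lit 24) (nat_lit 3) (nat_lit 24) (nat_lit 5) (nat_lit 247) (nat_lit 247) (nat_lit 166))) (XT.nd (nat_lit 78) (nat_lit 0) (nat_lit 76) (XT.lf (nat_lit 0) (nat_lit 17423003753)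 (nat_lit 380) (nat_lit 552129382) (nat_lit 380) (nat_lit 173033201665) (nat_lit 19) (nat_lit 3) (nat_lit 24) (nat_lit 3) (nat_lit 24) (nat_lit 5) (nat_lit 248) (nat_lit 247) (nat_lit 165)) (XT.lf (nat_lit 0) (nat_lit 26203524358) (nat_lit 304) (nat_lit 108303008135) (nat_lit 380) (nat_lit 70719485815) (nat_lit 20) (nat_lit 5) (nat_lit 24) (nat_lit 5) (nat_lit 25) (nat_lit 5) (nat_lit 249) (nat_lit 247) (nat_lit 164)))) (XT.nd (nat_lit 156) (nat_lit 228) (nat_lit 0) (XT.nd (nat_lit 78) (nat_lit 0) (nat_lit 76) (XT.lf (nat_lit 0) (nat_lit 37187026534) (nat_lit 304) (nat_lit 13348119104) (nat_lit 380) (nat_lit 170908324840) (nat_lit 20) (nat_lit 5) (nat_lit 24) (nat_lit 5) (nat_lit 25) (nat_lit 5) (nat_lit 250) (nat_lit 247) (nat_lit 163)) (XT.lf (nat_lit 0) (nat_lit 56288164216) (nat_lit 304) (nat_lit 136336672585) (nat_lit 76) (nat_lit 46498188588) (nat_lit 21) (nat_lit 5) (nat_lit 25)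 (nat_lit 5) (nat_lit 22) (nat_lit 5) (nat_lit 251) (nat_lit 247) (nat_lit 162))) (XT.nd (nat_lit 78) (nat_lit 304) (nat_lit 0) (XT.lf (nat_lit 0) (nat_lit 81391649923) (nat_lit 304) (nat_lit 23948602000) (nat_lit 76) (nat_lit 153643686262) (nat_lit 21) (nat_lit 5) (nat_lit 25) (nat_lit 5) (nat_lit 22) (nat_lit 5) (nat_lit 252) (nat_lit 247) (nat_lit 161)) (XT.lf (nat_lit 0) (nat_lit 115069120594) (nat_lit 380) (nat_lit 165540577184) (nat_lit 76) (nat_lit 493021897) (nat_lit 17) (nat_lit 5) (nat_lit 22) (nat_lit 5) (nat_lit 18) (nat_lit 5) (nat_lit 253) (nat_lit 247) (nat_lit 160))))) (XT.nd (nat_lit 312) (nat_lit 304) (nat_lit 0) (XT.nd (nat_lit 156) (nat_lit 76) (nat_lit 0) (XT.nd (nat_lit 78) (nat_lit 152) (nat_lit 0) (XT.lf (nat_lit 0) (nat_lit 160125705659) (nat_lit 380) (nat_lit 32736578138) (nat_lit 76) (nat_lit 112727911471) (nat_lit 17) (nat_lit 5) (nat_lit 22) (nat_lit 5) (nat_lit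 18) (nat_lit 5) (nat_lit 254) (nat_lit 247) (nat_lit 159)) (XT.lf (nat_lit 0) (nat_lit 131713914019) (nat_lit 152) (nat_lit 85680700467) (nat_lit 228) (nat_lit 115538103137) (nat_lit 15) (nat_lit 5) (nat_lit 17) (nat_lit 5) (nat_lit 18) (nat_lit 5) (nat_lit 255) (nat_lit 247) (nat_lit 158))) (XT.nd (nat_lit 78) (nat_lit 76) (nat_lit 0) (XT.lf (nat_lit 0) (nat_lit 286602461837) (nat_lit 228) (nat_lit 41246528002) (nat_lit 76) (nat_lit 36025338882) (nat_lit 15) (nat_lit 5) (nat_lit 18) (nat_lit 5) (nat_lit 16) (nat_lit 4) (nat_lit 256) (nat_lit 247) (nat_lit 157)) (XT.lf (nat_lit 0) (nat_lit 152190423693) (nat_lit 76) (nat_lit 224382850757) (nat_lit 152) (nat_lit 21326639431) (nat_lit 14) (nat_lit 5) (nat_lit 15) (nat_lit 5) (nat_lit 16) (nat_lit 4) (nat_lit 257) (nat_lit 247) (nat_lit 156)))) (XT.nd (nat_lit 156) (nat_lit 76) (nat_lit 0) (XT.nd (nat_lit 78) (nat_lit 152) (nat_lit 0) (XT.lf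 (nat_lit 0) (nat_lit 41439907188) (nat_lit 152) (nat_lit 59311279108) (nat_lit 76) (nat_lit 335672213453) (nat_lit 13) (nat_lit 5) (nat_lit 15) (nat_lit 5) (nat_lit 14) (nat_lit 5) (nat_lit 258) (nat_lit 247) (nat_lit 155)) (XT.lf (nat_lit 0) (nat_lit 120536382764) (nat_lit 228) (nat_lit 312535991535) (nat_lit 76) (nat_lit 46135943177) (nat_lit 11) (nat_lit 5) (nat_lit 14) (nat_lit 5) (nat_lit 12) (nat_lit 4) (nat_lit 259) (nat_lit 247) (nat_lit 154))) (XT.nd (nat_lit 78) (nat_lit 76) (nat_lit 0) (XT.lf (nat_lit 0) (nat_lit 219542902802) (nat_lit 228) (nat_lit 99672142364) (nat_lit 76) (nat_lit 207989092084) (nat_lit 11) (nat_lit 5) (nat_lit 14) (nat_lit 5) (nat_lit 12) (nat_lit 4) (nat_lit 260) (nat_lit 247) (nat_lit 153)) (XT.nd (nat_lit 78) (nat_lit 0) (nat_lit 0) (XT.lf (nat_lit 0) (nat_lit 159303436155) (nat_lit 76) (nat_lit 180693292413) (nat_lit 152) (nat_lit 241413152573) (nat_lit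 10) (nat_lit 5) (nat_lit 11) (nat_lit 5) (nat_lit 12) (nat_lit 4) (nat_lit 261) (nat_lit 247) (nat_lit 152)) (XT.lf (nat_lit 0) (nat_lit 468327006008) (nat_lit 76) (nat_lit 15401674920) (nat_lit 152) (nat_lit 159236298048) (nat_lit 10) (nat_lit 5) (nat_lit 11) (nat_lit 5) (nat_lit 12) (nat_lit 4) (nat_lit 262) (nat_lit 247) (nat_lit 151))))))) (XT.nd (nat_lit 702) (nat_lit 152) (nat_lit 0) (XT.nd (nat_lit 312) (nat_lit 152) (nat_lit 0) (XT.nd (nat_lit 156) (nat_lit 76) (nat_lit 0) (XT.nd (nat_lit 78) (nat_lit 76) (nat_lit 0) (XT.lf (nat_lit 0) (nat_lit 112755652374) (nat_lit 76) (nat_lit 548166950565) (nat_lit 76) (nat_lit 51045412261) (nat_lit 9) (nat_lit 4) (nat_lit 10) (nat_lit 5) (nat_lit 10) (nat_lit 4) (nat_lit 263) (nat_lit 247) (nat_lit 150)) (XT.lf (nat_lit 0) (nat_lit 77138685075) (nat_lit 152) (nat_lit 331273449368) (nat_lit 76) (nat_lit 380909105448) (nat_lit 8) (nat_lit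 5) (nat_lit 10) (nat_lit 5) (nat_lit 9) (nat_lit 4) (nat_lit 264) (nat_lit 247) (nat_lit 149))) (XT.nd (nat_lit 78) (nat_lit 76) (nat_lit 0) (XT.lf (nat_lit 0) (nat_lit 219324256387) (nat_lit 152) (nat_lit 25574544073) (nat_lit 76) (nat_lit 633014047299) (nat_lit 8) (nat_lit 5) (nat_lit 10) (nat_lit 5) (nat_lit 9) (nat_lit 4) (nat_lit 265) (nat_lit 247) (nat_lit 148)) (XT.lf (nat_lit 0) (nat_lit 357836148699) (nat_lit 76) (nat_lit 39818692000) (nat_lit 152) (nat_lit 579915779645) (nat_lit 7) (nat_lit 5) (nat_lit 8) (nat_lit 5) (nat_lit 9) (nat_lit 4) (nat_lit 266) (nat_lit 247) (nat_lit 147)))) (XT.nd (nat_lit 156) (nat_lit 76) (nat_lit 0) (XT.nd (nat_lit 78) (nat_lit 76) (nat_lit 0) (XT.lf (nat_lit 0) (nat_lit 612252382794) (nat_lit 152) (nat_lit 298524526106) (nat_lit 0) (nat_lit 179972544513) (nat_lit 7) (nat_lit 5) (nat_lit 9) (nat_lit 4) (nat_lit 7) (nat_lit 4) (nat_lit 267) (nat_lit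 247) (nat_lit 146)) (XT.lf (nat_lit 0) (nat_lit 75711015621) (nat_lit 76) (nat_lit 788359654439) (nat_lit 76) (nat_lit 356079774407) (nat_lit 6) (nat_lit 4) (nat_lit 7) (nat_lit 5) (nat_lit 7) (nat_lit 4) (nat_lit 268) (nat_lit 247) (nat_lit 145))) (XT.nd (nat_lit 78) (nat_lit 76) (nat_lit 0) (XT.lf (nat_lit 0) (nat_lit 539631892833) (nat_lit 76) (nat_lit 629634455306) (nat_lit 76) (nat_lit 197354538968) (nat_lit 6) (nat_lit 4) (nat_lit 7) (nat_lit 5) (nat_lit 7) (nat_lit 4) (nat_lit 269) (nat_lit 247) (nat_lit 144)) (XT.nd (nat_lit 78) (nat_lit 76) (nat_lit 0) (XT.lf (nat_lit 0) (nat_lit 1073140830565) (nat_lit 76) (nat_lit 447100509613) (nat_lit 76) (nat_lit 14820561704) (nat_lit 6) (nat_lit 4) (nat_lit 7) (nat_lit 5) (nat_lit 7) (nat_lit 4) (nat_lit 270) (nat_lit 247) (nat_lit 143)) (XT.lf (nat_lit 0) (nat_lit 177724904151) (nat_lit 152) (nat_lit 50171431435) (nat_lit 76) (nat_lit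 1499660977569) (nat_lit 5) (nat_lit 5) (nat_lit 7) (nat_lit 5) (nat_lit 6) (nat_lit 4) (nat_lit 271) (nat_lit 247) (nat_lit 142)))))) (XT.nd (nat_lit 312) (nat_lit 76) (nat_lit 0) (XT.nd (nat_lit 156) (nat_lit 0) (nat_lit 0) (XT.nd (nat_lit 78) (nat_lit 0) (nat_lit 0) (XT.lf (nat_lit 0) (nat_lit 418795484414) (nat_lit 152) (nat_lit 1483951762030) (nat_lit 0) (nat_lit 42899832907) (nat_lit 4) (nat_lit 5) (nat_lit 6) (nat_lit 4) (nat_lit 4) (nat_lit 4) (nat_lit 272) (nat_lit 247) (nat_lit 141)) (XT.lf (nat_lit 0) (nat_lit 709626311962) (nat_lit 152) (nat_lit 1151053407118) (nat_lit 0) (nat_lit 333730642404) (nat_lit 4) (nat_lit 5) (nat_lit 6) (nat_lit 4) (nat_lit 4) (nat_lit 4) (nat_lit 273) (nat_lit 247) (nat_lit 140))) (XT.nd (nat_lit 78) (nat_lit 0) (nat_lit 0) (XT.lf (nat_lit 0) (nat_lit 1044081738110) (nat_lit 152) (nat_lit 768220348839) (nat_lit 0) (nat_lit 668186052856) (nat_lit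 4) (nat_lit 5) (nat_lit 6) (nat_lit 4) (nat_lit 4) (nat_lit 4) (nat_lit 274) (nat_lit 247) (nat_lit 139)) (XT.lf (nat_lit 0) (nat_lit 1428705455978) (nat_lit 152) (nat_lit 327962375184) (nat_lit 0) (nat_lit 1052809757075) (nat_lit 4) (nat_lit 5) (nat_lit 6) (nat_lit 4) (nat_lit 4) (nat_lit 4) (nat_lit 275) (nat_lit 247) (nat_lit 138)))) (XT.nd (nat_lit 156) (nat_lit 0) (nat_lit 0) (XT.nd (nat_lit 78) (nat_lit 0) (nat_lit 0) (XT.lf (nat_lit 0) (nat_lit 195762377362) (nat_lit 76) (nat_lit 1683366437441) (nat_lit 76) (nat_lit 1307470726670) (nat_lit 3) (nat_lit 4) (nat_lit 4) (nat_lit 5) (nat_lit 4) (nat_lit 4) (nat_lit 276) (nat_lit 247) (nat_lit 137)) (XT.lf (nat_lit 0) (nat_lit 834904305552) (nat_lit 76) (nat_lit 1579354841415) (nat_lit 76) (nat_lit 1203459120323) (nat_lit 3) (nat_lit 4) (nat_lit 4) (nat_lit 5) (nat_lit 4) (nat_lit 4) (nat_lit 277) (nat_lit 247) (nat_lit 136))) (XT.nd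 (nat_lit 78) (nat_lit 0) (nat_lit 0) (XT.lf (nat_lit 0) (nat_lit 1569917491670) (nat_lit 76) (nat_lit 1459741521390) (nat_lit 76) (nat_lit 1083845791325) (nat_lit 3) (nat_lit 4) (nat_lit 4) (nat_lit 5) (nat_lit 4) (nat_lit 4) (nat_lit 278) (nat_lit 247) (nat_lit 135)) (XT.nd (nat_lit 78) (nat_lit 0) (nat_lit 0) (XT.lf (nat_lit 0) (nat_lit 2415182628489) (nat_lit 76) (nat_lit 1322186216759) (nat_lit 76) (nat_lit 946290478889) (nat_lit 3) (nat_lit 4) (nat_lit 4) (nat_lit 5) (nat_lit 4) (nat_lit 4) (nat_lit 279) (nat_lit 247) (nat_lit 134)) (XT.lf (nat_lit 0) (nat_lit 3387237512164) (nat_lit 76) (nat_lit 1163997628082) (nat_lit 76) (nat_lit 788101883426) (nat_lit 3) (nat_lit 4) (nat_lit 4) (nat_lit 5) (nat_lit 4) (nat_lit 4) (nat_lit 280) (nat_lit 247) (nat_lit 133))))))))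
noncomputable def xc101 : XT := (XT.nd (nat_lit 31902) (nat_lit 0) (nat_lit 532) (XT.nd (nat_lit 702) (nat_lit 0) (nat_lit 0) (XT.nd (nat_lit 312) (nat_lit 76) (nat_lit 0) (XT.nd (nat_lit 156) (nat_lit 76) (nat_lit 0) (XT.nd (nat_lit 78) (nat_lit 0) (nat_lit 0) (XT.lf (nat_lit 0) (nat_lit 4505100607810) (nat_lit 76) (nat_lit 982080761232) (nat_lit 76) (nat_lit 606185010676) (nat_lit 3) (nat_lit 4) (nat_lit 4) (nat_lit 5) (nat_lit 4) (nat_lit 4) (nat_lit 281) (nat_lit 247) (nat_lit 132)) (XT.lf (nat_lit 0) (nat_lit 5790643149907) (nat_lit 76) (nat_lit 772876373164) (nat_lit 76) (nat_lit 396980617477) (nat_lit 3) (nat_lit 4) (nat_lit 4) (nat_lit 5) (nat_lit 4) (nat_lit 4) (nat_lit 282) (nat_lit 247) (nat_lit 131))) (XT.nd (nat_lit 78) (nat_lit 76) (nat_lit 0) (XT.lf (nat_lit 0) (nat_lit 7269017057756) (nat_lit 76) (nat_lit 532291334545) (nat_lit 76) (nat_lit 156395574396) (nat_lit 3) (nat_lit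 4) (nat_lit 4) (nat_lit 5) (nat_lit 4) (nat_lit 4) (nat_lit 283) (nat_lit 247) (nat_lit 130)) (XT.lf (nat_lit 0) (nat_lit 109569307626) (nat_lit 152) (nat_lit 140321752632) (nat_lit 76) (nat_lit 8853850244090) (nat_lit 2) (nat_lit 5) (nat_lit 4) (nat_lit 5) (nat_lit 3) (nat_lit 4) (nat_lit 284) (nat_lit 247) (nat_lit 129)))) (XT.nd (nat_lit 156) (nat_lit 0) (nat_lit 0) (XT.nd (nat_lit 78) (nat_lit 0) (nat_lit 0) (XT.lf (nat_lit 0) (nat_lit 425864695428) (nat_lit 152) (nat_lit 9891736470050) (nat_lit 0) (nat_lit 98998810730) (nat_lit 1) (nat_lit 5) (nat_lit 3) (nat_lit 4) (nat_lit 1) (nat_lit 4) (nat_lit 285) (nat_lit 247) (nat_lit 128)) (XT.lf (nat_lit 0) (nat_lit 809188245970) (nat_lit 152) (nat_lit 10631939265978) (nat_lit 0) (nat_lit 482322358721) (nat_lit 1) (nat_lit 5) (nat_lit 3) (nat_lit 4) (nat_lit 1) (nat_lit 4) (nat_lit 286) (nat_lit 247) (nat_lit 127))) (XT.nd (nat_lit 78)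 (nat_lit 0) (nat_lit 0) (XT.lf (nat_lit 0) (nat_lit 1250010323716) (nat_lit 152) (nat_lit 11483172492146) (nat_lit 0) (nat_lit 923144434248) (nat_lit 1) (nat_lit 5) (nat_lit 3) (nat_lit 4) (nat_lit 1) (nat_lit 4) (nat_lit 287) (nat_lit 247) (nat_lit 126)) (XT.nd (nat_lit 78) (nat_lit 0) (nat_lit 0) (XT.lf (nat_lit 0) (nat_lit 1756955708449) (nat_lit 152) (nat_lit 12462090711672) (nat_lit 0) (nat_lit 1430089817052) (nat_lit 1) (nat_lit 5) (nat_lit 3) (nat_lit 4) (nat_lit 1) (nat_lit 4) (nat_lit 288) (nat_lit 247) (nat_lit 125)) (XT.lf (nat_lit 0) (nat_lit 2339942896826) (nat_lit 152) (nat_lit 13587846672332) (nat_lit 0) (nat_lit 2013077003752) (nat_lit 1) (nat_lit 5) (nat_lit 3) (nat_lit 4) (nat_lit 1) (nat_lit 4) (nat_lit 289) (nat_lit 247) (nat_lit 124)))))) (XT.nd (nat_lit 312) (nat_lit 0) (nat_lit 0) (XT.nd (nat_lit 156) (nat_lit 0) (nat_lit 0) (XT.nd (nat_lit 78) (nat_lit 0) (nat_lit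 0) (XT.lf (nat_lit 0) (nat_lit 3010378159925) (nat_lit 152) (nat_lit 14882466034224) (nat_lit 0) (nat_lit 2683512265393) (nat_lit 1) (nat_lit 5) (nat_lit 3) (nat_lit 4) (nat_lit 1) (nat_lit 4) (nat_lit 290) (nat_lit 247) (nat_lit 123)) (XT.lf (nat_lit 0) (nat_lit 3781378709415) (nat_lit 152) (nat_lit 16371278306603) (nat_lit 0) (nat_lit 3454512813614) (nat_lit 1) (nat_lit 5) (nat_lit 3) (nat_lit 4) (nat_lit 1) (nat_lit 4) (nat_lit 291) (nat_lit 247) (nat_lit 122))) (XT.nd (nat_lit 78) (nat_lit 0) (nat_lit 0) (XT.lf (nat_lit 0) (nat_lit 4668029338655) (nat_lit 152) (nat_lit 18083412425232) (nat_lit 0) (nat_lit 4341163441752) (nat_lit 1) (nat_lit 5) (nat_lit 3) (nat_lit 4) (nat_lit 1) (nat_lit 4) (nat_lit 292) (nat_lit 247) (nat_lit 121)) (XT.lf (nat_lit 0) (nat_lit 5687677559957) (nat_lit 152) (nat_lit 20052366666347) (nat_lit 0) (nat_lit 5360811662094) (nat_lit 1) (nat_lit 5) (nat_lit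 3) (nat_lit 4) (nat_lit 1) (nat_lit 4) (nat_lit 293) (nat_lit 247) (nat_lit 120)))) (XT.nd (nat_lit 156) (nat_lit 0) (nat_lit 0) (XT.nd (nat_lit 78) (nat_lit 0) (nat_lit 0) (XT.lf (nat_lit 0) (nat_lit 6860273012433) (nat_lit 152) (nat_lit 22316664047708) (nat_lit 0) (nat_lit 6533407113736) (nat_lit 1) (nat_lit 5) (nat_lit 3) (nat_lit 4) (nat_lit 1) (nat_lit 4) (nat_lit 294) (nat_lit 247) (nat_lit 119)) (XT.lf (nat_lit 0) (nat_lit 8208757781022) (nat_lit 152) (nat_lit 24920606039819) (nat_lit 0) (nat_lit 7881891881601) (nat_lit 1) (nat_lit 5) (nat_lit 3) (nat_lit 4) (nat_lit 1) (nat_lit 4) (nat_lit 295) (nat_lit 247) (nat_lit 118))) (XT.nd (nat_lit 78) (nat_lit 0) (nat_lit 0) (XT.lf (nat_lit 0) (nat_lit 9759515263372) (nat_lit 152) (nat_lit 27915139333831) (nat_lit 0) (nat_lit 9432649363320) (nat_lit 1) (nat_lit 5) (nat_lit 3) (nat_lit 4) (nat_lit 1) (nat_lit 4) (nat_lit 296) (nat_lit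 247) (nat_lit 117)) (XT.nd (nat_lit 30576) (nat_lit 0) (nat_lit 1368) (XT.lf (nat_lit 0) (nat_lit 11542886366745) (nat_lit 152) (nat_lit 31358852624627) (nat_lit 0) (nat_lit 11216020466145) (nat_lit 1) (nat_lit 5) (nat_lit 3) (nat_lit 4) (nat_lit 1) (nat_lit 4) (nat_lit 297) (nat_lit 247) (nat_lit 116)) (XT.lf (nat_lit 0) (nat_lit 9320069237) (nat_lit 380) (nat_lit 46423528423) (nat_lit 380) (nat_lit 46423528423) (nat_lit 19) (nat_lit 3) (nat_lit 24) (nat_lit 3) (nat_lit 24) (nat_lit 5) (nat_lit 248) (nat_lit 248) (nat_lit 164))))))) (XT.nd (nat_lit 702) (nat_lit 532) (nat_lit 0) (XT.nd (nat_lit 312) (nat_lit 304) (nat_lit 0) (XT.nd (nat_lit 156) (nat_lit 0) (nat_lit 76) (XT.nd (nat_lit 78) (nat_lit 0) (nat_lit 76) (XT.lf (nat_lit 0) (nat_lit 20039555397) (nat_lit 380) (nat_lit 633156738) (nat_lit 380) (nat_lit 198986389863) (nat_lit 19) (nat_lit 3) (nat_lit 24) (nat_lit 3) (nat_lit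 24) (nat_lit 5) (nat_lit 249) (nat_lit 248) (nat_lit 163)) (XT.lf (nat_lit 0) (nat_lit 30136776674) (nat_lit 304) (nat_lit 124546274355) (nat_lit 380) (nat_lit 81326445944) (nat_lit 20) (nat_lit 5) (nat_lit 24) (nat_lit 5) (nat_lit 25) (nat_lit 5) (nat_lit 250) (nat_lit 248) (nat_lit 162))) (XT.nd (nat_lit 78) (nat_lit 0) (nat_lit 76) (XT.lf (nat_lit 0) (nat_lit 42767448916) (nat_lit 304) (nat_lit 15348436969) (nat_lit 380) (nat_lit 196543736399) (nat_lit 20) (nat_lit 5) (nat_lit 24) (nat_lit 5) (nat_lit 25) (nat_lit 5) (nat_lit 251) (nat_lit 248) (nat_lit 161)) (XT.lf (nat_lit 0) (nat_lit 64733510138) (nat_lit 304) (nat_lit 156785014617) (nat_lit 76) (nat_lit 53472624505) (nat_lit 21) (nat_lit 5) (nat_lit 25) (nat_lit 5) (nat_lit 22) (nat_lit 5) (nat_lit 252) (nat_lit 248) (nat_lit 160)))) (XT.nd (nat_lit 156) (nat_lit 152) (nat_lit 0) (XT.nd (nat_lit 78) (nat_lit 304) (nat_lit 0) (XT.lf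 (nat_lit 0) (nat_lit 93602242012) (nat_lit 304) (nat_lit 27539015033) (nat_lit 76) (nat_lit 176689984966) (nat_lit 21) (nat_lit 5) (nat_lit 25) (nat_lit 5) (nat_lit 22) (nat_lit 5) (nat_lit 253) (nat_lit 248) (nat_lit 159)) (XT.lf (nat_lit 0) (nat_lit 132331171593) (nat_lit 380) (nat_lit 190369615926) (nat_lit 76) (nat_lit 567078792) (nat_lit 17) (nat_lit 5) (nat_lit 22) (nat_lit 5) (nat_lit 18) (nat_lit 5) (nat_lit 254) (nat_lit 248) (nat_lit 158))) (XT.nd (nat_lit 78) (nat_lit 152) (nat_lit 0) (XT.lf (nat_lit 0) (nat_lit 184146024908) (nat_lit 380) (nat_lit 37645284131) (nat_lit 76) (nat_lit 129637188287) (nat_lit 17) (nat_lit 5) (nat_lit 22) (nat_lit 5) (nat_lit 18) (nat_lit 5) (nat_lit 255) (nat_lit 248) (nat_lit 157)) (XT.nd (nat_lit 78) (nat_lit 0) (nat_lit 0) (XT.lf (nat_lit 0) (nat_lit 151472700907) (nat_lit 152) (nat_lit 98532448658) (nat_lit 228) (nat_lit 132867267552) (nat_lit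 15) (nat_lit 5) (nat_lit 17) (nat_lit 5) (nat_lit 18) (nat_lit 5) (nat_lit 256) (nat_lit 248) (nat_lit 156)) (XT.lf (nat_lit 0) (nat_lit 329594011707) (nat_lit 228) (nat_lit 47431860978) (nat_lit 76) (nat_lit 41429422416) (nat_lit 15) (nat_lit 5) (nat_lit 18) (nat_lit 5) (nat_lit 16) (nat_lit 4) (nat_lit 257) (nat_lit 248) (nat_lit 155)))))) (XT.nd (nat_lit 312) (nat_lit 228) (nat_lit 0) (XT.nd (nat_lit 156) (nat_lit 152) (nat_lit 0) (XT.nd (nat_lit 78) (nat_lit 76) (nat_lit 0) (XT.lf (nat_lit 0) (nat_lit 175020558643) (nat_lit 76) (nat_lit 258039798647) (nat_lit 152) (nat_lit 24524374846) (nat_lit 14) (nat_lit 5) (nat_lit 15) (nat_lit 5) (nat_lit 16) (nat_lit 4) (nat_lit 258) (nat_lit 248) (nat_lit 154)) (XT.lf (nat_lit 0) (nat_lit 47656891772) (nat_lit 152) (nat_lit 68206503123) (nat_lit 76) (nat_lit 386023361202) (nat_lit 13) (nat_lit 5) (nat_lit 15) (nat_lit 5) (nat_lit 14) (nat_lit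 5) (nat_lit 259) (nat_lit 248) (nat_lit 153))) (XT.nd (nat_lit 78) (nat_lit 0) (nat_lit 0) (XT.lf (nat_lit 0) (nat_lit 138617786125) (nat_lit 228) (nat_lit 359414866517) (nat_lit 76) (nat_lit 53056767227) (nat_lit 11) (nat_lit 5) (nat_lit 14) (nat_lit 5) (nat_lit 12) (nat_lit 4) (nat_lit 260) (nat_lit 248) (nat_lit 152)) (XT.lf (nat_lit 0) (nat_lit 252475160784) (nat_lit 228) (nat_lit 114621638720) (nat_lit 76) (nat_lit 239187832047) (nat_lit 11) (nat_lit 5) (nat_lit 14) (nat_lit 5) (nat_lit 12) (nat_lit 4) (nat_lit 261) (nat_lit 248) (nat_lit 151)))) (XT.nd (nat_lit 156) (nat_lit 152) (nat_lit 0) (XT.nd (nat_lit 78) (nat_lit 0) (nat_lit 0) (XT.lf (nat_lit 0) (nat_lit 183200216351) (nat_lit 76) (nat_lit 207796789145) (nat_lit 152) (nat_lit 277624240145) (nat_lit 10) (nat_lit 5) (nat_lit 11) (nat_lit 5) (nat_lit 12) (nat_lit 4) (nat_lit 262) (nat_lit 248) (nat_lit 150)) (XT.lf (nat_lit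 0) (nat_lit 538577156711) (nat_lit 76) (nat_lit 17711493871) (nat_lit 152) (nat_lit 183120972918) (nat_lit 10) (nat_lit 5) (nat_lit 11) (nat_lit 5) (nat_lit 12) (nat_lit 4) (nat_lit 263) (nat_lit 248) (nat_lit 149))) (XT.nd (nat_lit 78) (nat_lit 76) (nat_lit 0) (XT.lf (nat_lit 0) (nat_lit 129670130626) (nat_lit 76) (nat_lit 630391505575) (nat_lit 76) (nat_lit 58701482948) (nat_lit 9) (nat_lit 4) (nat_lit 10) (nat_lit 5) (nat_lit 10) (nat_lit 4) (nat_lit 264) (nat_lit 248) (nat_lit 148)) (XT.nd (nat_lit 78) (nat_lit 0) (nat_lit 0) (XT.lf (nat_lit 0) (nat_lit 88710074941) (nat_lit 152) (nat_lit 380963425001) (nat_lit 76) (nat_lit 438045836425) (nat_lit 8) (nat_lit 5) (nat_lit 10) (nat_lit 5) (nat_lit 9) (nat_lit 4) (nat_lit 265) (nat_lit 248) (nat_lit 147)) (XT.lf (nat_lit 0) (nat_lit 252223405370) (nat_lit 152) (nat_lit 29409819795) (nat_lit 76) (nat_lit 727966471924) (nat_lit 8) (nat_lit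 5) (nat_lit 10) (nat_lit 5) (nat_lit 9) (nat_lit 4) (nat_lit 266) (nat_lit 248) (nat_lit 146))))))))
noncomputable def xc102 : XT := (XT.nd (nat_lit 1326) (nat_lit 152) (nat_lit 0) (XT.nd (nat_lit 624) (nat_lit 76) (nat_lit 0) (XT.nd (nat_lit 312) (nat_lit 152) (nat_lit 0) (XT.nd (nat_lit 156) (nat_lit 76) (nat_lit 0) (XT.nd (nat_lit 78) (nat_lit 0) (nat_lit 0) (XT.lf (nat_lit 0) (nat_lit 411512435716) (nat_lit 76) (nat_lit 45791110829) (nat_lit 152) (nat_lit 666902593798) (nat_lit 7) (nat_lit 5) (nat_lit 8) (nat_lit 5) (nat_lit 9) (nat_lit 4) (nat_lit 267) (nat_lit 248) (nat_lit 145)) (XT.lf (nat_lit 0) (nat_lit 704090671241) (nat_lit 152) (nat_lit 343302403437) (nat_lit 0) (nat_lit 206968731145) (nat_lit 7) (nat_lit 5) (nat_lit 9) (nat_lit 4) (nat_lit 7) (nat_lit 4) (nat_lit 268) (nat_lit 248) (nat_lit 144))) (XT.nd (nat_lit 78) (nat_lit 0) (nat_lit 0) (XT.lf (nat_lit 0) (nat_lit 87068433114)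 (nat_lit 76) (nat_lit 906613243945) (nat_lit 76) (nat_lit 409491272279) (nat_lit 6) (nat_lit 4) (nat_lit 7) (nat_lit 5) (nat_lit 7) (nat_lit 4) (nat_lit 269) (nat_lit 248) (nat_lit 143)) (XT.lf (nat_lit 0) (nat_lit 620577342105) (nat_lit 76) (nat_lit 724079311724) (nat_lit 76) (nat_lit 226957312606) (nat_lit 6) (nat_lit 4) (nat_lit 7) (nat_lit 5) (nat_lit 7) (nat_lit 4) (nat_lit 270) (nat_lit 248) (nat_lit 142)))) (XT.nd (nat_lit 156) (nat_lit 76) (nat_lit 0) (XT.nd (nat_lit 78) (nat_lit 76) (nat_lit 0) (XT.lf (nat_lit 0) (nat_lit 1234112533713) (nat_lit 76) (nat_lit 514165314857) (nat_lit 76) (nat_lit 17043291867) (nat_lit 6) (nat_lit 4) (nat_lit 7) (nat_lit 5) (nat_lit 7) (nat_lit 4) (nat_lit 271) (nat_lit 248) (nat_lit 141)) (XT.lf (nat_lit 0) (nat_lit 204383920269) (nat_lit 152) (nat_lit 57696615168) (nat_lit 76) (nat_lit 1724610332145) (nat_lit 5) (nat_lit 5) (nat_lit 7) (nat_lit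 5) (nat_lit 6) (nat_lit 4) (nat_lit 272) (nat_lit 248) (nat_lit 140))) (XT.nd (nat_lit 78) (nat_lit 0) (nat_lit 0) (XT.lf (nat_lit 0) (nat_lit 481615081992) (nat_lit 152) (nat_lit 1706543989361) (nat_lit 0) (nat_lit 49335028254) (nat_lit 4) (nat_lit 5) (nat_lit 6) (nat_lit 4) (nat_lit 4) (nat_lit 4) (nat_lit 273) (nat_lit 248) (nat_lit 139)) (XT.lf (nat_lit 0) (nat_lit 816070497813) (nat_lit 152) (nat_lit 1323710951252) (nat_lit 0) (nat_lit 383790430426) (nat_lit 4) (nat_lit 5) (nat_lit 6) (nat_lit 4) (nat_lit 4) (nat_lit 4) (nat_lit 274) (nat_lit 248) (nat_lit 138))))) (XT.nd (nat_lit 312) (nat_lit 0) (nat_lit 0) (XT.nd (nat_lit 156) (nat_lit 76) (nat_lit 0) (XT.nd (nat_lit 78) (nat_lit 0) (nat_lit 0) (XT.lf (nat_lit 0) (nat_lit 1200694206702) (nat_lit 152) (nat_lit 883452995136) (nat_lit 0) (nat_lit 768414127446) (nat_lit 4) (nat_lit 5) (nat_lit 6) (nat_lit 4) (nat_lit 4) (nat_lit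 4) (nat_lit 275) (nat_lit 248) (nat_lit 137)) (XT.lf (nat_lit 0) (nat_lit 1643011455136) (nat_lit 152) (nat_lit 377156378393) (nat_lit 0) (nat_lit 1210731365560) (nat_lit 4) (nat_lit 5) (nat_lit 6) (nat_lit 4) (nat_lit 4) (nat_lit 4) (nat_lit 276) (nat_lit 248) (nat_lit 136))) (XT.nd (nat_lit 78) (nat_lit 0) (nat_lit 0) (XT.lf (nat_lit 0) (nat_lit 225127070986) (nat_lit 76) (nat_lit 1935871237176) (nat_lit 76) (nat_lit 1503591138626) (nat_lit 3) (nat_lit 4) (nat_lit 4) (nat_lit 5) (nat_lit 4) (nat_lit 4) (nat_lit 277) (nat_lit 248) (nat_lit 135)) (XT.lf (nat_lit 0) (nat_lit 960140244445) (nat_lit 76) (nat_lit 1816257923382) (nat_lit 76) (nat_lit 1383977817029) (nat_lit 3) (nat_lit 4) (nat_lit 4) (nat_lit 5) (nat_lit 4) (nat_lit 4) (nat_lit 278) (nat_lit 248) (nat_lit 134)))) (XT.nd (nat_lit 156) (nat_lit 0) (nat_lit 0) (XT.nd (nat_lit 78) (nat_lit 0) (nat_lit 0) (XT.lf (nat_lit 0) (nat_lit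 1805405370256) (nat_lit 76) (nat_lit 1678702624169) (nat_lit 76) (nat_lit 1246422511030) (nat_lit 3) (nat_lit 4) (nat_lit 4) (nat_lit 5) (nat_lit 4) (nat_lit 4) (nat_lit 279) (nat_lit 248) (nat_lit 133)) (XT.lf (nat_lit 0) (nat_lit 2777460244359) (nat_lit 76) (nat_lit 1520514040203) (nat_lit 76) (nat_lit 1088233921163) (nat_lit 3) (nat_lit 4) (nat_lit 4) (nat_lit 5) (nat_lit 4) (nat_lit 4) (nat_lit 280) (nat_lit 248) (nat_lit 132))) (XT.nd (nat_lit 78) (nat_lit 0) (nat_lit 0) (XT.lf (nat_lit 0) (nat_lit 3895323331681) (nat_lit 76) (nat_lit 1338597177451) (nat_lit 76) (nat_lit 906317053280) (nat_lit 3) (nat_lit 4) (nat_lit 4) (nat_lit 5) (nat_lit 4) (nat_lit 4) (nat_lit 281) (nat_lit 248) (nat_lit 131)) (XT.nd (nat_lit 78) (nat_lit 0) (nat_lit 0) (XT.lf (nat_lit 0) (nat_lit 5180865866540) (nat_lit 76) (nat_lit 1129392792945) (nat_lit 76) (nat_lit 697112664312) (nat_lit 3) (nat_lit 4)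 (nat_lit 4) (nat_lit 5) (nat_lit 4) (nat_lit 4) (nat_lit 282) (nat_lit 248) (nat_lit 130)) (XT.lf (nat_lit 0) (nat_lit 6659239768096) (nat_lit 76) (nat_lit 888807757424) (nat_lit 76) (nat_lit 456527624911) (nat_lit 3) (nat_lit 4) (nat_lit 4) (nat_lit 5) (nat_lit 4) (nat_lit 4) (nat_lit 283) (nat_lit 248) (nat_lit 129))))))) (XT.nd (nat_lit 702) (nat_lit 0) (nat_lit 0) (XT.nd (nat_lit 312) (nat_lit 0) (nat_lit 0) (XT.nd (nat_lit 156) (nat_lit 76) (nat_lit 0) (XT.nd (nat_lit 78) (nat_lit 76) (nat_lit 0) (XT.lf (nat_lit 0) (nat_lit 8359369743118) (nat_lit 76) (nat_lit 612134972366) (nat_lit 76) (nat_lit 179854836479) (nat_lit 3) (nat_lit 4) (nat_lit 4) (nat_lit 5) (nat_lit 4) (nat_lit 4) (nat_lit 284) (nat_lit 248) (nat_lit 128)) (XT.lf (nat_lit 0) (nat_lit 126004762449) (nat_lit 152) (nat_lit 161369899553) (nat_lit 76) (nat_lit 10181927829129) (nat_lit 2) (nat_lit 5) (nat_lit 4) (nat_lit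 5) (nat_lit 3) (nat_lit 4) (nat_lit 285) (nat_lit 248) (nat_lit 127))) (XT.nd (nat_lit 78) (nat_lit 0) (nat_lit 0) (XT.lf (nat_lit 0) (nat_lit 489744457633) (nat_lit 152) (nat_lit 11375496823737) (nat_lit 0) (nat_lit 113848682528) (nat_lit 1) (nat_lit 5) (nat_lit 3) (nat_lit 4) (nat_lit 1) (nat_lit 4) (nat_lit 286) (nat_lit 248) (nat_lit 126)) (XT.lf (nat_lit 0) (nat_lit 930566533205) (nat_lit 152) (nat_lit 12226730054292) (nat_lit 0) (nat_lit 554670756170) (nat_lit 1) (nat_lit 5) (nat_lit 3) (nat_lit 4) (nat_lit 1) (nat_lit 4) (nat_lit 287) (nat_lit 248) (nat_lit 125)))) (XT.nd (nat_lit 156) (nat_lit 0) (nat_lit 0) (XT.nd (nat_lit 78) (nat_lit 0) (nat_lit 0) (XT.lf (nat_lit 0) (nat_lit 1437511916047) (nat_lit 152) (nat_lit 13205648277635) (nat_lit 0) (nat_lit 1061616137335) (nat_lit 1) (nat_lit 5) (nat_lit 3) (nat_lit 4) (nat_lit 1) (nat_lit 4) (nat_lit 288) (nat_lit 248) (nat_lit 124))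 (XT.lf (nat_lit 0) (nat_lit 2020499102780) (nat_lit 152) (nat_lit 14331404241612) (nat_lit 0) (nat_lit 1644603322610) (nat_lit 1) (nat_lit 5) (nat_lit 3) (nat_lit 4) (nat_lit 1) (nat_lit 4) (nat_lit 289) (nat_lit 248) (nat_lit 123))) (XT.nd (nat_lit 78) (nat_lit 0) (nat_lit 0) (XT.lf (nat_lit 0) (nat_lit 2690934364449) (nat_lit 152) (nat_lit 15626023606389) (nat_lit 0) (nat_lit 2315038583010) (nat_lit 1) (nat_lit 5) (nat_lit 3) (nat_lit 4) (nat_lit 1) (nat_lit 4) (nat_lit 290) (nat_lit 248) (nat_lit 122)) (XT.nd (nat_lit 78) (nat_lit 0) (nat_lit 0) (XT.lf (nat_lit 0) (nat_lit 3461934912696) (nat_lit 152) (nat_lit 17114835881277) (nat_lit 0) (nat_lit 3086039130154) (nat_lit 1) (nat_lit 5) (nat_lit 3) (nat_lit 4) (nat_lit 1) (nat_lit 4) (nat_lit 291) (nat_lit 248) (nat_lit 121)) (XT.lf (nat_lit 0) (nat_lit 4348585540855) (nat_lit 152) (nat_lit 18826970002088) (nat_lit 0) (nat_lit 3972689757354)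 (nat_lit 1) (nat_lit 5) (nat_lit 3) (nat_lit 4) (nat_lit 1) (nat_lit 4) (nat_lit 292) (nat_lit 248) (nat_lit 120)))))) (XT.nd (nat_lit 312) (nat_lit 0) (nat_lit 0) (XT.nd (nat_lit 156) (nat_lit 0) (nat_lit 0) (XT.nd (nat_lit 78) (nat_lit 0) (nat_lit 0) (XT.lf (nat_lit 0) (nat_lit 5368233761217) (nat_lit 152) (nat_lit 20795924245100) (nat_lit 0) (nat_lit 4992337976882) (nat_lit 1) (nat_lit 5) (nat_lit 3) (nat_lit 4) (nat_lit 1) (nat_lit 4) (nat_lit 293) (nat_lit 248) (nat_lit 119)) (XT.lf (nat_lit 0) (nat_lit 6540829212875) (nat_lit 152) (nat_lit 23060221628110) (nat_lit 0) (nat_lit 6164933427815) (nat_lit 1) (nat_lit 5) (nat_lit 3) (nat_lit 4) (nat_lit 1) (nat_lit 4) (nat_lit 294) (nat_lit 248) (nat_lit 118))) (XT.nd (nat_lit 78) (nat_lit 0) (nat_lit 0) (XT.lf (nat_lit 0) (nat_lit 7889313980754) (nat_lit 152) (nat_lit 25664163621656) (nat_lit 0) (nat_lit 7513418195063) (nat_lit 1) (nat_lit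 5) (nat_lit 3) (nat_lit 4) (nat_lit 1) (nat_lit 4) (nat_lit 295) (nat_lit 248) (nat_lit 117)) (XT.lf (nat_lit 0) (nat_lit 9440071462485) (nat_lit 152) (nat_lit 28658696916916) (nat_lit 0) (nat_lit 9064175676246) (nat_lit 1) (nat_lit 5) (nat_lit 3) (nat_lit 4) (nat_lit 1) (nat_lit 4) (nat_lit 296) (nat_lit 248) (nat_lit 116)))) (XT.nd (nat_lit 30732) (nat_lit 0) (nat_lit 1368) (XT.nd (nat_lit 30654) (nat_lit 0) (nat_lit 1368) (XT.lf (nat_lit 0) (nat_lit 11223442565321) (nat_lit 152) (nat_lit 32102410208796) (nat_lit 0) (nat_lit 10847546778605) (nat_lit 1) (nat_lit 5) (nat_lit 3) (nat_lit 4) (nat_lit 1) (nat_lit 4) (nat_lit 297) (nat_lit 248) (nat_lit 115)) (XT.lf (nat_lit 0) (nat_lit 10719427918) (nat_lit 380) (nat_lit 53386278534) (nat_lit 380) (nat_lit 53386278534) (nat_lit 19) (nat_lit 3) (nat_lit 24) (nat_lit 3) (nat_lit 24) (nat_lit 5) (nat_lit 249) (nat_lit 249) (nat_lit 162)))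 (XT.nd (nat_lit 78) (nat_lit 0) (nat_lit 76) (XT.lf (nat_lit 0) (nat_lit 23047833569) (nat_lit 380) (nat_lit 726775200) (nat_lit 380) (nat_lit 228832993294) (nat_lit 19) (nat_lit 3) (nat_lit 24) (nat_lit 3) (nat_lit 24) (nat_lit 5) (nat_lit 250) (nat_lit 249) (nat_lit 161)) (XT.nd (nat_lit 78) (nat_lit 0) (nat_lit 0) (XT.lf (nat_lit 0) (nat_lit 34659352656) (nat_lit 304) (nat_lit 143226563334) (nat_lit 380) (nat_lit 93524684864) (nat_lit 20) (nat_lit 5) (nat_lit 24) (nat_lit 5) (nat_lit 25) (nat_lit 5) (nat_lit 251) (nat_lit 249) (nat_lit 160)) (XT.lf (nat_lit 0) (nat_lit 49184357106) (nat_lit 304) (nat_lit 17649265842) (nat_lit 380) (nat_lit 226024663839) (nat_lit 20) (nat_lit 5) (nat_lit 24) (nat_lit 5) (nat_lit 25) (nat_lit 5) (nat_lit 252) (nat_lit 249) (nat_lit 159))))))))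
noncomputable def xc103 : XT := (XT.nd (nat_lit 1404) (nat_lit 380) (nat_lit 0) (XT.nd (nat_lit 702) (nat_lit 380) (nat_lit 0) (XT.nd (nat_lit 312) (nat_lit 456) (nat_lit 0) (XT.nd (nat_lit 156) (nat_lit 304) (nat_lit 0) (XT.nd (nat_lit 78) (nat_lit 0) (nat_lit 0) (XT.lf (nat_lit 0) (nat_lit 74445140659) (nat_lit 304) (nat_lit 180301134404) (nat_lit 76) (nat_lit 61493297107) (nat_lit 21) (nat_lit 5) (nat_lit 25) (nat_lit 5) (nat_lit 22) (nat_lit 5) (nat_lit 253) (nat_lit 249) (nat_lit 158)) (XT.lf (nat_lit 0) (nat_lit 107643973096) (nat_lit 304) (nat_lit 31668447805) (nat_lit 76) (nat_lit 203193290473) (nat_lit 21) (nat_lit 5) (nat_lit 25) (nat_lit 5) (nat_lit 22) (nat_lit 5) (nat_lit 254) (nat_lit 249) (nat_lit 157))) (XT.nd (nat_lit 78) (nat_lit 0) (nat_lit 0) (XT.lf (nat_lit 0) (nat_lit 152182119853) (nat_lit 380) (nat_lit 218923509856) (nat_lit 76) (nat_lit 652218955) (nat_lit 17)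 (nat_lit 5) (nat_lit 22) (nat_lit 5) (nat_lit 18) (nat_lit 5) (nat_lit 255) (nat_lit 249) (nat_lit 156)) (XT.lf (nat_lit 0) (nat_lit 211769035184) (nat_lit 380) (nat_lit 43290730266) (nat_lit 76) (nat_lit 149082834656) (nat_lit 17) (nat_lit 5) (nat_lit 22) (nat_lit 5) (nat_lit 18) (nat_lit 5) (nat_lit 256) (nat_lit 249) (nat_lit 155)))) (XT.nd (nat_lit 156) (nat_lit 304) (nat_lit 0) (XT.nd (nat_lit 78) (nat_lit 0) (nat_lit 0) (XT.lf (nat_lit 0) (nat_lit 174194891325) (nat_lit 152) (nat_lit 113312046105) (nat_lit 228) (nat_lit 152796184863) (nat_lit 15) (nat_lit 5) (nat_lit 17) (nat_lit 5) (nat_lit 18) (nat_lit 5) (nat_lit 257) (nat_lit 249) (nat_lit 154)) (XT.lf (nat_lit 0) (nat_lit 379034006162) (nat_lit 228) (nat_lit 54545395343) (nat_lit 76) (nat_lit 47644049542) (nat_lit 15) (nat_lit 5) (nat_lit 18) (nat_lit 5) (nat_lit 16) (nat_lit 4) (nat_lit 258) (nat_lit 249) (nat_lit 153)))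 (XT.nd (nat_lit 78) (nat_lit 228) (nat_lit 0) (XT.lf (nat_lit 0) (nat_lit 201274830641) (nat_lit 76) (nat_lit 296745405704) (nat_lit 152) (nat_lit 28202077954) (nat_lit 14) (nat_lit 5) (nat_lit 15) (nat_lit 5) (nat_lit 16) (nat_lit 4) (nat_lit 259) (nat_lit 249) (nat_lit 152)) (XT.nd (nat_lit 78) (nat_lit 152) (nat_lit 0) (XT.lf (nat_lit 0) (nat_lit 54806180551) (nat_lit 152) (nat_lit 78436368685) (nat_lit 76) (nat_lit 443927104121) (nat_lit 13) (nat_lit 5) (nat_lit 15) (nat_lit 5) (nat_lit 14) (nat_lit 5) (nat_lit 260) (nat_lit 249) (nat_lit 151)) (XT.lf (nat_lit 0) (nat_lit 159411169314) (nat_lit 228) (nat_lit 413325944321) (nat_lit 76) (nat_lit 61015609398) (nat_lit 11) (nat_lit 5) (nat_lit 14) (nat_lit 5) (nat_lit 12) (nat_lit 4) (nat_lit 261) (nat_lit 249) (nat_lit 150)))))) (XT.nd (nat_lit 312) (nat_lit 228) (nat_lit 0) (XT.nd (nat_lit 156) (nat_lit 76) (nat_lit 0) (XT.nd (nat_lit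 78) (nat_lit 76) (nat_lit 0) (XT.lf (nat_lit 0) (nat_lit 290347056876) (nat_lit 228) (nat_lit 131813882638) (nat_lit 76) (nat_lit 275066291278) (nat_lit 11) (nat_lit 5) (nat_lit 14) (nat_lit 5) (nat_lit 12) (nat_lit 4) (nat_lit 262) (nat_lit 249) (nat_lit 149)) (XT.lf (nat_lit 0) (nat_lit 210681205153) (nat_lit 76) (nat_lit 238965931616) (nat_lit 152) (nat_lit 319267206743) (nat_lit 10) (nat_lit 5) (nat_lit 11) (nat_lit 5) (nat_lit 12) (nat_lit 4) (nat_lit 263) (nat_lit 249) (nat_lit 148))) (XT.nd (nat_lit 78) (nat_lit 76) (nat_lit 0) (XT.lf (nat_lit 0) (nat_lit 619364561826) (nat_lit 76) (nat_lit 20367891081) (nat_lit 152) (nat_lit 210588536748) (nat_lit 10) (nat_lit 5) (nat_lit 11) (nat_lit 5) (nat_lit 12) (nat_lit 4) (nat_lit 264) (nat_lit 249) (nat_lit 147)) (XT.lf (nat_lit 0) (nat_lit 149121504961) (nat_lit 76) (nat_lit 724949862734) (nat_lit 76) (nat_lit 67506144973) (nat_lit 9)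 (nat_lit 4) (nat_lit 10) (nat_lit 5) (nat_lit 10) (nat_lit 4) (nat_lit 265) (nat_lit 249) (nat_lit 146)))) (XT.nd (nat_lit 156) (nat_lit 152) (nat_lit 0) (XT.nd (nat_lit 78) (nat_lit 0) (nat_lit 0) (XT.lf (nat_lit 0) (nat_lit 102017030117) (nat_lit 152) (nat_lit 438107151022) (nat_lit 76) (nat_lit 503752988001) (nat_lit 8) (nat_lit 5) (nat_lit 10) (nat_lit 5) (nat_lit 9) (nat_lit 4) (nat_lit 266) (nat_lit 249) (nat_lit 145)) (XT.lf (nat_lit 0) (nat_lit 290057302207) (nat_lit 152) (nat_lit 33820607782) (nat_lit 76) (nat_lit 837161682810) (nat_lit 8) (nat_lit 5) (nat_lit 10) (nat_lit 5) (nat_lit 9) (nat_lit 4) (nat_lit 267) (nat_lit 249) (nat_lit 144))) (XT.nd (nat_lit 78) (nat_lit 76) (nat_lit 0) (XT.lf (nat_lit 0) (nat_lit 473239954920) (nat_lit 76) (nat_lit 52659486360) (nat_lit 152) (nat_lit 766937564877) (nat_lit 7) (nat_lit 5) (nat_lit 8) (nat_lit 5) (nat_lit 9) (nat_lit 4) (nat_lit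 268) (nat_lit 249) (nat_lit 143)) (XT.nd (nat_lit 78) (nat_lit 76) (nat_lit 0) (XT.lf (nat_lit 0) (nat_lit 809704597846) (nat_lit 152) (nat_lit 394797157838) (nat_lit 0) (nat_lit 238014271407) (nat_lit 7) (nat_lit 5) (nat_lit 9) (nat_lit 4) (nat_lit 7) (nat_lit 4) (nat_lit 269) (nat_lit 249) (nat_lit 142)) (XT.lf (nat_lit 0) (nat_lit 100129276644) (nat_lit 76) (nat_lit 1042604959338) (nat_lit 76) (nat_lit 470914609028) (nat_lit 6) (nat_lit 4) (nat_lit 7) (nat_lit 5) (nat_lit 7) (nat_lit 4) (nat_lit 270) (nat_lit 249) (nat_lit 141))))))) (XT.nd (nat_lit 702) (nat_lit 152) (nat_lit 0) (XT.nd (nat_lit 312) (nat_lit 76) (nat_lit 0) (XT.nd (nat_lit 156) (nat_lit 152) (nat_lit 0) (XT.nd (nat_lit 78) (nat_lit 0) (nat_lit 0) (XT.lf (nat_lit 0) (nat_lit 713664446520) (nat_lit 76) (nat_lit 832690972658) (nat_lit 76) (nat_lit 261000601589) (nat_lit 6) (nat_lit 4) (nat_lit 7) (nat_lit 5) (nat_lit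 7) (nat_lit 4) (nat_lit 271) (nat_lit 249) (nat_lit 140)) (XT.lf (nat_lit 0) (nat_lit 1419229851247) (nat_lit 76) (nat_lit 591289907020) (nat_lit 76) (nat_lit 19599517901) (nat_lit 6) (nat_lit 4) (nat_lit 7) (nat_lit 5) (nat_lit 7) (nat_lit 4) (nat_lit 272) (nat_lit 249) (nat_lit 139))) (XT.nd (nat_lit 78) (nat_lit 76) (nat_lit 0) (XT.lf (nat_lit 0) (nat_lit 235041720404) (nat_lit 152) (nat_lit 66350705944) (nat_lit 76) (nat_lit 1983302039200) (nat_lit 5) (nat_lit 5) (nat_lit 7) (nat_lit 5) (nat_lit 6) (nat_lit 4) (nat_lit 273) (nat_lit 249) (nat_lit 138)) (XT.lf (nat_lit 0) (nat_lit 553857552166) (nat_lit 152) (nat_lit 1962525181737) (nat_lit 0) (nat_lit 56735449154) (nat_lit 4) (nat_lit 5) (nat_lit 6) (nat_lit 4) (nat_lit 4) (nat_lit 4) (nat_lit 274) (nat_lit 249) (nat_lit 137)))) (XT.nd (nat_lit 156) (nat_lit 76) (nat_lit 0) (XT.nd (nat_lit 78) (nat_lit 0) (nat_lit 0) (XT.lf (nat_lit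 0) (nat_lit 938481253246) (nat_lit 152) (nat_lit 1522267240872) (nat_lit 0) (nat_lit 441359139914) (nat_lit 4) (nat_lit 5) (nat_lit 6) (nat_lit 4) (nat_lit 4) (nat_lit 4) (nat_lit 275) (nat_lit 249) (nat_lit 136)) (XT.lf (nat_lit 0) (nat_lit 1380798494891) (nat_lit 152) (nat_lit 1015970637391) (nat_lit 0) (nat_lit 883676372584) (nat_lit 4) (nat_lit 5) (nat_lit 6) (nat_lit 4) (nat_lit 4) (nat_lit 4) (nat_lit 276) (nat_lit 249) (nat_lit 135))) (XT.nd (nat_lit 78) (nat_lit 76) (nat_lit 0) (XT.lf (nat_lit 0) (nat_lit 1889463310088) (nat_lit 152) (nat_lit 433729568182) (nat_lit 0) (nat_lit 1392341179977) (nat_lit 4) (nat_lit 5) (nat_lit 6) (nat_lit 4) (nat_lit 4) (nat_lit 4) (nat_lit 277) (nat_lit 249) (nat_lit 134)) (XT.nd (nat_lit 78) (nat_lit 0) (nat_lit 0) (XT.lf (nat_lit 0) (nat_lit 258896386469) (nat_lit 76) (nat_lit 2226251797322) (nat_lit 76) (nat_lit 1729129660426) (nat_lit 3) (nat_lit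 4) (nat_lit 4) (nat_lit 5) (nat_lit 4) (nat_lit 4) (nat_lit 278) (nat_lit 249) (nat_lit 133)) (XT.lf (nat_lit 0) (nat_lit 1104161502708) (nat_lit 76) (nat_lit 2088696502820) (nat_lit 76) (nat_lit 1591574360023) (nat_lit 3) (nat_lit 4) (nat_lit 4) (nat_lit 5) (nat_lit 4) (nat_lit 4) (nat_lit 279) (nat_lit 249) (nat_lit 132)))))) (XT.nd (nat_lit 312) (nat_lit 152) (nat_lit 0) (XT.nd (nat_lit 156) (nat_lit 0) (nat_lit 0) (XT.nd (nat_lit 78) (nat_lit 0) (nat_lit 0) (XT.lf (nat_lit 0) (nat_lit 2076216368487) (nat_lit 76) (nat_lit 1930507922952) (nat_lit 76) (nat_lit 1433385775023) (nat_lit 3) (nat_lit 4) (nat_lit 4) (nat_lit 5) (nat_lit 4) (nat_lit 4) (nat_lit 280) (nat_lit 249) (nat_lit 131)) (XT.lf (nat_lit 0) (nat_lit 3194079448571) (nat_lit 76) (nat_lit 1748591063762) (nat_lit 76) (nat_lit 1251468911372) (nat_lit 3) (nat_lit 4) (nat_lit 4) (nat_lit 5) (nat_lit 4) (nat_lit 4) (nat_lit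 281) (nat_lit 249) (nat_lit 130))) (XT.nd (nat_lit 78) (nat_lit 0) (nat_lit 0) (XT.lf (nat_lit 0) (nat_lit 4479621977136) (nat_lit 76) (nat_lit 1539386682354) (nat_lit 76) (nat_lit 1042264526084) (nat_lit 3) (nat_lit 4) (nat_lit 4) (nat_lit 5) (nat_lit 4) (nat_lit 4) (nat_lit 282) (nat_lit 249) (nat_lit 129)) (XT.lf (nat_lit 0) (nat_lit 5957995873219) (nat_lit 76) (nat_lit 1298801649526) (nat_lit 76) (nat_lit 801679489883) (nat_lit 3) (nat_lit 4) (nat_lit 4) (nat_lit 5) (nat_lit 4) (nat_lit 4) (nat_lit 283) (nat_lit 249) (nat_lit 128)))) (XT.nd (nat_lit 156) (nat_lit 152) (nat_lit 0) (XT.nd (nat_lit 78) (nat_lit 0) (nat_lit 0) (XT.lf (nat_lit 0) (nat_lit 7658125843482) (nat_lit 76) (nat_lit 1022128866811) (nat_lit 76) (nat_lit 525006704233) (nat_lit 3) (nat_lit 4) (nat_lit 4) (nat_lit 5) (nat_lit 4) (nat_lit 4) (nat_lit 284) (nat_lit 249) (nat_lit 127)) (XT.lf (nat_lit 0) (nat_lit 9613275300388)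 (nat_lit 76) (nat_lit 703955171067) (nat_lit 76) (nat_lit 206833005939) (nat_lit 3) (nat_lit 4) (nat_lit 4) (nat_lit 5) (nat_lit 4) (nat_lit 4) (nat_lit 285) (nat_lit 249) (nat_lit 126))) (XT.nd (nat_lit 78) (nat_lit 76) (nat_lit 0) (XT.lf (nat_lit 0) (nat_lit 144905521187) (nat_lit 152) (nat_lit 185575296793) (nat_lit 76) (nat_lit 11709217040116) (nat_lit 2) (nat_lit 5) (nat_lit 4) (nat_lit 5) (nat_lit 3) (nat_lit 4) (nat_lit 286) (nat_lit 249) (nat_lit 125)) (XT.nd (nat_lit 78) (nat_lit 0) (nat_lit 0) (XT.lf (nat_lit 0) (nat_lit 563206170052) (nat_lit 152) (nat_lit 13081821258965) (nat_lit 0) (nat_lit 130926022856) (nat_lit 1) (nat_lit 5) (nat_lit 3) (nat_lit 4) (nat_lit 1) (nat_lit 4) (nat_lit 287) (nat_lit 249) (nat_lit 124)) (XT.lf (nat_lit 0) (nat_lit 1070151551250) (nat_lit 152) (nat_lit 14060739485625) (nat_lit 0) (nat_lit 637871402595) (nat_lit 1) (nat_lit 5) (nat_lit 3) (nat_lit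 4) (nat_lit 1) (nat_lit 4) (nat_lit 288) (nat_lit 249) (nat_lit 123))))))))
noncomputable def xc104 : XT := (XT.nd (nat_lit 32058) (nat_lit 0) (nat_lit 228) (XT.nd (nat_lit 31356) (nat_lit 0) (nat_lit 1064) (XT.nd (nat_lit 312) (nat_lit 0) (nat_lit 0) (XT.nd (nat_lit 156) (nat_lit 0) (nat_lit 0) (XT.nd (nat_lit 78) (nat_lit 0) (nat_lit 0) (XT.lf (nat_lit 0) (nat_lit 1653138736553) (nat_lit 152) (nat_lit 15186495452488) (nat_lit 0) (nat_lit 1220858586630) (nat_lit 1) (nat_lit 5) (nat_lit 3) (nat_lit 4) (nat_lit 1) (nat_lit 4) (nat_lit 289) (nat_lit 249) (nat_lit 122)) (XT.lf (nat_lit 0) (nat_lit 2323573996979) (nat_lit 152) (nat_lit 16481114819774) (nat_lit 0) (nat_lit 1891293845953) (nat_lit 1) (nat_lit 5) (nat_lit 3) (nat_lit 4) (nat_lit 1) (nat_lit 4) (nat_lit 290) (nat_lit 249) (nat_lit 121))) (XT.nd (nat_lit 78) (nat_lit 0) (nat_lit 0) (XT.lf (nat_lit 0) (nat_lit 3094574544145) (nat_lit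 152) (nat_lit 17969927096843) (nat_lit 0) (nat_lit 2662294392160) (nat_lit 1) (nat_lit 5) (nat_lit 3) (nat_lit 4) (nat_lit 1) (nat_lit 4) (nat_lit 291) (nat_lit 249) (nat_lit 120)) (XT.lf (nat_lit 0) (nat_lit 3981225171364) (nat_lit 152) (nat_lit 19682061219552) (nat_lit 0) (nat_lit 3548945018545) (nat_lit 1) (nat_lit 5) (nat_lit 3) (nat_lit 4) (nat_lit 1) (nat_lit 4) (nat_lit 292) (nat_lit 249) (nat_lit 119)))) (XT.nd (nat_lit 156) (nat_lit 0) (nat_lit 0) (XT.nd (nat_lit 78) (nat_lit 0) (nat_lit 0) (XT.lf (nat_lit 0) (nat_lit 5000873390908) (nat_lit 152) (nat_lit 21651015464213) (nat_lit 0) (nat_lit 4568593237364) (nat_lit 1) (nat_lit 5) (nat_lit 3) (nat_lit 4) (nat_lit 1) (nat_lit 4) (nat_lit 293) (nat_lit 249) (nat_lit 118)) (XT.lf (nat_lit 0) (nat_lit 6173468841855) (nat_lit 152) (nat_lit 23915312848658) (nat_lit 0) (nat_lit 5741188687681) (nat_lit 1) (nat_lit 5) (nat_lit 3) (nat_lit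 4) (nat_lit 1) (nat_lit 4) (nat_lit 294) (nat_lit 249) (nat_lit 117))) (XT.nd (nat_lit 78) (nat_lit 0) (nat_lit 0) (XT.lf (nat_lit 0) (nat_lit 7521953609116) (nat_lit 152) (nat_lit 26519254843451) (nat_lit 0) (nat_lit 7089673454393) (nat_lit 1) (nat_lit 5) (nat_lit 3) (nat_lit 4) (nat_lit 1) (nat_lit 4) (nat_lit 295) (nat_lit 249) (nat_lit 116)) (XT.lf (nat_lit 0) (nat_lit 9072711090310) (nat_lit 152) (nat_lit 29513788139795) (nat_lit 0) (nat_lit 8640430935110) (nat_lit 1) (nat_lit 5) (nat_lit 3) (nat_lit 4) (nat_lit 1) (nat_lit 4) (nat_lit 296) (nat_lit 249) (nat_lit 115))))) (XT.nd (nat_lit 312) (nat_lit 304) (nat_lit 0) (XT.nd (nat_lit 156) (nat_lit 0) (nat_lit 76) (XT.nd (nat_lit 78) (nat_lit 0) (nat_lit 0) (XT.lf (nat_lit 0) (nat_lit 12328361611) (nat_lit 380) (nat_lit 61393631162) (nat_lit 380) (nat_lit 61393631162) (nat_lit 19) (nat_lit 3) (nat_lit 24) (nat_lit 3) (nat_lit 24)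 (nat_lit 5) (nat_lit 250) (nat_lit 250) (nat_lit 160)) (XT.lf (nat_lit 0) (nat_lit 26506781658) (nat_lit 380) (nat_lit 834766869) (nat_lit 380) (nat_lit 263156917677) (nat_lit 19) (nat_lit 3) (nat_lit 24) (nat_lit 3) (nat_lit 24) (nat_lit 5) (nat_lit 251) (nat_lit 250) (nat_lit 159))) (XT.nd (nat_lit 78) (nat_lit 0) (nat_lit 0) (XT.lf (nat_lit 0) (nat_lit 39859812818) (nat_lit 304) (nat_lit 164709298554) (nat_lit 380) (nat_lit 107552837142) (nat_lit 20) (nat_lit 5) (nat_lit 24) (nat_lit 5) (nat_lit 25) (nat_lit 5) (nat_lit 252) (nat_lit 250) (nat_lit 158)) (XT.lf (nat_lit 0) (nat_lit 56563364814) (nat_lit 304) (nat_lit 20295569387) (nat_lit 380) (nat_lit 259927884762) (nat_lit 20) (nat_lit 5) (nat_lit 24) (nat_lit 5) (nat_lit 25) (nat_lit 5) (nat_lit 253) (nat_lit 250) (nat_lit 157)))) (XT.nd (nat_lit 156) (nat_lit 456) (nat_lit 0) (XT.nd (nat_lit 78) (nat_lit 0) (nat_lit 0) (XT.lf (nat_lit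 0) (nat_lit 85613124612) (nat_lit 304) (nat_lit 207345070231) (nat_lit 76) (nat_lit 70717124510) (nat_lit 21) (nat_lit 5) (nat_lit 25) (nat_lit 5) (nat_lit 22) (nat_lit 5) (nat_lit 254) (nat_lit 250) (nat_lit 156)) (XT.lf (nat_lit 0) (nat_lit 123791623716) (nat_lit 304) (nat_lit 36417641643) (nat_lit 76) (nat_lit 233672138684) (nat_lit 21) (nat_lit 5) (nat_lit 25) (nat_lit 5) (nat_lit 22) (nat_lit 5) (nat_lit 255) (nat_lit 250) (nat_lit 155))) (XT.nd (nat_lit 78) (nat_lit 152) (nat_lit 0) (XT.lf (nat_lit 0) (nat_lit 175010400040) (nat_lit 380) (nat_lit 251760865478) (nat_lit 76) (nat_lit 750111038) (nat_lit 17) (nat_lit 5) (nat_lit 22) (nat_lit 5) (nat_lit 18) (nat_lit 5) (nat_lit 256) (nat_lit 250) (nat_lit 154)) (XT.nd (nat_lit 78) (nat_lit 152) (nat_lit 0) (XT.lf (nat_lit 0) (nat_lit 243535227166) (nat_lit 380) (nat_lit 49783321669) (nat_lit 76) (nat_lit 171445311367) (nat_lit 17)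 (nat_lit 5) (nat_lit 22) (nat_lit 5) (nat_lit 18) (nat_lit 5) (nat_lit 257) (nat_lit 250) (nat_lit 153)) (XT.lf (nat_lit 0) (nat_lit 200325096882) (nat_lit 152) (nat_lit 130308648974) (nat_lit 228) (nat_lit 175714725771) (nat_lit 15) (nat_lit 5) (nat_lit 17) (nat_lit 5) (nat_lit 18) (nat_lit 5) (nat_lit 258) (nat_lit 250) (nat_lit 152))))))) (XT.nd (nat_lit 702) (nat_lit 304) (nat_lit 0) (XT.nd (nat_lit 312) (nat_lit 228) (nat_lit 0) (XT.nd (nat_lit 156) (nat_lit 228) (nat_lit 0) (XT.nd (nat_lit 78) (nat_lit 76) (nat_lit 0) (XT.lf (nat_lit 0) (nat_lit 435889782094) (nat_lit 228) (nat_lit 62726263411) (nat_lit 76) (nat_lit 54790818609) (nat_lit 15) (nat_lit 5) (nat_lit 18) (nat_lit 5) (nat_lit 16) (nat_lit 4) (nat_lit 259) (nat_lit 250) (nat_lit 151)) (XT.lf (nat_lit 0) (nat_lit 231466953687) (nat_lit 76) (nat_lit 341256942276) (nat_lit 152) (nat_lit 32431668952) (nat_lit 14) (nat_lit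 5) (nat_lit 15) (nat_lit 5) (nat_lit 16) (nat_lit 4) (nat_lit 260) (nat_lit 250) (nat_lit 150))) (XT.nd (nat_lit 78) (nat_lit 152) (nat_lit 0) (XT.lf (nat_lit 0) (nat_lit 63027678533) (nat_lit 152) (nat_lit 90200984739) (nat_lit 76) (nat_lit 510516350259) (nat_lit 13) (nat_lit 5) (nat_lit 15) (nat_lit 5) (nat_lit 14) (nat_lit 5) (nat_lit 261) (nat_lit 250) (nat_lit 149)) (XT.lf (nat_lit 0) (nat_lit 183323385559) (nat_lit 228) (nat_lit 475323964761) (nat_lit 76) (nat_lit 70168198133) (nat_lit 11) (nat_lit 5) (nat_lit 14) (nat_lit 5) (nat_lit 12) (nat_lit 4) (nat_lit 262) (nat_lit 250) (nat_lit 148)))) (XT.nd (nat_lit 156) (nat_lit 152) (nat_lit 0) (XT.nd (nat_lit 78) (nat_lit 76) (nat_lit 0) (XT.lf (nat_lit 0) (nat_lit 333899585710) (nat_lit 228) (nat_lit 151585207461) (nat_lit 76) (nat_lit 316326450035) (nat_lit 11) (nat_lit 5) (nat_lit 14) (nat_lit 5) (nat_lit 12) (nat_lit 4) (nat_lit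 263) (nat_lit 250) (nat_lit 147)) (XT.lf (nat_lit 0) (nat_lit 242284109063) (nat_lit 76) (nat_lit 274810537123) (nat_lit 152) (nat_lit 367156781574) (nat_lit 10) (nat_lit 5) (nat_lit 11) (nat_lit 5) (nat_lit 12) (nat_lit 4) (nat_lit 264) (nat_lit 250) (nat_lit 146))) (XT.nd (nat_lit 78) (nat_lit 152) (nat_lit 0) (XT.lf (nat_lit 0) (nat_lit 712269874915) (nat_lit 76) (nat_lit 23422827582) (nat_lit 152) (nat_lit 242176377103) (nat_lit 10) (nat_lit 5) (nat_lit 11) (nat_lit 5) (nat_lit 12) (nat_lit 4) (nat_lit 265) (nat_lit 250) (nat_lit 145)) (XT.nd (nat_lit 78) (nat_lit 76) (nat_lit 0) (XT.lf (nat_lit 0) (nat_lit 171490377013) (nat_lit 76) (nat_lit 833692063372) (nat_lit 76) (nat_lit 77631642963) (nat_lit 9) (nat_lit 4) (nat_lit 10) (nat_lit 5) (nat_lit 10) (nat_lit 4) (nat_lit 266) (nat_lit 250) (nat_lit 144)) (XT.lf (nat_lit 0) (nat_lit 117319920314) (nat_lit 152) (nat_lit 503822628039)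 (nat_lit 76) (nat_lit 579316144982) (nat_lit 8) (nat_lit 5) (nat_lit 10) (nat_lit 5) (nat_lit 9) (nat_lit 4) (nat_lit 267) (nat_lit 250) (nat_lit 143)))))) (XT.nd (nat_lit 312) (nat_lit 152) (nat_lit 0) (XT.nd (nat_lit 156) (nat_lit 76) (nat_lit 0) (XT.nd (nat_lit 78) (nat_lit 76) (nat_lit 0) (XT.lf (nat_lit 0) (nat_lit 333566189432) (nat_lit 152) (nat_lit 38893181005) (nat_lit 76) (nat_lit 962736116780) (nat_lit 8) (nat_lit 5) (nat_lit 10) (nat_lit 5) (nat_lit 9) (nat_lit 4) (nat_lit 268) (nat_lit 250) (nat_lit 142)) (XT.lf (nat_lit 0) (nat_lit 544226442560) (nat_lit 76) (nat_lit 60558189206) (nat_lit 152) (nat_lit 881977883547) (nat_lit 7) (nat_lit 5) (nat_lit 8) (nat_lit 5) (nat_lit 9) (nat_lit 4) (nat_lit 269) (nat_lit 250) (nat_lit 141))) (XT.nd (nat_lit 78) (nat_lit 76) (nat_lit 0) (XT.lf (nat_lit 0) (nat_lit 931160533964) (nat_lit 152) (nat_lit 454016273205) (nat_lit 0) (nat_lit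 273716586477) (nat_lit 7) (nat_lit 5) (nat_lit 9) (nat_lit 4) (nat_lit 7) (nat_lit 4) (nat_lit 270) (nat_lit 250) (nat_lit 140)) (XT.lf (nat_lit 0) (nat_lit 115149105618) (nat_lit 76) (nat_lit 1198995498174) (nat_lit 76) (nat_lit 541551532637) (nat_lit 6) (nat_lit 4) (nat_lit 7) (nat_lit 5) (nat_lit 7) (nat_lit 4) (nat_lit 271) (nat_lit 250) (nat_lit 139)))) (XT.nd (nat_lit 156) (nat_lit 152) (nat_lit 0) (XT.nd (nat_lit 78) (nat_lit 0) (nat_lit 0) (XT.lf (nat_lit 0) (nat_lit 820714493913) (nat_lit 76) (nat_lit 957594440239) (nat_lit 76) (nat_lit 300150459006) (nat_lit 6) (nat_lit 4) (nat_lit 7) (nat_lit 5) (nat_lit 7) (nat_lit 4) (nat_lit 272) (nat_lit 250) (nat_lit 138)) (XT.lf (nat_lit 0) (nat_lit 1632114659730) (nat_lit 76) (nat_lit 679983238014) (nat_lit 76) (nat_lit 22539243132) (nat_lit 6) (nat_lit 4) (nat_lit 7) (nat_lit 5) (nat_lit 7) (nat_lit 4) (nat_lit 273) (nat_lit 250) (nat_lit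 137))) (XT.nd (nat_lit 78) (nat_lit 76) (nat_lit 0) (XT.lf (nat_lit 0) (nat_lit 270298138839) (nat_lit 152) (nat_lit 76303008245) (nat_lit 76) (nat_lit 2280797463971) (nat_lit 5) (nat_lit 5) (nat_lit 7) (nat_lit 5) (nat_lit 6) (nat_lit 4) (nat_lit 274) (nat_lit 250) (nat_lit 136)) (XT.nd (nat_lit 78) (nat_lit 0) (nat_lit 0) (XT.lf (nat_lit 0) (nat_lit 636936342174) (nat_lit 152) (nat_lit 2256903651981) (nat_lit 0) (nat_lit 65245892547) (nat_lit 4) (nat_lit 5) (nat_lit 6) (nat_lit 4) (nat_lit 4) (nat_lit 4) (nat_lit 275) (nat_lit 250) (nat_lit 135)) (XT.lf (nat_lit 0) (nat_lit 1079253577915) (nat_lit 152) (nat_lit 1750607060033) (nat_lit 0) (nat_lit 507563120484) (nat_lit 4) (nat_lit 5) (nat_lit 6) (nat_lit 4) (nat_lit 4) (nat_lit 4) (nat_lit 276) (nat_lit 250) (nat_lit 134))))))))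
noncomputable def xc105 : XT := (XT.nd (nat_lit 1404) (nat_lit 0) (nat_lit 0) (XT.nd (nat_lit 702) (nat_lit 152) (nat_lit 0) (XT.nd (nat_lit 312) (nat_lit 0) (nat_lit 0) (XT.nd (nat_lit 156) (nat_lit 76) (nat_lit 0) (XT.nd (nat_lit 78) (nat_lit 0) (nat_lit 0) (XT.lf (nat_lit 0) (nat_lit 1587918387978) (nat_lit 152) (nat_lit 1168366000851) (nat_lit 0) (nat_lit 1016227923761) (nat_lit 4) (nat_lit 5) (nat_lit 6) (nat_lit 4) (nat_lit 4) (nat_lit 4) (nat_lit 277) (nat_lit 250) (nat_lit 133)) (XT.lf (nat_lit 0) (nat_lit 2172882909952) (nat_lit 152) (nat_lit 498788801541) (nat_lit 0) (nat_lit 1601192439834) (nat_lit 4) (nat_lit 5) (nat_lit 6) (nat_lit 4) (nat_lit 4) (nat_lit 4) (nat_lit 278) (nat_lit 250) (nat_lit 132))) (XT.nd (nat_lit 78) (nat_lit 0) (nat_lit 0) (XT.lf (nat_lit 0) (nat_lit 297731037132) (nat_lit 76) (nat_lit 2560189472078) (nat_lit 76) (nat_lit 1988498996829) (nat_lit 3)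 (nat_lit 4) (nat_lit 4) (nat_lit 5) (nat_lit 4) (nat_lit 4) (nat_lit 279) (nat_lit 250) (nat_lit 131)) (XT.lf (nat_lit 0) (nat_lit 1269785895672) (nat_lit 76) (nat_lit 2402000895771) (nat_lit 76) (nat_lit 1830310416061) (nat_lit 3) (nat_lit 4) (nat_lit 4) (nat_lit 5) (nat_lit 4) (nat_lit 4) (nat_lit 280) (nat_lit 250) (nat_lit 130)))) (XT.nd (nat_lit 156) (nat_lit 0) (nat_lit 0) (XT.nd (nat_lit 78) (nat_lit 0) (nat_lit 0) (XT.lf (nat_lit 0) (nat_lit 2387648969463) (nat_lit 76) (nat_lit 2220084039679) (nat_lit 76) (nat_lit 1648393556089) (nat_lit 3) (nat_lit 4) (nat_lit 4) (nat_lit 5) (nat_lit 4) (nat_lit 4) (nat_lit 281) (nat_lit 250) (nat_lit 129)) (XT.lf (nat_lit 0) (nat_lit 3673191492555) (nat_lit 76) (nat_lit 2010879660965) (nat_lit 76) (nat_lit 1439189174001) (nat_lit 3) (nat_lit 4) (nat_lit 4) (nat_lit 5) (nat_lit 4) (nat_lit 4) (nat_lit 282) (nat_lit 250) (nat_lit 128))) (XT.nd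 (nat_lit 78) (nat_lit 0) (nat_lit 0) (XT.lf (nat_lit 0) (nat_lit 5151565383879) (nat_lit 76) (nat_lit 1770294630480) (nat_lit 76) (nat_lit 1198604140582) (nat_lit 3) (nat_lit 4) (nat_lit 4) (nat_lit 5) (nat_lit 4) (nat_lit 4) (nat_lit 283) (nat_lit 250) (nat_lit 127)) (XT.nd (nat_lit 78) (nat_lit 0) (nat_lit 0) (XT.lf (nat_lit 0) (nat_lit 6851695350004) (nat_lit 76) (nat_lit 1493621849801) (nat_lit 76) (nat_lit 921931357353) (nat_lit 3) (nat_lit 4) (nat_lit 4) (nat_lit 5) (nat_lit 4) (nat_lit 4) (nat_lit 284) (nat_lit 250) (nat_lit 126)) (XT.lf (nat_lit 0) (nat_lit 8806844803311) (nat_lit 76) (nat_lit 1175448155829) (nat_lit 76) (nat_lit 603757661162) (nat_lit 3) (nat_lit 4) (nat_lit 4) (nat_lit 5) (nat_lit 4) (nat_lit 4) (nat_lit 285) (nat_lit 250) (nat_lit 125)))))) (XT.nd (nat_lit 312) (nat_lit 0) (nat_lit 0) (XT.nd (nat_lit 156) (nat_lit 76) (nat_lit 0) (XT.nd (nat_lit 78) (nat_lit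 76) (nat_lit 0) (XT.lf (nat_lit 0) (nat_lit 11055266667886) (nat_lit 76) (nat_lit 809548411072) (nat_lit 76) (nat_lit 237857914476) (nat_lit 3) (nat_lit 4) (nat_lit 4) (nat_lit 5) (nat_lit 4) (nat_lit 4) (nat_lit 286) (nat_lit 250) (nat_lit 124)) (XT.lf (nat_lit 0) (nat_lit 166641382915) (nat_lit 152) (nat_lit 213411525004) (nat_lit 76) (nat_lit 13465599623820) (nat_lit 2) (nat_lit 5) (nat_lit 4) (nat_lit 5) (nat_lit 3) (nat_lit 4) (nat_lit 287) (nat_lit 250) (nat_lit 123))) (XT.nd (nat_lit 78) (nat_lit 0) (nat_lit 0) (XT.lf (nat_lit 0) (nat_lit 647687128659) (nat_lit 152) (nat_lit 15044094381017) (nat_lit 0) (nat_lit 150564954980) (nat_lit 1) (nat_lit 5) (nat_lit 3) (nat_lit 4) (nat_lit 1) (nat_lit 4) (nat_lit 288) (nat_lit 250) (nat_lit 122)) (XT.lf (nat_lit 0) (nat_lit 1230674312720) (nat_lit 152) (nat_lit 16169850350389) (nat_lit 0) (nat_lit 733552137937) (nat_lit 1) (nat_lit 5)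 (nat_lit 3) (nat_lit 4) (nat_lit 1) (nat_lit 4) (nat_lit 289) (nat_lit 250) (nat_lit 121)))) (XT.nd (nat_lit 156) (nat_lit 0) (nat_lit 0) (XT.nd (nat_lit 78) (nat_lit 0) (nat_lit 0) (XT.lf (nat_lit 0) (nat_lit 1901109572064) (nat_lit 152) (nat_lit 17464469719856) (nat_lit 0) (nat_lit 1403987396323) (nat_lit 1) (nat_lit 5) (nat_lit 3) (nat_lit 4) (nat_lit 1) (nat_lit 4) (nat_lit 290) (nat_lit 250) (nat_lit 120)) (XT.lf (nat_lit 0) (nat_lit 2672110118290) (nat_lit 152) (nat_lit 18953281998823) (nat_lit 0) (nat_lit 2174987941714) (nat_lit 1) (nat_lit 5) (nat_lit 3) (nat_lit 4) (nat_lit 1) (nat_lit 4) (nat_lit 291) (nat_lit 250) (nat_lit 119))) (XT.nd (nat_lit 78) (nat_lit 0) (nat_lit 0) (XT.lf (nat_lit 0) (nat_lit 3558760744691) (nat_lit 152) (nat_lit 20665416123181) (nat_lit 0) (nat_lit 3061638567390) (nat_lit 1) (nat_lit 5) (nat_lit 3) (nat_lit 4) (nat_lit 1) (nat_lit 4) (nat_lit 292)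 (nat_lit 250) (nat_lit 118)) (XT.nd (nat_lit 78) (nat_lit 0) (nat_lit 0) (XT.lf (nat_lit 0) (nat_lit 4578408963524) (nat_lit 152) (nat_lit 22634370369277) (nat_lit 0) (nat_lit 4081286785593) (nat_lit 1) (nat_lit 5) (nat_lit 3) (nat_lit 4) (nat_lit 1) (nat_lit 4) (nat_lit 293) (nat_lit 250) (nat_lit 117)) (XT.lf (nat_lit 0) (nat_lit 5751004413854) (nat_lit 152) (nat_lit 24898667754969) (nat_lit 0) (nat_lit 5253882235374) (nat_lit 1) (nat_lit 5) (nat_lit 3) (nat_lit 4) (nat_lit 1) (nat_lit 4) (nat_lit 294) (nat_lit 250) (nat_lit 116))))))) (XT.nd (nat_lit 31512) (nat_lit 0) (nat_lit 684) (XT.nd (nat_lit 31122) (nat_lit 0) (nat_lit 1216) (XT.nd (nat_lit 30966) (nat_lit 0) (nat_lit 1368) (XT.nd (nat_lit 78) (nat_lit 0) (nat_lit 0) (XT.lf (nat_lit 0) (nat_lit 7099489180577) (nat_lit 152) (nat_lit 27502609750847) (nat_lit 0) (nat_lit 6602367001620) (nat_lit 1) (nat_lit 5) (nat_lit 3) (nat_lit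 4) (nat_lit 1) (nat_lit 4) (nat_lit 295) (nat_lit 250) (nat_lit 115)) (XT.lf (nat_lit 0) (nat_lit 8650246661304) (nat_lit 152) (nat_lit 30497143048134) (nat_lit 0) (nat_lit 8153124481932) (nat_lit 1) (nat_lit 5) (nat_lit 3) (nat_lit 4) (nat_lit 1) (nat_lit 4) (nat_lit 296) (nat_lit 250) (nat_lit 114))) (XT.nd (nat_lit 78) (nat_lit 0) (nat_lit 0) (XT.lf (nat_lit 0) (nat_lit 14178386746) (nat_lit 380) (nat_lit 70602230353) (nat_lit 380) (nat_lit 70602230353) (nat_lit 19) (nat_lit 3) (nat_lit 24) (nat_lit 3) (nat_lit 24) (nat_lit 5) (nat_lit 251) (nat_lit 251) (nat_lit 158)) (XT.lf (nat_lit 0) (nat_lit 30484139589) (nat_lit 380) (nat_lit 959207146) (nat_lit 380) (nat_lit 302629680575) (nat_lit 19) (nat_lit 3) (nat_lit 24) (nat_lit 3) (nat_lit 24) (nat_lit 5) (nat_lit 252) (nat_lit 251) (nat_lit 157)))) (XT.nd (nat_lit 156) (nat_lit 228) (nat_lit 0) (XT.nd (nat_lit 78) (nat_lit 0) (nat_lit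 0) (XT.lf (nat_lit 0) (nat_lit 45839962255) (nat_lit 304) (nat_lit 189414748701) (nat_lit 380) (nat_lit 123685346493) (nat_lit 20) (nat_lit 5) (nat_lit 24) (nat_lit 5) (nat_lit 25) (nat_lit 5) (nat_lit 253) (nat_lit 251) (nat_lit 156)) (XT.lf (nat_lit 0) (nat_lit 65048893462) (nat_lit 304) (nat_lit 23339083372) (nat_lit 380) (nat_lit 298916705545) (nat_lit 20) (nat_lit 5) (nat_lit 24) (nat_lit 5) (nat_lit 25) (nat_lit 5) (nat_lit 254) (nat_lit 251) (nat_lit 155))) (XT.nd (nat_lit 78) (nat_lit 304) (nat_lit 0) (XT.lf (nat_lit 0) (nat_lit 98456010396) (nat_lit 304) (nat_lit 238445897433) (nat_lit 76) (nat_lit 81324566787) (nat_lit 21) (nat_lit 5) (nat_lit 25) (nat_lit 5) (nat_lit 22) (nat_lit 5) (nat_lit 255) (nat_lit 251) (nat_lit 154)) (XT.nd (nat_lit 78) (nat_lit 304) (nat_lit 0) (XT.lf (nat_lit 0) (nat_lit 142361164745) (nat_lit 304) (nat_lit 41879476295) (nat_lit 76) (nat_lit 268722849574)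 (nat_lit 21) (nat_lit 5) (nat_lit 25) (nat_lit 5) (nat_lit 22) (nat_lit 5) (nat_lit 256) (nat_lit 251) (nat_lit 153)) (XT.lf (nat_lit 0) (nat_lit 201262687615) (nat_lit 380) (nat_lit 289524109963) (nat_lit 76) (nat_lit 862672487) (nat_lit 17) (nat_lit 5) (nat_lit 22) (nat_lit 5) (nat_lit 18) (nat_lit 5) (nat_lit 257) (nat_lit 251) (nat_lit 152)))))) (XT.nd (nat_lit 312) (nat_lit 304) (nat_lit 0) (XT.nd (nat_lit 156) (nat_lit 76) (nat_lit 0) (XT.nd (nat_lit 78) (nat_lit 152) (nat_lit 0) (XT.lf (nat_lit 0) (nat_lit 280066143909) (nat_lit 380) (nat_lit 57250050062) (nat_lit 76) (nat_lit 197162147024) (nat_lit 17) (nat_lit 5) (nat_lit 22) (nat_lit 5) (nat_lit 18) (nat_lit 5) (nat_lit 258) (nat_lit 251) (nat_lit 151)) (XT.lf (nat_lit 0) (nat_lit 230374596278) (nat_lit 152) (nat_lit 149854792031) (nat_lit 228) (nat_lit 202071264073) (nat_lit 15) (nat_lit 5) (nat_lit 17) (nat_lit 5) (nat_lit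 18) (nat_lit 5) (nat_lit 259) (nat_lit 251) (nat_lit 150))) (XT.nd (nat_lit 78) (nat_lit 76) (nat_lit 0) (XT.lf (nat_lit 0) (nat_lit 501273759812) (nat_lit 228) (nat_lit 72134491214) (nat_lit 76) (nat_lit 63009563621) (nat_lit 15) (nat_lit 5) (nat_lit 18) (nat_lit 5) (nat_lit 16) (nat_lit 4) (nat_lit 260) (nat_lit 251) (nat_lit 149)) (XT.lf (nat_lit 0) (nat_lit 266187676098) (nat_lit 76) (nat_lit 392445276220) (nat_lit 152) (nat_lit 37295874346) (nat_lit 14) (nat_lit 5) (nat_lit 15) (nat_lit 5) (nat_lit 16) (nat_lit 4) (nat_lit 261) (nat_lit 251) (nat_lit 148)))) (XT.nd (nat_lit 156) (nat_lit 76) (nat_lit 0) (XT.nd (nat_lit 78) (nat_lit 152) (nat_lit 0) (XT.lf (nat_lit 0) (nat_lit 72482261995) (nat_lit 152) (nat_lit 103730497858) (nat_lit 76) (nat_lit 587093939297) (nat_lit 13) (nat_lit 5) (nat_lit 15) (nat_lit 5) (nat_lit 14) (nat_lit 5) (nat_lit 262) (nat_lit 251) (nat_lit 147)) (XT.lf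 (nat_lit 0) (nat_lit 210822302352) (nat_lit 228) (nat_lit 546621900716) (nat_lit 76) (nat_lit 80693614866) (nat_lit 11) (nat_lit 5) (nat_lit 14) (nat_lit 5) (nat_lit 12) (nat_lit 4) (nat_lit 263) (nat_lit 251) (nat_lit 146))) (XT.nd (nat_lit 78) (nat_lit 76) (nat_lit 0) (XT.lf (nat_lit 0) (nat_lit 383984879183) (nat_lit 228) (nat_lit 174322415746) (nat_lit 76) (nat_lit 363775580160) (nat_lit 11) (nat_lit 5) (nat_lit 14) (nat_lit 5) (nat_lit 12) (nat_lit 4) (nat_lit 264) (nat_lit 251) (nat_lit 145)) (XT.nd (nat_lit 78) (nat_lit 0) (nat_lit 0) (XT.lf (nat_lit 0) (nat_lit 278627272219) (nat_lit 76) (nat_lit 316031902769) (nat_lit 152) (nat_lit 422229916065) (nat_lit 10) (nat_lit 5) (nat_lit 11) (nat_lit 5) (nat_lit 12) (nat_lit 4) (nat_lit 265) (nat_lit 251) (nat_lit 144)) (XT.lf (nat_lit 0) (nat_lit 819110831627) (nat_lit 76) (nat_lit 26936064830) (nat_lit 152) (nat_lit 278502500847) (nat_lit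 10) (nat_lit 5) (nat_lit 11) (nat_lit 5) (nat_lit 12) (nat_lit 4) (nat_lit 266) (nat_lit 251) (nat_lit 143))))))))
noncomputable def xc106 : XT := (XT.nd (nat_lit 1326) (nat_lit 152) (nat_lit 0) (XT.nd (nat_lit 624) (nat_lit 228) (nat_lit 0) (XT.nd (nat_lit 312) (nat_lit 76) (nat_lit 0) (XT.nd (nat_lit 156) (nat_lit 76) (nat_lit 0) (XT.nd (nat_lit 78) (nat_lit 76) (nat_lit 0) (XT.lf (nat_lit 0) (nat_lit 197214422266) (nat_lit 76) (nat_lit 958745662085) (nat_lit 76) (nat_lit 89276068987) (nat_lit 9) (nat_lit 4) (nat_lit 10) (nat_lit 5) (nat_lit 10) (nat_lit 4) (nat_lit 267) (nat_lit 251) (nat_lit 142)) (XT.lf (nat_lit 0) (nat_lit 134918162182) (nat_lit 152) (nat_lit 579395571858) (nat_lit 76) (nat_lit 666213724598) (nat_lit 8) (nat_lit 5) (nat_lit 10) (nat_lit 5) (nat_lit 9) (nat_lit 4) (nat_lit 268) (nat_lit 251) (nat_lit 141))) (XT.nd (nat_lit 78) (nat_lit 76) (nat_lit 0) (XT.lf (nat_lit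 0) (nat_lit 383601338561) (nat_lit 152) (nat_lit 44726766515) (nat_lit 76) (nat_lit 1107146671574) (nat_lit 8) (nat_lit 5) (nat_lit 10) (nat_lit 5) (nat_lit 9) (nat_lit 4) (nat_lit 269) (nat_lit 251) (nat_lit 140)) (XT.lf (nat_lit 0) (nat_lit 625860782783) (nat_lit 76) (nat_lit 69641751153) (nat_lit 152) (nat_lit 1014274327091) (nat_lit 7) (nat_lit 5) (nat_lit 8) (nat_lit 5) (nat_lit 9) (nat_lit 4) (nat_lit 270) (nat_lit 251) (nat_lit 139)))) (XT.nd (nat_lit 156) (nat_lit 0) (nat_lit 0) (XT.nd (nat_lit 78) (nat_lit 76) (nat_lit 0) (XT.lf (nat_lit 0) (nat_lit 1070834800404) (nat_lit 152) (nat_lit 522118367638) (nat_lit 0) (nat_lit 314774206289) (nat_lit 7) (nat_lit 5) (nat_lit 9) (nat_lit 4) (nat_lit 7) (nat_lit 4) (nat_lit 271) (nat_lit 251) (nat_lit 138)) (XT.lf (nat_lit 0) (nat_lit 132421802256) (nat_lit 76) (nat_lit 1378844667841) (nat_lit 76) (nat_lit 622784060078) (nat_lit 6) (nat_lit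 4) (nat_lit 7) (nat_lit 5) (nat_lit 7) (nat_lit 4) (nat_lit 272) (nat_lit 251) (nat_lit 137))) (XT.nd (nat_lit 78) (nat_lit 0) (nat_lit 0) (XT.lf (nat_lit 0) (nat_lit 943821955648) (nat_lit 76) (nat_lit 1101233471441) (nat_lit 76) (nat_lit 345172851809) (nat_lit 6) (nat_lit 4) (nat_lit 7) (nat_lit 5) (nat_lit 7) (nat_lit 4) (nat_lit 273) (nat_lit 251) (nat_lit 136)) (XT.lf (nat_lit 0) (nat_lit 1876932108818) (nat_lit 76) (nat_lit 781980606470) (nat_lit 76) (nat_lit 25919976518) (nat_lit 6) (nat_lit 4) (nat_lit 7) (nat_lit 5) (nat_lit 7) (nat_lit 4) (nat_lit 274) (nat_lit 251) (nat_lit 135))))) (XT.nd (nat_lit 312) (nat_lit 76) (nat_lit 0) (XT.nd (nat_lit 156) (nat_lit 0) (nat_lit 0) (XT.nd (nat_lit 78) (nat_lit 76) (nat_lit 0) (XT.lf (nat_lit 0) (nat_lit 310842980931) (nat_lit 152) (nat_lit 87748229924) (nat_lit 76) (nat_lit 2622917173466) (nat_lit 5) (nat_lit 5) (nat_lit 7) (nat_lit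 5) (nat_lit 6) (nat_lit 4) (nat_lit 275) (nat_lit 251) (nat_lit 134)) (XT.lf (nat_lit 0) (nat_lit 732476912354) (nat_lit 152) (nat_lit 2595438967631) (nat_lit 0) (nat_lit 75032871719) (nat_lit 4) (nat_lit 5) (nat_lit 6) (nat_lit 4) (nat_lit 4) (nat_lit 4) (nat_lit 276) (nat_lit 251) (nat_lit 133))) (XT.nd (nat_lit 78) (nat_lit 0) (nat_lit 0) (XT.lf (nat_lit 0) (nat_lit 1241141717953) (nat_lit 152) (nat_lit 2013197917170) (nat_lit 0) (nat_lit 583697671417) (nat_lit 4) (nat_lit 5) (nat_lit 6) (nat_lit 4) (nat_lit 4) (nat_lit 4) (nat_lit 277) (nat_lit 251) (nat_lit 132)) (XT.lf (nat_lit 0) (nat_lit 1826106236044) (nat_lit 152) (nat_lit 1343620725442) (nat_lit 0) (nat_lit 1168662184378) (nat_lit 4) (nat_lit 5) (nat_lit 6) (nat_lit 4) (nat_lit 4) (nat_lit 4) (nat_lit 278) (nat_lit 251) (nat_lit 131)))) (XT.nd (nat_lit 156) (nat_lit 0) (nat_lit 0) (XT.nd (nat_lit 78) (nat_lit 76) (nat_lit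 0) (XT.lf (nat_lit 0) (nat_lit 2498815424592) (nat_lit 152) (nat_lit 573606969131) (nat_lit 0) (nat_lit 1841371368464) (nat_lit 4) (nat_lit 5) (nat_lit 6) (nat_lit 4) (nat_lit 4) (nat_lit 4) (nat_lit 279) (nat_lit 251) (nat_lit 130)) (XT.lf (nat_lit 0) (nat_lit 342390838404) (nat_lit 76) (nat_lit 2944217821175) (nat_lit 76) (nat_lit 2286773761166) (nat_lit 3) (nat_lit 4) (nat_lit 4) (nat_lit 5) (nat_lit 4) (nat_lit 4) (nat_lit 280) (nat_lit 251) (nat_lit 129))) (XT.nd (nat_lit 78) (nat_lit 0) (nat_lit 0) (XT.lf (nat_lit 0) (nat_lit 1460253906722) (nat_lit 76) (nat_lit 2762300967777) (nat_lit 76) (nat_lit 2104856904394) (nat_lit 3) (nat_lit 4) (nat_lit 4) (nat_lit 5) (nat_lit 4) (nat_lit 4) (nat_lit 281) (nat_lit 251) (nat_lit 128)) (XT.nd (nat_lit 78) (nat_lit 0) (nat_lit 0) (XT.lf (nat_lit 0) (nat_lit 2745796425055) (nat_lit 76) (nat_lit 2553096591405) (nat_lit 76) (nat_lit 1895652525089)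 (nat_lit 3) (nat_lit 4) (nat_lit 4) (nat_lit 5) (nat_lit 4) (nat_lit 4) (nat_lit 282) (nat_lit 251) (nat_lit 127)) (XT.lf (nat_lit 0) (nat_lit 4224170312240) (nat_lit 76) (nat_lit 2312511562956) (nat_lit 76) (nat_lit 1655067494089) (nat_lit 3) (nat_lit 4) (nat_lit 4) (nat_lit 5) (nat_lit 4) (nat_lit 4) (nat_lit 283) (nat_lit 251) (nat_lit 126))))))) (XT.nd (nat_lit 702) (nat_lit 0) (nat_lit 0) (XT.nd (nat_lit 312) (nat_lit 152) (nat_lit 0) (XT.nd (nat_lit 156) (nat_lit 0) (nat_lit 0) (XT.nd (nat_lit 78) (nat_lit 0) (nat_lit 0) (XT.lf (nat_lit 0) (nat_lit 5924300274767) (nat_lit 76) (nat_lit 2035838784049) (nat_lit 76) (nat_lit 1378394712964) (nat_lit 3) (nat_lit 4) (nat_lit 4) (nat_lit 5) (nat_lit 4) (nat_lit 4) (nat_lit 284) (nat_lit 251) (nat_lit 125)) (XT.lf (nat_lit 0) (nat_lit 7879449724945) (nat_lit 76) (nat_lit 1717665091617) (nat_lit 76) (nat_lit 1060221018602) (nat_lit 3) (nat_lit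 4) (nat_lit 4) (nat_lit 5) (nat_lit 4) (nat_lit 4) (nat_lit 285) (nat_lit 251) (nat_lit 124))) (XT.nd (nat_lit 78) (nat_lit 0) (nat_lit 0) (XT.lf (nat_lit 0) (nat_lit 10127871586799) (nat_lit 76) (nat_lit 1351765348199) (nat_lit 76) (nat_lit 694321273507) (nat_lit 3) (nat_lit 4) (nat_lit 4) (nat_lit 5) (nat_lit 4) (nat_lit 4) (nat_lit 286) (nat_lit 251) (nat_lit 123)) (XT.lf (nat_lit 0) (nat_lit 12713556722844) (nat_lit 76) (nat_lit 930980645773) (nat_lit 76) (nat_lit 273536569622) (nat_lit 3) (nat_lit 4) (nat_lit 4) (nat_lit 5) (nat_lit 4) (nat_lit 4) (nat_lit 287) (nat_lit 251) (nat_lit 122)))) (XT.nd (nat_lit 156) (nat_lit 0) (nat_lit 0) (XT.nd (nat_lit 78) (nat_lit 76) (nat_lit 0) (XT.lf (nat_lit 0) (nat_lit 191637615721) (nat_lit 152) (nat_lit 245423203616) (nat_lit 76) (nat_lit 15485439588329) (nat_lit 2) (nat_lit 5) (nat_lit 4) (nat_lit 5) (nat_lit 3) (nat_lit 4) (nat_lit 288)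 (nat_lit 251) (nat_lit 121)) (XT.lf (nat_lit 0) (nat_lit 744840222986) (nat_lit 152) (nat_lit 17300708487665) (nat_lit 0) (nat_lit 173149719924) (nat_lit 1) (nat_lit 5) (nat_lit 3) (nat_lit 4) (nat_lit 1) (nat_lit 4) (nat_lit 289) (nat_lit 251) (nat_lit 120))) (XT.nd (nat_lit 78) (nat_lit 0) (nat_lit 0) (XT.lf (nat_lit 0) (nat_lit 1415275481391) (nat_lit 152) (nat_lit 18595327859030) (nat_lit 0) (nat_lit 843584977495) (nat_lit 1) (nat_lit 5) (nat_lit 3) (nat_lit 4) (nat_lit 1) (nat_lit 4) (nat_lit 290) (nat_lit 251) (nat_lit 119)) (XT.nd (nat_lit 78) (nat_lit 0) (nat_lit 0) (XT.lf (nat_lit 0) (nat_lit 2186276026799) (nat_lit 152) (nat_lit 20084140139646) (nat_lit 0) (nat_lit 1614585522177) (nat_lit 1) (nat_lit 5) (nat_lit 3) (nat_lit 4) (nat_lit 1) (nat_lit 4) (nat_lit 291) (nat_lit 251) (nat_lit 118)) (XT.lf (nat_lit 0) (nat_lit 3072926652489) (nat_lit 152) (nat_lit 21796274265439)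 (nat_lit 0) (nat_lit 2501236147237) (nat_lit 1) (nat_lit 5) (nat_lit 3) (nat_lit 4) (nat_lit 1) (nat_lit 4) (nat_lit 292) (nat_lit 251) (nat_lit 117)))))) (XT.nd (nat_lit 31278) (nat_lit 0) (nat_lit 1368) (XT.nd (nat_lit 156) (nat_lit 0) (nat_lit 0) (XT.nd (nat_lit 78) (nat_lit 0) (nat_lit 0) (XT.lf (nat_lit 0) (nat_lit 4092574870705) (nat_lit 152) (nat_lit 23765228512782) (nat_lit 0) (nat_lit 3520884364904) (nat_lit 1) (nat_lit 5) (nat_lit 3) (nat_lit 4) (nat_lit 1) (nat_lit 4) (nat_lit 293) (nat_lit 251) (nat_lit 116)) (XT.lf (nat_lit 0) (nat_lit 5265170320496) (nat_lit 152) (nat_lit 26029525899559) (nat_lit 0) (nat_lit 4693479814219) (nat_lit 1) (nat_lit 5) (nat_lit 3) (nat_lit 4) (nat_lit 1) (nat_lit 4) (nat_lit 294) (nat_lit 251) (nat_lit 115))) (XT.nd (nat_lit 31044) (nat_lit 0) (nat_lit 1368) (XT.lf (nat_lit 0) (nat_lit 6613655086752) (nat_lit 152) (nat_lit 28633467896380) (nat_lit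 0) (nat_lit 6041964580061) (nat_lit 1) (nat_lit 5) (nat_lit 3) (nat_lit 4) (nat_lit 1) (nat_lit 4) (nat_lit 295) (nat_lit 251) (nat_lit 114)) (XT.lf (nat_lit 0) (nat_lit 16305727663) (nat_lit 380) (nat_lit 81192228057) (nat_lit 380) (nat_lit 81192228057) (nat_lit 19) (nat_lit 3) (nat_lit 24) (nat_lit 3) (nat_lit 24) (nat_lit 5) (nat_lit 252) (nat_lit 252) (nat_lit 156)))) (XT.nd (nat_lit 156) (nat_lit 0) (nat_lit 76) (XT.nd (nat_lit 78) (nat_lit 0) (nat_lit 76) (XT.lf (nat_lit 0) (nat_lit 35057774276) (nat_lit 380) (nat_lit 1102502393) (nat_lit 380) (nat_lit 348023546837) (nat_lit 19) (nat_lit 3) (nat_lit 24) (nat_lit 3) (nat_lit 24) (nat_lit 5) (nat_lit 253) (nat_lit 252) (nat_lit 155)) (XT.lf (nat_lit 0) (nat_lit 52716846964) (nat_lit 304) (nat_lit 217826246726) (nat_lit 380) (nat_lit 142237833744) (nat_lit 20) (nat_lit 5) (nat_lit 24) (nat_lit 5) (nat_lit 25) (nat_lit 5) (nat_lit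 254) (nat_lit 252) (nat_lit 154))) (XT.nd (nat_lit 78) (nat_lit 0) (nat_lit 76) (XT.lf (nat_lit 0) (nat_lit 74807001716) (nat_lit 304) (nat_lit 26839324765) (nat_lit 380) (nat_lit 343753937706) (nat_lit 20) (nat_lit 5) (nat_lit 24) (nat_lit 5) (nat_lit 25) (nat_lit 5) (nat_lit 255) (nat_lit 252) (nat_lit 153)) (XT.nd (nat_lit 78) (nat_lit 0) (nat_lit 0) (XT.lf (nat_lit 0) (nat_lit 113225105409) (nat_lit 304) (nat_lit 274212076314) (nat_lit 76) (nat_lit 93523156228) (nat_lit 21) (nat_lit 5) (nat_lit 25) (nat_lit 5) (nat_lit 22) (nat_lit 5) (nat_lit 256) (nat_lit 252) (nat_lit 152)) (XT.lf (nat_lit 0) (nat_lit 163715942460) (nat_lit 304) (nat_lit 48160784058) (nat_lit 76) (nat_lit 309031193900) (nat_lit 21) (nat_lit 5) (nat_lit 25) (nat_lit 5) (nat_lit 22) (nat_lit 5) (nat_lit 257) (nat_lit 252) (nat_lit 151))))))))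
noncomputable def xc107 : XT := (XT.nd (nat_lit 1404) (nat_lit 380) (nat_lit 0) (XT.nd (nat_lit 702) (nat_lit 304) (nat_lit 0) (XT.nd (nat_lit 312) (nat_lit 380) (nat_lit 0) (XT.nd (nat_lit 156) (nat_lit 152) (nat_lit 0) (XT.nd (nat_lit 78) (nat_lit 0) (nat_lit 0) (XT.lf (nat_lit 0) (nat_lit 231452640903) (nat_lit 380) (nat_lit 332952057016) (nat_lit 76) (nat_lit 992107231) (nat_lit 17) (nat_lit 5) (nat_lit 22) (nat_lit 5) (nat_lit 18) (nat_lit 5) (nat_lit 258) (nat_lit 252) (nat_lit 150)) (XT.lf (nat_lit 0) (nat_lit 322076543883) (nat_lit 380) (nat_lit 65836975448) (nat_lit 76) (nat_lit 226736498530) (nat_lit 17) (nat_lit 5) (nat_lit 22) (nat_lit 5) (nat_lit 18) (nat_lit 5) (nat_lit 259) (nat_lit 252) (nat_lit 149))) (XT.nd (nat_lit 78) (nat_lit 0) (nat_lit 0) (XT.lf (nat_lit 0) (nat_lit 264931341383) (nat_lit 152) (nat_lit 172332894172) (nat_lit 228) (nat_lit 232381446641) (nat_lit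 15) (nat_lit 5) (nat_lit 17) (nat_lit 5) (nat_lit 18) (nat_lit 5) (nat_lit 260) (nat_lit 252) (nat_lit 148)) (XT.lf (nat_lit 0) (nat_lit 576465209723) (nat_lit 228) (nat_lit 82954126743) (nat_lit 76) (nat_lit 72461090580) (nat_lit 15) (nat_lit 5) (nat_lit 18) (nat_lit 5) (nat_lit 16) (nat_lit 4) (nat_lit 261) (nat_lit 252) (nat_lit 147)))) (XT.nd (nat_lit 156) (nat_lit 228) (nat_lit 0) (XT.nd (nat_lit 78) (nat_lit 76) (nat_lit 0) (XT.lf (nat_lit 0) (nat_lit 306116341205) (nat_lit 76) (nat_lit 451311910830) (nat_lit 152) (nat_lit 42889843439) (nat_lit 14) (nat_lit 5) (nat_lit 15) (nat_lit 5) (nat_lit 16) (nat_lit 4) (nat_lit 262) (nat_lit 252) (nat_lit 146)) (XT.lf (nat_lit 0) (nat_lit 83354927707) (nat_lit 152) (nat_lit 119289592693) (nat_lit 76) (nat_lit 675158133405) (nat_lit 13) (nat_lit 5) (nat_lit 15) (nat_lit 5) (nat_lit 14) (nat_lit 5) (nat_lit 263) (nat_lit 252) (nat_lit 145)))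 (XT.nd (nat_lit 78) (nat_lit 76) (nat_lit 0) (XT.lf (nat_lit 0) (nat_lit 242445956936) (nat_lit 228) (nat_lit 628614687707) (nat_lit 76) (nat_lit 92797798505) (nat_lit 11) (nat_lit 5) (nat_lit 14) (nat_lit 5) (nat_lit 12) (nat_lit 4) (nat_lit 264) (nat_lit 252) (nat_lit 144)) (XT.nd (nat_lit 78) (nat_lit 76) (nat_lit 0) (XT.lf (nat_lit 0) (nat_lit 441582879957) (nat_lit 228) (nat_lit 200470344964) (nat_lit 76) (nat_lit 418342040149) (nat_lit 11) (nat_lit 5) (nat_lit 14) (nat_lit 5) (nat_lit 12) (nat_lit 4) (nat_lit 265) (nat_lit 252) (nat_lit 143)) (XT.lf (nat_lit 0) (nat_lit 320421776508) (nat_lit 76) (nat_lit 363436525671) (nat_lit 152) (nat_lit 485564114065) (nat_lit 10) (nat_lit 5) (nat_lit 11) (nat_lit 5) (nat_lit 12) (nat_lit 4) (nat_lit 266) (nat_lit 252) (nat_lit 142)))))) (XT.nd (nat_lit 312) (nat_lit 152) (nat_lit 0) (XT.nd (nat_lit 156) (nat_lit 76) (nat_lit 0) (XT.nd (nat_lit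 78) (nat_lit 76) (nat_lit 0) (XT.lf (nat_lit 0) (nat_lit 941977815898) (nat_lit 76) (nat_lit 30976333240) (nat_lit 152) (nat_lit 320277624313) (nat_lit 10) (nat_lit 5) (nat_lit 11) (nat_lit 5) (nat_lit 12) (nat_lit 4) (nat_lit 267) (nat_lit 252) (nat_lit 141)) (XT.lf (nat_lit 0) (nat_lit 226796955135) (nat_lit 76) (nat_lit 1102557352009) (nat_lit 76) (nat_lit 102667237051) (nat_lit 9) (nat_lit 4) (nat_lit 10) (nat_lit 5) (nat_lit 10) (nat_lit 4) (nat_lit 268) (nat_lit 252) (nat_lit 140))) (XT.nd (nat_lit 78) (nat_lit 0) (nat_lit 0) (XT.lf (nat_lit 0) (nat_lit 155156078435) (nat_lit 152) (nat_lit 666304567080) (nat_lit 76) (nat_lit 766145902658) (nat_lit 8) (nat_lit 5) (nat_lit 10) (nat_lit 5) (nat_lit 9) (nat_lit 4) (nat_lit 269) (nat_lit 252) (nat_lit 139)) (XT.lf (nat_lit 0) (nat_lit 441141706237) (nat_lit 152) (nat_lit 51435485356) (nat_lit 76) (nat_lit 1273218776111) (nat_lit 8)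 (nat_lit 5) (nat_lit 10) (nat_lit 5) (nat_lit 9) (nat_lit 4) (nat_lit 270) (nat_lit 252) (nat_lit 138)))) (XT.nd (nat_lit 156) (nat_lit 76) (nat_lit 0) (XT.nd (nat_lit 78) (nat_lit 0) (nat_lit 0) (XT.lf (nat_lit 0) (nat_lit 719740182876) (nat_lit 76) (nat_lit 80087887979) (nat_lit 152) (nat_lit 1166415295446) (nat_lit 7) (nat_lit 5) (nat_lit 8) (nat_lit 5) (nat_lit 9) (nat_lit 4) (nat_lit 271) (nat_lit 252) (nat_lit 137)) (XT.lf (nat_lit 0) (nat_lit 1231460161368) (nat_lit 152) (nat_lit 600435860744) (nat_lit 0) (nat_lit 361990436923) (nat_lit 7) (nat_lit 5) (nat_lit 9) (nat_lit 4) (nat_lit 7) (nat_lit 4) (nat_lit 272) (nat_lit 252) (nat_lit 136))) (XT.nd (nat_lit 78) (nat_lit 0) (nat_lit 0) (XT.lf (nat_lit 0) (nat_lit 152285322723) (nat_lit 76) (nat_lit 1585671250771) (nat_lit 76) (nat_lit 716201516005) (nat_lit 6) (nat_lit 4) (nat_lit 7) (nat_lit 5) (nat_lit 7) (nat_lit 4) (nat_lit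 273) (nat_lit 252) (nat_lit 135)) (XT.nd (nat_lit 78) (nat_lit 0) (nat_lit 0) (XT.lf (nat_lit 0) (nat_lit 1085395466498) (nat_lit 76) (nat_lit 1266418390204) (nat_lit 76) (nat_lit 396948646464) (nat_lit 6) (nat_lit 4) (nat_lit 7) (nat_lit 5) (nat_lit 7) (nat_lit 4) (nat_lit 274) (nat_lit 252) (nat_lit 134)) (XT.lf (nat_lit 0) (nat_lit 2158472114274) (nat_lit 76) (nat_lit 899277608785) (nat_lit 76) (nat_lit 29807857242) (nat_lit 6) (nat_lit 4) (nat_lit 7) (nat_lit 5) (nat_lit 7) (nat_lit 4) (nat_lit 275) (nat_lit 252) (nat_lit 133))))))) (XT.nd (nat_lit 702) (nat_lit 152) (nat_lit 0) (XT.nd (nat_lit 312) (nat_lit 76) (nat_lit 0) (XT.nd (nat_lit 156) (nat_lit 0) (nat_lit 0) (XT.nd (nat_lit 78) (nat_lit 76) (nat_lit 0) (XT.lf (nat_lit 0) (nat_lit 357469519765) (nat_lit 152) (nat_lit 100910290833) (nat_lit 76) (nat_lit 3016354817462) (nat_lit 5) (nat_lit 5) (nat_lit 7) (nat_lit 5) (nat_lit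 6) (nat_lit 4) (nat_lit 276) (nat_lit 252) (nat_lit 132)) (XT.lf (nat_lit 0) (nat_lit 842348539077) (nat_lit 152) (nat_lit 2984754637238) (nat_lit 0) (nat_lit 86287874529) (nat_lit 4) (nat_lit 5) (nat_lit 6) (nat_lit 4) (nat_lit 4) (nat_lit 4) (nat_lit 277) (nat_lit 252) (nat_lit 131))) (XT.nd (nat_lit 78) (nat_lit 0) (nat_lit 0) (XT.lf (nat_lit 0) (nat_lit 1427313053794) (nat_lit 152) (nat_lit 2315177452104) (nat_lit 0) (nat_lit 671252384784) (nat_lit 4) (nat_lit 5) (nat_lit 6) (nat_lit 4) (nat_lit 4) (nat_lit 4) (nat_lit 278) (nat_lit 252) (nat_lit 130)) (XT.lf (nat_lit 0) (nat_lit 2100022239406) (nat_lit 152) (nat_lit 1545163701527) (nat_lit 0) (nat_lit 1343961566516) (nat_lit 4) (nat_lit 5) (nat_lit 6) (nat_lit 4) (nat_lit 4) (nat_lit 4) (nat_lit 279) (nat_lit 252) (nat_lit 129)))) (XT.nd (nat_lit 156) (nat_lit 0) (nat_lit 0) (XT.nd (nat_lit 78) (nat_lit 76) (nat_lit 0) (XT.lf (nat_lit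 0) (nat_lit 2873637797372) (nat_lit 152) (nat_lit 659647899082) (nat_lit 0) (nat_lit 2117577121109) (nat_lit 4) (nat_lit 5) (nat_lit 6) (nat_lit 4) (nat_lit 4) (nat_lit 4) (nat_lit 280) (nat_lit 252) (nat_lit 128)) (XT.lf (nat_lit 0) (nat_lit 393749574337) (nat_lit 76) (nat_lit 3385850440124) (nat_lit 76) (nat_lit 2629789760927) (nat_lit 3) (nat_lit 4) (nat_lit 4) (nat_lit 5) (nat_lit 4) (nat_lit 4) (nat_lit 281) (nat_lit 252) (nat_lit 127))) (XT.nd (nat_lit 78) (nat_lit 0) (nat_lit 0) (XT.lf (nat_lit 0) (nat_lit 1679292088532) (nat_lit 76) (nat_lit 3176646065789) (nat_lit 76) (nat_lit 2420585384041) (nat_lit 3) (nat_lit 4) (nat_lit 4) (nat_lit 5) (nat_lit 4) (nat_lit 4) (nat_lit 282) (nat_lit 252) (nat_lit 126)) (XT.nd (nat_lit 78) (nat_lit 0) (nat_lit 0) (XT.lf (nat_lit 0) (nat_lit 3157665972119) (nat_lit 76) (nat_lit 2936061039112) (nat_lit 76) (nat_lit 2180000355146) (nat_lit 3)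 (nat_lit 4) (nat_lit 4) (nat_lit 5) (nat_lit 4) (nat_lit 4) (nat_lit 283) (nat_lit 252) (nat_lit 125)) (XT.lf (nat_lit 0) (nat_lit 4857795931516) (nat_lit 76) (nat_lit 2659388261745) (nat_lit 76) (nat_lit 1903327575849) (nat_lit 3) (nat_lit 4) (nat_lit 4) (nat_lit 5) (nat_lit 4) (nat_lit 4) (nat_lit 284) (nat_lit 252) (nat_lit 124)))))) (XT.nd (nat_lit 312) (nat_lit 152) (nat_lit 0) (XT.nd (nat_lit 156) (nat_lit 0) (nat_lit 0) (XT.nd (nat_lit 78) (nat_lit 0) (nat_lit 0) (XT.lf (nat_lit 0) (nat_lit 6812945378973) (nat_lit 76) (nat_lit 2341214570652) (nat_lit 76) (nat_lit 1585153883079) (nat_lit 3) (nat_lit 4) (nat_lit 4) (nat_lit 5) (nat_lit 4) (nat_lit 4) (nat_lit 285) (nat_lit 252) (nat_lit 123)) (XT.lf (nat_lit 0) (nat_lit 9061367238462) (nat_lit 76) (nat_lit 1975314828399) (nat_lit 76) (nat_lit 1219254139368) (nat_lit 3) (nat_lit 4) (nat_lit 4) (nat_lit 5) (nat_lit 4) (nat_lit 4)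 (nat_lit 286) (nat_lit 252) (nat_lit 122))) (XT.nd (nat_lit 78) (nat_lit 0) (nat_lit 0) (XT.lf (nat_lit 0) (nat_lit 11647052372450) (nat_lit 76) (nat_lit 1554530126985) (nat_lit 76) (nat_lit 798469436686) (nat_lit 3) (nat_lit 4) (nat_lit 4) (nat_lit 5) (nat_lit 4) (nat_lit 4) (nat_lit 287) (nat_lit 252) (nat_lit 121)) (XT.lf (nat_lit 0) (nat_lit 14620590272689) (nat_lit 76) (nat_lit 1070627722253) (nat_lit 76) (nat_lit 314567030850) (nat_lit 3) (nat_lit 4) (nat_lit 4) (nat_lit 5) (nat_lit 4) (nat_lit 4) (nat_lit 288) (nat_lit 252) (nat_lit 120)))) (XT.nd (nat_lit 156) (nat_lit 0) (nat_lit 0) (XT.nd (nat_lit 78) (nat_lit 76) (nat_lit 0) (XT.lf (nat_lit 0) (nat_lit 220383277262) (nat_lit 152) (nat_lit 282236646246) (nat_lit 76) (nat_lit 17808255542409) (nat_lit 2) (nat_lit 5) (nat_lit 4) (nat_lit 5) (nat_lit 3) (nat_lit 4) (nat_lit 289) (nat_lit 252) (nat_lit 119)) (XT.lf (nat_lit 0) (nat_lit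 856566275359) (nat_lit 152) (nat_lit 19895814722626) (nat_lit 0) (nat_lit 199122194319) (nat_lit 1) (nat_lit 5) (nat_lit 3) (nat_lit 4) (nat_lit 1) (nat_lit 4) (nat_lit 290) (nat_lit 252) (nat_lit 118))) (XT.nd (nat_lit 78) (nat_lit 0) (nat_lit 0) (XT.lf (nat_lit 0) (nat_lit 1627566820056) (nat_lit 152) (nat_lit 21384627004677) (nat_lit 0) (nat_lit 970122738386) (nat_lit 1) (nat_lit 5) (nat_lit 3) (nat_lit 4) (nat_lit 1) (nat_lit 4) (nat_lit 291) (nat_lit 252) (nat_lit 117)) (XT.nd (nat_lit 78) (nat_lit 0) (nat_lit 0) (XT.lf (nat_lit 0) (nat_lit 2514217445128) (nat_lit 152) (nat_lit 23096761131717) (nat_lit 0) (nat_lit 1856773362910) (nat_lit 1) (nat_lit 5) (nat_lit 3) (nat_lit 4) (nat_lit 1) (nat_lit 4) (nat_lit 292) (nat_lit 252) (nat_lit 116)) (XT.lf (nat_lit 0) (nat_lit 3533865662806) (nat_lit 152) (nat_lit 25065715380145) (nat_lit 0) (nat_lit 2876421580111) (nat_lit 1) (nat_lit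 5) (nat_lit 3) (nat_lit 4) (nat_lit 1) (nat_lit 4) (nat_lit 293) (nat_lit 252) (nat_lit 115))))))))
noncomputable def xc108 : XT := (XT.nd (nat_lit 32448) (nat_lit 0) (nat_lit 152) (XT.nd (nat_lit 31746) (nat_lit 0) (nat_lit 684) (XT.nd (nat_lit 31434) (nat_lit 0) (nat_lit 1216) (XT.nd (nat_lit 31278) (nat_lit 0) (nat_lit 1368) (XT.nd (nat_lit 31200) (nat_lit 0) (nat_lit 1368) (XT.lf (nat_lit 0) (nat_lit 4706461112131) (nat_lit 152) (nat_lit 27330012767865) (nat_lit 0) (nat_lit 4049017029021) (nat_lit 1) (nat_lit 5) (nat_lit 3) (nat_lit 4) (nat_lit 1) (nat_lit 4) (nat_lit 294) (nat_lit 252) (nat_lit 114)) (XT.lf (nat_lit 0) (nat_lit 18752027573) (nat_lit 380) (nat_lit 93370807559) (nat_lit 380) (nat_lit 93370807559) (nat_lit 19) (nat_lit 3) (nat_lit 24) (nat_lit 3) (nat_lit 24) (nat_lit 5) (nat_lit 253) (nat_lit 253) (nat_lit 154))) (XT.nd (nat_lit 78) (nat_lit 0) (nat_lit 76) (XT.lf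 (nat_lit 0) (nat_lit 40317206958) (nat_lit 380) (nat_lit 1267434784) (nat_lit 380) (nat_lit 400226635894) (nat_lit 19) (nat_lit 3) (nat_lit 24) (nat_lit 3) (nat_lit 24) (nat_lit 5) (nat_lit 254) (nat_lit 253) (nat_lit 153)) (XT.lf (nat_lit 0) (nat_lit 60625047256) (nat_lit 304) (nat_lit 250499643636) (nat_lit 380) (nat_lit 163573270831) (nat_lit 20) (nat_lit 5) (nat_lit 24) (nat_lit 5) (nat_lit 25) (nat_lit 5) (nat_lit 255) (nat_lit 253) (nat_lit 152)))) (XT.nd (nat_lit 156) (nat_lit 228) (nat_lit 0) (XT.nd (nat_lit 78) (nat_lit 0) (nat_lit 76) (XT.lf (nat_lit 0) (nat_lit 86028637407) (nat_lit 304) (nat_lit 30864753829) (nat_lit 380) (nat_lit 395316821426) (nat_lit 20) (nat_lit 5) (nat_lit 24) (nat_lit 5) (nat_lit 25) (nat_lit 5) (nat_lit 256) (nat_lit 253) (nat_lit 151)) (XT.lf (nat_lit 0) (nat_lit 130209395570) (nat_lit 304) (nat_lit 315343354125) (nat_lit 76) (nat_lit 107551557393)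 (nat_lit 21) (nat_lit 5) (nat_lit 25) (nat_lit 5) (nat_lit 22) (nat_lit 5) (nat_lit 257) (nat_lit 253) (nat_lit 150))) (XT.nd (nat_lit 78) (nat_lit 304) (nat_lit 0) (XT.lf (nat_lit 0) (nat_lit 188273789786) (nat_lit 304) (nat_lit 55384437635) (nat_lit 76) (nat_lit 355385810143) (nat_lit 21) (nat_lit 5) (nat_lit 25) (nat_lit 5) (nat_lit 22) (nat_lit 5) (nat_lit 258) (nat_lit 253) (nat_lit 149)) (XT.lf (nat_lit 0) (nat_lit 266170953028) (nat_lit 380) (nat_lit 382894359375) (nat_lit 76) (nat_lit 1140948927) (nat_lit 17) (nat_lit 5) (nat_lit 22) (nat_lit 5) (nat_lit 18) (nat_lit 5) (nat_lit 259) (nat_lit 253) (nat_lit 148))))) (XT.nd (nat_lit 312) (nat_lit 304) (nat_lit 0) (XT.nd (nat_lit 156) (nat_lit 76) (nat_lit 0) (XT.nd (nat_lit 78) (nat_lit 152) (nat_lit 0) (XT.lf (nat_lit 0) (nat_lit 370388387195) (nat_lit 380) (nat_lit 75712081597) (nat_lit 76) (nat_lit 260746995580) (nat_lit 17)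 (nat_lit 5) (nat_lit 22) (nat_lit 5) (nat_lit 18) (nat_lit 5) (nat_lit 260) (nat_lit 253) (nat_lit 147)) (XT.lf (nat_lit 0) (nat_lit 304671462751) (nat_lit 152) (nat_lit 198182740082) (nat_lit 228) (nat_lit 267238280240) (nat_lit 15) (nat_lit 5) (nat_lit 17) (nat_lit 5) (nat_lit 18) (nat_lit 5) (nat_lit 261) (nat_lit 253) (nat_lit 146))) (XT.nd (nat_lit 78) (nat_lit 76) (nat_lit 0) (XT.lf (nat_lit 0) (nat_lit 662935283006) (nat_lit 228) (nat_lit 95396838833) (nat_lit 76) (nat_lit 83330324046) (nat_lit 15) (nat_lit 5) (nat_lit 18) (nat_lit 5) (nat_lit 16) (nat_lit 4) (nat_lit 262) (nat_lit 253) (nat_lit 145)) (XT.lf (nat_lit 0) (nat_lit 352034180811) (nat_lit 76) (nat_lit 519008578874) (nat_lit 152) (nat_lit 49323008378) (nat_lit 14) (nat_lit 5) (nat_lit 15) (nat_lit 5) (nat_lit 16) (nat_lit 4) (nat_lit 263) (nat_lit 253) (nat_lit 144)))) (XT.nd (nat_lit 156) (nat_lit 76) (nat_lit 0)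 (XT.nd (nat_lit 78) (nat_lit 152) (nat_lit 0) (XT.lf (nat_lit 0) (nat_lit 95858413678) (nat_lit 152) (nat_lit 137182668767) (nat_lit 76) (nat_lit 776431931459) (nat_lit 13) (nat_lit 5) (nat_lit 15) (nat_lit 5) (nat_lit 14) (nat_lit 5) (nat_lit 264) (nat_lit 253) (nat_lit 143)) (XT.lf (nat_lit 0) (nat_lit 278813084300) (nat_lit 228) (nat_lit 722906514216) (nat_lit 76) (nat_lit 106717575206) (nat_lit 11) (nat_lit 5) (nat_lit 14) (nat_lit 5) (nat_lit 12) (nat_lit 4) (nat_lit 265) (nat_lit 253) (nat_lit 142))) (XT.nd (nat_lit 78) (nat_lit 76) (nat_lit 0) (XT.lf (nat_lit 0) (nat_lit 507820515275) (nat_lit 228) (nat_lit 230540569189) (nat_lit 76) (nat_lit 481093439150) (nat_lit 11) (nat_lit 5) (nat_lit 14) (nat_lit 5) (nat_lit 12) (nat_lit 4) (nat_lit 266) (nat_lit 253) (nat_lit 141)) (XT.nd (nat_lit 78) (nat_lit 0) (nat_lit 0) (XT.lf (nat_lit 0) (nat_lit 368485355616) (nat_lit 76) (nat_lit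 417951881639) (nat_lit 152) (nat_lit 558398512339) (nat_lit 10) (nat_lit 5) (nat_lit 11) (nat_lit 5) (nat_lit 12) (nat_lit 4) (nat_lit 267) (nat_lit 253) (nat_lit 140)) (XT.lf (nat_lit 0) (nat_lit 1083274760137) (nat_lit 76) (nat_lit 35622676371) (nat_lit 152) (nat_lit 368319077667) (nat_lit 10) (nat_lit 5) (nat_lit 11) (nat_lit 5) (nat_lit 12) (nat_lit 4) (nat_lit 268) (nat_lit 253) (nat_lit 139))))))) (XT.nd (nat_lit 702) (nat_lit 152) (nat_lit 0) (XT.nd (nat_lit 312) (nat_lit 152) (nat_lit 0) (XT.nd (nat_lit 156) (nat_lit 76) (nat_lit 0) (XT.nd (nat_lit 78) (nat_lit 76) (nat_lit 0) (XT.lf (nat_lit 0) (nat_lit 260816777821) (nat_lit 76) (nat_lit 1267940834290) (nat_lit 76) (nat_lit 118067139407) (nat_lit 9) (nat_lit 4) (nat_lit 10) (nat_lit 5) (nat_lit 10) (nat_lit 4) (nat_lit 269) (nat_lit 253) (nat_lit 138)) (XT.lf (nat_lit 0) (nat_lit 178429635323) (nat_lit 152) (nat_lit 766249994632)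 (nat_lit 76) (nat_lit 881067878319) (nat_lit 8) (nat_lit 5) (nat_lit 10) (nat_lit 5) (nat_lit 9) (nat_lit 4) (nat_lit 270) (nat_lit 253) (nat_lit 137))) (XT.nd (nat_lit 78) (nat_lit 76) (nat_lit 0) (XT.lf (nat_lit 0) (nat_lit 507313088367) (nat_lit 152) (nat_lit 59150584237) (nat_lit 76) (nat_lit 1464201671017) (nat_lit 8) (nat_lit 5) (nat_lit 10) (nat_lit 5) (nat_lit 9) (nat_lit 4) (nat_lit 271) (nat_lit 253) (nat_lit 136)) (XT.lf (nat_lit 0) (nat_lit 827701424051) (nat_lit 76) (nat_lit 92100976016) (nat_lit 152) (nat_lit 1341377453121) (nat_lit 7) (nat_lit 5) (nat_lit 8) (nat_lit 5) (nat_lit 9) (nat_lit 4) (nat_lit 272) (nat_lit 253) (nat_lit 135)))) (XT.nd (nat_lit 156) (nat_lit 76) (nat_lit 0) (XT.nd (nat_lit 78) (nat_lit 76) (nat_lit 0) (XT.lf (nat_lit 0) (nat_lit 1416179292117) (nat_lit 152) (nat_lit 690501041716) (nat_lit 0) (nat_lit 416289077842) (nat_lit 7) (nat_lit 5) (nat_lit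 9) (nat_lit 4) (nat_lit 7) (nat_lit 4) (nat_lit 273) (nat_lit 253) (nat_lit 134)) (XT.lf (nat_lit 0) (nat_lit 175128310265) (nat_lit 76) (nat_lit 1823521849731) (nat_lit 76) (nat_lit 823631627653) (nat_lit 6) (nat_lit 4) (nat_lit 7) (nat_lit 5) (nat_lit 7) (nat_lit 4) (nat_lit 274) (nat_lit 253) (nat_lit 133))) (XT.nd (nat_lit 78) (nat_lit 76) (nat_lit 0) (XT.lf (nat_lit 0) (nat_lit 1248204950937) (nat_lit 76) (nat_lit 1456381071643) (nat_lit 76) (nat_lit 456490842778) (nat_lit 6) (nat_lit 4) (nat_lit 7) (nat_lit 5) (nat_lit 7) (nat_lit 4) (nat_lit 275) (nat_lit 253) (nat_lit 132)) (XT.nd (nat_lit 78) (nat_lit 76) (nat_lit 0) (XT.lf (nat_lit 0) (nat_lit 2482243074427) (nat_lit 76) (nat_lit 1034169183067) (nat_lit 76) (nat_lit 34278948302) (nat_lit 6) (nat_lit 4) (nat_lit 7) (nat_lit 5) (nat_lit 7) (nat_lit 4) (nat_lit 276) (nat_lit 253) (nat_lit 131)) (XT.lf (nat_lit 0) (nat_lit 411090017064)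 (nat_lit 152) (nat_lit 116046703208) (nat_lit 76) (nat_lit 3468808091481) (nat_lit 5) (nat_lit 5) (nat_lit 7) (nat_lit 5) (nat_lit 6) (nat_lit 4) (nat_lit 277) (nat_lit 253) (nat_lit 130)))))) (XT.nd (nat_lit 312) (nat_lit 76) (nat_lit 0) (XT.nd (nat_lit 156) (nat_lit 0) (nat_lit 0) (XT.nd (nat_lit 78) (nat_lit 0) (nat_lit 0) (XT.lf (nat_lit 0) (nat_lit 968700887894) (nat_lit 152) (nat_lit 3432467700092) (nat_lit 0) (nat_lit 99231110191) (nat_lit 4) (nat_lit 5) (nat_lit 6) (nat_lit 4) (nat_lit 4) (nat_lit 4) (nat_lit 278) (nat_lit 253) (nat_lit 129)) (XT.lf (nat_lit 0) (nat_lit 1641410070954) (nat_lit 152) (nat_lit 2662453954501) (nat_lit 0) (nat_lit 771940289877) (nat_lit 4) (nat_lit 5) (nat_lit 6) (nat_lit 4) (nat_lit 4) (nat_lit 4) (nat_lit 279) (nat_lit 253) (nat_lit 128))) (XT.nd (nat_lit 78) (nat_lit 0) (nat_lit 0) (XT.lf (nat_lit 0) (nat_lit 2415025626701) (nat_lit 152) (nat_lit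 1776938156392) (nat_lit 0) (nat_lit 1545555842690) (nat_lit 4) (nat_lit 5) (nat_lit 6) (nat_lit 4) (nat_lit 4) (nat_lit 4) (nat_lit 280) (nat_lit 253) (nat_lit 127)) (XT.lf (nat_lit 0) (nat_lit 3304683511660) (nat_lit 152) (nat_lit 758594996672) (nat_lit 0) (nat_lit 2435213725098) (nat_lit 4) (nat_lit 5) (nat_lit 6) (nat_lit 4) (nat_lit 4) (nat_lit 4) (nat_lit 281) (nat_lit 253) (nat_lit 126)))) (XT.nd (nat_lit 156) (nat_lit 0) (nat_lit 0) (XT.nd (nat_lit 78) (nat_lit 0) (nat_lit 0) (XT.lf (nat_lit 0) (nat_lit 452812093794) (nat_lit 76) (nat_lit 3893727965140) (nat_lit 76) (nat_lit 3024258176360) (nat_lit 3) (nat_lit 4) (nat_lit 4) (nat_lit 5) (nat_lit 4) (nat_lit 4) (nat_lit 282) (nat_lit 253) (nat_lit 125)) (XT.lf (nat_lit 0) (nat_lit 1931185974252) (nat_lit 76) (nat_lit 3653142940003) (nat_lit 76) (nat_lit 2783673149294) (nat_lit 3) (nat_lit 4) (nat_lit 4) (nat_lit 5) (nat_lit 4)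 (nat_lit 4) (nat_lit 283) (nat_lit 253) (nat_lit 124))) (XT.nd (nat_lit 78) (nat_lit 0) (nat_lit 0) (XT.lf (nat_lit 0) (nat_lit 3631315930928) (nat_lit 76) (nat_lit 3376470163975) (nat_lit 76) (nat_lit 2507000371589) (nat_lit 3) (nat_lit 4) (nat_lit 4) (nat_lit 5) (nat_lit 4) (nat_lit 4) (nat_lit 284) (nat_lit 253) (nat_lit 123)) (XT.nd (nat_lit 78) (nat_lit 0) (nat_lit 0) (XT.lf (nat_lit 0) (nat_lit 5586465376019) (nat_lit 76) (nat_lit 3058296474046) (nat_lit 76) (nat_lit 2188826680202) (nat_lit 3) (nat_lit 4) (nat_lit 4) (nat_lit 5) (nat_lit 4) (nat_lit 4) (nat_lit 285) (nat_lit 253) (nat_lit 122)) (XT.lf (nat_lit 0) (nat_lit 7834887233450) (nat_lit 76) (nat_lit 2692396732806) (nat_lit 76) (nat_lit 1822926937693) (nat_lit 3) (nat_lit 4) (nat_lit 4) (nat_lit 5) (nat_lit 4) (nat_lit 4) (nat_lit 286) (nat_lit 253) (nat_lit 121))))))))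
noncomputable def xc109 : XT := (XT.nd (nat_lit 32448) (nat_lit 0) (nat_lit 228) (XT.nd (nat_lit 1170) (nat_lit 0) (nat_lit 0) (XT.nd (nat_lit 312) (nat_lit 76) (nat_lit 0) (XT.nd (nat_lit 156) (nat_lit 76) (nat_lit 0) (XT.nd (nat_lit 78) (nat_lit 0) (nat_lit 0) (XT.lf (nat_lit 0) (nat_lit 10420572365649) (nat_lit 76) (nat_lit 2271612032273) (nat_lit 76) (nat_lit 1402142236057) (nat_lit 3) (nat_lit 4) (nat_lit 4) (nat_lit 5) (nat_lit 4) (nat_lit 4) (nat_lit 287) (nat_lit 253) (nat_lit 120)) (XT.lf (nat_lit 0) (nat_lit 13394110264333) (nat_lit 76) (nat_lit 1787709628306) (nat_lit 76) (nat_lit 918239831131) (nat_lit 3) (nat_lit 4) (nat_lit 4) (nat_lit 5) (nat_lit 4) (nat_lit 4) (nat_lit 288) (nat_lit 253) (nat_lit 119))) (XT.nd (nat_lit 78) (nat_lit 76) (nat_lit 0) (XT.lf (nat_lit 0) (nat_lit 16813678844910) (nat_lit 76) (nat_lit 1231221865176) (nat_lit 76) (nat_lit 361752067167) (nat_lit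 3) (nat_lit 4) (nat_lit 4) (nat_lit 5) (nat_lit 4) (nat_lit 4) (nat_lit 289) (nat_lit 253) (nat_lit 118)) (XT.lf (nat_lit 0) (nat_lit 253440783356) (nat_lit 152) (nat_lit 324572114517) (nat_lit 76) (nat_lit 20479493885741) (nat_lit 2) (nat_lit 5) (nat_lit 4) (nat_lit 5) (nat_lit 3) (nat_lit 4) (nat_lit 290) (nat_lit 253) (nat_lit 117)))) (XT.nd (nat_lit 156) (nat_lit 0) (nat_lit 0) (XT.nd (nat_lit 78) (nat_lit 0) (nat_lit 0) (XT.lf (nat_lit 0) (nat_lit 985051230973) (nat_lit 152) (nat_lit 22880186902144) (nat_lit 0) (nat_lit 228990535873) (nat_lit 1) (nat_lit 5) (nat_lit 3) (nat_lit 4) (nat_lit 1) (nat_lit 4) (nat_lit 291) (nat_lit 253) (nat_lit 116)) (XT.lf (nat_lit 0) (nat_lit 1871701855508) (nat_lit 152) (nat_lit 24592321030269) (nat_lit 0) (nat_lit 1115641159931) (nat_lit 1) (nat_lit 5) (nat_lit 3) (nat_lit 4) (nat_lit 1) (nat_lit 4) (nat_lit 292) (nat_lit 253) (nat_lit 115))) (XT.nd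 (nat_lit 546) (nat_lit 0) (nat_lit 0) (XT.lf (nat_lit 0) (nat_lit 2891350072718) (nat_lit 152) (nat_lit 26561275279640) (nat_lit 0) (nat_lit 2135289376727) (nat_lit 1) (nat_lit 5) (nat_lit 3) (nat_lit 4) (nat_lit 1) (nat_lit 4) (nat_lit 293) (nat_lit 253) (nat_lit 114)) (XT.nd (nat_lit 78) (nat_lit 0) (nat_lit 0) (XT.lf (nat_lit 0) (nat_lit 15868228435370) (nat_lit 152) (nat_lit 51619799849123) (nat_lit 0) (nat_lit 15112167737654) (nat_lit 1) (nat_lit 5) (nat_lit 3) (nat_lit 4) (nat_lit 1) (nat_lit 4) (nat_lit 300) (nat_lit 253) (nat_lit 107)) (XT.lf (nat_lit 0) (nat_lit 18987355635050) (nat_lit 152) (nat_lit 57642875930421) (nat_lit 0) (nat_lit 18231294937199) (nat_lit 1) (nat_lit 5) (nat_lit 3) (nat_lit 4) (nat_lit 1) (nat_lit 4) (nat_lit 301) (nat_lit 253) (nat_lit 106)))))) (XT.nd (nat_lit 30888) (nat_lit 0) (nat_lit 1216) (XT.nd (nat_lit 30732) (nat_lit 0) (nat_lit 1368) (XT.nd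 (nat_lit 30654) (nat_lit 0) (nat_lit 1368) (XT.lf (nat_lit 0) (nat_lit 22574351914397) (nat_lit 152) (nat_lit 64569413424491) (nat_lit 0) (nat_lit 21818291216428) (nat_lit 1) (nat_lit 5) (nat_lit 3) (nat_lit 4) (nat_lit 1) (nat_lit 4) (nat_lit 302) (nat_lit 253) (nat_lit 105)) (XT.lf (nat_lit 0) (nat_lit 21565164987) (nat_lit 380) (nat_lit 107376236099) (nat_lit 380) (nat_lit 107376236099) (nat_lit 19) (nat_lit 3) (nat_lit 24) (nat_lit 3) (nat_lit 24) (nat_lit 5) (nat_lit 254) (nat_lit 254) (nat_lit 152))) (XT.nd (nat_lit 78) (nat_lit 0) (nat_lit 76) (XT.lf (nat_lit 0) (nat_lit 46365367616) (nat_lit 380) (nat_lit 1457215054) (nat_lit 380) (nat_lit 460260296331) (nat_lit 19) (nat_lit 3) (nat_lit 24) (nat_lit 3) (nat_lit 24) (nat_lit 5) (nat_lit 255) (nat_lit 254) (nat_lit 151)) (XT.lf (nat_lit 0) (nat_lit 69719313417) (nat_lit 304) (nat_lit 288074181789) (nat_lit 380) (nat_lit 188109081512)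 (nat_lit 20) (nat_lit 5) (nat_lit 24) (nat_lit 5) (nat_lit 25) (nat_lit 5) (nat_lit 256) (nat_lit 254) (nat_lit 150)))) (XT.nd (nat_lit 156) (nat_lit 228) (nat_lit 0) (XT.nd (nat_lit 78) (nat_lit 0) (nat_lit 76) (XT.lf (nat_lit 0) (nat_lit 98933375689) (nat_lit 304) (nat_lit 35494111780) (nat_lit 380) (nat_lit 454614188168) (nat_lit 20) (nat_lit 5) (nat_lit 24) (nat_lit 5) (nat_lit 25) (nat_lit 5) (nat_lit 257) (nat_lit 254) (nat_lit 149)) (XT.lf (nat_lit 0) (nat_lit 149741201390) (nat_lit 304) (nat_lit 362644453738) (nat_lit 76) (nat_lit 123684236356) (nat_lit 21) (nat_lit 5) (nat_lit 25) (nat_lit 5) (nat_lit 22) (nat_lit 5) (nat_lit 258) (nat_lit 254) (nat_lit 148))) (XT.nd (nat_lit 78) (nat_lit 304) (nat_lit 0) (XT.lf (nat_lit 0) (nat_lit 216515203022) (nat_lit 304) (nat_lit 63691752406) (nat_lit 76) (nat_lit 408693634146) (nat_lit 21) (nat_lit 5) (nat_lit 25) (nat_lit 5) (nat_lit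 22) (nat_lit 5) (nat_lit 259) (nat_lit 254) (nat_lit 147)) (XT.nd (nat_lit 78) (nat_lit 0) (nat_lit 0) (XT.lf (nat_lit 0) (nat_lit 306096910530) (nat_lit 380) (nat_lit 440328130526) (nat_lit 76) (nat_lit 1312110631) (nat_lit 17) (nat_lit 5) (nat_lit 22) (nat_lit 5) (nat_lit 18) (nat_lit 5) (nat_lit 260) (nat_lit 254) (nat_lit 146)) (XT.lf (nat_lit 0) (nat_lit 425946918795) (nat_lit 380) (nat_lit 87068561006) (nat_lit 76) (nat_lit 299859061756) (nat_lit 17) (nat_lit 5) (nat_lit 22) (nat_lit 5) (nat_lit 18) (nat_lit 5) (nat_lit 261) (nat_lit 254) (nat_lit 145))))))) (XT.nd (nat_lit 702) (nat_lit 380) (nat_lit 0) (XT.nd (nat_lit 312) (nat_lit 304) (nat_lit 0) (XT.nd (nat_lit 156) (nat_lit 152) (nat_lit 0) (XT.nd (nat_lit 78) (nat_lit 0) (nat_lit 0) (XT.lf (nat_lit 0) (nat_lit 350372499866) (nat_lit 152) (nat_lit 227910084392) (nat_lit 228) (nat_lit 307323732372) (nat_lit 15) (nat_lit 5)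 (nat_lit 17) (nat_lit 5) (nat_lit 18) (nat_lit 5) (nat_lit 262) (nat_lit 254) (nat_lit 144)) (XT.lf (nat_lit 0) (nat_lit 762375796118) (nat_lit 228) (nat_lit 109706056967) (nat_lit 76) (nat_lit 95829925492) (nat_lit 15) (nat_lit 5) (nat_lit 18) (nat_lit 5) (nat_lit 16) (nat_lit 4) (nat_lit 263) (nat_lit 254) (nat_lit 143))) (XT.nd (nat_lit 78) (nat_lit 76) (nat_lit 0) (XT.lf (nat_lit 0) (nat_lit 404839601638) (nat_lit 76) (nat_lit 596859776042) (nat_lit 152) (nat_lit 56721224039) (nat_lit 14) (nat_lit 5) (nat_lit 15) (nat_lit 5) (nat_lit 16) (nat_lit 4) (nat_lit 264) (nat_lit 254) (nat_lit 142)) (XT.lf (nat_lit 0) (nat_lit 110237362358) (nat_lit 152) (nat_lit 157759794730) (nat_lit 76) (nat_lit 892896780191) (nat_lit 13) (nat_lit 5) (nat_lit 15) (nat_lit 5) (nat_lit 14) (nat_lit 5) (nat_lit 265) (nat_lit 254) (nat_lit 141)))) (XT.nd (nat_lit 156) (nat_lit 152) (nat_lit 0) (XT.nd (nat_lit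 78) (nat_lit 0) (nat_lit 0) (XT.lf (nat_lit 0) (nat_lit 320635223749) (nat_lit 228) (nat_lit 831342206549) (nat_lit 76) (nat_lit 122725292338) (nat_lit 11) (nat_lit 5) (nat_lit 14) (nat_lit 5) (nat_lit 12) (nat_lit 4) (nat_lit 266) (nat_lit 254) (nat_lit 140)) (XT.lf (nat_lit 0) (nat_lit 583993746309) (nat_lit 228) (nat_lit 265121406915) (nat_lit 76) (nat_lit 553257525328) (nat_lit 11) (nat_lit 5) (nat_lit 14) (nat_lit 5) (nat_lit 12) (nat_lit 4) (nat_lit 267) (nat_lit 254) (nat_lit 139))) (XT.nd (nat_lit 78) (nat_lit 76) (nat_lit 0) (XT.lf (nat_lit 0) (nat_lit 423758395354) (nat_lit 76) (nat_lit 480644570968) (nat_lit 152) (nat_lit 642158123718) (nat_lit 10) (nat_lit 5) (nat_lit 11) (nat_lit 5) (nat_lit 12) (nat_lit 4) (nat_lit 268) (nat_lit 254) (nat_lit 138)) (XT.nd (nat_lit 78) (nat_lit 76) (nat_lit 0) (XT.lf (nat_lit 0) (nat_lit 1245766179719) (nat_lit 76) (nat_lit 40965997029)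 (nat_lit 152) (nat_lit 423566795430) (nat_lit 10) (nat_lit 5) (nat_lit 11) (nat_lit 5) (nat_lit 12) (nat_lit 4) (nat_lit 269) (nat_lit 254) (nat_lit 137)) (XT.lf (nat_lit 0) (nat_lit 299939505774) (nat_lit 76) (nat_lit 1458131868302) (nat_lit 76) (nat_lit 135777071792) (nat_lit 9) (nat_lit 4) (nat_lit 10) (nat_lit 5) (nat_lit 10) (nat_lit 4) (nat_lit 270) (nat_lit 254) (nat_lit 136)))))) (XT.nd (nat_lit 312) (nat_lit 228) (nat_lit 0) (XT.nd (nat_lit 156) (nat_lit 76) (nat_lit 0) (XT.nd (nat_lit 78) (nat_lit 0) (nat_lit 0) (XT.lf (nat_lit 0) (nat_lit 205194190356) (nat_lit 152) (nat_lit 881187299112) (nat_lit 76) (nat_lit 1013228128318) (nat_lit 8) (nat_lit 5) (nat_lit 10) (nat_lit 5) (nat_lit 9) (nat_lit 4) (nat_lit 271) (nat_lit 254) (nat_lit 135)) (XT.lf (nat_lit 0) (nat_lit 583410147043) (nat_lit 152) (nat_lit 68023002556) (nat_lit 76) (nat_lit 1683831981018) (nat_lit 8) (nat_lit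 5) (nat_lit 10) (nat_lit 5) (nat_lit 9) (nat_lit 4) (nat_lit 272) (nat_lit 254) (nat_lit 134))) (XT.nd (nat_lit 78) (nat_lit 0) (nat_lit 0) (XT.lf (nat_lit 0) (nat_lit 951856799280) (nat_lit 76) (nat_lit 105916050465) (nat_lit 152) (nat_lit 1542583967768) (nat_lit 7) (nat_lit 5) (nat_lit 8) (nat_lit 5) (nat_lit 9) (nat_lit 4) (nat_lit 273) (nat_lit 254) (nat_lit 133)) (XT.lf (nat_lit 0) (nat_lit 1628606266497) (nat_lit 152) (nat_lit 794076048152) (nat_lit 0) (nat_lit 478732496516) (nat_lit 7) (nat_lit 5) (nat_lit 9) (nat_lit 4) (nat_lit 7) (nat_lit 4) (nat_lit 274) (nat_lit 254) (nat_lit 132)))) (XT.nd (nat_lit 156) (nat_lit 152) (nat_lit 0) (XT.nd (nat_lit 78) (nat_lit 0) (nat_lit 0) (XT.lf (nat_lit 0) (nat_lit 201397699817) (nat_lit 76) (nat_lit 2097050060155) (nat_lit 76) (nat_lit 947176284274) (nat_lit 6) (nat_lit 4) (nat_lit 7) (nat_lit 5) (nat_lit 7) (nat_lit 4) (nat_lit 275) (nat_lit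 254) (nat_lit 131)) (XT.lf (nat_lit 0) (nat_lit 1435435817936) (nat_lit 76) (nat_lit 1674838174097) (nat_lit 76) (nat_lit 524964393085) (nat_lit 6) (nat_lit 4) (nat_lit 7) (nat_lit 5) (nat_lit 7) (nat_lit 4) (nat_lit 276) (nat_lit 254) (nat_lit 130))) (XT.nd (nat_lit 78) (nat_lit 152) (nat_lit 0) (XT.lf (nat_lit 0) (nat_lit 2854579643729) (nat_lit 76) (nat_lit 1189294509838) (nat_lit 76) (nat_lit 39420724364) (nat_lit 6) (nat_lit 4) (nat_lit 7) (nat_lit 5) (nat_lit 7) (nat_lit 4) (nat_lit 277) (nat_lit 254) (nat_lit 129)) (XT.nd (nat_lit 78) (nat_lit 76) (nat_lit 0) (XT.lf (nat_lit 0) (nat_lit 472753572050) (nat_lit 152) (nat_lit 133453609445) (nat_lit 76) (nat_lit 3989129344069) (nat_lit 5) (nat_lit 5) (nat_lit 7) (nat_lit 5) (nat_lit 6) (nat_lit 4) (nat_lit 278) (nat_lit 254) (nat_lit 128)) (XT.lf (nat_lit 0) (nat_lit 1114006072461) (nat_lit 152) (nat_lit 3947337754742) (nat_lit 0)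 (nat_lit 114115817916) (nat_lit 4) (nat_lit 5) (nat_lit 6) (nat_lit 4) (nat_lit 4) (nat_lit 4) (nat_lit 279) (nat_lit 254) (nat_lit 127))))))))
noncomputable def xc110 : XT := (XT.nd (nat_lit 1716) (nat_lit 0) (nat_lit 0) (XT.nd (nat_lit 702) (nat_lit 152) (nat_lit 0) (XT.nd (nat_lit 312) (nat_lit 0) (nat_lit 0) (XT.nd (nat_lit 156) (nat_lit 76) (nat_lit 0) (XT.nd (nat_lit 78) (nat_lit 0) (nat_lit 0) (XT.lf (nat_lit 0) (nat_lit 1887621626278) (nat_lit 152) (nat_lit 3061821960403) (nat_lit 0) (nat_lit 887731369182) (nat_lit 4) (nat_lit 5) (nat_lit 6) (nat_lit 4) (nat_lit 4) (nat_lit 4) (nat_lit 280) (nat_lit 254) (nat_lit 126)) (XT.lf (nat_lit 0) (nat_lit 2777279509559) (nat_lit 152) (nat_lit 2043478803961) (nat_lit 0) (nat_lit 1777389250244) (nat_lit 4) (nat_lit 5) (nat_lit 6) (nat_lit 4) (nat_lit 4) (nat_lit 4) (nat_lit 281) (nat_lit 254) (nat_lit 125))) (XT.nd (nat_lit 78) (nat_lit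 76) (nat_lit 0) (XT.lf (nat_lit 0) (nat_lit 3800386072194) (nat_lit 152) (nat_lit 872384180181) (nat_lit 0) (nat_lit 2800495810950) (nat_lit 4) (nat_lit 5) (nat_lit 6) (nat_lit 4) (nat_lit 4) (nat_lit 4) (nat_lit 282) (nat_lit 254) (nat_lit 124)) (XT.lf (nat_lit 0) (nat_lit 520733970855) (nat_lit 76) (nat_lit 4477787128906) (nat_lit 76) (nat_lit 3477896865985) (nat_lit 3) (nat_lit 4) (nat_lit 4) (nat_lit 5) (nat_lit 4) (nat_lit 4) (nat_lit 283) (nat_lit 254) (nat_lit 123)))) (XT.nd (nat_lit 156) (nat_lit 0) (nat_lit 0) (XT.nd (nat_lit 78) (nat_lit 0) (nat_lit 0) (XT.lf (nat_lit 0) (nat_lit 2220863925165) (nat_lit 76) (nat_lit 4201114354043) (nat_lit 76) (nat_lit 3201224089663) (nat_lit 3) (nat_lit 4) (nat_lit 4) (nat_lit 5) (nat_lit 4) (nat_lit 4) (nat_lit 284) (nat_lit 254) (nat_lit 122)) (XT.lf (nat_lit 0) (nat_lit 4176013368198) (nat_lit 76) (nat_lit 3882940665127) (nat_lit 76) (nat_lit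 2883050399479) (nat_lit 3) (nat_lit 4) (nat_lit 4) (nat_lit 5) (nat_lit 4) (nat_lit 4) (nat_lit 285) (nat_lit 254) (nat_lit 121))) (XT.nd (nat_lit 78) (nat_lit 0) (nat_lit 0) (XT.lf (nat_lit 0) (nat_lit 6424435223840) (nat_lit 76) (nat_lit 3517040924768) (nat_lit 76) (nat_lit 2517150658017) (nat_lit 3) (nat_lit 4) (nat_lit 4) (nat_lit 5) (nat_lit 4) (nat_lit 4) (nat_lit 286) (nat_lit 254) (nat_lit 120)) (XT.nd (nat_lit 78) (nat_lit 0) (nat_lit 0) (XT.lf (nat_lit 0) (nat_lit 9010120354483) (nat_lit 76) (nat_lit 3096256225000) (nat_lit 76) (nat_lit 2096365957290) (nat_lit 3) (nat_lit 4) (nat_lit 4) (nat_lit 5) (nat_lit 4) (nat_lit 4) (nat_lit 287) (nat_lit 254) (nat_lit 119)) (XT.lf (nat_lit 0) (nat_lit 11983658251814) (nat_lit 76) (nat_lit 2612353821699) (nat_lit 76) (nat_lit 1612463553155) (nat_lit 3) (nat_lit 4) (nat_lit 4) (nat_lit 5) (nat_lit 4) (nat_lit 4) (nat_lit 288) (nat_lit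 254) (nat_lit 118)))))) (XT.nd (nat_lit 312) (nat_lit 0) (nat_lit 0) (XT.nd (nat_lit 156) (nat_lit 152) (nat_lit 0) (XT.nd (nat_lit 78) (nat_lit 0) (nat_lit 0) (XT.lf (nat_lit 0) (nat_lit 15403226831215) (nat_lit 76) (nat_lit 2055866059148) (nat_lit 76) (nat_lit 1055975789879) (nat_lit 3) (nat_lit 4) (nat_lit 4) (nat_lit 5) (nat_lit 4) (nat_lit 4) (nat_lit 289) (nat_lit 254) (nat_lit 117)) (XT.lf (nat_lit 0) (nat_lit 19335730695328) (nat_lit 76) (nat_lit 1415905133297) (nat_lit 76) (nat_lit 416014863397) (nat_lit 3) (nat_lit 4) (nat_lit 4) (nat_lit 5) (nat_lit 4) (nat_lit 4) (nat_lit 290) (nat_lit 254) (nat_lit 116))) (XT.nd (nat_lit 78) (nat_lit 76) (nat_lit 0) (XT.lf (nat_lit 0) (nat_lit 291456911827) (nat_lit 152) (nat_lit 373257910018) (nat_lit 76) (nat_lit 23551417977653) (nat_lit 2) (nat_lit 5) (nat_lit 4) (nat_lit 5) (nat_lit 3) (nat_lit 4) (nat_lit 291) (nat_lit 254) (nat_lit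 115)) (XT.lf (nat_lit 0) (nat_lit 1132808926439) (nat_lit 152) (nat_lit 26312214915632) (nat_lit 0) (nat_lit 263339125634) (nat_lit 1) (nat_lit 5) (nat_lit 3) (nat_lit 4) (nat_lit 1) (nat_lit 4) (nat_lit 292) (nat_lit 254) (nat_lit 114)))) (XT.nd (nat_lit 468) (nat_lit 0) (nat_lit 0) (XT.nd (nat_lit 390) (nat_lit 0) (nat_lit 0) (XT.lf (nat_lit 0) (nat_lit 2152457143243) (nat_lit 152) (nat_lit 28281169165823) (nat_lit 0) (nat_lit 1282987342078) (nat_lit 1) (nat_lit 5) (nat_lit 3) (nat_lit 4) (nat_lit 1) (nat_lit 4) (nat_lit 293) (nat_lit 254) (nat_lit 113)) (XT.lf (nat_lit 0) (nat_lit 10058542702677) (nat_lit 152) (nat_lit 43547925441276) (nat_lit 0) (nat_lit 9189072900304) (nat_lit 1) (nat_lit 5) (nat_lit 3) (nat_lit 4) (nat_lit 1) (nat_lit 4) (nat_lit 298) (nat_lit 254) (nat_lit 108))) (XT.nd (nat_lit 78) (nat_lit 0) (nat_lit 0) (XT.lf (nat_lit 0) (nat_lit 12417050982610) (nat_lit 152)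 (nat_lit 48102236276987) (nat_lit 0) (nat_lit 11547581180080) (nat_lit 1) (nat_lit 5) (nat_lit 3) (nat_lit 4) (nat_lit 1) (nat_lit 4) (nat_lit 299) (nat_lit 254) (nat_lit 107)) (XT.nd (nat_lit 78) (nat_lit 0) (nat_lit 0) (XT.lf (nat_lit 0) (nat_lit 15129335504204) (nat_lit 152) (nat_lit 53339693738718) (nat_lit 0) (nat_lit 14259865701539) (nat_lit 1) (nat_lit 5) (nat_lit 3) (nat_lit 4) (nat_lit 1) (nat_lit 4) (nat_lit 300) (nat_lit 254) (nat_lit 106)) (XT.lf (nat_lit 0) (nat_lit 18248462703751) (nat_lit 152) (nat_lit 59362769820284) (nat_lit 0) (nat_lit 17378992900969) (nat_lit 1) (nat_lit 5) (nat_lit 3) (nat_lit 4) (nat_lit 1) (nat_lit 4) (nat_lit 301) (nat_lit 254) (nat_lit 105))))))) (XT.nd (nat_lit 31278) (nat_lit 0) (nat_lit 684) (XT.nd (nat_lit 30888) (nat_lit 0) (nat_lit 1216) (XT.nd (nat_lit 30732) (nat_lit 0) (nat_lit 1368) (XT.nd (nat_lit 78) (nat_lit 0) (nat_lit 0) (XT.lf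 (nat_lit 0) (nat_lit 21835458982982) (nat_lit 152) (nat_lit 66289307314588) (nat_lit 0) (nat_lit 20965989180097) (nat_lit 1) (nat_lit 5) (nat_lit 3) (nat_lit 4) (nat_lit 1) (nat_lit 4) (nat_lit 302) (nat_lit 254) (nat_lit 104)) (XT.lf (nat_lit 0) (nat_lit 25960504703882) (nat_lit 152) (nat_lit 74254825433472) (nat_lit 0) (nat_lit 25091034900908) (nat_lit 1) (nat_lit 5) (nat_lit 3) (nat_lit 4) (nat_lit 1) (nat_lit 4) (nat_lit 303) (nat_lit 254) (nat_lit 103))) (XT.nd (nat_lit 78) (nat_lit 0) (nat_lit 0) (XT.lf (nat_lit 0) (nat_lit 24800191742) (nat_lit 380) (nat_lit 123482525884) (nat_lit 380) (nat_lit 123482525884) (nat_lit 19) (nat_lit 3) (nat_lit 24) (nat_lit 3) (nat_lit 24) (nat_lit 5) (nat_lit 255) (nat_lit 255) (nat_lit 150)) (XT.lf (nat_lit 0) (nat_lit 53320611030) (nat_lit 380) (nat_lit 1675544044) (nat_lit 380) (nat_lit 529299087513) (nat_lit 19) (nat_lit 3) (nat_lit 24) (nat_lit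 3) (nat_lit 24) (nat_lit 5) (nat_lit 256) (nat_lit 255) (nat_lit 149)))) (XT.nd (nat_lit 156) (nat_lit 228) (nat_lit 0) (XT.nd (nat_lit 78) (nat_lit 0) (nat_lit 0) (XT.lf (nat_lit 0) (nat_lit 80177595361) (nat_lit 304) (nat_lit 331285000255) (nat_lit 380) (nat_lit 216325307676) (nat_lit 20) (nat_lit 5) (nat_lit 24) (nat_lit 5) (nat_lit 25) (nat_lit 5) (nat_lit 257) (nat_lit 255) (nat_lit 148)) (XT.lf (nat_lit 0) (nat_lit 113773716766) (nat_lit 304) (nat_lit 40817960022) (nat_lit 380) (nat_lit 522806198077) (nat_lit 20) (nat_lit 5) (nat_lit 24) (nat_lit 5) (nat_lit 25) (nat_lit 5) (nat_lit 258) (nat_lit 255) (nat_lit 147))) (XT.nd (nat_lit 78) (nat_lit 304) (nat_lit 0) (XT.lf (nat_lit 0) (nat_lit 172202681398) (nat_lit 304) (nat_lit 417040816690) (nat_lit 76) (nat_lit 142236830490) (nat_lit 21) (nat_lit 5) (nat_lit 25) (nat_lit 5) (nat_lit 22) (nat_lit 5) (nat_lit 259) (nat_lit 255) (nat_lit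 146)) (XT.nd (nat_lit 78) (nat_lit 304) (nat_lit 0) (XT.lf (nat_lit 0) (nat_lit 248992744171) (nat_lit 304) (nat_lit 73245249955) (nat_lit 76) (nat_lit 469997643337) (nat_lit 21) (nat_lit 5) (nat_lit 25) (nat_lit 5) (nat_lit 22) (nat_lit 5) (nat_lit 260) (nat_lit 255) (nat_lit 145)) (XT.lf (nat_lit 0) (nat_lit 352011684953) (nat_lit 380) (nat_lit 506377060687) (nat_lit 76) (nat_lit 1508941869) (nat_lit 17) (nat_lit 5) (nat_lit 22) (nat_lit 5) (nat_lit 18) (nat_lit 5) (nat_lit 261) (nat_lit 255) (nat_lit 144)))))) (XT.nd (nat_lit 312) (nat_lit 304) (nat_lit 0) (XT.nd (nat_lit 156) (nat_lit 76) (nat_lit 0) (XT.nd (nat_lit 78) (nat_lit 152) (nat_lit 0) (XT.lf (nat_lit 0) (nat_lit 489839163434) (nat_lit 380) (nat_lit 100128593489) (nat_lit 76) (nat_lit 344837933753) (nat_lit 17) (nat_lit 5) (nat_lit 22) (nat_lit 5) (nat_lit 18) (nat_lit 5) (nat_lit 262) (nat_lit 255) (nat_lit 143)) (XT.lf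 (nat_lit 0) (nat_lit 402928615074) (nat_lit 152) (nat_lit 262096546613) (nat_lit 228) (nat_lit 353422073019) (nat_lit 15) (nat_lit 5) (nat_lit 17) (nat_lit 5) (nat_lit 18) (nat_lit 5) (nat_lit 263) (nat_lit 255) (nat_lit 142))) (XT.nd (nat_lit 78) (nat_lit 76) (nat_lit 0) (XT.lf (nat_lit 0) (nat_lit 876732332388) (nat_lit 228) (nat_lit 126161732854) (nat_lit 76) (nat_lit 110204454270) (nat_lit 15) (nat_lit 5) (nat_lit 18) (nat_lit 5) (nat_lit 16) (nat_lit 4) (nat_lit 264) (nat_lit 255) (nat_lit 141)) (XT.lf (nat_lit 0) (nat_lit 465565763967) (nat_lit 76) (nat_lit 686388674650) (nat_lit 152) (nat_lit 65229229500) (nat_lit 14) (nat_lit 5) (nat_lit 15) (nat_lit 5) (nat_lit 16) (nat_lit 4) (nat_lit 265) (nat_lit 255) (nat_lit 140)))) (XT.nd (nat_lit 156) (nat_lit 76) (nat_lit 0) (XT.nd (nat_lit 78) (nat_lit 152) (nat_lit 0) (XT.lf (nat_lit 0) (nat_lit 126773107829) (nat_lit 152) (nat_lit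 181423556490) (nat_lit 76) (nat_lit 1026831341841) (nat_lit 13) (nat_lit 5) (nat_lit 15) (nat_lit 5) (nat_lit 14) (nat_lit 5) (nat_lit 266) (nat_lit 255) (nat_lit 139)) (XT.lf (nat_lit 0) (nat_lit 368730641001) (nat_lit 228) (nat_lit 956043322181) (nat_lit 76) (nat_lit 141134147324) (nat_lit 11) (nat_lit 5) (nat_lit 14) (nat_lit 5) (nat_lit 12) (nat_lit 4) (nat_lit 267) (nat_lit 255) (nat_lit 138))) (XT.nd (nat_lit 78) (nat_lit 76) (nat_lit 0) (XT.lf (nat_lit 0) (nat_lit 671592924507) (nat_lit 228) (nat_lit 304889430692) (nat_lit 76) (nat_lit 636246207288) (nat_lit 11) (nat_lit 5) (nat_lit 14) (nat_lit 5) (nat_lit 12) (nat_lit 4) (nat_lit 268) (nat_lit 255) (nat_lit 137)) (XT.nd (nat_lit 78) (nat_lit 0) (nat_lit 0) (XT.lf (nat_lit 0) (nat_lit 487322333405) (nat_lit 76) (nat_lit 552741186355) (nat_lit 152) (nat_lit 738481717156) (nat_lit 10) (nat_lit 5) (nat_lit 11) (nat_lit 5) (nat_lit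 12) (nat_lit 4) (nat_lit 269) (nat_lit 255) (nat_lit 136)) (XT.lf (nat_lit 0) (nat_lit 1432631262110) (nat_lit 76) (nat_lit 47110835489) (nat_lit 152) (nat_lit 487101705944) (nat_lit 10) (nat_lit 5) (nat_lit 11) (nat_lit 5) (nat_lit 12) (nat_lit 4) (nat_lit 270) (nat_lit 255) (nat_lit 135))))))))
noncomputable def xc111 : XT := (XT.nd (nat_lit 1404) (nat_lit 152) (nat_lit 0) (XT.nd (nat_lit 702) (nat_lit 152) (nat_lit 0) (XT.nd (nat_lit 312) (nat_lit 152) (nat_lit 0) (XT.nd (nat_lit 156) (nat_lit 76) (nat_lit 0) (XT.nd (nat_lit 78) (nat_lit 76) (nat_lit 0) (XT.lf (nat_lit 0) (nat_lit 344930591397) (nat_lit 76) (nat_lit 1676851579639) (nat_lit 76) (nat_lit 156143527814) (nat_lit 9) (nat_lit 4) (nat_lit 10) (nat_lit 5) (nat_lit 10) (nat_lit 4) (nat_lit 271) (nat_lit 255) (nat_lit 134)) (XT.lf (nat_lit 0) (nat_lit 235973401884) (nat_lit 152) (nat_lit 1013365246747) (nat_lit 76) (nat_lit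 1165212399173) (nat_lit 8) (nat_lit 5) (nat_lit 10) (nat_lit 5) (nat_lit 9) (nat_lit 4) (nat_lit 272) (nat_lit 255) (nat_lit 133))) (XT.nd (nat_lit 78) (nat_lit 76) (nat_lit 0) (XT.lf (nat_lit 0) (nat_lit 670921741251) (nat_lit 152) (nat_lit 78226324911) (nat_lit 76) (nat_lit 1936406823047) (nat_lit 8) (nat_lit 5) (nat_lit 10) (nat_lit 5) (nat_lit 9) (nat_lit 4) (nat_lit 273) (nat_lit 255) (nat_lit 132)) (XT.lf (nat_lit 0) (nat_lit 1094635441380) (nat_lit 76) (nat_lit 121803403628) (nat_lit 152) (nat_lit 1773971484808) (nat_lit 7) (nat_lit 5) (nat_lit 8) (nat_lit 5) (nat_lit 9) (nat_lit 4) (nat_lit 274) (nat_lit 255) (nat_lit 131)))) (XT.nd (nat_lit 156) (nat_lit 76) (nat_lit 0) (XT.nd (nat_lit 78) (nat_lit 76) (nat_lit 0) (XT.lf (nat_lit 0) (nat_lit 1872897267388) (nat_lit 152) (nat_lit 913187342088) (nat_lit 0) (nat_lit 550542414093) (nat_lit 7) (nat_lit 5) (nat_lit 9) (nat_lit 4)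 (nat_lit 7) (nat_lit 4) (nat_lit 275) (nat_lit 255) (nat_lit 130)) (XT.lf (nat_lit 0) (nat_lit 231607462928) (nat_lit 76) (nat_lit 2411607518489) (nat_lit 76) (nat_lit 1089252660733) (nat_lit 6) (nat_lit 4) (nat_lit 7) (nat_lit 5) (nat_lit 7) (nat_lit 4) (nat_lit 276) (nat_lit 255) (nat_lit 129))) (XT.nd (nat_lit 78) (nat_lit 76) (nat_lit 0) (XT.lf (nat_lit 0) (nat_lit 1650751284659) (nat_lit 76) (nat_lit 1926063856135) (nat_lit 76) (nat_lit 603708994498) (nat_lit 6) (nat_lit 4) (nat_lit 7) (nat_lit 5) (nat_lit 7) (nat_lit 4) (nat_lit 277) (nat_lit 255) (nat_lit 128)) (XT.nd (nat_lit 78) (nat_lit 76) (nat_lit 0) (XT.lf (nat_lit 0) (nat_lit 3282766672056) (nat_lit 76) (nat_lit 1367688647986) (nat_lit 76) (nat_lit 45333782976) (nat_lit 6) (nat_lit 4) (nat_lit 7) (nat_lit 5) (nat_lit 7) (nat_lit 4) (nat_lit 278) (nat_lit 255) (nat_lit 127)) (XT.lf (nat_lit 0) (nat_lit 543666647500) (nat_lit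 152) (nat_lit 153471575818) (nat_lit 76) (nat_lit 4587498775068) (nat_lit 5) (nat_lit 5) (nat_lit 7) (nat_lit 5) (nat_lit 6) (nat_lit 4) (nat_lit 279) (nat_lit 255) (nat_lit 126)))))) (XT.nd (nat_lit 312) (nat_lit 76) (nat_lit 0) (XT.nd (nat_lit 156) (nat_lit 0) (nat_lit 0) (XT.nd (nat_lit 78) (nat_lit 0) (nat_lit 0) (XT.lf (nat_lit 0) (nat_lit 1281107022184) (nat_lit 152) (nat_lit 4539438342064) (nat_lit 0) (nat_lit 131233221754) (nat_lit 4) (nat_lit 5) (nat_lit 6) (nat_lit 4) (nat_lit 4) (nat_lit 4) (nat_lit 280) (nat_lit 255) (nat_lit 125)) (XT.lf (nat_lit 0) (nat_lit 2170764904006) (nat_lit 152) (nat_lit 3521095188472) (nat_lit 0) (nat_lit 1020891101646) (nat_lit 4) (nat_lit 5) (nat_lit 6) (nat_lit 4) (nat_lit 4) (nat_lit 4) (nat_lit 281) (nat_lit 255) (nat_lit 124))) (XT.nd (nat_lit 78) (nat_lit 0) (nat_lit 0) (XT.lf (nat_lit 0) (nat_lit 3193871465372) (nat_lit 152) (nat_lit 2350000567172)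 (nat_lit 0) (nat_lit 2043997661335) (nat_lit 4) (nat_lit 5) (nat_lit 6) (nat_lit 4) (nat_lit 4) (nat_lit 4) (nat_lit 282) (nat_lit 255) (nat_lit 123)) (XT.lf (nat_lit 0) (nat_lit 4370444008570) (nat_lit 152) (nat_lit 1003241757310) (nat_lit 0) (nat_lit 3220570203075) (nat_lit 4) (nat_lit 5) (nat_lit 6) (nat_lit 4) (nat_lit 4) (nat_lit 4) (nat_lit 283) (nat_lit 255) (nat_lit 122)))) (XT.nd (nat_lit 156) (nat_lit 0) (nat_lit 0) (XT.nd (nat_lit 78) (nat_lit 0) (nat_lit 0) (XT.lf (nat_lit 0) (nat_lit 598844114114) (nat_lit 76) (nat_lit 5149455174799) (nat_lit 76) (nat_lit 3999581368035) (nat_lit 3) (nat_lit 4) (nat_lit 4) (nat_lit 5) (nat_lit 4) (nat_lit 4) (nat_lit 284) (nat_lit 255) (nat_lit 121)) (XT.lf (nat_lit 0) (nat_lit 2553993555358) (nat_lit 76) (nat_lit 4831281486764) (nat_lit 76) (nat_lit 3681407678897) (nat_lit 3) (nat_lit 4) (nat_lit 4) (nat_lit 5) (nat_lit 4) (nat_lit 4) (nat_lit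 285) (nat_lit 255) (nat_lit 120))) (XT.nd (nat_lit 78) (nat_lit 0) (nat_lit 0) (XT.lf (nat_lit 0) (nat_lit 4802415409444) (nat_lit 76) (nat_lit 4465381747170) (nat_lit 76) (nat_lit 3315507938344) (nat_lit 3) (nat_lit 4) (nat_lit 4) (nat_lit 5) (nat_lit 4) (nat_lit 4) (nat_lit 286) (nat_lit 255) (nat_lit 119)) (XT.nd (nat_lit 78) (nat_lit 0) (nat_lit 0) (XT.lf (nat_lit 0) (nat_lit 7388100538734) (nat_lit 76) (nat_lit 4044597048068) (nat_lit 76) (nat_lit 2894723238409) (nat_lit 3) (nat_lit 4) (nat_lit 4) (nat_lit 5) (nat_lit 4) (nat_lit 4) (nat_lit 287) (nat_lit 255) (nat_lit 118)) (XT.lf (nat_lit 0) (nat_lit 10361638434889) (nat_lit 76) (nat_lit 3560694645346) (nat_lit 76) (nat_lit 2410820834962) (nat_lit 3) (nat_lit 4) (nat_lit 4) (nat_lit 5) (nat_lit 4) (nat_lit 4) (nat_lit 288) (nat_lit 255) (nat_lit 117))))))) (XT.nd (nat_lit 1014) (nat_lit 0) (nat_lit 0) (XT.nd (nat_lit 624) (nat_lit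 76) (nat_lit 0) (XT.nd (nat_lit 156) (nat_lit 76) (nat_lit 0) (XT.nd (nat_lit 78) (nat_lit 0) (nat_lit 0) (XT.lf (nat_lit 0) (nat_lit 13781207013267) (nat_lit 76) (nat_lit 3004206883299) (nat_lit 76) (nat_lit 1854333072283) (nat_lit 3) (nat_lit 4) (nat_lit 4) (nat_lit 5) (nat_lit 4) (nat_lit 4) (nat_lit 289) (nat_lit 255) (nat_lit 116)) (XT.lf (nat_lit 0) (nat_lit 17713710876490) (nat_lit 76) (nat_lit 2364245957885) (nat_lit 76) (nat_lit 1214372146322) (nat_lit 3) (nat_lit 4) (nat_lit 4) (nat_lit 5) (nat_lit 4) (nat_lit 4) (nat_lit 290) (nat_lit 255) (nat_lit 115))) (XT.nd (nat_lit 78) (nat_lit 76) (nat_lit 0) (XT.lf (nat_lit 0) (nat_lit 22236090317533) (nat_lit 76) (nat_lit 1628290894478) (nat_lit 76) (nat_lit 478417082438) (nat_lit 3) (nat_lit 4) (nat_lit 4) (nat_lit 5) (nat_lit 4) (nat_lit 4) (nat_lit 291) (nat_lit 255) (nat_lit 114)) (XT.lf (nat_lit 0) (nat_lit 335175456895) (nat_lit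 152) (nat_lit 429246580130) (nat_lit 76) (nat_lit 27084130681145) (nat_lit 2) (nat_lit 5) (nat_lit 4) (nat_lit 5) (nat_lit 3) (nat_lit 4) (nat_lit 292) (nat_lit 255) (nat_lit 113)))) (XT.nd (nat_lit 156) (nat_lit 0) (nat_lit 0) (XT.nd (nat_lit 78) (nat_lit 0) (nat_lit 0) (XT.lf (nat_lit 0) (nat_lit 7157939066524) (nat_lit 152) (nat_lit 41565533122696) (nat_lit 0) (nat_lit 6158048793616) (nat_lit 1) (nat_lit 5) (nat_lit 3) (nat_lit 4) (nat_lit 1) (nat_lit 4) (nat_lit 297) (nat_lit 255) (nat_lit 108)) (XT.lf (nat_lit 0) (nat_lit 9208815831836) (nat_lit 152) (nat_lit 45525803414310) (nat_lit 0) (nat_lit 8208925558771) (nat_lit 1) (nat_lit 5) (nat_lit 3) (nat_lit 4) (nat_lit 1) (nat_lit 4) (nat_lit 298) (nat_lit 255) (nat_lit 107))) (XT.nd (nat_lit 78) (nat_lit 0) (nat_lit 0) (XT.lf (nat_lit 0) (nat_lit 11567324111616) (nat_lit 152) (nat_lit 50080114250330) (nat_lit 0) (nat_lit 10567433838416)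 (nat_lit 1) (nat_lit 5) (nat_lit 3) (nat_lit 4) (nat_lit 1) (nat_lit 4) (nat_lit 299) (nat_lit 255) (nat_lit 106)) (XT.nd (nat_lit 78) (nat_lit 0) (nat_lit 0) (XT.lf (nat_lit 0) (nat_lit 14279608633077) (nat_lit 152) (nat_lit 55317571712328) (nat_lit 0) (nat_lit 13279718359759) (nat_lit 1) (nat_lit 5) (nat_lit 3) (nat_lit 4) (nat_lit 1) (nat_lit 4) (nat_lit 300) (nat_lit 255) (nat_lit 105)) (XT.lf (nat_lit 0) (nat_lit 17398735832509) (nat_lit 152) (nat_lit 61340647794128) (nat_lit 0) (nat_lit 16398845559089) (nat_lit 1) (nat_lit 5) (nat_lit 3) (nat_lit 4) (nat_lit 1) (nat_lit 4) (nat_lit 301) (nat_lit 255) (nat_lit 104)))))) (XT.nd (nat_lit 30966) (nat_lit 0) (nat_lit 1216) (XT.nd (nat_lit 30810) (nat_lit 0) (nat_lit 1368) (XT.nd (nat_lit 78) (nat_lit 0) (nat_lit 0) (XT.lf (nat_lit 0) (nat_lit 20985732111640) (nat_lit 152) (nat_lit 68267185288634) (nat_lit 0) (nat_lit 19985841838130)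 (nat_lit 1) (nat_lit 5) (nat_lit 3) (nat_lit 4) (nat_lit 1) (nat_lit 4) (nat_lit 302) (nat_lit 255) (nat_lit 103)) (XT.lf (nat_lit 0) (nat_lit 25110777832452) (nat_lit 152) (nat_lit 76232703407695) (nat_lit 0) (nat_lit 24110887558865) (nat_lit 1) (nat_lit 5) (nat_lit 3) (nat_lit 4) (nat_lit 1) (nat_lit 4) (nat_lit 303) (nat_lit 255) (nat_lit 102))) (XT.nd (nat_lit 78) (nat_lit 0) (nat_lit 0) (XT.lf (nat_lit 0) (nat_lit 28520411056) (nat_lit 380) (nat_lit 142004794650) (nat_lit 380) (nat_lit 142004794650) (nat_lit 19) (nat_lit 3) (nat_lit 24) (nat_lit 3) (nat_lit 24) (nat_lit 5) (nat_lit 256) (nat_lit 256) (nat_lit 148)) (XT.lf (nat_lit 0) (nat_lit 61319034080) (nat_lit 380) (nat_lit 1926684144) (nat_lit 380) (nat_lit 608693759133) (nat_lit 19) (nat_lit 3) (nat_lit 24) (nat_lit 3) (nat_lit 24) (nat_lit 5) (nat_lit 257) (nat_lit 256) (nat_lit 147)))) (XT.nd (nat_lit 156) (nat_lit 228)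 (nat_lit 0) (XT.nd (nat_lit 78) (nat_lit 0) (nat_lit 0) (XT.lf (nat_lit 0) (nat_lit 92204525729) (nat_lit 304) (nat_lit 380977516793) (nat_lit 380) (nat_lit 248774000944) (nat_lit 20) (nat_lit 5) (nat_lit 24) (nat_lit 5) (nat_lit 25) (nat_lit 5) (nat_lit 258) (nat_lit 256) (nat_lit 146)) (XT.lf (nat_lit 0) (nat_lit 130840027380) (nat_lit 304) (nat_lit 46940450982) (nat_lit 380) (nat_lit 601227038325) (nat_lit 20) (nat_lit 5) (nat_lit 24) (nat_lit 5) (nat_lit 25) (nat_lit 5) (nat_lit 259) (nat_lit 256) (nat_lit 145))) (XT.nd (nat_lit 78) (nat_lit 304) (nat_lit 0) (XT.lf (nat_lit 0) (nat_lit 198033310299) (nat_lit 304) (nat_lit 479596708488) (nat_lit 76) (nat_lit 163572323819) (nat_lit 21) (nat_lit 5) (nat_lit 25) (nat_lit 5) (nat_lit 22) (nat_lit 5) (nat_lit 260) (nat_lit 256) (nat_lit 144)) (XT.nd (nat_lit 78) (nat_lit 304) (nat_lit 0) (XT.lf (nat_lit 0) (nat_lit 286341852919) (nat_lit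 304) (nat_lit 84231836835) (nat_lit 76) (nat_lit 540497262669) (nat_lit 21) (nat_lit 5) (nat_lit 25) (nat_lit 5) (nat_lit 22) (nat_lit 5) (nat_lit 261) (nat_lit 256) (nat_lit 143)) (XT.lf (nat_lit 0) (nat_lit 404813617540) (nat_lit 380) (nat_lit 582333400949) (nat_lit 76) (nat_lit 1735294222) (nat_lit 17) (nat_lit 5) (nat_lit 22) (nat_lit 5) (nat_lit 18) (nat_lit 5) (nat_lit 262) (nat_lit 256) (nat_lit 142))))))))
noncomputable def xc112 : XT := (XT.nd (nat_lit 1326) (nat_lit 380) (nat_lit 0) (XT.nd (nat_lit 624) (nat_lit 304) (nat_lit 0) (XT.nd (nat_lit 312) (nat_lit 304) (nat_lit 0) (XT.nd (nat_lit 156) (nat_lit 76) (nat_lit 0) (XT.nd (nat_lit 78) (nat_lit 152) (nat_lit 0) (XT.lf (nat_lit 0) (nat_lit 563315194335) (nat_lit 380) (nat_lit 115147692216) (nat_lit 76) (nat_lit 396563633444) (nat_lit 17) (nat_lit 5) (nat_lit 22) (nat_lit 5) (nat_lit 18) (nat_lit 5) (nat_lit 263) (nat_lit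 256) (nat_lit 141)) (XT.lf (nat_lit 0) (nat_lit 463368088983) (nat_lit 152) (nat_lit 301410990467) (nat_lit 228) (nat_lit 406435218219) (nat_lit 15) (nat_lit 5) (nat_lit 17) (nat_lit 5) (nat_lit 18) (nat_lit 5) (nat_lit 264) (nat_lit 256) (nat_lit 140))) (XT.nd (nat_lit 78) (nat_lit 76) (nat_lit 0) (XT.lf (nat_lit 0) (nat_lit 1008242308410) (nat_lit 228) (nat_lit 145085816858) (nat_lit 76) (nat_lit 126735152622) (nat_lit 15) (nat_lit 5) (nat_lit 18) (nat_lit 5) (nat_lit 16) (nat_lit 4) (nat_lit 265) (nat_lit 256) (nat_lit 139)) (XT.lf (nat_lit 0) (nat_lit 535400796489) (nat_lit 76) (nat_lit 789346924581) (nat_lit 152) (nat_lit 75013479222) (nat_lit 14) (nat_lit 5) (nat_lit 15) (nat_lit 5) (nat_lit 16) (nat_lit 4) (nat_lit 266) (nat_lit 256) (nat_lit 138)))) (XT.nd (nat_lit 156) (nat_lit 76) (nat_lit 0) (XT.nd (nat_lit 78) (nat_lit 152) (nat_lit 0) (XT.lf (nat_lit 0) (nat_lit 145789180709)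 (nat_lit 152) (nat_lit 208636933103) (nat_lit 76) (nat_lit 1180856076858) (nat_lit 13) (nat_lit 5) (nat_lit 15) (nat_lit 5) (nat_lit 14) (nat_lit 5) (nat_lit 267) (nat_lit 256) (nat_lit 137)) (XT.lf (nat_lit 0) (nat_lit 424040338239) (nat_lit 228) (nat_lit 1099449657674) (nat_lit 76) (nat_lit 162304315650) (nat_lit 11) (nat_lit 5) (nat_lit 14) (nat_lit 5) (nat_lit 12) (nat_lit 4) (nat_lit 268) (nat_lit 256) (nat_lit 136))) (XT.nd (nat_lit 78) (nat_lit 76) (nat_lit 0) (XT.lf (nat_lit 0) (nat_lit 772331951086) (nat_lit 228) (nat_lit 350622703701) (nat_lit 76) (nat_lit 731683178578) (nat_lit 11) (nat_lit 5) (nat_lit 14) (nat_lit 5) (nat_lit 12) (nat_lit 4) (nat_lit 269) (nat_lit 256) (nat_lit 135)) (XT.lf (nat_lit 0) (nat_lit 560420818576) (nat_lit 76) (nat_lit 635652311183) (nat_lit 152) (nat_lit 849253880120) (nat_lit 10) (nat_lit 5) (nat_lit 11) (nat_lit 5) (nat_lit 12) (nat_lit 4) (nat_lit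 270) (nat_lit 256) (nat_lit 134))))) (XT.nd (nat_lit 312) (nat_lit 152) (nat_lit 0) (XT.nd (nat_lit 156) (nat_lit 76) (nat_lit 0) (XT.nd (nat_lit 78) (nat_lit 76) (nat_lit 0) (XT.lf (nat_lit 0) (nat_lit 1647526068957) (nat_lit 76) (nat_lit 54177414616) (nat_lit 152) (nat_lit 560166879567) (nat_lit 10) (nat_lit 5) (nat_lit 11) (nat_lit 5) (nat_lit 12) (nat_lit 4) (nat_lit 271) (nat_lit 256) (nat_lit 133)) (XT.lf (nat_lit 0) (nat_lit 396670300906) (nat_lit 76) (nat_lit 1928379264480) (nat_lit 76) (nat_lit 179564977784) (nat_lit 9) (nat_lit 4) (nat_lit 10) (nat_lit 5) (nat_lit 10) (nat_lit 4) (nat_lit 272) (nat_lit 256) (nat_lit 132))) (XT.nd (nat_lit 78) (nat_lit 0) (nat_lit 0) (XT.lf (nat_lit 0) (nat_lit 271369474907) (nat_lit 152) (nat_lit 1165369922431) (nat_lit 76) (nat_lit 1339994298072) (nat_lit 8) (nat_lit 5) (nat_lit 10) (nat_lit 5) (nat_lit 9) (nat_lit 4) (nat_lit 273) (nat_lit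 256) (nat_lit 131)) (XT.lf (nat_lit 0) (nat_lit 771560056996) (nat_lit 152) (nat_lit 89960176840) (nat_lit 76) (nat_lit 2226867880436) (nat_lit 8) (nat_lit 5) (nat_lit 10) (nat_lit 5) (nat_lit 9) (nat_lit 4) (nat_lit 274) (nat_lit 256) (nat_lit 130)))) (XT.nd (nat_lit 156) (nat_lit 76) (nat_lit 0) (XT.nd (nat_lit 78) (nat_lit 0) (nat_lit 0) (XT.lf (nat_lit 0) (nat_lit 1258830849995) (nat_lit 76) (nat_lit 140073873032) (nat_lit 152) (nat_lit 2040067148455) (nat_lit 7) (nat_lit 5) (nat_lit 8) (nat_lit 5) (nat_lit 9) (nat_lit 4) (nat_lit 275) (nat_lit 256) (nat_lit 129)) (XT.lf (nat_lit 0) (nat_lit 2153831903558) (nat_lit 152) (nat_lit 1050165357740) (nat_lit 0) (nat_lit 633123808796) (nat_lit 7) (nat_lit 5) (nat_lit 9) (nat_lit 4) (nat_lit 7) (nat_lit 4) (nat_lit 276) (nat_lit 256) (nat_lit 128))) (XT.nd (nat_lit 78) (nat_lit 0) (nat_lit 0) (XT.lf (nat_lit 0) (nat_lit 266348664134) (nat_lit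 76) (nat_lit 2773348607935) (nat_lit 76) (nat_lit 1252640509799) (nat_lit 6) (nat_lit 4) (nat_lit 7) (nat_lit 5) (nat_lit 7) (nat_lit 4) (nat_lit 277) (nat_lit 256) (nat_lit 127)) (XT.nd (nat_lit 78) (nat_lit 0) (nat_lit 0) (XT.lf (nat_lit 0) (nat_lit 1898364048460) (nat_lit 76) (nat_lit 2214973401226) (nat_lit 76) (nat_lit 694265300157) (nat_lit 6) (nat_lit 4) (nat_lit 7) (nat_lit 5) (nat_lit 7) (nat_lit 4) (nat_lit 278) (nat_lit 256) (nat_lit 126)) (XT.lf (nat_lit 0) (nat_lit 3775181734693) (nat_lit 76) (nat_lit 1572841916202) (nat_lit 76) (nat_lit 52133812582) (nat_lit 6) (nat_lit 4) (nat_lit 7) (nat_lit 5) (nat_lit 7) (nat_lit 4) (nat_lit 279) (nat_lit 256) (nat_lit 125))))))) (XT.nd (nat_lit 702) (nat_lit 152) (nat_lit 0) (XT.nd (nat_lit 312) (nat_lit 76) (nat_lit 0) (XT.nd (nat_lit 156) (nat_lit 0) (nat_lit 0) (XT.nd (nat_lit 78) (nat_lit 76) (nat_lit 0) (XT.lf (nat_lit 0) (nat_lit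 625216674600) (nat_lit 152) (nat_lit 176492255448) (nat_lit 76) (nat_lit 5275623613549) (nat_lit 5) (nat_lit 5) (nat_lit 7) (nat_lit 5) (nat_lit 6) (nat_lit 4) (nat_lit 280) (nat_lit 256) (nat_lit 124)) (XT.lf (nat_lit 0) (nat_lit 1473273104891) (nat_lit 152) (nat_lit 5220354035990) (nat_lit 0) (nat_lit 150918228571) (nat_lit 4) (nat_lit 5) (nat_lit 6) (nat_lit 4) (nat_lit 4) (nat_lit 4) (nat_lit 281) (nat_lit 256) (nat_lit 123))) (XT.nd (nat_lit 78) (nat_lit 0) (nat_lit 0) (XT.lf (nat_lit 0) (nat_lit 2496379665153) (nat_lit 152) (nat_lit 4049259416845) (nat_lit 0) (nat_lit 1174024787375) (nat_lit 4) (nat_lit 5) (nat_lit 6) (nat_lit 4) (nat_lit 4) (nat_lit 4) (nat_lit 282) (nat_lit 256) (nat_lit 122)) (XT.lf (nat_lit 0) (nat_lit 3672952207392) (nat_lit 152) (nat_lit 2702500608857) (nat_lit 0) (nat_lit 2350597328346) (nat_lit 4) (nat_lit 5) (nat_lit 6) (nat_lit 4) (nat_lit 4) (nat_lit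 4) (nat_lit 283) (nat_lit 256) (nat_lit 121)))) (XT.nd (nat_lit 156) (nat_lit 0) (nat_lit 0) (XT.nd (nat_lit 78) (nat_lit 76) (nat_lit 0) (XT.lf (nat_lit 0) (nat_lit 5026010629173) (nat_lit 152) (nat_lit 1153727983176) (nat_lit 0) (nat_lit 3703655749023) (nat_lit 4) (nat_lit 5) (nat_lit 6) (nat_lit 4) (nat_lit 4) (nat_lit 4) (nat_lit 284) (nat_lit 256) (nat_lit 120)) (XT.lf (nat_lit 0) (nat_lit 688670767246) (nat_lit 76) (nat_lit 5921873433292) (nat_lit 76) (nat_lit 4599518552183) (nat_lit 3) (nat_lit 4) (nat_lit 4) (nat_lit 5) (nat_lit 4) (nat_lit 4) (nat_lit 285) (nat_lit 256) (nat_lit 119))) (XT.nd (nat_lit 78) (nat_lit 0) (nat_lit 0) (XT.lf (nat_lit 0) (nat_lit 2937092619979) (nat_lit 76) (nat_lit 5555973694364) (nat_lit 76) (nat_lit 4233618812421) (nat_lit 3) (nat_lit 4) (nat_lit 4) (nat_lit 5) (nat_lit 4) (nat_lit 4) (nat_lit 286) (nat_lit 256) (nat_lit 118)) (XT.nd (nat_lit 78)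 (nat_lit 0) (nat_lit 0) (XT.lf (nat_lit 0) (nat_lit 5522777748093) (nat_lit 76) (nat_lit 5135188995841) (nat_lit 76) (nat_lit 3812834113173) (nat_lit 3) (nat_lit 4) (nat_lit 4) (nat_lit 5) (nat_lit 4) (nat_lit 4) (nat_lit 287) (nat_lit 256) (nat_lit 117)) (XT.lf (nat_lit 0) (nat_lit 8496315643225) (nat_lit 76) (nat_lit 4651286593623) (nat_lit 76) (nat_lit 3328931710325) (nat_lit 3) (nat_lit 4) (nat_lit 4) (nat_lit 5) (nat_lit 4) (nat_lit 4) (nat_lit 288) (nat_lit 256) (nat_lit 116)))))) (XT.nd (nat_lit 702) (nat_lit 0) (nat_lit 0) (XT.nd (nat_lit 156) (nat_lit 152) (nat_lit 0) (XT.nd (nat_lit 78) (nat_lit 0) (nat_lit 0) (XT.lf (nat_lit 0) (nat_lit 11915884220714) (nat_lit 76) (nat_lit 4094798832013) (nat_lit 76) (nat_lit 2772443948166) (nat_lit 3) (nat_lit 4) (nat_lit 4) (nat_lit 5) (nat_lit 4) (nat_lit 4) (nat_lit 289) (nat_lit 256) (nat_lit 115)) (XT.lf (nat_lit 0) (nat_lit 15848388083163)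 (nat_lit 76) (nat_lit 3454837906980) (nat_lit 76) (nat_lit 2132483022657) (nat_lit 3) (nat_lit 4) (nat_lit 4) (nat_lit 5) (nat_lit 4) (nat_lit 4) (nat_lit 290) (nat_lit 256) (nat_lit 114))) (XT.nd (nat_lit 468) (nat_lit 152) (nat_lit 0) (XT.lf (nat_lit 0) (nat_lit 20370767523534) (nat_lit 76) (nat_lit 2718882843904) (nat_lit 76) (nat_lit 1396527959166) (nat_lit 3) (nat_lit 4) (nat_lit 4) (nat_lit 5) (nat_lit 4) (nat_lit 4) (nat_lit 291) (nat_lit 256) (nat_lit 113)) (XT.lf (nat_lit 0) (nat_lit 6180753164881) (nat_lit 152) (nat_lit 43840092792040) (nat_lit 0) (nat_lit 5030879350701) (nat_lit 1) (nat_lit 5) (nat_lit 3) (nat_lit 4) (nat_lit 1) (nat_lit 4) (nat_lit 297) (nat_lit 256) (nat_lit 107)))) (XT.nd (nat_lit 156) (nat_lit 0) (nat_lit 0) (XT.nd (nat_lit 78) (nat_lit 0) (nat_lit 0) (XT.lf (nat_lit 0) (nat_lit 8231629930040) (nat_lit 152) (nat_lit 47800363083962) (nat_lit 0) (nat_lit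 7081756115725) (nat_lit 1) (nat_lit 5) (nat_lit 3) (nat_lit 4) (nat_lit 1) (nat_lit 4) (nat_lit 298) (nat_lit 256) (nat_lit 106)) (XT.lf (nat_lit 0) (nat_lit 10590138209687) (nat_lit 152) (nat_lit 52354673920250) (nat_lit 0) (nat_lit 9440264395254) (nat_lit 1) (nat_lit 5) (nat_lit 3) (nat_lit 4) (nat_lit 1) (nat_lit 4) (nat_lit 299) (nat_lit 256) (nat_lit 105))) (XT.nd (nat_lit 78) (nat_lit 0) (nat_lit 0) (XT.lf (nat_lit 0) (nat_lit 13302422731033) (nat_lit 152) (nat_lit 57592131382482) (nat_lit 0) (nat_lit 12152548916497) (nat_lit 1) (nat_lit 5) (nat_lit 3) (nat_lit 4) (nat_lit 1) (nat_lit 4) (nat_lit 300) (nat_lit 256) (nat_lit 104)) (XT.nd (nat_lit 78) (nat_lit 0) (nat_lit 0) (XT.lf (nat_lit 0) (nat_lit 16421549930364) (nat_lit 152) (nat_lit 63615207464484) (nat_lit 0) (nat_lit 15271676115739) (nat_lit 1) (nat_lit 5) (nat_lit 3) (nat_lit 4) (nat_lit 1) (nat_lit 4) (nat_lit 301) (nat_lit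 256) (nat_lit 103)) (XT.lf (nat_lit 0) (nat_lit 20008546209408) (nat_lit 152) (nat_lit 70541744959167) (nat_lit 0) (nat_lit 18858672394705) (nat_lit 1) (nat_lit 5) (nat_lit 3) (nat_lit 4) (nat_lit 1) (nat_lit 4) (nat_lit 302) (nat_lit 256) (nat_lit 102))))))))
noncomputable def xc113 : XT := (XT.nd (nat_lit 32136) (nat_lit 0) (nat_lit 0) (XT.nd (nat_lit 31434) (nat_lit 0) (nat_lit 608) (XT.nd (nat_lit 31044) (nat_lit 0) (nat_lit 1216) (XT.nd (nat_lit 30888) (nat_lit 0) (nat_lit 1368) (XT.nd (nat_lit 30810) (nat_lit 0) (nat_lit 1368) (XT.lf (nat_lit 0) (nat_lit 24133591930144) (nat_lit 152) (nat_lit 78507263078380) (nat_lit 0) (nat_lit 22983718115374) (nat_lit 1) (nat_lit 5) (nat_lit 3) (nat_lit 4) (nat_lit 1) (nat_lit 4) (nat_lit 303) (nat_lit 256) (nat_lit 101)) (XT.lf (nat_lit 0) (nat_lit 32798616800) (nat_lit 380) (nat_lit 163305430584) (nat_lit 380) (nat_lit 163305430584) (nat_lit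 19) (nat_lit 3) (nat_lit 24) (nat_lit 3) (nat_lit 24) (nat_lit 5) (nat_lit 257) (nat_lit 257) (nat_lit 146))) (XT.nd (nat_lit 78) (nat_lit 0) (nat_lit 76) (XT.lf (nat_lit 0) (nat_lit 70517139776) (nat_lit 380) (nat_lit 2215541958) (nat_lit 380) (nat_lit 699997678196) (nat_lit 19) (nat_lit 3) (nat_lit 24) (nat_lit 3) (nat_lit 24) (nat_lit 5) (nat_lit 258) (nat_lit 257) (nat_lit 145)) (XT.lf (nat_lit 0) (nat_lit 106035424674) (nat_lit 304) (nat_lit 438123967753) (nat_lit 380) (nat_lit 286090023291) (nat_lit 20) (nat_lit 5) (nat_lit 24) (nat_lit 5) (nat_lit 25) (nat_lit 5) (nat_lit 259) (nat_lit 257) (nat_lit 144)))) (XT.nd (nat_lit 156) (nat_lit 228) (nat_lit 0) (XT.nd (nat_lit 78) (nat_lit 0) (nat_lit 76) (XT.lf (nat_lit 0) (nat_lit 150466222866) (nat_lit 304) (nat_lit 53981365100) (nat_lit 380) (nat_lit 691411026427) (nat_lit 20) (nat_lit 5) (nat_lit 24) (nat_lit 5) (nat_lit 25) (nat_lit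 5) (nat_lit 260) (nat_lit 257) (nat_lit 143)) (XT.lf (nat_lit 0) (nat_lit 227738478254) (nat_lit 304) (nat_lit 551536040315) (nat_lit 76) (nat_lit 188108148767) (nat_lit 21) (nat_lit 5) (nat_lit 25) (nat_lit 5) (nat_lit 22) (nat_lit 5) (nat_lit 261) (nat_lit 257) (nat_lit 142))) (XT.nd (nat_lit 78) (nat_lit 304) (nat_lit 0) (XT.lf (nat_lit 0) (nat_lit 329293279910) (nat_lit 304) (nat_lit 96866460668) (nat_lit 76) (nat_lit 621571831526) (nat_lit 21) (nat_lit 5) (nat_lit 25) (nat_lit 5) (nat_lit 22) (nat_lit 5) (nat_lit 262) (nat_lit 257) (nat_lit 141)) (XT.nd (nat_lit 78) (nat_lit 0) (nat_lit 0) (XT.lf (nat_lit 0) (nat_lit 465535796159) (nat_lit 380) (nat_lit 669683245615) (nat_lit 76) (nat_lit 1995596728) (nat_lit 17) (nat_lit 5) (nat_lit 22) (nat_lit 5) (nat_lit 18) (nat_lit 5) (nat_lit 263) (nat_lit 257) (nat_lit 140)) (XT.lf (nat_lit 0) (nat_lit 647812591736) (nat_lit 380) (nat_lit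 132419702156) (nat_lit 76) (nat_lit 456048185741) (nat_lit 17) (nat_lit 5) (nat_lit 22) (nat_lit 5) (nat_lit 18) (nat_lit 5) (nat_lit 264) (nat_lit 257) (nat_lit 139)))))) (XT.nd (nat_lit 312) (nat_lit 304) (nat_lit 0) (XT.nd (nat_lit 156) (nat_lit 152) (nat_lit 0) (XT.nd (nat_lit 78) (nat_lit 0) (nat_lit 0) (XT.lf (nat_lit 0) (nat_lit 532873439681) (nat_lit 152) (nat_lit 346622610200) (nat_lit 228) (nat_lit 467400375619) (nat_lit 15) (nat_lit 5) (nat_lit 17) (nat_lit 5) (nat_lit 18) (nat_lit 5) (nat_lit 265) (nat_lit 257) (nat_lit 138)) (XT.lf (nat_lit 0) (nat_lit 1159478750070) (nat_lit 228) (nat_lit 166848556364) (nat_lit 76) (nat_lit 145745448359) (nat_lit 15) (nat_lit 5) (nat_lit 18) (nat_lit 5) (nat_lit 16) (nat_lit 4) (nat_lit 266) (nat_lit 257) (nat_lit 137))) (XT.nd (nat_lit 78) (nat_lit 76) (nat_lit 0) (XT.lf (nat_lit 0) (nat_lit 615711042939) (nat_lit 76) (nat_lit 907748924505)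 (nat_lit 152) (nat_lit 86265399250) (nat_lit 14) (nat_lit 5) (nat_lit 15) (nat_lit 5) (nat_lit 16) (nat_lit 4) (nat_lit 267) (nat_lit 257) (nat_lit 136)) (XT.lf (nat_lit 0) (nat_lit 167657638500) (nat_lit 152) (nat_lit 239932354458) (nat_lit 76) (nat_lit 1357984513899) (nat_lit 13) (nat_lit 5) (nat_lit 15) (nat_lit 5) (nat_lit 14) (nat_lit 5) (nat_lit 268) (nat_lit 257) (nat_lit 135)))) (XT.nd (nat_lit 156) (nat_lit 152) (nat_lit 0) (XT.nd (nat_lit 78) (nat_lit 0) (nat_lit 0) (XT.lf (nat_lit 0) (nat_lit 487646465412) (nat_lit 228) (nat_lit 1264366983198) (nat_lit 76) (nat_lit 186649997951) (nat_lit 11) (nat_lit 5) (nat_lit 14) (nat_lit 5) (nat_lit 12) (nat_lit 4) (nat_lit 269) (nat_lit 257) (nat_lit 134)) (XT.lf (nat_lit 0) (nat_lit 888181810217) (nat_lit 228) (nat_lit 403216002189) (nat_lit 76) (nat_lit 841435685760) (nat_lit 11) (nat_lit 5) (nat_lit 14) (nat_lit 5) (nat_lit 12) (nat_lit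 4) (nat_lit 270) (nat_lit 257) (nat_lit 133))) (XT.nd (nat_lit 78) (nat_lit 76) (nat_lit 0) (XT.lf (nat_lit 0) (nat_lit 644484043562) (nat_lit 76) (nat_lit 731000117690) (nat_lit 152) (nat_lit 976641890601) (nat_lit 10) (nat_lit 5) (nat_lit 11) (nat_lit 5) (nat_lit 12) (nat_lit 4) (nat_lit 271) (nat_lit 257) (nat_lit 132)) (XT.nd (nat_lit 78) (nat_lit 76) (nat_lit 0) (XT.lf (nat_lit 0) (nat_lit 1894655068170) (nat_lit 76) (nat_lit 62303991878) (nat_lit 152) (nat_lit 644191849295) (nat_lit 10) (nat_lit 5) (nat_lit 11) (nat_lit 5) (nat_lit 12) (nat_lit 4) (nat_lit 272) (nat_lit 257) (nat_lit 131)) (XT.lf (nat_lit 0) (nat_lit 456170937384) (nat_lit 76) (nat_lit 2217636114754) (nat_lit 76) (nat_lit 206499664562) (nat_lit 9) (nat_lit 4) (nat_lit 10) (nat_lit 5) (nat_lit 10) (nat_lit 4) (nat_lit 273) (nat_lit 257) (nat_lit 130))))))) (XT.nd (nat_lit 702) (nat_lit 228) (nat_lit 0) (XT.nd (nat_lit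 312) (nat_lit 228) (nat_lit 0) (XT.nd (nat_lit 156) (nat_lit 76) (nat_lit 0) (XT.nd (nat_lit 78) (nat_lit 0) (nat_lit 0) (XT.lf (nat_lit 0) (nat_lit 312074943584) (nat_lit 152) (nat_lit 1340175326615) (nat_lit 76) (nat_lit 1540993472289) (nat_lit 8) (nat_lit 5) (nat_lit 10) (nat_lit 5) (nat_lit 9) (nat_lit 4) (nat_lit 274) (nat_lit 257) (nat_lit 129)) (XT.lf (nat_lit 0) (nat_lit 887294106799) (nat_lit 152) (nat_lit 103454130166) (nat_lit 76) (nat_lit 2560898088160) (nat_lit 8) (nat_lit 5) (nat_lit 10) (nat_lit 5) (nat_lit 9) (nat_lit 4) (nat_lit 275) (nat_lit 257) (nat_lit 128))) (XT.nd (nat_lit 78) (nat_lit 0) (nat_lit 0) (XT.lf (nat_lit 0) (nat_lit 1447655547367) (nat_lit 76) (nat_lit 161084922879) (nat_lit 152) (nat_lit 2346077176055) (nat_lit 7) (nat_lit 5) (nat_lit 8) (nat_lit 5) (nat_lit 9) (nat_lit 4) (nat_lit 276) (nat_lit 257) (nat_lit 127)) (XT.lf (nat_lit 0) (nat_lit 2476906723921)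 (nat_lit 152) (nat_lit 1207690096628) (nat_lit 0) (nat_lit 728092404757) (nat_lit 7) (nat_lit 5) (nat_lit 9) (nat_lit 4) (nat_lit 7) (nat_lit 4) (nat_lit 277) (nat_lit 257) (nat_lit 126)))) (XT.nd (nat_lit 156) (nat_lit 152) (nat_lit 0) (XT.nd (nat_lit 78) (nat_lit 0) (nat_lit 0) (XT.lf (nat_lit 0) (nat_lit 306301025583) (nat_lit 76) (nat_lit 3189350870144) (nat_lit 76) (nat_lit 1440536548429) (nat_lit 6) (nat_lit 4) (nat_lit 7) (nat_lit 5) (nat_lit 7) (nat_lit 4) (nat_lit 278) (nat_lit 257) (nat_lit 125)) (XT.lf (nat_lit 0) (nat_lit 2183118709493) (nat_lit 76) (nat_lit 2547219386209) (nat_lit 76) (nat_lit 798405062276) (nat_lit 6) (nat_lit 4) (nat_lit 7) (nat_lit 5) (nat_lit 7) (nat_lit 4) (nat_lit 279) (nat_lit 257) (nat_lit 124))) (XT.nd (nat_lit 78) (nat_lit 152) (nat_lit 0) (XT.lf (nat_lit 0) (nat_lit 4341459041648) (nat_lit 76) (nat_lit 1808768181719) (nat_lit 76) (nat_lit 59953855857)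 (nat_lit 6) (nat_lit 4) (nat_lit 7) (nat_lit 5) (nat_lit 7) (nat_lit 4) (nat_lit 280) (nat_lit 257) (nat_lit 123)) (XT.nd (nat_lit 78) (nat_lit 76) (nat_lit 0) (XT.lf (nat_lit 0) (nat_lit 718999198455) (nat_lit 152) (nat_lit 202966050859) (nat_lit 76) (nat_lit 6066967172385) (nat_lit 5) (nat_lit 5) (nat_lit 7) (nat_lit 5) (nat_lit 6) (nat_lit 4) (nat_lit 281) (nat_lit 257) (nat_lit 122)) (XT.lf (nat_lit 0) (nat_lit 1694264092839) (nat_lit 152) (nat_lit 6003407097998) (nat_lit 0) (nat_lit 173555980667) (nat_lit 4) (nat_lit 5) (nat_lit 6) (nat_lit 4) (nat_lit 4) (nat_lit 4) (nat_lit 282) (nat_lit 257) (nat_lit 121)))))) (XT.nd (nat_lit 312) (nat_lit 152) (nat_lit 0) (XT.nd (nat_lit 156) (nat_lit 76) (nat_lit 0) (XT.nd (nat_lit 78) (nat_lit 0) (nat_lit 0) (XT.lf (nat_lit 0) (nat_lit 2870836634243) (nat_lit 152) (nat_lit 4656648291641) (nat_lit 0) (nat_lit 1350128520968) (nat_lit 4) (nat_lit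 5) (nat_lit 6) (nat_lit 4) (nat_lit 4) (nat_lit 4) (nat_lit 283) (nat_lit 257) (nat_lit 120)) (XT.lf (nat_lit 0) (nat_lit 4223895055298) (nat_lit 152) (nat_lit 3107875667377) (nat_lit 0) (nat_lit 2703186941065) (nat_lit 4) (nat_lit 5) (nat_lit 6) (nat_lit 4) (nat_lit 4) (nat_lit 4) (nat_lit 284) (nat_lit 257) (nat_lit 119))) (XT.nd (nat_lit 78) (nat_lit 76) (nat_lit 0) (XT.lf (nat_lit 0) (nat_lit 5779912238155) (nat_lit 152) (nat_lit 1326787152123) (nat_lit 0) (nat_lit 4259204123088) (nat_lit 4) (nat_lit 5) (nat_lit 6) (nat_lit 4) (nat_lit 4) (nat_lit 4) (nat_lit 285) (nat_lit 257) (nat_lit 118)) (XT.lf (nat_lit 0) (nat_lit 791971409566) (nat_lit 76) (nat_lit 6810154434882) (nat_lit 76) (nat_lit 5289446319089) (nat_lit 3) (nat_lit 4) (nat_lit 4) (nat_lit 5) (nat_lit 4) (nat_lit 4) (nat_lit 286) (nat_lit 257) (nat_lit 117)))) (XT.nd (nat_lit 156) (nat_lit 152) (nat_lit 0) (XT.nd (nat_lit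 78) (nat_lit 0) (nat_lit 0) (XT.lf (nat_lit 0) (nat_lit 3377656536657) (nat_lit 76) (nat_lit 6389369736863) (nat_lit 76) (nat_lit 4868661620439) (nat_lit 3) (nat_lit 4) (nat_lit 4) (nat_lit 5) (nat_lit 4) (nat_lit 4) (nat_lit 287) (nat_lit 257) (nat_lit 116)) (XT.lf (nat_lit 0) (nat_lit 6351194430899) (nat_lit 76) (nat_lit 5905467335082) (nat_lit 76) (nat_lit 4384759218110) (nat_lit 3) (nat_lit 4) (nat_lit 4) (nat_lit 5) (nat_lit 4) (nat_lit 4) (nat_lit 288) (nat_lit 257) (nat_lit 115))) (XT.nd (nat_lit 78) (nat_lit 152) (nat_lit 0) (XT.lf (nat_lit 0) (nat_lit 9770763007615) (nat_lit 76) (nat_lit 5348979573853) (nat_lit 76) (nat_lit 3828271456404) (nat_lit 3) (nat_lit 4) (nat_lit 4) (nat_lit 5) (nat_lit 4) (nat_lit 4) (nat_lit 289) (nat_lit 257) (nat_lit 114)) (XT.nd (nat_lit 546) (nat_lit 152) (nat_lit 0) (XT.lf (nat_lit 0) (nat_lit 13703266869392) (nat_lit 76) (nat_lit 4709018649151)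 (nat_lit 76) (nat_lit 3188310531288) (nat_lit 3) (nat_lit 4) (nat_lit 4) (nat_lit 5) (nat_lit 4) (nat_lit 4) (nat_lit 290) (nat_lit 257) (nat_lit 113)) (XT.lf (nat_lit 0) (nat_lit 5056989377664) (nat_lit 152) (nat_lit 46455836412448) (nat_lit 0) (nat_lit 3734634491065) (nat_lit 1) (nat_lit 5) (nat_lit 3) (nat_lit 4) (nat_lit 1) (nat_lit 4) (nat_lit 297) (nat_lit 257) (nat_lit 106))))))))
noncomputable def xc114 : XT := (XT.nd (nat_lit 32214) (nat_lit 0) (nat_lit 152) (XT.nd (nat_lit 31512) (nat_lit 0) (nat_lit 912) (XT.nd (nat_lit 312) (nat_lit 0) (nat_lit 0) (XT.nd (nat_lit 156) (nat_lit 0) (nat_lit 0) (XT.nd (nat_lit 78) (nat_lit 0) (nat_lit 0) (XT.lf (nat_lit 0) (nat_lit 7107866142689) (nat_lit 152) (nat_lit 50416106704639) (nat_lit 0) (nat_lit 5785511255973) (nat_lit 1) (nat_lit 5) (nat_lit 3) (nat_lit 4) (nat_lit 1) (nat_lit 4) (nat_lit 298) (nat_lit 257) (nat_lit 105)) (XT.lf (nat_lit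 0) (nat_lit 9466374422221) (nat_lit 152) (nat_lit 54970417541160) (nat_lit 0) (nat_lit 8144019535402) (nat_lit 1) (nat_lit 5) (nat_lit 3) (nat_lit 4) (nat_lit 1) (nat_lit 4) (nat_lit 299) (nat_lit 257) (nat_lit 104))) (XT.nd (nat_lit 78) (nat_lit 0) (nat_lit 0) (XT.lf (nat_lit 0) (nat_lit 12178658943466) (nat_lit 152) (nat_lit 60207875003594) (nat_lit 0) (nat_lit 10856304056558) (nat_lit 1) (nat_lit 5) (nat_lit 3) (nat_lit 4) (nat_lit 1) (nat_lit 4) (nat_lit 300) (nat_lit 257) (nat_lit 103)) (XT.lf (nat_lit 0) (nat_lit 15297786142710) (nat_lit 152) (nat_lit 66230951085773) (nat_lit 0) (nat_lit 13975431255725) (nat_lit 1) (nat_lit 5) (nat_lit 3) (nat_lit 4) (nat_lit 1) (nat_lit 4) (nat_lit 301) (nat_lit 257) (nat_lit 102)))) (XT.nd (nat_lit 31044) (nat_lit 0) (nat_lit 1368) (XT.nd (nat_lit 30966) (nat_lit 0) (nat_lit 1368) (XT.lf (nat_lit 0) (nat_lit 18884782421678) (nat_lit 152) (nat_lit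 73157488580609) (nat_lit 0) (nat_lit 17562427534625) (nat_lit 1) (nat_lit 5) (nat_lit 3) (nat_lit 4) (nat_lit 1) (nat_lit 4) (nat_lit 302) (nat_lit 257) (nat_lit 101)) (XT.lf (nat_lit 0) (nat_lit 37718518269) (nat_lit 380) (nat_lit 187801182212) (nat_lit 380) (nat_lit 187801182212) (nat_lit 19) (nat_lit 3) (nat_lit 24) (nat_lit 3) (nat_lit 24) (nat_lit 5) (nat_lit 258) (nat_lit 258) (nat_lit 144))) (XT.nd (nat_lit 78) (nat_lit 0) (nat_lit 76) (XT.lf (nat_lit 0) (nat_lit 81094900219) (nat_lit 380) (nat_lit 2547763757) (nat_lit 380) (nat_lit 804997220430) (nat_lit 19) (nat_lit 3) (nat_lit 24) (nat_lit 3) (nat_lit 24) (nat_lit 5) (nat_lit 259) (nat_lit 258) (nat_lit 143)) (XT.lf (nat_lit 0) (nat_lit 121940904792) (nat_lit 304) (nat_lit 503842429412) (nat_lit 380) (nat_lit 329003467961) (nat_lit 20) (nat_lit 5) (nat_lit 24) (nat_lit 5) (nat_lit 25) (nat_lit 5) (nat_lit 260) (nat_lit 258)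 (nat_lit 142))))) (XT.nd (nat_lit 312) (nat_lit 304) (nat_lit 0) (XT.nd (nat_lit 156) (nat_lit 228) (nat_lit 0) (XT.nd (nat_lit 78) (nat_lit 0) (nat_lit 76) (XT.lf (nat_lit 0) (nat_lit 173036301006) (nat_lit 304) (nat_lit 62078453775) (nat_lit 380) (nat_lit 795122629239) (nat_lit 20) (nat_lit 5) (nat_lit 24) (nat_lit 5) (nat_lit 25) (nat_lit 5) (nat_lit 261) (nat_lit 258) (nat_lit 141)) (XT.lf (nat_lit 0) (nat_lit 261899379604) (nat_lit 304) (nat_lit 634266314455) (nat_lit 76) (nat_lit 216324353218) (nat_lit 21) (nat_lit 5) (nat_lit 25) (nat_lit 5) (nat_lit 22) (nat_lit 5) (nat_lit 262) (nat_lit 258) (nat_lit 140))) (XT.nd (nat_lit 78) (nat_lit 304) (nat_lit 0) (XT.lf (nat_lit 0) (nat_lit 378687384602) (nat_lit 304) (nat_lit 111396315066) (nat_lit 76) (nat_lit 714807590721) (nat_lit 21) (nat_lit 5) (nat_lit 25) (nat_lit 5) (nat_lit 22) (nat_lit 5) (nat_lit 263) (nat_lit 258) (nat_lit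 139)) (XT.lf (nat_lit 0) (nat_lit 535366268409) (nat_lit 380) (nat_lit 770135607334) (nat_lit 76) (nat_lit 2294942567) (nat_lit 17) (nat_lit 5) (nat_lit 22) (nat_lit 5) (nat_lit 18) (nat_lit 5) (nat_lit 264) (nat_lit 258) (nat_lit 138)))) (XT.nd (nat_lit 156) (nat_lit 152) (nat_lit 0) (XT.nd (nat_lit 78) (nat_lit 152) (nat_lit 0) (XT.lf (nat_lit 0) (nat_lit 744984569910) (nat_lit 380) (nat_lit 152282548677) (nat_lit 76) (nat_lit 524455419107) (nat_lit 17) (nat_lit 5) (nat_lit 22) (nat_lit 5) (nat_lit 18) (nat_lit 5) (nat_lit 265) (nat_lit 258) (nat_lit 137)) (XT.lf (nat_lit 0) (nat_lit 612804559491) (nat_lit 152) (nat_lit 398615979925) (nat_lit 228) (nat_lit 537510337191) (nat_lit 15) (nat_lit 5) (nat_lit 17) (nat_lit 5) (nat_lit 18) (nat_lit 5) (nat_lit 266) (nat_lit 258) (nat_lit 136))) (XT.nd (nat_lit 78) (nat_lit 152) (nat_lit 0) (XT.lf (nat_lit 0) (nat_lit 1333400634715) (nat_lit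 228) (nat_lit 191875739234) (nat_lit 76) (nat_lit 167607282886) (nat_lit 15) (nat_lit 5) (nat_lit 18) (nat_lit 5) (nat_lit 16) (nat_lit 4) (nat_lit 267) (nat_lit 258) (nat_lit 135)) (XT.nd (nat_lit 78) (nat_lit 76) (nat_lit 0) (XT.lf (nat_lit 0) (nat_lit 708067795393) (nat_lit 76) (nat_lit 1043911233869) (nat_lit 152) (nat_lit 99205132121) (nat_lit 14) (nat_lit 5) (nat_lit 15) (nat_lit 5) (nat_lit 16) (nat_lit 4) (nat_lit 268) (nat_lit 258) (nat_lit 134)) (XT.lf (nat_lit 0) (nat_lit 192806345284) (nat_lit 152) (nat_lit 275922117941) (nat_lit 76) (nat_lit 1561682210275) (nat_lit 13) (nat_lit 5) (nat_lit 15) (nat_lit 5) (nat_lit 14) (nat_lit 5) (nat_lit 269) (nat_lit 258) (nat_lit 133))))))) (XT.nd (nat_lit 702) (nat_lit 304) (nat_lit 0) (XT.nd (nat_lit 312) (nat_lit 228) (nat_lit 0) (XT.nd (nat_lit 156) (nat_lit 76) (nat_lit 0) (XT.nd (nat_lit 78) (nat_lit 0) (nat_lit 0) (XT.lf (nat_lit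 0) (nat_lit 560793493022) (nat_lit 228) (nat_lit 1454021937576) (nat_lit 76) (nat_lit 214647524074) (nat_lit 11) (nat_lit 5) (nat_lit 14) (nat_lit 5) (nat_lit 12) (nat_lit 4) (nat_lit 270) (nat_lit 258) (nat_lit 132)) (XT.lf (nat_lit 0) (nat_lit 1021409132008) (nat_lit 228) (nat_lit 463698321560) (nat_lit 76) (nat_lit 967651061607) (nat_lit 11) (nat_lit 5) (nat_lit 14) (nat_lit 5) (nat_lit 12) (nat_lit 4) (nat_lit 271) (nat_lit 258) (nat_lit 131))) (XT.nd (nat_lit 78) (nat_lit 0) (nat_lit 0) (XT.lf (nat_lit 0) (nat_lit 741156727374) (nat_lit 76) (nat_lit 840650104968) (nat_lit 152) (nat_lit 1123138120098) (nat_lit 10) (nat_lit 5) (nat_lit 11) (nat_lit 5) (nat_lit 12) (nat_lit 4) (nat_lit 272) (nat_lit 258) (nat_lit 130)) (XT.lf (nat_lit 0) (nat_lit 2178853395593) (nat_lit 76) (nat_lit 71649564247) (nat_lit 152) (nat_lit 740820579652) (nat_lit 10) (nat_lit 5) (nat_lit 11) (nat_lit 5)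 (nat_lit 12) (nat_lit 4) (nat_lit 273) (nat_lit 258) (nat_lit 129)))) (XT.nd (nat_lit 156) (nat_lit 76) (nat_lit 0) (XT.nd (nat_lit 78) (nat_lit 76) (nat_lit 0) (XT.lf (nat_lit 0) (nat_lit 524596647059) (nat_lit 76) (nat_lit 2550281502176) (nat_lit 76) (nat_lit 237474568962) (nat_lit 9) (nat_lit 4) (nat_lit 10) (nat_lit 5) (nat_lit 10) (nat_lit 4) (nat_lit 274) (nat_lit 258) (nat_lit 128)) (XT.lf (nat_lit 0) (nat_lit 358886220994) (nat_lit 152) (nat_lit 1541201561954) (nat_lit 76) (nat_lit 1772142515444) (nat_lit 8) (nat_lit 5) (nat_lit 10) (nat_lit 5) (nat_lit 9) (nat_lit 4) (nat_lit 275) (nat_lit 258) (nat_lit 127))) (XT.nd (nat_lit 78) (nat_lit 76) (nat_lit 0) (XT.lf (nat_lit 0) (nat_lit 1020388254012) (nat_lit 152) (nat_lit 118972194341) (nat_lit 76) (nat_lit 2945032820785) (nat_lit 8) (nat_lit 5) (nat_lit 10) (nat_lit 5) (nat_lit 9) (nat_lit 4) (nat_lit 276) (nat_lit 258) (nat_lit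 126)) (XT.nd (nat_lit 78) (nat_lit 0) (nat_lit 0) (XT.lf (nat_lit 0) (nat_lit 1664803932307) (nat_lit 76) (nat_lit 185247637789) (nat_lit 152) (nat_lit 2697988718687) (nat_lit 7) (nat_lit 5) (nat_lit 8) (nat_lit 5) (nat_lit 9) (nat_lit 4) (nat_lit 277) (nat_lit 258) (nat_lit 125)) (XT.lf (nat_lit 0) (nat_lit 2848442758845) (nat_lit 152) (nat_lit 1388843562146) (nat_lit 0) (nat_lit 837306284103) (nat_lit 7) (nat_lit 5) (nat_lit 9) (nat_lit 4) (nat_lit 7) (nat_lit 4) (nat_lit 278) (nat_lit 258) (nat_lit 124)))))) (XT.nd (nat_lit 312) (nat_lit 152) (nat_lit 0) (XT.nd (nat_lit 156) (nat_lit 76) (nat_lit 0) (XT.nd (nat_lit 78) (nat_lit 0) (nat_lit 0) (XT.lf (nat_lit 0) (nat_lit 352246226171) (nat_lit 76) (nat_lit 3667753478751) (nat_lit 76) (nat_lit 1656617002081) (nat_lit 6) (nat_lit 4) (nat_lit 7) (nat_lit 5) (nat_lit 7) (nat_lit 4) (nat_lit 279) (nat_lit 258) (nat_lit 123)) (XT.lf (nat_lit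 0) (nat_lit 2510586556570) (nat_lit 76) (nat_lit 2929302275084) (nat_lit 76) (nat_lit 918165796737) (nat_lit 6) (nat_lit 4) (nat_lit 7) (nat_lit 5) (nat_lit 7) (nat_lit 4) (nat_lit 280) (nat_lit 258) (nat_lit 122))) (XT.nd (nat_lit 78) (nat_lit 76) (nat_lit 0) (XT.lf (nat_lit 0) (nat_lit 4992677933245) (nat_lit 76) (nat_lit 2080083392406) (nat_lit 76) (nat_lit 68946912600) (nat_lit 6) (nat_lit 4) (nat_lit 7) (nat_lit 5) (nat_lit 7) (nat_lit 4) (nat_lit 281) (nat_lit 258) (nat_lit 121)) (XT.lf (nat_lit 0) (nat_lit 826849095362) (nat_lit 152) (nat_lit 233410926045) (nat_lit 76) (nat_lit 6977012260948) (nat_lit 5) (nat_lit 5) (nat_lit 7) (nat_lit 5) (nat_lit 6) (nat_lit 4) (nat_lit 282) (nat_lit 258) (nat_lit 120)))) (XT.nd (nat_lit 156) (nat_lit 76) (nat_lit 0) (XT.nd (nat_lit 78) (nat_lit 0) (nat_lit 0) (XT.lf (nat_lit 0) (nat_lit 1948403723562) (nat_lit 152) (nat_lit 6903918129889) (nat_lit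 0) (nat_lit 199589391234) (nat_lit 4) (nat_lit 5) (nat_lit 6) (nat_lit 4) (nat_lit 4) (nat_lit 4) (nat_lit 283) (nat_lit 258) (nat_lit 119)) (XT.lf (nat_lit 0) (nat_lit 3301462143986) (nat_lit 152) (nat_lit 5355145506857) (nat_lit 0) (nat_lit 1552647810824) (nat_lit 4) (nat_lit 5) (nat_lit 6) (nat_lit 4) (nat_lit 4) (nat_lit 4) (nat_lit 284) (nat_lit 258) (nat_lit 118))) (XT.nd (nat_lit 78) (nat_lit 76) (nat_lit 0) (XT.lf (nat_lit 0) (nat_lit 4857479326295) (nat_lit 152) (nat_lit 3574056992675) (nat_lit 0) (nat_lit 3108664992407) (nat_lit 4) (nat_lit 5) (nat_lit 6) (nat_lit 4) (nat_lit 4) (nat_lit 4) (nat_lit 285) (nat_lit 258) (nat_lit 117)) (XT.nd (nat_lit 78) (nat_lit 76) (nat_lit 0) (XT.lf (nat_lit 0) (nat_lit 6646899084923) (nat_lit 152) (nat_lit 1525805203369) (nat_lit 0) (nat_lit 4898084750406) (nat_lit 4) (nat_lit 5) (nat_lit 6) (nat_lit 4) (nat_lit 4) (nat_lit 4) (nat_lit 286)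 (nat_lit 258) (nat_lit 116)) (XT.lf (nat_lit 0) (nat_lit 910767141593) (nat_lit 76) (nat_lit 7831677589979) (nat_lit 76) (nat_lit 6082863254912) (nat_lit 3) (nat_lit 4) (nat_lit 4) (nat_lit 5) (nat_lit 4) (nat_lit 4) (nat_lit 287) (nat_lit 258) (nat_lit 115))))))))
noncomputable def xc115 : XT := (XT.nd (nat_lit 32916) (nat_lit 0) (nat_lit 228) (XT.nd (nat_lit 32214) (nat_lit 0) (nat_lit 1064) (XT.nd (nat_lit 780) (nat_lit 0) (nat_lit 0) (XT.nd (nat_lit 156) (nat_lit 152) (nat_lit 0) (XT.nd (nat_lit 78) (nat_lit 0) (nat_lit 0) (XT.lf (nat_lit 0) (nat_lit 3884305035062) (nat_lit 76) (nat_lit 7347775188579) (nat_lit 76) (nat_lit 5598960853036) (nat_lit 3) (nat_lit 4) (nat_lit 4) (nat_lit 5) (nat_lit 4) (nat_lit 4) (nat_lit 288) (nat_lit 258) (nat_lit 114)) (XT.lf (nat_lit 0) (nat_lit 7303873611105) (nat_lit 76) (nat_lit 6791287427681) (nat_lit 76) (nat_lit 5042473091723) (nat_lit 3) (nat_lit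 4) (nat_lit 4) (nat_lit 5) (nat_lit 4) (nat_lit 4) (nat_lit 289) (nat_lit 258) (nat_lit 113))) (XT.nd (nat_lit 546) (nat_lit 152) (nat_lit 0) (XT.lf (nat_lit 0) (nat_lit 11236377472297) (nat_lit 76) (nat_lit 6151326503267) (nat_lit 76) (nat_lit 4402512166949) (nat_lit 3) (nat_lit 4) (nat_lit 4) (nat_lit 5) (nat_lit 4) (nat_lit 4) (nat_lit 290) (nat_lit 258) (nat_lit 112)) (XT.lf (nat_lit 0) (nat_lit 3764661022077) (nat_lit 152) (nat_lit 49463941576494) (nat_lit 0) (nat_lit 2243952902235) (nat_lit 1) (nat_lit 5) (nat_lit 3) (nat_lit 4) (nat_lit 1) (nat_lit 4) (nat_lit 297) (nat_lit 258) (nat_lit 105)))) (XT.nd (nat_lit 156) (nat_lit 0) (nat_lit 0) (XT.nd (nat_lit 78) (nat_lit 0) (nat_lit 0) (XT.lf (nat_lit 0) (nat_lit 5815537786988) (nat_lit 152) (nat_lit 53424211868918) (nat_lit 0) (nat_lit 4294829667043) (nat_lit 1) (nat_lit 5) (nat_lit 3) (nat_lit 4) (nat_lit 1) (nat_lit 4) (nat_lit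 298) (nat_lit 258) (nat_lit 104)) (XT.lf (nat_lit 0) (nat_lit 8174046066419) (nat_lit 152) (nat_lit 57978522705642) (nat_lit 0) (nat_lit 6653337946385) (nat_lit 1) (nat_lit 5) (nat_lit 3) (nat_lit 4) (nat_lit 1) (nat_lit 4) (nat_lit 299) (nat_lit 258) (nat_lit 103))) (XT.nd (nat_lit 78) (nat_lit 0) (nat_lit 0) (XT.lf (nat_lit 0) (nat_lit 10886330587576) (nat_lit 152) (nat_lit 63215980168253) (nat_lit 0) (nat_lit 9365622467466) (nat_lit 1) (nat_lit 5) (nat_lit 3) (nat_lit 4) (nat_lit 1) (nat_lit 4) (nat_lit 300) (nat_lit 258) (nat_lit 102)) (XT.nd (nat_lit 31122) (nat_lit 0) (nat_lit 1368) (XT.lf (nat_lit 0) (nat_lit 14005457786745) (nat_lit 152) (nat_lit 69239056250585) (nat_lit 0) (nat_lit 12484749666566) (nat_lit 1) (nat_lit 5) (nat_lit 3) (nat_lit 4) (nat_lit 1) (nat_lit 4) (nat_lit 301) (nat_lit 258) (nat_lit 101)) (XT.lf (nat_lit 0) (nat_lit 43376378391) (nat_lit 380) (nat_lit 215971311938)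 (nat_lit 380) (nat_lit 215971311938) (nat_lit 19) (nat_lit 3) (nat_lit 24) (nat_lit 3) (nat_lit 24) (nat_lit 5) (nat_lit 259) (nat_lit 259) (nat_lit 142)))))) (XT.nd (nat_lit 312) (nat_lit 304) (nat_lit 0) (XT.nd (nat_lit 156) (nat_lit 0) (nat_lit 76) (XT.nd (nat_lit 78) (nat_lit 0) (nat_lit 76) (XT.lf (nat_lit 0) (nat_lit 93259278524) (nat_lit 380) (nat_lit 2929845527) (nat_lit 380) (nat_lit 925746720701) (nat_lit 19) (nat_lit 3) (nat_lit 24) (nat_lit 3) (nat_lit 24) (nat_lit 5) (nat_lit 260) (nat_lit 259) (nat_lit 141)) (XT.lf (nat_lit 0) (nat_lit 140232166345) (nat_lit 304) (nat_lit 579418692876) (nat_lit 380) (nat_lit 378353943676) (nat_lit 20) (nat_lit 5) (nat_lit 24) (nat_lit 5) (nat_lit 25) (nat_lit 5) (nat_lit 261) (nat_lit 259) (nat_lit 140))) (XT.nd (nat_lit 78) (nat_lit 0) (nat_lit 76) (XT.lf (nat_lit 0) (nat_lit 198991855578) (nat_lit 304) (nat_lit 71390134060) (nat_lit 380)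 (nat_lit 914390984948) (nat_lit 20) (nat_lit 5) (nat_lit 24) (nat_lit 5) (nat_lit 25) (nat_lit 5) (nat_lit 262) (nat_lit 259) (nat_lit 139)) (XT.lf (nat_lit 0) (nat_lit 301184384550) (nat_lit 304) (nat_lit 729406161883) (nat_lit 76) (nat_lit 248772992693) (nat_lit 21) (nat_lit 5) (nat_lit 25) (nat_lit 5) (nat_lit 22) (nat_lit 5) (nat_lit 263) (nat_lit 259) (nat_lit 138)))) (XT.nd (nat_lit 156) (nat_lit 152) (nat_lit 0) (XT.nd (nat_lit 78) (nat_lit 304) (nat_lit 0) (XT.lf (nat_lit 0) (nat_lit 435490577514) (nat_lit 304) (nat_lit 128105675596) (nat_lit 76) (nat_lit 822028717583) (nat_lit 21) (nat_lit 5) (nat_lit 25) (nat_lit 5) (nat_lit 22) (nat_lit 5) (nat_lit 264) (nat_lit 259) (nat_lit 137)) (XT.lf (nat_lit 0) (nat_lit 615671286421) (nat_lit 380) (nat_lit 885655853823) (nat_lit 76) (nat_lit 2639188739) (nat_lit 17) (nat_lit 5) (nat_lit 22) (nat_lit 5) (nat_lit 18) (nat_lit 5) (nat_lit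 265) (nat_lit 259) (nat_lit 136))) (XT.nd (nat_lit 78) (nat_lit 152) (nat_lit 0) (XT.lf (nat_lit 0) (nat_lit 856732323007) (nat_lit 380) (nat_lit 175124848708) (nat_lit 76) (nat_lit 603123736136) (nat_lit 17) (nat_lit 5) (nat_lit 22) (nat_lit 5) (nat_lit 18) (nat_lit 5) (nat_lit 266) (nat_lit 259) (nat_lit 135)) (XT.nd (nat_lit 78) (nat_lit 0) (nat_lit 0) (XT.lf (nat_lit 0) (nat_lit 704725321946) (nat_lit 152) (nat_lit 458408360425) (nat_lit 228) (nat_lit 618136816111) (nat_lit 15) (nat_lit 5) (nat_lit 17) (nat_lit 5) (nat_lit 18) (nat_lit 5) (nat_lit 267) (nat_lit 259) (nat_lit 134)) (XT.lf (nat_lit 0) (nat_lit 1533410784467) (nat_lit 228) (nat_lit 220657024062) (nat_lit 76) (nat_lit 192748388380) (nat_lit 15) (nat_lit 5) (nat_lit 18) (nat_lit 5) (nat_lit 16) (nat_lit 4) (nat_lit 268) (nat_lit 259) (nat_lit 133))))))) (XT.nd (nat_lit 702) (nat_lit 304) (nat_lit 0) (XT.nd (nat_lit 312)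 (nat_lit 228) (nat_lit 0) (XT.nd (nat_lit 156) (nat_lit 152) (nat_lit 0) (XT.nd (nat_lit 78) (nat_lit 76) (nat_lit 0) (XT.lf (nat_lit 0) (nat_lit 814278037301) (nat_lit 76) (nat_lit 1200497896786) (nat_lit 152) (nat_lit 114085843703) (nat_lit 14) (nat_lit 5) (nat_lit 15) (nat_lit 5) (nat_lit 16) (nat_lit 4) (nat_lit 269) (nat_lit 259) (nat_lit 132)) (XT.lf (nat_lit 0) (nat_lit 221727343208) (nat_lit 152) (nat_lit 317310367816) (nat_lit 76) (nat_lit 1795934556404) (nat_lit 13) (nat_lit 5) (nat_lit 15) (nat_lit 5) (nat_lit 14) (nat_lit 5) (nat_lit 270) (nat_lit 259) (nat_lit 131))) (XT.nd (nat_lit 78) (nat_lit 0) (nat_lit 0) (XT.lf (nat_lit 0) (nat_lit 644912560678) (nat_lit 228) (nat_lit 1672125157815) (nat_lit 76) (nat_lit 246844672671) (nat_lit 11) (nat_lit 5) (nat_lit 14) (nat_lit 5) (nat_lit 12) (nat_lit 4) (nat_lit 271) (nat_lit 259) (nat_lit 130)) (XT.lf (nat_lit 0) (nat_lit 1174620539812)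 (nat_lit 228) (nat_lit 533253008578) (nat_lit 76) (nat_lit 1112798738226) (nat_lit 11) (nat_lit 5) (nat_lit 14) (nat_lit 5) (nat_lit 12) (nat_lit 4) (nat_lit 272) (nat_lit 259) (nat_lit 129)))) (XT.nd (nat_lit 156) (nat_lit 152) (nat_lit 0) (XT.nd (nat_lit 78) (nat_lit 0) (nat_lit 0) (XT.lf (nat_lit 0) (nat_lit 852330294914) (nat_lit 76) (nat_lit 966747597746) (nat_lit 152) (nat_lit 1291608797211) (nat_lit 10) (nat_lit 5) (nat_lit 11) (nat_lit 5) (nat_lit 12) (nat_lit 4) (nat_lit 273) (nat_lit 259) (nat_lit 128)) (XT.lf (nat_lit 0) (nat_lit 2505681455744) (nat_lit 76) (nat_lit 82396978912) (nat_lit 152) (nat_lit 851943631033) (nat_lit 10) (nat_lit 5) (nat_lit 11) (nat_lit 5) (nat_lit 12) (nat_lit 4) (nat_lit 274) (nat_lit 259) (nat_lit 127))) (XT.nd (nat_lit 78) (nat_lit 76) (nat_lit 0) (XT.lf (nat_lit 0) (nat_lit 603286196343) (nat_lit 76) (nat_lit 2932823704976) (nat_lit 76) (nat_lit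 273095720065) (nat_lit 9) (nat_lit 4) (nat_lit 10) (nat_lit 5) (nat_lit 10) (nat_lit 4) (nat_lit 275) (nat_lit 259) (nat_lit 126)) (XT.nd (nat_lit 78) (nat_lit 0) (nat_lit 0) (XT.lf (nat_lit 0) (nat_lit 412719181268) (nat_lit 152) (nat_lit 1772381748117) (nat_lit 76) (nat_lit 2037963909631) (nat_lit 8) (nat_lit 5) (nat_lit 10) (nat_lit 5) (nat_lit 9) (nat_lit 4) (nat_lit 276) (nat_lit 259) (nat_lit 125)) (XT.lf (nat_lit 0) (nat_lit 1173446515700) (nat_lit 152) (nat_lit 136817981639) (nat_lit 76) (nat_lit 3386787758573) (nat_lit 8) (nat_lit 5) (nat_lit 10) (nat_lit 5) (nat_lit 9) (nat_lit 4) (nat_lit 277) (nat_lit 259) (nat_lit 124)))))) (XT.nd (nat_lit 312) (nat_lit 152) (nat_lit 0) (XT.nd (nat_lit 156) (nat_lit 76) (nat_lit 0) (XT.nd (nat_lit 78) (nat_lit 0) (nat_lit 0) (XT.lf (nat_lit 0) (nat_lit 1914524562103) (nat_lit 76) (nat_lit 213034765672) (nat_lit 152) (nat_lit 3102687000951)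 (nat_lit 7) (nat_lit 5) (nat_lit 8) (nat_lit 5) (nat_lit 9) (nat_lit 4) (nat_lit 278) (nat_lit 259) (nat_lit 123)) (XT.lf (nat_lit 0) (nat_lit 3275709192585) (nat_lit 152) (nat_lit 1597170059434) (nat_lit 0) (nat_lit 962902240808) (nat_lit 7) (nat_lit 5) (nat_lit 9) (nat_lit 4) (nat_lit 7) (nat_lit 4) (nat_lit 279) (nat_lit 259) (nat_lit 122))) (XT.nd (nat_lit 78) (nat_lit 0) (nat_lit 0) (XT.lf (nat_lit 0) (nat_lit 405083195447) (nat_lit 76) (nat_lit 4217916483993) (nat_lit 76) (nat_lit 1905109530758) (nat_lit 6) (nat_lit 4) (nat_lit 7) (nat_lit 5) (nat_lit 7) (nat_lit 4) (nat_lit 280) (nat_lit 259) (nat_lit 121)) (XT.lf (nat_lit 0) (nat_lit 2887174570795) (nat_lit 76) (nat_lit 3368697601938) (nat_lit 76) (nat_lit 1055890647434) (nat_lit 6) (nat_lit 4) (nat_lit 7) (nat_lit 5) (nat_lit 7) (nat_lit 4) (nat_lit 281) (nat_lit 259) (nat_lit 120)))) (XT.nd (nat_lit 156) (nat_lit 76) (nat_lit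 0) (XT.nd (nat_lit 78) (nat_lit 76) (nat_lit 0) (XT.lf (nat_lit 0) (nat_lit 5741579649962) (nat_lit 76) (nat_lit 2392095888738) (nat_lit 76) (nat_lit 79288933131) (nat_lit 6) (nat_lit 4) (nat_lit 7) (nat_lit 5) (nat_lit 7) (nat_lit 4) (nat_lit 282) (nat_lit 259) (nat_lit 119)) (XT.lf (nat_lit 0) (nat_lit 950876472625) (nat_lit 152) (nat_lit 268422540420) (nat_lit 76) (nat_lit 8023564109697) (nat_lit 5) (nat_lit 5) (nat_lit 7) (nat_lit 5) (nat_lit 6) (nat_lit 4) (nat_lit 283) (nat_lit 259) (nat_lit 118))) (XT.nd (nat_lit 78) (nat_lit 0) (nat_lit 0) (XT.lf (nat_lit 0) (nat_lit 2240664294798) (nat_lit 152) (nat_lit 7939505824564) (nat_lit 0) (nat_lit 229527810102) (nat_lit 4) (nat_lit 5) (nat_lit 6) (nat_lit 4) (nat_lit 4) (nat_lit 4) (nat_lit 284) (nat_lit 259) (nat_lit 117)) (XT.nd (nat_lit 78) (nat_lit 0) (nat_lit 0) (XT.lf (nat_lit 0) (nat_lit 3796681476629) (nat_lit 152) (nat_lit 6158417311313)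 (nat_lit 0) (nat_lit 1785544991303) (nat_lit 4) (nat_lit 5) (nat_lit 6) (nat_lit 4) (nat_lit 4) (nat_lit 4) (nat_lit 285) (nat_lit 259) (nat_lit 116)) (XT.lf (nat_lit 0) (nat_lit 5586101234843) (nat_lit 152) (nat_lit 4110165522818) (nat_lit 0) (nat_lit 3574964748968) (nat_lit 4) (nat_lit 5) (nat_lit 6) (nat_lit 4) (nat_lit 4) (nat_lit 4) (nat_lit 286) (nat_lit 259) (nat_lit 115))))))))
noncomputable def xc116 : XT := (XT.nd (nat_lit 33072) (nat_lit 0) (nat_lit 228) (XT.nd (nat_lit 32370) (nat_lit 0) (nat_lit 1064) (XT.nd (nat_lit 858) (nat_lit 0) (nat_lit 0) (XT.nd (nat_lit 156) (nat_lit 152) (nat_lit 0) (XT.nd (nat_lit 78) (nat_lit 76) (nat_lit 0) (XT.lf (nat_lit 0) (nat_lit 7643933956013) (nat_lit 152) (nat_lit 1754675967562) (nat_lit 0) (nat_lit 5632797469662) (nat_lit 4) (nat_lit 5) (nat_lit 6) (nat_lit 4) (nat_lit 4) (nat_lit 4) (nat_lit 287) (nat_lit 259) (nat_lit 114)) (XT.lf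 (nat_lit 0) (nat_lit 1047382228403) (nat_lit 76) (nat_lit 9006429220812) (nat_lit 76) (nat_lit 6995292734046) (nat_lit 3) (nat_lit 4) (nat_lit 4) (nat_lit 5) (nat_lit 4) (nat_lit 4) (nat_lit 288) (nat_lit 259) (nat_lit 113))) (XT.nd (nat_lit 624) (nat_lit 152) (nat_lit 0) (XT.lf (nat_lit 0) (nat_lit 4466950803861) (nat_lit 76) (nat_lit 8449941460201) (nat_lit 76) (nat_lit 6438804973075) (nat_lit 3) (nat_lit 4) (nat_lit 4) (nat_lit 5) (nat_lit 4) (nat_lit 4) (nat_lit 289) (nat_lit 259) (nat_lit 112)) (XT.lf (nat_lit 0) (nat_lit 2278483412905) (nat_lit 152) (nat_lit 52923262515648) (nat_lit 0) (nat_lit 529669074866) (nat_lit 1) (nat_lit 5) (nat_lit 3) (nat_lit 4) (nat_lit 1) (nat_lit 4) (nat_lit 297) (nat_lit 259) (nat_lit 104)))) (XT.nd (nat_lit 156) (nat_lit 0) (nat_lit 0) (XT.nd (nat_lit 78) (nat_lit 0) (nat_lit 0) (XT.lf (nat_lit 0) (nat_lit 4329360177715) (nat_lit 152) (nat_lit 56883532808275)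 (nat_lit 0) (nat_lit 2580545839587) (nat_lit 1) (nat_lit 5) (nat_lit 3) (nat_lit 4) (nat_lit 1) (nat_lit 4) (nat_lit 298) (nat_lit 259) (nat_lit 103)) (XT.lf (nat_lit 0) (nat_lit 6687868457058) (nat_lit 152) (nat_lit 61437843645175) (nat_lit 0) (nat_lit 4939054118853) (nat_lit 1) (nat_lit 5) (nat_lit 3) (nat_lit 4) (nat_lit 1) (nat_lit 4) (nat_lit 299) (nat_lit 259) (nat_lit 102))) (XT.nd (nat_lit 31278) (nat_lit 0) (nat_lit 1368) (XT.lf (nat_lit 0) (nat_lit 9400152978140) (nat_lit 152) (nat_lit 66675301107939) (nat_lit 0) (nat_lit 7651338639868) (nat_lit 1) (nat_lit 5) (nat_lit 3) (nat_lit 4) (nat_lit 1) (nat_lit 4) (nat_lit 300) (nat_lit 259) (nat_lit 101)) (XT.lf (nat_lit 0) (nat_lit 49882897442) (nat_lit 380) (nat_lit 248366972731) (nat_lit 380) (nat_lit 248366972731) (nat_lit 19) (nat_lit 3) (nat_lit 24) (nat_lit 3) (nat_lit 24) (nat_lit 5) (nat_lit 260) (nat_lit 260) (nat_lit 140)))))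 (XT.nd (nat_lit 312) (nat_lit 304) (nat_lit 0) (XT.nd (nat_lit 156) (nat_lit 0) (nat_lit 76) (XT.nd (nat_lit 78) (nat_lit 0) (nat_lit 76) (XT.lf (nat_lit 0) (nat_lit 107248278636) (nat_lit 380) (nat_lit 3369259752) (nat_lit 380) (nat_lit 1064608666202) (nat_lit 19) (nat_lit 3) (nat_lit 24) (nat_lit 3) (nat_lit 24) (nat_lit 5) (nat_lit 261) (nat_lit 260) (nat_lit 139)) (XT.lf (nat_lit 0) (nat_lit 161267086446) (nat_lit 304) (nat_lit 666331420476) (nat_lit 380) (nat_lit 435107001594) (nat_lit 20) (nat_lit 5) (nat_lit 24) (nat_lit 5) (nat_lit 25) (nat_lit 5) (nat_lit 262) (nat_lit 260) (nat_lit 138))) (XT.nd (nat_lit 78) (nat_lit 0) (nat_lit 76) (XT.lf (nat_lit 0) (nat_lit 228840716654) (nat_lit 304) (nat_lit 82098587794) (nat_lit 380) (nat_lit 1051549603444) (nat_lit 20) (nat_lit 5) (nat_lit 24) (nat_lit 5) (nat_lit 25) (nat_lit 5) (nat_lit 263) (nat_lit 260) (nat_lit 137)) (XT.lf (nat_lit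 0) (nat_lit 346362116338) (nat_lit 304) (nat_lit 838817010747) (nat_lit 76) (nat_lit 286088931383) (nat_lit 21) (nat_lit 5) (nat_lit 25) (nat_lit 5) (nat_lit 22) (nat_lit 5) (nat_lit 264) (nat_lit 260) (nat_lit 136)))) (XT.nd (nat_lit 156) (nat_lit 152) (nat_lit 0) (XT.nd (nat_lit 78) (nat_lit 304) (nat_lit 0) (XT.lf (nat_lit 0) (nat_lit 500814228581) (nat_lit 304) (nat_lit 147321461354) (nat_lit 76) (nat_lit 945333016339) (nat_lit 21) (nat_lit 5) (nat_lit 25) (nat_lit 5) (nat_lit 22) (nat_lit 5) (nat_lit 265) (nat_lit 260) (nat_lit 135)) (XT.lf (nat_lit 0) (nat_lit 708022038176) (nat_lit 380) (nat_lit 1018504160357) (nat_lit 76) (nat_lit 3035070670) (nat_lit 17) (nat_lit 5) (nat_lit 22) (nat_lit 5) (nat_lit 18) (nat_lit 5) (nat_lit 266) (nat_lit 260) (nat_lit 134))) (XT.nd (nat_lit 78) (nat_lit 152) (nat_lit 0) (XT.lf (nat_lit 0) (nat_lit 985242222581) (nat_lit 380) (nat_lit 201393513805)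 (nat_lit 76) (nat_lit 693592299704) (nat_lit 17) (nat_lit 5) (nat_lit 22) (nat_lit 5) (nat_lit 18) (nat_lit 5) (nat_lit 267) (nat_lit 260) (nat_lit 133)) (XT.nd (nat_lit 78) (nat_lit 0) (nat_lit 0) (XT.lf (nat_lit 0) (nat_lit 810434179619) (nat_lit 152) (nat_lit 527169602022) (nat_lit 228) (nat_lit 710857284342) (nat_lit 15) (nat_lit 5) (nat_lit 17) (nat_lit 5) (nat_lit 18) (nat_lit 5) (nat_lit 268) (nat_lit 260) (nat_lit 132)) (XT.lf (nat_lit 0) (nat_lit 1763422443380) (nat_lit 228) (nat_lit 253755520162) (nat_lit 76) (nat_lit 221660656513) (nat_lit 15) (nat_lit 5) (nat_lit 18) (nat_lit 5) (nat_lit 16) (nat_lit 4) (nat_lit 269) (nat_lit 260) (nat_lit 131))))))) (XT.nd (nat_lit 702) (nat_lit 304) (nat_lit 0) (XT.nd (nat_lit 312) (nat_lit 228) (nat_lit 0) (XT.nd (nat_lit 156) (nat_lit 152) (nat_lit 0) (XT.nd (nat_lit 78) (nat_lit 76) (nat_lit 0) (XT.lf (nat_lit 0) (nat_lit 936419797792)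 (nat_lit 76) (nat_lit 1380572564545) (nat_lit 152) (nat_lit 131198676224) (nat_lit 14) (nat_lit 5) (nat_lit 15) (nat_lit 5) (nat_lit 16) (nat_lit 4) (nat_lit 270) (nat_lit 260) (nat_lit 130)) (XT.lf (nat_lit 0) (nat_lit 254986479571) (nat_lit 152) (nat_lit 364906871711) (nat_lit 76) (nat_lit 2065324750894) (nat_lit 13) (nat_lit 5) (nat_lit 15) (nat_lit 5) (nat_lit 14) (nat_lit 5) (nat_lit 271) (nat_lit 260) (nat_lit 129))) (XT.nd (nat_lit 78) (nat_lit 0) (nat_lit 0) (XT.lf (nat_lit 0) (nat_lit 741649477826) (nat_lit 228) (nat_lit 1922943878256) (nat_lit 76) (nat_lit 283871388683) (nat_lit 11) (nat_lit 5) (nat_lit 14) (nat_lit 5) (nat_lit 12) (nat_lit 4) (nat_lit 272) (nat_lit 260) (nat_lit 128)) (XT.lf (nat_lit 0) (nat_lit 1350813649520) (nat_lit 228) (nat_lit 613240913577) (nat_lit 76) (nat_lit 1279718562101) (nat_lit 11) (nat_lit 5) (nat_lit 14) (nat_lit 5) (nat_lit 12) (nat_lit 4)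 (nat_lit 273) (nat_lit 260) (nat_lit 127)))) (XT.nd (nat_lit 156) (nat_lit 152) (nat_lit 0) (XT.nd (nat_lit 78) (nat_lit 0) (nat_lit 0) (XT.lf (nat_lit 0) (nat_lit 980179883335) (nat_lit 76) (nat_lit 1111759720041) (nat_lit 152) (nat_lit 1485350085865) (nat_lit 10) (nat_lit 5) (nat_lit 11) (nat_lit 5) (nat_lit 12) (nat_lit 4) (nat_lit 274) (nat_lit 260) (nat_lit 126)) (XT.lf (nat_lit 0) (nat_lit 2881533712526) (nat_lit 76) (nat_lit 94756510647) (nat_lit 152) (nat_lit 979735148795) (nat_lit 10) (nat_lit 5) (nat_lit 11) (nat_lit 5) (nat_lit 12) (nat_lit 4) (nat_lit 275) (nat_lit 260) (nat_lit 125))) (XT.nd (nat_lit 78) (nat_lit 76) (nat_lit 0) (XT.lf (nat_lit 0) (nat_lit 693779165284) (nat_lit 76) (nat_lit 3372747243690) (nat_lit 76) (nat_lit 314060052183) (nat_lit 9) (nat_lit 4) (nat_lit 10) (nat_lit 5) (nat_lit 10) (nat_lit 4) (nat_lit 276) (nat_lit 260) (nat_lit 124)) (XT.nd (nat_lit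 78) (nat_lit 0) (nat_lit 0) (XT.lf (nat_lit 0) (nat_lit 474627078968) (nat_lit 152) (nat_lit 2038238973941) (nat_lit 76) (nat_lit 2343658508832) (nat_lit 8) (nat_lit 5) (nat_lit 10) (nat_lit 5) (nat_lit 9) (nat_lit 4) (nat_lit 277) (nat_lit 260) (nat_lit 123)) (XT.lf (nat_lit 0) (nat_lit 1349463510890) (nat_lit 152) (nat_lit 157340647239) (nat_lit 76) (nat_lit 3894805933452) (nat_lit 8) (nat_lit 5) (nat_lit 10) (nat_lit 5) (nat_lit 9) (nat_lit 4) (nat_lit 278) (nat_lit 260) (nat_lit 122)))))) (XT.nd (nat_lit 312) (nat_lit 152) (nat_lit 0) (XT.nd (nat_lit 156) (nat_lit 76) (nat_lit 0) (XT.nd (nat_lit 78) (nat_lit 0) (nat_lit 0) (XT.lf (nat_lit 0) (nat_lit 2201703276626) (nat_lit 76) (nat_lit 244989967074) (nat_lit 152) (nat_lit 3568090031783) (nat_lit 7) (nat_lit 5) (nat_lit 8) (nat_lit 5) (nat_lit 9) (nat_lit 4) (nat_lit 279) (nat_lit 260) (nat_lit 121)) (XT.lf (nat_lit 0) (nat_lit 3767065586531)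 (nat_lit 152) (nat_lit 1836745540346) (nat_lit 0) (nat_lit 1107337587583) (nat_lit 7) (nat_lit 5) (nat_lit 9) (nat_lit 4) (nat_lit 7) (nat_lit 4) (nat_lit 280) (nat_lit 260) (nat_lit 120))) (XT.nd (nat_lit 78) (nat_lit 0) (nat_lit 0) (XT.lf (nat_lit 0) (nat_lit 465845701494) (nat_lit 76) (nat_lit 4850603944063) (nat_lit 76) (nat_lit 2190875944012) (nat_lit 6) (nat_lit 4) (nat_lit 7) (nat_lit 5) (nat_lit 7) (nat_lit 4) (nat_lit 281) (nat_lit 260) (nat_lit 119)) (XT.lf (nat_lit 0) (nat_lit 3320250779657) (nat_lit 76) (nat_lit 3874002231333) (nat_lit 76) (nat_lit 1214274230324) (nat_lit 6) (nat_lit 4) (nat_lit 7) (nat_lit 5) (nat_lit 7) (nat_lit 4) (nat_lit 282) (nat_lit 260) (nat_lit 118)))) (XT.nd (nat_lit 156) (nat_lit 76) (nat_lit 0) (XT.nd (nat_lit 78) (nat_lit 76) (nat_lit 0) (XT.lf (nat_lit 0) (nat_lit 6602816617668) (nat_lit 76) (nat_lit 2750910262574) (nat_lit 76) (nat_lit 91182260731)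 (nat_lit 6) (nat_lit 4) (nat_lit 7) (nat_lit 5) (nat_lit 7) (nat_lit 4) (nat_lit 283) (nat_lit 260) (nat_lit 117)) (XT.lf (nat_lit 0) (nat_lit 1093507953318) (nat_lit 152) (nat_lit 308685902934) (nat_lit 76) (nat_lit 9227098733416) (nat_lit 5) (nat_lit 5) (nat_lit 7) (nat_lit 5) (nat_lit 6) (nat_lit 4) (nat_lit 284) (nat_lit 260) (nat_lit 116))) (XT.nd (nat_lit 78) (nat_lit 0) (nat_lit 0) (XT.lf (nat_lit 0) (nat_lit 2576763948621) (nat_lit 152) (nat_lit 9130431679490) (nat_lit 0) (nat_lit 263956989318) (nat_lit 4) (nat_lit 5) (nat_lit 6) (nat_lit 4) (nat_lit 4) (nat_lit 4) (nat_lit 285) (nat_lit 260) (nat_lit 115)) (XT.nd (nat_lit 78) (nat_lit 0) (nat_lit 0) (XT.lf (nat_lit 0) (nat_lit 4366183706475) (nat_lit 152) (nat_lit 7082179891699) (nat_lit 0) (nat_lit 2053376746694) (nat_lit 4) (nat_lit 5) (nat_lit 6) (nat_lit 4) (nat_lit 4) (nat_lit 4) (nat_lit 286) (nat_lit 260) (nat_lit 114))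 (XT.lf (nat_lit 0) (nat_lit 6424016427331) (nat_lit 152) (nat_lit 4726690337056) (nat_lit 0) (nat_lit 4111209467136) (nat_lit 4) (nat_lit 5) (nat_lit 6) (nat_lit 4) (nat_lit 4) (nat_lit 4) (nat_lit 287) (nat_lit 260) (nat_lit 113))))))))
noncomputable def xc117 : XT := (XT.nd (nat_lit 33384) (nat_lit 0) (nat_lit 152) (XT.nd (nat_lit 32682) (nat_lit 0) (nat_lit 760) (XT.nd (nat_lit 32292) (nat_lit 0) (nat_lit 1368) (XT.nd (nat_lit 780) (nat_lit 152) (nat_lit 0) (XT.nd (nat_lit 78) (nat_lit 76) (nat_lit 0) (XT.lf (nat_lit 0) (nat_lit 8790524055730) (nat_lit 152) (nat_lit 2017877350362) (nat_lit 0) (nat_lit 6477717095174) (nat_lit 4) (nat_lit 5) (nat_lit 6) (nat_lit 4) (nat_lit 4) (nat_lit 4) (nat_lit 288) (nat_lit 260) (nat_lit 112)) (XT.lf (nat_lit 0) (nat_lit 1204489574437) (nat_lit 76) (nat_lit 10357393598138) (nat_lit 76) (nat_lit 8044586637269) (nat_lit 3) (nat_lit 4) (nat_lit 4)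 (nat_lit 5) (nat_lit 4) (nat_lit 4) (nat_lit 289) (nat_lit 260) (nat_lit 111))) (XT.nd (nat_lit 78) (nat_lit 0) (nat_lit 0) (XT.lf (nat_lit 0) (nat_lit 2620255926863) (nat_lit 152) (nat_lit 60861751888915) (nat_lit 0) (nat_lit 609119437850) (nat_lit 1) (nat_lit 5) (nat_lit 3) (nat_lit 4) (nat_lit 1) (nat_lit 4) (nat_lit 298) (nat_lit 260) (nat_lit 102)) (XT.lf (nat_lit 0) (nat_lit 4978764206131) (nat_lit 152) (nat_lit 65416062725968) (nat_lit 0) (nat_lit 2967627717050) (nat_lit 1) (nat_lit 5) (nat_lit 3) (nat_lit 4) (nat_lit 1) (nat_lit 4) (nat_lit 299) (nat_lit 260) (nat_lit 101)))) (XT.nd (nat_lit 156) (nat_lit 0) (nat_lit 76) (XT.nd (nat_lit 78) (nat_lit 0) (nat_lit 0) (XT.lf (nat_lit 0) (nat_lit 57365379160) (nat_lit 380) (nat_lit 285621991422) (nat_lit 380) (nat_lit 285621991422) (nat_lit 19) (nat_lit 3) (nat_lit 24) (nat_lit 3) (nat_lit 24) (nat_lit 5) (nat_lit 261) (nat_lit 261)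 (nat_lit 138)) (XT.lf (nat_lit 0) (nat_lit 123335602348) (nat_lit 380) (nat_lit 3874601378) (nat_lit 380) (nat_lit 1224299918795) (nat_lit 19) (nat_lit 3) (nat_lit 24) (nat_lit 3) (nat_lit 24) (nat_lit 5) (nat_lit 262) (nat_lit 261) (nat_lit 137))) (XT.nd (nat_lit 78) (nat_lit 0) (nat_lit 0) (XT.lf (nat_lit 0) (nat_lit 185457221360) (nat_lit 304) (nat_lit 766281075830) (nat_lit 380) (nat_lit 500373026402) (nat_lit 20) (nat_lit 5) (nat_lit 24) (nat_lit 5) (nat_lit 25) (nat_lit 5) (nat_lit 263) (nat_lit 261) (nat_lit 136)) (XT.nd (nat_lit 78) (nat_lit 0) (nat_lit 76) (XT.lf (nat_lit 0) (nat_lit 263166886714) (nat_lit 304) (nat_lit 94413325774) (nat_lit 380) (nat_lit 1209282021847) (nat_lit 20) (nat_lit 5) (nat_lit 24) (nat_lit 5) (nat_lit 25) (nat_lit 5) (nat_lit 264) (nat_lit 261) (nat_lit 135)) (XT.lf (nat_lit 0) (nat_lit 398316489823) (nat_lit 304) (nat_lit 964639505333) (nat_lit 76)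 (nat_lit 329002263368) (nat_lit 21) (nat_lit 5) (nat_lit 25) (nat_lit 5) (nat_lit 22) (nat_lit 5) (nat_lit 265) (nat_lit 261) (nat_lit 134)))))) (XT.nd (nat_lit 312) (nat_lit 304) (nat_lit 0) (XT.nd (nat_lit 156) (nat_lit 152) (nat_lit 0) (XT.nd (nat_lit 78) (nat_lit 304) (nat_lit 0) (XT.lf (nat_lit 0) (nat_lit 575936411594) (nat_lit 304) (nat_lit 169419630969) (nat_lit 76) (nat_lit 1087132962075) (nat_lit 21) (nat_lit 5) (nat_lit 25) (nat_lit 5) (nat_lit 22) (nat_lit 5) (nat_lit 266) (nat_lit 261) (nat_lit 133)) (XT.lf (nat_lit 0) (nat_lit 814225388357) (nat_lit 380) (nat_lit 1171279730316) (nat_lit 76) (nat_lit 3490334007) (nat_lit 17) (nat_lit 5) (nat_lit 22) (nat_lit 5) (nat_lit 18) (nat_lit 5) (nat_lit 267) (nat_lit 261) (nat_lit 132))) (XT.nd (nat_lit 78) (nat_lit 152) (nat_lit 0) (XT.lf (nat_lit 0) (nat_lit 1133028594624) (nat_lit 380) (nat_lit 231602493838) (nat_lit 76) (nat_lit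 797631147039) (nat_lit 17) (nat_lit 5) (nat_lit 22) (nat_lit 5) (nat_lit 18) (nat_lit 5) (nat_lit 268) (nat_lit 261) (nat_lit 131)) (XT.lf (nat_lit 0) (nat_lit 931999351462) (nat_lit 152) (nat_lit 606245032898) (nat_lit 228) (nat_lit 817485836022) (nat_lit 15) (nat_lit 5) (nat_lit 17) (nat_lit 5) (nat_lit 18) (nat_lit 5) (nat_lit 269) (nat_lit 261) (nat_lit 130)))) (XT.nd (nat_lit 156) (nat_lit 228) (nat_lit 0) (XT.nd (nat_lit 78) (nat_lit 76) (nat_lit 0) (XT.lf (nat_lit 0) (nat_lit 2027935841073) (nat_lit 228) (nat_lit 291818804701) (nat_lit 76) (nat_lit 254909762458) (nat_lit 15) (nat_lit 5) (nat_lit 18) (nat_lit 5) (nat_lit 16) (nat_lit 4) (nat_lit 270) (nat_lit 261) (nat_lit 129)) (XT.lf (nat_lit 0) (nat_lit 1076882808970) (nat_lit 76) (nat_lit 1587658436555) (nat_lit 152) (nat_lit 150878444361) (nat_lit 14) (nat_lit 5) (nat_lit 15) (nat_lit 5) (nat_lit 16) (nat_lit 4) (nat_lit 271)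 (nat_lit 261) (nat_lit 128))) (XT.nd (nat_lit 78) (nat_lit 152) (nat_lit 0) (XT.lf (nat_lit 0) (nat_lit 293234477883) (nat_lit 152) (nat_lit 419642863693) (nat_lit 76) (nat_lit 2375123471869) (nat_lit 13) (nat_lit 5) (nat_lit 15) (nat_lit 5) (nat_lit 14) (nat_lit 5) (nat_lit 272) (nat_lit 261) (nat_lit 127)) (XT.nd (nat_lit 78) (nat_lit 0) (nat_lit 0) (XT.lf (nat_lit 0) (nat_lit 852896924488) (nat_lit 228) (nat_lit 2211385419744) (nat_lit 76) (nat_lit 326452108412) (nat_lit 11) (nat_lit 5) (nat_lit 14) (nat_lit 5) (nat_lit 12) (nat_lit 4) (nat_lit 273) (nat_lit 261) (nat_lit 126)) (XT.lf (nat_lit 0) (nat_lit 1553435718676) (nat_lit 228) (nat_lit 705227015613) (nat_lit 76) (nat_lit 1471676356352) (nat_lit 11) (nat_lit 5) (nat_lit 14) (nat_lit 5) (nat_lit 12) (nat_lit 4) (nat_lit 274) (nat_lit 261) (nat_lit 125))))))) (XT.nd (nat_lit 702) (nat_lit 228) (nat_lit 0) (XT.nd (nat_lit 312)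 (nat_lit 152) (nat_lit 0) (XT.nd (nat_lit 156) (nat_lit 152) (nat_lit 0) (XT.nd (nat_lit 78) (nat_lit 0) (nat_lit 0) (XT.lf (nat_lit 0) (nat_lit 1127206899245) (nat_lit 76) (nat_lit 1278523664916) (nat_lit 152) (nat_lit 1708152575359) (nat_lit 10) (nat_lit 5) (nat_lit 11) (nat_lit 5) (nat_lit 12) (nat_lit 4) (nat_lit 275) (nat_lit 261) (nat_lit 124)) (XT.lf (nat_lit 0) (nat_lit 3313763798457) (nat_lit 76) (nat_lit 108969975826) (nat_lit 152) (nat_lit 1126695400779) (nat_lit 10) (nat_lit 5) (nat_lit 11) (nat_lit 5) (nat_lit 12) (nat_lit 4) (nat_lit 276) (nat_lit 261) (nat_lit 123))) (XT.nd (nat_lit 78) (nat_lit 76) (nat_lit 0) (XT.lf (nat_lit 0) (nat_lit 797846069937) (nat_lit 76) (nat_lit 3878659317364) (nat_lit 76) (nat_lit 361169040433) (nat_lit 9) (nat_lit 4) (nat_lit 10) (nat_lit 5) (nat_lit 10) (nat_lit 4) (nat_lit 277) (nat_lit 261) (nat_lit 122)) (XT.lf (nat_lit 0) (nat_lit 545821156322)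 (nat_lit 152) (nat_lit 2343974792514) (nat_lit 76) (nat_lit 2695207294803) (nat_lit 8) (nat_lit 5) (nat_lit 10) (nat_lit 5) (nat_lit 9) (nat_lit 4) (nat_lit 278) (nat_lit 261) (nat_lit 121)))) (XT.nd (nat_lit 156) (nat_lit 76) (nat_lit 0) (XT.nd (nat_lit 78) (nat_lit 76) (nat_lit 0) (XT.lf (nat_lit 0) (nat_lit 1551883051009) (nat_lit 152) (nat_lit 180941720395) (nat_lit 76) (nat_lit 4479026831857) (nat_lit 8) (nat_lit 5) (nat_lit 10) (nat_lit 5) (nat_lit 9) (nat_lit 4) (nat_lit 279) (nat_lit 261) (nat_lit 120)) (XT.lf (nat_lit 0) (nat_lit 2531958790962) (nat_lit 76) (nat_lit 281738451966) (nat_lit 152) (nat_lit 4103303521948) (nat_lit 7) (nat_lit 5) (nat_lit 8) (nat_lit 5) (nat_lit 9) (nat_lit 4) (nat_lit 280) (nat_lit 261) (nat_lit 119))) (XT.nd (nat_lit 78) (nat_lit 76) (nat_lit 0) (XT.lf (nat_lit 0) (nat_lit 4332125435896) (nat_lit 152) (nat_lit 2112257350224) (nat_lit 0) (nat_lit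 1273438233776) (nat_lit 7) (nat_lit 5) (nat_lit 9) (nat_lit 4) (nat_lit 7) (nat_lit 4) (nat_lit 281) (nat_lit 261) (nat_lit 118)) (XT.nd (nat_lit 78) (nat_lit 0) (nat_lit 0) (XT.lf (nat_lit 0) (nat_lit 535722576930) (nat_lit 76) (nat_lit 5578194526198) (nat_lit 76) (nat_lit 2519507323244) (nat_lit 6) (nat_lit 4) (nat_lit 7) (nat_lit 5) (nat_lit 7) (nat_lit 4) (nat_lit 282) (nat_lit 261) (nat_lit 117)) (XT.lf (nat_lit 0) (nat_lit 3818288414182) (nat_lit 76) (nat_lit 4455102557795) (nat_lit 76) (nat_lit 1396415354116) (nat_lit 6) (nat_lit 4) (nat_lit 7) (nat_lit 5) (nat_lit 7) (nat_lit 4) (nat_lit 283) (nat_lit 261) (nat_lit 116)))))) (XT.nd (nat_lit 312) (nat_lit 76) (nat_lit 0) (XT.nd (nat_lit 156) (nat_lit 76) (nat_lit 0) (XT.nd (nat_lit 78) (nat_lit 76) (nat_lit 0) (XT.lf (nat_lit 0) (nat_lit 7593239125602) (nat_lit 76) (nat_lit 3163546794797) (nat_lit 76) (nat_lit 104859590487) (nat_lit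 6) (nat_lit 4) (nat_lit 7) (nat_lit 5) (nat_lit 7) (nat_lit 4) (nat_lit 284) (nat_lit 261) (nat_lit 115)) (XT.lf (nat_lit 0) (nat_lit 1257534153725) (nat_lit 152) (nat_lit 354988774348) (nat_lit 76) (nat_lit 10611163548921) (nat_lit 5) (nat_lit 5) (nat_lit 7) (nat_lit 5) (nat_lit 6) (nat_lit 4) (nat_lit 285) (nat_lit 261) (nat_lit 114))) (XT.nd (nat_lit 78) (nat_lit 0) (nat_lit 0) (XT.lf (nat_lit 0) (nat_lit 2963278548177) (nat_lit 152) (nat_lit 10499996417229) (nat_lit 0) (nat_lit 303550543537) (nat_lit 4) (nat_lit 5) (nat_lit 6) (nat_lit 4) (nat_lit 4) (nat_lit 4) (nat_lit 286) (nat_lit 261) (nat_lit 113)) (XT.lf (nat_lit 0) (nat_lit 5021111268761) (nat_lit 152) (nat_lit 8144506863119) (nat_lit 0) (nat_lit 2361383263761) (nat_lit 4) (nat_lit 5) (nat_lit 6) (nat_lit 4) (nat_lit 4) (nat_lit 4) (nat_lit 287) (nat_lit 261) (nat_lit 112)))) (XT.nd (nat_lit 156) (nat_lit 76) (nat_lit 0)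 (XT.nd (nat_lit 78) (nat_lit 0) (nat_lit 0) (XT.lf (nat_lit 0) (nat_lit 7387618896922) (nat_lit 152) (nat_lit 5435693876889) (nat_lit 0) (nat_lit 4727890891609) (nat_lit 4) (nat_lit 5) (nat_lit 6) (nat_lit 4) (nat_lit 4) (nat_lit 4) (nat_lit 288) (nat_lit 261) (nat_lit 111)) (XT.lf (nat_lit 0) (nat_lit 10109102668864) (nat_lit 152) (nat_lit 2320558943591) (nat_lit 0) (nat_lit 7449374663279) (nat_lit 4) (nat_lit 5) (nat_lit 6) (nat_lit 4) (nat_lit 4) (nat_lit 4) (nat_lit 289) (nat_lit 261) (nat_lit 110))) (XT.nd (nat_lit 32214) (nat_lit 0) (nat_lit 1216) (XT.lf (nat_lit 0) (nat_lit 1385163019505) (nat_lit 76) (nat_lit 11911002633478) (nat_lit 76) (nat_lit 9251274627655) (nat_lit 3) (nat_lit 4) (nat_lit 4) (nat_lit 5) (nat_lit 4) (nat_lit 4) (nat_lit 290) (nat_lit 261) (nat_lit 109)) (XT.nd (nat_lit 78) (nat_lit 0) (nat_lit 0) (XT.lf (nat_lit 0) (nat_lit 65970221649) (nat_lit 380) (nat_lit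 328465269553) (nat_lit 380) (nat_lit 328465269553) (nat_lit 19) (nat_lit 3) (nat_lit 24) (nat_lit 3) (nat_lit 24) (nat_lit 5) (nat_lit 262) (nat_lit 262) (nat_lit 136)) (XT.lf (nat_lit 0) (nat_lit 141836004641) (nat_lit 380) (nat_lit 4455755790) (nat_lit 380) (nat_lit 1407944870820) (nat_lit 19) (nat_lit 3) (nat_lit 24) (nat_lit 3) (nat_lit 24) (nat_lit 5) (nat_lit 263) (nat_lit 262) (nat_lit 135))))))))
noncomputable def xc118 : XT := (XT.nd (nat_lit 1404) (nat_lit 228) (nat_lit 0) (XT.nd (nat_lit 702) (nat_lit 532) (nat_lit 0) (XT.nd (nat_lit 312) (nat_lit 456) (nat_lit 0) (XT.nd (nat_lit 156) (nat_lit 0) (nat_lit 76) (XT.nd (nat_lit 78) (nat_lit 0) (nat_lit 0) (XT.lf (nat_lit 0) (nat_lit 213275858966) (nat_lit 304) (nat_lit 881223193562) (nat_lit 380) (nat_lit 575428961133) (nat_lit 20) (nat_lit 5) (nat_lit 24) (nat_lit 5) (nat_lit 25) (nat_lit 5) (nat_lit 264) (nat_lit 262) (nat_lit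 134)) (XT.lf (nat_lit 0) (nat_lit 302641967027) (nat_lit 304) (nat_lit 108575286690) (nat_lit 380) (nat_lit 1390674308403) (nat_lit 20) (nat_lit 5) (nat_lit 24) (nat_lit 5) (nat_lit 25) (nat_lit 5) (nat_lit 265) (nat_lit 262) (nat_lit 133))) (XT.nd (nat_lit 78) (nat_lit 0) (nat_lit 0) (XT.lf (nat_lit 0) (nat_lit 458064005667) (nat_lit 304) (nat_lit 1109335388012) (nat_lit 76) (nat_lit 378352597034) (nat_lit 21) (nat_lit 5) (nat_lit 25) (nat_lit 5) (nat_lit 22) (nat_lit 5) (nat_lit 266) (nat_lit 262) (nat_lit 132)) (XT.lf (nat_lit 0) (nat_lit 662326910177) (nat_lit 304) (nat_lit 194832538118) (nat_lit 76) (nat_lit 1250202901308) (nat_lit 21) (nat_lit 5) (nat_lit 25) (nat_lit 5) (nat_lit 22) (nat_lit 5) (nat_lit 267) (nat_lit 262) (nat_lit 131)))) (XT.nd (nat_lit 156) (nat_lit 228) (nat_lit 0) (XT.nd (nat_lit 78) (nat_lit 0) (nat_lit 0) (XT.lf (nat_lit 0) (nat_lit 936359230225) (nat_lit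 380) (nat_lit 1346971648961) (nat_lit 76) (nat_lit 4013886178) (nat_lit 17) (nat_lit 5) (nat_lit 22) (nat_lit 5) (nat_lit 18) (nat_lit 5) (nat_lit 268) (nat_lit 262) (nat_lit 130)) (XT.lf (nat_lit 0) (nat_lit 1302982913048) (nat_lit 380) (nat_lit 266342832346) (nat_lit 76) (nat_lit 917275820895) (nat_lit 17) (nat_lit 5) (nat_lit 22) (nat_lit 5) (nat_lit 18) (nat_lit 5) (nat_lit 269) (nat_lit 262) (nat_lit 129))) (XT.nd (nat_lit 78) (nat_lit 76) (nat_lit 0) (XT.lf (nat_lit 0) (nat_lit 1071799288132) (nat_lit 152) (nat_lit 697181780705) (nat_lit 228) (nat_lit 940108680445) (nat_lit 15) (nat_lit 5) (nat_lit 17) (nat_lit 5) (nat_lit 18) (nat_lit 5) (nat_lit 270) (nat_lit 262) (nat_lit 128)) (XT.nd (nat_lit 78) (nat_lit 76) (nat_lit 0) (XT.lf (nat_lit 0) (nat_lit 2332126240815) (nat_lit 228) (nat_lit 335591592525) (nat_lit 76) (nat_lit 293146232473) (nat_lit 15) (nat_lit 5) (nat_lit 18) (nat_lit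 5) (nat_lit 16) (nat_lit 4) (nat_lit 271) (nat_lit 262) (nat_lit 127)) (XT.lf (nat_lit 0) (nat_lit 1238415261702) (nat_lit 76) (nat_lit 1825807192456) (nat_lit 152) (nat_lit 173510185839) (nat_lit 14) (nat_lit 5) (nat_lit 15) (nat_lit 5) (nat_lit 16) (nat_lit 4) (nat_lit 272) (nat_lit 262) (nat_lit 126)))))) (XT.nd (nat_lit 312) (nat_lit 228) (nat_lit 0) (XT.nd (nat_lit 156) (nat_lit 76) (nat_lit 0) (XT.nd (nat_lit 78) (nat_lit 152) (nat_lit 0) (XT.lf (nat_lit 0) (nat_lit 337219669509) (nat_lit 152) (nat_lit 482589263929) (nat_lit 76) (nat_lit 2731391998955) (nat_lit 13) (nat_lit 5) (nat_lit 15) (nat_lit 5) (nat_lit 14) (nat_lit 5) (nat_lit 273) (nat_lit 262) (nat_lit 125)) (XT.lf (nat_lit 0) (nat_lit 980831482055) (nat_lit 228) (nat_lit 2543093202271) (nat_lit 76) (nat_lit 375419933314) (nat_lit 11) (nat_lit 5) (nat_lit 14) (nat_lit 5) (nat_lit 12) (nat_lit 4) (nat_lit 274) (nat_lit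 262) (nat_lit 124))) (XT.nd (nat_lit 78) (nat_lit 76) (nat_lit 0) (XT.lf (nat_lit 0) (nat_lit 1786451092907) (nat_lit 228) (nat_lit 811011041490) (nat_lit 76) (nat_lit 1692427817318) (nat_lit 11) (nat_lit 5) (nat_lit 14) (nat_lit 5) (nat_lit 12) (nat_lit 4) (nat_lit 275) (nat_lit 262) (nat_lit 123)) (XT.lf (nat_lit 0) (nat_lit 1296287959394) (nat_lit 76) (nat_lit 1470302204723) (nat_lit 152) (nat_lit 1964375443980) (nat_lit 10) (nat_lit 5) (nat_lit 11) (nat_lit 5) (nat_lit 12) (nat_lit 4) (nat_lit 276) (nat_lit 262) (nat_lit 122)))) (XT.nd (nat_lit 156) (nat_lit 152) (nat_lit 0) (XT.nd (nat_lit 78) (nat_lit 76) (nat_lit 0) (XT.lf (nat_lit 0) (nat_lit 3810828390193) (nat_lit 76) (nat_lit 125315463565) (nat_lit 152) (nat_lit 1295699695519) (nat_lit 10) (nat_lit 5) (nat_lit 11) (nat_lit 5) (nat_lit 12) (nat_lit 4) (nat_lit 277) (nat_lit 262) (nat_lit 121)) (XT.lf (nat_lit 0) (nat_lit 917523003006)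 (nat_lit 76) (nat_lit 4460458205230) (nat_lit 76) (nat_lit 415344381694) (nat_lit 9) (nat_lit 4) (nat_lit 10) (nat_lit 5) (nat_lit 10) (nat_lit 4) (nat_lit 278) (nat_lit 262) (nat_lit 120))) (XT.nd (nat_lit 78) (nat_lit 76) (nat_lit 0) (XT.lf (nat_lit 0) (nat_lit 627694341497) (nat_lit 152) (nat_lit 2695570990583) (nat_lit 76) (nat_lit 3099488396317) (nat_lit 8) (nat_lit 5) (nat_lit 10) (nat_lit 5) (nat_lit 9) (nat_lit 4) (nat_lit 279) (nat_lit 262) (nat_lit 119)) (XT.nd (nat_lit 78) (nat_lit 76) (nat_lit 0) (XT.lf (nat_lit 0) (nat_lit 1784665518858) (nat_lit 152) (nat_lit 208082960361) (nat_lit 76) (nat_lit 5150880862978) (nat_lit 8) (nat_lit 5) (nat_lit 10) (nat_lit 5) (nat_lit 9) (nat_lit 4) (nat_lit 280) (nat_lit 262) (nat_lit 118)) (XT.lf (nat_lit 0) (nat_lit 2911752626878) (nat_lit 76) (nat_lit 323999212072) (nat_lit 152) (nat_lit 4718799039199) (nat_lit 7) (nat_lit 5) (nat_lit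 8) (nat_lit 5) (nat_lit 9) (nat_lit 4) (nat_lit 281) (nat_lit 262) (nat_lit 117))))))) (XT.nd (nat_lit 32916) (nat_lit 0) (nat_lit 836) (XT.nd (nat_lit 312) (nat_lit 152) (nat_lit 0) (XT.nd (nat_lit 156) (nat_lit 0) (nat_lit 0) (XT.nd (nat_lit 78) (nat_lit 76) (nat_lit 0) (XT.lf (nat_lit 0) (nat_lit 4981944259890) (nat_lit 152) (nat_lit 2429095936747) (nat_lit 0) (nat_lit 1464453974933) (nat_lit 7) (nat_lit 5) (nat_lit 9) (nat_lit 4) (nat_lit 7) (nat_lit 4) (nat_lit 282) (nat_lit 262) (nat_lit 116)) (XT.lf (nat_lit 0) (nat_lit 616080978752) (nat_lit 76) (nat_lit 6414923697964) (nat_lit 76) (nat_lit 2897433412377) (nat_lit 6) (nat_lit 4) (nat_lit 7) (nat_lit 5) (nat_lit 7) (nat_lit 4) (nat_lit 283) (nat_lit 262) (nat_lit 115))) (XT.nd (nat_lit 78) (nat_lit 0) (nat_lit 0) (XT.lf (nat_lit 0) (nat_lit 4391031689598) (nat_lit 76) (nat_lit 5123367935235) (nat_lit 76) (nat_lit 1605877649100)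 (nat_lit 6) (nat_lit 4) (nat_lit 7) (nat_lit 5) (nat_lit 7) (nat_lit 4) (nat_lit 284) (nat_lit 262) (nat_lit 114)) (XT.lf (nat_lit 0) (nat_lit 8732225005998) (nat_lit 76) (nat_lit 3638078808599) (nat_lit 76) (nat_lit 120588521987) (nat_lit 6) (nat_lit 4) (nat_lit 7) (nat_lit 5) (nat_lit 7) (nat_lit 4) (nat_lit 285) (nat_lit 262) (nat_lit 113)))) (XT.nd (nat_lit 156) (nat_lit 0) (nat_lit 0) (XT.nd (nat_lit 78) (nat_lit 76) (nat_lit 0) (XT.lf (nat_lit 0) (nat_lit 1446164282386) (nat_lit 152) (nat_lit 408237079894) (nat_lit 76) (nat_lit 12202838085413) (nat_lit 5) (nat_lit 5) (nat_lit 7) (nat_lit 5) (nat_lit 6) (nat_lit 4) (nat_lit 286) (nat_lit 262) (nat_lit 112)) (XT.lf (nat_lit 0) (nat_lit 3407770335894) (nat_lit 152) (nat_lit 12074995869088) (nat_lit 0) (nat_lit 349083129471) (nat_lit 4) (nat_lit 5) (nat_lit 6) (nat_lit 4) (nat_lit 4) (nat_lit 4) (nat_lit 287) (nat_lit 262) (nat_lit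 111))) (XT.nd (nat_lit 78) (nat_lit 0) (nat_lit 0) (XT.lf (nat_lit 0) (nat_lit 5774277963850) (nat_lit 152) (nat_lit 9366182883261) (nat_lit 0) (nat_lit 2715590757153) (nat_lit 4) (nat_lit 5) (nat_lit 6) (nat_lit 4) (nat_lit 4) (nat_lit 4) (nat_lit 288) (nat_lit 262) (nat_lit 110)) (XT.nd (nat_lit 78) (nat_lit 0) (nat_lit 0) (XT.lf (nat_lit 0) (nat_lit 8495761735613) (nat_lit 152) (nat_lit 6251047950313) (nat_lit 0) (nat_lit 5437074528679) (nat_lit 4) (nat_lit 5) (nat_lit 6) (nat_lit 4) (nat_lit 4) (nat_lit 4) (nat_lit 289) (nat_lit 262) (nat_lit 109)) (XT.lf (nat_lit 0) (nat_lit 11625468072805) (nat_lit 152) (nat_lit 2668642778077) (nat_lit 0) (nat_lit 8566780865665) (nat_lit 4) (nat_lit 5) (nat_lit 6) (nat_lit 4) (nat_lit 4) (nat_lit 4) (nat_lit 290) (nat_lit 262) (nat_lit 108)))))) (XT.nd (nat_lit 312) (nat_lit 304) (nat_lit 0) (XT.nd (nat_lit 156) (nat_lit 0) (nat_lit 76) (XT.nd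 (nat_lit 78) (nat_lit 0) (nat_lit 0) (XT.lf (nat_lit 0) (nat_lit 75865781827) (nat_lit 380) (nat_lit 377735044424) (nat_lit 380) (nat_lit 377735044424) (nat_lit 19) (nat_lit 3) (nat_lit 24) (nat_lit 3) (nat_lit 24) (nat_lit 5) (nat_lit 263) (nat_lit 263) (nat_lit 134)) (XT.lf (nat_lit 0) (nat_lit 163111452173) (nat_lit 380) (nat_lit 5124092093) (nat_lit 380) (nat_lit 1619136574378) (nat_lit 19) (nat_lit 3) (nat_lit 24) (nat_lit 3) (nat_lit 24) (nat_lit 5) (nat_lit 264) (nat_lit 263) (nat_lit 133))) (XT.nd (nat_lit 78) (nat_lit 0) (nat_lit 0) (XT.lf (nat_lit 0) (nat_lit 245267278946) (nat_lit 304) (nat_lit 1013406639596) (nat_lit 380) (nat_lit 661743290763) (nat_lit 20) (nat_lit 5) (nat_lit 24) (nat_lit 5) (nat_lit 25) (nat_lit 5) (nat_lit 265) (nat_lit 263) (nat_lit 132)) (XT.lf (nat_lit 0) (nat_lit 348038297851) (nat_lit 304) (nat_lit 124861550997) (nat_lit 380) (nat_lit 1599275442019)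 (nat_lit 20) (nat_lit 5) (nat_lit 24) (nat_lit 5) (nat_lit 25) (nat_lit 5) (nat_lit 266) (nat_lit 263) (nat_lit 131)))) (XT.nd (nat_lit 156) (nat_lit 456) (nat_lit 0) (XT.nd (nat_lit 78) (nat_lit 0) (nat_lit 0) (XT.lf (nat_lit 0) (nat_lit 526773638555) (nat_lit 304) (nat_lit 1275735663609) (nat_lit 76) (nat_lit 435105482173) (nat_lit 21) (nat_lit 5) (nat_lit 25) (nat_lit 5) (nat_lit 22) (nat_lit 5) (nat_lit 267) (nat_lit 263) (nat_lit 130)) (XT.lf (nat_lit 0) (nat_lit 761675974563) (nat_lit 304) (nat_lit 224057390483) (nat_lit 76) (nat_lit 1437733332664) (nat_lit 21) (nat_lit 5) (nat_lit 25) (nat_lit 5) (nat_lit 22) (nat_lit 5) (nat_lit 268) (nat_lit 263) (nat_lit 129))) (XT.nd (nat_lit 78) (nat_lit 152) (nat_lit 0) (XT.lf (nat_lit 0) (nat_lit 1076813140176) (nat_lit 380) (nat_lit 1549017365377) (nat_lit 76) (nat_lit 4615970670) (nat_lit 17) (nat_lit 5) (nat_lit 22) (nat_lit 5) (nat_lit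 18) (nat_lit 5) (nat_lit 269) (nat_lit 263) (nat_lit 128)) (XT.nd (nat_lit 78) (nat_lit 152) (nat_lit 0) (XT.lf (nat_lit 0) (nat_lit 1498430372107) (nat_lit 380) (nat_lit 306294230303) (nat_lit 76) (nat_lit 1054867195390) (nat_lit 17) (nat_lit 5) (nat_lit 22) (nat_lit 5) (nat_lit 18) (nat_lit 5) (nat_lit 270) (nat_lit 263) (nat_lit 127)) (XT.lf (nat_lit 0) (nat_lit 1232569207024) (nat_lit 152) (nat_lit 801759042420) (nat_lit 228) (nat_lit 1081124959086) (nat_lit 15) (nat_lit 5) (nat_lit 17) (nat_lit 5) (nat_lit 18) (nat_lit 5) (nat_lit 271) (nat_lit 263) (nat_lit 126))))))))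
noncomputable def xc119 : XT := (XT.nd (nat_lit 1404) (nat_lit 0) (nat_lit 0) (XT.nd (nat_lit 702) (nat_lit 304) (nat_lit 0) (XT.nd (nat_lit 312) (nat_lit 228) (nat_lit 0) (XT.nd (nat_lit 156) (nat_lit 228) (nat_lit 0) (XT.nd (nat_lit 78) (nat_lit 76) (nat_lit 0) (XT.lf (nat_lit 0) (nat_lit 2681945194768) (nat_lit 228) (nat_lit 385930306541) (nat_lit 76) (nat_lit 337118171614) (nat_lit 15) (nat_lit 5) (nat_lit 18) (nat_lit 5) (nat_lit 16) (nat_lit 4) (nat_lit 272) (nat_lit 263) (nat_lit 125)) (XT.lf (nat_lit 0) (nat_lit 1424177574690) (nat_lit 76) (nat_lit 2099678264080) (nat_lit 152) (nat_lit 199536694677) (nat_lit 14) (nat_lit 5) (nat_lit 15) (nat_lit 5) (nat_lit 16) (nat_lit 4) (nat_lit 273) (nat_lit 263) (nat_lit 124))) (XT.nd (nat_lit 78) (nat_lit 152) (nat_lit 0) (XT.lf (nat_lit 0) (nat_lit 387802635016) (nat_lit 152) (nat_lit 554977631349) (nat_lit 76) (nat_lit 3141100803567)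 (nat_lit 13) (nat_lit 5) (nat_lit 15) (nat_lit 5) (nat_lit 14) (nat_lit 5) (nat_lit 274) (nat_lit 263) (nat_lit 123)) (XT.lf (nat_lit 0) (nat_lit 1127956218650) (nat_lit 228) (nat_lit 2924557159598) (nat_lit 76) (nat_lit 431732929845) (nat_lit 11) (nat_lit 5) (nat_lit 14) (nat_lit 5) (nat_lit 12) (nat_lit 4) (nat_lit 275) (nat_lit 263) (nat_lit 122)))) (XT.nd (nat_lit 156) (nat_lit 152) (nat_lit 0) (XT.nd (nat_lit 78) (nat_lit 76) (nat_lit 0) (XT.lf (nat_lit 0) (nat_lit 2054418769266) (nat_lit 228) (nat_lit 932662677702) (nat_lit 76) (nat_lit 1946291995597) (nat_lit 11) (nat_lit 5) (nat_lit 14) (nat_lit 5) (nat_lit 12) (nat_lit 4) (nat_lit 276) (nat_lit 263) (nat_lit 121)) (XT.lf (nat_lit 0) (nat_lit 1490731172405) (nat_lit 76) (nat_lit 1690847527924) (nat_lit 152) (nat_lit 2259031747206) (nat_lit 10) (nat_lit 5) (nat_lit 11) (nat_lit 5) (nat_lit 12) (nat_lit 4) (nat_lit 277) (nat_lit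 263) (nat_lit 120))) (XT.nd (nat_lit 78) (nat_lit 152) (nat_lit 0) (XT.lf (nat_lit 0) (nat_lit 4382452665332) (nat_lit 76) (nat_lit 144112776571) (nat_lit 152) (nat_lit 1490054638220) (nat_lit 10) (nat_lit 5) (nat_lit 11) (nat_lit 5) (nat_lit 12) (nat_lit 4) (nat_lit 278) (nat_lit 263) (nat_lit 119)) (XT.nd (nat_lit 78) (nat_lit 76) (nat_lit 0) (XT.lf (nat_lit 0) (nat_lit 1055151470529) (nat_lit 76) (nat_lit 5129526928650) (nat_lit 76) (nat_lit 477646027755) (nat_lit 9) (nat_lit 4) (nat_lit 10) (nat_lit 5) (nat_lit 10) (nat_lit 4) (nat_lit 279) (nat_lit 263) (nat_lit 118)) (XT.lf (nat_lit 0) (nat_lit 721848501589) (nat_lit 152) (nat_lit 3099906623436) (nat_lit 76) (nat_lit 3564411661280) (nat_lit 8) (nat_lit 5) (nat_lit 10) (nat_lit 5) (nat_lit 9) (nat_lit 4) (nat_lit 280) (nat_lit 263) (nat_lit 117)))))) (XT.nd (nat_lit 312) (nat_lit 152) (nat_lit 0) (XT.nd (nat_lit 156) (nat_lit 76)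 (nat_lit 0) (XT.nd (nat_lit 78) (nat_lit 76) (nat_lit 0) (XT.lf (nat_lit 0) (nat_lit 2052365354397) (nat_lit 152) (nat_lit 239295390733) (nat_lit 76) (nat_lit 5923512997220) (nat_lit 8) (nat_lit 5) (nat_lit 10) (nat_lit 5) (nat_lit 9) (nat_lit 4) (nat_lit 281) (nat_lit 263) (nat_lit 116)) (XT.lf (nat_lit 0) (nat_lit 3348515533970) (nat_lit 76) (nat_lit 372599088068) (nat_lit 152) (nat_lit 5426618886730) (nat_lit 7) (nat_lit 5) (nat_lit 8) (nat_lit 5) (nat_lit 9) (nat_lit 4) (nat_lit 282) (nat_lit 263) (nat_lit 115))) (XT.nd (nat_lit 78) (nat_lit 76) (nat_lit 0) (XT.lf (nat_lit 0) (nat_lit 5729235905383) (nat_lit 152) (nat_lit 2793460315153) (nat_lit 0) (nat_lit 1684122075779) (nat_lit 7) (nat_lit 5) (nat_lit 9) (nat_lit 4) (nat_lit 7) (nat_lit 4) (nat_lit 283) (nat_lit 263) (nat_lit 114)) (XT.lf (nat_lit 0) (nat_lit 708493137121) (nat_lit 76) (nat_lit 7377162247242) (nat_lit 76) (nat_lit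 3332048417161) (nat_lit 6) (nat_lit 4) (nat_lit 7) (nat_lit 5) (nat_lit 7) (nat_lit 4) (nat_lit 284) (nat_lit 263) (nat_lit 113)))) (XT.nd (nat_lit 156) (nat_lit 152) (nat_lit 0) (XT.nd (nat_lit 78) (nat_lit 0) (nat_lit 0) (XT.lf (nat_lit 0) (nat_lit 5049686453087) (nat_lit 76) (nat_lit 5891873120810) (nat_lit 76) (nat_lit 1846759290315) (nat_lit 6) (nat_lit 4) (nat_lit 7) (nat_lit 5) (nat_lit 7) (nat_lit 4) (nat_lit 285) (nat_lit 263) (nat_lit 112)) (XT.lf (nat_lit 0) (nat_lit 10042058765636) (nat_lit 76) (nat_lit 4183790625793) (nat_lit 76) (nat_lit 138676794938) (nat_lit 6) (nat_lit 4) (nat_lit 7) (nat_lit 5) (nat_lit 7) (nat_lit 4) (nat_lit 286) (nat_lit 263) (nat_lit 111))) (XT.nd (nat_lit 78) (nat_lit 76) (nat_lit 0) (XT.lf (nat_lit 0) (nat_lit 1663088928981) (nat_lit 152) (nat_lit 469472633859) (nat_lit 76) (nat_lit 14033263801365) (nat_lit 5) (nat_lit 5) (nat_lit 7) (nat_lit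 5) (nat_lit 6) (nat_lit 4) (nat_lit 287) (nat_lit 263) (nat_lit 110)) (XT.nd (nat_lit 78) (nat_lit 0) (nat_lit 0) (XT.lf (nat_lit 0) (nat_lit 3918935890430) (nat_lit 152) (nat_lit 13886245241341) (nat_lit 0) (nat_lit 401445602220) (nat_lit 4) (nat_lit 5) (nat_lit 6) (nat_lit 4) (nat_lit 4) (nat_lit 4) (nat_lit 288) (nat_lit 263) (nat_lit 109)) (XT.lf (nat_lit 0) (nat_lit 6640419662038) (nat_lit 152) (nat_lit 10771110308698) (nat_lit 0) (nat_lit 3122929373621) (nat_lit 4) (nat_lit 5) (nat_lit 6) (nat_lit 4) (nat_lit 4) (nat_lit 4) (nat_lit 289) (nat_lit 263) (nat_lit 108))))))) (XT.nd (nat_lit 32994) (nat_lit 0) (nat_lit 380) (XT.nd (nat_lit 32604) (nat_lit 0) (nat_lit 988) (XT.nd (nat_lit 32448) (nat_lit 0) (nat_lit 1140) (XT.nd (nat_lit 32370) (nat_lit 0) (nat_lit 1140) (XT.lf (nat_lit 0) (nat_lit 9770125999094) (nat_lit 152) (nat_lit 7188705136727) (nat_lit 0) (nat_lit 6252635710498)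 (nat_lit 4) (nat_lit 5) (nat_lit 6) (nat_lit 4) (nat_lit 4) (nat_lit 4) (nat_lit 290) (nat_lit 263) (nat_lit 107)) (XT.lf (nat_lit 0) (nat_lit 87245669465) (nat_lit 380) (nat_lit 434395289320) (nat_lit 380) (nat_lit 434395289320) (nat_lit 19) (nat_lit 3) (nat_lit 24) (nat_lit 3) (nat_lit 24) (nat_lit 5) (nat_lit 264) (nat_lit 264) (nat_lit 132))) (XT.nd (nat_lit 78) (nat_lit 0) (nat_lit 76) (XT.lf (nat_lit 0) (nat_lit 187578205413) (nat_lit 380) (nat_lit 5892685442) (nat_lit 380) (nat_lit 1862007040069) (nat_lit 19) (nat_lit 3) (nat_lit 24) (nat_lit 3) (nat_lit 24) (nat_lit 5) (nat_lit 265) (nat_lit 264) (nat_lit 131)) (XT.lf (nat_lit 0) (nat_lit 282057401893) (nat_lit 304) (nat_lit 1165417610583) (nat_lit 380) (nat_lit 761004773383) (nat_lit 20) (nat_lit 5) (nat_lit 24) (nat_lit 5) (nat_lit 25) (nat_lit 5) (nat_lit 266) (nat_lit 264) (nat_lit 130)))) (XT.nd (nat_lit 156) (nat_lit 228)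 (nat_lit 0) (XT.nd (nat_lit 78) (nat_lit 0) (nat_lit 76) (XT.lf (nat_lit 0) (nat_lit 400244069576) (nat_lit 304) (nat_lit 143590761949) (nat_lit 380) (nat_lit 1839166748762) (nat_lit 20) (nat_lit 5) (nat_lit 24) (nat_lit 5) (nat_lit 25) (nat_lit 5) (nat_lit 267) (nat_lit 264) (nat_lit 129)) (XT.lf (nat_lit 0) (nat_lit 605789708564) (nat_lit 304) (nat_lit 1467095988496) (nat_lit 76) (nat_lit 500371301160) (nat_lit 21) (nat_lit 5) (nat_lit 25) (nat_lit 5) (nat_lit 22) (nat_lit 5) (nat_lit 268) (nat_lit 264) (nat_lit 128))) (XT.nd (nat_lit 78) (nat_lit 304) (nat_lit 0) (XT.lf (nat_lit 0) (nat_lit 875927391813) (nat_lit 304) (nat_lit 257665977617) (nat_lit 76) (nat_lit 1653393329661) (nat_lit 21) (nat_lit 5) (nat_lit 25) (nat_lit 5) (nat_lit 22) (nat_lit 5) (nat_lit 269) (nat_lit 264) (nat_lit 127)) (XT.nd (nat_lit 78) (nat_lit 0) (nat_lit 0) (XT.lf (nat_lit 0) (nat_lit 1238335130421) (nat_lit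 380) (nat_lit 1781369946797) (nat_lit 76) (nat_lit 5308367453) (nat_lit 17) (nat_lit 5) (nat_lit 22) (nat_lit 5) (nat_lit 18) (nat_lit 5) (nat_lit 270) (nat_lit 264) (nat_lit 126)) (XT.lf (nat_lit 0) (nat_lit 1723194944635) (nat_lit 380) (nat_lit 352238344512) (nat_lit 76) (nat_lit 1213097275727) (nat_lit 17) (nat_lit 5) (nat_lit 22) (nat_lit 5) (nat_lit 18) (nat_lit 5) (nat_lit 271) (nat_lit 264) (nat_lit 125)))))) (XT.nd (nat_lit 312) (nat_lit 304) (nat_lit 0) (XT.nd (nat_lit 156) (nat_lit 152) (nat_lit 0) (XT.nd (nat_lit 78) (nat_lit 0) (nat_lit 0) (XT.lf (nat_lit 0) (nat_lit 1417454607490) (nat_lit 152) (nat_lit 922022894708) (nat_lit 228) (nat_lit 1243293685236) (nat_lit 15) (nat_lit 5) (nat_lit 17) (nat_lit 5) (nat_lit 18) (nat_lit 5) (nat_lit 272) (nat_lit 264) (nat_lit 124)) (XT.lf (nat_lit 0) (nat_lit 3084236987465) (nat_lit 228) (nat_lit 443819833722) (nat_lit 76) (nat_lit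 387685900584) (nat_lit 15) (nat_lit 5) (nat_lit 18) (nat_lit 5) (nat_lit 16) (nat_lit 4) (nat_lit 273) (nat_lit 264) (nat_lit 123))) (XT.nd (nat_lit 78) (nat_lit 76) (nat_lit 0) (XT.lf (nat_lit 0) (nat_lit 1637804228839) (nat_lit 76) (nat_lit 2414629998213) (nat_lit 152) (nat_lit 229467184484) (nat_lit 14) (nat_lit 5) (nat_lit 15) (nat_lit 5) (nat_lit 16) (nat_lit 4) (nat_lit 274) (nat_lit 264) (nat_lit 122)) (XT.lf (nat_lit 0) (nat_lit 445973041672) (nat_lit 152) (nat_lit 638224259289) (nat_lit 76) (nat_lit 3612265927708) (nat_lit 13) (nat_lit 5) (nat_lit 15) (nat_lit 5) (nat_lit 14) (nat_lit 5) (nat_lit 275) (nat_lit 264) (nat_lit 121)))) (XT.nd (nat_lit 156) (nat_lit 152) (nat_lit 0) (XT.nd (nat_lit 78) (nat_lit 0) (nat_lit 0) (XT.lf (nat_lit 0) (nat_lit 1297149662250) (nat_lit 228) (nat_lit 3363240716137) (nat_lit 76) (nat_lit 496492874262) (nat_lit 11) (nat_lit 5) (nat_lit 14) (nat_lit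 5) (nat_lit 12) (nat_lit 4) (nat_lit 276) (nat_lit 264) (nat_lit 120)) (XT.lf (nat_lit 0) (nat_lit 2362581594050) (nat_lit 228) (nat_lit 1072562064226) (nat_lit 76) (nat_lit 2238235799232) (nat_lit 11) (nat_lit 5) (nat_lit 14) (nat_lit 5) (nat_lit 12) (nat_lit 4) (nat_lit 277) (nat_lit 264) (nat_lit 119))) (XT.nd (nat_lit 78) (nat_lit 76) (nat_lit 0) (XT.lf (nat_lit 0) (nat_lit 1714340862709) (nat_lit 76) (nat_lit 1944474651435) (nat_lit 152) (nat_lit 2597886499176) (nat_lit 10) (nat_lit 5) (nat_lit 11) (nat_lit 5) (nat_lit 12) (nat_lit 4) (nat_lit 278) (nat_lit 264) (nat_lit 118)) (XT.nd (nat_lit 78) (nat_lit 76) (nat_lit 0) (XT.lf (nat_lit 0) (nat_lit 5039820577692) (nat_lit 76) (nat_lit 165729688120) (nat_lit 152) (nat_lit 1713562825161) (nat_lit 10) (nat_lit 5) (nat_lit 11) (nat_lit 5) (nat_lit 12) (nat_lit 4) (nat_lit 279) (nat_lit 264) (nat_lit 117)) (XT.lf (nat_lit 0) (nat_lit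 1213424204018) (nat_lit 76) (nat_lit 5898955962380) (nat_lit 76) (nat_lit 549292923454) (nat_lit 9) (nat_lit 4) (nat_lit 10) (nat_lit 5) (nat_lit 10) (nat_lit 4) (nat_lit 280) (nat_lit 264) (nat_lit 116))))))))
noncomputable def xc120 : XT := (XT.nd (nat_lit 33696) (nat_lit 0) (nat_lit 76) (XT.nd (nat_lit 624) (nat_lit 76) (nat_lit 0) (XT.nd (nat_lit 312) (nat_lit 152) (nat_lit 0) (XT.nd (nat_lit 156) (nat_lit 76) (nat_lit 0) (XT.nd (nat_lit 78) (nat_lit 0) (nat_lit 0) (XT.lf (nat_lit 0) (nat_lit 830125783532) (nat_lit 152) (nat_lit 3564892605055) (nat_lit 76) (nat_lit 4099073414642) (nat_lit 8) (nat_lit 5) (nat_lit 10) (nat_lit 5) (nat_lit 9) (nat_lit 4) (nat_lit 281) (nat_lit 264) (nat_lit 115)) (XT.lf (nat_lit 0) (nat_lit 2360220163387) (nat_lit 152) (nat_lit 275189688998) (nat_lit 76) (nat_lit 6812039950430) (nat_lit 8) (nat_lit 5) (nat_lit 10) (nat_lit 5) (nat_lit 9) (nat_lit 4)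 (nat_lit 282) (nat_lit 264) (nat_lit 114))) (XT.nd (nat_lit 78) (nat_lit 0) (nat_lit 0) (XT.lf (nat_lit 0) (nat_lit 3850792873940) (nat_lit 76) (nat_lit 428488946882) (nat_lit 152) (nat_lit 6240611713426) (nat_lit 7) (nat_lit 5) (nat_lit 8) (nat_lit 5) (nat_lit 9) (nat_lit 4) (nat_lit 283) (nat_lit 264) (nat_lit 113)) (XT.lf (nat_lit 0) (nat_lit 6588621296113) (nat_lit 152) (nat_lit 3212479353271) (nat_lit 0) (nat_lit 1936740390629) (nat_lit 7) (nat_lit 5) (nat_lit 9) (nat_lit 4) (nat_lit 7) (nat_lit 4) (nat_lit 284) (nat_lit 264) (nat_lit 112)))) (XT.nd (nat_lit 156) (nat_lit 76) (nat_lit 0) (XT.nd (nat_lit 78) (nat_lit 0) (nat_lit 0) (XT.lf (nat_lit 0) (nat_lit 814767116428) (nat_lit 76) (nat_lit 8483736580232) (nat_lit 76) (nat_lit 3831855674388) (nat_lit 6) (nat_lit 4) (nat_lit 7) (nat_lit 5) (nat_lit 7) (nat_lit 4) (nat_lit 285) (nat_lit 264) (nat_lit 111)) (XT.lf (nat_lit 0) (nat_lit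 5807139428648) (nat_lit 76) (nat_lit 6775654085370) (nat_lit 76) (nat_lit 2123773179212) (nat_lit 6) (nat_lit 4) (nat_lit 7) (nat_lit 5) (nat_lit 7) (nat_lit 4) (nat_lit 286) (nat_lit 264) (nat_lit 110))) (XT.nd (nat_lit 78) (nat_lit 76) (nat_lit 0) (XT.lf (nat_lit 0) (nat_lit 11548367587089) (nat_lit 76) (nat_lit 4811359216565) (nat_lit 76) (nat_lit 159478310135) (nat_lit 6) (nat_lit 4) (nat_lit 7) (nat_lit 5) (nat_lit 7) (nat_lit 4) (nat_lit 287) (nat_lit 264) (nat_lit 109)) (XT.lf (nat_lit 0) (nat_lit 1912552271531) (nat_lit 152) (nat_lit 539893522874) (nat_lit 76) (nat_lit 16138253373945) (nat_lit 5) (nat_lit 5) (nat_lit 7) (nat_lit 5) (nat_lit 6) (nat_lit 4) (nat_lit 288) (nat_lit 264) (nat_lit 108))))) (XT.nd (nat_lit 32682) (nat_lit 0) (nat_lit 988) (XT.nd (nat_lit 32526) (nat_lit 0) (nat_lit 1140) (XT.nd (nat_lit 78) (nat_lit 0) (nat_lit 0) (XT.lf (nat_lit 0) (nat_lit 4506776277135)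 (nat_lit 152) (nat_lit 15969182021410) (nat_lit 0) (nat_lit 461662445070) (nat_lit 4) (nat_lit 5) (nat_lit 6) (nat_lit 4) (nat_lit 4) (nat_lit 4) (nat_lit 289) (nat_lit 264) (nat_lit 107)) (XT.lf (nat_lit 0) (nat_lit 7636482614073) (nat_lit 152) (nat_lit 12386776849670) (nat_lit 0) (nat_lit 3591368781853) (nat_lit 4) (nat_lit 5) (nat_lit 6) (nat_lit 4) (nat_lit 4) (nat_lit 4) (nat_lit 290) (nat_lit 264) (nat_lit 106))) (XT.nd (nat_lit 78) (nat_lit 0) (nat_lit 0) (XT.lf (nat_lit 0) (nat_lit 100332535283) (nat_lit 380) (nat_lit 499554573820) (nat_lit 380) (nat_lit 499554573820) (nat_lit 19) (nat_lit 3) (nat_lit 24) (nat_lit 3) (nat_lit 24) (nat_lit 5) (nat_lit 265) (nat_lit 265) (nat_lit 130)) (XT.lf (nat_lit 0) (nat_lit 215714963004) (nat_lit 380) (nat_lit 6776572784) (nat_lit 380) (nat_lit 2141308080605) (nat_lit 19) (nat_lit 3) (nat_lit 24) (nat_lit 3) (nat_lit 24) (nat_lit 5) (nat_lit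 266) (nat_lit 265) (nat_lit 129)))) (XT.nd (nat_lit 156) (nat_lit 228) (nat_lit 0) (XT.nd (nat_lit 78) (nat_lit 0) (nat_lit 0) (XT.lf (nat_lit 0) (nat_lit 324366035696) (nat_lit 304) (nat_lit 1340230233302) (nat_lit 380) (nat_lit 875155481077) (nat_lit 20) (nat_lit 5) (nat_lit 24) (nat_lit 5) (nat_lit 25) (nat_lit 5) (nat_lit 267) (nat_lit 265) (nat_lit 128)) (XT.lf (nat_lit 0) (nat_lit 460280700465) (nat_lit 304) (nat_lit 165129359835) (nat_lit 380) (nat_lit 2115041753847) (nat_lit 20) (nat_lit 5) (nat_lit 24) (nat_lit 5) (nat_lit 25) (nat_lit 5) (nat_lit 268) (nat_lit 265) (nat_lit 127))) (XT.nd (nat_lit 78) (nat_lit 304) (nat_lit 0) (XT.lf (nat_lit 0) (nat_lit 696658183166) (nat_lit 304) (nat_lit 1687160368128) (nat_lit 76) (nat_lit 575426993810) (nat_lit 21) (nat_lit 5) (nat_lit 25) (nat_lit 5) (nat_lit 22) (nat_lit 5) (nat_lit 269) (nat_lit 265) (nat_lit 126)) (XT.nd (nat_lit 78)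 (nat_lit 304) (nat_lit 0) (XT.lf (nat_lit 0) (nat_lit 1007316516513) (nat_lit 304) (nat_lit 296315858049) (nat_lit 76) (nat_lit 1901402326914) (nat_lit 21) (nat_lit 5) (nat_lit 25) (nat_lit 5) (nat_lit 22) (nat_lit 5) (nat_lit 270) (nat_lit 265) (nat_lit 125)) (XT.lf (nat_lit 0) (nat_lit 1424085414517) (nat_lit 380) (nat_lit 2048575421133) (nat_lit 76) (nat_lit 6104623466) (nat_lit 17) (nat_lit 5) (nat_lit 22) (nat_lit 5) (nat_lit 18) (nat_lit 5) (nat_lit 271) (nat_lit 265) (nat_lit 124))))))) (XT.nd (nat_lit 702) (nat_lit 380) (nat_lit 0) (XT.nd (nat_lit 312) (nat_lit 304) (nat_lit 0) (XT.nd (nat_lit 156) (nat_lit 76) (nat_lit 0) (XT.nd (nat_lit 78) (nat_lit 152) (nat_lit 0) (XT.lf (nat_lit 0) (nat_lit 1981674198967) (nat_lit 380) (nat_lit 405074080812) (nat_lit 76) (nat_lit 1395061867864) (nat_lit 17) (nat_lit 5) (nat_lit 22) (nat_lit 5) (nat_lit 18) (nat_lit 5) (nat_lit 272) (nat_lit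 265) (nat_lit 123)) (XT.lf (nat_lit 0) (nat_lit 1630072813291) (nat_lit 152) (nat_lit 1060326325833) (nat_lit 228) (nat_lit 1429787724627) (nat_lit 15) (nat_lit 5) (nat_lit 17) (nat_lit 5) (nat_lit 18) (nat_lit 5) (nat_lit 273) (nat_lit 265) (nat_lit 122))) (XT.nd (nat_lit 78) (nat_lit 76) (nat_lit 0) (XT.lf (nat_lit 0) (nat_lit 3546872545780) (nat_lit 228) (nat_lit 510392794565) (nat_lit 76) (nat_lit 445838788113) (nat_lit 15) (nat_lit 5) (nat_lit 18) (nat_lit 5) (nat_lit 16) (nat_lit 4) (nat_lit 274) (nat_lit 265) (nat_lit 121)) (XT.lf (nat_lit 0) (nat_lit 1883474876735) (nat_lit 76) (nat_lit 2776824493803) (nat_lit 152) (nat_lit 263887251272) (nat_lit 14) (nat_lit 5) (nat_lit 15) (nat_lit 5) (nat_lit 16) (nat_lit 4) (nat_lit 275) (nat_lit 265) (nat_lit 120)))) (XT.nd (nat_lit 156) (nat_lit 76) (nat_lit 0) (XT.nd (nat_lit 78) (nat_lit 152) (nat_lit 0) (XT.lf (nat_lit 0) (nat_lit 512869006545)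 (nat_lit 152) (nat_lit 733957885507) (nat_lit 76) (nat_lit 4154105819591) (nat_lit 13) (nat_lit 5) (nat_lit 15) (nat_lit 5) (nat_lit 14) (nat_lit 5) (nat_lit 276) (nat_lit 265) (nat_lit 119)) (XT.lf (nat_lit 0) (nat_lit 1491722119756) (nat_lit 228) (nat_lit 3867726810399) (nat_lit 76) (nat_lit 570966809136) (nat_lit 11) (nat_lit 5) (nat_lit 14) (nat_lit 5) (nat_lit 12) (nat_lit 4) (nat_lit 277) (nat_lit 265) (nat_lit 118))) (XT.nd (nat_lit 78) (nat_lit 76) (nat_lit 0) (XT.lf (nat_lit 0) (nat_lit 2716968840260) (nat_lit 228) (nat_lit 1233446362418) (nat_lit 76) (nat_lit 2573971172366) (nat_lit 11) (nat_lit 5) (nat_lit 14) (nat_lit 5) (nat_lit 12) (nat_lit 4) (nat_lit 278) (nat_lit 265) (nat_lit 117)) (XT.nd (nat_lit 78) (nat_lit 0) (nat_lit 0) (XT.lf (nat_lit 0) (nat_lit 1971492003037) (nat_lit 76) (nat_lit 2236145844858) (nat_lit 152) (nat_lit 2987569466408) (nat_lit 10) (nat_lit 5)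 (nat_lit 11) (nat_lit 5) (nat_lit 12) (nat_lit 4) (nat_lit 279) (nat_lit 265) (nat_lit 116)) (XT.lf (nat_lit 0) (nat_lit 5795793673843) (nat_lit 76) (nat_lit 190589137605) (nat_lit 152) (nat_lit 1970597242288) (nat_lit 10) (nat_lit 5) (nat_lit 11) (nat_lit 5) (nat_lit 12) (nat_lit 4) (nat_lit 280) (nat_lit 265) (nat_lit 115)))))) (XT.nd (nat_lit 312) (nat_lit 152) (nat_lit 0) (XT.nd (nat_lit 156) (nat_lit 76) (nat_lit 0) (XT.nd (nat_lit 78) (nat_lit 76) (nat_lit 0) (XT.lf (nat_lit 0) (nat_lit 1395437844382) (nat_lit 76) (nat_lit 6783799352527) (nat_lit 76) (nat_lit 631686855572) (nat_lit 9) (nat_lit 4) (nat_lit 10) (nat_lit 5) (nat_lit 10) (nat_lit 4) (nat_lit 281) (nat_lit 265) (nat_lit 114)) (XT.lf (nat_lit 0) (nat_lit 954644656132) (nat_lit 152) (nat_lit 4099626486817) (nat_lit 76) (nat_lit 4713934429992) (nat_lit 8) (nat_lit 5) (nat_lit 10) (nat_lit 5) (nat_lit 9) (nat_lit 4) (nat_lit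 282) (nat_lit 265) (nat_lit 113))) (XT.nd (nat_lit 78) (nat_lit 76) (nat_lit 0) (XT.lf (nat_lit 0) (nat_lit 2714253192304) (nat_lit 152) (nat_lit 316468134525) (nat_lit 76) (nat_lit 7833845945736) (nat_lit 8) (nat_lit 5) (nat_lit 10) (nat_lit 5) (nat_lit 9) (nat_lit 4) (nat_lit 283) (nat_lit 265) (nat_lit 112)) (XT.lf (nat_lit 0) (nat_lit 4428411812498) (nat_lit 76) (nat_lit 492762285591) (nat_lit 152) (nat_lit 7176703465667) (nat_lit 7) (nat_lit 5) (nat_lit 8) (nat_lit 5) (nat_lit 9) (nat_lit 4) (nat_lit 284) (nat_lit 265) (nat_lit 111)))) (XT.nd (nat_lit 156) (nat_lit 76) (nat_lit 0) (XT.nd (nat_lit 78) (nat_lit 76) (nat_lit 0) (XT.lf (nat_lit 0) (nat_lit 7576914494252) (nat_lit 152) (nat_lit 3694351249340) (nat_lit 0) (nat_lit 2227251451856) (nat_lit 7) (nat_lit 5) (nat_lit 9) (nat_lit 4) (nat_lit 7) (nat_lit 4) (nat_lit 285) (nat_lit 265) (nat_lit 110)) (XT.lf (nat_lit 0) (nat_lit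 936982190499) (nat_lit 76) (nat_lit 9756297064170) (nat_lit 76) (nat_lit 4406634021502) (nat_lit 6) (nat_lit 4) (nat_lit 7) (nat_lit 5) (nat_lit 7) (nat_lit 4) (nat_lit 286) (nat_lit 265) (nat_lit 109))) (XT.nd (nat_lit 78) (nat_lit 76) (nat_lit 0) (XT.lf (nat_lit 0) (nat_lit 6678210348691) (nat_lit 76) (nat_lit 7792002195482) (nat_lit 76) (nat_lit 2442339152577) (nat_lit 6) (nat_lit 4) (nat_lit 7) (nat_lit 5) (nat_lit 7) (nat_lit 4) (nat_lit 287) (nat_lit 265) (nat_lit 108)) (XT.nd (nat_lit 78) (nat_lit 76) (nat_lit 0) (XT.lf (nat_lit 0) (nat_lit 13280622730148) (nat_lit 76) (nat_lit 5533063096709) (nat_lit 76) (nat_lit 183400053597) (nat_lit 6) (nat_lit 4) (nat_lit 7) (nat_lit 5) (nat_lit 7) (nat_lit 4) (nat_lit 288) (nat_lit 265) (nat_lit 107)) (XT.lf (nat_lit 0) (nat_lit 2199435114683) (nat_lit 152) (nat_lit 620877546720) (nat_lit 76) (nat_lit 18558991381832) (nat_lit 5) (nat_lit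 5) (nat_lit 7) (nat_lit 5) (nat_lit 6) (nat_lit 4) (nat_lit 289) (nat_lit 265) (nat_lit 106))))))))
noncomputable def xc121 : XT := (XT.nd (nat_lit 33852) (nat_lit 0) (nat_lit 76) (XT.nd (nat_lit 33150) (nat_lit 0) (nat_lit 380) (XT.nd (nat_lit 32760) (nat_lit 0) (nat_lit 988) (XT.nd (nat_lit 32604) (nat_lit 0) (nat_lit 1140) (XT.nd (nat_lit 32526) (nat_lit 0) (nat_lit 1140) (XT.lf (nat_lit 0) (nat_lit 5182792721079) (nat_lit 152) (nat_lit 18364559319985) (nat_lit 0) (nat_lit 530911813734) (nat_lit 4) (nat_lit 5) (nat_lit 6) (nat_lit 4) (nat_lit 4) (nat_lit 4) (nat_lit 290) (nat_lit 265) (nat_lit 105)) (XT.lf (nat_lit 0) (nat_lit 115382427218) (nat_lit 380) (nat_lit 574487753165) (nat_lit 380) (nat_lit 574487753165) (nat_lit 19) (nat_lit 3) (nat_lit 24) (nat_lit 3) (nat_lit 24) (nat_lit 5) (nat_lit 266) (nat_lit 266) (nat_lit 128))) (XT.nd (nat_lit 78) (nat_lit 0) (nat_lit 76) (XT.lf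 (nat_lit 0) (nat_lit 248072227703) (nat_lit 380) (nat_lit 7793047000) (nat_lit 380) (nat_lit 2462504280995) (nat_lit 19) (nat_lit 3) (nat_lit 24) (nat_lit 3) (nat_lit 24) (nat_lit 5) (nat_lit 267) (nat_lit 266) (nat_lit 127)) (XT.lf (nat_lit 0) (nat_lit 373020958835) (nat_lit 304) (nat_lit 1541264754031) (nat_lit 380) (nat_lit 1006428796952) (nat_lit 20) (nat_lit 5) (nat_lit 24) (nat_lit 5) (nat_lit 25) (nat_lit 5) (nat_lit 268) (nat_lit 266) (nat_lit 126)))) (XT.nd (nat_lit 156) (nat_lit 228) (nat_lit 0) (XT.nd (nat_lit 78) (nat_lit 0) (nat_lit 76) (XT.lf (nat_lit 0) (nat_lit 529322820999) (nat_lit 304) (nat_lit 189898751404) (nat_lit 380) (nat_lit 2432298011458) (nat_lit 20) (nat_lit 5) (nat_lit 24) (nat_lit 5) (nat_lit 25) (nat_lit 5) (nat_lit 269) (nat_lit 266) (nat_lit 125)) (XT.lf (nat_lit 0) (nat_lit 801156924492) (nat_lit 304) (nat_lit 1940234409251) (nat_lit 76) (nat_lit 661741040972)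 (nat_lit 21) (nat_lit 5) (nat_lit 25) (nat_lit 5) (nat_lit 22) (nat_lit 5) (nat_lit 270) (nat_lit 266) (nat_lit 124))) (XT.nd (nat_lit 78) (nat_lit 304) (nat_lit 0) (XT.lf (nat_lit 0) (nat_lit 1158414006034) (nat_lit 304) (nat_lit 340763224499) (nat_lit 76) (nat_lit 2186612674292) (nat_lit 21) (nat_lit 5) (nat_lit 25) (nat_lit 5) (nat_lit 22) (nat_lit 5) (nat_lit 271) (nat_lit 266) (nat_lit 123)) (XT.nd (nat_lit 78) (nat_lit 0) (nat_lit 0) (XT.lf (nat_lit 0) (nat_lit 1637698237683) (nat_lit 380) (nat_lit 2355861720931) (nat_lit 76) (nat_lit 7020317663) (nat_lit 17) (nat_lit 5) (nat_lit 22) (nat_lit 5) (nat_lit 18) (nat_lit 5) (nat_lit 272) (nat_lit 266) (nat_lit 122)) (XT.lf (nat_lit 0) (nat_lit 2278925338368) (nat_lit 380) (nat_lit 465835181307) (nat_lit 76) (nat_lit 1604321148632) (nat_lit 17) (nat_lit 5) (nat_lit 22) (nat_lit 5) (nat_lit 18) (nat_lit 5) (nat_lit 273) (nat_lit 266)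 (nat_lit 121)))))) (XT.nd (nat_lit 312) (nat_lit 304) (nat_lit 0) (XT.nd (nat_lit 156) (nat_lit 152) (nat_lit 0) (XT.nd (nat_lit 78) (nat_lit 0) (nat_lit 0) (XT.lf (nat_lit 0) (nat_lit 1874583746384) (nat_lit 152) (nat_lit 1219375272377) (nat_lit 228) (nat_lit 1644255873194) (nat_lit 15) (nat_lit 5) (nat_lit 17) (nat_lit 5) (nat_lit 18) (nat_lit 5) (nat_lit 274) (nat_lit 266) (nat_lit 120)) (XT.lf (nat_lit 0) (nat_lit 4078903435356) (nat_lit 228) (nat_lit 586951703001) (nat_lit 76) (nat_lit 512714608176) (nat_lit 15) (nat_lit 5) (nat_lit 18) (nat_lit 5) (nat_lit 16) (nat_lit 4) (nat_lit 275) (nat_lit 266) (nat_lit 119))) (XT.nd (nat_lit 78) (nat_lit 76) (nat_lit 0) (XT.lf (nat_lit 0) (nat_lit 2165996118505) (nat_lit 76) (nat_lit 3193348164741) (nat_lit 152) (nat_lit 303470330732) (nat_lit 14) (nat_lit 5) (nat_lit 15) (nat_lit 5) (nat_lit 16) (nat_lit 4) (nat_lit 276) (nat_lit 266) (nat_lit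 118)) (XT.lf (nat_lit 0) (nat_lit 589799364046) (nat_lit 152) (nat_lit 844051558749) (nat_lit 76) (nat_lit 4777221694591) (nat_lit 13) (nat_lit 5) (nat_lit 15) (nat_lit 5) (nat_lit 14) (nat_lit 5) (nat_lit 277) (nat_lit 266) (nat_lit 117)))) (XT.nd (nat_lit 156) (nat_lit 152) (nat_lit 0) (XT.nd (nat_lit 78) (nat_lit 0) (nat_lit 0) (XT.lf (nat_lit 0) (nat_lit 1715480443896) (nat_lit 228) (nat_lit 4447885822010) (nat_lit 76) (nat_lit 656611833331) (nat_lit 11) (nat_lit 5) (nat_lit 14) (nat_lit 5) (nat_lit 12) (nat_lit 4) (nat_lit 278) (nat_lit 266) (nat_lit 116)) (XT.lf (nat_lit 0) (nat_lit 3124514171670) (nat_lit 228) (nat_lit 1418463308129) (nat_lit 76) (nat_lit 2960066850676) (nat_lit 11) (nat_lit 5) (nat_lit 14) (nat_lit 5) (nat_lit 12) (nat_lit 4) (nat_lit 279) (nat_lit 266) (nat_lit 115))) (XT.nd (nat_lit 78) (nat_lit 76) (nat_lit 0) (XT.lf (nat_lit 0) (nat_lit 2267215811751) (nat_lit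 76) (nat_lit 2571567718340) (nat_lit 152) (nat_lit 3435704880588) (nat_lit 10) (nat_lit 5) (nat_lit 11) (nat_lit 5) (nat_lit 12) (nat_lit 4) (nat_lit 280) (nat_lit 266) (nat_lit 114)) (XT.nd (nat_lit 78) (nat_lit 76) (nat_lit 0) (XT.lf (nat_lit 0) (nat_lit 6665162732101) (nat_lit 76) (nat_lit 219177505424) (nat_lit 152) (nat_lit 2266186823605) (nat_lit 10) (nat_lit 5) (nat_lit 11) (nat_lit 5) (nat_lit 12) (nat_lit 4) (nat_lit 281) (nat_lit 266) (nat_lit 113)) (XT.lf (nat_lit 0) (nat_lit 1604753528420) (nat_lit 76) (nat_lit 7801369252222) (nat_lit 76) (nat_lit 726439879069) (nat_lit 9) (nat_lit 4) (nat_lit 10) (nat_lit 5) (nat_lit 10) (nat_lit 4) (nat_lit 282) (nat_lit 266) (nat_lit 112))))))) (XT.nd (nat_lit 33228) (nat_lit 0) (nat_lit 760) (XT.nd (nat_lit 312) (nat_lit 152) (nat_lit 0) (XT.nd (nat_lit 156) (nat_lit 76) (nat_lit 0) (XT.nd (nat_lit 78) (nat_lit 0) (nat_lit 0) (XT.lf (nat_lit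 0) (nat_lit 1097841358386) (nat_lit 152) (nat_lit 4714570453038) (nat_lit 76) (nat_lit 5421024596875) (nat_lit 8) (nat_lit 5) (nat_lit 10) (nat_lit 5) (nat_lit 9) (nat_lit 4) (nat_lit 283) (nat_lit 266) (nat_lit 111)) (XT.lf (nat_lit 0) (nat_lit 3121391174483) (nat_lit 152) (nat_lit 363938348789) (nat_lit 76) (nat_lit 9008922839670) (nat_lit 8) (nat_lit 5) (nat_lit 10) (nat_lit 5) (nat_lit 9) (nat_lit 4) (nat_lit 284) (nat_lit 266) (nat_lit 110))) (XT.nd (nat_lit 78) (nat_lit 0) (nat_lit 0) (XT.lf (nat_lit 0) (nat_lit 5092673590019) (nat_lit 76) (nat_lit 566676625916) (nat_lit 152) (nat_lit 8253208981907) (nat_lit 7) (nat_lit 5) (nat_lit 8) (nat_lit 5) (nat_lit 9) (nat_lit 4) (nat_lit 285) (nat_lit 266) (nat_lit 109)) (XT.lf (nat_lit 0) (nat_lit 8713451671204) (nat_lit 152) (nat_lit 4248503931507) (nat_lit 0) (nat_lit 2561339171626) (nat_lit 7) (nat_lit 5) (nat_lit 9) (nat_lit 4) (nat_lit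 7) (nat_lit 4) (nat_lit 286) (nat_lit 266) (nat_lit 108)))) (XT.nd (nat_lit 156) (nat_lit 76) (nat_lit 0) (XT.nd (nat_lit 78) (nat_lit 0) (nat_lit 0) (XT.lf (nat_lit 0) (nat_lit 1077529524070) (nat_lit 76) (nat_lit 11219741621454) (nat_lit 76) (nat_lit 5067629121670) (nat_lit 6) (nat_lit 4) (nat_lit 7) (nat_lit 5) (nat_lit 7) (nat_lit 4) (nat_lit 287) (nat_lit 266) (nat_lit 107)) (XT.lf (nat_lit 0) (nat_lit 7679941905339) (nat_lit 76) (nat_lit 8960802522768) (nat_lit 76) (nat_lit 2808690022805) (nat_lit 6) (nat_lit 4) (nat_lit 7) (nat_lit 5) (nat_lit 7) (nat_lit 4) (nat_lit 288) (nat_lit 266) (nat_lit 106))) (XT.nd (nat_lit 78) (nat_lit 76) (nat_lit 0) (XT.lf (nat_lit 0) (nat_lit 15272716143448) (nat_lit 76) (nat_lit 6363022559444) (nat_lit 76) (nat_lit 210910059325) (nat_lit 6) (nat_lit 4) (nat_lit 7) (nat_lit 5) (nat_lit 7) (nat_lit 4) (nat_lit 289) (nat_lit 266) (nat_lit 105)) (XT.nd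 (nat_lit 32604) (nat_lit 0) (nat_lit 1064) (XT.lf (nat_lit 0) (nat_lit 2529350383717) (nat_lit 152) (nat_lit 714009175261) (nat_lit 76) (nat_lit 21342840090465) (nat_lit 5) (nat_lit 5) (nat_lit 7) (nat_lit 5) (nat_lit 6) (nat_lit 4) (nat_lit 290) (nat_lit 266) (nat_lit 104)) (XT.lf (nat_lit 0) (nat_lit 132689800104) (nat_lit 380) (nat_lit 660660911052) (nat_lit 380) (nat_lit 660660911052) (nat_lit 19) (nat_lit 3) (nat_lit 24) (nat_lit 3) (nat_lit 24) (nat_lit 5) (nat_lit 267) (nat_lit 267) (nat_lit 126)))))) (XT.nd (nat_lit 312) (nat_lit 304) (nat_lit 0) (XT.nd (nat_lit 156) (nat_lit 0) (nat_lit 76) (XT.nd (nat_lit 78) (nat_lit 0) (nat_lit 76) (XT.lf (nat_lit 0) (nat_lit 285283077169) (nat_lit 380) (nat_lit 8961995203) (nat_lit 380) (nat_lit 2831879914296) (nat_lit 19) (nat_lit 3) (nat_lit 24) (nat_lit 3) (nat_lit 24) (nat_lit 5) (nat_lit 268) (nat_lit 267) (nat_lit 125)) (XT.lf (nat_lit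 0) (nat_lit 428974116108) (nat_lit 304) (nat_lit 1772454456348) (nat_lit 380) (nat_lit 1157393111742) (nat_lit 20) (nat_lit 5) (nat_lit 24) (nat_lit 5) (nat_lit 25) (nat_lit 5) (nat_lit 269) (nat_lit 267) (nat_lit 124))) (XT.nd (nat_lit 78) (nat_lit 0) (nat_lit 76) (XT.lf (nat_lit 0) (nat_lit 608721255842) (nat_lit 304) (nat_lit 218383554734) (nat_lit 380) (nat_lit 2797142709043) (nat_lit 20) (nat_lit 5) (nat_lit 24) (nat_lit 5) (nat_lit 25) (nat_lit 5) (nat_lit 270) (nat_lit 267) (nat_lit 123)) (XT.lf (nat_lit 0) (nat_lit 921330473639) (nat_lit 304) (nat_lit 2231269559980) (nat_lit 76) (nat_lit 761002195674) (nat_lit 21) (nat_lit 5) (nat_lit 25) (nat_lit 5) (nat_lit 22) (nat_lit 5) (nat_lit 271) (nat_lit 267) (nat_lit 122)))) (XT.nd (nat_lit 156) (nat_lit 152) (nat_lit 0) (XT.nd (nat_lit 78) (nat_lit 304) (nat_lit 0) (XT.lf (nat_lit 0) (nat_lit 1332176116047) (nat_lit 304) (nat_lit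 391877698906) (nat_lit 76) (nat_lit 2514604574180) (nat_lit 21) (nat_lit 5) (nat_lit 25) (nat_lit 5) (nat_lit 22) (nat_lit 5) (nat_lit 272) (nat_lit 267) (nat_lit 121)) (XT.lf (nat_lit 0) (nat_lit 1883352981644) (nat_lit 380) (nat_lit 2709240968960) (nat_lit 76) (nat_lit 8073365824) (nat_lit 17) (nat_lit 5) (nat_lit 22) (nat_lit 5) (nat_lit 18) (nat_lit 5) (nat_lit 273) (nat_lit 267) (nat_lit 120))) (XT.nd (nat_lit 78) (nat_lit 152) (nat_lit 0) (XT.lf (nat_lit 0) (nat_lit 2620764146348) (nat_lit 380) (nat_lit 535710449711) (nat_lit 76) (nat_lit 1844969321372) (nat_lit 17) (nat_lit 5) (nat_lit 22) (nat_lit 5) (nat_lit 18) (nat_lit 5) (nat_lit 274) (nat_lit 267) (nat_lit 119)) (XT.nd (nat_lit 78) (nat_lit 0) (nat_lit 0) (XT.lf (nat_lit 0) (nat_lit 2155771316734) (nat_lit 152) (nat_lit 1402281561472) (nat_lit 228) (nat_lit 1890894246515) (nat_lit 15) (nat_lit 5) (nat_lit 17) (nat_lit 5)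 (nat_lit 18) (nat_lit 5) (nat_lit 275) (nat_lit 267) (nat_lit 118)) (XT.lf (nat_lit 0) (nat_lit 4690738956488) (nat_lit 228) (nat_lit 674994450323) (nat_lit 76) (nat_lit 589621800798) (nat_lit 15) (nat_lit 5) (nat_lit 18) (nat_lit 5) (nat_lit 16) (nat_lit 4) (nat_lit 276) (nat_lit 267) (nat_lit 117))))))))
noncomputable def xc122 : XT := (XT.nd (nat_lit 33930) (nat_lit 0) (nat_lit 76) (XT.nd (nat_lit 624) (nat_lit 152) (nat_lit 0) (XT.nd (nat_lit 312) (nat_lit 228) (nat_lit 0) (XT.nd (nat_lit 156) (nat_lit 152) (nat_lit 0) (XT.nd (nat_lit 78) (nat_lit 76) (nat_lit 0) (XT.lf (nat_lit 0) (nat_lit 2490895544040) (nat_lit 76) (nat_lit 3672350387084) (nat_lit 152) (nat_lit 348990874119) (nat_lit 14) (nat_lit 5) (nat_lit 15) (nat_lit 5) (nat_lit 16) (nat_lit 4) (nat_lit 277) (nat_lit 267) (nat_lit 116)) (XT.lf (nat_lit 0) (nat_lit 678269273583) (nat_lit 152) (nat_lit 970659285314) (nat_lit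 76) (nat_lit 5493804950339) (nat_lit 13) (nat_lit 5) (nat_lit 15) (nat_lit 5) (nat_lit 14) (nat_lit 5) (nat_lit 278) (nat_lit 267) (nat_lit 115))) (XT.nd (nat_lit 78) (nat_lit 0) (nat_lit 0) (XT.lf (nat_lit 0) (nat_lit 1972802515151) (nat_lit 228) (nat_lit 5115068687789) (nat_lit 76) (nat_lit 755103610467) (nat_lit 11) (nat_lit 5) (nat_lit 14) (nat_lit 5) (nat_lit 12) (nat_lit 4) (nat_lit 279) (nat_lit 267) (nat_lit 114)) (XT.lf (nat_lit 0) (nat_lit 3593191301482) (nat_lit 228) (nat_lit 1631232797807) (nat_lit 76) (nat_lit 3404076880135) (nat_lit 11) (nat_lit 5) (nat_lit 14) (nat_lit 5) (nat_lit 12) (nat_lit 4) (nat_lit 280) (nat_lit 267) (nat_lit 113)))) (XT.nd (nat_lit 156) (nat_lit 152) (nat_lit 0) (XT.nd (nat_lit 78) (nat_lit 0) (nat_lit 0) (XT.lf (nat_lit 0) (nat_lit 2607298189759) (nat_lit 76) (nat_lit 2957302873637) (nat_lit 152) (nat_lit 3951060608306) (nat_lit 10) (nat_lit 5)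 (nat_lit 11) (nat_lit 5) (nat_lit 12) (nat_lit 4) (nat_lit 281) (nat_lit 267) (nat_lit 112)) (XT.lf (nat_lit 0) (nat_lit 7664937147346) (nat_lit 76) (nat_lit 252054129103) (nat_lit 152) (nat_lit 2606114843345) (nat_lit 10) (nat_lit 5) (nat_lit 11) (nat_lit 5) (nat_lit 12) (nat_lit 4) (nat_lit 282) (nat_lit 267) (nat_lit 111))) (XT.nd (nat_lit 78) (nat_lit 76) (nat_lit 0) (XT.lf (nat_lit 0) (nat_lit 1845466563264) (nat_lit 76) (nat_lit 8971574637648) (nat_lit 76) (nat_lit 835405857270) (nat_lit 9) (nat_lit 4) (nat_lit 10) (nat_lit 5) (nat_lit 10) (nat_lit 4) (nat_lit 283) (nat_lit 267) (nat_lit 110)) (XT.lf (nat_lit 0) (nat_lit 1262517565042) (nat_lit 152) (nat_lit 5421756015850) (nat_lit 76) (nat_lit 6234178288209) (nat_lit 8) (nat_lit 5) (nat_lit 10) (nat_lit 5) (nat_lit 9) (nat_lit 4) (nat_lit 284) (nat_lit 267) (nat_lit 109))))) (XT.nd (nat_lit 312) (nat_lit 0) (nat_lit 0) (XT.nd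 (nat_lit 156) (nat_lit 76) (nat_lit 0) (XT.nd (nat_lit 78) (nat_lit 76) (nat_lit 0) (XT.lf (nat_lit 0) (nat_lit 3589599853176) (nat_lit 152) (nat_lit 418529096635) (nat_lit 76) (nat_lit 10360261267188) (nat_lit 8) (nat_lit 5) (nat_lit 10) (nat_lit 5) (nat_lit 9) (nat_lit 4) (nat_lit 285) (nat_lit 267) (nat_lit 108)) (XT.lf (nat_lit 0) (nat_lit 5856574632791) (nat_lit 76) (nat_lit 651678117902) (nat_lit 152) (nat_lit 9491190326464) (nat_lit 7) (nat_lit 5) (nat_lit 8) (nat_lit 5) (nat_lit 9) (nat_lit 4) (nat_lit 286) (nat_lit 267) (nat_lit 107))) (XT.nd (nat_lit 78) (nat_lit 76) (nat_lit 0) (XT.lf (nat_lit 0) (nat_lit 10020469424013) (nat_lit 152) (nat_lit 4885779517276) (nat_lit 0) (nat_lit 2945540048876) (nat_lit 7) (nat_lit 5) (nat_lit 9) (nat_lit 4) (nat_lit 7) (nat_lit 4) (nat_lit 287) (nat_lit 267) (nat_lit 106)) (XT.lf (nat_lit 0) (nat_lit 1239158956459) (nat_lit 76) (nat_lit 12902702862901)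 (nat_lit 76) (nat_lit 5827773487608) (nat_lit 6) (nat_lit 4) (nat_lit 7) (nat_lit 5) (nat_lit 7) (nat_lit 4) (nat_lit 288) (nat_lit 267) (nat_lit 105)))) (XT.nd (nat_lit 32760) (nat_lit 0) (nat_lit 988) (XT.nd (nat_lit 78) (nat_lit 0) (nat_lit 0) (XT.lf (nat_lit 0) (nat_lit 8831933194425) (nat_lit 76) (nat_lit 10304922899644) (nat_lit 76) (nat_lit 3229993524215) (nat_lit 6) (nat_lit 4) (nat_lit 7) (nat_lit 5) (nat_lit 7) (nat_lit 4) (nat_lit 289) (nat_lit 267) (nat_lit 104)) (XT.lf (nat_lit 0) (nat_lit 17563623567822) (nat_lit 76) (nat_lit 7317475942022) (nat_lit 76) (nat_lit 242546566475) (nat_lit 6) (nat_lit 4) (nat_lit 7) (nat_lit 5) (nat_lit 7) (nat_lit 4) (nat_lit 290) (nat_lit 267) (nat_lit 103))) (XT.nd (nat_lit 78) (nat_lit 0) (nat_lit 0) (XT.lf (nat_lit 0) (nat_lit 152593276777) (nat_lit 380) (nat_lit 759760043863) (nat_lit 380) (nat_lit 759760043863) (nat_lit 19) (nat_lit 3)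 (nat_lit 24) (nat_lit 3) (nat_lit 24) (nat_lit 5) (nat_lit 268) (nat_lit 268) (nat_lit 124)) (XT.nd (nat_lit 78) (nat_lit 0) (nat_lit 76) (XT.lf (nat_lit 0) (nat_lit 328075550322) (nat_lit 380) (nat_lit 10306287793) (nat_lit 380) (nat_lit 3256661894750) (nat_lit 19) (nat_lit 3) (nat_lit 24) (nat_lit 3) (nat_lit 24) (nat_lit 5) (nat_lit 269) (nat_lit 268) (nat_lit 123)) (XT.lf (nat_lit 0) (nat_lit 493320243692) (nat_lit 304) (nat_lit 2038322616643) (nat_lit 380) (nat_lit 1331002074909) (nat_lit 20) (nat_lit 5) (nat_lit 24) (nat_lit 5) (nat_lit 25) (nat_lit 5) (nat_lit 270) (nat_lit 268) (nat_lit 122))))))) (XT.nd (nat_lit 702) (nat_lit 456) (nat_lit 0) (XT.nd (nat_lit 312) (nat_lit 304) (nat_lit 0) (XT.nd (nat_lit 156) (nat_lit 228) (nat_lit 0) (XT.nd (nat_lit 78) (nat_lit 0) (nat_lit 76) (XT.lf (nat_lit 0) (nat_lit 700029453060) (nat_lit 304) (nat_lit 251141080851) (nat_lit 380) (nat_lit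 3216714112274) (nat_lit 20) (nat_lit 5) (nat_lit 24) (nat_lit 5) (nat_lit 25) (nat_lit 5) (nat_lit 271) (nat_lit 268) (nat_lit 121)) (XT.lf (nat_lit 0) (nat_lit 1059530052604) (nat_lit 304) (nat_lit 2565959985918) (nat_lit 76) (nat_lit 875152523934) (nat_lit 21) (nat_lit 5) (nat_lit 25) (nat_lit 5) (nat_lit 22) (nat_lit 5) (nat_lit 272) (nat_lit 268) (nat_lit 120))) (XT.nd (nat_lit 78) (nat_lit 304) (nat_lit 0) (XT.lf (nat_lit 0) (nat_lit 1532002540340) (nat_lit 304) (nat_lit 450659346734) (nat_lit 76) (nat_lit 2891795259358) (nat_lit 21) (nat_lit 5) (nat_lit 25) (nat_lit 5) (nat_lit 22) (nat_lit 5) (nat_lit 273) (nat_lit 268) (nat_lit 119)) (XT.lf (nat_lit 0) (nat_lit 2165855935173) (nat_lit 380) (nat_lit 3115627106660) (nat_lit 76) (nat_lit 9284371084) (nat_lit 17) (nat_lit 5) (nat_lit 22) (nat_lit 5) (nat_lit 18) (nat_lit 5) (nat_lit 274) (nat_lit 268) (nat_lit 118)))) (XT.nd (nat_lit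 156) (nat_lit 152) (nat_lit 0) (XT.nd (nat_lit 78) (nat_lit 152) (nat_lit 0) (XT.lf (nat_lit 0) (nat_lit 3013878773763) (nat_lit 380) (nat_lit 616067010520) (nat_lit 76) (nat_lit 2121714719914) (nat_lit 17) (nat_lit 5) (nat_lit 22) (nat_lit 5) (nat_lit 18) (nat_lit 5) (nat_lit 275) (nat_lit 268) (nat_lit 117)) (XT.lf (nat_lit 0) (nat_lit 2479137020589) (nat_lit 152) (nat_lit 1612623794360) (nat_lit 228) (nat_lit 2174528377702) (nat_lit 15) (nat_lit 5) (nat_lit 17) (nat_lit 5) (nat_lit 18) (nat_lit 5) (nat_lit 276) (nat_lit 268) (nat_lit 116))) (XT.nd (nat_lit 78) (nat_lit 152) (nat_lit 0) (XT.lf (nat_lit 0) (nat_lit 5394349804369) (nat_lit 228) (nat_lit 776243611726) (nat_lit 76) (nat_lit 678065071974) (nat_lit 15) (nat_lit 5) (nat_lit 18) (nat_lit 5) (nat_lit 16) (nat_lit 4) (nat_lit 277) (nat_lit 268) (nat_lit 115)) (XT.nd (nat_lit 78) (nat_lit 76) (nat_lit 0) (XT.lf (nat_lit 0) (nat_lit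 2864529881512) (nat_lit 76) (nat_lit 4223202943355) (nat_lit 152) (nat_lit 401339500531) (nat_lit 14) (nat_lit 5) (nat_lit 15) (nat_lit 5) (nat_lit 16) (nat_lit 4) (nat_lit 278) (nat_lit 268) (nat_lit 114)) (XT.lf (nat_lit 0) (nat_lit 780009668348) (nat_lit 152) (nat_lit 1116258172631) (nat_lit 76) (nat_lit 6317875694068) (nat_lit 13) (nat_lit 5) (nat_lit 15) (nat_lit 5) (nat_lit 14) (nat_lit 5) (nat_lit 279) (nat_lit 268) (nat_lit 113)))))) (XT.nd (nat_lit 312) (nat_lit 228) (nat_lit 0) (XT.nd (nat_lit 156) (nat_lit 76) (nat_lit 0) (XT.nd (nat_lit 78) (nat_lit 0) (nat_lit 0) (XT.lf (nat_lit 0) (nat_lit 2268722895955) (nat_lit 228) (nat_lit 5882328985268) (nat_lit 76) (nat_lit 868369153652) (nat_lit 11) (nat_lit 5) (nat_lit 14) (nat_lit 5) (nat_lit 12) (nat_lit 4) (nat_lit 280) (nat_lit 268) (nat_lit 112)) (XT.lf (nat_lit 0) (nat_lit 4132169999776) (nat_lit 228) (nat_lit 1875917712532)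 (nat_lit 76) (nat_lit 3914688413560) (nat_lit 11) (nat_lit 5) (nat_lit 14) (nat_lit 5) (nat_lit 12) (nat_lit 4) (nat_lit 281) (nat_lit 268) (nat_lit 111))) (XT.nd (nat_lit 78) (nat_lit 0) (nat_lit 0) (XT.lf (nat_lit 0) (nat_lit 2998392922944) (nat_lit 76) (nat_lit 3400898302827) (nat_lit 152) (nat_lit 4543719696247) (nat_lit 10) (nat_lit 5) (nat_lit 11) (nat_lit 5) (nat_lit 12) (nat_lit 4) (nat_lit 282) (nat_lit 268) (nat_lit 110)) (XT.lf (nat_lit 0) (nat_lit 8814677723554) (nat_lit 76) (nat_lit 289862246855) (nat_lit 152) (nat_lit 2997032066972) (nat_lit 10) (nat_lit 5) (nat_lit 11) (nat_lit 5) (nat_lit 12) (nat_lit 4) (nat_lit 283) (nat_lit 268) (nat_lit 109)))) (XT.nd (nat_lit 156) (nat_lit 76) (nat_lit 0) (XT.nd (nat_lit 78) (nat_lit 76) (nat_lit 0) (XT.lf (nat_lit 0) (nat_lit 2122286551974) (nat_lit 76) (nat_lit 10317310831475) (nat_lit 76) (nat_lit 960716733093) (nat_lit 9) (nat_lit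 4) (nat_lit 10) (nat_lit 5) (nat_lit 10) (nat_lit 4) (nat_lit 284) (nat_lit 268) (nat_lit 108)) (XT.lf (nat_lit 0) (nat_lit 1451895201990) (nat_lit 152) (nat_lit 6235019414338) (nat_lit 76) (nat_lit 7169305032804) (nat_lit 8) (nat_lit 5) (nat_lit 10) (nat_lit 5) (nat_lit 9) (nat_lit 4) (nat_lit 285) (nat_lit 268) (nat_lit 107))) (XT.nd (nat_lit 78) (nat_lit 76) (nat_lit 0) (XT.lf (nat_lit 0) (nat_lit 4128039833058) (nat_lit 152) (nat_lit 481308457749) (nat_lit 76) (nat_lit 11914300458452) (nat_lit 8) (nat_lit 5) (nat_lit 10) (nat_lit 5) (nat_lit 9) (nat_lit 4) (nat_lit 286) (nat_lit 268) (nat_lit 106)) (XT.nd (nat_lit 78) (nat_lit 0) (nat_lit 0) (XT.lf (nat_lit 0) (nat_lit 6735060830938) (nat_lit 76) (nat_lit 749429834151) (nat_lit 152) (nat_lit 10914868873370) (nat_lit 7) (nat_lit 5) (nat_lit 8) (nat_lit 5) (nat_lit 9) (nat_lit 4) (nat_lit 287) (nat_lit 268) (nat_lit 105)) (XT.lf (nat_lit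 0) (nat_lit 11523539839224) (nat_lit 152) (nat_lit 5618646441875) (nat_lit 0) (nat_lit 3387371057346) (nat_lit 7) (nat_lit 5) (nat_lit 9) (nat_lit 4) (nat_lit 7) (nat_lit 4) (nat_lit 288) (nat_lit 268) (nat_lit 104))))))))
noncomputable def xc123 : XT := (XT.nd (nat_lit 33618) (nat_lit 0) (nat_lit 0) (XT.nd (nat_lit 32916) (nat_lit 0) (nat_lit 836) (XT.nd (nat_lit 312) (nat_lit 76) (nat_lit 0) (XT.nd (nat_lit 156) (nat_lit 76) (nat_lit 0) (XT.nd (nat_lit 78) (nat_lit 0) (nat_lit 0) (XT.lf (nat_lit 0) (nat_lit 1425032802784) (nat_lit 76) (nat_lit 14838108290998) (nat_lit 76) (nat_lit 6701939509001) (nat_lit 6) (nat_lit 4) (nat_lit 7) (nat_lit 5) (nat_lit 7) (nat_lit 4) (nat_lit 289) (nat_lit 268) (nat_lit 103)) (XT.lf (nat_lit 0) (nat_lit 10156723176073) (nat_lit 76) (nat_lit 11850661333426) (nat_lit 76) (nat_lit 3714492551327) (nat_lit 6) (nat_lit 4) (nat_lit 7) (nat_lit 5) (nat_lit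 7) (nat_lit 4) (nat_lit 290) (nat_lit 268) (nat_lit 102))) (XT.nd (nat_lit 78) (nat_lit 76) (nat_lit 0) (XT.lf (nat_lit 0) (nat_lit 20198167105155) (nat_lit 76) (nat_lit 8415097332313) (nat_lit 76) (nat_lit 278928550125) (nat_lit 6) (nat_lit 4) (nat_lit 7) (nat_lit 5) (nat_lit 7) (nat_lit 4) (nat_lit 291) (nat_lit 268) (nat_lit 101)) (XT.lf (nat_lit 0) (nat_lit 3345065885106) (nat_lit 152) (nat_lit 944277129286) (nat_lit 76) (nat_lit 28225906021597) (nat_lit 5) (nat_lit 5) (nat_lit 7) (nat_lit 5) (nat_lit 6) (nat_lit 4) (nat_lit 292) (nat_lit 268) (nat_lit 100)))) (XT.nd (nat_lit 156) (nat_lit 0) (nat_lit 0) (XT.nd (nat_lit 78) (nat_lit 0) (nat_lit 0) (XT.lf (nat_lit 0) (nat_lit 7882379884632) (nat_lit 152) (nat_lit 27930199146092) (nat_lit 0) (nat_lit 807450508691) (nat_lit 4) (nat_lit 5) (nat_lit 6) (nat_lit 4) (nat_lit 4) (nat_lit 4) (nat_lit 293) (nat_lit 268) (nat_lit 99)) (XT.lf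 (nat_lit 0) (nat_lit 13356255827484) (nat_lit 152) (nat_lit 21664550112870) (nat_lit 0) (nat_lit 6281326451492) (nat_lit 4) (nat_lit 5) (nat_lit 6) (nat_lit 4) (nat_lit 4) (nat_lit 4) (nat_lit 294) (nat_lit 268) (nat_lit 98))) (XT.nd (nat_lit 78) (nat_lit 0) (nat_lit 0) (XT.lf (nat_lit 0) (nat_lit 19651213161692) (nat_lit 152) (nat_lit 14459053724805) (nat_lit 0) (nat_lit 12576283785656) (nat_lit 4) (nat_lit 5) (nat_lit 6) (nat_lit 4) (nat_lit 4) (nat_lit 4) (nat_lit 295) (nat_lit 268) (nat_lit 97)) (XT.nd (nat_lit 32292) (nat_lit 0) (nat_lit 1140) (XT.lf (nat_lit 0) (nat_lit 26890414095969) (nat_lit 152) (nat_lit 6172732878653) (nat_lit 0) (nat_lit 19815484719893) (nat_lit 4) (nat_lit 5) (nat_lit 6) (nat_lit 4) (nat_lit 4) (nat_lit 4) (nat_lit 296) (nat_lit 268) (nat_lit 96)) (XT.lf (nat_lit 0) (nat_lit 175482273327) (nat_lit 380) (nat_lit 873724047534) (nat_lit 380) (nat_lit 873724047534)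 (nat_lit 19) (nat_lit 3) (nat_lit 24) (nat_lit 3) (nat_lit 24) (nat_lit 5) (nat_lit 269) (nat_lit 269) (nat_lit 122)))))) (XT.nd (nat_lit 312) (nat_lit 304) (nat_lit 0) (XT.nd (nat_lit 156) (nat_lit 0) (nat_lit 76) (XT.nd (nat_lit 78) (nat_lit 0) (nat_lit 76) (XT.lf (nat_lit 0) (nat_lit 377286891624) (nat_lit 380) (nat_lit 11852225903) (nat_lit 380) (nat_lit 3745161173904) (nat_lit 19) (nat_lit 3) (nat_lit 24) (nat_lit 3) (nat_lit 24) (nat_lit 5) (nat_lit 270) (nat_lit 269) (nat_lit 121)) (XT.lf (nat_lit 0) (nat_lit 567318287934) (nat_lit 304) (nat_lit 2344071002971) (nat_lit 380) (nat_lit 1530652383428) (nat_lit 20) (nat_lit 5) (nat_lit 24) (nat_lit 5) (nat_lit 25) (nat_lit 5) (nat_lit 271) (nat_lit 269) (nat_lit 120))) (XT.nd (nat_lit 78) (nat_lit 0) (nat_lit 76) (XT.lf (nat_lit 0) (nat_lit 805033877705) (nat_lit 304) (nat_lit 288812237615) (nat_lit 380) (nat_lit 3699221226752) (nat_lit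 20) (nat_lit 5) (nat_lit 24) (nat_lit 5) (nat_lit 25) (nat_lit 5) (nat_lit 272) (nat_lit 269) (nat_lit 119)) (XT.lf (nat_lit 0) (nat_lit 1218459566483) (nat_lit 304) (nat_lit 2950853977711) (nat_lit 76) (nat_lit 1006425401699) (nat_lit 21) (nat_lit 5) (nat_lit 25) (nat_lit 5) (nat_lit 22) (nat_lit 5) (nat_lit 273) (nat_lit 269) (nat_lit 118)))) (XT.nd (nat_lit 156) (nat_lit 152) (nat_lit 0) (XT.nd (nat_lit 78) (nat_lit 304) (nat_lit 0) (XT.lf (nat_lit 0) (nat_lit 1761802926598) (nat_lit 304) (nat_lit 518258243444) (nat_lit 76) (nat_lit 3325564547544) (nat_lit 21) (nat_lit 5) (nat_lit 25) (nat_lit 5) (nat_lit 22) (nat_lit 5) (nat_lit 274) (nat_lit 269) (nat_lit 117)) (XT.lf (nat_lit 0) (nat_lit 2490734330200) (nat_lit 380) (nat_lit 3582971166878) (nat_lit 76) (nat_lit 10677027039) (nat_lit 17) (nat_lit 5) (nat_lit 22) (nat_lit 5) (nat_lit 18) (nat_lit 5) (nat_lit 275) (nat_lit 269) (nat_lit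 116))) (XT.nd (nat_lit 78) (nat_lit 152) (nat_lit 0) (XT.lf (nat_lit 0) (nat_lit 3465960593959) (nat_lit 380) (nat_lit 708477057072) (nat_lit 76) (nat_lit 2439971928156) (nat_lit 17) (nat_lit 5) (nat_lit 22) (nat_lit 5) (nat_lit 18) (nat_lit 5) (nat_lit 276) (nat_lit 269) (nat_lit 115)) (XT.nd (nat_lit 78) (nat_lit 0) (nat_lit 0) (XT.lf (nat_lit 0) (nat_lit 2851007578476) (nat_lit 152) (nat_lit 1854517362507) (nat_lit 228) (nat_lit 2500707629979) (nat_lit 15) (nat_lit 5) (nat_lit 17) (nat_lit 5) (nat_lit 18) (nat_lit 5) (nat_lit 277) (nat_lit 269) (nat_lit 114)) (XT.lf (nat_lit 0) (nat_lit 6203502278357) (nat_lit 228) (nat_lit 892680148838) (nat_lit 76) (nat_lit 779774833568) (nat_lit 15) (nat_lit 5) (nat_lit 18) (nat_lit 5) (nat_lit 16) (nat_lit 4) (nat_lit 278) (nat_lit 269) (nat_lit 113))))))) (XT.nd (nat_lit 702) (nat_lit 304) (nat_lit 0) (XT.nd (nat_lit 312) (nat_lit 228) (nat_lit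 0) (XT.nd (nat_lit 156) (nat_lit 152) (nat_lit 0) (XT.nd (nat_lit 78) (nat_lit 76) (nat_lit 0) (XT.lf (nat_lit 0) (nat_lit 3294209368175) (nat_lit 76) (nat_lit 4856683383504) (nat_lit 152) (nat_lit 461540422053) (nat_lit 14) (nat_lit 5) (nat_lit 15) (nat_lit 5) (nat_lit 16) (nat_lit 4) (nat_lit 279) (nat_lit 269) (nat_lit 112)) (XT.lf (nat_lit 0) (nat_lit 897011121419) (nat_lit 152) (nat_lit 1283696894383) (nat_lit 76) (nat_lit 7265557049070) (nat_lit 13) (nat_lit 5) (nat_lit 15) (nat_lit 5) (nat_lit 14) (nat_lit 5) (nat_lit 280) (nat_lit 269) (nat_lit 111))) (XT.nd (nat_lit 78) (nat_lit 0) (nat_lit 0) (XT.lf (nat_lit 0) (nat_lit 2609031333019) (nat_lit 228) (nat_lit 6764678328757) (nat_lit 76) (nat_lit 998624527921) (nat_lit 11) (nat_lit 5) (nat_lit 14) (nat_lit 5) (nat_lit 12) (nat_lit 4) (nat_lit 281) (nat_lit 269) (nat_lit 110)) (XT.lf (nat_lit 0) (nat_lit 4751995502064) (nat_lit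 228) (nat_lit 2157305365671) (nat_lit 76) (nat_lit 4501891676656) (nat_lit 11) (nat_lit 5) (nat_lit 14) (nat_lit 5) (nat_lit 12) (nat_lit 4) (nat_lit 282) (nat_lit 269) (nat_lit 109)))) (XT.nd (nat_lit 156) (nat_lit 152) (nat_lit 0) (XT.nd (nat_lit 78) (nat_lit 0) (nat_lit 0) (XT.lf (nat_lit 0) (nat_lit 3448151864956) (nat_lit 76) (nat_lit 3911033046848) (nat_lit 152) (nat_lit 5225277648185) (nat_lit 10) (nat_lit 5) (nat_lit 11) (nat_lit 5) (nat_lit 12) (nat_lit 4) (nat_lit 283) (nat_lit 269) (nat_lit 108)) (XT.lf (nat_lit 0) (nat_lit 10136879385191) (nat_lit 76) (nat_lit 333341582663) (nat_lit 152) (nat_lit 3446586874845) (nat_lit 10) (nat_lit 5) (nat_lit 11) (nat_lit 5) (nat_lit 12) (nat_lit 4) (nat_lit 284) (nat_lit 269) (nat_lit 107))) (XT.nd (nat_lit 78) (nat_lit 76) (nat_lit 0) (XT.lf (nat_lit 0) (nat_lit 2440629537961) (nat_lit 76) (nat_lit 11864907454820) (nat_lit 76) (nat_lit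 1104824240965) (nat_lit 9) (nat_lit 4) (nat_lit 10) (nat_lit 5) (nat_lit 10) (nat_lit 4) (nat_lit 285) (nat_lit 269) (nat_lit 106)) (XT.nd (nat_lit 78) (nat_lit 0) (nat_lit 0) (XT.lf (nat_lit 0) (nat_lit 1669679483946) (nat_lit 152) (nat_lit 7170272323548) (nat_lit 76) (nat_lit 8244700788755) (nat_lit 8) (nat_lit 5) (nat_lit 10) (nat_lit 5) (nat_lit 9) (nat_lit 4) (nat_lit 286) (nat_lit 269) (nat_lit 105)) (XT.lf (nat_lit 0) (nat_lit 4747245809458) (nat_lit 152) (nat_lit 553504723854) (nat_lit 76) (nat_lit 13701445528116) (nat_lit 8) (nat_lit 5) (nat_lit 10) (nat_lit 5) (nat_lit 9) (nat_lit 4) (nat_lit 287) (nat_lit 269) (nat_lit 104)))))) (XT.nd (nat_lit 312) (nat_lit 152) (nat_lit 0) (XT.nd (nat_lit 156) (nat_lit 76) (nat_lit 0) (XT.nd (nat_lit 78) (nat_lit 0) (nat_lit 0) (XT.lf (nat_lit 0) (nat_lit 7745319958020) (nat_lit 76) (nat_lit 861844308186) (nat_lit 152) (nat_lit 12552099202815)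 (nat_lit 7) (nat_lit 5) (nat_lit 8) (nat_lit 5) (nat_lit 9) (nat_lit 4) (nat_lit 288) (nat_lit 269) (nat_lit 103)) (XT.lf (nat_lit 0) (nat_lit 13252070816325) (nat_lit 152) (nat_lit 6461443405893) (nat_lit 0) (nat_lit 3895476716808) (nat_lit 7) (nat_lit 5) (nat_lit 9) (nat_lit 4) (nat_lit 7) (nat_lit 4) (nat_lit 289) (nat_lit 269) (nat_lit 102))) (XT.nd (nat_lit 78) (nat_lit 0) (nat_lit 0) (XT.lf (nat_lit 0) (nat_lit 1638787725362) (nat_lit 76) (nat_lit 17063824533635) (nat_lit 76) (nat_lit 7707230434030) (nat_lit 6) (nat_lit 4) (nat_lit 7) (nat_lit 5) (nat_lit 7) (nat_lit 4) (nat_lit 290) (nat_lit 269) (nat_lit 101)) (XT.lf (nat_lit 0) (nat_lit 11680231654362) (nat_lit 76) (nat_lit 13628260532560) (nat_lit 76) (nat_lit 4271666432877) (nat_lit 6) (nat_lit 4) (nat_lit 7) (nat_lit 5) (nat_lit 7) (nat_lit 4) (nat_lit 291) (nat_lit 269) (nat_lit 100)))) (XT.nd (nat_lit 156) (nat_lit 76)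 (nat_lit 0) (XT.nd (nat_lit 78) (nat_lit 76) (nat_lit 0) (XT.lf (nat_lit 0) (nat_lit 23227892172561) (nat_lit 76) (nat_lit 9677361931394) (nat_lit 76) (nat_lit 320767831644) (nat_lit 6) (nat_lit 4) (nat_lit 7) (nat_lit 5) (nat_lit 7) (nat_lit 4) (nat_lit 292) (nat_lit 269) (nat_lit 99)) (XT.lf (nat_lit 0) (nat_lit 3846825768664) (nat_lit 152) (nat_lit 1085918697180) (nat_lit 76) (nat_lit 32459791925423) (nat_lit 5) (nat_lit 5) (nat_lit 7) (nat_lit 5) (nat_lit 6) (nat_lit 4) (nat_lit 293) (nat_lit 269) (nat_lit 98))) (XT.nd (nat_lit 78) (nat_lit 0) (nat_lit 0) (XT.lf (nat_lit 0) (nat_lit 9064736868103) (nat_lit 152) (nat_lit 32119729016490) (nat_lit 0) (nat_lit 928568085617) (nat_lit 4) (nat_lit 5) (nat_lit 6) (nat_lit 4) (nat_lit 4) (nat_lit 4) (nat_lit 294) (nat_lit 269) (nat_lit 97)) (XT.nd (nat_lit 78) (nat_lit 0) (nat_lit 0) (XT.lf (nat_lit 0) (nat_lit 15359694202282) (nat_lit 152)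 (nat_lit 24914232628482) (nat_lit 0) (nat_lit 7223525419757) (nat_lit 4) (nat_lit 5) (nat_lit 6) (nat_lit 4) (nat_lit 4) (nat_lit 4) (nat_lit 295) (nat_lit 269) (nat_lit 96)) (XT.lf (nat_lit 0) (nat_lit 22598895136533) (nat_lit 152) (nat_lit 16627911782380) (nat_lit 0) (nat_lit 14462726353974) (nat_lit 4) (nat_lit 5) (nat_lit 6) (nat_lit 4) (nat_lit 4) (nat_lit 4) (nat_lit 296) (nat_lit 269) (nat_lit 95))))))))
noncomputable def xc124 : XT := (XT.nd (nat_lit 1326) (nat_lit 380) (nat_lit 0) (XT.nd (nat_lit 624) (nat_lit 608) (nat_lit 0) (XT.nd (nat_lit 312) (nat_lit 152) (nat_lit 0) (XT.nd (nat_lit 156) (nat_lit 0) (nat_lit 76) (XT.nd (nat_lit 78) (nat_lit 0) (nat_lit 0) (XT.lf (nat_lit 0) (nat_lit 201804618132) (nat_lit 380) (nat_lit 1004782652465) (nat_lit 380) (nat_lit 1004782652465) (nat_lit 19) (nat_lit 3) (nat_lit 24) (nat_lit 3) (nat_lit 24) (nat_lit 5) (nat_lit 270) (nat_lit 270)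 (nat_lit 120)) (XT.lf (nat_lit 0) (nat_lit 433879931987) (nat_lit 380) (nat_lit 13630055964) (nat_lit 380) (nat_lit 4306935346165) (nat_lit 19) (nat_lit 3) (nat_lit 24) (nat_lit 3) (nat_lit 24) (nat_lit 5) (nat_lit 271) (nat_lit 270) (nat_lit 119))) (XT.nd (nat_lit 78) (nat_lit 0) (nat_lit 0) (XT.lf (nat_lit 0) (nat_lit 652416036938) (nat_lit 304) (nat_lit 2695681648753) (nat_lit 380) (nat_lit 1760250238887) (nat_lit 20) (nat_lit 5) (nat_lit 24) (nat_lit 5) (nat_lit 25) (nat_lit 5) (nat_lit 272) (nat_lit 270) (nat_lit 118)) (XT.lf (nat_lit 0) (nat_lit 925788964416) (nat_lit 304) (nat_lit 332134069202) (nat_lit 380) (nat_lit 4254104408978) (nat_lit 20) (nat_lit 5) (nat_lit 24) (nat_lit 5) (nat_lit 25) (nat_lit 5) (nat_lit 273) (nat_lit 270) (nat_lit 117)))) (XT.nd (nat_lit 156) (nat_lit 304) (nat_lit 0) (XT.nd (nat_lit 78) (nat_lit 0) (nat_lit 0) (XT.lf (nat_lit 0) (nat_lit 1401228505984)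 (nat_lit 304) (nat_lit 3393482069760) (nat_lit 76) (nat_lit 1157389211330) (nat_lit 21) (nat_lit 5) (nat_lit 25) (nat_lit 5) (nat_lit 22) (nat_lit 5) (nat_lit 274) (nat_lit 270) (nat_lit 116)) (XT.lf (nat_lit 0) (nat_lit 2026073369526) (nat_lit 304) (nat_lit 595996975954) (nat_lit 76) (nat_lit 3824399229134) (nat_lit 21) (nat_lit 5) (nat_lit 25) (nat_lit 5) (nat_lit 22) (nat_lit 5) (nat_lit 275) (nat_lit 270) (nat_lit 115))) (XT.nd (nat_lit 78) (nat_lit 0) (nat_lit 0) (XT.lf (nat_lit 0) (nat_lit 2864344483322) (nat_lit 380) (nat_lit 4120416837538) (nat_lit 76) (nat_lit 12278581317) (nat_lit 17) (nat_lit 5) (nat_lit 22) (nat_lit 5) (nat_lit 18) (nat_lit 5) (nat_lit 276) (nat_lit 270) (nat_lit 114)) (XT.lf (nat_lit 0) (nat_lit 3985854686176) (nat_lit 380) (nat_lit 814748611832) (nat_lit 76) (nat_lit 2805967717572) (nat_lit 17) (nat_lit 5) (nat_lit 22) (nat_lit 5) (nat_lit 18) (nat_lit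 5) (nat_lit 277) (nat_lit 270) (nat_lit 113))))) (XT.nd (nat_lit 312) (nat_lit 304) (nat_lit 0) (XT.nd (nat_lit 156) (nat_lit 152) (nat_lit 0) (XT.nd (nat_lit 78) (nat_lit 0) (nat_lit 0) (XT.lf (nat_lit 0) (nat_lit 3278658718876) (nat_lit 152) (nat_lit 2132694966122) (nat_lit 228) (nat_lit 2875813771165) (nat_lit 15) (nat_lit 5) (nat_lit 17) (nat_lit 5) (nat_lit 18) (nat_lit 5) (nat_lit 278) (nat_lit 270) (nat_lit 112)) (XT.lf (nat_lit 0) (nat_lit 7134027622630) (nat_lit 228) (nat_lit 1026582167650) (nat_lit 76) (nat_lit 896741059206) (nat_lit 15) (nat_lit 5) (nat_lit 18) (nat_lit 5) (nat_lit 16) (nat_lit 4) (nat_lit 279) (nat_lit 270) (nat_lit 111))) (XT.nd (nat_lit 78) (nat_lit 76) (nat_lit 0) (XT.lf (nat_lit 0) (nat_lit 3788340776755) (nat_lit 76) (nat_lit 5585185890006) (nat_lit 152) (nat_lit 530771482670) (nat_lit 14) (nat_lit 5) (nat_lit 15) (nat_lit 5) (nat_lit 16) (nat_lit 4)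 (nat_lit 280) (nat_lit 270) (nat_lit 110)) (XT.lf (nat_lit 0) (nat_lit 1031562791764) (nat_lit 152) (nat_lit 1476251425407) (nat_lit 76) (nat_lit 8355390607104) (nat_lit 13) (nat_lit 5) (nat_lit 15) (nat_lit 5) (nat_lit 14) (nat_lit 5) (nat_lit 281) (nat_lit 270) (nat_lit 109)))) (XT.nd (nat_lit 156) (nat_lit 152) (nat_lit 0) (XT.nd (nat_lit 78) (nat_lit 0) (nat_lit 0) (XT.lf (nat_lit 0) (nat_lit 3000386034991) (nat_lit 228) (nat_lit 7779380074819) (nat_lit 76) (nat_lit 1148418208032) (nat_lit 11) (nat_lit 5) (nat_lit 14) (nat_lit 5) (nat_lit 12) (nat_lit 4) (nat_lit 282) (nat_lit 270) (nat_lit 108)) (XT.lf (nat_lit 0) (nat_lit 5464794829129) (nat_lit 228) (nat_lit 2480901167694) (nat_lit 76) (nat_lit 5177175428957) (nat_lit 11) (nat_lit 5) (nat_lit 14) (nat_lit 5) (nat_lit 12) (nat_lit 4) (nat_lit 283) (nat_lit 270) (nat_lit 107))) (XT.nd (nat_lit 78) (nat_lit 76) (nat_lit 0) (XT.lf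 (nat_lit 0) (nat_lit 3965374647399) (nat_lit 76) (nat_lit 4497688002814) (nat_lit 152) (nat_lit 6009069293523) (nat_lit 10) (nat_lit 5) (nat_lit 11) (nat_lit 5) (nat_lit 12) (nat_lit 4) (nat_lit 284) (nat_lit 270) (nat_lit 106)) (XT.nd (nat_lit 78) (nat_lit 76) (nat_lit 0) (XT.lf (nat_lit 0) (nat_lit 11657411295318) (nat_lit 76) (nat_lit 383342819139) (nat_lit 152) (nat_lit 3963574904429) (nat_lit 10) (nat_lit 5) (nat_lit 11) (nat_lit 5) (nat_lit 12) (nat_lit 4) (nat_lit 285) (nat_lit 270) (nat_lit 105)) (XT.lf (nat_lit 0) (nat_lit 2806723971068) (nat_lit 76) (nat_lit 13644643572003) (nat_lit 76) (nat_lit 1270547875528) (nat_lit 9) (nat_lit 4) (nat_lit 10) (nat_lit 5) (nat_lit 10) (nat_lit 4) (nat_lit 286) (nat_lit 270) (nat_lit 104))))))) (XT.nd (nat_lit 33150) (nat_lit 0) (nat_lit 836) (XT.nd (nat_lit 312) (nat_lit 228) (nat_lit 0) (XT.nd (nat_lit 156) (nat_lit 76) (nat_lit 0) (XT.nd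 (nat_lit 78) (nat_lit 0) (nat_lit 0) (XT.lf (nat_lit 0) (nat_lit 1920131407791) (nat_lit 152) (nat_lit 8245813169857) (nat_lit 76) (nat_lit 9481405907848) (nat_lit 8) (nat_lit 5) (nat_lit 10) (nat_lit 5) (nat_lit 9) (nat_lit 4) (nat_lit 287) (nat_lit 270) (nat_lit 103)) (XT.lf (nat_lit 0) (nat_lit 5459332681967) (nat_lit 152) (nat_lit 636530430498) (nat_lit 76) (nat_lit 15756662358012) (nat_lit 8) (nat_lit 5) (nat_lit 10) (nat_lit 5) (nat_lit 9) (nat_lit 4) (nat_lit 288) (nat_lit 270) (nat_lit 102))) (XT.nd (nat_lit 78) (nat_lit 0) (nat_lit 0) (XT.lf (nat_lit 0) (nat_lit 8907117953569) (nat_lit 76) (nat_lit 991120953593) (nat_lit 152) (nat_lit 14434914082058) (nat_lit 7) (nat_lit 5) (nat_lit 8) (nat_lit 5) (nat_lit 9) (nat_lit 4) (nat_lit 289) (nat_lit 270) (nat_lit 101)) (XT.lf (nat_lit 0) (nat_lit 15239881439693) (nat_lit 152) (nat_lit 7430659915067) (nat_lit 0) (nat_lit 4479798224981)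 (nat_lit 7) (nat_lit 5) (nat_lit 9) (nat_lit 4) (nat_lit 7) (nat_lit 4) (nat_lit 290) (nat_lit 270) (nat_lit 100)))) (XT.nd (nat_lit 156) (nat_lit 152) (nat_lit 0) (XT.nd (nat_lit 78) (nat_lit 0) (nat_lit 0) (XT.lf (nat_lit 0) (nat_lit 1884605885799) (nat_lit 76) (nat_lit 19623398212915) (nat_lit 76) (nat_lit 8863314998135) (nat_lit 6) (nat_lit 4) (nat_lit 7) (nat_lit 5) (nat_lit 7) (nat_lit 4) (nat_lit 291) (nat_lit 270) (nat_lit 99)) (XT.lf (nat_lit 0) (nat_lit 13432266403937) (nat_lit 76) (nat_lit 15672499611778) (nat_lit 76) (nat_lit 4912416396939) (nat_lit 6) (nat_lit 4) (nat_lit 7) (nat_lit 5) (nat_lit 7) (nat_lit 4) (nat_lit 292) (nat_lit 270) (nat_lit 98))) (XT.nd (nat_lit 78) (nat_lit 152) (nat_lit 0) (XT.lf (nat_lit 0) (nat_lit 26712075999681) (nat_lit 76) (nat_lit 11128966220524) (nat_lit 76) (nat_lit 368883005635) (nat_lit 6) (nat_lit 4) (nat_lit 7) (nat_lit 5) (nat_lit 7)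 (nat_lit 4) (nat_lit 293) (nat_lit 270) (nat_lit 97)) (XT.nd (nat_lit 78) (nat_lit 76) (nat_lit 0) (XT.lf (nat_lit 0) (nat_lit 4423849634562) (nat_lit 152) (nat_lit 1248806500624) (nat_lit 76) (nat_lit 37328760714680) (nat_lit 5) (nat_lit 5) (nat_lit 7) (nat_lit 5) (nat_lit 6) (nat_lit 4) (nat_lit 294) (nat_lit 270) (nat_lit 96)) (XT.lf (nat_lit 0) (nat_lit 10424447398906) (nat_lit 152) (nat_lit 36937688367818) (nat_lit 0) (nat_lit 1067853298930) (nat_lit 4) (nat_lit 5) (nat_lit 6) (nat_lit 4) (nat_lit 4) (nat_lit 4) (nat_lit 295) (nat_lit 270) (nat_lit 95)))))) (XT.nd (nat_lit 312) (nat_lit 304) (nat_lit 0) (XT.nd (nat_lit 156) (nat_lit 0) (nat_lit 76) (XT.nd (nat_lit 78) (nat_lit 0) (nat_lit 0) (XT.lf (nat_lit 0) (nat_lit 232075313730) (nat_lit 380) (nat_lit 1155500048671) (nat_lit 380) (nat_lit 1155500048671) (nat_lit 19) (nat_lit 3) (nat_lit 24) (nat_lit 3) (nat_lit 24) (nat_lit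 5) (nat_lit 271) (nat_lit 271) (nat_lit 118)) (XT.lf (nat_lit 0) (nat_lit 498961926790) (nat_lit 380) (nat_lit 15674561466) (nat_lit 380) (nat_lit 4952975645198) (nat_lit 19) (nat_lit 3) (nat_lit 24) (nat_lit 3) (nat_lit 24) (nat_lit 5) (nat_lit 272) (nat_lit 271) (nat_lit 117))) (XT.nd (nat_lit 78) (nat_lit 0) (nat_lit 0) (XT.lf (nat_lit 0) (nat_lit 750278446875) (nat_lit 304) (nat_lit 3100033892540) (nat_lit 380) (nat_lit 2024287773166) (nat_lit 20) (nat_lit 5) (nat_lit 24) (nat_lit 5) (nat_lit 25) (nat_lit 5) (nat_lit 273) (nat_lit 271) (nat_lit 116)) (XT.lf (nat_lit 0) (nat_lit 1064657312901) (nat_lit 304) (nat_lit 381954176515) (nat_lit 380) (nat_lit 4892220068974) (nat_lit 20) (nat_lit 5) (nat_lit 24) (nat_lit 5) (nat_lit 25) (nat_lit 5) (nat_lit 274) (nat_lit 271) (nat_lit 115)))) (XT.nd (nat_lit 156) (nat_lit 456) (nat_lit 0) (XT.nd (nat_lit 78) (nat_lit 0) (nat_lit 0) (XT.lf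 (nat_lit 0) (nat_lit 1611412785305) (nat_lit 304) (nat_lit 3902504376740) (nat_lit 76) (nat_lit 1330997592557) (nat_lit 21) (nat_lit 5) (nat_lit 25) (nat_lit 5) (nat_lit 22) (nat_lit 5) (nat_lit 275) (nat_lit 271) (nat_lit 114)) (XT.lf (nat_lit 0) (nat_lit 2329984377932) (nat_lit 304) (nat_lit 685396519318) (nat_lit 76) (nat_lit 4398059113093) (nat_lit 21) (nat_lit 5) (nat_lit 25) (nat_lit 5) (nat_lit 22) (nat_lit 5) (nat_lit 276) (nat_lit 271) (nat_lit 113))) (XT.nd (nat_lit 78) (nat_lit 152) (nat_lit 0) (XT.lf (nat_lit 0) (nat_lit 3293996158537) (nat_lit 380) (nat_lit 4738479359864) (nat_lit 76) (nat_lit 14120368681) (nat_lit 17) (nat_lit 5) (nat_lit 22) (nat_lit 5) (nat_lit 18) (nat_lit 5) (nat_lit 277) (nat_lit 271) (nat_lit 112)) (XT.nd (nat_lit 78) (nat_lit 152) (nat_lit 0) (XT.lf (nat_lit 0) (nat_lit 4583732891465) (nat_lit 380) (nat_lit 936960900732) (nat_lit 76) (nat_lit 3226862875353)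 (nat_lit 17) (nat_lit 5) (nat_lit 22) (nat_lit 5) (nat_lit 18) (nat_lit 5) (nat_lit 278) (nat_lit 271) (nat_lit 111)) (XT.lf (nat_lit 0) (nat_lit 3770457529451) (nat_lit 152) (nat_lit 2452599210464) (nat_lit 228) (nat_lit 3307185834337) (nat_lit 15) (nat_lit 5) (nat_lit 17) (nat_lit 5) (nat_lit 18) (nat_lit 5) (nat_lit 279) (nat_lit 271) (nat_lit 110))))))))
noncomputable def xc125 : XT := (XT.nd (nat_lit 34086) (nat_lit 0) (nat_lit 0) (XT.nd (nat_lit 780) (nat_lit 152) (nat_lit 0) (XT.nd (nat_lit 312) (nat_lit 228) (nat_lit 0) (XT.nd (nat_lit 156) (nat_lit 228) (nat_lit 0) (XT.nd (nat_lit 78) (nat_lit 76) (nat_lit 0) (XT.lf (nat_lit 0) (nat_lit 8204131767930) (nat_lit 228) (nat_lit 1180569490140) (nat_lit 76) (nat_lit 1031252218544) (nat_lit 15) (nat_lit 5) (nat_lit 18) (nat_lit 5) (nat_lit 16) (nat_lit 4) (nat_lit 280) (nat_lit 271) (nat_lit 109)) (XT.lf (nat_lit 0) (nat_lit 4356591895805)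 (nat_lit 76) (nat_lit 6422963772733) (nat_lit 152) (nat_lit 610387203036) (nat_lit 14) (nat_lit 5) (nat_lit 15) (nat_lit 5) (nat_lit 16) (nat_lit 4) (nat_lit 281) (nat_lit 271) (nat_lit 108))) (XT.nd (nat_lit 78) (nat_lit 152) (nat_lit 0) (XT.lf (nat_lit 0) (nat_lit 1186297212140) (nat_lit 152) (nat_lit 1697689136849) (nat_lit 76) (nat_lit 9608699198680) (nat_lit 13) (nat_lit 5) (nat_lit 15) (nat_lit 5) (nat_lit 14) (nat_lit 5) (nat_lit 282) (nat_lit 271) (nat_lit 107)) (XT.lf (nat_lit 0) (nat_lit 3450443941766) (nat_lit 228) (nat_lit 8946287083582) (nat_lit 76) (nat_lit 1320680939935) (nat_lit 11) (nat_lit 5) (nat_lit 14) (nat_lit 5) (nat_lit 12) (nat_lit 4) (nat_lit 283) (nat_lit 271) (nat_lit 106)))) (XT.nd (nat_lit 156) (nat_lit 152) (nat_lit 0) (XT.nd (nat_lit 78) (nat_lit 76) (nat_lit 0) (XT.lf (nat_lit 0) (nat_lit 6284514054826) (nat_lit 228) (nat_lit 2853036340709) (nat_lit 76)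 (nat_lit 5953751743908) (nat_lit 11) (nat_lit 5) (nat_lit 14) (nat_lit 5) (nat_lit 12) (nat_lit 4) (nat_lit 284) (nat_lit 271) (nat_lit 105)) (XT.lf (nat_lit 0) (nat_lit 4560180846551) (nat_lit 76) (nat_lit 5172341202434) (nat_lit 152) (nat_lit 6910429686122) (nat_lit 10) (nat_lit 5) (nat_lit 11) (nat_lit 5) (nat_lit 12) (nat_lit 4) (nat_lit 285) (nat_lit 271) (nat_lit 104))) (XT.nd (nat_lit 78) (nat_lit 152) (nat_lit 0) (XT.lf (nat_lit 0) (nat_lit 13406022991390) (nat_lit 76) (nat_lit 440844241313) (nat_lit 152) (nat_lit 4558111138851) (nat_lit 10) (nat_lit 5) (nat_lit 11) (nat_lit 5) (nat_lit 12) (nat_lit 4) (nat_lit 286) (nat_lit 271) (nat_lit 103)) (XT.nd (nat_lit 78) (nat_lit 76) (nat_lit 0) (XT.lf (nat_lit 0) (nat_lit 3227732568552) (nat_lit 76) (nat_lit 15691340107016) (nat_lit 76) (nat_lit 1461130055661) (nat_lit 9) (nat_lit 4) (nat_lit 10) (nat_lit 5) (nat_lit 10) (nat_lit 4)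 (nat_lit 287) (nat_lit 271) (nat_lit 102)) (XT.lf (nat_lit 0) (nat_lit 2208151119908) (nat_lit 152) (nat_lit 9482685143654) (nat_lit 76) (nat_lit 10903616794615) (nat_lit 8) (nat_lit 5) (nat_lit 10) (nat_lit 5) (nat_lit 9) (nat_lit 4) (nat_lit 288) (nat_lit 271) (nat_lit 101)))))) (XT.nd (nat_lit 312) (nat_lit 0) (nat_lit 0) (XT.nd (nat_lit 156) (nat_lit 76) (nat_lit 0) (XT.nd (nat_lit 78) (nat_lit 0) (nat_lit 0) (XT.lf (nat_lit 0) (nat_lit 10243185648000) (nat_lit 76) (nat_lit 1139789096010) (nat_lit 152) (nat_lit 16600151193474) (nat_lit 7) (nat_lit 5) (nat_lit 8) (nat_lit 5) (nat_lit 9) (nat_lit 4) (nat_lit 290) (nat_lit 271) (nat_lit 99)) (XT.lf (nat_lit 0) (nat_lit 17525863656343) (nat_lit 152) (nat_lit 8545258901033) (nat_lit 0) (nat_lit 5151767959220) (nat_lit 7) (nat_lit 5) (nat_lit 9) (nat_lit 4) (nat_lit 7) (nat_lit 4) (nat_lit 291) (nat_lit 271) (nat_lit 98))) (XT.nd (nat_lit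 78) (nat_lit 0) (nat_lit 0) (XT.lf (nat_lit 0) (nat_lit 2167296769904) (nat_lit 76) (nat_lit 22566907944273) (nat_lit 76) (nat_lit 10192812247099) (nat_lit 6) (nat_lit 4) (nat_lit 7) (nat_lit 5) (nat_lit 7) (nat_lit 4) (nat_lit 292) (nat_lit 271) (nat_lit 97)) (XT.lf (nat_lit 0) (nat_lit 15447106365601) (nat_lit 76) (nat_lit 18023374553041) (nat_lit 76) (nat_lit 5649278855823) (nat_lit 6) (nat_lit 4) (nat_lit 7) (nat_lit 5) (nat_lit 7) (nat_lit 4) (nat_lit 293) (nat_lit 271) (nat_lit 96)))) (XT.nd (nat_lit 32760) (nat_lit 0) (nat_lit 988) (XT.nd (nat_lit 32682) (nat_lit 0) (nat_lit 988) (XT.lf (nat_lit 0) (nat_lit 30718887400566) (nat_lit 76) (nat_lit 12798311153166) (nat_lit 76) (nat_lit 424215455909) (nat_lit 6) (nat_lit 4) (nat_lit 7) (nat_lit 5) (nat_lit 7) (nat_lit 4) (nat_lit 294) (nat_lit 271) (nat_lit 95)) (XT.lf (nat_lit 0) (nat_lit 266886612966) (nat_lit 380) (nat_lit 1328825054714)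 (nat_lit 380) (nat_lit 1328825054714) (nat_lit 19) (nat_lit 3) (nat_lit 24) (nat_lit 3) (nat_lit 24) (nat_lit 5) (nat_lit 272) (nat_lit 272) (nat_lit 116))) (XT.nd (nat_lit 78) (nat_lit 0) (nat_lit 76) (XT.lf (nat_lit 0) (nat_lit 573806219593) (nat_lit 380) (nat_lit 18025743499) (nat_lit 380) (nat_lit 5695921989790) (nat_lit 19) (nat_lit 3) (nat_lit 24) (nat_lit 3) (nat_lit 24) (nat_lit 5) (nat_lit 273) (nat_lit 272) (nat_lit 115)) (XT.nd (nat_lit 78) (nat_lit 0) (nat_lit 0) (XT.lf (nat_lit 0) (nat_lit 862820217230) (nat_lit 304) (nat_lit 3565038973754) (nat_lit 380) (nat_lit 2327930937967) (nat_lit 20) (nat_lit 5) (nat_lit 24) (nat_lit 5) (nat_lit 25) (nat_lit 5) (nat_lit 274) (nat_lit 272) (nat_lit 114)) (XT.lf (nat_lit 0) (nat_lit 1224355912727) (nat_lit 304) (nat_lit 439247300674) (nat_lit 380) (nat_lit 5626053078299) (nat_lit 20) (nat_lit 5) (nat_lit 24) (nat_lit 5) (nat_lit 25)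 (nat_lit 5) (nat_lit 275) (nat_lit 272) (nat_lit 113))))))) (XT.nd (nat_lit 780) (nat_lit 380) (nat_lit 0) (XT.nd (nat_lit 312) (nat_lit 456) (nat_lit 0) (XT.nd (nat_lit 156) (nat_lit 304) (nat_lit 0) (XT.nd (nat_lit 78) (nat_lit 0) (nat_lit 0) (XT.lf (nat_lit 0) (nat_lit 1853124705690) (nat_lit 304) (nat_lit 4487880030616) (nat_lit 76) (nat_lit 1530647231084) (nat_lit 21) (nat_lit 5) (nat_lit 25) (nat_lit 5) (nat_lit 22) (nat_lit 5) (nat_lit 276) (nat_lit 272) (nat_lit 112)) (XT.lf (nat_lit 0) (nat_lit 2679482036873) (nat_lit 304) (nat_lit 788205994924) (nat_lit 76) (nat_lit 5057767979747) (nat_lit 21) (nat_lit 5) (nat_lit 25) (nat_lit 5) (nat_lit 22) (nat_lit 5) (nat_lit 277) (nat_lit 272) (nat_lit 111))) (XT.nd (nat_lit 78) (nat_lit 0) (nat_lit 0) (XT.lf (nat_lit 0) (nat_lit 3788095584372) (nat_lit 380) (nat_lit 5449251261345) (nat_lit 76) (nat_lit 16238424110) (nat_lit 17) (nat_lit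 5) (nat_lit 22) (nat_lit 5) (nat_lit 18) (nat_lit 5) (nat_lit 278) (nat_lit 272) (nat_lit 110)) (XT.lf (nat_lit 0) (nat_lit 5271292826971) (nat_lit 380) (nat_lit 1077505033669) (nat_lit 76) (nat_lit 3710892306766) (nat_lit 17) (nat_lit 5) (nat_lit 22) (nat_lit 5) (nat_lit 18) (nat_lit 5) (nat_lit 279) (nat_lit 272) (nat_lit 109)))) (XT.nd (nat_lit 156) (nat_lit 304) (nat_lit 0) (XT.nd (nat_lit 78) (nat_lit 0) (nat_lit 0) (XT.lf (nat_lit 0) (nat_lit 4336026160943) (nat_lit 152) (nat_lit 2820489091598) (nat_lit 228) (nat_lit 3803263707594) (nat_lit 15) (nat_lit 5) (nat_lit 17) (nat_lit 5) (nat_lit 18) (nat_lit 5) (nat_lit 280) (nat_lit 272) (nat_lit 108)) (XT.lf (nat_lit 0) (nat_lit 9434751534561) (nat_lit 228) (nat_lit 1357654911652) (nat_lit 76) (nat_lit 1185940051670) (nat_lit 15) (nat_lit 5) (nat_lit 18) (nat_lit 5) (nat_lit 16) (nat_lit 4) (nat_lit 281) (nat_lit 272) (nat_lit 107)))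 (XT.nd (nat_lit 156) (nat_lit 228) (nat_lit 0) (XT.lf (nat_lit 0) (nat_lit 5010080682093) (nat_lit 76) (nat_lit 7386408338057) (nat_lit 152) (nat_lit 701945281953) (nat_lit 14) (nat_lit 5) (nat_lit 15) (nat_lit 5) (nat_lit 16) (nat_lit 4) (nat_lit 282) (nat_lit 272) (nat_lit 106)) (XT.nd (nat_lit 78) (nat_lit 0) (nat_lit 0) (XT.lf (nat_lit 0) (nat_lit 3968010534186) (nat_lit 228) (nat_lit 10288230144260) (nat_lit 76) (nat_lit 1518783081453) (nat_lit 11) (nat_lit 5) (nat_lit 14) (nat_lit 5) (nat_lit 12) (nat_lit 4) (nat_lit 284) (nat_lit 272) (nat_lit 104)) (XT.lf (nat_lit 0) (nat_lit 7227191164054) (nat_lit 228) (nat_lit 3280991790199) (nat_lit 76) (nat_lit 6846814505953) (nat_lit 11) (nat_lit 5) (nat_lit 14) (nat_lit 5) (nat_lit 12) (nat_lit 4) (nat_lit 285) (nat_lit 272) (nat_lit 103)))))) (XT.nd (nat_lit 546) (nat_lit 76) (nat_lit 0) (XT.nd (nat_lit 390) (nat_lit 76) (nat_lit 0) (XT.nd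 (nat_lit 312) (nat_lit 152) (nat_lit 0) (XT.lf (nat_lit 0) (nat_lit 5244207975077) (nat_lit 76) (nat_lit 5948192382192) (nat_lit 152) (nat_lit 7946994137960) (nat_lit 10) (nat_lit 5) (nat_lit 11) (nat_lit 5) (nat_lit 12) (nat_lit 4) (nat_lit 286) (nat_lit 272) (nat_lit 102)) (XT.lf (nat_lit 0) (nat_lit 7219967473472) (nat_lit 152) (nat_lit 841811491547) (nat_lit 76) (nat_lit 20838185969447) (nat_lit 8) (nat_lit 5) (nat_lit 10) (nat_lit 5) (nat_lit 9) (nat_lit 4) (nat_lit 290) (nat_lit 272) (nat_lit 98))) (XT.nd (nat_lit 78) (nat_lit 0) (nat_lit 0) (XT.lf (nat_lit 0) (nat_lit 11779663496255) (nat_lit 76) (nat_lit 1310757459942) (nat_lit 152) (nat_lit 19090173871821) (nat_lit 7) (nat_lit 5) (nat_lit 8) (nat_lit 5) (nat_lit 9) (nat_lit 4) (nat_lit 291) (nat_lit 272) (nat_lit 97)) (XT.lf (nat_lit 0) (nat_lit 20154743205321) (nat_lit 152) (nat_lit 9827047735210) (nat_lit 0) (nat_lit 5924533153475)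 (nat_lit 7) (nat_lit 5) (nat_lit 9) (nat_lit 4) (nat_lit 7) (nat_lit 4) (nat_lit 292) (nat_lit 272) (nat_lit 96)))) (XT.nd (nat_lit 32916) (nat_lit 0) (nat_lit 988) (XT.nd (nat_lit 32838) (nat_lit 0) (nat_lit 988) (XT.lf (nat_lit 0) (nat_lit 2492391286324) (nat_lit 76) (nat_lit 25951944135477) (nat_lit 76) (nat_lit 11721734083593) (nat_lit 6) (nat_lit 4) (nat_lit 7) (nat_lit 5) (nat_lit 7) (nat_lit 4) (nat_lit 293) (nat_lit 272) (nat_lit 95)) (XT.lf (nat_lit 0) (nat_lit 306919606556) (nat_lit 380) (nat_lit 1528148811971) (nat_lit 380) (nat_lit 1528148811971) (nat_lit 19) (nat_lit 3) (nat_lit 24) (nat_lit 3) (nat_lit 24) (nat_lit 5) (nat_lit 273) (nat_lit 273) (nat_lit 114))) (XT.nd (nat_lit 78) (nat_lit 0) (nat_lit 76) (XT.lf (nat_lit 0) (nat_lit 659877155394) (nat_lit 380) (nat_lit 20729603370) (nat_lit 380) (nat_lit 6550310286605) (nat_lit 19) (nat_lit 3) (nat_lit 24) (nat_lit 3) (nat_lit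 24) (nat_lit 5) (nat_lit 274) (nat_lit 273) (nat_lit 113)) (XT.nd (nat_lit 78) (nat_lit 0) (nat_lit 0) (XT.lf (nat_lit 0) (nat_lit 992243252328) (nat_lit 304) (nat_lit 4099794817801) (nat_lit 380) (nat_lit 2677120577773) (nat_lit 20) (nat_lit 5) (nat_lit 24) (nat_lit 5) (nat_lit 25) (nat_lit 5) (nat_lit 275) (nat_lit 273) (nat_lit 112)) (XT.lf (nat_lit 0) (nat_lit 1408009301821) (nat_lit 304) (nat_lit 505134394022) (nat_lit 380) (nat_lit 6469961039271) (nat_lit 20) (nat_lit 5) (nat_lit 24) (nat_lit 5) (nat_lit 25) (nat_lit 5) (nat_lit 276) (nat_lit 273) (nat_lit 111))))))))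
noncomputable def xc126 : XT := (XT.nd (nat_lit 34710) (nat_lit 0) (nat_lit 76) (XT.nd (nat_lit 1092) (nat_lit 76) (nat_lit 0) (XT.nd (nat_lit 312) (nat_lit 684) (nat_lit 0) (XT.nd (nat_lit 156) (nat_lit 304) (nat_lit 0) (XT.nd (nat_lit 78) (nat_lit 0) (nat_lit 0) (XT.lf (nat_lit 0) (nat_lit 2131093413501) (nat_lit 304) (nat_lit 5161062033216) (nat_lit 76) (nat_lit 1760244315477) (nat_lit 21) (nat_lit 5) (nat_lit 25) (nat_lit 5) (nat_lit 22) (nat_lit 5) (nat_lit 277) (nat_lit 273) (nat_lit 110)) (XT.lf (nat_lit 0) (nat_lit 3081404344106) (nat_lit 304) (nat_lit 906436892431) (nat_lit 76) (nat_lit 5816433176475) (nat_lit 21) (nat_lit 5) (nat_lit 25) (nat_lit 5) (nat_lit 22) (nat_lit 5) (nat_lit 278) (nat_lit 273) (nat_lit 109))) (XT.nd (nat_lit 78) (nat_lit 0) (nat_lit 0) (XT.lf (nat_lit 0) (nat_lit 4356309923580) (nat_lit 380) (nat_lit 6266638948657) (nat_lit 76) (nat_lit 18674187822)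 (nat_lit 17) (nat_lit 5) (nat_lit 22) (nat_lit 5) (nat_lit 18) (nat_lit 5) (nat_lit 279) (nat_lit 273) (nat_lit 108)) (XT.lf (nat_lit 0) (nat_lit 6061986752367) (nat_lit 380) (nat_lit 1239130787076) (nat_lit 76) (nat_lit 4267526152864) (nat_lit 17) (nat_lit 5) (nat_lit 22) (nat_lit 5) (nat_lit 18) (nat_lit 5) (nat_lit 280) (nat_lit 273) (nat_lit 107)))) (XT.nd (nat_lit 156) (nat_lit 532) (nat_lit 0) (XT.nd (nat_lit 78) (nat_lit 0) (nat_lit 0) (XT.lf (nat_lit 0) (nat_lit 4986430086653) (nat_lit 152) (nat_lit 3243562455008) (nat_lit 228) (nat_lit 4373753262302) (nat_lit 15) (nat_lit 5) (nat_lit 17) (nat_lit 5) (nat_lit 18) (nat_lit 5) (nat_lit 281) (nat_lit 273) (nat_lit 106)) (XT.lf (nat_lit 0) (nat_lit 10849964265835) (nat_lit 228) (nat_lit 1561303146881) (nat_lit 76) (nat_lit 1363831059682) (nat_lit 15) (nat_lit 5) (nat_lit 18) (nat_lit 5) (nat_lit 16) (nat_lit 4) (nat_lit 282) (nat_lit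 273) (nat_lit 105))) (XT.nd (nat_lit 78) (nat_lit 456) (nat_lit 0) (XT.lf (nat_lit 0) (nat_lit 5761592785857) (nat_lit 76) (nat_lit 8494369588323) (nat_lit 152) (nat_lit 807237073083) (nat_lit 14) (nat_lit 5) (nat_lit 15) (nat_lit 5) (nat_lit 16) (nat_lit 4) (nat_lit 283) (nat_lit 273) (nat_lit 104)) (XT.nd (nat_lit 468) (nat_lit 380) (nat_lit 0) (XT.lf (nat_lit 0) (nat_lit 1568878065378) (nat_lit 152) (nat_lit 2245193880069) (nat_lit 76) (nat_lit 12707504690988) (nat_lit 13) (nat_lit 5) (nat_lit 15) (nat_lit 5) (nat_lit 14) (nat_lit 5) (nat_lit 284) (nat_lit 273) (nat_lit 103)) (XT.lf (nat_lit 0) (nat_lit 2920279857444) (nat_lit 152) (nat_lit 12540851100060) (nat_lit 76) (nat_lit 14420033211728) (nat_lit 8) (nat_lit 5) (nat_lit 10) (nat_lit 5) (nat_lit 9) (nat_lit 4) (nat_lit 290) (nat_lit 273) (nat_lit 97)))))) (XT.nd (nat_lit 33228) (nat_lit 0) (nat_lit 760) (XT.nd (nat_lit 33072)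 (nat_lit 0) (nat_lit 912) (XT.nd (nat_lit 78) (nat_lit 76) (nat_lit 0) (XT.lf (nat_lit 0) (nat_lit 8302962594964) (nat_lit 152) (nat_lit 968083214443) (nat_lit 76) (nat_lit 23963913865158) (nat_lit 8) (nat_lit 5) (nat_lit 10) (nat_lit 5) (nat_lit 9) (nat_lit 4) (nat_lit 291) (nat_lit 273) (nat_lit 96)) (XT.lf (nat_lit 0) (nat_lit 13546613021492) (nat_lit 76) (nat_lit 1507371078578) (nat_lit 152) (nat_lit 21953699952084) (nat_lit 7) (nat_lit 5) (nat_lit 8) (nat_lit 5) (nat_lit 9) (nat_lit 4) (nat_lit 292) (nat_lit 273) (nat_lit 95))) (XT.nd (nat_lit 78) (nat_lit 0) (nat_lit 0) (XT.lf (nat_lit 0) (nat_lit 352957548784) (nat_lit 380) (nat_lit 1757371133047) (nat_lit 380) (nat_lit 1757371133047) (nat_lit 19) (nat_lit 3) (nat_lit 24) (nat_lit 3) (nat_lit 24) (nat_lit 5) (nat_lit 274) (nat_lit 274) (nat_lit 112)) (XT.lf (nat_lit 0) (nat_lit 758858730867) (nat_lit 380) (nat_lit 23839042626)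 (nat_lit 380) (nat_lit 7532856828345) (nat_lit 19) (nat_lit 3) (nat_lit 24) (nat_lit 3) (nat_lit 24) (nat_lit 5) (nat_lit 275) (nat_lit 274) (nat_lit 111)))) (XT.nd (nat_lit 156) (nat_lit 228) (nat_lit 0) (XT.nd (nat_lit 78) (nat_lit 0) (nat_lit 0) (XT.lf (nat_lit 0) (nat_lit 1141079742078) (nat_lit 304) (nat_lit 4714764038946) (nat_lit 380) (nat_lit 3078688663768) (nat_lit 20) (nat_lit 5) (nat_lit 24) (nat_lit 5) (nat_lit 25) (nat_lit 5) (nat_lit 276) (nat_lit 274) (nat_lit 110)) (XT.lf (nat_lit 0) (nat_lit 1619210698747) (nat_lit 304) (nat_lit 580904551800) (nat_lit 380) (nat_lit 7440455194577) (nat_lit 20) (nat_lit 5) (nat_lit 24) (nat_lit 5) (nat_lit 25) (nat_lit 5) (nat_lit 277) (nat_lit 274) (nat_lit 109))) (XT.nd (nat_lit 78) (nat_lit 304) (nat_lit 0) (XT.lf (nat_lit 0) (nat_lit 2450757427006) (nat_lit 304) (nat_lit 5935221336692) (nat_lit 76) (nat_lit 2024280962595) (nat_lit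 21) (nat_lit 5) (nat_lit 25) (nat_lit 5) (nat_lit 22) (nat_lit 5) (nat_lit 278) (nat_lit 274) (nat_lit 108)) (XT.nd (nat_lit 78) (nat_lit 304) (nat_lit 0) (XT.lf (nat_lit 0) (nat_lit 3543614997009) (nat_lit 304) (nat_lit 1042402424985) (nat_lit 76) (nat_lit 6688898152769) (nat_lit 21) (nat_lit 5) (nat_lit 25) (nat_lit 5) (nat_lit 22) (nat_lit 5) (nat_lit 279) (nat_lit 274) (nat_lit 107)) (XT.lf (nat_lit 0) (nat_lit 5009756413292) (nat_lit 380) (nat_lit 7206634789526) (nat_lit 76) (nat_lit 21475316068) (nat_lit 17) (nat_lit 5) (nat_lit 22) (nat_lit 5) (nat_lit 18) (nat_lit 5) (nat_lit 280) (nat_lit 274) (nat_lit 106))))))) (XT.nd (nat_lit 34242) (nat_lit 0) (nat_lit 532) (XT.nd (nat_lit 780) (nat_lit 76) (nat_lit 0) (XT.nd (nat_lit 156) (nat_lit 456) (nat_lit 0) (XT.nd (nat_lit 78) (nat_lit 152) (nat_lit 0) (XT.lf (nat_lit 0) (nat_lit 6971284766243) (nat_lit 380) (nat_lit 1425000403895)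 (nat_lit 76) (nat_lit 4907655075857) (nat_lit 17) (nat_lit 5) (nat_lit 22) (nat_lit 5) (nat_lit 18) (nat_lit 5) (nat_lit 281) (nat_lit 274) (nat_lit 105)) (XT.lf (nat_lit 0) (nat_lit 5734394600837) (nat_lit 152) (nat_lit 3730096823011) (nat_lit 228) (nat_lit 5029816250566) (nat_lit 15) (nat_lit 5) (nat_lit 17) (nat_lit 5) (nat_lit 18) (nat_lit 5) (nat_lit 282) (nat_lit 274) (nat_lit 104))) (XT.nd (nat_lit 546) (nat_lit 456) (nat_lit 0) (XT.lf (nat_lit 0) (nat_lit 12477458906534) (nat_lit 228) (nat_lit 1795498617764) (nat_lit 76) (nat_lit 1568405718832) (nat_lit 15) (nat_lit 5) (nat_lit 18) (nat_lit 5) (nat_lit 16) (nat_lit 4) (nat_lit 283) (nat_lit 274) (nat_lit 103)) (XT.lf (nat_lit 0) (nat_lit 4908977774010) (nat_lit 76) (nat_lit 23864566883614) (nat_lit 76) (nat_lit 2222196170904) (nat_lit 9) (nat_lit 4) (nat_lit 10) (nat_lit 5) (nat_lit 10) (nat_lit 4) (nat_lit 290) (nat_lit 274)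 (nat_lit 96)))) (XT.nd (nat_lit 33228) (nat_lit 0) (nat_lit 836) (XT.nd (nat_lit 33150) (nat_lit 0) (nat_lit 836) (XT.lf (nat_lit 0) (nat_lit 3358321836470) (nat_lit 152) (nat_lit 14421978764342) (nat_lit 76) (nat_lit 16583038193741) (nat_lit 8) (nat_lit 5) (nat_lit 10) (nat_lit 5) (nat_lit 9) (nat_lit 4) (nat_lit 291) (nat_lit 274) (nat_lit 95)) (XT.lf (nat_lit 0) (nat_lit 405901182042) (nat_lit 380) (nat_lit 2020976802461) (nat_lit 380) (nat_lit 2020976802461) (nat_lit 19) (nat_lit 3) (nat_lit 24) (nat_lit 3) (nat_lit 24) (nat_lit 5) (nat_lit 275) (nat_lit 275) (nat_lit 110))) (XT.nd (nat_lit 78) (nat_lit 0) (nat_lit 76) (XT.lf (nat_lit 0) (nat_lit 872687542133) (nat_lit 380) (nat_lit 27414898074) (nat_lit 380) (nat_lit 8662785351652) (nat_lit 19) (nat_lit 3) (nat_lit 24) (nat_lit 3) (nat_lit 24) (nat_lit 5) (nat_lit 276) (nat_lit 275) (nat_lit 109)) (XT.nd (nat_lit 78) (nat_lit 0)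 (nat_lit 0) (XT.lf (nat_lit 0) (nat_lit 1312241704827) (nat_lit 304) (nat_lit 5421978643636) (nat_lit 380) (nat_lit 3540491962825) (nat_lit 20) (nat_lit 5) (nat_lit 24) (nat_lit 5) (nat_lit 25) (nat_lit 5) (nat_lit 277) (nat_lit 275) (nat_lit 108)) (XT.lf (nat_lit 0) (nat_lit 1862092304809) (nat_lit 304) (nat_lit 668040233567) (nat_lit 380) (nat_lit 8556523473322) (nat_lit 20) (nat_lit 5) (nat_lit 24) (nat_lit 5) (nat_lit 25) (nat_lit 5) (nat_lit 278) (nat_lit 275) (nat_lit 107)))))) (XT.nd (nat_lit 312) (nat_lit 152) (nat_lit 0) (XT.nd (nat_lit 156) (nat_lit 304) (nat_lit 0) (XT.nd (nat_lit 78) (nat_lit 0) (nat_lit 0) (XT.lf (nat_lit 0) (nat_lit 2818371042176) (nat_lit 304) (nat_lit 6825504536057) (nat_lit 76) (nat_lit 2327923106830) (nat_lit 21) (nat_lit 5) (nat_lit 25) (nat_lit 5) (nat_lit 22) (nat_lit 5) (nat_lit 279) (nat_lit 275) (nat_lit 106)) (XT.lf (nat_lit 0) (nat_lit 4075157247534)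 (nat_lit 304) (nat_lit 1198762787743) (nat_lit 76) (nat_lit 7692232875550) (nat_lit 21) (nat_lit 5) (nat_lit 25) (nat_lit 5) (nat_lit 22) (nat_lit 5) (nat_lit 280) (nat_lit 275) (nat_lit 105))) (XT.nd (nat_lit 78) (nat_lit 0) (nat_lit 0) (XT.lf (nat_lit 0) (nat_lit 5761219876174) (nat_lit 380) (nat_lit 8287630006875) (nat_lit 76) (nat_lit 24696613533) (nat_lit 17) (nat_lit 5) (nat_lit 22) (nat_lit 5) (nat_lit 18) (nat_lit 5) (nat_lit 281) (nat_lit 275) (nat_lit 104)) (XT.lf (nat_lit 0) (nat_lit 8016977481951) (nat_lit 380) (nat_lit 1638750463540) (nat_lit 76) (nat_lit 5643803337283) (nat_lit 17) (nat_lit 5) (nat_lit 22) (nat_lit 5) (nat_lit 18) (nat_lit 5) (nat_lit 282) (nat_lit 275) (nat_lit 103)))) (XT.nd (nat_lit 33852) (nat_lit 0) (nat_lit 304) (XT.nd (nat_lit 78) (nat_lit 0) (nat_lit 0) (XT.lf (nat_lit 0) (nat_lit 6594553791860) (nat_lit 152) (nat_lit 4289611346274) (nat_lit 228)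 (nat_lit 5784288687332) (nat_lit 15) (nat_lit 5) (nat_lit 17) (nat_lit 5) (nat_lit 18) (nat_lit 5) (nat_lit 283) (nat_lit 275) (nat_lit 102)) (XT.lf (nat_lit 0) (nat_lit 14349077743137) (nat_lit 228) (nat_lit 2064823409561) (nat_lit 76) (nat_lit 1803666576806) (nat_lit 15) (nat_lit 5) (nat_lit 18) (nat_lit 5) (nat_lit 16) (nat_lit 4) (nat_lit 284) (nat_lit 275) (nat_lit 101))) (XT.nd (nat_lit 78) (nat_lit 0) (nat_lit 0) (XT.lf (nat_lit 0) (nat_lit 466786360060) (nat_lit 380) (nat_lit 2324123322419) (nat_lit 380) (nat_lit 2324123322419) (nat_lit 19) (nat_lit 3) (nat_lit 24) (nat_lit 3) (nat_lit 24) (nat_lit 5) (nat_lit 276) (nat_lit 276) (nat_lit 108)) (XT.nd (nat_lit 78) (nat_lit 0) (nat_lit 76) (XT.lf (nat_lit 0) (nat_lit 1003590674690) (nat_lit 380) (nat_lit 31527132070) (nat_lit 380) (nat_lit 9962203153685) (nat_lit 19) (nat_lit 3) (nat_lit 24) (nat_lit 3) (nat_lit 24) (nat_lit 5)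 (nat_lit 277) (nat_lit 276) (nat_lit 107)) (XT.lf (nat_lit 0) (nat_lit 1509077961638) (nat_lit 304) (nat_lit 6235275439309) (nat_lit 380) (nat_lit 4071565756864) (nat_lit 20) (nat_lit 5) (nat_lit 24) (nat_lit 5) (nat_lit 25) (nat_lit 5) (nat_lit 278) (nat_lit 276) (nat_lit 106))))))))
noncomputable def xc127 : XT := (XT.nd (nat_lit 69030) (nat_lit 0) (nat_lit 152) (XT.nd (nat_lit 34476) (nat_lit 0) (nat_lit 152) (XT.nd (nat_lit 312) (nat_lit 152) (nat_lit 0) (XT.nd (nat_lit 156) (nat_lit 228) (nat_lit 0) (XT.nd (nat_lit 78) (nat_lit 0) (nat_lit 76) (XT.lf (nat_lit 0) (nat_lit 2141406151475) (nat_lit 304) (nat_lit 768246267844) (nat_lit 380) (nat_lit 9840001993987) (nat_lit 20) (nat_lit 5) (nat_lit 24) (nat_lit 5) (nat_lit 25) (nat_lit 5) (nat_lit 279) (nat_lit 276) (nat_lit 105)) (XT.lf (nat_lit 0) (nat_lit 3241126699349) (nat_lit 304) (nat_lit 7849330215605) (nat_lit 76) (nat_lit 2677111572738)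 (nat_lit 21) (nat_lit 5) (nat_lit 25) (nat_lit 5) (nat_lit 22) (nat_lit 5) (nat_lit 280) (nat_lit 276) (nat_lit 104))) (XT.nd (nat_lit 78) (nat_lit 304) (nat_lit 0) (XT.lf (nat_lit 0) (nat_lit 4686430835400) (nat_lit 304) (nat_lit 1378577205155) (nat_lit 76) (nat_lit 8846067806781) (nat_lit 21) (nat_lit 5) (nat_lit 25) (nat_lit 5) (nat_lit 22) (nat_lit 5) (nat_lit 281) (nat_lit 276) (nat_lit 103)) (XT.lf (nat_lit 0) (nat_lit 6625402858271) (nat_lit 380) (nat_lit 9530774507089) (nat_lit 76) (nat_lit 28401105604) (nat_lit 17) (nat_lit 5) (nat_lit 22) (nat_lit 5) (nat_lit 18) (nat_lit 5) (nat_lit 282) (nat_lit 276) (nat_lit 102)))) (XT.nd (nat_lit 33930) (nat_lit 0) (nat_lit 304) (XT.nd (nat_lit 78) (nat_lit 152) (nat_lit 0) (XT.lf (nat_lit 0) (nat_lit 9219524104828) (nat_lit 380) (nat_lit 1884563032361) (nat_lit 76) (nat_lit 6490373837911) (nat_lit 17) (nat_lit 5) (nat_lit 22) (nat_lit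 5) (nat_lit 18) (nat_lit 5) (nat_lit 283) (nat_lit 276) (nat_lit 101)) (XT.lf (nat_lit 0) (nat_lit 7583736861317) (nat_lit 152) (nat_lit 4933053048073) (nat_lit 228) (nat_lit 6651931989813) (nat_lit 15) (nat_lit 5) (nat_lit 17) (nat_lit 5) (nat_lit 18) (nat_lit 5) (nat_lit 284) (nat_lit 276) (nat_lit 100))) (XT.nd (nat_lit 78) (nat_lit 0) (nat_lit 0) (XT.lf (nat_lit 0) (nat_lit 536804314607) (nat_lit 380) (nat_lit 2672741820471) (nat_lit 380) (nat_lit 2672741820471) (nat_lit 19) (nat_lit 3) (nat_lit 24) (nat_lit 3) (nat_lit 24) (nat_lit 5) (nat_lit 277) (nat_lit 277) (nat_lit 106)) (XT.nd (nat_lit 78) (nat_lit 0) (nat_lit 76) (XT.lf (nat_lit 0) (nat_lit 1154129276829) (nat_lit 380) (nat_lit 36256201340) (nat_lit 380) (nat_lit 11456533626197) (nat_lit 19) (nat_lit 3) (nat_lit 24) (nat_lit 3) (nat_lit 24) (nat_lit 5) (nat_lit 278) (nat_lit 277) (nat_lit 105)) (XT.lf (nat_lit 0) (nat_lit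 1735439656705) (nat_lit 304) (nat_lit 7170566754547) (nat_lit 380) (nat_lit 4682300620104) (nat_lit 20) (nat_lit 5) (nat_lit 24) (nat_lit 5) (nat_lit 25) (nat_lit 5) (nat_lit 279) (nat_lit 277) (nat_lit 104)))))) (XT.nd (nat_lit 312) (nat_lit 0) (nat_lit 0) (XT.nd (nat_lit 156) (nat_lit 228) (nat_lit 0) (XT.nd (nat_lit 78) (nat_lit 0) (nat_lit 76) (XT.lf (nat_lit 0) (nat_lit 2462617074911) (nat_lit 304) (nat_lit 883483207448) (nat_lit 380) (nat_lit 11316002292832) (nat_lit 20) (nat_lit 5) (nat_lit 24) (nat_lit 5) (nat_lit 25) (nat_lit 5) (nat_lit 280) (nat_lit 277) (nat_lit 103)) (XT.lf (nat_lit 0) (nat_lit 3727295704891) (nat_lit 304) (nat_lit 9026729747294) (nat_lit 76) (nat_lit 3078678308561) (nat_lit 21) (nat_lit 5) (nat_lit 25) (nat_lit 5) (nat_lit 22) (nat_lit 5) (nat_lit 281) (nat_lit 277) (nat_lit 102))) (XT.nd (nat_lit 78) (nat_lit 304) (nat_lit 0) (XT.lf (nat_lit 0) (nat_lit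 5389395461266) (nat_lit 304) (nat_lit 1585363785362) (nat_lit 76) (nat_lit 10172977977721) (nat_lit 21) (nat_lit 5) (nat_lit 25) (nat_lit 5) (nat_lit 22) (nat_lit 5) (nat_lit 282) (nat_lit 277) (nat_lit 101)) (XT.lf (nat_lit 0) (nat_lit 7619213287520) (nat_lit 380) (nat_lit 10960390682535) (nat_lit 76) (nat_lit 32661271476) (nat_lit 17) (nat_lit 5) (nat_lit 22) (nat_lit 5) (nat_lit 18) (nat_lit 5) (nat_lit 283) (nat_lit 277) (nat_lit 100)))) (XT.nd (nat_lit 34008) (nat_lit 0) (nat_lit 152) (XT.nd (nat_lit 33930) (nat_lit 0) (nat_lit 152) (XT.lf (nat_lit 0) (nat_lit 10602452720994) (nat_lit 380) (nat_lit 2167247486678) (nat_lit 76) (nat_lit 7463929913625) (nat_lit 17) (nat_lit 5) (nat_lit 22) (nat_lit 5) (nat_lit 18) (nat_lit 5) (nat_lit 284) (nat_lit 277) (nat_lit 99)) (XT.lf (nat_lit 0) (nat_lit 617324962205) (nat_lit 380) (nat_lit 3073653093307) (nat_lit 380) (nat_lit 3073653093307)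 (nat_lit 19) (nat_lit 3) (nat_lit 24) (nat_lit 3) (nat_lit 24) (nat_lit 5) (nat_lit 278) (nat_lit 278) (nat_lit 104))) (XT.nd (nat_lit 78) (nat_lit 0) (nat_lit 76) (XT.lf (nat_lit 0) (nat_lit 1327248669061) (nat_lit 380) (nat_lit 41694631132) (nat_lit 380) (nat_lit 13175013669718) (nat_lit 19) (nat_lit 3) (nat_lit 24) (nat_lit 3) (nat_lit 24) (nat_lit 5) (nat_lit 279) (nat_lit 278) (nat_lit 103)) (XT.nd (nat_lit 78) (nat_lit 0) (nat_lit 0) (XT.lf (nat_lit 0) (nat_lit 1995755605832) (nat_lit 304) (nat_lit 8246151767230) (nat_lit 380) (nat_lit 5384645712900) (nat_lit 20) (nat_lit 5) (nat_lit 24) (nat_lit 5) (nat_lit 25) (nat_lit 5) (nat_lit 280) (nat_lit 278) (nat_lit 102)) (XT.lf (nat_lit 0) (nat_lit 2832009636688) (nat_lit 304) (nat_lit 1016005688132) (nat_lit 380) (nat_lit 13013402636566) (nat_lit 20) (nat_lit 5) (nat_lit 24) (nat_lit 5) (nat_lit 25) (nat_lit 5) (nat_lit 281) (nat_lit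 278) (nat_lit 101))))))) (XT.nd (nat_lit 68640) (nat_lit 0) (nat_lit 152) (XT.nd (nat_lit 34242) (nat_lit 0) (nat_lit 152) (XT.nd (nat_lit 156) (nat_lit 304) (nat_lit 0) (XT.nd (nat_lit 78) (nat_lit 0) (nat_lit 0) (XT.lf (nat_lit 0) (nat_lit 4286390061109) (nat_lit 304) (nat_lit 10380739208896) (nat_lit 76) (nat_lit 3540480054778) (nat_lit 21) (nat_lit 5) (nat_lit 25) (nat_lit 5) (nat_lit 22) (nat_lit 5) (nat_lit 282) (nat_lit 278) (nat_lit 100)) (XT.lf (nat_lit 0) (nat_lit 6197804780877) (nat_lit 304) (nat_lit 1823168352739) (nat_lit 76) (nat_lit 11698924674322) (nat_lit 21) (nat_lit 5) (nat_lit 25) (nat_lit 5) (nat_lit 22) (nat_lit 5) (nat_lit 283) (nat_lit 278) (nat_lit 99))) (XT.nd (nat_lit 34008) (nat_lit 0) (nat_lit 152) (XT.lf (nat_lit 0) (nat_lit 8762095281031) (nat_lit 380) (nat_lit 12604449284448) (nat_lit 76) (nat_lit 37560462222) (nat_lit 17) (nat_lit 5) (nat_lit 22) (nat_lit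 5) (nat_lit 18) (nat_lit 5) (nat_lit 284) (nat_lit 278) (nat_lit 98)) (XT.lf (nat_lit 0) (nat_lit 709923706843) (nat_lit 380) (nat_lit 3534701057125) (nat_lit 380) (nat_lit 3534701057125) (nat_lit 19) (nat_lit 3) (nat_lit 24) (nat_lit 3) (nat_lit 24) (nat_lit 5) (nat_lit 279) (nat_lit 279) (nat_lit 102)))) (XT.nd (nat_lit 156) (nat_lit 0) (nat_lit 76) (XT.nd (nat_lit 78) (nat_lit 0) (nat_lit 76) (XT.lf (nat_lit 0) (nat_lit 1526335969955) (nat_lit 380) (nat_lit 47948825493) (nat_lit 380) (nat_lit 15151265719866) (nat_lit 19) (nat_lit 3) (nat_lit 24) (nat_lit 3) (nat_lit 24) (nat_lit 5) (nat_lit 280) (nat_lit 279) (nat_lit 101)) (XT.lf (nat_lit 0) (nat_lit 2295118947177) (nat_lit 304) (nat_lit 9483074531938) (nat_lit 380) (nat_lit 6192342569669) (nat_lit 20) (nat_lit 5) (nat_lit 24) (nat_lit 5) (nat_lit 25) (nat_lit 5) (nat_lit 281) (nat_lit 279) (nat_lit 100))) (XT.nd (nat_lit 78) (nat_lit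 0) (nat_lit 76) (XT.lf (nat_lit 0) (nat_lit 3256811082600) (nat_lit 304) (nat_lit 1168406541024) (nat_lit 380) (nat_lit 14965413031907) (nat_lit 20) (nat_lit 5) (nat_lit 24) (nat_lit 5) (nat_lit 25) (nat_lit 5) (nat_lit 282) (nat_lit 279) (nat_lit 99)) (XT.nd (nat_lit 78) (nat_lit 0) (nat_lit 0) (XT.lf (nat_lit 0) (nat_lit 4929348570641) (nat_lit 304) (nat_lit 11937850089858) (nat_lit 76) (nat_lit 4071552062944) (nat_lit 21) (nat_lit 5) (nat_lit 25) (nat_lit 5) (nat_lit 22) (nat_lit 5) (nat_lit 283) (nat_lit 279) (nat_lit 98)) (XT.lf (nat_lit 0) (nat_lit 7127475498326) (nat_lit 304) (nat_lit 2096643605326) (nat_lit 76) (nat_lit 13453763375426) (nat_lit 21) (nat_lit 5) (nat_lit 25) (nat_lit 5) (nat_lit 22) (nat_lit 5) (nat_lit 284) (nat_lit 279) (nat_lit 97)))))) (XT.nd (nat_lit 312) (nat_lit 0) (nat_lit 0) (XT.nd (nat_lit 156) (nat_lit 0) (nat_lit 76) (XT.nd (nat_lit 78) (nat_lit 0)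 (nat_lit 0) (XT.lf (nat_lit 0) (nat_lit 816412263102) (nat_lit 380) (nat_lit 4064906215560) (nat_lit 380) (nat_lit 4064906215560) (nat_lit 19) (nat_lit 3) (nat_lit 24) (nat_lit 3) (nat_lit 24) (nat_lit 5) (nat_lit 280) (nat_lit 280) (nat_lit 100)) (XT.lf (nat_lit 0) (nat_lit 1755286365853) (nat_lit 380) (nat_lit 55141149084) (nat_lit 380) (nat_lit 17423955577613) (nat_lit 19) (nat_lit 3) (nat_lit 24) (nat_lit 3) (nat_lit 24) (nat_lit 5) (nat_lit 281) (nat_lit 280) (nat_lit 99))) (XT.nd (nat_lit 78) (nat_lit 0) (nat_lit 0) (XT.lf (nat_lit 0) (nat_lit 2639386789609) (nat_lit 304) (nat_lit 10905535711444) (nat_lit 380) (nat_lit 7121193954994) (nat_lit 20) (nat_lit 5) (nat_lit 24) (nat_lit 5) (nat_lit 25) (nat_lit 5) (nat_lit 282) (nat_lit 280) (nat_lit 98)) (XT.lf (nat_lit 0) (nat_lit 3745332745299) (nat_lit 304) (nat_lit 1343667521929) (nat_lit 380) (nat_lit 17210224986584) (nat_lit 20)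 (nat_lit 5) (nat_lit 24) (nat_lit 5) (nat_lit 25) (nat_lit 5) (nat_lit 283) (nat_lit 280) (nat_lit 97)))) (XT.nd (nat_lit 34242) (nat_lit 0) (nat_lit 0) (XT.nd (nat_lit 34164) (nat_lit 152) (nat_lit 0) (XT.lf (nat_lit 0) (nat_lit 5668750856514) (nat_lit 304) (nat_lit 13728527603055) (nat_lit 76) (nat_lit 4682284872348) (nat_lit 21) (nat_lit 5) (nat_lit 25) (nat_lit 5) (nat_lit 22) (nat_lit 5) (nat_lit 284) (nat_lit 280) (nat_lit 96)) (XT.lf (nat_lit 0) (nat_lit 938874102743) (nat_lit 380) (nat_lit 4674642147792) (nat_lit 380) (nat_lit 4674642147792) (nat_lit 19) (nat_lit 3) (nat_lit 24) (nat_lit 3) (nat_lit 24) (nat_lit 5) (nat_lit 281) (nat_lit 281) (nat_lit 98))) (XT.nd (nat_lit 78) (nat_lit 0) (nat_lit 0) (XT.lf (nat_lit 0) (nat_lit 2018579321037) (nat_lit 380) (nat_lit 63412321269) (nat_lit 380) (nat_lit 20037548914078) (nat_lit 19) (nat_lit 3) (nat_lit 24) (nat_lit 3) (nat_lit 24)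 (nat_lit 5) (nat_lit 282) (nat_lit 281) (nat_lit 97)) (XT.nd (nat_lit 34320) (nat_lit 76) (nat_lit 0) (XT.lf (nat_lit 0) (nat_lit 3035294808319) (nat_lit 304) (nat_lit 12541366067945) (nat_lit 380) (nat_lit 8189373048148) (nat_lit 20) (nat_lit 5) (nat_lit 24) (nat_lit 5) (nat_lit 25) (nat_lit 5) (nat_lit 283) (nat_lit 281) (nat_lit 96)) (XT.lf (nat_lit 0) (nat_lit 1079705218288) (nat_lit 380) (nat_lit 5375838469884) (nat_lit 380) (nat_lit 5375838469884) (nat_lit 19) (nat_lit 3) (nat_lit 24) (nat_lit 3) (nat_lit 24) (nat_lit 5) (nat_lit 282) (nat_lit 282) (nat_lit 96))))))))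

set_option maxRecDepth 10000000 in
noncomputable def Tp : PT := (PT.nd (nat_lit 3860688) (PT.nd (nat_lit 3689244) pc0 pc1) (PT.nd (nat_lit 69420) pc2 pc3))

set_option maxRecDepth 10000000 in
noncomputable def Tx : XT := (XT.nd (nat_lit 6043830) (nat_lit 0) (nat_lit 76) XT.nil (XT.nd (nat_lit 3678480) (nat_lit 0) (nat_lit 0) (XT.nd (nat_lit 1752582) (nat_lit 0) (nat_lit 0) (XT.nd (nat_lit 1237782) (nat_lit 0) (nat_lit 0) (XT.nd (nat_lit 892632) (nat_lit 0) (nat_lit 0) (XT.nd (nat_lit 652470) (nat_lit 0) (nat_lit 0) (XT.nd (nat_lit 480558) (nat_lit 0) (nat_lit 0) (XT.nd (nat_lit 344370) (nat_lit 0) (nat_lit 0) (XT.nd (nat_lit 241254) (nat_lit 0) (nat_lit 0) xc0 xc1) (XT.nd (nat_lit 100854) (nat_lit 0) (nat_lit 0) xc2 xc3)) (XT.nd (nat_lit 102336) (nat_lit 0) (nat_lit 0) (XT.nd (nat_lit 67392) (nat_lit 0) (nat_lit 0) xc4 xc5) (XT.nd (nat_lit 34788) (nat_lit 0) (nat_lit 0) xc6 xc7))) (XT.nd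 (nat_lit 136734) (nat_lit 0) (nat_lit 0) (XT.nd (nat_lit 68952) (nat_lit 0) (nat_lit 0) (XT.nd (nat_lit 34632) (nat_lit 0) (nat_lit 0) xc8 xc9) (XT.nd (nat_lit 33930) (nat_lit 0) (nat_lit 0) xc10 xc11)) (XT.nd (nat_lit 67158) (nat_lit 0) (nat_lit 0) (XT.nd (nat_lit 33618) (nat_lit 0) (nat_lit 0) xc12 xc13) (XT.nd (nat_lit 3120) (nat_lit 0) (nat_lit 0) xc14 xc15)))) (XT.nd (nat_lit 204516) (nat_lit 0) (nat_lit 0) (XT.nd (nat_lit 102960) (nat_lit 0) (nat_lit 0) (XT.nd (nat_lit 66690) (nat_lit 0) (nat_lit 0) (XT.nd (nat_lit 33306) (nat_lit 0) (nat_lit 0) xc16 xc17) (XT.nd (nat_lit 2730) (nat_lit 0) (nat_lit 0) xc18 xc19)) (XT.nd (nat_lit 65988) (nat_lit 0) (nat_lit 0) (XT.nd (nat_lit 33072) (nat_lit 0) (nat_lit 0) xc20 xc21) (XT.nd (nat_lit 2730) (nat_lit 0) (nat_lit 0) xc22 xc23))) (XT.nd (nat_lit 70980) (nat_lit 0) (nat_lit 0) (XT.nd (nat_lit 35490) (nat_lit 0) (nat_lit 0) (XT.nd (nat_lit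 3822) (nat_lit 0) (nat_lit 0) xc24 xc25) (XT.nd (nat_lit 32682) (nat_lit 0) (nat_lit 0) xc26 xc27)) (XT.nd (nat_lit 34866) (nat_lit 0) (nat_lit 0) (XT.nd (nat_lit 32058) (nat_lit 0) (nat_lit 0) xc28 xc29) (XT.nd (nat_lit 31980) (nat_lit 0) (nat_lit 0) xc30 xc31))))) (XT.nd (nat_lit 272766) (nat_lit 0) (nat_lit 0) (XT.nd (nat_lit 137436) (nat_lit 0) (nat_lit 0) (XT.nd (nat_lit 97734) (nat_lit 0) (nat_lit 0) (XT.nd (nat_lit 63414) (nat_lit 0) (nat_lit 0) (XT.nd (nat_lit 31746) (nat_lit 0) (nat_lit 0) xc32 xc33) (XT.nd (nat_lit 2730) (nat_lit 0) (nat_lit 0) xc34 xc35)) (XT.nd (nat_lit 34164) (nat_lit 0) (nat_lit 0) (XT.nd (nat_lit 2730) (nat_lit 0) (nat_lit 0) xc36 xc37) (XT.nd (nat_lit 2730) (nat_lit 0) (nat_lit 0) xc38 xc39))) (XT.nd (nat_lit 68094) (nat_lit 0) (nat_lit 0) (XT.nd (nat_lit 34086) (nat_lit 0) (nat_lit 0) (XT.nd (nat_lit 31278) (nat_lit 0) (nat_lit 0) xc40 xc41) (XT.nd (nat_lit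 31200) (nat_lit 0) (nat_lit 0) xc42 xc43)) (XT.nd (nat_lit 33696) (nat_lit 0) (nat_lit 0) (XT.nd (nat_lit 30888) (nat_lit 0) (nat_lit 0) xc44 xc45) (XT.nd (nat_lit 30732) (nat_lit 0) (nat_lit 0) xc46 xc47)))) (XT.nd (nat_lit 134082) (nat_lit 0) (nat_lit 0) (XT.nd (nat_lit 66768) (nat_lit 0) (nat_lit 0) (XT.nd (nat_lit 33384) (nat_lit 0) (nat_lit 0) (XT.nd (nat_lit 30576) (nat_lit 0) (nat_lit 0) xc48 xc49) (XT.nd (nat_lit 2730) (nat_lit 0) (nat_lit 0) xc50 xc51)) (XT.nd (nat_lit 33540) (nat_lit 0) (nat_lit 0) (XT.nd (nat_lit 2730) (nat_lit 0) (nat_lit 0) xc52 xc53) (XT.nd (nat_lit 2808) (nat_lit 0) (nat_lit 0) xc54 xc55))) (XT.nd (nat_lit 39468) (nat_lit 0) (nat_lit 0) (XT.nd (nat_lit 6084) (nat_lit 0) (nat_lit 0) (XT.nd (nat_lit 2730) (nat_lit 0) (nat_lit 0) xc56 xc57) (XT.nd (nat_lit 30576) (nat_lit 0) (nat_lit 0) xc58 xc59)) (XT.nd (nat_lit 34164) (nat_lit 0) (nat_lit 0) (XT.nd (nat_lit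 31356) (nat_lit 0) (nat_lit 0) xc60 xc61) (XT.nd (nat_lit 31512) (nat_lit 0) (nat_lit 0) xc62 xc63)))))) (XT.nd (nat_lit 616590) (nat_lit 0) (nat_lit 0) (XT.nd (nat_lit 276120) (nat_lit 0) (nat_lit 0) (XT.nd (nat_lit 137982) (nat_lit 0) (nat_lit 0) (XT.nd (nat_lit 68718) (nat_lit 0) (nat_lit 0) (XT.nd (nat_lit 34398) (nat_lit 0) (nat_lit 0) (XT.nd (nat_lit 31590) (nat_lit 0) (nat_lit 0) xc64 xc65) (XT.nd (nat_lit 31512) (nat_lit 0) (nat_lit 0) xc66 xc67)) (XT.nd (nat_lit 34554) (nat_lit 0) (nat_lit 0) (XT.nd (nat_lit 31746) (nat_lit 0) (nat_lit 0) xc68 xc69) (XT.nd (nat_lit 31902) (nat_lit 0) (nat_lit 0) xc70 xc71))) (XT.nd (nat_lit 69342) (nat_lit 0) (nat_lit 0) (XT.nd (nat_lit 34944) (nat_lit 0) (nat_lit 0) (XT.nd (nat_lit 31980) (nat_lit 0) (nat_lit 0) xc72 xc73) (XT.nd (nat_lit 31512) (nat_lit 0) (nat_lit 0) xc74 xc75)) (XT.nd (nat_lit 34320) (nat_lit 0) (nat_lit 0) (XT.nd (nat_lit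 31512) (nat_lit 0) (nat_lit 0) xc76 xc77) (XT.nd (nat_lit 31668) (nat_lit 0) (nat_lit 0) xc78 xc79)))) (XT.nd (nat_lit 168558) (nat_lit 0) (nat_lit 0) (XT.nd (nat_lit 98358) (nat_lit 0) (nat_lit 0) (XT.nd (nat_lit 34476) (nat_lit 0) (nat_lit 0) (XT.nd (nat_lit 31668) (nat_lit 0) (nat_lit 0) xc80 xc81) (XT.nd (nat_lit 31824) (nat_lit 0) (nat_lit 0) xc82 xc83)) (XT.nd (nat_lit 35022) (nat_lit 0) (nat_lit 0) (XT.nd (nat_lit 2730) (nat_lit 152) (nat_lit 0) xc84 xc85) (XT.nd (nat_lit 2730) (nat_lit 0) (nat_lit 0) xc86 xc87))) (XT.nd (nat_lit 70668) (nat_lit 0) (nat_lit 0) (XT.nd (nat_lit 35334) (nat_lit 0) (nat_lit 0) (XT.nd (nat_lit 2730) (nat_lit 0) (nat_lit 0) xc88 xc89) (XT.nd (nat_lit 32526) (nat_lit 0) (nat_lit 0) xc90 xc91)) (XT.nd (nat_lit 35412) (nat_lit 0) (nat_lit 0) (XT.nd (nat_lit 32604) (nat_lit 0) (nat_lit 0) xc92 xc93) (XT.nd (nat_lit 32838) (nat_lit 0) (nat_lit 0) xc94 xc95)))))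 (XT.nd (nat_lit 413400) (nat_lit 0) (nat_lit 0) (XT.nd (nat_lit 174642) (nat_lit 0) (nat_lit 0) (XT.nd (nat_lit 72072) (nat_lit 0) (nat_lit 0) (XT.nd (nat_lit 35880) (nat_lit 0) (nat_lit 0) (XT.nd (nat_lit 2730) (nat_lit 0) (nat_lit 0) xc96 xc97) (XT.nd (nat_lit 33384) (nat_lit 0) (nat_lit 0) xc98 xc99)) (XT.nd (nat_lit 66456) (nat_lit 0) (nat_lit 0) (XT.nd (nat_lit 33150) (nat_lit 0) (nat_lit 0) xc100 xc101) (XT.nd (nat_lit 33306) (nat_lit 0) (nat_lit 0) xc102 xc103))) (XT.nd (nat_lit 103584) (nat_lit 0) (nat_lit 0) (XT.nd (nat_lit 67080) (nat_lit 0) (nat_lit 0) (XT.nd (nat_lit 33462) (nat_lit 0) (nat_lit 0) xc104 xc105) (XT.nd (nat_lit 33696) (nat_lit 0) (nat_lit 0) xc106 xc107)) (XT.nd (nat_lit 67704) (nat_lit 0) (nat_lit 0) (XT.nd (nat_lit 33852) (nat_lit 0) (nat_lit 0) xc108 xc109) (XT.nd (nat_lit 33696) (nat_lit 0) (nat_lit 0) xc110 xc111)))) (XT.nd (nat_lit 276588) (nat_lit 0)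 (nat_lit 228) (XT.nd (nat_lit 105066) (nat_lit 0) (nat_lit 0) (XT.nd (nat_lit 37128) (nat_lit 0) (nat_lit 0) (XT.nd (nat_lit 3120) (nat_lit 0) (nat_lit 0) xc112 xc113) (XT.nd (nat_lit 33618) (nat_lit 0) (nat_lit 0) xc114 xc115)) (XT.nd (nat_lit 101400) (nat_lit 0) (nat_lit 228) (XT.nd (nat_lit 34476) (nat_lit 0) (nat_lit 0) xc116 xc117) (XT.nd (nat_lit 35022) (nat_lit 0) (nat_lit 0) xc118 xc119))) (XT.nd (nat_lit 205530) (nat_lit 0) (nat_lit 0) (XT.nd (nat_lit 102882) (nat_lit 0) (nat_lit 0) (XT.nd (nat_lit 35100) (nat_lit 0) (nat_lit 0) xc120 xc121) (XT.nd (nat_lit 35334) (nat_lit 152) (nat_lit 0) xc122 xc123)) (XT.nd (nat_lit 103740) (nat_lit 0) (nat_lit 228) (XT.nd (nat_lit 35178) (nat_lit 0) (nat_lit 152) xc124 xc125) (XT.nd (nat_lit 103350) (nat_lit 0) (nat_lit 608) xc126 xc127))))))) XT.nil))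

set_option maxRecDepth 10000000 in
noncomputable def Te : XT := XT.nil

set_option maxRecDepth 10000000 in
noncomputable def Tz : ZL := (ZL.cons (nat_lit 76) (nat_lit 6) (nat_lit 215529441887048215310) (ZL.cons (nat_lit 152) (nat_lit 6) (nat_lit 203409010830917238504) (ZL.cons (nat_lit 228) (nat_lit 3) (nat_lit 100744465516124100696) (ZL.cons (nat_lit 304) (nat_lit 6) (nat_lit 189470515116366615174) (ZL.cons (nat_lit 380) (nat_lit 6) (nat_lit 179239051219310121276) (ZL.cons (nat_lit 456) (nat_lit 3) (nat_lit 88784708305885914068) (ZL.cons (nat_lit 532) (nat_lit 6) (nat_lit 167472867737695153290) (ZL.cons (nat_lit 608) (nat_lit 6) (nat_lit 158983327320513351348) (ZL.cons (nat_lit 684) (nat_lit 3) (nat_lit 78765735570022635179) (ZL.cons (nat_lit 760) (nat_lit 6) (nat_lit 149220355840754279116) (ZL.cons (nat_lit 836) (nat_lit 6) (nat_lit 142376913062227355818) (ZL.cons (nat_lit 912) (nat_lit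 3) (nat_lit 70557214713518860088) (ZL.cons (nat_lit 988) (nat_lit 6) (nat_lit 136867249358797669366) (ZL.cons (nat_lit 1064) (nat_lit 6) (nat_lit 134506953866921394030) (ZL.cons (nat_lit 1140) (nat_lit 6) (nat_lit 129268652464663894298) (ZL.cons (nat_lit 1216) (nat_lit 3) (nat_lit 64085420303988627302) (ZL.cons (nat_lit 1292) (nat_lit 6) (nat_lit 125297036714568878594) (ZL.cons (nat_lit 1368) (nat_lit 6) (nat_lit 123244605852067769606) (ZL.cons (nat_lit 1444) (nat_lit 3) (nat_lit 60160248104228468906) (ZL.cons (nat_lit 1520) (nat_lit 6) (nat_lit 120866302723336155254) (ZL.cons (nat_lit 1596) (nat_lit 6) (nat_lit 122514401091091009652) (ZL.cons (nat_lit 1672) (nat_lit 6) (nat_lit 119631866745272970840) (ZL.cons (nat_lit 1748) (nat_lit 3) (nat_lit 59338623869729250773) (ZL.cons (nat_lit 1824) (nat_lit 6) (nat_lit 116088455254600033884) (ZL.cons (nat_lit 1900) (nat_lit 6) (nat_lit 117261939261590351380)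 (ZL.cons (nat_lit 1976) (nat_lit 6) (nat_lit 115477216772458952262) (ZL.cons (nat_lit 2052) (nat_lit 3) (nat_lit 56477113078714884825) (ZL.cons (nat_lit 2128) (nat_lit 6) (nat_lit 113581903649540869704) (ZL.cons (nat_lit 2204) (nat_lit 3) (nat_lit 56375900083111969940) (ZL.cons (nat_lit 2280) (nat_lit 6) (nat_lit 111402293558185074764) (ZL.cons (nat_lit 2356) (nat_lit 1) (nat_lit 18446744073709551617) ZL.nil)))))))))))))))))))))))))))))))

noncomputable def vl : XL := ⟨(nat_lit 0), (nat_lit 76), (nat_lit 144905410), (nat_lit 228), (nat_lit 279814274), (nat_lit 76), (nat_lit 144905410), (nat_lit 1), (nat_lit 5), (nat_lit 3), (nat_lit 4), (nat_lit 1), (nat_lit 4), (nat_lit 0), (nat_lit 0), (nat_lit 0)⟩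

noncomputable def cp0 : Nat := (nat_lit 33177886090120033209229964961454992003626638634071458744792572746651774112986034933334016)

noncomputable def cp1 : Nat := (nat_lit 57541922385050789920219872395408028626512705124996174508589053227422033106466948953769857786262361606030016682413757489719653032153223982197839039443184882473151874760824260754768744771874198038083975150389224699015421929298629687192951499238241223894575189276768846227631856716982311760401066202594264583618180215783367875622857490614856744240957902788426284191075752609179690143701977028878608766495144231950021744720825118042150355762555246022758800415430655189092536825991388644237237355597412717444257447857729846990185485635851960332495642155107331109721079778996168424664071685307645702762409434696713570324983376361583517679321565161849393519660579135014332309792065790841754062753884349577249419969295689347035687813120)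

noncomputable def rc0 : Nat := (nat_lit 57541922385050789920219872395408028626512705124996174508589053227422033106466948953769857786262361606030016682413757489719653032153223982197839039443184882473151874760824260754768744771874198038083975150389224699015421929298629687192951499238241223894575189276768846227631856716982311760401066202594264583618180215783367875622857490614856744240957902788426284191075752609179690143701977028878608766495144231950021744720825118042150355762555246022758800415430655189092536825991388644237237355597412717444257447857729846990185485635851960332495642155107331109721079778996168424664071685307645702762409434696713570324983376361583517679321565161849393519660579135014332309792065790841754062753884349577249419969295689347035687813120)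

end Vale.Agent.Lib.P154.PChain.BN.S0
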