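import Vale.Agent.Lib.P154.PChain.BN.R0_0

set_option linter.all false

namespace Vale.Agent.Lib.P154.PChain.BN.S1

open Vale.Agent.Lib.P154.Chain

noncomputable def pc0 : PT := (PT.nd (nat_lit 3517566) (PT.nd (nat_lit 3380130) (PT.nd (nat_lit 3311412) (PT.nd (nat_lit 3311256) (PT.nd (nat_lit 3277014) (PT.nd (nat_lit 3276936) PT.nil (PT.lf (nat_lit 76) (nat_lit 6) (nat_lit 1) (nat_lit 3) (nat_lit 117) (nat_lit 95) (nat_lit 118))) (PT.lf (nat_lit 76) (nat_lit 6) (nat_lit 1) (nat_lit 1) (nat_lit 118) (nat_lit 95) (nat_lit 117))) (PT.nd (nat_lit 78) (PT.lf (nat_lit 152) (nat_lit 6) (nat_lit 2) (nat_lit 3) (nat_lit 116) (nat_lit 96) (nat_lit 118)) (PT.lf (nat_lit 228) (nat_lit 3) (nat_lit 3) (nat_lit 1) (nat_lit 117) (nat_lit 96) (nat_lit 117)))) (PT.nd (nat_lit 34320) (PT.nd (nat_lit 34242) (PT.lf (nat_lit 152) (nat_lit 6) (nat_lit 2) (nat_lit 1) (nat_lit 118) (nat_lit 96) (nat_lit 116))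 (PT.lf (nat_lit 304) (nat_lit 6) (nat_lit 4) (nat_lit 3) (nat_lit 116) (nat_lit 97) (nat_lit 117))) (PT.nd (nat_lit 34242) (PT.lf (nat_lit 304) (nat_lit 6) (nat_lit 4) (nat_lit 1) (nat_lit 117) (nat_lit 97) (nat_lit 116)) (PT.nd (nat_lit 78) (PT.lf (nat_lit 380) (nat_lit 6) (nat_lit 5) (nat_lit 3) (nat_lit 115) (nat_lit 98) (nat_lit 117)) (PT.lf (nat_lit 456) (nat_lit 3) (nat_lit 6) (nat_lit 1) (nat_lit 116) (nat_lit 98) (nat_lit 116)))))) (PT.nd (nat_lit 68718) (PT.nd (nat_lit 34320) (PT.nd (nat_lit 34242) (PT.lf (nat_lit 380) (nat_lit 6) (nat_lit 5) (nat_lit 1) (nat_lit 117) (nat_lit 98) (nat_lit 115)) (PT.lf (nat_lit 532) (nat_lit 6) (nat_lit 7) (nat_lit 3) (nat_lit 115) (nat_lit 99) (nat_lit 116))) (PT.nd (nat_lit 34242) (PT.lf (nat_lit 532) (nat_lit 6) (nat_lit 7) (nat_lit 1) (nat_lit 116) (nat_lit 99) (nat_lit 115)) (PT.nd (nat_lit 78) (PT.lf (nat_lit 608) (nat_lit 6) (nat_lit 8)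 (nat_lit 3) (nat_lit 114) (nat_lit 100) (nat_lit 116)) (PT.lf (nat_lit 684) (nat_lit 3) (nat_lit 9) (nat_lit 1) (nat_lit 115) (nat_lit 100) (nat_lit 115))))) (PT.nd (nat_lit 34320) (PT.nd (nat_lit 34242) (PT.lf (nat_lit 608) (nat_lit 6) (nat_lit 8) (nat_lit 1) (nat_lit 116) (nat_lit 100) (nat_lit 114)) (PT.lf (nat_lit 760) (nat_lit 6) (nat_lit 10) (nat_lit 3) (nat_lit 114) (nat_lit 101) (nat_lit 115))) (PT.nd (nat_lit 34242) (PT.lf (nat_lit 760) (nat_lit 6) (nat_lit 10) (nat_lit 1) (nat_lit 115) (nat_lit 101) (nat_lit 114)) (PT.nd (nat_lit 78) (PT.lf (nat_lit 836) (nat_lit 6) (nat_lit 11) (nat_lit 3) (nat_lit 113) (nat_lit 102) (nat_lit 115)) (PT.lf (nat_lit 912) (nat_lit 3) (nat_lit 12) (nat_lit 1) (nat_lit 114) (nat_lit 102) (nat_lit 114))))))) (PT.nd (nat_lit 102960) (PT.nd (nat_lit 34398) (PT.nd (nat_lit 34242) (PT.nd (nat_lit 34164) (PT.lf (nat_lit 836) (nat_lit 6) (nat_lit 11) (nat_lit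 1) (nat_lit 115) (nat_lit 102) (nat_lit 113)) (PT.lf (nat_lit 988) (nat_lit 6) (nat_lit 13) (nat_lit 3) (nat_lit 112) (nat_lit 103) (nat_lit 115))) (PT.nd (nat_lit 78) (PT.lf (nat_lit 1064) (nat_lit 6) (nat_lit 14) (nat_lit 3) (nat_lit 113) (nat_lit 103) (nat_lit 114)) (PT.lf (nat_lit 1064) (nat_lit 6) (nat_lit 14) (nat_lit 1) (nat_lit 114) (nat_lit 103) (nat_lit 113)))) (PT.nd (nat_lit 34242) (PT.nd (nat_lit 34164) (PT.lf (nat_lit 988) (nat_lit 6) (nat_lit 13) (nat_lit 1) (nat_lit 115) (nat_lit 103) (nat_lit 112)) (PT.lf (nat_lit 1140) (nat_lit 6) (nat_lit 15) (nat_lit 3) (nat_lit 112) (nat_lit 104) (nat_lit 114))) (PT.nd (nat_lit 78) (PT.lf (nat_lit 1216) (nat_lit 3) (nat_lit 16) (nat_lit 1) (nat_lit 113) (nat_lit 104) (nat_lit 113)) (PT.nd (nat_lit 34164) (PT.lf (nat_lit 1140) (nat_lit 6) (nat_lit 15) (nat_lit 1) (nat_lit 114) (nat_lit 104) (nat_lit 112)) (PT.lf (nat_lit 1292) (nat_lit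 6) (nat_lit 17) (nat_lit 3) (nat_lit 111) (nat_lit 105) (nat_lit 114)))))) (PT.nd (nat_lit 34398) (PT.nd (nat_lit 156) (PT.nd (nat_lit 78) (PT.lf (nat_lit 1368) (nat_lit 6) (nat_lit 18) (nat_lit 3) (nat_lit 112) (nat_lit 105) (nat_lit 113)) (PT.lf (nat_lit 1368) (nat_lit 6) (nat_lit 18) (nat_lit 1) (nat_lit 113) (nat_lit 105) (nat_lit 112))) (PT.nd (nat_lit 34086) (PT.lf (nat_lit 1292) (nat_lit 6) (nat_lit 17) (nat_lit 1) (nat_lit 114) (nat_lit 105) (nat_lit 111)) (PT.nd (nat_lit 78) (PT.lf (nat_lit 1596) (nat_lit 6) (nat_lit 21) (nat_lit 3) (nat_lit 110) (nat_lit 106) (nat_lit 114)) (PT.lf (nat_lit 1672) (nat_lit 6) (nat_lit 22) (nat_lit 3) (nat_lit 111) (nat_lit 106) (nat_lit 113))))) (PT.nd (nat_lit 156) (PT.nd (nat_lit 78) (PT.lf (nat_lit 1748) (nat_lit 3) (nat_lit 23) (nat_lit 1) (nat_lit 112) (nat_lit 106) (nat_lit 112)) (PT.lf (nat_lit 1672) (nat_lit 6) (nat_lit 22) (nat_lit 1)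 (nat_lit 113) (nat_lit 106) (nat_lit 111))) (PT.nd (nat_lit 34008) (PT.lf (nat_lit 1596) (nat_lit 6) (nat_lit 21) (nat_lit 1) (nat_lit 114) (nat_lit 106) (nat_lit 110)) (PT.nd (nat_lit 78) (PT.lf (nat_lit 1520) (nat_lit 6) (nat_lit 20) (nat_lit 3) (nat_lit 109) (nat_lit 107) (nat_lit 114)) (PT.lf (nat_lit 1900) (nat_lit 6) (nat_lit 25) (nat_lit 3) (nat_lit 110) (nat_lit 107) (nat_lit 113))))))))
noncomputable def pc1 : PT := (PT.nd (nat_lit 102804) (PT.nd (nat_lit 34554) (PT.nd (nat_lit 34164) (PT.nd (nat_lit 156) (PT.nd (nat_lit 78) (PT.lf (nat_lit 1976) (nat_lit 6) (nat_lit 26) (nat_lit 3) (nat_lit 111) (nat_lit 107) (nat_lit 112)) (PT.lf (nat_lit 1976) (nat_lit 6) (nat_lit 26) (nat_lit 1) (nat_lit 112) (nat_lit 107) (nat_lit 111))) (PT.nd (nat_lit 78) (PT.lf (nat_lit 1900) (nat_lit 6) (nat_lit 25) (nat_lit 1) (nat_lit 113) (nat_lit 107) (nat_lit 110)) (PT.lf (nat_lit 1520) (nat_lit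 6) (nat_lit 20) (nat_lit 1) (nat_lit 114) (nat_lit 107) (nat_lit 109)))) (PT.nd (nat_lit 156) (PT.nd (nat_lit 78) (PT.lf (nat_lit 1444) (nat_lit 3) (nat_lit 19) (nat_lit 3) (nat_lit 108) (nat_lit 108) (nat_lit 114)) (PT.lf (nat_lit 1824) (nat_lit 6) (nat_lit 24) (nat_lit 3) (nat_lit 109) (nat_lit 108) (nat_lit 113))) (PT.nd (nat_lit 78) (PT.lf (nat_lit 2128) (nat_lit 6) (nat_lit 28) (nat_lit 3) (nat_lit 110) (nat_lit 108) (nat_lit 112)) (PT.nd (nat_lit 78) (PT.lf (nat_lit 2204) (nat_lit 3) (nat_lit 29) (nat_lit 1) (nat_lit 111) (nat_lit 108) (nat_lit 111)) (PT.lf (nat_lit 2128) (nat_lit 6) (nat_lit 28) (nat_lit 1) (nat_lit 112) (nat_lit 108) (nat_lit 110)))))) (PT.nd (nat_lit 34164) (PT.nd (nat_lit 33930) (PT.nd (nat_lit 78) (PT.lf (nat_lit 1824) (nat_lit 6) (nat_lit 24) (nat_lit 1) (nat_lit 113) (nat_lit 108) (nat_lit 109)) (PT.lf (nat_lit 1444) (nat_lit 3) (nat_lit 19) (nat_lit 0) (nat_lit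 114) (nat_lit 108) (nat_lit 108))) (PT.nd (nat_lit 78) (PT.lf (nat_lit 1520) (nat_lit 6) (nat_lit 20) (nat_lit 5) (nat_lit 107) (nat_lit 109) (nat_lit 114)) (PT.nd (nat_lit 78) (PT.lf (nat_lit 1824) (nat_lit 6) (nat_lit 24) (nat_lit 5) (nat_lit 108) (nat_lit 109) (nat_lit 113)) (PT.lf (nat_lit 2052) (nat_lit 3) (nat_lit 27) (nat_lit 3) (nat_lit 109) (nat_lit 109) (nat_lit 112))))) (PT.nd (nat_lit 156) (PT.nd (nat_lit 78) (PT.lf (nat_lit 2280) (nat_lit 6) (nat_lit 30) (nat_lit 3) (nat_lit 110) (nat_lit 109) (nat_lit 111)) (PT.lf (nat_lit 2280) (nat_lit 6) (nat_lit 30) (nat_lit 1) (nat_lit 111) (nat_lit 109) (nat_lit 110))) (PT.nd (nat_lit 78) (PT.lf (nat_lit 2052) (nat_lit 3) (nat_lit 27) (nat_lit 0) (nat_lit 112) (nat_lit 109) (nat_lit 109)) (PT.nd (nat_lit 78) (PT.lf (nat_lit 1824) (nat_lit 6) (nat_lit 24) (nat_lit 0) (nat_lit 113) (nat_lit 109) (nat_lit 108)) (PT.lf (nat_lit 1520) (nat_lit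 6) (nat_lit 20) (nat_lit 0) (nat_lit 114) (nat_lit 109) (nat_lit 107))))))) (PT.nd (nat_lit 34398) (PT.nd (nat_lit 390) (PT.nd (nat_lit 156) (PT.nd (nat_lit 78) (PT.lf (nat_lit 1596) (nat_lit 6) (nat_lit 21) (nat_lit 5) (nat_lit 106) (nat_lit 110) (nat_lit 114)) (PT.lf (nat_lit 1900) (nat_lit 6) (nat_lit 25) (nat_lit 5) (nat_lit 107) (nat_lit 110) (nat_lit 113))) (PT.nd (nat_lit 78) (PT.lf (nat_lit 2128) (nat_lit 6) (nat_lit 28) (nat_lit 5) (nat_lit 108) (nat_lit 110) (nat_lit 112)) (PT.nd (nat_lit 78) (PT.lf (nat_lit 2280) (nat_lit 6) (nat_lit 30) (nat_lit 5) (nat_lit 109) (nat_lit 110) (nat_lit 111)) (PT.lf (nat_lit 2356) (nat_lit 1) (nat_lit 31) (nat_lit 0) (nat_lit 110) (nat_lit 110) (nat_lit 110))))) (PT.nd (nat_lit 156) (PT.nd (nat_lit 78) (PT.lf (nat_lit 2280) (nat_lit 6) (nat_lit 30) (nat_lit 0) (nat_lit 111) (nat_lit 110) (nat_lit 109)) (PT.lf (nat_lit 2128) (nat_lit 6) (nat_lit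 28) (nat_lit 0) (nat_lit 112) (nat_lit 110) (nat_lit 108))) (PT.nd (nat_lit 78) (PT.lf (nat_lit 1900) (nat_lit 6) (nat_lit 25) (nat_lit 0) (nat_lit 113) (nat_lit 110) (nat_lit 107)) (PT.nd (nat_lit 33696) (PT.lf (nat_lit 1596) (nat_lit 6) (nat_lit 21) (nat_lit 0) (nat_lit 114) (nat_lit 110) (nat_lit 106)) (PT.lf (nat_lit 1292) (nat_lit 6) (nat_lit 17) (nat_lit 5) (nat_lit 105) (nat_lit 111) (nat_lit 114)))))) (PT.nd (nat_lit 390) (PT.nd (nat_lit 156) (PT.nd (nat_lit 78) (PT.lf (nat_lit 1672) (nat_lit 6) (nat_lit 22) (nat_lit 5) (nat_lit 106) (nat_lit 111) (nat_lit 113)) (PT.lf (nat_lit 1976) (nat_lit 6) (nat_lit 26) (nat_lit 5) (nat_lit 107) (nat_lit 111) (nat_lit 112))) (PT.nd (nat_lit 78) (PT.lf (nat_lit 2204) (nat_lit 3) (nat_lit 29) (nat_lit 4) (nat_lit 108) (nat_lit 111) (nat_lit 111)) (PT.nd (nat_lit 78) (PT.lf (nat_lit 2280) (nat_lit 6) (nat_lit 30) (nat_lit 4) (nat_lit 109) (nat_lit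 111) (nat_lit 110)) (PT.lf (nat_lit 2280) (nat_lit 6) (nat_lit 30) (nat_lit 2) (nat_lit 110) (nat_lit 111) (nat_lit 109))))) (PT.nd (nat_lit 156) (PT.nd (nat_lit 78) (PT.lf (nat_lit 2204) (nat_lit 3) (nat_lit 29) (nat_lit 0) (nat_lit 111) (nat_lit 111) (nat_lit 108)) (PT.lf (nat_lit 1976) (nat_lit 6) (nat_lit 26) (nat_lit 0) (nat_lit 112) (nat_lit 111) (nat_lit 107))) (PT.nd (nat_lit 78) (PT.lf (nat_lit 1672) (nat_lit 6) (nat_lit 22) (nat_lit 0) (nat_lit 113) (nat_lit 111) (nat_lit 106)) (PT.nd (nat_lit 33540) (PT.lf (nat_lit 1292) (nat_lit 6) (nat_lit 17) (nat_lit 0) (nat_lit 114) (nat_lit 111) (nat_lit 105)) (PT.lf (nat_lit 988) (nat_lit 6) (nat_lit 13) (nat_lit 5) (nat_lit 103) (nat_lit 112) (nat_lit 115))))))))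
noncomputable def pc2 : PT := (PT.nd (nat_lit 34788) (PT.nd (nat_lit 702) (PT.nd (nat_lit 312) (PT.nd (nat_lit 156) (PT.nd (nat_lit 78) (PT.lf (nat_lit 1140) (nat_lit 6) (nat_lit 15) (nat_lit 5) (nat_lit 104) (nat_lit 112) (nat_lit 114)) (PT.lf (nat_lit 1368) (nat_lit 6) (nat_lit 18) (nat_lit 5) (nat_lit 105) (nat_lit 112) (nat_lit 113))) (PT.nd (nat_lit 78) (PT.lf (nat_lit 1748) (nat_lit 3) (nat_lit 23) (nat_lit 4) (nat_lit 106) (nat_lit 112) (nat_lit 112)) (PT.lf (nat_lit 1976) (nat_lit 6) (nat_lit 26) (nat_lit 4) (nat_lit 107) (nat_lit 112) (nat_lit 111)))) (PT.nd (nat_lit 156) (PT.nd (nat_lit 78) (PT.lf (nat_lit 2128) (nat_lit 6) (nat_lit 28) (nat_lit 4) (nat_lit 108) (nat_lit 112) (nat_lit 110)) (PT.lf (nat_lit 2052) (nat_lit 3) (nat_lit 27) (nat_lit 2) (nat_lit 109) (nat_lit 112) (nat_lit 109))) (PT.nd (nat_lit 78) (PT.lf (nat_lit 2128) (nat_lit 6) (nat_lit 28) (nat_lit 2) (nat_lit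 110) (nat_lit 112) (nat_lit 108)) (PT.nd (nat_lit 78) (PT.lf (nat_lit 1976) (nat_lit 6) (nat_lit 26) (nat_lit 2) (nat_lit 111) (nat_lit 112) (nat_lit 107)) (PT.lf (nat_lit 1748) (nat_lit 3) (nat_lit 23) (nat_lit 0) (nat_lit 112) (nat_lit 112) (nat_lit 106)))))) (PT.nd (nat_lit 33696) (PT.nd (nat_lit 156) (PT.nd (nat_lit 78) (PT.lf (nat_lit 1368) (nat_lit 6) (nat_lit 18) (nat_lit 0) (nat_lit 113) (nat_lit 112) (nat_lit 105)) (PT.lf (nat_lit 1140) (nat_lit 6) (nat_lit 15) (nat_lit 0) (nat_lit 114) (nat_lit 112) (nat_lit 104))) (PT.nd (nat_lit 33384) (PT.lf (nat_lit 988) (nat_lit 6) (nat_lit 13) (nat_lit 0) (nat_lit 115) (nat_lit 112) (nat_lit 103)) (PT.nd (nat_lit 78) (PT.lf (nat_lit 836) (nat_lit 6) (nat_lit 11) (nat_lit 5) (nat_lit 102) (nat_lit 113) (nat_lit 115)) (PT.lf (nat_lit 1064) (nat_lit 6) (nat_lit 14) (nat_lit 5) (nat_lit 103) (nat_lit 113) (nat_lit 114))))) (PT.nd (nat_lit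 156) (PT.nd (nat_lit 78) (PT.lf (nat_lit 1216) (nat_lit 3) (nat_lit 16) (nat_lit 4) (nat_lit 104) (nat_lit 113) (nat_lit 113)) (PT.lf (nat_lit 1368) (nat_lit 6) (nat_lit 18) (nat_lit 4) (nat_lit 105) (nat_lit 113) (nat_lit 112))) (PT.nd (nat_lit 78) (PT.lf (nat_lit 1672) (nat_lit 6) (nat_lit 22) (nat_lit 4) (nat_lit 106) (nat_lit 113) (nat_lit 111)) (PT.nd (nat_lit 78) (PT.lf (nat_lit 1900) (nat_lit 6) (nat_lit 25) (nat_lit 4) (nat_lit 107) (nat_lit 113) (nat_lit 110)) (PT.lf (nat_lit 1824) (nat_lit 6) (nat_lit 24) (nat_lit 4) (nat_lit 108) (nat_lit 113) (nat_lit 109))))))) (PT.nd (nat_lit 33852) (PT.nd (nat_lit 312) (PT.nd (nat_lit 156) (PT.nd (nat_lit 78) (PT.lf (nat_lit 1824) (nat_lit 6) (nat_lit 24) (nat_lit 2) (nat_lit 109) (nat_lit 113) (nat_lit 108)) (PT.lf (nat_lit 1900) (nat_lit 6) (nat_lit 25) (nat_lit 2) (nat_lit 110) (nat_lit 113) (nat_lit 107))) (PT.nd (nat_lit 78) (PT.lf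 (nat_lit 1672) (nat_lit 6) (nat_lit 22) (nat_lit 2) (nat_lit 111) (nat_lit 113) (nat_lit 106)) (PT.lf (nat_lit 1368) (nat_lit 6) (nat_lit 18) (nat_lit 2) (nat_lit 112) (nat_lit 113) (nat_lit 105)))) (PT.nd (nat_lit 156) (PT.nd (nat_lit 78) (PT.lf (nat_lit 1216) (nat_lit 3) (nat_lit 16) (nat_lit 0) (nat_lit 113) (nat_lit 113) (nat_lit 104)) (PT.lf (nat_lit 1064) (nat_lit 6) (nat_lit 14) (nat_lit 0) (nat_lit 114) (nat_lit 113) (nat_lit 103))) (PT.nd (nat_lit 33228) (PT.lf (nat_lit 836) (nat_lit 6) (nat_lit 11) (nat_lit 0) (nat_lit 115) (nat_lit 113) (nat_lit 102)) (PT.nd (nat_lit 78) (PT.lf (nat_lit 608) (nat_lit 6) (nat_lit 8) (nat_lit 5) (nat_lit 100) (nat_lit 114) (nat_lit 116)) (PT.lf (nat_lit 760) (nat_lit 6) (nat_lit 10) (nat_lit 5) (nat_lit 101) (nat_lit 114) (nat_lit 115)))))) (PT.nd (nat_lit 390) (PT.nd (nat_lit 156) (PT.nd (nat_lit 78) (PT.lf (nat_lit 912) (nat_lit 3) (nat_lit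 12) (nat_lit 4) (nat_lit 102) (nat_lit 114) (nat_lit 114)) (PT.lf (nat_lit 1064) (nat_lit 6) (nat_lit 14) (nat_lit 4) (nat_lit 103) (nat_lit 114) (nat_lit 113))) (PT.nd (nat_lit 78) (PT.lf (nat_lit 1140) (nat_lit 6) (nat_lit 15) (nat_lit 4) (nat_lit 104) (nat_lit 114) (nat_lit 112)) (PT.nd (nat_lit 78) (PT.lf (nat_lit 1292) (nat_lit 6) (nat_lit 17) (nat_lit 4) (nat_lit 105) (nat_lit 114) (nat_lit 111)) (PT.lf (nat_lit 1596) (nat_lit 6) (nat_lit 21) (nat_lit 4) (nat_lit 106) (nat_lit 114) (nat_lit 110))))) (PT.nd (nat_lit 156) (PT.nd (nat_lit 78) (PT.lf (nat_lit 1520) (nat_lit 6) (nat_lit 20) (nat_lit 4) (nat_lit 107) (nat_lit 114) (nat_lit 109)) (PT.lf (nat_lit 1444) (nat_lit 3) (nat_lit 19) (nat_lit 2) (nat_lit 108) (nat_lit 114) (nat_lit 108))) (PT.nd (nat_lit 78) (PT.lf (nat_lit 1520) (nat_lit 6) (nat_lit 20) (nat_lit 2) (nat_lit 109) (nat_lit 114) (nat_lit 107)) (PT.nd (nat_lit 78)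 (PT.lf (nat_lit 1596) (nat_lit 6) (nat_lit 21) (nat_lit 2) (nat_lit 110) (nat_lit 114) (nat_lit 106)) (PT.lf (nat_lit 1292) (nat_lit 6) (nat_lit 17) (nat_lit 2) (nat_lit 111) (nat_lit 114) (nat_lit 105))))))))
noncomputable def pc3 : PT := (PT.nd (nat_lit 67704) (PT.nd (nat_lit 33618) (PT.nd (nat_lit 312) (PT.nd (nat_lit 156) (PT.nd (nat_lit 78) (PT.lf (nat_lit 1140) (nat_lit 6) (nat_lit 15) (nat_lit 2) (nat_lit 112) (nat_lit 114) (nat_lit 104)) (PT.lf (nat_lit 1064) (nat_lit 6) (nat_lit 14) (nat_lit 2) (nat_lit 113) (nat_lit 114) (nat_lit 103))) (PT.nd (nat_lit 78) (PT.lf (nat_lit 912) (nat_lit 3) (nat_lit 12) (nat_lit 0) (nat_lit 114) (nat_lit 114) (nat_lit 102)) (PT.lf (nat_lit 760) (nat_lit 6) (nat_lit 10) (nat_lit 0) (nat_lit 115) (nat_lit 114) (nat_lit 101)))) (PT.nd (nat_lit 33072) (PT.nd (nat_lit 32994) (PT.lf (nat_lit 608) (nat_lit 6) (nat_lit 8) (nat_lit 0) (nat_lit 116) (nat_lit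 114) (nat_lit 100)) (PT.lf (nat_lit 380) (nat_lit 6) (nat_lit 5) (nat_lit 5) (nat_lit 98) (nat_lit 115) (nat_lit 117))) (PT.nd (nat_lit 78) (PT.lf (nat_lit 532) (nat_lit 6) (nat_lit 7) (nat_lit 5) (nat_lit 99) (nat_lit 115) (nat_lit 116)) (PT.nd (nat_lit 78) (PT.lf (nat_lit 684) (nat_lit 3) (nat_lit 9) (nat_lit 4) (nat_lit 100) (nat_lit 115) (nat_lit 115)) (PT.lf (nat_lit 760) (nat_lit 6) (nat_lit 10) (nat_lit 4) (nat_lit 101) (nat_lit 115) (nat_lit 114)))))) (PT.nd (nat_lit 1014) (PT.nd (nat_lit 780) (PT.nd (nat_lit 78) (PT.lf (nat_lit 836) (nat_lit 6) (nat_lit 11) (nat_lit 4) (nat_lit 102) (nat_lit 115) (nat_lit 113)) (PT.lf (nat_lit 988) (nat_lit 6) (nat_lit 13) (nat_lit 4) (nat_lit 103) (nat_lit 115) (nat_lit 112))) (PT.nd (nat_lit 78) (PT.lf (nat_lit 988) (nat_lit 6) (nat_lit 13) (nat_lit 2) (nat_lit 112) (nat_lit 115) (nat_lit 103)) (PT.nd (nat_lit 78) (PT.lf (nat_lit 836) (nat_lit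 6) (nat_lit 11) (nat_lit 2) (nat_lit 113) (nat_lit 115) (nat_lit 102)) (PT.lf (nat_lit 760) (nat_lit 6) (nat_lit 10) (nat_lit 2) (nat_lit 114) (nat_lit 115) (nat_lit 101))))) (PT.nd (nat_lit 156) (PT.nd (nat_lit 78) (PT.lf (nat_lit 684) (nat_lit 3) (nat_lit 9) (nat_lit 0) (nat_lit 115) (nat_lit 115) (nat_lit 100)) (PT.lf (nat_lit 532) (nat_lit 6) (nat_lit 7) (nat_lit 0) (nat_lit 116) (nat_lit 115) (nat_lit 99))) (PT.nd (nat_lit 32760) (PT.lf (nat_lit 380) (nat_lit 6) (nat_lit 5) (nat_lit 0) (nat_lit 117) (nat_lit 115) (nat_lit 98)) (PT.nd (nat_lit 78) (PT.lf (nat_lit 152) (nat_lit 6) (nat_lit 2) (nat_lit 5) (nat_lit 96) (nat_lit 116) (nat_lit 118)) (PT.lf (nat_lit 304) (nat_lit 6) (nat_lit 4) (nat_lit 5) (nat_lit 97) (nat_lit 116) (nat_lit 117))))))) (PT.nd (nat_lit 34320) (PT.nd (nat_lit 1404) (PT.nd (nat_lit 156) (PT.nd (nat_lit 78) (PT.lf (nat_lit 456) (nat_lit 3) (nat_lit 6) (nat_lit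 4) (nat_lit 98) (nat_lit 116) (nat_lit 116)) (PT.lf (nat_lit 532) (nat_lit 6) (nat_lit 7) (nat_lit 4) (nat_lit 99) (nat_lit 116) (nat_lit 115))) (PT.nd (nat_lit 1092) (PT.lf (nat_lit 608) (nat_lit 6) (nat_lit 8) (nat_lit 4) (nat_lit 100) (nat_lit 116) (nat_lit 114)) (PT.nd (nat_lit 78) (PT.lf (nat_lit 608) (nat_lit 6) (nat_lit 8) (nat_lit 2) (nat_lit 114) (nat_lit 116) (nat_lit 100)) (PT.lf (nat_lit 532) (nat_lit 6) (nat_lit 7) (nat_lit 2) (nat_lit 115) (nat_lit 116) (nat_lit 99))))) (PT.nd (nat_lit 156) (PT.nd (nat_lit 78) (PT.lf (nat_lit 456) (nat_lit 3) (nat_lit 6) (nat_lit 0) (nat_lit 116) (nat_lit 116) (nat_lit 98)) (PT.lf (nat_lit 304) (nat_lit 6) (nat_lit 4) (nat_lit 0) (nat_lit 117) (nat_lit 116) (nat_lit 97))) (PT.nd (nat_lit 32604) (PT.lf (nat_lit 152) (nat_lit 6) (nat_lit 2) (nat_lit 0) (nat_lit 118) (nat_lit 116) (nat_lit 96)) (PT.nd (nat_lit 78) (PT.lf (nat_lit 76) (nat_lit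 6) (nat_lit 1) (nat_lit 5) (nat_lit 95) (nat_lit 117) (nat_lit 118)) (PT.lf (nat_lit 228) (nat_lit 3) (nat_lit 3) (nat_lit 4) (nat_lit 96) (nat_lit 117) (nat_lit 117)))))) (PT.nd (nat_lit 1638) (PT.nd (nat_lit 1404) (PT.nd (nat_lit 78) (PT.lf (nat_lit 304) (nat_lit 6) (nat_lit 4) (nat_lit 4) (nat_lit 97) (nat_lit 117) (nat_lit 116)) (PT.lf (nat_lit 380) (nat_lit 6) (nat_lit 5) (nat_lit 4) (nat_lit 98) (nat_lit 117) (nat_lit 115))) (PT.nd (nat_lit 78) (PT.lf (nat_lit 380) (nat_lit 6) (nat_lit 5) (nat_lit 2) (nat_lit 115) (nat_lit 117) (nat_lit 98)) (PT.nd (nat_lit 78) (PT.lf (nat_lit 304) (nat_lit 6) (nat_lit 4) (nat_lit 2) (nat_lit 116) (nat_lit 117) (nat_lit 97)) (PT.lf (nat_lit 228) (nat_lit 3) (nat_lit 3) (nat_lit 0) (nat_lit 117) (nat_lit 117) (nat_lit 96))))) (PT.nd (nat_lit 32682) (PT.nd (nat_lit 32604) (PT.lf (nat_lit 76) (nat_lit 6) (nat_lit 1) (nat_lit 0) (nat_lit 118) (nat_lit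 117) (nat_lit 95)) (PT.lf (nat_lit 76) (nat_lit 6) (nat_lit 1) (nat_lit 4) (nat_lit 95) (nat_lit 118) (nat_lit 117))) (PT.nd (nat_lit 1560) (PT.lf (nat_lit 152) (nat_lit 6) (nat_lit 2) (nat_lit 4) (nat_lit 96) (nat_lit 118) (nat_lit 116)) (PT.nd (nat_lit 78) (PT.lf (nat_lit 152) (nat_lit 6) (nat_lit 2) (nat_lit 2) (nat_lit 116) (nat_lit 118) (nat_lit 96)) (PT.lf (nat_lit 76) (nat_lit 6) (nat_lit 1) (nat_lit 2) (nat_lit 117) (nat_lit 118) (nat_lit 95))))))))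
noncomputable def xc0 : XT := (XT.nd (nat_lit 137592) (nat_lit 0) (nat_lit 0) (XT.nd (nat_lit 102960) (nat_lit 0) (nat_lit 0) (XT.nd (nat_lit 68640) (nat_lit 0) (nat_lit 0) (XT.nd (nat_lit 34398) (nat_lit 0) (nat_lit 0) (XT.nd (nat_lit 34242) (nat_lit 0) (nat_lit 0) (XT.lf (nat_lit 0) (nat_lit 1320322352734) (nat_lit 152) (nat_lit 5010520870876) (nat_lit 0) (nat_lit 1320322352734) (nat_lit 1) (nat_lit 5) (nat_lit 3) (nat_lit 4) (nat_lit 1) (nat_lit 4) (nat_lit 288) (nat_lit 186) (nat_lit 186)) (XT.nd (nat_lit 78) (nat_lit 0) (nat_lit 0) (XT.lf (nat_lit 0) (nat_lit 998015539946) (nat_lit 152) (nat_lit 3789378406923) (nat_lit 0) (nat_lit 998015539946) (nat_lit 1) (nat_lit 5) (nat_lit 3) (nat_lit 4) (nat_lit 1) (nat_lit 4) (nat_lit 286) (nat_lit 187) (nat_lit 187)) (XT.lf (nat_lit 0) (nat_lit 2295869265161) (nat_lit 152) (nat_lit 8714684565290) (nat_lit 0) (nat_lit 2295851430291) (nat_lit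 1) (nat_lit 5) (nat_lit 3) (nat_lit 4) (nat_lit 1) (nat_lit 4) (nat_lit 287) (nat_lit 187) (nat_lit 186)))) (XT.nd (nat_lit 34086) (nat_lit 0) (nat_lit 0) (XT.lf (nat_lit 0) (nat_lit 2640644594355) (nat_lit 152) (nat_lit 10021076752449) (nat_lit 0) (nat_lit 2640611250902) (nat_lit 1) (nat_lit 5) (nat_lit 3) (nat_lit 4) (nat_lit 1) (nat_lit 4) (nat_lit 288) (nat_lit 187) (nat_lit 185)) (XT.nd (nat_lit 78) (nat_lit 0) (nat_lit 0) (XT.lf (nat_lit 0) (nat_lit 754254607651) (nat_lit 152) (nat_lit 2866124983021) (nat_lit 0) (nat_lit 754254607651) (nat_lit 1) (nat_lit 5) (nat_lit 3) (nat_lit 4) (nat_lit 1) (nat_lit 4) (nat_lit 284) (nat_lit 188) (nat_lit 188)) (XT.lf (nat_lit 0) (nat_lit 1735284149374) (nat_lit 152) (nat_lit 6591068824720) (nat_lit 0) (nat_lit 1735263639273) (nat_lit 1) (nat_lit 5) (nat_lit 3) (nat_lit 4) (nat_lit 1) (nat_lit 4) (nat_lit 285) (nat_lit 188) (nat_lit 187)))))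 (XT.nd (nat_lit 34086) (nat_lit 0) (nat_lit 0) (XT.nd (nat_lit 78) (nat_lit 0) (nat_lit 0) (XT.lf (nat_lit 0) (nat_lit 1996030952113) (nat_lit 152) (nat_lit 7578797076148) (nat_lit 0) (nat_lit 1995992607142) (nat_lit 1) (nat_lit 5) (nat_lit 3) (nat_lit 4) (nat_lit 1) (nat_lit 4) (nat_lit 286) (nat_lit 188) (nat_lit 186)) (XT.nd (nat_lit 78) (nat_lit 0) (nat_lit 0) (XT.lf (nat_lit 0) (nat_lit 2295851191397) (nat_lit 152) (nat_lit 8714759838289) (nat_lit 0) (nat_lit 2295797337844) (nat_lit 1) (nat_lit 5) (nat_lit 3) (nat_lit 4) (nat_lit 1) (nat_lit 4) (nat_lit 287) (nat_lit 188) (nat_lit 185)) (XT.lf (nat_lit 0) (nat_lit 2640610915388) (nat_lit 152) (nat_lit 10021182469532) (nat_lit 0) (nat_lit 2640543576110) (nat_lit 1) (nat_lit 5) (nat_lit 3) (nat_lit 4) (nat_lit 1) (nat_lit 4) (nat_lit 288) (nat_lit 188) (nat_lit 184)))) (XT.nd (nat_lit 78) (nat_lit 0) (nat_lit 0) (XT.lf (nat_lit 0)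 (nat_lit 569878043949) (nat_lit 152) (nat_lit 2168134327872) (nat_lit 0) (nat_lit 569878043949) (nat_lit 1) (nat_lit 5) (nat_lit 3) (nat_lit 4) (nat_lit 1) (nat_lit 4) (nat_lit 282) (nat_lit 189) (nat_lit 189)) (XT.nd (nat_lit 78) (nat_lit 0) (nat_lit 0) (XT.lf (nat_lit 0) (nat_lit 1311292835628) (nat_lit 152) (nat_lit 4985537522444) (nat_lit 0) (nat_lit 1311269249012) (nat_lit 1) (nat_lit 5) (nat_lit 3) (nat_lit 4) (nat_lit 1) (nat_lit 4) (nat_lit 283) (nat_lit 189) (nat_lit 188)) (XT.lf (nat_lit 0) (nat_lit 1508509068354) (nat_lit 152) (nat_lit 5732296267688) (nat_lit 0) (nat_lit 1508464971638) (nat_lit 1) (nat_lit 5) (nat_lit 3) (nat_lit 4) (nat_lit 1) (nat_lit 4) (nat_lit 284) (nat_lit 189) (nat_lit 187)))))) (XT.nd (nat_lit 34164) (nat_lit 0) (nat_lit 0) (XT.nd (nat_lit 234) (nat_lit 0) (nat_lit 0) (XT.nd (nat_lit 78) (nat_lit 0) (nat_lit 0) (XT.lf (nat_lit 0) (nat_lit 1735263364545)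 (nat_lit 152) (nat_lit 6591155388668) (nat_lit 0) (nat_lit 1735201432959) (nat_lit 1) (nat_lit 5) (nat_lit 3) (nat_lit 4) (nat_lit 1) (nat_lit 4) (nat_lit 285) (nat_lit 189) (nat_lit 186)) (XT.nd (nat_lit 78) (nat_lit 0) (nat_lit 0) (XT.lf (nat_lit 0) (nat_lit 1995992221300) (nat_lit 152) (nat_lit 7578918650793) (nat_lit 0) (nat_lit 1995914781131) (nat_lit 1) (nat_lit 5) (nat_lit 3) (nat_lit 4) (nat_lit 1) (nat_lit 4) (nat_lit 286) (nat_lit 189) (nat_lit 185)) (XT.lf (nat_lit 0) (nat_lit 2295796855382) (nat_lit 152) (nat_lit 8714911857018) (nat_lit 0) (nat_lit 2295705929489) (nat_lit 1) (nat_lit 5) (nat_lit 3) (nat_lit 4) (nat_lit 1) (nat_lit 4) (nat_lit 287) (nat_lit 189) (nat_lit 184)))) (XT.nd (nat_lit 33774) (nat_lit 0) (nat_lit 0) (XT.lf (nat_lit 0) (nat_lit 2640543009631) (nat_lit 152) (nat_lit 10021360961378) (nat_lit 0) (nat_lit 2640440357021) (nat_lit 1) (nat_lit 5) (nat_lit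 3) (nat_lit 4) (nat_lit 1) (nat_lit 4) (nat_lit 288) (nat_lit 189) (nat_lit 183)) (XT.nd (nat_lit 78) (nat_lit 0) (nat_lit 0) (XT.lf (nat_lit 0) (nat_lit 430395852736) (nat_lit 152) (nat_lit 1640492924991) (nat_lit 0) (nat_lit 430395852736) (nat_lit 1) (nat_lit 5) (nat_lit 3) (nat_lit 4) (nat_lit 1) (nat_lit 4) (nat_lit 280) (nat_lit 190) (nat_lit 190)) (XT.lf (nat_lit 0) (nat_lit 990569796017) (nat_lit 152) (nat_lit 3771786581068) (nat_lit 0) (nat_lit 990542671409) (nat_lit 1) (nat_lit 5) (nat_lit 3) (nat_lit 4) (nat_lit 1) (nat_lit 4) (nat_lit 281) (nat_lit 190) (nat_lit 189))))) (XT.nd (nat_lit 234) (nat_lit 0) (nat_lit 0) (XT.nd (nat_lit 78) (nat_lit 0) (nat_lit 0) (XT.lf (nat_lit 0) (nat_lit 1139755918910) (nat_lit 152) (nat_lit 4336321902638) (nat_lit 0) (nat_lit 1139705207686) (nat_lit 1) (nat_lit 5) (nat_lit 3) (nat_lit 4) (nat_lit 1) (nat_lit 4) (nat_lit 282) (nat_lit 190) (nat_lit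 188)) (XT.nd (nat_lit 78) (nat_lit 0) (nat_lit 0) (XT.lf (nat_lit 0) (nat_lit 1311268933075) (nat_lit 152) (nat_lit 4985637070984) (nat_lit 0) (nat_lit 1311197711750) (nat_lit 1) (nat_lit 5) (nat_lit 3) (nat_lit 4) (nat_lit 1) (nat_lit 4) (nat_lit 283) (nat_lit 190) (nat_lit 187)) (XT.lf (nat_lit 0) (nat_lit 1508464527920) (nat_lit 152) (nat_lit 5732436078530) (nat_lit 0) (nat_lit 1508375471725) (nat_lit 1) (nat_lit 5) (nat_lit 3) (nat_lit 4) (nat_lit 1) (nat_lit 4) (nat_lit 284) (nat_lit 190) (nat_lit 186)))) (XT.nd (nat_lit 78) (nat_lit 0) (nat_lit 0) (XT.lf (nat_lit 0) (nat_lit 1735200878128) (nat_lit 152) (nat_lit 6591330210207) (nat_lit 0) (nat_lit 1735096313350) (nat_lit 1) (nat_lit 5) (nat_lit 3) (nat_lit 4) (nat_lit 1) (nat_lit 4) (nat_lit 285) (nat_lit 190) (nat_lit 185)) (XT.nd (nat_lit 78) (nat_lit 0) (nat_lit 0) (XT.lf (nat_lit 0) (nat_lit 1995914129680) (nat_lit 152) (nat_lit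 7579123916416) (nat_lit 0) (nat_lit 1995796079178) (nat_lit 1) (nat_lit 5) (nat_lit 3) (nat_lit 4) (nat_lit 1) (nat_lit 4) (nat_lit 286) (nat_lit 190) (nat_lit 184)) (XT.lf (nat_lit 0) (nat_lit 2295705194019) (nat_lit 152) (nat_lit 8715143595758) (nat_lit 0) (nat_lit 2295575416801) (nat_lit 1) (nat_lit 5) (nat_lit 3) (nat_lit 4) (nat_lit 1) (nat_lit 4) (nat_lit 287) (nat_lit 190) (nat_lit 183))))))) (XT.nd (nat_lit 67860) (nat_lit 0) (nat_lit 0) (XT.nd (nat_lit 34008) (nat_lit 0) (nat_lit 0) (XT.nd (nat_lit 33774) (nat_lit 0) (nat_lit 0) (XT.nd (nat_lit 33618) (nat_lit 0) (nat_lit 0) (XT.lf (nat_lit 0) (nat_lit 2640439548493) (nat_lit 152) (nat_lit 10021615720220) (nat_lit 0) (nat_lit 2640299574130) (nat_lit 1) (nat_lit 5) (nat_lit 3) (nat_lit 4) (nat_lit 1) (nat_lit 4) (nat_lit 288) (nat_lit 190) (nat_lit 182)) (XT.nd (nat_lit 78) (nat_lit 0) (nat_lit 0) (XT.lf (nat_lit 0) (nat_lit 324850203949)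 (nat_lit 152) (nat_lit 1241681002067) (nat_lit 0) (nat_lit 324850203949) (nat_lit 1) (nat_lit 5) (nat_lit 3) (nat_lit 4) (nat_lit 1) (nat_lit 4) (nat_lit 278) (nat_lit 191) (nat_lit 191)) (XT.lf (nat_lit 0) (nat_lit 747913704018) (nat_lit 152) (nat_lit 2854317086382) (nat_lit 0) (nat_lit 747882510718) (nat_lit 1) (nat_lit 5) (nat_lit 3) (nat_lit 4) (nat_lit 1) (nat_lit 4) (nat_lit 279) (nat_lit 191) (nat_lit 190)))) (XT.nd (nat_lit 78) (nat_lit 0) (nat_lit 0) (XT.lf (nat_lit 0) (nat_lit 860791511134) (nat_lit 152) (nat_lit 3281047083910) (nat_lit 0) (nat_lit 860733193226) (nat_lit 1) (nat_lit 5) (nat_lit 3) (nat_lit 4) (nat_lit 1) (nat_lit 4) (nat_lit 280) (nat_lit 191) (nat_lit 189)) (XT.nd (nat_lit 78) (nat_lit 0) (nat_lit 0) (XT.lf (nat_lit 0) (nat_lit 990542308082) (nat_lit 152) (nat_lit 3771901061890) (nat_lit 0) (nat_lit 990460403558) (nat_lit 1) (nat_lit 5) (nat_lit 3) (nat_lit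 4) (nat_lit 1) (nat_lit 4) (nat_lit 281) (nat_lit 191) (nat_lit 188)) (XT.lf (nat_lit 0) (nat_lit 1139704697411) (nat_lit 152) (nat_lit 4336482685106) (nat_lit 0) (nat_lit 1139602282787) (nat_lit 1) (nat_lit 5) (nat_lit 3) (nat_lit 4) (nat_lit 1) (nat_lit 4) (nat_lit 282) (nat_lit 191) (nat_lit 187))))) (XT.nd (nat_lit 234) (nat_lit 0) (nat_lit 0) (XT.nd (nat_lit 78) (nat_lit 0) (nat_lit 0) (XT.lf (nat_lit 0) (nat_lit 1311197073695) (nat_lit 152) (nat_lit 4985838115754) (nat_lit 0) (nat_lit 1311076824200) (nat_lit 1) (nat_lit 5) (nat_lit 3) (nat_lit 4) (nat_lit 1) (nat_lit 4) (nat_lit 283) (nat_lit 191) (nat_lit 186)) (XT.nd (nat_lit 78) (nat_lit 0) (nat_lit 0) (XT.lf (nat_lit 0) (nat_lit 1508374722556) (nat_lit 152) (nat_lit 5732672133997) (nat_lit 0) (nat_lit 1508238964479) (nat_lit 1) (nat_lit 5) (nat_lit 3) (nat_lit 4) (nat_lit 1) (nat_lit 4) (nat_lit 284) (nat_lit 191) (nat_lit 185))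 (XT.lf (nat_lit 0) (nat_lit 1735095467561) (nat_lit 152) (nat_lit 6591596709758) (nat_lit 0) (nat_lit 1734946223760) (nat_lit 1) (nat_lit 5) (nat_lit 3) (nat_lit 4) (nat_lit 1) (nat_lit 4) (nat_lit 285) (nat_lit 191) (nat_lit 184)))) (XT.nd (nat_lit 78) (nat_lit 0) (nat_lit 0) (XT.lf (nat_lit 0) (nat_lit 1995795149371) (nat_lit 152) (nat_lit 7579416889084) (nat_lit 0) (nat_lit 1995634178853) (nat_lit 1) (nat_lit 5) (nat_lit 3) (nat_lit 4) (nat_lit 1) (nat_lit 4) (nat_lit 286) (nat_lit 191) (nat_lit 183)) (XT.nd (nat_lit 78) (nat_lit 0) (nat_lit 0) (XT.lf (nat_lit 0) (nat_lit 2295574413935) (nat_lit 152) (nat_lit 8715459588528) (nat_lit 0) (nat_lit 2295403246272) (nat_lit 1) (nat_lit 5) (nat_lit 3) (nat_lit 4) (nat_lit 1) (nat_lit 4) (nat_lit 287) (nat_lit 191) (nat_lit 182)) (XT.lf (nat_lit 0) (nat_lit 2640298507734) (nat_lit 152) (nat_lit 10021951730469) (nat_lit 0) (nat_lit 2640118472989)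 (nat_lit 1) (nat_lit 5) (nat_lit 3) (nat_lit 4) (nat_lit 1) (nat_lit 4) (nat_lit 288) (nat_lit 191) (nat_lit 181)))))) (XT.nd (nat_lit 468) (nat_lit 0) (nat_lit 0) (XT.nd (nat_lit 234) (nat_lit 0) (nat_lit 0) (XT.nd (nat_lit 78) (nat_lit 0) (nat_lit 0) (XT.lf (nat_lit 0) (nat_lit 244953895830) (nat_lit 152) (nat_lit 940306791944) (nat_lit 0) (nat_lit 244953895830) (nat_lit 1) (nat_lit 5) (nat_lit 3) (nat_lit 4) (nat_lit 1) (nat_lit 4) (nat_lit 276) (nat_lit 192) (nat_lit 192)) (XT.nd (nat_lit 78) (nat_lit 0) (nat_lit 0) (XT.lf (nat_lit 0) (nat_lit 564265930583) (nat_lit 152) (nat_lit 2160924020343) (nat_lit 0) (nat_lit 564230058289) (nat_lit 1) (nat_lit 5) (nat_lit 3) (nat_lit 4) (nat_lit 1) (nat_lit 4) (nat_lit 277) (nat_lit 192) (nat_lit 191)) (XT.lf (nat_lit 0) (nat_lit 649700184410) (nat_lit 152) (nat_lit 2483432423152) (nat_lit 0) (nat_lit 649633118817) (nat_lit 1) (nat_lit 5) (nat_lit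 3) (nat_lit 4) (nat_lit 1) (nat_lit 4) (nat_lit 278) (nat_lit 192) (nat_lit 190)))) (XT.nd (nat_lit 78) (nat_lit 0) (nat_lit 0) (XT.lf (nat_lit 0) (nat_lit 747882092891) (nat_lit 152) (nat_lit 2854448739326) (nat_lit 0) (nat_lit 747787902690) (nat_lit 1) (nat_lit 5) (nat_lit 3) (nat_lit 4) (nat_lit 1) (nat_lit 4) (nat_lit 279) (nat_lit 192) (nat_lit 189)) (XT.nd (nat_lit 78) (nat_lit 0) (nat_lit 0) (XT.lf (nat_lit 0) (nat_lit 860732606410) (nat_lit 152) (nat_lit 3281231983749) (nat_lit 0) (nat_lit 860614829592) (nat_lit 1) (nat_lit 5) (nat_lit 3) (nat_lit 4) (nat_lit 1) (nat_lit 4) (nat_lit 280) (nat_lit 192) (nat_lit 188)) (XT.lf (nat_lit 0) (nat_lit 990459669794) (nat_lit 152) (nat_lit 3772132263375) (nat_lit 0) (nat_lit 990321382876) (nat_lit 1) (nat_lit 5) (nat_lit 3) (nat_lit 4) (nat_lit 1) (nat_lit 4) (nat_lit 281) (nat_lit 192) (nat_lit 187))))) (XT.nd (nat_lit 234) (nat_lit 0)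 (nat_lit 0) (XT.nd (nat_lit 78) (nat_lit 0) (nat_lit 0) (XT.lf (nat_lit 0) (nat_lit 1139601421242) (nat_lit 152) (nat_lit 4336754148893) (nat_lit 0) (nat_lit 1139445299454) (nat_lit 1) (nat_lit 5) (nat_lit 3) (nat_lit 4) (nat_lit 1) (nat_lit 4) (nat_lit 282) (nat_lit 192) (nat_lit 186)) (XT.nd (nat_lit 78) (nat_lit 0) (nat_lit 0) (XT.lf (nat_lit 0) (nat_lit 1311075851542) (nat_lit 152) (nat_lit 4986144590238) (nat_lit 0) (nat_lit 1310904221171) (nat_lit 1) (nat_lit 5) (nat_lit 3) (nat_lit 4) (nat_lit 1) (nat_lit 4) (nat_lit 283) (nat_lit 192) (nat_lit 185)) (XT.lf (nat_lit 0) (nat_lit 1508237895201) (nat_lit 152) (nat_lit 5733009052565) (nat_lit 0) (nat_lit 1508052779106) (nat_lit 1) (nat_lit 5) (nat_lit 3) (nat_lit 4) (nat_lit 1) (nat_lit 4) (nat_lit 284) (nat_lit 192) (nat_lit 184)))) (XT.nd (nat_lit 78) (nat_lit 0) (nat_lit 0) (XT.lf (nat_lit 0) (nat_lit 1734945070464) (nat_lit 152)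 (nat_lit 6591960101443) (nat_lit 0) (nat_lit 1734748227652) (nat_lit 1) (nat_lit 5) (nat_lit 3) (nat_lit 4) (nat_lit 1) (nat_lit 4) (nat_lit 285) (nat_lit 192) (nat_lit 183)) (XT.nd (nat_lit 78) (nat_lit 0) (nat_lit 0) (XT.lf (nat_lit 0) (nat_lit 1995632952498) (nat_lit 152) (nat_lit 7579803300871) (nat_lit 0) (nat_lit 1995425912541) (nat_lit 1) (nat_lit 5) (nat_lit 3) (nat_lit 4) (nat_lit 1) (nat_lit 4) (nat_lit 286) (nat_lit 192) (nat_lit 182)) (XT.lf (nat_lit 0) (nat_lit 2295401956388) (nat_lit 152) (nat_lit 8715866017794) (nat_lit 0) (nat_lit 2295186049349) (nat_lit 1) (nat_lit 5) (nat_lit 3) (nat_lit 4) (nat_lit 1) (nat_lit 4) (nat_lit 287) (nat_lit 192) (nat_lit 181))))))))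
noncomputable def xc1 : XT := (XT.nd (nat_lit 68172) (nat_lit 0) (nat_lit 0) (XT.nd (nat_lit 34164) (nat_lit 0) (nat_lit 0) (XT.nd (nat_lit 33696) (nat_lit 0) (nat_lit 0) (XT.nd (nat_lit 33462) (nat_lit 0) (nat_lit 0) (XT.nd (nat_lit 33306) (nat_lit 0) (nat_lit 0) (XT.lf (nat_lit 0) (nat_lit 2640117127861) (nat_lit 152) (nat_lit 10022375566239) (nat_lit 0) (nat_lit 2639893510316) (nat_lit 1) (nat_lit 5) (nat_lit 3) (nat_lit 4) (nat_lit 1) (nat_lit 4) (nat_lit 288) (nat_lit 192) (nat_lit 180)) (XT.nd (nat_lit 78) (nat_lit 0) (nat_lit 0) (XT.lf (nat_lit 0) (nat_lit 184438879099) (nat_lit 152) (nat_lit 712637226288) (nat_lit 0) (nat_lit 184438879099) (nat_lit 1) (nat_lit 5) (nat_lit 3) (nat_lit 4) (nat_lit 1) (nat_lit 4) (nat_lit 274) (nat_lit 193) (nat_lit 193)) (XT.lf (nat_lit 0) (nat_lit 425212187628) (nat_lit 152) (nat_lit 1637016779164) (nat_lit 0) (nat_lit 425170934489) (nat_lit 1)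 (nat_lit 5) (nat_lit 3) (nat_lit 4) (nat_lit 1) (nat_lit 4) (nat_lit 275) (nat_lit 193) (nat_lit 192)))) (XT.nd (nat_lit 78) (nat_lit 0) (nat_lit 0) (XT.lf (nat_lit 0) (nat_lit 489907534648) (nat_lit 152) (nat_lit 1880694565759) (nat_lit 0) (nat_lit 489830409215) (nat_lit 1) (nat_lit 5) (nat_lit 3) (nat_lit 4) (nat_lit 1) (nat_lit 4) (nat_lit 276) (nat_lit 193) (nat_lit 191)) (XT.nd (nat_lit 78) (nat_lit 0) (nat_lit 0) (XT.lf (nat_lit 0) (nat_lit 564229577788) (nat_lit 152) (nat_lit 2161075421230) (nat_lit 0) (nat_lit 564121259055) (nat_lit 1) (nat_lit 5) (nat_lit 3) (nat_lit 4) (nat_lit 1) (nat_lit 4) (nat_lit 277) (nat_lit 193) (nat_lit 190)) (XT.lf (nat_lit 0) (nat_lit 649632443978) (nat_lit 152) (nat_lit 2483645057966) (nat_lit 0) (nat_lit 649497000637) (nat_lit 1) (nat_lit 5) (nat_lit 3) (nat_lit 4) (nat_lit 1) (nat_lit 4) (nat_lit 278) (nat_lit 193) (nat_lit 189))))) (XT.nd (nat_lit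 234) (nat_lit 0) (nat_lit 0) (XT.nd (nat_lit 78) (nat_lit 0) (nat_lit 0) (XT.lf (nat_lit 0) (nat_lit 747787058861) (nat_lit 152) (nat_lit 2854714621034) (nat_lit 0) (nat_lit 747628028905) (nat_lit 1) (nat_lit 5) (nat_lit 3) (nat_lit 4) (nat_lit 1) (nat_lit 4) (nat_lit 279) (nat_lit 193) (nat_lit 188)) (XT.nd (nat_lit 78) (nat_lit 0) (nat_lit 0) (XT.lf (nat_lit 0) (nat_lit 860613838816) (nat_lit 152) (nat_lit 3281544167104) (nat_lit 0) (nat_lit 860434298759) (nat_lit 1) (nat_lit 5) (nat_lit 3) (nat_lit 4) (nat_lit 1) (nat_lit 4) (nat_lit 280) (nat_lit 193) (nat_lit 187)) (XT.lf (nat_lit 0) (nat_lit 990320264319) (nat_lit 152) (nat_lit 3772484709031) (nat_lit 0) (nat_lit 990122889392) (nat_lit 1) (nat_lit 5) (nat_lit 3) (nat_lit 4) (nat_lit 1) (nat_lit 4) (nat_lit 281) (nat_lit 193) (nat_lit 186)))) (XT.nd (nat_lit 78) (nat_lit 0) (nat_lit 0) (XT.lf (nat_lit 0) (nat_lit 1139444069784) (nat_lit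 152) (nat_lit 4337141605246) (nat_lit 0) (nat_lit 1139231186274) (nat_lit 1) (nat_lit 5) (nat_lit 3) (nat_lit 4) (nat_lit 1) (nat_lit 4) (nat_lit 282) (nat_lit 193) (nat_lit 185)) (XT.nd (nat_lit 78) (nat_lit 0) (nat_lit 0) (XT.lf (nat_lit 0) (nat_lit 1310902894881) (nat_lit 152) (nat_lit 4986562490675) (nat_lit 0) (nat_lit 1310676525647) (nat_lit 1) (nat_lit 5) (nat_lit 3) (nat_lit 4) (nat_lit 1) (nat_lit 4) (nat_lit 283) (nat_lit 193) (nat_lit 184)) (XT.lf (nat_lit 0) (nat_lit 1508051368798) (nat_lit 152) (nat_lit 5733453426120) (nat_lit 0) (nat_lit 1507813272847) (nat_lit 1) (nat_lit 5) (nat_lit 3) (nat_lit 4) (nat_lit 1) (nat_lit 4) (nat_lit 284) (nat_lit 193) (nat_lit 183)))))) (XT.nd (nat_lit 33540) (nat_lit 0) (nat_lit 0) (XT.nd (nat_lit 234) (nat_lit 0) (nat_lit 0) (XT.nd (nat_lit 78) (nat_lit 0) (nat_lit 0) (XT.lf (nat_lit 0) (nat_lit 1734746744285) (nat_lit 152) (nat_lit 6592427495099)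 (nat_lit 0) (nat_lit 1734498451189) (nat_lit 1) (nat_lit 5) (nat_lit 3) (nat_lit 4) (nat_lit 1) (nat_lit 4) (nat_lit 285) (nat_lit 193) (nat_lit 182)) (XT.nd (nat_lit 78) (nat_lit 0) (nat_lit 0) (XT.lf (nat_lit 0) (nat_lit 1995424365645) (nat_lit 152) (nat_lit 7580290712006) (nat_lit 0) (nat_lit 1995167205467) (nat_lit 1) (nat_lit 5) (nat_lit 3) (nat_lit 4) (nat_lit 1) (nat_lit 4) (nat_lit 286) (nat_lit 193) (nat_lit 181)) (XT.lf (nat_lit 0) (nat_lit 2295184447209) (nat_lit 152) (nat_lit 8716370835433) (nat_lit 0) (nat_lit 2294919576525) (nat_lit 1) (nat_lit 5) (nat_lit 3) (nat_lit 4) (nat_lit 1) (nat_lit 4) (nat_lit 287) (nat_lit 193) (nat_lit 180)))) (XT.nd (nat_lit 33150) (nat_lit 0) (nat_lit 0) (XT.lf (nat_lit 0) (nat_lit 2639891860139) (nat_lit 152) (nat_lit 10022895519969) (nat_lit 0) (nat_lit 2639620284666) (nat_lit 1) (nat_lit 5) (nat_lit 3) (nat_lit 4) (nat_lit 1) (nat_lit 4)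 (nat_lit 288) (nat_lit 193) (nat_lit 179)) (XT.nd (nat_lit 78) (nat_lit 0) (nat_lit 0) (XT.lf (nat_lit 0) (nat_lit 138563613719) (nat_lit 152) (nat_lit 540730856017) (nat_lit 0) (nat_lit 138563613719) (nat_lit 1) (nat_lit 5) (nat_lit 3) (nat_lit 4) (nat_lit 1) (nat_lit 4) (nat_lit 272) (nat_lit 194) (nat_lit 194)) (XT.lf (nat_lit 0) (nat_lit 319849492110) (nat_lit 152) (nat_lit 1241324801346) (nat_lit 0) (nat_lit 319802051001) (nat_lit 1) (nat_lit 5) (nat_lit 3) (nat_lit 4) (nat_lit 1) (nat_lit 4) (nat_lit 273) (nat_lit 194) (nat_lit 193))))) (XT.nd (nat_lit 234) (nat_lit 0) (nat_lit 0) (XT.nd (nat_lit 78) (nat_lit 0) (nat_lit 0) (XT.lf (nat_lit 0) (nat_lit 368877462634) (nat_lit 152) (nat_lit 1425367581726) (nat_lit 0) (nat_lit 368788768387) (nat_lit 1) (nat_lit 5) (nat_lit 3) (nat_lit 4) (nat_lit 1) (nat_lit 4) (nat_lit 274) (nat_lit 194) (nat_lit 192)) (XT.nd (nat_lit 78) (nat_lit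 0) (nat_lit 0) (XT.lf (nat_lit 0) (nat_lit 425170381913) (nat_lit 152) (nat_lit 1637190890183) (nat_lit 0) (nat_lit 425045815371) (nat_lit 1) (nat_lit 5) (nat_lit 3) (nat_lit 4) (nat_lit 1) (nat_lit 4) (nat_lit 275) (nat_lit 194) (nat_lit 191)) (XT.lf (nat_lit 0) (nat_lit 489829633150) (nat_lit 152) (nat_lit 1880939095795) (nat_lit 0) (nat_lit 489673873309) (nat_lit 1) (nat_lit 5) (nat_lit 3) (nat_lit 4) (nat_lit 1) (nat_lit 4) (nat_lit 276) (nat_lit 194) (nat_lit 190)))) (XT.nd (nat_lit 78) (nat_lit 0) (nat_lit 0) (XT.lf (nat_lit 0) (nat_lit 564120288653) (nat_lit 152) (nat_lit 2161381185194) (nat_lit 0) (nat_lit 563937404203) (nat_lit 1) (nat_lit 5) (nat_lit 3) (nat_lit 4) (nat_lit 1) (nat_lit 4) (nat_lit 277) (nat_lit 194) (nat_lit 189)) (XT.nd (nat_lit 78) (nat_lit 0) (nat_lit 0) (XT.lf (nat_lit 0) (nat_lit 649495861245) (nat_lit 152) (nat_lit 2484004068824) (nat_lit 0) (nat_lit 649289390180)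 (nat_lit 1) (nat_lit 5) (nat_lit 3) (nat_lit 4) (nat_lit 1) (nat_lit 4) (nat_lit 278) (nat_lit 194) (nat_lit 188)) (XT.lf (nat_lit 0) (nat_lit 747626742565) (nat_lit 152) (nat_lit 2855119933539) (nat_lit 0) (nat_lit 747399761399) (nat_lit 1) (nat_lit 5) (nat_lit 3) (nat_lit 4) (nat_lit 1) (nat_lit 4) (nat_lit 279) (nat_lit 194) (nat_lit 187))))))) (XT.nd (nat_lit 33852) (nat_lit 0) (nat_lit 0) (XT.nd (nat_lit 468) (nat_lit 0) (nat_lit 0) (XT.nd (nat_lit 234) (nat_lit 0) (nat_lit 0) (XT.nd (nat_lit 78) (nat_lit 0) (nat_lit 0) (XT.lf (nat_lit 0) (nat_lit 860432884638) (nat_lit 152) (nat_lit 3281989741910) (nat_lit 0) (nat_lit 860188068602) (nat_lit 1) (nat_lit 5) (nat_lit 3) (nat_lit 4) (nat_lit 1) (nat_lit 4) (nat_lit 280) (nat_lit 194) (nat_lit 186)) (XT.nd (nat_lit 78) (nat_lit 0) (nat_lit 0) (XT.lf (nat_lit 0) (nat_lit 990121364158) (nat_lit 152) (nat_lit 3772965294534) (nat_lit 0)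 (nat_lit 989861039540) (nat_lit 1) (nat_lit 5) (nat_lit 3) (nat_lit 4) (nat_lit 1) (nat_lit 4) (nat_lit 281) (nat_lit 194) (nat_lit 185)) (XT.lf (nat_lit 0) (nat_lit 1139229564420) (nat_lit 152) (nat_lit 4337652634834) (nat_lit 0) (nat_lit 1138955754077) (nat_lit 1) (nat_lit 5) (nat_lit 3) (nat_lit 4) (nat_lit 1) (nat_lit 4) (nat_lit 282) (nat_lit 194) (nat_lit 184)))) (XT.nd (nat_lit 78) (nat_lit 0) (nat_lit 0) (XT.lf (nat_lit 0) (nat_lit 1310674819775) (nat_lit 152) (nat_lit 4987099993380) (nat_lit 0) (nat_lit 1310389282715) (nat_lit 1) (nat_lit 5) (nat_lit 3) (nat_lit 4) (nat_lit 1) (nat_lit 4) (nat_lit 283) (nat_lit 194) (nat_lit 183)) (XT.nd (nat_lit 78) (nat_lit 0) (nat_lit 0) (XT.lf (nat_lit 0) (nat_lit 1507811493916) (nat_lit 152) (nat_lit 5734013948926) (nat_lit 0) (nat_lit 1507515759712) (nat_lit 1) (nat_lit 5) (nat_lit 3) (nat_lit 4) (nat_lit 1) (nat_lit 4) (nat_lit 284) (nat_lit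 194) (nat_lit 182)) (XT.lf (nat_lit 0) (nat_lit 1734496608729) (nat_lit 152) (nat_lit 6593008035384) (nat_lit 0) (nat_lit 1734192007442) (nat_lit 1) (nat_lit 5) (nat_lit 3) (nat_lit 4) (nat_lit 1) (nat_lit 4) (nat_lit 285) (nat_lit 194) (nat_lit 181))))) (XT.nd (nat_lit 33150) (nat_lit 0) (nat_lit 0) (XT.nd (nat_lit 78) (nat_lit 0) (nat_lit 0) (XT.lf (nat_lit 0) (nat_lit 1995165307764) (nat_lit 152) (nat_lit 7580888658796) (nat_lit 0) (nat_lit 1994852995970) (nat_lit 1) (nat_lit 5) (nat_lit 3) (nat_lit 4) (nat_lit 1) (nat_lit 4) (nat_lit 286) (nat_lit 194) (nat_lit 180)) (XT.nd (nat_lit 78) (nat_lit 0) (nat_lit 0) (XT.lf (nat_lit 0) (nat_lit 2294917630784) (nat_lit 152) (nat_lit 8716983918313) (nat_lit 0) (nat_lit 2294598614202) (nat_lit 1) (nat_lit 5) (nat_lit 3) (nat_lit 4) (nat_lit 1) (nat_lit 4) (nat_lit 287) (nat_lit 194) (nat_lit 179)) (XT.lf (nat_lit 0) (nat_lit 2639618297153)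 (nat_lit 152) (nat_lit 10023521764667) (nat_lit 0) (nat_lit 2639293450321) (nat_lit 1) (nat_lit 5) (nat_lit 3) (nat_lit 4) (nat_lit 1) (nat_lit 4) (nat_lit 288) (nat_lit 194) (nat_lit 178)))) (XT.nd (nat_lit 78) (nat_lit 0) (nat_lit 0) (XT.lf (nat_lit 0) (nat_lit 103740520810) (nat_lit 152) (nat_lit 411026152310) (nat_lit 0) (nat_lit 103740520810) (nat_lit 1) (nat_lit 5) (nat_lit 3) (nat_lit 4) (nat_lit 1) (nat_lit 4) (nat_lit 270) (nat_lit 195) (nat_lit 195)) (XT.nd (nat_lit 78) (nat_lit 0) (nat_lit 0) (XT.lf (nat_lit 0) (nat_lit 239929355502) (nat_lit 152) (nat_lit 942650557697) (nat_lit 0) (nat_lit 239874798226) (nat_lit 1) (nat_lit 5) (nat_lit 3) (nat_lit 4) (nat_lit 1) (nat_lit 4) (nat_lit 271) (nat_lit 195) (nat_lit 194)) (XT.lf (nat_lit 0) (nat_lit 277126887541) (nat_lit 152) (nat_lit 1081568810557) (nat_lit 0) (nat_lit 277024889156) (nat_lit 1) (nat_lit 5) (nat_lit 3) (nat_lit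 4) (nat_lit 1) (nat_lit 4) (nat_lit 272) (nat_lit 195) (nat_lit 193)))))) (XT.nd (nat_lit 468) (nat_lit 0) (nat_lit 0) (XT.nd (nat_lit 234) (nat_lit 0) (nat_lit 0) (XT.nd (nat_lit 78) (nat_lit 0) (nat_lit 0) (XT.lf (nat_lit 0) (nat_lit 319801415538) (nat_lit 152) (nat_lit 1241525029018) (nat_lit 0) (nat_lit 319658164015) (nat_lit 1) (nat_lit 5) (nat_lit 3) (nat_lit 4) (nat_lit 1) (nat_lit 4) (nat_lit 273) (nat_lit 195) (nat_lit 192)) (XT.nd (nat_lit 78) (nat_lit 0) (nat_lit 0) (XT.lf (nat_lit 0) (nat_lit 368787875912) (nat_lit 152) (nat_lit 1425648791268) (nat_lit 0) (nat_lit 368608752094) (nat_lit 1) (nat_lit 5) (nat_lit 3) (nat_lit 4) (nat_lit 1) (nat_lit 4) (nat_lit 274) (nat_lit 195) (nat_lit 191)) (XT.lf (nat_lit 0) (nat_lit 425044699408) (nat_lit 152) (nat_lit 1637542518742) (nat_lit 0) (nat_lit 424834382291) (nat_lit 1) (nat_lit 5) (nat_lit 3) (nat_lit 4) (nat_lit 1) (nat_lit 4)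 (nat_lit 275) (nat_lit 195) (nat_lit 190)))) (XT.nd (nat_lit 78) (nat_lit 0) (nat_lit 0) (XT.lf (nat_lit 0) (nat_lit 489672563008) (nat_lit 152) (nat_lit 1881351958282) (nat_lit 0) (nat_lit 489435121283) (nat_lit 1) (nat_lit 5) (nat_lit 3) (nat_lit 4) (nat_lit 1) (nat_lit 4) (nat_lit 276) (nat_lit 195) (nat_lit 189)) (XT.nd (nat_lit 78) (nat_lit 0) (nat_lit 0) (XT.lf (nat_lit 0) (nat_lit 563935924912) (nat_lit 152) (nat_lit 2161847294575) (nat_lit 0) (nat_lit 563674896571) (nat_lit 1) (nat_lit 5) (nat_lit 3) (nat_lit 4) (nat_lit 1) (nat_lit 4) (nat_lit 277) (nat_lit 195) (nat_lit 188)) (XT.lf (nat_lit 0) (nat_lit 649287763941) (nat_lit 152) (nat_lit 2484516479851) (nat_lit 0) (nat_lit 649006225499) (nat_lit 1) (nat_lit 5) (nat_lit 3) (nat_lit 4) (nat_lit 1) (nat_lit 4) (nat_lit 278) (nat_lit 195) (nat_lit 187))))) (XT.nd (nat_lit 234) (nat_lit 0) (nat_lit 0) (XT.nd (nat_lit 78) (nat_lit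 0) (nat_lit 0) (XT.lf (nat_lit 0) (nat_lit 747398007380) (nat_lit 152) (nat_lit 2855672606868) (nat_lit 0) (nat_lit 747098634068) (nat_lit 1) (nat_lit 5) (nat_lit 3) (nat_lit 4) (nat_lit 1) (nat_lit 4) (nat_lit 279) (nat_lit 195) (nat_lit 186)) (XT.nd (nat_lit 78) (nat_lit 0) (nat_lit 0) (XT.lf (nat_lit 0) (nat_lit 860186203470) (nat_lit 152) (nat_lit 3282577425935) (nat_lit 0) (nat_lit 859871321575) (nat_lit 1) (nat_lit 5) (nat_lit 3) (nat_lit 4) (nat_lit 1) (nat_lit 4) (nat_lit 280) (nat_lit 195) (nat_lit 185)) (XT.lf (nat_lit 0) (nat_lit 989859077787) (nat_lit 152) (nat_lit 3773583422644) (nat_lit 0) (nat_lit 989530710168) (nat_lit 1) (nat_lit 5) (nat_lit 3) (nat_lit 4) (nat_lit 1) (nat_lit 4) (nat_lit 281) (nat_lit 195) (nat_lit 184)))) (XT.nd (nat_lit 78) (nat_lit 0) (nat_lit 0) (XT.lf (nat_lit 0) (nat_lit 1138953708306) (nat_lit 152) (nat_lit 4338297236061) (nat_lit 0) (nat_lit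 1138613613971) (nat_lit 1) (nat_lit 5) (nat_lit 3) (nat_lit 4) (nat_lit 1) (nat_lit 4) (nat_lit 282) (nat_lit 195) (nat_lit 183)) (XT.nd (nat_lit 78) (nat_lit 0) (nat_lit 0) (XT.lf (nat_lit 0) (nat_lit 1310387163886) (nat_lit 152) (nat_lit 4987767614708) (nat_lit 0) (nat_lit 1310036872406) (nat_lit 1) (nat_lit 5) (nat_lit 3) (nat_lit 4) (nat_lit 1) (nat_lit 4) (nat_lit 283) (nat_lit 195) (nat_lit 182)) (XT.lf (nat_lit 0) (nat_lit 1507513577353) (nat_lit 152) (nat_lit 5734701587733) (nat_lit 0) (nat_lit 1507154418790) (nat_lit 1) (nat_lit 5) (nat_lit 3) (nat_lit 4) (nat_lit 1) (nat_lit 4) (nat_lit 284) (nat_lit 195) (nat_lit 181))))))))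
noncomputable def xc2 : XT := (XT.nd (nat_lit 34632) (nat_lit 0) (nat_lit 0) (XT.nd (nat_lit 33696) (nat_lit 0) (nat_lit 0) (XT.nd (nat_lit 33228) (nat_lit 0) (nat_lit 0) (XT.nd (nat_lit 234) (nat_lit 0) (nat_lit 0) (XT.nd (nat_lit 78) (nat_lit 0) (nat_lit 0) (XT.lf (nat_lit 0) (nat_lit 1734189769840) (nat_lit 152) (nat_lit 6593713080696) (nat_lit 0) (nat_lit 1733822900771) (nat_lit 1) (nat_lit 5) (nat_lit 3) (nat_lit 4) (nat_lit 1) (nat_lit 4) (nat_lit 285) (nat_lit 195) (nat_lit 180)) (XT.nd (nat_lit 78) (nat_lit 0) (nat_lit 0) (XT.lf (nat_lit 0) (nat_lit 1994850710331) (nat_lit 152) (nat_lit 7581608840198) (nat_lit 0) (nat_lit 1994477136473) (nat_lit 1) (nat_lit 5) (nat_lit 3) (nat_lit 4) (nat_lit 1) (nat_lit 4) (nat_lit 286) (nat_lit 195) (nat_lit 179)) (XT.lf (nat_lit 0) (nat_lit 2294596286791) (nat_lit 152) (nat_lit 8717717261534) (nat_lit 0) (nat_lit 2294216882683) (nat_lit 1)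 (nat_lit 5) (nat_lit 3) (nat_lit 4) (nat_lit 1) (nat_lit 4) (nat_lit 287) (nat_lit 195) (nat_lit 178)))) (XT.nd (nat_lit 32838) (nat_lit 0) (nat_lit 0) (XT.lf (nat_lit 0) (nat_lit 2639291086587) (nat_lit 152) (nat_lit 10024266552946) (nat_lit 0) (nat_lit 2638906612695) (nat_lit 1) (nat_lit 5) (nat_lit 3) (nat_lit 4) (nat_lit 1) (nat_lit 4) (nat_lit 288) (nat_lit 195) (nat_lit 177)) (XT.nd (nat_lit 78) (nat_lit 0) (nat_lit 0) (XT.lf (nat_lit 0) (nat_lit 77254237898) (nat_lit 152) (nat_lit 313274152957) (nat_lit 0) (nat_lit 77254237898) (nat_lit 1) (nat_lit 5) (nat_lit 3) (nat_lit 4) (nat_lit 1) (nat_lit 4) (nat_lit 268) (nat_lit 196) (nat_lit 196)) (XT.lf (nat_lit 0) (nat_lit 179209828449) (nat_lit 152) (nat_lit 717414520292) (nat_lit 0) (nat_lit 179147087582) (nat_lit 1) (nat_lit 5) (nat_lit 3) (nat_lit 4) (nat_lit 1) (nat_lit 4) (nat_lit 269) (nat_lit 196) (nat_lit 195))))) (XT.nd (nat_lit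 234) (nat_lit 0) (nat_lit 0) (XT.nd (nat_lit 78) (nat_lit 0) (nat_lit 0) (XT.lf (nat_lit 0) (nat_lit 207480650737) (nat_lit 152) (nat_lit 822175467922) (nat_lit 0) (nat_lit 207363352595) (nat_lit 1) (nat_lit 5) (nat_lit 3) (nat_lit 4) (nat_lit 1) (nat_lit 4) (nat_lit 270) (nat_lit 196) (nat_lit 194)) (XT.nd (nat_lit 78) (nat_lit 0) (nat_lit 0) (XT.lf (nat_lit 0) (nat_lit 239874067444) (nat_lit 152) (nat_lit 942880819520) (nat_lit 0) (nat_lit 239709328193) (nat_lit 1) (nat_lit 5) (nat_lit 3) (nat_lit 4) (nat_lit 1) (nat_lit 4) (nat_lit 271) (nat_lit 196) (nat_lit 193)) (XT.lf (nat_lit 0) (nat_lit 277023862810) (nat_lit 152) (nat_lit 1081892201530) (nat_lit 0) (nat_lit 276817870420) (nat_lit 1) (nat_lit 5) (nat_lit 3) (nat_lit 4) (nat_lit 1) (nat_lit 4) (nat_lit 272) (nat_lit 196) (nat_lit 192)))) (XT.nd (nat_lit 78) (nat_lit 0) (nat_lit 0) (XT.lf (nat_lit 0) (nat_lit 319656880657) (nat_lit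 152) (nat_lit 1241929401861) (nat_lit 0) (nat_lit 319415015973) (nat_lit 1) (nat_lit 5) (nat_lit 3) (nat_lit 4) (nat_lit 1) (nat_lit 4) (nat_lit 273) (nat_lit 196) (nat_lit 191)) (XT.nd (nat_lit 78) (nat_lit 0) (nat_lit 0) (XT.lf (nat_lit 0) (nat_lit 368607245248) (nat_lit 152) (nat_lit 1426123583128) (nat_lit 0) (nat_lit 368334187264) (nat_lit 1) (nat_lit 5) (nat_lit 3) (nat_lit 4) (nat_lit 1) (nat_lit 4) (nat_lit 274) (nat_lit 196) (nat_lit 190)) (XT.lf (nat_lit 0) (nat_lit 424832681106) (nat_lit 152) (nat_lit 1638078544530) (nat_lit 0) (nat_lit 424532498514) (nat_lit 1) (nat_lit 5) (nat_lit 3) (nat_lit 4) (nat_lit 1) (nat_lit 4) (nat_lit 275) (nat_lit 196) (nat_lit 189)))))) (XT.nd (nat_lit 468) (nat_lit 0) (nat_lit 0) (XT.nd (nat_lit 234) (nat_lit 0) (nat_lit 0) (XT.nd (nat_lit 78) (nat_lit 0) (nat_lit 0) (XT.lf (nat_lit 0) (nat_lit 489433251108) (nat_lit 152) (nat_lit 1881941230963)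 (nat_lit 0) (nat_lit 489109481900) (nat_lit 1) (nat_lit 5) (nat_lit 3) (nat_lit 4) (nat_lit 1) (nat_lit 4) (nat_lit 276) (nat_lit 196) (nat_lit 188)) (XT.nd (nat_lit 78) (nat_lit 0) (nat_lit 0) (XT.lf (nat_lit 0) (nat_lit 563672879449) (nat_lit 152) (nat_lit 2162482868903) (nat_lit 0) (nat_lit 563328600141) (nat_lit 1) (nat_lit 5) (nat_lit 3) (nat_lit 4) (nat_lit 1) (nat_lit 4) (nat_lit 277) (nat_lit 196) (nat_lit 187)) (XT.lf (nat_lit 0) (nat_lit 649004080597) (nat_lit 152) (nat_lit 2485192316481) (nat_lit 0) (nat_lit 648641966419) (nat_lit 1) (nat_lit 5) (nat_lit 3) (nat_lit 4) (nat_lit 1) (nat_lit 4) (nat_lit 278) (nat_lit 196) (nat_lit 186)))) (XT.nd (nat_lit 78) (nat_lit 0) (nat_lit 0) (XT.lf (nat_lit 0) (nat_lit 747096378052) (nat_lit 152) (nat_lit 2856383454194) (nat_lit 0) (nat_lit 746718755291) (nat_lit 1) (nat_lit 5) (nat_lit 3) (nat_lit 4) (nat_lit 1) (nat_lit 4) (nat_lit 279)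 (nat_lit 196) (nat_lit 185)) (XT.nd (nat_lit 78) (nat_lit 0) (nat_lit 0) (XT.lf (nat_lit 0) (nat_lit 859868968939) (nat_lit 152) (nat_lit 3283318717346) (nat_lit 0) (nat_lit 859477860454) (nat_lit 1) (nat_lit 5) (nat_lit 3) (nat_lit 4) (nat_lit 1) (nat_lit 4) (nat_lit 280) (nat_lit 196) (nat_lit 184)) (XT.lf (nat_lit 0) (nat_lit 989528273514) (nat_lit 152) (nat_lit 3774351187172) (nat_lit 0) (nat_lit 989125438312) (nat_lit 1) (nat_lit 5) (nat_lit 3) (nat_lit 4) (nat_lit 1) (nat_lit 4) (nat_lit 281) (nat_lit 196) (nat_lit 183))))) (XT.nd (nat_lit 234) (nat_lit 0) (nat_lit 0) (XT.nd (nat_lit 78) (nat_lit 0) (nat_lit 0) (XT.lf (nat_lit 0) (nat_lit 1138611104258) (nat_lit 152) (nat_lit 4339088020690) (nat_lit 0) (nat_lit 1138198071911) (nat_lit 1) (nat_lit 5) (nat_lit 3) (nat_lit 4) (nat_lit 1) (nat_lit 4) (nat_lit 282) (nat_lit 196) (nat_lit 182)) (XT.nd (nat_lit 78) (nat_lit 0) (nat_lit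 0) (XT.lf (nat_lit 0) (nat_lit 1310034299163) (nat_lit 152) (nat_lit 4988578416817) (nat_lit 0) (nat_lit 1309612399734) (nat_lit 1) (nat_lit 5) (nat_lit 3) (nat_lit 4) (nat_lit 1) (nat_lit 4) (nat_lit 283) (nat_lit 196) (nat_lit 181)) (XT.lf (nat_lit 0) (nat_lit 1507151790305) (nat_lit 152) (nat_lit 5735529796346) (nat_lit 0) (nat_lit 1506722180369) (nat_lit 1) (nat_lit 5) (nat_lit 3) (nat_lit 4) (nat_lit 1) (nat_lit 4) (nat_lit 284) (nat_lit 196) (nat_lit 180)))) (XT.nd (nat_lit 78) (nat_lit 0) (nat_lit 0) (XT.lf (nat_lit 0) (nat_lit 1733820224248) (nat_lit 152) (nat_lit 6594556425400) (nat_lit 0) (nat_lit 1733383909524) (nat_lit 1) (nat_lit 5) (nat_lit 3) (nat_lit 4) (nat_lit 1) (nat_lit 4) (nat_lit 285) (nat_lit 196) (nat_lit 179)) (XT.nd (nat_lit 78) (nat_lit 0) (nat_lit 0) (XT.lf (nat_lit 0) (nat_lit 1994474418179) (nat_lit 152) (nat_lit 7582465346719) (nat_lit 0) (nat_lit 1994032273204)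 (nat_lit 1) (nat_lit 5) (nat_lit 3) (nat_lit 4) (nat_lit 1) (nat_lit 4) (nat_lit 286) (nat_lit 196) (nat_lit 178)) (XT.lf (nat_lit 0) (nat_lit 2294214128065) (nat_lit 152) (nat_lit 8718585213114) (nat_lit 0) (nat_lit 2293766913307) (nat_lit 1) (nat_lit 5) (nat_lit 3) (nat_lit 4) (nat_lit 1) (nat_lit 4) (nat_lit 287) (nat_lit 196) (nat_lit 177))))))) (XT.nd (nat_lit 33540) (nat_lit 0) (nat_lit 0) (XT.nd (nat_lit 33072) (nat_lit 0) (nat_lit 0) (XT.nd (nat_lit 32838) (nat_lit 0) (nat_lit 0) (XT.nd (nat_lit 32682) (nat_lit 0) (nat_lit 0) (XT.lf (nat_lit 0) (nat_lit 2638903826492) (nat_lit 152) (nat_lit 10025144456751) (nat_lit 0) (nat_lit 2638452203227) (nat_lit 1) (nat_lit 5) (nat_lit 3) (nat_lit 4) (nat_lit 1) (nat_lit 4) (nat_lit 288) (nat_lit 196) (nat_lit 176)) (XT.nd (nat_lit 78) (nat_lit 0) (nat_lit 0) (XT.lf (nat_lit 0) (nat_lit 57048527810) (nat_lit 152) (nat_lit 239731497300) (nat_lit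 0) (nat_lit 57048527810) (nat_lit 1) (nat_lit 5) (nat_lit 3) (nat_lit 4) (nat_lit 1) (nat_lit 4) (nat_lit 266) (nat_lit 197) (nat_lit 197)) (XT.lf (nat_lit 0) (nat_lit 132965457440) (nat_lit 152) (nat_lit 547799007554) (nat_lit 0) (nat_lit 132893305444) (nat_lit 1) (nat_lit 5) (nat_lit 3) (nat_lit 4) (nat_lit 1) (nat_lit 4) (nat_lit 267) (nat_lit 197) (nat_lit 196)))) (XT.nd (nat_lit 78) (nat_lit 0) (nat_lit 0) (XT.lf (nat_lit 0) (nat_lit 154508026280) (nat_lit 152) (nat_lit 626689943711) (nat_lit 0) (nat_lit 154373133417) (nat_lit 1) (nat_lit 5) (nat_lit 3) (nat_lit 4) (nat_lit 1) (nat_lit 4) (nat_lit 268) (nat_lit 197) (nat_lit 195)) (XT.nd (nat_lit 78) (nat_lit 0) (nat_lit 0) (XT.lf (nat_lit 0) (nat_lit 179146247183) (nat_lit 152) (nat_lit 717679321389) (nat_lit 0) (nat_lit 178956797044) (nat_lit 1) (nat_lit 5) (nat_lit 3) (nat_lit 4) (nat_lit 1) (nat_lit 4) (nat_lit 269) (nat_lit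 197) (nat_lit 194)) (XT.lf (nat_lit 0) (nat_lit 207362172297) (nat_lit 152) (nat_lit 822547367541) (nat_lit 0) (nat_lit 207125281049) (nat_lit 1) (nat_lit 5) (nat_lit 3) (nat_lit 4) (nat_lit 1) (nat_lit 4) (nat_lit 270) (nat_lit 197) (nat_lit 193))))) (XT.nd (nat_lit 234) (nat_lit 0) (nat_lit 0) (XT.nd (nat_lit 78) (nat_lit 0) (nat_lit 0) (XT.lf (nat_lit 0) (nat_lit 239707852331) (nat_lit 152) (nat_lit 943345848289) (nat_lit 0) (nat_lit 239429707944) (nat_lit 1) (nat_lit 5) (nat_lit 3) (nat_lit 4) (nat_lit 1) (nat_lit 4) (nat_lit 271) (nat_lit 197) (nat_lit 192)) (XT.nd (nat_lit 78) (nat_lit 0) (nat_lit 0) (XT.lf (nat_lit 0) (nat_lit 276816137546) (nat_lit 152) (nat_lit 1082438212169) (nat_lit 0) (nat_lit 276502120865) (nat_lit 1) (nat_lit 5) (nat_lit 3) (nat_lit 4) (nat_lit 1) (nat_lit 4) (nat_lit 272) (nat_lit 197) (nat_lit 191)) (XT.lf (nat_lit 0) (nat_lit 319413059610) (nat_lit 152)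 (nat_lit 1242545831517) (nat_lit 0) (nat_lit 319067849630) (nat_lit 1) (nat_lit 5) (nat_lit 3) (nat_lit 4) (nat_lit 1) (nat_lit 4) (nat_lit 273) (nat_lit 197) (nat_lit 190)))) (XT.nd (nat_lit 78) (nat_lit 0) (nat_lit 0) (XT.lf (nat_lit 0) (nat_lit 368332036563) (nat_lit 152) (nat_lit 1426801246711) (nat_lit 0) (nat_lit 367959701975) (nat_lit 1) (nat_lit 5) (nat_lit 3) (nat_lit 4) (nat_lit 1) (nat_lit 4) (nat_lit 274) (nat_lit 197) (nat_lit 189)) (XT.nd (nat_lit 78) (nat_lit 0) (nat_lit 0) (XT.lf (nat_lit 0) (nat_lit 424530178824) (nat_lit 152) (nat_lit 1638809455007) (nat_lit 0) (nat_lit 424134257619) (nat_lit 1) (nat_lit 5) (nat_lit 3) (nat_lit 4) (nat_lit 1) (nat_lit 4) (nat_lit 275) (nat_lit 197) (nat_lit 188)) (XT.lf (nat_lit 0) (nat_lit 489107015263) (nat_lit 152) (nat_lit 1882718443087) (nat_lit 0) (nat_lit 488690583957) (nat_lit 1) (nat_lit 5) (nat_lit 3) (nat_lit 4) (nat_lit 1)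 (nat_lit 4) (nat_lit 276) (nat_lit 197) (nat_lit 187)))))) (XT.nd (nat_lit 468) (nat_lit 0) (nat_lit 0) (XT.nd (nat_lit 234) (nat_lit 0) (nat_lit 0) (XT.nd (nat_lit 78) (nat_lit 0) (nat_lit 0) (XT.lf (nat_lit 0) (nat_lit 563326005723) (nat_lit 152) (nat_lit 2163300343328) (nat_lit 0) (nat_lit 562891739547) (nat_lit 1) (nat_lit 5) (nat_lit 3) (nat_lit 4) (nat_lit 1) (nat_lit 4) (nat_lit 277) (nat_lit 197) (nat_lit 186)) (XT.nd (nat_lit 78) (nat_lit 0) (nat_lit 0) (XT.lf (nat_lit 0) (nat_lit 648639260887) (nat_lit 152) (nat_lit 2486044801603) (nat_lit 0) (nat_lit 648189486129) (nat_lit 1) (nat_lit 5) (nat_lit 3) (nat_lit 4) (nat_lit 1) (nat_lit 4) (nat_lit 278) (nat_lit 197) (nat_lit 185)) (XT.lf (nat_lit 0) (nat_lit 746715953139) (nat_lit 152) (nat_lit 2857266383401) (nat_lit 0) (nat_lit 746252692657) (nat_lit 1) (nat_lit 5) (nat_lit 3) (nat_lit 4) (nat_lit 1) (nat_lit 4) (nat_lit 279)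 (nat_lit 197) (nat_lit 184)))) (XT.nd (nat_lit 78) (nat_lit 0) (nat_lit 0) (XT.lf (nat_lit 0) (nat_lit 859474974284) (nat_lit 152) (nat_lit 3284228119670) (nat_lit 0) (nat_lit 858999987085) (nat_lit 1) (nat_lit 5) (nat_lit 3) (nat_lit 4) (nat_lit 1) (nat_lit 4) (nat_lit 280) (nat_lit 197) (nat_lit 183)) (XT.nd (nat_lit 78) (nat_lit 0) (nat_lit 0) (XT.lf (nat_lit 0) (nat_lit 989122479083) (nat_lit 152) (nat_lit 3775283609597) (nat_lit 0) (nat_lit 988637294740) (nat_lit 1) (nat_lit 5) (nat_lit 3) (nat_lit 4) (nat_lit 1) (nat_lit 4) (nat_lit 281) (nat_lit 197) (nat_lit 182)) (XT.lf (nat_lit 0) (nat_lit 1138195049153) (nat_lit 152) (nat_lit 4340040460595) (nat_lit 0) (nat_lit 1137700997727) (nat_lit 1) (nat_lit 5) (nat_lit 3) (nat_lit 4) (nat_lit 1) (nat_lit 4) (nat_lit 282) (nat_lit 197) (nat_lit 181))))) (XT.nd (nat_lit 234) (nat_lit 0) (nat_lit 0) (XT.nd (nat_lit 78) (nat_lit 0) (nat_lit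 0) (XT.lf (nat_lit 0) (nat_lit 1309609321733) (nat_lit 152) (nat_lit 4989548263226) (nat_lit 0) (nat_lit 1309107559800) (nat_lit 1) (nat_lit 5) (nat_lit 3) (nat_lit 4) (nat_lit 1) (nat_lit 4) (nat_lit 283) (nat_lit 197) (nat_lit 180)) (XT.nd (nat_lit 78) (nat_lit 0) (nat_lit 0) (XT.lf (nat_lit 0) (nat_lit 1506719054330) (nat_lit 152) (nat_lit 5736514778845) (nat_lit 0) (nat_lit 1506210587609) (nat_lit 1) (nat_lit 5) (nat_lit 3) (nat_lit 4) (nat_lit 1) (nat_lit 4) (nat_lit 284) (nat_lit 197) (nat_lit 179)) (XT.lf (nat_lit 0) (nat_lit 1733380741714) (nat_lit 152) (nat_lit 6595554569717) (nat_lit 0) (nat_lit 1732866444742) (nat_lit 1) (nat_lit 5) (nat_lit 3) (nat_lit 4) (nat_lit 1) (nat_lit 4) (nat_lit 285) (nat_lit 197) (nat_lit 178)))) (XT.nd (nat_lit 78) (nat_lit 0) (nat_lit 0) (XT.lf (nat_lit 0) (nat_lit 1994029069070) (nat_lit 152) (nat_lit 7583474936095) (nat_lit 0) (nat_lit 1993509702315)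 (nat_lit 1) (nat_lit 5) (nat_lit 3) (nat_lit 4) (nat_lit 1) (nat_lit 4) (nat_lit 286) (nat_lit 197) (nat_lit 177)) (XT.nd (nat_lit 78) (nat_lit 0) (nat_lit 0) (XT.lf (nat_lit 0) (nat_lit 2293763677588) (nat_lit 152) (nat_lit 8719604754715) (nat_lit 0) (nat_lit 2293239902326) (nat_lit 1) (nat_lit 5) (nat_lit 3) (nat_lit 4) (nat_lit 1) (nat_lit 4) (nat_lit 287) (nat_lit 197) (nat_lit 176)) (XT.lf (nat_lit 0) (nat_lit 2638448940043) (nat_lit 152) (nat_lit 10026172652461) (nat_lit 0) (nat_lit 2637921331296) (nat_lit 1) (nat_lit 5) (nat_lit 3) (nat_lit 4) (nat_lit 1) (nat_lit 4) (nat_lit 288) (nat_lit 197) (nat_lit 175))))))))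
noncomputable def xc3 : XT := (XT.nd (nat_lit 1872) (nat_lit 0) (nat_lit 0) (XT.nd (nat_lit 936) (nat_lit 0) (nat_lit 0) (XT.nd (nat_lit 468) (nat_lit 0) (nat_lit 0) (XT.nd (nat_lit 234) (nat_lit 0) (nat_lit 0) (XT.nd (nat_lit 78) (nat_lit 0) (nat_lit 0) (XT.lf (nat_lit 0) (nat_lit 41565091842) (nat_lit 152) (nat_lit 184550368511) (nat_lit 0) (nat_lit 41565091842) (nat_lit 1) (nat_lit 5) (nat_lit 3) (nat_lit 4) (nat_lit 1) (nat_lit 4) (nat_lit 264) (nat_lit 198) (nat_lit 198)) (XT.nd (nat_lit 78) (nat_lit 0) (nat_lit 0) (XT.lf (nat_lit 0) (nat_lit 97616631235) (nat_lit 152) (nat_lit 420344895903) (nat_lit 0) (nat_lit 97533656439) (nat_lit 1) (nat_lit 5) (nat_lit 3) (nat_lit 4) (nat_lit 1) (nat_lit 4) (nat_lit 265) (nat_lit 198) (nat_lit 197)) (XT.lf (nat_lit 0) (nat_lit 114096538678) (nat_lit 152) (nat_lit 479625878066) (nat_lit 0) (nat_lit 113941411885) (nat_lit 1) (nat_lit 5) (nat_lit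 3) (nat_lit 4) (nat_lit 1) (nat_lit 4) (nat_lit 266) (nat_lit 198) (nat_lit 196)))) (XT.nd (nat_lit 78) (nat_lit 0) (nat_lit 0) (XT.lf (nat_lit 0) (nat_lit 132892338985) (nat_lit 152) (nat_lit 548103528815) (nat_lit 0) (nat_lit 132674471324) (nat_lit 1) (nat_lit 5) (nat_lit 3) (nat_lit 4) (nat_lit 1) (nat_lit 4) (nat_lit 267) (nat_lit 198) (nat_lit 195)) (XT.nd (nat_lit 78) (nat_lit 0) (nat_lit 0) (XT.lf (nat_lit 0) (nat_lit 154371776074) (nat_lit 152) (nat_lit 627117628273) (nat_lit 0) (nat_lit 154099351138) (nat_lit 1) (nat_lit 5) (nat_lit 3) (nat_lit 4) (nat_lit 1) (nat_lit 4) (nat_lit 268) (nat_lit 198) (nat_lit 194)) (XT.lf (nat_lit 0) (nat_lit 178955099803) (nat_lit 152) (nat_lit 718214104473) (nat_lit 0) (nat_lit 178635233758) (nat_lit 1) (nat_lit 5) (nat_lit 3) (nat_lit 4) (nat_lit 1) (nat_lit 4) (nat_lit 269) (nat_lit 198) (nat_lit 193))))) (XT.nd (nat_lit 234) (nat_lit 0) (nat_lit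 0) (XT.nd (nat_lit 78) (nat_lit 0) (nat_lit 0) (XT.lf (nat_lit 0) (nat_lit 207123288244) (nat_lit 152) (nat_lit 823175279776) (nat_lit 0) (nat_lit 206762169060) (nat_lit 1) (nat_lit 5) (nat_lit 3) (nat_lit 4) (nat_lit 1) (nat_lit 4) (nat_lit 270) (nat_lit 198) (nat_lit 192)) (XT.nd (nat_lit 78) (nat_lit 0) (nat_lit 0) (XT.lf (nat_lit 0) (nat_lit 239427458127) (nat_lit 152) (nat_lit 944054742393) (nat_lit 0) (nat_lit 239030466649) (nat_lit 1) (nat_lit 5) (nat_lit 3) (nat_lit 4) (nat_lit 1) (nat_lit 4) (nat_lit 271) (nat_lit 198) (nat_lit 191)) (XT.lf (nat_lit 0) (nat_lit 276499647559) (nat_lit 152) (nat_lit 1083217525290) (nat_lit 0) (nat_lit 276071462782) (nat_lit 1) (nat_lit 5) (nat_lit 3) (nat_lit 4) (nat_lit 1) (nat_lit 4) (nat_lit 272) (nat_lit 198) (nat_lit 190)))) (XT.nd (nat_lit 78) (nat_lit 0) (nat_lit 0) (XT.lf (nat_lit 0) (nat_lit 319065181986) (nat_lit 152) (nat_lit 1243386378565)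 (nat_lit 0) (nat_lit 318609872601) (nat_lit 1) (nat_lit 5) (nat_lit 3) (nat_lit 4) (nat_lit 1) (nat_lit 4) (nat_lit 273) (nat_lit 198) (nat_lit 189)) (XT.nd (nat_lit 78) (nat_lit 0) (nat_lit 0) (XT.lf (nat_lit 0) (nat_lit 367956865341) (nat_lit 152) (nat_lit 1427695040654) (nat_lit 0) (nat_lit 367477969340) (nat_lit 1) (nat_lit 5) (nat_lit 3) (nat_lit 4) (nat_lit 1) (nat_lit 4) (nat_lit 274) (nat_lit 198) (nat_lit 188)) (XT.lf (nat_lit 0) (nat_lit 424131274038) (nat_lit 152) (nat_lit 1639749550596) (nat_lit 0) (nat_lit 423631867937) (nat_lit 1) (nat_lit 5) (nat_lit 3) (nat_lit 4) (nat_lit 1) (nat_lit 4) (nat_lit 275) (nat_lit 198) (nat_lit 187)))))) (XT.nd (nat_lit 468) (nat_lit 0) (nat_lit 0) (XT.nd (nat_lit 234) (nat_lit 0) (nat_lit 0) (XT.nd (nat_lit 78) (nat_lit 0) (nat_lit 0) (XT.lf (nat_lit 0) (nat_lit 488687472596) (nat_lit 152) (nat_lit 1883698800978) (nat_lit 0) (nat_lit 488170231624)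 (nat_lit 1) (nat_lit 5) (nat_lit 3) (nat_lit 4) (nat_lit 1) (nat_lit 4) (nat_lit 276) (nat_lit 198) (nat_lit 186)) (XT.nd (nat_lit 78) (nat_lit 0) (nat_lit 0) (XT.lf (nat_lit 0) (nat_lit 562888517072) (nat_lit 152) (nat_lit 2164315711916) (nat_lit 0) (nat_lit 562355767518) (nat_lit 1) (nat_lit 5) (nat_lit 3) (nat_lit 4) (nat_lit 1) (nat_lit 4) (nat_lit 277) (nat_lit 198) (nat_lit 185)) (XT.lf (nat_lit 0) (nat_lit 648186167033) (nat_lit 152) (nat_lit 2487090614275) (nat_lit 0) (nat_lit 647639931755) (nat_lit 1) (nat_lit 5) (nat_lit 3) (nat_lit 4) (nat_lit 1) (nat_lit 4) (nat_lit 278) (nat_lit 198) (nat_lit 184)))) (XT.nd (nat_lit 78) (nat_lit 0) (nat_lit 0) (XT.lf (nat_lit 0) (nat_lit 746249289544) (nat_lit 152) (nat_lit 2858338669190) (nat_lit 0) (nat_lit 745691327548) (nat_lit 1) (nat_lit 5) (nat_lit 3) (nat_lit 4) (nat_lit 1) (nat_lit 4) (nat_lit 279) (nat_lit 198) (nat_lit 183)) (XT.nd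 (nat_lit 78) (nat_lit 0) (nat_lit 0) (XT.lf (nat_lit 0) (nat_lit 858996510913) (nat_lit 152) (nat_lit 3285323425560) (nat_lit 0) (nat_lit 858428351773) (nat_lit 1) (nat_lit 5) (nat_lit 3) (nat_lit 4) (nat_lit 1) (nat_lit 4) (nat_lit 280) (nat_lit 198) (nat_lit 182)) (XT.lf (nat_lit 0) (nat_lit 988633755038) (nat_lit 152) (nat_lit 3776398932967) (nat_lit 0) (nat_lit 988056728815) (nat_lit 1) (nat_lit 5) (nat_lit 3) (nat_lit 4) (nat_lit 1) (nat_lit 4) (nat_lit 281) (nat_lit 198) (nat_lit 181))))) (XT.nd (nat_lit 234) (nat_lit 0) (nat_lit 0) (XT.nd (nat_lit 78) (nat_lit 0) (nat_lit 0) (XT.lf (nat_lit 0) (nat_lit 1137697402782) (nat_lit 152) (nat_lit 4341173190469) (nat_lit 0) (nat_lit 1137112666053) (nat_lit 1) (nat_lit 5) (nat_lit 3) (nat_lit 4) (nat_lit 1) (nat_lit 4) (nat_lit 282) (nat_lit 198) (nat_lit 180)) (XT.nd (nat_lit 78) (nat_lit 0) (nat_lit 0) (XT.lf (nat_lit 0) (nat_lit 1309103916818)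 (nat_lit 152) (nat_lit 4990696129190) (nat_lit 0) (nat_lit 1308512475301) (nat_lit 1) (nat_lit 5) (nat_lit 3) (nat_lit 4) (nat_lit 1) (nat_lit 4) (nat_lit 283) (nat_lit 198) (nat_lit 179)) (XT.lf (nat_lit 0) (nat_lit 1506206902856) (nat_lit 152) (nat_lit 5737675806628) (nat_lit 0) (nat_lit 1505609631087) (nat_lit 1) (nat_lit 5) (nat_lit 3) (nat_lit 4) (nat_lit 1) (nat_lit 4) (nat_lit 284) (nat_lit 198) (nat_lit 178)))) (XT.nd (nat_lit 78) (nat_lit 0) (nat_lit 0) (XT.lf (nat_lit 0) (nat_lit 1732862723665) (nat_lit 152) (nat_lit 6596727042558) (nat_lit 0) (nat_lit 1732260382114) (nat_lit 1) (nat_lit 5) (nat_lit 3) (nat_lit 4) (nat_lit 1) (nat_lit 4) (nat_lit 285) (nat_lit 198) (nat_lit 177)) (XT.nd (nat_lit 78) (nat_lit 0) (nat_lit 0) (XT.lf (nat_lit 0) (nat_lit 1993505949653) (nat_lit 152) (nat_lit 7584657361162) (nat_lit 0) (nat_lit 1992899199595) (nat_lit 1) (nat_lit 5) (nat_lit 3) (nat_lit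 4) (nat_lit 1) (nat_lit 4) (nat_lit 286) (nat_lit 198) (nat_lit 176)) (XT.lf (nat_lit 0) (nat_lit 2293236122199) (nat_lit 152) (nat_lit 8720795833890) (nat_lit 0) (nat_lit 2292625538655) (nat_lit 1) (nat_lit 5) (nat_lit 3) (nat_lit 4) (nat_lit 1) (nat_lit 4) (nat_lit 287) (nat_lit 198) (nat_lit 175))))))) (XT.nd (nat_lit 33228) (nat_lit 0) (nat_lit 0) (XT.nd (nat_lit 32760) (nat_lit 0) (nat_lit 0) (XT.nd (nat_lit 32526) (nat_lit 0) (nat_lit 0) (XT.nd (nat_lit 32370) (nat_lit 0) (nat_lit 0) (XT.lf (nat_lit 0) (nat_lit 2637917527285) (nat_lit 152) (nat_lit 10027371256948) (nat_lit 0) (nat_lit 2637303610278) (nat_lit 1) (nat_lit 5) (nat_lit 3) (nat_lit 4) (nat_lit 1) (nat_lit 4) (nat_lit 288) (nat_lit 198) (nat_lit 174)) (XT.nd (nat_lit 78) (nat_lit 0) (nat_lit 0) (XT.lf (nat_lit 0) (nat_lit 29621621108) (nat_lit 152) (nat_lit 143317344669) (nat_lit 0) (nat_lit 29621621108) (nat_lit 1) (nat_lit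 5) (nat_lit 3) (nat_lit 4) (nat_lit 1) (nat_lit 4) (nat_lit 262) (nat_lit 199) (nat_lit 199)) (XT.lf (nat_lit 0) (nat_lit 70449186547) (nat_lit 152) (nat_lit 324890798316) (nat_lit 0) (nat_lit 70353765531) (nat_lit 1) (nat_lit 5) (nat_lit 3) (nat_lit 4) (nat_lit 1) (nat_lit 4) (nat_lit 263) (nat_lit 199) (nat_lit 198)))) (XT.nd (nat_lit 78) (nat_lit 0) (nat_lit 0) (XT.lf (nat_lit 0) (nat_lit 83129589200) (nat_lit 152) (nat_lit 369288053008) (nat_lit 0) (nat_lit 82951193388) (nat_lit 1) (nat_lit 5) (nat_lit 3) (nat_lit 4) (nat_lit 1) (nat_lit 4) (nat_lit 264) (nat_lit 199) (nat_lit 197)) (XT.nd (nat_lit 78) (nat_lit 0) (nat_lit 0) (XT.lf (nat_lit 0) (nat_lit 97532545011) (nat_lit 152) (nat_lit 420695095354) (nat_lit 0) (nat_lit 97281997202) (nat_lit 1) (nat_lit 5) (nat_lit 3) (nat_lit 4) (nat_lit 1) (nat_lit 4) (nat_lit 265) (nat_lit 199) (nat_lit 196)) (XT.lf (nat_lit 0) (nat_lit 113939850941)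 (nat_lit 152) (nat_lit 480117715313) (nat_lit 0) (nat_lit 113626562265) (nat_lit 1) (nat_lit 5) (nat_lit 3) (nat_lit 4) (nat_lit 1) (nat_lit 4) (nat_lit 266) (nat_lit 199) (nat_lit 195))))) (XT.nd (nat_lit 234) (nat_lit 0) (nat_lit 0) (XT.nd (nat_lit 78) (nat_lit 0) (nat_lit 0) (XT.lf (nat_lit 0) (nat_lit 132672519497) (nat_lit 152) (nat_lit 548718529363) (nat_lit 0) (nat_lit 132304673545) (nat_lit 1) (nat_lit 5) (nat_lit 3) (nat_lit 4) (nat_lit 1) (nat_lit 4) (nat_lit 267) (nat_lit 199) (nat_lit 194)) (XT.nd (nat_lit 78) (nat_lit 0) (nat_lit 0) (XT.lf (nat_lit 0) (nat_lit 154097059413) (nat_lit 152) (nat_lit 627839727343) (nat_lit 0) (nat_lit 153681772352) (nat_lit 1) (nat_lit 5) (nat_lit 3) (nat_lit 4) (nat_lit 1) (nat_lit 4) (nat_lit 268) (nat_lit 199) (nat_lit 193)) (XT.lf (nat_lit 0) (nat_lit 178632646468) (nat_lit 152) (nat_lit 719029332693) (nat_lit 0) (nat_lit 178176106269) (nat_lit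 1) (nat_lit 5) (nat_lit 3) (nat_lit 4) (nat_lit 1) (nat_lit 4) (nat_lit 269) (nat_lit 199) (nat_lit 192)))) (XT.nd (nat_lit 78) (nat_lit 0) (nat_lit 0) (XT.lf (nat_lit 0) (nat_lit 206759324759) (nat_lit 152) (nat_lit 824071489865) (nat_lit 0) (nat_lit 206266912265) (nat_lit 1) (nat_lit 5) (nat_lit 3) (nat_lit 4) (nat_lit 1) (nat_lit 4) (nat_lit 270) (nat_lit 199) (nat_lit 191)) (XT.nd (nat_lit 78) (nat_lit 0) (nat_lit 0) (XT.lf (nat_lit 0) (nat_lit 239027398859) (nat_lit 152) (nat_lit 945021371499) (nat_lit 0) (nat_lit 238503793066) (nat_lit 1) (nat_lit 5) (nat_lit 3) (nat_lit 4) (nat_lit 1) (nat_lit 4) (nat_lit 271) (nat_lit 199) (nat_lit 190)) (XT.lf (nat_lit 0) (nat_lit 276068200654) (nat_lit 152) (nat_lit 1084245388324) (nat_lit 0) (nat_lit 275517470253) (nat_lit 1) (nat_lit 5) (nat_lit 3) (nat_lit 4) (nat_lit 1) (nat_lit 4) (nat_lit 272) (nat_lit 199) (nat_lit 189)))))) (XT.nd (nat_lit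 468) (nat_lit 0) (nat_lit 0) (XT.nd (nat_lit 234) (nat_lit 0) (nat_lit 0) (XT.nd (nat_lit 78) (nat_lit 0) (nat_lit 0) (XT.lf (nat_lit 0) (nat_lit 318606441482) (nat_lit 152) (nat_lit 1244467488493) (nat_lit 0) (nat_lit 318032124465) (nat_lit 1) (nat_lit 5) (nat_lit 3) (nat_lit 4) (nat_lit 1) (nat_lit 4) (nat_lit 273) (nat_lit 199) (nat_lit 188)) (XT.nd (nat_lit 78) (nat_lit 0) (nat_lit 0) (XT.lf (nat_lit 0) (nat_lit 367474391274) (nat_lit 152) (nat_lit 1428822452228) (nat_lit 0) (nat_lit 366879564157) (nat_lit 1) (nat_lit 5) (nat_lit 3) (nat_lit 4) (nat_lit 1) (nat_lit 4) (nat_lit 274) (nat_lit 199) (nat_lit 187)) (XT.lf (nat_lit 0) (nat_lit 423628162090) (nat_lit 152) (nat_lit 1640917224472) (nat_lit 0) (nat_lit 423015500103) (nat_lit 1) (nat_lit 5) (nat_lit 3) (nat_lit 4) (nat_lit 1) (nat_lit 4) (nat_lit 275) (nat_lit 199) (nat_lit 186)))) (XT.nd (nat_lit 78) (nat_lit 0) (nat_lit 0)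 (XT.lf (nat_lit 0) (nat_lit 488166414664) (nat_lit 152) (nat_lit 1884901485551) (nat_lit 0) (nat_lit 487538244094) (nat_lit 1) (nat_lit 5) (nat_lit 3) (nat_lit 4) (nat_lit 1) (nat_lit 4) (nat_lit 276) (nat_lit 199) (nat_lit 185)) (XT.nd (nat_lit 78) (nat_lit 0) (nat_lit 0) (XT.lf (nat_lit 0) (nat_lit 562351853938) (nat_lit 152) (nat_lit 2165548840573) (nat_lit 0) (nat_lit 561710197643) (nat_lit 1) (nat_lit 5) (nat_lit 3) (nat_lit 4) (nat_lit 1) (nat_lit 4) (nat_lit 277) (nat_lit 199) (nat_lit 184)) (XT.lf (nat_lit 0) (nat_lit 647635934157) (nat_lit 152) (nat_lit 2488350216049) (nat_lit 0) (nat_lit 646982551146) (nat_lit 1) (nat_lit 5) (nat_lit 3) (nat_lit 4) (nat_lit 1) (nat_lit 4) (nat_lit 278) (nat_lit 199) (nat_lit 183))))) (XT.nd (nat_lit 234) (nat_lit 0) (nat_lit 0) (XT.nd (nat_lit 78) (nat_lit 0) (nat_lit 0) (XT.lf (nat_lit 0) (nat_lit 745687256892) (nat_lit 152) (nat_lit 2859621291066)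 (nat_lit 0) (nat_lit 745023676735) (nat_lit 1) (nat_lit 5) (nat_lit 3) (nat_lit 4) (nat_lit 1) (nat_lit 4) (nat_lit 279) (nat_lit 199) (nat_lit 182)) (XT.nd (nat_lit 78) (nat_lit 0) (nat_lit 0) (XT.lf (nat_lit 0) (nat_lit 858424217587) (nat_lit 152) (nat_lit 3286626064915) (nat_lit 0) (nat_lit 857751770348) (nat_lit 1) (nat_lit 5) (nat_lit 3) (nat_lit 4) (nat_lit 1) (nat_lit 4) (nat_lit 280) (nat_lit 199) (nat_lit 181)) (XT.lf (nat_lit 0) (nat_lit 988052539386) (nat_lit 152) (nat_lit 3777718978826) (nat_lit 0) (nat_lit 987372381641) (nat_lit 1) (nat_lit 5) (nat_lit 3) (nat_lit 4) (nat_lit 1) (nat_lit 4) (nat_lit 281) (nat_lit 199) (nat_lit 180)))) (XT.nd (nat_lit 156) (nat_lit 0) (nat_lit 0) (XT.nd (nat_lit 78) (nat_lit 0) (nat_lit 0) (XT.lf (nat_lit 0) (nat_lit 1137108428586) (nat_lit 152) (nat_lit 4342508372418) (nat_lit 0) (nat_lit 1136421566053) (nat_lit 1) (nat_lit 5) (nat_lit 3)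 (nat_lit 4) (nat_lit 1) (nat_lit 4) (nat_lit 282) (nat_lit 199) (nat_lit 179)) (XT.lf (nat_lit 0) (nat_lit 1308508196062) (nat_lit 152) (nat_lit 4992044472957) (nat_lit 0) (nat_lit 1307815503278) (nat_lit 1) (nat_lit 5) (nat_lit 3) (nat_lit 4) (nat_lit 1) (nat_lit 4) (nat_lit 283) (nat_lit 199) (nat_lit 178))) (XT.nd (nat_lit 78) (nat_lit 0) (nat_lit 0) (XT.lf (nat_lit 0) (nat_lit 1505605315526) (nat_lit 152) (nat_lit 5739035595454) (nat_lit 0) (nat_lit 1504907552959) (nat_lit 1) (nat_lit 5) (nat_lit 3) (nat_lit 4) (nat_lit 1) (nat_lit 4) (nat_lit 284) (nat_lit 199) (nat_lit 177)) (XT.lf (nat_lit 0) (nat_lit 1732256034967) (nat_lit 152) (nat_lit 6598096783609) (nat_lit 0) (nat_lit 1731553863892) (nat_lit 1) (nat_lit 5) (nat_lit 3) (nat_lit 4) (nat_lit 1) (nat_lit 4) (nat_lit 285) (nat_lit 199) (nat_lit 176))))))))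
noncomputable def xc4 : XT := (XT.nd (nat_lit 34086) (nat_lit 0) (nat_lit 0) (XT.nd (nat_lit 33150) (nat_lit 0) (nat_lit 0) (XT.nd (nat_lit 32682) (nat_lit 0) (nat_lit 0) (XT.nd (nat_lit 32448) (nat_lit 0) (nat_lit 0) (XT.nd (nat_lit 78) (nat_lit 0) (nat_lit 0) (XT.lf (nat_lit 0) (nat_lit 1992894824982) (nat_lit 152) (nat_lit 7586035756322) (nat_lit 0) (nat_lit 1992188820423) (nat_lit 1) (nat_lit 5) (nat_lit 3) (nat_lit 4) (nat_lit 1) (nat_lit 4) (nat_lit 286) (nat_lit 199) (nat_lit 175)) (XT.nd (nat_lit 32292) (nat_lit 0) (nat_lit 0) (XT.lf (nat_lit 0) (nat_lit 2292621140160) (nat_lit 152) (nat_lit 8722181754362) (nat_lit 0) (nat_lit 2291911802136) (nat_lit 1) (nat_lit 5) (nat_lit 3) (nat_lit 4) (nat_lit 1) (nat_lit 4) (nat_lit 287) (nat_lit 199) (nat_lit 174)) (XT.lf (nat_lit 0) (nat_lit 20319507367) (nat_lit 152) (nat_lit 112704867641) (nat_lit 0) (nat_lit 20319507367) (nat_lit 1)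 (nat_lit 5) (nat_lit 3) (nat_lit 4) (nat_lit 1) (nat_lit 4) (nat_lit 260) (nat_lit 200) (nat_lit 200)))) (XT.nd (nat_lit 78) (nat_lit 0) (nat_lit 0) (XT.lf (nat_lit 0) (nat_lit 49402243642) (nat_lit 152) (nat_lit 253771236987) (nat_lit 0) (nat_lit 49292509474) (nat_lit 1) (nat_lit 5) (nat_lit 3) (nat_lit 4) (nat_lit 1) (nat_lit 4) (nat_lit 261) (nat_lit 200) (nat_lit 199)) (XT.nd (nat_lit 78) (nat_lit 0) (nat_lit 0) (XT.lf (nat_lit 0) (nat_lit 59242558560) (nat_lit 152) (nat_lit 286850102721) (nat_lit 0) (nat_lit 59037403376) (nat_lit 1) (nat_lit 5) (nat_lit 3) (nat_lit 4) (nat_lit 1) (nat_lit 4) (nat_lit 262) (nat_lit 200) (nat_lit 198)) (XT.lf (nat_lit 0) (nat_lit 70352487389) (nat_lit 152) (nat_lit 325293527684) (nat_lit 0) (nat_lit 70064357408) (nat_lit 1) (nat_lit 5) (nat_lit 3) (nat_lit 4) (nat_lit 1) (nat_lit 4) (nat_lit 263) (nat_lit 200) (nat_lit 197))))) (XT.nd (nat_lit 234)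 (nat_lit 0) (nat_lit 0) (XT.nd (nat_lit 78) (nat_lit 0) (nat_lit 0) (XT.lf (nat_lit 0) (nat_lit 82949398303) (nat_lit 152) (nat_lit 369853665841) (nat_lit 0) (nat_lit 82589116325) (nat_lit 1) (nat_lit 5) (nat_lit 3) (nat_lit 4) (nat_lit 1) (nat_lit 4) (nat_lit 264) (nat_lit 200) (nat_lit 196)) (XT.nd (nat_lit 78) (nat_lit 0) (nat_lit 0) (XT.lf (nat_lit 0) (nat_lit 97279752601) (nat_lit 152) (nat_lit 421402345983) (nat_lit 0) (nat_lit 96856729756) (nat_lit 1) (nat_lit 5) (nat_lit 3) (nat_lit 4) (nat_lit 1) (nat_lit 4) (nat_lit 265) (nat_lit 200) (nat_lit 195)) (XT.lf (nat_lit 0) (nat_lit 113623926780) (nat_lit 152) (nat_lit 480948129243) (nat_lit 0) (nat_lit 113146346660) (nat_lit 1) (nat_lit 5) (nat_lit 3) (nat_lit 4) (nat_lit 1) (nat_lit 4) (nat_lit 266) (nat_lit 200) (nat_lit 194)))) (XT.nd (nat_lit 78) (nat_lit 0) (nat_lit 0) (XT.lf (nat_lit 0) (nat_lit 132301698163) (nat_lit 152)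 (nat_lit 549656041815) (nat_lit 0) (nat_lit 131776676933) (nat_lit 1) (nat_lit 5) (nat_lit 3) (nat_lit 4) (nat_lit 1) (nat_lit 4) (nat_lit 267) (nat_lit 200) (nat_lit 193)) (XT.nd (nat_lit 78) (nat_lit 0) (nat_lit 0) (XT.lf (nat_lit 0) (nat_lit 153678501405) (nat_lit 152) (nat_lit 628870368946) (nat_lit 0) (nat_lit 153112227037) (nat_lit 1) (nat_lit 5) (nat_lit 3) (nat_lit 4) (nat_lit 1) (nat_lit 4) (nat_lit 268) (nat_lit 200) (nat_lit 192)) (XT.lf (nat_lit 0) (nat_lit 178172578310) (nat_lit 152) (nat_lit 720140956165) (nat_lit 0) (nat_lit 177570431648) (nat_lit 1) (nat_lit 5) (nat_lit 3) (nat_lit 4) (nat_lit 1) (nat_lit 4) (nat_lit 269) (nat_lit 200) (nat_lit 191)))))) (XT.nd (nat_lit 468) (nat_lit 0) (nat_lit 0) (XT.nd (nat_lit 234) (nat_lit 0) (nat_lit 0) (XT.nd (nat_lit 78) (nat_lit 0) (nat_lit 0) (XT.lf (nat_lit 0) (nat_lit 206263160817) (nat_lit 152) (nat_lit 825253532354) (nat_lit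 0) (nat_lit 205629820856) (nat_lit 1) (nat_lit 5) (nat_lit 3) (nat_lit 4) (nat_lit 1) (nat_lit 4) (nat_lit 270) (nat_lit 200) (nat_lit 190)) (XT.nd (nat_lit 78) (nat_lit 0) (nat_lit 0) (XT.lf (nat_lit 0) (nat_lit 238499847280) (nat_lit 152) (nat_lit 946264647916) (nat_lit 0) (nat_lit 237839382711) (nat_lit 1) (nat_lit 5) (nat_lit 3) (nat_lit 4) (nat_lit 1) (nat_lit 4) (nat_lit 271) (nat_lit 200) (nat_lit 189)) (XT.lf (nat_lit 0) (nat_lit 275513355477) (nat_lit 152) (nat_lit 1085541911634) (nat_lit 0) (nat_lit 274829304292) (nat_lit 1) (nat_lit 5) (nat_lit 3) (nat_lit 4) (nat_lit 1) (nat_lit 4) (nat_lit 272) (nat_lit 200) (nat_lit 188)))) (XT.nd (nat_lit 78) (nat_lit 0) (nat_lit 0) (XT.lf (nat_lit 0) (nat_lit 318027862742) (nat_lit 152) (nat_lit 1245810313450) (nat_lit 0) (nat_lit 317323301456) (nat_lit 1) (nat_lit 5) (nat_lit 3) (nat_lit 4) (nat_lit 1) (nat_lit 4) (nat_lit 273) (nat_lit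 200) (nat_lit 187)) (XT.nd (nat_lit 78) (nat_lit 0) (nat_lit 0) (XT.lf (nat_lit 0) (nat_lit 366875174653) (nat_lit 152) (nat_lit 1430205539487) (nat_lit 0) (nat_lit 366152778497) (nat_lit 1) (nat_lit 5) (nat_lit 3) (nat_lit 4) (nat_lit 1) (nat_lit 4) (nat_lit 274) (nat_lit 200) (nat_lit 186)) (XT.lf (nat_lit 0) (nat_lit 423010999486) (nat_lit 152) (nat_lit 1642335322428) (nat_lit 0) (nat_lit 422273094747) (nat_lit 1) (nat_lit 5) (nat_lit 3) (nat_lit 4) (nat_lit 1) (nat_lit 4) (nat_lit 275) (nat_lit 200) (nat_lit 185))))) (XT.nd (nat_lit 234) (nat_lit 0) (nat_lit 0) (XT.nd (nat_lit 78) (nat_lit 0) (nat_lit 0) (XT.lf (nat_lit 0) (nat_lit 487533646856) (nat_lit 152) (nat_lit 1886350027591) (nat_lit 0) (nat_lit 486782256393) (nat_lit 1) (nat_lit 5) (nat_lit 3) (nat_lit 4) (nat_lit 1) (nat_lit 4) (nat_lit 276) (nat_lit 200) (nat_lit 184)) (XT.nd (nat_lit 78) (nat_lit 0) (nat_lit 0) (XT.lf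 (nat_lit 0) (nat_lit 561705516388) (nat_lit 152) (nat_lit 2167023855730) (nat_lit 0) (nat_lit 560942399208) (nat_lit 1) (nat_lit 5) (nat_lit 3) (nat_lit 4) (nat_lit 1) (nat_lit 4) (nat_lit 277) (nat_lit 200) (nat_lit 183)) (XT.lf (nat_lit 0) (nat_lit 646977796832) (nat_lit 152) (nat_lit 2489848251308) (nat_lit 0) (nat_lit 646204482507) (nat_lit 1) (nat_lit 5) (nat_lit 3) (nat_lit 4) (nat_lit 1) (nat_lit 4) (nat_lit 278) (nat_lit 200) (nat_lit 182)))) (XT.nd (nat_lit 78) (nat_lit 0) (nat_lit 0) (XT.lf (nat_lit 0) (nat_lit 745018858892) (nat_lit 152) (nat_lit 2861139343804) (nat_lit 0) (nat_lit 744236677485) (nat_lit 1) (nat_lit 5) (nat_lit 3) (nat_lit 4) (nat_lit 1) (nat_lit 4) (nat_lit 279) (nat_lit 200) (nat_lit 181)) (XT.nd (nat_lit 78) (nat_lit 0) (nat_lit 0) (XT.lf (nat_lit 0) (nat_lit 857746897262) (nat_lit 152) (nat_lit 3288161524157) (nat_lit 0) (nat_lit 856957005348) (nat_lit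 1) (nat_lit 5) (nat_lit 3) (nat_lit 4) (nat_lit 1) (nat_lit 4) (nat_lit 280) (nat_lit 200) (nat_lit 180)) (XT.lf (nat_lit 0) (nat_lit 987367460517) (nat_lit 152) (nat_lit 3779269574159) (nat_lit 0) (nat_lit 986570863815) (nat_lit 1) (nat_lit 5) (nat_lit 3) (nat_lit 4) (nat_lit 1) (nat_lit 4) (nat_lit 281) (nat_lit 200) (nat_lit 179))))))) (XT.nd (nat_lit 32994) (nat_lit 0) (nat_lit 0) (XT.nd (nat_lit 32526) (nat_lit 0) (nat_lit 0) (XT.nd (nat_lit 234) (nat_lit 0) (nat_lit 0) (XT.nd (nat_lit 78) (nat_lit 0) (nat_lit 0) (XT.lf (nat_lit 0) (nat_lit 1136416603157) (nat_lit 152) (nat_lit 4344072129569) (nat_lit 0) (nat_lit 1135614176205) (nat_lit 1) (nat_lit 5) (nat_lit 3) (nat_lit 4) (nat_lit 1) (nat_lit 4) (nat_lit 282) (nat_lit 200) (nat_lit 178)) (XT.nd (nat_lit 78) (nat_lit 0) (nat_lit 0) (XT.lf (nat_lit 0) (nat_lit 1307810504059) (nat_lit 152) (nat_lit 4993619675167) (nat_lit 0) (nat_lit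 1307003007324) (nat_lit 1) (nat_lit 5) (nat_lit 3) (nat_lit 4) (nat_lit 1) (nat_lit 4) (nat_lit 283) (nat_lit 200) (nat_lit 177)) (XT.lf (nat_lit 0) (nat_lit 1504902522155) (nat_lit 152) (nat_lit 5740620749889) (nat_lit 0) (nat_lit 1504090616912) (nat_lit 1) (nat_lit 5) (nat_lit 3) (nat_lit 4) (nat_lit 1) (nat_lit 4) (nat_lit 284) (nat_lit 200) (nat_lit 176)))) (XT.nd (nat_lit 78) (nat_lit 0) (nat_lit 0) (XT.lf (nat_lit 0) (nat_lit 1731548805623) (nat_lit 152) (nat_lit 6599690592153) (nat_lit 0) (nat_lit 1730733066895) (nat_lit 1) (nat_lit 5) (nat_lit 3) (nat_lit 4) (nat_lit 1) (nat_lit 4) (nat_lit 285) (nat_lit 200) (nat_lit 175)) (XT.nd (nat_lit 78) (nat_lit 0) (nat_lit 0) (XT.lf (nat_lit 0) (nat_lit 1992183738271) (nat_lit 152) (nat_lit 7587637090177) (nat_lit 0) (nat_lit 1991364666079) (nat_lit 1) (nat_lit 5) (nat_lit 3) (nat_lit 4) (nat_lit 1) (nat_lit 4) (nat_lit 286) (nat_lit 200)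 (nat_lit 174)) (XT.lf (nat_lit 0) (nat_lit 2291906699216) (nat_lit 152) (nat_lit 8723789631967) (nat_lit 0) (nat_lit 2291084728359) (nat_lit 1) (nat_lit 5) (nat_lit 3) (nat_lit 4) (nat_lit 1) (nat_lit 4) (nat_lit 287) (nat_lit 200) (nat_lit 173))))) (XT.nd (nat_lit 234) (nat_lit 0) (nat_lit 0) (XT.nd (nat_lit 78) (nat_lit 0) (nat_lit 0) (XT.lf (nat_lit 0) (nat_lit 12973968892) (nat_lit 152) (nat_lit 90207891754) (nat_lit 0) (nat_lit 12973968892) (nat_lit 1) (nat_lit 5) (nat_lit 3) (nat_lit 4) (nat_lit 1) (nat_lit 4) (nat_lit 258) (nat_lit 201) (nat_lit 201)) (XT.nd (nat_lit 78) (nat_lit 0) (nat_lit 0) (XT.lf (nat_lit 0) (nat_lit 32907611654) (nat_lit 152) (nat_lit 201210698660) (nat_lit 0) (nat_lit 32781417360) (nat_lit 1) (nat_lit 5) (nat_lit 3) (nat_lit 4) (nat_lit 1) (nat_lit 4) (nat_lit 259) (nat_lit 201) (nat_lit 200)) (XT.lf (nat_lit 0) (nat_lit 40638228529) (nat_lit 152) (nat_lit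 225657460672) (nat_lit 0) (nat_lit 40402300067) (nat_lit 1) (nat_lit 5) (nat_lit 3) (nat_lit 4) (nat_lit 1) (nat_lit 4) (nat_lit 260) (nat_lit 201) (nat_lit 199)))) (XT.nd (nat_lit 78) (nat_lit 0) (nat_lit 0) (XT.lf (nat_lit 0) (nat_lit 49291039610) (nat_lit 152) (nat_lit 254234375761) (nat_lit 0) (nat_lit 48959690132) (nat_lit 1) (nat_lit 5) (nat_lit 3) (nat_lit 4) (nat_lit 1) (nat_lit 4) (nat_lit 261) (nat_lit 201) (nat_lit 198)) (XT.nd (nat_lit 78) (nat_lit 0) (nat_lit 0) (XT.lf (nat_lit 0) (nat_lit 59035339028) (nat_lit 152) (nat_lit 287500557480) (nat_lit 0) (nat_lit 58621014753) (nat_lit 1) (nat_lit 5) (nat_lit 3) (nat_lit 4) (nat_lit 1) (nat_lit 4) (nat_lit 262) (nat_lit 201) (nat_lit 197)) (XT.lf (nat_lit 0) (nat_lit 70061776117) (nat_lit 152) (nat_lit 326106865907) (nat_lit 0) (nat_lit 69575299846) (nat_lit 1) (nat_lit 5) (nat_lit 3) (nat_lit 4) (nat_lit 1) (nat_lit 4) (nat_lit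 263) (nat_lit 201) (nat_lit 196)))))) (XT.nd (nat_lit 468) (nat_lit 0) (nat_lit 0) (XT.nd (nat_lit 234) (nat_lit 0) (nat_lit 0) (XT.nd (nat_lit 78) (nat_lit 0) (nat_lit 0) (XT.lf (nat_lit 0) (nat_lit 82586085518) (nat_lit 152) (nat_lit 370808641861) (nat_lit 0) (nat_lit 82036868380) (nat_lit 1) (nat_lit 5) (nat_lit 3) (nat_lit 4) (nat_lit 1) (nat_lit 4) (nat_lit 264) (nat_lit 201) (nat_lit 195)) (XT.nd (nat_lit 78) (nat_lit 0) (nat_lit 0) (XT.lf (nat_lit 0) (nat_lit 96853308066) (nat_lit 152) (nat_lit 422480485303) (nat_lit 0) (nat_lit 96249533652) (nat_lit 1) (nat_lit 5) (nat_lit 3) (nat_lit 4) (nat_lit 1) (nat_lit 4) (nat_lit 265) (nat_lit 201) (nat_lit 194)) (XT.lf (nat_lit 0) (nat_lit 113142585071) (nat_lit 152) (nat_lit 482133367086) (nat_lit 0) (nat_lit 112491369548) (nat_lit 1) (nat_lit 5) (nat_lit 3) (nat_lit 4) (nat_lit 1) (nat_lit 4) (nat_lit 266) (nat_lit 201) (nat_lit 193))))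 (XT.nd (nat_lit 78) (nat_lit 0) (nat_lit 0) (XT.lf (nat_lit 0) (nat_lit 131772619780) (nat_lit 152) (nat_lit 550934408808) (nat_lit 0) (nat_lit 131080151119) (nat_lit 1) (nat_lit 5) (nat_lit 3) (nat_lit 4) (nat_lit 1) (nat_lit 4) (nat_lit 267) (nat_lit 201) (nat_lit 192)) (XT.nd (nat_lit 78) (nat_lit 0) (nat_lit 0) (XT.lf (nat_lit 0) (nat_lit 153107912872) (nat_lit 152) (nat_lit 630229717808) (nat_lit 0) (nat_lit 152379571917) (nat_lit 1) (nat_lit 5) (nat_lit 3) (nat_lit 4) (nat_lit 1) (nat_lit 4) (nat_lit 268) (nat_lit 201) (nat_lit 191)) (XT.lf (nat_lit 0) (nat_lit 177565893994) (nat_lit 152) (nat_lit 721570724044) (nat_lit 0) (nat_lit 176806359739) (nat_lit 1) (nat_lit 5) (nat_lit 3) (nat_lit 4) (nat_lit 1) (nat_lit 4) (nat_lit 269) (nat_lit 201) (nat_lit 190))))) (XT.nd (nat_lit 234) (nat_lit 0) (nat_lit 0) (XT.nd (nat_lit 78) (nat_lit 0) (nat_lit 0) (XT.lf (nat_lit 0) (nat_lit 205625088864)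 (nat_lit 152) (nat_lit 826744534161) (nat_lit 0) (nat_lit 204838430001) (nat_lit 1) (nat_lit 5) (nat_lit 3) (nat_lit 4) (nat_lit 1) (nat_lit 4) (nat_lit 270) (nat_lit 201) (nat_lit 189)) (XT.nd (nat_lit 78) (nat_lit 0) (nat_lit 0) (XT.lf (nat_lit 0) (nat_lit 237834481729) (nat_lit 152) (nat_lit 947808896617) (nat_lit 0) (nat_lit 237024236250) (nat_lit 1) (nat_lit 5) (nat_lit 3) (nat_lit 4) (nat_lit 1) (nat_lit 4) (nat_lit 271) (nat_lit 201) (nat_lit 188)) (XT.lf (nat_lit 0) (nat_lit 274824256363) (nat_lit 152) (nat_lit 1087132461982) (nat_lit 0) (nat_lit 273993500783) (nat_lit 1) (nat_lit 5) (nat_lit 3) (nat_lit 4) (nat_lit 1) (nat_lit 4) (nat_lit 272) (nat_lit 201) (nat_lit 187)))) (XT.nd (nat_lit 78) (nat_lit 0) (nat_lit 0) (XT.lf (nat_lit 0) (nat_lit 317318125747) (nat_lit 152) (nat_lit 1247441126099) (nat_lit 0) (nat_lit 316469535297) (nat_lit 1) (nat_lit 5) (nat_lit 3) (nat_lit 4)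 (nat_lit 1) (nat_lit 4) (nat_lit 273) (nat_lit 201) (nat_lit 186)) (XT.nd (nat_lit 78) (nat_lit 0) (nat_lit 0) (XT.lf (nat_lit 0) (nat_lit 366147491674) (nat_lit 152) (nat_lit 1431871362833) (nat_lit 0) (nat_lit 365283392641) (nat_lit 1) (nat_lit 5) (nat_lit 3) (nat_lit 4) (nat_lit 1) (nat_lit 4) (nat_lit 274) (nat_lit 201) (nat_lit 185)) (XT.lf (nat_lit 0) (nat_lit 422267711303) (nat_lit 152) (nat_lit 1644031589858) (nat_lit 0) (nat_lit 421390126547) (nat_lit 1) (nat_lit 5) (nat_lit 3) (nat_lit 4) (nat_lit 1) (nat_lit 4) (nat_lit 275) (nat_lit 201) (nat_lit 184))))))))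
noncomputable def xc5 : XT := (XT.nd (nat_lit 33774) (nat_lit 0) (nat_lit 0) (XT.nd (nat_lit 32838) (nat_lit 0) (nat_lit 0) (XT.nd (nat_lit 468) (nat_lit 0) (nat_lit 0) (XT.nd (nat_lit 234) (nat_lit 0) (nat_lit 0) (XT.nd (nat_lit 78) (nat_lit 0) (nat_lit 0) (XT.lf (nat_lit 0) (nat_lit 486776788932) (nat_lit 152) (nat_lit 1888072768138) (nat_lit 0) (nat_lit 485887477459) (nat_lit 1) (nat_lit 5) (nat_lit 3) (nat_lit 4) (nat_lit 1) (nat_lit 4) (nat_lit 276) (nat_lit 201) (nat_lit 183)) (XT.nd (nat_lit 78) (nat_lit 0) (nat_lit 0) (XT.lf (nat_lit 0) (nat_lit 560936858688) (nat_lit 152) (nat_lit 2168769616379) (nat_lit 0) (nat_lit 560037350070) (nat_lit 1) (nat_lit 5) (nat_lit 3) (nat_lit 4) (nat_lit 1) (nat_lit 4) (nat_lit 277) (nat_lit 201) (nat_lit 182)) (XT.lf (nat_lit 0) (nat_lit 646198878458) (nat_lit 152) (nat_lit 2491614029436) (nat_lit 0) (nat_lit 645290502757) (nat_lit 1) (nat_lit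 5) (nat_lit 3) (nat_lit 4) (nat_lit 1) (nat_lit 4) (nat_lit 278) (nat_lit 201) (nat_lit 181)))) (XT.nd (nat_lit 78) (nat_lit 0) (nat_lit 0) (XT.lf (nat_lit 0) (nat_lit 744231018193) (nat_lit 152) (nat_lit 2862922528436) (nat_lit 0) (nat_lit 743314931985) (nat_lit 1) (nat_lit 5) (nat_lit 3) (nat_lit 4) (nat_lit 1) (nat_lit 4) (nat_lit 279) (nat_lit 201) (nat_lit 180)) (XT.nd (nat_lit 78) (nat_lit 0) (nat_lit 0) (XT.lf (nat_lit 0) (nat_lit 856951298018) (nat_lit 152) (nat_lit 3289959844880) (nat_lit 0) (nat_lit 856028507023) (nat_lit 1) (nat_lit 5) (nat_lit 3) (nat_lit 4) (nat_lit 1) (nat_lit 4) (nat_lit 280) (nat_lit 201) (nat_lit 179)) (XT.lf (nat_lit 0) (nat_lit 986565114714) (nat_lit 152) (nat_lit 3781081056699) (nat_lit 0) (nat_lit 985636493468) (nat_lit 1) (nat_lit 5) (nat_lit 3) (nat_lit 4) (nat_lit 1) (nat_lit 4) (nat_lit 281) (nat_lit 201) (nat_lit 178))))) (XT.nd (nat_lit 234)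 (nat_lit 0) (nat_lit 0) (XT.nd (nat_lit 78) (nat_lit 0) (nat_lit 0) (XT.lf (nat_lit 0) (nat_lit 1135608390780) (nat_lit 152) (nat_lit 4345895057168) (nat_lit 0) (nat_lit 1134674699751) (nat_lit 1) (nat_lit 5) (nat_lit 3) (nat_lit 4) (nat_lit 1) (nat_lit 4) (nat_lit 282) (nat_lit 201) (nat_lit 177)) (XT.nd (nat_lit 78) (nat_lit 0) (nat_lit 0) (XT.lf (nat_lit 0) (nat_lit 1306997190314) (nat_lit 152) (nat_lit 4995452554991) (nat_lit 0) (nat_lit 1306059090777) (nat_lit 1) (nat_lit 5) (nat_lit 3) (nat_lit 4) (nat_lit 1) (nat_lit 4) (nat_lit 283) (nat_lit 201) (nat_lit 176)) (XT.lf (nat_lit 0) (nat_lit 1504084772436) (nat_lit 152) (nat_lit 5742462283822) (nat_lit 0) (nat_lit 1503142839415) (nat_lit 1) (nat_lit 5) (nat_lit 3) (nat_lit 4) (nat_lit 1) (nat_lit 4) (nat_lit 284) (nat_lit 201) (nat_lit 175)))) (XT.nd (nat_lit 78) (nat_lit 0) (nat_lit 0) (XT.lf (nat_lit 0) (nat_lit 1730727198537)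 (nat_lit 152) (nat_lit 6601539651398) (nat_lit 0) (nat_lit 1729781932051) (nat_lit 1) (nat_lit 5) (nat_lit 3) (nat_lit 4) (nat_lit 1) (nat_lit 4) (nat_lit 285) (nat_lit 201) (nat_lit 174)) (XT.nd (nat_lit 78) (nat_lit 0) (nat_lit 0) (XT.lf (nat_lit 0) (nat_lit 1991358776952) (nat_lit 152) (nat_lit 7589492693172) (nat_lit 0) (nat_lit 1990410611801) (nat_lit 1) (nat_lit 5) (nat_lit 3) (nat_lit 4) (nat_lit 1) (nat_lit 4) (nat_lit 286) (nat_lit 201) (nat_lit 173)) (XT.lf (nat_lit 0) (nat_lit 2291078821173) (nat_lit 152) (nat_lit 8725650925179) (nat_lit 0) (nat_lit 2290128135444) (nat_lit 1) (nat_lit 5) (nat_lit 3) (nat_lit 4) (nat_lit 1) (nat_lit 4) (nat_lit 287) (nat_lit 201) (nat_lit 172)))))) (XT.nd (nat_lit 468) (nat_lit 0) (nat_lit 0) (XT.nd (nat_lit 234) (nat_lit 0) (nat_lit 0) (XT.nd (nat_lit 78) (nat_lit 0) (nat_lit 0) (XT.lf (nat_lit 0) (nat_lit 7061111802) (nat_lit 152) (nat_lit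 73944968876) (nat_lit 0) (nat_lit 7061111802) (nat_lit 1) (nat_lit 5) (nat_lit 3) (nat_lit 4) (nat_lit 1) (nat_lit 4) (nat_lit 256) (nat_lit 202) (nat_lit 202)) (XT.nd (nat_lit 78) (nat_lit 0) (nat_lit 0) (XT.lf (nat_lit 0) (nat_lit 19768162827) (nat_lit 152) (nat_lit 162865858184) (nat_lit 0) (nat_lit 19623039390) (nat_lit 1) (nat_lit 5) (nat_lit 3) (nat_lit 4) (nat_lit 1) (nat_lit 4) (nat_lit 257) (nat_lit 202) (nat_lit 201)) (XT.lf (nat_lit 0) (nat_lit 25947033648) (nat_lit 152) (nat_lit 180700667707) (nat_lit 0) (nat_lit 25675715916) (nat_lit 1) (nat_lit 5) (nat_lit 3) (nat_lit 4) (nat_lit 1) (nat_lit 4) (nat_lit 258) (nat_lit 202) (nat_lit 200)))) (XT.nd (nat_lit 78) (nat_lit 0) (nat_lit 0) (XT.lf (nat_lit 0) (nat_lit 32779727017) (nat_lit 152) (nat_lit 201743308249) (nat_lit 0) (nat_lit 32398675118) (nat_lit 1) (nat_lit 5) (nat_lit 3) (nat_lit 4) (nat_lit 1) (nat_lit 4) (nat_lit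 259) (nat_lit 202) (nat_lit 199)) (XT.nd (nat_lit 78) (nat_lit 0) (nat_lit 0) (XT.lf (nat_lit 0) (nat_lit 40399926067) (nat_lit 152) (nat_lit 226405483645) (nat_lit 0) (nat_lit 39923453151) (nat_lit 1) (nat_lit 5) (nat_lit 3) (nat_lit 4) (nat_lit 1) (nat_lit 4) (nat_lit 260) (nat_lit 202) (nat_lit 198)) (XT.lf (nat_lit 0) (nat_lit 48956721648) (nat_lit 152) (nat_lit 255169714718) (nat_lit 0) (nat_lit 48397273936) (nat_lit 1) (nat_lit 5) (nat_lit 3) (nat_lit 4) (nat_lit 1) (nat_lit 4) (nat_lit 261) (nat_lit 202) (nat_lit 197))))) (XT.nd (nat_lit 234) (nat_lit 0) (nat_lit 0) (XT.nd (nat_lit 78) (nat_lit 0) (nat_lit 0) (XT.lf (nat_lit 0) (nat_lit 58617529325) (nat_lit 152) (nat_lit 288598779902) (nat_lit 0) (nat_lit 57985929616) (nat_lit 1) (nat_lit 5) (nat_lit 3) (nat_lit 4) (nat_lit 1) (nat_lit 4) (nat_lit 262) (nat_lit 202) (nat_lit 196)) (XT.nd (nat_lit 78) (nat_lit 0) (nat_lit 0) (XT.lf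 (nat_lit 0) (nat_lit 69571364902) (nat_lit 152) (nat_lit 327346726126) (nat_lit 0) (nat_lit 68877024326) (nat_lit 1) (nat_lit 5) (nat_lit 3) (nat_lit 4) (nat_lit 1) (nat_lit 4) (nat_lit 263) (nat_lit 202) (nat_lit 195)) (XT.lf (nat_lit 0) (nat_lit 82032542552) (nat_lit 152) (nat_lit 372171665380) (nat_lit 0) (nat_lit 81283644701) (nat_lit 1) (nat_lit 5) (nat_lit 3) (nat_lit 4) (nat_lit 1) (nat_lit 4) (nat_lit 264) (nat_lit 202) (nat_lit 194)))) (XT.nd (nat_lit 78) (nat_lit 0) (nat_lit 0) (XT.lf (nat_lit 0) (nat_lit 96244867926) (nat_lit 152) (nat_lit 423950607345) (nat_lit 0) (nat_lit 95448528966) (nat_lit 1) (nat_lit 5) (nat_lit 3) (nat_lit 4) (nat_lit 1) (nat_lit 4) (nat_lit 265) (nat_lit 202) (nat_lit 193)) (XT.nd (nat_lit 78) (nat_lit 0) (nat_lit 0) (XT.lf (nat_lit 0) (nat_lit 112486408259) (nat_lit 152) (nat_lit 483696618277) (nat_lit 0) (nat_lit 111648816160) (nat_lit 1) (nat_lit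 5) (nat_lit 3) (nat_lit 4) (nat_lit 1) (nat_lit 4) (nat_lit 266) (nat_lit 202) (nat_lit 192)) (XT.lf (nat_lit 0) (nat_lit 131074932817) (nat_lit 152) (nat_lit 552578641869) (nat_lit 0) (nat_lit 130201468424) (nat_lit 1) (nat_lit 5) (nat_lit 3) (nat_lit 4) (nat_lit 1) (nat_lit 4) (nat_lit 267) (nat_lit 202) (nat_lit 191))))))) (XT.nd (nat_lit 936) (nat_lit 0) (nat_lit 0) (XT.nd (nat_lit 468) (nat_lit 0) (nat_lit 0) (XT.nd (nat_lit 234) (nat_lit 0) (nat_lit 0) (XT.nd (nat_lit 78) (nat_lit 0) (nat_lit 0) (XT.lf (nat_lit 0) (nat_lit 152374130126) (nat_lit 152) (nat_lit 631944369886) (nat_lit 0) (nat_lit 151469472433) (nat_lit 1) (nat_lit 5) (nat_lit 3) (nat_lit 4) (nat_lit 1) (nat_lit 4) (nat_lit 268) (nat_lit 202) (nat_lit 190)) (XT.nd (nat_lit 78) (nat_lit 0) (nat_lit 0) (XT.lf (nat_lit 0) (nat_lit 176800723610) (nat_lit 152) (nat_lit 723346610050) (nat_lit 0) (nat_lit 175868941310) (nat_lit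 1) (nat_lit 5) (nat_lit 3) (nat_lit 4) (nat_lit 1) (nat_lit 4) (nat_lit 269) (nat_lit 202) (nat_lit 189)) (XT.lf (nat_lit 0) (nat_lit 204832624882) (nat_lit 152) (nat_lit 828573667061) (nat_lit 0) (nat_lit 203877255966) (nat_lit 1) (nat_lit 5) (nat_lit 3) (nat_lit 4) (nat_lit 1) (nat_lit 4) (nat_lit 270) (nat_lit 202) (nat_lit 188)))) (XT.nd (nat_lit 78) (nat_lit 0) (nat_lit 0) (XT.lf (nat_lit 0) (nat_lit 237018284184) (nat_lit 152) (nat_lit 949684331164) (nat_lit 0) (nat_lit 236042405167) (nat_lit 1) (nat_lit 5) (nat_lit 3) (nat_lit 4) (nat_lit 1) (nat_lit 4) (nat_lit 271) (nat_lit 202) (nat_lit 187)) (XT.nd (nat_lit 78) (nat_lit 0) (nat_lit 0) (XT.lf (nat_lit 0) (nat_lit 273987420937) (nat_lit 152) (nat_lit 1089048158830) (nat_lit 0) (nat_lit 272993707049) (nat_lit 1) (nat_lit 5) (nat_lit 3) (nat_lit 4) (nat_lit 1) (nat_lit 4) (nat_lit 272) (nat_lit 202) (nat_lit 186)) (XT.lf (nat_lit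 0) (nat_lit 316463344337) (nat_lit 152) (nat_lit 1249391833644) (nat_lit 0) (nat_lit 315454121867) (nat_lit 1) (nat_lit 5) (nat_lit 3) (nat_lit 4) (nat_lit 1) (nat_lit 4) (nat_lit 273) (nat_lit 202) (nat_lit 185))))) (XT.nd (nat_lit 234) (nat_lit 0) (nat_lit 0) (XT.nd (nat_lit 78) (nat_lit 0) (nat_lit 0) (XT.lf (nat_lit 0) (nat_lit 365277105061) (nat_lit 152) (nat_lit 1433852514462) (nat_lit 0) (nat_lit 364254396867) (nat_lit 1) (nat_lit 5) (nat_lit 3) (nat_lit 4) (nat_lit 1) (nat_lit 4) (nat_lit 274) (nat_lit 202) (nat_lit 184)) (XT.nd (nat_lit 78) (nat_lit 0) (nat_lit 0) (XT.lf (nat_lit 0) (nat_lit 421383754949) (nat_lit 152) (nat_lit 1646039214604) (nat_lit 0) (nat_lit 420349320038) (nat_lit 1) (nat_lit 5) (nat_lit 3) (nat_lit 4) (nat_lit 1) (nat_lit 4) (nat_lit 275) (nat_lit 202) (nat_lit 183)) (XT.lf (nat_lit 0) (nat_lit 485881032802) (nat_lit 152) (nat_lit 1890103412986) (nat_lit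 0) (nat_lit 484836400747) (nat_lit 1) (nat_lit 5) (nat_lit 3) (nat_lit 4) (nat_lit 1) (nat_lit 4) (nat_lit 276) (nat_lit 202) (nat_lit 182)))) (XT.nd (nat_lit 78) (nat_lit 0) (nat_lit 0) (XT.lf (nat_lit 0) (nat_lit 560030841884) (nat_lit 152) (nat_lit 2170820278706) (nat_lit 0) (nat_lit 558977342746) (nat_lit 1) (nat_lit 5) (nat_lit 3) (nat_lit 4) (nat_lit 1) (nat_lit 4) (nat_lit 277) (nat_lit 202) (nat_lit 181)) (XT.nd (nat_lit 78) (nat_lit 0) (nat_lit 0) (XT.lf (nat_lit 0) (nat_lit 645283939328) (nat_lit 152) (nat_lit 2493682098267) (nat_lit 0) (nat_lit 644222729683) (nat_lit 1) (nat_lit 5) (nat_lit 3) (nat_lit 4) (nat_lit 1) (nat_lit 4) (nat_lit 278) (nat_lit 202) (nat_lit 180)) (XT.lf (nat_lit 0) (nat_lit 743308320519) (nat_lit 152) (nat_lit 2865005733358) (nat_lit 0) (nat_lit 742240406086) (nat_lit 1) (nat_lit 5) (nat_lit 3) (nat_lit 4) (nat_lit 1) (nat_lit 4) (nat_lit 279) (nat_lit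 202) (nat_lit 179)))))) (XT.nd (nat_lit 468) (nat_lit 0) (nat_lit 0) (XT.nd (nat_lit 234) (nat_lit 0) (nat_lit 0) (XT.nd (nat_lit 78) (nat_lit 0) (nat_lit 0) (XT.lf (nat_lit 0) (nat_lit 856021853784) (nat_lit 152) (nat_lit 3292056211620) (nat_lit 0) (nat_lit 854948109101) (nat_lit 1) (nat_lit 5) (nat_lit 3) (nat_lit 4) (nat_lit 1) (nat_lit 4) (nat_lit 280) (nat_lit 202) (nat_lit 178)) (XT.nd (nat_lit 78) (nat_lit 0) (nat_lit 0) (XT.lf (nat_lit 0) (nat_lit 985629803906) (nat_lit 152) (nat_lit 3783188868498) (nat_lit 0) (nat_lit 984550989439) (nat_lit 1) (nat_lit 5) (nat_lit 3) (nat_lit 4) (nat_lit 1) (nat_lit 4) (nat_lit 281) (nat_lit 202) (nat_lit 177)) (XT.lf (nat_lit 0) (nat_lit 1134667978604) (nat_lit 152) (nat_lit 4348012821192) (nat_lit 0) (nat_lit 1133584755630) (nat_lit 1) (nat_lit 5) (nat_lit 3) (nat_lit 4) (nat_lit 1) (nat_lit 4) (nat_lit 282) (nat_lit 202) (nat_lit 176)))) (XT.nd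 (nat_lit 78) (nat_lit 0) (nat_lit 0) (XT.lf (nat_lit 0) (nat_lit 1306052342165) (nat_lit 152) (nat_lit 4997578973124) (nat_lit 0) (nat_lit 1304965285706) (nat_lit 1) (nat_lit 5) (nat_lit 3) (nat_lit 4) (nat_lit 1) (nat_lit 4) (nat_lit 283) (nat_lit 202) (nat_lit 175)) (XT.nd (nat_lit 78) (nat_lit 0) (nat_lit 0) (XT.lf (nat_lit 0) (nat_lit 1503136066919) (nat_lit 152) (nat_lit 5744596227267) (nat_lit 0) (nat_lit 1502045676996) (nat_lit 1) (nat_lit 5) (nat_lit 3) (nat_lit 4) (nat_lit 1) (nat_lit 4) (nat_lit 284) (nat_lit 202) (nat_lit 174)) (XT.lf (nat_lit 0) (nat_lit 1729775138787) (nat_lit 152) (nat_lit 6603680138592) (nat_lit 0) (nat_lit 1728681850199) (nat_lit 1) (nat_lit 5) (nat_lit 3) (nat_lit 4) (nat_lit 1) (nat_lit 4) (nat_lit 285) (nat_lit 202) (nat_lit 173))))) (XT.nd (nat_lit 31980) (nat_lit 0) (nat_lit 0) (XT.nd (nat_lit 78) (nat_lit 0) (nat_lit 0) (XT.lf (nat_lit 0) (nat_lit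 1990403800479) (nat_lit 152) (nat_lit 7591638870584) (nat_lit 0) (nat_lit 1989307991312) (nat_lit 1) (nat_lit 5) (nat_lit 3) (nat_lit 4) (nat_lit 1) (nat_lit 4) (nat_lit 286) (nat_lit 202) (nat_lit 172)) (XT.nd (nat_lit 31824) (nat_lit 0) (nat_lit 0) (XT.lf (nat_lit 0) (nat_lit 2290121308418) (nat_lit 152) (nat_lit 8727802050605) (nat_lit 0) (nat_lit 2289023307444) (nat_lit 1) (nat_lit 5) (nat_lit 3) (nat_lit 4) (nat_lit 1) (nat_lit 4) (nat_lit 287) (nat_lit 202) (nat_lit 171)) (XT.lf (nat_lit 0) (nat_lit 2177781466) (nat_lit 152) (nat_lit 62508089148) (nat_lit 0) (nat_lit 2177781466) (nat_lit 1) (nat_lit 5) (nat_lit 3) (nat_lit 4) (nat_lit 1) (nat_lit 4) (nat_lit 254) (nat_lit 203) (nat_lit 203)))) (XT.nd (nat_lit 78) (nat_lit 0) (nat_lit 0) (XT.lf (nat_lit 0) (nat_lit 9065643906) (nat_lit 152) (nat_lit 135479899275) (nat_lit 0) (nat_lit 8898751952) (nat_lit 1) (nat_lit 5) (nat_lit 3)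 (nat_lit 4) (nat_lit 1) (nat_lit 4) (nat_lit 255) (nat_lit 203) (nat_lit 202)) (XT.nd (nat_lit 78) (nat_lit 0) (nat_lit 0) (XT.lf (nat_lit 0) (nat_lit 14121183847) (nat_lit 152) (nat_lit 148217554581) (nat_lit 0) (nat_lit 13809168457) (nat_lit 1) (nat_lit 5) (nat_lit 3) (nat_lit 4) (nat_lit 1) (nat_lit 4) (nat_lit 256) (nat_lit 203) (nat_lit 201)) (XT.lf (nat_lit 0) (nat_lit 19621095495) (nat_lit 152) (nat_lit 163478359211) (nat_lit 0) (nat_lit 19182885811) (nat_lit 1) (nat_lit 5) (nat_lit 3) (nat_lit 4) (nat_lit 1) (nat_lit 4) (nat_lit 257) (nat_lit 203) (nat_lit 200))))))))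
noncomputable def xc6 : XT := (XT.nd (nat_lit 1872) (nat_lit 0) (nat_lit 0) (XT.nd (nat_lit 936) (nat_lit 0) (nat_lit 0) (XT.nd (nat_lit 468) (nat_lit 0) (nat_lit 0) (XT.nd (nat_lit 234) (nat_lit 0) (nat_lit 0) (XT.nd (nat_lit 78) (nat_lit 0) (nat_lit 0) (XT.lf (nat_lit 0) (nat_lit 25672985816) (nat_lit 152) (nat_lit 181560894125) (nat_lit 0) (nat_lit 25125041963) (nat_lit 1) (nat_lit 5) (nat_lit 3) (nat_lit 4) (nat_lit 1) (nat_lit 4) (nat_lit 258) (nat_lit 203) (nat_lit 199)) (XT.nd (nat_lit 78) (nat_lit 0) (nat_lit 0) (XT.lf (nat_lit 0) (nat_lit 32395261360) (nat_lit 152) (nat_lit 202818948050) (nat_lit 0) (nat_lit 31751896491) (nat_lit 1) (nat_lit 5) (nat_lit 3) (nat_lit 4) (nat_lit 1) (nat_lit 4) (nat_lit 259) (nat_lit 203) (nat_lit 198)) (XT.lf (nat_lit 0) (nat_lit 39919444909) (nat_lit 152) (nat_lit 227668439431) (nat_lit 0) (nat_lit 39193105244) (nat_lit 1) (nat_lit 5) (nat_lit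 3) (nat_lit 4) (nat_lit 1) (nat_lit 4) (nat_lit 260) (nat_lit 203) (nat_lit 197)))) (XT.nd (nat_lit 78) (nat_lit 0) (nat_lit 0) (XT.lf (nat_lit 0) (nat_lit 48392748750) (nat_lit 152) (nat_lit 256595553969) (nat_lit 0) (nat_lit 47594257088) (nat_lit 1) (nat_lit 5) (nat_lit 3) (nat_lit 4) (nat_lit 1) (nat_lit 4) (nat_lit 261) (nat_lit 203) (nat_lit 196)) (XT.nd (nat_lit 78) (nat_lit 0) (nat_lit 0) (XT.lf (nat_lit 0) (nat_lit 57980954915) (nat_lit 152) (nat_lit 290166256950) (nat_lit 0) (nat_lit 57119722386) (nat_lit 1) (nat_lit 5) (nat_lit 3) (nat_lit 4) (nat_lit 1) (nat_lit 4) (nat_lit 262) (nat_lit 203) (nat_lit 195)) (XT.lf (nat_lit 0) (nat_lit 68871658742) (nat_lit 152) (nat_lit 329037366474) (nat_lit 0) (nat_lit 67955868937) (nat_lit 1) (nat_lit 5) (nat_lit 3) (nat_lit 4) (nat_lit 1) (nat_lit 4) (nat_lit 263) (nat_lit 203) (nat_lit 194))))) (XT.nd (nat_lit 234) (nat_lit 0) (nat_lit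 0) (XT.nd (nat_lit 78) (nat_lit 0) (nat_lit 0) (XT.lf (nat_lit 0) (nat_lit 81277939218) (nat_lit 152) (nat_lit 373969404250) (nat_lit 0) (nat_lit 80314708304) (nat_lit 1) (nat_lit 5) (nat_lit 3) (nat_lit 4) (nat_lit 1) (nat_lit 4) (nat_lit 264) (nat_lit 203) (nat_lit 193)) (XT.nd (nat_lit 78) (nat_lit 0) (nat_lit 0) (XT.lf (nat_lit 0) (nat_lit 95442527918) (nat_lit 152) (nat_lit 425841475365) (nat_lit 0) (nat_lit 94438043866) (nat_lit 1) (nat_lit 5) (nat_lit 3) (nat_lit 4) (nat_lit 1) (nat_lit 4) (nat_lit 265) (nat_lit 203) (nat_lit 192)) (XT.lf (nat_lit 0) (nat_lit 111642558100) (nat_lit 152) (nat_lit 485668468167) (nat_lit 0) (nat_lit 110602201754) (nat_lit 1) (nat_lit 5) (nat_lit 3) (nat_lit 4) (nat_lit 1) (nat_lit 4) (nat_lit 266) (nat_lit 203) (nat_lit 191)))) (XT.nd (nat_lit 78) (nat_lit 0) (nat_lit 0) (XT.lf (nat_lit 0) (nat_lit 130194986876) (nat_lit 152) (nat_lit 554620910776)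 (nat_lit 0) (nat_lit 129123437230) (nat_lit 1) (nat_lit 5) (nat_lit 3) (nat_lit 4) (nat_lit 1) (nat_lit 4) (nat_lit 267) (nat_lit 203) (nat_lit 190)) (XT.nd (nat_lit 78) (nat_lit 0) (nat_lit 0) (XT.lf (nat_lit 0) (nat_lit 151462796547) (nat_lit 152) (nat_lit 634047872721) (nat_lit 0) (nat_lit 150364122293) (nat_lit 1) (nat_lit 5) (nat_lit 3) (nat_lit 4) (nat_lit 1) (nat_lit 4) (nat_lit 268) (nat_lit 203) (nat_lit 189)) (XT.lf (nat_lit 0) (nat_lit 175862096434) (nat_lit 152) (nat_lit 725503359779) (nat_lit 0) (nat_lit 174739835564) (nat_lit 1) (nat_lit 5) (nat_lit 3) (nat_lit 4) (nat_lit 1) (nat_lit 4) (nat_lit 269) (nat_lit 203) (nat_lit 188)))))) (XT.nd (nat_lit 468) (nat_lit 0) (nat_lit 0) (XT.nd (nat_lit 234) (nat_lit 0) (nat_lit 0) (XT.nd (nat_lit 78) (nat_lit 0) (nat_lit 0) (XT.lf (nat_lit 0) (nat_lit 203870264143) (nat_lit 152) (nat_lit 830776718436) (nat_lit 0) (nat_lit 202727493172)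 (nat_lit 1) (nat_lit 5) (nat_lit 3) (nat_lit 4) (nat_lit 1) (nat_lit 4) (nat_lit 270) (nat_lit 203) (nat_lit 187)) (XT.nd (nat_lit 78) (nat_lit 0) (nat_lit 0) (XT.lf (nat_lit 0) (nat_lit 236035285563) (nat_lit 152) (nat_lit 951927644840) (nat_lit 0) (nat_lit 234874679723) (nat_lit 1) (nat_lit 5) (nat_lit 3) (nat_lit 4) (nat_lit 1) (nat_lit 4) (nat_lit 271) (nat_lit 203) (nat_lit 186)) (XT.lf (nat_lit 0) (nat_lit 272986476332) (nat_lit 152) (nat_lit 1091326483203) (nat_lit 0) (nat_lit 271810361909) (nat_lit 1) (nat_lit 5) (nat_lit 3) (nat_lit 4) (nat_lit 1) (nat_lit 4) (nat_lit 272) (nat_lit 203) (nat_lit 185)))) (XT.nd (nat_lit 78) (nat_lit 0) (nat_lit 0) (XT.lf (nat_lit 0) (nat_lit 315446794530) (nat_lit 152) (nat_lit 1251700602102) (nat_lit 0) (nat_lit 314257194382) (nat_lit 1) (nat_lit 5) (nat_lit 3) (nat_lit 4) (nat_lit 1) (nat_lit 4) (nat_lit 273) (nat_lit 203) (nat_lit 184)) (XT.nd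 (nat_lit 78) (nat_lit 0) (nat_lit 0) (XT.lf (nat_lit 0) (nat_lit 364246985512) (nat_lit 152) (nat_lit 1436187756037) (nat_lit 0) (nat_lit 363045658648) (nat_lit 1) (nat_lit 5) (nat_lit 3) (nat_lit 4) (nat_lit 1) (nat_lit 4) (nat_lit 274) (nat_lit 203) (nat_lit 183)) (XT.lf (nat_lit 0) (nat_lit 420341835624) (nat_lit 152) (nat_lit 1648397476281) (nat_lit 0) (nat_lit 419130311615) (nat_lit 1) (nat_lit 5) (nat_lit 3) (nat_lit 4) (nat_lit 1) (nat_lit 4) (nat_lit 275) (nat_lit 203) (nat_lit 182))))) (XT.nd (nat_lit 234) (nat_lit 0) (nat_lit 0) (XT.nd (nat_lit 78) (nat_lit 0) (nat_lit 0) (XT.lf (nat_lit 0) (nat_lit 484828852803) (nat_lit 152) (nat_lit 1892481692142) (nat_lit 0) (nat_lit 483608461711) (nat_lit 1) (nat_lit 5) (nat_lit 3) (nat_lit 4) (nat_lit 1) (nat_lit 4) (nat_lit 276) (nat_lit 203) (nat_lit 181)) (XT.nd (nat_lit 78) (nat_lit 0) (nat_lit 0) (XT.lf (nat_lit 0) (nat_lit 558969739559)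 (nat_lit 152) (nat_lit 2173215964366) (nat_lit 0) (nat_lit 557741637961) (nat_lit 1) (nat_lit 5) (nat_lit 3) (nat_lit 4) (nat_lit 1) (nat_lit 4) (nat_lit 277) (nat_lit 203) (nat_lit 180)) (XT.lf (nat_lit 0) (nat_lit 644215078459) (nat_lit 152) (nat_lit 2496092920018) (nat_lit 0) (nat_lit 642980272072) (nat_lit 1) (nat_lit 5) (nat_lit 3) (nat_lit 4) (nat_lit 1) (nat_lit 4) (nat_lit 278) (nat_lit 203) (nat_lit 179)))) (XT.nd (nat_lit 78) (nat_lit 0) (nat_lit 0) (XT.lf (nat_lit 0) (nat_lit 742232713090) (nat_lit 152) (nat_lit 2867429716926) (nat_lit 0) (nat_lit 740992076453) (nat_lit 1) (nat_lit 5) (nat_lit 3) (nat_lit 4) (nat_lit 1) (nat_lit 4) (nat_lit 279) (nat_lit 203) (nat_lit 178)) (XT.nd (nat_lit 78) (nat_lit 0) (nat_lit 0) (XT.lf (nat_lit 0) (nat_lit 854940379782) (nat_lit 152) (nat_lit 3294491640247) (nat_lit 0) (nat_lit 853694673361) (nat_lit 1) (nat_lit 5) (nat_lit 3) (nat_lit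 4) (nat_lit 1) (nat_lit 4) (nat_lit 280) (nat_lit 203) (nat_lit 177)) (XT.lf (nat_lit 0) (nat_lit 984543228535) (nat_lit 152) (nat_lit 3785634249350) (nat_lit 0) (nat_lit 983293113607) (nat_lit 1) (nat_lit 5) (nat_lit 3) (nat_lit 4) (nat_lit 1) (nat_lit 4) (nat_lit 281) (nat_lit 203) (nat_lit 176))))))) (XT.nd (nat_lit 32526) (nat_lit 0) (nat_lit 0) (XT.nd (nat_lit 32058) (nat_lit 0) (nat_lit 0) (XT.nd (nat_lit 234) (nat_lit 0) (nat_lit 0) (XT.nd (nat_lit 78) (nat_lit 0) (nat_lit 0) (XT.lf (nat_lit 0) (nat_lit 1133576967260) (nat_lit 152) (nat_lit 4350466856153) (nat_lit 0) (nat_lit 1132323018848) (nat_lit 1) (nat_lit 5) (nat_lit 3) (nat_lit 4) (nat_lit 1) (nat_lit 4) (nat_lit 282) (nat_lit 203) (nat_lit 175)) (XT.nd (nat_lit 78) (nat_lit 0) (nat_lit 0) (XT.lf (nat_lit 0) (nat_lit 1304957473453) (nat_lit 152) (nat_lit 5000040533397) (nat_lit 0) (nat_lit 1303700191576) (nat_lit 1) (nat_lit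 5) (nat_lit 3) (nat_lit 4) (nat_lit 1) (nat_lit 4) (nat_lit 283) (nat_lit 203) (nat_lit 174)) (XT.lf (nat_lit 0) (nat_lit 1502037843975) (nat_lit 152) (nat_lit 5747064331289) (nat_lit 0) (nat_lit 1500777663434) (nat_lit 1) (nat_lit 5) (nat_lit 3) (nat_lit 4) (nat_lit 1) (nat_lit 4) (nat_lit 284) (nat_lit 203) (nat_lit 173)))) (XT.nd (nat_lit 78) (nat_lit 0) (nat_lit 0) (XT.lf (nat_lit 0) (nat_lit 1728673999119) (nat_lit 152) (nat_lit 6606153932832) (nat_lit 0) (nat_lit 1727411297999) (nat_lit 1) (nat_lit 5) (nat_lit 3) (nat_lit 4) (nat_lit 1) (nat_lit 4) (nat_lit 285) (nat_lit 203) (nat_lit 172)) (XT.nd (nat_lit 78) (nat_lit 0) (nat_lit 0) (XT.lf (nat_lit 0) (nat_lit 1989300124529) (nat_lit 152) (nat_lit 7594117612838) (nat_lit 0) (nat_lit 1988035231602) (nat_lit 1) (nat_lit 5) (nat_lit 3) (nat_lit 4) (nat_lit 1) (nat_lit 4) (nat_lit 286) (nat_lit 203) (nat_lit 171)) (XT.lf (nat_lit 0)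 (nat_lit 2289015427006) (nat_lit 152) (nat_lit 8730285095482) (nat_lit 0) (nat_lit 2287748628159) (nat_lit 1) (nat_lit 5) (nat_lit 3) (nat_lit 4) (nat_lit 1) (nat_lit 4) (nat_lit 287) (nat_lit 203) (nat_lit 170))))) (XT.nd (nat_lit 234) (nat_lit 0) (nat_lit 0) (XT.nd (nat_lit 78) (nat_lit 152) (nat_lit 0) (XT.lf (nat_lit 0) (nat_lit 46978883234) (nat_lit 76) (nat_lit 1938580138) (nat_lit 76) (nat_lit 1938580138) (nat_lit 3) (nat_lit 4) (nat_lit 4) (nat_lit 5) (nat_lit 4) (nat_lit 4) (nat_lit 252) (nat_lit 204) (nat_lit 204)) (XT.nd (nat_lit 78) (nat_lit 76) (nat_lit 0) (XT.lf (nat_lit 0) (nat_lit 93594343) (nat_lit 152) (nat_lit 12603572) (nat_lit 76) (nat_lit 116504738325) (nat_lit 2) (nat_lit 5) (nat_lit 4) (nat_lit 5) (nat_lit 3) (nat_lit 4) (nat_lit 253) (nat_lit 204) (nat_lit 203)) (XT.lf (nat_lit 0) (nat_lit 4354367211) (nat_lit 152) (nat_lit 125392937649) (nat_lit 0) (nat_lit 3995549512)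 (nat_lit 1) (nat_lit 5) (nat_lit 3) (nat_lit 4) (nat_lit 1) (nat_lit 4) (nat_lit 254) (nat_lit 204) (nat_lit 202)))) (XT.nd (nat_lit 78) (nat_lit 0) (nat_lit 0) (XT.lf (nat_lit 0) (nat_lit 8896516474) (nat_lit 152) (nat_lit 136184275456) (nat_lit 0) (nat_lit 8392575337) (nat_lit 1) (nat_lit 5) (nat_lit 3) (nat_lit 4) (nat_lit 1) (nat_lit 4) (nat_lit 255) (nat_lit 204) (nat_lit 201)) (XT.nd (nat_lit 78) (nat_lit 0) (nat_lit 0) (XT.lf (nat_lit 0) (nat_lit 13806028841) (nat_lit 152) (nat_lit 149206814962) (nat_lit 0) (nat_lit 13175893411) (nat_lit 1) (nat_lit 5) (nat_lit 3) (nat_lit 4) (nat_lit 1) (nat_lit 4) (nat_lit 256) (nat_lit 204) (nat_lit 200)) (XT.lf (nat_lit 0) (nat_lit 19178959989) (nat_lit 152) (nat_lit 164715344982) (nat_lit 0) (nat_lit 18439090390) (nat_lit 1) (nat_lit 5) (nat_lit 3) (nat_lit 4) (nat_lit 1) (nat_lit 4) (nat_lit 257) (nat_lit 204) (nat_lit 199)))))) (XT.nd (nat_lit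 468) (nat_lit 0) (nat_lit 0) (XT.nd (nat_lit 234) (nat_lit 0) (nat_lit 0) (XT.nd (nat_lit 78) (nat_lit 0) (nat_lit 0) (XT.lf (nat_lit 0) (nat_lit 25120432485) (nat_lit 152) (nat_lit 183013293279) (nat_lit 0) (nat_lit 24285141870) (nat_lit 1) (nat_lit 5) (nat_lit 3) (nat_lit 4) (nat_lit 1) (nat_lit 4) (nat_lit 258) (nat_lit 204) (nat_lit 198)) (XT.nd (nat_lit 78) (nat_lit 0) (nat_lit 0) (XT.lf (nat_lit 0) (nat_lit 31746692528) (nat_lit 152) (nat_lit 204458663189) (nat_lit 0) (nat_lit 30828427116) (nat_lit 1) (nat_lit 5) (nat_lit 3) (nat_lit 4) (nat_lit 1) (nat_lit 4) (nat_lit 259) (nat_lit 204) (nat_lit 197)) (XT.lf (nat_lit 0) (nat_lit 39187384337) (nat_lit 152) (nat_lit 229471038035) (nat_lit 0) (nat_lit 38196966929) (nat_lit 1) (nat_lit 5) (nat_lit 3) (nat_lit 4) (nat_lit 1) (nat_lit 4) (nat_lit 260) (nat_lit 204) (nat_lit 196)))) (XT.nd (nat_lit 78) (nat_lit 0) (nat_lit 0) (XT.lf (nat_lit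 0) (nat_lit 47588086666) (nat_lit 152) (nat_lit 258539790369) (nat_lit 0) (nat_lit 46534928390) (nat_lit 1) (nat_lit 5) (nat_lit 3) (nat_lit 4) (nat_lit 1) (nat_lit 4) (nat_lit 261) (nat_lit 204) (nat_lit 195)) (XT.nd (nat_lit 78) (nat_lit 0) (nat_lit 0) (XT.lf (nat_lit 0) (nat_lit 57113161080) (nat_lit 152) (nat_lit 292233656651) (nat_lit 0) (nat_lit 56005445529) (nat_lit 1) (nat_lit 5) (nat_lit 3) (nat_lit 4) (nat_lit 1) (nat_lit 4) (nat_lit 262) (nat_lit 204) (nat_lit 194)) (XT.lf (nat_lit 0) (nat_lit 67948967733) (nat_lit 152) (nat_lit 331211864697) (nat_lit 0) (nat_lit 66793811073) (nat_lit 1) (nat_lit 5) (nat_lit 3) (nat_lit 4) (nat_lit 1) (nat_lit 4) (nat_lit 263) (nat_lit 204) (nat_lit 193))))) (XT.nd (nat_lit 234) (nat_lit 0) (nat_lit 0) (XT.nd (nat_lit 78) (nat_lit 0) (nat_lit 0) (XT.lf (nat_lit 0) (nat_lit 80307511536) (nat_lit 152) (nat_lit 376237031624) (nat_lit 0) (nat_lit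 79111101738) (nat_lit 1) (nat_lit 5) (nat_lit 3) (nat_lit 4) (nat_lit 1) (nat_lit 4) (nat_lit 264) (nat_lit 204) (nat_lit 192)) (XT.nd (nat_lit 78) (nat_lit 0) (nat_lit 0) (XT.lf (nat_lit 0) (nat_lit 94430590086) (nat_lit 152) (nat_lit 428190084608) (nat_lit 0) (nat_lit 93198307993) (nat_lit 1) (nat_lit 5) (nat_lit 3) (nat_lit 4) (nat_lit 1) (nat_lit 4) (nat_lit 265) (nat_lit 204) (nat_lit 191)) (XT.lf (nat_lit 0) (nat_lit 110594524485) (nat_lit 152) (nat_lit 488087496427) (nat_lit 0) (nat_lit 109331049093) (nat_lit 1) (nat_lit 5) (nat_lit 3) (nat_lit 4) (nat_lit 1) (nat_lit 4) (nat_lit 266) (nat_lit 204) (nat_lit 190)))) (XT.nd (nat_lit 78) (nat_lit 0) (nat_lit 0) (XT.lf (nat_lit 0) (nat_lit 129115565623) (nat_lit 152) (nat_lit 557101172964) (nat_lit 0) (nat_lit 127824965623) (nat_lit 1) (nat_lit 5) (nat_lit 3) (nat_lit 4) (nat_lit 1) (nat_lit 4) (nat_lit 267) (nat_lit 204) (nat_lit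 189)) (XT.nd (nat_lit 78) (nat_lit 0) (nat_lit 0) (XT.lf (nat_lit 0) (nat_lit 150356081696) (nat_lit 152) (nat_lit 636581381802) (nat_lit 0) (nat_lit 149041895080) (nat_lit 1) (nat_lit 5) (nat_lit 3) (nat_lit 4) (nat_lit 1) (nat_lit 4) (nat_lit 268) (nat_lit 204) (nat_lit 188)) (XT.lf (nat_lit 0) (nat_lit 174731648020) (nat_lit 152) (nat_lit 728083170507) (nat_lit 0) (nat_lit 173396951303) (nat_lit 1) (nat_lit 5) (nat_lit 3) (nat_lit 4) (nat_lit 1) (nat_lit 4) (nat_lit 269) (nat_lit 204) (nat_lit 187))))))))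
noncomputable def xc7 : XT := (XT.nd (nat_lit 33306) (nat_lit 0) (nat_lit 0) (XT.nd (nat_lit 936) (nat_lit 0) (nat_lit 0) (XT.nd (nat_lit 468) (nat_lit 0) (nat_lit 0) (XT.nd (nat_lit 234) (nat_lit 0) (nat_lit 0) (XT.nd (nat_lit 78) (nat_lit 0) (nat_lit 0) (XT.lf (nat_lit 0) (nat_lit 202719177847) (nat_lit 152) (nat_lit 833396791466) (nat_lit 0) (nat_lit 201366646260) (nat_lit 1) (nat_lit 5) (nat_lit 3) (nat_lit 4) (nat_lit 1) (nat_lit 4) (nat_lit 270) (nat_lit 204) (nat_lit 186)) (XT.nd (nat_lit 78) (nat_lit 0) (nat_lit 0) (XT.lf (nat_lit 0) (nat_lit 234866253284) (nat_lit 152) (nat_lit 954582728567) (nat_lit 0) (nat_lit 233498213115) (nat_lit 1) (nat_lit 5) (nat_lit 3) (nat_lit 4) (nat_lit 1) (nat_lit 4) (nat_lit 271) (nat_lit 204) (nat_lit 185)) (XT.lf (nat_lit 0) (nat_lit 271801838850) (nat_lit 152) (nat_lit 1094012011014) (nat_lit 0) (nat_lit 270420312956) (nat_lit 1) (nat_lit 5)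 (nat_lit 3) (nat_lit 4) (nat_lit 1) (nat_lit 4) (nat_lit 272) (nat_lit 204) (nat_lit 184)))) (XT.nd (nat_lit 78) (nat_lit 0) (nat_lit 0) (XT.lf (nat_lit 0) (nat_lit 314248587306) (nat_lit 152) (nat_lit 1254412603030) (nat_lit 0) (nat_lit 312855334695) (nat_lit 1) (nat_lit 5) (nat_lit 3) (nat_lit 4) (nat_lit 1) (nat_lit 4) (nat_lit 273) (nat_lit 204) (nat_lit 183)) (XT.nd (nat_lit 78) (nat_lit 0) (nat_lit 0) (XT.lf (nat_lit 0) (nat_lit 363036978512) (nat_lit 152) (nat_lit 1438922777067) (nat_lit 0) (nat_lit 361633528757) (nat_lit 1) (nat_lit 5) (nat_lit 3) (nat_lit 4) (nat_lit 1) (nat_lit 4) (nat_lit 274) (nat_lit 204) (nat_lit 182)) (XT.lf (nat_lit 0) (nat_lit 419121567950) (nat_lit 152) (nat_lit 1651152514790) (nat_lit 0) (nat_lit 417709251112) (nat_lit 1) (nat_lit 5) (nat_lit 3) (nat_lit 4) (nat_lit 1) (nat_lit 4) (nat_lit 275) (nat_lit 204) (nat_lit 181))))) (XT.nd (nat_lit 234) (nat_lit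 0) (nat_lit 0) (XT.nd (nat_lit 78) (nat_lit 0) (nat_lit 0) (XT.lf (nat_lit 0) (nat_lit 483599662804) (nat_lit 152) (nat_lit 1895254137155) (nat_lit 0) (nat_lit 482179635459) (nat_lit 1) (nat_lit 5) (nat_lit 3) (nat_lit 4) (nat_lit 1) (nat_lit 4) (nat_lit 276) (nat_lit 204) (nat_lit 180)) (XT.nd (nat_lit 78) (nat_lit 0) (nat_lit 0) (XT.lf (nat_lit 0) (nat_lit 557732791016) (nat_lit 152) (nat_lit 2176003545469) (nat_lit 0) (nat_lit 556306058883) (nat_lit 1) (nat_lit 5) (nat_lit 3) (nat_lit 4) (nat_lit 1) (nat_lit 4) (nat_lit 277) (nat_lit 204) (nat_lit 179)) (XT.lf (nat_lit 0) (nat_lit 642971383356) (nat_lit 152) (nat_lit 2498893662939) (nat_lit 0) (nat_lit 641538820972) (nat_lit 1) (nat_lit 5) (nat_lit 3) (nat_lit 4) (nat_lit 1) (nat_lit 4) (nat_lit 278) (nat_lit 204) (nat_lit 178)))) (XT.nd (nat_lit 78) (nat_lit 0) (nat_lit 0) (XT.lf (nat_lit 0) (nat_lit 740983151413) (nat_lit 152) (nat_lit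 2870241904906) (nat_lit 0) (nat_lit 739545519246) (nat_lit 1) (nat_lit 5) (nat_lit 3) (nat_lit 4) (nat_lit 1) (nat_lit 4) (nat_lit 279) (nat_lit 204) (nat_lit 177)) (XT.nd (nat_lit 78) (nat_lit 0) (nat_lit 0) (XT.lf (nat_lit 0) (nat_lit 853685716736) (nat_lit 152) (nat_lit 3297313780452) (nat_lit 0) (nat_lit 852243676062) (nat_lit 1) (nat_lit 5) (nat_lit 3) (nat_lit 4) (nat_lit 1) (nat_lit 4) (nat_lit 280) (nat_lit 204) (nat_lit 176)) (XT.lf (nat_lit 0) (nat_lit 983284129516) (nat_lit 152) (nat_lit 3788465043664) (nat_lit 0) (nat_lit 981838255358) (nat_lit 1) (nat_lit 5) (nat_lit 3) (nat_lit 4) (nat_lit 1) (nat_lit 4) (nat_lit 281) (nat_lit 204) (nat_lit 175)))))) (XT.nd (nat_lit 31902) (nat_lit 0) (nat_lit 0) (XT.nd (nat_lit 234) (nat_lit 0) (nat_lit 0) (XT.nd (nat_lit 78) (nat_lit 0) (nat_lit 0) (XT.lf (nat_lit 0) (nat_lit 1132314010874) (nat_lit 152) (nat_lit 4353305175779) (nat_lit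 0) (nat_lit 1130864803251) (nat_lit 1) (nat_lit 5) (nat_lit 3) (nat_lit 4) (nat_lit 1) (nat_lit 4) (nat_lit 282) (nat_lit 204) (nat_lit 174)) (XT.nd (nat_lit 78) (nat_lit 0) (nat_lit 0) (XT.lf (nat_lit 0) (nat_lit 1303691162835) (nat_lit 152) (nat_lit 5002885396773) (nat_lit 0) (nat_lit 1302239056547) (nat_lit 1) (nat_lit 5) (nat_lit 3) (nat_lit 4) (nat_lit 1) (nat_lit 4) (nat_lit 283) (nat_lit 204) (nat_lit 173)) (XT.lf (nat_lit 0) (nat_lit 1500768616633) (nat_lit 152) (nat_lit 5749914884882) (nat_lit 0) (nat_lit 1499313989767) (nat_lit 1) (nat_lit 5) (nat_lit 3) (nat_lit 4) (nat_lit 1) (nat_lit 4) (nat_lit 284) (nat_lit 204) (nat_lit 172)))) (XT.nd (nat_lit 78) (nat_lit 0) (nat_lit 0) (XT.lf (nat_lit 0) (nat_lit 1727402235495) (nat_lit 152) (nat_lit 6609009434440) (nat_lit 0) (nat_lit 1725945416821) (nat_lit 1) (nat_lit 5) (nat_lit 3) (nat_lit 4) (nat_lit 1) (nat_lit 4) (nat_lit 285)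 (nat_lit 204) (nat_lit 171)) (XT.nd (nat_lit 78) (nat_lit 0) (nat_lit 0) (XT.lf (nat_lit 0) (nat_lit 1988026155442) (nat_lit 152) (nat_lit 7596977417068) (nat_lit 0) (nat_lit 1986567430849) (nat_lit 1) (nat_lit 5) (nat_lit 3) (nat_lit 4) (nat_lit 1) (nat_lit 4) (nat_lit 286) (nat_lit 204) (nat_lit 170)) (XT.lf (nat_lit 0) (nat_lit 2287739540125) (nat_lit 152) (nat_lit 8733148641121) (nat_lit 0) (nat_lit 2286279158212) (nat_lit 1) (nat_lit 5) (nat_lit 3) (nat_lit 4) (nat_lit 1) (nat_lit 4) (nat_lit 287) (nat_lit 204) (nat_lit 169))))) (XT.nd (nat_lit 234) (nat_lit 152) (nat_lit 0) (XT.nd (nat_lit 78) (nat_lit 0) (nat_lit 0) (XT.lf (nat_lit 0) (nat_lit 27699859949) (nat_lit 76) (nat_lit 5540992913) (nat_lit 76) (nat_lit 5540992913) (nat_lit 3) (nat_lit 4) (nat_lit 4) (nat_lit 5) (nat_lit 4) (nat_lit 4) (nat_lit 250) (nat_lit 205) (nat_lit 205)) (XT.nd (nat_lit 78) (nat_lit 0) (nat_lit 0)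 (XT.lf (nat_lit 0) (nat_lit 73541557188) (nat_lit 76) (nat_lit 7741809728) (nat_lit 76) (nat_lit 7503437951) (nat_lit 3) (nat_lit 4) (nat_lit 4) (nat_lit 5) (nat_lit 4) (nat_lit 4) (nat_lit 251) (nat_lit 205) (nat_lit 204)) (XT.lf (nat_lit 0) (nat_lit 93569154637) (nat_lit 76) (nat_lit 4302423216) (nat_lit 76) (nat_lit 3856771633) (nat_lit 3) (nat_lit 4) (nat_lit 4) (nat_lit 5) (nat_lit 4) (nat_lit 4) (nat_lit 252) (nat_lit 205) (nat_lit 203)))) (XT.nd (nat_lit 78) (nat_lit 152) (nat_lit 0) (XT.lf (nat_lit 0) (nat_lit 115874356543) (nat_lit 76) (nat_lit 696533945) (nat_lit 76) (nat_lit 70639053) (nat_lit 3) (nat_lit 4) (nat_lit 4) (nat_lit 5) (nat_lit 4) (nat_lit 4) (nat_lit 253) (nat_lit 205) (nat_lit 202)) (XT.nd (nat_lit 78) (nat_lit 0) (nat_lit 0) (XT.lf (nat_lit 0) (nat_lit 3991938954) (nat_lit 152) (nat_lit 126530587087) (nat_lit 0) (nat_lit 3267283209) (nat_lit 1) (nat_lit 5) (nat_lit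 3) (nat_lit 4) (nat_lit 1) (nat_lit 4) (nat_lit 254) (nat_lit 205) (nat_lit 201)) (XT.lf (nat_lit 0) (nat_lit 8388060642) (nat_lit 152) (nat_lit 137606809093) (nat_lit 0) (nat_lit 7537210603) (nat_lit 1) (nat_lit 5) (nat_lit 3) (nat_lit 4) (nat_lit 1) (nat_lit 4) (nat_lit 255) (nat_lit 205) (nat_lit 200))))))) (XT.nd (nat_lit 936) (nat_lit 0) (nat_lit 0) (XT.nd (nat_lit 468) (nat_lit 0) (nat_lit 0) (XT.nd (nat_lit 234) (nat_lit 0) (nat_lit 0) (XT.nd (nat_lit 78) (nat_lit 0) (nat_lit 0) (XT.lf (nat_lit 0) (nat_lit 13170592510) (nat_lit 152) (nat_lit 150877073989) (nat_lit 0) (nat_lit 12210008303) (nat_lit 1) (nat_lit 5) (nat_lit 3) (nat_lit 4) (nat_lit 1) (nat_lit 4) (nat_lit 256) (nat_lit 205) (nat_lit 199)) (XT.nd (nat_lit 78) (nat_lit 0) (nat_lit 0) (XT.lf (nat_lit 0) (nat_lit 18433105833) (nat_lit 152) (nat_lit 166601017392) (nat_lit 0) (nat_lit 17377100609) (nat_lit 1) (nat_lit 5)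 (nat_lit 3) (nat_lit 4) (nat_lit 1) (nat_lit 4) (nat_lit 257) (nat_lit 205) (nat_lit 198)) (XT.lf (nat_lit 0) (nat_lit 24278562827) (nat_lit 152) (nat_lit 185086281674) (nat_lit 0) (nat_lit 23139582808) (nat_lit 1) (nat_lit 5) (nat_lit 3) (nat_lit 4) (nat_lit 1) (nat_lit 4) (nat_lit 258) (nat_lit 205) (nat_lit 197)))) (XT.nd (nat_lit 78) (nat_lit 0) (nat_lit 0) (XT.lf (nat_lit 0) (nat_lit 30821331131) (nat_lit 152) (nat_lit 206694535049) (nat_lit 0) (nat_lit 29610199114) (nat_lit 1) (nat_lit 5) (nat_lit 3) (nat_lit 4) (nat_lit 1) (nat_lit 4) (nat_lit 259) (nat_lit 205) (nat_lit 196)) (XT.nd (nat_lit 78) (nat_lit 0) (nat_lit 0) (XT.lf (nat_lit 0) (nat_lit 38189421427) (nat_lit 152) (nat_lit 231848547691) (nat_lit 0) (nat_lit 36915548544) (nat_lit 1) (nat_lit 5) (nat_lit 3) (nat_lit 4) (nat_lit 1) (nat_lit 4) (nat_lit 260) (nat_lit 205) (nat_lit 195)) (XT.lf (nat_lit 0) (nat_lit 46526992005)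 (nat_lit 152) (nat_lit 261040463326) (nat_lit 0) (nat_lit 45198561846) (nat_lit 1) (nat_lit 5) (nat_lit 3) (nat_lit 4) (nat_lit 1) (nat_lit 4) (nat_lit 261) (nat_lit 205) (nat_lit 194))))) (XT.nd (nat_lit 234) (nat_lit 0) (nat_lit 0) (XT.nd (nat_lit 78) (nat_lit 0) (nat_lit 0) (XT.lf (nat_lit 0) (nat_lit 55997169246) (nat_lit 152) (nat_lit 294841428130) (nat_lit 0) (nat_lit 54621297978) (nat_lit 1) (nat_lit 5) (nat_lit 3) (nat_lit 4) (nat_lit 1) (nat_lit 4) (nat_lit 262) (nat_lit 205) (nat_lit 193)) (XT.nd (nat_lit 78) (nat_lit 0) (nat_lit 0) (XT.lf (nat_lit 0) (nat_lit 66785239225) (nat_lit 152) (nat_lit 333912765327) (nat_lit 0) (nat_lit 65368114819) (nat_lit 1) (nat_lit 5) (nat_lit 3) (nat_lit 4) (nat_lit 1) (nat_lit 4) (nat_lit 263) (nat_lit 205) (nat_lit 192)) (XT.lf (nat_lit 0) (nat_lit 79102272878) (nat_lit 152) (nat_lit 379018914123) (nat_lit 0) (nat_lit 77649276177) (nat_lit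 1) (nat_lit 5) (nat_lit 3) (nat_lit 4) (nat_lit 1) (nat_lit 4) (nat_lit 264) (nat_lit 205) (nat_lit 191)))) (XT.nd (nat_lit 78) (nat_lit 0) (nat_lit 0) (XT.lf (nat_lit 0) (nat_lit 93189255645) (nat_lit 152) (nat_lit 431042386124) (nat_lit 0) (nat_lit 91705065645) (nat_lit 1) (nat_lit 5) (nat_lit 3) (nat_lit 4) (nat_lit 1) (nat_lit 4) (nat_lit 265) (nat_lit 205) (nat_lit 190)) (XT.nd (nat_lit 78) (nat_lit 0) (nat_lit 0) (XT.lf (nat_lit 0) (nat_lit 109321802406) (nat_lit 152) (nat_lit 491001031871) (nat_lit 0) (nat_lit 107810487798) (nat_lit 1) (nat_lit 5) (nat_lit 3) (nat_lit 4) (nat_lit 1) (nat_lit 4) (nat_lit 266) (nat_lit 205) (nat_lit 189)) (XT.lf (nat_lit 0) (nat_lit 127815549947) (nat_lit 152) (nat_lit 560067955301) (nat_lit 0) (nat_lit 126280648722) (nat_lit 1) (nat_lit 5) (nat_lit 3) (nat_lit 4) (nat_lit 1) (nat_lit 4) (nat_lit 267) (nat_lit 205) (nat_lit 188)))))) (XT.nd (nat_lit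 468) (nat_lit 0) (nat_lit 0) (XT.nd (nat_lit 234) (nat_lit 0) (nat_lit 0) (XT.nd (nat_lit 78) (nat_lit 0) (nat_lit 0) (XT.lf (nat_lit 0) (nat_lit 149032332457) (nat_lit 152) (nat_lit 639594465787) (nat_lit 0) (nat_lit 147476921132) (nat_lit 1) (nat_lit 5) (nat_lit 3) (nat_lit 4) (nat_lit 1) (nat_lit 4) (nat_lit 268) (nat_lit 205) (nat_lit 187)) (XT.nd (nat_lit 78) (nat_lit 0) (nat_lit 0) (XT.lf (nat_lit 0) (nat_lit 173387260899) (nat_lit 152) (nat_lit 731136516793) (nat_lit 0) (nat_lit 171814014704) (nat_lit 1) (nat_lit 5) (nat_lit 3) (nat_lit 4) (nat_lit 1) (nat_lit 4) (nat_lit 269) (nat_lit 205) (nat_lit 186)) (XT.lf (nat_lit 0) (nat_lit 201356844743) (nat_lit 152) (nat_lit 836485148449) (nat_lit 0) (nat_lit 199768089965) (nat_lit 1) (nat_lit 5) (nat_lit 3) (nat_lit 4) (nat_lit 1) (nat_lit 4) (nat_lit 270) (nat_lit 205) (nat_lit 185)))) (XT.nd (nat_lit 78) (nat_lit 0) (nat_lit 0) (XT.lf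 (nat_lit 0) (nat_lit 233488314977) (nat_lit 152) (nat_lit 957701529634) (nat_lit 0) (nat_lit 231886074475) (nat_lit 1) (nat_lit 5) (nat_lit 3) (nat_lit 4) (nat_lit 1) (nat_lit 4) (nat_lit 271) (nat_lit 205) (nat_lit 184)) (XT.nd (nat_lit 78) (nat_lit 0) (nat_lit 0) (XT.lf (nat_lit 0) (nat_lit 270410330801) (nat_lit 152) (nat_lit 1097157285198) (nat_lit 0) (nat_lit 268796363582) (nat_lit 1) (nat_lit 5) (nat_lit 3) (nat_lit 4) (nat_lit 1) (nat_lit 4) (nat_lit 272) (nat_lit 205) (nat_lit 183)) (XT.lf (nat_lit 0) (nat_lit 312845279481) (nat_lit 152) (nat_lit 1257580897315) (nat_lit 0) (nat_lit 311221115117) (nat_lit 1) (nat_lit 5) (nat_lit 3) (nat_lit 4) (nat_lit 1) (nat_lit 4) (nat_lit 273) (nat_lit 205) (nat_lit 182))))) (XT.nd (nat_lit 234) (nat_lit 0) (nat_lit 0) (XT.nd (nat_lit 78) (nat_lit 0) (nat_lit 0) (XT.lf (nat_lit 0) (nat_lit 361623410013) (nat_lit 152) (nat_lit 1442111088832)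 (nat_lit 0) (nat_lit 359990378567) (nat_lit 1) (nat_lit 5) (nat_lit 3) (nat_lit 4) (nat_lit 1) (nat_lit 4) (nat_lit 274) (nat_lit 205) (nat_lit 181)) (XT.nd (nat_lit 78) (nat_lit 0) (nat_lit 0) (XT.lf (nat_lit 0) (nat_lit 417699077125) (nat_lit 152) (nat_lit 1654358233059) (nat_lit 0) (nat_lit 416058335173) (nat_lit 1) (nat_lit 5) (nat_lit 3) (nat_lit 4) (nat_lit 1) (nat_lit 4) (nat_lit 275) (nat_lit 205) (nat_lit 180)) (XT.lf (nat_lit 0) (nat_lit 482169413435) (nat_lit 152) (nat_lit 1898474991514) (nat_lit 0) (nat_lit 480521966694) (nat_lit 1) (nat_lit 5) (nat_lit 3) (nat_lit 4) (nat_lit 1) (nat_lit 4) (nat_lit 276) (nat_lit 205) (nat_lit 179)))) (XT.nd (nat_lit 156) (nat_lit 0) (nat_lit 0) (XT.nd (nat_lit 78) (nat_lit 0) (nat_lit 0) (XT.lf (nat_lit 0) (nat_lit 556295795087) (nat_lit 152) (nat_lit 2179237561646) (nat_lit 0) (nat_lit 554642518096) (nat_lit 1) (nat_lit 5) (nat_lit 3) (nat_lit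 4) (nat_lit 1) (nat_lit 4) (nat_lit 277) (nat_lit 205) (nat_lit 178)) (XT.lf (nat_lit 0) (nat_lit 641528520853) (nat_lit 152) (nat_lit 2502139124175) (nat_lit 0) (nat_lit 639870174078) (nat_lit 1) (nat_lit 5) (nat_lit 3) (nat_lit 4) (nat_lit 1) (nat_lit 4) (nat_lit 278) (nat_lit 205) (nat_lit 177))) (XT.nd (nat_lit 78) (nat_lit 0) (nat_lit 0) (XT.lf (nat_lit 0) (nat_lit 739535187542) (nat_lit 152) (nat_lit 2873497318367) (nat_lit 0) (nat_lit 737872432260) (nat_lit 1) (nat_lit 5) (nat_lit 3) (nat_lit 4) (nat_lit 1) (nat_lit 4) (nat_lit 279) (nat_lit 205) (nat_lit 176)) (XT.lf (nat_lit 0) (nat_lit 852233316892) (nat_lit 152) (nat_lit 3300577848022) (nat_lit 0) (nat_lit 850566728126) (nat_lit 1) (nat_lit 5) (nat_lit 3) (nat_lit 4) (nat_lit 1) (nat_lit 4) (nat_lit 280) (nat_lit 205) (nat_lit 175))))))))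
noncomputable def xc8 : XT := (XT.nd (nat_lit 33150) (nat_lit 0) (nat_lit 0) (XT.nd (nat_lit 32214) (nat_lit 0) (nat_lit 0) (XT.nd (nat_lit 468) (nat_lit 0) (nat_lit 0) (XT.nd (nat_lit 234) (nat_lit 0) (nat_lit 0) (XT.nd (nat_lit 78) (nat_lit 0) (nat_lit 0) (XT.lf (nat_lit 0) (nat_lit 981827872305) (nat_lit 152) (nat_lit 3791736636547) (nat_lit 0) (nat_lit 980157950074) (nat_lit 1) (nat_lit 5) (nat_lit 3) (nat_lit 4) (nat_lit 1) (nat_lit 4) (nat_lit 281) (nat_lit 205) (nat_lit 174)) (XT.nd (nat_lit 78) (nat_lit 0) (nat_lit 0) (XT.lf (nat_lit 0) (nat_lit 1130854399430) (nat_lit 152) (nat_lit 4356583312411) (nat_lit 0) (nat_lit 1129181578534) (nat_lit 1) (nat_lit 5) (nat_lit 3) (nat_lit 4) (nat_lit 1) (nat_lit 4) (nat_lit 282) (nat_lit 205) (nat_lit 173)) (XT.lf (nat_lit 0) (nat_lit 1302228634667) (nat_lit 152) (nat_lit 5006169223622) (nat_lit 0) (nat_lit 1300553293192) (nat_lit 1) (nat_lit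 5) (nat_lit 3) (nat_lit 4) (nat_lit 1) (nat_lit 4) (nat_lit 283) (nat_lit 205) (nat_lit 172)))) (XT.nd (nat_lit 78) (nat_lit 0) (nat_lit 0) (XT.lf (nat_lit 0) (nat_lit 1499303552183) (nat_lit 152) (nat_lit 5753203659746) (nat_lit 0) (nat_lit 1497626018901) (nat_lit 1) (nat_lit 5) (nat_lit 3) (nat_lit 4) (nat_lit 1) (nat_lit 4) (nat_lit 284) (nat_lit 205) (nat_lit 171)) (XT.nd (nat_lit 78) (nat_lit 0) (nat_lit 0) (XT.lf (nat_lit 0) (nat_lit 1725934965583) (nat_lit 152) (nat_lit 6612302511925) (nat_lit 0) (nat_lit 1724255526382) (nat_lit 1) (nat_lit 5) (nat_lit 3) (nat_lit 4) (nat_lit 1) (nat_lit 4) (nat_lit 285) (nat_lit 205) (nat_lit 170)) (XT.lf (nat_lit 0) (nat_lit 1986556967736) (nat_lit 152) (nat_lit 7600274235963) (nat_lit 0) (nat_lit 1984875871214) (nat_lit 1) (nat_lit 5) (nat_lit 3) (nat_lit 4) (nat_lit 1) (nat_lit 4) (nat_lit 286) (nat_lit 205) (nat_lit 169))))) (XT.nd (nat_lit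 31512) (nat_lit 0) (nat_lit 152) (XT.nd (nat_lit 31356) (nat_lit 0) (nat_lit 152) (XT.lf (nat_lit 0) (nat_lit 2286268684773) (nat_lit 152) (nat_lit 8736448713416) (nat_lit 0) (nat_lit 2284586147103) (nat_lit 1) (nat_lit 5) (nat_lit 3) (nat_lit 4) (nat_lit 1) (nat_lit 4) (nat_lit 287) (nat_lit 205) (nat_lit 168)) (XT.nd (nat_lit 78) (nat_lit 0) (nat_lit 0) (XT.lf (nat_lit 0) (nat_lit 11948709815) (nat_lit 76) (nat_lit 8876206692) (nat_lit 76) (nat_lit 8876206692) (nat_lit 3) (nat_lit 4) (nat_lit 4) (nat_lit 5) (nat_lit 4) (nat_lit 4) (nat_lit 248) (nat_lit 206) (nat_lit 206)) (XT.lf (nat_lit 0) (nat_lit 38788693776) (nat_lit 76) (nat_lit 14662430325) (nat_lit 76) (nat_lit 14388302782) (nat_lit 3) (nat_lit 4) (nat_lit 4) (nat_lit 5) (nat_lit 4) (nat_lit 4) (nat_lit 249) (nat_lit 206) (nat_lit 205)))) (XT.nd (nat_lit 78) (nat_lit 0) (nat_lit 0) (XT.lf (nat_lit 0) (nat_lit 54952816293) (nat_lit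 76) (nat_lit 11571038207) (nat_lit 76) (nat_lit 11058538887) (nat_lit 3) (nat_lit 4) (nat_lit 4) (nat_lit 5) (nat_lit 4) (nat_lit 4) (nat_lit 250) (nat_lit 206) (nat_lit 204)) (XT.nd (nat_lit 78) (nat_lit 0) (nat_lit 0) (XT.lf (nat_lit 0) (nat_lit 72706041753) (nat_lit 76) (nat_lit 8417753272) (nat_lit 76) (nat_lit 7697974146) (nat_lit 3) (nat_lit 4) (nat_lit 4) (nat_lit 5) (nat_lit 4) (nat_lit 4) (nat_lit 251) (nat_lit 206) (nat_lit 203)) (XT.lf (nat_lit 0) (nat_lit 92395715872) (nat_lit 76) (nat_lit 5140880815) (nat_lit 76) (nat_lit 4240858379) (nat_lit 3) (nat_lit 4) (nat_lit 4) (nat_lit 5) (nat_lit 4) (nat_lit 4) (nat_lit 252) (nat_lit 206) (nat_lit 202)))))) (XT.nd (nat_lit 468) (nat_lit 0) (nat_lit 0) (XT.nd (nat_lit 234) (nat_lit 0) (nat_lit 0) (XT.nd (nat_lit 78) (nat_lit 152) (nat_lit 0) (XT.lf (nat_lit 0) (nat_lit 114407071402) (nat_lit 76) (nat_lit 1676308114) (nat_lit 76)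 (nat_lit 619552366) (nat_lit 3) (nat_lit 4) (nat_lit 4) (nat_lit 5) (nat_lit 4) (nat_lit 4) (nat_lit 253) (nat_lit 206) (nat_lit 201)) (XT.nd (nat_lit 78) (nat_lit 0) (nat_lit 0) (XT.lf (nat_lit 0) (nat_lit 3261187173) (nat_lit 152) (nat_lit 128451384968) (nat_lit 0) (nat_lit 2156515335) (nat_lit 1) (nat_lit 5) (nat_lit 3) (nat_lit 4) (nat_lit 1) (nat_lit 4) (nat_lit 254) (nat_lit 206) (nat_lit 200)) (XT.lf (nat_lit 0) (nat_lit 7530328362) (nat_lit 152) (nat_lit 139775332364) (nat_lit 0) (nat_lit 6315922355) (nat_lit 1) (nat_lit 5) (nat_lit 3) (nat_lit 4) (nat_lit 1) (nat_lit 4) (nat_lit 255) (nat_lit 206) (nat_lit 199)))) (XT.nd (nat_lit 78) (nat_lit 0) (nat_lit 0) (XT.lf (nat_lit 0) (nat_lit 12202442404) (nat_lit 152) (nat_lit 153261010643) (nat_lit 0) (nat_lit 10892615381) (nat_lit 1) (nat_lit 5) (nat_lit 3) (nat_lit 4) (nat_lit 1) (nat_lit 4) (nat_lit 256) (nat_lit 206) (nat_lit 198))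 (XT.nd (nat_lit 78) (nat_lit 0) (nat_lit 0) (XT.lf (nat_lit 0) (nat_lit 17368940226) (nat_lit 152) (nat_lit 169172270031) (nat_lit 0) (nat_lit 15976138407) (nat_lit 1) (nat_lit 5) (nat_lit 3) (nat_lit 4) (nat_lit 1) (nat_lit 4) (nat_lit 257) (nat_lit 206) (nat_lit 197)) (XT.lf (nat_lit 0) (nat_lit 23130905481) (nat_lit 152) (nat_lit 187820417779) (nat_lit 0) (nat_lit 21665951665) (nat_lit 1) (nat_lit 5) (nat_lit 3) (nat_lit 4) (nat_lit 1) (nat_lit 4) (nat_lit 258) (nat_lit 206) (nat_lit 196))))) (XT.nd (nat_lit 234) (nat_lit 0) (nat_lit 0) (XT.nd (nat_lit 78) (nat_lit 0) (nat_lit 0) (XT.lf (nat_lit 0) (nat_lit 29601072272) (nat_lit 152) (nat_lit 209570308949) (nat_lit 0) (nat_lit 28073377589) (nat_lit 1) (nat_lit 5) (nat_lit 3) (nat_lit 4) (nat_lit 1) (nat_lit 4) (nat_lit 259) (nat_lit 206) (nat_lit 195)) (XT.nd (nat_lit 78) (nat_lit 0) (nat_lit 0) (XT.lf (nat_lit 0) (nat_lit 36906030818)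 (nat_lit 152) (nat_lit 234847484892) (nat_lit 0) (nat_lit 35323778860) (nat_lit 1) (nat_lit 5) (nat_lit 3) (nat_lit 4) (nat_lit 1) (nat_lit 4) (nat_lit 260) (nat_lit 206) (nat_lit 194)) (XT.lf (nat_lit 0) (nat_lit 45188704222) (nat_lit 152) (nat_lit 264146499050) (nat_lit 0) (nat_lit 43559011154) (nat_lit 1) (nat_lit 5) (nat_lit 3) (nat_lit 4) (nat_lit 1) (nat_lit 4) (nat_lit 261) (nat_lit 206) (nat_lit 193)))) (XT.nd (nat_lit 78) (nat_lit 0) (nat_lit 0) (XT.lf (nat_lit 0) (nat_lit 54611144789) (nat_lit 152) (nat_lit 298040593004) (nat_lit 0) (nat_lit 52940198583) (nat_lit 1) (nat_lit 5) (nat_lit 3) (nat_lit 4) (nat_lit 1) (nat_lit 4) (nat_lit 262) (nat_lit 206) (nat_lit 192)) (XT.nd (nat_lit 78) (nat_lit 0) (nat_lit 0) (XT.lf (nat_lit 0) (nat_lit 65357704618) (nat_lit 152) (nat_lit 337192912070) (nat_lit 0) (nat_lit 63650886118) (nat_lit 1) (nat_lit 5) (nat_lit 3) (nat_lit 4) (nat_lit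 1) (nat_lit 4) (nat_lit 263) (nat_lit 206) (nat_lit 191)) (XT.lf (nat_lit 0) (nat_lit 77638642488) (nat_lit 152) (nat_lit 382369479883) (nat_lit 0) (nat_lit 75900630688) (nat_lit 1) (nat_lit 5) (nat_lit 3) (nat_lit 4) (nat_lit 1) (nat_lit 4) (nat_lit 264) (nat_lit 206) (nat_lit 190))))))) (XT.nd (nat_lit 936) (nat_lit 0) (nat_lit 0) (XT.nd (nat_lit 468) (nat_lit 0) (nat_lit 0) (XT.nd (nat_lit 234) (nat_lit 0) (nat_lit 0) (XT.nd (nat_lit 78) (nat_lit 0) (nat_lit 0) (XT.lf (nat_lit 0) (nat_lit 91694237617) (nat_lit 152) (nat_lit 434454185812) (nat_lit 0) (nat_lit 89929101209) (nat_lit 1) (nat_lit 5) (nat_lit 3) (nat_lit 4) (nat_lit 1) (nat_lit 4) (nat_lit 265) (nat_lit 206) (nat_lit 189)) (XT.nd (nat_lit 78) (nat_lit 0) (nat_lit 0) (XT.lf (nat_lit 0) (nat_lit 107799490781) (nat_lit 152) (nat_lit 494466078453) (nat_lit 0) (nat_lit 106010767757) (nat_lit 1) (nat_lit 5) (nat_lit 3) (nat_lit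 4) (nat_lit 1) (nat_lit 4) (nat_lit 266) (nat_lit 206) (nat_lit 188)) (XT.lf (nat_lit 0) (nat_lit 126269504758) (nat_lit 152) (nat_lit 563579303530) (nat_lit 0) (nat_lit 124460271633) (nat_lit 1) (nat_lit 5) (nat_lit 3) (nat_lit 4) (nat_lit 1) (nat_lit 4) (nat_lit 267) (nat_lit 206) (nat_lit 187)))) (XT.nd (nat_lit 78) (nat_lit 0) (nat_lit 0) (XT.lf (nat_lit 0) (nat_lit 147465649387) (nat_lit 152) (nat_lit 643146076317) (nat_lit 0) (nat_lit 145638581392) (nat_lit 1) (nat_lit 5) (nat_lit 3) (nat_lit 4) (nat_lit 1) (nat_lit 4) (nat_lit 268) (nat_lit 206) (nat_lit 186)) (XT.nd (nat_lit 78) (nat_lit 0) (nat_lit 0) (XT.lf (nat_lit 0) (nat_lit 171802631846) (nat_lit 152) (nat_lit 734723138020) (nat_lit 0) (nat_lit 169960055268) (nat_lit 1) (nat_lit 5) (nat_lit 3) (nat_lit 4) (nat_lit 1) (nat_lit 4) (nat_lit 269) (nat_lit 206) (nat_lit 185)) (XT.lf (nat_lit 0) (nat_lit 199756610486) (nat_lit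 152) (nat_lit 840102213760) (nat_lit 0) (nat_lit 197900548185) (nat_lit 1) (nat_lit 5) (nat_lit 3) (nat_lit 4) (nat_lit 1) (nat_lit 4) (nat_lit 270) (nat_lit 206) (nat_lit 184))))) (XT.nd (nat_lit 234) (nat_lit 0) (nat_lit 0) (XT.nd (nat_lit 78) (nat_lit 0) (nat_lit 0) (XT.lf (nat_lit 0) (nat_lit 231874510978) (nat_lit 152) (nat_lit 961345068062) (nat_lit 0) (nat_lit 230006721960) (nat_lit 1) (nat_lit 5) (nat_lit 3) (nat_lit 4) (nat_lit 1) (nat_lit 4) (nat_lit 271) (nat_lit 206) (nat_lit 183)) (XT.nd (nat_lit 78) (nat_lit 0) (nat_lit 0) (XT.lf (nat_lit 0) (nat_lit 268784727027) (nat_lit 152) (nat_lit 1100823843728) (nat_lit 0) (nat_lit 266906740864) (nat_lit 1) (nat_lit 5) (nat_lit 3) (nat_lit 4) (nat_lit 1) (nat_lit 4) (nat_lit 272) (nat_lit 206) (nat_lit 182)) (XT.lf (nat_lit 0) (nat_lit 311209415032) (nat_lit 152) (nat_lit 1261267473325) (nat_lit 0) (nat_lit 309322561787) (nat_lit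 1) (nat_lit 5) (nat_lit 3) (nat_lit 4) (nat_lit 1) (nat_lit 4) (nat_lit 273) (nat_lit 206) (nat_lit 181)))) (XT.nd (nat_lit 78) (nat_lit 0) (nat_lit 0) (XT.lf (nat_lit 0) (nat_lit 359978623239) (nat_lit 152) (nat_lit 1445815071345) (nat_lit 0) (nat_lit 358084059487) (nat_lit 1) (nat_lit 5) (nat_lit 3) (nat_lit 4) (nat_lit 1) (nat_lit 4) (nat_lit 274) (nat_lit 206) (nat_lit 180)) (XT.nd (nat_lit 78) (nat_lit 0) (nat_lit 0) (XT.lf (nat_lit 0) (nat_lit 416046531807) (nat_lit 152) (nat_lit 1658077351662) (nat_lit 0) (nat_lit 414145263267) (nat_lit 1) (nat_lit 5) (nat_lit 3) (nat_lit 4) (nat_lit 1) (nat_lit 4) (nat_lit 275) (nat_lit 206) (nat_lit 179)) (XT.lf (nat_lit 0) (nat_lit 480510121557) (nat_lit 152) (nat_lit 1902207271936) (nat_lit 0) (nat_lit 478603022766) (nat_lit 1) (nat_lit 5) (nat_lit 3) (nat_lit 4) (nat_lit 1) (nat_lit 4) (nat_lit 276) (nat_lit 206) (nat_lit 178)))))) (XT.nd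 (nat_lit 468) (nat_lit 0) (nat_lit 0) (XT.nd (nat_lit 234) (nat_lit 0) (nat_lit 0) (XT.nd (nat_lit 78) (nat_lit 0) (nat_lit 0) (XT.lf (nat_lit 0) (nat_lit 554630636635) (nat_lit 152) (nat_lit 2182981287127) (nat_lit 0) (nat_lit 552718468061) (nat_lit 1) (nat_lit 5) (nat_lit 3) (nat_lit 4) (nat_lit 1) (nat_lit 4) (nat_lit 277) (nat_lit 206) (nat_lit 177)) (XT.nd (nat_lit 78) (nat_lit 0) (nat_lit 0) (XT.lf (nat_lit 0) (nat_lit 639858261033) (nat_lit 152) (nat_lit 2505892801881) (nat_lit 0) (nat_lit 637941683952) (nat_lit 1) (nat_lit 5) (nat_lit 3) (nat_lit 4) (nat_lit 1) (nat_lit 4) (nat_lit 278) (nat_lit 206) (nat_lit 176)) (XT.lf (nat_lit 0) (nat_lit 737860491749) (nat_lit 152) (nat_lit 2877259650182) (nat_lit 0) (nat_lit 735940081183) (nat_lit 1) (nat_lit 5) (nat_lit 3) (nat_lit 4) (nat_lit 1) (nat_lit 4) (nat_lit 279) (nat_lit 206) (nat_lit 175)))) (XT.nd (nat_lit 78) (nat_lit 0) (nat_lit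 0) (XT.lf (nat_lit 0) (nat_lit 850554763732) (nat_lit 152) (nat_lit 3304347705149) (nat_lit 0) (nat_lit 848631019701) (nat_lit 1) (nat_lit 5) (nat_lit 3) (nat_lit 4) (nat_lit 1) (nat_lit 4) (nat_lit 280) (nat_lit 206) (nat_lit 174)) (XT.nd (nat_lit 78) (nat_lit 0) (nat_lit 0) (XT.lf (nat_lit 0) (nat_lit 980145964912) (nat_lit 152) (nat_lit 3795513037423) (nat_lit 0) (nat_lit 978219322217) (nat_lit 1) (nat_lit 5) (nat_lit 3) (nat_lit 4) (nat_lit 1) (nat_lit 4) (nat_lit 281) (nat_lit 206) (nat_lit 173)) (XT.lf (nat_lit 0) (nat_lit 1129169575313) (nat_lit 152) (nat_lit 4360365403504) (nat_lit 0) (nat_lit 1127240412039) (nat_lit 1) (nat_lit 5) (nat_lit 3) (nat_lit 4) (nat_lit 1) (nat_lit 4) (nat_lit 282) (nat_lit 206) (nat_lit 172))))) (XT.nd (nat_lit 234) (nat_lit 0) (nat_lit 0) (XT.nd (nat_lit 78) (nat_lit 0) (nat_lit 0) (XT.lf (nat_lit 0) (nat_lit 1300541274268) (nat_lit 152) (nat_lit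 5009956262730) (nat_lit 0) (nat_lit 1298609919187) (nat_lit 1) (nat_lit 5) (nat_lit 3) (nat_lit 4) (nat_lit 1) (nat_lit 4) (nat_lit 283) (nat_lit 206) (nat_lit 171)) (XT.nd (nat_lit 78) (nat_lit 0) (nat_lit 0) (XT.lf (nat_lit 0) (nat_lit 1497613986322) (nat_lit 152) (nat_lit 5756995001475) (nat_lit 0) (nat_lit 1495680725321) (nat_lit 1) (nat_lit 5) (nat_lit 3) (nat_lit 4) (nat_lit 1) (nat_lit 4) (nat_lit 284) (nat_lit 206) (nat_lit 170)) (XT.lf (nat_lit 0) (nat_lit 1724243481928) (nat_lit 152) (nat_lit 6616097595065) (nat_lit 0) (nat_lit 1722308563606) (nat_lit 1) (nat_lit 5) (nat_lit 3) (nat_lit 4) (nat_lit 1) (nat_lit 4) (nat_lit 285) (nat_lit 206) (nat_lit 169)))) (XT.nd (nat_lit 78) (nat_lit 0) (nat_lit 0) (XT.lf (nat_lit 0) (nat_lit 1984863816435) (nat_lit 152) (nat_lit 7604072572503) (nat_lit 0) (nat_lit 1982927456965) (nat_lit 1) (nat_lit 5) (nat_lit 3) (nat_lit 4) (nat_lit 1)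 (nat_lit 4) (nat_lit 286) (nat_lit 206) (nat_lit 168)) (XT.nd (nat_lit 31200) (nat_lit 0) (nat_lit 228) (XT.lf (nat_lit 0) (nat_lit 2284574083345) (nat_lit 152) (nat_lit 8740249879000) (nat_lit 0) (nat_lit 2282636470702) (nat_lit 1) (nat_lit 5) (nat_lit 3) (nat_lit 4) (nat_lit 1) (nat_lit 4) (nat_lit 287) (nat_lit 206) (nat_lit 167)) (XT.lf (nat_lit 0) (nat_lit 10821719905) (nat_lit 152) (nat_lit 1245301805) (nat_lit 0) (nat_lit 10821719905) (nat_lit 4) (nat_lit 5) (nat_lit 6) (nat_lit 4) (nat_lit 4) (nat_lit 4) (nat_lit 246) (nat_lit 207) (nat_lit 207))))))))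
noncomputable def xc9 : XT := (XT.nd (nat_lit 1872) (nat_lit 0) (nat_lit 0) (XT.nd (nat_lit 936) (nat_lit 0) (nat_lit 0) (XT.nd (nat_lit 468) (nat_lit 152) (nat_lit 0) (XT.nd (nat_lit 234) (nat_lit 0) (nat_lit 0) (XT.nd (nat_lit 78) (nat_lit 0) (nat_lit 0) (XT.lf (nat_lit 0) (nat_lit 9987642839) (nat_lit 76) (nat_lit 21216690252) (nat_lit 76) (nat_lit 20901443577) (nat_lit 3) (nat_lit 4) (nat_lit 4) (nat_lit 5) (nat_lit 4) (nat_lit 4) (nat_lit 247) (nat_lit 207) (nat_lit 206)) (XT.nd (nat_lit 78) (nat_lit 0) (nat_lit 0) (XT.lf (nat_lit 0) (nat_lit 23383480484) (nat_lit 76) (nat_lit 18314823623) (nat_lit 76) (nat_lit 17725449405) (nat_lit 3) (nat_lit 4) (nat_lit 4) (nat_lit 5) (nat_lit 4) (nat_lit 4) (nat_lit 248) (nat_lit 207) (nat_lit 205)) (XT.lf (nat_lit 0) (nat_lit 37827851025) (nat_lit 76) (nat_lit 15439765401) (nat_lit 76) (nat_lit 14612019406) (nat_lit 3) (nat_lit 4) (nat_lit 4)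 (nat_lit 5) (nat_lit 4) (nat_lit 4) (nat_lit 249) (nat_lit 207) (nat_lit 204)))) (XT.nd (nat_lit 78) (nat_lit 0) (nat_lit 0) (XT.lf (nat_lit 0) (nat_lit 53603361713) (nat_lit 76) (nat_lit 12535264446) (nat_lit 76) (nat_lit 11500238645) (nat_lit 3) (nat_lit 4) (nat_lit 4) (nat_lit 5) (nat_lit 4) (nat_lit 4) (nat_lit 250) (nat_lit 207) (nat_lit 203)) (XT.nd (nat_lit 78) (nat_lit 0) (nat_lit 0) (XT.lf (nat_lit 0) (nat_lit 71018663842) (nat_lit 76) (nat_lit 9544493566) (nat_lit 76) (nat_lit 8329224455) (nat_lit 3) (nat_lit 4) (nat_lit 4) (nat_lit 5) (nat_lit 4) (nat_lit 4) (nat_lit 251) (nat_lit 207) (nat_lit 202)) (XT.lf (nat_lit 0) (nat_lit 90414491586) (nat_lit 76) (nat_lit 6408937678) (nat_lit 76) (nat_lit 5036935255) (nat_lit 3) (nat_lit 4) (nat_lit 4) (nat_lit 5) (nat_lit 4) (nat_lit 4) (nat_lit 252) (nat_lit 207) (nat_lit 201))))) (XT.nd (nat_lit 234) (nat_lit 0) (nat_lit 0) (XT.nd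 (nat_lit 78) (nat_lit 152) (nat_lit 0) (XT.lf (nat_lit 0) (nat_lit 112170328530) (nat_lit 76) (nat_lit 3067248951) (nat_lit 76) (nat_lit 1558956691) (nat_lit 3) (nat_lit 4) (nat_lit 4) (nat_lit 5) (nat_lit 4) (nat_lit 4) (nat_lit 253) (nat_lit 207) (nat_lit 200)) (XT.nd (nat_lit 78) (nat_lit 0) (nat_lit 0) (XT.lf (nat_lit 0) (nat_lit 2147814551) (nat_lit 152) (nat_lit 131192912120) (nat_lit 0) (nat_lit 641513475) (nat_lit 1) (nat_lit 5) (nat_lit 3) (nat_lit 4) (nat_lit 1) (nat_lit 4) (nat_lit 254) (nat_lit 207) (nat_lit 199)) (XT.lf (nat_lit 0) (nat_lit 6306537914) (nat_lit 152) (nat_lit 142732272899) (nat_lit 0) (nat_lit 4704815822) (nat_lit 1) (nat_lit 5) (nat_lit 3) (nat_lit 4) (nat_lit 1) (nat_lit 4) (nat_lit 255) (nat_lit 207) (nat_lit 198)))) (XT.nd (nat_lit 78) (nat_lit 0) (nat_lit 0) (XT.lf (nat_lit 0) (nat_lit 10882636456) (nat_lit 152) (nat_lit 156405267163) (nat_lit 0) (nat_lit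 9197939567) (nat_lit 1) (nat_lit 5) (nat_lit 3) (nat_lit 4) (nat_lit 1) (nat_lit 4) (nat_lit 256) (nat_lit 207) (nat_lit 197)) (XT.nd (nat_lit 78) (nat_lit 0) (nat_lit 0) (XT.lf (nat_lit 0) (nat_lit 15965642538) (nat_lit 152) (nat_lit 172479410017) (nat_lit 0) (nat_lit 14208793653) (nat_lit 1) (nat_lit 5) (nat_lit 3) (nat_lit 4) (nat_lit 1) (nat_lit 4) (nat_lit 257) (nat_lit 207) (nat_lit 196)) (XT.lf (nat_lit 0) (nat_lit 21655006280) (nat_lit 152) (nat_lit 191269195560) (nat_lit 0) (nat_lit 19835416528) (nat_lit 1) (nat_lit 5) (nat_lit 3) (nat_lit 4) (nat_lit 1) (nat_lit 4) (nat_lit 258) (nat_lit 207) (nat_lit 195)))))) (XT.nd (nat_lit 468) (nat_lit 0) (nat_lit 0) (XT.nd (nat_lit 234) (nat_lit 0) (nat_lit 0) (XT.nd (nat_lit 78) (nat_lit 0) (nat_lit 0) (XT.lf (nat_lit 0) (nat_lit 28062041321) (nat_lit 152) (nat_lit 213142250032) (nat_lit 0) (nat_lit 26187894293) (nat_lit 1) (nat_lit 5)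 (nat_lit 3) (nat_lit 4) (nat_lit 1) (nat_lit 4) (nat_lit 259) (nat_lit 207) (nat_lit 194)) (XT.nd (nat_lit 78) (nat_lit 0) (nat_lit 0) (XT.lf (nat_lit 0) (nat_lit 35312102693) (nat_lit 152) (nat_lit 238526524497) (nat_lit 0) (nat_lit 33390514556) (nat_lit 1) (nat_lit 5) (nat_lit 3) (nat_lit 4) (nat_lit 1) (nat_lit 4) (nat_lit 260) (nat_lit 207) (nat_lit 193)) (XT.lf (nat_lit 0) (nat_lit 43547039424) (nat_lit 152) (nat_lit 267918667805) (nat_lit 0) (nat_lit 41584198148) (nat_lit 1) (nat_lit 5) (nat_lit 3) (nat_lit 4) (nat_lit 1) (nat_lit 4) (nat_lit 261) (nat_lit 207) (nat_lit 192)))) (XT.nd (nat_lit 78) (nat_lit 0) (nat_lit 0) (XT.lf (nat_lit 0) (nat_lit 52927969841) (nat_lit 152) (nat_lit 301893743628) (nat_lit 0) (nat_lit 50929256271) (nat_lit 1) (nat_lit 5) (nat_lit 3) (nat_lit 4) (nat_lit 1) (nat_lit 4) (nat_lit 262) (nat_lit 207) (nat_lit 191)) (XT.nd (nat_lit 78) (nat_lit 0) (nat_lit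 0) (XT.lf (nat_lit 0) (nat_lit 63638433886) (nat_lit 152) (nat_lit 341116481711) (nat_lit 0) (nat_lit 61608527017) (nat_lit 1) (nat_lit 5) (nat_lit 3) (nat_lit 4) (nat_lit 1) (nat_lit 4) (nat_lit 263) (nat_lit 207) (nat_lit 190)) (XT.lf (nat_lit 0) (nat_lit 75887984118) (nat_lit 152) (nat_lit 386354283452) (nat_lit 0) (nat_lit 73830952641) (nat_lit 1) (nat_lit 5) (nat_lit 3) (nat_lit 4) (nat_lit 1) (nat_lit 4) (nat_lit 264) (nat_lit 207) (nat_lit 189))))) (XT.nd (nat_lit 234) (nat_lit 0) (nat_lit 0) (XT.nd (nat_lit 78) (nat_lit 0) (nat_lit 0) (XT.lf (nat_lit 0) (nat_lit 89916285650) (nat_lit 152) (nat_lit 438492236275) (nat_lit 0) (nat_lit 87835667557) (nat_lit 1) (nat_lit 5) (nat_lit 3) (nat_lit 4) (nat_lit 1) (nat_lit 4) (nat_lit 265) (nat_lit 207) (nat_lit 188)) (XT.nd (nat_lit 78) (nat_lit 0) (nat_lit 0) (XT.lf (nat_lit 0) (nat_lit 105997805250) (nat_lit 152) (nat_lit 498550430562)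 (nat_lit 0) (nat_lit 103896677057) (nat_lit 1) (nat_lit 5) (nat_lit 3) (nat_lit 4) (nat_lit 1) (nat_lit 4) (nat_lit 266) (nat_lit 207) (nat_lit 187)) (XT.lf (nat_lit 0) (nat_lit 124447181346) (nat_lit 152) (nat_lit 567703917941) (nat_lit 0) (nat_lit 122328218282) (nat_lit 1) (nat_lit 5) (nat_lit 3) (nat_lit 4) (nat_lit 1) (nat_lit 4) (nat_lit 267) (nat_lit 207) (nat_lit 186)))) (XT.nd (nat_lit 78) (nat_lit 0) (nat_lit 0) (XT.lf (nat_lit 0) (nat_lit 145625379992) (nat_lit 152) (nat_lit 647305701425) (nat_lit 0) (nat_lit 143490908345) (nat_lit 1) (nat_lit 5) (nat_lit 3) (nat_lit 4) (nat_lit 1) (nat_lit 4) (nat_lit 268) (nat_lit 207) (nat_lit 185)) (XT.nd (nat_lit 78) (nat_lit 0) (nat_lit 0) (XT.lf (nat_lit 0) (nat_lit 169946757247) (nat_lit 152) (nat_lit 738913207212) (nat_lit 0) (nat_lit 167798799877) (nat_lit 1) (nat_lit 5) (nat_lit 3) (nat_lit 4) (nat_lit 1) (nat_lit 4) (nat_lit 269)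 (nat_lit 207) (nat_lit 184)) (XT.lf (nat_lit 0) (nat_lit 197887166146) (nat_lit 152) (nat_lit 844318756069) (nat_lit 0) (nat_lit 195727482059) (nat_lit 1) (nat_lit 5) (nat_lit 3) (nat_lit 4) (nat_lit 1) (nat_lit 4) (nat_lit 270) (nat_lit 207) (nat_lit 183))))))) (XT.nd (nat_lit 936) (nat_lit 0) (nat_lit 0) (XT.nd (nat_lit 468) (nat_lit 0) (nat_lit 0) (XT.nd (nat_lit 234) (nat_lit 0) (nat_lit 0) (XT.nd (nat_lit 78) (nat_lit 0) (nat_lit 0) (XT.lf (nat_lit 0) (nat_lit 229993266863) (nat_lit 152) (nat_lit 965584630473) (nat_lit 0) (nat_lit 227823385630) (nat_lit 1) (nat_lit 5) (nat_lit 3) (nat_lit 4) (nat_lit 1) (nat_lit 4) (nat_lit 271) (nat_lit 207) (nat_lit 182)) (XT.nd (nat_lit 78) (nat_lit 0) (nat_lit 0) (XT.lf (nat_lit 0) (nat_lit 266893222237) (nat_lit 152) (nat_lit 1105083423618) (nat_lit 0) (nat_lit 264714473922) (nat_lit 1) (nat_lit 5) (nat_lit 3) (nat_lit 4) (nat_lit 1) (nat_lit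 4) (nat_lit 272) (nat_lit 207) (nat_lit 181)) (XT.lf (nat_lit 0) (nat_lit 309308987917) (nat_lit 152) (nat_lit 1265544459719) (nat_lit 0) (nat_lit 307122529096) (nat_lit 1) (nat_lit 5) (nat_lit 3) (nat_lit 4) (nat_lit 1) (nat_lit 4) (nat_lit 273) (nat_lit 207) (nat_lit 180)))) (XT.nd (nat_lit 78) (nat_lit 0) (nat_lit 0) (XT.lf (nat_lit 0) (nat_lit 358070437580) (nat_lit 152) (nat_lit 1450107193830) (nat_lit 0) (nat_lit 355877273970) (nat_lit 1) (nat_lit 5) (nat_lit 3) (nat_lit 4) (nat_lit 1) (nat_lit 4) (nat_lit 274) (nat_lit 207) (nat_lit 179)) (XT.nd (nat_lit 78) (nat_lit 0) (nat_lit 0) (XT.lf (nat_lit 0) (nat_lit 414131599588) (nat_lit 152) (nat_lit 1662382635965) (nat_lit 0) (nat_lit 411932605728) (nat_lit 1) (nat_lit 5) (nat_lit 3) (nat_lit 4) (nat_lit 1) (nat_lit 4) (nat_lit 275) (nat_lit 207) (nat_lit 178)) (XT.lf (nat_lit 0) (nat_lit 478589322764) (nat_lit 152) (nat_lit 1906524001297)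 (nat_lit 0) (nat_lit 476385259120) (nat_lit 1) (nat_lit 5) (nat_lit 3) (nat_lit 4) (nat_lit 1) (nat_lit 4) (nat_lit 276) (nat_lit 207) (nat_lit 177))))) (XT.nd (nat_lit 234) (nat_lit 0) (nat_lit 0) (XT.nd (nat_lit 78) (nat_lit 0) (nat_lit 0) (XT.lf (nat_lit 0) (nat_lit 552704736473) (nat_lit 152) (nat_lit 2187307968714) (nat_lit 0) (nat_lit 550496264323) (nat_lit 1) (nat_lit 5) (nat_lit 3) (nat_lit 4) (nat_lit 1) (nat_lit 4) (nat_lit 277) (nat_lit 207) (nat_lit 176)) (XT.nd (nat_lit 78) (nat_lit 0) (nat_lit 0) (XT.lf (nat_lit 0) (nat_lit 637927924898) (nat_lit 152) (nat_lit 2510228137576) (nat_lit 0) (nat_lit 635715619263) (nat_lit 1) (nat_lit 5) (nat_lit 3) (nat_lit 4) (nat_lit 1) (nat_lit 4) (nat_lit 278) (nat_lit 207) (nat_lit 175)) (XT.lf (nat_lit 0) (nat_lit 735926298247) (nat_lit 152) (nat_lit 2881602511190) (nat_lit 0) (nat_lit 733710659147) (nat_lit 1) (nat_lit 5) (nat_lit 3)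 (nat_lit 4) (nat_lit 1) (nat_lit 4) (nat_lit 279) (nat_lit 207) (nat_lit 174)))) (XT.nd (nat_lit 78) (nat_lit 0) (nat_lit 0) (XT.lf (nat_lit 0) (nat_lit 848617215997) (nat_lit 152) (nat_lit 3308697109906) (nat_lit 0) (nat_lit 846398678232) (nat_lit 1) (nat_lit 5) (nat_lit 3) (nat_lit 4) (nat_lit 1) (nat_lit 4) (nat_lit 280) (nat_lit 207) (nat_lit 173)) (XT.nd (nat_lit 78) (nat_lit 0) (nat_lit 0) (XT.lf (nat_lit 0) (nat_lit 978205500453) (nat_lit 152) (nat_lit 3799868132397) (nat_lit 0) (nat_lit 975984442110) (nat_lit 1) (nat_lit 5) (nat_lit 3) (nat_lit 4) (nat_lit 1) (nat_lit 4) (nat_lit 281) (nat_lit 207) (nat_lit 172)) (XT.lf (nat_lit 0) (nat_lit 1127226574572) (nat_lit 152) (nat_lit 4364725446493) (nat_lit 0) (nat_lit 1125003324422) (nat_lit 1) (nat_lit 5) (nat_lit 3) (nat_lit 4) (nat_lit 1) (nat_lit 4) (nat_lit 282) (nat_lit 207) (nat_lit 171)))))) (XT.nd (nat_lit 31434) (nat_lit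 0) (nat_lit 152) (XT.nd (nat_lit 234) (nat_lit 0) (nat_lit 0) (XT.nd (nat_lit 78) (nat_lit 0) (nat_lit 0) (XT.lf (nat_lit 0) (nat_lit 1298596068065) (nat_lit 152) (nat_lit 5014320608340) (nat_lit 0) (nat_lit 1296370911995) (nat_lit 1) (nat_lit 5) (nat_lit 3) (nat_lit 4) (nat_lit 1) (nat_lit 4) (nat_lit 283) (nat_lit 207) (nat_lit 170)) (XT.nd (nat_lit 78) (nat_lit 0) (nat_lit 0) (XT.lf (nat_lit 0) (nat_lit 1495666862325) (nat_lit 152) (nat_lit 5761363088496) (nat_lit 0) (nat_lit 1493440048934) (nat_lit 1) (nat_lit 5) (nat_lit 3) (nat_lit 4) (nat_lit 1) (nat_lit 4) (nat_lit 284) (nat_lit 207) (nat_lit 169)) (XT.lf (nat_lit 0) (nat_lit 1722294690285) (nat_lit 152) (nat_lit 6620468935485) (nat_lit 0) (nat_lit 1720066435746) (nat_lit 1) (nat_lit 5) (nat_lit 3) (nat_lit 4) (nat_lit 1) (nat_lit 4) (nat_lit 285) (nat_lit 207) (nat_lit 168)))) (XT.nd (nat_lit 78) (nat_lit 0) (nat_lit 0) (XT.lf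 (nat_lit 0) (nat_lit 1982913574665) (nat_lit 152) (nat_lit 7608446741967) (nat_lit 0) (nat_lit 1980684066953) (nat_lit 1) (nat_lit 5) (nat_lit 3) (nat_lit 4) (nat_lit 1) (nat_lit 4) (nat_lit 286) (nat_lit 207) (nat_lit 167)) (XT.nd (nat_lit 31044) (nat_lit 0) (nat_lit 228) (XT.lf (nat_lit 0) (nat_lit 2282622580594) (nat_lit 152) (nat_lit 8744626508502) (nat_lit 0) (nat_lit 2280391983166) (nat_lit 1) (nat_lit 5) (nat_lit 3) (nat_lit 4) (nat_lit 1) (nat_lit 4) (nat_lit 287) (nat_lit 207) (nat_lit 166)) (XT.lf (nat_lit 0) (nat_lit 2769013955) (nat_lit 152) (nat_lit 12244147592) (nat_lit 0) (nat_lit 2769013955) (nat_lit 4) (nat_lit 5) (nat_lit 6) (nat_lit 4) (nat_lit 4) (nat_lit 4) (nat_lit 244) (nat_lit 208) (nat_lit 208))))) (XT.nd (nat_lit 234) (nat_lit 0) (nat_lit 0) (XT.nd (nat_lit 78) (nat_lit 76) (nat_lit 0) (XT.lf (nat_lit 0) (nat_lit 13354032494) (nat_lit 152) (nat_lit 13956492617)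 (nat_lit 0) (nat_lit 12991498818) (nat_lit 4) (nat_lit 5) (nat_lit 6) (nat_lit 4) (nat_lit 4) (nat_lit 4) (nat_lit 245) (nat_lit 208) (nat_lit 207)) (XT.nd (nat_lit 78) (nat_lit 76) (nat_lit 0) (XT.lf (nat_lit 0) (nat_lit 21713395854) (nat_lit 152) (nat_lit 3052067914) (nat_lit 0) (nat_lit 21035615503) (nat_lit 4) (nat_lit 5) (nat_lit 6) (nat_lit 4) (nat_lit 4) (nat_lit 4) (nat_lit 246) (nat_lit 208) (nat_lit 206)) (XT.lf (nat_lit 0) (nat_lit 8882673676) (nat_lit 76) (nat_lit 22110625590) (nat_lit 76) (nat_lit 21158717695) (nat_lit 3) (nat_lit 4) (nat_lit 4) (nat_lit 5) (nat_lit 4) (nat_lit 4) (nat_lit 247) (nat_lit 208) (nat_lit 205)))) (XT.nd (nat_lit 78) (nat_lit 0) (nat_lit 0) (XT.lf (nat_lit 0) (nat_lit 21831607716) (nat_lit 76) (nat_lit 19423683798) (nat_lit 76) (nat_lit 18233404127) (nat_lit 3) (nat_lit 4) (nat_lit 4) (nat_lit 5) (nat_lit 4) (nat_lit 4) (nat_lit 248) (nat_lit 208)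 (nat_lit 204)) (XT.nd (nat_lit 78) (nat_lit 0) (nat_lit 0) (XT.lf (nat_lit 0) (nat_lit 35887366427) (nat_lit 76) (nat_lit 16735516739) (nat_lit 76) (nat_lit 15337957262) (nat_lit 3) (nat_lit 4) (nat_lit 4) (nat_lit 5) (nat_lit 4) (nat_lit 4) (nat_lit 249) (nat_lit 208) (nat_lit 203)) (XT.lf (nat_lit 0) (nat_lit 51324953784) (nat_lit 76) (nat_lit 13993529839) (nat_lit 76) (nat_lit 12415727052) (nat_lit 3) (nat_lit 4) (nat_lit 4) (nat_lit 5) (nat_lit 4) (nat_lit 4) (nat_lit 250) (nat_lit 208) (nat_lit 202))))))))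
noncomputable def xc10 : XT := (XT.nd (nat_lit 1872) (nat_lit 0) (nat_lit 0) (XT.nd (nat_lit 936) (nat_lit 0) (nat_lit 0) (XT.nd (nat_lit 468) (nat_lit 0) (nat_lit 0) (XT.nd (nat_lit 234) (nat_lit 152) (nat_lit 0) (XT.nd (nat_lit 78) (nat_lit 0) (nat_lit 0) (XT.lf (nat_lit 0) (nat_lit 68446409539) (nat_lit 76) (nat_lit 11144075529) (nat_lit 76) (nat_lit 9409539429) (nat_lit 3) (nat_lit 4) (nat_lit 4) (nat_lit 5) (nat_lit 4) (nat_lit 4) (nat_lit 251) (nat_lit 208) (nat_lit 201)) (XT.nd (nat_lit 78) (nat_lit 0) (nat_lit 0) (XT.lf (nat_lit 0) (nat_lit 87586718696) (nat_lit 76) (nat_lit 8131403615) (nat_lit 76) (nat_lit 6260577678) (nat_lit 3) (nat_lit 4) (nat_lit 4) (nat_lit 5) (nat_lit 4) (nat_lit 4) (nat_lit 252) (nat_lit 208) (nat_lit 200)) (XT.lf (nat_lit 0) (nat_lit 109120365565) (nat_lit 76) (nat_lit 4896570516) (nat_lit 76) (nat_lit 2907231678) (nat_lit 3) (nat_lit 4) (nat_lit 4)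 (nat_lit 5) (nat_lit 4) (nat_lit 4) (nat_lit 253) (nat_lit 208) (nat_lit 199)))) (XT.nd (nat_lit 78) (nat_lit 76) (nat_lit 0) (XT.lf (nat_lit 0) (nat_lit 680284916) (nat_lit 152) (nat_lit 677400909) (nat_lit 76) (nat_lit 132769775517) (nat_lit 2) (nat_lit 5) (nat_lit 4) (nat_lit 5) (nat_lit 3) (nat_lit 4) (nat_lit 254) (nat_lit 208) (nat_lit 198)) (XT.nd (nat_lit 78) (nat_lit 0) (nat_lit 0) (XT.lf (nat_lit 0) (nat_lit 4692745573) (nat_lit 152) (nat_lit 146535483883) (nat_lit 0) (nat_lit 2672369355) (nat_lit 1) (nat_lit 5) (nat_lit 3) (nat_lit 4) (nat_lit 1) (nat_lit 4) (nat_lit 255) (nat_lit 208) (nat_lit 197)) (XT.lf (nat_lit 0) (nat_lit 9185352375) (nat_lit 152) (nat_lit 160371361612) (nat_lit 0) (nat_lit 7092824160) (nat_lit 1) (nat_lit 5) (nat_lit 3) (nat_lit 4) (nat_lit 1) (nat_lit 4) (nat_lit 256) (nat_lit 208) (nat_lit 196))))) (XT.nd (nat_lit 234) (nat_lit 0) (nat_lit 0) (XT.nd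 (nat_lit 78) (nat_lit 0) (nat_lit 0) (XT.lf (nat_lit 0) (nat_lit 14195756944) (nat_lit 152) (nat_lit 176587142262) (nat_lit 0) (nat_lit 12040487862) (nat_lit 1) (nat_lit 5) (nat_lit 3) (nat_lit 4) (nat_lit 1) (nat_lit 4) (nat_lit 257) (nat_lit 208) (nat_lit 195)) (XT.nd (nat_lit 78) (nat_lit 0) (nat_lit 0) (XT.lf (nat_lit 0) (nat_lit 19821988936) (nat_lit 152) (nat_lit 195500091106) (nat_lit 0) (nat_lit 17612162579) (nat_lit 1) (nat_lit 5) (nat_lit 3) (nat_lit 4) (nat_lit 1) (nat_lit 4) (nat_lit 258) (nat_lit 208) (nat_lit 194)) (XT.lf (nat_lit 0) (nat_lit 26174126803) (nat_lit 152) (nat_lit 217480244100) (nat_lit 0) (nat_lit 23916859336) (nat_lit 1) (nat_lit 5) (nat_lit 3) (nat_lit 4) (nat_lit 1) (nat_lit 4) (nat_lit 259) (nat_lit 208) (nat_lit 193)))) (XT.nd (nat_lit 78) (nat_lit 0) (nat_lit 0) (XT.lf (nat_lit 0) (nat_lit 33376451502) (nat_lit 152) (nat_lit 242957647715) (nat_lit 0)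 (nat_lit 31077930897) (nat_lit 1) (nat_lit 5) (nat_lit 3) (nat_lit 4) (nat_lit 1) (nat_lit 4) (nat_lit 260) (nat_lit 208) (nat_lit 192)) (XT.nd (nat_lit 78) (nat_lit 0) (nat_lit 0) (XT.lf (nat_lit 0) (nat_lit 41569878082) (nat_lit 152) (nat_lit 272430772892) (nat_lit 0) (nat_lit 39235485183) (nat_lit 1) (nat_lit 5) (nat_lit 3) (nat_lit 4) (nat_lit 1) (nat_lit 4) (nat_lit 261) (nat_lit 208) (nat_lit 191)) (XT.lf (nat_lit 0) (nat_lit 50914712716) (nat_lit 152) (nat_lit 306476267733) (nat_lit 0) (nat_lit 48549126517) (nat_lit 1) (nat_lit 5) (nat_lit 3) (nat_lit 4) (nat_lit 1) (nat_lit 4) (nat_lit 262) (nat_lit 208) (nat_lit 190)))))) (XT.nd (nat_lit 468) (nat_lit 0) (nat_lit 0) (XT.nd (nat_lit 234) (nat_lit 0) (nat_lit 0) (XT.nd (nat_lit 78) (nat_lit 0) (nat_lit 0) (XT.lf (nat_lit 0) (nat_lit 61593789124) (nat_lit 152) (nat_lit 345760239744) (nat_lit 0) (nat_lit 59201078317) (nat_lit 1)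 (nat_lit 5) (nat_lit 3) (nat_lit 4) (nat_lit 1) (nat_lit 4) (nat_lit 263) (nat_lit 208) (nat_lit 189)) (XT.nd (nat_lit 78) (nat_lit 0) (nat_lit 0) (XT.lf (nat_lit 0) (nat_lit 73816045758) (nat_lit 152) (nat_lit 391051288378) (nat_lit 0) (nat_lit 71399748336) (nat_lit 1) (nat_lit 5) (nat_lit 3) (nat_lit 4) (nat_lit 1) (nat_lit 4) (nat_lit 264) (nat_lit 208) (nat_lit 188)) (XT.lf (nat_lit 0) (nat_lit 87820613727) (nat_lit 152) (nat_lit 443235542848) (nat_lit 0) (nat_lit 85383806203) (nat_lit 1) (nat_lit 5) (nat_lit 3) (nat_lit 4) (nat_lit 1) (nat_lit 4) (nat_lit 265) (nat_lit 208) (nat_lit 187)))) (XT.nd (nat_lit 78) (nat_lit 0) (nat_lit 0) (XT.lf (nat_lit 0) (nat_lit 103881495446) (nat_lit 152) (nat_lit 503333999437) (nat_lit 0) (nat_lit 101426853052) (nat_lit 1) (nat_lit 5) (nat_lit 3) (nat_lit 4) (nat_lit 1) (nat_lit 4) (nat_lit 266) (nat_lit 208) (nat_lit 186)) (XT.nd (nat_lit 78) (nat_lit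 0) (nat_lit 0) (XT.lf (nat_lit 0) (nat_lit 122312925558) (nat_lit 152) (nat_lit 572522497512) (nat_lit 0) (nat_lit 119842774582) (nat_lit 1) (nat_lit 5) (nat_lit 3) (nat_lit 4) (nat_lit 1) (nat_lit 4) (nat_lit 267) (nat_lit 208) (nat_lit 185)) (XT.lf (nat_lit 0) (nat_lit 143475519000) (nat_lit 152) (nat_lit 652154725080) (nat_lit 0) (nat_lit 140991882300) (nat_lit 1) (nat_lit 5) (nat_lit 3) (nat_lit 4) (nat_lit 1) (nat_lit 4) (nat_lit 268) (nat_lit 208) (nat_lit 184))))) (XT.nd (nat_lit 234) (nat_lit 0) (nat_lit 0) (XT.nd (nat_lit 78) (nat_lit 0) (nat_lit 0) (XT.lf (nat_lit 0) (nat_lit 167783326514) (nat_lit 152) (nat_lit 743788703985) (nat_lit 0) (nat_lit 165287963097) (nat_lit 1) (nat_lit 5) (nat_lit 3) (nat_lit 4) (nat_lit 1) (nat_lit 4) (nat_lit 269) (nat_lit 208) (nat_lit 183)) (XT.nd (nat_lit 78) (nat_lit 0) (nat_lit 0) (XT.lf (nat_lit 0) (nat_lit 195711935638) (nat_lit 152) (nat_lit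 849217272943) (nat_lit 0) (nat_lit 193206375076) (nat_lit 1) (nat_lit 5) (nat_lit 3) (nat_lit 4) (nat_lit 1) (nat_lit 4) (nat_lit 270) (nat_lit 208) (nat_lit 182)) (XT.lf (nat_lit 0) (nat_lit 227807775680) (nat_lit 152) (nat_lit 970503164826) (nat_lit 0) (nat_lit 225293348035) (nat_lit 1) (nat_lit 5) (nat_lit 3) (nat_lit 4) (nat_lit 1) (nat_lit 4) (nat_lit 271) (nat_lit 208) (nat_lit 181)))) (XT.nd (nat_lit 78) (nat_lit 0) (nat_lit 0) (XT.lf (nat_lit 0) (nat_lit 264698808728) (nat_lit 152) (nat_lit 1110019364476) (nat_lit 0) (nat_lit 262176670577) (nat_lit 1) (nat_lit 5) (nat_lit 3) (nat_lit 4) (nat_lit 1) (nat_lit 4) (nat_lit 272) (nat_lit 208) (nat_lit 180)) (XT.nd (nat_lit 78) (nat_lit 0) (nat_lit 0) (XT.lf (nat_lit 0) (nat_lit 307106815865) (nat_lit 152) (nat_lit 1270495536667) (nat_lit 0) (nat_lit 304577972925) (nat_lit 1) (nat_lit 5) (nat_lit 3) (nat_lit 4) (nat_lit 1) (nat_lit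 4) (nat_lit 273) (nat_lit 208) (nat_lit 179)) (XT.lf (nat_lit 0) (nat_lit 355861518967) (nat_lit 152) (nat_lit 1455071432595) (nat_lit 0) (nat_lit 353326845777) (nat_lit 1) (nat_lit 5) (nat_lit 3) (nat_lit 4) (nat_lit 1) (nat_lit 4) (nat_lit 274) (nat_lit 208) (nat_lit 178))))))) (XT.nd (nat_lit 936) (nat_lit 0) (nat_lit 0) (XT.nd (nat_lit 468) (nat_lit 0) (nat_lit 0) (XT.nd (nat_lit 234) (nat_lit 0) (nat_lit 0) (XT.nd (nat_lit 78) (nat_lit 0) (nat_lit 0) (XT.lf (nat_lit 0) (nat_lit 411916814402) (nat_lit 152) (nat_lit 1667358319790) (nat_lit 0) (nat_lit 409377071429) (nat_lit 1) (nat_lit 5) (nat_lit 3) (nat_lit 4) (nat_lit 1) (nat_lit 4) (nat_lit 275) (nat_lit 208) (nat_lit 177)) (XT.nd (nat_lit 78) (nat_lit 0) (nat_lit 0) (XT.lf (nat_lit 0) (nat_lit 476369436209) (nat_lit 152) (nat_lit 1911509637347) (nat_lit 0) (nat_lit 473825284729) (nat_lit 1) (nat_lit 5) (nat_lit 3) (nat_lit 4)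 (nat_lit 1) (nat_lit 4) (nat_lit 276) (nat_lit 208) (nat_lit 176)) (XT.lf (nat_lit 0) (nat_lit 550480413946) (nat_lit 152) (nat_lit 2192302258872) (nat_lit 0) (nat_lit 547932428981) (nat_lit 1) (nat_lit 5) (nat_lit 3) (nat_lit 4) (nat_lit 1) (nat_lit 4) (nat_lit 277) (nat_lit 208) (nat_lit 175)))) (XT.nd (nat_lit 78) (nat_lit 0) (nat_lit 0) (XT.lf (nat_lit 0) (nat_lit 635699745003) (nat_lit 152) (nat_lit 2515229953047) (nat_lit 0) (nat_lit 633148426574) (nat_lit 1) (nat_lit 5) (nat_lit 3) (nat_lit 4) (nat_lit 1) (nat_lit 4) (nat_lit 278) (nat_lit 208) (nat_lit 174)) (XT.nd (nat_lit 78) (nat_lit 0) (nat_lit 0) (XT.lf (nat_lit 0) (nat_lit 733694764119) (nat_lit 152) (nat_lit 2886610870410) (nat_lit 0) (nat_lit 731140547024) (nat_lit 1) (nat_lit 5) (nat_lit 3) (nat_lit 4) (nat_lit 1) (nat_lit 4) (nat_lit 279) (nat_lit 208) (nat_lit 173)) (XT.lf (nat_lit 0) (nat_lit 846382765145) (nat_lit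 152) (nat_lit 3313711159344) (nat_lit 0) (nat_lit 843826027472) (nat_lit 1) (nat_lit 5) (nat_lit 3) (nat_lit 4) (nat_lit 1) (nat_lit 4) (nat_lit 280) (nat_lit 208) (nat_lit 172))))) (XT.nd (nat_lit 234) (nat_lit 0) (nat_lit 0) (XT.nd (nat_lit 78) (nat_lit 0) (nat_lit 0) (XT.lf (nat_lit 0) (nat_lit 975968513320) (nat_lit 152) (nat_lit 3804887129849) (nat_lit 0) (nat_lit 973409583840) (nat_lit 1) (nat_lit 5) (nat_lit 3) (nat_lit 4) (nat_lit 1) (nat_lit 4) (nat_lit 281) (nat_lit 208) (nat_lit 171)) (XT.nd (nat_lit 78) (nat_lit 0) (nat_lit 0) (XT.lf (nat_lit 0) (nat_lit 1124987381976) (nat_lit 152) (nat_lit 4369748746567) (nat_lit 0) (nat_lit 1122426546577) (nat_lit 1) (nat_lit 5) (nat_lit 3) (nat_lit 4) (nat_lit 1) (nat_lit 4) (nat_lit 282) (nat_lit 208) (nat_lit 170)) (XT.lf (nat_lit 0) (nat_lit 1296354957675) (nat_lit 152) (nat_lit 5019347649824) (nat_lit 0) (nat_lit 1293792464955) (nat_lit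 1) (nat_lit 5) (nat_lit 3) (nat_lit 4) (nat_lit 1) (nat_lit 4) (nat_lit 283) (nat_lit 208) (nat_lit 169)))) (XT.nd (nat_lit 78) (nat_lit 0) (nat_lit 0) (XT.lf (nat_lit 0) (nat_lit 1493424084289) (nat_lit 152) (nat_lit 5766393383380) (nat_lit 0) (nat_lit 1490860150420) (nat_lit 1) (nat_lit 5) (nat_lit 3) (nat_lit 4) (nat_lit 1) (nat_lit 4) (nat_lit 284) (nat_lit 208) (nat_lit 168)) (XT.nd (nat_lit 78) (nat_lit 0) (nat_lit 0) (XT.lf (nat_lit 0) (nat_lit 1720050462122) (nat_lit 152) (nat_lit 6625502059413) (nat_lit 0) (nat_lit 1717485275080) (nat_lit 1) (nat_lit 5) (nat_lit 3) (nat_lit 4) (nat_lit 1) (nat_lit 4) (nat_lit 285) (nat_lit 208) (nat_lit 167)) (XT.lf (nat_lit 0) (nat_lit 1980668085522) (nat_lit 152) (nat_lit 7613482325932) (nat_lit 0) (nat_lit 1978101808764) (nat_lit 1) (nat_lit 5) (nat_lit 3) (nat_lit 4) (nat_lit 1) (nat_lit 4) (nat_lit 286) (nat_lit 208) (nat_lit 166)))))) (XT.nd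 (nat_lit 31278) (nat_lit 0) (nat_lit 152) (XT.nd (nat_lit 31044) (nat_lit 0) (nat_lit 228) (XT.nd (nat_lit 30888) (nat_lit 0) (nat_lit 380) (XT.lf (nat_lit 0) (nat_lit 2280375994946) (nat_lit 152) (nat_lit 8749664231630) (nat_lit 0) (nat_lit 2277808770610) (nat_lit 1) (nat_lit 5) (nat_lit 3) (nat_lit 4) (nat_lit 1) (nat_lit 4) (nat_lit 287) (nat_lit 208) (nat_lit 165)) (XT.nd (nat_lit 78) (nat_lit 0) (nat_lit 0) (XT.lf (nat_lit 0) (nat_lit 5905004846) (nat_lit 76) (nat_lit 4027443875) (nat_lit 76) (nat_lit 4027443875) (nat_lit 6) (nat_lit 4) (nat_lit 7) (nat_lit 5) (nat_lit 7) (nat_lit 4) (nat_lit 242) (nat_lit 209) (nat_lit 209)) (XT.lf (nat_lit 0) (nat_lit 28209119133) (nat_lit 76) (nat_lit 1861707848) (nat_lit 76) (nat_lit 1411441023) (nat_lit 6) (nat_lit 4) (nat_lit 7) (nat_lit 5) (nat_lit 7) (nat_lit 4) (nat_lit 243) (nat_lit 209) (nat_lit 208)))) (XT.nd (nat_lit 78) (nat_lit 0)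 (nat_lit 0) (XT.lf (nat_lit 0) (nat_lit 5618477359) (nat_lit 152) (nat_lit 25133979132) (nat_lit 0) (nat_lit 4839029955) (nat_lit 4) (nat_lit 5) (nat_lit 6) (nat_lit 4) (nat_lit 4) (nat_lit 4) (nat_lit 244) (nat_lit 209) (nat_lit 207)) (XT.nd (nat_lit 78) (nat_lit 0) (nat_lit 0) (XT.lf (nat_lit 0) (nat_lit 13141904310) (nat_lit 152) (nat_lit 15163640866) (nat_lit 0) (nat_lit 12047210231) (nat_lit 4) (nat_lit 5) (nat_lit 6) (nat_lit 4) (nat_lit 4) (nat_lit 4) (nat_lit 245) (nat_lit 209) (nat_lit 206)) (XT.lf (nat_lit 0) (nat_lit 21246852336) (nat_lit 152) (nat_lit 4747445991) (nat_lit 0) (nat_lit 19878030714) (nat_lit 4) (nat_lit 5) (nat_lit 6) (nat_lit 4) (nat_lit 4) (nat_lit 4) (nat_lit 246) (nat_lit 209) (nat_lit 205))))) (XT.nd (nat_lit 234) (nat_lit 0) (nat_lit 0) (XT.nd (nat_lit 78) (nat_lit 0) (nat_lit 0) (XT.lf (nat_lit 0) (nat_lit 6651116389) (nat_lit 76) (nat_lit 23600739628)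 (nat_lit 76) (nat_lit 21993546230) (nat_lit 3) (nat_lit 4) (nat_lit 4) (nat_lit 5) (nat_lit 4) (nat_lit 4) (nat_lit 247) (nat_lit 209) (nat_lit 204)) (XT.nd (nat_lit 78) (nat_lit 0) (nat_lit 0) (XT.lf (nat_lit 0) (nat_lit 19211438599) (nat_lit 76) (nat_lit 21100689000) (nat_lit 76) (nat_lit 19286215796) (nat_lit 3) (nat_lit 4) (nat_lit 4) (nat_lit 5) (nat_lit 4) (nat_lit 4) (nat_lit 248) (nat_lit 209) (nat_lit 203)) (XT.lf (nat_lit 0) (nat_lit 32929273979) (nat_lit 76) (nat_lit 18575035996) (nat_lit 76) (nat_lit 16580319482) (nat_lit 3) (nat_lit 4) (nat_lit 4) (nat_lit 5) (nat_lit 4) (nat_lit 4) (nat_lit 249) (nat_lit 209) (nat_lit 202)))) (XT.nd (nat_lit 78) (nat_lit 0) (nat_lit 0) (XT.lf (nat_lit 0) (nat_lit 48073014961) (nat_lit 76) (nat_lit 15974365666) (nat_lit 76) (nat_lit 13822915839) (nat_lit 3) (nat_lit 4) (nat_lit 4) (nat_lit 5) (nat_lit 4) (nat_lit 4) (nat_lit 250) (nat_lit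 209) (nat_lit 201)) (XT.nd (nat_lit 78) (nat_lit 0) (nat_lit 0) (XT.lf (nat_lit 0) (nat_lit 64938952129) (nat_lit 76) (nat_lit 13247795329) (nat_lit 76) (nat_lit 10960055665) (nat_lit 3) (nat_lit 4) (nat_lit 4) (nat_lit 5) (nat_lit 4) (nat_lit 4) (nat_lit 251) (nat_lit 209) (nat_lit 200)) (XT.lf (nat_lit 0) (nat_lit 83857071211) (nat_lit 76) (nat_lit 10341979044) (nat_lit 76) (nat_lit 7935726478) (nat_lit 3) (nat_lit 4) (nat_lit 4) (nat_lit 5) (nat_lit 4) (nat_lit 4) (nat_lit 252) (nat_lit 209) (nat_lit 199))))))))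
noncomputable def xc11 : XT := (XT.nd (nat_lit 1872) (nat_lit 0) (nat_lit 0) (XT.nd (nat_lit 936) (nat_lit 0) (nat_lit 0) (XT.nd (nat_lit 468) (nat_lit 0) (nat_lit 0) (XT.nd (nat_lit 234) (nat_lit 0) (nat_lit 0) (XT.nd (nat_lit 78) (nat_lit 152) (nat_lit 0) (XT.lf (nat_lit 0) (nat_lit 105197509319) (nat_lit 76) (nat_lit 7200063884) (nat_lit 76) (nat_lit 4690756621) (nat_lit 3) (nat_lit 4) (nat_lit 4) (nat_lit 5) (nat_lit 4) (nat_lit 4) (nat_lit 253) (nat_lit 209) (nat_lit 198)) (XT.nd (nat_lit 78) (nat_lit 152) (nat_lit 0) (XT.lf (nat_lit 0) (nat_lit 129377796764) (nat_lit 76) (nat_lit 3760577595) (nat_lit 76) (nat_lit 1161657552) (nat_lit 3) (nat_lit 4) (nat_lit 4) (nat_lit 5) (nat_lit 4) (nat_lit 4) (nat_lit 254) (nat_lit 209) (nat_lit 197)) (XT.lf (nat_lit 0) (nat_lit 2657377140) (nat_lit 152) (nat_lit 151259375964) (nat_lit 0) (nat_lit 178817696) (nat_lit 1) (nat_lit 5) (nat_lit 3)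 (nat_lit 4) (nat_lit 1) (nat_lit 4) (nat_lit 255) (nat_lit 209) (nat_lit 196)))) (XT.nd (nat_lit 78) (nat_lit 0) (nat_lit 0) (XT.lf (nat_lit 0) (nat_lit 7077382429) (nat_lit 152) (nat_lit 165236891489) (nat_lit 0) (nat_lit 4536082118) (nat_lit 1) (nat_lit 5) (nat_lit 3) (nat_lit 4) (nat_lit 1) (nat_lit 4) (nat_lit 256) (nat_lit 209) (nat_lit 195)) (XT.nd (nat_lit 78) (nat_lit 0) (nat_lit 0) (XT.lf (nat_lit 0) (nat_lit 12024655248) (nat_lit 152) (nat_lit 181575835440) (nat_lit 0) (nat_lit 9428797662) (nat_lit 1) (nat_lit 5) (nat_lit 3) (nat_lit 4) (nat_lit 1) (nat_lit 4) (nat_lit 257) (nat_lit 209) (nat_lit 194)) (XT.lf (nat_lit 0) (nat_lit 17595990066) (nat_lit 152) (nat_lit 200595882806) (nat_lit 0) (nat_lit 14952691371) (nat_lit 1) (nat_lit 5) (nat_lit 3) (nat_lit 4) (nat_lit 1) (nat_lit 4) (nat_lit 258) (nat_lit 209) (nat_lit 193))))) (XT.nd (nat_lit 234) (nat_lit 0) (nat_lit 0) (XT.nd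 (nat_lit 78) (nat_lit 0) (nat_lit 0) (XT.lf (nat_lit 0) (nat_lit 23900391260) (nat_lit 152) (nat_lit 222669164950) (nat_lit 0) (nat_lit 21215839425) (nat_lit 1) (nat_lit 5) (nat_lit 3) (nat_lit 4) (nat_lit 1) (nat_lit 4) (nat_lit 259) (nat_lit 209) (nat_lit 192)) (XT.nd (nat_lit 78) (nat_lit 0) (nat_lit 0) (XT.lf (nat_lit 0) (nat_lit 31061205808) (nat_lit 152) (nat_lit 248227550435) (nat_lit 0) (nat_lit 28340781680) (nat_lit 1) (nat_lit 5) (nat_lit 3) (nat_lit 4) (nat_lit 1) (nat_lit 4) (nat_lit 260) (nat_lit 209) (nat_lit 191)) (XT.lf (nat_lit 0) (nat_lit 39218536606) (nat_lit 152) (nat_lit 277771094629) (nat_lit 0) (nat_lit 36466919178) (nat_lit 1) (nat_lit 5) (nat_lit 3) (nat_lit 4) (nat_lit 1) (nat_lit 4) (nat_lit 261) (nat_lit 209) (nat_lit 190)))) (XT.nd (nat_lit 78) (nat_lit 0) (nat_lit 0) (XT.lf (nat_lit 0) (nat_lit 48531983602) (nat_lit 152) (nat_lit 311877823398) (nat_lit 0)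 (nat_lit 45753241566) (nat_lit 1) (nat_lit 5) (nat_lit 3) (nat_lit 4) (nat_lit 1) (nat_lit 4) (nat_lit 262) (nat_lit 209) (nat_lit 189)) (XT.nd (nat_lit 78) (nat_lit 0) (nat_lit 0) (XT.lf (nat_lit 0) (nat_lit 59183766412) (nat_lit 152) (nat_lit 351215042302) (nat_lit 0) (nat_lit 56381437760) (nat_lit 1) (nat_lit 5) (nat_lit 3) (nat_lit 4) (nat_lit 1) (nat_lit 4) (nat_lit 263) (nat_lit 209) (nat_lit 188)) (XT.lf (nat_lit 0) (nat_lit 71382289483) (nat_lit 152) (nat_lit 396552392583) (nat_lit 0) (nat_lit 68559450731) (nat_lit 1) (nat_lit 5) (nat_lit 3) (nat_lit 4) (nat_lit 1) (nat_lit 4) (nat_lit 264) (nat_lit 209) (nat_lit 187)))))) (XT.nd (nat_lit 468) (nat_lit 0) (nat_lit 0) (XT.nd (nat_lit 234) (nat_lit 0) (nat_lit 0) (XT.nd (nat_lit 78) (nat_lit 0) (nat_lit 0) (XT.lf (nat_lit 0) (nat_lit 85366219570) (nat_lit 152) (nat_lit 448776909355) (nat_lit 0) (nat_lit 82525545948) (nat_lit 1)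 (nat_lit 5) (nat_lit 3) (nat_lit 4) (nat_lit 1) (nat_lit 4) (nat_lit 265) (nat_lit 209) (nat_lit 186)) (XT.nd (nat_lit 78) (nat_lit 0) (nat_lit 0) (XT.lf (nat_lit 0) (nat_lit 101409155306) (nat_lit 152) (nat_lit 508910376641) (nat_lit 0) (nat_lit 98552973101) (nat_lit 1) (nat_lit 5) (nat_lit 3) (nat_lit 4) (nat_lit 1) (nat_lit 4) (nat_lit 266) (nat_lit 209) (nat_lit 185)) (XT.lf (nat_lit 0) (nat_lit 119824980215) (nat_lit 152) (nat_lit 578129318800) (nat_lit 0) (nat_lit 116955312286) (nat_lit 1) (nat_lit 5) (nat_lit 3) (nat_lit 4) (nat_lit 1) (nat_lit 4) (nat_lit 267) (nat_lit 209) (nat_lit 184)))) (XT.nd (nat_lit 78) (nat_lit 0) (nat_lit 0) (XT.lf (nat_lit 0) (nat_lit 140974003916) (nat_lit 152) (nat_lit 657788019485) (nat_lit 0) (nat_lit 138092609269) (nat_lit 1) (nat_lit 5) (nat_lit 3) (nat_lit 4) (nat_lit 1) (nat_lit 4) (nat_lit 268) (nat_lit 209) (nat_lit 183)) (XT.nd (nat_lit 78)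 (nat_lit 0) (nat_lit 0) (XT.lf (nat_lit 0) (nat_lit 165270011654) (nat_lit 152) (nat_lit 749445018491) (nat_lit 0) (nat_lit 162378419863) (nat_lit 1) (nat_lit 5) (nat_lit 3) (nat_lit 4) (nat_lit 1) (nat_lit 4) (nat_lit 269) (nat_lit 209) (nat_lit 182)) (XT.lf (nat_lit 0) (nat_lit 193188360103) (nat_lit 152) (nat_lit 854893604929) (nat_lit 0) (nat_lit 190287901229) (nat_lit 1) (nat_lit 5) (nat_lit 3) (nat_lit 4) (nat_lit 1) (nat_lit 4) (nat_lit 270) (nat_lit 209) (nat_lit 181))))) (XT.nd (nat_lit 234) (nat_lit 0) (nat_lit 0) (XT.nd (nat_lit 78) (nat_lit 0) (nat_lit 0) (XT.lf (nat_lit 0) (nat_lit 225275277820) (nat_lit 152) (nat_lit 976196903316) (nat_lit 0) (nat_lit 222367108439) (nat_lit 1) (nat_lit 5) (nat_lit 3) (nat_lit 4) (nat_lit 1) (nat_lit 4) (nat_lit 271) (nat_lit 209) (nat_lit 180)) (XT.nd (nat_lit 78) (nat_lit 0) (nat_lit 0) (XT.lf (nat_lit 0) (nat_lit 262158552324) (nat_lit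 152) (nat_lit 1115728239056) (nat_lit 0) (nat_lit 259243678156) (nat_lit 1) (nat_lit 5) (nat_lit 3) (nat_lit 4) (nat_lit 1) (nat_lit 4) (nat_lit 272) (nat_lit 209) (nat_lit 179)) (XT.lf (nat_lit 0) (nat_lit 304559812900) (nat_lit 152) (nat_lit 1276217573066) (nat_lit 0) (nat_lit 301639108481) (nat_lit 1) (nat_lit 5) (nat_lit 3) (nat_lit 4) (nat_lit 1) (nat_lit 4) (nat_lit 273) (nat_lit 209) (nat_lit 178)))) (XT.nd (nat_lit 78) (nat_lit 0) (nat_lit 0) (XT.lf (nat_lit 0) (nat_lit 353308649429) (nat_lit 152) (nat_lit 1460804914053) (nat_lit 0) (nat_lit 350382875227) (nat_lit 1) (nat_lit 5) (nat_lit 3) (nat_lit 4) (nat_lit 1) (nat_lit 4) (nat_lit 274) (nat_lit 209) (nat_lit 177)) (XT.nd (nat_lit 78) (nat_lit 0) (nat_lit 0) (XT.lf (nat_lit 0) (nat_lit 409358843495) (nat_lit 152) (nat_lit 1673101753472) (nat_lit 0) (nat_lit 406428660786) (nat_lit 1) (nat_lit 5) (nat_lit 3) (nat_lit 4) (nat_lit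 1) (nat_lit 4) (nat_lit 275) (nat_lit 209) (nat_lit 176)) (XT.lf (nat_lit 0) (nat_lit 473807029330) (nat_lit 152) (nat_lit 1917261725139) (nat_lit 0) (nat_lit 470873013136) (nat_lit 1) (nat_lit 5) (nat_lit 3) (nat_lit 4) (nat_lit 1) (nat_lit 4) (nat_lit 276) (nat_lit 209) (nat_lit 175))))))) (XT.nd (nat_lit 31590) (nat_lit 0) (nat_lit 152) (XT.nd (nat_lit 468) (nat_lit 0) (nat_lit 0) (XT.nd (nat_lit 234) (nat_lit 0) (nat_lit 0) (XT.nd (nat_lit 78) (nat_lit 0) (nat_lit 0) (XT.lf (nat_lit 0) (nat_lit 547914149699) (nat_lit 152) (nat_lit 2198061871976) (nat_lit 0) (nat_lit 544976800040) (nat_lit 1) (nat_lit 5) (nat_lit 3) (nat_lit 4) (nat_lit 1) (nat_lit 4) (nat_lit 277) (nat_lit 209) (nat_lit 174)) (XT.nd (nat_lit 78) (nat_lit 0) (nat_lit 0) (XT.lf (nat_lit 0) (nat_lit 633130126524) (nat_lit 152) (nat_lit 2520996109900) (nat_lit 0) (nat_lit 630189878200) (nat_lit 1) (nat_lit 5) (nat_lit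 3) (nat_lit 4) (nat_lit 1) (nat_lit 4) (nat_lit 278) (nat_lit 209) (nat_lit 173)) (XT.lf (nat_lit 0) (nat_lit 731122228915) (nat_lit 152) (nat_lit 2892382717480) (nat_lit 0) (nat_lit 728179460013) (nat_lit 1) (nat_lit 5) (nat_lit 3) (nat_lit 4) (nat_lit 1) (nat_lit 4) (nat_lit 279) (nat_lit 209) (nat_lit 172)))) (XT.nd (nat_lit 78) (nat_lit 0) (nat_lit 0) (XT.lf (nat_lit 0) (nat_lit 843807693660) (nat_lit 152) (nat_lit 3319487954428) (nat_lit 0) (nat_lit 840862732951) (nat_lit 1) (nat_lit 5) (nat_lit 3) (nat_lit 4) (nat_lit 1) (nat_lit 4) (nat_lit 280) (nat_lit 209) (nat_lit 171)) (XT.nd (nat_lit 78) (nat_lit 0) (nat_lit 0) (XT.lf (nat_lit 0) (nat_lit 973391236372) (nat_lit 152) (nat_lit 3810668227556) (nat_lit 0) (nat_lit 970444369744) (nat_lit 1) (nat_lit 5) (nat_lit 3) (nat_lit 4) (nat_lit 1) (nat_lit 4) (nat_lit 281) (nat_lit 209) (nat_lit 170)) (XT.lf (nat_lit 0) (nat_lit 1122408187235)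 (nat_lit 152) (nat_lit 4375533585684) (nat_lit 0) (nat_lit 1119459663286) (nat_lit 1) (nat_lit 5) (nat_lit 3) (nat_lit 4) (nat_lit 1) (nat_lit 4) (nat_lit 282) (nat_lit 209) (nat_lit 169))))) (XT.nd (nat_lit 234) (nat_lit 0) (nat_lit 0) (XT.nd (nat_lit 78) (nat_lit 0) (nat_lit 0) (XT.lf (nat_lit 0) (nat_lit 1293774095288) (nat_lit 152) (nat_lit 5025135742341) (nat_lit 0) (nat_lit 1290824130189) (nat_lit 1) (nat_lit 5) (nat_lit 3) (nat_lit 4) (nat_lit 1) (nat_lit 4) (nat_lit 283) (nat_lit 209) (nat_lit 168)) (XT.nd (nat_lit 78) (nat_lit 0) (nat_lit 0) (XT.lf (nat_lit 0) (nat_lit 1490841771775) (nat_lit 152) (nat_lit 5772184304940) (nat_lit 0) (nat_lit 1487890553503) (nat_lit 1) (nat_lit 5) (nat_lit 3) (nat_lit 4) (nat_lit 1) (nat_lit 4) (nat_lit 284) (nat_lit 209) (nat_lit 167)) (XT.lf (nat_lit 0) (nat_lit 1717466888627) (nat_lit 152) (nat_lit 6631295441011) (nat_lit 0) (nat_lit 1714514580640)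 (nat_lit 1) (nat_lit 5) (nat_lit 3) (nat_lit 4) (nat_lit 1) (nat_lit 4) (nat_lit 285) (nat_lit 209) (nat_lit 166)))) (XT.nd (nat_lit 78) (nat_lit 0) (nat_lit 0) (XT.lf (nat_lit 0) (nat_lit 1978083415522) (nat_lit 152) (nat_lit 7619277846693) (nat_lit 0) (nat_lit 1975130159956) (nat_lit 1) (nat_lit 5) (nat_lit 3) (nat_lit 4) (nat_lit 1) (nat_lit 4) (nat_lit 286) (nat_lit 209) (nat_lit 165)) (XT.nd (nat_lit 30732) (nat_lit 0) (nat_lit 456) (XT.lf (nat_lit 0) (nat_lit 2277790371464) (nat_lit 152) (nat_lit 8755461612534) (nat_lit 0) (nat_lit 2274836291917) (nat_lit 1) (nat_lit 5) (nat_lit 3) (nat_lit 4) (nat_lit 1) (nat_lit 4) (nat_lit 287) (nat_lit 209) (nat_lit 164)) (XT.lf (nat_lit 0) (nat_lit 1318763190) (nat_lit 152) (nat_lit 8473327938) (nat_lit 0) (nat_lit 1318763190) (nat_lit 7) (nat_lit 5) (nat_lit 9) (nat_lit 4) (nat_lit 7) (nat_lit 4) (nat_lit 240) (nat_lit 210) (nat_lit 210))))))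 (XT.nd (nat_lit 468) (nat_lit 76) (nat_lit 0) (XT.nd (nat_lit 234) (nat_lit 152) (nat_lit 0) (XT.nd (nat_lit 78) (nat_lit 76) (nat_lit 0) (XT.lf (nat_lit 0) (nat_lit 10938716026) (nat_lit 152) (nat_lit 3508397096) (nat_lit 0) (nat_lit 10420909176) (nat_lit 7) (nat_lit 5) (nat_lit 9) (nat_lit 4) (nat_lit 7) (nat_lit 4) (nat_lit 241) (nat_lit 210) (nat_lit 209)) (XT.nd (nat_lit 78) (nat_lit 0) (nat_lit 0) (XT.lf (nat_lit 0) (nat_lit 11145118420) (nat_lit 76) (nat_lit 8885585791) (nat_lit 76) (nat_lit 7917512116) (nat_lit 6) (nat_lit 4) (nat_lit 7) (nat_lit 5) (nat_lit 7) (nat_lit 4) (nat_lit 242) (nat_lit 210) (nat_lit 208)) (XT.lf (nat_lit 0) (nat_lit 26966061537) (nat_lit 76) (nat_lit 2964485187) (nat_lit 76) (nat_lit 1604875141) (nat_lit 6) (nat_lit 4) (nat_lit 7) (nat_lit 5) (nat_lit 7) (nat_lit 4) (nat_lit 243) (nat_lit 210) (nat_lit 207)))) (XT.nd (nat_lit 78) (nat_lit 0) (nat_lit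 0) (XT.lf (nat_lit 0) (nat_lit 5081952314) (nat_lit 152) (nat_lit 27083663921) (nat_lit 0) (nat_lit 3507807449) (nat_lit 4) (nat_lit 5) (nat_lit 6) (nat_lit 4) (nat_lit 4) (nat_lit 4) (nat_lit 244) (nat_lit 210) (nat_lit 206)) (XT.nd (nat_lit 78) (nat_lit 0) (nat_lit 0) (XT.lf (nat_lit 0) (nat_lit 12350963931) (nat_lit 152) (nat_lit 17601555484) (nat_lit 0) (nat_lit 10502691522) (nat_lit 4) (nat_lit 5) (nat_lit 6) (nat_lit 4) (nat_lit 4) (nat_lit 4) (nat_lit 245) (nat_lit 210) (nat_lit 205)) (XT.lf (nat_lit 0) (nat_lit 20234681233) (nat_lit 152) (nat_lit 7609908285) (nat_lit 0) (nat_lit 18148037047) (nat_lit 4) (nat_lit 5) (nat_lit 6) (nat_lit 4) (nat_lit 4) (nat_lit 4) (nat_lit 246) (nat_lit 210) (nat_lit 204))))) (XT.nd (nat_lit 234) (nat_lit 0) (nat_lit 0) (XT.nd (nat_lit 78) (nat_lit 0) (nat_lit 0) (XT.lf (nat_lit 0) (nat_lit 3249310073) (nat_lit 76) (nat_lit 25716186774) (nat_lit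 76) (nat_lit 23422262783) (nat_lit 3) (nat_lit 4) (nat_lit 4) (nat_lit 5) (nat_lit 4) (nat_lit 4) (nat_lit 247) (nat_lit 210) (nat_lit 203)) (XT.nd (nat_lit 78) (nat_lit 0) (nat_lit 0) (XT.lf (nat_lit 0) (nat_lit 15471708952) (nat_lit 76) (nat_lit 23378650201) (nat_lit 76) (nat_lit 20904482900) (nat_lit 3) (nat_lit 4) (nat_lit 4) (nat_lit 5) (nat_lit 4) (nat_lit 4) (nat_lit 248) (nat_lit 210) (nat_lit 202)) (XT.lf (nat_lit 0) (nat_lit 28895697958) (nat_lit 76) (nat_lit 20994313766) (nat_lit 76) (nat_lit 18363413153) (nat_lit 3) (nat_lit 4) (nat_lit 4) (nat_lit 5) (nat_lit 4) (nat_lit 4) (nat_lit 249) (nat_lit 210) (nat_lit 201)))) (XT.nd (nat_lit 156) (nat_lit 0) (nat_lit 0) (XT.nd (nat_lit 78) (nat_lit 0) (nat_lit 0) (XT.lf (nat_lit 0) (nat_lit 43783920353) (nat_lit 76) (nat_lit 18516527409) (nat_lit 76) (nat_lit 15749336959) (nat_lit 3) (nat_lit 4) (nat_lit 4) (nat_lit 5) (nat_lit 4)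 (nat_lit 4) (nat_lit 250) (nat_lit 210) (nat_lit 200)) (XT.lf (nat_lit 0) (nat_lit 60427667447) (nat_lit 76) (nat_lit 15896812701) (nat_lit 76) (nat_lit 13011109349) (nat_lit 3) (nat_lit 4) (nat_lit 4) (nat_lit 5) (nat_lit 4) (nat_lit 4) (nat_lit 251) (nat_lit 210) (nat_lit 199))) (XT.nd (nat_lit 78) (nat_lit 0) (nat_lit 0) (XT.lf (nat_lit 0) (nat_lit 79152577768) (nat_lit 76) (nat_lit 13083914355) (nat_lit 76) (nat_lit 10095156305) (nat_lit 3) (nat_lit 4) (nat_lit 4) (nat_lit 5) (nat_lit 4) (nat_lit 4) (nat_lit 252) (nat_lit 210) (nat_lit 198)) (XT.lf (nat_lit 0) (nat_lit 100325008257) (nat_lit 76) (nat_lit 10022797402) (nat_lit 76) (nat_lit 6944426572) (nat_lit 3) (nat_lit 4) (nat_lit 4) (nat_lit 5) (nat_lit 4) (nat_lit 4) (nat_lit 253) (nat_lit 210) (nat_lit 197))))))))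
noncomputable def xc12 : XT := (XT.nd (nat_lit 1872) (nat_lit 0) (nat_lit 0) (XT.nd (nat_lit 936) (nat_lit 0) (nat_lit 0) (XT.nd (nat_lit 468) (nat_lit 0) (nat_lit 0) (XT.nd (nat_lit 234) (nat_lit 0) (nat_lit 0) (XT.nd (nat_lit 78) (nat_lit 152) (nat_lit 0) (XT.lf (nat_lit 0) (nat_lit 124359202121) (nat_lit 76) (nat_lit 6653570424) (nat_lit 76) (nat_lit 3497275438) (nat_lit 3) (nat_lit 4) (nat_lit 4) (nat_lit 5) (nat_lit 4) (nat_lit 4) (nat_lit 254) (nat_lit 210) (nat_lit 196)) (XT.nd (nat_lit 78) (nat_lit 76) (nat_lit 0) (XT.lf (nat_lit 0) (nat_lit 298046745) (nat_lit 152) (nat_lit 2604117891) (nat_lit 76) (nat_lit 151419197714) (nat_lit 2) (nat_lit 5) (nat_lit 4) (nat_lit 5) (nat_lit 3) (nat_lit 4) (nat_lit 255) (nat_lit 210) (nat_lit 195)) (XT.lf (nat_lit 0) (nat_lit 4517483729) (nat_lit 152) (nat_lit 171097051945) (nat_lit 0) (nat_lit 1477690229) (nat_lit 1) (nat_lit 5) (nat_lit 3)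 (nat_lit 4) (nat_lit 1) (nat_lit 4) (nat_lit 256) (nat_lit 210) (nat_lit 194)))) (XT.nd (nat_lit 78) (nat_lit 0) (nat_lit 0) (XT.lf (nat_lit 0) (nat_lit 9409859374) (nat_lit 152) (nat_lit 187543094418) (nat_lit 0) (nat_lit 6322624765) (nat_lit 1) (nat_lit 5) (nat_lit 3) (nat_lit 4) (nat_lit 1) (nat_lit 4) (nat_lit 257) (nat_lit 210) (nat_lit 193)) (XT.nd (nat_lit 78) (nat_lit 0) (nat_lit 0) (XT.lf (nat_lit 0) (nat_lit 14933457519) (nat_lit 152) (nat_lit 206656270935) (nat_lit 0) (nat_lit 11804969771) (nat_lit 1) (nat_lit 5) (nat_lit 3) (nat_lit 4) (nat_lit 1) (nat_lit 4) (nat_lit 258) (nat_lit 210) (nat_lit 192)) (XT.lf (nat_lit 0) (nat_lit 21196348562) (nat_lit 152) (nat_lit 228810534948) (nat_lit 0) (nat_lit 18031988520) (nat_lit 1) (nat_lit 5) (nat_lit 3) (nat_lit 4) (nat_lit 1) (nat_lit 4) (nat_lit 259) (nat_lit 210) (nat_lit 191))))) (XT.nd (nat_lit 234) (nat_lit 0) (nat_lit 0) (XT.nd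 (nat_lit 78) (nat_lit 0) (nat_lit 0) (XT.lf (nat_lit 0) (nat_lit 28321067327) (nat_lit 152) (nat_lit 254439339450) (nat_lit 0) (nat_lit 25125513986) (nat_lit 1) (nat_lit 5) (nat_lit 3) (nat_lit 4) (nat_lit 1) (nat_lit 4) (nat_lit 260) (nat_lit 210) (nat_lit 190)) (XT.nd (nat_lit 78) (nat_lit 0) (nat_lit 0) (XT.lf (nat_lit 0) (nat_lit 36447010487) (nat_lit 152) (nat_lit 284044117572) (nat_lit 0) (nat_lit 33224332537) (nat_lit 1) (nat_lit 5) (nat_lit 3) (nat_lit 4) (nat_lit 1) (nat_lit 4) (nat_lit 261) (nat_lit 210) (nat_lit 189)) (XT.lf (nat_lit 0) (nat_lit 45733163885) (nat_lit 152) (nat_lit 318204093234) (nat_lit 0) (nat_lit 42486899320) (nat_lit 1) (nat_lit 5) (nat_lit 3) (nat_lit 4) (nat_lit 1) (nat_lit 4) (nat_lit 262) (nat_lit 210) (nat_lit 188)))) (XT.nd (nat_lit 78) (nat_lit 0) (nat_lit 0) (XT.lf (nat_lit 0) (nat_lit 56361213133) (nat_lit 152) (nat_lit 357587613785) (nat_lit 0)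 (nat_lit 53094438467) (nat_lit 1) (nat_lit 5) (nat_lit 3) (nat_lit 4) (nat_lit 1) (nat_lit 4) (nat_lit 263) (nat_lit 210) (nat_lit 187)) (XT.nd (nat_lit 78) (nat_lit 0) (nat_lit 0) (XT.lf (nat_lit 0) (nat_lit 68539098322) (nat_lit 152) (nat_lit 402965226368) (nat_lit 0) (nat_lit 65254488786) (nat_lit 1) (nat_lit 5) (nat_lit 3) (nat_lit 4) (nat_lit 1) (nat_lit 4) (nat_lit 264) (nat_lit 210) (nat_lit 186)) (XT.lf (nat_lit 0) (nat_lit 82505082426) (nat_lit 152) (nat_lit 455224753836) (nat_lit 0) (nat_lit 79204964307) (nat_lit 1) (nat_lit 5) (nat_lit 3) (nat_lit 4) (nat_lit 1) (nat_lit 4) (nat_lit 265) (nat_lit 210) (nat_lit 185)))))) (XT.nd (nat_lit 468) (nat_lit 0) (nat_lit 0) (XT.nd (nat_lit 234) (nat_lit 0) (nat_lit 0) (XT.nd (nat_lit 78) (nat_lit 0) (nat_lit 0) (XT.lf (nat_lit 0) (nat_lit 98532412958) (nat_lit 152) (nat_lit 515388665206) (nat_lit 0) (nat_lit 95218809115) (nat_lit 1)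 (nat_lit 5) (nat_lit 3) (nat_lit 4) (nat_lit 1) (nat_lit 4) (nat_lit 266) (nat_lit 210) (nat_lit 184)) (XT.nd (nat_lit 78) (nat_lit 0) (nat_lit 0) (XT.lf (nat_lit 0) (nat_lit 116934668126) (nat_lit 152) (nat_lit 584634080483) (nat_lit 0) (nat_lit 113609337566) (nat_lit 1) (nat_lit 5) (nat_lit 3) (nat_lit 4) (nat_lit 1) (nat_lit 4) (nat_lit 267) (nat_lit 210) (nat_lit 183)) (XT.lf (nat_lit 0) (nat_lit 138071892051) (nat_lit 152) (nat_lit 664315801269) (nat_lit 0) (nat_lit 134736364346) (nat_lit 1) (nat_lit 5) (nat_lit 3) (nat_lit 4) (nat_lit 1) (nat_lit 4) (nat_lit 268) (nat_lit 210) (nat_lit 182)))) (XT.nd (nat_lit 78) (nat_lit 0) (nat_lit 0) (XT.lf (nat_lit 0) (nat_lit 162357639115) (nat_lit 152) (nat_lit 755992817755) (nat_lit 0) (nat_lit 159013244327) (nat_lit 1) (nat_lit 5) (nat_lit 3) (nat_lit 4) (nat_lit 1) (nat_lit 4) (nat_lit 269) (nat_lit 210) (nat_lit 181)) (XT.nd (nat_lit 78)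 (nat_lit 0) (nat_lit 0) (XT.lf (nat_lit 0) (nat_lit 190267065238) (nat_lit 152) (nat_lit 861458810697) (nat_lit 0) (nat_lit 186914959944) (nat_lit 1) (nat_lit 5) (nat_lit 3) (nat_lit 4) (nat_lit 1) (nat_lit 4) (nat_lit 270) (nat_lit 210) (nat_lit 180)) (XT.lf (nat_lit 0) (nat_lit 222346224411) (nat_lit 152) (nat_lit 982777245175) (nat_lit 0) (nat_lit 218987414329) (nat_lit 1) (nat_lit 5) (nat_lit 3) (nat_lit 4) (nat_lit 1) (nat_lit 4) (nat_lit 271) (nat_lit 210) (nat_lit 179))))) (XT.nd (nat_lit 234) (nat_lit 0) (nat_lit 0) (XT.nd (nat_lit 78) (nat_lit 0) (nat_lit 0) (XT.lf (nat_lit 0) (nat_lit 259222752355) (nat_lit 152) (nat_lit 1122321742732) (nat_lit 0) (nat_lit 255858112023) (nat_lit 1) (nat_lit 5) (nat_lit 3) (nat_lit 4) (nat_lit 1) (nat_lit 4) (nat_lit 272) (nat_lit 210) (nat_lit 178)) (XT.nd (nat_lit 78) (nat_lit 0) (nat_lit 0) (XT.lf (nat_lit 0) (nat_lit 301618146358) (nat_lit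 152) (nat_lit 1282822521800) (nat_lit 0) (nat_lit 298248436242) (nat_lit 1) (nat_lit 5) (nat_lit 3) (nat_lit 4) (nat_lit 1) (nat_lit 4) (nat_lit 273) (nat_lit 210) (nat_lit 177)) (XT.lf (nat_lit 0) (nat_lit 350361881518) (nat_lit 152) (nat_lit 1467419815013) (nat_lit 0) (nat_lit 346987762895) (nat_lit 1) (nat_lit 5) (nat_lit 3) (nat_lit 4) (nat_lit 1) (nat_lit 4) (nat_lit 274) (nat_lit 210) (nat_lit 176)))) (XT.nd (nat_lit 78) (nat_lit 0) (nat_lit 0) (XT.lf (nat_lit 0) (nat_lit 406407639611) (nat_lit 152) (nat_lit 1679725308541) (nat_lit 0) (nat_lit 403029687504) (nat_lit 1) (nat_lit 5) (nat_lit 3) (nat_lit 4) (nat_lit 1) (nat_lit 4) (nat_lit 275) (nat_lit 210) (nat_lit 175)) (XT.nd (nat_lit 78) (nat_lit 0) (nat_lit 0) (XT.lf (nat_lit 0) (nat_lit 470851968078) (nat_lit 152) (nat_lit 1923892805520) (nat_lit 0) (nat_lit 467470682506) (nat_lit 1) (nat_lit 5) (nat_lit 3) (nat_lit 4) (nat_lit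 1) (nat_lit 4) (nat_lit 276) (nat_lit 210) (nat_lit 174)) (XT.lf (nat_lit 0) (nat_lit 544955734215) (nat_lit 152) (nat_lit 2204699496106) (nat_lit 0) (nat_lit 541571549978) (nat_lit 1) (nat_lit 5) (nat_lit 3) (nat_lit 4) (nat_lit 1) (nat_lit 4) (nat_lit 277) (nat_lit 210) (nat_lit 173))))))) (XT.nd (nat_lit 31434) (nat_lit 0) (nat_lit 152) (XT.nd (nat_lit 468) (nat_lit 0) (nat_lit 0) (XT.nd (nat_lit 234) (nat_lit 0) (nat_lit 0) (XT.nd (nat_lit 78) (nat_lit 0) (nat_lit 0) (XT.lf (nat_lit 0) (nat_lit 630168794316) (nat_lit 152) (nat_lit 2527639424248) (nat_lit 0) (nat_lit 626782089500) (nat_lit 1) (nat_lit 5) (nat_lit 3) (nat_lit 4) (nat_lit 1) (nat_lit 4) (nat_lit 278) (nat_lit 210) (nat_lit 172)) (XT.nd (nat_lit 78) (nat_lit 0) (nat_lit 0) (XT.lf (nat_lit 0) (nat_lit 728158360426) (nat_lit 152) (nat_lit 2899030979842) (nat_lit 0) (nat_lit 724769463803) (nat_lit 1) (nat_lit 5) (nat_lit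 3) (nat_lit 4) (nat_lit 1) (nat_lit 4) (nat_lit 279) (nat_lit 210) (nat_lit 171)) (XT.lf (nat_lit 0) (nat_lit 840841619708) (nat_lit 152) (nat_lit 3326140519412) (nat_lit 0) (nat_lit 837450817166) (nat_lit 1) (nat_lit 5) (nat_lit 3) (nat_lit 4) (nat_lit 1) (nat_lit 4) (nat_lit 280) (nat_lit 210) (nat_lit 170)))) (XT.nd (nat_lit 78) (nat_lit 0) (nat_lit 0) (XT.lf (nat_lit 0) (nat_lit 970423244626) (nat_lit 152) (nat_lit 3817324533950) (nat_lit 0) (nat_lit 967030784763) (nat_lit 1) (nat_lit 5) (nat_lit 3) (nat_lit 4) (nat_lit 1) (nat_lit 4) (nat_lit 281) (nat_lit 210) (nat_lit 169)) (XT.nd (nat_lit 78) (nat_lit 0) (nat_lit 0) (XT.lf (nat_lit 0) (nat_lit 1119438527843) (nat_lit 152) (nat_lit 4382193145478) (nat_lit 0) (nat_lit 1116044626831) (nat_lit 1) (nat_lit 5) (nat_lit 3) (nat_lit 4) (nat_lit 1) (nat_lit 4) (nat_lit 282) (nat_lit 210) (nat_lit 168)) (XT.lf (nat_lit 0) (nat_lit 1290802985768)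 (nat_lit 152) (nat_lit 5031798131178) (nat_lit 0) (nat_lit 1287407831584) (nat_lit 1) (nat_lit 5) (nat_lit 3) (nat_lit 4) (nat_lit 1) (nat_lit 4) (nat_lit 283) (nat_lit 210) (nat_lit 167))))) (XT.nd (nat_lit 234) (nat_lit 0) (nat_lit 0) (XT.nd (nat_lit 78) (nat_lit 0) (nat_lit 0) (XT.lf (nat_lit 0) (nat_lit 1487869401275) (nat_lit 152) (nat_lit 5778849153816) (nat_lit 0) (nat_lit 1484473157374) (nat_lit 1) (nat_lit 5) (nat_lit 3) (nat_lit 4) (nat_lit 1) (nat_lit 4) (nat_lit 284) (nat_lit 210) (nat_lit 166)) (XT.nd (nat_lit 78) (nat_lit 0) (nat_lit 0) (XT.lf (nat_lit 0) (nat_lit 1714493421622) (nat_lit 152) (nat_lit 6637962429050) (nat_lit 0) (nat_lit 1711096230143) (nat_lit 1) (nat_lit 5) (nat_lit 3) (nat_lit 4) (nat_lit 1) (nat_lit 4) (nat_lit 285) (nat_lit 210) (nat_lit 165)) (XT.lf (nat_lit 0) (nat_lit 1975108995035) (nat_lit 152) (nat_lit 7625946694874) (nat_lit 0) (nat_lit 1971710979575)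 (nat_lit 1) (nat_lit 5) (nat_lit 3) (nat_lit 4) (nat_lit 1) (nat_lit 4) (nat_lit 286) (nat_lit 210) (nat_lit 164)))) (XT.nd (nat_lit 30576) (nat_lit 0) (nat_lit 608) (XT.lf (nat_lit 0) (nat_lit 2274815121863) (nat_lit 152) (nat_lit 8762132078229) (nat_lit 0) (nat_lit 2271416389896) (nat_lit 1) (nat_lit 5) (nat_lit 3) (nat_lit 4) (nat_lit 1) (nat_lit 4) (nat_lit 287) (nat_lit 210) (nat_lit 163)) (XT.nd (nat_lit 78) (nat_lit 76) (nat_lit 0) (XT.lf (nat_lit 0) (nat_lit 3200618835) (nat_lit 152) (nat_lit 2576707174) (nat_lit 0) (nat_lit 3200618835) (nat_lit 10) (nat_lit 5) (nat_lit 12) (nat_lit 4) (nat_lit 10) (nat_lit 4) (nat_lit 238) (nat_lit 211) (nat_lit 211)) (XT.lf (nat_lit 0) (nat_lit 10182178897) (nat_lit 76) (nat_lit 5200415224) (nat_lit 76) (nat_lit 4557299117) (nat_lit 9) (nat_lit 4) (nat_lit 10) (nat_lit 5) (nat_lit 10) (nat_lit 4) (nat_lit 239) (nat_lit 211) (nat_lit 210))))))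 (XT.nd (nat_lit 468) (nat_lit 76) (nat_lit 0) (XT.nd (nat_lit 234) (nat_lit 152) (nat_lit 0) (XT.nd (nat_lit 78) (nat_lit 76) (nat_lit 0) (XT.lf (nat_lit 0) (nat_lit 2846593413) (nat_lit 152) (nat_lit 17673031202) (nat_lit 0) (nat_lit 1733308686) (nat_lit 7) (nat_lit 5) (nat_lit 9) (nat_lit 4) (nat_lit 7) (nat_lit 4) (nat_lit 240) (nat_lit 211) (nat_lit 209)) (XT.nd (nat_lit 78) (nat_lit 76) (nat_lit 0) (XT.lf (nat_lit 0) (nat_lit 10811773629) (nat_lit 152) (nat_lit 4866403139) (nat_lit 0) (nat_lit 9248222077) (nat_lit 7) (nat_lit 5) (nat_lit 9) (nat_lit 4) (nat_lit 7) (nat_lit 4) (nat_lit 241) (nat_lit 211) (nat_lit 208)) (XT.lf (nat_lit 0) (nat_lit 9137435861) (nat_lit 76) (nat_lit 10425859027) (nat_lit 76) (nat_lit 8470771105) (nat_lit 6) (nat_lit 4) (nat_lit 7) (nat_lit 5) (nat_lit 7) (nat_lit 4) (nat_lit 242) (nat_lit 211) (nat_lit 207)))) (XT.nd (nat_lit 78) (nat_lit 152) (nat_lit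 0) (XT.lf (nat_lit 0) (nat_lit 24455625654) (nat_lit 76) (nat_lit 4741349115) (nat_lit 76) (nat_lit 2445794784) (nat_lit 6) (nat_lit 4) (nat_lit 7) (nat_lit 5) (nat_lit 7) (nat_lit 4) (nat_lit 243) (nat_lit 211) (nat_lit 206)) (XT.nd (nat_lit 78) (nat_lit 0) (nat_lit 0) (XT.lf (nat_lit 0) (nat_lit 3917955545) (nat_lit 152) (nat_lit 30375495559) (nat_lit 0) (nat_lit 1518314732) (nat_lit 4) (nat_lit 5) (nat_lit 6) (nat_lit 4) (nat_lit 4) (nat_lit 4) (nat_lit 244) (nat_lit 211) (nat_lit 205)) (XT.lf (nat_lit 0) (nat_lit 10965736437) (nat_lit 152) (nat_lit 21317934798) (nat_lit 0) (nat_lit 8327723847) (nat_lit 4) (nat_lit 5) (nat_lit 6) (nat_lit 4) (nat_lit 4) (nat_lit 4) (nat_lit 245) (nat_lit 211) (nat_lit 204))))) (XT.nd (nat_lit 234) (nat_lit 0) (nat_lit 0) (XT.nd (nat_lit 78) (nat_lit 76) (nat_lit 0) (XT.lf (nat_lit 0) (nat_lit 18657079196) (nat_lit 152) (nat_lit 11695459492) (nat_lit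 0) (nat_lit 15811786800) (nat_lit 4) (nat_lit 5) (nat_lit 6) (nat_lit 4) (nat_lit 4) (nat_lit 4) (nat_lit 246) (nat_lit 211) (nat_lit 203)) (XT.nd (nat_lit 78) (nat_lit 76) (nat_lit 0) (XT.lf (nat_lit 0) (nat_lit 27142466614) (nat_lit 152) (nat_lit 1319803820) (nat_lit 0) (nat_lit 24116930908) (nat_lit 4) (nat_lit 5) (nat_lit 6) (nat_lit 4) (nat_lit 4) (nat_lit 4) (nat_lit 247) (nat_lit 211) (nat_lit 202)) (XT.lf (nat_lit 0) (nat_lit 10539250153) (nat_lit 76) (nat_lit 26302136206) (nat_lit 76) (nat_lit 23119867188) (nat_lit 3) (nat_lit 4) (nat_lit 4) (nat_lit 5) (nat_lit 4) (nat_lit 4) (nat_lit 248) (nat_lit 211) (nat_lit 201)))) (XT.nd (nat_lit 78) (nat_lit 0) (nat_lit 0) (XT.lf (nat_lit 0) (nat_lit 23707720573) (nat_lit 76) (nat_lit 24040683744) (nat_lit 76) (nat_lit 20722124889) (nat_lit 3) (nat_lit 4) (nat_lit 4) (nat_lit 5) (nat_lit 4) (nat_lit 4) (nat_lit 249) (nat_lit 211) (nat_lit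 200)) (XT.nd (nat_lit 78) (nat_lit 0) (nat_lit 0) (XT.lf (nat_lit 0) (nat_lit 38373752893) (nat_lit 76) (nat_lit 21669753017) (nat_lit 76) (nat_lit 18232681260) (nat_lit 3) (nat_lit 4) (nat_lit 4) (nat_lit 5) (nat_lit 4) (nat_lit 4) (nat_lit 250) (nat_lit 211) (nat_lit 199)) (XT.lf (nat_lit 0) (nat_lit 54824291225) (nat_lit 76) (nat_lit 19142956247) (nat_lit 76) (nat_lit 15602829793) (nat_lit 3) (nat_lit 4) (nat_lit 4) (nat_lit 5) (nat_lit 4) (nat_lit 4) (nat_lit 251) (nat_lit 211) (nat_lit 198))))))))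
noncomputable def xc13 : XT := (XT.nd (nat_lit 1872) (nat_lit 0) (nat_lit 0) (XT.nd (nat_lit 936) (nat_lit 0) (nat_lit 0) (XT.nd (nat_lit 468) (nat_lit 0) (nat_lit 0) (XT.nd (nat_lit 234) (nat_lit 152) (nat_lit 0) (XT.nd (nat_lit 78) (nat_lit 0) (nat_lit 0) (XT.lf (nat_lit 0) (nat_lit 73381193928) (nat_lit 76) (nat_lit 16410856108) (nat_lit 76) (nat_lit 12781116874) (nat_lit 3) (nat_lit 4) (nat_lit 4) (nat_lit 5) (nat_lit 4) (nat_lit 4) (nat_lit 252) (nat_lit 211) (nat_lit 197)) (XT.nd (nat_lit 78) (nat_lit 0) (nat_lit 0) (XT.lf (nat_lit 0) (nat_lit 94407530836) (nat_lit 76) (nat_lit 13419998466) (nat_lit 76) (nat_lit 9712335075) (nat_lit 3) (nat_lit 4) (nat_lit 4) (nat_lit 5) (nat_lit 4) (nat_lit 4) (nat_lit 253) (nat_lit 211) (nat_lit 196)) (XT.lf (nat_lit 0) (nat_lit 118314686804) (nat_lit 76) (nat_lit 10111866541) (nat_lit 76) (nat_lit 6336443013) (nat_lit 3) (nat_lit 4) (nat_lit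 4) (nat_lit 5) (nat_lit 4) (nat_lit 4) (nat_lit 254) (nat_lit 211) (nat_lit 195)))) (XT.nd (nat_lit 78) (nat_lit 152) (nat_lit 0) (XT.lf (nat_lit 0) (nat_lit 145570410533) (nat_lit 76) (nat_lit 6421736012) (nat_lit 76) (nat_lit 2587390628) (nat_lit 3) (nat_lit 4) (nat_lit 4) (nat_lit 5) (nat_lit 4) (nat_lit 4) (nat_lit 255) (nat_lit 211) (nat_lit 194)) (XT.nd (nat_lit 78) (nat_lit 76) (nat_lit 0) (XT.lf (nat_lit 0) (nat_lit 1527725775) (nat_lit 152) (nat_lit 707912170) (nat_lit 76) (nat_lit 175138469679) (nat_lit 2) (nat_lit 5) (nat_lit 4) (nat_lit 5) (nat_lit 3) (nat_lit 4) (nat_lit 256) (nat_lit 211) (nat_lit 193)) (XT.lf (nat_lit 0) (nat_lit 6300210271) (nat_lit 152) (nat_lit 194605669915) (nat_lit 0) (nat_lit 2661196223) (nat_lit 1) (nat_lit 5) (nat_lit 3) (nat_lit 4) (nat_lit 1) (nat_lit 4) (nat_lit 257) (nat_lit 211) (nat_lit 192))))) (XT.nd (nat_lit 234) (nat_lit 0) (nat_lit 0)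 (XT.nd (nat_lit 78) (nat_lit 0) (nat_lit 0) (XT.lf (nat_lit 0) (nat_lit 11782298266) (nat_lit 152) (nat_lit 213799828301) (nat_lit 0) (nat_lit 8107411923) (nat_lit 1) (nat_lit 5) (nat_lit 3) (nat_lit 4) (nat_lit 1) (nat_lit 4) (nat_lit 258) (nat_lit 211) (nat_lit 191)) (XT.nd (nat_lit 78) (nat_lit 0) (nat_lit 0) (XT.lf (nat_lit 0) (nat_lit 18009093525) (nat_lit 152) (nat_lit 236024511332) (nat_lit 0) (nat_lit 14303013883) (nat_lit 1) (nat_lit 5) (nat_lit 3) (nat_lit 4) (nat_lit 1) (nat_lit 4) (nat_lit 259) (nat_lit 211) (nat_lit 190)) (XT.lf (nat_lit 0) (nat_lit 25102424653) (nat_lit 152) (nat_lit 261714549762) (nat_lit 0) (nat_lit 21369220403) (nat_lit 1) (nat_lit 5) (nat_lit 3) (nat_lit 4) (nat_lit 1) (nat_lit 4) (nat_lit 260) (nat_lit 211) (nat_lit 189)))) (XT.nd (nat_lit 78) (nat_lit 0) (nat_lit 0) (XT.lf (nat_lit 0) (nat_lit 33201074215) (nat_lit 152) (nat_lit 291372574777) (nat_lit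 0) (nat_lit 29444283349) (nat_lit 1) (nat_lit 5) (nat_lit 3) (nat_lit 4) (nat_lit 1) (nat_lit 4) (nat_lit 261) (nat_lit 211) (nat_lit 188)) (XT.nd (nat_lit 78) (nat_lit 0) (nat_lit 0) (XT.lf (nat_lit 0) (nat_lit 42463494051) (nat_lit 152) (nat_lit 325578852086) (nat_lit 0) (nat_lit 38686193084) (nat_lit 1) (nat_lit 5) (nat_lit 3) (nat_lit 4) (nat_lit 1) (nat_lit 4) (nat_lit 262) (nat_lit 211) (nat_lit 187)) (XT.lf (nat_lit 0) (nat_lit 53070905417) (nat_lit 152) (nat_lit 365002634939) (nat_lit 0) (nat_lit 49275769580) (nat_lit 1) (nat_lit 5) (nat_lit 3) (nat_lit 4) (nat_lit 1) (nat_lit 4) (nat_lit 263) (nat_lit 211) (nat_lit 186)))))) (XT.nd (nat_lit 468) (nat_lit 0) (nat_lit 0) (XT.nd (nat_lit 234) (nat_lit 0) (nat_lit 0) (XT.nd (nat_lit 78) (nat_lit 0) (nat_lit 0) (XT.lf (nat_lit 0) (nat_lit 65230844623) (nat_lit 152) (nat_lit 410415258218) (nat_lit 0) (nat_lit 61420200203) (nat_lit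 1) (nat_lit 5) (nat_lit 3) (nat_lit 4) (nat_lit 1) (nat_lit 4) (nat_lit 264) (nat_lit 211) (nat_lit 185)) (XT.nd (nat_lit 78) (nat_lit 0) (nat_lit 0) (XT.lf (nat_lit 0) (nat_lit 79181223523) (nat_lit 152) (nat_lit 462705229771) (nat_lit 0) (nat_lit 75357093380) (nat_lit 1) (nat_lit 5) (nat_lit 3) (nat_lit 4) (nat_lit 1) (nat_lit 4) (nat_lit 265) (nat_lit 211) (nat_lit 184)) (XT.lf (nat_lit 0) (nat_lit 95194984314) (nat_lit 152) (nat_lit 522895614258) (nat_lit 0) (nat_lit 91359127453) (nat_lit 1) (nat_lit 5) (nat_lit 3) (nat_lit 4) (nat_lit 1) (nat_lit 4) (nat_lit 266) (nat_lit 211) (nat_lit 183)))) (XT.nd (nat_lit 78) (nat_lit 0) (nat_lit 0) (XT.lf (nat_lit 0) (nat_lit 113585439706) (nat_lit 152) (nat_lit 592164049636) (nat_lit 0) (nat_lit 109739385700) (nat_lit 1) (nat_lit 5) (nat_lit 3) (nat_lit 4) (nat_lit 1) (nat_lit 4) (nat_lit 267) (nat_lit 211) (nat_lit 182)) (XT.nd (nat_lit 78)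 (nat_lit 0) (nat_lit 0) (XT.lf (nat_lit 0) (nat_lit 134712402956) (nat_lit 152) (nat_lit 671865787902) (nat_lit 0) (nat_lit 130857481868) (nat_lit 1) (nat_lit 5) (nat_lit 3) (nat_lit 4) (nat_lit 1) (nat_lit 4) (nat_lit 268) (nat_lit 211) (nat_lit 181)) (XT.lf (nat_lit 0) (nat_lit 158989227695) (nat_lit 152) (nat_lit 763560210892) (nat_lit 0) (nat_lit 155126596100) (nat_lit 1) (nat_lit 5) (nat_lit 3) (nat_lit 4) (nat_lit 1) (nat_lit 4) (nat_lit 269) (nat_lit 211) (nat_lit 180))))) (XT.nd (nat_lit 234) (nat_lit 0) (nat_lit 0) (XT.nd (nat_lit 78) (nat_lit 0) (nat_lit 0) (XT.lf (nat_lit 0) (nat_lit 186890895274) (nat_lit 152) (nat_lit 869041339924) (nat_lit 0) (nat_lit 183021558892) (nat_lit 1) (nat_lit 5) (nat_lit 3) (nat_lit 4) (nat_lit 1) (nat_lit 4) (nat_lit 270) (nat_lit 211) (nat_lit 179)) (XT.nd (nat_lit 78) (nat_lit 0) (nat_lit 0) (XT.lf (nat_lit 0) (nat_lit 218963307887) (nat_lit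 152) (nat_lit 990372936220) (nat_lit 0) (nat_lit 215088141254) (nat_lit 1) (nat_lit 5) (nat_lit 3) (nat_lit 4) (nat_lit 1) (nat_lit 4) (nat_lit 271) (nat_lit 211) (nat_lit 178)) (XT.lf (nat_lit 0) (nat_lit 255833969258) (nat_lit 152) (nat_lit 1129928878836) (nat_lit 0) (nat_lit 251953732841) (nat_lit 1) (nat_lit 5) (nat_lit 3) (nat_lit 4) (nat_lit 1) (nat_lit 4) (nat_lit 272) (nat_lit 211) (nat_lit 177)))) (XT.nd (nat_lit 78) (nat_lit 0) (nat_lit 0) (XT.lf (nat_lit 0) (nat_lit 298224261891) (nat_lit 152) (nat_lit 1290439610130) (nat_lit 0) (nat_lit 294339616968) (nat_lit 1) (nat_lit 5) (nat_lit 3) (nat_lit 4) (nat_lit 1) (nat_lit 4) (nat_lit 273) (nat_lit 211) (nat_lit 176)) (XT.nd (nat_lit 78) (nat_lit 0) (nat_lit 0) (XT.lf (nat_lit 0) (nat_lit 346963561079) (nat_lit 152) (nat_lit 1475045557451) (nat_lit 0) (nat_lit 343075082671) (nat_lit 1) (nat_lit 5) (nat_lit 3) (nat_lit 4) (nat_lit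 1) (nat_lit 4) (nat_lit 274) (nat_lit 211) (nat_lit 175)) (XT.lf (nat_lit 0) (nat_lit 403005461805) (nat_lit 152) (nat_lit 1687358576291) (nat_lit 0) (nat_lit 399113649932) (nat_lit 1) (nat_lit 5) (nat_lit 3) (nat_lit 4) (nat_lit 1) (nat_lit 4) (nat_lit 275) (nat_lit 211) (nat_lit 174))))))) (XT.nd (nat_lit 31278) (nat_lit 0) (nat_lit 228) (XT.nd (nat_lit 468) (nat_lit 0) (nat_lit 0) (XT.nd (nat_lit 234) (nat_lit 0) (nat_lit 0) (XT.nd (nat_lit 78) (nat_lit 0) (nat_lit 0) (XT.lf (nat_lit 0) (nat_lit 467446436039) (nat_lit 152) (nat_lit 1931532617019) (nat_lit 0) (nat_lit 463551725501) (nat_lit 1) (nat_lit 5) (nat_lit 3) (nat_lit 4) (nat_lit 1) (nat_lit 4) (nat_lit 276) (nat_lit 211) (nat_lit 173)) (XT.nd (nat_lit 78) (nat_lit 0) (nat_lit 0) (XT.lf (nat_lit 0) (nat_lit 541547285452) (nat_lit 152) (nat_lit 2212344997823) (nat_lit 0) (nat_lit 537650054336) (nat_lit 1) (nat_lit 5) (nat_lit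 3) (nat_lit 4) (nat_lit 1) (nat_lit 4) (nat_lit 277) (nat_lit 211) (nat_lit 172)) (XT.lf (nat_lit 0) (nat_lit 626757809271) (nat_lit 152) (nat_lit 2535289873979) (nat_lit 0) (nat_lit 622858386347) (nat_lit 1) (nat_lit 5) (nat_lit 3) (nat_lit 4) (nat_lit 1) (nat_lit 4) (nat_lit 278) (nat_lit 211) (nat_lit 171)))) (XT.nd (nat_lit 78) (nat_lit 0) (nat_lit 0) (XT.lf (nat_lit 0) (nat_lit 724745169918) (nat_lit 152) (nat_lit 2906685732195) (nat_lit 0) (nat_lit 720843841075) (nat_lit 1) (nat_lit 5) (nat_lit 3) (nat_lit 4) (nat_lit 1) (nat_lit 4) (nat_lit 279) (nat_lit 211) (nat_lit 170)) (XT.nd (nat_lit 78) (nat_lit 0) (nat_lit 0) (XT.lf (nat_lit 0) (nat_lit 837426511407) (nat_lit 152) (nat_lit 3333799013176) (nat_lit 0) (nat_lit 833523525243) (nat_lit 1) (nat_lit 5) (nat_lit 3) (nat_lit 4) (nat_lit 1) (nat_lit 4) (nat_lit 280) (nat_lit 211) (nat_lit 169)) (XT.lf (nat_lit 0) (nat_lit 967006468679)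 (nat_lit 152) (nat_lit 3824986281113) (nat_lit 0) (nat_lit 963102041366) (nat_lit 1) (nat_lit 5) (nat_lit 3) (nat_lit 4) (nat_lit 1) (nat_lit 4) (nat_lit 281) (nat_lit 211) (nat_lit 168))))) (XT.nd (nat_lit 234) (nat_lit 0) (nat_lit 0) (XT.nd (nat_lit 78) (nat_lit 0) (nat_lit 0) (XT.lf (nat_lit 0) (nat_lit 1116020301768) (nat_lit 152) (nat_lit 4389857721684) (nat_lit 0) (nat_lit 1112114621283) (nat_lit 1) (nat_lit 5) (nat_lit 3) (nat_lit 4) (nat_lit 1) (nat_lit 4) (nat_lit 282) (nat_lit 211) (nat_lit 167)) (XT.nd (nat_lit 78) (nat_lit 0) (nat_lit 0) (XT.lf (nat_lit 0) (nat_lit 1287383498713) (nat_lit 152) (nat_lit 5039465167423) (nat_lit 0) (nat_lit 1283476728512) (nat_lit 1) (nat_lit 5) (nat_lit 3) (nat_lit 4) (nat_lit 1) (nat_lit 4) (nat_lit 283) (nat_lit 211) (nat_lit 166)) (XT.lf (nat_lit 0) (nat_lit 1484448817715) (nat_lit 152) (nat_lit 5786518329224) (nat_lit 0) (nat_lit 1480541099936)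 (nat_lit 1) (nat_lit 5) (nat_lit 3) (nat_lit 4) (nat_lit 1) (nat_lit 4) (nat_lit 284) (nat_lit 211) (nat_lit 165)))) (XT.nd (nat_lit 78) (nat_lit 0) (nat_lit 0) (XT.lf (nat_lit 0) (nat_lit 1711071884581) (nat_lit 152) (nat_lit 6645633464600) (nat_lit 0) (nat_lit 1707163342819) (nat_lit 1) (nat_lit 5) (nat_lit 3) (nat_lit 4) (nat_lit 1) (nat_lit 4) (nat_lit 285) (nat_lit 211) (nat_lit 164)) (XT.nd (nat_lit 78) (nat_lit 0) (nat_lit 0) (XT.lf (nat_lit 0) (nat_lit 1971686628878) (nat_lit 152) (nat_lit 7633619347939) (nat_lit 0) (nat_lit 1967777370612) (nat_lit 1) (nat_lit 5) (nat_lit 3) (nat_lit 4) (nat_lit 1) (nat_lit 4) (nat_lit 286) (nat_lit 211) (nat_lit 163)) (XT.lf (nat_lit 0) (nat_lit 2271392034736) (nat_lit 152) (nat_lit 8769806137829) (nat_lit 0) (nat_lit 2267482153421) (nat_lit 1) (nat_lit 5) (nat_lit 3) (nat_lit 4) (nat_lit 1) (nat_lit 4) (nat_lit 287) (nat_lit 211) (nat_lit 162))))))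 (XT.nd (nat_lit 468) (nat_lit 228) (nat_lit 0) (XT.nd (nat_lit 234) (nat_lit 228) (nat_lit 0) (XT.nd (nat_lit 78) (nat_lit 228) (nat_lit 0) (XT.lf (nat_lit 0) (nat_lit 3124488127) (nat_lit 152) (nat_lit 1134179787) (nat_lit 0) (nat_lit 3124488127) (nat_lit 13) (nat_lit 5) (nat_lit 15) (nat_lit 4) (nat_lit 13) (nat_lit 4) (nat_lit 236) (nat_lit 212) (nat_lit 212)) (XT.nd (nat_lit 78) (nat_lit 152) (nat_lit 0) (XT.lf (nat_lit 0) (nat_lit 13239451710) (nat_lit 76) (nat_lit 1909731134) (nat_lit 76) (nat_lit 1110980929) (nat_lit 12) (nat_lit 4) (nat_lit 13) (nat_lit 5) (nat_lit 13) (nat_lit 4) (nat_lit 237) (nat_lit 212) (nat_lit 211)) (XT.lf (nat_lit 0) (nat_lit 6753736072) (nat_lit 152) (nat_lit 5862471238) (nat_lit 0) (nat_lit 5371036442) (nat_lit 10) (nat_lit 5) (nat_lit 12) (nat_lit 4) (nat_lit 10) (nat_lit 4) (nat_lit 238) (nat_lit 212) (nat_lit 210)))) (XT.nd (nat_lit 78) (nat_lit 152)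 (nat_lit 0) (XT.lf (nat_lit 0) (nat_lit 8786745572) (nat_lit 76) (nat_lit 6578190987) (nat_lit 76) (nat_lit 4636259959) (nat_lit 9) (nat_lit 4) (nat_lit 10) (nat_lit 5) (nat_lit 10) (nat_lit 4) (nat_lit 239) (nat_lit 212) (nat_lit 209)) (XT.nd (nat_lit 78) (nat_lit 0) (nat_lit 0) (XT.lf (nat_lit 0) (nat_lit 2364600227) (nat_lit 152) (nat_lit 19866368870) (nat_lit 0) (nat_lit 116249116) (nat_lit 7) (nat_lit 5) (nat_lit 9) (nat_lit 4) (nat_lit 7) (nat_lit 4) (nat_lit 240) (nat_lit 212) (nat_lit 208)) (XT.lf (nat_lit 0) (nat_lit 10037598331) (nat_lit 152) (nat_lit 7608984909) (nat_lit 0) (nat_lit 7397710850) (nat_lit 7) (nat_lit 5) (nat_lit 9) (nat_lit 4) (nat_lit 7) (nat_lit 4) (nat_lit 241) (nat_lit 212) (nat_lit 207))))) (XT.nd (nat_lit 234) (nat_lit 0) (nat_lit 0) (XT.nd (nat_lit 78) (nat_lit 152) (nat_lit 0) (XT.lf (nat_lit 0) (nat_lit 5747681270) (nat_lit 76) (nat_lit 12705843238)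 (nat_lit 76) (nat_lit 9725489349) (nat_lit 6) (nat_lit 4) (nat_lit 7) (nat_lit 5) (nat_lit 7) (nat_lit 4) (nat_lit 242) (nat_lit 212) (nat_lit 206)) (XT.nd (nat_lit 78) (nat_lit 152) (nat_lit 0) (XT.lf (nat_lit 0) (nat_lit 20628694258) (nat_lit 76) (nat_lit 7227064364) (nat_lit 76) (nat_lit 3950652728) (nat_lit 6) (nat_lit 4) (nat_lit 7) (nat_lit 5) (nat_lit 7) (nat_lit 4) (nat_lit 243) (nat_lit 212) (nat_lit 205)) (XT.lf (nat_lit 0) (nat_lit 903394760) (nat_lit 76) (nat_lit 1229897506) (nat_lit 152) (nat_lit 33873561005) (nat_lit 4) (nat_lit 5) (nat_lit 5) (nat_lit 5) (nat_lit 6) (nat_lit 4) (nat_lit 244) (nat_lit 212) (nat_lit 204)))) (XT.nd (nat_lit 78) (nat_lit 0) (nat_lit 0) (XT.lf (nat_lit 0) (nat_lit 8959119552) (nat_lit 152) (nat_lit 26385490579) (nat_lit 0) (nat_lit 5479753491) (nat_lit 4) (nat_lit 5) (nat_lit 6) (nat_lit 4) (nat_lit 4) (nat_lit 4) (nat_lit 245) (nat_lit 212)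 (nat_lit 203)) (XT.nd (nat_lit 78) (nat_lit 0) (nat_lit 0) (XT.lf (nat_lit 0) (nat_lit 16483180099) (nat_lit 152) (nat_lit 17084034310) (nat_lit 0) (nat_lit 12823570728) (nat_lit 4) (nat_lit 5) (nat_lit 6) (nat_lit 4) (nat_lit 4) (nat_lit 4) (nat_lit 246) (nat_lit 212) (nat_lit 202)) (XT.lf (nat_lit 0) (nat_lit 24823104724) (nat_lit 152) (nat_lit 6987525627) (nat_lit 0) (nat_lit 21006762041) (nat_lit 4) (nat_lit 5) (nat_lit 6) (nat_lit 4) (nat_lit 4) (nat_lit 4) (nat_lit 247) (nat_lit 212) (nat_lit 201))))))))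
noncomputable def xc14 : XT := (XT.nd (nat_lit 1872) (nat_lit 0) (nat_lit 0) (XT.nd (nat_lit 936) (nat_lit 0) (nat_lit 0) (XT.nd (nat_lit 468) (nat_lit 152) (nat_lit 0) (XT.nd (nat_lit 234) (nat_lit 0) (nat_lit 0) (XT.nd (nat_lit 78) (nat_lit 0) (nat_lit 0) (XT.lf (nat_lit 0) (nat_lit 4317557574) (nat_lit 76) (nat_lit 29928345654) (nat_lit 76) (nat_lit 25975713134) (nat_lit 3) (nat_lit 4) (nat_lit 4) (nat_lit 5) (nat_lit 4) (nat_lit 4) (nat_lit 248) (nat_lit 212) (nat_lit 200)) (XT.nd (nat_lit 78) (nat_lit 0) (nat_lit 0) (XT.lf (nat_lit 0) (nat_lit 17263837918) (nat_lit 76) (nat_lit 27773748822) (nat_lit 76) (nat_lit 23702603400) (nat_lit 3) (nat_lit 4) (nat_lit 4) (nat_lit 5) (nat_lit 4) (nat_lit 4) (nat_lit 249) (nat_lit 212) (nat_lit 199)) (XT.lf (nat_lit 0) (nat_lit 31736661477) (nat_lit 76) (nat_lit 25495736033) (nat_lit 76) (nat_lit 21321535913) (nat_lit 3) (nat_lit 4) (nat_lit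 4) (nat_lit 5) (nat_lit 4) (nat_lit 4) (nat_lit 250) (nat_lit 212) (nat_lit 198)))) (XT.nd (nat_lit 78) (nat_lit 0) (nat_lit 0) (XT.lf (nat_lit 0) (nat_lit 48019192191) (nat_lit 76) (nat_lit 23049737471) (nat_lit 76) (nat_lit 18785924571) (nat_lit 3) (nat_lit 4) (nat_lit 4) (nat_lit 5) (nat_lit 4) (nat_lit 4) (nat_lit 251) (nat_lit 212) (nat_lit 197)) (XT.nd (nat_lit 78) (nat_lit 0) (nat_lit 0) (XT.lf (nat_lit 0) (nat_lit 66430001313) (nat_lit 76) (nat_lit 20387896642) (nat_lit 76) (nat_lit 16046159586) (nat_lit 3) (nat_lit 4) (nat_lit 4) (nat_lit 5) (nat_lit 4) (nat_lit 4) (nat_lit 252) (nat_lit 212) (nat_lit 196)) (XT.lf (nat_lit 0) (nat_lit 87329300325) (nat_lit 76) (nat_lit 17458134053) (nat_lit 76) (nat_lit 13048636860) (nat_lit 3) (nat_lit 4) (nat_lit 4) (nat_lit 5) (nat_lit 4) (nat_lit 4) (nat_lit 253) (nat_lit 212) (nat_lit 195))))) (XT.nd (nat_lit 234) (nat_lit 152) (nat_lit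 0) (XT.nd (nat_lit 78) (nat_lit 0) (nat_lit 0) (XT.lf (nat_lit 0) (nat_lit 111125988555) (nat_lit 76) (nat_lit 14203128260) (nat_lit 76) (nat_lit 9734709210) (nat_lit 3) (nat_lit 4) (nat_lit 4) (nat_lit 5) (nat_lit 4) (nat_lit 4) (nat_lit 254) (nat_lit 212) (nat_lit 194)) (XT.nd (nat_lit 78) (nat_lit 0) (nat_lit 0) (XT.lf (nat_lit 0) (nat_lit 138285653384) (nat_lit 76) (nat_lit 10559194369) (nat_lit 76) (nat_lit 6039538921) (nat_lit 3) (nat_lit 4) (nat_lit 4) (nat_lit 5) (nat_lit 4) (nat_lit 4) (nat_lit 255) (nat_lit 212) (nat_lit 193)) (XT.lf (nat_lit 0) (nat_lit 169339679556) (nat_lit 76) (nat_lit 6455038021) (nat_lit 76) (nat_lit 1890829183) (nat_lit 3) (nat_lit 4) (nat_lit 4) (nat_lit 5) (nat_lit 4) (nat_lit 4) (nat_lit 256) (nat_lit 212) (nat_lit 192)))) (XT.nd (nat_lit 78) (nat_lit 0) (nat_lit 0) (XT.lf (nat_lit 0) (nat_lit 963253901) (nat_lit 76) (nat_lit 1712806106) (nat_lit 152)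 (nat_lit 201230129678) (nat_lit 1) (nat_lit 5) (nat_lit 2) (nat_lit 5) (nat_lit 3) (nat_lit 4) (nat_lit 257) (nat_lit 212) (nat_lit 191)) (XT.nd (nat_lit 78) (nat_lit 0) (nat_lit 0) (XT.lf (nat_lit 0) (nat_lit 8080859191) (nat_lit 152) (nat_lit 222166320160) (nat_lit 0) (nat_lit 3787674303) (nat_lit 1) (nat_lit 5) (nat_lit 3) (nat_lit 4) (nat_lit 1) (nat_lit 4) (nat_lit 258) (nat_lit 212) (nat_lit 190)) (XT.lf (nat_lit 0) (nat_lit 14276266813) (nat_lit 152) (nat_lit 244452237118) (nat_lit 0) (nat_lit 9955957317) (nat_lit 1) (nat_lit 5) (nat_lit 3) (nat_lit 4) (nat_lit 1) (nat_lit 4) (nat_lit 259) (nat_lit 212) (nat_lit 189)))))) (XT.nd (nat_lit 468) (nat_lit 0) (nat_lit 0) (XT.nd (nat_lit 234) (nat_lit 0) (nat_lit 0) (XT.nd (nat_lit 78) (nat_lit 0) (nat_lit 0) (XT.lf (nat_lit 0) (nat_lit 21342304343) (nat_lit 152) (nat_lit 270195522441) (nat_lit 0) (nat_lit 16998408231) (nat_lit 1) (nat_lit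 5) (nat_lit 3) (nat_lit 4) (nat_lit 1) (nat_lit 4) (nat_lit 260) (nat_lit 212) (nat_lit 188)) (XT.nd (nat_lit 78) (nat_lit 0) (nat_lit 0) (XT.lf (nat_lit 0) (nat_lit 29417220342) (nat_lit 152) (nat_lit 299899849104) (nat_lit 0) (nat_lit 25052814129) (nat_lit 1) (nat_lit 5) (nat_lit 3) (nat_lit 4) (nat_lit 1) (nat_lit 4) (nat_lit 261) (nat_lit 212) (nat_lit 187)) (XT.lf (nat_lit 0) (nat_lit 38659002296) (nat_lit 152) (nat_lit 334146388714) (nat_lit 0) (nat_lit 34276761213) (nat_lit 1) (nat_lit 5) (nat_lit 3) (nat_lit 4) (nat_lit 1) (nat_lit 4) (nat_lit 262) (nat_lit 212) (nat_lit 186)))) (XT.nd (nat_lit 78) (nat_lit 0) (nat_lit 0) (XT.lf (nat_lit 0) (nat_lit 49248467678) (nat_lit 152) (nat_lit 373605182264) (nat_lit 0) (nat_lit 44850718013) (nat_lit 1) (nat_lit 5) (nat_lit 3) (nat_lit 4) (nat_lit 1) (nat_lit 4) (nat_lit 263) (nat_lit 212) (nat_lit 185)) (XT.nd (nat_lit 78) (nat_lit 0)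 (nat_lit 0) (XT.lf (nat_lit 0) (nat_lit 61392801681) (nat_lit 152) (nat_lit 419048249628) (nat_lit 0) (nat_lit 56981566292) (nat_lit 1) (nat_lit 5) (nat_lit 3) (nat_lit 4) (nat_lit 1) (nat_lit 4) (nat_lit 264) (nat_lit 212) (nat_lit 184)) (XT.lf (nat_lit 0) (nat_lit 75329610840) (nat_lit 152) (nat_lit 471364694297) (nat_lit 0) (nat_lit 70906648734) (nat_lit 1) (nat_lit 5) (nat_lit 3) (nat_lit 4) (nat_lit 1) (nat_lit 4) (nat_lit 265) (nat_lit 212) (nat_lit 183))))) (XT.nd (nat_lit 234) (nat_lit 0) (nat_lit 0) (XT.nd (nat_lit 78) (nat_lit 0) (nat_lit 0) (XT.lf (nat_lit 0) (nat_lit 91331571855) (nat_lit 152) (nat_lit 531578098886) (nat_lit 0) (nat_lit 86898412604) (nat_lit 1) (nat_lit 5) (nat_lit 3) (nat_lit 4) (nat_lit 1) (nat_lit 4) (nat_lit 266) (nat_lit 212) (nat_lit 182)) (XT.nd (nat_lit 78) (nat_lit 0) (nat_lit 0) (XT.lf (nat_lit 0) (nat_lit 109711766573) (nat_lit 152) (nat_lit 600866551744)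 (nat_lit 0) (nat_lit 105269740239) (nat_lit 1) (nat_lit 5) (nat_lit 3) (nat_lit 4) (nat_lit 1) (nat_lit 4) (nat_lit 267) (nat_lit 212) (nat_lit 181)) (XT.lf (nat_lit 0) (nat_lit 130829807498) (nat_lit 152) (nat_lit 680585696514) (nat_lit 0) (nat_lit 126380070658) (nat_lit 1) (nat_lit 5) (nat_lit 3) (nat_lit 4) (nat_lit 1) (nat_lit 4) (nat_lit 268) (nat_lit 212) (nat_lit 180)))) (XT.nd (nat_lit 78) (nat_lit 0) (nat_lit 0) (XT.lf (nat_lit 0) (nat_lit 155098873692) (nat_lit 152) (nat_lit 772295255594) (nat_lit 0) (nat_lit 150642432064) (nat_lit 1) (nat_lit 5) (nat_lit 3) (nat_lit 4) (nat_lit 1) (nat_lit 4) (nat_lit 269) (nat_lit 212) (nat_lit 179)) (XT.nd (nat_lit 78) (nat_lit 0) (nat_lit 0) (XT.lf (nat_lit 0) (nat_lit 182993794712) (nat_lit 152) (nat_lit 877789546444) (nat_lit 0) (nat_lit 178531522833) (nat_lit 1) (nat_lit 5) (nat_lit 3) (nat_lit 4) (nat_lit 1) (nat_lit 4) (nat_lit 270)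 (nat_lit 212) (nat_lit 178)) (XT.lf (nat_lit 0) (nat_lit 215060340750) (nat_lit 152) (nat_lit 999132587798) (nat_lit 0) (nat_lit 210592999088) (nat_lit 1) (nat_lit 5) (nat_lit 3) (nat_lit 4) (nat_lit 1) (nat_lit 4) (nat_lit 271) (nat_lit 212) (nat_lit 177))))))) (XT.nd (nat_lit 936) (nat_lit 0) (nat_lit 0) (XT.nd (nat_lit 468) (nat_lit 0) (nat_lit 0) (XT.nd (nat_lit 234) (nat_lit 0) (nat_lit 0) (XT.nd (nat_lit 78) (nat_lit 0) (nat_lit 0) (XT.lf (nat_lit 0) (nat_lit 251925900753) (nat_lit 152) (nat_lit 1138698482640) (nat_lit 0) (nat_lit 247454150583) (nat_lit 1) (nat_lit 5) (nat_lit 3) (nat_lit 4) (nat_lit 1) (nat_lit 4) (nat_lit 272) (nat_lit 212) (nat_lit 176)) (XT.nd (nat_lit 78) (nat_lit 0) (nat_lit 0) (XT.lf (nat_lit 0) (nat_lit 294311757414) (nat_lit 152) (nat_lit 1299217868042) (nat_lit 0) (nat_lit 289836173760) (nat_lit 1) (nat_lit 5) (nat_lit 3) (nat_lit 4) (nat_lit 1) (nat_lit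 4) (nat_lit 273) (nat_lit 212) (nat_lit 175)) (XT.lf (nat_lit 0) (nat_lit 343047199234) (nat_lit 152) (nat_lit 1483831340676) (nat_lit 0) (nat_lit 338568282115) (nat_lit 1) (nat_lit 5) (nat_lit 3) (nat_lit 4) (nat_lit 1) (nat_lit 4) (nat_lit 274) (nat_lit 212) (nat_lit 174)))) (XT.nd (nat_lit 78) (nat_lit 0) (nat_lit 0) (XT.lf (nat_lit 0) (nat_lit 399085745727) (nat_lit 152) (nat_lit 1696150903266) (nat_lit 0) (nat_lit 394603929943) (nat_lit 1) (nat_lit 5) (nat_lit 3) (nat_lit 4) (nat_lit 1) (nat_lit 4) (nat_lit 275) (nat_lit 212) (nat_lit 173)) (XT.nd (nat_lit 78) (nat_lit 0) (nat_lit 0) (XT.lf (nat_lit 0) (nat_lit 463523803237) (nat_lit 152) (nat_lit 1940330634211) (nat_lit 0) (nat_lit 459039466875) (nat_lit 1) (nat_lit 5) (nat_lit 3) (nat_lit 4) (nat_lit 1) (nat_lit 4) (nat_lit 276) (nat_lit 212) (nat_lit 172)) (XT.lf (nat_lit 0) (nat_lit 537622116368) (nat_lit 152) (nat_lit 2221147963029)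 (nat_lit 0) (nat_lit 533135588199) (nat_lit 1) (nat_lit 5) (nat_lit 3) (nat_lit 4) (nat_lit 1) (nat_lit 4) (nat_lit 277) (nat_lit 212) (nat_lit 171))))) (XT.nd (nat_lit 234) (nat_lit 0) (nat_lit 0) (XT.nd (nat_lit 78) (nat_lit 0) (nat_lit 0) (XT.lf (nat_lit 0) (nat_lit 622830434725) (nat_lit 152) (nat_lit 2544097141807) (nat_lit 0) (nat_lit 618342000636) (nat_lit 1) (nat_lit 5) (nat_lit 3) (nat_lit 4) (nat_lit 1) (nat_lit 4) (nat_lit 278) (nat_lit 212) (nat_lit 170)) (XT.nd (nat_lit 78) (nat_lit 0) (nat_lit 0) (XT.lf (nat_lit 0) (nat_lit 720815877579) (nat_lit 152) (nat_lit 2915496741433) (nat_lit 0) (nat_lit 716325786169) (nat_lit 1) (nat_lit 5) (nat_lit 3) (nat_lit 4) (nat_lit 1) (nat_lit 4) (nat_lit 279) (nat_lit 212) (nat_lit 169)) (XT.lf (nat_lit 0) (nat_lit 833495551421) (nat_lit 152) (nat_lit 3342613275813) (nat_lit 0) (nat_lit 829004018863) (nat_lit 1) (nat_lit 5) (nat_lit 3)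 (nat_lit 4) (nat_lit 1) (nat_lit 4) (nat_lit 280) (nat_lit 212) (nat_lit 168)))) (XT.nd (nat_lit 78) (nat_lit 0) (nat_lit 0) (XT.lf (nat_lit 0) (nat_lit 963074058566) (nat_lit 152) (nat_lit 3833803372794) (nat_lit 0) (nat_lit 958581272835) (nat_lit 1) (nat_lit 5) (nat_lit 3) (nat_lit 4) (nat_lit 1) (nat_lit 4) (nat_lit 281) (nat_lit 212) (nat_lit 167)) (XT.nd (nat_lit 78) (nat_lit 0) (nat_lit 0) (XT.lf (nat_lit 0) (nat_lit 1112086630675) (nat_lit 152) (nat_lit 4398677273404) (nat_lit 0) (nat_lit 1107592755228) (nat_lit 1) (nat_lit 5) (nat_lit 3) (nat_lit 4) (nat_lit 1) (nat_lit 4) (nat_lit 282) (nat_lit 212) (nat_lit 166)) (XT.lf (nat_lit 0) (nat_lit 1283448731115) (nat_lit 152) (nat_lit 5048286858306) (nat_lit 0) (nat_lit 1278953908090) (nat_lit 1) (nat_lit 5) (nat_lit 3) (nat_lit 4) (nat_lit 1) (nat_lit 4) (nat_lit 283) (nat_lit 212) (nat_lit 165)))))) (XT.nd (nat_lit 30654) (nat_lit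 0) (nat_lit 456) (XT.nd (nat_lit 234) (nat_lit 0) (nat_lit 0) (XT.nd (nat_lit 78) (nat_lit 0) (nat_lit 0) (XT.lf (nat_lit 0) (nat_lit 1480513096635) (nat_lit 152) (nat_lit 5795341880248) (nat_lit 0) (nat_lit 1476017449628) (nat_lit 1) (nat_lit 5) (nat_lit 3) (nat_lit 4) (nat_lit 1) (nat_lit 4) (nat_lit 284) (nat_lit 212) (nat_lit 164)) (XT.nd (nat_lit 78) (nat_lit 0) (nat_lit 0) (XT.lf (nat_lit 0) (nat_lit 1707135334385) (nat_lit 152) (nat_lit 6654458633139) (nat_lit 0) (nat_lit 1702638970873) (nat_lit 1) (nat_lit 5) (nat_lit 3) (nat_lit 4) (nat_lit 1) (nat_lit 4) (nat_lit 285) (nat_lit 212) (nat_lit 163)) (XT.lf (nat_lit 0) (nat_lit 1967749357713) (nat_lit 152) (nat_lit 7642445923013) (nat_lit 0) (nat_lit 1963252371152) (nat_lit 1) (nat_lit 5) (nat_lit 3) (nat_lit 4) (nat_lit 1) (nat_lit 4) (nat_lit 286) (nat_lit 212) (nat_lit 162)))) (XT.nd (nat_lit 30264) (nat_lit 0) (nat_lit 1064)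 (XT.lf (nat_lit 0) (nat_lit 2267454136641) (nat_lit 152) (nat_lit 8778633935977) (nat_lit 0) (nat_lit 2262956608299) (nat_lit 1) (nat_lit 5) (nat_lit 3) (nat_lit 4) (nat_lit 1) (nat_lit 4) (nat_lit 287) (nat_lit 212) (nat_lit 161)) (XT.nd (nat_lit 78) (nat_lit 152) (nat_lit 0) (XT.lf (nat_lit 0) (nat_lit 2078410153) (nat_lit 152) (nat_lit 2025026854) (nat_lit 0) (nat_lit 2078410153) (nat_lit 17) (nat_lit 5) (nat_lit 19) (nat_lit 4) (nat_lit 17) (nat_lit 4) (nat_lit 234) (nat_lit 213) (nat_lit 213)) (XT.lf (nat_lit 0) (nat_lit 10604021448) (nat_lit 152) (nat_lit 1940370274) (nat_lit 152) (nat_lit 948322519) (nat_lit 15) (nat_lit 4) (nat_lit 17) (nat_lit 5) (nat_lit 17) (nat_lit 4) (nat_lit 235) (nat_lit 213) (nat_lit 212))))) (XT.nd (nat_lit 234) (nat_lit 228) (nat_lit 0) (XT.nd (nat_lit 78) (nat_lit 228) (nat_lit 0) (XT.lf (nat_lit 0) (nat_lit 6778311093) (nat_lit 152) (nat_lit 2958622039)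 (nat_lit 0) (nat_lit 5060998152) (nat_lit 13) (nat_lit 5) (nat_lit 15) (nat_lit 4) (nat_lit 13) (nat_lit 4) (nat_lit 236) (nat_lit 213) (nat_lit 211)) (XT.nd (nat_lit 78) (nat_lit 152) (nat_lit 0) (XT.lf (nat_lit 0) (nat_lit 11881006062) (nat_lit 76) (nat_lit 3426381928) (nat_lit 76) (nat_lit 1014503591) (nat_lit 12) (nat_lit 4) (nat_lit 13) (nat_lit 5) (nat_lit 13) (nat_lit 4) (nat_lit 237) (nat_lit 213) (nat_lit 210)) (XT.lf (nat_lit 0) (nat_lit 6435428355) (nat_lit 152) (nat_lit 8003514759) (nat_lit 0) (nat_lit 3642976275) (nat_lit 10) (nat_lit 5) (nat_lit 12) (nat_lit 4) (nat_lit 10) (nat_lit 4) (nat_lit 238) (nat_lit 213) (nat_lit 209)))) (XT.nd (nat_lit 78) (nat_lit 152) (nat_lit 0) (XT.lf (nat_lit 0) (nat_lit 5968576967) (nat_lit 76) (nat_lit 8717582889) (nat_lit 76) (nat_lit 5438842637) (nat_lit 9) (nat_lit 4) (nat_lit 10) (nat_lit 5) (nat_lit 10) (nat_lit 4) (nat_lit 239) (nat_lit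 213) (nat_lit 208)) (XT.nd (nat_lit 78) (nat_lit 76) (nat_lit 0) (XT.lf (nat_lit 0) (nat_lit 1266005113) (nat_lit 152) (nat_lit 1068308894) (nat_lit 76) (nat_lit 20165382984) (nat_lit 8) (nat_lit 5) (nat_lit 10) (nat_lit 5) (nat_lit 9) (nat_lit 4) (nat_lit 240) (nat_lit 213) (nat_lit 207)) (XT.lf (nat_lit 0) (nat_lit 8601043224) (nat_lit 152) (nat_lit 11789801615) (nat_lit 0) (nat_lit 4833169842) (nat_lit 7) (nat_lit 5) (nat_lit 9) (nat_lit 4) (nat_lit 7) (nat_lit 4) (nat_lit 241) (nat_lit 213) (nat_lit 206))))))))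
noncomputable def xc15 : XT := (XT.nd (nat_lit 1872) (nat_lit 0) (nat_lit 0) (XT.nd (nat_lit 936) (nat_lit 152) (nat_lit 0) (XT.nd (nat_lit 468) (nat_lit 76) (nat_lit 0) (XT.nd (nat_lit 234) (nat_lit 152) (nat_lit 0) (XT.nd (nat_lit 78) (nat_lit 0) (nat_lit 0) (XT.lf (nat_lit 0) (nat_lit 909533361) (nat_lit 76) (nat_lit 15770146812) (nat_lit 76) (nat_lit 11706215683) (nat_lit 6) (nat_lit 4) (nat_lit 7) (nat_lit 5) (nat_lit 7) (nat_lit 4) (nat_lit 242) (nat_lit 213) (nat_lit 205)) (XT.nd (nat_lit 78) (nat_lit 0) (nat_lit 0) (XT.lf (nat_lit 0) (nat_lit 15410392607) (nat_lit 76) (nat_lit 10470264492) (nat_lit 76) (nat_lit 6148891844) (nat_lit 6) (nat_lit 4) (nat_lit 7) (nat_lit 5) (nat_lit 7) (nat_lit 4) (nat_lit 243) (nat_lit 213) (nat_lit 204)) (XT.lf (nat_lit 0) (nat_lit 31375658524) (nat_lit 76) (nat_lit 4709858600) (nat_lit 76) (nat_lit 164623761) (nat_lit 6) (nat_lit 4) (nat_lit 7)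 (nat_lit 5) (nat_lit 7) (nat_lit 4) (nat_lit 244) (nat_lit 213) (nat_lit 203)))) (XT.nd (nat_lit 78) (nat_lit 0) (nat_lit 0) (XT.lf (nat_lit 0) (nat_lit 6291853379) (nat_lit 152) (nat_lit 32903370657) (nat_lit 0) (nat_lit 1903059293) (nat_lit 4) (nat_lit 5) (nat_lit 6) (nat_lit 4) (nat_lit 4) (nat_lit 4) (nat_lit 245) (nat_lit 213) (nat_lit 202)) (XT.nd (nat_lit 78) (nat_lit 0) (nat_lit 0) (XT.lf (nat_lit 0) (nat_lit 13670451133) (nat_lit 152) (nat_lit 23881061377) (nat_lit 0) (nat_lit 9124923735) (nat_lit 4) (nat_lit 5) (nat_lit 6) (nat_lit 4) (nat_lit 4) (nat_lit 4) (nat_lit 246) (nat_lit 213) (nat_lit 201)) (XT.lf (nat_lit 0) (nat_lit 21883886373) (nat_lit 152) (nat_lit 14027289205) (nat_lit 0) (nat_lit 17202069138) (nat_lit 4) (nat_lit 5) (nat_lit 6) (nat_lit 4) (nat_lit 4) (nat_lit 4) (nat_lit 247) (nat_lit 213) (nat_lit 200))))) (XT.nd (nat_lit 234) (nat_lit 0) (nat_lit 0) (XT.nd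 (nat_lit 78) (nat_lit 76) (nat_lit 0) (XT.lf (nat_lit 0) (nat_lit 31092856745) (nat_lit 152) (nat_lit 3149262947) (nat_lit 0) (nat_lit 26292526608) (nat_lit 4) (nat_lit 5) (nat_lit 6) (nat_lit 4) (nat_lit 4) (nat_lit 4) (nat_lit 248) (nat_lit 213) (nat_lit 199)) (XT.nd (nat_lit 78) (nat_lit 0) (nat_lit 0) (XT.lf (nat_lit 0) (nat_lit 9437974029) (nat_lit 76) (nat_lit 32266547229) (nat_lit 76) (nat_lit 27363162395) (nat_lit 3) (nat_lit 4) (nat_lit 4) (nat_lit 5) (nat_lit 4) (nat_lit 4) (nat_lit 249) (nat_lit 213) (nat_lit 198)) (XT.lf (nat_lit 0) (nat_lit 23742789970) (nat_lit 76) (nat_lit 30069332647) (nat_lit 76) (nat_lit 25076335032) (nat_lit 3) (nat_lit 4) (nat_lit 4) (nat_lit 5) (nat_lit 4) (nat_lit 4) (nat_lit 250) (nat_lit 213) (nat_lit 197)))) (XT.nd (nat_lit 78) (nat_lit 0) (nat_lit 0) (XT.lf (nat_lit 0) (nat_lit 39879227103) (nat_lit 76) (nat_lit 27693593396) (nat_lit 76) (nat_lit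 22622671624) (nat_lit 3) (nat_lit 4) (nat_lit 4) (nat_lit 5) (nat_lit 4) (nat_lit 4) (nat_lit 251) (nat_lit 213) (nat_lit 196)) (XT.nd (nat_lit 78) (nat_lit 0) (nat_lit 0) (XT.lf (nat_lit 0) (nat_lit 58162998327) (nat_lit 76) (nat_lit 25092847620) (nat_lit 76) (nat_lit 19954165712) (nat_lit 3) (nat_lit 4) (nat_lit 4) (nat_lit 5) (nat_lit 4) (nat_lit 4) (nat_lit 252) (nat_lit 213) (nat_lit 195)) (XT.lf (nat_lit 0) (nat_lit 78951829603) (nat_lit 76) (nat_lit 22216211163) (nat_lit 76) (nat_lit 17018607398) (nat_lit 3) (nat_lit 4) (nat_lit 4) (nat_lit 5) (nat_lit 4) (nat_lit 4) (nat_lit 253) (nat_lit 213) (nat_lit 194)))))) (XT.nd (nat_lit 468) (nat_lit 0) (nat_lit 0) (XT.nd (nat_lit 234) (nat_lit 152) (nat_lit 0) (XT.nd (nat_lit 78) (nat_lit 0) (nat_lit 0) (XT.lf (nat_lit 0) (nat_lit 102652458933) (nat_lit 76) (nat_lit 19007402008) (nat_lit 76) (nat_lit 13758561845) (nat_lit 3) (nat_lit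 4) (nat_lit 4) (nat_lit 5) (nat_lit 4) (nat_lit 4) (nat_lit 254) (nat_lit 213) (nat_lit 193)) (XT.nd (nat_lit 78) (nat_lit 0) (nat_lit 0) (XT.lf (nat_lit 0) (nat_lit 129728594282) (nat_lit 76) (nat_lit 15403639106) (nat_lit 76) (nat_lit 10110245553) (nat_lit 3) (nat_lit 4) (nat_lit 4) (nat_lit 5) (nat_lit 4) (nat_lit 4) (nat_lit 255) (nat_lit 213) (nat_lit 192)) (XT.lf (nat_lit 0) (nat_lit 160709986124) (nat_lit 76) (nat_lit 11334414052) (nat_lit 76) (nat_lit 6002278422) (nat_lit 3) (nat_lit 4) (nat_lit 4) (nat_lit 5) (nat_lit 4) (nat_lit 4) (nat_lit 256) (nat_lit 213) (nat_lit 191)))) (XT.nd (nat_lit 78) (nat_lit 152) (nat_lit 0) (XT.lf (nat_lit 0) (nat_lit 196202792127) (nat_lit 76) (nat_lit 6720111574) (nat_lit 76) (nat_lit 1354287180) (nat_lit 3) (nat_lit 4) (nat_lit 4) (nat_lit 5) (nat_lit 4) (nat_lit 4) (nat_lit 257) (nat_lit 213) (nat_lit 190)) (XT.nd (nat_lit 78) (nat_lit 0) (nat_lit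 0) (XT.lf (nat_lit 0) (nat_lit 2484091255) (nat_lit 76) (nat_lit 1303990584) (nat_lit 152) (nat_lit 230646809162) (nat_lit 1) (nat_lit 5) (nat_lit 2) (nat_lit 5) (nat_lit 3) (nat_lit 4) (nat_lit 258) (nat_lit 213) (nat_lit 189)) (XT.lf (nat_lit 0) (nat_lit 9924834858) (nat_lit 152) (nat_lit 254258602594) (nat_lit 0) (nat_lit 4905767714) (nat_lit 1) (nat_lit 5) (nat_lit 3) (nat_lit 4) (nat_lit 1) (nat_lit 4) (nat_lit 259) (nat_lit 213) (nat_lit 188))))) (XT.nd (nat_lit 234) (nat_lit 0) (nat_lit 0) (XT.nd (nat_lit 78) (nat_lit 0) (nat_lit 0) (XT.lf (nat_lit 0) (nat_lit 16967138825) (nat_lit 152) (nat_lit 280048189564) (nat_lit 0) (nat_lit 11927561580) (nat_lit 1) (nat_lit 5) (nat_lit 3) (nat_lit 4) (nat_lit 1) (nat_lit 4) (nat_lit 260) (nat_lit 213) (nat_lit 187)) (XT.nd (nat_lit 78) (nat_lit 0) (nat_lit 0) (XT.lf (nat_lit 0) (nat_lit 25021416943) (nat_lit 152) (nat_lit 309792778528) (nat_lit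 0) (nat_lit 19964004828) (nat_lit 1) (nat_lit 5) (nat_lit 3) (nat_lit 4) (nat_lit 1) (nat_lit 4) (nat_lit 261) (nat_lit 213) (nat_lit 186)) (XT.lf (nat_lit 0) (nat_lit 34245252913) (nat_lit 152) (nat_lit 344074328835) (nat_lit 0) (nat_lit 29172332216) (nat_lit 1) (nat_lit 5) (nat_lit 3) (nat_lit 4) (nat_lit 1) (nat_lit 4) (nat_lit 262) (nat_lit 213) (nat_lit 185)))) (XT.nd (nat_lit 78) (nat_lit 0) (nat_lit 0) (XT.lf (nat_lit 0) (nat_lit 44819113093) (nat_lit 152) (nat_lit 383563566469) (nat_lit 0) (nat_lit 39732706671) (nat_lit 1) (nat_lit 5) (nat_lit 3) (nat_lit 4) (nat_lit 1) (nat_lit 4) (nat_lit 263) (nat_lit 213) (nat_lit 184)) (XT.nd (nat_lit 78) (nat_lit 0) (nat_lit 0) (XT.lf (nat_lit 0) (nat_lit 56949877354) (nat_lit 152) (nat_lit 429033106950) (nat_lit 0) (nat_lit 51851744215) (nat_lit 1) (nat_lit 5) (nat_lit 3) (nat_lit 4) (nat_lit 1) (nat_lit 4) (nat_lit 264) (nat_lit 213) (nat_lit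 183)) (XT.lf (nat_lit 0) (nat_lit 70874886737) (nat_lit 152) (nat_lit 481372571721) (nat_lit 0) (nat_lit 65766556454) (nat_lit 1) (nat_lit 5) (nat_lit 3) (nat_lit 4) (nat_lit 1) (nat_lit 4) (nat_lit 265) (nat_lit 213) (nat_lit 182))))))) (XT.nd (nat_lit 936) (nat_lit 0) (nat_lit 0) (XT.nd (nat_lit 468) (nat_lit 0) (nat_lit 0) (XT.nd (nat_lit 234) (nat_lit 0) (nat_lit 0) (XT.nd (nat_lit 78) (nat_lit 0) (nat_lit 0) (XT.lf (nat_lit 0) (nat_lit 86866587078) (nat_lit 152) (nat_lit 541605993789) (nat_lit 0) (nat_lit 81749389712) (nat_lit 1) (nat_lit 5) (nat_lit 3) (nat_lit 4) (nat_lit 1) (nat_lit 4) (nat_lit 266) (nat_lit 213) (nat_lit 181)) (XT.nd (nat_lit 78) (nat_lit 0) (nat_lit 0) (XT.lf (nat_lit 0) (nat_lit 105237859470) (nat_lit 152) (nat_lit 610911853151) (nat_lit 0) (nat_lit 100112951597) (nat_lit 1) (nat_lit 5) (nat_lit 3) (nat_lit 4) (nat_lit 1) (nat_lit 4) (nat_lit 267) (nat_lit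 213) (nat_lit 180)) (XT.lf (nat_lit 0) (nat_lit 126348141851) (nat_lit 152) (nat_lit 690646134011) (nat_lit 0) (nat_lit 121216529190) (nat_lit 1) (nat_lit 5) (nat_lit 3) (nat_lit 4) (nat_lit 1) (nat_lit 4) (nat_lit 268) (nat_lit 213) (nat_lit 179)))) (XT.nd (nat_lit 78) (nat_lit 0) (nat_lit 0) (XT.lf (nat_lit 0) (nat_lit 150610461485) (nat_lit 152) (nat_lit 782368854909) (nat_lit 0) (nat_lit 145473018574) (nat_lit 1) (nat_lit 5) (nat_lit 3) (nat_lit 4) (nat_lit 1) (nat_lit 4) (nat_lit 269) (nat_lit 213) (nat_lit 178)) (XT.nd (nat_lit 78) (nat_lit 0) (nat_lit 0) (XT.lf (nat_lit 0) (nat_lit 178499515931) (nat_lit 152) (nat_lit 887874590818) (nat_lit 0) (nat_lit 173357003236) (nat_lit 1) (nat_lit 5) (nat_lit 3) (nat_lit 4) (nat_lit 1) (nat_lit 4) (nat_lit 270) (nat_lit 213) (nat_lit 177)) (XT.lf (nat_lit 0) (nat_lit 210560960601) (nat_lit 152) (nat_lit 1009227584398) (nat_lit 0) (nat_lit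 205414039399) (nat_lit 1) (nat_lit 5) (nat_lit 3) (nat_lit 4) (nat_lit 1) (nat_lit 4) (nat_lit 271) (nat_lit 213) (nat_lit 176))))) (XT.nd (nat_lit 234) (nat_lit 0) (nat_lit 0) (XT.nd (nat_lit 78) (nat_lit 0) (nat_lit 0) (XT.lf (nat_lit 0) (nat_lit 247422084631) (nat_lit 152) (nat_lit 1148802133349) (nat_lit 0) (nat_lit 242271329944) (nat_lit 1) (nat_lit 5) (nat_lit 3) (nat_lit 4) (nat_lit 1) (nat_lit 4) (nat_lit 272) (nat_lit 213) (nat_lit 175)) (XT.nd (nat_lit 78) (nat_lit 0) (nat_lit 0) (XT.lf (nat_lit 0) (nat_lit 289804083924) (nat_lit 152) (nat_lit 1309329044063) (nat_lit 0) (nat_lit 284649995773) (nat_lit 1) (nat_lit 5) (nat_lit 3) (nat_lit 4) (nat_lit 1) (nat_lit 4) (nat_lit 273) (nat_lit 213) (nat_lit 174)) (XT.lf (nat_lit 0) (nat_lit 338536171512) (nat_lit 152) (nat_lit 1493949060446) (nat_lit 0) (nat_lit 333379184696) (nat_lit 1) (nat_lit 5) (nat_lit 3) (nat_lit 4) (nat_lit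 1) (nat_lit 4) (nat_lit 274) (nat_lit 213) (nat_lit 173)))) (XT.nd (nat_lit 78) (nat_lit 0) (nat_lit 0) (XT.lf (nat_lit 0) (nat_lit 394571801281) (nat_lit 152) (nat_lit 1706274313253) (nat_lit 0) (nat_lit 389412293886) (nat_lit 1) (nat_lit 5) (nat_lit 3) (nat_lit 4) (nat_lit 1) (nat_lit 4) (nat_lit 275) (nat_lit 213) (nat_lit 172)) (XT.nd (nat_lit 78) (nat_lit 0) (nat_lit 0) (XT.lf (nat_lit 0) (nat_lit 459007322509) (nat_lit 152) (nat_lit 1950458992212) (nat_lit 0) (nat_lit 453845623308) (nat_lit 1) (nat_lit 5) (nat_lit 3) (nat_lit 4) (nat_lit 1) (nat_lit 4) (nat_lit 276) (nat_lit 213) (nat_lit 171)) (XT.lf (nat_lit 0) (nat_lit 533103430178) (nat_lit 152) (nat_lit 2231280623653) (nat_lit 0) (nat_lit 527939825057) (nat_lit 1) (nat_lit 5) (nat_lit 3) (nat_lit 4) (nat_lit 1) (nat_lit 4) (nat_lit 277) (nat_lit 213) (nat_lit 170)))))) (XT.nd (nat_lit 468) (nat_lit 0) (nat_lit 0) (XT.nd (nat_lit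 234) (nat_lit 0) (nat_lit 0) (XT.nd (nat_lit 78) (nat_lit 0) (nat_lit 0) (XT.lf (nat_lit 0) (nat_lit 618309830741) (nat_lit 152) (nat_lit 2554233543841) (nat_lit 0) (nat_lit 613144568299) (nat_lit 1) (nat_lit 5) (nat_lit 3) (nat_lit 4) (nat_lit 1) (nat_lit 4) (nat_lit 278) (nat_lit 213) (nat_lit 169)) (XT.nd (nat_lit 78) (nat_lit 0) (nat_lit 0) (XT.lf (nat_lit 0) (nat_lit 716293605948) (nat_lit 152) (nat_lit 2925636396867) (nat_lit 0) (nat_lit 711126902358) (nat_lit 1) (nat_lit 5) (nat_lit 3) (nat_lit 4) (nat_lit 1) (nat_lit 4) (nat_lit 279) (nat_lit 213) (nat_lit 168)) (XT.lf (nat_lit 0) (nat_lit 828971829663) (nat_lit 152) (nat_lit 3352755760291) (nat_lit 0) (nat_lit 823803872900) (nat_lit 1) (nat_lit 5) (nat_lit 3) (nat_lit 4) (nat_lit 1) (nat_lit 4) (nat_lit 280) (nat_lit 213) (nat_lit 167)))) (XT.nd (nat_lit 78) (nat_lit 0) (nat_lit 0) (XT.lf (nat_lit 0) (nat_lit 958549075828) (nat_lit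 152) (nat_lit 3843948317309) (nat_lit 0) (nat_lit 953380029349) (nat_lit 1) (nat_lit 5) (nat_lit 3) (nat_lit 4) (nat_lit 1) (nat_lit 4) (nat_lit 281) (nat_lit 213) (nat_lit 166)) (XT.nd (nat_lit 78) (nat_lit 0) (nat_lit 0) (XT.lf (nat_lit 0) (nat_lit 1107560551432) (nat_lit 152) (nat_lit 4408824357082) (nat_lit 0) (nat_lit 1102390557374) (nat_lit 1) (nat_lit 5) (nat_lit 3) (nat_lit 4) (nat_lit 1) (nat_lit 4) (nat_lit 282) (nat_lit 213) (nat_lit 165)) (XT.lf (nat_lit 0) (nat_lit 1278921698390) (nat_lit 152) (nat_lit 5058435802126) (nat_lit 0) (nat_lit 1273750880351) (nat_lit 1) (nat_lit 5) (nat_lit 3) (nat_lit 4) (nat_lit 1) (nat_lit 4) (nat_lit 283) (nat_lit 213) (nat_lit 164))))) (XT.nd (nat_lit 234) (nat_lit 0) (nat_lit 0) (XT.nd (nat_lit 78) (nat_lit 0) (nat_lit 0) (XT.lf (nat_lit 0) (nat_lit 1475985234795) (nat_lit 152) (nat_lit 5805492441583) (nat_lit 0) (nat_lit 1470813700250) (nat_lit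 1) (nat_lit 5) (nat_lit 3) (nat_lit 4) (nat_lit 1) (nat_lit 4) (nat_lit 284) (nat_lit 213) (nat_lit 163)) (XT.nd (nat_lit 78) (nat_lit 0) (nat_lit 0) (XT.lf (nat_lit 0) (nat_lit 1702606751576) (nat_lit 152) (nat_lit 6664610601009) (nat_lit 0) (nat_lit 1697434593982) (nat_lit 1) (nat_lit 5) (nat_lit 3) (nat_lit 4) (nat_lit 1) (nat_lit 4) (nat_lit 285) (nat_lit 213) (nat_lit 162)) (XT.lf (nat_lit 0) (nat_lit 1963220147974) (nat_lit 152) (nat_lit 7652599113957) (nat_lit 0) (nat_lit 1958047448599) (nat_lit 1) (nat_lit 5) (nat_lit 3) (nat_lit 4) (nat_lit 1) (nat_lit 4) (nat_lit 286) (nat_lit 213) (nat_lit 161)))) (XT.nd (nat_lit 30186) (nat_lit 0) (nat_lit 1216) (XT.nd (nat_lit 30108) (nat_lit 0) (nat_lit 1520) (XT.lf (nat_lit 0) (nat_lit 2262924381745) (nat_lit 152) (nat_lit 8788788190462) (nat_lit 0) (nat_lit 2257751211256) (nat_lit 1) (nat_lit 5) (nat_lit 3) (nat_lit 4) (nat_lit 1) (nat_lit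 4) (nat_lit 287) (nat_lit 213) (nat_lit 160)) (XT.lf (nat_lit 0) (nat_lit 659128388) (nat_lit 152) (nat_lit 3955505983) (nat_lit 0) (nat_lit 659128388) (nat_lit 21) (nat_lit 5) (nat_lit 23) (nat_lit 4) (nat_lit 21) (nat_lit 4) (nat_lit 232) (nat_lit 214) (nat_lit 214))) (XT.nd (nat_lit 78) (nat_lit 152) (nat_lit 0) (XT.lf (nat_lit 0) (nat_lit 5396826467) (nat_lit 152) (nat_lit 3617695688) (nat_lit 152) (nat_lit 2385572377) (nat_lit 19) (nat_lit 4) (nat_lit 21) (nat_lit 5) (nat_lit 21) (nat_lit 4) (nat_lit 233) (nat_lit 214) (nat_lit 213)) (XT.lf (nat_lit 0) (nat_lit 4904499028) (nat_lit 152) (nat_lit 4719650396) (nat_lit 0) (nat_lit 2771596356) (nat_lit 17) (nat_lit 5) (nat_lit 19) (nat_lit 4) (nat_lit 17) (nat_lit 4) (nat_lit 234) (nat_lit 214) (nat_lit 212))))))))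
noncomputable def xc16 : XT := (XT.nd (nat_lit 1872) (nat_lit 152) (nat_lit 0) (XT.nd (nat_lit 936) (nat_lit 76) (nat_lit 0) (XT.nd (nat_lit 468) (nat_lit 380) (nat_lit 0) (XT.nd (nat_lit 234) (nat_lit 228) (nat_lit 0) (XT.nd (nat_lit 78) (nat_lit 228) (nat_lit 0) (XT.lf (nat_lit 0) (nat_lit 9286246324) (nat_lit 152) (nat_lit 3632239252) (nat_lit 152) (nat_lit 636686358) (nat_lit 15) (nat_lit 4) (nat_lit 17) (nat_lit 5) (nat_lit 17) (nat_lit 4) (nat_lit 235) (nat_lit 214) (nat_lit 211)) (XT.nd (nat_lit 78) (nat_lit 76) (nat_lit 0) (XT.lf (nat_lit 0) (nat_lit 6659359217) (nat_lit 152) (nat_lit 5042914569) (nat_lit 0) (nat_lit 3191133734) (nat_lit 13) (nat_lit 5) (nat_lit 15) (nat_lit 4) (nat_lit 13) (nat_lit 4) (nat_lit 236) (nat_lit 214) (nat_lit 210)) (XT.lf (nat_lit 0) (nat_lit 9137536481) (nat_lit 76) (nat_lit 5690606913) (nat_lit 76) (nat_lit 1618411521) (nat_lit 12) (nat_lit 4) (nat_lit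 13) (nat_lit 5) (nat_lit 13) (nat_lit 4) (nat_lit 237) (nat_lit 214) (nat_lit 209)))) (XT.nd (nat_lit 78) (nat_lit 76) (nat_lit 0) (XT.lf (nat_lit 0) (nat_lit 5440086758) (nat_lit 152) (nat_lit 11618434894) (nat_lit 0) (nat_lit 1183247297) (nat_lit 10) (nat_lit 5) (nat_lit 12) (nat_lit 4) (nat_lit 10) (nat_lit 4) (nat_lit 238) (nat_lit 214) (nat_lit 208)) (XT.nd (nat_lit 78) (nat_lit 0) (nat_lit 0) (XT.lf (nat_lit 0) (nat_lit 1672535000) (nat_lit 76) (nat_lit 11660448596) (nat_lit 76) (nat_lit 6980749855) (nat_lit 9) (nat_lit 4) (nat_lit 10) (nat_lit 5) (nat_lit 10) (nat_lit 4) (nat_lit 239) (nat_lit 214) (nat_lit 207)) (XT.lf (nat_lit 0) (nat_lit 16743207437) (nat_lit 76) (nat_lit 5506967449) (nat_lit 76) (nat_lit 459564987) (nat_lit 9) (nat_lit 4) (nat_lit 10) (nat_lit 5) (nat_lit 10) (nat_lit 4) (nat_lit 240) (nat_lit 214) (nat_lit 206))))) (XT.nd (nat_lit 234) (nat_lit 152) (nat_lit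 0) (XT.nd (nat_lit 78) (nat_lit 76) (nat_lit 0) (XT.lf (nat_lit 0) (nat_lit 6474001794) (nat_lit 152) (nat_lit 17490651844) (nat_lit 0) (nat_lit 1504423248) (nat_lit 7) (nat_lit 5) (nat_lit 9) (nat_lit 4) (nat_lit 7) (nat_lit 4) (nat_lit 241) (nat_lit 214) (nat_lit 205)) (XT.nd (nat_lit 78) (nat_lit 76) (nat_lit 0) (XT.lf (nat_lit 0) (nat_lit 14338649963) (nat_lit 152) (nat_lit 5197952322) (nat_lit 0) (nat_lit 9111629898) (nat_lit 7) (nat_lit 5) (nat_lit 9) (nat_lit 4) (nat_lit 7) (nat_lit 4) (nat_lit 242) (nat_lit 214) (nat_lit 204)) (XT.lf (nat_lit 0) (nat_lit 8698623492) (nat_lit 76) (nat_lit 14534403415) (nat_lit 76) (nat_lit 9083521160) (nat_lit 6) (nat_lit 4) (nat_lit 7) (nat_lit 5) (nat_lit 7) (nat_lit 4) (nat_lit 243) (nat_lit 214) (nat_lit 203)))) (XT.nd (nat_lit 78) (nat_lit 152) (nat_lit 0) (XT.lf (nat_lit 0) (nat_lit 24376438565) (nat_lit 76) (nat_lit 8909269019) (nat_lit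 76) (nat_lit 3263723990) (nat_lit 6) (nat_lit 4) (nat_lit 7) (nat_lit 5) (nat_lit 7) (nat_lit 4) (nat_lit 244) (nat_lit 214) (nat_lit 202)) (XT.nd (nat_lit 78) (nat_lit 0) (nat_lit 0) (XT.lf (nat_lit 0) (nat_lit 371816641) (nat_lit 76) (nat_lit 2602526458) (nat_lit 152) (nat_lit 38459163137) (nat_lit 4) (nat_lit 5) (nat_lit 5) (nat_lit 5) (nat_lit 6) (nat_lit 4) (nat_lit 245) (nat_lit 214) (nat_lit 201)) (XT.lf (nat_lit 0) (nat_lit 10163860645) (nat_lit 152) (nat_lit 32219526004) (nat_lit 0) (nat_lit 4643480987) (nat_lit 4) (nat_lit 5) (nat_lit 6) (nat_lit 4) (nat_lit 4) (nat_lit 4) (nat_lit 246) (nat_lit 214) (nat_lit 200)))))) (XT.nd (nat_lit 468) (nat_lit 0) (nat_lit 0) (XT.nd (nat_lit 234) (nat_lit 0) (nat_lit 0) (XT.nd (nat_lit 78) (nat_lit 76) (nat_lit 0) (XT.lf (nat_lit 0) (nat_lit 18267305116) (nat_lit 152) (nat_lit 22576829060) (nat_lit 0) (nat_lit 12628412556) (nat_lit 4) (nat_lit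 5) (nat_lit 6) (nat_lit 4) (nat_lit 4) (nat_lit 4) (nat_lit 247) (nat_lit 214) (nat_lit 199)) (XT.nd (nat_lit 78) (nat_lit 76) (nat_lit 0) (XT.lf (nat_lit 0) (nat_lit 27380631341) (nat_lit 152) (nat_lit 11882346478) (nat_lit 0) (nat_lit 21638684084) (nat_lit 4) (nat_lit 5) (nat_lit 6) (nat_lit 4) (nat_lit 4) (nat_lit 4) (nat_lit 248) (nat_lit 214) (nat_lit 198)) (XT.lf (nat_lit 0) (nat_lit 77014177) (nat_lit 76) (nat_lit 37606981543) (nat_lit 76) (nat_lit 31775421506) (nat_lit 3) (nat_lit 4) (nat_lit 4) (nat_lit 5) (nat_lit 4) (nat_lit 4) (nat_lit 249) (nat_lit 214) (nat_lit 197)))) (XT.nd (nat_lit 78) (nat_lit 0) (nat_lit 0) (XT.lf (nat_lit 0) (nat_lit 14235736537) (nat_lit 76) (nat_lit 35480026272) (nat_lit 76) (nat_lit 29570542078) (nat_lit 3) (nat_lit 4) (nat_lit 4) (nat_lit 5) (nat_lit 4) (nat_lit 4) (nat_lit 250) (nat_lit 214) (nat_lit 196)) (XT.nd (nat_lit 78) (nat_lit 0) (nat_lit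 0) (XT.lf (nat_lit 0) (nat_lit 30245135773) (nat_lit 76) (nat_lit 33165382073) (nat_lit 76) (nat_lit 27188137743) (nat_lit 3) (nat_lit 4) (nat_lit 4) (nat_lit 5) (nat_lit 4) (nat_lit 4) (nat_lit 251) (nat_lit 214) (nat_lit 195)) (XT.lf (nat_lit 0) (nat_lit 48418439262) (nat_lit 76) (nat_lit 30617762430) (nat_lit 76) (nat_lit 24581596242) (nat_lit 3) (nat_lit 4) (nat_lit 4) (nat_lit 5) (nat_lit 4) (nat_lit 4) (nat_lit 252) (nat_lit 214) (nat_lit 194))))) (XT.nd (nat_lit 234) (nat_lit 0) (nat_lit 0) (XT.nd (nat_lit 78) (nat_lit 0) (nat_lit 0) (XT.lf (nat_lit 0) (nat_lit 69111211636) (nat_lit 76) (nat_lit 27787322611) (nat_lit 76) (nat_lit 21699920025) (nat_lit 3) (nat_lit 4) (nat_lit 4) (nat_lit 5) (nat_lit 4) (nat_lit 4) (nat_lit 253) (nat_lit 214) (nat_lit 193)) (XT.nd (nat_lit 78) (nat_lit 0) (nat_lit 0) (XT.lf (nat_lit 0) (nat_lit 92728311487) (nat_lit 76) (nat_lit 24618684445) (nat_lit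 76) (nat_lit 18486728469) (nat_lit 3) (nat_lit 4) (nat_lit 4) (nat_lit 5) (nat_lit 4) (nat_lit 4) (nat_lit 254) (nat_lit 214) (nat_lit 192)) (XT.lf (nat_lit 0) (nat_lit 119731812506) (nat_lit 76) (nat_lit 21049852837) (nat_lit 76) (nat_lit 14879154784) (nat_lit 3) (nat_lit 4) (nat_lit 4) (nat_lit 5) (nat_lit 4) (nat_lit 4) (nat_lit 255) (nat_lit 214) (nat_lit 191)))) (XT.nd (nat_lit 78) (nat_lit 0) (nat_lit 0) (XT.lf (nat_lit 0) (nat_lit 150650044062) (nat_lit 76) (nat_lit 17011002822) (nat_lit 76) (nat_lit 10806616006) (nat_lit 3) (nat_lit 4) (nat_lit 4) (nat_lit 5) (nat_lit 4) (nat_lit 4) (nat_lit 256) (nat_lit 214) (nat_lit 190)) (XT.nd (nat_lit 78) (nat_lit 0) (nat_lit 0) (XT.lf (nat_lit 0) (nat_lit 186087928076) (nat_lit 76) (nat_lit 12423113421) (nat_lit 76) (nat_lit 6189432028) (nat_lit 3) (nat_lit 4) (nat_lit 4) (nat_lit 5) (nat_lit 4) (nat_lit 4) (nat_lit 257) (nat_lit 214) (nat_lit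 189)) (XT.lf (nat_lit 0) (nat_lit 226738814452) (nat_lit 76) (nat_lit 7196421581) (nat_lit 76) (nat_lit 937266643) (nat_lit 3) (nat_lit 4) (nat_lit 4) (nat_lit 5) (nat_lit 4) (nat_lit 4) (nat_lit 258) (nat_lit 214) (nat_lit 188))))))) (XT.nd (nat_lit 936) (nat_lit 0) (nat_lit 0) (XT.nd (nat_lit 468) (nat_lit 0) (nat_lit 0) (XT.nd (nat_lit 234) (nat_lit 0) (nat_lit 0) (XT.nd (nat_lit 78) (nat_lit 0) (nat_lit 0) (XT.lf (nat_lit 0) (nat_lit 3897422726) (nat_lit 76) (nat_lit 996196779) (nat_lit 152) (nat_lit 264663233208) (nat_lit 1) (nat_lit 5) (nat_lit 2) (nat_lit 5) (nat_lit 3) (nat_lit 4) (nat_lit 259) (nat_lit 214) (nat_lit 187)) (XT.nd (nat_lit 78) (nat_lit 0) (nat_lit 0) (XT.lf (nat_lit 0) (nat_lit 11891327035) (nat_lit 152) (nat_lit 291465320703) (nat_lit 0) (nat_lit 6057468233) (nat_lit 1) (nat_lit 5) (nat_lit 3) (nat_lit 4) (nat_lit 1) (nat_lit 4) (nat_lit 260) (nat_lit 214) (nat_lit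 186)) (XT.lf (nat_lit 0) (nat_lit 19927659169) (nat_lit 152) (nat_lit 321244920364) (nat_lit 0) (nat_lit 14078291784) (nat_lit 1) (nat_lit 5) (nat_lit 3) (nat_lit 4) (nat_lit 1) (nat_lit 4) (nat_lit 261) (nat_lit 214) (nat_lit 185)))) (XT.nd (nat_lit 78) (nat_lit 0) (nat_lit 0) (XT.lf (nat_lit 0) (nat_lit 29135889937) (nat_lit 152) (nat_lit 355556914755) (nat_lit 0) (nat_lit 23273036827) (nat_lit 1) (nat_lit 5) (nat_lit 3) (nat_lit 4) (nat_lit 1) (nat_lit 4) (nat_lit 262) (nat_lit 214) (nat_lit 184)) (XT.nd (nat_lit 78) (nat_lit 0) (nat_lit 0) (XT.lf (nat_lit 0) (nat_lit 39696180374) (nat_lit 152) (nat_lit 395072625506) (nat_lit 0) (nat_lit 33821600548) (nat_lit 1) (nat_lit 5) (nat_lit 3) (nat_lit 4) (nat_lit 1) (nat_lit 4) (nat_lit 263) (nat_lit 214) (nat_lit 183)) (XT.lf (nat_lit 0) (nat_lit 51815144860) (nat_lit 152) (nat_lit 440565186089) (nat_lit 0) (nat_lit 45930367889) (nat_lit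 1) (nat_lit 5) (nat_lit 3) (nat_lit 4) (nat_lit 1) (nat_lit 4) (nat_lit 264) (nat_lit 214) (nat_lit 182))))) (XT.nd (nat_lit 234) (nat_lit 0) (nat_lit 0) (XT.nd (nat_lit 78) (nat_lit 0) (nat_lit 0) (XT.lf (nat_lit 0) (nat_lit 65729893569) (nat_lit 152) (nat_lit 492924668339) (nat_lit 0) (nat_lit 59836249515) (nat_lit 1) (nat_lit 5) (nat_lit 3) (nat_lit 4) (nat_lit 1) (nat_lit 4) (nat_lit 265) (nat_lit 214) (nat_lit 181)) (XT.nd (nat_lit 78) (nat_lit 0) (nat_lit 0) (XT.lf (nat_lit 0) (nat_lit 81712671584) (nat_lit 152) (nat_lit 553175496911) (nat_lit 0) (nat_lit 75811317024) (nat_lit 1) (nat_lit 5) (nat_lit 3) (nat_lit 4) (nat_lit 1) (nat_lit 4) (nat_lit 266) (nat_lit 214) (nat_lit 180)) (XT.lf (nat_lit 0) (nat_lit 100076185432) (nat_lit 152) (nat_lit 622496492363) (nat_lit 0) (nat_lit 94168126084) (nat_lit 1) (nat_lit 5) (nat_lit 3) (nat_lit 4) (nat_lit 1) (nat_lit 4) (nat_lit 267) (nat_lit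 214) (nat_lit 179)))) (XT.nd (nat_lit 78) (nat_lit 0) (nat_lit 0) (XT.lf (nat_lit 0) (nat_lit 121179721253) (nat_lit 152) (nat_lit 702243935042) (nat_lit 0) (nat_lit 115265831654) (nat_lit 1) (nat_lit 5) (nat_lit 3) (nat_lit 4) (nat_lit 1) (nat_lit 4) (nat_lit 268) (nat_lit 214) (nat_lit 178)) (XT.nd (nat_lit 78) (nat_lit 0) (nat_lit 0) (XT.lf (nat_lit 0) (nat_lit 145436174314) (nat_lit 152) (nat_lit 793978100998) (nat_lit 0) (nat_lit 139517214931) (nat_lit 1) (nat_lit 5) (nat_lit 3) (nat_lit 4) (nat_lit 1) (nat_lit 4) (nat_lit 269) (nat_lit 214) (nat_lit 177)) (XT.lf (nat_lit 0) (nat_lit 173320127391) (nat_lit 152) (nat_lit 899493789133) (nat_lit 0) (nat_lit 167396759501) (nat_lit 1) (nat_lit 5) (nat_lit 3) (nat_lit 4) (nat_lit 1) (nat_lit 4) (nat_lit 270) (nat_lit 214) (nat_lit 176)))))) (XT.nd (nat_lit 468) (nat_lit 0) (nat_lit 0) (XT.nd (nat_lit 234) (nat_lit 0) (nat_lit 0) (XT.nd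 (nat_lit 78) (nat_lit 0) (nat_lit 0) (XT.lf (nat_lit 0) (nat_lit 205377136088) (nat_lit 152) (nat_lit 1020855436821) (nat_lit 0) (nat_lit 199449934715) (nat_lit 1) (nat_lit 5) (nat_lit 3) (nat_lit 4) (nat_lit 1) (nat_lit 4) (nat_lit 271) (nat_lit 214) (nat_lit 175)) (XT.nd (nat_lit 78) (nat_lit 0) (nat_lit 0) (XT.lf (nat_lit 0) (nat_lit 242234402750) (nat_lit 152) (nat_lit 1160437511084) (nat_lit 0) (nat_lit 236303867912) (nat_lit 1) (nat_lit 5) (nat_lit 3) (nat_lit 4) (nat_lit 1) (nat_lit 4) (nat_lit 272) (nat_lit 214) (nat_lit 174)) (XT.lf (nat_lit 0) (nat_lit 284613047811) (nat_lit 152) (nat_lit 1320970965548) (nat_lit 0) (nat_lit 278679614308) (nat_lit 1) (nat_lit 5) (nat_lit 3) (nat_lit 4) (nat_lit 1) (nat_lit 4) (nat_lit 273) (nat_lit 214) (nat_lit 173)))) (XT.nd (nat_lit 78) (nat_lit 0) (nat_lit 0) (XT.lf (nat_lit 0) (nat_lit 333342218675) (nat_lit 152) (nat_lit 1505596672148)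 (nat_lit 0) (nat_lit 327406264593) (nat_lit 1) (nat_lit 5) (nat_lit 3) (nat_lit 4) (nat_lit 1) (nat_lit 4) (nat_lit 274) (nat_lit 214) (nat_lit 172)) (XT.nd (nat_lit 78) (nat_lit 0) (nat_lit 0) (XT.lf (nat_lit 0) (nat_lit 389375312162) (nat_lit 152) (nat_lit 1717926872970) (nat_lit 0) (nat_lit 383437166273) (nat_lit 1) (nat_lit 5) (nat_lit 3) (nat_lit 4) (nat_lit 1) (nat_lit 4) (nat_lit 275) (nat_lit 214) (nat_lit 171)) (XT.lf (nat_lit 0) (nat_lit 453808627928) (nat_lit 152) (nat_lit 1962115854551) (nat_lit 0) (nat_lit 447868576120) (nat_lit 1) (nat_lit 5) (nat_lit 3) (nat_lit 4) (nat_lit 1) (nat_lit 4) (nat_lit 276) (nat_lit 214) (nat_lit 170))))) (XT.nd (nat_lit 234) (nat_lit 0) (nat_lit 0) (XT.nd (nat_lit 78) (nat_lit 0) (nat_lit 0) (XT.lf (nat_lit 0) (nat_lit 527902817803) (nat_lit 152) (nat_lit 2242941227401) (nat_lit 0) (nat_lit 521961108674) (nat_lit 1) (nat_lit 5) (nat_lit 3)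 (nat_lit 4) (nat_lit 1) (nat_lit 4) (nat_lit 277) (nat_lit 214) (nat_lit 169)) (XT.nd (nat_lit 78) (nat_lit 0) (nat_lit 0) (XT.lf (nat_lit 0) (nat_lit 613107550720) (nat_lit 152) (nat_lit 2565897400989) (nat_lit 0) (nat_lit 607164400441) (nat_lit 1) (nat_lit 5) (nat_lit 3) (nat_lit 4) (nat_lit 1) (nat_lit 4) (nat_lit 278) (nat_lit 214) (nat_lit 168)) (XT.lf (nat_lit 0) (nat_lit 711089875800) (nat_lit 152) (nat_lit 2937303083059) (nat_lit 0) (nat_lit 705145472349) (nat_lit 1) (nat_lit 5) (nat_lit 3) (nat_lit 4) (nat_lit 1) (nat_lit 4) (nat_lit 279) (nat_lit 214) (nat_lit 167)))) (XT.nd (nat_lit 78) (nat_lit 0) (nat_lit 0) (XT.lf (nat_lit 0) (nat_lit 823766838535) (nat_lit 152) (nat_lit 3364424906521) (nat_lit 0) (nat_lit 817821345368) (nat_lit 1) (nat_lit 5) (nat_lit 3) (nat_lit 4) (nat_lit 1) (nat_lit 4) (nat_lit 280) (nat_lit 214) (nat_lit 166)) (XT.nd (nat_lit 78) (nat_lit 0) (nat_lit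 0) (XT.lf (nat_lit 0) (nat_lit 953342988194) (nat_lit 152) (nat_lit 3855619602703) (nat_lit 0) (nat_lit 947396547449) (nat_lit 1) (nat_lit 5) (nat_lit 3) (nat_lit 4) (nat_lit 1) (nat_lit 4) (nat_lit 281) (nat_lit 214) (nat_lit 165)) (XT.lf (nat_lit 0) (nat_lit 1102353510317) (nat_lit 152) (nat_lit 4420497502617) (nat_lit 0) (nat_lit 1096406245590) (nat_lit 1) (nat_lit 5) (nat_lit 3) (nat_lit 4) (nat_lit 1) (nat_lit 4) (nat_lit 282) (nat_lit 214) (nat_lit 164))))))))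
noncomputable def xc17 : XT := (XT.nd (nat_lit 31746) (nat_lit 0) (nat_lit 0) (XT.nd (nat_lit 30810) (nat_lit 0) (nat_lit 228) (XT.nd (nat_lit 30342) (nat_lit 0) (nat_lit 912) (XT.nd (nat_lit 234) (nat_lit 0) (nat_lit 0) (XT.nd (nat_lit 78) (nat_lit 0) (nat_lit 0) (XT.lf (nat_lit 0) (nat_lit 1273713828160) (nat_lit 152) (nat_lit 5070110565176) (nat_lit 0) (nat_lit 1267765846927) (nat_lit 1) (nat_lit 5) (nat_lit 3) (nat_lit 4) (nat_lit 1) (nat_lit 4) (nat_lit 283) (nat_lit 214) (nat_lit 163)) (XT.nd (nat_lit 78) (nat_lit 0) (nat_lit 0) (XT.lf (nat_lit 0) (nat_lit 1470776643595) (nat_lit 152) (nat_lit 5817168611168) (nat_lit 0) (nat_lit 1464828039314) (nat_lit 1) (nat_lit 5) (nat_lit 3) (nat_lit 4) (nat_lit 1) (nat_lit 4) (nat_lit 284) (nat_lit 214) (nat_lit 162)) (XT.lf (nat_lit 0) (nat_lit 1697397533445) (nat_lit 152) (nat_lit 6676287993667) (nat_lit 0) (nat_lit 1691448387383) (nat_lit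 1) (nat_lit 5) (nat_lit 3) (nat_lit 4) (nat_lit 1) (nat_lit 4) (nat_lit 285) (nat_lit 214) (nat_lit 161)))) (XT.nd (nat_lit 78) (nat_lit 0) (nat_lit 0) (XT.lf (nat_lit 0) (nat_lit 1958010384687) (nat_lit 152) (nat_lit 7664277570157) (nat_lit 0) (nat_lit 1952060767511) (nat_lit 1) (nat_lit 5) (nat_lit 3) (nat_lit 4) (nat_lit 1) (nat_lit 4) (nat_lit 286) (nat_lit 214) (nat_lit 160)) (XT.nd (nat_lit 29952) (nat_lit 0) (nat_lit 2052) (XT.lf (nat_lit 0) (nat_lit 2257714144409) (nat_lit 152) (nat_lit 8800467571482) (nat_lit 0) (nat_lit 2251764117568) (nat_lit 1) (nat_lit 5) (nat_lit 3) (nat_lit 4) (nat_lit 1) (nat_lit 4) (nat_lit 287) (nat_lit 214) (nat_lit 159)) (XT.lf (nat_lit 0) (nat_lit 3063387254) (nat_lit 152) (nat_lit 759774235) (nat_lit 152) (nat_lit 759774235) (nat_lit 28) (nat_lit 4) (nat_lit 30) (nat_lit 5) (nat_lit 30) (nat_lit 4) (nat_lit 230) (nat_lit 215) (nat_lit 215))))) (XT.nd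 (nat_lit 234) (nat_lit 456) (nat_lit 0) (XT.nd (nat_lit 78) (nat_lit 456) (nat_lit 0) (XT.lf (nat_lit 0) (nat_lit 5429147832) (nat_lit 228) (nat_lit 487919150) (nat_lit 0) (nat_lit 3898850679) (nat_lit 25) (nat_lit 5) (nat_lit 28) (nat_lit 4) (nat_lit 25) (nat_lit 4) (nat_lit 231) (nat_lit 215) (nat_lit 214)) (XT.nd (nat_lit 78) (nat_lit 152) (nat_lit 0) (XT.lf (nat_lit 0) (nat_lit 2014070470) (nat_lit 76) (nat_lit 329708759) (nat_lit 152) (nat_lit 8235801762) (nat_lit 21) (nat_lit 5) (nat_lit 22) (nat_lit 5) (nat_lit 23) (nat_lit 4) (nat_lit 232) (nat_lit 215) (nat_lit 213)) (XT.lf (nat_lit 0) (nat_lit 4124370035) (nat_lit 152) (nat_lit 5529882587) (nat_lit 152) (nat_lit 1809405892) (nat_lit 19) (nat_lit 4) (nat_lit 21) (nat_lit 5) (nat_lit 21) (nat_lit 4) (nat_lit 233) (nat_lit 215) (nat_lit 212)))) (XT.nd (nat_lit 78) (nat_lit 304) (nat_lit 0) (XT.lf (nat_lit 0) (nat_lit 5029261018)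 (nat_lit 152) (nat_lit 6741541262) (nat_lit 0) (nat_lit 721724968) (nat_lit 17) (nat_lit 5) (nat_lit 19) (nat_lit 4) (nat_lit 17) (nat_lit 4) (nat_lit 234) (nat_lit 215) (nat_lit 211)) (XT.nd (nat_lit 78) (nat_lit 152) (nat_lit 0) (XT.lf (nat_lit 0) (nat_lit 6624913518) (nat_lit 152) (nat_lit 6057031239) (nat_lit 152) (nat_lit 999364561) (nat_lit 15) (nat_lit 4) (nat_lit 17) (nat_lit 5) (nat_lit 17) (nat_lit 4) (nat_lit 235) (nat_lit 215) (nat_lit 210)) (XT.lf (nat_lit 0) (nat_lit 5889793307) (nat_lit 152) (nat_lit 8562016800) (nat_lit 0) (nat_lit 602798697) (nat_lit 13) (nat_lit 5) (nat_lit 15) (nat_lit 4) (nat_lit 13) (nat_lit 4) (nat_lit 236) (nat_lit 215) (nat_lit 209)))))) (XT.nd (nat_lit 468) (nat_lit 228) (nat_lit 0) (XT.nd (nat_lit 234) (nat_lit 228) (nat_lit 0) (XT.nd (nat_lit 78) (nat_lit 152) (nat_lit 0) (XT.lf (nat_lit 0) (nat_lit 4955366389) (nat_lit 76) (nat_lit 8746706143)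 (nat_lit 76) (nat_lit 2934520307) (nat_lit 12) (nat_lit 4) (nat_lit 13) (nat_lit 5) (nat_lit 13) (nat_lit 4) (nat_lit 237) (nat_lit 215) (nat_lit 208)) (XT.nd (nat_lit 78) (nat_lit 0) (nat_lit 0) (XT.lf (nat_lit 0) (nat_lit 1635739364) (nat_lit 76) (nat_lit 2164555454) (nat_lit 152) (nat_lit 14665460496) (nat_lit 10) (nat_lit 5) (nat_lit 11) (nat_lit 5) (nat_lit 12) (nat_lit 4) (nat_lit 238) (nat_lit 215) (nat_lit 207)) (XT.lf (nat_lit 0) (nat_lit 11379592364) (nat_lit 152) (nat_lit 3976060998) (nat_lit 0) (nat_lit 5207375811) (nat_lit 10) (nat_lit 5) (nat_lit 12) (nat_lit 4) (nat_lit 10) (nat_lit 4) (nat_lit 239) (nat_lit 215) (nat_lit 206)))) (XT.nd (nat_lit 78) (nat_lit 152) (nat_lit 0) (XT.lf (nat_lit 0) (nat_lit 10514149097) (nat_lit 76) (nat_lit 9480600344) (nat_lit 76) (nat_lit 2988641424) (nat_lit 9) (nat_lit 4) (nat_lit 10) (nat_lit 5) (nat_lit 10) (nat_lit 4) (nat_lit 240) (nat_lit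 215) (nat_lit 205)) (XT.nd (nat_lit 78) (nat_lit 0) (nat_lit 0) (XT.lf (nat_lit 0) (nat_lit 888645761) (nat_lit 76) (nat_lit 2793393431) (nat_lit 152) (nat_lit 22096861718) (nat_lit 7) (nat_lit 5) (nat_lit 8) (nat_lit 5) (nat_lit 9) (nat_lit 4) (nat_lit 241) (nat_lit 215) (nat_lit 204)) (XT.lf (nat_lit 0) (nat_lit 11312450111) (nat_lit 152) (nat_lit 12844406547) (nat_lit 0) (nat_lit 4820073327) (nat_lit 7) (nat_lit 5) (nat_lit 9) (nat_lit 4) (nat_lit 7) (nat_lit 4) (nat_lit 242) (nat_lit 215) (nat_lit 203))))) (XT.nd (nat_lit 234) (nat_lit 152) (nat_lit 0) (XT.nd (nat_lit 78) (nat_lit 0) (nat_lit 0) (XT.lf (nat_lit 0) (nat_lit 362069694) (nat_lit 76) (nat_lit 19498996893) (nat_lit 76) (nat_lit 12811957336) (nat_lit 6) (nat_lit 4) (nat_lit 7) (nat_lit 5) (nat_lit 7) (nat_lit 4) (nat_lit 243) (nat_lit 215) (nat_lit 202)) (XT.nd (nat_lit 78) (nat_lit 0) (nat_lit 0) (XT.lf (nat_lit 0) (nat_lit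 15789927510) (nat_lit 76) (nat_lit 13991489886) (nat_lit 76) (nat_lit 7135178351) (nat_lit 6) (nat_lit 4) (nat_lit 7) (nat_lit 5) (nat_lit 7) (nat_lit 4) (nat_lit 244) (nat_lit 215) (nat_lit 201)) (XT.lf (nat_lit 0) (nat_lit 33064652605) (nat_lit 76) (nat_lit 7877768902) (nat_lit 76) (nat_lit 874264342) (nat_lit 6) (nat_lit 4) (nat_lit 7) (nat_lit 5) (nat_lit 7) (nat_lit 4) (nat_lit 245) (nat_lit 215) (nat_lit 200)))) (XT.nd (nat_lit 78) (nat_lit 0) (nat_lit 0) (XT.lf (nat_lit 0) (nat_lit 5166993566) (nat_lit 76) (nat_lit 745743000) (nat_lit 152) (nat_lit 41534764201) (nat_lit 4) (nat_lit 5) (nat_lit 5) (nat_lit 5) (nat_lit 6) (nat_lit 4) (nat_lit 246) (nat_lit 215) (nat_lit 199)) (XT.nd (nat_lit 78) (nat_lit 0) (nat_lit 0) (XT.lf (nat_lit 0) (nat_lit 13902601753) (nat_lit 152) (nat_lit 32803418797) (nat_lit 0) (nat_lit 7196307710) (nat_lit 4) (nat_lit 5) (nat_lit 6) (nat_lit 4) (nat_lit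 4) (nat_lit 4) (nat_lit 247) (nat_lit 215) (nat_lit 198)) (XT.lf (nat_lit 0) (nat_lit 22932759154) (nat_lit 152) (nat_lit 22268539412) (nat_lit 0) (nat_lit 16136852331) (nat_lit 4) (nat_lit 5) (nat_lit 6) (nat_lit 4) (nat_lit 4) (nat_lit 4) (nat_lit 248) (nat_lit 215) (nat_lit 197))))))) (XT.nd (nat_lit 936) (nat_lit 0) (nat_lit 0) (XT.nd (nat_lit 468) (nat_lit 152) (nat_lit 0) (XT.nd (nat_lit 234) (nat_lit 0) (nat_lit 0) (XT.nd (nat_lit 78) (nat_lit 76) (nat_lit 0) (XT.lf (nat_lit 0) (nat_lit 33161950625) (nat_lit 152) (nat_lit 10451816706) (nat_lit 0) (nat_lit 26288119645) (nat_lit 4) (nat_lit 5) (nat_lit 6) (nat_lit 4) (nat_lit 4) (nat_lit 4) (nat_lit 249) (nat_lit 215) (nat_lit 196)) (XT.nd (nat_lit 78) (nat_lit 0) (nat_lit 0) (XT.lf (nat_lit 0) (nat_lit 3029493611) (nat_lit 76) (nat_lit 41833678303) (nat_lit 76) (nat_lit 34892087187) (nat_lit 3) (nat_lit 4) (nat_lit 4) (nat_lit 5)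 (nat_lit 4) (nat_lit 4) (nat_lit 250) (nat_lit 215) (nat_lit 195)) (XT.lf (nat_lit 0) (nat_lit 18928425111) (nat_lit 76) (nat_lit 39572160237) (nat_lit 76) (nat_lit 32571647264) (nat_lit 3) (nat_lit 4) (nat_lit 4) (nat_lit 5) (nat_lit 4) (nat_lit 4) (nat_lit 251) (nat_lit 215) (nat_lit 194)))) (XT.nd (nat_lit 78) (nat_lit 0) (nat_lit 0) (XT.lf (nat_lit 0) (nat_lit 37005669698) (nat_lit 76) (nat_lit 37070737232) (nat_lit 76) (nat_lit 30018987860) (nat_lit 3) (nat_lit 4) (nat_lit 4) (nat_lit 5) (nat_lit 4) (nat_lit 4) (nat_lit 252) (nat_lit 215) (nat_lit 193)) (XT.nd (nat_lit 78) (nat_lit 0) (nat_lit 0) (XT.lf (nat_lit 0) (nat_lit 57614912594) (nat_lit 76) (nat_lit 34280468401) (nat_lit 76) (nat_lit 27184165640) (nat_lit 3) (nat_lit 4) (nat_lit 4) (nat_lit 5) (nat_lit 4) (nat_lit 4) (nat_lit 253) (nat_lit 215) (nat_lit 192)) (XT.lf (nat_lit 0) (nat_lit 81159378115) (nat_lit 76) (nat_lit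 31146761530) (nat_lit 76) (nat_lit 24011716691) (nat_lit 3) (nat_lit 4) (nat_lit 4) (nat_lit 5) (nat_lit 4) (nat_lit 4) (nat_lit 254) (nat_lit 215) (nat_lit 191))))) (XT.nd (nat_lit 234) (nat_lit 152) (nat_lit 0) (XT.nd (nat_lit 78) (nat_lit 0) (nat_lit 0) (XT.lf (nat_lit 0) (nat_lit 108099718847) (nat_lit 76) (nat_lit 27608304961) (nat_lit 76) (nat_lit 20439571359) (nat_lit 3) (nat_lit 4) (nat_lit 4) (nat_lit 5) (nat_lit 4) (nat_lit 4) (nat_lit 255) (nat_lit 215) (nat_lit 190)) (XT.nd (nat_lit 78) (nat_lit 0) (nat_lit 0) (XT.lf (nat_lit 0) (nat_lit 138963028415) (nat_lit 76) (nat_lit 23595868024) (nat_lit 76) (nat_lit 16397839845) (nat_lit 3) (nat_lit 4) (nat_lit 4) (nat_lit 5) (nat_lit 4) (nat_lit 4) (nat_lit 256) (nat_lit 215) (nat_lit 189)) (XT.lf (nat_lit 0) (nat_lit 174353154178) (nat_lit 76) (nat_lit 19030946516) (nat_lit 76) (nat_lit 11807444792) (nat_lit 3) (nat_lit 4) (nat_lit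 4) (nat_lit 5) (nat_lit 4) (nat_lit 4) (nat_lit 257) (nat_lit 215) (nat_lit 188)))) (XT.nd (nat_lit 78) (nat_lit 152) (nat_lit 0) (XT.lf (nat_lit 0) (nat_lit 214962511641) (nat_lit 76) (nat_lit 13824226757) (nat_lit 76) (nat_lit 6578574124) (nat_lit 3) (nat_lit 4) (nat_lit 4) (nat_lit 5) (nat_lit 4) (nat_lit 4) (nat_lit 258) (nat_lit 215) (nat_lit 187)) (XT.nd (nat_lit 78) (nat_lit 152) (nat_lit 0) (XT.lf (nat_lit 0) (nat_lit 261585631710) (nat_lit 76) (nat_lit 7873838141) (nat_lit 76) (nat_lit 608923849) (nat_lit 3) (nat_lit 4) (nat_lit 4) (nat_lit 5) (nat_lit 4) (nat_lit 4) (nat_lit 259) (nat_lit 215) (nat_lit 186)) (XT.lf (nat_lit 0) (nat_lit 5268968297) (nat_lit 76) (nat_lit 764989327) (nat_lit 152) (nat_lit 303923703196) (nat_lit 1) (nat_lit 5) (nat_lit 2) (nat_lit 5) (nat_lit 3) (nat_lit 4) (nat_lit 260) (nat_lit 215) (nat_lit 185)))))) (XT.nd (nat_lit 468) (nat_lit 0) (nat_lit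 0) (XT.nd (nat_lit 234) (nat_lit 0) (nat_lit 0) (XT.nd (nat_lit 78) (nat_lit 0) (nat_lit 0) (XT.lf (nat_lit 0) (nat_lit 14036286543) (nat_lit 152) (nat_lit 334480338256) (nat_lit 0) (nat_lit 7280519743) (nat_lit 1) (nat_lit 5) (nat_lit 3) (nat_lit 4) (nat_lit 1) (nat_lit 4) (nat_lit 261) (nat_lit 215) (nat_lit 184)) (XT.nd (nat_lit 78) (nat_lit 0) (nat_lit 0) (XT.lf (nat_lit 0) (nat_lit 23230947569) (nat_lit 152) (nat_lit 368818805765) (nat_lit 0) (nat_lit 16463454052) (nat_lit 1) (nat_lit 5) (nat_lit 3) (nat_lit 4) (nat_lit 1) (nat_lit 4) (nat_lit 262) (nat_lit 215) (nat_lit 183)) (XT.lf (nat_lit 0) (nat_lit 33779438231) (nat_lit 152) (nat_lit 408357536617) (nat_lit 0) (nat_lit 27001747569) (nat_lit 1) (nat_lit 5) (nat_lit 3) (nat_lit 4) (nat_lit 1) (nat_lit 4) (nat_lit 263) (nat_lit 215) (nat_lit 182)))) (XT.nd (nat_lit 78) (nat_lit 0) (nat_lit 0) (XT.lf (nat_lit 0) (nat_lit 45888142042)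 (nat_lit 152) (nat_lit 453870114679) (nat_lit 0) (nat_lit 39101584298) (nat_lit 1) (nat_lit 5) (nat_lit 3) (nat_lit 4) (nat_lit 1) (nat_lit 4) (nat_lit 264) (nat_lit 215) (nat_lit 181)) (XT.nd (nat_lit 78) (nat_lit 0) (nat_lit 0) (XT.lf (nat_lit 0) (nat_lit 59793968425) (nat_lit 152) (nat_lit 506247003434) (nat_lit 0) (nat_lit 52999700175) (nat_lit 1) (nat_lit 5) (nat_lit 3) (nat_lit 4) (nat_lit 1) (nat_lit 4) (nat_lit 265) (nat_lit 215) (nat_lit 180)) (XT.lf (nat_lit 0) (nat_lit 75768987896) (nat_lit 152) (nat_lit 566512968096) (nat_lit 0) (nat_lit 68968014858) (nat_lit 1) (nat_lit 5) (nat_lit 3) (nat_lit 4) (nat_lit 1) (nat_lit 4) (nat_lit 266) (nat_lit 215) (nat_lit 179))))) (XT.nd (nat_lit 234) (nat_lit 0) (nat_lit 0) (XT.nd (nat_lit 78) (nat_lit 0) (nat_lit 0) (XT.lf (nat_lit 0) (nat_lit 94125755184) (nat_lit 152) (nat_lit 635847125366) (nat_lit 0) (nat_lit 87318951895) (nat_lit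 1) (nat_lit 5) (nat_lit 3) (nat_lit 4) (nat_lit 1) (nat_lit 4) (nat_lit 267) (nat_lit 215) (nat_lit 178)) (XT.nd (nat_lit 78) (nat_lit 0) (nat_lit 0) (XT.lf (nat_lit 0) (nat_lit 115223424432) (nat_lit 152) (nat_lit 715606013104) (nat_lit 0) (nat_lit 108411551359) (nat_lit 1) (nat_lit 5) (nat_lit 3) (nat_lit 4) (nat_lit 1) (nat_lit 4) (nat_lit 268) (nat_lit 215) (nat_lit 177)) (XT.lf (nat_lit 0) (nat_lit 139474776124) (nat_lit 152) (nat_lit 807350131285) (nat_lit 0) (nat_lit 132658494544) (nat_lit 1) (nat_lit 5) (nat_lit 3) (nat_lit 4) (nat_lit 1) (nat_lit 4) (nat_lit 269) (nat_lit 215) (nat_lit 176)))) (XT.nd (nat_lit 78) (nat_lit 0) (nat_lit 0) (XT.lf (nat_lit 0) (nat_lit 167354293228) (nat_lit 152) (nat_lit 912874473529) (nat_lit 0) (nat_lit 160534178164) (nat_lit 1) (nat_lit 5) (nat_lit 3) (nat_lit 4) (nat_lit 1) (nat_lit 4) (nat_lit 270) (nat_lit 215) (nat_lit 175)) (XT.nd (nat_lit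 78) (nat_lit 0) (nat_lit 0) (XT.lf (nat_lit 0) (nat_lit 199407444558) (nat_lit 152) (nat_lit 1034243646529) (nat_lit 0) (nat_lit 192583996029) (nat_lit 1) (nat_lit 5) (nat_lit 3) (nat_lit 4) (nat_lit 1) (nat_lit 4) (nat_lit 271) (nat_lit 215) (nat_lit 174)) (XT.lf (nat_lit 0) (nat_lit 236261356987) (nat_lit 152) (nat_lit 1173832264542) (nat_lit 0) (nat_lit 229435009793) (nat_lit 1) (nat_lit 5) (nat_lit 3) (nat_lit 4) (nat_lit 1) (nat_lit 4) (nat_lit 272) (nat_lit 215) (nat_lit 173))))))))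
noncomputable def xc18 : XT := (XT.nd (nat_lit 31590) (nat_lit 0) (nat_lit 152) (XT.nd (nat_lit 936) (nat_lit 0) (nat_lit 0) (XT.nd (nat_lit 468) (nat_lit 0) (nat_lit 0) (XT.nd (nat_lit 234) (nat_lit 0) (nat_lit 0) (XT.nd (nat_lit 78) (nat_lit 0) (nat_lit 0) (XT.lf (nat_lit 0) (nat_lit 278637085324) (nat_lit 152) (nat_lit 1334371409222) (nat_lit 0) (nat_lit 271808217552) (nat_lit 1) (nat_lit 5) (nat_lit 3) (nat_lit 4) (nat_lit 1) (nat_lit 4) (nat_lit 273) (nat_lit 215) (nat_lit 172)) (XT.nd (nat_lit 78) (nat_lit 0) (nat_lit 0) (XT.lf (nat_lit 0) (nat_lit 327363719906) (nat_lit 152) (nat_lit 1519002063837) (nat_lit 0) (nat_lit 320532660327) (nat_lit 1) (nat_lit 5) (nat_lit 3) (nat_lit 4) (nat_lit 1) (nat_lit 4) (nat_lit 274) (nat_lit 215) (nat_lit 171)) (XT.lf (nat_lit 0) (nat_lit 383394607931) (nat_lit 152) (nat_lit 1731336567280) (nat_lit 0) (nat_lit 376561642432) (nat_lit 1) (nat_lit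 5) (nat_lit 3) (nat_lit 4) (nat_lit 1) (nat_lit 4) (nat_lit 275) (nat_lit 215) (nat_lit 170)))) (XT.nd (nat_lit 78) (nat_lit 0) (nat_lit 0) (XT.lf (nat_lit 0) (nat_lit 447826005903) (nat_lit 152) (nat_lit 1975529290272) (nat_lit 0) (nat_lit 440991383084) (nat_lit 1) (nat_lit 5) (nat_lit 3) (nat_lit 4) (nat_lit 1) (nat_lit 4) (nat_lit 276) (nat_lit 215) (nat_lit 169)) (XT.nd (nat_lit 78) (nat_lit 0) (nat_lit 0) (XT.lf (nat_lit 0) (nat_lit 521918528132) (nat_lit 152) (nat_lit 2256357916522) (nat_lit 0) (nat_lit 515082464164) (nat_lit 1) (nat_lit 5) (nat_lit 3) (nat_lit 4) (nat_lit 1) (nat_lit 4) (nat_lit 277) (nat_lit 215) (nat_lit 168)) (XT.lf (nat_lit 0) (nat_lit 607121810921) (nat_lit 152) (nat_lit 2579316919154) (nat_lit 0) (nat_lit 600284493780) (nat_lit 1) (nat_lit 5) (nat_lit 3) (nat_lit 4) (nat_lit 1) (nat_lit 4) (nat_lit 278) (nat_lit 215) (nat_lit 167))))) (XT.nd (nat_lit 234)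 (nat_lit 0) (nat_lit 0) (XT.nd (nat_lit 78) (nat_lit 0) (nat_lit 0) (XT.lf (nat_lit 0) (nat_lit 705102875021) (nat_lit 152) (nat_lit 2950725061261) (nat_lit 0) (nat_lit 698264468164) (nat_lit 1) (nat_lit 5) (nat_lit 3) (nat_lit 4) (nat_lit 1) (nat_lit 4) (nat_lit 279) (nat_lit 215) (nat_lit 166)) (XT.nd (nat_lit 78) (nat_lit 0) (nat_lit 0) (XT.lf (nat_lit 0) (nat_lit 817778741251) (nat_lit 152) (nat_lit 3377849023886) (nat_lit 0) (nat_lit 810939386816) (nat_lit 1) (nat_lit 5) (nat_lit 3) (nat_lit 4) (nat_lit 1) (nat_lit 4) (nat_lit 280) (nat_lit 215) (nat_lit 165)) (XT.lf (nat_lit 0) (nat_lit 947353937429) (nat_lit 152) (nat_lit 3869045580210) (nat_lit 0) (nat_lit 940513759012) (nat_lit 1) (nat_lit 5) (nat_lit 3) (nat_lit 4) (nat_lit 1) (nat_lit 4) (nat_lit 281) (nat_lit 215) (nat_lit 164)))) (XT.nd (nat_lit 78) (nat_lit 0) (nat_lit 0) (XT.lf (nat_lit 0) (nat_lit 1096363630436) (nat_lit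 152) (nat_lit 4433925097640) (nat_lit 0) (nat_lit 1089522735513) (nat_lit 1) (nat_lit 5) (nat_lit 3) (nat_lit 4) (nat_lit 1) (nat_lit 4) (nat_lit 282) (nat_lit 215) (nat_lit 163)) (XT.nd (nat_lit 78) (nat_lit 0) (nat_lit 0) (XT.lf (nat_lit 0) (nat_lit 1267723227310) (nat_lit 152) (nat_lit 5083539566733) (nat_lit 0) (nat_lit 1260881709338) (nat_lit 1) (nat_lit 5) (nat_lit 3) (nat_lit 4) (nat_lit 1) (nat_lit 4) (nat_lit 283) (nat_lit 215) (nat_lit 162)) (XT.lf (nat_lit 0) (nat_lit 1464785415815) (nat_lit 152) (nat_lit 5830598835799) (nat_lit 0) (nat_lit 1457943356062) (nat_lit 1) (nat_lit 5) (nat_lit 3) (nat_lit 4) (nat_lit 1) (nat_lit 4) (nat_lit 284) (nat_lit 215) (nat_lit 161)))))) (XT.nd (nat_lit 30186) (nat_lit 0) (nat_lit 912) (XT.nd (nat_lit 29952) (nat_lit 0) (nat_lit 2052) (XT.nd (nat_lit 78) (nat_lit 0) (nat_lit 0) (XT.lf (nat_lit 0) (nat_lit 1691405760509) (nat_lit 152) (nat_lit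 6689719281841) (nat_lit 0) (nat_lit 1684563229642) (nat_lit 1) (nat_lit 5) (nat_lit 3) (nat_lit 4) (nat_lit 1) (nat_lit 4) (nat_lit 285) (nat_lit 215) (nat_lit 160)) (XT.nd (nat_lit 78) (nat_lit 0) (nat_lit 0) (XT.lf (nat_lit 0) (nat_lit 1952018137701) (nat_lit 152) (nat_lit 7677709783150) (nat_lit 0) (nat_lit 1945175197170) (nat_lit 1) (nat_lit 5) (nat_lit 3) (nat_lit 4) (nat_lit 1) (nat_lit 4) (nat_lit 286) (nat_lit 215) (nat_lit 159)) (XT.lf (nat_lit 0) (nat_lit 2251721485207) (nat_lit 152) (nat_lit 8813900588665) (nat_lit 0) (nat_lit 2244878188446) (nat_lit 1) (nat_lit 5) (nat_lit 3) (nat_lit 4) (nat_lit 1) (nat_lit 4) (nat_lit 287) (nat_lit 215) (nat_lit 158)))) (XT.nd (nat_lit 78) (nat_lit 380) (nat_lit 0) (XT.lf (nat_lit 0) (nat_lit 102521594) (nat_lit 228) (nat_lit 1980220742) (nat_lit 228) (nat_lit 1980220742) (nat_lit 33) (nat_lit 4) (nat_lit 36) (nat_lit 5) (nat_lit 36) (nat_lit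 4) (nat_lit 228) (nat_lit 216) (nat_lit 216)) (XT.nd (nat_lit 78) (nat_lit 152) (nat_lit 0) (XT.lf (nat_lit 0) (nat_lit 2394126348) (nat_lit 228) (nat_lit 5728254301) (nat_lit 0) (nat_lit 493497285) (nat_lit 30) (nat_lit 5) (nat_lit 33) (nat_lit 4) (nat_lit 30) (nat_lit 4) (nat_lit 229) (nat_lit 216) (nat_lit 215)) (XT.lf (nat_lit 0) (nat_lit 5585940031) (nat_lit 152) (nat_lit 3582287286) (nat_lit 152) (nat_lit 28937297) (nat_lit 28) (nat_lit 4) (nat_lit 30) (nat_lit 5) (nat_lit 30) (nat_lit 4) (nat_lit 230) (nat_lit 216) (nat_lit 214))))) (XT.nd (nat_lit 234) (nat_lit 456) (nat_lit 0) (XT.nd (nat_lit 78) (nat_lit 456) (nat_lit 0) (XT.lf (nat_lit 0) (nat_lit 6425709015) (nat_lit 228) (nat_lit 1648116877) (nat_lit 0) (nat_lit 1804876960) (nat_lit 25) (nat_lit 5) (nat_lit 28) (nat_lit 4) (nat_lit 25) (nat_lit 4) (nat_lit 231) (nat_lit 216) (nat_lit 213)) (XT.nd (nat_lit 78) (nat_lit 152)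 (nat_lit 0) (XT.lf (nat_lit 0) (nat_lit 98157497) (nat_lit 76) (nat_lit 2726897336) (nat_lit 152) (nat_lit 7848623044) (nat_lit 21) (nat_lit 5) (nat_lit 22) (nat_lit 5) (nat_lit 23) (nat_lit 4) (nat_lit 232) (nat_lit 216) (nat_lit 212)) (XT.lf (nat_lit 0) (nat_lit 1554561285) (nat_lit 152) (nat_lit 8159545425) (nat_lit 152) (nat_lit 1877923412) (nat_lit 19) (nat_lit 4) (nat_lit 21) (nat_lit 5) (nat_lit 21) (nat_lit 4) (nat_lit 233) (nat_lit 216) (nat_lit 211)))) (XT.nd (nat_lit 78) (nat_lit 304) (nat_lit 0) (XT.lf (nat_lit 0) (nat_lit 2445064144) (nat_lit 76) (nat_lit 2139948949) (nat_lit 152) (nat_lit 8066801915) (nat_lit 17) (nat_lit 5) (nat_lit 18) (nat_lit 5) (nat_lit 19) (nat_lit 4) (nat_lit 234) (nat_lit 216) (nat_lit 210)) (XT.nd (nat_lit 78) (nat_lit 152) (nat_lit 0) (XT.lf (nat_lit 0) (nat_lit 2567953476) (nat_lit 152) (nat_lit 9262187815) (nat_lit 152) (nat_lit 2043453007) (nat_lit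 15) (nat_lit 4) (nat_lit 17) (nat_lit 5) (nat_lit 17) (nat_lit 4) (nat_lit 235) (nat_lit 216) (nat_lit 209)) (XT.lf (nat_lit 0) (nat_lit 1624591378) (nat_lit 76) (nat_lit 2899703193) (nat_lit 152) (nat_lit 10754815470) (nat_lit 13) (nat_lit 5) (nat_lit 14) (nat_lit 5) (nat_lit 15) (nat_lit 4) (nat_lit 236) (nat_lit 216) (nat_lit 208))))))) (XT.nd (nat_lit 936) (nat_lit 76) (nat_lit 0) (XT.nd (nat_lit 468) (nat_lit 228) (nat_lit 0) (XT.nd (nat_lit 234) (nat_lit 228) (nat_lit 0) (XT.nd (nat_lit 78) (nat_lit 228) (nat_lit 0) (XT.lf (nat_lit 0) (nat_lit 11925116871) (nat_lit 152) (nat_lit 709944843) (nat_lit 0) (nat_lit 4259223912) (nat_lit 13) (nat_lit 5) (nat_lit 15) (nat_lit 4) (nat_lit 13) (nat_lit 4) (nat_lit 237) (nat_lit 216) (nat_lit 207)) (XT.nd (nat_lit 78) (nat_lit 76) (nat_lit 0) (XT.lf (nat_lit 0) (nat_lit 1601965614) (nat_lit 152) (nat_lit 4730924499) (nat_lit 76) (nat_lit 12415931037)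 (nat_lit 11) (nat_lit 5) (nat_lit 13) (nat_lit 5) (nat_lit 12) (nat_lit 4) (nat_lit 238) (nat_lit 216) (nat_lit 206)) (XT.lf (nat_lit 0) (nat_lit 8765683738) (nat_lit 152) (nat_lit 11133661543) (nat_lit 0) (nat_lit 980188614) (nat_lit 10) (nat_lit 5) (nat_lit 12) (nat_lit 4) (nat_lit 10) (nat_lit 4) (nat_lit 239) (nat_lit 216) (nat_lit 205)))) (XT.nd (nat_lit 78) (nat_lit 152) (nat_lit 0) (XT.lf (nat_lit 0) (nat_lit 2656955022) (nat_lit 76) (nat_lit 14367572507) (nat_lit 76) (nat_lit 6304040542) (nat_lit 9) (nat_lit 4) (nat_lit 10) (nat_lit 5) (nat_lit 10) (nat_lit 4) (nat_lit 240) (nat_lit 216) (nat_lit 204)) (XT.nd (nat_lit 78) (nat_lit 76) (nat_lit 0) (XT.lf (nat_lit 0) (nat_lit 354756492) (nat_lit 152) (nat_lit 7567409625) (nat_lit 76) (nat_lit 18222644294) (nat_lit 8) (nat_lit 5) (nat_lit 10) (nat_lit 5) (nat_lit 9) (nat_lit 4) (nat_lit 241) (nat_lit 216) (nat_lit 203)) (XT.lf (nat_lit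 0) (nat_lit 7145264667) (nat_lit 76) (nat_lit 383967829) (nat_lit 152) (nat_lit 21850198999) (nat_lit 7) (nat_lit 5) (nat_lit 8) (nat_lit 5) (nat_lit 9) (nat_lit 4) (nat_lit 242) (nat_lit 216) (nat_lit 202))))) (XT.nd (nat_lit 234) (nat_lit 152) (nat_lit 0) (XT.nd (nat_lit 78) (nat_lit 76) (nat_lit 0) (XT.lf (nat_lit 0) (nat_lit 15933588363) (nat_lit 152) (nat_lit 9274021726) (nat_lit 0) (nat_lit 7879558120) (nat_lit 7) (nat_lit 5) (nat_lit 9) (nat_lit 4) (nat_lit 7) (nat_lit 4) (nat_lit 243) (nat_lit 216) (nat_lit 201)) (XT.nd (nat_lit 78) (nat_lit 0) (nat_lit 0) (XT.lf (nat_lit 0) (nat_lit 5448128403) (nat_lit 76) (nat_lit 20055955957) (nat_lit 76) (nat_lit 11854732690) (nat_lit 6) (nat_lit 4) (nat_lit 7) (nat_lit 5) (nat_lit 7) (nat_lit 4) (nat_lit 244) (nat_lit 216) (nat_lit 200)) (XT.lf (nat_lit 0) (nat_lit 22533849901) (nat_lit 76) (nat_lit 14031178177) (nat_lit 76) (nat_lit 5701960976)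 (nat_lit 6) (nat_lit 4) (nat_lit 7) (nat_lit 5) (nat_lit 7) (nat_lit 4) (nat_lit 245) (nat_lit 216) (nat_lit 199)))) (XT.nd (nat_lit 78) (nat_lit 76) (nat_lit 0) (XT.lf (nat_lit 0) (nat_lit 1112941874) (nat_lit 152) (nat_lit 6125597176) (nat_lit 76) (nat_lit 40685703397) (nat_lit 5) (nat_lit 5) (nat_lit 7) (nat_lit 5) (nat_lit 6) (nat_lit 4) (nat_lit 246) (nat_lit 216) (nat_lit 198)) (XT.nd (nat_lit 78) (nat_lit 0) (nat_lit 0) (XT.lf (nat_lit 0) (nat_lit 8704379915) (nat_lit 152) (nat_lit 44907143868) (nat_lit 0) (nat_lit 799474288) (nat_lit 4) (nat_lit 5) (nat_lit 6) (nat_lit 4) (nat_lit 4) (nat_lit 4) (nat_lit 247) (nat_lit 216) (nat_lit 197)) (XT.lf (nat_lit 0) (nat_lit 17662216599) (nat_lit 152) (nat_lit 34511049872) (nat_lit 0) (nat_lit 9679386816) (nat_lit 4) (nat_lit 5) (nat_lit 6) (nat_lit 4) (nat_lit 4) (nat_lit 4) (nat_lit 248) (nat_lit 216) (nat_lit 196)))))) (XT.nd (nat_lit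 468) (nat_lit 0) (nat_lit 0) (XT.nd (nat_lit 234) (nat_lit 0) (nat_lit 0) (XT.nd (nat_lit 78) (nat_lit 76) (nat_lit 0) (XT.lf (nat_lit 0) (nat_lit 27828520491) (nat_lit 152) (nat_lit 22815010112) (nat_lit 0) (nat_lit 19777930571) (nat_lit 4) (nat_lit 5) (nat_lit 6) (nat_lit 4) (nat_lit 4) (nat_lit 4) (nat_lit 249) (nat_lit 216) (nat_lit 195)) (XT.nd (nat_lit 78) (nat_lit 76) (nat_lit 0) (XT.lf (nat_lit 0) (nat_lit 39402197535) (nat_lit 152) (nat_lit 9590189027) (nat_lit 0) (nat_lit 31292685758) (nat_lit 4) (nat_lit 5) (nat_lit 6) (nat_lit 4) (nat_lit 4) (nat_lit 4) (nat_lit 250) (nat_lit 216) (nat_lit 194)) (XT.lf (nat_lit 0) (nat_lit 5707681212) (nat_lit 76) (nat_lit 47039277896) (nat_lit 76) (nat_lit 38878529721) (nat_lit 3) (nat_lit 4) (nat_lit 4) (nat_lit 5) (nat_lit 4) (nat_lit 4) (nat_lit 251) (nat_lit 216) (nat_lit 193)))) (XT.nd (nat_lit 78) (nat_lit 0) (nat_lit 0) (XT.lf (nat_lit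 0) (nat_lit 23701396321) (nat_lit 76) (nat_lit 44578025880) (nat_lit 76) (nat_lit 36372724315) (nat_lit 3) (nat_lit 4) (nat_lit 4) (nat_lit 5) (nat_lit 4) (nat_lit 4) (nat_lit 252) (nat_lit 216) (nat_lit 192)) (XT.nd (nat_lit 78) (nat_lit 0) (nat_lit 0) (XT.lf (nat_lit 0) (nat_lit 44238004886) (nat_lit 76) (nat_lit 41822688344) (nat_lit 76) (nat_lit 33578644702) (nat_lit 3) (nat_lit 4) (nat_lit 4) (nat_lit 5) (nat_lit 4) (nat_lit 4) (nat_lit 253) (nat_lit 216) (nat_lit 191)) (XT.lf (nat_lit 0) (nat_lit 67719310121) (nat_lit 76) (nat_lit 38719356511) (nat_lit 76) (nat_lit 30441624106) (nat_lit 3) (nat_lit 4) (nat_lit 4) (nat_lit 5) (nat_lit 4) (nat_lit 4) (nat_lit 254) (nat_lit 216) (nat_lit 190))))) (XT.nd (nat_lit 234) (nat_lit 0) (nat_lit 0) (XT.nd (nat_lit 78) (nat_lit 0) (nat_lit 0) (XT.lf (nat_lit 0) (nat_lit 94604728865) (nat_lit 76) (nat_lit 35207313020) (nat_lit 76) (nat_lit 26900286038)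 (nat_lit 3) (nat_lit 4) (nat_lit 4) (nat_lit 5) (nat_lit 4) (nat_lit 4) (nat_lit 255) (nat_lit 216) (nat_lit 189)) (XT.nd (nat_lit 78) (nat_lit 0) (nat_lit 0) (XT.lf (nat_lit 0) (nat_lit 125420280181) (nat_lit 76) (nat_lit 31217843976) (nat_lit 76) (nat_lit 22885343448) (nat_lit 3) (nat_lit 4) (nat_lit 4) (nat_lit 5) (nat_lit 4) (nat_lit 4) (nat_lit 256) (nat_lit 216) (nat_lit 188)) (XT.lf (nat_lit 0) (nat_lit 160768877030) (nat_lit 76) (nat_lit 26672894549) (nat_lit 76) (nat_lit 18318243113) (nat_lit 3) (nat_lit 4) (nat_lit 4) (nat_lit 5) (nat_lit 4) (nat_lit 4) (nat_lit 257) (nat_lit 216) (nat_lit 187)))) (XT.nd (nat_lit 78) (nat_lit 0) (nat_lit 0) (XT.lf (nat_lit 0) (nat_lit 201342122394) (nat_lit 76) (nat_lit 21483541817) (nat_lit 76) (nat_lit 13109628721) (nat_lit 3) (nat_lit 4) (nat_lit 4) (nat_lit 5) (nat_lit 4) (nat_lit 4) (nat_lit 258) (nat_lit 216) (nat_lit 186)) (XT.nd (nat_lit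 78) (nat_lit 0) (nat_lit 0) (XT.lf (nat_lit 0) (nat_lit 247933840639) (nat_lit 76) (nat_lit 15548254965) (nat_lit 76) (nat_lit 7157592599) (nat_lit 3) (nat_lit 4) (nat_lit 4) (nat_lit 5) (nat_lit 4) (nat_lit 4) (nat_lit 259) (nat_lit 216) (nat_lit 185)) (XT.lf (nat_lit 0) (nat_lit 301455608860) (nat_lit 76) (nat_lit 8750908814) (nat_lit 76) (nat_lit 345681867) (nat_lit 3) (nat_lit 4) (nat_lit 4) (nat_lit 5) (nat_lit 4) (nat_lit 4) (nat_lit 260) (nat_lit 216) (nat_lit 184))))))))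
noncomputable def xc19 : XT := (XT.nd (nat_lit 1872) (nat_lit 0) (nat_lit 0) (XT.nd (nat_lit 936) (nat_lit 0) (nat_lit 0) (XT.nd (nat_lit 468) (nat_lit 0) (nat_lit 0) (XT.nd (nat_lit 234) (nat_lit 0) (nat_lit 0) (XT.nd (nat_lit 78) (nat_lit 0) (nat_lit 0) (XT.lf (nat_lit 0) (nat_lit 6654347312) (nat_lit 76) (nat_lit 591921492) (nat_lit 152) (nat_lit 349180300268) (nat_lit 1) (nat_lit 5) (nat_lit 2) (nat_lit 5) (nat_lit 3) (nat_lit 4) (nat_lit 261) (nat_lit 216) (nat_lit 183)) (XT.nd (nat_lit 78) (nat_lit 0) (nat_lit 0) (XT.lf (nat_lit 0) (nat_lit 16414894328) (nat_lit 152) (nat_lit 384119473644) (nat_lit 0) (nat_lit 8610352923) (nat_lit 1) (nat_lit 5) (nat_lit 3) (nat_lit 4) (nat_lit 1) (nat_lit 4) (nat_lit 262) (nat_lit 216) (nat_lit 182)) (XT.lf (nat_lit 0) (nat_lit 26953124316) (nat_lit 152) (nat_lit 423678221976) (nat_lit 0) (nat_lit 19139715828) (nat_lit 1) (nat_lit 5) (nat_lit 3)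 (nat_lit 4) (nat_lit 1) (nat_lit 4) (nat_lit 263) (nat_lit 216) (nat_lit 181)))) (XT.nd (nat_lit 78) (nat_lit 0) (nat_lit 0) (XT.lf (nat_lit 0) (nat_lit 39052905801) (nat_lit 152) (nat_lit 469208206542) (nat_lit 0) (nat_lit 31231786807) (nat_lit 1) (nat_lit 5) (nat_lit 3) (nat_lit 4) (nat_lit 1) (nat_lit 4) (nat_lit 264) (nat_lit 216) (nat_lit 180)) (XT.nd (nat_lit 78) (nat_lit 0) (nat_lit 0) (XT.lf (nat_lit 0) (nat_lit 52950973641) (nat_lit 152) (nat_lit 521600231387) (nat_lit 0) (nat_lit 45123149858) (nat_lit 1) (nat_lit 5) (nat_lit 3) (nat_lit 4) (nat_lit 1) (nat_lit 4) (nat_lit 265) (nat_lit 216) (nat_lit 179)) (XT.lf (nat_lit 0) (nat_lit 68919246552) (nat_lit 152) (nat_lit 581879357867) (nat_lit 0) (nat_lit 61085592518) (nat_lit 1) (nat_lit 5) (nat_lit 3) (nat_lit 4) (nat_lit 1) (nat_lit 4) (nat_lit 266) (nat_lit 216) (nat_lit 178))))) (XT.nd (nat_lit 234) (nat_lit 0) (nat_lit 0)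 (XT.nd (nat_lit 78) (nat_lit 0) (nat_lit 0) (XT.lf (nat_lit 0) (nat_lit 87270147266) (nat_lit 152) (nat_lit 651224960196) (nat_lit 0) (nat_lit 79431423449) (nat_lit 1) (nat_lit 5) (nat_lit 3) (nat_lit 4) (nat_lit 1) (nat_lit 4) (nat_lit 267) (nat_lit 216) (nat_lit 177)) (XT.nd (nat_lit 78) (nat_lit 0) (nat_lit 0) (XT.lf (nat_lit 0) (nat_lit 108362715145) (nat_lit 152) (nat_lit 730993800159) (nat_lit 0) (nat_lit 100519582821) (nat_lit 1) (nat_lit 5) (nat_lit 3) (nat_lit 4) (nat_lit 1) (nat_lit 4) (nat_lit 268) (nat_lit 216) (nat_lit 176)) (XT.lf (nat_lit 0) (nat_lit 132609630864) (nat_lit 152) (nat_lit 822746572449) (nat_lit 0) (nat_lit 124762665056) (nat_lit 1) (nat_lit 5) (nat_lit 3) (nat_lit 4) (nat_lit 1) (nat_lit 4) (nat_lit 269) (nat_lit 216) (nat_lit 175)))) (XT.nd (nat_lit 78) (nat_lit 0) (nat_lit 0) (XT.lf (nat_lit 0) (nat_lit 160485290601) (nat_lit 152) (nat_lit 928278440005)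 (nat_lit 0) (nat_lit 152634991328) (nat_lit 1) (nat_lit 5) (nat_lit 3) (nat_lit 4) (nat_lit 1) (nat_lit 4) (nat_lit 270) (nat_lit 216) (nat_lit 174)) (XT.nd (nat_lit 78) (nat_lit 0) (nat_lit 0) (XT.lf (nat_lit 0) (nat_lit 192535087698) (nat_lit 152) (nat_lit 1049654156755) (nat_lit 0) (nat_lit 184681889760) (nat_lit 1) (nat_lit 5) (nat_lit 3) (nat_lit 4) (nat_lit 1) (nat_lit 4) (nat_lit 271) (nat_lit 216) (nat_lit 173)) (XT.lf (nat_lit 0) (nat_lit 229386083404) (nat_lit 152) (nat_lit 1189248464984) (nat_lit 0) (nat_lit 221530364887) (nat_lit 1) (nat_lit 5) (nat_lit 3) (nat_lit 4) (nat_lit 1) (nat_lit 4) (nat_lit 272) (nat_lit 216) (nat_lit 172)))))) (XT.nd (nat_lit 468) (nat_lit 0) (nat_lit 0) (XT.nd (nat_lit 234) (nat_lit 0) (nat_lit 0) (XT.nd (nat_lit 78) (nat_lit 0) (nat_lit 0) (XT.lf (nat_lit 0) (nat_lit 271759275459) (nat_lit 152) (nat_lit 1349792557680) (nat_lit 0) (nat_lit 263901365135)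 (nat_lit 1) (nat_lit 5) (nat_lit 3) (nat_lit 4) (nat_lit 1) (nat_lit 4) (nat_lit 273) (nat_lit 216) (nat_lit 171)) (XT.nd (nat_lit 78) (nat_lit 0) (nat_lit 0) (XT.lf (nat_lit 0) (nat_lit 320483704578) (nat_lit 152) (nat_lit 1534427514916) (nat_lit 0) (nat_lit 312623888335) (nat_lit 1) (nat_lit 5) (nat_lit 3) (nat_lit 4) (nat_lit 1) (nat_lit 4) (nat_lit 274) (nat_lit 216) (nat_lit 170)) (XT.lf (nat_lit 0) (nat_lit 376512674809) (nat_lit 152) (nat_lit 1746765759770) (nat_lit 0) (nat_lit 368651201245) (nat_lit 1) (nat_lit 5) (nat_lit 3) (nat_lit 4) (nat_lit 1) (nat_lit 4) (nat_lit 275) (nat_lit 216) (nat_lit 169)))) (XT.nd (nat_lit 78) (nat_lit 0) (nat_lit 0) (XT.lf (nat_lit 0) (nat_lit 440942405136) (nat_lit 152) (nat_lit 1990961736161) (nat_lit 0) (nat_lit 433079490423) (nat_lit 1) (nat_lit 5) (nat_lit 3) (nat_lit 4) (nat_lit 1) (nat_lit 4) (nat_lit 276) (nat_lit 216) (nat_lit 168)) (XT.nd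 (nat_lit 78) (nat_lit 0) (nat_lit 0) (XT.lf (nat_lit 0) (nat_lit 515033477237) (nat_lit 152) (nat_lit 2271793191455) (nat_lit 0) (nat_lit 507169309351) (nat_lit 1) (nat_lit 5) (nat_lit 3) (nat_lit 4) (nat_lit 1) (nat_lit 4) (nat_lit 277) (nat_lit 216) (nat_lit 167)) (XT.lf (nat_lit 0) (nat_lit 600235499046) (nat_lit 152) (nat_lit 2594754654124) (nat_lit 0) (nat_lit 592370241445) (nat_lit 1) (nat_lit 5) (nat_lit 3) (nat_lit 4) (nat_lit 1) (nat_lit 4) (nat_lit 278) (nat_lit 216) (nat_lit 166))))) (XT.nd (nat_lit 234) (nat_lit 0) (nat_lit 0) (XT.nd (nat_lit 78) (nat_lit 0) (nat_lit 0) (XT.lf (nat_lit 0) (nat_lit 698215466641) (nat_lit 152) (nat_lit 2966164935395) (nat_lit 0) (nat_lit 690349261461) (nat_lit 1) (nat_lit 5) (nat_lit 3) (nat_lit 4) (nat_lit 1) (nat_lit 4) (nat_lit 279) (nat_lit 216) (nat_lit 165)) (XT.nd (nat_lit 78) (nat_lit 0) (nat_lit 0) (XT.lf (nat_lit 0) (nat_lit 810890379389)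 (nat_lit 152) (nat_lit 3393290758162) (nat_lit 0) (nat_lit 803023350228) (nat_lit 1) (nat_lit 5) (nat_lit 3) (nat_lit 4) (nat_lit 1) (nat_lit 4) (nat_lit 280) (nat_lit 216) (nat_lit 164)) (XT.lf (nat_lit 0) (nat_lit 940464746452) (nat_lit 152) (nat_lit 3884488932001) (nat_lit 0) (nat_lit 932597000785) (nat_lit 1) (nat_lit 5) (nat_lit 3) (nat_lit 4) (nat_lit 1) (nat_lit 4) (nat_lit 281) (nat_lit 216) (nat_lit 163)))) (XT.nd (nat_lit 78) (nat_lit 0) (nat_lit 0) (XT.lf (nat_lit 0) (nat_lit 1089473718489) (nat_lit 152) (nat_lit 4449369855965) (nat_lit 0) (nat_lit 1081605349774) (nat_lit 1) (nat_lit 5) (nat_lit 3) (nat_lit 4) (nat_lit 1) (nat_lit 4) (nat_lit 282) (nat_lit 216) (nat_lit 162)) (XT.nd (nat_lit 78) (nat_lit 0) (nat_lit 0) (XT.lf (nat_lit 0) (nat_lit 1260832688433) (nat_lit 152) (nat_lit 5098985548132) (nat_lit 0) (nat_lit 1252963777936) (nat_lit 1) (nat_lit 5) (nat_lit 3) (nat_lit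 4) (nat_lit 1) (nat_lit 4) (nat_lit 283) (nat_lit 216) (nat_lit 161)) (XT.lf (nat_lit 0) (nat_lit 1457894331781) (nat_lit 152) (nat_lit 5846045880740) (nat_lit 0) (nat_lit 1450024950170) (nat_lit 1) (nat_lit 5) (nat_lit 3) (nat_lit 4) (nat_lit 1) (nat_lit 4) (nat_lit 284) (nat_lit 216) (nat_lit 160))))))) (XT.nd (nat_lit 30498) (nat_lit 0) (nat_lit 304) (XT.nd (nat_lit 30030) (nat_lit 0) (nat_lit 1292) (XT.nd (nat_lit 29796) (nat_lit 0) (nat_lit 2660) (XT.nd (nat_lit 78) (nat_lit 0) (nat_lit 0) (XT.lf (nat_lit 0) (nat_lit 1684514202426) (nat_lit 152) (nat_lit 6705167251601) (nat_lit 0) (nat_lit 1676644411151) (nat_lit 1) (nat_lit 5) (nat_lit 3) (nat_lit 4) (nat_lit 1) (nat_lit 4) (nat_lit 285) (nat_lit 216) (nat_lit 159)) (XT.nd (nat_lit 78) (nat_lit 0) (nat_lit 0) (XT.lf (nat_lit 0) (nat_lit 1945126167402) (nat_lit 152) (nat_lit 7693158557101) (nat_lit 0) (nat_lit 1937256019897) (nat_lit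 1) (nat_lit 5) (nat_lit 3) (nat_lit 4) (nat_lit 1) (nat_lit 4) (nat_lit 286) (nat_lit 216) (nat_lit 158)) (XT.lf (nat_lit 0) (nat_lit 2244829156458) (nat_lit 152) (nat_lit 8829350061913) (nat_lit 0) (nat_lit 2236958699187) (nat_lit 1) (nat_lit 5) (nat_lit 3) (nat_lit 4) (nat_lit 1) (nat_lit 4) (nat_lit 287) (nat_lit 216) (nat_lit 157)))) (XT.nd (nat_lit 78) (nat_lit 532) (nat_lit 0) (XT.lf (nat_lit 0) (nat_lit 833610102) (nat_lit 532) (nat_lit 2014751146) (nat_lit 0) (nat_lit 833610102) (nat_lit 43) (nat_lit 5) (nat_lit 50) (nat_lit 4) (nat_lit 43) (nat_lit 4) (nat_lit 226) (nat_lit 217) (nat_lit 217)) (XT.nd (nat_lit 78) (nat_lit 228) (nat_lit 0) (XT.lf (nat_lit 0) (nat_lit 164093752) (nat_lit 304) (nat_lit 2208112796) (nat_lit 76) (nat_lit 5349478862) (nat_lit 39) (nat_lit 5) (nat_lit 43) (nat_lit 5) (nat_lit 40) (nat_lit 4) (nat_lit 227) (nat_lit 217) (nat_lit 216)) (XT.lf (nat_lit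 0) (nat_lit 6141065885) (nat_lit 304) (nat_lit 289091103) (nat_lit 0) (nat_lit 1727805199) (nat_lit 36) (nat_lit 5) (nat_lit 40) (nat_lit 4) (nat_lit 36) (nat_lit 4) (nat_lit 228) (nat_lit 217) (nat_lit 215))))) (XT.nd (nat_lit 234) (nat_lit 532) (nat_lit 0) (XT.nd (nat_lit 78) (nat_lit 380) (nat_lit 0) (XT.lf (nat_lit 0) (nat_lit 1794846394) (nat_lit 152) (nat_lit 2047964028) (nat_lit 228) (nat_lit 4834170311) (nat_lit 30) (nat_lit 5) (nat_lit 32) (nat_lit 5) (nat_lit 33) (nat_lit 4) (nat_lit 229) (nat_lit 217) (nat_lit 214)) (XT.nd (nat_lit 78) (nat_lit 152) (nat_lit 0) (XT.lf (nat_lit 0) (nat_lit 872752751) (nat_lit 228) (nat_lit 5360896319) (nat_lit 76) (nat_lit 3056239696) (nat_lit 27) (nat_lit 5) (nat_lit 30) (nat_lit 5) (nat_lit 28) (nat_lit 4) (nat_lit 230) (nat_lit 217) (nat_lit 213)) (XT.lf (nat_lit 0) (nat_lit 5989853288) (nat_lit 152) (nat_lit 940805265) (nat_lit 228) (nat_lit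 3073032974) (nat_lit 25) (nat_lit 5) (nat_lit 27) (nat_lit 5) (nat_lit 28) (nat_lit 4) (nat_lit 231) (nat_lit 217) (nat_lit 212)))) (XT.nd (nat_lit 78) (nat_lit 304) (nat_lit 0) (XT.lf (nat_lit 0) (nat_lit 2812985976) (nat_lit 228) (nat_lit 2956958928) (nat_lit 76) (nat_lit 5058393407) (nat_lit 22) (nat_lit 5) (nat_lit 25) (nat_lit 5) (nat_lit 23) (nat_lit 4) (nat_lit 232) (nat_lit 217) (nat_lit 211)) (XT.nd (nat_lit 78) (nat_lit 228) (nat_lit 0) (XT.lf (nat_lit 0) (nat_lit 9252082765) (nat_lit 152) (nat_lit 2244677890) (nat_lit 0) (nat_lit 286414133) (nat_lit 21) (nat_lit 5) (nat_lit 23) (nat_lit 4) (nat_lit 21) (nat_lit 4) (nat_lit 233) (nat_lit 217) (nat_lit 210)) (XT.lf (nat_lit 0) (nat_lit 3603146816) (nat_lit 228) (nat_lit 2175593755) (nat_lit 76) (nat_lit 7094778322) (nat_lit 18) (nat_lit 5) (nat_lit 21) (nat_lit 5) (nat_lit 19) (nat_lit 4) (nat_lit 234) (nat_lit 217) (nat_lit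 209)))))) (XT.nd (nat_lit 468) (nat_lit 380) (nat_lit 0) (XT.nd (nat_lit 234) (nat_lit 228) (nat_lit 0) (XT.nd (nat_lit 78) (nat_lit 304) (nat_lit 0) (XT.lf (nat_lit 0) (nat_lit 10417693950) (nat_lit 152) (nat_lit 2815737367) (nat_lit 0) (nat_lit 896654895) (nat_lit 17) (nat_lit 5) (nat_lit 19) (nat_lit 4) (nat_lit 17) (nat_lit 4) (nat_lit 235) (nat_lit 217) (nat_lit 208)) (XT.nd (nat_lit 78) (nat_lit 76) (nat_lit 0) (XT.lf (nat_lit 0) (nat_lit 2617150414) (nat_lit 228) (nat_lit 4570589256) (nat_lit 76) (nat_lit 8377083683) (nat_lit 14) (nat_lit 5) (nat_lit 17) (nat_lit 5) (nat_lit 15) (nat_lit 4) (nat_lit 236) (nat_lit 217) (nat_lit 207)) (XT.lf (nat_lit 0) (nat_lit 9533811290) (nat_lit 76) (nat_lit 70497858) (nat_lit 152) (nat_lit 7609022001) (nat_lit 13) (nat_lit 5) (nat_lit 14) (nat_lit 5) (nat_lit 15) (nat_lit 4) (nat_lit 237) (nat_lit 217) (nat_lit 206)))) (XT.nd (nat_lit 78) (nat_lit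 152) (nat_lit 0) (XT.lf (nat_lit 0) (nat_lit 6412767746) (nat_lit 76) (nat_lit 11350886080) (nat_lit 76) (nat_lit 1335979380) (nat_lit 12) (nat_lit 4) (nat_lit 13) (nat_lit 5) (nat_lit 13) (nat_lit 4) (nat_lit 238) (nat_lit 217) (nat_lit 205)) (XT.nd (nat_lit 78) (nat_lit 0) (nat_lit 0) (XT.lf (nat_lit 0) (nat_lit 1135183086) (nat_lit 76) (nat_lit 4369802285) (nat_lit 152) (nat_lit 15759265184) (nat_lit 10) (nat_lit 5) (nat_lit 11) (nat_lit 5) (nat_lit 12) (nat_lit 4) (nat_lit 239) (nat_lit 217) (nat_lit 204)) (XT.lf (nat_lit 0) (nat_lit 13449315845) (nat_lit 152) (nat_lit 6632829453) (nat_lit 0) (nat_lit 3656446080) (nat_lit 10) (nat_lit 5) (nat_lit 12) (nat_lit 4) (nat_lit 10) (nat_lit 4) (nat_lit 240) (nat_lit 217) (nat_lit 203))))) (XT.nd (nat_lit 234) (nat_lit 152) (nat_lit 0) (XT.nd (nat_lit 78) (nat_lit 152) (nat_lit 0) (XT.lf (nat_lit 0) (nat_lit 8704045228) (nat_lit 76) (nat_lit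 13939382638) (nat_lit 76) (nat_lit 3936277076) (nat_lit 9) (nat_lit 4) (nat_lit 10) (nat_lit 5) (nat_lit 10) (nat_lit 4) (nat_lit 241) (nat_lit 217) (nat_lit 202)) (XT.nd (nat_lit 78) (nat_lit 76) (nat_lit 0) (XT.lf (nat_lit 0) (nat_lit 3145032039) (nat_lit 152) (nat_lit 3644252656) (nat_lit 76) (nat_lit 23055922697) (nat_lit 8) (nat_lit 5) (nat_lit 10) (nat_lit 5) (nat_lit 9) (nat_lit 4) (nat_lit 242) (nat_lit 217) (nat_lit 201)) (XT.lf (nat_lit 0) (nat_lit 11190841889) (nat_lit 152) (nat_lit 20778632424) (nat_lit 0) (nat_lit 1612242107) (nat_lit 7) (nat_lit 5) (nat_lit 9) (nat_lit 4) (nat_lit 7) (nat_lit 4) (nat_lit 243) (nat_lit 217) (nat_lit 200)))) (XT.nd (nat_lit 156) (nat_lit 76) (nat_lit 0) (XT.nd (nat_lit 78) (nat_lit 76) (nat_lit 0) (XT.lf (nat_lit 0) (nat_lit 20534795416) (nat_lit 152) (nat_lit 6508568613) (nat_lit 0) (nat_lit 10828201701) (nat_lit 7) (nat_lit 5) (nat_lit 9)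 (nat_lit 4) (nat_lit 7) (nat_lit 4) (nat_lit 244) (nat_lit 217) (nat_lit 199)) (XT.lf (nat_lit 0) (nat_lit 10070072242) (nat_lit 76) (nat_lit 21273883967) (nat_lit 76) (nat_lit 11455991178) (nat_lit 6) (nat_lit 4) (nat_lit 7) (nat_lit 5) (nat_lit 7) (nat_lit 4) (nat_lit 245) (nat_lit 217) (nat_lit 198))) (XT.nd (nat_lit 78) (nat_lit 76) (nat_lit 0) (XT.lf (nat_lit 0) (nat_lit 29222383542) (nat_lit 76) (nat_lit 14578928483) (nat_lit 76) (nat_lit 4664253892) (nat_lit 6) (nat_lit 4) (nat_lit 7) (nat_lit 5) (nat_lit 7) (nat_lit 4) (nat_lit 246) (nat_lit 217) (nat_lit 197)) (XT.lf (nat_lit 0) (nat_lit 2843627191) (nat_lit 152) (nat_lit 4084088121) (nat_lit 76) (nat_lit 48058977732) (nat_lit 5) (nat_lit 5) (nat_lit 7) (nat_lit 5) (nat_lit 6) (nat_lit 4) (nat_lit 247) (nat_lit 217) (nat_lit 196))))))))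
noncomputable def xc20 : XT := (XT.nd (nat_lit 1872) (nat_lit 0) (nat_lit 0) (XT.nd (nat_lit 936) (nat_lit 152) (nat_lit 0) (XT.nd (nat_lit 468) (nat_lit 0) (nat_lit 0) (XT.nd (nat_lit 234) (nat_lit 76) (nat_lit 0) (XT.nd (nat_lit 78) (nat_lit 0) (nat_lit 0) (XT.lf (nat_lit 0) (nat_lit 11465884366) (nat_lit 152) (nat_lit 48849405235) (nat_lit 0) (nat_lit 2139945822) (nat_lit 4) (nat_lit 5) (nat_lit 6) (nat_lit 4) (nat_lit 4) (nat_lit 4) (nat_lit 248) (nat_lit 217) (nat_lit 195)) (XT.nd (nat_lit 78) (nat_lit 0) (nat_lit 0) (XT.lf (nat_lit 0) (nat_lit 21577503405) (nat_lit 152) (nat_lit 37258307168) (nat_lit 0) (nat_lit 12192643004) (nat_lit 4) (nat_lit 5) (nat_lit 6) (nat_lit 4) (nat_lit 4) (nat_lit 4) (nat_lit 249) (nat_lit 217) (nat_lit 194)) (XT.lf (nat_lit 0) (nat_lit 33103628404) (nat_lit 152) (nat_lit 24124739729) (nat_lit 0) (nat_lit 23667531605) (nat_lit 4) (nat_lit 5) (nat_lit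 6) (nat_lit 4) (nat_lit 4) (nat_lit 4) (nat_lit 250) (nat_lit 217) (nat_lit 193)))) (XT.nd (nat_lit 78) (nat_lit 76) (nat_lit 0) (XT.lf (nat_lit 0) (nat_lit 46269770504) (nat_lit 152) (nat_lit 9191741815) (nat_lit 0) (nat_lit 36789120315) (nat_lit 4) (nat_lit 5) (nat_lit 6) (nat_lit 4) (nat_lit 4) (nat_lit 4) (nat_lit 251) (nat_lit 217) (nat_lit 192)) (XT.nd (nat_lit 78) (nat_lit 0) (nat_lit 0) (XT.lf (nat_lit 0) (nat_lit 8245318127) (nat_lit 76) (nat_lit 53286510108) (nat_lit 76) (nat_lit 43767117842) (nat_lit 3) (nat_lit 4) (nat_lit 4) (nat_lit 5) (nat_lit 4) (nat_lit 4) (nat_lit 252) (nat_lit 217) (nat_lit 191)) (XT.lf (nat_lit 0) (nat_lit 28718766406) (nat_lit 76) (nat_lit 50561547612) (nat_lit 76) (nat_lit 41008466582) (nat_lit 3) (nat_lit 4) (nat_lit 4) (nat_lit 5) (nat_lit 4) (nat_lit 4) (nat_lit 253) (nat_lit 217) (nat_lit 190))))) (XT.nd (nat_lit 234) (nat_lit 0) (nat_lit 0)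 (XT.nd (nat_lit 78) (nat_lit 0) (nat_lit 0) (XT.lf (nat_lit 0) (nat_lit 52145149652) (nat_lit 76) (nat_lit 47484628856) (nat_lit 76) (nat_lit 37902253250) (nat_lit 3) (nat_lit 4) (nat_lit 4) (nat_lit 5) (nat_lit 4) (nat_lit 4) (nat_lit 254) (nat_lit 217) (nat_lit 189)) (XT.nd (nat_lit 78) (nat_lit 0) (nat_lit 0) (XT.lf (nat_lit 0) (nat_lit 78982810145) (nat_lit 76) (nat_lit 43995553259) (nat_lit 76) (nat_lit 34387704107) (nat_lit 3) (nat_lit 4) (nat_lit 4) (nat_lit 5) (nat_lit 4) (nat_lit 4) (nat_lit 255) (nat_lit 217) (nat_lit 188)) (XT.lf (nat_lit 0) (nat_lit 109756832548) (nat_lit 76) (nat_lit 40026056295) (nat_lit 76) (nat_lit 30396056235) (nat_lit 3) (nat_lit 4) (nat_lit 4) (nat_lit 5) (nat_lit 4) (nat_lit 4) (nat_lit 256) (nat_lit 217) (nat_lit 187)))) (XT.nd (nat_lit 78) (nat_lit 0) (nat_lit 0) (XT.lf (nat_lit 0) (nat_lit 145069317298) (nat_lit 76) (nat_lit 35498473896) (nat_lit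 76) (nat_lit 25849212176) (nat_lit 3) (nat_lit 4) (nat_lit 4) (nat_lit 5) (nat_lit 4) (nat_lit 4) (nat_lit 257) (nat_lit 217) (nat_lit 186)) (XT.nd (nat_lit 78) (nat_lit 0) (nat_lit 0) (XT.lf (nat_lit 0) (nat_lit 185611160837) (nat_lit 76) (nat_lit 30324222926) (nat_lit 76) (nat_lit 20658211937) (nat_lit 3) (nat_lit 4) (nat_lit 4) (nat_lit 5) (nat_lit 4) (nat_lit 4) (nat_lit 258) (nat_lit 217) (nat_lit 185)) (XT.lf (nat_lit 0) (nat_lit 232175573147) (nat_lit 76) (nat_lit 24402068041) (nat_lit 76) (nat_lit 14721492470) (nat_lit 3) (nat_lit 4) (nat_lit 4) (nat_lit 5) (nat_lit 4) (nat_lit 4) (nat_lit 259) (nat_lit 217) (nat_lit 184)))))) (XT.nd (nat_lit 468) (nat_lit 0) (nat_lit 0) (XT.nd (nat_lit 234) (nat_lit 0) (nat_lit 0) (XT.nd (nat_lit 78) (nat_lit 152) (nat_lit 0) (XT.lf (nat_lit 0) (nat_lit 285673597077) (nat_lit 76) (nat_lit 17616140993) (nat_lit 76) (nat_lit 7922900568) (nat_lit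 3) (nat_lit 4) (nat_lit 4) (nat_lit 5) (nat_lit 4) (nat_lit 4) (nat_lit 260) (nat_lit 217) (nat_lit 183)) (XT.nd (nat_lit 78) (nat_lit 152) (nat_lit 0) (XT.lf (nat_lit 0) (nat_lit 347151933095) (nat_lit 76) (nat_lit 9833673644) (nat_lit 76) (nat_lit 129420302) (nat_lit 3) (nat_lit 4) (nat_lit 4) (nat_lit 5) (nat_lit 4) (nat_lit 4) (nat_lit 261) (nat_lit 217) (nat_lit 182)) (XT.lf (nat_lit 0) (nat_lit 8102430426) (nat_lit 76) (nat_lit 463079293) (nat_lit 152) (nat_lit 401306337061) (nat_lit 1) (nat_lit 5) (nat_lit 2) (nat_lit 5) (nat_lit 3) (nat_lit 4) (nat_lit 262) (nat_lit 217) (nat_lit 181)))) (XT.nd (nat_lit 78) (nat_lit 0) (nat_lit 0) (XT.lf (nat_lit 0) (nat_lit 19083680313) (nat_lit 152) (nat_lit 441334434122) (nat_lit 0) (nat_lit 10081682963) (nat_lit 1) (nat_lit 5) (nat_lit 3) (nat_lit 4) (nat_lit 1) (nat_lit 4) (nat_lit 263) (nat_lit 217) (nat_lit 180)) (XT.nd (nat_lit 78) (nat_lit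 0) (nat_lit 0) (XT.lf (nat_lit 0) (nat_lit 31175703255) (nat_lit 152) (nat_lit 486879554779) (nat_lit 0) (nat_lit 22167001117) (nat_lit 1) (nat_lit 5) (nat_lit 3) (nat_lit 4) (nat_lit 1) (nat_lit 4) (nat_lit 264) (nat_lit 217) (nat_lit 179)) (XT.lf (nat_lit 0) (nat_lit 45067024535) (nat_lit 152) (nat_lit 539284741442) (nat_lit 0) (nat_lit 36052492145) (nat_lit 1) (nat_lit 5) (nat_lit 3) (nat_lit 4) (nat_lit 1) (nat_lit 4) (nat_lit 265) (nat_lit 217) (nat_lit 178))))) (XT.nd (nat_lit 234) (nat_lit 0) (nat_lit 0) (XT.nd (nat_lit 78) (nat_lit 0) (nat_lit 0) (XT.lf (nat_lit 0) (nat_lit 61029430872) (nat_lit 152) (nat_lit 599575312981) (nat_lit 0) (nat_lit 52009828699) (nat_lit 1) (nat_lit 5) (nat_lit 3) (nat_lit 4) (nat_lit 1) (nat_lit 4) (nat_lit 266) (nat_lit 217) (nat_lit 177)) (XT.nd (nat_lit 78) (nat_lit 0) (nat_lit 0) (XT.lf (nat_lit 0) (nat_lit 79375230217) (nat_lit 152) (nat_lit 668930867535)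 (nat_lit 0) (nat_lit 70351219538) (nat_lit 1) (nat_lit 5) (nat_lit 3) (nat_lit 4) (nat_lit 1) (nat_lit 4) (nat_lit 267) (nat_lit 217) (nat_lit 176)) (XT.lf (nat_lit 0) (nat_lit 100463362124) (nat_lit 152) (nat_lit 748708361606) (nat_lit 0) (nat_lit 91435517959) (nat_lit 1) (nat_lit 5) (nat_lit 3) (nat_lit 4) (nat_lit 1) (nat_lit 4) (nat_lit 268) (nat_lit 217) (nat_lit 175)))) (XT.nd (nat_lit 78) (nat_lit 0) (nat_lit 0) (XT.lf (nat_lit 0) (nat_lit 124706420475) (nat_lit 152) (nat_lit 840468659209) (nat_lit 0) (nat_lit 115675242846) (nat_lit 1) (nat_lit 5) (nat_lit 3) (nat_lit 4) (nat_lit 1) (nat_lit 4) (nat_lit 269) (nat_lit 217) (nat_lit 174)) (XT.nd (nat_lit 78) (nat_lit 0) (nat_lit 0) (XT.lf (nat_lit 0) (nat_lit 152578725980) (nat_lit 152) (nat_lit 946007070514) (nat_lit 0) (nat_lit 143544649686) (nat_lit 1) (nat_lit 5) (nat_lit 3) (nat_lit 4) (nat_lit 1) (nat_lit 4) (nat_lit 270) (nat_lit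 217) (nat_lit 173)) (XT.lf (nat_lit 0) (nat_lit 184625606353) (nat_lit 152) (nat_lit 1067388477481) (nat_lit 0) (nat_lit 175589009481) (nat_lit 1) (nat_lit 5) (nat_lit 3) (nat_lit 4) (nat_lit 1) (nat_lit 4) (nat_lit 271) (nat_lit 217) (nat_lit 172))))))) (XT.nd (nat_lit 936) (nat_lit 0) (nat_lit 0) (XT.nd (nat_lit 468) (nat_lit 0) (nat_lit 0) (XT.nd (nat_lit 234) (nat_lit 0) (nat_lit 0) (XT.nd (nat_lit 78) (nat_lit 0) (nat_lit 0) (XT.lf (nat_lit 0) (nat_lit 221474065776) (nat_lit 152) (nat_lit 1206987733725) (nat_lit 0) (nat_lit 212435277097) (nat_lit 1) (nat_lit 5) (nat_lit 3) (nat_lit 4) (nat_lit 1) (nat_lit 4) (nat_lit 272) (nat_lit 217) (nat_lit 171)) (XT.nd (nat_lit 78) (nat_lit 0) (nat_lit 0) (XT.lf (nat_lit 0) (nat_lit 263845052369) (nat_lit 152) (nat_lit 1367536129042) (nat_lit 0) (nat_lit 254804357771) (nat_lit 1) (nat_lit 5) (nat_lit 3) (nat_lit 4) (nat_lit 1) (nat_lit 4) (nat_lit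 273) (nat_lit 217) (nat_lit 170)) (XT.lf (nat_lit 0) (nat_lit 312567563695) (nat_lit 152) (nat_lit 1552174827689) (nat_lit 0) (nat_lit 303525211775) (nat_lit 1) (nat_lit 5) (nat_lit 3) (nat_lit 4) (nat_lit 1) (nat_lit 4) (nat_lit 274) (nat_lit 217) (nat_lit 169)))) (XT.nd (nat_lit 78) (nat_lit 0) (nat_lit 0) (XT.lf (nat_lit 0) (nat_lit 368594866280) (nat_lit 152) (nat_lit 1764516325942) (nat_lit 0) (nat_lit 359551073211) (nat_lit 1) (nat_lit 5) (nat_lit 3) (nat_lit 4) (nat_lit 1) (nat_lit 4) (nat_lit 275) (nat_lit 217) (nat_lit 168)) (XT.nd (nat_lit 78) (nat_lit 0) (nat_lit 0) (XT.lf (nat_lit 0) (nat_lit 433023146479) (nat_lit 152) (nat_lit 2008715131377) (nat_lit 0) (nat_lit 423978100237) (nat_lit 1) (nat_lit 5) (nat_lit 3) (nat_lit 4) (nat_lit 1) (nat_lit 4) (nat_lit 276) (nat_lit 217) (nat_lit 167)) (XT.lf (nat_lit 0) (nat_lit 507112957600) (nat_lit 152) (nat_lit 2289549046709) (nat_lit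 0) (nat_lit 498066821643) (nat_lit 1) (nat_lit 5) (nat_lit 3) (nat_lit 4) (nat_lit 1) (nat_lit 4) (nat_lit 277) (nat_lit 217) (nat_lit 166))))) (XT.nd (nat_lit 234) (nat_lit 0) (nat_lit 0) (XT.nd (nat_lit 78) (nat_lit 0) (nat_lit 0) (XT.lf (nat_lit 0) (nat_lit 592313882904) (nat_lit 152) (nat_lit 2612512648542) (nat_lit 0) (nat_lit 583266799369) (nat_lit 1) (nat_lit 5) (nat_lit 3) (nat_lit 4) (nat_lit 1) (nat_lit 4) (nat_lit 278) (nat_lit 217) (nat_lit 165)) (XT.nd (nat_lit 78) (nat_lit 0) (nat_lit 0) (XT.lf (nat_lit 0) (nat_lit 690292897017) (nat_lit 152) (nat_lit 2983924789955) (nat_lit 0) (nat_lit 681244989500) (nat_lit 1) (nat_lit 5) (nat_lit 3) (nat_lit 4) (nat_lit 1) (nat_lit 4) (nat_lit 279) (nat_lit 217) (nat_lit 164)) (XT.lf (nat_lit 0) (nat_lit 802966980650) (nat_lit 152) (nat_lit 3411052230237) (nat_lit 0) (nat_lit 793918356627) (nat_lit 1) (nat_lit 5) (nat_lit 3) (nat_lit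 4) (nat_lit 1) (nat_lit 4) (nat_lit 280) (nat_lit 217) (nat_lit 163)))) (XT.nd (nat_lit 78) (nat_lit 0) (nat_lit 0) (XT.lf (nat_lit 0) (nat_lit 932540626743) (nat_lit 152) (nat_lit 3902251810610) (nat_lit 0) (nat_lit 923491379672) (nat_lit 1) (nat_lit 5) (nat_lit 3) (nat_lit 4) (nat_lit 1) (nat_lit 4) (nat_lit 281) (nat_lit 217) (nat_lit 162)) (XT.nd (nat_lit 78) (nat_lit 0) (nat_lit 0) (XT.lf (nat_lit 0) (nat_lit 1081548971851) (nat_lit 152) (nat_lit 4467133957648) (nat_lit 0) (nat_lit 1072499182998) (nat_lit 1) (nat_lit 5) (nat_lit 3) (nat_lit 4) (nat_lit 1) (nat_lit 4) (nat_lit 282) (nat_lit 217) (nat_lit 161)) (XT.lf (nat_lit 0) (nat_lit 1252907396638) (nat_lit 152) (nat_lit 5116750713357) (nat_lit 0) (nat_lit 1243857136671) (nat_lit 1) (nat_lit 5) (nat_lit 3) (nat_lit 4) (nat_lit 1) (nat_lit 4) (nat_lit 283) (nat_lit 217) (nat_lit 160)))))) (XT.nd (nat_lit 29952) (nat_lit 0) (nat_lit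 1596) (XT.nd (nat_lit 29718) (nat_lit 0) (nat_lit 3192) (XT.nd (nat_lit 78) (nat_lit 0) (nat_lit 0) (XT.lf (nat_lit 0) (nat_lit 1449968565937) (nat_lit 152) (nat_lit 5863811970785) (nat_lit 0) (nat_lit 1440917896306) (nat_lit 1) (nat_lit 5) (nat_lit 3) (nat_lit 4) (nat_lit 1) (nat_lit 4) (nat_lit 284) (nat_lit 217) (nat_lit 159)) (XT.nd (nat_lit 78) (nat_lit 0) (nat_lit 0) (XT.lf (nat_lit 0) (nat_lit 1676588024365) (nat_lit 152) (nat_lit 6722934145836) (nat_lit 0) (nat_lit 1667536998504) (nat_lit 1) (nat_lit 5) (nat_lit 3) (nat_lit 4) (nat_lit 1) (nat_lit 4) (nat_lit 285) (nat_lit 217) (nat_lit 158)) (XT.lf (nat_lit 0) (nat_lit 1937199630891) (nat_lit 152) (nat_lit 7710926150632) (nat_lit 0) (nat_lit 1928148295265) (nat_lit 1) (nat_lit 5) (nat_lit 3) (nat_lit 4) (nat_lit 1) (nat_lit 4) (nat_lit 286) (nat_lit 217) (nat_lit 157)))) (XT.nd (nat_lit 78) (nat_lit 912) (nat_lit 0) (XT.lf (nat_lit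 0) (nat_lit 52338641) (nat_lit 380) (nat_lit 3318359244) (nat_lit 0) (nat_lit 52338641) (nat_lit 55) (nat_lit 5) (nat_lit 60) (nat_lit 4) (nat_lit 55) (nat_lit 4) (nat_lit 224) (nat_lit 218) (nat_lit 218)) (XT.nd (nat_lit 78) (nat_lit 532) (nat_lit 0) (XT.lf (nat_lit 0) (nat_lit 1405545795) (nat_lit 380) (nat_lit 4422000110) (nat_lit 380) (nat_lit 1255610781) (nat_lit 50) (nat_lit 4) (nat_lit 55) (nat_lit 5) (nat_lit 55) (nat_lit 4) (nat_lit 225) (nat_lit 218) (nat_lit 217)) (XT.lf (nat_lit 0) (nat_lit 2883954796) (nat_lit 456) (nat_lit 1348605852) (nat_lit 532) (nat_lit 3162237315) (nat_lit 43) (nat_lit 5) (nat_lit 49) (nat_lit 5) (nat_lit 50) (nat_lit 4) (nat_lit 226) (nat_lit 218) (nat_lit 216))))) (XT.nd (nat_lit 234) (nat_lit 760) (nat_lit 0) (XT.nd (nat_lit 78) (nat_lit 532) (nat_lit 0) (XT.lf (nat_lit 0) (nat_lit 2159539308) (nat_lit 304) (nat_lit 3206321750) (nat_lit 76) (nat_lit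 2416019634) (nat_lit 39) (nat_lit 5) (nat_lit 43) (nat_lit 5) (nat_lit 40) (nat_lit 4) (nat_lit 227) (nat_lit 218) (nat_lit 215)) (XT.nd (nat_lit 78) (nat_lit 304) (nat_lit 0) (XT.lf (nat_lit 0) (nat_lit 6470375257) (nat_lit 228) (nat_lit 1268217269) (nat_lit 304) (nat_lit 512473258) (nat_lit 36) (nat_lit 5) (nat_lit 39) (nat_lit 5) (nat_lit 40) (nat_lit 4) (nat_lit 228) (nat_lit 218) (nat_lit 214)) (XT.lf (nat_lit 0) (nat_lit 4854324086) (nat_lit 304) (nat_lit 367994196) (nat_lit 76) (nat_lit 3579149078) (nat_lit 32) (nat_lit 5) (nat_lit 36) (nat_lit 5) (nat_lit 33) (nat_lit 4) (nat_lit 229) (nat_lit 218) (nat_lit 213)))) (XT.nd (nat_lit 78) (nat_lit 380) (nat_lit 0) (XT.lf (nat_lit 0) (nat_lit 1157592918) (nat_lit 152) (nat_lit 120101938) (nat_lit 228) (nat_lit 8170687639) (nat_lit 27) (nat_lit 5) (nat_lit 29) (nat_lit 5) (nat_lit 30) (nat_lit 5) (nat_lit 230) (nat_lit 218) (nat_lit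 212)) (XT.nd (nat_lit 78) (nat_lit 228) (nat_lit 0) (XT.lf (nat_lit 0) (nat_lit 2519550395) (nat_lit 152) (nat_lit 4473593677) (nat_lit 228) (nat_lit 3197043591) (nat_lit 25) (nat_lit 5) (nat_lit 27) (nat_lit 5) (nat_lit 28) (nat_lit 4) (nat_lit 231) (nat_lit 218) (nat_lit 211)) (XT.lf (nat_lit 0) (nat_lit 2266026344) (nat_lit 228) (nat_lit 7296978008) (nat_lit 76) (nat_lit 1486888721) (nat_lit 22) (nat_lit 5) (nat_lit 25) (nat_lit 5) (nat_lit 23) (nat_lit 4) (nat_lit 232) (nat_lit 218) (nat_lit 210))))))))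
noncomputable def xc21 : XT := (XT.nd (nat_lit 1872) (nat_lit 152) (nat_lit 0) (XT.nd (nat_lit 936) (nat_lit 304) (nat_lit 0) (XT.nd (nat_lit 468) (nat_lit 456) (nat_lit 0) (XT.nd (nat_lit 234) (nat_lit 304) (nat_lit 0) (XT.nd (nat_lit 78) (nat_lit 304) (nat_lit 0) (XT.lf (nat_lit 0) (nat_lit 4623430042) (nat_lit 76) (nat_lit 3739344471) (nat_lit 152) (nat_lit 3669767125) (nat_lit 21) (nat_lit 5) (nat_lit 22) (nat_lit 5) (nat_lit 23) (nat_lit 4) (nat_lit 233) (nat_lit 218) (nat_lit 209)) (XT.nd (nat_lit 78) (nat_lit 76) (nat_lit 0) (XT.lf (nat_lit 0) (nat_lit 2084956368) (nat_lit 228) (nat_lit 8101004304) (nat_lit 76) (nat_lit 2974375546) (nat_lit 18) (nat_lit 5) (nat_lit 21) (nat_lit 5) (nat_lit 19) (nat_lit 4) (nat_lit 234) (nat_lit 218) (nat_lit 208)) (XT.lf (nat_lit 0) (nat_lit 4781138278) (nat_lit 76) (nat_lit 3753252461) (nat_lit 152) (nat_lit 5912018813) (nat_lit 17) (nat_lit 5)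 (nat_lit 18) (nat_lit 5) (nat_lit 19) (nat_lit 4) (nat_lit 235) (nat_lit 218) (nat_lit 207)))) (XT.nd (nat_lit 78) (nat_lit 76) (nat_lit 0) (XT.lf (nat_lit 0) (nat_lit 77221869) (nat_lit 228) (nat_lit 12277892633) (nat_lit 76) (nat_lit 3566530301) (nat_lit 14) (nat_lit 5) (nat_lit 17) (nat_lit 5) (nat_lit 15) (nat_lit 4) (nat_lit 236) (nat_lit 218) (nat_lit 206)) (XT.nd (nat_lit 78) (nat_lit 0) (nat_lit 0) (XT.lf (nat_lit 0) (nat_lit 1132720663) (nat_lit 76) (nat_lit 5571213125) (nat_lit 152) (nat_lit 10895262492) (nat_lit 13) (nat_lit 5) (nat_lit 14) (nat_lit 5) (nat_lit 15) (nat_lit 4) (nat_lit 237) (nat_lit 218) (nat_lit 205)) (XT.lf (nat_lit 0) (nat_lit 14430433730) (nat_lit 152) (nat_lit 2822183519) (nat_lit 0) (nat_lit 2267689481) (nat_lit 13) (nat_lit 5) (nat_lit 15) (nat_lit 4) (nat_lit 13) (nat_lit 4) (nat_lit 238) (nat_lit 218) (nat_lit 204))))) (XT.nd (nat_lit 234) (nat_lit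 228) (nat_lit 0) (XT.nd (nat_lit 78) (nat_lit 76) (nat_lit 0) (XT.lf (nat_lit 0) (nat_lit 1701717507) (nat_lit 152) (nat_lit 8884284692) (nat_lit 76) (nat_lit 11125262698) (nat_lit 11) (nat_lit 5) (nat_lit 13) (nat_lit 5) (nat_lit 12) (nat_lit 4) (nat_lit 239) (nat_lit 218) (nat_lit 203)) (XT.nd (nat_lit 78) (nat_lit 0) (nat_lit 0) (XT.lf (nat_lit 0) (nat_lit 6494297355) (nat_lit 76) (nat_lit 2710130107) (nat_lit 152) (nat_lit 15016634492) (nat_lit 10) (nat_lit 5) (nat_lit 11) (nat_lit 5) (nat_lit 12) (nat_lit 4) (nat_lit 240) (nat_lit 218) (nat_lit 202)) (XT.lf (nat_lit 0) (nat_lit 18013994543) (nat_lit 152) (nat_lit 2961681039) (nat_lit 0) (nat_lit 6117373614) (nat_lit 10) (nat_lit 5) (nat_lit 12) (nat_lit 4) (nat_lit 10) (nat_lit 4) (nat_lit 241) (nat_lit 218) (nat_lit 201)))) (XT.nd (nat_lit 78) (nat_lit 152) (nat_lit 0) (XT.lf (nat_lit 0) (nat_lit 14280765021) (nat_lit 76) (nat_lit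 14076924632) (nat_lit 76) (nat_lit 2021335237) (nat_lit 9) (nat_lit 4) (nat_lit 10) (nat_lit 5) (nat_lit 10) (nat_lit 4) (nat_lit 242) (nat_lit 218) (nat_lit 200)) (XT.nd (nat_lit 78) (nat_lit 76) (nat_lit 0) (XT.lf (nat_lit 0) (nat_lit 5686398997) (nat_lit 152) (nat_lit 366112927) (nat_lit 76) (nat_lit 28102123396) (nat_lit 8) (nat_lit 5) (nat_lit 10) (nat_lit 5) (nat_lit 9) (nat_lit 4) (nat_lit 243) (nat_lit 218) (nat_lit 199)) (XT.lf (nat_lit 0) (nat_lit 14792223649) (nat_lit 152) (nat_lit 20281030442) (nat_lit 0) (nat_lit 3390347869) (nat_lit 7) (nat_lit 5) (nat_lit 9) (nat_lit 4) (nat_lit 7) (nat_lit 4) (nat_lit 244) (nat_lit 218) (nat_lit 198)))))) (XT.nd (nat_lit 468) (nat_lit 76) (nat_lit 0) (XT.nd (nat_lit 234) (nat_lit 152) (nat_lit 0) (XT.nd (nat_lit 78) (nat_lit 76) (nat_lit 0) (XT.lf (nat_lit 0) (nat_lit 25286976012) (nat_lit 152) (nat_lit 4341900126) (nat_lit 0) (nat_lit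 13788318430) (nat_lit 7) (nat_lit 5) (nat_lit 9) (nat_lit 4) (nat_lit 7) (nat_lit 4) (nat_lit 245) (nat_lit 218) (nat_lit 197)) (XT.nd (nat_lit 78) (nat_lit 0) (nat_lit 0) (XT.lf (nat_lit 0) (nat_lit 14457501474) (nat_lit 76) (nat_lit 23111117500) (nat_lit 76) (nat_lit 11528301829) (nat_lit 6) (nat_lit 4) (nat_lit 7) (nat_lit 5) (nat_lit 7) (nat_lit 4) (nat_lit 246) (nat_lit 218) (nat_lit 196)) (XT.lf (nat_lit 0) (nat_lit 36107409243) (nat_lit 76) (nat_lit 15588507702) (nat_lit 76) (nat_lit 3932511084) (nat_lit 6) (nat_lit 4) (nat_lit 7) (nat_lit 5) (nat_lit 7) (nat_lit 4) (nat_lit 247) (nat_lit 218) (nat_lit 195)))) (XT.nd (nat_lit 78) (nat_lit 76) (nat_lit 0) (XT.lf (nat_lit 0) (nat_lit 4452586421) (nat_lit 152) (nat_lit 2458252468) (nat_lit 76) (nat_lit 56228443542) (nat_lit 5) (nat_lit 5) (nat_lit 7) (nat_lit 5) (nat_lit 6) (nat_lit 4) (nat_lit 248) (nat_lit 218) (nat_lit 194)) (XT.nd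 (nat_lit 78) (nat_lit 0) (nat_lit 0) (XT.lf (nat_lit 0) (nat_lit 14286596861) (nat_lit 152) (nat_lit 54064294121) (nat_lit 0) (nat_lit 3383849144) (nat_lit 4) (nat_lit 5) (nat_lit 6) (nat_lit 4) (nat_lit 4) (nat_lit 4) (nat_lit 249) (nat_lit 218) (nat_lit 193)) (XT.lf (nat_lit 0) (nat_lit 25771372255) (nat_lit 152) (nat_lit 41010077678) (nat_lit 0) (nat_lit 14824071149) (nat_lit 4) (nat_lit 5) (nat_lit 6) (nat_lit 4) (nat_lit 4) (nat_lit 4) (nat_lit 250) (nat_lit 218) (nat_lit 192))))) (XT.nd (nat_lit 234) (nat_lit 0) (nat_lit 0) (XT.nd (nat_lit 78) (nat_lit 76) (nat_lit 0) (XT.lf (nat_lit 0) (nat_lit 38901558178) (nat_lit 152) (nat_lit 26146080631) (nat_lit 0) (nat_lit 27915514993) (nat_lit 4) (nat_lit 5) (nat_lit 6) (nat_lit 4) (nat_lit 4) (nat_lit 4) (nat_lit 251) (nat_lit 218) (nat_lit 191)) (XT.nd (nat_lit 78) (nat_lit 76) (nat_lit 0) (XT.lf (nat_lit 0) (nat_lit 53934049569) (nat_lit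 152) (nat_lit 9181485647) (nat_lit 0) (nat_lit 42914317621) (nat_lit 4) (nat_lit 5) (nat_lit 6) (nat_lit 4) (nat_lit 4) (nat_lit 4) (nat_lit 252) (nat_lit 218) (nat_lit 190)) (XT.lf (nat_lit 0) (nat_lit 10753559879) (nat_lit 76) (nat_lit 60668023886) (nat_lit 76) (nat_lit 49618997361) (nat_lit 3) (nat_lit 4) (nat_lit 4) (nat_lit 5) (nat_lit 4) (nat_lit 4) (nat_lit 253) (nat_lit 218) (nat_lit 189)))) (XT.nd (nat_lit 78) (nat_lit 0) (nat_lit 0) (XT.lf (nat_lit 0) (nat_lit 34132184874) (nat_lit 76) (nat_lit 57614073024) (nat_lit 76) (nat_lit 46539572954) (nat_lit 3) (nat_lit 4) (nat_lit 4) (nat_lit 5) (nat_lit 4) (nat_lit 4) (nat_lit 254) (nat_lit 218) (nat_lit 188)) (XT.nd (nat_lit 78) (nat_lit 0) (nat_lit 0) (XT.lf (nat_lit 0) (nat_lit 60928316453) (nat_lit 76) (nat_lit 54144969507) (nat_lit 76) (nat_lit 43048318529) (nat_lit 3) (nat_lit 4) (nat_lit 4) (nat_lit 5) (nat_lit 4) (nat_lit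 4) (nat_lit 255) (nat_lit 218) (nat_lit 187)) (XT.lf (nat_lit 0) (nat_lit 91666226757) (nat_lit 76) (nat_lit 50192839571) (nat_lit 76) (nat_lit 39076926933) (nat_lit 3) (nat_lit 4) (nat_lit 4) (nat_lit 5) (nat_lit 4) (nat_lit 4) (nat_lit 256) (nat_lit 218) (nat_lit 186))))))) (XT.nd (nat_lit 936) (nat_lit 0) (nat_lit 0) (XT.nd (nat_lit 468) (nat_lit 76) (nat_lit 0) (XT.nd (nat_lit 234) (nat_lit 76) (nat_lit 0) (XT.nd (nat_lit 78) (nat_lit 0) (nat_lit 0) (XT.lf (nat_lit 0) (nat_lit 126947309682) (nat_lit 76) (nat_lit 45680358934) (nat_lit 76) (nat_lit 34547697027) (nat_lit 3) (nat_lit 4) (nat_lit 4) (nat_lit 5) (nat_lit 4) (nat_lit 4) (nat_lit 257) (nat_lit 218) (nat_lit 185)) (XT.nd (nat_lit 78) (nat_lit 0) (nat_lit 0) (XT.lf (nat_lit 0) (nat_lit 167461847286) (nat_lit 76) (nat_lit 40519239932) (nat_lit 76) (nat_lit 29372013442) (nat_lit 3) (nat_lit 4) (nat_lit 4) (nat_lit 5) (nat_lit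 4) (nat_lit 4) (nat_lit 258) (nat_lit 218) (nat_lit 184)) (XT.lf (nat_lit 0) (nat_lit 214002515305) (nat_lit 76) (nat_lit 34608504149) (nat_lit 76) (nat_lit 23448612806) (nat_lit 3) (nat_lit 4) (nat_lit 4) (nat_lit 5) (nat_lit 4) (nat_lit 4) (nat_lit 259) (nat_lit 218) (nat_lit 183)))) (XT.nd (nat_lit 78) (nat_lit 76) (nat_lit 0) (XT.lf (nat_lit 0) (nat_lit 267479892025) (nat_lit 76) (nat_lit 27832506755) (nat_lit 76) (nat_lit 16661602495) (nat_lit 3) (nat_lit 4) (nat_lit 4) (nat_lit 5) (nat_lit 4) (nat_lit 4) (nat_lit 260) (nat_lit 218) (nat_lit 182)) (XT.nd (nat_lit 78) (nat_lit 76) (nat_lit 0) (XT.lf (nat_lit 0) (nat_lit 328940273948) (nat_lit 76) (nat_lit 20058673888) (nat_lit 76) (nat_lit 8878193179) (nat_lit 3) (nat_lit 4) (nat_lit 4) (nat_lit 5) (nat_lit 4) (nat_lit 4) (nat_lit 261) (nat_lit 218) (nat_lit 181)) (XT.lf (nat_lit 0) (nat_lit 51202979) (nat_lit 152) (nat_lit 11082305859)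 (nat_lit 76) (nat_lit 399533543848) (nat_lit 2) (nat_lit 5) (nat_lit 4) (nat_lit 5) (nat_lit 3) (nat_lit 4) (nat_lit 262) (nat_lit 218) (nat_lit 180))))) (XT.nd (nat_lit 234) (nat_lit 0) (nat_lit 0) (XT.nd (nat_lit 78) (nat_lit 0) (nat_lit 0) (XT.lf (nat_lit 0) (nat_lit 9658007479) (nat_lit 76) (nat_lit 367981321) (nat_lit 152) (nat_lit 461312489323) (nat_lit 1) (nat_lit 5) (nat_lit 2) (nat_lit 5) (nat_lit 3) (nat_lit 4) (nat_lit 263) (nat_lit 218) (nat_lit 179)) (XT.nd (nat_lit 78) (nat_lit 0) (nat_lit 0) (XT.lf (nat_lit 0) (nat_lit 22102415223) (nat_lit 152) (nat_lit 507229903159) (nat_lit 0) (nat_lit 11729872725) (nat_lit 1) (nat_lit 5) (nat_lit 3) (nat_lit 4) (nat_lit 1) (nat_lit 4) (nat_lit 264) (nat_lit 218) (nat_lit 178)) (XT.lf (nat_lit 0) (nat_lit 35987869929) (nat_lit 152) (nat_lit 559646534881) (nat_lit 0) (nat_lit 25610257647) (nat_lit 1) (nat_lit 5) (nat_lit 3) (nat_lit 4)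 (nat_lit 1) (nat_lit 4) (nat_lit 265) (nat_lit 218) (nat_lit 177)))) (XT.nd (nat_lit 78) (nat_lit 0) (nat_lit 0) (XT.lf (nat_lit 0) (nat_lit 51945174898) (nat_lit 152) (nat_lit 619947058645) (nat_lit 0) (nat_lit 41563154109) (nat_lit 1) (nat_lit 5) (nat_lit 3) (nat_lit 4) (nat_lit 1) (nat_lit 4) (nat_lit 266) (nat_lit 218) (nat_lit 176)) (XT.nd (nat_lit 78) (nat_lit 0) (nat_lit 0) (XT.lf (nat_lit 0) (nat_lit 70286538270) (nat_lit 152) (nat_lit 689311267308) (nat_lit 0) (nat_lit 59900683997) (nat_lit 1) (nat_lit 5) (nat_lit 3) (nat_lit 4) (nat_lit 1) (nat_lit 4) (nat_lit 267) (nat_lit 218) (nat_lit 175)) (XT.lf (nat_lit 0) (nat_lit 91370812809) (nat_lit 152) (nat_lit 769096286692) (nat_lit 0) (nat_lit 80981625071) (nat_lit 1) (nat_lit 5) (nat_lit 3) (nat_lit 4) (nat_lit 1) (nat_lit 4) (nat_lit 268) (nat_lit 218) (nat_lit 174)))))) (XT.nd (nat_lit 468) (nat_lit 0) (nat_lit 0) (XT.nd (nat_lit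 234) (nat_lit 0) (nat_lit 0) (XT.nd (nat_lit 78) (nat_lit 0) (nat_lit 0) (XT.lf (nat_lit 0) (nat_lit 115610516928) (nat_lit 152) (nat_lit 860863128044) (nat_lit 0) (nat_lit 105218430525) (nat_lit 1) (nat_lit 5) (nat_lit 3) (nat_lit 4) (nat_lit 1) (nat_lit 4) (nat_lit 269) (nat_lit 218) (nat_lit 173)) (XT.nd (nat_lit 78) (nat_lit 0) (nat_lit 0) (XT.lf (nat_lit 0) (nat_lit 143479905708) (nat_lit 152) (nat_lit 966407229566) (nat_lit 0) (nat_lit 133085298727) (nat_lit 1) (nat_lit 5) (nat_lit 3) (nat_lit 4) (nat_lit 1) (nat_lit 4) (nat_lit 270) (nat_lit 218) (nat_lit 172)) (XT.lf (nat_lit 0) (nat_lit 175524249800) (nat_lit 152) (nat_lit 1087793584548) (nat_lit 0) (nat_lit 165127451011) (nat_lit 1) (nat_lit 5) (nat_lit 3) (nat_lit 4) (nat_lit 1) (nat_lit 4) (nat_lit 271) (nat_lit 218) (nat_lit 171)))) (XT.nd (nat_lit 78) (nat_lit 0) (nat_lit 0) (XT.lf (nat_lit 0) (nat_lit 212370503761) (nat_lit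 152) (nat_lit 1227397143414) (nat_lit 0) (nat_lit 201971799053) (nat_lit 1) (nat_lit 5) (nat_lit 3) (nat_lit 4) (nat_lit 1) (nat_lit 4) (nat_lit 272) (nat_lit 218) (nat_lit 170)) (XT.nd (nat_lit 78) (nat_lit 0) (nat_lit 0) (XT.lf (nat_lit 0) (nat_lit 254739572560) (nat_lit 152) (nat_lit 1387949280141) (nat_lit 0) (nat_lit 244339210531) (nat_lit 1) (nat_lit 5) (nat_lit 3) (nat_lit 4) (nat_lit 1) (nat_lit 4) (nat_lit 273) (nat_lit 218) (nat_lit 169)) (XT.lf (nat_lit 0) (nat_lit 303460416240) (nat_lit 152) (nat_lit 1572591232187) (nat_lit 0) (nat_lit 293058613062) (nat_lit 1) (nat_lit 5) (nat_lit 3) (nat_lit 4) (nat_lit 1) (nat_lit 4) (nat_lit 274) (nat_lit 218) (nat_lit 168))))) (XT.nd (nat_lit 234) (nat_lit 0) (nat_lit 0) (XT.nd (nat_lit 78) (nat_lit 0) (nat_lit 0) (XT.lf (nat_lit 0) (nat_lit 359486268697) (nat_lit 152) (nat_lit 1784935559484) (nat_lit 0) (nat_lit 349083212347) (nat_lit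 1) (nat_lit 5) (nat_lit 3) (nat_lit 4) (nat_lit 1) (nat_lit 4) (nat_lit 275) (nat_lit 218) (nat_lit 167)) (XT.nd (nat_lit 78) (nat_lit 0) (nat_lit 0) (XT.lf (nat_lit 0) (nat_lit 423913287916) (nat_lit 152) (nat_lit 2029136824957) (nat_lit 0) (nat_lit 413509141850) (nat_lit 1) (nat_lit 5) (nat_lit 3) (nat_lit 4) (nat_lit 1) (nat_lit 4) (nat_lit 276) (nat_lit 218) (nat_lit 166)) (XT.lf (nat_lit 0) (nat_lit 498002002532) (nat_lit 152) (nat_lit 2309972879452) (nat_lit 0) (nat_lit 487596908887) (nat_lit 1) (nat_lit 5) (nat_lit 3) (nat_lit 4) (nat_lit 1) (nat_lit 4) (nat_lit 277) (nat_lit 218) (nat_lit 165)))) (XT.nd (nat_lit 78) (nat_lit 0) (nat_lit 0) (XT.lf (nat_lit 0) (nat_lit 583201974354) (nat_lit 152) (nat_lit 2632938341427) (nat_lit 0) (nat_lit 572796056728) (nat_lit 1) (nat_lit 5) (nat_lit 3) (nat_lit 4) (nat_lit 1) (nat_lit 4) (nat_lit 278) (nat_lit 218) (nat_lit 164)) (XT.nd (nat_lit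 78) (nat_lit 0) (nat_lit 0) (XT.lf (nat_lit 0) (nat_lit 681180159352) (nat_lit 152) (nat_lit 3004352100355) (nat_lit 0) (nat_lit 670773525220) (nat_lit 1) (nat_lit 5) (nat_lit 3) (nat_lit 4) (nat_lit 1) (nat_lit 4) (nat_lit 279) (nat_lit 218) (nat_lit 163)) (XT.lf (nat_lit 0) (nat_lit 793853522016) (nat_lit 152) (nat_lit 3431480947171) (nat_lit 0) (nat_lit 783446264835) (nat_lit 1) (nat_lit 5) (nat_lit 3) (nat_lit 4) (nat_lit 1) (nat_lit 4) (nat_lit 280) (nat_lit 218) (nat_lit 162))))))))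
noncomputable def xc22 : XT := (XT.nd (nat_lit 31200) (nat_lit 0) (nat_lit 76) (XT.nd (nat_lit 30264) (nat_lit 0) (nat_lit 836) (XT.nd (nat_lit 29796) (nat_lit 0) (nat_lit 2888) (XT.nd (nat_lit 234) (nat_lit 0) (nat_lit 0) (XT.nd (nat_lit 78) (nat_lit 0) (nat_lit 0) (XT.lf (nat_lit 0) (nat_lit 923426541179) (nat_lit 152) (nat_lit 3922681750619) (nat_lit 0) (nat_lit 913018742217) (nat_lit 1) (nat_lit 5) (nat_lit 3) (nat_lit 4) (nat_lit 1) (nat_lit 4) (nat_lit 281) (nat_lit 218) (nat_lit 161)) (XT.nd (nat_lit 78) (nat_lit 0) (nat_lit 0) (XT.lf (nat_lit 0) (nat_lit 1072434341130) (nat_lit 152) (nat_lit 4487564961199) (nat_lit 0) (nat_lit 1062026071054) (nat_lit 1) (nat_lit 5) (nat_lit 3) (nat_lit 4) (nat_lit 1) (nat_lit 4) (nat_lit 282) (nat_lit 218) (nat_lit 160)) (XT.lf (nat_lit 0) (nat_lit 1243792291867) (nat_lit 152) (nat_lit 5137182641727) (nat_lit 0) (nat_lit 1233383612127) (nat_lit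 1) (nat_lit 5) (nat_lit 3) (nat_lit 4) (nat_lit 1) (nat_lit 4) (nat_lit 283) (nat_lit 218) (nat_lit 159)))) (XT.nd (nat_lit 78) (nat_lit 0) (nat_lit 0) (XT.lf (nat_lit 0) (nat_lit 1440853048950) (nat_lit 152) (nat_lit 5884244703345) (nat_lit 0) (nat_lit 1430444012980) (nat_lit 1) (nat_lit 5) (nat_lit 3) (nat_lit 4) (nat_lit 1) (nat_lit 4) (nat_lit 284) (nat_lit 218) (nat_lit 158)) (XT.nd (nat_lit 78) (nat_lit 0) (nat_lit 0) (XT.lf (nat_lit 0) (nat_lit 1667472148929) (nat_lit 152) (nat_lit 6743367577693) (nat_lit 0) (nat_lit 1657062803193) (nat_lit 1) (nat_lit 5) (nat_lit 3) (nat_lit 4) (nat_lit 1) (nat_lit 4) (nat_lit 285) (nat_lit 218) (nat_lit 157)) (XT.lf (nat_lit 0) (nat_lit 1928083443760) (nat_lit 152) (nat_lit 7731360190573) (nat_lit 0) (nat_lit 1917673828664) (nat_lit 1) (nat_lit 5) (nat_lit 3) (nat_lit 4) (nat_lit 1) (nat_lit 4) (nat_lit 286) (nat_lit 218) (nat_lit 156))))) (XT.nd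 (nat_lit 234) (nat_lit 1520) (nat_lit 0) (XT.nd (nat_lit 78) (nat_lit 532) (nat_lit 0) (XT.lf (nat_lit 0) (nat_lit 2812373947) (nat_lit 76) (nat_lit 228933927) (nat_lit 76) (nat_lit 228933927) (nat_lit 66) (nat_lit 4) (nat_lit 67) (nat_lit 5) (nat_lit 67) (nat_lit 4) (nat_lit 222) (nat_lit 219) (nat_lit 219)) (XT.nd (nat_lit 78) (nat_lit 304) (nat_lit 0) (XT.lf (nat_lit 0) (nat_lit 4942586880) (nat_lit 228) (nat_lit 720725996) (nat_lit 0) (nat_lit 1009931334) (nat_lit 63) (nat_lit 5) (nat_lit 66) (nat_lit 4) (nat_lit 63) (nat_lit 4) (nat_lit 223) (nat_lit 219) (nat_lit 218)) (XT.lf (nat_lit 0) (nat_lit 3417058950) (nat_lit 304) (nat_lit 244873403) (nat_lit 76) (nat_lit 3212364629) (nat_lit 59) (nat_lit 5) (nat_lit 63) (nat_lit 5) (nat_lit 60) (nat_lit 4) (nat_lit 224) (nat_lit 219) (nat_lit 217)))) (XT.nd (nat_lit 78) (nat_lit 760) (nat_lit 0) (XT.lf (nat_lit 0) (nat_lit 540530498) (nat_lit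 380) (nat_lit 912501393) (nat_lit 456) (nat_lit 5693904047) (nat_lit 49) (nat_lit 5) (nat_lit 54) (nat_lit 5) (nat_lit 55) (nat_lit 5) (nat_lit 225) (nat_lit 219) (nat_lit 216)) (XT.nd (nat_lit 78) (nat_lit 304) (nat_lit 0) (XT.lf (nat_lit 0) (nat_lit 1535905593) (nat_lit 456) (nat_lit 4950281865) (nat_lit 532) (nat_lit 1002685275) (nat_lit 43) (nat_lit 5) (nat_lit 49) (nat_lit 5) (nat_lit 50) (nat_lit 4) (nat_lit 226) (nat_lit 219) (nat_lit 215)) (XT.lf (nat_lit 0) (nat_lit 2719504570) (nat_lit 228) (nat_lit 1073899385) (nat_lit 304) (nat_lit 4112883955) (nat_lit 39) (nat_lit 5) (nat_lit 42) (nat_lit 5) (nat_lit 43) (nat_lit 5) (nat_lit 227) (nat_lit 219) (nat_lit 214)))))) (XT.nd (nat_lit 468) (nat_lit 760) (nat_lit 0) (XT.nd (nat_lit 234) (nat_lit 532) (nat_lit 0) (XT.nd (nat_lit 78) (nat_lit 456) (nat_lit 0) (XT.lf (nat_lit 0) (nat_lit 575521427) (nat_lit 304) (nat_lit 4350516871)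 (nat_lit 76) (nat_lit 3478109049) (nat_lit 35) (nat_lit 5) (nat_lit 39) (nat_lit 5) (nat_lit 36) (nat_lit 5) (nat_lit 228) (nat_lit 219) (nat_lit 213)) (XT.nd (nat_lit 78) (nat_lit 228) (nat_lit 0) (XT.lf (nat_lit 0) (nat_lit 5483855819) (nat_lit 228) (nat_lit 12991781) (nat_lit 304) (nat_lit 3491054643) (nat_lit 32) (nat_lit 5) (nat_lit 35) (nat_lit 5) (nat_lit 36) (nat_lit 5) (nat_lit 229) (nat_lit 219) (nat_lit 212)) (XT.lf (nat_lit 0) (nat_lit 1356038830) (nat_lit 228) (nat_lit 2736455369) (nat_lit 76) (nat_lit 5570445884) (nat_lit 29) (nat_lit 5) (nat_lit 32) (nat_lit 5) (nat_lit 30) (nat_lit 5) (nat_lit 230) (nat_lit 219) (nat_lit 211)))) (XT.nd (nat_lit 78) (nat_lit 380) (nat_lit 0) (XT.lf (nat_lit 0) (nat_lit 6621577938) (nat_lit 228) (nat_lit 2088874945) (nat_lit 76) (nat_lit 1730812031) (nat_lit 27) (nat_lit 5) (nat_lit 30) (nat_lit 5) (nat_lit 28) (nat_lit 4) (nat_lit 231)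 (nat_lit 219) (nat_lit 210)) (XT.nd (nat_lit 78) (nat_lit 152) (nat_lit 0) (XT.lf (nat_lit 0) (nat_lit 1285015422) (nat_lit 228) (nat_lit 1659140083) (nat_lit 76) (nat_lit 8389598157) (nat_lit 24) (nat_lit 5) (nat_lit 27) (nat_lit 5) (nat_lit 25) (nat_lit 5) (nat_lit 232) (nat_lit 219) (nat_lit 209)) (XT.lf (nat_lit 0) (nat_lit 6968232068) (nat_lit 228) (nat_lit 1615307218) (nat_lit 76) (nat_lit 3766314330) (nat_lit 22) (nat_lit 5) (nat_lit 25) (nat_lit 5) (nat_lit 23) (nat_lit 4) (nat_lit 233) (nat_lit 219) (nat_lit 208))))) (XT.nd (nat_lit 234) (nat_lit 380) (nat_lit 0) (XT.nd (nat_lit 78) (nat_lit 228) (nat_lit 0) (XT.lf (nat_lit 0) (nat_lit 42816622) (nat_lit 152) (nat_lit 1996094043) (nat_lit 76) (nat_lit 11475601674) (nat_lit 20) (nat_lit 5) (nat_lit 22) (nat_lit 5) (nat_lit 21) (nat_lit 5) (nat_lit 234) (nat_lit 219) (nat_lit 207)) (XT.nd (nat_lit 78) (nat_lit 76) (nat_lit 0) (XT.lf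 (nat_lit 0) (nat_lit 6115774094) (nat_lit 228) (nat_lit 3191025213) (nat_lit 76) (nat_lit 5524162773) (nat_lit 18) (nat_lit 5) (nat_lit 21) (nat_lit 5) (nat_lit 19) (nat_lit 4) (nat_lit 235) (nat_lit 219) (nat_lit 206)) (XT.lf (nat_lit 0) (nat_lit 11104977031) (nat_lit 76) (nat_lit 2077520880) (nat_lit 152) (nat_lit 3156238381) (nat_lit 17) (nat_lit 5) (nat_lit 18) (nat_lit 5) (nat_lit 19) (nat_lit 4) (nat_lit 236) (nat_lit 219) (nat_lit 205)))) (XT.nd (nat_lit 78) (nat_lit 152) (nat_lit 0) (XT.lf (nat_lit 0) (nat_lit 3277473717) (nat_lit 228) (nat_lit 8613285195) (nat_lit 76) (nat_lit 6159853291) (nat_lit 14) (nat_lit 5) (nat_lit 17) (nat_lit 5) (nat_lit 15) (nat_lit 4) (nat_lit 237) (nat_lit 219) (nat_lit 204)) (XT.nd (nat_lit 78) (nat_lit 76) (nat_lit 0) (XT.lf (nat_lit 0) (nat_lit 6342839960) (nat_lit 76) (nat_lit 4260656374) (nat_lit 152) (nat_lit 9400421733) (nat_lit 13) (nat_lit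 5) (nat_lit 14) (nat_lit 5) (nat_lit 15) (nat_lit 4) (nat_lit 238) (nat_lit 219) (nat_lit 203)) (XT.lf (nat_lit 0) (nat_lit 1365173284) (nat_lit 76) (nat_lit 17824040190) (nat_lit 76) (nat_lit 3048436997) (nat_lit 12) (nat_lit 4) (nat_lit 13) (nat_lit 5) (nat_lit 13) (nat_lit 4) (nat_lit 239) (nat_lit 219) (nat_lit 202))))))) (XT.nd (nat_lit 936) (nat_lit 152) (nat_lit 0) (XT.nd (nat_lit 468) (nat_lit 228) (nat_lit 0) (XT.nd (nat_lit 234) (nat_lit 152) (nat_lit 0) (XT.nd (nat_lit 78) (nat_lit 152) (nat_lit 0) (XT.lf (nat_lit 0) (nat_lit 4347325250) (nat_lit 152) (nat_lit 5930605505) (nat_lit 76) (nat_lit 14496247483) (nat_lit 11) (nat_lit 5) (nat_lit 13) (nat_lit 5) (nat_lit 12) (nat_lit 4) (nat_lit 240) (nat_lit 219) (nat_lit 201)) (XT.nd (nat_lit 78) (nat_lit 76) (nat_lit 0) (XT.lf (nat_lit 0) (nat_lit 11391948051) (nat_lit 76) (nat_lit 1366069267) (nat_lit 152) (nat_lit 14920153886)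 (nat_lit 10) (nat_lit 5) (nat_lit 11) (nat_lit 5) (nat_lit 12) (nat_lit 4) (nat_lit 241) (nat_lit 219) (nat_lit 200)) (XT.lf (nat_lit 0) (nat_lit 128727710) (nat_lit 76) (nat_lit 22516572558) (nat_lit 76) (nat_lit 8355442840) (nat_lit 9) (nat_lit 4) (nat_lit 10) (nat_lit 5) (nat_lit 10) (nat_lit 4) (nat_lit 242) (nat_lit 219) (nat_lit 199)))) (XT.nd (nat_lit 78) (nat_lit 152) (nat_lit 0) (XT.lf (nat_lit 0) (nat_lit 19652454827) (nat_lit 76) (nat_lit 14711438447) (nat_lit 76) (nat_lit 430105730) (nat_lit 9) (nat_lit 4) (nat_lit 10) (nat_lit 5) (nat_lit 10) (nat_lit 4) (nat_lit 243) (nat_lit 219) (nat_lit 198)) (XT.nd (nat_lit 78) (nat_lit 0) (nat_lit 0) (XT.lf (nat_lit 0) (nat_lit 2601172709) (nat_lit 76) (nat_lit 5565668527) (nat_lit 152) (nat_lit 30979441674) (nat_lit 7) (nat_lit 5) (nat_lit 8) (nat_lit 5) (nat_lit 9) (nat_lit 4) (nat_lit 244) (nat_lit 219) (nat_lit 197)) (XT.lf (nat_lit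 0) (nat_lit 18464936573) (nat_lit 152) (nat_lit 20590181722) (nat_lit 0) (nat_lit 5060540462) (nat_lit 7) (nat_lit 5) (nat_lit 9) (nat_lit 4) (nat_lit 7) (nat_lit 4) (nat_lit 245) (nat_lit 219) (nat_lit 196))))) (XT.nd (nat_lit 234) (nat_lit 152) (nat_lit 0) (XT.nd (nat_lit 78) (nat_lit 76) (nat_lit 0) (XT.lf (nat_lit 0) (nat_lit 30344265351) (nat_lit 152) (nat_lit 2616660548) (nat_lit 0) (nat_lit 16866688293) (nat_lit 7) (nat_lit 5) (nat_lit 9) (nat_lit 4) (nat_lit 7) (nat_lit 4) (nat_lit 246) (nat_lit 219) (nat_lit 195)) (XT.nd (nat_lit 78) (nat_lit 0) (nat_lit 0) (XT.lf (nat_lit 0) (nat_lit 18801490321) (nat_lit 76) (nat_lit 25554080731) (nat_lit 76) (nat_lit 12012868066) (nat_lit 6) (nat_lit 4) (nat_lit 7) (nat_lit 5) (nat_lit 7) (nat_lit 4) (nat_lit 247) (nat_lit 219) (nat_lit 194)) (XT.lf (nat_lit 0) (nat_lit 43415141174) (nat_lit 76) (nat_lit 17036606123) (nat_lit 76) (nat_lit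 3440058149) (nat_lit 6) (nat_lit 4) (nat_lit 7) (nat_lit 5) (nat_lit 7) (nat_lit 4) (nat_lit 248) (nat_lit 219) (nat_lit 193)))) (XT.nd (nat_lit 78) (nat_lit 76) (nat_lit 0) (XT.lf (nat_lit 0) (nat_lit 6014550112) (nat_lit 152) (nat_lit 1134401400) (nat_lit 76) (nat_lit 65389076160) (nat_lit 5) (nat_lit 5) (nat_lit 7) (nat_lit 5) (nat_lit 6) (nat_lit 4) (nat_lit 249) (nat_lit 219) (nat_lit 192)) (XT.nd (nat_lit 78) (nat_lit 0) (nat_lit 0) (XT.lf (nat_lit 0) (nat_lit 17261971902) (nat_lit 152) (nat_lit 60576568182) (nat_lit 0) (nat_lit 4589280162) (nat_lit 4) (nat_lit 5) (nat_lit 6) (nat_lit 4) (nat_lit 4) (nat_lit 4) (nat_lit 250) (nat_lit 219) (nat_lit 191)) (XT.lf (nat_lit 0) (nat_lit 30360891583) (nat_lit 152) (nat_lit 45772571889) (nat_lit 0) (nat_lit 17654511080) (nat_lit 4) (nat_lit 5) (nat_lit 6) (nat_lit 4) (nat_lit 4) (nat_lit 4) (nat_lit 251) (nat_lit 219) (nat_lit 190))))))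 (XT.nd (nat_lit 468) (nat_lit 76) (nat_lit 0) (XT.nd (nat_lit 234) (nat_lit 0) (nat_lit 0) (XT.nd (nat_lit 78) (nat_lit 76) (nat_lit 0) (XT.lf (nat_lit 0) (nat_lit 45366194938) (nat_lit 152) (nat_lit 28860151473) (nat_lit 0) (nat_lit 32630519858) (nat_lit 4) (nat_lit 5) (nat_lit 6) (nat_lit 4) (nat_lit 4) (nat_lit 4) (nat_lit 252) (nat_lit 219) (nat_lit 189)) (XT.nd (nat_lit 78) (nat_lit 76) (nat_lit 0) (XT.lf (nat_lit 0) (nat_lit 62571463990) (nat_lit 152) (nat_lit 9508411753) (nat_lit 0) (nat_lit 49810315365) (nat_lit 4) (nat_lit 5) (nat_lit 6) (nat_lit 4) (nat_lit 4) (nat_lit 4) (nat_lit 253) (nat_lit 219) (nat_lit 188)) (XT.lf (nat_lit 0) (nat_lit 13327988215) (nat_lit 76) (nat_lit 69305873791) (nat_lit 76) (nat_lit 56522574257) (nat_lit 3) (nat_lit 4) (nat_lit 4) (nat_lit 5) (nat_lit 4) (nat_lit 4) (nat_lit 254) (nat_lit 219) (nat_lit 187)))) (XT.nd (nat_lit 78) (nat_lit 0) (nat_lit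 0) (XT.lf (nat_lit 0) (nat_lit 40088007695) (nat_lit 76) (nat_lit 65854137301) (nat_lit 76) (nat_lit 53051576107) (nat_lit 3) (nat_lit 4) (nat_lit 4) (nat_lit 5) (nat_lit 4) (nat_lit 4) (nat_lit 255) (nat_lit 219) (nat_lit 186)) (XT.nd (nat_lit 78) (nat_lit 0) (nat_lit 0) (XT.lf (nat_lit 0) (nat_lit 70794516174) (nat_lit 76) (nat_lit 61917109128) (nat_lit 76) (nat_lit 49097798665) (nat_lit 3) (nat_lit 4) (nat_lit 4) (nat_lit 5) (nat_lit 4) (nat_lit 4) (nat_lit 256) (nat_lit 219) (nat_lit 185)) (XT.lf (nat_lit 0) (nat_lit 106048293164) (nat_lit 76) (nat_lit 57417760458) (nat_lit 76) (nat_lit 44583885413) (nat_lit 3) (nat_lit 4) (nat_lit 4) (nat_lit 5) (nat_lit 4) (nat_lit 4) (nat_lit 257) (nat_lit 219) (nat_lit 184))))) (XT.nd (nat_lit 234) (nat_lit 76) (nat_lit 0) (XT.nd (nat_lit 78) (nat_lit 0) (nat_lit 0) (XT.lf (nat_lit 0) (nat_lit 146539086477) (nat_lit 76) (nat_lit 52268060558) (nat_lit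 76) (nat_lit 39421520659) (nat_lit 3) (nat_lit 4) (nat_lit 4) (nat_lit 5) (nat_lit 4) (nat_lit 4) (nat_lit 258) (nat_lit 219) (nat_lit 183)) (XT.nd (nat_lit 78) (nat_lit 0) (nat_lit 0) (XT.lf (nat_lit 0) (nat_lit 193059107286) (nat_lit 76) (nat_lit 46367254430) (nat_lit 76) (nat_lit 33509701614) (nat_lit 3) (nat_lit 4) (nat_lit 4) (nat_lit 5) (nat_lit 4) (nat_lit 4) (nat_lit 259) (nat_lit 219) (nat_lit 182)) (XT.lf (nat_lit 0) (nat_lit 246518529910) (nat_lit 76) (nat_lit 39599891518) (nat_lit 76) (nat_lit 26732762253) (nat_lit 3) (nat_lit 4) (nat_lit 4) (nat_lit 5) (nat_lit 4) (nat_lit 4) (nat_lit 260) (nat_lit 219) (nat_lit 181)))) (XT.nd (nat_lit 78) (nat_lit 76) (nat_lit 0) (XT.lf (nat_lit 0) (nat_lit 307963299576) (nat_lit 76) (nat_lit 31833566896) (nat_lit 76) (nat_lit 18958110284) (nat_lit 3) (nat_lit 4) (nat_lit 4) (nat_lit 5) (nat_lit 4) (nat_lit 4) (nat_lit 261) (nat_lit 219)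 (nat_lit 180)) (XT.nd (nat_lit 78) (nat_lit 76) (nat_lit 0) (XT.lf (nat_lit 0) (nat_lit 378595596560) (nat_lit 76) (nat_lit 22916330734) (nat_lit 76) (nat_lit 10033632951) (nat_lit 3) (nat_lit 4) (nat_lit 4) (nat_lit 5) (nat_lit 4) (nat_lit 4) (nat_lit 262) (nat_lit 219) (nat_lit 179)) (XT.lf (nat_lit 0) (nat_lit 204509952) (nat_lit 152) (nat_lit 12463613752) (nat_lit 76) (nat_lit 459587255489) (nat_lit 2) (nat_lit 5) (nat_lit 4) (nat_lit 5) (nat_lit 3) (nat_lit 4) (nat_lit 263) (nat_lit 219) (nat_lit 178))))))))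
noncomputable def xc23 : XT := (XT.nd (nat_lit 31044) (nat_lit 0) (nat_lit 456) (XT.nd (nat_lit 936) (nat_lit 0) (nat_lit 0) (XT.nd (nat_lit 468) (nat_lit 0) (nat_lit 0) (XT.nd (nat_lit 234) (nat_lit 0) (nat_lit 0) (XT.nd (nat_lit 78) (nat_lit 0) (nat_lit 0) (XT.lf (nat_lit 0) (nat_lit 11363958121) (nat_lit 76) (nat_lit 298747619) (nat_lit 152) (nat_lit 530365847941) (nat_lit 1) (nat_lit 5) (nat_lit 2) (nat_lit 5) (nat_lit 3) (nat_lit 4) (nat_lit 264) (nat_lit 219) (nat_lit 177)) (XT.nd (nat_lit 78) (nat_lit 0) (nat_lit 0) (XT.lf (nat_lit 0) (nat_lit 25535874190) (nat_lit 152) (nat_lit 583083994621) (nat_lit 0) (nat_lit 13592141775) (nat_lit 1) (nat_lit 5) (nat_lit 3) (nat_lit 4) (nat_lit 1) (nat_lit 4) (nat_lit 265) (nat_lit 219) (nat_lit 176)) (XT.lf (nat_lit 0) (nat_lit 41488743186) (nat_lit 152) (nat_lit 643393172494) (nat_lit 0) (nat_lit 29541177287) (nat_lit 1) (nat_lit 5) (nat_lit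 3) (nat_lit 4) (nat_lit 1) (nat_lit 4) (nat_lit 266) (nat_lit 219) (nat_lit 175)))) (XT.nd (nat_lit 78) (nat_lit 0) (nat_lit 0) (XT.lf (nat_lit 0) (nat_lit 59826249191) (nat_lit 152) (nat_lit 712764906469) (nat_lit 0) (nat_lit 47875349828) (nat_lit 1) (nat_lit 5) (nat_lit 3) (nat_lit 4) (nat_lit 1) (nat_lit 4) (nat_lit 267) (nat_lit 219) (nat_lit 174)) (XT.nd (nat_lit 78) (nat_lit 0) (nat_lit 0) (XT.lf (nat_lit 0) (nat_lit 80907169497) (nat_lit 152) (nat_lit 792556469602) (nat_lit 0) (nat_lit 68953371469) (nat_lit 1) (nat_lit 5) (nat_lit 3) (nat_lit 4) (nat_lit 1) (nat_lit 4) (nat_lit 268) (nat_lit 219) (nat_lit 173)) (XT.lf (nat_lit 0) (nat_lit 105143956892) (nat_lit 152) (nat_lit 884329001171) (nat_lit 0) (nat_lit 93187638285) (nat_lit 1) (nat_lit 5) (nat_lit 3) (nat_lit 4) (nat_lit 1) (nat_lit 4) (nat_lit 269) (nat_lit 219) (nat_lit 172))))) (XT.nd (nat_lit 234) (nat_lit 0) (nat_lit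 0) (XT.nd (nat_lit 78) (nat_lit 0) (nat_lit 0) (XT.lf (nat_lit 0) (nat_lit 133010809390) (nat_lit 152) (nat_lit 989878050708) (nat_lit 0) (nat_lit 121052298977) (nat_lit 1) (nat_lit 5) (nat_lit 3) (nat_lit 4) (nat_lit 1) (nat_lit 4) (nat_lit 270) (nat_lit 219) (nat_lit 171)) (XT.nd (nat_lit 78) (nat_lit 0) (nat_lit 0) (XT.lf (nat_lit 0) (nat_lit 165052948020) (nat_lit 152) (nat_lit 1111268708311) (nat_lit 0) (nat_lit 153092531686) (nat_lit 1) (nat_lit 5) (nat_lit 3) (nat_lit 4) (nat_lit 1) (nat_lit 4) (nat_lit 271) (nat_lit 219) (nat_lit 170)) (XT.lf (nat_lit 0) (nat_lit 201897284187) (nat_lit 152) (nat_lit 1250876008587) (nat_lit 0) (nat_lit 189935210533) (nat_lit 1) (nat_lit 5) (nat_lit 3) (nat_lit 4) (nat_lit 1) (nat_lit 4) (nat_lit 272) (nat_lit 219) (nat_lit 169)))) (XT.nd (nat_lit 78) (nat_lit 0) (nat_lit 0) (XT.lf (nat_lit 0) (nat_lit 244264685340) (nat_lit 152) (nat_lit 1411431398714)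 (nat_lit 0) (nat_lit 232301170537) (nat_lit 1) (nat_lit 5) (nat_lit 3) (nat_lit 4) (nat_lit 1) (nat_lit 4) (nat_lit 273) (nat_lit 219) (nat_lit 168)) (XT.nd (nat_lit 78) (nat_lit 0) (nat_lit 0) (XT.lf (nat_lit 0) (nat_lit 292984078892) (nat_lit 152) (nat_lit 1596076179804) (nat_lit 0) (nat_lit 281019310916) (nat_lit 1) (nat_lit 5) (nat_lit 3) (nat_lit 4) (nat_lit 1) (nat_lit 4) (nat_lit 274) (nat_lit 219) (nat_lit 167)) (XT.lf (nat_lit 0) (nat_lit 349008670369) (nat_lit 152) (nat_lit 1808422967139) (nat_lit 0) (nat_lit 337042812678) (nat_lit 1) (nat_lit 5) (nat_lit 3) (nat_lit 4) (nat_lit 1) (nat_lit 4) (nat_lit 275) (nat_lit 219) (nat_lit 166)))))) (XT.nd (nat_lit 468) (nat_lit 0) (nat_lit 0) (XT.nd (nat_lit 234) (nat_lit 0) (nat_lit 0) (XT.nd (nat_lit 78) (nat_lit 0) (nat_lit 0) (XT.lf (nat_lit 0) (nat_lit 413434593083) (nat_lit 152) (nat_lit 2052626371776) (nat_lit 0) (nat_lit 401467787813)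 (nat_lit 1) (nat_lit 5) (nat_lit 3) (nat_lit 4) (nat_lit 1) (nat_lit 4) (nat_lit 276) (nat_lit 219) (nat_lit 165)) (XT.nd (nat_lit 78) (nat_lit 0) (nat_lit 0) (XT.lf (nat_lit 0) (nat_lit 487522354218) (nat_lit 152) (nat_lit 2333464286413) (nat_lit 0) (nat_lit 475554724966) (nat_lit 1) (nat_lit 5) (nat_lit 3) (nat_lit 4) (nat_lit 1) (nat_lit 4) (nat_lit 277) (nat_lit 219) (nat_lit 164)) (XT.lf (nat_lit 0) (nat_lit 572721496925) (nat_lit 152) (nat_lit 2656431365902) (nat_lit 0) (nat_lit 560753151167) (nat_lit 1) (nat_lit 5) (nat_lit 3) (nat_lit 4) (nat_lit 1) (nat_lit 4) (nat_lit 278) (nat_lit 219) (nat_lit 163)))) (XT.nd (nat_lit 78) (nat_lit 0) (nat_lit 0) (XT.lf (nat_lit 0) (nat_lit 670698960953) (nat_lit 152) (nat_lit 3027846531365) (nat_lit 0) (nat_lit 658729992147) (nat_lit 1) (nat_lit 5) (nat_lit 3) (nat_lit 4) (nat_lit 1) (nat_lit 4) (nat_lit 279) (nat_lit 219) (nat_lit 162)) (XT.nd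 (nat_lit 78) (nat_lit 0) (nat_lit 0) (XT.lf (nat_lit 0) (nat_lit 783371696686) (nat_lit 152) (nat_lit 3454976601255) (nat_lit 0) (nat_lit 771402186099) (nat_lit 1) (nat_lit 5) (nat_lit 3) (nat_lit 4) (nat_lit 1) (nat_lit 4) (nat_lit 280) (nat_lit 219) (nat_lit 161)) (XT.lf (nat_lit 0) (nat_lit 912944170693) (nat_lit 152) (nat_lit 3946178468244) (nat_lit 0) (nat_lit 900974188992) (nat_lit 1) (nat_lit 5) (nat_lit 3) (nat_lit 4) (nat_lit 1) (nat_lit 4) (nat_lit 281) (nat_lit 219) (nat_lit 160))))) (XT.nd (nat_lit 234) (nat_lit 0) (nat_lit 0) (XT.nd (nat_lit 78) (nat_lit 0) (nat_lit 0) (XT.lf (nat_lit 0) (nat_lit 1061951496594) (nat_lit 152) (nat_lit 4511062603644) (nat_lit 0) (nat_lit 1049981105229) (nat_lit 1) (nat_lit 5) (nat_lit 3) (nat_lit 4) (nat_lit 1) (nat_lit 4) (nat_lit 282) (nat_lit 219) (nat_lit 159)) (XT.nd (nat_lit 78) (nat_lit 0) (nat_lit 0) (XT.lf (nat_lit 0) (nat_lit 1233309035116)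 (nat_lit 152) (nat_lit 5160681088363) (nat_lit 0) (nat_lit 1221338287520) (nat_lit 1) (nat_lit 5) (nat_lit 3) (nat_lit 4) (nat_lit 1) (nat_lit 4) (nat_lit 283) (nat_lit 219) (nat_lit 158)) (XT.lf (nat_lit 0) (nat_lit 1430369433749) (nat_lit 152) (nat_lit 5907743849277) (nat_lit 0) (nat_lit 1418398376388) (nat_lit 1) (nat_lit 5) (nat_lit 3) (nat_lit 4) (nat_lit 1) (nat_lit 4) (nat_lit 284) (nat_lit 219) (nat_lit 157)))) (XT.nd (nat_lit 78) (nat_lit 0) (nat_lit 0) (XT.lf (nat_lit 0) (nat_lit 1656988222033) (nat_lit 152) (nat_lit 6766867331709) (nat_lit 0) (nat_lit 1645016895311) (nat_lit 1) (nat_lit 5) (nat_lit 3) (nat_lit 4) (nat_lit 1) (nat_lit 4) (nat_lit 285) (nat_lit 219) (nat_lit 156)) (XT.nd (nat_lit 29250) (nat_lit 0) (nat_lit 5092) (XT.lf (nat_lit 0) (nat_lit 1917599245825) (nat_lit 152) (nat_lit 7754860473357) (nat_lit 0) (nat_lit 1905627684876) (nat_lit 1) (nat_lit 5) (nat_lit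 3) (nat_lit 4) (nat_lit 1) (nat_lit 4) (nat_lit 286) (nat_lit 219) (nat_lit 155)) (XT.lf (nat_lit 0) (nat_lit 1073741823) (nat_lit 0) (nat_lit 0) (nat_lit 0) (nat_lit 0) (nat_lit 68) (nat_lit 0) (nat_lit 1) (nat_lit 0) (nat_lit 1) (nat_lit 0) (nat_lit 220) (nat_lit 220) (nat_lit 220))))))) (XT.nd (nat_lit 936) (nat_lit 1368) (nat_lit 0) (XT.nd (nat_lit 468) (nat_lit 1748) (nat_lit 0) (XT.nd (nat_lit 234) (nat_lit 1064) (nat_lit 0) (XT.nd (nat_lit 78) (nat_lit 380) (nat_lit 0) (XT.lf (nat_lit 0) (nat_lit 5268129188) (nat_lit 76) (nat_lit 821402491) (nat_lit 0) (nat_lit 383771000) (nat_lit 67) (nat_lit 5) (nat_lit 68) (nat_lit 0) (nat_lit 67) (nat_lit 4) (nat_lit 221) (nat_lit 220) (nat_lit 219)) (XT.nd (nat_lit 78) (nat_lit 228) (nat_lit 0) (XT.lf (nat_lit 0) (nat_lit 3754449020) (nat_lit 152) (nat_lit 1322372215) (nat_lit 76) (nat_lit 1493562669) (nat_lit 65) (nat_lit 5) (nat_lit 67)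 (nat_lit 5) (nat_lit 66) (nat_lit 4) (nat_lit 222) (nat_lit 220) (nat_lit 218)) (XT.lf (nat_lit 0) (nat_lit 1860361902) (nat_lit 228) (nat_lit 1520467237) (nat_lit 76) (nat_lit 3354492552) (nat_lit 62) (nat_lit 5) (nat_lit 65) (nat_lit 5) (nat_lit 63) (nat_lit 5) (nat_lit 223) (nat_lit 220) (nat_lit 217)))) (XT.nd (nat_lit 78) (nat_lit 836) (nat_lit 0) (XT.lf (nat_lit 0) (nat_lit 5530917303) (nat_lit 228) (nat_lit 949788480) (nat_lit 304) (nat_lit 489260676) (nat_lit 59) (nat_lit 5) (nat_lit 62) (nat_lit 5) (nat_lit 63) (nat_lit 5) (nat_lit 224) (nat_lit 220) (nat_lit 216)) (XT.nd (nat_lit 78) (nat_lit 456) (nat_lit 0) (XT.lf (nat_lit 0) (nat_lit 3874833254) (nat_lit 380) (nat_lit 1188258483) (nat_lit 76) (nat_lit 2206954648) (nat_lit 54) (nat_lit 5) (nat_lit 59) (nat_lit 5) (nat_lit 55) (nat_lit 5) (nat_lit 225) (nat_lit 220) (nat_lit 215)) (XT.lf (nat_lit 0) (nat_lit 794417072) (nat_lit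 456) (nat_lit 712839615) (nat_lit 76) (nat_lit 6138248346) (nat_lit 48) (nat_lit 5) (nat_lit 54) (nat_lit 5) (nat_lit 49) (nat_lit 5) (nat_lit 226) (nat_lit 220) (nat_lit 214))))) (XT.nd (nat_lit 234) (nat_lit 532) (nat_lit 0) (XT.nd (nat_lit 78) (nat_lit 760) (nat_lit 0) (XT.lf (nat_lit 0) (nat_lit 5150382427) (nat_lit 532) (nat_lit 136898750) (nat_lit 76) (nat_lit 2805841715) (nat_lit 42) (nat_lit 5) (nat_lit 49) (nat_lit 5) (nat_lit 43) (nat_lit 5) (nat_lit 227) (nat_lit 220) (nat_lit 213)) (XT.nd (nat_lit 78) (nat_lit 228) (nat_lit 0) (XT.lf (nat_lit 0) (nat_lit 615200153) (nat_lit 228) (nat_lit 647348938) (nat_lit 304) (nat_lit 7360900824) (nat_lit 35) (nat_lit 5) (nat_lit 38) (nat_lit 5) (nat_lit 39) (nat_lit 5) (nat_lit 228) (nat_lit 220) (nat_lit 212)) (XT.lf (nat_lit 0) (nat_lit 1363506319) (nat_lit 228) (nat_lit 4483156201) (nat_lit 304) (nat_lit 3388173662) (nat_lit 32) (nat_lit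 5) (nat_lit 35) (nat_lit 5) (nat_lit 36) (nat_lit 5) (nat_lit 229) (nat_lit 220) (nat_lit 211)))) (XT.nd (nat_lit 78) (nat_lit 304) (nat_lit 0) (XT.lf (nat_lit 0) (nat_lit 1019507388) (nat_lit 228) (nat_lit 7771646153) (nat_lit 76) (nat_lit 1153790664) (nat_lit 29) (nat_lit 5) (nat_lit 32) (nat_lit 5) (nat_lit 30) (nat_lit 5) (nat_lit 230) (nat_lit 220) (nat_lit 210)) (XT.nd (nat_lit 78) (nat_lit 152) (nat_lit 0) (XT.lf (nat_lit 0) (nat_lit 2833870623) (nat_lit 152) (nat_lit 3088001448) (nat_lit 228) (nat_lit 4830909050) (nat_lit 27) (nat_lit 5) (nat_lit 29) (nat_lit 5) (nat_lit 30) (nat_lit 5) (nat_lit 231) (nat_lit 220) (nat_lit 209)) (XT.lf (nat_lit 0) (nat_lit 3395006782) (nat_lit 152) (nat_lit 8199794759) (nat_lit 228) (nat_lit 85031738) (nat_lit 25) (nat_lit 5) (nat_lit 27) (nat_lit 5) (nat_lit 28) (nat_lit 4) (nat_lit 232) (nat_lit 220) (nat_lit 208)))))) (XT.nd (nat_lit 468) (nat_lit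 532) (nat_lit 0) (XT.nd (nat_lit 234) (nat_lit 304) (nat_lit 0) (XT.nd (nat_lit 78) (nat_lit 304) (nat_lit 0) (XT.lf (nat_lit 0) (nat_lit 3621881188) (nat_lit 152) (nat_lit 1555618301) (nat_lit 228) (nat_lit 7552913225) (nat_lit 22) (nat_lit 5) (nat_lit 24) (nat_lit 5) (nat_lit 25) (nat_lit 5) (nat_lit 233) (nat_lit 220) (nat_lit 207)) (XT.nd (nat_lit 78) (nat_lit 228) (nat_lit 0) (XT.lf (nat_lit 0) (nat_lit 3438182452) (nat_lit 76) (nat_lit 7956499655) (nat_lit 152) (nat_lit 2530695413) (nat_lit 21) (nat_lit 5) (nat_lit 22) (nat_lit 5) (nat_lit 23) (nat_lit 4) (nat_lit 234) (nat_lit 220) (nat_lit 206)) (XT.lf (nat_lit 0) (nat_lit 2695981556) (nat_lit 152) (nat_lit 481941508) (nat_lit 228) (nat_lit 12108272602) (nat_lit 18) (nat_lit 5) (nat_lit 20) (nat_lit 5) (nat_lit 21) (nat_lit 5) (nat_lit 235) (nat_lit 220) (nat_lit 205)))) (XT.nd (nat_lit 78) (nat_lit 228) (nat_lit 0) (XT.lf (nat_lit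 0) (nat_lit 1012445700) (nat_lit 76) (nat_lit 8856442165) (nat_lit 152) (nat_lit 6955338013) (nat_lit 17) (nat_lit 5) (nat_lit 18) (nat_lit 5) (nat_lit 19) (nat_lit 4) (nat_lit 236) (nat_lit 220) (nat_lit 204)) (XT.nd (nat_lit 78) (nat_lit 228) (nat_lit 0) (XT.lf (nat_lit 0) (nat_lit 17010170098) (nat_lit 76) (nat_lit 696355477) (nat_lit 152) (nat_lit 875357877) (nat_lit 17) (nat_lit 5) (nat_lit 18) (nat_lit 5) (nat_lit 19) (nat_lit 4) (nat_lit 237) (nat_lit 220) (nat_lit 203)) (XT.lf (nat_lit 0) (nat_lit 6180186320) (nat_lit 228) (nat_lit 5741730652) (nat_lit 76) (nat_lit 8640234645) (nat_lit 14) (nat_lit 5) (nat_lit 17) (nat_lit 5) (nat_lit 15) (nat_lit 4) (nat_lit 238) (nat_lit 220) (nat_lit 202))))) (XT.nd (nat_lit 234) (nat_lit 304) (nat_lit 0) (XT.nd (nat_lit 78) (nat_lit 152) (nat_lit 0) (XT.lf (nat_lit 0) (nat_lit 11105389733) (nat_lit 76) (nat_lit 3276890013) (nat_lit 152) (nat_lit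 8444413060) (nat_lit 13) (nat_lit 5) (nat_lit 14) (nat_lit 5) (nat_lit 15) (nat_lit 4) (nat_lit 239) (nat_lit 220) (nat_lit 201)) (XT.nd (nat_lit 78) (nat_lit 76) (nat_lit 0) (XT.lf (nat_lit 0) (nat_lit 5185516151) (nat_lit 76) (nat_lit 18905806771) (nat_lit 76) (nat_lit 1317683661) (nat_lit 12) (nat_lit 4) (nat_lit 13) (nat_lit 5) (nat_lit 13) (nat_lit 4) (nat_lit 240) (nat_lit 220) (nat_lit 200)) (XT.lf (nat_lit 0) (nat_lit 6806872142) (nat_lit 152) (nat_lit 3579121177) (nat_lit 76) (nat_lit 17957788862) (nat_lit 11) (nat_lit 5) (nat_lit 13) (nat_lit 5) (nat_lit 12) (nat_lit 4) (nat_lit 241) (nat_lit 220) (nat_lit 199)))) (XT.nd (nat_lit 156) (nat_lit 152) (nat_lit 0) (XT.nd (nat_lit 78) (nat_lit 76) (nat_lit 0) (XT.lf (nat_lit 0) (nat_lit 16067474543) (nat_lit 76) (nat_lit 247289406) (nat_lit 152) (nat_lit 15382013808) (nat_lit 10) (nat_lit 5) (nat_lit 11) (nat_lit 5) (nat_lit 12)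 (nat_lit 4) (nat_lit 242) (nat_lit 220) (nat_lit 198)) (XT.lf (nat_lit 0) (nat_lit 2956363000) (nat_lit 76) (nat_lit 24609688982) (nat_lit 76) (nat_lit 7961429012) (nat_lit 9) (nat_lit 4) (nat_lit 10) (nat_lit 5) (nat_lit 10) (nat_lit 4) (nat_lit 243) (nat_lit 220) (nat_lit 197))) (XT.nd (nat_lit 78) (nat_lit 76) (nat_lit 0) (XT.lf (nat_lit 0) (nat_lit 890924969) (nat_lit 152) (nat_lit 14886026769) (nat_lit 76) (nat_lit 24127061339) (nat_lit 8) (nat_lit 5) (nat_lit 10) (nat_lit 5) (nat_lit 9) (nat_lit 4) (nat_lit 244) (nat_lit 220) (nat_lit 196)) (XT.lf (nat_lit 0) (nat_lit 5293332178) (nat_lit 76) (nat_lit 5337205469) (nat_lit 152) (nat_lit 34287573955) (nat_lit 7) (nat_lit 5) (nat_lit 8) (nat_lit 5) (nat_lit 9) (nat_lit 4) (nat_lit 245) (nat_lit 220) (nat_lit 195))))))))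
noncomputable def xc24 : XT := (XT.nd (nat_lit 1872) (nat_lit 0) (nat_lit 0) (XT.nd (nat_lit 936) (nat_lit 152) (nat_lit 0) (XT.nd (nat_lit 468) (nat_lit 76) (nat_lit 0) (XT.nd (nat_lit 234) (nat_lit 152) (nat_lit 0) (XT.nd (nat_lit 78) (nat_lit 76) (nat_lit 0) (XT.lf (nat_lit 0) (nat_lit 22334018744) (nat_lit 152) (nat_lit 21612165853) (nat_lit 0) (nat_lit 6697988573) (nat_lit 7) (nat_lit 5) (nat_lit 9) (nat_lit 4) (nat_lit 7) (nat_lit 4) (nat_lit 246) (nat_lit 220) (nat_lit 194)) (XT.nd (nat_lit 78) (nat_lit 76) (nat_lit 0) (XT.lf (nat_lit 0) (nat_lit 35851854445) (nat_lit 152) (nat_lit 1212165607) (nat_lit 0) (nat_lit 20160488965) (nat_lit 7) (nat_lit 5) (nat_lit 9) (nat_lit 4) (nat_lit 7) (nat_lit 4) (nat_lit 247) (nat_lit 220) (nat_lit 193)) (XT.lf (nat_lit 0) (nat_lit 23266601300) (nat_lit 76) (nat_lit 28613125245) (nat_lit 76) (nat_lit 12873642105) (nat_lit 6) (nat_lit 4) (nat_lit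 7) (nat_lit 5) (nat_lit 7) (nat_lit 4) (nat_lit 248) (nat_lit 220) (nat_lit 192)))) (XT.nd (nat_lit 78) (nat_lit 152) (nat_lit 0) (XT.lf (nat_lit 0) (nat_lit 51357749246) (nat_lit 76) (nat_lit 18918994785) (nat_lit 76) (nat_lit 3137670200) (nat_lit 6) (nat_lit 4) (nat_lit 7) (nat_lit 5) (nat_lit 7) (nat_lit 4) (nat_lit 249) (nat_lit 220) (nat_lit 191)) (XT.nd (nat_lit 78) (nat_lit 76) (nat_lit 0) (XT.lf (nat_lit 0) (nat_lit 7592782329) (nat_lit 152) (nat_lit 24721203) (nat_lit 76) (nat_lit 75746674701) (nat_lit 5) (nat_lit 5) (nat_lit 7) (nat_lit 5) (nat_lit 6) (nat_lit 4) (nat_lit 250) (nat_lit 220) (nat_lit 190)) (XT.lf (nat_lit 0) (nat_lit 20480670721) (nat_lit 152) (nat_lit 68455212157) (nat_lit 0) (nat_lit 5805349803) (nat_lit 4) (nat_lit 5) (nat_lit 6) (nat_lit 4) (nat_lit 4) (nat_lit 4) (nat_lit 251) (nat_lit 220) (nat_lit 189))))) (XT.nd (nat_lit 234) (nat_lit 76) (nat_lit 0)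 (XT.nd (nat_lit 78) (nat_lit 0) (nat_lit 0) (XT.lf (nat_lit 0) (nat_lit 35462332306) (nat_lit 152) (nat_lit 51588160931) (nat_lit 0) (nat_lit 20761537842) (nat_lit 4) (nat_lit 5) (nat_lit 6) (nat_lit 4) (nat_lit 4) (nat_lit 4) (nat_lit 252) (nat_lit 220) (nat_lit 188)) (XT.nd (nat_lit 78) (nat_lit 0) (nat_lit 0) (XT.lf (nat_lit 0) (nat_lit 52647043297) (nat_lit 152) (nat_lit 32275872680) (nat_lit 0) (nat_lit 37924097925) (nat_lit 4) (nat_lit 5) (nat_lit 6) (nat_lit 4) (nat_lit 4) (nat_lit 4) (nat_lit 253) (nat_lit 220) (nat_lit 187)) (XT.lf (nat_lit 0) (nat_lit 72371026301) (nat_lit 152) (nat_lit 10140498286) (nat_lit 0) (nat_lit 57628819268) (nat_lit 4) (nat_lit 5) (nat_lit 6) (nat_lit 4) (nat_lit 4) (nat_lit 4) (nat_lit 254) (nat_lit 220) (nat_lit 186)))) (XT.nd (nat_lit 78) (nat_lit 0) (nat_lit 0) (XT.lf (nat_lit 0) (nat_lit 16054138699) (nat_lit 76) (nat_lit 79352149054) (nat_lit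 76) (nat_lit 64593192752) (nat_lit 3) (nat_lit 4) (nat_lit 4) (nat_lit 5) (nat_lit 4) (nat_lit 4) (nat_lit 255) (nat_lit 220) (nat_lit 185)) (XT.nd (nat_lit 78) (nat_lit 0) (nat_lit 0) (XT.lf (nat_lit 0) (nat_lit 46733341243) (nat_lit 76) (nat_lit 75428252848) (nat_lit 76) (nat_lit 60654731964) (nat_lit 3) (nat_lit 4) (nat_lit 4) (nat_lit 5) (nat_lit 4) (nat_lit 4) (nat_lit 256) (nat_lit 220) (nat_lit 184)) (XT.lf (nat_lit 0) (nat_lit 81963373942) (nat_lit 76) (nat_lit 70940323281) (nat_lit 76) (nat_lit 56154137543) (nat_lit 3) (nat_lit 4) (nat_lit 4) (nat_lit 5) (nat_lit 4) (nat_lit 4) (nat_lit 257) (nat_lit 220) (nat_lit 183)))))) (XT.nd (nat_lit 468) (nat_lit 152) (nat_lit 0) (XT.nd (nat_lit 234) (nat_lit 0) (nat_lit 0) (XT.nd (nat_lit 78) (nat_lit 0) (nat_lit 0) (XT.lf (nat_lit 0) (nat_lit 122433520045) (nat_lit 76) (nat_lit 65800553035) (nat_lit 76) (nat_lit 51003354381) (nat_lit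 3) (nat_lit 4) (nat_lit 4) (nat_lit 5) (nat_lit 4) (nat_lit 4) (nat_lit 258) (nat_lit 220) (nat_lit 182)) (XT.nd (nat_lit 78) (nat_lit 0) (nat_lit 0) (XT.lf (nat_lit 0) (nat_lit 168935586758) (nat_lit 76) (nat_lit 59908381388) (nat_lit 76) (nat_lit 45101606285) (nat_lit 3) (nat_lit 4) (nat_lit 4) (nat_lit 5) (nat_lit 4) (nat_lit 4) (nat_lit 259) (nat_lit 220) (nat_lit 181)) (XT.lf (nat_lit 0) (nat_lit 222379397126) (nat_lit 76) (nat_lit 53148526721) (nat_lit 76) (nat_lit 38333424271) (nat_lit 3) (nat_lit 4) (nat_lit 4) (nat_lit 5) (nat_lit 4) (nat_lit 4) (nat_lit 260) (nat_lit 220) (nat_lit 180)))) (XT.nd (nat_lit 78) (nat_lit 0) (nat_lit 0) (XT.lf (nat_lit 0) (nat_lit 283810590916) (nat_lit 76) (nat_lit 45388731008) (nat_lit 76) (nat_lit 30566387386) (nat_lit 3) (nat_lit 4) (nat_lit 4) (nat_lit 5) (nat_lit 4) (nat_lit 4) (nat_lit 261) (nat_lit 220) (nat_lit 179)) (XT.nd (nat_lit 78)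 (nat_lit 0) (nat_lit 0) (XT.lf (nat_lit 0) (nat_lit 354431082791) (nat_lit 76) (nat_lit 36477172158) (nat_lit 76) (nat_lit 21648531866) (nat_lit 3) (nat_lit 4) (nat_lit 4) (nat_lit 5) (nat_lit 4) (nat_lit 4) (nat_lit 262) (nat_lit 220) (nat_lit 178)) (XT.lf (nat_lit 0) (nat_lit 435622578025) (nat_lit 76) (nat_lit 26239493586) (nat_lit 76) (nat_lit 11405377928) (nat_lit 3) (nat_lit 4) (nat_lit 4) (nat_lit 5) (nat_lit 4) (nat_lit 4) (nat_lit 263) (nat_lit 220) (nat_lit 177))))) (XT.nd (nat_lit 234) (nat_lit 0) (nat_lit 0) (XT.nd (nat_lit 78) (nat_lit 76) (nat_lit 0) (XT.lf (nat_lit 0) (nat_lit 345301020) (nat_lit 152) (nat_lit 14120650723) (nat_lit 76) (nat_lit 528618863710) (nat_lit 2) (nat_lit 5) (nat_lit 4) (nat_lit 5) (nat_lit 3) (nat_lit 4) (nat_lit 264) (nat_lit 220) (nat_lit 176)) (XT.nd (nat_lit 78) (nat_lit 0) (nat_lit 0) (XT.lf (nat_lit 0) (nat_lit 13263069434) (nat_lit 76) (nat_lit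 249472125) (nat_lit 152) (nat_lit 609812207340) (nat_lit 1) (nat_lit 5) (nat_lit 2) (nat_lit 5) (nat_lit 3) (nat_lit 4) (nat_lit 265) (nat_lit 220) (nat_lit 175)) (XT.lf (nat_lit 0) (nat_lit 29455553377) (nat_lit 152) (nat_lit 670372382840) (nat_lit 0) (nat_lit 15708685644) (nat_lit 1) (nat_lit 5) (nat_lit 3) (nat_lit 4) (nat_lit 1) (nat_lit 4) (nat_lit 266) (nat_lit 220) (nat_lit 174)))) (XT.nd (nat_lit 78) (nat_lit 0) (nat_lit 0) (XT.lf (nat_lit 0) (nat_lit 47789705150) (nat_lit 152) (nat_lit 739750660565) (nat_lit 0) (nat_lit 34039938752) (nat_lit 1) (nat_lit 5) (nat_lit 3) (nat_lit 4) (nat_lit 1) (nat_lit 4) (nat_lit 267) (nat_lit 220) (nat_lit 173)) (XT.nd (nat_lit 78) (nat_lit 0) (nat_lit 0) (XT.lf (nat_lit 0) (nat_lit 68867708731) (nat_lit 152) (nat_lit 819547913915) (nat_lit 0) (nat_lit 55115421755) (nat_lit 1) (nat_lit 5) (nat_lit 3) (nat_lit 4) (nat_lit 1) (nat_lit 4) (nat_lit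 268) (nat_lit 220) (nat_lit 172)) (XT.lf (nat_lit 0) (nat_lit 93101959845) (nat_lit 152) (nat_lit 911325393499) (nat_lit 0) (nat_lit 79347481062) (nat_lit 1) (nat_lit 5) (nat_lit 3) (nat_lit 4) (nat_lit 1) (nat_lit 4) (nat_lit 269) (nat_lit 220) (nat_lit 171))))))) (XT.nd (nat_lit 936) (nat_lit 0) (nat_lit 0) (XT.nd (nat_lit 468) (nat_lit 0) (nat_lit 0) (XT.nd (nat_lit 234) (nat_lit 0) (nat_lit 0) (XT.nd (nat_lit 78) (nat_lit 0) (nat_lit 0) (XT.lf (nat_lit 0) (nat_lit 120966606881) (nat_lit 152) (nat_lit 1016878745657) (nat_lit 0) (nat_lit 107210222178) (nat_lit 1) (nat_lit 5) (nat_lit 3) (nat_lit 4) (nat_lit 1) (nat_lit 4) (nat_lit 270) (nat_lit 220) (nat_lit 170)) (XT.nd (nat_lit 78) (nat_lit 0) (nat_lit 0) (XT.lf (nat_lit 0) (nat_lit 153006827716) (nat_lit 152) (nat_lit 1138273144671) (nat_lit 0) (nat_lit 139248785693) (nat_lit 1) (nat_lit 5) (nat_lit 3) (nat_lit 4) (nat_lit 1) (nat_lit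 4) (nat_lit 271) (nat_lit 220) (nat_lit 169)) (XT.lf (nat_lit 0) (nat_lit 189849496238) (nat_lit 152) (nat_lit 1277883698347) (nat_lit 0) (nat_lit 176090013065) (nat_lit 1) (nat_lit 5) (nat_lit 3) (nat_lit 4) (nat_lit 1) (nat_lit 4) (nat_lit 272) (nat_lit 220) (nat_lit 168)))) (XT.nd (nat_lit 78) (nat_lit 0) (nat_lit 0) (XT.lf (nat_lit 0) (nat_lit 232215447263) (nat_lit 152) (nat_lit 1438441917518) (nat_lit 0) (nat_lit 218454710918) (nat_lit 1) (nat_lit 5) (nat_lit 3) (nat_lit 4) (nat_lit 1) (nat_lit 4) (nat_lit 273) (nat_lit 220) (nat_lit 167)) (XT.nd (nat_lit 78) (nat_lit 0) (nat_lit 0) (XT.lf (nat_lit 0) (nat_lit 280933579835) (nat_lit 152) (nat_lit 1623089158645) (nat_lit 0) (nat_lit 267171753774) (nat_lit 1) (nat_lit 5) (nat_lit 3) (nat_lit 4) (nat_lit 1) (nat_lit 4) (nat_lit 274) (nat_lit 220) (nat_lit 166)) (XT.lf (nat_lit 0) (nat_lit 336957074808) (nat_lit 152) (nat_lit 1835438085144)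 (nat_lit 0) (nat_lit 323194301168) (nat_lit 1) (nat_lit 5) (nat_lit 3) (nat_lit 4) (nat_lit 1) (nat_lit 4) (nat_lit 275) (nat_lit 220) (nat_lit 165))))) (XT.nd (nat_lit 234) (nat_lit 0) (nat_lit 0) (XT.nd (nat_lit 78) (nat_lit 0) (nat_lit 0) (XT.lf (nat_lit 0) (nat_lit 401382044039) (nat_lit 152) (nat_lit 2079643349922) (nat_lit 0) (nat_lit 387618446418) (nat_lit 1) (nat_lit 5) (nat_lit 3) (nat_lit 4) (nat_lit 1) (nat_lit 4) (nat_lit 276) (nat_lit 220) (nat_lit 164)) (XT.nd (nat_lit 78) (nat_lit 0) (nat_lit 0) (XT.lf (nat_lit 0) (nat_lit 475468976059) (nat_lit 152) (nat_lit 2360482882074) (nat_lit 0) (nat_lit 461704661932) (nat_lit 1) (nat_lit 5) (nat_lit 3) (nat_lit 4) (nat_lit 1) (nat_lit 4) (nat_lit 277) (nat_lit 220) (nat_lit 163)) (XT.lf (nat_lit 0) (nat_lit 560667397796) (nat_lit 152) (nat_lit 2683451368098) (nat_lit 0) (nat_lit 546902460621) (nat_lit 1) (nat_lit 5) (nat_lit 3)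 (nat_lit 4) (nat_lit 1) (nat_lit 4) (nat_lit 278) (nat_lit 220) (nat_lit 162)))) (XT.nd (nat_lit 78) (nat_lit 0) (nat_lit 0) (XT.lf (nat_lit 0) (nat_lit 658644234894) (nat_lit 152) (nat_lit 3054867756634) (nat_lit 0) (nat_lit 644878755938) (nat_lit 1) (nat_lit 5) (nat_lit 3) (nat_lit 4) (nat_lit 1) (nat_lit 4) (nat_lit 279) (nat_lit 220) (nat_lit 161)) (XT.nd (nat_lit 78) (nat_lit 0) (nat_lit 0) (XT.lf (nat_lit 0) (nat_lit 771316425471) (nat_lit 152) (nat_lit 3481998890066) (nat_lit 0) (nat_lit 757550475401) (nat_lit 1) (nat_lit 5) (nat_lit 3) (nat_lit 4) (nat_lit 1) (nat_lit 4) (nat_lit 280) (nat_lit 220) (nat_lit 160)) (XT.lf (nat_lit 0) (nat_lit 900888425428) (nat_lit 152) (nat_lit 3973201681875) (nat_lit 0) (nat_lit 887122065694) (nat_lit 1) (nat_lit 5) (nat_lit 3) (nat_lit 4) (nat_lit 1) (nat_lit 4) (nat_lit 281) (nat_lit 220) (nat_lit 159)))))) (XT.nd (nat_lit 29718) (nat_lit 0)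 (nat_lit 3116) (XT.nd (nat_lit 234) (nat_lit 0) (nat_lit 0) (XT.nd (nat_lit 78) (nat_lit 0) (nat_lit 0) (XT.lf (nat_lit 0) (nat_lit 1049895339113) (nat_lit 152) (nat_lit 4538086621465) (nat_lit 0) (nat_lit 1036128623149) (nat_lit 1) (nat_lit 5) (nat_lit 3) (nat_lit 4) (nat_lit 1) (nat_lit 4) (nat_lit 282) (nat_lit 220) (nat_lit 158)) (XT.nd (nat_lit 78) (nat_lit 0) (nat_lit 0) (XT.lf (nat_lit 0) (nat_lit 1221252519185) (nat_lit 152) (nat_lit 5187705805481) (nat_lit 0) (nat_lit 1207485493455) (nat_lit 1) (nat_lit 5) (nat_lit 3) (nat_lit 4) (nat_lit 1) (nat_lit 4) (nat_lit 283) (nat_lit 220) (nat_lit 157)) (XT.lf (nat_lit 0) (nat_lit 1418312606123) (nat_lit 152) (nat_lit 5934769174479) (nat_lit 0) (nat_lit 1404545311032) (nat_lit 1) (nat_lit 5) (nat_lit 3) (nat_lit 4) (nat_lit 1) (nat_lit 4) (nat_lit 284) (nat_lit 220) (nat_lit 156)))) (XT.nd (nat_lit 78) (nat_lit 0) (nat_lit 0) (XT.lf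 (nat_lit 0) (nat_lit 1644931123368) (nat_lit 152) (nat_lit 6793893185679) (nat_lit 0) (nat_lit 1631163594050) (nat_lit 1) (nat_lit 5) (nat_lit 3) (nat_lit 4) (nat_lit 1) (nat_lit 4) (nat_lit 285) (nat_lit 220) (nat_lit 155)) (XT.nd (nat_lit 29328) (nat_lit 0) (nat_lit 4788) (XT.lf (nat_lit 0) (nat_lit 1905541911474) (nat_lit 152) (nat_lit 7781886787126) (nat_lit 0) (nat_lit 1891774178480) (nat_lit 1) (nat_lit 5) (nat_lit 3) (nat_lit 4) (nat_lit 1) (nat_lit 4) (nat_lit 286) (nat_lit 220) (nat_lit 154)) (XT.lf (nat_lit 0) (nat_lit 1680622773) (nat_lit 228) (nat_lit 793762911) (nat_lit 228) (nat_lit 793762911) (nat_lit 64) (nat_lit 3) (nat_lit 67) (nat_lit 3) (nat_lit 67) (nat_lit 5) (nat_lit 221) (nat_lit 221) (nat_lit 218))))) (XT.nd (nat_lit 234) (nat_lit 1216) (nat_lit 0) (XT.nd (nat_lit 78) (nat_lit 228) (nat_lit 0) (XT.lf (nat_lit 0) (nat_lit 1090293486) (nat_lit 228) (nat_lit 2478009569)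 (nat_lit 304) (nat_lit 3098145008) (nat_lit 61) (nat_lit 5) (nat_lit 64) (nat_lit 3) (nat_lit 65) (nat_lit 5) (nat_lit 222) (nat_lit 221) (nat_lit 217)) (XT.nd (nat_lit 78) (nat_lit 228) (nat_lit 0) (XT.lf (nat_lit 76) (nat_lit 3752289627) (nat_lit 0) (nat_lit 1434939429) (nat_lit 304) (nat_lit 1675476622) (nat_lit 62) (nat_lit 5) (nat_lit 61) (nat_lit 5) (nat_lit 65) (nat_lit 5) (nat_lit 223) (nat_lit 221) (nat_lit 216)) (XT.lf (nat_lit 0) (nat_lit 2172957998) (nat_lit 304) (nat_lit 3528886619) (nat_lit 76) (nat_lit 1423761315) (nat_lit 58) (nat_lit 5) (nat_lit 62) (nat_lit 5) (nat_lit 59) (nat_lit 5) (nat_lit 224) (nat_lit 221) (nat_lit 215)))) (XT.nd (nat_lit 78) (nat_lit 912) (nat_lit 0) (XT.lf (nat_lit 0) (nat_lit 3695587138) (nat_lit 304) (nat_lit 2418903970) (nat_lit 380) (nat_lit 1343261078) (nat_lit 54) (nat_lit 5) (nat_lit 58) (nat_lit 5) (nat_lit 59) (nat_lit 5) (nat_lit 225)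 (nat_lit 221) (nat_lit 214)) (XT.nd (nat_lit 78) (nat_lit 456) (nat_lit 0) (XT.lf (nat_lit 0) (nat_lit 2355199482) (nat_lit 456) (nat_lit 3857367368) (nat_lit 76) (nat_lit 1648712449) (nat_lit 48) (nat_lit 5) (nat_lit 54) (nat_lit 5) (nat_lit 49) (nat_lit 5) (nat_lit 226) (nat_lit 221) (nat_lit 213)) (XT.lf (nat_lit 0) (nat_lit 4491533373) (nat_lit 456) (nat_lit 1834301973) (nat_lit 532) (nat_lit 2014700876) (nat_lit 42) (nat_lit 5) (nat_lit 48) (nat_lit 5) (nat_lit 49) (nat_lit 5) (nat_lit 227) (nat_lit 221) (nat_lit 212))))))))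
noncomputable def xc25 : XT := (XT.nd (nat_lit 1872) (nat_lit 228) (nat_lit 0) (XT.nd (nat_lit 936) (nat_lit 760) (nat_lit 0) (XT.nd (nat_lit 468) (nat_lit 760) (nat_lit 0) (XT.nd (nat_lit 234) (nat_lit 532) (nat_lit 0) (XT.nd (nat_lit 78) (nat_lit 532) (nat_lit 0) (XT.lf (nat_lit 0) (nat_lit 1773192144) (nat_lit 304) (nat_lit 3795577126) (nat_lit 76) (nat_lit 3330640555) (nat_lit 38) (nat_lit 5) (nat_lit 42) (nat_lit 5) (nat_lit 39) (nat_lit 5) (nat_lit 228) (nat_lit 221) (nat_lit 211)) (XT.nd (nat_lit 78) (nat_lit 304) (nat_lit 0) (XT.lf (nat_lit 0) (nat_lit 5829865542) (nat_lit 228) (nat_lit 86254099) (nat_lit 304) (nat_lit 3630540328) (nat_lit 35) (nat_lit 5) (nat_lit 38) (nat_lit 5) (nat_lit 39) (nat_lit 5) (nat_lit 229) (nat_lit 221) (nat_lit 210)) (XT.lf (nat_lit 0) (nat_lit 429950132) (nat_lit 304) (nat_lit 3716886994) (nat_lit 76) (nat_lit 6139600492) (nat_lit 31) (nat_lit 5)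 (nat_lit 35) (nat_lit 5) (nat_lit 32) (nat_lit 5) (nat_lit 230) (nat_lit 221) (nat_lit 209)))) (XT.nd (nat_lit 78) (nat_lit 380) (nat_lit 0) (XT.lf (nat_lit 0) (nat_lit 4906583722) (nat_lit 228) (nat_lit 3859973412) (nat_lit 76) (nat_lit 2362174265) (nat_lit 29) (nat_lit 5) (nat_lit 32) (nat_lit 5) (nat_lit 30) (nat_lit 5) (nat_lit 231) (nat_lit 221) (nat_lit 208)) (XT.nd (nat_lit 78) (nat_lit 228) (nat_lit 0) (XT.lf (nat_lit 0) (nat_lit 7906592595) (nat_lit 152) (nat_lit 2262423327) (nat_lit 228) (nat_lit 1919953830) (nat_lit 27) (nat_lit 5) (nat_lit 29) (nat_lit 5) (nat_lit 30) (nat_lit 5) (nat_lit 232) (nat_lit 221) (nat_lit 207)) (XT.lf (nat_lit 0) (nat_lit 3048518590) (nat_lit 228) (nat_lit 4874145558) (nat_lit 76) (nat_lit 5251562272) (nat_lit 24) (nat_lit 5) (nat_lit 27) (nat_lit 5) (nat_lit 25) (nat_lit 5) (nat_lit 233) (nat_lit 221) (nat_lit 206))))) (XT.nd (nat_lit 234) (nat_lit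 304) (nat_lit 0) (XT.nd (nat_lit 78) (nat_lit 304) (nat_lit 0) (XT.lf (nat_lit 0) (nat_lit 8422528030) (nat_lit 152) (nat_lit 365649942) (nat_lit 228) (nat_lit 5619457651) (nat_lit 22) (nat_lit 5) (nat_lit 24) (nat_lit 5) (nat_lit 25) (nat_lit 5) (nat_lit 234) (nat_lit 221) (nat_lit 205)) (XT.nd (nat_lit 78) (nat_lit 228) (nat_lit 0) (XT.lf (nat_lit 0) (nat_lit 8032249217) (nat_lit 76) (nat_lit 7663879564) (nat_lit 152) (nat_lit 105793461) (nat_lit 21) (nat_lit 5) (nat_lit 22) (nat_lit 5) (nat_lit 23) (nat_lit 4) (nat_lit 235) (nat_lit 221) (nat_lit 204)) (XT.lf (nat_lit 0) (nat_lit 6085976400) (nat_lit 228) (nat_lit 10438044689) (nat_lit 76) (nat_lit 856663691) (nat_lit 18) (nat_lit 5) (nat_lit 21) (nat_lit 5) (nat_lit 19) (nat_lit 4) (nat_lit 236) (nat_lit 221) (nat_lit 203)))) (XT.nd (nat_lit 78) (nat_lit 228) (nat_lit 0) (XT.lf (nat_lit 0) (nat_lit 4850787782) (nat_lit 76) (nat_lit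 8712914111) (nat_lit 152) (nat_lit 5603581098) (nat_lit 17) (nat_lit 5) (nat_lit 18) (nat_lit 5) (nat_lit 19) (nat_lit 4) (nat_lit 237) (nat_lit 221) (nat_lit 202)) (XT.nd (nat_lit 78) (nat_lit 0) (nat_lit 0) (XT.lf (nat_lit 0) (nat_lit 1074090319) (nat_lit 228) (nat_lit 19610341038) (nat_lit 76) (nat_lit 521487610) (nat_lit 14) (nat_lit 5) (nat_lit 17) (nat_lit 5) (nat_lit 15) (nat_lit 4) (nat_lit 238) (nat_lit 221) (nat_lit 201)) (XT.lf (nat_lit 0) (nat_lit 8930345870) (nat_lit 228) (nat_lit 3454750309) (nat_lit 76) (nat_lit 11113134387) (nat_lit 14) (nat_lit 5) (nat_lit 17) (nat_lit 5) (nat_lit 15) (nat_lit 4) (nat_lit 239) (nat_lit 221) (nat_lit 200)))))) (XT.nd (nat_lit 468) (nat_lit 304) (nat_lit 0) (XT.nd (nat_lit 234) (nat_lit 228) (nat_lit 0) (XT.nd (nat_lit 78) (nat_lit 152) (nat_lit 0) (XT.lf (nat_lit 0) (nat_lit 15652955304) (nat_lit 76) (nat_lit 2541304561) (nat_lit 152)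 (nat_lit 7921984710) (nat_lit 13) (nat_lit 5) (nat_lit 14) (nat_lit 5) (nat_lit 15) (nat_lit 4) (nat_lit 240) (nat_lit 221) (nat_lit 199)) (XT.nd (nat_lit 78) (nat_lit 0) (nat_lit 0) (XT.lf (nat_lit 0) (nat_lit 132161047) (nat_lit 152) (nat_lit 20402243904) (nat_lit 76) (nat_lit 8561457005) (nat_lit 11) (nat_lit 5) (nat_lit 13) (nat_lit 5) (nat_lit 12) (nat_lit 4) (nat_lit 241) (nat_lit 221) (nat_lit 198)) (XT.lf (nat_lit 0) (nat_lit 9194593401) (nat_lit 152) (nat_lit 1665270901) (nat_lit 76) (nat_lit 21624692925) (nat_lit 11) (nat_lit 5) (nat_lit 13) (nat_lit 5) (nat_lit 12) (nat_lit 4) (nat_lit 242) (nat_lit 221) (nat_lit 197)))) (XT.nd (nat_lit 78) (nat_lit 152) (nat_lit 0) (XT.lf (nat_lit 0) (nat_lit 20021588140) (nat_lit 152) (nat_lit 15646996425) (nat_lit 0) (nat_lit 680674091) (nat_lit 10) (nat_lit 5) (nat_lit 12) (nat_lit 4) (nat_lit 10) (nat_lit 4) (nat_lit 243) (nat_lit 221)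 (nat_lit 196)) (XT.nd (nat_lit 78) (nat_lit 76) (nat_lit 0) (XT.lf (nat_lit 0) (nat_lit 5523315471) (nat_lit 76) (nat_lit 27329974495) (nat_lit 76) (nat_lit 7910025024) (nat_lit 9) (nat_lit 4) (nat_lit 10) (nat_lit 5) (nat_lit 10) (nat_lit 4) (nat_lit 244) (nat_lit 221) (nat_lit 195)) (XT.lf (nat_lit 0) (nat_lit 2053526728) (nat_lit 152) (nat_lit 15217340330) (nat_lit 76) (nat_lit 28535543872) (nat_lit 8) (nat_lit 5) (nat_lit 10) (nat_lit 5) (nat_lit 9) (nat_lit 4) (nat_lit 245) (nat_lit 221) (nat_lit 194))))) (XT.nd (nat_lit 234) (nat_lit 228) (nat_lit 0) (XT.nd (nat_lit 78) (nat_lit 0) (nat_lit 0) (XT.lf (nat_lit 0) (nat_lit 7827962298) (nat_lit 76) (nat_lit 5333768643) (nat_lit 152) (nat_lit 38418397028) (nat_lit 7) (nat_lit 5) (nat_lit 8) (nat_lit 5) (nat_lit 9) (nat_lit 4) (nat_lit 246) (nat_lit 221) (nat_lit 193)) (XT.nd (nat_lit 78) (nat_lit 0) (nat_lit 0) (XT.lf (nat_lit 0) (nat_lit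 26515381808) (nat_lit 152) (nat_lit 23291387232) (nat_lit 0) (nat_lit 8366858536) (nat_lit 7) (nat_lit 5) (nat_lit 9) (nat_lit 4) (nat_lit 7) (nat_lit 4) (nat_lit 247) (nat_lit 221) (nat_lit 192)) (XT.lf (nat_lit 0) (nat_lit 41952467614) (nat_lit 152) (nat_lit 35204796) (nat_lit 0) (nat_lit 23762102897) (nat_lit 7) (nat_lit 5) (nat_lit 9) (nat_lit 4) (nat_lit 7) (nat_lit 4) (nat_lit 248) (nat_lit 221) (nat_lit 191)))) (XT.nd (nat_lit 78) (nat_lit 152) (nat_lit 0) (XT.lf (nat_lit 0) (nat_lit 28000362708) (nat_lit 76) (nat_lit 32319787722) (nat_lit 76) (nat_lit 14093039141) (nat_lit 6) (nat_lit 4) (nat_lit 7) (nat_lit 5) (nat_lit 7) (nat_lit 4) (nat_lit 249) (nat_lit 221) (nat_lit 190)) (XT.nd (nat_lit 78) (nat_lit 152) (nat_lit 0) (XT.lf (nat_lit 0) (nat_lit 60142951819) (nat_lit 76) (nat_lit 21247881994) (nat_lit 76) (nat_lit 2989495270) (nat_lit 6) (nat_lit 4) (nat_lit 7) (nat_lit 5)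 (nat_lit 7) (nat_lit 4) (nat_lit 250) (nat_lit 221) (nat_lit 189)) (XT.lf (nat_lit 0) (nat_lit 988776436) (nat_lit 76) (nat_lit 8277894039) (nat_lit 152) (nat_lit 86558981735) (nat_lit 4) (nat_lit 5) (nat_lit 5) (nat_lit 5) (nat_lit 6) (nat_lit 4) (nat_lit 251) (nat_lit 221) (nat_lit 188))))))) (XT.nd (nat_lit 936) (nat_lit 152) (nat_lit 0) (XT.nd (nat_lit 468) (nat_lit 0) (nat_lit 0) (XT.nd (nat_lit 234) (nat_lit 76) (nat_lit 0) (XT.nd (nat_lit 78) (nat_lit 0) (nat_lit 0) (XT.lf (nat_lit 0) (nat_lit 24028690448) (nat_lit 152) (nat_lit 77810192466) (nat_lit 0) (nat_lit 7075152361) (nat_lit 4) (nat_lit 5) (nat_lit 6) (nat_lit 4) (nat_lit 4) (nat_lit 4) (nat_lit 252) (nat_lit 221) (nat_lit 187)) (XT.nd (nat_lit 78) (nat_lit 0) (nat_lit 0) (XT.lf (nat_lit 0) (nat_lit 41195524864) (nat_lit 152) (nat_lit 58532209841) (nat_lit 0) (nat_lit 24222725117) (nat_lit 4) (nat_lit 5) (nat_lit 6) (nat_lit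 4) (nat_lit 4) (nat_lit 4) (nat_lit 253) (nat_lit 221) (nat_lit 186)) (XT.lf (nat_lit 0) (nat_lit 60903963019) (nat_lit 152) (nat_lit 36426666426) (nat_lit 0) (nat_lit 43914414003) (nat_lit 4) (nat_lit 5) (nat_lit 6) (nat_lit 4) (nat_lit 4) (nat_lit 4) (nat_lit 254) (nat_lit 221) (nat_lit 185)))) (XT.nd (nat_lit 78) (nat_lit 76) (nat_lit 0) (XT.lf (nat_lit 0) (nat_lit 83539604791) (nat_lit 152) (nat_lit 11061062458) (nat_lit 0) (nat_lit 66535491193) (nat_lit 4) (nat_lit 5) (nat_lit 6) (nat_lit 4) (nat_lit 4) (nat_lit 4) (nat_lit 255) (nat_lit 221) (nat_lit 184)) (XT.nd (nat_lit 78) (nat_lit 0) (nat_lit 0) (XT.lf (nat_lit 0) (nat_lit 19011939846) (nat_lit 76) (nat_lit 90990619196) (nat_lit 76) (nat_lit 73973840744) (nat_lit 3) (nat_lit 4) (nat_lit 4) (nat_lit 5) (nat_lit 4) (nat_lit 4) (nat_lit 256) (nat_lit 221) (nat_lit 183)) (XT.lf (nat_lit 0) (nat_lit 54221325335) (nat_lit 76) (nat_lit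 86512619283) (nat_lit 76) (nat_lit 69484827914) (nat_lit 3) (nat_lit 4) (nat_lit 4) (nat_lit 5) (nat_lit 4) (nat_lit 4) (nat_lit 257) (nat_lit 221) (nat_lit 182))))) (XT.nd (nat_lit 234) (nat_lit 0) (nat_lit 0) (XT.nd (nat_lit 78) (nat_lit 0) (nat_lit 0) (XT.lf (nat_lit 0) (nat_lit 94673517343) (nat_lit 76) (nat_lit 81381483519) (nat_lit 76) (nat_lit 64344115701) (nat_lit 3) (nat_lit 4) (nat_lit 4) (nat_lit 5) (nat_lit 4) (nat_lit 4) (nat_lit 258) (nat_lit 221) (nat_lit 181)) (XT.nd (nat_lit 78) (nat_lit 0) (nat_lit 0) (XT.lf (nat_lit 0) (nat_lit 141159971799) (nat_lit 76) (nat_lit 75496820117) (nat_lit 76) (nat_lit 58451124952) (nat_lit 3) (nat_lit 4) (nat_lit 4) (nat_lit 5) (nat_lit 4) (nat_lit 4) (nat_lit 259) (nat_lit 221) (nat_lit 180)) (XT.lf (nat_lit 0) (nat_lit 194590206291) (nat_lit 76) (nat_lit 68743494359) (nat_lit 76) (nat_lit 51690558023) (nat_lit 3) (nat_lit 4) (nat_lit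 4) (nat_lit 5) (nat_lit 4) (nat_lit 4) (nat_lit 260) (nat_lit 221) (nat_lit 179)))) (XT.nd (nat_lit 78) (nat_lit 0) (nat_lit 0) (XT.lf (nat_lit 0) (nat_lit 256009594973) (nat_lit 76) (nat_lit 60989375958) (nat_lit 76) (nat_lit 43930142950) (nat_lit 3) (nat_lit 4) (nat_lit 4) (nat_lit 5) (nat_lit 4) (nat_lit 4) (nat_lit 261) (nat_lit 221) (nat_lit 178)) (XT.nd (nat_lit 78) (nat_lit 0) (nat_lit 0) (XT.lf (nat_lit 0) (nat_lit 326619821535) (nat_lit 76) (nat_lit 52082753901) (nat_lit 76) (nat_lit 35018045528) (nat_lit 3) (nat_lit 4) (nat_lit 4) (nat_lit 5) (nat_lit 4) (nat_lit 4) (nat_lit 262) (nat_lit 221) (nat_lit 177)) (XT.lf (nat_lit 0) (nat_lit 407802390410) (nat_lit 76) (nat_lit 41849368193) (nat_lit 76) (nat_lit 24779898632) (nat_lit 3) (nat_lit 4) (nat_lit 4) (nat_lit 5) (nat_lit 4) (nat_lit 4) (nat_lit 263) (nat_lit 221) (nat_lit 176)))))) (XT.nd (nat_lit 468) (nat_lit 0) (nat_lit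 0) (XT.nd (nat_lit 234) (nat_lit 0) (nat_lit 0) (XT.nd (nat_lit 78) (nat_lit 152) (nat_lit 0) (XT.lf (nat_lit 0) (nat_lit 501145656207) (nat_lit 76) (nat_lit 30089000416) (nat_lit 76) (nat_lit 13015390692) (nat_lit 3) (nat_lit 4) (nat_lit 4) (nat_lit 5) (nat_lit 4) (nat_lit 4) (nat_lit 264) (nat_lit 221) (nat_lit 175)) (XT.nd (nat_lit 78) (nat_lit 76) (nat_lit 0) (XT.lf (nat_lit 0) (nat_lit 480358612) (nat_lit 152) (nat_lit 16078063951) (nat_lit 76) (nat_lit 607982407745) (nat_lit 2) (nat_lit 5) (nat_lit 4) (nat_lit 5) (nat_lit 3) (nat_lit 4) (nat_lit 265) (nat_lit 221) (nat_lit 174)) (XT.lf (nat_lit 0) (nat_lit 15399613097) (nat_lit 76) (nat_lit 215749172) (nat_lit 152) (nat_lit 701201983400) (nat_lit 1) (nat_lit 5) (nat_lit 2) (nat_lit 5) (nat_lit 3) (nat_lit 4) (nat_lit 266) (nat_lit 221) (nat_lit 173)))) (XT.nd (nat_lit 78) (nat_lit 0) (nat_lit 0) (XT.lf (nat_lit 0) (nat_lit 33941408545)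 (nat_lit 152) (nat_lit 770796511742) (nat_lit 0) (nat_lit 18123757945) (nat_lit 1) (nat_lit 5) (nat_lit 3) (nat_lit 4) (nat_lit 1) (nat_lit 4) (nat_lit 267) (nat_lit 221) (nat_lit 172)) (XT.nd (nat_lit 78) (nat_lit 0) (nat_lit 0) (XT.lf (nat_lit 0) (nat_lit 55016875845) (nat_lit 152) (nat_lit 850598713106) (nat_lit 0) (nat_lit 39197033437) (nat_lit 1) (nat_lit 5) (nat_lit 3) (nat_lit 4) (nat_lit 1) (nat_lit 4) (nat_lit 268) (nat_lit 221) (nat_lit 171)) (XT.lf (nat_lit 0) (nat_lit 79248921496) (nat_lit 152) (nat_lit 942380495312) (nat_lit 0) (nat_lit 63427173169) (nat_lit 1) (nat_lit 5) (nat_lit 3) (nat_lit 4) (nat_lit 1) (nat_lit 4) (nat_lit 269) (nat_lit 221) (nat_lit 170))))) (XT.nd (nat_lit 234) (nat_lit 0) (nat_lit 0) (XT.nd (nat_lit 78) (nat_lit 0) (nat_lit 0) (XT.lf (nat_lit 0) (nat_lit 107111650739) (nat_lit 152) (nat_lit 1047937588881) (nat_lit 0) (nat_lit 91288245091) (nat_lit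 1) (nat_lit 5) (nat_lit 3) (nat_lit 4) (nat_lit 1) (nat_lit 4) (nat_lit 270) (nat_lit 221) (nat_lit 169)) (XT.nd (nat_lit 78) (nat_lit 0) (nat_lit 0) (XT.lf (nat_lit 0) (nat_lit 139150203928) (nat_lit 152) (nat_lit 1169335241294) (nat_lit 0) (nat_lit 123325357131) (nat_lit 1) (nat_lit 5) (nat_lit 3) (nat_lit 4) (nat_lit 1) (nat_lit 4) (nat_lit 271) (nat_lit 221) (nat_lit 168)) (XT.lf (nat_lit 0) (nat_lit 175991422322) (nat_lit 152) (nat_lit 1308948624014) (nat_lit 0) (nat_lit 160165322352) (nat_lit 1) (nat_lit 5) (nat_lit 3) (nat_lit 4) (nat_lit 1) (nat_lit 4) (nat_lit 272) (nat_lit 221) (nat_lit 167)))) (XT.nd (nat_lit 78) (nat_lit 0) (nat_lit 0) (XT.lf (nat_lit 0) (nat_lit 218356112367) (nat_lit 152) (nat_lit 1469509303222) (nat_lit 0) (nat_lit 202528922682) (nat_lit 1) (nat_lit 5) (nat_lit 3) (nat_lit 4) (nat_lit 1) (nat_lit 4) (nat_lit 273) (nat_lit 221) (nat_lit 166)) (XT.nd (nat_lit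 78) (nat_lit 0) (nat_lit 0) (XT.lf (nat_lit 0) (nat_lit 267073148434) (nat_lit 152) (nat_lit 1654158683514) (nat_lit 0) (nat_lit 251245011170) (nat_lit 1) (nat_lit 5) (nat_lit 3) (nat_lit 4) (nat_lit 1) (nat_lit 4) (nat_lit 274) (nat_lit 221) (nat_lit 165)) (XT.lf (nat_lit 0) (nat_lit 323095689925) (nat_lit 152) (nat_lit 1866509470154) (nat_lit 0) (nat_lit 307266728679) (nat_lit 1) (nat_lit 5) (nat_lit 3) (nat_lit 4) (nat_lit 1) (nat_lit 4) (nat_lit 275) (nat_lit 221) (nat_lit 164))))))))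
noncomputable def xc26 : XT := (XT.nd (nat_lit 31200) (nat_lit 0) (nat_lit 152) (XT.nd (nat_lit 30264) (nat_lit 0) (nat_lit 1748) (XT.nd (nat_lit 468) (nat_lit 0) (nat_lit 0) (XT.nd (nat_lit 234) (nat_lit 0) (nat_lit 0) (XT.nd (nat_lit 78) (nat_lit 0) (nat_lit 0) (XT.lf (nat_lit 0) (nat_lit 387519830041) (nat_lit 152) (nat_lit 2110716352447) (nat_lit 0) (nat_lit 371690152290) (nat_lit 1) (nat_lit 5) (nat_lit 3) (nat_lit 4) (nat_lit 1) (nat_lit 4) (nat_lit 276) (nat_lit 221) (nat_lit 163)) (XT.nd (nat_lit 78) (nat_lit 0) (nat_lit 0) (XT.lf (nat_lit 0) (nat_lit 461606041091) (nat_lit 152) (nat_lit 2391557291134) (nat_lit 0) (nat_lit 445775740291) (nat_lit 1) (nat_lit 5) (nat_lit 3) (nat_lit 4) (nat_lit 1) (nat_lit 4) (nat_lit 277) (nat_lit 221) (nat_lit 162)) (XT.lf (nat_lit 0) (nat_lit 546803835898) (nat_lit 152) (nat_lit 2714527000231) (nat_lit 0) (nat_lit 530972993318) (nat_lit 1) (nat_lit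 5) (nat_lit 3) (nat_lit 4) (nat_lit 1) (nat_lit 4) (nat_lit 278) (nat_lit 221) (nat_lit 161)))) (XT.nd (nat_lit 78) (nat_lit 0) (nat_lit 0) (XT.lf (nat_lit 0) (nat_lit 644780127840) (nat_lit 152) (nat_lit 3085944452310) (nat_lit 0) (nat_lit 628948814145) (nat_lit 1) (nat_lit 5) (nat_lit 3) (nat_lit 4) (nat_lit 1) (nat_lit 4) (nat_lit 279) (nat_lit 221) (nat_lit 160)) (XT.nd (nat_lit 78) (nat_lit 0) (nat_lit 0) (XT.lf (nat_lit 0) (nat_lit 757451844368) (nat_lit 152) (nat_lit 3513076510561) (nat_lit 0) (nat_lit 741620121008) (nat_lit 1) (nat_lit 5) (nat_lit 3) (nat_lit 4) (nat_lit 1) (nat_lit 4) (nat_lit 280) (nat_lit 221) (nat_lit 159)) (XT.lf (nat_lit 0) (nat_lit 887023432108) (nat_lit 152) (nat_lit 4004280106561) (nat_lit 0) (nat_lit 871191352519) (nat_lit 1) (nat_lit 5) (nat_lit 3) (nat_lit 4) (nat_lit 1) (nat_lit 4) (nat_lit 281) (nat_lit 221) (nat_lit 158))))) (XT.nd (nat_lit 234)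 (nat_lit 0) (nat_lit 0) (XT.nd (nat_lit 78) (nat_lit 0) (nat_lit 0) (XT.lf (nat_lit 0) (nat_lit 1036029987344) (nat_lit 152) (nat_lit 4569165745447) (nat_lit 0) (nat_lit 1020197597989) (nat_lit 1) (nat_lit 5) (nat_lit 3) (nat_lit 4) (nat_lit 1) (nat_lit 4) (nat_lit 282) (nat_lit 221) (nat_lit 157)) (XT.nd (nat_lit 78) (nat_lit 0) (nat_lit 0) (XT.lf (nat_lit 0) (nat_lit 1207386855721) (nat_lit 152) (nat_lit 5218785537547) (nat_lit 0) (nat_lit 1191554197005) (nat_lit 1) (nat_lit 5) (nat_lit 3) (nat_lit 4) (nat_lit 1) (nat_lit 4) (nat_lit 283) (nat_lit 221) (nat_lit 156)) (XT.lf (nat_lit 0) (nat_lit 1404446671620) (nat_lit 152) (nat_lit 5965849435313) (nat_lit 0) (nat_lit 1388613778677) (nat_lit 1) (nat_lit 5) (nat_lit 3) (nat_lit 4) (nat_lit 1) (nat_lit 4) (nat_lit 284) (nat_lit 221) (nat_lit 155)))) (XT.nd (nat_lit 78) (nat_lit 0) (nat_lit 0) (XT.lf (nat_lit 0) (nat_lit 1631064953178)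 (nat_lit 152) (nat_lit 6824973906312) (nat_lit 0) (nat_lit 1615231856560) (nat_lit 1) (nat_lit 5) (nat_lit 3) (nat_lit 4) (nat_lit 1) (nat_lit 4) (nat_lit 285) (nat_lit 221) (nat_lit 154)) (XT.nd (nat_lit 29406) (nat_lit 0) (nat_lit 4560) (XT.lf (nat_lit 0) (nat_lit 1891675536339) (nat_lit 152) (nat_lit 7812967907584) (nat_lit 0) (nat_lit 1875842262612) (nat_lit 1) (nat_lit 5) (nat_lit 3) (nat_lit 4) (nat_lit 1) (nat_lit 4) (nat_lit 286) (nat_lit 221) (nat_lit 153)) (XT.lf (nat_lit 0) (nat_lit 1189770651) (nat_lit 0) (nat_lit 1189770651) (nat_lit 228) (nat_lit 1034041821) (nat_lit 61) (nat_lit 5) (nat_lit 61) (nat_lit 3) (nat_lit 64) (nat_lit 3) (nat_lit 222) (nat_lit 222) (nat_lit 216)))))) (XT.nd (nat_lit 468) (nat_lit 1292) (nat_lit 0) (XT.nd (nat_lit 234) (nat_lit 836) (nat_lit 0) (XT.nd (nat_lit 78) (nat_lit 380) (nat_lit 0) (XT.lf (nat_lit 0) (nat_lit 1309620746) (nat_lit 304) (nat_lit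 5548575522) (nat_lit 380) (nat_lit 197540562) (nat_lit 57) (nat_lit 5) (nat_lit 61) (nat_lit 5) (nat_lit 62) (nat_lit 5) (nat_lit 223) (nat_lit 222) (nat_lit 215)) (XT.nd (nat_lit 78) (nat_lit 380) (nat_lit 0) (XT.lf (nat_lit 76) (nat_lit 830274349) (nat_lit 0) (nat_lit 3859659175) (nat_lit 380) (nat_lit 2657385344) (nat_lit 58) (nat_lit 5) (nat_lit 57) (nat_lit 5) (nat_lit 62) (nat_lit 5) (nat_lit 224) (nat_lit 222) (nat_lit 214)) (XT.lf (nat_lit 76) (nat_lit 429880603) (nat_lit 0) (nat_lit 46375609) (nat_lit 456) (nat_lit 7236561654) (nat_lit 53) (nat_lit 5) (nat_lit 52) (nat_lit 5) (nat_lit 58) (nat_lit 5) (nat_lit 225) (nat_lit 222) (nat_lit 213)))) (XT.nd (nat_lit 78) (nat_lit 532) (nat_lit 0) (XT.lf (nat_lit 0) (nat_lit 110187201) (nat_lit 380) (nat_lit 3634709026) (nat_lit 456) (nat_lit 4398687035) (nat_lit 48) (nat_lit 5) (nat_lit 53) (nat_lit 5) (nat_lit 54) (nat_lit 5) (nat_lit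 226) (nat_lit 222) (nat_lit 212)) (XT.nd (nat_lit 78) (nat_lit 532) (nat_lit 0) (XT.lf (nat_lit 0) (nat_lit 7320856993) (nat_lit 456) (nat_lit 12829655) (nat_lit 76) (nat_lit 1321434243) (nat_lit 48) (nat_lit 5) (nat_lit 54) (nat_lit 5) (nat_lit 49) (nat_lit 5) (nat_lit 227) (nat_lit 222) (nat_lit 211)) (XT.lf (nat_lit 0) (nat_lit 2027349908) (nat_lit 532) (nat_lit 86055767) (nat_lit 76) (nat_lit 7131227940) (nat_lit 41) (nat_lit 5) (nat_lit 48) (nat_lit 5) (nat_lit 42) (nat_lit 5) (nat_lit 228) (nat_lit 222) (nat_lit 210))))) (XT.nd (nat_lit 234) (nat_lit 532) (nat_lit 0) (XT.nd (nat_lit 78) (nat_lit 532) (nat_lit 0) (XT.lf (nat_lit 0) (nat_lit 5813948961) (nat_lit 304) (nat_lit 133485083) (nat_lit 76) (nat_lit 3973450773) (nat_lit 38) (nat_lit 5) (nat_lit 42) (nat_lit 5) (nat_lit 39) (nat_lit 5) (nat_lit 229) (nat_lit 222) (nat_lit 209)) (XT.nd (nat_lit 78) (nat_lit 304) (nat_lit 0)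 (XT.lf (nat_lit 0) (nat_lit 10188689134) (nat_lit 304) (nat_lit 130632635) (nat_lit 76) (nat_lit 378564860) (nat_lit 35) (nat_lit 5) (nat_lit 39) (nat_lit 5) (nat_lit 36) (nat_lit 5) (nat_lit 230) (nat_lit 222) (nat_lit 208)) (XT.lf (nat_lit 0) (nat_lit 3618401934) (nat_lit 304) (nat_lit 311143035) (nat_lit 76) (nat_lit 7641922055) (nat_lit 31) (nat_lit 5) (nat_lit 35) (nat_lit 5) (nat_lit 32) (nat_lit 5) (nat_lit 231) (nat_lit 222) (nat_lit 207)))) (XT.nd (nat_lit 78) (nat_lit 380) (nat_lit 0) (XT.lf (nat_lit 0) (nat_lit 8466125327) (nat_lit 228) (nat_lit 599710699) (nat_lit 76) (nat_lit 3499347286) (nat_lit 29) (nat_lit 5) (nat_lit 32) (nat_lit 5) (nat_lit 30) (nat_lit 5) (nat_lit 232) (nat_lit 222) (nat_lit 206)) (XT.nd (nat_lit 78) (nat_lit 152) (nat_lit 0) (XT.lf (nat_lit 0) (nat_lit 514015497) (nat_lit 228) (nat_lit 1099215655) (nat_lit 76) (nat_lit 12078796489) (nat_lit 26) (nat_lit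 5) (nat_lit 29) (nat_lit 5) (nat_lit 27) (nat_lit 5) (nat_lit 233) (nat_lit 222) (nat_lit 205)) (XT.lf (nat_lit 0) (nat_lit 5881156237) (nat_lit 228) (nat_lit 2088403009) (nat_lit 76) (nat_lit 6985889991) (nat_lit 24) (nat_lit 5) (nat_lit 27) (nat_lit 5) (nat_lit 25) (nat_lit 5) (nat_lit 234) (nat_lit 222) (nat_lit 204))))))) (XT.nd (nat_lit 936) (nat_lit 380) (nat_lit 0) (XT.nd (nat_lit 468) (nat_lit 456) (nat_lit 0) (XT.nd (nat_lit 234) (nat_lit 304) (nat_lit 0) (XT.nd (nat_lit 78) (nat_lit 304) (nat_lit 0) (XT.lf (nat_lit 0) (nat_lit 12265126648) (nat_lit 228) (nat_lit 3503783070) (nat_lit 76) (nat_lit 622927961) (nat_lit 22) (nat_lit 5) (nat_lit 25) (nat_lit 5) (nat_lit 23) (nat_lit 4) (nat_lit 235) (nat_lit 222) (nat_lit 203)) (XT.nd (nat_lit 78) (nat_lit 152) (nat_lit 0) (XT.lf (nat_lit 0) (nat_lit 1898951737) (nat_lit 152) (nat_lit 5738887701) (nat_lit 76) (nat_lit 10370024665)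 (nat_lit 20) (nat_lit 5) (nat_lit 22) (nat_lit 5) (nat_lit 21) (nat_lit 5) (nat_lit 236) (nat_lit 222) (nat_lit 202)) (XT.lf (nat_lit 0) (nat_lit 8847412887) (nat_lit 228) (nat_lit 8958479387) (nat_lit 76) (nat_lit 2031039586) (nat_lit 18) (nat_lit 5) (nat_lit 21) (nat_lit 5) (nat_lit 19) (nat_lit 4) (nat_lit 237) (nat_lit 222) (nat_lit 201)))) (XT.nd (nat_lit 78) (nat_lit 228) (nat_lit 0) (XT.lf (nat_lit 0) (nat_lit 8365910848) (nat_lit 76) (nat_lit 8906812000) (nat_lit 152) (nat_lit 4633110612) (nat_lit 17) (nat_lit 5) (nat_lit 18) (nat_lit 5) (nat_lit 19) (nat_lit 4) (nat_lit 238) (nat_lit 222) (nat_lit 200)) (XT.nd (nat_lit 78) (nat_lit 0) (nat_lit 0) (XT.lf (nat_lit 0) (nat_lit 2820535695) (nat_lit 228) (nat_lit 19814292246) (nat_lit 76) (nat_lit 1623071225) (nat_lit 14) (nat_lit 5) (nat_lit 17) (nat_lit 5) (nat_lit 15) (nat_lit 4) (nat_lit 239) (nat_lit 222) (nat_lit 199)) (XT.lf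 (nat_lit 0) (nat_lit 11648447167) (nat_lit 228) (nat_lit 1592441161) (nat_lit 76) (nat_lit 13669983218) (nat_lit 14) (nat_lit 5) (nat_lit 17) (nat_lit 5) (nat_lit 15) (nat_lit 4) (nat_lit 240) (nat_lit 222) (nat_lit 198))))) (XT.nd (nat_lit 234) (nat_lit 228) (nat_lit 0) (XT.nd (nat_lit 78) (nat_lit 152) (nat_lit 0) (XT.lf (nat_lit 0) (nat_lit 20179920989) (nat_lit 76) (nat_lit 1994622018) (nat_lit 152) (nat_lit 7757473109) (nat_lit 13) (nat_lit 5) (nat_lit 14) (nat_lit 5) (nat_lit 15) (nat_lit 4) (nat_lit 241) (nat_lit 222) (nat_lit 197)) (XT.nd (nat_lit 78) (nat_lit 0) (nat_lit 0) (XT.lf (nat_lit 0) (nat_lit 1340411671) (nat_lit 152) (nat_lit 21331520966) (nat_lit 76) (nat_lit 10691967498) (nat_lit 11) (nat_lit 5) (nat_lit 13) (nat_lit 5) (nat_lit 12) (nat_lit 4) (nat_lit 242) (nat_lit 222) (nat_lit 196)) (XT.lf (nat_lit 0) (nat_lit 11607196731) (nat_lit 152) (nat_lit 61966298) (nat_lit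 76) (nat_lit 25604302900) (nat_lit 11) (nat_lit 5) (nat_lit 13) (nat_lit 5) (nat_lit 12) (nat_lit 4) (nat_lit 243) (nat_lit 222) (nat_lit 195)))) (XT.nd (nat_lit 78) (nat_lit 152) (nat_lit 0) (XT.lf (nat_lit 0) (nat_lit 23982443760) (nat_lit 152) (nat_lit 16239896280) (nat_lit 0) (nat_lit 1501739990) (nat_lit 10) (nat_lit 5) (nat_lit 12) (nat_lit 4) (nat_lit 10) (nat_lit 4) (nat_lit 244) (nat_lit 222) (nat_lit 194)) (XT.nd (nat_lit 78) (nat_lit 76) (nat_lit 0) (XT.lf (nat_lit 0) (nat_lit 7957482373) (nat_lit 76) (nat_lit 30695128263) (nat_lit 76) (nat_lit 8154662358) (nat_lit 9) (nat_lit 4) (nat_lit 10) (nat_lit 5) (nat_lit 10) (nat_lit 4) (nat_lit 245) (nat_lit 222) (nat_lit 193)) (XT.lf (nat_lit 0) (nat_lit 3139599604) (nat_lit 152) (nat_lit 16062065800) (nat_lit 76) (nat_lit 33412792907) (nat_lit 8) (nat_lit 5) (nat_lit 10) (nat_lit 5) (nat_lit 9) (nat_lit 4) (nat_lit 246) (nat_lit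 222) (nat_lit 192)))))) (XT.nd (nat_lit 468) (nat_lit 76) (nat_lit 0) (XT.nd (nat_lit 234) (nat_lit 152) (nat_lit 0) (XT.nd (nat_lit 78) (nat_lit 76) (nat_lit 0) (XT.lf (nat_lit 0) (nat_lit 10318323217) (nat_lit 76) (nat_lit 5525881088) (nat_lit 152) (nat_lit 43415702502) (nat_lit 7) (nat_lit 5) (nat_lit 8) (nat_lit 5) (nat_lit 9) (nat_lit 4) (nat_lit 247) (nat_lit 222) (nat_lit 191)) (XT.nd (nat_lit 78) (nat_lit 76) (nat_lit 0) (XT.lf (nat_lit 0) (nat_lit 31121241256) (nat_lit 152) (nat_lit 25603542577) (nat_lit 0) (nat_lit 10124096523) (nat_lit 7) (nat_lit 5) (nat_lit 9) (nat_lit 4) (nat_lit 7) (nat_lit 4) (nat_lit 248) (nat_lit 222) (nat_lit 190)) (XT.lf (nat_lit 0) (nat_lit 1038922773) (nat_lit 76) (nat_lit 47777968210) (nat_lit 76) (nat_lit 26749185334) (nat_lit 6) (nat_lit 4) (nat_lit 7) (nat_lit 5) (nat_lit 7) (nat_lit 4) (nat_lit 249) (nat_lit 222) (nat_lit 189)))) (XT.nd (nat_lit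 78) (nat_lit 152) (nat_lit 0) (XT.lf (nat_lit 0) (nat_lit 33140886842) (nat_lit 76) (nat_lit 36725180221) (nat_lit 76) (nat_lit 15668885917) (nat_lit 6) (nat_lit 4) (nat_lit 7) (nat_lit 5) (nat_lit 7) (nat_lit 4) (nat_lit 250) (nat_lit 222) (nat_lit 188)) (XT.nd (nat_lit 78) (nat_lit 152) (nat_lit 0) (XT.lf (nat_lit 0) (nat_lit 69982194354) (nat_lit 76) (nat_lit 24050215894) (nat_lit 76) (nat_lit 2969998608) (nat_lit 6) (nat_lit 4) (nat_lit 7) (nat_lit 5) (nat_lit 7) (nat_lit 4) (nat_lit 251) (nat_lit 222) (nat_lit 187)) (XT.lf (nat_lit 0) (nat_lit 1907378619) (nat_lit 76) (nat_lit 9154351427) (nat_lit 152) (nat_lit 99105096771) (nat_lit 4) (nat_lit 5) (nat_lit 5) (nat_lit 5) (nat_lit 6) (nat_lit 4) (nat_lit 252) (nat_lit 222) (nat_lit 186))))) (XT.nd (nat_lit 234) (nat_lit 76) (nat_lit 0) (XT.nd (nat_lit 78) (nat_lit 0) (nat_lit 0) (XT.lf (nat_lit 0) (nat_lit 27992857243) (nat_lit 152)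 (nat_lit 88791134180) (nat_lit 0) (nat_lit 8438126605) (nat_lit 4) (nat_lit 5) (nat_lit 6) (nat_lit 4) (nat_lit 4) (nat_lit 4) (nat_lit 253) (nat_lit 222) (nat_lit 185)) (XT.nd (nat_lit 78) (nat_lit 0) (nat_lit 0) (XT.lf (nat_lit 0) (nat_lit 47687778139) (nat_lit 152) (nat_lit 66711530746) (nat_lit 0) (nat_lit 28118482919) (nat_lit 4) (nat_lit 5) (nat_lit 6) (nat_lit 4) (nat_lit 4) (nat_lit 4) (nat_lit 254) (nat_lit 222) (nat_lit 184)) (XT.lf (nat_lit 0) (nat_lit 70311665773) (nat_lit 152) (nat_lit 41368483285) (nat_lit 0) (nat_lit 50729705699) (nat_lit 4) (nat_lit 5) (nat_lit 6) (nat_lit 4) (nat_lit 4) (nat_lit 4) (nat_lit 255) (nat_lit 222) (nat_lit 183)))) (XT.nd (nat_lit 78) (nat_lit 76) (nat_lit 0) (XT.lf (nat_lit 0) (nat_lit 96307161424) (nat_lit 152) (nat_lit 12266149562) (nat_lit 0) (nat_lit 76714188433) (nat_lit 4) (nat_lit 5) (nat_lit 6) (nat_lit 4) (nat_lit 4) (nat_lit 4) (nat_lit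 256) (nat_lit 222) (nat_lit 182)) (XT.nd (nat_lit 78) (nat_lit 0) (nat_lit 0) (XT.lf (nat_lit 0) (nat_lit 22279368132) (nat_lit 76) (nat_lit 104439323821) (nat_lit 76) (nat_lit 84836774382) (nat_lit 3) (nat_lit 4) (nat_lit 4) (nat_lit 5) (nat_lit 4) (nat_lit 4) (nat_lit 257) (nat_lit 222) (nat_lit 181)) (XT.lf (nat_lit 0) (nat_lit 62715947883) (nat_lit 76) (nat_lit 99315696302) (nat_lit 76) (nat_lit 79704819516) (nat_lit 3) (nat_lit 4) (nat_lit 4) (nat_lit 5) (nat_lit 4) (nat_lit 4) (nat_lit 258) (nat_lit 222) (nat_lit 180))))))))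
noncomputable def xc27 : XT := (XT.nd (nat_lit 1872) (nat_lit 0) (nat_lit 0) (XT.nd (nat_lit 936) (nat_lit 0) (nat_lit 0) (XT.nd (nat_lit 468) (nat_lit 152) (nat_lit 0) (XT.nd (nat_lit 234) (nat_lit 0) (nat_lit 0) (XT.nd (nat_lit 78) (nat_lit 0) (nat_lit 0) (XT.lf (nat_lit 0) (nat_lit 109188826464) (nat_lit 76) (nat_lit 93437561809) (nat_lit 76) (nat_lit 73819443851) (nat_lit 3) (nat_lit 4) (nat_lit 4) (nat_lit 5) (nat_lit 4) (nat_lit 4) (nat_lit 259) (nat_lit 222) (nat_lit 179)) (XT.nd (nat_lit 78) (nat_lit 0) (nat_lit 0) (XT.lf (nat_lit 0) (nat_lit 162607255847) (nat_lit 76) (nat_lit 86689913363) (nat_lit 76) (nat_lit 67065498734) (nat_lit 3) (nat_lit 4) (nat_lit 4) (nat_lit 5) (nat_lit 4) (nat_lit 4) (nat_lit 260) (nat_lit 222) (nat_lit 178)) (XT.lf (nat_lit 0) (nat_lit 224016379216) (nat_lit 76) (nat_lit 78940731755) (nat_lit 76) (nat_lit 59310841760) (nat_lit 3) (nat_lit 4) (nat_lit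 4) (nat_lit 5) (nat_lit 4) (nat_lit 4) (nat_lit 261) (nat_lit 222) (nat_lit 177)))) (XT.nd (nat_lit 78) (nat_lit 0) (nat_lit 0) (XT.lf (nat_lit 0) (nat_lit 294617679419) (nat_lit 76) (nat_lit 70038402562) (nat_lit 76) (nat_lit 50403751379) (nat_lit 3) (nat_lit 4) (nat_lit 4) (nat_lit 5) (nat_lit 4) (nat_lit 4) (nat_lit 262) (nat_lit 222) (nat_lit 176)) (XT.nd (nat_lit 78) (nat_lit 0) (nat_lit 0) (XT.lf (nat_lit 0) (nat_lit 375792486244) (nat_lit 76) (nat_lit 59808749778) (nat_lit 76) (nat_lit 40169958432) (nat_lit 3) (nat_lit 4) (nat_lit 4) (nat_lit 5) (nat_lit 4) (nat_lit 4) (nat_lit 263) (nat_lit 222) (nat_lit 175)) (XT.lf (nat_lit 0) (nat_lit 469129002432) (nat_lit 76) (nat_lit 48051628023) (nat_lit 76) (nat_lit 28409236535) (nat_lit 3) (nat_lit 4) (nat_lit 4) (nat_lit 5) (nat_lit 4) (nat_lit 4) (nat_lit 264) (nat_lit 222) (nat_lit 174))))) (XT.nd (nat_lit 234) (nat_lit 0) (nat_lit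 0) (XT.nd (nat_lit 78) (nat_lit 152) (nat_lit 0) (XT.lf (nat_lit 0) (nat_lit 576453377212) (nat_lit 76) (nat_lit 34537006654) (nat_lit 76) (nat_lit 14891484608) (nat_lit 3) (nat_lit 4) (nat_lit 4) (nat_lit 5) (nat_lit 4) (nat_lit 4) (nat_lit 265) (nat_lit 222) (nat_lit 173)) (XT.nd (nat_lit 78) (nat_lit 76) (nat_lit 0) (XT.lf (nat_lit 0) (nat_lit 615370770) (nat_lit 152) (nat_lit 18368273067) (nat_lit 76) (nat_lit 699233239212) (nat_lit 2) (nat_lit 5) (nat_lit 4) (nat_lit 5) (nat_lit 3) (nat_lit 4) (nat_lit 266) (nat_lit 222) (nat_lit 172)) (XT.lf (nat_lit 0) (nat_lit 17820771128) (nat_lit 76) (nat_lit 194316636) (nat_lit 152) (nat_lit 806320235511) (nat_lit 1) (nat_lit 5) (nat_lit 2) (nat_lit 5) (nat_lit 3) (nat_lit 4) (nat_lit 267) (nat_lit 222) (nat_lit 171)))) (XT.nd (nat_lit 78) (nat_lit 0) (nat_lit 0) (XT.lf (nat_lit 0) (nat_lit 39083676282) (nat_lit 152) (nat_lit 886316382814)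 (nat_lit 0) (nat_lit 20886759787) (nat_lit 1) (nat_lit 5) (nat_lit 3) (nat_lit 4) (nat_lit 1) (nat_lit 4) (nat_lit 268) (nat_lit 222) (nat_lit 170)) (XT.nd (nat_lit 78) (nat_lit 0) (nat_lit 0) (XT.lf (nat_lit 0) (nat_lit 63313804139) (nat_lit 152) (nat_lit 978101906429) (nat_lit 0) (nat_lit 45115230323) (nat_lit 1) (nat_lit 5) (nat_lit 3) (nat_lit 4) (nat_lit 1) (nat_lit 4) (nat_lit 269) (nat_lit 222) (nat_lit 169)) (XT.lf (nat_lit 0) (nat_lit 91174865736) (nat_lit 152) (nat_lit 1083662253398) (nat_lit 0) (nat_lit 72974850770) (nat_lit 1) (nat_lit 5) (nat_lit 3) (nat_lit 4) (nat_lit 1) (nat_lit 4) (nat_lit 270) (nat_lit 222) (nat_lit 168)))))) (XT.nd (nat_lit 468) (nat_lit 0) (nat_lit 0) (XT.nd (nat_lit 234) (nat_lit 0) (nat_lit 0) (XT.nd (nat_lit 78) (nat_lit 0) (nat_lit 0) (XT.lf (nat_lit 0) (nat_lit 123211968797) (nat_lit 152) (nat_lit 1205062734855) (nat_lit 0) (nat_lit 105010700659)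 (nat_lit 1) (nat_lit 5) (nat_lit 3) (nat_lit 4) (nat_lit 1) (nat_lit 4) (nat_lit 271) (nat_lit 222) (nat_lit 167)) (XT.nd (nat_lit 78) (nat_lit 0) (nat_lit 0) (XT.lf (nat_lit 0) (nat_lit 160051926211) (nat_lit 152) (nat_lit 1344678577612) (nat_lit 0) (nat_lit 141849568357) (nat_lit 1) (nat_lit 5) (nat_lit 3) (nat_lit 4) (nat_lit 1) (nat_lit 4) (nat_lit 272) (nat_lit 222) (nat_lit 166)) (XT.lf (nat_lit 0) (nat_lit 202415519752) (nat_lit 152) (nat_lit 1505241395984) (nat_lit 0) (nat_lit 184212214319) (nat_lit 1) (nat_lit 5) (nat_lit 3) (nat_lit 4) (nat_lit 1) (nat_lit 4) (nat_lit 273) (nat_lit 222) (nat_lit 165)))) (XT.nd (nat_lit 78) (nat_lit 0) (nat_lit 0) (XT.lf (nat_lit 0) (nat_lit 251131602337) (nat_lit 152) (nat_lit 1689892636418) (nat_lit 0) (nat_lit 232927472923) (nat_lit 1) (nat_lit 5) (nat_lit 3) (nat_lit 4) (nat_lit 1) (nat_lit 4) (nat_lit 274) (nat_lit 222) (nat_lit 164)) (XT.nd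 (nat_lit 78) (nat_lit 0) (nat_lit 0) (XT.lf (nat_lit 0) (nat_lit 307153314712) (nat_lit 152) (nat_lit 1902245040573) (nat_lit 0) (nat_lit 288948468792) (nat_lit 1) (nat_lit 5) (nat_lit 3) (nat_lit 4) (nat_lit 1) (nat_lit 4) (nat_lit 275) (nat_lit 222) (nat_lit 163)) (XT.lf (nat_lit 0) (nat_lit 371576733859) (nat_lit 152) (nat_lit 2146453329400) (nat_lit 0) (nat_lit 353371264891) (nat_lit 1) (nat_lit 5) (nat_lit 3) (nat_lit 4) (nat_lit 1) (nat_lit 4) (nat_lit 276) (nat_lit 222) (nat_lit 162))))) (XT.nd (nat_lit 234) (nat_lit 0) (nat_lit 0) (XT.nd (nat_lit 78) (nat_lit 0) (nat_lit 0) (XT.lf (nat_lit 0) (nat_lit 445662317979) (nat_lit 152) (nat_lit 2427295491161) (nat_lit 0) (nat_lit 427456307230) (nat_lit 1) (nat_lit 5) (nat_lit 3) (nat_lit 4) (nat_lit 1) (nat_lit 4) (nat_lit 277) (nat_lit 222) (nat_lit 161)) (XT.nd (nat_lit 78) (nat_lit 0) (nat_lit 0) (XT.lf (nat_lit 0) (nat_lit 530859567630)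 (nat_lit 152) (nat_lit 2750266263801) (nat_lit 0) (nat_lit 512653085766) (nat_lit 1) (nat_lit 5) (nat_lit 3) (nat_lit 4) (nat_lit 1) (nat_lit 4) (nat_lit 278) (nat_lit 222) (nat_lit 160)) (XT.lf (nat_lit 0) (nat_lit 628835385522) (nat_lit 152) (nat_lit 3121684640698) (nat_lit 0) (nat_lit 610628493994) (nat_lit 1) (nat_lit 5) (nat_lit 3) (nat_lit 4) (nat_lit 1) (nat_lit 4) (nat_lit 279) (nat_lit 222) (nat_lit 159)))) (XT.nd (nat_lit 78) (nat_lit 0) (nat_lit 0) (XT.lf (nat_lit 0) (nat_lit 741506689833) (nat_lit 152) (nat_lit 3548817503141) (nat_lit 0) (nat_lit 723299442075) (nat_lit 1) (nat_lit 5) (nat_lit 3) (nat_lit 4) (nat_lit 1) (nat_lit 4) (nat_lit 280) (nat_lit 222) (nat_lit 158)) (XT.nd (nat_lit 78) (nat_lit 0) (nat_lit 0) (XT.lf (nat_lit 0) (nat_lit 871077919124) (nat_lit 152) (nat_lit 4040021798436) (nat_lit 0) (nat_lit 852870361601) (nat_lit 1) (nat_lit 5) (nat_lit 3) (nat_lit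 4) (nat_lit 1) (nat_lit 4) (nat_lit 281) (nat_lit 222) (nat_lit 157)) (XT.lf (nat_lit 0) (nat_lit 1020084162665) (nat_lit 152) (nat_lit 4604908045407) (nat_lit 0) (nat_lit 1001876335781) (nat_lit 1) (nat_lit 5) (nat_lit 3) (nat_lit 4) (nat_lit 1) (nat_lit 4) (nat_lit 282) (nat_lit 222) (nat_lit 156))))))) (XT.nd (nat_lit 30342) (nat_lit 0) (nat_lit 760) (XT.nd (nat_lit 29874) (nat_lit 0) (nat_lit 2584) (XT.nd (nat_lit 234) (nat_lit 0) (nat_lit 0) (XT.nd (nat_lit 78) (nat_lit 0) (nat_lit 0) (XT.lf (nat_lit 0) (nat_lit 1191440760002) (nat_lit 152) (nat_lit 5254528366274) (nat_lit 0) (nat_lit 1173232698892) (nat_lit 1) (nat_lit 5) (nat_lit 3) (nat_lit 4) (nat_lit 1) (nat_lit 4) (nat_lit 283) (nat_lit 222) (nat_lit 155)) (XT.nd (nat_lit 78) (nat_lit 0) (nat_lit 0) (XT.lf (nat_lit 0) (nat_lit 1388500340215) (nat_lit 152) (nat_lit 6001592723840) (nat_lit 0) (nat_lit 1370292075429) (nat_lit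 1) (nat_lit 5) (nat_lit 3) (nat_lit 4) (nat_lit 1) (nat_lit 4) (nat_lit 284) (nat_lit 222) (nat_lit 154)) (XT.lf (nat_lit 0) (nat_lit 1615118416829) (nat_lit 152) (nat_lit 6860717594663) (nat_lit 0) (nat_lit 1596909974933) (nat_lit 1) (nat_lit 5) (nat_lit 3) (nat_lit 4) (nat_lit 1) (nat_lit 4) (nat_lit 285) (nat_lit 222) (nat_lit 153)))) (XT.nd (nat_lit 29484) (nat_lit 0) (nat_lit 4180) (XT.lf (nat_lit 0) (nat_lit 1875728821778) (nat_lit 152) (nat_lit 7848711943609) (nat_lit 0) (nat_lit 1857520225874) (nat_lit 1) (nat_lit 5) (nat_lit 3) (nat_lit 4) (nat_lit 1) (nat_lit 4) (nat_lit 286) (nat_lit 222) (nat_lit 152)) (XT.nd (nat_lit 78) (nat_lit 0) (nat_lit 0) (XT.lf (nat_lit 0) (nat_lit 2110589737) (nat_lit 380) (nat_lit 772331267) (nat_lit 380) (nat_lit 772331267) (nat_lit 56) (nat_lit 3) (nat_lit 61) (nat_lit 3) (nat_lit 61) (nat_lit 5) (nat_lit 223) (nat_lit 223) (nat_lit 214)) (XT.lf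 (nat_lit 76) (nat_lit 4955004680) (nat_lit 0) (nat_lit 2257862812) (nat_lit 380) (nat_lit 421318448) (nat_lit 57) (nat_lit 5) (nat_lit 56) (nat_lit 3) (nat_lit 61) (nat_lit 5) (nat_lit 224) (nat_lit 223) (nat_lit 213))))) (XT.nd (nat_lit 234) (nat_lit 988) (nat_lit 0) (XT.nd (nat_lit 78) (nat_lit 304) (nat_lit 0) (XT.lf (nat_lit 0) (nat_lit 2243902963) (nat_lit 380) (nat_lit 3693200215) (nat_lit 456) (nat_lit 2087617309) (nat_lit 52) (nat_lit 5) (nat_lit 57) (nat_lit 5) (nat_lit 58) (nat_lit 5) (nat_lit 225) (nat_lit 223) (nat_lit 212)) (XT.nd (nat_lit 78) (nat_lit 304) (nat_lit 0) (XT.lf (nat_lit 76) (nat_lit 3906718437) (nat_lit 0) (nat_lit 1198715580) (nat_lit 456) (nat_lit 3383327284) (nat_lit 53) (nat_lit 5) (nat_lit 52) (nat_lit 5) (nat_lit 58) (nat_lit 5) (nat_lit 226) (nat_lit 223) (nat_lit 211)) (XT.lf (nat_lit 0) (nat_lit 3624178187) (nat_lit 380) (nat_lit 4705864689) (nat_lit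 456) (nat_lit 698978729) (nat_lit 48) (nat_lit 5) (nat_lit 53) (nat_lit 5) (nat_lit 54) (nat_lit 5) (nat_lit 227) (nat_lit 223) (nat_lit 210)))) (XT.nd (nat_lit 78) (nat_lit 456) (nat_lit 0) (XT.lf (nat_lit 0) (nat_lit 2218800711) (nat_lit 532) (nat_lit 6206319652) (nat_lit 76) (nat_lit 1225650845) (nat_lit 41) (nat_lit 5) (nat_lit 48) (nat_lit 5) (nat_lit 42) (nat_lit 5) (nat_lit 228) (nat_lit 223) (nat_lit 209)) (XT.nd (nat_lit 78) (nat_lit 228) (nat_lit 0) (XT.lf (nat_lit 0) (nat_lit 3306179249) (nat_lit 228) (nat_lit 2302030610) (nat_lit 304) (nat_lit 4751017989) (nat_lit 38) (nat_lit 5) (nat_lit 41) (nat_lit 5) (nat_lit 42) (nat_lit 5) (nat_lit 229) (nat_lit 223) (nat_lit 208)) (XT.lf (nat_lit 0) (nat_lit 3206460229) (nat_lit 228) (nat_lit 6410970998) (nat_lit 304) (nat_lit 1548414066) (nat_lit 35) (nat_lit 5) (nat_lit 38) (nat_lit 5) (nat_lit 39) (nat_lit 5) (nat_lit 230) (nat_lit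 223) (nat_lit 207)))))) (XT.nd (nat_lit 468) (nat_lit 836) (nat_lit 0) (XT.nd (nat_lit 234) (nat_lit 380) (nat_lit 0) (XT.nd (nat_lit 78) (nat_lit 304) (nat_lit 0) (XT.lf (nat_lit 0) (nat_lit 2156300137) (nat_lit 304) (nat_lit 9000502367) (nat_lit 76) (nat_lit 922913553) (nat_lit 31) (nat_lit 5) (nat_lit 35) (nat_lit 5) (nat_lit 32) (nat_lit 5) (nat_lit 231) (nat_lit 223) (nat_lit 206)) (XT.nd (nat_lit 78) (nat_lit 152) (nat_lit 0) (XT.lf (nat_lit 0) (nat_lit 2777956979) (nat_lit 152) (nat_lit 3812177205) (nat_lit 228) (nat_lit 6516671248) (nat_lit 29) (nat_lit 5) (nat_lit 31) (nat_lit 5) (nat_lit 32) (nat_lit 5) (nat_lit 232) (nat_lit 223) (nat_lit 205)) (XT.lf (nat_lit 0) (nat_lit 2329915685) (nat_lit 152) (nat_lit 9597175480) (nat_lit 228) (nat_lit 2342312934) (nat_lit 27) (nat_lit 5) (nat_lit 29) (nat_lit 5) (nat_lit 30) (nat_lit 5) (nat_lit 233) (nat_lit 223) (nat_lit 204)))) (XT.nd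 (nat_lit 78) (nat_lit 152) (nat_lit 0) (XT.lf (nat_lit 0) (nat_lit 1580497509) (nat_lit 152) (nat_lit 1023309543) (nat_lit 228) (nat_lit 12976764067) (nat_lit 24) (nat_lit 5) (nat_lit 26) (nat_lit 5) (nat_lit 27) (nat_lit 5) (nat_lit 234) (nat_lit 223) (nat_lit 203)) (XT.nd (nat_lit 78) (nat_lit 0) (nat_lit 0) (XT.lf (nat_lit 0) (nat_lit 271155571) (nat_lit 152) (nat_lit 8294808713) (nat_lit 228) (nat_lit 8484899804) (nat_lit 22) (nat_lit 5) (nat_lit 24) (nat_lit 5) (nat_lit 25) (nat_lit 5) (nat_lit 235) (nat_lit 223) (nat_lit 202)) (XT.lf (nat_lit 0) (nat_lit 15744846461) (nat_lit 228) (nat_lit 1481919385) (nat_lit 76) (nat_lit 1489441190) (nat_lit 22) (nat_lit 5) (nat_lit 25) (nat_lit 5) (nat_lit 23) (nat_lit 4) (nat_lit 236) (nat_lit 223) (nat_lit 201))))) (XT.nd (nat_lit 234) (nat_lit 456) (nat_lit 0) (XT.nd (nat_lit 78) (nat_lit 228) (nat_lit 0) (XT.lf (nat_lit 0) (nat_lit 3707067215)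 (nat_lit 152) (nat_lit 4185119502) (nat_lit 76) (nat_lit 12692410459) (nat_lit 20) (nat_lit 5) (nat_lit 22) (nat_lit 5) (nat_lit 21) (nat_lit 5) (nat_lit 237) (nat_lit 223) (nat_lit 200)) (XT.nd (nat_lit 78) (nat_lit 76) (nat_lit 0) (XT.lf (nat_lit 0) (nat_lit 11572286655) (nat_lit 228) (nat_lit 7999588153) (nat_lit 76) (nat_lit 3126528296) (nat_lit 18) (nat_lit 5) (nat_lit 21) (nat_lit 5) (nat_lit 19) (nat_lit 4) (nat_lit 238) (nat_lit 223) (nat_lit 199)) (XT.lf (nat_lit 0) (nat_lit 11728551651) (nat_lit 76) (nat_lit 9401216237) (nat_lit 152) (nat_lit 3958695238) (nat_lit 17) (nat_lit 5) (nat_lit 18) (nat_lit 5) (nat_lit 19) (nat_lit 4) (nat_lit 239) (nat_lit 223) (nat_lit 198)))) (XT.nd (nat_lit 156) (nat_lit 228) (nat_lit 0) (XT.nd (nat_lit 78) (nat_lit 0) (nat_lit 0) (XT.lf (nat_lit 0) (nat_lit 4442354672) (nat_lit 228) (nat_lit 20716417218) (nat_lit 76) (nat_lit 2640339451) (nat_lit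 14) (nat_lit 5) (nat_lit 17) (nat_lit 5) (nat_lit 15) (nat_lit 4) (nat_lit 240) (nat_lit 223) (nat_lit 197)) (XT.lf (nat_lit 0) (nat_lit 14438095653) (nat_lit 228) (nat_lit 31290931) (nat_lit 76) (nat_lit 16393356824) (nat_lit 14) (nat_lit 5) (nat_lit 17) (nat_lit 5) (nat_lit 15) (nat_lit 4) (nat_lit 241) (nat_lit 223) (nat_lit 196))) (XT.nd (nat_lit 78) (nat_lit 152) (nat_lit 0) (XT.lf (nat_lit 0) (nat_lit 24854563119) (nat_lit 76) (nat_lit 1592206076) (nat_lit 152) (nat_lit 7898175885) (nat_lit 13) (nat_lit 5) (nat_lit 14) (nat_lit 5) (nat_lit 15) (nat_lit 4) (nat_lit 242) (nat_lit 223) (nat_lit 195)) (XT.lf (nat_lit 0) (nat_lit 2440094570) (nat_lit 152) (nat_lit 22919861947) (nat_lit 76) (nat_lit 12935680915) (nat_lit 11) (nat_lit 5) (nat_lit 13) (nat_lit 5) (nat_lit 12) (nat_lit 4) (nat_lit 243) (nat_lit 223) (nat_lit 194))))))))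
noncomputable def xc28 : XT := (XT.nd (nat_lit 1872) (nat_lit 76) (nat_lit 0) (XT.nd (nat_lit 936) (nat_lit 152) (nat_lit 0) (XT.nd (nat_lit 468) (nat_lit 228) (nat_lit 0) (XT.nd (nat_lit 234) (nat_lit 152) (nat_lit 0) (XT.nd (nat_lit 78) (nat_lit 76) (nat_lit 0) (XT.lf (nat_lit 0) (nat_lit 1399977532) (nat_lit 76) (nat_lit 12763377896) (nat_lit 152) (nat_lit 28635090985) (nat_lit 10) (nat_lit 5) (nat_lit 11) (nat_lit 5) (nat_lit 12) (nat_lit 4) (nat_lit 244) (nat_lit 223) (nat_lit 193)) (XT.nd (nat_lit 78) (nat_lit 76) (nat_lit 0) (XT.lf (nat_lit 0) (nat_lit 28303906657) (nat_lit 152) (nat_lit 17349491604) (nat_lit 0) (nat_lit 2270641658) (nat_lit 10) (nat_lit 5) (nat_lit 12) (nat_lit 4) (nat_lit 10) (nat_lit 4) (nat_lit 245) (nat_lit 223) (nat_lit 192)) (XT.lf (nat_lit 0) (nat_lit 10365221615) (nat_lit 76) (nat_lit 34744129141) (nat_lit 76) (nat_lit 8665675383) (nat_lit 9) (nat_lit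 4) (nat_lit 10) (nat_lit 5) (nat_lit 10) (nat_lit 4) (nat_lit 246) (nat_lit 223) (nat_lit 191)))) (XT.nd (nat_lit 78) (nat_lit 76) (nat_lit 0) (XT.lf (nat_lit 0) (nat_lit 4198852488) (nat_lit 152) (nat_lit 17384135156) (nat_lit 76) (nat_lit 38876067196) (nat_lit 8) (nat_lit 5) (nat_lit 10) (nat_lit 5) (nat_lit 9) (nat_lit 4) (nat_lit 247) (nat_lit 223) (nat_lit 190)) (XT.nd (nat_lit 78) (nat_lit 0) (nat_lit 0) (XT.lf (nat_lit 0) (nat_lit 12861282719) (nat_lit 76) (nat_lit 5895063552) (nat_lit 152) (nat_lit 49349264622) (nat_lit 7) (nat_lit 5) (nat_lit 8) (nat_lit 5) (nat_lit 9) (nat_lit 4) (nat_lit 248) (nat_lit 223) (nat_lit 189)) (XT.lf (nat_lit 0) (nat_lit 36264703191) (nat_lit 152) (nat_lit 28550650341) (nat_lit 0) (nat_lit 12022453313) (nat_lit 7) (nat_lit 5) (nat_lit 9) (nat_lit 4) (nat_lit 7) (nat_lit 4) (nat_lit 249) (nat_lit 223) (nat_lit 188))))) (XT.nd (nat_lit 234) (nat_lit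 152) (nat_lit 0) (XT.nd (nat_lit 78) (nat_lit 0) (nat_lit 0) (XT.lf (nat_lit 0) (nat_lit 2012560952) (nat_lit 76) (nat_lit 54559815041) (nat_lit 76) (nat_lit 30293642182) (nat_lit 6) (nat_lit 4) (nat_lit 7) (nat_lit 5) (nat_lit 7) (nat_lit 4) (nat_lit 250) (nat_lit 223) (nat_lit 187)) (XT.nd (nat_lit 78) (nat_lit 0) (nat_lit 0) (XT.lf (nat_lit 0) (nat_lit 38823150096) (nat_lit 76) (nat_lit 41899306472) (nat_lit 76) (nat_lit 17612331019) (nat_lit 6) (nat_lit 4) (nat_lit 7) (nat_lit 5) (nat_lit 7) (nat_lit 4) (nat_lit 251) (nat_lit 223) (nat_lit 186)) (XT.lf (nat_lit 0) (nat_lit 81097897619) (nat_lit 76) (nat_lit 27366747597) (nat_lit 76) (nat_lit 3061682934) (nat_lit 6) (nat_lit 4) (nat_lit 7) (nat_lit 5) (nat_lit 7) (nat_lit 4) (nat_lit 252) (nat_lit 223) (nat_lit 185)))) (XT.nd (nat_lit 78) (nat_lit 0) (nat_lit 0) (XT.lf (nat_lit 0) (nat_lit 2775932080) (nat_lit 76) (nat_lit 10251340271)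 (nat_lit 152) (nat_lit 113639872838) (nat_lit 4) (nat_lit 5) (nat_lit 5) (nat_lit 5) (nat_lit 6) (nat_lit 4) (nat_lit 253) (nat_lit 223) (nat_lit 184)) (XT.nd (nat_lit 78) (nat_lit 0) (nat_lit 0) (XT.lf (nat_lit 0) (nat_lit 32463894130) (nat_lit 152) (nat_lit 101587621202) (nat_lit 0) (nat_lit 9931975190) (nat_lit 4) (nat_lit 5) (nat_lit 6) (nat_lit 4) (nat_lit 4) (nat_lit 4) (nat_lit 254) (nat_lit 223) (nat_lit 183)) (XT.lf (nat_lit 0) (nat_lit 55077560774) (nat_lit 152) (nat_lit 76264188093) (nat_lit 0) (nat_lit 32534628918) (nat_lit 4) (nat_lit 5) (nat_lit 6) (nat_lit 4) (nat_lit 4) (nat_lit 4) (nat_lit 255) (nat_lit 223) (nat_lit 182)))))) (XT.nd (nat_lit 468) (nat_lit 76) (nat_lit 0) (XT.nd (nat_lit 234) (nat_lit 0) (nat_lit 0) (XT.nd (nat_lit 78) (nat_lit 76) (nat_lit 0) (XT.lf (nat_lit 0) (nat_lit 81064168607) (nat_lit 152) (nat_lit 47178910329) (nat_lit 0) (nat_lit 58511660302)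 (nat_lit 4) (nat_lit 5) (nat_lit 6) (nat_lit 4) (nat_lit 4) (nat_lit 4) (nat_lit 256) (nat_lit 223) (nat_lit 181)) (XT.nd (nat_lit 78) (nat_lit 76) (nat_lit 0) (XT.lf (nat_lit 0) (nat_lit 110932151262) (nat_lit 152) (nat_lit 13762728128) (nat_lit 0) (nat_lit 88371315610) (nat_lit 4) (nat_lit 5) (nat_lit 6) (nat_lit 4) (nat_lit 4) (nat_lit 4) (nat_lit 257) (nat_lit 223) (nat_lit 180)) (XT.lf (nat_lit 0) (nat_lit 25935554872) (nat_lit 76) (nat_lit 119954078157) (nat_lit 76) (nat_lit 97386001334) (nat_lit 3) (nat_lit 4) (nat_lit 4) (nat_lit 5) (nat_lit 4) (nat_lit 4) (nat_lit 258) (nat_lit 223) (nat_lit 179)))) (XT.nd (nat_lit 78) (nat_lit 0) (nat_lit 0) (XT.lf (nat_lit 0) (nat_lit 72396628344) (nat_lit 76) (nat_lit 114081620976) (nat_lit 76) (nat_lit 91507247482) (nat_lit 3) (nat_lit 4) (nat_lit 4) (nat_lit 5) (nat_lit 4) (nat_lit 4) (nat_lit 259) (nat_lit 223) (nat_lit 178)) (XT.nd (nat_lit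 78) (nat_lit 0) (nat_lit 0) (XT.lf (nat_lit 0) (nat_lit 125804792414) (nat_lit 76) (nat_lit 107338909323) (nat_lit 76) (nat_lit 84759060463) (nat_lit 3) (nat_lit 4) (nat_lit 4) (nat_lit 5) (nat_lit 4) (nat_lit 4) (nat_lit 260) (nat_lit 223) (nat_lit 177)) (XT.lf (nat_lit 0) (nat_lit 187204989425) (nat_lit 76) (nat_lit 99594020578) (nat_lit 76) (nat_lit 77009410530) (nat_lit 3) (nat_lit 4) (nat_lit 4) (nat_lit 5) (nat_lit 4) (nat_lit 4) (nat_lit 261) (nat_lit 223) (nat_lit 176))))) (XT.nd (nat_lit 234) (nat_lit 76) (nat_lit 0) (XT.nd (nat_lit 78) (nat_lit 0) (nat_lit 0) (XT.lf (nat_lit 0) (nat_lit 257798527577) (nat_lit 76) (nat_lit 90695424310) (nat_lit 76) (nat_lit 68106674099) (nat_lit 3) (nat_lit 4) (nat_lit 4) (nat_lit 5) (nat_lit 4) (nat_lit 4) (nat_lit 262) (nat_lit 223) (nat_lit 175)) (XT.nd (nat_lit 78) (nat_lit 0) (nat_lit 0) (XT.lf (nat_lit 0) (nat_lit 338966584792) (nat_lit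 76) (nat_lit 80469017548) (nat_lit 76) (nat_lit 57876667195) (nat_lit 3) (nat_lit 4) (nat_lit 4) (nat_lit 5) (nat_lit 4) (nat_lit 4) (nat_lit 263) (nat_lit 223) (nat_lit 174)) (XT.lf (nat_lit 0) (nat_lit 432297231754) (nat_lit 76) (nat_lit 68714718420) (nat_lit 76) (nat_lit 46119237509) (nat_lit 3) (nat_lit 4) (nat_lit 4) (nat_lit 5) (nat_lit 4) (nat_lit 4) (nat_lit 264) (nat_lit 223) (nat_lit 173)))) (XT.nd (nat_lit 78) (nat_lit 76) (nat_lit 0) (XT.lf (nat_lit 0) (nat_lit 539616502861) (nat_lit 76) (nat_lit 55202551509) (nat_lit 76) (nat_lit 32604348374) (nat_lit 3) (nat_lit 4) (nat_lit 4) (nat_lit 5) (nat_lit 4) (nat_lit 4) (nat_lit 265) (nat_lit 223) (nat_lit 172)) (XT.nd (nat_lit 78) (nat_lit 76) (nat_lit 0) (XT.lf (nat_lit 0) (nat_lit 663024122980) (nat_lit 76) (nat_lit 39668148333) (nat_lit 76) (nat_lit 17067578045) (nat_lit 3) (nat_lit 4) (nat_lit 4) (nat_lit 5) (nat_lit 4) (nat_lit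 4) (nat_lit 266) (nat_lit 223) (nat_lit 171)) (XT.lf (nat_lit 0) (nat_lit 755281955) (nat_lit 152) (nat_lit 21031642211) (nat_lit 76) (nat_lit 804158656326) (nat_lit 2) (nat_lit 5) (nat_lit 4) (nat_lit 5) (nat_lit 3) (nat_lit 4) (nat_lit 267) (nat_lit 223) (nat_lit 170))))))) (XT.nd (nat_lit 936) (nat_lit 0) (nat_lit 0) (XT.nd (nat_lit 468) (nat_lit 0) (nat_lit 0) (XT.nd (nat_lit 234) (nat_lit 0) (nat_lit 0) (XT.nd (nat_lit 78) (nat_lit 0) (nat_lit 0) (XT.lf (nat_lit 0) (nat_lit 20577982121) (nat_lit 76) (nat_lit 182787449) (nat_lit 152) (nat_lit 927221355601) (nat_lit 1) (nat_lit 5) (nat_lit 2) (nat_lit 5) (nat_lit 3) (nat_lit 4) (nat_lit 268) (nat_lit 223) (nat_lit 169)) (XT.nd (nat_lit 78) (nat_lit 0) (nat_lit 0) (XT.lf (nat_lit 0) (nat_lit 44984833739) (nat_lit 152) (nat_lit 1019188524024) (nat_lit 0) (nat_lit 24053375380) (nat_lit 1) (nat_lit 5) (nat_lit 3) (nat_lit 4) (nat_lit 1)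 (nat_lit 4) (nat_lit 269) (nat_lit 223) (nat_lit 168)) (XT.lf (nat_lit 0) (nat_lit 72844445208) (nat_lit 152) (nat_lit 1124751700036) (nat_lit 0) (nat_lit 51911733676) (nat_lit 1) (nat_lit 5) (nat_lit 3) (nat_lit 4) (nat_lit 1) (nat_lit 4) (nat_lit 270) (nat_lit 223) (nat_lit 167)))) (XT.nd (nat_lit 78) (nat_lit 0) (nat_lit 0) (XT.lf (nat_lit 0) (nat_lit 104880287290) (nat_lit 152) (nat_lit 1246154641531) (nat_lit 0) (nat_lit 83946486042) (nat_lit 1) (nat_lit 5) (nat_lit 3) (nat_lit 4) (nat_lit 1) (nat_lit 4) (nat_lit 271) (nat_lit 223) (nat_lit 166)) (XT.nd (nat_lit 78) (nat_lit 0) (nat_lit 0) (XT.lf (nat_lit 0) (nat_lit 141719148199) (nat_lit 152) (nat_lit 1385772623452) (nat_lit 0) (nat_lit 120784399373) (nat_lit 1) (nat_lit 5) (nat_lit 3) (nat_lit 4) (nat_lit 1) (nat_lit 4) (nat_lit 272) (nat_lit 223) (nat_lit 165)) (XT.lf (nat_lit 0) (nat_lit 184081788257) (nat_lit 152) (nat_lit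 1546337301966) (nat_lit 0) (nat_lit 163146215450) (nat_lit 1) (nat_lit 5) (nat_lit 3) (nat_lit 4) (nat_lit 1) (nat_lit 4) (nat_lit 273) (nat_lit 223) (nat_lit 164))))) (XT.nd (nat_lit 234) (nat_lit 0) (nat_lit 0) (XT.nd (nat_lit 78) (nat_lit 0) (nat_lit 0) (XT.lf (nat_lit 0) (nat_lit 232797041727) (nat_lit 152) (nat_lit 1730990159914) (nat_lit 0) (nat_lit 211860752414) (nat_lit 1) (nat_lit 5) (nat_lit 3) (nat_lit 4) (nat_lit 1) (nat_lit 4) (nat_lit 274) (nat_lit 223) (nat_lit 163)) (XT.nd (nat_lit 78) (nat_lit 0) (nat_lit 0) (XT.lf (nat_lit 0) (nat_lit 288818033133) (nat_lit 152) (nat_lit 1943343970604) (nat_lit 0) (nat_lit 267881120771) (nat_lit 1) (nat_lit 5) (nat_lit 3) (nat_lit 4) (nat_lit 1) (nat_lit 4) (nat_lit 275) (nat_lit 223) (nat_lit 162)) (XT.lf (nat_lit 0) (nat_lit 353240825350) (nat_lit 152) (nat_lit 2187553482505) (nat_lit 0) (nat_lit 332303371207) (nat_lit 1) (nat_lit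 5) (nat_lit 3) (nat_lit 4) (nat_lit 1) (nat_lit 4) (nat_lit 276) (nat_lit 223) (nat_lit 161)))) (XT.nd (nat_lit 78) (nat_lit 0) (nat_lit 0) (XT.lf (nat_lit 0) (nat_lit 427325864313) (nat_lit 152) (nat_lit 2468396707808) (nat_lit 0) (nat_lit 406387939056) (nat_lit 1) (nat_lit 5) (nat_lit 3) (nat_lit 4) (nat_lit 1) (nat_lit 4) (nat_lit 277) (nat_lit 223) (nat_lit 160)) (XT.nd (nat_lit 78) (nat_lit 0) (nat_lit 0) (XT.lf (nat_lit 0) (nat_lit 512522639915) (nat_lit 152) (nat_lit 2791368405267) (nat_lit 0) (nat_lit 491584304993) (nat_lit 1) (nat_lit 5) (nat_lit 3) (nat_lit 4) (nat_lit 1) (nat_lit 4) (nat_lit 278) (nat_lit 223) (nat_lit 159)) (XT.lf (nat_lit 0) (nat_lit 610498045591) (nat_lit 152) (nat_lit 3162787586355) (nat_lit 0) (nat_lit 589559354439) (nat_lit 1) (nat_lit 5) (nat_lit 3) (nat_lit 4) (nat_lit 1) (nat_lit 4) (nat_lit 279) (nat_lit 223) (nat_lit 158)))))) (XT.nd (nat_lit 468)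 (nat_lit 0) (nat_lit 0) (XT.nd (nat_lit 234) (nat_lit 0) (nat_lit 0) (XT.nd (nat_lit 78) (nat_lit 0) (nat_lit 0) (XT.lf (nat_lit 0) (nat_lit 723168991452) (nat_lit 152) (nat_lit 3589921148094) (nat_lit 0) (nat_lit 702229990535) (nat_lit 1) (nat_lit 5) (nat_lit 3) (nat_lit 4) (nat_lit 1) (nat_lit 4) (nat_lit 280) (nat_lit 223) (nat_lit 157)) (XT.nd (nat_lit 78) (nat_lit 0) (nat_lit 0) (XT.lf (nat_lit 0) (nat_lit 852739909048) (nat_lit 152) (nat_lit 4081126051473) (nat_lit 0) (nat_lit 831800638771) (nat_lit 1) (nat_lit 5) (nat_lit 3) (nat_lit 4) (nat_lit 1) (nat_lit 4) (nat_lit 281) (nat_lit 223) (nat_lit 156)) (XT.lf (nat_lit 0) (nat_lit 1001745881550) (nat_lit 152) (nat_lit 4646012827212) (nat_lit 0) (nat_lit 980806377045) (nat_lit 1) (nat_lit 5) (nat_lit 3) (nat_lit 4) (nat_lit 1) (nat_lit 4) (nat_lit 282) (nat_lit 223) (nat_lit 155)))) (XT.nd (nat_lit 78) (nat_lit 0) (nat_lit 0) (XT.lf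 (nat_lit 0) (nat_lit 1173102243201) (nat_lit 152) (nat_lit 5295633607879) (nat_lit 0) (nat_lit 1152162535021) (nat_lit 1) (nat_lit 5) (nat_lit 3) (nat_lit 4) (nat_lit 1) (nat_lit 4) (nat_lit 283) (nat_lit 223) (nat_lit 154)) (XT.nd (nat_lit 78) (nat_lit 0) (nat_lit 0) (XT.lf (nat_lit 0) (nat_lit 1370161618469) (nat_lit 152) (nat_lit 6042698365269) (nat_lit 0) (nat_lit 1349221733180) (nat_lit 1) (nat_lit 5) (nat_lit 3) (nat_lit 4) (nat_lit 1) (nat_lit 4) (nat_lit 284) (nat_lit 223) (nat_lit 153)) (XT.lf (nat_lit 0) (nat_lit 1596779516870) (nat_lit 152) (nat_lit 6901823583766) (nat_lit 0) (nat_lit 1575839477573) (nat_lit 1) (nat_lit 5) (nat_lit 3) (nat_lit 4) (nat_lit 1) (nat_lit 4) (nat_lit 285) (nat_lit 223) (nat_lit 152))))) (XT.nd (nat_lit 29718) (nat_lit 0) (nat_lit 3496) (XT.nd (nat_lit 29562) (nat_lit 0) (nat_lit 3800) (XT.lf (nat_lit 0) (nat_lit 1857389766852) (nat_lit 152) (nat_lit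 7889818235037) (nat_lit 0) (nat_lit 1836449593634) (nat_lit 1) (nat_lit 5) (nat_lit 3) (nat_lit 4) (nat_lit 1) (nat_lit 4) (nat_lit 286) (nat_lit 223) (nat_lit 151)) (XT.nd (nat_lit 78) (nat_lit 0) (nat_lit 0) (XT.lf (nat_lit 0) (nat_lit 428812647) (nat_lit 0) (nat_lit 428812647) (nat_lit 380) (nat_lit 3136315376) (nat_lit 51) (nat_lit 5) (nat_lit 51) (nat_lit 3) (nat_lit 56) (nat_lit 3) (nat_lit 224) (nat_lit 224) (nat_lit 212)) (XT.lf (nat_lit 0) (nat_lit 3988213549) (nat_lit 380) (nat_lit 387372264) (nat_lit 456) (nat_lit 4032420749) (nat_lit 51) (nat_lit 5) (nat_lit 56) (nat_lit 3) (nat_lit 57) (nat_lit 5) (nat_lit 225) (nat_lit 224) (nat_lit 211)))) (XT.nd (nat_lit 78) (nat_lit 380) (nat_lit 0) (XT.lf (nat_lit 0) (nat_lit 6472377222) (nat_lit 380) (nat_lit 1428349039) (nat_lit 456) (nat_lit 1002125025) (nat_lit 52) (nat_lit 5) (nat_lit 57) (nat_lit 5) (nat_lit 58) (nat_lit 5) (nat_lit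 226) (nat_lit 224) (nat_lit 210)) (XT.nd (nat_lit 78) (nat_lit 380) (nat_lit 0) (XT.lf (nat_lit 76) (nat_lit 7072957389) (nat_lit 0) (nat_lit 2244597495) (nat_lit 456) (nat_lit 156445568) (nat_lit 53) (nat_lit 5) (nat_lit 52) (nat_lit 5) (nat_lit 58) (nat_lit 5) (nat_lit 227) (nat_lit 224) (nat_lit 209)) (XT.lf (nat_lit 0) (nat_lit 2367901854) (nat_lit 456) (nat_lit 3376793144) (nat_lit 76) (nat_lit 4379744855) (nat_lit 47) (nat_lit 5) (nat_lit 53) (nat_lit 5) (nat_lit 48) (nat_lit 5) (nat_lit 228) (nat_lit 224) (nat_lit 208))))))))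
noncomputable def xc29 : XT := (XT.nd (nat_lit 1872) (nat_lit 380) (nat_lit 0) (XT.nd (nat_lit 936) (nat_lit 836) (nat_lit 0) (XT.nd (nat_lit 468) (nat_lit 760) (nat_lit 0) (XT.nd (nat_lit 234) (nat_lit 532) (nat_lit 0) (XT.nd (nat_lit 78) (nat_lit 532) (nat_lit 0) (XT.lf (nat_lit 0) (nat_lit 5331832797) (nat_lit 532) (nat_lit 4320089420) (nat_lit 76) (nat_lit 1215386661) (nat_lit 41) (nat_lit 5) (nat_lit 48) (nat_lit 5) (nat_lit 42) (nat_lit 5) (nat_lit 229) (nat_lit 224) (nat_lit 207)) (XT.nd (nat_lit 78) (nat_lit 304) (nat_lit 0) (XT.lf (nat_lit 0) (nat_lit 6380824215) (nat_lit 228) (nat_lit 2548210990) (nat_lit 304) (nat_lit 2778177962) (nat_lit 38) (nat_lit 5) (nat_lit 41) (nat_lit 5) (nat_lit 42) (nat_lit 5) (nat_lit 230) (nat_lit 224) (nat_lit 206)) (XT.lf (nat_lit 0) (nat_lit 591761462) (nat_lit 304) (nat_lit 6437435053) (nat_lit 76) (nat_lit 5626218826) (nat_lit 34) (nat_lit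 5) (nat_lit 38) (nat_lit 5) (nat_lit 35) (nat_lit 5) (nat_lit 231) (nat_lit 224) (nat_lit 205)))) (XT.nd (nat_lit 78) (nat_lit 304) (nat_lit 0) (XT.lf (nat_lit 0) (nat_lit 4533799095) (nat_lit 304) (nat_lit 7744658756) (nat_lit 76) (nat_lit 1443618352) (nat_lit 31) (nat_lit 5) (nat_lit 35) (nat_lit 5) (nat_lit 32) (nat_lit 5) (nat_lit 232) (nat_lit 224) (nat_lit 204)) (XT.nd (nat_lit 78) (nat_lit 152) (nat_lit 0) (XT.lf (nat_lit 0) (nat_lit 5579991431) (nat_lit 152) (nat_lit 3842164245) (nat_lit 228) (nat_lit 5498605290) (nat_lit 29) (nat_lit 5) (nat_lit 31) (nat_lit 5) (nat_lit 32) (nat_lit 5) (nat_lit 233) (nat_lit 224) (nat_lit 203)) (XT.lf (nat_lit 0) (nat_lit 4990102205) (nat_lit 152) (nat_lit 10396001196) (nat_lit 228) (nat_lit 886128322) (nat_lit 27) (nat_lit 5) (nat_lit 29) (nat_lit 5) (nat_lit 30) (nat_lit 5) (nat_lit 234) (nat_lit 224) (nat_lit 202))))) (XT.nd (nat_lit 234)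 (nat_lit 304) (nat_lit 0) (XT.nd (nat_lit 78) (nat_lit 228) (nat_lit 0) (XT.lf (nat_lit 0) (nat_lit 4018827845) (nat_lit 152) (nat_lit 521630955) (nat_lit 228) (nat_lit 13250301303) (nat_lit 24) (nat_lit 5) (nat_lit 26) (nat_lit 5) (nat_lit 27) (nat_lit 5) (nat_lit 235) (nat_lit 224) (nat_lit 201)) (XT.nd (nat_lit 78) (nat_lit 76) (nat_lit 0) (XT.lf (nat_lit 0) (nat_lit 2428491571) (nat_lit 152) (nat_lit 8831392853) (nat_lit 228) (nat_lit 8233095734) (nat_lit 22) (nat_lit 5) (nat_lit 24) (nat_lit 5) (nat_lit 25) (nat_lit 5) (nat_lit 236) (nat_lit 224) (nat_lit 200)) (XT.lf (nat_lit 0) (nat_lit 233707637) (nat_lit 76) (nat_lit 19118524891) (nat_lit 152) (nat_lit 2069325441) (nat_lit 21) (nat_lit 5) (nat_lit 22) (nat_lit 5) (nat_lit 23) (nat_lit 4) (nat_lit 237) (nat_lit 224) (nat_lit 199)))) (XT.nd (nat_lit 78) (nat_lit 228) (nat_lit 0) (XT.lf (nat_lit 0) (nat_lit 5414940316) (nat_lit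 152) (nat_lit 2987101903) (nat_lit 76) (nat_lit 15176145067) (nat_lit 20) (nat_lit 5) (nat_lit 22) (nat_lit 5) (nat_lit 21) (nat_lit 5) (nat_lit 238) (nat_lit 224) (nat_lit 198)) (XT.nd (nat_lit 78) (nat_lit 76) (nat_lit 0) (XT.lf (nat_lit 0) (nat_lit 14365038414) (nat_lit 228) (nat_lit 7458382223) (nat_lit 76) (nat_lit 4193490734) (nat_lit 18) (nat_lit 5) (nat_lit 21) (nat_lit 5) (nat_lit 19) (nat_lit 4) (nat_lit 239) (nat_lit 224) (nat_lit 197)) (XT.lf (nat_lit 0) (nat_lit 15081599372) (nat_lit 76) (nat_lit 10175014882) (nat_lit 152) (nat_lit 3517050021) (nat_lit 17) (nat_lit 5) (nat_lit 18) (nat_lit 5) (nat_lit 19) (nat_lit 4) (nat_lit 240) (nat_lit 224) (nat_lit 196)))))) (XT.nd (nat_lit 468) (nat_lit 304) (nat_lit 0) (XT.nd (nat_lit 234) (nat_lit 228) (nat_lit 0) (XT.nd (nat_lit 78) (nat_lit 76) (nat_lit 0) (XT.lf (nat_lit 0) (nat_lit 6015126491) (nat_lit 228) (nat_lit 22258648145)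 (nat_lit 76) (nat_lit 3621500041) (nat_lit 14) (nat_lit 5) (nat_lit 17) (nat_lit 5) (nat_lit 15) (nat_lit 4) (nat_lit 241) (nat_lit 224) (nat_lit 195)) (XT.nd (nat_lit 78) (nat_lit 0) (nat_lit 0) (XT.lf (nat_lit 0) (nat_lit 1394863136) (nat_lit 76) (nat_lit 16030683460) (nat_lit 152) (nat_lit 17999834722) (nat_lit 13) (nat_lit 5) (nat_lit 14) (nat_lit 5) (nat_lit 15) (nat_lit 4) (nat_lit 242) (nat_lit 224) (nat_lit 194)) (XT.lf (nat_lit 0) (nat_lit 29828610710) (nat_lit 76) (nat_lit 1300519601) (nat_lit 152) (nat_lit 8309429155) (nat_lit 13) (nat_lit 5) (nat_lit 14) (nat_lit 5) (nat_lit 15) (nat_lit 4) (nat_lit 243) (nat_lit 224) (nat_lit 193)))) (XT.nd (nat_lit 78) (nat_lit 76) (nat_lit 0) (XT.lf (nat_lit 0) (nat_lit 3485595445) (nat_lit 152) (nat_lit 25139401040) (nat_lit 76) (nat_lit 15359903217) (nat_lit 11) (nat_lit 5) (nat_lit 13) (nat_lit 5) (nat_lit 12) (nat_lit 4) (nat_lit 244)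 (nat_lit 224) (nat_lit 192)) (XT.nd (nat_lit 78) (nat_lit 0) (nat_lit 0) (XT.lf (nat_lit 0) (nat_lit 2725279467) (nat_lit 76) (nat_lit 14180260386) (nat_lit 152) (nat_lit 32262629112) (nat_lit 10) (nat_lit 5) (nat_lit 11) (nat_lit 5) (nat_lit 12) (nat_lit 4) (nat_lit 245) (nat_lit 224) (nat_lit 191)) (XT.lf (nat_lit 0) (nat_lit 33097013511) (nat_lit 152) (nat_lit 18948974613) (nat_lit 0) (nat_lit 3022308357) (nat_lit 10) (nat_lit 5) (nat_lit 12) (nat_lit 4) (nat_lit 10) (nat_lit 4) (nat_lit 246) (nat_lit 224) (nat_lit 190))))) (XT.nd (nat_lit 234) (nat_lit 76) (nat_lit 0) (XT.nd (nat_lit 78) (nat_lit 152) (nat_lit 0) (XT.lf (nat_lit 0) (nat_lit 12838051652) (nat_lit 76) (nat_lit 39535885858) (nat_lit 76) (nat_lit 9427011509) (nat_lit 9) (nat_lit 4) (nat_lit 10) (nat_lit 5) (nat_lit 10) (nat_lit 4) (nat_lit 247) (nat_lit 224) (nat_lit 189)) (XT.nd (nat_lit 78) (nat_lit 76) (nat_lit 0)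 (XT.lf (nat_lit 0) (nat_lit 5273529467) (nat_lit 152) (nat_lit 19169645400) (nat_lit 76) (nat_lit 45048766767) (nat_lit 8) (nat_lit 5) (nat_lit 10) (nat_lit 5) (nat_lit 9) (nat_lit 4) (nat_lit 248) (nat_lit 224) (nat_lit 188)) (XT.lf (nat_lit 0) (nat_lit 15542997637) (nat_lit 76) (nat_lit 6431724068) (nat_lit 152) (nat_lit 56314003461) (nat_lit 7) (nat_lit 5) (nat_lit 8) (nat_lit 5) (nat_lit 9) (nat_lit 4) (nat_lit 249) (nat_lit 224) (nat_lit 187)))) (XT.nd (nat_lit 78) (nat_lit 76) (nat_lit 0) (XT.lf (nat_lit 0) (nat_lit 42063785417) (nat_lit 152) (nat_lit 32157691278) (nat_lit 0) (nat_lit 14112961054) (nat_lit 7) (nat_lit 5) (nat_lit 9) (nat_lit 4) (nat_lit 7) (nat_lit 4) (nat_lit 250) (nat_lit 224) (nat_lit 186)) (XT.nd (nat_lit 78) (nat_lit 0) (nat_lit 0) (XT.lf (nat_lit 0) (nat_lit 2932819206) (nat_lit 76) (nat_lit 62452786617) (nat_lit 76) (nat_lit 34483873044) (nat_lit 6) (nat_lit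 4) (nat_lit 7) (nat_lit 5) (nat_lit 7) (nat_lit 4) (nat_lit 251) (nat_lit 224) (nat_lit 185)) (XT.lf (nat_lit 0) (nat_lit 45184339229) (nat_lit 76) (nat_lit 47931158373) (nat_lit 76) (nat_lit 19946515050) (nat_lit 6) (nat_lit 4) (nat_lit 7) (nat_lit 5) (nat_lit 7) (nat_lit 4) (nat_lit 252) (nat_lit 224) (nat_lit 184))))))) (XT.nd (nat_lit 936) (nat_lit 152) (nat_lit 0) (XT.nd (nat_lit 468) (nat_lit 76) (nat_lit 0) (XT.nd (nat_lit 234) (nat_lit 0) (nat_lit 0) (XT.nd (nat_lit 78) (nat_lit 152) (nat_lit 0) (XT.lf (nat_lit 0) (nat_lit 93730161930) (nat_lit 76) (nat_lit 31251721416) (nat_lit 76) (nat_lit 3253400051) (nat_lit 6) (nat_lit 4) (nat_lit 7) (nat_lit 5) (nat_lit 7) (nat_lit 4) (nat_lit 253) (nat_lit 224) (nat_lit 183)) (XT.nd (nat_lit 78) (nat_lit 0) (nat_lit 0) (XT.lf (nat_lit 0) (nat_lit 3632735251) (nat_lit 76) (nat_lit 11580221751) (nat_lit 152) (nat_lit 130435578945) (nat_lit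 4) (nat_lit 5) (nat_lit 5) (nat_lit 5) (nat_lit 6) (nat_lit 4) (nat_lit 254) (nat_lit 224) (nat_lit 182)) (XT.lf (nat_lit 0) (nat_lit 37539231217) (nat_lit 152) (nat_lit 116430918934) (nat_lit 0) (nat_lit 11594270218) (nat_lit 4) (nat_lit 5) (nat_lit 6) (nat_lit 4) (nat_lit 4) (nat_lit 4) (nat_lit 255) (nat_lit 224) (nat_lit 181)))) (XT.nd (nat_lit 78) (nat_lit 0) (nat_lit 0) (XT.lf (nat_lit 0) (nat_lit 63518110514) (nat_lit 152) (nat_lit 87360472439) (nat_lit 0) (nat_lit 37564822167) (nat_lit 4) (nat_lit 5) (nat_lit 6) (nat_lit 4) (nat_lit 4) (nat_lit 4) (nat_lit 256) (nat_lit 224) (nat_lit 180)) (XT.nd (nat_lit 78) (nat_lit 0) (nat_lit 0) (XT.lf (nat_lit 0) (nat_lit 93379372702) (nat_lit 152) (nat_lit 53957186994) (nat_lit 0) (nat_lit 67418843184) (nat_lit 4) (nat_lit 5) (nat_lit 6) (nat_lit 4) (nat_lit 4) (nat_lit 4) (nat_lit 257) (nat_lit 224) (nat_lit 179)) (XT.lf (nat_lit 0) (nat_lit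 127707259868) (nat_lit 152) (nat_lit 15567520056) (nat_lit 0) (nat_lit 101740433679) (nat_lit 4) (nat_lit 5) (nat_lit 6) (nat_lit 4) (nat_lit 4) (nat_lit 4) (nat_lit 258) (nat_lit 224) (nat_lit 178))))) (XT.nd (nat_lit 234) (nat_lit 0) (nat_lit 0) (XT.nd (nat_lit 78) (nat_lit 0) (nat_lit 0) (XT.lf (nat_lit 0) (nat_lit 30063530084) (nat_lit 76) (nat_lit 137832903123) (nat_lit 76) (nat_lit 111860601568) (nat_lit 3) (nat_lit 4) (nat_lit 4) (nat_lit 5) (nat_lit 4) (nat_lit 4) (nat_lit 259) (nat_lit 224) (nat_lit 177)) (XT.nd (nat_lit 78) (nat_lit 0) (nat_lit 0) (XT.lf (nat_lit 0) (nat_lit 83462767796) (nat_lit 76) (nat_lit 131094484333) (nat_lit 76) (nat_lit 105117421591) (nat_lit 3) (nat_lit 4) (nat_lit 4) (nat_lit 5) (nat_lit 4) (nat_lit 4) (nat_lit 260) (nat_lit 224) (nat_lit 176)) (XT.lf (nat_lit 0) (nat_lit 144855202755) (nat_lit 76) (nat_lit 123353328513) (nat_lit 76) (nat_lit 97372125607)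 (nat_lit 3) (nat_lit 4) (nat_lit 4) (nat_lit 5) (nat_lit 4) (nat_lit 4) (nat_lit 261) (nat_lit 224) (nat_lit 175)))) (XT.nd (nat_lit 78) (nat_lit 0) (nat_lit 0) (XT.lf (nat_lit 0) (nat_lit 215441991298) (nat_lit 76) (nat_lit 114457978266) (nat_lit 76) (nat_lit 88473175219) (nat_lit 3) (nat_lit 4) (nat_lit 4) (nat_lit 5) (nat_lit 4) (nat_lit 4) (nat_lit 262) (nat_lit 224) (nat_lit 174)) (XT.nd (nat_lit 78) (nat_lit 0) (nat_lit 0) (XT.lf (nat_lit 0) (nat_lit 296604179288) (nat_lit 76) (nat_lit 104234394131) (nat_lit 76) (nat_lit 78246460526) (nat_lit 3) (nat_lit 4) (nat_lit 4) (nat_lit 5) (nat_lit 4) (nat_lit 4) (nat_lit 263) (nat_lit 224) (nat_lit 173)) (XT.lf (nat_lit 0) (nat_lit 389929722575) (nat_lit 76) (nat_lit 92482549462) (nat_lit 76) (nat_lit 66491893632) (nat_lit 3) (nat_lit 4) (nat_lit 4) (nat_lit 5) (nat_lit 4) (nat_lit 4) (nat_lit 264) (nat_lit 224) (nat_lit 172)))))) (XT.nd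 (nat_lit 468) (nat_lit 0) (nat_lit 0) (XT.nd (nat_lit 234) (nat_lit 152) (nat_lit 0) (XT.nd (nat_lit 78) (nat_lit 0) (nat_lit 0) (XT.lf (nat_lit 0) (nat_lit 497244555704) (nat_lit 76) (nat_lit 78972516864) (nat_lit 76) (nat_lit 52979493882) (nat_lit 3) (nat_lit 4) (nat_lit 4) (nat_lit 5) (nat_lit 4) (nat_lit 4) (nat_lit 265) (nat_lit 224) (nat_lit 171)) (XT.nd (nat_lit 78) (nat_lit 0) (nat_lit 0) (XT.lf (nat_lit 0) (nat_lit 620648316712) (nat_lit 76) (nat_lit 63439969610) (nat_lit 76) (nat_lit 37444888235) (nat_lit 3) (nat_lit 4) (nat_lit 4) (nat_lit 5) (nat_lit 4) (nat_lit 4) (nat_lit 266) (nat_lit 224) (nat_lit 170)) (XT.lf (nat_lit 0) (nat_lit 762555427013) (nat_lit 76) (nat_lit 45581010039) (nat_lit 76) (nat_lit 19584138757) (nat_lit 3) (nat_lit 4) (nat_lit 4) (nat_lit 5) (nat_lit 4) (nat_lit 4) (nat_lit 267) (nat_lit 224) (nat_lit 169)))) (XT.nd (nat_lit 78) (nat_lit 76) (nat_lit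 0) (XT.lf (nat_lit 0) (nat_lit 904570899) (nat_lit 152) (nat_lit 24116920252) (nat_lit 76) (nat_lit 924813026596) (nat_lit 2) (nat_lit 5) (nat_lit 4) (nat_lit 5) (nat_lit 3) (nat_lit 4) (nat_lit 268) (nat_lit 224) (nat_lit 168)) (XT.nd (nat_lit 78) (nat_lit 0) (nat_lit 0) (XT.lf (nat_lit 0) (nat_lit 23728267586) (nat_lit 76) (nat_lit 179448151) (nat_lit 152) (nat_lit 1066269084282) (nat_lit 1) (nat_lit 5) (nat_lit 2) (nat_lit 5) (nat_lit 3) (nat_lit 4) (nat_lit 269) (nat_lit 224) (nat_lit 167)) (XT.lf (nat_lit 0) (nat_lit 51761750494) (nat_lit 152) (nat_lit 1172009852752) (nat_lit 0) (nat_lit 27686789344) (nat_lit 1) (nat_lit 5) (nat_lit 3) (nat_lit 4) (nat_lit 1) (nat_lit 4) (nat_lit 270) (nat_lit 224) (nat_lit 166))))) (XT.nd (nat_lit 234) (nat_lit 0) (nat_lit 0) (XT.nd (nat_lit 78) (nat_lit 0) (nat_lit 0) (XT.lf (nat_lit 0) (nat_lit 83796496071) (nat_lit 152) (nat_lit 1293414933410)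 (nat_lit 0) (nat_lit 59720587342) (nat_lit 1) (nat_lit 5) (nat_lit 3) (nat_lit 4) (nat_lit 1) (nat_lit 4) (nat_lit 271) (nat_lit 224) (nat_lit 165)) (XT.nd (nat_lit 78) (nat_lit 0) (nat_lit 0) (XT.lf (nat_lit 0) (nat_lit 120634403498) (nat_lit 152) (nat_lit 1433034775473) (nat_lit 0) (nat_lit 96557670788) (nat_lit 1) (nat_lit 5) (nat_lit 3) (nat_lit 4) (nat_lit 1) (nat_lit 4) (nat_lit 272) (nat_lit 224) (nat_lit 164)) (XT.lf (nat_lit 0) (nat_lit 162996214441) (nat_lit 152) (nat_lit 1593601071502) (nat_lit 0) (nat_lit 138918765225) (nat_lit 1) (nat_lit 5) (nat_lit 3) (nat_lit 4) (nat_lit 1) (nat_lit 4) (nat_lit 273) (nat_lit 224) (nat_lit 163)))) (XT.nd (nat_lit 156) (nat_lit 0) (nat_lit 0) (XT.nd (nat_lit 78) (nat_lit 0) (nat_lit 0) (XT.lf (nat_lit 0) (nat_lit 211710746941) (nat_lit 152) (nat_lit 1778255335984) (nat_lit 0) (nat_lit 187632674677) (nat_lit 1) (nat_lit 5) (nat_lit 3) (nat_lit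 4) (nat_lit 1) (nat_lit 4) (nat_lit 274) (nat_lit 224) (nat_lit 162)) (XT.lf (nat_lit 0) (nat_lit 267731111417) (nat_lit 152) (nat_lit 1990610369748) (nat_lit 0) (nat_lit 243652497372) (nat_lit 1) (nat_lit 5) (nat_lit 3) (nat_lit 4) (nat_lit 1) (nat_lit 4) (nat_lit 275) (nat_lit 224) (nat_lit 161))) (XT.nd (nat_lit 78) (nat_lit 0) (nat_lit 0) (XT.lf (nat_lit 0) (nat_lit 332153358478) (nat_lit 152) (nat_lit 2234820945191) (nat_lit 0) (nat_lit 308074273318) (nat_lit 1) (nat_lit 5) (nat_lit 3) (nat_lit 4) (nat_lit 1) (nat_lit 4) (nat_lit 276) (nat_lit 224) (nat_lit 160)) (XT.lf (nat_lit 0) (nat_lit 406237923391) (nat_lit 152) (nat_lit 2515665095313) (nat_lit 0) (nat_lit 382158428568) (nat_lit 1) (nat_lit 5) (nat_lit 3) (nat_lit 4) (nat_lit 1) (nat_lit 4) (nat_lit 277) (nat_lit 224) (nat_lit 159))))))))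
noncomputable def xc30 : XT := (XT.nd (nat_lit 31434) (nat_lit 0) (nat_lit 152) (XT.nd (nat_lit 30498) (nat_lit 0) (nat_lit 1444) (XT.nd (nat_lit 468) (nat_lit 0) (nat_lit 0) (XT.nd (nat_lit 234) (nat_lit 0) (nat_lit 0) (XT.nd (nat_lit 78) (nat_lit 0) (nat_lit 0) (XT.lf (nat_lit 0) (nat_lit 491434286776) (nat_lit 152) (nat_lit 2838637596963) (nat_lit 0) (nat_lit 467354435723) (nat_lit 1) (nat_lit 5) (nat_lit 3) (nat_lit 4) (nat_lit 1) (nat_lit 4) (nat_lit 278) (nat_lit 224) (nat_lit 158)) (XT.nd (nat_lit 78) (nat_lit 0) (nat_lit 0) (XT.lf (nat_lit 0) (nat_lit 589409334003) (nat_lit 152) (nat_lit 3210057477348) (nat_lit 0) (nat_lit 565329173184) (nat_lit 1) (nat_lit 5) (nat_lit 3) (nat_lit 4) (nat_lit 1) (nat_lit 4) (nat_lit 279) (nat_lit 224) (nat_lit 157)) (XT.lf (nat_lit 0) (nat_lit 702079968169) (nat_lit 152) (nat_lit 3637191647170) (nat_lit 0) (nat_lit 677999537989) (nat_lit 1) (nat_lit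 5) (nat_lit 3) (nat_lit 4) (nat_lit 1) (nat_lit 4) (nat_lit 280) (nat_lit 224) (nat_lit 156)))) (XT.nd (nat_lit 78) (nat_lit 0) (nat_lit 0) (XT.lf (nat_lit 0) (nat_lit 831650614727) (nat_lit 152) (nat_lit 4128397079318) (nat_lit 0) (nat_lit 807569950319) (nat_lit 1) (nat_lit 5) (nat_lit 3) (nat_lit 4) (nat_lit 1) (nat_lit 4) (nat_lit 281) (nat_lit 224) (nat_lit 155)) (XT.nd (nat_lit 78) (nat_lit 0) (nat_lit 0) (XT.lf (nat_lit 0) (nat_lit 980656351542) (nat_lit 152) (nat_lit 4693284314855) (nat_lit 0) (nat_lit 956575483459) (nat_lit 1) (nat_lit 5) (nat_lit 3) (nat_lit 4) (nat_lit 1) (nat_lit 4) (nat_lit 282) (nat_lit 224) (nat_lit 154)) (XT.lf (nat_lit 0) (nat_lit 1152012508248) (nat_lit 152) (nat_lit 5342905495347) (nat_lit 0) (nat_lit 1127931463057) (nat_lit 1) (nat_lit 5) (nat_lit 3) (nat_lit 4) (nat_lit 1) (nat_lit 4) (nat_lit 283) (nat_lit 224) (nat_lit 153))))) (XT.nd (nat_lit 29796)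 (nat_lit 0) (nat_lit 3420) (XT.nd (nat_lit 78) (nat_lit 0) (nat_lit 0) (XT.lf (nat_lit 0) (nat_lit 1349071705304) (nat_lit 152) (nat_lit 6089970600411) (nat_lit 0) (nat_lit 1324990506104) (nat_lit 1) (nat_lit 5) (nat_lit 3) (nat_lit 4) (nat_lit 1) (nat_lit 4) (nat_lit 284) (nat_lit 224) (nat_lit 152)) (XT.nd (nat_lit 78) (nat_lit 0) (nat_lit 0) (XT.lf (nat_lit 0) (nat_lit 1575689448738) (nat_lit 152) (nat_lit 6949096121233) (nat_lit 0) (nat_lit 1551608115618) (nat_lit 1) (nat_lit 5) (nat_lit 3) (nat_lit 4) (nat_lit 1) (nat_lit 4) (nat_lit 285) (nat_lit 224) (nat_lit 151)) (XT.lf (nat_lit 0) (nat_lit 1836299563965) (nat_lit 152) (nat_lit 7937091035396) (nat_lit 0) (nat_lit 1812218114392) (nat_lit 1) (nat_lit 5) (nat_lit 3) (nat_lit 4) (nat_lit 1) (nat_lit 4) (nat_lit 286) (nat_lit 224) (nat_lit 150)))) (XT.nd (nat_lit 78) (nat_lit 380) (nat_lit 0) (XT.lf (nat_lit 0) (nat_lit 1471968579)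 (nat_lit 0) (nat_lit 1471968579) (nat_lit 380) (nat_lit 1485368082) (nat_lit 51) (nat_lit 5) (nat_lit 51) (nat_lit 3) (nat_lit 56) (nat_lit 3) (nat_lit 225) (nat_lit 225) (nat_lit 210)) (XT.nd (nat_lit 78) (nat_lit 380) (nat_lit 0) (XT.lf (nat_lit 76) (nat_lit 1665857527) (nat_lit 0) (nat_lit 6324351250) (nat_lit 456) (nat_lit 1394327131) (nat_lit 52) (nat_lit 5) (nat_lit 51) (nat_lit 5) (nat_lit 57) (nat_lit 5) (nat_lit 226) (nat_lit 225) (nat_lit 209)) (XT.lf (nat_lit 0) (nat_lit 386954511) (nat_lit 456) (nat_lit 9486320629) (nat_lit 532) (nat_lit 117046884) (nat_lit 46) (nat_lit 5) (nat_lit 52) (nat_lit 5) (nat_lit 53) (nat_lit 5) (nat_lit 227) (nat_lit 225) (nat_lit 208)))))) (XT.nd (nat_lit 468) (nat_lit 836) (nat_lit 0) (XT.nd (nat_lit 234) (nat_lit 760) (nat_lit 0) (XT.nd (nat_lit 78) (nat_lit 380) (nat_lit 0) (XT.lf (nat_lit 0) (nat_lit 2511561611) (nat_lit 456) (nat_lit 655931769)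 (nat_lit 532) (nat_lit 7504694313) (nat_lit 46) (nat_lit 5) (nat_lit 52) (nat_lit 5) (nat_lit 53) (nat_lit 5) (nat_lit 228) (nat_lit 225) (nat_lit 207)) (XT.nd (nat_lit 78) (nat_lit 456) (nat_lit 0) (XT.lf (nat_lit 0) (nat_lit 5090963718) (nat_lit 456) (nat_lit 1751406813) (nat_lit 76) (nat_lit 4603773823) (nat_lit 47) (nat_lit 5) (nat_lit 53) (nat_lit 5) (nat_lit 48) (nat_lit 5) (nat_lit 229) (nat_lit 225) (nat_lit 206)) (XT.lf (nat_lit 0) (nat_lit 8233847399) (nat_lit 532) (nat_lit 2837911393) (nat_lit 76) (nat_lit 1250918243) (nat_lit 41) (nat_lit 5) (nat_lit 48) (nat_lit 5) (nat_lit 42) (nat_lit 5) (nat_lit 230) (nat_lit 225) (nat_lit 205)))) (XT.nd (nat_lit 78) (nat_lit 532) (nat_lit 0) (XT.lf (nat_lit 0) (nat_lit 9287829192) (nat_lit 228) (nat_lit 2855490492) (nat_lit 304) (nat_lit 1164286338) (nat_lit 38) (nat_lit 5) (nat_lit 41) (nat_lit 5) (nat_lit 42) (nat_lit 5) (nat_lit 231)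 (nat_lit 225) (nat_lit 204)) (XT.nd (nat_lit 78) (nat_lit 228) (nat_lit 0) (XT.lf (nat_lit 0) (nat_lit 2407074646) (nat_lit 304) (nat_lit 5381853739) (nat_lit 76) (nat_lit 6622090169) (nat_lit 34) (nat_lit 5) (nat_lit 38) (nat_lit 5) (nat_lit 35) (nat_lit 5) (nat_lit 232) (nat_lit 225) (nat_lit 203)) (XT.lf (nat_lit 0) (nat_lit 6767028836) (nat_lit 304) (nat_lit 6935908445) (nat_lit 76) (nat_lit 1949210456) (nat_lit 31) (nat_lit 5) (nat_lit 35) (nat_lit 5) (nat_lit 32) (nat_lit 5) (nat_lit 233) (nat_lit 225) (nat_lit 202))))) (XT.nd (nat_lit 234) (nat_lit 304) (nat_lit 0) (XT.nd (nat_lit 78) (nat_lit 380) (nat_lit 0) (XT.lf (nat_lit 0) (nat_lit 8220650566) (nat_lit 152) (nat_lit 4008780345) (nat_lit 228) (nat_lit 4814461002) (nat_lit 29) (nat_lit 5) (nat_lit 31) (nat_lit 5) (nat_lit 32) (nat_lit 5) (nat_lit 234) (nat_lit 225) (nat_lit 201)) (XT.nd (nat_lit 78) (nat_lit 152) (nat_lit 0)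 (XT.lf (nat_lit 0) (nat_lit 330312303) (nat_lit 228) (nat_lit 11131558234) (nat_lit 76) (nat_lit 7146494451) (nat_lit 26) (nat_lit 5) (nat_lit 29) (nat_lit 5) (nat_lit 27) (nat_lit 5) (nat_lit 235) (nat_lit 225) (nat_lit 200)) (XT.lf (nat_lit 0) (nat_lit 6286117586) (nat_lit 152) (nat_lit 104469157) (nat_lit 228) (nat_lit 13972835250) (nat_lit 24) (nat_lit 5) (nat_lit 26) (nat_lit 5) (nat_lit 27) (nat_lit 5) (nat_lit 236) (nat_lit 225) (nat_lit 199)))) (XT.nd (nat_lit 78) (nat_lit 152) (nat_lit 0) (XT.lf (nat_lit 0) (nat_lit 4393266376) (nat_lit 152) (nat_lit 9621026417) (nat_lit 228) (nat_lit 8315289554) (nat_lit 22) (nat_lit 5) (nat_lit 24) (nat_lit 5) (nat_lit 25) (nat_lit 5) (nat_lit 237) (nat_lit 225) (nat_lit 198)) (XT.nd (nat_lit 78) (nat_lit 76) (nat_lit 0) (XT.lf (nat_lit 0) (nat_lit 1801962623) (nat_lit 76) (nat_lit 21427625455) (nat_lit 152) (nat_lit 1325406473) (nat_lit 21)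 (nat_lit 5) (nat_lit 22) (nat_lit 5) (nat_lit 23) (nat_lit 4) (nat_lit 238) (nat_lit 225) (nat_lit 197)) (XT.lf (nat_lit 0) (nat_lit 7098117483) (nat_lit 152) (nat_lit 2054611027) (nat_lit 76) (nat_lit 17891034154) (nat_lit 20) (nat_lit 5) (nat_lit 22) (nat_lit 5) (nat_lit 21) (nat_lit 5) (nat_lit 239) (nat_lit 225) (nat_lit 196))))))) (XT.nd (nat_lit 936) (nat_lit 304) (nat_lit 0) (XT.nd (nat_lit 468) (nat_lit 304) (nat_lit 0) (XT.nd (nat_lit 234) (nat_lit 228) (nat_lit 0) (XT.nd (nat_lit 78) (nat_lit 304) (nat_lit 0) (XT.lf (nat_lit 0) (nat_lit 17318969042) (nat_lit 228) (nat_lit 7260584431) (nat_lit 76) (nat_lit 5274675548) (nat_lit 18) (nat_lit 5) (nat_lit 21) (nat_lit 5) (nat_lit 19) (nat_lit 4) (nat_lit 240) (nat_lit 225) (nat_lit 195)) (XT.nd (nat_lit 78) (nat_lit 228) (nat_lit 0) (XT.lf (nat_lit 0) (nat_lit 18548954569) (nat_lit 76) (nat_lit 11220069540) (nat_lit 152) (nat_lit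 3261658941) (nat_lit 17) (nat_lit 5) (nat_lit 18) (nat_lit 5) (nat_lit 19) (nat_lit 4) (nat_lit 241) (nat_lit 225) (nat_lit 194)) (XT.lf (nat_lit 0) (nat_lit 7602778163) (nat_lit 228) (nat_lit 24413905362) (nat_lit 76) (nat_lit 4607152020) (nat_lit 14) (nat_lit 5) (nat_lit 17) (nat_lit 5) (nat_lit 15) (nat_lit 4) (nat_lit 242) (nat_lit 225) (nat_lit 193)))) (XT.nd (nat_lit 78) (nat_lit 152) (nat_lit 0) (XT.lf (nat_lit 0) (nat_lit 2687451845) (nat_lit 76) (nat_lit 17973966511) (nat_lit 152) (nat_lit 20027224615) (nat_lit 13) (nat_lit 5) (nat_lit 14) (nat_lit 5) (nat_lit 15) (nat_lit 4) (nat_lit 243) (nat_lit 225) (nat_lit 192)) (XT.nd (nat_lit 78) (nat_lit 152) (nat_lit 0) (XT.lf (nat_lit 0) (nat_lit 35244953828) (nat_lit 76) (nat_lit 1094450178) (nat_lit 152) (nat_lit 8970986733) (nat_lit 13) (nat_lit 5) (nat_lit 14) (nat_lit 5) (nat_lit 15) (nat_lit 4) (nat_lit 244) (nat_lit 225) (nat_lit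 191)) (XT.lf (nat_lit 0) (nat_lit 4522224320) (nat_lit 152) (nat_lit 27988995355) (nat_lit 76) (nat_lit 18029764060) (nat_lit 11) (nat_lit 5) (nat_lit 13) (nat_lit 5) (nat_lit 12) (nat_lit 4) (nat_lit 245) (nat_lit 225) (nat_lit 190))))) (XT.nd (nat_lit 234) (nat_lit 152) (nat_lit 0) (XT.nd (nat_lit 78) (nat_lit 76) (nat_lit 0) (XT.lf (nat_lit 0) (nat_lit 3977402431) (nat_lit 76) (nat_lit 15931024060) (nat_lit 152) (nat_lit 36597127054) (nat_lit 10) (nat_lit 5) (nat_lit 11) (nat_lit 5) (nat_lit 12) (nat_lit 4) (nat_lit 246) (nat_lit 225) (nat_lit 189)) (XT.nd (nat_lit 78) (nat_lit 76) (nat_lit 0) (XT.lf (nat_lit 0) (nat_lit 38475569966) (nat_lit 152) (nat_lit 21032953522) (nat_lit 0) (nat_lit 3786482927) (nat_lit 10) (nat_lit 5) (nat_lit 12) (nat_lit 4) (nat_lit 10) (nat_lit 4) (nat_lit 247) (nat_lit 225) (nat_lit 188)) (XT.lf (nat_lit 0) (nat_lit 15457934670) (nat_lit 76) (nat_lit 45148792249)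 (nat_lit 76) (nat_lit 10433868390) (nat_lit 9) (nat_lit 4) (nat_lit 10) (nat_lit 5) (nat_lit 10) (nat_lit 4) (nat_lit 248) (nat_lit 225) (nat_lit 187)))) (XT.nd (nat_lit 78) (nat_lit 76) (nat_lit 0) (XT.lf (nat_lit 0) (nat_lit 6400928721) (nat_lit 152) (nat_lit 21423458917) (nat_lit 76) (nat_lit 52064145670) (nat_lit 8) (nat_lit 5) (nat_lit 10) (nat_lit 5) (nat_lit 9) (nat_lit 4) (nat_lit 249) (nat_lit 225) (nat_lit 186)) (XT.nd (nat_lit 78) (nat_lit 0) (nat_lit 0) (XT.lf (nat_lit 0) (nat_lit 18443462413) (nat_lit 76) (nat_lit 7133647884) (nat_lit 152) (nat_lit 64430177057) (nat_lit 7) (nat_lit 5) (nat_lit 8) (nat_lit 5) (nat_lit 9) (nat_lit 4) (nat_lit 250) (nat_lit 225) (nat_lit 185)) (XT.lf (nat_lit 0) (nat_lit 48645093681) (nat_lit 152) (nat_lit 36470527114) (nat_lit 0) (nat_lit 16447024111) (nat_lit 7) (nat_lit 5) (nat_lit 9) (nat_lit 4) (nat_lit 7) (nat_lit 4) (nat_lit 251) (nat_lit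 225) (nat_lit 184)))))) (XT.nd (nat_lit 468) (nat_lit 76) (nat_lit 0) (XT.nd (nat_lit 234) (nat_lit 152) (nat_lit 0) (XT.nd (nat_lit 78) (nat_lit 0) (nat_lit 0) (XT.lf (nat_lit 0) (nat_lit 3840321755) (nat_lit 76) (nat_lit 71600666288) (nat_lit 76) (nat_lit 39388918677) (nat_lit 6) (nat_lit 4) (nat_lit 7) (nat_lit 5) (nat_lit 7) (nat_lit 4) (nat_lit 252) (nat_lit 225) (nat_lit 183)) (XT.nd (nat_lit 78) (nat_lit 0) (nat_lit 0) (XT.lf (nat_lit 0) (nat_lit 52368581130) (nat_lit 76) (nat_lit 54929494458) (nat_lit 76) (nat_lit 22705852896) (nat_lit 6) (nat_lit 4) (nat_lit 7) (nat_lit 5) (nat_lit 7) (nat_lit 4) (nat_lit 253) (nat_lit 225) (nat_lit 182)) (XT.lf (nat_lit 0) (nat_lit 108143243625) (nat_lit 76) (nat_lit 35773099044) (nat_lit 76) (nat_lit 3539114918) (nat_lit 6) (nat_lit 4) (nat_lit 7) (nat_lit 5) (nat_lit 7) (nat_lit 4) (nat_lit 254) (nat_lit 225) (nat_lit 181)))) (XT.nd (nat_lit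 78) (nat_lit 0) (nat_lit 0) (XT.lf (nat_lit 0) (nat_lit 4510661311) (nat_lit 76) (nat_lit 13159357425) (nat_lit 152) (nat_lit 149811672066) (nat_lit 4) (nat_lit 5) (nat_lit 5) (nat_lit 5) (nat_lit 6) (nat_lit 4) (nat_lit 255) (nat_lit 225) (nat_lit 180)) (XT.nd (nat_lit 78) (nat_lit 0) (nat_lit 0) (XT.lf (nat_lit 0) (nat_lit 43325694704) (nat_lit 152) (nat_lit 133596996889) (nat_lit 0) (nat_lit 13463844587) (nat_lit 4) (nat_lit 5) (nat_lit 6) (nat_lit 4) (nat_lit 4) (nat_lit 4) (nat_lit 256) (nat_lit 225) (nat_lit 179)) (XT.lf (nat_lit 0) (nat_lit 73181113008) (nat_lit 152) (nat_lit 100204926014) (nat_lit 0) (nat_lit 43312966220) (nat_lit 4) (nat_lit 5) (nat_lit 6) (nat_lit 4) (nat_lit 4) (nat_lit 4) (nat_lit 257) (nat_lit 225) (nat_lit 178))))) (XT.nd (nat_lit 234) (nat_lit 0) (nat_lit 0) (XT.nd (nat_lit 78) (nat_lit 76) (nat_lit 0) (XT.lf (nat_lit 0) (nat_lit 107503918535) (nat_lit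 152) (nat_lit 61825010876) (nat_lit 0) (nat_lit 77630296381) (nat_lit 4) (nat_lit 5) (nat_lit 6) (nat_lit 4) (nat_lit 4) (nat_lit 4) (nat_lit 258) (nat_lit 225) (nat_lit 177)) (XT.nd (nat_lit 78) (nat_lit 76) (nat_lit 0) (XT.lf (nat_lit 0) (nat_lit 146965644437) (nat_lit 152) (nat_lit 17706340094) (nat_lit 0) (nat_lit 117087261095) (nat_lit 4) (nat_lit 5) (nat_lit 6) (nat_lit 4) (nat_lit 4) (nat_lit 4) (nat_lit 259) (nat_lit 225) (nat_lit 176)) (XT.lf (nat_lit 0) (nat_lit 34752751075) (nat_lit 76) (nat_lit 158421421383) (nat_lit 76) (nat_lit 128538897878) (nat_lit 3) (nat_lit 4) (nat_lit 4) (nat_lit 5) (nat_lit 4) (nat_lit 4) (nat_lit 260) (nat_lit 225) (nat_lit 175)))) (XT.nd (nat_lit 78) (nat_lit 0) (nat_lit 0) (XT.lf (nat_lit 0) (nat_lit 96138436425) (nat_lit 76) (nat_lit 150683511584) (nat_lit 76) (nat_lit 120797387938) (nat_lit 3) (nat_lit 4) (nat_lit 4) (nat_lit 5) (nat_lit 4) (nat_lit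 4) (nat_lit 261) (nat_lit 225) (nat_lit 174)) (XT.nd (nat_lit 78) (nat_lit 0) (nat_lit 0) (XT.lf (nat_lit 0) (nat_lit 166719355742) (nat_lit 76) (nat_lit 141790983965) (nat_lit 76) (nat_lit 111901729760) (nat_lit 3) (nat_lit 4) (nat_lit 4) (nat_lit 5) (nat_lit 4) (nat_lit 4) (nat_lit 262) (nat_lit 225) (nat_lit 173)) (XT.lf (nat_lit 0) (nat_lit 247876440057) (nat_lit 76) (nat_lit 131569854289) (nat_lit 76) (nat_lit 101677877860) (nat_lit 3) (nat_lit 4) (nat_lit 4) (nat_lit 5) (nat_lit 4) (nat_lit 4) (nat_lit 263) (nat_lit 225) (nat_lit 172))))))))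
noncomputable def xc31 : XT := (XT.nd (nat_lit 31512) (nat_lit 0) (nat_lit 456) (XT.nd (nat_lit 936) (nat_lit 0) (nat_lit 0) (XT.nd (nat_lit 468) (nat_lit 76) (nat_lit 0) (XT.nd (nat_lit 234) (nat_lit 76) (nat_lit 0) (XT.nd (nat_lit 78) (nat_lit 0) (nat_lit 0) (XT.lf (nat_lit 0) (nat_lit 341197545367) (nat_lit 76) (nat_lit 119820143932) (nat_lit 76) (nat_lit 89925800351) (nat_lit 3) (nat_lit 4) (nat_lit 4) (nat_lit 5) (nat_lit 4) (nat_lit 4) (nat_lit 264) (nat_lit 225) (nat_lit 171)) (XT.nd (nat_lit 78) (nat_lit 0) (nat_lit 0) (XT.lf (nat_lit 0) (nat_lit 448508519384) (nat_lit 76) (nat_lit 106311967256) (nat_lit 76) (nat_lit 76415565282) (nat_lit 3) (nat_lit 4) (nat_lit 4) (nat_lit 5) (nat_lit 4) (nat_lit 4) (nat_lit 265) (nat_lit 225) (nat_lit 170)) (XT.lf (nat_lit 0) (nat_lit 571908924644) (nat_lit 76) (nat_lit 90781033849) (nat_lit 76) (nat_lit 60882841969) (nat_lit 3) (nat_lit 4)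 (nat_lit 4) (nat_lit 5) (nat_lit 4) (nat_lit 4) (nat_lit 266) (nat_lit 225) (nat_lit 169)))) (XT.nd (nat_lit 78) (nat_lit 76) (nat_lit 0) (XT.lf (nat_lit 0) (nat_lit 713813116902) (nat_lit 76) (nat_lit 72923477622) (nat_lit 76) (nat_lit 43023729301) (nat_lit 3) (nat_lit 4) (nat_lit 4) (nat_lit 5) (nat_lit 4) (nat_lit 4) (nat_lit 267) (nat_lit 225) (nat_lit 168)) (XT.nd (nat_lit 78) (nat_lit 76) (nat_lit 0) (XT.lf (nat_lit 0) (nat_lit 876997482528) (nat_lit 76) (nat_lit 52389911606) (nat_lit 76) (nat_lit 22488809858) (nat_lit 3) (nat_lit 4) (nat_lit 4) (nat_lit 5) (nat_lit 4) (nat_lit 4) (nat_lit 268) (nat_lit 225) (nat_lit 167)) (XT.lf (nat_lit 0) (nat_lit 1067475173) (nat_lit 152) (nat_lit 27681930280) (nat_lit 76) (nat_lit 1063558097274) (nat_lit 2) (nat_lit 5) (nat_lit 4) (nat_lit 5) (nat_lit 3) (nat_lit 4) (nat_lit 269) (nat_lit 225) (nat_lit 166))))) (XT.nd (nat_lit 234) (nat_lit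 0) (nat_lit 0) (XT.nd (nat_lit 78) (nat_lit 0) (nat_lit 0) (XT.lf (nat_lit 0) (nat_lit 27335589499) (nat_lit 76) (nat_lit 183108349) (nat_lit 152) (nat_lit 1226182622986) (nat_lit 1) (nat_lit 5) (nat_lit 2) (nat_lit 5) (nat_lit 3) (nat_lit 4) (nat_lit 270) (nat_lit 225) (nat_lit 165)) (XT.nd (nat_lit 78) (nat_lit 0) (nat_lit 0) (XT.lf (nat_lit 0) (nat_lit 59548086183) (nat_lit 152) (nat_lit 1347768268376) (nat_lit 0) (nat_lit 31859019584) (nat_lit 1) (nat_lit 5) (nat_lit 3) (nat_lit 4) (nat_lit 1) (nat_lit 4) (nat_lit 271) (nat_lit 225) (nat_lit 164)) (XT.lf (nat_lit 0) (nat_lit 96385164494) (nat_lit 152) (nat_lit 1487389727954) (nat_lit 0) (nat_lit 68695381390) (nat_lit 1) (nat_lit 5) (nat_lit 3) (nat_lit 4) (nat_lit 1) (nat_lit 4) (nat_lit 272) (nat_lit 225) (nat_lit 163)))) (XT.nd (nat_lit 78) (nat_lit 0) (nat_lit 0) (XT.lf (nat_lit 0) (nat_lit 138746254468) (nat_lit 152) (nat_lit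 1647957430517) (nat_lit 0) (nat_lit 111055848316) (nat_lit 1) (nat_lit 5) (nat_lit 3) (nat_lit 4) (nat_lit 1) (nat_lit 4) (nat_lit 273) (nat_lit 225) (nat_lit 162)) (XT.nd (nat_lit 78) (nat_lit 0) (nat_lit 0) (XT.lf (nat_lit 0) (nat_lit 187460160038) (nat_lit 152) (nat_lit 1832612918073) (nat_lit 0) (nat_lit 159769212105) (nat_lit 1) (nat_lit 5) (nat_lit 3) (nat_lit 4) (nat_lit 1) (nat_lit 4) (nat_lit 274) (nat_lit 225) (nat_lit 161)) (XT.lf (nat_lit 0) (nat_lit 243479979358) (nat_lit 152) (nat_lit 2044969015379) (nat_lit 0) (nat_lit 215788560310) (nat_lit 1) (nat_lit 5) (nat_lit 3) (nat_lit 4) (nat_lit 1) (nat_lit 4) (nat_lit 275) (nat_lit 225) (nat_lit 160)))))) (XT.nd (nat_lit 468) (nat_lit 0) (nat_lit 0) (XT.nd (nat_lit 234) (nat_lit 0) (nat_lit 0) (XT.nd (nat_lit 78) (nat_lit 0) (nat_lit 0) (XT.lf (nat_lit 0) (nat_lit 307901752369) (nat_lit 152) (nat_lit 2289180515642) (nat_lit 0)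 (nat_lit 280209923657) (nat_lit 1) (nat_lit 5) (nat_lit 3) (nat_lit 4) (nat_lit 1) (nat_lit 4) (nat_lit 276) (nat_lit 225) (nat_lit 159)) (XT.nd (nat_lit 78) (nat_lit 0) (nat_lit 0) (XT.lf (nat_lit 0) (nat_lit 381985905066) (nat_lit 152) (nat_lit 2570025469954) (nat_lit 0) (nat_lit 354293720124) (nat_lit 1) (nat_lit 5) (nat_lit 3) (nat_lit 4) (nat_lit 1) (nat_lit 4) (nat_lit 277) (nat_lit 225) (nat_lit 158)) (XT.lf (nat_lit 0) (nat_lit 467181910002) (nat_lit 152) (nat_lit 2892998670901) (nat_lit 0) (nat_lit 439489415294) (nat_lit 1) (nat_lit 5) (nat_lit 3) (nat_lit 4) (nat_lit 1) (nat_lit 4) (nat_lit 278) (nat_lit 225) (nat_lit 157)))) (XT.nd (nat_lit 78) (nat_lit 0) (nat_lit 0) (XT.lf (nat_lit 0) (nat_lit 565156645533) (nat_lit 152) (nat_lit 3264419159369) (nat_lit 0) (nat_lit 537463881465) (nat_lit 1) (nat_lit 5) (nat_lit 3) (nat_lit 4) (nat_lit 1) (nat_lit 4) (nat_lit 279) (nat_lit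 225) (nat_lit 156)) (XT.nd (nat_lit 78) (nat_lit 0) (nat_lit 0) (XT.lf (nat_lit 0) (nat_lit 677827008660) (nat_lit 152) (nat_lit 3691553857960) (nat_lit 0) (nat_lit 650134010365) (nat_lit 1) (nat_lit 5) (nat_lit 3) (nat_lit 4) (nat_lit 1) (nat_lit 4) (nat_lit 280) (nat_lit 225) (nat_lit 155)) (XT.lf (nat_lit 0) (nat_lit 807397419531) (nat_lit 152) (nat_lit 4182759749907) (nat_lit 0) (nat_lit 779704217561) (nat_lit 1) (nat_lit 5) (nat_lit 3) (nat_lit 4) (nat_lit 1) (nat_lit 4) (nat_lit 281) (nat_lit 225) (nat_lit 154))))) (XT.nd (nat_lit 234) (nat_lit 0) (nat_lit 0) (XT.nd (nat_lit 78) (nat_lit 0) (nat_lit 0) (XT.lf (nat_lit 0) (nat_lit 956402951402) (nat_lit 152) (nat_lit 4747647385269) (nat_lit 0) (nat_lit 928709572322) (nat_lit 1) (nat_lit 5) (nat_lit 3) (nat_lit 4) (nat_lit 1) (nat_lit 4) (nat_lit 282) (nat_lit 225) (nat_lit 153)) (XT.nd (nat_lit 78) (nat_lit 0) (nat_lit 0) (XT.lf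 (nat_lit 0) (nat_lit 1127758929896) (nat_lit 152) (nat_lit 5397268913434) (nat_lit 0) (nat_lit 1100065396808) (nat_lit 1) (nat_lit 5) (nat_lit 3) (nat_lit 4) (nat_lit 1) (nat_lit 4) (nat_lit 283) (nat_lit 225) (nat_lit 152)) (XT.lf (nat_lit 0) (nat_lit 1324817971984) (nat_lit 152) (nat_lit 6144334320823) (nat_lit 0) (nat_lit 1297124304976) (nat_lit 1) (nat_lit 5) (nat_lit 3) (nat_lit 4) (nat_lit 1) (nat_lit 4) (nat_lit 284) (nat_lit 225) (nat_lit 151)))) (XT.nd (nat_lit 78) (nat_lit 0) (nat_lit 0) (XT.lf (nat_lit 0) (nat_lit 1551435580663) (nat_lit 152) (nat_lit 7003460104537) (nat_lit 0) (nat_lit 1523741797203) (nat_lit 1) (nat_lit 5) (nat_lit 3) (nat_lit 4) (nat_lit 1) (nat_lit 4) (nat_lit 285) (nat_lit 225) (nat_lit 150)) (XT.nd (nat_lit 29718) (nat_lit 0) (nat_lit 3800) (XT.lf (nat_lit 0) (nat_lit 1812045578713) (nat_lit 152) (nat_lit 7991455247301) (nat_lit 0) (nat_lit 1784351693989)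 (nat_lit 1) (nat_lit 5) (nat_lit 3) (nat_lit 4) (nat_lit 1) (nat_lit 4) (nat_lit 286) (nat_lit 225) (nat_lit 149)) (XT.lf (nat_lit 0) (nat_lit 2432903022) (nat_lit 0) (nat_lit 2432903022) (nat_lit 380) (nat_lit 104094202) (nat_lit 51) (nat_lit 5) (nat_lit 51) (nat_lit 3) (nat_lit 56) (nat_lit 3) (nat_lit 226) (nat_lit 226) (nat_lit 208))))))) (XT.nd (nat_lit 936) (nat_lit 1140) (nat_lit 0) (XT.nd (nat_lit 468) (nat_lit 1140) (nat_lit 0) (XT.nd (nat_lit 234) (nat_lit 608) (nat_lit 0) (XT.nd (nat_lit 78) (nat_lit 0) (nat_lit 0) (XT.lf (nat_lit 0) (nat_lit 1134955639) (nat_lit 456) (nat_lit 7075067566) (nat_lit 532) (nat_lit 2363959569) (nat_lit 45) (nat_lit 5) (nat_lit 51) (nat_lit 5) (nat_lit 52) (nat_lit 5) (nat_lit 227) (nat_lit 226) (nat_lit 207)) (XT.nd (nat_lit 78) (nat_lit 0) (nat_lit 76) (XT.lf (nat_lit 76) (nat_lit 2196914464) (nat_lit 0) (nat_lit 594978620) (nat_lit 532) (nat_lit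 8501694261) (nat_lit 46) (nat_lit 5) (nat_lit 45) (nat_lit 5) (nat_lit 52) (nat_lit 5) (nat_lit 228) (nat_lit 226) (nat_lit 206)) (XT.lf (nat_lit 76) (nat_lit 878223904) (nat_lit 0) (nat_lit 4059529034) (nat_lit 532) (nat_lit 7164757342) (nat_lit 47) (nat_lit 5) (nat_lit 46) (nat_lit 5) (nat_lit 53) (nat_lit 5) (nat_lit 229) (nat_lit 226) (nat_lit 205)))) (XT.nd (nat_lit 78) (nat_lit 760) (nat_lit 0) (XT.lf (nat_lit 0) (nat_lit 7645063160) (nat_lit 456) (nat_lit 402091140) (nat_lit 76) (nat_lit 4966980532) (nat_lit 47) (nat_lit 5) (nat_lit 53) (nat_lit 5) (nat_lit 48) (nat_lit 5) (nat_lit 230) (nat_lit 226) (nat_lit 204)) (XT.nd (nat_lit 78) (nat_lit 304) (nat_lit 0) (XT.lf (nat_lit 0) (nat_lit 11058519731) (nat_lit 532) (nat_lit 1652867334) (nat_lit 76) (nat_lit 1327571922) (nat_lit 41) (nat_lit 5) (nat_lit 48) (nat_lit 5) (nat_lit 42) (nat_lit 5) (nat_lit 231) (nat_lit 226) (nat_lit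 203)) (XT.lf (nat_lit 0) (nat_lit 186679672) (nat_lit 304) (nat_lit 3035355651) (nat_lit 76) (nat_lit 11963610177) (nat_lit 37) (nat_lit 5) (nat_lit 41) (nat_lit 5) (nat_lit 38) (nat_lit 5) (nat_lit 232) (nat_lit 226) (nat_lit 202))))) (XT.nd (nat_lit 234) (nat_lit 532) (nat_lit 0) (XT.nd (nat_lit 78) (nat_lit 380) (nat_lit 0) (XT.lf (nat_lit 0) (nat_lit 4073654909) (nat_lit 304) (nat_lit 4660816811) (nat_lit 76) (nat_lit 7730291044) (nat_lit 34) (nat_lit 5) (nat_lit 38) (nat_lit 5) (nat_lit 35) (nat_lit 5) (nat_lit 233) (nat_lit 226) (nat_lit 201)) (XT.nd (nat_lit 78) (nat_lit 152) (nat_lit 0) (XT.lf (nat_lit 0) (nat_lit 8956495167) (nat_lit 304) (nat_lit 6486352086) (nat_lit 76) (nat_lit 2460154861) (nat_lit 31) (nat_lit 5) (nat_lit 35) (nat_lit 5) (nat_lit 32) (nat_lit 5) (nat_lit 234) (nat_lit 226) (nat_lit 200)) (XT.lf (nat_lit 0) (nat_lit 10817574555) (nat_lit 152) (nat_lit 4300298880)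 (nat_lit 228) (nat_lit 4395658446) (nat_lit 29) (nat_lit 5) (nat_lit 31) (nat_lit 5) (nat_lit 32) (nat_lit 5) (nat_lit 235) (nat_lit 226) (nat_lit 199)))) (XT.nd (nat_lit 78) (nat_lit 304) (nat_lit 0) (XT.lf (nat_lit 0) (nat_lit 1361623224) (nat_lit 228) (nat_lit 11426333486) (nat_lit 76) (nat_lit 8531011123) (nat_lit 26) (nat_lit 5) (nat_lit 29) (nat_lit 5) (nat_lit 27) (nat_lit 5) (nat_lit 236) (nat_lit 226) (nat_lit 198)) (XT.nd (nat_lit 78) (nat_lit 152) (nat_lit 0) (XT.lf (nat_lit 0) (nat_lit 8239271150) (nat_lit 228) (nat_lit 14863891124) (nat_lit 76) (nat_lit 241729847) (nat_lit 24) (nat_lit 5) (nat_lit 27) (nat_lit 5) (nat_lit 25) (nat_lit 5) (nat_lit 237) (nat_lit 226) (nat_lit 197)) (XT.lf (nat_lit 0) (nat_lit 6262465080) (nat_lit 152) (nat_lit 10659586532) (nat_lit 228) (nat_lit 8690922842) (nat_lit 22) (nat_lit 5) (nat_lit 24) (nat_lit 5) (nat_lit 25) (nat_lit 5) (nat_lit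 238) (nat_lit 226) (nat_lit 196)))))) (XT.nd (nat_lit 468) (nat_lit 456) (nat_lit 0) (XT.nd (nat_lit 234) (nat_lit 380) (nat_lit 0) (XT.nd (nat_lit 78) (nat_lit 228) (nat_lit 0) (XT.lf (nat_lit 0) (nat_lit 3231575611) (nat_lit 76) (nat_lit 24219328312) (nat_lit 152) (nat_lit 727001729) (nat_lit 21) (nat_lit 5) (nat_lit 22) (nat_lit 5) (nat_lit 23) (nat_lit 4) (nat_lit 239) (nat_lit 226) (nat_lit 195)) (XT.nd (nat_lit 78) (nat_lit 152) (nat_lit 0) (XT.lf (nat_lit 0) (nat_lit 8821387937) (nat_lit 152) (nat_lit 1318903883) (nat_lit 76) (nat_lit 20906233569) (nat_lit 20) (nat_lit 5) (nat_lit 22) (nat_lit 5) (nat_lit 21) (nat_lit 5) (nat_lit 240) (nat_lit 226) (nat_lit 194)) (XT.lf (nat_lit 0) (nat_lit 20521105412) (nat_lit 228) (nat_lit 7354167276) (nat_lit 76) (nat_lit 6407775711) (nat_lit 18) (nat_lit 5) (nat_lit 21) (nat_lit 5) (nat_lit 19) (nat_lit 4) (nat_lit 241) (nat_lit 226) (nat_lit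 193)))) (XT.nd (nat_lit 78) (nat_lit 304) (nat_lit 0) (XT.lf (nat_lit 0) (nat_lit 22242538050) (nat_lit 76) (nat_lit 12539225474) (nat_lit 152) (nat_lit 3158886169) (nat_lit 17) (nat_lit 5) (nat_lit 18) (nat_lit 5) (nat_lit 19) (nat_lit 4) (nat_lit 242) (nat_lit 226) (nat_lit 192)) (XT.nd (nat_lit 78) (nat_lit 76) (nat_lit 0) (XT.lf (nat_lit 0) (nat_lit 9261442675) (nat_lit 228) (nat_lit 27181064887) (nat_lit 76) (nat_lit 5632763178) (nat_lit 14) (nat_lit 5) (nat_lit 17) (nat_lit 5) (nat_lit 15) (nat_lit 4) (nat_lit 243) (nat_lit 226) (nat_lit 191)) (XT.lf (nat_lit 0) (nat_lit 3909744849) (nat_lit 76) (nat_lit 20321237694) (nat_lit 152) (nat_lit 22522737181) (nat_lit 13) (nat_lit 5) (nat_lit 14) (nat_lit 5) (nat_lit 15) (nat_lit 4) (nat_lit 244) (nat_lit 226) (nat_lit 190))))) (XT.nd (nat_lit 234) (nat_lit 228) (nat_lit 0) (XT.nd (nat_lit 78) (nat_lit 228) (nat_lit 0) (XT.lf (nat_lit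 0) (nat_lit 41244023187) (nat_lit 76) (nat_lit 955292667) (nat_lit 152) (nat_lit 9874398981) (nat_lit 13) (nat_lit 5) (nat_lit 14) (nat_lit 5) (nat_lit 15) (nat_lit 4) (nat_lit 245) (nat_lit 226) (nat_lit 189)) (XT.nd (nat_lit 78) (nat_lit 76) (nat_lit 0) (XT.lf (nat_lit 0) (nat_lit 5589056688) (nat_lit 152) (nat_lit 31490697520) (nat_lit 76) (nat_lit 21010883006) (nat_lit 11) (nat_lit 5) (nat_lit 13) (nat_lit 5) (nat_lit 12) (nat_lit 4) (nat_lit 246) (nat_lit 226) (nat_lit 188)) (XT.lf (nat_lit 0) (nat_lit 5211692223) (nat_lit 76) (nat_lit 18036159421) (nat_lit 152) (nat_lit 41704921879) (nat_lit 10) (nat_lit 5) (nat_lit 11) (nat_lit 5) (nat_lit 12) (nat_lit 4) (nat_lit 247) (nat_lit 226) (nat_lit 187)))) (XT.nd (nat_lit 156) (nat_lit 152) (nat_lit 0) (XT.nd (nat_lit 78) (nat_lit 76) (nat_lit 0) (XT.lf (nat_lit 0) (nat_lit 44559952288) (nat_lit 152) (nat_lit 23614461931) (nat_lit 0)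 (nat_lit 4589486230) (nat_lit 10) (nat_lit 5) (nat_lit 12) (nat_lit 4) (nat_lit 10) (nat_lit 4) (nat_lit 248) (nat_lit 226) (nat_lit 186)) (XT.lf (nat_lit 0) (nat_lit 18301521104) (nat_lit 76) (nat_lit 51681053251) (nat_lit 76) (nat_lit 11691050845) (nat_lit 9) (nat_lit 4) (nat_lit 10) (nat_lit 5) (nat_lit 10) (nat_lit 4) (nat_lit 249) (nat_lit 226) (nat_lit 185))) (XT.nd (nat_lit 78) (nat_lit 76) (nat_lit 0) (XT.lf (nat_lit 0) (nat_lit 7615411949) (nat_lit 152) (nat_lit 24166933677) (nat_lit 76) (nat_lit 60068900895) (nat_lit 8) (nat_lit 5) (nat_lit 10) (nat_lit 5) (nat_lit 9) (nat_lit 4) (nat_lit 250) (nat_lit 226) (nat_lit 184)) (XT.lf (nat_lit 0) (nat_lit 21640238963) (nat_lit 76) (nat_lit 8004954201) (nat_lit 152) (nat_lit 73844475320) (nat_lit 7) (nat_lit 5) (nat_lit 8) (nat_lit 5) (nat_lit 9) (nat_lit 4) (nat_lit 251) (nat_lit 226) (nat_lit 183))))))))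
noncomputable def xc32 : XT := (XT.nd (nat_lit 1872) (nat_lit 0) (nat_lit 0) (XT.nd (nat_lit 936) (nat_lit 152) (nat_lit 0) (XT.nd (nat_lit 468) (nat_lit 76) (nat_lit 0) (XT.nd (nat_lit 234) (nat_lit 152) (nat_lit 0) (XT.nd (nat_lit 78) (nat_lit 76) (nat_lit 0) (XT.lf (nat_lit 0) (nat_lit 56147332554) (nat_lit 152) (nat_lit 41554854495) (nat_lit 0) (nat_lit 19078250809) (nat_lit 7) (nat_lit 5) (nat_lit 9) (nat_lit 4) (nat_lit 7) (nat_lit 4) (nat_lit 252) (nat_lit 226) (nat_lit 182)) (XT.nd (nat_lit 78) (nat_lit 0) (nat_lit 0) (XT.lf (nat_lit 0) (nat_lit 4769927424) (nat_lit 76) (nat_lit 82174385648) (nat_lit 76) (nat_lit 45094961338) (nat_lit 6) (nat_lit 4) (nat_lit 7) (nat_lit 5) (nat_lit 7) (nat_lit 4) (nat_lit 253) (nat_lit 226) (nat_lit 181)) (XT.lf (nat_lit 0) (nat_lit 60531309521) (nat_lit 76) (nat_lit 63024239858) (nat_lit 76) (nat_lit 25935822013) (nat_lit 6) (nat_lit 4) (nat_lit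 7) (nat_lit 5) (nat_lit 7) (nat_lit 4) (nat_lit 254) (nat_lit 226) (nat_lit 180)))) (XT.nd (nat_lit 78) (nat_lit 152) (nat_lit 0) (XT.lf (nat_lit 0) (nat_lit 124632070362) (nat_lit 76) (nat_lit 41013256277) (nat_lit 76) (nat_lit 3917017966) (nat_lit 6) (nat_lit 4) (nat_lit 7) (nat_lit 5) (nat_lit 7) (nat_lit 4) (nat_lit 255) (nat_lit 226) (nat_lit 179)) (XT.nd (nat_lit 78) (nat_lit 0) (nat_lit 0) (XT.lf (nat_lit 0) (nat_lit 5439068275) (nat_lit 76) (nat_lit 15013867777) (nat_lit 152) (nat_lit 172140327436) (nat_lit 4) (nat_lit 5) (nat_lit 5) (nat_lit 5) (nat_lit 6) (nat_lit 4) (nat_lit 256) (nat_lit 226) (nat_lit 178)) (XT.lf (nat_lit 0) (nat_lit 49942188837) (nat_lit 152) (nat_lit 153410792257) (nat_lit 0) (nat_lit 15582047994) (nat_lit 4) (nat_lit 5) (nat_lit 6) (nat_lit 4) (nat_lit 4) (nat_lit 4) (nat_lit 257) (nat_lit 226) (nat_lit 177))))) (XT.nd (nat_lit 234) (nat_lit 76) (nat_lit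 0) (XT.nd (nat_lit 78) (nat_lit 0) (nat_lit 0) (XT.lf (nat_lit 0) (nat_lit 84260575548) (nat_lit 152) (nat_lit 115039356945) (nat_lit 0) (nat_lit 49895673518) (nat_lit 4) (nat_lit 5) (nat_lit 6) (nat_lit 4) (nat_lit 4) (nat_lit 4) (nat_lit 258) (nat_lit 226) (nat_lit 176)) (XT.nd (nat_lit 78) (nat_lit 0) (nat_lit 0) (XT.lf (nat_lit 0) (nat_lit 123718459001) (nat_lit 152) (nat_lit 70928059925) (nat_lit 0) (nat_lit 89349416808) (nat_lit 4) (nat_lit 5) (nat_lit 6) (nat_lit 4) (nat_lit 4) (nat_lit 4) (nat_lit 259) (nat_lit 226) (nat_lit 175)) (XT.lf (nat_lit 0) (nat_lit 169087841264) (nat_lit 152) (nat_lit 20213854079) (nat_lit 0) (nat_lit 134715198929) (nat_lit 4) (nat_lit 5) (nat_lit 6) (nat_lit 4) (nat_lit 4) (nat_lit 4) (nat_lit 260) (nat_lit 226) (nat_lit 174)))) (XT.nd (nat_lit 78) (nat_lit 0) (nat_lit 0) (XT.lf (nat_lit 0) (nat_lit 40101536310) (nat_lit 76) (nat_lit 182119290766) (nat_lit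 76) (nat_lit 147743517872) (nat_lit 3) (nat_lit 4) (nat_lit 4) (nat_lit 5) (nat_lit 4) (nat_lit 4) (nat_lit 261) (nat_lit 226) (nat_lit 173)) (XT.nd (nat_lit 78) (nat_lit 0) (nat_lit 0) (XT.lf (nat_lit 0) (nat_lit 110677351953) (nat_lit 76) (nat_lit 173229217605) (nat_lit 76) (nat_lit 138850722487) (nat_lit 3) (nat_lit 4) (nat_lit 4) (nat_lit 5) (nat_lit 4) (nat_lit 4) (nat_lit 262) (nat_lit 226) (nat_lit 172)) (XT.lf (nat_lit 0) (nat_lit 191829998290) (nat_lit 76) (nat_lit 163010222241) (nat_lit 76) (nat_lit 128629359971) (nat_lit 3) (nat_lit 4) (nat_lit 4) (nat_lit 5) (nat_lit 4) (nat_lit 4) (nat_lit 263) (nat_lit 226) (nat_lit 171)))))) (XT.nd (nat_lit 468) (nat_lit 152) (nat_lit 0) (XT.nd (nat_lit 234) (nat_lit 0) (nat_lit 0) (XT.nd (nat_lit 78) (nat_lit 0) (nat_lit 0) (XT.lf (nat_lit 0) (nat_lit 285147244489) (nat_lit 76) (nat_lit 151262367807) (nat_lit 76) (nat_lit 116879447144)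 (nat_lit 3) (nat_lit 4) (nat_lit 4) (nat_lit 5) (nat_lit 4) (nat_lit 4) (nat_lit 264) (nat_lit 226) (nat_lit 170)) (XT.nd (nat_lit 78) (nat_lit 0) (nat_lit 0) (XT.lf (nat_lit 0) (nat_lit 392454862757) (nat_lit 76) (nat_lit 137755804978) (nat_lit 76) (nat_lit 103371094408) (nat_lit 3) (nat_lit 4) (nat_lit 4) (nat_lit 5) (nat_lit 4) (nat_lit 4) (nat_lit 265) (nat_lit 226) (nat_lit 169)) (XT.lf (nat_lit 0) (nat_lit 515852349975) (nat_lit 76) (nat_lit 122226274915) (nat_lit 76) (nat_lit 87840007905) (nat_lit 3) (nat_lit 4) (nat_lit 4) (nat_lit 5) (nat_lit 4) (nat_lit 4) (nat_lit 266) (nat_lit 226) (nat_lit 168)))) (XT.nd (nat_lit 78) (nat_lit 0) (nat_lit 0) (XT.lf (nat_lit 0) (nat_lit 657754004804) (nat_lit 76) (nat_lit 104369938988) (nat_lit 76) (nat_lit 69982318551) (nat_lit 3) (nat_lit 4) (nat_lit 4) (nat_lit 5) (nat_lit 4) (nat_lit 4) (nat_lit 267) (nat_lit 226) (nat_lit 167)) (XT.nd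 (nat_lit 78) (nat_lit 0) (nat_lit 0) (XT.lf (nat_lit 0) (nat_lit 820936163971) (nat_lit 76) (nat_lit 83837434102) (nat_lit 76) (nat_lit 49448636772) (nat_lit 3) (nat_lit 4) (nat_lit 4) (nat_lit 5) (nat_lit 4) (nat_lit 4) (nat_lit 268) (nat_lit 226) (nat_lit 166)) (XT.lf (nat_lit 0) (nat_lit 1008591521892) (nat_lit 76) (nat_lit 60227037334) (nat_lit 76) (nat_lit 25837216619) (nat_lit 3) (nat_lit 4) (nat_lit 4) (nat_lit 5) (nat_lit 4) (nat_lit 4) (nat_lit 269) (nat_lit 226) (nat_lit 165))))) (XT.nd (nat_lit 234) (nat_lit 0) (nat_lit 0) (XT.nd (nat_lit 78) (nat_lit 76) (nat_lit 0) (XT.lf (nat_lit 0) (nat_lit 1248177650) (nat_lit 152) (nat_lit 31794501101) (nat_lit 76) (nat_lit 1223109291402) (nat_lit 2) (nat_lit 5) (nat_lit 4) (nat_lit 5) (nat_lit 3) (nat_lit 4) (nat_lit 270) (nat_lit 226) (nat_lit 164)) (XT.nd (nat_lit 78) (nat_lit 0) (nat_lit 0) (XT.lf (nat_lit 0) (nat_lit 31472284653)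 (nat_lit 76) (nat_lit 192988949) (nat_lit 152) (nat_lit 1410089733683) (nat_lit 1) (nat_lit 5) (nat_lit 2) (nat_lit 5) (nat_lit 3) (nat_lit 4) (nat_lit 271) (nat_lit 226) (nat_lit 163)) (XT.lf (nat_lit 0) (nat_lit 68496989556) (nat_lit 152) (nat_lit 1549900947356) (nat_lit 0) (nat_lit 36652399432) (nat_lit 1) (nat_lit 5) (nat_lit 3) (nat_lit 4) (nat_lit 1) (nat_lit 4) (nat_lit 272) (nat_lit 226) (nat_lit 162)))) (XT.nd (nat_lit 78) (nat_lit 0) (nat_lit 0) (XT.lf (nat_lit 0) (nat_lit 110857452600) (nat_lit 152) (nat_lit 1710469872993) (nat_lit 0) (nat_lit 79012320695) (nat_lit 1) (nat_lit 5) (nat_lit 3) (nat_lit 4) (nat_lit 1) (nat_lit 4) (nat_lit 273) (nat_lit 226) (nat_lit 161)) (XT.nd (nat_lit 78) (nat_lit 0) (nat_lit 0) (XT.lf (nat_lit 0) (nat_lit 159570813013) (nat_lit 152) (nat_lit 1895126424092) (nat_lit 0) (nat_lit 127725209994) (nat_lit 1) (nat_lit 5) (nat_lit 3) (nat_lit 4) (nat_lit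 1) (nat_lit 4) (nat_lit 274) (nat_lit 226) (nat_lit 160)) (XT.lf (nat_lit 0) (nat_lit 215590158283) (nat_lit 152) (nat_lit 2107483446217) (nat_lit 0) (nat_lit 183744145600) (nat_lit 1) (nat_lit 5) (nat_lit 3) (nat_lit 4) (nat_lit 1) (nat_lit 4) (nat_lit 275) (nat_lit 226) (nat_lit 159))))))) (XT.nd (nat_lit 30654) (nat_lit 0) (nat_lit 1596) (XT.nd (nat_lit 468) (nat_lit 0) (nat_lit 0) (XT.nd (nat_lit 234) (nat_lit 0) (nat_lit 0) (XT.nd (nat_lit 78) (nat_lit 0) (nat_lit 0) (XT.lf (nat_lit 0) (nat_lit 280011519078) (nat_lit 152) (nat_lit 2351695750670) (nat_lit 0) (nat_lit 248165150165) (nat_lit 1) (nat_lit 5) (nat_lit 3) (nat_lit 4) (nat_lit 1) (nat_lit 4) (nat_lit 276) (nat_lit 226) (nat_lit 158)) (XT.nd (nat_lit 78) (nat_lit 0) (nat_lit 0) (XT.lf (nat_lit 0) (nat_lit 354095313326) (nat_lit 152) (nat_lit 2632541404279) (nat_lit 0) (nat_lit 322248634647) (nat_lit 1) (nat_lit 5) (nat_lit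 3) (nat_lit 4) (nat_lit 1) (nat_lit 4) (nat_lit 277) (nat_lit 226) (nat_lit 157)) (XT.lf (nat_lit 0) (nat_lit 439291006566) (nat_lit 152) (nat_lit 2955515213309) (nat_lit 0) (nat_lit 407444058527) (nat_lit 1) (nat_lit 5) (nat_lit 3) (nat_lit 4) (nat_lit 1) (nat_lit 4) (nat_lit 278) (nat_lit 226) (nat_lit 156)))) (XT.nd (nat_lit 78) (nat_lit 0) (nat_lit 0) (XT.lf (nat_lit 0) (nat_lit 537265471059) (nat_lit 152) (nat_lit 3326936230546) (nat_lit 0) (nat_lit 505418288792) (nat_lit 1) (nat_lit 5) (nat_lit 3) (nat_lit 4) (nat_lit 1) (nat_lit 4) (nat_lit 279) (nat_lit 226) (nat_lit 155)) (XT.nd (nat_lit 78) (nat_lit 0) (nat_lit 0) (XT.lf (nat_lit 0) (nat_lit 649935598500) (nat_lit 152) (nat_lit 3754071388936) (nat_lit 0) (nat_lit 618088212558) (nat_lit 1) (nat_lit 5) (nat_lit 3) (nat_lit 4) (nat_lit 1) (nat_lit 4) (nat_lit 280) (nat_lit 226) (nat_lit 154)) (XT.lf (nat_lit 0) (nat_lit 779505804426)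 (nat_lit 152) (nat_lit 4245277680707) (nat_lit 0) (nat_lit 747658241375) (nat_lit 1) (nat_lit 5) (nat_lit 3) (nat_lit 4) (nat_lit 1) (nat_lit 4) (nat_lit 281) (nat_lit 226) (nat_lit 153))))) (XT.nd (nat_lit 234) (nat_lit 0) (nat_lit 0) (XT.nd (nat_lit 78) (nat_lit 0) (nat_lit 0) (XT.lf (nat_lit 0) (nat_lit 928511158084) (nat_lit 152) (nat_lit 4810165663743) (nat_lit 0) (nat_lit 896663441025) (nat_lit 1) (nat_lit 5) (nat_lit 3) (nat_lit 4) (nat_lit 1) (nat_lit 4) (nat_lit 282) (nat_lit 226) (nat_lit 152)) (XT.nd (nat_lit 78) (nat_lit 0) (nat_lit 0) (XT.lf (nat_lit 0) (nat_lit 1099866981610) (nat_lit 152) (nat_lit 5459787494234) (nat_lit 0) (nat_lit 1068019130631) (nat_lit 1) (nat_lit 5) (nat_lit 3) (nat_lit 4) (nat_lit 1) (nat_lit 4) (nat_lit 283) (nat_lit 226) (nat_lit 151)) (XT.lf (nat_lit 0) (nat_lit 1296925888944) (nat_lit 152) (nat_lit 6206853164514) (nat_lit 0) (nat_lit 1265077921513)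 (nat_lit 1) (nat_lit 5) (nat_lit 3) (nat_lit 4) (nat_lit 1) (nat_lit 4) (nat_lit 284) (nat_lit 226) (nat_lit 150)))) (XT.nd (nat_lit 78) (nat_lit 0) (nat_lit 0) (XT.lf (nat_lit 0) (nat_lit 1523543380446) (nat_lit 152) (nat_lit 7065979176829) (nat_lit 0) (nat_lit 1491695311751) (nat_lit 1) (nat_lit 5) (nat_lit 3) (nat_lit 4) (nat_lit 1) (nat_lit 4) (nat_lit 285) (nat_lit 226) (nat_lit 149)) (XT.nd (nat_lit 29796) (nat_lit 0) (nat_lit 3268) (XT.lf (nat_lit 0) (nat_lit 1784153276601) (nat_lit 152) (nat_lit 8053974518376) (nat_lit 0) (nat_lit 1752305119852) (nat_lit 1) (nat_lit 5) (nat_lit 3) (nat_lit 4) (nat_lit 1) (nat_lit 4) (nat_lit 286) (nat_lit 226) (nat_lit 148)) (XT.lf (nat_lit 0) (nat_lit 1038519327) (nat_lit 532) (nat_lit 2290575725) (nat_lit 532) (nat_lit 2290575725) (nat_lit 44) (nat_lit 3) (nat_lit 51) (nat_lit 3) (nat_lit 51) (nat_lit 5) (nat_lit 227) (nat_lit 227) (nat_lit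 206)))))) (XT.nd (nat_lit 468) (nat_lit 1140) (nat_lit 0) (XT.nd (nat_lit 234) (nat_lit 608) (nat_lit 0) (XT.nd (nat_lit 78) (nat_lit 0) (nat_lit 0) (XT.lf (nat_lit 0) (nat_lit 3315194802) (nat_lit 456) (nat_lit 6803360646) (nat_lit 532) (nat_lit 1874176078) (nat_lit 45) (nat_lit 5) (nat_lit 51) (nat_lit 5) (nat_lit 52) (nat_lit 5) (nat_lit 228) (nat_lit 227) (nat_lit 205)) (XT.nd (nat_lit 78) (nat_lit 0) (nat_lit 76) (XT.lf (nat_lit 76) (nat_lit 3746589668) (nat_lit 0) (nat_lit 1241254177) (nat_lit 532) (nat_lit 7851913475) (nat_lit 46) (nat_lit 5) (nat_lit 45) (nat_lit 5) (nat_lit 52) (nat_lit 5) (nat_lit 229) (nat_lit 227) (nat_lit 204)) (XT.lf (nat_lit 76) (nat_lit 2274431346) (nat_lit 0) (nat_lit 4968108414) (nat_lit 532) (nat_lit 6545265166) (nat_lit 47) (nat_lit 5) (nat_lit 46) (nat_lit 5) (nat_lit 53) (nat_lit 5) (nat_lit 230) (nat_lit 227) (nat_lit 203)))) (XT.nd (nat_lit 78)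 (nat_lit 304) (nat_lit 0) (XT.lf (nat_lit 0) (nat_lit 796355912) (nat_lit 456) (nat_lit 9368460224) (nat_lit 532) (nat_lit 4687293368) (nat_lit 41) (nat_lit 5) (nat_lit 47) (nat_lit 5) (nat_lit 48) (nat_lit 5) (nat_lit 231) (nat_lit 227) (nat_lit 202)) (XT.nd (nat_lit 78) (nat_lit 304) (nat_lit 0) (XT.lf (nat_lit 0) (nat_lit 13919260052) (nat_lit 532) (nat_lit 682853565) (nat_lit 76) (nat_lit 1442787817) (nat_lit 41) (nat_lit 5) (nat_lit 48) (nat_lit 5) (nat_lit 42) (nat_lit 5) (nat_lit 232) (nat_lit 227) (nat_lit 201)) (XT.lf (nat_lit 0) (nat_lit 1317615684) (nat_lit 304) (nat_lit 2314714633) (nat_lit 76) (nat_lit 13739912458) (nat_lit 37) (nat_lit 5) (nat_lit 41) (nat_lit 5) (nat_lit 38) (nat_lit 5) (nat_lit 233) (nat_lit 227) (nat_lit 200))))) (XT.nd (nat_lit 234) (nat_lit 532) (nat_lit 0) (XT.nd (nat_lit 78) (nat_lit 380) (nat_lit 0) (XT.lf (nat_lit 0) (nat_lit 5671863119) (nat_lit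 304) (nat_lit 4204313633) (nat_lit 76) (nat_lit 8976706042) (nat_lit 34) (nat_lit 5) (nat_lit 38) (nat_lit 5) (nat_lit 35) (nat_lit 5) (nat_lit 234) (nat_lit 227) (nat_lit 199)) (XT.nd (nat_lit 78) (nat_lit 152) (nat_lit 0) (XT.lf (nat_lit 0) (nat_lit 11187993643) (nat_lit 304) (nat_lit 6332694217) (nat_lit 76) (nat_lit 2994442994) (nat_lit 31) (nat_lit 5) (nat_lit 35) (nat_lit 5) (nat_lit 32) (nat_lit 5) (nat_lit 235) (nat_lit 227) (nat_lit 198)) (XT.lf (nat_lit 0) (nat_lit 13471459437) (nat_lit 152) (nat_lit 4711091527) (nat_lit 228) (nat_lit 4192268682) (nat_lit 29) (nat_lit 5) (nat_lit 31) (nat_lit 5) (nat_lit 32) (nat_lit 5) (nat_lit 236) (nat_lit 227) (nat_lit 197)))) (XT.nd (nat_lit 78) (nat_lit 304) (nat_lit 0) (XT.lf (nat_lit 0) (nat_lit 2308221395) (nat_lit 228) (nat_lit 12100617359) (nat_lit 76) (nat_lit 10046989827) (nat_lit 26) (nat_lit 5) (nat_lit 29) (nat_lit 5) (nat_lit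 27) (nat_lit 5) (nat_lit 237) (nat_lit 227) (nat_lit 196)) (XT.nd (nat_lit 78) (nat_lit 152) (nat_lit 0) (XT.lf (nat_lit 0) (nat_lit 10150387345) (nat_lit 228) (nat_lit 16093762441) (nat_lit 76) (nat_lit 547070241) (nat_lit 24) (nat_lit 5) (nat_lit 27) (nat_lit 5) (nat_lit 25) (nat_lit 5) (nat_lit 238) (nat_lit 227) (nat_lit 195)) (XT.lf (nat_lit 0) (nat_lit 8116926524) (nat_lit 152) (nat_lit 11952593437) (nat_lit 228) (nat_lit 9335460970) (nat_lit 22) (nat_lit 5) (nat_lit 24) (nat_lit 5) (nat_lit 25) (nat_lit 5) (nat_lit 239) (nat_lit 227) (nat_lit 194))))))))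
noncomputable def xc33 : XT := (XT.nd (nat_lit 1872) (nat_lit 152) (nat_lit 0) (XT.nd (nat_lit 936) (nat_lit 380) (nat_lit 0) (XT.nd (nat_lit 468) (nat_lit 380) (nat_lit 0) (XT.nd (nat_lit 234) (nat_lit 380) (nat_lit 0) (XT.nd (nat_lit 78) (nat_lit 228) (nat_lit 0) (XT.lf (nat_lit 0) (nat_lit 4592923366) (nat_lit 76) (nat_lit 27532801502) (nat_lit 152) (nat_lit 233242374) (nat_lit 21) (nat_lit 5) (nat_lit 22) (nat_lit 5) (nat_lit 23) (nat_lit 4) (nat_lit 240) (nat_lit 227) (nat_lit 193)) (XT.nd (nat_lit 78) (nat_lit 152) (nat_lit 0) (XT.lf (nat_lit 0) (nat_lit 10642556681) (nat_lit 152) (nat_lit 727401999) (nat_lit 76) (nat_lit 24292863721) (nat_lit 20) (nat_lit 5) (nat_lit 22) (nat_lit 5) (nat_lit 21) (nat_lit 5) (nat_lit 241) (nat_lit 227) (nat_lit 192)) (XT.lf (nat_lit 0) (nat_lit 24056202048) (nat_lit 228) (nat_lit 7704547701) (nat_lit 76) (nat_lit 7627466704) (nat_lit 18) (nat_lit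 5) (nat_lit 21) (nat_lit 5) (nat_lit 19) (nat_lit 4) (nat_lit 242) (nat_lit 227) (nat_lit 191)))) (XT.nd (nat_lit 78) (nat_lit 304) (nat_lit 0) (XT.lf (nat_lit 0) (nat_lit 26267947337) (nat_lit 76) (nat_lit 14144983020) (nat_lit 152) (nat_lit 3185065700) (nat_lit 17) (nat_lit 5) (nat_lit 18) (nat_lit 5) (nat_lit 19) (nat_lit 4) (nat_lit 243) (nat_lit 227) (nat_lit 190)) (XT.nd (nat_lit 78) (nat_lit 76) (nat_lit 0) (XT.lf (nat_lit 0) (nat_lit 11042528858) (nat_lit 228) (nat_lit 30581531781) (nat_lit 76) (nat_lit 6730636712) (nat_lit 14) (nat_lit 5) (nat_lit 17) (nat_lit 5) (nat_lit 15) (nat_lit 4) (nat_lit 244) (nat_lit 227) (nat_lit 189)) (XT.lf (nat_lit 0) (nat_lit 5115620736) (nat_lit 76) (nat_lit 23105662446) (nat_lit 152) (nat_lit 25516594922) (nat_lit 13) (nat_lit 5) (nat_lit 14) (nat_lit 5) (nat_lit 15) (nat_lit 4) (nat_lit 245) (nat_lit 227) (nat_lit 188))))) (XT.nd (nat_lit 234)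 (nat_lit 152) (nat_lit 0) (XT.nd (nat_lit 78) (nat_lit 228) (nat_lit 0) (XT.lf (nat_lit 0) (nat_lit 47969247674) (nat_lit 76) (nat_lit 869229260) (nat_lit 152) (nat_lit 11021165057) (nat_lit 13) (nat_lit 5) (nat_lit 14) (nat_lit 5) (nat_lit 15) (nat_lit 4) (nat_lit 246) (nat_lit 227) (nat_lit 187)) (XT.nd (nat_lit 78) (nat_lit 76) (nat_lit 0) (XT.lf (nat_lit 0) (nat_lit 6721176039) (nat_lit 152) (nat_lit 35687536826) (nat_lit 76) (nat_lit 24371705882) (nat_lit 11) (nat_lit 5) (nat_lit 13) (nat_lit 5) (nat_lit 12) (nat_lit 4) (nat_lit 247) (nat_lit 227) (nat_lit 186)) (XT.lf (nat_lit 0) (nat_lit 6475623318) (nat_lit 76) (nat_lit 20526446662) (nat_lit 152) (nat_lit 47671983991) (nat_lit 10) (nat_lit 5) (nat_lit 11) (nat_lit 5) (nat_lit 12) (nat_lit 4) (nat_lit 248) (nat_lit 227) (nat_lit 185)))) (XT.nd (nat_lit 78) (nat_lit 152) (nat_lit 0) (XT.lf (nat_lit 0) (nat_lit 51480653507) (nat_lit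 152) (nat_lit 26723032265) (nat_lit 0) (nat_lit 5455626264) (nat_lit 10) (nat_lit 5) (nat_lit 12) (nat_lit 4) (nat_lit 10) (nat_lit 4) (nat_lit 249) (nat_lit 227) (nat_lit 184)) (XT.nd (nat_lit 78) (nat_lit 76) (nat_lit 0) (XT.lf (nat_lit 0) (nat_lit 21443646234) (nat_lit 76) (nat_lit 59251693026) (nat_lit 76) (nat_lit 13211893498) (nat_lit 9) (nat_lit 4) (nat_lit 10) (nat_lit 5) (nat_lit 10) (nat_lit 4) (nat_lit 250) (nat_lit 227) (nat_lit 183)) (XT.lf (nat_lit 0) (nat_lit 8950044286) (nat_lit 152) (nat_lit 27436552876) (nat_lit 76) (nat_lit 69226784895) (nat_lit 8) (nat_lit 5) (nat_lit 10) (nat_lit 5) (nat_lit 9) (nat_lit 4) (nat_lit 251) (nat_lit 227) (nat_lit 182)))))) (XT.nd (nat_lit 468) (nat_lit 76) (nat_lit 0) (XT.nd (nat_lit 234) (nat_lit 152) (nat_lit 0) (XT.nd (nat_lit 78) (nat_lit 76) (nat_lit 0) (XT.lf (nat_lit 0) (nat_lit 25211611055) (nat_lit 76) (nat_lit 9055420684) (nat_lit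 152) (nat_lit 84731938076) (nat_lit 7) (nat_lit 5) (nat_lit 8) (nat_lit 5) (nat_lit 9) (nat_lit 4) (nat_lit 252) (nat_lit 227) (nat_lit 181)) (XT.nd (nat_lit 78) (nat_lit 76) (nat_lit 0) (XT.lf (nat_lit 0) (nat_lit 64724800922) (nat_lit 152) (nat_lit 47496020902) (nat_lit 0) (nat_lit 22064126865) (nat_lit 7) (nat_lit 5) (nat_lit 9) (nat_lit 4) (nat_lit 7) (nat_lit 4) (nat_lit 253) (nat_lit 227) (nat_lit 180)) (XT.lf (nat_lit 0) (nat_lit 5752756731) (nat_lit 76) (nat_lit 94374735871) (nat_lit 76) (nat_lit 51706241349) (nat_lit 6) (nat_lit 4) (nat_lit 7) (nat_lit 5) (nat_lit 7) (nat_lit 4) (nat_lit 254) (nat_lit 227) (nat_lit 179)))) (XT.nd (nat_lit 78) (nat_lit 152) (nat_lit 0) (XT.lf (nat_lit 0) (nat_lit 69843475682) (nat_lit 76) (nat_lit 72368477902) (nat_lit 76) (nat_lit 29693182976) (nat_lit 6) (nat_lit 4) (nat_lit 7) (nat_lit 5) (nat_lit 7) (nat_lit 4) (nat_lit 255) (nat_lit 227)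 (nat_lit 178)) (XT.nd (nat_lit 78) (nat_lit 152) (nat_lit 0) (XT.lf (nat_lit 0) (nat_lit 143529028510) (nat_lit 76) (nat_lit 47070116080) (nat_lit 76) (nat_lit 4388907758) (nat_lit 6) (nat_lit 4) (nat_lit 7) (nat_lit 5) (nat_lit 7) (nat_lit 4) (nat_lit 256) (nat_lit 227) (nat_lit 177)) (XT.lf (nat_lit 0) (nat_lit 6445331365) (nat_lit 76) (nat_lit 17175669485) (nat_lit 152) (nat_lit 197853175841) (nat_lit 4) (nat_lit 5) (nat_lit 5) (nat_lit 5) (nat_lit 6) (nat_lit 4) (nat_lit 257) (nat_lit 227) (nat_lit 176))))) (XT.nd (nat_lit 234) (nat_lit 76) (nat_lit 0) (XT.nd (nat_lit 78) (nat_lit 0) (nat_lit 0) (XT.lf (nat_lit 0) (nat_lit 57522469849) (nat_lit 152) (nat_lit 176251708512) (nat_lit 0) (nat_lit 17993931163) (nat_lit 4) (nat_lit 5) (nat_lit 6) (nat_lit 4) (nat_lit 4) (nat_lit 4) (nat_lit 258) (nat_lit 227) (nat_lit 175)) (XT.nd (nat_lit 78) (nat_lit 0) (nat_lit 0) (XT.lf (nat_lit 0)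 (nat_lit 96977012042) (nat_lit 152) (nat_lit 132146823458) (nat_lit 0) (nat_lit 57444873215) (nat_lit 4) (nat_lit 5) (nat_lit 6) (nat_lit 4) (nat_lit 4) (nat_lit 4) (nat_lit 259) (nat_lit 227) (nat_lit 174)) (XT.lf (nat_lit 0) (nat_lit 142343488862) (nat_lit 152) (nat_lit 81438193236) (nat_lit 0) (nat_lit 102808219476) (nat_lit 4) (nat_lit 5) (nat_lit 6) (nat_lit 4) (nat_lit 4) (nat_lit 4) (nat_lit 260) (nat_lit 227) (nat_lit 173)))) (XT.nd (nat_lit 78) (nat_lit 76) (nat_lit 0) (XT.lf (nat_lit 0) (nat_lit 194509505289) (nat_lit 152) (nat_lit 23133692472) (nat_lit 0) (nat_lit 154971513678) (nat_lit 4) (nat_lit 5) (nat_lit 6) (nat_lit 4) (nat_lit 4) (nat_lit 4) (nat_lit 261) (nat_lit 227) (nat_lit 172)) (XT.nd (nat_lit 78) (nat_lit 0) (nat_lit 0) (XT.lf (nat_lit 0) (nat_lit 46219505943) (nat_lit 76) (nat_lit 209387775061) (nat_lit 76) (nat_lit 169847416299) (nat_lit 3) (nat_lit 4) (nat_lit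 4) (nat_lit 5) (nat_lit 4) (nat_lit 4) (nat_lit 262) (nat_lit 227) (nat_lit 171)) (XT.lf (nat_lit 0) (nat_lit 127368293169) (nat_lit 76) (nat_lit 199170635620) (nat_lit 76) (nat_lit 159628218465) (nat_lit 3) (nat_lit 4) (nat_lit 4) (nat_lit 5) (nat_lit 4) (nat_lit 4) (nat_lit 263) (nat_lit 227) (nat_lit 170))))))) (XT.nd (nat_lit 936) (nat_lit 0) (nat_lit 0) (XT.nd (nat_lit 468) (nat_lit 152) (nat_lit 0) (XT.nd (nat_lit 234) (nat_lit 0) (nat_lit 0) (XT.nd (nat_lit 78) (nat_lit 0) (nat_lit 0) (XT.lf (nat_lit 0) (nat_lit 220682183619) (nat_lit 76) (nat_lit 187424395033) (nat_lit 76) (nat_lit 147880187971) (nat_lit 3) (nat_lit 4) (nat_lit 4) (nat_lit 5) (nat_lit 4) (nat_lit 4) (nat_lit 264) (nat_lit 227) (nat_lit 169)) (XT.nd (nat_lit 78) (nat_lit 0) (nat_lit 0) (XT.lf (nat_lit 0) (nat_lit 327986883845) (nat_lit 76) (nat_lit 173919235548) (nat_lit 76) (nat_lit 134373472046) (nat_lit 3) (nat_lit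 4) (nat_lit 4) (nat_lit 5) (nat_lit 4) (nat_lit 4) (nat_lit 265) (nat_lit 227) (nat_lit 168)) (XT.lf (nat_lit 0) (nat_lit 451381833634) (nat_lit 76) (nat_lit 158390925786) (nat_lit 76) (nat_lit 118843808856) (nat_lit 3) (nat_lit 4) (nat_lit 4) (nat_lit 5) (nat_lit 4) (nat_lit 4) (nat_lit 266) (nat_lit 227) (nat_lit 167)))) (XT.nd (nat_lit 78) (nat_lit 0) (nat_lit 0) (XT.lf (nat_lit 0) (nat_lit 593281282004) (nat_lit 76) (nat_lit 140535650989) (nat_lit 76) (nat_lit 100987357167) (nat_lit 3) (nat_lit 4) (nat_lit 4) (nat_lit 5) (nat_lit 4) (nat_lit 4) (nat_lit 267) (nat_lit 227) (nat_lit 166)) (XT.nd (nat_lit 78) (nat_lit 0) (nat_lit 0) (XT.lf (nat_lit 0) (nat_lit 756461522510) (nat_lit 76) (nat_lit 120004068824) (nat_lit 76) (nat_lit 80454751617) (nat_lit 3) (nat_lit 4) (nat_lit 4) (nat_lit 5) (nat_lit 4) (nat_lit 4) (nat_lit 268) (nat_lit 227) (nat_lit 165)) (XT.lf (nat_lit 0) (nat_lit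 944115212032) (nat_lit 76) (nat_lit 96394474424) (nat_lit 76) (nat_lit 56844267317) (nat_lit 3) (nat_lit 4) (nat_lit 4) (nat_lit 5) (nat_lit 4) (nat_lit 4) (nat_lit 269) (nat_lit 227) (nat_lit 164))))) (XT.nd (nat_lit 234) (nat_lit 0) (nat_lit 0) (XT.nd (nat_lit 78) (nat_lit 152) (nat_lit 0) (XT.lf (nat_lit 0) (nat_lit 1159913835799) (nat_lit 76) (nat_lit 69244940941) (nat_lit 76) (nat_lit 29693960007) (nat_lit 3) (nat_lit 4) (nat_lit 4) (nat_lit 5) (nat_lit 4) (nat_lit 4) (nat_lit 270) (nat_lit 227) (nat_lit 163)) (XT.nd (nat_lit 78) (nat_lit 76) (nat_lit 0) (XT.lf (nat_lit 0) (nat_lit 1450966643) (nat_lit 152) (nat_lit 36533643207) (nat_lit 76) (nat_lit 1406588902154) (nat_lit 2) (nat_lit 5) (nat_lit 4) (nat_lit 5) (nat_lit 3) (nat_lit 4) (nat_lit 271) (nat_lit 227) (nat_lit 162)) (XT.lf (nat_lit 0) (nat_lit 36220618261) (nat_lit 76) (nat_lit 208640012) (nat_lit 152) (nat_lit 1621587857062)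 (nat_lit 1) (nat_lit 5) (nat_lit 2) (nat_lit 5) (nat_lit 3) (nat_lit 4) (nat_lit 272) (nat_lit 227) (nat_lit 161)))) (XT.nd (nat_lit 78) (nat_lit 0) (nat_lit 0) (XT.lf (nat_lit 0) (nat_lit 78784158364) (nat_lit 152) (nat_lit 1782361468456) (nat_lit 0) (nat_lit 42161243778) (nat_lit 1) (nat_lit 5) (nat_lit 3) (nat_lit 4) (nat_lit 1) (nat_lit 4) (nat_lit 273) (nat_lit 227) (nat_lit 160)) (XT.nd (nat_lit 78) (nat_lit 0) (nat_lit 0) (XT.lf (nat_lit 0) (nat_lit 127497044728) (nat_lit 152) (nat_lit 1967018944374) (nat_lit 0) (nat_lit 90873720478) (nat_lit 1) (nat_lit 5) (nat_lit 3) (nat_lit 4) (nat_lit 1) (nat_lit 4) (nat_lit 274) (nat_lit 227) (nat_lit 159)) (XT.lf (nat_lit 0) (nat_lit 183515977782) (nat_lit 152) (nat_lit 2179376770690) (nat_lit 0) (nat_lit 146892297302) (nat_lit 1) (nat_lit 5) (nat_lit 3) (nat_lit 4) (nat_lit 1) (nat_lit 4) (nat_lit 275) (nat_lit 227) (nat_lit 158)))))) (XT.nd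 (nat_lit 468) (nat_lit 0) (nat_lit 0) (XT.nd (nat_lit 234) (nat_lit 0) (nat_lit 0) (XT.nd (nat_lit 78) (nat_lit 0) (nat_lit 0) (XT.lf (nat_lit 0) (nat_lit 247936980127) (nat_lit 152) (nat_lit 2423589774440) (nat_lit 0) (nat_lit 211312989882) (nat_lit 1) (nat_lit 5) (nat_lit 3) (nat_lit 4) (nat_lit 1) (nat_lit 4) (nat_lit 276) (nat_lit 227) (nat_lit 157)) (XT.nd (nat_lit 78) (nat_lit 0) (nat_lit 0) (XT.lf (nat_lit 0) (nat_lit 322020462680) (nat_lit 152) (nat_lit 2704436036132) (nat_lit 0) (nat_lit 285396203074) (nat_lit 1) (nat_lit 5) (nat_lit 3) (nat_lit 4) (nat_lit 1) (nat_lit 4) (nat_lit 277) (nat_lit 227) (nat_lit 156)) (XT.lf (nat_lit 0) (nat_lit 407215884881) (nat_lit 152) (nat_lit 3027410373931) (nat_lit 0) (nat_lit 370591391048) (nat_lit 1) (nat_lit 5) (nat_lit 3) (nat_lit 4) (nat_lit 1) (nat_lit 4) (nat_lit 278) (nat_lit 227) (nat_lit 155)))) (XT.nd (nat_lit 78) (nat_lit 0) (nat_lit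 0) (XT.lf (nat_lit 0) (nat_lit 505190113687) (nat_lit 152) (nat_lit 3398831850967) (nat_lit 0) (nat_lit 468565416179) (nat_lit 1) (nat_lit 5) (nat_lit 3) (nat_lit 4) (nat_lit 1) (nat_lit 4) (nat_lit 279) (nat_lit 227) (nat_lit 154)) (XT.nd (nat_lit 78) (nat_lit 0) (nat_lit 0) (XT.lf (nat_lit 0) (nat_lit 617860036184) (nat_lit 152) (nat_lit 3825967409181) (nat_lit 0) (nat_lit 581235161566) (nat_lit 1) (nat_lit 5) (nat_lit 3) (nat_lit 4) (nat_lit 1) (nat_lit 4) (nat_lit 280) (nat_lit 227) (nat_lit 153)) (XT.lf (nat_lit 0) (nat_lit 747430063897) (nat_lit 152) (nat_lit 4317174048626) (nat_lit 0) (nat_lit 710805035271) (nat_lit 1) (nat_lit 5) (nat_lit 3) (nat_lit 4) (nat_lit 1) (nat_lit 4) (nat_lit 281) (nat_lit 227) (nat_lit 152))))) (XT.nd (nat_lit 234) (nat_lit 0) (nat_lit 0) (XT.nd (nat_lit 78) (nat_lit 0) (nat_lit 0) (XT.lf (nat_lit 0) (nat_lit 896435262588) (nat_lit 152) (nat_lit 4882062333988)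 (nat_lit 0) (nat_lit 859810100042) (nat_lit 1) (nat_lit 5) (nat_lit 3) (nat_lit 4) (nat_lit 1) (nat_lit 4) (nat_lit 282) (nat_lit 227) (nat_lit 151)) (XT.nd (nat_lit 78) (nat_lit 0) (nat_lit 0) (XT.lf (nat_lit 0) (nat_lit 1067790951360) (nat_lit 152) (nat_lit 5531684427369) (nat_lit 0) (nat_lit 1031165672362) (nat_lit 1) (nat_lit 5) (nat_lit 3) (nat_lit 4) (nat_lit 1) (nat_lit 4) (nat_lit 283) (nat_lit 227) (nat_lit 150)) (XT.lf (nat_lit 0) (nat_lit 1264849741516) (nat_lit 152) (nat_lit 6278750326251) (nat_lit 0) (nat_lit 1228224361255) (nat_lit 1) (nat_lit 5) (nat_lit 3) (nat_lit 4) (nat_lit 1) (nat_lit 4) (nat_lit 284) (nat_lit 227) (nat_lit 149)))) (XT.nd (nat_lit 29952) (nat_lit 0) (nat_lit 3268) (XT.lf (nat_lit 0) (nat_lit 1491467131124) (nat_lit 152) (nat_lit 7137876537350) (nat_lit 0) (nat_lit 1454841662808) (nat_lit 1) (nat_lit 5) (nat_lit 3) (nat_lit 4) (nat_lit 1) (nat_lit 4)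 (nat_lit 285) (nat_lit 227) (nat_lit 148)) (XT.nd (nat_lit 78) (nat_lit 0) (nat_lit 76) (XT.lf (nat_lit 0) (nat_lit 2065555725) (nat_lit 532) (nat_lit 2162258799) (nat_lit 532) (nat_lit 2162258799) (nat_lit 44) (nat_lit 3) (nat_lit 51) (nat_lit 3) (nat_lit 51) (nat_lit 5) (nat_lit 228) (nat_lit 228) (nat_lit 204)) (XT.lf (nat_lit 0) (nat_lit 5332319631) (nat_lit 456) (nat_lit 6815950144) (nat_lit 532) (nat_lit 1516831846) (nat_lit 45) (nat_lit 5) (nat_lit 51) (nat_lit 5) (nat_lit 52) (nat_lit 5) (nat_lit 229) (nat_lit 228) (nat_lit 203))))))))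
noncomputable def xc34 : XT := (XT.nd (nat_lit 1872) (nat_lit 456) (nat_lit 0) (XT.nd (nat_lit 936) (nat_lit 988) (nat_lit 0) (XT.nd (nat_lit 468) (nat_lit 1064) (nat_lit 0) (XT.nd (nat_lit 234) (nat_lit 532) (nat_lit 0) (XT.nd (nat_lit 78) (nat_lit 304) (nat_lit 0) (XT.lf (nat_lit 76) (nat_lit 5231177765) (nat_lit 0) (nat_lit 1848636077) (nat_lit 532) (nat_lit 7574097528) (nat_lit 46) (nat_lit 5) (nat_lit 45) (nat_lit 5) (nat_lit 52) (nat_lit 5) (nat_lit 230) (nat_lit 228) (nat_lit 202)) (XT.nd (nat_lit 78) (nat_lit 380) (nat_lit 0) (XT.lf (nat_lit 76) (nat_lit 3571719947) (nat_lit 0) (nat_lit 5939903145) (nat_lit 532) (nat_lit 6245991971) (nat_lit 47) (nat_lit 5) (nat_lit 46) (nat_lit 5) (nat_lit 53) (nat_lit 5) (nat_lit 231) (nat_lit 228) (nat_lit 201)) (XT.lf (nat_lit 0) (nat_lit 1886024907) (nat_lit 456) (nat_lit 10850545749) (nat_lit 532) (nat_lit 4256336694) (nat_lit 41) (nat_lit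 5) (nat_lit 47) (nat_lit 5) (nat_lit 48) (nat_lit 5) (nat_lit 232) (nat_lit 228) (nat_lit 200)))) (XT.nd (nat_lit 78) (nat_lit 304) (nat_lit 0) (XT.lf (nat_lit 0) (nat_lit 142802503) (nat_lit 228) (nat_lit 16776637187) (nat_lit 304) (nat_lit 1456382394) (nat_lit 38) (nat_lit 5) (nat_lit 41) (nat_lit 5) (nat_lit 42) (nat_lit 5) (nat_lit 233) (nat_lit 228) (nat_lit 199)) (XT.nd (nat_lit 78) (nat_lit 228) (nat_lit 0) (XT.lf (nat_lit 0) (nat_lit 2349234642) (nat_lit 304) (nat_lit 1772738943) (nat_lit 76) (nat_lit 15787107837) (nat_lit 37) (nat_lit 5) (nat_lit 41) (nat_lit 5) (nat_lit 38) (nat_lit 5) (nat_lit 234) (nat_lit 228) (nat_lit 198)) (XT.lf (nat_lit 0) (nat_lit 7269077350) (nat_lit 304) (nat_lit 3961141623) (nat_lit 76) (nat_lit 10388899163) (nat_lit 34) (nat_lit 5) (nat_lit 38) (nat_lit 5) (nat_lit 35) (nat_lit 5) (nat_lit 235) (nat_lit 228) (nat_lit 197))))) (XT.nd (nat_lit 234)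 (nat_lit 456) (nat_lit 0) (XT.nd (nat_lit 78) (nat_lit 380) (nat_lit 0) (XT.lf (nat_lit 0) (nat_lit 13537666565) (nat_lit 304) (nat_lit 6430718817) (nat_lit 76) (nat_lit 3568573454) (nat_lit 31) (nat_lit 5) (nat_lit 35) (nat_lit 5) (nat_lit 32) (nat_lit 5) (nat_lit 236) (nat_lit 228) (nat_lit 196)) (XT.nd (nat_lit 78) (nat_lit 228) (nat_lit 0) (XT.lf (nat_lit 0) (nat_lit 16271950526) (nat_lit 152) (nat_lit 5240626949) (nat_lit 228) (nat_lit 4168754708) (nat_lit 29) (nat_lit 5) (nat_lit 31) (nat_lit 5) (nat_lit 32) (nat_lit 5) (nat_lit 237) (nat_lit 228) (nat_lit 195)) (XT.lf (nat_lit 0) (nat_lit 3215781401) (nat_lit 228) (nat_lit 13129572987) (nat_lit 76) (nat_lit 11732735492) (nat_lit 26) (nat_lit 5) (nat_lit 29) (nat_lit 5) (nat_lit 27) (nat_lit 5) (nat_lit 238) (nat_lit 228) (nat_lit 194)))) (XT.nd (nat_lit 78) (nat_lit 304) (nat_lit 0) (XT.lf (nat_lit 0) (nat_lit 12183512950) (nat_lit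 228) (nat_lit 17751900643) (nat_lit 76) (nat_lit 832594608) (nat_lit 24) (nat_lit 5) (nat_lit 27) (nat_lit 5) (nat_lit 25) (nat_lit 5) (nat_lit 239) (nat_lit 228) (nat_lit 193)) (XT.nd (nat_lit 78) (nat_lit 152) (nat_lit 0) (XT.lf (nat_lit 0) (nat_lit 10026406282) (nat_lit 152) (nat_lit 13514154607) (nat_lit 228) (nat_lit 10237405599) (nat_lit 22) (nat_lit 5) (nat_lit 24) (nat_lit 5) (nat_lit 25) (nat_lit 5) (nat_lit 240) (nat_lit 228) (nat_lit 192)) (XT.lf (nat_lit 0) (nat_lit 178198333) (nat_lit 152) (nat_lit 31238119146) (nat_lit 76) (nat_lit 5761635448) (nat_lit 20) (nat_lit 5) (nat_lit 22) (nat_lit 5) (nat_lit 21) (nat_lit 5) (nat_lit 241) (nat_lit 228) (nat_lit 191)))))) (XT.nd (nat_lit 468) (nat_lit 456) (nat_lit 0) (XT.nd (nat_lit 234) (nat_lit 304) (nat_lit 0) (XT.nd (nat_lit 78) (nat_lit 228) (nat_lit 0) (XT.lf (nat_lit 0) (nat_lit 12615469903) (nat_lit 152) (nat_lit 239659772)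 (nat_lit 76) (nat_lit 28126354805) (nat_lit 20) (nat_lit 5) (nat_lit 22) (nat_lit 5) (nat_lit 21) (nat_lit 5) (nat_lit 242) (nat_lit 228) (nat_lit 190)) (XT.nd (nat_lit 78) (nat_lit 76) (nat_lit 0) (XT.lf (nat_lit 0) (nat_lit 28010137703) (nat_lit 228) (nat_lit 8291046745) (nat_lit 76) (nat_lit 8967068476) (nat_lit 18) (nat_lit 5) (nat_lit 21) (nat_lit 5) (nat_lit 19) (nat_lit 4) (nat_lit 243) (nat_lit 228) (nat_lit 189)) (XT.lf (nat_lit 0) (nat_lit 30729144034) (nat_lit 76) (nat_lit 16058695483) (nat_lit 152) (nat_lit 3324335277) (nat_lit 17) (nat_lit 5) (nat_lit 18) (nat_lit 5) (nat_lit 19) (nat_lit 4) (nat_lit 244) (nat_lit 228) (nat_lit 188)))) (XT.nd (nat_lit 78) (nat_lit 76) (nat_lit 0) (XT.lf (nat_lit 0) (nat_lit 12995218041) (nat_lit 228) (nat_lit 34657084544) (nat_lit 76) (nat_lit 7931505609) (nat_lit 14) (nat_lit 5) (nat_lit 17) (nat_lit 5) (nat_lit 15) (nat_lit 4) (nat_lit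 245) (nat_lit 228) (nat_lit 187)) (XT.nd (nat_lit 78) (nat_lit 0) (nat_lit 0) (XT.lf (nat_lit 0) (nat_lit 6351329942) (nat_lit 76) (nat_lit 26372070676) (nat_lit 152) (nat_lit 29053306968) (nat_lit 13) (nat_lit 5) (nat_lit 14) (nat_lit 5) (nat_lit 15) (nat_lit 4) (nat_lit 246) (nat_lit 228) (nat_lit 186)) (XT.lf (nat_lit 0) (nat_lit 55571909691) (nat_lit 76) (nat_lit 826186574) (nat_lit 152) (nat_lit 12421490083) (nat_lit 13) (nat_lit 5) (nat_lit 14) (nat_lit 5) (nat_lit 15) (nat_lit 4) (nat_lit 247) (nat_lit 228) (nat_lit 185))))) (XT.nd (nat_lit 234) (nat_lit 228) (nat_lit 0) (XT.nd (nat_lit 78) (nat_lit 76) (nat_lit 0) (XT.lf (nat_lit 0) (nat_lit 7951477849) (nat_lit 152) (nat_lit 40642357087) (nat_lit 76) (nat_lit 28185639779) (nat_lit 11) (nat_lit 5) (nat_lit 13) (nat_lit 5) (nat_lit 12) (nat_lit 4) (nat_lit 248) (nat_lit 228) (nat_lit 184)) (XT.nd (nat_lit 78) (nat_lit 0) (nat_lit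 0) (XT.lf (nat_lit 0) (nat_lit 7811562099) (nat_lit 76) (nat_lit 23442739430) (nat_lit 152) (nat_lit 54604500933) (nat_lit 10) (nat_lit 5) (nat_lit 11) (nat_lit 5) (nat_lit 12) (nat_lit 4) (nat_lit 249) (nat_lit 228) (nat_lit 183)) (XT.lf (nat_lit 0) (nat_lit 59381737072) (nat_lit 152) (nat_lit 30403624001) (nat_lit 0) (nat_lit 6408349863) (nat_lit 10) (nat_lit 5) (nat_lit 12) (nat_lit 4) (nat_lit 10) (nat_lit 4) (nat_lit 250) (nat_lit 228) (nat_lit 182)))) (XT.nd (nat_lit 78) (nat_lit 152) (nat_lit 0) (XT.lf (nat_lit 0) (nat_lit 24960304295) (nat_lit 76) (nat_lit 68002193134) (nat_lit 76) (nat_lit 15017635955) (nat_lit 9) (nat_lit 4) (nat_lit 10) (nat_lit 5) (nat_lit 10) (nat_lit 4) (nat_lit 251) (nat_lit 228) (nat_lit 181)) (XT.nd (nat_lit 78) (nat_lit 76) (nat_lit 0) (XT.lf (nat_lit 0) (nat_lit 10437972891) (nat_lit 152) (nat_lit 31283286581) (nat_lit 76) (nat_lit 79722370770) (nat_lit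 8) (nat_lit 5) (nat_lit 10) (nat_lit 5) (nat_lit 9) (nat_lit 4) (nat_lit 252) (nat_lit 228) (nat_lit 180)) (XT.lf (nat_lit 0) (nat_lit 29239353657) (nat_lit 76) (nat_lit 10300103052) (nat_lit 152) (nat_lit 97298659946) (nat_lit 7) (nat_lit 5) (nat_lit 8) (nat_lit 5) (nat_lit 9) (nat_lit 4) (nat_lit 253) (nat_lit 228) (nat_lit 179))))))) (XT.nd (nat_lit 936) (nat_lit 152) (nat_lit 0) (XT.nd (nat_lit 468) (nat_lit 76) (nat_lit 0) (XT.nd (nat_lit 234) (nat_lit 152) (nat_lit 0) (XT.nd (nat_lit 78) (nat_lit 76) (nat_lit 0) (XT.lf (nat_lit 0) (nat_lit 74551001957) (nat_lit 152) (nat_lit 54399583382) (nat_lit 0) (nat_lit 25467612387) (nat_lit 7) (nat_lit 5) (nat_lit 9) (nat_lit 4) (nat_lit 7) (nat_lit 4) (nat_lit 254) (nat_lit 228) (nat_lit 178)) (XT.nd (nat_lit 78) (nat_lit 0) (nat_lit 0) (XT.lf (nat_lit 0) (nat_lit 6817817834) (nat_lit 76) (nat_lit 108435817613) (nat_lit 76) (nat_lit 59346514648)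 (nat_lit 6) (nat_lit 4) (nat_lit 7) (nat_lit 5) (nat_lit 7) (nat_lit 4) (nat_lit 255) (nat_lit 228) (nat_lit 177)) (XT.lf (nat_lit 0) (nat_lit 80495777551) (nat_lit 76) (nat_lit 83141029033) (nat_lit 76) (nat_lit 34046583985) (nat_lit 6) (nat_lit 4) (nat_lit 7) (nat_lit 5) (nat_lit 7) (nat_lit 4) (nat_lit 256) (nat_lit 228) (nat_lit 176)))) (XT.nd (nat_lit 78) (nat_lit 152) (nat_lit 0) (XT.lf (nat_lit 0) (nat_lit 165211235410) (nat_lit 76) (nat_lit 54058702574) (nat_lit 76) (nat_lit 4959786150) (nat_lit 6) (nat_lit 4) (nat_lit 7) (nat_lit 5) (nat_lit 7) (nat_lit 4) (nat_lit 257) (nat_lit 228) (nat_lit 175)) (XT.nd (nat_lit 78) (nat_lit 0) (nat_lit 0) (XT.lf (nat_lit 0) (nat_lit 7556102979) (nat_lit 76) (nat_lit 19683756423) (nat_lit 152) (nat_lit 227449336934) (nat_lit 4) (nat_lit 5) (nat_lit 5) (nat_lit 5) (nat_lit 6) (nat_lit 4) (nat_lit 258) (nat_lit 228) (nat_lit 174)) (XT.lf (nat_lit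 0) (nat_lit 66218101337) (nat_lit 152) (nat_lit 202560389111) (nat_lit 0) (nat_lit 20749410984) (nat_lit 4) (nat_lit 5) (nat_lit 6) (nat_lit 4) (nat_lit 4) (nat_lit 4) (nat_lit 259) (nat_lit 228) (nat_lit 173))))) (XT.nd (nat_lit 234) (nat_lit 76) (nat_lit 0) (XT.nd (nat_lit 78) (nat_lit 0) (nat_lit 0) (XT.lf (nat_lit 0) (nat_lit 111582051684) (nat_lit 152) (nat_lit 151856607257) (nat_lit 0) (nat_lit 66110639107) (nat_lit 4) (nat_lit 5) (nat_lit 6) (nat_lit 4) (nat_lit 4) (nat_lit 4) (nat_lit 260) (nat_lit 228) (nat_lit 172)) (XT.nd (nat_lit 78) (nat_lit 0) (nat_lit 0) (XT.lf (nat_lit 0) (nat_lit 163745871178) (nat_lit 152) (nat_lit 93556322465) (nat_lit 0) (nat_lit 118272091450) (nat_lit 4) (nat_lit 5) (nat_lit 6) (nat_lit 4) (nat_lit 4) (nat_lit 4) (nat_lit 261) (nat_lit 228) (nat_lit 171)) (XT.lf (nat_lit 0) (nat_lit 223730156288) (nat_lit 152) (nat_lit 26518876990) (nat_lit 0) (nat_lit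 178254318167) (nat_lit 4) (nat_lit 5) (nat_lit 6) (nat_lit 4) (nat_lit 4) (nat_lit 4) (nat_lit 262) (nat_lit 228) (nat_lit 170)))) (XT.nd (nat_lit 78) (nat_lit 0) (nat_lit 0) (XT.lf (nat_lit 0) (nat_lit 53230117420) (nat_lit 76) (nat_lit 240758580776) (nat_lit 76) (nat_lit 195280952748) (nat_lit 3) (nat_lit 4) (nat_lit 4) (nat_lit 5) (nat_lit 4) (nat_lit 4) (nat_lit 263) (nat_lit 228) (nat_lit 169)) (XT.nd (nat_lit 78) (nat_lit 0) (nat_lit 0) (XT.lf (nat_lit 0) (nat_lit 146541089827) (nat_lit 76) (nat_lit 229013743534) (nat_lit 76) (nat_lit 183534559065) (nat_lit 3) (nat_lit 4) (nat_lit 4) (nat_lit 5) (nat_lit 4) (nat_lit 4) (nat_lit 264) (nat_lit 228) (nat_lit 168)) (XT.lf (nat_lit 0) (nat_lit 253843252625) (nat_lit 76) (nat_lit 215509804349) (nat_lit 76) (nat_lit 170029266454) (nat_lit 3) (nat_lit 4) (nat_lit 4) (nat_lit 5) (nat_lit 4) (nat_lit 4) (nat_lit 265) (nat_lit 228) (nat_lit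 167)))))) (XT.nd (nat_lit 468) (nat_lit 152) (nat_lit 0) (XT.nd (nat_lit 234) (nat_lit 0) (nat_lit 0) (XT.nd (nat_lit 78) (nat_lit 0) (nat_lit 0) (XT.lf (nat_lit 0) (nat_lit 377235995955) (nat_lit 76) (nat_lit 199982555717) (nat_lit 76) (nat_lit 154500840928) (nat_lit 3) (nat_lit 4) (nat_lit 4) (nat_lit 5) (nat_lit 4) (nat_lit 4) (nat_lit 266) (nat_lit 228) (nat_lit 166)) (XT.nd (nat_lit 78) (nat_lit 0) (nat_lit 0) (XT.lf (nat_lit 0) (nat_lit 519133525665) (nat_lit 76) (nat_lit 182128203642) (nat_lit 76) (nat_lit 136645465468) (nat_lit 3) (nat_lit 4) (nat_lit 4) (nat_lit 5) (nat_lit 4) (nat_lit 4) (nat_lit 267) (nat_lit 228) (nat_lit 165)) (XT.lf (nat_lit 0) (nat_lit 682312097771) (nat_lit 76) (nat_lit 161597423844) (nat_lit 76) (nat_lit 116113795771) (nat_lit 3) (nat_lit 4) (nat_lit 4) (nat_lit 5) (nat_lit 4) (nat_lit 4) (nat_lit 268) (nat_lit 228) (nat_lit 164)))) (XT.nd (nat_lit 78)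 (nat_lit 0) (nat_lit 0) (XT.lf (nat_lit 0) (nat_lit 869964336509) (nat_lit 76) (nat_lit 137988527154) (nat_lit 76) (nat_lit 92504125254) (nat_lit 3) (nat_lit 4) (nat_lit 4) (nat_lit 5) (nat_lit 4) (nat_lit 4) (nat_lit 269) (nat_lit 228) (nat_lit 163)) (XT.nd (nat_lit 78) (nat_lit 0) (nat_lit 0) (XT.lf (nat_lit 0) (nat_lit 1085761698726) (nat_lit 76) (nat_lit 110839600375) (nat_lit 76) (nat_lit 65354525583) (nat_lit 3) (nat_lit 4) (nat_lit 4) (nat_lit 5) (nat_lit 4) (nat_lit 4) (nat_lit 270) (nat_lit 228) (nat_lit 162)) (XT.lf (nat_lit 0) (nat_lit 1333926306724) (nat_lit 76) (nat_lit 79619468854) (nat_lit 76) (nat_lit 34133808938) (nat_lit 3) (nat_lit 4) (nat_lit 4) (nat_lit 5) (nat_lit 4) (nat_lit 4) (nat_lit 271) (nat_lit 228) (nat_lit 161))))) (XT.nd (nat_lit 234) (nat_lit 0) (nat_lit 0) (XT.nd (nat_lit 78) (nat_lit 76) (nat_lit 0) (XT.lf (nat_lit 0) (nat_lit 1680379008) (nat_lit 152)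 (nat_lit 41990980380) (nat_lit 76) (nat_lit 1617587231460) (nat_lit 2) (nat_lit 5) (nat_lit 4) (nat_lit 5) (nat_lit 3) (nat_lit 4) (nat_lit 272) (nat_lit 228) (nat_lit 160)) (XT.nd (nat_lit 78) (nat_lit 0) (nat_lit 0) (XT.lf (nat_lit 0) (nat_lit 41674498079) (nat_lit 76) (nat_lit 229881360) (nat_lit 152) (nat_lit 1864814438892) (nat_lit 1) (nat_lit 5) (nat_lit 2) (nat_lit 5) (nat_lit 3) (nat_lit 4) (nat_lit 273) (nat_lit 228) (nat_lit 159)) (XT.lf (nat_lit 0) (nat_lit 90611324935) (nat_lit 152) (nat_lit 2049697071709) (nat_lit 0) (nat_lit 48493736153) (nat_lit 1) (nat_lit 5) (nat_lit 3) (nat_lit 4) (nat_lit 1) (nat_lit 4) (nat_lit 274) (nat_lit 228) (nat_lit 158)))) (XT.nd (nat_lit 78) (nat_lit 0) (nat_lit 0) (XT.lf (nat_lit 0) (nat_lit 146629899539) (nat_lit 152) (nat_lit 2262055597321) (nat_lit 0) (nat_lit 104512000992) (nat_lit 1) (nat_lit 5) (nat_lit 3) (nat_lit 4) (nat_lit 1) (nat_lit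 4) (nat_lit 275) (nat_lit 228) (nat_lit 157)) (XT.nd (nat_lit 78) (nat_lit 0) (nat_lit 0) (XT.lf (nat_lit 0) (nat_lit 211050590189) (nat_lit 152) (nat_lit 2506269209155) (nat_lit 0) (nat_lit 168932422281) (nat_lit 1) (nat_lit 5) (nat_lit 3) (nat_lit 4) (nat_lit 1) (nat_lit 4) (nat_lit 276) (nat_lit 228) (nat_lit 156)) (XT.lf (nat_lit 0) (nat_lit 285133801703) (nat_lit 152) (nat_lit 2787115999616) (nat_lit 0) (nat_lit 243015399568) (nat_lit 1) (nat_lit 5) (nat_lit 3) (nat_lit 4) (nat_lit 1) (nat_lit 4) (nat_lit 277) (nat_lit 228) (nat_lit 155))))))))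
noncomputable def xc35 : XT := (XT.nd (nat_lit 31824) (nat_lit 0) (nat_lit 152) (XT.nd (nat_lit 30888) (nat_lit 0) (nat_lit 1292) (XT.nd (nat_lit 468) (nat_lit 0) (nat_lit 0) (XT.nd (nat_lit 234) (nat_lit 0) (nat_lit 0) (XT.nd (nat_lit 78) (nat_lit 0) (nat_lit 0) (XT.lf (nat_lit 0) (nat_lit 370328988218) (nat_lit 152) (nat_lit 3110090797213) (nat_lit 0) (nat_lit 328210382407) (nat_lit 1) (nat_lit 5) (nat_lit 3) (nat_lit 4) (nat_lit 1) (nat_lit 4) (nat_lit 278) (nat_lit 228) (nat_lit 154)) (XT.nd (nat_lit 78) (nat_lit 0) (nat_lit 0) (XT.lf (nat_lit 0) (nat_lit 468303012080) (nat_lit 152) (nat_lit 3481512674074) (nat_lit 0) (nat_lit 426184229160) (nat_lit 1) (nat_lit 5) (nat_lit 3) (nat_lit 4) (nat_lit 1) (nat_lit 4) (nat_lit 279) (nat_lit 228) (nat_lit 153)) (XT.lf (nat_lit 0) (nat_lit 580972756364) (nat_lit 152) (nat_lit 3908648579962) (nat_lit 0) (nat_lit 538853819435) (nat_lit 1) (nat_lit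 5) (nat_lit 3) (nat_lit 4) (nat_lit 1) (nat_lit 4) (nat_lit 280) (nat_lit 228) (nat_lit 152)))) (XT.nd (nat_lit 78) (nat_lit 0) (nat_lit 0) (XT.lf (nat_lit 0) (nat_lit 710542629110) (nat_lit 152) (nat_lit 4399855521733) (nat_lit 0) (nat_lit 668423558262) (nat_lit 1) (nat_lit 5) (nat_lit 3) (nat_lit 4) (nat_lit 1) (nat_lit 4) (nat_lit 281) (nat_lit 228) (nat_lit 151)) (XT.nd (nat_lit 78) (nat_lit 0) (nat_lit 0) (XT.lf (nat_lit 0) (nat_lit 859547693046) (nat_lit 152) (nat_lit 4964744069985) (nat_lit 0) (nat_lit 817428505745) (nat_lit 1) (nat_lit 5) (nat_lit 3) (nat_lit 4) (nat_lit 1) (nat_lit 4) (nat_lit 282) (nat_lit 228) (nat_lit 150)) (XT.lf (nat_lit 0) (nat_lit 1030903264640) (nat_lit 152) (nat_lit 5614366391968) (nat_lit 0) (nat_lit 988783976077) (nat_lit 1) (nat_lit 5) (nat_lit 3) (nat_lit 4) (nat_lit 1) (nat_lit 4) (nat_lit 283) (nat_lit 228) (nat_lit 149))))) (XT.nd (nat_lit 30186)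 (nat_lit 0) (nat_lit 3344) (XT.nd (nat_lit 78) (nat_lit 0) (nat_lit 0) (XT.lf (nat_lit 0) (nat_lit 1227961952903) (nat_lit 152) (nat_lit 6361432489633) (nat_lit 0) (nat_lit 1185842576285) (nat_lit 1) (nat_lit 5) (nat_lit 3) (nat_lit 4) (nat_lit 1) (nat_lit 4) (nat_lit 284) (nat_lit 228) (nat_lit 148)) (XT.nd (nat_lit 30030) (nat_lit 0) (nat_lit 3268) (XT.lf (nat_lit 0) (nat_lit 1454579253907) (nat_lit 152) (nat_lit 7220558873587) (nat_lit 0) (nat_lit 1412459800720) (nat_lit 1) (nat_lit 5) (nat_lit 3) (nat_lit 4) (nat_lit 1) (nat_lit 4) (nat_lit 285) (nat_lit 228) (nat_lit 147)) (XT.lf (nat_lit 0) (nat_lit 3034185681) (nat_lit 532) (nat_lit 2129770938) (nat_lit 532) (nat_lit 2129770938) (nat_lit 44) (nat_lit 3) (nat_lit 51) (nat_lit 3) (nat_lit 51) (nat_lit 5) (nat_lit 229) (nat_lit 229) (nat_lit 202)))) (XT.nd (nat_lit 78) (nat_lit 0) (nat_lit 0) (XT.lf (nat_lit 0) (nat_lit 7281389207)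 (nat_lit 456) (nat_lit 7076214426) (nat_lit 532) (nat_lit 1261581088) (nat_lit 45) (nat_lit 5) (nat_lit 51) (nat_lit 5) (nat_lit 52) (nat_lit 5) (nat_lit 230) (nat_lit 229) (nat_lit 201)) (XT.nd (nat_lit 78) (nat_lit 0) (nat_lit 76) (XT.lf (nat_lit 76) (nat_lit 6713472311) (nat_lit 0) (nat_lit 2444414493) (nat_lit 532) (nat_lit 7609567191) (nat_lit 46) (nat_lit 5) (nat_lit 45) (nat_lit 5) (nat_lit 52) (nat_lit 5) (nat_lit 231) (nat_lit 229) (nat_lit 200)) (XT.lf (nat_lit 76) (nat_lit 4830444971) (nat_lit 0) (nat_lit 7002214492) (nat_lit 532) (nat_lit 6214223114) (nat_lit 47) (nat_lit 5) (nat_lit 46) (nat_lit 5) (nat_lit 53) (nat_lit 5) (nat_lit 232) (nat_lit 229) (nat_lit 199)))))) (XT.nd (nat_lit 468) (nat_lit 836) (nat_lit 0) (XT.nd (nat_lit 234) (nat_lit 608) (nat_lit 0) (XT.nd (nat_lit 78) (nat_lit 304) (nat_lit 0) (XT.lf (nat_lit 0) (nat_lit 2902551032) (nat_lit 456) (nat_lit 12536211915)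 (nat_lit 532) (nat_lit 4037281959) (nat_lit 41) (nat_lit 5) (nat_lit 47) (nat_lit 5) (nat_lit 48) (nat_lit 5) (nat_lit 233) (nat_lit 229) (nat_lit 198)) (XT.nd (nat_lit 78) (nat_lit 76) (nat_lit 0) (XT.lf (nat_lit 0) (nat_lit 897255500) (nat_lit 228) (nat_lit 19264955478) (nat_lit 304) (nat_lit 911455114) (nat_lit 38) (nat_lit 5) (nat_lit 41) (nat_lit 5) (nat_lit 42) (nat_lit 5) (nat_lit 234) (nat_lit 229) (nat_lit 197)) (XT.lf (nat_lit 0) (nat_lit 3332225967) (nat_lit 304) (nat_lit 1366299778) (nat_lit 76) (nat_lit 18144745665) (nat_lit 37) (nat_lit 5) (nat_lit 41) (nat_lit 5) (nat_lit 38) (nat_lit 5) (nat_lit 235) (nat_lit 229) (nat_lit 196)))) (XT.nd (nat_lit 78) (nat_lit 380) (nat_lit 0) (XT.lf (nat_lit 0) (nat_lit 8923850871) (nat_lit 304) (nat_lit 3894580122) (nat_lit 76) (nat_lit 11996903009) (nat_lit 34) (nat_lit 5) (nat_lit 38) (nat_lit 5) (nat_lit 35) (nat_lit 5) (nat_lit 236)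 (nat_lit 229) (nat_lit 195)) (XT.nd (nat_lit 78) (nat_lit 152) (nat_lit 0) (XT.lf (nat_lit 0) (nat_lit 16076047269) (nat_lit 304) (nat_lit 6751183325) (nat_lit 76) (nat_lit 4198350218) (nat_lit 31) (nat_lit 5) (nat_lit 35) (nat_lit 5) (nat_lit 32) (nat_lit 5) (nat_lit 237) (nat_lit 229) (nat_lit 194)) (XT.lf (nat_lit 0) (nat_lit 19302362895) (nat_lit 152) (nat_lit 5892786544) (nat_lit 228) (nat_lit 4300794360) (nat_lit 29) (nat_lit 5) (nat_lit 31) (nat_lit 5) (nat_lit 32) (nat_lit 5) (nat_lit 238) (nat_lit 229) (nat_lit 193))))) (XT.nd (nat_lit 234) (nat_lit 304) (nat_lit 0) (XT.nd (nat_lit 78) (nat_lit 304) (nat_lit 0) (XT.lf (nat_lit 0) (nat_lit 4122592313) (nat_lit 228) (nat_lit 14504576440) (nat_lit 76) (nat_lit 13627766565) (nat_lit 26) (nat_lit 5) (nat_lit 29) (nat_lit 5) (nat_lit 27) (nat_lit 5) (nat_lit 239) (nat_lit 229) (nat_lit 192)) (XT.nd (nat_lit 78) (nat_lit 152) (nat_lit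 0) (XT.lf (nat_lit 0) (nat_lit 14397102277) (nat_lit 228) (nat_lit 19843096957) (nat_lit 76) (nat_lit 1111331687) (nat_lit 24) (nat_lit 5) (nat_lit 27) (nat_lit 5) (nat_lit 25) (nat_lit 5) (nat_lit 240) (nat_lit 229) (nat_lit 191)) (XT.lf (nat_lit 0) (nat_lit 12053573863) (nat_lit 152) (nat_lit 15366360713) (nat_lit 228) (nat_lit 11396173705) (nat_lit 22) (nat_lit 5) (nat_lit 24) (nat_lit 5) (nat_lit 25) (nat_lit 5) (nat_lit 241) (nat_lit 229) (nat_lit 190)))) (XT.nd (nat_lit 78) (nat_lit 152) (nat_lit 0) (XT.lf (nat_lit 0) (nat_lit 532345230) (nat_lit 152) (nat_lit 35404834821) (nat_lit 76) (nat_lit 6790716874) (nat_lit 20) (nat_lit 5) (nat_lit 22) (nat_lit 5) (nat_lit 21) (nat_lit 5) (nat_lit 242) (nat_lit 229) (nat_lit 189)) (XT.nd (nat_lit 78) (nat_lit 0) (nat_lit 0) (XT.lf (nat_lit 0) (nat_lit 184949439) (nat_lit 152) (nat_lit 14611999550) (nat_lit 228) (nat_lit 32308142372) (nat_lit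 18) (nat_lit 5) (nat_lit 20) (nat_lit 5) (nat_lit 21) (nat_lit 5) (nat_lit 243) (nat_lit 229) (nat_lit 188)) (XT.lf (nat_lit 0) (nat_lit 32472910040) (nat_lit 228) (nat_lit 9104319551) (nat_lit 76) (nat_lit 10459941047) (nat_lit 18) (nat_lit 5) (nat_lit 21) (nat_lit 5) (nat_lit 19) (nat_lit 4) (nat_lit 244) (nat_lit 229) (nat_lit 187))))))) (XT.nd (nat_lit 936) (nat_lit 228) (nat_lit 0) (XT.nd (nat_lit 468) (nat_lit 304) (nat_lit 0) (XT.nd (nat_lit 234) (nat_lit 228) (nat_lit 0) (XT.nd (nat_lit 78) (nat_lit 304) (nat_lit 0) (XT.lf (nat_lit 0) (nat_lit 35732469966) (nat_lit 76) (nat_lit 18310195466) (nat_lit 152) (nat_lit 3567038287) (nat_lit 17) (nat_lit 5) (nat_lit 18) (nat_lit 5) (nat_lit 19) (nat_lit 4) (nat_lit 245) (nat_lit 229) (nat_lit 186)) (XT.nd (nat_lit 78) (nat_lit 76) (nat_lit 0) (XT.lf (nat_lit 0) (nat_lit 15168553567) (nat_lit 228) (nat_lit 39468745899) (nat_lit 76) (nat_lit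 9265861613) (nat_lit 14) (nat_lit 5) (nat_lit 17) (nat_lit 5) (nat_lit 15) (nat_lit 4) (nat_lit 246) (nat_lit 229) (nat_lit 185)) (XT.lf (nat_lit 0) (nat_lit 7658181490) (nat_lit 76) (nat_lit 30177075126) (nat_lit 152) (nat_lit 33191433680) (nat_lit 13) (nat_lit 5) (nat_lit 14) (nat_lit 5) (nat_lit 15) (nat_lit 4) (nat_lit 247) (nat_lit 229) (nat_lit 184)))) (XT.nd (nat_lit 78) (nat_lit 228) (nat_lit 0) (XT.lf (nat_lit 0) (nat_lit 64215654454) (nat_lit 76) (nat_lit 818978776) (nat_lit 152) (nat_lit 14093522872) (nat_lit 13) (nat_lit 5) (nat_lit 14) (nat_lit 5) (nat_lit 15) (nat_lit 4) (nat_lit 248) (nat_lit 229) (nat_lit 183)) (XT.nd (nat_lit 78) (nat_lit 76) (nat_lit 0) (XT.lf (nat_lit 0) (nat_lit 9312158244) (nat_lit 152) (nat_lit 46437530868) (nat_lit 76) (nat_lit 32533091050) (nat_lit 11) (nat_lit 5) (nat_lit 13) (nat_lit 5) (nat_lit 12) (nat_lit 4) (nat_lit 249) (nat_lit 229) (nat_lit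 182)) (XT.lf (nat_lit 0) (nat_lit 9258982828) (nat_lit 76) (nat_lit 26836145254) (nat_lit 152) (nat_lit 62630124536) (nat_lit 10) (nat_lit 5) (nat_lit 11) (nat_lit 5) (nat_lit 12) (nat_lit 4) (nat_lit 250) (nat_lit 229) (nat_lit 181))))) (XT.nd (nat_lit 234) (nat_lit 152) (nat_lit 0) (XT.nd (nat_lit 78) (nat_lit 152) (nat_lit 0) (XT.lf (nat_lit 0) (nat_lit 68424336414) (nat_lit 152) (nat_lit 34716255991) (nat_lit 0) (nat_lit 7471212671) (nat_lit 10) (nat_lit 5) (nat_lit 12) (nat_lit 4) (nat_lit 10) (nat_lit 4) (nat_lit 251) (nat_lit 229) (nat_lit 180)) (XT.nd (nat_lit 78) (nat_lit 76) (nat_lit 0) (XT.lf (nat_lit 0) (nat_lit 28931277066) (nat_lit 76) (nat_lit 78098738477) (nat_lit 76) (nat_lit 17137168631) (nat_lit 9) (nat_lit 4) (nat_lit 10) (nat_lit 5) (nat_lit 10) (nat_lit 4) (nat_lit 252) (nat_lit 229) (nat_lit 179)) (XT.lf (nat_lit 0) (nat_lit 12113628721) (nat_lit 152) (nat_lit 35772566542)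 (nat_lit 76) (nat_lit 91765087928) (nat_lit 8) (nat_lit 5) (nat_lit 10) (nat_lit 5) (nat_lit 9) (nat_lit 4) (nat_lit 253) (nat_lit 229) (nat_lit 178)))) (XT.nd (nat_lit 78) (nat_lit 76) (nat_lit 0) (XT.lf (nat_lit 0) (nat_lit 33811268761) (nat_lit 76) (nat_lit 11759197349) (nat_lit 152) (nat_lit 111785278340) (nat_lit 7) (nat_lit 5) (nat_lit 8) (nat_lit 5) (nat_lit 9) (nat_lit 4) (nat_lit 254) (nat_lit 229) (nat_lit 177)) (XT.nd (nat_lit 78) (nat_lit 76) (nat_lit 0) (XT.lf (nat_lit 0) (nat_lit 85822484686) (nat_lit 152) (nat_lit 62392533627) (nat_lit 0) (nat_lit 29358730798) (nat_lit 7) (nat_lit 5) (nat_lit 9) (nat_lit 4) (nat_lit 7) (nat_lit 4) (nat_lit 255) (nat_lit 229) (nat_lit 176)) (XT.lf (nat_lit 0) (nat_lit 7993343133) (nat_lit 76) (nat_lit 124629259338) (nat_lit 76) (nat_lit 68161034073) (nat_lit 6) (nat_lit 4) (nat_lit 7) (nat_lit 5) (nat_lit 7) (nat_lit 4) (nat_lit 256) (nat_lit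 229) (nat_lit 175)))))) (XT.nd (nat_lit 468) (nat_lit 76) (nat_lit 0) (XT.nd (nat_lit 234) (nat_lit 0) (nat_lit 0) (XT.nd (nat_lit 78) (nat_lit 152) (nat_lit 0) (XT.lf (nat_lit 0) (nat_lit 92703059508) (nat_lit 76) (nat_lit 95549634763) (nat_lit 76) (nat_lit 39077521346) (nat_lit 6) (nat_lit 4) (nat_lit 7) (nat_lit 5) (nat_lit 7) (nat_lit 4) (nat_lit 257) (nat_lit 229) (nat_lit 174)) (XT.nd (nat_lit 78) (nat_lit 152) (nat_lit 0) (XT.lf (nat_lit 0) (nat_lit 190108499264) (nat_lit 76) (nat_lit 62113117852) (nat_lit 76) (nat_lit 5637623432) (nat_lit 6) (nat_lit 4) (nat_lit 7) (nat_lit 5) (nat_lit 7) (nat_lit 4) (nat_lit 258) (nat_lit 229) (nat_lit 173)) (XT.lf (nat_lit 0) (nat_lit 8798381872) (nat_lit 76) (nat_lit 22584702884) (nat_lit 152) (nat_lit 261504873367) (nat_lit 4) (nat_lit 5) (nat_lit 5) (nat_lit 5) (nat_lit 6) (nat_lit 4) (nat_lit 259) (nat_lit 229) (nat_lit 172)))) (XT.nd (nat_lit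 78) (nat_lit 0) (nat_lit 0) (XT.lf (nat_lit 0) (nat_lit 76201675524) (nat_lit 152) (nat_lit 232846847722) (nat_lit 0) (nat_lit 23904461685) (nat_lit 4) (nat_lit 5) (nat_lit 6) (nat_lit 4) (nat_lit 4) (nat_lit 4) (nat_lit 260) (nat_lit 229) (nat_lit 171)) (XT.nd (nat_lit 78) (nat_lit 0) (nat_lit 0) (XT.lf (nat_lit 0) (nat_lit 128363584643) (nat_lit 152) (nat_lit 174550228993) (nat_lit 0) (nat_lit 76064312410) (nat_lit 4) (nat_lit 5) (nat_lit 6) (nat_lit 4) (nat_lit 4) (nat_lit 4) (nat_lit 261) (nat_lit 229) (nat_lit 170)) (XT.lf (nat_lit 0) (nat_lit 188346208556) (nat_lit 152) (nat_lit 107515971398) (nat_lit 0) (nat_lit 136045146417) (nat_lit 4) (nat_lit 5) (nat_lit 6) (nat_lit 4) (nat_lit 4) (nat_lit 4) (nat_lit 262) (nat_lit 229) (nat_lit 169))))) (XT.nd (nat_lit 234) (nat_lit 0) (nat_lit 0) (XT.nd (nat_lit 78) (nat_lit 76) (nat_lit 0) (XT.lf (nat_lit 0) (nat_lit 257323120341) (nat_lit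 152) (nat_lit 30432535114) (nat_lit 0) (nat_lit 205020501761) (nat_lit 4) (nat_lit 5) (nat_lit 6) (nat_lit 4) (nat_lit 4) (nat_lit 4) (nat_lit 263) (nat_lit 229) (nat_lit 168)) (XT.nd (nat_lit 78) (nat_lit 0) (nat_lit 0) (XT.lf (nat_lit 0) (nat_lit 61273376496) (nat_lit 76) (nat_lit 276844117954) (nat_lit 76) (nat_lit 224540145948) (nat_lit 3) (nat_lit 4) (nat_lit 4) (nat_lit 5) (nat_lit 4) (nat_lit 4) (nat_lit 264) (nat_lit 229) (nat_lit 167)) (XT.lf (nat_lit 0) (nat_lit 168573332834) (nat_lit 76) (nat_lit 263341239900) (nat_lit 76) (nat_lit 211036091001) (nat_lit 3) (nat_lit 4) (nat_lit 4) (nat_lit 5) (nat_lit 4) (nat_lit 4) (nat_lit 265) (nat_lit 229) (nat_lit 166)))) (XT.nd (nat_lit 156) (nat_lit 0) (nat_lit 0) (XT.nd (nat_lit 78) (nat_lit 0) (nat_lit 0) (XT.lf (nat_lit 0) (nat_lit 291964157504) (nat_lit 76) (nat_lit 247814913989) (nat_lit 76) (nat_lit 195508741705) (nat_lit 3) (nat_lit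 4) (nat_lit 4) (nat_lit 5) (nat_lit 4) (nat_lit 4) (nat_lit 266) (nat_lit 229) (nat_lit 165)) (XT.lf (nat_lit 0) (nat_lit 433860018814) (nat_lit 76) (nat_lit 229961364281) (nat_lit 76) (nat_lit 177654302097) (nat_lit 3) (nat_lit 4) (nat_lit 4) (nat_lit 5) (nat_lit 4) (nat_lit 4) (nat_lit 267) (nat_lit 229) (nat_lit 164))) (XT.nd (nat_lit 78) (nat_lit 0) (nat_lit 0) (XT.lf (nat_lit 0) (nat_lit 597037140137) (nat_lit 76) (nat_lit 209431282194) (nat_lit 76) (nat_lit 157123446183) (nat_lit 3) (nat_lit 4) (nat_lit 4) (nat_lit 5) (nat_lit 4) (nat_lit 4) (nat_lit 268) (nat_lit 229) (nat_lit 163)) (XT.lf (nat_lit 0) (nat_lit 784688117325) (nat_lit 76) (nat_lit 185822992208) (nat_lit 76) (nat_lit 133514483306) (nat_lit 3) (nat_lit 4) (nat_lit 4) (nat_lit 5) (nat_lit 4) (nat_lit 4) (nat_lit 269) (nat_lit 229) (nat_lit 162))))))))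
noncomputable def xc36 : XT := (XT.nd (nat_lit 31902) (nat_lit 0) (nat_lit 228) (XT.nd (nat_lit 936) (nat_lit 0) (nat_lit 0) (XT.nd (nat_lit 468) (nat_lit 0) (nat_lit 0) (XT.nd (nat_lit 234) (nat_lit 152) (nat_lit 0) (XT.nd (nat_lit 78) (nat_lit 0) (nat_lit 0) (XT.lf (nat_lit 0) (nat_lit 1000484382541) (nat_lit 76) (nat_lit 158674592999) (nat_lit 76) (nat_lit 106365498972) (nat_lit 3) (nat_lit 4) (nat_lit 4) (nat_lit 5) (nat_lit 4) (nat_lit 4) (nat_lit 270) (nat_lit 229) (nat_lit 161)) (XT.nd (nat_lit 78) (nat_lit 0) (nat_lit 0) (XT.lf (nat_lit 0) (nat_lit 1248648036626) (nat_lit 76) (nat_lit 127454920233) (nat_lit 76) (nat_lit 75145317403) (nat_lit 3) (nat_lit 4) (nat_lit 4) (nat_lit 5) (nat_lit 4) (nat_lit 4) (nat_lit 271) (nat_lit 229) (nat_lit 160)) (XT.lf (nat_lit 0) (nat_lit 1534034455421) (nat_lit 76) (nat_lit 91553154227) (nat_lit 76) (nat_lit 39243108959) (nat_lit 3) (nat_lit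 4) (nat_lit 4) (nat_lit 5) (nat_lit 4) (nat_lit 4) (nat_lit 272) (nat_lit 229) (nat_lit 159)))) (XT.nd (nat_lit 78) (nat_lit 76) (nat_lit 0) (XT.lf (nat_lit 0) (nat_lit 1941333681) (nat_lit 152) (nat_lit 48272455938) (nat_lit 76) (nat_lit 1860232873066) (nat_lit 2) (nat_lit 5) (nat_lit 4) (nat_lit 5) (nat_lit 3) (nat_lit 4) (nat_lit 273) (nat_lit 229) (nat_lit 158)) (XT.nd (nat_lit 78) (nat_lit 0) (nat_lit 0) (XT.lf (nat_lit 0) (nat_lit 47941390808) (nat_lit 76) (nat_lit 256760802) (nat_lit 152) (nat_lit 2144527835933) (nat_lit 1) (nat_lit 5) (nat_lit 2) (nat_lit 5) (nat_lit 3) (nat_lit 4) (nat_lit 274) (nat_lit 229) (nat_lit 157)) (XT.lf (nat_lit 0) (nat_lit 104210239416) (nat_lit 152) (nat_lit 2357137555327) (nat_lit 0) (nat_lit 55774076960) (nat_lit 1) (nat_lit 5) (nat_lit 3) (nat_lit 4) (nat_lit 1) (nat_lit 4) (nat_lit 275) (nat_lit 229) (nat_lit 156))))) (XT.nd (nat_lit 234) (nat_lit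 0) (nat_lit 0) (XT.nd (nat_lit 78) (nat_lit 0) (nat_lit 0) (XT.lf (nat_lit 0) (nat_lit 168630659027) (nat_lit 152) (nat_lit 2601351695930) (nat_lit 0) (nat_lit 120194262344) (nat_lit 1) (nat_lit 5) (nat_lit 3) (nat_lit 4) (nat_lit 1) (nat_lit 4) (nat_lit 276) (nat_lit 229) (nat_lit 155)) (XT.nd (nat_lit 78) (nat_lit 0) (nat_lit 0) (XT.lf (nat_lit 0) (nat_lit 242713634854) (nat_lit 152) (nat_lit 2882198946189) (nat_lit 0) (nat_lit 194277034496) (nat_lit 1) (nat_lit 5) (nat_lit 3) (nat_lit 4) (nat_lit 1) (nat_lit 4) (nat_lit 277) (nat_lit 229) (nat_lit 154)) (XT.lf (nat_lit 0) (nat_lit 327908616425) (nat_lit 152) (nat_lit 3205174143611) (nat_lit 0) (nat_lit 279471838957) (nat_lit 1) (nat_lit 5) (nat_lit 3) (nat_lit 4) (nat_lit 1) (nat_lit 4) (nat_lit 278) (nat_lit 229) (nat_lit 153)))) (XT.nd (nat_lit 78) (nat_lit 0) (nat_lit 0) (XT.lf (nat_lit 0) (nat_lit 425882462074) (nat_lit 152) (nat_lit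 3576596368146) (nat_lit 0) (nat_lit 377445530598) (nat_lit 1) (nat_lit 5) (nat_lit 3) (nat_lit 4) (nat_lit 1) (nat_lit 4) (nat_lit 279) (nat_lit 229) (nat_lit 152)) (XT.nd (nat_lit 78) (nat_lit 0) (nat_lit 0) (XT.lf (nat_lit 0) (nat_lit 538552051390) (nat_lit 152) (nat_lit 4003732576359) (nat_lit 0) (nat_lit 490114985995) (nat_lit 1) (nat_lit 5) (nat_lit 3) (nat_lit 4) (nat_lit 1) (nat_lit 4) (nat_lit 280) (nat_lit 229) (nat_lit 151)) (XT.lf (nat_lit 0) (nat_lit 668121789382) (nat_lit 152) (nat_lit 4494939781021) (nat_lit 0) (nat_lit 619684607534) (nat_lit 1) (nat_lit 5) (nat_lit 3) (nat_lit 4) (nat_lit 1) (nat_lit 4) (nat_lit 281) (nat_lit 229) (nat_lit 150)))))) (XT.nd (nat_lit 30498) (nat_lit 0) (nat_lit 2508) (XT.nd (nat_lit 234) (nat_lit 0) (nat_lit 0) (XT.nd (nat_lit 78) (nat_lit 0) (nat_lit 0) (XT.lf (nat_lit 0) (nat_lit 817126736140) (nat_lit 152) (nat_lit 5059828557875) (nat_lit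 0) (nat_lit 768689453030) (nat_lit 1) (nat_lit 5) (nat_lit 3) (nat_lit 4) (nat_lit 1) (nat_lit 4) (nat_lit 282) (nat_lit 229) (nat_lit 149)) (XT.nd (nat_lit 78) (nat_lit 0) (nat_lit 0) (XT.lf (nat_lit 0) (nat_lit 988482205841) (nat_lit 152) (nat_lit 5709451078641) (nat_lit 0) (nat_lit 940044834676) (nat_lit 1) (nat_lit 5) (nat_lit 3) (nat_lit 4) (nat_lit 1) (nat_lit 4) (nat_lit 283) (nat_lit 229) (nat_lit 148)) (XT.lf (nat_lit 0) (nat_lit 1185540805500) (nat_lit 152) (nat_lit 6456517349162) (nat_lit 0) (nat_lit 1137103357766) (nat_lit 1) (nat_lit 5) (nat_lit 3) (nat_lit 4) (nat_lit 1) (nat_lit 4) (nat_lit 284) (nat_lit 229) (nat_lit 147)))) (XT.nd (nat_lit 30108) (nat_lit 0) (nat_lit 3268) (XT.lf (nat_lit 0) (nat_lit 1412158029459) (nat_lit 152) (nat_lit 7315643883425) (nat_lit 0) (nat_lit 1363720515143) (nat_lit 1) (nat_lit 5) (nat_lit 3) (nat_lit 4) (nat_lit 1) (nat_lit 4) (nat_lit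 285) (nat_lit 229) (nat_lit 146)) (XT.nd (nat_lit 78) (nat_lit 0) (nat_lit 76) (XT.lf (nat_lit 0) (nat_lit 3987458408) (nat_lit 532) (nat_lit 2179424344) (nat_lit 532) (nat_lit 2179424344) (nat_lit 44) (nat_lit 3) (nat_lit 51) (nat_lit 3) (nat_lit 51) (nat_lit 5) (nat_lit 230) (nat_lit 230) (nat_lit 200)) (XT.lf (nat_lit 0) (nat_lit 9242574248) (nat_lit 456) (nat_lit 7561368147) (nat_lit 532) (nat_lit 1085770589) (nat_lit 45) (nat_lit 5) (nat_lit 51) (nat_lit 5) (nat_lit 52) (nat_lit 5) (nat_lit 231) (nat_lit 230) (nat_lit 199))))) (XT.nd (nat_lit 234) (nat_lit 532) (nat_lit 0) (XT.nd (nat_lit 78) (nat_lit 304) (nat_lit 0) (XT.lf (nat_lit 76) (nat_lit 8247992501) (nat_lit 0) (nat_lit 3051895573) (nat_lit 532) (nat_lit 7918756548) (nat_lit 46) (nat_lit 5) (nat_lit 45) (nat_lit 5) (nat_lit 52) (nat_lit 5) (nat_lit 232) (nat_lit 230) (nat_lit 198)) (XT.nd (nat_lit 78) (nat_lit 380) (nat_lit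 0) (XT.lf (nat_lit 76) (nat_lit 6101678659) (nat_lit 0) (nat_lit 8182093640) (nat_lit 532) (nat_lit 6413904671) (nat_lit 47) (nat_lit 5) (nat_lit 46) (nat_lit 5) (nat_lit 53) (nat_lit 5) (nat_lit 233) (nat_lit 230) (nat_lit 197)) (XT.lf (nat_lit 0) (nat_lit 3892657610) (nat_lit 456) (nat_lit 14460563781) (nat_lit 532) (nat_lit 3994477096) (nat_lit 41) (nat_lit 5) (nat_lit 47) (nat_lit 5) (nat_lit 48) (nat_lit 5) (nat_lit 234) (nat_lit 230) (nat_lit 196)))) (XT.nd (nat_lit 78) (nat_lit 304) (nat_lit 0) (XT.lf (nat_lit 0) (nat_lit 1586121799) (nat_lit 228) (nat_lit 22133392722) (nat_lit 304) (nat_lit 470944920) (nat_lit 38) (nat_lit 5) (nat_lit 41) (nat_lit 5) (nat_lit 42) (nat_lit 5) (nat_lit 235) (nat_lit 230) (nat_lit 195)) (XT.nd (nat_lit 78) (nat_lit 228) (nat_lit 0) (XT.lf (nat_lit 0) (nat_lit 4308888693) (nat_lit 304) (nat_lit 1062851544) (nat_lit 76) (nat_lit 20858572186) (nat_lit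 37) (nat_lit 5) (nat_lit 41) (nat_lit 5) (nat_lit 38) (nat_lit 5) (nat_lit 236) (nat_lit 230) (nat_lit 194)) (XT.lf (nat_lit 0) (nat_lit 10689205000) (nat_lit 304) (nat_lit 3979158260) (nat_lit 76) (nat_lit 13833995338) (nat_lit 34) (nat_lit 5) (nat_lit 38) (nat_lit 5) (nat_lit 35) (nat_lit 5) (nat_lit 237) (nat_lit 230) (nat_lit 193))))))) (XT.nd (nat_lit 936) (nat_lit 684) (nat_lit 0) (XT.nd (nat_lit 468) (nat_lit 532) (nat_lit 0) (XT.nd (nat_lit 234) (nat_lit 456) (nat_lit 0) (XT.nd (nat_lit 78) (nat_lit 380) (nat_lit 0) (XT.lf (nat_lit 0) (nat_lit 18871371727) (nat_lit 304) (nat_lit 7276795937) (nat_lit 76) (nat_lit 4899551330) (nat_lit 31) (nat_lit 5) (nat_lit 35) (nat_lit 5) (nat_lit 32) (nat_lit 5) (nat_lit 238) (nat_lit 230) (nat_lit 192)) (XT.nd (nat_lit 78) (nat_lit 228) (nat_lit 0) (XT.lf (nat_lit 0) (nat_lit 22643554601) (nat_lit 152) (nat_lit 6675430841) (nat_lit 228) (nat_lit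 4572927839) (nat_lit 29) (nat_lit 5) (nat_lit 31) (nat_lit 5) (nat_lit 32) (nat_lit 5) (nat_lit 239) (nat_lit 230) (nat_lit 191)) (XT.lf (nat_lit 0) (nat_lit 5061921577) (nat_lit 228) (nat_lit 16230786539) (nat_lit 76) (nat_lit 15774102249) (nat_lit 26) (nat_lit 5) (nat_lit 29) (nat_lit 5) (nat_lit 27) (nat_lit 5) (nat_lit 240) (nat_lit 230) (nat_lit 190)))) (XT.nd (nat_lit 78) (nat_lit 304) (nat_lit 0) (XT.lf (nat_lit 0) (nat_lit 16848586246) (nat_lit 228) (nat_lit 22387358263) (nat_lit 76) (nat_lit 1394362545) (nat_lit 24) (nat_lit 5) (nat_lit 27) (nat_lit 5) (nat_lit 25) (nat_lit 5) (nat_lit 241) (nat_lit 230) (nat_lit 189)) (XT.nd (nat_lit 78) (nat_lit 152) (nat_lit 0) (XT.lf (nat_lit 0) (nat_lit 14257229329) (nat_lit 152) (nat_lit 17539052373) (nat_lit 228) (nat_lit 12820652513) (nat_lit 22) (nat_lit 5) (nat_lit 24) (nat_lit 5) (nat_lit 25) (nat_lit 5) (nat_lit 242) (nat_lit 230)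 (nat_lit 188)) (XT.lf (nat_lit 0) (nat_lit 859771416) (nat_lit 152) (nat_lit 40323119819) (nat_lit 76) (nat_lit 7933964185) (nat_lit 20) (nat_lit 5) (nat_lit 22) (nat_lit 5) (nat_lit 21) (nat_lit 5) (nat_lit 243) (nat_lit 230) (nat_lit 187))))) (XT.nd (nat_lit 234) (nat_lit 304) (nat_lit 0) (XT.nd (nat_lit 78) (nat_lit 76) (nat_lit 0) (XT.lf (nat_lit 0) (nat_lit 571913969) (nat_lit 152) (nat_lit 16668498758) (nat_lit 228) (nat_lit 36912163331) (nat_lit 18) (nat_lit 5) (nat_lit 20) (nat_lit 5) (nat_lit 21) (nat_lit 5) (nat_lit 244) (nat_lit 230) (nat_lit 186)) (XT.nd (nat_lit 78) (nat_lit 76) (nat_lit 0) (XT.lf (nat_lit 0) (nat_lit 37541390351) (nat_lit 228) (nat_lit 10144535191) (nat_lit 76) (nat_lit 12140699539) (nat_lit 18) (nat_lit 5) (nat_lit 21) (nat_lit 5) (nat_lit 19) (nat_lit 4) (nat_lit 245) (nat_lit 230) (nat_lit 185)) (XT.lf (nat_lit 0) (nat_lit 41390226530) (nat_lit 76) (nat_lit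 20937780105) (nat_lit 152) (nat_lit 3908561115) (nat_lit 17) (nat_lit 5) (nat_lit 18) (nat_lit 5) (nat_lit 19) (nat_lit 4) (nat_lit 246) (nat_lit 230) (nat_lit 184)))) (XT.nd (nat_lit 78) (nat_lit 76) (nat_lit 0) (XT.lf (nat_lit 0) (nat_lit 17613252723) (nat_lit 228) (nat_lit 45096504795) (nat_lit 76) (nat_lit 10765102036) (nat_lit 14) (nat_lit 5) (nat_lit 17) (nat_lit 5) (nat_lit 15) (nat_lit 4) (nat_lit 247) (nat_lit 230) (nat_lit 183)) (XT.nd (nat_lit 78) (nat_lit 0) (nat_lit 0) (XT.lf (nat_lit 0) (nat_lit 9074698548) (nat_lit 76) (nat_lit 34589605278) (nat_lit 152) (nat_lit 38003895929) (nat_lit 13) (nat_lit 5) (nat_lit 14) (nat_lit 5) (nat_lit 15) (nat_lit 4) (nat_lit 248) (nat_lit 230) (nat_lit 182)) (XT.lf (nat_lit 0) (nat_lit 74080863349) (nat_lit 76) (nat_lit 842668099) (nat_lit 152) (nat_lit 16062983648) (nat_lit 13) (nat_lit 5) (nat_lit 14) (nat_lit 5) (nat_lit 15) (nat_lit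 4) (nat_lit 249) (nat_lit 230) (nat_lit 181)))))) (XT.nd (nat_lit 468) (nat_lit 228) (nat_lit 0) (XT.nd (nat_lit 234) (nat_lit 228) (nat_lit 0) (XT.nd (nat_lit 78) (nat_lit 76) (nat_lit 0) (XT.lf (nat_lit 0) (nat_lit 10835982901) (nat_lit 152) (nat_lit 53175425312) (nat_lit 76) (nat_lit 37503493501) (nat_lit 11) (nat_lit 5) (nat_lit 13) (nat_lit 5) (nat_lit 12) (nat_lit 4) (nat_lit 250) (nat_lit 230) (nat_lit 180)) (XT.nd (nat_lit 78) (nat_lit 0) (nat_lit 0) (XT.lf (nat_lit 0) (nat_lit 10856288788) (nat_lit 76) (nat_lit 30768557522) (nat_lit 152) (nat_lit 71899840542) (nat_lit 10) (nat_lit 5) (nat_lit 11) (nat_lit 5) (nat_lit 12) (nat_lit 4) (nat_lit 251) (nat_lit 230) (nat_lit 179)) (XT.lf (nat_lit 0) (nat_lit 78790322440) (nat_lit 152) (nat_lit 39736237596) (nat_lit 0) (nat_lit 8668726578) (nat_lit 10) (nat_lit 5) (nat_lit 12) (nat_lit 4) (nat_lit 10) (nat_lit 4) (nat_lit 252) (nat_lit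 230) (nat_lit 178)))) (XT.nd (nat_lit 78) (nat_lit 152) (nat_lit 0) (XT.lf (nat_lit 0) (nat_lit 33442558136) (nat_lit 76) (nat_lit 89735073916) (nat_lit 76) (nat_lit 19607091588) (nat_lit 9) (nat_lit 4) (nat_lit 10) (nat_lit 5) (nat_lit 10) (nat_lit 4) (nat_lit 253) (nat_lit 230) (nat_lit 177)) (XT.nd (nat_lit 78) (nat_lit 76) (nat_lit 0) (XT.lf (nat_lit 0) (nat_lit 14013818507) (nat_lit 152) (nat_lit 40984793281) (nat_lit 76) (nat_lit 105593640563) (nat_lit 8) (nat_lit 5) (nat_lit 10) (nat_lit 5) (nat_lit 9) (nat_lit 4) (nat_lit 254) (nat_lit 230) (nat_lit 176)) (XT.lf (nat_lit 0) (nat_lit 39023610913) (nat_lit 76) (nat_lit 13458108210) (nat_lit 152) (nat_lit 128471270018) (nat_lit 7) (nat_lit 5) (nat_lit 8) (nat_lit 5) (nat_lit 9) (nat_lit 4) (nat_lit 255) (nat_lit 230) (nat_lit 175))))) (XT.nd (nat_lit 234) (nat_lit 152) (nat_lit 0) (XT.nd (nat_lit 78) (nat_lit 76) (nat_lit 0) (XT.lf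 (nat_lit 0) (nat_lit 98763027472) (nat_lit 152) (nat_lit 71625147309) (nat_lit 0) (nat_lit 33816208889) (nat_lit 7) (nat_lit 5) (nat_lit 9) (nat_lit 4) (nat_lit 7) (nat_lit 4) (nat_lit 256) (nat_lit 230) (nat_lit 174)) (XT.nd (nat_lit 78) (nat_lit 0) (nat_lit 0) (XT.lf (nat_lit 0) (nat_lit 9307923145) (nat_lit 76) (nat_lit 143269258130) (nat_lit 76) (nat_lit 78319058544) (nat_lit 6) (nat_lit 4) (nat_lit 7) (nat_lit 5) (nat_lit 7) (nat_lit 4) (nat_lit 257) (nat_lit 230) (nat_lit 173)) (XT.lf (nat_lit 0) (nat_lit 106709021516) (nat_lit 76) (nat_lit 109834784232) (nat_lit 76) (nat_lit 44881644643) (nat_lit 6) (nat_lit 4) (nat_lit 7) (nat_lit 5) (nat_lit 7) (nat_lit 4) (nat_lit 258) (nat_lit 230) (nat_lit 172)))) (XT.nd (nat_lit 78) (nat_lit 152) (nat_lit 0) (XT.lf (nat_lit 0) (nat_lit 218712168137) (nat_lit 76) (nat_lit 71388958795) (nat_lit 76) (nat_lit 6433262682) (nat_lit 6) (nat_lit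 4) (nat_lit 7) (nat_lit 5) (nat_lit 7) (nat_lit 4) (nat_lit 259) (nat_lit 230) (nat_lit 171)) (XT.nd (nat_lit 78) (nat_lit 0) (nat_lit 0) (XT.lf (nat_lit 0) (nat_lit 10200455559) (nat_lit 76) (nat_lit 25933378448) (nat_lit 152) (nat_lit 300683826218) (nat_lit 4) (nat_lit 5) (nat_lit 5) (nat_lit 5) (nat_lit 6) (nat_lit 4) (nat_lit 260) (nat_lit 230) (nat_lit 170)) (XT.lf (nat_lit 0) (nat_lit 87670383554) (nat_lit 152) (nat_lit 267700075443) (nat_lit 0) (nat_lit 27522372187) (nat_lit 4) (nat_lit 5) (nat_lit 6) (nat_lit 4) (nat_lit 4) (nat_lit 4) (nat_lit 261) (nat_lit 230) (nat_lit 169))))))))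
noncomputable def xc37 : XT := (XT.nd (nat_lit 31980) (nat_lit 0) (nat_lit 608) (XT.nd (nat_lit 936) (nat_lit 152) (nat_lit 0) (XT.nd (nat_lit 468) (nat_lit 0) (nat_lit 0) (XT.nd (nat_lit 234) (nat_lit 76) (nat_lit 0) (XT.nd (nat_lit 78) (nat_lit 0) (nat_lit 0) (XT.lf (nat_lit 0) (nat_lit 147651562949) (nat_lit 152) (nat_lit 200668589918) (nat_lit 0) (nat_lit 87501995141) (nat_lit 4) (nat_lit 5) (nat_lit 6) (nat_lit 4) (nat_lit 4) (nat_lit 4) (nat_lit 262) (nat_lit 230) (nat_lit 168)) (XT.nd (nat_lit 78) (nat_lit 0) (nat_lit 0) (XT.lf (nat_lit 0) (nat_lit 216627218630) (nat_lit 152) (nat_lit 123587564130) (nat_lit 0) (nat_lit 156476297396) (nat_lit 4) (nat_lit 5) (nat_lit 6) (nat_lit 4) (nat_lit 4) (nat_lit 4) (nat_lit 263) (nat_lit 230) (nat_lit 167)) (XT.lf (nat_lit 0) (nat_lit 295946874298) (nat_lit 152) (nat_lit 34948891054) (nat_lit 0) (nat_lit 235794776171) (nat_lit 4) (nat_lit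 5) (nat_lit 6) (nat_lit 4) (nat_lit 4) (nat_lit 4) (nat_lit 264) (nat_lit 230) (nat_lit 166)))) (XT.nd (nat_lit 78) (nat_lit 0) (nat_lit 0) (XT.lf (nat_lit 0) (nat_lit 70508799956) (nat_lit 76) (nat_lit 318349374635) (nat_lit 76) (nat_lit 258196253123) (nat_lit 3) (nat_lit 4) (nat_lit 4) (nat_lit 5) (nat_lit 4) (nat_lit 4) (nat_lit 265) (nat_lit 230) (nat_lit 165)) (XT.nd (nat_lit 78) (nat_lit 0) (nat_lit 0) (XT.lf (nat_lit 0) (nat_lit 193897956225) (nat_lit 76) (nat_lit 302823851092) (nat_lit 76) (nat_lit 242669839680) (nat_lit 3) (nat_lit 4) (nat_lit 4) (nat_lit 5) (nat_lit 4) (nat_lit 4) (nat_lit 266) (nat_lit 230) (nat_lit 164)) (XT.lf (nat_lit 0) (nat_lit 335792366752) (nat_lit 76) (nat_lit 284970999094) (nat_lit 76) (nat_lit 224816213856) (nat_lit 3) (nat_lit 4) (nat_lit 4) (nat_lit 5) (nat_lit 4) (nat_lit 4) (nat_lit 267) (nat_lit 230) (nat_lit 163))))) (XT.nd (nat_lit 234) (nat_lit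 0) (nat_lit 0) (XT.nd (nat_lit 78) (nat_lit 0) (nat_lit 0) (XT.lf (nat_lit 0) (nat_lit 498968226525) (nat_lit 76) (nat_lit 264441523711) (nat_lit 76) (nat_lit 204286065581) (nat_lit 3) (nat_lit 4) (nat_lit 4) (nat_lit 5) (nat_lit 4) (nat_lit 4) (nat_lit 268) (nat_lit 230) (nat_lit 162)) (XT.nd (nat_lit 78) (nat_lit 0) (nat_lit 0) (XT.lf (nat_lit 0) (nat_lit 686618106713) (nat_lit 76) (nat_lit 240833761295) (nat_lit 76) (nat_lit 180677718041) (nat_lit 3) (nat_lit 4) (nat_lit 4) (nat_lit 5) (nat_lit 4) (nat_lit 4) (nat_lit 269) (nat_lit 230) (nat_lit 161)) (XT.lf (nat_lit 0) (nat_lit 902413418016) (nat_lit 76) (nat_lit 213685820841) (nat_lit 76) (nat_lit 153529268784) (nat_lit 3) (nat_lit 4) (nat_lit 4) (nat_lit 5) (nat_lit 4) (nat_lit 4) (nat_lit 270) (nat_lit 230) (nat_lit 160)))) (XT.nd (nat_lit 78) (nat_lit 0) (nat_lit 0) (XT.lf (nat_lit 0) (nat_lit 1150576242611) (nat_lit 76) (nat_lit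 182466546994) (nat_lit 76) (nat_lit 122309552499) (nat_lit 3) (nat_lit 4) (nat_lit 4) (nat_lit 5) (nat_lit 4) (nat_lit 4) (nat_lit 271) (nat_lit 230) (nat_lit 159)) (XT.nd (nat_lit 78) (nat_lit 0) (nat_lit 0) (XT.lf (nat_lit 0) (nat_lit 1435961940110) (nat_lit 76) (nat_lit 146565127872) (nat_lit 76) (nat_lit 86407748649) (nat_lit 3) (nat_lit 4) (nat_lit 4) (nat_lit 5) (nat_lit 4) (nat_lit 4) (nat_lit 272) (nat_lit 230) (nat_lit 158)) (XT.lf (nat_lit 0) (nat_lit 1764154143726) (nat_lit 76) (nat_lit 105279144408) (nat_lit 76) (nat_lit 45121430638) (nat_lit 3) (nat_lit 4) (nat_lit 4) (nat_lit 5) (nat_lit 4) (nat_lit 4) (nat_lit 273) (nat_lit 230) (nat_lit 157)))))) (XT.nd (nat_lit 468) (nat_lit 0) (nat_lit 0) (XT.nd (nat_lit 234) (nat_lit 0) (nat_lit 0) (XT.nd (nat_lit 78) (nat_lit 76) (nat_lit 0) (XT.lf (nat_lit 0) (nat_lit 2239261764) (nat_lit 152) (nat_lit 55500340209) (nat_lit 76) (nat_lit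 2139273518117) (nat_lit 2) (nat_lit 5) (nat_lit 4) (nat_lit 5) (nat_lit 3) (nat_lit 4) (nat_lit 274) (nat_lit 230) (nat_lit 156)) (XT.nd (nat_lit 78) (nat_lit 0) (nat_lit 0) (XT.lf (nat_lit 0) (nat_lit 55144484509) (nat_lit 76) (nat_lit 289526141) (nat_lit 152) (nat_lit 2466200380856) (nat_lit 1) (nat_lit 5) (nat_lit 2) (nat_lit 5) (nat_lit 3) (nat_lit 4) (nat_lit 275) (nat_lit 230) (nat_lit 155)) (XT.lf (nat_lit 0) (nat_lit 119847231465) (nat_lit 152) (nat_lit 2710697544288) (nat_lit 0) (nat_lit 64144937377) (nat_lit 1) (nat_lit 5) (nat_lit 3) (nat_lit 4) (nat_lit 1) (nat_lit 4) (nat_lit 276) (nat_lit 230) (nat_lit 154)))) (XT.nd (nat_lit 78) (nat_lit 0) (nat_lit 0) (XT.lf (nat_lit 0) (nat_lit 193930002347) (nat_lit 152) (nat_lit 2991545194372) (nat_lit 0) (nat_lit 138227531151) (nat_lit 1) (nat_lit 5) (nat_lit 3) (nat_lit 4) (nat_lit 1) (nat_lit 4) (nat_lit 277) (nat_lit 230) (nat_lit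 153)) (XT.nd (nat_lit 78) (nat_lit 0) (nat_lit 0) (XT.lf (nat_lit 0) (nat_lit 279124805705) (nat_lit 152) (nat_lit 3314520739468) (nat_lit 0) (nat_lit 223422180501) (nat_lit 1) (nat_lit 5) (nat_lit 3) (nat_lit 4) (nat_lit 1) (nat_lit 4) (nat_lit 278) (nat_lit 230) (nat_lit 152)) (XT.lf (nat_lit 0) (nat_lit 377098496387) (nat_lit 152) (nat_lit 3685943266328) (nat_lit 0) (nat_lit 321395737262) (nat_lit 1) (nat_lit 5) (nat_lit 3) (nat_lit 4) (nat_lit 1) (nat_lit 4) (nat_lit 279) (nat_lit 230) (nat_lit 151))))) (XT.nd (nat_lit 234) (nat_lit 0) (nat_lit 0) (XT.nd (nat_lit 78) (nat_lit 0) (nat_lit 0) (XT.lf (nat_lit 0) (nat_lit 489767950949) (nat_lit 152) (nat_lit 4113079737432) (nat_lit 0) (nat_lit 434065075372) (nat_lit 1) (nat_lit 5) (nat_lit 3) (nat_lit 4) (nat_lit 1) (nat_lit 4) (nat_lit 280) (nat_lit 230) (nat_lit 150)) (XT.nd (nat_lit 78) (nat_lit 0) (nat_lit 0) (XT.lf (nat_lit 0) (nat_lit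 619337571763) (nat_lit 152) (nat_lit 4604287170695) (nat_lit 0) (nat_lit 563634594923) (nat_lit 1) (nat_lit 5) (nat_lit 3) (nat_lit 4) (nat_lit 1) (nat_lit 4) (nat_lit 281) (nat_lit 230) (nat_lit 149)) (XT.lf (nat_lit 0) (nat_lit 768342416627) (nat_lit 152) (nat_lit 5169176146333) (nat_lit 0) (nat_lit 712639351733) (nat_lit 1) (nat_lit 5) (nat_lit 3) (nat_lit 4) (nat_lit 1) (nat_lit 4) (nat_lit 282) (nat_lit 230) (nat_lit 148)))) (XT.nd (nat_lit 78) (nat_lit 0) (nat_lit 0) (XT.lf (nat_lit 0) (nat_lit 939697797725) (nat_lit 152) (nat_lit 5818798839955) (nat_lit 0) (nat_lit 883994656262) (nat_lit 1) (nat_lit 5) (nat_lit 3) (nat_lit 4) (nat_lit 1) (nat_lit 4) (nat_lit 283) (nat_lit 230) (nat_lit 147)) (XT.nd (nat_lit 78) (nat_lit 0) (nat_lit 0) (XT.lf (nat_lit 0) (nat_lit 1136756320338) (nat_lit 152) (nat_lit 6565865260784) (nat_lit 0) (nat_lit 1081053112292) (nat_lit 1) (nat_lit 5) (nat_lit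 3) (nat_lit 4) (nat_lit 1) (nat_lit 4) (nat_lit 284) (nat_lit 230) (nat_lit 146)) (XT.lf (nat_lit 0) (nat_lit 1363373477300) (nat_lit 152) (nat_lit 7424991925751) (nat_lit 0) (nat_lit 1307670211357) (nat_lit 1) (nat_lit 5) (nat_lit 3) (nat_lit 4) (nat_lit 1) (nat_lit 4) (nat_lit 285) (nat_lit 230) (nat_lit 145))))))) (XT.nd (nat_lit 936) (nat_lit 1140) (nat_lit 0) (XT.nd (nat_lit 468) (nat_lit 1064) (nat_lit 0) (XT.nd (nat_lit 234) (nat_lit 456) (nat_lit 0) (XT.nd (nat_lit 78) (nat_lit 0) (nat_lit 76) (XT.lf (nat_lit 0) (nat_lit 4962246261) (nat_lit 532) (nat_lit 2302321183) (nat_lit 532) (nat_lit 2302321183) (nat_lit 44) (nat_lit 3) (nat_lit 51) (nat_lit 3) (nat_lit 51) (nat_lit 5) (nat_lit 231) (nat_lit 231) (nat_lit 198)) (XT.nd (nat_lit 78) (nat_lit 0) (nat_lit 0) (XT.lf (nat_lit 0) (nat_lit 11286031583) (nat_lit 456) (nat_lit 8259824074) (nat_lit 532) (nat_lit 972607699) (nat_lit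 45) (nat_lit 5) (nat_lit 51) (nat_lit 5) (nat_lit 52) (nat_lit 5) (nat_lit 232) (nat_lit 231) (nat_lit 197)) (XT.lf (nat_lit 76) (nat_lit 9884056664) (nat_lit 0) (nat_lit 3691773600) (nat_lit 532) (nat_lit 8477272699) (nat_lit 46) (nat_lit 5) (nat_lit 45) (nat_lit 5) (nat_lit 52) (nat_lit 5) (nat_lit 233) (nat_lit 231) (nat_lit 196)))) (XT.nd (nat_lit 78) (nat_lit 608) (nat_lit 0) (XT.lf (nat_lit 76) (nat_lit 7430289205) (nat_lit 0) (nat_lit 9507363811) (nat_lit 532) (nat_lit 6822151498) (nat_lit 47) (nat_lit 5) (nat_lit 46) (nat_lit 5) (nat_lit 53) (nat_lit 5) (nat_lit 234) (nat_lit 231) (nat_lit 195)) (XT.nd (nat_lit 78) (nat_lit 228) (nat_lit 0) (XT.lf (nat_lit 0) (nat_lit 4896007233) (nat_lit 456) (nat_lit 16662858237) (nat_lit 532) (nat_lit 4103367257) (nat_lit 41) (nat_lit 5) (nat_lit 47) (nat_lit 5) (nat_lit 48) (nat_lit 5) (nat_lit 235) (nat_lit 231) (nat_lit 194)) (XT.lf (nat_lit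 0) (nat_lit 2243153849) (nat_lit 228) (nat_lit 25437291174) (nat_lit 304) (nat_lit 105119012) (nat_lit 38) (nat_lit 5) (nat_lit 41) (nat_lit 5) (nat_lit 42) (nat_lit 5) (nat_lit 236) (nat_lit 231) (nat_lit 193))))) (XT.nd (nat_lit 234) (nat_lit 532) (nat_lit 0) (XT.nd (nat_lit 78) (nat_lit 456) (nat_lit 0) (XT.lf (nat_lit 0) (nat_lit 5315773098) (nat_lit 304) (nat_lit 837860977) (nat_lit 76) (nat_lit 23981395572) (nat_lit 37) (nat_lit 5) (nat_lit 41) (nat_lit 5) (nat_lit 38) (nat_lit 5) (nat_lit 237) (nat_lit 231) (nat_lit 192)) (XT.nd (nat_lit 78) (nat_lit 228) (nat_lit 0) (XT.lf (nat_lit 0) (nat_lit 12615290097) (nat_lit 304) (nat_lit 4198255907) (nat_lit 76) (nat_lit 15937493035) (nat_lit 34) (nat_lit 5) (nat_lit 38) (nat_lit 5) (nat_lit 35) (nat_lit 5) (nat_lit 238) (nat_lit 231) (nat_lit 191)) (XT.lf (nat_lit 0) (nat_lit 21992374172) (nat_lit 304) (nat_lit 8000024297) (nat_lit 76)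 (nat_lit 5688509420) (nat_lit 31) (nat_lit 5) (nat_lit 35) (nat_lit 5) (nat_lit 32) (nat_lit 5) (nat_lit 239) (nat_lit 231) (nat_lit 190)))) (XT.nd (nat_lit 78) (nat_lit 380) (nat_lit 0) (XT.lf (nat_lit 0) (nat_lit 26377204820) (nat_lit 152) (nat_lit 7600168012) (nat_lit 228) (nat_lit 4976836259) (nat_lit 29) (nat_lit 5) (nat_lit 31) (nat_lit 5) (nat_lit 32) (nat_lit 5) (nat_lit 240) (nat_lit 231) (nat_lit 189)) (XT.nd (nat_lit 78) (nat_lit 152) (nat_lit 0) (XT.lf (nat_lit 0) (nat_lit 6063886878) (nat_lit 228) (nat_lit 18325535811) (nat_lit 76) (nat_lit 18217473313) (nat_lit 26) (nat_lit 5) (nat_lit 29) (nat_lit 5) (nat_lit 27) (nat_lit 5) (nat_lit 241) (nat_lit 231) (nat_lit 188)) (XT.lf (nat_lit 0) (nat_lit 19596606604) (nat_lit 228) (nat_lit 25418654261) (nat_lit 76) (nat_lit 1691479956) (nat_lit 24) (nat_lit 5) (nat_lit 27) (nat_lit 5) (nat_lit 25) (nat_lit 5) (nat_lit 242) (nat_lit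 231) (nat_lit 187)))))) (XT.nd (nat_lit 468) (nat_lit 380) (nat_lit 0) (XT.nd (nat_lit 234) (nat_lit 304) (nat_lit 0) (XT.nd (nat_lit 78) (nat_lit 304) (nat_lit 0) (XT.lf (nat_lit 0) (nat_lit 16694958822) (nat_lit 152) (nat_lit 20069900818) (nat_lit 228) (nat_lit 14528289333) (nat_lit 22) (nat_lit 5) (nat_lit 24) (nat_lit 5) (nat_lit 25) (nat_lit 5) (nat_lit 243) (nat_lit 231) (nat_lit 186)) (XT.nd (nat_lit 78) (nat_lit 152) (nat_lit 0) (XT.lf (nat_lit 0) (nat_lit 1175938945) (nat_lit 152) (nat_lit 46074846602) (nat_lit 76) (nat_lit 9218304393) (nat_lit 20) (nat_lit 5) (nat_lit 22) (nat_lit 5) (nat_lit 21) (nat_lit 5) (nat_lit 244) (nat_lit 231) (nat_lit 185)) (XT.lf (nat_lit 0) (nat_lit 929324591) (nat_lit 152) (nat_lit 19066466785) (nat_lit 228) (nat_lit 42265849535) (nat_lit 18) (nat_lit 5) (nat_lit 20) (nat_lit 5) (nat_lit 21) (nat_lit 5) (nat_lit 245) (nat_lit 231) (nat_lit 184))))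 (XT.nd (nat_lit 78) (nat_lit 304) (nat_lit 0) (XT.lf (nat_lit 0) (nat_lit 43321970400) (nat_lit 228) (nat_lit 11420141904) (nat_lit 76) (nat_lit 14046316632) (nat_lit 18) (nat_lit 5) (nat_lit 21) (nat_lit 5) (nat_lit 19) (nat_lit 4) (nat_lit 246) (nat_lit 231) (nat_lit 183)) (XT.nd (nat_lit 78) (nat_lit 228) (nat_lit 0) (XT.lf (nat_lit 0) (nat_lit 47824005174) (nat_lit 76) (nat_lit 23988507854) (nat_lit 152) (nat_lit 4348506594) (nat_lit 17) (nat_lit 5) (nat_lit 18) (nat_lit 5) (nat_lit 19) (nat_lit 4) (nat_lit 247) (nat_lit 231) (nat_lit 182)) (XT.lf (nat_lit 0) (nat_lit 20383343558) (nat_lit 228) (nat_lit 51639768425) (nat_lit 76) (nat_lit 12462560106) (nat_lit 14) (nat_lit 5) (nat_lit 17) (nat_lit 5) (nat_lit 15) (nat_lit 4) (nat_lit 248) (nat_lit 231) (nat_lit 181))))) (XT.nd (nat_lit 234) (nat_lit 152) (nat_lit 0) (XT.nd (nat_lit 78) (nat_lit 152) (nat_lit 0) (XT.lf (nat_lit 0) (nat_lit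 10638390918) (nat_lit 76) (nat_lit 39691822163) (nat_lit 152) (nat_lit 43578769314) (nat_lit 13) (nat_lit 5) (nat_lit 14) (nat_lit 5) (nat_lit 15) (nat_lit 4) (nat_lit 249) (nat_lit 231) (nat_lit 180)) (XT.nd (nat_lit 78) (nat_lit 152) (nat_lit 0) (XT.lf (nat_lit 0) (nat_lit 85369069014) (nat_lit 76) (nat_lit 894091004) (nat_lit 152) (nat_lit 18363117278) (nat_lit 13) (nat_lit 5) (nat_lit 14) (nat_lit 5) (nat_lit 15) (nat_lit 4) (nat_lit 250) (nat_lit 231) (nat_lit 179)) (XT.lf (nat_lit 0) (nat_lit 12557411279) (nat_lit 152) (nat_lit 60979538591) (nat_lit 76) (nat_lit 43197402248) (nat_lit 11) (nat_lit 5) (nat_lit 13) (nat_lit 5) (nat_lit 12) (nat_lit 4) (nat_lit 251) (nat_lit 231) (nat_lit 178)))) (XT.nd (nat_lit 78) (nat_lit 76) (nat_lit 0) (XT.lf (nat_lit 0) (nat_lit 12642356709) (nat_lit 76) (nat_lit 35313512591) (nat_lit 152) (nat_lit 82590447872) (nat_lit 10) (nat_lit 5) (nat_lit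 11) (nat_lit 5) (nat_lit 12) (nat_lit 4) (nat_lit 252) (nat_lit 231) (nat_lit 177)) (XT.nd (nat_lit 78) (nat_lit 76) (nat_lit 0) (XT.lf (nat_lit 0) (nat_lit 90686251193) (nat_lit 152) (nat_lit 45554928967) (nat_lit 0) (nat_lit 10027131599) (nat_lit 10) (nat_lit 5) (nat_lit 12) (nat_lit 4) (nat_lit 10) (nat_lit 4) (nat_lit 253) (nat_lit 231) (nat_lit 176)) (XT.lf (nat_lit 0) (nat_lit 38588688178) (nat_lit 76) (nat_lit 103135996378) (nat_lit 76) (nat_lit 22472047698) (nat_lit 9) (nat_lit 4) (nat_lit 10) (nat_lit 5) (nat_lit 10) (nat_lit 4) (nat_lit 254) (nat_lit 231) (nat_lit 175))))))))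
noncomputable def xc38 : XT := (XT.nd (nat_lit 1872) (nat_lit 0) (nat_lit 0) (XT.nd (nat_lit 936) (nat_lit 152) (nat_lit 0) (XT.nd (nat_lit 468) (nat_lit 228) (nat_lit 0) (XT.nd (nat_lit 234) (nat_lit 76) (nat_lit 0) (XT.nd (nat_lit 78) (nat_lit 76) (nat_lit 0) (XT.lf (nat_lit 0) (nat_lit 16178761211) (nat_lit 152) (nat_lit 47016324566) (nat_lit 76) (nat_lit 121480920634) (nat_lit 8) (nat_lit 5) (nat_lit 10) (nat_lit 5) (nat_lit 9) (nat_lit 4) (nat_lit 255) (nat_lit 231) (nat_lit 174)) (XT.nd (nat_lit 78) (nat_lit 0) (nat_lit 0) (XT.lf (nat_lit 0) (nat_lit 44983505547) (nat_lit 76) (nat_lit 15427698739) (nat_lit 152) (nat_lit 147680107912) (nat_lit 7) (nat_lit 5) (nat_lit 8) (nat_lit 5) (nat_lit 9) (nat_lit 4) (nat_lit 256) (nat_lit 231) (nat_lit 173)) (XT.lf (nat_lit 0) (nat_lit 113628271826) (nat_lit 152) (nat_lit 82273443896) (nat_lit 0) (nat_lit 38929221297) (nat_lit 7) (nat_lit 5)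 (nat_lit 9) (nat_lit 4) (nat_lit 7) (nat_lit 4) (nat_lit 257) (nat_lit 231) (nat_lit 172)))) (XT.nd (nat_lit 78) (nat_lit 0) (nat_lit 0) (XT.lf (nat_lit 0) (nat_lit 10791505601) (nat_lit 76) (nat_lit 164718520114) (nat_lit 76) (nat_lit 90016913061) (nat_lit 6) (nat_lit 4) (nat_lit 7) (nat_lit 5) (nat_lit 7) (nat_lit 4) (nat_lit 258) (nat_lit 231) (nat_lit 171)) (XT.nd (nat_lit 78) (nat_lit 0) (nat_lit 0) (XT.lf (nat_lit 0) (nat_lit 122791369511) (nat_lit 76) (nat_lit 126274239488) (nat_lit 76) (nat_lit 51570409371) (nat_lit 6) (nat_lit 4) (nat_lit 7) (nat_lit 5) (nat_lit 7) (nat_lit 4) (nat_lit 259) (nat_lit 231) (nat_lit 170)) (XT.lf (nat_lit 0) (nat_lit 251585075765) (nat_lit 76) (nat_lit 82066204893) (nat_lit 76) (nat_lit 7360441676) (nat_lit 6) (nat_lit 4) (nat_lit 7) (nat_lit 5) (nat_lit 7) (nat_lit 4) (nat_lit 260) (nat_lit 231) (nat_lit 169))))) (XT.nd (nat_lit 234) (nat_lit 76)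 (nat_lit 0) (XT.nd (nat_lit 78) (nat_lit 0) (nat_lit 0) (XT.lf (nat_lit 0) (nat_lit 11792766922) (nat_lit 76) (nat_lit 29793873027) (nat_lit 152) (nat_lit 345751029147) (nat_lit 4) (nat_lit 5) (nat_lit 5) (nat_lit 5) (nat_lit 6) (nat_lit 4) (nat_lit 261) (nat_lit 231) (nat_lit 168)) (XT.nd (nat_lit 78) (nat_lit 0) (nat_lit 0) (XT.lf (nat_lit 0) (nat_lit 100850019878) (nat_lit 152) (nat_lit 307799283782) (nat_lit 0) (nat_lit 31675107032) (nat_lit 4) (nat_lit 5) (nat_lit 6) (nat_lit 4) (nat_lit 4) (nat_lit 4) (nat_lit 262) (nat_lit 231) (nat_lit 167)) (XT.lf (nat_lit 0) (nat_lit 169824583296) (nat_lit 152) (nat_lit 230720354078) (nat_lit 0) (nat_lit 100648493557) (nat_lit 4) (nat_lit 5) (nat_lit 6) (nat_lit 4) (nat_lit 4) (nat_lit 4) (nat_lit 263) (nat_lit 231) (nat_lit 166)))) (XT.nd (nat_lit 78) (nat_lit 76) (nat_lit 0) (XT.lf (nat_lit 0) (nat_lit 249143289169) (nat_lit 152) (nat_lit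 142083503682) (nat_lit 0) (nat_lit 179966176045) (nat_lit 4) (nat_lit 5) (nat_lit 6) (nat_lit 4) (nat_lit 4) (nat_lit 4) (nat_lit 264) (nat_lit 231) (nat_lit 165)) (XT.nd (nat_lit 78) (nat_lit 76) (nat_lit 0) (XT.lf (nat_lit 0) (nat_lit 340358025219) (nat_lit 152) (nat_lit 40154533348) (nat_lit 0) (nat_lit 271180022196) (nat_lit 4) (nat_lit 5) (nat_lit 6) (nat_lit 4) (nat_lit 4) (nat_lit 4) (nat_lit 265) (nat_lit 231) (nat_lit 164)) (XT.lf (nat_lit 0) (nat_lit 81118705571) (nat_lit 76) (nat_lit 366085628837) (nat_lit 76) (nat_lit 296906851987) (nat_lit 3) (nat_lit 4) (nat_lit 4) (nat_lit 5) (nat_lit 4) (nat_lit 4) (nat_lit 266) (nat_lit 231) (nat_lit 163)))))) (XT.nd (nat_lit 468) (nat_lit 152) (nat_lit 0) (XT.nd (nat_lit 234) (nat_lit 0) (nat_lit 0) (XT.nd (nat_lit 78) (nat_lit 0) (nat_lit 0) (XT.lf (nat_lit 0) (nat_lit 223011854548) (nat_lit 76) (nat_lit 348233383543) (nat_lit 76) (nat_lit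 279053933801) (nat_lit 3) (nat_lit 4) (nat_lit 4) (nat_lit 5) (nat_lit 4) (nat_lit 4) (nat_lit 267) (nat_lit 231) (nat_lit 162)) (XT.nd (nat_lit 78) (nat_lit 0) (nat_lit 0) (XT.lf (nat_lit 0) (nat_lit 386186617320) (nat_lit 76) (nat_lit 327704435730) (nat_lit 76) (nat_lit 258524400864) (nat_lit 3) (nat_lit 4) (nat_lit 4) (nat_lit 5) (nat_lit 4) (nat_lit 4) (nat_lit 268) (nat_lit 231) (nat_lit 161)) (XT.lf (nat_lit 0) (nat_lit 573835543595) (nat_lit 76) (nat_lit 304097132069) (nat_lit 76) (nat_lit 234916588400) (nat_lit 3) (nat_lit 4) (nat_lit 4) (nat_lit 5) (nat_lit 4) (nat_lit 4) (nat_lit 269) (nat_lit 231) (nat_lit 160)))) (XT.nd (nat_lit 78) (nat_lit 0) (nat_lit 0) (XT.lf (nat_lit 0) (nat_lit 789630025408) (nat_lit 76) (nat_lit 276949590534) (nat_lit 76) (nat_lit 207768604427) (nat_lit 3) (nat_lit 4) (nat_lit 4) (nat_lit 5) (nat_lit 4) (nat_lit 4) (nat_lit 270) (nat_lit 231) (nat_lit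 159)) (XT.nd (nat_lit 78) (nat_lit 0) (nat_lit 0) (XT.lf (nat_lit 0) (nat_lit 1037792128708) (nat_lit 76) (nat_lit 245730663572) (nat_lit 76) (nat_lit 176549292737) (nat_lit 3) (nat_lit 4) (nat_lit 4) (nat_lit 5) (nat_lit 4) (nat_lit 4) (nat_lit 271) (nat_lit 231) (nat_lit 158)) (XT.lf (nat_lit 0) (nat_lit 1323177198994) (nat_lit 76) (nat_lit 209829546090) (nat_lit 76) (nat_lit 140647840709) (nat_lit 3) (nat_lit 4) (nat_lit 4) (nat_lit 5) (nat_lit 4) (nat_lit 4) (nat_lit 272) (nat_lit 231) (nat_lit 157))))) (XT.nd (nat_lit 234) (nat_lit 76) (nat_lit 0) (XT.nd (nat_lit 78) (nat_lit 76) (nat_lit 0) (XT.lf (nat_lit 0) (nat_lit 1651368857206) (nat_lit 76) (nat_lit 168543824921) (nat_lit 76) (nat_lit 99361828629) (nat_lit 3) (nat_lit 4) (nat_lit 4) (nat_lit 5) (nat_lit 4) (nat_lit 4) (nat_lit 273) (nat_lit 231) (nat_lit 156)) (XT.nd (nat_lit 78) (nat_lit 76) (nat_lit 0) (XT.lf (nat_lit 0)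 (nat_lit 2028788244484) (nat_lit 76) (nat_lit 121065735954) (nat_lit 76) (nat_lit 51883486697) (nat_lit 3) (nat_lit 4) (nat_lit 4) (nat_lit 5) (nat_lit 4) (nat_lit 4) (nat_lit 274) (nat_lit 231) (nat_lit 155)) (XT.lf (nat_lit 0) (nat_lit 2580238387) (nat_lit 152) (nat_lit 63815573379) (nat_lit 76) (nat_lit 2460168866509) (nat_lit 2) (nat_lit 5) (nat_lit 4) (nat_lit 5) (nat_lit 3) (nat_lit 4) (nat_lit 275) (nat_lit 231) (nat_lit 154)))) (XT.nd (nat_lit 78) (nat_lit 0) (nat_lit 0) (XT.lf (nat_lit 0) (nat_lit 63425144012) (nat_lit 76) (nat_lit 328608158) (nat_lit 152) (nat_lit 2836125424398) (nat_lit 1) (nat_lit 5) (nat_lit 2) (nat_lit 5) (nat_lit 3) (nat_lit 4) (nat_lit 276) (nat_lit 231) (nat_lit 153)) (XT.nd (nat_lit 78) (nat_lit 0) (nat_lit 0) (XT.lf (nat_lit 0) (nat_lit 137828441807) (nat_lit 152) (nat_lit 3117294127281) (nat_lit 0) (nat_lit 73770268814) (nat_lit 1) (nat_lit 5) (nat_lit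 3) (nat_lit 4) (nat_lit 1) (nat_lit 4) (nat_lit 277) (nat_lit 231) (nat_lit 152)) (XT.lf (nat_lit 0) (nat_lit 223023090198) (nat_lit 152) (nat_lit 3440269974702) (nat_lit 0) (nat_lit 158964783284) (nat_lit 1) (nat_lit 5) (nat_lit 3) (nat_lit 4) (nat_lit 1) (nat_lit 4) (nat_lit 278) (nat_lit 231) (nat_lit 151))))))) (XT.nd (nat_lit 31122) (nat_lit 0) (nat_lit 1216) (XT.nd (nat_lit 468) (nat_lit 0) (nat_lit 0) (XT.nd (nat_lit 234) (nat_lit 0) (nat_lit 0) (XT.nd (nat_lit 78) (nat_lit 0) (nat_lit 0) (XT.lf (nat_lit 0) (nat_lit 320996646125) (nat_lit 152) (nat_lit 3811692764453) (nat_lit 0) (nat_lit 256938222759) (nat_lit 1) (nat_lit 5) (nat_lit 3) (nat_lit 4) (nat_lit 1) (nat_lit 4) (nat_lit 279) (nat_lit 231) (nat_lit 150)) (XT.nd (nat_lit 78) (nat_lit 0) (nat_lit 0) (XT.lf (nat_lit 0) (nat_lit 433665983509) (nat_lit 152) (nat_lit 4238829464159) (nat_lit 0) (nat_lit 369607458880) (nat_lit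 1) (nat_lit 5) (nat_lit 3) (nat_lit 4) (nat_lit 1) (nat_lit 4) (nat_lit 280) (nat_lit 231) (nat_lit 149)) (XT.lf (nat_lit 0) (nat_lit 563235502429) (nat_lit 152) (nat_lit 4730037096206) (nat_lit 0) (nat_lit 499176889746) (nat_lit 1) (nat_lit 5) (nat_lit 3) (nat_lit 4) (nat_lit 1) (nat_lit 4) (nat_lit 281) (nat_lit 231) (nat_lit 148)))) (XT.nd (nat_lit 78) (nat_lit 0) (nat_lit 0) (XT.lf (nat_lit 0) (nat_lit 712240258691) (nat_lit 152) (nat_lit 5294926244698) (nat_lit 0) (nat_lit 648181569439) (nat_lit 1) (nat_lit 5) (nat_lit 3) (nat_lit 4) (nat_lit 1) (nat_lit 4) (nat_lit 282) (nat_lit 231) (nat_lit 147)) (XT.nd (nat_lit 78) (nat_lit 0) (nat_lit 0) (XT.lf (nat_lit 0) (nat_lit 883595562742) (nat_lit 152) (nat_lit 5944549088629) (nat_lit 0) (nat_lit 819536806908) (nat_lit 1) (nat_lit 5) (nat_lit 3) (nat_lit 4) (nat_lit 1) (nat_lit 4) (nat_lit 283) (nat_lit 231) (nat_lit 146)) (XT.lf (nat_lit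 0) (nat_lit 1080654018358) (nat_lit 152) (nat_lit 6691615640163) (nat_lit 0) (nat_lit 1016595204627) (nat_lit 1) (nat_lit 5) (nat_lit 3) (nat_lit 4) (nat_lit 1) (nat_lit 4) (nat_lit 284) (nat_lit 231) (nat_lit 145))))) (XT.nd (nat_lit 30420) (nat_lit 0) (nat_lit 3040) (XT.nd (nat_lit 30264) (nat_lit 0) (nat_lit 3268) (XT.lf (nat_lit 0) (nat_lit 1307271117062) (nat_lit 152) (nat_lit 7550742418784) (nat_lit 0) (nat_lit 1243212252985) (nat_lit 1) (nat_lit 5) (nat_lit 3) (nat_lit 4) (nat_lit 1) (nat_lit 4) (nat_lit 285) (nat_lit 231) (nat_lit 144)) (XT.nd (nat_lit 78) (nat_lit 0) (nat_lit 76) (XT.lf (nat_lit 0) (nat_lit 5991399149) (nat_lit 532) (nat_lit 2493403340) (nat_lit 532) (nat_lit 2493403340) (nat_lit 44) (nat_lit 3) (nat_lit 51) (nat_lit 3) (nat_lit 51) (nat_lit 5) (nat_lit 232) (nat_lit 232) (nat_lit 196)) (XT.lf (nat_lit 0) (nat_lit 13475776545) (nat_lit 456) (nat_lit 9169308615)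 (nat_lit 532) (nat_lit 909781667) (nat_lit 45) (nat_lit 5) (nat_lit 51) (nat_lit 5) (nat_lit 52) (nat_lit 5) (nat_lit 233) (nat_lit 232) (nat_lit 195)))) (XT.nd (nat_lit 78) (nat_lit 304) (nat_lit 0) (XT.lf (nat_lit 76) (nat_lit 11668264625) (nat_lit 0) (nat_lit 4383228632) (nat_lit 532) (nat_lit 9273024411) (nat_lit 46) (nat_lit 5) (nat_lit 45) (nat_lit 5) (nat_lit 52) (nat_lit 5) (nat_lit 234) (nat_lit 232) (nat_lit 194)) (XT.nd (nat_lit 78) (nat_lit 380) (nat_lit 0) (XT.lf (nat_lit 76) (nat_lit 8857391184) (nat_lit 0) (nat_lit 11007537286) (nat_lit 532) (nat_lit 7426692465) (nat_lit 47) (nat_lit 5) (nat_lit 46) (nat_lit 5) (nat_lit 53) (nat_lit 5) (nat_lit 235) (nat_lit 232) (nat_lit 193)) (XT.lf (nat_lit 0) (nat_lit 5947573522) (nat_lit 456) (nat_lit 19187398420) (nat_lit 532) (nat_lit 4348149167) (nat_lit 41) (nat_lit 5) (nat_lit 47) (nat_lit 5) (nat_lit 48) (nat_lit 5) (nat_lit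 236) (nat_lit 232) (nat_lit 192)))))) (XT.nd (nat_lit 468) (nat_lit 684) (nat_lit 0) (XT.nd (nat_lit 234) (nat_lit 608) (nat_lit 0) (XT.nd (nat_lit 78) (nat_lit 228) (nat_lit 0) (XT.lf (nat_lit 0) (nat_lit 198683082) (nat_lit 304) (nat_lit 29036587602) (nat_lit 76) (nat_lit 2692421728) (nat_lit 37) (nat_lit 5) (nat_lit 41) (nat_lit 5) (nat_lit 38) (nat_lit 5) (nat_lit 237) (nat_lit 232) (nat_lit 191)) (XT.nd (nat_lit 78) (nat_lit 228) (nat_lit 0) (XT.lf (nat_lit 0) (nat_lit 6385767495) (nat_lit 304) (nat_lit 672864661) (nat_lit 76) (nat_lit 27574096445) (nat_lit 37) (nat_lit 5) (nat_lit 41) (nat_lit 5) (nat_lit 38) (nat_lit 5) (nat_lit 238) (nat_lit 232) (nat_lit 190)) (XT.lf (nat_lit 0) (nat_lit 14751594460) (nat_lit 304) (nat_lit 4542341295) (nat_lit 76) (nat_lit 18349590257) (nat_lit 34) (nat_lit 5) (nat_lit 38) (nat_lit 5) (nat_lit 35) (nat_lit 5) (nat_lit 239) (nat_lit 232) (nat_lit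 189)))) (XT.nd (nat_lit 78) (nat_lit 380) (nat_lit 0) (XT.lf (nat_lit 0) (nat_lit 25510736299) (nat_lit 304) (nat_lit 8921547011) (nat_lit 76) (nat_lit 6582636790) (nat_lit 31) (nat_lit 5) (nat_lit 35) (nat_lit 5) (nat_lit 32) (nat_lit 5) (nat_lit 240) (nat_lit 232) (nat_lit 188)) (XT.nd (nat_lit 78) (nat_lit 228) (nat_lit 0) (XT.lf (nat_lit 0) (nat_lit 30588694449) (nat_lit 152) (nat_lit 8682289656) (nat_lit 228) (nat_lit 5510105928) (nat_lit 29) (nat_lit 5) (nat_lit 31) (nat_lit 5) (nat_lit 32) (nat_lit 5) (nat_lit 241) (nat_lit 232) (nat_lit 187)) (XT.lf (nat_lit 0) (nat_lit 7156968635) (nat_lit 228) (nat_lit 20817376611) (nat_lit 76) (nat_lit 21008510739) (nat_lit 26) (nat_lit 5) (nat_lit 29) (nat_lit 5) (nat_lit 27) (nat_lit 5) (nat_lit 242) (nat_lit 232) (nat_lit 186))))) (XT.nd (nat_lit 234) (nat_lit 228) (nat_lit 0) (XT.nd (nat_lit 78) (nat_lit 304) (nat_lit 0) (XT.lf (nat_lit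 0) (nat_lit 22703003017) (nat_lit 228) (nat_lit 28984338796) (nat_lit 76) (nat_lit 2011714637) (nat_lit 24) (nat_lit 5) (nat_lit 27) (nat_lit 5) (nat_lit 25) (nat_lit 5) (nat_lit 243) (nat_lit 232) (nat_lit 185)) (XT.nd (nat_lit 78) (nat_lit 152) (nat_lit 0) (XT.lf (nat_lit 0) (nat_lit 19425399314) (nat_lit 152) (nat_lit 23004764458) (nat_lit 228) (nat_lit 16544613220) (nat_lit 22) (nat_lit 5) (nat_lit 24) (nat_lit 5) (nat_lit 25) (nat_lit 5) (nat_lit 244) (nat_lit 232) (nat_lit 184)) (XT.lf (nat_lit 0) (nat_lit 1493881255) (nat_lit 152) (nat_lit 52761694620) (nat_lit 76) (nat_lit 10672313251) (nat_lit 20) (nat_lit 5) (nat_lit 22) (nat_lit 5) (nat_lit 21) (nat_lit 5) (nat_lit 245) (nat_lit 232) (nat_lit 183)))) (XT.nd (nat_lit 78) (nat_lit 76) (nat_lit 0) (XT.lf (nat_lit 0) (nat_lit 1274109689) (nat_lit 152) (nat_lit 21849078174) (nat_lit 228) (nat_lit 48467248102) (nat_lit 18) (nat_lit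 5) (nat_lit 20) (nat_lit 5) (nat_lit 21) (nat_lit 5) (nat_lit 246) (nat_lit 232) (nat_lit 182)) (XT.nd (nat_lit 78) (nat_lit 76) (nat_lit 0) (XT.lf (nat_lit 0) (nat_lit 49933212271) (nat_lit 228) (nat_lit 12947096220) (nat_lit 76) (nat_lit 16217167463) (nat_lit 18) (nat_lit 5) (nat_lit 21) (nat_lit 5) (nat_lit 19) (nat_lit 4) (nat_lit 247) (nat_lit 232) (nat_lit 181)) (XT.lf (nat_lit 0) (nat_lit 55167923277) (nat_lit 76) (nat_lit 27518777024) (nat_lit 152) (nat_lit 4890129510) (nat_lit 17) (nat_lit 5) (nat_lit 18) (nat_lit 5) (nat_lit 19) (nat_lit 4) (nat_lit 248) (nat_lit 232) (nat_lit 180))))))))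
noncomputable def xc39 : XT := (XT.nd (nat_lit 1872) (nat_lit 152) (nat_lit 0) (XT.nd (nat_lit 936) (nat_lit 228) (nat_lit 0) (XT.nd (nat_lit 468) (nat_lit 304) (nat_lit 0) (XT.nd (nat_lit 234) (nat_lit 228) (nat_lit 0) (XT.nd (nat_lit 78) (nat_lit 76) (nat_lit 0) (XT.lf (nat_lit 0) (nat_lit 23537709309) (nat_lit 228) (nat_lit 59218465569) (nat_lit 76) (nat_lit 14394471733) (nat_lit 14) (nat_lit 5) (nat_lit 17) (nat_lit 5) (nat_lit 15) (nat_lit 4) (nat_lit 249) (nat_lit 232) (nat_lit 179)) (XT.nd (nat_lit 78) (nat_lit 0) (nat_lit 0) (XT.lf (nat_lit 0) (nat_lit 12387259263) (nat_lit 76) (nat_lit 45580397826) (nat_lit 152) (nat_lit 50020529131) (nat_lit 13) (nat_lit 5) (nat_lit 14) (nat_lit 5) (nat_lit 15) (nat_lit 4) (nat_lit 250) (nat_lit 232) (nat_lit 178)) (XT.lf (nat_lit 0) (nat_lit 98307568242) (nat_lit 76) (nat_lit 971511036) (nat_lit 152) (nat_lit 21034927844) (nat_lit 13) (nat_lit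 5) (nat_lit 14) (nat_lit 5) (nat_lit 15) (nat_lit 4) (nat_lit 251) (nat_lit 232) (nat_lit 177)))) (XT.nd (nat_lit 78) (nat_lit 76) (nat_lit 0) (XT.lf (nat_lit 0) (nat_lit 14513636159) (nat_lit 152) (nat_lit 69996261049) (nat_lit 76) (nat_lit 49728721259) (nat_lit 11) (nat_lit 5) (nat_lit 13) (nat_lit 5) (nat_lit 12) (nat_lit 4) (nat_lit 252) (nat_lit 232) (nat_lit 176)) (XT.nd (nat_lit 78) (nat_lit 0) (nat_lit 0) (XT.lf (nat_lit 0) (nat_lit 14657897060) (nat_lit 76) (nat_lit 40557360985) (nat_lit 152) (nat_lit 94907658719) (nat_lit 10) (nat_lit 5) (nat_lit 11) (nat_lit 5) (nat_lit 12) (nat_lit 4) (nat_lit 253) (nat_lit 232) (nat_lit 175)) (XT.lf (nat_lit 0) (nat_lit 104347699563) (nat_lit 152) (nat_lit 52280989282) (nat_lit 0) (nat_lit 11575130288) (nat_lit 10) (nat_lit 5) (nat_lit 12) (nat_lit 4) (nat_lit 10) (nat_lit 4) (nat_lit 254) (nat_lit 232) (nat_lit 174))))) (XT.nd (nat_lit 234)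 (nat_lit 76) (nat_lit 0) (XT.nd (nat_lit 78) (nat_lit 152) (nat_lit 0) (XT.lf (nat_lit 0) (nat_lit 44475098264) (nat_lit 76) (nat_lit 118561527309) (nat_lit 76) (nat_lit 25785306552) (nat_lit 9) (nat_lit 4) (nat_lit 10) (nat_lit 5) (nat_lit 10) (nat_lit 4) (nat_lit 255) (nat_lit 232) (nat_lit 173)) (XT.nd (nat_lit 78) (nat_lit 76) (nat_lit 0) (XT.lf (nat_lit 0) (nat_lit 18653114090) (nat_lit 152) (nat_lit 53980918652) (nat_lit 76) (nat_lit 139739530552) (nat_lit 8) (nat_lit 5) (nat_lit 10) (nat_lit 5) (nat_lit 9) (nat_lit 4) (nat_lit 256) (nat_lit 232) (nat_lit 172)) (XT.lf (nat_lit 0) (nat_lit 51811449523) (nat_lit 76) (nat_lit 17704707461) (nat_lit 152) (nat_lit 169785354641) (nat_lit 7) (nat_lit 5) (nat_lit 8) (nat_lit 5) (nat_lit 9) (nat_lit 4) (nat_lit 257) (nat_lit 232) (nat_lit 171)))) (XT.nd (nat_lit 78) (nat_lit 76) (nat_lit 0) (XT.lf (nat_lit 0) (nat_lit 130710917314) (nat_lit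 152) (nat_lit 94542267278) (nat_lit 0) (nat_lit 44799289614) (nat_lit 7) (nat_lit 5) (nat_lit 9) (nat_lit 4) (nat_lit 7) (nat_lit 4) (nat_lit 258) (nat_lit 232) (nat_lit 170)) (XT.nd (nat_lit 78) (nat_lit 0) (nat_lit 0) (XT.lf (nat_lit 0) (nat_lit 12476313848) (nat_lit 76) (nat_lit 189395200411) (nat_lit 76) (nat_lit 103481639612) (nat_lit 6) (nat_lit 4) (nat_lit 7) (nat_lit 5) (nat_lit 7) (nat_lit 4) (nat_lit 259) (nat_lit 232) (nat_lit 169)) (XT.lf (nat_lit 0) (nat_lit 141267537900) (nat_lit 76) (nat_lit 145188333915) (nat_lit 76) (nat_lit 59273092160) (nat_lit 6) (nat_lit 4) (nat_lit 7) (nat_lit 5) (nat_lit 7) (nat_lit 4) (nat_lit 260) (nat_lit 232) (nat_lit 168)))))) (XT.nd (nat_lit 468) (nat_lit 76) (nat_lit 0) (XT.nd (nat_lit 234) (nat_lit 0) (nat_lit 0) (XT.nd (nat_lit 78) (nat_lit 152) (nat_lit 0) (XT.lf (nat_lit 0) (nat_lit 289372804923) (nat_lit 76) (nat_lit 94352621283) (nat_lit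 76) (nat_lit 8435917827) (nat_lit 6) (nat_lit 4) (nat_lit 7) (nat_lit 5) (nat_lit 7) (nat_lit 4) (nat_lit 261) (nat_lit 232) (nat_lit 167)) (XT.nd (nat_lit 78) (nat_lit 0) (nat_lit 0) (XT.lf (nat_lit 0) (nat_lit 13608746633) (nat_lit 76) (nat_lit 34240638527) (nat_lit 152) (nat_lit 397586937958) (nat_lit 4) (nat_lit 5) (nat_lit 5) (nat_lit 5) (nat_lit 6) (nat_lit 4) (nat_lit 262) (nat_lit 232) (nat_lit 166)) (XT.lf (nat_lit 0) (nat_lit 115999510603) (nat_lit 152) (nat_lit 353926981282) (nat_lit 0) (nat_lit 36444807126) (nat_lit 4) (nat_lit 5) (nat_lit 6) (nat_lit 4) (nat_lit 4) (nat_lit 4) (nat_lit 263) (nat_lit 232) (nat_lit 165)))) (XT.nd (nat_lit 78) (nat_lit 0) (nat_lit 0) (XT.lf (nat_lit 0) (nat_lit 195317390567) (nat_lit 152) (nat_lit 265291715826) (nat_lit 0) (nat_lit 115761797190) (nat_lit 4) (nat_lit 5) (nat_lit 6) (nat_lit 4) (nat_lit 4) (nat_lit 4) (nat_lit 264) (nat_lit 232)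 (nat_lit 164)) (XT.nd (nat_lit 78) (nat_lit 0) (nat_lit 0) (XT.lf (nat_lit 0) (nat_lit 286531408437) (nat_lit 152) (nat_lit 163364123701) (nat_lit 0) (nat_lit 206975041233) (nat_lit 4) (nat_lit 5) (nat_lit 6) (nat_lit 4) (nat_lit 4) (nat_lit 4) (nat_lit 265) (nat_lit 232) (nat_lit 163)) (XT.lf (nat_lit 0) (nat_lit 391426186301) (nat_lit 152) (nat_lit 46149969408) (nat_lit 0) (nat_lit 311869146205) (nat_lit 4) (nat_lit 5) (nat_lit 6) (nat_lit 4) (nat_lit 4) (nat_lit 4) (nat_lit 266) (nat_lit 232) (nat_lit 162))))) (XT.nd (nat_lit 234) (nat_lit 0) (nat_lit 0) (XT.nd (nat_lit 78) (nat_lit 0) (nat_lit 0) (XT.lf (nat_lit 0) (nat_lit 93311906963) (nat_lit 76) (nat_lit 420986259934) (nat_lit 76) (nat_lit 341428634714) (nat_lit 3) (nat_lit 4) (nat_lit 4) (nat_lit 5) (nat_lit 4) (nat_lit 4) (nat_lit 267) (nat_lit 232) (nat_lit 161)) (XT.nd (nat_lit 78) (nat_lit 0) (nat_lit 0) (XT.lf (nat_lit 0)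 (nat_lit 256485715822) (nat_lit 76) (nat_lit 400457770876) (nat_lit 76) (nat_lit 320899636854) (nat_lit 3) (nat_lit 4) (nat_lit 4) (nat_lit 5) (nat_lit 4) (nat_lit 4) (nat_lit 268) (nat_lit 232) (nat_lit 160)) (XT.lf (nat_lit 0) (nat_lit 444133812607) (nat_lit 76) (nat_lit 376850866134) (nat_lit 76) (nat_lit 297292289674) (nat_lit 3) (nat_lit 4) (nat_lit 4) (nat_lit 5) (nat_lit 4) (nat_lit 4) (nat_lit 269) (nat_lit 232) (nat_lit 159)))) (XT.nd (nat_lit 78) (nat_lit 0) (nat_lit 0) (XT.lf (nat_lit 0) (nat_lit 659927573125) (nat_lit 76) (nat_lit 349703671484) (nat_lit 76) (nat_lit 270144710295) (nat_lit 3) (nat_lit 4) (nat_lit 4) (nat_lit 5) (nat_lit 4) (nat_lit 4) (nat_lit 270) (nat_lit 232) (nat_lit 158)) (XT.nd (nat_lit 78) (nat_lit 0) (nat_lit 0) (XT.lf (nat_lit 0) (nat_lit 908089049211) (nat_lit 76) (nat_lit 318485046161) (nat_lit 76) (nat_lit 238925750426) (nat_lit 3) (nat_lit 4) (nat_lit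 4) (nat_lit 5) (nat_lit 4) (nat_lit 4) (nat_lit 271) (nat_lit 232) (nat_lit 157)) (XT.lf (nat_lit 0) (nat_lit 1193473574094) (nat_lit 76) (nat_lit 282584190975) (nat_lit 76) (nat_lit 203024604330) (nat_lit 3) (nat_lit 4) (nat_lit 4) (nat_lit 5) (nat_lit 4) (nat_lit 4) (nat_lit 272) (nat_lit 232) (nat_lit 156))))))) (XT.nd (nat_lit 936) (nat_lit 0) (nat_lit 0) (XT.nd (nat_lit 468) (nat_lit 0) (nat_lit 0) (XT.nd (nat_lit 234) (nat_lit 152) (nat_lit 0) (XT.nd (nat_lit 78) (nat_lit 0) (nat_lit 0) (XT.lf (nat_lit 0) (nat_lit 1521664758043) (nat_lit 76) (nat_lit 241298697888) (nat_lit 76) (nat_lit 161738858278) (nat_lit 3) (nat_lit 4) (nat_lit 4) (nat_lit 5) (nat_lit 4) (nat_lit 4) (nat_lit 273) (nat_lit 232) (nat_lit 155)) (XT.nd (nat_lit 78) (nat_lit 0) (nat_lit 0) (XT.lf (nat_lit 0) (nat_lit 1899083732917) (nat_lit 76) (nat_lit 193820807254) (nat_lit 76) (nat_lit 114260747674) (nat_lit 3)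 (nat_lit 4) (nat_lit 4) (nat_lit 5) (nat_lit 4) (nat_lit 4) (nat_lit 274) (nat_lit 232) (nat_lit 154)) (XT.lf (nat_lit 0) (nat_lit 2333114783009) (nat_lit 76) (nat_lit 139221603821) (nat_lit 76) (nat_lit 59661352963) (nat_lit 3) (nat_lit 4) (nat_lit 4) (nat_lit 5) (nat_lit 4) (nat_lit 4) (nat_lit 275) (nat_lit 232) (nat_lit 153)))) (XT.nd (nat_lit 78) (nat_lit 76) (nat_lit 0) (XT.lf (nat_lit 0) (nat_lit 2971120919) (nat_lit 152) (nat_lit 73380485673) (nat_lit 76) (nat_lit 2829197463536) (nat_lit 2) (nat_lit 5) (nat_lit 4) (nat_lit 5) (nat_lit 3) (nat_lit 4) (nat_lit 276) (nat_lit 232) (nat_lit 152)) (XT.nd (nat_lit 78) (nat_lit 0) (nat_lit 0) (XT.lf (nat_lit 0) (nat_lit 72945710947) (nat_lit 76) (nat_lit 374612498) (nat_lit 152) (nat_lit 3261540447067) (nat_lit 1) (nat_lit 5) (nat_lit 2) (nat_lit 5) (nat_lit 3) (nat_lit 4) (nat_lit 277) (nat_lit 232) (nat_lit 151)) (XT.lf (nat_lit 0)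 (nat_lit 158505827642) (nat_lit 152) (nat_lit 3584882160438) (nat_lit 0) (nat_lit 84838524319) (nat_lit 1) (nat_lit 5) (nat_lit 3) (nat_lit 4) (nat_lit 1) (nat_lit 4) (nat_lit 278) (nat_lit 232) (nat_lit 150))))) (XT.nd (nat_lit 234) (nat_lit 0) (nat_lit 0) (XT.nd (nat_lit 78) (nat_lit 0) (nat_lit 0) (XT.lf (nat_lit 0) (nat_lit 256479266391) (nat_lit 152) (nat_lit 3956305178790) (nat_lit 0) (nat_lit 182811861806) (nat_lit 1) (nat_lit 5) (nat_lit 3) (nat_lit 4) (nat_lit 1) (nat_lit 4) (nat_lit 279) (nat_lit 232) (nat_lit 149)) (XT.nd (nat_lit 78) (nat_lit 0) (nat_lit 0) (XT.lf (nat_lit 0) (nat_lit 369148501882) (nat_lit 152) (nat_lit 4383442077280) (nat_lit 0) (nat_lit 295481009242) (nat_lit 1) (nat_lit 5) (nat_lit 3) (nat_lit 4) (nat_lit 1) (nat_lit 4) (nat_lit 280) (nat_lit 232) (nat_lit 148)) (XT.lf (nat_lit 0) (nat_lit 498717932199) (nat_lit 152) (nat_lit 4874649882182) (nat_lit 0)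 (nat_lit 425050362990) (nat_lit 1) (nat_lit 5) (nat_lit 3) (nat_lit 4) (nat_lit 1) (nat_lit 4) (nat_lit 281) (nat_lit 232) (nat_lit 147)))) (XT.nd (nat_lit 78) (nat_lit 0) (nat_lit 0) (XT.lf (nat_lit 0) (nat_lit 647722611414) (nat_lit 152) (nat_lit 5439539180983) (nat_lit 0) (nat_lit 574054975623) (nat_lit 1) (nat_lit 5) (nat_lit 3) (nat_lit 4) (nat_lit 1) (nat_lit 4) (nat_lit 282) (nat_lit 232) (nat_lit 146)) (XT.nd (nat_lit 78) (nat_lit 0) (nat_lit 0) (XT.lf (nat_lit 0) (nat_lit 819077848469) (nat_lit 152) (nat_lit 6089162155618) (nat_lit 0) (nat_lit 745410154780) (nat_lit 1) (nat_lit 5) (nat_lit 3) (nat_lit 4) (nat_lit 1) (nat_lit 4) (nat_lit 283) (nat_lit 232) (nat_lit 145)) (XT.lf (nat_lit 0) (nat_lit 1016136245827) (nat_lit 152) (nat_lit 6836228820806) (nat_lit 0) (nat_lit 942468501793) (nat_lit 1) (nat_lit 5) (nat_lit 3) (nat_lit 4) (nat_lit 1) (nat_lit 4) (nat_lit 284) (nat_lit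 232) (nat_lit 144)))))) (XT.nd (nat_lit 30732) (nat_lit 0) (nat_lit 1748) (XT.nd (nat_lit 30498) (nat_lit 0) (nat_lit 3040) (XT.nd (nat_lit 30342) (nat_lit 0) (nat_lit 3268) (XT.lf (nat_lit 0) (nat_lit 1242753293872) (nat_lit 152) (nat_lit 7695355698258) (nat_lit 0) (nat_lit 1169085506059) (nat_lit 1) (nat_lit 5) (nat_lit 3) (nat_lit 4) (nat_lit 1) (nat_lit 4) (nat_lit 285) (nat_lit 232) (nat_lit 143)) (XT.nd (nat_lit 78) (nat_lit 0) (nat_lit 76) (XT.lf (nat_lit 0) (nat_lit 7105470798) (nat_lit 532) (nat_lit 2750766566) (nat_lit 532) (nat_lit 2750766566) (nat_lit 44) (nat_lit 3) (nat_lit 51) (nat_lit 3) (nat_lit 51) (nat_lit 5) (nat_lit 233) (nat_lit 233) (nat_lit 194)) (XT.lf (nat_lit 0) (nat_lit 15872825617) (nat_lit 456) (nat_lit 10295563834) (nat_lit 532) (nat_lit 888428739) (nat_lit 45) (nat_lit 5) (nat_lit 51) (nat_lit 5) (nat_lit 52) (nat_lit 5) (nat_lit 234) (nat_lit 233) (nat_lit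 193)))) (XT.nd (nat_lit 78) (nat_lit 304) (nat_lit 0) (XT.lf (nat_lit 76) (nat_lit 13646556841) (nat_lit 0) (nat_lit 5144825586) (nat_lit 532) (nat_lit 10304175281) (nat_lit 46) (nat_lit 5) (nat_lit 45) (nat_lit 5) (nat_lit 52) (nat_lit 5) (nat_lit 235) (nat_lit 233) (nat_lit 192)) (XT.nd (nat_lit 78) (nat_lit 380) (nat_lit 0) (XT.lf (nat_lit 76) (nat_lit 10422339067) (nat_lit 0) (nat_lit 12714674611) (nat_lit 532) (nat_lit 8224037161) (nat_lit 47) (nat_lit 5) (nat_lit 46) (nat_lit 5) (nat_lit 53) (nat_lit 5) (nat_lit 236) (nat_lit 233) (nat_lit 191)) (XT.lf (nat_lit 0) (nat_lit 7079532010) (nat_lit 456) (nat_lit 22084496045) (nat_lit 532) (nat_lit 4720051558) (nat_lit 41) (nat_lit 5) (nat_lit 47) (nat_lit 5) (nat_lit 48) (nat_lit 5) (nat_lit 237) (nat_lit 233) (nat_lit 190))))) (XT.nd (nat_lit 234) (nat_lit 760) (nat_lit 0) (XT.nd (nat_lit 78) (nat_lit 228) (nat_lit 0) (XT.lf (nat_lit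 0) (nat_lit 465553746) (nat_lit 304) (nat_lit 33139314470) (nat_lit 76) (nat_lit 3092364585) (nat_lit 37) (nat_lit 5) (nat_lit 41) (nat_lit 5) (nat_lit 38) (nat_lit 5) (nat_lit 238) (nat_lit 233) (nat_lit 189)) (XT.nd (nat_lit 78) (nat_lit 228) (nat_lit 0) (XT.lf (nat_lit 0) (nat_lit 7549778882) (nat_lit 304) (nat_lit 554001950) (nat_lit 76) (nat_lit 31706801867) (nat_lit 37) (nat_lit 5) (nat_lit 41) (nat_lit 5) (nat_lit 38) (nat_lit 5) (nat_lit 239) (nat_lit 233) (nat_lit 188)) (XT.lf (nat_lit 0) (nat_lit 17148840886) (nat_lit 304) (nat_lit 5007697783) (nat_lit 76) (nat_lit 21118265671) (nat_lit 34) (nat_lit 5) (nat_lit 38) (nat_lit 5) (nat_lit 35) (nat_lit 5) (nat_lit 240) (nat_lit 233) (nat_lit 187)))) (XT.nd (nat_lit 156) (nat_lit 380) (nat_lit 0) (XT.nd (nat_lit 78) (nat_lit 152) (nat_lit 0) (XT.lf (nat_lit 0) (nat_lit 29503324817) (nat_lit 304) (nat_lit 10049207471) (nat_lit 76)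 (nat_lit 7600921501) (nat_lit 31) (nat_lit 5) (nat_lit 35) (nat_lit 5) (nat_lit 32) (nat_lit 5) (nat_lit 241) (nat_lit 233) (nat_lit 186)) (XT.lf (nat_lit 0) (nat_lit 35369746372) (nat_lit 152) (nat_lit 9940849696) (nat_lit 228) (nat_lit 6175369817) (nat_lit 29) (nat_lit 5) (nat_lit 31) (nat_lit 5) (nat_lit 32) (nat_lit 5) (nat_lit 242) (nat_lit 233) (nat_lit 185))) (XT.nd (nat_lit 78) (nat_lit 152) (nat_lit 0) (XT.lf (nat_lit 0) (nat_lit 8369265330) (nat_lit 228) (nat_lit 23745662066) (nat_lit 76) (nat_lit 24203958563) (nat_lit 26) (nat_lit 5) (nat_lit 29) (nat_lit 5) (nat_lit 27) (nat_lit 5) (nat_lit 243) (nat_lit 233) (nat_lit 184)) (XT.lf (nat_lit 0) (nat_lit 26234657948) (nat_lit 228) (nat_lit 33145136229) (nat_lit 76) (nat_lit 2363764980) (nat_lit 24) (nat_lit 5) (nat_lit 27) (nat_lit 5) (nat_lit 25) (nat_lit 5) (nat_lit 244) (nat_lit 233) (nat_lit 183))))))))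
noncomputable def xc40 : XT := (XT.nd (nat_lit 1872) (nat_lit 152) (nat_lit 0) (XT.nd (nat_lit 936) (nat_lit 456) (nat_lit 0) (XT.nd (nat_lit 468) (nat_lit 380) (nat_lit 0) (XT.nd (nat_lit 234) (nat_lit 304) (nat_lit 0) (XT.nd (nat_lit 78) (nat_lit 304) (nat_lit 0) (XT.lf (nat_lit 0) (nat_lit 22510246389) (nat_lit 152) (nat_lit 26398298421) (nat_lit 228) (nat_lit 18903114644) (nat_lit 22) (nat_lit 5) (nat_lit 24) (nat_lit 5) (nat_lit 25) (nat_lit 5) (nat_lit 245) (nat_lit 233) (nat_lit 182)) (XT.nd (nat_lit 78) (nat_lit 152) (nat_lit 0) (XT.lf (nat_lit 0) (nat_lit 1824996690) (nat_lit 152) (nat_lit 60506286074) (nat_lit 76) (nat_lit 12327045455) (nat_lit 20) (nat_lit 5) (nat_lit 22) (nat_lit 5) (nat_lit 21) (nat_lit 5) (nat_lit 246) (nat_lit 233) (nat_lit 181)) (XT.lf (nat_lit 0) (nat_lit 1620527775) (nat_lit 152) (nat_lit 25067945664) (nat_lit 228) (nat_lit 55632625403) (nat_lit 18)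 (nat_lit 5) (nat_lit 20) (nat_lit 5) (nat_lit 21) (nat_lit 5) (nat_lit 247) (nat_lit 233) (nat_lit 180)))) (XT.nd (nat_lit 78) (nat_lit 304) (nat_lit 0) (XT.lf (nat_lit 0) (nat_lit 57508597750) (nat_lit 228) (nat_lit 14748467293) (nat_lit 76) (nat_lit 18698062685) (nat_lit 18) (nat_lit 5) (nat_lit 21) (nat_lit 5) (nat_lit 19) (nat_lit 4) (nat_lit 248) (nat_lit 233) (nat_lit 179)) (XT.nd (nat_lit 78) (nat_lit 228) (nat_lit 0) (XT.lf (nat_lit 0) (nat_lit 63571896136) (nat_lit 76) (nat_lit 31595170510) (nat_lit 152) (nat_lit 5539979317) (nat_lit 17) (nat_lit 5) (nat_lit 18) (nat_lit 5) (nat_lit 19) (nat_lit 4) (nat_lit 249) (nat_lit 233) (nat_lit 178)) (XT.lf (nat_lit 0) (nat_lit 27141608970) (nat_lit 228) (nat_lit 67974756674) (nat_lit 76) (nat_lit 16600922350) (nat_lit 14) (nat_lit 5) (nat_lit 17) (nat_lit 5) (nat_lit 15) (nat_lit 4) (nat_lit 250) (nat_lit 233) (nat_lit 177))))) (XT.nd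 (nat_lit 234) (nat_lit 152) (nat_lit 0) (XT.nd (nat_lit 78) (nat_lit 152) (nat_lit 0) (XT.lf (nat_lit 0) (nat_lit 14361121088) (nat_lit 76) (nat_lit 52368158701) (nat_lit 152) (nat_lit 57451732826) (nat_lit 13) (nat_lit 5) (nat_lit 14) (nat_lit 5) (nat_lit 15) (nat_lit 4) (nat_lit 251) (nat_lit 233) (nat_lit 176)) (XT.nd (nat_lit 78) (nat_lit 152) (nat_lit 0) (XT.lf (nat_lit 0) (nat_lit 113154375597) (nat_lit 76) (nat_lit 1074369171) (nat_lit 152) (nat_lit 24127666434) (nat_lit 13) (nat_lit 5) (nat_lit 14) (nat_lit 5) (nat_lit 15) (nat_lit 4) (nat_lit 252) (nat_lit 233) (nat_lit 175)) (XT.lf (nat_lit 0) (nat_lit 16745587586) (nat_lit 152) (nat_lit 80397244001) (nat_lit 76) (nat_lit 57227128634) (nat_lit 11) (nat_lit 5) (nat_lit 13) (nat_lit 5) (nat_lit 12) (nat_lit 4) (nat_lit 253) (nat_lit 233) (nat_lit 174)))) (XT.nd (nat_lit 78) (nat_lit 76) (nat_lit 0) (XT.lf (nat_lit 0) (nat_lit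 16946703997) (nat_lit 76) (nat_lit 46600754550) (nat_lit 152) (nat_lit 109089851886) (nat_lit 10) (nat_lit 5) (nat_lit 11) (nat_lit 5) (nat_lit 12) (nat_lit 4) (nat_lit 254) (nat_lit 233) (nat_lit 173)) (XT.nd (nat_lit 78) (nat_lit 76) (nat_lit 0) (XT.lf (nat_lit 0) (nat_lit 120044096985) (nat_lit 152) (nat_lit 60042094929) (nat_lit 0) (nat_lit 13344616428) (nat_lit 10) (nat_lit 5) (nat_lit 12) (nat_lit 4) (nat_lit 10) (nat_lit 4) (nat_lit 255) (nat_lit 233) (nat_lit 172)) (XT.lf (nat_lit 0) (nat_lit 51220545884) (nat_lit 76) (nat_lit 136311829354) (nat_lit 76) (nat_lit 29609587751) (nat_lit 9) (nat_lit 4) (nat_lit 10) (nat_lit 5) (nat_lit 10) (nat_lit 4) (nat_lit 256) (nat_lit 233) (nat_lit 171)))))) (XT.nd (nat_lit 468) (nat_lit 228) (nat_lit 0) (XT.nd (nat_lit 234) (nat_lit 76) (nat_lit 0) (XT.nd (nat_lit 78) (nat_lit 76) (nat_lit 0) (XT.lf (nat_lit 0) (nat_lit 21487027288) (nat_lit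 152) (nat_lit 62011625751) (nat_lit 76) (nat_lit 160728038073) (nat_lit 8) (nat_lit 5) (nat_lit 10) (nat_lit 5) (nat_lit 9) (nat_lit 4) (nat_lit 257) (nat_lit 233) (nat_lit 170)) (XT.nd (nat_lit 78) (nat_lit 0) (nat_lit 0) (XT.lf (nat_lit 0) (nat_lit 59643974623) (nat_lit 76) (nat_lit 20332325801) (nat_lit 152) (nat_lit 195217793408) (nat_lit 7) (nat_lit 5) (nat_lit 8) (nat_lit 5) (nat_lit 9) (nat_lit 4) (nat_lit 258) (nat_lit 233) (nat_lit 169)) (XT.lf (nat_lit 0) (nat_lit 150346594392) (nat_lit 152) (nat_lit 108669018938) (nat_lit 0) (nat_lit 51542385418) (nat_lit 7) (nat_lit 5) (nat_lit 9) (nat_lit 4) (nat_lit 7) (nat_lit 4) (nat_lit 259) (nat_lit 233) (nat_lit 168)))) (XT.nd (nat_lit 78) (nat_lit 0) (nat_lit 0) (XT.lf (nat_lit 0) (nat_lit 14397728719) (nat_lit 76) (nat_lit 217780966128) (nat_lit 76) (nat_lit 118975295453) (nat_lit 6) (nat_lit 4) (nat_lit 7) (nat_lit 5) (nat_lit 7)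 (nat_lit 4) (nat_lit 260) (nat_lit 233) (nat_lit 167)) (XT.nd (nat_lit 78) (nat_lit 0) (nat_lit 0) (XT.lf (nat_lit 0) (nat_lit 162501118841) (nat_lit 76) (nat_lit 166946136746) (nat_lit 76) (nat_lit 68139195027) (nat_lit 6) (nat_lit 4) (nat_lit 7) (nat_lit 5) (nat_lit 7) (nat_lit 4) (nat_lit 261) (nat_lit 233) (nat_lit 166)) (XT.lf (nat_lit 0) (nat_lit 332816508493) (nat_lit 76) (nat_lit 108487734252) (nat_lit 76) (nat_lit 9679687277) (nat_lit 6) (nat_lit 4) (nat_lit 7) (nat_lit 5) (nat_lit 7) (nat_lit 4) (nat_lit 262) (nat_lit 233) (nat_lit 165))))) (XT.nd (nat_lit 234) (nat_lit 76) (nat_lit 0) (XT.nd (nat_lit 78) (nat_lit 0) (nat_lit 0) (XT.lf (nat_lit 0) (nat_lit 15685646281) (nat_lit 76) (nat_lit 39359860616) (nat_lit 152) (nat_lit 457204755165) (nat_lit 4) (nat_lit 5) (nat_lit 5) (nat_lit 5) (nat_lit 6) (nat_lit 4) (nat_lit 263) (nat_lit 233) (nat_lit 164)) (XT.nd (nat_lit 78) (nat_lit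 0) (nat_lit 0) (XT.lf (nat_lit 0) (nat_lit 133416063087) (nat_lit 152) (nat_lit 406984122941) (nat_lit 0) (nat_lit 41925466976) (nat_lit 4) (nat_lit 5) (nat_lit 6) (nat_lit 4) (nat_lit 4) (nat_lit 4) (nat_lit 264) (nat_lit 233) (nat_lit 163)) (XT.lf (nat_lit 0) (nat_lit 224629456451) (nat_lit 152) (nat_lit 305057729258) (nat_lit 0) (nat_lit 133138187448) (nat_lit 4) (nat_lit 5) (nat_lit 6) (nat_lit 4) (nat_lit 4) (nat_lit 4) (nat_lit 265) (nat_lit 233) (nat_lit 162)))) (XT.nd (nat_lit 78) (nat_lit 76) (nat_lit 0) (XT.lf (nat_lit 0) (nat_lit 329523691266) (nat_lit 152) (nat_lit 187844617089) (nat_lit 0) (nat_lit 238031837140) (nat_lit 4) (nat_lit 5) (nat_lit 6) (nat_lit 4) (nat_lit 4) (nat_lit 4) (nat_lit 266) (nat_lit 233) (nat_lit 161)) (XT.nd (nat_lit 78) (nat_lit 76) (nat_lit 0) (XT.lf (nat_lit 0) (nat_lit 450151046040) (nat_lit 152) (nat_lit 53051486414) (nat_lit 0) (nat_lit 358658683111)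 (nat_lit 4) (nat_lit 5) (nat_lit 6) (nat_lit 4) (nat_lit 4) (nat_lit 4) (nat_lit 267) (nat_lit 233) (nat_lit 160)) (XT.lf (nat_lit 0) (nat_lit 107327895695) (nat_lit 76) (nat_lit 484124963969) (nat_lit 76) (nat_lit 392632158602) (nat_lit 3) (nat_lit 4) (nat_lit 4) (nat_lit 5) (nat_lit 4) (nat_lit 4) (nat_lit 268) (nat_lit 233) (nat_lit 159))))))) (XT.nd (nat_lit 936) (nat_lit 0) (nat_lit 0) (XT.nd (nat_lit 468) (nat_lit 152) (nat_lit 0) (XT.nd (nat_lit 234) (nat_lit 0) (nat_lit 0) (XT.nd (nat_lit 78) (nat_lit 0) (nat_lit 0) (XT.lf (nat_lit 0) (nat_lit 294975271185) (nat_lit 76) (nat_lit 460518406112) (nat_lit 76) (nat_lit 369025216017) (nat_lit 3) (nat_lit 4) (nat_lit 4) (nat_lit 5) (nat_lit 4) (nat_lit 4) (nat_lit 269) (nat_lit 233) (nat_lit 158)) (XT.nd (nat_lit 78) (nat_lit 0) (nat_lit 0) (XT.lf (nat_lit 0) (nat_lit 510768404489) (nat_lit 76) (nat_lit 433371513102) (nat_lit 76) (nat_lit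 341877988460) (nat_lit 3) (nat_lit 4) (nat_lit 4) (nat_lit 5) (nat_lit 4) (nat_lit 4) (nat_lit 270) (nat_lit 233) (nat_lit 157)) (XT.lf (nat_lit 0) (nat_lit 758929335173) (nat_lit 76) (nat_lit 402153150074) (nat_lit 76) (nat_lit 310659334522) (nat_lit 3) (nat_lit 4) (nat_lit 4) (nat_lit 5) (nat_lit 4) (nat_lit 4) (nat_lit 271) (nat_lit 233) (nat_lit 156)))) (XT.nd (nat_lit 78) (nat_lit 0) (nat_lit 0) (XT.lf (nat_lit 0) (nat_lit 1044313385792) (nat_lit 76) (nat_lit 366252522970) (nat_lit 76) (nat_lit 274758454453) (nat_lit 3) (nat_lit 4) (nat_lit 4) (nat_lit 5) (nat_lit 4) (nat_lit 4) (nat_lit 272) (nat_lit 233) (nat_lit 155)) (XT.nd (nat_lit 78) (nat_lit 0) (nat_lit 0) (XT.lf (nat_lit 0) (nat_lit 1372504157338) (nat_lit 76) (nat_lit 324967228216) (nat_lit 76) (nat_lit 233472939730) (nat_lit 3) (nat_lit 4) (nat_lit 4) (nat_lit 5) (nat_lit 4) (nat_lit 4) (nat_lit 273) (nat_lit 233) (nat_lit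 154)) (XT.lf (nat_lit 0) (nat_lit 1749922773601) (nat_lit 76) (nat_lit 277489510045) (nat_lit 76) (nat_lit 185995030281) (nat_lit 3) (nat_lit 4) (nat_lit 4) (nat_lit 5) (nat_lit 4) (nat_lit 4) (nat_lit 274) (nat_lit 233) (nat_lit 153))))) (XT.nd (nat_lit 234) (nat_lit 76) (nat_lit 0) (XT.nd (nat_lit 78) (nat_lit 76) (nat_lit 0) (XT.lf (nat_lit 0) (nat_lit 2183953511857) (nat_lit 76) (nat_lit 222890456580) (nat_lit 76) (nat_lit 131395810487) (nat_lit 3) (nat_lit 4) (nat_lit 4) (nat_lit 5) (nat_lit 4) (nat_lit 4) (nat_lit 275) (nat_lit 233) (nat_lit 152)) (XT.nd (nat_lit 78) (nat_lit 76) (nat_lit 0) (XT.lf (nat_lit 0) (nat_lit 2683088277853) (nat_lit 76) (nat_lit 160101825471) (nat_lit 76) (nat_lit 68607034744) (nat_lit 3) (nat_lit 4) (nat_lit 4) (nat_lit 5) (nat_lit 4) (nat_lit 4) (nat_lit 276) (nat_lit 233) (nat_lit 151)) (XT.lf (nat_lit 0) (nat_lit 3419697770) (nat_lit 152) (nat_lit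 84381945131) (nat_lit 76) (nat_lit 3253579553426) (nat_lit 2) (nat_lit 5) (nat_lit 4) (nat_lit 5) (nat_lit 3) (nat_lit 4) (nat_lit 277) (nat_lit 233) (nat_lit 150)))) (XT.nd (nat_lit 78) (nat_lit 0) (nat_lit 0) (XT.lf (nat_lit 0) (nat_lit 83892705837) (nat_lit 76) (nat_lit 428319016) (nat_lit 152) (nat_lit 3750768647593) (nat_lit 1) (nat_lit 5) (nat_lit 2) (nat_lit 5) (nat_lit 3) (nat_lit 4) (nat_lit 278) (nat_lit 233) (nat_lit 149)) (XT.nd (nat_lit 78) (nat_lit 0) (nat_lit 0) (XT.lf (nat_lit 0) (nat_lit 182284060627) (nat_lit 152) (nat_lit 4122609882662) (nat_lit 0) (nat_lit 97566356036) (nat_lit 1) (nat_lit 5) (nat_lit 3) (nat_lit 4) (nat_lit 1) (nat_lit 4) (nat_lit 279) (nat_lit 233) (nat_lit 148)) (XT.lf (nat_lit 0) (nat_lit 294953207514) (nat_lit 152) (nat_lit 4549746954007) (nat_lit 0) (nat_lit 210235426354) (nat_lit 1) (nat_lit 5) (nat_lit 3) (nat_lit 4) (nat_lit 1) (nat_lit 4)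 (nat_lit 280) (nat_lit 233) (nat_lit 147)))))) (XT.nd (nat_lit 30810) (nat_lit 0) (nat_lit 2736) (XT.nd (nat_lit 234) (nat_lit 0) (nat_lit 0) (XT.nd (nat_lit 78) (nat_lit 0) (nat_lit 0) (XT.lf (nat_lit 0) (nat_lit 424522560785) (nat_lit 152) (nat_lit 5040954909218) (nat_lit 0) (nat_lit 339804713043) (nat_lit 1) (nat_lit 5) (nat_lit 3) (nat_lit 4) (nat_lit 1) (nat_lit 4) (nat_lit 281) (nat_lit 233) (nat_lit 146)) (XT.nd (nat_lit 78) (nat_lit 0) (nat_lit 0) (XT.lf (nat_lit 0) (nat_lit 573527173003) (nat_lit 152) (nat_lit 5605844338723) (nat_lit 0) (nat_lit 488809267364) (nat_lit 1) (nat_lit 5) (nat_lit 3) (nat_lit 4) (nat_lit 1) (nat_lit 4) (nat_lit 282) (nat_lit 233) (nat_lit 145)) (XT.lf (nat_lit 0) (nat_lit 744882351800) (nat_lit 152) (nat_lit 6255467427013) (nat_lit 0) (nat_lit 660164395815) (nat_lit 1) (nat_lit 5) (nat_lit 3) (nat_lit 4) (nat_lit 1) (nat_lit 4) (nat_lit 283) (nat_lit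 233) (nat_lit 144)))) (XT.nd (nat_lit 78) (nat_lit 0) (nat_lit 0) (XT.lf (nat_lit 0) (nat_lit 941940698499) (nat_lit 152) (nat_lit 7002534191032) (nat_lit 0) (nat_lit 857222698736) (nat_lit 1) (nat_lit 5) (nat_lit 3) (nat_lit 4) (nat_lit 1) (nat_lit 4) (nat_lit 284) (nat_lit 233) (nat_lit 143)) (XT.nd (nat_lit 30420) (nat_lit 0) (nat_lit 3268) (XT.lf (nat_lit 0) (nat_lit 1168557702492) (nat_lit 152) (nat_lit 7861661154424) (nat_lit 0) (nat_lit 1083839664660) (nat_lit 1) (nat_lit 5) (nat_lit 3) (nat_lit 4) (nat_lit 1) (nat_lit 4) (nat_lit 285) (nat_lit 233) (nat_lit 142)) (XT.lf (nat_lit 0) (nat_lit 8334135860) (nat_lit 532) (nat_lit 3075179452) (nat_lit 532) (nat_lit 3075179452) (nat_lit 44) (nat_lit 3) (nat_lit 51) (nat_lit 3) (nat_lit 51) (nat_lit 5) (nat_lit 234) (nat_lit 234) (nat_lit 192))))) (XT.nd (nat_lit 234) (nat_lit 608) (nat_lit 0) (XT.nd (nat_lit 78) (nat_lit 0) (nat_lit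 0) (XT.lf (nat_lit 0) (nat_lit 18537819471) (nat_lit 456) (nat_lit 11651511964) (nat_lit 532) (nat_lit 902358321) (nat_lit 45) (nat_lit 5) (nat_lit 51) (nat_lit 5) (nat_lit 52) (nat_lit 5) (nat_lit 235) (nat_lit 234) (nat_lit 191)) (XT.nd (nat_lit 78) (nat_lit 0) (nat_lit 76) (XT.lf (nat_lit 76) (nat_lit 15865980838) (nat_lit 0) (nat_lit 5995273552) (nat_lit 532) (nat_lit 11577738971) (nat_lit 46) (nat_lit 5) (nat_lit 45) (nat_lit 5) (nat_lit 52) (nat_lit 5) (nat_lit 236) (nat_lit 234) (nat_lit 190)) (XT.lf (nat_lit 76) (nat_lit 12164396321) (nat_lit 0) (nat_lit 14664224939) (nat_lit 532) (nat_lit 9218202907) (nat_lit 47) (nat_lit 5) (nat_lit 46) (nat_lit 5) (nat_lit 53) (nat_lit 5) (nat_lit 237) (nat_lit 234) (nat_lit 189)))) (XT.nd (nat_lit 78) (nat_lit 304) (nat_lit 0) (XT.lf (nat_lit 0) (nat_lit 8322802046) (nat_lit 456) (nat_lit 25411528004) (nat_lit 532) (nat_lit 5216097112) (nat_lit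 41) (nat_lit 5) (nat_lit 47) (nat_lit 5) (nat_lit 48) (nat_lit 5) (nat_lit 238) (nat_lit 234) (nat_lit 188)) (XT.nd (nat_lit 78) (nat_lit 0) (nat_lit 0) (XT.lf (nat_lit 0) (nat_lit 714644427) (nat_lit 304) (nat_lit 37919087806) (nat_lit 76) (nat_lit 3553254885) (nat_lit 37) (nat_lit 5) (nat_lit 41) (nat_lit 5) (nat_lit 38) (nat_lit 5) (nat_lit 239) (nat_lit 234) (nat_lit 187)) (XT.lf (nat_lit 0) (nat_lit 8838121905) (nat_lit 304) (nat_lit 470907604) (nat_lit 76) (nat_lit 36460244419) (nat_lit 37) (nat_lit 5) (nat_lit 41) (nat_lit 5) (nat_lit 38) (nat_lit 5) (nat_lit 240) (nat_lit 234) (nat_lit 186))))))))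
noncomputable def xc41 : XT := (XT.nd (nat_lit 1872) (nat_lit 228) (nat_lit 0) (XT.nd (nat_lit 936) (nat_lit 684) (nat_lit 0) (XT.nd (nat_lit 468) (nat_lit 684) (nat_lit 0) (XT.nd (nat_lit 234) (nat_lit 532) (nat_lit 0) (XT.nd (nat_lit 78) (nat_lit 380) (nat_lit 0) (XT.lf (nat_lit 0) (nat_lit 19860681014) (nat_lit 304) (nat_lit 5595529421) (nat_lit 76) (nat_lit 24298282931) (nat_lit 34) (nat_lit 5) (nat_lit 38) (nat_lit 5) (nat_lit 35) (nat_lit 5) (nat_lit 241) (nat_lit 234) (nat_lit 185)) (XT.nd (nat_lit 78) (nat_lit 152) (nat_lit 0) (XT.lf (nat_lit 0) (nat_lit 34054326808) (nat_lit 304) (nat_lit 11397366216) (nat_lit 76) (nat_lit 8764416393) (nat_lit 31) (nat_lit 5) (nat_lit 35) (nat_lit 5) (nat_lit 32) (nat_lit 5) (nat_lit 242) (nat_lit 234) (nat_lit 184)) (XT.lf (nat_lit 0) (nat_lit 40820953323) (nat_lit 152) (nat_lit 11398870603) (nat_lit 228) (nat_lit 6979745611) (nat_lit 29) (nat_lit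 5) (nat_lit 31) (nat_lit 5) (nat_lit 32) (nat_lit 5) (nat_lit 243) (nat_lit 234) (nat_lit 183)))) (XT.nd (nat_lit 78) (nat_lit 304) (nat_lit 0) (XT.lf (nat_lit 0) (nat_lit 9729571121) (nat_lit 228) (nat_lit 27160576754) (nat_lit 76) (nat_lit 27867952130) (nat_lit 26) (nat_lit 5) (nat_lit 29) (nat_lit 5) (nat_lit 27) (nat_lit 5) (nat_lit 244) (nat_lit 234) (nat_lit 182)) (XT.nd (nat_lit 78) (nat_lit 152) (nat_lit 0) (XT.lf (nat_lit 0) (nat_lit 30265285357) (nat_lit 228) (nat_lit 37975618658) (nat_lit 76) (nat_lit 2756358572) (nat_lit 24) (nat_lit 5) (nat_lit 27) (nat_lit 5) (nat_lit 25) (nat_lit 5) (nat_lit 245) (nat_lit 234) (nat_lit 181)) (XT.lf (nat_lit 0) (nat_lit 26016112027) (nat_lit 152) (nat_lit 30314806356) (nat_lit 228) (nat_lit 21645432080) (nat_lit 22) (nat_lit 5) (nat_lit 24) (nat_lit 5) (nat_lit 25) (nat_lit 5) (nat_lit 246) (nat_lit 234) (nat_lit 180))))) (XT.nd (nat_lit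 234) (nat_lit 380) (nat_lit 0) (XT.nd (nat_lit 78) (nat_lit 152) (nat_lit 0) (XT.lf (nat_lit 0) (nat_lit 2179678704) (nat_lit 152) (nat_lit 69453939580) (nat_lit 76) (nat_lit 14216847238) (nat_lit 20) (nat_lit 5) (nat_lit 22) (nat_lit 5) (nat_lit 21) (nat_lit 5) (nat_lit 247) (nat_lit 234) (nat_lit 179)) (XT.nd (nat_lit 78) (nat_lit 0) (nat_lit 0) (XT.lf (nat_lit 0) (nat_lit 1981037288) (nat_lit 152) (nat_lit 28783907466) (nat_lit 228) (nat_lit 63898343474) (nat_lit 18) (nat_lit 5) (nat_lit 20) (nat_lit 5) (nat_lit 21) (nat_lit 5) (nat_lit 248) (nat_lit 234) (nat_lit 178)) (XT.lf (nat_lit 0) (nat_lit 66199464833) (nat_lit 228) (nat_lit 16854352994) (nat_lit 76) (nat_lit 21539309028) (nat_lit 18) (nat_lit 5) (nat_lit 21) (nat_lit 5) (nat_lit 19) (nat_lit 4) (nat_lit 249) (nat_lit 234) (nat_lit 177)))) (XT.nd (nat_lit 78) (nat_lit 304) (nat_lit 0) (XT.lf (nat_lit 0) (nat_lit 73205060041)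 (nat_lit 76) (nat_lit 36295562860) (nat_lit 152) (nat_lit 6307709961) (nat_lit 17) (nat_lit 5) (nat_lit 18) (nat_lit 5) (nat_lit 19) (nat_lit 4) (nat_lit 250) (nat_lit 234) (nat_lit 176)) (XT.nd (nat_lit 78) (nat_lit 76) (nat_lit 0) (XT.lf (nat_lit 0) (nat_lit 31268232746) (nat_lit 228) (nat_lit 78075334084) (nat_lit 76) (nat_lit 19126811066) (nat_lit 14) (nat_lit 5) (nat_lit 17) (nat_lit 5) (nat_lit 15) (nat_lit 4) (nat_lit 251) (nat_lit 234) (nat_lit 175)) (XT.lf (nat_lit 0) (nat_lit 16602830224) (nat_lit 76) (nat_lit 60186105532) (nat_lit 152) (nat_lit 66015144414) (nat_lit 13) (nat_lit 5) (nat_lit 14) (nat_lit 5) (nat_lit 15) (nat_lit 4) (nat_lit 252) (nat_lit 234) (nat_lit 174)))))) (XT.nd (nat_lit 468) (nat_lit 304) (nat_lit 0) (XT.nd (nat_lit 234) (nat_lit 152) (nat_lit 0) (XT.nd (nat_lit 78) (nat_lit 228) (nat_lit 0) (XT.lf (nat_lit 0) (nat_lit 130203654521) (nat_lit 76) (nat_lit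 1203109787) (nat_lit 152) (nat_lit 27699556976) (nat_lit 13) (nat_lit 5) (nat_lit 14) (nat_lit 5) (nat_lit 15) (nat_lit 4) (nat_lit 253) (nat_lit 234) (nat_lit 173)) (XT.nd (nat_lit 78) (nat_lit 76) (nat_lit 0) (XT.lf (nat_lit 0) (nat_lit 19298942550) (nat_lit 152) (nat_lit 92382383565) (nat_lit 76) (nat_lit 65840762531) (nat_lit 11) (nat_lit 5) (nat_lit 13) (nat_lit 5) (nat_lit 12) (nat_lit 4) (nat_lit 254) (nat_lit 234) (nat_lit 172)) (XT.lf (nat_lit 0) (nat_lit 19556855062) (nat_lit 76) (nat_lit 53560462756) (nat_lit 152) (nat_lit 125412531454) (nat_lit 10) (nat_lit 5) (nat_lit 11) (nat_lit 5) (nat_lit 12) (nat_lit 4) (nat_lit 255) (nat_lit 234) (nat_lit 171)))) (XT.nd (nat_lit 78) (nat_lit 152) (nat_lit 0) (XT.lf (nat_lit 0) (nat_lit 138084165210) (nat_lit 152) (nat_lit 68987129210) (nat_lit 0) (nat_lit 15371425412) (nat_lit 10) (nat_lit 5) (nat_lit 12) (nat_lit 4) (nat_lit 10) (nat_lit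 4) (nat_lit 256) (nat_lit 234) (nat_lit 170)) (XT.nd (nat_lit 78) (nat_lit 76) (nat_lit 0) (XT.lf (nat_lit 0) (nat_lit 58959720682) (nat_lit 76) (nat_lit 156732950032) (nat_lit 76) (nat_lit 34018122486) (nat_lit 9) (nat_lit 4) (nat_lit 10) (nat_lit 5) (nat_lit 10) (nat_lit 4) (nat_lit 257) (nat_lit 234) (nat_lit 169)) (XT.lf (nat_lit 0) (nat_lit 24737261786) (nat_lit 152) (nat_lit 71263138462) (nat_lit 76) (nat_lit 184858096667) (nat_lit 8) (nat_lit 5) (nat_lit 10) (nat_lit 5) (nat_lit 9) (nat_lit 4) (nat_lit 258) (nat_lit 234) (nat_lit 168))))) (XT.nd (nat_lit 234) (nat_lit 152) (nat_lit 0) (XT.nd (nat_lit 78) (nat_lit 76) (nat_lit 0) (XT.lf (nat_lit 0) (nat_lit 68636550152) (nat_lit 76) (nat_lit 23360936274) (nat_lit 152) (nat_lit 224473721830) (nat_lit 7) (nat_lit 5) (nat_lit 8) (nat_lit 5) (nat_lit 9) (nat_lit 4) (nat_lit 259) (nat_lit 234) (nat_lit 167)) (XT.nd (nat_lit 78) (nat_lit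 76) (nat_lit 0) (XT.lf (nat_lit 0) (nat_lit 172920541570) (nat_lit 152) (nat_lit 124928095081) (nat_lit 0) (nat_lit 59291287549) (nat_lit 7) (nat_lit 5) (nat_lit 9) (nat_lit 4) (nat_lit 7) (nat_lit 4) (nat_lit 260) (nat_lit 234) (nat_lit 166)) (XT.lf (nat_lit 0) (nat_lit 16595170857) (nat_lit 76) (nat_lit 250430330825) (nat_lit 76) (nat_lit 136799971548) (nat_lit 6) (nat_lit 4) (nat_lit 7) (nat_lit 5) (nat_lit 7) (nat_lit 4) (nat_lit 261) (nat_lit 234) (nat_lit 165)))) (XT.nd (nat_lit 78) (nat_lit 152) (nat_lit 0) (XT.lf (nat_lit 0) (nat_lit 186909141302) (nat_lit 76) (nat_lit 191972596195) (nat_lit 76) (nat_lit 78341275826) (nat_lit 6) (nat_lit 4) (nat_lit 7) (nat_lit 5) (nat_lit 7) (nat_lit 4) (nat_lit 262) (nat_lit 234) (nat_lit 164)) (XT.nd (nat_lit 78) (nat_lit 152) (nat_lit 0) (XT.lf (nat_lit 0) (nat_lit 382767554015) (nat_lit 76) (nat_lit 124747449987) (nat_lit 76) (nat_lit 11115293886)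 (nat_lit 6) (nat_lit 4) (nat_lit 7) (nat_lit 5) (nat_lit 7) (nat_lit 4) (nat_lit 263) (nat_lit 234) (nat_lit 163)) (XT.lf (nat_lit 0) (nat_lit 18065402603) (nat_lit 76) (nat_lit 45251080775) (nat_lit 152) (nat_lit 525770176579) (nat_lit 4) (nat_lit 5) (nat_lit 5) (nat_lit 5) (nat_lit 6) (nat_lit 4) (nat_lit 264) (nat_lit 234) (nat_lit 162))))))) (XT.nd (nat_lit 936) (nat_lit 152) (nat_lit 0) (XT.nd (nat_lit 468) (nat_lit 0) (nat_lit 0) (XT.nd (nat_lit 234) (nat_lit 76) (nat_lit 0) (XT.nd (nat_lit 78) (nat_lit 0) (nat_lit 0) (XT.lf (nat_lit 0) (nat_lit 153441044114) (nat_lit 152) (nat_lit 468007616215) (nat_lit 0) (nat_lit 48224826745) (nat_lit 4) (nat_lit 5) (nat_lit 6) (nat_lit 4) (nat_lit 4) (nat_lit 4) (nat_lit 265) (nat_lit 234) (nat_lit 161)) (XT.nd (nat_lit 78) (nat_lit 0) (nat_lit 0) (XT.lf (nat_lit 0) (nat_lit 258334806713) (nat_lit 152) (nat_lit 350795410241) (nat_lit 0) (nat_lit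 153118080541) (nat_lit 4) (nat_lit 5) (nat_lit 6) (nat_lit 4) (nat_lit 4) (nat_lit 4) (nat_lit 266) (nat_lit 234) (nat_lit 160)) (XT.lf (nat_lit 0) (nat_lit 378961750865) (nat_lit 152) (nat_lit 216003067561) (nat_lit 0) (nat_lit 273744582255) (nat_lit 4) (nat_lit 5) (nat_lit 6) (nat_lit 4) (nat_lit 4) (nat_lit 4) (nat_lit 267) (nat_lit 234) (nat_lit 159)))) (XT.nd (nat_lit 78) (nat_lit 76) (nat_lit 0) (XT.lf (nat_lit 0) (nat_lit 517681968954) (nat_lit 152) (nat_lit 60993346687) (nat_lit 0) (nat_lit 412464415616) (nat_lit 4) (nat_lit 5) (nat_lit 6) (nat_lit 4) (nat_lit 4) (nat_lit 4) (nat_lit 268) (nat_lit 234) (nat_lit 158)) (XT.nd (nat_lit 78) (nat_lit 0) (nat_lit 0) (XT.lf (nat_lit 0) (nat_lit 123441600041) (nat_lit 76) (nat_lit 556736725612) (nat_lit 76) (nat_lit 451518837727) (nat_lit 3) (nat_lit 4) (nat_lit 4) (nat_lit 5) (nat_lit 4) (nat_lit 4) (nat_lit 269) (nat_lit 234) (nat_lit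 157)) (XT.lf (nat_lit 0) (nat_lit 339234187942) (nat_lit 76) (nat_lit 529590094896) (nat_lit 76) (nat_lit 424371916102) (nat_lit 3) (nat_lit 4) (nat_lit 4) (nat_lit 5) (nat_lit 4) (nat_lit 4) (nat_lit 270) (nat_lit 234) (nat_lit 156))))) (XT.nd (nat_lit 234) (nat_lit 0) (nat_lit 0) (XT.nd (nat_lit 78) (nat_lit 0) (nat_lit 0) (XT.lf (nat_lit 0) (nat_lit 587394644362) (nat_lit 76) (nat_lit 498371959951) (nat_lit 76) (nat_lit 393153528192) (nat_lit 3) (nat_lit 4) (nat_lit 4) (nat_lit 5) (nat_lit 4) (nat_lit 4) (nat_lit 271) (nat_lit 234) (nat_lit 155)) (XT.nd (nat_lit 78) (nat_lit 0) (nat_lit 0) (XT.lf (nat_lit 0) (nat_lit 872778282579) (nat_lit 76) (nat_lit 462471531180) (nat_lit 76) (nat_lit 357252879451) (nat_lit 3) (nat_lit 4) (nat_lit 4) (nat_lit 5) (nat_lit 4) (nat_lit 4) (nat_lit 272) (nat_lit 234) (nat_lit 154)) (XT.lf (nat_lit 0) (nat_lit 1200968695513) (nat_lit 76) (nat_lit 421186408890)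 (nat_lit 76) (nat_lit 315967565883) (nat_lit 3) (nat_lit 4) (nat_lit 4) (nat_lit 5) (nat_lit 4) (nat_lit 4) (nat_lit 273) (nat_lit 234) (nat_lit 153)))) (XT.nd (nat_lit 78) (nat_lit 0) (nat_lit 0) (XT.lf (nat_lit 0) (nat_lit 1578386999941) (nat_lit 76) (nat_lit 373708840687) (nat_lit 76) (nat_lit 268489831351) (nat_lit 3) (nat_lit 4) (nat_lit 4) (nat_lit 5) (nat_lit 4) (nat_lit 4) (nat_lit 274) (nat_lit 234) (nat_lit 152)) (XT.nd (nat_lit 78) (nat_lit 0) (nat_lit 0) (XT.lf (nat_lit 0) (nat_lit 2012417467035) (nat_lit 76) (nat_lit 319109917629) (nat_lit 76) (nat_lit 213890763660) (nat_lit 3) (nat_lit 4) (nat_lit 4) (nat_lit 5) (nat_lit 4) (nat_lit 4) (nat_lit 275) (nat_lit 234) (nat_lit 151)) (XT.lf (nat_lit 0) (nat_lit 2511551997238) (nat_lit 76) (nat_lit 256321399917) (nat_lit 76) (nat_lit 151102120179) (nat_lit 3) (nat_lit 4) (nat_lit 4) (nat_lit 5) (nat_lit 4) (nat_lit 4) (nat_lit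 276) (nat_lit 234) (nat_lit 150)))))) (XT.nd (nat_lit 468) (nat_lit 0) (nat_lit 0) (XT.nd (nat_lit 234) (nat_lit 0) (nat_lit 0) (XT.nd (nat_lit 78) (nat_lit 152) (nat_lit 0) (XT.lf (nat_lit 0) (nat_lit 3085556266142) (nat_lit 76) (nat_lit 184114816552) (nat_lit 76) (nat_lit 78895427450) (nat_lit 3) (nat_lit 4) (nat_lit 4) (nat_lit 5) (nat_lit 4) (nat_lit 4) (nat_lit 277) (nat_lit 234) (nat_lit 149)) (XT.nd (nat_lit 78) (nat_lit 76) (nat_lit 0) (XT.lf (nat_lit 0) (nat_lit 3934851841) (nat_lit 152) (nat_lit 97034992369) (nat_lit 76) (nat_lit 3741618354387) (nat_lit 2) (nat_lit 5) (nat_lit 4) (nat_lit 5) (nat_lit 3) (nat_lit 4) (nat_lit 278) (nat_lit 234) (nat_lit 148)) (XT.lf (nat_lit 0) (nat_lit 96480496966) (nat_lit 76) (nat_lit 490687582) (nat_lit 152) (nat_lit 4313381777220) (nat_lit 1) (nat_lit 5) (nat_lit 2) (nat_lit 5) (nat_lit 3) (nat_lit 4) (nat_lit 279) (nat_lit 234) (nat_lit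 147)))) (XT.nd (nat_lit 78) (nat_lit 0) (nat_lit 0) (XT.lf (nat_lit 0) (nat_lit 209628453341) (nat_lit 152) (nat_lit 4740997885408) (nat_lit 0) (nat_lit 112202861856) (nat_lit 1) (nat_lit 5) (nat_lit 3) (nat_lit 4) (nat_lit 1) (nat_lit 4) (nat_lit 280) (nat_lit 234) (nat_lit 146)) (XT.nd (nat_lit 78) (nat_lit 0) (nat_lit 0) (XT.lf (nat_lit 0) (nat_lit 339197739615) (nat_lit 152) (nat_lit 5232205971323) (nat_lit 0) (nat_lit 241772090233) (nat_lit 1) (nat_lit 5) (nat_lit 3) (nat_lit 4) (nat_lit 1) (nat_lit 4) (nat_lit 281) (nat_lit 234) (nat_lit 145)) (XT.lf (nat_lit 0) (nat_lit 488202293576) (nat_lit 152) (nat_lit 5797095514483) (nat_lit 0) (nat_lit 390776593848) (nat_lit 1) (nat_lit 5) (nat_lit 3) (nat_lit 4) (nat_lit 1) (nat_lit 4) (nat_lit 282) (nat_lit 234) (nat_lit 144))))) (XT.nd (nat_lit 30732) (nat_lit 0) (nat_lit 3344) (XT.nd (nat_lit 78) (nat_lit 0) (nat_lit 0) (XT.lf (nat_lit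 0) (nat_lit 659557421714) (nat_lit 152) (nat_lit 6446718701603) (nat_lit 0) (nat_lit 562131678207) (nat_lit 1) (nat_lit 5) (nat_lit 3) (nat_lit 4) (nat_lit 1) (nat_lit 4) (nat_lit 283) (nat_lit 234) (nat_lit 143)) (XT.nd (nat_lit 30576) (nat_lit 0) (nat_lit 3268) (XT.lf (nat_lit 0) (nat_lit 856615724361) (nat_lit 152) (nat_lit 7193785551562) (nat_lit 0) (nat_lit 759189942786) (nat_lit 1) (nat_lit 5) (nat_lit 3) (nat_lit 4) (nat_lit 1) (nat_lit 4) (nat_lit 284) (nat_lit 234) (nat_lit 142)) (XT.lf (nat_lit 0) (nat_lit 9707390034) (nat_lit 532) (nat_lit 3469762912) (nat_lit 532) (nat_lit 3469762912) (nat_lit 44) (nat_lit 3) (nat_lit 51) (nat_lit 3) (nat_lit 51) (nat_lit 5) (nat_lit 235) (nat_lit 235) (nat_lit 190)))) (XT.nd (nat_lit 78) (nat_lit 0) (nat_lit 0) (XT.lf (nat_lit 0) (nat_lit 21533290132) (nat_lit 456) (nat_lit 13256791541) (nat_lit 532) (nat_lit 947477870) (nat_lit 45) (nat_lit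 5) (nat_lit 51) (nat_lit 5) (nat_lit 52) (nat_lit 5) (nat_lit 236) (nat_lit 235) (nat_lit 189)) (XT.nd (nat_lit 78) (nat_lit 0) (nat_lit 76) (XT.lf (nat_lit 76) (nat_lit 18376267734) (nat_lit 0) (nat_lit 6954091335) (nat_lit 532) (nat_lit 13108681402) (nat_lit 46) (nat_lit 5) (nat_lit 45) (nat_lit 5) (nat_lit 52) (nat_lit 5) (nat_lit 237) (nat_lit 235) (nat_lit 188)) (XT.lf (nat_lit 76) (nat_lit 14124183476) (nat_lit 0) (nat_lit 16895880711) (nat_lit 532) (nat_lit 10419882432) (nat_lit 47) (nat_lit 5) (nat_lit 46) (nat_lit 5) (nat_lit 53) (nat_lit 5) (nat_lit 238) (nat_lit 235) (nat_lit 187))))))))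
noncomputable def xc42 : XT := (XT.nd (nat_lit 1872) (nat_lit 380) (nat_lit 0) (XT.nd (nat_lit 936) (nat_lit 912) (nat_lit 0) (XT.nd (nat_lit 468) (nat_lit 836) (nat_lit 0) (XT.nd (nat_lit 234) (nat_lit 608) (nat_lit 0) (XT.nd (nat_lit 78) (nat_lit 304) (nat_lit 0) (XT.lf (nat_lit 0) (nat_lit 9708341623) (nat_lit 456) (nat_lit 29234113576) (nat_lit 532) (nat_lit 5838237818) (nat_lit 41) (nat_lit 5) (nat_lit 47) (nat_lit 5) (nat_lit 48) (nat_lit 5) (nat_lit 239) (nat_lit 235) (nat_lit 186)) (XT.nd (nat_lit 78) (nat_lit 0) (nat_lit 0) (XT.lf (nat_lit 0) (nat_lit 957385604) (nat_lit 304) (nat_lit 43462433900) (nat_lit 76) (nat_lit 4084001615) (nat_lit 37) (nat_lit 5) (nat_lit 41) (nat_lit 5) (nat_lit 38) (nat_lit 5) (nat_lit 240) (nat_lit 235) (nat_lit 185)) (XT.lf (nat_lit 0) (nat_lit 10281704985) (nat_lit 304) (nat_lit 415876720) (nat_lit 76) (nat_lit 41927331949) (nat_lit 37) (nat_lit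 5) (nat_lit 41) (nat_lit 5) (nat_lit 38) (nat_lit 5) (nat_lit 241) (nat_lit 235) (nat_lit 184)))) (XT.nd (nat_lit 78) (nat_lit 380) (nat_lit 0) (XT.lf (nat_lit 0) (nat_lit 22945275789) (nat_lit 304) (nat_lit 6311363159) (nat_lit 76) (nat_lit 27952308857) (nat_lit 34) (nat_lit 5) (nat_lit 38) (nat_lit 5) (nat_lit 35) (nat_lit 5) (nat_lit 242) (nat_lit 235) (nat_lit 183)) (XT.nd (nat_lit 78) (nat_lit 152) (nat_lit 0) (XT.lf (nat_lit 0) (nat_lit 39257374331) (nat_lit 304) (nat_lit 12986576157) (nat_lit 76) (nat_lit 10096739848) (nat_lit 31) (nat_lit 5) (nat_lit 35) (nat_lit 5) (nat_lit 32) (nat_lit 5) (nat_lit 243) (nat_lit 235) (nat_lit 182)) (XT.lf (nat_lit 0) (nat_lit 47054300476) (nat_lit 152) (nat_lit 13083667888) (nat_lit 228) (nat_lit 7934511099) (nat_lit 29) (nat_lit 5) (nat_lit 31) (nat_lit 5) (nat_lit 32) (nat_lit 5) (nat_lit 244) (nat_lit 235) (nat_lit 181))))) (XT.nd (nat_lit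 234) (nat_lit 304) (nat_lit 0) (XT.nd (nat_lit 78) (nat_lit 304) (nat_lit 0) (XT.lf (nat_lit 0) (nat_lit 11268338352) (nat_lit 228) (nat_lit 31123559583) (nat_lit 76) (nat_lit 32073399984) (nat_lit 26) (nat_lit 5) (nat_lit 29) (nat_lit 5) (nat_lit 27) (nat_lit 5) (nat_lit 245) (nat_lit 235) (nat_lit 180)) (XT.nd (nat_lit 78) (nat_lit 152) (nat_lit 0) (XT.lf (nat_lit 0) (nat_lit 34877235980) (nat_lit 228) (nat_lit 43565127426) (nat_lit 76) (nat_lit 3198567628) (nat_lit 24) (nat_lit 5) (nat_lit 27) (nat_lit 5) (nat_lit 25) (nat_lit 5) (nat_lit 246) (nat_lit 235) (nat_lit 179)) (XT.lf (nat_lit 0) (nat_lit 30016319893) (nat_lit 152) (nat_lit 34829334055) (nat_lit 228) (nat_lit 24821812291) (nat_lit 22) (nat_lit 5) (nat_lit 24) (nat_lit 5) (nat_lit 25) (nat_lit 5) (nat_lit 247) (nat_lit 235) (nat_lit 178)))) (XT.nd (nat_lit 78) (nat_lit 152) (nat_lit 0) (XT.lf (nat_lit 0) (nat_lit 2567827116)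 (nat_lit 152) (nat_lit 79775025296) (nat_lit 76) (nat_lit 16380183371) (nat_lit 20) (nat_lit 5) (nat_lit 22) (nat_lit 5) (nat_lit 21) (nat_lit 5) (nat_lit 248) (nat_lit 235) (nat_lit 177)) (XT.nd (nat_lit 78) (nat_lit 0) (nat_lit 0) (XT.lf (nat_lit 0) (nat_lit 2366987094) (nat_lit 152) (nat_lit 33068049316) (nat_lit 228) (nat_lit 73423226761) (nat_lit 18) (nat_lit 5) (nat_lit 20) (nat_lit 5) (nat_lit 21) (nat_lit 5) (nat_lit 249) (nat_lit 235) (nat_lit 176)) (XT.lf (nat_lit 0) (nat_lit 76178214365) (nat_lit 228) (nat_lit 19302064058) (nat_lit 76) (nat_lit 24797832558) (nat_lit 18) (nat_lit 5) (nat_lit 21) (nat_lit 5) (nat_lit 19) (nat_lit 4) (nat_lit 250) (nat_lit 235) (nat_lit 175)))))) (XT.nd (nat_lit 468) (nat_lit 304) (nat_lit 0) (XT.nd (nat_lit 234) (nat_lit 228) (nat_lit 0) (XT.nd (nat_lit 78) (nat_lit 304) (nat_lit 0) (XT.lf (nat_lit 0) (nat_lit 84259451928) (nat_lit 76) (nat_lit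 41710495983) (nat_lit 152) (nat_lit 7206028078) (nat_lit 17) (nat_lit 5) (nat_lit 18) (nat_lit 5) (nat_lit 19) (nat_lit 4) (nat_lit 251) (nat_lit 235) (nat_lit 174)) (XT.nd (nat_lit 78) (nat_lit 76) (nat_lit 0) (XT.lf (nat_lit 0) (nat_lit 36000344731) (nat_lit 228) (nat_lit 89714319573) (nat_lit 76) (nat_lit 22022865138) (nat_lit 14) (nat_lit 5) (nat_lit 17) (nat_lit 5) (nat_lit 15) (nat_lit 4) (nat_lit 252) (nat_lit 235) (nat_lit 173)) (XT.lf (nat_lit 0) (nat_lit 19159448309) (nat_lit 76) (nat_lit 69185834614) (nat_lit 152) (nat_lit 75876320926) (nat_lit 13) (nat_lit 5) (nat_lit 14) (nat_lit 5) (nat_lit 15) (nat_lit 4) (nat_lit 253) (nat_lit 235) (nat_lit 172)))) (XT.nd (nat_lit 78) (nat_lit 228) (nat_lit 0) (XT.lf (nat_lit 0) (nat_lit 149791762309) (nat_lit 76) (nat_lit 1359066039) (nat_lit 152) (nat_lit 31818755609) (nat_lit 13) (nat_lit 5) (nat_lit 14) (nat_lit 5) (nat_lit 15) (nat_lit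 4) (nat_lit 254) (nat_lit 235) (nat_lit 171)) (XT.nd (nat_lit 78) (nat_lit 76) (nat_lit 0) (XT.lf (nat_lit 0) (nat_lit 22225176618) (nat_lit 152) (nat_lit 106183448445) (nat_lit 76) (nat_lit 75739231997) (nat_lit 11) (nat_lit 5) (nat_lit 13) (nat_lit 5) (nat_lit 12) (nat_lit 4) (nat_lit 255) (nat_lit 235) (nat_lit 170)) (XT.lf (nat_lit 0) (nat_lit 22541911083) (nat_lit 76) (nat_lit 61571541638) (nat_lit 152) (nat_lit 144193561860) (nat_lit 10) (nat_lit 5) (nat_lit 11) (nat_lit 5) (nat_lit 12) (nat_lit 4) (nat_lit 256) (nat_lit 235) (nat_lit 169))))) (XT.nd (nat_lit 234) (nat_lit 152) (nat_lit 0) (XT.nd (nat_lit 78) (nat_lit 152) (nat_lit 0) (XT.lf (nat_lit 0) (nat_lit 158822085778) (nat_lit 152) (nat_lit 79288862139) (nat_lit 0) (nat_lit 17696130920) (nat_lit 10) (nat_lit 5) (nat_lit 12) (nat_lit 4) (nat_lit 10) (nat_lit 4) (nat_lit 257) (nat_lit 235) (nat_lit 168)) (XT.nd (nat_lit 78)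 (nat_lit 76) (nat_lit 0) (XT.lf (nat_lit 0) (nat_lit 67846093087) (nat_lit 76) (nat_lit 180223494635) (nat_lit 76) (nat_lit 39095961140) (nat_lit 9) (nat_lit 4) (nat_lit 10) (nat_lit 5) (nat_lit 10) (nat_lit 4) (nat_lit 258) (nat_lit 235) (nat_lit 167)) (XT.lf (nat_lit 0) (nat_lit 28468403345) (nat_lit 152) (nat_lit 81914627263) (nat_lit 76) (nat_lit 212602578943) (nat_lit 8) (nat_lit 5) (nat_lit 10) (nat_lit 5) (nat_lit 9) (nat_lit 4) (nat_lit 259) (nat_lit 235) (nat_lit 166)))) (XT.nd (nat_lit 78) (nat_lit 76) (nat_lit 0) (XT.lf (nat_lit 0) (nat_lit 78966799658) (nat_lit 76) (nat_lit 26849017436) (nat_lit 152) (nat_lit 258124560378) (nat_lit 7) (nat_lit 5) (nat_lit 8) (nat_lit 5) (nat_lit 9) (nat_lit 4) (nat_lit 260) (nat_lit 235) (nat_lit 165)) (XT.nd (nat_lit 78) (nat_lit 76) (nat_lit 0) (XT.lf (nat_lit 0) (nat_lit 198875226223) (nat_lit 152) (nat_lit 143636098229) (nat_lit 0) (nat_lit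 68198246707) (nat_lit 7) (nat_lit 5) (nat_lit 9) (nat_lit 4) (nat_lit 7) (nat_lit 4) (nat_lit 261) (nat_lit 235) (nat_lit 164)) (XT.lf (nat_lit 0) (nat_lit 19113015734) (nat_lit 76) (nat_lit 287981436046) (nat_lit 76) (nat_lit 157303620797) (nat_lit 6) (nat_lit 4) (nat_lit 7) (nat_lit 5) (nat_lit 7) (nat_lit 4) (nat_lit 262) (nat_lit 235) (nat_lit 163))))))) (XT.nd (nat_lit 936) (nat_lit 152) (nat_lit 0) (XT.nd (nat_lit 468) (nat_lit 76) (nat_lit 0) (XT.nd (nat_lit 234) (nat_lit 0) (nat_lit 0) (XT.nd (nat_lit 78) (nat_lit 152) (nat_lit 0) (XT.lf (nat_lit 0) (nat_lit 214970355322) (nat_lit 76) (nat_lit 220756794839) (nat_lit 76) (nat_lit 90078252867) (nat_lit 6) (nat_lit 4) (nat_lit 7) (nat_lit 5) (nat_lit 7) (nat_lit 4) (nat_lit 263) (nat_lit 235) (nat_lit 162)) (XT.nd (nat_lit 78) (nat_lit 152) (nat_lit 0) (XT.lf (nat_lit 0) (nat_lit 440204289573) (nat_lit 76) (nat_lit 143449401586)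 (nat_lit 76) (nat_lit 12770227680) (nat_lit 6) (nat_lit 4) (nat_lit 7) (nat_lit 5) (nat_lit 7) (nat_lit 4) (nat_lit 264) (nat_lit 235) (nat_lit 161)) (XT.lf (nat_lit 0) (nat_lit 20795560350) (nat_lit 76) (nat_lit 52029095305) (nat_lit 152) (nat_lit 604624140222) (nat_lit 4) (nat_lit 5) (nat_lit 5) (nat_lit 5) (nat_lit 6) (nat_lit 4) (nat_lit 265) (nat_lit 235) (nat_lit 160)))) (XT.nd (nat_lit 78) (nat_lit 0) (nat_lit 0) (XT.lf (nat_lit 0) (nat_lit 176466706639) (nat_lit 152) (nat_lit 538190516555) (nat_lit 0) (nat_lit 55466520300) (nat_lit 4) (nat_lit 5) (nat_lit 6) (nat_lit 4) (nat_lit 4) (nat_lit 4) (nat_lit 266) (nat_lit 235) (nat_lit 159)) (XT.nd (nat_lit 78) (nat_lit 0) (nat_lit 0) (XT.lf (nat_lit 0) (nat_lit 297093293728) (nat_lit 152) (nat_lit 403398859088) (nat_lit 0) (nat_lit 176092722661) (nat_lit 4) (nat_lit 5) (nat_lit 6) (nat_lit 4) (nat_lit 4) (nat_lit 4) (nat_lit 267) (nat_lit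 235) (nat_lit 158)) (XT.lf (nat_lit 0) (nat_lit 435813201327) (nat_lit 152) (nat_lit 248389734052) (nat_lit 0) (nat_lit 314812295714) (nat_lit 4) (nat_lit 5) (nat_lit 6) (nat_lit 4) (nat_lit 4) (nat_lit 4) (nat_lit 268) (nat_lit 235) (nat_lit 157))))) (XT.nd (nat_lit 234) (nat_lit 0) (nat_lit 0) (XT.nd (nat_lit 78) (nat_lit 76) (nat_lit 0) (XT.lf (nat_lit 0) (nat_lit 595340514586) (nat_lit 152) (nat_lit 70130354218) (nat_lit 0) (nat_lit 474339318063) (nat_lit 4) (nat_lit 5) (nat_lit 6) (nat_lit 4) (nat_lit 4) (nat_lit 4) (nat_lit 269) (nat_lit 235) (nat_lit 156)) (XT.nd (nat_lit 78) (nat_lit 0) (nat_lit 0) (XT.lf (nat_lit 0) (nat_lit 141968819247) (nat_lit 76) (nat_lit 640241954338) (nat_lit 76) (nat_lit 519240504850) (nat_lit 3) (nat_lit 4) (nat_lit 4) (nat_lit 5) (nat_lit 4) (nat_lit 4) (nat_lit 270) (nat_lit 235) (nat_lit 155)) (XT.lf (nat_lit 0) (nat_lit 390128863264) (nat_lit 76)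 (nat_lit 609024017726) (nat_lit 76) (nat_lit 488022348268) (nat_lit 3) (nat_lit 4) (nat_lit 4) (nat_lit 5) (nat_lit 4) (nat_lit 4) (nat_lit 271) (nat_lit 235) (nat_lit 154)))) (XT.nd (nat_lit 78) (nat_lit 0) (nat_lit 0) (XT.lf (nat_lit 0) (nat_lit 675512142869) (nat_lit 76) (nat_lit 573123761418) (nat_lit 76) (nat_lit 452121900682) (nat_lit 3) (nat_lit 4) (nat_lit 4) (nat_lit 5) (nat_lit 4) (nat_lit 4) (nat_lit 272) (nat_lit 235) (nat_lit 153)) (XT.nd (nat_lit 78) (nat_lit 0) (nat_lit 0) (XT.lf (nat_lit 0) (nat_lit 1003702243967) (nat_lit 76) (nat_lit 531838789096) (nat_lit 76) (nat_lit 410836762031) (nat_lit 3) (nat_lit 4) (nat_lit 4) (nat_lit 5) (nat_lit 4) (nat_lit 4) (nat_lit 273) (nat_lit 235) (nat_lit 152)) (XT.lf (nat_lit 0) (nat_lit 1381120277233) (nat_lit 76) (nat_lit 484361351300) (nat_lit 76) (nat_lit 363359179602) (nat_lit 3) (nat_lit 4) (nat_lit 4) (nat_lit 5) (nat_lit 4)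 (nat_lit 4) (nat_lit 274) (nat_lit 235) (nat_lit 151)))))) (XT.nd (nat_lit 468) (nat_lit 0) (nat_lit 0) (XT.nd (nat_lit 234) (nat_lit 152) (nat_lit 0) (XT.nd (nat_lit 78) (nat_lit 0) (nat_lit 0) (XT.lf (nat_lit 0) (nat_lit 1815150508534) (nat_lit 76) (nat_lit 429762541640) (nat_lit 76) (nat_lit 308760244173) (nat_lit 3) (nat_lit 4) (nat_lit 4) (nat_lit 5) (nat_lit 4) (nat_lit 4) (nat_lit 275) (nat_lit 235) (nat_lit 150)) (XT.nd (nat_lit 78) (nat_lit 0) (nat_lit 0) (XT.lf (nat_lit 0) (nat_lit 2314284833701) (nat_lit 76) (nat_lit 366974122534) (nat_lit 76) (nat_lit 245971715703) (nat_lit 3) (nat_lit 4) (nat_lit 4) (nat_lit 5) (nat_lit 4) (nat_lit 4) (nat_lit 276) (nat_lit 235) (nat_lit 149)) (XT.lf (nat_lit 0) (nat_lit 2888288924312) (nat_lit 76) (nat_lit 294767624914) (nat_lit 76) (nat_lit 173765122984) (nat_lit 3) (nat_lit 4) (nat_lit 4) (nat_lit 5) (nat_lit 4) (nat_lit 4) (nat_lit 277)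 (nat_lit 235) (nat_lit 148)))) (XT.nd (nat_lit 78) (nat_lit 152) (nat_lit 0) (XT.lf (nat_lit 0) (nat_lit 3548393295183) (nat_lit 76) (nat_lit 211730312956) (nat_lit 76) (nat_lit 90727728331) (nat_lit 3) (nat_lit 4) (nat_lit 4) (nat_lit 5) (nat_lit 4) (nat_lit 4) (nat_lit 278) (nat_lit 235) (nat_lit 147)) (XT.nd (nat_lit 78) (nat_lit 76) (nat_lit 0) (XT.lf (nat_lit 0) (nat_lit 4526742684) (nat_lit 152) (nat_lit 111587031748) (nat_lit 76) (nat_lit 4302862519981) (nat_lit 2) (nat_lit 5) (nat_lit 4) (nat_lit 5) (nat_lit 3) (nat_lit 4) (nat_lit 279) (nat_lit 235) (nat_lit 146)) (XT.lf (nat_lit 0) (nat_lit 110955509321) (nat_lit 76) (nat_lit 562869709) (nat_lit 152) (nat_lit 4960387404853) (nat_lit 1) (nat_lit 5) (nat_lit 2) (nat_lit 5) (nat_lit 3) (nat_lit 4) (nat_lit 280) (nat_lit 235) (nat_lit 145))))) (XT.nd (nat_lit 234) (nat_lit 0) (nat_lit 0) (XT.nd (nat_lit 78) (nat_lit 0) (nat_lit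 0) (XT.lf (nat_lit 0) (nat_lit 241074070016) (nat_lit 152) (nat_lit 5452144937102) (nat_lit 0) (nat_lit 129034464984) (nat_lit 1) (nat_lit 5) (nat_lit 3) (nat_lit 4) (nat_lit 1) (nat_lit 4) (nat_lit 281) (nat_lit 235) (nat_lit 144)) (XT.nd (nat_lit 78) (nat_lit 0) (nat_lit 0) (XT.lf (nat_lit 0) (nat_lit 390078573317) (nat_lit 152) (nat_lit 6017034579093) (nat_lit 0) (nat_lit 278038924506) (nat_lit 1) (nat_lit 5) (nat_lit 3) (nat_lit 4) (nat_lit 1) (nat_lit 4) (nat_lit 282) (nat_lit 235) (nat_lit 143)) (XT.lf (nat_lit 0) (nat_lit 561433657403) (nat_lit 152) (nat_lit 6666657852153) (nat_lit 0) (nat_lit 449393970524) (nat_lit 1) (nat_lit 5) (nat_lit 3) (nat_lit 4) (nat_lit 1) (nat_lit 4) (nat_lit 283) (nat_lit 235) (nat_lit 142)))) (XT.nd (nat_lit 30654) (nat_lit 0) (nat_lit 3268) (XT.lf (nat_lit 0) (nat_lit 758491921745) (nat_lit 152) (nat_lit 7413724776841) (nat_lit 0) (nat_lit 646452201763)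 (nat_lit 1) (nat_lit 5) (nat_lit 3) (nat_lit 4) (nat_lit 1) (nat_lit 4) (nat_lit 284) (nat_lit 235) (nat_lit 141)) (XT.nd (nat_lit 78) (nat_lit 0) (nat_lit 76) (XT.lf (nat_lit 0) (nat_lit 11256605378) (nat_lit 532) (nat_lit 3939797513) (nat_lit 532) (nat_lit 3939797513) (nat_lit 44) (nat_lit 3) (nat_lit 51) (nat_lit 3) (nat_lit 51) (nat_lit 5) (nat_lit 236) (nat_lit 236) (nat_lit 188)) (XT.lf (nat_lit 0) (nat_lit 24925701603) (nat_lit 456) (nat_lit 15137599710) (nat_lit 532) (nat_lit 1021369533) (nat_lit 45) (nat_lit 5) (nat_lit 51) (nat_lit 5) (nat_lit 52) (nat_lit 5) (nat_lit 237) (nat_lit 236) (nat_lit 187))))))))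
noncomputable def xc43 : XT := (XT.nd (nat_lit 1872) (nat_lit 456) (nat_lit 0) (XT.nd (nat_lit 936) (nat_lit 988) (nat_lit 0) (XT.nd (nat_lit 468) (nat_lit 1064) (nat_lit 0) (XT.nd (nat_lit 234) (nat_lit 532) (nat_lit 0) (XT.nd (nat_lit 78) (nat_lit 304) (nat_lit 0) (XT.lf (nat_lit 76) (nat_lit 21231301293) (nat_lit 0) (nat_lit 8042215811) (nat_lit 532) (nat_lit 14919430937) (nat_lit 46) (nat_lit 5) (nat_lit 45) (nat_lit 5) (nat_lit 52) (nat_lit 5) (nat_lit 238) (nat_lit 236) (nat_lit 186)) (XT.nd (nat_lit 78) (nat_lit 380) (nat_lit 0) (XT.lf (nat_lit 76) (nat_lit 16344986958) (nat_lit 0) (nat_lit 19454476074) (nat_lit 532) (nat_lit 11845964298) (nat_lit 47) (nat_lit 5) (nat_lit 46) (nat_lit 5) (nat_lit 53) (nat_lit 5) (nat_lit 239) (nat_lit 236) (nat_lit 185)) (XT.lf (nat_lit 0) (nat_lit 11268274734) (nat_lit 456) (nat_lit 33627439590) (nat_lit 532) (nat_lit 6592783426) (nat_lit 41)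 (nat_lit 5) (nat_lit 47) (nat_lit 5) (nat_lit 48) (nat_lit 5) (nat_lit 240) (nat_lit 236) (nat_lit 184)))) (XT.nd (nat_lit 78) (nat_lit 228) (nat_lit 0) (XT.lf (nat_lit 0) (nat_lit 1203484571) (nat_lit 304) (nat_lit 49872523312) (nat_lit 76) (nat_lit 4694906960) (nat_lit 37) (nat_lit 5) (nat_lit 41) (nat_lit 5) (nat_lit 38) (nat_lit 5) (nat_lit 241) (nat_lit 236) (nat_lit 183)) (XT.nd (nat_lit 78) (nat_lit 228) (nat_lit 0) (XT.lf (nat_lit 0) (nat_lit 11913083451) (nat_lit 304) (nat_lit 383235904) (nat_lit 76) (nat_lit 48214957917) (nat_lit 37) (nat_lit 5) (nat_lit 41) (nat_lit 5) (nat_lit 38) (nat_lit 5) (nat_lit 242) (nat_lit 236) (nat_lit 182)) (XT.lf (nat_lit 0) (nat_lit 26466834737) (nat_lit 304) (nat_lit 7164687161) (nat_lit 76) (nat_lit 32152174835) (nat_lit 34) (nat_lit 5) (nat_lit 38) (nat_lit 5) (nat_lit 35) (nat_lit 5) (nat_lit 243) (nat_lit 236) (nat_lit 181))))) (XT.nd (nat_lit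 234) (nat_lit 456) (nat_lit 0) (XT.nd (nat_lit 78) (nat_lit 380) (nat_lit 0) (XT.lf (nat_lit 0) (nat_lit 45217737382) (nat_lit 304) (nat_lit 14843526671) (nat_lit 76) (nat_lit 11624605076) (nat_lit 31) (nat_lit 5) (nat_lit 35) (nat_lit 5) (nat_lit 32) (nat_lit 5) (nat_lit 244) (nat_lit 236) (nat_lit 180)) (XT.nd (nat_lit 78) (nat_lit 228) (nat_lit 0) (XT.lf (nat_lit 0) (nat_lit 54195775721) (nat_lit 152) (nat_lit 15027289296) (nat_lit 228) (nat_lit 9054974074) (nat_lit 29) (nat_lit 5) (nat_lit 31) (nat_lit 5) (nat_lit 32) (nat_lit 5) (nat_lit 245) (nat_lit 236) (nat_lit 179)) (XT.lf (nat_lit 0) (nat_lit 13018575164) (nat_lit 228) (nat_lit 35708083174) (nat_lit 76) (nat_lit 36903506416) (nat_lit 26) (nat_lit 5) (nat_lit 29) (nat_lit 5) (nat_lit 27) (nat_lit 5) (nat_lit 246) (nat_lit 236) (nat_lit 178)))) (XT.nd (nat_lit 78) (nat_lit 304) (nat_lit 0) (XT.lf (nat_lit 0) (nat_lit 40163383056)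 (nat_lit 228) (nat_lit 50019114665) (nat_lit 76) (nat_lit 3700095888) (nat_lit 24) (nat_lit 5) (nat_lit 27) (nat_lit 5) (nat_lit 25) (nat_lit 5) (nat_lit 247) (nat_lit 236) (nat_lit 177)) (XT.nd (nat_lit 78) (nat_lit 152) (nat_lit 0) (XT.lf (nat_lit 0) (nat_lit 34592711969) (nat_lit 152) (nat_lit 40029013367) (nat_lit 228) (nat_lit 28491825457) (nat_lit 22) (nat_lit 5) (nat_lit 24) (nat_lit 5) (nat_lit 25) (nat_lit 5) (nat_lit 248) (nat_lit 236) (nat_lit 176)) (XT.lf (nat_lit 0) (nat_lit 2999274609) (nat_lit 152) (nat_lit 91667929206) (nat_lit 76) (nat_lit 18860506943) (nat_lit 20) (nat_lit 5) (nat_lit 22) (nat_lit 5) (nat_lit 21) (nat_lit 5) (nat_lit 249) (nat_lit 236) (nat_lit 175)))))) (XT.nd (nat_lit 468) (nat_lit 456) (nat_lit 0) (XT.nd (nat_lit 234) (nat_lit 304) (nat_lit 0) (XT.nd (nat_lit 78) (nat_lit 76) (nat_lit 0) (XT.lf (nat_lit 0) (nat_lit 2789176340) (nat_lit 152) (nat_lit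 38002968041) (nat_lit 228) (nat_lit 84391441790) (nat_lit 18) (nat_lit 5) (nat_lit 20) (nat_lit 5) (nat_lit 21) (nat_lit 5) (nat_lit 250) (nat_lit 236) (nat_lit 174)) (XT.nd (nat_lit 78) (nat_lit 76) (nat_lit 0) (XT.lf (nat_lit 0) (nat_lit 87641868869) (nat_lit 228) (nat_lit 22136548044) (nat_lit 76) (nat_lit 28538397555) (nat_lit 18) (nat_lit 5) (nat_lit 21) (nat_lit 5) (nat_lit 19) (nat_lit 4) (nat_lit 251) (nat_lit 236) (nat_lit 173)) (XT.lf (nat_lit 0) (nat_lit 96954046754) (nat_lit 76) (nat_lit 47944838769) (nat_lit 152) (nat_lit 8250759604) (nat_lit 17) (nat_lit 5) (nat_lit 18) (nat_lit 5) (nat_lit 19) (nat_lit 4) (nat_lit 252) (nat_lit 236) (nat_lit 172)))) (XT.nd (nat_lit 78) (nat_lit 76) (nat_lit 0) (XT.lf (nat_lit 0) (nat_lit 41432061526) (nat_lit 228) (nat_lit 103116787263) (nat_lit 76) (nat_lit 25346735295) (nat_lit 14) (nat_lit 5) (nat_lit 17) (nat_lit 5) (nat_lit 15) (nat_lit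 4) (nat_lit 253) (nat_lit 236) (nat_lit 171)) (XT.nd (nat_lit 78) (nat_lit 0) (nat_lit 0) (XT.lf (nat_lit 0) (nat_lit 22083417390) (nat_lit 76) (nat_lit 79542396575) (nat_lit 152) (nat_lit 87226695227) (nat_lit 13) (nat_lit 5) (nat_lit 14) (nat_lit 5) (nat_lit 15) (nat_lit 4) (nat_lit 254) (nat_lit 236) (nat_lit 170)) (XT.lf (nat_lit 0) (nat_lit 172304049990) (nat_lit 76) (nat_lit 1544392700) (nat_lit 152) (nat_lit 36564548222) (nat_lit 13) (nat_lit 5) (nat_lit 14) (nat_lit 5) (nat_lit 15) (nat_lit 4) (nat_lit 255) (nat_lit 236) (nat_lit 169))))) (XT.nd (nat_lit 234) (nat_lit 228) (nat_lit 0) (XT.nd (nat_lit 78) (nat_lit 76) (nat_lit 0) (XT.lf (nat_lit 0) (nat_lit 25582690491) (nat_lit 152) (nat_lit 122068400377) (nat_lit 76) (nat_lit 87117020454) (nat_lit 11) (nat_lit 5) (nat_lit 13) (nat_lit 5) (nat_lit 12) (nat_lit 4) (nat_lit 256) (nat_lit 236) (nat_lit 168)) (XT.nd (nat_lit 78) (nat_lit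 0) (nat_lit 0) (XT.lf (nat_lit 0) (nat_lit 25962160136) (nat_lit 76) (nat_lit 70789888740) (nat_lit 152) (nat_lit 165799269626) (nat_lit 10) (nat_lit 5) (nat_lit 11) (nat_lit 5) (nat_lit 12) (nat_lit 4) (nat_lit 257) (nat_lit 236) (nat_lit 167)) (XT.lf (nat_lit 0) (nat_lit 182664525893) (nat_lit 152) (nat_lit 91147154445) (nat_lit 0) (nat_lit 20364911010) (nat_lit 10) (nat_lit 5) (nat_lit 12) (nat_lit 4) (nat_lit 10) (nat_lit 4) (nat_lit 258) (nat_lit 236) (nat_lit 166)))) (XT.nd (nat_lit 78) (nat_lit 152) (nat_lit 0) (XT.lf (nat_lit 0) (nat_lit 78055078356) (nat_lit 76) (nat_lit 207242351229) (nat_lit 76) (nat_lit 44941542670) (nat_lit 9) (nat_lit 4) (nat_lit 10) (nat_lit 5) (nat_lit 10) (nat_lit 4) (nat_lit 259) (nat_lit 236) (nat_lit 165)) (XT.nd (nat_lit 78) (nat_lit 76) (nat_lit 0) (XT.lf (nat_lit 0) (nat_lit 32754204331) (nat_lit 152) (nat_lit 94173101529) (nat_lit 76) (nat_lit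 244504888488) (nat_lit 8) (nat_lit 5) (nat_lit 10) (nat_lit 5) (nat_lit 9) (nat_lit 4) (nat_lit 260) (nat_lit 236) (nat_lit 164)) (XT.lf (nat_lit 0) (nat_lit 90838108441) (nat_lit 76) (nat_lit 30864226929) (nat_lit 152) (nat_lit 296827955416) (nat_lit 7) (nat_lit 5) (nat_lit 8) (nat_lit 5) (nat_lit 9) (nat_lit 4) (nat_lit 261) (nat_lit 236) (nat_lit 163))))))) (XT.nd (nat_lit 936) (nat_lit 152) (nat_lit 0) (XT.nd (nat_lit 468) (nat_lit 76) (nat_lit 0) (XT.nd (nat_lit 234) (nat_lit 152) (nat_lit 0) (XT.nd (nat_lit 78) (nat_lit 76) (nat_lit 0) (XT.lf (nat_lit 0) (nat_lit 228719064725) (nat_lit 152) (nat_lit 165157912878) (nat_lit 0) (nat_lit 78438014734) (nat_lit 7) (nat_lit 5) (nat_lit 9) (nat_lit 4) (nat_lit 7) (nat_lit 4) (nat_lit 262) (nat_lit 236) (nat_lit 162)) (XT.nd (nat_lit 78) (nat_lit 0) (nat_lit 0) (XT.lf (nat_lit 0) (nat_lit 22001570550) (nat_lit 76) (nat_lit 331168485552)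 (nat_lit 76) (nat_lit 180886803627) (nat_lit 6) (nat_lit 4) (nat_lit 7) (nat_lit 5) (nat_lit 7) (nat_lit 4) (nat_lit 263) (nat_lit 236) (nat_lit 161)) (XT.lf (nat_lit 0) (nat_lit 247234693365) (nat_lit 76) (nat_lit 253861474152) (nat_lit 76) (nat_lit 103579242720) (nat_lit 6) (nat_lit 4) (nat_lit 7) (nat_lit 5) (nat_lit 7) (nat_lit 4) (nat_lit 264) (nat_lit 236) (nat_lit 160)))) (XT.nd (nat_lit 78) (nat_lit 152) (nat_lit 0) (XT.lf (nat_lit 0) (nat_lit 506251267570) (nat_lit 76) (nat_lit 164959124942) (nat_lit 76) (nat_lit 14676415677) (nat_lit 6) (nat_lit 4) (nat_lit 7) (nat_lit 5) (nat_lit 7) (nat_lit 4) (nat_lit 265) (nat_lit 236) (nat_lit 159)) (XT.nd (nat_lit 78) (nat_lit 0) (nat_lit 0) (XT.lf (nat_lit 0) (nat_lit 23930279927) (nat_lit 76) (nat_lit 59826164639) (nat_lit 152) (nat_lit 695309018084) (nat_lit 4) (nat_lit 5) (nat_lit 5) (nat_lit 5) (nat_lit 6) (nat_lit 4) (nat_lit 266)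 (nat_lit 236) (nat_lit 158)) (XT.lf (nat_lit 0) (nat_lit 202943900467) (nat_lit 152) (nat_lit 618905300396) (nat_lit 0) (nat_lit 63792524465) (nat_lit 4) (nat_lit 5) (nat_lit 6) (nat_lit 4) (nat_lit 4) (nat_lit 4) (nat_lit 267) (nat_lit 236) (nat_lit 157))))) (XT.nd (nat_lit 234) (nat_lit 76) (nat_lit 0) (XT.nd (nat_lit 78) (nat_lit 0) (nat_lit 0) (XT.lf (nat_lit 0) (nat_lit 341663538076) (nat_lit 152) (nat_lit 463896693480) (nat_lit 0) (nat_lit 202511871164) (nat_lit 4) (nat_lit 5) (nat_lit 6) (nat_lit 4) (nat_lit 4) (nat_lit 4) (nat_lit 268) (nat_lit 236) (nat_lit 156)) (XT.nd (nat_lit 78) (nat_lit 0) (nat_lit 0) (XT.lf (nat_lit 0) (nat_lit 501190616560) (nat_lit 152) (nat_lit 285637764185) (nat_lit 0) (nat_lit 362038696683) (nat_lit 4) (nat_lit 5) (nat_lit 6) (nat_lit 4) (nat_lit 4) (nat_lit 4) (nat_lit 269) (nat_lit 236) (nat_lit 155)) (XT.lf (nat_lit 0) (nat_lit 684646317890) (nat_lit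 152) (nat_lit 80640837807) (nat_lit 0) (nat_lit 545494178044) (nat_lit 4) (nat_lit 5) (nat_lit 6) (nat_lit 4) (nat_lit 4) (nat_lit 4) (nat_lit 270) (nat_lit 236) (nat_lit 154)))) (XT.nd (nat_lit 78) (nat_lit 0) (nat_lit 0) (XT.lf (nat_lit 0) (nat_lit 163272443986) (nat_lit 76) (nat_lit 736274254963) (nat_lit 76) (nat_lit 597121923838) (nat_lit 3) (nat_lit 4) (nat_lit 4) (nat_lit 5) (nat_lit 4) (nat_lit 4) (nat_lit 271) (nat_lit 236) (nat_lit 153)) (XT.nd (nat_lit 78) (nat_lit 0) (nat_lit 0) (XT.lf (nat_lit 0) (nat_lit 448655411755) (nat_lit 76) (nat_lit 700374148623) (nat_lit 76) (nat_lit 561221651170) (nat_lit 3) (nat_lit 4) (nat_lit 4) (nat_lit 5) (nat_lit 4) (nat_lit 4) (nat_lit 272) (nat_lit 236) (nat_lit 152)) (XT.lf (nat_lit 0) (nat_lit 776845241692) (nat_lit 76) (nat_lit 659089306708) (nat_lit 76) (nat_lit 519936664621) (nat_lit 3) (nat_lit 4) (nat_lit 4) (nat_lit 5) (nat_lit 4)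 (nat_lit 4) (nat_lit 273) (nat_lit 236) (nat_lit 151)))))) (XT.nd (nat_lit 468) (nat_lit 152) (nat_lit 0) (XT.nd (nat_lit 234) (nat_lit 0) (nat_lit 0) (XT.nd (nat_lit 78) (nat_lit 0) (nat_lit 0) (XT.lf (nat_lit 0) (nat_lit 1154263039165) (nat_lit 76) (nat_lit 611611982310) (nat_lit 76) (nat_lit 472459214454) (nat_lit 3) (nat_lit 4) (nat_lit 4) (nat_lit 5) (nat_lit 4) (nat_lit 4) (nat_lit 274) (nat_lit 236) (nat_lit 150)) (XT.nd (nat_lit 78) (nat_lit 0) (nat_lit 0) (XT.lf (nat_lit 0) (nat_lit 1588293065429) (nat_lit 76) (nat_lit 557013271256) (nat_lit 76) (nat_lit 417860394037) (nat_lit 3) (nat_lit 4) (nat_lit 4) (nat_lit 5) (nat_lit 4) (nat_lit 4) (nat_lit 275) (nat_lit 236) (nat_lit 149)) (XT.lf (nat_lit 0) (nat_lit 2087427212302) (nat_lit 76) (nat_lit 494224937895) (nat_lit 76) (nat_lit 355071965577) (nat_lit 3) (nat_lit 4) (nat_lit 4) (nat_lit 5) (nat_lit 4) (nat_lit 4) (nat_lit 276)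 (nat_lit 236) (nat_lit 148)))) (XT.nd (nat_lit 78) (nat_lit 0) (nat_lit 0) (XT.lf (nat_lit 0) (nat_lit 2661431147876) (nat_lit 76) (nat_lit 422018514835) (nat_lit 76) (nat_lit 282865459822) (nat_lit 3) (nat_lit 4) (nat_lit 4) (nat_lit 5) (nat_lit 4) (nat_lit 4) (nat_lit 277) (nat_lit 236) (nat_lit 147)) (XT.nd (nat_lit 78) (nat_lit 0) (nat_lit 0) (XT.lf (nat_lit 0) (nat_lit 3321535383932) (nat_lit 76) (nat_lit 338981267712) (nat_lit 76) (nat_lit 199828140791) (nat_lit 3) (nat_lit 4) (nat_lit 4) (nat_lit 5) (nat_lit 4) (nat_lit 4) (nat_lit 278) (nat_lit 236) (nat_lit 146)) (XT.lf (nat_lit 0) (nat_lit 4080655003351) (nat_lit 76) (nat_lit 243488554735) (nat_lit 76) (nat_lit 104335365285) (nat_lit 3) (nat_lit 4) (nat_lit 4) (nat_lit 5) (nat_lit 4) (nat_lit 4) (nat_lit 279) (nat_lit 236) (nat_lit 145))))) (XT.nd (nat_lit 234) (nat_lit 0) (nat_lit 0) (XT.nd (nat_lit 78) (nat_lit 76) (nat_lit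 0) (XT.lf (nat_lit 0) (nat_lit 5207011604) (nat_lit 152) (nat_lit 128322659685) (nat_lit 76) (nat_lit 4948292965983) (nat_lit 2) (nat_lit 5) (nat_lit 4) (nat_lit 5) (nat_lit 3) (nat_lit 4) (nat_lit 280) (nat_lit 236) (nat_lit 144)) (XT.nd (nat_lit 78) (nat_lit 0) (nat_lit 0) (XT.lf (nat_lit 0) (nat_lit 127601057125) (nat_lit 76) (nat_lit 646225677) (nat_lit 152) (nat_lit 5704444276299) (nat_lit 1) (nat_lit 5) (nat_lit 2) (nat_lit 5) (nat_lit 3) (nat_lit 4) (nat_lit 281) (nat_lit 236) (nat_lit 143)) (XT.lf (nat_lit 0) (nat_lit 277236200309) (nat_lit 152) (nat_lit 6269964688164) (nat_lit 0) (nat_lit 148390522329) (nat_lit 1) (nat_lit 5) (nat_lit 3) (nat_lit 4) (nat_lit 1) (nat_lit 4) (nat_lit 282) (nat_lit 236) (nat_lit 142)))) (XT.nd (nat_lit 30810) (nat_lit 0) (nat_lit 3268) (XT.nd (nat_lit 78) (nat_lit 0) (nat_lit 0) (XT.lf (nat_lit 0) (nat_lit 448591246090) (nat_lit 152) (nat_lit 6919588035954)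 (nat_lit 0) (nat_lit 319745535007) (nat_lit 1) (nat_lit 5) (nat_lit 3) (nat_lit 4) (nat_lit 1) (nat_lit 4) (nat_lit 283) (nat_lit 236) (nat_lit 141)) (XT.lf (nat_lit 0) (nat_lit 645649477122) (nat_lit 152) (nat_lit 7666655025625) (nat_lit 0) (nat_lit 516803737254) (nat_lit 1) (nat_lit 5) (nat_lit 3) (nat_lit 4) (nat_lit 1) (nat_lit 4) (nat_lit 284) (nat_lit 236) (nat_lit 140))) (XT.nd (nat_lit 78) (nat_lit 0) (nat_lit 76) (XT.lf (nat_lit 0) (nat_lit 13015498331) (nat_lit 532) (nat_lit 4492634939) (nat_lit 532) (nat_lit 4492634939) (nat_lit 44) (nat_lit 3) (nat_lit 51) (nat_lit 3) (nat_lit 51) (nat_lit 5) (nat_lit 237) (nat_lit 237) (nat_lit 186)) (XT.lf (nat_lit 0) (nat_lit 28787368149) (nat_lit 456) (nat_lit 17326795008) (nat_lit 532) (nat_lit 1122983266) (nat_lit 45) (nat_lit 5) (nat_lit 51) (nat_lit 5) (nat_lit 52) (nat_lit 5) (nat_lit 238) (nat_lit 237) (nat_lit 185))))))))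
noncomputable def xc44 : XT := (XT.nd (nat_lit 1872) (nat_lit 456) (nat_lit 0) (XT.nd (nat_lit 936) (nat_lit 988) (nat_lit 0) (XT.nd (nat_lit 468) (nat_lit 1064) (nat_lit 0) (XT.nd (nat_lit 234) (nat_lit 532) (nat_lit 0) (XT.nd (nat_lit 78) (nat_lit 304) (nat_lit 0) (XT.lf (nat_lit 76) (nat_lit 24490547261) (nat_lit 0) (nat_lit 9282582796) (nat_lit 532) (nat_lit 17039725407) (nat_lit 46) (nat_lit 5) (nat_lit 45) (nat_lit 5) (nat_lit 52) (nat_lit 5) (nat_lit 239) (nat_lit 237) (nat_lit 184)) (XT.nd (nat_lit 78) (nat_lit 380) (nat_lit 0) (XT.lf (nat_lit 76) (nat_lit 18873994707) (nat_lit 0) (nat_lit 22390956185) (nat_lit 532) (nat_lit 13519342497) (nat_lit 47) (nat_lit 5) (nat_lit 46) (nat_lit 5) (nat_lit 53) (nat_lit 5) (nat_lit 240) (nat_lit 237) (nat_lit 183)) (XT.lf (nat_lit 0) (nat_lit 13036914332) (nat_lit 456) (nat_lit 38677762694) (nat_lit 532) (nat_lit 7490063840) (nat_lit 41)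 (nat_lit 5) (nat_lit 47) (nat_lit 5) (nat_lit 48) (nat_lit 5) (nat_lit 241) (nat_lit 237) (nat_lit 182)))) (XT.nd (nat_lit 78) (nat_lit 228) (nat_lit 0) (XT.lf (nat_lit 0) (nat_lit 1461505272) (nat_lit 304) (nat_lit 57270773701) (nat_lit 76) (nat_lit 5397861417) (nat_lit 37) (nat_lit 5) (nat_lit 41) (nat_lit 5) (nat_lit 38) (nat_lit 5) (nat_lit 242) (nat_lit 237) (nat_lit 181)) (XT.nd (nat_lit 78) (nat_lit 228) (nat_lit 0) (XT.lf (nat_lit 0) (nat_lit 13767435547) (nat_lit 304) (nat_lit 368870761) (nat_lit 76) (nat_lit 55446087181) (nat_lit 37) (nat_lit 5) (nat_lit 41) (nat_lit 5) (nat_lit 38) (nat_lit 5) (nat_lit 243) (nat_lit 237) (nat_lit 180)) (XT.lf (nat_lit 0) (nat_lit 30497175697) (nat_lit 304) (nat_lit 8168781183) (nat_lit 76) (nat_lit 36980308923) (nat_lit 34) (nat_lit 5) (nat_lit 38) (nat_lit 5) (nat_lit 35) (nat_lit 5) (nat_lit 244) (nat_lit 237) (nat_lit 179))))) (XT.nd (nat_lit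 234) (nat_lit 456) (nat_lit 0) (XT.nd (nat_lit 78) (nat_lit 380) (nat_lit 0) (XT.lf (nat_lit 0) (nat_lit 52054656515) (nat_lit 304) (nat_lit 17001219445) (nat_lit 76) (nat_lit 13378393569) (nat_lit 31) (nat_lit 5) (nat_lit 35) (nat_lit 5) (nat_lit 32) (nat_lit 5) (nat_lit 245) (nat_lit 237) (nat_lit 178)) (XT.nd (nat_lit 78) (nat_lit 228) (nat_lit 0) (XT.lf (nat_lit 0) (nat_lit 62388151663) (nat_lit 152) (nat_lit 17267069816) (nat_lit 228) (nat_lit 10360506620) (nat_lit 29) (nat_lit 5) (nat_lit 31) (nat_lit 5) (nat_lit 32) (nat_lit 5) (nat_lit 246) (nat_lit 237) (nat_lit 177)) (XT.lf (nat_lit 0) (nat_lit 15016719517) (nat_lit 228) (nat_lit 41000771758) (nat_lit 76) (nat_lit 42453472026) (nat_lit 26) (nat_lit 5) (nat_lit 29) (nat_lit 5) (nat_lit 27) (nat_lit 5) (nat_lit 247) (nat_lit 237) (nat_lit 176)))) (XT.nd (nat_lit 78) (nat_lit 304) (nat_lit 0) (XT.lf (nat_lit 0) (nat_lit 46229146982)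 (nat_lit 228) (nat_lit 57460899161) (nat_lit 76) (nat_lit 4271551190) (nat_lit 24) (nat_lit 5) (nat_lit 27) (nat_lit 5) (nat_lit 25) (nat_lit 5) (nat_lit 248) (nat_lit 237) (nat_lit 175)) (XT.nd (nat_lit 78) (nat_lit 152) (nat_lit 0) (XT.lf (nat_lit 0) (nat_lit 39837531121) (nat_lit 152) (nat_lit 46014672898) (nat_lit 228) (nat_lit 32725328063) (nat_lit 22) (nat_lit 5) (nat_lit 24) (nat_lit 5) (nat_lit 25) (nat_lit 5) (nat_lit 249) (nat_lit 237) (nat_lit 174)) (XT.lf (nat_lit 0) (nat_lit 3484155159) (nat_lit 152) (nat_lit 105362655537) (nat_lit 76) (nat_lit 21707198157) (nat_lit 20) (nat_lit 5) (nat_lit 22) (nat_lit 5) (nat_lit 21) (nat_lit 5) (nat_lit 250) (nat_lit 237) (nat_lit 173)))))) (XT.nd (nat_lit 468) (nat_lit 456) (nat_lit 0) (XT.nd (nat_lit 234) (nat_lit 304) (nat_lit 0) (XT.nd (nat_lit 78) (nat_lit 76) (nat_lit 0) (XT.lf (nat_lit 0) (nat_lit 3258321170) (nat_lit 152) (nat_lit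 43684291378) (nat_lit 228) (nat_lit 97015928201) (nat_lit 18) (nat_lit 5) (nat_lit 20) (nat_lit 5) (nat_lit 21) (nat_lit 5) (nat_lit 251) (nat_lit 237) (nat_lit 172)) (XT.nd (nat_lit 78) (nat_lit 76) (nat_lit 0) (XT.lf (nat_lit 0) (nat_lit 100816067800) (nat_lit 228) (nat_lit 25411037342) (nat_lit 76) (nat_lit 32834953116) (nat_lit 18) (nat_lit 5) (nat_lit 21) (nat_lit 5) (nat_lit 19) (nat_lit 4) (nat_lit 252) (nat_lit 237) (nat_lit 171)) (XT.lf (nat_lit 0) (nat_lit 111539253605) (nat_lit 76) (nat_lit 55119754292) (nat_lit 152) (nat_lit 9461021798) (nat_lit 17) (nat_lit 5) (nat_lit 18) (nat_lit 5) (nat_lit 19) (nat_lit 4) (nat_lit 253) (nat_lit 237) (nat_lit 170)))) (XT.nd (nat_lit 78) (nat_lit 76) (nat_lit 0) (XT.lf (nat_lit 0) (nat_lit 47670814108) (nat_lit 228) (nat_lit 118542959232) (nat_lit 76) (nat_lit 29164201459) (nat_lit 14) (nat_lit 5) (nat_lit 17) (nat_lit 5) (nat_lit 15) (nat_lit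 4) (nat_lit 254) (nat_lit 237) (nat_lit 169)) (XT.nd (nat_lit 78) (nat_lit 0) (nat_lit 0) (XT.lf (nat_lit 0) (nat_lit 25433776377) (nat_lit 76) (nat_lit 91457640196) (nat_lit 152) (nat_lit 100287203226) (nat_lit 13) (nat_lit 5) (nat_lit 14) (nat_lit 5) (nat_lit 15) (nat_lit 4) (nat_lit 255) (nat_lit 237) (nat_lit 168)) (XT.lf (nat_lit 0) (nat_lit 198182567383) (nat_lit 76) (nat_lit 1762037810) (nat_lit 152) (nat_lit 42028798902) (nat_lit 13) (nat_lit 5) (nat_lit 14) (nat_lit 5) (nat_lit 15) (nat_lit 4) (nat_lit 256) (nat_lit 237) (nat_lit 167))))) (XT.nd (nat_lit 234) (nat_lit 228) (nat_lit 0) (XT.nd (nat_lit 78) (nat_lit 76) (nat_lit 0) (XT.lf (nat_lit 0) (nat_lit 29438042934) (nat_lit 152) (nat_lit 140346474926) (nat_lit 76) (nat_lit 100197355115) (nat_lit 11) (nat_lit 5) (nat_lit 13) (nat_lit 5) (nat_lit 12) (nat_lit 4) (nat_lit 257) (nat_lit 237) (nat_lit 166)) (XT.nd (nat_lit 78)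 (nat_lit 0) (nat_lit 0) (XT.lf (nat_lit 0) (nat_lit 29885945322) (nat_lit 76) (nat_lit 81395227140) (nat_lit 152) (nat_lit 190651521876) (nat_lit 10) (nat_lit 5) (nat_lit 11) (nat_lit 5) (nat_lit 12) (nat_lit 4) (nat_lit 258) (nat_lit 237) (nat_lit 165)) (XT.lf (nat_lit 0) (nat_lit 210078667725) (nat_lit 152) (nat_lit 104792734595) (nat_lit 0) (nat_lit 23430506226) (nat_lit 10) (nat_lit 5) (nat_lit 12) (nat_lit 4) (nat_lit 10) (nat_lit 4) (nat_lit 259) (nat_lit 237) (nat_lit 164)))) (XT.nd (nat_lit 78) (nat_lit 152) (nat_lit 0) (XT.lf (nat_lit 0) (nat_lit 89787590625) (nat_lit 76) (nat_lit 238317613100) (nat_lit 76) (nat_lit 51668549011) (nat_lit 9) (nat_lit 4) (nat_lit 10) (nat_lit 5) (nat_lit 10) (nat_lit 4) (nat_lit 260) (nat_lit 237) (nat_lit 163)) (XT.nd (nat_lit 78) (nat_lit 76) (nat_lit 0) (XT.lf (nat_lit 0) (nat_lit 37679085820) (nat_lit 152) (nat_lit 108277350445) (nat_lit 76)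 (nat_lit 281189637038) (nat_lit 8) (nat_lit 5) (nat_lit 10) (nat_lit 5) (nat_lit 9) (nat_lit 4) (nat_lit 261) (nat_lit 237) (nat_lit 162)) (XT.lf (nat_lit 0) (nat_lit 104483702842) (nat_lit 76) (nat_lit 35484679023) (nat_lit 152) (nat_lit 341340588034) (nat_lit 7) (nat_lit 5) (nat_lit 8) (nat_lit 5) (nat_lit 9) (nat_lit 4) (nat_lit 262) (nat_lit 237) (nat_lit 161))))))) (XT.nd (nat_lit 936) (nat_lit 152) (nat_lit 0) (XT.nd (nat_lit 468) (nat_lit 76) (nat_lit 0) (XT.nd (nat_lit 234) (nat_lit 152) (nat_lit 0) (XT.nd (nat_lit 78) (nat_lit 76) (nat_lit 0) (XT.lf (nat_lit 0) (nat_lit 263036417492) (nat_lit 152) (nat_lit 189913754754) (nat_lit 0) (nat_lit 90211301837) (nat_lit 7) (nat_lit 5) (nat_lit 9) (nat_lit 4) (nat_lit 7) (nat_lit 4) (nat_lit 263) (nat_lit 237) (nat_lit 160)) (XT.nd (nat_lit 78) (nat_lit 0) (nat_lit 0) (XT.lf (nat_lit 0) (nat_lit 25318140693) (nat_lit 76) (nat_lit 380836071504)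 (nat_lit 76) (nat_lit 208010478017) (nat_lit 6) (nat_lit 4) (nat_lit 7) (nat_lit 5) (nat_lit 7) (nat_lit 4) (nat_lit 264) (nat_lit 237) (nat_lit 159)) (XT.lf (nat_lit 0) (nat_lit 284334101336) (nat_lit 76) (nat_lit 291934011031) (nat_lit 76) (nat_lit 119108002037) (nat_lit 6) (nat_lit 4) (nat_lit 7) (nat_lit 5) (nat_lit 7) (nat_lit 4) (nat_lit 265) (nat_lit 237) (nat_lit 158)))) (XT.nd (nat_lit 78) (nat_lit 152) (nat_lit 0) (XT.lf (nat_lit 0) (nat_lit 582201308979) (nat_lit 76) (nat_lit 189697181298) (nat_lit 76) (nat_lit 16870810993) (nat_lit 6) (nat_lit 4) (nat_lit 7) (nat_lit 5) (nat_lit 7) (nat_lit 4) (nat_lit 266) (nat_lit 237) (nat_lit 157)) (XT.nd (nat_lit 78) (nat_lit 0) (nat_lit 0) (XT.lf (nat_lit 0) (nat_lit 27531455583) (nat_lit 76) (nat_lit 68794573296) (nat_lit 152) (nat_lit 799598759703) (nat_lit 4) (nat_lit 5) (nat_lit 5) (nat_lit 5) (nat_lit 6) (nat_lit 4) (nat_lit 267)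 (nat_lit 237) (nat_lit 156)) (XT.lf (nat_lit 0) (nat_lit 233390920571) (nat_lit 152) (nat_lit 711730665480) (nat_lit 0) (nat_lit 73365959748) (nat_lit 4) (nat_lit 5) (nat_lit 6) (nat_lit 4) (nat_lit 4) (nat_lit 4) (nat_lit 268) (nat_lit 237) (nat_lit 155))))) (XT.nd (nat_lit 234) (nat_lit 76) (nat_lit 0) (XT.nd (nat_lit 78) (nat_lit 0) (nat_lit 0) (XT.lf (nat_lit 0) (nat_lit 392917794904) (nat_lit 152) (nat_lit 533472127958) (nat_lit 0) (nat_lit 232892614111) (nat_lit 4) (nat_lit 5) (nat_lit 6) (nat_lit 4) (nat_lit 4) (nat_lit 4) (nat_lit 269) (nat_lit 237) (nat_lit 154)) (XT.nd (nat_lit 78) (nat_lit 0) (nat_lit 0) (XT.lf (nat_lit 0) (nat_lit 576373318711) (nat_lit 152) (nat_lit 328475542252) (nat_lit 0) (nat_lit 416347946639) (nat_lit 4) (nat_lit 5) (nat_lit 6) (nat_lit 4) (nat_lit 4) (nat_lit 4) (nat_lit 270) (nat_lit 237) (nat_lit 153)) (XT.lf (nat_lit 0) (nat_lit 787346839197) (nat_lit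 152) (nat_lit 92730105600) (nat_lit 0) (nat_lit 627321300797) (nat_lit 4) (nat_lit 5) (nat_lit 6) (nat_lit 4) (nat_lit 4) (nat_lit 4) (nat_lit 271) (nat_lit 237) (nat_lit 152)))) (XT.nd (nat_lit 78) (nat_lit 0) (nat_lit 0) (XT.lf (nat_lit 0) (nat_lit 187769587977) (nat_lit 76) (nat_lit 846712374284) (nat_lit 76) (nat_lit 686686691251) (nat_lit 3) (nat_lit 4) (nat_lit 4) (nat_lit 5) (nat_lit 4) (nat_lit 4) (nat_lit 272) (nat_lit 237) (nat_lit 151)) (XT.nd (nat_lit 78) (nat_lit 0) (nat_lit 0) (XT.lf (nat_lit 0) (nat_lit 515959182121) (nat_lit 76) (nat_lit 805427645766) (nat_lit 76) (nat_lit 645401836964) (nat_lit 3) (nat_lit 4) (nat_lit 4) (nat_lit 5) (nat_lit 4) (nat_lit 4) (nat_lit 273) (nat_lit 237) (nat_lit 150)) (XT.lf (nat_lit 0) (nat_lit 893376774557) (nat_lit 76) (nat_lit 757950419974) (nat_lit 76) (nat_lit 597924501809) (nat_lit 3) (nat_lit 4) (nat_lit 4) (nat_lit 5) (nat_lit 4)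 (nat_lit 4) (nat_lit 274) (nat_lit 237) (nat_lit 149)))))) (XT.nd (nat_lit 468) (nat_lit 152) (nat_lit 0) (XT.nd (nat_lit 234) (nat_lit 0) (nat_lit 0) (XT.nd (nat_lit 78) (nat_lit 0) (nat_lit 0) (XT.lf (nat_lit 0) (nat_lit 1327406622528) (nat_lit 76) (nat_lit 703351794665) (nat_lit 76) (nat_lit 543325781400) (nat_lit 3) (nat_lit 4) (nat_lit 4) (nat_lit 5) (nat_lit 4) (nat_lit 4) (nat_lit 275) (nat_lit 237) (nat_lit 148)) (XT.nd (nat_lit 78) (nat_lit 0) (nat_lit 0) (XT.lf (nat_lit 0) (nat_lit 1826540614363) (nat_lit 76) (nat_lit 640563535865) (nat_lit 76) (nat_lit 480537439905) (nat_lit 3) (nat_lit 4) (nat_lit 4) (nat_lit 5) (nat_lit 4) (nat_lit 4) (nat_lit 276) (nat_lit 237) (nat_lit 147)) (XT.lf (nat_lit 0) (nat_lit 2400544415122) (nat_lit 76) (nat_lit 568357177641) (nat_lit 76) (nat_lit 408331009773) (nat_lit 3) (nat_lit 4) (nat_lit 4) (nat_lit 5) (nat_lit 4) (nat_lit 4) (nat_lit 277)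 (nat_lit 237) (nat_lit 146)))) (XT.nd (nat_lit 78) (nat_lit 0) (nat_lit 0) (XT.lf (nat_lit 0) (nat_lit 3060648533947) (nat_lit 76) (nat_lit 485319986896) (nat_lit 76) (nat_lit 325293756499) (nat_lit 3) (nat_lit 4) (nat_lit 4) (nat_lit 5) (nat_lit 4) (nat_lit 4) (nat_lit 278) (nat_lit 237) (nat_lit 145)) (XT.nd (nat_lit 78) (nat_lit 0) (nat_lit 0) (XT.lf (nat_lit 0) (nat_lit 3819768051427) (nat_lit 76) (nat_lit 389827322944) (nat_lit 76) (nat_lit 229801038174) (nat_lit 3) (nat_lit 4) (nat_lit 4) (nat_lit 5) (nat_lit 4) (nat_lit 4) (nat_lit 279) (nat_lit 237) (nat_lit 144)) (XT.lf (nat_lit 0) (nat_lit 4692755305945) (nat_lit 76) (nat_lit 280010851054) (nat_lit 76) (nat_lit 119984519003) (nat_lit 3) (nat_lit 4) (nat_lit 4) (nat_lit 5) (nat_lit 4) (nat_lit 4) (nat_lit 280) (nat_lit 237) (nat_lit 143))))) (XT.nd (nat_lit 234) (nat_lit 0) (nat_lit 0) (XT.nd (nat_lit 78) (nat_lit 76) (nat_lit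 0) (XT.lf (nat_lit 0) (nat_lit 5989014208) (nat_lit 152) (nat_lit 147569223610) (nat_lit 76) (nat_lit 5690537718446) (nat_lit 2) (nat_lit 5) (nat_lit 4) (nat_lit 5) (nat_lit 3) (nat_lit 4) (nat_lit 281) (nat_lit 237) (nat_lit 142)) (XT.nd (nat_lit 78) (nat_lit 0) (nat_lit 0) (XT.lf (nat_lit 0) (nat_lit 146742895396) (nat_lit 76) (nat_lit 742347061) (nat_lit 152) (nat_lit 6560109980669) (nat_lit 1) (nat_lit 5) (nat_lit 2) (nat_lit 5) (nat_lit 3) (nat_lit 4) (nat_lit 282) (nat_lit 237) (nat_lit 141)) (XT.lf (nat_lit 0) (nat_lit 318822401464) (nat_lit 152) (nat_lit 7210457887039) (nat_lit 0) (nat_lit 170649771831) (nat_lit 1) (nat_lit 5) (nat_lit 3) (nat_lit 4) (nat_lit 1) (nat_lit 4) (nat_lit 283) (nat_lit 237) (nat_lit 140)))) (XT.nd (nat_lit 30810) (nat_lit 0) (nat_lit 3268) (XT.lf (nat_lit 0) (nat_lit 515880603532) (nat_lit 152) (nat_lit 7957524933217) (nat_lit 0) (nat_lit 367707948868)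 (nat_lit 1) (nat_lit 5) (nat_lit 3) (nat_lit 4) (nat_lit 1) (nat_lit 4) (nat_lit 284) (nat_lit 237) (nat_lit 139)) (XT.nd (nat_lit 78) (nat_lit 0) (nat_lit 76) (XT.lf (nat_lit 0) (nat_lit 15021057218) (nat_lit 532) (nat_lit 5137696758) (nat_lit 532) (nat_lit 5137696758) (nat_lit 44) (nat_lit 3) (nat_lit 51) (nat_lit 3) (nat_lit 51) (nat_lit 5) (nat_lit 238) (nat_lit 238) (nat_lit 184)) (XT.lf (nat_lit 0) (nat_lit 33198336362) (nat_lit 456) (nat_lit 19864230396) (nat_lit 532) (nat_lit 1252420022) (nat_lit 45) (nat_lit 5) (nat_lit 51) (nat_lit 5) (nat_lit 52) (nat_lit 5) (nat_lit 239) (nat_lit 238) (nat_lit 183))))))))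
noncomputable def xc45 : XT := (XT.nd (nat_lit 1872) (nat_lit 456) (nat_lit 0) (XT.nd (nat_lit 936) (nat_lit 988) (nat_lit 0) (XT.nd (nat_lit 468) (nat_lit 1064) (nat_lit 0) (XT.nd (nat_lit 234) (nat_lit 532) (nat_lit 0) (XT.nd (nat_lit 78) (nat_lit 304) (nat_lit 0) (XT.lf (nat_lit 76) (nat_lit 28220500447) (nat_lit 0) (nat_lit 10700705272) (nat_lit 532) (nat_lit 19506746470) (nat_lit 46) (nat_lit 5) (nat_lit 45) (nat_lit 5) (nat_lit 52) (nat_lit 5) (nat_lit 240) (nat_lit 238) (nat_lit 182)) (XT.nd (nat_lit 78) (nat_lit 380) (nat_lit 0) (XT.lf (nat_lit 76) (nat_lit 21763513350) (nat_lit 0) (nat_lit 25763443620) (nat_lit 532) (nat_lit 15468970567) (nat_lit 47) (nat_lit 5) (nat_lit 46) (nat_lit 5) (nat_lit 53) (nat_lit 5) (nat_lit 241) (nat_lit 238) (nat_lit 181)) (XT.lf (nat_lit 0) (nat_lit 15051731926) (nat_lit 456) (nat_lit 44484120607) (nat_lit 532) (nat_lit 8544282603) (nat_lit 41)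 (nat_lit 5) (nat_lit 47) (nat_lit 5) (nat_lit 48) (nat_lit 5) (nat_lit 242) (nat_lit 238) (nat_lit 180)))) (XT.nd (nat_lit 78) (nat_lit 228) (nat_lit 0) (XT.lf (nat_lit 0) (nat_lit 1739330697) (nat_lit 304) (nat_lit 65798911035) (nat_lit 76) (nat_lit 6206571566) (nat_lit 37) (nat_lit 5) (nat_lit 41) (nat_lit 5) (nat_lit 38) (nat_lit 5) (nat_lit 243) (nat_lit 238) (nat_lit 179)) (XT.nd (nat_lit 78) (nat_lit 228) (nat_lit 0) (XT.lf (nat_lit 0) (nat_lit 15883507082) (nat_lit 304) (nat_lit 369872053) (nat_lit 76) (nat_lit 63762157595) (nat_lit 37) (nat_lit 5) (nat_lit 41) (nat_lit 5) (nat_lit 38) (nat_lit 5) (nat_lit 244) (nat_lit 238) (nat_lit 178)) (XT.lf (nat_lit 0) (nat_lit 35117359424) (nat_lit 304) (nat_lit 9340707773) (nat_lit 76) (nat_lit 42531368769) (nat_lit 34) (nat_lit 5) (nat_lit 38) (nat_lit 5) (nat_lit 35) (nat_lit 5) (nat_lit 245) (nat_lit 238) (nat_lit 177))))) (XT.nd (nat_lit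 234) (nat_lit 456) (nat_lit 0) (XT.nd (nat_lit 78) (nat_lit 380) (nat_lit 0) (XT.lf (nat_lit 0) (nat_lit 59903882234) (nat_lit 304) (nat_lit 19499352284) (nat_lit 76) (nat_lit 15392787940) (nat_lit 31) (nat_lit 5) (nat_lit 35) (nat_lit 5) (nat_lit 32) (nat_lit 5) (nat_lit 246) (nat_lit 238) (nat_lit 176)) (XT.nd (nat_lit 78) (nat_lit 228) (nat_lit 0) (XT.lf (nat_lit 0) (nat_lit 71794018710) (nat_lit 152) (nat_lit 19846307700) (nat_lit 228) (nat_lit 11874723585) (nat_lit 29) (nat_lit 5) (nat_lit 31) (nat_lit 5) (nat_lit 32) (nat_lit 5) (nat_lit 247) (nat_lit 238) (nat_lit 175)) (XT.lf (nat_lit 0) (nat_lit 17303524669) (nat_lit 228) (nat_lit 47102854334) (nat_lit 76) (nat_lit 48832411278) (nat_lit 26) (nat_lit 5) (nat_lit 29) (nat_lit 5) (nat_lit 27) (nat_lit 5) (nat_lit 248) (nat_lit 238) (nat_lit 174)))) (XT.nd (nat_lit 78) (nat_lit 304) (nat_lit 0) (XT.lf (nat_lit 0) (nat_lit 53194714847)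 (nat_lit 228) (nat_lit 66033846736) (nat_lit 76) (nat_lit 4924715566) (nat_lit 24) (nat_lit 5) (nat_lit 27) (nat_lit 5) (nat_lit 25) (nat_lit 5) (nat_lit 249) (nat_lit 238) (nat_lit 173)) (XT.nd (nat_lit 78) (nat_lit 152) (nat_lit 0) (XT.lf (nat_lit 0) (nat_lit 45855438564) (nat_lit 152) (nat_lit 52902739637) (nat_lit 228) (nat_lit 37603676451) (nat_lit 22) (nat_lit 5) (nat_lit 24) (nat_lit 5) (nat_lit 25) (nat_lit 5) (nat_lit 250) (nat_lit 238) (nat_lit 172)) (XT.lf (nat_lit 0) (nat_lit 4033235414) (nat_lit 152) (nat_lit 121125115833) (nat_lit 76) (nat_lit 24976597482) (nat_lit 20) (nat_lit 5) (nat_lit 22) (nat_lit 5) (nat_lit 21) (nat_lit 5) (nat_lit 251) (nat_lit 238) (nat_lit 171)))))) (XT.nd (nat_lit 468) (nat_lit 456) (nat_lit 0) (XT.nd (nat_lit 234) (nat_lit 304) (nat_lit 0) (XT.nd (nat_lit 78) (nat_lit 76) (nat_lit 0) (XT.lf (nat_lit 0) (nat_lit 3785457534) (nat_lit 152) (nat_lit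 50222476203) (nat_lit 228) (nat_lit 111542434742) (nat_lit 18) (nat_lit 5) (nat_lit 20) (nat_lit 5) (nat_lit 21) (nat_lit 5) (nat_lit 252) (nat_lit 238) (nat_lit 170)) (XT.nd (nat_lit 78) (nat_lit 76) (nat_lit 0) (XT.lf (nat_lit 0) (nat_lit 115959588444) (nat_lit 228) (nat_lit 29187915696) (nat_lit 76) (nat_lit 37772140074) (nat_lit 18) (nat_lit 5) (nat_lit 21) (nat_lit 5) (nat_lit 19) (nat_lit 4) (nat_lit 253) (nat_lit 238) (nat_lit 169)) (XT.lf (nat_lit 0) (nat_lit 128301975172) (nat_lit 76) (nat_lit 63375006440) (nat_lit 152) (nat_lit 10859493217) (nat_lit 17) (nat_lit 5) (nat_lit 18) (nat_lit 5) (nat_lit 19) (nat_lit 4) (nat_lit 254) (nat_lit 238) (nat_lit 168)))) (XT.nd (nat_lit 78) (nat_lit 76) (nat_lit 0) (XT.lf (nat_lit 0) (nat_lit 54839540838) (nat_lit 228) (nat_lit 136293139509) (nat_lit 76) (nat_lit 33550518535) (nat_lit 14) (nat_lit 5) (nat_lit 17) (nat_lit 5) (nat_lit 15)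 (nat_lit 4) (nat_lit 255) (nat_lit 238) (nat_lit 167)) (XT.nd (nat_lit 78) (nat_lit 0) (nat_lit 0) (XT.lf (nat_lit 0) (nat_lit 29277460133) (nat_lit 76) (nat_lit 105164100317) (nat_lit 152) (nat_lit 115312517142) (nat_lit 13) (nat_lit 5) (nat_lit 14) (nat_lit 5) (nat_lit 15) (nat_lit 4) (nat_lit 256) (nat_lit 238) (nat_lit 166)) (XT.lf (nat_lit 0) (nat_lit 227934837098) (nat_lit 76) (nat_lit 2015747039) (nat_lit 152) (nat_lit 48317669549) (nat_lit 13) (nat_lit 5) (nat_lit 14) (nat_lit 5) (nat_lit 15) (nat_lit 4) (nat_lit 257) (nat_lit 238) (nat_lit 165))))) (XT.nd (nat_lit 234) (nat_lit 228) (nat_lit 0) (XT.nd (nat_lit 78) (nat_lit 76) (nat_lit 0) (XT.lf (nat_lit 0) (nat_lit 33867321299) (nat_lit 152) (nat_lit 161374109296) (nat_lit 76) (nat_lit 115236623103) (nat_lit 11) (nat_lit 5) (nat_lit 13) (nat_lit 5) (nat_lit 12) (nat_lit 4) (nat_lit 258) (nat_lit 238) (nat_lit 164)) (XT.nd (nat_lit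 78) (nat_lit 0) (nat_lit 0) (XT.lf (nat_lit 0) (nat_lit 34391113994) (nat_lit 76) (nat_lit 93594571770) (nat_lit 152) (nat_lit 219235913148) (nat_lit 10) (nat_lit 5) (nat_lit 11) (nat_lit 5) (nat_lit 12) (nat_lit 4) (nat_lit 259) (nat_lit 238) (nat_lit 163)) (XT.lf (nat_lit 0) (nat_lit 241601403950) (nat_lit 152) (nat_lit 120491612257) (nat_lit 0) (nat_lit 26953292794) (nat_lit 10) (nat_lit 5) (nat_lit 12) (nat_lit 4) (nat_lit 10) (nat_lit 4) (nat_lit 260) (nat_lit 238) (nat_lit 162)))) (XT.nd (nat_lit 78) (nat_lit 152) (nat_lit 0) (XT.lf (nat_lit 0) (nat_lit 103274066092) (nat_lit 76) (nat_lit 274056868817) (nat_lit 76) (nat_lit 59408075173) (nat_lit 9) (nat_lit 4) (nat_lit 10) (nat_lit 5) (nat_lit 10) (nat_lit 4) (nat_lit 261) (nat_lit 238) (nat_lit 161)) (XT.nd (nat_lit 78) (nat_lit 76) (nat_lit 0) (XT.lf (nat_lit 0) (nat_lit 43339834015) (nat_lit 152) (nat_lit 124502532359) (nat_lit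 76) (nat_lit 323374899438) (nat_lit 8) (nat_lit 5) (nat_lit 10) (nat_lit 5) (nat_lit 9) (nat_lit 4) (nat_lit 262) (nat_lit 238) (nat_lit 160)) (XT.lf (nat_lit 0) (nat_lit 120171288995) (nat_lit 76) (nat_lit 40800438007) (nat_lit 152) (nat_lit 392532934693) (nat_lit 7) (nat_lit 5) (nat_lit 8) (nat_lit 5) (nat_lit 9) (nat_lit 4) (nat_lit 263) (nat_lit 238) (nat_lit 159))))))) (XT.nd (nat_lit 936) (nat_lit 152) (nat_lit 0) (XT.nd (nat_lit 468) (nat_lit 76) (nat_lit 0) (XT.nd (nat_lit 234) (nat_lit 152) (nat_lit 0) (XT.nd (nat_lit 78) (nat_lit 76) (nat_lit 0) (XT.lf (nat_lit 0) (nat_lit 302499058231) (nat_lit 152) (nat_lit 218387324542) (nat_lit 0) (nat_lit 103748732381) (nat_lit 7) (nat_lit 5) (nat_lit 9) (nat_lit 4) (nat_lit 7) (nat_lit 4) (nat_lit 264) (nat_lit 238) (nat_lit 158)) (XT.nd (nat_lit 78) (nat_lit 0) (nat_lit 0) (XT.lf (nat_lit 0) (nat_lit 29128213072) (nat_lit 76) (nat_lit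 437955669844) (nat_lit 76) (nat_lit 239204982684) (nat_lit 6) (nat_lit 4) (nat_lit 7) (nat_lit 5) (nat_lit 7) (nat_lit 4) (nat_lit 265) (nat_lit 238) (nat_lit 157)) (XT.lf (nat_lit 0) (nat_lit 326994956775) (nat_lit 76) (nat_lit 335719058437) (nat_lit 76) (nat_lit 136968057094) (nat_lit 6) (nat_lit 4) (nat_lit 7) (nat_lit 5) (nat_lit 7) (nat_lit 4) (nat_lit 266) (nat_lit 238) (nat_lit 156)))) (XT.nd (nat_lit 78) (nat_lit 152) (nat_lit 0) (XT.lf (nat_lit 0) (nat_lit 669540844664) (nat_lit 76) (nat_lit 218147363493) (nat_lit 76) (nat_lit 19396088948) (nat_lit 6) (nat_lit 4) (nat_lit 7) (nat_lit 5) (nat_lit 7) (nat_lit 4) (nat_lit 267) (nat_lit 238) (nat_lit 155)) (XT.nd (nat_lit 78) (nat_lit 0) (nat_lit 0) (XT.lf (nat_lit 0) (nat_lit 31669970645) (nat_lit 76) (nat_lit 79109588372) (nat_lit 152) (nat_lit 919533574722) (nat_lit 4) (nat_lit 5) (nat_lit 5) (nat_lit 5) (nat_lit 6) (nat_lit 4)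 (nat_lit 268) (nat_lit 238) (nat_lit 154)) (XT.lf (nat_lit 0) (nat_lit 268403668324) (nat_lit 152) (nat_lit 818482378742) (nat_lit 0) (nat_lit 84374299164) (nat_lit 4) (nat_lit 5) (nat_lit 6) (nat_lit 4) (nat_lit 4) (nat_lit 4) (nat_lit 269) (nat_lit 238) (nat_lit 153))))) (XT.nd (nat_lit 234) (nat_lit 76) (nat_lit 0) (XT.nd (nat_lit 78) (nat_lit 0) (nat_lit 0) (XT.lf (nat_lit 0) (nat_lit 451859037762) (nat_lit 152) (nat_lit 613486089273) (nat_lit 0) (nat_lit 267829502274) (nat_lit 4) (nat_lit 5) (nat_lit 6) (nat_lit 4) (nat_lit 4) (nat_lit 4) (nat_lit 270) (nat_lit 238) (nat_lit 152)) (XT.nd (nat_lit 78) (nat_lit 0) (nat_lit 0) (XT.lf (nat_lit 0) (nat_lit 662832424016) (nat_lit 152) (nat_lit 377740910218) (nat_lit 0) (nat_lit 478802743893) (nat_lit 4) (nat_lit 5) (nat_lit 6) (nat_lit 4) (nat_lit 4) (nat_lit 4) (nat_lit 271) (nat_lit 238) (nat_lit 151)) (XT.lf (nat_lit 0) (nat_lit 905451567249)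 (nat_lit 152) (nat_lit 106634435899) (nat_lit 0) (nat_lit 721421761359) (nat_lit 4) (nat_lit 5) (nat_lit 6) (nat_lit 4) (nat_lit 4) (nat_lit 4) (nat_lit 272) (nat_lit 238) (nat_lit 150)))) (XT.nd (nat_lit 78) (nat_lit 0) (nat_lit 0) (XT.lf (nat_lit 0) (nat_lit 215939772785) (nat_lit 76) (nat_lit 973716947687) (nat_lit 76) (nat_lit 789687032433) (nat_lit 3) (nat_lit 4) (nat_lit 4) (nat_lit 5) (nat_lit 4) (nat_lit 4) (nat_lit 273) (nat_lit 238) (nat_lit 149)) (XT.nd (nat_lit 78) (nat_lit 0) (nat_lit 0) (XT.lf (nat_lit 0) (nat_lit 593357186927) (nat_lit 76) (nat_lit 926239807640) (nat_lit 76) (nat_lit 742209797287) (nat_lit 3) (nat_lit 4) (nat_lit 4) (nat_lit 5) (nat_lit 4) (nat_lit 4) (nat_lit 274) (nat_lit 238) (nat_lit 148)) (XT.lf (nat_lit 0) (nat_lit 1027386879860) (nat_lit 76) (nat_lit 871641256892) (nat_lit 76) (nat_lit 687611163843) (nat_lit 3) (nat_lit 4) (nat_lit 4) (nat_lit 5)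 (nat_lit 4) (nat_lit 4) (nat_lit 275) (nat_lit 238) (nat_lit 147)))))) (XT.nd (nat_lit 468) (nat_lit 152) (nat_lit 0) (XT.nd (nat_lit 234) (nat_lit 0) (nat_lit 0) (XT.nd (nat_lit 78) (nat_lit 0) (nat_lit 0) (XT.lf (nat_lit 0) (nat_lit 1526520736881) (nat_lit 76) (nat_lit 808853062927) (nat_lit 76) (nat_lit 624822897970) (nat_lit 3) (nat_lit 4) (nat_lit 4) (nat_lit 5) (nat_lit 4) (nat_lit 4) (nat_lit 276) (nat_lit 238) (nat_lit 146)) (XT.nd (nat_lit 78) (nat_lit 0) (nat_lit 0) (XT.lf (nat_lit 0) (nat_lit 2100524420408) (nat_lit 76) (nat_lit 736646761081) (nat_lit 76) (nat_lit 552616533595) (nat_lit 3) (nat_lit 4) (nat_lit 4) (nat_lit 5) (nat_lit 4) (nat_lit 4) (nat_lit 277) (nat_lit 238) (nat_lit 145)) (XT.lf (nat_lit 0) (nat_lit 2760628437294) (nat_lit 76) (nat_lit 653609619362) (nat_lit 76) (nat_lit 469579337503) (nat_lit 3) (nat_lit 4) (nat_lit 4) (nat_lit 5) (nat_lit 4) (nat_lit 4)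 (nat_lit 278) (nat_lit 238) (nat_lit 144)))) (XT.nd (nat_lit 78) (nat_lit 0) (nat_lit 0) (XT.lf (nat_lit 0) (nat_lit 3519747866130) (nat_lit 76) (nat_lit 558116998040) (nat_lit 76) (nat_lit 374086668900) (nat_lit 3) (nat_lit 4) (nat_lit 4) (nat_lit 5) (nat_lit 4) (nat_lit 4) (nat_lit 279) (nat_lit 238) (nat_lit 143)) (XT.nd (nat_lit 78) (nat_lit 0) (nat_lit 0) (XT.lf (nat_lit 0) (nat_lit 4392735043568) (nat_lit 76) (nat_lit 448300563220) (nat_lit 76) (nat_lit 264270192966) (nat_lit 3) (nat_lit 4) (nat_lit 4) (nat_lit 5) (nat_lit 4) (nat_lit 4) (nat_lit 280) (nat_lit 238) (nat_lit 142)) (XT.lf (nat_lit 0) (nat_lit 5396670153512) (nat_lit 76) (nat_lit 322011732481) (nat_lit 76) (nat_lit 137981326476) (nat_lit 3) (nat_lit 4) (nat_lit 4) (nat_lit 5) (nat_lit 4) (nat_lit 4) (nat_lit 281) (nat_lit 238) (nat_lit 141))))) (XT.nd (nat_lit 31044) (nat_lit 0) (nat_lit 3268) (XT.nd (nat_lit 78) (nat_lit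 76) (nat_lit 0) (XT.lf (nat_lit 0) (nat_lit 6888085329) (nat_lit 152) (nat_lit 169703219607) (nat_lit 76) (nat_lit 6544118986848) (nat_lit 2) (nat_lit 5) (nat_lit 4) (nat_lit 5) (nat_lit 3) (nat_lit 4) (nat_lit 282) (nat_lit 238) (nat_lit 140)) (XT.nd (nat_lit 78) (nat_lit 0) (nat_lit 0) (XT.lf (nat_lit 0) (nat_lit 168755599802) (nat_lit 76) (nat_lit 853084778) (nat_lit 152) (nat_lit 7544125769206) (nat_lit 1) (nat_lit 5) (nat_lit 2) (nat_lit 5) (nat_lit 3) (nat_lit 4) (nat_lit 283) (nat_lit 238) (nat_lit 139)) (XT.lf (nat_lit 0) (nat_lit 366646344753) (nat_lit 152) (nat_lit 8292025432590) (nat_lit 0) (nat_lit 196247745093) (nat_lit 1) (nat_lit 5) (nat_lit 3) (nat_lit 4) (nat_lit 1) (nat_lit 4) (nat_lit 284) (nat_lit 238) (nat_lit 138)))) (XT.nd (nat_lit 156) (nat_lit 0) (nat_lit 76) (XT.nd (nat_lit 78) (nat_lit 0) (nat_lit 76) (XT.lf (nat_lit 0) (nat_lit 17314468457) (nat_lit 532) (nat_lit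 5886549062) (nat_lit 532) (nat_lit 5886549062) (nat_lit 44) (nat_lit 3) (nat_lit 51) (nat_lit 3) (nat_lit 51) (nat_lit 5) (nat_lit 239) (nat_lit 239) (nat_lit 182)) (XT.lf (nat_lit 0) (nat_lit 38248304578) (nat_lit 456) (nat_lit 22797298708) (nat_lit 532) (nat_lit 1410785305) (nat_lit 45) (nat_lit 5) (nat_lit 51) (nat_lit 5) (nat_lit 52) (nat_lit 5) (nat_lit 240) (nat_lit 239) (nat_lit 181))) (XT.nd (nat_lit 78) (nat_lit 0) (nat_lit 76) (XT.lf (nat_lit 76) (nat_lit 32496200161) (nat_lit 0) (nat_lit 12325270463) (nat_lit 532) (nat_lit 22365508726) (nat_lit 46) (nat_lit 5) (nat_lit 45) (nat_lit 5) (nat_lit 52) (nat_lit 5) (nat_lit 241) (nat_lit 239) (nat_lit 180)) (XT.lf (nat_lit 76) (nat_lit 25072213840) (nat_lit 0) (nat_lit 29638428222) (nat_lit 532) (nat_lit 17730130289) (nat_lit 47) (nat_lit 5) (nat_lit 46) (nat_lit 5) (nat_lit 53) (nat_lit 5) (nat_lit 242) (nat_lit 239) (nat_lit 179))))))))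
noncomputable def xc46 : XT := (XT.nd (nat_lit 1872) (nat_lit 380) (nat_lit 0) (XT.nd (nat_lit 936) (nat_lit 912) (nat_lit 0) (XT.nd (nat_lit 468) (nat_lit 836) (nat_lit 0) (XT.nd (nat_lit 234) (nat_lit 608) (nat_lit 0) (XT.nd (nat_lit 78) (nat_lit 304) (nat_lit 0) (XT.lf (nat_lit 0) (nat_lit 17354316247) (nat_lit 456) (nat_lit 51160287665) (nat_lit 532) (nat_lit 9773531184) (nat_lit 41) (nat_lit 5) (nat_lit 47) (nat_lit 5) (nat_lit 48) (nat_lit 5) (nat_lit 243) (nat_lit 239) (nat_lit 178)) (XT.nd (nat_lit 78) (nat_lit 0) (nat_lit 0) (XT.lf (nat_lit 0) (nat_lit 2044540043) (nat_lit 304) (nat_lit 75621504802) (nat_lit 76) (nat_lit 7136824550) (nat_lit 37) (nat_lit 5) (nat_lit 41) (nat_lit 5) (nat_lit 38) (nat_lit 5) (nat_lit 244) (nat_lit 239) (nat_lit 177)) (XT.lf (nat_lit 0) (nat_lit 18304563355) (nat_lit 304) (nat_lit 384272088) (nat_lit 76) (nat_lit 73325844059) (nat_lit 37) (nat_lit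 5) (nat_lit 41) (nat_lit 5) (nat_lit 38) (nat_lit 5) (nat_lit 245) (nat_lit 239) (nat_lit 176)))) (XT.nd (nat_lit 78) (nat_lit 380) (nat_lit 0) (XT.lf (nat_lit 0) (nat_lit 40419449063) (nat_lit 304) (nat_lit 10701442984) (nat_lit 76) (nat_lit 48914108872) (nat_lit 34) (nat_lit 5) (nat_lit 38) (nat_lit 5) (nat_lit 35) (nat_lit 5) (nat_lit 246) (nat_lit 239) (nat_lit 175)) (XT.nd (nat_lit 78) (nat_lit 152) (nat_lit 0) (XT.lf (nat_lit 0) (nat_lit 68920487057) (nat_lit 304) (nat_lit 22384897791) (nat_lit 76) (nat_lit 17707479542) (nat_lit 31) (nat_lit 5) (nat_lit 35) (nat_lit 5) (nat_lit 32) (nat_lit 5) (nat_lit 247) (nat_lit 239) (nat_lit 174)) (XT.lf (nat_lit 0) (nat_lit 82599147450) (nat_lit 152) (nat_lit 22815070423) (nat_lit 228) (nat_lit 13625792971) (nat_lit 29) (nat_lit 5) (nat_lit 31) (nat_lit 5) (nat_lit 32) (nat_lit 5) (nat_lit 248) (nat_lit 239) (nat_lit 173))))) (XT.nd (nat_lit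 234) (nat_lit 304) (nat_lit 0) (XT.nd (nat_lit 78) (nat_lit 304) (nat_lit 0) (XT.lf (nat_lit 0) (nat_lit 19924986998) (nat_lit 228) (nat_lit 54131962493) (nat_lit 76) (nat_lit 56165528885) (nat_lit 26) (nat_lit 5) (nat_lit 29) (nat_lit 5) (nat_lit 27) (nat_lit 5) (nat_lit 249) (nat_lit 239) (nat_lit 172)) (XT.nd (nat_lit 78) (nat_lit 152) (nat_lit 0) (XT.lf (nat_lit 0) (nat_lit 61197510593) (nat_lit 228) (nat_lit 75903999512) (nat_lit 76) (nat_lit 5672823049) (nat_lit 24) (nat_lit 5) (nat_lit 27) (nat_lit 5) (nat_lit 25) (nat_lit 5) (nat_lit 250) (nat_lit 239) (nat_lit 171)) (XT.lf (nat_lit 0) (nat_lit 52765722420) (nat_lit 152) (nat_lit 60827463100) (nat_lit 228) (nat_lit 43221202722) (nat_lit 22) (nat_lit 5) (nat_lit 24) (nat_lit 5) (nat_lit 25) (nat_lit 5) (nat_lit 251) (nat_lit 239) (nat_lit 170)))) (XT.nd (nat_lit 78) (nat_lit 152) (nat_lit 0) (XT.lf (nat_lit 0) (nat_lit 4658226005)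 (nat_lit 152) (nat_lit 139262172029) (nat_lit 76) (nat_lit 28733158637) (nat_lit 20) (nat_lit 5) (nat_lit 22) (nat_lit 5) (nat_lit 21) (nat_lit 5) (nat_lit 252) (nat_lit 239) (nat_lit 169)) (XT.nd (nat_lit 78) (nat_lit 0) (nat_lit 0) (XT.lf (nat_lit 0) (nat_lit 4382303150) (nat_lit 152) (nat_lit 57744914643) (nat_lit 228) (nat_lit 128254228921) (nat_lit 18) (nat_lit 5) (nat_lit 20) (nat_lit 5) (nat_lit 21) (nat_lit 5) (nat_lit 253) (nat_lit 239) (nat_lit 168)) (XT.lf (nat_lit 0) (nat_lit 133369489261) (nat_lit 228) (nat_lit 33539806456) (nat_lit 76) (nat_lit 43446992458) (nat_lit 18) (nat_lit 5) (nat_lit 21) (nat_lit 5) (nat_lit 19) (nat_lit 4) (nat_lit 254) (nat_lit 239) (nat_lit 167)))))) (XT.nd (nat_lit 468) (nat_lit 304) (nat_lit 0) (XT.nd (nat_lit 234) (nat_lit 228) (nat_lit 0) (XT.nd (nat_lit 78) (nat_lit 304) (nat_lit 0) (XT.lf (nat_lit 0) (nat_lit 147571342167) (nat_lit 76) (nat_lit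 72871646067) (nat_lit 152) (nat_lit 12472778750) (nat_lit 17) (nat_lit 5) (nat_lit 18) (nat_lit 5) (nat_lit 19) (nat_lit 4) (nat_lit 255) (nat_lit 239) (nat_lit 166)) (XT.nd (nat_lit 78) (nat_lit 76) (nat_lit 0) (XT.lf (nat_lit 0) (nat_lit 63079161654) (nat_lit 228) (nat_lit 156713470656) (nat_lit 76) (nat_lit 38591933259) (nat_lit 14) (nat_lit 5) (nat_lit 17) (nat_lit 5) (nat_lit 15) (nat_lit 4) (nat_lit 256) (nat_lit 239) (nat_lit 165)) (XT.lf (nat_lit 0) (nat_lit 33690717942) (nat_lit 76) (nat_lit 120929501067) (nat_lit 152) (nat_lit 132595960636) (nat_lit 13) (nat_lit 5) (nat_lit 14) (nat_lit 5) (nat_lit 15) (nat_lit 4) (nat_lit 257) (nat_lit 239) (nat_lit 164)))) (XT.nd (nat_lit 78) (nat_lit 228) (nat_lit 0) (XT.lf (nat_lit 0) (nat_lit 262143879001) (nat_lit 76) (nat_lit 2310096662) (nat_lit 152) (nat_lit 55553638174) (nat_lit 13) (nat_lit 5) (nat_lit 14) (nat_lit 5) (nat_lit 15)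 (nat_lit 4) (nat_lit 258) (nat_lit 239) (nat_lit 163)) (XT.nd (nat_lit 78) (nat_lit 76) (nat_lit 0) (XT.lf (nat_lit 0) (nat_lit 38957681818) (nat_lit 152) (nat_lit 185561823522) (nat_lit 76) (nat_lit 132529424486) (nat_lit 11) (nat_lit 5) (nat_lit 13) (nat_lit 5) (nat_lit 12) (nat_lit 4) (nat_lit 259) (nat_lit 239) (nat_lit 162)) (XT.lf (nat_lit 0) (nat_lit 39566625610) (nat_lit 76) (nat_lit 107626241891) (nat_lit 152) (nat_lit 252111215426) (nat_lit 10) (nat_lit 5) (nat_lit 11) (nat_lit 5) (nat_lit 12) (nat_lit 4) (nat_lit 260) (nat_lit 239) (nat_lit 161))))) (XT.nd (nat_lit 234) (nat_lit 152) (nat_lit 0) (XT.nd (nat_lit 78) (nat_lit 152) (nat_lit 0) (XT.lf (nat_lit 0) (nat_lit 277849883780) (nat_lit 152) (nat_lit 138550206627) (nat_lit 0) (nat_lit 31002495133) (nat_lit 10) (nat_lit 5) (nat_lit 12) (nat_lit 4) (nat_lit 10) (nat_lit 4) (nat_lit 261) (nat_lit 239) (nat_lit 160)) (XT.nd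 (nat_lit 78) (nat_lit 76) (nat_lit 0) (XT.lf (nat_lit 0) (nat_lit 118779041317) (nat_lit 76) (nat_lit 315159057931) (nat_lit 76) (nat_lit 68311153225) (nat_lit 9) (nat_lit 4) (nat_lit 10) (nat_lit 5) (nat_lit 10) (nat_lit 4) (nat_lit 262) (nat_lit 239) (nat_lit 159)) (XT.lf (nat_lit 0) (nat_lit 49847527698) (nat_lit 152) (nat_lit 143165495840) (nat_lit 76) (nat_lit 371886288868) (nat_lit 8) (nat_lit 5) (nat_lit 10) (nat_lit 5) (nat_lit 9) (nat_lit 4) (nat_lit 263) (nat_lit 239) (nat_lit 158)))) (XT.nd (nat_lit 78) (nat_lit 76) (nat_lit 0) (XT.lf (nat_lit 0) (nat_lit 138208347733) (nat_lit 76) (nat_lit 46915253901) (nat_lit 152) (nat_lit 451406265032) (nat_lit 7) (nat_lit 5) (nat_lit 8) (nat_lit 5) (nat_lit 9) (nat_lit 4) (nat_lit 264) (nat_lit 239) (nat_lit 157)) (XT.nd (nat_lit 78) (nat_lit 76) (nat_lit 0) (XT.lf (nat_lit 0) (nat_lit 347879344653) (nat_lit 152) (nat_lit 251135220255)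 (nat_lit 0) (nat_lit 119315378926) (nat_lit 7) (nat_lit 5) (nat_lit 9) (nat_lit 4) (nat_lit 7) (nat_lit 4) (nat_lit 265) (nat_lit 239) (nat_lit 156)) (XT.lf (nat_lit 0) (nat_lit 33506784371) (nat_lit 76) (nat_lit 503644625321) (nat_lit 76) (nat_lit 275080386392) (nat_lit 6) (nat_lit 4) (nat_lit 7) (nat_lit 5) (nat_lit 7) (nat_lit 4) (nat_lit 266) (nat_lit 239) (nat_lit 155))))))) (XT.nd (nat_lit 936) (nat_lit 152) (nat_lit 0) (XT.nd (nat_lit 468) (nat_lit 76) (nat_lit 0) (XT.nd (nat_lit 234) (nat_lit 0) (nat_lit 0) (XT.nd (nat_lit 78) (nat_lit 152) (nat_lit 0) (XT.lf (nat_lit 0) (nat_lit 376052321454) (nat_lit 76) (nat_lit 386073095464) (nat_lit 76) (nat_lit 157508618967) (nat_lit 6) (nat_lit 4) (nat_lit 7) (nat_lit 5) (nat_lit 7) (nat_lit 4) (nat_lit 267) (nat_lit 239) (nat_lit 154)) (XT.nd (nat_lit 78) (nat_lit 152) (nat_lit 0) (XT.lf (nat_lit 0) (nat_lit 769979033245) (nat_lit 76)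 (nat_lit 250866144766) (nat_lit 76) (nat_lit 22301461690) (nat_lit 6) (nat_lit 4) (nat_lit 7) (nat_lit 5) (nat_lit 7) (nat_lit 4) (nat_lit 268) (nat_lit 239) (nat_lit 153)) (XT.lf (nat_lit 0) (nat_lit 36427117829) (nat_lit 76) (nat_lit 90972872815) (nat_lit 152) (nat_lit 1057459831016) (nat_lit 4) (nat_lit 5) (nat_lit 5) (nat_lit 5) (nat_lit 6) (nat_lit 4) (nat_lit 269) (nat_lit 239) (nat_lit 152)))) (XT.nd (nat_lit 78) (nat_lit 0) (nat_lit 0) (XT.lf (nat_lit 0) (nat_lit 308667326071) (nat_lit 152) (nat_lit 941248772181) (nat_lit 0) (nat_lit 97033049296) (nat_lit 4) (nat_lit 5) (nat_lit 6) (nat_lit 4) (nat_lit 4) (nat_lit 4) (nat_lit 270) (nat_lit 239) (nat_lit 151)) (XT.nd (nat_lit 78) (nat_lit 0) (nat_lit 0) (XT.lf (nat_lit 0) (nat_lit 519640595599) (nat_lit 152) (nat_lit 705503817123) (nat_lit 0) (nat_lit 308006193057) (nat_lit 4) (nat_lit 5) (nat_lit 6) (nat_lit 4) (nat_lit 4) (nat_lit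 4) (nat_lit 271) (nat_lit 239) (nat_lit 150)) (XT.lf (nat_lit 0) (nat_lit 762259637333) (nat_lit 152) (nat_lit 434397537585) (nat_lit 0) (nat_lit 550625125427) (nat_lit 4) (nat_lit 5) (nat_lit 6) (nat_lit 4) (nat_lit 4) (nat_lit 4) (nat_lit 272) (nat_lit 239) (nat_lit 149))))) (XT.nd (nat_lit 234) (nat_lit 0) (nat_lit 0) (XT.nd (nat_lit 78) (nat_lit 76) (nat_lit 0) (XT.lf (nat_lit 0) (nat_lit 1041271345567) (nat_lit 152) (nat_lit 122625680270) (nat_lit 0) (nat_lit 829636738562) (nat_lit 4) (nat_lit 5) (nat_lit 6) (nat_lit 4) (nat_lit 4) (nat_lit 4) (nat_lit 273) (nat_lit 239) (nat_lit 148)) (XT.nd (nat_lit 78) (nat_lit 0) (nat_lit 0) (XT.lf (nat_lit 0) (nat_lit 248334327822) (nat_lit 76) (nat_lit 1119772763761) (nat_lit 76) (nat_lit 908138074061) (nat_lit 3) (nat_lit 4) (nat_lit 4) (nat_lit 5) (nat_lit 4) (nat_lit 4) (nat_lit 274) (nat_lit 239) (nat_lit 147)) (XT.lf (nat_lit 0) (nat_lit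 682363885940) (nat_lit 76) (nat_lit 1065174277848) (nat_lit 76) (nat_lit 853539516239) (nat_lit 3) (nat_lit 4) (nat_lit 4) (nat_lit 5) (nat_lit 4) (nat_lit 4) (nat_lit 275) (nat_lit 239) (nat_lit 146)))) (XT.nd (nat_lit 78) (nat_lit 0) (nat_lit 0) (XT.lf (nat_lit 0) (nat_lit 1181497625730) (nat_lit 76) (nat_lit 1002386140262) (nat_lit 76) (nat_lit 790751316124) (nat_lit 3) (nat_lit 4) (nat_lit 4) (nat_lit 5) (nat_lit 4) (nat_lit 4) (nat_lit 276) (nat_lit 239) (nat_lit 145)) (XT.nd (nat_lit 78) (nat_lit 0) (nat_lit 0) (XT.lf (nat_lit 0) (nat_lit 1755501207318) (nat_lit 76) (nat_lit 930179887441) (nat_lit 76) (nat_lit 718545008930) (nat_lit 3) (nat_lit 4) (nat_lit 4) (nat_lit 5) (nat_lit 4) (nat_lit 4) (nat_lit 277) (nat_lit 239) (nat_lit 144)) (XT.lf (nat_lit 0) (nat_lit 2415605135560) (nat_lit 76) (nat_lit 847142788352) (nat_lit 76) (nat_lit 635507862560) (nat_lit 3) (nat_lit 4) (nat_lit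 4) (nat_lit 5) (nat_lit 4) (nat_lit 4) (nat_lit 278) (nat_lit 239) (nat_lit 143)))))) (XT.nd (nat_lit 31356) (nat_lit 0) (nat_lit 2736) (XT.nd (nat_lit 234) (nat_lit 152) (nat_lit 0) (XT.nd (nat_lit 78) (nat_lit 0) (nat_lit 0) (XT.lf (nat_lit 0) (nat_lit 3174724487315) (nat_lit 76) (nat_lit 751650204100) (nat_lit 76) (nat_lit 540015237194) (nat_lit 3) (nat_lit 4) (nat_lit 4) (nat_lit 5) (nat_lit 4) (nat_lit 4) (nat_lit 279) (nat_lit 239) (nat_lit 142)) (XT.nd (nat_lit 78) (nat_lit 0) (nat_lit 0) (XT.lf (nat_lit 0) (nat_lit 4047711597726) (nat_lit 76) (nat_lit 641833801514) (nat_lit 76) (nat_lit 430198798857) (nat_lit 3) (nat_lit 4) (nat_lit 4) (nat_lit 5) (nat_lit 4) (nat_lit 4) (nat_lit 280) (nat_lit 239) (nat_lit 141)) (XT.lf (nat_lit 0) (nat_lit 5051646649386) (nat_lit 76) (nat_lit 515544998805) (nat_lit 76) (nat_lit 303909965061) (nat_lit 3) (nat_lit 4) (nat_lit 4) (nat_lit 5) (nat_lit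 4) (nat_lit 4) (nat_lit 281) (nat_lit 239) (nat_lit 140)))) (XT.nd (nat_lit 78) (nat_lit 152) (nat_lit 0) (XT.lf (nat_lit 0) (nat_lit 6206171849829) (nat_lit 76) (nat_lit 370312928095) (nat_lit 76) (nat_lit 158677867317) (nat_lit 3) (nat_lit 4) (nat_lit 4) (nat_lit 5) (nat_lit 4) (nat_lit 4) (nat_lit 282) (nat_lit 239) (nat_lit 139)) (XT.nd (nat_lit 78) (nat_lit 76) (nat_lit 0) (XT.lf (nat_lit 0) (nat_lit 7921841788) (nat_lit 152) (nat_lit 195157653364) (nat_lit 76) (nat_lit 7525737296603) (nat_lit 2) (nat_lit 5) (nat_lit 4) (nat_lit 5) (nat_lit 3) (nat_lit 4) (nat_lit 283) (nat_lit 239) (nat_lit 138)) (XT.lf (nat_lit 0) (nat_lit 194069900148) (nat_lit 76) (nat_lit 980582964) (nat_lit 152) (nat_lit 8675744098811) (nat_lit 1) (nat_lit 5) (nat_lit 2) (nat_lit 5) (nat_lit 3) (nat_lit 4) (nat_lit 284) (nat_lit 239) (nat_lit 137))))) (XT.nd (nat_lit 234) (nat_lit 532) (nat_lit 0) (XT.nd (nat_lit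 78) (nat_lit 0) (nat_lit 76) (XT.lf (nat_lit 0) (nat_lit 19942075517) (nat_lit 532) (nat_lit 6753045819) (nat_lit 532) (nat_lit 6753045819) (nat_lit 44) (nat_lit 3) (nat_lit 51) (nat_lit 3) (nat_lit 51) (nat_lit 5) (nat_lit 240) (nat_lit 240) (nat_lit 180)) (XT.nd (nat_lit 78) (nat_lit 0) (nat_lit 0) (XT.lf (nat_lit 0) (nat_lit 44038644981) (nat_lit 456) (nat_lit 26181682740) (nat_lit 532) (nat_lit 1600098587) (nat_lit 45) (nat_lit 5) (nat_lit 51) (nat_lit 5) (nat_lit 52) (nat_lit 5) (nat_lit 241) (nat_lit 240) (nat_lit 179)) (XT.lf (nat_lit 76) (nat_lit 37402860542) (nat_lit 0) (nat_lit 14188775135) (nat_lit 532) (nat_lit 25669484590) (nat_lit 46) (nat_lit 5) (nat_lit 45) (nat_lit 5) (nat_lit 52) (nat_lit 5) (nat_lit 242) (nat_lit 240) (nat_lit 178)))) (XT.nd (nat_lit 78) (nat_lit 684) (nat_lit 0) (XT.lf (nat_lit 76) (nat_lit 28866447419) (nat_lit 0) (nat_lit 34092107812) (nat_lit 532)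 (nat_lit 20344896816) (nat_lit 47) (nat_lit 5) (nat_lit 46) (nat_lit 5) (nat_lit 53) (nat_lit 5) (nat_lit 243) (nat_lit 240) (nat_lit 177)) (XT.nd (nat_lit 78) (nat_lit 304) (nat_lit 0) (XT.lf (nat_lit 0) (nat_lit 19991357471) (nat_lit 456) (nat_lit 58837014344) (nat_lit 532) (nat_lit 11199943615) (nat_lit 41) (nat_lit 5) (nat_lit 47) (nat_lit 5) (nat_lit 48) (nat_lit 5) (nat_lit 244) (nat_lit 240) (nat_lit 176)) (XT.lf (nat_lit 0) (nat_lit 2384725581) (nat_lit 304) (nat_lit 86929008111) (nat_lit 76) (nat_lit 8206794168) (nat_lit 37) (nat_lit 5) (nat_lit 41) (nat_lit 5) (nat_lit 38) (nat_lit 5) (nat_lit 245) (nat_lit 240) (nat_lit 175))))))))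
noncomputable def xc47 : XT := (XT.nd (nat_lit 1872) (nat_lit 304) (nat_lit 0) (XT.nd (nat_lit 936) (nat_lit 608) (nat_lit 0) (XT.nd (nat_lit 468) (nat_lit 760) (nat_lit 0) (XT.nd (nat_lit 234) (nat_lit 532) (nat_lit 0) (XT.nd (nat_lit 78) (nat_lit 456) (nat_lit 0) (XT.lf (nat_lit 0) (nat_lit 21079382233) (nat_lit 304) (nat_lit 410849935) (nat_lit 76) (nat_lit 84324238872) (nat_lit 37) (nat_lit 5) (nat_lit 41) (nat_lit 5) (nat_lit 38) (nat_lit 5) (nat_lit 246) (nat_lit 240) (nat_lit 174)) (XT.nd (nat_lit 78) (nat_lit 228) (nat_lit 0) (XT.lf (nat_lit 0) (nat_lit 46508442586) (nat_lit 304) (nat_lit 12276133189) (nat_lit 76) (nat_lit 56253519939) (nat_lit 34) (nat_lit 5) (nat_lit 38) (nat_lit 5) (nat_lit 35) (nat_lit 5) (nat_lit 247) (nat_lit 240) (nat_lit 173)) (XT.lf (nat_lit 0) (nat_lit 79282017574) (nat_lit 304) (nat_lit 25712872659) (nat_lit 76) (nat_lit 20367967001) (nat_lit 31) (nat_lit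 5) (nat_lit 35) (nat_lit 5) (nat_lit 32) (nat_lit 5) (nat_lit 248) (nat_lit 240) (nat_lit 172)))) (XT.nd (nat_lit 78) (nat_lit 380) (nat_lit 0) (XT.lf (nat_lit 0) (nat_lit 95016260349) (nat_lit 152) (nat_lit 26231143136) (nat_lit 228) (nat_lit 15646872388) (nat_lit 29) (nat_lit 5) (nat_lit 31) (nat_lit 5) (nat_lit 32) (nat_lit 5) (nat_lit 249) (nat_lit 240) (nat_lit 171)) (XT.nd (nat_lit 78) (nat_lit 152) (nat_lit 0) (XT.lf (nat_lit 0) (nat_lit 22933344597) (nat_lit 228) (nat_lit 62224293735) (nat_lit 76) (nat_lit 64596600876) (nat_lit 26) (nat_lit 5) (nat_lit 29) (nat_lit 5) (nat_lit 27) (nat_lit 5) (nat_lit 250) (nat_lit 240) (nat_lit 170)) (XT.lf (nat_lit 0) (nat_lit 70394973492) (nat_lit 228) (nat_lit 87263191700) (nat_lit 76) (nat_lit 6530854370) (nat_lit 24) (nat_lit 5) (nat_lit 27) (nat_lit 5) (nat_lit 25) (nat_lit 5) (nat_lit 251) (nat_lit 240) (nat_lit 169))))) (XT.nd (nat_lit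 234) (nat_lit 304) (nat_lit 0) (XT.nd (nat_lit 78) (nat_lit 304) (nat_lit 0) (XT.lf (nat_lit 0) (nat_lit 60704753238) (nat_lit 152) (nat_lit 69943501292) (nat_lit 228) (nat_lit 49686972774) (nat_lit 22) (nat_lit 5) (nat_lit 24) (nat_lit 5) (nat_lit 25) (nat_lit 5) (nat_lit 252) (nat_lit 240) (nat_lit 168)) (XT.nd (nat_lit 78) (nat_lit 152) (nat_lit 0) (XT.lf (nat_lit 0) (nat_lit 5372086771) (nat_lit 152) (nat_lit 160127519627) (nat_lit 76) (nat_lit 33050747958) (nat_lit 20) (nat_lit 5) (nat_lit 22) (nat_lit 5) (nat_lit 21) (nat_lit 5) (nat_lit 253) (nat_lit 240) (nat_lit 167)) (XT.lf (nat_lit 0) (nat_lit 5061597194) (nat_lit 152) (nat_lit 66398384927) (nat_lit 228) (nat_lit 147477564748) (nat_lit 18) (nat_lit 5) (nat_lit 20) (nat_lit 5) (nat_lit 21) (nat_lit 5) (nat_lit 254) (nat_lit 240) (nat_lit 166)))) (XT.nd (nat_lit 78) (nat_lit 304) (nat_lit 0) (XT.lf (nat_lit 0) (nat_lit 153386982632)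 (nat_lit 228) (nat_lit 38550893420) (nat_lit 76) (nat_lit 49970870342) (nat_lit 18) (nat_lit 5) (nat_lit 21) (nat_lit 5) (nat_lit 19) (nat_lit 4) (nat_lit 255) (nat_lit 240) (nat_lit 165)) (XT.nd (nat_lit 78) (nat_lit 228) (nat_lit 0) (XT.lf (nat_lit 0) (nat_lit 169725244414) (nat_lit 76) (nat_lit 83795125424) (nat_lit 152) (nat_lit 14331870647) (nat_lit 17) (nat_lit 5) (nat_lit 18) (nat_lit 5) (nat_lit 19) (nat_lit 4) (nat_lit 256) (nat_lit 240) (nat_lit 164)) (XT.lf (nat_lit 0) (nat_lit 72551387275) (nat_lit 228) (nat_lit 180202616186) (nat_lit 76) (nat_lit 44387405246) (nat_lit 14) (nat_lit 5) (nat_lit 17) (nat_lit 5) (nat_lit 15) (nat_lit 4) (nat_lit 257) (nat_lit 240) (nat_lit 163)))))) (XT.nd (nat_lit 468) (nat_lit 228) (nat_lit 0) (XT.nd (nat_lit 234) (nat_lit 152) (nat_lit 0) (XT.nd (nat_lit 78) (nat_lit 152) (nat_lit 0) (XT.lf (nat_lit 0) (nat_lit 38760687667) (nat_lit 76) (nat_lit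 139061958894) (nat_lit 152) (nat_lit 152475196638) (nat_lit 13) (nat_lit 5) (nat_lit 14) (nat_lit 5) (nat_lit 15) (nat_lit 4) (nat_lit 258) (nat_lit 240) (nat_lit 162)) (XT.nd (nat_lit 78) (nat_lit 152) (nat_lit 0) (XT.lf (nat_lit 0) (nat_lit 301479688707) (nat_lit 76) (nat_lit 2650552611) (nat_lit 152) (nat_lit 63877850777) (nat_lit 13) (nat_lit 5) (nat_lit 14) (nat_lit 5) (nat_lit 15) (nat_lit 4) (nat_lit 259) (nat_lit 240) (nat_lit 161)) (XT.lf (nat_lit 0) (nat_lit 44809093883) (nat_lit 152) (nat_lit 213382182367) (nat_lit 76) (nat_lit 152414363995) (nat_lit 11) (nat_lit 5) (nat_lit 13) (nat_lit 5) (nat_lit 12) (nat_lit 4) (nat_lit 260) (nat_lit 240) (nat_lit 160)))) (XT.nd (nat_lit 78) (nat_lit 76) (nat_lit 0) (XT.lf (nat_lit 0) (nat_lit 45514356326) (nat_lit 76) (nat_lit 123764495267) (nat_lit 152) (nat_lit 289920272262) (nat_lit 10) (nat_lit 5) (nat_lit 11) (nat_lit 5) (nat_lit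 12) (nat_lit 4) (nat_lit 261) (nat_lit 240) (nat_lit 159)) (XT.nd (nat_lit 78) (nat_lit 76) (nat_lit 0) (XT.lf (nat_lit 0) (nat_lit 319533619078) (nat_lit 152) (nat_lit 159321283959) (nat_lit 0) (nat_lit 35657563860) (nat_lit 10) (nat_lit 5) (nat_lit 12) (nat_lit 4) (nat_lit 10) (nat_lit 4) (nat_lit 262) (nat_lit 240) (nat_lit 158)) (XT.lf (nat_lit 0) (nat_lit 136606381682) (nat_lit 76) (nat_lit 362428121756) (nat_lit 76) (nat_lit 78551676323) (nat_lit 9) (nat_lit 4) (nat_lit 10) (nat_lit 5) (nat_lit 10) (nat_lit 4) (nat_lit 263) (nat_lit 240) (nat_lit 157))))) (XT.nd (nat_lit 234) (nat_lit 76) (nat_lit 0) (XT.nd (nat_lit 78) (nat_lit 76) (nat_lit 0) (XT.lf (nat_lit 0) (nat_lit 57329737064) (nat_lit 152) (nat_lit 164630931655) (nat_lit 76) (nat_lit 427673129751) (nat_lit 8) (nat_lit 5) (nat_lit 10) (nat_lit 5) (nat_lit 9) (nat_lit 4) (nat_lit 264) (nat_lit 240) (nat_lit 156)) (XT.nd (nat_lit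 78) (nat_lit 0) (nat_lit 0) (XT.lf (nat_lit 0) (nat_lit 158948193759) (nat_lit 76) (nat_lit 53948572378) (nat_lit 152) (nat_lit 519112206779) (nat_lit 7) (nat_lit 5) (nat_lit 8) (nat_lit 5) (nat_lit 9) (nat_lit 4) (nat_lit 265) (nat_lit 240) (nat_lit 155)) (XT.lf (nat_lit 0) (nat_lit 400065350462) (nat_lit 152) (nat_lit 288797788383) (nat_lit 0) (nat_lit 137215964923) (nat_lit 7) (nat_lit 5) (nat_lit 9) (nat_lit 4) (nat_lit 7) (nat_lit 4) (nat_lit 266) (nat_lit 240) (nat_lit 154)))) (XT.nd (nat_lit 78) (nat_lit 0) (nat_lit 0) (XT.lf (nat_lit 0) (nat_lit 38539863908) (nat_lit 76) (nat_lit 579187995869) (nat_lit 76) (nat_lit 316338403750) (nat_lit 6) (nat_lit 4) (nat_lit 7) (nat_lit 5) (nat_lit 7) (nat_lit 4) (nat_lit 267) (nat_lit 240) (nat_lit 153)) (XT.nd (nat_lit 78) (nat_lit 0) (nat_lit 0) (XT.lf (nat_lit 0) (nat_lit 432466310439) (nat_lit 76) (nat_lit 443981170000) (nat_lit 76) (nat_lit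 181131398247) (nat_lit 6) (nat_lit 4) (nat_lit 7) (nat_lit 5) (nat_lit 7) (nat_lit 4) (nat_lit 268) (nat_lit 240) (nat_lit 152)) (XT.lf (nat_lit 0) (nat_lit 885481228029) (nat_lit 76) (nat_lit 288493553626) (nat_lit 76) (nat_lit 25643625669) (nat_lit 6) (nat_lit 4) (nat_lit 7) (nat_lit 5) (nat_lit 7) (nat_lit 4) (nat_lit 269) (nat_lit 240) (nat_lit 151))))))) (XT.nd (nat_lit 936) (nat_lit 76) (nat_lit 0) (XT.nd (nat_lit 468) (nat_lit 0) (nat_lit 0) (XT.nd (nat_lit 234) (nat_lit 76) (nat_lit 0) (XT.nd (nat_lit 78) (nat_lit 0) (nat_lit 0) (XT.lf (nat_lit 0) (nat_lit 41896215058) (nat_lit 76) (nat_lit 104616419002) (nat_lit 152) (nat_lit 1216075947510) (nat_lit 4) (nat_lit 5) (nat_lit 5) (nat_lit 5) (nat_lit 6) (nat_lit 4) (nat_lit 270) (nat_lit 240) (nat_lit 150)) (XT.nd (nat_lit 78) (nat_lit 0) (nat_lit 0) (XT.lf (nat_lit 0) (nat_lit 354969774696) (nat_lit 152) (nat_lit 1082431578842)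 (nat_lit 0) (nat_lit 111589976640) (nat_lit 4) (nat_lit 5) (nat_lit 6) (nat_lit 4) (nat_lit 4) (nat_lit 4) (nat_lit 271) (nat_lit 240) (nat_lit 149)) (XT.lf (nat_lit 0) (nat_lit 597588728170) (nat_lit 152) (nat_lit 811325468678) (nat_lit 0) (nat_lit 354208835015) (nat_lit 4) (nat_lit 5) (nat_lit 6) (nat_lit 4) (nat_lit 4) (nat_lit 4) (nat_lit 272) (nat_lit 240) (nat_lit 148)))) (XT.nd (nat_lit 78) (nat_lit 76) (nat_lit 0) (XT.lf (nat_lit 0) (nat_lit 876600359656) (nat_lit 152) (nat_lit 499553758645) (nat_lit 0) (nat_lit 633220383806) (nat_lit 4) (nat_lit 5) (nat_lit 6) (nat_lit 4) (nat_lit 4) (nat_lit 4) (nat_lit 273) (nat_lit 240) (nat_lit 147)) (XT.nd (nat_lit 78) (nat_lit 76) (nat_lit 0) (XT.lf (nat_lit 0) (nat_lit 1197463592378) (nat_lit 152) (nat_lit 141016567461) (nat_lit 0) (nat_lit 954083544620) (nat_lit 4) (nat_lit 5) (nat_lit 6) (nat_lit 4) (nat_lit 4) (nat_lit 4) (nat_lit 274)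 (nat_lit 240) (nat_lit 146)) (XT.lf (nat_lit 0) (nat_lit 285587190886) (nat_lit 76) (nat_lit 1287737373162) (nat_lit 76) (nat_lit 1044357262874) (nat_lit 3) (nat_lit 4) (nat_lit 4) (nat_lit 5) (nat_lit 4) (nat_lit 4) (nat_lit 275) (nat_lit 240) (nat_lit 145))))) (XT.nd (nat_lit 234) (nat_lit 0) (nat_lit 0) (XT.nd (nat_lit 78) (nat_lit 0) (nat_lit 0) (XT.lf (nat_lit 0) (nat_lit 784720828736) (nat_lit 76) (nat_lit 1224949284600) (nat_lit 76) (nat_lit 981569119940) (nat_lit 3) (nat_lit 4) (nat_lit 4) (nat_lit 5) (nat_lit 4) (nat_lit 4) (nat_lit 276) (nat_lit 240) (nat_lit 144)) (XT.nd (nat_lit 78) (nat_lit 0) (nat_lit 0) (XT.lf (nat_lit 0) (nat_lit 1358724321680) (nat_lit 76) (nat_lit 1152743074410) (nat_lit 76) (nat_lit 909362862468) (nat_lit 3) (nat_lit 4) (nat_lit 4) (nat_lit 5) (nat_lit 4) (nat_lit 4) (nat_lit 277) (nat_lit 240) (nat_lit 143)) (XT.lf (nat_lit 0) (nat_lit 2018828172842)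 (nat_lit 76) (nat_lit 1069706012390) (nat_lit 76) (nat_lit 826325759335) (nat_lit 3) (nat_lit 4) (nat_lit 4) (nat_lit 5) (nat_lit 4) (nat_lit 4) (nat_lit 278) (nat_lit 240) (nat_lit 142)))) (XT.nd (nat_lit 78) (nat_lit 0) (nat_lit 0) (XT.lf (nat_lit 0) (nat_lit 2777947457570) (nat_lit 76) (nat_lit 974213460373) (nat_lit 76) (nat_lit 730833171566) (nat_lit 3) (nat_lit 4) (nat_lit 4) (nat_lit 5) (nat_lit 4) (nat_lit 4) (nat_lit 279) (nat_lit 240) (nat_lit 141)) (XT.nd (nat_lit 78) (nat_lit 0) (nat_lit 0) (XT.lf (nat_lit 0) (nat_lit 3650934509696) (nat_lit 76) (nat_lit 864397085817) (nat_lit 76) (nat_lit 621016765923) (nat_lit 3) (nat_lit 4) (nat_lit 4) (nat_lit 5) (nat_lit 4) (nat_lit 4) (nat_lit 280) (nat_lit 240) (nat_lit 140)) (XT.lf (nat_lit 0) (nat_lit 4654869510674) (nat_lit 76) (nat_lit 738108307483) (nat_lit 76) (nat_lit 494727960555) (nat_lit 3) (nat_lit 4) (nat_lit 4) (nat_lit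 5) (nat_lit 4) (nat_lit 4) (nat_lit 281) (nat_lit 240) (nat_lit 139)))))) (XT.nd (nat_lit 31434) (nat_lit 0) (nat_lit 2052) (XT.nd (nat_lit 31200) (nat_lit 0) (nat_lit 3192) (XT.nd (nat_lit 78) (nat_lit 76) (nat_lit 0) (XT.lf (nat_lit 0) (nat_lit 5809394667046) (nat_lit 76) (nat_lit 592876257967) (nat_lit 76) (nat_lit 349495887532) (nat_lit 3) (nat_lit 4) (nat_lit 4) (nat_lit 5) (nat_lit 4) (nat_lit 4) (nat_lit 282) (nat_lit 240) (nat_lit 138)) (XT.nd (nat_lit 78) (nat_lit 76) (nat_lit 0) (XT.lf (nat_lit 0) (nat_lit 7137098514479) (nat_lit 76) (nat_lit 425859440649) (nat_lit 76) (nat_lit 182479049773) (nat_lit 3) (nat_lit 4) (nat_lit 4) (nat_lit 5) (nat_lit 4) (nat_lit 4) (nat_lit 283) (nat_lit 240) (nat_lit 137)) (XT.lf (nat_lit 0) (nat_lit 9110529141) (nat_lit 152) (nat_lit 224430508036) (nat_lit 76) (nat_lit 8654598240226) (nat_lit 2) (nat_lit 5) (nat_lit 4) (nat_lit 5) (nat_lit 3)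 (nat_lit 4) (nat_lit 284) (nat_lit 240) (nat_lit 136)))) (XT.nd (nat_lit 78) (nat_lit 0) (nat_lit 76) (XT.lf (nat_lit 0) (nat_lit 22956401431) (nat_lit 532) (nat_lit 7753537207) (nat_lit 532) (nat_lit 7753537207) (nat_lit 44) (nat_lit 3) (nat_lit 51) (nat_lit 3) (nat_lit 51) (nat_lit 5) (nat_lit 241) (nat_lit 241) (nat_lit 178)) (XT.nd (nat_lit 78) (nat_lit 0) (nat_lit 0) (XT.lf (nat_lit 0) (nat_lit 50684588962) (nat_lit 456) (nat_lit 30082310748) (nat_lit 532) (nat_lit 1823247958) (nat_lit 45) (nat_lit 5) (nat_lit 51) (nat_lit 5) (nat_lit 52) (nat_lit 5) (nat_lit 242) (nat_lit 241) (nat_lit 177)) (XT.lf (nat_lit 76) (nat_lit 43037660404) (nat_lit 0) (nat_lit 16328217381) (nat_lit 532) (nat_lit 29481457036) (nat_lit 46) (nat_lit 5) (nat_lit 45) (nat_lit 5) (nat_lit 52) (nat_lit 5) (nat_lit 243) (nat_lit 241) (nat_lit 176))))) (XT.nd (nat_lit 234) (nat_lit 608) (nat_lit 0) (XT.nd (nat_lit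 78) (nat_lit 684) (nat_lit 0) (XT.lf (nat_lit 76) (nat_lit 33221670867) (nat_lit 0) (nat_lit 39211909130) (nat_lit 532) (nat_lit 23362791629) (nat_lit 47) (nat_lit 5) (nat_lit 46) (nat_lit 5) (nat_lit 53) (nat_lit 5) (nat_lit 244) (nat_lit 241) (nat_lit 175)) (XT.nd (nat_lit 78) (nat_lit 304) (nat_lit 0) (XT.lf (nat_lit 0) (nat_lit 23015689664) (nat_lit 456) (nat_lit 67664595629) (nat_lit 532) (nat_lit 12849978827) (nat_lit 41) (nat_lit 5) (nat_lit 47) (nat_lit 5) (nat_lit 48) (nat_lit 5) (nat_lit 245) (nat_lit 241) (nat_lit 174)) (XT.lf (nat_lit 0) (nat_lit 2767768656) (nat_lit 304) (nat_lit 99941348052) (nat_lit 76) (nat_lit 9437394340) (nat_lit 37) (nat_lit 5) (nat_lit 41) (nat_lit 5) (nat_lit 38) (nat_lit 5) (nat_lit 246) (nat_lit 241) (nat_lit 173)))) (XT.nd (nat_lit 156) (nat_lit 380) (nat_lit 0) (XT.nd (nat_lit 78) (nat_lit 228) (nat_lit 0) (XT.lf (nat_lit 0) (nat_lit 24263319341)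 (nat_lit 304) (nat_lit 448989360) (nat_lit 76) (nat_lit 96972510396) (nat_lit 37) (nat_lit 5) (nat_lit 41) (nat_lit 5) (nat_lit 38) (nat_lit 5) (nat_lit 247) (nat_lit 241) (nat_lit 172)) (XT.lf (nat_lit 0) (nat_lit 53504426299) (nat_lit 304) (nat_lit 14094470943) (nat_lit 76) (nat_lit 64693283080) (nat_lit 34) (nat_lit 5) (nat_lit 38) (nat_lit 5) (nat_lit 35) (nat_lit 5) (nat_lit 248) (nat_lit 241) (nat_lit 171))) (XT.nd (nat_lit 78) (nat_lit 152) (nat_lit 0) (XT.lf (nat_lit 0) (nat_lit 91192057419) (nat_lit 304) (nat_lit 29547300873) (nat_lit 76) (nat_lit 23426463018) (nat_lit 31) (nat_lit 5) (nat_lit 35) (nat_lit 5) (nat_lit 32) (nat_lit 5) (nat_lit 249) (nat_lit 241) (nat_lit 170)) (XT.lf (nat_lit 0) (nat_lit 109289297346) (nat_lit 152) (nat_lit 30161135702) (nat_lit 228) (nat_lit 17976671089) (nat_lit 29) (nat_lit 5) (nat_lit 31) (nat_lit 5) (nat_lit 32) (nat_lit 5) (nat_lit 250)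 (nat_lit 241) (nat_lit 169))))))))
noncomputable def xc48 : XT := (XT.nd (nat_lit 1872) (nat_lit 76) (nat_lit 0) (XT.nd (nat_lit 936) (nat_lit 456) (nat_lit 0) (XT.nd (nat_lit 468) (nat_lit 608) (nat_lit 0) (XT.nd (nat_lit 234) (nat_lit 304) (nat_lit 0) (XT.nd (nat_lit 78) (nat_lit 304) (nat_lit 0) (XT.lf (nat_lit 0) (nat_lit 26388173923) (nat_lit 228) (nat_lit 71537171723) (nat_lit 76) (nat_lit 74290811354) (nat_lit 26) (nat_lit 5) (nat_lit 29) (nat_lit 5) (nat_lit 27) (nat_lit 5) (nat_lit 251) (nat_lit 241) (nat_lit 168)) (XT.nd (nat_lit 78) (nat_lit 152) (nat_lit 0) (XT.lf (nat_lit 0) (nat_lit 80967706328) (nat_lit 228) (nat_lit 100332702411) (nat_lit 76) (nat_lit 7515857091) (nat_lit 24) (nat_lit 5) (nat_lit 27) (nat_lit 5) (nat_lit 25) (nat_lit 5) (nat_lit 252) (nat_lit 241) (nat_lit 167)) (XT.lf (nat_lit 0) (nat_lit 69828744072) (nat_lit 152) (nat_lit 80428915883) (nat_lit 228)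 (nat_lit 57126853960) (nat_lit 22) (nat_lit 5) (nat_lit 24) (nat_lit 5) (nat_lit 25) (nat_lit 5) (nat_lit 253) (nat_lit 241) (nat_lit 166)))) (XT.nd (nat_lit 78) (nat_lit 152) (nat_lit 0) (XT.lf (nat_lit 0) (nat_lit 6189337870) (nat_lit 152) (nat_lit 184128516601) (nat_lit 76) (nat_lit 38014118583) (nat_lit 20) (nat_lit 5) (nat_lit 22) (nat_lit 5) (nat_lit 21) (nat_lit 5) (nat_lit 254) (nat_lit 241) (nat_lit 165)) (XT.nd (nat_lit 78) (nat_lit 0) (nat_lit 0) (XT.lf (nat_lit 0) (nat_lit 5837433047) (nat_lit 152) (nat_lit 76351891693) (nat_lit 228) (nat_lit 169588009659) (nat_lit 18) (nat_lit 5) (nat_lit 20) (nat_lit 5) (nat_lit 21) (nat_lit 5) (nat_lit 255) (nat_lit 241) (nat_lit 164)) (XT.lf (nat_lit 0) (nat_lit 176404156667) (nat_lit 228) (nat_lit 44318492270) (nat_lit 76) (nat_lit 57471664610) (nat_lit 18) (nat_lit 5) (nat_lit 21) (nat_lit 5) (nat_lit 19) (nat_lit 4) (nat_lit 256) (nat_lit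 241) (nat_lit 163))))) (XT.nd (nat_lit 234) (nat_lit 228) (nat_lit 0) (XT.nd (nat_lit 78) (nat_lit 304) (nat_lit 0) (XT.lf (nat_lit 0) (nat_lit 195197793588) (nat_lit 76) (nat_lit 96358898923) (nat_lit 152) (nat_lit 16472709909) (nat_lit 17) (nat_lit 5) (nat_lit 18) (nat_lit 5) (nat_lit 19) (nat_lit 4) (nat_lit 257) (nat_lit 241) (nat_lit 162)) (XT.nd (nat_lit 78) (nat_lit 76) (nat_lit 0) (XT.lf (nat_lit 0) (nat_lit 83441922490) (nat_lit 228) (nat_lit 207219492493) (nat_lit 76) (nat_lit 51050568584) (nat_lit 14) (nat_lit 5) (nat_lit 17) (nat_lit 5) (nat_lit 15) (nat_lit 4) (nat_lit 258) (nat_lit 241) (nat_lit 161)) (XT.lf (nat_lit 0) (nat_lit 44587162865) (nat_lit 76) (nat_lit 159915984423) (nat_lit 152) (nat_lit 175338795157) (nat_lit 13) (nat_lit 5) (nat_lit 14) (nat_lit 5) (nat_lit 15) (nat_lit 4) (nat_lit 259) (nat_lit 241) (nat_lit 160)))) (XT.nd (nat_lit 78) (nat_lit 228) (nat_lit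 0) (XT.lf (nat_lit 0) (nat_lit 346712400316) (nat_lit 76) (nat_lit 3043554368) (nat_lit 152) (nat_lit 73452849282) (nat_lit 13) (nat_lit 5) (nat_lit 14) (nat_lit 5) (nat_lit 15) (nat_lit 4) (nat_lit 260) (nat_lit 241) (nat_lit 159)) (XT.nd (nat_lit 78) (nat_lit 76) (nat_lit 0) (XT.lf (nat_lit 0) (nat_lit 51536325482) (nat_lit 152) (nat_lit 245378988223) (nat_lit 76) (nat_lit 175280696920) (nat_lit 11) (nat_lit 5) (nat_lit 13) (nat_lit 5) (nat_lit 12) (nat_lit 4) (nat_lit 261) (nat_lit 241) (nat_lit 158)) (XT.lf (nat_lit 0) (nat_lit 52351140682) (nat_lit 76) (nat_lit 142324872462) (nat_lit 152) (nat_lit 333402547144) (nat_lit 10) (nat_lit 5) (nat_lit 11) (nat_lit 5) (nat_lit 12) (nat_lit 4) (nat_lit 262) (nat_lit 241) (nat_lit 157)))))) (XT.nd (nat_lit 468) (nat_lit 152) (nat_lit 0) (XT.nd (nat_lit 234) (nat_lit 152) (nat_lit 0) (XT.nd (nat_lit 78) (nat_lit 152) (nat_lit 0) (XT.lf (nat_lit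 0) (nat_lit 367468389903) (nat_lit 152) (nat_lit 183210815939) (nat_lit 0) (nat_lit 41009748123) (nat_lit 10) (nat_lit 5) (nat_lit 12) (nat_lit 4) (nat_lit 10) (nat_lit 4) (nat_lit 263) (nat_lit 241) (nat_lit 156)) (XT.nd (nat_lit 78) (nat_lit 76) (nat_lit 0) (XT.lf (nat_lit 0) (nat_lit 157105266470) (nat_lit 76) (nat_lit 416788714413) (nat_lit 76) (nat_lit 90329777575) (nat_lit 9) (nat_lit 4) (nat_lit 10) (nat_lit 5) (nat_lit 10) (nat_lit 4) (nat_lit 264) (nat_lit 241) (nat_lit 155)) (XT.lf (nat_lit 0) (nat_lit 65933038994) (nat_lit 152) (nat_lit 189318472302) (nat_lit 76) (nat_lit 491827046323) (nat_lit 8) (nat_lit 5) (nat_lit 10) (nat_lit 5) (nat_lit 9) (nat_lit 4) (nat_lit 265) (nat_lit 241) (nat_lit 154)))) (XT.nd (nat_lit 78) (nat_lit 76) (nat_lit 0) (XT.lf (nat_lit 0) (nat_lit 182796921021) (nat_lit 76) (nat_lit 62037856641) (nat_lit 152) (nat_lit 596975258585) (nat_lit 7) (nat_lit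 5) (nat_lit 8) (nat_lit 5) (nat_lit 9) (nat_lit 4) (nat_lit 266) (nat_lit 241) (nat_lit 153)) (XT.nd (nat_lit 78) (nat_lit 76) (nat_lit 0) (XT.lf (nat_lit 0) (nat_lit 460078256328) (nat_lit 152) (nat_lit 332111623061) (nat_lit 0) (nat_lit 157800839177) (nat_lit 7) (nat_lit 5) (nat_lit 9) (nat_lit 4) (nat_lit 7) (nat_lit 4) (nat_lit 267) (nat_lit 241) (nat_lit 152)) (XT.lf (nat_lit 0) (nat_lit 44326183290) (nat_lit 76) (nat_lit 666063682394) (nat_lit 76) (nat_lit 363786109038) (nat_lit 6) (nat_lit 4) (nat_lit 7) (nat_lit 5) (nat_lit 7) (nat_lit 4) (nat_lit 268) (nat_lit 241) (nat_lit 151))))) (XT.nd (nat_lit 234) (nat_lit 0) (nat_lit 0) (XT.nd (nat_lit 78) (nat_lit 152) (nat_lit 0) (XT.lf (nat_lit 0) (nat_lit 497340900306) (nat_lit 76) (nat_lit 510576160409) (nat_lit 76) (nat_lit 208298451223) (nat_lit 6) (nat_lit 4) (nat_lit 7) (nat_lit 5) (nat_lit 7) (nat_lit 4) (nat_lit 269) (nat_lit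 241) (nat_lit 150)) (XT.nd (nat_lit 78) (nat_lit 152) (nat_lit 0) (XT.lf (nat_lit 0) (nat_lit 1018307449887) (nat_lit 76) (nat_lit 331765686591) (nat_lit 76) (nat_lit 29487859292) (nat_lit 6) (nat_lit 4) (nat_lit 7) (nat_lit 5) (nat_lit 7) (nat_lit 4) (nat_lit 270) (nat_lit 241) (nat_lit 149)) (XT.lf (nat_lit 0) (nat_lit 48184450384) (nat_lit 76) (nat_lit 120307078649) (nat_lit 152) (nat_lit 1398485178459) (nat_lit 4) (nat_lit 5) (nat_lit 5) (nat_lit 5) (nat_lit 6) (nat_lit 4) (nat_lit 271) (nat_lit 241) (nat_lit 148)))) (XT.nd (nat_lit 78) (nat_lit 0) (nat_lit 0) (XT.lf (nat_lit 0) (nat_lit 408217017623) (nat_lit 152) (nat_lit 1244792906091) (nat_lit 0) (nat_lit 128329962701) (nat_lit 4) (nat_lit 5) (nat_lit 6) (nat_lit 4) (nat_lit 4) (nat_lit 4) (nat_lit 272) (nat_lit 241) (nat_lit 147)) (XT.nd (nat_lit 78) (nat_lit 0) (nat_lit 0) (XT.lf (nat_lit 0) (nat_lit 687228582371) (nat_lit 152)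 (nat_lit 933021324129) (nat_lit 0) (nat_lit 407341455541) (nat_lit 4) (nat_lit 5) (nat_lit 6) (nat_lit 4) (nat_lit 4) (nat_lit 4) (nat_lit 273) (nat_lit 241) (nat_lit 146)) (XT.lf (nat_lit 0) (nat_lit 1008091757061) (nat_lit 152) (nat_lit 574484244311) (nat_lit 0) (nat_lit 728204567702) (nat_lit 4) (nat_lit 5) (nat_lit 6) (nat_lit 4) (nat_lit 4) (nat_lit 4) (nat_lit 274) (nat_lit 241) (nat_lit 145))))))) (XT.nd (nat_lit 31980) (nat_lit 0) (nat_lit 1292) (XT.nd (nat_lit 468) (nat_lit 0) (nat_lit 0) (XT.nd (nat_lit 234) (nat_lit 0) (nat_lit 0) (XT.nd (nat_lit 78) (nat_lit 76) (nat_lit 0) (XT.lf (nat_lit 0) (nat_lit 1377084299459) (nat_lit 152) (nat_lit 162166810727) (nat_lit 0) (nat_lit 1097197055726) (nat_lit 4) (nat_lit 5) (nat_lit 6) (nat_lit 4) (nat_lit 4) (nat_lit 4) (nat_lit 275) (nat_lit 241) (nat_lit 144)) (XT.nd (nat_lit 78) (nat_lit 0) (nat_lit 0) (XT.lf (nat_lit 0) (nat_lit 328427321610)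 (nat_lit 76) (nat_lit 1480896992245) (nat_lit 76) (nat_lit 1201009701231) (nat_lit 3) (nat_lit 4) (nat_lit 4) (nat_lit 5) (nat_lit 4) (nat_lit 4) (nat_lit 276) (nat_lit 241) (nat_lit 143)) (XT.lf (nat_lit 0) (nat_lit 902430737473) (nat_lit 76) (nat_lit 1408690819124) (nat_lit 76) (nat_lit 1128803486996) (nat_lit 3) (nat_lit 4) (nat_lit 4) (nat_lit 5) (nat_lit 4) (nat_lit 4) (nat_lit 277) (nat_lit 241) (nat_lit 142)))) (XT.nd (nat_lit 78) (nat_lit 0) (nat_lit 0) (XT.lf (nat_lit 0) (nat_lit 1562534521608) (nat_lit 76) (nat_lit 1325653789339) (nat_lit 76) (nat_lit 1045766421461) (nat_lit 3) (nat_lit 4) (nat_lit 4) (nat_lit 5) (nat_lit 4) (nat_lit 4) (nat_lit 278) (nat_lit 241) (nat_lit 141)) (XT.nd (nat_lit 78) (nat_lit 0) (nat_lit 0) (XT.lf (nat_lit 0) (nat_lit 2321653748052) (nat_lit 76) (nat_lit 1230161265352) (nat_lit 76) (nat_lit 950273866385) (nat_lit 3) (nat_lit 4) (nat_lit 4) (nat_lit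 5) (nat_lit 4) (nat_lit 4) (nat_lit 279) (nat_lit 241) (nat_lit 140)) (XT.lf (nat_lit 0) (nat_lit 3194640749495) (nat_lit 76) (nat_lit 1120344915171) (nat_lit 76) (nat_lit 840457489171) (nat_lit 3) (nat_lit 4) (nat_lit 4) (nat_lit 5) (nat_lit 4) (nat_lit 4) (nat_lit 280) (nat_lit 241) (nat_lit 139))))) (XT.nd (nat_lit 234) (nat_lit 0) (nat_lit 0) (XT.nd (nat_lit 78) (nat_lit 0) (nat_lit 0) (XT.lf (nat_lit 0) (nat_lit 4198575706402) (nat_lit 76) (nat_lit 994056158031) (nat_lit 76) (nat_lit 714168708524) (nat_lit 3) (nat_lit 4) (nat_lit 4) (nat_lit 5) (nat_lit 4) (nat_lit 4) (nat_lit 281) (nat_lit 241) (nat_lit 138)) (XT.nd (nat_lit 78) (nat_lit 0) (nat_lit 0) (XT.lf (nat_lit 0) (nat_lit 5353100824451) (nat_lit 76) (nat_lit 848824126945) (nat_lit 76) (nat_lit 568936656997) (nat_lit 3) (nat_lit 4) (nat_lit 4) (nat_lit 5) (nat_lit 4) (nat_lit 4) (nat_lit 282) (nat_lit 241) (nat_lit 137))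 (XT.lf (nat_lit 0) (nat_lit 6680804638560) (nat_lit 76) (nat_lit 681807325653) (nat_lit 76) (nat_lit 401919837930) (nat_lit 3) (nat_lit 4) (nat_lit 4) (nat_lit 5) (nat_lit 4) (nat_lit 4) (nat_lit 283) (nat_lit 241) (nat_lit 136)))) (XT.nd (nat_lit 31122) (nat_lit 0) (nat_lit 3116) (XT.lf (nat_lit 0) (nat_lit 8207663962483) (nat_lit 76) (nat_lit 489738034129) (nat_lit 76) (nat_lit 209850530951) (nat_lit 3) (nat_lit 4) (nat_lit 4) (nat_lit 5) (nat_lit 4) (nat_lit 4) (nat_lit 284) (nat_lit 241) (nat_lit 135)) (XT.nd (nat_lit 78) (nat_lit 0) (nat_lit 76) (XT.lf (nat_lit 0) (nat_lit 26417263979) (nat_lit 532) (nat_lit 8907142092) (nat_lit 532) (nat_lit 8907142092) (nat_lit 44) (nat_lit 3) (nat_lit 51) (nat_lit 3) (nat_lit 51) (nat_lit 5) (nat_lit 242) (nat_lit 242) (nat_lit 176)) (XT.lf (nat_lit 0) (nat_lit 58317634383) (nat_lit 456) (nat_lit 34574525486) (nat_lit 532) (nat_lit 2083982474)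 (nat_lit 45) (nat_lit 5) (nat_lit 51) (nat_lit 5) (nat_lit 52) (nat_lit 5) (nat_lit 243) (nat_lit 242) (nat_lit 175)))))) (XT.nd (nat_lit 468) (nat_lit 1064) (nat_lit 0) (XT.nd (nat_lit 234) (nat_lit 532) (nat_lit 0) (XT.nd (nat_lit 78) (nat_lit 304) (nat_lit 0) (XT.lf (nat_lit 76) (nat_lit 49511737275) (nat_lit 0) (nat_lit 18785862824) (nat_lit 532) (nat_lit 33874601684) (nat_lit 46) (nat_lit 5) (nat_lit 45) (nat_lit 5) (nat_lit 52) (nat_lit 5) (nat_lit 244) (nat_lit 242) (nat_lit 174)) (XT.nd (nat_lit 78) (nat_lit 380) (nat_lit 0) (XT.lf (nat_lit 76) (nat_lit 38224018914) (nat_lit 0) (nat_lit 45098221131) (nat_lit 532) (nat_lit 26841622691) (nat_lit 47) (nat_lit 5) (nat_lit 46) (nat_lit 5) (nat_lit 53) (nat_lit 5) (nat_lit 245) (nat_lit 242) (nat_lit 173)) (XT.lf (nat_lit 0) (nat_lit 26487421996) (nat_lit 456) (nat_lit 77815819290) (nat_lit 532) (nat_lit 14754824361) (nat_lit 41) (nat_lit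 5) (nat_lit 47) (nat_lit 5) (nat_lit 48) (nat_lit 5) (nat_lit 246) (nat_lit 242) (nat_lit 172)))) (XT.nd (nat_lit 78) (nat_lit 228) (nat_lit 0) (XT.lf (nat_lit 0) (nat_lit 3202090279) (nat_lit 304) (nat_lit 114912125856) (nat_lit 76) (nat_lit 10852686703) (nat_lit 37) (nat_lit 5) (nat_lit 41) (nat_lit 5) (nat_lit 38) (nat_lit 5) (nat_lit 247) (nat_lit 242) (nat_lit 171)) (XT.nd (nat_lit 78) (nat_lit 228) (nat_lit 0) (XT.lf (nat_lit 0) (nat_lit 27919474915) (nat_lit 304) (nat_lit 498577412) (nat_lit 76) (nat_lit 111518111487) (nat_lit 37) (nat_lit 5) (nat_lit 41) (nat_lit 5) (nat_lit 38) (nat_lit 5) (nat_lit 248) (nat_lit 242) (nat_lit 170)) (XT.lf (nat_lit 0) (nat_lit 61544999375) (nat_lit 304) (nat_lit 16191188107) (nat_lit 76) (nat_lit 74398587564) (nat_lit 34) (nat_lit 5) (nat_lit 38) (nat_lit 5) (nat_lit 35) (nat_lit 5) (nat_lit 249) (nat_lit 242) (nat_lit 169))))) (XT.nd (nat_lit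 234) (nat_lit 456) (nat_lit 0) (XT.nd (nat_lit 78) (nat_lit 380) (nat_lit 0) (XT.lf (nat_lit 0) (nat_lit 104884277910) (nat_lit 304) (nat_lit 33962380742) (nat_lit 76) (nat_lit 26942928476) (nat_lit 31) (nat_lit 5) (nat_lit 35) (nat_lit 5) (nat_lit 32) (nat_lit 5) (nat_lit 250) (nat_lit 242) (nat_lit 168)) (XT.nd (nat_lit 78) (nat_lit 228) (nat_lit 0) (XT.lf (nat_lit 0) (nat_lit 125698266953) (nat_lit 152) (nat_lit 34681768134) (nat_lit 228) (nat_lit 20660141765) (nat_lit 29) (nat_lit 5) (nat_lit 31) (nat_lit 5) (nat_lit 32) (nat_lit 5) (nat_lit 251) (nat_lit 242) (nat_lit 167)) (XT.lf (nat_lit 0) (nat_lit 30357611834) (nat_lit 228) (nat_lit 82252045347) (nat_lit 76) (nat_lit 85438002318) (nat_lit 26) (nat_lit 5) (nat_lit 29) (nat_lit 5) (nat_lit 27) (nat_lit 5) (nat_lit 252) (nat_lit 242) (nat_lit 166)))) (XT.nd (nat_lit 78) (nat_lit 304) (nat_lit 0) (XT.lf (nat_lit 0) (nat_lit 93123060245)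 (nat_lit 228) (nat_lit 115367509063) (nat_lit 76) (nat_lit 8647299598) (nat_lit 24) (nat_lit 5) (nat_lit 27) (nat_lit 5) (nat_lit 25) (nat_lit 5) (nat_lit 253) (nat_lit 242) (nat_lit 165)) (XT.nd (nat_lit 78) (nat_lit 152) (nat_lit 0) (XT.lf (nat_lit 0) (nat_lit 80316876363) (nat_lit 152) (nat_lit 92488632772) (nat_lit 228) (nat_lit 65685927626) (nat_lit 22) (nat_lit 5) (nat_lit 24) (nat_lit 5) (nat_lit 25) (nat_lit 5) (nat_lit 254) (nat_lit 242) (nat_lit 164)) (XT.lf (nat_lit 0) (nat_lit 7126387385) (nat_lit 152) (nat_lit 211734084474) (nat_lit 76) (nat_lit 43720590572) (nat_lit 20) (nat_lit 5) (nat_lit 22) (nat_lit 5) (nat_lit 21) (nat_lit 5) (nat_lit 255) (nat_lit 242) (nat_lit 163))))))))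
noncomputable def xc49 : XT := (XT.nd (nat_lit 1872) (nat_lit 0) (nat_lit 0) (XT.nd (nat_lit 936) (nat_lit 304) (nat_lit 0) (XT.nd (nat_lit 468) (nat_lit 456) (nat_lit 0) (XT.nd (nat_lit 234) (nat_lit 304) (nat_lit 0) (XT.nd (nat_lit 78) (nat_lit 76) (nat_lit 0) (XT.lf (nat_lit 0) (nat_lit 6725597171) (nat_lit 152) (nat_lit 87799948814) (nat_lit 228) (nat_lit 195017750011) (nat_lit 18) (nat_lit 5) (nat_lit 20) (nat_lit 5) (nat_lit 21) (nat_lit 5) (nat_lit 256) (nat_lit 242) (nat_lit 162)) (XT.nd (nat_lit 78) (nat_lit 76) (nat_lit 0) (XT.lf (nat_lit 0) (nat_lit 202871681218) (nat_lit 228) (nat_lit 50954897367) (nat_lit 76) (nat_lit 66096318813) (nat_lit 18) (nat_lit 5) (nat_lit 21) (nat_lit 5) (nat_lit 19) (nat_lit 4) (nat_lit 257) (nat_lit 242) (nat_lit 161)) (XT.lf (nat_lit 0) (nat_lit 224487869063) (nat_lit 76) (nat_lit 110808578515) (nat_lit 152) (nat_lit 18936855462) (nat_lit 17)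 (nat_lit 5) (nat_lit 18) (nat_lit 5) (nat_lit 19) (nat_lit 4) (nat_lit 258) (nat_lit 242) (nat_lit 160)))) (XT.nd (nat_lit 78) (nat_lit 76) (nat_lit 0) (XT.lf (nat_lit 0) (nat_lit 95964129295) (nat_lit 228) (nat_lit 238292196238) (nat_lit 76) (nat_lit 58711974326) (nat_lit 14) (nat_lit 5) (nat_lit 17) (nat_lit 5) (nat_lit 15) (nat_lit 4) (nat_lit 259) (nat_lit 242) (nat_lit 159)) (XT.nd (nat_lit 78) (nat_lit 0) (nat_lit 0) (XT.lf (nat_lit 0) (nat_lit 51284592341) (nat_lit 76) (nat_lit 183899398491) (nat_lit 152) (nat_lit 201633806508) (nat_lit 13) (nat_lit 5) (nat_lit 14) (nat_lit 5) (nat_lit 15) (nat_lit 4) (nat_lit 260) (nat_lit 242) (nat_lit 158)) (XT.lf (nat_lit 0) (nat_lit 398727395185) (nat_lit 76) (nat_lit 3496623527) (nat_lit 152) (nat_lit 84465726308) (nat_lit 13) (nat_lit 5) (nat_lit 14) (nat_lit 5) (nat_lit 15) (nat_lit 4) (nat_lit 261) (nat_lit 242) (nat_lit 157))))) (XT.nd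 (nat_lit 234) (nat_lit 228) (nat_lit 0) (XT.nd (nat_lit 78) (nat_lit 76) (nat_lit 0) (XT.lf (nat_lit 0) (nat_lit 59271210991) (nat_lit 152) (nat_lit 282177880691) (nat_lit 76) (nat_lit 201575960872) (nat_lit 11) (nat_lit 5) (nat_lit 13) (nat_lit 5) (nat_lit 12) (nat_lit 4) (nat_lit 262) (nat_lit 242) (nat_lit 156)) (XT.nd (nat_lit 78) (nat_lit 0) (nat_lit 0) (XT.lf (nat_lit 0) (nat_lit 60211094134) (nat_lit 76) (nat_lit 163670354111) (nat_lit 152) (nat_lit 383408569324) (nat_lit 10) (nat_lit 5) (nat_lit 11) (nat_lit 5) (nat_lit 12) (nat_lit 4) (nat_lit 263) (nat_lit 242) (nat_lit 155)) (XT.lf (nat_lit 0) (nat_lit 422592223408) (nat_lit 152) (nat_lit 210685889661) (nat_lit 0) (nat_lit 47163894413) (nat_lit 10) (nat_lit 5) (nat_lit 12) (nat_lit 4) (nat_lit 10) (nat_lit 4) (nat_lit 264) (nat_lit 242) (nat_lit 154)))) (XT.nd (nat_lit 78) (nat_lit 152) (nat_lit 0) (XT.lf (nat_lit 0) (nat_lit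 180677050797) (nat_lit 76) (nat_lit 479304280096) (nat_lit 76) (nat_lit 103875727994) (nat_lit 9) (nat_lit 4) (nat_lit 10) (nat_lit 5) (nat_lit 10) (nat_lit 4) (nat_lit 265) (nat_lit 242) (nat_lit 153)) (XT.nd (nat_lit 78) (nat_lit 76) (nat_lit 0) (XT.lf (nat_lit 0) (nat_lit 75825899471) (nat_lit 152) (nat_lit 217710875207) (nat_lit 76) (nat_lit 565603331711) (nat_lit 8) (nat_lit 5) (nat_lit 10) (nat_lit 5) (nat_lit 9) (nat_lit 4) (nat_lit 266) (nat_lit 242) (nat_lit 152)) (XT.lf (nat_lit 0) (nat_lit 210221372746) (nat_lit 76) (nat_lit 71341265501) (nat_lit 152) (nat_lit 686518689746) (nat_lit 7) (nat_lit 5) (nat_lit 8) (nat_lit 5) (nat_lit 9) (nat_lit 4) (nat_lit 267) (nat_lit 242) (nat_lit 151)))))) (XT.nd (nat_lit 468) (nat_lit 76) (nat_lit 0) (XT.nd (nat_lit 234) (nat_lit 152) (nat_lit 0) (XT.nd (nat_lit 78) (nat_lit 76) (nat_lit 0) (XT.lf (nat_lit 0) (nat_lit 529092341316) (nat_lit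 152) (nat_lit 381923955495) (nat_lit 0) (nat_lit 181472839923) (nat_lit 7) (nat_lit 5) (nat_lit 9) (nat_lit 4) (nat_lit 7) (nat_lit 4) (nat_lit 268) (nat_lit 242) (nat_lit 150)) (XT.nd (nat_lit 78) (nat_lit 0) (nat_lit 0) (XT.lf (nat_lit 0) (nat_lit 50979148438) (nat_lit 76) (nat_lit 765971334674) (nat_lit 76) (nat_lit 418351715168) (nat_lit 6) (nat_lit 4) (nat_lit 7) (nat_lit 5) (nat_lit 7) (nat_lit 4) (nat_lit 269) (nat_lit 242) (nat_lit 149)) (XT.lf (nat_lit 0) (nat_lit 571945546355) (nat_lit 76) (nat_lit 587160932227) (nat_lit 76) (nat_lit 239541210014) (nat_lit 6) (nat_lit 4) (nat_lit 7) (nat_lit 5) (nat_lit 7) (nat_lit 4) (nat_lit 270) (nat_lit 242) (nat_lit 148)))) (XT.nd (nat_lit 78) (nat_lit 152) (nat_lit 0) (XT.lf (nat_lit 0) (nat_lit 1171056620416) (nat_lit 76) (nat_lit 381529102847) (nat_lit 76) (nat_lit 33909291323) (nat_lit 6) (nat_lit 4) (nat_lit 7) (nat_lit 5) (nat_lit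 7) (nat_lit 4) (nat_lit 271) (nat_lit 242) (nat_lit 147)) (XT.nd (nat_lit 78) (nat_lit 0) (nat_lit 0) (XT.lf (nat_lit 0) (nat_lit 55414993606) (nat_lit 76) (nat_lit 138351776966) (nat_lit 152) (nat_lit 1608256321066) (nat_lit 4) (nat_lit 5) (nat_lit 5) (nat_lit 5) (nat_lit 6) (nat_lit 4) (nat_lit 272) (nat_lit 242) (nat_lit 146)) (XT.lf (nat_lit 0) (nat_lit 469450913724) (nat_lit 152) (nat_lit 1431509263874) (nat_lit 0) (nat_lit 147580583431) (nat_lit 4) (nat_lit 5) (nat_lit 6) (nat_lit 4) (nat_lit 4) (nat_lit 4) (nat_lit 273) (nat_lit 242) (nat_lit 145))))) (XT.nd (nat_lit 234) (nat_lit 76) (nat_lit 0) (XT.nd (nat_lit 78) (nat_lit 0) (nat_lit 0) (XT.lf (nat_lit 0) (nat_lit 790314037951) (nat_lit 152) (nat_lit 1072972280896) (nat_lit 0) (nat_lit 468443653285) (nat_lit 4) (nat_lit 5) (nat_lit 6) (nat_lit 4) (nat_lit 4) (nat_lit 4) (nat_lit 274) (nat_lit 242) (nat_lit 144)) (XT.nd (nat_lit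 78) (nat_lit 0) (nat_lit 0) (XT.lf (nat_lit 0) (nat_lit 1159306536467) (nat_lit 152) (nat_lit 660654931521) (nat_lit 0) (nat_lit 837436104520) (nat_lit 4) (nat_lit 5) (nat_lit 6) (nat_lit 4) (nat_lit 4) (nat_lit 4) (nat_lit 275) (nat_lit 242) (nat_lit 143)) (XT.lf (nat_lit 0) (nat_lit 1583647827723) (nat_lit 152) (nat_lit 186490137174) (nat_lit 0) (nat_lit 1261777354662) (nat_lit 4) (nat_lit 5) (nat_lit 6) (nat_lit 4) (nat_lit 4) (nat_lit 4) (nat_lit 276) (nat_lit 242) (nat_lit 142)))) (XT.nd (nat_lit 78) (nat_lit 0) (nat_lit 0) (XT.lf (nat_lit 0) (nat_lit 377692971527) (nat_lit 76) (nat_lit 1703030794850) (nat_lit 76) (nat_lit 1381160286038) (nat_lit 3) (nat_lit 4) (nat_lit 4) (nat_lit 5) (nat_lit 4) (nat_lit 4) (nat_lit 277) (nat_lit 242) (nat_lit 141)) (XT.nd (nat_lit 78) (nat_lit 0) (nat_lit 0) (XT.lf (nat_lit 0) (nat_lit 1037796697377) (nat_lit 76) (nat_lit 1619993793095) (nat_lit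 76) (nat_lit 1298123253196) (nat_lit 3) (nat_lit 4) (nat_lit 4) (nat_lit 5) (nat_lit 4) (nat_lit 4) (nat_lit 278) (nat_lit 242) (nat_lit 140)) (XT.lf (nat_lit 0) (nat_lit 1796915873139) (nat_lit 76) (nat_lit 1524501293482) (nat_lit 76) (nat_lit 1202630726549) (nat_lit 3) (nat_lit 4) (nat_lit 4) (nat_lit 5) (nat_lit 4) (nat_lit 4) (nat_lit 279) (nat_lit 242) (nat_lit 139))))))) (XT.nd (nat_lit 32136) (nat_lit 0) (nat_lit 760) (XT.nd (nat_lit 31668) (nat_lit 0) (nat_lit 2356) (XT.nd (nat_lit 234) (nat_lit 0) (nat_lit 0) (XT.nd (nat_lit 78) (nat_lit 0) (nat_lit 0) (XT.lf (nat_lit 0) (nat_lit 2669902830511) (nat_lit 76) (nat_lit 1414684964495) (nat_lit 76) (nat_lit 1092814374055) (nat_lit 3) (nat_lit 4) (nat_lit 4) (nat_lit 5) (nat_lit 4) (nat_lit 4) (nat_lit 280) (nat_lit 242) (nat_lit 138)) (XT.nd (nat_lit 78) (nat_lit 0) (nat_lit 0) (XT.lf (nat_lit 0) (nat_lit 3673837749095) (nat_lit 76)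 (nat_lit 1288396225786) (nat_lit 76) (nat_lit 966525614905) (nat_lit 3) (nat_lit 4) (nat_lit 4) (nat_lit 5) (nat_lit 4) (nat_lit 4) (nat_lit 281) (nat_lit 242) (nat_lit 137)) (XT.lf (nat_lit 0) (nat_lit 4828362833820) (nat_lit 76) (nat_lit 1143164210726) (nat_lit 76) (nat_lit 821293582071) (nat_lit 3) (nat_lit 4) (nat_lit 4) (nat_lit 5) (nat_lit 4) (nat_lit 4) (nat_lit 282) (nat_lit 242) (nat_lit 136)))) (XT.nd (nat_lit 31278) (nat_lit 0) (nat_lit 3116) (XT.lf (nat_lit 0) (nat_lit 6156066618951) (nat_lit 76) (nat_lit 976147423370) (nat_lit 76) (nat_lit 654276779259) (nat_lit 3) (nat_lit 4) (nat_lit 4) (nat_lit 5) (nat_lit 4) (nat_lit 4) (nat_lit 283) (nat_lit 242) (nat_lit 135)) (XT.nd (nat_lit 78) (nat_lit 0) (nat_lit 76) (XT.lf (nat_lit 0) (nat_lit 30393012241) (nat_lit 532) (nat_lit 10236086224) (nat_lit 532) (nat_lit 10236086224) (nat_lit 44) (nat_lit 3) (nat_lit 51) (nat_lit 3) (nat_lit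 51) (nat_lit 5) (nat_lit 243) (nat_lit 243) (nat_lit 174)) (XT.lf (nat_lit 0) (nat_lit 67088233851) (nat_lit 456) (nat_lit 39745481720) (nat_lit 532) (nat_lit 2386936988) (nat_lit 45) (nat_lit 5) (nat_lit 51) (nat_lit 5) (nat_lit 52) (nat_lit 5) (nat_lit 244) (nat_lit 243) (nat_lit 173))))) (XT.nd (nat_lit 234) (nat_lit 532) (nat_lit 0) (XT.nd (nat_lit 78) (nat_lit 304) (nat_lit 0) (XT.lf (nat_lit 76) (nat_lit 56952431940) (nat_lit 0) (nat_lit 21610103560) (nat_lit 532) (nat_lit 38933807885) (nat_lit 46) (nat_lit 5) (nat_lit 45) (nat_lit 5) (nat_lit 52) (nat_lit 5) (nat_lit 245) (nat_lit 243) (nat_lit 172)) (XT.nd (nat_lit 78) (nat_lit 380) (nat_lit 0) (XT.lf (nat_lit 76) (nat_lit 43972062143) (nat_lit 0) (nat_lit 51866376327) (nat_lit 532) (nat_lit 30848518131) (nat_lit 47) (nat_lit 5) (nat_lit 46) (nat_lit 5) (nat_lit 53) (nat_lit 5) (nat_lit 246) (nat_lit 243) (nat_lit 171)) (XT.lf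 (nat_lit 0) (nat_lit 30475188514) (nat_lit 456) (nat_lit 89489352348) (nat_lit 532) (nat_lit 16950920386) (nat_lit 41) (nat_lit 5) (nat_lit 47) (nat_lit 5) (nat_lit 48) (nat_lit 5) (nat_lit 247) (nat_lit 243) (nat_lit 170)))) (XT.nd (nat_lit 78) (nat_lit 228) (nat_lit 0) (XT.lf (nat_lit 0) (nat_lit 3696888754) (nat_lit 304) (nat_lit 132133500950) (nat_lit 76) (nat_lit 12480350170) (nat_lit 37) (nat_lit 5) (nat_lit 41) (nat_lit 5) (nat_lit 38) (nat_lit 5) (nat_lit 248) (nat_lit 243) (nat_lit 169)) (XT.nd (nat_lit 78) (nat_lit 228) (nat_lit 0) (XT.lf (nat_lit 0) (nat_lit 32119991747) (nat_lit 304) (nat_lit 559934647) (nat_lit 76) (nat_lit 128245619917) (nat_lit 37) (nat_lit 5) (nat_lit 41) (nat_lit 5) (nat_lit 38) (nat_lit 5) (nat_lit 249) (nat_lit 243) (nat_lit 168)) (XT.lf (nat_lit 0) (nat_lit 70788022727) (nat_lit 304) (nat_lit 18606668986) (nat_lit 76) (nat_lit 85559367777) (nat_lit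 34) (nat_lit 5) (nat_lit 38) (nat_lit 5) (nat_lit 35) (nat_lit 5) (nat_lit 250) (nat_lit 243) (nat_lit 167)))))) (XT.nd (nat_lit 468) (nat_lit 532) (nat_lit 0) (XT.nd (nat_lit 234) (nat_lit 456) (nat_lit 0) (XT.nd (nat_lit 78) (nat_lit 380) (nat_lit 0) (XT.lf (nat_lit 0) (nat_lit 120627060903) (nat_lit 304) (nat_lit 39043871870) (nat_lit 76) (nat_lit 30986255086) (nat_lit 31) (nat_lit 5) (nat_lit 35) (nat_lit 5) (nat_lit 32) (nat_lit 5) (nat_lit 251) (nat_lit 243) (nat_lit 166)) (XT.nd (nat_lit 78) (nat_lit 228) (nat_lit 0) (XT.lf (nat_lit 0) (nat_lit 144564783938) (nat_lit 152) (nat_lit 39881358176) (nat_lit 228) (nat_lit 23749310488) (nat_lit 29) (nat_lit 5) (nat_lit 31) (nat_lit 5) (nat_lit 32) (nat_lit 5) (nat_lit 252) (nat_lit 243) (nat_lit 165)) (XT.lf (nat_lit 0) (nat_lit 34919731359) (nat_lit 228) (nat_lit 94577979079) (nat_lit 76) (nat_lit 98256401539) (nat_lit 26) (nat_lit 5)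 (nat_lit 29) (nat_lit 5) (nat_lit 27) (nat_lit 5) (nat_lit 253) (nat_lit 243) (nat_lit 164)))) (XT.nd (nat_lit 78) (nat_lit 304) (nat_lit 0) (XT.lf (nat_lit 0) (nat_lit 107099230411) (nat_lit 228) (nat_lit 132661218628) (nat_lit 76) (nat_lit 9947467464) (nat_lit 24) (nat_lit 5) (nat_lit 27) (nat_lit 5) (nat_lit 25) (nat_lit 5) (nat_lit 254) (nat_lit 243) (nat_lit 163)) (XT.nd (nat_lit 78) (nat_lit 152) (nat_lit 0) (XT.lf (nat_lit 0) (nat_lit 92374858237) (nat_lit 152) (nat_lit 106358433931) (nat_lit 228) (nat_lit 75531289793) (nat_lit 22) (nat_lit 5) (nat_lit 24) (nat_lit 5) (nat_lit 25) (nat_lit 5) (nat_lit 255) (nat_lit 243) (nat_lit 162)) (XT.lf (nat_lit 0) (nat_lit 8201885254) (nat_lit 152) (nat_lit 243483830704) (nat_lit 76) (nat_lit 50281971559) (nat_lit 20) (nat_lit 5) (nat_lit 22) (nat_lit 5) (nat_lit 21) (nat_lit 5) (nat_lit 256) (nat_lit 243) (nat_lit 161))))) (XT.nd (nat_lit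 234) (nat_lit 304) (nat_lit 0) (XT.nd (nat_lit 78) (nat_lit 76) (nat_lit 0) (XT.lf (nat_lit 0) (nat_lit 7743925720) (nat_lit 152) (nat_lit 100966367122) (nat_lit 228) (nat_lit 224264014708) (nat_lit 18) (nat_lit 5) (nat_lit 20) (nat_lit 5) (nat_lit 21) (nat_lit 5) (nat_lit 257) (nat_lit 243) (nat_lit 160)) (XT.nd (nat_lit 78) (nat_lit 76) (nat_lit 0) (XT.lf (nat_lit 0) (nat_lit 233307651587) (nat_lit 228) (nat_lit 58589535568) (nat_lit 76) (nat_lit 76013719007) (nat_lit 18) (nat_lit 5) (nat_lit 21) (nat_lit 5) (nat_lit 19) (nat_lit 4) (nat_lit 258) (nat_lit 243) (nat_lit 159)) (XT.lf (nat_lit 0) (nat_lit 258168918183) (nat_lit 76) (nat_lit 127426723328) (nat_lit 152) (nat_lit 21772271545) (nat_lit 17) (nat_lit 5) (nat_lit 18) (nat_lit 5) (nat_lit 19) (nat_lit 4) (nat_lit 259) (nat_lit 243) (nat_lit 158)))) (XT.nd (nat_lit 78) (nat_lit 76) (nat_lit 0) (XT.lf (nat_lit 0) (nat_lit 110363223873)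 (nat_lit 228) (nat_lit 274028297788) (nat_lit 76) (nat_lit 67521659288) (nat_lit 14) (nat_lit 5) (nat_lit 17) (nat_lit 5) (nat_lit 15) (nat_lit 4) (nat_lit 260) (nat_lit 243) (nat_lit 157)) (XT.nd (nat_lit 78) (nat_lit 0) (nat_lit 0) (XT.lf (nat_lit 0) (nat_lit 58984354951) (nat_lit 76) (nat_lit 211481296094) (nat_lit 152) (nat_lit 231874485861) (nat_lit 13) (nat_lit 5) (nat_lit 14) (nat_lit 5) (nat_lit 15) (nat_lit 4) (nat_lit 261) (nat_lit 243) (nat_lit 156)) (XT.lf (nat_lit 0) (nat_lit 458542655558) (nat_lit 76) (nat_lit 4018497778) (nat_lit 152) (nat_lit 97131766450) (nat_lit 13) (nat_lit 5) (nat_lit 14) (nat_lit 5) (nat_lit 15) (nat_lit 4) (nat_lit 262) (nat_lit 243) (nat_lit 155))))))))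
noncomputable def xc50 : XT := (XT.nd (nat_lit 33150) (nat_lit 0) (nat_lit 304) (XT.nd (nat_lit 936) (nat_lit 76) (nat_lit 0) (XT.nd (nat_lit 468) (nat_lit 228) (nat_lit 0) (XT.nd (nat_lit 234) (nat_lit 228) (nat_lit 0) (XT.nd (nat_lit 78) (nat_lit 76) (nat_lit 0) (XT.lf (nat_lit 0) (nat_lit 68165247412) (nat_lit 152) (nat_lit 324498547093) (nat_lit 76) (nat_lit 231814743974) (nat_lit 11) (nat_lit 5) (nat_lit 13) (nat_lit 5) (nat_lit 12) (nat_lit 4) (nat_lit 263) (nat_lit 243) (nat_lit 154)) (XT.nd (nat_lit 78) (nat_lit 0) (nat_lit 0) (XT.lf (nat_lit 0) (nat_lit 69248264757) (nat_lit 76) (nat_lit 188218450350) (nat_lit 152) (nat_lit 440916558018) (nat_lit 10) (nat_lit 5) (nat_lit 11) (nat_lit 5) (nat_lit 12) (nat_lit 4) (nat_lit 264) (nat_lit 243) (nat_lit 153)) (XT.lf (nat_lit 0) (nat_lit 485983760148) (nat_lit 152) (nat_lit 242283821376) (nat_lit 0) (nat_lit 54240508118) (nat_lit 10)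 (nat_lit 5) (nat_lit 12) (nat_lit 4) (nat_lit 10) (nat_lit 4) (nat_lit 265) (nat_lit 243) (nat_lit 152)))) (XT.nd (nat_lit 78) (nat_lit 152) (nat_lit 0) (XT.lf (nat_lit 0) (nat_lit 207783141012) (nat_lit 76) (nat_lit 551197849158) (nat_lit 76) (nat_lit 119454428427) (nat_lit 9) (nat_lit 4) (nat_lit 10) (nat_lit 5) (nat_lit 10) (nat_lit 4) (nat_lit 266) (nat_lit 243) (nat_lit 151)) (XT.nd (nat_lit 78) (nat_lit 76) (nat_lit 0) (XT.lf (nat_lit 0) (nat_lit 87201980707) (nat_lit 152) (nat_lit 250363447554) (nat_lit 76) (nat_lit 650445516487) (nat_lit 8) (nat_lit 5) (nat_lit 10) (nat_lit 5) (nat_lit 9) (nat_lit 4) (nat_lit 267) (nat_lit 243) (nat_lit 150)) (XT.lf (nat_lit 0) (nat_lit 241758294023) (nat_lit 76) (nat_lit 82040739155) (nat_lit 152) (nat_lit 789494332431) (nat_lit 7) (nat_lit 5) (nat_lit 8) (nat_lit 5) (nat_lit 9) (nat_lit 4) (nat_lit 268) (nat_lit 243) (nat_lit 149))))) (XT.nd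 (nat_lit 234) (nat_lit 152) (nat_lit 0) (XT.nd (nat_lit 78) (nat_lit 76) (nat_lit 0) (XT.lf (nat_lit 0) (nat_lit 608457966834) (nat_lit 152) (nat_lit 439209213451) (nat_lit 0) (nat_lit 208695183582) (nat_lit 7) (nat_lit 5) (nat_lit 9) (nat_lit 4) (nat_lit 7) (nat_lit 4) (nat_lit 269) (nat_lit 243) (nat_lit 148)) (XT.nd (nat_lit 78) (nat_lit 0) (nat_lit 0) (XT.lf (nat_lit 0) (nat_lit 58629073749) (nat_lit 76) (nat_lit 880865598142) (nat_lit 76) (nat_lit 481102725580) (nat_lit 6) (nat_lit 4) (nat_lit 7) (nat_lit 5) (nat_lit 7) (nat_lit 4) (nat_lit 270) (nat_lit 243) (nat_lit 147)) (XT.lf (nat_lit 0) (nat_lit 657740033131) (nat_lit 76) (nat_lit 675233822728) (nat_lit 76) (nat_lit 275470872505) (nat_lit 6) (nat_lit 4) (nat_lit 7) (nat_lit 5) (nat_lit 7) (nat_lit 4) (nat_lit 271) (nat_lit 243) (nat_lit 146)))) (XT.nd (nat_lit 78) (nat_lit 152) (nat_lit 0) (XT.lf (nat_lit 0) (nat_lit 1346717422020)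 (nat_lit 76) (nat_lit 438757381897) (nat_lit 76) (nat_lit 38994364142) (nat_lit 6) (nat_lit 4) (nat_lit 7) (nat_lit 5) (nat_lit 7) (nat_lit 4) (nat_lit 272) (nat_lit 243) (nat_lit 145)) (XT.nd (nat_lit 78) (nat_lit 0) (nat_lit 0) (XT.lf (nat_lit 0) (nat_lit 63729417062) (nat_lit 76) (nat_lit 159103512524) (nat_lit 152) (nat_lit 1849493533565) (nat_lit 4) (nat_lit 5) (nat_lit 5) (nat_lit 5) (nat_lit 6) (nat_lit 4) (nat_lit 273) (nat_lit 243) (nat_lit 144)) (XT.lf (nat_lit 0) (nat_lit 539869566629) (nat_lit 152) (nat_lit 1646233704018) (nat_lit 0) (nat_lit 169718522610) (nat_lit 4) (nat_lit 5) (nat_lit 6) (nat_lit 4) (nat_lit 4) (nat_lit 4) (nat_lit 274) (nat_lit 243) (nat_lit 143)))))) (XT.nd (nat_lit 468) (nat_lit 0) (nat_lit 0) (XT.nd (nat_lit 234) (nat_lit 76) (nat_lit 0) (XT.nd (nat_lit 78) (nat_lit 0) (nat_lit 0) (XT.lf (nat_lit 0) (nat_lit 908862026988) (nat_lit 152) (nat_lit 1233916427868)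 (nat_lit 0) (nat_lit 538710941855) (nat_lit 4) (nat_lit 5) (nat_lit 6) (nat_lit 4) (nat_lit 4) (nat_lit 4) (nat_lit 275) (nat_lit 243) (nat_lit 142)) (XT.nd (nat_lit 78) (nat_lit 0) (nat_lit 0) (XT.lf (nat_lit 0) (nat_lit 1333203285063) (nat_lit 152) (nat_lit 759751697195) (nat_lit 0) (nat_lit 963052164178) (nat_lit 4) (nat_lit 5) (nat_lit 6) (nat_lit 4) (nat_lit 4) (nat_lit 4) (nat_lit 276) (nat_lit 243) (nat_lit 141)) (XT.lf (nat_lit 0) (nat_lit 1821195669817) (nat_lit 152) (nat_lit 214462375963) (nat_lit 0) (nat_lit 1451044517844) (nat_lit 4) (nat_lit 5) (nat_lit 6) (nat_lit 4) (nat_lit 4) (nat_lit 4) (nat_lit 277) (nat_lit 243) (nat_lit 140)))) (XT.nd (nat_lit 78) (nat_lit 0) (nat_lit 0) (XT.lf (nat_lit 0) (nat_lit 434348090546) (nat_lit 76) (nat_lit 1958484849819) (nat_lit 76) (nat_lit 1588333670813) (nat_lit 3) (nat_lit 4) (nat_lit 4) (nat_lit 5) (nat_lit 4) (nat_lit 4) (nat_lit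 278) (nat_lit 243) (nat_lit 139)) (XT.nd (nat_lit 78) (nat_lit 0) (nat_lit 0) (XT.lf (nat_lit 0) (nat_lit 1193467222236) (nat_lit 76) (nat_lit 1862992371400) (nat_lit 76) (nat_lit 1492841168887) (nat_lit 3) (nat_lit 4) (nat_lit 4) (nat_lit 5) (nat_lit 4) (nat_lit 4) (nat_lit 279) (nat_lit 243) (nat_lit 138)) (XT.lf (nat_lit 0) (nat_lit 2066454141285) (nat_lit 76) (nat_lit 1753176060844) (nat_lit 76) (nat_lit 1383024837890) (nat_lit 3) (nat_lit 4) (nat_lit 4) (nat_lit 5) (nat_lit 4) (nat_lit 4) (nat_lit 280) (nat_lit 243) (nat_lit 137))))) (XT.nd (nat_lit 31512) (nat_lit 0) (nat_lit 3116) (XT.nd (nat_lit 78) (nat_lit 0) (nat_lit 0) (XT.lf (nat_lit 0) (nat_lit 3070389026545) (nat_lit 76) (nat_lit 1626887338161) (nat_lit 76) (nat_lit 1256736097432) (nat_lit 3) (nat_lit 4) (nat_lit 4) (nat_lit 5) (nat_lit 4) (nat_lit 4) (nat_lit 281) (nat_lit 243) (nat_lit 136)) (XT.nd (nat_lit 78) (nat_lit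 0) (nat_lit 0) (XT.lf (nat_lit 0) (nat_lit 4224914082292) (nat_lit 76) (nat_lit 1481655337037) (nat_lit 76) (nat_lit 1111504080852) (nat_lit 3) (nat_lit 4) (nat_lit 4) (nat_lit 5) (nat_lit 4) (nat_lit 4) (nat_lit 282) (nat_lit 243) (nat_lit 135)) (XT.lf (nat_lit 0) (nat_lit 5552617842225) (nat_lit 76) (nat_lit 1314638561799) (nat_lit 76) (nat_lit 944487292174) (nat_lit 3) (nat_lit 4) (nat_lit 4) (nat_lit 5) (nat_lit 4) (nat_lit 4) (nat_lit 283) (nat_lit 243) (nat_lit 134)))) (XT.nd (nat_lit 78) (nat_lit 0) (nat_lit 76) (XT.lf (nat_lit 0) (nat_lit 34961913918) (nat_lit 532) (nat_lit 11766109985) (nat_lit 532) (nat_lit 11766109985) (nat_lit 44) (nat_lit 3) (nat_lit 51) (nat_lit 3) (nat_lit 51) (nat_lit 5) (nat_lit 244) (nat_lit 244) (nat_lit 172)) (XT.nd (nat_lit 78) (nat_lit 0) (nat_lit 0) (XT.lf (nat_lit 0) (nat_lit 77168825686) (nat_lit 456) (nat_lit 45695793514) (nat_lit 532) (nat_lit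 2737686151) (nat_lit 45) (nat_lit 5) (nat_lit 51) (nat_lit 5) (nat_lit 52) (nat_lit 5) (nat_lit 245) (nat_lit 244) (nat_lit 171)) (XT.lf (nat_lit 76) (nat_lit 65505832891) (nat_lit 0) (nat_lit 24856429160) (nat_lit 532) (nat_lit 44757255967) (nat_lit 46) (nat_lit 5) (nat_lit 45) (nat_lit 5) (nat_lit 52) (nat_lit 5) (nat_lit 246) (nat_lit 244) (nat_lit 170))))))) (XT.nd (nat_lit 936) (nat_lit 836) (nat_lit 0) (XT.nd (nat_lit 468) (nat_lit 988) (nat_lit 0) (XT.nd (nat_lit 234) (nat_lit 456) (nat_lit 0) (XT.nd (nat_lit 78) (nat_lit 684) (nat_lit 0) (XT.lf (nat_lit 76) (nat_lit 50578790475) (nat_lit 0) (nat_lit 59648920320) (nat_lit 532) (nat_lit 35461166010) (nat_lit 47) (nat_lit 5) (nat_lit 46) (nat_lit 5) (nat_lit 53) (nat_lit 5) (nat_lit 247) (nat_lit 244) (nat_lit 169)) (XT.nd (nat_lit 78) (nat_lit 304) (nat_lit 0) (XT.lf (nat_lit 0) (nat_lit 35057546730) (nat_lit 456) (nat_lit 102913632450)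 (nat_lit 532) (nat_lit 19480607496) (nat_lit 41) (nat_lit 5) (nat_lit 47) (nat_lit 5) (nat_lit 48) (nat_lit 5) (nat_lit 248) (nat_lit 244) (nat_lit 168)) (XT.lf (nat_lit 0) (nat_lit 4262374758) (nat_lit 304) (nat_lit 151941848373) (nat_lit 76) (nat_lit 14352221571) (nat_lit 37) (nat_lit 5) (nat_lit 41) (nat_lit 5) (nat_lit 38) (nat_lit 5) (nat_lit 249) (nat_lit 244) (nat_lit 167)))) (XT.nd (nat_lit 78) (nat_lit 456) (nat_lit 0) (XT.lf (nat_lit 0) (nat_lit 36947514588) (nat_lit 304) (nat_lit 633770305) (nat_lit 76) (nat_lit 147482305405) (nat_lit 37) (nat_lit 5) (nat_lit 41) (nat_lit 5) (nat_lit 38) (nat_lit 5) (nat_lit 250) (nat_lit 244) (nat_lit 166)) (XT.nd (nat_lit 78) (nat_lit 228) (nat_lit 0) (XT.lf (nat_lit 0) (nat_lit 81414750480) (nat_lit 304) (nat_lit 21387690251) (nat_lit 76) (nat_lit 98394023097) (nat_lit 34) (nat_lit 5) (nat_lit 38) (nat_lit 5) (nat_lit 35) (nat_lit 5) (nat_lit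 251) (nat_lit 244) (nat_lit 165)) (XT.lf (nat_lit 0) (nat_lit 138728788323) (nat_lit 304) (nat_lit 44890724119) (nat_lit 76) (nat_lit 35635620447) (nat_lit 31) (nat_lit 5) (nat_lit 35) (nat_lit 5) (nat_lit 32) (nat_lit 5) (nat_lit 252) (nat_lit 244) (nat_lit 164))))) (XT.nd (nat_lit 234) (nat_lit 456) (nat_lit 0) (XT.nd (nat_lit 78) (nat_lit 380) (nat_lit 0) (XT.lf (nat_lit 0) (nat_lit 166258406588) (nat_lit 152) (nat_lit 45861539083) (nat_lit 228) (nat_lit 27304257124) (nat_lit 29) (nat_lit 5) (nat_lit 31) (nat_lit 5) (nat_lit 32) (nat_lit 5) (nat_lit 253) (nat_lit 244) (nat_lit 163)) (XT.nd (nat_lit 78) (nat_lit 152) (nat_lit 0) (XT.lf (nat_lit 0) (nat_lit 40164101459) (nat_lit 228) (nat_lit 108755698195) (nat_lit 76) (nat_lit 112996902506) (nat_lit 26) (nat_lit 5) (nat_lit 29) (nat_lit 5) (nat_lit 27) (nat_lit 5) (nat_lit 254) (nat_lit 244) (nat_lit 162)) (XT.lf (nat_lit 0) (nat_lit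 123169945694) (nat_lit 228) (nat_lit 152551768686) (nat_lit 76) (nat_lit 11441911156) (nat_lit 24) (nat_lit 5) (nat_lit 27) (nat_lit 5) (nat_lit 25) (nat_lit 5) (nat_lit 255) (nat_lit 244) (nat_lit 161)))) (XT.nd (nat_lit 78) (nat_lit 304) (nat_lit 0) (XT.lf (nat_lit 0) (nat_lit 106238988991) (nat_lit 152) (nat_lit 122309557239) (nat_lit 228) (nat_lit 86855291785) (nat_lit 22) (nat_lit 5) (nat_lit 24) (nat_lit 5) (nat_lit 25) (nat_lit 5) (nat_lit 256) (nat_lit 244) (nat_lit 160)) (XT.nd (nat_lit 78) (nat_lit 152) (nat_lit 0) (XT.lf (nat_lit 0) (nat_lit 9437113041) (nat_lit 152) (nat_lit 279998566792) (nat_lit 76) (nat_lit 57826756822) (nat_lit 20) (nat_lit 5) (nat_lit 22) (nat_lit 5) (nat_lit 21) (nat_lit 5) (nat_lit 257) (nat_lit 244) (nat_lit 159)) (XT.lf (nat_lit 0) (nat_lit 8912689604) (nat_lit 152) (nat_lit 116108619722) (nat_lit 228) (nat_lit 257898779254) (nat_lit 18) (nat_lit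 5) (nat_lit 20) (nat_lit 5) (nat_lit 21) (nat_lit 5) (nat_lit 258) (nat_lit 244) (nat_lit 158)))))) (XT.nd (nat_lit 468) (nat_lit 304) (nat_lit 0) (XT.nd (nat_lit 234) (nat_lit 228) (nat_lit 0) (XT.nd (nat_lit 78) (nat_lit 304) (nat_lit 0) (XT.lf (nat_lit 0) (nat_lit 268307745023) (nat_lit 228) (nat_lit 67371465787) (nat_lit 76) (nat_lit 87418009276) (nat_lit 18) (nat_lit 5) (nat_lit 21) (nat_lit 5) (nat_lit 19) (nat_lit 4) (nat_lit 259) (nat_lit 244) (nat_lit 157)) (XT.nd (nat_lit 78) (nat_lit 228) (nat_lit 0) (XT.lf (nat_lit 0) (nat_lit 296900205824) (nat_lit 76) (nat_lit 146538356052) (nat_lit 152) (nat_lit 25034246691) (nat_lit 17) (nat_lit 5) (nat_lit 18) (nat_lit 5) (nat_lit 19) (nat_lit 4) (nat_lit 260) (nat_lit 244) (nat_lit 156)) (XT.lf (nat_lit 0) (nat_lit 126921091336) (nat_lit 228) (nat_lit 315126699065) (nat_lit 76) (nat_lit 77652092538) (nat_lit 14) (nat_lit 5) (nat_lit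 17) (nat_lit 5) (nat_lit 15) (nat_lit 4) (nat_lit 261) (nat_lit 244) (nat_lit 155)))) (XT.nd (nat_lit 78) (nat_lit 152) (nat_lit 0) (XT.lf (nat_lit 0) (nat_lit 67837356972) (nat_lit 76) (nat_lit 243201212875) (nat_lit 152) (nat_lit 266652338041) (nat_lit 13) (nat_lit 5) (nat_lit 14) (nat_lit 5) (nat_lit 15) (nat_lit 4) (nat_lit 262) (nat_lit 244) (nat_lit 154)) (XT.nd (nat_lit 78) (nat_lit 152) (nat_lit 0) (XT.lf (nat_lit 0) (nat_lit 527328705003) (nat_lit 76) (nat_lit 4619291893) (nat_lit 152) (nat_lit 111698643854) (nat_lit 13) (nat_lit 5) (nat_lit 14) (nat_lit 5) (nat_lit 15) (nat_lit 4) (nat_lit 263) (nat_lit 244) (nat_lit 153)) (XT.lf (nat_lit 0) (nat_lit 78392571213) (nat_lit 152) (nat_lit 373168780422) (nat_lit 76) (nat_lit 266588761976) (nat_lit 11) (nat_lit 5) (nat_lit 13) (nat_lit 5) (nat_lit 12) (nat_lit 4) (nat_lit 264) (nat_lit 244) (nat_lit 152))))) (XT.nd (nat_lit 234)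 (nat_lit 152) (nat_lit 0) (XT.nd (nat_lit 78) (nat_lit 76) (nat_lit 0) (XT.lf (nat_lit 0) (nat_lit 79639668177) (nat_lit 76) (nat_lit 216449360150) (nat_lit 152) (nat_lit 507051548938) (nat_lit 10) (nat_lit 5) (nat_lit 11) (nat_lit 5) (nat_lit 12) (nat_lit 4) (nat_lit 265) (nat_lit 244) (nat_lit 151)) (XT.nd (nat_lit 78) (nat_lit 76) (nat_lit 0) (XT.lf (nat_lit 0) (nat_lit 558883368199) (nat_lit 152) (nat_lit 278622650360) (nat_lit 0) (nat_lit 62378118962) (nat_lit 10) (nat_lit 5) (nat_lit 12) (nat_lit 4) (nat_lit 10) (nat_lit 4) (nat_lit 266) (nat_lit 244) (nat_lit 150)) (XT.lf (nat_lit 0) (nat_lit 238954039456) (nat_lit 76) (nat_lit 633875959082) (nat_lit 76) (nat_lit 137370582283) (nat_lit 9) (nat_lit 4) (nat_lit 10) (nat_lit 5) (nat_lit 10) (nat_lit 4) (nat_lit 267) (nat_lit 244) (nat_lit 149)))) (XT.nd (nat_lit 78) (nat_lit 76) (nat_lit 0) (XT.lf (nat_lit 0) (nat_lit 100283938544)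 (nat_lit 152) (nat_lit 287914895549) (nat_lit 76) (nat_lit 748013618077) (nat_lit 8) (nat_lit 5) (nat_lit 10) (nat_lit 5) (nat_lit 9) (nat_lit 4) (nat_lit 268) (nat_lit 244) (nat_lit 148)) (XT.nd (nat_lit 78) (nat_lit 0) (nat_lit 0) (XT.lf (nat_lit 0) (nat_lit 278024847477) (nat_lit 76) (nat_lit 94345552356) (nat_lit 152) (nat_lit 907916848438) (nat_lit 7) (nat_lit 5) (nat_lit 8) (nat_lit 5) (nat_lit 9) (nat_lit 4) (nat_lit 269) (nat_lit 244) (nat_lit 147)) (XT.lf (nat_lit 0) (nat_lit 699728003500) (nat_lit 152) (nat_lit 505088073451) (nat_lit 0) (nat_lit 240000533082) (nat_lit 7) (nat_lit 5) (nat_lit 9) (nat_lit 4) (nat_lit 7) (nat_lit 4) (nat_lit 270) (nat_lit 244) (nat_lit 146))))))))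
noncomputable def xc51 : XT := (XT.nd (nat_lit 33228) (nat_lit 0) (nat_lit 0) (XT.nd (nat_lit 936) (nat_lit 0) (nat_lit 0) (XT.nd (nat_lit 468) (nat_lit 76) (nat_lit 0) (XT.nd (nat_lit 234) (nat_lit 152) (nat_lit 0) (XT.nd (nat_lit 78) (nat_lit 0) (nat_lit 0) (XT.lf (nat_lit 0) (nat_lit 67425743353) (nat_lit 76) (nat_lit 1012994351487) (nat_lit 76) (nat_lit 553266813537) (nat_lit 6) (nat_lit 4) (nat_lit 7) (nat_lit 5) (nat_lit 7) (nat_lit 4) (nat_lit 271) (nat_lit 244) (nat_lit 145)) (XT.nd (nat_lit 78) (nat_lit 0) (nat_lit 0) (XT.lf (nat_lit 0) (nat_lit 756403045528) (nat_lit 76) (nat_lit 776517951463) (nat_lit 76) (nat_lit 316790354790) (nat_lit 6) (nat_lit 4) (nat_lit 7) (nat_lit 5) (nat_lit 7) (nat_lit 4) (nat_lit 272) (nat_lit 244) (nat_lit 144)) (XT.lf (nat_lit 0) (nat_lit 1548726780912) (nat_lit 76) (nat_lit 504570167725) (nat_lit 76) (nat_lit 44842519989) (nat_lit 6) (nat_lit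 4) (nat_lit 7) (nat_lit 5) (nat_lit 7) (nat_lit 4) (nat_lit 273) (nat_lit 244) (nat_lit 143)))) (XT.nd (nat_lit 78) (nat_lit 0) (nat_lit 0) (XT.lf (nat_lit 0) (nat_lit 73290473792) (nat_lit 76) (nat_lit 182968259828) (nat_lit 152) (nat_lit 2126916629263) (nat_lit 4) (nat_lit 5) (nat_lit 5) (nat_lit 5) (nat_lit 6) (nat_lit 4) (nat_lit 274) (nat_lit 244) (nat_lit 142)) (XT.nd (nat_lit 78) (nat_lit 0) (nat_lit 0) (XT.lf (nat_lit 0) (nat_lit 620850769750) (nat_lit 152) (nat_lit 1893167285567) (nat_lit 0) (nat_lit 195176944981) (nat_lit 4) (nat_lit 5) (nat_lit 6) (nat_lit 4) (nat_lit 4) (nat_lit 4) (nat_lit 275) (nat_lit 244) (nat_lit 141)) (XT.lf (nat_lit 0) (nat_lit 1045191998972) (nat_lit 152) (nat_lit 1419002610262) (nat_lit 0) (nat_lit 619518143115) (nat_lit 4) (nat_lit 5) (nat_lit 6) (nat_lit 4) (nat_lit 4) (nat_lit 4) (nat_lit 276) (nat_lit 244) (nat_lit 140))))) (XT.nd (nat_lit 234)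 (nat_lit 0) (nat_lit 0) (XT.nd (nat_lit 78) (nat_lit 76) (nat_lit 0) (XT.lf (nat_lit 0) (nat_lit 1533184358637) (nat_lit 152) (nat_lit 873713337177) (nat_lit 0) (nat_lit 1107510475747) (nat_lit 4) (nat_lit 5) (nat_lit 6) (nat_lit 4) (nat_lit 4) (nat_lit 4) (nat_lit 277) (nat_lit 244) (nat_lit 139)) (XT.nd (nat_lit 78) (nat_lit 76) (nat_lit 0) (XT.lf (nat_lit 0) (nat_lit 2094375525345) (nat_lit 152) (nat_lit 246630763143) (nat_lit 0) (nat_lit 1668701618948) (nat_lit 4) (nat_lit 5) (nat_lit 6) (nat_lit 4) (nat_lit 4) (nat_lit 4) (nat_lit 278) (nat_lit 244) (nat_lit 138)) (XT.lf (nat_lit 0) (nat_lit 499501191303) (nat_lit 76) (nat_lit 2252257150632) (nat_lit 76) (nat_lit 1826583223794) (nat_lit 3) (nat_lit 4) (nat_lit 4) (nat_lit 5) (nat_lit 4) (nat_lit 4) (nat_lit 279) (nat_lit 244) (nat_lit 137)))) (XT.nd (nat_lit 78) (nat_lit 0) (nat_lit 0) (XT.lf (nat_lit 0) (nat_lit 1372488077028) (nat_lit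 76) (nat_lit 2142440856102) (nat_lit 76) (nat_lit 1716766911489) (nat_lit 3) (nat_lit 4) (nat_lit 4) (nat_lit 5) (nat_lit 4) (nat_lit 4) (nat_lit 280) (nat_lit 244) (nat_lit 136)) (XT.nd (nat_lit 78) (nat_lit 0) (nat_lit 0) (XT.lf (nat_lit 0) (nat_lit 2376422933310) (nat_lit 76) (nat_lit 2016152147354) (nat_lit 76) (nat_lit 1590478187285) (nat_lit 3) (nat_lit 4) (nat_lit 4) (nat_lit 5) (nat_lit 4) (nat_lit 4) (nat_lit 281) (nat_lit 244) (nat_lit 135)) (XT.lf (nat_lit 0) (nat_lit 3530947963859) (nat_lit 76) (nat_lit 1870920158349) (nat_lit 76) (nat_lit 1445246184840) (nat_lit 3) (nat_lit 4) (nat_lit 4) (nat_lit 5) (nat_lit 4) (nat_lit 4) (nat_lit 282) (nat_lit 244) (nat_lit 134)))))) (XT.nd (nat_lit 31824) (nat_lit 0) (nat_lit 1748) (XT.nd (nat_lit 31590) (nat_lit 0) (nat_lit 2888) (XT.nd (nat_lit 31434) (nat_lit 0) (nat_lit 3116) (XT.lf (nat_lit 0) (nat_lit 4858651701881) (nat_lit 76)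 (nat_lit 1703903393649) (nat_lit 76) (nat_lit 1278229408452) (nat_lit 3) (nat_lit 4) (nat_lit 4) (nat_lit 5) (nat_lit 4) (nat_lit 4) (nat_lit 283) (nat_lit 244) (nat_lit 133)) (XT.nd (nat_lit 78) (nat_lit 0) (nat_lit 76) (XT.lf (nat_lit 0) (nat_lit 40213724515) (nat_lit 532) (nat_lit 13526951494) (nat_lit 532) (nat_lit 13526951494) (nat_lit 44) (nat_lit 3) (nat_lit 51) (nat_lit 3) (nat_lit 51) (nat_lit 5) (nat_lit 245) (nat_lit 245) (nat_lit 170)) (XT.lf (nat_lit 0) (nat_lit 88757273741) (nat_lit 456) (nat_lit 52541458977) (nat_lit 532) (nat_lit 3142825739) (nat_lit 45) (nat_lit 5) (nat_lit 51) (nat_lit 5) (nat_lit 52) (nat_lit 5) (nat_lit 246) (nat_lit 245) (nat_lit 169)))) (XT.nd (nat_lit 78) (nat_lit 304) (nat_lit 0) (XT.lf (nat_lit 76) (nat_lit 75339674677) (nat_lit 0) (nat_lit 28588530636) (nat_lit 532) (nat_lit 51458274910) (nat_lit 46) (nat_lit 5) (nat_lit 45) (nat_lit 5) (nat_lit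 52) (nat_lit 5) (nat_lit 247) (nat_lit 245) (nat_lit 168)) (XT.nd (nat_lit 78) (nat_lit 380) (nat_lit 0) (XT.lf (nat_lit 76) (nat_lit 58173865387) (nat_lit 0) (nat_lit 68598214924) (nat_lit 532) (nat_lit 40769278651) (nat_lit 47) (nat_lit 5) (nat_lit 46) (nat_lit 5) (nat_lit 53) (nat_lit 5) (nat_lit 248) (nat_lit 245) (nat_lit 167)) (XT.lf (nat_lit 0) (nat_lit 40324556766) (nat_lit 456) (nat_lit 118351340645) (nat_lit 532) (nat_lit 22392905843) (nat_lit 41) (nat_lit 5) (nat_lit 47) (nat_lit 5) (nat_lit 48) (nat_lit 5) (nat_lit 249) (nat_lit 245) (nat_lit 166))))) (XT.nd (nat_lit 234) (nat_lit 608) (nat_lit 0) (XT.nd (nat_lit 78) (nat_lit 228) (nat_lit 0) (XT.lf (nat_lit 0) (nat_lit 4910012780) (nat_lit 304) (nat_lit 174724295595) (nat_lit 76) (nat_lit 16504917850) (nat_lit 37) (nat_lit 5) (nat_lit 41) (nat_lit 5) (nat_lit 38) (nat_lit 5) (nat_lit 250) (nat_lit 245) (nat_lit 165)) (XT.nd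 (nat_lit 78) (nat_lit 228) (nat_lit 0) (XT.lf (nat_lit 0) (nat_lit 42496843348) (nat_lit 304) (nat_lit 721157561) (nat_lit 76) (nat_lit 169604532123) (nat_lit 37) (nat_lit 5) (nat_lit 41) (nat_lit 5) (nat_lit 38) (nat_lit 5) (nat_lit 251) (nat_lit 245) (nat_lit 164)) (XT.lf (nat_lit 0) (nat_lit 93633408680) (nat_lit 304) (nat_lit 24588298169) (nat_lit 76) (nat_lit 113153693785) (nat_lit 34) (nat_lit 5) (nat_lit 38) (nat_lit 5) (nat_lit 35) (nat_lit 5) (nat_lit 252) (nat_lit 245) (nat_lit 163)))) (XT.nd (nat_lit 78) (nat_lit 380) (nat_lit 0) (XT.lf (nat_lit 0) (nat_lit 159543904897) (nat_lit 304) (nat_lit 51616976570) (nat_lit 76) (nat_lit 40982042606) (nat_lit 31) (nat_lit 5) (nat_lit 35) (nat_lit 5) (nat_lit 32) (nat_lit 5) (nat_lit 253) (nat_lit 245) (nat_lit 162)) (XT.nd (nat_lit 78) (nat_lit 228) (nat_lit 0) (XT.lf (nat_lit 0) (nat_lit 191203901081) (nat_lit 152) (nat_lit 52739240404)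 (nat_lit 228) (nat_lit 31394262469) (nat_lit 29) (nat_lit 5) (nat_lit 31) (nat_lit 5) (nat_lit 32) (nat_lit 5) (nat_lit 254) (nat_lit 245) (nat_lit 161)) (XT.lf (nat_lit 0) (nat_lit 46193563858) (nat_lit 228) (nat_lit 125062264458) (nat_lit 76) (nat_lit 129947980971) (nat_lit 26) (nat_lit 5) (nat_lit 29) (nat_lit 5) (nat_lit 27) (nat_lit 5) (nat_lit 255) (nat_lit 245) (nat_lit 160))))))) (XT.nd (nat_lit 936) (nat_lit 532) (nat_lit 0) (XT.nd (nat_lit 468) (nat_lit 532) (nat_lit 0) (XT.nd (nat_lit 234) (nat_lit 228) (nat_lit 0) (XT.nd (nat_lit 78) (nat_lit 304) (nat_lit 0) (XT.lf (nat_lit 0) (nat_lit 141649846411) (nat_lit 228) (nat_lit 175428006400) (nat_lit 76) (nat_lit 13159954785) (nat_lit 24) (nat_lit 5) (nat_lit 27) (nat_lit 5) (nat_lit 25) (nat_lit 5) (nat_lit 256) (nat_lit 245) (nat_lit 159)) (XT.nd (nat_lit 78) (nat_lit 152) (nat_lit 0) (XT.lf (nat_lit 0) (nat_lit 122180812400)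 (nat_lit 152) (nat_lit 140653993258) (nat_lit 228) (nat_lit 99879281979) (nat_lit 22) (nat_lit 5) (nat_lit 24) (nat_lit 5) (nat_lit 25) (nat_lit 5) (nat_lit 257) (nat_lit 245) (nat_lit 158)) (XT.lf (nat_lit 0) (nat_lit 10856419127) (nat_lit 152) (nat_lit 321992424764) (nat_lit 76) (nat_lit 66502652787) (nat_lit 20) (nat_lit 5) (nat_lit 22) (nat_lit 5) (nat_lit 21) (nat_lit 5) (nat_lit 258) (nat_lit 245) (nat_lit 157)))) (XT.nd (nat_lit 78) (nat_lit 76) (nat_lit 0) (XT.lf (nat_lit 0) (nat_lit 10255018396) (nat_lit 152) (nat_lit 133522869226) (nat_lit 228) (nat_lit 296579938177) (nat_lit 18) (nat_lit 5) (nat_lit 20) (nat_lit 5) (nat_lit 21) (nat_lit 5) (nat_lit 259) (nat_lit 245) (nat_lit 156)) (XT.nd (nat_lit 78) (nat_lit 76) (nat_lit 0) (XT.lf (nat_lit 0) (nat_lit 308556890292) (nat_lit 228) (nat_lit 77472270634) (nat_lit 76) (nat_lit 100532398695) (nat_lit 18) (nat_lit 5) (nat_lit 21)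 (nat_lit 5) (nat_lit 19) (nat_lit 4) (nat_lit 260) (nat_lit 245) (nat_lit 155)) (XT.lf (nat_lit 0) (nat_lit 341439735688) (nat_lit 76) (nat_lit 168517313032) (nat_lit 152) (nat_lit 28786460756) (nat_lit 17) (nat_lit 5) (nat_lit 18) (nat_lit 5) (nat_lit 19) (nat_lit 4) (nat_lit 261) (nat_lit 245) (nat_lit 154))))) (XT.nd (nat_lit 234) (nat_lit 228) (nat_lit 0) (XT.nd (nat_lit 78) (nat_lit 76) (nat_lit 0) (XT.lf (nat_lit 0) (nat_lit 145961813737) (nat_lit 228) (nat_lit 362391285481) (nat_lit 76) (nat_lit 89301558107) (nat_lit 14) (nat_lit 5) (nat_lit 17) (nat_lit 5) (nat_lit 15) (nat_lit 4) (nat_lit 262) (nat_lit 245) (nat_lit 153)) (XT.nd (nat_lit 78) (nat_lit 0) (nat_lit 0) (XT.lf (nat_lit 0) (nat_lit 78017004962) (nat_lit 76) (nat_lit 279679672588) (nat_lit 152) (nat_lit 306647677822) (nat_lit 13) (nat_lit 5) (nat_lit 14) (nat_lit 5) (nat_lit 15) (nat_lit 4) (nat_lit 263) (nat_lit 245)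 (nat_lit 152)) (XT.lf (nat_lit 0) (nat_lit 606431527661) (nat_lit 76) (nat_lit 5310688096) (nat_lit 152) (nat_lit 128451257019) (nat_lit 13) (nat_lit 5) (nat_lit 14) (nat_lit 5) (nat_lit 15) (nat_lit 4) (nat_lit 264) (nat_lit 245) (nat_lit 151)))) (XT.nd (nat_lit 78) (nat_lit 76) (nat_lit 0) (XT.lf (nat_lit 0) (nat_lit 90153374997) (nat_lit 152) (nat_lit 429140657989) (nat_lit 76) (nat_lit 306578442175) (nat_lit 11) (nat_lit 5) (nat_lit 13) (nat_lit 5) (nat_lit 12) (nat_lit 4) (nat_lit 265) (nat_lit 245) (nat_lit 150)) (XT.nd (nat_lit 78) (nat_lit 0) (nat_lit 0) (XT.lf (nat_lit 0) (nat_lit 91588766765) (nat_lit 76) (nat_lit 248915359444) (nat_lit 152) (nat_lit 583107396377) (nat_lit 10) (nat_lit 5) (nat_lit 11) (nat_lit 5) (nat_lit 12) (nat_lit 4) (nat_lit 266) (nat_lit 245) (nat_lit 149)) (XT.lf (nat_lit 0) (nat_lit 642717419008) (nat_lit 152) (nat_lit 320413216744) (nat_lit 0) (nat_lit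 71735997204) (nat_lit 10) (nat_lit 5) (nat_lit 12) (nat_lit 4) (nat_lit 10) (nat_lit 4) (nat_lit 267) (nat_lit 245) (nat_lit 148)))))) (XT.nd (nat_lit 468) (nat_lit 228) (nat_lit 0) (XT.nd (nat_lit 234) (nat_lit 76) (nat_lit 0) (XT.nd (nat_lit 78) (nat_lit 152) (nat_lit 0) (XT.lf (nat_lit 0) (nat_lit 274799736901) (nat_lit 76) (nat_lit 728956167727) (nat_lit 76) (nat_lit 157974649467) (nat_lit 9) (nat_lit 4) (nat_lit 10) (nat_lit 5) (nat_lit 10) (nat_lit 4) (nat_lit 268) (nat_lit 245) (nat_lit 147)) (XT.nd (nat_lit 78) (nat_lit 76) (nat_lit 0) (XT.lf (nat_lit 0) (nat_lit 115327785076) (nat_lit 152) (nat_lit 331099809173) (nat_lit 76) (nat_lit 860216624204) (nat_lit 8) (nat_lit 5) (nat_lit 10) (nat_lit 5) (nat_lit 9) (nat_lit 4) (nat_lit 269) (nat_lit 245) (nat_lit 146)) (XT.lf (nat_lit 0) (nat_lit 319730698871) (nat_lit 76) (nat_lit 108496403983) (nat_lit 152) (nat_lit 1044103140273)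 (nat_lit 7) (nat_lit 5) (nat_lit 8) (nat_lit 5) (nat_lit 9) (nat_lit 4) (nat_lit 270) (nat_lit 245) (nat_lit 145)))) (XT.nd (nat_lit 78) (nat_lit 76) (nat_lit 0) (XT.lf (nat_lit 0) (nat_lit 804688218499) (nat_lit 152) (nat_lit 580849377461) (nat_lit 0) (nat_lit 276001423603) (nat_lit 7) (nat_lit 5) (nat_lit 9) (nat_lit 4) (nat_lit 7) (nat_lit 4) (nat_lit 271) (nat_lit 245) (nat_lit 144)) (XT.nd (nat_lit 78) (nat_lit 0) (nat_lit 0) (XT.lf (nat_lit 0) (nat_lit 77541350446) (nat_lit 76) (nat_lit 1164942682753) (nat_lit 76) (nat_lit 636255836793) (nat_lit 6) (nat_lit 4) (nat_lit 7) (nat_lit 5) (nat_lit 7) (nat_lit 4) (nat_lit 272) (nat_lit 245) (nat_lit 143)) (XT.lf (nat_lit 0) (nat_lit 869865020261) (nat_lit 76) (nat_lit 892994929872) (nat_lit 76) (nat_lit 364308039509) (nat_lit 6) (nat_lit 4) (nat_lit 7) (nat_lit 5) (nat_lit 7) (nat_lit 4) (nat_lit 273) (nat_lit 245) (nat_lit 142))))) (XT.nd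 (nat_lit 234) (nat_lit 76) (nat_lit 0) (XT.nd (nat_lit 78) (nat_lit 152) (nat_lit 0) (XT.lf (nat_lit 0) (nat_lit 1781037117965) (nat_lit 76) (nat_lit 580255071745) (nat_lit 76) (nat_lit 51568142770) (nat_lit 6) (nat_lit 4) (nat_lit 7) (nat_lit 5) (nat_lit 7) (nat_lit 4) (nat_lit 274) (nat_lit 245) (nat_lit 141)) (XT.nd (nat_lit 78) (nat_lit 0) (nat_lit 0) (XT.lf (nat_lit 0) (nat_lit 84285288090) (nat_lit 76) (nat_lit 210412909332) (nat_lit 152) (nat_lit 2445953417160) (nat_lit 4) (nat_lit 5) (nat_lit 5) (nat_lit 5) (nat_lit 6) (nat_lit 4) (nat_lit 275) (nat_lit 245) (nat_lit 140)) (XT.lf (nat_lit 0) (nat_lit 713978966026) (nat_lit 152) (nat_lit 2177141263805) (nat_lit 0) (nat_lit 224453973670) (nat_lit 4) (nat_lit 5) (nat_lit 6) (nat_lit 4) (nat_lit 4) (nat_lit 4) (nat_lit 276) (nat_lit 245) (nat_lit 139)))) (XT.nd (nat_lit 156) (nat_lit 76) (nat_lit 0) (XT.nd (nat_lit 78) (nat_lit 0)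 (nat_lit 0) (XT.lf (nat_lit 0) (nat_lit 1201971303874) (nat_lit 152) (nat_lit 1631852032587) (nat_lit 0) (nat_lit 712446288010) (nat_lit 4) (nat_lit 5) (nat_lit 6) (nat_lit 4) (nat_lit 4) (nat_lit 4) (nat_lit 277) (nat_lit 245) (nat_lit 138)) (XT.lf (nat_lit 0) (nat_lit 1763162451611) (nat_lit 152) (nat_lit 1004769494959) (nat_lit 0) (nat_lit 1273637415306) (nat_lit 4) (nat_lit 5) (nat_lit 6) (nat_lit 4) (nat_lit 4) (nat_lit 4) (nat_lit 278) (nat_lit 245) (nat_lit 137))) (XT.nd (nat_lit 78) (nat_lit 76) (nat_lit 0) (XT.lf (nat_lit 0) (nat_lit 2408532236041) (nat_lit 152) (nat_lit 283624644749) (nat_lit 0) (nat_lit 1919007181962) (nat_lit 4) (nat_lit 5) (nat_lit 6) (nat_lit 4) (nat_lit 4) (nat_lit 4) (nat_lit 279) (nat_lit 245) (nat_lit 136)) (XT.lf (nat_lit 0) (nat_lit 574427040831) (nat_lit 76) (nat_lit 2590095400610) (nat_lit 76) (nat_lit 2100570331075) (nat_lit 3) (nat_lit 4) (nat_lit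 4) (nat_lit 5) (nat_lit 4) (nat_lit 4) (nat_lit 280) (nat_lit 245) (nat_lit 135))))))))
noncomputable def xc52 : XT := (XT.nd (nat_lit 33306) (nat_lit 0) (nat_lit 0) (XT.nd (nat_lit 32370) (nat_lit 0) (nat_lit 608) (XT.nd (nat_lit 31902) (nat_lit 0) (nat_lit 2128) (XT.nd (nat_lit 31668) (nat_lit 0) (nat_lit 3116) (XT.nd (nat_lit 78) (nat_lit 0) (nat_lit 0) (XT.lf (nat_lit 0) (nat_lit 1578361871915) (nat_lit 76) (nat_lit 2463806703981) (nat_lit 76) (nat_lit 1974281621005) (nat_lit 3) (nat_lit 4) (nat_lit 4) (nat_lit 5) (nat_lit 4) (nat_lit 4) (nat_lit 281) (nat_lit 245) (nat_lit 134)) (XT.nd (nat_lit 78) (nat_lit 0) (nat_lit 0) (XT.lf (nat_lit 0) (nat_lit 2732886880552) (nat_lit 76) (nat_lit 2318574725513) (nat_lit 76) (nat_lit 1829049630850) (nat_lit 3) (nat_lit 4) (nat_lit 4) (nat_lit 5) (nat_lit 4) (nat_lit 4) (nat_lit 282) (nat_lit 245) (nat_lit 133)) (XT.lf (nat_lit 0) (nat_lit 4060590599521)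 (nat_lit 76) (nat_lit 2151557969976) (nat_lit 76) (nat_lit 1662032865150) (nat_lit 3) (nat_lit 4) (nat_lit 4) (nat_lit 5) (nat_lit 4) (nat_lit 4) (nat_lit 283) (nat_lit 245) (nat_lit 132)))) (XT.nd (nat_lit 78) (nat_lit 0) (nat_lit 76) (XT.lf (nat_lit 0) (nat_lit 46251472046) (nat_lit 532) (nat_lit 15552912941) (nat_lit 532) (nat_lit 15552912941) (nat_lit 44) (nat_lit 3) (nat_lit 51) (nat_lit 3) (nat_lit 51) (nat_lit 5) (nat_lit 246) (nat_lit 246) (nat_lit 168)) (XT.nd (nat_lit 78) (nat_lit 0) (nat_lit 0) (XT.lf (nat_lit 0) (nat_lit 102080788584) (nat_lit 456) (nat_lit 60416096678) (nat_lit 532) (nat_lit 3610080727) (nat_lit 45) (nat_lit 5) (nat_lit 51) (nat_lit 5) (nat_lit 52) (nat_lit 5) (nat_lit 247) (nat_lit 246) (nat_lit 167)) (XT.lf (nat_lit 76) (nat_lit 86646649962) (nat_lit 0) (nat_lit 32879560402) (nat_lit 532) (nat_lit 59167511835) (nat_lit 46) (nat_lit 5) (nat_lit 45) (nat_lit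 5) (nat_lit 52) (nat_lit 5) (nat_lit 248) (nat_lit 246) (nat_lit 166))))) (XT.nd (nat_lit 234) (nat_lit 456) (nat_lit 0) (XT.nd (nat_lit 78) (nat_lit 684) (nat_lit 0) (XT.lf (nat_lit 76) (nat_lit 66906188175) (nat_lit 0) (nat_lit 78889426599) (nat_lit 532) (nat_lit 46876305789) (nat_lit 47) (nat_lit 5) (nat_lit 46) (nat_lit 5) (nat_lit 53) (nat_lit 5) (nat_lit 249) (nat_lit 246) (nat_lit 165)) (XT.nd (nat_lit 78) (nat_lit 304) (nat_lit 0) (XT.lf (nat_lit 0) (nat_lit 46379575272) (nat_lit 456) (nat_lit 136104543313) (nat_lit 532) (nat_lit 25744436973) (nat_lit 41) (nat_lit 5) (nat_lit 47) (nat_lit 5) (nat_lit 48) (nat_lit 5) (nat_lit 250) (nat_lit 246) (nat_lit 164)) (XT.lf (nat_lit 0) (nat_lit 5652776933) (nat_lit 304) (nat_lit 200926263160) (nat_lit 76) (nat_lit 18980551969) (nat_lit 37) (nat_lit 5) (nat_lit 41) (nat_lit 5) (nat_lit 38) (nat_lit 5) (nat_lit 251) (nat_lit 246) (nat_lit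 163)))) (XT.nd (nat_lit 78) (nat_lit 456) (nat_lit 0) (XT.lf (nat_lit 0) (nat_lit 48876815273) (nat_lit 304) (nat_lit 823525304) (nat_lit 76) (nat_lit 195045121890) (nat_lit 37) (nat_lit 5) (nat_lit 41) (nat_lit 5) (nat_lit 38) (nat_lit 5) (nat_lit 252) (nat_lit 246) (nat_lit 162)) (XT.nd (nat_lit 78) (nat_lit 228) (nat_lit 0) (XT.lf (nat_lit 0) (nat_lit 107683293804) (nat_lit 304) (nat_lit 28270837321) (nat_lit 76) (nat_lit 130127176755) (nat_lit 34) (nat_lit 5) (nat_lit 38) (nat_lit 5) (nat_lit 35) (nat_lit 5) (nat_lit 253) (nat_lit 246) (nat_lit 161)) (XT.lf (nat_lit 0) (nat_lit 183479874998) (nat_lit 304) (nat_lit 59353960736) (nat_lit 76) (nat_lit 47130164946) (nat_lit 31) (nat_lit 5) (nat_lit 35) (nat_lit 5) (nat_lit 32) (nat_lit 5) (nat_lit 254) (nat_lit 246) (nat_lit 160)))))) (XT.nd (nat_lit 468) (nat_lit 532) (nat_lit 0) (XT.nd (nat_lit 234) (nat_lit 456) (nat_lit 0) (XT.nd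 (nat_lit 78) (nat_lit 380) (nat_lit 0) (XT.lf (nat_lit 0) (nat_lit 219889577740) (nat_lit 152) (nat_lit 60648969911) (nat_lit 228) (nat_lit 36099142314) (nat_lit 29) (nat_lit 5) (nat_lit 31) (nat_lit 5) (nat_lit 32) (nat_lit 5) (nat_lit 255) (nat_lit 246) (nat_lit 159)) (XT.nd (nat_lit 78) (nat_lit 152) (nat_lit 0) (XT.lf (nat_lit 0) (nat_lit 53126263602) (nat_lit 228) (nat_lit 143816471071) (nat_lit 76) (nat_lit 149441344915) (nat_lit 26) (nat_lit 5) (nat_lit 29) (nat_lit 5) (nat_lit 27) (nat_lit 5) (nat_lit 256) (nat_lit 246) (nat_lit 158)) (XT.lf (nat_lit 0) (nat_lit 162900657107) (nat_lit 228) (nat_lit 201737271565) (nat_lit 76) (nat_lit 15135276513) (nat_lit 24) (nat_lit 5) (nat_lit 27) (nat_lit 5) (nat_lit 25) (nat_lit 5) (nat_lit 257) (nat_lit 246) (nat_lit 157)))) (XT.nd (nat_lit 78) (nat_lit 304) (nat_lit 0) (XT.lf (nat_lit 0) (nat_lit 140512452265) (nat_lit 152) (nat_lit 161750581799)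 (nat_lit 228) (nat_lit 114857920156) (nat_lit 22) (nat_lit 5) (nat_lit 24) (nat_lit 5) (nat_lit 25) (nat_lit 5) (nat_lit 258) (nat_lit 246) (nat_lit 156)) (XT.nd (nat_lit 78) (nat_lit 152) (nat_lit 0) (XT.lf (nat_lit 0) (nat_lit 12487709315) (nat_lit 152) (nat_lit 370286806781) (nat_lit 76) (nat_lit 76479474101) (nat_lit 20) (nat_lit 5) (nat_lit 22) (nat_lit 5) (nat_lit 21) (nat_lit 5) (nat_lit 259) (nat_lit 246) (nat_lit 155)) (XT.lf (nat_lit 0) (nat_lit 11797373501) (nat_lit 152) (nat_lit 153549754465) (nat_lit 228) (nat_lit 341064162955) (nat_lit 18) (nat_lit 5) (nat_lit 20) (nat_lit 5) (nat_lit 21) (nat_lit 5) (nat_lit 260) (nat_lit 246) (nat_lit 154))))) (XT.nd (nat_lit 234) (nat_lit 228) (nat_lit 0) (XT.nd (nat_lit 78) (nat_lit 304) (nat_lit 0) (XT.lf (nat_lit 0) (nat_lit 354842679802) (nat_lit 228) (nat_lit 89089394767) (nat_lit 76) (nat_lit 115613534891) (nat_lit 18) (nat_lit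 5) (nat_lit 21) (nat_lit 5) (nat_lit 19) (nat_lit 4) (nat_lit 261) (nat_lit 246) (nat_lit 153)) (XT.nd (nat_lit 78) (nat_lit 228) (nat_lit 0) (XT.lf (nat_lit 0) (nat_lit 392659097923) (nat_lit 76) (nat_lit 193793551629) (nat_lit 152) (nat_lit 33102219708) (nat_lit 17) (nat_lit 5) (nat_lit 18) (nat_lit 5) (nat_lit 19) (nat_lit 4) (nat_lit 262) (nat_lit 246) (nat_lit 152)) (XT.lf (nat_lit 0) (nat_lit 167858020543) (nat_lit 228) (nat_lit 416746637325) (nat_lit 76) (nat_lit 102698040736) (nat_lit 14) (nat_lit 5) (nat_lit 17) (nat_lit 5) (nat_lit 15) (nat_lit 4) (nat_lit 263) (nat_lit 246) (nat_lit 151)))) (XT.nd (nat_lit 78) (nat_lit 152) (nat_lit 0) (XT.lf (nat_lit 0) (nat_lit 89722613887) (nat_lit 76) (nat_lit 321630321232) (nat_lit 152) (nat_lit 352642930876) (nat_lit 13) (nat_lit 5) (nat_lit 14) (nat_lit 5) (nat_lit 15) (nat_lit 4) (nat_lit 264) (nat_lit 246) (nat_lit 150)) (XT.nd (nat_lit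 78) (nat_lit 152) (nat_lit 0) (XT.lf (nat_lit 0) (nat_lit 697398916099) (nat_lit 76) (nat_lit 6106158925) (nat_lit 152) (nat_lit 147717294598) (nat_lit 13) (nat_lit 5) (nat_lit 14) (nat_lit 5) (nat_lit 15) (nat_lit 4) (nat_lit 265) (nat_lit 246) (nat_lit 149)) (XT.lf (nat_lit 0) (nat_lit 103677831607) (nat_lit 152) (nat_lit 493509155933) (nat_lit 76) (nat_lit 352566241319) (nat_lit 11) (nat_lit 5) (nat_lit 13) (nat_lit 5) (nat_lit 12) (nat_lit 4) (nat_lit 266) (nat_lit 246) (nat_lit 148))))))) (XT.nd (nat_lit 936) (nat_lit 76) (nat_lit 0) (XT.nd (nat_lit 468) (nat_lit 228) (nat_lit 0) (XT.nd (nat_lit 234) (nat_lit 152) (nat_lit 0) (XT.nd (nat_lit 78) (nat_lit 76) (nat_lit 0) (XT.lf (nat_lit 0) (nat_lit 105329462392) (nat_lit 76) (nat_lit 286251601185) (nat_lit 152) (nat_lit 670572080577) (nat_lit 10) (nat_lit 5) (nat_lit 11) (nat_lit 5) (nat_lit 12) (nat_lit 4) (nat_lit 267) (nat_lit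 246) (nat_lit 147)) (XT.nd (nat_lit 78) (nat_lit 76) (nat_lit 0) (XT.lf (nat_lit 0) (nat_lit 739126200540) (nat_lit 152) (nat_lit 368473058484) (nat_lit 0) (nat_lit 82497274213) (nat_lit 10) (nat_lit 5) (nat_lit 12) (nat_lit 4) (nat_lit 10) (nat_lit 4) (nat_lit 268) (nat_lit 246) (nat_lit 146)) (XT.lf (nat_lit 0) (nat_lit 316021657002) (nat_lit 76) (nat_lit 838298696691) (nat_lit 76) (nat_lit 181669697430) (nat_lit 9) (nat_lit 4) (nat_lit 10) (nat_lit 5) (nat_lit 10) (nat_lit 4) (nat_lit 269) (nat_lit 246) (nat_lit 145)))) (XT.nd (nat_lit 78) (nat_lit 76) (nat_lit 0) (XT.lf (nat_lit 0) (nat_lit 132627902366) (nat_lit 152) (nat_lit 380763025760) (nat_lit 76) (nat_lit 989249846315) (nat_lit 8) (nat_lit 5) (nat_lit 10) (nat_lit 5) (nat_lit 9) (nat_lit 4) (nat_lit 270) (nat_lit 246) (nat_lit 144)) (XT.nd (nat_lit 78) (nat_lit 0) (nat_lit 0) (XT.lf (nat_lit 0) (nat_lit 367691909957) (nat_lit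 76) (nat_lit 124770122633) (nat_lit 152) (nat_lit 1200717677151) (nat_lit 7) (nat_lit 5) (nat_lit 8) (nat_lit 5) (nat_lit 9) (nat_lit 4) (nat_lit 271) (nat_lit 246) (nat_lit 143)) (XT.lf (nat_lit 0) (nat_lit 925392218362) (nat_lit 152) (nat_lit 667975342108) (nat_lit 0) (nat_lit 317402250041) (nat_lit 7) (nat_lit 5) (nat_lit 9) (nat_lit 4) (nat_lit 7) (nat_lit 4) (nat_lit 272) (nat_lit 246) (nat_lit 142))))) (XT.nd (nat_lit 234) (nat_lit 152) (nat_lit 0) (XT.nd (nat_lit 78) (nat_lit 0) (nat_lit 0) (XT.lf (nat_lit 0) (nat_lit 89173872929) (nat_lit 76) (nat_lit 1339683464027) (nat_lit 76) (nat_lit 731693457095) (nat_lit 6) (nat_lit 4) (nat_lit 7) (nat_lit 5) (nat_lit 7) (nat_lit 4) (nat_lit 273) (nat_lit 246) (nat_lit 141)) (XT.nd (nat_lit 78) (nat_lit 0) (nat_lit 0) (XT.lf (nat_lit 0) (nat_lit 1000345921054) (nat_lit 76) (nat_lit 1026943629231) (nat_lit 76) (nat_lit 418953588725) (nat_lit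 6) (nat_lit 4) (nat_lit 7) (nat_lit 5) (nat_lit 7) (nat_lit 4) (nat_lit 274) (nat_lit 246) (nat_lit 140)) (XT.lf (nat_lit 0) (nat_lit 2048193683706) (nat_lit 76) (nat_lit 667292862836) (nat_lit 76) (nat_lit 59302793133) (nat_lit 6) (nat_lit 4) (nat_lit 7) (nat_lit 5) (nat_lit 7) (nat_lit 4) (nat_lit 275) (nat_lit 246) (nat_lit 139)))) (XT.nd (nat_lit 78) (nat_lit 0) (nat_lit 0) (XT.lf (nat_lit 0) (nat_lit 96929021364) (nat_lit 76) (nat_lit 241974400008) (nat_lit 152) (nat_lit 2812845895524) (nat_lit 4) (nat_lit 5) (nat_lit 5) (nat_lit 5) (nat_lit 6) (nat_lit 4) (nat_lit 276) (nat_lit 246) (nat_lit 138)) (XT.nd (nat_lit 78) (nat_lit 0) (nat_lit 0) (XT.lf (nat_lit 0) (nat_lit 821076250109) (nat_lit 152) (nat_lit 2503711610580) (nat_lit 0) (nat_lit 258122437918) (nat_lit 4) (nat_lit 5) (nat_lit 6) (nat_lit 4) (nat_lit 4) (nat_lit 4) (nat_lit 277) (nat_lit 246) (nat_lit 137)) (XT.lf (nat_lit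 0) (nat_lit 1382267381349) (nat_lit 152) (nat_lit 1876629104609) (nat_lit 0) (nat_lit 819313551384) (nat_lit 4) (nat_lit 5) (nat_lit 6) (nat_lit 4) (nat_lit 4) (nat_lit 4) (nat_lit 278) (nat_lit 246) (nat_lit 136)))))) (XT.nd (nat_lit 31980) (nat_lit 0) (nat_lit 2584) (XT.nd (nat_lit 234) (nat_lit 0) (nat_lit 0) (XT.nd (nat_lit 78) (nat_lit 76) (nat_lit 0) (XT.lf (nat_lit 0) (nat_lit 2027637151435) (nat_lit 152) (nat_lit 1155484281928) (nat_lit 0) (nat_lit 1464683306013) (nat_lit 4) (nat_lit 5) (nat_lit 6) (nat_lit 4) (nat_lit 4) (nat_lit 4) (nat_lit 279) (nat_lit 246) (nat_lit 135)) (XT.nd (nat_lit 78) (nat_lit 76) (nat_lit 0) (XT.lf (nat_lit 0) (nat_lit 2769812360214) (nat_lit 152) (nat_lit 326167787310) (nat_lit 0) (nat_lit 2206858501352) (nat_lit 4) (nat_lit 5) (nat_lit 6) (nat_lit 4) (nat_lit 4) (nat_lit 4) (nat_lit 280) (nat_lit 246) (nat_lit 134)) (XT.lf (nat_lit 0) (nat_lit 660591604201)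 (nat_lit 76) (nat_lit 2978609466757) (nat_lit 76) (nat_lit 2415655596208) (nat_lit 3) (nat_lit 4) (nat_lit 4) (nat_lit 5) (nat_lit 4) (nat_lit 4) (nat_lit 281) (nat_lit 246) (nat_lit 133)))) (XT.nd (nat_lit 78) (nat_lit 0) (nat_lit 0) (XT.lf (nat_lit 0) (nat_lit 1815116593785) (nat_lit 76) (nat_lit 2833377497452) (nat_lit 76) (nat_lit 2270423616740) (nat_lit 3) (nat_lit 4) (nat_lit 4) (nat_lit 5) (nat_lit 4) (nat_lit 4) (nat_lit 282) (nat_lit 246) (nat_lit 132)) (XT.nd (nat_lit 31590) (nat_lit 0) (nat_lit 3116) (XT.lf (nat_lit 0) (nat_lit 3142820296186) (nat_lit 76) (nat_lit 2666360749883) (nat_lit 76) (nat_lit 2103406860334) (nat_lit 3) (nat_lit 4) (nat_lit 4) (nat_lit 5) (nat_lit 4) (nat_lit 4) (nat_lit 283) (nat_lit 246) (nat_lit 131)) (XT.lf (nat_lit 0) (nat_lit 53193494444) (nat_lit 532) (nat_lit 17883519994) (nat_lit 532) (nat_lit 17883519994) (nat_lit 44) (nat_lit 3) (nat_lit 51)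 (nat_lit 3) (nat_lit 51) (nat_lit 5) (nat_lit 247) (nat_lit 247) (nat_lit 166))))) (XT.nd (nat_lit 234) (nat_lit 608) (nat_lit 0) (XT.nd (nat_lit 78) (nat_lit 0) (nat_lit 0) (XT.lf (nat_lit 0) (nat_lit 117400410676) (nat_lit 456) (nat_lit 69473534888) (nat_lit 532) (nat_lit 4148440569) (nat_lit 45) (nat_lit 5) (nat_lit 51) (nat_lit 5) (nat_lit 52) (nat_lit 5) (nat_lit 248) (nat_lit 247) (nat_lit 165)) (XT.nd (nat_lit 78) (nat_lit 0) (nat_lit 76) (XT.lf (nat_lit 76) (nat_lit 99648202530) (nat_lit 0) (nat_lit 37813573987) (nat_lit 532) (nat_lit 68035451985) (nat_lit 46) (nat_lit 5) (nat_lit 45) (nat_lit 5) (nat_lit 52) (nat_lit 5) (nat_lit 249) (nat_lit 247) (nat_lit 164)) (XT.lf (nat_lit 76) (nat_lit 76946836991) (nat_lit 0) (nat_lit 90723959256) (nat_lit 532) (nat_lit 53901426774) (nat_lit 47) (nat_lit 5) (nat_lit 46) (nat_lit 5) (nat_lit 53) (nat_lit 5) (nat_lit 250) (nat_lit 247) (nat_lit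 163)))) (XT.nd (nat_lit 78) (nat_lit 304) (nat_lit 0) (XT.lf (nat_lit 0) (nat_lit 53341301726) (nat_lit 456) (nat_lit 156520604069) (nat_lit 532) (nat_lit 29600503466) (nat_lit 41) (nat_lit 5) (nat_lit 47) (nat_lit 5) (nat_lit 48) (nat_lit 5) (nat_lit 251) (nat_lit 247) (nat_lit 162)) (XT.nd (nat_lit 78) (nat_lit 0) (nat_lit 0) (XT.lf (nat_lit 0) (nat_lit 6505428623) (nat_lit 304) (nat_lit 231060154034) (nat_lit 76) (nat_lit 21827556459) (nat_lit 37) (nat_lit 5) (nat_lit 41) (nat_lit 5) (nat_lit 38) (nat_lit 5) (nat_lit 252) (nat_lit 247) (nat_lit 161)) (XT.lf (nat_lit 0) (nat_lit 56212455086) (nat_lit 304) (nat_lit 942664013) (nat_lit 76) (nat_lit 224301822082) (nat_lit 37) (nat_lit 5) (nat_lit 41) (nat_lit 5) (nat_lit 38) (nat_lit 5) (nat_lit 253) (nat_lit 247) (nat_lit 160))))))))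
noncomputable def xc53 : XT := (XT.nd (nat_lit 1872) (nat_lit 76) (nat_lit 0) (XT.nd (nat_lit 936) (nat_lit 684) (nat_lit 0) (XT.nd (nat_lit 468) (nat_lit 684) (nat_lit 0) (XT.nd (nat_lit 234) (nat_lit 532) (nat_lit 0) (XT.nd (nat_lit 78) (nat_lit 380) (nat_lit 0) (XT.lf (nat_lit 0) (nat_lit 123839473184) (nat_lit 304) (nat_lit 32507148687) (nat_lit 76) (nat_lit 149646577580) (nat_lit 34) (nat_lit 5) (nat_lit 38) (nat_lit 5) (nat_lit 35) (nat_lit 5) (nat_lit 254) (nat_lit 247) (nat_lit 159)) (XT.nd (nat_lit 78) (nat_lit 152) (nat_lit 0) (XT.lf (nat_lit 0) (nat_lit 211005171459) (nat_lit 304) (nat_lit 68252848934) (nat_lit 76) (nat_lit 54200306662) (nat_lit 31) (nat_lit 5) (nat_lit 35) (nat_lit 5) (nat_lit 32) (nat_lit 5) (nat_lit 255) (nat_lit 247) (nat_lit 158)) (XT.lf (nat_lit 0) (nat_lit 252876864305) (nat_lit 152) (nat_lit 69745440877) (nat_lit 228) (nat_lit 41510792847) (nat_lit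 29) (nat_lit 5) (nat_lit 31) (nat_lit 5) (nat_lit 32) (nat_lit 5) (nat_lit 256) (nat_lit 247) (nat_lit 157)))) (XT.nd (nat_lit 78) (nat_lit 304) (nat_lit 0) (XT.lf (nat_lit 0) (nat_lit 61097974534) (nat_lit 228) (nat_lit 165385060404) (nat_lit 76) (nat_lit 171858428919) (nat_lit 26) (nat_lit 5) (nat_lit 29) (nat_lit 5) (nat_lit 27) (nat_lit 5) (nat_lit 257) (nat_lit 247) (nat_lit 156)) (XT.nd (nat_lit 78) (nat_lit 152) (nat_lit 0) (XT.lf (nat_lit 0) (nat_lit 187338276454) (nat_lit 228) (nat_lit 231994130130) (nat_lit 76) (nat_lit 17406572535) (nat_lit 24) (nat_lit 5) (nat_lit 27) (nat_lit 5) (nat_lit 25) (nat_lit 5) (nat_lit 258) (nat_lit 247) (nat_lit 155)) (XT.lf (nat_lit 0) (nat_lit 161592736366) (nat_lit 152) (nat_lit 186012026953) (nat_lit 228) (nat_lit 132084147598) (nat_lit 22) (nat_lit 5) (nat_lit 24) (nat_lit 5) (nat_lit 25) (nat_lit 5) (nat_lit 259) (nat_lit 247) (nat_lit 154)))))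 (XT.nd (nat_lit 234) (nat_lit 380) (nat_lit 0) (XT.nd (nat_lit 78) (nat_lit 152) (nat_lit 0) (XT.lf (nat_lit 0) (nat_lit 14363003572) (nat_lit 152) (nat_lit 425826438990) (nat_lit 76) (nat_lit 87952471508) (nat_lit 20) (nat_lit 5) (nat_lit 22) (nat_lit 5) (nat_lit 21) (nat_lit 5) (nat_lit 260) (nat_lit 247) (nat_lit 153)) (XT.nd (nat_lit 78) (nat_lit 0) (nat_lit 0) (XT.lf (nat_lit 0) (nat_lit 13570081488) (nat_lit 152) (nat_lit 176581049283) (nat_lit 228) (nat_lit 392221695945) (nat_lit 18) (nat_lit 5) (nat_lit 20) (nat_lit 5) (nat_lit 21) (nat_lit 5) (nat_lit 261) (nat_lit 247) (nat_lit 152)) (XT.lf (nat_lit 0) (nat_lit 408070787606) (nat_lit 228) (nat_lit 102449993802) (nat_lit 76) (nat_lit 132956530261) (nat_lit 18) (nat_lit 5) (nat_lit 21) (nat_lit 5) (nat_lit 19) (nat_lit 4) (nat_lit 262) (nat_lit 247) (nat_lit 151)))) (XT.nd (nat_lit 78) (nat_lit 304) (nat_lit 0) (XT.lf (nat_lit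 0) (nat_lit 451560534924) (nat_lit 76) (nat_lit 222861557260) (nat_lit 152) (nat_lit 38065881465) (nat_lit 17) (nat_lit 5) (nat_lit 18) (nat_lit 5) (nat_lit 19) (nat_lit 4) (nat_lit 263) (nat_lit 247) (nat_lit 150)) (XT.nd (nat_lit 78) (nat_lit 76) (nat_lit 0) (XT.lf (nat_lit 0) (nat_lit 193038186570) (nat_lit 228) (nat_lit 479256106664) (nat_lit 76) (nat_lit 118103691205) (nat_lit 14) (nat_lit 5) (nat_lit 17) (nat_lit 5) (nat_lit 15) (nat_lit 4) (nat_lit 264) (nat_lit 247) (nat_lit 149)) (XT.lf (nat_lit 0) (nat_lit 103183318395) (nat_lit 76) (nat_lit 369873884733) (nat_lit 152) (nat_lit 405537934877) (nat_lit 13) (nat_lit 5) (nat_lit 14) (nat_lit 5) (nat_lit 15) (nat_lit 4) (nat_lit 265) (nat_lit 247) (nat_lit 148)))))) (XT.nd (nat_lit 468) (nat_lit 304) (nat_lit 0) (XT.nd (nat_lit 234) (nat_lit 152) (nat_lit 0) (XT.nd (nat_lit 78) (nat_lit 228) (nat_lit 0) (XT.lf (nat_lit 0) (nat_lit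 802010764317) (nat_lit 76) (nat_lit 7021226517) (nat_lit 152) (nat_lit 169873640414) (nat_lit 13) (nat_lit 5) (nat_lit 14) (nat_lit 5) (nat_lit 15) (nat_lit 4) (nat_lit 266) (nat_lit 247) (nat_lit 147)) (XT.nd (nat_lit 78) (nat_lit 76) (nat_lit 0) (XT.lf (nat_lit 0) (nat_lit 119230603029) (nat_lit 152) (nat_lit 567533562780) (nat_lit 76) (nat_lit 405451958476) (nat_lit 11) (nat_lit 5) (nat_lit 13) (nat_lit 5) (nat_lit 12) (nat_lit 4) (nat_lit 267) (nat_lit 247) (nat_lit 146)) (XT.lf (nat_lit 0) (nat_lit 121130681837) (nat_lit 76) (nat_lit 329188538205) (nat_lit 152) (nat_lit 771156814965) (nat_lit 10) (nat_lit 5) (nat_lit 11) (nat_lit 5) (nat_lit 12) (nat_lit 4) (nat_lit 268) (nat_lit 247) (nat_lit 145)))) (XT.nd (nat_lit 78) (nat_lit 152) (nat_lit 0) (XT.lf (nat_lit 0) (nat_lit 849996014311) (nat_lit 152) (nat_lit 423742398526) (nat_lit 0) (nat_lit 94872528806) (nat_lit 10) (nat_lit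 5) (nat_lit 12) (nat_lit 4) (nat_lit 10) (nat_lit 4) (nat_lit 269) (nat_lit 247) (nat_lit 144)) (XT.nd (nat_lit 78) (nat_lit 76) (nat_lit 0) (XT.lf (nat_lit 0) (nat_lit 363426387265) (nat_lit 76) (nat_lit 964042823543) (nat_lit 76) (nat_lit 208919282889) (nat_lit 9) (nat_lit 4) (nat_lit 10) (nat_lit 5) (nat_lit 10) (nat_lit 4) (nat_lit 270) (nat_lit 247) (nat_lit 143)) (XT.lf (nat_lit 0) (nat_lit 152522805700) (nat_lit 152) (nat_lit 437876152751) (nat_lit 76) (nat_lit 1137637874099) (nat_lit 8) (nat_lit 5) (nat_lit 10) (nat_lit 5) (nat_lit 9) (nat_lit 4) (nat_lit 271) (nat_lit 247) (nat_lit 142))))) (XT.nd (nat_lit 234) (nat_lit 152) (nat_lit 0) (XT.nd (nat_lit 78) (nat_lit 76) (nat_lit 0) (XT.lf (nat_lit 0) (nat_lit 422846911010) (nat_lit 76) (nat_lit 143485080008) (nat_lit 152) (nat_lit 1380824622362) (nat_lit 7) (nat_lit 5) (nat_lit 8) (nat_lit 5) (nat_lit 9) (nat_lit 4) (nat_lit 272)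 (nat_lit 247) (nat_lit 141)) (XT.nd (nat_lit 78) (nat_lit 76) (nat_lit 0) (XT.lf (nat_lit 0) (nat_lit 1064201631144) (nat_lit 152) (nat_lit 768170553087) (nat_lit 0) (nat_lit 365013050987) (nat_lit 7) (nat_lit 5) (nat_lit 9) (nat_lit 4) (nat_lit 7) (nat_lit 4) (nat_lit 273) (nat_lit 247) (nat_lit 140)) (XT.lf (nat_lit 0) (nat_lit 102550951914) (nat_lit 76) (nat_lit 1540635513961) (nat_lit 76) (nat_lit 841446904607) (nat_lit 6) (nat_lit 4) (nat_lit 7) (nat_lit 5) (nat_lit 7) (nat_lit 4) (nat_lit 274) (nat_lit 247) (nat_lit 139)))) (XT.nd (nat_lit 78) (nat_lit 152) (nat_lit 0) (XT.lf (nat_lit 0) (nat_lit 1150398677078) (nat_lit 76) (nat_lit 1180984765207) (nat_lit 76) (nat_lit 481796130466) (nat_lit 6) (nat_lit 4) (nat_lit 7) (nat_lit 5) (nat_lit 7) (nat_lit 4) (nat_lit 275) (nat_lit 247) (nat_lit 138)) (XT.nd (nat_lit 78) (nat_lit 152) (nat_lit 0) (XT.lf (nat_lit 0) (nat_lit 2355423490928)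 (nat_lit 76) (nat_lit 767386437123) (nat_lit 76) (nat_lit 68197780306) (nat_lit 6) (nat_lit 4) (nat_lit 7) (nat_lit 5) (nat_lit 7) (nat_lit 4) (nat_lit 276) (nat_lit 247) (nat_lit 137)) (XT.lf (nat_lit 0) (nat_lit 111469085389) (nat_lit 76) (nat_lit 278270222977) (nat_lit 152) (nat_lit 3234772375913) (nat_lit 4) (nat_lit 5) (nat_lit 5) (nat_lit 5) (nat_lit 6) (nat_lit 4) (nat_lit 277) (nat_lit 247) (nat_lit 136))))))) (XT.nd (nat_lit 32604) (nat_lit 0) (nat_lit 760) (XT.nd (nat_lit 32136) (nat_lit 0) (nat_lit 2584) (XT.nd (nat_lit 234) (nat_lit 76) (nat_lit 0) (XT.nd (nat_lit 78) (nat_lit 0) (nat_lit 0) (XT.lf (nat_lit 0) (nat_lit 944238019707) (nat_lit 152) (nat_lit 2879267714893) (nat_lit 0) (nat_lit 296841082016) (nat_lit 4) (nat_lit 5) (nat_lit 6) (nat_lit 4) (nat_lit 4) (nat_lit 4) (nat_lit 278) (nat_lit 247) (nat_lit 135)) (XT.nd (nat_lit 78) (nat_lit 0) (nat_lit 0) (XT.lf (nat_lit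 0) (nat_lit 1589607777319) (nat_lit 152) (nat_lit 2158122916149) (nat_lit 0) (nat_lit 942210826187) (nat_lit 4) (nat_lit 5) (nat_lit 6) (nat_lit 4) (nat_lit 4) (nat_lit 4) (nat_lit 279) (nat_lit 247) (nat_lit 134)) (XT.lf (nat_lit 0) (nat_lit 2331782975252) (nat_lit 152) (nat_lit 1328806442346) (nat_lit 0) (nat_lit 1684386012433) (nat_lit 4) (nat_lit 5) (nat_lit 6) (nat_lit 4) (nat_lit 4) (nat_lit 4) (nat_lit 280) (nat_lit 247) (nat_lit 133)))) (XT.nd (nat_lit 78) (nat_lit 76) (nat_lit 0) (XT.lf (nat_lit 0) (nat_lit 3185284432596) (nat_lit 152) (nat_lit 375092536388) (nat_lit 0) (nat_lit 2537887459614) (nat_lit 4) (nat_lit 5) (nat_lit 6) (nat_lit 4) (nat_lit 4) (nat_lit 4) (nat_lit 281) (nat_lit 247) (nat_lit 132)) (XT.nd (nat_lit 31746) (nat_lit 0) (nat_lit 3116) (XT.lf (nat_lit 0) (nat_lit 759680728381) (nat_lit 76) (nat_lit 3425400702314) (nat_lit 76) (nat_lit 2778003720495) (nat_lit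 3) (nat_lit 4) (nat_lit 4) (nat_lit 5) (nat_lit 4) (nat_lit 4) (nat_lit 282) (nat_lit 247) (nat_lit 131)) (XT.lf (nat_lit 0) (nat_lit 61175771231) (nat_lit 532) (nat_lit 20564286264) (nat_lit 532) (nat_lit 20564286264) (nat_lit 44) (nat_lit 3) (nat_lit 51) (nat_lit 3) (nat_lit 51) (nat_lit 5) (nat_lit 248) (nat_lit 248) (nat_lit 164))))) (XT.nd (nat_lit 234) (nat_lit 608) (nat_lit 0) (XT.nd (nat_lit 78) (nat_lit 0) (nat_lit 0) (XT.lf (nat_lit 0) (nat_lit 135016146233) (nat_lit 456) (nat_lit 79890802330) (nat_lit 532) (nat_lit 4768323088) (nat_lit 45) (nat_lit 5) (nat_lit 51) (nat_lit 5) (nat_lit 52) (nat_lit 5) (nat_lit 249) (nat_lit 248) (nat_lit 163)) (XT.nd (nat_lit 78) (nat_lit 0) (nat_lit 76) (XT.lf (nat_lit 76) (nat_lit 114598877199) (nat_lit 0) (nat_lit 43487182504) (nat_lit 532) (nat_lit 78235335661) (nat_lit 46) (nat_lit 5) (nat_lit 45) (nat_lit 5) (nat_lit 52) (nat_lit 5) (nat_lit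 250) (nat_lit 248) (nat_lit 162)) (XT.lf (nat_lit 76) (nat_lit 88492431983) (nat_lit 0) (nat_lit 104333399017) (nat_lit 532) (nat_lit 61981858270) (nat_lit 47) (nat_lit 5) (nat_lit 46) (nat_lit 5) (nat_lit 53) (nat_lit 5) (nat_lit 251) (nat_lit 248) (nat_lit 161)))) (XT.nd (nat_lit 78) (nat_lit 304) (nat_lit 0) (XT.lf (nat_lit 0) (nat_lit 61346119037) (nat_lit 456) (nat_lit 179998981454) (nat_lit 532) (nat_lit 34036345298) (nat_lit 41) (nat_lit 5) (nat_lit 47) (nat_lit 5) (nat_lit 48) (nat_lit 5) (nat_lit 252) (nat_lit 248) (nat_lit 160)) (XT.nd (nat_lit 78) (nat_lit 0) (nat_lit 0) (XT.lf (nat_lit 0) (nat_lit 7484823371) (nat_lit 304) (nat_lit 265715359672) (nat_lit 76) (nat_lit 25101630718) (nat_lit 37) (nat_lit 5) (nat_lit 41) (nat_lit 5) (nat_lit 38) (nat_lit 5) (nat_lit 253) (nat_lit 248) (nat_lit 159)) (XT.lf (nat_lit 0) (nat_lit 64647436787) (nat_lit 304) (nat_lit 1080744078) (nat_lit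 76) (nat_lit 257947043908) (nat_lit 37) (nat_lit 5) (nat_lit 41) (nat_lit 5) (nat_lit 38) (nat_lit 5) (nat_lit 254) (nat_lit 248) (nat_lit 158)))))) (XT.nd (nat_lit 468) (nat_lit 684) (nat_lit 0) (XT.nd (nat_lit 234) (nat_lit 532) (nat_lit 0) (XT.nd (nat_lit 78) (nat_lit 380) (nat_lit 0) (XT.lf (nat_lit 0) (nat_lit 142418180784) (nat_lit 304) (nat_lit 37379958810) (nat_lit 76) (nat_lit 172093809444) (nat_lit 34) (nat_lit 5) (nat_lit 38) (nat_lit 5) (nat_lit 35) (nat_lit 5) (nat_lit 255) (nat_lit 248) (nat_lit 157)) (XT.nd (nat_lit 78) (nat_lit 152) (nat_lit 0) (XT.lf (nat_lit 0) (nat_lit 242658453953) (nat_lit 304) (nat_lit 78487596000) (nat_lit 76) (nat_lit 62330819182) (nat_lit 31) (nat_lit 5) (nat_lit 35) (nat_lit 5) (nat_lit 32) (nat_lit 5) (nat_lit 256) (nat_lit 248) (nat_lit 156)) (XT.lf (nat_lit 0) (nat_lit 290811305030) (nat_lit 152) (nat_lit 80206595746) (nat_lit 228) (nat_lit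 47734976377) (nat_lit 29) (nat_lit 5) (nat_lit 31) (nat_lit 5) (nat_lit 32) (nat_lit 5) (nat_lit 257) (nat_lit 248) (nat_lit 155)))) (XT.nd (nat_lit 78) (nat_lit 304) (nat_lit 0) (XT.lf (nat_lit 0) (nat_lit 70264766284) (nat_lit 228) (nat_lit 190189884624) (nat_lit 76) (nat_lit 197637860377) (nat_lit 26) (nat_lit 5) (nat_lit 29) (nat_lit 5) (nat_lit 27) (nat_lit 5) (nat_lit 258) (nat_lit 248) (nat_lit 154)) (XT.nd (nat_lit 78) (nat_lit 152) (nat_lit 0) (XT.lf (nat_lit 0) (nat_lit 215440923996) (nat_lit 228) (nat_lit 266790427592) (nat_lit 76) (nat_lit 20018317995) (nat_lit 24) (nat_lit 5) (nat_lit 27) (nat_lit 5) (nat_lit 25) (nat_lit 5) (nat_lit 259) (nat_lit 248) (nat_lit 153)) (XT.lf (nat_lit 0) (nat_lit 185834230004) (nat_lit 152) (nat_lit 213912967393) (nat_lit 228) (nat_lit 151894909184) (nat_lit 22) (nat_lit 5) (nat_lit 24) (nat_lit 5) (nat_lit 25) (nat_lit 5) (nat_lit 260) (nat_lit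 248) (nat_lit 152))))) (XT.nd (nat_lit 234) (nat_lit 380) (nat_lit 0) (XT.nd (nat_lit 78) (nat_lit 152) (nat_lit 0) (XT.lf (nat_lit 0) (nat_lit 16519070637) (nat_lit 152) (nat_lit 489697842413) (nat_lit 76) (nat_lit 101146156066) (nat_lit 20) (nat_lit 5) (nat_lit 22) (nat_lit 5) (nat_lit 21) (nat_lit 5) (nat_lit 261) (nat_lit 248) (nat_lit 151)) (XT.nd (nat_lit 78) (nat_lit 0) (nat_lit 0) (XT.lf (nat_lit 0) (nat_lit 15607939240) (nat_lit 152) (nat_lit 203067323234) (nat_lit 228) (nat_lit 451053368897) (nat_lit 18) (nat_lit 5) (nat_lit 20) (nat_lit 5) (nat_lit 21) (nat_lit 5) (nat_lit 262) (nat_lit 248) (nat_lit 150)) (XT.lf (nat_lit 0) (nat_lit 469282695603) (nat_lit 228) (nat_lit 117815367973) (nat_lit 76) (nat_lit 152900739581) (nat_lit 18) (nat_lit 5) (nat_lit 21) (nat_lit 5) (nat_lit 19) (nat_lit 4) (nat_lit 263) (nat_lit 248) (nat_lit 149)))) (XT.nd (nat_lit 78) (nat_lit 304) (nat_lit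 0) (XT.lf (nat_lit 0) (nat_lit 519296560200) (nat_lit 76) (nat_lit 256290014203) (nat_lit 152) (nat_lit 43774500018) (nat_lit 17) (nat_lit 5) (nat_lit 18) (nat_lit 5) (nat_lit 19) (nat_lit 4) (nat_lit 264) (nat_lit 248) (nat_lit 148)) (XT.nd (nat_lit 78) (nat_lit 76) (nat_lit 0) (XT.lf (nat_lit 0) (nat_lit 221995020753) (nat_lit 228) (nat_lit 551142612449) (nat_lit 76) (nat_lit 135819958956) (nat_lit 14) (nat_lit 5) (nat_lit 17) (nat_lit 5) (nat_lit 15) (nat_lit 4) (nat_lit 265) (nat_lit 248) (nat_lit 147)) (XT.lf (nat_lit 0) (nat_lit 118662564679) (nat_lit 76) (nat_lit 425354222881) (nat_lit 152) (nat_lit 466367539567) (nat_lit 13) (nat_lit 5) (nat_lit 14) (nat_lit 5) (nat_lit 15) (nat_lit 4) (nat_lit 266) (nat_lit 248) (nat_lit 146))))))))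
noncomputable def xc54 : XT := (XT.nd (nat_lit 33618) (nat_lit 0) (nat_lit 0) (XT.nd (nat_lit 936) (nat_lit 0) (nat_lit 0) (XT.nd (nat_lit 468) (nat_lit 304) (nat_lit 0) (XT.nd (nat_lit 234) (nat_lit 152) (nat_lit 0) (XT.nd (nat_lit 78) (nat_lit 228) (nat_lit 0) (XT.lf (nat_lit 0) (nat_lit 922313899421) (nat_lit 76) (nat_lit 8073763049) (nat_lit 152) (nat_lit 195353742527) (nat_lit 13) (nat_lit 5) (nat_lit 14) (nat_lit 5) (nat_lit 15) (nat_lit 4) (nat_lit 267) (nat_lit 248) (nat_lit 145)) (XT.nd (nat_lit 78) (nat_lit 76) (nat_lit 0) (XT.lf (nat_lit 0) (nat_lit 137116022732) (nat_lit 152) (nat_lit 652662110208) (nat_lit 76) (nat_lit 466270342764) (nat_lit 11) (nat_lit 5) (nat_lit 13) (nat_lit 5) (nat_lit 12) (nat_lit 4) (nat_lit 268) (nat_lit 248) (nat_lit 144)) (XT.lf (nat_lit 0) (nat_lit 139301645235) (nat_lit 76) (nat_lit 378566211633) (nat_lit 152) (nat_lit 886829522315) (nat_lit 10)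 (nat_lit 5) (nat_lit 11) (nat_lit 5) (nat_lit 12) (nat_lit 4) (nat_lit 269) (nat_lit 248) (nat_lit 143)))) (XT.nd (nat_lit 78) (nat_lit 152) (nat_lit 0) (XT.lf (nat_lit 0) (nat_lit 977496084655) (nat_lit 152) (nat_lit 487302534312) (nat_lit 0) (nat_lit 109103909799) (nat_lit 10) (nat_lit 5) (nat_lit 12) (nat_lit 4) (nat_lit 10) (nat_lit 4) (nat_lit 270) (nat_lit 248) (nat_lit 142)) (XT.nd (nat_lit 78) (nat_lit 76) (nat_lit 0) (XT.lf (nat_lit 0) (nat_lit 417941465743) (nat_lit 76) (nat_lit 1108648734673) (nat_lit 76) (nat_lit 240256518117) (nat_lit 9) (nat_lit 4) (nat_lit 10) (nat_lit 5) (nat_lit 10) (nat_lit 4) (nat_lit 271) (nat_lit 248) (nat_lit 141)) (XT.lf (nat_lit 0) (nat_lit 175401769451) (nat_lit 152) (nat_lit 503556572358) (nat_lit 76) (nat_lit 1308283971725) (nat_lit 8) (nat_lit 5) (nat_lit 10) (nat_lit 5) (nat_lit 9) (nat_lit 4) (nat_lit 272) (nat_lit 248) (nat_lit 140)))))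 (XT.nd (nat_lit 234) (nat_lit 152) (nat_lit 0) (XT.nd (nat_lit 78) (nat_lit 76) (nat_lit 0) (XT.lf (nat_lit 0) (nat_lit 486274866043) (nat_lit 76) (nat_lit 165007417798) (nat_lit 152) (nat_lit 1587947781606) (nat_lit 7) (nat_lit 5) (nat_lit 8) (nat_lit 5) (nat_lit 9) (nat_lit 4) (nat_lit 273) (nat_lit 248) (nat_lit 139)) (XT.nd (nat_lit 78) (nat_lit 76) (nat_lit 0) (XT.lf (nat_lit 0) (nat_lit 1223832314401) (nat_lit 152) (nat_lit 883395311598) (nat_lit 0) (nat_lit 419765359061) (nat_lit 7) (nat_lit 5) (nat_lit 9) (nat_lit 4) (nat_lit 7) (nat_lit 4) (nat_lit 274) (nat_lit 248) (nat_lit 138)) (XT.lf (nat_lit 0) (nat_lit 117934349368) (nat_lit 76) (nat_lit 1771730485916) (nat_lit 76) (nat_lit 967663508500) (nat_lit 6) (nat_lit 4) (nat_lit 7) (nat_lit 5) (nat_lit 7) (nat_lit 4) (nat_lit 275) (nat_lit 248) (nat_lit 137)))) (XT.nd (nat_lit 78) (nat_lit 152) (nat_lit 0) (XT.lf (nat_lit 0) (nat_lit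 1322959134871) (nat_lit 76) (nat_lit 1358132171172) (nat_lit 76) (nat_lit 554065174559) (nat_lit 6) (nat_lit 4) (nat_lit 7) (nat_lit 5) (nat_lit 7) (nat_lit 4) (nat_lit 276) (nat_lit 248) (nat_lit 136)) (XT.nd (nat_lit 78) (nat_lit 152) (nat_lit 0) (XT.lf (nat_lit 0) (nat_lit 2708737585204) (nat_lit 76) (nat_lit 882494134156) (nat_lit 76) (nat_lit 78427120850) (nat_lit 6) (nat_lit 4) (nat_lit 7) (nat_lit 5) (nat_lit 7) (nat_lit 4) (nat_lit 277) (nat_lit 248) (nat_lit 135)) (XT.lf (nat_lit 0) (nat_lit 128189985679) (nat_lit 76) (nat_lit 320010501580) (nat_lit 152) (nat_lit 3719987926863) (nat_lit 4) (nat_lit 5) (nat_lit 5) (nat_lit 5) (nat_lit 6) (nat_lit 4) (nat_lit 278) (nat_lit 248) (nat_lit 134)))))) (XT.nd (nat_lit 32214) (nat_lit 0) (nat_lit 2280) (XT.nd (nat_lit 234) (nat_lit 0) (nat_lit 0) (XT.nd (nat_lit 78) (nat_lit 0) (nat_lit 0) (XT.lf (nat_lit 0) (nat_lit 1085873973765) (nat_lit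 152) (nat_lit 3311157390256) (nat_lit 0) (nat_lit 341367454836) (nat_lit 4) (nat_lit 5) (nat_lit 6) (nat_lit 4) (nat_lit 4) (nat_lit 4) (nat_lit 279) (nat_lit 248) (nat_lit 133)) (XT.nd (nat_lit 78) (nat_lit 0) (nat_lit 0) (XT.lf (nat_lit 0) (nat_lit 1828049162266) (nat_lit 152) (nat_lit 2481840934553) (nat_lit 0) (nat_lit 1083542633175) (nat_lit 4) (nat_lit 5) (nat_lit 6) (nat_lit 4) (nat_lit 4) (nat_lit 4) (nat_lit 280) (nat_lit 248) (nat_lit 132)) (XT.lf (nat_lit 0) (nat_lit 2681550611408) (nat_lit 152) (nat_lit 1528127044335) (nat_lit 0) (nat_lit 1937044073480) (nat_lit 4) (nat_lit 5) (nat_lit 6) (nat_lit 4) (nat_lit 4) (nat_lit 4) (nat_lit 281) (nat_lit 248) (nat_lit 131)))) (XT.nd (nat_lit 31824) (nat_lit 0) (nat_lit 3040) (XT.lf (nat_lit 0) (nat_lit 3663077262588) (nat_lit 152) (nat_lit 431356100009) (nat_lit 0) (nat_lit 2918570716975) (nat_lit 4) (nat_lit 5) (nat_lit 6) (nat_lit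 4) (nat_lit 4) (nat_lit 4) (nat_lit 282) (nat_lit 248) (nat_lit 130)) (XT.nd (nat_lit 78) (nat_lit 0) (nat_lit 76) (XT.lf (nat_lit 0) (nat_lit 70354596364) (nat_lit 532) (nat_lit 23647597082) (nat_lit 532) (nat_lit 23647597082) (nat_lit 44) (nat_lit 3) (nat_lit 51) (nat_lit 3) (nat_lit 51) (nat_lit 5) (nat_lit 249) (nat_lit 249) (nat_lit 162)) (XT.lf (nat_lit 0) (nat_lit 155272858492) (nat_lit 456) (nat_lit 91871577469) (nat_lit 532) (nat_lit 5481769232) (nat_lit 45) (nat_lit 5) (nat_lit 51) (nat_lit 5) (nat_lit 52) (nat_lit 5) (nat_lit 250) (nat_lit 249) (nat_lit 161))))) (XT.nd (nat_lit 234) (nat_lit 532) (nat_lit 0) (XT.nd (nat_lit 78) (nat_lit 304) (nat_lit 0) (XT.lf (nat_lit 76) (nat_lit 131791313157) (nat_lit 0) (nat_lit 50011448855) (nat_lit 532) (nat_lit 89966527034) (nat_lit 46) (nat_lit 5) (nat_lit 45) (nat_lit 5) (nat_lit 52) (nat_lit 5) (nat_lit 251) (nat_lit 249) (nat_lit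 160)) (XT.nd (nat_lit 78) (nat_lit 380) (nat_lit 0) (XT.lf (nat_lit 76) (nat_lit 101768995793) (nat_lit 0) (nat_lit 119984048471) (nat_lit 532) (nat_lit 71275520738) (nat_lit 47) (nat_lit 5) (nat_lit 46) (nat_lit 5) (nat_lit 53) (nat_lit 5) (nat_lit 252) (nat_lit 249) (nat_lit 159)) (XT.lf (nat_lit 0) (nat_lit 70550775684) (nat_lit 456) (nat_lit 206999045516) (nat_lit 532) (nat_lit 39138595817) (nat_lit 41) (nat_lit 5) (nat_lit 47) (nat_lit 5) (nat_lit 48) (nat_lit 5) (nat_lit 253) (nat_lit 249) (nat_lit 158)))) (XT.nd (nat_lit 78) (nat_lit 228) (nat_lit 0) (XT.lf (nat_lit 0) (nat_lit 8610254214) (nat_lit 304) (nat_lit 305569777069) (nat_lit 76) (nat_lit 28866830555) (nat_lit 37) (nat_lit 5) (nat_lit 41) (nat_lit 5) (nat_lit 38) (nat_lit 5) (nat_lit 254) (nat_lit 249) (nat_lit 157)) (XT.nd (nat_lit 78) (nat_lit 228) (nat_lit 0) (XT.lf (nat_lit 0) (nat_lit 74346906512) (nat_lit 304) (nat_lit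 1240345643) (nat_lit 76) (nat_lit 296639061562) (nat_lit 37) (nat_lit 5) (nat_lit 41) (nat_lit 5) (nat_lit 38) (nat_lit 5) (nat_lit 255) (nat_lit 249) (nat_lit 156)) (XT.lf (nat_lit 0) (nat_lit 163783014990) (nat_lit 304) (nat_lit 42984485955) (nat_lit 76) (nat_lit 197908066287) (nat_lit 34) (nat_lit 5) (nat_lit 38) (nat_lit 5) (nat_lit 35) (nat_lit 5) (nat_lit 256) (nat_lit 249) (nat_lit 155))))))) (XT.nd (nat_lit 936) (nat_lit 684) (nat_lit 0) (XT.nd (nat_lit 468) (nat_lit 532) (nat_lit 0) (XT.nd (nat_lit 234) (nat_lit 456) (nat_lit 0) (XT.nd (nat_lit 78) (nat_lit 380) (nat_lit 0) (XT.lf (nat_lit 0) (nat_lit 279059117529) (nat_lit 304) (nat_lit 90258330655) (nat_lit 76) (nat_lit 71680794817) (nat_lit 31) (nat_lit 5) (nat_lit 35) (nat_lit 5) (nat_lit 32) (nat_lit 5) (nat_lit 257) (nat_lit 249) (nat_lit 154)) (XT.nd (nat_lit 78) (nat_lit 228) (nat_lit 0) (XT.lf (nat_lit 0) (nat_lit 334435201979)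 (nat_lit 152) (nat_lit 92237085098) (nat_lit 228) (nat_lit 54893381323) (nat_lit 29) (nat_lit 5) (nat_lit 31) (nat_lit 5) (nat_lit 32) (nat_lit 5) (nat_lit 258) (nat_lit 249) (nat_lit 153)) (XT.lf (nat_lit 0) (nat_lit 80806065779) (nat_lit 228) (nat_lit 218716148156) (nat_lit 76) (nat_lit 227284043872) (nat_lit 26) (nat_lit 5) (nat_lit 29) (nat_lit 5) (nat_lit 27) (nat_lit 5) (nat_lit 259) (nat_lit 249) (nat_lit 152)))) (XT.nd (nat_lit 78) (nat_lit 304) (nat_lit 0) (XT.lf (nat_lit 0) (nat_lit 247758503860) (nat_lit 228) (nat_lit 306806857851) (nat_lit 76) (nat_lit 23021640046) (nat_lit 24) (nat_lit 5) (nat_lit 27) (nat_lit 5) (nat_lit 25) (nat_lit 5) (nat_lit 260) (nat_lit 249) (nat_lit 151)) (XT.nd (nat_lit 78) (nat_lit 152) (nat_lit 0) (XT.lf (nat_lit 0) (nat_lit 213711317763) (nat_lit 152) (nat_lit 245999259494) (nat_lit 228) (nat_lit 174677738715) (nat_lit 22) (nat_lit 5) (nat_lit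 24) (nat_lit 5) (nat_lit 25) (nat_lit 5) (nat_lit 261) (nat_lit 249) (nat_lit 150)) (XT.lf (nat_lit 0) (nat_lit 18998153561) (nat_lit 152) (nat_lit 563150581213) (nat_lit 76) (nat_lit 116318694849) (nat_lit 20) (nat_lit 5) (nat_lit 22) (nat_lit 5) (nat_lit 21) (nat_lit 5) (nat_lit 262) (nat_lit 249) (nat_lit 149))))) (XT.nd (nat_lit 234) (nat_lit 304) (nat_lit 0) (XT.nd (nat_lit 78) (nat_lit 76) (nat_lit 0) (XT.lf (nat_lit 0) (nat_lit 17950903683) (nat_lit 152) (nat_lit 233526753710) (nat_lit 228) (nat_lit 518710178437) (nat_lit 18) (nat_lit 5) (nat_lit 20) (nat_lit 5) (nat_lit 21) (nat_lit 5) (nat_lit 263) (nat_lit 249) (nat_lit 148)) (XT.nd (nat_lit 78) (nat_lit 76) (nat_lit 0) (XT.lf (nat_lit 0) (nat_lit 539676075260) (nat_lit 228) (nat_lit 135486066440) (nat_lit 76) (nat_lit 175836402338) (nat_lit 18) (nat_lit 5) (nat_lit 21) (nat_lit 5) (nat_lit 19) (nat_lit 4) (nat_lit 264) (nat_lit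 249) (nat_lit 147)) (XT.lf (nat_lit 0) (nat_lit 597192514958) (nat_lit 76) (nat_lit 294732929078) (nat_lit 152) (nat_lit 50339719508) (nat_lit 17) (nat_lit 5) (nat_lit 18) (nat_lit 5) (nat_lit 19) (nat_lit 4) (nat_lit 265) (nat_lit 249) (nat_lit 146)))) (XT.nd (nat_lit 78) (nat_lit 76) (nat_lit 0) (XT.lf (nat_lit 0) (nat_lit 255295110310) (nat_lit 228) (nat_lit 633812559919) (nat_lit 76) (nat_lit 156193492739) (nat_lit 14) (nat_lit 5) (nat_lit 17) (nat_lit 5) (nat_lit 15) (nat_lit 4) (nat_lit 266) (nat_lit 249) (nat_lit 145)) (XT.nd (nat_lit 78) (nat_lit 0) (nat_lit 0) (XT.lf (nat_lit 0) (nat_lit 136463271517) (nat_lit 76) (nat_lit 489156793317) (nat_lit 152) (nat_lit 536321849676) (nat_lit 13) (nat_lit 5) (nat_lit 14) (nat_lit 5) (nat_lit 15) (nat_lit 4) (nat_lit 267) (nat_lit 249) (nat_lit 144)) (XT.lf (nat_lit 0) (nat_lit 1060662134018) (nat_lit 76) (nat_lit 9284337944) (nat_lit 152)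 (nat_lit 224656090144) (nat_lit 13) (nat_lit 5) (nat_lit 14) (nat_lit 5) (nat_lit 15) (nat_lit 4) (nat_lit 268) (nat_lit 249) (nat_lit 143)))))) (XT.nd (nat_lit 468) (nat_lit 228) (nat_lit 0) (XT.nd (nat_lit 234) (nat_lit 228) (nat_lit 0) (XT.nd (nat_lit 78) (nat_lit 76) (nat_lit 0) (XT.lf (nat_lit 0) (nat_lit 157684053173) (nat_lit 152) (nat_lit 750560302361) (nat_lit 76) (nat_lit 536211340695) (nat_lit 11) (nat_lit 5) (nat_lit 13) (nat_lit 5) (nat_lit 12) (nat_lit 4) (nat_lit 269) (nat_lit 249) (nat_lit 142)) (XT.nd (nat_lit 78) (nat_lit 0) (nat_lit 0) (XT.lf (nat_lit 0) (nat_lit 160197921226) (nat_lit 76) (nat_lit 435350684170) (nat_lit 152) (nat_lit 1019853334485) (nat_lit 10) (nat_lit 5) (nat_lit 11) (nat_lit 5) (nat_lit 12) (nat_lit 4) (nat_lit 270) (nat_lit 249) (nat_lit 141)) (XT.lf (nat_lit 0) (nat_lit 1124121002606) (nat_lit 152) (nat_lit 560396988944) (nat_lit 0) (nat_lit 125469875605)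 (nat_lit 10) (nat_lit 5) (nat_lit 12) (nat_lit 4) (nat_lit 10) (nat_lit 4) (nat_lit 271) (nat_lit 249) (nat_lit 140)))) (XT.nd (nat_lit 78) (nat_lit 152) (nat_lit 0) (XT.lf (nat_lit 0) (nat_lit 480633532779) (nat_lit 76) (nat_lit 1274945657424) (nat_lit 76) (nat_lit 276294498892) (nat_lit 9) (nat_lit 4) (nat_lit 10) (nat_lit 5) (nat_lit 10) (nat_lit 4) (nat_lit 272) (nat_lit 249) (nat_lit 139)) (XT.nd (nat_lit 78) (nat_lit 76) (nat_lit 0) (XT.lf (nat_lit 0) (nat_lit 201712445376) (nat_lit 152) (nat_lit 579089299567) (nat_lit 76) (nat_lit 1504526882426) (nat_lit 8) (nat_lit 5) (nat_lit 10) (nat_lit 5) (nat_lit 9) (nat_lit 4) (nat_lit 273) (nat_lit 249) (nat_lit 138)) (XT.lf (nat_lit 0) (nat_lit 559216790378) (nat_lit 76) (nat_lit 189758209703) (nat_lit 152) (nat_lit 1826139544982) (nat_lit 7) (nat_lit 5) (nat_lit 8) (nat_lit 5) (nat_lit 9) (nat_lit 4) (nat_lit 274) (nat_lit 249) (nat_lit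 137))))) (XT.nd (nat_lit 234) (nat_lit 152) (nat_lit 0) (XT.nd (nat_lit 78) (nat_lit 76) (nat_lit 0) (XT.lf (nat_lit 0) (nat_lit 1407407493194) (nat_lit 152) (nat_lit 1015903984934) (nat_lit 0) (nat_lit 482730427893) (nat_lit 7) (nat_lit 5) (nat_lit 9) (nat_lit 4) (nat_lit 7) (nat_lit 4) (nat_lit 275) (nat_lit 249) (nat_lit 136)) (XT.nd (nat_lit 78) (nat_lit 0) (nat_lit 0) (XT.lf (nat_lit 0) (nat_lit 135625072409) (nat_lit 76) (nat_lit 2037489790268) (nat_lit 76) (nat_lit 1112812708274) (nat_lit 6) (nat_lit 4) (nat_lit 7) (nat_lit 5) (nat_lit 7) (nat_lit 4) (nat_lit 276) (nat_lit 249) (nat_lit 135)) (XT.lf (nat_lit 0) (nat_lit 1521403501307) (nat_lit 76) (nat_lit 1561851763339) (nat_lit 76) (nat_lit 637174666829) (nat_lit 6) (nat_lit 4) (nat_lit 7) (nat_lit 5) (nat_lit 7) (nat_lit 4) (nat_lit 277) (nat_lit 249) (nat_lit 134)))) (XT.nd (nat_lit 78) (nat_lit 152) (nat_lit 0) (XT.lf (nat_lit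 0) (nat_lit 3115048654467) (nat_lit 76) (nat_lit 1014868051228) (nat_lit 76) (nat_lit 90190942096) (nat_lit 6) (nat_lit 4) (nat_lit 7) (nat_lit 5) (nat_lit 7) (nat_lit 4) (nat_lit 278) (nat_lit 249) (nat_lit 133)) (XT.nd (nat_lit 78) (nat_lit 0) (nat_lit 0) (XT.lf (nat_lit 0) (nat_lit 147418889945) (nat_lit 76) (nat_lit 368011884118) (nat_lit 152) (nat_lit 4277985884939) (nat_lit 4) (nat_lit 5) (nat_lit 5) (nat_lit 5) (nat_lit 6) (nat_lit 4) (nat_lit 279) (nat_lit 249) (nat_lit 132)) (XT.lf (nat_lit 0) (nat_lit 1248755259699) (nat_lit 152) (nat_lit 3807830634430) (nat_lit 0) (nat_lit 392572732244) (nat_lit 4) (nat_lit 5) (nat_lit 6) (nat_lit 4) (nat_lit 4) (nat_lit 4) (nat_lit 280) (nat_lit 249) (nat_lit 131))))))))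
noncomputable def xc55 : XT := (XT.nd (nat_lit 33696) (nat_lit 0) (nat_lit 0) (XT.nd (nat_lit 32760) (nat_lit 0) (nat_lit 456) (XT.nd (nat_lit 32292) (nat_lit 0) (nat_lit 1900) (XT.nd (nat_lit 32058) (nat_lit 0) (nat_lit 3116) (XT.nd (nat_lit 78) (nat_lit 0) (nat_lit 0) (XT.lf (nat_lit 0) (nat_lit 2102256701709) (nat_lit 152) (nat_lit 2854116757898) (nat_lit 0) (nat_lit 1246074166570) (nat_lit 4) (nat_lit 5) (nat_lit 6) (nat_lit 4) (nat_lit 4) (nat_lit 4) (nat_lit 281) (nat_lit 249) (nat_lit 130)) (XT.nd (nat_lit 31902) (nat_lit 0) (nat_lit 3040) (XT.lf (nat_lit 0) (nat_lit 3083783346688) (nat_lit 152) (nat_lit 1757345825473) (nat_lit 0) (nat_lit 2227600804866) (nat_lit 4) (nat_lit 5) (nat_lit 6) (nat_lit 4) (nat_lit 4) (nat_lit 4) (nat_lit 282) (nat_lit 249) (nat_lit 129)) (XT.lf (nat_lit 0) (nat_lit 80909645516) (nat_lit 532) (nat_lit 27193729370) (nat_lit 532) (nat_lit 27193729370)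 (nat_lit 44) (nat_lit 3) (nat_lit 51) (nat_lit 3) (nat_lit 51) (nat_lit 5) (nat_lit 250) (nat_lit 250) (nat_lit 160)))) (XT.nd (nat_lit 78) (nat_lit 0) (nat_lit 0) (XT.lf (nat_lit 0) (nat_lit 178567031368) (nat_lit 456) (nat_lit 105650162701) (nat_lit 532) (nat_lit 6302671805) (nat_lit 45) (nat_lit 5) (nat_lit 51) (nat_lit 5) (nat_lit 52) (nat_lit 5) (nat_lit 251) (nat_lit 250) (nat_lit 159)) (XT.nd (nat_lit 78) (nat_lit 0) (nat_lit 76) (XT.lf (nat_lit 76) (nat_lit 151561979414) (nat_lit 0) (nat_lit 57514065219) (nat_lit 532) (nat_lit 103458399113) (nat_lit 46) (nat_lit 5) (nat_lit 45) (nat_lit 5) (nat_lit 52) (nat_lit 5) (nat_lit 252) (nat_lit 250) (nat_lit 158)) (XT.lf (nat_lit 76) (nat_lit 117036386003) (nat_lit 0) (nat_lit 137982139372) (nat_lit 532) (nat_lit 81964114426) (nat_lit 47) (nat_lit 5) (nat_lit 46) (nat_lit 5) (nat_lit 53) (nat_lit 5) (nat_lit 253) (nat_lit 250) (nat_lit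 157))))) (XT.nd (nat_lit 234) (nat_lit 608) (nat_lit 0) (XT.nd (nat_lit 78) (nat_lit 304) (nat_lit 0) (XT.lf (nat_lit 0) (nat_lit 81135462956) (nat_lit 456) (nat_lit 238049066307) (nat_lit 532) (nat_lit 45006964564) (nat_lit 41) (nat_lit 5) (nat_lit 47) (nat_lit 5) (nat_lit 48) (nat_lit 5) (nat_lit 254) (nat_lit 250) (nat_lit 156)) (XT.nd (nat_lit 78) (nat_lit 0) (nat_lit 0) (XT.lf (nat_lit 0) (nat_lit 9903839482) (nat_lit 304) (nat_lit 351403060980) (nat_lit 76) (nat_lit 33196821285) (nat_lit 37) (nat_lit 5) (nat_lit 41) (nat_lit 5) (nat_lit 38) (nat_lit 5) (nat_lit 255) (nat_lit 250) (nat_lit 155)) (XT.lf (nat_lit 0) (nat_lit 85500722607) (nat_lit 304) (nat_lit 1424499533) (nat_lit 76) (nat_lit 341134891359) (nat_lit 37) (nat_lit 5) (nat_lit 41) (nat_lit 5) (nat_lit 38) (nat_lit 5) (nat_lit 256) (nat_lit 250) (nat_lit 154)))) (XT.nd (nat_lit 78) (nat_lit 380) (nat_lit 0) (XT.lf (nat_lit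 0) (nat_lit 188352060499) (nat_lit 304) (nat_lit 49430293686) (nat_lit 76) (nat_lit 227594416439) (nat_lit 34) (nat_lit 5) (nat_lit 38) (nat_lit 5) (nat_lit 35) (nat_lit 5) (nat_lit 257) (nat_lit 250) (nat_lit 153)) (XT.nd (nat_lit 78) (nat_lit 152) (nat_lit 0) (XT.lf (nat_lit 0) (nat_lit 320919418416) (nat_lit 304) (nat_lit 103795261922) (nat_lit 76) (nat_lit 82433180774) (nat_lit 31) (nat_lit 5) (nat_lit 35) (nat_lit 5) (nat_lit 32) (nat_lit 5) (nat_lit 258) (nat_lit 250) (nat_lit 152)) (XT.lf (nat_lit 0) (nat_lit 384602146696) (nat_lit 152) (nat_lit 106072269783) (nat_lit 228) (nat_lit 63125996075) (nat_lit 29) (nat_lit 5) (nat_lit 31) (nat_lit 5) (nat_lit 32) (nat_lit 5) (nat_lit 259) (nat_lit 250) (nat_lit 151)))))) (XT.nd (nat_lit 468) (nat_lit 608) (nat_lit 0) (XT.nd (nat_lit 234) (nat_lit 304) (nat_lit 0) (XT.nd (nat_lit 78) (nat_lit 304) (nat_lit 0) (XT.lf (nat_lit 0) (nat_lit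 92928173794) (nat_lit 228) (nat_lit 251521892374) (nat_lit 76) (nat_lit 261377031881) (nat_lit 26) (nat_lit 5) (nat_lit 29) (nat_lit 5) (nat_lit 27) (nat_lit 5) (nat_lit 260) (nat_lit 250) (nat_lit 150)) (XT.nd (nat_lit 78) (nat_lit 152) (nat_lit 0) (XT.lf (nat_lit 0) (nat_lit 284923369243) (nat_lit 228) (nat_lit 352826273008) (nat_lit 76) (nat_lit 26475320346) (nat_lit 24) (nat_lit 5) (nat_lit 27) (nat_lit 5) (nat_lit 25) (nat_lit 5) (nat_lit 261) (nat_lit 250) (nat_lit 149)) (XT.lf (nat_lit 0) (nat_lit 245769492371) (nat_lit 152) (nat_lit 282898654650) (nat_lit 228) (nat_lit 200878335745) (nat_lit 22) (nat_lit 5) (nat_lit 24) (nat_lit 5) (nat_lit 25) (nat_lit 5) (nat_lit 262) (nat_lit 250) (nat_lit 148)))) (XT.nd (nat_lit 78) (nat_lit 152) (nat_lit 0) (XT.lf (nat_lit 0) (nat_lit 21848800851) (nat_lit 152) (nat_lit 647621703320) (nat_lit 76) (nat_lit 133766964387) (nat_lit 20) (nat_lit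 5) (nat_lit 22) (nat_lit 5) (nat_lit 21) (nat_lit 5) (nat_lit 263) (nat_lit 250) (nat_lit 147)) (XT.nd (nat_lit 78) (nat_lit 0) (nat_lit 0) (XT.lf (nat_lit 0) (nat_lit 20644880300) (nat_lit 152) (nat_lit 268555261656) (nat_lit 228) (nat_lit 596515801009) (nat_lit 18) (nat_lit 5) (nat_lit 20) (nat_lit 5) (nat_lit 21) (nat_lit 5) (nat_lit 264) (nat_lit 250) (nat_lit 146)) (XT.lf (nat_lit 0) (nat_lit 620628224028) (nat_lit 228) (nat_lit 155807761488) (nat_lit 76) (nat_lit 202212279943) (nat_lit 18) (nat_lit 5) (nat_lit 21) (nat_lit 5) (nat_lit 19) (nat_lit 4) (nat_lit 265) (nat_lit 250) (nat_lit 145))))) (XT.nd (nat_lit 234) (nat_lit 228) (nat_lit 0) (XT.nd (nat_lit 78) (nat_lit 304) (nat_lit 0) (XT.lf (nat_lit 0) (nat_lit 686772504283) (nat_lit 76) (nat_lit 338942424391) (nat_lit 152) (nat_lit 57889954928) (nat_lit 17) (nat_lit 5) (nat_lit 18) (nat_lit 5) (nat_lit 19) (nat_lit 4) (nat_lit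 266) (nat_lit 250) (nat_lit 144)) (XT.nd (nat_lit 78) (nat_lit 76) (nat_lit 0) (XT.lf (nat_lit 0) (nat_lit 293590009328) (nat_lit 228) (nat_lit 728883351736) (nat_lit 76) (nat_lit 179622924922) (nat_lit 14) (nat_lit 5) (nat_lit 17) (nat_lit 5) (nat_lit 15) (nat_lit 4) (nat_lit 267) (nat_lit 250) (nat_lit 143)) (XT.lf (nat_lit 0) (nat_lit 156933761969) (nat_lit 76) (nat_lit 562529886609) (nat_lit 152) (nat_lit 616769506465) (nat_lit 13) (nat_lit 5) (nat_lit 14) (nat_lit 5) (nat_lit 15) (nat_lit 4) (nat_lit 268) (nat_lit 250) (nat_lit 142)))) (XT.nd (nat_lit 78) (nat_lit 228) (nat_lit 0) (XT.lf (nat_lit 0) (nat_lit 1219762323447) (nat_lit 76) (nat_lit 10676618457) (nat_lit 152) (nat_lit 258353963960) (nat_lit 13) (nat_lit 5) (nat_lit 14) (nat_lit 5) (nat_lit 15) (nat_lit 4) (nat_lit 269) (nat_lit 250) (nat_lit 141)) (XT.nd (nat_lit 78) (nat_lit 76) (nat_lit 0) (XT.lf (nat_lit 0) (nat_lit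 181337135275) (nat_lit 152) (nat_lit 863143497524) (nat_lit 76) (nat_lit 616643379429) (nat_lit 11) (nat_lit 5) (nat_lit 13) (nat_lit 5) (nat_lit 12) (nat_lit 4) (nat_lit 270) (nat_lit 250) (nat_lit 140)) (XT.lf (nat_lit 0) (nat_lit 184228387636) (nat_lit 76) (nat_lit 500652939568) (nat_lit 152) (nat_lit 1172830868739) (nat_lit 10) (nat_lit 5) (nat_lit 11) (nat_lit 5) (nat_lit 12) (nat_lit 4) (nat_lit 271) (nat_lit 250) (nat_lit 139))))))) (XT.nd (nat_lit 32838) (nat_lit 0) (nat_lit 1216) (XT.nd (nat_lit 468) (nat_lit 152) (nat_lit 0) (XT.nd (nat_lit 234) (nat_lit 152) (nat_lit 0) (XT.nd (nat_lit 78) (nat_lit 152) (nat_lit 0) (XT.lf (nat_lit 0) (nat_lit 1292739535040) (nat_lit 152) (nat_lit 644455837463) (nat_lit 0) (nat_lit 144290643778) (nat_lit 10) (nat_lit 5) (nat_lit 12) (nat_lit 4) (nat_lit 10) (nat_lit 4) (nat_lit 272) (nat_lit 250) (nat_lit 138)) (XT.nd (nat_lit 78) (nat_lit 76)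 (nat_lit 0) (XT.lf (nat_lit 0) (nat_lit 552729203282) (nat_lit 76) (nat_lit 1466187213071) (nat_lit 76) (nat_lit 317738297966) (nat_lit 9) (nat_lit 4) (nat_lit 10) (nat_lit 5) (nat_lit 10) (nat_lit 4) (nat_lit 273) (nat_lit 250) (nat_lit 137)) (XT.lf (nat_lit 0) (nat_lit 231969622585) (nat_lit 152) (nat_lit 665952120859) (nat_lit 76) (nat_lit 1730206152931) (nat_lit 8) (nat_lit 5) (nat_lit 10) (nat_lit 5) (nat_lit 9) (nat_lit 4) (nat_lit 274) (nat_lit 250) (nat_lit 136)))) (XT.nd (nat_lit 78) (nat_lit 76) (nat_lit 0) (XT.lf (nat_lit 0) (nat_lit 643099834022) (nat_lit 76) (nat_lit 218221698615) (nat_lit 152) (nat_lit 2100060171350) (nat_lit 7) (nat_lit 5) (nat_lit 8) (nat_lit 5) (nat_lit 9) (nat_lit 4) (nat_lit 275) (nat_lit 250) (nat_lit 135)) (XT.nd (nat_lit 78) (nat_lit 76) (nat_lit 0) (XT.lf (nat_lit 0) (nat_lit 1618518867936) (nat_lit 152) (nat_lit 1168289111290) (nat_lit 0) (nat_lit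 555140192435) (nat_lit 7) (nat_lit 5) (nat_lit 9) (nat_lit 4) (nat_lit 7) (nat_lit 4) (nat_lit 276) (nat_lit 250) (nat_lit 134)) (XT.lf (nat_lit 0) (nat_lit 155969264753) (nat_lit 76) (nat_lit 2343113055757) (nat_lit 76) (nat_lit 1279734367634) (nat_lit 6) (nat_lit 4) (nat_lit 7) (nat_lit 5) (nat_lit 7) (nat_lit 4) (nat_lit 277) (nat_lit 250) (nat_lit 133))))) (XT.nd (nat_lit 234) (nat_lit 0) (nat_lit 0) (XT.nd (nat_lit 78) (nat_lit 152) (nat_lit 0) (XT.lf (nat_lit 0) (nat_lit 1749614401706) (nat_lit 76) (nat_lit 1796129351273) (nat_lit 76) (nat_lit 732750652174) (nat_lit 6) (nat_lit 4) (nat_lit 7) (nat_lit 5) (nat_lit 7) (nat_lit 4) (nat_lit 278) (nat_lit 250) (nat_lit 132)) (XT.nd (nat_lit 78) (nat_lit 152) (nat_lit 0) (XT.lf (nat_lit 0) (nat_lit 3582306278901) (nat_lit 76) (nat_lit 1167098105376) (nat_lit 76) (nat_lit 103719396733) (nat_lit 6) (nat_lit 4) (nat_lit 7) (nat_lit 5) (nat_lit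 7) (nat_lit 4) (nat_lit 279) (nat_lit 250) (nat_lit 131)) (XT.lf (nat_lit 0) (nat_lit 169532030744) (nat_lit 76) (nat_lit 423213521027) (nat_lit 152) (nat_lit 4919683593046) (nat_lit 4) (nat_lit 5) (nat_lit 5) (nat_lit 5) (nat_lit 6) (nat_lit 4) (nat_lit 280) (nat_lit 250) (nat_lit 130)))) (XT.nd (nat_lit 78) (nat_lit 0) (nat_lit 0) (XT.lf (nat_lit 0) (nat_lit 1436068692222) (nat_lit 152) (nat_lit 4379004954084) (nat_lit 0) (nat_lit 451458762445) (nat_lit 4) (nat_lit 5) (nat_lit 6) (nat_lit 4) (nat_lit 4) (nat_lit 4) (nat_lit 281) (nat_lit 250) (nat_lit 129)) (XT.nd (nat_lit 31980) (nat_lit 0) (nat_lit 3040) (XT.lf (nat_lit 0) (nat_lit 2417595331808) (nat_lit 152) (nat_lit 3282234032008) (nat_lit 0) (nat_lit 1432985396220) (nat_lit 4) (nat_lit 5) (nat_lit 6) (nat_lit 4) (nat_lit 4) (nat_lit 4) (nat_lit 282) (nat_lit 250) (nat_lit 128)) (XT.lf (nat_lit 0) (nat_lit 93047498541) (nat_lit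 532) (nat_lit 31272027130) (nat_lit 532) (nat_lit 31272027130) (nat_lit 44) (nat_lit 3) (nat_lit 51) (nat_lit 3) (nat_lit 51) (nat_lit 5) (nat_lit 251) (nat_lit 251) (nat_lit 158)))))) (XT.nd (nat_lit 468) (nat_lit 1292) (nat_lit 0) (XT.nd (nat_lit 234) (nat_lit 608) (nat_lit 0) (XT.nd (nat_lit 78) (nat_lit 0) (nat_lit 0) (XT.lf (nat_lit 0) (nat_lit 205354539081) (nat_lit 456) (nat_lit 121496060348) (nat_lit 532) (nat_lit 7247042094) (nat_lit 45) (nat_lit 5) (nat_lit 51) (nat_lit 5) (nat_lit 52) (nat_lit 5) (nat_lit 252) (nat_lit 251) (nat_lit 157)) (XT.nd (nat_lit 78) (nat_lit 0) (nat_lit 76) (XT.lf (nat_lit 76) (nat_lit 174297765388) (nat_lit 0) (nat_lit 66141854802) (nat_lit 532) (nat_lit 118974809660) (nat_lit 46) (nat_lit 5) (nat_lit 45) (nat_lit 5) (nat_lit 52) (nat_lit 5) (nat_lit 253) (nat_lit 251) (nat_lit 156)) (XT.lf (nat_lit 76) (nat_lit 134593387073) (nat_lit 0) (nat_lit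 158679825972) (nat_lit 532) (nat_lit 94256663975) (nat_lit 47) (nat_lit 5) (nat_lit 46) (nat_lit 5) (nat_lit 53) (nat_lit 5) (nat_lit 254) (nat_lit 251) (nat_lit 155)))) (XT.nd (nat_lit 78) (nat_lit 304) (nat_lit 0) (XT.lf (nat_lit 0) (nat_lit 93307348312) (nat_lit 456) (nat_lit 273756550234) (nat_lit 532) (nat_lit 51756178909) (nat_lit 41) (nat_lit 5) (nat_lit 47) (nat_lit 5) (nat_lit 48) (nat_lit 5) (nat_lit 255) (nat_lit 251) (nat_lit 154)) (XT.nd (nat_lit 78) (nat_lit 0) (nat_lit 0) (XT.lf (nat_lit 0) (nat_lit 11390963334) (nat_lit 304) (nat_lit 404111869731) (nat_lit 76) (nat_lit 38176318879) (nat_lit 37) (nat_lit 5) (nat_lit 41) (nat_lit 5) (nat_lit 38) (nat_lit 5) (nat_lit 256) (nat_lit 251) (nat_lit 153)) (XT.lf (nat_lit 0) (nat_lit 98327177024) (nat_lit 304) (nat_lit 1636739336) (nat_lit 76) (nat_lit 392305102804) (nat_lit 37) (nat_lit 5) (nat_lit 41) (nat_lit 5) (nat_lit 38)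 (nat_lit 5) (nat_lit 257) (nat_lit 251) (nat_lit 152))))) (XT.nd (nat_lit 234) (nat_lit 684) (nat_lit 0) (XT.nd (nat_lit 78) (nat_lit 380) (nat_lit 0) (XT.lf (nat_lit 0) (nat_lit 216606074308) (nat_lit 304) (nat_lit 56843427409) (nat_lit 76) (nat_lit 261733684923) (nat_lit 34) (nat_lit 5) (nat_lit 38) (nat_lit 5) (nat_lit 35) (nat_lit 5) (nat_lit 258) (nat_lit 251) (nat_lit 151)) (XT.nd (nat_lit 78) (nat_lit 152) (nat_lit 0) (XT.lf (nat_lit 0) (nat_lit 369058414927) (nat_lit 304) (nat_lit 119363176290) (nat_lit 76) (nat_lit 94798359581) (nat_lit 31) (nat_lit 5) (nat_lit 35) (nat_lit 5) (nat_lit 32) (nat_lit 5) (nat_lit 259) (nat_lit 251) (nat_lit 150)) (XT.lf (nat_lit 0) (nat_lit 442293727240) (nat_lit 152) (nat_lit 121982824368) (nat_lit 228) (nat_lit 72593842596) (nat_lit 29) (nat_lit 5) (nat_lit 31) (nat_lit 5) (nat_lit 32) (nat_lit 5) (nat_lit 260) (nat_lit 251) (nat_lit 149)))) (XT.nd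 (nat_lit 156) (nat_lit 304) (nat_lit 0) (XT.nd (nat_lit 78) (nat_lit 152) (nat_lit 0) (XT.lf (nat_lit 0) (nat_lit 106868305836) (nat_lit 228) (nat_lit 289248907418) (nat_lit 76) (nat_lit 300583875078) (nat_lit 26) (nat_lit 5) (nat_lit 29) (nat_lit 5) (nat_lit 27) (nat_lit 5) (nat_lit 261) (nat_lit 251) (nat_lit 148)) (XT.lf (nat_lit 0) (nat_lit 327662698677) (nat_lit 228) (nat_lit 405748993907) (nat_lit 76) (nat_lit 30446946785) (nat_lit 24) (nat_lit 5) (nat_lit 27) (nat_lit 5) (nat_lit 25) (nat_lit 5) (nat_lit 262) (nat_lit 251) (nat_lit 147))) (XT.nd (nat_lit 78) (nat_lit 152) (nat_lit 0) (XT.lf (nat_lit 0) (nat_lit 282636033009) (nat_lit 152) (nat_lit 325333079488) (nat_lit 228) (nat_lit 231009281738) (nat_lit 22) (nat_lit 5) (nat_lit 24) (nat_lit 5) (nat_lit 25) (nat_lit 5) (nat_lit 263) (nat_lit 251) (nat_lit 146)) (XT.lf (nat_lit 0) (nat_lit 25126819849) (nat_lit 152) (nat_lit 744763851011)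 (nat_lit 76) (nat_lit 153832360887) (nat_lit 20) (nat_lit 5) (nat_lit 22) (nat_lit 5) (nat_lit 21) (nat_lit 5) (nat_lit 264) (nat_lit 251) (nat_lit 145))))))))
noncomputable def xc56 : XT := (XT.nd (nat_lit 33930) (nat_lit 0) (nat_lit 152) (XT.nd (nat_lit 936) (nat_lit 228) (nat_lit 0) (XT.nd (nat_lit 468) (nat_lit 456) (nat_lit 0) (XT.nd (nat_lit 234) (nat_lit 304) (nat_lit 0) (XT.nd (nat_lit 78) (nat_lit 76) (nat_lit 0) (XT.lf (nat_lit 0) (nat_lit 23742626382) (nat_lit 152) (nat_lit 308838168968) (nat_lit 228) (nat_lit 685992487460) (nat_lit 18) (nat_lit 5) (nat_lit 20) (nat_lit 5) (nat_lit 21) (nat_lit 5) (nat_lit 265) (nat_lit 251) (nat_lit 144)) (XT.nd (nat_lit 78) (nat_lit 76) (nat_lit 0) (XT.lf (nat_lit 0) (nat_lit 713723015272) (nat_lit 228) (nat_lit 179178007058) (nat_lit 76) (nat_lit 232544437439) (nat_lit 18) (nat_lit 5) (nat_lit 21) (nat_lit 5) (nat_lit 19) (nat_lit 4) (nat_lit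 266) (nat_lit 251) (nat_lit 143)) (XT.lf (nat_lit 0) (nat_lit 789789220819) (nat_lit 76) (nat_lit 389783452284) (nat_lit 152) (nat_lit 66572901850) (nat_lit 17) (nat_lit 5) (nat_lit 18) (nat_lit 5) (nat_lit 19) (nat_lit 4) (nat_lit 267) (nat_lit 251) (nat_lit 142)))) (XT.nd (nat_lit 78) (nat_lit 76) (nat_lit 0) (XT.lf (nat_lit 0) (nat_lit 337628988967) (nat_lit 228) (nat_lit 838215028657) (nat_lit 76) (nat_lit 206566672373) (nat_lit 14) (nat_lit 5) (nat_lit 17) (nat_lit 5) (nat_lit 15) (nat_lit 4) (nat_lit 268) (nat_lit 251) (nat_lit 141)) (XT.nd (nat_lit 78) (nat_lit 0) (nat_lit 0) (XT.lf (nat_lit 0) (nat_lit 180474582201) (nat_lit 76) (nat_lit 646909047705) (nat_lit 152) (nat_lit 709284463125) (nat_lit 13) (nat_lit 5) (nat_lit 14) (nat_lit 5) (nat_lit 15) (nat_lit 4) (nat_lit 269) (nat_lit 251) (nat_lit 140)) (XT.lf (nat_lit 0) (nat_lit 1402727329299) (nat_lit 76) (nat_lit 12277831317)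 (nat_lit 152) (nat_lit 297106650458) (nat_lit 13) (nat_lit 5) (nat_lit 14) (nat_lit 5) (nat_lit 15) (nat_lit 4) (nat_lit 270) (nat_lit 251) (nat_lit 139))))) (XT.nd (nat_lit 234) (nat_lit 228) (nat_lit 0) (XT.nd (nat_lit 78) (nat_lit 76) (nat_lit 0) (XT.lf (nat_lit 0) (nat_lit 208538064073) (nat_lit 152) (nat_lit 992614379286) (nat_lit 76) (nat_lit 709140141641) (nat_lit 11) (nat_lit 5) (nat_lit 13) (nat_lit 5) (nat_lit 12) (nat_lit 4) (nat_lit 271) (nat_lit 251) (nat_lit 138)) (XT.nd (nat_lit 78) (nat_lit 0) (nat_lit 0) (XT.lf (nat_lit 0) (nat_lit 211863234233) (nat_lit 76) (nat_lit 575750617950) (nat_lit 152) (nat_lit 1348755146748) (nat_lit 10) (nat_lit 5) (nat_lit 11) (nat_lit 5) (nat_lit 12) (nat_lit 4) (nat_lit 272) (nat_lit 251) (nat_lit 137)) (XT.lf (nat_lit 0) (nat_lit 1486650754176) (nat_lit 152) (nat_lit 741123683917) (nat_lit 0) (nat_lit 165934457232) (nat_lit 10) (nat_lit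 5) (nat_lit 12) (nat_lit 4) (nat_lit 10) (nat_lit 4) (nat_lit 273) (nat_lit 251) (nat_lit 136)))) (XT.nd (nat_lit 78) (nat_lit 152) (nat_lit 0) (XT.lf (nat_lit 0) (nat_lit 635639068149) (nat_lit 76) (nat_lit 1686115073506) (nat_lit 76) (nat_lit 365398758533) (nat_lit 9) (nat_lit 4) (nat_lit 10) (nat_lit 5) (nat_lit 10) (nat_lit 4) (nat_lit 274) (nat_lit 251) (nat_lit 135)) (XT.nd (nat_lit 78) (nat_lit 76) (nat_lit 0) (XT.lf (nat_lit 0) (nat_lit 266765300681) (nat_lit 152) (nat_lit 765844505231) (nat_lit 76) (nat_lit 1989737255940) (nat_lit 8) (nat_lit 5) (nat_lit 10) (nat_lit 5) (nat_lit 9) (nat_lit 4) (nat_lit 275) (nat_lit 251) (nat_lit 134)) (XT.lf (nat_lit 0) (nat_lit 739565206167) (nat_lit 76) (nat_lit 250954770009) (nat_lit 152) (nat_lit 2415068966141) (nat_lit 7) (nat_lit 5) (nat_lit 8) (nat_lit 5) (nat_lit 9) (nat_lit 4) (nat_lit 276) (nat_lit 251) (nat_lit 133)))))) (XT.nd (nat_lit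 32526) (nat_lit 0) (nat_lit 2508) (XT.nd (nat_lit 234) (nat_lit 152) (nat_lit 0) (XT.nd (nat_lit 78) (nat_lit 76) (nat_lit 0) (XT.lf (nat_lit 0) (nat_lit 1861296887739) (nat_lit 152) (nat_lit 1343532121551) (nat_lit 0) (nat_lit 638411372799) (nat_lit 7) (nat_lit 5) (nat_lit 9) (nat_lit 4) (nat_lit 7) (nat_lit 4) (nat_lit 277) (nat_lit 251) (nat_lit 132)) (XT.nd (nat_lit 78) (nat_lit 0) (nat_lit 0) (XT.lf (nat_lit 0) (nat_lit 179364980730) (nat_lit 76) (nat_lit 2694579860585) (nat_lit 76) (nat_lit 1471694336101) (nat_lit 6) (nat_lit 4) (nat_lit 7) (nat_lit 5) (nat_lit 7) (nat_lit 4) (nat_lit 278) (nat_lit 251) (nat_lit 131)) (XT.lf (nat_lit 0) (nat_lit 2012056845669) (nat_lit 76) (nat_lit 2065548620454) (nat_lit 76) (nat_lit 842663087671) (nat_lit 6) (nat_lit 4) (nat_lit 7) (nat_lit 5) (nat_lit 7) (nat_lit 4) (nat_lit 279) (nat_lit 251) (nat_lit 130)))) (XT.nd (nat_lit 78) (nat_lit 152)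 (nat_lit 0) (XT.lf (nat_lit 0) (nat_lit 4119652467438) (nat_lit 76) (nat_lit 1342162705087) (nat_lit 76) (nat_lit 119277165087) (nat_lit 6) (nat_lit 4) (nat_lit 7) (nat_lit 5) (nat_lit 7) (nat_lit 4) (nat_lit 280) (nat_lit 251) (nat_lit 129)) (XT.nd (nat_lit 32136) (nat_lit 0) (nat_lit 3040) (XT.lf (nat_lit 0) (nat_lit 194962067724) (nat_lit 76) (nat_lit 486695439005) (nat_lit 152) (nat_lit 5657635999954) (nat_lit 4) (nat_lit 5) (nat_lit 5) (nat_lit 5) (nat_lit 6) (nat_lit 4) (nat_lit 281) (nat_lit 251) (nat_lit 128)) (XT.lf (nat_lit 0) (nat_lit 107005686609) (nat_lit 532) (nat_lit 35962255287) (nat_lit 532) (nat_lit 35962255287) (nat_lit 44) (nat_lit 3) (nat_lit 51) (nat_lit 3) (nat_lit 51) (nat_lit 5) (nat_lit 252) (nat_lit 252) (nat_lit 156))))) (XT.nd (nat_lit 234) (nat_lit 608) (nat_lit 0) (XT.nd (nat_lit 78) (nat_lit 0) (nat_lit 0) (XT.lf (nat_lit 0) (nat_lit 236159574769) (nat_lit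 456) (nat_lit 139719239337) (nat_lit 532) (nat_lit 8333319216) (nat_lit 45) (nat_lit 5) (nat_lit 51) (nat_lit 5) (nat_lit 52) (nat_lit 5) (nat_lit 253) (nat_lit 252) (nat_lit 155)) (XT.nd (nat_lit 78) (nat_lit 0) (nat_lit 76) (XT.lf (nat_lit 76) (nat_lit 200443556140) (nat_lit 0) (nat_lit 76063647049) (nat_lit 532) (nat_lit 136819254685) (nat_lit 46) (nat_lit 5) (nat_lit 45) (nat_lit 5) (nat_lit 52) (nat_lit 5) (nat_lit 254) (nat_lit 252) (nat_lit 154)) (XT.lf (nat_lit 76) (nat_lit 154783561991) (nat_lit 0) (nat_lit 182482076385) (nat_lit 532) (nat_lit 108393600157) (nat_lit 47) (nat_lit 5) (nat_lit 46) (nat_lit 5) (nat_lit 53) (nat_lit 5) (nat_lit 255) (nat_lit 252) (nat_lit 153)))) (XT.nd (nat_lit 78) (nat_lit 304) (nat_lit 0) (XT.lf (nat_lit 0) (nat_lit 107304634614) (nat_lit 456) (nat_lit 314820126517) (nat_lit 532) (nat_lit 59518221745) (nat_lit 41) (nat_lit 5) (nat_lit 47) (nat_lit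 5) (nat_lit 48) (nat_lit 5) (nat_lit 256) (nat_lit 252) (nat_lit 152)) (XT.nd (nat_lit 78) (nat_lit 0) (nat_lit 0) (XT.lf (nat_lit 0) (nat_lit 13100778291) (nat_lit 304) (nat_lit 464727402254) (nat_lit 76) (nat_lit 43902747355) (nat_lit 37) (nat_lit 5) (nat_lit 41) (nat_lit 5) (nat_lit 38) (nat_lit 5) (nat_lit 257) (nat_lit 252) (nat_lit 151)) (XT.lf (nat_lit 0) (nat_lit 113077271366) (nat_lit 304) (nat_lit 1881165074) (nat_lit 76) (nat_lit 451150851393) (nat_lit 37) (nat_lit 5) (nat_lit 41) (nat_lit 5) (nat_lit 38) (nat_lit 5) (nat_lit 258) (nat_lit 252) (nat_lit 150))))))) (XT.nd (nat_lit 936) (nat_lit 532) (nat_lit 0) (XT.nd (nat_lit 468) (nat_lit 684) (nat_lit 0) (XT.nd (nat_lit 234) (nat_lit 532) (nat_lit 0) (XT.nd (nat_lit 78) (nat_lit 380) (nat_lit 0) (XT.lf (nat_lit 0) (nat_lit 249097896406) (nat_lit 304) (nat_lit 65368875108) (nat_lit 76) (nat_lit 300993817826) (nat_lit 34) (nat_lit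 5) (nat_lit 38) (nat_lit 5) (nat_lit 35) (nat_lit 5) (nat_lit 259) (nat_lit 252) (nat_lit 149)) (XT.nd (nat_lit 78) (nat_lit 152) (nat_lit 0) (XT.lf (nat_lit 0) (nat_lit 424417996635) (nat_lit 304) (nat_lit 137266613096) (nat_lit 76) (nat_lit 109018266024) (nat_lit 31) (nat_lit 5) (nat_lit 35) (nat_lit 5) (nat_lit 32) (nat_lit 5) (nat_lit 260) (nat_lit 252) (nat_lit 148)) (XT.lf (nat_lit 0) (nat_lit 508638737964) (nat_lit 152) (nat_lit 140280031856) (nat_lit 228) (nat_lit 83482122850) (nat_lit 29) (nat_lit 5) (nat_lit 31) (nat_lit 5) (nat_lit 32) (nat_lit 5) (nat_lit 261) (nat_lit 252) (nat_lit 147)))) (XT.nd (nat_lit 78) (nat_lit 304) (nat_lit 0) (XT.lf (nat_lit 0) (nat_lit 122899236757) (nat_lit 228) (nat_lit 332635284126) (nat_lit 76) (nat_lit 345671674422) (nat_lit 26) (nat_lit 5) (nat_lit 29) (nat_lit 5) (nat_lit 27) (nat_lit 5) (nat_lit 262) (nat_lit 252) (nat_lit 146)) (XT.nd (nat_lit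 78) (nat_lit 152) (nat_lit 0) (XT.lf (nat_lit 0) (nat_lit 376812726578) (nat_lit 228) (nat_lit 466610420457) (nat_lit 76) (nat_lit 35014237111) (nat_lit 24) (nat_lit 5) (nat_lit 27) (nat_lit 5) (nat_lit 25) (nat_lit 5) (nat_lit 263) (nat_lit 252) (nat_lit 145)) (XT.lf (nat_lit 0) (nat_lit 325032282408) (nat_lit 152) (nat_lit 374132759098) (nat_lit 228) (nat_lit 265660065781) (nat_lit 22) (nat_lit 5) (nat_lit 24) (nat_lit 5) (nat_lit 25) (nat_lit 5) (nat_lit 264) (nat_lit 252) (nat_lit 144))))) (XT.nd (nat_lit 234) (nat_lit 380) (nat_lit 0) (XT.nd (nat_lit 78) (nat_lit 152) (nat_lit 0) (XT.lf (nat_lit 0) (nat_lit 28896371272) (nat_lit 152) (nat_lit 856477591001) (nat_lit 76) (nat_lit 176907481063) (nat_lit 20) (nat_lit 5) (nat_lit 22) (nat_lit 5) (nat_lit 21) (nat_lit 5) (nat_lit 265) (nat_lit 252) (nat_lit 143)) (XT.nd (nat_lit 78) (nat_lit 0) (nat_lit 0) (XT.lf (nat_lit 0) (nat_lit 27304787097)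 (nat_lit 152) (nat_lit 355163605515) (nat_lit 228) (nat_lit 788890843604) (nat_lit 18) (nat_lit 5) (nat_lit 20) (nat_lit 5) (nat_lit 21) (nat_lit 5) (nat_lit 266) (nat_lit 252) (nat_lit 142)) (XT.lf (nat_lit 0) (nat_lit 820781889220) (nat_lit 228) (nat_lit 206054013484) (nat_lit 76) (nat_lit 267426341622) (nat_lit 18) (nat_lit 5) (nat_lit 21) (nat_lit 5) (nat_lit 19) (nat_lit 4) (nat_lit 267) (nat_lit 252) (nat_lit 141)))) (XT.nd (nat_lit 78) (nat_lit 304) (nat_lit 0) (XT.lf (nat_lit 0) (nat_lit 908258239778) (nat_lit 76) (nat_lit 448250716240) (nat_lit 152) (nat_lit 76558424032) (nat_lit 17) (nat_lit 5) (nat_lit 18) (nat_lit 5) (nat_lit 19) (nat_lit 4) (nat_lit 268) (nat_lit 252) (nat_lit 140)) (XT.nd (nat_lit 78) (nat_lit 76) (nat_lit 0) (XT.lf (nat_lit 0) (nat_lit 388273698930) (nat_lit 228) (nat_lit 963946658503) (nat_lit 76) (nat_lit 237551906659) (nat_lit 14) (nat_lit 5) (nat_lit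 17) (nat_lit 5) (nat_lit 15) (nat_lit 4) (nat_lit 269) (nat_lit 252) (nat_lit 139)) (XT.lf (nat_lit 0) (nat_lit 207546341127) (nat_lit 76) (nat_lit 743945161462) (nat_lit 152) (nat_lit 815676777728) (nat_lit 13) (nat_lit 5) (nat_lit 14) (nat_lit 5) (nat_lit 15) (nat_lit 4) (nat_lit 270) (nat_lit 252) (nat_lit 138)))))) (XT.nd (nat_lit 468) (nat_lit 152) (nat_lit 0) (XT.nd (nat_lit 234) (nat_lit 152) (nat_lit 0) (XT.nd (nat_lit 78) (nat_lit 228) (nat_lit 0) (XT.lf (nat_lit 0) (nat_lit 1613136925734) (nat_lit 76) (nat_lit 14119294363) (nat_lit 152) (nat_lit 341672339448) (nat_lit 13) (nat_lit 5) (nat_lit 14) (nat_lit 5) (nat_lit 15) (nat_lit 4) (nat_lit 271) (nat_lit 252) (nat_lit 137)) (XT.nd (nat_lit 78) (nat_lit 76) (nat_lit 0) (XT.lf (nat_lit 0) (nat_lit 239819044767) (nat_lit 152) (nat_lit 1141506050080) (nat_lit 76) (nat_lit 815511355928) (nat_lit 11) (nat_lit 5) (nat_lit 13) (nat_lit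 5) (nat_lit 12) (nat_lit 4) (nat_lit 272) (nat_lit 252) (nat_lit 136)) (XT.lf (nat_lit 0) (nat_lit 243643164321) (nat_lit 76) (nat_lit 662113012114) (nat_lit 152) (nat_lit 1551068152370) (nat_lit 10) (nat_lit 5) (nat_lit 11) (nat_lit 5) (nat_lit 12) (nat_lit 4) (nat_lit 273) (nat_lit 252) (nat_lit 135)))) (XT.nd (nat_lit 78) (nat_lit 152) (nat_lit 0) (XT.lf (nat_lit 0) (nat_lit 1709648585738) (nat_lit 152) (nat_lit 852291836379) (nat_lit 0) (nat_lit 190824789814) (nat_lit 10) (nat_lit 5) (nat_lit 12) (nat_lit 4) (nat_lit 10) (nat_lit 4) (nat_lit 274) (nat_lit 252) (nat_lit 134)) (XT.nd (nat_lit 78) (nat_lit 76) (nat_lit 0) (XT.lf (nat_lit 0) (nat_lit 730985294628) (nat_lit 76) (nat_lit 1939032167026) (nat_lit 76) (nat_lit 420208357471) (nat_lit 9) (nat_lit 4) (nat_lit 10) (nat_lit 5) (nat_lit 10) (nat_lit 4) (nat_lit 275) (nat_lit 252) (nat_lit 133)) (XT.lf (nat_lit 0) (nat_lit 306780273257)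 (nat_lit 152) (nat_lit 880720853033) (nat_lit 76) (nat_lit 2288197980489) (nat_lit 8) (nat_lit 5) (nat_lit 10) (nat_lit 5) (nat_lit 9) (nat_lit 4) (nat_lit 276) (nat_lit 252) (nat_lit 132))))) (XT.nd (nat_lit 234) (nat_lit 0) (nat_lit 0) (XT.nd (nat_lit 78) (nat_lit 76) (nat_lit 0) (XT.lf (nat_lit 0) (nat_lit 850500287313) (nat_lit 76) (nat_lit 288597846835) (nat_lit 152) (nat_lit 2777329136461) (nat_lit 7) (nat_lit 5) (nat_lit 8) (nat_lit 5) (nat_lit 9) (nat_lit 4) (nat_lit 277) (nat_lit 252) (nat_lit 131)) (XT.nd (nat_lit 78) (nat_lit 76) (nat_lit 0) (XT.lf (nat_lit 0) (nat_lit 2140491564274) (nat_lit 152) (nat_lit 1545061670269) (nat_lit 0) (nat_lit 734173193274) (nat_lit 7) (nat_lit 5) (nat_lit 9) (nat_lit 4) (nat_lit 7) (nat_lit 4) (nat_lit 278) (nat_lit 252) (nat_lit 130)) (XT.lf (nat_lit 0) (nat_lit 206269974541) (nat_lit 76) (nat_lit 3098766723577) (nat_lit 76) (nat_lit 1692448345360)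 (nat_lit 6) (nat_lit 4) (nat_lit 7) (nat_lit 5) (nat_lit 7) (nat_lit 4) (nat_lit 279) (nat_lit 252) (nat_lit 129)))) (XT.nd (nat_lit 78) (nat_lit 0) (nat_lit 0) (XT.lf (nat_lit 0) (nat_lit 2313865587043) (nat_lit 76) (nat_lit 2375380812570) (nat_lit 76) (nat_lit 969062428078) (nat_lit 6) (nat_lit 4) (nat_lit 7) (nat_lit 5) (nat_lit 7) (nat_lit 4) (nat_lit 280) (nat_lit 252) (nat_lit 128)) (XT.nd (nat_lit 32214) (nat_lit 0) (nat_lit 2888) (XT.lf (nat_lit 0) (nat_lit 4737600524095) (nat_lit 76) (nat_lit 1543487023065) (nat_lit 76) (nat_lit 137168633116) (nat_lit 6) (nat_lit 4) (nat_lit 7) (nat_lit 5) (nat_lit 7) (nat_lit 4) (nat_lit 281) (nat_lit 252) (nat_lit 127)) (XT.lf (nat_lit 0) (nat_lit 123057343599) (nat_lit 532) (nat_lit 41356158108) (nat_lit 532) (nat_lit 41356158108) (nat_lit 44) (nat_lit 3) (nat_lit 51) (nat_lit 3) (nat_lit 51) (nat_lit 5) (nat_lit 253) (nat_lit 253) (nat_lit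 154))))))))
noncomputable def xc57 : XT := (XT.nd (nat_lit 1872) (nat_lit 152) (nat_lit 0) (XT.nd (nat_lit 936) (nat_lit 1064) (nat_lit 0) (XT.nd (nat_lit 468) (nat_lit 1140) (nat_lit 0) (XT.nd (nat_lit 234) (nat_lit 608) (nat_lit 0) (XT.nd (nat_lit 78) (nat_lit 0) (nat_lit 0) (XT.lf (nat_lit 0) (nat_lit 271584913499) (nat_lit 456) (nat_lit 160676195133) (nat_lit 532) (nat_lit 9582727917) (nat_lit 45) (nat_lit 5) (nat_lit 51) (nat_lit 5) (nat_lit 52) (nat_lit 5) (nat_lit 254) (nat_lit 253) (nat_lit 153)) (XT.nd (nat_lit 78) (nat_lit 0) (nat_lit 76) (XT.lf (nat_lit 76) (nat_lit 230510940937) (nat_lit 0) (nat_lit 87473582784) (nat_lit 532) (nat_lit 157340799656) (nat_lit 46) (nat_lit 5) (nat_lit 45) (nat_lit 5) (nat_lit 52) (nat_lit 5) (nat_lit 255) (nat_lit 253) (nat_lit 152)) (XT.lf (nat_lit 76) (nat_lit 178001978602) (nat_lit 0) (nat_lit 209854596929) (nat_lit 532) (nat_lit 124651458014)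 (nat_lit 47) (nat_lit 5) (nat_lit 46) (nat_lit 5) (nat_lit 53) (nat_lit 5) (nat_lit 256) (nat_lit 253) (nat_lit 151)))) (XT.nd (nat_lit 78) (nat_lit 304) (nat_lit 0) (XT.lf (nat_lit 0) (nat_lit 123401225122) (nat_lit 456) (nat_lit 362043216380) (nat_lit 532) (nat_lit 68444908504) (nat_lit 41) (nat_lit 5) (nat_lit 47) (nat_lit 5) (nat_lit 48) (nat_lit 5) (nat_lit 257) (nat_lit 253) (nat_lit 150)) (XT.nd (nat_lit 78) (nat_lit 0) (nat_lit 0) (XT.lf (nat_lit 0) (nat_lit 15066780068) (nat_lit 304) (nat_lit 534435568972) (nat_lit 76) (nat_lit 50488144823) (nat_lit 37) (nat_lit 5) (nat_lit 41) (nat_lit 5) (nat_lit 38) (nat_lit 5) (nat_lit 258) (nat_lit 253) (nat_lit 149)) (XT.lf (nat_lit 0) (nat_lit 130039631665) (nat_lit 304) (nat_lit 2162519297) (nat_lit 76) (nat_lit 518823466375) (nat_lit 37) (nat_lit 5) (nat_lit 41) (nat_lit 5) (nat_lit 38) (nat_lit 5) (nat_lit 259) (nat_lit 253) (nat_lit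 148))))) (XT.nd (nat_lit 234) (nat_lit 532) (nat_lit 0) (XT.nd (nat_lit 78) (nat_lit 380) (nat_lit 0) (XT.lf (nat_lit 0) (nat_lit 286463269678) (nat_lit 304) (nat_lit 75173400014) (nat_lit 76) (nat_lit 346142951117) (nat_lit 34) (nat_lit 5) (nat_lit 38) (nat_lit 5) (nat_lit 35) (nat_lit 5) (nat_lit 260) (nat_lit 253) (nat_lit 147)) (XT.nd (nat_lit 78) (nat_lit 152) (nat_lit 0) (XT.lf (nat_lit 0) (nat_lit 488081315767) (nat_lit 304) (nat_lit 157855818945) (nat_lit 76) (nat_lit 125371121245) (nat_lit 31) (nat_lit 5) (nat_lit 35) (nat_lit 5) (nat_lit 32) (nat_lit 5) (nat_lit 261) (nat_lit 253) (nat_lit 146)) (XT.lf (nat_lit 0) (nat_lit 584935268233) (nat_lit 152) (nat_lit 161321873180) (nat_lit 228) (nat_lit 96003839284) (nat_lit 29) (nat_lit 5) (nat_lit 31) (nat_lit 5) (nat_lit 32) (nat_lit 5) (nat_lit 262) (nat_lit 253) (nat_lit 145)))) (XT.nd (nat_lit 78) (nat_lit 304) (nat_lit 0) (XT.lf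 (nat_lit 0) (nat_lit 141334640264) (nat_lit 228) (nat_lit 382529851297) (nat_lit 76) (nat_lit 397522590487) (nat_lit 26) (nat_lit 5) (nat_lit 29) (nat_lit 5) (nat_lit 27) (nat_lit 5) (nat_lit 263) (nat_lit 253) (nat_lit 144)) (XT.nd (nat_lit 78) (nat_lit 152) (nat_lit 0) (XT.lf (nat_lit 0) (nat_lit 433335106717) (nat_lit 228) (nat_lit 536601285957) (nat_lit 76) (nat_lit 40266560434) (nat_lit 24) (nat_lit 5) (nat_lit 27) (nat_lit 5) (nat_lit 25) (nat_lit 5) (nat_lit 264) (nat_lit 253) (nat_lit 143)) (XT.lf (nat_lit 0) (nat_lit 373787763292) (nat_lit 152) (nat_lit 430252459493) (nat_lit 228) (nat_lit 305508615748) (nat_lit 22) (nat_lit 5) (nat_lit 24) (nat_lit 5) (nat_lit 25) (nat_lit 5) (nat_lit 265) (nat_lit 253) (nat_lit 142)))))) (XT.nd (nat_lit 468) (nat_lit 380) (nat_lit 0) (XT.nd (nat_lit 234) (nat_lit 380) (nat_lit 0) (XT.nd (nat_lit 78) (nat_lit 152) (nat_lit 0) (XT.lf (nat_lit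 0) (nat_lit 33231226544) (nat_lit 152) (nat_lit 984948596259) (nat_lit 76) (nat_lit 203443804389) (nat_lit 20) (nat_lit 5) (nat_lit 22) (nat_lit 5) (nat_lit 21) (nat_lit 5) (nat_lit 266) (nat_lit 253) (nat_lit 141)) (XT.nd (nat_lit 78) (nat_lit 0) (nat_lit 0) (XT.lf (nat_lit 0) (nat_lit 31401084940) (nat_lit 152) (nat_lit 408437927969) (nat_lit 228) (nat_lit 907224079237) (nat_lit 18) (nat_lit 5) (nat_lit 20) (nat_lit 5) (nat_lit 21) (nat_lit 5) (nat_lit 267) (nat_lit 253) (nat_lit 140)) (XT.lf (nat_lit 0) (nat_lit 943899491435) (nat_lit 228) (nat_lit 236961590264) (nat_lit 76) (nat_lit 307540473256) (nat_lit 18) (nat_lit 5) (nat_lit 21) (nat_lit 5) (nat_lit 19) (nat_lit 4) (nat_lit 268) (nat_lit 253) (nat_lit 139)))) (XT.nd (nat_lit 78) (nat_lit 304) (nat_lit 0) (XT.lf (nat_lit 0) (nat_lit 1044497456528) (nat_lit 76) (nat_lit 515488131701) (nat_lit 152) (nat_lit 88041875278) (nat_lit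 17) (nat_lit 5) (nat_lit 18) (nat_lit 5) (nat_lit 19) (nat_lit 4) (nat_lit 269) (nat_lit 253) (nat_lit 138)) (XT.nd (nat_lit 78) (nat_lit 76) (nat_lit 0) (XT.lf (nat_lit 0) (nat_lit 446515027204) (nat_lit 228) (nat_lit 1108538185103) (nat_lit 76) (nat_lit 273184869166) (nat_lit 14) (nat_lit 5) (nat_lit 17) (nat_lit 5) (nat_lit 15) (nat_lit 4) (nat_lit 270) (nat_lit 253) (nat_lit 137)) (XT.lf (nat_lit 0) (nat_lit 238678724504) (nat_lit 76) (nat_lit 855536751637) (nat_lit 152) (nat_lit 938028026058) (nat_lit 13) (nat_lit 5) (nat_lit 14) (nat_lit 5) (nat_lit 15) (nat_lit 4) (nat_lit 271) (nat_lit 253) (nat_lit 136))))) (XT.nd (nat_lit 234) (nat_lit 152) (nat_lit 0) (XT.nd (nat_lit 78) (nat_lit 228) (nat_lit 0) (XT.lf (nat_lit 0) (nat_lit 1855107840428) (nat_lit 76) (nat_lit 16237028479) (nat_lit 152) (nat_lit 392922957035) (nat_lit 13) (nat_lit 5) (nat_lit 14) (nat_lit 5) (nat_lit 15) (nat_lit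 4) (nat_lit 272) (nat_lit 253) (nat_lit 135)) (XT.nd (nat_lit 78) (nat_lit 76) (nat_lit 0) (XT.lf (nat_lit 0) (nat_lit 275792106459) (nat_lit 152) (nat_lit 1312731590031) (nat_lit 76) (nat_lit 937838205284) (nat_lit 11) (nat_lit 5) (nat_lit 13) (nat_lit 5) (nat_lit 12) (nat_lit 4) (nat_lit 273) (nat_lit 253) (nat_lit 134)) (XT.lf (nat_lit 0) (nat_lit 280189975418) (nat_lit 76) (nat_lit 761429813816) (nat_lit 152) (nat_lit 1783728173796) (nat_lit 10) (nat_lit 5) (nat_lit 11) (nat_lit 5) (nat_lit 12) (nat_lit 4) (nat_lit 274) (nat_lit 253) (nat_lit 133)))) (XT.nd (nat_lit 78) (nat_lit 152) (nat_lit 0) (XT.lf (nat_lit 0) (nat_lit 1966096038766) (nat_lit 152) (nat_lit 980135309284) (nat_lit 0) (nat_lit 219448632292) (nat_lit 10) (nat_lit 5) (nat_lit 12) (nat_lit 4) (nat_lit 10) (nat_lit 4) (nat_lit 275) (nat_lit 253) (nat_lit 132)) (XT.nd (nat_lit 78) (nat_lit 76) (nat_lit 0) (XT.lf (nat_lit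 0) (nat_lit 840633365765) (nat_lit 76) (nat_lit 2229886865422) (nat_lit 76) (nat_lit 483239448641) (nat_lit 9) (nat_lit 4) (nat_lit 10) (nat_lit 5) (nat_lit 10) (nat_lit 4) (nat_lit 276) (nat_lit 253) (nat_lit 131)) (XT.lf (nat_lit 0) (nat_lit 352797448441) (nat_lit 152) (nat_lit 1012828732986) (nat_lit 76) (nat_lit 2631427780518) (nat_lit 8) (nat_lit 5) (nat_lit 10) (nat_lit 5) (nat_lit 9) (nat_lit 4) (nat_lit 277) (nat_lit 253) (nat_lit 130))))))) (XT.nd (nat_lit 33150) (nat_lit 0) (nat_lit 532) (XT.nd (nat_lit 32682) (nat_lit 0) (nat_lit 2128) (XT.nd (nat_lit 234) (nat_lit 0) (nat_lit 0) (XT.nd (nat_lit 78) (nat_lit 76) (nat_lit 0) (XT.lf (nat_lit 0) (nat_lit 978075557420) (nat_lit 76) (nat_lit 331887419002) (nat_lit 152) (nat_lit 3193928374906) (nat_lit 7) (nat_lit 5) (nat_lit 8) (nat_lit 5) (nat_lit 9) (nat_lit 4) (nat_lit 278) (nat_lit 253) (nat_lit 129)) (XT.nd (nat_lit 78) (nat_lit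 76) (nat_lit 0) (XT.lf (nat_lit 0) (nat_lit 2461565407326) (nat_lit 152) (nat_lit 1776820717017) (nat_lit 0) (nat_lit 844299258885) (nat_lit 7) (nat_lit 5) (nat_lit 9) (nat_lit 4) (nat_lit 7) (nat_lit 4) (nat_lit 279) (nat_lit 253) (nat_lit 128)) (XT.lf (nat_lit 0) (nat_lit 237210657264) (nat_lit 76) (nat_lit 3563581644329) (nat_lit 76) (nat_lit 1946315490431) (nat_lit 6) (nat_lit 4) (nat_lit 7) (nat_lit 5) (nat_lit 7) (nat_lit 4) (nat_lit 280) (nat_lit 253) (nat_lit 127)))) (XT.nd (nat_lit 32292) (nat_lit 0) (nat_lit 2888) (XT.lf (nat_lit 0) (nat_lit 2660945587310) (nat_lit 76) (nat_lit 2731687858121) (nat_lit 76) (nat_lit 1114421699478) (nat_lit 6) (nat_lit 4) (nat_lit 7) (nat_lit 5) (nat_lit 7) (nat_lit 4) (nat_lit 281) (nat_lit 253) (nat_lit 126)) (XT.nd (nat_lit 78) (nat_lit 0) (nat_lit 76) (XT.lf (nat_lit 0) (nat_lit 141516553077) (nat_lit 532) (nat_lit 47559252544) (nat_lit 532)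 (nat_lit 47559252544) (nat_lit 44) (nat_lit 3) (nat_lit 51) (nat_lit 3) (nat_lit 51) (nat_lit 5) (nat_lit 254) (nat_lit 254) (nat_lit 152)) (XT.lf (nat_lit 0) (nat_lit 312323711027) (nat_lit 456) (nat_lit 184776921111) (nat_lit 532) (nat_lit 11019691599) (nat_lit 45) (nat_lit 5) (nat_lit 51) (nat_lit 5) (nat_lit 52) (nat_lit 5) (nat_lit 255) (nat_lit 254) (nat_lit 151))))) (XT.nd (nat_lit 234) (nat_lit 532) (nat_lit 0) (XT.nd (nat_lit 78) (nat_lit 304) (nat_lit 0) (XT.lf (nat_lit 76) (nat_lit 265088225840) (nat_lit 0) (nat_lit 100594914098) (nat_lit 532) (nat_lit 180940903928) (nat_lit 46) (nat_lit 5) (nat_lit 45) (nat_lit 5) (nat_lit 52) (nat_lit 5) (nat_lit 256) (nat_lit 254) (nat_lit 150)) (XT.nd (nat_lit 78) (nat_lit 380) (nat_lit 0) (XT.lf (nat_lit 76) (nat_lit 204702942547) (nat_lit 0) (nat_lit 241332944568) (nat_lit 532) (nat_lit 143348282829) (nat_lit 47) (nat_lit 5) (nat_lit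 46) (nat_lit 5) (nat_lit 53) (nat_lit 5) (nat_lit 257) (nat_lit 254) (nat_lit 149)) (XT.lf (nat_lit 0) (nat_lit 141912085878) (nat_lit 456) (nat_lit 416349752438) (nat_lit 532) (nat_lit 78710853473) (nat_lit 41) (nat_lit 5) (nat_lit 47) (nat_lit 5) (nat_lit 48) (nat_lit 5) (nat_lit 258) (nat_lit 254) (nat_lit 148)))) (XT.nd (nat_lit 78) (nat_lit 228) (nat_lit 0) (XT.lf (nat_lit 0) (nat_lit 17327466291) (nat_lit 304) (nat_lit 614600190806) (nat_lit 76) (nat_lit 58061355479) (nat_lit 37) (nat_lit 5) (nat_lit 41) (nat_lit 5) (nat_lit 38) (nat_lit 5) (nat_lit 259) (nat_lit 254) (nat_lit 147)) (XT.nd (nat_lit 78) (nat_lit 228) (nat_lit 0) (XT.lf (nat_lit 0) (nat_lit 149546158339) (nat_lit 304) (nat_lit 2486276746) (nat_lit 76) (nat_lit 596646976708) (nat_lit 37) (nat_lit 5) (nat_lit 41) (nat_lit 5) (nat_lit 38) (nat_lit 5) (nat_lit 260) (nat_lit 254) (nat_lit 146)) (XT.lf (nat_lit 0) (nat_lit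 329433280970) (nat_lit 304) (nat_lit 86448800291) (nat_lit 76) (nat_lit 398064439619) (nat_lit 34) (nat_lit 5) (nat_lit 38) (nat_lit 5) (nat_lit 35) (nat_lit 5) (nat_lit 261) (nat_lit 254) (nat_lit 145)))))) (XT.nd (nat_lit 468) (nat_lit 532) (nat_lit 0) (XT.nd (nat_lit 234) (nat_lit 456) (nat_lit 0) (XT.nd (nat_lit 78) (nat_lit 380) (nat_lit 0) (XT.lf (nat_lit 0) (nat_lit 561293981667) (nat_lit 304) (nat_lit 181533597371) (nat_lit 76) (nat_lit 144176876628) (nat_lit 31) (nat_lit 5) (nat_lit 35) (nat_lit 5) (nat_lit 32) (nat_lit 5) (nat_lit 262) (nat_lit 254) (nat_lit 144)) (XT.nd (nat_lit 78) (nat_lit 228) (nat_lit 0) (XT.lf (nat_lit 0) (nat_lit 672676102569) (nat_lit 152) (nat_lit 185520030562) (nat_lit 228) (nat_lit 110403959984) (nat_lit 29) (nat_lit 5) (nat_lit 31) (nat_lit 5) (nat_lit 32) (nat_lit 5) (nat_lit 263) (nat_lit 254) (nat_lit 143)) (XT.lf (nat_lit 0) (nat_lit 162535227981)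 (nat_lit 228) (nat_lit 439908780449) (nat_lit 76) (nat_lit 457151103750) (nat_lit 26) (nat_lit 5) (nat_lit 29) (nat_lit 5) (nat_lit 27) (nat_lit 5) (nat_lit 264) (nat_lit 254) (nat_lit 142)))) (XT.nd (nat_lit 78) (nat_lit 304) (nat_lit 0) (XT.lf (nat_lit 0) (nat_lit 498335728983) (nat_lit 228) (nat_lit 617090951388) (nat_lit 76) (nat_lit 46306686471) (nat_lit 24) (nat_lit 5) (nat_lit 27) (nat_lit 5) (nat_lit 25) (nat_lit 5) (nat_lit 265) (nat_lit 254) (nat_lit 141)) (XT.nd (nat_lit 78) (nat_lit 152) (nat_lit 0) (XT.lf (nat_lit 0) (nat_lit 429856410602) (nat_lit 152) (nat_lit 494790167004) (nat_lit 228) (nat_lit 351334560359) (nat_lit 22) (nat_lit 5) (nat_lit 24) (nat_lit 5) (nat_lit 25) (nat_lit 5) (nat_lit 266) (nat_lit 254) (nat_lit 140)) (XT.lf (nat_lit 0) (nat_lit 38216212667) (nat_lit 152) (nat_lit 1132690406762) (nat_lit 76) (nat_lit 233960527159) (nat_lit 20) (nat_lit 5) (nat_lit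 22) (nat_lit 5) (nat_lit 21) (nat_lit 5) (nat_lit 267) (nat_lit 254) (nat_lit 139))))) (XT.nd (nat_lit 234) (nat_lit 304) (nat_lit 0) (XT.nd (nat_lit 78) (nat_lit 76) (nat_lit 0) (XT.lf (nat_lit 0) (nat_lit 36111686078) (nat_lit 152) (nat_lit 469703452043) (nat_lit 228) (nat_lit 1043307395540) (nat_lit 18) (nat_lit 5) (nat_lit 20) (nat_lit 5) (nat_lit 21) (nat_lit 5) (nat_lit 268) (nat_lit 254) (nat_lit 138)) (XT.nd (nat_lit 78) (nat_lit 76) (nat_lit 0) (XT.lf (nat_lit 0) (nat_lit 1085484656234) (nat_lit 228) (nat_lit 272505431645) (nat_lit 76) (nat_lit 353671680646) (nat_lit 18) (nat_lit 5) (nat_lit 21) (nat_lit 5) (nat_lit 19) (nat_lit 4) (nat_lit 269) (nat_lit 254) (nat_lit 137)) (XT.lf (nat_lit 0) (nat_lit 1201172438548) (nat_lit 76) (nat_lit 592811206296) (nat_lit 152) (nat_lit 101247920381) (nat_lit 17) (nat_lit 5) (nat_lit 18) (nat_lit 5) (nat_lit 19) (nat_lit 4) (nat_lit 270)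 (nat_lit 254) (nat_lit 136)))) (XT.nd (nat_lit 78) (nat_lit 76) (nat_lit 0) (XT.lf (nat_lit 0) (nat_lit 513492488041) (nat_lit 228) (nat_lit 1274818555835) (nat_lit 76) (nat_lit 314162733005) (nat_lit 14) (nat_lit 5) (nat_lit 17) (nat_lit 5) (nat_lit 15) (nat_lit 4) (nat_lit 271) (nat_lit 254) (nat_lit 135)) (XT.nd (nat_lit 78) (nat_lit 0) (nat_lit 0) (XT.lf (nat_lit 0) (nat_lit 274480859992) (nat_lit 76) (nat_lit 983867125219) (nat_lit 152) (nat_lit 1078732027071) (nat_lit 13) (nat_lit 5) (nat_lit 14) (nat_lit 5) (nat_lit 15) (nat_lit 4) (nat_lit 272) (nat_lit 254) (nat_lit 134)) (XT.lf (nat_lit 0) (nat_lit 2133374300676) (nat_lit 76) (nat_lit 18672461739) (nat_lit 152) (nat_lit 451861224160) (nat_lit 13) (nat_lit 5) (nat_lit 14) (nat_lit 5) (nat_lit 15) (nat_lit 4) (nat_lit 273) (nat_lit 254) (nat_lit 133))))))))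
noncomputable def xc58 : XT := (XT.nd (nat_lit 34164) (nat_lit 0) (nat_lit 76) (XT.nd (nat_lit 33228) (nat_lit 0) (nat_lit 912) (XT.nd (nat_lit 468) (nat_lit 76) (nat_lit 0) (XT.nd (nat_lit 234) (nat_lit 228) (nat_lit 0) (XT.nd (nat_lit 78) (nat_lit 76) (nat_lit 0) (XT.lf (nat_lit 0) (nat_lit 317161077420) (nat_lit 152) (nat_lit 1509641050607) (nat_lit 76) (nat_lit 1078514046449) (nat_lit 11) (nat_lit 5) (nat_lit 13) (nat_lit 5) (nat_lit 12) (nat_lit 4) (nat_lit 274) (nat_lit 254) (nat_lit 132)) (XT.nd (nat_lit 78) (nat_lit 0) (nat_lit 0) (XT.lf (nat_lit 0) (nat_lit 322218726135) (nat_lit 76) (nat_lit 875644172379) (nat_lit 152) (nat_lit 2051287247556) (nat_lit 10) (nat_lit 5) (nat_lit 11) (nat_lit 5) (nat_lit 12) (nat_lit 4) (nat_lit 275) (nat_lit 254) (nat_lit 131)) (XT.lf (nat_lit 0) (nat_lit 2261010569472) (nat_lit 152) (nat_lit 1127155376904) (nat_lit 0) (nat_lit 252366020902) (nat_lit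 10) (nat_lit 5) (nat_lit 12) (nat_lit 4) (nat_lit 10) (nat_lit 4) (nat_lit 276) (nat_lit 254) (nat_lit 130)))) (XT.nd (nat_lit 78) (nat_lit 152) (nat_lit 0) (XT.lf (nat_lit 0) (nat_lit 966728580038) (nat_lit 76) (nat_lit 2564369799464) (nat_lit 76) (nat_lit 555725243100) (nat_lit 9) (nat_lit 4) (nat_lit 10) (nat_lit 5) (nat_lit 10) (nat_lit 4) (nat_lit 277) (nat_lit 254) (nat_lit 129)) (XT.nd (nat_lit 78) (nat_lit 76) (nat_lit 0) (XT.lf (nat_lit 0) (nat_lit 405717167179) (nat_lit 152) (nat_lit 1164752855408) (nat_lit 76) (nat_lit 3026142025445) (nat_lit 8) (nat_lit 5) (nat_lit 10) (nat_lit 5) (nat_lit 9) (nat_lit 4) (nat_lit 278) (nat_lit 254) (nat_lit 128)) (XT.lf (nat_lit 0) (nat_lit 1124787062685) (nat_lit 76) (nat_lit 381670452564) (nat_lit 152) (nat_lit 3673017531313) (nat_lit 7) (nat_lit 5) (nat_lit 8) (nat_lit 5) (nat_lit 9) (nat_lit 4) (nat_lit 279) (nat_lit 254) (nat_lit 127)))))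 (XT.nd (nat_lit 32526) (nat_lit 0) (nat_lit 2964) (XT.nd (nat_lit 78) (nat_lit 76) (nat_lit 0) (XT.lf (nat_lit 0) (nat_lit 2830800300400) (nat_lit 152) (nat_lit 2043343670474) (nat_lit 0) (nat_lit 970944213215) (nat_lit 7) (nat_lit 5) (nat_lit 9) (nat_lit 4) (nat_lit 7) (nat_lit 4) (nat_lit 280) (nat_lit 254) (nat_lit 126)) (XT.nd (nat_lit 32370) (nat_lit 0) (nat_lit 2888) (XT.lf (nat_lit 0) (nat_lit 272792396906) (nat_lit 76) (nat_lit 4098118824600) (nat_lit 76) (nat_lit 2238262733289) (nat_lit 6) (nat_lit 4) (nat_lit 7) (nat_lit 5) (nat_lit 7) (nat_lit 4) (nat_lit 281) (nat_lit 254) (nat_lit 125)) (XT.lf (nat_lit 0) (nat_lit 162744495727) (nat_lit 532) (nat_lit 54692891443) (nat_lit 532) (nat_lit 54692891443) (nat_lit 44) (nat_lit 3) (nat_lit 51) (nat_lit 3) (nat_lit 51) (nat_lit 5) (nat_lit 255) (nat_lit 255) (nat_lit 150)))) (XT.nd (nat_lit 78) (nat_lit 0) (nat_lit 0) (XT.lf (nat_lit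 0) (nat_lit 359173069573) (nat_lit 456) (nat_lit 212492927487) (nat_lit 532) (nat_lit 12672308473) (nat_lit 45) (nat_lit 5) (nat_lit 51) (nat_lit 5) (nat_lit 52) (nat_lit 5) (nat_lit 256) (nat_lit 255) (nat_lit 149)) (XT.nd (nat_lit 78) (nat_lit 0) (nat_lit 76) (XT.lf (nat_lit 76) (nat_lit 304851946493) (nat_lit 0) (nat_lit 115684373441) (nat_lit 532) (nat_lit 208081271521) (nat_lit 46) (nat_lit 5) (nat_lit 45) (nat_lit 5) (nat_lit 52) (nat_lit 5) (nat_lit 257) (nat_lit 255) (nat_lit 148)) (XT.lf (nat_lit 76) (nat_lit 235408888394) (nat_lit 0) (nat_lit 277533005800) (nat_lit 532) (nat_lit 164849849346) (nat_lit 47) (nat_lit 5) (nat_lit 46) (nat_lit 5) (nat_lit 53) (nat_lit 5) (nat_lit 258) (nat_lit 255) (nat_lit 147)))))) (XT.nd (nat_lit 468) (nat_lit 836) (nat_lit 0) (XT.nd (nat_lit 234) (nat_lit 608) (nat_lit 0) (XT.nd (nat_lit 78) (nat_lit 304) (nat_lit 0) (XT.lf (nat_lit 0) (nat_lit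 163199410660) (nat_lit 456) (nat_lit 478802255833) (nat_lit 532) (nat_lit 90516883153) (nat_lit 41) (nat_lit 5) (nat_lit 47) (nat_lit 5) (nat_lit 48) (nat_lit 5) (nat_lit 259) (nat_lit 255) (nat_lit 146)) (XT.nd (nat_lit 78) (nat_lit 0) (nat_lit 0) (XT.lf (nat_lit 0) (nat_lit 19927092255) (nat_lit 304) (nat_lit 706789679910) (nat_lit 76) (nat_lit 66770550433) (nat_lit 37) (nat_lit 5) (nat_lit 41) (nat_lit 5) (nat_lit 38) (nat_lit 5) (nat_lit 260) (nat_lit 255) (nat_lit 145)) (XT.lf (nat_lit 0) (nat_lit 171978522108) (nat_lit 304) (nat_lit 2858749112) (nat_lit 76) (nat_lit 686144015938) (nat_lit 37) (nat_lit 5) (nat_lit 41) (nat_lit 5) (nat_lit 38) (nat_lit 5) (nat_lit 261) (nat_lit 255) (nat_lit 144)))) (XT.nd (nat_lit 78) (nat_lit 380) (nat_lit 0) (XT.lf (nat_lit 0) (nat_lit 378848666945) (nat_lit 304) (nat_lit 99415659295) (nat_lit 76) (nat_lit 457774140219) (nat_lit 34) (nat_lit 5)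 (nat_lit 38) (nat_lit 5) (nat_lit 35) (nat_lit 5) (nat_lit 262) (nat_lit 255) (nat_lit 143)) (XT.nd (nat_lit 78) (nat_lit 152) (nat_lit 0) (XT.lf (nat_lit 0) (nat_lit 645488433196) (nat_lit 304) (nat_lit 208763187513) (nat_lit 76) (nat_lit 165803474055) (nat_lit 31) (nat_lit 5) (nat_lit 35) (nat_lit 5) (nat_lit 32) (nat_lit 5) (nat_lit 263) (nat_lit 255) (nat_lit 142)) (XT.lf (nat_lit 0) (nat_lit 773577929374) (nat_lit 152) (nat_lit 213347941691) (nat_lit 228) (nat_lit 126964209790) (nat_lit 29) (nat_lit 5) (nat_lit 31) (nat_lit 5) (nat_lit 32) (nat_lit 5) (nat_lit 264) (nat_lit 255) (nat_lit 141))))) (XT.nd (nat_lit 234) (nat_lit 304) (nat_lit 0) (XT.nd (nat_lit 78) (nat_lit 304) (nat_lit 0) (XT.lf (nat_lit 0) (nat_lit 186915808342) (nat_lit 228) (nat_lit 505894682739) (nat_lit 76) (nat_lit 525723863596) (nat_lit 26) (nat_lit 5) (nat_lit 29) (nat_lit 5) (nat_lit 27) (nat_lit 5) (nat_lit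 265) (nat_lit 255) (nat_lit 140)) (XT.nd (nat_lit 78) (nat_lit 152) (nat_lit 0) (XT.lf (nat_lit 0) (nat_lit 573086357713) (nat_lit 228) (nat_lit 709654195259) (nat_lit 76) (nat_lit 53252796792) (nat_lit 24) (nat_lit 5) (nat_lit 27) (nat_lit 5) (nat_lit 25) (nat_lit 5) (nat_lit 266) (nat_lit 255) (nat_lit 139)) (XT.lf (nat_lit 0) (nat_lit 494335237270) (nat_lit 152) (nat_lit 569008570002) (nat_lit 228) (nat_lit 404034481463) (nat_lit 22) (nat_lit 5) (nat_lit 24) (nat_lit 5) (nat_lit 25) (nat_lit 5) (nat_lit 267) (nat_lit 255) (nat_lit 138)))) (XT.nd (nat_lit 78) (nat_lit 152) (nat_lit 0) (XT.lf (nat_lit 0) (nat_lit 43948873029) (nat_lit 152) (nat_lit 1302593605632) (nat_lit 76) (nat_lit 269054721250) (nat_lit 20) (nat_lit 5) (nat_lit 22) (nat_lit 5) (nat_lit 21) (nat_lit 5) (nat_lit 268) (nat_lit 255) (nat_lit 137)) (XT.nd (nat_lit 78) (nat_lit 0) (nat_lit 0) (XT.lf (nat_lit 0) (nat_lit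 41528770480) (nat_lit 152) (nat_lit 540158844994) (nat_lit 228) (nat_lit 1199803281369) (nat_lit 18) (nat_lit 5) (nat_lit 20) (nat_lit 5) (nat_lit 21) (nat_lit 5) (nat_lit 269) (nat_lit 255) (nat_lit 136)) (XT.lf (nat_lit 0) (nat_lit 1248307536963) (nat_lit 228) (nat_lit 313380946082) (nat_lit 76) (nat_lit 406722535882) (nat_lit 18) (nat_lit 5) (nat_lit 21) (nat_lit 5) (nat_lit 19) (nat_lit 4) (nat_lit 270) (nat_lit 255) (nat_lit 135))))))) (XT.nd (nat_lit 33306) (nat_lit 0) (nat_lit 1140) (XT.nd (nat_lit 468) (nat_lit 228) (nat_lit 0) (XT.nd (nat_lit 234) (nat_lit 228) (nat_lit 0) (XT.nd (nat_lit 78) (nat_lit 304) (nat_lit 0) (XT.lf (nat_lit 0) (nat_lit 1381348579220) (nat_lit 76) (nat_lit 681732777478) (nat_lit 152) (nat_lit 116434929846) (nat_lit 17) (nat_lit 5) (nat_lit 18) (nat_lit 5) (nat_lit 19) (nat_lit 4) (nat_lit 271) (nat_lit 255) (nat_lit 134)) (XT.nd (nat_lit 78) (nat_lit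 76) (nat_lit 0) (XT.lf (nat_lit 0) (nat_lit 590516517585) (nat_lit 228) (nat_lit 1466041069243) (nat_lit 76) (nat_lit 361287243875) (nat_lit 14) (nat_lit 5) (nat_lit 17) (nat_lit 5) (nat_lit 15) (nat_lit 4) (nat_lit 272) (nat_lit 255) (nat_lit 133)) (XT.lf (nat_lit 0) (nat_lit 315653236107) (nat_lit 76) (nat_lit 1131447088774) (nat_lit 152) (nat_lit 1240541677714) (nat_lit 13) (nat_lit 5) (nat_lit 14) (nat_lit 5) (nat_lit 15) (nat_lit 4) (nat_lit 273) (nat_lit 255) (nat_lit 132)))) (XT.nd (nat_lit 78) (nat_lit 228) (nat_lit 0) (XT.lf (nat_lit 0) (nat_lit 2453380660662) (nat_lit 76) (nat_lit 21473239497) (nat_lit 152) (nat_lit 519640274376) (nat_lit 13) (nat_lit 5) (nat_lit 14) (nat_lit 5) (nat_lit 15) (nat_lit 4) (nat_lit 274) (nat_lit 255) (nat_lit 131)) (XT.nd (nat_lit 78) (nat_lit 76) (nat_lit 0) (XT.lf (nat_lit 0) (nat_lit 364735356230) (nat_lit 152) (nat_lit 1736086998044) (nat_lit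 76) (nat_lit 1240291236873) (nat_lit 11) (nat_lit 5) (nat_lit 13) (nat_lit 5) (nat_lit 12) (nat_lit 4) (nat_lit 275) (nat_lit 255) (nat_lit 130)) (XT.lf (nat_lit 0) (nat_lit 370551727421) (nat_lit 76) (nat_lit 1006990712407) (nat_lit 152) (nat_lit 2358980219521) (nat_lit 10) (nat_lit 5) (nat_lit 11) (nat_lit 5) (nat_lit 12) (nat_lit 4) (nat_lit 276) (nat_lit 255) (nat_lit 129))))) (XT.nd (nat_lit 234) (nat_lit 76) (nat_lit 0) (XT.nd (nat_lit 78) (nat_lit 152) (nat_lit 0) (XT.lf (nat_lit 0) (nat_lit 2600162249328) (nat_lit 152) (nat_lit 1296228510454) (nat_lit 0) (nat_lit 290220994938) (nat_lit 10) (nat_lit 5) (nat_lit 12) (nat_lit 4) (nat_lit 10) (nat_lit 4) (nat_lit 277) (nat_lit 255) (nat_lit 128)) (XT.nd (nat_lit 78) (nat_lit 76) (nat_lit 0) (XT.lf (nat_lit 0) (nat_lit 1111738025387) (nat_lit 76) (nat_lit 2949025196967) (nat_lit 76) (nat_lit 639083936683) (nat_lit 9) (nat_lit 4) (nat_lit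 10) (nat_lit 5) (nat_lit 10) (nat_lit 4) (nat_lit 278) (nat_lit 255) (nat_lit 127)) (XT.lf (nat_lit 0) (nat_lit 466574818982) (nat_lit 152) (nat_lit 1339465641924) (nat_lit 76) (nat_lit 3480063388126) (nat_lit 8) (nat_lit 5) (nat_lit 10) (nat_lit 5) (nat_lit 9) (nat_lit 4) (nat_lit 279) (nat_lit 255) (nat_lit 126)))) (XT.nd (nat_lit 78) (nat_lit 0) (nat_lit 0) (XT.lf (nat_lit 0) (nat_lit 1293505251882) (nat_lit 76) (nat_lit 438920960495) (nat_lit 152) (nat_lit 4223970085525) (nat_lit 7) (nat_lit 5) (nat_lit 8) (nat_lit 5) (nat_lit 9) (nat_lit 4) (nat_lit 280) (nat_lit 255) (nat_lit 125)) (XT.nd (nat_lit 32448) (nat_lit 0) (nat_lit 2812) (XT.lf (nat_lit 0) (nat_lit 3255420407445) (nat_lit 152) (nat_lit 2349845104526) (nat_lit 0) (nat_lit 1116585894723) (nat_lit 7) (nat_lit 5) (nat_lit 9) (nat_lit 4) (nat_lit 7) (nat_lit 4) (nat_lit 281) (nat_lit 255) (nat_lit 124)) (XT.lf (nat_lit 0) (nat_lit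 187156517677) (nat_lit 532) (nat_lit 62896636893) (nat_lit 532) (nat_lit 62896636893) (nat_lit 44) (nat_lit 3) (nat_lit 51) (nat_lit 3) (nat_lit 51) (nat_lit 5) (nat_lit 256) (nat_lit 256) (nat_lit 148)))))) (XT.nd (nat_lit 468) (nat_lit 1140) (nat_lit 0) (XT.nd (nat_lit 234) (nat_lit 608) (nat_lit 0) (XT.nd (nat_lit 78) (nat_lit 0) (nat_lit 0) (XT.lf (nat_lit 0) (nat_lit 413049636355) (nat_lit 456) (nat_lit 244366464501) (nat_lit 532) (nat_lit 14572900024) (nat_lit 45) (nat_lit 5) (nat_lit 51) (nat_lit 5) (nat_lit 52) (nat_lit 5) (nat_lit 257) (nat_lit 256) (nat_lit 147)) (XT.nd (nat_lit 78) (nat_lit 0) (nat_lit 76) (XT.lf (nat_lit 76) (nat_lit 350580106541) (nat_lit 0) (nat_lit 133037197493) (nat_lit 532) (nat_lit 239292881533) (nat_lit 46) (nat_lit 5) (nat_lit 45) (nat_lit 5) (nat_lit 52) (nat_lit 5) (nat_lit 258) (nat_lit 256) (nat_lit 146)) (XT.lf (nat_lit 76) (nat_lit 270720603101)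 (nat_lit 0) (nat_lit 319163047064) (nat_lit 532) (nat_lit 189576815665) (nat_lit 47) (nat_lit 5) (nat_lit 46) (nat_lit 5) (nat_lit 53) (nat_lit 5) (nat_lit 259) (nat_lit 256) (nat_lit 145)))) (XT.nd (nat_lit 78) (nat_lit 304) (nat_lit 0) (XT.lf (nat_lit 0) (nat_lit 187679709328) (nat_lit 456) (nat_lit 550622624854) (nat_lit 532) (nat_lit 104093963194) (nat_lit 41) (nat_lit 5) (nat_lit 47) (nat_lit 5) (nat_lit 48) (nat_lit 5) (nat_lit 260) (nat_lit 256) (nat_lit 144)) (XT.nd (nat_lit 78) (nat_lit 0) (nat_lit 0) (XT.lf (nat_lit 0) (nat_lit 22916538718) (nat_lit 304) (nat_lit 812807723943) (nat_lit 76) (nat_lit 76786126671) (nat_lit 37) (nat_lit 5) (nat_lit 41) (nat_lit 5) (nat_lit 38) (nat_lit 5) (nat_lit 261) (nat_lit 256) (nat_lit 143)) (XT.lf (nat_lit 0) (nat_lit 197775633141) (nat_lit 304) (nat_lit 3287206738) (nat_lit 76) (nat_lit 789065612827) (nat_lit 37) (nat_lit 5) (nat_lit 41)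 (nat_lit 5) (nat_lit 38) (nat_lit 5) (nat_lit 262) (nat_lit 256) (nat_lit 142))))) (XT.nd (nat_lit 234) (nat_lit 532) (nat_lit 0) (XT.nd (nat_lit 78) (nat_lit 380) (nat_lit 0) (XT.lf (nat_lit 0) (nat_lit 435676264778) (nat_lit 304) (nat_lit 114327659577) (nat_lit 76) (nat_lit 526440287458) (nat_lit 34) (nat_lit 5) (nat_lit 38) (nat_lit 5) (nat_lit 35) (nat_lit 5) (nat_lit 263) (nat_lit 256) (nat_lit 141)) (XT.nd (nat_lit 78) (nat_lit 152) (nat_lit 0) (XT.lf (nat_lit 0) (nat_lit 742311966062) (nat_lit 304) (nat_lit 240077325781) (nat_lit 76) (nat_lit 190674045018) (nat_lit 31) (nat_lit 5) (nat_lit 35) (nat_lit 5) (nat_lit 32) (nat_lit 5) (nat_lit 264) (nat_lit 256) (nat_lit 140)) (XT.lf (nat_lit 0) (nat_lit 889614929872) (nat_lit 152) (nat_lit 245350062279) (nat_lit 228) (nat_lit 146008581001) (nat_lit 29) (nat_lit 5) (nat_lit 31) (nat_lit 5) (nat_lit 32) (nat_lit 5) (nat_lit 265) (nat_lit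 256) (nat_lit 139)))) (XT.nd (nat_lit 78) (nat_lit 304) (nat_lit 0) (XT.lf (nat_lit 0) (nat_lit 214953403536) (nat_lit 228) (nat_lit 581778571519) (nat_lit 76) (nat_lit 604582514427) (nat_lit 26) (nat_lit 5) (nat_lit 29) (nat_lit 5) (nat_lit 27) (nat_lit 5) (nat_lit 266) (nat_lit 256) (nat_lit 138)) (XT.nd (nat_lit 78) (nat_lit 152) (nat_lit 0) (XT.lf (nat_lit 0) (nat_lit 659049515062) (nat_lit 228) (nat_lit 816102022969) (nat_lit 76) (nat_lit 61240797483) (nat_lit 24) (nat_lit 5) (nat_lit 27) (nat_lit 5) (nat_lit 25) (nat_lit 5) (nat_lit 267) (nat_lit 256) (nat_lit 137)) (XT.lf (nat_lit 0) (nat_lit 568485798912) (nat_lit 152) (nat_lit 654359763214) (nat_lit 228) (nat_lit 464639454855) (nat_lit 22) (nat_lit 5) (nat_lit 24) (nat_lit 5) (nat_lit 25) (nat_lit 5) (nat_lit 268) (nat_lit 256) (nat_lit 136))))))))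
noncomputable def xc59 : XT := (XT.nd (nat_lit 34398) (nat_lit 0) (nat_lit 76) (XT.nd (nat_lit 33462) (nat_lit 0) (nat_lit 1216) (XT.nd (nat_lit 468) (nat_lit 380) (nat_lit 0) (XT.nd (nat_lit 234) (nat_lit 380) (nat_lit 0) (XT.nd (nat_lit 78) (nat_lit 152) (nat_lit 0) (XT.lf (nat_lit 0) (nat_lit 50541376733) (nat_lit 152) (nat_lit 1497982372644) (nat_lit 76) (nat_lit 309413016408) (nat_lit 20) (nat_lit 5) (nat_lit 22) (nat_lit 5) (nat_lit 21) (nat_lit 5) (nat_lit 269) (nat_lit 256) (nat_lit 135)) (XT.nd (nat_lit 78) (nat_lit 0) (nat_lit 0) (XT.lf (nat_lit 0) (nat_lit 47758336706) (nat_lit 152) (nat_lit 621182577334) (nat_lit 228) (nat_lit 1379773604574) (nat_lit 18) (nat_lit 5) (nat_lit 20) (nat_lit 5) (nat_lit 21) (nat_lit 5) (nat_lit 270) (nat_lit 256) (nat_lit 134)) (XT.lf (nat_lit 0) (nat_lit 1435553805347) (nat_lit 228) (nat_lit 360387860918) (nat_lit 76) (nat_lit 467730994252) (nat_lit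 18) (nat_lit 5) (nat_lit 21) (nat_lit 5) (nat_lit 19) (nat_lit 4) (nat_lit 271) (nat_lit 256) (nat_lit 133)))) (XT.nd (nat_lit 78) (nat_lit 304) (nat_lit 0) (XT.lf (nat_lit 0) (nat_lit 1588551073959) (nat_lit 76) (nat_lit 783992611104) (nat_lit 152) (nat_lit 133900034282) (nat_lit 17) (nat_lit 5) (nat_lit 18) (nat_lit 5) (nat_lit 19) (nat_lit 4) (nat_lit 272) (nat_lit 256) (nat_lit 132)) (XT.nd (nat_lit 78) (nat_lit 76) (nat_lit 0) (XT.lf (nat_lit 0) (nat_lit 679094113436) (nat_lit 228) (nat_lit 1685947025494) (nat_lit 76) (nat_lit 415480406765) (nat_lit 14) (nat_lit 5) (nat_lit 17) (nat_lit 5) (nat_lit 15) (nat_lit 4) (nat_lit 273) (nat_lit 256) (nat_lit 131)) (XT.lf (nat_lit 0) (nat_lit 363001408379) (nat_lit 76) (nat_lit 1301164072522) (nat_lit 152) (nat_lit 1426622813365) (nat_lit 13) (nat_lit 5) (nat_lit 14) (nat_lit 5) (nat_lit 15) (nat_lit 4) (nat_lit 274) (nat_lit 256) (nat_lit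 130))))) (XT.nd (nat_lit 234) (nat_lit 152) (nat_lit 0) (XT.nd (nat_lit 78) (nat_lit 228) (nat_lit 0) (XT.lf (nat_lit 0) (nat_lit 2821387922244) (nat_lit 76) (nat_lit 24694156232) (nat_lit 152) (nat_lit 597586214658) (nat_lit 13) (nat_lit 5) (nat_lit 14) (nat_lit 5) (nat_lit 15) (nat_lit 4) (nat_lit 275) (nat_lit 256) (nat_lit 129)) (XT.nd (nat_lit 78) (nat_lit 76) (nat_lit 0) (XT.lf (nat_lit 0) (nat_lit 419445748282) (nat_lit 152) (nat_lit 1996499888844) (nat_lit 76) (nat_lit 1426334985510) (nat_lit 11) (nat_lit 5) (nat_lit 13) (nat_lit 5) (nat_lit 12) (nat_lit 4) (nat_lit 276) (nat_lit 256) (nat_lit 128)) (XT.lf (nat_lit 0) (nat_lit 426134631990) (nat_lit 76) (nat_lit 1158039254368) (nat_lit 152) (nat_lit 2712827165366) (nat_lit 10) (nat_lit 5) (nat_lit 11) (nat_lit 5) (nat_lit 12) (nat_lit 4) (nat_lit 277) (nat_lit 256) (nat_lit 127)))) (XT.nd (nat_lit 78) (nat_lit 152) (nat_lit 0)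 (XT.lf (nat_lit 0) (nat_lit 2990186658134) (nat_lit 152) (nat_lit 1490662656220) (nat_lit 0) (nat_lit 333754197790) (nat_lit 10) (nat_lit 5) (nat_lit 12) (nat_lit 4) (nat_lit 10) (nat_lit 4) (nat_lit 278) (nat_lit 256) (nat_lit 126)) (XT.nd (nat_lit 78) (nat_lit 76) (nat_lit 0) (XT.lf (nat_lit 0) (nat_lit 1278498848925) (nat_lit 76) (nat_lit 3391378921754) (nat_lit 76) (nat_lit 734946456954) (nat_lit 9) (nat_lit 4) (nat_lit 10) (nat_lit 5) (nat_lit 10) (nat_lit 4) (nat_lit 279) (nat_lit 256) (nat_lit 125)) (XT.lf (nat_lit 0) (nat_lit 536561099846) (nat_lit 152) (nat_lit 1540385380994) (nat_lit 76) (nat_lit 4002072940856) (nat_lit 8) (nat_lit 5) (nat_lit 10) (nat_lit 5) (nat_lit 9) (nat_lit 4) (nat_lit 280) (nat_lit 256) (nat_lit 124)))))) (XT.nd (nat_lit 468) (nat_lit 988) (nat_lit 0) (XT.nd (nat_lit 234) (nat_lit 532) (nat_lit 0) (XT.nd (nat_lit 78) (nat_lit 0) (nat_lit 76) (XT.lf (nat_lit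 0) (nat_lit 215230258157) (nat_lit 532) (nat_lit 72330990070) (nat_lit 532) (nat_lit 72330990070) (nat_lit 44) (nat_lit 3) (nat_lit 51) (nat_lit 3) (nat_lit 51) (nat_lit 5) (nat_lit 257) (nat_lit 257) (nat_lit 146)) (XT.nd (nat_lit 78) (nat_lit 0) (nat_lit 0) (XT.lf (nat_lit 0) (nat_lit 475007540293) (nat_lit 456) (nat_lit 281021130123) (nat_lit 532) (nat_lit 16758642424) (nat_lit 45) (nat_lit 5) (nat_lit 51) (nat_lit 5) (nat_lit 52) (nat_lit 5) (nat_lit 258) (nat_lit 257) (nat_lit 145)) (XT.lf (nat_lit 76) (nat_lit 403167400838) (nat_lit 0) (nat_lit 152992904176) (nat_lit 532) (nat_lit 275186374658) (nat_lit 46) (nat_lit 5) (nat_lit 45) (nat_lit 5) (nat_lit 52) (nat_lit 5) (nat_lit 259) (nat_lit 257) (nat_lit 144)))) (XT.nd (nat_lit 78) (nat_lit 684) (nat_lit 0) (XT.lf (nat_lit 76) (nat_lit 311328981995) (nat_lit 0) (nat_lit 367037572474) (nat_lit 532) (nat_lit 218012951563) (nat_lit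 47) (nat_lit 5) (nat_lit 46) (nat_lit 5) (nat_lit 53) (nat_lit 5) (nat_lit 260) (nat_lit 257) (nat_lit 143)) (XT.nd (nat_lit 78) (nat_lit 304) (nat_lit 0) (XT.lf (nat_lit 0) (nat_lit 215831958408) (nat_lit 456) (nat_lit 633216041755) (nat_lit 532) (nat_lit 119707715569) (nat_lit 41) (nat_lit 5) (nat_lit 47) (nat_lit 5) (nat_lit 48) (nat_lit 5) (nat_lit 261) (nat_lit 257) (nat_lit 142)) (XT.lf (nat_lit 0) (nat_lit 26354308845) (nat_lit 304) (nat_lit 934728574064) (nat_lit 76) (nat_lit 88304040887) (nat_lit 37) (nat_lit 5) (nat_lit 41) (nat_lit 5) (nat_lit 38) (nat_lit 5) (nat_lit 262) (nat_lit 257) (nat_lit 141))))) (XT.nd (nat_lit 234) (nat_lit 532) (nat_lit 0) (XT.nd (nat_lit 78) (nat_lit 456) (nat_lit 0) (XT.lf (nat_lit 0) (nat_lit 227442229694) (nat_lit 304) (nat_lit 3780019513) (nat_lit 76) (nat_lit 907425450590) (nat_lit 37) (nat_lit 5) (nat_lit 41) (nat_lit 5) (nat_lit 38) (nat_lit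 5) (nat_lit 263) (nat_lit 257) (nat_lit 140)) (XT.nd (nat_lit 78) (nat_lit 228) (nat_lit 0) (XT.lf (nat_lit 0) (nat_lit 501027929669) (nat_lit 304) (nat_lit 131476544913) (nat_lit 76) (nat_lit 605406350393) (nat_lit 34) (nat_lit 5) (nat_lit 38) (nat_lit 5) (nat_lit 35) (nat_lit 5) (nat_lit 264) (nat_lit 257) (nat_lit 139)) (XT.lf (nat_lit 0) (nat_lit 853658963531) (nat_lit 304) (nat_lit 276088667666) (nat_lit 76) (nat_lit 219275189468) (nat_lit 31) (nat_lit 5) (nat_lit 35) (nat_lit 5) (nat_lit 32) (nat_lit 5) (nat_lit 265) (nat_lit 257) (nat_lit 138)))) (XT.nd (nat_lit 78) (nat_lit 380) (nat_lit 0) (XT.lf (nat_lit 0) (nat_lit 1023057404583) (nat_lit 152) (nat_lit 282152518187) (nat_lit 228) (nat_lit 167909671358) (nat_lit 29) (nat_lit 5) (nat_lit 31) (nat_lit 5) (nat_lit 32) (nat_lit 5) (nat_lit 266) (nat_lit 257) (nat_lit 137)) (XT.nd (nat_lit 78) (nat_lit 152) (nat_lit 0) (XT.lf (nat_lit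 0) (nat_lit 247196583399) (nat_lit 228) (nat_lit 669045120096) (nat_lit 76) (nat_lit 695269945498) (nat_lit 26) (nat_lit 5) (nat_lit 29) (nat_lit 5) (nat_lit 27) (nat_lit 5) (nat_lit 267) (nat_lit 257) (nat_lit 136)) (XT.lf (nat_lit 0) (nat_lit 757907096342) (nat_lit 228) (nat_lit 938517098378) (nat_lit 76) (nat_lit 70426978484) (nat_lit 24) (nat_lit 5) (nat_lit 27) (nat_lit 5) (nat_lit 25) (nat_lit 5) (nat_lit 268) (nat_lit 257) (nat_lit 135))))))) (XT.nd (nat_lit 33540) (nat_lit 0) (nat_lit 988) (XT.nd (nat_lit 468) (nat_lit 380) (nat_lit 0) (XT.nd (nat_lit 234) (nat_lit 304) (nat_lit 0) (XT.nd (nat_lit 78) (nat_lit 304) (nat_lit 0) (XT.lf (nat_lit 0) (nat_lit 653758877484) (nat_lit 152) (nat_lit 752513657913) (nat_lit 228) (nat_lit 534335222741) (nat_lit 22) (nat_lit 5) (nat_lit 24) (nat_lit 5) (nat_lit 25) (nat_lit 5) (nat_lit 269) (nat_lit 257) (nat_lit 134)) (XT.nd (nat_lit 78)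 (nat_lit 152) (nat_lit 0) (XT.lf (nat_lit 0) (nat_lit 58122713867) (nat_lit 152) (nat_lit 1722679521484) (nat_lit 76) (nat_lit 355825034631) (nat_lit 20) (nat_lit 5) (nat_lit 22) (nat_lit 5) (nat_lit 21) (nat_lit 5) (nat_lit 270) (nat_lit 257) (nat_lit 133)) (XT.lf (nat_lit 0) (nat_lit 54922276743) (nat_lit 152) (nat_lit 714359892548) (nat_lit 228) (nat_lit 1586739517472) (nat_lit 18) (nat_lit 5) (nat_lit 20) (nat_lit 5) (nat_lit 21) (nat_lit 5) (nat_lit 271) (nat_lit 257) (nat_lit 132)))) (XT.nd (nat_lit 78) (nat_lit 304) (nat_lit 0) (XT.lf (nat_lit 0) (nat_lit 1650886980376) (nat_lit 228) (nat_lit 414445868353) (nat_lit 76) (nat_lit 537890702360) (nat_lit 18) (nat_lit 5) (nat_lit 21) (nat_lit 5) (nat_lit 19) (nat_lit 4) (nat_lit 272) (nat_lit 257) (nat_lit 131)) (XT.nd (nat_lit 78) (nat_lit 228) (nat_lit 0) (XT.lf (nat_lit 0) (nat_lit 1826833892222) (nat_lit 76) (nat_lit 901591440013)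 (nat_lit 152) (nat_lit 153984937313) (nat_lit 17) (nat_lit 5) (nat_lit 18) (nat_lit 5) (nat_lit 19) (nat_lit 4) (nat_lit 273) (nat_lit 257) (nat_lit 130)) (XT.lf (nat_lit 0) (nat_lit 780958319838) (nat_lit 228) (nat_lit 1938838924963) (nat_lit 76) (nat_lit 477802525480) (nat_lit 14) (nat_lit 5) (nat_lit 17) (nat_lit 5) (nat_lit 15) (nat_lit 4) (nat_lit 274) (nat_lit 257) (nat_lit 129))))) (XT.nd (nat_lit 234) (nat_lit 152) (nat_lit 0) (XT.nd (nat_lit 78) (nat_lit 152) (nat_lit 0) (XT.lf (nat_lit 0) (nat_lit 417451760926) (nat_lit 76) (nat_lit 1496338623236) (nat_lit 152) (nat_lit 1640616147652) (nat_lit 13) (nat_lit 5) (nat_lit 14) (nat_lit 5) (nat_lit 15) (nat_lit 4) (nat_lit 275) (nat_lit 257) (nat_lit 128)) (XT.nd (nat_lit 78) (nat_lit 152) (nat_lit 0) (XT.lf (nat_lit 0) (nat_lit 3244596233442) (nat_lit 76) (nat_lit 28398227350) (nat_lit 152) (nat_lit 687224070581) (nat_lit 13) (nat_lit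 5) (nat_lit 14) (nat_lit 5) (nat_lit 15) (nat_lit 4) (nat_lit 276) (nat_lit 257) (nat_lit 127)) (XT.lf (nat_lit 0) (nat_lit 482362677532) (nat_lit 152) (nat_lit 2295974752014) (nat_lit 76) (nat_lit 1640285281053) (nat_lit 11) (nat_lit 5) (nat_lit 13) (nat_lit 5) (nat_lit 12) (nat_lit 4) (nat_lit 277) (nat_lit 257) (nat_lit 126)))) (XT.nd (nat_lit 78) (nat_lit 76) (nat_lit 0) (XT.lf (nat_lit 0) (nat_lit 490054936774) (nat_lit 76) (nat_lit 1331745093451) (nat_lit 152) (nat_lit 3119751174323) (nat_lit 10) (nat_lit 5) (nat_lit 11) (nat_lit 5) (nat_lit 12) (nat_lit 4) (nat_lit 278) (nat_lit 257) (nat_lit 125)) (XT.nd (nat_lit 78) (nat_lit 76) (nat_lit 0) (XT.lf (nat_lit 0) (nat_lit 3438714710848) (nat_lit 152) (nat_lit 1714261955749) (nat_lit 0) (nat_lit 383817367996) (nat_lit 10) (nat_lit 5) (nat_lit 12) (nat_lit 4) (nat_lit 10) (nat_lit 4) (nat_lit 279) (nat_lit 257) (nat_lit 124)) (XT.lf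 (nat_lit 0) (nat_lit 1470273766797) (nat_lit 76) (nat_lit 3900085718613) (nat_lit 76) (nat_lit 845188372391) (nat_lit 9) (nat_lit 4) (nat_lit 10) (nat_lit 5) (nat_lit 10) (nat_lit 4) (nat_lit 280) (nat_lit 257) (nat_lit 123)))))) (XT.nd (nat_lit 468) (nat_lit 1140) (nat_lit 0) (XT.nd (nat_lit 234) (nat_lit 532) (nat_lit 0) (XT.nd (nat_lit 78) (nat_lit 0) (nat_lit 76) (XT.lf (nat_lit 0) (nat_lit 247514995616) (nat_lit 532) (nat_lit 83180530938) (nat_lit 532) (nat_lit 83180530938) (nat_lit 44) (nat_lit 3) (nat_lit 51) (nat_lit 3) (nat_lit 51) (nat_lit 5) (nat_lit 258) (nat_lit 258) (nat_lit 144)) (XT.nd (nat_lit 78) (nat_lit 0) (nat_lit 0) (XT.lf (nat_lit 0) (nat_lit 546259018017) (nat_lit 456) (nat_lit 323174069734) (nat_lit 532) (nat_lit 19272293151) (nat_lit 45) (nat_lit 5) (nat_lit 51) (nat_lit 5) (nat_lit 52) (nat_lit 5) (nat_lit 259) (nat_lit 258) (nat_lit 143)) (XT.lf (nat_lit 76)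 (nat_lit 463642721411) (nat_lit 0) (nat_lit 175941935878) (nat_lit 532) (nat_lit 316463998830) (nat_lit 46) (nat_lit 5) (nat_lit 45) (nat_lit 5) (nat_lit 52) (nat_lit 5) (nat_lit 260) (nat_lit 258) (nat_lit 142)))) (XT.nd (nat_lit 78) (nat_lit 684) (nat_lit 0) (XT.lf (nat_lit 76) (nat_lit 358028547389) (nat_lit 0) (nat_lit 422093260029) (nat_lit 532) (nat_lit 250714602084) (nat_lit 47) (nat_lit 5) (nat_lit 46) (nat_lit 5) (nat_lit 53) (nat_lit 5) (nat_lit 261) (nat_lit 258) (nat_lit 141)) (XT.nd (nat_lit 78) (nat_lit 304) (nat_lit 0) (XT.lf (nat_lit 0) (nat_lit 248206973478) (nat_lit 456) (nat_lit 728198465541) (nat_lit 532) (nat_lit 137663614225) (nat_lit 41) (nat_lit 5) (nat_lit 47) (nat_lit 5) (nat_lit 48) (nat_lit 5) (nat_lit 262) (nat_lit 258) (nat_lit 140)) (XT.lf (nat_lit 0) (nat_lit 30307673938) (nat_lit 304) (nat_lit 1074937626925) (nat_lit 76) (nat_lit 101549643403) (nat_lit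 37) (nat_lit 5) (nat_lit 41) (nat_lit 5) (nat_lit 38) (nat_lit 5) (nat_lit 263) (nat_lit 258) (nat_lit 139))))) (XT.nd (nat_lit 234) (nat_lit 684) (nat_lit 0) (XT.nd (nat_lit 78) (nat_lit 456) (nat_lit 0) (XT.lf (nat_lit 0) (nat_lit 261558754380) (nat_lit 304) (nat_lit 4346819615) (nat_lit 76) (nat_lit 1043539265033) (nat_lit 37) (nat_lit 5) (nat_lit 41) (nat_lit 5) (nat_lit 38) (nat_lit 5) (nat_lit 264) (nat_lit 258) (nat_lit 138)) (XT.nd (nat_lit 78) (nat_lit 228) (nat_lit 0) (XT.lf (nat_lit 0) (nat_lit 576182289382) (nat_lit 304) (nat_lit 151197827330) (nat_lit 76) (nat_lit 696217317935) (nat_lit 34) (nat_lit 5) (nat_lit 38) (nat_lit 5) (nat_lit 35) (nat_lit 5) (nat_lit 265) (nat_lit 258) (nat_lit 137)) (XT.lf (nat_lit 0) (nat_lit 981707961226) (nat_lit 304) (nat_lit 317501773500) (nat_lit 76) (nat_lit 252166496393) (nat_lit 31) (nat_lit 5) (nat_lit 35) (nat_lit 5) (nat_lit 32) (nat_lit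 5) (nat_lit 266) (nat_lit 258) (nat_lit 136)))) (XT.nd (nat_lit 156) (nat_lit 304) (nat_lit 0) (XT.nd (nat_lit 78) (nat_lit 228) (nat_lit 0) (XT.lf (nat_lit 0) (nat_lit 1176516193138) (nat_lit 152) (nat_lit 324475355512) (nat_lit 228) (nat_lit 193095973258) (nat_lit 29) (nat_lit 5) (nat_lit 31) (nat_lit 5) (nat_lit 32) (nat_lit 5) (nat_lit 267) (nat_lit 258) (nat_lit 135)) (XT.lf (nat_lit 0) (nat_lit 284276198949) (nat_lit 228) (nat_lit 769401708791) (nat_lit 76) (nat_lit 799560478084) (nat_lit 26) (nat_lit 5) (nat_lit 29) (nat_lit 5) (nat_lit 27) (nat_lit 5) (nat_lit 268) (nat_lit 258) (nat_lit 134))) (XT.nd (nat_lit 78) (nat_lit 152) (nat_lit 0) (XT.lf (nat_lit 0) (nat_lit 871593277255) (nat_lit 228) (nat_lit 1079294490706) (nat_lit 76) (nat_lit 80991071667) (nat_lit 24) (nat_lit 5) (nat_lit 27) (nat_lit 5) (nat_lit 25) (nat_lit 5) (nat_lit 269) (nat_lit 258) (nat_lit 133)) (XT.lf (nat_lit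 0) (nat_lit 751822866939) (nat_lit 152) (nat_lit 865390653833) (nat_lit 228) (nat_lit 614485392472) (nat_lit 22) (nat_lit 5) (nat_lit 24) (nat_lit 5) (nat_lit 25) (nat_lit 5) (nat_lit 270) (nat_lit 258) (nat_lit 132))))))))
noncomputable def xc60 : XT := (XT.nd (nat_lit 34554) (nat_lit 0) (nat_lit 0) (XT.nd (nat_lit 33618) (nat_lit 0) (nat_lit 760) (XT.nd (nat_lit 468) (nat_lit 228) (nat_lit 0) (XT.nd (nat_lit 234) (nat_lit 380) (nat_lit 0) (XT.nd (nat_lit 78) (nat_lit 152) (nat_lit 0) (XT.lf (nat_lit 0) (nat_lit 66841219718) (nat_lit 152) (nat_lit 1981081293142) (nat_lit 76) (nat_lit 409198839551) (nat_lit 20) (nat_lit 5) (nat_lit 22) (nat_lit 5) (nat_lit 21) (nat_lit 5) (nat_lit 271) (nat_lit 258) (nat_lit 131)) (XT.nd (nat_lit 78) (nat_lit 0) (nat_lit 0) (XT.lf (nat_lit 0) (nat_lit 63160761567) (nat_lit 152) (nat_lit 821513822452) (nat_lit 228) (nat_lit 1824750348466) (nat_lit 18)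 (nat_lit 5) (nat_lit 20) (nat_lit 5) (nat_lit 21) (nat_lit 5) (nat_lit 272) (nat_lit 258) (nat_lit 130)) (XT.lf (nat_lit 0) (nat_lit 1898520106243) (nat_lit 228) (nat_lit 476612618774) (nat_lit 76) (nat_lit 618574352304) (nat_lit 18) (nat_lit 5) (nat_lit 21) (nat_lit 5) (nat_lit 19) (nat_lit 4) (nat_lit 273) (nat_lit 258) (nat_lit 129)))) (XT.nd (nat_lit 78) (nat_lit 304) (nat_lit 0) (XT.lf (nat_lit 0) (nat_lit 2100859094898) (nat_lit 76) (nat_lit 1036830108561) (nat_lit 152) (nat_lit 177082600700) (nat_lit 17) (nat_lit 5) (nat_lit 18) (nat_lit 5) (nat_lit 19) (nat_lit 4) (nat_lit 274) (nat_lit 258) (nat_lit 128)) (XT.nd (nat_lit 78) (nat_lit 76) (nat_lit 0) (XT.lf (nat_lit 0) (nat_lit 898102135403) (nat_lit 228) (nat_lit 2229664646993) (nat_lit 76) (nat_lit 549472947932) (nat_lit 14) (nat_lit 5) (nat_lit 17) (nat_lit 5) (nat_lit 15) (nat_lit 4) (nat_lit 275) (nat_lit 258) (nat_lit 127))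 (XT.lf (nat_lit 0) (nat_lit 480069631900) (nat_lit 76) (nat_lit 1720789371229) (nat_lit 152) (nat_lit 1886708503473) (nat_lit 13) (nat_lit 5) (nat_lit 14) (nat_lit 5) (nat_lit 15) (nat_lit 4) (nat_lit 276) (nat_lit 258) (nat_lit 126))))) (XT.nd (nat_lit 234) (nat_lit 0) (nat_lit 0) (XT.nd (nat_lit 78) (nat_lit 228) (nat_lit 0) (XT.lf (nat_lit 0) (nat_lit 3731285761358) (nat_lit 76) (nat_lit 32657921894) (nat_lit 152) (nat_lit 790307623492) (nat_lit 13) (nat_lit 5) (nat_lit 14) (nat_lit 5) (nat_lit 15) (nat_lit 4) (nat_lit 277) (nat_lit 258) (nat_lit 125)) (XT.nd (nat_lit 78) (nat_lit 76) (nat_lit 0) (XT.lf (nat_lit 0) (nat_lit 554717129829) (nat_lit 152) (nat_lit 2640370873961) (nat_lit 76) (nat_lit 1886328109292) (nat_lit 11) (nat_lit 5) (nat_lit 13) (nat_lit 5) (nat_lit 12) (nat_lit 4) (nat_lit 278) (nat_lit 258) (nat_lit 124)) (XT.lf (nat_lit 0) (nat_lit 563563260456) (nat_lit 76)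 (nat_lit 1531506820362) (nat_lit 152) (nat_lit 3587713800682) (nat_lit 10) (nat_lit 5) (nat_lit 11) (nat_lit 5) (nat_lit 12) (nat_lit 4) (nat_lit 279) (nat_lit 258) (nat_lit 123)))) (XT.nd (nat_lit 32760) (nat_lit 0) (nat_lit 2584) (XT.lf (nat_lit 0) (nat_lit 3954521958302) (nat_lit 152) (nat_lit 1971401174325) (nat_lit 0) (nat_lit 441390003848) (nat_lit 10) (nat_lit 5) (nat_lit 12) (nat_lit 4) (nat_lit 10) (nat_lit 4) (nat_lit 280) (nat_lit 258) (nat_lit 122)) (XT.nd (nat_lit 78) (nat_lit 0) (nat_lit 76) (XT.lf (nat_lit 0) (nat_lit 284642395232) (nat_lit 532) (nat_lit 95657529186) (nat_lit 532) (nat_lit 95657529186) (nat_lit 44) (nat_lit 3) (nat_lit 51) (nat_lit 3) (nat_lit 51) (nat_lit 5) (nat_lit 259) (nat_lit 259) (nat_lit 142)) (XT.lf (nat_lit 0) (nat_lit 628198132860) (nat_lit 456) (nat_lit 371650006351) (nat_lit 532) (nat_lit 22163027001) (nat_lit 45) (nat_lit 5) (nat_lit 51) (nat_lit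 5) (nat_lit 52) (nat_lit 5) (nat_lit 260) (nat_lit 259) (nat_lit 141)))))) (XT.nd (nat_lit 468) (nat_lit 1064) (nat_lit 0) (XT.nd (nat_lit 234) (nat_lit 532) (nat_lit 0) (XT.nd (nat_lit 78) (nat_lit 304) (nat_lit 0) (XT.lf (nat_lit 76) (nat_lit 533189288751) (nat_lit 0) (nat_lit 202333298907) (nat_lit 532) (nat_lit 363933347595) (nat_lit 46) (nat_lit 5) (nat_lit 45) (nat_lit 5) (nat_lit 52) (nat_lit 5) (nat_lit 261) (nat_lit 259) (nat_lit 140)) (XT.nd (nat_lit 78) (nat_lit 380) (nat_lit 0) (XT.lf (nat_lit 76) (nat_lit 411732994408) (nat_lit 0) (nat_lit 485407288113) (nat_lit 532) (nat_lit 288321571441) (nat_lit 47) (nat_lit 5) (nat_lit 46) (nat_lit 5) (nat_lit 53) (nat_lit 5) (nat_lit 262) (nat_lit 259) (nat_lit 139)) (XT.lf (nat_lit 0) (nat_lit 285438186840) (nat_lit 456) (nat_lit 837428248621) (nat_lit 532) (nat_lit 158312960760) (nat_lit 41) (nat_lit 5) (nat_lit 47) (nat_lit 5) (nat_lit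 48) (nat_lit 5) (nat_lit 263) (nat_lit 259) (nat_lit 138)))) (XT.nd (nat_lit 78) (nat_lit 228) (nat_lit 0) (XT.lf (nat_lit 0) (nat_lit 34853990448) (nat_lit 304) (nat_lit 1236178094595) (nat_lit 76) (nat_lit 116782087178) (nat_lit 37) (nat_lit 5) (nat_lit 41) (nat_lit 5) (nat_lit 38) (nat_lit 5) (nat_lit 264) (nat_lit 259) (nat_lit 137)) (XT.nd (nat_lit 78) (nat_lit 228) (nat_lit 0) (XT.lf (nat_lit 0) (nat_lit 300792711380) (nat_lit 304) (nat_lit 4998689193) (nat_lit 76) (nat_lit 1200070152410) (nat_lit 37) (nat_lit 5) (nat_lit 41) (nat_lit 5) (nat_lit 38) (nat_lit 5) (nat_lit 265) (nat_lit 259) (nat_lit 136)) (XT.lf (nat_lit 0) (nat_lit 662609761534) (nat_lit 304) (nat_lit 173877350715) (nat_lit 76) (nat_lit 800649926955) (nat_lit 34) (nat_lit 5) (nat_lit 38) (nat_lit 5) (nat_lit 35) (nat_lit 5) (nat_lit 266) (nat_lit 259) (nat_lit 135))))) (XT.nd (nat_lit 234) (nat_lit 456) (nat_lit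 0) (XT.nd (nat_lit 78) (nat_lit 380) (nat_lit 0) (XT.lf (nat_lit 0) (nat_lit 1128964271224) (nat_lit 304) (nat_lit 365126892595) (nat_lit 76) (nat_lit 289991492406) (nat_lit 31) (nat_lit 5) (nat_lit 35) (nat_lit 5) (nat_lit 32) (nat_lit 5) (nat_lit 267) (nat_lit 259) (nat_lit 134)) (XT.nd (nat_lit 78) (nat_lit 228) (nat_lit 0) (XT.lf (nat_lit 0) (nat_lit 1352993756602) (nat_lit 152) (nat_lit 373146628288) (nat_lit 228) (nat_lit 222060256730) (nat_lit 29) (nat_lit 5) (nat_lit 31) (nat_lit 5) (nat_lit 32) (nat_lit 5) (nat_lit 268) (nat_lit 259) (nat_lit 133)) (XT.lf (nat_lit 0) (nat_lit 326917725608) (nat_lit 228) (nat_lit 884811829518) (nat_lit 76) (nat_lit 919494580618) (nat_lit 26) (nat_lit 5) (nat_lit 29) (nat_lit 5) (nat_lit 27) (nat_lit 5) (nat_lit 269) (nat_lit 259) (nat_lit 132)))) (XT.nd (nat_lit 78) (nat_lit 304) (nat_lit 0) (XT.lf (nat_lit 0) (nat_lit 1002332356905) (nat_lit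 228) (nat_lit 1241188533931) (nat_lit 76) (nat_lit 93139767510) (nat_lit 24) (nat_lit 5) (nat_lit 27) (nat_lit 5) (nat_lit 25) (nat_lit 5) (nat_lit 270) (nat_lit 259) (nat_lit 131)) (XT.nd (nat_lit 78) (nat_lit 152) (nat_lit 0) (XT.lf (nat_lit 0) (nat_lit 864596416325) (nat_lit 152) (nat_lit 995199212009) (nat_lit 228) (nat_lit 706658115384) (nat_lit 22) (nat_lit 5) (nat_lit 24) (nat_lit 5) (nat_lit 25) (nat_lit 5) (nat_lit 271) (nat_lit 259) (nat_lit 130)) (XT.lf (nat_lit 0) (nat_lit 76867477360) (nat_lit 152) (nat_lit 2278243368727) (nat_lit 76) (nat_lit 470578703083) (nat_lit 20) (nat_lit 5) (nat_lit 22) (nat_lit 5) (nat_lit 21) (nat_lit 5) (nat_lit 272) (nat_lit 259) (nat_lit 129))))))) (XT.nd (nat_lit 33696) (nat_lit 0) (nat_lit 608) (XT.nd (nat_lit 468) (nat_lit 228) (nat_lit 0) (XT.nd (nat_lit 234) (nat_lit 304) (nat_lit 0) (XT.nd (nat_lit 78) (nat_lit 76) (nat_lit 0) (XT.lf (nat_lit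 0) (nat_lit 72634984167) (nat_lit 152) (nat_lit 944740855004) (nat_lit 228) (nat_lit 2098462827673) (nat_lit 18) (nat_lit 5) (nat_lit 20) (nat_lit 5) (nat_lit 21) (nat_lit 5) (nat_lit 273) (nat_lit 259) (nat_lit 128)) (XT.nd (nat_lit 78) (nat_lit 76) (nat_lit 0) (XT.lf (nat_lit 0) (nat_lit 2183298181772) (nat_lit 228) (nat_lit 548104413418) (nat_lit 76) (nat_lit 711360538866) (nat_lit 18) (nat_lit 5) (nat_lit 21) (nat_lit 5) (nat_lit 19) (nat_lit 4) (nat_lit 274) (nat_lit 259) (nat_lit 127)) (XT.lf (nat_lit 0) (nat_lit 2415988048995) (nat_lit 76) (nat_lit 1192354588964) (nat_lit 152) (nat_lit 203644932423) (nat_lit 17) (nat_lit 5) (nat_lit 18) (nat_lit 5) (nat_lit 19) (nat_lit 4) (nat_lit 275) (nat_lit 259) (nat_lit 126)))) (XT.nd (nat_lit 78) (nat_lit 76) (nat_lit 0) (XT.lf (nat_lit 0) (nat_lit 1032817506820) (nat_lit 228) (nat_lit 2564114255789) (nat_lit 76) (nat_lit 631893923113) (nat_lit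 14) (nat_lit 5) (nat_lit 17) (nat_lit 5) (nat_lit 15) (nat_lit 4) (nat_lit 276) (nat_lit 259) (nat_lit 125)) (XT.nd (nat_lit 78) (nat_lit 0) (nat_lit 0) (XT.lf (nat_lit 0) (nat_lit 552080157468) (nat_lit 76) (nat_lit 1978907742514) (nat_lit 152) (nat_lit 2169714728842) (nat_lit 13) (nat_lit 5) (nat_lit 14) (nat_lit 5) (nat_lit 15) (nat_lit 4) (nat_lit 277) (nat_lit 259) (nat_lit 124)) (XT.lf (nat_lit 0) (nat_lit 4290978695808) (nat_lit 76) (nat_lit 37556580266) (nat_lit 152) (nat_lit 908853723405) (nat_lit 13) (nat_lit 5) (nat_lit 14) (nat_lit 5) (nat_lit 15) (nat_lit 4) (nat_lit 278) (nat_lit 259) (nat_lit 123))))) (XT.nd (nat_lit 32994) (nat_lit 0) (nat_lit 2660) (XT.nd (nat_lit 78) (nat_lit 76) (nat_lit 0) (XT.lf (nat_lit 0) (nat_lit 637924737616) (nat_lit 152) (nat_lit 3036426436355) (nat_lit 76) (nat_lit 2169277352968) (nat_lit 11) (nat_lit 5) (nat_lit 13) (nat_lit 5) (nat_lit 12)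 (nat_lit 4) (nat_lit 279) (nat_lit 259) (nat_lit 122)) (XT.nd (nat_lit 32838) (nat_lit 0) (nat_lit 2584) (XT.lf (nat_lit 0) (nat_lit 648097812409) (nat_lit 76) (nat_lit 1761232815358) (nat_lit 152) (nat_lit 4125870833135) (nat_lit 10) (nat_lit 5) (nat_lit 11) (nat_lit 5) (nat_lit 12) (nat_lit 4) (nat_lit 280) (nat_lit 259) (nat_lit 121)) (XT.lf (nat_lit 0) (nat_lit 327338868144) (nat_lit 532) (nat_lit 110006097019) (nat_lit 532) (nat_lit 110006097019) (nat_lit 44) (nat_lit 3) (nat_lit 51) (nat_lit 3) (nat_lit 51) (nat_lit 5) (nat_lit 260) (nat_lit 260) (nat_lit 140)))) (XT.nd (nat_lit 78) (nat_lit 0) (nat_lit 0) (XT.lf (nat_lit 0) (nat_lit 722428051004) (nat_lit 456) (nat_lit 427397375854) (nat_lit 532) (nat_lit 25487397783) (nat_lit 45) (nat_lit 5) (nat_lit 51) (nat_lit 5) (nat_lit 52) (nat_lit 5) (nat_lit 261) (nat_lit 260) (nat_lit 139)) (XT.nd (nat_lit 78) (nat_lit 0) (nat_lit 76)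 (XT.lf (nat_lit 76) (nat_lit 613167802387) (nat_lit 0) (nat_lit 232683348674) (nat_lit 532) (nat_lit 418523159898) (nat_lit 46) (nat_lit 5) (nat_lit 45) (nat_lit 5) (nat_lit 52) (nat_lit 5) (nat_lit 262) (nat_lit 260) (nat_lit 138)) (XT.lf (nat_lit 76) (nat_lit 473493068265) (nat_lit 0) (nat_lit 558218410880) (nat_lit 532) (nat_lit 331569640084) (nat_lit 47) (nat_lit 5) (nat_lit 46) (nat_lit 5) (nat_lit 53) (nat_lit 5) (nat_lit 263) (nat_lit 260) (nat_lit 137)))))) (XT.nd (nat_lit 468) (nat_lit 836) (nat_lit 0) (XT.nd (nat_lit 234) (nat_lit 608) (nat_lit 0) (XT.nd (nat_lit 78) (nat_lit 304) (nat_lit 0) (XT.lf (nat_lit 0) (nat_lit 328254041400) (nat_lit 456) (nat_lit 963042495933) (nat_lit 532) (nat_lit 182059756974) (nat_lit 41) (nat_lit 5) (nat_lit 47) (nat_lit 5) (nat_lit 48) (nat_lit 5) (nat_lit 264) (nat_lit 260) (nat_lit 136)) (XT.nd (nat_lit 78) (nat_lit 0) (nat_lit 0) (XT.lf (nat_lit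 0) (nat_lit 40082214096) (nat_lit 304) (nat_lit 1421604675424) (nat_lit 76) (nat_lit 134299398186) (nat_lit 37) (nat_lit 5) (nat_lit 41) (nat_lit 5) (nat_lit 38) (nat_lit 5) (nat_lit 265) (nat_lit 260) (nat_lit 135)) (XT.lf (nat_lit 0) (nat_lit 345911726853) (nat_lit 304) (nat_lit 5748376606) (nat_lit 76) (nat_lit 1380080673472) (nat_lit 37) (nat_lit 5) (nat_lit 41) (nat_lit 5) (nat_lit 38) (nat_lit 5) (nat_lit 266) (nat_lit 260) (nat_lit 134)))) (XT.nd (nat_lit 78) (nat_lit 380) (nat_lit 0) (XT.lf (nat_lit 0) (nat_lit 762001323112) (nat_lit 304) (nat_lit 199958839361) (nat_lit 76) (nat_lit 920747424565) (nat_lit 34) (nat_lit 5) (nat_lit 38) (nat_lit 5) (nat_lit 35) (nat_lit 5) (nat_lit 267) (nat_lit 260) (nat_lit 133)) (XT.nd (nat_lit 78) (nat_lit 152) (nat_lit 0) (XT.lf (nat_lit 0) (nat_lit 1298308999480) (nat_lit 304) (nat_lit 419895815383) (nat_lit 76) (nat_lit 333490232564) (nat_lit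 31) (nat_lit 5) (nat_lit 35) (nat_lit 5) (nat_lit 32) (nat_lit 5) (nat_lit 268) (nat_lit 260) (nat_lit 132)) (XT.lf (nat_lit 0) (nat_lit 1555942921789) (nat_lit 152) (nat_lit 429118599431) (nat_lit 228) (nat_lit 255369210161) (nat_lit 29) (nat_lit 5) (nat_lit 31) (nat_lit 5) (nat_lit 32) (nat_lit 5) (nat_lit 269) (nat_lit 260) (nat_lit 131))))) (XT.nd (nat_lit 234) (nat_lit 304) (nat_lit 0) (XT.nd (nat_lit 78) (nat_lit 304) (nat_lit 0) (XT.lf (nat_lit 0) (nat_lit 375955457656) (nat_lit 228) (nat_lit 1017533501420) (nat_lit 76) (nat_lit 1057418791016) (nat_lit 26) (nat_lit 5) (nat_lit 29) (nat_lit 5) (nat_lit 27) (nat_lit 5) (nat_lit 270) (nat_lit 260) (nat_lit 130)) (XT.nd (nat_lit 78) (nat_lit 152) (nat_lit 0) (XT.lf (nat_lit 0) (nat_lit 1152682277029) (nat_lit 228) (nat_lit 1427366715435) (nat_lit 76) (nat_lit 107110759172) (nat_lit 24) (nat_lit 5) (nat_lit 27) (nat_lit 5) (nat_lit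 25) (nat_lit 5) (nat_lit 271) (nat_lit 260) (nat_lit 129)) (XT.lf (nat_lit 0) (nat_lit 994285969015) (nat_lit 152) (nat_lit 1144479063642) (nat_lit 228) (nat_lit 812656767695) (nat_lit 22) (nat_lit 5) (nat_lit 24) (nat_lit 5) (nat_lit 25) (nat_lit 5) (nat_lit 272) (nat_lit 260) (nat_lit 128)))) (XT.nd (nat_lit 78) (nat_lit 152) (nat_lit 0) (XT.lf (nat_lit 0) (nat_lit 88397655436) (nat_lit 152) (nat_lit 2619979784520) (nat_lit 76) (nat_lit 541165536976) (nat_lit 20) (nat_lit 5) (nat_lit 22) (nat_lit 5) (nat_lit 21) (nat_lit 5) (nat_lit 273) (nat_lit 260) (nat_lit 127)) (XT.nd (nat_lit 78) (nat_lit 0) (nat_lit 0) (XT.lf (nat_lit 0) (nat_lit 83530313732) (nat_lit 152) (nat_lit 1086451952392) (nat_lit 228) (nat_lit 2413232196577) (nat_lit 18) (nat_lit 5) (nat_lit 20) (nat_lit 5) (nat_lit 21) (nat_lit 5) (nat_lit 274) (nat_lit 260) (nat_lit 126)) (XT.lf (nat_lit 0) (nat_lit 2510792954098)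 (nat_lit 228) (nat_lit 630320001199) (nat_lit 76) (nat_lit 818064645190) (nat_lit 18) (nat_lit 5) (nat_lit 21) (nat_lit 5) (nat_lit 19) (nat_lit 4) (nat_lit 275) (nat_lit 260) (nat_lit 125))))))))
noncomputable def xc61 : XT := (XT.nd (nat_lit 67782) (nat_lit 0) (nat_lit 76) (XT.nd (nat_lit 33852) (nat_lit 0) (nat_lit 0) (XT.nd (nat_lit 33384) (nat_lit 0) (nat_lit 1596) (XT.nd (nat_lit 234) (nat_lit 0) (nat_lit 0) (XT.nd (nat_lit 78) (nat_lit 304) (nat_lit 0) (XT.lf (nat_lit 0) (nat_lit 2778386324293) (nat_lit 76) (nat_lit 1371207750177) (nat_lit 152) (nat_lit 234191628141) (nat_lit 17) (nat_lit 5) (nat_lit 18) (nat_lit 5) (nat_lit 19) (nat_lit 4) (nat_lit 276) (nat_lit 260) (nat_lit 124)) (XT.nd (nat_lit 78) (nat_lit 76) (nat_lit 0) (XT.lf (nat_lit 0) (nat_lit 1187740171487) (nat_lit 228) (nat_lit 2948731327426) (nat_lit 76) (nat_lit 726678036525) (nat_lit 14) (nat_lit 5) (nat_lit 17)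 (nat_lit 5) (nat_lit 15) (nat_lit 4) (nat_lit 277) (nat_lit 260) (nat_lit 123)) (XT.lf (nat_lit 0) (nat_lit 634892242172) (nat_lit 76) (nat_lit 2275743877880) (nat_lit 152) (nat_lit 2495171900245) (nat_lit 13) (nat_lit 5) (nat_lit 14) (nat_lit 5) (nat_lit 15) (nat_lit 4) (nat_lit 278) (nat_lit 260) (nat_lit 122)))) (XT.nd (nat_lit 32994) (nat_lit 0) (nat_lit 2356) (XT.lf (nat_lit 0) (nat_lit 4934625553296) (nat_lit 76) (nat_lit 43190044687) (nat_lit 152) (nat_lit 1045181748940) (nat_lit 13) (nat_lit 5) (nat_lit 14) (nat_lit 5) (nat_lit 15) (nat_lit 4) (nat_lit 279) (nat_lit 260) (nat_lit 121)) (XT.nd (nat_lit 78) (nat_lit 0) (nat_lit 76) (XT.lf (nat_lit 0) (nat_lit 376439784285) (nat_lit 532) (nat_lit 126506965035) (nat_lit 532) (nat_lit 126506965035) (nat_lit 44) (nat_lit 3) (nat_lit 51) (nat_lit 3) (nat_lit 51) (nat_lit 5) (nat_lit 261) (nat_lit 261) (nat_lit 138)) (XT.lf (nat_lit 0)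 (nat_lit 830792408535) (nat_lit 456) (nat_lit 491506882836) (nat_lit 532) (nat_lit 29310444488) (nat_lit 45) (nat_lit 5) (nat_lit 51) (nat_lit 5) (nat_lit 52) (nat_lit 5) (nat_lit 262) (nat_lit 261) (nat_lit 137))))) (XT.nd (nat_lit 234) (nat_lit 532) (nat_lit 0) (XT.nd (nat_lit 78) (nat_lit 304) (nat_lit 0) (XT.lf (nat_lit 76) (nat_lit 705143063727) (nat_lit 0) (nat_lit 267585892511) (nat_lit 532) (nat_lit 481301490338) (nat_lit 46) (nat_lit 5) (nat_lit 45) (nat_lit 5) (nat_lit 52) (nat_lit 5) (nat_lit 263) (nat_lit 261) (nat_lit 136)) (XT.nd (nat_lit 78) (nat_lit 380) (nat_lit 0) (XT.lf (nat_lit 76) (nat_lit 544517122793) (nat_lit 0) (nat_lit 641951194856) (nat_lit 532) (nat_lit 381304959765) (nat_lit 47) (nat_lit 5) (nat_lit 46) (nat_lit 5) (nat_lit 53) (nat_lit 5) (nat_lit 264) (nat_lit 261) (nat_lit 135)) (XT.lf (nat_lit 0) (nat_lit 377492243288) (nat_lit 456) (nat_lit 1107498877898)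 (nat_lit 532) (nat_lit 209368608685) (nat_lit 41) (nat_lit 5) (nat_lit 47) (nat_lit 5) (nat_lit 48) (nat_lit 5) (nat_lit 265) (nat_lit 261) (nat_lit 134)))) (XT.nd (nat_lit 78) (nat_lit 228) (nat_lit 0) (XT.lf (nat_lit 0) (nat_lit 46094640789) (nat_lit 304) (nat_lit 1634845275898) (nat_lit 76) (nat_lit 154444306350) (nat_lit 37) (nat_lit 5) (nat_lit 41) (nat_lit 5) (nat_lit 38) (nat_lit 5) (nat_lit 266) (nat_lit 261) (nat_lit 133)) (XT.nd (nat_lit 78) (nat_lit 228) (nat_lit 0) (XT.lf (nat_lit 0) (nat_lit 397798568123) (nat_lit 304) (nat_lit 6610545411) (nat_lit 76) (nat_lit 1587092773133) (nat_lit 37) (nat_lit 5) (nat_lit 41) (nat_lit 5) (nat_lit 38) (nat_lit 5) (nat_lit 267) (nat_lit 261) (nat_lit 132)) (XT.lf (nat_lit 0) (nat_lit 876301595189) (nat_lit 304) (nat_lit 229952579093) (nat_lit 76) (nat_lit 1058859544728) (nat_lit 34) (nat_lit 5) (nat_lit 38) (nat_lit 5) (nat_lit 35) (nat_lit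 5) (nat_lit 268) (nat_lit 261) (nat_lit 131)))))) (XT.nd (nat_lit 468) (nat_lit 532) (nat_lit 0) (XT.nd (nat_lit 234) (nat_lit 456) (nat_lit 0) (XT.nd (nat_lit 78) (nat_lit 380) (nat_lit 0) (XT.lf (nat_lit 0) (nat_lit 1493055415620) (nat_lit 304) (nat_lit 482880103683) (nat_lit 76) (nat_lit 383513779772) (nat_lit 31) (nat_lit 5) (nat_lit 35) (nat_lit 5) (nat_lit 32) (nat_lit 5) (nat_lit 269) (nat_lit 261) (nat_lit 130)) (XT.nd (nat_lit 78) (nat_lit 228) (nat_lit 0) (XT.lf (nat_lit 0) (nat_lit 1789334436955) (nat_lit 152) (nat_lit 493486371878) (nat_lit 228) (nat_lit 293674527354) (nat_lit 29) (nat_lit 5) (nat_lit 31) (nat_lit 5) (nat_lit 32) (nat_lit 5) (nat_lit 270) (nat_lit 261) (nat_lit 129)) (XT.lf (nat_lit 0) (nat_lit 432348831660) (nat_lit 228) (nat_lit 1170163449108) (nat_lit 76) (nat_lit 1216031627291) (nat_lit 26) (nat_lit 5) (nat_lit 29) (nat_lit 5) (nat_lit 27) (nat_lit 5)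 (nat_lit 271) (nat_lit 261) (nat_lit 128)))) (XT.nd (nat_lit 78) (nat_lit 304) (nat_lit 0) (XT.lf (nat_lit 0) (nat_lit 1325584668933) (nat_lit 228) (nat_lit 1641471648204) (nat_lit 76) (nat_lit 123177393112) (nat_lit 24) (nat_lit 5) (nat_lit 27) (nat_lit 5) (nat_lit 25) (nat_lit 5) (nat_lit 272) (nat_lit 261) (nat_lit 127)) (XT.nd (nat_lit 78) (nat_lit 152) (nat_lit 0) (XT.lf (nat_lit 0) (nat_lit 1143428932604) (nat_lit 152) (nat_lit 1316150900376) (nat_lit 228) (nat_lit 934555233702) (nat_lit 22) (nat_lit 5) (nat_lit 24) (nat_lit 5) (nat_lit 25) (nat_lit 5) (nat_lit 273) (nat_lit 261) (nat_lit 126)) (XT.lf (nat_lit 0) (nat_lit 101657346453) (nat_lit 152) (nat_lit 3012976684511) (nat_lit 76) (nat_lit 622340389020) (nat_lit 20) (nat_lit 5) (nat_lit 22) (nat_lit 5) (nat_lit 21) (nat_lit 5) (nat_lit 274) (nat_lit 261) (nat_lit 125))))) (XT.nd (nat_lit 234) (nat_lit 304) (nat_lit 0) (XT.nd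 (nat_lit 78) (nat_lit 76) (nat_lit 0) (XT.lf (nat_lit 0) (nat_lit 96059922749) (nat_lit 152) (nat_lit 1249419721915) (nat_lit 228) (nat_lit 2775216984290) (nat_lit 18) (nat_lit 5) (nat_lit 20) (nat_lit 5) (nat_lit 21) (nat_lit 5) (nat_lit 275) (nat_lit 261) (nat_lit 124)) (XT.nd (nat_lit 78) (nat_lit 76) (nat_lit 0) (XT.lf (nat_lit 0) (nat_lit 2887411931285) (nat_lit 228) (nat_lit 724867945249) (nat_lit 76) (nat_lit 940774361246) (nat_lit 18) (nat_lit 5) (nat_lit 21) (nat_lit 5) (nat_lit 19) (nat_lit 4) (nat_lit 276) (nat_lit 261) (nat_lit 123)) (XT.lf (nat_lit 0) (nat_lit 3195144324315) (nat_lit 76) (nat_lit 1576888892189) (nat_lit 152) (nat_lit 269320338982) (nat_lit 17) (nat_lit 5) (nat_lit 18) (nat_lit 5) (nat_lit 19) (nat_lit 4) (nat_lit 277) (nat_lit 261) (nat_lit 122)))) (XT.nd (nat_lit 78) (nat_lit 76) (nat_lit 0) (XT.lf (nat_lit 0) (nat_lit 1365901226431) (nat_lit 228) (nat_lit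 3391040976081) (nat_lit 76) (nat_lit 835679760866) (nat_lit 14) (nat_lit 5) (nat_lit 17) (nat_lit 5) (nat_lit 15) (nat_lit 4) (nat_lit 278) (nat_lit 261) (nat_lit 121)) (XT.nd (nat_lit 33072) (nat_lit 0) (nat_lit 2356) (XT.lf (nat_lit 0) (nat_lit 730126124686) (nat_lit 76) (nat_lit 2617105439895) (nat_lit 152) (nat_lit 2869447656607) (nat_lit 13) (nat_lit 5) (nat_lit 14) (nat_lit 5) (nat_lit 15) (nat_lit 4) (nat_lit 279) (nat_lit 261) (nat_lit 120)) (XT.lf (nat_lit 0) (nat_lit 432905816895) (nat_lit 532) (nat_lit 145482974602) (nat_lit 532) (nat_lit 145482974602) (nat_lit 44) (nat_lit 3) (nat_lit 51) (nat_lit 3) (nat_lit 51) (nat_lit 5) (nat_lit 262) (nat_lit 262) (nat_lit 136))))))) (XT.nd (nat_lit 936) (nat_lit 608) (nat_lit 0) (XT.nd (nat_lit 468) (nat_lit 1140) (nat_lit 0) (XT.nd (nat_lit 234) (nat_lit 608) (nat_lit 0) (XT.nd (nat_lit 78) (nat_lit 0) (nat_lit 0) (XT.lf (nat_lit 0)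 (nat_lit 955411383145) (nat_lit 456) (nat_lit 565232840105) (nat_lit 532) (nat_lit 33706963552) (nat_lit 45) (nat_lit 5) (nat_lit 51) (nat_lit 5) (nat_lit 52) (nat_lit 5) (nat_lit 263) (nat_lit 262) (nat_lit 135)) (XT.nd (nat_lit 78) (nat_lit 0) (nat_lit 76) (XT.lf (nat_lit 76) (nat_lit 810914592082) (nat_lit 0) (nat_lit 307723807795) (nat_lit 532) (nat_lit 553496605349) (nat_lit 46) (nat_lit 5) (nat_lit 45) (nat_lit 5) (nat_lit 52) (nat_lit 5) (nat_lit 264) (nat_lit 262) (nat_lit 134)) (XT.lf (nat_lit 76) (nat_lit 626194762507) (nat_lit 0) (nat_lit 738243890980) (nat_lit 532) (nat_lit 438500608204) (nat_lit 47) (nat_lit 5) (nat_lit 46) (nat_lit 5) (nat_lit 53) (nat_lit 5) (nat_lit 265) (nat_lit 262) (nat_lit 133)))) (XT.nd (nat_lit 78) (nat_lit 304) (nat_lit 0) (XT.lf (nat_lit 0) (nat_lit 434116152127) (nat_lit 456) (nat_lit 1273623715310) (nat_lit 532) (nat_lit 240773815426) (nat_lit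 41) (nat_lit 5) (nat_lit 47) (nat_lit 5) (nat_lit 48) (nat_lit 5) (nat_lit 266) (nat_lit 262) (nat_lit 132)) (XT.nd (nat_lit 78) (nat_lit 0) (nat_lit 0) (XT.lf (nat_lit 0) (nat_lit 53008908423) (nat_lit 304) (nat_lit 1880071991033) (nat_lit 76) (nat_lit 177610951120) (nat_lit 37) (nat_lit 5) (nat_lit 41) (nat_lit 5) (nat_lit 38) (nat_lit 5) (nat_lit 267) (nat_lit 262) (nat_lit 131)) (XT.lf (nat_lit 0) (nat_lit 457468415529) (nat_lit 304) (nat_lit 7602060919) (nat_lit 76) (nat_lit 1825156688075) (nat_lit 37) (nat_lit 5) (nat_lit 41) (nat_lit 5) (nat_lit 38) (nat_lit 5) (nat_lit 268) (nat_lit 262) (nat_lit 130))))) (XT.nd (nat_lit 234) (nat_lit 532) (nat_lit 0) (XT.nd (nat_lit 78) (nat_lit 380) (nat_lit 0) (XT.lf (nat_lit 0) (nat_lit 1007746890127) (nat_lit 304) (nat_lit 264445400799) (nat_lit 76) (nat_lit 1217688481335) (nat_lit 34) (nat_lit 5) (nat_lit 38) (nat_lit 5) (nat_lit 35) (nat_lit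 5) (nat_lit 269) (nat_lit 262) (nat_lit 129)) (XT.nd (nat_lit 78) (nat_lit 152) (nat_lit 0) (XT.lf (nat_lit 0) (nat_lit 1717013778033) (nat_lit 304) (nat_lit 555312055713) (nat_lit 76) (nat_lit 441040856057) (nat_lit 31) (nat_lit 5) (nat_lit 35) (nat_lit 5) (nat_lit 32) (nat_lit 5) (nat_lit 270) (nat_lit 262) (nat_lit 128)) (XT.lf (nat_lit 0) (nat_lit 2057734660643) (nat_lit 152) (nat_lit 567509314452) (nat_lit 228) (nat_lit 337725657813) (nat_lit 29) (nat_lit 5) (nat_lit 31) (nat_lit 5) (nat_lit 32) (nat_lit 5) (nat_lit 271) (nat_lit 262) (nat_lit 127)))) (XT.nd (nat_lit 78) (nat_lit 304) (nat_lit 0) (XT.lf (nat_lit 0) (nat_lit 497201198265) (nat_lit 228) (nat_lit 1345687907854) (nat_lit 76) (nat_lit 1398436384709) (nat_lit 26) (nat_lit 5) (nat_lit 29) (nat_lit 5) (nat_lit 27) (nat_lit 5) (nat_lit 272) (nat_lit 262) (nat_lit 126)) (XT.nd (nat_lit 78) (nat_lit 152) (nat_lit 0) (XT.lf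 (nat_lit 0) (nat_lit 1524422407344) (nat_lit 228) (nat_lit 1887692339068) (nat_lit 76) (nat_lit 141654017251) (nat_lit 24) (nat_lit 5) (nat_lit 27) (nat_lit 5) (nat_lit 25) (nat_lit 5) (nat_lit 273) (nat_lit 262) (nat_lit 125)) (XT.lf (nat_lit 0) (nat_lit 1314943324090) (nat_lit 152) (nat_lit 1513573518183) (nat_lit 228) (nat_lit 1074738481595) (nat_lit 22) (nat_lit 5) (nat_lit 24) (nat_lit 5) (nat_lit 25) (nat_lit 5) (nat_lit 274) (nat_lit 262) (nat_lit 124)))))) (XT.nd (nat_lit 33540) (nat_lit 0) (nat_lit 1520) (XT.nd (nat_lit 234) (nat_lit 304) (nat_lit 0) (XT.nd (nat_lit 78) (nat_lit 152) (nat_lit 0) (XT.lf (nat_lit 0) (nat_lit 116905980709) (nat_lit 152) (nat_lit 3464923136006) (nat_lit 76) (nat_lit 715691463629) (nat_lit 20) (nat_lit 5) (nat_lit 22) (nat_lit 5) (nat_lit 21) (nat_lit 5) (nat_lit 275) (nat_lit 262) (nat_lit 123)) (XT.nd (nat_lit 78) (nat_lit 0) (nat_lit 0) (XT.lf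 (nat_lit 0) (nat_lit 110468958011) (nat_lit 152) (nat_lit 1436832662557) (nat_lit 228) (nat_lit 3191499500346) (nat_lit 18) (nat_lit 5) (nat_lit 20) (nat_lit 5) (nat_lit 21) (nat_lit 5) (nat_lit 276) (nat_lit 262) (nat_lit 122)) (XT.lf (nat_lit 0) (nat_lit 3320523746741) (nat_lit 228) (nat_lit 833598094594) (nat_lit 76) (nat_lit 1081890530010) (nat_lit 18) (nat_lit 5) (nat_lit 21) (nat_lit 5) (nat_lit 19) (nat_lit 4) (nat_lit 277) (nat_lit 262) (nat_lit 121)))) (XT.nd (nat_lit 78) (nat_lit 228) (nat_lit 0) (XT.lf (nat_lit 0) (nat_lit 3674416011812) (nat_lit 76) (nat_lit 1813422210504) (nat_lit 152) (nat_lit 309718364590) (nat_lit 17) (nat_lit 5) (nat_lit 18) (nat_lit 5) (nat_lit 19) (nat_lit 4) (nat_lit 278) (nat_lit 262) (nat_lit 120)) (XT.nd (nat_lit 33150) (nat_lit 0) (nat_lit 2280) (XT.lf (nat_lit 0) (nat_lit 1570786432491) (nat_lit 228) (nat_lit 3899697084339) (nat_lit 76) (nat_lit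 961031739259) (nat_lit 14) (nat_lit 5) (nat_lit 17) (nat_lit 5) (nat_lit 15) (nat_lit 4) (nat_lit 279) (nat_lit 262) (nat_lit 119)) (XT.lf (nat_lit 0) (nat_lit 497841738554) (nat_lit 532) (nat_lit 167305394185) (nat_lit 532) (nat_lit 167305394185) (nat_lit 44) (nat_lit 3) (nat_lit 51) (nat_lit 3) (nat_lit 51) (nat_lit 5) (nat_lit 263) (nat_lit 263) (nat_lit 134))))) (XT.nd (nat_lit 234) (nat_lit 836) (nat_lit 0) (XT.nd (nat_lit 78) (nat_lit 0) (nat_lit 0) (XT.lf (nat_lit 0) (nat_lit 1098723176311) (nat_lit 456) (nat_lit 650017709291) (nat_lit 532) (nat_lit 38762972086) (nat_lit 45) (nat_lit 5) (nat_lit 51) (nat_lit 5) (nat_lit 52) (nat_lit 5) (nat_lit 264) (nat_lit 263) (nat_lit 133)) (XT.nd (nat_lit 78) (nat_lit 0) (nat_lit 76) (XT.lf (nat_lit 76) (nat_lit 932551832914) (nat_lit 0) (nat_lit 353882402713) (nat_lit 532) (nat_lit 636521014080) (nat_lit 46) (nat_lit 5) (nat_lit 45) (nat_lit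 5) (nat_lit 52) (nat_lit 5) (nat_lit 265) (nat_lit 263) (nat_lit 132)) (XT.lf (nat_lit 76) (nat_lit 720124030793) (nat_lit 0) (nat_lit 848980487402) (nat_lit 532) (nat_lit 504275627204) (nat_lit 47) (nat_lit 5) (nat_lit 46) (nat_lit 5) (nat_lit 53) (nat_lit 5) (nat_lit 266) (nat_lit 263) (nat_lit 131)))) (XT.nd (nat_lit 156) (nat_lit 228) (nat_lit 0) (XT.nd (nat_lit 78) (nat_lit 304) (nat_lit 0) (XT.lf (nat_lit 0) (nat_lit 499233629651) (nat_lit 456) (nat_lit 1464667276938) (nat_lit 532) (nat_lit 276889823798) (nat_lit 41) (nat_lit 5) (nat_lit 47) (nat_lit 5) (nat_lit 48) (nat_lit 5) (nat_lit 267) (nat_lit 263) (nat_lit 130)) (XT.lf (nat_lit 0) (nat_lit 60960298763) (nat_lit 304) (nat_lit 2162082732033) (nat_lit 76) (nat_lit 204252592894) (nat_lit 37) (nat_lit 5) (nat_lit 41) (nat_lit 5) (nat_lit 38) (nat_lit 5) (nat_lit 268) (nat_lit 263) (nat_lit 129))) (XT.nd (nat_lit 78) (nat_lit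 228) (nat_lit 0) (XT.lf (nat_lit 0) (nat_lit 526088724881) (nat_lit 304) (nat_lit 8742319921) (nat_lit 76) (nat_lit 2098930190509) (nat_lit 37) (nat_lit 5) (nat_lit 41) (nat_lit 5) (nat_lit 38) (nat_lit 5) (nat_lit 269) (nat_lit 263) (nat_lit 128)) (XT.lf (nat_lit 0) (nat_lit 1158908965732) (nat_lit 304) (nat_lit 304112161650) (nat_lit 76) (nat_lit 1400341757239) (nat_lit 34) (nat_lit 5) (nat_lit 38) (nat_lit 5) (nat_lit 35) (nat_lit 5) (nat_lit 270) (nat_lit 263) (nat_lit 127))))))))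
noncomputable def xc62 : XT := (XT.nd (nat_lit 68406) (nat_lit 0) (nat_lit 152) (XT.nd (nat_lit 34164) (nat_lit 0) (nat_lit 0) (XT.nd (nat_lit 468) (nat_lit 152) (nat_lit 0) (XT.nd (nat_lit 234) (nat_lit 456) (nat_lit 0) (XT.nd (nat_lit 78) (nat_lit 380) (nat_lit 0) (XT.lf (nat_lit 0) (nat_lit 1974565882598) (nat_lit 304) (nat_lit 638608816038) (nat_lit 76) (nat_lit 507196991511) (nat_lit 31) (nat_lit 5) (nat_lit 35) (nat_lit 5) (nat_lit 32) (nat_lit 5) (nat_lit 271) (nat_lit 263) (nat_lit 126)) (XT.nd (nat_lit 78) (nat_lit 228) (nat_lit 0) (XT.lf (nat_lit 0) (nat_lit 2366394903706) (nat_lit 152) (nat_lit 652635701633) (nat_lit 228) (nat_lit 388384469703) (nat_lit 29) (nat_lit 5) (nat_lit 31) (nat_lit 5) (nat_lit 32) (nat_lit 5) (nat_lit 272) (nat_lit 263) (nat_lit 125)) (XT.lf (nat_lit 0) (nat_lit 571781409655) (nat_lit 228) (nat_lit 1547541049708) (nat_lit 76) (nat_lit 1608201852491)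 (nat_lit 26) (nat_lit 5) (nat_lit 29) (nat_lit 5) (nat_lit 27) (nat_lit 5) (nat_lit 273) (nat_lit 263) (nat_lit 124)))) (XT.nd (nat_lit 78) (nat_lit 304) (nat_lit 0) (XT.lf (nat_lit 0) (nat_lit 1753085797233) (nat_lit 228) (nat_lit 2170846147306) (nat_lit 76) (nat_lit 162902131310) (nat_lit 24) (nat_lit 5) (nat_lit 27) (nat_lit 5) (nat_lit 25) (nat_lit 5) (nat_lit 274) (nat_lit 263) (nat_lit 123)) (XT.nd (nat_lit 78) (nat_lit 152) (nat_lit 0) (XT.lf (nat_lit 0) (nat_lit 1512184861718) (nat_lit 152) (nat_lit 1740609532867) (nat_lit 228) (nat_lit 1235949225735) (nat_lit 22) (nat_lit 5) (nat_lit 24) (nat_lit 5) (nat_lit 25) (nat_lit 5) (nat_lit 275) (nat_lit 263) (nat_lit 122)) (XT.lf (nat_lit 0) (nat_lit 134441902230) (nat_lit 152) (nat_lit 3984661567707) (nat_lit 76) (nat_lit 823045195465) (nat_lit 20) (nat_lit 5) (nat_lit 22) (nat_lit 5) (nat_lit 21) (nat_lit 5) (nat_lit 276) (nat_lit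 263) (nat_lit 121))))) (XT.nd (nat_lit 33462) (nat_lit 0) (nat_lit 2052) (XT.nd (nat_lit 78) (nat_lit 0) (nat_lit 0) (XT.lf (nat_lit 0) (nat_lit 127039337137) (nat_lit 152) (nat_lit 1652357548597) (nat_lit 228) (nat_lit 3670224401513) (nat_lit 18) (nat_lit 5) (nat_lit 20) (nat_lit 5) (nat_lit 21) (nat_lit 5) (nat_lit 277) (nat_lit 263) (nat_lit 120)) (XT.nd (nat_lit 33306) (nat_lit 0) (nat_lit 1976) (XT.lf (nat_lit 0) (nat_lit 3818602328233) (nat_lit 228) (nat_lit 958637776691) (nat_lit 76) (nat_lit 1244174120533) (nat_lit 18) (nat_lit 5) (nat_lit 21) (nat_lit 5) (nat_lit 19) (nat_lit 4) (nat_lit 278) (nat_lit 263) (nat_lit 119)) (XT.lf (nat_lit 0) (nat_lit 572518036482) (nat_lit 532) (nat_lit 192401183194) (nat_lit 532) (nat_lit 192401183194) (nat_lit 44) (nat_lit 3) (nat_lit 51) (nat_lit 3) (nat_lit 51) (nat_lit 5) (nat_lit 264) (nat_lit 264) (nat_lit 132)))) (XT.nd (nat_lit 78) (nat_lit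 0) (nat_lit 0) (XT.lf (nat_lit 0) (nat_lit 1263531717555) (nat_lit 456) (nat_lit 747520322713) (nat_lit 532) (nat_lit 44577390679) (nat_lit 45) (nat_lit 5) (nat_lit 51) (nat_lit 5) (nat_lit 52) (nat_lit 5) (nat_lit 265) (nat_lit 264) (nat_lit 131)) (XT.nd (nat_lit 78) (nat_lit 0) (nat_lit 76) (XT.lf (nat_lit 76) (nat_lit 1072434647185) (nat_lit 0) (nat_lit 406964781077) (nat_lit 532) (nat_lit 731999104134) (nat_lit 46) (nat_lit 5) (nat_lit 45) (nat_lit 5) (nat_lit 52) (nat_lit 5) (nat_lit 266) (nat_lit 264) (nat_lit 130)) (XT.lf (nat_lit 76) (nat_lit 828142676175) (nat_lit 0) (nat_lit 976327570172) (nat_lit 532) (nat_lit 579916916668) (nat_lit 47) (nat_lit 5) (nat_lit 46) (nat_lit 5) (nat_lit 53) (nat_lit 5) (nat_lit 267) (nat_lit 264) (nat_lit 129)))))) (XT.nd (nat_lit 468) (nat_lit 836) (nat_lit 0) (XT.nd (nat_lit 234) (nat_lit 608) (nat_lit 0) (XT.nd (nat_lit 78) (nat_lit 304) (nat_lit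 0) (XT.lf (nat_lit 0) (nat_lit 574118715462) (nat_lit 456) (nat_lit 1684367371754) (nat_lit 532) (nat_lit 318423249019) (nat_lit 41) (nat_lit 5) (nat_lit 47) (nat_lit 5) (nat_lit 48) (nat_lit 5) (nat_lit 268) (nat_lit 264) (nat_lit 128)) (XT.nd (nat_lit 78) (nat_lit 0) (nat_lit 0) (XT.lf (nat_lit 0) (nat_lit 70104384466) (nat_lit 304) (nat_lit 2486395098242) (nat_lit 76) (nat_lit 234890481151) (nat_lit 37) (nat_lit 5) (nat_lit 41) (nat_lit 5) (nat_lit 38) (nat_lit 5) (nat_lit 269) (nat_lit 264) (nat_lit 127)) (XT.lf (nat_lit 0) (nat_lit 605002069169) (nat_lit 304) (nat_lit 10053630000) (nat_lit 76) (nat_lit 2413769718497) (nat_lit 37) (nat_lit 5) (nat_lit 41) (nat_lit 5) (nat_lit 38) (nat_lit 5) (nat_lit 270) (nat_lit 264) (nat_lit 126)))) (XT.nd (nat_lit 78) (nat_lit 380) (nat_lit 0) (XT.lf (nat_lit 0) (nat_lit 1332745342416) (nat_lit 304) (nat_lit 349728948644) (nat_lit 76) (nat_lit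 1610393023626) (nat_lit 34) (nat_lit 5) (nat_lit 38) (nat_lit 5) (nat_lit 35) (nat_lit 5) (nat_lit 271) (nat_lit 264) (nat_lit 125)) (XT.nd (nat_lit 78) (nat_lit 152) (nat_lit 0) (XT.lf (nat_lit 0) (nat_lit 2270750793615) (nat_lit 304) (nat_lit 734400102125) (nat_lit 76) (nat_lit 583276545565) (nat_lit 31) (nat_lit 5) (nat_lit 35) (nat_lit 5) (nat_lit 32) (nat_lit 5) (nat_lit 272) (nat_lit 264) (nat_lit 124)) (XT.lf (nat_lit 0) (nat_lit 2721354172507) (nat_lit 152) (nat_lit 750531049326) (nat_lit 228) (nat_lit 446642112346) (nat_lit 29) (nat_lit 5) (nat_lit 31) (nat_lit 5) (nat_lit 32) (nat_lit 5) (nat_lit 273) (nat_lit 264) (nat_lit 123))))) (XT.nd (nat_lit 234) (nat_lit 304) (nat_lit 0) (XT.nd (nat_lit 78) (nat_lit 304) (nat_lit 0) (XT.lf (nat_lit 0) (nat_lit 657548645035) (nat_lit 228) (nat_lit 1779672173648) (nat_lit 76) (nat_lit 1849432137984) (nat_lit 26) (nat_lit 5) (nat_lit 29)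 (nat_lit 5) (nat_lit 27) (nat_lit 5) (nat_lit 274) (nat_lit 264) (nat_lit 122)) (XT.nd (nat_lit 78) (nat_lit 152) (nat_lit 0) (XT.lf (nat_lit 0) (nat_lit 2016048688586) (nat_lit 228) (nat_lit 2496473037174) (nat_lit 76) (nat_lit 187337459682) (nat_lit 24) (nat_lit 5) (nat_lit 27) (nat_lit 5) (nat_lit 25) (nat_lit 5) (nat_lit 275) (nat_lit 264) (nat_lit 121)) (XT.lf (nat_lit 0) (nat_lit 1739012620476) (nat_lit 152) (nat_lit 2001700952935) (nat_lit 228) (nat_lit 1421341588347) (nat_lit 22) (nat_lit 5) (nat_lit 24) (nat_lit 5) (nat_lit 25) (nat_lit 5) (nat_lit 276) (nat_lit 264) (nat_lit 120)))) (XT.nd (nat_lit 78) (nat_lit 152) (nat_lit 0) (XT.lf (nat_lit 0) (nat_lit 154608206026) (nat_lit 152) (nat_lit 4582360773600) (nat_lit 76) (nat_lit 946501984078) (nat_lit 20) (nat_lit 5) (nat_lit 22) (nat_lit 5) (nat_lit 21) (nat_lit 5) (nat_lit 277) (nat_lit 264) (nat_lit 119)) (XT.nd (nat_lit 33384)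 (nat_lit 0) (nat_lit 1976) (XT.lf (nat_lit 0) (nat_lit 146095264494) (nat_lit 152) (nat_lit 1900211170798) (nat_lit 228) (nat_lit 4220758043680) (nat_lit 18) (nat_lit 5) (nat_lit 20) (nat_lit 5) (nat_lit 21) (nat_lit 5) (nat_lit 278) (nat_lit 264) (nat_lit 118)) (XT.lf (nat_lit 0) (nat_lit 658395770042) (nat_lit 532) (nat_lit 221261345460) (nat_lit 532) (nat_lit 221261345460) (nat_lit 44) (nat_lit 3) (nat_lit 51) (nat_lit 3) (nat_lit 51) (nat_lit 5) (nat_lit 265) (nat_lit 265) (nat_lit 130))))))) (XT.nd (nat_lit 936) (nat_lit 152) (nat_lit 0) (XT.nd (nat_lit 468) (nat_lit 1140) (nat_lit 0) (XT.nd (nat_lit 234) (nat_lit 608) (nat_lit 0) (XT.nd (nat_lit 78) (nat_lit 0) (nat_lit 0) (XT.lf (nat_lit 0) (nat_lit 1453061524184) (nat_lit 456) (nat_lit 859648338628) (nat_lit 532) (nat_lit 51263978698) (nat_lit 45) (nat_lit 5) (nat_lit 51) (nat_lit 5) (nat_lit 52) (nat_lit 5) (nat_lit 266) (nat_lit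 265) (nat_lit 129)) (XT.nd (nat_lit 78) (nat_lit 0) (nat_lit 76) (XT.lf (nat_lit 76) (nat_lit 1233299874005) (nat_lit 0) (nat_lit 468009511817) (nat_lit 532) (nat_lit 841798922829) (nat_lit 46) (nat_lit 5) (nat_lit 45) (nat_lit 5) (nat_lit 52) (nat_lit 5) (nat_lit 267) (nat_lit 265) (nat_lit 128)) (XT.lf (nat_lit 76) (nat_lit 952364108424) (nat_lit 0) (nat_lit 1122776713002) (nat_lit 532) (nat_lit 666904412870) (nat_lit 47) (nat_lit 5) (nat_lit 46) (nat_lit 5) (nat_lit 53) (nat_lit 5) (nat_lit 268) (nat_lit 265) (nat_lit 127)))) (XT.nd (nat_lit 78) (nat_lit 304) (nat_lit 0) (XT.lf (nat_lit 0) (nat_lit 660236554059) (nat_lit 456) (nat_lit 1937022479994) (nat_lit 532) (nat_lit 366186699813) (nat_lit 41) (nat_lit 5) (nat_lit 47) (nat_lit 5) (nat_lit 48) (nat_lit 5) (nat_lit 269) (nat_lit 265) (nat_lit 126)) (XT.nd (nat_lit 78) (nat_lit 0) (nat_lit 0) (XT.lf (nat_lit 0) (nat_lit 80620073054)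 (nat_lit 304) (nat_lit 2859354330014) (nat_lit 76) (nat_lit 270124052813) (nat_lit 37) (nat_lit 5) (nat_lit 41) (nat_lit 5) (nat_lit 38) (nat_lit 5) (nat_lit 270) (nat_lit 265) (nat_lit 125)) (XT.lf (nat_lit 0) (nat_lit 695752406429) (nat_lit 304) (nat_lit 11561645836) (nat_lit 76) (nat_lit 2775835175827) (nat_lit 37) (nat_lit 5) (nat_lit 41) (nat_lit 5) (nat_lit 38) (nat_lit 5) (nat_lit 271) (nat_lit 265) (nat_lit 124))))) (XT.nd (nat_lit 234) (nat_lit 532) (nat_lit 0) (XT.nd (nat_lit 78) (nat_lit 380) (nat_lit 0) (XT.lf (nat_lit 0) (nat_lit 1532657167841) (nat_lit 304) (nat_lit 402188262771) (nat_lit 76) (nat_lit 1851951979287) (nat_lit 34) (nat_lit 5) (nat_lit 38) (nat_lit 5) (nat_lit 35) (nat_lit 5) (nat_lit 272) (nat_lit 265) (nat_lit 123)) (XT.nd (nat_lit 78) (nat_lit 152) (nat_lit 0) (XT.lf (nat_lit 0) (nat_lit 2611363434304) (nat_lit 304) (nat_lit 844560089982) (nat_lit 76) (nat_lit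 670768031429) (nat_lit 31) (nat_lit 5) (nat_lit 35) (nat_lit 5) (nat_lit 32) (nat_lit 5) (nat_lit 273) (nat_lit 265) (nat_lit 122)) (XT.lf (nat_lit 0) (nat_lit 3129557323521) (nat_lit 152) (nat_lit 863110701015) (nat_lit 228) (nat_lit 513638408167) (nat_lit 29) (nat_lit 5) (nat_lit 31) (nat_lit 5) (nat_lit 32) (nat_lit 5) (nat_lit 274) (nat_lit 265) (nat_lit 121)))) (XT.nd (nat_lit 78) (nat_lit 304) (nat_lit 0) (XT.lf (nat_lit 0) (nat_lit 756180959886) (nat_lit 228) (nat_lit 2046622974352) (nat_lit 76) (nat_lit 2126846964442) (nat_lit 26) (nat_lit 5) (nat_lit 29) (nat_lit 5) (nat_lit 27) (nat_lit 5) (nat_lit 275) (nat_lit 265) (nat_lit 120)) (XT.nd (nat_lit 78) (nat_lit 152) (nat_lit 0) (XT.lf (nat_lit 0) (nat_lit 2318456008333) (nat_lit 228) (nat_lit 2870943968381) (nat_lit 76) (nat_lit 215438085193) (nat_lit 24) (nat_lit 5) (nat_lit 27) (nat_lit 5) (nat_lit 25) (nat_lit 5) (nat_lit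 276) (nat_lit 265) (nat_lit 119)) (XT.lf (nat_lit 0) (nat_lit 1999864535853) (nat_lit 152) (nat_lit 2301956088417) (nat_lit 228) (nat_lit 1634542810533) (nat_lit 22) (nat_lit 5) (nat_lit 24) (nat_lit 5) (nat_lit 25) (nat_lit 5) (nat_lit 277) (nat_lit 265) (nat_lit 118)))))) (XT.nd (nat_lit 33852) (nat_lit 0) (nat_lit 456) (XT.nd (nat_lit 33618) (nat_lit 0) (nat_lit 1596) (XT.nd (nat_lit 33462) (nat_lit 0) (nat_lit 1824) (XT.lf (nat_lit 0) (nat_lit 177799450889) (nat_lit 152) (nat_lit 5269714867513) (nat_lit 76) (nat_lit 1088477288718) (nat_lit 20) (nat_lit 5) (nat_lit 22) (nat_lit 5) (nat_lit 21) (nat_lit 5) (nat_lit 278) (nat_lit 265) (nat_lit 117)) (XT.nd (nat_lit 78) (nat_lit 0) (nat_lit 76) (XT.lf (nat_lit 0) (nat_lit 757155156786) (nat_lit 532) (nat_lit 254450535776) (nat_lit 532) (nat_lit 254450535776) (nat_lit 44) (nat_lit 3) (nat_lit 51) (nat_lit 3) (nat_lit 51) (nat_lit 5) (nat_lit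 266) (nat_lit 266) (nat_lit 128)) (XT.lf (nat_lit 0) (nat_lit 1671020789859) (nat_lit 456) (nat_lit 988595564853) (nat_lit 532) (nat_lit 58953559939) (nat_lit 45) (nat_lit 5) (nat_lit 51) (nat_lit 5) (nat_lit 52) (nat_lit 5) (nat_lit 267) (nat_lit 266) (nat_lit 127)))) (XT.nd (nat_lit 78) (nat_lit 304) (nat_lit 0) (XT.lf (nat_lit 76) (nat_lit 1418294877595) (nat_lit 0) (nat_lit 538210948857) (nat_lit 532) (nat_lit 968068725771) (nat_lit 46) (nat_lit 5) (nat_lit 45) (nat_lit 5) (nat_lit 52) (nat_lit 5) (nat_lit 268) (nat_lit 266) (nat_lit 126)) (XT.nd (nat_lit 78) (nat_lit 380) (nat_lit 0) (XT.lf (nat_lit 76) (nat_lit 1095218747995) (nat_lit 0) (nat_lit 1291193225476) (nat_lit 532) (nat_lit 766940043574) (nat_lit 47) (nat_lit 5) (nat_lit 46) (nat_lit 5) (nat_lit 53) (nat_lit 5) (nat_lit 269) (nat_lit 266) (nat_lit 125)) (XT.lf (nat_lit 0) (nat_lit 759272060818) (nat_lit 456) (nat_lit 2227575853865)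 (nat_lit 532) (nat_lit 421114677141) (nat_lit 41) (nat_lit 5) (nat_lit 47) (nat_lit 5) (nat_lit 48) (nat_lit 5) (nat_lit 270) (nat_lit 266) (nat_lit 124))))) (XT.nd (nat_lit 234) (nat_lit 608) (nat_lit 0) (XT.nd (nat_lit 78) (nat_lit 228) (nat_lit 0) (XT.lf (nat_lit 0) (nat_lit 92713107391) (nat_lit 304) (nat_lit 3288257454590) (nat_lit 76) (nat_lit 310642660348) (nat_lit 37) (nat_lit 5) (nat_lit 41) (nat_lit 5) (nat_lit 38) (nat_lit 5) (nat_lit 271) (nat_lit 266) (nat_lit 123)) (XT.nd (nat_lit 78) (nat_lit 228) (nat_lit 0) (XT.lf (nat_lit 0) (nat_lit 800115287723) (nat_lit 304) (nat_lit 13295871036) (nat_lit 76) (nat_lit 3192210451865) (nat_lit 37) (nat_lit 5) (nat_lit 41) (nat_lit 5) (nat_lit 38) (nat_lit 5) (nat_lit 272) (nat_lit 266) (nat_lit 122)) (XT.lf (nat_lit 0) (nat_lit 1762555761212) (nat_lit 304) (nat_lit 462516480886) (nat_lit 76) (nat_lit 2129744777781) (nat_lit 34) (nat_lit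 5) (nat_lit 38) (nat_lit 5) (nat_lit 35) (nat_lit 5) (nat_lit 273) (nat_lit 266) (nat_lit 121)))) (XT.nd (nat_lit 78) (nat_lit 380) (nat_lit 0) (XT.lf (nat_lit 0) (nat_lit 3003067965818) (nat_lit 304) (nat_lit 971244082713) (nat_lit 76) (nat_lit 771383239189) (nat_lit 31) (nat_lit 5) (nat_lit 35) (nat_lit 5) (nat_lit 32) (nat_lit 5) (nat_lit 274) (nat_lit 266) (nat_lit 120)) (XT.nd (nat_lit 78) (nat_lit 228) (nat_lit 0) (XT.lf (nat_lit 0) (nat_lit 3598990941057) (nat_lit 152) (nat_lit 992577301850) (nat_lit 228) (nat_lit 590684153491) (nat_lit 29) (nat_lit 5) (nat_lit 31) (nat_lit 5) (nat_lit 32) (nat_lit 5) (nat_lit 275) (nat_lit 266) (nat_lit 119)) (XT.lf (nat_lit 0) (nat_lit 869608117551) (nat_lit 228) (nat_lit 2353616401342) (nat_lit 76) (nat_lit 2445874013464) (nat_lit 26) (nat_lit 5) (nat_lit 29) (nat_lit 5) (nat_lit 27) (nat_lit 5) (nat_lit 276) (nat_lit 266) (nat_lit 118))))))))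
noncomputable def xc63 : XT := (XT.nd (nat_lit 102882) (nat_lit 0) (nat_lit 760) (XT.nd (nat_lit 68172) (nat_lit 0) (nat_lit 380) (XT.nd (nat_lit 34008) (nat_lit 0) (nat_lit 152) (XT.nd (nat_lit 33774) (nat_lit 0) (nat_lit 1292) (XT.nd (nat_lit 33618) (nat_lit 0) (nat_lit 1520) (XT.lf (nat_lit 0) (nat_lit 2666224422029) (nat_lit 228) (nat_lit 3301585545212) (nat_lit 76) (nat_lit 247753802932) (nat_lit 24) (nat_lit 5) (nat_lit 27) (nat_lit 5) (nat_lit 25) (nat_lit 5) (nat_lit 277) (nat_lit 266) (nat_lit 117)) (XT.nd (nat_lit 78) (nat_lit 0) (nat_lit 76) (XT.lf (nat_lit 0) (nat_lit 870728446363) (nat_lit 532) (nat_lit 292618107444) (nat_lit 532) (nat_lit 292618107444) (nat_lit 44) (nat_lit 3) (nat_lit 51) (nat_lit 3) (nat_lit 51) (nat_lit 5) (nat_lit 267) (nat_lit 267) (nat_lit 126)) (XT.lf (nat_lit 0) (nat_lit 1921673936352) (nat_lit 456) (nat_lit 1136884881003) (nat_lit 532) (nat_lit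 67796582162) (nat_lit 45) (nat_lit 5) (nat_lit 51) (nat_lit 5) (nat_lit 52) (nat_lit 5) (nat_lit 268) (nat_lit 267) (nat_lit 125)))) (XT.nd (nat_lit 78) (nat_lit 304) (nat_lit 0) (XT.lf (nat_lit 76) (nat_lit 1631039126240) (nat_lit 0) (nat_lit 618942598949) (nat_lit 532) (nat_lit 1113279007808) (nat_lit 46) (nat_lit 5) (nat_lit 45) (nat_lit 5) (nat_lit 52) (nat_lit 5) (nat_lit 269) (nat_lit 267) (nat_lit 124)) (XT.nd (nat_lit 78) (nat_lit 380) (nat_lit 0) (XT.lf (nat_lit 76) (nat_lit 1259501577817) (nat_lit 0) (nat_lit 1484872213474) (nat_lit 532) (nat_lit 881981026498) (nat_lit 47) (nat_lit 5) (nat_lit 46) (nat_lit 5) (nat_lit 53) (nat_lit 5) (nat_lit 270) (nat_lit 267) (nat_lit 123)) (XT.lf (nat_lit 0) (nat_lit 873162887824) (nat_lit 456) (nat_lit 2561712233361) (nat_lit 532) (nat_lit 484281857809) (nat_lit 41) (nat_lit 5) (nat_lit 47) (nat_lit 5) (nat_lit 48) (nat_lit 5) (nat_lit 271)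 (nat_lit 267) (nat_lit 122))))) (XT.nd (nat_lit 234) (nat_lit 608) (nat_lit 0) (XT.nd (nat_lit 78) (nat_lit 228) (nat_lit 0) (XT.lf (nat_lit 0) (nat_lit 106620091177) (nat_lit 304) (nat_lit 3781496053931) (nat_lit 76) (nat_lit 357239059108) (nat_lit 37) (nat_lit 5) (nat_lit 41) (nat_lit 5) (nat_lit 38) (nat_lit 5) (nat_lit 272) (nat_lit 267) (nat_lit 121)) (XT.nd (nat_lit 78) (nat_lit 228) (nat_lit 0) (XT.lf (nat_lit 0) (nat_lit 920132596253) (nat_lit 304) (nat_lit 15290235302) (nat_lit 76) (nat_lit 3671042019391) (nat_lit 37) (nat_lit 5) (nat_lit 41) (nat_lit 5) (nat_lit 38) (nat_lit 5) (nat_lit 273) (nat_lit 267) (nat_lit 120)) (XT.lf (nat_lit 0) (nat_lit 2026939139153) (nat_lit 304) (nat_lit 531893936913) (nat_lit 76) (nat_lit 2449206495659) (nat_lit 34) (nat_lit 5) (nat_lit 38) (nat_lit 5) (nat_lit 35) (nat_lit 5) (nat_lit 274) (nat_lit 267) (nat_lit 119)))) (XT.nd (nat_lit 156) (nat_lit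 380) (nat_lit 0) (XT.lf (nat_lit 0) (nat_lit 3453528173067) (nat_lit 304) (nat_lit 1116930679419) (nat_lit 76) (nat_lit 887090727371) (nat_lit 31) (nat_lit 5) (nat_lit 35) (nat_lit 5) (nat_lit 32) (nat_lit 5) (nat_lit 275) (nat_lit 267) (nat_lit 118)) (XT.nd (nat_lit 33696) (nat_lit 0) (nat_lit 1368) (XT.lf (nat_lit 0) (nat_lit 1000049345531) (nat_lit 228) (nat_lit 2706658847053) (nat_lit 76) (nat_lit 2812755118778) (nat_lit 26) (nat_lit 5) (nat_lit 29) (nat_lit 5) (nat_lit 27) (nat_lit 5) (nat_lit 277) (nat_lit 267) (nat_lit 116)) (XT.lf (nat_lit 0) (nat_lit 1001337725461) (nat_lit 532) (nat_lit 336510816984) (nat_lit 532) (nat_lit 336510816984) (nat_lit 44) (nat_lit 3) (nat_lit 51) (nat_lit 3) (nat_lit 51) (nat_lit 5) (nat_lit 268) (nat_lit 268) (nat_lit 124)))))) (XT.nd (nat_lit 468) (nat_lit 608) (nat_lit 0) (XT.nd (nat_lit 234) (nat_lit 608) (nat_lit 0) (XT.nd (nat_lit 78) (nat_lit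 0) (nat_lit 0) (XT.lf (nat_lit 0) (nat_lit 2209925047987) (nat_lit 456) (nat_lit 1307417599106) (nat_lit 532) (nat_lit 77966060588) (nat_lit 45) (nat_lit 5) (nat_lit 51) (nat_lit 5) (nat_lit 52) (nat_lit 5) (nat_lit 269) (nat_lit 268) (nat_lit 123)) (XT.nd (nat_lit 78) (nat_lit 0) (nat_lit 76) (XT.lf (nat_lit 76) (nat_lit 1875695008034) (nat_lit 0) (nat_lit 711783994661) (nat_lit 532) (nat_lit 1280270838692) (nat_lit 46) (nat_lit 5) (nat_lit 45) (nat_lit 5) (nat_lit 52) (nat_lit 5) (nat_lit 270) (nat_lit 268) (nat_lit 122)) (XT.lf (nat_lit 76) (nat_lit 1448426827815) (nat_lit 0) (nat_lit 1707603048652) (nat_lit 532) (nat_lit 1014278162618) (nat_lit 47) (nat_lit 5) (nat_lit 46) (nat_lit 5) (nat_lit 53) (nat_lit 5) (nat_lit 271) (nat_lit 268) (nat_lit 121)))) (XT.nd (nat_lit 78) (nat_lit 304) (nat_lit 0) (XT.lf (nat_lit 0) (nat_lit 1004137334519) (nat_lit 456) (nat_lit 2945969069436) (nat_lit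 532) (nat_lit 556924120676) (nat_lit 41) (nat_lit 5) (nat_lit 47) (nat_lit 5) (nat_lit 48) (nat_lit 5) (nat_lit 272) (nat_lit 268) (nat_lit 120)) (XT.nd (nat_lit 78) (nat_lit 0) (nat_lit 0) (XT.lf (nat_lit 0) (nat_lit 122613118220) (nat_lit 304) (nat_lit 4348720447769) (nat_lit 76) (nat_lit 410824917754) (nat_lit 37) (nat_lit 5) (nat_lit 41) (nat_lit 5) (nat_lit 38) (nat_lit 5) (nat_lit 273) (nat_lit 268) (nat_lit 119)) (XT.lf (nat_lit 0) (nat_lit 1058152497315) (nat_lit 304) (nat_lit 17583758205) (nat_lit 76) (nat_lit 4221698322107) (nat_lit 37) (nat_lit 5) (nat_lit 41) (nat_lit 5) (nat_lit 38) (nat_lit 5) (nat_lit 274) (nat_lit 268) (nat_lit 118))))) (XT.nd (nat_lit 34008) (nat_lit 0) (nat_lit 1216) (XT.nd (nat_lit 156) (nat_lit 380) (nat_lit 0) (XT.lf (nat_lit 0) (nat_lit 2330980020429) (nat_lit 304) (nat_lit 611678015271) (nat_lit 76) (nat_lit 2816587470924) (nat_lit 34) (nat_lit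 5) (nat_lit 38) (nat_lit 5) (nat_lit 35) (nat_lit 5) (nat_lit 275) (nat_lit 268) (nat_lit 117)) (XT.nd (nat_lit 33774) (nat_lit 0) (nat_lit 1140) (XT.lf (nat_lit 0) (nat_lit 4759665546944) (nat_lit 152) (nat_lit 1312683475473) (nat_lit 228) (nat_lit 781179770072) (nat_lit 29) (nat_lit 5) (nat_lit 31) (nat_lit 5) (nat_lit 32) (nat_lit 5) (nat_lit 277) (nat_lit 268) (nat_lit 115)) (XT.lf (nat_lit 0) (nat_lit 1151538393461) (nat_lit 532) (nat_lit 386987434558) (nat_lit 532) (nat_lit 386987434558) (nat_lit 44) (nat_lit 3) (nat_lit 51) (nat_lit 3) (nat_lit 51) (nat_lit 5) (nat_lit 269) (nat_lit 269) (nat_lit 122)))) (XT.nd (nat_lit 78) (nat_lit 0) (nat_lit 0) (XT.lf (nat_lit 0) (nat_lit 2541413821202) (nat_lit 456) (nat_lit 1503530228351) (nat_lit 532) (nat_lit 89660962948) (nat_lit 45) (nat_lit 5) (nat_lit 51) (nat_lit 5) (nat_lit 52) (nat_lit 5) (nat_lit 270) (nat_lit 269) (nat_lit 121))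 (XT.nd (nat_lit 78) (nat_lit 0) (nat_lit 76) (XT.lf (nat_lit 76) (nat_lit 2157049268962) (nat_lit 0) (nat_lit 818551598299) (nat_lit 532) (nat_lit 1472311449156) (nat_lit 46) (nat_lit 5) (nat_lit 45) (nat_lit 5) (nat_lit 52) (nat_lit 5) (nat_lit 271) (nat_lit 269) (nat_lit 120)) (XT.lf (nat_lit 76) (nat_lit 1665690862064) (nat_lit 0) (nat_lit 1963743508338) (nat_lit 532) (nat_lit 1166419873510) (nat_lit 47) (nat_lit 5) (nat_lit 46) (nat_lit 5) (nat_lit 53) (nat_lit 5) (nat_lit 272) (nat_lit 269) (nat_lit 119))))))) (XT.nd (nat_lit 68718) (nat_lit 0) (nat_lit 228) (XT.nd (nat_lit 34320) (nat_lit 0) (nat_lit 228) (XT.nd (nat_lit 234) (nat_lit 228) (nat_lit 0) (XT.nd (nat_lit 78) (nat_lit 304) (nat_lit 0) (XT.lf (nat_lit 0) (nat_lit 1154757944922) (nat_lit 456) (nat_lit 3387864430661) (nat_lit 532) (nat_lit 640462726826) (nat_lit 41) (nat_lit 5) (nat_lit 47) (nat_lit 5) (nat_lit 48) (nat_lit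 5) (nat_lit 273) (nat_lit 269) (nat_lit 118)) (XT.nd (nat_lit 78) (nat_lit 0) (nat_lit 0) (XT.lf (nat_lit 0) (nat_lit 141005096060) (nat_lit 304) (nat_lit 5001028504158) (nat_lit 76) (nat_lit 472448655250) (nat_lit 37) (nat_lit 5) (nat_lit 41) (nat_lit 5) (nat_lit 38) (nat_lit 5) (nat_lit 274) (nat_lit 269) (nat_lit 117)) (XT.lf (nat_lit 0) (nat_lit 1216875380701) (nat_lit 304) (nat_lit 20221312565) (nat_lit 76) (nat_lit 4854953070278) (nat_lit 37) (nat_lit 5) (nat_lit 41) (nat_lit 5) (nat_lit 38) (nat_lit 5) (nat_lit 275) (nat_lit 269) (nat_lit 116)))) (XT.nd (nat_lit 33930) (nat_lit 0) (nat_lit 760) (XT.lf (nat_lit 0) (nat_lit 2680627031359) (nat_lit 304) (nat_lit 703429708353) (nat_lit 76) (nat_lit 3239075592255) (nat_lit 34) (nat_lit 5) (nat_lit 38) (nat_lit 5) (nat_lit 35) (nat_lit 5) (nat_lit 276) (nat_lit 269) (nat_lit 115)) (XT.nd (nat_lit 78) (nat_lit 0) (nat_lit 76) (XT.lf (nat_lit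 0) (nat_lit 1324269159423) (nat_lit 532) (nat_lit 445035545982) (nat_lit 532) (nat_lit 445035545982) (nat_lit 44) (nat_lit 3) (nat_lit 51) (nat_lit 3) (nat_lit 51) (nat_lit 5) (nat_lit 270) (nat_lit 270) (nat_lit 120)) (XT.lf (nat_lit 0) (nat_lit 2922625906494) (nat_lit 456) (nat_lit 1729059754572) (nat_lit 532) (nat_lit 103110102303) (nat_lit 45) (nat_lit 5) (nat_lit 51) (nat_lit 5) (nat_lit 52) (nat_lit 5) (nat_lit 271) (nat_lit 270) (nat_lit 119))))) (XT.nd (nat_lit 234) (nat_lit 304) (nat_lit 0) (XT.nd (nat_lit 78) (nat_lit 304) (nat_lit 0) (XT.lf (nat_lit 76) (nat_lit 2480606666659) (nat_lit 0) (nat_lit 941334341401) (nat_lit 532) (nat_lit 1693158154930) (nat_lit 46) (nat_lit 5) (nat_lit 45) (nat_lit 5) (nat_lit 52) (nat_lit 5) (nat_lit 272) (nat_lit 270) (nat_lit 118)) (XT.nd (nat_lit 78) (nat_lit 380) (nat_lit 0) (XT.lf (nat_lit 76) (nat_lit 1915544498992) (nat_lit 0) (nat_lit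 2258305036395) (nat_lit 532) (nat_lit 1341382844329) (nat_lit 47) (nat_lit 5) (nat_lit 46) (nat_lit 5) (nat_lit 53) (nat_lit 5) (nat_lit 273) (nat_lit 270) (nat_lit 117)) (XT.lf (nat_lit 0) (nat_lit 1327971644392) (nat_lit 456) (nat_lit 3896044095872) (nat_lit 532) (nat_lit 736532126813) (nat_lit 41) (nat_lit 5) (nat_lit 47) (nat_lit 5) (nat_lit 48) (nat_lit 5) (nat_lit 274) (nat_lit 270) (nat_lit 116)))) (XT.nd (nat_lit 78) (nat_lit 0) (nat_lit 0) (XT.lf (nat_lit 0) (nat_lit 162155868112) (nat_lit 304) (nat_lit 5751182771634) (nat_lit 76) (nat_lit 543315953411) (nat_lit 37) (nat_lit 5) (nat_lit 41) (nat_lit 5) (nat_lit 38) (nat_lit 5) (nat_lit 275) (nat_lit 270) (nat_lit 115)) (XT.nd (nat_lit 34008) (nat_lit 0) (nat_lit 532) (XT.lf (nat_lit 0) (nat_lit 1399406694452) (nat_lit 304) (nat_lit 23254502365) (nat_lit 76) (nat_lit 5583196030710) (nat_lit 37) (nat_lit 5) (nat_lit 41) (nat_lit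 5) (nat_lit 38) (nat_lit 5) (nat_lit 276) (nat_lit 270) (nat_lit 114)) (XT.lf (nat_lit 0) (nat_lit 1522909538587) (nat_lit 532) (nat_lit 511790875036) (nat_lit 532) (nat_lit 511790875036) (nat_lit 44) (nat_lit 3) (nat_lit 51) (nat_lit 3) (nat_lit 51) (nat_lit 5) (nat_lit 271) (nat_lit 271) (nat_lit 118)))))) (XT.nd (nat_lit 34476) (nat_lit 0) (nat_lit 304) (XT.nd (nat_lit 234) (nat_lit 608) (nat_lit 0) (XT.nd (nat_lit 78) (nat_lit 0) (nat_lit 0) (XT.lf (nat_lit 0) (nat_lit 3361019801625) (nat_lit 456) (nat_lit 1988418711684) (nat_lit 532) (nat_lit 118576613801) (nat_lit 45) (nat_lit 5) (nat_lit 51) (nat_lit 5) (nat_lit 52) (nat_lit 5) (nat_lit 272) (nat_lit 271) (nat_lit 117)) (XT.nd (nat_lit 78) (nat_lit 0) (nat_lit 76) (XT.lf (nat_lit 76) (nat_lit 2852697672216) (nat_lit 0) (nat_lit 1082534495149) (nat_lit 532) (nat_lit 1947131869400) (nat_lit 46) (nat_lit 5) (nat_lit 45) (nat_lit 5)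 (nat_lit 52) (nat_lit 5) (nat_lit 273) (nat_lit 271) (nat_lit 116)) (XT.lf (nat_lit 76) (nat_lit 2202876179602) (nat_lit 0) (nat_lit 2597050793219) (nat_lit 532) (nat_lit 1542590263259) (nat_lit 47) (nat_lit 5) (nat_lit 46) (nat_lit 5) (nat_lit 53) (nat_lit 5) (nat_lit 274) (nat_lit 271) (nat_lit 115)))) (XT.nd (nat_lit 78) (nat_lit 304) (nat_lit 0) (XT.lf (nat_lit 0) (nat_lit 1527167396896) (nat_lit 456) (nat_lit 4480450710716) (nat_lit 532) (nat_lit 847011939002) (nat_lit 41) (nat_lit 5) (nat_lit 47) (nat_lit 5) (nat_lit 48) (nat_lit 5) (nat_lit 275) (nat_lit 271) (nat_lit 114)) (XT.nd (nat_lit 34086) (nat_lit 0) (nat_lit 532) (XT.lf (nat_lit 0) (nat_lit 186479254108) (nat_lit 304) (nat_lit 6613860181217) (nat_lit 76) (nat_lit 624813346327) (nat_lit 37) (nat_lit 5) (nat_lit 41) (nat_lit 5) (nat_lit 38) (nat_lit 5) (nat_lit 276) (nat_lit 271) (nat_lit 113)) (XT.lf (nat_lit 0) (nat_lit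 1751345973344) (nat_lit 532) (nat_lit 588559504141) (nat_lit 532) (nat_lit 588559504141) (nat_lit 44) (nat_lit 3) (nat_lit 51) (nat_lit 3) (nat_lit 51) (nat_lit 5) (nat_lit 272) (nat_lit 272) (nat_lit 116))))) (XT.nd (nat_lit 234) (nat_lit 304) (nat_lit 0) (XT.nd (nat_lit 78) (nat_lit 0) (nat_lit 0) (XT.lf (nat_lit 0) (nat_lit 3865172778794) (nat_lit 456) (nat_lit 2286681513845) (nat_lit 532) (nat_lit 136363102962) (nat_lit 45) (nat_lit 5) (nat_lit 51) (nat_lit 5) (nat_lit 52) (nat_lit 5) (nat_lit 273) (nat_lit 272) (nat_lit 115)) (XT.nd (nat_lit 78) (nat_lit 0) (nat_lit 76) (XT.lf (nat_lit 76) (nat_lit 3280602327252) (nat_lit 0) (nat_lit 1244914671340) (nat_lit 532) (nat_lit 2239201643178) (nat_lit 46) (nat_lit 5) (nat_lit 45) (nat_lit 5) (nat_lit 52) (nat_lit 5) (nat_lit 274) (nat_lit 272) (nat_lit 114)) (XT.lf (nat_lit 76) (nat_lit 2533307610899) (nat_lit 0) (nat_lit 2986608413234)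 (nat_lit 532) (nat_lit 1773978796911) (nat_lit 47) (nat_lit 5) (nat_lit 46) (nat_lit 5) (nat_lit 53) (nat_lit 5) (nat_lit 275) (nat_lit 272) (nat_lit 113)))) (XT.nd (nat_lit 34320) (nat_lit 0) (nat_lit 304) (XT.nd (nat_lit 34242) (nat_lit 0) (nat_lit 304) (XT.lf (nat_lit 0) (nat_lit 1756242510851) (nat_lit 456) (nat_lit 5152518317673) (nat_lit 532) (nat_lit 974063724685) (nat_lit 41) (nat_lit 5) (nat_lit 47) (nat_lit 5) (nat_lit 48) (nat_lit 5) (nat_lit 276) (nat_lit 272) (nat_lit 112)) (XT.lf (nat_lit 0) (nat_lit 4444948700849) (nat_lit 456) (nat_lit 2629683737449) (nat_lit 532) (nat_lit 156817566207) (nat_lit 45) (nat_lit 5) (nat_lit 51) (nat_lit 5) (nat_lit 52) (nat_lit 5) (nat_lit 274) (nat_lit 273) (nat_lit 113))) (XT.nd (nat_lit 34398) (nat_lit 0) (nat_lit 0) (XT.lf (nat_lit 76) (nat_lit 3772692679519) (nat_lit 0) (nat_lit 1431651873492) (nat_lit 532) (nat_lit 2575081884640) (nat_lit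 46) (nat_lit 5) (nat_lit 45) (nat_lit 5) (nat_lit 52) (nat_lit 5) (nat_lit 275) (nat_lit 273) (nat_lit 112)) (XT.lf (nat_lit 0) (nat_lit 5111691009935) (nat_lit 456) (nat_lit 3024136295441) (nat_lit 532) (nat_lit 180340199475) (nat_lit 45) (nat_lit 5) (nat_lit 51) (nat_lit 5) (nat_lit 52) (nat_lit 5) (nat_lit 275) (nat_lit 274) (nat_lit 111))))))))

set_option maxRecDepth 10000000 in
noncomputable def Tp : PT := (PT.nd (nat_lit 3860688) (PT.nd (nat_lit 3689244) pc0 pc1) (PT.nd (nat_lit 69420) pc2 pc3))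

set_option maxRecDepth 10000000 in
noncomputable def Tx : XT := (XT.nd (nat_lit 6420492) (nat_lit 0) (nat_lit 76) XT.nil (XT.nd (nat_lit 3026088) (nat_lit 0) (nat_lit 0) (XT.nd (nat_lit 1373112) (nat_lit 0) (nat_lit 0) (XT.nd (nat_lit 959010) (nat_lit 0) (nat_lit 0) (XT.nd (nat_lit 653016) (nat_lit 0) (nat_lit 0) (XT.nd (nat_lit 447018) (nat_lit 0) (nat_lit 0) (XT.nd (nat_lit 309348) (nat_lit 0) (nat_lit 0) (XT.nd (nat_lit 206388) (nat_lit 0) (nat_lit 0) xc0 xc1) (XT.nd (nat_lit 101556) (nat_lit 0) (nat_lit 0) xc2 xc3)) (XT.nd (nat_lit 135408) (nat_lit 0) (nat_lit 0) (XT.nd (nat_lit 68016) (nat_lit 0) (nat_lit 0) xc4 xc5) (XT.nd (nat_lit 35334) (nat_lit 0) (nat_lit 0) xc6 xc7))) (XT.nd (nat_lit 169884) (nat_lit 0) (nat_lit 0) (XT.nd (nat_lit 100854) (nat_lit 0) (nat_lit 0) (XT.nd (nat_lit 66144) (nat_lit 0) (nat_lit 0) xc8 xc9) (XT.nd (nat_lit 34554) (nat_lit 0) (nat_lit 0) xc10 xc11))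 (XT.nd (nat_lit 68328) (nat_lit 0) (nat_lit 0) (XT.nd (nat_lit 34242) (nat_lit 0) (nat_lit 0) xc12 xc13) (XT.nd (nat_lit 33930) (nat_lit 0) (nat_lit 0) xc14 xc15)))) (XT.nd (nat_lit 207246) (nat_lit 0) (nat_lit 0) (XT.nd (nat_lit 104208) (nat_lit 0) (nat_lit 0) (XT.nd (nat_lit 37362) (nat_lit 0) (nat_lit 0) (XT.nd (nat_lit 3744) (nat_lit 0) (nat_lit 0) xc16 xc17) (XT.nd (nat_lit 33462) (nat_lit 0) (nat_lit 0) xc18 xc19)) (XT.nd (nat_lit 36972) (nat_lit 0) (nat_lit 0) (XT.nd (nat_lit 33228) (nat_lit 0) (nat_lit 0) xc20 xc21) (XT.nd (nat_lit 33072) (nat_lit 0) (nat_lit 0) xc22 xc23))) (XT.nd (nat_lit 103038) (nat_lit 0) (nat_lit 0) (XT.nd (nat_lit 36738) (nat_lit 0) (nat_lit 0) (XT.nd (nat_lit 32994) (nat_lit 0) (nat_lit 0) xc24 xc25) (XT.nd (nat_lit 33072) (nat_lit 0) (nat_lit 0) xc26 xc27)) (XT.nd (nat_lit 37050) (nat_lit 0) (nat_lit 0) (XT.nd (nat_lit 33228) (nat_lit 0) (nat_lit 0) xc28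 xc29) (XT.nd (nat_lit 33306) (nat_lit 0) (nat_lit 0) xc30 xc31))))) (XT.nd (nat_lit 515892) (nat_lit 0) (nat_lit 152) (XT.nd (nat_lit 240240) (nat_lit 0) (nat_lit 0) (XT.nd (nat_lit 104598) (nat_lit 0) (nat_lit 0) (XT.nd (nat_lit 67080) (nat_lit 0) (nat_lit 0) (XT.nd (nat_lit 33462) (nat_lit 0) (nat_lit 0) xc32 xc33) (XT.nd (nat_lit 3744) (nat_lit 0) (nat_lit 0) xc34 xc35)) (XT.nd (nat_lit 67626) (nat_lit 0) (nat_lit 0) (XT.nd (nat_lit 33774) (nat_lit 0) (nat_lit 0) xc36 xc37) (XT.nd (nat_lit 33930) (nat_lit 0) (nat_lit 0) xc38 xc39))) (XT.nd (nat_lit 137124) (nat_lit 0) (nat_lit 0) (XT.nd (nat_lit 68328) (nat_lit 0) (nat_lit 0) (XT.nd (nat_lit 34086) (nat_lit 0) (nat_lit 0) xc40 xc41) (XT.nd (nat_lit 34320) (nat_lit 0) (nat_lit 0) xc42 xc43)) (XT.nd (nat_lit 69108) (nat_lit 0) (nat_lit 0) (XT.nd (nat_lit 34476) (nat_lit 0) (nat_lit 0) xc44 xc45) (XT.nd (nat_lit 34632) (nat_lit 0) (nat_lit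 76) xc46 xc47)))) (XT.nd (nat_lit 345072) (nat_lit 0) (nat_lit 76) (XT.nd (nat_lit 139932) (nat_lit 0) (nat_lit 0) (XT.nd (nat_lit 69732) (nat_lit 0) (nat_lit 0) (XT.nd (nat_lit 34788) (nat_lit 0) (nat_lit 0) xc48 xc49) (XT.nd (nat_lit 35022) (nat_lit 0) (nat_lit 0) xc50 xc51)) (XT.nd (nat_lit 102102) (nat_lit 0) (nat_lit 76) (XT.nd (nat_lit 66690) (nat_lit 0) (nat_lit 0) xc52 xc53) (XT.nd (nat_lit 35490) (nat_lit 0) (nat_lit 0) xc54 xc55))) (XT.nd (nat_lit 241254) (nat_lit 0) (nat_lit 456) (XT.nd (nat_lit 103896) (nat_lit 0) (nat_lit 152) (XT.nd (nat_lit 67938) (nat_lit 0) (nat_lit 152) xc56 xc57) (XT.nd (nat_lit 68406) (nat_lit 0) (nat_lit 152) xc58 xc59)) (XT.nd (nat_lit 171990) (nat_lit 0) (nat_lit 608) (XT.nd (nat_lit 69186) (nat_lit 0) (nat_lit 228) xc60 xc61) (XT.nd (nat_lit 103662) (nat_lit 0) (nat_lit 456) xc62 xc63)))))) XT.nil))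

set_option maxRecDepth 10000000 in
noncomputable def Te : XT := XT.nil

set_option maxRecDepth 10000000 in
noncomputable def Tz : ZL := (ZL.cons (nat_lit 76) (nat_lit 6) (nat_lit 215529441887048215310) (ZL.cons (nat_lit 152) (nat_lit 6) (nat_lit 203409010830917238504) (ZL.cons (nat_lit 228) (nat_lit 3) (nat_lit 100744465516124100696) (ZL.cons (nat_lit 304) (nat_lit 6) (nat_lit 189470515116366615174) (ZL.cons (nat_lit 380) (nat_lit 6) (nat_lit 179239051219310121276) (ZL.cons (nat_lit 456) (nat_lit 3) (nat_lit 88784708305885914068) (ZL.cons (nat_lit 532) (nat_lit 6) (nat_lit 167472867737695153290) (ZL.cons (nat_lit 608) (nat_lit 6) (nat_lit 158983327320513351348) (ZL.cons (nat_lit 684) (nat_lit 3) (nat_lit 78765735570022635179) (ZL.cons (nat_lit 760) (nat_lit 6) (nat_lit 149220355840754279116) (ZL.cons (nat_lit 836) (nat_lit 6) (nat_lit 142376913062227355818) (ZL.cons (nat_lit 912) (nat_lit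 3) (nat_lit 70557214713518860088) (ZL.cons (nat_lit 988) (nat_lit 6) (nat_lit 136867249358797669366) (ZL.cons (nat_lit 1064) (nat_lit 6) (nat_lit 134506953866921394030) (ZL.cons (nat_lit 1140) (nat_lit 6) (nat_lit 129268652464663894298) (ZL.cons (nat_lit 1216) (nat_lit 3) (nat_lit 64085420303988627302) (ZL.cons (nat_lit 1292) (nat_lit 6) (nat_lit 125297036714568878594) (ZL.cons (nat_lit 1368) (nat_lit 6) (nat_lit 123244605852067769606) (ZL.cons (nat_lit 1444) (nat_lit 3) (nat_lit 60160248104228468906) (ZL.cons (nat_lit 1520) (nat_lit 6) (nat_lit 120866302723336155254) (ZL.cons (nat_lit 1596) (nat_lit 6) (nat_lit 122514401091091009652) (ZL.cons (nat_lit 1672) (nat_lit 6) (nat_lit 119631866745272970840) (ZL.cons (nat_lit 1748) (nat_lit 3) (nat_lit 59338623869729250773) (ZL.cons (nat_lit 1824) (nat_lit 6) (nat_lit 116088455254600033884) (ZL.cons (nat_lit 1900) (nat_lit 6) (nat_lit 117261939261590351380)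 (ZL.cons (nat_lit 1976) (nat_lit 6) (nat_lit 115477216772458952262) (ZL.cons (nat_lit 2052) (nat_lit 3) (nat_lit 56477113078714884825) (ZL.cons (nat_lit 2128) (nat_lit 6) (nat_lit 113581903649540869704) (ZL.cons (nat_lit 2204) (nat_lit 3) (nat_lit 56375900083111969940) (ZL.cons (nat_lit 2280) (nat_lit 6) (nat_lit 111402293558185074764) (ZL.cons (nat_lit 2356) (nat_lit 1) (nat_lit 18446744073709551617) ZL.nil)))))))))))))))))))))))))))))))

noncomputable def vl : XL := ⟨(nat_lit 0), (nat_lit 76), (nat_lit 98516481), (nat_lit 228), (nat_lit 373486236), (nat_lit 76), (nat_lit 98516481), (nat_lit 1), (nat_lit 5), (nat_lit 3), (nat_lit 4), (nat_lit 1), (nat_lit 4), (nat_lit 0), (nat_lit 0), (nat_lit 0)⟩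

noncomputable def cp0 : Nat := (nat_lit 57541922385050789920219872395408028626512705124996174508589053227422033106466948953769857786262361606030016682413757489719653032153223982197839039443184882473151874760824260754768744771874198038083975150389224699015421929298629687192951499238241223894575189276768846227631856716982311760401066202594264583618180215783367875622857490614856744240957902788426284191075752609179690143701977028878608766495144231950021744720825118042150355762555246022758800415430655189092536825991388644237237355597412717444257447857729846990185485635851960332495642155107331109721079778996168424664071685307645702762409434696713570324983376361583517679321565161849393519660579135014332309792065790841754062753884349577249419969295689347035687813120)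

noncomputable def cp1 : Nat := (nat_lit 167657095776861138601604483230430839263182872616093640303133966373059790474587790002548458643038156624912003503499731342948315061442769088659668557811444791564314706802787089001225834128116384189783774595607199090834421910003545373498271087172119833998806418604576204076882254395297381144528876678302202078192101386420282085257499505340180168474612515027577008679527207735257508644282552627387834897728930673006175466001310398377682789446061906500452082149317258712586037815905757412936401719439425725690852579914230982410208876079854296725427800843555727287078797999354403936111893074657373521996847478465364411322855653845218852098449103307329736355001184656017254431005063126584507591057862965353955426833033295696010987013831340020544887459186485145833437917199501286803993065026758180166079352993290028024769228607351038142507456379660267091897577108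985541523883094490773784254823600087260301517434166381673773531626413923635322801413704894453812063606284252024254351664089828323952094456246177773307136412285214929012873921476549921332126097262640210914555766648795300430470076016785774415622121545790679028976304837906389624559964950619827620728711749158766447677108429883524357373386217720161510442790908712020696146350072737827098108805959160625998703294243727464492281933837227277771037034070869541329144240801575257440759304059002036006604761425969762293592905055406014827832635109192929045831486343533746359379142604648234117683167016212987874216744513645851451538509426774572281060259917962688415021507928975075643017834934071277776292920815475179651341374980096)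

noncomputable def rc0 : Nat := (nat_lit 167657095776861138601604483230430839263182872616093640303133966373059790474587790002548458643038156624912003503499731342948315061442769088659668557811444791564314706802787089001225834128116384189783774595607199090834421910003545373498271087172119833998806418604576204076882254395297381144528876678302202078192101386420282085257499505340180168474612515027577008679527207735257508644282552627387834897728930673006175466001310398377682789446061906500452082149317258712586037815905757412936401719439425725690852579914230982410208876079854296725427800843555727287078797999354403936111893074657373521996847478465364411322855653845218852098449103307329736355001184656017254431005063126584507591057862965353955426833033295696010987013831340020544887459186485145833437917199501286803993065026758180166079352993290028024769228607351038142507456379660267091897577108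985541523883094490773784254823600087260301517434166381673773531626413923635322801413704894453812063606284252024254351664089828323952094456246177773307136412285214929012873921476549921332126097262640210914555766648795300430470076016785774415622121545790679028976304837906389624559964950619827620728711749158766447677108429883524357373386217720161510442790908712020696146350072737827098108805959160625998703294243727464492281933837227277771037034070869541329144240801575257440759304059002036006604761425969762293592905055406014827832635109192929045831486343533746359379142604648234117683167016212987874216744513645851451538509426774572281060259917962688415021507928975075643017834934071277776292920815475179651341374980096)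

end Vale.Agent.Lib.P154.PChain.BN.S1
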