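import Vale.Agent.Lib.P154.PChain.BN.R1_0

set_option linter.all false

namespace Vale.Agent.Lib.P154.PChain.BN.S2

open Vale.Agent.Lib.P154.Chain

noncomputable def pc0 : PT := (PT.nd (nat_lit 4562220) (PT.nd (nat_lit 4359342) (PT.nd (nat_lit 4278066) (PT.nd (nat_lit 4237428) (PT.nd (nat_lit 4196946) (PT.nd (nat_lit 4196868) PT.nil (PT.lf (nat_lit 76) (nat_lit 6) (nat_lit 1) (nat_lit 3) (nat_lit 143) (nat_lit 103) (nat_lit 144))) (PT.lf (nat_lit 76) (nat_lit 6) (nat_lit 1) (nat_lit 1) (nat_lit 144) (nat_lit 103) (nat_lit 143))) (PT.nd (nat_lit 78) (PT.lf (nat_lit 152) (nat_lit 6) (nat_lit 2) (nat_lit 3) (nat_lit 142) (nat_lit 104) (nat_lit 144)) (PT.nd (nat_lit 78) (PT.lf (nat_lit 228) (nat_lit 3) (nat_lit 3) (nat_lit 1) (nat_lit 143) (nat_lit 104) (nat_lit 143)) (PT.lf (nat_lit 152) (nat_lit 6) (nat_lit 2) (nat_lit 1) (nat_lit 144) (nat_lit 104) (nat_lit 142))))) (PT.nd (nat_lit 40638)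 (PT.nd (nat_lit 78) (PT.lf (nat_lit 304) (nat_lit 6) (nat_lit 4) (nat_lit 3) (nat_lit 142) (nat_lit 105) (nat_lit 143)) (PT.nd (nat_lit 40482) (PT.lf (nat_lit 304) (nat_lit 6) (nat_lit 4) (nat_lit 1) (nat_lit 143) (nat_lit 105) (nat_lit 142)) (PT.lf (nat_lit 380) (nat_lit 6) (nat_lit 5) (nat_lit 3) (nat_lit 141) (nat_lit 106) (nat_lit 143)))) (PT.nd (nat_lit 78) (PT.lf (nat_lit 456) (nat_lit 3) (nat_lit 6) (nat_lit 1) (nat_lit 142) (nat_lit 106) (nat_lit 142)) (PT.nd (nat_lit 40482) (PT.lf (nat_lit 380) (nat_lit 6) (nat_lit 5) (nat_lit 1) (nat_lit 143) (nat_lit 106) (nat_lit 141)) (PT.lf (nat_lit 532) (nat_lit 6) (nat_lit 7) (nat_lit 3) (nat_lit 141) (nat_lit 107) (nat_lit 142)))))) (PT.nd (nat_lit 81198) (PT.nd (nat_lit 40560) (PT.nd (nat_lit 40482) (PT.lf (nat_lit 532) (nat_lit 6) (nat_lit 7) (nat_lit 1) (nat_lit 142) (nat_lit 107) (nat_lit 141)) (PT.lf (nat_lit 608) (nat_lit 6) (nat_lit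 8) (nat_lit 3) (nat_lit 140) (nat_lit 108) (nat_lit 142))) (PT.nd (nat_lit 78) (PT.lf (nat_lit 684) (nat_lit 3) (nat_lit 9) (nat_lit 1) (nat_lit 141) (nat_lit 108) (nat_lit 141)) (PT.nd (nat_lit 40482) (PT.lf (nat_lit 608) (nat_lit 6) (nat_lit 8) (nat_lit 1) (nat_lit 142) (nat_lit 108) (nat_lit 140)) (PT.lf (nat_lit 760) (nat_lit 6) (nat_lit 10) (nat_lit 3) (nat_lit 140) (nat_lit 109) (nat_lit 141))))) (PT.nd (nat_lit 40638) (PT.nd (nat_lit 40482) (PT.lf (nat_lit 760) (nat_lit 6) (nat_lit 10) (nat_lit 1) (nat_lit 141) (nat_lit 109) (nat_lit 140)) (PT.nd (nat_lit 78) (PT.lf (nat_lit 836) (nat_lit 6) (nat_lit 11) (nat_lit 3) (nat_lit 139) (nat_lit 110) (nat_lit 141)) (PT.lf (nat_lit 912) (nat_lit 3) (nat_lit 12) (nat_lit 1) (nat_lit 140) (nat_lit 110) (nat_lit 140)))) (PT.nd (nat_lit 40482) (PT.lf (nat_lit 836) (nat_lit 6) (nat_lit 11) (nat_lit 1) (nat_lit 141) (nat_lit 110) (nat_lit 139))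 (PT.nd (nat_lit 78) (PT.lf (nat_lit 988) (nat_lit 6) (nat_lit 13) (nat_lit 3) (nat_lit 139) (nat_lit 111) (nat_lit 140)) (PT.lf (nat_lit 988) (nat_lit 6) (nat_lit 13) (nat_lit 1) (nat_lit 140) (nat_lit 111) (nat_lit 139))))))) (PT.nd (nat_lit 121836) (PT.nd (nat_lit 40716) (PT.nd (nat_lit 156) (PT.nd (nat_lit 78) (PT.lf (nat_lit 1064) (nat_lit 6) (nat_lit 14) (nat_lit 3) (nat_lit 138) (nat_lit 112) (nat_lit 140)) (PT.lf (nat_lit 1140) (nat_lit 3) (nat_lit 15) (nat_lit 1) (nat_lit 139) (nat_lit 112) (nat_lit 139))) (PT.nd (nat_lit 40404) (PT.lf (nat_lit 1064) (nat_lit 6) (nat_lit 14) (nat_lit 1) (nat_lit 140) (nat_lit 112) (nat_lit 138)) (PT.nd (nat_lit 78) (PT.lf (nat_lit 1216) (nat_lit 6) (nat_lit 16) (nat_lit 3) (nat_lit 137) (nat_lit 113) (nat_lit 140)) (PT.lf (nat_lit 1292) (nat_lit 6) (nat_lit 17) (nat_lit 3) (nat_lit 138) (nat_lit 113) (nat_lit 139))))) (PT.nd (nat_lit 40560) (PT.nd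 (nat_lit 78) (PT.lf (nat_lit 1292) (nat_lit 6) (nat_lit 17) (nat_lit 1) (nat_lit 139) (nat_lit 113) (nat_lit 138)) (PT.nd (nat_lit 40404) (PT.lf (nat_lit 1216) (nat_lit 6) (nat_lit 16) (nat_lit 1) (nat_lit 140) (nat_lit 113) (nat_lit 137)) (PT.lf (nat_lit 1368) (nat_lit 6) (nat_lit 18) (nat_lit 3) (nat_lit 137) (nat_lit 114) (nat_lit 139)))) (PT.nd (nat_lit 78) (PT.lf (nat_lit 1444) (nat_lit 3) (nat_lit 19) (nat_lit 1) (nat_lit 138) (nat_lit 114) (nat_lit 138)) (PT.nd (nat_lit 40404) (PT.lf (nat_lit 1368) (nat_lit 6) (nat_lit 18) (nat_lit 1) (nat_lit 139) (nat_lit 114) (nat_lit 137)) (PT.lf (nat_lit 1520) (nat_lit 6) (nat_lit 20) (nat_lit 3) (nat_lit 136) (nat_lit 115) (nat_lit 139)))))) (PT.nd (nat_lit 40716) (PT.nd (nat_lit 156) (PT.nd (nat_lit 78) (PT.lf (nat_lit 1596) (nat_lit 6) (nat_lit 21) (nat_lit 3) (nat_lit 137) (nat_lit 115) (nat_lit 138)) (PT.lf (nat_lit 1596) (nat_lit 6)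 (nat_lit 21) (nat_lit 1) (nat_lit 138) (nat_lit 115) (nat_lit 137))) (PT.nd (nat_lit 40404) (PT.lf (nat_lit 1520) (nat_lit 6) (nat_lit 20) (nat_lit 1) (nat_lit 139) (nat_lit 115) (nat_lit 136)) (PT.nd (nat_lit 78) (PT.lf (nat_lit 1672) (nat_lit 6) (nat_lit 22) (nat_lit 3) (nat_lit 136) (nat_lit 116) (nat_lit 138)) (PT.lf (nat_lit 1748) (nat_lit 3) (nat_lit 23) (nat_lit 1) (nat_lit 137) (nat_lit 116) (nat_lit 137))))) (PT.nd (nat_lit 40560) (PT.nd (nat_lit 40404) (PT.lf (nat_lit 1672) (nat_lit 6) (nat_lit 22) (nat_lit 1) (nat_lit 138) (nat_lit 116) (nat_lit 136)) (PT.nd (nat_lit 78) (PT.lf (nat_lit 1824) (nat_lit 6) (nat_lit 24) (nat_lit 3) (nat_lit 135) (nat_lit 117) (nat_lit 138)) (PT.lf (nat_lit 1900) (nat_lit 6) (nat_lit 25) (nat_lit 3) (nat_lit 136) (nat_lit 117) (nat_lit 137)))) (PT.nd (nat_lit 78) (PT.lf (nat_lit 1900) (nat_lit 6) (nat_lit 25) (nat_lit 1) (nat_lit 137) (nat_lit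 117) (nat_lit 136)) (PT.nd (nat_lit 40326) (PT.lf (nat_lit 1824) (nat_lit 6) (nat_lit 24) (nat_lit 1) (nat_lit 138) (nat_lit 117) (nat_lit 135)) (PT.lf (nat_lit 1976) (nat_lit 6) (nat_lit 26) (nat_lit 3) (nat_lit 134) (nat_lit 118) (nat_lit 138))))))))
noncomputable def pc1 : PT := (PT.nd (nat_lit 162474) (PT.nd (nat_lit 81354) (PT.nd (nat_lit 40638) (PT.nd (nat_lit 156) (PT.nd (nat_lit 78) (PT.lf (nat_lit 2052) (nat_lit 6) (nat_lit 27) (nat_lit 3) (nat_lit 135) (nat_lit 118) (nat_lit 137)) (PT.lf (nat_lit 2128) (nat_lit 3) (nat_lit 28) (nat_lit 1) (nat_lit 136) (nat_lit 118) (nat_lit 136))) (PT.nd (nat_lit 78) (PT.lf (nat_lit 2052) (nat_lit 6) (nat_lit 27) (nat_lit 1) (nat_lit 137) (nat_lit 118) (nat_lit 135)) (PT.nd (nat_lit 40326) (PT.lf (nat_lit 1976) (nat_lit 6) (nat_lit 26) (nat_lit 1) (nat_lit 138) (nat_lit 118) (nat_lit 134)) (PT.lf (nat_lit 2204) (nat_lit 6) (nat_lit 29) (nat_lit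 3) (nat_lit 134) (nat_lit 119) (nat_lit 137))))) (PT.nd (nat_lit 40482) (PT.nd (nat_lit 78) (PT.lf (nat_lit 2280) (nat_lit 6) (nat_lit 30) (nat_lit 3) (nat_lit 135) (nat_lit 119) (nat_lit 136)) (PT.nd (nat_lit 78) (PT.lf (nat_lit 2280) (nat_lit 6) (nat_lit 30) (nat_lit 1) (nat_lit 136) (nat_lit 119) (nat_lit 135)) (PT.lf (nat_lit 2204) (nat_lit 6) (nat_lit 29) (nat_lit 1) (nat_lit 137) (nat_lit 119) (nat_lit 134)))) (PT.nd (nat_lit 78) (PT.lf (nat_lit 2356) (nat_lit 6) (nat_lit 31) (nat_lit 3) (nat_lit 133) (nat_lit 120) (nat_lit 137)) (PT.nd (nat_lit 78) (PT.lf (nat_lit 2432) (nat_lit 6) (nat_lit 32) (nat_lit 3) (nat_lit 134) (nat_lit 120) (nat_lit 136)) (PT.lf (nat_lit 2508) (nat_lit 3) (nat_lit 33) (nat_lit 1) (nat_lit 135) (nat_lit 120) (nat_lit 135)))))) (PT.nd (nat_lit 40560) (PT.nd (nat_lit 40326) (PT.nd (nat_lit 78) (PT.lf (nat_lit 2432) (nat_lit 6) (nat_lit 32) (nat_lit 1) (nat_lit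 136) (nat_lit 120) (nat_lit 134)) (PT.lf (nat_lit 2356) (nat_lit 6) (nat_lit 31) (nat_lit 1) (nat_lit 137) (nat_lit 120) (nat_lit 133))) (PT.nd (nat_lit 78) (PT.lf (nat_lit 2584) (nat_lit 6) (nat_lit 34) (nat_lit 3) (nat_lit 132) (nat_lit 121) (nat_lit 137)) (PT.nd (nat_lit 78) (PT.lf (nat_lit 2660) (nat_lit 6) (nat_lit 35) (nat_lit 3) (nat_lit 133) (nat_lit 121) (nat_lit 136)) (PT.lf (nat_lit 2736) (nat_lit 6) (nat_lit 36) (nat_lit 3) (nat_lit 134) (nat_lit 121) (nat_lit 135))))) (PT.nd (nat_lit 40326) (PT.nd (nat_lit 78) (PT.lf (nat_lit 2736) (nat_lit 6) (nat_lit 36) (nat_lit 1) (nat_lit 135) (nat_lit 121) (nat_lit 134)) (PT.nd (nat_lit 78) (PT.lf (nat_lit 2660) (nat_lit 6) (nat_lit 35) (nat_lit 1) (nat_lit 136) (nat_lit 121) (nat_lit 133)) (PT.lf (nat_lit 2584) (nat_lit 6) (nat_lit 34) (nat_lit 1) (nat_lit 137) (nat_lit 121) (nat_lit 132)))) (PT.nd (nat_lit 78) (PT.lf (nat_lit 2812)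 (nat_lit 6) (nat_lit 37) (nat_lit 3) (nat_lit 131) (nat_lit 122) (nat_lit 137)) (PT.nd (nat_lit 78) (PT.lf (nat_lit 2888) (nat_lit 6) (nat_lit 38) (nat_lit 3) (nat_lit 132) (nat_lit 122) (nat_lit 136)) (PT.lf (nat_lit 2964) (nat_lit 6) (nat_lit 39) (nat_lit 3) (nat_lit 133) (nat_lit 122) (nat_lit 135))))))) (PT.nd (nat_lit 81042) (PT.nd (nat_lit 40482) (PT.nd (nat_lit 156) (PT.nd (nat_lit 78) (PT.lf (nat_lit 3040) (nat_lit 3) (nat_lit 40) (nat_lit 1) (nat_lit 134) (nat_lit 122) (nat_lit 134)) (PT.lf (nat_lit 2964) (nat_lit 6) (nat_lit 39) (nat_lit 1) (nat_lit 135) (nat_lit 122) (nat_lit 133))) (PT.nd (nat_lit 78) (PT.lf (nat_lit 2888) (nat_lit 6) (nat_lit 38) (nat_lit 1) (nat_lit 136) (nat_lit 122) (nat_lit 132)) (PT.nd (nat_lit 40170) (PT.lf (nat_lit 2812) (nat_lit 6) (nat_lit 37) (nat_lit 1) (nat_lit 137) (nat_lit 122) (nat_lit 131)) (PT.lf (nat_lit 3116) (nat_lit 6) (nat_lit 41) (nat_lit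 3) (nat_lit 131) (nat_lit 123) (nat_lit 136))))) (PT.nd (nat_lit 234) (PT.nd (nat_lit 78) (PT.lf (nat_lit 3192) (nat_lit 6) (nat_lit 42) (nat_lit 3) (nat_lit 132) (nat_lit 123) (nat_lit 135)) (PT.nd (nat_lit 78) (PT.lf (nat_lit 3268) (nat_lit 6) (nat_lit 43) (nat_lit 3) (nat_lit 133) (nat_lit 123) (nat_lit 134)) (PT.lf (nat_lit 3268) (nat_lit 6) (nat_lit 43) (nat_lit 1) (nat_lit 134) (nat_lit 123) (nat_lit 133)))) (PT.nd (nat_lit 78) (PT.lf (nat_lit 3192) (nat_lit 6) (nat_lit 42) (nat_lit 1) (nat_lit 135) (nat_lit 123) (nat_lit 132)) (PT.nd (nat_lit 40170) (PT.lf (nat_lit 3116) (nat_lit 6) (nat_lit 41) (nat_lit 1) (nat_lit 136) (nat_lit 123) (nat_lit 131)) (PT.lf (nat_lit 3572) (nat_lit 6) (nat_lit 47) (nat_lit 3) (nat_lit 130) (nat_lit 124) (nat_lit 136)))))) (PT.nd (nat_lit 390) (PT.nd (nat_lit 156) (PT.nd (nat_lit 78) (PT.lf (nat_lit 3648) (nat_lit 6) (nat_lit 48) (nat_lit 3) (nat_lit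 131) (nat_lit 124) (nat_lit 135)) (PT.lf (nat_lit 3724) (nat_lit 6) (nat_lit 49) (nat_lit 3) (nat_lit 132) (nat_lit 124) (nat_lit 134))) (PT.nd (nat_lit 78) (PT.lf (nat_lit 3800) (nat_lit 3) (nat_lit 50) (nat_lit 1) (nat_lit 133) (nat_lit 124) (nat_lit 133)) (PT.nd (nat_lit 78) (PT.lf (nat_lit 3724) (nat_lit 6) (nat_lit 49) (nat_lit 1) (nat_lit 134) (nat_lit 124) (nat_lit 132)) (PT.lf (nat_lit 3648) (nat_lit 6) (nat_lit 48) (nat_lit 1) (nat_lit 135) (nat_lit 124) (nat_lit 131))))) (PT.nd (nat_lit 40248) (PT.nd (nat_lit 40092) (PT.lf (nat_lit 3572) (nat_lit 6) (nat_lit 47) (nat_lit 1) (nat_lit 136) (nat_lit 124) (nat_lit 130)) (PT.nd (nat_lit 78) (PT.lf (nat_lit 3496) (nat_lit 6) (nat_lit 46) (nat_lit 3) (nat_lit 129) (nat_lit 125) (nat_lit 136)) (PT.lf (nat_lit 4028) (nat_lit 6) (nat_lit 53) (nat_lit 3) (nat_lit 130) (nat_lit 125) (nat_lit 135)))) (PT.nd (nat_lit 78) (PT.lf (nat_lit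 4104) (nat_lit 6) (nat_lit 54) (nat_lit 3) (nat_lit 131) (nat_lit 125) (nat_lit 134)) (PT.nd (nat_lit 78) (PT.lf (nat_lit 4180) (nat_lit 6) (nat_lit 55) (nat_lit 3) (nat_lit 132) (nat_lit 125) (nat_lit 133)) (PT.lf (nat_lit 4180) (nat_lit 6) (nat_lit 55) (nat_lit 1) (nat_lit 133) (nat_lit 125) (nat_lit 132))))))))
noncomputable def pc2 : PT := (PT.nd (nat_lit 121290) (PT.nd (nat_lit 40794) (PT.nd (nat_lit 40326) (PT.nd (nat_lit 156) (PT.nd (nat_lit 78) (PT.lf (nat_lit 4104) (nat_lit 6) (nat_lit 54) (nat_lit 1) (nat_lit 134) (nat_lit 125) (nat_lit 131)) (PT.lf (nat_lit 4028) (nat_lit 6) (nat_lit 53) (nat_lit 1) (nat_lit 135) (nat_lit 125) (nat_lit 130))) (PT.nd (nat_lit 40014) (PT.lf (nat_lit 3496) (nat_lit 6) (nat_lit 46) (nat_lit 1) (nat_lit 136) (nat_lit 125) (nat_lit 129)) (PT.nd (nat_lit 78) (PT.lf (nat_lit 3420) (nat_lit 6) (nat_lit 45) (nat_lit 3) (nat_lit 128) (nat_lit 126) (nat_lit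 136)) (PT.lf (nat_lit 3952) (nat_lit 6) (nat_lit 52) (nat_lit 3) (nat_lit 129) (nat_lit 126) (nat_lit 135))))) (PT.nd (nat_lit 234) (PT.nd (nat_lit 78) (PT.lf (nat_lit 4408) (nat_lit 6) (nat_lit 58) (nat_lit 3) (nat_lit 130) (nat_lit 126) (nat_lit 134)) (PT.nd (nat_lit 78) (PT.lf (nat_lit 4484) (nat_lit 6) (nat_lit 59) (nat_lit 3) (nat_lit 131) (nat_lit 126) (nat_lit 133)) (PT.lf (nat_lit 4560) (nat_lit 3) (nat_lit 60) (nat_lit 1) (nat_lit 132) (nat_lit 126) (nat_lit 132)))) (PT.nd (nat_lit 78) (PT.lf (nat_lit 4484) (nat_lit 6) (nat_lit 59) (nat_lit 1) (nat_lit 133) (nat_lit 126) (nat_lit 131)) (PT.nd (nat_lit 78) (PT.lf (nat_lit 4408) (nat_lit 6) (nat_lit 58) (nat_lit 1) (nat_lit 134) (nat_lit 126) (nat_lit 130)) (PT.lf (nat_lit 3952) (nat_lit 6) (nat_lit 52) (nat_lit 1) (nat_lit 135) (nat_lit 126) (nat_lit 129)))))) (PT.nd (nat_lit 40248) (PT.nd (nat_lit 40014) (PT.nd (nat_lit 39936)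 (PT.lf (nat_lit 3420) (nat_lit 6) (nat_lit 45) (nat_lit 1) (nat_lit 136) (nat_lit 126) (nat_lit 128)) (PT.lf (nat_lit 3344) (nat_lit 3) (nat_lit 44) (nat_lit 3) (nat_lit 127) (nat_lit 127) (nat_lit 136))) (PT.nd (nat_lit 78) (PT.lf (nat_lit 3876) (nat_lit 6) (nat_lit 51) (nat_lit 3) (nat_lit 128) (nat_lit 127) (nat_lit 135)) (PT.nd (nat_lit 78) (PT.lf (nat_lit 4332) (nat_lit 6) (nat_lit 57) (nat_lit 3) (nat_lit 129) (nat_lit 127) (nat_lit 134)) (PT.lf (nat_lit 4712) (nat_lit 6) (nat_lit 62) (nat_lit 3) (nat_lit 130) (nat_lit 127) (nat_lit 133))))) (PT.nd (nat_lit 234) (PT.nd (nat_lit 78) (PT.lf (nat_lit 4788) (nat_lit 6) (nat_lit 63) (nat_lit 3) (nat_lit 131) (nat_lit 127) (nat_lit 132)) (PT.nd (nat_lit 78) (PT.lf (nat_lit 4788) (nat_lit 6) (nat_lit 63) (nat_lit 1) (nat_lit 132) (nat_lit 127) (nat_lit 131)) (PT.lf (nat_lit 4712) (nat_lit 6) (nat_lit 62) (nat_lit 1) (nat_lit 133) (nat_lit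 127) (nat_lit 130)))) (PT.nd (nat_lit 78) (PT.lf (nat_lit 4332) (nat_lit 6) (nat_lit 57) (nat_lit 1) (nat_lit 134) (nat_lit 127) (nat_lit 129)) (PT.nd (nat_lit 78) (PT.lf (nat_lit 3876) (nat_lit 6) (nat_lit 51) (nat_lit 1) (nat_lit 135) (nat_lit 127) (nat_lit 128)) (PT.lf (nat_lit 3344) (nat_lit 3) (nat_lit 44) (nat_lit 0) (nat_lit 136) (nat_lit 127) (nat_lit 127))))))) (PT.nd (nat_lit 40560) (PT.nd (nat_lit 390) (PT.nd (nat_lit 156) (PT.nd (nat_lit 78) (PT.lf (nat_lit 3420) (nat_lit 6) (nat_lit 45) (nat_lit 5) (nat_lit 126) (nat_lit 128) (nat_lit 136)) (PT.lf (nat_lit 3876) (nat_lit 6) (nat_lit 51) (nat_lit 5) (nat_lit 127) (nat_lit 128) (nat_lit 135))) (PT.nd (nat_lit 78) (PT.lf (nat_lit 4256) (nat_lit 3) (nat_lit 56) (nat_lit 3) (nat_lit 128) (nat_lit 128) (nat_lit 134)) (PT.nd (nat_lit 78) (PT.lf (nat_lit 4636) (nat_lit 6) (nat_lit 61) (nat_lit 3) (nat_lit 129) (nat_lit 128) (nat_lit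 133)) (PT.lf (nat_lit 4940) (nat_lit 6) (nat_lit 65) (nat_lit 3) (nat_lit 130) (nat_lit 128) (nat_lit 132))))) (PT.nd (nat_lit 234) (PT.nd (nat_lit 78) (PT.lf (nat_lit 5016) (nat_lit 3) (nat_lit 66) (nat_lit 1) (nat_lit 131) (nat_lit 128) (nat_lit 131)) (PT.nd (nat_lit 78) (PT.lf (nat_lit 4940) (nat_lit 6) (nat_lit 65) (nat_lit 1) (nat_lit 132) (nat_lit 128) (nat_lit 130)) (PT.lf (nat_lit 4636) (nat_lit 6) (nat_lit 61) (nat_lit 1) (nat_lit 133) (nat_lit 128) (nat_lit 129)))) (PT.nd (nat_lit 78) (PT.lf (nat_lit 4256) (nat_lit 3) (nat_lit 56) (nat_lit 0) (nat_lit 134) (nat_lit 128) (nat_lit 128)) (PT.nd (nat_lit 78) (PT.lf (nat_lit 3876) (nat_lit 6) (nat_lit 51) (nat_lit 0) (nat_lit 135) (nat_lit 128) (nat_lit 127)) (PT.lf (nat_lit 3420) (nat_lit 6) (nat_lit 45) (nat_lit 0) (nat_lit 136) (nat_lit 128) (nat_lit 126)))))) (PT.nd (nat_lit 390) (PT.nd (nat_lit 156) (PT.nd (nat_lit 78) (PT.lf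 (nat_lit 3496) (nat_lit 6) (nat_lit 46) (nat_lit 5) (nat_lit 125) (nat_lit 129) (nat_lit 136)) (PT.lf (nat_lit 3952) (nat_lit 6) (nat_lit 52) (nat_lit 5) (nat_lit 126) (nat_lit 129) (nat_lit 135))) (PT.nd (nat_lit 78) (PT.lf (nat_lit 4332) (nat_lit 6) (nat_lit 57) (nat_lit 5) (nat_lit 127) (nat_lit 129) (nat_lit 134)) (PT.nd (nat_lit 78) (PT.lf (nat_lit 4636) (nat_lit 6) (nat_lit 61) (nat_lit 5) (nat_lit 128) (nat_lit 129) (nat_lit 133)) (PT.lf (nat_lit 4864) (nat_lit 3) (nat_lit 64) (nat_lit 3) (nat_lit 129) (nat_lit 129) (nat_lit 132))))) (PT.nd (nat_lit 234) (PT.nd (nat_lit 78) (PT.lf (nat_lit 5092) (nat_lit 6) (nat_lit 67) (nat_lit 3) (nat_lit 130) (nat_lit 129) (nat_lit 131)) (PT.nd (nat_lit 78) (PT.lf (nat_lit 5092) (nat_lit 6) (nat_lit 67) (nat_lit 1) (nat_lit 131) (nat_lit 129) (nat_lit 130)) (PT.lf (nat_lit 4864) (nat_lit 3) (nat_lit 64) (nat_lit 0) (nat_lit 132) (nat_lit 129)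 (nat_lit 129)))) (PT.nd (nat_lit 78) (PT.lf (nat_lit 4636) (nat_lit 6) (nat_lit 61) (nat_lit 0) (nat_lit 133) (nat_lit 129) (nat_lit 128)) (PT.nd (nat_lit 78) (PT.lf (nat_lit 4332) (nat_lit 6) (nat_lit 57) (nat_lit 0) (nat_lit 134) (nat_lit 129) (nat_lit 127)) (PT.lf (nat_lit 3952) (nat_lit 6) (nat_lit 52) (nat_lit 0) (nat_lit 135) (nat_lit 129) (nat_lit 126))))))))
noncomputable def pc3 : PT := (PT.nd (nat_lit 80808) (PT.nd (nat_lit 40482) (PT.nd (nat_lit 40014) (PT.nd (nat_lit 39780) (PT.nd (nat_lit 39702) (PT.lf (nat_lit 3496) (nat_lit 6) (nat_lit 46) (nat_lit 0) (nat_lit 136) (nat_lit 129) (nat_lit 125)) (PT.lf (nat_lit 3572) (nat_lit 6) (nat_lit 47) (nat_lit 5) (nat_lit 124) (nat_lit 130) (nat_lit 136))) (PT.nd (nat_lit 78) (PT.lf (nat_lit 4028) (nat_lit 6) (nat_lit 53) (nat_lit 5) (nat_lit 125) (nat_lit 130) (nat_lit 135)) (PT.nd (nat_lit 78) (PT.lf (nat_lit 4408) (nat_lit 6) (nat_lit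 58) (nat_lit 5) (nat_lit 126) (nat_lit 130) (nat_lit 134)) (PT.lf (nat_lit 4712) (nat_lit 6) (nat_lit 62) (nat_lit 5) (nat_lit 127) (nat_lit 130) (nat_lit 133))))) (PT.nd (nat_lit 234) (PT.nd (nat_lit 78) (PT.lf (nat_lit 4940) (nat_lit 6) (nat_lit 65) (nat_lit 5) (nat_lit 128) (nat_lit 130) (nat_lit 132)) (PT.nd (nat_lit 78) (PT.lf (nat_lit 5092) (nat_lit 6) (nat_lit 67) (nat_lit 5) (nat_lit 129) (nat_lit 130) (nat_lit 131)) (PT.lf (nat_lit 5168) (nat_lit 1) (nat_lit 68) (nat_lit 0) (nat_lit 130) (nat_lit 130) (nat_lit 130)))) (PT.nd (nat_lit 78) (PT.lf (nat_lit 5092) (nat_lit 6) (nat_lit 67) (nat_lit 0) (nat_lit 131) (nat_lit 130) (nat_lit 129)) (PT.nd (nat_lit 78) (PT.lf (nat_lit 4940) (nat_lit 6) (nat_lit 65) (nat_lit 0) (nat_lit 132) (nat_lit 130) (nat_lit 128)) (PT.lf (nat_lit 4712) (nat_lit 6) (nat_lit 62) (nat_lit 0) (nat_lit 133) (nat_lit 130) (nat_lit 127)))))) (PT.nd (nat_lit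 39858) (PT.nd (nat_lit 156) (PT.nd (nat_lit 78) (PT.lf (nat_lit 4408) (nat_lit 6) (nat_lit 58) (nat_lit 0) (nat_lit 134) (nat_lit 130) (nat_lit 126)) (PT.lf (nat_lit 4028) (nat_lit 6) (nat_lit 53) (nat_lit 0) (nat_lit 135) (nat_lit 130) (nat_lit 125))) (PT.nd (nat_lit 39546) (PT.lf (nat_lit 3572) (nat_lit 6) (nat_lit 47) (nat_lit 0) (nat_lit 136) (nat_lit 130) (nat_lit 124)) (PT.nd (nat_lit 78) (PT.lf (nat_lit 2812) (nat_lit 6) (nat_lit 37) (nat_lit 5) (nat_lit 122) (nat_lit 131) (nat_lit 137)) (PT.lf (nat_lit 3116) (nat_lit 6) (nat_lit 41) (nat_lit 5) (nat_lit 123) (nat_lit 131) (nat_lit 136))))) (PT.nd (nat_lit 234) (PT.nd (nat_lit 78) (PT.lf (nat_lit 3648) (nat_lit 6) (nat_lit 48) (nat_lit 5) (nat_lit 124) (nat_lit 131) (nat_lit 135)) (PT.nd (nat_lit 78) (PT.lf (nat_lit 4104) (nat_lit 6) (nat_lit 54) (nat_lit 5) (nat_lit 125) (nat_lit 131) (nat_lit 134)) (PT.lf (nat_lit 4484) (nat_lit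 6) (nat_lit 59) (nat_lit 5) (nat_lit 126) (nat_lit 131) (nat_lit 133)))) (PT.nd (nat_lit 78) (PT.lf (nat_lit 4788) (nat_lit 6) (nat_lit 63) (nat_lit 5) (nat_lit 127) (nat_lit 131) (nat_lit 132)) (PT.nd (nat_lit 78) (PT.lf (nat_lit 5016) (nat_lit 3) (nat_lit 66) (nat_lit 4) (nat_lit 128) (nat_lit 131) (nat_lit 131)) (PT.lf (nat_lit 5092) (nat_lit 6) (nat_lit 67) (nat_lit 4) (nat_lit 129) (nat_lit 131) (nat_lit 130))))))) (PT.nd (nat_lit 40170) (PT.nd (nat_lit 390) (PT.nd (nat_lit 156) (PT.nd (nat_lit 78) (PT.lf (nat_lit 5092) (nat_lit 6) (nat_lit 67) (nat_lit 2) (nat_lit 130) (nat_lit 131) (nat_lit 129)) (PT.lf (nat_lit 5016) (nat_lit 3) (nat_lit 66) (nat_lit 0) (nat_lit 131) (nat_lit 131) (nat_lit 128))) (PT.nd (nat_lit 78) (PT.lf (nat_lit 4788) (nat_lit 6) (nat_lit 63) (nat_lit 0) (nat_lit 132) (nat_lit 131) (nat_lit 127)) (PT.nd (nat_lit 78) (PT.lf (nat_lit 4484) (nat_lit 6) (nat_lit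 59) (nat_lit 0) (nat_lit 133) (nat_lit 131) (nat_lit 126)) (PT.lf (nat_lit 4104) (nat_lit 6) (nat_lit 54) (nat_lit 0) (nat_lit 134) (nat_lit 131) (nat_lit 125))))) (PT.nd (nat_lit 39546) (PT.nd (nat_lit 78) (PT.lf (nat_lit 3648) (nat_lit 6) (nat_lit 48) (nat_lit 0) (nat_lit 135) (nat_lit 131) (nat_lit 124)) (PT.nd (nat_lit 78) (PT.lf (nat_lit 3116) (nat_lit 6) (nat_lit 41) (nat_lit 0) (nat_lit 136) (nat_lit 131) (nat_lit 123)) (PT.lf (nat_lit 2812) (nat_lit 6) (nat_lit 37) (nat_lit 0) (nat_lit 137) (nat_lit 131) (nat_lit 122)))) (PT.nd (nat_lit 78) (PT.lf (nat_lit 2584) (nat_lit 6) (nat_lit 34) (nat_lit 5) (nat_lit 121) (nat_lit 132) (nat_lit 137)) (PT.nd (nat_lit 78) (PT.lf (nat_lit 2888) (nat_lit 6) (nat_lit 38) (nat_lit 5) (nat_lit 122) (nat_lit 132) (nat_lit 136)) (PT.lf (nat_lit 3192) (nat_lit 6) (nat_lit 42) (nat_lit 5) (nat_lit 123) (nat_lit 132) (nat_lit 135)))))) (PT.nd (nat_lit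 468) (PT.nd (nat_lit 234) (PT.nd (nat_lit 78) (PT.lf (nat_lit 3724) (nat_lit 6) (nat_lit 49) (nat_lit 5) (nat_lit 124) (nat_lit 132) (nat_lit 134)) (PT.nd (nat_lit 78) (PT.lf (nat_lit 4180) (nat_lit 6) (nat_lit 55) (nat_lit 5) (nat_lit 125) (nat_lit 132) (nat_lit 133)) (PT.lf (nat_lit 4560) (nat_lit 3) (nat_lit 60) (nat_lit 4) (nat_lit 126) (nat_lit 132) (nat_lit 132)))) (PT.nd (nat_lit 78) (PT.lf (nat_lit 4788) (nat_lit 6) (nat_lit 63) (nat_lit 4) (nat_lit 127) (nat_lit 132) (nat_lit 131)) (PT.nd (nat_lit 78) (PT.lf (nat_lit 4940) (nat_lit 6) (nat_lit 65) (nat_lit 4) (nat_lit 128) (nat_lit 132) (nat_lit 130)) (PT.lf (nat_lit 4864) (nat_lit 3) (nat_lit 64) (nat_lit 2) (nat_lit 129) (nat_lit 132) (nat_lit 129))))) (PT.nd (nat_lit 234) (PT.nd (nat_lit 78) (PT.lf (nat_lit 4940) (nat_lit 6) (nat_lit 65) (nat_lit 2) (nat_lit 130) (nat_lit 132) (nat_lit 128)) (PT.nd (nat_lit 78) (PT.lf (nat_lit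 4788) (nat_lit 6) (nat_lit 63) (nat_lit 2) (nat_lit 131) (nat_lit 132) (nat_lit 127)) (PT.lf (nat_lit 4560) (nat_lit 3) (nat_lit 60) (nat_lit 0) (nat_lit 132) (nat_lit 132) (nat_lit 126)))) (PT.nd (nat_lit 78) (PT.lf (nat_lit 4180) (nat_lit 6) (nat_lit 55) (nat_lit 0) (nat_lit 133) (nat_lit 132) (nat_lit 125)) (PT.nd (nat_lit 78) (PT.lf (nat_lit 3724) (nat_lit 6) (nat_lit 49) (nat_lit 0) (nat_lit 134) (nat_lit 132) (nat_lit 124)) (PT.lf (nat_lit 3192) (nat_lit 6) (nat_lit 42) (nat_lit 0) (nat_lit 135) (nat_lit 132) (nat_lit 123))))))))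
noncomputable def pc4 : PT := (PT.nd (nat_lit 80028) (PT.nd (nat_lit 40092) (PT.nd (nat_lit 39624) (PT.nd (nat_lit 39390) (PT.nd (nat_lit 78) (PT.lf (nat_lit 2888) (nat_lit 6) (nat_lit 38) (nat_lit 0) (nat_lit 136) (nat_lit 132) (nat_lit 122)) (PT.lf (nat_lit 2584) (nat_lit 6) (nat_lit 34) (nat_lit 0) (nat_lit 137) (nat_lit 132) (nat_lit 121))) (PT.nd (nat_lit 78) (PT.lf (nat_lit 2356) (nat_lit 6) (nat_lit 31) (nat_lit 5) (nat_lit 120) (nat_lit 133) (nat_lit 137)) (PT.nd (nat_lit 78) (PT.lf (nat_lit 2660) (nat_lit 6) (nat_lit 35) (nat_lit 5) (nat_lit 121) (nat_lit 133) (nat_lit 136)) (PT.lf (nat_lit 2964) (nat_lit 6) (nat_lit 39) (nat_lit 5) (nat_lit 122) (nat_lit 133) (nat_lit 135))))) (PT.nd (nat_lit 234) (PT.nd (nat_lit 78) (PT.lf (nat_lit 3268) (nat_lit 6) (nat_lit 43) (nat_lit 5) (nat_lit 123) (nat_lit 133) (nat_lit 134)) (PT.nd (nat_lit 78) (PT.lf (nat_lit 3800) (nat_lit 3) (nat_lit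 50) (nat_lit 4) (nat_lit 124) (nat_lit 133) (nat_lit 133)) (PT.lf (nat_lit 4180) (nat_lit 6) (nat_lit 55) (nat_lit 4) (nat_lit 125) (nat_lit 133) (nat_lit 132)))) (PT.nd (nat_lit 78) (PT.lf (nat_lit 4484) (nat_lit 6) (nat_lit 59) (nat_lit 4) (nat_lit 126) (nat_lit 133) (nat_lit 131)) (PT.nd (nat_lit 78) (PT.lf (nat_lit 4712) (nat_lit 6) (nat_lit 62) (nat_lit 4) (nat_lit 127) (nat_lit 133) (nat_lit 130)) (PT.lf (nat_lit 4636) (nat_lit 6) (nat_lit 61) (nat_lit 4) (nat_lit 128) (nat_lit 133) (nat_lit 129)))))) (PT.nd (nat_lit 390) (PT.nd (nat_lit 156) (PT.nd (nat_lit 78) (PT.lf (nat_lit 4636) (nat_lit 6) (nat_lit 61) (nat_lit 2) (nat_lit 129) (nat_lit 133) (nat_lit 128)) (PT.lf (nat_lit 4712) (nat_lit 6) (nat_lit 62) (nat_lit 2) (nat_lit 130) (nat_lit 133) (nat_lit 127))) (PT.nd (nat_lit 78) (PT.lf (nat_lit 4484) (nat_lit 6) (nat_lit 59) (nat_lit 2) (nat_lit 131) (nat_lit 133) (nat_lit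 126)) (PT.nd (nat_lit 78) (PT.lf (nat_lit 4180) (nat_lit 6) (nat_lit 55) (nat_lit 2) (nat_lit 132) (nat_lit 133) (nat_lit 125)) (PT.lf (nat_lit 3800) (nat_lit 3) (nat_lit 50) (nat_lit 0) (nat_lit 133) (nat_lit 133) (nat_lit 124))))) (PT.nd (nat_lit 234) (PT.nd (nat_lit 78) (PT.lf (nat_lit 3268) (nat_lit 6) (nat_lit 43) (nat_lit 0) (nat_lit 134) (nat_lit 133) (nat_lit 123)) (PT.nd (nat_lit 78) (PT.lf (nat_lit 2964) (nat_lit 6) (nat_lit 39) (nat_lit 0) (nat_lit 135) (nat_lit 133) (nat_lit 122)) (PT.lf (nat_lit 2660) (nat_lit 6) (nat_lit 35) (nat_lit 0) (nat_lit 136) (nat_lit 133) (nat_lit 121)))) (PT.nd (nat_lit 39156) (PT.lf (nat_lit 2356) (nat_lit 6) (nat_lit 31) (nat_lit 0) (nat_lit 137) (nat_lit 133) (nat_lit 120)) (PT.nd (nat_lit 78) (PT.lf (nat_lit 1976) (nat_lit 6) (nat_lit 26) (nat_lit 5) (nat_lit 118) (nat_lit 134) (nat_lit 138)) (PT.lf (nat_lit 2204) (nat_lit 6) (nat_lit 29)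 (nat_lit 5) (nat_lit 119) (nat_lit 134) (nat_lit 137))))))) (PT.nd (nat_lit 858) (PT.nd (nat_lit 390) (PT.nd (nat_lit 156) (PT.nd (nat_lit 78) (PT.lf (nat_lit 2432) (nat_lit 6) (nat_lit 32) (nat_lit 5) (nat_lit 120) (nat_lit 134) (nat_lit 136)) (PT.lf (nat_lit 2736) (nat_lit 6) (nat_lit 36) (nat_lit 5) (nat_lit 121) (nat_lit 134) (nat_lit 135))) (PT.nd (nat_lit 78) (PT.lf (nat_lit 3040) (nat_lit 3) (nat_lit 40) (nat_lit 4) (nat_lit 122) (nat_lit 134) (nat_lit 134)) (PT.nd (nat_lit 78) (PT.lf (nat_lit 3268) (nat_lit 6) (nat_lit 43) (nat_lit 4) (nat_lit 123) (nat_lit 134) (nat_lit 133)) (PT.lf (nat_lit 3724) (nat_lit 6) (nat_lit 49) (nat_lit 4) (nat_lit 124) (nat_lit 134) (nat_lit 132))))) (PT.nd (nat_lit 234) (PT.nd (nat_lit 78) (PT.lf (nat_lit 4104) (nat_lit 6) (nat_lit 54) (nat_lit 4) (nat_lit 125) (nat_lit 134) (nat_lit 131)) (PT.nd (nat_lit 78) (PT.lf (nat_lit 4408) (nat_lit 6) (nat_lit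 58) (nat_lit 4) (nat_lit 126) (nat_lit 134) (nat_lit 130)) (PT.lf (nat_lit 4332) (nat_lit 6) (nat_lit 57) (nat_lit 4) (nat_lit 127) (nat_lit 134) (nat_lit 129)))) (PT.nd (nat_lit 78) (PT.lf (nat_lit 4256) (nat_lit 3) (nat_lit 56) (nat_lit 2) (nat_lit 128) (nat_lit 134) (nat_lit 128)) (PT.nd (nat_lit 78) (PT.lf (nat_lit 4332) (nat_lit 6) (nat_lit 57) (nat_lit 2) (nat_lit 129) (nat_lit 134) (nat_lit 127)) (PT.lf (nat_lit 4408) (nat_lit 6) (nat_lit 58) (nat_lit 2) (nat_lit 130) (nat_lit 134) (nat_lit 126)))))) (PT.nd (nat_lit 390) (PT.nd (nat_lit 156) (PT.nd (nat_lit 78) (PT.lf (nat_lit 4104) (nat_lit 6) (nat_lit 54) (nat_lit 2) (nat_lit 131) (nat_lit 134) (nat_lit 125)) (PT.lf (nat_lit 3724) (nat_lit 6) (nat_lit 49) (nat_lit 2) (nat_lit 132) (nat_lit 134) (nat_lit 124))) (PT.nd (nat_lit 78) (PT.lf (nat_lit 3268) (nat_lit 6) (nat_lit 43) (nat_lit 2) (nat_lit 133) (nat_lit 134) (nat_lit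 123)) (PT.nd (nat_lit 78) (PT.lf (nat_lit 3040) (nat_lit 3) (nat_lit 40) (nat_lit 0) (nat_lit 134) (nat_lit 134) (nat_lit 122)) (PT.lf (nat_lit 2736) (nat_lit 6) (nat_lit 36) (nat_lit 0) (nat_lit 135) (nat_lit 134) (nat_lit 121))))) (PT.nd (nat_lit 39156) (PT.nd (nat_lit 78) (PT.lf (nat_lit 2432) (nat_lit 6) (nat_lit 32) (nat_lit 0) (nat_lit 136) (nat_lit 134) (nat_lit 120)) (PT.nd (nat_lit 78) (PT.lf (nat_lit 2204) (nat_lit 6) (nat_lit 29) (nat_lit 0) (nat_lit 137) (nat_lit 134) (nat_lit 119)) (PT.lf (nat_lit 1976) (nat_lit 6) (nat_lit 26) (nat_lit 0) (nat_lit 138) (nat_lit 134) (nat_lit 118)))) (PT.nd (nat_lit 78) (PT.lf (nat_lit 1824) (nat_lit 6) (nat_lit 24) (nat_lit 5) (nat_lit 117) (nat_lit 135) (nat_lit 138)) (PT.nd (nat_lit 78) (PT.lf (nat_lit 2052) (nat_lit 6) (nat_lit 27) (nat_lit 5) (nat_lit 118) (nat_lit 135) (nat_lit 137)) (PT.lf (nat_lit 2280) (nat_lit 6) (nat_lit 30) (nat_lit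 5) (nat_lit 119) (nat_lit 135) (nat_lit 136))))))))
noncomputable def pc5 : PT := (PT.nd (nat_lit 40482) (PT.nd (nat_lit 858) (PT.nd (nat_lit 390) (PT.nd (nat_lit 156) (PT.nd (nat_lit 78) (PT.lf (nat_lit 2508) (nat_lit 3) (nat_lit 33) (nat_lit 4) (nat_lit 120) (nat_lit 135) (nat_lit 135)) (PT.lf (nat_lit 2736) (nat_lit 6) (nat_lit 36) (nat_lit 4) (nat_lit 121) (nat_lit 135) (nat_lit 134))) (PT.nd (nat_lit 78) (PT.lf (nat_lit 2964) (nat_lit 6) (nat_lit 39) (nat_lit 4) (nat_lit 122) (nat_lit 135) (nat_lit 133)) (PT.nd (nat_lit 78) (PT.lf (nat_lit 3192) (nat_lit 6) (nat_lit 42) (nat_lit 4) (nat_lit 123) (nat_lit 135) (nat_lit 132)) (PT.lf (nat_lit 3648) (nat_lit 6) (nat_lit 48) (nat_lit 4) (nat_lit 124) (nat_lit 135) (nat_lit 131))))) (PT.nd (nat_lit 234) (PT.nd (nat_lit 78) (PT.lf (nat_lit 4028) (nat_lit 6) (nat_lit 53) (nat_lit 4) (nat_lit 125) (nat_lit 135) (nat_lit 130)) (PT.nd (nat_lit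 78) (PT.lf (nat_lit 3952) (nat_lit 6) (nat_lit 52) (nat_lit 4) (nat_lit 126) (nat_lit 135) (nat_lit 129)) (PT.lf (nat_lit 3876) (nat_lit 6) (nat_lit 51) (nat_lit 4) (nat_lit 127) (nat_lit 135) (nat_lit 128)))) (PT.nd (nat_lit 78) (PT.lf (nat_lit 3876) (nat_lit 6) (nat_lit 51) (nat_lit 2) (nat_lit 128) (nat_lit 135) (nat_lit 127)) (PT.nd (nat_lit 78) (PT.lf (nat_lit 3952) (nat_lit 6) (nat_lit 52) (nat_lit 2) (nat_lit 129) (nat_lit 135) (nat_lit 126)) (PT.lf (nat_lit 4028) (nat_lit 6) (nat_lit 53) (nat_lit 2) (nat_lit 130) (nat_lit 135) (nat_lit 125)))))) (PT.nd (nat_lit 390) (PT.nd (nat_lit 156) (PT.nd (nat_lit 78) (PT.lf (nat_lit 3648) (nat_lit 6) (nat_lit 48) (nat_lit 2) (nat_lit 131) (nat_lit 135) (nat_lit 124)) (PT.lf (nat_lit 3192) (nat_lit 6) (nat_lit 42) (nat_lit 2) (nat_lit 132) (nat_lit 135) (nat_lit 123))) (PT.nd (nat_lit 78) (PT.lf (nat_lit 2964) (nat_lit 6) (nat_lit 39) (nat_lit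 2) (nat_lit 133) (nat_lit 135) (nat_lit 122)) (PT.nd (nat_lit 78) (PT.lf (nat_lit 2736) (nat_lit 6) (nat_lit 36) (nat_lit 2) (nat_lit 134) (nat_lit 135) (nat_lit 121)) (PT.lf (nat_lit 2508) (nat_lit 3) (nat_lit 33) (nat_lit 0) (nat_lit 135) (nat_lit 135) (nat_lit 120))))) (PT.nd (nat_lit 39000) (PT.nd (nat_lit 78) (PT.lf (nat_lit 2280) (nat_lit 6) (nat_lit 30) (nat_lit 0) (nat_lit 136) (nat_lit 135) (nat_lit 119)) (PT.nd (nat_lit 78) (PT.lf (nat_lit 2052) (nat_lit 6) (nat_lit 27) (nat_lit 0) (nat_lit 137) (nat_lit 135) (nat_lit 118)) (PT.lf (nat_lit 1824) (nat_lit 6) (nat_lit 24) (nat_lit 0) (nat_lit 138) (nat_lit 135) (nat_lit 117)))) (PT.nd (nat_lit 78) (PT.lf (nat_lit 1520) (nat_lit 6) (nat_lit 20) (nat_lit 5) (nat_lit 115) (nat_lit 136) (nat_lit 139)) (PT.nd (nat_lit 78) (PT.lf (nat_lit 1672) (nat_lit 6) (nat_lit 22) (nat_lit 5) (nat_lit 116) (nat_lit 136) (nat_lit 138)) (PT.lf (nat_lit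 1900) (nat_lit 6) (nat_lit 25) (nat_lit 5) (nat_lit 117) (nat_lit 136) (nat_lit 137))))))) (PT.nd (nat_lit 858) (PT.nd (nat_lit 390) (PT.nd (nat_lit 156) (PT.nd (nat_lit 78) (PT.lf (nat_lit 2128) (nat_lit 3) (nat_lit 28) (nat_lit 4) (nat_lit 118) (nat_lit 136) (nat_lit 136)) (PT.lf (nat_lit 2280) (nat_lit 6) (nat_lit 30) (nat_lit 4) (nat_lit 119) (nat_lit 136) (nat_lit 135))) (PT.nd (nat_lit 78) (PT.lf (nat_lit 2432) (nat_lit 6) (nat_lit 32) (nat_lit 4) (nat_lit 120) (nat_lit 136) (nat_lit 134)) (PT.nd (nat_lit 78) (PT.lf (nat_lit 2660) (nat_lit 6) (nat_lit 35) (nat_lit 4) (nat_lit 121) (nat_lit 136) (nat_lit 133)) (PT.lf (nat_lit 2888) (nat_lit 6) (nat_lit 38) (nat_lit 4) (nat_lit 122) (nat_lit 136) (nat_lit 132))))) (PT.nd (nat_lit 234) (PT.nd (nat_lit 78) (PT.lf (nat_lit 3116) (nat_lit 6) (nat_lit 41) (nat_lit 4) (nat_lit 123) (nat_lit 136) (nat_lit 131)) (PT.nd (nat_lit 78) (PT.lf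 (nat_lit 3572) (nat_lit 6) (nat_lit 47) (nat_lit 4) (nat_lit 124) (nat_lit 136) (nat_lit 130)) (PT.lf (nat_lit 3496) (nat_lit 6) (nat_lit 46) (nat_lit 4) (nat_lit 125) (nat_lit 136) (nat_lit 129)))) (PT.nd (nat_lit 78) (PT.lf (nat_lit 3420) (nat_lit 6) (nat_lit 45) (nat_lit 4) (nat_lit 126) (nat_lit 136) (nat_lit 128)) (PT.nd (nat_lit 78) (PT.lf (nat_lit 3344) (nat_lit 3) (nat_lit 44) (nat_lit 2) (nat_lit 127) (nat_lit 136) (nat_lit 127)) (PT.lf (nat_lit 3420) (nat_lit 6) (nat_lit 45) (nat_lit 2) (nat_lit 128) (nat_lit 136) (nat_lit 126)))))) (PT.nd (nat_lit 468) (PT.nd (nat_lit 234) (PT.nd (nat_lit 78) (PT.lf (nat_lit 3496) (nat_lit 6) (nat_lit 46) (nat_lit 2) (nat_lit 129) (nat_lit 136) (nat_lit 125)) (PT.nd (nat_lit 78) (PT.lf (nat_lit 3572) (nat_lit 6) (nat_lit 47) (nat_lit 2) (nat_lit 130) (nat_lit 136) (nat_lit 124)) (PT.lf (nat_lit 3116) (nat_lit 6) (nat_lit 41) (nat_lit 2) (nat_lit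 131) (nat_lit 136) (nat_lit 123)))) (PT.nd (nat_lit 78) (PT.lf (nat_lit 2888) (nat_lit 6) (nat_lit 38) (nat_lit 2) (nat_lit 132) (nat_lit 136) (nat_lit 122)) (PT.nd (nat_lit 78) (PT.lf (nat_lit 2660) (nat_lit 6) (nat_lit 35) (nat_lit 2) (nat_lit 133) (nat_lit 136) (nat_lit 121)) (PT.lf (nat_lit 2432) (nat_lit 6) (nat_lit 32) (nat_lit 2) (nat_lit 134) (nat_lit 136) (nat_lit 120))))) (PT.nd (nat_lit 234) (PT.nd (nat_lit 78) (PT.lf (nat_lit 2280) (nat_lit 6) (nat_lit 30) (nat_lit 2) (nat_lit 135) (nat_lit 136) (nat_lit 119)) (PT.nd (nat_lit 78) (PT.lf (nat_lit 2128) (nat_lit 3) (nat_lit 28) (nat_lit 0) (nat_lit 136) (nat_lit 136) (nat_lit 118)) (PT.lf (nat_lit 1900) (nat_lit 6) (nat_lit 25) (nat_lit 0) (nat_lit 137) (nat_lit 136) (nat_lit 117)))) (PT.nd (nat_lit 78) (PT.lf (nat_lit 1672) (nat_lit 6) (nat_lit 22) (nat_lit 0) (nat_lit 138) (nat_lit 136) (nat_lit 116)) (PT.nd (nat_lit 38610)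 (PT.lf (nat_lit 1520) (nat_lit 6) (nat_lit 20) (nat_lit 0) (nat_lit 139) (nat_lit 136) (nat_lit 115)) (PT.lf (nat_lit 1216) (nat_lit 6) (nat_lit 16) (nat_lit 5) (nat_lit 113) (nat_lit 137) (nat_lit 140))))))))
noncomputable def pc6 : PT := (PT.nd (nat_lit 40716) (PT.nd (nat_lit 1482) (PT.nd (nat_lit 390) (PT.nd (nat_lit 156) (PT.nd (nat_lit 78) (PT.lf (nat_lit 1368) (nat_lit 6) (nat_lit 18) (nat_lit 5) (nat_lit 114) (nat_lit 137) (nat_lit 139)) (PT.lf (nat_lit 1596) (nat_lit 6) (nat_lit 21) (nat_lit 5) (nat_lit 115) (nat_lit 137) (nat_lit 138))) (PT.nd (nat_lit 78) (PT.lf (nat_lit 1748) (nat_lit 3) (nat_lit 23) (nat_lit 4) (nat_lit 116) (nat_lit 137) (nat_lit 137)) (PT.nd (nat_lit 78) (PT.lf (nat_lit 1900) (nat_lit 6) (nat_lit 25) (nat_lit 4) (nat_lit 117) (nat_lit 137) (nat_lit 136)) (PT.lf (nat_lit 2052) (nat_lit 6) (nat_lit 27) (nat_lit 4) (nat_lit 118) (nat_lit 137) (nat_lit 135)))))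 (PT.nd (nat_lit 234) (PT.nd (nat_lit 78) (PT.lf (nat_lit 2204) (nat_lit 6) (nat_lit 29) (nat_lit 4) (nat_lit 119) (nat_lit 137) (nat_lit 134)) (PT.nd (nat_lit 78) (PT.lf (nat_lit 2356) (nat_lit 6) (nat_lit 31) (nat_lit 4) (nat_lit 120) (nat_lit 137) (nat_lit 133)) (PT.lf (nat_lit 2584) (nat_lit 6) (nat_lit 34) (nat_lit 4) (nat_lit 121) (nat_lit 137) (nat_lit 132)))) (PT.nd (nat_lit 702) (PT.lf (nat_lit 2812) (nat_lit 6) (nat_lit 37) (nat_lit 4) (nat_lit 122) (nat_lit 137) (nat_lit 131)) (PT.nd (nat_lit 78) (PT.lf (nat_lit 2812) (nat_lit 6) (nat_lit 37) (nat_lit 2) (nat_lit 131) (nat_lit 137) (nat_lit 122)) (PT.lf (nat_lit 2584) (nat_lit 6) (nat_lit 34) (nat_lit 2) (nat_lit 132) (nat_lit 137) (nat_lit 121)))))) (PT.nd (nat_lit 390) (PT.nd (nat_lit 156) (PT.nd (nat_lit 78) (PT.lf (nat_lit 2356) (nat_lit 6) (nat_lit 31) (nat_lit 2) (nat_lit 133) (nat_lit 137) (nat_lit 120)) (PT.lf (nat_lit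 2204) (nat_lit 6) (nat_lit 29) (nat_lit 2) (nat_lit 134) (nat_lit 137) (nat_lit 119))) (PT.nd (nat_lit 78) (PT.lf (nat_lit 2052) (nat_lit 6) (nat_lit 27) (nat_lit 2) (nat_lit 135) (nat_lit 137) (nat_lit 118)) (PT.nd (nat_lit 78) (PT.lf (nat_lit 1900) (nat_lit 6) (nat_lit 25) (nat_lit 2) (nat_lit 136) (nat_lit 137) (nat_lit 117)) (PT.lf (nat_lit 1748) (nat_lit 3) (nat_lit 23) (nat_lit 0) (nat_lit 137) (nat_lit 137) (nat_lit 116))))) (PT.nd (nat_lit 38610) (PT.nd (nat_lit 78) (PT.lf (nat_lit 1596) (nat_lit 6) (nat_lit 21) (nat_lit 0) (nat_lit 138) (nat_lit 137) (nat_lit 115)) (PT.nd (nat_lit 78) (PT.lf (nat_lit 1368) (nat_lit 6) (nat_lit 18) (nat_lit 0) (nat_lit 139) (nat_lit 137) (nat_lit 114)) (PT.lf (nat_lit 1216) (nat_lit 6) (nat_lit 16) (nat_lit 0) (nat_lit 140) (nat_lit 137) (nat_lit 113)))) (PT.nd (nat_lit 78) (PT.lf (nat_lit 1064) (nat_lit 6) (nat_lit 14) (nat_lit 5) (nat_lit 112)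 (nat_lit 138) (nat_lit 140)) (PT.nd (nat_lit 78) (PT.lf (nat_lit 1292) (nat_lit 6) (nat_lit 17) (nat_lit 5) (nat_lit 113) (nat_lit 138) (nat_lit 139)) (PT.lf (nat_lit 1444) (nat_lit 3) (nat_lit 19) (nat_lit 4) (nat_lit 114) (nat_lit 138) (nat_lit 138))))))) (PT.nd (nat_lit 40248) (PT.nd (nat_lit 1560) (PT.nd (nat_lit 156) (PT.nd (nat_lit 78) (PT.lf (nat_lit 1596) (nat_lit 6) (nat_lit 21) (nat_lit 4) (nat_lit 115) (nat_lit 138) (nat_lit 137)) (PT.lf (nat_lit 1672) (nat_lit 6) (nat_lit 22) (nat_lit 4) (nat_lit 116) (nat_lit 138) (nat_lit 136))) (PT.nd (nat_lit 78) (PT.lf (nat_lit 1824) (nat_lit 6) (nat_lit 24) (nat_lit 4) (nat_lit 117) (nat_lit 138) (nat_lit 135)) (PT.nd (nat_lit 1248) (PT.lf (nat_lit 1976) (nat_lit 6) (nat_lit 26) (nat_lit 4) (nat_lit 118) (nat_lit 138) (nat_lit 134)) (PT.lf (nat_lit 1976) (nat_lit 6) (nat_lit 26) (nat_lit 2) (nat_lit 134) (nat_lit 138) (nat_lit 118)))))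 (PT.nd (nat_lit 234) (PT.nd (nat_lit 78) (PT.lf (nat_lit 1824) (nat_lit 6) (nat_lit 24) (nat_lit 2) (nat_lit 135) (nat_lit 138) (nat_lit 117)) (PT.nd (nat_lit 78) (PT.lf (nat_lit 1672) (nat_lit 6) (nat_lit 22) (nat_lit 2) (nat_lit 136) (nat_lit 138) (nat_lit 116)) (PT.lf (nat_lit 1596) (nat_lit 6) (nat_lit 21) (nat_lit 2) (nat_lit 137) (nat_lit 138) (nat_lit 115)))) (PT.nd (nat_lit 78) (PT.lf (nat_lit 1444) (nat_lit 3) (nat_lit 19) (nat_lit 0) (nat_lit 138) (nat_lit 138) (nat_lit 114)) (PT.nd (nat_lit 78) (PT.lf (nat_lit 1292) (nat_lit 6) (nat_lit 17) (nat_lit 0) (nat_lit 139) (nat_lit 138) (nat_lit 113)) (PT.lf (nat_lit 1064) (nat_lit 6) (nat_lit 14) (nat_lit 0) (nat_lit 140) (nat_lit 138) (nat_lit 112)))))) (PT.nd (nat_lit 390) (PT.nd (nat_lit 156) (PT.nd (nat_lit 78) (PT.lf (nat_lit 836) (nat_lit 6) (nat_lit 11) (nat_lit 5) (nat_lit 110) (nat_lit 139) (nat_lit 141)) (PT.lf (nat_lit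 988) (nat_lit 6) (nat_lit 13) (nat_lit 5) (nat_lit 111) (nat_lit 139) (nat_lit 140))) (PT.nd (nat_lit 78) (PT.lf (nat_lit 1140) (nat_lit 3) (nat_lit 15) (nat_lit 4) (nat_lit 112) (nat_lit 139) (nat_lit 139)) (PT.nd (nat_lit 78) (PT.lf (nat_lit 1292) (nat_lit 6) (nat_lit 17) (nat_lit 4) (nat_lit 113) (nat_lit 139) (nat_lit 138)) (PT.lf (nat_lit 1368) (nat_lit 6) (nat_lit 18) (nat_lit 4) (nat_lit 114) (nat_lit 139) (nat_lit 137))))) (PT.nd (nat_lit 1794) (PT.nd (nat_lit 1638) (PT.lf (nat_lit 1520) (nat_lit 6) (nat_lit 20) (nat_lit 4) (nat_lit 115) (nat_lit 139) (nat_lit 136)) (PT.nd (nat_lit 78) (PT.lf (nat_lit 1520) (nat_lit 6) (nat_lit 20) (nat_lit 2) (nat_lit 136) (nat_lit 139) (nat_lit 115)) (PT.lf (nat_lit 1368) (nat_lit 6) (nat_lit 18) (nat_lit 2) (nat_lit 137) (nat_lit 139) (nat_lit 114)))) (PT.nd (nat_lit 78) (PT.lf (nat_lit 1292) (nat_lit 6) (nat_lit 17) (nat_lit 2) (nat_lit 138)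 (nat_lit 139) (nat_lit 113)) (PT.nd (nat_lit 78) (PT.lf (nat_lit 1140) (nat_lit 3) (nat_lit 15) (nat_lit 0) (nat_lit 139) (nat_lit 139) (nat_lit 112)) (PT.lf (nat_lit 988) (nat_lit 6) (nat_lit 13) (nat_lit 0) (nat_lit 140) (nat_lit 139) (nat_lit 111))))))))
noncomputable def pc7 : PT := (PT.nd (nat_lit 81432) (PT.nd (nat_lit 40638) (PT.nd (nat_lit 38376) (PT.nd (nat_lit 38142) (PT.nd (nat_lit 38064) (PT.lf (nat_lit 836) (nat_lit 6) (nat_lit 11) (nat_lit 0) (nat_lit 141) (nat_lit 139) (nat_lit 110)) (PT.lf (nat_lit 608) (nat_lit 6) (nat_lit 8) (nat_lit 5) (nat_lit 108) (nat_lit 140) (nat_lit 142))) (PT.nd (nat_lit 78) (PT.lf (nat_lit 760) (nat_lit 6) (nat_lit 10) (nat_lit 5) (nat_lit 109) (nat_lit 140) (nat_lit 141)) (PT.nd (nat_lit 78) (PT.lf (nat_lit 912) (nat_lit 3) (nat_lit 12) (nat_lit 4) (nat_lit 110) (nat_lit 140) (nat_lit 140)) (PT.lf (nat_lit 988) (nat_lit 6) (nat_lit 13) (nat_lit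 4) (nat_lit 111) (nat_lit 140) (nat_lit 139))))) (PT.nd (nat_lit 2028) (PT.nd (nat_lit 78) (PT.lf (nat_lit 1064) (nat_lit 6) (nat_lit 14) (nat_lit 4) (nat_lit 112) (nat_lit 140) (nat_lit 138)) (PT.nd (nat_lit 1872) (PT.lf (nat_lit 1216) (nat_lit 6) (nat_lit 16) (nat_lit 4) (nat_lit 113) (nat_lit 140) (nat_lit 137)) (PT.lf (nat_lit 1216) (nat_lit 6) (nat_lit 16) (nat_lit 2) (nat_lit 137) (nat_lit 140) (nat_lit 113)))) (PT.nd (nat_lit 78) (PT.lf (nat_lit 1064) (nat_lit 6) (nat_lit 14) (nat_lit 2) (nat_lit 138) (nat_lit 140) (nat_lit 112)) (PT.nd (nat_lit 78) (PT.lf (nat_lit 988) (nat_lit 6) (nat_lit 13) (nat_lit 2) (nat_lit 139) (nat_lit 140) (nat_lit 111)) (PT.lf (nat_lit 912) (nat_lit 3) (nat_lit 12) (nat_lit 0) (nat_lit 140) (nat_lit 140) (nat_lit 110)))))) (PT.nd (nat_lit 38142) (PT.nd (nat_lit 37908) (PT.nd (nat_lit 78) (PT.lf (nat_lit 760) (nat_lit 6) (nat_lit 10) (nat_lit 0) (nat_lit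 141) (nat_lit 140) (nat_lit 109)) (PT.lf (nat_lit 608) (nat_lit 6) (nat_lit 8) (nat_lit 0) (nat_lit 142) (nat_lit 140) (nat_lit 108))) (PT.nd (nat_lit 78) (PT.lf (nat_lit 380) (nat_lit 6) (nat_lit 5) (nat_lit 5) (nat_lit 106) (nat_lit 141) (nat_lit 143)) (PT.nd (nat_lit 78) (PT.lf (nat_lit 532) (nat_lit 6) (nat_lit 7) (nat_lit 5) (nat_lit 107) (nat_lit 141) (nat_lit 142)) (PT.lf (nat_lit 684) (nat_lit 3) (nat_lit 9) (nat_lit 4) (nat_lit 108) (nat_lit 141) (nat_lit 141))))) (PT.nd (nat_lit 2418) (PT.nd (nat_lit 78) (PT.lf (nat_lit 760) (nat_lit 6) (nat_lit 10) (nat_lit 4) (nat_lit 109) (nat_lit 141) (nat_lit 140)) (PT.nd (nat_lit 2262) (PT.lf (nat_lit 836) (nat_lit 6) (nat_lit 11) (nat_lit 4) (nat_lit 110) (nat_lit 141) (nat_lit 139)) (PT.lf (nat_lit 836) (nat_lit 6) (nat_lit 11) (nat_lit 2) (nat_lit 139) (nat_lit 141) (nat_lit 110)))) (PT.nd (nat_lit 78) (PT.lf (nat_lit 760) (nat_lit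 6) (nat_lit 10) (nat_lit 2) (nat_lit 140) (nat_lit 141) (nat_lit 109)) (PT.nd (nat_lit 78) (PT.lf (nat_lit 684) (nat_lit 3) (nat_lit 9) (nat_lit 0) (nat_lit 141) (nat_lit 141) (nat_lit 108)) (PT.lf (nat_lit 532) (nat_lit 6) (nat_lit 7) (nat_lit 0) (nat_lit 142) (nat_lit 141) (nat_lit 107))))))) (PT.nd (nat_lit 78156) (PT.nd (nat_lit 37908) (PT.nd (nat_lit 37674) (PT.nd (nat_lit 37596) (PT.lf (nat_lit 380) (nat_lit 6) (nat_lit 5) (nat_lit 0) (nat_lit 143) (nat_lit 141) (nat_lit 106)) (PT.lf (nat_lit 152) (nat_lit 6) (nat_lit 2) (nat_lit 5) (nat_lit 104) (nat_lit 142) (nat_lit 144))) (PT.nd (nat_lit 78) (PT.lf (nat_lit 304) (nat_lit 6) (nat_lit 4) (nat_lit 5) (nat_lit 105) (nat_lit 142) (nat_lit 143)) (PT.nd (nat_lit 78) (PT.lf (nat_lit 456) (nat_lit 3) (nat_lit 6) (nat_lit 4) (nat_lit 106) (nat_lit 142) (nat_lit 142)) (PT.lf (nat_lit 532) (nat_lit 6) (nat_lit 7) (nat_lit 4) (nat_lit 107)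 (nat_lit 142) (nat_lit 141))))) (PT.nd (nat_lit 2652) (PT.nd (nat_lit 2496) (PT.lf (nat_lit 608) (nat_lit 6) (nat_lit 8) (nat_lit 4) (nat_lit 108) (nat_lit 142) (nat_lit 140)) (PT.nd (nat_lit 78) (PT.lf (nat_lit 608) (nat_lit 6) (nat_lit 8) (nat_lit 2) (nat_lit 140) (nat_lit 142) (nat_lit 108)) (PT.lf (nat_lit 532) (nat_lit 6) (nat_lit 7) (nat_lit 2) (nat_lit 141) (nat_lit 142) (nat_lit 107)))) (PT.nd (nat_lit 78) (PT.lf (nat_lit 456) (nat_lit 3) (nat_lit 6) (nat_lit 0) (nat_lit 142) (nat_lit 142) (nat_lit 106)) (PT.nd (nat_lit 78) (PT.lf (nat_lit 304) (nat_lit 6) (nat_lit 4) (nat_lit 0) (nat_lit 143) (nat_lit 142) (nat_lit 105)) (PT.lf (nat_lit 152) (nat_lit 6) (nat_lit 2) (nat_lit 0) (nat_lit 144) (nat_lit 142) (nat_lit 104)))))) (PT.nd (nat_lit 3120) (PT.nd (nat_lit 234) (PT.nd (nat_lit 78) (PT.lf (nat_lit 76) (nat_lit 6) (nat_lit 1) (nat_lit 5) (nat_lit 103) (nat_lit 143) (nat_lit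 144)) (PT.nd (nat_lit 78) (PT.lf (nat_lit 228) (nat_lit 3) (nat_lit 3) (nat_lit 4) (nat_lit 104) (nat_lit 143) (nat_lit 143)) (PT.lf (nat_lit 304) (nat_lit 6) (nat_lit 4) (nat_lit 4) (nat_lit 105) (nat_lit 143) (nat_lit 142)))) (PT.nd (nat_lit 2730) (PT.lf (nat_lit 380) (nat_lit 6) (nat_lit 5) (nat_lit 4) (nat_lit 106) (nat_lit 143) (nat_lit 141)) (PT.nd (nat_lit 78) (PT.lf (nat_lit 380) (nat_lit 6) (nat_lit 5) (nat_lit 2) (nat_lit 141) (nat_lit 143) (nat_lit 106)) (PT.lf (nat_lit 304) (nat_lit 6) (nat_lit 4) (nat_lit 2) (nat_lit 142) (nat_lit 143) (nat_lit 105))))) (PT.nd (nat_lit 37596) (PT.nd (nat_lit 78) (PT.lf (nat_lit 228) (nat_lit 3) (nat_lit 3) (nat_lit 0) (nat_lit 143) (nat_lit 143) (nat_lit 104)) (PT.nd (nat_lit 37440) (PT.lf (nat_lit 76) (nat_lit 6) (nat_lit 1) (nat_lit 0) (nat_lit 144) (nat_lit 143) (nat_lit 103)) (PT.lf (nat_lit 76) (nat_lit 6) (nat_lit 1) (nat_lit 4) (nat_lit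 103) (nat_lit 144) (nat_lit 143)))) (PT.nd (nat_lit 2964) (PT.lf (nat_lit 152) (nat_lit 6) (nat_lit 2) (nat_lit 4) (nat_lit 104) (nat_lit 144) (nat_lit 142)) (PT.nd (nat_lit 78) (PT.lf (nat_lit 152) (nat_lit 6) (nat_lit 2) (nat_lit 2) (nat_lit 142) (nat_lit 144) (nat_lit 104)) (PT.lf (nat_lit 76) (nat_lit 6) (nat_lit 1) (nat_lit 2) (nat_lit 143) (nat_lit 144) (nat_lit 103))))))))
noncomputable def xc0 : XT := (XT.nd (nat_lit 202410) (nat_lit 0) (nat_lit 0) (XT.nd (nat_lit 121680) (nat_lit 0) (nat_lit 0) (XT.nd (nat_lit 81042) (nat_lit 0) (nat_lit 0) (XT.nd (nat_lit 40560) (nat_lit 0) (nat_lit 0) (XT.nd (nat_lit 78) (nat_lit 0) (nat_lit 0) (XT.lf (nat_lit 0) (nat_lit 466425096521) (nat_lit 152) (nat_lit 1776737809716) (nat_lit 0) (nat_lit 466425096521) (nat_lit 1) (nat_lit 5) (nat_lit 3) (nat_lit 4) (nat_lit 1) (nat_lit 4) (nat_lit 370) (nat_lit 205) (nat_lit 205)) (XT.nd (nat_lit 40404)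 (nat_lit 0) (nat_lit 0) (XT.lf (nat_lit 0) (nat_lit 1007823015556) (nat_lit 152) (nat_lit 3837049803919) (nat_lit 0) (nat_lit 1007808215446) (nat_lit 1) (nat_lit 5) (nat_lit 3) (nat_lit 4) (nat_lit 1) (nat_lit 4) (nat_lit 371) (nat_lit 205) (nat_lit 204)) (XT.lf (nat_lit 0) (nat_lit 399563386158) (nat_lit 152) (nat_lit 1523935844053) (nat_lit 0) (nat_lit 399563386158) (nat_lit 1) (nat_lit 5) (nat_lit 3) (nat_lit 4) (nat_lit 1) (nat_lit 4) (nat_lit 368) (nat_lit 206) (nat_lit 206)))) (XT.nd (nat_lit 156) (nat_lit 0) (nat_lit 0) (XT.nd (nat_lit 78) (nat_lit 0) (nat_lit 0) (XT.lf (nat_lit 0) (nat_lit 863429305737) (nat_lit 152) (nat_lit 3290941248880) (nat_lit 0) (nat_lit 863413321618) (nat_lit 1) (nat_lit 5) (nat_lit 3) (nat_lit 4) (nat_lit 1) (nat_lit 4) (nat_lit 369) (nat_lit 206) (nat_lit 205)) (XT.lf (nat_lit 0) (nat_lit 932857043207) (nat_lit 152) (nat_lit 3553493438802) (nat_lit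 0) (nat_lit 932826258978) (nat_lit 1) (nat_lit 5) (nat_lit 3) (nat_lit 4) (nat_lit 1) (nat_lit 4) (nat_lit 370) (nat_lit 206) (nat_lit 204))) (XT.nd (nat_lit 40248) (nat_lit 0) (nat_lit 0) (XT.lf (nat_lit 0) (nat_lit 1007821408356) (nat_lit 152) (nat_lit 3837084122703) (nat_lit 0) (nat_lit 1007776920321) (nat_lit 1) (nat_lit 5) (nat_lit 3) (nat_lit 4) (nat_lit 1) (nat_lit 4) (nat_lit 371) (nat_lit 206) (nat_lit 203)) (XT.lf (nat_lit 0) (nat_lit 342214569803) (nat_lit 152) (nat_lit 1307252468743) (nat_lit 0) (nat_lit 342214569803) (nat_lit 1) (nat_lit 5) (nat_lit 3) (nat_lit 4) (nat_lit 1) (nat_lit 4) (nat_lit 366) (nat_lit 207) (nat_lit 207))))) (XT.nd (nat_lit 312) (nat_lit 0) (nat_lit 0) (XT.nd (nat_lit 156) (nat_lit 0) (nat_lit 0) (XT.nd (nat_lit 78) (nat_lit 0) (nat_lit 0) (XT.lf (nat_lit 0) (nat_lit 739585653742) (nat_lit 152) (nat_lit 2822844344269) (nat_lit 0) (nat_lit 739568390894)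 (nat_lit 1) (nat_lit 5) (nat_lit 3) (nat_lit 4) (nat_lit 1) (nat_lit 4) (nat_lit 367) (nat_lit 207) (nat_lit 206)) (XT.lf (nat_lit 0) (nat_lit 799134170494) (nat_lit 152) (nat_lit 3047890933024) (nat_lit 0) (nat_lit 799100923527) (nat_lit 1) (nat_lit 5) (nat_lit 3) (nat_lit 4) (nat_lit 1) (nat_lit 4) (nat_lit 368) (nat_lit 207) (nat_lit 205))) (XT.nd (nat_lit 78) (nat_lit 0) (nat_lit 0) (XT.lf (nat_lit 0) (nat_lit 863427569961) (nat_lit 152) (nat_lit 3290978313167) (nat_lit 0) (nat_lit 863379522883) (nat_lit 1) (nat_lit 5) (nat_lit 3) (nat_lit 4) (nat_lit 1) (nat_lit 4) (nat_lit 369) (nat_lit 207) (nat_lit 204)) (XT.lf (nat_lit 0) (nat_lit 932846850066) (nat_lit 152) (nat_lit 3553547002505) (nat_lit 0) (nat_lit 932785099183) (nat_lit 1) (nat_lit 5) (nat_lit 3) (nat_lit 4) (nat_lit 1) (nat_lit 4) (nat_lit 370) (nat_lit 207) (nat_lit 203)))) (XT.nd (nat_lit 40170) (nat_lit 0) (nat_lit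 0) (XT.nd (nat_lit 40092) (nat_lit 0) (nat_lit 0) (XT.lf (nat_lit 0) (nat_lit 1007803384321) (nat_lit 152) (nat_lit 3837152963643) (nat_lit 0) (nat_lit 1007728944729) (nat_lit 1) (nat_lit 5) (nat_lit 3) (nat_lit 4) (nat_lit 1) (nat_lit 4) (nat_lit 371) (nat_lit 207) (nat_lit 202)) (XT.lf (nat_lit 0) (nat_lit 293019472659) (nat_lit 152) (nat_lit 1121539248176) (nat_lit 0) (nat_lit 293019472659) (nat_lit 1) (nat_lit 5) (nat_lit 3) (nat_lit 4) (nat_lit 1) (nat_lit 4) (nat_lit 364) (nat_lit 208) (nat_lit 208))) (XT.nd (nat_lit 78) (nat_lit 0) (nat_lit 0) (XT.lf (nat_lit 0) (nat_lit 633356418547) (nat_lit 152) (nat_lit 2421638108786) (nat_lit 0) (nat_lit 633337774671) (nat_lit 1) (nat_lit 5) (nat_lit 3) (nat_lit 4) (nat_lit 1) (nat_lit 4) (nat_lit 365) (nat_lit 208) (nat_lit 207)) (XT.lf (nat_lit 0) (nat_lit 684437129639) (nat_lit 152) (nat_lit 2614525721999) (nat_lit 0) (nat_lit 684401222915)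 (nat_lit 1) (nat_lit 5) (nat_lit 3) (nat_lit 4) (nat_lit 1) (nat_lit 4) (nat_lit 366) (nat_lit 208) (nat_lit 206)))))) (XT.nd (nat_lit 40404) (nat_lit 0) (nat_lit 0) (XT.nd (nat_lit 234) (nat_lit 0) (nat_lit 0) (XT.nd (nat_lit 78) (nat_lit 0) (nat_lit 0) (XT.lf (nat_lit 0) (nat_lit 739583779104) (nat_lit 152) (nat_lit 2822884373700) (nat_lit 0) (nat_lit 739531888260) (nat_lit 1) (nat_lit 5) (nat_lit 3) (nat_lit 4) (nat_lit 1) (nat_lit 4) (nat_lit 367) (nat_lit 208) (nat_lit 205)) (XT.nd (nat_lit 78) (nat_lit 0) (nat_lit 0) (XT.lf (nat_lit 0) (nat_lit 799123161901) (nat_lit 152) (nat_lit 3047948781823) (nat_lit 0) (nat_lit 799056470948) (nat_lit 1) (nat_lit 5) (nat_lit 3) (nat_lit 4) (nat_lit 1) (nat_lit 4) (nat_lit 368) (nat_lit 208) (nat_lit 204)) (XT.lf (nat_lit 0) (nat_lit 863408104003) (nat_lit 152) (nat_lit 3291052661381) (nat_lit 0) (nat_lit 863327709244) (nat_lit 1) (nat_lit 5)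 (nat_lit 3) (nat_lit 4) (nat_lit 1) (nat_lit 4) (nat_lit 369) (nat_lit 208) (nat_lit 203)))) (XT.nd (nat_lit 40014) (nat_lit 0) (nat_lit 0) (XT.nd (nat_lit 78) (nat_lit 0) (nat_lit 0) (XT.lf (nat_lit 0) (nat_lit 932819553215) (nat_lit 152) (nat_lit 3553636627956) (nat_lit 0) (nat_lit 932726469747) (nat_lit 1) (nat_lit 5) (nat_lit 3) (nat_lit 4) (nat_lit 1) (nat_lit 4) (nat_lit 370) (nat_lit 208) (nat_lit 202)) (XT.lf (nat_lit 0) (nat_lit 1007768836643) (nat_lit 152) (nat_lit 3837256734683) (nat_lit 0) (nat_lit 1007664004370) (nat_lit 1) (nat_lit 5) (nat_lit 3) (nat_lit 4) (nat_lit 1) (nat_lit 4) (nat_lit 371) (nat_lit 208) (nat_lit 201))) (XT.nd (nat_lit 78) (nat_lit 0) (nat_lit 0) (XT.lf (nat_lit 0) (nat_lit 250812657075) (nat_lit 152) (nat_lit 962382571443) (nat_lit 0) (nat_lit 250812657075) (nat_lit 1) (nat_lit 5) (nat_lit 3) (nat_lit 4) (nat_lit 1) (nat_lit 4) (nat_lit 362) (nat_lit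 209) (nat_lit 209)) (XT.lf (nat_lit 0) (nat_lit 542224445496) (nat_lit 152) (nat_lit 2077788753661) (nat_lit 0) (nat_lit 542204310109) (nat_lit 1) (nat_lit 5) (nat_lit 3) (nat_lit 4) (nat_lit 1) (nat_lit 4) (nat_lit 363) (nat_lit 209) (nat_lit 208))))) (XT.nd (nat_lit 312) (nat_lit 0) (nat_lit 0) (XT.nd (nat_lit 156) (nat_lit 0) (nat_lit 0) (XT.nd (nat_lit 78) (nat_lit 0) (nat_lit 0) (XT.lf (nat_lit 0) (nat_lit 586047574552) (nat_lit 152) (nat_lit 2243100943625) (nat_lit 0) (nat_lit 586008795290) (nat_lit 1) (nat_lit 5) (nat_lit 3) (nat_lit 4) (nat_lit 1) (nat_lit 4) (nat_lit 364) (nat_lit 209) (nat_lit 207)) (XT.lf (nat_lit 0) (nat_lit 633354393938) (nat_lit 152) (nat_lit 2421681340570) (nat_lit 0) (nat_lit 633298351827) (nat_lit 1) (nat_lit 5) (nat_lit 3) (nat_lit 4) (nat_lit 1) (nat_lit 4) (nat_lit 365) (nat_lit 209) (nat_lit 206))) (XT.nd (nat_lit 78) (nat_lit 0) (nat_lit 0) (XT.lf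 (nat_lit 0) (nat_lit 684425240359) (nat_lit 152) (nat_lit 2614588198702) (nat_lit 0) (nat_lit 684353214129) (nat_lit 1) (nat_lit 5) (nat_lit 3) (nat_lit 4) (nat_lit 1) (nat_lit 4) (nat_lit 366) (nat_lit 209) (nat_lit 205)) (XT.lf (nat_lit 0) (nat_lit 739562755870) (nat_lit 152) (nat_lit 2822964669771) (nat_lit 0) (nat_lit 739475929530) (nat_lit 1) (nat_lit 5) (nat_lit 3) (nat_lit 4) (nat_lit 1) (nat_lit 4) (nat_lit 367) (nat_lit 209) (nat_lit 204)))) (XT.nd (nat_lit 156) (nat_lit 0) (nat_lit 0) (XT.nd (nat_lit 78) (nat_lit 0) (nat_lit 0) (XT.lf (nat_lit 0) (nat_lit 799093681302) (nat_lit 152) (nat_lit 3048045577311) (nat_lit 0) (nat_lit 798993151157) (nat_lit 1) (nat_lit 5) (nat_lit 3) (nat_lit 4) (nat_lit 1) (nat_lit 4) (nat_lit 368) (nat_lit 209) (nat_lit 203)) (XT.lf (nat_lit 0) (nat_lit 863370792511) (nat_lit 152) (nat_lit 3291164734105) (nat_lit 0) (nat_lit 863257573656) (nat_lit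 1) (nat_lit 5) (nat_lit 3) (nat_lit 4) (nat_lit 1) (nat_lit 4) (nat_lit 369) (nat_lit 209) (nat_lit 202))) (XT.nd (nat_lit 78) (nat_lit 0) (nat_lit 0) (XT.lf (nat_lit 0) (nat_lit 932774990895) (nat_lit 152) (nat_lit 3553762846270) (nat_lit 0) (nat_lit 932650023236) (nat_lit 1) (nat_lit 5) (nat_lit 3) (nat_lit 4) (nat_lit 1) (nat_lit 4) (nat_lit 370) (nat_lit 209) (nat_lit 201)) (XT.lf (nat_lit 0) (nat_lit 1007717560594) (nat_lit 152) (nat_lit 3837396050765) (nat_lit 0) (nat_lit 1007581714413) (nat_lit 1) (nat_lit 5) (nat_lit 3) (nat_lit 4) (nat_lit 1) (nat_lit 4) (nat_lit 371) (nat_lit 209) (nat_lit 200))))))) (XT.nd (nat_lit 40716) (nat_lit 0) (nat_lit 0) (XT.nd (nat_lit 546) (nat_lit 0) (nat_lit 0) (XT.nd (nat_lit 234) (nat_lit 0) (nat_lit 0) (XT.nd (nat_lit 78) (nat_lit 0) (nat_lit 0) (XT.lf (nat_lit 0) (nat_lit 214594770640) (nat_lit 152) (nat_lit 825998848808) (nat_lit 0) (nat_lit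 214594770640) (nat_lit 1) (nat_lit 5) (nat_lit 3) (nat_lit 4) (nat_lit 1) (nat_lit 4) (nat_lit 360) (nat_lit 210) (nat_lit 210)) (XT.nd (nat_lit 78) (nat_lit 0) (nat_lit 0) (XT.lf (nat_lit 0) (nat_lit 464031339291) (nat_lit 152) (nat_lit 1783123304718) (nat_lit 0) (nat_lit 464009593074) (nat_lit 1) (nat_lit 5) (nat_lit 3) (nat_lit 4) (nat_lit 1) (nat_lit 4) (nat_lit 361) (nat_lit 210) (nat_lit 209)) (XT.lf (nat_lit 0) (nat_lit 501634633725) (nat_lit 152) (nat_lit 1924789385940) (nat_lit 0) (nat_lit 501592752121) (nat_lit 1) (nat_lit 5) (nat_lit 3) (nat_lit 4) (nat_lit 1) (nat_lit 4) (nat_lit 362) (nat_lit 210) (nat_lit 208)))) (XT.nd (nat_lit 156) (nat_lit 0) (nat_lit 0) (XT.nd (nat_lit 78) (nat_lit 0) (nat_lit 0) (XT.lf (nat_lit 0) (nat_lit 542222258918) (nat_lit 152) (nat_lit 2077835443988) (nat_lit 0) (nat_lit 542161733438) (nat_lit 1) (nat_lit 5) (nat_lit 3) (nat_lit 4) (nat_lit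 1) (nat_lit 4) (nat_lit 363) (nat_lit 210) (nat_lit 207)) (XT.lf (nat_lit 0) (nat_lit 586034734130) (nat_lit 152) (nat_lit 2243168418464) (nat_lit 0) (nat_lit 585956945802) (nat_lit 1) (nat_lit 5) (nat_lit 3) (nat_lit 4) (nat_lit 1) (nat_lit 4) (nat_lit 364) (nat_lit 210) (nat_lit 206))) (XT.nd (nat_lit 78) (nat_lit 0) (nat_lit 0) (XT.lf (nat_lit 0) (nat_lit 633331688845) (nat_lit 152) (nat_lit 2421768060328) (nat_lit 0) (nat_lit 633237916398) (nat_lit 1) (nat_lit 5) (nat_lit 3) (nat_lit 4) (nat_lit 1) (nat_lit 4) (nat_lit 365) (nat_lit 210) (nat_lit 205)) (XT.lf (nat_lit 0) (nat_lit 684393401312) (nat_lit 152) (nat_lit 2614692737828) (nat_lit 0) (nat_lit 684284828755) (nat_lit 1) (nat_lit 5) (nat_lit 3) (nat_lit 4) (nat_lit 1) (nat_lit 4) (nat_lit 366) (nat_lit 210) (nat_lit 204))))) (XT.nd (nat_lit 312) (nat_lit 0) (nat_lit 0) (XT.nd (nat_lit 156) (nat_lit 0) (nat_lit 0) (XT.nd (nat_lit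 78) (nat_lit 0) (nat_lit 0) (XT.lf (nat_lit 0) (nat_lit 739522459458) (nat_lit 152) (nat_lit 2823085708313) (nat_lit 0) (nat_lit 739400183095) (nat_lit 1) (nat_lit 5) (nat_lit 3) (nat_lit 4) (nat_lit 1) (nat_lit 4) (nat_lit 367) (nat_lit 210) (nat_lit 203)) (XT.lf (nat_lit 0) (nat_lit 799045553997) (nat_lit 152) (nat_lit 3048181893089) (nat_lit 0) (nat_lit 798910588925) (nat_lit 1) (nat_lit 5) (nat_lit 3) (nat_lit 4) (nat_lit 1) (nat_lit 4) (nat_lit 368) (nat_lit 210) (nat_lit 202))) (XT.nd (nat_lit 78) (nat_lit 0) (nat_lit 0) (XT.lf (nat_lit 0) (nat_lit 863315414378) (nat_lit 152) (nat_lit 3291315195473) (nat_lit 0) (nat_lit 863168700502) (nat_lit 1) (nat_lit 5) (nat_lit 3) (nat_lit 4) (nat_lit 1) (nat_lit 4) (nat_lit 369) (nat_lit 210) (nat_lit 201)) (XT.lf (nat_lit 0) (nat_lit 932712899033) (nat_lit 152) (nat_lit 3553926405406) (nat_lit 0) (nat_lit 932555306635) (nat_lit 1) (nat_lit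 5) (nat_lit 3) (nat_lit 4) (nat_lit 1) (nat_lit 4) (nat_lit 370) (nat_lit 210) (nat_lit 200)))) (XT.nd (nat_lit 39702) (nat_lit 0) (nat_lit 0) (XT.nd (nat_lit 39624) (nat_lit 0) (nat_lit 0) (XT.lf (nat_lit 0) (nat_lit 1007649252317) (nat_lit 152) (nat_lit 3837571737464) (nat_lit 0) (nat_lit 1007481587212) (nat_lit 1) (nat_lit 5) (nat_lit 3) (nat_lit 4) (nat_lit 1) (nat_lit 4) (nat_lit 371) (nat_lit 210) (nat_lit 199)) (XT.lf (nat_lit 0) (nat_lit 183508838057) (nat_lit 152) (nat_lit 709144661763) (nat_lit 0) (nat_lit 183508838057) (nat_lit 1) (nat_lit 5) (nat_lit 3) (nat_lit 4) (nat_lit 1) (nat_lit 4) (nat_lit 358) (nat_lit 211) (nat_lit 211))) (XT.nd (nat_lit 78) (nat_lit 0) (nat_lit 0) (XT.lf (nat_lit 0) (nat_lit 396926255690) (nat_lit 152) (nat_lit 1530635524003) (nat_lit 0) (nat_lit 396902769776) (nat_lit 1) (nat_lit 5) (nat_lit 3) (nat_lit 4) (nat_lit 1) (nat_lit 4) (nat_lit 359)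 (nat_lit 211) (nat_lit 210)) (XT.lf (nat_lit 0) (nat_lit 429199606419) (nat_lit 152) (nat_lit 1652023880116) (nat_lit 0) (nat_lit 429154374287) (nat_lit 1) (nat_lit 5) (nat_lit 3) (nat_lit 4) (nat_lit 1) (nat_lit 4) (nat_lit 360) (nat_lit 211) (nat_lit 209)))))) (XT.nd (nat_lit 624) (nat_lit 0) (nat_lit 0) (XT.nd (nat_lit 312) (nat_lit 0) (nat_lit 0) (XT.nd (nat_lit 156) (nat_lit 0) (nat_lit 0) (XT.nd (nat_lit 78) (nat_lit 0) (nat_lit 0) (XT.lf (nat_lit 0) (nat_lit 464028977787) (nat_lit 152) (nat_lit 1783173730272) (nat_lit 0) (nat_lit 463963610269) (nat_lit 1) (nat_lit 5) (nat_lit 3) (nat_lit 4) (nat_lit 1) (nat_lit 4) (nat_lit 361) (nat_lit 211) (nat_lit 208)) (XT.lf (nat_lit 0) (nat_lit 501620766069) (nat_lit 152) (nat_lit 1924862258767) (nat_lit 0) (nat_lit 501536754674) (nat_lit 1) (nat_lit 5) (nat_lit 3) (nat_lit 4) (nat_lit 1) (nat_lit 4) (nat_lit 362) (nat_lit 211) (nat_lit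 207))) (XT.nd (nat_lit 78) (nat_lit 0) (nat_lit 0) (XT.lf (nat_lit 0) (nat_lit 542197737417) (nat_lit 152) (nat_lit 2077929101326) (nat_lit 0) (nat_lit 542096463175) (nat_lit 1) (nat_lit 5) (nat_lit 3) (nat_lit 4) (nat_lit 1) (nat_lit 4) (nat_lit 363) (nat_lit 211) (nat_lit 206)) (XT.lf (nat_lit 0) (nat_lit 586000347959) (nat_lit 152) (nat_lit 2243281320720) (nat_lit 0) (nat_lit 585883089598) (nat_lit 1) (nat_lit 5) (nat_lit 3) (nat_lit 4) (nat_lit 1) (nat_lit 4) (nat_lit 364) (nat_lit 211) (nat_lit 205)))) (XT.nd (nat_lit 156) (nat_lit 0) (nat_lit 0) (XT.nd (nat_lit 78) (nat_lit 0) (nat_lit 0) (XT.lf (nat_lit 0) (nat_lit 633288168720) (nat_lit 152) (nat_lit 2421898781953) (nat_lit 0) (nat_lit 633156110248) (nat_lit 1) (nat_lit 5) (nat_lit 3) (nat_lit 4) (nat_lit 1) (nat_lit 4) (nat_lit 365) (nat_lit 211) (nat_lit 204)) (XT.lf (nat_lit 0) (nat_lit 684341423822) (nat_lit 152) (nat_lit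 2614839958869) (nat_lit 0) (nat_lit 684195661545) (nat_lit 1) (nat_lit 5) (nat_lit 3) (nat_lit 4) (nat_lit 1) (nat_lit 4) (nat_lit 366) (nat_lit 211) (nat_lit 203))) (XT.nd (nat_lit 78) (nat_lit 0) (nat_lit 0) (XT.lf (nat_lit 0) (nat_lit 739462651075) (nat_lit 152) (nat_lit 2823248206591) (nat_lit 0) (nat_lit 739304200088) (nat_lit 1) (nat_lit 5) (nat_lit 3) (nat_lit 4) (nat_lit 1) (nat_lit 4) (nat_lit 367) (nat_lit 211) (nat_lit 202)) (XT.lf (nat_lit 0) (nat_lit 798978494786) (nat_lit 152) (nat_lit 3048358536956) (nat_lit 0) (nat_lit 798808294996) (nat_lit 1) (nat_lit 5) (nat_lit 3) (nat_lit 4) (nat_lit 1) (nat_lit 4) (nat_lit 368) (nat_lit 211) (nat_lit 201))))) (XT.nd (nat_lit 39702) (nat_lit 0) (nat_lit 0) (XT.nd (nat_lit 156) (nat_lit 0) (nat_lit 0) (XT.nd (nat_lit 78) (nat_lit 0) (nat_lit 0) (XT.lf (nat_lit 0) (nat_lit 863241641438) (nat_lit 152) (nat_lit 3291504937109) (nat_lit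 0) (nat_lit 863060563125) (nat_lit 1) (nat_lit 5) (nat_lit 3) (nat_lit 4) (nat_lit 1) (nat_lit 4) (nat_lit 369) (nat_lit 211) (nat_lit 200)) (XT.lf (nat_lit 0) (nat_lit 932632909678) (nat_lit 152) (nat_lit 3554128274604) (nat_lit 0) (nat_lit 932441758659) (nat_lit 1) (nat_lit 5) (nat_lit 3) (nat_lit 4) (nat_lit 1) (nat_lit 4) (nat_lit 370) (nat_lit 211) (nat_lit 199))) (XT.nd (nat_lit 39468) (nat_lit 0) (nat_lit 0) (XT.lf (nat_lit 0) (nat_lit 1007563507021) (nat_lit 152) (nat_lit 3837784835887) (nat_lit 0) (nat_lit 1007363029421) (nat_lit 1) (nat_lit 5) (nat_lit 3) (nat_lit 4) (nat_lit 1) (nat_lit 4) (nat_lit 371) (nat_lit 211) (nat_lit 198)) (XT.lf (nat_lit 0) (nat_lit 156819934133) (nat_lit 152) (nat_lit 609039733547) (nat_lit 0) (nat_lit 156819934133) (nat_lit 1) (nat_lit 5) (nat_lit 3) (nat_lit 4) (nat_lit 1) (nat_lit 4) (nat_lit 356) (nat_lit 212) (nat_lit 212)))) (XT.nd (nat_lit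 156) (nat_lit 0) (nat_lit 0) (XT.nd (nat_lit 78) (nat_lit 0) (nat_lit 0) (XT.lf (nat_lit 0) (nat_lit 339321996454) (nat_lit 152) (nat_lit 1314319523424) (nat_lit 0) (nat_lit 339296631666) (nat_lit 1) (nat_lit 5) (nat_lit 3) (nat_lit 4) (nat_lit 1) (nat_lit 4) (nat_lit 357) (nat_lit 212) (nat_lit 211)) (XT.lf (nat_lit 0) (nat_lit 367028546465) (nat_lit 152) (nat_lit 1418317600625) (nat_lit 0) (nat_lit 366979695763) (nat_lit 1) (nat_lit 5) (nat_lit 3) (nat_lit 4) (nat_lit 1) (nat_lit 4) (nat_lit 358) (nat_lit 212) (nat_lit 210))) (XT.nd (nat_lit 78) (nat_lit 0) (nat_lit 0) (XT.lf (nat_lit 0) (nat_lit 396923705265) (nat_lit 152) (nat_lit 1530689983601) (nat_lit 0) (nat_lit 396853108346) (nat_lit 1) (nat_lit 5) (nat_lit 3) (nat_lit 4) (nat_lit 1) (nat_lit 4) (nat_lit 359) (nat_lit 212) (nat_lit 209)) (XT.lf (nat_lit 0) (nat_lit 429184629350) (nat_lit 152) (nat_lit 1652102582769) (nat_lit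 0) (nat_lit 429093897044) (nat_lit 1) (nat_lit 5) (nat_lit 3) (nat_lit 4) (nat_lit 1) (nat_lit 4) (nat_lit 360) (nat_lit 212) (nat_lit 208))))))))
noncomputable def xc1 : XT := (XT.nd (nat_lit 80652) (nat_lit 0) (nat_lit 0) (XT.nd (nat_lit 40404) (nat_lit 0) (nat_lit 0) (XT.nd (nat_lit 546) (nat_lit 0) (nat_lit 0) (XT.nd (nat_lit 234) (nat_lit 0) (nat_lit 0) (XT.nd (nat_lit 78) (nat_lit 0) (nat_lit 0) (XT.lf (nat_lit 0) (nat_lit 464002494566) (nat_lit 152) (nat_lit 1783274880197) (nat_lit 0) (nat_lit 463893118384) (nat_lit 1) (nat_lit 5) (nat_lit 3) (nat_lit 4) (nat_lit 1) (nat_lit 4) (nat_lit 361) (nat_lit 212) (nat_lit 207)) (XT.nd (nat_lit 78) (nat_lit 0) (nat_lit 0) (XT.lf (nat_lit 0) (nat_lit 501583629004) (nat_lit 152) (nat_lit 1924984193204) (nat_lit 0) (nat_lit 501456989974) (nat_lit 1) (nat_lit 5) (nat_lit 3) (nat_lit 4) (nat_lit 1) (nat_lit 4) (nat_lit 362) (nat_lit 212) (nat_lit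 206)) (XT.lf (nat_lit 0) (nat_lit 542150735682) (nat_lit 152) (nat_lit 2078070280681) (nat_lit 0) (nat_lit 542008112533) (nat_lit 1) (nat_lit 5) (nat_lit 3) (nat_lit 4) (nat_lit 1) (nat_lit 4) (nat_lit 363) (nat_lit 212) (nat_lit 205)))) (XT.nd (nat_lit 156) (nat_lit 0) (nat_lit 0) (XT.nd (nat_lit 78) (nat_lit 0) (nat_lit 0) (XT.lf (nat_lit 0) (nat_lit 585944212270) (nat_lit 152) (nat_lit 2243440319444) (nat_lit 0) (nat_lit 585786789011) (nat_lit 1) (nat_lit 5) (nat_lit 3) (nat_lit 4) (nat_lit 1) (nat_lit 4) (nat_lit 364) (nat_lit 212) (nat_lit 204)) (XT.lf (nat_lit 0) (nat_lit 633223575666) (nat_lit 152) (nat_lit 2422074280093) (nat_lit 0) (nat_lit 633052448601) (nat_lit 1) (nat_lit 5) (nat_lit 3) (nat_lit 4) (nat_lit 1) (nat_lit 4) (nat_lit 365) (nat_lit 212) (nat_lit 203))) (XT.nd (nat_lit 78) (nat_lit 0) (nat_lit 0) (XT.lf (nat_lit 0) (nat_lit 684268999875) (nat_lit 152) (nat_lit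 2615030734246) (nat_lit 0) (nat_lit 684085184101) (nat_lit 1) (nat_lit 5) (nat_lit 3) (nat_lit 4) (nat_lit 1) (nat_lit 4) (nat_lit 366) (nat_lit 212) (nat_lit 202)) (XT.lf (nat_lit 0) (nat_lit 739382976300) (nat_lit 152) (nat_lit 2823453127557) (nat_lit 0) (nat_lit 739187411721) (nat_lit 1) (nat_lit 5) (nat_lit 3) (nat_lit 4) (nat_lit 1) (nat_lit 4) (nat_lit 367) (nat_lit 212) (nat_lit 201))))) (XT.nd (nat_lit 39546) (nat_lit 0) (nat_lit 0) (XT.nd (nat_lit 156) (nat_lit 0) (nat_lit 0) (XT.nd (nat_lit 78) (nat_lit 0) (nat_lit 0) (XT.lf (nat_lit 0) (nat_lit 798892106282) (nat_lit 152) (nat_lit 3048576555690) (nat_lit 0) (nat_lit 798685663181) (nat_lit 1) (nat_lit 5) (nat_lit 3) (nat_lit 4) (nat_lit 1) (nat_lit 4) (nat_lit 368) (nat_lit 212) (nat_lit 200)) (XT.lf (nat_lit 0) (nat_lit 863149036519) (nat_lit 152) (nat_lit 3291735083406) (nat_lit 0) (nat_lit 862932520712) (nat_lit 1) (nat_lit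 5) (nat_lit 3) (nat_lit 4) (nat_lit 1) (nat_lit 4) (nat_lit 369) (nat_lit 212) (nat_lit 199))) (XT.nd (nat_lit 78) (nat_lit 0) (nat_lit 0) (XT.lf (nat_lit 0) (nat_lit 932534548818) (nat_lit 152) (nat_lit 3554369650126) (nat_lit 0) (nat_lit 932308706431) (nat_lit 1) (nat_lit 5) (nat_lit 3) (nat_lit 4) (nat_lit 1) (nat_lit 4) (nat_lit 370) (nat_lit 212) (nat_lit 198)) (XT.lf (nat_lit 0) (nat_lit 1007459816586) (nat_lit 152) (nat_lit 3838036608840) (nat_lit 0) (nat_lit 1007225338477) (nat_lit 1) (nat_lit 5) (nat_lit 3) (nat_lit 4) (nat_lit 1) (nat_lit 4) (nat_lit 371) (nat_lit 212) (nat_lit 197)))) (XT.nd (nat_lit 156) (nat_lit 0) (nat_lit 0) (XT.nd (nat_lit 78) (nat_lit 0) (nat_lit 0) (XT.lf (nat_lit 0) (nat_lit 133897755400) (nat_lit 152) (nat_lit 523300891348) (nat_lit 0) (nat_lit 133897755400) (nat_lit 1) (nat_lit 5) (nat_lit 3) (nat_lit 4) (nat_lit 1) (nat_lit 4) (nat_lit 354) (nat_lit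 213) (nat_lit 213)) (XT.lf (nat_lit 0) (nat_lit 289857365488) (nat_lit 152) (nat_lit 1129027120191) (nat_lit 0) (nat_lit 289829971517) (nat_lit 1) (nat_lit 5) (nat_lit 3) (nat_lit 4) (nat_lit 1) (nat_lit 4) (nat_lit 355) (nat_lit 213) (nat_lit 212))) (XT.nd (nat_lit 78) (nat_lit 0) (nat_lit 0) (XT.lf (nat_lit 0) (nat_lit 313651608246) (nat_lit 152) (nat_lit 1218110006361) (nat_lit 0) (nat_lit 313598849487) (nat_lit 1) (nat_lit 5) (nat_lit 3) (nat_lit 4) (nat_lit 1) (nat_lit 4) (nat_lit 356) (nat_lit 213) (nat_lit 211)) (XT.lf (nat_lit 0) (nat_lit 339319241995) (nat_lit 152) (nat_lit 1314378339789) (nat_lit 0) (nat_lit 339242997322) (nat_lit 1) (nat_lit 5) (nat_lit 3) (nat_lit 4) (nat_lit 1) (nat_lit 4) (nat_lit 357) (nat_lit 213) (nat_lit 210)))))) (XT.nd (nat_lit 546) (nat_lit 0) (nat_lit 0) (XT.nd (nat_lit 234) (nat_lit 0) (nat_lit 0) (XT.nd (nat_lit 78) (nat_lit 0) (nat_lit 0) (XT.lf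 (nat_lit 0) (nat_lit 367012371231) (nat_lit 152) (nat_lit 1418402599490) (nat_lit 0) (nat_lit 366914380341) (nat_lit 1) (nat_lit 5) (nat_lit 3) (nat_lit 4) (nat_lit 1) (nat_lit 4) (nat_lit 358) (nat_lit 213) (nat_lit 209)) (XT.nd (nat_lit 78) (nat_lit 0) (nat_lit 0) (XT.lf (nat_lit 0) (nat_lit 396895103387) (nat_lit 152) (nat_lit 1530799225520) (nat_lit 0) (nat_lit 396776977111) (nat_lit 1) (nat_lit 5) (nat_lit 3) (nat_lit 4) (nat_lit 1) (nat_lit 4) (nat_lit 359) (nat_lit 213) (nat_lit 208)) (XT.lf (nat_lit 0) (nat_lit 429144521321) (nat_lit 152) (nat_lit 1652234271961) (nat_lit 0) (nat_lit 429007751168) (nat_lit 1) (nat_lit 5) (nat_lit 3) (nat_lit 4) (nat_lit 1) (nat_lit 4) (nat_lit 360) (nat_lit 213) (nat_lit 207)))) (XT.nd (nat_lit 156) (nat_lit 0) (nat_lit 0) (XT.nd (nat_lit 78) (nat_lit 0) (nat_lit 0) (XT.lf (nat_lit 0) (nat_lit 463951732693) (nat_lit 152) (nat_lit 1783427353900)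 (nat_lit 0) (nat_lit 463797699692) (nat_lit 1) (nat_lit 5) (nat_lit 3) (nat_lit 4) (nat_lit 1) (nat_lit 4) (nat_lit 361) (nat_lit 213) (nat_lit 206)) (XT.lf (nat_lit 0) (nat_lit 501523002460) (nat_lit 152) (nat_lit 1925155911826) (nat_lit 0) (nat_lit 501352985340) (nat_lit 1) (nat_lit 5) (nat_lit 3) (nat_lit 4) (nat_lit 1) (nat_lit 4) (nat_lit 362) (nat_lit 213) (nat_lit 205))) (XT.nd (nat_lit 78) (nat_lit 0) (nat_lit 0) (XT.lf (nat_lit 0) (nat_lit 542080975184) (nat_lit 152) (nat_lit 2078259818672) (nat_lit 0) (nat_lit 541896157954) (nat_lit 1) (nat_lit 5) (nat_lit 3) (nat_lit 4) (nat_lit 1) (nat_lit 4) (nat_lit 363) (nat_lit 213) (nat_lit 204)) (XT.lf (nat_lit 0) (nat_lit 585865994407) (nat_lit 152) (nat_lit 2243646356851) (nat_lit 0) (nat_lit 585667473371) (nat_lit 1) (nat_lit 5) (nat_lit 3) (nat_lit 4) (nat_lit 1) (nat_lit 4) (nat_lit 364) (nat_lit 213) (nat_lit 203))))) (XT.nd (nat_lit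 312) (nat_lit 0) (nat_lit 0) (XT.nd (nat_lit 156) (nat_lit 0) (nat_lit 0) (XT.nd (nat_lit 78) (nat_lit 0) (nat_lit 0) (XT.lf (nat_lit 0) (nat_lit 633137526909) (nat_lit 152) (nat_lit 2422295594736) (nat_lit 0) (nat_lit 632926317165) (nat_lit 1) (nat_lit 5) (nat_lit 3) (nat_lit 4) (nat_lit 1) (nat_lit 4) (nat_lit 365) (nat_lit 213) (nat_lit 202)) (XT.lf (nat_lit 0) (nat_lit 684175700291) (nat_lit 152) (nat_lit 2615266194478) (nat_lit 0) (nat_lit 683952741742) (nat_lit 1) (nat_lit 5) (nat_lit 3) (nat_lit 4) (nat_lit 1) (nat_lit 4) (nat_lit 366) (nat_lit 213) (nat_lit 201))) (XT.nd (nat_lit 78) (nat_lit 0) (nat_lit 0) (XT.lf (nat_lit 0) (nat_lit 739282962987) (nat_lit 152) (nat_lit 2823701685558) (nat_lit 0) (nat_lit 739049125915) (nat_lit 1) (nat_lit 5) (nat_lit 3) (nat_lit 4) (nat_lit 1) (nat_lit 4) (nat_lit 367) (nat_lit 213) (nat_lit 200)) (XT.lf (nat_lit 0) (nat_lit 798785876554) (nat_lit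 152) (nat_lit 3048837241254) (nat_lit 0) (nat_lit 798541966776) (nat_lit 1) (nat_lit 5) (nat_lit 3) (nat_lit 4) (nat_lit 1) (nat_lit 4) (nat_lit 368) (nat_lit 213) (nat_lit 199)))) (XT.nd (nat_lit 156) (nat_lit 0) (nat_lit 0) (XT.nd (nat_lit 78) (nat_lit 0) (nat_lit 0) (XT.lf (nat_lit 0) (nat_lit 863037050850) (nat_lit 152) (nat_lit 3292006998194) (nat_lit 0) (nat_lit 862783814492) (nat_lit 1) (nat_lit 5) (nat_lit 3) (nat_lit 4) (nat_lit 1) (nat_lit 4) (nat_lit 369) (nat_lit 213) (nat_lit 198)) (XT.lf (nat_lit 0) (nat_lit 932417233575) (nat_lit 152) (nat_lit 3554651962346) (nat_lit 0) (nat_lit 932155361494) (nat_lit 1) (nat_lit 5) (nat_lit 3) (nat_lit 4) (nat_lit 1) (nat_lit 4) (nat_lit 370) (nat_lit 213) (nat_lit 197))) (XT.nd (nat_lit 39156) (nat_lit 0) (nat_lit 0) (XT.lf (nat_lit 0) (nat_lit 1007337566551) (nat_lit 152) (nat_lit 3838328548310) (nat_lit 0) (nat_lit 1007067698433) (nat_lit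 1) (nat_lit 5) (nat_lit 3) (nat_lit 4) (nat_lit 1) (nat_lit 4) (nat_lit 371) (nat_lit 213) (nat_lit 196)) (XT.lf (nat_lit 0) (nat_lit 114201676772) (nat_lit 152) (nat_lit 449885452297) (nat_lit 0) (nat_lit 114201676772) (nat_lit 1) (nat_lit 5) (nat_lit 3) (nat_lit 4) (nat_lit 1) (nat_lit 4) (nat_lit 352) (nat_lit 214) (nat_lit 214))))))) (XT.nd (nat_lit 1170) (nat_lit 0) (nat_lit 0) (XT.nd (nat_lit 546) (nat_lit 0) (nat_lit 0) (XT.nd (nat_lit 234) (nat_lit 0) (nat_lit 0) (XT.nd (nat_lit 78) (nat_lit 0) (nat_lit 0) (XT.lf (nat_lit 0) (nat_lit 247364892757) (nat_lit 152) (nat_lit 970345547431) (nat_lit 0) (nat_lit 247335307268) (nat_lit 1) (nat_lit 5) (nat_lit 3) (nat_lit 4) (nat_lit 1) (nat_lit 4) (nat_lit 353) (nat_lit 214) (nat_lit 213)) (XT.nd (nat_lit 78) (nat_lit 0) (nat_lit 0) (XT.lf (nat_lit 0) (nat_lit 267808189978) (nat_lit 152) (nat_lit 1046634765104) (nat_lit 0) (nat_lit 267751210518)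 (nat_lit 1) (nat_lit 5) (nat_lit 3) (nat_lit 4) (nat_lit 1) (nat_lit 4) (nat_lit 354) (nat_lit 214) (nat_lit 212)) (XT.lf (nat_lit 0) (nat_lit 289854390672) (nat_lit 152) (nat_lit 1129090641866) (nat_lit 0) (nat_lit 289772046425) (nat_lit 1) (nat_lit 5) (nat_lit 3) (nat_lit 4) (nat_lit 1) (nat_lit 4) (nat_lit 355) (nat_lit 214) (nat_lit 211)))) (XT.nd (nat_lit 156) (nat_lit 0) (nat_lit 0) (XT.nd (nat_lit 78) (nat_lit 0) (nat_lit 0) (XT.lf (nat_lit 0) (nat_lit 313634138993) (nat_lit 152) (nat_lit 1218201805134) (nat_lit 0) (nat_lit 313528308831) (nat_lit 1) (nat_lit 5) (nat_lit 3) (nat_lit 4) (nat_lit 1) (nat_lit 4) (nat_lit 356) (nat_lit 214) (nat_lit 210)) (XT.lf (nat_lit 0) (nat_lit 339288351967) (nat_lit 152) (nat_lit 1314496321062) (nat_lit 0) (nat_lit 339160775588) (nat_lit 1) (nat_lit 5) (nat_lit 3) (nat_lit 4) (nat_lit 1) (nat_lit 4) (nat_lit 357) (nat_lit 214) (nat_lit 209)))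 (XT.nd (nat_lit 78) (nat_lit 0) (nat_lit 0) (XT.lf (nat_lit 0) (nat_lit 366969054559) (nat_lit 152) (nat_lit 1418544823817) (nat_lit 0) (nat_lit 366821342794) (nat_lit 1) (nat_lit 5) (nat_lit 3) (nat_lit 4) (nat_lit 1) (nat_lit 4) (nat_lit 358) (nat_lit 214) (nat_lit 208)) (XT.lf (nat_lit 0) (nat_lit 396840280564) (nat_lit 152) (nat_lit 1530963897120) (nat_lit 0) (nat_lit 396673924922) (nat_lit 1) (nat_lit 5) (nat_lit 3) (nat_lit 4) (nat_lit 1) (nat_lit 4) (nat_lit 359) (nat_lit 214) (nat_lit 207))))) (XT.nd (nat_lit 312) (nat_lit 0) (nat_lit 0) (XT.nd (nat_lit 156) (nat_lit 0) (nat_lit 0) (XT.nd (nat_lit 78) (nat_lit 0) (nat_lit 0) (XT.lf (nat_lit 0) (nat_lit 429079044653) (nat_lit 152) (nat_lit 1652419728072) (nat_lit 0) (nat_lit 428895426163) (nat_lit 1) (nat_lit 5) (nat_lit 3) (nat_lit 4) (nat_lit 1) (nat_lit 4) (nat_lit 360) (nat_lit 214) (nat_lit 206)) (XT.lf (nat_lit 0) (nat_lit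 463876391355) (nat_lit 152) (nat_lit 1783632054931) (nat_lit 0) (nat_lit 463676788746) (nat_lit 1) (nat_lit 5) (nat_lit 3) (nat_lit 4) (nat_lit 1) (nat_lit 4) (nat_lit 361) (nat_lit 214) (nat_lit 205))) (XT.nd (nat_lit 78) (nat_lit 0) (nat_lit 0) (XT.lf (nat_lit 0) (nat_lit 501438527168) (nat_lit 152) (nat_lit 1925378432225) (nat_lit 0) (nat_lit 501224124449) (nat_lit 1) (nat_lit 5) (nat_lit 3) (nat_lit 4) (nat_lit 1) (nat_lit 4) (nat_lit 362) (nat_lit 214) (nat_lit 204)) (XT.lf (nat_lit 0) (nat_lit 541988042527) (nat_lit 152) (nat_lit 2078498838487) (nat_lit 0) (nat_lit 541759936003) (nat_lit 1) (nat_lit 5) (nat_lit 3) (nat_lit 4) (nat_lit 1) (nat_lit 4) (nat_lit 363) (nat_lit 214) (nat_lit 203)))) (XT.nd (nat_lit 156) (nat_lit 0) (nat_lit 0) (XT.nd (nat_lit 78) (nat_lit 0) (nat_lit 0) (XT.lf (nat_lit 0) (nat_lit 585765230856) (nat_lit 152) (nat_lit 2243900653902) (nat_lit 0) (nat_lit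 585524435623) (nat_lit 1) (nat_lit 5) (nat_lit 3) (nat_lit 4) (nat_lit 1) (nat_lit 4) (nat_lit 364) (nat_lit 214) (nat_lit 202)) (XT.lf (nat_lit 0) (nat_lit 633029512531) (nat_lit 152) (nat_lit 2422564037377) (nat_lit 0) (nat_lit 632776968494) (nat_lit 1) (nat_lit 5) (nat_lit 3) (nat_lit 4) (nat_lit 1) (nat_lit 4) (nat_lit 365) (nat_lit 214) (nat_lit 201))) (XT.nd (nat_lit 78) (nat_lit 0) (nat_lit 0) (XT.lf (nat_lit 0) (nat_lit 684060972184) (nat_lit 152) (nat_lit 2615547734887) (nat_lit 0) (nat_lit 683797549624) (nat_lit 1) (nat_lit 5) (nat_lit 3) (nat_lit 4) (nat_lit 1) (nat_lit 4) (nat_lit 366) (nat_lit 214) (nat_lit 200)) (XT.lf (nat_lit 0) (nat_lit 739162018464) (nat_lit 152) (nat_lit 2823995353530) (nat_lit 0) (nat_lit 738888523197) (nat_lit 1) (nat_lit 5) (nat_lit 3) (nat_lit 4) (nat_lit 1) (nat_lit 4) (nat_lit 367) (nat_lit 214) (nat_lit 199)))))) (XT.nd (nat_lit 39546) (nat_lit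 0) (nat_lit 0) (XT.nd (nat_lit 39234) (nat_lit 0) (nat_lit 0) (XT.nd (nat_lit 156) (nat_lit 0) (nat_lit 0) (XT.nd (nat_lit 78) (nat_lit 0) (nat_lit 0) (XT.lf (nat_lit 0) (nat_lit 798659176091) (nat_lit 152) (nat_lit 3049142138451) (nat_lit 0) (nat_lit 798376354244) (nat_lit 1) (nat_lit 5) (nat_lit 3) (nat_lit 4) (nat_lit 1) (nat_lit 4) (nat_lit 368) (nat_lit 214) (nat_lit 198)) (XT.lf (nat_lit 0) (nat_lit 862905020812) (nat_lit 152) (nat_lit 3292322292822) (nat_lit 0) (nat_lit 862613563244) (nat_lit 1) (nat_lit 5) (nat_lit 3) (nat_lit 4) (nat_lit 1) (nat_lit 4) (nat_lit 369) (nat_lit 214) (nat_lit 197))) (XT.nd (nat_lit 78) (nat_lit 0) (nat_lit 0) (XT.lf (nat_lit 0) (nat_lit 932280268746) (nat_lit 152) (nat_lit 3554976884224) (nat_lit 0) (nat_lit 931980815138) (nat_lit 1) (nat_lit 5) (nat_lit 3) (nat_lit 4) (nat_lit 1) (nat_lit 4) (nat_lit 370) (nat_lit 214) (nat_lit 196)) (XT.lf (nat_lit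 0) (nat_lit 1007196032471) (nat_lit 152) (nat_lit 3838662384309) (nat_lit 0) (nat_lit 1006889175124) (nat_lit 1) (nat_lit 5) (nat_lit 3) (nat_lit 4) (nat_lit 1) (nat_lit 4) (nat_lit 371) (nat_lit 214) (nat_lit 195)))) (XT.nd (nat_lit 156) (nat_lit 0) (nat_lit 0) (XT.nd (nat_lit 78) (nat_lit 0) (nat_lit 0) (XT.lf (nat_lit 0) (nat_lit 97267938605) (nat_lit 152) (nat_lit 387042689065) (nat_lit 0) (nat_lit 97267938605) (nat_lit 1) (nat_lit 5) (nat_lit 3) (nat_lit 4) (nat_lit 1) (nat_lit 4) (nat_lit 350) (nat_lit 215) (nat_lit 215)) (XT.lf (nat_lit 0) (nat_lit 210843159991) (nat_lit 152) (nat_lit 834492616487) (nat_lit 0) (nat_lit 210811207664) (nat_lit 1) (nat_lit 5) (nat_lit 3) (nat_lit 4) (nat_lit 1) (nat_lit 4) (nat_lit 351) (nat_lit 215) (nat_lit 214))) (XT.nd (nat_lit 78) (nat_lit 0) (nat_lit 0) (XT.lf (nat_lit 0) (nat_lit 228417047055) (nat_lit 152) (nat_lit 899806525595) (nat_lit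 0) (nat_lit 228355509239) (nat_lit 1) (nat_lit 5) (nat_lit 3) (nat_lit 4) (nat_lit 1) (nat_lit 4) (nat_lit 352) (nat_lit 215) (nat_lit 213)) (XT.lf (nat_lit 0) (nat_lit 247361679956) (nat_lit 152) (nat_lit 970414150840) (nat_lit 0) (nat_lit 247272748169) (nat_lit 1) (nat_lit 5) (nat_lit 3) (nat_lit 4) (nat_lit 1) (nat_lit 4) (nat_lit 353) (nat_lit 215) (nat_lit 212))))) (XT.nd (nat_lit 312) (nat_lit 0) (nat_lit 0) (XT.nd (nat_lit 156) (nat_lit 0) (nat_lit 0) (XT.nd (nat_lit 78) (nat_lit 0) (nat_lit 0) (XT.lf (nat_lit 0) (nat_lit 267789323185) (nat_lit 152) (nat_lit 1046733907780) (nat_lit 0) (nat_lit 267675026610) (nat_lit 1) (nat_lit 5) (nat_lit 3) (nat_lit 4) (nat_lit 1) (nat_lit 4) (nat_lit 354) (nat_lit 215) (nat_lit 211)) (XT.lf (nat_lit 0) (nat_lit 289821029442) (nat_lit 152) (nat_lit 1129218061641) (nat_lit 0) (nat_lit 289683246953) (nat_lit 1) (nat_lit 5) (nat_lit 3) (nat_lit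 4) (nat_lit 1) (nat_lit 4) (nat_lit 355) (nat_lit 215) (nat_lit 210))) (XT.nd (nat_lit 78) (nat_lit 0) (nat_lit 0) (XT.lf (nat_lit 0) (nat_lit 313587356987) (nat_lit 152) (nat_lit 1218355407408) (nat_lit 0) (nat_lit 313427828281) (nat_lit 1) (nat_lit 5) (nat_lit 3) (nat_lit 4) (nat_lit 1) (nat_lit 4) (nat_lit 356) (nat_lit 215) (nat_lit 209)) (XT.lf (nat_lit 0) (nat_lit 339229143317) (nat_lit 152) (nat_lit 1314674166390) (nat_lit 0) (nat_lit 339049479225) (nat_lit 1) (nat_lit 5) (nat_lit 3) (nat_lit 4) (nat_lit 1) (nat_lit 4) (nat_lit 357) (nat_lit 215) (nat_lit 208)))) (XT.nd (nat_lit 156) (nat_lit 0) (nat_lit 0) (XT.nd (nat_lit 78) (nat_lit 0) (nat_lit 0) (XT.lf (nat_lit 0) (nat_lit 366898339758) (nat_lit 152) (nat_lit 1418745116418) (nat_lit 0) (nat_lit 366700031789) (nat_lit 1) (nat_lit 5) (nat_lit 3) (nat_lit 4) (nat_lit 1) (nat_lit 4) (nat_lit 358) (nat_lit 215) (nat_lit 207))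 (XT.lf (nat_lit 0) (nat_lit 396758911919) (nat_lit 152) (nat_lit 1531184974233) (nat_lit 0) (nat_lit 396543341101) (nat_lit 1) (nat_lit 5) (nat_lit 3) (nat_lit 4) (nat_lit 1) (nat_lit 4) (nat_lit 359) (nat_lit 215) (nat_lit 206))) (XT.nd (nat_lit 78) (nat_lit 0) (nat_lit 0) (XT.lf (nat_lit 0) (nat_lit 428987811337) (nat_lit 152) (nat_lit 1652660050103) (nat_lit 0) (nat_lit 428756256401) (nat_lit 1) (nat_lit 5) (nat_lit 3) (nat_lit 4) (nat_lit 1) (nat_lit 4) (nat_lit 360) (nat_lit 215) (nat_lit 205)) (XT.lf (nat_lit 0) (nat_lit 463776024085) (nat_lit 152) (nat_lit 1783890196331) (nat_lit 0) (nat_lit 463529669039) (nat_lit 1) (nat_lit 5) (nat_lit 3) (nat_lit 4) (nat_lit 1) (nat_lit 4) (nat_lit 361) (nat_lit 215) (nat_lit 204))))))))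
noncomputable def xc2 : XT := (XT.nd (nat_lit 41106) (nat_lit 0) (nat_lit 0) (XT.nd (nat_lit 39936) (nat_lit 0) (nat_lit 0) (XT.nd (nat_lit 546) (nat_lit 0) (nat_lit 0) (XT.nd (nat_lit 234) (nat_lit 0) (nat_lit 0) (XT.nd (nat_lit 78) (nat_lit 0) (nat_lit 0) (XT.lf (nat_lit 0) (nat_lit 501329702533) (nat_lit 152) (nat_lit 1925653073040) (nat_lit 0) (nat_lit 501069643681) (nat_lit 1) (nat_lit 5) (nat_lit 3) (nat_lit 4) (nat_lit 1) (nat_lit 4) (nat_lit 362) (nat_lit 215) (nat_lit 203)) (XT.nd (nat_lit 78) (nat_lit 0) (nat_lit 0) (XT.lf (nat_lit 0) (nat_lit 541871386999) (nat_lit 152) (nat_lit 2078788756539) (nat_lit 0) (nat_lit 541598639438) (nat_lit 1) (nat_lit 5) (nat_lit 3) (nat_lit 4) (nat_lit 1) (nat_lit 4) (nat_lit 363) (nat_lit 215) (nat_lit 202)) (XT.lf (nat_lit 0) (nat_lit 585641324501) (nat_lit 152) (nat_lit 2244204717544) (nat_lit 0) (nat_lit 585356828135) (nat_lit 1) (nat_lit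 5) (nat_lit 3) (nat_lit 4) (nat_lit 1) (nat_lit 4) (nat_lit 364) (nat_lit 215) (nat_lit 201)))) (XT.nd (nat_lit 156) (nat_lit 0) (nat_lit 0) (XT.nd (nat_lit 78) (nat_lit 0) (nat_lit 0) (XT.lf (nat_lit 0) (nat_lit 632898892447) (nat_lit 152) (nat_lit 2422881198787) (nat_lit 0) (nat_lit 632603517559) (nat_lit 1) (nat_lit 5) (nat_lit 3) (nat_lit 4) (nat_lit 1) (nat_lit 4) (nat_lit 365) (nat_lit 215) (nat_lit 200)) (XT.lf (nat_lit 0) (nat_lit 683924135684) (nat_lit 152) (nat_lit 2615877023860) (nat_lit 0) (nat_lit 683618688089) (nat_lit 1) (nat_lit 5) (nat_lit 3) (nat_lit 4) (nat_lit 1) (nat_lit 4) (nat_lit 366) (nat_lit 215) (nat_lit 199))) (XT.nd (nat_lit 78) (nat_lit 0) (nat_lit 0) (XT.lf (nat_lit 0) (nat_lit 739019426023) (nat_lit 152) (nat_lit 2824335871727) (nat_lit 0) (nat_lit 738704651849) (nat_lit 1) (nat_lit 5) (nat_lit 3) (nat_lit 4) (nat_lit 1) (nat_lit 4) (nat_lit 367) (nat_lit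 215) (nat_lit 198)) (XT.lf (nat_lit 0) (nat_lit 798511254075) (nat_lit 152) (nat_lit 3049493054079) (nat_lit 0) (nat_lit 798187844179) (nat_lit 1) (nat_lit 5) (nat_lit 3) (nat_lit 4) (nat_lit 1) (nat_lit 4) (nat_lit 368) (nat_lit 215) (nat_lit 197))))) (XT.nd (nat_lit 39078) (nat_lit 0) (nat_lit 0) (XT.nd (nat_lit 156) (nat_lit 0) (nat_lit 0) (XT.nd (nat_lit 78) (nat_lit 0) (nat_lit 0) (XT.lf (nat_lit 0) (nat_lit 862752164006) (nat_lit 152) (nat_lit 3292682835701) (nat_lit 0) (nat_lit 862420758071) (nat_lit 1) (nat_lit 5) (nat_lit 3) (nat_lit 4) (nat_lit 1) (nat_lit 4) (nat_lit 369) (nat_lit 215) (nat_lit 196)) (XT.lf (nat_lit 0) (nat_lit 932122842688) (nat_lit 152) (nat_lit 3555346341223) (nat_lit 0) (nat_lit 931784033013) (nat_lit 1) (nat_lit 5) (nat_lit 3) (nat_lit 4) (nat_lit 1) (nat_lit 4) (nat_lit 370) (nat_lit 215) (nat_lit 195))) (XT.nd (nat_lit 38844) (nat_lit 0) (nat_lit 0)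 (XT.lf (nat_lit 0) (nat_lit 1007034375626) (nat_lit 152) (nat_lit 3839040095124) (nat_lit 0) (nat_lit 1006688710636) (nat_lit 1) (nat_lit 5) (nat_lit 3) (nat_lit 4) (nat_lit 1) (nat_lit 4) (nat_lit 371) (nat_lit 215) (nat_lit 194)) (XT.lf (nat_lit 0) (nat_lit 82698660124) (nat_lit 152) (nat_lit 333272222660) (nat_lit 0) (nat_lit 82698660124) (nat_lit 1) (nat_lit 5) (nat_lit 3) (nat_lit 4) (nat_lit 1) (nat_lit 4) (nat_lit 348) (nat_lit 216) (nat_lit 216)))) (XT.nd (nat_lit 156) (nat_lit 0) (nat_lit 0) (XT.nd (nat_lit 78) (nat_lit 0) (nat_lit 0) (XT.lf (nat_lit 0) (nat_lit 179433071479) (nat_lit 152) (nat_lit 718226841703) (nat_lit 0) (nat_lit 179398562965) (nat_lit 1) (nat_lit 5) (nat_lit 3) (nat_lit 4) (nat_lit 1) (nat_lit 4) (nat_lit 349) (nat_lit 216) (nat_lit 215)) (XT.lf (nat_lit 0) (nat_lit 194550666203) (nat_lit 152) (nat_lit 774123848811) (nat_lit 0) (nat_lit 194484205362) (nat_lit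 1) (nat_lit 5) (nat_lit 3) (nat_lit 4) (nat_lit 1) (nat_lit 4) (nat_lit 350) (nat_lit 216) (nat_lit 214))) (XT.nd (nat_lit 78) (nat_lit 0) (nat_lit 0) (XT.lf (nat_lit 0) (nat_lit 210839690167) (nat_lit 152) (nat_lit 834566708169) (nat_lit 0) (nat_lit 210743643837) (nat_lit 1) (nat_lit 5) (nat_lit 3) (nat_lit 4) (nat_lit 1) (nat_lit 4) (nat_lit 351) (nat_lit 216) (nat_lit 213)) (XT.lf (nat_lit 0) (nat_lit 228396670919) (nat_lit 152) (nat_lit 899913599685) (nat_lit 0) (nat_lit 228273230618) (nat_lit 1) (nat_lit 5) (nat_lit 3) (nat_lit 4) (nat_lit 1) (nat_lit 4) (nat_lit 352) (nat_lit 216) (nat_lit 212)))))) (XT.nd (nat_lit 546) (nat_lit 0) (nat_lit 0) (XT.nd (nat_lit 234) (nat_lit 0) (nat_lit 0) (XT.nd (nat_lit 78) (nat_lit 0) (nat_lit 0) (XT.lf (nat_lit 0) (nat_lit 247325649827) (nat_lit 152) (nat_lit 970551764197) (nat_lit 0) (nat_lit 247176844739) (nat_lit 1) (nat_lit 5) (nat_lit 3)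 (nat_lit 4) (nat_lit 1) (nat_lit 4) (nat_lit 353) (nat_lit 216) (nat_lit 211)) (XT.nd (nat_lit 78) (nat_lit 0) (nat_lit 0) (XT.lf (nat_lit 0) (nat_lit 267738798618) (nat_lit 152) (nat_lit 1046899798235) (nat_lit 0) (nat_lit 267566507616) (nat_lit 1) (nat_lit 5) (nat_lit 3) (nat_lit 4) (nat_lit 1) (nat_lit 4) (nat_lit 354) (nat_lit 216) (nat_lit 210)) (XT.lf (nat_lit 0) (nat_lit 289757084101) (nat_lit 152) (nat_lit 1129410134595) (nat_lit 0) (nat_lit 289563046880) (nat_lit 1) (nat_lit 5) (nat_lit 3) (nat_lit 4) (nat_lit 1) (nat_lit 4) (nat_lit 355) (nat_lit 216) (nat_lit 209)))) (XT.nd (nat_lit 156) (nat_lit 0) (nat_lit 0) (XT.nd (nat_lit 78) (nat_lit 0) (nat_lit 0) (XT.lf (nat_lit 0) (nat_lit 313510985002) (nat_lit 152) (nat_lit 1218571723417) (nat_lit 0) (nat_lit 313296812396) (nat_lit 1) (nat_lit 5) (nat_lit 3) (nat_lit 4) (nat_lit 1) (nat_lit 4) (nat_lit 356) (nat_lit 216) (nat_lit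 208)) (XT.lf (nat_lit 0) (nat_lit 339141265181) (nat_lit 152) (nat_lit 1314912929672) (nat_lit 0) (nat_lit 338908448698) (nat_lit 1) (nat_lit 5) (nat_lit 3) (nat_lit 4) (nat_lit 1) (nat_lit 4) (nat_lit 357) (nat_lit 216) (nat_lit 207))) (XT.nd (nat_lit 78) (nat_lit 0) (nat_lit 0) (XT.lf (nat_lit 0) (nat_lit 366799807777) (nat_lit 152) (nat_lit 1419004664212) (nat_lit 0) (nat_lit 366549728446) (nat_lit 1) (nat_lit 5) (nat_lit 3) (nat_lit 4) (nat_lit 1) (nat_lit 4) (nat_lit 358) (nat_lit 216) (nat_lit 206)) (XT.lf (nat_lit 0) (nat_lit 396650515267) (nat_lit 152) (nat_lit 1531463766945) (nat_lit 0) (nat_lit 396384451817) (nat_lit 1) (nat_lit 5) (nat_lit 3) (nat_lit 4) (nat_lit 1) (nat_lit 4) (nat_lit 359) (nat_lit 216) (nat_lit 205))))) (XT.nd (nat_lit 312) (nat_lit 0) (nat_lit 0) (XT.nd (nat_lit 156) (nat_lit 0) (nat_lit 0) (XT.nd (nat_lit 78) (nat_lit 0) (nat_lit 0) (XT.lf (nat_lit 0)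 (nat_lit 428870280732) (nat_lit 152) (nat_lit 1652956662184) (nat_lit 0) (nat_lit 428589417172) (nat_lit 1) (nat_lit 5) (nat_lit 3) (nat_lit 4) (nat_lit 1) (nat_lit 4) (nat_lit 360) (nat_lit 216) (nat_lit 204)) (XT.lf (nat_lit 0) (nat_lit 463650036114) (nat_lit 152) (nat_lit 1784203307827) (nat_lit 0) (nat_lit 463355468749) (nat_lit 1) (nat_lit 5) (nat_lit 3) (nat_lit 4) (nat_lit 1) (nat_lit 4) (nat_lit 361) (nat_lit 216) (nat_lit 203))) (XT.nd (nat_lit 78) (nat_lit 0) (nat_lit 0) (XT.lf (nat_lit 0) (nat_lit 501195883669) (nat_lit 152) (nat_lit 1925981461773) (nat_lit 0) (nat_lit 500888627595) (nat_lit 1) (nat_lit 5) (nat_lit 3) (nat_lit 4) (nat_lit 1) (nat_lit 4) (nat_lit 362) (nat_lit 216) (nat_lit 202)) (XT.lf (nat_lit 0) (nat_lit 541730317307) (nat_lit 152) (nat_lit 2079131290862) (nat_lit 0) (nat_lit 541411312428) (nat_lit 1) (nat_lit 5) (nat_lit 3) (nat_lit 4) (nat_lit 1) (nat_lit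 4) (nat_lit 363) (nat_lit 216) (nat_lit 201)))) (XT.nd (nat_lit 156) (nat_lit 0) (nat_lit 0) (XT.nd (nat_lit 78) (nat_lit 0) (nat_lit 0) (XT.lf (nat_lit 0) (nat_lit 585493541080) (nat_lit 152) (nat_lit 2244560349634) (nat_lit 0) (nat_lit 585163657679) (nat_lit 1) (nat_lit 5) (nat_lit 3) (nat_lit 4) (nat_lit 1) (nat_lit 4) (nat_lit 364) (nat_lit 216) (nat_lit 200)) (XT.lf (nat_lit 0) (nat_lit 632744892611) (nat_lit 152) (nat_lit 2423248958440) (nat_lit 0) (nat_lit 632404936503) (nat_lit 1) (nat_lit 5) (nat_lit 3) (nat_lit 4) (nat_lit 1) (nat_lit 4) (nat_lit 365) (nat_lit 216) (nat_lit 199))) (XT.nd (nat_lit 78) (nat_lit 0) (nat_lit 0) (XT.lf (nat_lit 0) (nat_lit 683764379907) (nat_lit 152) (nat_lit 2616256012739) (nat_lit 0) (nat_lit 683415097219) (nat_lit 1) (nat_lit 5) (nat_lit 3) (nat_lit 4) (nat_lit 1) (nat_lit 4) (nat_lit 366) (nat_lit 216) (nat_lit 198)) (XT.lf (nat_lit 0) (nat_lit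 738854340672) (nat_lit 152) (nat_lit 2824725258036) (nat_lit 0) (nat_lit 738496422263) (nat_lit 1) (nat_lit 5) (nat_lit 3) (nat_lit 4) (nat_lit 1) (nat_lit 4) (nat_lit 367) (nat_lit 216) (nat_lit 197))))))) (XT.nd (nat_lit 39780) (nat_lit 0) (nat_lit 0) (XT.nd (nat_lit 39156) (nat_lit 0) (nat_lit 0) (XT.nd (nat_lit 234) (nat_lit 0) (nat_lit 0) (XT.nd (nat_lit 78) (nat_lit 0) (nat_lit 0) (XT.lf (nat_lit 0) (nat_lit 798341233933) (nat_lit 152) (nat_lit 3049892067639) (nat_lit 0) (nat_lit 797975319484) (nat_lit 1) (nat_lit 5) (nat_lit 3) (nat_lit 4) (nat_lit 1) (nat_lit 4) (nat_lit 368) (nat_lit 216) (nat_lit 196)) (XT.nd (nat_lit 78) (nat_lit 0) (nat_lit 0) (XT.lf (nat_lit 0) (nat_lit 862577574612) (nat_lit 152) (nat_lit 3293090763381) (nat_lit 0) (nat_lit 862204256424) (nat_lit 1) (nat_lit 5) (nat_lit 3) (nat_lit 4) (nat_lit 1) (nat_lit 4) (nat_lit 369) (nat_lit 216) (nat_lit 195)) (XT.lf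 (nat_lit 0) (nat_lit 931944022506) (nat_lit 152) (nat_lit 3555762522719) (nat_lit 0) (nat_lit 931563849003) (nat_lit 1) (nat_lit 5) (nat_lit 3) (nat_lit 4) (nat_lit 1) (nat_lit 4) (nat_lit 370) (nat_lit 216) (nat_lit 194)))) (XT.nd (nat_lit 38766) (nat_lit 0) (nat_lit 0) (XT.nd (nat_lit 38688) (nat_lit 0) (nat_lit 0) (XT.lf (nat_lit 0) (nat_lit 1006851638048) (nat_lit 152) (nat_lit 3839463919042) (nat_lit 0) (nat_lit 1006465117031) (nat_lit 1) (nat_lit 5) (nat_lit 3) (nat_lit 4) (nat_lit 1) (nat_lit 4) (nat_lit 371) (nat_lit 216) (nat_lit 193)) (XT.lf (nat_lit 0) (nat_lit 70152418529) (nat_lit 152) (nat_lit 287288354443) (nat_lit 0) (nat_lit 70152418529) (nat_lit 1) (nat_lit 5) (nat_lit 3) (nat_lit 4) (nat_lit 1) (nat_lit 4) (nat_lit 346) (nat_lit 217) (nat_lit 217))) (XT.nd (nat_lit 78) (nat_lit 0) (nat_lit 0) (XT.lf (nat_lit 0) (nat_lit 152397506882) (nat_lit 152) (nat_lit 618770393614)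 (nat_lit 0) (nat_lit 152360237688) (nat_lit 1) (nat_lit 5) (nat_lit 3) (nat_lit 4) (nat_lit 1) (nat_lit 4) (nat_lit 347) (nat_lit 217) (nat_lit 216)) (XT.lf (nat_lit 0) (nat_lit 165413292359) (nat_lit 152) (nat_lit 666585993656) (nat_lit 0) (nat_lit 165341514651) (nat_lit 1) (nat_lit 5) (nat_lit 3) (nat_lit 4) (nat_lit 1) (nat_lit 4) (nat_lit 348) (nat_lit 217) (nat_lit 215))))) (XT.nd (nat_lit 312) (nat_lit 0) (nat_lit 0) (XT.nd (nat_lit 156) (nat_lit 0) (nat_lit 0) (XT.nd (nat_lit 78) (nat_lit 0) (nat_lit 0) (XT.lf (nat_lit 0) (nat_lit 179429324068) (nat_lit 152) (nat_lit 718306860719) (nat_lit 0) (nat_lit 179325594032) (nat_lit 1) (nat_lit 5) (nat_lit 3) (nat_lit 4) (nat_lit 1) (nat_lit 4) (nat_lit 349) (nat_lit 217) (nat_lit 214)) (XT.lf (nat_lit 0) (nat_lit 194528659976) (nat_lit 152) (nat_lit 774239488828) (nat_lit 0) (nat_lit 194395344451) (nat_lit 1) (nat_lit 5) (nat_lit 3) (nat_lit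 4) (nat_lit 1) (nat_lit 4) (nat_lit 350) (nat_lit 217) (nat_lit 213))) (XT.nd (nat_lit 78) (nat_lit 0) (nat_lit 0) (XT.lf (nat_lit 0) (nat_lit 210800777627) (nat_lit 152) (nat_lit 834715330594) (nat_lit 0) (nat_lit 210640068132) (nat_lit 1) (nat_lit 5) (nat_lit 3) (nat_lit 4) (nat_lit 1) (nat_lit 4) (nat_lit 351) (nat_lit 217) (nat_lit 212)) (XT.lf (nat_lit 0) (nat_lit 228342104387) (nat_lit 152) (nat_lit 900092761377) (nat_lit 0) (nat_lit 228156030104) (nat_lit 1) (nat_lit 5) (nat_lit 3) (nat_lit 4) (nat_lit 1) (nat_lit 4) (nat_lit 352) (nat_lit 217) (nat_lit 211)))) (XT.nd (nat_lit 156) (nat_lit 0) (nat_lit 0) (XT.nd (nat_lit 78) (nat_lit 0) (nat_lit 0) (XT.lf (nat_lit 0) (nat_lit 247256588858) (nat_lit 152) (nat_lit 970759202987) (nat_lit 0) (nat_lit 247047028661) (nat_lit 1) (nat_lit 5) (nat_lit 3) (nat_lit 4) (nat_lit 1) (nat_lit 4) (nat_lit 353) (nat_lit 217) (nat_lit 210)) (XT.lf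 (nat_lit 0) (nat_lit 267656316874) (nat_lit 152) (nat_lit 1047133419525) (nat_lit 0) (nat_lit 267425010459) (nat_lit 1) (nat_lit 5) (nat_lit 3) (nat_lit 4) (nat_lit 1) (nat_lit 4) (nat_lit 354) (nat_lit 217) (nat_lit 209))) (XT.nd (nat_lit 78) (nat_lit 0) (nat_lit 0) (XT.lf (nat_lit 0) (nat_lit 289662175713) (nat_lit 152) (nat_lit 1129667998939) (nat_lit 0) (nat_lit 289410733911) (nat_lit 1) (nat_lit 5) (nat_lit 3) (nat_lit 4) (nat_lit 1) (nat_lit 4) (nat_lit 355) (nat_lit 217) (nat_lit 208)) (XT.lf (nat_lit 0) (nat_lit 313404570463) (nat_lit 152) (nat_lit 1218852035034) (nat_lit 0) (nat_lit 313134484785) (nat_lit 1) (nat_lit 5) (nat_lit 3) (nat_lit 4) (nat_lit 1) (nat_lit 4) (nat_lit 356) (nat_lit 217) (nat_lit 207)))))) (XT.nd (nat_lit 624) (nat_lit 0) (nat_lit 0) (XT.nd (nat_lit 312) (nat_lit 0) (nat_lit 0) (XT.nd (nat_lit 156) (nat_lit 0) (nat_lit 0) (XT.nd (nat_lit 78) (nat_lit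 0) (nat_lit 0) (XT.lf (nat_lit 0) (nat_lit 339024196797) (nat_lit 152) (nat_lit 1315214025801) (nat_lit 0) (nat_lit 338736848271) (nat_lit 1) (nat_lit 5) (nat_lit 3) (nat_lit 4) (nat_lit 1) (nat_lit 4) (nat_lit 357) (nat_lit 217) (nat_lit 206)) (XT.lf (nat_lit 0) (nat_lit 366672874723) (nat_lit 152) (nat_lit 1419325005259) (nat_lit 0) (nat_lit 366369542079) (nat_lit 1) (nat_lit 5) (nat_lit 3) (nat_lit 4) (nat_lit 1) (nat_lit 4) (nat_lit 358) (nat_lit 217) (nat_lit 205))) (XT.nd (nat_lit 78) (nat_lit 0) (nat_lit 0) (XT.lf (nat_lit 0) (nat_lit 396514448259) (nat_lit 152) (nat_lit 1531801927361) (nat_lit 0) (nat_lit 396196315504) (nat_lit 1) (nat_lit 5) (nat_lit 3) (nat_lit 4) (nat_lit 1) (nat_lit 4) (nat_lit 359) (nat_lit 217) (nat_lit 204)) (XT.lf (nat_lit 0) (nat_lit 428725756359) (nat_lit 152) (nat_lit 1653311322016) (nat_lit 0) (nat_lit 428393919798) (nat_lit 1) (nat_lit 5) (nat_lit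 3) (nat_lit 4) (nat_lit 1) (nat_lit 4) (nat_lit 360) (nat_lit 217) (nat_lit 203)))) (XT.nd (nat_lit 156) (nat_lit 0) (nat_lit 0) (XT.nd (nat_lit 78) (nat_lit 0) (nat_lit 0) (XT.lf (nat_lit 0) (nat_lit 463497680848) (nat_lit 152) (nat_lit 1784573244895) (nat_lit 0) (nat_lit 463153155578) (nat_lit 1) (nat_lit 5) (nat_lit 3) (nat_lit 4) (nat_lit 1) (nat_lit 4) (nat_lit 361) (nat_lit 217) (nat_lit 202)) (XT.lf (nat_lit 0) (nat_lit 501036277575) (nat_lit 152) (nat_lit 1926365544431) (nat_lit 0) (nat_lit 500680003501) (nat_lit 1) (nat_lit 5) (nat_lit 3) (nat_lit 4) (nat_lit 1) (nat_lit 4) (nat_lit 362) (nat_lit 217) (nat_lit 201))) (XT.nd (nat_lit 78) (nat_lit 0) (nat_lit 0) (XT.lf (nat_lit 0) (nat_lit 541563997484) (nat_lit 152) (nat_lit 2079528471287) (nat_lit 0) (nat_lit 541196844888) (nat_lit 1) (nat_lit 5) (nat_lit 3) (nat_lit 4) (nat_lit 1) (nat_lit 4) (nat_lit 363) (nat_lit 217) (nat_lit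 200)) (XT.lf (nat_lit 0) (nat_lit 585321004842) (nat_lit 152) (nat_lit 2244969657623) (nat_lit 0) (nat_lit 584943779539) (nat_lit 1) (nat_lit 5) (nat_lit 3) (nat_lit 4) (nat_lit 1) (nat_lit 4) (nat_lit 364) (nat_lit 217) (nat_lit 199))))) (XT.nd (nat_lit 312) (nat_lit 0) (nat_lit 0) (XT.nd (nat_lit 156) (nat_lit 0) (nat_lit 0) (XT.nd (nat_lit 78) (nat_lit 0) (nat_lit 0) (XT.lf (nat_lit 0) (nat_lit 632566600432) (nat_lit 152) (nat_lit 2423669495654) (nat_lit 0) (nat_lit 632180048549) (nat_lit 1) (nat_lit 5) (nat_lit 3) (nat_lit 4) (nat_lit 1) (nat_lit 4) (nat_lit 365) (nat_lit 217) (nat_lit 198)) (XT.lf (nat_lit 0) (nat_lit 683580758154) (nat_lit 152) (nat_lit 2616686947383) (nat_lit 0) (nat_lit 683185570549) (nat_lit 1) (nat_lit 5) (nat_lit 3) (nat_lit 4) (nat_lit 1) (nat_lit 4) (nat_lit 366) (nat_lit 217) (nat_lit 197))) (XT.nd (nat_lit 78) (nat_lit 0) (nat_lit 0) (XT.lf (nat_lit 0)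 (nat_lit 738665784127) (nat_lit 152) (nat_lit 2825165819931) (nat_lit 0) (nat_lit 738262600484) (nat_lit 1) (nat_lit 5) (nat_lit 3) (nat_lit 4) (nat_lit 1) (nat_lit 4) (nat_lit 367) (nat_lit 217) (nat_lit 196)) (XT.lf (nat_lit 0) (nat_lit 798148108137) (nat_lit 152) (nat_lit 3050341543655) (nat_lit 0) (nat_lit 797737520754) (nat_lit 1) (nat_lit 5) (nat_lit 3) (nat_lit 4) (nat_lit 1) (nat_lit 4) (nat_lit 368) (nat_lit 217) (nat_lit 195)))) (XT.nd (nat_lit 156) (nat_lit 0) (nat_lit 0) (XT.nd (nat_lit 78) (nat_lit 0) (nat_lit 0) (XT.lf (nat_lit 0) (nat_lit 862380218028) (nat_lit 152) (nat_lit 3293548493213) (nat_lit 0) (nat_lit 861962775330) (nat_lit 1) (nat_lit 5) (nat_lit 3) (nat_lit 4) (nat_lit 1) (nat_lit 4) (nat_lit 369) (nat_lit 217) (nat_lit 194)) (XT.lf (nat_lit 0) (nat_lit 931742748526) (nat_lit 152) (nat_lit 3556227894973) (nat_lit 0) (nat_lit 931318958315) (nat_lit 1) (nat_lit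 5) (nat_lit 3) (nat_lit 4) (nat_lit 1) (nat_lit 4) (nat_lit 370) (nat_lit 217) (nat_lit 193))) (XT.nd (nat_lit 38532) (nat_lit 0) (nat_lit 0) (XT.lf (nat_lit 0) (nat_lit 1006646736849) (nat_lit 152) (nat_lit 3839936367612) (nat_lit 0) (nat_lit 1006217069310) (nat_lit 1) (nat_lit 5) (nat_lit 3) (nat_lit 4) (nat_lit 1) (nat_lit 4) (nat_lit 371) (nat_lit 217) (nat_lit 192)) (XT.lf (nat_lit 0) (nat_lit 59336170305) (nat_lit 152) (nat_lit 247989490331) (nat_lit 0) (nat_lit 59336170305) (nat_lit 1) (nat_lit 5) (nat_lit 3) (nat_lit 4) (nat_lit 1) (nat_lit 4) (nat_lit 344) (nat_lit 218) (nat_lit 218))))))))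
noncomputable def xc3 : XT := (XT.nd (nat_lit 40716) (nat_lit 0) (nat_lit 0) (XT.nd (nat_lit 1170) (nat_lit 0) (nat_lit 0) (XT.nd (nat_lit 546) (nat_lit 0) (nat_lit 0) (XT.nd (nat_lit 234) (nat_lit 0) (nat_lit 0) (XT.nd (nat_lit 78) (nat_lit 0) (nat_lit 0) (XT.lf (nat_lit 0) (nat_lit 129103873349) (nat_lit 152) (nat_lit 533743050973) (nat_lit 0) (nat_lit 129063622619) (nat_lit 1) (nat_lit 5) (nat_lit 3) (nat_lit 4) (nat_lit 1) (nat_lit 4) (nat_lit 345) (nat_lit 218) (nat_lit 217)) (XT.nd (nat_lit 78) (nat_lit 0) (nat_lit 0) (XT.lf (nat_lit 0) (nat_lit 140322086938) (nat_lit 152) (nat_lit 574621581089) (nat_lit 0) (nat_lit 140244567012) (nat_lit 1) (nat_lit 5) (nat_lit 3) (nat_lit 4) (nat_lit 1) (nat_lit 4) (nat_lit 346) (nat_lit 218) (nat_lit 216)) (XT.lf (nat_lit 0) (nat_lit 152393459679) (nat_lit 152) (nat_lit 618856814151) (nat_lit 0) (nat_lit 152281431240) (nat_lit 1) (nat_lit 5)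 (nat_lit 3) (nat_lit 4) (nat_lit 1) (nat_lit 4) (nat_lit 347) (nat_lit 218) (nat_lit 215)))) (XT.nd (nat_lit 156) (nat_lit 0) (nat_lit 0) (XT.nd (nat_lit 78) (nat_lit 0) (nat_lit 0) (XT.lf (nat_lit 0) (nat_lit 165389525634) (nat_lit 152) (nat_lit 666710884875) (nat_lit 0) (nat_lit 165245544867) (nat_lit 1) (nat_lit 5) (nat_lit 3) (nat_lit 4) (nat_lit 1) (nat_lit 4) (nat_lit 348) (nat_lit 218) (nat_lit 214)) (XT.lf (nat_lit 0) (nat_lit 179387298526) (nat_lit 152) (nat_lit 718467372938) (nat_lit 0) (nat_lit 179213732271) (nat_lit 1) (nat_lit 5) (nat_lit 3) (nat_lit 4) (nat_lit 1) (nat_lit 4) (nat_lit 349) (nat_lit 218) (nat_lit 213))) (XT.nd (nat_lit 78) (nat_lit 0) (nat_lit 0) (XT.lf (nat_lit 0) (nat_lit 194469728122) (nat_lit 152) (nat_lit 774432983455) (nat_lit 0) (nat_lit 194268767896) (nat_lit 1) (nat_lit 5) (nat_lit 3) (nat_lit 4) (nat_lit 1) (nat_lit 4) (nat_lit 350) (nat_lit 218)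 (nat_lit 212)) (XT.lf (nat_lit 0) (nat_lit 210726191781) (nat_lit 152) (nat_lit 834939364488) (nat_lit 0) (nat_lit 210499866768) (nat_lit 1) (nat_lit 5) (nat_lit 3) (nat_lit 4) (nat_lit 1) (nat_lit 4) (nat_lit 351) (nat_lit 218) (nat_lit 211))))) (XT.nd (nat_lit 312) (nat_lit 0) (nat_lit 0) (XT.nd (nat_lit 156) (nat_lit 0) (nat_lit 0) (XT.nd (nat_lit 78) (nat_lit 0) (nat_lit 0) (XT.lf (nat_lit 0) (nat_lit 228253024104) (nat_lit 152) (nat_lit 900345072369) (nat_lit 0) (nat_lit 228003213176) (nat_lit 1) (nat_lit 5) (nat_lit 3) (nat_lit 4) (nat_lit 1) (nat_lit 4) (nat_lit 352) (nat_lit 218) (nat_lit 210)) (XT.lf (nat_lit 0) (nat_lit 247154087800) (nat_lit 152) (nat_lit 971037696479) (nat_lit 0) (nat_lit 246882530654) (nat_lit 1) (nat_lit 5) (nat_lit 3) (nat_lit 4) (nat_lit 1) (nat_lit 4) (nat_lit 353) (nat_lit 218) (nat_lit 209))) (XT.nd (nat_lit 78) (nat_lit 0) (nat_lit 0) (XT.lf (nat_lit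 0) (nat_lit 267541389172) (nat_lit 152) (nat_lit 1047436156071) (nat_lit 0) (nat_lit 267249696640) (nat_lit 1) (nat_lit 5) (nat_lit 3) (nat_lit 4) (nat_lit 1) (nat_lit 4) (nat_lit 354) (nat_lit 218) (nat_lit 208)) (XT.lf (nat_lit 0) (nat_lit 289535741859) (nat_lit 152) (nat_lit 1129993182758) (nat_lit 0) (nat_lit 289225405451) (nat_lit 1) (nat_lit 5) (nat_lit 3) (nat_lit 4) (nat_lit 1) (nat_lit 4) (nat_lit 355) (nat_lit 218) (nat_lit 207)))) (XT.nd (nat_lit 156) (nat_lit 0) (nat_lit 0) (XT.nd (nat_lit 78) (nat_lit 0) (nat_lit 0) (XT.lf (nat_lit 0) (nat_lit 313267482764) (nat_lit 152) (nat_lit 1219198003365) (nat_lit 0) (nat_lit 312939883508) (nat_lit 1) (nat_lit 5) (nat_lit 3) (nat_lit 4) (nat_lit 1) (nat_lit 4) (nat_lit 356) (nat_lit 218) (nat_lit 206)) (XT.lf (nat_lit 0) (nat_lit 338877244428) (nat_lit 152) (nat_lit 1315579239050) (nat_lit 0) (nat_lit 338533661053) (nat_lit 1) (nat_lit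 5) (nat_lit 3) (nat_lit 4) (nat_lit 1) (nat_lit 4) (nat_lit 357) (nat_lit 218) (nat_lit 205))) (XT.nd (nat_lit 78) (nat_lit 0) (nat_lit 0) (XT.lf (nat_lit 0) (nat_lit 366516788400) (nat_lit 152) (nat_lit 1419708037877) (nat_lit 0) (nat_lit 366158404915) (nat_lit 1) (nat_lit 5) (nat_lit 3) (nat_lit 4) (nat_lit 1) (nat_lit 4) (nat_lit 358) (nat_lit 218) (nat_lit 204)) (XT.lf (nat_lit 0) (nat_lit 396349904571) (nat_lit 152) (nat_lit 1532201459395) (nat_lit 0) (nat_lit 395977817280) (nat_lit 1) (nat_lit 5) (nat_lit 3) (nat_lit 4) (nat_lit 1) (nat_lit 4) (nat_lit 359) (nat_lit 218) (nat_lit 203)))))) (XT.nd (nat_lit 624) (nat_lit 0) (nat_lit 0) (XT.nd (nat_lit 312) (nat_lit 0) (nat_lit 0) (XT.nd (nat_lit 156) (nat_lit 0) (nat_lit 0) (XT.nd (nat_lit 78) (nat_lit 0) (nat_lit 0) (XT.lf (nat_lit 0) (nat_lit 428553381777) (nat_lit 152) (nat_lit 1653726131286) (nat_lit 0) (nat_lit 428168605777)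 (nat_lit 1) (nat_lit 5) (nat_lit 3) (nat_lit 4) (nat_lit 1) (nat_lit 4) (nat_lit 360) (nat_lit 218) (nat_lit 202)) (XT.lf (nat_lit 0) (nat_lit 463318055439) (nat_lit 152) (nat_lit 1785002199755) (nat_lit 0) (nat_lit 462921530635) (nat_lit 1) (nat_lit 5) (nat_lit 3) (nat_lit 4) (nat_lit 1) (nat_lit 4) (nat_lit 361) (nat_lit 218) (nat_lit 201))) (XT.nd (nat_lit 78) (nat_lit 0) (nat_lit 0) (XT.lf (nat_lit 0) (nat_lit 500849938437) (nat_lit 152) (nat_lit 1926807597059) (nat_lit 0) (nat_lit 500442535110) (nat_lit 1) (nat_lit 5) (nat_lit 3) (nat_lit 4) (nat_lit 1) (nat_lit 4) (nat_lit 362) (nat_lit 218) (nat_lit 200)) (XT.lf (nat_lit 0) (nat_lit 541371441931) (nat_lit 152) (nat_lit 2079982651478) (nat_lit 0) (nat_lit 540953965898) (nat_lit 1) (nat_lit 5) (nat_lit 3) (nat_lit 4) (nat_lit 1) (nat_lit 4) (nat_lit 363) (nat_lit 218) (nat_lit 199)))) (XT.nd (nat_lit 156) (nat_lit 0) (nat_lit 0)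 (XT.nd (nat_lit 78) (nat_lit 0) (nat_lit 0) (XT.lf (nat_lit 0) (nat_lit 585122693348) (nat_lit 152) (nat_lit 2245435067039) (nat_lit 0) (nat_lit 584695890735) (nat_lit 1) (nat_lit 5) (nat_lit 3) (nat_lit 4) (nat_lit 1) (nat_lit 4) (nat_lit 364) (nat_lit 218) (nat_lit 198)) (XT.lf (nat_lit 0) (nat_lit 632362959363) (nat_lit 152) (nat_lit 2424145302501) (nat_lit 0) (nat_lit 631927521028) (nat_lit 1) (nat_lit 5) (nat_lit 3) (nat_lit 4) (nat_lit 1) (nat_lit 4) (nat_lit 365) (nat_lit 218) (nat_lit 197))) (XT.nd (nat_lit 78) (nat_lit 0) (nat_lit 0) (XT.lf (nat_lit 0) (nat_lit 683372182294) (nat_lit 152) (nat_lit 2617172381480) (nat_lit 0) (nat_lit 682928747920) (nat_lit 1) (nat_lit 5) (nat_lit 3) (nat_lit 4) (nat_lit 1) (nat_lit 4) (nat_lit 366) (nat_lit 218) (nat_lit 196)) (XT.lf (nat_lit 0) (nat_lit 738452639017) (nat_lit 152) (nat_lit 2825660168149) (nat_lit 0) (nat_lit 738001800903) (nat_lit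 1) (nat_lit 5) (nat_lit 3) (nat_lit 4) (nat_lit 1) (nat_lit 4) (nat_lit 367) (nat_lit 218) (nat_lit 195))))) (XT.nd (nat_lit 38610) (nat_lit 0) (nat_lit 0) (XT.nd (nat_lit 156) (nat_lit 0) (nat_lit 0) (XT.nd (nat_lit 78) (nat_lit 0) (nat_lit 0) (XT.lf (nat_lit 0) (nat_lit 797930732238) (nat_lit 152) (nat_lit 3050844145688) (nat_lit 0) (nat_lit 797473038810) (nat_lit 1) (nat_lit 5) (nat_lit 3) (nat_lit 4) (nat_lit 1) (nat_lit 4) (nat_lit 368) (nat_lit 218) (nat_lit 194)) (XT.lf (nat_lit 0) (nat_lit 862158924733) (nat_lit 152) (nat_lit 3294058737668) (nat_lit 0) (nat_lit 861694883791) (nat_lit 1) (nat_lit 5) (nat_lit 3) (nat_lit 4) (nat_lit 1) (nat_lit 4) (nat_lit 369) (nat_lit 218) (nat_lit 193))) (XT.nd (nat_lit 78) (nat_lit 0) (nat_lit 0) (XT.lf (nat_lit 0) (nat_lit 931517828012) (nat_lit 152) (nat_lit 3556745215745) (nat_lit 0) (nat_lit 931047909743) (nat_lit 1) (nat_lit 5) (nat_lit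 3) (nat_lit 4) (nat_lit 1) (nat_lit 4) (nat_lit 370) (nat_lit 218) (nat_lit 192)) (XT.lf (nat_lit 0) (nat_lit 1006418457798) (nat_lit 152) (nat_lit 3840460240529) (nat_lit 0) (nat_lit 1005943097560) (nat_lit 1) (nat_lit 5) (nat_lit 3) (nat_lit 4) (nat_lit 1) (nat_lit 4) (nat_lit 371) (nat_lit 218) (nat_lit 191)))) (XT.nd (nat_lit 156) (nat_lit 0) (nat_lit 0) (XT.nd (nat_lit 78) (nat_lit 0) (nat_lit 0) (XT.lf (nat_lit 0) (nat_lit 49998323099) (nat_lit 152) (nat_lit 214431931050) (nat_lit 0) (nat_lit 49998323099) (nat_lit 1) (nat_lit 5) (nat_lit 3) (nat_lit 4) (nat_lit 1) (nat_lit 4) (nat_lit 342) (nat_lit 219) (nat_lit 219)) (XT.lf (nat_lit 0) (nat_lit 109009143022) (nat_lit 152) (nat_lit 461105583074) (nat_lit 0) (nat_lit 108965672233) (nat_lit 1) (nat_lit 5) (nat_lit 3) (nat_lit 4) (nat_lit 1) (nat_lit 4) (nat_lit 343) (nat_lit 219) (nat_lit 218))) (XT.nd (nat_lit 78) (nat_lit 0) (nat_lit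 0) (XT.lf (nat_lit 0) (nat_lit 118690970482) (nat_lit 152) (nat_lit 496027442641) (nat_lit 0) (nat_lit 118607248963) (nat_lit 1) (nat_lit 5) (nat_lit 3) (nat_lit 4) (nat_lit 1) (nat_lit 4) (nat_lit 344) (nat_lit 219) (nat_lit 217)) (XT.lf (nat_lit 0) (nat_lit 129099502369) (nat_lit 152) (nat_lit 533836385154) (nat_lit 0) (nat_lit 128978511655) (nat_lit 1) (nat_lit 5) (nat_lit 3) (nat_lit 4) (nat_lit 1) (nat_lit 4) (nat_lit 345) (nat_lit 219) (nat_lit 216))))))) (XT.nd (nat_lit 1170) (nat_lit 0) (nat_lit 0) (XT.nd (nat_lit 546) (nat_lit 0) (nat_lit 0) (XT.nd (nat_lit 234) (nat_lit 0) (nat_lit 0) (XT.nd (nat_lit 78) (nat_lit 0) (nat_lit 0) (XT.lf (nat_lit 0) (nat_lit 140296418874) (nat_lit 152) (nat_lit 574756463605) (nat_lit 0) (nat_lit 140140919646) (nat_lit 1) (nat_lit 5) (nat_lit 3) (nat_lit 4) (nat_lit 1) (nat_lit 4) (nat_lit 346) (nat_lit 219) (nat_lit 215)) (XT.nd (nat_lit 78) (nat_lit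 0) (nat_lit 0) (XT.lf (nat_lit 0) (nat_lit 152348072093) (nat_lit 152) (nat_lit 619030167348) (nat_lit 0) (nat_lit 152160620538) (nat_lit 1) (nat_lit 5) (nat_lit 3) (nat_lit 4) (nat_lit 1) (nat_lit 4) (nat_lit 347) (nat_lit 219) (nat_lit 214)) (XT.lf (nat_lit 0) (nat_lit 165325879231) (nat_lit 152) (nat_lit 666919859072) (nat_lit 0) (nat_lit 165108842187) (nat_lit 1) (nat_lit 5) (nat_lit 3) (nat_lit 4) (nat_lit 1) (nat_lit 4) (nat_lit 348) (nat_lit 219) (nat_lit 213)))) (XT.nd (nat_lit 156) (nat_lit 0) (nat_lit 0) (XT.nd (nat_lit 78) (nat_lit 0) (nat_lit 0) (XT.lf (nat_lit 0) (nat_lit 179306745812) (nat_lit 152) (nat_lit 718709329543) (nat_lit 0) (nat_lit 179062314798) (nat_lit 1) (nat_lit 5) (nat_lit 3) (nat_lit 4) (nat_lit 1) (nat_lit 4) (nat_lit 349) (nat_lit 219) (nat_lit 212)) (XT.lf (nat_lit 0) (nat_lit 194373521416) (nat_lit 152) (nat_lit 774705479327) (nat_lit 0) (nat_lit 194103725613)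 (nat_lit 1) (nat_lit 5) (nat_lit 3) (nat_lit 4) (nat_lit 1) (nat_lit 4) (nat_lit 350) (nat_lit 219) (nat_lit 211))) (XT.nd (nat_lit 78) (nat_lit 0) (nat_lit 0) (XT.lf (nat_lit 0) (nat_lit 210615490638) (nat_lit 152) (nat_lit 835240137459) (nat_lit 0) (nat_lit 210322208921) (nat_lit 1) (nat_lit 5) (nat_lit 3) (nat_lit 4) (nat_lit 1) (nat_lit 4) (nat_lit 351) (nat_lit 219) (nat_lit 210)) (XT.lf (nat_lit 0) (nat_lit 228128902185) (nat_lit 152) (nat_lit 900672027839) (nat_lit 0) (nat_lit 227813874251) (nat_lit 1) (nat_lit 5) (nat_lit 3) (nat_lit 4) (nat_lit 1) (nat_lit 4) (nat_lit 352) (nat_lit 219) (nat_lit 209))))) (XT.nd (nat_lit 312) (nat_lit 0) (nat_lit 0) (XT.nd (nat_lit 156) (nat_lit 0) (nat_lit 0) (XT.nd (nat_lit 78) (nat_lit 0) (nat_lit 0) (XT.lf (nat_lit 0) (nat_lit 247017539237) (nat_lit 152) (nat_lit 971388895004) (nat_lit 0) (nat_lit 246682375916) (nat_lit 1) (nat_lit 5) (nat_lit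 3) (nat_lit 4) (nat_lit 1) (nat_lit 4) (nat_lit 353) (nat_lit 219) (nat_lit 208)) (XT.lf (nat_lit 0) (nat_lit 267393334458) (nat_lit 152) (nat_lit 1047809801869) (nat_lit 0) (nat_lit 267039527261) (nat_lit 1) (nat_lit 5) (nat_lit 3) (nat_lit 4) (nat_lit 1) (nat_lit 4) (nat_lit 354) (nat_lit 219) (nat_lit 207))) (XT.nd (nat_lit 78) (nat_lit 0) (nat_lit 0) (XT.lf (nat_lit 0) (nat_lit 289377033300) (nat_lit 152) (nat_lit 1130387613068) (nat_lit 0) (nat_lit 289005963255) (nat_lit 1) (nat_lit 5) (nat_lit 3) (nat_lit 4) (nat_lit 1) (nat_lit 4) (nat_lit 355) (nat_lit 219) (nat_lit 206)) (XT.lf (nat_lit 0) (nat_lit 313098909536) (nat_lit 152) (nat_lit 1219611678592) (nat_lit 0) (nat_lit 312711855372) (nat_lit 1) (nat_lit 5) (nat_lit 3) (nat_lit 4) (nat_lit 1) (nat_lit 4) (nat_lit 356) (nat_lit 219) (nat_lit 205)))) (XT.nd (nat_lit 156) (nat_lit 0) (nat_lit 0) (XT.nd (nat_lit 78) (nat_lit 0)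 (nat_lit 0) (XT.lf (nat_lit 0) (nat_lit 338699537245) (nat_lit 152) (nat_lit 1316010733646) (nat_lit 0) (nat_lit 338297682971) (nat_lit 1) (nat_lit 5) (nat_lit 3) (nat_lit 4) (nat_lit 1) (nat_lit 4) (nat_lit 357) (nat_lit 219) (nat_lit 204)) (XT.lf (nat_lit 0) (nat_lit 366330623852) (nat_lit 152) (nat_lit 1420156031889) (nat_lit 0) (nat_lit 365915065773) (nat_lit 1) (nat_lit 5) (nat_lit 3) (nat_lit 4) (nat_lit 1) (nat_lit 4) (nat_lit 358) (nat_lit 219) (nat_lit 203))) (XT.nd (nat_lit 78) (nat_lit 0) (nat_lit 0) (XT.lf (nat_lit 0) (nat_lit 396155909130) (nat_lit 152) (nat_lit 1532664730643) (nat_lit 0) (nat_lit 395727662341) (nat_lit 1) (nat_lit 5) (nat_lit 3) (nat_lit 4) (nat_lit 1) (nat_lit 4) (nat_lit 359) (nat_lit 219) (nat_lit 202)) (XT.lf (nat_lit 0) (nat_lit 428352135508) (nat_lit 152) (nat_lit 1654203548124) (nat_lit 0) (nat_lit 427912139915) (nat_lit 1) (nat_lit 5) (nat_lit 3)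 (nat_lit 4) (nat_lit 1) (nat_lit 4) (nat_lit 360) (nat_lit 219) (nat_lit 201)))))) (XT.nd (nat_lit 624) (nat_lit 0) (nat_lit 0) (XT.nd (nat_lit 312) (nat_lit 0) (nat_lit 0) (XT.nd (nat_lit 156) (nat_lit 0) (nat_lit 0) (XT.nd (nat_lit 78) (nat_lit 0) (nat_lit 0) (XT.lf (nat_lit 0) (nat_lit 463110095441) (nat_lit 152) (nat_lit 1785492714361) (nat_lit 0) (nat_lit 462659221325) (nat_lit 1) (nat_lit 5) (nat_lit 3) (nat_lit 4) (nat_lit 1) (nat_lit 4) (nat_lit 361) (nat_lit 219) (nat_lit 200)) (XT.lf (nat_lit 0) (nat_lit 500635762024) (nat_lit 152) (nat_lit 1927310239228) (nat_lit 0) (nat_lit 500174815202) (nat_lit 1) (nat_lit 5) (nat_lit 3) (nat_lit 4) (nat_lit 1) (nat_lit 4) (nat_lit 362) (nat_lit 219) (nat_lit 199))) (XT.nd (nat_lit 78) (nat_lit 0) (nat_lit 0) (XT.lf (nat_lit 0) (nat_lit 541151509577) (nat_lit 152) (nat_lit 2080496522873) (nat_lit 0) (nat_lit 540681236175) (nat_lit 1) (nat_lit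 5) (nat_lit 3) (nat_lit 4) (nat_lit 1) (nat_lit 4) (nat_lit 363) (nat_lit 219) (nat_lit 198)) (XT.lf (nat_lit 0) (nat_lit 584897431419) (nat_lit 152) (nat_lit 2245959335864) (nat_lit 0) (nat_lit 584418522296) (nat_lit 1) (nat_lit 5) (nat_lit 3) (nat_lit 4) (nat_lit 1) (nat_lit 4) (nat_lit 364) (nat_lit 219) (nat_lit 197)))) (XT.nd (nat_lit 156) (nat_lit 0) (nat_lit 0) (XT.nd (nat_lit 78) (nat_lit 0) (nat_lit 0) (XT.lf (nat_lit 0) (nat_lit 632132762643) (nat_lit 152) (nat_lit 2424679198576) (nat_lit 0) (nat_lit 631645857481) (nat_lit 1) (nat_lit 5) (nat_lit 3) (nat_lit 4) (nat_lit 1) (nat_lit 4) (nat_lit 365) (nat_lit 219) (nat_lit 196)) (XT.lf (nat_lit 0) (nat_lit 683137416323) (nat_lit 152) (nat_lit 2617715191676) (nat_lit 0) (nat_lit 682643107420) (nat_lit 1) (nat_lit 5) (nat_lit 3) (nat_lit 4) (nat_lit 1) (nat_lit 4) (nat_lit 366) (nat_lit 219) (nat_lit 195))) (XT.nd (nat_lit 78)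 (nat_lit 0) (nat_lit 0) (XT.lf (nat_lit 0) (nat_lit 738213642258) (nat_lit 152) (nat_lit 2826211232161) (nat_lit 0) (nat_lit 737712478041) (nat_lit 1) (nat_lit 5) (nat_lit 3) (nat_lit 4) (nat_lit 1) (nat_lit 4) (nat_lit 367) (nat_lit 219) (nat_lit 194)) (XT.lf (nat_lit 0) (nat_lit 797687818083) (nat_lit 152) (nat_lit 3051402852122) (nat_lit 0) (nat_lit 797180306352) (nat_lit 1) (nat_lit 5) (nat_lit 3) (nat_lit 4) (nat_lit 1) (nat_lit 4) (nat_lit 368) (nat_lit 219) (nat_lit 193))))) (XT.nd (nat_lit 38454) (nat_lit 0) (nat_lit 0) (XT.nd (nat_lit 156) (nat_lit 0) (nat_lit 0) (XT.nd (nat_lit 78) (nat_lit 0) (nat_lit 0) (XT.lf (nat_lit 0) (nat_lit 861912383359) (nat_lit 152) (nat_lit 3294624520418) (nat_lit 0) (nat_lit 861398994301) (nat_lit 1) (nat_lit 5) (nat_lit 3) (nat_lit 4) (nat_lit 1) (nat_lit 4) (nat_lit 369) (nat_lit 219) (nat_lit 192)) (XT.lf (nat_lit 0) (nat_lit 931267928102) (nat_lit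 152) (nat_lit 3557317550640) (nat_lit 0) (nat_lit 930749097074) (nat_lit 1) (nat_lit 5) (nat_lit 3) (nat_lit 4) (nat_lit 1) (nat_lit 4) (nat_lit 370) (nat_lit 219) (nat_lit 191))) (XT.nd (nat_lit 38220) (nat_lit 0) (nat_lit 0) (XT.lf (nat_lit 0) (nat_lit 1006165448133) (nat_lit 152) (nat_lit 3841038642225) (nat_lit 0) (nat_lit 1005641578244) (nat_lit 1) (nat_lit 5) (nat_lit 3) (nat_lit 4) (nat_lit 1) (nat_lit 4) (nat_lit 371) (nat_lit 219) (nat_lit 190)) (XT.lf (nat_lit 0) (nat_lit 41922793858) (nat_lit 152) (nat_lit 185807405880) (nat_lit 0) (nat_lit 41922793858) (nat_lit 1) (nat_lit 5) (nat_lit 3) (nat_lit 4) (nat_lit 1) (nat_lit 4) (nat_lit 340) (nat_lit 220) (nat_lit 220)))) (XT.nd (nat_lit 156) (nat_lit 0) (nat_lit 0) (XT.nd (nat_lit 78) (nat_lit 0) (nat_lit 0) (XT.lf (nat_lit 0) (nat_lit 91647021073) (nat_lit 152) (nat_lit 399111217669) (nat_lit 0) (nat_lit 91600072621) (nat_lit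 1) (nat_lit 5) (nat_lit 3) (nat_lit 4) (nat_lit 1) (nat_lit 4) (nat_lit 341) (nat_lit 220) (nat_lit 219)) (XT.lf (nat_lit 0) (nat_lit 100016766458) (nat_lit 152) (nat_lit 428916201037) (nat_lit 0) (nat_lit 99926347218) (nat_lit 1) (nat_lit 5) (nat_lit 3) (nat_lit 4) (nat_lit 1) (nat_lit 4) (nat_lit 342) (nat_lit 220) (nat_lit 218))) (XT.nd (nat_lit 78) (nat_lit 0) (nat_lit 0) (XT.lf (nat_lit 0) (nat_lit 109004422364) (nat_lit 152) (nat_lit 461206383989) (nat_lit 0) (nat_lit 108873752393) (nat_lit 1) (nat_lit 5) (nat_lit 3) (nat_lit 4) (nat_lit 1) (nat_lit 4) (nat_lit 343) (nat_lit 220) (nat_lit 217)) (XT.lf (nat_lit 0) (nat_lit 118663248973) (nat_lit 152) (nat_lit 496173115758) (nat_lit 0) (nat_lit 118495309807) (nat_lit 1) (nat_lit 5) (nat_lit 3) (nat_lit 4) (nat_lit 1) (nat_lit 4) (nat_lit 344) (nat_lit 220) (nat_lit 216))))))))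
noncomputable def xc4 : XT := (XT.nd (nat_lit 40326) (nat_lit 0) (nat_lit 0) (XT.nd (nat_lit 1170) (nat_lit 0) (nat_lit 0) (XT.nd (nat_lit 546) (nat_lit 0) (nat_lit 0) (XT.nd (nat_lit 234) (nat_lit 0) (nat_lit 0) (XT.nd (nat_lit 78) (nat_lit 0) (nat_lit 0) (XT.lf (nat_lit 0) (nat_lit 129050483777) (nat_lit 152) (nat_lit 534023606606) (nat_lit 0) (nat_lit 128848036097) (nat_lit 1) (nat_lit 5) (nat_lit 3) (nat_lit 4) (nat_lit 1) (nat_lit 4) (nat_lit 345) (nat_lit 220) (nat_lit 215)) (XT.nd (nat_lit 78) (nat_lit 0) (nat_lit 0) (XT.lf (nat_lit 0) (nat_lit 140227680760) (nat_lit 152) (nat_lit 574982155738) (nat_lit 0) (nat_lit 139993280752) (nat_lit 1) (nat_lit 5) (nat_lit 3) (nat_lit 4) (nat_lit 1) (nat_lit 4) (nat_lit 346) (nat_lit 220) (nat_lit 214)) (XT.lf (nat_lit 0) (nat_lit 152261075162) (nat_lit 152) (nat_lit 619291480482) (nat_lit 0) (nat_lit 151997089666) (nat_lit 1) (nat_lit 5)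 (nat_lit 3) (nat_lit 4) (nat_lit 1) (nat_lit 4) (nat_lit 347) (nat_lit 220) (nat_lit 213)))) (XT.nd (nat_lit 156) (nat_lit 0) (nat_lit 0) (XT.nd (nat_lit 78) (nat_lit 0) (nat_lit 0) (XT.lf (nat_lit 0) (nat_lit 165221975989) (nat_lit 152) (nat_lit 667214154614) (nat_lit 0) (nat_lit 164930596522) (nat_lit 1) (nat_lit 5) (nat_lit 3) (nat_lit 4) (nat_lit 1) (nat_lit 4) (nat_lit 348) (nat_lit 220) (nat_lit 212)) (XT.lf (nat_lit 0) (nat_lit 179187188577) (nat_lit 152) (nat_lit 719034164352) (nat_lit 0) (nat_lit 178870444323) (nat_lit 1) (nat_lit 5) (nat_lit 3) (nat_lit 4) (nat_lit 1) (nat_lit 4) (nat_lit 349) (nat_lit 220) (nat_lit 211))) (XT.nd (nat_lit 78) (nat_lit 0) (nat_lit 0) (XT.lf (nat_lit 0) (nat_lit 194239469743) (nat_lit 152) (nat_lit 775058591235) (nat_lit 0) (nat_lit 193899239574) (nat_lit 1) (nat_lit 5) (nat_lit 3) (nat_lit 4) (nat_lit 1) (nat_lit 4) (nat_lit 350) (nat_lit 220)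 (nat_lit 210)) (XT.lf (nat_lit 0) (nat_lit 210468018190) (nat_lit 152) (nat_lit 835619431866) (nat_lit 0) (nat_lit 210106041804) (nat_lit 1) (nat_lit 5) (nat_lit 3) (nat_lit 4) (nat_lit 1) (nat_lit 4) (nat_lit 351) (nat_lit 220) (nat_lit 209))))) (XT.nd (nat_lit 312) (nat_lit 0) (nat_lit 0) (XT.nd (nat_lit 156) (nat_lit 0) (nat_lit 0) (XT.nd (nat_lit 78) (nat_lit 0) (nat_lit 0) (XT.lf (nat_lit 0) (nat_lit 227969003094) (nat_lit 152) (nat_lit 901075565301) (nat_lit 0) (nat_lit 227586891321) (nat_lit 1) (nat_lit 5) (nat_lit 3) (nat_lit 4) (nat_lit 1) (nat_lit 4) (nat_lit 352) (nat_lit 220) (nat_lit 208)) (XT.lf (nat_lit 0) (nat_lit 246846133994) (nat_lit 152) (nat_lit 971814879738) (nat_lit 0) (nat_lit 246445378345) (nat_lit 1) (nat_lit 5) (nat_lit 3) (nat_lit 4) (nat_lit 1) (nat_lit 4) (nat_lit 353) (nat_lit 220) (nat_lit 207))) (XT.nd (nat_lit 78) (nat_lit 0) (nat_lit 0) (XT.lf (nat_lit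 0) (nat_lit 267211275371) (nat_lit 152) (nat_lit 1048256571115) (nat_lit 0) (nat_lit 266793256873) (nat_lit 1) (nat_lit 5) (nat_lit 3) (nat_lit 4) (nat_lit 1) (nat_lit 4) (nat_lit 354) (nat_lit 220) (nat_lit 206)) (XT.lf (nat_lit 0) (nat_lit 289185109543) (nat_lit 152) (nat_lit 1130853627232) (nat_lit 0) (nat_lit 288751106927) (nat_lit 1) (nat_lit 5) (nat_lit 3) (nat_lit 4) (nat_lit 1) (nat_lit 4) (nat_lit 355) (nat_lit 220) (nat_lit 205)))) (XT.nd (nat_lit 156) (nat_lit 0) (nat_lit 0) (XT.nd (nat_lit 78) (nat_lit 0) (nat_lit 0) (XT.lf (nat_lit 0) (nat_lit 312897851824) (nat_lit 152) (nat_lit 1220095512125) (nat_lit 0) (nat_lit 312449049098) (nat_lit 1) (nat_lit 5) (nat_lit 3) (nat_lit 4) (nat_lit 1) (nat_lit 4) (nat_lit 356) (nat_lit 220) (nat_lit 204)) (XT.lf (nat_lit 0) (nat_lit 338490022168) (nat_lit 152) (nat_lit 1316511066595) (nat_lit 0) (nat_lit 338027515637) (nat_lit 1) (nat_lit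 5) (nat_lit 3) (nat_lit 4) (nat_lit 1) (nat_lit 4) (nat_lit 357) (nat_lit 220) (nat_lit 203))) (XT.nd (nat_lit 78) (nat_lit 0) (nat_lit 0) (XT.lf (nat_lit 0) (nat_lit 366113277882) (nat_lit 152) (nat_lit 1420671642074) (nat_lit 0) (nat_lit 365638082642) (nat_lit 1) (nat_lit 5) (nat_lit 3) (nat_lit 4) (nat_lit 1) (nat_lit 4) (nat_lit 358) (nat_lit 220) (nat_lit 202)) (XT.lf (nat_lit 0) (nat_lit 395931312332) (nat_lit 152) (nat_lit 1533194486418) (nat_lit 0) (nat_lit 395444368287) (nat_lit 1) (nat_lit 5) (nat_lit 3) (nat_lit 4) (nat_lit 1) (nat_lit 4) (nat_lit 359) (nat_lit 220) (nat_lit 201)))))) (XT.nd (nat_lit 546) (nat_lit 0) (nat_lit 0) (XT.nd (nat_lit 234) (nat_lit 0) (nat_lit 0) (XT.nd (nat_lit 78) (nat_lit 0) (nat_lit 0) (XT.lf (nat_lit 0) (nat_lit 428120824982) (nat_lit 152) (nat_lit 1654746401667) (nat_lit 0) (nat_lit 427623002414) (nat_lit 1) (nat_lit 5) (nat_lit 3) (nat_lit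 4) (nat_lit 1) (nat_lit 4) (nat_lit 360) (nat_lit 220) (nat_lit 200)) (XT.nd (nat_lit 78) (nat_lit 0) (nat_lit 0) (XT.lf (nat_lit 0) (nat_lit 462872568499) (nat_lit 152) (nat_lit 1786047695467) (nat_lit 0) (nat_lit 462364673225) (nat_lit 1) (nat_lit 5) (nat_lit 3) (nat_lit 4) (nat_lit 1) (nat_lit 4) (nat_lit 361) (nat_lit 220) (nat_lit 199)) (XT.lf (nat_lit 0) (nat_lit 500392479141) (nat_lit 152) (nat_lit 1927876449559) (nat_lit 0) (nat_lit 499875257287) (nat_lit 1) (nat_lit 5) (nat_lit 3) (nat_lit 4) (nat_lit 1) (nat_lit 4) (nat_lit 362) (nat_lit 220) (nat_lit 198)))) (XT.nd (nat_lit 156) (nat_lit 0) (nat_lit 0) (XT.nd (nat_lit 78) (nat_lit 0) (nat_lit 0) (XT.lf (nat_lit 0) (nat_lit 540902897120) (nat_lit 152) (nat_lit 2081073130634) (nat_lit 0) (nat_lit 540377039544) (nat_lit 1) (nat_lit 5) (nat_lit 3) (nat_lit 4) (nat_lit 1) (nat_lit 4) (nat_lit 363) (nat_lit 220) (nat_lit 197)) (XT.lf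 (nat_lit 0) (nat_lit 584643884171) (nat_lit 152) (nat_lit 2246545570876) (nat_lit 0) (nat_lit 584110030556) (nat_lit 1) (nat_lit 5) (nat_lit 3) (nat_lit 4) (nat_lit 1) (nat_lit 4) (nat_lit 364) (nat_lit 220) (nat_lit 196))) (XT.nd (nat_lit 78) (nat_lit 0) (nat_lit 0) (XT.lf (nat_lit 0) (nat_lit 631874646144) (nat_lit 152) (nat_lit 2425274347709) (nat_lit 0) (nat_lit 631333388789) (nat_lit 1) (nat_lit 5) (nat_lit 3) (nat_lit 4) (nat_lit 1) (nat_lit 4) (nat_lit 365) (nat_lit 220) (nat_lit 195)) (XT.lf (nat_lit 0) (nat_lit 682875069035) (nat_lit 152) (nat_lit 2618318594625) (nat_lit 0) (nat_lit 682326956366) (nat_lit 1) (nat_lit 5) (nat_lit 3) (nat_lit 4) (nat_lit 1) (nat_lit 4) (nat_lit 366) (nat_lit 220) (nat_lit 194))))) (XT.nd (nat_lit 312) (nat_lit 0) (nat_lit 0) (XT.nd (nat_lit 156) (nat_lit 0) (nat_lit 0) (XT.nd (nat_lit 78) (nat_lit 0) (nat_lit 0) (XT.lf (nat_lit 0) (nat_lit 737947377574)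 (nat_lit 152) (nat_lit 2826822277531) (nat_lit 0) (nat_lit 737392917391) (nat_lit 1) (nat_lit 5) (nat_lit 3) (nat_lit 4) (nat_lit 1) (nat_lit 4) (nat_lit 367) (nat_lit 220) (nat_lit 193)) (XT.lf (nat_lit 0) (nat_lit 797417926180) (nat_lit 152) (nat_lit 3052020973809) (nat_lit 0) (nat_lit 796857588670) (nat_lit 1) (nat_lit 5) (nat_lit 3) (nat_lit 4) (nat_lit 1) (nat_lit 4) (nat_lit 368) (nat_lit 220) (nat_lit 192))) (XT.nd (nat_lit 78) (nat_lit 0) (nat_lit 0) (XT.lf (nat_lit 0) (nat_lit 861639132920) (nat_lit 152) (nat_lit 3295249194250) (nat_lit 0) (nat_lit 861073353440) (nat_lit 1) (nat_lit 5) (nat_lit 3) (nat_lit 4) (nat_lit 1) (nat_lit 4) (nat_lit 369) (nat_lit 220) (nat_lit 191)) (XT.lf (nat_lit 0) (nat_lit 930991567907) (nat_lit 152) (nat_lit 3557948291272) (nat_lit 0) (nat_lit 930420749567) (nat_lit 1) (nat_lit 5) (nat_lit 3) (nat_lit 4) (nat_lit 1) (nat_lit 4) (nat_lit 370) (nat_lit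 220) (nat_lit 190)))) (XT.nd (nat_lit 38142) (nat_lit 0) (nat_lit 0) (XT.nd (nat_lit 38064) (nat_lit 0) (nat_lit 0) (XT.lf (nat_lit 0) (nat_lit 1005886208535) (nat_lit 152) (nat_lit 3841675000266) (nat_lit 0) (nat_lit 1005310724583) (nat_lit 1) (nat_lit 5) (nat_lit 3) (nat_lit 4) (nat_lit 1) (nat_lit 4) (nat_lit 371) (nat_lit 220) (nat_lit 189)) (XT.lf (nat_lit 0) (nat_lit 34923912387) (nat_lit 152) (nat_lit 161423816206) (nat_lit 0) (nat_lit 34923912387) (nat_lit 1) (nat_lit 5) (nat_lit 3) (nat_lit 4) (nat_lit 1) (nat_lit 4) (nat_lit 338) (nat_lit 221) (nat_lit 221))) (XT.nd (nat_lit 78) (nat_lit 0) (nat_lit 0) (XT.lf (nat_lit 0) (nat_lit 76616940003) (nat_lit 152) (nat_lit 346264041650) (nat_lit 0) (nat_lit 76566235675) (nat_lit 1) (nat_lit 5) (nat_lit 3) (nat_lit 4) (nat_lit 1) (nat_lit 4) (nat_lit 339) (nat_lit 221) (nat_lit 220)) (XT.lf (nat_lit 0) (nat_lit 83867317598) (nat_lit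 152) (nat_lit 371671337813) (nat_lit 0) (nat_lit 83769664818) (nat_lit 1) (nat_lit 5) (nat_lit 3) (nat_lit 4) (nat_lit 1) (nat_lit 4) (nat_lit 340) (nat_lit 221) (nat_lit 219))))))) (XT.nd (nat_lit 1170) (nat_lit 0) (nat_lit 0) (XT.nd (nat_lit 546) (nat_lit 0) (nat_lit 0) (XT.nd (nat_lit 234) (nat_lit 0) (nat_lit 0) (XT.nd (nat_lit 78) (nat_lit 0) (nat_lit 0) (XT.lf (nat_lit 0) (nat_lit 91641922762) (nat_lit 152) (nat_lit 399220082657) (nat_lit 0) (nat_lit 91500799193) (nat_lit 1) (nat_lit 5) (nat_lit 3) (nat_lit 4) (nat_lit 1) (nat_lit 4) (nat_lit 341) (nat_lit 221) (nat_lit 218)) (XT.nd (nat_lit 78) (nat_lit 0) (nat_lit 0) (XT.lf (nat_lit 0) (nat_lit 99986827229) (nat_lit 152) (nat_lit 429073528003) (nat_lit 0) (nat_lit 99805452929) (nat_lit 1) (nat_lit 5) (nat_lit 3) (nat_lit 4) (nat_lit 1) (nat_lit 4) (nat_lit 342) (nat_lit 221) (nat_lit 217)) (XT.lf (nat_lit 0) (nat_lit 108951482284)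 (nat_lit 152) (nat_lit 461408583157) (nat_lit 0) (nat_lit 108732838790) (nat_lit 1) (nat_lit 5) (nat_lit 3) (nat_lit 4) (nat_lit 1) (nat_lit 4) (nat_lit 343) (nat_lit 221) (nat_lit 216)))) (XT.nd (nat_lit 156) (nat_lit 0) (nat_lit 0) (XT.nd (nat_lit 78) (nat_lit 0) (nat_lit 0) (XT.lf (nat_lit 0) (nat_lit 118589011810) (nat_lit 152) (nat_lit 496416863262) (nat_lit 0) (nat_lit 118335859802) (nat_lit 1) (nat_lit 5) (nat_lit 3) (nat_lit 4) (nat_lit 1) (nat_lit 4) (nat_lit 344) (nat_lit 221) (nat_lit 215)) (XT.lf (nat_lit 0) (nat_lit 128956527092) (nat_lit 152) (nat_lit 534305824790) (nat_lit 0) (nat_lit 128671422756) (nat_lit 1) (nat_lit 5) (nat_lit 3) (nat_lit 4) (nat_lit 1) (nat_lit 4) (nat_lit 345) (nat_lit 221) (nat_lit 214))) (XT.nd (nat_lit 78) (nat_lit 0) (nat_lit 0) (XT.lf (nat_lit 0) (nat_lit 140115465257) (nat_lit 152) (nat_lit 575299994923) (nat_lit 0) (nat_lit 139800775433) (nat_lit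 1) (nat_lit 5) (nat_lit 3) (nat_lit 4) (nat_lit 1) (nat_lit 4) (nat_lit 346) (nat_lit 221) (nat_lit 213)) (XT.lf (nat_lit 0) (nat_lit 152131953348) (nat_lit 152) (nat_lit 619642302075) (nat_lit 0) (nat_lit 151789869554) (nat_lit 1) (nat_lit 5) (nat_lit 3) (nat_lit 4) (nat_lit 1) (nat_lit 4) (nat_lit 347) (nat_lit 221) (nat_lit 212))))) (XT.nd (nat_lit 312) (nat_lit 0) (nat_lit 0) (XT.nd (nat_lit 156) (nat_lit 0) (nat_lit 0) (XT.nd (nat_lit 78) (nat_lit 0) (nat_lit 0) (XT.lf (nat_lit 0) (nat_lit 165077200183) (nat_lit 152) (nat_lit 667595515474) (nat_lit 0) (nat_lit 164709751600) (nat_lit 1) (nat_lit 5) (nat_lit 3) (nat_lit 4) (nat_lit 1) (nat_lit 4) (nat_lit 348) (nat_lit 221) (nat_lit 211)) (XT.lf (nat_lit 0) (nat_lit 179027918334) (nat_lit 152) (nat_lit 719443802311) (nat_lit 0) (nat_lit 178636983837) (nat_lit 1) (nat_lit 5) (nat_lit 3) (nat_lit 4) (nat_lit 1) (nat_lit 4) (nat_lit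 349) (nat_lit 221) (nat_lit 210))) (XT.nd (nat_lit 78) (nat_lit 0) (nat_lit 0) (XT.lf (nat_lit 0) (nat_lit 194066778725) (nat_lit 152) (nat_lit 775494411693) (nat_lit 0) (nat_lit 193654098010) (nat_lit 1) (nat_lit 5) (nat_lit 3) (nat_lit 4) (nat_lit 1) (nat_lit 4) (nat_lit 350) (nat_lit 221) (nat_lit 209)) (XT.lf (nat_lit 0) (nat_lit 210282900528) (nat_lit 152) (nat_lit 836079495378) (nat_lit 0) (nat_lit 209850084427) (nat_lit 1) (nat_lit 5) (nat_lit 3) (nat_lit 4) (nat_lit 1) (nat_lit 4) (nat_lit 351) (nat_lit 221) (nat_lit 208)))) (XT.nd (nat_lit 156) (nat_lit 0) (nat_lit 0) (XT.nd (nat_lit 78) (nat_lit 0) (nat_lit 0) (XT.lf (nat_lit 0) (nat_lit 227772379280) (nat_lit 152) (nat_lit 901558076086) (nat_lit 0) (nat_lit 227320919303) (nat_lit 1) (nat_lit 5) (nat_lit 3) (nat_lit 4) (nat_lit 1) (nat_lit 4) (nat_lit 352) (nat_lit 221) (nat_lit 207)) (XT.lf (nat_lit 0) (nat_lit 246638856336)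 (nat_lit 152) (nat_lit 972318175035) (nat_lit 0) (nat_lit 246170133510) (nat_lit 1) (nat_lit 5) (nat_lit 3) (nat_lit 4) (nat_lit 1) (nat_lit 4) (nat_lit 353) (nat_lit 221) (nat_lit 206))) (XT.nd (nat_lit 78) (nat_lit 0) (nat_lit 0) (XT.lf (nat_lit 0) (nat_lit 266994133042) (nat_lit 152) (nat_lit 1048779111330) (nat_lit 0) (nat_lit 266509426098) (nat_lit 1) (nat_lit 5) (nat_lit 3) (nat_lit 4) (nat_lit 1) (nat_lit 4) (nat_lit 354) (nat_lit 221) (nat_lit 205)) (XT.lf (nat_lit 0) (nat_lit 288958833260) (nat_lit 152) (nat_lit 1131393986816) (nat_lit 0) (nat_lit 288459326206) (nat_lit 1) (nat_lit 5) (nat_lit 3) (nat_lit 4) (nat_lit 1) (nat_lit 4) (nat_lit 355) (nat_lit 221) (nat_lit 204)))))) (XT.nd (nat_lit 624) (nat_lit 0) (nat_lit 0) (XT.nd (nat_lit 312) (nat_lit 0) (nat_lit 0) (XT.nd (nat_lit 156) (nat_lit 0) (nat_lit 0) (XT.nd (nat_lit 78) (nat_lit 0) (nat_lit 0) (XT.lf (nat_lit 0) (nat_lit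 312663118176) (nat_lit 152) (nat_lit 1220652371125) (nat_lit 0) (nat_lit 312149907316) (nat_lit 1) (nat_lit 5) (nat_lit 3) (nat_lit 4) (nat_lit 1) (nat_lit 4) (nat_lit 356) (nat_lit 221) (nat_lit 203)) (XT.lf (nat_lit 0) (nat_lit 338247457627) (nat_lit 152) (nat_lit 1317083202832) (nat_lit 0) (nat_lit 337721558058) (nat_lit 1) (nat_lit 5) (nat_lit 3) (nat_lit 4) (nat_lit 1) (nat_lit 4) (nat_lit 357) (nat_lit 221) (nat_lit 202))) (XT.nd (nat_lit 78) (nat_lit 0) (nat_lit 0) (XT.lf (nat_lit 0) (nat_lit 365863462513) (nat_lit 152) (nat_lit 1421257923900) (nat_lit 0) (nat_lit 365325814140) (nat_lit 1) (nat_lit 5) (nat_lit 3) (nat_lit 4) (nat_lit 1) (nat_lit 4) (nat_lit 358) (nat_lit 221) (nat_lit 201)) (XT.lf (nat_lit 0) (nat_lit 395674783235) (nat_lit 152) (nat_lit 1533793866012) (nat_lit 0) (nat_lit 395126256339) (nat_lit 1) (nat_lit 5) (nat_lit 3) (nat_lit 4) (nat_lit 1) (nat_lit 4) (nat_lit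 359) (nat_lit 221) (nat_lit 200)))) (XT.nd (nat_lit 156) (nat_lit 0) (nat_lit 0) (XT.nd (nat_lit 78) (nat_lit 0) (nat_lit 0) (XT.lf (nat_lit 0) (nat_lit 427858079469) (nat_lit 152) (nat_lit 1655357908824) (nat_lit 0) (nat_lit 427299479866) (nat_lit 1) (nat_lit 5) (nat_lit 3) (nat_lit 4) (nat_lit 1) (nat_lit 4) (nat_lit 360) (nat_lit 221) (nat_lit 199)) (XT.lf (nat_lit 0) (nat_lit 462604067045) (nat_lit 152) (nat_lit 1786670431849) (nat_lit 0) (nat_lit 462036140863) (nat_lit 1) (nat_lit 5) (nat_lit 3) (nat_lit 4) (nat_lit 1) (nat_lit 4) (nat_lit 361) (nat_lit 221) (nat_lit 198))) (XT.nd (nat_lit 78) (nat_lit 0) (nat_lit 0) (XT.lf (nat_lit 0) (nat_lit 500118648113) (nat_lit 152) (nat_lit 1928509583372) (nat_lit 0) (nat_lit 499542086209) (nat_lit 1) (nat_lit 5) (nat_lit 3) (nat_lit 4) (nat_lit 1) (nat_lit 4) (nat_lit 362) (nat_lit 221) (nat_lit 197)) (XT.lf (nat_lit 0) (nat_lit 540624131300)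 (nat_lit 152) (nat_lit 2081715891697) (nat_lit 0) (nat_lit 540039573357) (nat_lit 1) (nat_lit 5) (nat_lit 3) (nat_lit 4) (nat_lit 1) (nat_lit 4) (nat_lit 363) (nat_lit 221) (nat_lit 196))))) (XT.nd (nat_lit 312) (nat_lit 0) (nat_lit 0) (XT.nd (nat_lit 156) (nat_lit 0) (nat_lit 0) (XT.nd (nat_lit 78) (nat_lit 0) (nat_lit 0) (XT.lf (nat_lit 0) (nat_lit 584360549100) (nat_lit 152) (nat_lit 2247197246060) (nat_lit 0) (nat_lit 583768587418) (nat_lit 1) (nat_lit 5) (nat_lit 3) (nat_lit 4) (nat_lit 1) (nat_lit 4) (nat_lit 364) (nat_lit 221) (nat_lit 195)) (XT.lf (nat_lit 0) (nat_lit 631587080285) (nat_lit 152) (nat_lit 2425934276709) (nat_lit 0) (nat_lit 630988263288) (nat_lit 1) (nat_lit 5) (nat_lit 3) (nat_lit 4) (nat_lit 1) (nat_lit 4) (nat_lit 365) (nat_lit 221) (nat_lit 194))) (XT.nd (nat_lit 78) (nat_lit 0) (nat_lit 0) (XT.lf (nat_lit 0) (nat_lit 682583585780) (nat_lit 152) (nat_lit 2618986166046)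 (nat_lit 0) (nat_lit 681978421270) (nat_lit 1) (nat_lit 5) (nat_lit 3) (nat_lit 4) (nat_lit 1) (nat_lit 4) (nat_lit 366) (nat_lit 221) (nat_lit 193)) (XT.lf (nat_lit 0) (nat_lit 737652267100) (nat_lit 152) (nat_lit 2827496925270) (nat_lit 0) (nat_lit 737041225262) (nat_lit 1) (nat_lit 5) (nat_lit 3) (nat_lit 4) (nat_lit 1) (nat_lit 4) (nat_lit 367) (nat_lit 221) (nat_lit 192)))) (XT.nd (nat_lit 156) (nat_lit 0) (nat_lit 0) (XT.nd (nat_lit 78) (nat_lit 0) (nat_lit 0) (XT.lf (nat_lit 0) (nat_lit 797119457170) (nat_lit 152) (nat_lit 3052702173692) (nat_lit 0) (nat_lit 796502973362) (nat_lit 1) (nat_lit 5) (nat_lit 3) (nat_lit 4) (nat_lit 1) (nat_lit 4) (nat_lit 368) (nat_lit 221) (nat_lit 191)) (XT.lf (nat_lit 0) (nat_lit 861337554154) (nat_lit 152) (nat_lit 3295936460934) (nat_lit 0) (nat_lit 860716031486) (nat_lit 1) (nat_lit 5) (nat_lit 3) (nat_lit 4) (nat_lit 1) (nat_lit 4) (nat_lit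 369) (nat_lit 221) (nat_lit 190))) (XT.nd (nat_lit 78) (nat_lit 0) (nat_lit 0) (XT.lf (nat_lit 0) (nat_lit 930687109739) (nat_lit 152) (nat_lit 3558641175365) (nat_lit 0) (nat_lit 930060921458) (nat_lit 1) (nat_lit 5) (nat_lit 3) (nat_lit 4) (nat_lit 1) (nat_lit 4) (nat_lit 370) (nat_lit 221) (nat_lit 189)) (XT.lf (nat_lit 0) (nat_lit 1005579084252) (nat_lit 152) (nat_lit 3842373085662) (nat_lit 0) (nat_lit 1004948575960) (nat_lit 1) (nat_lit 5) (nat_lit 3) (nat_lit 4) (nat_lit 1) (nat_lit 4) (nat_lit 371) (nat_lit 221) (nat_lit 188))))))))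
noncomputable def xc5 : XT := (XT.nd (nat_lit 2340) (nat_lit 0) (nat_lit 0) (XT.nd (nat_lit 1170) (nat_lit 0) (nat_lit 0) (XT.nd (nat_lit 546) (nat_lit 0) (nat_lit 0) (XT.nd (nat_lit 234) (nat_lit 0) (nat_lit 0) (XT.nd (nat_lit 78) (nat_lit 0) (nat_lit 0) (XT.lf (nat_lit 0) (nat_lit 28842049504) (nat_lit 152) (nat_lit 140688731324) (nat_lit 0) (nat_lit 28842049504) (nat_lit 1) (nat_lit 5) (nat_lit 3) (nat_lit 4) (nat_lit 1) (nat_lit 4) (nat_lit 336) (nat_lit 222) (nat_lit 222)) (XT.nd (nat_lit 78) (nat_lit 0) (nat_lit 0) (XT.lf (nat_lit 0) (nat_lit 63574619315) (nat_lit 152) (nat_lit 301283346195) (nat_lit 0) (nat_lit 63519858640) (nat_lit 1) (nat_lit 5) (nat_lit 3) (nat_lit 4) (nat_lit 1) (nat_lit 4) (nat_lit 337) (nat_lit 222) (nat_lit 221)) (XT.lf (nat_lit 0) (nat_lit 69871293047) (nat_lit 152) (nat_lit 322908680548) (nat_lit 0) (nat_lit 69765828044) (nat_lit 1) (nat_lit 5) (nat_lit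 3) (nat_lit 4) (nat_lit 1) (nat_lit 4) (nat_lit 338) (nat_lit 222) (nat_lit 220)))) (XT.nd (nat_lit 156) (nat_lit 0) (nat_lit 0) (XT.nd (nat_lit 78) (nat_lit 0) (nat_lit 0) (XT.lf (nat_lit 0) (nat_lit 76611433827) (nat_lit 152) (nat_lit 346381615837) (nat_lit 0) (nat_lit 76459020372) (nat_lit 1) (nat_lit 5) (nat_lit 3) (nat_lit 4) (nat_lit 1) (nat_lit 4) (nat_lit 339) (nat_lit 222) (nat_lit 219)) (XT.lf (nat_lit 0) (nat_lit 83834983230) (nat_lit 152) (nat_lit 371841250936) (nat_lit 0) (nat_lit 83639098987) (nat_lit 1) (nat_lit 5) (nat_lit 3) (nat_lit 4) (nat_lit 1) (nat_lit 4) (nat_lit 340) (nat_lit 222) (nat_lit 218))) (XT.nd (nat_lit 78) (nat_lit 0) (nat_lit 0) (XT.lf (nat_lit 0) (nat_lit 91584747476) (nat_lit 152) (nat_lit 399438457759) (nat_lit 0) (nat_lit 91348612502) (nat_lit 1) (nat_lit 5) (nat_lit 3) (nat_lit 4) (nat_lit 1) (nat_lit 4) (nat_lit 341) (nat_lit 222) (nat_lit 217))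 (XT.lf (nat_lit 0) (nat_lit 99906651092) (nat_lit 152) (nat_lit 429336775307) (nat_lit 0) (nat_lit 99633246924) (nat_lit 1) (nat_lit 5) (nat_lit 3) (nat_lit 4) (nat_lit 1) (nat_lit 4) (nat_lit 342) (nat_lit 222) (nat_lit 216))))) (XT.nd (nat_lit 312) (nat_lit 0) (nat_lit 0) (XT.nd (nat_lit 156) (nat_lit 0) (nat_lit 0) (XT.nd (nat_lit 78) (nat_lit 0) (nat_lit 0) (XT.lf (nat_lit 0) (nat_lit 108850009064) (nat_lit 152) (nat_lit 461713378797) (nat_lit 0) (nat_lit 108542096381) (nat_lit 1) (nat_lit 5) (nat_lit 3) (nat_lit 4) (nat_lit 1) (nat_lit 4) (nat_lit 343) (nat_lit 222) (nat_lit 215)) (XT.lf (nat_lit 0) (nat_lit 118467819067) (nat_lit 152) (nat_lit 496760129582) (nat_lit 0) (nat_lit 118127954057) (nat_lit 1) (nat_lit 5) (nat_lit 3) (nat_lit 4) (nat_lit 1) (nat_lit 4) (nat_lit 344) (nat_lit 222) (nat_lit 214))) (XT.nd (nat_lit 78) (nat_lit 0) (nat_lit 0) (XT.lf (nat_lit 0) (nat_lit 128817075533)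 (nat_lit 152) (nat_lit 534684712111) (nat_lit 0) (nat_lit 128447625034) (nat_lit 1) (nat_lit 5) (nat_lit 3) (nat_lit 4) (nat_lit 1) (nat_lit 4) (nat_lit 345) (nat_lit 222) (nat_lit 213)) (XT.lf (nat_lit 0) (nat_lit 139959107387) (nat_lit 152) (nat_lit 575711864652) (nat_lit 0) (nat_lit 139562262918) (nat_lit 1) (nat_lit 5) (nat_lit 3) (nat_lit 4) (nat_lit 1) (nat_lit 4) (nat_lit 346) (nat_lit 222) (nat_lit 212)))) (XT.nd (nat_lit 156) (nat_lit 0) (nat_lit 0) (XT.nd (nat_lit 78) (nat_lit 0) (nat_lit 0) (XT.lf (nat_lit 0) (nat_lit 151959941485) (nat_lit 152) (nat_lit 620084711071) (nat_lit 0) (nat_lit 151537732229) (nat_lit 1) (nat_lit 5) (nat_lit 3) (nat_lit 4) (nat_lit 1) (nat_lit 4) (nat_lit 347) (nat_lit 222) (nat_lit 211)) (XT.lf (nat_lit 0) (nat_lit 164890693882) (nat_lit 152) (nat_lit 668066201569) (nat_lit 0) (nat_lit 164444998711) (nat_lit 1) (nat_lit 5) (nat_lit 3) (nat_lit 4)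 (nat_lit 1) (nat_lit 4) (nat_lit 348) (nat_lit 222) (nat_lit 210))) (XT.nd (nat_lit 78) (nat_lit 0) (nat_lit 0) (XT.lf (nat_lit 0) (nat_lit 178827991258) (nat_lit 152) (nat_lit 719940670905) (nat_lit 0) (nat_lit 178360549870) (nat_lit 1) (nat_lit 5) (nat_lit 3) (nat_lit 4) (nat_lit 1) (nat_lit 4) (nat_lit 349) (nat_lit 222) (nat_lit 209)) (XT.lf (nat_lit 0) (nat_lit 193854425005) (nat_lit 152) (nat_lit 776015523341) (nat_lit 0) (nat_lit 193366848230) (nat_lit 1) (nat_lit 5) (nat_lit 3) (nat_lit 4) (nat_lit 1) (nat_lit 4) (nat_lit 350) (nat_lit 222) (nat_lit 208)))))) (XT.nd (nat_lit 546) (nat_lit 0) (nat_lit 0) (XT.nd (nat_lit 234) (nat_lit 0) (nat_lit 0) (XT.nd (nat_lit 78) (nat_lit 0) (nat_lit 0) (XT.lf (nat_lit 0) (nat_lit 210059040657) (nat_lit 152) (nat_lit 836623054299) (nat_lit 0) (nat_lit 209552820005) (nat_lit 1) (nat_lit 5) (nat_lit 3) (nat_lit 4) (nat_lit 1) (nat_lit 4) (nat_lit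 351) (nat_lit 222) (nat_lit 207)) (XT.nd (nat_lit 78) (nat_lit 0) (nat_lit 0) (XT.lf (nat_lit 0) (nat_lit 227537865565) (nat_lit 152) (nat_lit 902122419519) (nat_lit 0) (nat_lit 227014382065) (nat_lit 1) (nat_lit 5) (nat_lit 3) (nat_lit 4) (nat_lit 1) (nat_lit 4) (nat_lit 352) (nat_lit 222) (nat_lit 206)) (XT.lf (nat_lit 0) (nat_lit 246394477950) (nat_lit 152) (nat_lit 972901763386) (nat_lit 0) (nat_lit 245855010332) (nat_lit 1) (nat_lit 5) (nat_lit 3) (nat_lit 4) (nat_lit 1) (nat_lit 4) (nat_lit 353) (nat_lit 222) (nat_lit 205)))) (XT.nd (nat_lit 156) (nat_lit 0) (nat_lit 0) (XT.nd (nat_lit 78) (nat_lit 0) (nat_lit 0) (XT.lf (nat_lit 0) (nat_lit 266740620702) (nat_lit 152) (nat_lit 1049380519050) (nat_lit 0) (nat_lit 266186352974) (nat_lit 1) (nat_lit 5) (nat_lit 3) (nat_lit 4) (nat_lit 1) (nat_lit 4) (nat_lit 354) (nat_lit 222) (nat_lit 204)) (XT.lf (nat_lit 0) (nat_lit 288696863555)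 (nat_lit 152) (nat_lit 1132011893952) (nat_lit 0) (nat_lit 288128892021) (nat_lit 1) (nat_lit 5) (nat_lit 3) (nat_lit 4) (nat_lit 1) (nat_lit 4) (nat_lit 355) (nat_lit 222) (nat_lit 203))) (XT.nd (nat_lit 78) (nat_lit 0) (nat_lit 0) (XT.lf (nat_lit 0) (nat_lit 312393317578) (nat_lit 152) (nat_lit 1221285555498) (nat_lit 0) (nat_lit 311812657335) (nat_lit 1) (nat_lit 5) (nat_lit 3) (nat_lit 4) (nat_lit 1) (nat_lit 4) (nat_lit 356) (nat_lit 222) (nat_lit 202)) (XT.lf (nat_lit 0) (nat_lit 337970406202) (nat_lit 152) (nat_lit 1317730532793) (nat_lit 0) (nat_lit 337377997154) (nat_lit 1) (nat_lit 5) (nat_lit 3) (nat_lit 4) (nat_lit 1) (nat_lit 4) (nat_lit 357) (nat_lit 222) (nat_lit 201))))) (XT.nd (nat_lit 312) (nat_lit 0) (nat_lit 0) (XT.nd (nat_lit 156) (nat_lit 0) (nat_lit 0) (XT.nd (nat_lit 78) (nat_lit 0) (nat_lit 0) (XT.lf (nat_lit 0) (nat_lit 365579697359) (nat_lit 152) (nat_lit 1421918351630)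 (nat_lit 0) (nat_lit 364976409789) (nat_lit 1) (nat_lit 5) (nat_lit 3) (nat_lit 4) (nat_lit 1) (nat_lit 4) (nat_lit 358) (nat_lit 222) (nat_lit 200)) (XT.lf (nat_lit 0) (nat_lit 395384801664) (nat_lit 152) (nat_lit 1534466421305) (nat_lit 0) (nat_lit 394771441388) (nat_lit 1) (nat_lit 5) (nat_lit 3) (nat_lit 4) (nat_lit 1) (nat_lit 4) (nat_lit 359) (nat_lit 222) (nat_lit 199))) (XT.nd (nat_lit 78) (nat_lit 0) (nat_lit 0) (XT.lf (nat_lit 0) (nat_lit 427562341958) (nat_lit 152) (nat_lit 1656041693342) (nat_lit 0) (nat_lit 426939655102) (nat_lit 1) (nat_lit 5) (nat_lit 3) (nat_lit 4) (nat_lit 1) (nat_lit 4) (nat_lit 360) (nat_lit 222) (nat_lit 198)) (XT.lf (nat_lit 0) (nat_lit 462302999960) (nat_lit 152) (nat_lit 1787364613798) (nat_lit 0) (nat_lit 461671677382) (nat_lit 1) (nat_lit 5) (nat_lit 3) (nat_lit 4) (nat_lit 1) (nat_lit 4) (nat_lit 361) (nat_lit 222) (nat_lit 197)))) (XT.nd (nat_lit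 156) (nat_lit 0) (nat_lit 0) (XT.nd (nat_lit 78) (nat_lit 0) (nat_lit 0) (XT.lf (nat_lit 0) (nat_lit 499812646237) (nat_lit 152) (nat_lit 1929213392571) (nat_lit 0) (nat_lit 499173327619) (nat_lit 1) (nat_lit 5) (nat_lit 3) (nat_lit 4) (nat_lit 1) (nat_lit 4) (nat_lit 362) (nat_lit 222) (nat_lit 196)) (XT.lf (nat_lit 0) (nat_lit 540313560173) (nat_lit 152) (nat_lit 2082428615017) (nat_lit 0) (nat_lit 539666837816) (nat_lit 1) (nat_lit 5) (nat_lit 3) (nat_lit 4) (nat_lit 1) (nat_lit 4) (nat_lit 363) (nat_lit 222) (nat_lit 195))) (XT.nd (nat_lit 78) (nat_lit 0) (nat_lit 0) (XT.lf (nat_lit 0) (nat_lit 584045747185) (nat_lit 152) (nat_lit 2247918223196) (nat_lit 0) (nat_lit 583392169513) (nat_lit 1) (nat_lit 5) (nat_lit 3) (nat_lit 4) (nat_lit 1) (nat_lit 4) (nat_lit 364) (nat_lit 222) (nat_lit 194)) (XT.lf (nat_lit 0) (nat_lit 631268360973) (nat_lit 152) (nat_lit 2426662896266) (nat_lit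 0) (nat_lit 630608435788) (nat_lit 1) (nat_lit 5) (nat_lit 3) (nat_lit 4) (nat_lit 1) (nat_lit 4) (nat_lit 365) (nat_lit 222) (nat_lit 193))))))) (XT.nd (nat_lit 38844) (nat_lit 0) (nat_lit 0) (XT.nd (nat_lit 38220) (nat_lit 0) (nat_lit 0) (XT.nd (nat_lit 234) (nat_lit 0) (nat_lit 0) (XT.nd (nat_lit 78) (nat_lit 0) (nat_lit 0) (XT.lf (nat_lit 0) (nat_lit 682261239250) (nat_lit 152) (nat_lit 2619721861920) (nat_lit 0) (nat_lit 681595436737) (nat_lit 1) (nat_lit 5) (nat_lit 3) (nat_lit 4) (nat_lit 1) (nat_lit 4) (nat_lit 366) (nat_lit 222) (nat_lit 192)) (XT.nd (nat_lit 78) (nat_lit 0) (nat_lit 0) (XT.lf (nat_lit 0) (nat_lit 737326562033) (nat_lit 152) (nat_lit 2828239173288) (nat_lit 0) (nat_lit 736655317551) (nat_lit 1) (nat_lit 5) (nat_lit 3) (nat_lit 4) (nat_lit 1) (nat_lit 4) (nat_lit 367) (nat_lit 222) (nat_lit 191)) (XT.lf (nat_lit 0) (nat_lit 796790642348) (nat_lit 152) (nat_lit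 3053450488512) (nat_lit 0) (nat_lit 796114359005) (nat_lit 1) (nat_lit 5) (nat_lit 3) (nat_lit 4) (nat_lit 1) (nat_lit 4) (nat_lit 368) (nat_lit 222) (nat_lit 190)))) (XT.nd (nat_lit 156) (nat_lit 0) (nat_lit 0) (XT.nd (nat_lit 78) (nat_lit 0) (nat_lit 0) (XT.lf (nat_lit 0) (nat_lit 861005859929) (nat_lit 152) (nat_lit 3296690393162) (nat_lit 0) (nat_lit 860324910974) (nat_lit 1) (nat_lit 5) (nat_lit 3) (nat_lit 4) (nat_lit 1) (nat_lit 4) (nat_lit 369) (nat_lit 222) (nat_lit 189)) (XT.lf (nat_lit 0) (nat_lit 930352749399) (nat_lit 152) (nat_lit 3559400308897) (nat_lit 0) (nat_lit 929667480433) (nat_lit 1) (nat_lit 5) (nat_lit 3) (nat_lit 4) (nat_lit 1) (nat_lit 4) (nat_lit 370) (nat_lit 222) (nat_lit 188))) (XT.nd (nat_lit 37752) (nat_lit 0) (nat_lit 0) (XT.lf (nat_lit 0) (nat_lit 1005242255288) (nat_lit 152) (nat_lit 3843137035216) (nat_lit 0) (nat_lit 1004552986312) (nat_lit 1) (nat_lit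 5) (nat_lit 3) (nat_lit 4) (nat_lit 1) (nat_lit 4) (nat_lit 371) (nat_lit 222) (nat_lit 187)) (XT.lf (nat_lit 0) (nat_lit 23539866247) (nat_lit 152) (nat_lit 123095244286) (nat_lit 0) (nat_lit 23539866247) (nat_lit 1) (nat_lit 5) (nat_lit 3) (nat_lit 4) (nat_lit 1) (nat_lit 4) (nat_lit 334) (nat_lit 223) (nat_lit 223))))) (XT.nd (nat_lit 312) (nat_lit 0) (nat_lit 0) (XT.nd (nat_lit 156) (nat_lit 0) (nat_lit 0) (XT.nd (nat_lit 78) (nat_lit 0) (nat_lit 0) (XT.lf (nat_lit 0) (nat_lit 52223966871) (nat_lit 152) (nat_lit 263073069115) (nat_lit 0) (nat_lit 52164825342) (nat_lit 1) (nat_lit 5) (nat_lit 3) (nat_lit 4) (nat_lit 1) (nat_lit 4) (nat_lit 335) (nat_lit 223) (nat_lit 222)) (XT.lf (nat_lit 0) (nat_lit 57709444742) (nat_lit 152) (nat_lit 281443394635) (nat_lit 0) (nat_lit 57595542539) (nat_lit 1) (nat_lit 5) (nat_lit 3) (nat_lit 4) (nat_lit 1) (nat_lit 4) (nat_lit 336) (nat_lit 223)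 (nat_lit 221))) (XT.nd (nat_lit 78) (nat_lit 0) (nat_lit 0) (XT.lf (nat_lit 0) (nat_lit 63568672645) (nat_lit 152) (nat_lit 301410326317) (nat_lit 0) (nat_lit 63404066114) (nat_lit 1) (nat_lit 5) (nat_lit 3) (nat_lit 4) (nat_lit 1) (nat_lit 4) (nat_lit 337) (nat_lit 223) (nat_lit 220)) (XT.lf (nat_lit 0) (nat_lit 69836371929) (nat_lit 152) (nat_lit 323092186722) (nat_lit 0) (nat_lit 69624816947) (nat_lit 1) (nat_lit 5) (nat_lit 3) (nat_lit 4) (nat_lit 1) (nat_lit 4) (nat_lit 338) (nat_lit 223) (nat_lit 219)))) (XT.nd (nat_lit 156) (nat_lit 0) (nat_lit 0) (XT.nd (nat_lit 78) (nat_lit 0) (nat_lit 0) (XT.lf (nat_lit 0) (nat_lit 76549684518) (nat_lit 152) (nat_lit 346617460947) (nat_lit 0) (nat_lit 76294658746) (nat_lit 1) (nat_lit 5) (nat_lit 3) (nat_lit 4) (nat_lit 1) (nat_lit 4) (nat_lit 339) (nat_lit 223) (nat_lit 218)) (XT.lf (nat_lit 0) (nat_lit 83748393003) (nat_lit 152) (nat_lit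 372125558025) (nat_lit 0) (nat_lit 83453116501) (nat_lit 1) (nat_lit 5) (nat_lit 3) (nat_lit 4) (nat_lit 1) (nat_lit 4) (nat_lit 340) (nat_lit 223) (nat_lit 217))) (XT.nd (nat_lit 78) (nat_lit 0) (nat_lit 0) (XT.lf (nat_lit 0) (nat_lit 91475156398) (nat_lit 152) (nat_lit 399767637049) (nat_lit 0) (nat_lit 91142610701) (nat_lit 1) (nat_lit 5) (nat_lit 3) (nat_lit 4) (nat_lit 1) (nat_lit 4) (nat_lit 341) (nat_lit 223) (nat_lit 216)) (XT.lf (nat_lit 0) (nat_lit 99775762931) (nat_lit 152) (nat_lit 429707502933) (nat_lit 0) (nat_lit 99408708720) (nat_lit 1) (nat_lit 5) (nat_lit 3) (nat_lit 4) (nat_lit 1) (nat_lit 4) (nat_lit 342) (nat_lit 223) (nat_lit 215)))))) (XT.nd (nat_lit 624) (nat_lit 0) (nat_lit 0) (XT.nd (nat_lit 312) (nat_lit 0) (nat_lit 0) (XT.nd (nat_lit 156) (nat_lit 0) (nat_lit 0) (XT.nd (nat_lit 78) (nat_lit 0) (nat_lit 0) (XT.lf (nat_lit 0) (nat_lit 108699401380) (nat_lit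 152) (nat_lit 462122577103) (nat_lit 0) (nat_lit 108300394842) (nat_lit 1) (nat_lit 5) (nat_lit 3) (nat_lit 4) (nat_lit 1) (nat_lit 4) (nat_lit 343) (nat_lit 223) (nat_lit 214)) (XT.lf (nat_lit 0) (nat_lit 118298952567) (nat_lit 152) (nat_lit 497204948889) (nat_lit 0) (nat_lit 117870360540) (nat_lit 1) (nat_lit 5) (nat_lit 3) (nat_lit 4) (nat_lit 1) (nat_lit 4) (nat_lit 344) (nat_lit 223) (nat_lit 213))) (XT.nd (nat_lit 78) (nat_lit 0) (nat_lit 0) (XT.lf (nat_lit 0) (nat_lit 128631302721) (nat_lit 152) (nat_lit 535162513827) (nat_lit 0) (nat_lit 128175316723) (nat_lit 1) (nat_lit 5) (nat_lit 3) (nat_lit 4) (nat_lit 1) (nat_lit 4) (nat_lit 345) (nat_lit 223) (nat_lit 212)) (XT.lf (nat_lit 0) (nat_lit 139757680583) (nat_lit 152) (nat_lit 576220205634) (nat_lit 0) (nat_lit 139276329797) (nat_lit 1) (nat_lit 5) (nat_lit 3) (nat_lit 4) (nat_lit 1) (nat_lit 4) (nat_lit 346) (nat_lit 223) (nat_lit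 211)))) (XT.nd (nat_lit 156) (nat_lit 0) (nat_lit 0) (XT.nd (nat_lit 78) (nat_lit 0) (nat_lit 0) (XT.lf (nat_lit 0) (nat_lit 151744020244) (nat_lit 152) (nat_lit 620621329152) (nat_lit 0) (nat_lit 151239183544) (nat_lit 1) (nat_lit 5) (nat_lit 3) (nat_lit 4) (nat_lit 1) (nat_lit 4) (nat_lit 347) (nat_lit 223) (nat_lit 210)) (XT.lf (nat_lit 0) (nat_lit 164661351866) (nat_lit 152) (nat_lit 668629002149) (nat_lit 0) (nat_lit 164134768948) (nat_lit 1) (nat_lit 5) (nat_lit 3) (nat_lit 4) (nat_lit 1) (nat_lit 4) (nat_lit 348) (nat_lit 223) (nat_lit 209))) (XT.nd (nat_lit 78) (nat_lit 0) (nat_lit 0) (XT.lf (nat_lit 0) (nat_lit 178586222598) (nat_lit 152) (nat_lit 720527714539) (nat_lit 0) (nat_lit 178039504294) (nat_lit 1) (nat_lit 5) (nat_lit 3) (nat_lit 4) (nat_lit 1) (nat_lit 4) (nat_lit 349) (nat_lit 223) (nat_lit 208)) (XT.lf (nat_lit 0) (nat_lit 193601150193) (nat_lit 152) (nat_lit 776625014248)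 (nat_lit 0) (nat_lit 193035788014) (nat_lit 1) (nat_lit 5) (nat_lit 3) (nat_lit 4) (nat_lit 1) (nat_lit 4) (nat_lit 350) (nat_lit 223) (nat_lit 207))))) (XT.nd (nat_lit 312) (nat_lit 0) (nat_lit 0) (XT.nd (nat_lit 156) (nat_lit 0) (nat_lit 0) (XT.nd (nat_lit 78) (nat_lit 0) (nat_lit 0) (XT.lf (nat_lit 0) (nat_lit 209795112000) (nat_lit 152) (nat_lit 837253329719) (nat_lit 0) (nat_lit 209212486972) (nat_lit 1) (nat_lit 5) (nat_lit 3) (nat_lit 4) (nat_lit 1) (nat_lit 4) (nat_lit 351) (nat_lit 223) (nat_lit 206)) (XT.lf (nat_lit 0) (nat_lit 227264072238) (nat_lit 152) (nat_lit 902771939857) (nat_lit 0) (nat_lit 226665463091) (nat_lit 1) (nat_lit 5) (nat_lit 3) (nat_lit 4) (nat_lit 1) (nat_lit 4) (nat_lit 352) (nat_lit 223) (nat_lit 205))) (XT.nd (nat_lit 78) (nat_lit 0) (nat_lit 0) (XT.lf (nat_lit 0) (nat_lit 246111550669) (nat_lit 152) (nat_lit 973569103093) (nat_lit 0) (nat_lit 245498141412)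 (nat_lit 1) (nat_lit 5) (nat_lit 3) (nat_lit 4) (nat_lit 1) (nat_lit 4) (nat_lit 353) (nat_lit 223) (nat_lit 204)) (XT.lf (nat_lit 0) (nat_lit 266449236056) (nat_lit 152) (nat_lit 1050064358172) (nat_lit 0) (nat_lit 265822122994) (nat_lit 1) (nat_lit 5) (nat_lit 3) (nat_lit 4) (nat_lit 1) (nat_lit 4) (nat_lit 354) (nat_lit 223) (nat_lit 203)))) (XT.nd (nat_lit 156) (nat_lit 0) (nat_lit 0) (XT.nd (nat_lit 78) (nat_lit 0) (nat_lit 0) (XT.lf (nat_lit 0) (nat_lit 288397648016) (nat_lit 152) (nat_lit 1132711010310) (nat_lit 0) (nat_lit 287757846244) (nat_lit 1) (nat_lit 5) (nat_lit 3) (nat_lit 4) (nat_lit 1) (nat_lit 4) (nat_lit 355) (nat_lit 223) (nat_lit 202)) (XT.lf (nat_lit 0) (nat_lit 312086851211) (nat_lit 152) (nat_lit 1221998817446) (nat_lit 0) (nat_lit 311435300635) (nat_lit 1) (nat_lit 5) (nat_lit 3) (nat_lit 4) (nat_lit 1) (nat_lit 4) (nat_lit 356) (nat_lit 223) (nat_lit 201)))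 (XT.nd (nat_lit 78) (nat_lit 0) (nat_lit 0) (XT.lf (nat_lit 0) (nat_lit 337657226106) (nat_lit 152) (nat_lit 1318456892510) (nat_lit 0) (nat_lit 336994797007) (nat_lit 1) (nat_lit 5) (nat_lit 3) (nat_lit 4) (nat_lit 1) (nat_lit 4) (nat_lit 357) (nat_lit 223) (nat_lit 200)) (XT.lf (nat_lit 0) (nat_lit 365260300848) (nat_lit 152) (nat_lit 1422656838910) (nat_lit 0) (nat_lit 364587799043) (nat_lit 1) (nat_lit 5) (nat_lit 3) (nat_lit 4) (nat_lit 1) (nat_lit 4) (nat_lit 358) (nat_lit 223) (nat_lit 199))))))))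
noncomputable def xc6 : XT := (XT.nd (nat_lit 39858) (nat_lit 0) (nat_lit 0) (XT.nd (nat_lit 38688) (nat_lit 0) (nat_lit 0) (XT.nd (nat_lit 546) (nat_lit 0) (nat_lit 0) (XT.nd (nat_lit 234) (nat_lit 0) (nat_lit 0) (XT.nd (nat_lit 78) (nat_lit 0) (nat_lit 0) (XT.lf (nat_lit 0) (nat_lit 395059649213) (nat_lit 152) (nat_lit 1535216137810) (nat_lit 0) (nat_lit 394377820828) (nat_lit 1) (nat_lit 5) (nat_lit 3) (nat_lit 4) (nat_lit 1) (nat_lit 4) (nat_lit 359) (nat_lit 223) (nat_lit 198)) (XT.nd (nat_lit 78) (nat_lit 0) (nat_lit 0) (XT.lf (nat_lit 0) (nat_lit 427231859932) (nat_lit 152) (nat_lit 1656801807277) (nat_lit 0) (nat_lit 426541395825) (nat_lit 1) (nat_lit 5) (nat_lit 3) (nat_lit 4) (nat_lit 1) (nat_lit 4) (nat_lit 360) (nat_lit 223) (nat_lit 197)) (XT.lf (nat_lit 0) (nat_lit 461967583143) (nat_lit 152) (nat_lit 1788134354983) (nat_lit 0) (nat_lit 461269122997) (nat_lit 1) (nat_lit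 5) (nat_lit 3) (nat_lit 4) (nat_lit 1) (nat_lit 4) (nat_lit 361) (nat_lit 223) (nat_lit 196)))) (XT.nd (nat_lit 156) (nat_lit 0) (nat_lit 0) (XT.nd (nat_lit 78) (nat_lit 0) (nat_lit 0) (XT.lf (nat_lit 0) (nat_lit 499472660168) (nat_lit 152) (nat_lit 1929992047877) (nat_lit 0) (nat_lit 498766796282) (nat_lit 1) (nat_lit 5) (nat_lit 3) (nat_lit 4) (nat_lit 1) (nat_lit 4) (nat_lit 362) (nat_lit 223) (nat_lit 195)) (XT.lf (nat_lit 0) (nat_lit 539969343316) (nat_lit 152) (nat_lit 2083215524139) (nat_lit 0) (nat_lit 539256624116) (nat_lit 1) (nat_lit 5) (nat_lit 3) (nat_lit 4) (nat_lit 1) (nat_lit 4) (nat_lit 363) (nat_lit 223) (nat_lit 194))) (XT.nd (nat_lit 78) (nat_lit 0) (nat_lit 0) (XT.lf (nat_lit 0) (nat_lit 583697612932) (nat_lit 152) (nat_lit 2248712774740) (nat_lit 0) (nat_lit 582978546218) (nat_lit 1) (nat_lit 5) (nat_lit 3) (nat_lit 4) (nat_lit 1) (nat_lit 4) (nat_lit 364) (nat_lit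 223) (nat_lit 193)) (XT.lf (nat_lit 0) (nat_lit 630916599501) (nat_lit 152) (nat_lit 2427464524126) (nat_lit 0) (nat_lit 630191655460) (nat_lit 1) (nat_lit 5) (nat_lit 3) (nat_lit 4) (nat_lit 1) (nat_lit 4) (nat_lit 365) (nat_lit 223) (nat_lit 192))))) (XT.nd (nat_lit 312) (nat_lit 0) (nat_lit 0) (XT.nd (nat_lit 156) (nat_lit 0) (nat_lit 0) (XT.nd (nat_lit 78) (nat_lit 0) (nat_lit 0) (XT.lf (nat_lit 0) (nat_lit 681906119242) (nat_lit 152) (nat_lit 2620530041926) (nat_lit 0) (nat_lit 681175733231) (nat_lit 1) (nat_lit 5) (nat_lit 3) (nat_lit 4) (nat_lit 1) (nat_lit 4) (nat_lit 366) (nat_lit 223) (nat_lit 191)) (XT.lf (nat_lit 0) (nat_lit 736968332270) (nat_lit 152) (nat_lit 2829053420095) (nat_lit 0) (nat_lit 736232907398) (nat_lit 1) (nat_lit 5) (nat_lit 3) (nat_lit 4) (nat_lit 1) (nat_lit 4) (nat_lit 367) (nat_lit 223) (nat_lit 190))) (XT.nd (nat_lit 78) (nat_lit 0) (nat_lit 0) (XT.lf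 (nat_lit 0) (nat_lit 796429533181) (nat_lit 152) (nat_lit 3054270352726) (nat_lit 0) (nat_lit 795689442697) (nat_lit 1) (nat_lit 5) (nat_lit 3) (nat_lit 4) (nat_lit 1) (nat_lit 4) (nat_lit 368) (nat_lit 223) (nat_lit 189)) (XT.lf (nat_lit 0) (nat_lit 860642084648) (nat_lit 152) (nat_lit 3297515458680) (nat_lit 0) (nat_lit 859897674153) (nat_lit 1) (nat_lit 5) (nat_lit 3) (nat_lit 4) (nat_lit 1) (nat_lit 4) (nat_lit 369) (nat_lit 223) (nat_lit 188)))) (XT.nd (nat_lit 37674) (nat_lit 0) (nat_lit 0) (XT.nd (nat_lit 78) (nat_lit 0) (nat_lit 0) (XT.lf (nat_lit 0) (nat_lit 929986505494) (nat_lit 152) (nat_lit 3560230190437) (nat_lit 0) (nat_lit 929238094989) (nat_lit 1) (nat_lit 5) (nat_lit 3) (nat_lit 4) (nat_lit 1) (nat_lit 4) (nat_lit 370) (nat_lit 223) (nat_lit 187)) (XT.lf (nat_lit 0) (nat_lit 1004873725620) (nat_lit 152) (nat_lit 3843971376036) (nat_lit 0) (nat_lit 1004121611402) (nat_lit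 1) (nat_lit 5) (nat_lit 3) (nat_lit 4) (nat_lit 1) (nat_lit 4) (nat_lit 371) (nat_lit 223) (nat_lit 186))) (XT.nd (nat_lit 78) (nat_lit 0) (nat_lit 0) (XT.lf (nat_lit 0) (nat_lit 18899095313) (nat_lit 152) (nat_lit 108209851530) (nat_lit 0) (nat_lit 18899095313) (nat_lit 1) (nat_lit 5) (nat_lit 3) (nat_lit 4) (nat_lit 1) (nat_lit 4) (nat_lit 332) (nat_lit 224) (nat_lit 224)) (XT.lf (nat_lit 0) (nat_lit 42310130114) (nat_lit 152) (nat_lit 230695608081) (nat_lit 0) (nat_lit 42246257263) (nat_lit 1) (nat_lit 5) (nat_lit 3) (nat_lit 4) (nat_lit 1) (nat_lit 4) (nat_lit 333) (nat_lit 224) (nat_lit 223)))))) (XT.nd (nat_lit 546) (nat_lit 0) (nat_lit 0) (XT.nd (nat_lit 234) (nat_lit 0) (nat_lit 0) (XT.nd (nat_lit 78) (nat_lit 0) (nat_lit 0) (XT.lf (nat_lit 0) (nat_lit 47107105887) (nat_lit 152) (nat_lit 246261695117) (nat_lit 0) (nat_lit 46984091508) (nat_lit 1) (nat_lit 5) (nat_lit 3) (nat_lit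 4) (nat_lit 1) (nat_lit 4) (nat_lit 334) (nat_lit 224) (nat_lit 222)) (XT.nd (nat_lit 78) (nat_lit 0) (nat_lit 0) (XT.lf (nat_lit 0) (nat_lit 52217544467) (nat_lit 152) (nat_lit 263210207647) (nat_lit 0) (nat_lit 52039769414) (nat_lit 1) (nat_lit 5) (nat_lit 3) (nat_lit 4) (nat_lit 1) (nat_lit 4) (nat_lit 335) (nat_lit 224) (nat_lit 221)) (XT.lf (nat_lit 0) (nat_lit 57671729935) (nat_lit 152) (nat_lit 281641581302) (nat_lit 0) (nat_lit 57443250554) (nat_lit 1) (nat_lit 5) (nat_lit 3) (nat_lit 4) (nat_lit 1) (nat_lit 4) (nat_lit 336) (nat_lit 224) (nat_lit 220)))) (XT.nd (nat_lit 156) (nat_lit 0) (nat_lit 0) (XT.nd (nat_lit 78) (nat_lit 0) (nat_lit 0) (XT.lf (nat_lit 0) (nat_lit 63501983391) (nat_lit 152) (nat_lit 301665039036) (nat_lit 0) (nat_lit 63226555557) (nat_lit 1) (nat_lit 5) (nat_lit 3) (nat_lit 4) (nat_lit 1) (nat_lit 4) (nat_lit 337) (nat_lit 224) (nat_lit 219)) (XT.lf (nat_lit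 0) (nat_lit 69742854484) (nat_lit 152) (nat_lit 323399238377) (nat_lit 0) (nat_lit 69423955861) (nat_lit 1) (nat_lit 5) (nat_lit 3) (nat_lit 4) (nat_lit 1) (nat_lit 4) (nat_lit 338) (nat_lit 224) (nat_lit 218))) (XT.nd (nat_lit 78) (nat_lit 0) (nat_lit 0) (XT.lf (nat_lit 0) (nat_lit 76431326154) (nat_lit 152) (nat_lit 346972974581) (nat_lit 0) (nat_lit 76072176801) (nat_lit 1) (nat_lit 5) (nat_lit 3) (nat_lit 4) (nat_lit 1) (nat_lit 4) (nat_lit 339) (nat_lit 224) (nat_lit 217)) (XT.lf (nat_lit 0) (nat_lit 83607033788) (nat_lit 152) (nat_lit 372525943861) (nat_lit 0) (nat_lit 83210615241) (nat_lit 1) (nat_lit 5) (nat_lit 3) (nat_lit 4) (nat_lit 1) (nat_lit 4) (nat_lit 340) (nat_lit 224) (nat_lit 216))))) (XT.nd (nat_lit 312) (nat_lit 0) (nat_lit 0) (XT.nd (nat_lit 156) (nat_lit 0) (nat_lit 0) (XT.nd (nat_lit 78) (nat_lit 0) (nat_lit 0) (XT.lf (nat_lit 0) (nat_lit 91312500100) (nat_lit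 152) (nat_lit 400209571220) (nat_lit 0) (nat_lit 90881573038) (nat_lit 1) (nat_lit 5) (nat_lit 3) (nat_lit 4) (nat_lit 1) (nat_lit 4) (nat_lit 341) (nat_lit 224) (nat_lit 215)) (XT.lf (nat_lit 0) (nat_lit 99593387110) (nat_lit 152) (nat_lit 430187907785) (nat_lit 0) (nat_lit 99130507722) (nat_lit 1) (nat_lit 5) (nat_lit 3) (nat_lit 4) (nat_lit 1) (nat_lit 4) (nat_lit 342) (nat_lit 224) (nat_lit 214))) (XT.nd (nat_lit 78) (nat_lit 0) (nat_lit 0) (XT.lf (nat_lit 0) (nat_lit 108498766743) (nat_lit 152) (nat_lit 462638602956) (nat_lit 0) (nat_lit 108006301866) (nat_lit 1) (nat_lit 5) (nat_lit 3) (nat_lit 4) (nat_lit 1) (nat_lit 4) (nat_lit 343) (nat_lit 224) (nat_lit 213)) (XT.lf (nat_lit 0) (nat_lit 118081411619) (nat_lit 152) (nat_lit 497753957150) (nat_lit 0) (nat_lit 117561552771) (nat_lit 1) (nat_lit 5) (nat_lit 3) (nat_lit 4) (nat_lit 1) (nat_lit 4) (nat_lit 344) (nat_lit 224) (nat_lit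 212)))) (XT.nd (nat_lit 156) (nat_lit 0) (nat_lit 0) (XT.nd (nat_lit 78) (nat_lit 0) (nat_lit 0) (XT.lf (nat_lit 0) (nat_lit 128398107780) (nat_lit 152) (nat_lit 535742061355) (nat_lit 0) (nat_lit 127852884144) (nat_lit 1) (nat_lit 5) (nat_lit 3) (nat_lit 4) (nat_lit 1) (nat_lit 4) (nat_lit 345) (nat_lit 224) (nat_lit 211)) (XT.lf (nat_lit 0) (nat_lit 139509991205) (nat_lit 152) (nat_lit 576828030261) (nat_lit 0) (nat_lit 138941281654) (nat_lit 1) (nat_lit 5) (nat_lit 3) (nat_lit 4) (nat_lit 1) (nat_lit 4) (nat_lit 346) (nat_lit 224) (nat_lit 210))) (XT.nd (nat_lit 78) (nat_lit 0) (nat_lit 0) (XT.lf (nat_lit 0) (nat_lit 151482910091) (nat_lit 152) (nat_lit 621255336278) (nat_lit 0) (nat_lit 150892454323) (nat_lit 1) (nat_lit 5) (nat_lit 3) (nat_lit 4) (nat_lit 1) (nat_lit 4) (nat_lit 347) (nat_lit 224) (nat_lit 209)) (XT.lf (nat_lit 0) (nat_lit 164387815068) (nat_lit 152) (nat_lit 669287252329)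 (nat_lit 0) (nat_lit 163777223914) (nat_lit 1) (nat_lit 5) (nat_lit 3) (nat_lit 4) (nat_lit 1) (nat_lit 4) (nat_lit 348) (nat_lit 224) (nat_lit 208))))))) (XT.nd (nat_lit 1170) (nat_lit 0) (nat_lit 0) (XT.nd (nat_lit 546) (nat_lit 0) (nat_lit 0) (XT.nd (nat_lit 234) (nat_lit 0) (nat_lit 0) (XT.nd (nat_lit 78) (nat_lit 0) (nat_lit 0) (XT.lf (nat_lit 0) (nat_lit 178301179649) (nat_lit 152) (nat_lit 721208411992) (nat_lit 0) (nat_lit 177671944619) (nat_lit 1) (nat_lit 5) (nat_lit 3) (nat_lit 4) (nat_lit 1) (nat_lit 4) (nat_lit 349) (nat_lit 224) (nat_lit 207)) (XT.nd (nat_lit 78) (nat_lit 0) (nat_lit 0) (XT.lf (nat_lit 0) (nat_lit 193305453400) (nat_lit 152) (nat_lit 777326496213) (nat_lit 0) (nat_lit 192658955522) (nat_lit 1) (nat_lit 5) (nat_lit 3) (nat_lit 4) (nat_lit 1) (nat_lit 4) (nat_lit 350) (nat_lit 224) (nat_lit 206)) (XT.lf (nat_lit 0) (nat_lit 209489550537) (nat_lit 152) (nat_lit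 837974056602) (nat_lit 0) (nat_lit 208827068540) (nat_lit 1) (nat_lit 5) (nat_lit 3) (nat_lit 4) (nat_lit 1) (nat_lit 4) (nat_lit 351) (nat_lit 224) (nat_lit 205)))) (XT.nd (nat_lit 156) (nat_lit 0) (nat_lit 0) (XT.nd (nat_lit 78) (nat_lit 0) (nat_lit 0) (XT.lf (nat_lit 0) (nat_lit 226949376820) (nat_lit 152) (nat_lit 903510486108) (nat_lit 0) (nat_lit 226272094713) (nat_lit 1) (nat_lit 5) (nat_lit 3) (nat_lit 4) (nat_lit 1) (nat_lit 4) (nat_lit 352) (nat_lit 224) (nat_lit 204)) (XT.lf (nat_lit 0) (nat_lit 245788397887) (nat_lit 152) (nat_lit 974324148760) (nat_lit 0) (nat_lit 245097411974) (nat_lit 1) (nat_lit 5) (nat_lit 3) (nat_lit 4) (nat_lit 1) (nat_lit 4) (nat_lit 353) (nat_lit 224) (nat_lit 203))) (XT.nd (nat_lit 78) (nat_lit 0) (nat_lit 0) (XT.lf (nat_lit 0) (nat_lit 266118252380) (nat_lit 152) (nat_lit 1050834681076) (nat_lit 0) (nat_lit 265414577758) (nat_lit 1) (nat_lit 5)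 (nat_lit 3) (nat_lit 4) (nat_lit 1) (nat_lit 4) (nat_lit 354) (nat_lit 224) (nat_lit 202)) (XT.lf (nat_lit 0) (nat_lit 288059413512) (nat_lit 152) (nat_lit 1133495478804) (nat_lit 0) (nat_lit 287343990086) (nat_lit 1) (nat_lit 5) (nat_lit 3) (nat_lit 4) (nat_lit 1) (nat_lit 4) (nat_lit 355) (nat_lit 224) (nat_lit 201))))) (XT.nd (nat_lit 312) (nat_lit 0) (nat_lit 0) (XT.nd (nat_lit 156) (nat_lit 0) (nat_lit 0) (XT.nd (nat_lit 78) (nat_lit 0) (nat_lit 0) (XT.lf (nat_lit 0) (nat_lit 311741902979) (nat_lit 152) (nat_lit 1222796383708) (nat_lit 0) (nat_lit 311015601030) (nat_lit 1) (nat_lit 5) (nat_lit 3) (nat_lit 4) (nat_lit 1) (nat_lit 4) (nat_lit 356) (nat_lit 224) (nat_lit 200)) (XT.lf (nat_lit 0) (nat_lit 337306061458) (nat_lit 152) (nat_lit 1319266586334) (nat_lit 0) (nat_lit 336569686802) (nat_lit 1) (nat_lit 5) (nat_lit 3) (nat_lit 4) (nat_lit 1) (nat_lit 4) (nat_lit 357) (nat_lit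 224) (nat_lit 199))) (XT.nd (nat_lit 78) (nat_lit 0) (nat_lit 0) (XT.lf (nat_lit 0) (nat_lit 364903380259) (nat_lit 152) (nat_lit 1423477761959) (nat_lit 0) (nat_lit 364157679024) (nat_lit 1) (nat_lit 5) (nat_lit 3) (nat_lit 4) (nat_lit 1) (nat_lit 4) (nat_lit 358) (nat_lit 224) (nat_lit 198)) (XT.lf (nat_lit 0) (nat_lit 394697399050) (nat_lit 152) (nat_lit 1536047458290) (nat_lit 0) (nat_lit 393943062092) (nat_lit 1) (nat_lit 5) (nat_lit 3) (nat_lit 4) (nat_lit 1) (nat_lit 4) (nat_lit 359) (nat_lit 224) (nat_lit 197)))) (XT.nd (nat_lit 156) (nat_lit 0) (nat_lit 0) (XT.nd (nat_lit 78) (nat_lit 0) (nat_lit 0) (XT.lf (nat_lit 0) (nat_lit 426864674977) (nat_lit 152) (nat_lit 1657642755008) (nat_lit 0) (nat_lit 426102341981) (nat_lit 1) (nat_lit 5) (nat_lit 3) (nat_lit 4) (nat_lit 1) (nat_lit 4) (nat_lit 360) (nat_lit 224) (nat_lit 196)) (XT.lf (nat_lit 0) (nat_lit 461595828937) (nat_lit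 152) (nat_lit 1788984216835) (nat_lit 0) (nat_lit 460826092201) (nat_lit 1) (nat_lit 5) (nat_lit 3) (nat_lit 4) (nat_lit 1) (nat_lit 4) (nat_lit 361) (nat_lit 224) (nat_lit 195))) (XT.nd (nat_lit 78) (nat_lit 0) (nat_lit 0) (XT.lf (nat_lit 0) (nat_lit 499096675174) (nat_lit 152) (nat_lit 1930850163544) (nat_lit 0) (nat_lit 498320083124) (nat_lit 1) (nat_lit 5) (nat_lit 3) (nat_lit 4) (nat_lit 1) (nat_lit 4) (nat_lit 362) (nat_lit 224) (nat_lit 194)) (XT.lf (nat_lit 0) (nat_lit 539589440926) (nat_lit 152) (nat_lit 2084081282228) (nat_lit 0) (nat_lit 538806501362) (nat_lit 1) (nat_lit 5) (nat_lit 3) (nat_lit 4) (nat_lit 1) (nat_lit 4) (nat_lit 363) (nat_lit 224) (nat_lit 193)))))) (XT.nd (nat_lit 37986) (nat_lit 0) (nat_lit 0) (XT.nd (nat_lit 312) (nat_lit 0) (nat_lit 0) (XT.nd (nat_lit 156) (nat_lit 0) (nat_lit 0) (XT.nd (nat_lit 78) (nat_lit 0) (nat_lit 0) (XT.lf (nat_lit 0) (nat_lit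 583314083323) (nat_lit 152) (nat_lit 2249585609145) (nat_lit 0) (nat_lit 582525266431) (nat_lit 1) (nat_lit 5) (nat_lit 3) (nat_lit 4) (nat_lit 1) (nat_lit 4) (nat_lit 364) (nat_lit 224) (nat_lit 192)) (XT.lf (nat_lit 0) (nat_lit 630529711357) (nat_lit 152) (nat_lit 2428343910677) (nat_lit 0) (nat_lit 629735452495) (nat_lit 1) (nat_lit 5) (nat_lit 3) (nat_lit 4) (nat_lit 1) (nat_lit 4) (nat_lit 365) (nat_lit 224) (nat_lit 191))) (XT.nd (nat_lit 78) (nat_lit 0) (nat_lit 0) (XT.lf (nat_lit 0) (nat_lit 681516121341) (nat_lit 152) (nat_lit 2621415495277) (nat_lit 0) (nat_lit 680716823619) (nat_lit 1) (nat_lit 5) (nat_lit 3) (nat_lit 4) (nat_lit 1) (nat_lit 4) (nat_lit 366) (nat_lit 224) (nat_lit 190)) (XT.lf (nat_lit 0) (nat_lit 736575454966) (nat_lit 152) (nat_lit 2829944490854) (nat_lit 0) (nat_lit 735771491632) (nat_lit 1) (nat_lit 5) (nat_lit 3) (nat_lit 4) (nat_lit 1) (nat_lit 4) (nat_lit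 367) (nat_lit 224) (nat_lit 189)))) (XT.nd (nat_lit 156) (nat_lit 0) (nat_lit 0) (XT.nd (nat_lit 78) (nat_lit 0) (nat_lit 0) (XT.lf (nat_lit 0) (nat_lit 796033989763) (nat_lit 152) (nat_lit 3055166624790) (nat_lit 0) (nat_lit 795225706418) (nat_lit 1) (nat_lit 5) (nat_lit 3) (nat_lit 4) (nat_lit 1) (nat_lit 4) (nat_lit 368) (nat_lit 224) (nat_lit 188)) (XT.lf (nat_lit 0) (nat_lit 860244072606) (nat_lit 152) (nat_lit 3298416546766) (nat_lit 0) (nat_lit 859431789251) (nat_lit 1) (nat_lit 5) (nat_lit 3) (nat_lit 4) (nat_lit 1) (nat_lit 4) (nat_lit 369) (nat_lit 224) (nat_lit 187))) (XT.nd (nat_lit 78) (nat_lit 0) (nat_lit 0) (XT.lf (nat_lit 0) (nat_lit 929586207689) (nat_lit 152) (nat_lit 3561135737802) (nat_lit 0) (nat_lit 928770220620) (nat_lit 1) (nat_lit 5) (nat_lit 3) (nat_lit 4) (nat_lit 1) (nat_lit 4) (nat_lit 370) (nat_lit 224) (nat_lit 186)) (XT.lf (nat_lit 0) (nat_lit 1004471311367)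 (nat_lit 152) (nat_lit 3844881052364) (nat_lit 0) (nat_lit 1003651894935) (nat_lit 1) (nat_lit 5) (nat_lit 3) (nat_lit 4) (nat_lit 1) (nat_lit 4) (nat_lit 371) (nat_lit 224) (nat_lit 185))))) (XT.nd (nat_lit 312) (nat_lit 0) (nat_lit 0) (XT.nd (nat_lit 156) (nat_lit 0) (nat_lit 0) (XT.nd (nat_lit 78) (nat_lit 0) (nat_lit 0) (XT.lf (nat_lit 0) (nat_lit 14817778567) (nat_lit 152) (nat_lit 95662068067) (nat_lit 0) (nat_lit 14817778567) (nat_lit 1) (nat_lit 5) (nat_lit 3) (nat_lit 4) (nat_lit 1) (nat_lit 4) (nat_lit 330) (nat_lit 225) (nat_lit 225)) (XT.lf (nat_lit 0) (nat_lit 33613532682) (nat_lit 152) (nat_lit 203349382102) (nat_lit 0) (nat_lit 33544550003) (nat_lit 1) (nat_lit 5) (nat_lit 3) (nat_lit 4) (nat_lit 1) (nat_lit 4) (nat_lit 331) (nat_lit 225) (nat_lit 224))) (XT.nd (nat_lit 78) (nat_lit 0) (nat_lit 0) (XT.lf (nat_lit 0) (nat_lit 37827753889) (nat_lit 152) (nat_lit 216496606130)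 (nat_lit 0) (nat_lit 37694898360) (nat_lit 1) (nat_lit 5) (nat_lit 3) (nat_lit 4) (nat_lit 1) (nat_lit 4) (nat_lit 332) (nat_lit 225) (nat_lit 223)) (XT.lf (nat_lit 0) (nat_lit 42303193918) (nat_lit 152) (nat_lit 230843717696) (nat_lit 0) (nat_lit 42111196861) (nat_lit 1) (nat_lit 5) (nat_lit 3) (nat_lit 4) (nat_lit 1) (nat_lit 4) (nat_lit 333) (nat_lit 225) (nat_lit 222)))) (XT.nd (nat_lit 156) (nat_lit 0) (nat_lit 0) (XT.nd (nat_lit 78) (nat_lit 0) (nat_lit 0) (XT.lf (nat_lit 0) (nat_lit 47066373896) (nat_lit 152) (nat_lit 246475736718) (nat_lit 0) (nat_lit 46819616164) (nat_lit 1) (nat_lit 5) (nat_lit 3) (nat_lit 4) (nat_lit 1) (nat_lit 4) (nat_lit 334) (nat_lit 225) (nat_lit 221)) (XT.lf (nat_lit 0) (nat_lit 52145520073) (nat_lit 152) (nat_lit 263485297384) (nat_lit 0) (nat_lit 51848058013) (nat_lit 1) (nat_lit 5) (nat_lit 3) (nat_lit 4) (nat_lit 1) (nat_lit 4) (nat_lit 335) (nat_lit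 225) (nat_lit 220))) (XT.nd (nat_lit 78) (nat_lit 0) (nat_lit 0) (XT.lf (nat_lit 0) (nat_lit 57570731094) (nat_lit 152) (nat_lit 281973197090) (nat_lit 0) (nat_lit 57226320582) (nat_lit 1) (nat_lit 5) (nat_lit 3) (nat_lit 4) (nat_lit 1) (nat_lit 4) (nat_lit 336) (nat_lit 225) (nat_lit 219)) (XT.lf (nat_lit 0) (nat_lit 63374156358) (nat_lit 152) (nat_lit 302048993761) (nat_lit 0) (nat_lit 62986275057) (nat_lit 1) (nat_lit 5) (nat_lit 3) (nat_lit 4) (nat_lit 1) (nat_lit 4) (nat_lit 337) (nat_lit 225) (nat_lit 218))))))))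
noncomputable def xc7 : XT := (XT.nd (nat_lit 2418) (nat_lit 0) (nat_lit 0) (XT.nd (nat_lit 1170) (nat_lit 0) (nat_lit 0) (XT.nd (nat_lit 546) (nat_lit 0) (nat_lit 0) (XT.nd (nat_lit 234) (nat_lit 0) (nat_lit 0) (XT.nd (nat_lit 78) (nat_lit 0) (nat_lit 0) (XT.lf (nat_lit 0) (nat_lit 69590186532) (nat_lit 152) (nat_lit 323831655080) (nat_lit 0) (nat_lit 69162054501) (nat_lit 1) (nat_lit 5) (nat_lit 3) (nat_lit 4) (nat_lit 1) (nat_lit 4) (nat_lit 338) (nat_lit 225) (nat_lit 217)) (XT.nd (nat_lit 78) (nat_lit 0) (nat_lit 0) (XT.lf (nat_lit 0) (nat_lit 76255657351) (nat_lit 152) (nat_lit 347450263485) (nat_lit 0) (nat_lit 75790256125) (nat_lit 1) (nat_lit 5) (nat_lit 3) (nat_lit 4) (nat_lit 1) (nat_lit 4) (nat_lit 339) (nat_lit 225) (nat_lit 216)) (XT.lf (nat_lit 0) (nat_lit 83410067902) (nat_lit 152) (nat_lit 373044781101) (nat_lit 0) (nat_lit 82910158163) (nat_lit 1) (nat_lit 5) (nat_lit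 3) (nat_lit 4) (nat_lit 1) (nat_lit 4) (nat_lit 340) (nat_lit 225) (nat_lit 215)))) (XT.nd (nat_lit 156) (nat_lit 0) (nat_lit 0) (XT.nd (nat_lit 78) (nat_lit 0) (nat_lit 0) (XT.lf (nat_lit 0) (nat_lit 91095814692) (nat_lit 152) (nat_lit 400766879141) (nat_lit 0) (nat_lit 90563952624) (nat_lit 1) (nat_lit 5) (nat_lit 3) (nat_lit 4) (nat_lit 1) (nat_lit 4) (nat_lit 341) (nat_lit 225) (nat_lit 214)) (XT.lf (nat_lit 0) (nat_lit 99358442886) (nat_lit 152) (nat_lit 430780836707) (nat_lit 0) (nat_lit 98796995330) (nat_lit 1) (nat_lit 5) (nat_lit 3) (nat_lit 4) (nat_lit 1) (nat_lit 4) (nat_lit 342) (nat_lit 225) (nat_lit 213))) (XT.nd (nat_lit 78) (nat_lit 0) (nat_lit 0) (XT.lf (nat_lit 0) (nat_lit 108246916207) (nat_lit 152) (nat_lit 463264514286) (nat_lit 0) (nat_lit 107658074680) (nat_lit 1) (nat_lit 5) (nat_lit 3) (nat_lit 4) (nat_lit 1) (nat_lit 4) (nat_lit 343) (nat_lit 225) (nat_lit 212))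 (XT.lf (nat_lit 0) (nat_lit 117813907090) (nat_lit 152) (nat_lit 498410407747) (nat_lit 0) (nat_lit 117199700776) (nat_lit 1) (nat_lit 5) (nat_lit 3) (nat_lit 4) (nat_lit 1) (nat_lit 4) (nat_lit 344) (nat_lit 225) (nat_lit 211))))) (XT.nd (nat_lit 312) (nat_lit 0) (nat_lit 0) (XT.nd (nat_lit 156) (nat_lit 0) (nat_lit 0) (XT.nd (nat_lit 78) (nat_lit 0) (nat_lit 0) (XT.lf (nat_lit 0) (nat_lit 128116108814) (nat_lit 152) (nat_lit 536426789050) (nat_lit 0) (nat_lit 127478416585) (nat_lit 1) (nat_lit 5) (nat_lit 3) (nat_lit 4) (nat_lit 1) (nat_lit 4) (nat_lit 345) (nat_lit 225) (nat_lit 210)) (XT.lf (nat_lit 0) (nat_lit 139214571464) (nat_lit 152) (nat_lit 577538940455) (nat_lit 0) (nat_lit 138555133017) (nat_lit 1) (nat_lit 5) (nat_lit 3) (nat_lit 4) (nat_lit 1) (nat_lit 4) (nat_lit 346) (nat_lit 225) (nat_lit 209))) (XT.nd (nat_lit 78) (nat_lit 0) (nat_lit 0) (XT.lf (nat_lit 0) (nat_lit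 151175063706) (nat_lit 152) (nat_lit 621990489527) (nat_lit 0) (nat_lit 150495489873) (nat_lit 1) (nat_lit 5) (nat_lit 3) (nat_lit 4) (nat_lit 1) (nat_lit 4) (nat_lit 347) (nat_lit 225) (nat_lit 208)) (XT.lf (nat_lit 0) (nat_lit 164068462532) (nat_lit 152) (nat_lit 670044852851) (nat_lit 0) (nat_lit 163370244823) (nat_lit 1) (nat_lit 5) (nat_lit 3) (nat_lit 4) (nat_lit 1) (nat_lit 4) (nat_lit 348) (nat_lit 225) (nat_lit 207)))) (XT.nd (nat_lit 156) (nat_lit 0) (nat_lit 0) (XT.nd (nat_lit 78) (nat_lit 0) (nat_lit 0) (XT.lf (nat_lit 0) (nat_lit 177971173268) (nat_lit 152) (nat_lit 721986797026) (nat_lit 0) (nat_lit 177255692711) (nat_lit 1) (nat_lit 5) (nat_lit 3) (nat_lit 4) (nat_lit 1) (nat_lit 4) (nat_lit 349) (nat_lit 225) (nat_lit 206)) (XT.lf (nat_lit 0) (nat_lit 192965582349) (nat_lit 152) (nat_lit 778124126165) (nat_lit 0) (nat_lit 192234117673) (nat_lit 1) (nat_lit 5) (nat_lit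 3) (nat_lit 4) (nat_lit 1) (nat_lit 4) (nat_lit 350) (nat_lit 225) (nat_lit 205))) (XT.nd (nat_lit 78) (nat_lit 0) (nat_lit 0) (XT.lf (nat_lit 0) (nat_lit 209140545532) (nat_lit 152) (nat_lit 838789505922) (nat_lit 0) (nat_lit 208394280746) (nat_lit 1) (nat_lit 5) (nat_lit 3) (nat_lit 4) (nat_lit 1) (nat_lit 4) (nat_lit 351) (nat_lit 225) (nat_lit 204)) (XT.lf (nat_lit 0) (nat_lit 226591914450) (nat_lit 152) (nat_lit 904342434845) (nat_lit 0) (nat_lit 225831945858) (nat_lit 1) (nat_lit 5) (nat_lit 3) (nat_lit 4) (nat_lit 1) (nat_lit 4) (nat_lit 352) (nat_lit 225) (nat_lit 203)))))) (XT.nd (nat_lit 624) (nat_lit 0) (nat_lit 0) (XT.nd (nat_lit 312) (nat_lit 0) (nat_lit 0) (XT.nd (nat_lit 156) (nat_lit 0) (nat_lit 0) (XT.nd (nat_lit 78) (nat_lit 0) (nat_lit 0) (XT.lf (nat_lit 0) (nat_lit 245423104623) (nat_lit 152) (nat_lit 975171374733) (nat_lit 0) (nat_lit 244650447322) (nat_lit 1) (nat_lit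 5) (nat_lit 3) (nat_lit 4) (nat_lit 1) (nat_lit 4) (nat_lit 353) (nat_lit 225) (nat_lit 202)) (XT.lf (nat_lit 0) (nat_lit 265745708289) (nat_lit 152) (nat_lit 1051696052639) (nat_lit 0) (nat_lit 264961302184) (nat_lit 1) (nat_lit 5) (nat_lit 3) (nat_lit 4) (nat_lit 1) (nat_lit 4) (nat_lit 354) (nat_lit 225) (nat_lit 201))) (XT.nd (nat_lit 78) (nat_lit 0) (nat_lit 0) (XT.lf (nat_lit 0) (nat_lit 287680155692) (nat_lit 152) (nat_lit 1134369948135) (nat_lit 0) (nat_lit 286884871065) (nat_lit 1) (nat_lit 5) (nat_lit 3) (nat_lit 4) (nat_lit 1) (nat_lit 4) (nat_lit 355) (nat_lit 225) (nat_lit 200)) (XT.lf (nat_lit 0) (nat_lit 311356428743) (nat_lit 152) (nat_lit 1223682980601) (nat_lit 0) (nat_lit 310551071409) (nat_lit 1) (nat_lit 5) (nat_lit 3) (nat_lit 4) (nat_lit 1) (nat_lit 4) (nat_lit 356) (nat_lit 225) (nat_lit 199)))) (XT.nd (nat_lit 156) (nat_lit 0) (nat_lit 0) (XT.nd (nat_lit 78)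 (nat_lit 0) (nat_lit 0) (XT.lf (nat_lit 0) (nat_lit 336914831282) (nat_lit 152) (nat_lit 1320164412453) (nat_lit 0) (nat_lit 336100147368) (nat_lit 1) (nat_lit 5) (nat_lit 3) (nat_lit 4) (nat_lit 1) (nat_lit 4) (nat_lit 357) (nat_lit 225) (nat_lit 198)) (XT.lf (nat_lit 0) (nat_lit 364506820509) (nat_lit 152) (nat_lit 1424385985509) (nat_lit 0) (nat_lit 363683500873) (nat_lit 1) (nat_lit 5) (nat_lit 3) (nat_lit 4) (nat_lit 1) (nat_lit 4) (nat_lit 358) (nat_lit 225) (nat_lit 197))) (XT.nd (nat_lit 78) (nat_lit 0) (nat_lit 0) (XT.lf (nat_lit 0) (nat_lit 394295904508) (nat_lit 152) (nat_lit 1536965309090) (nat_lit 0) (nat_lit 393464588833) (nat_lit 1) (nat_lit 5) (nat_lit 3) (nat_lit 4) (nat_lit 1) (nat_lit 4) (nat_lit 359) (nat_lit 225) (nat_lit 196)) (XT.lf (nat_lit 0) (nat_lit 426458611184) (nat_lit 152) (nat_lit 1658569519929) (nat_lit 0) (nat_lit 425619891770) (nat_lit 1) (nat_lit 5)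 (nat_lit 3) (nat_lit 4) (nat_lit 1) (nat_lit 4) (nat_lit 360) (nat_lit 225) (nat_lit 195))))) (XT.nd (nat_lit 312) (nat_lit 0) (nat_lit 0) (XT.nd (nat_lit 156) (nat_lit 0) (nat_lit 0) (XT.nd (nat_lit 78) (nat_lit 0) (nat_lit 0) (XT.lf (nat_lit 0) (nat_lit 461185534356) (nat_lit 152) (nat_lit 1789919235571) (nat_lit 0) (nat_lit 460339959627) (nat_lit 1) (nat_lit 5) (nat_lit 3) (nat_lit 4) (nat_lit 1) (nat_lit 4) (nat_lit 361) (nat_lit 225) (nat_lit 194)) (XT.lf (nat_lit 0) (nat_lit 498682463197) (nat_lit 152) (nat_lit 1931792824703) (nat_lit 0) (nat_lit 497830540954) (nat_lit 1) (nat_lit 5) (nat_lit 3) (nat_lit 4) (nat_lit 1) (nat_lit 4) (nat_lit 362) (nat_lit 225) (nat_lit 193))) (XT.nd (nat_lit 78) (nat_lit 0) (nat_lit 0) (XT.lf (nat_lit 0) (nat_lit 539171601730) (nat_lit 152) (nat_lit 2085031019703) (nat_lit 0) (nat_lit 538313802160) (nat_lit 1) (nat_lit 5) (nat_lit 3) (nat_lit 4)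 (nat_lit 1) (nat_lit 4) (nat_lit 363) (nat_lit 225) (nat_lit 192)) (XT.lf (nat_lit 0) (nat_lit 582892885591) (nat_lit 152) (nat_lit 2250541898765) (nat_lit 0) (nat_lit 582029644051) (nat_lit 1) (nat_lit 5) (nat_lit 3) (nat_lit 4) (nat_lit 1) (nat_lit 4) (nat_lit 364) (nat_lit 225) (nat_lit 191)))) (XT.nd (nat_lit 156) (nat_lit 0) (nat_lit 0) (XT.nd (nat_lit 78) (nat_lit 0) (nat_lit 0) (XT.lf (nat_lit 0) (nat_lit 630105403869) (nat_lit 152) (nat_lit 2429306267097) (nat_lit 0) (nat_lit 629237123468) (nat_lit 1) (nat_lit 5) (nat_lit 3) (nat_lit 4) (nat_lit 1) (nat_lit 4) (nat_lit 365) (nat_lit 225) (nat_lit 190)) (XT.lf (nat_lit 0) (nat_lit 681088934450) (nat_lit 152) (nat_lit 2622383469106) (nat_lit 0) (nat_lit 680215988437) (nat_lit 1) (nat_lit 5) (nat_lit 3) (nat_lit 4) (nat_lit 1) (nat_lit 4) (nat_lit 366) (nat_lit 225) (nat_lit 189))) (XT.nd (nat_lit 78) (nat_lit 0) (nat_lit 0) (XT.lf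 (nat_lit 0) (nat_lit 736145601961) (nat_lit 152) (nat_lit 2830917665987) (nat_lit 0) (nat_lit 735268335937) (nat_lit 1) (nat_lit 5) (nat_lit 3) (nat_lit 4) (nat_lit 1) (nat_lit 4) (nat_lit 367) (nat_lit 225) (nat_lit 188)) (XT.lf (nat_lit 0) (nat_lit 795601668134) (nat_lit 152) (nat_lit 3056144615944) (nat_lit 0) (nat_lit 794720402100) (nat_lit 1) (nat_lit 5) (nat_lit 3) (nat_lit 4) (nat_lit 1) (nat_lit 4) (nat_lit 368) (nat_lit 225) (nat_lit 187))))))) (XT.nd (nat_lit 38376) (nat_lit 0) (nat_lit 0) (XT.nd (nat_lit 37752) (nat_lit 0) (nat_lit 0) (XT.nd (nat_lit 37440) (nat_lit 0) (nat_lit 0) (XT.nd (nat_lit 78) (nat_lit 0) (nat_lit 0) (XT.lf (nat_lit 0) (nat_lit 859809465213) (nat_lit 152) (nat_lit 3299398997201) (nat_lit 0) (nat_lit 858924495466) (nat_lit 1) (nat_lit 5) (nat_lit 3) (nat_lit 4) (nat_lit 1) (nat_lit 4) (nat_lit 369) (nat_lit 225) (nat_lit 186)) (XT.nd (nat_lit 78) (nat_lit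 0) (nat_lit 0) (XT.lf (nat_lit 0) (nat_lit 929149483849) (nat_lit 152) (nat_lit 3562122317200) (nat_lit 0) (nat_lit 928261084738) (nat_lit 1) (nat_lit 5) (nat_lit 3) (nat_lit 4) (nat_lit 1) (nat_lit 4) (nat_lit 370) (nat_lit 225) (nat_lit 185)) (XT.lf (nat_lit 0) (nat_lit 1004032627854) (nat_lit 152) (nat_lit 3845871454875) (nat_lit 0) (nat_lit 1003141053406) (nat_lit 1) (nat_lit 5) (nat_lit 3) (nat_lit 4) (nat_lit 1) (nat_lit 4) (nat_lit 371) (nat_lit 225) (nat_lit 184)))) (XT.nd (nat_lit 156) (nat_lit 0) (nat_lit 0) (XT.nd (nat_lit 78) (nat_lit 0) (nat_lit 0) (XT.lf (nat_lit 0) (nat_lit 11207895322) (nat_lit 152) (nat_lit 85135531124) (nat_lit 0) (nat_lit 11207895322) (nat_lit 1) (nat_lit 5) (nat_lit 3) (nat_lit 4) (nat_lit 1) (nat_lit 4) (nat_lit 328) (nat_lit 226) (nat_lit 226)) (XT.lf (nat_lit 0) (nat_lit 25944755350) (nat_lit 152) (nat_lit 180349607511) (nat_lit 0) (nat_lit 25870254057)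 (nat_lit 1) (nat_lit 5) (nat_lit 3) (nat_lit 4) (nat_lit 1) (nat_lit 4) (nat_lit 329) (nat_lit 226) (nat_lit 225))) (XT.nd (nat_lit 78) (nat_lit 0) (nat_lit 0) (XT.lf (nat_lit 0) (nat_lit 29667485458) (nat_lit 152) (nat_lit 191407191449) (nat_lit 0) (nat_lit 29524001487) (nat_lit 1) (nat_lit 5) (nat_lit 3) (nat_lit 4) (nat_lit 1) (nat_lit 4) (nat_lit 330) (nat_lit 226) (nat_lit 224)) (XT.lf (nat_lit 0) (nat_lit 33606041590) (nat_lit 152) (nat_lit 203509340485) (nat_lit 0) (nat_lit 33398684768) (nat_lit 1) (nat_lit 5) (nat_lit 3) (nat_lit 4) (nat_lit 1) (nat_lit 4) (nat_lit 331) (nat_lit 226) (nat_lit 223))))) (XT.nd (nat_lit 312) (nat_lit 0) (nat_lit 0) (XT.nd (nat_lit 156) (nat_lit 0) (nat_lit 0) (XT.nd (nat_lit 78) (nat_lit 0) (nat_lit 0) (XT.lf (nat_lit 0) (nat_lit 37783763339) (nat_lit 152) (nat_lit 216727771059) (nat_lit 0) (nat_lit 37517264988) (nat_lit 1) (nat_lit 5) (nat_lit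 3) (nat_lit 4) (nat_lit 1) (nat_lit 4) (nat_lit 332) (nat_lit 226) (nat_lit 222)) (XT.lf (nat_lit 0) (nat_lit 42225407573) (nat_lit 152) (nat_lit 231140814611) (nat_lit 0) (nat_lit 41904148548) (nat_lit 1) (nat_lit 5) (nat_lit 3) (nat_lit 4) (nat_lit 1) (nat_lit 4) (nat_lit 333) (nat_lit 226) (nat_lit 221))) (XT.nd (nat_lit 78) (nat_lit 0) (nat_lit 0) (XT.lf (nat_lit 0) (nat_lit 46957295147) (nat_lit 152) (nat_lit 246833881769) (nat_lit 0) (nat_lit 46585331794) (nat_lit 1) (nat_lit 5) (nat_lit 3) (nat_lit 4) (nat_lit 1) (nat_lit 4) (nat_lit 334) (nat_lit 226) (nat_lit 220)) (XT.lf (nat_lit 0) (nat_lit 52007466877) (nat_lit 152) (nat_lit 263899968486) (nat_lit 0) (nat_lit 51588555072) (nat_lit 1) (nat_lit 5) (nat_lit 3) (nat_lit 4) (nat_lit 1) (nat_lit 4) (nat_lit 335) (nat_lit 226) (nat_lit 219)))) (XT.nd (nat_lit 156) (nat_lit 0) (nat_lit 0) (XT.nd (nat_lit 78) (nat_lit 0) (nat_lit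 0) (XT.lf (nat_lit 0) (nat_lit 57405849706) (nat_lit 152) (nat_lit 282440207129) (nat_lit 0) (nat_lit 56943467112) (nat_lit 1) (nat_lit 5) (nat_lit 3) (nat_lit 4) (nat_lit 1) (nat_lit 4) (nat_lit 336) (nat_lit 226) (nat_lit 218)) (XT.lf (nat_lit 0) (nat_lit 63184434051) (nat_lit 152) (nat_lit 302564465778) (nat_lit 0) (nat_lit 62681800727) (nat_lit 1) (nat_lit 5) (nat_lit 3) (nat_lit 4) (nat_lit 1) (nat_lit 4) (nat_lit 337) (nat_lit 226) (nat_lit 217))) (XT.nd (nat_lit 78) (nat_lit 0) (nat_lit 0) (XT.lf (nat_lit 0) (nat_lit 69377463375) (nat_lit 152) (nat_lit 324391999300) (nat_lit 0) (nat_lit 68837560856) (nat_lit 1) (nat_lit 5) (nat_lit 3) (nat_lit 4) (nat_lit 1) (nat_lit 4) (nat_lit 338) (nat_lit 226) (nat_lit 216)) (XT.lf (nat_lit 0) (nat_lit 76021637111) (nat_lit 152) (nat_lit 348052156040) (nat_lit 0) (nat_lit 75447226078) (nat_lit 1) (nat_lit 5) (nat_lit 3) (nat_lit 4) (nat_lit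 1) (nat_lit 4) (nat_lit 339) (nat_lit 226) (nat_lit 215)))))) (XT.nd (nat_lit 624) (nat_lit 0) (nat_lit 0) (XT.nd (nat_lit 312) (nat_lit 0) (nat_lit 0) (XT.nd (nat_lit 156) (nat_lit 0) (nat_lit 0) (XT.nd (nat_lit 78) (nat_lit 0) (nat_lit 0) (XT.lf (nat_lit 0) (nat_lit 83156328140) (nat_lit 152) (nat_lit 373685144336) (nat_lit 0) (nat_lit 82549964780) (nat_lit 1) (nat_lit 5) (nat_lit 3) (nat_lit 4) (nat_lit 1) (nat_lit 4) (nat_lit 340) (nat_lit 226) (nat_lit 214)) (XT.lf (nat_lit 0) (nat_lit 90823816113) (nat_lit 152) (nat_lit 401442863377) (nat_lit 0) (nat_lit 90187867264) (nat_lit 1) (nat_lit 5) (nat_lit 3) (nat_lit 4) (nat_lit 1) (nat_lit 4) (nat_lit 341) (nat_lit 226) (nat_lit 213))) (XT.nd (nat_lit 78) (nat_lit 0) (nat_lit 0) (XT.lf (nat_lit 0) (nat_lit 99069537995) (nat_lit 152) (nat_lit 431489803351) (nat_lit 0) (nat_lit 98406195176) (nat_lit 1) (nat_lit 5) (nat_lit 3) (nat_lit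 4) (nat_lit 1) (nat_lit 4) (nat_lit 342) (nat_lit 226) (nat_lit 212)) (XT.lf (nat_lit 0) (nat_lit 107942357324) (nat_lit 152) (nat_lit 464004020197) (nat_lit 0) (nat_lit 107253649717) (nat_lit 1) (nat_lit 5) (nat_lit 3) (nat_lit 4) (nat_lit 1) (nat_lit 4) (nat_lit 343) (nat_lit 226) (nat_lit 211)))) (XT.nd (nat_lit 156) (nat_lit 0) (nat_lit 0) (XT.nd (nat_lit 78) (nat_lit 0) (nat_lit 0) (XT.lf (nat_lit 0) (nat_lit 117494853770) (nat_lit 152) (nat_lit 499178190757) (nat_lit 0) (nat_lit 116782660248) (nat_lit 1) (nat_lit 5) (nat_lit 3) (nat_lit 4) (nat_lit 1) (nat_lit 4) (nat_lit 344) (nat_lit 226) (nat_lit 210)) (XT.lf (nat_lit 0) (nat_lit 127783634719) (nat_lit 152) (nat_lit 537220754559) (nat_lit 0) (nat_lit 127049694979) (nat_lit 1) (nat_lit 5) (nat_lit 3) (nat_lit 4) (nat_lit 1) (nat_lit 4) (nat_lit 345) (nat_lit 226) (nat_lit 209))) (XT.nd (nat_lit 78) (nat_lit 0) (nat_lit 0) (XT.lf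 (nat_lit 0) (nat_lit 138869670724) (nat_lit 152) (nat_lit 578357149019) (nat_lit 0) (nat_lit 138115595599) (nat_lit 1) (nat_lit 5) (nat_lit 3) (nat_lit 4) (nat_lit 1) (nat_lit 4) (nat_lit 346) (nat_lit 226) (nat_lit 208)) (XT.lf (nat_lit 0) (nat_lit 150818656815) (nat_lit 152) (nat_lit 622831145363) (nat_lit 0) (nat_lit 150045937813) (nat_lit 1) (nat_lit 5) (nat_lit 3) (nat_lit 4) (nat_lit 1) (nat_lit 4) (nat_lit 347) (nat_lit 226) (nat_lit 207))))) (XT.nd (nat_lit 312) (nat_lit 0) (nat_lit 0) (XT.nd (nat_lit 156) (nat_lit 0) (nat_lit 0) (XT.nd (nat_lit 78) (nat_lit 0) (nat_lit 0) (XT.lf (nat_lit 0) (nat_lit 163701401797) (nat_lit 152) (nat_lit 670906293199) (nat_lit 0) (nat_lit 162911419947) (nat_lit 1) (nat_lit 5) (nat_lit 3) (nat_lit 4) (nat_lit 1) (nat_lit 4) (nat_lit 348) (nat_lit 226) (nat_lit 206)) (XT.lf (nat_lit 0) (nat_lit 177594247863) (nat_lit 152) (nat_lit 722867482293)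 (nat_lit 0) (nat_lit 176788281894) (nat_lit 1) (nat_lit 5) (nat_lit 3) (nat_lit 4) (nat_lit 1) (nat_lit 4) (nat_lit 349) (nat_lit 226) (nat_lit 205))) (XT.nd (nat_lit 78) (nat_lit 0) (nat_lit 0) (XT.lf (nat_lit 0) (nat_lit 192579522989) (nat_lit 152) (nat_lit 779022630800) (nat_lit 0) (nat_lit 191758756910) (nat_lit 1) (nat_lit 5) (nat_lit 3) (nat_lit 4) (nat_lit 1) (nat_lit 4) (nat_lit 350) (nat_lit 226) (nat_lit 204)) (XT.lf (nat_lit 0) (nat_lit 208746028807) (nat_lit 152) (nat_lit 839704509973) (nat_lit 0) (nat_lit 207911558922) (nat_lit 1) (nat_lit 5) (nat_lit 3) (nat_lit 4) (nat_lit 1) (nat_lit 4) (nat_lit 351) (nat_lit 226) (nat_lit 203)))) (XT.nd (nat_lit 156) (nat_lit 0) (nat_lit 0) (XT.nd (nat_lit 78) (nat_lit 0) (nat_lit 0) (XT.lf (nat_lit 0) (nat_lit 226189566832) (nat_lit 152) (nat_lit 905272716132) (nat_lit 0) (nat_lit 225342408238) (nat_lit 1) (nat_lit 5) (nat_lit 3) (nat_lit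 4) (nat_lit 1) (nat_lit 4) (nat_lit 352) (nat_lit 226) (nat_lit 202)) (XT.lf (nat_lit 0) (nat_lit 245013506178) (nat_lit 152) (nat_lit 976115801610) (nat_lit 0) (nat_lit 244154598779) (nat_lit 1) (nat_lit 5) (nat_lit 3) (nat_lit 4) (nat_lit 1) (nat_lit 4) (nat_lit 353) (nat_lit 226) (nat_lit 201))) (XT.nd (nat_lit 78) (nat_lit 0) (nat_lit 0) (XT.lf (nat_lit 0) (nat_lit 265329396115) (nat_lit 152) (nat_lit 1052653577284) (nat_lit 0) (nat_lit 264459610194) (nat_lit 1) (nat_lit 5) (nat_lit 3) (nat_lit 4) (nat_lit 1) (nat_lit 4) (nat_lit 354) (nat_lit 226) (nat_lit 200)) (XT.lf (nat_lit 0) (nat_lit 287257627102) (nat_lit 152) (nat_lit 1135339600343) (nat_lit 0) (nat_lit 286377768475) (nat_lit 1) (nat_lit 5) (nat_lit 3) (nat_lit 4) (nat_lit 1) (nat_lit 4) (nat_lit 355) (nat_lit 226) (nat_lit 199))))))))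
noncomputable def xc8 : XT := (XT.nd (nat_lit 39390) (nat_lit 0) (nat_lit 0) (XT.nd (nat_lit 1170) (nat_lit 0) (nat_lit 0) (XT.nd (nat_lit 546) (nat_lit 0) (nat_lit 0) (XT.nd (nat_lit 234) (nat_lit 0) (nat_lit 0) (XT.nd (nat_lit 78) (nat_lit 0) (nat_lit 0) (XT.lf (nat_lit 0) (nat_lit 310928144213) (nat_lit 152) (nat_lit 1224663862034) (nat_lit 0) (nat_lit 310038959006) (nat_lit 1) (nat_lit 5) (nat_lit 3) (nat_lit 4) (nat_lit 1) (nat_lit 4) (nat_lit 356) (nat_lit 226) (nat_lit 198)) (XT.nd (nat_lit 78) (nat_lit 0) (nat_lit 0) (XT.lf (nat_lit 0) (nat_lit 336481217177) (nat_lit 152) (nat_lit 1321155691317) (nat_lit 0) (nat_lit 335583396248) (nat_lit 1) (nat_lit 5) (nat_lit 3) (nat_lit 4) (nat_lit 1) (nat_lit 4) (nat_lit 357) (nat_lit 226) (nat_lit 197)) (XT.lf (nat_lit 0) (nat_lit 364068271612) (nat_lit 152) (nat_lit 1425386891623) (nat_lit 0) (nat_lit 363162454644) (nat_lit 1) (nat_lit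 5) (nat_lit 3) (nat_lit 4) (nat_lit 1) (nat_lit 4) (nat_lit 358) (nat_lit 226) (nat_lit 196)))) (XT.nd (nat_lit 156) (nat_lit 0) (nat_lit 0) (XT.nd (nat_lit 78) (nat_lit 0) (nat_lit 0) (XT.lf (nat_lit 0) (nat_lit 393852786360) (nat_lit 152) (nat_lit 1537975129325) (nat_lit 0) (nat_lit 392939565653) (nat_lit 1) (nat_lit 5) (nat_lit 3) (nat_lit 4) (nat_lit 1) (nat_lit 4) (nat_lit 359) (nat_lit 226) (nat_lit 195)) (XT.lf (nat_lit 0) (nat_lit 426011262249) (nat_lit 152) (nat_lit 1659587593979) (nat_lit 0) (nat_lit 425091186227) (nat_lit 1) (nat_lit 5) (nat_lit 3) (nat_lit 4) (nat_lit 1) (nat_lit 4) (nat_lit 360) (nat_lit 226) (nat_lit 194))) (XT.nd (nat_lit 78) (nat_lit 0) (nat_lit 0) (XT.lf (nat_lit 0) (nat_lit 460734268024) (nat_lit 152) (nat_lit 1790944952044) (nat_lit 0) (nat_lit 459807844488) (nat_lit 1) (nat_lit 5) (nat_lit 3) (nat_lit 4) (nat_lit 1) (nat_lit 4) (nat_lit 361) (nat_lit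 226) (nat_lit 193)) (XT.lf (nat_lit 0) (nat_lit 498227569646) (nat_lit 152) (nat_lit 1932825617492) (nat_lit 0) (nat_lit 497295268783) (nat_lit 1) (nat_lit 5) (nat_lit 3) (nat_lit 4) (nat_lit 1) (nat_lit 4) (nat_lit 362) (nat_lit 226) (nat_lit 192))))) (XT.nd (nat_lit 312) (nat_lit 0) (nat_lit 0) (XT.nd (nat_lit 156) (nat_lit 0) (nat_lit 0) (XT.nd (nat_lit 78) (nat_lit 0) (nat_lit 0) (XT.lf (nat_lit 0) (nat_lit 538713349643) (nat_lit 152) (nat_lit 2086070364637) (nat_lit 0) (nat_lit 537775606810) (nat_lit 1) (nat_lit 5) (nat_lit 3) (nat_lit 4) (nat_lit 1) (nat_lit 4) (nat_lit 363) (nat_lit 226) (nat_lit 191)) (XT.lf (nat_lit 0) (nat_lit 582431523748) (nat_lit 152) (nat_lit 2251587310500) (nat_lit 0) (nat_lit 581488742055) (nat_lit 1) (nat_lit 5) (nat_lit 3) (nat_lit 4) (nat_lit 1) (nat_lit 4) (nat_lit 364) (nat_lit 226) (nat_lit 190))) (XT.nd (nat_lit 78) (nat_lit 0) (nat_lit 0) (XT.lf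 (nat_lit 0) (nat_lit 629641162623) (nat_lit 152) (nat_lit 2430357296241) (nat_lit 0) (nat_lit 628693715317) (nat_lit 1) (nat_lit 5) (nat_lit 3) (nat_lit 4) (nat_lit 1) (nat_lit 4) (nat_lit 365) (nat_lit 226) (nat_lit 189)) (XT.lf (nat_lit 0) (nat_lit 680622027090) (nat_lit 152) (nat_lit 2623439699553) (nat_lit 0) (nat_lit 679670259774) (nat_lit 1) (nat_lit 5) (nat_lit 3) (nat_lit 4) (nat_lit 1) (nat_lit 4) (nat_lit 366) (nat_lit 226) (nat_lit 188)))) (XT.nd (nat_lit 156) (nat_lit 0) (nat_lit 0) (XT.nd (nat_lit 78) (nat_lit 0) (nat_lit 0) (XT.lf (nat_lit 0) (nat_lit 735676225977) (nat_lit 152) (nat_lit 2831978712456) (nat_lit 0) (nat_lit 734720458650) (nat_lit 1) (nat_lit 5) (nat_lit 3) (nat_lit 4) (nat_lit 1) (nat_lit 4) (nat_lit 367) (nat_lit 226) (nat_lit 187)) (XT.lf (nat_lit 0) (nat_lit 795130006387) (nat_lit 152) (nat_lit 3057210121693) (nat_lit 0) (nat_lit 794170535347) (nat_lit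 1) (nat_lit 5) (nat_lit 3) (nat_lit 4) (nat_lit 1) (nat_lit 4) (nat_lit 368) (nat_lit 226) (nat_lit 186))) (XT.nd (nat_lit 78) (nat_lit 0) (nat_lit 0) (XT.lf (nat_lit 0) (nat_lit 859335687019) (nat_lit 152) (nat_lit 3300468631912) (nat_lit 0) (nat_lit 858372786615) (nat_lit 1) (nat_lit 5) (nat_lit 3) (nat_lit 4) (nat_lit 1) (nat_lit 4) (nat_lit 369) (nat_lit 226) (nat_lit 185)) (XT.lf (nat_lit 0) (nat_lit 928673745981) (nat_lit 152) (nat_lit 3563195775025) (nat_lit 0) (nat_lit 927707670239) (nat_lit 1) (nat_lit 5) (nat_lit 3) (nat_lit 4) (nat_lit 1) (nat_lit 4) (nat_lit 370) (nat_lit 226) (nat_lit 184)))))) (XT.nd (nat_lit 37596) (nat_lit 0) (nat_lit 0) (XT.nd (nat_lit 37284) (nat_lit 0) (nat_lit 0) (XT.nd (nat_lit 37128) (nat_lit 0) (nat_lit 0) (XT.lf (nat_lit 0) (nat_lit 1003555075473) (nat_lit 152) (nat_lit 3846948452620) (nat_lit 0) (nat_lit 1002586059605) (nat_lit 1) (nat_lit 5)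 (nat_lit 3) (nat_lit 4) (nat_lit 1) (nat_lit 4) (nat_lit 371) (nat_lit 226) (nat_lit 183)) (XT.nd (nat_lit 78) (nat_lit 0) (nat_lit 0) (XT.lf (nat_lit 0) (nat_lit 7993325361) (nat_lit 152) (nat_lit 76360380482) (nat_lit 0) (nat_lit 7993325361) (nat_lit 1) (nat_lit 5) (nat_lit 3) (nat_lit 4) (nat_lit 1) (nat_lit 4) (nat_lit 326) (nat_lit 227) (nat_lit 227)) (XT.lf (nat_lit 0) (nat_lit 19140140351) (nat_lit 152) (nat_lit 161111830948) (nat_lit 0) (nat_lit 19059678955) (nat_lit 1) (nat_lit 5) (nat_lit 3) (nat_lit 4) (nat_lit 1) (nat_lit 4) (nat_lit 327) (nat_lit 227) (nat_lit 226)))) (XT.nd (nat_lit 156) (nat_lit 0) (nat_lit 0) (XT.nd (nat_lit 78) (nat_lit 0) (nat_lit 0) (XT.lf (nat_lit 0) (nat_lit 22450273234) (nat_lit 152) (nat_lit 170360761988) (nat_lit 0) (nat_lit 22295310544) (nat_lit 1) (nat_lit 5) (nat_lit 3) (nat_lit 4) (nat_lit 1) (nat_lit 4) (nat_lit 328) (nat_lit 227) (nat_lit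 225)) (XT.lf (nat_lit 0) (nat_lit 25936664971) (nat_lit 152) (nat_lit 180522362565) (nat_lit 0) (nat_lit 25712719603) (nat_lit 1) (nat_lit 5) (nat_lit 3) (nat_lit 4) (nat_lit 1) (nat_lit 4) (nat_lit 329) (nat_lit 227) (nat_lit 224))) (XT.nd (nat_lit 78) (nat_lit 0) (nat_lit 0) (XT.lf (nat_lit 0) (nat_lit 29619975664) (nat_lit 152) (nat_lit 191656849572) (nat_lit 0) (nat_lit 29332157445) (nat_lit 1) (nat_lit 5) (nat_lit 3) (nat_lit 4) (nat_lit 1) (nat_lit 4) (nat_lit 330) (nat_lit 227) (nat_lit 223)) (XT.lf (nat_lit 0) (nat_lit 33522032337) (nat_lit 152) (nat_lit 203830205154) (nat_lit 0) (nat_lit 33175072590) (nat_lit 1) (nat_lit 5) (nat_lit 3) (nat_lit 4) (nat_lit 1) (nat_lit 4) (nat_lit 331) (nat_lit 227) (nat_lit 222))))) (XT.nd (nat_lit 312) (nat_lit 0) (nat_lit 0) (XT.nd (nat_lit 156) (nat_lit 0) (nat_lit 0) (XT.nd (nat_lit 78) (nat_lit 0) (nat_lit 0) (XT.lf (nat_lit 0) (nat_lit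 37665958290) (nat_lit 152) (nat_lit 217114567714) (nat_lit 0) (nat_lit 37264237869) (nat_lit 1) (nat_lit 5) (nat_lit 3) (nat_lit 4) (nat_lit 1) (nat_lit 4) (nat_lit 332) (nat_lit 227) (nat_lit 221)) (XT.lf (nat_lit 0) (nat_lit 42076310121) (nat_lit 152) (nat_lit 231588659401) (nat_lit 0) (nat_lit 41623885371) (nat_lit 1) (nat_lit 5) (nat_lit 3) (nat_lit 4) (nat_lit 1) (nat_lit 4) (nat_lit 333) (nat_lit 227) (nat_lit 220))) (XT.nd (nat_lit 78) (nat_lit 0) (nat_lit 0) (XT.lf (nat_lit 0) (nat_lit 46779223248) (nat_lit 152) (nat_lit 247338252611) (nat_lit 0) (nat_lit 46279850047) (nat_lit 1) (nat_lit 5) (nat_lit 3) (nat_lit 4) (nat_lit 1) (nat_lit 4) (nat_lit 334) (nat_lit 227) (nat_lit 219)) (XT.lf (nat_lit 0) (nat_lit 51802566786) (nat_lit 152) (nat_lit 264456678265) (nat_lit 0) (nat_lit 51259722796) (nat_lit 1) (nat_lit 5) (nat_lit 3) (nat_lit 4) (nat_lit 1) (nat_lit 4) (nat_lit 335)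 (nat_lit 227) (nat_lit 218)))) (XT.nd (nat_lit 156) (nat_lit 0) (nat_lit 0) (XT.nd (nat_lit 78) (nat_lit 0) (nat_lit 0) (XT.lf (nat_lit 0) (nat_lit 57176108697) (nat_lit 152) (nat_lit 283045378886) (nat_lit 0) (nat_lit 56593013976) (nat_lit 1) (nat_lit 5) (nat_lit 3) (nat_lit 4) (nat_lit 1) (nat_lit 4) (nat_lit 336) (nat_lit 227) (nat_lit 217)) (XT.lf (nat_lit 0) (nat_lit 62931692192) (nat_lit 152) (nat_lit 303214509737) (nat_lit 0) (nat_lit 62311328276) (nat_lit 1) (nat_lit 5) (nat_lit 3) (nat_lit 4) (nat_lit 1) (nat_lit 4) (nat_lit 337) (nat_lit 227) (nat_lit 216))) (XT.nd (nat_lit 78) (nat_lit 0) (nat_lit 0) (XT.lf (nat_lit 0) (nat_lit 69103424432) (nat_lit 152) (nat_lit 325083591594) (nat_lit 0) (nat_lit 68448552003) (nat_lit 1) (nat_lit 5) (nat_lit 3) (nat_lit 4) (nat_lit 1) (nat_lit 4) (nat_lit 338) (nat_lit 227) (nat_lit 215)) (XT.lf (nat_lit 0) (nat_lit 75727878646) (nat_lit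 152) (nat_lit 348782219015) (nat_lit 0) (nat_lit 75041053889) (nat_lit 1) (nat_lit 5) (nat_lit 3) (nat_lit 4) (nat_lit 1) (nat_lit 4) (nat_lit 339) (nat_lit 227) (nat_lit 214))))))) (XT.nd (nat_lit 1170) (nat_lit 0) (nat_lit 0) (XT.nd (nat_lit 546) (nat_lit 0) (nat_lit 0) (XT.nd (nat_lit 234) (nat_lit 0) (nat_lit 0) (XT.nd (nat_lit 78) (nat_lit 0) (nat_lit 0) (XT.lf (nat_lit 0) (nat_lit 82844310858) (nat_lit 152) (nat_lit 374450828312) (nat_lit 0) (nat_lit 82127900613) (nat_lit 1) (nat_lit 5) (nat_lit 3) (nat_lit 4) (nat_lit 1) (nat_lit 4) (nat_lit 340) (nat_lit 227) (nat_lit 213)) (XT.nd (nat_lit 78) (nat_lit 0) (nat_lit 0) (XT.lf (nat_lit 0) (nat_lit 90494892519) (nat_lit 152) (nat_lit 402241529762) (nat_lit 0) (nat_lit 89751088303) (nat_lit 1) (nat_lit 5) (nat_lit 3) (nat_lit 4) (nat_lit 1) (nat_lit 4) (nat_lit 341) (nat_lit 227) (nat_lit 212)) (XT.lf (nat_lit 0) (nat_lit 98724960409)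 (nat_lit 152) (nat_lit 432319009002) (nat_lit 0) (nat_lit 97955791406) (nat_lit 1) (nat_lit 5) (nat_lit 3) (nat_lit 4) (nat_lit 1) (nat_lit 4) (nat_lit 342) (nat_lit 227) (nat_lit 211)))) (XT.nd (nat_lit 156) (nat_lit 0) (nat_lit 0) (XT.nd (nat_lit 78) (nat_lit 0) (nat_lit 0) (XT.lf (nat_lit 0) (nat_lit 107583285301) (nat_lit 152) (nat_lit 464861502947) (nat_lit 0) (nat_lit 106790630383) (nat_lit 1) (nat_lit 5) (nat_lit 3) (nat_lit 4) (nat_lit 1) (nat_lit 4) (nat_lit 343) (nat_lit 227) (nat_lit 210)) (XT.lf (nat_lit 0) (nat_lit 117122360971) (nat_lit 152) (nat_lit 500061856006) (nat_lit 0) (nat_lit 116307959836) (nat_lit 1) (nat_lit 5) (nat_lit 3) (nat_lit 4) (nat_lit 1) (nat_lit 4) (nat_lit 344) (nat_lit 227) (nat_lit 209))) (XT.nd (nat_lit 78) (nat_lit 0) (nat_lit 0) (XT.lf (nat_lit 0) (nat_lit 127398715276) (nat_lit 152) (nat_lit 538128662862) (nat_lit 0) (nat_lit 126564178754) (nat_lit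 1) (nat_lit 5) (nat_lit 3) (nat_lit 4) (nat_lit 1) (nat_lit 4) (nat_lit 345) (nat_lit 227) (nat_lit 208)) (XT.lf (nat_lit 0) (nat_lit 138473245130) (nat_lit 152) (nat_lit 579287504595) (nat_lit 0) (nat_lit 137620064732) (nat_lit 1) (nat_lit 5) (nat_lit 3) (nat_lit 4) (nat_lit 1) (nat_lit 4) (nat_lit 346) (nat_lit 227) (nat_lit 207))))) (XT.nd (nat_lit 312) (nat_lit 0) (nat_lit 0) (XT.nd (nat_lit 156) (nat_lit 0) (nat_lit 0) (XT.nd (nat_lit 78) (nat_lit 0) (nat_lit 0) (XT.lf (nat_lit 0) (nat_lit 150411577377) (nat_lit 152) (nat_lit 623782285451) (nat_lit 0) (nat_lit 149541134130) (nat_lit 1) (nat_lit 5) (nat_lit 3) (nat_lit 4) (nat_lit 1) (nat_lit 4) (nat_lit 347) (nat_lit 227) (nat_lit 206)) (XT.lf (nat_lit 0) (nat_lit 163284457688) (nat_lit 152) (nat_lit 671876678205) (nat_lit 0) (nat_lit 162398030323) (nat_lit 1) (nat_lit 5) (nat_lit 3) (nat_lit 4) (nat_lit 1) (nat_lit 4) (nat_lit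 348) (nat_lit 227) (nat_lit 205))) (XT.nd (nat_lit 78) (nat_lit 0) (nat_lit 0) (XT.lf (nat_lit 0) (nat_lit 177168169800) (nat_lit 152) (nat_lit 723855686668) (nat_lit 0) (nat_lit 176266942325) (nat_lit 1) (nat_lit 5) (nat_lit 3) (nat_lit 4) (nat_lit 1) (nat_lit 4) (nat_lit 349) (nat_lit 227) (nat_lit 204)) (XT.lf (nat_lit 0) (nat_lit 192144987562) (nat_lit 152) (nat_lit 780027334591) (nat_lit 0) (nat_lit 191230056281) (nat_lit 1) (nat_lit 5) (nat_lit 3) (nat_lit 4) (nat_lit 1) (nat_lit 4) (nat_lit 350) (nat_lit 227) (nat_lit 203)))) (XT.nd (nat_lit 156) (nat_lit 0) (nat_lit 0) (XT.nd (nat_lit 78) (nat_lit 0) (nat_lit 0) (XT.lf (nat_lit 0) (nat_lit 208303662486) (nat_lit 152) (nat_lit 840724491001) (nat_lit 0) (nat_lit 207376042496) (nat_lit 1) (nat_lit 5) (nat_lit 3) (nat_lit 4) (nat_lit 1) (nat_lit 4) (nat_lit 351) (nat_lit 227) (nat_lit 202)) (XT.lf (nat_lit 0) (nat_lit 225739949683)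 (nat_lit 152) (nat_lit 906306842749) (nat_lit 0) (nat_lit 224800580889) (nat_lit 1) (nat_lit 5) (nat_lit 3) (nat_lit 4) (nat_lit 1) (nat_lit 4) (nat_lit 352) (nat_lit 227) (nat_lit 201))) (XT.nd (nat_lit 78) (nat_lit 0) (nat_lit 0) (XT.lf (nat_lit 0) (nat_lit 244557175300) (nat_lit 152) (nat_lit 977163025995) (nat_lit 0) (nat_lit 243606927983) (nat_lit 1) (nat_lit 5) (nat_lit 3) (nat_lit 4) (nat_lit 1) (nat_lit 4) (nat_lit 353) (nat_lit 227) (nat_lit 200)) (XT.lf (nat_lit 0) (nat_lit 264866848822) (nat_lit 152) (nat_lit 1053712929232) (nat_lit 0) (nat_lit 263906528798) (nat_lit 1) (nat_lit 5) (nat_lit 3) (nat_lit 4) (nat_lit 1) (nat_lit 4) (nat_lit 354) (nat_lit 227) (nat_lit 199)))))) (XT.nd (nat_lit 624) (nat_lit 0) (nat_lit 0) (XT.nd (nat_lit 312) (nat_lit 0) (nat_lit 0) (XT.nd (nat_lit 156) (nat_lit 0) (nat_lit 0) (XT.nd (nat_lit 78) (nat_lit 0) (nat_lit 0) (XT.lf (nat_lit 0) (nat_lit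 286789323869) (nat_lit 152) (nat_lit 1136410181516) (nat_lit 0) (nat_lit 285819677265) (nat_lit 1) (nat_lit 5) (nat_lit 3) (nat_lit 4) (nat_lit 1) (nat_lit 4) (nat_lit 355) (nat_lit 227) (nat_lit 198)) (XT.lf (nat_lit 0) (nat_lit 310454511404) (nat_lit 152) (nat_lit 1225744840638) (nat_lit 0) (nat_lit 309476229079) (nat_lit 1) (nat_lit 5) (nat_lit 3) (nat_lit 4) (nat_lit 1) (nat_lit 4) (nat_lit 356) (nat_lit 227) (nat_lit 197))) (XT.nd (nat_lit 78) (nat_lit 0) (nat_lit 0) (XT.lf (nat_lit 0) (nat_lit 336002649577) (nat_lit 152) (nat_lit 1322246297171) (nat_lit 0) (nat_lit 335016371213) (nat_lit 1) (nat_lit 5) (nat_lit 3) (nat_lit 4) (nat_lit 1) (nat_lit 4) (nat_lit 357) (nat_lit 227) (nat_lit 196)) (XT.lf (nat_lit 0) (nat_lit 363585134762) (nat_lit 152) (nat_lit 1426486411598) (nat_lit 0) (nat_lit 362591452658) (nat_lit 1) (nat_lit 5) (nat_lit 3) (nat_lit 4) (nat_lit 1) (nat_lit 4) (nat_lit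 358) (nat_lit 227) (nat_lit 195)))) (XT.nd (nat_lit 156) (nat_lit 0) (nat_lit 0) (XT.nd (nat_lit 78) (nat_lit 0) (nat_lit 0) (XT.lf (nat_lit 0) (nat_lit 393365418722) (nat_lit 152) (nat_lit 1539082903115) (nat_lit 0) (nat_lit 392364881303) (nat_lit 1) (nat_lit 5) (nat_lit 3) (nat_lit 4) (nat_lit 1) (nat_lit 4) (nat_lit 359) (nat_lit 227) (nat_lit 194)) (XT.lf (nat_lit 0) (nat_lit 425519977214) (nat_lit 152) (nat_lit 1660703010192) (nat_lit 0) (nat_lit 424513092282) (nat_lit 1) (nat_lit 5) (nat_lit 3) (nat_lit 4) (nat_lit 1) (nat_lit 4) (nat_lit 360) (nat_lit 227) (nat_lit 193))) (XT.nd (nat_lit 78) (nat_lit 0) (nat_lit 0) (XT.lf (nat_lit 0) (nat_lit 460239355770) (nat_lit 152) (nat_lit 1792067444573) (nat_lit 0) (nat_lit 459226593511) (nat_lit 1) (nat_lit 5) (nat_lit 3) (nat_lit 4) (nat_lit 1) (nat_lit 4) (nat_lit 361) (nat_lit 227) (nat_lit 192)) (XT.lf (nat_lit 0) (nat_lit 497729298856)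 (nat_lit 152) (nat_lit 1933954662166) (nat_lit 0) (nat_lit 496711094627) (nat_lit 1) (nat_lit 5) (nat_lit 3) (nat_lit 4) (nat_lit 1) (nat_lit 4) (nat_lit 362) (nat_lit 227) (nat_lit 191))))) (XT.nd (nat_lit 312) (nat_lit 0) (nat_lit 0) (XT.nd (nat_lit 156) (nat_lit 0) (nat_lit 0) (XT.nd (nat_lit 78) (nat_lit 0) (nat_lit 0) (XT.lf (nat_lit 0) (nat_lit 538211969098) (nat_lit 152) (nat_lit 2087205476112) (nat_lit 0) (nat_lit 537188726008) (nat_lit 1) (nat_lit 5) (nat_lit 3) (nat_lit 4) (nat_lit 1) (nat_lit 4) (nat_lit 363) (nat_lit 227) (nat_lit 190)) (XT.lf (nat_lit 0) (nat_lit 581927263800) (nat_lit 152) (nat_lit 2252728039383) (nat_lit 0) (nat_lit 580899355098) (nat_lit 1) (nat_lit 5) (nat_lit 3) (nat_lit 4) (nat_lit 1) (nat_lit 4) (nat_lit 364) (nat_lit 227) (nat_lit 189))) (XT.nd (nat_lit 78) (nat_lit 0) (nat_lit 0) (XT.lf (nat_lit 0) (nat_lit 629134236560) (nat_lit 152) (nat_lit 2431503226427)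 (nat_lit 0) (nat_lit 628102007847) (nat_lit 1) (nat_lit 5) (nat_lit 3) (nat_lit 4) (nat_lit 1) (nat_lit 4) (nat_lit 365) (nat_lit 227) (nat_lit 188)) (XT.lf (nat_lit 0) (nat_lit 680112632403) (nat_lit 152) (nat_lit 2624590445762) (nat_lit 0) (nat_lit 679076403680) (nat_lit 1) (nat_lit 5) (nat_lit 3) (nat_lit 4) (nat_lit 1) (nat_lit 4) (nat_lit 366) (nat_lit 227) (nat_lit 187)))) (XT.nd (nat_lit 156) (nat_lit 0) (nat_lit 0) (XT.nd (nat_lit 78) (nat_lit 0) (nat_lit 0) (XT.lf (nat_lit 0) (nat_lit 735164545527) (nat_lit 152) (nat_lit 2833133917945) (nat_lit 0) (nat_lit 734124613090) (nat_lit 1) (nat_lit 5) (nat_lit 3) (nat_lit 4) (nat_lit 1) (nat_lit 4) (nat_lit 367) (nat_lit 227) (nat_lit 186)) (XT.lf (nat_lit 0) (nat_lit 794616209489) (nat_lit 152) (nat_lit 3058369456145) (nat_lit 0) (nat_lit 793572847689) (nat_lit 1) (nat_lit 5) (nat_lit 3) (nat_lit 4) (nat_lit 1) (nat_lit 4) (nat_lit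 368) (nat_lit 227) (nat_lit 185))) (XT.nd (nat_lit 78) (nat_lit 0) (nat_lit 0) (XT.lf (nat_lit 0) (nat_lit 858819930448) (nat_lit 152) (nat_lit 3301631789477) (nat_lit 0) (nat_lit 857773393310) (nat_lit 1) (nat_lit 5) (nat_lit 3) (nat_lit 4) (nat_lit 1) (nat_lit 4) (nat_lit 369) (nat_lit 227) (nat_lit 184)) (XT.lf (nat_lit 0) (nat_lit 928156174897) (nat_lit 152) (nat_lit 3564362472510) (nat_lit 0) (nat_lit 927106697633) (nat_lit 1) (nat_lit 5) (nat_lit 3) (nat_lit 4) (nat_lit 1) (nat_lit 4) (nat_lit 370) (nat_lit 227) (nat_lit 183))))))))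
noncomputable def xc9 : XT := (XT.nd (nat_lit 2340) (nat_lit 0) (nat_lit 0) (XT.nd (nat_lit 1170) (nat_lit 0) (nat_lit 0) (XT.nd (nat_lit 546) (nat_lit 0) (nat_lit 0) (XT.nd (nat_lit 234) (nat_lit 0) (nat_lit 0) (XT.nd (nat_lit 78) (nat_lit 0) (nat_lit 0) (XT.lf (nat_lit 0) (nat_lit 5108098671) (nat_lit 152) (nat_lit 69106733956) (nat_lit 0) (nat_lit 5108098671) (nat_lit 1) (nat_lit 5) (nat_lit 3) (nat_lit 4) (nat_lit 1) (nat_lit 4) (nat_lit 324) (nat_lit 228) (nat_lit 228)) (XT.nd (nat_lit 78) (nat_lit 0) (nat_lit 0) (XT.lf (nat_lit 0) (nat_lit 13058015308) (nat_lit 152) (nat_lit 145137827180) (nat_lit 0) (nat_lit 12971117000) (nat_lit 1) (nat_lit 5) (nat_lit 3) (nat_lit 4) (nat_lit 1) (nat_lit 4) (nat_lit 325) (nat_lit 228) (nat_lit 227)) (XT.lf (nat_lit 0) (nat_lit 16023891919) (nat_lit 152) (nat_lit 152817636684) (nat_lit 0) (nat_lit 15856532215) (nat_lit 1) (nat_lit 5) (nat_lit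 3) (nat_lit 4) (nat_lit 1) (nat_lit 4) (nat_lit 326) (nat_lit 228) (nat_lit 226)))) (XT.nd (nat_lit 156) (nat_lit 0) (nat_lit 0) (XT.nd (nat_lit 78) (nat_lit 0) (nat_lit 0) (XT.lf (nat_lit 0) (nat_lit 19131402742) (nat_lit 152) (nat_lit 161298406406) (nat_lit 0) (nat_lit 18889541745) (nat_lit 1) (nat_lit 5) (nat_lit 3) (nat_lit 4) (nat_lit 1) (nat_lit 4) (nat_lit 327) (nat_lit 228) (nat_lit 225)) (XT.lf (nat_lit 0) (nat_lit 22398962656) (nat_lit 152) (nat_lit 170630392761) (nat_lit 0) (nat_lit 22088118980) (nat_lit 1) (nat_lit 5) (nat_lit 3) (nat_lit 4) (nat_lit 1) (nat_lit 4) (nat_lit 328) (nat_lit 228) (nat_lit 224))) (XT.nd (nat_lit 78) (nat_lit 0) (nat_lit 0) (XT.lf (nat_lit 0) (nat_lit 25845934978) (nat_lit 152) (nat_lit 180868896407) (nat_lit 0) (nat_lit 25471218451) (nat_lit 1) (nat_lit 5) (nat_lit 3) (nat_lit 4) (nat_lit 1) (nat_lit 4) (nat_lit 329) (nat_lit 228) (nat_lit 223))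 (XT.lf (nat_lit 0) (nat_lit 29492746211) (nat_lit 152) (nat_lit 192074589960) (nat_lit 0) (nat_lit 29058888156) (nat_lit 1) (nat_lit 5) (nat_lit 3) (nat_lit 4) (nat_lit 1) (nat_lit 4) (nat_lit 330) (nat_lit 228) (nat_lit 222))))) (XT.nd (nat_lit 312) (nat_lit 0) (nat_lit 0) (XT.nd (nat_lit 156) (nat_lit 0) (nat_lit 0) (XT.nd (nat_lit 78) (nat_lit 0) (nat_lit 0) (XT.lf (nat_lit 0) (nat_lit 33361007089) (nat_lit 152) (nat_lit 204313877528) (nat_lit 0) (nat_lit 32872388360) (nat_lit 1) (nat_lit 5) (nat_lit 3) (nat_lit 4) (nat_lit 1) (nat_lit 4) (nat_lit 331) (nat_lit 228) (nat_lit 221)) (XT.lf (nat_lit 0) (nat_lit 37473640639) (nat_lit 152) (nat_lit 217659288224) (nat_lit 0) (nat_lit 36934317582) (nat_lit 1) (nat_lit 5) (nat_lit 3) (nat_lit 4) (nat_lit 1) (nat_lit 4) (nat_lit 332) (nat_lit 228) (nat_lit 220))) (XT.nd (nat_lit 78) (nat_lit 0) (nat_lit 0) (XT.lf (nat_lit 0) (nat_lit 41855018023)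 (nat_lit 152) (nat_lit 232189905962) (nat_lit 0) (nat_lit 41268746513) (nat_lit 1) (nat_lit 5) (nat_lit 3) (nat_lit 4) (nat_lit 1) (nat_lit 4) (nat_lit 333) (nat_lit 228) (nat_lit 219)) (XT.lf (nat_lit 0) (nat_lit 46531102958) (nat_lit 152) (nat_lit 247991838108) (nat_lit 0) (nat_lit 45901360660) (nat_lit 1) (nat_lit 5) (nat_lit 3) (nat_lit 4) (nat_lit 1) (nat_lit 4) (nat_lit 334) (nat_lit 228) (nat_lit 218)))) (XT.nd (nat_lit 156) (nat_lit 0) (nat_lit 0) (XT.nd (nat_lit 78) (nat_lit 0) (nat_lit 0) (XT.lf (nat_lit 0) (nat_lit 51529605578) (nat_lit 152) (nat_lit 265158725740) (nat_lit 0) (nat_lit 50859612549) (nat_lit 1) (nat_lit 5) (nat_lit 3) (nat_lit 4) (nat_lit 1) (nat_lit 4) (nat_lit 335) (nat_lit 228) (nat_lit 217)) (XT.lf (nat_lit 0) (nat_lit 56880146638) (nat_lit 152) (nat_lit 283792298564) (nat_lit 0) (nat_lit 56172884414) (nat_lit 1) (nat_lit 5) (nat_lit 3) (nat_lit 4) (nat_lit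 1) (nat_lit 4) (nat_lit 336) (nat_lit 228) (nat_lit 216))) (XT.nd (nat_lit 78) (nat_lit 0) (nat_lit 0) (XT.lf (nat_lit 0) (nat_lit 62614433049) (nat_lit 152) (nat_lit 304002977750) (nat_lit 0) (nat_lit 61872662312) (nat_lit 1) (nat_lit 5) (nat_lit 3) (nat_lit 4) (nat_lit 1) (nat_lit 4) (nat_lit 337) (nat_lit 228) (nat_lit 215)) (XT.lf (nat_lit 0) (nat_lit 68766445767) (nat_lit 152) (nat_lit 325910530288) (nat_lit 0) (nat_lit 67992722703) (nat_lit 1) (nat_lit 5) (nat_lit 3) (nat_lit 4) (nat_lit 1) (nat_lit 4) (nat_lit 338) (nat_lit 228) (nat_lit 214)))))) (XT.nd (nat_lit 546) (nat_lit 0) (nat_lit 0) (XT.nd (nat_lit 234) (nat_lit 0) (nat_lit 0) (XT.nd (nat_lit 78) (nat_lit 0) (nat_lit 0) (XT.lf (nat_lit 0) (nat_lit 75372641165) (nat_lit 152) (nat_lit 349644778710) (nat_lit 0) (nat_lit 74569332611) (nat_lit 1) (nat_lit 5) (nat_lit 3) (nat_lit 4) (nat_lit 1) (nat_lit 4) (nat_lit 339) (nat_lit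 228) (nat_lit 213)) (XT.nd (nat_lit 78) (nat_lit 0) (nat_lit 0) (XT.lf (nat_lit 0) (nat_lit 82472167065) (nat_lit 152) (nat_lit 375346370415) (nat_lit 0) (nat_lit 81641464541) (nat_lit 1) (nat_lit 5) (nat_lit 3) (nat_lit 4) (nat_lit 1) (nat_lit 4) (nat_lit 340) (nat_lit 228) (nat_lit 212)) (XT.lf (nat_lit 0) (nat_lit 90107094734) (nat_lit 152) (nat_lit 403167611131) (nat_lit 0) (nat_lit 89251027422) (nat_lit 1) (nat_lit 5) (nat_lit 3) (nat_lit 4) (nat_lit 1) (nat_lit 4) (nat_lit 341) (nat_lit 228) (nat_lit 211)))) (XT.nd (nat_lit 156) (nat_lit 0) (nat_lit 0) (XT.nd (nat_lit 78) (nat_lit 0) (nat_lit 0) (XT.lf (nat_lit 0) (nat_lit 98322668187) (nat_lit 152) (nat_lit 433273367470) (nat_lit 0) (nat_lit 97443114961) (nat_lit 1) (nat_lit 5) (nat_lit 3) (nat_lit 4) (nat_lit 1) (nat_lit 4) (nat_lit 342) (nat_lit 228) (nat_lit 210)) (XT.lf (nat_lit 0) (nat_lit 107167572303) (nat_lit 152) (nat_lit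 465842043914) (nat_lit 0) (nat_lit 106266272860) (nat_lit 1) (nat_lit 5) (nat_lit 3) (nat_lit 4) (nat_lit 1) (nat_lit 4) (nat_lit 343) (nat_lit 228) (nat_lit 209))) (XT.nd (nat_lit 78) (nat_lit 0) (nat_lit 0) (XT.lf (nat_lit 0) (nat_lit 116694221330) (nat_lit 152) (nat_lit 501066640028) (nat_lit 0) (nat_lit 115772786500) (nat_lit 1) (nat_lit 5) (nat_lit 3) (nat_lit 4) (nat_lit 1) (nat_lit 4) (nat_lit 344) (nat_lit 228) (nat_lit 208)) (XT.lf (nat_lit 0) (nat_lit 126959069483) (nat_lit 152) (nat_lit 539155894157) (nat_lit 0) (nat_lit 126018990777) (nat_lit 1) (nat_lit 5) (nat_lit 3) (nat_lit 4) (nat_lit 1) (nat_lit 4) (nat_lit 345) (nat_lit 228) (nat_lit 207))))) (XT.nd (nat_lit 312) (nat_lit 0) (nat_lit 0) (XT.nd (nat_lit 156) (nat_lit 0) (nat_lit 0) (XT.nd (nat_lit 78) (nat_lit 0) (nat_lit 0) (XT.lf (nat_lit 0) (nat_lit 138022945493) (nat_lit 152) (nat_lit 580335520402) (nat_lit 0) (nat_lit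 137065603938) (nat_lit 1) (nat_lit 5) (nat_lit 3) (nat_lit 4) (nat_lit 1) (nat_lit 4) (nat_lit 346) (nat_lit 228) (nat_lit 206)) (XT.lf (nat_lit 0) (nat_lit 149951413069) (nat_lit 152) (nat_lit 624849546176) (nat_lit 0) (nat_lit 148978087396) (nat_lit 1) (nat_lit 5) (nat_lit 3) (nat_lit 4) (nat_lit 1) (nat_lit 4) (nat_lit 347) (nat_lit 228) (nat_lit 205))) (XT.nd (nat_lit 78) (nat_lit 0) (nat_lit 0) (XT.lf (nat_lit 0) (nat_lit 162815159426) (nat_lit 152) (nat_lit 672961758299) (nat_lit 0) (nat_lit 161827033643) (nat_lit 1) (nat_lit 5) (nat_lit 3) (nat_lit 4) (nat_lit 1) (nat_lit 4) (nat_lit 348) (nat_lit 228) (nat_lit 204)) (XT.lf (nat_lit 0) (nat_lit 176690414173) (nat_lit 152) (nat_lit 724957266177) (nat_lit 0) (nat_lit 175688584584) (nat_lit 1) (nat_lit 5) (nat_lit 3) (nat_lit 4) (nat_lit 1) (nat_lit 4) (nat_lit 349) (nat_lit 228) (nat_lit 203)))) (XT.nd (nat_lit 156) (nat_lit 0)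 (nat_lit 0) (XT.nd (nat_lit 78) (nat_lit 0) (nat_lit 0) (XT.lf (nat_lit 0) (nat_lit 191659401042) (nat_lit 152) (nat_lit 781144191337) (nat_lit 0) (nat_lit 190644882743) (nat_lit 1) (nat_lit 5) (nat_lit 3) (nat_lit 4) (nat_lit 1) (nat_lit 4) (nat_lit 350) (nat_lit 228) (nat_lit 202)) (XT.lf (nat_lit 0) (nat_lit 207810825138) (nat_lit 152) (nat_lit 841855493336) (nat_lit 0) (nat_lit 206784558036) (nat_lit 1) (nat_lit 5) (nat_lit 3) (nat_lit 4) (nat_lit 1) (nat_lit 4) (nat_lit 351) (nat_lit 228) (nat_lit 201))) (XT.nd (nat_lit 78) (nat_lit 0) (nat_lit 0) (XT.lf (nat_lit 0) (nat_lit 225240398607) (nat_lit 152) (nat_lit 907450942853) (nat_lit 0) (nat_lit 224203252981) (nat_lit 1) (nat_lit 5) (nat_lit 3) (nat_lit 4) (nat_lit 1) (nat_lit 4) (nat_lit 352) (nat_lit 228) (nat_lit 200)) (XT.lf (nat_lit 0) (nat_lit 244051407808) (nat_lit 152) (nat_lit 978319253662) (nat_lit 0) (nat_lit 243004189476)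 (nat_lit 1) (nat_lit 5) (nat_lit 3) (nat_lit 4) (nat_lit 1) (nat_lit 4) (nat_lit 353) (nat_lit 228) (nat_lit 199))))))) (XT.nd (nat_lit 1170) (nat_lit 0) (nat_lit 0) (XT.nd (nat_lit 546) (nat_lit 0) (nat_lit 0) (XT.nd (nat_lit 234) (nat_lit 0) (nat_lit 0) (XT.nd (nat_lit 78) (nat_lit 0) (nat_lit 0) (XT.lf (nat_lit 0) (nat_lit 264355325389) (nat_lit 152) (nat_lit 1054880386124) (nat_lit 0) (nat_lit 263298780478) (nat_lit 1) (nat_lit 5) (nat_lit 3) (nat_lit 4) (nat_lit 1) (nat_lit 4) (nat_lit 354) (nat_lit 228) (nat_lit 198)) (XT.nd (nat_lit 78) (nat_lit 0) (nat_lit 0) (XT.lf (nat_lit 0) (nat_lit 286272470861) (nat_lit 152) (nat_lit 1137588035838) (nat_lit 0) (nat_lit 285207290228) (nat_lit 1) (nat_lit 5) (nat_lit 3) (nat_lit 4) (nat_lit 1) (nat_lit 4) (nat_lit 355) (nat_lit 228) (nat_lit 197)) (XT.lf (nat_lit 0) (nat_lit 309932723606) (nat_lit 152) (nat_lit 1226932322211) (nat_lit 0)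 (nat_lit 308859546934) (nat_lit 1) (nat_lit 5) (nat_lit 3) (nat_lit 4) (nat_lit 1) (nat_lit 4) (nat_lit 356) (nat_lit 228) (nat_lit 196)))) (XT.nd (nat_lit 156) (nat_lit 0) (nat_lit 0) (XT.nd (nat_lit 78) (nat_lit 0) (nat_lit 0) (XT.lf (nat_lit 0) (nat_lit 335476292528) (nat_lit 152) (nat_lit 1323442692865) (nat_lit 0) (nat_lit 334395712116) (nat_lit 1) (nat_lit 5) (nat_lit 3) (nat_lit 4) (nat_lit 1) (nat_lit 4) (nat_lit 357) (nat_lit 228) (nat_lit 195)) (XT.lf (nat_lit 0) (nat_lit 363054546924) (nat_lit 152) (nat_lit 1427691061107) (nat_lit 0) (nat_lit 361967111197) (nat_lit 1) (nat_lit 5) (nat_lit 3) (nat_lit 4) (nat_lit 1) (nat_lit 4) (nat_lit 358) (nat_lit 228) (nat_lit 194))) (XT.nd (nat_lit 78) (nat_lit 0) (nat_lit 0) (XT.lf (nat_lit 0) (nat_lit 392830913488) (nat_lit 152) (nat_lit 1540295195046) (nat_lit 0) (nat_lit 391737130247) (nat_lit 1) (nat_lit 5) (nat_lit 3) (nat_lit 4)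 (nat_lit 1) (nat_lit 4) (nat_lit 359) (nat_lit 228) (nat_lit 193)) (XT.lf (nat_lit 0) (nat_lit 424981844761) (nat_lit 152) (nat_lit 1661922378439) (nat_lit 0) (nat_lit 423882184193) (nat_lit 1) (nat_lit 5) (nat_lit 3) (nat_lit 4) (nat_lit 1) (nat_lit 4) (nat_lit 360) (nat_lit 228) (nat_lit 192))))) (XT.nd (nat_lit 312) (nat_lit 0) (nat_lit 0) (XT.nd (nat_lit 156) (nat_lit 0) (nat_lit 0) (XT.nd (nat_lit 78) (nat_lit 0) (nat_lit 0) (XT.lf (nat_lit 0) (nat_lit 459697864781) (nat_lit 152) (nat_lit 1793293364965) (nat_lit 0) (nat_lit 458592762244) (nat_lit 1) (nat_lit 5) (nat_lit 3) (nat_lit 4) (nat_lit 1) (nat_lit 4) (nat_lit 361) (nat_lit 228) (nat_lit 191)) (XT.lf (nat_lit 0) (nat_lit 497184698112) (nat_lit 152) (nat_lit 1935186649359) (nat_lit 0) (nat_lit 496074556714) (nat_lit 1) (nat_lit 5) (nat_lit 3) (nat_lit 4) (nat_lit 1) (nat_lit 4) (nat_lit 362) (nat_lit 228) (nat_lit 190))) (XT.nd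 (nat_lit 78) (nat_lit 0) (nat_lit 0) (XT.lf (nat_lit 0) (nat_lit 537664488950) (nat_lit 152) (nat_lit 2088443080714) (nat_lit 0) (nat_lit 536549681940) (nat_lit 1) (nat_lit 5) (nat_lit 3) (nat_lit 4) (nat_lit 1) (nat_lit 4) (nat_lit 363) (nat_lit 228) (nat_lit 189)) (XT.lf (nat_lit 0) (nat_lit 581377117538) (nat_lit 152) (nat_lit 2253970845288) (nat_lit 0) (nat_lit 580257990517) (nat_lit 1) (nat_lit 5) (nat_lit 3) (nat_lit 4) (nat_lit 1) (nat_lit 4) (nat_lit 364) (nat_lit 228) (nat_lit 188)))) (XT.nd (nat_lit 156) (nat_lit 0) (nat_lit 0) (XT.nd (nat_lit 78) (nat_lit 0) (nat_lit 0) (XT.lf (nat_lit 0) (nat_lit 628581621674) (nat_lit 152) (nat_lit 2432750848355) (nat_lit 0) (nat_lit 627458494643) (nat_lit 1) (nat_lit 5) (nat_lit 3) (nat_lit 4) (nat_lit 1) (nat_lit 4) (nat_lit 365) (nat_lit 228) (nat_lit 187)) (XT.lf (nat_lit 0) (nat_lit 679557731754) (nat_lit 152) (nat_lit 2625842526969)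 (nat_lit 0) (nat_lit 678430901010) (nat_lit 1) (nat_lit 5) (nat_lit 3) (nat_lit 4) (nat_lit 1) (nat_lit 4) (nat_lit 366) (nat_lit 228) (nat_lit 186))) (XT.nd (nat_lit 78) (nat_lit 0) (nat_lit 0) (XT.lf (nat_lit 0) (nat_lit 734607528430) (nat_lit 152) (nat_lit 2834390128115) (nat_lit 0) (nat_lit 733477268321) (nat_lit 1) (nat_lit 5) (nat_lit 3) (nat_lit 4) (nat_lit 1) (nat_lit 4) (nat_lit 367) (nat_lit 228) (nat_lit 185)) (XT.lf (nat_lit 0) (nat_lit 794057232719) (nat_lit 152) (nat_lit 3059629489429) (nat_lit 0) (nat_lit 792923797273) (nat_lit 1) (nat_lit 5) (nat_lit 3) (nat_lit 4) (nat_lit 1) (nat_lit 4) (nat_lit 368) (nat_lit 228) (nat_lit 184)))))) (XT.nd (nat_lit 37440) (nat_lit 0) (nat_lit 0) (XT.nd (nat_lit 37128) (nat_lit 0) (nat_lit 0) (XT.nd (nat_lit 36972) (nat_lit 0) (nat_lit 0) (XT.nd (nat_lit 78) (nat_lit 0) (nat_lit 0) (XT.lf (nat_lit 0) (nat_lit 858259139165) (nat_lit 152)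 (nat_lit 3302895362681) (nat_lit 0) (nat_lit 857122763593) (nat_lit 1) (nat_lit 5) (nat_lit 3) (nat_lit 4) (nat_lit 1) (nat_lit 4) (nat_lit 369) (nat_lit 228) (nat_lit 183)) (XT.lf (nat_lit 0) (nat_lit 927593703510) (nat_lit 152) (nat_lit 3565629323418) (nat_lit 0) (nat_lit 926454605598) (nat_lit 1) (nat_lit 5) (nat_lit 3) (nat_lit 4) (nat_lit 1) (nat_lit 4) (nat_lit 370) (nat_lit 228) (nat_lit 182))) (XT.nd (nat_lit 78) (nat_lit 0) (nat_lit 0) (XT.lf (nat_lit 0) (nat_lit 2494890668) (nat_lit 152) (nat_lit 63179102436) (nat_lit 0) (nat_lit 2494890668) (nat_lit 1) (nat_lit 5) (nat_lit 3) (nat_lit 4) (nat_lit 1) (nat_lit 4) (nat_lit 322) (nat_lit 229) (nat_lit 229)) (XT.lf (nat_lit 0) (nat_lit 7575447795) (nat_lit 152) (nat_lit 132003525643) (nat_lit 0) (nat_lit 7481597622) (nat_lit 1) (nat_lit 5) (nat_lit 3) (nat_lit 4) (nat_lit 1) (nat_lit 4) (nat_lit 323) (nat_lit 229) (nat_lit 228))))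 (XT.nd (nat_lit 156) (nat_lit 0) (nat_lit 0) (XT.nd (nat_lit 78) (nat_lit 0) (nat_lit 0) (XT.lf (nat_lit 0) (nat_lit 10256417836) (nat_lit 152) (nat_lit 138318093690) (nat_lit 0) (nat_lit 10075669355) (nat_lit 1) (nat_lit 5) (nat_lit 3) (nat_lit 4) (nat_lit 1) (nat_lit 4) (nat_lit 324) (nat_lit 229) (nat_lit 227)) (XT.lf (nat_lit 0) (nat_lit 13048578690) (nat_lit 152) (nat_lit 145339328675) (nat_lit 0) (nat_lit 12787368813) (nat_lit 1) (nat_lit 5) (nat_lit 3) (nat_lit 4) (nat_lit 1) (nat_lit 4) (nat_lit 325) (nat_lit 229) (nat_lit 226))) (XT.nd (nat_lit 78) (nat_lit 0) (nat_lit 0) (XT.lf (nat_lit 0) (nat_lit 15968476495) (nat_lit 152) (nat_lit 153108837919) (nat_lit 0) (nat_lit 15632765325) (nat_lit 1) (nat_lit 5) (nat_lit 3) (nat_lit 4) (nat_lit 1) (nat_lit 4) (nat_lit 326) (nat_lit 229) (nat_lit 225)) (XT.lf (nat_lit 0) (nat_lit 19033414349) (nat_lit 152) (nat_lit 161672662956) (nat_lit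 0) (nat_lit 18628720500) (nat_lit 1) (nat_lit 5) (nat_lit 3) (nat_lit 4) (nat_lit 1) (nat_lit 4) (nat_lit 327) (nat_lit 229) (nat_lit 224))))) (XT.nd (nat_lit 312) (nat_lit 0) (nat_lit 0) (XT.nd (nat_lit 156) (nat_lit 0) (nat_lit 0) (XT.nd (nat_lit 78) (nat_lit 0) (nat_lit 0) (XT.lf (nat_lit 0) (nat_lit 22261554847) (nat_lit 152) (nat_lit 171081552379) (nat_lit 0) (nat_lit 21792988147) (nat_lit 1) (nat_lit 5) (nat_lit 3) (nat_lit 4) (nat_lit 1) (nat_lit 4) (nat_lit 328) (nat_lit 229) (nat_lit 223)) (XT.lf (nat_lit 0) (nat_lit 25672027710) (nat_lit 152) (nat_lit 181391262571) (nat_lit 0) (nat_lit 25144319482) (nat_lit 1) (nat_lit 5) (nat_lit 3) (nat_lit 4) (nat_lit 1) (nat_lit 4) (nat_lit 329) (nat_lit 229) (nat_lit 222))) (XT.nd (nat_lit 78) (nat_lit 0) (nat_lit 0) (XT.lf (nat_lit 0) (nat_lit 29285043148) (nat_lit 152) (nat_lit 192662888110) (nat_lit 0) (nat_lit 28702574246) (nat_lit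 1) (nat_lit 5) (nat_lit 3) (nat_lit 4) (nat_lit 1) (nat_lit 4) (nat_lit 330) (nat_lit 229) (nat_lit 221)) (XT.lf (nat_lit 0) (nat_lit 33122011623) (nat_lit 152) (nat_lit 204963223814) (nat_lit 0) (nat_lit 32488838393) (nat_lit 1) (nat_lit 5) (nat_lit 3) (nat_lit 4) (nat_lit 1) (nat_lit 4) (nat_lit 331) (nat_lit 229) (nat_lit 220)))) (XT.nd (nat_lit 156) (nat_lit 0) (nat_lit 0) (XT.nd (nat_lit 78) (nat_lit 0) (nat_lit 0) (XT.lf (nat_lit 0) (nat_lit 37205670726) (nat_lit 152) (nat_lit 218365160561) (nat_lit 0) (nat_lit 36525549044) (nat_lit 1) (nat_lit 5) (nat_lit 3) (nat_lit 4) (nat_lit 1) (nat_lit 4) (nat_lit 332) (nat_lit 229) (nat_lit 219)) (XT.lf (nat_lit 0) (nat_lit 41560219918) (nat_lit 152) (nat_lit 232948117236) (nat_lit 0) (nat_lit 40836627447) (nat_lit 1) (nat_lit 5) (nat_lit 3) (nat_lit 4) (nat_lit 1) (nat_lit 4) (nat_lit 333) (nat_lit 229) (nat_lit 218))) (XT.nd (nat_lit 78)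 (nat_lit 0) (nat_lit 0) (XT.lf (nat_lit 0) (nat_lit 46211463934) (nat_lit 152) (nat_lit 248798511360) (nat_lit 0) (nat_lit 45447620733) (nat_lit 1) (nat_lit 5) (nat_lit 3) (nat_lit 4) (nat_lit 1) (nat_lit 4) (nat_lit 334) (nat_lit 229) (nat_lit 217)) (XT.lf (nat_lit 0) (nat_lit 51186965704) (nat_lit 152) (nat_lit 266010271195) (nat_lit 0) (nat_lit 50385853307) (nat_lit 1) (nat_lit 5) (nat_lit 3) (nat_lit 4) (nat_lit 1) (nat_lit 4) (nat_lit 335) (nat_lit 229) (nat_lit 216))))))))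
noncomputable def xc10 : XT := (XT.nd (nat_lit 2340) (nat_lit 0) (nat_lit 0) (XT.nd (nat_lit 1170) (nat_lit 0) (nat_lit 0) (XT.nd (nat_lit 546) (nat_lit 0) (nat_lit 0) (XT.nd (nat_lit 234) (nat_lit 0) (nat_lit 0) (XT.nd (nat_lit 78) (nat_lit 0) (nat_lit 0) (XT.lf (nat_lit 0) (nat_lit 56516209680) (nat_lit 152) (nat_lit 284685392353) (nat_lit 0) (nat_lit 55680588770) (nat_lit 1) (nat_lit 5) (nat_lit 3) (nat_lit 4) (nat_lit 1) (nat_lit 4) (nat_lit 336) (nat_lit 229) (nat_lit 215)) (XT.nd (nat_lit 78) (nat_lit 0) (nat_lit 0) (XT.lf (nat_lit 0) (nat_lit 62230776570) (nat_lit 152) (nat_lit 304934542221) (nat_lit 0) (nat_lit 61363203332) (nat_lit 1) (nat_lit 5) (nat_lit 3) (nat_lit 4) (nat_lit 1) (nat_lit 4) (nat_lit 337) (nat_lit 229) (nat_lit 214)) (XT.lf (nat_lit 0) (nat_lit 68364530471) (nat_lit 152) (nat_lit 326877715759) (nat_lit 0) (nat_lit 67467371745) (nat_lit 1) (nat_lit 5) (nat_lit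 3) (nat_lit 4) (nat_lit 1) (nat_lit 4) (nat_lit 338) (nat_lit 229) (nat_lit 213)))) (XT.nd (nat_lit 156) (nat_lit 0) (nat_lit 0) (XT.nd (nat_lit 78) (nat_lit 0) (nat_lit 0) (XT.lf (nat_lit 0) (nat_lit 74953819557) (nat_lit 152) (nat_lit 350644946589) (nat_lit 0) (nat_lit 74029266860) (nat_lit 1) (nat_lit 5) (nat_lit 3) (nat_lit 4) (nat_lit 1) (nat_lit 4) (nat_lit 339) (nat_lit 229) (nat_lit 212)) (XT.lf (nat_lit 0) (nat_lit 82037691465) (nat_lit 152) (nat_lit 376377077561) (nat_lit 0) (nat_lit 81087773981) (nat_lit 1) (nat_lit 5) (nat_lit 3) (nat_lit 4) (nat_lit 1) (nat_lit 4) (nat_lit 340) (nat_lit 229) (nat_lit 211))) (XT.nd (nat_lit 78) (nat_lit 0) (nat_lit 0) (XT.lf (nat_lit 0) (nat_lit 89658124697) (nat_lit 152) (nat_lit 404226595376) (nat_lit 0) (nat_lit 88684721298) (nat_lit 1) (nat_lit 5) (nat_lit 3) (nat_lit 4) (nat_lit 1) (nat_lit 4) (nat_lit 341) (nat_lit 229) (nat_lit 210))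 (XT.lf (nat_lit 0) (nat_lit 97860277374) (nat_lit 152) (nat_lit 434358534214) (nat_lit 0) (nat_lit 96865127758) (nat_lit 1) (nat_lit 5) (nat_lit 3) (nat_lit 4) (nat_lit 1) (nat_lit 4) (nat_lit 342) (nat_lit 229) (nat_lit 209))))) (XT.nd (nat_lit 312) (nat_lit 0) (nat_lit 0) (XT.nd (nat_lit 156) (nat_lit 0) (nat_lit 0) (XT.nd (nat_lit 78) (nat_lit 0) (nat_lit 0) (XT.lf (nat_lit 0) (nat_lit 106692754847) (nat_lit 152) (nat_lit 466951453713) (nat_lit 0) (nat_lit 105677469844) (nat_lit 1) (nat_lit 5) (nat_lit 3) (nat_lit 4) (nat_lit 1) (nat_lit 4) (nat_lit 343) (nat_lit 229) (nat_lit 208)) (XT.lf (nat_lit 0) (nat_lit 116207897722) (nat_lit 152) (nat_lit 502198497099) (nat_lit 0) (nat_lit 115173968843) (nat_lit 1) (nat_lit 5) (nat_lit 3) (nat_lit 4) (nat_lit 1) (nat_lit 4) (nat_lit 344) (nat_lit 229) (nat_lit 207))) (XT.nd (nat_lit 78) (nat_lit 0) (nat_lit 0) (XT.lf (nat_lit 0) (nat_lit 126462092031)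 (nat_lit 152) (nat_lit 540308535740) (nat_lit 0) (nat_lit 125410900304) (nat_lit 1) (nat_lit 5) (nat_lit 3) (nat_lit 4) (nat_lit 1) (nat_lit 4) (nat_lit 345) (nat_lit 229) (nat_lit 206)) (XT.lf (nat_lit 0) (nat_lit 137516103370) (nat_lit 152) (nat_lit 581507406903) (nat_lit 0) (nat_lit 136448927524) (nat_lit 1) (nat_lit 5) (nat_lit 3) (nat_lit 4) (nat_lit 1) (nat_lit 4) (nat_lit 346) (nat_lit 229) (nat_lit 205)))) (XT.nd (nat_lit 156) (nat_lit 0) (nat_lit 0) (XT.nd (nat_lit 78) (nat_lit 0) (nat_lit 0) (XT.lf (nat_lit 0) (nat_lit 149435436992) (nat_lit 152) (nat_lit 626039252046) (nat_lit 0) (nat_lit 148353461036) (nat_lit 1) (nat_lit 5) (nat_lit 3) (nat_lit 4) (nat_lit 1) (nat_lit 4) (nat_lit 347) (nat_lit 229) (nat_lit 204)) (XT.lf (nat_lit 0) (nat_lit 162290725985) (nat_lit 152) (nat_lit 674167963585) (nat_lit 0) (nat_lit 161195046223) (nat_lit 1) (nat_lit 5) (nat_lit 3) (nat_lit 4)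 (nat_lit 1) (nat_lit 4) (nat_lit 348) (nat_lit 229) (nat_lit 203))) (XT.nd (nat_lit 78) (nat_lit 0) (nat_lit 0) (XT.lf (nat_lit 0) (nat_lit 176158149838) (nat_lit 152) (nat_lit 726178748700) (nat_lit 0) (nat_lit 175049781367) (nat_lit 1) (nat_lit 5) (nat_lit 3) (nat_lit 4) (nat_lit 1) (nat_lit 4) (nat_lit 349) (nat_lit 229) (nat_lit 202)) (XT.lf (nat_lit 0) (nat_lit 191119885879) (nat_lit 152) (nat_lit 782379819449) (nat_lit 0) (nat_lit 189999768604) (nat_lit 1) (nat_lit 5) (nat_lit 3) (nat_lit 4) (nat_lit 1) (nat_lit 4) (nat_lit 350) (nat_lit 229) (nat_lit 201)))))) (XT.nd (nat_lit 546) (nat_lit 0) (nat_lit 0) (XT.nd (nat_lit 234) (nat_lit 0) (nat_lit 0) (XT.nd (nat_lit 78) (nat_lit 0) (nat_lit 0) (XT.lf (nat_lit 0) (nat_lit 207264596247) (nat_lit 152) (nat_lit 843104219216) (nat_lit 0) (nat_lit 206133600449) (nat_lit 1) (nat_lit 5) (nat_lit 3) (nat_lit 4) (nat_lit 1) (nat_lit 4) (nat_lit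 351) (nat_lit 229) (nat_lit 200)) (XT.nd (nat_lit 78) (nat_lit 0) (nat_lit 0) (XT.lf (nat_lit 0) (nat_lit 224687953299) (nat_lit 152) (nat_lit 908711796296) (nat_lit 0) (nat_lit 223546884795) (nat_lit 1) (nat_lit 5) (nat_lit 3) (nat_lit 4) (nat_lit 1) (nat_lit 4) (nat_lit 352) (nat_lit 229) (nat_lit 199)) (XT.lf (nat_lit 0) (nat_lit 243493206560) (nat_lit 152) (nat_lit 979591336330) (nat_lit 0) (nat_lit 242342811476) (nat_lit 1) (nat_lit 5) (nat_lit 3) (nat_lit 4) (nat_lit 1) (nat_lit 4) (nat_lit 353) (nat_lit 229) (nat_lit 198)))) (XT.nd (nat_lit 156) (nat_lit 0) (nat_lit 0) (XT.nd (nat_lit 78) (nat_lit 0) (nat_lit 0) (XT.lf (nat_lit 0) (nat_lit 263791794567) (nat_lit 152) (nat_lit 1056162866223) (nat_lit 0) (nat_lit 262632763760) (nat_lit 1) (nat_lit 5) (nat_lit 3) (nat_lit 4) (nat_lit 1) (nat_lit 4) (nat_lit 354) (nat_lit 229) (nat_lit 197)) (XT.lf (nat_lit 0) (nat_lit 285704005248)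 (nat_lit 152) (nat_lit 1138880143187) (nat_lit 0) (nat_lit 284536978403) (nat_lit 1) (nat_lit 5) (nat_lit 3) (nat_lit 4) (nat_lit 1) (nat_lit 4) (nat_lit 355) (nat_lit 229) (nat_lit 196))) (XT.nd (nat_lit 78) (nat_lit 0) (nat_lit 0) (XT.lf (nat_lit 0) (nat_lit 309359688741) (nat_lit 152) (nat_lit 1228233343681) (nat_lit 0) (nat_lit 308185258156) (nat_lit 1) (nat_lit 5) (nat_lit 3) (nat_lit 4) (nat_lit 1) (nat_lit 4) (nat_lit 356) (nat_lit 229) (nat_lit 195)) (XT.lf (nat_lit 0) (nat_lit 334899026875) (nat_lit 152) (nat_lit 1324751968150) (nat_lit 0) (nat_lit 333717740975) (nat_lit 1) (nat_lit 5) (nat_lit 3) (nat_lit 4) (nat_lit 1) (nat_lit 4) (nat_lit 357) (nat_lit 229) (nat_lit 194))))) (XT.nd (nat_lit 312) (nat_lit 0) (nat_lit 0) (XT.nd (nat_lit 156) (nat_lit 0) (nat_lit 0) (XT.nd (nat_lit 78) (nat_lit 0) (nat_lit 0) (XT.lf (nat_lit 0) (nat_lit 362473363875) (nat_lit 152) (nat_lit 1429007978815)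 (nat_lit 0) (nat_lit 361285730462) (nat_lit 1) (nat_lit 5) (nat_lit 3) (nat_lit 4) (nat_lit 1) (nat_lit 4) (nat_lit 358) (nat_lit 229) (nat_lit 193)) (XT.lf (nat_lit 0) (nat_lit 392246103220) (nat_lit 152) (nat_lit 1541619189071) (nat_lit 0) (nat_lit 391052592479) (nat_lit 1) (nat_lit 5) (nat_lit 3) (nat_lit 4) (nat_lit 1) (nat_lit 4) (nat_lit 359) (nat_lit 229) (nat_lit 192))) (XT.nd (nat_lit 78) (nat_lit 0) (nat_lit 0) (XT.lf (nat_lit 0) (nat_lit 424393675957) (nat_lit 152) (nat_lit 1663252924608) (nat_lit 0) (nat_lit 423194723247) (nat_lit 1) (nat_lit 5) (nat_lit 3) (nat_lit 4) (nat_lit 1) (nat_lit 4) (nat_lit 360) (nat_lit 229) (nat_lit 191)) (XT.lf (nat_lit 0) (nat_lit 459106586222) (nat_lit 152) (nat_lit 1794629977935) (nat_lit 0) (nat_lit 457902594651) (nat_lit 1) (nat_lit 5) (nat_lit 3) (nat_lit 4) (nat_lit 1) (nat_lit 4) (nat_lit 361) (nat_lit 229) (nat_lit 190)))) (XT.nd (nat_lit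 156) (nat_lit 0) (nat_lit 0) (XT.nd (nat_lit 78) (nat_lit 0) (nat_lit 0) (XT.lf (nat_lit 0) (nat_lit 496590540149) (nat_lit 152) (nat_lit 1936528879737) (nat_lit 0) (nat_lit 495381882966) (nat_lit 1) (nat_lit 5) (nat_lit 3) (nat_lit 4) (nat_lit 1) (nat_lit 4) (nat_lit 362) (nat_lit 229) (nat_lit 189)) (XT.lf (nat_lit 0) (nat_lit 537067664873) (nat_lit 152) (nat_lit 2089790512396) (nat_lit 0) (nat_lit 535854687679) (nat_lit 1) (nat_lit 5) (nat_lit 3) (nat_lit 4) (nat_lit 1) (nat_lit 4) (nat_lit 363) (nat_lit 229) (nat_lit 188))) (XT.nd (nat_lit 78) (nat_lit 0) (nat_lit 0) (XT.lf (nat_lit 0) (nat_lit 580777824837) (nat_lit 152) (nat_lit 2255323092992) (nat_lit 0) (nat_lit 579560847632) (nat_lit 1) (nat_lit 5) (nat_lit 3) (nat_lit 4) (nat_lit 1) (nat_lit 4) (nat_lit 364) (nat_lit 229) (nat_lit 187)) (XT.lf (nat_lit 0) (nat_lit 627980043210) (nat_lit 152) (nat_lit 2434107555339) (nat_lit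 0) (nat_lit 626759362293) (nat_lit 1) (nat_lit 5) (nat_lit 3) (nat_lit 4) (nat_lit 1) (nat_lit 4) (nat_lit 365) (nat_lit 229) (nat_lit 186))))))) (XT.nd (nat_lit 37830) (nat_lit 0) (nat_lit 0) (XT.nd (nat_lit 37206) (nat_lit 0) (nat_lit 0) (XT.nd (nat_lit 234) (nat_lit 0) (nat_lit 0) (XT.nd (nat_lit 78) (nat_lit 0) (nat_lit 0) (XT.lf (nat_lit 0) (nat_lit 678954036842) (nat_lit 152) (nat_lit 2627203362916) (nat_lit 0) (nat_lit 677729926561) (nat_lit 1) (nat_lit 5) (nat_lit 3) (nat_lit 4) (nat_lit 1) (nat_lit 4) (nat_lit 366) (nat_lit 229) (nat_lit 185)) (XT.nd (nat_lit 78) (nat_lit 0) (nat_lit 0) (XT.lf (nat_lit 0) (nat_lit 734001873845) (nat_lit 152) (nat_lit 2835754787175) (nat_lit 0) (nat_lit 732774588226) (nat_lit 1) (nat_lit 5) (nat_lit 3) (nat_lit 4) (nat_lit 1) (nat_lit 4) (nat_lit 367) (nat_lit 229) (nat_lit 184)) (XT.lf (nat_lit 0) (nat_lit 793449763621) (nat_lit 152) (nat_lit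 3060997688409) (nat_lit 0) (nat_lit 792219537876) (nat_lit 1) (nat_lit 5) (nat_lit 3) (nat_lit 4) (nat_lit 1) (nat_lit 4) (nat_lit 368) (nat_lit 229) (nat_lit 183)))) (XT.nd (nat_lit 36816) (nat_lit 0) (nat_lit 0) (XT.nd (nat_lit 78) (nat_lit 0) (nat_lit 0) (XT.lf (nat_lit 0) (nat_lit 857649989963) (nat_lit 152) (nat_lit 3304266839365) (nat_lit 0) (nat_lit 856417041878) (nat_lit 1) (nat_lit 5) (nat_lit 3) (nat_lit 4) (nat_lit 1) (nat_lit 4) (nat_lit 369) (nat_lit 229) (nat_lit 182)) (XT.lf (nat_lit 0) (nat_lit 926982998657) (nat_lit 152) (nat_lit 3567003835013) (nat_lit 0) (nat_lit 925747529887) (nat_lit 1) (nat_lit 5) (nat_lit 3) (nat_lit 4) (nat_lit 1) (nat_lit 4) (nat_lit 370) (nat_lit 229) (nat_lit 181))) (XT.nd (nat_lit 78) (nat_lit 0) (nat_lit 0) (XT.lf (nat_lit 0) (nat_lit 103727551) (nat_lit 152) (nat_lit 58411611154) (nat_lit 0) (nat_lit 103727551) (nat_lit 1) (nat_lit 5) (nat_lit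 3) (nat_lit 4) (nat_lit 1) (nat_lit 4) (nat_lit 320) (nat_lit 230) (nat_lit 230)) (XT.lf (nat_lit 0) (nat_lit 2585454179) (nat_lit 152) (nat_lit 121348677625) (nat_lit 0) (nat_lit 2484095993) (nat_lit 1) (nat_lit 5) (nat_lit 3) (nat_lit 4) (nat_lit 1) (nat_lit 4) (nat_lit 321) (nat_lit 230) (nat_lit 229))))) (XT.nd (nat_lit 312) (nat_lit 0) (nat_lit 0) (XT.nd (nat_lit 156) (nat_lit 0) (nat_lit 0) (XT.nd (nat_lit 78) (nat_lit 0) (nat_lit 0) (XT.lf (nat_lit 0) (nat_lit 5033219469) (nat_lit 152) (nat_lit 126471200711) (nat_lit 0) (nat_lit 4838011109) (nat_lit 1) (nat_lit 5) (nat_lit 3) (nat_lit 4) (nat_lit 1) (nat_lit 4) (nat_lit 322) (nat_lit 230) (nat_lit 228)) (XT.lf (nat_lit 0) (nat_lit 7565256247) (nat_lit 152) (nat_lit 132221147257) (nat_lit 0) (nat_lit 7283149580) (nat_lit 1) (nat_lit 5) (nat_lit 3) (nat_lit 4) (nat_lit 1) (nat_lit 4) (nat_lit 323) (nat_lit 230) (nat_lit 227))) (XT.nd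 (nat_lit 78) (nat_lit 0) (nat_lit 0) (XT.lf (nat_lit 0) (nat_lit 10196569178) (nat_lit 152) (nat_lit 138632591023) (nat_lit 0) (nat_lit 9834001114) (nat_lit 1) (nat_lit 5) (nat_lit 3) (nat_lit 4) (nat_lit 1) (nat_lit 4) (nat_lit 324) (nat_lit 230) (nat_lit 226)) (XT.lf (nat_lit 0) (nat_lit 12942751225) (nat_lit 152) (nat_lit 145743525749) (nat_lit 0) (nat_lit 12505681869) (nat_lit 1) (nat_lit 5) (nat_lit 3) (nat_lit 4) (nat_lit 1) (nat_lit 4) (nat_lit 325) (nat_lit 230) (nat_lit 225)))) (XT.nd (nat_lit 156) (nat_lit 0) (nat_lit 0) (XT.nd (nat_lit 78) (nat_lit 0) (nat_lit 0) (XT.lf (nat_lit 0) (nat_lit 15820076061) (nat_lit 152) (nat_lit 153596090307) (nat_lit 0) (nat_lit 15314024026) (nat_lit 1) (nat_lit 5) (nat_lit 3) (nat_lit 4) (nat_lit 1) (nat_lit 4) (nat_lit 326) (nat_lit 230) (nat_lit 224)) (XT.lf (nat_lit 0) (nat_lit 18845594500) (nat_lit 152) (nat_lit 162236818413) (nat_lit 0)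 (nat_lit 18275669614) (nat_lit 1) (nat_lit 5) (nat_lit 3) (nat_lit 4) (nat_lit 1) (nat_lit 4) (nat_lit 327) (nat_lit 230) (nat_lit 223))) (XT.nd (nat_lit 78) (nat_lit 0) (nat_lit 0) (XT.lf (nat_lit 0) (nat_lit 22037235539) (nat_lit 152) (nat_lit 171716914381) (nat_lit 0) (nat_lit 21408169125) (nat_lit 1) (nat_lit 5) (nat_lit 3) (nat_lit 4) (nat_lit 1) (nat_lit 4) (nat_lit 328) (nat_lit 230) (nat_lit 222)) (XT.lf (nat_lit 0) (nat_lit 25413912607) (nat_lit 152) (nat_lit 182092556560) (nat_lit 0) (nat_lit 24730085518) (nat_lit 1) (nat_lit 5) (nat_lit 3) (nat_lit 4) (nat_lit 1) (nat_lit 4) (nat_lit 329) (nat_lit 230) (nat_lit 221)))))) (XT.nd (nat_lit 624) (nat_lit 0) (nat_lit 0) (XT.nd (nat_lit 312) (nat_lit 0) (nat_lit 0) (XT.nd (nat_lit 156) (nat_lit 0) (nat_lit 0) (XT.nd (nat_lit 78) (nat_lit 0) (nat_lit 0) (XT.lf (nat_lit 0) (nat_lit 28995635642) (nat_lit 152) (nat_lit 193425230234)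 (nat_lit 0) (nat_lit 28261104225) (nat_lit 1) (nat_lit 5) (nat_lit 3) (nat_lit 4) (nat_lit 1) (nat_lit 4) (nat_lit 330) (nat_lit 230) (nat_lit 220)) (XT.lf (nat_lit 0) (nat_lit 32803629670) (nat_lit 152) (nat_lit 205782091989) (nat_lit 0) (nat_lit 32022149801) (nat_lit 1) (nat_lit 5) (nat_lit 3) (nat_lit 4) (nat_lit 1) (nat_lit 4) (nat_lit 331) (nat_lit 230) (nat_lit 219))) (XT.nd (nat_lit 78) (nat_lit 0) (nat_lit 0) (XT.lf (nat_lit 0) (nat_lit 36860460581) (nat_lit 152) (nat_lit 219236367673) (nat_lit 0) (nat_lit 36035509923) (nat_lit 1) (nat_lit 5) (nat_lit 3) (nat_lit 4) (nat_lit 1) (nat_lit 4) (nat_lit 332) (nat_lit 230) (nat_lit 218)) (XT.lf (nat_lit 0) (nat_lit 41190168854) (nat_lit 152) (nat_lit 233867786327) (nat_lit 0) (nat_lit 40324967466) (nat_lit 1) (nat_lit 5) (nat_lit 3) (nat_lit 4) (nat_lit 1) (nat_lit 4) (nat_lit 333) (nat_lit 230) (nat_lit 217)))) (XT.nd (nat_lit 156)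 (nat_lit 0) (nat_lit 0) (XT.nd (nat_lit 78) (nat_lit 0) (nat_lit 0) (XT.lf (nat_lit 0) (nat_lit 45818412020) (nat_lit 152) (nat_lit 249763052653) (nat_lit 0) (nat_lit 44915941437) (nat_lit 1) (nat_lit 5) (nat_lit 3) (nat_lit 4) (nat_lit 1) (nat_lit 4) (nat_lit 334) (nat_lit 230) (nat_lit 216)) (XT.lf (nat_lit 0) (nat_lit 50772616706) (nat_lit 152) (nat_lit 267016360823) (nat_lit 0) (nat_lit 49835637609) (nat_lit 1) (nat_lit 5) (nat_lit 3) (nat_lit 4) (nat_lit 1) (nat_lit 4) (nat_lit 335) (nat_lit 230) (nat_lit 215))) (XT.nd (nat_lit 78) (nat_lit 0) (nat_lit 0) (XT.lf (nat_lit 0) (nat_lit 56082141160) (nat_lit 152) (nat_lit 285729952662) (nat_lit 0) (nat_lit 55113209736) (nat_lit 1) (nat_lit 5) (nat_lit 3) (nat_lit 4) (nat_lit 1) (nat_lit 4) (nat_lit 336) (nat_lit 230) (nat_lit 214)) (XT.lf (nat_lit 0) (nat_lit 61778449233) (nat_lit 152) (nat_lit 306014723530) (nat_lit 0) (nat_lit 60779932320)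 (nat_lit 1) (nat_lit 5) (nat_lit 3) (nat_lit 4) (nat_lit 1) (nat_lit 4) (nat_lit 337) (nat_lit 230) (nat_lit 213))))) (XT.nd (nat_lit 312) (nat_lit 0) (nat_lit 0) (XT.nd (nat_lit 156) (nat_lit 0) (nat_lit 0) (XT.nd (nat_lit 78) (nat_lit 0) (nat_lit 0) (XT.lf (nat_lit 0) (nat_lit 67895296823) (nat_lit 152) (nat_lit 327990879477) (nat_lit 0) (nat_lit 66869385940) (nat_lit 1) (nat_lit 5) (nat_lit 3) (nat_lit 4) (nat_lit 1) (nat_lit 4) (nat_lit 338) (nat_lit 230) (nat_lit 212)) (XT.lf (nat_lit 0) (nat_lit 74468931916) (nat_lit 152) (nat_lit 351788649574) (nat_lit 0) (nat_lit 73417656245) (nat_lit 1) (nat_lit 5) (nat_lit 3) (nat_lit 4) (nat_lit 1) (nat_lit 4) (nat_lit 339) (nat_lit 230) (nat_lit 211))) (XT.nd (nat_lit 78) (nat_lit 0) (nat_lit 0) (XT.lf (nat_lit 0) (nat_lit 81538309388) (nat_lit 152) (nat_lit 377549057644) (nat_lit 0) (nat_lit 80463547802) (nat_lit 1) (nat_lit 5) (nat_lit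 3) (nat_lit 4) (nat_lit 1) (nat_lit 4) (nat_lit 340) (nat_lit 230) (nat_lit 210)) (XT.lf (nat_lit 0) (nat_lit 89145321844) (nat_lit 152) (nat_lit 405424757958) (nat_lit 0) (nat_lit 88048814041) (nat_lit 1) (nat_lit 5) (nat_lit 3) (nat_lit 4) (nat_lit 1) (nat_lit 4) (nat_lit 341) (nat_lit 230) (nat_lit 209)))) (XT.nd (nat_lit 156) (nat_lit 0) (nat_lit 0) (XT.nd (nat_lit 78) (nat_lit 0) (nat_lit 0) (XT.lf (nat_lit 0) (nat_lit 97335047877) (nat_lit 152) (nat_lit 435580939851) (nat_lit 0) (nat_lit 96218404688) (nat_lit 1) (nat_lit 5) (nat_lit 3) (nat_lit 4) (nat_lit 1) (nat_lit 4) (nat_lit 342) (nat_lit 230) (nat_lit 208)) (XT.lf (nat_lit 0) (nat_lit 106156019198) (nat_lit 152) (nat_lit 468196306623) (nat_lit 0) (nat_lit 105020732133) (nat_lit 1) (nat_lit 5) (nat_lit 3) (nat_lit 4) (nat_lit 1) (nat_lit 4) (nat_lit 343) (nat_lit 230) (nat_lit 207))) (XT.nd (nat_lit 78) (nat_lit 0) (nat_lit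 0) (XT.lf (nat_lit 0) (nat_lit 115660508229) (nat_lit 152) (nat_lit 503464134520) (nat_lit 0) (nat_lit 114507958315) (nat_lit 1) (nat_lit 5) (nat_lit 3) (nat_lit 4) (nat_lit 1) (nat_lit 4) (nat_lit 344) (nat_lit 230) (nat_lit 206)) (XT.lf (nat_lit 0) (nat_lit 125904837868) (nat_lit 152) (nat_lit 541593418080) (nat_lit 0) (nat_lit 124736303835) (nat_lit 1) (nat_lit 5) (nat_lit 3) (nat_lit 4) (nat_lit 1) (nat_lit 4) (nat_lit 345) (nat_lit 230) (nat_lit 205))))))))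
noncomputable def xc11 : XT := (XT.nd (nat_lit 38922) (nat_lit 0) (nat_lit 0) (XT.nd (nat_lit 1170) (nat_lit 0) (nat_lit 0) (XT.nd (nat_lit 546) (nat_lit 0) (nat_lit 0) (XT.nd (nat_lit 234) (nat_lit 0) (nat_lit 0) (XT.nd (nat_lit 78) (nat_lit 0) (nat_lit 0) (XT.lf (nat_lit 0) (nat_lit 136949715253) (nat_lit 152) (nat_lit 582810108612) (nat_lit 0) (nat_lit 135766381110) (nat_lit 1) (nat_lit 5) (nat_lit 3) (nat_lit 4) (nat_lit 1) (nat_lit 4) (nat_lit 346) (nat_lit 230) (nat_lit 204)) (XT.nd (nat_lit 78) (nat_lit 0) (nat_lit 0) (XT.lf (nat_lit 0) (nat_lit 148860591510) (nat_lit 152) (nat_lit 627358453170) (nat_lit 0) (nat_lit 147663553561) (nat_lit 1) (nat_lit 5) (nat_lit 3) (nat_lit 4) (nat_lit 1) (nat_lit 4) (nat_lit 347) (nat_lit 230) (nat_lit 203)) (XT.lf (nat_lit 0) (nat_lit 161708049609) (nat_lit 152) (nat_lit 675502441946) (nat_lit 0) (nat_lit 160498322952) (nat_lit 1) (nat_lit 5)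 (nat_lit 3) (nat_lit 4) (nat_lit 1) (nat_lit 4) (nat_lit 348) (nat_lit 230) (nat_lit 202)))) (XT.nd (nat_lit 156) (nat_lit 0) (nat_lit 0) (XT.nd (nat_lit 78) (nat_lit 0) (nat_lit 0) (XT.lf (nat_lit 0) (nat_lit 175568222635) (nat_lit 152) (nat_lit 727527372650) (nat_lit 0) (nat_lit 174346747173) (nat_lit 1) (nat_lit 5) (nat_lit 3) (nat_lit 4) (nat_lit 1) (nat_lit 4) (nat_lit 349) (nat_lit 230) (nat_lit 201)) (XT.lf (nat_lit 0) (nat_lit 190523244947) (nat_lit 152) (nat_lit 783741541168) (nat_lit 0) (nat_lit 189290890962) (nat_lit 1) (nat_lit 5) (nat_lit 3) (nat_lit 4) (nat_lit 1) (nat_lit 4) (nat_lit 350) (nat_lit 230) (nat_lit 200))) (XT.nd (nat_lit 78) (nat_lit 0) (nat_lit 0) (XT.lf (nat_lit 0) (nat_lit 206661738899) (nat_lit 152) (nat_lit 844478068498) (nat_lit 0) (nat_lit 205419312208) (nat_lit 1) (nat_lit 5) (nat_lit 3) (nat_lit 4) (nat_lit 1) (nat_lit 4) (nat_lit 351) (nat_lit 230)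 (nat_lit 199)) (XT.lf (nat_lit 0) (nat_lit 224079340011) (nat_lit 152) (nat_lit 910096874803) (nat_lit 0) (nat_lit 222827586741) (nat_lit 1) (nat_lit 5) (nat_lit 3) (nat_lit 4) (nat_lit 1) (nat_lit 4) (nat_lit 352) (nat_lit 230) (nat_lit 198))))) (XT.nd (nat_lit 312) (nat_lit 0) (nat_lit 0) (XT.nd (nat_lit 156) (nat_lit 0) (nat_lit 0) (XT.nd (nat_lit 78) (nat_lit 0) (nat_lit 0) (XT.lf (nat_lit 0) (nat_lit 242879263697) (nat_lit 152) (nat_lit 980986812267) (nat_lit 0) (nat_lit 241618874705) (nat_lit 1) (nat_lit 5) (nat_lit 3) (nat_lit 4) (nat_lit 1) (nat_lit 4) (nat_lit 353) (nat_lit 230) (nat_lit 197)) (XT.lf (nat_lit 0) (nat_lit 263172916913) (nat_lit 152) (nat_lit 1057567969410) (nat_lit 0) (nat_lit 261904531881) (nat_lit 1) (nat_lit 5) (nat_lit 3) (nat_lit 4) (nat_lit 1) (nat_lit 4) (nat_lit 354) (nat_lit 230) (nat_lit 196))) (XT.nd (nat_lit 78) (nat_lit 0) (nat_lit 0) (XT.lf (nat_lit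 0) (nat_lit 285080558343) (nat_lit 152) (nat_lit 1140294160496) (nat_lit 0) (nat_lit 283804769571) (nat_lit 1) (nat_lit 5) (nat_lit 3) (nat_lit 4) (nat_lit 1) (nat_lit 4) (nat_lit 355) (nat_lit 230) (nat_lit 195)) (XT.lf (nat_lit 0) (nat_lit 308732011048) (nat_lit 152) (nat_lit 1229655614805) (nat_lit 0) (nat_lit 307449366962) (nat_lit 1) (nat_lit 5) (nat_lit 3) (nat_lit 4) (nat_lit 1) (nat_lit 4) (nat_lit 356) (nat_lit 230) (nat_lit 194)))) (XT.nd (nat_lit 156) (nat_lit 0) (nat_lit 0) (XT.nd (nat_lit 78) (nat_lit 0) (nat_lit 0) (XT.lf (nat_lit 0) (nat_lit 334267431785) (nat_lit 152) (nat_lit 1326181881696) (nat_lit 0) (nat_lit 332978440186) (nat_lit 1) (nat_lit 5) (nat_lit 3) (nat_lit 4) (nat_lit 1) (nat_lit 4) (nat_lit 357) (nat_lit 230) (nat_lit 193)) (XT.lf (nat_lit 0) (nat_lit 361838141566) (nat_lit 152) (nat_lit 1430444968677) (nat_lit 0) (nat_lit 360543272640) (nat_lit 1) (nat_lit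 5) (nat_lit 3) (nat_lit 4) (nat_lit 1) (nat_lit 4) (nat_lit 358) (nat_lit 230) (nat_lit 192))) (XT.nd (nat_lit 78) (nat_lit 0) (nat_lit 0) (XT.lf (nat_lit 0) (nat_lit 391607522375) (nat_lit 152) (nat_lit 1543062731078) (nat_lit 0) (nat_lit 390307211479) (nat_lit 1) (nat_lit 5) (nat_lit 3) (nat_lit 4) (nat_lit 1) (nat_lit 4) (nat_lit 359) (nat_lit 230) (nat_lit 191)) (XT.lf (nat_lit 0) (nat_lit 423751985357) (nat_lit 152) (nat_lit 1664702533417) (nat_lit 0) (nat_lit 422446635600) (nat_lit 1) (nat_lit 5) (nat_lit 3) (nat_lit 4) (nat_lit 1) (nat_lit 4) (nat_lit 360) (nat_lit 230) (nat_lit 190)))))) (XT.nd (nat_lit 624) (nat_lit 0) (nat_lit 0) (XT.nd (nat_lit 312) (nat_lit 0) (nat_lit 0) (XT.nd (nat_lit 156) (nat_lit 0) (nat_lit 0) (XT.nd (nat_lit 78) (nat_lit 0) (nat_lit 0) (XT.lf (nat_lit 0) (nat_lit 458462016219) (nat_lit 152) (nat_lit 1796085204152) (nat_lit 0) (nat_lit 457152000849)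 (nat_lit 1) (nat_lit 5) (nat_lit 3) (nat_lit 4) (nat_lit 1) (nat_lit 4) (nat_lit 361) (nat_lit 230) (nat_lit 189)) (XT.lf (nat_lit 0) (nat_lit 495943304032) (nat_lit 152) (nat_lit 1937989307258) (nat_lit 0) (nat_lit 494628968651) (nat_lit 1) (nat_lit 5) (nat_lit 3) (nat_lit 4) (nat_lit 1) (nat_lit 4) (nat_lit 362) (nat_lit 230) (nat_lit 188))) (XT.nd (nat_lit 78) (nat_lit 0) (nat_lit 0) (XT.lf (nat_lit 0) (nat_lit 536417960131) (nat_lit 152) (nat_lit 2091255755938) (nat_lit 0) (nat_lit 535099624741) (nat_lit 1) (nat_lit 5) (nat_lit 3) (nat_lit 4) (nat_lit 1) (nat_lit 4) (nat_lit 363) (nat_lit 230) (nat_lit 187)) (XT.lf (nat_lit 0) (nat_lit 580125834332) (nat_lit 152) (nat_lit 2256792795815) (nat_lit 0) (nat_lit 578803795228) (nat_lit 1) (nat_lit 5) (nat_lit 3) (nat_lit 4) (nat_lit 1) (nat_lit 4) (nat_lit 364) (nat_lit 230) (nat_lit 186)))) (XT.nd (nat_lit 156) (nat_lit 0) (nat_lit 0)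 (XT.nd (nat_lit 78) (nat_lit 0) (nat_lit 0) (XT.lf (nat_lit 0) (nat_lit 627325936258) (nat_lit 152) (nat_lit 2435581387124) (nat_lit 0) (nat_lit 626000467790) (nat_lit 1) (nat_lit 5) (nat_lit 3) (nat_lit 4) (nat_lit 1) (nat_lit 4) (nat_lit 365) (nat_lit 230) (nat_lit 185)) (XT.lf (nat_lit 0) (nat_lit 678297970217) (nat_lit 152) (nat_lit 2628681017815) (nat_lit 0) (nat_lit 676969326412) (nat_lit 1) (nat_lit 5) (nat_lit 3) (nat_lit 4) (nat_lit 1) (nat_lit 4) (nat_lit 366) (nat_lit 230) (nat_lit 184))) (XT.nd (nat_lit 78) (nat_lit 0) (nat_lit 0) (XT.lf (nat_lit 0) (nat_lit 733343992707) (nat_lit 152) (nat_lit 2837235981994) (nat_lit 0) (nat_lit 732012408775) (nat_lit 1) (nat_lit 5) (nat_lit 3) (nat_lit 4) (nat_lit 1) (nat_lit 4) (nat_lit 367) (nat_lit 230) (nat_lit 183)) (XT.lf (nat_lit 0) (nat_lit 792790202379) (nat_lit 152) (nat_lit 3062482160932) (nat_lit 0) (nat_lit 791455896107) (nat_lit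 1) (nat_lit 5) (nat_lit 3) (nat_lit 4) (nat_lit 1) (nat_lit 4) (nat_lit 368) (nat_lit 230) (nat_lit 182))))) (XT.nd (nat_lit 36816) (nat_lit 0) (nat_lit 0) (XT.nd (nat_lit 36660) (nat_lit 0) (nat_lit 152) (XT.nd (nat_lit 78) (nat_lit 0) (nat_lit 0) (XT.lf (nat_lit 0) (nat_lit 856988873069) (nat_lit 152) (nat_lit 3305754346799) (nat_lit 0) (nat_lit 855652046113) (nat_lit 1) (nat_lit 5) (nat_lit 3) (nat_lit 4) (nat_lit 1) (nat_lit 4) (nat_lit 369) (nat_lit 230) (nat_lit 181)) (XT.lf (nat_lit 0) (nat_lit 926320441344) (nat_lit 152) (nat_lit 3568494152549) (nat_lit 0) (nat_lit 924981280420) (nat_lit 1) (nat_lit 5) (nat_lit 3) (nat_lit 4) (nat_lit 1) (nat_lit 4) (nat_lit 370) (nat_lit 230) (nat_lit 180))) (XT.nd (nat_lit 78) (nat_lit 0) (nat_lit 0) (XT.lf (nat_lit 0) (nat_lit 46317736312) (nat_lit 76) (nat_lit 2055732879) (nat_lit 76) (nat_lit 2055732879) (nat_lit 3) (nat_lit 4) (nat_lit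 4) (nat_lit 5) (nat_lit 4) (nat_lit 4) (nat_lit 318) (nat_lit 231) (nat_lit 231)) (XT.lf (nat_lit 0) (nat_lit 104715711632) (nat_lit 76) (nat_lit 2067092932) (nat_lit 76) (nat_lit 1948868743) (nat_lit 3) (nat_lit 4) (nat_lit 4) (nat_lit 5) (nat_lit 4) (nat_lit 4) (nat_lit 319) (nat_lit 231) (nat_lit 230)))) (XT.nd (nat_lit 156) (nat_lit 0) (nat_lit 0) (XT.nd (nat_lit 78) (nat_lit 0) (nat_lit 0) (XT.lf (nat_lit 0) (nat_lit 254368286) (nat_lit 152) (nat_lit 116945257815) (nat_lit 0) (nat_lit 43543258) (nat_lit 1) (nat_lit 5) (nat_lit 3) (nat_lit 4) (nat_lit 1) (nat_lit 4) (nat_lit 320) (nat_lit 231) (nat_lit 229)) (XT.lf (nat_lit 0) (nat_lit 2574447308) (nat_lit 152) (nat_lit 121583708969) (nat_lit 0) (nat_lit 2269772107) (nat_lit 1) (nat_lit 5) (nat_lit 3) (nat_lit 4) (nat_lit 1) (nat_lit 4) (nat_lit 321) (nat_lit 231) (nat_lit 228))) (XT.nd (nat_lit 78) (nat_lit 0) (nat_lit 0) (XT.lf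 (nat_lit 0) (nat_lit 4968582918) (nat_lit 152) (nat_lit 126810857831) (nat_lit 0) (nat_lit 4577009409) (nat_lit 1) (nat_lit 5) (nat_lit 3) (nat_lit 4) (nat_lit 1) (nat_lit 4) (nat_lit 322) (nat_lit 231) (nat_lit 227)) (XT.lf (nat_lit 0) (nat_lit 7450962586) (nat_lit 152) (nat_lit 132657680097) (nat_lit 0) (nat_lit 6978927680) (nat_lit 1) (nat_lit 5) (nat_lit 3) (nat_lit 4) (nat_lit 1) (nat_lit 4) (nat_lit 323) (nat_lit 231) (nat_lit 226))))))) (XT.nd (nat_lit 1170) (nat_lit 0) (nat_lit 0) (XT.nd (nat_lit 546) (nat_lit 0) (nat_lit 0) (XT.nd (nat_lit 234) (nat_lit 0) (nat_lit 0) (XT.nd (nat_lit 78) (nat_lit 0) (nat_lit 0) (XT.lf (nat_lit 0) (nat_lit 10036296710) (nat_lit 152) (nat_lit 139158823602) (nat_lit 0) (nat_lit 9489760511) (nat_lit 1) (nat_lit 5) (nat_lit 3) (nat_lit 4) (nat_lit 1) (nat_lit 4) (nat_lit 324) (nat_lit 231) (nat_lit 225)) (XT.nd (nat_lit 78) (nat_lit 0) (nat_lit 0)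 (XT.lf (nat_lit 0) (nat_lit 12739905788) (nat_lit 152) (nat_lit 146352813642) (nat_lit 0) (nat_lit 12124386911) (nat_lit 1) (nat_lit 5) (nat_lit 3) (nat_lit 4) (nat_lit 1) (nat_lit 4) (nat_lit 325) (nat_lit 231) (nat_lit 224)) (XT.lf (nat_lit 0) (nat_lit 15577811209) (nat_lit 152) (nat_lit 154282281269) (nat_lit 0) (nat_lit 14898419481) (nat_lit 1) (nat_lit 5) (nat_lit 3) (nat_lit 4) (nat_lit 1) (nat_lit 4) (nat_lit 326) (nat_lit 231) (nat_lit 223)))) (XT.nd (nat_lit 156) (nat_lit 0) (nat_lit 0) (XT.nd (nat_lit 78) (nat_lit 0) (nat_lit 0) (XT.lf (nat_lit 0) (nat_lit 18566830188) (nat_lit 152) (nat_lit 162994215920) (nat_lit 0) (nat_lit 17828296933) (nat_lit 1) (nat_lit 5) (nat_lit 3) (nat_lit 4) (nat_lit 1) (nat_lit 4) (nat_lit 327) (nat_lit 231) (nat_lit 222)) (XT.lf (nat_lit 0) (nat_lit 21724675432) (nat_lit 152) (nat_lit 172540243876) (nat_lit 0) (nat_lit 20931381502) (nat_lit 1)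 (nat_lit 5) (nat_lit 3) (nat_lit 4) (nat_lit 1) (nat_lit 4) (nat_lit 328) (nat_lit 231) (nat_lit 221))) (XT.nd (nat_lit 78) (nat_lit 0) (nat_lit 0) (XT.lf (nat_lit 0) (nat_lit 25070060097) (nat_lit 152) (nat_lit 182976934189) (nat_lit 0) (nat_lit 24226061839) (nat_lit 1) (nat_lit 5) (nat_lit 3) (nat_lit 4) (nat_lit 1) (nat_lit 4) (nat_lit 329) (nat_lit 231) (nat_lit 220)) (XT.lf (nat_lit 0) (nat_lit 28622808685) (nat_lit 152) (nat_lit 194366133915) (nat_lit 0) (nat_lit 27731861975) (nat_lit 1) (nat_lit 5) (nat_lit 3) (nat_lit 4) (nat_lit 1) (nat_lit 4) (nat_lit 330) (nat_lit 231) (nat_lit 219))))) (XT.nd (nat_lit 312) (nat_lit 0) (nat_lit 0) (XT.nd (nat_lit 156) (nat_lit 0) (nat_lit 0) (XT.nd (nat_lit 78) (nat_lit 0) (nat_lit 0) (XT.lf (nat_lit 0) (nat_lit 32403974521) (nat_lit 152) (nat_lit 206775334607) (nat_lit 0) (nat_lit 31469557022) (nat_lit 1) (nat_lit 5) (nat_lit 3) (nat_lit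 4) (nat_lit 1) (nat_lit 4) (nat_lit 331) (nat_lit 231) (nat_lit 218)) (XT.lf (nat_lit 0) (nat_lit 36435964513) (nat_lit 152) (nat_lit 220278072269) (nat_lit 0) (nat_lit 35461296284) (nat_lit 1) (nat_lit 5) (nat_lit 3) (nat_lit 4) (nat_lit 1) (nat_lit 4) (nat_lit 332) (nat_lit 231) (nat_lit 217))) (XT.nd (nat_lit 78) (nat_lit 0) (nat_lit 0) (XT.lf (nat_lit 0) (nat_lit 40742671936) (nat_lit 152) (nat_lit 234954363125) (nat_lit 0) (nat_lit 39730734512) (nat_lit 1) (nat_lit 5) (nat_lit 3) (nat_lit 4) (nat_lit 1) (nat_lit 4) (nat_lit 333) (nat_lit 231) (nat_lit 216)) (XT.lf (nat_lit 0) (nat_lit 45349618019) (nat_lit 152) (nat_lit 250891177787) (nat_lit 0) (nat_lit 44303172081) (nat_lit 1) (nat_lit 5) (nat_lit 3) (nat_lit 4) (nat_lit 1) (nat_lit 4) (nat_lit 334) (nat_lit 231) (nat_lit 215)))) (XT.nd (nat_lit 156) (nat_lit 0) (nat_lit 0) (XT.nd (nat_lit 78) (nat_lit 0) (nat_lit 0) (XT.lf (nat_lit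 0) (nat_lit 50284103182) (nat_lit 152) (nat_lit 268182956637) (nat_lit 0) (nat_lit 49205704917) (nat_lit 1) (nat_lit 5) (nat_lit 3) (nat_lit 4) (nat_lit 1) (nat_lit 4) (nat_lit 335) (nat_lit 231) (nat_lit 214)) (XT.lf (nat_lit 0) (nat_lit 55575368820) (nat_lit 152) (nat_lit 286932169477) (nat_lit 0) (nat_lit 54467385066) (nat_lit 1) (nat_lit 5) (nat_lit 3) (nat_lit 4) (nat_lit 1) (nat_lit 4) (nat_lit 336) (nat_lit 231) (nat_lit 213))) (XT.nd (nat_lit 78) (nat_lit 0) (nat_lit 0) (XT.lf (nat_lit 0) (nat_lit 61254770581) (nat_lit 152) (nat_lit 307249922754) (nat_lit 0) (nat_lit 60119392856) (nat_lit 1) (nat_lit 5) (nat_lit 3) (nat_lit 4) (nat_lit 1) (nat_lit 4) (nat_lit 337) (nat_lit 231) (nat_lit 212)) (XT.lf (nat_lit 0) (nat_lit 67355964179) (nat_lit 152) (nat_lit 329256617967) (nat_lit 0) (nat_lit 66195221666) (nat_lit 1) (nat_lit 5) (nat_lit 3) (nat_lit 4) (nat_lit 1) (nat_lit 4) (nat_lit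 338) (nat_lit 231) (nat_lit 211)))))) (XT.nd (nat_lit 624) (nat_lit 0) (nat_lit 0) (XT.nd (nat_lit 312) (nat_lit 0) (nat_lit 0) (XT.nd (nat_lit 156) (nat_lit 0) (nat_lit 0) (XT.nd (nat_lit 78) (nat_lit 0) (nat_lit 0) (XT.lf (nat_lit 0) (nat_lit 73915104835) (nat_lit 152) (nat_lit 353082665163) (nat_lit 0) (nat_lit 72730876408) (nat_lit 1) (nat_lit 5) (nat_lit 3) (nat_lit 4) (nat_lit 1) (nat_lit 4) (nat_lit 339) (nat_lit 231) (nat_lit 210)) (XT.lf (nat_lit 0) (nat_lit 80971061531) (nat_lit 152) (nat_lit 378869255732) (nat_lit 0) (nat_lit 79765086886) (nat_lit 1) (nat_lit 5) (nat_lit 3) (nat_lit 4) (nat_lit 1) (nat_lit 4) (nat_lit 340) (nat_lit 231) (nat_lit 209))) (XT.nd (nat_lit 78) (nat_lit 0) (nat_lit 0) (XT.lf (nat_lit 0) (nat_lit 88565647343) (nat_lit 152) (nat_lit 406769199101) (nat_lit 0) (nat_lit 87339537313) (nat_lit 1) (nat_lit 5) (nat_lit 3) (nat_lit 4) (nat_lit 1) (nat_lit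 4) (nat_lit 341) (nat_lit 231) (nat_lit 208)) (XT.lf (nat_lit 0) (nat_lit 96743867225) (nat_lit 152) (nat_lit 436947828266) (nat_lit 0) (nat_lit 95499113318) (nat_lit 1) (nat_lit 5) (nat_lit 3) (nat_lit 4) (nat_lit 1) (nat_lit 4) (nat_lit 342) (nat_lit 231) (nat_lit 207)))) (XT.nd (nat_lit 156) (nat_lit 0) (nat_lit 0) (XT.nd (nat_lit 78) (nat_lit 0) (nat_lit 0) (XT.lf (nat_lit 0) (nat_lit 105554184702) (nat_lit 152) (nat_lit 469583979550) (nat_lit 0) (nat_lit 104292167947) (nat_lit 1) (nat_lit 5) (nat_lit 3) (nat_lit 4) (nat_lit 1) (nat_lit 4) (nat_lit 343) (nat_lit 231) (nat_lit 206)) (XT.lf (nat_lit 0) (nat_lit 115048809063) (nat_lit 152) (nat_lit 504871052366) (nat_lit 0) (nat_lit 113770808188) (nat_lit 1) (nat_lit 5) (nat_lit 3) (nat_lit 4) (nat_lit 1) (nat_lit 4) (nat_lit 344) (nat_lit 231) (nat_lit 205))) (XT.nd (nat_lit 78) (nat_lit 0) (nat_lit 0) (XT.lf (nat_lit 0) (nat_lit 125284004747)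 (nat_lit 152) (nat_lit 543018155294) (nat_lit 0) (nat_lit 123991203763) (nat_lit 1) (nat_lit 5) (nat_lit 3) (nat_lit 4) (nat_lit 1) (nat_lit 4) (nat_lit 345) (nat_lit 231) (nat_lit 204)) (XT.lf (nat_lit 0) (nat_lit 136320424767) (nat_lit 152) (nat_lit 584251345242) (nat_lit 0) (nat_lit 135013919977) (nat_lit 1) (nat_lit 5) (nat_lit 3) (nat_lit 4) (nat_lit 1) (nat_lit 4) (nat_lit 346) (nat_lit 231) (nat_lit 203))))) (XT.nd (nat_lit 312) (nat_lit 0) (nat_lit 0) (XT.nd (nat_lit 156) (nat_lit 0) (nat_lit 0) (XT.nd (nat_lit 78) (nat_lit 0) (nat_lit 0) (XT.lf (nat_lit 0) (nat_lit 148223470131) (nat_lit 152) (nat_lit 628814967037) (nat_lit 0) (nat_lit 146904276632) (nat_lit 1) (nat_lit 5) (nat_lit 3) (nat_lit 4) (nat_lit 1) (nat_lit 4) (nat_lit 347) (nat_lit 231) (nat_lit 202)) (XT.lf (nat_lit 0) (nat_lit 161063677402) (nat_lit 152) (nat_lit 676973101402) (nat_lit 0) (nat_lit 159732735099)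 (nat_lit 1) (nat_lit 5) (nat_lit 3) (nat_lit 4) (nat_lit 1) (nat_lit 4) (nat_lit 348) (nat_lit 231) (nat_lit 201))) (XT.nd (nat_lit 78) (nat_lit 0) (nat_lit 0) (XT.lf (nat_lit 0) (nat_lit 174917136699) (nat_lit 152) (nat_lit 729011129874) (nat_lit 0) (nat_lit 173575315873) (nat_lit 1) (nat_lit 5) (nat_lit 3) (nat_lit 4) (nat_lit 1) (nat_lit 4) (nat_lit 349) (nat_lit 231) (nat_lit 200)) (XT.lf (nat_lit 0) (nat_lit 189865942596) (nat_lit 152) (nat_lit 785237425955) (nat_lit 0) (nat_lit 188514049063) (nat_lit 1) (nat_lit 5) (nat_lit 3) (nat_lit 4) (nat_lit 1) (nat_lit 4) (nat_lit 350) (nat_lit 231) (nat_lit 199)))) (XT.nd (nat_lit 156) (nat_lit 0) (nat_lit 0) (XT.nd (nat_lit 78) (nat_lit 0) (nat_lit 0) (XT.lf (nat_lit 0) (nat_lit 205998680607) (nat_lit 152) (nat_lit 845985182510) (nat_lit 0) (nat_lit 204637460495) (nat_lit 1) (nat_lit 5) (nat_lit 3) (nat_lit 4) (nat_lit 1) (nat_lit 4) (nat_lit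 351) (nat_lit 231) (nat_lit 198)) (XT.lf (nat_lit 0) (nat_lit 223410952145) (nat_lit 152) (nat_lit 911614386245) (nat_lit 0) (nat_lit 222041096311) (nat_lit 1) (nat_lit 5) (nat_lit 3) (nat_lit 4) (nat_lit 1) (nat_lit 4) (nat_lit 352) (nat_lit 231) (nat_lit 197))) (XT.nd (nat_lit 78) (nat_lit 0) (nat_lit 0) (XT.lf (nat_lit 0) (nat_lit 242205941040) (nat_lit 152) (nat_lit 982513950960) (nat_lit 0) (nat_lit 240828089167) (nat_lit 1) (nat_lit 5) (nat_lit 3) (nat_lit 4) (nat_lit 1) (nat_lit 4) (nat_lit 353) (nat_lit 231) (nat_lit 196)) (XT.lf (nat_lit 0) (nat_lit 262495025004) (nat_lit 152) (nat_lit 1059104022224) (nat_lit 0) (nat_lit 261109769391) (nat_lit 1) (nat_lit 5) (nat_lit 3) (nat_lit 4) (nat_lit 1) (nat_lit 4) (nat_lit 354) (nat_lit 231) (nat_lit 195))))))))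
noncomputable def xc12 : XT := (XT.nd (nat_lit 38688) (nat_lit 0) (nat_lit 0) (XT.nd (nat_lit 1170) (nat_lit 0) (nat_lit 0) (XT.nd (nat_lit 546) (nat_lit 0) (nat_lit 0) (XT.nd (nat_lit 234) (nat_lit 0) (nat_lit 0) (XT.nd (nat_lit 78) (nat_lit 0) (nat_lit 0) (XT.lf (nat_lit 0) (nat_lit 284398435646) (nat_lit 152) (nat_lit 1141838467126) (nat_lit 0) (nat_lit 283006324719) (nat_lit 1) (nat_lit 5) (nat_lit 3) (nat_lit 4) (nat_lit 1) (nat_lit 4) (nat_lit 355) (nat_lit 231) (nat_lit 194)) (XT.nd (nat_lit 78) (nat_lit 0) (nat_lit 0) (XT.lf (nat_lit 0) (nat_lit 308045970955) (nat_lit 152) (nat_lit 1231207563856) (nat_lit 0) (nat_lit 306647512514) (nat_lit 1) (nat_lit 5) (nat_lit 3) (nat_lit 4) (nat_lit 1) (nat_lit 4) (nat_lit 356) (nat_lit 231) (nat_lit 193)) (XT.lf (nat_lit 0) (nat_lit 333577764474) (nat_lit 152) (nat_lit 1327740907064) (nat_lit 0) (nat_lit 332173428705) (nat_lit 1) (nat_lit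 5) (nat_lit 3) (nat_lit 4) (nat_lit 1) (nat_lit 4) (nat_lit 357) (nat_lit 231) (nat_lit 192)))) (XT.nd (nat_lit 156) (nat_lit 0) (nat_lit 0) (XT.nd (nat_lit 78) (nat_lit 0) (nat_lit 0) (XT.lf (nat_lit 0) (nat_lit 361145115719) (nat_lit 152) (nat_lit 1432010546190) (nat_lit 0) (nat_lit 359735337981) (nat_lit 1) (nat_lit 5) (nat_lit 3) (nat_lit 4) (nat_lit 1) (nat_lit 4) (nat_lit 358) (nat_lit 231) (nat_lit 191)) (XT.lf (nat_lit 0) (nat_lit 390911386772) (nat_lit 152) (nat_lit 1544634375392) (nat_lit 0) (nat_lit 389496570173) (nat_lit 1) (nat_lit 5) (nat_lit 3) (nat_lit 4) (nat_lit 1) (nat_lit 4) (nat_lit 359) (nat_lit 231) (nat_lit 190))) (XT.nd (nat_lit 78) (nat_lit 0) (nat_lit 0) (XT.lf (nat_lit 0) (nat_lit 423052970350) (nat_lit 152) (nat_lit 1666279795139) (nat_lit 0) (nat_lit 421633488140) (nat_lit 1) (nat_lit 5) (nat_lit 3) (nat_lit 4) (nat_lit 1) (nat_lit 4) (nat_lit 360) (nat_lit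 231) (nat_lit 189)) (XT.lf (nat_lit 0) (nat_lit 457760335098) (nat_lit 152) (nat_lit 1797667667178) (nat_lit 0) (nat_lit 456336532876) (nat_lit 1) (nat_lit 5) (nat_lit 3) (nat_lit 4) (nat_lit 1) (nat_lit 4) (nat_lit 361) (nat_lit 231) (nat_lit 188))))) (XT.nd (nat_lit 312) (nat_lit 0) (nat_lit 0) (XT.nd (nat_lit 156) (nat_lit 0) (nat_lit 0) (XT.nd (nat_lit 78) (nat_lit 0) (nat_lit 0) (XT.lf (nat_lit 0) (nat_lit 495239154287) (nat_lit 152) (nat_lit 1939576586306) (nat_lit 0) (nat_lit 493811352055) (nat_lit 1) (nat_lit 5) (nat_lit 3) (nat_lit 4) (nat_lit 1) (nat_lit 4) (nat_lit 362) (nat_lit 231) (nat_lit 187)) (XT.lf (nat_lit 0) (nat_lit 535711524623) (nat_lit 152) (nat_lit 2092847494266) (nat_lit 0) (nat_lit 534280018678) (nat_lit 1) (nat_lit 5) (nat_lit 3) (nat_lit 4) (nat_lit 1) (nat_lit 4) (nat_lit 363) (nat_lit 231) (nat_lit 186))) (XT.nd (nat_lit 78) (nat_lit 0) (nat_lit 0) (XT.lf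 (nat_lit 0) (nat_lit 579417282376) (nat_lit 152) (nat_lit 2258388663105) (nat_lit 0) (nat_lit 577982347067) (nat_lit 1) (nat_lit 5) (nat_lit 3) (nat_lit 4) (nat_lit 1) (nat_lit 4) (nat_lit 364) (nat_lit 231) (nat_lit 185)) (XT.lf (nat_lit 0) (nat_lit 626615424629) (nat_lit 152) (nat_lit 2437181077528) (nat_lit 0) (nat_lit 625177313982) (nat_lit 1) (nat_lit 5) (nat_lit 3) (nat_lit 4) (nat_lit 1) (nat_lit 4) (nat_lit 365) (nat_lit 231) (nat_lit 184)))) (XT.nd (nat_lit 156) (nat_lit 0) (nat_lit 0) (XT.nd (nat_lit 78) (nat_lit 0) (nat_lit 0) (XT.lf (nat_lit 0) (nat_lit 677585644075) (nat_lit 152) (nat_lit 2630284248139) (nat_lit 0) (nat_lit 676144593302) (nat_lit 1) (nat_lit 5) (nat_lit 3) (nat_lit 4) (nat_lit 1) (nat_lit 4) (nat_lit 366) (nat_lit 231) (nat_lit 183)) (XT.lf (nat_lit 0) (nat_lit 732629986461) (nat_lit 152) (nat_lit 2838842490022) (nat_lit 0) (nat_lit 731186213348) (nat_lit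 1) (nat_lit 5) (nat_lit 3) (nat_lit 4) (nat_lit 1) (nat_lit 4) (nat_lit 367) (nat_lit 231) (nat_lit 182))) (XT.nd (nat_lit 78) (nat_lit 0) (nat_lit 0) (XT.lf (nat_lit 0) (nat_lit 792074640481) (nat_lit 152) (nat_lit 3064091703870) (nat_lit 0) (nat_lit 790628346683) (nat_lit 1) (nat_lit 5) (nat_lit 3) (nat_lit 4) (nat_lit 1) (nat_lit 4) (nat_lit 368) (nat_lit 231) (nat_lit 181)) (XT.lf (nat_lit 0) (nat_lit 856271870753) (nat_lit 152) (nat_lit 3307366699840) (nat_lit 0) (nat_lit 854823242987) (nat_lit 1) (nat_lit 5) (nat_lit 3) (nat_lit 4) (nat_lit 1) (nat_lit 4) (nat_lit 369) (nat_lit 231) (nat_lit 180)))))) (XT.nd (nat_lit 36894) (nat_lit 0) (nat_lit 0) (XT.nd (nat_lit 36582) (nat_lit 0) (nat_lit 0) (XT.nd (nat_lit 36426) (nat_lit 0) (nat_lit 152) (XT.lf (nat_lit 0) (nat_lit 925602105307) (nat_lit 152) (nat_lit 3570109107537) (nat_lit 0) (nat_lit 924151316460) (nat_lit 1) (nat_lit 5)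 (nat_lit 3) (nat_lit 4) (nat_lit 1) (nat_lit 4) (nat_lit 370) (nat_lit 231) (nat_lit 179)) (XT.nd (nat_lit 78) (nat_lit 0) (nat_lit 0) (XT.lf (nat_lit 0) (nat_lit 35268261094) (nat_lit 76) (nat_lit 4076263647) (nat_lit 76) (nat_lit 4076263647) (nat_lit 3) (nat_lit 4) (nat_lit 4) (nat_lit 5) (nat_lit 4) (nat_lit 4) (nat_lit 316) (nat_lit 232) (nat_lit 232)) (XT.lf (nat_lit 0) (nat_lit 81222397256) (nat_lit 76) (nat_lit 6241576183) (nat_lit 76) (nat_lit 6113894059) (nat_lit 3) (nat_lit 4) (nat_lit 4) (nat_lit 5) (nat_lit 4) (nat_lit 4) (nat_lit 317) (nat_lit 232) (nat_lit 231)))) (XT.nd (nat_lit 156) (nat_lit 152) (nat_lit 0) (XT.nd (nat_lit 78) (nat_lit 0) (nat_lit 0) (XT.lf (nat_lit 0) (nat_lit 92517259937) (nat_lit 76) (nat_lit 4295998718) (nat_lit 76) (nat_lit 4050092405) (nat_lit 3) (nat_lit 4) (nat_lit 4) (nat_lit 5) (nat_lit 4) (nat_lit 4) (nat_lit 318) (nat_lit 232) (nat_lit 230))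 (XT.lf (nat_lit 0) (nat_lit 104488042751) (nat_lit 76) (nat_lit 2304265552) (nat_lit 76) (nat_lit 1948892398) (nat_lit 3) (nat_lit 4) (nat_lit 4) (nat_lit 5) (nat_lit 4) (nat_lit 4) (nat_lit 319) (nat_lit 232) (nat_lit 229))) (XT.nd (nat_lit 78) (nat_lit 76) (nat_lit 0) (XT.lf (nat_lit 0) (nat_lit 192044780) (nat_lit 152) (nat_lit 57278196) (nat_lit 76) (nat_lit 117008388044) (nat_lit 2) (nat_lit 5) (nat_lit 4) (nat_lit 5) (nat_lit 3) (nat_lit 4) (nat_lit 320) (nat_lit 232) (nat_lit 228)) (XT.lf (nat_lit 0) (nat_lit 2451010154) (nat_lit 152) (nat_lit 122055164436) (nat_lit 0) (nat_lit 1941212456) (nat_lit 1) (nat_lit 5) (nat_lit 3) (nat_lit 4) (nat_lit 1) (nat_lit 4) (nat_lit 321) (nat_lit 232) (nat_lit 227))))) (XT.nd (nat_lit 312) (nat_lit 0) (nat_lit 0) (XT.nd (nat_lit 156) (nat_lit 0) (nat_lit 0) (XT.nd (nat_lit 78) (nat_lit 0) (nat_lit 0) (XT.lf (nat_lit 0) (nat_lit 4795488652)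 (nat_lit 152) (nat_lit 127379189016) (nat_lit 0) (nat_lit 4205229558) (nat_lit 1) (nat_lit 5) (nat_lit 3) (nat_lit 4) (nat_lit 1) (nat_lit 4) (nat_lit 322) (nat_lit 232) (nat_lit 226)) (XT.lf (nat_lit 0) (nat_lit 7231889514) (nat_lit 152) (nat_lit 133315711021) (nat_lit 0) (nat_lit 6567129127) (nat_lit 1) (nat_lit 5) (nat_lit 3) (nat_lit 4) (nat_lit 1) (nat_lit 4) (nat_lit 323) (nat_lit 232) (nat_lit 225))) (XT.nd (nat_lit 78) (nat_lit 0) (nat_lit 0) (XT.lf (nat_lit 0) (nat_lit 9774650669) (nat_lit 152) (nat_lit 139899909841) (nat_lit 0) (nat_lit 9040907603) (nat_lit 1) (nat_lit 5) (nat_lit 3) (nat_lit 4) (nat_lit 1) (nat_lit 4) (nat_lit 324) (nat_lit 232) (nat_lit 224)) (XT.lf (nat_lit 0) (nat_lit 12438840332) (nat_lit 152) (nat_lit 147170802951) (nat_lit 0) (nat_lit 11641224416) (nat_lit 1) (nat_lit 5) (nat_lit 3) (nat_lit 4) (nat_lit 1) (nat_lit 4) (nat_lit 325) (nat_lit 232) (nat_lit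 223)))) (XT.nd (nat_lit 156) (nat_lit 0) (nat_lit 0) (XT.nd (nat_lit 78) (nat_lit 0) (nat_lit 0) (XT.lf (nat_lit 0) (nat_lit 15240246293) (nat_lit 152) (nat_lit 155171477123) (nat_lit 0) (nat_lit 14383488849) (nat_lit 1) (nat_lit 5) (nat_lit 3) (nat_lit 4) (nat_lit 1) (nat_lit 4) (nat_lit 326) (nat_lit 232) (nat_lit 222)) (XT.lf (nat_lit 0) (nat_lit 18195469478) (nat_lit 152) (nat_lit 163949343761) (nat_lit 0) (nat_lit 17283951359) (nat_lit 1) (nat_lit 5) (nat_lit 3) (nat_lit 4) (nat_lit 1) (nat_lit 4) (nat_lit 327) (nat_lit 232) (nat_lit 221))) (XT.nd (nat_lit 78) (nat_lit 0) (nat_lit 0) (XT.lf (nat_lit 0) (nat_lit 21322022319) (nat_lit 152) (nat_lit 173556419851) (nat_lit 0) (nat_lit 20359799872) (nat_lit 1) (nat_lit 5) (nat_lit 3) (nat_lit 4) (nat_lit 1) (nat_lit 4) (nat_lit 328) (nat_lit 232) (nat_lit 220)) (XT.lf (nat_lit 0) (nat_lit 24638432536) (nat_lit 152) (nat_lit 184049636217)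 (nat_lit 0) (nat_lit 23629261637) (nat_lit 1) (nat_lit 5) (nat_lit 3) (nat_lit 4) (nat_lit 1) (nat_lit 4) (nat_lit 329) (nat_lit 232) (nat_lit 219))))))) (XT.nd (nat_lit 1170) (nat_lit 0) (nat_lit 0) (XT.nd (nat_lit 546) (nat_lit 0) (nat_lit 0) (XT.nd (nat_lit 234) (nat_lit 0) (nat_lit 0) (XT.nd (nat_lit 78) (nat_lit 0) (nat_lit 0) (XT.lf (nat_lit 0) (nat_lit 28164352932) (nat_lit 152) (nat_lit 195491174879) (nat_lit 0) (nat_lit 27111711244) (nat_lit 1) (nat_lit 5) (nat_lit 3) (nat_lit 4) (nat_lit 1) (nat_lit 4) (nat_lit 330) (nat_lit 232) (nat_lit 218)) (XT.nd (nat_lit 78) (nat_lit 0) (nat_lit 0) (XT.lf (nat_lit 0) (nat_lit 31920677850) (nat_lit 152) (nat_lit 207948837549) (nat_lit 0) (nat_lit 30827785431) (nat_lit 1) (nat_lit 5) (nat_lit 3) (nat_lit 4) (nat_lit 1) (nat_lit 4) (nat_lit 331) (nat_lit 232) (nat_lit 217)) (XT.lf (nat_lit 0) (nat_lit 35929666992) (nat_lit 152) (nat_lit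 221496447414) (nat_lit 0) (nat_lit 34799505378) (nat_lit 1) (nat_lit 5) (nat_lit 3) (nat_lit 4) (nat_lit 1) (nat_lit 4) (nat_lit 332) (nat_lit 232) (nat_lit 216)))) (XT.nd (nat_lit 156) (nat_lit 0) (nat_lit 0) (XT.nd (nat_lit 78) (nat_lit 0) (nat_lit 0) (XT.lf (nat_lit 0) (nat_lit 40215077331) (nat_lit 152) (nat_lit 236214286605) (nat_lit 0) (nat_lit 39050407204) (nat_lit 1) (nat_lit 5) (nat_lit 3) (nat_lit 4) (nat_lit 1) (nat_lit 4) (nat_lit 333) (nat_lit 232) (nat_lit 215)) (XT.lf (nat_lit 0) (nat_lit 44802303892) (nat_lit 152) (nat_lit 252189571947) (nat_lit 0) (nat_lit 43605681437) (nat_lit 1) (nat_lit 5) (nat_lit 3) (nat_lit 4) (nat_lit 1) (nat_lit 4) (nat_lit 334) (nat_lit 232) (nat_lit 214))) (XT.nd (nat_lit 78) (nat_lit 0) (nat_lit 0) (XT.lf (nat_lit 0) (nat_lit 49718530238) (nat_lit 152) (nat_lit 269516971798) (nat_lit 0) (nat_lit 48492322296) (nat_lit 1) (nat_lit 5) (nat_lit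 3) (nat_lit 4) (nat_lit 1) (nat_lit 4) (nat_lit 335) (nat_lit 232) (nat_lit 213)) (XT.lf (nat_lit 0) (nat_lit 54992889565) (nat_lit 152) (nat_lit 288299167047) (nat_lit 0) (nat_lit 53739287651) (nat_lit 1) (nat_lit 5) (nat_lit 3) (nat_lit 4) (nat_lit 1) (nat_lit 4) (nat_lit 336) (nat_lit 232) (nat_lit 212))))) (XT.nd (nat_lit 312) (nat_lit 0) (nat_lit 0) (XT.nd (nat_lit 156) (nat_lit 0) (nat_lit 0) (XT.nd (nat_lit 78) (nat_lit 0) (nat_lit 0) (XT.lf (nat_lit 0) (nat_lit 60656637334) (nat_lit 152) (nat_lit 308647459590) (nat_lit 0) (nat_lit 59377670632) (nat_lit 1) (nat_lit 5) (nat_lit 3) (nat_lit 4) (nat_lit 1) (nat_lit 4) (nat_lit 337) (nat_lit 232) (nat_lit 211)) (XT.lf (nat_lit 0) (nat_lit 66743336494) (nat_lit 152) (nat_lit 330682431902) (nat_lit 0) (nat_lit 65440883878) (nat_lit 1) (nat_lit 5) (nat_lit 3) (nat_lit 4) (nat_lit 1) (nat_lit 4) (nat_lit 338) (nat_lit 232) (nat_lit 210)))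 (XT.nd (nat_lit 78) (nat_lit 0) (nat_lit 0) (XT.lf (nat_lit 0) (nat_lit 73289056375) (nat_lit 152) (nat_lit 354534661597) (nat_lit 0) (nat_lit 71964857541) (nat_lit 1) (nat_lit 5) (nat_lit 3) (nat_lit 4) (nat_lit 1) (nat_lit 4) (nat_lit 339) (nat_lit 232) (nat_lit 209)) (XT.lf (nat_lit 0) (nat_lit 80332586427) (nat_lit 152) (nat_lit 380345495221) (nat_lit 0) (nat_lit 78988252207) (nat_lit 1) (nat_lit 5) (nat_lit 3) (nat_lit 4) (nat_lit 1) (nat_lit 4) (nat_lit 340) (nat_lit 232) (nat_lit 208)))) (XT.nd (nat_lit 156) (nat_lit 0) (nat_lit 0) (XT.nd (nat_lit 78) (nat_lit 0) (nat_lit 0) (XT.lf (nat_lit 0) (nat_lit 87915666088) (nat_lit 152) (nat_lit 408267885862) (nat_lit 0) (nat_lit 86552687992) (nat_lit 1) (nat_lit 5) (nat_lit 3) (nat_lit 4) (nat_lit 1) (nat_lit 4) (nat_lit 341) (nat_lit 232) (nat_lit 207)) (XT.lf (nat_lit 0) (nat_lit 96083232125) (nat_lit 152) (nat_lit 438467299539) (nat_lit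 0) (nat_lit 94702991181) (nat_lit 1) (nat_lit 5) (nat_lit 3) (nat_lit 4) (nat_lit 1) (nat_lit 4) (nat_lit 342) (nat_lit 232) (nat_lit 206))) (XT.nd (nat_lit 78) (nat_lit 0) (nat_lit 0) (XT.lf (nat_lit 0) (nat_lit 104883684932) (nat_lit 152) (nat_lit 471122695741) (nat_lit 0) (nat_lit 103487459869) (nat_lit 1) (nat_lit 5) (nat_lit 3) (nat_lit 4) (nat_lit 1) (nat_lit 4) (nat_lit 343) (nat_lit 232) (nat_lit 205)) (XT.lf (nat_lit 0) (nat_lit 114369175338) (nat_lit 152) (nat_lit 506427587926) (nat_lit 0) (nat_lit 112958150165) (nat_lit 1) (nat_lit 5) (nat_lit 3) (nat_lit 4) (nat_lit 1) (nat_lit 4) (nat_lit 344) (nat_lit 232) (nat_lit 204)))))) (XT.nd (nat_lit 624) (nat_lit 0) (nat_lit 0) (XT.nd (nat_lit 312) (nat_lit 0) (nat_lit 0) (XT.nd (nat_lit 156) (nat_lit 0) (nat_lit 0) (XT.nd (nat_lit 78) (nat_lit 0) (nat_lit 0) (XT.lf (nat_lit 0) (nat_lit 124595913658) (nat_lit 152) (nat_lit 544591190270)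 (nat_lit 0) (nat_lit 123171184679) (nat_lit 1) (nat_lit 5) (nat_lit 3) (nat_lit 4) (nat_lit 1) (nat_lit 4) (nat_lit 345) (nat_lit 232) (nat_lit 203)) (XT.lf (nat_lit 0) (nat_lit 135624502784) (nat_lit 152) (nat_lit 585839657454) (nat_lit 0) (nat_lit 134187085097) (nat_lit 1) (nat_lit 5) (nat_lit 3) (nat_lit 4) (nat_lit 1) (nat_lit 4) (nat_lit 346) (nat_lit 232) (nat_lit 202))) (XT.nd (nat_lit 78) (nat_lit 0) (nat_lit 0) (XT.lf (nat_lit 0) (nat_lit 147520297320) (nat_lit 152) (nat_lit 630417424839) (nat_lit 0) (nat_lit 146071130828) (nat_lit 1) (nat_lit 5) (nat_lit 3) (nat_lit 4) (nat_lit 1) (nat_lit 4) (nat_lit 347) (nat_lit 232) (nat_lit 201)) (XT.lf (nat_lit 0) (nat_lit 160353790863) (nat_lit 152) (nat_lit 678588656972) (nat_lit 0) (nat_lit 158893745848) (nat_lit 1) (nat_lit 5) (nat_lit 3) (nat_lit 4) (nat_lit 1) (nat_lit 4) (nat_lit 348) (nat_lit 232) (nat_lit 200)))) (XT.nd (nat_lit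 156) (nat_lit 0) (nat_lit 0) (XT.nd (nat_lit 78) (nat_lit 0) (nat_lit 0) (XT.lf (nat_lit 0) (nat_lit 174201033744) (nat_lit 152) (nat_lit 730638813007) (nat_lit 0) (nat_lit 172730916023) (nat_lit 1) (nat_lit 5) (nat_lit 3) (nat_lit 4) (nat_lit 1) (nat_lit 4) (nat_lit 349) (nat_lit 232) (nat_lit 199)) (XT.lf (nat_lit 0) (nat_lit 189144083700) (nat_lit 152) (nat_lit 786876338313) (nat_lit 0) (nat_lit 187664639399) (nat_lit 1) (nat_lit 5) (nat_lit 3) (nat_lit 4) (nat_lit 1) (nat_lit 4) (nat_lit 350) (nat_lit 232) (nat_lit 198))) (XT.nd (nat_lit 78) (nat_lit 0) (nat_lit 0) (XT.lf (nat_lit 0) (nat_lit 205271492137) (nat_lit 152) (nat_lit 847634492299) (nat_lit 0) (nat_lit 203783412114) (nat_lit 1) (nat_lit 5) (nat_lit 3) (nat_lit 4) (nat_lit 1) (nat_lit 4) (nat_lit 351) (nat_lit 232) (nat_lit 197)) (XT.lf (nat_lit 0) (nat_lit 222678828884) (nat_lit 152) (nat_lit 913273323284) (nat_lit 0)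 (nat_lit 221182752822) (nat_lit 1) (nat_lit 5) (nat_lit 3) (nat_lit 4) (nat_lit 1) (nat_lit 4) (nat_lit 352) (nat_lit 232) (nat_lit 196))))) (XT.nd (nat_lit 312) (nat_lit 0) (nat_lit 0) (XT.nd (nat_lit 156) (nat_lit 0) (nat_lit 0) (XT.nd (nat_lit 78) (nat_lit 0) (nat_lit 0) (XT.lf (nat_lit 0) (nat_lit 241469248528) (nat_lit 152) (nat_lit 984181802120) (nat_lit 0) (nat_lit 239965768726) (nat_lit 1) (nat_lit 5) (nat_lit 3) (nat_lit 4) (nat_lit 1) (nat_lit 4) (nat_lit 353) (nat_lit 232) (nat_lit 195)) (XT.lf (nat_lit 0) (nat_lit 261754101704) (nat_lit 152) (nat_lit 1060780127200) (nat_lit 0) (nat_lit 260243766587) (nat_lit 1) (nat_lit 5) (nat_lit 3) (nat_lit 4) (nat_lit 1) (nat_lit 4) (nat_lit 354) (nat_lit 232) (nat_lit 194))) (XT.nd (nat_lit 78) (nat_lit 0) (nat_lit 0) (XT.lf (nat_lit 0) (nat_lit 283653594949) (nat_lit 152) (nat_lit 1143522214523) (nat_lit 0) (nat_lit 282136912320) (nat_lit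 1) (nat_lit 5) (nat_lit 3) (nat_lit 4) (nat_lit 1) (nat_lit 4) (nat_lit 355) (nat_lit 232) (nat_lit 193)) (XT.lf (nat_lit 0) (nat_lit 307297503039) (nat_lit 152) (nat_lit 1232898387570) (nat_lit 0) (nat_lit 305774943082) (nat_lit 1) (nat_lit 5) (nat_lit 3) (nat_lit 4) (nat_lit 1) (nat_lit 4) (nat_lit 356) (nat_lit 232) (nat_lit 192)))) (XT.nd (nat_lit 156) (nat_lit 0) (nat_lit 0) (XT.nd (nat_lit 78) (nat_lit 0) (nat_lit 0) (XT.lf (nat_lit 0) (nat_lit 332825938022) (nat_lit 152) (nat_lit 1329438282923) (nat_lit 0) (nat_lit 331297936095) (nat_lit 1) (nat_lit 5) (nat_lit 3) (nat_lit 4) (nat_lit 1) (nat_lit 4) (nat_lit 357) (nat_lit 232) (nat_lit 191)) (XT.lf (nat_lit 0) (nat_lit 360390179511) (nat_lit 152) (nat_lit 1433713988850) (nat_lit 0) (nat_lit 358857138724) (nat_lit 1) (nat_lit 5) (nat_lit 3) (nat_lit 4) (nat_lit 1) (nat_lit 4) (nat_lit 358) (nat_lit 232) (nat_lit 190))) (XT.nd (nat_lit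 78) (nat_lit 0) (nat_lit 0) (XT.lf (nat_lit 0) (nat_lit 390153571161) (nat_lit 152) (nat_lit 1546343435460) (nat_lit 0) (nat_lit 388615864762) (nat_lit 1) (nat_lit 5) (nat_lit 3) (nat_lit 4) (nat_lit 1) (nat_lit 4) (nat_lit 359) (nat_lit 232) (nat_lit 189)) (XT.lf (nat_lit 0) (nat_lit 422292488626) (nat_lit 152) (nat_lit 1667994056511) (nat_lit 0) (nat_lit 420750462215) (nat_lit 1) (nat_lit 5) (nat_lit 3) (nat_lit 4) (nat_lit 1) (nat_lit 4) (nat_lit 360) (nat_lit 232) (nat_lit 188))))))))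
noncomputable def xc13 : XT := (XT.nd (nat_lit 38532) (nat_lit 0) (nat_lit 0) (XT.nd (nat_lit 37362) (nat_lit 0) (nat_lit 0) (XT.nd (nat_lit 546) (nat_lit 0) (nat_lit 0) (XT.nd (nat_lit 234) (nat_lit 0) (nat_lit 0) (XT.nd (nat_lit 78) (nat_lit 0) (nat_lit 0) (XT.lf (nat_lit 0) (nat_lit 456997384749) (nat_lit 152) (nat_lit 1799386744572) (nat_lit 0) (nat_lit 455451358328) (nat_lit 1) (nat_lit 5) (nat_lit 3) (nat_lit 4) (nat_lit 1) (nat_lit 4) (nat_lit 361) (nat_lit 232) (nat_lit 187)) (XT.nd (nat_lit 78) (nat_lit 0) (nat_lit 0) (XT.lf (nat_lit 0) (nat_lit 494473918175) (nat_lit 152) (nat_lit 1941300122980) (nat_lit 0) (nat_lit 492924188041) (nat_lit 1) (nat_lit 5) (nat_lit 3) (nat_lit 4) (nat_lit 1) (nat_lit 4) (nat_lit 362) (nat_lit 232) (nat_lit 186)) (XT.lf (nat_lit 0) (nat_lit 534944172064) (nat_lit 152) (nat_lit 2094575159903) (nat_lit 0) (nat_lit 533391012566) (nat_lit 1) (nat_lit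 5) (nat_lit 3) (nat_lit 4) (nat_lit 1) (nat_lit 4) (nat_lit 363) (nat_lit 232) (nat_lit 185)))) (XT.nd (nat_lit 156) (nat_lit 0) (nat_lit 0) (XT.nd (nat_lit 78) (nat_lit 0) (nat_lit 0) (XT.lf (nat_lit 0) (nat_lit 578647970143) (nat_lit 152) (nat_lit 2260120151856) (nat_lit 0) (nat_lit 577091635308) (nat_lit 1) (nat_lit 5) (nat_lit 3) (nat_lit 4) (nat_lit 1) (nat_lit 4) (nat_lit 364) (nat_lit 232) (nat_lit 184)) (XT.lf (nat_lit 0) (nat_lit 625844297883) (nat_lit 152) (nat_lit 2438916106199) (nat_lit 0) (nat_lit 624285022921) (nat_lit 1) (nat_lit 5) (nat_lit 3) (nat_lit 4) (nat_lit 1) (nat_lit 4) (nat_lit 365) (nat_lit 232) (nat_lit 183))) (XT.nd (nat_lit 78) (nat_lit 0) (nat_lit 0) (XT.lf (nat_lit 0) (nat_lit 676812837226) (nat_lit 152) (nat_lit 2632022554513) (nat_lit 0) (nat_lit 675250839924) (nat_lit 1) (nat_lit 5) (nat_lit 3) (nat_lit 4) (nat_lit 1) (nat_lit 4) (nat_lit 366) (nat_lit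 232) (nat_lit 182)) (XT.lf (nat_lit 0) (nat_lit 731855623959) (nat_lit 152) (nat_lit 2840583831307) (nat_lit 0) (nat_lit 730291105973) (nat_lit 1) (nat_lit 5) (nat_lit 3) (nat_lit 4) (nat_lit 1) (nat_lit 4) (nat_lit 367) (nat_lit 232) (nat_lit 181))))) (XT.nd (nat_lit 36504) (nat_lit 0) (nat_lit 152) (XT.nd (nat_lit 156) (nat_lit 0) (nat_lit 0) (XT.nd (nat_lit 78) (nat_lit 0) (nat_lit 0) (XT.lf (nat_lit 0) (nat_lit 791298837561) (nat_lit 152) (nat_lit 3065835855258) (nat_lit 0) (nat_lit 789731985607) (nat_lit 1) (nat_lit 5) (nat_lit 3) (nat_lit 4) (nat_lit 1) (nat_lit 4) (nat_lit 368) (nat_lit 232) (nat_lit 180)) (XT.lf (nat_lit 0) (nat_lit 855494734112) (nat_lit 152) (nat_lit 3309113453175) (nat_lit 0) (nat_lit 853925721077) (nat_lit 1) (nat_lit 5) (nat_lit 3) (nat_lit 4) (nat_lit 1) (nat_lit 4) (nat_lit 369) (nat_lit 232) (nat_lit 179))) (XT.nd (nat_lit 36270) (nat_lit 0) (nat_lit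 152) (XT.lf (nat_lit 0) (nat_lit 924823733739) (nat_lit 152) (nat_lit 3571858270082) (nat_lit 0) (nat_lit 923252719703) (nat_lit 1) (nat_lit 5) (nat_lit 3) (nat_lit 4) (nat_lit 1) (nat_lit 4) (nat_lit 370) (nat_lit 232) (nat_lit 178)) (XT.lf (nat_lit 0) (nat_lit 25439778459) (nat_lit 76) (nat_lit 5993647435) (nat_lit 76) (nat_lit 5993647435) (nat_lit 3) (nat_lit 4) (nat_lit 4) (nat_lit 5) (nat_lit 4) (nat_lit 4) (nat_lit 314) (nat_lit 233) (nat_lit 233)))) (XT.nd (nat_lit 156) (nat_lit 0) (nat_lit 0) (XT.nd (nat_lit 78) (nat_lit 0) (nat_lit 0) (XT.lf (nat_lit 0) (nat_lit 60396311029) (nat_lit 76) (nat_lit 10178072902) (nat_lit 76) (nat_lit 10040176208) (nat_lit 3) (nat_lit 4) (nat_lit 4) (nat_lit 5) (nat_lit 4) (nat_lit 4) (nat_lit 315) (nat_lit 233) (nat_lit 232)) (XT.lf (nat_lit 0) (nat_lit 70408852484) (nat_lit 76) (nat_lit 8351822890) (nat_lit 76) (nat_lit 8086244072) (nat_lit 3)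 (nat_lit 4) (nat_lit 4) (nat_lit 5) (nat_lit 4) (nat_lit 4) (nat_lit 316) (nat_lit 233) (nat_lit 231))) (XT.nd (nat_lit 78) (nat_lit 0) (nat_lit 0) (XT.lf (nat_lit 0) (nat_lit 80976514863) (nat_lit 76) (nat_lit 6497722612) (nat_lit 76) (nat_lit 6113919606) (nat_lit 3) (nat_lit 4) (nat_lit 4) (nat_lit 5) (nat_lit 4) (nat_lit 4) (nat_lit 317) (nat_lit 233) (nat_lit 230)) (XT.lf (nat_lit 0) (nat_lit 92161921352) (nat_lit 76) (nat_lit 4604784809) (nat_lit 76) (nat_lit 4111514961) (nat_lit 3) (nat_lit 4) (nat_lit 4) (nat_lit 5) (nat_lit 4) (nat_lit 4) (nat_lit 318) (nat_lit 233) (nat_lit 229)))))) (XT.nd (nat_lit 546) (nat_lit 0) (nat_lit 0) (XT.nd (nat_lit 234) (nat_lit 0) (nat_lit 0) (XT.nd (nat_lit 78) (nat_lit 152) (nat_lit 0) (XT.lf (nat_lit 0) (nat_lit 104031355839) (nat_lit 76) (nat_lit 2661792070) (nat_lit 76) (nat_lit 2067164036) (nat_lit 3) (nat_lit 4) (nat_lit 4) (nat_lit 5) (nat_lit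 4) (nat_lit 4) (nat_lit 319) (nat_lit 233) (nat_lit 228)) (XT.nd (nat_lit 78) (nat_lit 76) (nat_lit 0) (XT.lf (nat_lit 0) (nat_lit 29684697) (nat_lit 152) (nat_lit 626734036) (nat_lit 76) (nat_lit 116624659385) (nat_lit 2) (nat_lit 5) (nat_lit 4) (nat_lit 5) (nat_lit 3) (nat_lit 4) (nat_lit 320) (nat_lit 233) (nat_lit 227)) (XT.lf (nat_lit 0) (nat_lit 2214411236) (nat_lit 152) (nat_lit 122765837834) (nat_lit 0) (nat_lit 1496470018) (nat_lit 1) (nat_lit 5) (nat_lit 3) (nat_lit 4) (nat_lit 1) (nat_lit 4) (nat_lit 321) (nat_lit 233) (nat_lit 226)))) (XT.nd (nat_lit 156) (nat_lit 0) (nat_lit 0) (XT.nd (nat_lit 78) (nat_lit 0) (nat_lit 0) (XT.lf (nat_lit 0) (nat_lit 4512910928) (nat_lit 152) (nat_lit 128179562155) (nat_lit 0) (nat_lit 3720468417) (nat_lit 1) (nat_lit 5) (nat_lit 3) (nat_lit 4) (nat_lit 1) (nat_lit 4) (nat_lit 322) (nat_lit 233) (nat_lit 225)) (XT.lf (nat_lit 0) (nat_lit 6906738821)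 (nat_lit 152) (nat_lit 134199139474) (nat_lit 0) (nat_lit 6045313631) (nat_lit 1) (nat_lit 5) (nat_lit 3) (nat_lit 4) (nat_lit 1) (nat_lit 4) (nat_lit 323) (nat_lit 233) (nat_lit 224))) (XT.nd (nat_lit 78) (nat_lit 0) (nat_lit 0) (XT.lf (nat_lit 0) (nat_lit 9410080560) (nat_lit 152) (nat_lit 140860241363) (nat_lit 0) (nat_lit 8484782520) (nat_lit 1) (nat_lit 5) (nat_lit 3) (nat_lit 4) (nat_lit 1) (nat_lit 4) (nat_lit 324) (nat_lit 233) (nat_lit 223)) (XT.lf (nat_lit 0) (nat_lit 12037770764) (nat_lit 152) (nat_lit 148202341018) (nat_lit 0) (nat_lit 11053331196) (nat_lit 1) (nat_lit 5) (nat_lit 3) (nat_lit 4) (nat_lit 1) (nat_lit 4) (nat_lit 325) (nat_lit 233) (nat_lit 222))))) (XT.nd (nat_lit 312) (nat_lit 0) (nat_lit 0) (XT.nd (nat_lit 156) (nat_lit 0) (nat_lit 0) (XT.nd (nat_lit 78) (nat_lit 0) (nat_lit 0) (XT.lf (nat_lit 0) (nat_lit 14805380931) (nat_lit 152) (nat_lit 156268947177)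 (nat_lit 0) (nat_lit 13766180688) (nat_lit 1) (nat_lit 5) (nat_lit 3) (nat_lit 4) (nat_lit 1) (nat_lit 4) (nat_lit 326) (nat_lit 233) (nat_lit 221)) (XT.lf (nat_lit 0) (nat_lit 17729311712) (nat_lit 152) (nat_lit 165107861950) (nat_lit 0) (nat_lit 16639407141) (nat_lit 1) (nat_lit 5) (nat_lit 3) (nat_lit 4) (nat_lit 1) (nat_lit 4) (nat_lit 327) (nat_lit 233) (nat_lit 220))) (XT.nd (nat_lit 78) (nat_lit 0) (nat_lit 0) (XT.lf (nat_lit 0) (nat_lit 20826890106) (nat_lit 152) (nat_lit 174771464092) (nat_lit 0) (nat_lit 19690037083) (nat_lit 1) (nat_lit 5) (nat_lit 3) (nat_lit 4) (nat_lit 1) (nat_lit 4) (nat_lit 328) (nat_lit 233) (nat_lit 219)) (XT.lf (nat_lit 0) (nat_lit 24116472131) (nat_lit 152) (nat_lit 185317019394) (nat_lit 0) (nat_lit 22936148320) (nat_lit 1) (nat_lit 5) (nat_lit 3) (nat_lit 4) (nat_lit 1) (nat_lit 4) (nat_lit 329) (nat_lit 233) (nat_lit 218)))) (XT.nd (nat_lit 156)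 (nat_lit 0) (nat_lit 0) (XT.nd (nat_lit 78) (nat_lit 0) (nat_lit 0) (XT.lf (nat_lit 0) (nat_lit 27617551609) (nat_lit 152) (nat_lit 196807020035) (nat_lit 0) (nat_lit 26396977067) (nat_lit 1) (nat_lit 5) (nat_lit 3) (nat_lit 4) (nat_lit 1) (nat_lit 4) (nat_lit 330) (nat_lit 233) (nat_lit 217)) (XT.lf (nat_lit 0) (nat_lit 31350875676) (nat_lit 152) (nat_lit 209309554907) (nat_lit 0) (nat_lit 30093031939) (nat_lit 1) (nat_lit 5) (nat_lit 3) (nat_lit 4) (nat_lit 1) (nat_lit 4) (nat_lit 331) (nat_lit 233) (nat_lit 216))) (XT.nd (nat_lit 78) (nat_lit 0) (nat_lit 0) (XT.lf (nat_lit 0) (nat_lit 35338567734) (nat_lit 152) (nat_lit 222898713107) (nat_lit 0) (nat_lit 34046215483) (nat_lit 1) (nat_lit 5) (nat_lit 3) (nat_lit 4) (nat_lit 1) (nat_lit 4) (nat_lit 332) (nat_lit 233) (nat_lit 215)) (XT.lf (nat_lit 0) (nat_lit 39604258551) (nat_lit 152) (nat_lit 237655022979) (nat_lit 0) (nat_lit 38279953973)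 (nat_lit 1) (nat_lit 5) (nat_lit 3) (nat_lit 4) (nat_lit 1) (nat_lit 4) (nat_lit 333) (nat_lit 233) (nat_lit 214))))))) (XT.nd (nat_lit 1170) (nat_lit 0) (nat_lit 0) (XT.nd (nat_lit 546) (nat_lit 0) (nat_lit 0) (XT.nd (nat_lit 234) (nat_lit 0) (nat_lit 0) (XT.nd (nat_lit 78) (nat_lit 0) (nat_lit 0) (XT.lf (nat_lit 0) (nat_lit 44173226296) (nat_lit 152) (nat_lit 253665929322) (nat_lit 0) (nat_lit 42819336229) (nat_lit 1) (nat_lit 5) (nat_lit 3) (nat_lit 4) (nat_lit 1) (nat_lit 4) (nat_lit 334) (nat_lit 233) (nat_lit 213)) (XT.nd (nat_lit 78) (nat_lit 0) (nat_lit 0) (XT.lf (nat_lit 0) (nat_lit 49072546331) (nat_lit 152) (nat_lit 271026311581) (nat_lit 0) (nat_lit 47691262293) (nat_lit 1) (nat_lit 5) (nat_lit 3) (nat_lit 4) (nat_lit 1) (nat_lit 4) (nat_lit 335) (nat_lit 233) (nat_lit 212)) (XT.lf (nat_lit 0) (nat_lit 54331251665) (nat_lit 152) (nat_lit 289839046096) (nat_lit 0) (nat_lit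 52924602840) (nat_lit 1) (nat_lit 5) (nat_lit 3) (nat_lit 4) (nat_lit 1) (nat_lit 4) (nat_lit 336) (nat_lit 233) (nat_lit 211)))) (XT.nd (nat_lit 156) (nat_lit 0) (nat_lit 0) (XT.nd (nat_lit 78) (nat_lit 0) (nat_lit 0) (XT.lf (nat_lit 0) (nat_lit 59980504996) (nat_lit 152) (nat_lit 310215615738) (nat_lit 0) (nat_lit 58550370256) (nat_lit 1) (nat_lit 5) (nat_lit 3) (nat_lit 4) (nat_lit 1) (nat_lit 4) (nat_lit 337) (nat_lit 233) (nat_lit 210)) (XT.lf (nat_lit 0) (nat_lit 66053783381) (nat_lit 152) (nat_lit 332276770549) (nat_lit 0) (nat_lit 64601902424) (nat_lit 1) (nat_lit 5) (nat_lit 3) (nat_lit 4) (nat_lit 1) (nat_lit 4) (nat_lit 338) (nat_lit 233) (nat_lit 209))) (XT.nd (nat_lit 78) (nat_lit 0) (nat_lit 0) (XT.lf (nat_lit 0) (nat_lit 72587076618) (nat_lit 152) (nat_lit 356153243299) (nat_lit 0) (nat_lit 71115060275) (nat_lit 1) (nat_lit 5) (nat_lit 3) (nat_lit 4) (nat_lit 1) (nat_lit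 4) (nat_lit 339) (nat_lit 233) (nat_lit 208)) (XT.lf (nat_lit 0) (nat_lit 79619100519) (nat_lit 152) (nat_lit 381986524196) (nat_lit 0) (nat_lit 78128440299) (nat_lit 1) (nat_lit 5) (nat_lit 3) (nat_lit 4) (nat_lit 1) (nat_lit 4) (nat_lit 340) (nat_lit 233) (nat_lit 207))))) (XT.nd (nat_lit 312) (nat_lit 0) (nat_lit 0) (XT.nd (nat_lit 156) (nat_lit 0) (nat_lit 0) (XT.nd (nat_lit 78) (nat_lit 0) (nat_lit 0) (XT.lf (nat_lit 0) (nat_lit 87191526335) (nat_lit 152) (nat_lit 409929699349) (nat_lit 0) (nat_lit 85683603267) (nat_lit 1) (nat_lit 5) (nat_lit 3) (nat_lit 4) (nat_lit 1) (nat_lit 4) (nat_lit 341) (nat_lit 233) (nat_lit 206)) (XT.lf (nat_lit 0) (nat_lit 95349227703) (nat_lit 152) (nat_lit 440148357944) (nat_lit 0) (nat_lit 93825320516) (nat_lit 1) (nat_lit 5) (nat_lit 3) (nat_lit 4) (nat_lit 1) (nat_lit 4) (nat_lit 342) (nat_lit 233) (nat_lit 205))) (XT.nd (nat_lit 78) (nat_lit 0)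 (nat_lit 0) (XT.lf (nat_lit 0) (nat_lit 104140546555) (nat_lit 152) (nat_lit 472821573515) (nat_lit 0) (nat_lit 102601839258) (nat_lit 1) (nat_lit 5) (nat_lit 3) (nat_lit 4) (nat_lit 1) (nat_lit 4) (nat_lit 343) (nat_lit 233) (nat_lit 204)) (XT.lf (nat_lit 0) (nat_lit 113617579596) (nat_lit 152) (nat_lit 508142965115) (nat_lit 0) (nat_lit 112065168494) (nat_lit 1) (nat_lit 5) (nat_lit 3) (nat_lit 4) (nat_lit 1) (nat_lit 4) (nat_lit 344) (nat_lit 233) (nat_lit 203)))) (XT.nd (nat_lit 156) (nat_lit 0) (nat_lit 0) (XT.nd (nat_lit 78) (nat_lit 0) (nat_lit 0) (XT.lf (nat_lit 0) (nat_lit 123836487022) (nat_lit 152) (nat_lit 546321844696) (nat_lit 0) (nat_lit 122271387211) (nat_lit 1) (nat_lit 5) (nat_lit 3) (nat_lit 4) (nat_lit 1) (nat_lit 4) (nat_lit 345) (nat_lit 233) (nat_lit 202)) (XT.lf (nat_lit 0) (nat_lit 134857825322) (nat_lit 152) (nat_lit 587584457470) (nat_lit 0) (nat_lit 133280976706)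 (nat_lit 1) (nat_lit 5) (nat_lit 3) (nat_lit 4) (nat_lit 1) (nat_lit 4) (nat_lit 346) (nat_lit 233) (nat_lit 201))) (XT.nd (nat_lit 78) (nat_lit 0) (nat_lit 0) (XT.lf (nat_lit 0) (nat_lit 146746906129) (nat_lit 152) (nat_lit 632175322623) (nat_lit 0) (nat_lit 145159178990) (nat_lit 1) (nat_lit 5) (nat_lit 3) (nat_lit 4) (nat_lit 1) (nat_lit 4) (nat_lit 347) (nat_lit 233) (nat_lit 200)) (XT.lf (nat_lit 0) (nat_lit 159574183256) (nat_lit 152) (nat_lit 680358682319) (nat_lit 0) (nat_lit 157976383411) (nat_lit 1) (nat_lit 5) (nat_lit 3) (nat_lit 4) (nat_lit 1) (nat_lit 4) (nat_lit 348) (nat_lit 233) (nat_lit 199)))))) (XT.nd (nat_lit 624) (nat_lit 0) (nat_lit 0) (XT.nd (nat_lit 312) (nat_lit 0) (nat_lit 0) (XT.nd (nat_lit 156) (nat_lit 0) (nat_lit 0) (XT.nd (nat_lit 78) (nat_lit 0) (nat_lit 0) (XT.lf (nat_lit 0) (nat_lit 173415670197) (nat_lit 152) (nat_lit 732420067579) (nat_lit 0) (nat_lit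 171808543772) (nat_lit 1) (nat_lit 5) (nat_lit 3) (nat_lit 4) (nat_lit 1) (nat_lit 4) (nat_lit 349) (nat_lit 233) (nat_lit 198)) (XT.lf (nat_lit 0) (nat_lit 188353390578) (nat_lit 152) (nat_lit 788667990315) (nat_lit 0) (nat_lit 186737628431) (nat_lit 1) (nat_lit 5) (nat_lit 3) (nat_lit 4) (nat_lit 1) (nat_lit 4) (nat_lit 350) (nat_lit 233) (nat_lit 197))) (XT.nd (nat_lit 78) (nat_lit 0) (nat_lit 0) (XT.lf (nat_lit 0) (nat_lit 204475864224) (nat_lit 152) (nat_lit 849435771552) (nat_lit 0) (nat_lit 202852106038) (nat_lit 1) (nat_lit 5) (nat_lit 3) (nat_lit 4) (nat_lit 1) (nat_lit 4) (nat_lit 351) (nat_lit 233) (nat_lit 196)) (XT.lf (nat_lit 0) (nat_lit 221878631719) (nat_lit 152) (nat_lit 915083516658) (nat_lit 0) (nat_lit 220247469794) (nat_lit 1) (nat_lit 5) (nat_lit 3) (nat_lit 4) (nat_lit 1) (nat_lit 4) (nat_lit 352) (nat_lit 233) (nat_lit 195)))) (XT.nd (nat_lit 156) (nat_lit 0)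 (nat_lit 0) (XT.nd (nat_lit 78) (nat_lit 0) (nat_lit 0) (XT.lf (nat_lit 0) (nat_lit 240664820575) (nat_lit 152) (nat_lit 986000249310) (nat_lit 0) (nat_lit 239026803335) (nat_lit 1) (nat_lit 5) (nat_lit 3) (nat_lit 4) (nat_lit 1) (nat_lit 4) (nat_lit 353) (nat_lit 233) (nat_lit 194)) (XT.lf (nat_lit 0) (nat_lit 260945756355) (nat_lit 152) (nat_lit 1062606216811) (nat_lit 0) (nat_lit 259301391601) (nat_lit 1) (nat_lit 5) (nat_lit 3) (nat_lit 4) (nat_lit 1) (nat_lit 4) (nat_lit 354) (nat_lit 233) (nat_lit 193))) (XT.nd (nat_lit 78) (nat_lit 0) (nat_lit 0) (XT.lf (nat_lit 0) (nat_lit 282841622381) (nat_lit 152) (nat_lit 1145355380451) (nat_lit 0) (nat_lit 281191380300) (nat_lit 1) (nat_lit 5) (nat_lit 3) (nat_lit 4) (nat_lit 1) (nat_lit 4) (nat_lit 355) (nat_lit 233) (nat_lit 192)) (XT.lf (nat_lit 0) (nat_lit 306482171936) (nat_lit 152) (nat_lit 1234738105643) (nat_lit 0) (nat_lit 304826487885)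 (nat_lit 1) (nat_lit 5) (nat_lit 3) (nat_lit 4) (nat_lit 1) (nat_lit 4) (nat_lit 356) (nat_lit 233) (nat_lit 191))))) (XT.nd (nat_lit 312) (nat_lit 0) (nat_lit 0) (XT.nd (nat_lit 156) (nat_lit 0) (nat_lit 0) (XT.nd (nat_lit 78) (nat_lit 0) (nat_lit 0) (XT.lf (nat_lit 0) (nat_lit 332007497162) (nat_lit 152) (nat_lit 1331284067797) (nat_lit 0) (nat_lit 330346774251) (nat_lit 1) (nat_lit 5) (nat_lit 3) (nat_lit 4) (nat_lit 1) (nat_lit 4) (nat_lit 357) (nat_lit 233) (nat_lit 190)) (XT.lf (nat_lit 0) (nat_lit 359568859249) (nat_lit 152) (nat_lit 1435565391132) (nat_lit 0) (nat_lit 357903470725) (nat_lit 1) (nat_lit 5) (nat_lit 3) (nat_lit 4) (nat_lit 1) (nat_lit 4) (nat_lit 358) (nat_lit 233) (nat_lit 189))) (XT.nd (nat_lit 78) (nat_lit 0) (nat_lit 0) (XT.lf (nat_lit 0) (nat_lit 389329584784) (nat_lit 152) (nat_lit 1548200039046) (nat_lit 0) (nat_lit 387659876250) (nat_lit 1) (nat_lit 5)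 (nat_lit 3) (nat_lit 4) (nat_lit 1) (nat_lit 4) (nat_lit 359) (nat_lit 233) (nat_lit 188)) (XT.lf (nat_lit 0) (nat_lit 421466033625) (nat_lit 152) (nat_lit 1669855476119) (nat_lit 0) (nat_lit 419792325080) (nat_lit 1) (nat_lit 5) (nat_lit 3) (nat_lit 4) (nat_lit 1) (nat_lit 4) (nat_lit 360) (nat_lit 233) (nat_lit 187)))) (XT.nd (nat_lit 156) (nat_lit 0) (nat_lit 0) (XT.nd (nat_lit 78) (nat_lit 0) (nat_lit 0) (XT.lf (nat_lit 0) (nat_lit 456168643985) (nat_lit 152) (nat_lit 1801252623459) (nat_lit 0) (nat_lit 454491231727) (nat_lit 1) (nat_lit 5) (nat_lit 3) (nat_lit 4) (nat_lit 1) (nat_lit 4) (nat_lit 361) (nat_lit 233) (nat_lit 186)) (XT.lf (nat_lit 0) (nat_lit 493643060963) (nat_lit 152) (nat_lit 1943170130830) (nat_lit 0) (nat_lit 491962219341) (nat_lit 1) (nat_lit 5) (nat_lit 3) (nat_lit 4) (nat_lit 1) (nat_lit 4) (nat_lit 362) (nat_lit 233) (nat_lit 185))) (XT.nd (nat_lit 78) (nat_lit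 0) (nat_lit 0) (XT.lf (nat_lit 0) (nat_lit 534111355179) (nat_lit 152) (nat_lit 2096448990866) (nat_lit 0) (nat_lit 532427338220) (nat_lit 1) (nat_lit 5) (nat_lit 3) (nat_lit 4) (nat_lit 1) (nat_lit 4) (nat_lit 363) (nat_lit 233) (nat_lit 184)) (XT.lf (nat_lit 0) (nat_lit 577813338746) (nat_lit 152) (nat_lit 2261997522740) (nat_lit 0) (nat_lit 576126381660) (nat_lit 1) (nat_lit 5) (nat_lit 3) (nat_lit 4) (nat_lit 1) (nat_lit 4) (nat_lit 364) (nat_lit 233) (nat_lit 183))))))))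
noncomputable def xc14 : XT := (XT.nd (nat_lit 38376) (nat_lit 0) (nat_lit 0) (XT.nd (nat_lit 37206) (nat_lit 0) (nat_lit 0) (XT.nd (nat_lit 36582) (nat_lit 0) (nat_lit 152) (XT.nd (nat_lit 234) (nat_lit 0) (nat_lit 0) (XT.nd (nat_lit 78) (nat_lit 0) (nat_lit 0) (XT.lf (nat_lit 0) (nat_lit 625007986382) (nat_lit 152) (nat_lit 2440796754786) (nat_lit 0) (nat_lit 623318306956) (nat_lit 1) (nat_lit 5) (nat_lit 3) (nat_lit 4) (nat_lit 1) (nat_lit 4) (nat_lit 365) (nat_lit 233) (nat_lit 182)) (XT.nd (nat_lit 78) (nat_lit 0) (nat_lit 0) (XT.lf (nat_lit 0) (nat_lit 675974970072) (nat_lit 152) (nat_lit 2633906238012) (nat_lit 0) (nat_lit 674282769961) (nat_lit 1) (nat_lit 5) (nat_lit 3) (nat_lit 4) (nat_lit 1) (nat_lit 4) (nat_lit 366) (nat_lit 233) (nat_lit 181)) (XT.lf (nat_lit 0) (nat_lit 731016316387) (nat_lit 152) (nat_lit 2842470324908) (nat_lit 0) (nat_lit 729321782309) (nat_lit 1) (nat_lit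 5) (nat_lit 3) (nat_lit 4) (nat_lit 1) (nat_lit 4) (nat_lit 367) (nat_lit 233) (nat_lit 180)))) (XT.nd (nat_lit 156) (nat_lit 0) (nat_lit 0) (XT.nd (nat_lit 78) (nat_lit 0) (nat_lit 0) (XT.lf (nat_lit 0) (nat_lit 790458196268) (nat_lit 152) (nat_lit 3067724950806) (nat_lit 0) (nat_lit 788761501109) (nat_lit 1) (nat_lit 5) (nat_lit 3) (nat_lit 4) (nat_lit 1) (nat_lit 4) (nat_lit 368) (nat_lit 233) (nat_lit 179)) (XT.lf (nat_lit 0) (nat_lit 854652857892) (nat_lit 152) (nat_lit 3311004957933) (nat_lit 0) (nat_lit 852954161732) (nat_lit 1) (nat_lit 5) (nat_lit 3) (nat_lit 4) (nat_lit 1) (nat_lit 4) (nat_lit 369) (nat_lit 233) (nat_lit 178))) (XT.nd (nat_lit 36114) (nat_lit 0) (nat_lit 152) (XT.lf (nat_lit 0) (nat_lit 923980714069) (nat_lit 152) (nat_lit 3573752005590) (nat_lit 0) (nat_lit 922280165130) (nat_lit 1) (nat_lit 5) (nat_lit 3) (nat_lit 4) (nat_lit 1) (nat_lit 4) (nat_lit 370)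 (nat_lit 233) (nat_lit 177)) (XT.lf (nat_lit 0) (nat_lit 16629673080) (nat_lit 76) (nat_lit 7837407660) (nat_lit 76) (nat_lit 7837407660) (nat_lit 3) (nat_lit 4) (nat_lit 4) (nat_lit 5) (nat_lit 4) (nat_lit 4) (nat_lit 312) (nat_lit 234) (nat_lit 234))))) (XT.nd (nat_lit 312) (nat_lit 0) (nat_lit 0) (XT.nd (nat_lit 156) (nat_lit 0) (nat_lit 0) (XT.nd (nat_lit 78) (nat_lit 0) (nat_lit 0) (XT.lf (nat_lit 0) (nat_lit 41802194574) (nat_lit 76) (nat_lit 13939138542) (nat_lit 76) (nat_lit 13790210113) (nat_lit 3) (nat_lit 4) (nat_lit 4) (nat_lit 5) (nat_lit 4) (nat_lit 4) (nat_lit 313) (nat_lit 234) (nat_lit 233)) (XT.lf (nat_lit 0) (nat_lit 50741673639) (nat_lit 76) (nat_lit 12202534114) (nat_lit 76) (nat_lit 11915708991) (nat_lit 3) (nat_lit 4) (nat_lit 4) (nat_lit 5) (nat_lit 4) (nat_lit 4) (nat_lit 314) (nat_lit 234) (nat_lit 232))) (XT.nd (nat_lit 78) (nat_lit 0) (nat_lit 0) (XT.lf (nat_lit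 0) (nat_lit 60130758045) (nat_lit 76) (nat_lit 10454711046) (nat_lit 76) (nat_lit 10040203799) (nat_lit 3) (nat_lit 4) (nat_lit 4) (nat_lit 5) (nat_lit 4) (nat_lit 4) (nat_lit 315) (nat_lit 234) (nat_lit 231)) (XT.lf (nat_lit 0) (nat_lit 70025086812) (nat_lit 76) (nat_lit 8685311868) (nat_lit 76) (nat_lit 8152580432) (nat_lit 3) (nat_lit 4) (nat_lit 4) (nat_lit 5) (nat_lit 4) (nat_lit 4) (nat_lit 316) (nat_lit 234) (nat_lit 230)))) (XT.nd (nat_lit 156) (nat_lit 0) (nat_lit 0) (XT.nd (nat_lit 78) (nat_lit 0) (nat_lit 0) (XT.lf (nat_lit 0) (nat_lit 80483292998) (nat_lit 76) (nat_lit 6883851252) (nat_lit 76) (nat_lit 6241652975) (nat_lit 3) (nat_lit 4) (nat_lit 4) (nat_lit 5) (nat_lit 4) (nat_lit 4) (nat_lit 317) (nat_lit 234) (nat_lit 229)) (XT.lf (nat_lit 0) (nat_lit 91567351159) (nat_lit 76) (nat_lit 5039653877) (nat_lit 76) (nat_lit 4296097413) (nat_lit 3) (nat_lit 4) (nat_lit 4) (nat_lit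 5) (nat_lit 4) (nat_lit 4) (nat_lit 318) (nat_lit 234) (nat_lit 228))) (XT.nd (nat_lit 78) (nat_lit 0) (nat_lit 0) (XT.lf (nat_lit 0) (nat_lit 103342944603) (nat_lit 76) (nat_lit 3141791163) (nat_lit 76) (nat_lit 2304384527) (nat_lit 3) (nat_lit 4) (nat_lit 4) (nat_lit 5) (nat_lit 4) (nat_lit 4) (nat_lit 319) (nat_lit 234) (nat_lit 227)) (XT.lf (nat_lit 0) (nat_lit 115879854624) (nat_lit 76) (nat_lit 1179016519) (nat_lit 76) (nat_lit 254711574) (nat_lit 3) (nat_lit 4) (nat_lit 4) (nat_lit 5) (nat_lit 4) (nat_lit 4) (nat_lit 320) (nat_lit 234) (nat_lit 226)))))) (XT.nd (nat_lit 546) (nat_lit 0) (nat_lit 0) (XT.nd (nat_lit 234) (nat_lit 0) (nat_lit 0) (XT.nd (nat_lit 78) (nat_lit 0) (nat_lit 0) (XT.lf (nat_lit 0) (nat_lit 1863248488) (nat_lit 152) (nat_lit 123719940564) (nat_lit 0) (nat_lit 932909283) (nat_lit 1) (nat_lit 5) (nat_lit 3) (nat_lit 4) (nat_lit 1) (nat_lit 4) (nat_lit 321)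 (nat_lit 234) (nat_lit 225)) (XT.nd (nat_lit 78) (nat_lit 0) (nat_lit 0) (XT.lf (nat_lit 0) (nat_lit 4119175211) (nat_lit 152) (nat_lit 129216720198) (nat_lit 0) (nat_lit 3119853328) (nat_lit 1) (nat_lit 5) (nat_lit 3) (nat_lit 4) (nat_lit 1) (nat_lit 4) (nat_lit 322) (nat_lit 234) (nat_lit 224)) (XT.lf (nat_lit 0) (nat_lit 6473583688) (nat_lit 152) (nat_lit 135313200587) (nat_lit 0) (nat_lit 5410388954) (nat_lit 1) (nat_lit 5) (nat_lit 3) (nat_lit 4) (nat_lit 1) (nat_lit 4) (nat_lit 323) (nat_lit 234) (nat_lit 223)))) (XT.nd (nat_lit 156) (nat_lit 0) (nat_lit 0) (XT.nd (nat_lit 78) (nat_lit 0) (nat_lit 0) (XT.lf (nat_lit 0) (nat_lit 8940425969) (nat_lit 152) (nat_lit 142045509022) (nat_lit 0) (nat_lit 7818089706) (nat_lit 1) (nat_lit 5) (nat_lit 3) (nat_lit 4) (nat_lit 1) (nat_lit 4) (nat_lit 324) (nat_lit 234) (nat_lit 222)) (XT.lf (nat_lit 0) (nat_lit 11534320377) (nat_lit 152) (nat_lit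 149453540663) (nat_lit 0) (nat_lit 10357223441) (nat_lit 1) (nat_lit 5) (nat_lit 3) (nat_lit 4) (nat_lit 1) (nat_lit 4) (nat_lit 325) (nat_lit 234) (nat_lit 221))) (XT.nd (nat_lit 78) (nat_lit 0) (nat_lit 0) (XT.lf (nat_lit 0) (nat_lit 14270638141) (nat_lit 152) (nat_lit 157581194957) (nat_lit 0) (nat_lit 13042836876) (nat_lit 1) (nat_lit 5) (nat_lit 3) (nat_lit 4) (nat_lit 1) (nat_lit 4) (nat_lit 326) (nat_lit 234) (nat_lit 220)) (XT.lf (nat_lit 0) (nat_lit 17165594475) (nat_lit 152) (nat_lit 166476635782) (nat_lit 0) (nat_lit 15890844758) (nat_lit 1) (nat_lit 5) (nat_lit 3) (nat_lit 4) (nat_lit 1) (nat_lit 4) (nat_lit 327) (nat_lit 234) (nat_lit 219))))) (XT.nd (nat_lit 312) (nat_lit 0) (nat_lit 0) (XT.nd (nat_lit 156) (nat_lit 0) (nat_lit 0) (XT.nd (nat_lit 78) (nat_lit 0) (nat_lit 0) (XT.lf (nat_lit 0) (nat_lit 20236344676) (nat_lit 152) (nat_lit 176192576861) (nat_lit 0) (nat_lit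 18918124171) (nat_lit 1) (nat_lit 5) (nat_lit 3) (nat_lit 4) (nat_lit 1) (nat_lit 4) (nat_lit 328) (nat_lit 234) (nat_lit 218)) (XT.lf (nat_lit 0) (nat_lit 23501085784) (nat_lit 152) (nat_lit 186786594141) (nat_lit 0) (nat_lit 22142614548) (nat_lit 1) (nat_lit 5) (nat_lit 3) (nat_lit 4) (nat_lit 1) (nat_lit 4) (nat_lit 329) (nat_lit 234) (nat_lit 217))) (XT.nd (nat_lit 78) (nat_lit 0) (nat_lit 0) (XT.lf (nat_lit 0) (nat_lit 26979164411) (nat_lit 152) (nat_lit 198321466983) (nat_lit 0) (nat_lit 25583423980) (nat_lit 1) (nat_lit 5) (nat_lit 3) (nat_lit 4) (nat_lit 1) (nat_lit 4) (nat_lit 330) (nat_lit 234) (nat_lit 216)) (XT.lf (nat_lit 0) (nat_lit 30691191394) (nat_lit 152) (nat_lit 210865550191) (nat_lit 0) (nat_lit 29260942450) (nat_lit 1) (nat_lit 5) (nat_lit 3) (nat_lit 4) (nat_lit 1) (nat_lit 4) (nat_lit 331) (nat_lit 234) (nat_lit 215)))) (XT.nd (nat_lit 156) (nat_lit 0) (nat_lit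 0) (XT.nd (nat_lit 78) (nat_lit 0) (nat_lit 0) (XT.lf (nat_lit 0) (nat_lit 34659163931) (nat_lit 152) (nat_lit 224493179072) (nat_lit 0) (nat_lit 33196962658) (nat_lit 1) (nat_lit 5) (nat_lit 3) (nat_lit 4) (nat_lit 1) (nat_lit 4) (nat_lit 332) (nat_lit 234) (nat_lit 214)) (XT.lf (nat_lit 0) (nat_lit 38906595931) (nat_lit 152) (nat_lit 239285109944) (nat_lit 0) (nat_lit 37414809171) (nat_lit 1) (nat_lit 5) (nat_lit 3) (nat_lit 4) (nat_lit 1) (nat_lit 4) (nat_lit 333) (nat_lit 234) (nat_lit 213))) (XT.nd (nat_lit 78) (nat_lit 0) (nat_lit 0) (XT.lf (nat_lit 0) (nat_lit 43458657364) (nat_lit 152) (nat_lit 255328998695) (nat_lit 0) (nat_lit 41939476632) (nat_lit 1) (nat_lit 5) (nat_lit 3) (nat_lit 4) (nat_lit 1) (nat_lit 4) (nat_lit 334) (nat_lit 234) (nat_lit 212)) (XT.lf (nat_lit 0) (nat_lit 48342323407) (nat_lit 152) (nat_lit 272719920222) (nat_lit 0) (nat_lit 46797777887) (nat_lit 1)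 (nat_lit 5) (nat_lit 3) (nat_lit 4) (nat_lit 1) (nat_lit 4) (nat_lit 335) (nat_lit 234) (nat_lit 211))))))) (XT.nd (nat_lit 1170) (nat_lit 0) (nat_lit 0) (XT.nd (nat_lit 546) (nat_lit 0) (nat_lit 0) (XT.nd (nat_lit 234) (nat_lit 0) (nat_lit 0) (XT.nd (nat_lit 78) (nat_lit 0) (nat_lit 0) (XT.lf (nat_lit 0) (nat_lit 53586534303) (nat_lit 152) (nat_lit 291560931836) (nat_lit 0) (nat_lit 52018502870) (nat_lit 1) (nat_lit 5) (nat_lit 3) (nat_lit 4) (nat_lit 1) (nat_lit 4) (nat_lit 336) (nat_lit 234) (nat_lit 210)) (XT.nd (nat_lit 78) (nat_lit 0) (nat_lit 0) (XT.lf (nat_lit 0) (nat_lit 59222366859) (nat_lit 152) (nat_lit 311963683976) (nat_lit 0) (nat_lit 57632589208) (nat_lit 1) (nat_lit 5) (nat_lit 3) (nat_lit 4) (nat_lit 1) (nat_lit 4) (nat_lit 337) (nat_lit 234) (nat_lit 209)) (XT.lf (nat_lit 0) (nat_lit 65283218601) (nat_lit 152) (nat_lit 334049081842) (nat_lit 0) (nat_lit 63673305564)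 (nat_lit 1) (nat_lit 5) (nat_lit 3) (nat_lit 4) (nat_lit 1) (nat_lit 4) (nat_lit 338) (nat_lit 234) (nat_lit 208)))) (XT.nd (nat_lit 156) (nat_lit 0) (nat_lit 0) (XT.nd (nat_lit 78) (nat_lit 0) (nat_lit 0) (XT.lf (nat_lit 0) (nat_lit 71805005686) (nat_lit 152) (nat_lit 357948001864) (nat_lit 0) (nat_lit 70176448773) (nat_lit 1) (nat_lit 5) (nat_lit 3) (nat_lit 4) (nat_lit 1) (nat_lit 4) (nat_lit 339) (nat_lit 234) (nat_lit 207)) (XT.lf (nat_lit 0) (nat_lit 78826375742) (nat_lit 152) (nat_lit 383802067273) (nat_lit 0) (nat_lit 77180555980) (nat_lit 1) (nat_lit 5) (nat_lit 3) (nat_lit 4) (nat_lit 1) (nat_lit 4) (nat_lit 340) (nat_lit 234) (nat_lit 206))) (XT.nd (nat_lit 78) (nat_lit 0) (nat_lit 0) (XT.lf (nat_lit 0) (nat_lit 86388936889) (nat_lit 152) (nat_lit 411764487345) (nat_lit 0) (nat_lit 84727133008) (nat_lit 1) (nat_lit 5) (nat_lit 3) (nat_lit 4) (nat_lit 1) (nat_lit 4) (nat_lit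 341) (nat_lit 234) (nat_lit 205)) (XT.lf (nat_lit 0) (nat_lit 94537504302) (nat_lit 152) (nat_lit 442000965309) (nat_lit 0) (nat_lit 92860900311) (nat_lit 1) (nat_lit 5) (nat_lit 3) (nat_lit 4) (nat_lit 1) (nat_lit 4) (nat_lit 342) (nat_lit 234) (nat_lit 204))))) (XT.nd (nat_lit 312) (nat_lit 0) (nat_lit 0) (XT.nd (nat_lit 156) (nat_lit 0) (nat_lit 0) (XT.nd (nat_lit 78) (nat_lit 0) (nat_lit 0) (XT.lf (nat_lit 0) (nat_lit 103320365789) (nat_lit 152) (nat_lit 474690680295) (nat_lit 0) (nat_lit 101630057993) (nat_lit 1) (nat_lit 5) (nat_lit 3) (nat_lit 4) (nat_lit 1) (nat_lit 4) (nat_lit 343) (nat_lit 234) (nat_lit 203)) (XT.lf (nat_lit 0) (nat_lit 112789567937) (nat_lit 152) (nat_lit 510027349132) (nat_lit 0) (nat_lit 111086571432) (nat_lit 1) (nat_lit 5) (nat_lit 3) (nat_lit 4) (nat_lit 1) (nat_lit 4) (nat_lit 344) (nat_lit 234) (nat_lit 202))) (XT.nd (nat_lit 78) (nat_lit 0) (nat_lit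 0) (XT.lf (nat_lit 0) (nat_lit 123001224536) (nat_lit 152) (nat_lit 548220374303) (nat_lit 0) (nat_lit 121286479226) (nat_lit 1) (nat_lit 5) (nat_lit 3) (nat_lit 4) (nat_lit 1) (nat_lit 4) (nat_lit 345) (nat_lit 234) (nat_lit 201)) (XT.lf (nat_lit 0) (nat_lit 134015849106) (nat_lit 152) (nat_lit 589496084844) (nat_lit 0) (nat_lit 132290225274) (nat_lit 1) (nat_lit 5) (nat_lit 3) (nat_lit 4) (nat_lit 1) (nat_lit 4) (nat_lit 346) (nat_lit 234) (nat_lit 200)))) (XT.nd (nat_lit 156) (nat_lit 0) (nat_lit 0) (XT.nd (nat_lit 78) (nat_lit 0) (nat_lit 0) (XT.lf (nat_lit 0) (nat_lit 145898713497) (nat_lit 152) (nat_lit 634099077560) (nat_lit 0) (nat_lit 144163016959) (nat_lit 1) (nat_lit 5) (nat_lit 3) (nat_lit 4) (nat_lit 1) (nat_lit 4) (nat_lit 347) (nat_lit 234) (nat_lit 199)) (XT.lf (nat_lit 0) (nat_lit 158720234684) (nat_lit 152) (nat_lit 682293666481) (nat_lit 0) (nat_lit 156975211565) (nat_lit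 1) (nat_lit 5) (nat_lit 3) (nat_lit 4) (nat_lit 1) (nat_lit 4) (nat_lit 348) (nat_lit 234) (nat_lit 198))) (XT.nd (nat_lit 78) (nat_lit 0) (nat_lit 0) (XT.lf (nat_lit 0) (nat_lit 172556392050) (nat_lit 152) (nat_lit 734365449172) (nat_lit 0) (nat_lit 170802733210) (nat_lit 1) (nat_lit 5) (nat_lit 3) (nat_lit 4) (nat_lit 1) (nat_lit 4) (nat_lit 349) (nat_lit 234) (nat_lit 197)) (XT.lf (nat_lit 0) (nat_lit 187489177640) (nat_lit 152) (nat_lit 790622999159) (nat_lit 0) (nat_lit 185727522761) (nat_lit 1) (nat_lit 5) (nat_lit 3) (nat_lit 4) (nat_lit 1) (nat_lit 4) (nat_lit 350) (nat_lit 234) (nat_lit 196)))))) (XT.nd (nat_lit 624) (nat_lit 0) (nat_lit 0) (XT.nd (nat_lit 312) (nat_lit 0) (nat_lit 0) (XT.nd (nat_lit 156) (nat_lit 0) (nat_lit 0) (XT.nd (nat_lit 78) (nat_lit 0) (nat_lit 0) (XT.lf (nat_lit 0) (nat_lit 203607082035) (nat_lit 152) (nat_lit 851399694516) (nat_lit 0) (nat_lit 201838023416)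 (nat_lit 1) (nat_lit 5) (nat_lit 3) (nat_lit 4) (nat_lit 1) (nat_lit 4) (nat_lit 351) (nat_lit 234) (nat_lit 195)) (XT.lf (nat_lit 0) (nat_lit 221005618742) (nat_lit 152) (nat_lit 917055693438) (nat_lit 0) (nat_lit 219229704808) (nat_lit 1) (nat_lit 5) (nat_lit 3) (nat_lit 4) (nat_lit 1) (nat_lit 4) (nat_lit 352) (nat_lit 234) (nat_lit 194))) (XT.nd (nat_lit 78) (nat_lit 0) (nat_lit 0) (XT.lf (nat_lit 0) (nat_lit 239787890202) (nat_lit 152) (nat_lit 987980068512) (nat_lit 0) (nat_lit 238005628754) (nat_lit 1) (nat_lit 5) (nat_lit 3) (nat_lit 4) (nat_lit 1) (nat_lit 4) (nat_lit 353) (nat_lit 234) (nat_lit 193)) (XT.lf (nat_lit 0) (nat_lit 260065198762) (nat_lit 152) (nat_lit 1064593112329) (nat_lit 0) (nat_lit 258277059988) (nat_lit 1) (nat_lit 5) (nat_lit 3) (nat_lit 4) (nat_lit 1) (nat_lit 4) (nat_lit 354) (nat_lit 234) (nat_lit 192)))) (XT.nd (nat_lit 156) (nat_lit 0) (nat_lit 0) (XT.nd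 (nat_lit 78) (nat_lit 0) (nat_lit 0) (XT.lf (nat_lit 0) (nat_lit 281957706253) (nat_lit 152) (nat_lit 1147348828114) (nat_lit 0) (nat_lit 280164125509) (nat_lit 1) (nat_lit 5) (nat_lit 3) (nat_lit 4) (nat_lit 1) (nat_lit 4) (nat_lit 355) (nat_lit 234) (nat_lit 191)) (XT.lf (nat_lit 0) (nat_lit 305595146052) (nat_lit 152) (nat_lit 1236737620107) (nat_lit 0) (nat_lit 303796526447) (nat_lit 1) (nat_lit 5) (nat_lit 3) (nat_lit 4) (nat_lit 1) (nat_lit 4) (nat_lit 356) (nat_lit 234) (nat_lit 190))) (XT.nd (nat_lit 78) (nat_lit 0) (nat_lit 0) (XT.lf (nat_lit 0) (nat_lit 331117591876) (nat_lit 152) (nat_lit 1333289199669) (nat_lit 0) (nat_lit 329314306658) (nat_lit 1) (nat_lit 5) (nat_lit 3) (nat_lit 4) (nat_lit 1) (nat_lit 4) (nat_lit 357) (nat_lit 234) (nat_lit 189)) (XT.lf (nat_lit 0) (nat_lit 358676287848) (nat_lit 152) (nat_lit 1437575724308) (nat_lit 0) (nat_lit 356868682619) (nat_lit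 1) (nat_lit 5) (nat_lit 3) (nat_lit 4) (nat_lit 1) (nat_lit 4) (nat_lit 358) (nat_lit 234) (nat_lit 188))))) (XT.nd (nat_lit 312) (nat_lit 0) (nat_lit 0) (XT.nd (nat_lit 156) (nat_lit 0) (nat_lit 0) (XT.nd (nat_lit 78) (nat_lit 0) (nat_lit 0) (XT.lf (nat_lit 0) (nat_lit 388434544759) (nat_lit 152) (nat_lit 1550215188244) (nat_lit 0) (nat_lit 386622939521) (nat_lit 1) (nat_lit 5) (nat_lit 3) (nat_lit 4) (nat_lit 1) (nat_lit 4) (nat_lit 359) (nat_lit 234) (nat_lit 187)) (XT.lf (nat_lit 0) (nat_lit 420568707836) (nat_lit 152) (nat_lit 1671875084597) (nat_lit 0) (nat_lit 418753398884) (nat_lit 1) (nat_lit 5) (nat_lit 3) (nat_lit 4) (nat_lit 1) (nat_lit 4) (nat_lit 360) (nat_lit 234) (nat_lit 186))) (XT.nd (nat_lit 78) (nat_lit 0) (nat_lit 0) (XT.lf (nat_lit 0) (nat_lit 455269201749) (nat_lit 152) (nat_lit 1803276360900) (nat_lit 0) (nat_lit 453450463433) (nat_lit 1) (nat_lit 5) (nat_lit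 3) (nat_lit 4) (nat_lit 1) (nat_lit 4) (nat_lit 361) (nat_lit 234) (nat_lit 185)) (XT.lf (nat_lit 0) (nat_lit 492741659054) (nat_lit 152) (nat_lit 1945197691385) (nat_lit 0) (nat_lit 490919745401) (nat_lit 1) (nat_lit 5) (nat_lit 3) (nat_lit 4) (nat_lit 1) (nat_lit 4) (nat_lit 362) (nat_lit 234) (nat_lit 184)))) (XT.nd (nat_lit 156) (nat_lit 0) (nat_lit 0) (XT.nd (nat_lit 78) (nat_lit 0) (nat_lit 0) (XT.lf (nat_lit 0) (nat_lit 533208138757) (nat_lit 152) (nat_lit 2098480091341) (nat_lit 0) (nat_lit 531383284977) (nat_lit 1) (nat_lit 5) (nat_lit 3) (nat_lit 4) (nat_lit 1) (nat_lit 4) (nat_lit 363) (nat_lit 234) (nat_lit 183)) (XT.lf (nat_lit 0) (nat_lit 576908442220) (nat_lit 152) (nat_lit 2264031900918) (nat_lit 0) (nat_lit 575080866100) (nat_lit 1) (nat_lit 5) (nat_lit 3) (nat_lit 4) (nat_lit 1) (nat_lit 4) (nat_lit 364) (nat_lit 234) (nat_lit 182))) (XT.nd (nat_lit 78) (nat_lit 0)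 (nat_lit 0) (XT.lf (nat_lit 0) (nat_lit 624101534204) (nat_lit 152) (nat_lit 2442834167876) (nat_lit 0) (nat_lit 622271437399) (nat_lit 1) (nat_lit 5) (nat_lit 3) (nat_lit 4) (nat_lit 1) (nat_lit 4) (nat_lit 365) (nat_lit 234) (nat_lit 181)) (XT.lf (nat_lit 0) (nat_lit 675067077476) (nat_lit 152) (nat_lit 2635946461204) (nat_lit 0) (nat_lit 673234646704) (nat_lit 1) (nat_lit 5) (nat_lit 3) (nat_lit 4) (nat_lit 1) (nat_lit 4) (nat_lit 366) (nat_lit 234) (nat_lit 180))))))))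
noncomputable def xc15 : XT := (XT.nd (nat_lit 38298) (nat_lit 0) (nat_lit 0) (XT.nd (nat_lit 37050) (nat_lit 0) (nat_lit 0) (XT.nd (nat_lit 36426) (nat_lit 0) (nat_lit 152) (XT.nd (nat_lit 234) (nat_lit 0) (nat_lit 0) (XT.nd (nat_lit 78) (nat_lit 0) (nat_lit 0) (XT.lf (nat_lit 0) (nat_lit 730107090070) (nat_lit 152) (nat_lit 2844513150047) (nat_lit 0) (nat_lit 728272498217) (nat_lit 1) (nat_lit 5) (nat_lit 3) (nat_lit 4) (nat_lit 1) (nat_lit 4) (nat_lit 367) (nat_lit 234) (nat_lit 179)) (XT.nd (nat_lit 78) (nat_lit 0) (nat_lit 0) (XT.lf (nat_lit 0) (nat_lit 789547735024) (nat_lit 152) (nat_lit 3069770185155) (nat_lit 0) (nat_lit 787711142170) (nat_lit 1) (nat_lit 5) (nat_lit 3) (nat_lit 4) (nat_lit 1) (nat_lit 4) (nat_lit 368) (nat_lit 234) (nat_lit 178)) (XT.lf (nat_lit 0) (nat_lit 853741253198) (nat_lit 152) (nat_lit 3313052423032) (nat_lit 0) (nat_lit 851902807565) (nat_lit 1) (nat_lit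 5) (nat_lit 3) (nat_lit 4) (nat_lit 1) (nat_lit 4) (nat_lit 369) (nat_lit 234) (nat_lit 177)))) (XT.nd (nat_lit 36036) (nat_lit 0) (nat_lit 152) (XT.nd (nat_lit 35958) (nat_lit 0) (nat_lit 152) (XT.lf (nat_lit 0) (nat_lit 923068050623) (nat_lit 152) (nat_lit 3575801536198) (nat_lit 0) (nat_lit 921227889455) (nat_lit 1) (nat_lit 5) (nat_lit 3) (nat_lit 4) (nat_lit 1) (nat_lit 4) (nat_lit 370) (nat_lit 234) (nat_lit 176)) (XT.lf (nat_lit 0) (nat_lit 8661960802) (nat_lit 76) (nat_lit 9634040559) (nat_lit 76) (nat_lit 9634040559) (nat_lit 3) (nat_lit 4) (nat_lit 4) (nat_lit 5) (nat_lit 4) (nat_lit 4) (nat_lit 310) (nat_lit 235) (nat_lit 235))) (XT.nd (nat_lit 78) (nat_lit 0) (nat_lit 0) (XT.lf (nat_lit 0) (nat_lit 25062504111) (nat_lit 76) (nat_lit 17580692644) (nat_lit 76) (nat_lit 17419849940) (nat_lit 3) (nat_lit 4) (nat_lit 4) (nat_lit 5) (nat_lit 4) (nat_lit 4) (nat_lit 311) (nat_lit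 235) (nat_lit 234)) (XT.lf (nat_lit 0) (nat_lit 33110432218) (nat_lit 76) (nat_lit 15907273703) (nat_lit 76) (nat_lit 15597502570) (nat_lit 3) (nat_lit 4) (nat_lit 4) (nat_lit 5) (nat_lit 4) (nat_lit 4) (nat_lit 312) (nat_lit 235) (nat_lit 233))))) (XT.nd (nat_lit 312) (nat_lit 0) (nat_lit 0) (XT.nd (nat_lit 156) (nat_lit 0) (nat_lit 0) (XT.nd (nat_lit 78) (nat_lit 0) (nat_lit 0) (XT.lf (nat_lit 0) (nat_lit 41515397352) (nat_lit 76) (nat_lit 14237907738) (nat_lit 76) (nat_lit 13790239911) (nat_lit 3) (nat_lit 4) (nat_lit 4) (nat_lit 5) (nat_lit 4) (nat_lit 4) (nat_lit 313) (nat_lit 235) (nat_lit 232)) (XT.lf (nat_lit 0) (nat_lit 50327206713) (nat_lit 76) (nat_lit 12562702211) (nat_lit 76) (nat_lit 11987352260) (nat_lit 3) (nat_lit 4) (nat_lit 4) (nat_lit 5) (nat_lit 4) (nat_lit 4) (nat_lit 314) (nat_lit 235) (nat_lit 231))) (XT.nd (nat_lit 78) (nat_lit 0) (nat_lit 0) (XT.lf (nat_lit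 0) (nat_lit 59598078431) (nat_lit 76) (nat_lit 10871729977) (nat_lit 76) (nat_lit 10178155838) (nat_lit 3) (nat_lit 4) (nat_lit 4) (nat_lit 5) (nat_lit 4) (nat_lit 4) (nat_lit 315) (nat_lit 235) (nat_lit 230)) (XT.lf (nat_lit 0) (nat_lit 69382951004) (nat_lit 76) (nat_lit 9154970461) (nat_lit 76) (nat_lit 8351929480) (nat_lit 3) (nat_lit 4) (nat_lit 4) (nat_lit 5) (nat_lit 4) (nat_lit 4) (nat_lit 316) (nat_lit 235) (nat_lit 229)))) (XT.nd (nat_lit 156) (nat_lit 0) (nat_lit 0) (XT.nd (nat_lit 78) (nat_lit 0) (nat_lit 0) (XT.lf (nat_lit 0) (nat_lit 79739808864) (nat_lit 76) (nat_lit 7402250273) (nat_lit 76) (nat_lit 6497851105) (nat_lit 3) (nat_lit 4) (nat_lit 4) (nat_lit 5) (nat_lit 4) (nat_lit 4) (nat_lit 317) (nat_lit 235) (nat_lit 228)) (XT.lf (nat_lit 0) (nat_lit 90730025982) (nat_lit 76) (nat_lit 5603182922) (nat_lit 76) (nat_lit 4604933582) (nat_lit 3) (nat_lit 4) (nat_lit 4) (nat_lit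 5) (nat_lit 4) (nat_lit 4) (nat_lit 318) (nat_lit 235) (nat_lit 227))) (XT.nd (nat_lit 78) (nat_lit 0) (nat_lit 0) (XT.lf (nat_lit 0) (nat_lit 102418729570) (nat_lit 76) (nat_lit 3747107270) (nat_lit 76) (nat_lit 2661959621) (nat_lit 3) (nat_lit 4) (nat_lit 4) (nat_lit 5) (nat_lit 4) (nat_lit 4) (nat_lit 319) (nat_lit 235) (nat_lit 226)) (XT.lf (nat_lit 0) (nat_lit 114875186021) (nat_lit 76) (nat_lit 1823024348) (nat_lit 76) (nat_lit 657415304) (nat_lit 3) (nat_lit 4) (nat_lit 4) (nat_lit 5) (nat_lit 4) (nat_lit 4) (nat_lit 320) (nat_lit 235) (nat_lit 225)))))) (XT.nd (nat_lit 624) (nat_lit 0) (nat_lit 0) (XT.nd (nat_lit 312) (nat_lit 0) (nat_lit 0) (XT.nd (nat_lit 156) (nat_lit 0) (nat_lit 0) (XT.nd (nat_lit 78) (nat_lit 0) (nat_lit 0) (XT.lf (nat_lit 0) (nat_lit 1395440944) (nat_lit 152) (nat_lit 124923126566) (nat_lit 0) (nat_lit 247190631) (nat_lit 1) (nat_lit 5) (nat_lit 3) (nat_lit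 4) (nat_lit 1) (nat_lit 4) (nat_lit 321) (nat_lit 235) (nat_lit 224)) (XT.lf (nat_lit 0) (nat_lit 3611948252) (nat_lit 152) (nat_lit 130496809269) (nat_lit 0) (nat_lit 2399825089) (nat_lit 1) (nat_lit 5) (nat_lit 3) (nat_lit 4) (nat_lit 1) (nat_lit 4) (nat_lit 322) (nat_lit 235) (nat_lit 223))) (XT.nd (nat_lit 78) (nat_lit 0) (nat_lit 0) (XT.lf (nat_lit 0) (nat_lit 5929857270) (nat_lit 152) (nat_lit 136664496203) (nat_lit 0) (nat_lit 4658592579) (nat_lit 1) (nat_lit 5) (nat_lit 3) (nat_lit 4) (nat_lit 1) (nat_lit 4) (nat_lit 323) (nat_lit 235) (nat_lit 222)) (XT.lf (nat_lit 0) (nat_lit 8362903755) (nat_lit 152) (nat_lit 143462736624) (nat_lit 0) (nat_lit 7036878389) (nat_lit 1) (nat_lit 5) (nat_lit 3) (nat_lit 4) (nat_lit 1) (nat_lit 4) (nat_lit 324) (nat_lit 235) (nat_lit 221)))) (XT.nd (nat_lit 156) (nat_lit 0) (nat_lit 0) (XT.nd (nat_lit 78) (nat_lit 0) (nat_lit 0) (XT.lf (nat_lit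 0) (nat_lit 10925505761) (nat_lit 152) (nat_lit 150931816401) (nat_lit 0) (nat_lit 9548776067) (nat_lit 1) (nat_lit 5) (nat_lit 3) (nat_lit 4) (nat_lit 1) (nat_lit 4) (nat_lit 325) (nat_lit 235) (nat_lit 220)) (XT.lf (nat_lit 0) (nat_lit 13632849077) (nat_lit 152) (nat_lit 159115996746) (nat_lit 0) (nat_lit 12209170931) (nat_lit 1) (nat_lit 5) (nat_lit 3) (nat_lit 4) (nat_lit 1) (nat_lit 4) (nat_lit 326) (nat_lit 235) (nat_lit 219))) (XT.nd (nat_lit 78) (nat_lit 0) (nat_lit 0) (XT.lf (nat_lit 0) (nat_lit 16500977219) (nat_lit 152) (nat_lit 168063776508) (nat_lit 0) (nat_lit 15033828285) (nat_lit 1) (nat_lit 5) (nat_lit 3) (nat_lit 4) (nat_lit 1) (nat_lit 4) (nat_lit 327) (nat_lit 235) (nat_lit 218)) (XT.lf (nat_lit 0) (nat_lit 19546886503) (nat_lit 152) (nat_lit 177828179565) (nat_lit 0) (nat_lit 18039486837) (nat_lit 1) (nat_lit 5) (nat_lit 3) (nat_lit 4) (nat_lit 1) (nat_lit 4) (nat_lit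 328) (nat_lit 235) (nat_lit 217))))) (XT.nd (nat_lit 312) (nat_lit 0) (nat_lit 0) (XT.nd (nat_lit 156) (nat_lit 0) (nat_lit 0) (XT.nd (nat_lit 78) (nat_lit 0) (nat_lit 0) (XT.lf (nat_lit 0) (nat_lit 22788626760) (nat_lit 152) (nat_lit 188467069047) (nat_lit 0) (nat_lit 21243957899) (nat_lit 1) (nat_lit 5) (nat_lit 3) (nat_lit 4) (nat_lit 1) (nat_lit 4) (nat_lit 329) (nat_lit 235) (nat_lit 216)) (XT.lf (nat_lit 0) (nat_lit 26245408303) (nat_lit 152) (nat_lit 200043490225) (nat_lit 0) (nat_lit 24666230929) (nat_lit 1) (nat_lit 5) (nat_lit 3) (nat_lit 4) (nat_lit 1) (nat_lit 4) (nat_lit 330) (nat_lit 235) (nat_lit 215))) (XT.nd (nat_lit 78) (nat_lit 0) (nat_lit 0) (XT.lf (nat_lit 0) (nat_lit 29937715764) (nat_lit 152) (nat_lit 212626044114) (nat_lit 0) (nat_lit 28326586063) (nat_lit 1) (nat_lit 5) (nat_lit 3) (nat_lit 4) (nat_lit 1) (nat_lit 4) (nat_lit 331) (nat_lit 235) (nat_lit 214))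 (XT.lf (nat_lit 0) (nat_lit 33887429484) (nat_lit 152) (nat_lit 226289293995) (nat_lit 0) (nat_lit 32246714294) (nat_lit 1) (nat_lit 5) (nat_lit 3) (nat_lit 4) (nat_lit 1) (nat_lit 4) (nat_lit 332) (nat_lit 235) (nat_lit 213)))) (XT.nd (nat_lit 156) (nat_lit 0) (nat_lit 0) (XT.nd (nat_lit 78) (nat_lit 0) (nat_lit 0) (XT.lf (nat_lit 0) (nat_lit 38117955173) (nat_lit 152) (nat_lit 241114207276) (nat_lit 0) (nat_lit 36449846012) (nat_lit 1) (nat_lit 5) (nat_lit 3) (nat_lit 4) (nat_lit 1) (nat_lit 4) (nat_lit 333) (nat_lit 235) (nat_lit 212)) (XT.lf (nat_lit 0) (nat_lit 42654362613) (nat_lit 152) (nat_lit 257188635294) (nat_lit 0) (nat_lit 40960888665) (nat_lit 1) (nat_lit 5) (nat_lit 3) (nat_lit 4) (nat_lit 1) (nat_lit 4) (nat_lit 334) (nat_lit 235) (nat_lit 211))) (XT.nd (nat_lit 78) (nat_lit 0) (nat_lit 0) (XT.lf (nat_lit 0) (nat_lit 47523534219) (nat_lit 152) (nat_lit 274607833919) (nat_lit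 0) (nat_lit 45806574356) (nat_lit 1) (nat_lit 5) (nat_lit 3) (nat_lit 4) (nat_lit 1) (nat_lit 4) (nat_lit 335) (nat_lit 235) (nat_lit 210)) (XT.lf (nat_lit 0) (nat_lit 52754324340) (nat_lit 152) (nat_lit 293475028032) (nat_lit 0) (nat_lit 51015618260) (nat_lit 1) (nat_lit 5) (nat_lit 3) (nat_lit 4) (nat_lit 1) (nat_lit 4) (nat_lit 336) (nat_lit 235) (nat_lit 209))))))) (XT.nd (nat_lit 1170) (nat_lit 0) (nat_lit 0) (XT.nd (nat_lit 546) (nat_lit 0) (nat_lit 0) (XT.nd (nat_lit 234) (nat_lit 0) (nat_lit 0) (XT.nd (nat_lit 78) (nat_lit 0) (nat_lit 0) (XT.lf (nat_lit 0) (nat_lit 58377730253) (nat_lit 152) (nat_lit 313902023227) (nat_lit 0) (nat_lit 56618888786) (nat_lit 1) (nat_lit 5) (nat_lit 3) (nat_lit 4) (nat_lit 1) (nat_lit 4) (nat_lit 337) (nat_lit 235) (nat_lit 208)) (XT.nd (nat_lit 78) (nat_lit 0) (nat_lit 0) (XT.lf (nat_lit 0) (nat_lit 64427075842) (nat_lit 152) (nat_lit 336009868366)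 (nat_lit 0) (nat_lit 62649590499) (nat_lit 1) (nat_lit 5) (nat_lit 3) (nat_lit 4) (nat_lit 1) (nat_lit 4) (nat_lit 338) (nat_lit 235) (nat_lit 207)) (XT.lf (nat_lit 0) (nat_lit 70938209083) (nat_lit 152) (nat_lit 359929572900) (nat_lit 0) (nat_lit 69143460892) (nat_lit 1) (nat_lit 5) (nat_lit 3) (nat_lit 4) (nat_lit 1) (nat_lit 4) (nat_lit 339) (nat_lit 235) (nat_lit 206)))) (XT.nd (nat_lit 156) (nat_lit 0) (nat_lit 0) (XT.nd (nat_lit 78) (nat_lit 0) (nat_lit 0) (XT.lf (nat_lit 0) (nat_lit 77949714469) (nat_lit 152) (nat_lit 385802883227) (nat_lit 0) (nat_lit 76138982159) (nat_lit 1) (nat_lit 5) (nat_lit 3) (nat_lit 4) (nat_lit 1) (nat_lit 4) (nat_lit 340) (nat_lit 235) (nat_lit 205)) (XT.lf (nat_lit 0) (nat_lit 85503141661) (nat_lit 152) (nat_lit 413783122667) (nat_lit 0) (nat_lit 83677609241) (nat_lit 1) (nat_lit 5) (nat_lit 3) (nat_lit 4) (nat_lit 1) (nat_lit 4) (nat_lit 341) (nat_lit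 235) (nat_lit 204))) (XT.nd (nat_lit 78) (nat_lit 0) (nat_lit 0) (XT.lf (nat_lit 0) (nat_lit 93643251710) (nat_lit 152) (nat_lit 444036100047) (nat_lit 0) (nat_lit 91804015484) (nat_lit 1) (nat_lit 5) (nat_lit 3) (nat_lit 4) (nat_lit 1) (nat_lit 4) (nat_lit 342) (nat_lit 235) (nat_lit 203)) (XT.lf (nat_lit 0) (nat_lit 102418282303) (nat_lit 152) (nat_lit 476741092270) (nat_lit 0) (nat_lit 100566357369) (nat_lit 1) (nat_lit 5) (nat_lit 3) (nat_lit 4) (nat_lit 1) (nat_lit 4) (nat_lit 343) (nat_lit 235) (nat_lit 202))))) (XT.nd (nat_lit 312) (nat_lit 0) (nat_lit 0) (XT.nd (nat_lit 156) (nat_lit 0) (nat_lit 0) (XT.nd (nat_lit 78) (nat_lit 0) (nat_lit 0) (XT.lf (nat_lit 0) (nat_lit 111880233624) (nat_lit 152) (nat_lit 512091906697) (nat_lit 0) (nat_lit 110016559885) (nat_lit 1) (nat_lit 5) (nat_lit 3) (nat_lit 4) (nat_lit 1) (nat_lit 4) (nat_lit 344) (nat_lit 235) (nat_lit 201)) (XT.lf (nat_lit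 0) (nat_lit 122085176494) (nat_lit 152) (nat_lit 550298029635) (nat_lit 0) (nat_lit 120210624232) (nat_lit 1) (nat_lit 5) (nat_lit 3) (nat_lit 4) (nat_lit 1) (nat_lit 4) (nat_lit 345) (nat_lit 235) (nat_lit 200))) (XT.nd (nat_lit 78) (nat_lit 0) (nat_lit 0) (XT.lf (nat_lit 0) (nat_lit 133093584648) (nat_lit 152) (nat_lit 591585867740) (nat_lit 0) (nat_lit 131208959680) (nat_lit 1) (nat_lit 5) (nat_lit 3) (nat_lit 4) (nat_lit 1) (nat_lit 4) (nat_lit 346) (nat_lit 235) (nat_lit 199)) (XT.lf (nat_lit 0) (nat_lit 144970693099) (nat_lit 152) (nat_lit 636200089681) (nat_lit 0) (nat_lit 143076741551) (nat_lit 1) (nat_lit 5) (nat_lit 3) (nat_lit 4) (nat_lit 1) (nat_lit 4) (nat_lit 347) (nat_lit 235) (nat_lit 198)))) (XT.nd (nat_lit 156) (nat_lit 0) (nat_lit 0) (XT.nd (nat_lit 78) (nat_lit 0) (nat_lit 0) (XT.lf (nat_lit 0) (nat_lit 157786884711) (nat_lit 152) (nat_lit 684405076032) (nat_lit 0)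 (nat_lit 155884297441) (nat_lit 1) (nat_lit 5) (nat_lit 3) (nat_lit 4) (nat_lit 1) (nat_lit 4) (nat_lit 348) (nat_lit 235) (nat_lit 197)) (XT.lf (nat_lit 0) (nat_lit 171618107286) (nat_lit 152) (nat_lit 736486485974) (nat_lit 0) (nat_lit 169707523978) (nat_lit 1) (nat_lit 5) (nat_lit 3) (nat_lit 4) (nat_lit 1) (nat_lit 4) (nat_lit 349) (nat_lit 235) (nat_lit 196))) (XT.nd (nat_lit 78) (nat_lit 0) (nat_lit 0) (XT.lf (nat_lit 0) (nat_lit 186546323625) (nat_lit 152) (nat_lit 792752950081) (nat_lit 0) (nat_lit 184628336577) (nat_lit 1) (nat_lit 5) (nat_lit 3) (nat_lit 4) (nat_lit 1) (nat_lit 4) (nat_lit 350) (nat_lit 235) (nat_lit 195)) (XT.lf (nat_lit 0) (nat_lit 202659997232) (nat_lit 152) (nat_lit 853537899254) (nat_lit 0) (nat_lit 200735154869) (nat_lit 1) (nat_lit 5) (nat_lit 3) (nat_lit 4) (nat_lit 1) (nat_lit 4) (nat_lit 351) (nat_lit 235) (nat_lit 194)))))) (XT.nd (nat_lit 624) (nat_lit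 0) (nat_lit 0) (XT.nd (nat_lit 312) (nat_lit 0) (nat_lit 0) (XT.nd (nat_lit 156) (nat_lit 0) (nat_lit 0) (XT.nd (nat_lit 78) (nat_lit 0) (nat_lit 0) (XT.lf (nat_lit 0) (nat_lit 220054616543) (nat_lit 152) (nat_lit 919201540598) (nat_lit 0) (nat_lit 218123426666) (nat_lit 1) (nat_lit 5) (nat_lit 3) (nat_lit 4) (nat_lit 1) (nat_lit 4) (nat_lit 352) (nat_lit 235) (nat_lit 193)) (XT.lf (nat_lit 0) (nat_lit 238833260783) (nat_lit 152) (nat_lit 990132991988) (nat_lit 0) (nat_lit 236896193579) (nat_lit 1) (nat_lit 5) (nat_lit 3) (nat_lit 4) (nat_lit 1) (nat_lit 4) (nat_lit 353) (nat_lit 235) (nat_lit 192))) (XT.nd (nat_lit 78) (nat_lit 0) (nat_lit 0) (XT.lf (nat_lit 0) (nat_lit 259107210808) (nat_lit 152) (nat_lit 1066752587951) (nat_lit 0) (nat_lit 257164701634) (nat_lit 1) (nat_lit 5) (nat_lit 3) (nat_lit 4) (nat_lit 1) (nat_lit 4) (nat_lit 354) (nat_lit 235) (nat_lit 191)) (XT.lf (nat_lit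 0) (nat_lit 280996608543) (nat_lit 152) (nat_lit 1149514370536) (nat_lit 0) (nat_lit 279049060509) (nat_lit 1) (nat_lit 5) (nat_lit 3) (nat_lit 4) (nat_lit 1) (nat_lit 4) (nat_lit 355) (nat_lit 235) (nat_lit 190)))) (XT.nd (nat_lit 156) (nat_lit 0) (nat_lit 0) (XT.nd (nat_lit 78) (nat_lit 0) (nat_lit 0) (XT.lf (nat_lit 0) (nat_lit 304631168939) (nat_lit 152) (nat_lit 1238908779938) (nat_lit 0) (nat_lit 302678955292) (nat_lit 1) (nat_lit 5) (nat_lit 3) (nat_lit 4) (nat_lit 1) (nat_lit 4) (nat_lit 356) (nat_lit 235) (nat_lit 189)) (XT.lf (nat_lit 0) (nat_lit 330150948648) (nat_lit 152) (nat_lit 1335465560804) (nat_lit 0) (nat_lit 328194414991) (nat_lit 1) (nat_lit 5) (nat_lit 3) (nat_lit 4) (nat_lit 1) (nat_lit 4) (nat_lit 357) (nat_lit 235) (nat_lit 188))) (XT.nd (nat_lit 78) (nat_lit 0) (nat_lit 0) (XT.lf (nat_lit 0) (nat_lit 357707175996) (nat_lit 152) (nat_lit 1439756901465) (nat_lit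 0) (nat_lit 355746642328) (nat_lit 1) (nat_lit 5) (nat_lit 3) (nat_lit 4) (nat_lit 1) (nat_lit 4) (nat_lit 358) (nat_lit 235) (nat_lit 187)) (XT.lf (nat_lit 0) (nat_lit 387463147144) (nat_lit 152) (nat_lit 1552400824680) (nat_lit 0) (nat_lit 385498909763) (nat_lit 1) (nat_lit 5) (nat_lit 3) (nat_lit 4) (nat_lit 1) (nat_lit 4) (nat_lit 359) (nat_lit 235) (nat_lit 186))))) (XT.nd (nat_lit 312) (nat_lit 0) (nat_lit 0) (XT.nd (nat_lit 156) (nat_lit 0) (nat_lit 0) (XT.nd (nat_lit 78) (nat_lit 0) (nat_lit 0) (XT.lf (nat_lit 0) (nat_lit 419595193774) (nat_lit 152) (nat_lit 1674064849996) (nat_lit 0) (nat_lit 417627527029) (nat_lit 1) (nat_lit 5) (nat_lit 3) (nat_lit 4) (nat_lit 1) (nat_lit 4) (nat_lit 360) (nat_lit 235) (nat_lit 185)) (XT.lf (nat_lit 0) (nat_lit 454293728013) (nat_lit 152) (nat_lit 1805469949413) (nat_lit 0) (nat_lit 452322885931) (nat_lit 1) (nat_lit 5) (nat_lit 3) (nat_lit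 4) (nat_lit 1) (nat_lit 4) (nat_lit 361) (nat_lit 235) (nat_lit 184))) (XT.nd (nat_lit 78) (nat_lit 0) (nat_lit 0) (XT.lf (nat_lit 0) (nat_lit 491764370806) (nat_lit 152) (nat_lit 1947394819817) (nat_lit 0) (nat_lit 489790588597) (nat_lit 1) (nat_lit 5) (nat_lit 3) (nat_lit 4) (nat_lit 1) (nat_lit 4) (nat_lit 362) (nat_lit 235) (nat_lit 183)) (XT.lf (nat_lit 0) (nat_lit 532229170405) (nat_lit 152) (nat_lit 2100680497478) (nat_lit 0) (nat_lit 530252665856) (nat_lit 1) (nat_lit 5) (nat_lit 3) (nat_lit 4) (nat_lit 1) (nat_lit 4) (nat_lit 363) (nat_lit 235) (nat_lit 182)))) (XT.nd (nat_lit 156) (nat_lit 0) (nat_lit 0) (XT.nd (nat_lit 78) (nat_lit 0) (nat_lit 0) (XT.lf (nat_lit 0) (nat_lit 575927918216) (nat_lit 152) (nat_lit 2266235341965) (nat_lit 0) (nat_lit 573948892982) (nat_lit 1) (nat_lit 5) (nat_lit 3) (nat_lit 4) (nat_lit 1) (nat_lit 4) (nat_lit 364) (nat_lit 235) (nat_lit 181))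 (XT.lf (nat_lit 0) (nat_lit 623119569781) (nat_lit 152) (nat_lit 2445040419026) (nat_lit 0) (nat_lit 621138210580) (nat_lit 1) (nat_lit 5) (nat_lit 3) (nat_lit 4) (nat_lit 1) (nat_lit 4) (nat_lit 365) (nat_lit 235) (nat_lit 180))) (XT.nd (nat_lit 78) (nat_lit 0) (nat_lit 0) (XT.lf (nat_lit 0) (nat_lit 674083779332) (nat_lit 152) (nat_lit 2638155314300) (nat_lit 0) (nat_lit 672100259050) (nat_lit 1) (nat_lit 5) (nat_lit 3) (nat_lit 4) (nat_lit 1) (nat_lit 4) (nat_lit 366) (nat_lit 235) (nat_lit 179)) (XT.lf (nat_lit 0) (nat_lit 729122557000) (nat_lit 152) (nat_lit 2846724412354) (nat_lit 0) (nat_lit 727137035716) (nat_lit 1) (nat_lit 5) (nat_lit 3) (nat_lit 4) (nat_lit 1) (nat_lit 4) (nat_lit 367) (nat_lit 235) (nat_lit 178))))))))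
noncomputable def xc16 : XT := (XT.nd (nat_lit 38064) (nat_lit 0) (nat_lit 0) (XT.nd (nat_lit 36894) (nat_lit 0) (nat_lit 0) (XT.nd (nat_lit 36270) (nat_lit 0) (nat_lit 152) (XT.nd (nat_lit 35958) (nat_lit 0) (nat_lit 152) (XT.nd (nat_lit 78) (nat_lit 0) (nat_lit 0) (XT.lf (nat_lit 0) (nat_lit 788562058503) (nat_lit 152) (nat_lit 3071983678212) (nat_lit 0) (nat_lit 786574684441) (nat_lit 1) (nat_lit 5) (nat_lit 3) (nat_lit 4) (nat_lit 1) (nat_lit 4) (nat_lit 368) (nat_lit 235) (nat_lit 177)) (XT.nd (nat_lit 78) (nat_lit 0) (nat_lit 0) (XT.lf (nat_lit 0) (nat_lit 852754517926) (nat_lit 152) (nat_lit 3315267981598) (nat_lit 0) (nat_lit 850765428328) (nat_lit 1) (nat_lit 5) (nat_lit 3) (nat_lit 4) (nat_lit 1) (nat_lit 4) (nat_lit 369) (nat_lit 235) (nat_lit 176)) (XT.lf (nat_lit 0) (nat_lit 922080335027) (nat_lit 152) (nat_lit 3578019007274) (nat_lit 0) (nat_lit 920089656970) (nat_lit 1)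 (nat_lit 5) (nat_lit 3) (nat_lit 4) (nat_lit 1) (nat_lit 4) (nat_lit 370) (nat_lit 235) (nat_lit 175)))) (XT.nd (nat_lit 156) (nat_lit 0) (nat_lit 0) (XT.nd (nat_lit 78) (nat_lit 0) (nat_lit 0) (XT.lf (nat_lit 0) (nat_lit 1383307477) (nat_lit 76) (nat_lit 11407541827) (nat_lit 76) (nat_lit 11407541827) (nat_lit 3) (nat_lit 4) (nat_lit 4) (nat_lit 5) (nat_lit 4) (nat_lit 4) (nat_lit 308) (nat_lit 236) (nat_lit 236)) (XT.lf (nat_lit 0) (nat_lit 9848826431) (nat_lit 76) (nat_lit 21153148586) (nat_lit 76) (nat_lit 20979438466) (nat_lit 3) (nat_lit 4) (nat_lit 4) (nat_lit 5) (nat_lit 4) (nat_lit 4) (nat_lit 309) (nat_lit 236) (nat_lit 235))) (XT.nd (nat_lit 78) (nat_lit 0) (nat_lit 0) (XT.lf (nat_lit 0) (nat_lit 17163094546) (nat_lit 76) (nat_lit 19519136171) (nat_lit 76) (nat_lit 19184583348) (nat_lit 3) (nat_lit 4) (nat_lit 4) (nat_lit 5) (nat_lit 4) (nat_lit 4) (nat_lit 310) (nat_lit 236)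 (nat_lit 234)) (XT.lf (nat_lit 0) (nat_lit 24752763111) (nat_lit 76) (nat_lit 17903363375) (nat_lit 76) (nat_lit 17419882122) (nat_lit 3) (nat_lit 4) (nat_lit 4) (nat_lit 5) (nat_lit 4) (nat_lit 4) (nat_lit 311) (nat_lit 236) (nat_lit 233))))) (XT.nd (nat_lit 312) (nat_lit 0) (nat_lit 0) (XT.nd (nat_lit 156) (nat_lit 0) (nat_lit 0) (XT.nd (nat_lit 78) (nat_lit 0) (nat_lit 0) (XT.lf (nat_lit 0) (nat_lit 32662807939) (nat_lit 76) (nat_lit 16296255247) (nat_lit 76) (nat_lit 15674877301) (nat_lit 3) (nat_lit 4) (nat_lit 4) (nat_lit 5) (nat_lit 4) (nat_lit 4) (nat_lit 312) (nat_lit 236) (nat_lit 232)) (XT.lf (nat_lit 0) (nat_lit 40940103369) (nat_lit 76) (nat_lit 14688288184) (nat_lit 76) (nat_lit 13939228113) (nat_lit 3) (nat_lit 4) (nat_lit 4) (nat_lit 5) (nat_lit 4) (nat_lit 4) (nat_lit 313) (nat_lit 236) (nat_lit 231))) (XT.nd (nat_lit 78) (nat_lit 0) (nat_lit 0) (XT.lf (nat_lit 0) (nat_lit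 49633700041) (nat_lit 76) (nat_lit 13069933491) (nat_lit 76) (nat_lit 12202649232) (nat_lit 3) (nat_lit 4) (nat_lit 4) (nat_lit 5) (nat_lit 4) (nat_lit 4) (nat_lit 314) (nat_lit 236) (nat_lit 230)) (XT.lf (nat_lit 0) (nat_lit 58795115566) (nat_lit 76) (nat_lit 11431600919) (nat_lit 76) (nat_lit 10454849818) (nat_lit 3) (nat_lit 4) (nat_lit 4) (nat_lit 5) (nat_lit 4) (nat_lit 4) (nat_lit 315) (nat_lit 236) (nat_lit 229)))) (XT.nd (nat_lit 156) (nat_lit 0) (nat_lit 0) (XT.nd (nat_lit 78) (nat_lit 0) (nat_lit 0) (XT.lf (nat_lit 0) (nat_lit 68478639812) (nat_lit 76) (nat_lit 9763581831) (nat_lit 76) (nat_lit 8685472543) (nat_lit 3) (nat_lit 4) (nat_lit 4) (nat_lit 5) (nat_lit 4) (nat_lit 4) (nat_lit 316) (nat_lit 236) (nat_lit 228)) (XT.lf (nat_lit 0) (nat_lit 78741656628) (nat_lit 76) (nat_lit 8055991668) (nat_lit 76) (nat_lit 6884032208) (nat_lit 3) (nat_lit 4) (nat_lit 4) (nat_lit 5)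 (nat_lit 4) (nat_lit 4) (nat_lit 317) (nat_lit 236) (nat_lit 227))) (XT.nd (nat_lit 78) (nat_lit 0) (nat_lit 0) (XT.lf (nat_lit 0) (nat_lit 89644983891) (nat_lit 76) (nat_lit 6298711378) (nat_lit 76) (nat_lit 5039853610) (nat_lit 3) (nat_lit 4) (nat_lit 4) (nat_lit 5) (nat_lit 4) (nat_lit 4) (nat_lit 318) (nat_lit 236) (nat_lit 226)) (XT.lf (nat_lit 0) (nat_lit 101253233910) (nat_lit 76) (nat_lit 4481327448) (nat_lit 76) (nat_lit 3142008283) (nat_lit 3) (nat_lit 4) (nat_lit 4) (nat_lit 5) (nat_lit 4) (nat_lit 4) (nat_lit 319) (nat_lit 236) (nat_lit 225)))))) (XT.nd (nat_lit 546) (nat_lit 0) (nat_lit 0) (XT.nd (nat_lit 234) (nat_lit 0) (nat_lit 0) (XT.nd (nat_lit 78) (nat_lit 152) (nat_lit 0) (XT.lf (nat_lit 0) (nat_lit 113635196316) (nat_lit 76) (nat_lit 2593070196) (nat_lit 76) (nat_lit 1179249738) (nat_lit 3) (nat_lit 4) (nat_lit 4) (nat_lit 5) (nat_lit 4) (nat_lit 4) (nat_lit 320)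 (nat_lit 236) (nat_lit 224)) (XT.nd (nat_lit 78) (nat_lit 0) (nat_lit 0) (XT.lf (nat_lit 0) (nat_lit 228025708) (nat_lit 76) (nat_lit 594488159) (nat_lit 152) (nat_lit 125802335127) (nat_lit 1) (nat_lit 5) (nat_lit 2) (nat_lit 5) (nat_lit 3) (nat_lit 4) (nat_lit 321) (nat_lit 236) (nat_lit 223)) (XT.lf (nat_lit 0) (nat_lit 2988224262) (nat_lit 152) (nat_lit 132027415080) (nat_lit 0) (nat_lit 1556116867) (nat_lit 1) (nat_lit 5) (nat_lit 3) (nat_lit 4) (nat_lit 1) (nat_lit 4) (nat_lit 322) (nat_lit 236) (nat_lit 222)))) (XT.nd (nat_lit 156) (nat_lit 0) (nat_lit 0) (XT.nd (nat_lit 78) (nat_lit 0) (nat_lit 0) (XT.lf (nat_lit 0) (nat_lit 5272337485) (nat_lit 152) (nat_lit 138261034001) (nat_lit 0) (nat_lit 3785469415) (nat_lit 1) (nat_lit 5) (nat_lit 3) (nat_lit 4) (nat_lit 1) (nat_lit 4) (nat_lit 323) (nat_lit 236) (nat_lit 221)) (XT.lf (nat_lit 0) (nat_lit 7674091567) (nat_lit 152) (nat_lit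 145120322557) (nat_lit 0) (nat_lit 6136519169) (nat_lit 1) (nat_lit 5) (nat_lit 3) (nat_lit 4) (nat_lit 1) (nat_lit 4) (nat_lit 324) (nat_lit 236) (nat_lit 220))) (XT.nd (nat_lit 78) (nat_lit 0) (nat_lit 0) (XT.lf (nat_lit 0) (nat_lit 10207719125) (nat_lit 152) (nat_lit 152645928385) (nat_lit 0) (nat_lit 8623198276) (nat_lit 1) (nat_lit 5) (nat_lit 3) (nat_lit 4) (nat_lit 1) (nat_lit 4) (nat_lit 325) (nat_lit 236) (nat_lit 219)) (XT.lf (nat_lit 0) (nat_lit 12888234250) (nat_lit 152) (nat_lit 160882447667) (nat_lit 0) (nat_lit 11260242611) (nat_lit 1) (nat_lit 5) (nat_lit 3) (nat_lit 4) (nat_lit 1) (nat_lit 4) (nat_lit 326) (nat_lit 236) (nat_lit 218))))) (XT.nd (nat_lit 312) (nat_lit 0) (nat_lit 0) (XT.nd (nat_lit 156) (nat_lit 0) (nat_lit 0) (XT.nd (nat_lit 78) (nat_lit 0) (nat_lit 0) (XT.lf (nat_lit 0) (nat_lit 15731521473) (nat_lit 152) (nat_lit 169878689407) (nat_lit 0) (nat_lit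 14063279104) (nat_lit 1) (nat_lit 5) (nat_lit 3) (nat_lit 4) (nat_lit 1) (nat_lit 4) (nat_lit 327) (nat_lit 236) (nat_lit 217)) (XT.lf (nat_lit 0) (nat_lit 18754429906) (nat_lit 152) (nat_lit 179687964666) (nat_lit 0) (nat_lit 17048918342) (nat_lit 1) (nat_lit 5) (nat_lit 3) (nat_lit 4) (nat_lit 1) (nat_lit 4) (nat_lit 328) (nat_lit 236) (nat_lit 216))) (XT.nd (nat_lit 78) (nat_lit 0) (nat_lit 0) (XT.lf (nat_lit 0) (nat_lit 21974873079) (nat_lit 152) (nat_lit 190368402484) (nat_lit 0) (nat_lit 20234853002) (nat_lit 1) (nat_lit 5) (nat_lit 3) (nat_lit 4) (nat_lit 1) (nat_lit 4) (nat_lit 329) (nat_lit 236) (nat_lit 215)) (XT.lf (nat_lit 0) (nat_lit 25411935101) (nat_lit 152) (nat_lit 201983294343) (nat_lit 0) (nat_lit 23639962696) (nat_lit 1) (nat_lit 5) (nat_lit 3) (nat_lit 4) (nat_lit 1) (nat_lit 4) (nat_lit 330) (nat_lit 236) (nat_lit 214)))) (XT.nd (nat_lit 156) (nat_lit 0) (nat_lit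 0) (XT.nd (nat_lit 78) (nat_lit 0) (nat_lit 0) (XT.lf (nat_lit 0) (nat_lit 29085983746) (nat_lit 152) (nat_lit 214601469232) (nat_lit 0) (nat_lit 27284425852) (nat_lit 1) (nat_lit 5) (nat_lit 3) (nat_lit 4) (nat_lit 1) (nat_lit 4) (nat_lit 331) (nat_lit 236) (nat_lit 213)) (XT.lf (nat_lit 0) (nat_lit 33018791154) (nat_lit 152) (nat_lit 228297701522) (nat_lit 0) (nat_lit 31189839289) (nat_lit 1) (nat_lit 5) (nat_lit 3) (nat_lit 4) (nat_lit 1) (nat_lit 4) (nat_lit 332) (nat_lit 236) (nat_lit 212))) (XT.nd (nat_lit 78) (nat_lit 0) (nat_lit 0) (XT.lf (nat_lit 0) (nat_lit 37233662850) (nat_lit 152) (nat_lit 243153154069) (nat_lit 0) (nat_lit 35379346198) (nat_lit 1) (nat_lit 5) (nat_lit 3) (nat_lit 4) (nat_lit 1) (nat_lit 4) (nat_lit 333) (nat_lit 236) (nat_lit 211)) (XT.lf (nat_lit 0) (nat_lit 41755575853) (nat_lit 152) (nat_lit 259255859186) (nat_lit 0) (nat_lit 39877773286) (nat_lit 1)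 (nat_lit 5) (nat_lit 3) (nat_lit 4) (nat_lit 1) (nat_lit 4) (nat_lit 334) (nat_lit 236) (nat_lit 210))))))) (XT.nd (nat_lit 1170) (nat_lit 0) (nat_lit 0) (XT.nd (nat_lit 546) (nat_lit 0) (nat_lit 0) (XT.nd (nat_lit 234) (nat_lit 0) (nat_lit 0) (XT.nd (nat_lit 78) (nat_lit 0) (nat_lit 0) (XT.lf (nat_lit 0) (nat_lit 46611326683) (nat_lit 152) (nat_lit 276701240310) (nat_lit 0) (nat_lit 44711777899) (nat_lit 1) (nat_lit 5) (nat_lit 3) (nat_lit 4) (nat_lit 1) (nat_lit 4) (nat_lit 335) (nat_lit 236) (nat_lit 209)) (XT.nd (nat_lit 78) (nat_lit 0) (nat_lit 0) (XT.lf (nat_lit 0) (nat_lit 51829690161) (nat_lit 152) (nat_lit 295592677477) (nat_lit 0) (nat_lit 49910005991) (nat_lit 1) (nat_lit 5) (nat_lit 3) (nat_lit 4) (nat_lit 1) (nat_lit 4) (nat_lit 336) (nat_lit 236) (nat_lit 208)) (XT.lf (nat_lit 0) (nat_lit 57441589922) (nat_lit 152) (nat_lit 316042119946) (nat_lit 0) (nat_lit 55503261875)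 (nat_lit 1) (nat_lit 5) (nat_lit 3) (nat_lit 4) (nat_lit 1) (nat_lit 4) (nat_lit 337) (nat_lit 236) (nat_lit 207)))) (XT.nd (nat_lit 156) (nat_lit 0) (nat_lit 0) (XT.nd (nat_lit 78) (nat_lit 0) (nat_lit 0) (XT.lf (nat_lit 0) (nat_lit 63480281667) (nat_lit 152) (nat_lit 338170749596) (nat_lit 0) (nat_lit 61524690773) (nat_lit 1) (nat_lit 5) (nat_lit 3) (nat_lit 4) (nat_lit 1) (nat_lit 4) (nat_lit 338) (nat_lit 236) (nat_lit 206)) (XT.lf (nat_lit 0) (nat_lit 69981550238) (nat_lit 152) (nat_lit 362109699048) (nat_lit 0) (nat_lit 68009975224) (nat_lit 1) (nat_lit 5) (nat_lit 3) (nat_lit 4) (nat_lit 1) (nat_lit 4) (nat_lit 339) (nat_lit 236) (nat_lit 205))) (XT.nd (nat_lit 78) (nat_lit 0) (nat_lit 0) (XT.lf (nat_lit 0) (nat_lit 76983921670) (nat_lit 152) (nat_lit 388000828744) (nat_lit 0) (nat_lit 74997546546) (nat_lit 1) (nat_lit 5) (nat_lit 3) (nat_lit 4) (nat_lit 1) (nat_lit 4) (nat_lit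 340) (nat_lit 236) (nat_lit 204)) (XT.lf (nat_lit 0) (nat_lit 84528891497) (nat_lit 152) (nat_lit 415997567600) (nat_lit 0) (nat_lit 82528812567) (nat_lit 1) (nat_lit 5) (nat_lit 3) (nat_lit 4) (nat_lit 1) (nat_lit 4) (nat_lit 341) (nat_lit 236) (nat_lit 203))))) (XT.nd (nat_lit 312) (nat_lit 0) (nat_lit 0) (XT.nd (nat_lit 156) (nat_lit 0) (nat_lit 0) (XT.nd (nat_lit 78) (nat_lit 0) (nat_lit 0) (XT.lf (nat_lit 0) (nat_lit 92661170652) (nat_lit 152) (nat_lit 446265822217) (nat_lit 0) (nat_lit 90648403013) (nat_lit 1) (nat_lit 5) (nat_lit 3) (nat_lit 4) (nat_lit 1) (nat_lit 4) (nat_lit 342) (nat_lit 236) (nat_lit 202)) (XT.lf (nat_lit 0) (nat_lit 101428950418) (nat_lit 152) (nat_lit 478984960029) (nat_lit 0) (nat_lit 99404433975) (nat_lit 1) (nat_lit 5) (nat_lit 3) (nat_lit 4) (nat_lit 1) (nat_lit 4) (nat_lit 343) (nat_lit 236) (nat_lit 201))) (XT.nd (nat_lit 78) (nat_lit 0) (nat_lit 0)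 (XT.lf (nat_lit 0) (nat_lit 110884188010) (nat_lit 152) (nat_lit 514348872224) (nat_lit 0) (nat_lit 108848793044) (nat_lit 1) (nat_lit 5) (nat_lit 3) (nat_lit 4) (nat_lit 1) (nat_lit 4) (nat_lit 344) (nat_lit 236) (nat_lit 200)) (XT.lf (nat_lit 0) (nat_lit 121082914464) (nat_lit 152) (nat_lit 552567122725) (nat_lit 0) (nat_lit 119037446792) (nat_lit 1) (nat_lit 5) (nat_lit 3) (nat_lit 4) (nat_lit 1) (nat_lit 4) (nat_lit 345) (nat_lit 236) (nat_lit 199)))) (XT.nd (nat_lit 156) (nat_lit 0) (nat_lit 0) (XT.nd (nat_lit 78) (nat_lit 0) (nat_lit 0) (XT.lf (nat_lit 0) (nat_lit 132085566678) (nat_lit 152) (nat_lit 593866190055) (nat_lit 0) (nat_lit 130030772426) (nat_lit 1) (nat_lit 5) (nat_lit 3) (nat_lit 4) (nat_lit 1) (nat_lit 4) (nat_lit 346) (nat_lit 236) (nat_lit 198)) (XT.lf (nat_lit 0) (nat_lit 143957345554) (nat_lit 152) (nat_lit 638490809426) (nat_lit 0) (nat_lit 141893915581) (nat_lit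 1) (nat_lit 5) (nat_lit 3) (nat_lit 4) (nat_lit 1) (nat_lit 4) (nat_lit 347) (nat_lit 236) (nat_lit 197))) (XT.nd (nat_lit 78) (nat_lit 0) (nat_lit 0) (XT.lf (nat_lit 0) (nat_lit 156768602375) (nat_lit 152) (nat_lit 686705423029) (nat_lit 0) (nat_lit 154697176362) (nat_lit 1) (nat_lit 5) (nat_lit 3) (nat_lit 4) (nat_lit 1) (nat_lit 4) (nat_lit 348) (nat_lit 236) (nat_lit 196)) (XT.lf (nat_lit 0) (nat_lit 170595255699) (nat_lit 152) (nat_lit 738795747091) (nat_lit 0) (nat_lit 168516425947) (nat_lit 1) (nat_lit 5) (nat_lit 3) (nat_lit 4) (nat_lit 1) (nat_lit 4) (nat_lit 349) (nat_lit 236) (nat_lit 195)))))) (XT.nd (nat_lit 624) (nat_lit 0) (nat_lit 0) (XT.nd (nat_lit 312) (nat_lit 0) (nat_lit 0) (XT.nd (nat_lit 156) (nat_lit 0) (nat_lit 0) (XT.nd (nat_lit 78) (nat_lit 0) (nat_lit 0) (XT.lf (nat_lit 0) (nat_lit 185519241250) (nat_lit 152) (nat_lit 795070465014) (nat_lit 0) (nat_lit 183433556183)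 (nat_lit 1) (nat_lit 5) (nat_lit 3) (nat_lit 4) (nat_lit 1) (nat_lit 4) (nat_lit 350) (nat_lit 236) (nat_lit 194)) (XT.lf (nat_lit 0) (nat_lit 201628997460) (nat_lit 152) (nat_lit 855863056609) (nat_lit 0) (nat_lit 199536964880) (nat_lit 1) (nat_lit 5) (nat_lit 3) (nat_lit 4) (nat_lit 1) (nat_lit 4) (nat_lit 351) (nat_lit 236) (nat_lit 193))) (XT.nd (nat_lit 78) (nat_lit 0) (nat_lit 0) (XT.lf (nat_lit 0) (nat_lit 219019989552) (nat_lit 152) (nat_lit 921533774269) (nat_lit 0) (nat_lit 216922079644) (nat_lit 1) (nat_lit 5) (nat_lit 3) (nat_lit 4) (nat_lit 1) (nat_lit 4) (nat_lit 352) (nat_lit 236) (nat_lit 192)) (XT.lf (nat_lit 0) (nat_lit 237795275257) (nat_lit 152) (nat_lit 992471777804) (nat_lit 0) (nat_lit 235691923379) (nat_lit 1) (nat_lit 5) (nat_lit 3) (nat_lit 4) (nat_lit 1) (nat_lit 4) (nat_lit 353) (nat_lit 236) (nat_lit 191)))) (XT.nd (nat_lit 156) (nat_lit 0) (nat_lit 0) (XT.nd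 (nat_lit 78) (nat_lit 0) (nat_lit 0) (XT.lf (nat_lit 0) (nat_lit 258066115526) (nat_lit 152) (nat_lit 1069097440568) (nat_lit 0) (nat_lit 255957724788) (nat_lit 1) (nat_lit 5) (nat_lit 3) (nat_lit 4) (nat_lit 1) (nat_lit 4) (nat_lit 354) (nat_lit 236) (nat_lit 190)) (XT.lf (nat_lit 0) (nat_lit 279952633858) (nat_lit 152) (nat_lit 1151864840562) (nat_lit 0) (nat_lit 277839577508) (nat_lit 1) (nat_lit 5) (nat_lit 3) (nat_lit 4) (nat_lit 1) (nat_lit 4) (nat_lit 355) (nat_lit 236) (nat_lit 189))) (XT.nd (nat_lit 78) (nat_lit 0) (nat_lit 0) (XT.lf (nat_lit 0) (nat_lit 303584528139) (nat_lit 152) (nat_lit 1241264451267) (nat_lit 0) (nat_lit 301467151778) (nat_lit 1) (nat_lit 5) (nat_lit 3) (nat_lit 4) (nat_lit 1) (nat_lit 4) (nat_lit 356) (nat_lit 236) (nat_lit 188)) (XT.lf (nat_lit 0) (nat_lit 329101839224) (nat_lit 152) (nat_lit 1337826048155) (nat_lit 0) (nat_lit 326980462853) (nat_lit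 1) (nat_lit 5) (nat_lit 3) (nat_lit 4) (nat_lit 1) (nat_lit 4) (nat_lit 357) (nat_lit 236) (nat_lit 187))))) (XT.nd (nat_lit 312) (nat_lit 0) (nat_lit 0) (XT.nd (nat_lit 156) (nat_lit 0) (nat_lit 0) (XT.nd (nat_lit 78) (nat_lit 0) (nat_lit 0) (XT.lf (nat_lit 0) (nat_lit 356655780809) (nat_lit 152) (nat_lit 1442121848096) (nat_lit 0) (nat_lit 354530700724) (nat_lit 1) (nat_lit 5) (nat_lit 3) (nat_lit 4) (nat_lit 1) (nat_lit 4) (nat_lit 358) (nat_lit 236) (nat_lit 186)) (XT.lf (nat_lit 0) (nat_lit 386409635510) (nat_lit 152) (nat_lit 1554769900274) (nat_lit 0) (nat_lit 384281126061) (nat_lit 1) (nat_lit 5) (nat_lit 3) (nat_lit 4) (nat_lit 1) (nat_lit 4) (nat_lit 359) (nat_lit 236) (nat_lit 185))) (XT.nd (nat_lit 78) (nat_lit 0) (nat_lit 0) (XT.lf (nat_lit 0) (nat_lit 418539722466) (nat_lit 152) (nat_lit 1676437748703) (nat_lit 0) (nat_lit 416408037680) (nat_lit 1) (nat_lit 5) (nat_lit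 3) (nat_lit 4) (nat_lit 1) (nat_lit 4) (nat_lit 360) (nat_lit 236) (nat_lit 184)) (XT.lf (nat_lit 0) (nat_lit 453236442193) (nat_lit 152) (nat_lit 1807846388041) (nat_lit 0) (nat_lit 451101817280) (nat_lit 1) (nat_lit 5) (nat_lit 3) (nat_lit 4) (nat_lit 1) (nat_lit 4) (nat_lit 361) (nat_lit 236) (nat_lit 183)))) (XT.nd (nat_lit 156) (nat_lit 0) (nat_lit 0) (XT.nd (nat_lit 78) (nat_lit 0) (nat_lit 0) (XT.lf (nat_lit 0) (nat_lit 490705404881) (nat_lit 152) (nat_lit 1949774536148) (nat_lit 0) (nat_lit 488568057629) (nat_lit 1) (nat_lit 5) (nat_lit 3) (nat_lit 4) (nat_lit 1) (nat_lit 4) (nat_lit 362) (nat_lit 236) (nat_lit 182)) (XT.lf (nat_lit 0) (nat_lit 531168648828) (nat_lit 152) (nat_lit 2103063248720) (nat_lit 0) (nat_lit 529028780891) (nat_lit 1) (nat_lit 5) (nat_lit 3) (nat_lit 4) (nat_lit 1) (nat_lit 4) (nat_lit 363) (nat_lit 236) (nat_lit 181))) (XT.nd (nat_lit 78) (nat_lit 0)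 (nat_lit 0) (XT.lf (nat_lit 0) (nat_lit 574865956221) (nat_lit 152) (nat_lit 2268620903310) (nat_lit 0) (nat_lit 572723754316) (nat_lit 1) (nat_lit 5) (nat_lit 3) (nat_lit 4) (nat_lit 1) (nat_lit 4) (nat_lit 364) (nat_lit 236) (nat_lit 180)) (XT.lf (nat_lit 0) (nat_lit 622056274065) (nat_lit 152) (nat_lit 2447428582317) (nat_lit 0) (nat_lit 619911911079) (nat_lit 1) (nat_lit 5) (nat_lit 3) (nat_lit 4) (nat_lit 1) (nat_lit 4) (nat_lit 365) (nat_lit 236) (nat_lit 179))))))))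
noncomputable def xc17 : XT := (XT.nd (nat_lit 37908) (nat_lit 0) (nat_lit 0) (XT.nd (nat_lit 36738) (nat_lit 0) (nat_lit 0) (XT.nd (nat_lit 36114) (nat_lit 0) (nat_lit 152) (XT.nd (nat_lit 234) (nat_lit 0) (nat_lit 0) (XT.nd (nat_lit 78) (nat_lit 0) (nat_lit 0) (XT.lf (nat_lit 0) (nat_lit 673019248689) (nat_lit 152) (nat_lit 2640545886802) (nat_lit 0) (nat_lit 670872884702) (nat_lit 1) (nat_lit 5) (nat_lit 3) (nat_lit 4) (nat_lit 1) (nat_lit 4) (nat_lit 366) (nat_lit 236) (nat_lit 178)) (XT.nd (nat_lit 78) (nat_lit 0) (nat_lit 0) (XT.lf (nat_lit 0) (nat_lit 728056882906) (nat_lit 152) (nat_lit 2849117215606) (nat_lit 0) (nat_lit 725908666141) (nat_lit 1) (nat_lit 5) (nat_lit 3) (nat_lit 4) (nat_lit 1) (nat_lit 4) (nat_lit 367) (nat_lit 236) (nat_lit 177)) (XT.lf (nat_lit 0) (nat_lit 787495325659) (nat_lit 152) (nat_lit 3074378546973) (nat_lit 0) (nat_lit 785345393358) (nat_lit 1) (nat_lit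 5) (nat_lit 3) (nat_lit 4) (nat_lit 1) (nat_lit 4) (nat_lit 368) (nat_lit 236) (nat_lit 176)))) (XT.nd (nat_lit 35724) (nat_lit 0) (nat_lit 228) (XT.nd (nat_lit 78) (nat_lit 0) (nat_lit 0) (XT.lf (nat_lit 0) (nat_lit 851686804757) (nat_lit 152) (nat_lit 3317664762868) (nat_lit 0) (nat_lit 849535283997) (nat_lit 1) (nat_lit 5) (nat_lit 3) (nat_lit 4) (nat_lit 1) (nat_lit 4) (nat_lit 369) (nat_lit 236) (nat_lit 175)) (XT.lf (nat_lit 0) (nat_lit 921011714151) (nat_lit 152) (nat_lit 3580417559385) (nat_lit 0) (nat_lit 918858722595) (nat_lit 1) (nat_lit 5) (nat_lit 3) (nat_lit 4) (nat_lit 1) (nat_lit 4) (nat_lit 370) (nat_lit 236) (nat_lit 174))) (XT.nd (nat_lit 78) (nat_lit 0) (nat_lit 0) (XT.lf (nat_lit 0) (nat_lit 7967903620) (nat_lit 152) (nat_lit 5073250423) (nat_lit 0) (nat_lit 7967903620) (nat_lit 4) (nat_lit 5) (nat_lit 6) (nat_lit 4) (nat_lit 4) (nat_lit 4) (nat_lit 306) (nat_lit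 237) (nat_lit 237)) (XT.lf (nat_lit 0) (nat_lit 20676106846) (nat_lit 152) (nat_lit 3919133899) (nat_lit 0) (nat_lit 20488499917) (nat_lit 4) (nat_lit 5) (nat_lit 6) (nat_lit 4) (nat_lit 4) (nat_lit 4) (nat_lit 307) (nat_lit 237) (nat_lit 236))))) (XT.nd (nat_lit 312) (nat_lit 0) (nat_lit 0) (XT.nd (nat_lit 156) (nat_lit 0) (nat_lit 0) (XT.nd (nat_lit 78) (nat_lit 0) (nat_lit 0) (XT.lf (nat_lit 0) (nat_lit 2592921732) (nat_lit 76) (nat_lit 23086223111) (nat_lit 76) (nat_lit 22724906062) (nat_lit 3) (nat_lit 4) (nat_lit 4) (nat_lit 5) (nat_lit 4) (nat_lit 4) (nat_lit 308) (nat_lit 237) (nat_lit 235)) (XT.lf (nat_lit 0) (nat_lit 9514306151) (nat_lit 76) (nat_lit 21501632975) (nat_lit 76) (nat_lit 20979473222) (nat_lit 3) (nat_lit 4) (nat_lit 4) (nat_lit 5) (nat_lit 4) (nat_lit 4) (nat_lit 309) (nat_lit 237) (nat_lit 234))) (XT.nd (nat_lit 78) (nat_lit 0) (nat_lit 0) (XT.lf (nat_lit 0)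 (nat_lit 16679660324) (nat_lit 76) (nat_lit 19939236240) (nat_lit 76) (nat_lit 19268148057) (nat_lit 3) (nat_lit 4) (nat_lit 4) (nat_lit 5) (nat_lit 4) (nat_lit 4) (nat_lit 310) (nat_lit 237) (nat_lit 233)) (XT.lf (nat_lit 0) (nat_lit 24131445609) (nat_lit 76) (nat_lit 18389774257) (nat_lit 76) (nat_lit 17580789381) (nat_lit 3) (nat_lit 4) (nat_lit 4) (nat_lit 5) (nat_lit 4) (nat_lit 4) (nat_lit 311) (nat_lit 237) (nat_lit 232)))) (XT.nd (nat_lit 156) (nat_lit 0) (nat_lit 0) (XT.nd (nat_lit 78) (nat_lit 0) (nat_lit 0) (XT.lf (nat_lit 0) (nat_lit 31913820733) (nat_lit 76) (nat_lit 16844065030) (nat_lit 76) (nat_lit 15907398030) (nat_lit 3) (nat_lit 4) (nat_lit 4) (nat_lit 5) (nat_lit 4) (nat_lit 4) (nat_lit 312) (nat_lit 237) (nat_lit 231)) (XT.lf (nat_lit 0) (nat_lit 40072903474) (nat_lit 76) (nat_lit 15292948801) (nat_lit 76) (nat_lit 14238057612) (nat_lit 3) (nat_lit 4) (nat_lit 4)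 (nat_lit 5) (nat_lit 4) (nat_lit 4) (nat_lit 313) (nat_lit 237) (nat_lit 230))) (XT.nd (nat_lit 78) (nat_lit 0) (nat_lit 0) (XT.lf (nat_lit 0) (nat_lit 48657043954) (nat_lit 76) (nat_lit 13727233770) (nat_lit 76) (nat_lit 12562875740) (nat_lit 3) (nat_lit 4) (nat_lit 4) (nat_lit 5) (nat_lit 4) (nat_lit 4) (nat_lit 314) (nat_lit 237) (nat_lit 229)) (XT.lf (nat_lit 0) (nat_lit 57717111151) (nat_lit 76) (nat_lit 12137641626) (nat_lit 76) (nat_lit 10871925409) (nat_lit 3) (nat_lit 4) (nat_lit 4) (nat_lit 5) (nat_lit 4) (nat_lit 4) (nat_lit 315) (nat_lit 237) (nat_lit 228)))))) (XT.nd (nat_lit 546) (nat_lit 0) (nat_lit 0) (XT.nd (nat_lit 234) (nat_lit 152) (nat_lit 0) (XT.nd (nat_lit 78) (nat_lit 0) (nat_lit 0) (XT.lf (nat_lit 0) (nat_lit 67306794355) (nat_lit 76) (nat_lit 10514752563) (nat_lit 76) (nat_lit 9155186173) (nat_lit 3) (nat_lit 4) (nat_lit 4) (nat_lit 5) (nat_lit 4) (nat_lit 4)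 (nat_lit 316) (nat_lit 237) (nat_lit 227)) (XT.nd (nat_lit 78) (nat_lit 0) (nat_lit 0) (XT.lf (nat_lit 0) (nat_lit 77482921315) (nat_lit 76) (nat_lit 8848949460) (nat_lit 76) (nat_lit 7402484762) (nat_lit 3) (nat_lit 4) (nat_lit 4) (nat_lit 5) (nat_lit 4) (nat_lit 4) (nat_lit 317) (nat_lit 237) (nat_lit 226)) (XT.lf (nat_lit 0) (nat_lit 88305795009) (nat_lit 76) (nat_lit 7130360893) (nat_lit 76) (nat_lit 5603434799) (nat_lit 3) (nat_lit 4) (nat_lit 4) (nat_lit 5) (nat_lit 4) (nat_lit 4) (nat_lit 318) (nat_lit 237) (nat_lit 225)))) (XT.nd (nat_lit 156) (nat_lit 152) (nat_lit 0) (XT.nd (nat_lit 78) (nat_lit 0) (nat_lit 0) (XT.lf (nat_lit 0) (nat_lit 99839550982) (nat_lit 76) (nat_lit 5348802632) (nat_lit 76) (nat_lit 3747375245) (nat_lit 3) (nat_lit 4) (nat_lit 4) (nat_lit 5) (nat_lit 4) (nat_lit 4) (nat_lit 319) (nat_lit 237) (nat_lit 224)) (XT.lf (nat_lit 0) (nat_lit 112152537419) (nat_lit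 76) (nat_lit 3493717296) (nat_lit 76) (nat_lit 1823307230) (nat_lit 3) (nat_lit 4) (nat_lit 4) (nat_lit 5) (nat_lit 4) (nat_lit 4) (nat_lit 320) (nat_lit 237) (nat_lit 223))) (XT.nd (nat_lit 78) (nat_lit 76) (nat_lit 0) (XT.lf (nat_lit 0) (nat_lit 171158240) (nat_lit 152) (nat_lit 1378273775) (nat_lit 76) (nat_lit 125141882155) (nat_lit 2) (nat_lit 5) (nat_lit 4) (nat_lit 5) (nat_lit 3) (nat_lit 4) (nat_lit 321) (nat_lit 237) (nat_lit 222)) (XT.lf (nat_lit 0) (nat_lit 2244307098) (nat_lit 152) (nat_lit 133817607888) (nat_lit 0) (nat_lit 583728909) (nat_lit 1) (nat_lit 5) (nat_lit 3) (nat_lit 4) (nat_lit 1) (nat_lit 4) (nat_lit 322) (nat_lit 237) (nat_lit 221))))) (XT.nd (nat_lit 312) (nat_lit 0) (nat_lit 0) (XT.nd (nat_lit 156) (nat_lit 0) (nat_lit 0) (XT.nd (nat_lit 78) (nat_lit 0) (nat_lit 0) (XT.lf (nat_lit 0) (nat_lit 4497127918) (nat_lit 152) (nat_lit 140112274944) (nat_lit 0) (nat_lit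 2785845400) (nat_lit 1) (nat_lit 5) (nat_lit 3) (nat_lit 4) (nat_lit 1) (nat_lit 4) (nat_lit 323) (nat_lit 237) (nat_lit 220)) (XT.lf (nat_lit 0) (nat_lit 6869907553) (nat_lit 152) (nat_lit 147028089552) (nat_lit 0) (nat_lit 5111676583) (nat_lit 1) (nat_lit 5) (nat_lit 3) (nat_lit 4) (nat_lit 1) (nat_lit 4) (nat_lit 324) (nat_lit 237) (nat_lit 219))) (XT.nd (nat_lit 78) (nat_lit 0) (nat_lit 0) (XT.lf (nat_lit 0) (nat_lit 9376706920) (nat_lit 152) (nat_lit 154606034316) (nat_lit 0) (nat_lit 7575005161) (nat_lit 1) (nat_lit 5) (nat_lit 3) (nat_lit 4) (nat_lit 1) (nat_lit 4) (nat_lit 325) (nat_lit 237) (nat_lit 218)) (XT.lf (nat_lit 0) (nat_lit 12032381125) (nat_lit 152) (nat_lit 162891015577) (nat_lit 0) (nat_lit 10190428636) (nat_lit 1) (nat_lit 5) (nat_lit 3) (nat_lit 4) (nat_lit 1) (nat_lit 4) (nat_lit 326) (nat_lit 237) (nat_lit 217)))) (XT.nd (nat_lit 156) (nat_lit 0) (nat_lit 0)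 (XT.nd (nat_lit 78) (nat_lit 0) (nat_lit 0) (XT.lf (nat_lit 0) (nat_lit 14852667499) (nat_lit 152) (nat_lit 171932129519) (nat_lit 0) (nat_lit 12973445815) (nat_lit 1) (nat_lit 5) (nat_lit 3) (nat_lit 4) (nat_lit 1) (nat_lit 4) (nat_lit 327) (nat_lit 237) (nat_lit 216)) (XT.lf (nat_lit 0) (nat_lit 17854278848) (nat_lit 152) (nat_lit 181782953113) (nat_lit 0) (nat_lit 15940548650) (nat_lit 1) (nat_lit 5) (nat_lit 3) (nat_lit 4) (nat_lit 1) (nat_lit 4) (nat_lit 328) (nat_lit 237) (nat_lit 215))) (XT.nd (nat_lit 78) (nat_lit 0) (nat_lit 0) (XT.lf (nat_lit 0) (nat_lit 21055002499) (nat_lit 152) (nat_lit 192501861612) (nat_lit 0) (nat_lit 19109319974) (nat_lit 1) (nat_lit 5) (nat_lit 3) (nat_lit 4) (nat_lit 1) (nat_lit 4) (nat_lit 329) (nat_lit 237) (nat_lit 214)) (XT.lf (nat_lit 0) (nat_lit 24473805704) (nat_lit 152) (nat_lit 204152374471) (nat_lit 0) (nat_lit 22498537690) (nat_lit 1) (nat_lit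 5) (nat_lit 3) (nat_lit 4) (nat_lit 1) (nat_lit 4) (nat_lit 330) (nat_lit 237) (nat_lit 213))))))) (XT.nd (nat_lit 1170) (nat_lit 0) (nat_lit 0) (XT.nd (nat_lit 546) (nat_lit 0) (nat_lit 0) (XT.nd (nat_lit 234) (nat_lit 0) (nat_lit 0) (XT.nd (nat_lit 78) (nat_lit 0) (nat_lit 0) (XT.lf (nat_lit 0) (nat_lit 28130948037) (nat_lit 152) (nat_lit 216803531769) (nat_lit 0) (nat_lit 26128286053) (nat_lit 1) (nat_lit 5) (nat_lit 3) (nat_lit 4) (nat_lit 1) (nat_lit 4) (nat_lit 331) (nat_lit 237) (nat_lit 212)) (XT.nd (nat_lit 78) (nat_lit 0) (nat_lit 0) (XT.lf (nat_lit 0) (nat_lit 32048101453) (nat_lit 152) (nat_lit 230530303325) (nat_lit 0) (nat_lit 30020074681) (nat_lit 1) (nat_lit 5) (nat_lit 3) (nat_lit 4) (nat_lit 1) (nat_lit 4) (nat_lit 332) (nat_lit 237) (nat_lit 211)) (XT.lf (nat_lit 0) (nat_lit 36248478712) (nat_lit 152) (nat_lit 245414032971) (nat_lit 0) (nat_lit 34196966025) (nat_lit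 1) (nat_lit 5) (nat_lit 3) (nat_lit 4) (nat_lit 1) (nat_lit 4) (nat_lit 333) (nat_lit 237) (nat_lit 210)))) (XT.nd (nat_lit 156) (nat_lit 0) (nat_lit 0) (XT.nd (nat_lit 78) (nat_lit 0) (nat_lit 0) (XT.lf (nat_lit 0) (nat_lit 40756970940) (nat_lit 152) (nat_lit 261542920587) (nat_lit 0) (nat_lit 38683712036) (nat_lit 1) (nat_lit 5) (nat_lit 3) (nat_lit 4) (nat_lit 1) (nat_lit 4) (nat_lit 334) (nat_lit 237) (nat_lit 209)) (XT.lf (nat_lit 0) (nat_lit 45600295126) (nat_lit 152) (nat_lit 279012544766) (nat_lit 0) (nat_lit 43506900836) (nat_lit 1) (nat_lit 5) (nat_lit 3) (nat_lit 4) (nat_lit 1) (nat_lit 4) (nat_lit 335) (nat_lit 237) (nat_lit 208))) (XT.nd (nat_lit 78) (nat_lit 0) (nat_lit 0) (XT.lf (nat_lit 0) (nat_lit 50807152452) (nat_lit 152) (nat_lit 297926429206) (nat_lit 0) (nat_lit 48695114286) (nat_lit 1) (nat_lit 5) (nat_lit 3) (nat_lit 4) (nat_lit 1) (nat_lit 4) (nat_lit 336) (nat_lit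 237) (nat_lit 207)) (XT.lf (nat_lit 0) (nat_lit 56408398369) (nat_lit 152) (nat_lit 318396656186) (nat_lit 0) (nat_lit 54279097354) (nat_lit 1) (nat_lit 5) (nat_lit 3) (nat_lit 4) (nat_lit 1) (nat_lit 4) (nat_lit 337) (nat_lit 237) (nat_lit 206))))) (XT.nd (nat_lit 312) (nat_lit 0) (nat_lit 0) (XT.nd (nat_lit 156) (nat_lit 0) (nat_lit 0) (XT.nd (nat_lit 78) (nat_lit 0) (nat_lit 0) (XT.lf (nat_lit 0) (nat_lit 62437225444) (nat_lit 152) (nat_lit 340544530755) (nat_lit 0) (nat_lit 60291940310) (nat_lit 1) (nat_lit 5) (nat_lit 3) (nat_lit 4) (nat_lit 1) (nat_lit 4) (nat_lit 338) (nat_lit 237) (nat_lit 205)) (XT.lf (nat_lit 0) (nat_lit 68929360060) (nat_lit 152) (nat_lit 364501299576) (nat_lit 0) (nat_lit 66769274817) (nat_lit 1) (nat_lit 5) (nat_lit 3) (nat_lit 4) (nat_lit 1) (nat_lit 4) (nat_lit 339) (nat_lit 237) (nat_lit 204))) (XT.nd (nat_lit 78) (nat_lit 0) (nat_lit 0) (XT.lf (nat_lit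 0) (nat_lit 75923274127) (nat_lit 152) (nat_lit 390408928687) (nat_lit 0) (nat_lit 73749485078) (nat_lit 1) (nat_lit 5) (nat_lit 3) (nat_lit 4) (nat_lit 1) (nat_lit 4) (nat_lit 340) (nat_lit 237) (nat_lit 203)) (XT.lf (nat_lit 0) (nat_lit 83460413061) (nat_lit 152) (nat_lit 418420944780) (nat_lit 0) (nat_lit 81273935302) (nat_lit 1) (nat_lit 5) (nat_lit 3) (nat_lit 4) (nat_lit 1) (nat_lit 4) (nat_lit 341) (nat_lit 237) (nat_lit 202)))) (XT.nd (nat_lit 156) (nat_lit 0) (nat_lit 0) (XT.nd (nat_lit 78) (nat_lit 0) (nat_lit 0) (XT.lf (nat_lit 0) (nat_lit 91585441388) (nat_lit 152) (nat_lit 448703344986) (nat_lit 0) (nat_lit 89387214825) (nat_lit 1) (nat_lit 5) (nat_lit 3) (nat_lit 4) (nat_lit 1) (nat_lit 4) (nat_lit 342) (nat_lit 237) (nat_lit 201)) (XT.lf (nat_lit 0) (nat_lit 100346507426) (nat_lit 152) (nat_lit 481435580567) (nat_lit 0) (nat_lit 98137402340) (nat_lit 1) (nat_lit 5) (nat_lit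 3) (nat_lit 4) (nat_lit 1) (nat_lit 4) (nat_lit 343) (nat_lit 237) (nat_lit 200))) (XT.nd (nat_lit 78) (nat_lit 0) (nat_lit 0) (XT.lf (nat_lit 0) (nat_lit 109795528601) (nat_lit 152) (nat_lit 516811620324) (nat_lit 0) (nat_lit 107576350810) (nat_lit 1) (nat_lit 5) (nat_lit 3) (nat_lit 4) (nat_lit 1) (nat_lit 4) (nat_lit 344) (nat_lit 237) (nat_lit 199)) (XT.lf (nat_lit 0) (nat_lit 119988499115) (nat_lit 152) (nat_lit 555041100051) (nat_lit 0) (nat_lit 117759994744) (nat_lit 1) (nat_lit 5) (nat_lit 3) (nat_lit 4) (nat_lit 1) (nat_lit 4) (nat_lit 345) (nat_lit 237) (nat_lit 198)))))) (XT.nd (nat_lit 624) (nat_lit 0) (nat_lit 0) (XT.nd (nat_lit 312) (nat_lit 0) (nat_lit 0) (XT.nd (nat_lit 156) (nat_lit 0) (nat_lit 0) (XT.nd (nat_lit 78) (nat_lit 0) (nat_lit 0) (XT.lf (nat_lit 0) (nat_lit 130985821755) (nat_lit 152) (nat_lit 596350564811) (nat_lit 0) (nat_lit 128748681661) (nat_lit 1) (nat_lit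 5) (nat_lit 3) (nat_lit 4) (nat_lit 1) (nat_lit 4) (nat_lit 346) (nat_lit 237) (nat_lit 197)) (XT.lf (nat_lit 0) (nat_lit 142852665840) (nat_lit 152) (nat_lit 640984811433) (nat_lit 0) (nat_lit 140607529707) (nat_lit 1) (nat_lit 5) (nat_lit 3) (nat_lit 4) (nat_lit 1) (nat_lit 4) (nat_lit 347) (nat_lit 237) (nat_lit 196))) (XT.nd (nat_lit 78) (nat_lit 0) (nat_lit 0) (XT.lf (nat_lit 0) (nat_lit 155659353410) (nat_lit 152) (nat_lit 689208339156) (nat_lit 0) (nat_lit 153406813537) (nat_lit 1) (nat_lit 5) (nat_lit 3) (nat_lit 4) (nat_lit 1) (nat_lit 4) (nat_lit 348) (nat_lit 237) (nat_lit 195)) (XT.lf (nat_lit 0) (nat_lit 169481775946) (nat_lit 152) (nat_lit 741306917034) (nat_lit 0) (nat_lit 167222380759) (nat_lit 1) (nat_lit 5) (nat_lit 3) (nat_lit 4) (nat_lit 1) (nat_lit 4) (nat_lit 349) (nat_lit 237) (nat_lit 194)))) (XT.nd (nat_lit 156) (nat_lit 0) (nat_lit 0) (XT.nd (nat_lit 78) (nat_lit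 0) (nat_lit 0) (XT.lf (nat_lit 0) (nat_lit 184401844100) (nat_lit 152) (nat_lit 797589277379) (nat_lit 0) (nat_lit 182136101400) (nat_lit 1) (nat_lit 5) (nat_lit 3) (nat_lit 4) (nat_lit 1) (nat_lit 4) (nat_lit 350) (nat_lit 237) (nat_lit 193)) (XT.lf (nat_lit 0) (nat_lit 200507973091) (nat_lit 152) (nat_lit 858388945290) (nat_lit 0) (nat_lit 198236353064) (nat_lit 1) (nat_lit 5) (nat_lit 3) (nat_lit 4) (nat_lit 1) (nat_lit 4) (nat_lit 351) (nat_lit 237) (nat_lit 192))) (XT.nd (nat_lit 78) (nat_lit 0) (nat_lit 0) (XT.lf (nat_lit 0) (nat_lit 217895606647) (nat_lit 152) (nat_lit 924066215096) (nat_lit 0) (nat_lit 215618544650) (nat_lit 1) (nat_lit 5) (nat_lit 3) (nat_lit 4) (nat_lit 1) (nat_lit 4) (nat_lit 352) (nat_lit 237) (nat_lit 191)) (XT.lf (nat_lit 0) (nat_lit 236667782596) (nat_lit 152) (nat_lit 995010285431) (nat_lit 0) (nat_lit 234385681738) (nat_lit 1) (nat_lit 5) (nat_lit 3)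 (nat_lit 4) (nat_lit 1) (nat_lit 4) (nat_lit 353) (nat_lit 237) (nat_lit 190))))) (XT.nd (nat_lit 312) (nat_lit 0) (nat_lit 0) (XT.nd (nat_lit 156) (nat_lit 0) (nat_lit 0) (XT.nd (nat_lit 78) (nat_lit 0) (nat_lit 0) (XT.lf (nat_lit 0) (nat_lit 256935743462) (nat_lit 152) (nat_lit 1071641565603) (nat_lit 0) (nat_lit 254648976992) (nat_lit 1) (nat_lit 5) (nat_lit 3) (nat_lit 4) (nat_lit 1) (nat_lit 4) (nat_lit 354) (nat_lit 237) (nat_lit 189)) (XT.lf (nat_lit 0) (nat_lit 278819595680) (nat_lit 152) (nat_lit 1154414166901) (nat_lit 0) (nat_lit 276528509199) (nat_lit 1) (nat_lit 5) (nat_lit 3) (nat_lit 4) (nat_lit 1) (nat_lit 4) (nat_lit 355) (nat_lit 237) (nat_lit 188))) (XT.nd (nat_lit 78) (nat_lit 0) (nat_lit 0) (XT.lf (nat_lit 0) (nat_lit 302449021337) (nat_lit 152) (nat_lit 1243818593628) (nat_lit 0) (nat_lit 300153934846) (nat_lit 1) (nat_lit 5) (nat_lit 3) (nat_lit 4) (nat_lit 1)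 (nat_lit 4) (nat_lit 356) (nat_lit 237) (nat_lit 187)) (XT.lf (nat_lit 0) (nat_lit 327964046659) (nat_lit 152) (nat_lit 1340384649796) (nat_lit 0) (nat_lit 325665256455) (nat_lit 1) (nat_lit 5) (nat_lit 3) (nat_lit 4) (nat_lit 1) (nat_lit 4) (nat_lit 357) (nat_lit 237) (nat_lit 186)))) (XT.nd (nat_lit 156) (nat_lit 0) (nat_lit 0) (XT.nd (nat_lit 78) (nat_lit 0) (nat_lit 0) (XT.lf (nat_lit 0) (nat_lit 355515871797) (nat_lit 152) (nat_lit 1444684578700) (nat_lit 0) (nat_lit 353213652228) (nat_lit 1) (nat_lit 5) (nat_lit 3) (nat_lit 4) (nat_lit 1) (nat_lit 4) (nat_lit 358) (nat_lit 237) (nat_lit 185)) (XT.lf (nat_lit 0) (nat_lit 385267766824) (nat_lit 152) (nat_lit 1557336453992) (nat_lit 0) (nat_lit 382962371918) (nat_lit 1) (nat_lit 5) (nat_lit 3) (nat_lit 4) (nat_lit 1) (nat_lit 4) (nat_lit 359) (nat_lit 237) (nat_lit 184))) (XT.nd (nat_lit 78) (nat_lit 0) (nat_lit 0) (XT.lf (nat_lit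 0) (nat_lit 417396039268) (nat_lit 152) (nat_lit 1679007842341) (nat_lit 0) (nat_lit 415087704235) (nat_lit 1) (nat_lit 5) (nat_lit 3) (nat_lit 4) (nat_lit 1) (nat_lit 4) (nat_lit 360) (nat_lit 237) (nat_lit 183)) (XT.lf (nat_lit 0) (nat_lit 452091078890) (nat_lit 152) (nat_lit 1810419759382) (nat_lit 0) (nat_lit 449780021518) (nat_lit 1) (nat_lit 5) (nat_lit 3) (nat_lit 4) (nat_lit 1) (nat_lit 4) (nat_lit 361) (nat_lit 237) (nat_lit 182))))))))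
noncomputable def xc18 : XT := (XT.nd (nat_lit 37752) (nat_lit 0) (nat_lit 0) (XT.nd (nat_lit 36582) (nat_lit 0) (nat_lit 0) (XT.nd (nat_lit 546) (nat_lit 0) (nat_lit 0) (XT.nd (nat_lit 234) (nat_lit 0) (nat_lit 0) (XT.nd (nat_lit 78) (nat_lit 0) (nat_lit 0) (XT.lf (nat_lit 0) (nat_lit 489558485927) (nat_lit 152) (nat_lit 1952350942401) (nat_lit 0) (nat_lit 487244907869) (nat_lit 1) (nat_lit 5) (nat_lit 3) (nat_lit 4) (nat_lit 1) (nat_lit 4) (nat_lit 362) (nat_lit 237) (nat_lit 181)) (XT.nd (nat_lit 78) (nat_lit 0) (nat_lit 0) (XT.lf (nat_lit 0) (nat_lit 530020289455) (nat_lit 152) (nat_lit 2105642465075) (nat_lit 0) (nat_lit 527704377430) (nat_lit 1) (nat_lit 5) (nat_lit 3) (nat_lit 4) (nat_lit 1) (nat_lit 4) (nat_lit 363) (nat_lit 237) (nat_lit 180)) (XT.lf (nat_lit 0) (nat_lit 573716263127) (nat_lit 152) (nat_lit 2271202721612) (nat_lit 0) (nat_lit 571398190021) (nat_lit 1) (nat_lit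 5) (nat_lit 3) (nat_lit 4) (nat_lit 1) (nat_lit 4) (nat_lit 364) (nat_lit 237) (nat_lit 179)))) (XT.nd (nat_lit 156) (nat_lit 0) (nat_lit 0) (XT.nd (nat_lit 78) (nat_lit 0) (nat_lit 0) (XT.lf (nat_lit 0) (nat_lit 620905346044) (nat_lit 152) (nat_lit 2450012809829) (nat_lit 0) (nat_lit 618585271937) (nat_lit 1) (nat_lit 5) (nat_lit 3) (nat_lit 4) (nat_lit 1) (nat_lit 4) (nat_lit 365) (nat_lit 237) (nat_lit 178)) (XT.lf (nat_lit 0) (nat_lit 671867177218) (nat_lit 152) (nat_lit 2643132345064) (nat_lit 0) (nat_lit 669545250332) (nat_lit 1) (nat_lit 5) (nat_lit 3) (nat_lit 4) (nat_lit 1) (nat_lit 4) (nat_lit 366) (nat_lit 237) (nat_lit 177))) (XT.nd (nat_lit 78) (nat_lit 0) (nat_lit 0) (XT.lf (nat_lit 0) (nat_lit 726903752684) (nat_lit 152) (nat_lit 2851705739377) (nat_lit 0) (nat_lit 724580110263) (nat_lit 1) (nat_lit 5) (nat_lit 3) (nat_lit 4) (nat_lit 1) (nat_lit 4) (nat_lit 367) (nat_lit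 237) (nat_lit 176)) (XT.lf (nat_lit 0) (nat_lit 786341215113) (nat_lit 152) (nat_lit 3076968983253) (nat_lit 0) (nat_lit 784015984232) (nat_lit 1) (nat_lit 5) (nat_lit 3) (nat_lit 4) (nat_lit 1) (nat_lit 4) (nat_lit 368) (nat_lit 237) (nat_lit 175))))) (XT.nd (nat_lit 35724) (nat_lit 0) (nat_lit 152) (XT.nd (nat_lit 35568) (nat_lit 0) (nat_lit 228) (XT.nd (nat_lit 78) (nat_lit 0) (nat_lit 0) (XT.lf (nat_lit 0) (nat_lit 850531786503) (nat_lit 152) (nat_lit 3320256969989) (nat_lit 0) (nat_lit 848205084827) (nat_lit 1) (nat_lit 5) (nat_lit 3) (nat_lit 4) (nat_lit 1) (nat_lit 4) (nat_lit 369) (nat_lit 237) (nat_lit 174)) (XT.lf (nat_lit 0) (nat_lit 919855855426) (nat_lit 152) (nat_lit 3583011406174) (nat_lit 0) (nat_lit 917527791902) (nat_lit 1) (nat_lit 5) (nat_lit 3) (nat_lit 4) (nat_lit 1) (nat_lit 4) (nat_lit 370) (nat_lit 237) (nat_lit 173))) (XT.nd (nat_lit 78) (nat_lit 0) (nat_lit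 0) (XT.lf (nat_lit 0) (nat_lit 3623954253) (nat_lit 152) (nat_lit 11045372429) (nat_lit 0) (nat_lit 3623954253) (nat_lit 4) (nat_lit 5) (nat_lit 6) (nat_lit 4) (nat_lit 4) (nat_lit 4) (nat_lit 304) (nat_lit 238) (nat_lit 238)) (XT.lf (nat_lit 0) (nat_lit 11570411016) (nat_lit 152) (nat_lit 16255790472) (nat_lit 0) (nat_lit 11367795532) (nat_lit 4) (nat_lit 5) (nat_lit 6) (nat_lit 4) (nat_lit 4) (nat_lit 4) (nat_lit 305) (nat_lit 238) (nat_lit 237)))) (XT.nd (nat_lit 156) (nat_lit 76) (nat_lit 0) (XT.nd (nat_lit 78) (nat_lit 0) (nat_lit 0) (XT.lf (nat_lit 0) (nat_lit 16045560686) (nat_lit 152) (nat_lit 10324705581) (nat_lit 0) (nat_lit 15655338273) (nat_lit 4) (nat_lit 5) (nat_lit 6) (nat_lit 4) (nat_lit 4) (nat_lit 4) (nat_lit 306) (nat_lit 238) (nat_lit 236)) (XT.lf (nat_lit 0) (nat_lit 20699876923) (nat_lit 152) (nat_lit 4262343017) (nat_lit 0) (nat_lit 20135944390) (nat_lit 4) (nat_lit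 5) (nat_lit 6) (nat_lit 4) (nat_lit 4) (nat_lit 4) (nat_lit 307) (nat_lit 238) (nat_lit 235))) (XT.nd (nat_lit 78) (nat_lit 0) (nat_lit 0) (XT.lf (nat_lit 0) (nat_lit 2070812772) (nat_lit 76) (nat_lit 23539931185) (nat_lit 76) (nat_lit 22815155948) (nat_lit 3) (nat_lit 4) (nat_lit 4) (nat_lit 5) (nat_lit 4) (nat_lit 4) (nat_lit 308) (nat_lit 238) (nat_lit 234)) (XT.lf (nat_lit 0) (nat_lit 8843283249) (nat_lit 76) (nat_lit 22026956727) (nat_lit 76) (nat_lit 21153253061) (nat_lit 3) (nat_lit 4) (nat_lit 4) (nat_lit 5) (nat_lit 4) (nat_lit 4) (nat_lit 309) (nat_lit 238) (nat_lit 233)))))) (XT.nd (nat_lit 546) (nat_lit 152) (nat_lit 0) (XT.nd (nat_lit 234) (nat_lit 0) (nat_lit 0) (XT.nd (nat_lit 78) (nat_lit 0) (nat_lit 0) (XT.lf (nat_lit 0) (nat_lit 15870754142) (nat_lit 76) (nat_lit 20530870805) (nat_lit 76) (nat_lit 19519270445) (nat_lit 3) (nat_lit 4) (nat_lit 4) (nat_lit 5) (nat_lit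 4) (nat_lit 4) (nat_lit 310) (nat_lit 238) (nat_lit 232)) (XT.nd (nat_lit 78) (nat_lit 0) (nat_lit 0) (XT.lf (nat_lit 0) (nat_lit 23194869723) (nat_lit 76) (nat_lit 19042807724) (nat_lit 76) (nat_lit 17903525240) (nat_lit 3) (nat_lit 4) (nat_lit 4) (nat_lit 5) (nat_lit 4) (nat_lit 4) (nat_lit 311) (nat_lit 238) (nat_lit 231)) (XT.lf (nat_lit 0) (nat_lit 30859032158) (nat_lit 76) (nat_lit 17553949332) (nat_lit 76) (nat_lit 16296442659) (nat_lit 3) (nat_lit 4) (nat_lit 4) (nat_lit 5) (nat_lit 4) (nat_lit 4) (nat_lit 312) (nat_lit 238) (nat_lit 230)))) (XT.nd (nat_lit 156) (nat_lit 0) (nat_lit 0) (XT.nd (nat_lit 78) (nat_lit 0) (nat_lit 0) (XT.lf (nat_lit 0) (nat_lit 38908658707) (nat_lit 76) (nat_lit 16055472764) (nat_lit 76) (nat_lit 14688499250) (nat_lit 3) (nat_lit 4) (nat_lit 4) (nat_lit 5) (nat_lit 4) (nat_lit 4) (nat_lit 313) (nat_lit 238) (nat_lit 229)) (XT.lf (nat_lit 0) (nat_lit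 47391450859) (nat_lit 76) (nat_lit 14538498161) (nat_lit 76) (nat_lit 13070166460) (nat_lit 3) (nat_lit 4) (nat_lit 4) (nat_lit 5) (nat_lit 4) (nat_lit 4) (nat_lit 314) (nat_lit 238) (nat_lit 228))) (XT.nd (nat_lit 78) (nat_lit 0) (nat_lit 0) (XT.lf (nat_lit 0) (nat_lit 56357677014) (nat_lit 76) (nat_lit 12994036042) (nat_lit 76) (nat_lit 11431854168) (nat_lit 3) (nat_lit 4) (nat_lit 4) (nat_lit 5) (nat_lit 4) (nat_lit 4) (nat_lit 315) (nat_lit 238) (nat_lit 227)) (XT.lf (nat_lit 0) (nat_lit 65860470362) (nat_lit 76) (nat_lit 11412934039) (nat_lit 76) (nat_lit 9763853857) (nat_lit 3) (nat_lit 4) (nat_lit 4) (nat_lit 5) (nat_lit 4) (nat_lit 4) (nat_lit 316) (nat_lit 238) (nat_lit 226))))) (XT.nd (nat_lit 312) (nat_lit 152) (nat_lit 0) (XT.nd (nat_lit 156) (nat_lit 0) (nat_lit 0) (XT.nd (nat_lit 78) (nat_lit 0) (nat_lit 0) (XT.lf (nat_lit 0) (nat_lit 75956143753) (nat_lit 76) (nat_lit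 9785822659) (nat_lit 76) (nat_lit 8056281081) (nat_lit 3) (nat_lit 4) (nat_lit 4) (nat_lit 5) (nat_lit 4) (nat_lit 4) (nat_lit 317) (nat_lit 238) (nat_lit 225)) (XT.lf (nat_lit 0) (nat_lit 86704523400) (nat_lit 76) (nat_lit 8103059761) (nat_lit 76) (nat_lit 6299016890) (nat_lit 3) (nat_lit 4) (nat_lit 4) (nat_lit 5) (nat_lit 4) (nat_lit 4) (nat_lit 318) (nat_lit 238) (nat_lit 224))) (XT.nd (nat_lit 78) (nat_lit 0) (nat_lit 0) (XT.lf (nat_lit 0) (nat_lit 98169303405) (nat_lit 76) (nat_lit 6354673416) (nat_lit 76) (nat_lit 4481647867) (nat_lit 3) (nat_lit 4) (nat_lit 4) (nat_lit 5) (nat_lit 4) (nat_lit 4) (nat_lit 319) (nat_lit 238) (nat_lit 223)) (XT.lf (nat_lit 0) (nat_lit 110418423205) (nat_lit 76) (nat_lit 4530302817) (nat_lit 76) (nat_lit 2593404417) (nat_lit 3) (nat_lit 4) (nat_lit 4) (nat_lit 5) (nat_lit 4) (nat_lit 4) (nat_lit 320) (nat_lit 238) (nat_lit 222)))) (XT.nd (nat_lit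 156) (nat_lit 0) (nat_lit 0) (XT.nd (nat_lit 78) (nat_lit 152) (nat_lit 0) (XT.lf (nat_lit 0) (nat_lit 123524470176) (nat_lit 76) (nat_lit 2619136878) (nat_lit 76) (nat_lit 623096949) (nat_lit 3) (nat_lit 4) (nat_lit 4) (nat_lit 5) (nat_lit 4) (nat_lit 4) (nat_lit 321) (nat_lit 238) (nat_lit 221)) (XT.lf (nat_lit 0) (nat_lit 838384769) (nat_lit 76) (nat_lit 550646659) (nat_lit 152) (nat_lit 135340592647) (nat_lit 1) (nat_lit 5) (nat_lit 2) (nat_lit 5) (nat_lit 3) (nat_lit 4) (nat_lit 322) (nat_lit 238) (nat_lit 220))) (XT.nd (nat_lit 78) (nat_lit 0) (nat_lit 0) (XT.lf (nat_lit 0) (nat_lit 3599634736) (nat_lit 152) (nat_lit 142229189349) (nat_lit 0) (nat_lit 1653796836) (nat_lit 1) (nat_lit 5) (nat_lit 3) (nat_lit 4) (nat_lit 1) (nat_lit 4) (nat_lit 323) (nat_lit 238) (nat_lit 219)) (XT.lf (nat_lit 0) (nat_lit 5945586179) (nat_lit 152) (nat_lit 149197342894) (nat_lit 0) (nat_lit 3956277491)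 (nat_lit 1) (nat_lit 5) (nat_lit 3) (nat_lit 4) (nat_lit 1) (nat_lit 4) (nat_lit 324) (nat_lit 238) (nat_lit 218))))))) (XT.nd (nat_lit 1170) (nat_lit 0) (nat_lit 0) (XT.nd (nat_lit 546) (nat_lit 0) (nat_lit 0) (XT.nd (nat_lit 234) (nat_lit 0) (nat_lit 0) (XT.nd (nat_lit 78) (nat_lit 0) (nat_lit 0) (XT.lf (nat_lit 0) (nat_lit 8427544627) (nat_lit 152) (nat_lit 156823749637) (nat_lit 0) (nat_lit 6397985208) (nat_lit 1) (nat_lit 5) (nat_lit 3) (nat_lit 4) (nat_lit 1) (nat_lit 4) (nat_lit 325) (nat_lit 238) (nat_lit 217)) (XT.nd (nat_lit 78) (nat_lit 0) (nat_lit 0) (XT.lf (nat_lit 0) (nat_lit 11060217982) (nat_lit 152) (nat_lit 165153603099) (nat_lit 0) (nat_lit 8993389369) (nat_lit 1) (nat_lit 5) (nat_lit 3) (nat_lit 4) (nat_lit 1) (nat_lit 4) (nat_lit 326) (nat_lit 238) (nat_lit 216)) (XT.lf (nat_lit 0) (nat_lit 13859207272) (nat_lit 152) (nat_lit 174236265377) (nat_lit 0) (nat_lit 11757870145)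 (nat_lit 1) (nat_lit 5) (nat_lit 3) (nat_lit 4) (nat_lit 1) (nat_lit 4) (nat_lit 327) (nat_lit 238) (nat_lit 215)))) (XT.nd (nat_lit 156) (nat_lit 0) (nat_lit 0) (XT.nd (nat_lit 78) (nat_lit 0) (nat_lit 0) (XT.lf (nat_lit 0) (nat_lit 16841099099) (nat_lit 152) (nat_lit 184125559652) (nat_lit 0) (nat_lit 14707809644) (nat_lit 1) (nat_lit 5) (nat_lit 3) (nat_lit 4) (nat_lit 1) (nat_lit 4) (nat_lit 328) (nat_lit 238) (nat_lit 214)) (XT.lf (nat_lit 0) (nat_lit 20023563934) (nat_lit 152) (nat_lit 194880089151) (nat_lit 0) (nat_lit 17860688991) (nat_lit 1) (nat_lit 5) (nat_lit 3) (nat_lit 4) (nat_lit 1) (nat_lit 4) (nat_lit 329) (nat_lit 238) (nat_lit 213))) (XT.nd (nat_lit 78) (nat_lit 0) (nat_lit 0) (XT.lf (nat_lit 0) (nat_lit 23425460827) (nat_lit 152) (nat_lit 206563584419) (nat_lit 0) (nat_lit 21235191913) (nat_lit 1) (nat_lit 5) (nat_lit 3) (nat_lit 4) (nat_lit 1) (nat_lit 4) (nat_lit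 330) (nat_lit 238) (nat_lit 212)) (XT.lf (nat_lit 0) (nat_lit 27066949168) (nat_lit 152) (nat_lit 219245280983) (nat_lit 0) (nat_lit 24851315466) (nat_lit 1) (nat_lit 5) (nat_lit 3) (nat_lit 4) (nat_lit 1) (nat_lit 4) (nat_lit 331) (nat_lit 238) (nat_lit 211))))) (XT.nd (nat_lit 312) (nat_lit 0) (nat_lit 0) (XT.nd (nat_lit 156) (nat_lit 0) (nat_lit 0) (XT.nd (nat_lit 78) (nat_lit 0) (nat_lit 0) (XT.lf (nat_lit 0) (nat_lit 30969608146) (nat_lit 152) (nat_lit 233000329638) (nat_lit 0) (nat_lit 28730488530) (nat_lit 1) (nat_lit 5) (nat_lit 3) (nat_lit 4) (nat_lit 1) (nat_lit 4) (nat_lit 332) (nat_lit 238) (nat_lit 210)) (XT.lf (nat_lit 0) (nat_lit 35156564630) (nat_lit 152) (nat_lit 247910241783) (nat_lit 0) (nat_lit 32895698797) (nat_lit 1) (nat_lit 5) (nat_lit 3) (nat_lit 4) (nat_lit 1) (nat_lit 4) (nat_lit 333) (nat_lit 238) (nat_lit 209))) (XT.nd (nat_lit 78) (nat_lit 0) (nat_lit 0)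 (XT.lf (nat_lit 0) (nat_lit 39652630214) (nat_lit 152) (nat_lit 264063372454) (nat_lit 0) (nat_lit 37371628994) (nat_lit 1) (nat_lit 5) (nat_lit 3) (nat_lit 4) (nat_lit 1) (nat_lit 4) (nat_lit 334) (nat_lit 238) (nat_lit 208)) (XT.lf (nat_lit 0) (nat_lit 44484448249) (nat_lit 152) (nat_lit 281555443905) (nat_lit 0) (nat_lit 42184803153) (nat_lit 1) (nat_lit 5) (nat_lit 3) (nat_lit 4) (nat_lit 1) (nat_lit 4) (nat_lit 335) (nat_lit 238) (nat_lit 207)))) (XT.nd (nat_lit 156) (nat_lit 0) (nat_lit 0) (XT.nd (nat_lit 78) (nat_lit 0) (nat_lit 0) (XT.lf (nat_lit 0) (nat_lit 49680651731) (nat_lit 152) (nat_lit 300490112857) (nat_lit 0) (nat_lit 47363743786) (nat_lit 1) (nat_lit 5) (nat_lit 3) (nat_lit 4) (nat_lit 1) (nat_lit 4) (nat_lit 336) (nat_lit 238) (nat_lit 206)) (XT.lf (nat_lit 0) (nat_lit 55272032977) (nat_lit 152) (nat_lit 320979584756) (nat_lit 0) (nat_lit 52939140914) (nat_lit 1)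 (nat_lit 5) (nat_lit 3) (nat_lit 4) (nat_lit 1) (nat_lit 4) (nat_lit 337) (nat_lit 238) (nat_lit 205))) (XT.nd (nat_lit 78) (nat_lit 0) (nat_lit 0) (XT.lf (nat_lit 0) (nat_lit 61291726098) (nat_lit 152) (nat_lit 343145278693) (nat_lit 0) (nat_lit 58944033924) (nat_lit 1) (nat_lit 5) (nat_lit 3) (nat_lit 4) (nat_lit 1) (nat_lit 4) (nat_lit 338) (nat_lit 238) (nat_lit 204)) (XT.lf (nat_lit 0) (nat_lit 67775403349) (nat_lit 152) (nat_lit 367118546930) (nat_lit 0) (nat_lit 65414007370) (nat_lit 1) (nat_lit 5) (nat_lit 3) (nat_lit 4) (nat_lit 1) (nat_lit 4) (nat_lit 339) (nat_lit 238) (nat_lit 203)))))) (XT.nd (nat_lit 624) (nat_lit 0) (nat_lit 0) (XT.nd (nat_lit 312) (nat_lit 0) (nat_lit 0) (XT.nd (nat_lit 156) (nat_lit 0) (nat_lit 0) (XT.nd (nat_lit 78) (nat_lit 0) (nat_lit 0) (XT.lf (nat_lit 0) (nat_lit 74761486523) (nat_lit 152) (nat_lit 393041453278) (nat_lit 0) (nat_lit 72387401835)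 (nat_lit 1) (nat_lit 5) (nat_lit 3) (nat_lit 4) (nat_lit 1) (nat_lit 4) (nat_lit 340) (nat_lit 238) (nat_lit 202)) (XT.lf (nat_lit 0) (nat_lit 82291374629) (nat_lit 152) (nat_lit 421067614960) (nat_lit 0) (nat_lit 79905541137) (nat_lit 1) (nat_lit 5) (nat_lit 3) (nat_lit 4) (nat_lit 1) (nat_lit 4) (nat_lit 341) (nat_lit 238) (nat_lit 201))) (XT.nd (nat_lit 78) (nat_lit 0) (nat_lit 0) (XT.lf (nat_lit 0) (nat_lit 90409689227) (nat_lit 152) (nat_lit 451363112935) (nat_lit 0) (nat_lit 88012977212) (nat_lit 1) (nat_lit 5) (nat_lit 3) (nat_lit 4) (nat_lit 1) (nat_lit 4) (nat_lit 342) (nat_lit 238) (nat_lit 200)) (XT.lf (nat_lit 0) (nat_lit 99164538849) (nat_lit 152) (nat_lit 484107476078) (nat_lit 0) (nat_lit 96757754128) (nat_lit 1) (nat_lit 5) (nat_lit 3) (nat_lit 4) (nat_lit 1) (nat_lit 4) (nat_lit 343) (nat_lit 238) (nat_lit 199)))) (XT.nd (nat_lit 156) (nat_lit 0) (nat_lit 0) (XT.nd (nat_lit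 78) (nat_lit 0) (nat_lit 0) (XT.lf (nat_lit 0) (nat_lit 108607804084) (nat_lit 152) (nat_lit 519494745061) (nat_lit 0) (nat_lit 106191692783) (nat_lit 1) (nat_lit 5) (nat_lit 3) (nat_lit 4) (nat_lit 1) (nat_lit 4) (nat_lit 344) (nat_lit 238) (nat_lit 198)) (XT.lf (nat_lit 0) (nat_lit 118795445024) (nat_lit 152) (nat_lit 557734622218) (nat_lit 0) (nat_lit 116370698000) (nat_lit 1) (nat_lit 5) (nat_lit 3) (nat_lit 4) (nat_lit 1) (nat_lit 4) (nat_lit 345) (nat_lit 238) (nat_lit 197))) (XT.nd (nat_lit 78) (nat_lit 0) (nat_lit 0) (XT.lf (nat_lit 0) (nat_lit 129787832872) (nat_lit 152) (nat_lit 599053714228) (nat_lit 0) (nat_lit 127355089810) (nat_lit 1) (nat_lit 5) (nat_lit 3) (nat_lit 4) (nat_lit 1) (nat_lit 4) (nat_lit 346) (nat_lit 238) (nat_lit 196)) (XT.lf (nat_lit 0) (nat_lit 141650107706) (nat_lit 152) (nat_lit 643696874971) (nat_lit 0) (nat_lit 139209960904) (nat_lit 1) (nat_lit 5)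 (nat_lit 3) (nat_lit 4) (nat_lit 1) (nat_lit 4) (nat_lit 347) (nat_lit 238) (nat_lit 195))))) (XT.nd (nat_lit 312) (nat_lit 0) (nat_lit 0) (XT.nd (nat_lit 156) (nat_lit 0) (nat_lit 0) (XT.nd (nat_lit 78) (nat_lit 0) (nat_lit 0) (XT.lf (nat_lit 0) (nat_lit 154452564488) (nat_lit 152) (nat_lit 691928656510) (nat_lit 0) (nat_lit 152005562371) (nat_lit 1) (nat_lit 5) (nat_lit 3) (nat_lit 4) (nat_lit 1) (nat_lit 4) (nat_lit 348) (nat_lit 238) (nat_lit 194)) (XT.lf (nat_lit 0) (nat_lit 168271069627) (nat_lit 152) (nat_lit 744034876810) (nat_lit 0) (nat_lit 165817719997) (nat_lit 1) (nat_lit 5) (nat_lit 3) (nat_lit 4) (nat_lit 1) (nat_lit 4) (nat_lit 349) (nat_lit 238) (nat_lit 193))) (XT.nd (nat_lit 78) (nat_lit 0) (nat_lit 0) (XT.lf (nat_lit 0) (nat_lit 183187510563) (nat_lit 152) (nat_lit 800324313471) (nat_lit 0) (nat_lit 180728283605) (nat_lit 1) (nat_lit 5) (nat_lit 3) (nat_lit 4) (nat_lit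 1) (nat_lit 4) (nat_lit 350) (nat_lit 238) (nat_lit 192)) (XT.lf (nat_lit 0) (nat_lit 199290281018) (nat_lit 152) (nat_lit 861130533527) (nat_lit 0) (nat_lit 196825612091) (nat_lit 1) (nat_lit 5) (nat_lit 3) (nat_lit 4) (nat_lit 1) (nat_lit 4) (nat_lit 351) (nat_lit 238) (nat_lit 191)))) (XT.nd (nat_lit 156) (nat_lit 0) (nat_lit 0) (XT.nd (nat_lit 78) (nat_lit 0) (nat_lit 0) (XT.lf (nat_lit 0) (nat_lit 216674804819) (nat_lit 152) (nat_lit 926813870134) (nat_lit 0) (nat_lit 214205097031) (nat_lit 1) (nat_lit 5) (nat_lit 3) (nat_lit 4) (nat_lit 1) (nat_lit 4) (nat_lit 352) (nat_lit 238) (nat_lit 190)) (XT.lf (nat_lit 0) (nat_lit 235444101364) (nat_lit 152) (nat_lit 997763557878) (nat_lit 0) (nat_lit 232969727965) (nat_lit 1) (nat_lit 5) (nat_lit 3) (nat_lit 4) (nat_lit 1) (nat_lit 4) (nat_lit 353) (nat_lit 238) (nat_lit 189))) (XT.nd (nat_lit 78) (nat_lit 0) (nat_lit 0) (XT.lf (nat_lit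 0) (nat_lit 255709396116) (nat_lit 152) (nat_lit 1074400039354) (nat_lit 0) (nat_lit 253230702705) (nat_lit 1) (nat_lit 5) (nat_lit 3) (nat_lit 4) (nat_lit 1) (nat_lit 4) (nat_lit 354) (nat_lit 238) (nat_lit 188)) (XT.lf (nat_lit 0) (nat_lit 277590779710) (nat_lit 152) (nat_lit 1157177456673) (nat_lit 0) (nat_lit 275108086289) (nat_lit 1) (nat_lit 5) (nat_lit 3) (nat_lit 4) (nat_lit 1) (nat_lit 4) (nat_lit 355) (nat_lit 238) (nat_lit 187))))))))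
noncomputable def xc19 : XT := (XT.nd (nat_lit 37674) (nat_lit 0) (nat_lit 0) (XT.nd (nat_lit 36426) (nat_lit 0) (nat_lit 152) (XT.nd (nat_lit 546) (nat_lit 0) (nat_lit 0) (XT.nd (nat_lit 234) (nat_lit 0) (nat_lit 0) (XT.nd (nat_lit 78) (nat_lit 0) (nat_lit 0) (XT.lf (nat_lit 0) (nat_lit 301217919604) (nat_lit 152) (nat_lit 1246586342681) (nat_lit 0) (nat_lit 298731522469) (nat_lit 1) (nat_lit 5) (nat_lit 3) (nat_lit 4) (nat_lit 1) (nat_lit 4) (nat_lit 356) (nat_lit 238) (nat_lit 186)) (XT.nd (nat_lit 78) (nat_lit 0) (nat_lit 0) (XT.lf (nat_lit 0) (nat_lit 326730828478) (nat_lit 152) (nat_lit 1343156527811) (nat_lit 0) (nat_lit 324241001980) (nat_lit 1) (nat_lit 5) (nat_lit 3) (nat_lit 4) (nat_lit 1) (nat_lit 4) (nat_lit 357) (nat_lit 238) (nat_lit 185)) (XT.lf (nat_lit 0) (nat_lit 354280693942) (nat_lit 152) (nat_lit 1447460279828) (nat_lit 0) (nat_lit 351787692107) (nat_lit 1) (nat_lit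 5) (nat_lit 3) (nat_lit 4) (nat_lit 1) (nat_lit 4) (nat_lit 358) (nat_lit 238) (nat_lit 184)))) (XT.nd (nat_lit 156) (nat_lit 0) (nat_lit 0) (XT.nd (nat_lit 78) (nat_lit 0) (nat_lit 0) (XT.lf (nat_lit 0) (nat_lit 384030774457) (nat_lit 152) (nat_lit 1560115695040) (nat_lit 0) (nat_lit 381534832495) (nat_lit 1) (nat_lit 5) (nat_lit 3) (nat_lit 4) (nat_lit 1) (nat_lit 4) (nat_lit 359) (nat_lit 238) (nat_lit 183)) (XT.lf (nat_lit 0) (nat_lit 416157366797) (nat_lit 152) (nat_lit 1681790361093) (nat_lit 0) (nat_lit 413658702495) (nat_lit 1) (nat_lit 5) (nat_lit 3) (nat_lit 4) (nat_lit 1) (nat_lit 4) (nat_lit 360) (nat_lit 238) (nat_lit 182))) (XT.nd (nat_lit 78) (nat_lit 0) (nat_lit 0) (XT.lf (nat_lit 0) (nat_lit 450850850767) (nat_lit 152) (nat_lit 1813205313045) (nat_lit 0) (nat_lit 448349665780) (nat_lit 1) (nat_lit 5) (nat_lit 3) (nat_lit 4) (nat_lit 1) (nat_lit 4) (nat_lit 361) (nat_lit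 238) (nat_lit 181)) (XT.lf (nat_lit 0) (nat_lit 488316817385) (nat_lit 152) (nat_lit 1955139306167) (nat_lit 0) (nat_lit 485813298431) (nat_lit 1) (nat_lit 5) (nat_lit 3) (nat_lit 4) (nat_lit 1) (nat_lit 4) (nat_lit 362) (nat_lit 238) (nat_lit 180))))) (XT.nd (nat_lit 312) (nat_lit 0) (nat_lit 0) (XT.nd (nat_lit 156) (nat_lit 0) (nat_lit 0) (XT.nd (nat_lit 78) (nat_lit 0) (nat_lit 0) (XT.lf (nat_lit 0) (nat_lit 528777287193) (nat_lit 152) (nat_lit 2108433430787) (nat_lit 0) (nat_lit 526271607157) (nat_lit 1) (nat_lit 5) (nat_lit 3) (nat_lit 4) (nat_lit 1) (nat_lit 4) (nat_lit 363) (nat_lit 238) (nat_lit 179)) (XT.lf (nat_lit 0) (nat_lit 572472025938) (nat_lit 152) (nat_lit 2273996096535) (nat_lit 0) (nat_lit 569964344901) (nat_lit 1) (nat_lit 5) (nat_lit 3) (nat_lit 4) (nat_lit 1) (nat_lit 4) (nat_lit 364) (nat_lit 238) (nat_lit 178))) (XT.nd (nat_lit 78) (nat_lit 0) (nat_lit 0) (XT.lf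 (nat_lit 0) (nat_lit 619659965405) (nat_lit 152) (nat_lit 2452808415502) (nat_lit 0) (nat_lit 617150431589) (nat_lit 1) (nat_lit 5) (nat_lit 3) (nat_lit 4) (nat_lit 1) (nat_lit 4) (nat_lit 365) (nat_lit 238) (nat_lit 177)) (XT.lf (nat_lit 0) (nat_lit 670620737828) (nat_lit 152) (nat_lit 2645930016246) (nat_lit 0) (nat_lit 668109488477) (nat_lit 1) (nat_lit 5) (nat_lit 3) (nat_lit 4) (nat_lit 1) (nat_lit 4) (nat_lit 366) (nat_lit 238) (nat_lit 176)))) (XT.nd (nat_lit 156) (nat_lit 0) (nat_lit 0) (XT.nd (nat_lit 78) (nat_lit 0) (nat_lit 0) (XT.lf (nat_lit 0) (nat_lit 725656332969) (nat_lit 152) (nat_lit 2854505323068) (nat_lit 0) (nat_lit 723143495159) (nat_lit 1) (nat_lit 5) (nat_lit 3) (nat_lit 4) (nat_lit 1) (nat_lit 4) (nat_lit 367) (nat_lit 238) (nat_lit 175)) (XT.lf (nat_lit 0) (nat_lit 785092887690) (nat_lit 152) (nat_lit 3079770337786) (nat_lit 0) (nat_lit 782578579084) (nat_lit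 1) (nat_lit 5) (nat_lit 3) (nat_lit 4) (nat_lit 1) (nat_lit 4) (nat_lit 368) (nat_lit 238) (nat_lit 174))) (XT.nd (nat_lit 78) (nat_lit 0) (nat_lit 0) (XT.lf (nat_lit 0) (nat_lit 849282618610) (nat_lit 152) (nat_lit 3323059964190) (nat_lit 0) (nat_lit 846766948156) (nat_lit 1) (nat_lit 5) (nat_lit 3) (nat_lit 4) (nat_lit 1) (nat_lit 4) (nat_lit 369) (nat_lit 238) (nat_lit 173)) (XT.lf (nat_lit 0) (nat_lit 918605909319) (nat_lit 152) (nat_lit 3585815918585) (nat_lit 0) (nat_lit 916088977896) (nat_lit 1) (nat_lit 5) (nat_lit 3) (nat_lit 4) (nat_lit 1) (nat_lit 4) (nat_lit 370) (nat_lit 238) (nat_lit 172)))))) (XT.nd (nat_lit 624) (nat_lit 0) (nat_lit 0) (XT.nd (nat_lit 312) (nat_lit 76) (nat_lit 0) (XT.nd (nat_lit 156) (nat_lit 0) (nat_lit 0) (XT.nd (nat_lit 78) (nat_lit 152) (nat_lit 0) (XT.lf (nat_lit 0) (nat_lit 15289014553) (nat_lit 76) (nat_lit 347826816) (nat_lit 76) (nat_lit 347826816)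 (nat_lit 6) (nat_lit 4) (nat_lit 7) (nat_lit 5) (nat_lit 7) (nat_lit 4) (nat_lit 302) (nat_lit 239) (nat_lit 239)) (XT.lf (nat_lit 0) (nat_lit 3271263052) (nat_lit 152) (nat_lit 27864146252) (nat_lit 0) (nat_lit 3052438329) (nat_lit 4) (nat_lit 5) (nat_lit 6) (nat_lit 4) (nat_lit 4) (nat_lit 4) (nat_lit 303) (nat_lit 239) (nat_lit 238))) (XT.nd (nat_lit 78) (nat_lit 0) (nat_lit 0) (XT.lf (nat_lit 0) (nat_lit 7366442228) (nat_lit 152) (nat_lit 22283205973) (nat_lit 0) (nat_lit 6945002021) (nat_lit 4) (nat_lit 5) (nat_lit 6) (nat_lit 4) (nat_lit 4) (nat_lit 4) (nat_lit 304) (nat_lit 239) (nat_lit 237)) (XT.lf (nat_lit 0) (nat_lit 11596082699) (nat_lit 152) (nat_lit 16626456320) (nat_lit 0) (nat_lit 10987035563) (nat_lit 4) (nat_lit 5) (nat_lit 6) (nat_lit 4) (nat_lit 4) (nat_lit 4) (nat_lit 305) (nat_lit 239) (nat_lit 236)))) (XT.nd (nat_lit 156) (nat_lit 76) (nat_lit 0) (XT.nd (nat_lit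 78) (nat_lit 0) (nat_lit 0) (XT.lf (nat_lit 0) (nat_lit 15985249001) (nat_lit 152) (nat_lit 10860375813) (nat_lit 0) (nat_lit 15202491745) (nat_lit 4) (nat_lit 5) (nat_lit 6) (nat_lit 4) (nat_lit 4) (nat_lit 4) (nat_lit 306) (nat_lit 239) (nat_lit 235)) (XT.lf (nat_lit 0) (nat_lit 20559951007) (nat_lit 152) (nat_lit 4950795086) (nat_lit 0) (nat_lit 19616351048) (nat_lit 4) (nat_lit 5) (nat_lit 6) (nat_lit 4) (nat_lit 4) (nat_lit 4) (nat_lit 307) (nat_lit 239) (nat_lit 234))) (XT.nd (nat_lit 78) (nat_lit 0) (nat_lit 0) (XT.lf (nat_lit 0) (nat_lit 1197194095) (nat_lit 76) (nat_lit 24178896516) (nat_lit 76) (nat_lit 23086368127) (nat_lit 3) (nat_lit 4) (nat_lit 4) (nat_lit 5) (nat_lit 4) (nat_lit 4) (nat_lit 308) (nat_lit 239) (nat_lit 233)) (XT.lf (nat_lit 0) (nat_lit 7831781292) (nat_lit 76) (nat_lit 22732232872) (nat_lit 76) (nat_lit 21501807789) (nat_lit 3) (nat_lit 4) (nat_lit 4) (nat_lit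 5) (nat_lit 4) (nat_lit 4) (nat_lit 309) (nat_lit 239) (nat_lit 232))))) (XT.nd (nat_lit 312) (nat_lit 0) (nat_lit 0) (XT.nd (nat_lit 156) (nat_lit 0) (nat_lit 0) (XT.nd (nat_lit 78) (nat_lit 0) (nat_lit 0) (XT.lf (nat_lit 0) (nat_lit 14731582482) (nat_lit 76) (nat_lit 21297545851) (nat_lit 76) (nat_lit 19939438644) (nat_lit 3) (nat_lit 4) (nat_lit 4) (nat_lit 5) (nat_lit 4) (nat_lit 4) (nat_lit 310) (nat_lit 239) (nat_lit 231)) (XT.lf (nat_lit 0) (nat_lit 21937485374) (nat_lit 76) (nat_lit 19866333604) (nat_lit 76) (nat_lit 18390002208) (nat_lit 3) (nat_lit 4) (nat_lit 4) (nat_lit 5) (nat_lit 4) (nat_lit 4) (nat_lit 311) (nat_lit 239) (nat_lit 230))) (XT.nd (nat_lit 78) (nat_lit 0) (nat_lit 0) (XT.lf (nat_lit 0) (nat_lit 29492191616) (nat_lit 76) (nat_lit 18430114873) (nat_lit 76) (nat_lit 16844316636) (nat_lit 3) (nat_lit 4) (nat_lit 4) (nat_lit 5) (nat_lit 4) (nat_lit 4) (nat_lit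 312) (nat_lit 239) (nat_lit 229)) (XT.lf (nat_lit 0) (nat_lit 37440469838) (nat_lit 76) (nat_lit 16980378733) (nat_lit 76) (nat_lit 15293222310) (nat_lit 3) (nat_lit 4) (nat_lit 4) (nat_lit 5) (nat_lit 4) (nat_lit 4) (nat_lit 313) (nat_lit 239) (nat_lit 228)))) (XT.nd (nat_lit 156) (nat_lit 0) (nat_lit 0) (XT.nd (nat_lit 78) (nat_lit 0) (nat_lit 0) (XT.lf (nat_lit 0) (nat_lit 45829420947) (nat_lit 76) (nat_lit 15508534155) (nat_lit 76) (nat_lit 13727527559) (nat_lit 3) (nat_lit 4) (nat_lit 4) (nat_lit 5) (nat_lit 4) (nat_lit 4) (nat_lit 314) (nat_lit 239) (nat_lit 227)) (XT.lf (nat_lit 0) (nat_lit 54708757246) (nat_lit 76) (nat_lit 14005859097) (nat_lit 76) (nat_lit 12137954192) (nat_lit 3) (nat_lit 4) (nat_lit 4) (nat_lit 5) (nat_lit 4) (nat_lit 4) (nat_lit 315) (nat_lit 239) (nat_lit 226))) (XT.nd (nat_lit 78) (nat_lit 0) (nat_lit 0) (XT.lf (nat_lit 0) (nat_lit 64131097025) (nat_lit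 76) (nat_lit 12463448817) (nat_lit 76) (nat_lit 10515082516) (nat_lit 3) (nat_lit 4) (nat_lit 4) (nat_lit 5) (nat_lit 4) (nat_lit 4) (nat_lit 316) (nat_lit 239) (nat_lit 225)) (XT.lf (nat_lit 0) (nat_lit 74152276370) (nat_lit 76) (nat_lit 10872163106) (nat_lit 76) (nat_lit 8849295513) (nat_lit 3) (nat_lit 4) (nat_lit 4) (nat_lit 5) (nat_lit 4) (nat_lit 4) (nat_lit 317) (nat_lit 239) (nat_lit 224))))))) (XT.nd (nat_lit 1170) (nat_lit 0) (nat_lit 0) (XT.nd (nat_lit 546) (nat_lit 0) (nat_lit 0) (XT.nd (nat_lit 234) (nat_lit 152) (nat_lit 0) (XT.nd (nat_lit 78) (nat_lit 0) (nat_lit 0) (XT.lf (nat_lit 0) (nat_lit 84831680049) (nat_lit 76) (nat_lit 9222572124) (nat_lit 76) (nat_lit 7130721852) (nat_lit 3) (nat_lit 4) (nat_lit 4) (nat_lit 5) (nat_lit 4) (nat_lit 4) (nat_lit 318) (nat_lit 239) (nat_lit 223)) (XT.nd (nat_lit 78) (nat_lit 0) (nat_lit 0) (XT.lf (nat_lit 0) (nat_lit 96232593417)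 (nat_lit 76) (nat_lit 7504900516) (nat_lit 76) (nat_lit 5349177393) (nat_lit 3) (nat_lit 4) (nat_lit 4) (nat_lit 5) (nat_lit 4) (nat_lit 4) (nat_lit 319) (nat_lit 239) (nat_lit 222)) (XT.lf (nat_lit 0) (nat_lit 108422577441) (nat_lit 76) (nat_lit 5708969488) (nat_lit 76) (nat_lit 3494104837) (nat_lit 3) (nat_lit 4) (nat_lit 4) (nat_lit 5) (nat_lit 4) (nat_lit 4) (nat_lit 320) (nat_lit 239) (nat_lit 221)))) (XT.nd (nat_lit 156) (nat_lit 76) (nat_lit 0) (XT.nd (nat_lit 78) (nat_lit 76) (nat_lit 0) (XT.lf (nat_lit 0) (nat_lit 121473869065) (nat_lit 76) (nat_lit 3824136485) (nat_lit 76) (nat_lit 1554511160) (nat_lit 3) (nat_lit 4) (nat_lit 4) (nat_lit 5) (nat_lit 4) (nat_lit 4) (nat_lit 321) (nat_lit 239) (nat_lit 220)) (XT.lf (nat_lit 0) (nat_lit 457031079) (nat_lit 152) (nat_lit 1369705008) (nat_lit 76) (nat_lit 134994282155) (nat_lit 2) (nat_lit 5) (nat_lit 4) (nat_lit 5) (nat_lit 3)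 (nat_lit 4) (nat_lit 322) (nat_lit 239) (nat_lit 219))) (XT.nd (nat_lit 78) (nat_lit 0) (nat_lit 0) (XT.lf (nat_lit 0) (nat_lit 2574539459) (nat_lit 152) (nat_lit 144624321896) (nat_lit 0) (nat_lit 382615287) (nat_lit 1) (nat_lit 5) (nat_lit 3) (nat_lit 4) (nat_lit 1) (nat_lit 4) (nat_lit 323) (nat_lit 239) (nat_lit 218)) (XT.lf (nat_lit 0) (nat_lit 4895649984) (nat_lit 152) (nat_lit 151640937418) (nat_lit 0) (nat_lit 2663475082) (nat_lit 1) (nat_lit 5) (nat_lit 3) (nat_lit 4) (nat_lit 1) (nat_lit 4) (nat_lit 324) (nat_lit 239) (nat_lit 217))))) (XT.nd (nat_lit 312) (nat_lit 0) (nat_lit 0) (XT.nd (nat_lit 156) (nat_lit 0) (nat_lit 0) (XT.nd (nat_lit 78) (nat_lit 0) (nat_lit 0) (XT.lf (nat_lit 0) (nat_lit 7354607582) (nat_lit 152) (nat_lit 159312216363) (nat_lit 0) (nat_lit 5085163485) (nat_lit 1) (nat_lit 5) (nat_lit 3) (nat_lit 4) (nat_lit 1) (nat_lit 4) (nat_lit 325) (nat_lit 239)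 (nat_lit 216)) (XT.lf (nat_lit 0) (nat_lit 9965983854) (nat_lit 152) (nat_lit 167683618161) (nat_lit 0) (nat_lit 7662031243) (nat_lit 1) (nat_lit 5) (nat_lit 3) (nat_lit 4) (nat_lit 1) (nat_lit 4) (nat_lit 326) (nat_lit 239) (nat_lit 215))) (XT.nd (nat_lit 78) (nat_lit 0) (nat_lit 0) (XT.lf (nat_lit 0) (nat_lit 12745253621) (nat_lit 152) (nat_lit 176804751119) (nat_lit 0) (nat_lit 10409348683) (nat_lit 1) (nat_lit 5) (nat_lit 3) (nat_lit 4) (nat_lit 1) (nat_lit 4) (nat_lit 327) (nat_lit 239) (nat_lit 214)) (XT.lf (nat_lit 0) (nat_lit 15708886632) (nat_lit 152) (nat_lit 186729666395) (nat_lit 0) (nat_lit 13343396205) (nat_lit 1) (nat_lit 5) (nat_lit 3) (nat_lit 4) (nat_lit 1) (nat_lit 4) (nat_lit 328) (nat_lit 239) (nat_lit 213)))) (XT.nd (nat_lit 156) (nat_lit 0) (nat_lit 0) (XT.nd (nat_lit 78) (nat_lit 0) (nat_lit 0) (XT.lf (nat_lit 0) (nat_lit 18874445155) (nat_lit 152) (nat_lit 197517178303)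 (nat_lit 0) (nat_lit 16481560757) (nat_lit 1) (nat_lit 5) (nat_lit 3) (nat_lit 4) (nat_lit 1) (nat_lit 4) (nat_lit 329) (nat_lit 239) (nat_lit 212)) (XT.lf (nat_lit 0) (nat_lit 22260688056) (nat_lit 152) (nat_lit 209231212837) (nat_lit 0) (nat_lit 19842438870) (nat_lit 1) (nat_lit 5) (nat_lit 3) (nat_lit 4) (nat_lit 1) (nat_lit 4) (nat_lit 330) (nat_lit 239) (nat_lit 211))) (XT.nd (nat_lit 78) (nat_lit 0) (nat_lit 0) (XT.lf (nat_lit 0) (nat_lit 25887681959) (nat_lit 152) (nat_lit 221941186500) (nat_lit 0) (nat_lit 23445946859) (nat_lit 1) (nat_lit 5) (nat_lit 3) (nat_lit 4) (nat_lit 1) (nat_lit 4) (nat_lit 331) (nat_lit 239) (nat_lit 210)) (XT.lf (nat_lit 0) (nat_lit 29776920162) (nat_lit 152) (nat_lit 235722417654) (nat_lit 0) (nat_lit 27313438845) (nat_lit 1) (nat_lit 5) (nat_lit 3) (nat_lit 4) (nat_lit 1) (nat_lit 4) (nat_lit 332) (nat_lit 239) (nat_lit 209)))))) (XT.nd (nat_lit 624)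 (nat_lit 0) (nat_lit 0) (XT.nd (nat_lit 312) (nat_lit 0) (nat_lit 0) (XT.nd (nat_lit 156) (nat_lit 0) (nat_lit 0) (XT.nd (nat_lit 78) (nat_lit 0) (nat_lit 0) (XT.lf (nat_lit 0) (nat_lit 33951450003) (nat_lit 152) (nat_lit 250656572854) (nat_lit 0) (nat_lit 31467833299) (nat_lit 1) (nat_lit 5) (nat_lit 3) (nat_lit 4) (nat_lit 1) (nat_lit 4) (nat_lit 333) (nat_lit 239) (nat_lit 208)) (XT.lf (nat_lit 0) (nat_lit 38436009435) (nat_lit 152) (nat_lit 266832150797) (nat_lit 0) (nat_lit 35933748855) (nat_lit 1) (nat_lit 5) (nat_lit 3) (nat_lit 4) (nat_lit 1) (nat_lit 4) (nat_lit 334) (nat_lit 239) (nat_lit 207))) (XT.nd (nat_lit 78) (nat_lit 0) (nat_lit 0) (XT.lf (nat_lit 0) (nat_lit 43257173626) (nat_lit 152) (nat_lit 284345006761) (nat_lit 0) (nat_lit 40737650197) (nat_lit 1) (nat_lit 5) (nat_lit 3) (nat_lit 4) (nat_lit 1) (nat_lit 4) (nat_lit 335) (nat_lit 239) (nat_lit 206)) (XT.lf (nat_lit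 0) (nat_lit 48443512437) (nat_lit 152) (nat_lit 303298920631) (nat_lit 0) (nat_lit 45908004890) (nat_lit 1) (nat_lit 5) (nat_lit 3) (nat_lit 4) (nat_lit 1) (nat_lit 4) (nat_lit 336) (nat_lit 239) (nat_lit 205)))) (XT.nd (nat_lit 156) (nat_lit 0) (nat_lit 0) (XT.nd (nat_lit 78) (nat_lit 0) (nat_lit 0) (XT.lf (nat_lit 0) (nat_lit 54025759729) (nat_lit 152) (nat_lit 323806211898) (nat_lit 0) (nat_lit 51475452072) (nat_lit 1) (nat_lit 5) (nat_lit 3) (nat_lit 4) (nat_lit 1) (nat_lit 4) (nat_lit 337) (nat_lit 239) (nat_lit 204)) (XT.lf (nat_lit 0) (nat_lit 60036995485) (nat_lit 152) (nat_lit 345988405251) (nat_lit 0) (nat_lit 57472984022) (nat_lit 1) (nat_lit 5) (nat_lit 3) (nat_lit 4) (nat_lit 1) (nat_lit 4) (nat_lit 338) (nat_lit 239) (nat_lit 203))) (XT.nd (nat_lit 78) (nat_lit 0) (nat_lit 0) (XT.lf (nat_lit 0) (nat_lit 66512841843) (nat_lit 152) (nat_lit 369976950725) (nat_lit 0) (nat_lit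 63936141671) (nat_lit 1) (nat_lit 5) (nat_lit 3) (nat_lit 4) (nat_lit 1) (nat_lit 4) (nat_lit 339) (nat_lit 239) (nat_lit 202)) (XT.lf (nat_lit 0) (nat_lit 73491674189) (nat_lit 152) (nat_lit 395914002663) (nat_lit 0) (nat_lit 70903225213) (nat_lit 1) (nat_lit 5) (nat_lit 3) (nat_lit 4) (nat_lit 1) (nat_lit 4) (nat_lit 340) (nat_lit 239) (nat_lit 201))))) (XT.nd (nat_lit 312) (nat_lit 0) (nat_lit 0) (XT.nd (nat_lit 156) (nat_lit 0) (nat_lit 0) (XT.nd (nat_lit 78) (nat_lit 0) (nat_lit 0) (XT.lf (nat_lit 0) (nat_lit 81014848566) (nat_lit 152) (nat_lit 423953262113) (nat_lit 0) (nat_lit 78415521067) (nat_lit 1) (nat_lit 5) (nat_lit 3) (nat_lit 4) (nat_lit 1) (nat_lit 4) (nat_lit 341) (nat_lit 239) (nat_lit 200)) (XT.lf (nat_lit 0) (nat_lit 89126946749) (nat_lit 152) (nat_lit 454260887650) (nat_lit 0) (nat_lit 86517546544) (nat_lit 1) (nat_lit 5) (nat_lit 3) (nat_lit 4) (nat_lit 1) (nat_lit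 4) (nat_lit 342) (nat_lit 239) (nat_lit 199))) (XT.nd (nat_lit 78) (nat_lit 0) (nat_lit 0) (XT.lf (nat_lit 0) (nat_lit 97876040430) (nat_lit 152) (nat_lit 487016480018) (nat_lit 0) (nat_lit 95257313645) (nat_lit 1) (nat_lit 5) (nat_lit 3) (nat_lit 4) (nat_lit 1) (nat_lit 4) (nat_lit 343) (nat_lit 239) (nat_lit 198)) (XT.lf (nat_lit 0) (nat_lit 107313976091) (nat_lit 152) (nat_lit 522414146432) (nat_lit 0) (nat_lit 104686613584) (nat_lit 1) (nat_lit 5) (nat_lit 3) (nat_lit 4) (nat_lit 1) (nat_lit 4) (nat_lit 344) (nat_lit 239) (nat_lit 197)))) (XT.nd (nat_lit 156) (nat_lit 0) (nat_lit 0) (XT.nd (nat_lit 78) (nat_lit 0) (nat_lit 0) (XT.lf (nat_lit 0) (nat_lit 117496682239) (nat_lit 152) (nat_lit 560663650839) (nat_lit 0) (nat_lit 114861323693) (nat_lit 1) (nat_lit 5) (nat_lit 3) (nat_lit 4) (nat_lit 1) (nat_lit 4) (nat_lit 345) (nat_lit 239) (nat_lit 196)) (XT.lf (nat_lit 0) (nat_lit 128484500836)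 (nat_lit 152) (nat_lit 601991656971) (nat_lit 0) (nat_lit 125841738551) (nat_lit 1) (nat_lit 5) (nat_lit 3) (nat_lit 4) (nat_lit 1) (nat_lit 4) (nat_lit 346) (nat_lit 239) (nat_lit 195))) (XT.nd (nat_lit 78) (nat_lit 0) (nat_lit 0) (XT.lf (nat_lit 0) (nat_lit 140342544882) (nat_lit 152) (nat_lit 646643071529) (nat_lit 0) (nat_lit 137692927282) (nat_lit 1) (nat_lit 5) (nat_lit 3) (nat_lit 4) (nat_lit 1) (nat_lit 4) (nat_lit 347) (nat_lit 239) (nat_lit 194)) (XT.lf (nat_lit 0) (nat_lit 153141084267) (nat_lit 152) (nat_lit 694882495490) (nat_lit 0) (nat_lit 150485119154) (nat_lit 1) (nat_lit 5) (nat_lit 3) (nat_lit 4) (nat_lit 1) (nat_lit 4) (nat_lit 348) (nat_lit 239) (nat_lit 193))))))))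
noncomputable def xc20 : XT := (XT.nd (nat_lit 37440) (nat_lit 0) (nat_lit 0) (XT.nd (nat_lit 1170) (nat_lit 0) (nat_lit 0) (XT.nd (nat_lit 546) (nat_lit 0) (nat_lit 0) (XT.nd (nat_lit 234) (nat_lit 0) (nat_lit 0) (XT.nd (nat_lit 78) (nat_lit 0) (nat_lit 0) (XT.lf (nat_lit 0) (nat_lit 166955962188) (nat_lit 152) (nat_lit 746995792106) (nat_lit 0) (nat_lit 164294119747) (nat_lit 1) (nat_lit 5) (nat_lit 3) (nat_lit 4) (nat_lit 1) (nat_lit 4) (nat_lit 349) (nat_lit 239) (nat_lit 192)) (XT.nd (nat_lit 78) (nat_lit 0) (nat_lit 0) (XT.lf (nat_lit 0) (nat_lit 181869044588) (nat_lit 152) (nat_lit 803291780913) (nat_lit 0) (nat_lit 179201760177) (nat_lit 1) (nat_lit 5) (nat_lit 3) (nat_lit 4) (nat_lit 1) (nat_lit 4) (nat_lit 350) (nat_lit 239) (nat_lit 191)) (XT.lf (nat_lit 0) (nat_lit 197968705288) (nat_lit 152) (nat_lit 864104067770) (nat_lit 0) (nat_lit 195296382016) (nat_lit 1) (nat_lit 5)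 (nat_lit 3) (nat_lit 4) (nat_lit 1) (nat_lit 4) (nat_lit 351) (nat_lit 239) (nat_lit 190)))) (XT.nd (nat_lit 156) (nat_lit 0) (nat_lit 0) (XT.nd (nat_lit 78) (nat_lit 0) (nat_lit 0) (XT.lf (nat_lit 0) (nat_lit 215350349685) (nat_lit 152) (nat_lit 929793021784) (nat_lit 0) (nat_lit 212673360801) (nat_lit 1) (nat_lit 5) (nat_lit 3) (nat_lit 4) (nat_lit 1) (nat_lit 4) (nat_lit 352) (nat_lit 239) (nat_lit 189)) (XT.lf (nat_lit 0) (nat_lit 234116980116) (nat_lit 152) (nat_lit 1000747910832) (nat_lit 0) (nat_lit 231435671222) (nat_lit 1) (nat_lit 5) (nat_lit 3) (nat_lit 4) (nat_lit 1) (nat_lit 4) (nat_lit 353) (nat_lit 239) (nat_lit 188))) (XT.nd (nat_lit 78) (nat_lit 0) (nat_lit 0) (XT.lf (nat_lit 0) (nat_lit 254379806244) (nat_lit 152) (nat_lit 1077389208330) (nat_lit 0) (nat_lit 251694497339) (nat_lit 1) (nat_lit 5) (nat_lit 3) (nat_lit 4) (nat_lit 1) (nat_lit 4) (nat_lit 354) (nat_lit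 239) (nat_lit 187)) (XT.lf (nat_lit 0) (nat_lit 276258904075) (nat_lit 152) (nat_lit 1160171084930) (nat_lit 0) (nat_lit 273569891456) (nat_lit 1) (nat_lit 5) (nat_lit 3) (nat_lit 4) (nat_lit 1) (nat_lit 4) (nat_lit 355) (nat_lit 239) (nat_lit 186))))) (XT.nd (nat_lit 312) (nat_lit 0) (nat_lit 0) (XT.nd (nat_lit 156) (nat_lit 0) (nat_lit 0) (XT.nd (nat_lit 78) (nat_lit 0) (nat_lit 0) (XT.lf (nat_lit 0) (nat_lit 299883927521) (nat_lit 152) (nat_lit 1249584099900) (nat_lit 0) (nat_lit 297191485539) (nat_lit 1) (nat_lit 5) (nat_lit 3) (nat_lit 4) (nat_lit 1) (nat_lit 4) (nat_lit 356) (nat_lit 239) (nat_lit 185)) (XT.lf (nat_lit 0) (nat_lit 325394876722) (nat_lit 152) (nat_lit 1346158108144) (nat_lit 0) (nat_lit 322699259403) (nat_lit 1) (nat_lit 5) (nat_lit 3) (nat_lit 4) (nat_lit 1) (nat_lit 4) (nat_lit 357) (nat_lit 239) (nat_lit 184))) (XT.nd (nat_lit 78) (nat_lit 0) (nat_lit 0) (XT.lf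 (nat_lit 0) (nat_lit 352942927674) (nat_lit 152) (nat_lit 1450465400081) (nat_lit 0) (nat_lit 350244370227) (nat_lit 1) (nat_lit 5) (nat_lit 3) (nat_lit 4) (nat_lit 1) (nat_lit 4) (nat_lit 358) (nat_lit 239) (nat_lit 183)) (XT.lf (nat_lit 0) (nat_lit 382691328084) (nat_lit 152) (nat_lit 1563124092997) (nat_lit 0) (nat_lit 379990048298) (nat_lit 1) (nat_lit 5) (nat_lit 3) (nat_lit 4) (nat_lit 1) (nat_lit 4) (nat_lit 359) (nat_lit 239) (nat_lit 182)))) (XT.nd (nat_lit 156) (nat_lit 0) (nat_lit 0) (XT.nd (nat_lit 78) (nat_lit 0) (nat_lit 0) (XT.lf (nat_lit 0) (nat_lit 414816364772) (nat_lit 152) (nat_lit 1684801793961) (nat_lit 0) (nat_lit 412112564301) (nat_lit 1) (nat_lit 5) (nat_lit 3) (nat_lit 4) (nat_lit 1) (nat_lit 4) (nat_lit 360) (nat_lit 239) (nat_lit 181)) (XT.lf (nat_lit 0) (nat_lit 449508408324) (nat_lit 152) (nat_lit 1816219556015) (nat_lit 0) (nat_lit 446802273886) (nat_lit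 1) (nat_lit 5) (nat_lit 3) (nat_lit 4) (nat_lit 1) (nat_lit 4) (nat_lit 361) (nat_lit 239) (nat_lit 180))) (XT.nd (nat_lit 78) (nat_lit 0) (nat_lit 0) (XT.lf (nat_lit 0) (nat_lit 486973041221) (nat_lit 152) (nat_lit 1958156151083) (nat_lit 0) (nat_lit 484264745701) (nat_lit 1) (nat_lit 5) (nat_lit 3) (nat_lit 4) (nat_lit 1) (nat_lit 4) (nat_lit 362) (nat_lit 239) (nat_lit 179)) (XT.lf (nat_lit 0) (nat_lit 527432276102) (nat_lit 152) (nat_lit 2111452684914) (nat_lit 0) (nat_lit 524721979581) (nat_lit 1) (nat_lit 5) (nat_lit 3) (nat_lit 4) (nat_lit 1) (nat_lit 4) (nat_lit 363) (nat_lit 239) (nat_lit 178)))))) (XT.nd (nat_lit 35646) (nat_lit 0) (nat_lit 228) (XT.nd (nat_lit 234) (nat_lit 0) (nat_lit 0) (XT.nd (nat_lit 78) (nat_lit 0) (nat_lit 0) (XT.lf (nat_lit 0) (nat_lit 571125871396) (nat_lit 152) (nat_lit 2277017581412) (nat_lit 0) (nat_lit 568413722097) (nat_lit 1) (nat_lit 5) (nat_lit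 3) (nat_lit 4) (nat_lit 1) (nat_lit 4) (nat_lit 364) (nat_lit 239) (nat_lit 177)) (XT.nd (nat_lit 78) (nat_lit 0) (nat_lit 0) (XT.lf (nat_lit 0) (nat_lit 618312752112) (nat_lit 152) (nat_lit 2455831965888) (nat_lit 0) (nat_lit 615598887277) (nat_lit 1) (nat_lit 5) (nat_lit 3) (nat_lit 4) (nat_lit 1) (nat_lit 4) (nat_lit 365) (nat_lit 239) (nat_lit 176)) (XT.lf (nat_lit 0) (nat_lit 669272544211) (nat_lit 152) (nat_lit 2648955479141) (nat_lit 0) (nat_lit 666557090917) (nat_lit 1) (nat_lit 5) (nat_lit 3) (nat_lit 4) (nat_lit 1) (nat_lit 4) (nat_lit 366) (nat_lit 239) (nat_lit 175)))) (XT.nd (nat_lit 156) (nat_lit 0) (nat_lit 0) (XT.nd (nat_lit 78) (nat_lit 0) (nat_lit 0) (XT.lf (nat_lit 0) (nat_lit 724307231645) (nat_lit 152) (nat_lit 2857532556804) (nat_lit 0) (nat_lit 721590307555) (nat_lit 1) (nat_lit 5) (nat_lit 3) (nat_lit 4) (nat_lit 1) (nat_lit 4) (nat_lit 367) (nat_lit 239) (nat_lit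 174)) (XT.lf (nat_lit 0) (nat_lit 783742945895) (nat_lit 152) (nat_lit 3082799211190) (nat_lit 0) (nat_lit 781024659957) (nat_lit 1) (nat_lit 5) (nat_lit 3) (nat_lit 4) (nat_lit 1) (nat_lit 4) (nat_lit 368) (nat_lit 239) (nat_lit 173))) (XT.nd (nat_lit 78) (nat_lit 0) (nat_lit 0) (XT.lf (nat_lit 0) (nat_lit 847931898601) (nat_lit 152) (nat_lit 3326090355805) (nat_lit 0) (nat_lit 845212351694) (nat_lit 1) (nat_lit 5) (nat_lit 3) (nat_lit 4) (nat_lit 1) (nat_lit 4) (nat_lit 369) (nat_lit 239) (nat_lit 172)) (XT.lf (nat_lit 0) (nat_lit 917254468743) (nat_lit 152) (nat_lit 3588847715951) (nat_lit 0) (nat_lit 914533754271) (nat_lit 1) (nat_lit 5) (nat_lit 3) (nat_lit 4) (nat_lit 1) (nat_lit 4) (nat_lit 370) (nat_lit 239) (nat_lit 171))))) (XT.nd (nat_lit 312) (nat_lit 0) (nat_lit 0) (XT.nd (nat_lit 156) (nat_lit 152) (nat_lit 0) (XT.nd (nat_lit 78) (nat_lit 0) (nat_lit 0) (XT.lf (nat_lit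 0) (nat_lit 6114474243) (nat_lit 76) (nat_lit 3944421890) (nat_lit 76) (nat_lit 3944421890) (nat_lit 6) (nat_lit 4) (nat_lit 7) (nat_lit 5) (nat_lit 7) (nat_lit 4) (nat_lit 300) (nat_lit 240) (nat_lit 240)) (XT.lf (nat_lit 0) (nat_lit 21147262540) (nat_lit 76) (nat_lit 4507811319) (nat_lit 76) (nat_lit 4252574163) (nat_lit 6) (nat_lit 4) (nat_lit 7) (nat_lit 5) (nat_lit 7) (nat_lit 4) (nat_lit 301) (nat_lit 240) (nat_lit 239))) (XT.nd (nat_lit 78) (nat_lit 152) (nat_lit 0) (XT.lf (nat_lit 0) (nat_lit 30391906318) (nat_lit 76) (nat_lit 1038478314) (nat_lit 76) (nat_lit 546910457) (nat_lit 6) (nat_lit 4) (nat_lit 7) (nat_lit 5) (nat_lit 7) (nat_lit 4) (nat_lit 302) (nat_lit 240) (nat_lit 238)) (XT.lf (nat_lit 0) (nat_lit 3298988469) (nat_lit 152) (nat_lit 28264465367) (nat_lit 0) (nat_lit 2641217562) (nat_lit 4) (nat_lit 5) (nat_lit 6) (nat_lit 4) (nat_lit 4) (nat_lit 4) (nat_lit 303)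 (nat_lit 240) (nat_lit 237)))) (XT.nd (nat_lit 156) (nat_lit 0) (nat_lit 0) (XT.nd (nat_lit 78) (nat_lit 0) (nat_lit 0) (XT.lf (nat_lit 0) (nat_lit 7301305607) (nat_lit 152) (nat_lit 22861729823) (nat_lit 0) (nat_lit 6455927771) (nat_lit 4) (nat_lit 5) (nat_lit 6) (nat_lit 4) (nat_lit 4) (nat_lit 4) (nat_lit 304) (nat_lit 240) (nat_lit 236)) (XT.lf (nat_lit 0) (nat_lit 11444962710) (nat_lit 152) (nat_lit 17369984554) (nat_lit 0) (nat_lit 10425874753) (nat_lit 4) (nat_lit 5) (nat_lit 6) (nat_lit 4) (nat_lit 4) (nat_lit 4) (nat_lit 305) (nat_lit 240) (nat_lit 235))) (XT.nd (nat_lit 78) (nat_lit 0) (nat_lit 0) (XT.lf (nat_lit 0) (nat_lit 15754514781) (nat_lit 152) (nat_lit 11756685884) (nat_lit 0) (nat_lit 14574584121) (nat_lit 4) (nat_lit 5) (nat_lit 6) (nat_lit 4) (nat_lit 4) (nat_lit 4) (nat_lit 306) (nat_lit 240) (nat_lit 234)) (XT.lf (nat_lit 0) (nat_lit 20255499908) (nat_lit 152)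 (nat_lit 5988569821) (nat_lit 0) (nat_lit 18926640818) (nat_lit 4) (nat_lit 5) (nat_lit 6) (nat_lit 4) (nat_lit 4) (nat_lit 4) (nat_lit 307) (nat_lit 240) (nat_lit 233))))))) (XT.nd (nat_lit 1170) (nat_lit 152) (nat_lit 0) (XT.nd (nat_lit 546) (nat_lit 0) (nat_lit 0) (XT.nd (nat_lit 234) (nat_lit 0) (nat_lit 0) (XT.nd (nat_lit 78) (nat_lit 76) (nat_lit 0) (XT.lf (nat_lit 0) (nat_lit 24974590595) (nat_lit 152) (nat_lit 31454936) (nat_lit 0) (nat_lit 23507834811) (nat_lit 4) (nat_lit 5) (nat_lit 6) (nat_lit 4) (nat_lit 4) (nat_lit 4) (nat_lit 308) (nat_lit 240) (nat_lit 232)) (XT.nd (nat_lit 78) (nat_lit 0) (nat_lit 0) (XT.lf (nat_lit 0) (nat_lit 6473806195) (nat_lit 76) (nat_lit 23621640822) (nat_lit 76) (nat_lit 22027202915) (nat_lit 3) (nat_lit 4) (nat_lit 4) (nat_lit 5) (nat_lit 4) (nat_lit 4) (nat_lit 309) (nat_lit 240) (nat_lit 231)) (XT.lf (nat_lit 0) (nat_lit 13255394696) (nat_lit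 76) (nat_lit 22243804636) (nat_lit 76) (nat_lit 20531142540) (nat_lit 3) (nat_lit 4) (nat_lit 4) (nat_lit 5) (nat_lit 4) (nat_lit 4) (nat_lit 310) (nat_lit 240) (nat_lit 230)))) (XT.nd (nat_lit 156) (nat_lit 0) (nat_lit 0) (XT.nd (nat_lit 78) (nat_lit 0) (nat_lit 0) (XT.lf (nat_lit 0) (nat_lit 20351841396) (nat_lit 76) (nat_lit 20865232050) (nat_lit 76) (nat_lit 19043103113) (nat_lit 3) (nat_lit 4) (nat_lit 4) (nat_lit 5) (nat_lit 4) (nat_lit 4) (nat_lit 311) (nat_lit 240) (nat_lit 229)) (XT.lf (nat_lit 0) (nat_lit 27805199311) (nat_lit 76) (nat_lit 19477753747) (nat_lit 76) (nat_lit 17554266623) (nat_lit 3) (nat_lit 4) (nat_lit 4) (nat_lit 5) (nat_lit 4) (nat_lit 4) (nat_lit 312) (nat_lit 240) (nat_lit 228))) (XT.nd (nat_lit 78) (nat_lit 0) (nat_lit 0) (XT.lf (nat_lit 0) (nat_lit 35659636489) (nat_lit 76) (nat_lit 18073147633) (nat_lit 76) (nat_lit 16055810336) (nat_lit 3) (nat_lit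 4) (nat_lit 4) (nat_lit 5) (nat_lit 4) (nat_lit 4) (nat_lit 313) (nat_lit 240) (nat_lit 227)) (XT.lf (nat_lit 0) (nat_lit 43961697743) (nat_lit 76) (nat_lit 16643090115) (nat_lit 76) (nat_lit 14538854510) (nat_lit 3) (nat_lit 4) (nat_lit 4) (nat_lit 5) (nat_lit 4) (nat_lit 4) (nat_lit 314) (nat_lit 240) (nat_lit 226))))) (XT.nd (nat_lit 312) (nat_lit 0) (nat_lit 0) (XT.nd (nat_lit 156) (nat_lit 0) (nat_lit 0) (XT.nd (nat_lit 78) (nat_lit 0) (nat_lit 0) (XT.lf (nat_lit 0) (nat_lit 52760580473) (nat_lit 76) (nat_lit 15179106779) (nat_lit 76) (nat_lit 12994409778) (nat_lit 3) (nat_lit 4) (nat_lit 4) (nat_lit 5) (nat_lit 4) (nat_lit 4) (nat_lit 315) (nat_lit 240) (nat_lit 225)) (XT.lf (nat_lit 0) (nat_lit 62108426206) (nat_lit 76) (nat_lit 13672522169) (nat_lit 76) (nat_lit 11413323874) (nat_lit 3) (nat_lit 4) (nat_lit 4) (nat_lit 5) (nat_lit 4) (nat_lit 4) (nat_lit 316) (nat_lit 240) (nat_lit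 224))) (XT.nd (nat_lit 78) (nat_lit 0) (nat_lit 0) (XT.lf (nat_lit 0) (nat_lit 72060629583) (nat_lit 76) (nat_lit 12114408374) (nat_lit 76) (nat_lit 9786227401) (nat_lit 3) (nat_lit 4) (nat_lit 4) (nat_lit 5) (nat_lit 4) (nat_lit 4) (nat_lit 317) (nat_lit 240) (nat_lit 223)) (XT.lf (nat_lit 0) (nat_lit 82676166624) (nat_lit 76) (nat_lit 10495532129) (nat_lit 76) (nat_lit 8103478306) (nat_lit 3) (nat_lit 4) (nat_lit 4) (nat_lit 5) (nat_lit 4) (nat_lit 4) (nat_lit 318) (nat_lit 240) (nat_lit 222)))) (XT.nd (nat_lit 156) (nat_lit 0) (nat_lit 0) (XT.nd (nat_lit 78) (nat_lit 0) (nat_lit 0) (XT.lf (nat_lit 0) (nat_lit 94017944217) (nat_lit 76) (nat_lit 8806300092) (nat_lit 76) (nat_lit 6355104741) (nat_lit 3) (nat_lit 4) (nat_lit 4) (nat_lit 5) (nat_lit 4) (nat_lit 4) (nat_lit 319) (nat_lit 240) (nat_lit 221)) (XT.lf (nat_lit 0) (nat_lit 106153172893) (nat_lit 76) (nat_lit 7036702000) (nat_lit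 76) (nat_lit 4530745974) (nat_lit 3) (nat_lit 4) (nat_lit 4) (nat_lit 5) (nat_lit 4) (nat_lit 4) (nat_lit 320) (nat_lit 240) (nat_lit 220))) (XT.nd (nat_lit 78) (nat_lit 0) (nat_lit 0) (XT.lf (nat_lit 0) (nat_lit 119153765121) (nat_lit 76) (nat_lit 5176251346) (nat_lit 76) (nat_lit 2619590992) (nat_lit 3) (nat_lit 4) (nat_lit 4) (nat_lit 5) (nat_lit 4) (nat_lit 4) (nat_lit 321) (nat_lit 240) (nat_lit 219)) (XT.lf (nat_lit 0) (nat_lit 133096761446) (nat_lit 76) (nat_lit 3213923236) (nat_lit 76) (nat_lit 610314430) (nat_lit 3) (nat_lit 4) (nat_lit 4) (nat_lit 5) (nat_lit 4) (nat_lit 4) (nat_lit 322) (nat_lit 240) (nat_lit 218)))))) (XT.nd (nat_lit 624) (nat_lit 0) (nat_lit 0) (XT.nd (nat_lit 312) (nat_lit 0) (nat_lit 0) (XT.nd (nat_lit 156) (nat_lit 0) (nat_lit 0) (XT.nd (nat_lit 78) (nat_lit 0) (nat_lit 0) (XT.lf (nat_lit 0) (nat_lit 352230195) (nat_lit 76) (nat_lit 1089745665) (nat_lit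 152) (nat_lit 146248328704) (nat_lit 1) (nat_lit 5) (nat_lit 2) (nat_lit 5) (nat_lit 3) (nat_lit 4) (nat_lit 323) (nat_lit 240) (nat_lit 217)) (XT.lf (nat_lit 0) (nat_lit 3713877125) (nat_lit 152) (nat_lit 154373353685) (nat_lit 0) (nat_lit 1225608305) (nat_lit 1) (nat_lit 5) (nat_lit 3) (nat_lit 4) (nat_lit 1) (nat_lit 4) (nat_lit 324) (nat_lit 240) (nat_lit 216))) (XT.nd (nat_lit 78) (nat_lit 0) (nat_lit 0) (XT.lf (nat_lit 0) (nat_lit 6151537639) (nat_lit 152) (nat_lit 162086180965) (nat_lit 0) (nat_lit 3628760306) (nat_lit 1) (nat_lit 5) (nat_lit 3) (nat_lit 4) (nat_lit 1) (nat_lit 4) (nat_lit 325) (nat_lit 240) (nat_lit 215)) (XT.lf (nat_lit 0) (nat_lit 8743194389) (nat_lit 152) (nat_lit 170496053444) (nat_lit 0) (nat_lit 6188464728) (nat_lit 1) (nat_lit 5) (nat_lit 3) (nat_lit 4) (nat_lit 1) (nat_lit 4) (nat_lit 326) (nat_lit 240) (nat_lit 214)))) (XT.nd (nat_lit 156) (nat_lit 0)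 (nat_lit 0) (XT.nd (nat_lit 78) (nat_lit 0) (nat_lit 0) (XT.lf (nat_lit 0) (nat_lit 11504205340) (nat_lit 152) (nat_lit 179652807403) (nat_lit 0) (nat_lit 8919890191) (nat_lit 1) (nat_lit 5) (nat_lit 3) (nat_lit 4) (nat_lit 1) (nat_lit 4) (nat_lit 327) (nat_lit 240) (nat_lit 213)) (XT.lf (nat_lit 0) (nat_lit 14450932039) (nat_lit 152) (nat_lit 189610705087) (nat_lit 0) (nat_lit 11839222919) (nat_lit 1) (nat_lit 5) (nat_lit 3) (nat_lit 4) (nat_lit 1) (nat_lit 4) (nat_lit 328) (nat_lit 240) (nat_lit 212))) (XT.nd (nat_lit 78) (nat_lit 0) (nat_lit 0) (XT.lf (nat_lit 0) (nat_lit 17600836570) (nat_lit 152) (nat_lit 200428756261) (nat_lit 0) (nat_lit 14963762662) (nat_lit 1) (nat_lit 5) (nat_lit 3) (nat_lit 4) (nat_lit 1) (nat_lit 4) (nat_lit 329) (nat_lit 240) (nat_lit 211)) (XT.lf (nat_lit 0) (nat_lit 20972585033) (nat_lit 152) (nat_lit 212171067895) (nat_lit 0) (nat_lit 18312025211) (nat_lit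 1) (nat_lit 5) (nat_lit 3) (nat_lit 4) (nat_lit 1) (nat_lit 4) (nat_lit 330) (nat_lit 240) (nat_lit 210))))) (XT.nd (nat_lit 312) (nat_lit 0) (nat_lit 0) (XT.nd (nat_lit 156) (nat_lit 0) (nat_lit 0) (XT.nd (nat_lit 78) (nat_lit 0) (nat_lit 0) (XT.lf (nat_lit 0) (nat_lit 24586158162) (nat_lit 152) (nat_lit 224907224057) (nat_lit 0) (nat_lit 21903852122) (nat_lit 1) (nat_lit 5) (nat_lit 3) (nat_lit 4) (nat_lit 1) (nat_lit 4) (nat_lit 331) (nat_lit 240) (nat_lit 209)) (XT.lf (nat_lit 0) (nat_lit 28462969721) (nat_lit 152) (nat_lit 238712698265) (nat_lit 0) (nat_lit 25760528295) (nat_lit 1) (nat_lit 5) (nat_lit 3) (nat_lit 4) (nat_lit 1) (nat_lit 4) (nat_lit 332) (nat_lit 240) (nat_lit 208))) (XT.nd (nat_lit 78) (nat_lit 0) (nat_lit 0) (XT.lf (nat_lit 0) (nat_lit 32625993410) (nat_lit 152) (nat_lit 253669300738) (nat_lit 0) (nat_lit 29904908107) (nat_lit 1) (nat_lit 5) (nat_lit 3) (nat_lit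 4) (nat_lit 1) (nat_lit 4) (nat_lit 333) (nat_lit 240) (nat_lit 207)) (XT.lf (nat_lit 0) (nat_lit 37099898997) (nat_lit 152) (nat_lit 269865663193) (nat_lit 0) (nat_lit 34361550847) (nat_lit 1) (nat_lit 5) (nat_lit 3) (nat_lit 4) (nat_lit 1) (nat_lit 4) (nat_lit 334) (nat_lit 240) (nat_lit 206)))) (XT.nd (nat_lit 156) (nat_lit 0) (nat_lit 0) (XT.nd (nat_lit 78) (nat_lit 0) (nat_lit 0) (XT.lf (nat_lit 0) (nat_lit 41911198518) (nat_lit 152) (nat_lit 287397764074) (nat_lit 0) (nat_lit 39156866248) (nat_lit 1) (nat_lit 5) (nat_lit 3) (nat_lit 4) (nat_lit 1) (nat_lit 4) (nat_lit 335) (nat_lit 240) (nat_lit 205)) (XT.lf (nat_lit 0) (nat_lit 47088403375) (nat_lit 152) (nat_lit 306369497314) (nat_lit 0) (nat_lit 44319270995) (nat_lit 1) (nat_lit 5) (nat_lit 3) (nat_lit 4) (nat_lit 1) (nat_lit 4) (nat_lit 336) (nat_lit 240) (nat_lit 204))) (XT.nd (nat_lit 78) (nat_lit 0) (nat_lit 0) (XT.lf (nat_lit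 0) (nat_lit 52662193302) (nat_lit 152) (nat_lit 326893287997) (nat_lit 0) (nat_lit 49879357117) (nat_lit 1) (nat_lit 5) (nat_lit 3) (nat_lit 4) (nat_lit 1) (nat_lit 4) (nat_lit 337) (nat_lit 240) (nat_lit 203)) (XT.lf (nat_lit 0) (nat_lit 58665598165) (nat_lit 152) (nat_lit 349090758586) (nat_lit 0) (nat_lit 55870073270) (nat_lit 1) (nat_lit 5) (nat_lit 3) (nat_lit 4) (nat_lit 1) (nat_lit 4) (nat_lit 338) (nat_lit 240) (nat_lit 202))))))))
noncomputable def xc21 : XT := (XT.nd (nat_lit 2340) (nat_lit 0) (nat_lit 0) (XT.nd (nat_lit 1170) (nat_lit 0) (nat_lit 0) (XT.nd (nat_lit 546) (nat_lit 0) (nat_lit 0) (XT.nd (nat_lit 234) (nat_lit 0) (nat_lit 0) (XT.nd (nat_lit 78) (nat_lit 0) (nat_lit 0) (XT.lf (nat_lit 0) (nat_lit 65134193695) (nat_lit 152) (nat_lit 373093449649) (nat_lit 0) (nat_lit 62326919997) (nat_lit 1) (nat_lit 5) (nat_lit 3) (nat_lit 4) (nat_lit 1) (nat_lit 4) (nat_lit 339)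 (nat_lit 240) (nat_lit 201)) (XT.nd (nat_lit 78) (nat_lit 0) (nat_lit 0) (XT.lf (nat_lit 0) (nat_lit 72106312312) (nat_lit 152) (nat_lit 399043599355) (nat_lit 0) (nat_lit 69288160091) (nat_lit 1) (nat_lit 5) (nat_lit 3) (nat_lit 4) (nat_lit 1) (nat_lit 4) (nat_lit 340) (nat_lit 240) (nat_lit 200)) (XT.lf (nat_lit 0) (nat_lit 79623270274) (nat_lit 152) (nat_lit 427094986368) (nat_lit 0) (nat_lit 76795045346) (nat_lit 1) (nat_lit 5) (nat_lit 3) (nat_lit 4) (nat_lit 1) (nat_lit 4) (nat_lit 341) (nat_lit 240) (nat_lit 199)))) (XT.nd (nat_lit 156) (nat_lit 0) (nat_lit 0) (XT.nd (nat_lit 78) (nat_lit 0) (nat_lit 0) (XT.lf (nat_lit 0) (nat_lit 87729612516) (nat_lit 152) (nat_lit 457413841131) (nat_lit 0) (nat_lit 84892061009) (nat_lit 1) (nat_lit 5) (nat_lit 3) (nat_lit 4) (nat_lit 1) (nat_lit 4) (nat_lit 342) (nat_lit 240) (nat_lit 198)) (XT.lf (nat_lit 0) (nat_lit 96473376623) (nat_lit 152)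 (nat_lit 490179830930) (nat_lit 0) (nat_lit 93627189393) (nat_lit 1) (nat_lit 5) (nat_lit 3) (nat_lit 4) (nat_lit 1) (nat_lit 4) (nat_lit 343) (nat_lit 240) (nat_lit 197))) (XT.nd (nat_lit 78) (nat_lit 0) (nat_lit 0) (XT.lf (nat_lit 0) (nat_lit 105906377493) (nat_lit 152) (nat_lit 525587124593) (nat_lit 0) (nat_lit 103052194224) (nat_lit 1) (nat_lit 5) (nat_lit 3) (nat_lit 4) (nat_lit 1) (nat_lit 4) (nat_lit 344) (nat_lit 240) (nat_lit 196)) (XT.lf (nat_lit 0) (nat_lit 116084514389) (nat_lit 152) (nat_lit 563845543122) (nat_lit 0) (nat_lit 113222927381) (nat_lit 1) (nat_lit 5) (nat_lit 3) (nat_lit 4) (nat_lit 1) (nat_lit 4) (nat_lit 345) (nat_lit 240) (nat_lit 195))))) (XT.nd (nat_lit 312) (nat_lit 0) (nat_lit 0) (XT.nd (nat_lit 156) (nat_lit 0) (nat_lit 0) (XT.nd (nat_lit 78) (nat_lit 0) (nat_lit 0) (XT.lf (nat_lit 0) (nat_lit 127068102199) (nat_lit 152) (nat_lit 605181803069) (nat_lit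 0) (nat_lit 124199659876) (nat_lit 1) (nat_lit 5) (nat_lit 3) (nat_lit 4) (nat_lit 1) (nat_lit 4) (nat_lit 346) (nat_lit 240) (nat_lit 194)) (XT.lf (nat_lit 0) (nat_lit 138922228848) (nat_lit 152) (nat_lit 649840860049) (nat_lit 0) (nat_lit 136047439012) (nat_lit 1) (nat_lit 5) (nat_lit 3) (nat_lit 4) (nat_lit 1) (nat_lit 4) (nat_lit 347) (nat_lit 240) (nat_lit 193))) (XT.nd (nat_lit 78) (nat_lit 0) (nat_lit 0) (XT.lf (nat_lit 0) (nat_lit 151717141014) (nat_lit 152) (nat_lit 698087360327) (nat_lit 0) (nat_lit 148836473851) (nat_lit 1) (nat_lit 5) (nat_lit 3) (nat_lit 4) (nat_lit 1) (nat_lit 4) (nat_lit 348) (nat_lit 240) (nat_lit 192)) (XT.lf (nat_lit 0) (nat_lit 165528660399) (nat_lit 152) (nat_lit 750207209087) (nat_lit 0) (nat_lit 162642551266) (nat_lit 1) (nat_lit 5) (nat_lit 3) (nat_lit 4) (nat_lit 1) (nat_lit 4) (nat_lit 349) (nat_lit 240) (nat_lit 191)))) (XT.nd (nat_lit 156)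 (nat_lit 0) (nat_lit 0) (XT.nd (nat_lit 78) (nat_lit 0) (nat_lit 0) (XT.lf (nat_lit 0) (nat_lit 180438633043) (nat_lit 152) (nat_lit 806509264695) (nat_lit 0) (nat_lit 177547485049) (nat_lit 1) (nat_lit 5) (nat_lit 3) (nat_lit 4) (nat_lit 1) (nat_lit 4) (nat_lit 350) (nat_lit 240) (nat_lit 190)) (XT.lf (nat_lit 0) (nat_lit 196535414340) (nat_lit 152) (nat_lit 867327168960) (nat_lit 0) (nat_lit 193639600734) (nat_lit 1) (nat_lit 5) (nat_lit 3) (nat_lit 4) (nat_lit 1) (nat_lit 4) (nat_lit 351) (nat_lit 240) (nat_lit 189))) (XT.nd (nat_lit 78) (nat_lit 0) (nat_lit 0) (XT.lf (nat_lit 0) (nat_lit 213914392623) (nat_lit 152) (nat_lit 933021324279) (nat_lit 0) (nat_lit 211014259006) (nat_lit 1) (nat_lit 5) (nat_lit 3) (nat_lit 4) (nat_lit 1) (nat_lit 4) (nat_lit 352) (nat_lit 240) (nat_lit 188)) (XT.lf (nat_lit 0) (nat_lit 232678554430) (nat_lit 152) (nat_lit 1003981029349) (nat_lit 0) (nat_lit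 229774420803) (nat_lit 1) (nat_lit 5) (nat_lit 3) (nat_lit 4) (nat_lit 1) (nat_lit 4) (nat_lit 353) (nat_lit 240) (nat_lit 187)))))) (XT.nd (nat_lit 546) (nat_lit 0) (nat_lit 0) (XT.nd (nat_lit 234) (nat_lit 0) (nat_lit 0) (XT.nd (nat_lit 78) (nat_lit 0) (nat_lit 0) (XT.lf (nat_lit 0) (nat_lit 252939094795) (nat_lit 152) (nat_lit 1080626786126) (nat_lit 0) (nat_lit 250031257454) (nat_lit 1) (nat_lit 5) (nat_lit 3) (nat_lit 4) (nat_lit 1) (nat_lit 4) (nat_lit 354) (nat_lit 240) (nat_lit 186)) (XT.nd (nat_lit 78) (nat_lit 0) (nat_lit 0) (XT.lf (nat_lit 0) (nat_lit 274816076178) (nat_lit 152) (nat_lit 1163412791689) (nat_lit 0) (nat_lit 271904809473) (nat_lit 1) (nat_lit 5) (nat_lit 3) (nat_lit 4) (nat_lit 1) (nat_lit 4) (nat_lit 355) (nat_lit 240) (nat_lit 185)) (XT.lf (nat_lit 0) (nat_lit 298439139951) (nat_lit 152) (nat_lit 1252829629772) (nat_lit 0) (nat_lit 295524697909) (nat_lit 1)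 (nat_lit 5) (nat_lit 3) (nat_lit 4) (nat_lit 1) (nat_lit 4) (nat_lit 356) (nat_lit 240) (nat_lit 184)))) (XT.nd (nat_lit 156) (nat_lit 0) (nat_lit 0) (XT.nd (nat_lit 78) (nat_lit 0) (nat_lit 0) (XT.lf (nat_lit 0) (nat_lit 323948274640) (nat_lit 152) (nat_lit 1349407177936) (nat_lit 0) (nat_lit 321030892471) (nat_lit 1) (nat_lit 5) (nat_lit 3) (nat_lit 4) (nat_lit 1) (nat_lit 4) (nat_lit 357) (nat_lit 240) (nat_lit 183)) (XT.lf (nat_lit 0) (nat_lit 351494645487) (nat_lit 152) (nat_lit 1453717747577) (nat_lit 0) (nat_lit 348574540978) (nat_lit 1) (nat_lit 5) (nat_lit 3) (nat_lit 4) (nat_lit 1) (nat_lit 4) (nat_lit 358) (nat_lit 240) (nat_lit 182))) (XT.nd (nat_lit 78) (nat_lit 0) (nat_lit 0) (XT.lf (nat_lit 0) (nat_lit 381241490246) (nat_lit 152) (nat_lit 1566379475404) (nat_lit 0) (nat_lit 378318865052) (nat_lit 1) (nat_lit 5) (nat_lit 3) (nat_lit 4) (nat_lit 1) (nat_lit 4) (nat_lit 359)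 (nat_lit 240) (nat_lit 181)) (XT.lf (nat_lit 0) (nat_lit 413365086515) (nat_lit 152) (nat_lit 1688059986471) (nat_lit 0) (nat_lit 410440127354) (nat_lit 1) (nat_lit 5) (nat_lit 3) (nat_lit 4) (nat_lit 1) (nat_lit 4) (nat_lit 360) (nat_lit 240) (nat_lit 180))))) (XT.nd (nat_lit 312) (nat_lit 0) (nat_lit 0) (XT.nd (nat_lit 156) (nat_lit 0) (nat_lit 0) (XT.nd (nat_lit 78) (nat_lit 0) (nat_lit 0) (XT.lf (nat_lit 0) (nat_lit 448055796346) (nat_lit 152) (nat_lit 1819480350472) (nat_lit 0) (nat_lit 445128676104) (nat_lit 1) (nat_lit 5) (nat_lit 3) (nat_lit 4) (nat_lit 1) (nat_lit 4) (nat_lit 361) (nat_lit 240) (nat_lit 179)) (XT.lf (nat_lit 0) (nat_lit 485519194316) (nat_lit 152) (nat_lit 1961419354750) (nat_lit 0) (nat_lit 482590073073) (nat_lit 1) (nat_lit 5) (nat_lit 3) (nat_lit 4) (nat_lit 1) (nat_lit 4) (nat_lit 362) (nat_lit 240) (nat_lit 178))) (XT.nd (nat_lit 78) (nat_lit 0) (nat_lit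 0) (XT.lf (nat_lit 0) (nat_lit 525977285746) (nat_lit 152) (nat_lit 2114718119331) (nat_lit 0) (nat_lit 523046311725) (nat_lit 1) (nat_lit 5) (nat_lit 3) (nat_lit 4) (nat_lit 1) (nat_lit 4) (nat_lit 363) (nat_lit 240) (nat_lit 177)) (XT.lf (nat_lit 0) (nat_lit 569669822290) (nat_lit 152) (nat_lit 2280285081338) (nat_lit 0) (nat_lit 566737132732) (nat_lit 1) (nat_lit 5) (nat_lit 3) (nat_lit 4) (nat_lit 1) (nat_lit 4) (nat_lit 364) (nat_lit 240) (nat_lit 176)))) (XT.nd (nat_lit 156) (nat_lit 0) (nat_lit 0) (XT.nd (nat_lit 78) (nat_lit 0) (nat_lit 0) (XT.lf (nat_lit 0) (nat_lit 616855722682) (nat_lit 152) (nat_lit 2459101378324) (nat_lit 0) (nat_lit 613921444665) (nat_lit 1) (nat_lit 5) (nat_lit 3) (nat_lit 4) (nat_lit 1) (nat_lit 4) (nat_lit 365) (nat_lit 240) (nat_lit 175)) (XT.lf (nat_lit 0) (nat_lit 667814607072) (nat_lit 152) (nat_lit 2652226662418) (nat_lit 0) (nat_lit 664878858260)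 (nat_lit 1) (nat_lit 5) (nat_lit 3) (nat_lit 4) (nat_lit 1) (nat_lit 4) (nat_lit 366) (nat_lit 240) (nat_lit 174))) (XT.nd (nat_lit 78) (nat_lit 0) (nat_lit 0) (XT.lf (nat_lit 0) (nat_lit 722848454035) (nat_lit 152) (nat_lit 2860805379749) (nat_lit 0) (nat_lit 719911343376) (nat_lit 1) (nat_lit 5) (nat_lit 3) (nat_lit 4) (nat_lit 1) (nat_lit 4) (nat_lit 367) (nat_lit 240) (nat_lit 173)) (XT.lf (nat_lit 0) (nat_lit 782283390072) (nat_lit 152) (nat_lit 3086073552345) (nat_lit 0) (nat_lit 779345018442) (nat_lit 1) (nat_lit 5) (nat_lit 3) (nat_lit 4) (nat_lit 1) (nat_lit 4) (nat_lit 368) (nat_lit 240) (nat_lit 172))))))) (XT.nd (nat_lit 36114) (nat_lit 0) (nat_lit 0) (XT.nd (nat_lit 35490) (nat_lit 0) (nat_lit 152) (XT.nd (nat_lit 35178) (nat_lit 0) (nat_lit 380) (XT.nd (nat_lit 78) (nat_lit 0) (nat_lit 0) (XT.lf (nat_lit 0) (nat_lit 846471622211) (nat_lit 152) (nat_lit 3329366102711) (nat_lit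 0) (nat_lit 843532083016) (nat_lit 1) (nat_lit 5) (nat_lit 3) (nat_lit 4) (nat_lit 1) (nat_lit 4) (nat_lit 369) (nat_lit 240) (nat_lit 171)) (XT.nd (nat_lit 35022) (nat_lit 0) (nat_lit 456) (XT.lf (nat_lit 0) (nat_lit 915793525160) (nat_lit 152) (nat_lit 3592124764479) (nat_lit 0) (nat_lit 912852904887) (nat_lit 1) (nat_lit 5) (nat_lit 3) (nat_lit 4) (nat_lit 1) (nat_lit 4) (nat_lit 370) (nat_lit 240) (nat_lit 170)) (XT.lf (nat_lit 0) (nat_lit 5064505214) (nat_lit 152) (nat_lit 2195096736) (nat_lit 0) (nat_lit 5064505214) (nat_lit 7) (nat_lit 5) (nat_lit 9) (nat_lit 4) (nat_lit 7) (nat_lit 4) (nat_lit 298) (nat_lit 241) (nat_lit 241)))) (XT.nd (nat_lit 156) (nat_lit 0) (nat_lit 0) (XT.nd (nat_lit 78) (nat_lit 0) (nat_lit 0) (XT.lf (nat_lit 0) (nat_lit 3584114886) (nat_lit 76) (nat_lit 11477267575) (nat_lit 76) (nat_lit 11201611446) (nat_lit 6) (nat_lit 4) (nat_lit 7) (nat_lit 5) (nat_lit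 7) (nat_lit 4) (nat_lit 299) (nat_lit 241) (nat_lit 240)) (XT.lf (nat_lit 0) (nat_lit 12027935874) (nat_lit 76) (nat_lit 8259094437) (nat_lit 76) (nat_lit 7728201152) (nat_lit 6) (nat_lit 4) (nat_lit 7) (nat_lit 5) (nat_lit 7) (nat_lit 4) (nat_lit 300) (nat_lit 241) (nat_lit 239))) (XT.nd (nat_lit 78) (nat_lit 0) (nat_lit 0) (XT.lf (nat_lit 0) (nat_lit 20760127139) (nat_lit 76) (nat_lit 4965649501) (nat_lit 76) (nat_lit 4198425515) (nat_lit 6) (nat_lit 4) (nat_lit 7) (nat_lit 5) (nat_lit 7) (nat_lit 4) (nat_lit 301) (nat_lit 241) (nat_lit 238)) (XT.lf (nat_lit 0) (nat_lit 29832435002) (nat_lit 76) (nat_lit 1577416056) (nat_lit 76) (nat_lit 591367348) (nat_lit 6) (nat_lit 4) (nat_lit 7) (nat_lit 5) (nat_lit 7) (nat_lit 4) (nat_lit 302) (nat_lit 241) (nat_lit 237))))) (XT.nd (nat_lit 312) (nat_lit 76) (nat_lit 0) (XT.nd (nat_lit 156) (nat_lit 0) (nat_lit 0) (XT.nd (nat_lit 78) (nat_lit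 0) (nat_lit 0) (XT.lf (nat_lit 0) (nat_lit 3135778881) (nat_lit 152) (nat_lit 29067475860) (nat_lit 0) (nat_lit 2035163888) (nat_lit 4) (nat_lit 5) (nat_lit 6) (nat_lit 4) (nat_lit 4) (nat_lit 4) (nat_lit 303) (nat_lit 241) (nat_lit 236)) (XT.lf (nat_lit 0) (nat_lit 7052112650) (nat_lit 152) (nat_lit 23829744700) (nat_lit 0) (nat_lit 5777787537) (nat_lit 4) (nat_lit 5) (nat_lit 6) (nat_lit 4) (nat_lit 4) (nat_lit 4) (nat_lit 304) (nat_lit 241) (nat_lit 235))) (XT.nd (nat_lit 78) (nat_lit 0) (nat_lit 0) (XT.lf (nat_lit 0) (nat_lit 11116155522) (nat_lit 152) (nat_lit 18490781267) (nat_lit 0) (nat_lit 9680987706) (nat_lit 4) (nat_lit 5) (nat_lit 6) (nat_lit 4) (nat_lit 4) (nat_lit 4) (nat_lit 305) (nat_lit 241) (nat_lit 234)) (XT.lf (nat_lit 0) (nat_lit 15351990714) (nat_lit 152) (nat_lit 13018947261) (nat_lit 0) (nat_lit 13767894468) (nat_lit 4) (nat_lit 5) (nat_lit 6) (nat_lit 4) (nat_lit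 4) (nat_lit 4) (nat_lit 306) (nat_lit 241) (nat_lit 233)))) (XT.nd (nat_lit 156) (nat_lit 76) (nat_lit 0) (XT.nd (nat_lit 78) (nat_lit 0) (nat_lit 0) (XT.lf (nat_lit 0) (nat_lit 19784719470) (nat_lit 152) (nat_lit 7381816998) (nat_lit 0) (nat_lit 18062726530) (nat_lit 4) (nat_lit 5) (nat_lit 6) (nat_lit 4) (nat_lit 4) (nat_lit 4) (nat_lit 307) (nat_lit 241) (nat_lit 232)) (XT.lf (nat_lit 0) (nat_lit 24440609814) (nat_lit 152) (nat_lit 1545985261) (nat_lit 0) (nat_lit 22590934750) (nat_lit 4) (nat_lit 5) (nat_lit 6) (nat_lit 4) (nat_lit 4) (nat_lit 4) (nat_lit 308) (nat_lit 241) (nat_lit 231))) (XT.nd (nat_lit 78) (nat_lit 0) (nat_lit 0) (XT.lf (nat_lit 0) (nat_lit 4761310699) (nat_lit 76) (nat_lit 24700451144) (nat_lit 76) (nat_lit 22732551892) (nat_lit 3) (nat_lit 4) (nat_lit 4) (nat_lit 5) (nat_lit 4) (nat_lit 4) (nat_lit 309) (nat_lit 241) (nat_lit 230)) (XT.lf (nat_lit 0) (nat_lit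 11433443006) (nat_lit 76) (nat_lit 23375254619) (nat_lit 76) (nat_lit 21297888526) (nat_lit 3) (nat_lit 4) (nat_lit 4) (nat_lit 5) (nat_lit 4) (nat_lit 4) (nat_lit 310) (nat_lit 241) (nat_lit 229)))))) (XT.nd (nat_lit 624) (nat_lit 152) (nat_lit 0) (XT.nd (nat_lit 312) (nat_lit 0) (nat_lit 0) (XT.nd (nat_lit 156) (nat_lit 0) (nat_lit 0) (XT.nd (nat_lit 78) (nat_lit 0) (nat_lit 0) (XT.lf (nat_lit 0) (nat_lit 18428541379) (nat_lit 76) (nat_lit 22045422462) (nat_lit 76) (nat_lit 19866698181) (nat_lit 3) (nat_lit 4) (nat_lit 4) (nat_lit 5) (nat_lit 4) (nat_lit 4) (nat_lit 311) (nat_lit 241) (nat_lit 228)) (XT.lf (nat_lit 0) (nat_lit 25788058251) (nat_lit 76) (nat_lit 20703074184) (nat_lit 76) (nat_lit 18430499731) (nat_lit 3) (nat_lit 4) (nat_lit 4) (nat_lit 5) (nat_lit 4) (nat_lit 4) (nat_lit 312) (nat_lit 241) (nat_lit 227))) (XT.nd (nat_lit 78) (nat_lit 0) (nat_lit 0) (XT.lf (nat_lit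 0) (nat_lit 33555605574) (nat_lit 76) (nat_lit 19340255130) (nat_lit 76) (nat_lit 16980782369) (nat_lit 3) (nat_lit 4) (nat_lit 4) (nat_lit 5) (nat_lit 4) (nat_lit 4) (nat_lit 313) (nat_lit 241) (nat_lit 226)) (XT.lf (nat_lit 0) (nat_lit 41777213258) (nat_lit 76) (nat_lit 17948889335) (nat_lit 76) (nat_lit 15508955178) (nat_lit 3) (nat_lit 4) (nat_lit 4) (nat_lit 5) (nat_lit 4) (nat_lit 4) (nat_lit 314) (nat_lit 241) (nat_lit 225)))) (XT.nd (nat_lit 156) (nat_lit 0) (nat_lit 0) (XT.nd (nat_lit 78) (nat_lit 0) (nat_lit 0) (XT.lf (nat_lit 0) (nat_lit 50501601942) (nat_lit 76) (nat_lit 16520731669) (nat_lit 76) (nat_lit 14006296218) (nat_lit 3) (nat_lit 4) (nat_lit 4) (nat_lit 5) (nat_lit 4) (nat_lit 4) (nat_lit 315) (nat_lit 241) (nat_lit 224)) (XT.lf (nat_lit 0) (nat_lit 59780471707) (nat_lit 76) (nat_lit 15047318974) (nat_lit 76) (nat_lit 12463900845) (nat_lit 3) (nat_lit 4) (nat_lit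 4) (nat_lit 5) (nat_lit 4) (nat_lit 4) (nat_lit 316) (nat_lit 241) (nat_lit 223))) (XT.nd (nat_lit 78) (nat_lit 0) (nat_lit 0) (XT.lf (nat_lit 0) (nat_lit 69668808446) (nat_lit 76) (nat_lit 13519919916) (nat_lit 76) (nat_lit 10872628936) (nat_lit 3) (nat_lit 4) (nat_lit 4) (nat_lit 5) (nat_lit 4) (nat_lit 4) (nat_lit 317) (nat_lit 241) (nat_lit 222)) (XT.lf (nat_lit 0) (nat_lit 80225209713) (nat_lit 76) (nat_lit 11929483242) (nat_lit 76) (nat_lit 9223050734) (nat_lit 3) (nat_lit 4) (nat_lit 4) (nat_lit 5) (nat_lit 4) (nat_lit 4) (nat_lit 318) (nat_lit 241) (nat_lit 221))))) (XT.nd (nat_lit 312) (nat_lit 152) (nat_lit 0) (XT.nd (nat_lit 156) (nat_lit 0) (nat_lit 0) (XT.nd (nat_lit 78) (nat_lit 0) (nat_lit 0) (XT.lf (nat_lit 0) (nat_lit 91512231957) (nat_lit 76) (nat_lit 10266584142) (nat_lit 76) (nat_lit 7505390960) (nat_lit 3) (nat_lit 4) (nat_lit 4) (nat_lit 5) (nat_lit 4) (nat_lit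 4) (nat_lit 319) (nat_lit 241) (nat_lit 220)) (XT.lf (nat_lit 0) (nat_lit 103596761238) (nat_lit 76) (nat_lit 8521368399) (nat_lit 76) (nat_lit 5709470888) (nat_lit 3) (nat_lit 4) (nat_lit 4) (nat_lit 5) (nat_lit 4) (nat_lit 4) (nat_lit 320) (nat_lit 241) (nat_lit 219))) (XT.nd (nat_lit 78) (nat_lit 0) (nat_lit 0) (XT.lf (nat_lit 0) (nat_lit 116550409581) (nat_lit 76) (nat_lit 6683493993) (nat_lit 76) (nat_lit 3824648030) (nat_lit 3) (nat_lit 4) (nat_lit 4) (nat_lit 5) (nat_lit 4) (nat_lit 4) (nat_lit 321) (nat_lit 241) (nat_lit 218)) (XT.lf (nat_lit 0) (nat_lit 130449939345) (nat_lit 76) (nat_lit 4742069817) (nat_lit 76) (nat_lit 1839753065) (nat_lit 3) (nat_lit 4) (nat_lit 4) (nat_lit 5) (nat_lit 4) (nat_lit 4) (nat_lit 322) (nat_lit 241) (nat_lit 217)))) (XT.nd (nat_lit 156) (nat_lit 0) (nat_lit 0) (XT.nd (nat_lit 78) (nat_lit 76) (nat_lit 0) (XT.lf (nat_lit 0) (nat_lit 244121348)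 (nat_lit 152) (nat_lit 2434795076) (nat_lit 76) (nat_lit 145126922057) (nat_lit 2) (nat_lit 5) (nat_lit 4) (nat_lit 5) (nat_lit 3) (nat_lit 4) (nat_lit 323) (nat_lit 241) (nat_lit 216)) (XT.lf (nat_lit 0) (nat_lit 2017418163) (nat_lit 76) (nat_lit 385108201) (nat_lit 152) (nat_lit 157034937450) (nat_lit 1) (nat_lit 5) (nat_lit 2) (nat_lit 5) (nat_lit 3) (nat_lit 4) (nat_lit 324) (nat_lit 241) (nat_lit 215))) (XT.nd (nat_lit 78) (nat_lit 0) (nat_lit 0) (XT.lf (nat_lit 0) (nat_lit 4811205496) (nat_lit 152) (nat_lit 165162081752) (nat_lit 0) (nat_lit 2020145134) (nat_lit 1) (nat_lit 5) (nat_lit 3) (nat_lit 4) (nat_lit 1) (nat_lit 4) (nat_lit 325) (nat_lit 241) (nat_lit 214)) (XT.lf (nat_lit 0) (nat_lit 7384603429) (nat_lit 152) (nat_lit 173607575231) (nat_lit 0) (nat_lit 4563957579) (nat_lit 1) (nat_lit 5) (nat_lit 3) (nat_lit 4) (nat_lit 1) (nat_lit 4) (nat_lit 326) (nat_lit 241) (nat_lit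 213))))))))
noncomputable def xc22 : XT := (XT.nd (nat_lit 2340) (nat_lit 0) (nat_lit 0) (XT.nd (nat_lit 1170) (nat_lit 0) (nat_lit 0) (XT.nd (nat_lit 546) (nat_lit 0) (nat_lit 0) (XT.nd (nat_lit 234) (nat_lit 0) (nat_lit 0) (XT.nd (nat_lit 78) (nat_lit 0) (nat_lit 0) (XT.lf (nat_lit 0) (nat_lit 10128708068) (nat_lit 152) (nat_lit 182797311598) (nat_lit 0) (nat_lit 7280668247) (nat_lit 1) (nat_lit 5) (nat_lit 3) (nat_lit 4) (nat_lit 1) (nat_lit 4) (nat_lit 327) (nat_lit 241) (nat_lit 212)) (XT.nd (nat_lit 78) (nat_lit 0) (nat_lit 0) (XT.lf (nat_lit 0) (nat_lit 13059780775) (nat_lit 152) (nat_lit 192785748549) (nat_lit 0) (nat_lit 10186376166) (nat_lit 1) (nat_lit 5) (nat_lit 3) (nat_lit 4) (nat_lit 1) (nat_lit 4) (nat_lit 328) (nat_lit 241) (nat_lit 211)) (XT.lf (nat_lit 0) (nat_lit 16195190868) (nat_lit 152) (nat_lit 203632076822) (nat_lit 0) (nat_lit 13298300345) (nat_lit 1) (nat_lit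 5) (nat_lit 3) (nat_lit 4) (nat_lit 1) (nat_lit 4) (nat_lit 329) (nat_lit 241) (nat_lit 210)))) (XT.nd (nat_lit 156) (nat_lit 0) (nat_lit 0) (XT.nd (nat_lit 78) (nat_lit 0) (nat_lit 0) (XT.lf (nat_lit 0) (nat_lit 19553518557) (nat_lit 152) (nat_lit 215400570955) (nat_lit 0) (nat_lit 16634881816) (nat_lit 1) (nat_lit 5) (nat_lit 3) (nat_lit 4) (nat_lit 1) (nat_lit 4) (nat_lit 330) (nat_lit 241) (nat_lit 209)) (XT.lf (nat_lit 0) (nat_lit 23154665041) (nat_lit 152) (nat_lit 228160970171) (nat_lit 0) (nat_lit 20215892914) (nat_lit 1) (nat_lit 5) (nat_lit 3) (nat_lit 4) (nat_lit 1) (nat_lit 4) (nat_lit 331) (nat_lit 241) (nat_lit 208))) (XT.nd (nat_lit 78) (nat_lit 0) (nat_lit 0) (XT.lf (nat_lit 0) (nat_lit 27019970449) (nat_lit 152) (nat_lit 241988891653) (nat_lit 0) (nat_lit 24062554446) (nat_lit 1) (nat_lit 5) (nat_lit 3) (nat_lit 4) (nat_lit 1) (nat_lit 4) (nat_lit 332) (nat_lit 241)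 (nat_lit 207)) (XT.lf (nat_lit 0) (nat_lit 31172340293) (nat_lit 152) (nat_lit 256966278637) (nat_lit 0) (nat_lit 28197661442) (nat_lit 1) (nat_lit 5) (nat_lit 3) (nat_lit 4) (nat_lit 1) (nat_lit 4) (nat_lit 333) (nat_lit 241) (nat_lit 206))))) (XT.nd (nat_lit 312) (nat_lit 0) (nat_lit 0) (XT.nd (nat_lit 156) (nat_lit 0) (nat_lit 0) (XT.nd (nat_lit 78) (nat_lit 0) (nat_lit 0) (XT.lf (nat_lit 0) (nat_lit 35636381211) (nat_lit 152) (nat_lit 273181886010) (nat_lit 0) (nat_lit 32645718240) (nat_lit 1) (nat_lit 5) (nat_lit 3) (nat_lit 4) (nat_lit 1) (nat_lit 4) (nat_lit 334) (nat_lit 241) (nat_lit 205)) (XT.lf (nat_lit 0) (nat_lit 40438546777) (nat_lit 152) (nat_lit 290731806261) (nat_lit 0) (nat_lit 37433083697) (nat_lit 1) (nat_lit 5) (nat_lit 3) (nat_lit 4) (nat_lit 1) (nat_lit 4) (nat_lit 335) (nat_lit 241) (nat_lit 204))) (XT.nd (nat_lit 78) (nat_lit 0) (nat_lit 0) (XT.lf (nat_lit 0)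 (nat_lit 45607294269) (nat_lit 152) (nat_lit 309720038916) (nat_lit 0) (nat_lit 42588127383) (nat_lit 1) (nat_lit 5) (nat_lit 3) (nat_lit 4) (nat_lit 1) (nat_lit 4) (nat_lit 336) (nat_lit 241) (nat_lit 203)) (XT.lf (nat_lit 0) (nat_lit 51173253303) (nat_lit 152) (nat_lit 330259106835) (nat_lit 0) (nat_lit 48141397708) (nat_lit 1) (nat_lit 5) (nat_lit 3) (nat_lit 4) (nat_lit 1) (nat_lit 4) (nat_lit 337) (nat_lit 241) (nat_lit 202)))) (XT.nd (nat_lit 156) (nat_lit 0) (nat_lit 0) (XT.nd (nat_lit 78) (nat_lit 0) (nat_lit 0) (XT.lf (nat_lit 0) (nat_lit 57169407338) (nat_lit 152) (nat_lit 352470723014) (nat_lit 0) (nat_lit 54125802939) (nat_lit 1) (nat_lit 5) (nat_lit 3) (nat_lit 4) (nat_lit 1) (nat_lit 4) (nat_lit 338) (nat_lit 241) (nat_lit 201)) (XT.lf (nat_lit 0) (nat_lit 63631289140) (nat_lit 152) (nat_lit 376486511845) (nat_lit 0) (nat_lit 60576806218) (nat_lit 1) (nat_lit 5) (nat_lit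 3) (nat_lit 4) (nat_lit 1) (nat_lit 4) (nat_lit 339) (nat_lit 241) (nat_lit 200))) (XT.nd (nat_lit 78) (nat_lit 0) (nat_lit 0) (XT.lf (nat_lit 0) (nat_lit 70597191341) (nat_lit 152) (nat_lit 402448789114) (nat_lit 0) (nat_lit 67532635713) (nat_lit 1) (nat_lit 5) (nat_lit 3) (nat_lit 4) (nat_lit 1) (nat_lit 4) (nat_lit 340) (nat_lit 241) (nat_lit 199)) (XT.lf (nat_lit 0) (nat_lit 78108393362) (nat_lit 152) (nat_lit 430511405352) (nat_lit 0) (nat_lit 75034511154) (nat_lit 1) (nat_lit 5) (nat_lit 3) (nat_lit 4) (nat_lit 1) (nat_lit 4) (nat_lit 341) (nat_lit 241) (nat_lit 198)))))) (XT.nd (nat_lit 546) (nat_lit 0) (nat_lit 0) (XT.nd (nat_lit 234) (nat_lit 0) (nat_lit 0) (XT.nd (nat_lit 78) (nat_lit 0) (nat_lit 0) (XT.lf (nat_lit 0) (nat_lit 86209406030) (nat_lit 152) (nat_lit 460840657545) (nat_lit 0) (nat_lit 83126888100) (nat_lit 1) (nat_lit 5) (nat_lit 3) (nat_lit 4) (nat_lit 1) (nat_lit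 4) (nat_lit 342) (nat_lit 241) (nat_lit 197)) (XT.nd (nat_lit 78) (nat_lit 0) (nat_lit 0) (XT.lf (nat_lit 0) (nat_lit 94948235345) (nat_lit 152) (nat_lit 493616274595) (nat_lit 0) (nat_lit 91857721376) (nat_lit 1) (nat_lit 5) (nat_lit 3) (nat_lit 4) (nat_lit 1) (nat_lit 4) (nat_lit 343) (nat_lit 241) (nat_lit 196)) (XT.lf (nat_lit 0) (nat_lit 104376666964) (nat_lit 152) (nat_lit 529032482379) (nat_lit 0) (nat_lit 101278749255) (nat_lit 1) (nat_lit 5) (nat_lit 3) (nat_lit 4) (nat_lit 1) (nat_lit 4) (nat_lit 344) (nat_lit 241) (nat_lit 195)))) (XT.nd (nat_lit 156) (nat_lit 0) (nat_lit 0) (XT.nd (nat_lit 78) (nat_lit 0) (nat_lit 0) (XT.lf (nat_lit 0) (nat_lit 114550573072) (nat_lit 152) (nat_lit 567299154723) (nat_lit 0) (nat_lit 111445800049) (nat_lit 1) (nat_lit 5) (nat_lit 3) (nat_lit 4) (nat_lit 1) (nat_lit 4) (nat_lit 345) (nat_lit 241) (nat_lit 194)) (XT.lf (nat_lit 0) (nat_lit 125530243485)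 (nat_lit 152) (nat_lit 608643057092) (nat_lit 0) (nat_lit 122419122948) (nat_lit 1) (nat_lit 5) (nat_lit 3) (nat_lit 4) (nat_lit 1) (nat_lit 4) (nat_lit 346) (nat_lit 241) (nat_lit 193))) (XT.nd (nat_lit 78) (nat_lit 0) (nat_lit 0) (XT.lf (nat_lit 0) (nat_lit 137380742916) (nat_lit 152) (nat_lit 653309190389) (nat_lit 0) (nat_lit 134263745052) (nat_lit 1) (nat_lit 5) (nat_lit 3) (nat_lit 4) (nat_lit 1) (nat_lit 4) (nat_lit 347) (nat_lit 241) (nat_lit 192)) (XT.lf (nat_lit 0) (nat_lit 150172296546) (nat_lit 152) (nat_lit 701562242812) (nat_lit 0) (nat_lit 147049856712) (nat_lit 1) (nat_lit 5) (nat_lit 3) (nat_lit 4) (nat_lit 1) (nat_lit 4) (nat_lit 348) (nat_lit 241) (nat_lit 191))))) (XT.nd (nat_lit 312) (nat_lit 0) (nat_lit 0) (XT.nd (nat_lit 156) (nat_lit 0) (nat_lit 0) (XT.nd (nat_lit 78) (nat_lit 0) (nat_lit 0) (XT.lf (nat_lit 0) (nat_lit 163980706176) (nat_lit 152) (nat_lit 753688158373)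 (nat_lit 0) (nat_lit 160853227481) (nat_lit 1) (nat_lit 5) (nat_lit 3) (nat_lit 4) (nat_lit 1) (nat_lit 4) (nat_lit 349) (nat_lit 241) (nat_lit 190)) (XT.lf (nat_lit 0) (nat_lit 178887799416) (nat_lit 152) (nat_lit 809995831389) (nat_lit 0) (nat_lit 175755655110) (nat_lit 1) (nat_lit 5) (nat_lit 3) (nat_lit 4) (nat_lit 1) (nat_lit 4) (nat_lit 350) (nat_lit 241) (nat_lit 189))) (XT.nd (nat_lit 78) (nat_lit 0) (nat_lit 0) (XT.lf (nat_lit 0) (nat_lit 194981914599) (nat_lit 152) (nat_lit 870818936958) (nat_lit 0) (nat_lit 191845450281) (nat_lit 1) (nat_lit 5) (nat_lit 3) (nat_lit 4) (nat_lit 1) (nat_lit 4) (nat_lit 351) (nat_lit 241) (nat_lit 188)) (XT.lf (nat_lit 0) (nat_lit 212358424258) (nat_lit 152) (nat_lit 936517908299) (nat_lit 0) (nat_lit 209217959930) (nat_lit 1) (nat_lit 5) (nat_lit 3) (nat_lit 4) (nat_lit 1) (nat_lit 4) (nat_lit 352) (nat_lit 241) (nat_lit 187)))) (XT.nd (nat_lit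 156) (nat_lit 0) (nat_lit 0) (XT.nd (nat_lit 78) (nat_lit 0) (nat_lit 0) (XT.lf (nat_lit 0) (nat_lit 231120300302) (nat_lit 152) (nat_lit 1007482072649) (nat_lit 0) (nat_lit 227976132261) (nat_lit 1) (nat_lit 5) (nat_lit 3) (nat_lit 4) (nat_lit 1) (nat_lit 4) (nat_lit 353) (nat_lit 241) (nat_lit 186)) (XT.lf (nat_lit 0) (nat_lit 251378724219) (nat_lit 152) (nat_lit 1084131958389) (nat_lit 0) (nat_lit 248231126814) (nat_lit 1) (nat_lit 5) (nat_lit 3) (nat_lit 4) (nat_lit 1) (nat_lit 4) (nat_lit 354) (nat_lit 241) (nat_lit 185))) (XT.nd (nat_lit 78) (nat_lit 0) (nat_lit 0) (XT.lf (nat_lit 0) (nat_lit 273253745929) (nat_lit 152) (nat_lit 1166921787065) (nat_lit 0) (nat_lit 270102973186) (nat_lit 1) (nat_lit 5) (nat_lit 3) (nat_lit 4) (nat_lit 1) (nat_lit 4) (nat_lit 355) (nat_lit 241) (nat_lit 184)) (XT.lf (nat_lit 0) (nat_lit 296874995189) (nat_lit 152) (nat_lit 1256342165069) (nat_lit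 0) (nat_lit 293721282320) (nat_lit 1) (nat_lit 5) (nat_lit 3) (nat_lit 4) (nat_lit 1) (nat_lit 4) (nat_lit 356) (nat_lit 241) (nat_lit 183))))))) (XT.nd (nat_lit 35958) (nat_lit 0) (nat_lit 152) (XT.nd (nat_lit 546) (nat_lit 0) (nat_lit 0) (XT.nd (nat_lit 234) (nat_lit 0) (nat_lit 0) (XT.nd (nat_lit 78) (nat_lit 0) (nat_lit 0) (XT.lf (nat_lit 0) (nat_lit 322382449774) (nat_lit 152) (nat_lit 1352922990936) (nat_lit 0) (nat_lit 319226014565) (nat_lit 1) (nat_lit 5) (nat_lit 3) (nat_lit 4) (nat_lit 1) (nat_lit 4) (nat_lit 357) (nat_lit 241) (nat_lit 182)) (XT.nd (nat_lit 78) (nat_lit 0) (nat_lit 0) (XT.lf (nat_lit 0) (nat_lit 349927264969) (nat_lit 152) (nat_lit 1457236595488) (nat_lit 0) (nat_lit 346768309075) (nat_lit 1) (nat_lit 5) (nat_lit 3) (nat_lit 4) (nat_lit 1) (nat_lit 4) (nat_lit 358) (nat_lit 241) (nat_lit 181)) (XT.lf (nat_lit 0) (nat_lit 379672669309) (nat_lit 152) (nat_lit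 1569901133418) (nat_lit 0) (nat_lit 376511379448) (nat_lit 1) (nat_lit 5) (nat_lit 3) (nat_lit 4) (nat_lit 1) (nat_lit 4) (nat_lit 359) (nat_lit 241) (nat_lit 180)))) (XT.nd (nat_lit 156) (nat_lit 0) (nat_lit 0) (XT.nd (nat_lit 78) (nat_lit 0) (nat_lit 0) (XT.lf (nat_lit 0) (nat_lit 411794931857) (nat_lit 152) (nat_lit 1691584246431) (nat_lit 0) (nat_lit 408631480915) (nat_lit 1) (nat_lit 5) (nat_lit 3) (nat_lit 4) (nat_lit 1) (nat_lit 4) (nat_lit 360) (nat_lit 241) (nat_lit 179)) (XT.lf (nat_lit 0) (nat_lit 446484406762) (nat_lit 152) (nat_lit 1823007019643) (nat_lit 0) (nat_lit 443318954818) (nat_lit 1) (nat_lit 5) (nat_lit 3) (nat_lit 4) (nat_lit 1) (nat_lit 4) (nat_lit 361) (nat_lit 241) (nat_lit 178))) (XT.nd (nat_lit 78) (nat_lit 0) (nat_lit 0) (XT.lf (nat_lit 0) (nat_lit 483946661281) (nat_lit 152) (nat_lit 1964948254671) (nat_lit 0) (nat_lit 480779356559) (nat_lit 1) (nat_lit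 5) (nat_lit 3) (nat_lit 4) (nat_lit 1) (nat_lit 4) (nat_lit 362) (nat_lit 241) (nat_lit 177)) (XT.lf (nat_lit 0) (nat_lit 524403693961) (nat_lit 152) (nat_lit 2118249084761) (nat_lit 0) (nat_lit 521234673703) (nat_lit 1) (nat_lit 5) (nat_lit 3) (nat_lit 4) (nat_lit 1) (nat_lit 4) (nat_lit 363) (nat_lit 241) (nat_lit 176))))) (XT.nd (nat_lit 312) (nat_lit 0) (nat_lit 0) (XT.nd (nat_lit 156) (nat_lit 0) (nat_lit 0) (XT.nd (nat_lit 78) (nat_lit 0) (nat_lit 0) (XT.lf (nat_lit 0) (nat_lit 568095250180) (nat_lit 152) (nat_lit 2283817959277) (nat_lit 0) (nat_lit 564924641463) (nat_lit 1) (nat_lit 5) (nat_lit 3) (nat_lit 4) (nat_lit 1) (nat_lit 4) (nat_lit 364) (nat_lit 241) (nat_lit 175)) (XT.lf (nat_lit 0) (nat_lit 615280242864) (nat_lit 152) (nat_lit 2462636027104) (nat_lit 0) (nat_lit 612108163351) (nat_lit 1) (nat_lit 5) (nat_lit 3) (nat_lit 4) (nat_lit 1) (nat_lit 4) (nat_lit 365) (nat_lit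 241) (nat_lit 174))) (XT.nd (nat_lit 78) (nat_lit 0) (nat_lit 0) (XT.lf (nat_lit 0) (nat_lit 666238286784) (nat_lit 152) (nat_lit 2655762950866) (nat_lit 0) (nat_lit 663064845424) (nat_lit 1) (nat_lit 5) (nat_lit 3) (nat_lit 4) (nat_lit 1) (nat_lit 4) (nat_lit 366) (nat_lit 241) (nat_lit 173)) (XT.lf (nat_lit 0) (nat_lit 721271355534) (nat_lit 152) (nat_lit 2864343186408) (nat_lit 0) (nat_lit 718096653204) (nat_lit 1) (nat_lit 5) (nat_lit 3) (nat_lit 4) (nat_lit 1) (nat_lit 4) (nat_lit 367) (nat_lit 241) (nat_lit 172)))) (XT.nd (nat_lit 156) (nat_lit 0) (nat_lit 0) (XT.nd (nat_lit 78) (nat_lit 0) (nat_lit 0) (XT.lf (nat_lit 0) (nat_lit 780705571003) (nat_lit 152) (nat_lit 3089612764755) (nat_lit 0) (nat_lit 777529701108) (nat_lit 1) (nat_lit 5) (nat_lit 3) (nat_lit 4) (nat_lit 1) (nat_lit 4) (nat_lit 368) (nat_lit 241) (nat_lit 171)) (XT.lf (nat_lit 0) (nat_lit 844893135949) (nat_lit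 152) (nat_lit 3332906616743) (nat_lit 0) (nat_lit 841716184975) (nat_lit 1) (nat_lit 5) (nat_lit 3) (nat_lit 4) (nat_lit 1) (nat_lit 4) (nat_lit 369) (nat_lit 241) (nat_lit 170))) (XT.nd (nat_lit 34866) (nat_lit 0) (nat_lit 456) (XT.lf (nat_lit 0) (nat_lit 914214421127) (nat_lit 152) (nat_lit 3595666483715) (nat_lit 0) (nat_lit 911036469155) (nat_lit 1) (nat_lit 5) (nat_lit 3) (nat_lit 4) (nat_lit 1) (nat_lit 4) (nat_lit 370) (nat_lit 241) (nat_lit 169)) (XT.lf (nat_lit 0) (nat_lit 634030259) (nat_lit 152) (nat_lit 9630982674) (nat_lit 0) (nat_lit 634030259) (nat_lit 7) (nat_lit 5) (nat_lit 9) (nat_lit 4) (nat_lit 7) (nat_lit 4) (nat_lit 296) (nat_lit 242) (nat_lit 242)))))) (XT.nd (nat_lit 624) (nat_lit 76) (nat_lit 0) (XT.nd (nat_lit 312) (nat_lit 152) (nat_lit 0) (XT.nd (nat_lit 156) (nat_lit 76) (nat_lit 0) (XT.nd (nat_lit 78) (nat_lit 0) (nat_lit 0) (XT.lf (nat_lit 0) (nat_lit 5728226763)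 (nat_lit 152) (nat_lit 12004992131) (nat_lit 0) (nat_lit 5430518143) (nat_lit 7) (nat_lit 5) (nat_lit 9) (nat_lit 4) (nat_lit 7) (nat_lit 4) (nat_lit 297) (nat_lit 242) (nat_lit 241)) (XT.lf (nat_lit 0) (nat_lit 10317008623) (nat_lit 152) (nat_lit 4596427191) (nat_lit 0) (nat_lit 9743643874) (nat_lit 7) (nat_lit 5) (nat_lit 9) (nat_lit 4) (nat_lit 7) (nat_lit 4) (nat_lit 298) (nat_lit 242) (nat_lit 240))) (XT.nd (nat_lit 78) (nat_lit 0) (nat_lit 0) (XT.lf (nat_lit 0) (nat_lit 3166008653) (nat_lit 76) (nat_lit 11971732811) (nat_lit 76) (nat_lit 11143130906) (nat_lit 6) (nat_lit 4) (nat_lit 7) (nat_lit 5) (nat_lit 7) (nat_lit 4) (nat_lit 299) (nat_lit 242) (nat_lit 239)) (XT.lf (nat_lit 0) (nat_lit 11423706852) (nat_lit 76) (nat_lit 8841147199) (nat_lit 76) (nat_lit 7776214594) (nat_lit 6) (nat_lit 4) (nat_lit 7) (nat_lit 5) (nat_lit 7) (nat_lit 4) (nat_lit 300) (nat_lit 242) (nat_lit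 238)))) (XT.nd (nat_lit 156) (nat_lit 152) (nat_lit 0) (XT.nd (nat_lit 78) (nat_lit 0) (nat_lit 0) (XT.lf (nat_lit 0) (nat_lit 19983562202) (nat_lit 76) (nat_lit 5628801824) (nat_lit 76) (nat_lit 4345044496) (nat_lit 6) (nat_lit 4) (nat_lit 7) (nat_lit 5) (nat_lit 7) (nat_lit 4) (nat_lit 301) (nat_lit 242) (nat_lit 237)) (XT.lf (nat_lit 0) (nat_lit 28896299772) (nat_lit 76) (nat_lit 2315660565) (nat_lit 76) (nat_lit 829287753) (nat_lit 6) (nat_lit 4) (nat_lit 7) (nat_lit 5) (nat_lit 7) (nat_lit 4) (nat_lit 302) (nat_lit 242) (nat_lit 236))) (XT.nd (nat_lit 78) (nat_lit 0) (nat_lit 0) (XT.lf (nat_lit 0) (nat_lit 2780667119) (nat_lit 152) (nat_lit 30277936311) (nat_lit 0) (nat_lit 1230685877) (nat_lit 4) (nat_lit 5) (nat_lit 6) (nat_lit 4) (nat_lit 4) (nat_lit 4) (nat_lit 303) (nat_lit 242) (nat_lit 235)) (XT.lf (nat_lit 0) (nat_lit 6617386658) (nat_lit 152) (nat_lit 25192986987) (nat_lit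 0) (nat_lit 4906562712) (nat_lit 4) (nat_lit 5) (nat_lit 6) (nat_lit 4) (nat_lit 4) (nat_lit 4) (nat_lit 304) (nat_lit 242) (nat_lit 234))))) (XT.nd (nat_lit 312) (nat_lit 76) (nat_lit 0) (XT.nd (nat_lit 156) (nat_lit 0) (nat_lit 0) (XT.nd (nat_lit 78) (nat_lit 0) (nat_lit 0) (XT.lf (nat_lit 0) (nat_lit 10607712650) (nat_lit 152) (nat_lit 19995488219) (nat_lit 0) (nat_lit 8747960275) (nat_lit 4) (nat_lit 5) (nat_lit 6) (nat_lit 4) (nat_lit 4) (nat_lit 4) (nat_lit 305) (nat_lit 242) (nat_lit 233)) (XT.lf (nat_lit 0) (nat_lit 14775291471) (nat_lit 152) (nat_lit 14654640012) (nat_lit 0) (nat_lit 12777642402) (nat_lit 4) (nat_lit 5) (nat_lit 6) (nat_lit 4) (nat_lit 4) (nat_lit 4) (nat_lit 306) (nat_lit 242) (nat_lit 232))) (XT.nd (nat_lit 78) (nat_lit 0) (nat_lit 0) (XT.lf (nat_lit 0) (nat_lit 19144819884) (nat_lit 152) (nat_lit 9138792897) (nat_lit 0) (nat_lit 17019488692) (nat_lit 4) (nat_lit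 5) (nat_lit 6) (nat_lit 4) (nat_lit 4) (nat_lit 4) (nat_lit 307) (nat_lit 242) (nat_lit 231)) (XT.lf (nat_lit 0) (nat_lit 23742191392) (nat_lit 152) (nat_lit 3415260372) (nat_lit 0) (nat_lit 21498636011) (nat_lit 4) (nat_lit 5) (nat_lit 6) (nat_lit 4) (nat_lit 4) (nat_lit 4) (nat_lit 308) (nat_lit 242) (nat_lit 230)))) (XT.nd (nat_lit 156) (nat_lit 0) (nat_lit 0) (XT.nd (nat_lit 78) (nat_lit 0) (nat_lit 0) (XT.lf (nat_lit 0) (nat_lit 2684146680) (nat_lit 76) (nat_lit 25975056789) (nat_lit 76) (nat_lit 23622034566) (nat_lit 3) (nat_lit 4) (nat_lit 4) (nat_lit 5) (nat_lit 4) (nat_lit 4) (nat_lit 309) (nat_lit 242) (nat_lit 229)) (XT.lf (nat_lit 0) (nat_lit 9254930661) (nat_lit 76) (nat_lit 24698600691) (nat_lit 76) (nat_lit 22244220282) (nat_lit 3) (nat_lit 4) (nat_lit 4) (nat_lit 5) (nat_lit 4) (nat_lit 4) (nat_lit 310) (nat_lit 242) (nat_lit 228))) (XT.nd (nat_lit 78) (nat_lit 0) (nat_lit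 0) (XT.lf (nat_lit 0) (nat_lit 16156187990) (nat_lit 76) (nat_lit 23413898559) (nat_lit 76) (nat_lit 20865667977) (nat_lit 3) (nat_lit 4) (nat_lit 4) (nat_lit 5) (nat_lit 4) (nat_lit 4) (nat_lit 311) (nat_lit 242) (nat_lit 227)) (XT.lf (nat_lit 0) (nat_lit 23428815007) (nat_lit 76) (nat_lit 22113337342) (nat_lit 76) (nat_lit 19478208451) (nat_lit 3) (nat_lit 4) (nat_lit 4) (nat_lit 5) (nat_lit 4) (nat_lit 4) (nat_lit 312) (nat_lit 242) (nat_lit 226))))))))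
noncomputable def xc23 : XT := (XT.nd (nat_lit 2418) (nat_lit 0) (nat_lit 0) (XT.nd (nat_lit 1170) (nat_lit 0) (nat_lit 0) (XT.nd (nat_lit 546) (nat_lit 152) (nat_lit 0) (XT.nd (nat_lit 234) (nat_lit 0) (nat_lit 0) (XT.nd (nat_lit 78) (nat_lit 0) (nat_lit 0) (XT.lf (nat_lit 0) (nat_lit 31115908761) (nat_lit 76) (nat_lit 20789210010) (nat_lit 76) (nat_lit 18073619724) (nat_lit 3) (nat_lit 4) (nat_lit 4) (nat_lit 5) (nat_lit 4) (nat_lit 4) (nat_lit 313) (nat_lit 242) (nat_lit 225)) (XT.nd (nat_lit 78) (nat_lit 0) (nat_lit 0) (XT.lf (nat_lit 0) (nat_lit 39263022399) (nat_lit 76) (nat_lit 19433669885) (nat_lit 76) (nat_lit 16643578305) (nat_lit 3) (nat_lit 4) (nat_lit 4) (nat_lit 5) (nat_lit 4) (nat_lit 4) (nat_lit 314) (nat_lit 242) (nat_lit 224)) (XT.lf (nat_lit 0) (nat_lit 47918435115) (nat_lit 76) (nat_lit 18038684134) (nat_lit 76) (nat_lit 15179609876) (nat_lit 3) (nat_lit 4) (nat_lit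 4) (nat_lit 5) (nat_lit 4) (nat_lit 4) (nat_lit 315) (nat_lit 242) (nat_lit 223)))) (XT.nd (nat_lit 156) (nat_lit 0) (nat_lit 0) (XT.nd (nat_lit 78) (nat_lit 0) (nat_lit 0) (XT.lf (nat_lit 0) (nat_lit 57133438242) (nat_lit 76) (nat_lit 16595986176) (nat_lit 76) (nat_lit 13673039067) (nat_lit 3) (nat_lit 4) (nat_lit 4) (nat_lit 5) (nat_lit 4) (nat_lit 4) (nat_lit 316) (nat_lit 242) (nat_lit 222)) (XT.lf (nat_lit 0) (nat_lit 66962639207) (nat_lit 76) (nat_lit 15097026690) (nat_lit 76) (nat_lit 12114938053) (nat_lit 3) (nat_lit 4) (nat_lit 4) (nat_lit 5) (nat_lit 4) (nat_lit 4) (nat_lit 317) (nat_lit 242) (nat_lit 221))) (XT.nd (nat_lit 78) (nat_lit 0) (nat_lit 0) (XT.lf (nat_lit 0) (nat_lit 77464285125) (nat_lit 76) (nat_lit 13532922952) (nat_lit 76) (nat_lit 10496073641) (nat_lit 3) (nat_lit 4) (nat_lit 4) (nat_lit 5) (nat_lit 4) (nat_lit 4) (nat_lit 318) (nat_lit 242) (nat_lit 220))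 (XT.lf (nat_lit 0) (nat_lit 88700607974) (nat_lit 76) (nat_lit 11894406201) (nat_lit 76) (nat_lit 8806852561) (nat_lit 3) (nat_lit 4) (nat_lit 4) (nat_lit 5) (nat_lit 4) (nat_lit 4) (nat_lit 319) (nat_lit 242) (nat_lit 219))))) (XT.nd (nat_lit 312) (nat_lit 152) (nat_lit 0) (XT.nd (nat_lit 156) (nat_lit 0) (nat_lit 0) (XT.nd (nat_lit 78) (nat_lit 0) (nat_lit 0) (XT.lf (nat_lit 0) (nat_lit 100738193370) (nat_lit 76) (nat_lit 10171766706) (nat_lit 76) (nat_lit 7037264614) (nat_lit 3) (nat_lit 4) (nat_lit 4) (nat_lit 5) (nat_lit 4) (nat_lit 4) (nat_lit 320) (nat_lit 242) (nat_lit 218)) (XT.lf (nat_lit 0) (nat_lit 113648375152) (nat_lit 76) (nat_lit 8354796234) (nat_lit 76) (nat_lit 5176823353) (nat_lit 3) (nat_lit 4) (nat_lit 4) (nat_lit 5) (nat_lit 4) (nat_lit 4) (nat_lit 321) (nat_lit 242) (nat_lit 217))) (XT.nd (nat_lit 78) (nat_lit 0) (nat_lit 0) (XT.lf (nat_lit 0) (nat_lit 127507658102)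 (nat_lit 76) (nat_lit 6432727552) (nat_lit 76) (nat_lit 3214503941) (nat_lit 3) (nat_lit 4) (nat_lit 4) (nat_lit 5) (nat_lit 4) (nat_lit 4) (nat_lit 322) (nat_lit 242) (nat_lit 216)) (XT.lf (nat_lit 0) (nat_lit 142398171303) (nat_lit 76) (nat_lit 4394170625) (nat_lit 76) (nat_lit 1138677819) (nat_lit 3) (nat_lit 4) (nat_lit 4) (nat_lit 5) (nat_lit 4) (nat_lit 4) (nat_lit 323) (nat_lit 242) (nat_lit 215)))) (XT.nd (nat_lit 156) (nat_lit 0) (nat_lit 0) (XT.nd (nat_lit 78) (nat_lit 76) (nat_lit 0) (XT.lf (nat_lit 0) (nat_lit 1009782831) (nat_lit 152) (nat_lit 1189653030) (nat_lit 76) (nat_lit 157370762750) (nat_lit 2) (nat_lit 5) (nat_lit 4) (nat_lit 5) (nat_lit 3) (nat_lit 4) (nat_lit 324) (nat_lit 242) (nat_lit 214)) (XT.lf (nat_lit 0) (nat_lit 3325668442) (nat_lit 152) (nat_lit 168558146283) (nat_lit 0) (nat_lit 249785436) (nat_lit 1) (nat_lit 5) (nat_lit 3) (nat_lit 4) (nat_lit 1) (nat_lit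 4) (nat_lit 325) (nat_lit 242) (nat_lit 213))) (XT.nd (nat_lit 78) (nat_lit 0) (nat_lit 0) (XT.lf (nat_lit 0) (nat_lit 5882160064) (nat_lit 152) (nat_lit 177036622170) (nat_lit 0) (nat_lit 2778883086) (nat_lit 1) (nat_lit 5) (nat_lit 3) (nat_lit 4) (nat_lit 1) (nat_lit 4) (nat_lit 326) (nat_lit 242) (nat_lit 212)) (XT.lf (nat_lit 0) (nat_lit 8610610711) (nat_lit 152) (nat_lit 186256897804) (nat_lit 0) (nat_lit 5481968946) (nat_lit 1) (nat_lit 5) (nat_lit 3) (nat_lit 4) (nat_lit 1) (nat_lit 4) (nat_lit 327) (nat_lit 242) (nat_lit 211)))))) (XT.nd (nat_lit 624) (nat_lit 0) (nat_lit 0) (XT.nd (nat_lit 312) (nat_lit 0) (nat_lit 0) (XT.nd (nat_lit 156) (nat_lit 0) (nat_lit 0) (XT.nd (nat_lit 78) (nat_lit 0) (nat_lit 0) (XT.lf (nat_lit 0) (nat_lit 11527188980) (nat_lit 152) (nat_lit 196273611854) (nat_lit 0) (nat_lit 8375061300) (nat_lit 1) (nat_lit 5) (nat_lit 3) (nat_lit 4) (nat_lit 1) (nat_lit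 4) (nat_lit 328) (nat_lit 242) (nat_lit 210)) (XT.lf (nat_lit 0) (nat_lit 14649178298) (nat_lit 152) (nat_lit 207146122626) (nat_lit 0) (nat_lit 11475304401) (nat_lit 1) (nat_lit 5) (nat_lit 3) (nat_lit 4) (nat_lit 1) (nat_lit 4) (nat_lit 329) (nat_lit 242) (nat_lit 209))) (XT.nd (nat_lit 78) (nat_lit 0) (nat_lit 0) (XT.lf (nat_lit 0) (nat_lit 17995079343) (nat_lit 152) (nat_lit 218938859813) (nat_lit 0) (nat_lit 14801070059) (nat_lit 1) (nat_lit 5) (nat_lit 3) (nat_lit 4) (nat_lit 1) (nat_lit 4) (nat_lit 330) (nat_lit 242) (nat_lit 208)) (XT.lf (nat_lit 0) (nat_lit 21584719675) (nat_lit 152) (nat_lit 231721706302) (nat_lit 0) (nat_lit 18372066516) (nat_lit 1) (nat_lit 5) (nat_lit 3) (nat_lit 4) (nat_lit 1) (nat_lit 4) (nat_lit 331) (nat_lit 242) (nat_lit 207)))) (XT.nd (nat_lit 156) (nat_lit 0) (nat_lit 0) (XT.nd (nat_lit 78) (nat_lit 0) (nat_lit 0) (XT.lf (nat_lit 0) (nat_lit 25439371239)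 (nat_lit 152) (nat_lit 245570412295) (nat_lit 0) (nat_lit 22209455231) (nat_lit 1) (nat_lit 5) (nat_lit 3) (nat_lit 4) (nat_lit 1) (nat_lit 4) (nat_lit 332) (nat_lit 242) (nat_lit 206)) (XT.lf (nat_lit 0) (nat_lit 29581876413) (nat_lit 152) (nat_lit 260567044198) (nat_lit 0) (nat_lit 26335976286) (nat_lit 1) (nat_lit 5) (nat_lit 3) (nat_lit 4) (nat_lit 1) (nat_lit 4) (nat_lit 333) (nat_lit 242) (nat_lit 205))) (XT.nd (nat_lit 78) (nat_lit 0) (nat_lit 0) (XT.lf (nat_lit 0) (nat_lit 34036783376) (nat_lit 152) (nat_lit 276800470940) (nat_lit 0) (nat_lit 30776083139) (nat_lit 1) (nat_lit 5) (nat_lit 3) (nat_lit 4) (nat_lit 1) (nat_lit 4) (nat_lit 334) (nat_lit 242) (nat_lit 204)) (XT.lf (nat_lit 0) (nat_lit 38830491577) (nat_lit 152) (nat_lit 294366890606) (nat_lit 0) (nat_lit 35556087535) (nat_lit 1) (nat_lit 5) (nat_lit 3) (nat_lit 4) (nat_lit 1) (nat_lit 4) (nat_lit 335) (nat_lit 242)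 (nat_lit 203))))) (XT.nd (nat_lit 312) (nat_lit 0) (nat_lit 0) (XT.nd (nat_lit 156) (nat_lit 0) (nat_lit 0) (XT.nd (nat_lit 78) (nat_lit 0) (nat_lit 0) (XT.lf (nat_lit 0) (nat_lit 43991408176) (nat_lit 152) (nat_lit 313370400498) (nat_lit 0) (nat_lit 40704315425) (nat_lit 1) (nat_lit 5) (nat_lit 3) (nat_lit 4) (nat_lit 1) (nat_lit 4) (nat_lit 336) (nat_lit 242) (nat_lit 202)) (XT.lf (nat_lit 0) (nat_lit 49550116382) (nat_lit 152) (nat_lit 333923614007) (nat_lit 0) (nat_lit 46251274827) (nat_lit 1) (nat_lit 5) (nat_lit 3) (nat_lit 4) (nat_lit 1) (nat_lit 4) (nat_lit 337) (nat_lit 242) (nat_lit 201))) (XT.nd (nat_lit 78) (nat_lit 0) (nat_lit 0) (XT.lf (nat_lit 0) (nat_lit 55539556689) (nat_lit 152) (nat_lit 356148327954) (nat_lit 0) (nat_lit 52229836610) (nat_lit 1) (nat_lit 5) (nat_lit 3) (nat_lit 4) (nat_lit 1) (nat_lit 4) (nat_lit 338) (nat_lit 242) (nat_lit 200)) (XT.lf (nat_lit 0)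 (nat_lit 61995222075) (nat_lit 152) (nat_lit 380176244348) (nat_lit 0) (nat_lit 58675429290) (nat_lit 1) (nat_lit 5) (nat_lit 3) (nat_lit 4) (nat_lit 1) (nat_lit 4) (nat_lit 339) (nat_lit 242) (nat_lit 199)))) (XT.nd (nat_lit 156) (nat_lit 0) (nat_lit 0) (XT.nd (nat_lit 78) (nat_lit 0) (nat_lit 0) (XT.lf (nat_lit 0) (nat_lit 68955368336) (nat_lit 152) (nat_lit 406149750842) (nat_lit 0) (nat_lit 65626248971) (nat_lit 1) (nat_lit 5) (nat_lit 3) (nat_lit 4) (nat_lit 1) (nat_lit 4) (nat_lit 340) (nat_lit 242) (nat_lit 198)) (XT.lf (nat_lit 0) (nat_lit 76461240782) (nat_lit 152) (nat_lit 434222764511) (nat_lit 0) (nat_lit 73123485696) (nat_lit 1) (nat_lit 5) (nat_lit 3) (nat_lit 4) (nat_lit 1) (nat_lit 4) (nat_lit 341) (nat_lit 242) (nat_lit 197))) (XT.nd (nat_lit 78) (nat_lit 0) (nat_lit 0) (XT.lf (nat_lit 0) (nat_lit 84557318659) (nat_lit 152) (nat_lit 464561643954) (nat_lit 0) (nat_lit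 81211567533) (nat_lit 1) (nat_lit 5) (nat_lit 3) (nat_lit 4) (nat_lit 1) (nat_lit 4) (nat_lit 342) (nat_lit 242) (nat_lit 196)) (XT.lf (nat_lit 0) (nat_lit 93291578723) (nat_lit 152) (nat_lit 497346175125) (nat_lit 0) (nat_lit 89938423858) (nat_lit 1) (nat_lit 5) (nat_lit 3) (nat_lit 4) (nat_lit 1) (nat_lit 4) (nat_lit 343) (nat_lit 242) (nat_lit 195))))))) (XT.nd (nat_lit 1170) (nat_lit 0) (nat_lit 0) (XT.nd (nat_lit 546) (nat_lit 0) (nat_lit 0) (XT.nd (nat_lit 234) (nat_lit 0) (nat_lit 0) (XT.nd (nat_lit 78) (nat_lit 0) (nat_lit 0) (XT.lf (nat_lit 0) (nat_lit 102715779553) (nat_lit 152) (nat_lit 532770636725) (nat_lit 0) (nat_lit 99355769374) (nat_lit 1) (nat_lit 5) (nat_lit 3) (nat_lit 4) (nat_lit 1) (nat_lit 4) (nat_lit 344) (nat_lit 242) (nat_lit 194)) (XT.nd (nat_lit 78) (nat_lit 0) (nat_lit 0) (XT.lf (nat_lit 0) (nat_lit 112885768266) (nat_lit 152) (nat_lit 571044951491) (nat_lit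 0) (nat_lit 109519410572) (nat_lit 1) (nat_lit 5) (nat_lit 3) (nat_lit 4) (nat_lit 1) (nat_lit 4) (nat_lit 345) (nat_lit 242) (nat_lit 193)) (XT.lf (nat_lit 0) (nat_lit 123861811460) (nat_lit 152) (nat_lit 612395930176) (nat_lit 0) (nat_lit 120489576439) (nat_lit 1) (nat_lit 5) (nat_lit 3) (nat_lit 4) (nat_lit 1) (nat_lit 4) (nat_lit 346) (nat_lit 242) (nat_lit 192)))) (XT.nd (nat_lit 156) (nat_lit 0) (nat_lit 0) (XT.nd (nat_lit 78) (nat_lit 0) (nat_lit 0) (XT.lf (nat_lit 0) (nat_lit 135708952355) (nat_lit 152) (nat_lit 657068615618) (nat_lit 0) (nat_lit 132331275364) (nat_lit 1) (nat_lit 5) (nat_lit 3) (nat_lit 4) (nat_lit 1) (nat_lit 4) (nat_lit 347) (nat_lit 242) (nat_lit 191)) (XT.lf (nat_lit 0) (nat_lit 148497396229) (nat_lit 152) (nat_lit 705327734841) (nat_lit 0) (nat_lit 145114680378) (nat_lit 1) (nat_lit 5) (nat_lit 3) (nat_lit 4) (nat_lit 1) (nat_lit 4) (nat_lit 348) (nat_lit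 242) (nat_lit 190))) (XT.nd (nat_lit 78) (nat_lit 0) (nat_lit 0) (XT.lf (nat_lit 0) (nat_lit 162302926455) (nat_lit 152) (nat_lit 757459267811) (nat_lit 0) (nat_lit 158915544992) (nat_lit 1) (nat_lit 5) (nat_lit 3) (nat_lit 4) (nat_lit 1) (nat_lit 4) (nat_lit 349) (nat_lit 242) (nat_lit 189)) (XT.lf (nat_lit 0) (nat_lit 177207353582) (nat_lit 152) (nat_lit 813772142131) (nat_lit 0) (nat_lit 173815652108) (nat_lit 1) (nat_lit 5) (nat_lit 3) (nat_lit 4) (nat_lit 1) (nat_lit 4) (nat_lit 350) (nat_lit 242) (nat_lit 188))))) (XT.nd (nat_lit 312) (nat_lit 0) (nat_lit 0) (XT.nd (nat_lit 156) (nat_lit 0) (nat_lit 0) (XT.nd (nat_lit 78) (nat_lit 0) (nat_lit 0) (XT.lf (nat_lit 0) (nat_lit 193299000140) (nat_lit 152) (nat_lit 874600063722) (nat_lit 0) (nat_lit 189903298656) (nat_lit 1) (nat_lit 5) (nat_lit 3) (nat_lit 4) (nat_lit 1) (nat_lit 4) (nat_lit 351) (nat_lit 242) (nat_lit 187)) (XT.lf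 (nat_lit 0) (nat_lit 210673224036) (nat_lit 152) (nat_lit 940303494342) (nat_lit 0) (nat_lit 207273818838) (nat_lit 1) (nat_lit 5) (nat_lit 3) (nat_lit 4) (nat_lit 1) (nat_lit 4) (nat_lit 352) (nat_lit 242) (nat_lit 186))) (XT.nd (nat_lit 78) (nat_lit 0) (nat_lit 0) (XT.lf (nat_lit 0) (nat_lit 229432983633) (nat_lit 152) (nat_lit 1011271787655) (nat_lit 0) (nat_lit 226030149071) (nat_lit 1) (nat_lit 5) (nat_lit 3) (nat_lit 4) (nat_lit 1) (nat_lit 4) (nat_lit 353) (nat_lit 242) (nat_lit 185)) (XT.lf (nat_lit 0) (nat_lit 249689447876) (nat_lit 152) (nat_lit 1087925496509) (nat_lit 0) (nat_lit 246283437977) (nat_lit 1) (nat_lit 5) (nat_lit 3) (nat_lit 4) (nat_lit 1) (nat_lit 4) (nat_lit 354) (nat_lit 242) (nat_lit 184)))) (XT.nd (nat_lit 156) (nat_lit 0) (nat_lit 0) (XT.nd (nat_lit 78) (nat_lit 0) (nat_lit 0) (XT.lf (nat_lit 0) (nat_lit 271562655073) (nat_lit 152) (nat_lit 1170718865105)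 (nat_lit 0) (nat_lit 268153705048) (nat_lit 1) (nat_lit 5) (nat_lit 3) (nat_lit 4) (nat_lit 1) (nat_lit 4) (nat_lit 355) (nat_lit 242) (nat_lit 183)) (XT.lf (nat_lit 0) (nat_lit 295182224230) (nat_lit 152) (nat_lit 1260142520812) (nat_lit 0) (nat_lit 291770551864) (nat_lit 1) (nat_lit 5) (nat_lit 3) (nat_lit 4) (nat_lit 1) (nat_lit 4) (nat_lit 356) (nat_lit 242) (nat_lit 182))) (XT.nd (nat_lit 78) (nat_lit 0) (nat_lit 0) (XT.lf (nat_lit 0) (nat_lit 320688123162) (nat_lit 152) (nat_lit 1356726381591) (nat_lit 0) (nat_lit 317273930112) (nat_lit 1) (nat_lit 5) (nat_lit 3) (nat_lit 4) (nat_lit 1) (nat_lit 4) (nat_lit 357) (nat_lit 242) (nat_lit 181)) (XT.lf (nat_lit 0) (nat_lit 348231497939) (nat_lit 152) (nat_lit 1461042796246) (nat_lit 0) (nat_lit 344814970921) (nat_lit 1) (nat_lit 5) (nat_lit 3) (nat_lit 4) (nat_lit 1) (nat_lit 4) (nat_lit 358) (nat_lit 242) (nat_lit 180)))))) (XT.nd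 (nat_lit 624) (nat_lit 0) (nat_lit 0) (XT.nd (nat_lit 312) (nat_lit 0) (nat_lit 0) (XT.nd (nat_lit 156) (nat_lit 0) (nat_lit 0) (XT.nd (nat_lit 78) (nat_lit 0) (nat_lit 0) (XT.lf (nat_lit 0) (nat_lit 377975568558) (nat_lit 152) (nat_lit 1573709936122) (nat_lit 0) (nat_lit 374556880459) (nat_lit 1) (nat_lit 5) (nat_lit 3) (nat_lit 4) (nat_lit 1) (nat_lit 4) (nat_lit 359) (nat_lit 242) (nat_lit 179)) (XT.lf (nat_lit 0) (nat_lit 410096596180) (nat_lit 152) (nat_lit 1695395458345) (nat_lit 0) (nat_lit 406675907080) (nat_lit 1) (nat_lit 5) (nat_lit 3) (nat_lit 4) (nat_lit 1) (nat_lit 4) (nat_lit 360) (nat_lit 242) (nat_lit 178))) (XT.nd (nat_lit 78) (nat_lit 0) (nat_lit 0) (XT.lf (nat_lit 0) (nat_lit 444784927634) (nat_lit 152) (nat_lit 1826820462307) (nat_lit 0) (nat_lit 441362385755) (nat_lit 1) (nat_lit 5) (nat_lit 3) (nat_lit 4) (nat_lit 1) (nat_lit 4) (nat_lit 361) (nat_lit 242) (nat_lit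 177)) (XT.lf (nat_lit 0) (nat_lit 482246123403) (nat_lit 152) (nat_lit 1968763762845) (nat_lit 0) (nat_lit 478821865988) (nat_lit 1) (nat_lit 5) (nat_lit 3) (nat_lit 4) (nat_lit 1) (nat_lit 4) (nat_lit 362) (nat_lit 242) (nat_lit 176)))) (XT.nd (nat_lit 156) (nat_lit 0) (nat_lit 0) (XT.nd (nat_lit 78) (nat_lit 0) (nat_lit 0) (XT.lf (nat_lit 0) (nat_lit 522702175758) (nat_lit 152) (nat_lit 2122066505444) (nat_lit 0) (nat_lit 519276329884) (nat_lit 1) (nat_lit 5) (nat_lit 3) (nat_lit 4) (nat_lit 1) (nat_lit 4) (nat_lit 363) (nat_lit 242) (nat_lit 175)) (XT.lf (nat_lit 0) (nat_lit 566392824269) (nat_lit 152) (nat_lit 2287637150801) (nat_lit 0) (nat_lit 562965507600) (nat_lit 1) (nat_lit 5) (nat_lit 3) (nat_lit 4) (nat_lit 1) (nat_lit 4) (nat_lit 364) (nat_lit 242) (nat_lit 174))) (XT.nd (nat_lit 78) (nat_lit 0) (nat_lit 0) (XT.lf (nat_lit 0) (nat_lit 613576976482) (nat_lit 152) (nat_lit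 2466456858295) (nat_lit 0) (nat_lit 610148297965) (nat_lit 1) (nat_lit 5) (nat_lit 3) (nat_lit 4) (nat_lit 1) (nat_lit 4) (nat_lit 365) (nat_lit 242) (nat_lit 173)) (XT.lf (nat_lit 0) (nat_lit 664534242189) (nat_lit 152) (nat_lit 2659585300268) (nat_lit 0) (nat_lit 661104302702) (nat_lit 1) (nat_lit 5) (nat_lit 3) (nat_lit 4) (nat_lit 1) (nat_lit 4) (nat_lit 366) (nat_lit 242) (nat_lit 172))))) (XT.nd (nat_lit 34944) (nat_lit 0) (nat_lit 456) (XT.nd (nat_lit 156) (nat_lit 0) (nat_lit 0) (XT.nd (nat_lit 78) (nat_lit 0) (nat_lit 0) (XT.lf (nat_lit 0) (nat_lit 719566590371) (nat_lit 152) (nat_lit 2868166941561) (nat_lit 0) (nat_lit 716135483319) (nat_lit 1) (nat_lit 5) (nat_lit 3) (nat_lit 4) (nat_lit 1) (nat_lit 4) (nat_lit 367) (nat_lit 242) (nat_lit 171)) (XT.lf (nat_lit 0) (nat_lit 779000138647) (nat_lit 152) (nat_lit 3093437821530) (nat_lit 0) (nat_lit 775567950517) (nat_lit 1) (nat_lit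 5) (nat_lit 3) (nat_lit 4) (nat_lit 1) (nat_lit 4) (nat_lit 368) (nat_lit 242) (nat_lit 170))) (XT.nd (nat_lit 78) (nat_lit 0) (nat_lit 0) (XT.lf (nat_lit 0) (nat_lit 843187085822) (nat_lit 152) (nat_lit 3336732878722) (nat_lit 0) (nat_lit 839753896694) (nat_lit 1) (nat_lit 5) (nat_lit 3) (nat_lit 4) (nat_lit 1) (nat_lit 4) (nat_lit 369) (nat_lit 242) (nat_lit 169)) (XT.lf (nat_lit 0) (nat_lit 912507798991) (nat_lit 152) (nat_lit 3599493861625) (nat_lit 0) (nat_lit 909073683011) (nat_lit 1) (nat_lit 5) (nat_lit 3) (nat_lit 4) (nat_lit 1) (nat_lit 4) (nat_lit 370) (nat_lit 242) (nat_lit 168)))) (XT.nd (nat_lit 156) (nat_lit 152) (nat_lit 0) (XT.nd (nat_lit 78) (nat_lit 0) (nat_lit 0) (XT.lf (nat_lit 0) (nat_lit 2930120227) (nat_lit 76) (nat_lit 3373404351) (nat_lit 76) (nat_lit 3373404351) (nat_lit 9) (nat_lit 4) (nat_lit 10) (nat_lit 5) (nat_lit 10) (nat_lit 4) (nat_lit 294) (nat_lit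 243) (nat_lit 243)) (XT.lf (nat_lit 0) (nat_lit 14819179657) (nat_lit 76) (nat_lit 3028625834) (nat_lit 76) (nat_lit 2681378500) (nat_lit 9) (nat_lit 4) (nat_lit 10) (nat_lit 5) (nat_lit 10) (nat_lit 4) (nat_lit 295) (nat_lit 243) (nat_lit 242))) (XT.nd (nat_lit 78) (nat_lit 0) (nat_lit 0) (XT.lf (nat_lit 0) (nat_lit 1471098570) (nat_lit 152) (nat_lit 19484697765) (nat_lit 0) (nat_lit 851864641) (nat_lit 7) (nat_lit 5) (nat_lit 9) (nat_lit 4) (nat_lit 7) (nat_lit 4) (nat_lit 296) (nat_lit 243) (nat_lit 241)) (XT.lf (nat_lit 0) (nat_lit 5821554389) (nat_lit 152) (nat_lit 12433958266) (nat_lit 0) (nat_lit 4926664331) (nat_lit 7) (nat_lit 5) (nat_lit 9) (nat_lit 4) (nat_lit 7) (nat_lit 4) (nat_lit 297) (nat_lit 243) (nat_lit 240))))))))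
noncomputable def xc24 : XT := (XT.nd (nat_lit 2340) (nat_lit 0) (nat_lit 0) (XT.nd (nat_lit 1170) (nat_lit 152) (nat_lit 0) (XT.nd (nat_lit 546) (nat_lit 76) (nat_lit 0) (XT.nd (nat_lit 234) (nat_lit 152) (nat_lit 0) (XT.nd (nat_lit 78) (nat_lit 76) (nat_lit 0) (XT.lf (nat_lit 0) (nat_lit 10308752522) (nat_lit 152) (nat_lit 5216350473) (nat_lit 0) (nat_lit 9158625309) (nat_lit 7) (nat_lit 5) (nat_lit 9) (nat_lit 4) (nat_lit 7) (nat_lit 4) (nat_lit 298) (nat_lit 243) (nat_lit 239)) (XT.nd (nat_lit 78) (nat_lit 0) (nat_lit 0) (XT.lf (nat_lit 0) (nat_lit 2327318521) (nat_lit 76) (nat_lit 12687937319) (nat_lit 76) (nat_lit 11301479405) (nat_lit 6) (nat_lit 4) (nat_lit 7) (nat_lit 5) (nat_lit 7) (nat_lit 4) (nat_lit 299) (nat_lit 243) (nat_lit 238)) (XT.lf (nat_lit 0) (nat_lit 10412680803) (nat_lit 76) (nat_lit 9638451268) (nat_lit 76) (nat_lit 8033168631) (nat_lit 6) (nat_lit 4) (nat_lit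 7) (nat_lit 5) (nat_lit 7) (nat_lit 4) (nat_lit 300) (nat_lit 243) (nat_lit 237)))) (XT.nd (nat_lit 156) (nat_lit 152) (nat_lit 0) (XT.nd (nat_lit 78) (nat_lit 0) (nat_lit 0) (XT.lf (nat_lit 0) (nat_lit 18812965861) (nat_lit 76) (nat_lit 6501198078) (nat_lit 76) (nat_lit 4693299958) (nat_lit 6) (nat_lit 4) (nat_lit 7) (nat_lit 5) (nat_lit 7) (nat_lit 4) (nat_lit 301) (nat_lit 243) (nat_lit 236)) (XT.lf (nat_lit 0) (nat_lit 27577953160) (nat_lit 76) (nat_lit 3257586621) (nat_lit 76) (nat_lit 1262081571) (nat_lit 6) (nat_lit 4) (nat_lit 7) (nat_lit 5) (nat_lit 7) (nat_lit 4) (nat_lit 302) (nat_lit 243) (nat_lit 235))) (XT.nd (nat_lit 78) (nat_lit 0) (nat_lit 0) (XT.lf (nat_lit 0) (nat_lit 2231548816) (nat_lit 152) (nat_lit 31903019818) (nat_lit 0) (nat_lit 223016251) (nat_lit 4) (nat_lit 5) (nat_lit 6) (nat_lit 4) (nat_lit 4) (nat_lit 4) (nat_lit 303) (nat_lit 243) (nat_lit 234)) (XT.lf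 (nat_lit 0) (nat_lit 5994551475) (nat_lit 152) (nat_lit 26959535159) (nat_lit 0) (nat_lit 3837090481) (nat_lit 4) (nat_lit 5) (nat_lit 6) (nat_lit 4) (nat_lit 4) (nat_lit 4) (nat_lit 304) (nat_lit 243) (nat_lit 233))))) (XT.nd (nat_lit 312) (nat_lit 76) (nat_lit 0) (XT.nd (nat_lit 156) (nat_lit 0) (nat_lit 0) (XT.nd (nat_lit 78) (nat_lit 0) (nat_lit 0) (XT.lf (nat_lit 0) (nat_lit 9916621097) (nat_lit 152) (nat_lit 21893022190) (nat_lit 0) (nat_lit 7621263409) (nat_lit 4) (nat_lit 5) (nat_lit 6) (nat_lit 4) (nat_lit 4) (nat_lit 4) (nat_lit 305) (nat_lit 243) (nat_lit 232)) (XT.lf (nat_lit 0) (nat_lit 14020999575) (nat_lit 152) (nat_lit 16673457131) (nat_lit 0) (nat_lit 11597959763) (nat_lit 4) (nat_lit 5) (nat_lit 6) (nat_lit 4) (nat_lit 4) (nat_lit 4) (nat_lit 306) (nat_lit 243) (nat_lit 231))) (XT.nd (nat_lit 78) (nat_lit 0) (nat_lit 0) (XT.lf (nat_lit 0) (nat_lit 18332009153) (nat_lit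 152) (nat_lit 11269909227) (nat_lit 0) (nat_lit 15790745152) (nat_lit 4) (nat_lit 5) (nat_lit 6) (nat_lit 4) (nat_lit 4) (nat_lit 4) (nat_lit 307) (nat_lit 243) (nat_lit 230)) (XT.lf (nat_lit 0) (nat_lit 22875196553) (nat_lit 152) (nat_lit 5650357453) (nat_lit 0) (nat_lit 20224465711) (nat_lit 4) (nat_lit 5) (nat_lit 6) (nat_lit 4) (nat_lit 4) (nat_lit 4) (nat_lit 308) (nat_lit 243) (nat_lit 229)))) (XT.nd (nat_lit 156) (nat_lit 0) (nat_lit 0) (XT.nd (nat_lit 78) (nat_lit 0) (nat_lit 0) (XT.lf (nat_lit 0) (nat_lit 230005021) (nat_lit 76) (nat_lit 27453010973) (nat_lit 76) (nat_lit 24700921945) (nat_lit 3) (nat_lit 4) (nat_lit 4) (nat_lit 5) (nat_lit 4) (nat_lit 4) (nat_lit 309) (nat_lit 243) (nat_lit 228)) (XT.lf (nat_lit 0) (nat_lit 6706947958) (nat_lit 76) (nat_lit 26221684901) (nat_lit 76) (nat_lit 23375745700) (nat_lit 3) (nat_lit 4) (nat_lit 4) (nat_lit 5) (nat_lit 4) (nat_lit 4)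 (nat_lit 310) (nat_lit 243) (nat_lit 227))) (XT.nd (nat_lit 78) (nat_lit 0) (nat_lit 0) (XT.lf (nat_lit 0) (nat_lit 13521315432) (nat_lit 76) (nat_lit 24978769830) (nat_lit 76) (nat_lit 22045932320) (nat_lit 3) (nat_lit 4) (nat_lit 4) (nat_lit 5) (nat_lit 4) (nat_lit 4) (nat_lit 311) (nat_lit 243) (nat_lit 226)) (XT.lf (nat_lit 0) (nat_lit 20713488880) (nat_lit 76) (nat_lit 23716900335) (nat_lit 76) (nat_lit 20703601429) (nat_lit 3) (nat_lit 4) (nat_lit 4) (nat_lit 5) (nat_lit 4) (nat_lit 4) (nat_lit 312) (nat_lit 243) (nat_lit 225)))))) (XT.nd (nat_lit 546) (nat_lit 152) (nat_lit 0) (XT.nd (nat_lit 234) (nat_lit 0) (nat_lit 0) (XT.nd (nat_lit 78) (nat_lit 0) (nat_lit 0) (XT.lf (nat_lit 0) (nat_lit 28326088588) (nat_lit 76) (nat_lit 22428598673) (nat_lit 76) (nat_lit 19340798474) (nat_lit 3) (nat_lit 4) (nat_lit 4) (nat_lit 5) (nat_lit 4) (nat_lit 4) (nat_lit 313) (nat_lit 243) (nat_lit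 224)) (XT.nd (nat_lit 78) (nat_lit 0) (nat_lit 0) (XT.lf (nat_lit 0) (nat_lit 36404226258) (nat_lit 76) (nat_lit 21106230463) (nat_lit 76) (nat_lit 17949447586) (nat_lit 3) (nat_lit 4) (nat_lit 4) (nat_lit 5) (nat_lit 4) (nat_lit 4) (nat_lit 314) (nat_lit 243) (nat_lit 223)) (XT.lf (nat_lit 0) (nat_lit 44995772336) (nat_lit 76) (nat_lit 19741959450) (nat_lit 76) (nat_lit 16521303722) (nat_lit 3) (nat_lit 4) (nat_lit 4) (nat_lit 5) (nat_lit 4) (nat_lit 4) (nat_lit 315) (nat_lit 243) (nat_lit 222)))) (XT.nd (nat_lit 156) (nat_lit 0) (nat_lit 0) (XT.nd (nat_lit 78) (nat_lit 0) (nat_lit 0) (XT.lf (nat_lit 0) (nat_lit 54151639688) (nat_lit 76) (nat_lit 18327701063) (nat_lit 76) (nat_lit 15047903807) (nat_lit 3) (nat_lit 4) (nat_lit 4) (nat_lit 5) (nat_lit 4) (nat_lit 4) (nat_lit 316) (nat_lit 243) (nat_lit 221)) (XT.lf (nat_lit 0) (nat_lit 63926085305) (nat_lit 76) (nat_lit 16855074513) (nat_lit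 76) (nat_lit 13520516582) (nat_lit 3) (nat_lit 4) (nat_lit 4) (nat_lit 5) (nat_lit 4) (nat_lit 4) (nat_lit 317) (nat_lit 243) (nat_lit 220))) (XT.nd (nat_lit 78) (nat_lit 0) (nat_lit 0) (XT.lf (nat_lit 0) (nat_lit 74377031827) (nat_lit 76) (nat_lit 15315353124) (nat_lit 76) (nat_lit 11930090865) (nat_lit 3) (nat_lit 4) (nat_lit 4) (nat_lit 5) (nat_lit 4) (nat_lit 4) (nat_lit 318) (nat_lit 243) (nat_lit 219)) (XT.lf (nat_lit 0) (nat_lit 85566410791) (nat_lit 76) (nat_lit 13699412621) (nat_lit 76) (nat_lit 10267201910) (nat_lit 3) (nat_lit 4) (nat_lit 4) (nat_lit 5) (nat_lit 4) (nat_lit 4) (nat_lit 319) (nat_lit 243) (nat_lit 218))))) (XT.nd (nat_lit 312) (nat_lit 152) (nat_lit 0) (XT.nd (nat_lit 156) (nat_lit 0) (nat_lit 0) (XT.nd (nat_lit 78) (nat_lit 0) (nat_lit 0) (XT.lf (nat_lit 0) (nat_lit 97560529627) (nat_lit 76) (nat_lit 11997677060) (nat_lit 76) (nat_lit 8521995560) (nat_lit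 3) (nat_lit 4) (nat_lit 4) (nat_lit 5) (nat_lit 4) (nat_lit 4) (nat_lit 320) (nat_lit 243) (nat_lit 217)) (XT.lf (nat_lit 0) (nat_lit 110430464594) (nat_lit 76) (nat_lit 10200062082) (nat_lit 76) (nat_lit 6684129852) (nat_lit 3) (nat_lit 4) (nat_lit 4) (nat_lit 5) (nat_lit 4) (nat_lit 4) (nat_lit 321) (nat_lit 243) (nat_lit 216))) (XT.nd (nat_lit 78) (nat_lit 0) (nat_lit 0) (XT.lf (nat_lit 0) (nat_lit 124252481974) (nat_lit 76) (nat_lit 8295915155) (nat_lit 76) (nat_lit 4742713730) (nat_lit 3) (nat_lit 4) (nat_lit 4) (nat_lit 5) (nat_lit 4) (nat_lit 4) (nat_lit 322) (nat_lit 243) (nat_lit 215)) (XT.lf (nat_lit 0) (nat_lit 139108490018) (nat_lit 76) (nat_lit 6273952444) (nat_lit 76) (nat_lit 2686242505) (nat_lit 3) (nat_lit 4) (nat_lit 4) (nat_lit 5) (nat_lit 4) (nat_lit 4) (nat_lit 323) (nat_lit 243) (nat_lit 214)))) (XT.nd (nat_lit 156) (nat_lit 76) (nat_lit 0) (XT.nd (nat_lit 78) (nat_lit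 76) (nat_lit 0) (XT.lf (nat_lit 0) (nat_lit 155086524329) (nat_lit 76) (nat_lit 4122191948) (nat_lit 76) (nat_lit 502529682) (nat_lit 3) (nat_lit 4) (nat_lit 4) (nat_lit 5) (nat_lit 4) (nat_lit 4) (nat_lit 324) (nat_lit 243) (nat_lit 213)) (XT.lf (nat_lit 0) (nat_lit 1730253193) (nat_lit 152) (nat_lit 50321112) (nat_lit 76) (nat_lit 170503708174) (nat_lit 2) (nat_lit 5) (nat_lit 4) (nat_lit 5) (nat_lit 3) (nat_lit 4) (nat_lit 325) (nat_lit 243) (nat_lit 212))) (XT.nd (nat_lit 78) (nat_lit 0) (nat_lit 0) (XT.lf (nat_lit 0) (nat_lit 4226960925) (nat_lit 152) (nat_lit 180803514539) (nat_lit 0) (nat_lit 822663031) (nat_lit 1) (nat_lit 5) (nat_lit 3) (nat_lit 4) (nat_lit 1) (nat_lit 4) (nat_lit 326) (nat_lit 243) (nat_lit 211)) (XT.lf (nat_lit 0) (nat_lit 6940917135) (nat_lit 152) (nat_lit 190052067272) (nat_lit 0) (nat_lit 3513133326) (nat_lit 1) (nat_lit 5) (nat_lit 3) (nat_lit 4) (nat_lit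 1) (nat_lit 4) (nat_lit 327) (nat_lit 243) (nat_lit 210))))))) (XT.nd (nat_lit 1170) (nat_lit 0) (nat_lit 0) (XT.nd (nat_lit 546) (nat_lit 0) (nat_lit 0) (XT.nd (nat_lit 234) (nat_lit 0) (nat_lit 0) (XT.nd (nat_lit 78) (nat_lit 0) (nat_lit 0) (XT.lf (nat_lit 0) (nat_lit 9844074629) (nat_lit 152) (nat_lit 200094963821) (nat_lit 0) (nat_lit 6394544603) (nat_lit 1) (nat_lit 5) (nat_lit 3) (nat_lit 4) (nat_lit 1) (nat_lit 4) (nat_lit 328) (nat_lit 243) (nat_lit 209)) (XT.nd (nat_lit 78) (nat_lit 0) (nat_lit 0) (XT.lf (nat_lit 0) (nat_lit 12953637303) (nat_lit 152) (nat_lit 210991717647) (nat_lit 0) (nat_lit 9483971891) (nat_lit 1) (nat_lit 5) (nat_lit 3) (nat_lit 4) (nat_lit 1) (nat_lit 4) (nat_lit 329) (nat_lit 243) (nat_lit 208)) (XT.lf (nat_lit 0) (nat_lit 16288032196) (nat_lit 152) (nat_lit 222806902107) (nat_lit 0) (nat_lit 12799722908) (nat_lit 1) (nat_lit 5) (nat_lit 3) (nat_lit 4)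 (nat_lit 1) (nat_lit 4) (nat_lit 330) (nat_lit 243) (nat_lit 207)))) (XT.nd (nat_lit 156) (nat_lit 0) (nat_lit 0) (XT.nd (nat_lit 78) (nat_lit 0) (nat_lit 0) (XT.lf (nat_lit 0) (nat_lit 19867018685) (nat_lit 152) (nat_lit 235610533108) (nat_lit 0) (nat_lit 16361446548) (nat_lit 1) (nat_lit 5) (nat_lit 3) (nat_lit 4) (nat_lit 1) (nat_lit 4) (nat_lit 331) (nat_lit 243) (nat_lit 206)) (XT.lf (nat_lit 0) (nat_lit 23711805578) (nat_lit 152) (nat_lit 249478484020) (nat_lit 0) (nat_lit 20190249322) (nat_lit 1) (nat_lit 5) (nat_lit 3) (nat_lit 4) (nat_lit 1) (nat_lit 4) (nat_lit 332) (nat_lit 243) (nat_lit 205))) (XT.nd (nat_lit 78) (nat_lit 0) (nat_lit 0) (XT.lf (nat_lit 0) (nat_lit 27845176798) (nat_lit 152) (nat_lit 264492935291) (nat_lit 0) (nat_lit 24308820432) (nat_lit 1) (nat_lit 5) (nat_lit 3) (nat_lit 4) (nat_lit 1) (nat_lit 4) (nat_lit 333) (nat_lit 243) (nat_lit 204)) (XT.lf (nat_lit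 0) (nat_lit 32291626396) (nat_lit 152) (nat_lit 280742861449) (nat_lit 0) (nat_lit 28741566225) (nat_lit 1) (nat_lit 5) (nat_lit 3) (nat_lit 4) (nat_lit 1) (nat_lit 4) (nat_lit 334) (nat_lit 243) (nat_lit 203))))) (XT.nd (nat_lit 312) (nat_lit 0) (nat_lit 0) (XT.nd (nat_lit 156) (nat_lit 0) (nat_lit 0) (XT.nd (nat_lit 78) (nat_lit 0) (nat_lit 0) (XT.lf (nat_lit 0) (nat_lit 37077503704) (nat_lit 152) (nat_lit 298324558352) (nat_lit 0) (nat_lit 33514754823) (nat_lit 1) (nat_lit 5) (nat_lit 3) (nat_lit 4) (nat_lit 1) (nat_lit 4) (nat_lit 335) (nat_lit 243) (nat_lit 202)) (XT.lf (nat_lit 0) (nat_lit 42231169475) (nat_lit 152) (nat_lit 317342213833) (nat_lit 0) (nat_lit 38656671791) (nat_lit 1) (nat_lit 5) (nat_lit 3) (nat_lit 4) (nat_lit 1) (nat_lit 4) (nat_lit 336) (nat_lit 243) (nat_lit 201))) (XT.nd (nat_lit 78) (nat_lit 0) (nat_lit 0) (XT.lf (nat_lit 0) (nat_lit 47783163952) (nat_lit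 152) (nat_lit 337908525110) (nat_lit 0) (nat_lit 44197787745) (nat_lit 1) (nat_lit 5) (nat_lit 3) (nat_lit 4) (nat_lit 1) (nat_lit 4) (nat_lit 337) (nat_lit 243) (nat_lit 200)) (XT.lf (nat_lit 0) (nat_lit 53766387843) (nat_lit 152) (nat_lit 360145366620) (nat_lit 0) (nat_lit 50170938929) (nat_lit 1) (nat_lit 5) (nat_lit 3) (nat_lit 4) (nat_lit 1) (nat_lit 4) (nat_lit 338) (nat_lit 243) (nat_lit 199)))) (XT.nd (nat_lit 156) (nat_lit 0) (nat_lit 0) (XT.nd (nat_lit 78) (nat_lit 0) (nat_lit 0) (XT.lf (nat_lit 0) (nat_lit 60216297288) (nat_lit 152) (nat_lit 384184512239) (nat_lit 0) (nat_lit 56611521795) (nat_lit 1) (nat_lit 5) (nat_lit 3) (nat_lit 4) (nat_lit 1) (nat_lit 4) (nat_lit 339) (nat_lit 243) (nat_lit 198)) (XT.lf (nat_lit 0) (nat_lit 67171113975) (nat_lit 152) (nat_lit 410168416164) (nat_lit 0) (nat_lit 63557702759) (nat_lit 1) (nat_lit 5) (nat_lit 3) (nat_lit 4) (nat_lit 1) (nat_lit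 4) (nat_lit 340) (nat_lit 243) (nat_lit 197))) (XT.nd (nat_lit 78) (nat_lit 0) (nat_lit 0) (XT.lf (nat_lit 0) (nat_lit 74672051630) (nat_lit 152) (nat_lit 438251057083) (nat_lit 0) (nat_lit 71050644376) (nat_lit 1) (nat_lit 5) (nat_lit 3) (nat_lit 4) (nat_lit 1) (nat_lit 4) (nat_lit 341) (nat_lit 243) (nat_lit 196)) (XT.lf (nat_lit 0) (nat_lit 82763560256) (nat_lit 152) (nat_lit 468598850647) (nat_lit 0) (nat_lit 79134749261) (nat_lit 1) (nat_lit 5) (nat_lit 3) (nat_lit 4) (nat_lit 1) (nat_lit 4) (nat_lit 342) (nat_lit 243) (nat_lit 195)))))) (XT.nd (nat_lit 624) (nat_lit 0) (nat_lit 0) (XT.nd (nat_lit 312) (nat_lit 0) (nat_lit 0) (XT.nd (nat_lit 156) (nat_lit 0) (nat_lit 0) (XT.nd (nat_lit 78) (nat_lit 0) (nat_lit 0) (XT.lf (nat_lit 0) (nat_lit 91493589532) (nat_lit 152) (nat_lit 501391635633) (nat_lit 0) (nat_lit 87857923223) (nat_lit 1) (nat_lit 5) (nat_lit 3) (nat_lit 4) (nat_lit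 1) (nat_lit 4) (nat_lit 343) (nat_lit 243) (nat_lit 194)) (XT.lf (nat_lit 0) (nat_lit 100913872966) (nat_lit 152) (nat_lit 536823739655) (nat_lit 0) (nat_lit 97271859144) (nat_lit 1) (nat_lit 5) (nat_lit 3) (nat_lit 4) (nat_lit 1) (nat_lit 4) (nat_lit 344) (nat_lit 243) (nat_lit 193))) (XT.nd (nat_lit 78) (nat_lit 0) (nat_lit 0) (XT.lf (nat_lit 0) (nat_lit 111080234459) (nat_lit 152) (nat_lit 575105130738) (nat_lit 0) (nat_lit 107432343310) (nat_lit 1) (nat_lit 5) (nat_lit 3) (nat_lit 4) (nat_lit 1) (nat_lit 4) (nat_lit 345) (nat_lit 243) (nat_lit 192)) (XT.lf (nat_lit 0) (nat_lit 122052919117) (nat_lit 152) (nat_lit 616462661568) (nat_lit 0) (nat_lit 118399585998) (nat_lit 1) (nat_lit 5) (nat_lit 3) (nat_lit 4) (nat_lit 1) (nat_lit 4) (nat_lit 346) (nat_lit 243) (nat_lit 191)))) (XT.nd (nat_lit 156) (nat_lit 0) (nat_lit 0) (XT.nd (nat_lit 78) (nat_lit 0) (nat_lit 0) (XT.lf (nat_lit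 0) (nat_lit 133896950257) (nat_lit 152) (nat_lit 661141413811) (nat_lit 0) (nat_lit 130238578276) (nat_lit 1) (nat_lit 5) (nat_lit 3) (nat_lit 4) (nat_lit 1) (nat_lit 4) (nat_lit 347) (nat_lit 243) (nat_lit 190)) (XT.lf (nat_lit 0) (nat_lit 146682514728) (nat_lit 152) (nat_lit 709406150442) (nat_lit 0) (nat_lit 143019477136) (nat_lit 1) (nat_lit 5) (nat_lit 3) (nat_lit 4) (nat_lit 1) (nat_lit 4) (nat_lit 348) (nat_lit 243) (nat_lit 189))) (XT.nd (nat_lit 78) (nat_lit 0) (nat_lit 0) (XT.lf (nat_lit 0) (nat_lit 160485378840) (nat_lit 152) (nat_lit 761542884716) (nat_lit 0) (nat_lit 156818021237) (nat_lit 1) (nat_lit 5) (nat_lit 3) (nat_lit 4) (nat_lit 1) (nat_lit 4) (nat_lit 349) (nat_lit 243) (nat_lit 188)) (XT.lf (nat_lit 0) (nat_lit 175387337342) (nat_lit 152) (nat_lit 817860575058) (nat_lit 0) (nat_lit 171715979729) (nat_lit 1) (nat_lit 5) (nat_lit 3) (nat_lit 4) (nat_lit 1) (nat_lit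 4) (nat_lit 350) (nat_lit 243) (nat_lit 187))))) (XT.nd (nat_lit 312) (nat_lit 0) (nat_lit 0) (XT.nd (nat_lit 156) (nat_lit 0) (nat_lit 0) (XT.nd (nat_lit 78) (nat_lit 0) (nat_lit 0) (XT.lf (nat_lit 0) (nat_lit 191476698137) (nat_lit 152) (nat_lit 878692955929) (nat_lit 0) (nat_lit 187801636811) (nat_lit 1) (nat_lit 5) (nat_lit 3) (nat_lit 4) (nat_lit 1) (nat_lit 4) (nat_lit 351) (nat_lit 243) (nat_lit 186)) (XT.lf (nat_lit 0) (nat_lit 208848805586) (nat_lit 152) (nat_lit 944400515512) (nat_lit 0) (nat_lit 205170314895) (nat_lit 1) (nat_lit 5) (nat_lit 3) (nat_lit 4) (nat_lit 1) (nat_lit 4) (nat_lit 352) (nat_lit 243) (nat_lit 185))) (XT.nd (nat_lit 78) (nat_lit 0) (nat_lit 0) (XT.lf (nat_lit 0) (nat_lit 227606605509) (nat_lit 152) (nat_lit 1015372631938) (nat_lit 0) (nat_lit 223924939481) (nat_lit 1) (nat_lit 5) (nat_lit 3) (nat_lit 4) (nat_lit 1) (nat_lit 4) (nat_lit 353) (nat_lit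 243) (nat_lit 184)) (XT.lf (nat_lit 0) (nat_lit 247861255240) (nat_lit 152) (nat_lit 1092029880712) (nat_lit 0) (nat_lit 244176649085) (nat_lit 1) (nat_lit 5) (nat_lit 3) (nat_lit 4) (nat_lit 1) (nat_lit 4) (nat_lit 354) (nat_lit 243) (nat_lit 183)))) (XT.nd (nat_lit 156) (nat_lit 0) (nat_lit 0) (XT.nd (nat_lit 78) (nat_lit 0) (nat_lit 0) (XT.lf (nat_lit 0) (nat_lit 269732782333) (nat_lit 152) (nat_lit 1174826527012) (nat_lit 0) (nat_lit 266045453839) (nat_lit 1) (nat_lit 5) (nat_lit 3) (nat_lit 4) (nat_lit 1) (nat_lit 4) (nat_lit 355) (nat_lit 243) (nat_lit 182)) (XT.lf (nat_lit 0) (nat_lit 293350795837) (nat_lit 152) (nat_lit 1264253217630) (nat_lit 0) (nat_lit 289660946658) (nat_lit 1) (nat_lit 5) (nat_lit 3) (nat_lit 4) (nat_lit 1) (nat_lit 4) (nat_lit 356) (nat_lit 243) (nat_lit 181))) (XT.nd (nat_lit 78) (nat_lit 0) (nat_lit 0) (XT.lf (nat_lit 0) (nat_lit 318855254351) (nat_lit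 152) (nat_lit 1360839888512) (nat_lit 0) (nat_lit 315163071204) (nat_lit 1) (nat_lit 5) (nat_lit 3) (nat_lit 4) (nat_lit 1) (nat_lit 4) (nat_lit 357) (nat_lit 243) (nat_lit 180)) (XT.lf (nat_lit 0) (nat_lit 346397295407) (nat_lit 152) (nat_lit 1465158905113) (nat_lit 0) (nat_lit 342702951179) (nat_lit 1) (nat_lit 5) (nat_lit 3) (nat_lit 4) (nat_lit 1) (nat_lit 4) (nat_lit 358) (nat_lit 243) (nat_lit 179))))))))
noncomputable def xc25 : XT := (XT.nd (nat_lit 36816) (nat_lit 0) (nat_lit 0) (XT.nd (nat_lit 35646) (nat_lit 0) (nat_lit 228) (XT.nd (nat_lit 546) (nat_lit 0) (nat_lit 0) (XT.nd (nat_lit 234) (nat_lit 0) (nat_lit 0) (XT.nd (nat_lit 78) (nat_lit 0) (nat_lit 0) (XT.lf (nat_lit 0) (nat_lit 376140131100) (nat_lit 152) (nat_lit 1577828454199) (nat_lit 0) (nat_lit 372443785871) (nat_lit 1) (nat_lit 5) (nat_lit 3) (nat_lit 4) (nat_lit 1) (nat_lit 4) (nat_lit 359) (nat_lit 243) (nat_lit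 178)) (XT.nd (nat_lit 78) (nat_lit 0) (nat_lit 0) (XT.lf (nat_lit 0) (nat_lit 408260015271) (nat_lit 152) (nat_lit 1699516207173) (nat_lit 0) (nat_lit 404561817263) (nat_lit 1) (nat_lit 5) (nat_lit 3) (nat_lit 4) (nat_lit 1) (nat_lit 4) (nat_lit 360) (nat_lit 243) (nat_lit 177)) (XT.lf (nat_lit 0) (nat_lit 442947287974) (nat_lit 152) (nat_lit 1830943276644) (nat_lit 0) (nat_lit 439247374431) (nat_lit 1) (nat_lit 5) (nat_lit 3) (nat_lit 4) (nat_lit 1) (nat_lit 4) (nat_lit 361) (nat_lit 243) (nat_lit 176)))) (XT.nd (nat_lit 156) (nat_lit 0) (nat_lit 0) (XT.nd (nat_lit 78) (nat_lit 0) (nat_lit 0) (XT.lf (nat_lit 0) (nat_lit 480407503418) (nat_lit 152) (nat_lit 1972888489690) (nat_lit 0) (nat_lit 476706001416) (nat_lit 1) (nat_lit 5) (nat_lit 3) (nat_lit 4) (nat_lit 1) (nat_lit 4) (nat_lit 362) (nat_lit 243) (nat_lit 175)) (XT.lf (nat_lit 0) (nat_lit 520862648065) (nat_lit 152) (nat_lit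 2126193003131) (nat_lit 0) (nat_lit 517159675267) (nat_lit 1) (nat_lit 5) (nat_lit 3) (nat_lit 4) (nat_lit 1) (nat_lit 4) (nat_lit 363) (nat_lit 243) (nat_lit 174))) (XT.nd (nat_lit 78) (nat_lit 0) (nat_lit 0) (XT.lf (nat_lit 0) (nat_lit 564552456106) (nat_lit 152) (nat_lit 2291765288155) (nat_lit 0) (nat_lit 560848121460) (nat_lit 1) (nat_lit 5) (nat_lit 3) (nat_lit 4) (nat_lit 1) (nat_lit 4) (nat_lit 364) (nat_lit 243) (nat_lit 173)) (XT.lf (nat_lit 0) (nat_lit 611735830106) (nat_lit 152) (nat_lit 2470586513861) (nat_lit 0) (nat_lit 608030234490) (nat_lit 1) (nat_lit 5) (nat_lit 3) (nat_lit 4) (nat_lit 1) (nat_lit 4) (nat_lit 365) (nat_lit 243) (nat_lit 172))))) (XT.nd (nat_lit 312) (nat_lit 0) (nat_lit 0) (XT.nd (nat_lit 156) (nat_lit 0) (nat_lit 0) (XT.nd (nat_lit 78) (nat_lit 0) (nat_lit 0) (XT.lf (nat_lit 0) (nat_lit 662692375245) (nat_lit 152) (nat_lit 2663716361585) (nat_lit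 0) (nat_lit 658985612064) (nat_lit 1) (nat_lit 5) (nat_lit 3) (nat_lit 4) (nat_lit 1) (nat_lit 4) (nat_lit 366) (nat_lit 243) (nat_lit 171)) (XT.lf (nat_lit 0) (nat_lit 717724056235) (nat_lit 152) (nat_lit 2872299304500) (nat_lit 0) (nat_lit 714016211975) (nat_lit 1) (nat_lit 5) (nat_lit 3) (nat_lit 4) (nat_lit 1) (nat_lit 4) (nat_lit 367) (nat_lit 243) (nat_lit 170))) (XT.nd (nat_lit 78) (nat_lit 0) (nat_lit 0) (XT.lf (nat_lit 0) (nat_lit 777156986740) (nat_lit 152) (nat_lit 3097571389673) (nat_lit 0) (nat_lit 773448141482) (nat_lit 1) (nat_lit 5) (nat_lit 3) (nat_lit 4) (nat_lit 1) (nat_lit 4) (nat_lit 368) (nat_lit 243) (nat_lit 169)) (XT.lf (nat_lit 0) (nat_lit 841343361905) (nat_lit 152) (nat_lit 3340867562796) (nat_lit 0) (nat_lit 837633589797) (nat_lit 1) (nat_lit 5) (nat_lit 3) (nat_lit 4) (nat_lit 1) (nat_lit 4) (nat_lit 369) (nat_lit 243) (nat_lit 168)))) (XT.nd (nat_lit 34632)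 (nat_lit 0) (nat_lit 608) (XT.nd (nat_lit 34554) (nat_lit 0) (nat_lit 684) (XT.lf (nat_lit 0) (nat_lit 910663545435) (nat_lit 152) (nat_lit 3603629578967) (nat_lit 0) (nat_lit 906952915131) (nat_lit 1) (nat_lit 5) (nat_lit 3) (nat_lit 4) (nat_lit 1) (nat_lit 4) (nat_lit 370) (nat_lit 243) (nat_lit 167)) (XT.lf (nat_lit 0) (nat_lit 1677389422) (nat_lit 152) (nat_lit 5285719495) (nat_lit 0) (nat_lit 1677389422) (nat_lit 10) (nat_lit 5) (nat_lit 12) (nat_lit 4) (nat_lit 10) (nat_lit 4) (nat_lit 292) (nat_lit 244) (nat_lit 244))) (XT.nd (nat_lit 78) (nat_lit 76) (nat_lit 0) (XT.lf (nat_lit 0) (nat_lit 7973406348) (nat_lit 152) (nat_lit 2706511548) (nat_lit 0) (nat_lit 7598379227) (nat_lit 10) (nat_lit 5) (nat_lit 12) (nat_lit 4) (nat_lit 10) (nat_lit 4) (nat_lit 293) (nat_lit 244) (nat_lit 243)) (XT.lf (nat_lit 0) (nat_lit 5645300709) (nat_lit 76) (nat_lit 7220137101) (nat_lit 76) (nat_lit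 6497862647) (nat_lit 9) (nat_lit 4) (nat_lit 10) (nat_lit 5) (nat_lit 10) (nat_lit 4) (nat_lit 294) (nat_lit 244) (nat_lit 242)))))) (XT.nd (nat_lit 546) (nat_lit 152) (nat_lit 0) (XT.nd (nat_lit 234) (nat_lit 76) (nat_lit 0) (XT.nd (nat_lit 78) (nat_lit 152) (nat_lit 0) (XT.lf (nat_lit 0) (nat_lit 14405221628) (nat_lit 76) (nat_lit 3592973932) (nat_lit 76) (nat_lit 2549174169) (nat_lit 9) (nat_lit 4) (nat_lit 10) (nat_lit 5) (nat_lit 10) (nat_lit 4) (nat_lit 295) (nat_lit 244) (nat_lit 241)) (XT.nd (nat_lit 78) (nat_lit 0) (nat_lit 0) (XT.lf (nat_lit 0) (nat_lit 1462181981) (nat_lit 152) (nat_lit 20154214910) (nat_lit 0) (nat_lit 220044590) (nat_lit 7) (nat_lit 5) (nat_lit 9) (nat_lit 4) (nat_lit 7) (nat_lit 4) (nat_lit 296) (nat_lit 244) (nat_lit 240)) (XT.lf (nat_lit 0) (nat_lit 5711054073) (nat_lit 152) (nat_lit 13294432558) (nat_lit 0) (nat_lit 4213679526) (nat_lit 7) (nat_lit 5)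 (nat_lit 9) (nat_lit 4) (nat_lit 7) (nat_lit 4) (nat_lit 297) (nat_lit 244) (nat_lit 239)))) (XT.nd (nat_lit 156) (nat_lit 0) (nat_lit 0) (XT.nd (nat_lit 78) (nat_lit 76) (nat_lit 0) (XT.lf (nat_lit 0) (nat_lit 10104193201) (nat_lit 152) (nat_lit 6253636938) (nat_lit 0) (nat_lit 8370487954) (nat_lit 7) (nat_lit 5) (nat_lit 9) (nat_lit 4) (nat_lit 7) (nat_lit 4) (nat_lit 298) (nat_lit 244) (nat_lit 238)) (XT.lf (nat_lit 0) (nat_lit 1063074473) (nat_lit 76) (nat_lit 13630125274) (nat_lit 76) (nat_lit 11677595304) (nat_lit 6) (nat_lit 4) (nat_lit 7) (nat_lit 5) (nat_lit 7) (nat_lit 4) (nat_lit 299) (nat_lit 244) (nat_lit 237))) (XT.nd (nat_lit 78) (nat_lit 0) (nat_lit 0) (XT.lf (nat_lit 0) (nat_lit 8988866463) (nat_lit 76) (nat_lit 10655731408) (nat_lit 76) (nat_lit 8500585954) (nat_lit 6) (nat_lit 4) (nat_lit 7) (nat_lit 5) (nat_lit 7) (nat_lit 4) (nat_lit 300) (nat_lit 244) (nat_lit 236))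 (XT.lf (nat_lit 0) (nat_lit 17241401250) (nat_lit 76) (nat_lit 7588008020) (nat_lit 76) (nat_lit 5245255637) (nat_lit 6) (nat_lit 4) (nat_lit 7) (nat_lit 5) (nat_lit 7) (nat_lit 4) (nat_lit 301) (nat_lit 244) (nat_lit 235))))) (XT.nd (nat_lit 312) (nat_lit 0) (nat_lit 0) (XT.nd (nat_lit 156) (nat_lit 0) (nat_lit 0) (XT.nd (nat_lit 78) (nat_lit 152) (nat_lit 0) (XT.lf (nat_lit 0) (nat_lit 25869582743) (nat_lit 76) (nat_lit 4408776009) (nat_lit 76) (nat_lit 1892313505) (nat_lit 6) (nat_lit 4) (nat_lit 7) (nat_lit 5) (nat_lit 7) (nat_lit 4) (nat_lit 302) (nat_lit 244) (nat_lit 234)) (XT.lf (nat_lit 0) (nat_lit 464180875) (nat_lit 76) (nat_lit 1046148971) (nat_lit 152) (nat_lit 32931367443) (nat_lit 4) (nat_lit 5) (nat_lit 5) (nat_lit 5) (nat_lit 6) (nat_lit 4) (nat_lit 303) (nat_lit 244) (nat_lit 233))) (XT.nd (nat_lit 78) (nat_lit 0) (nat_lit 0) (XT.lf (nat_lit 0) (nat_lit 5179916228)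 (nat_lit 152) (nat_lit 29139857648) (nat_lit 0) (nat_lit 2563033231) (nat_lit 4) (nat_lit 5) (nat_lit 6) (nat_lit 4) (nat_lit 4) (nat_lit 4) (nat_lit 304) (nat_lit 244) (nat_lit 232)) (XT.lf (nat_lit 0) (nat_lit 9038785507) (nat_lit 152) (nat_lit 24194627827) (nat_lit 0) (nat_lit 6294220386) (nat_lit 4) (nat_lit 5) (nat_lit 6) (nat_lit 4) (nat_lit 4) (nat_lit 4) (nat_lit 305) (nat_lit 244) (nat_lit 231)))) (XT.nd (nat_lit 156) (nat_lit 0) (nat_lit 0) (XT.nd (nat_lit 78) (nat_lit 0) (nat_lit 0) (XT.lf (nat_lit 0) (nat_lit 13084645149) (nat_lit 152) (nat_lit 19087361979) (nat_lit 0) (nat_lit 10221855840) (nat_lit 4) (nat_lit 5) (nat_lit 6) (nat_lit 4) (nat_lit 4) (nat_lit 4) (nat_lit 306) (nat_lit 244) (nat_lit 230)) (XT.lf (nat_lit 0) (nat_lit 17341470619) (nat_lit 152) (nat_lit 13787794826) (nat_lit 0) (nat_lit 14369214468) (nat_lit 4) (nat_lit 5) (nat_lit 6) (nat_lit 4) (nat_lit 4)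 (nat_lit 4) (nat_lit 307) (nat_lit 244) (nat_lit 229))) (XT.nd (nat_lit 78) (nat_lit 0) (nat_lit 0) (XT.lf (nat_lit 0) (nat_lit 21834487550) (nat_lit 152) (nat_lit 8264521525) (nat_lit 0) (nat_lit 18760873212) (nat_lit 4) (nat_lit 5) (nat_lit 6) (nat_lit 4) (nat_lit 4) (nat_lit 4) (nat_lit 308) (nat_lit 244) (nat_lit 228)) (XT.lf (nat_lit 0) (nat_lit 26590321227) (nat_lit 152) (nat_lit 2484811567) (nat_lit 0) (nat_lit 23422856716) (nat_lit 4) (nat_lit 5) (nat_lit 6) (nat_lit 4) (nat_lit 4) (nat_lit 4) (nat_lit 309) (nat_lit 244) (nat_lit 227))))))) (XT.nd (nat_lit 1170) (nat_lit 152) (nat_lit 0) (XT.nd (nat_lit 546) (nat_lit 0) (nat_lit 0) (XT.nd (nat_lit 234) (nat_lit 0) (nat_lit 0) (XT.nd (nat_lit 78) (nat_lit 0) (nat_lit 0) (XT.lf (nat_lit 0) (nat_lit 3774395741) (nat_lit 76) (nat_lit 27953532934) (nat_lit 76) (nat_lit 24699170116) (nat_lit 3) (nat_lit 4) (nat_lit 4) (nat_lit 5) (nat_lit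 4) (nat_lit 4) (nat_lit 310) (nat_lit 244) (nat_lit 226)) (XT.nd (nat_lit 78) (nat_lit 0) (nat_lit 0) (XT.lf (nat_lit 0) (nat_lit 10508309645) (nat_lit 76) (nat_lit 26749309585) (nat_lit 76) (nat_lit 23414485371) (nat_lit 3) (nat_lit 4) (nat_lit 4) (nat_lit 5) (nat_lit 4) (nat_lit 4) (nat_lit 311) (nat_lit 244) (nat_lit 225)) (XT.lf (nat_lit 0) (nat_lit 17625989047) (nat_lit 76) (nat_lit 25523265760) (nat_lit 76) (nat_lit 22113940252) (nat_lit 3) (nat_lit 4) (nat_lit 4) (nat_lit 5) (nat_lit 4) (nat_lit 4) (nat_lit 312) (nat_lit 244) (nat_lit 224)))) (XT.nd (nat_lit 156) (nat_lit 0) (nat_lit 0) (XT.nd (nat_lit 78) (nat_lit 0) (nat_lit 0) (XT.lf (nat_lit 0) (nat_lit 25169612786) (nat_lit 76) (nat_lit 24268136014) (nat_lit 76) (nat_lit 20789827828) (nat_lit 3) (nat_lit 4) (nat_lit 4) (nat_lit 5) (nat_lit 4) (nat_lit 4) (nat_lit 313) (nat_lit 244) (nat_lit 223)) (XT.lf (nat_lit 0) (nat_lit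 33183883819) (nat_lit 76) (nat_lit 22976482541) (nat_lit 76) (nat_lit 19434301504) (nat_lit 3) (nat_lit 4) (nat_lit 4) (nat_lit 5) (nat_lit 4) (nat_lit 4) (nat_lit 314) (nat_lit 244) (nat_lit 222))) (XT.nd (nat_lit 78) (nat_lit 0) (nat_lit 0) (XT.lf (nat_lit 0) (nat_lit 41716294122) (nat_lit 76) (nat_lit 21640651099) (nat_lit 76) (nat_lit 18039328533) (nat_lit 3) (nat_lit 4) (nat_lit 4) (nat_lit 5) (nat_lit 4) (nat_lit 4) (nat_lit 315) (nat_lit 244) (nat_lit 221)) (XT.lf (nat_lit 0) (nat_lit 50817406126) (nat_lit 76) (nat_lit 20252725648) (nat_lit 76) (nat_lit 16596642409) (nat_lit 3) (nat_lit 4) (nat_lit 4) (nat_lit 5) (nat_lit 4) (nat_lit 4) (nat_lit 316) (nat_lit 244) (nat_lit 220))))) (XT.nd (nat_lit 312) (nat_lit 0) (nat_lit 0) (XT.nd (nat_lit 156) (nat_lit 0) (nat_lit 0) (XT.nd (nat_lit 78) (nat_lit 0) (nat_lit 0) (XT.lf (nat_lit 0) (nat_lit 60541152347) (nat_lit 76) (nat_lit 18804481447)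 (nat_lit 76) (nat_lit 15097693879) (nat_lit 3) (nat_lit 4) (nat_lit 4) (nat_lit 5) (nat_lit 4) (nat_lit 4) (nat_lit 317) (nat_lit 244) (nat_lit 219)) (XT.lf (nat_lit 0) (nat_lit 70945154985) (nat_lit 76) (nat_lit 17287336306) (nat_lit 76) (nat_lit 13533600287) (nat_lit 3) (nat_lit 4) (nat_lit 4) (nat_lit 5) (nat_lit 4) (nat_lit 4) (nat_lit 318) (nat_lit 244) (nat_lit 218))) (XT.nd (nat_lit 78) (nat_lit 0) (nat_lit 0) (XT.lf (nat_lit 0) (nat_lit 82091067388) (nat_lit 76) (nat_lit 15692299737) (nat_lit 76) (nat_lit 11895092929) (nat_lit 3) (nat_lit 4) (nat_lit 4) (nat_lit 5) (nat_lit 4) (nat_lit 4) (nat_lit 319) (nat_lit 244) (nat_lit 217)) (XT.lf (nat_lit 0) (nat_lit 94044939409) (nat_lit 76) (nat_lit 14009919671) (nat_lit 76) (nat_lit 10172462132) (nat_lit 3) (nat_lit 4) (nat_lit 4) (nat_lit 5) (nat_lit 4) (nat_lit 4) (nat_lit 320) (nat_lit 244) (nat_lit 216)))) (XT.nd (nat_lit 156)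 (nat_lit 0) (nat_lit 0) (XT.nd (nat_lit 78) (nat_lit 0) (nat_lit 0) (XT.lf (nat_lit 0) (nat_lit 106877608807) (nat_lit 76) (nat_lit 12230226447) (nat_lit 76) (nat_lit 8355499713) (nat_lit 3) (nat_lit 4) (nat_lit 4) (nat_lit 5) (nat_lit 4) (nat_lit 4) (nat_lit 321) (nat_lit 244) (nat_lit 215)) (XT.lf (nat_lit 0) (nat_lit 120665121030) (nat_lit 76) (nat_lit 10342673736) (nat_lit 76) (nat_lit 6433438489) (nat_lit 3) (nat_lit 4) (nat_lit 4) (nat_lit 5) (nat_lit 4) (nat_lit 4) (nat_lit 322) (nat_lit 244) (nat_lit 214))) (XT.nd (nat_lit 78) (nat_lit 0) (nat_lit 0) (XT.lf (nat_lit 0) (nat_lit 135489179854) (nat_lit 76) (nat_lit 8336076041) (nat_lit 76) (nat_lit 4394888465) (nat_lit 3) (nat_lit 4) (nat_lit 4) (nat_lit 5) (nat_lit 4) (nat_lit 4) (nat_lit 323) (nat_lit 244) (nat_lit 213)) (XT.lf (nat_lit 0) (nat_lit 151437631555) (nat_lit 76) (nat_lit 6198542411) (nat_lit 76) (nat_lit 2227769347)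 (nat_lit 3) (nat_lit 4) (nat_lit 4) (nat_lit 5) (nat_lit 4) (nat_lit 4) (nat_lit 324) (nat_lit 244) (nat_lit 212)))))) (XT.nd (nat_lit 624) (nat_lit 0) (nat_lit 0) (XT.nd (nat_lit 312) (nat_lit 0) (nat_lit 0) (XT.nd (nat_lit 156) (nat_lit 0) (nat_lit 0) (XT.nd (nat_lit 78) (nat_lit 76) (nat_lit 0) (XT.lf (nat_lit 0) (nat_lit 76721057) (nat_lit 152) (nat_lit 3838587234) (nat_lit 76) (nat_lit 168526166728) (nat_lit 2) (nat_lit 5) (nat_lit 4) (nat_lit 5) (nat_lit 3) (nat_lit 4) (nat_lit 325) (nat_lit 244) (nat_lit 211)) (XT.lf (nat_lit 0) (nat_lit 1056912586) (nat_lit 76) (nat_lit 1385608763) (nat_lit 152) (nat_lit 183578289824) (nat_lit 1) (nat_lit 5) (nat_lit 2) (nat_lit 5) (nat_lit 3) (nat_lit 4) (nat_lit 326) (nat_lit 244) (nat_lit 210))) (XT.nd (nat_lit 78) (nat_lit 0) (nat_lit 0) (XT.lf (nat_lit 0) (nat_lit 5109732860) (nat_lit 152) (nat_lit 194205309895) (nat_lit 0) (nat_lit 1362494215)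 (nat_lit 1) (nat_lit 5) (nat_lit 3) (nat_lit 4) (nat_lit 1) (nat_lit 4) (nat_lit 327) (nat_lit 244) (nat_lit 209)) (XT.lf (nat_lit 0) (nat_lit 8000463710) (nat_lit 152) (nat_lit 204272449499) (nat_lit 0) (nat_lit 4233089679) (nat_lit 1) (nat_lit 5) (nat_lit 3) (nat_lit 4) (nat_lit 1) (nat_lit 4) (nat_lit 328) (nat_lit 244) (nat_lit 208)))) (XT.nd (nat_lit 156) (nat_lit 0) (nat_lit 0) (XT.nd (nat_lit 78) (nat_lit 0) (nat_lit 0) (XT.lf (nat_lit 0) (nat_lit 11098520233) (nat_lit 152) (nat_lit 215191650598) (nat_lit 0) (nat_lit 7312502325) (nat_lit 1) (nat_lit 5) (nat_lit 3) (nat_lit 4) (nat_lit 1) (nat_lit 4) (nat_lit 329) (nat_lit 244) (nat_lit 207)) (XT.lf (nat_lit 0) (nat_lit 14422261282) (nat_lit 152) (nat_lit 227027619569) (nat_lit 0) (nat_lit 10618980526) (nat_lit 1) (nat_lit 5) (nat_lit 3) (nat_lit 4) (nat_lit 1) (nat_lit 4) (nat_lit 330) (nat_lit 244) (nat_lit 206))) (XT.nd (nat_lit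 78) (nat_lit 0) (nat_lit 0) (XT.lf (nat_lit 0) (nat_lit 17991383100) (nat_lit 152) (nat_lit 239850495489) (nat_lit 0) (nat_lit 14172118225) (nat_lit 1) (nat_lit 5) (nat_lit 3) (nat_lit 4) (nat_lit 1) (nat_lit 4) (nat_lit 331) (nat_lit 244) (nat_lit 205)) (XT.lf (nat_lit 0) (nat_lit 21827036039) (nat_lit 152) (nat_lit 253736265769) (nat_lit 0) (nat_lit 17992971054) (nat_lit 1) (nat_lit 5) (nat_lit 3) (nat_lit 4) (nat_lit 1) (nat_lit 4) (nat_lit 332) (nat_lit 244) (nat_lit 204))))) (XT.nd (nat_lit 312) (nat_lit 0) (nat_lit 0) (XT.nd (nat_lit 156) (nat_lit 0) (nat_lit 0) (XT.nd (nat_lit 78) (nat_lit 0) (nat_lit 0) (XT.lf (nat_lit 0) (nat_lit 25951949894) (nat_lit 152) (nat_lit 268767216456) (nat_lit 0) (nat_lit 22104181103) (nat_lit 1) (nat_lit 5) (nat_lit 3) (nat_lit 4) (nat_lit 1) (nat_lit 4) (nat_lit 333) (nat_lit 244) (nat_lit 203)) (XT.lf (nat_lit 0) (nat_lit 30390568599) (nat_lit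 152) (nat_lit 285032419851) (nat_lit 0) (nat_lit 26530111099) (nat_lit 1) (nat_lit 5) (nat_lit 3) (nat_lit 4) (nat_lit 1) (nat_lit 4) (nat_lit 334) (nat_lit 244) (nat_lit 202))) (XT.nd (nat_lit 78) (nat_lit 0) (nat_lit 0) (XT.lf (nat_lit 0) (nat_lit 35169195079) (nat_lit 152) (nat_lit 302628262343) (nat_lit 0) (nat_lit 31296988775) (nat_lit 1) (nat_lit 5) (nat_lit 3) (nat_lit 4) (nat_lit 1) (nat_lit 4) (nat_lit 335) (nat_lit 244) (nat_lit 201)) (XT.lf (nat_lit 0) (nat_lit 40316147122) (nat_lit 152) (nat_lit 321659015592) (nat_lit 0) (nat_lit 36433062295) (nat_lit 1) (nat_lit 5) (nat_lit 3) (nat_lit 4) (nat_lit 1) (nat_lit 4) (nat_lit 336) (nat_lit 244) (nat_lit 200)))) (XT.nd (nat_lit 156) (nat_lit 0) (nat_lit 0) (XT.nd (nat_lit 78) (nat_lit 0) (nat_lit 0) (XT.lf (nat_lit 0) (nat_lit 45861925183) (nat_lit 152) (nat_lit 342237454432) (nat_lit 0) (nat_lit 41968767650) (nat_lit 1) (nat_lit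 5) (nat_lit 3) (nat_lit 4) (nat_lit 1) (nat_lit 4) (nat_lit 337) (nat_lit 244) (nat_lit 199)) (XT.lf (nat_lit 0) (nat_lit 51839393133) (nat_lit 152) (nat_lit 364485525168) (nat_lit 0) (nat_lit 47936909021) (nat_lit 1) (nat_lit 5) (nat_lit 3) (nat_lit 4) (nat_lit 1) (nat_lit 4) (nat_lit 338) (nat_lit 244) (nat_lit 198))) (XT.nd (nat_lit 78) (nat_lit 0) (nat_lit 0) (XT.lf (nat_lit 0) (nat_lit 58283973004) (nat_lit 152) (nat_lit 388535068217) (nat_lit 0) (nat_lit 54372853170) (nat_lit 1) (nat_lit 5) (nat_lit 3) (nat_lit 4) (nat_lit 1) (nat_lit 4) (nat_lit 339) (nat_lit 244) (nat_lit 197)) (XT.lf (nat_lit 0) (nat_lit 65233854899) (nat_lit 152) (nat_lit 414528599392) (nat_lit 0) (nat_lit 61314739026) (nat_lit 1) (nat_lit 5) (nat_lit 3) (nat_lit 4) (nat_lit 1) (nat_lit 4) (nat_lit 340) (nat_lit 244) (nat_lit 196))))))))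
noncomputable def xc26 : XT := (XT.nd (nat_lit 36660) (nat_lit 0) (nat_lit 152) (XT.nd (nat_lit 1170) (nat_lit 0) (nat_lit 0) (XT.nd (nat_lit 546) (nat_lit 0) (nat_lit 0) (XT.nd (nat_lit 234) (nat_lit 0) (nat_lit 0) (XT.nd (nat_lit 78) (nat_lit 0) (nat_lit 0) (XT.lf (nat_lit 0) (nat_lit 72730223304) (nat_lit 152) (nat_lit 442620154432) (nat_lit 0) (nat_lit 68803703690) (nat_lit 1) (nat_lit 5) (nat_lit 3) (nat_lit 4) (nat_lit 1) (nat_lit 4) (nat_lit 341) (nat_lit 244) (nat_lit 195)) (XT.nd (nat_lit 78) (nat_lit 0) (nat_lit 0) (XT.lf (nat_lit 0) (nat_lit 80817501141) (nat_lit 152) (nat_lit 472976201812) (nat_lit 0) (nat_lit 76884126213) (nat_lit 1) (nat_lit 5) (nat_lit 3) (nat_lit 4) (nat_lit 1) (nat_lit 4) (nat_lit 342) (nat_lit 244) (nat_lit 194)) (XT.lf (nat_lit 0) (nat_lit 89543613021) (nat_lit 152) (nat_lit 505776629220) (nat_lit 0) (nat_lit 85603890579) (nat_lit 1) (nat_lit 5) (nat_lit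 3) (nat_lit 4) (nat_lit 1) (nat_lit 4) (nat_lit 343) (nat_lit 244) (nat_lit 193)))) (XT.nd (nat_lit 156) (nat_lit 0) (nat_lit 0) (XT.nd (nat_lit 78) (nat_lit 0) (nat_lit 0) (XT.lf (nat_lit 0) (nat_lit 98960269236) (nat_lit 152) (nat_lit 541215809559) (nat_lit 0) (nat_lit 95014669467) (nat_lit 1) (nat_lit 5) (nat_lit 3) (nat_lit 4) (nat_lit 1) (nat_lit 4) (nat_lit 344) (nat_lit 244) (nat_lit 192)) (XT.lf (nat_lit 0) (nat_lit 109123272194) (nat_lit 152) (nat_lit 579503752786) (nat_lit 0) (nat_lit 105172230455) (nat_lit 1) (nat_lit 5) (nat_lit 3) (nat_lit 4) (nat_lit 1) (nat_lit 4) (nat_lit 345) (nat_lit 244) (nat_lit 191))) (XT.nd (nat_lit 78) (nat_lit 0) (nat_lit 0) (XT.lf (nat_lit 0) (nat_lit 120092847096) (nat_lit 152) (nat_lit 620867350417) (nat_lit 0) (nat_lit 116136766496) (nat_lit 1) (nat_lit 5) (nat_lit 3) (nat_lit 4) (nat_lit 1) (nat_lit 4) (nat_lit 346) (nat_lit 244) (nat_lit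 190)) (XT.lf (nat_lit 0) (nat_lit 131933998832) (nat_lit 152) (nat_lit 665551720068) (nat_lit 0) (nat_lit 127973252620) (nat_lit 1) (nat_lit 5) (nat_lit 3) (nat_lit 4) (nat_lit 1) (nat_lit 4) (nat_lit 347) (nat_lit 244) (nat_lit 189))))) (XT.nd (nat_lit 312) (nat_lit 0) (nat_lit 0) (XT.nd (nat_lit 156) (nat_lit 0) (nat_lit 0) (XT.nd (nat_lit 78) (nat_lit 0) (nat_lit 0) (XT.lf (nat_lit 0) (nat_lit 144716897189) (nat_lit 152) (nat_lit 713821658003) (nat_lit 0) (nat_lit 140751830967) (nat_lit 1) (nat_lit 5) (nat_lit 3) (nat_lit 4) (nat_lit 1) (nat_lit 4) (nat_lit 348) (nat_lit 244) (nat_lit 188)) (XT.lf (nat_lit 0) (nat_lit 158517292677) (nat_lit 152) (nat_lit 765963208299) (nat_lit 0) (nat_lit 154548226444) (nat_lit 1) (nat_lit 5) (nat_lit 3) (nat_lit 4) (nat_lit 1) (nat_lit 4) (nat_lit 349) (nat_lit 244) (nat_lit 187))) (XT.nd (nat_lit 78) (nat_lit 0) (nat_lit 0) (XT.lf (nat_lit 0) (nat_lit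 173416965416) (nat_lit 152) (nat_lit 822285357921) (nat_lit 0) (nat_lit 169444195470) (nat_lit 1) (nat_lit 5) (nat_lit 3) (nat_lit 4) (nat_lit 1) (nat_lit 4) (nat_lit 350) (nat_lit 244) (nat_lit 186)) (XT.lf (nat_lit 0) (nat_lit 189504209764) (nat_lit 152) (nat_lit 883121867755) (nat_lit 0) (nat_lit 185528010454) (nat_lit 1) (nat_lit 5) (nat_lit 3) (nat_lit 4) (nat_lit 1) (nat_lit 4) (nat_lit 351) (nat_lit 244) (nat_lit 185)))) (XT.nd (nat_lit 156) (nat_lit 0) (nat_lit 0) (XT.nd (nat_lit 78) (nat_lit 0) (nat_lit 0) (XT.lf (nat_lit 0) (nat_lit 206874357539) (nat_lit 152) (nat_lit 948833250452) (nat_lit 0) (nat_lit 202894982892) (nat_lit 1) (nat_lit 5) (nat_lit 3) (nat_lit 4) (nat_lit 1) (nat_lit 4) (nat_lit 352) (nat_lit 244) (nat_lit 184)) (XT.lf (nat_lit 0) (nat_lit 225630342949) (nat_lit 152) (nat_lit 1019808906798) (nat_lit 0) (nat_lit 221648028175) (nat_lit 1) (nat_lit 5) (nat_lit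 3) (nat_lit 4) (nat_lit 1) (nat_lit 4) (nat_lit 353) (nat_lit 244) (nat_lit 183))) (XT.nd (nat_lit 78) (nat_lit 0) (nat_lit 0) (XT.lf (nat_lit 0) (nat_lit 245883312576) (nat_lit 152) (nat_lit 1096469433276) (nat_lit 0) (nat_lit 241898275463) (nat_lit 1) (nat_lit 5) (nat_lit 3) (nat_lit 4) (nat_lit 1) (nat_lit 4) (nat_lit 354) (nat_lit 244) (nat_lit 182)) (XT.lf (nat_lit 0) (nat_lit 267753284017) (nat_lit 152) (nat_lit 1179269114486) (nat_lit 0) (nat_lit 263765726219) (nat_lit 1) (nat_lit 5) (nat_lit 3) (nat_lit 4) (nat_lit 1) (nat_lit 4) (nat_lit 355) (nat_lit 244) (nat_lit 181)))))) (XT.nd (nat_lit 546) (nat_lit 0) (nat_lit 0) (XT.nd (nat_lit 234) (nat_lit 0) (nat_lit 0) (XT.nd (nat_lit 78) (nat_lit 0) (nat_lit 0) (XT.lf (nat_lit 0) (nat_lit 291369857103) (nat_lit 152) (nat_lit 1268698615207) (nat_lit 0) (nat_lit 287379965337) (nat_lit 1) (nat_lit 5) (nat_lit 3) (nat_lit 4) (nat_lit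 1) (nat_lit 4) (nat_lit 356) (nat_lit 244) (nat_lit 180)) (XT.nd (nat_lit 78) (nat_lit 0) (nat_lit 0) (XT.lf (nat_lit 0) (nat_lit 316872981896) (nat_lit 152) (nat_lit 1365287888035) (nat_lit 0) (nat_lit 312880929049) (nat_lit 1) (nat_lit 5) (nat_lit 3) (nat_lit 4) (nat_lit 1) (nat_lit 4) (nat_lit 357) (nat_lit 244) (nat_lit 179)) (XT.lf (nat_lit 0) (nat_lit 344413788026) (nat_lit 152) (nat_lit 1469609313847) (nat_lit 0) (nat_lit 340419734177) (nat_lit 1) (nat_lit 5) (nat_lit 3) (nat_lit 4) (nat_lit 1) (nat_lit 4) (nat_lit 358) (nat_lit 244) (nat_lit 178)))) (XT.nd (nat_lit 156) (nat_lit 0) (nat_lit 0) (XT.nd (nat_lit 78) (nat_lit 0) (nat_lit 0) (XT.lf (nat_lit 0) (nat_lit 374155480268) (nat_lit 152) (nat_lit 1582281093683) (nat_lit 0) (nat_lit 370159573641) (nat_lit 1) (nat_lit 5) (nat_lit 3) (nat_lit 4) (nat_lit 1) (nat_lit 4) (nat_lit 359) (nat_lit 244) (nat_lit 177)) (XT.lf (nat_lit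 0) (nat_lit 406274305688) (nat_lit 152) (nat_lit 1703970912166) (nat_lit 0) (nat_lit 402276683525) (nat_lit 1) (nat_lit 5) (nat_lit 3) (nat_lit 4) (nat_lit 1) (nat_lit 4) (nat_lit 360) (nat_lit 244) (nat_lit 176))) (XT.nd (nat_lit 78) (nat_lit 0) (nat_lit 0) (XT.lf (nat_lit 0) (nat_lit 440960598066) (nat_lit 152) (nat_lit 1835399894146) (nat_lit 0) (nat_lit 436961387445) (nat_lit 1) (nat_lit 5) (nat_lit 3) (nat_lit 4) (nat_lit 1) (nat_lit 4) (nat_lit 361) (nat_lit 244) (nat_lit 175)) (XT.lf (nat_lit 0) (nat_lit 478419905803) (nat_lit 152) (nat_lit 1977346878034) (nat_lit 0) (nat_lit 474419224385) (nat_lit 1) (nat_lit 5) (nat_lit 3) (nat_lit 4) (nat_lit 1) (nat_lit 4) (nat_lit 362) (nat_lit 244) (nat_lit 174))))) (XT.nd (nat_lit 312) (nat_lit 0) (nat_lit 0) (XT.nd (nat_lit 156) (nat_lit 0) (nat_lit 0) (XT.nd (nat_lit 78) (nat_lit 0) (nat_lit 0) (XT.lf (nat_lit 0) (nat_lit 518874209979)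 (nat_lit 152) (nat_lit 2130653031142) (nat_lit 0) (nat_lit 514872166714) (nat_lit 1) (nat_lit 5) (nat_lit 3) (nat_lit 4) (nat_lit 1) (nat_lit 4) (nat_lit 363) (nat_lit 244) (nat_lit 173)) (XT.lf (nat_lit 0) (nat_lit 562563239807) (nat_lit 152) (nat_lit 2296226834378) (nat_lit 0) (nat_lit 558559935572) (nat_lit 1) (nat_lit 5) (nat_lit 3) (nat_lit 4) (nat_lit 1) (nat_lit 4) (nat_lit 364) (nat_lit 244) (nat_lit 172))) (XT.nd (nat_lit 78) (nat_lit 0) (nat_lit 0) (XT.lf (nat_lit 0) (nat_lit 609745893239) (nat_lit 152) (nat_lit 2475049465834) (nat_lit 0) (nat_lit 605741421439) (nat_lit 1) (nat_lit 5) (nat_lit 3) (nat_lit 4) (nat_lit 1) (nat_lit 4) (nat_lit 365) (nat_lit 244) (nat_lit 171)) (XT.lf (nat_lit 0) (nat_lit 660701771185) (nat_lit 152) (nat_lit 2668180615180) (nat_lit 0) (nat_lit 656696218307) (nat_lit 1) (nat_lit 5) (nat_lit 3) (nat_lit 4) (nat_lit 1) (nat_lit 4) (nat_lit 366) (nat_lit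 244) (nat_lit 170)))) (XT.nd (nat_lit 156) (nat_lit 0) (nat_lit 0) (XT.nd (nat_lit 78) (nat_lit 0) (nat_lit 0) (XT.lf (nat_lit 0) (nat_lit 715732834404) (nat_lit 152) (nat_lit 2876764763299) (nat_lit 0) (nat_lit 711726280527) (nat_lit 1) (nat_lit 5) (nat_lit 3) (nat_lit 4) (nat_lit 1) (nat_lit 4) (nat_lit 367) (nat_lit 244) (nat_lit 169)) (XT.lf (nat_lit 0) (nat_lit 775165192900) (nat_lit 152) (nat_lit 3102037964403) (nat_lit 0) (nat_lit 771157712172) (nat_lit 1) (nat_lit 5) (nat_lit 3) (nat_lit 4) (nat_lit 1) (nat_lit 4) (nat_lit 368) (nat_lit 244) (nat_lit 168))) (XT.nd (nat_lit 78) (nat_lit 0) (nat_lit 0) (XT.lf (nat_lit 0) (nat_lit 839351038426) (nat_lit 152) (nat_lit 3345335170794) (nat_lit 0) (nat_lit 835342699503) (nat_lit 1) (nat_lit 5) (nat_lit 3) (nat_lit 4) (nat_lit 1) (nat_lit 4) (nat_lit 369) (nat_lit 244) (nat_lit 167)) (XT.lf (nat_lit 0) (nat_lit 908670731549) (nat_lit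 152) (nat_lit 3608098143697) (nat_lit 0) (nat_lit 904661598001) (nat_lit 1) (nat_lit 5) (nat_lit 3) (nat_lit 4) (nat_lit 1) (nat_lit 4) (nat_lit 370) (nat_lit 244) (nat_lit 166))))))) (XT.nd (nat_lit 1170) (nat_lit 76) (nat_lit 0) (XT.nd (nat_lit 546) (nat_lit 228) (nat_lit 0) (XT.nd (nat_lit 234) (nat_lit 228) (nat_lit 0) (XT.nd (nat_lit 78) (nat_lit 152) (nat_lit 0) (XT.lf (nat_lit 0) (nat_lit 2838889787) (nat_lit 76) (nat_lit 2457835795) (nat_lit 76) (nat_lit 2457835795) (nat_lit 12) (nat_lit 4) (nat_lit 13) (nat_lit 5) (nat_lit 13) (nat_lit 4) (nat_lit 290) (nat_lit 245) (nat_lit 245)) (XT.nd (nat_lit 78) (nat_lit 152) (nat_lit 0) (XT.lf (nat_lit 0) (nat_lit 14514948048) (nat_lit 76) (nat_lit 1145707427) (nat_lit 76) (nat_lit 708275794) (nat_lit 12) (nat_lit 4) (nat_lit 13) (nat_lit 5) (nat_lit 13) (nat_lit 4) (nat_lit 291) (nat_lit 245) (nat_lit 244)) (XT.lf (nat_lit 0) (nat_lit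 3639421439) (nat_lit 152) (nat_lit 10791961587) (nat_lit 0) (nat_lit 2859365029) (nat_lit 10) (nat_lit 5) (nat_lit 12) (nat_lit 4) (nat_lit 10) (nat_lit 4) (nat_lit 292) (nat_lit 245) (nat_lit 243)))) (XT.nd (nat_lit 156) (nat_lit 152) (nat_lit 0) (XT.nd (nat_lit 78) (nat_lit 76) (nat_lit 0) (XT.lf (nat_lit 0) (nat_lit 8146579779) (nat_lit 152) (nat_lit 3131221734) (nat_lit 0) (nat_lit 7019276035) (nat_lit 10) (nat_lit 5) (nat_lit 12) (nat_lit 4) (nat_lit 10) (nat_lit 4) (nat_lit 293) (nat_lit 245) (nat_lit 242)) (XT.lf (nat_lit 0) (nat_lit 4999207754) (nat_lit 76) (nat_lit 7920652748) (nat_lit 76) (nat_lit 6471823695) (nat_lit 9) (nat_lit 4) (nat_lit 10) (nat_lit 5) (nat_lit 10) (nat_lit 4) (nat_lit 294) (nat_lit 245) (nat_lit 241))) (XT.nd (nat_lit 78) (nat_lit 152) (nat_lit 0) (XT.lf (nat_lit 0) (nat_lit 13574852485) (nat_lit 76) (nat_lit 4377767080) (nat_lit 76) (nat_lit 2631229408)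 (nat_lit 9) (nat_lit 4) (nat_lit 10) (nat_lit 5) (nat_lit 10) (nat_lit 4) (nat_lit 295) (nat_lit 245) (nat_lit 240)) (XT.lf (nat_lit 0) (nat_lit 592857573) (nat_lit 76) (nat_lit 664378664) (nat_lit 152) (nat_lit 20626083951) (nat_lit 7) (nat_lit 5) (nat_lit 8) (nat_lit 5) (nat_lit 9) (nat_lit 4) (nat_lit 296) (nat_lit 245) (nat_lit 239))))) (XT.nd (nat_lit 312) (nat_lit 152) (nat_lit 0) (XT.nd (nat_lit 156) (nat_lit 76) (nat_lit 0) (XT.nd (nat_lit 78) (nat_lit 0) (nat_lit 0) (XT.lf (nat_lit 0) (nat_lit 5396071001) (nat_lit 152) (nat_lit 14591514114) (nat_lit 0) (nat_lit 3287338633) (nat_lit 7) (nat_lit 5) (nat_lit 9) (nat_lit 4) (nat_lit 7) (nat_lit 4) (nat_lit 297) (nat_lit 245) (nat_lit 238)) (XT.lf (nat_lit 0) (nat_lit 9702118456) (nat_lit 152) (nat_lit 7714433469) (nat_lit 0) (nat_lit 7374561366) (nat_lit 7) (nat_lit 5) (nat_lit 9) (nat_lit 4) (nat_lit 7) (nat_lit 4) (nat_lit 298)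 (nat_lit 245) (nat_lit 237))) (XT.nd (nat_lit 78) (nat_lit 76) (nat_lit 0) (XT.lf (nat_lit 0) (nat_lit 14184917599) (nat_lit 152) (nat_lit 602489288) (nat_lit 0) (nat_lit 11654745024) (nat_lit 7) (nat_lit 5) (nat_lit 9) (nat_lit 4) (nat_lit 7) (nat_lit 4) (nat_lit 299) (nat_lit 245) (nat_lit 236)) (XT.lf (nat_lit 0) (nat_lit 7143826413) (nat_lit 76) (nat_lit 11899015947) (nat_lit 76) (nat_lit 9181236444) (nat_lit 6) (nat_lit 4) (nat_lit 7) (nat_lit 5) (nat_lit 7) (nat_lit 4) (nat_lit 300) (nat_lit 245) (nat_lit 235)))) (XT.nd (nat_lit 156) (nat_lit 152) (nat_lit 0) (XT.nd (nat_lit 78) (nat_lit 0) (nat_lit 0) (XT.lf (nat_lit 0) (nat_lit 15259555394) (nat_lit 76) (nat_lit 8895672005) (nat_lit 76) (nat_lit 6004182382) (nat_lit 6) (nat_lit 4) (nat_lit 7) (nat_lit 5) (nat_lit 7) (nat_lit 4) (nat_lit 301) (nat_lit 245) (nat_lit 234)) (XT.lf (nat_lit 0) (nat_lit 23761064844) (nat_lit 76) (nat_lit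 5776050592) (nat_lit 76) (nat_lit 2723718265) (nat_lit 6) (nat_lit 4) (nat_lit 7) (nat_lit 5) (nat_lit 7) (nat_lit 4) (nat_lit 302) (nat_lit 245) (nat_lit 233))) (XT.nd (nat_lit 78) (nat_lit 76) (nat_lit 0) (XT.lf (nat_lit 0) (nat_lit 645599565) (nat_lit 152) (nat_lit 1858413660) (nat_lit 76) (nat_lit 32035482678) (nat_lit 5) (nat_lit 5) (nat_lit 7) (nat_lit 5) (nat_lit 6) (nat_lit 4) (nat_lit 303) (nat_lit 245) (nat_lit 232)) (XT.lf (nat_lit 0) (nat_lit 4168653448) (nat_lit 152) (nat_lit 31746874883) (nat_lit 0) (nat_lit 1076840994) (nat_lit 4) (nat_lit 5) (nat_lit 6) (nat_lit 4) (nat_lit 4) (nat_lit 4) (nat_lit 304) (nat_lit 245) (nat_lit 231)))))) (XT.nd (nat_lit 624) (nat_lit 0) (nat_lit 0) (XT.nd (nat_lit 312) (nat_lit 76) (nat_lit 0) (XT.nd (nat_lit 156) (nat_lit 0) (nat_lit 0) (XT.nd (nat_lit 78) (nat_lit 0) (nat_lit 0) (XT.lf (nat_lit 0) (nat_lit 7969003891) (nat_lit 152) (nat_lit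 26913944273) (nat_lit 0) (nat_lit 4758967248) (nat_lit 4) (nat_lit 5) (nat_lit 6) (nat_lit 4) (nat_lit 4) (nat_lit 4) (nat_lit 305) (nat_lit 245) (nat_lit 230)) (XT.lf (nat_lit 0) (nat_lit 11960679426) (nat_lit 152) (nat_lit 21910659177) (nat_lit 0) (nat_lit 8641175941) (nat_lit 4) (nat_lit 5) (nat_lit 6) (nat_lit 4) (nat_lit 4) (nat_lit 4) (nat_lit 306) (nat_lit 245) (nat_lit 229))) (XT.nd (nat_lit 78) (nat_lit 0) (nat_lit 0) (XT.lf (nat_lit 0) (nat_lit 16167334426) (nat_lit 152) (nat_lit 16707370497) (nat_lit 0) (nat_lit 12746472755) (nat_lit 4) (nat_lit 5) (nat_lit 6) (nat_lit 4) (nat_lit 4) (nat_lit 4) (nat_lit 307) (nat_lit 245) (nat_lit 228)) (XT.lf (nat_lit 0) (nat_lit 20613897218) (nat_lit 152) (nat_lit 11273243930) (nat_lit 0) (nat_lit 17099185374) (nat_lit 4) (nat_lit 5) (nat_lit 6) (nat_lit 4) (nat_lit 4) (nat_lit 4) (nat_lit 308) (nat_lit 245) (nat_lit 227)))) (XT.nd (nat_lit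 156) (nat_lit 0) (nat_lit 0) (XT.nd (nat_lit 78) (nat_lit 76) (nat_lit 0) (XT.lf (nat_lit 0) (nat_lit 25326717803) (nat_lit 152) (nat_lit 5576077245) (nat_lit 0) (nat_lit 21725107651) (nat_lit 4) (nat_lit 5) (nat_lit 6) (nat_lit 4) (nat_lit 4) (nat_lit 4) (nat_lit 309) (nat_lit 245) (nat_lit 226)) (XT.lf (nat_lit 0) (nat_lit 439895921) (nat_lit 76) (nat_lit 29904407593) (nat_lit 76) (nat_lit 26222336045) (nat_lit 3) (nat_lit 4) (nat_lit 4) (nat_lit 5) (nat_lit 4) (nat_lit 4) (nat_lit 310) (nat_lit 245) (nat_lit 225))) (XT.nd (nat_lit 78) (nat_lit 0) (nat_lit 0) (XT.lf (nat_lit 0) (nat_lit 7099315780) (nat_lit 76) (nat_lit 28736009913) (nat_lit 76) (nat_lit 24979437072) (nat_lit 3) (nat_lit 4) (nat_lit 4) (nat_lit 5) (nat_lit 4) (nat_lit 4) (nat_lit 311) (nat_lit 245) (nat_lit 224)) (XT.lf (nat_lit 0) (nat_lit 14148019213) (nat_lit 76) (nat_lit 27543138004) (nat_lit 76) (nat_lit 23717582484)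 (nat_lit 3) (nat_lit 4) (nat_lit 4) (nat_lit 5) (nat_lit 4) (nat_lit 4) (nat_lit 312) (nat_lit 245) (nat_lit 223))))) (XT.nd (nat_lit 312) (nat_lit 0) (nat_lit 0) (XT.nd (nat_lit 156) (nat_lit 0) (nat_lit 0) (XT.nd (nat_lit 78) (nat_lit 0) (nat_lit 0) (XT.lf (nat_lit 0) (nat_lit 21627776315) (nat_lit 76) (nat_lit 26318722995) (nat_lit 76) (nat_lit 22429294625) (nat_lit 3) (nat_lit 4) (nat_lit 4) (nat_lit 5) (nat_lit 4) (nat_lit 4) (nat_lit 313) (nat_lit 245) (nat_lit 222)) (XT.lf (nat_lit 0) (nat_lit 29582911572) (nat_lit 76) (nat_lit 25055509093) (nat_lit 76) (nat_lit 21106939195) (nat_lit 3) (nat_lit 4) (nat_lit 4) (nat_lit 5) (nat_lit 4) (nat_lit 4) (nat_lit 314) (nat_lit 245) (nat_lit 221))) (XT.nd (nat_lit 78) (nat_lit 0) (nat_lit 0) (XT.lf (nat_lit 0) (nat_lit 38060566528) (nat_lit 76) (nat_lit 23746010587) (nat_lit 76) (nat_lit 19742680014) (nat_lit 3) (nat_lit 4) (nat_lit 4)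 (nat_lit 5) (nat_lit 4) (nat_lit 4) (nat_lit 315) (nat_lit 245) (nat_lit 220)) (XT.lf (nat_lit 0) (nat_lit 47110979136) (nat_lit 76) (nat_lit 22382467485) (nat_lit 76) (nat_lit 18328432584) (nat_lit 3) (nat_lit 4) (nat_lit 4) (nat_lit 5) (nat_lit 4) (nat_lit 4) (nat_lit 316) (nat_lit 245) (nat_lit 219)))) (XT.nd (nat_lit 156) (nat_lit 0) (nat_lit 0) (XT.nd (nat_lit 78) (nat_lit 0) (nat_lit 0) (XT.lf (nat_lit 0) (nat_lit 56787781472) (nat_lit 76) (nat_lit 20956799533) (nat_lit 76) (nat_lit 16855816179) (nat_lit 3) (nat_lit 4) (nat_lit 4) (nat_lit 5) (nat_lit 4) (nat_lit 4) (nat_lit 317) (nat_lit 245) (nat_lit 218)) (XT.lf (nat_lit 0) (nat_lit 67148317550) (nat_lit 76) (nat_lit 19460558326) (nat_lit 76) (nat_lit 15316104184) (nat_lit 3) (nat_lit 4) (nat_lit 4) (nat_lit 5) (nat_lit 4) (nat_lit 4) (nat_lit 318) (nat_lit 245) (nat_lit 217))) (XT.nd (nat_lit 78) (nat_lit 0) (nat_lit 0) (XT.lf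 (nat_lit 0) (nat_lit 78253983138) (nat_lit 76) (nat_lit 17884877251) (nat_lit 76) (nat_lit 13700172378) (nat_lit 3) (nat_lit 4) (nat_lit 4) (nat_lit 5) (nat_lit 4) (nat_lit 4) (nat_lit 319) (nat_lit 245) (nat_lit 216)) (XT.lf (nat_lit 0) (nat_lit 90170589589) (nat_lit 76) (nat_lit 16220418938) (nat_lit 76) (nat_lit 11998444871) (nat_lit 3) (nat_lit 4) (nat_lit 4) (nat_lit 5) (nat_lit 4) (nat_lit 4) (nat_lit 320) (nat_lit 245) (nat_lit 215))))))))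
noncomputable def xc27 : XT := (XT.nd (nat_lit 2418) (nat_lit 0) (nat_lit 0) (XT.nd (nat_lit 1170) (nat_lit 0) (nat_lit 0) (XT.nd (nat_lit 546) (nat_lit 0) (nat_lit 0) (XT.nd (nat_lit 234) (nat_lit 152) (nat_lit 0) (XT.nd (nat_lit 78) (nat_lit 0) (nat_lit 0) (XT.lf (nat_lit 0) (nat_lit 102968753830) (nat_lit 76) (nat_lit 14457319931) (nat_lit 76) (nat_lit 10200837350) (nat_lit 3) (nat_lit 4) (nat_lit 4) (nat_lit 5) (nat_lit 4) (nat_lit 4) (nat_lit 321) (nat_lit 245) (nat_lit 214)) (XT.nd (nat_lit 78) (nat_lit 0) (nat_lit 0) (XT.lf (nat_lit 0) (nat_lit 116724316834) (nat_lit 76) (nat_lit 12585132236) (nat_lit 76) (nat_lit 8296697327) (nat_lit 3) (nat_lit 4) (nat_lit 4) (nat_lit 5) (nat_lit 4) (nat_lit 4) (nat_lit 322) (nat_lit 245) (nat_lit 213)) (XT.lf (nat_lit 0) (nat_lit 131518793048) (nat_lit 76) (nat_lit 10592761407) (nat_lit 76) (nat_lit 6274741010) (nat_lit 3) (nat_lit 4) (nat_lit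 4) (nat_lit 5) (nat_lit 4) (nat_lit 4) (nat_lit 323) (nat_lit 245) (nat_lit 212)))) (XT.nd (nat_lit 156) (nat_lit 152) (nat_lit 0) (XT.nd (nat_lit 78) (nat_lit 0) (nat_lit 0) (XT.lf (nat_lit 0) (nat_lit 147439853442) (nat_lit 76) (nat_lit 8468400801) (nat_lit 76) (nat_lit 4122986433) (nat_lit 3) (nat_lit 4) (nat_lit 4) (nat_lit 5) (nat_lit 4) (nat_lit 4) (nat_lit 324) (nat_lit 245) (nat_lit 211)) (XT.lf (nat_lit 0) (nat_lit 164581845042) (nat_lit 76) (nat_lit 6199461616) (nat_lit 76) (nat_lit 1828682461) (nat_lit 3) (nat_lit 4) (nat_lit 4) (nat_lit 5) (nat_lit 4) (nat_lit 4) (nat_lit 325) (nat_lit 245) (nat_lit 210))) (XT.nd (nat_lit 78) (nat_lit 76) (nat_lit 0) (XT.lf (nat_lit 0) (nat_lit 590663490) (nat_lit 152) (nat_lit 3165685009) (nat_lit 76) (nat_lit 182439536742) (nat_lit 2) (nat_lit 5) (nat_lit 4) (nat_lit 5) (nat_lit 3) (nat_lit 4) (nat_lit 326) (nat_lit 245) (nat_lit 209))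 (XT.lf (nat_lit 0) (nat_lit 2096644944) (nat_lit 76) (nat_lit 1034439782) (nat_lit 152) (nat_lit 197731676001) (nat_lit 1) (nat_lit 5) (nat_lit 2) (nat_lit 5) (nat_lit 3) (nat_lit 4) (nat_lit 327) (nat_lit 245) (nat_lit 208))))) (XT.nd (nat_lit 312) (nat_lit 0) (nat_lit 0) (XT.nd (nat_lit 156) (nat_lit 0) (nat_lit 0) (XT.nd (nat_lit 78) (nat_lit 0) (nat_lit 0) (XT.lf (nat_lit 0) (nat_lit 5985431123) (nat_lit 152) (nat_lit 208830824358) (nat_lit 0) (nat_lit 1877887907) (nat_lit 1) (nat_lit 5) (nat_lit 3) (nat_lit 4) (nat_lit 1) (nat_lit 4) (nat_lit 328) (nat_lit 245) (nat_lit 207)) (XT.lf (nat_lit 0) (nat_lit 9072833802) (nat_lit 152) (nat_lit 219770809969) (nat_lit 0) (nat_lit 4948027737) (nat_lit 1) (nat_lit 5) (nat_lit 3) (nat_lit 4) (nat_lit 1) (nat_lit 4) (nat_lit 329) (nat_lit 245) (nat_lit 206))) (XT.nd (nat_lit 78) (nat_lit 0) (nat_lit 0) (XT.lf (nat_lit 0) (nat_lit 12386710180)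 (nat_lit 152) (nat_lit 231626023859) (nat_lit 0) (nat_lit 8245919996) (nat_lit 1) (nat_lit 5) (nat_lit 3) (nat_lit 4) (nat_lit 1) (nat_lit 4) (nat_lit 330) (nat_lit 245) (nat_lit 205)) (XT.lf (nat_lit 0) (nat_lit 15946698044) (nat_lit 152) (nat_lit 244466719147) (nat_lit 0) (nat_lit 11791107750) (nat_lit 1) (nat_lit 5) (nat_lit 3) (nat_lit 4) (nat_lit 1) (nat_lit 4) (nat_lit 331) (nat_lit 245) (nat_lit 204)))) (XT.nd (nat_lit 156) (nat_lit 0) (nat_lit 0) (XT.nd (nat_lit 78) (nat_lit 0) (nat_lit 0) (XT.lf (nat_lit 0) (nat_lit 19773893618) (nat_lit 152) (nat_lit 258368988843) (nat_lit 0) (nat_lit 15604599519) (nat_lit 1) (nat_lit 5) (nat_lit 3) (nat_lit 4) (nat_lit 1) (nat_lit 4) (nat_lit 332) (nat_lit 245) (nat_lit 203)) (XT.lf (nat_lit 0) (nat_lit 23890976579) (nat_lit 152) (nat_lit 273415216767) (nat_lit 0) (nat_lit 19708993771) (nat_lit 1) (nat_lit 5) (nat_lit 3) (nat_lit 4) (nat_lit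 1) (nat_lit 4) (nat_lit 333) (nat_lit 245) (nat_lit 202))) (XT.nd (nat_lit 78) (nat_lit 0) (nat_lit 0) (XT.lf (nat_lit 0) (nat_lit 28322344457) (nat_lit 152) (nat_lit 289694565751) (nat_lit 0) (nat_lit 24128612844) (nat_lit 1) (nat_lit 5) (nat_lit 3) (nat_lit 4) (nat_lit 1) (nat_lit 4) (nat_lit 334) (nat_lit 245) (nat_lit 201)) (XT.lf (nat_lit 0) (nat_lit 33094257208) (nat_lit 152) (nat_lit 307303506011) (nat_lit 0) (nat_lit 28889647073) (nat_lit 1) (nat_lit 5) (nat_lit 3) (nat_lit 4) (nat_lit 1) (nat_lit 4) (nat_lit 335) (nat_lit 245) (nat_lit 200)))))) (XT.nd (nat_lit 624) (nat_lit 0) (nat_lit 0) (XT.nd (nat_lit 312) (nat_lit 0) (nat_lit 0) (XT.nd (nat_lit 156) (nat_lit 0) (nat_lit 0) (XT.nd (nat_lit 78) (nat_lit 0) (nat_lit 0) (XT.lf (nat_lit 0) (nat_lit 38234992835) (nat_lit 152) (nat_lit 326346386823) (nat_lit 0) (nat_lit 34020309994) (nat_lit 1) (nat_lit 5) (nat_lit 3) (nat_lit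 4) (nat_lit 1) (nat_lit 4) (nat_lit 336) (nat_lit 245) (nat_lit 199)) (XT.lf (nat_lit 0) (nat_lit 43775014956) (nat_lit 152) (nat_lit 346936054888) (nat_lit 0) (nat_lit 39551005535) (nat_lit 1) (nat_lit 5) (nat_lit 3) (nat_lit 4) (nat_lit 1) (nat_lit 4) (nat_lit 337) (nat_lit 245) (nat_lit 198))) (XT.nd (nat_lit 78) (nat_lit 0) (nat_lit 0) (XT.lf (nat_lit 0) (nat_lit 49747153332) (nat_lit 152) (nat_lit 369194523054) (nat_lit 0) (nat_lit 45514508188) (nat_lit 1) (nat_lit 5) (nat_lit 3) (nat_lit 4) (nat_lit 1) (nat_lit 4) (nat_lit 338) (nat_lit 245) (nat_lit 197)) (XT.lf (nat_lit 0) (nat_lit 56186798412) (nat_lit 152) (nat_lit 393253693355) (nat_lit 0) (nat_lit 51946157229) (nat_lit 1) (nat_lit 5) (nat_lit 3) (nat_lit 4) (nat_lit 1) (nat_lit 4) (nat_lit 339) (nat_lit 245) (nat_lit 196)))) (XT.nd (nat_lit 156) (nat_lit 0) (nat_lit 0) (XT.nd (nat_lit 78) (nat_lit 0) (nat_lit 0) (XT.lf (nat_lit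 0) (nat_lit 63132111056) (nat_lit 152) (nat_lit 419256138650) (nat_lit 0) (nat_lit 58884066133) (nat_lit 1) (nat_lit 5) (nat_lit 3) (nat_lit 4) (nat_lit 1) (nat_lit 4) (nat_lit 340) (nat_lit 245) (nat_lit 195)) (XT.lf (nat_lit 0) (nat_lit 70624248672) (nat_lit 152) (nat_lit 447355947506) (nat_lit 0) (nat_lit 66369348435) (nat_lit 1) (nat_lit 5) (nat_lit 3) (nat_lit 4) (nat_lit 1) (nat_lit 4) (nat_lit 341) (nat_lit 245) (nat_lit 194))) (XT.nd (nat_lit 78) (nat_lit 0) (nat_lit 0) (XT.lf (nat_lit 0) (nat_lit 78707609113) (nat_lit 152) (nat_lit 477719637308) (nat_lit 0) (nat_lit 74446361362) (nat_lit 1) (nat_lit 5) (nat_lit 3) (nat_lit 4) (nat_lit 1) (nat_lit 4) (nat_lit 342) (nat_lit 245) (nat_lit 193)) (XT.lf (nat_lit 0) (nat_lit 87430093774) (nat_lit 152) (nat_lit 510527141032) (nat_lit 0) (nat_lit 83162968696) (nat_lit 1) (nat_lit 5) (nat_lit 3) (nat_lit 4) (nat_lit 1) (nat_lit 4) (nat_lit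 343) (nat_lit 245) (nat_lit 192))))) (XT.nd (nat_lit 312) (nat_lit 0) (nat_lit 0) (XT.nd (nat_lit 156) (nat_lit 0) (nat_lit 0) (XT.nd (nat_lit 78) (nat_lit 0) (nat_lit 0) (XT.lf (nat_lit 0) (nat_lit 96843391453) (nat_lit 152) (nat_lit 545972873516) (nat_lit 0) (nat_lit 92570824405) (nat_lit 1) (nat_lit 5) (nat_lit 3) (nat_lit 4) (nat_lit 1) (nat_lit 4) (nat_lit 344) (nat_lit 245) (nat_lit 191)) (XT.lf (nat_lit 0) (nat_lit 107003284655) (nat_lit 152) (nat_lit 584266883544) (nat_lit 0) (nat_lit 102725678746) (nat_lit 1) (nat_lit 5) (nat_lit 3) (nat_lit 4) (nat_lit 1) (nat_lit 4) (nat_lit 345) (nat_lit 245) (nat_lit 190))) (XT.nd (nat_lit 78) (nat_lit 0) (nat_lit 0) (XT.lf (nat_lit 0) (nat_lit 117969980154) (nat_lit 152) (nat_lit 625636098584) (nat_lit 0) (nat_lit 113687708634) (nat_lit 1) (nat_lit 5) (nat_lit 3) (nat_lit 4) (nat_lit 1) (nat_lit 4) (nat_lit 346) (nat_lit 245) (nat_lit 189))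 (XT.lf (nat_lit 0) (nat_lit 129808465776) (nat_lit 152) (nat_lit 670325669538) (nat_lit 0) (nat_lit 125521874245) (nat_lit 1) (nat_lit 5) (nat_lit 3) (nat_lit 4) (nat_lit 1) (nat_lit 4) (nat_lit 347) (nat_lit 245) (nat_lit 188)))) (XT.nd (nat_lit 156) (nat_lit 0) (nat_lit 0) (XT.nd (nat_lit 78) (nat_lit 0) (nat_lit 0) (XT.lf (nat_lit 0) (nat_lit 142588895509) (nat_lit 152) (nat_lit 718600423496) (nat_lit 0) (nat_lit 138298303967) (nat_lit 1) (nat_lit 5) (nat_lit 3) (nat_lit 4) (nat_lit 1) (nat_lit 4) (nat_lit 348) (nat_lit 245) (nat_lit 187)) (XT.lf (nat_lit 0) (nat_lit 156387005233) (nat_lit 152) (nat_lit 770746433071) (nat_lit 0) (nat_lit 152092709979) (nat_lit 1) (nat_lit 5) (nat_lit 3) (nat_lit 4) (nat_lit 1) (nat_lit 4) (nat_lit 349) (nat_lit 245) (nat_lit 186))) (XT.nd (nat_lit 78) (nat_lit 0) (nat_lit 0) (XT.lf (nat_lit 0) (nat_lit 171284561525) (nat_lit 152) (nat_lit 827072711656)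 (nat_lit 0) (nat_lit 166986836906) (nat_lit 1) (nat_lit 5) (nat_lit 3) (nat_lit 4) (nat_lit 1) (nat_lit 4) (nat_lit 350) (nat_lit 245) (nat_lit 185)) (XT.lf (nat_lit 0) (nat_lit 187369846200) (nat_lit 152) (nat_lit 887913044603) (nat_lit 0) (nat_lit 183068946244) (nat_lit 1) (nat_lit 5) (nat_lit 3) (nat_lit 4) (nat_lit 1) (nat_lit 4) (nat_lit 351) (nat_lit 245) (nat_lit 184))))))) (XT.nd (nat_lit 1170) (nat_lit 0) (nat_lit 0) (XT.nd (nat_lit 546) (nat_lit 0) (nat_lit 0) (XT.nd (nat_lit 234) (nat_lit 0) (nat_lit 0) (XT.nd (nat_lit 78) (nat_lit 0) (nat_lit 0) (XT.lf (nat_lit 0) (nat_lit 204738179462) (nat_lit 152) (nat_lit 953627967220) (nat_lit 0) (nat_lit 200434339379) (nat_lit 1) (nat_lit 5) (nat_lit 3) (nat_lit 4) (nat_lit 1) (nat_lit 4) (nat_lit 352) (nat_lit 245) (nat_lit 183)) (XT.nd (nat_lit 78) (nat_lit 0) (nat_lit 0) (XT.lf (nat_lit 0) (nat_lit 223492484768) (nat_lit 152) (nat_lit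 1024606901270) (nat_lit 0) (nat_lit 219185922346) (nat_lit 1) (nat_lit 5) (nat_lit 3) (nat_lit 4) (nat_lit 1) (nat_lit 4) (nat_lit 353) (nat_lit 245) (nat_lit 182)) (XT.lf (nat_lit 0) (nat_lit 243743898743) (nat_lit 152) (nat_lit 1101270462659) (nat_lit 0) (nat_lit 239434815636) (nat_lit 1) (nat_lit 5) (nat_lit 3) (nat_lit 4) (nat_lit 1) (nat_lit 4) (nat_lit 354) (nat_lit 245) (nat_lit 181)))) (XT.nd (nat_lit 156) (nat_lit 0) (nat_lit 0) (XT.nd (nat_lit 78) (nat_lit 0) (nat_lit 0) (XT.lf (nat_lit 0) (nat_lit 265612429766) (nat_lit 152) (nat_lit 1184072953972) (nat_lit 0) (nat_lit 261301012691) (nat_lit 1) (nat_lit 5) (nat_lit 3) (nat_lit 4) (nat_lit 1) (nat_lit 4) (nat_lit 355) (nat_lit 245) (nat_lit 180)) (XT.lf (nat_lit 0) (nat_lit 289227669131) (nat_lit 152) (nat_lit 1273505056640) (nat_lit 0) (nat_lit 284914090975) (nat_lit 1) (nat_lit 5) (nat_lit 3) (nat_lit 4) (nat_lit 1) (nat_lit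 4) (nat_lit 356) (nat_lit 245) (nat_lit 179))) (XT.nd (nat_lit 78) (nat_lit 0) (nat_lit 0) (XT.lf (nat_lit 0) (nat_lit 314729558997) (nat_lit 152) (nat_lit 1370096738678) (nat_lit 0) (nat_lit 310413979840) (nat_lit 1) (nat_lit 5) (nat_lit 3) (nat_lit 4) (nat_lit 1) (nat_lit 4) (nat_lit 357) (nat_lit 245) (nat_lit 178)) (XT.lf (nat_lit 0) (nat_lit 342269221676) (nat_lit 152) (nat_lit 1474420395240) (nat_lit 0) (nat_lit 337951789740) (nat_lit 1) (nat_lit 5) (nat_lit 3) (nat_lit 4) (nat_lit 1) (nat_lit 4) (nat_lit 358) (nat_lit 245) (nat_lit 177))))) (XT.nd (nat_lit 312) (nat_lit 0) (nat_lit 0) (XT.nd (nat_lit 156) (nat_lit 0) (nat_lit 0) (XT.nd (nat_lit 78) (nat_lit 0) (nat_lit 0) (XT.lf (nat_lit 0) (nat_lit 372009855167) (nat_lit 152) (nat_lit 1587094240585) (nat_lit 0) (nat_lit 367690707696) (nat_lit 1) (nat_lit 5) (nat_lit 3) (nat_lit 4) (nat_lit 1) (nat_lit 4) (nat_lit 359) (nat_lit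 245) (nat_lit 176)) (XT.lf (nat_lit 0) (nat_lit 404127700263) (nat_lit 152) (nat_lit 1708785971577) (nat_lit 0) (nat_lit 399806964332) (nat_lit 1) (nat_lit 5) (nat_lit 3) (nat_lit 4) (nat_lit 1) (nat_lit 4) (nat_lit 360) (nat_lit 245) (nat_lit 175))) (XT.nd (nat_lit 78) (nat_lit 0) (nat_lit 0) (XT.lf (nat_lit 0) (nat_lit 438813084934) (nat_lit 152) (nat_lit 1840216724398) (nat_lit 0) (nat_lit 434490878207) (nat_lit 1) (nat_lit 5) (nat_lit 3) (nat_lit 4) (nat_lit 1) (nat_lit 4) (nat_lit 361) (nat_lit 245) (nat_lit 174)) (XT.lf (nat_lit 0) (nat_lit 476271552199) (nat_lit 152) (nat_lit 1982165347954) (nat_lit 0) (nat_lit 471947983626) (nat_lit 1) (nat_lit 5) (nat_lit 3) (nat_lit 4) (nat_lit 1) (nat_lit 4) (nat_lit 362) (nat_lit 245) (nat_lit 173)))) (XT.nd (nat_lit 156) (nat_lit 0) (nat_lit 0) (XT.nd (nat_lit 78) (nat_lit 0) (nat_lit 0) (XT.lf (nat_lit 0) (nat_lit 516725078163) (nat_lit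 152) (nat_lit 2135473019273) (nat_lit 0) (nat_lit 512400248619) (nat_lit 1) (nat_lit 5) (nat_lit 3) (nat_lit 4) (nat_lit 1) (nat_lit 4) (nat_lit 363) (nat_lit 245) (nat_lit 172)) (XT.lf (nat_lit 0) (nat_lit 560413387422) (nat_lit 152) (nat_lit 2301048228260) (nat_lit 0) (nat_lit 556087390313) (nat_lit 1) (nat_lit 5) (nat_lit 3) (nat_lit 4) (nat_lit 1) (nat_lit 4) (nat_lit 364) (nat_lit 245) (nat_lit 171))) (XT.nd (nat_lit 78) (nat_lit 0) (nat_lit 0) (XT.lf (nat_lit 0) (nat_lit 607595373662) (nat_lit 152) (nat_lit 2479872161338) (nat_lit 0) (nat_lit 603268295475) (nat_lit 1) (nat_lit 5) (nat_lit 3) (nat_lit 4) (nat_lit 1) (nat_lit 4) (nat_lit 365) (nat_lit 245) (nat_lit 170)) (XT.lf (nat_lit 0) (nat_lit 658550633838) (nat_lit 152) (nat_lit 2673004515888) (nat_lit 0) (nat_lit 654222554652) (nat_lit 1) (nat_lit 5) (nat_lit 3) (nat_lit 4) (nat_lit 1) (nat_lit 4) (nat_lit 366) (nat_lit 245)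 (nat_lit 169)))))) (XT.nd (nat_lit 34788) (nat_lit 0) (nat_lit 456) (XT.nd (nat_lit 34476) (nat_lit 0) (nat_lit 836) (XT.nd (nat_lit 156) (nat_lit 0) (nat_lit 0) (XT.nd (nat_lit 78) (nat_lit 0) (nat_lit 0) (XT.lf (nat_lit 0) (nat_lit 713581125046) (nat_lit 152) (nat_lit 2881589779937) (nat_lit 0) (nat_lit 709252119010) (nat_lit 1) (nat_lit 5) (nat_lit 3) (nat_lit 4) (nat_lit 1) (nat_lit 4) (nat_lit 367) (nat_lit 245) (nat_lit 168)) (XT.lf (nat_lit 0) (nat_lit 773012953903) (nat_lit 152) (nat_lit 3106864014310) (nat_lit 0) (nat_lit 768683089671) (nat_lit 1) (nat_lit 5) (nat_lit 3) (nat_lit 4) (nat_lit 1) (nat_lit 4) (nat_lit 368) (nat_lit 245) (nat_lit 167))) (XT.nd (nat_lit 78) (nat_lit 0) (nat_lit 0) (XT.lf (nat_lit 0) (nat_lit 837198309023) (nat_lit 152) (nat_lit 3350162177432) (nat_lit 0) (nat_lit 832867650166) (nat_lit 1) (nat_lit 5) (nat_lit 3) (nat_lit 4) (nat_lit 1) (nat_lit 4)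 (nat_lit 369) (nat_lit 245) (nat_lit 166)) (XT.lf (nat_lit 0) (nat_lit 906517548066) (nat_lit 152) (nat_lit 3612926036196) (nat_lit 0) (nat_lit 902186153446) (nat_lit 1) (nat_lit 5) (nat_lit 3) (nat_lit 4) (nat_lit 1) (nat_lit 4) (nat_lit 370) (nat_lit 245) (nat_lit 165)))) (XT.nd (nat_lit 156) (nat_lit 76) (nat_lit 0) (XT.nd (nat_lit 78) (nat_lit 0) (nat_lit 0) (XT.lf (nat_lit 0) (nat_lit 868400802) (nat_lit 152) (nat_lit 5263173794) (nat_lit 0) (nat_lit 868400802) (nat_lit 13) (nat_lit 5) (nat_lit 15) (nat_lit 4) (nat_lit 13) (nat_lit 4) (nat_lit 288) (nat_lit 246) (nat_lit 246)) (XT.lf (nat_lit 0) (nat_lit 6215313349) (nat_lit 152) (nat_lit 2767770428) (nat_lit 0) (nat_lit 5742887185) (nat_lit 13) (nat_lit 5) (nat_lit 15) (nat_lit 4) (nat_lit 13) (nat_lit 4) (nat_lit 289) (nat_lit 246) (nat_lit 245))) (XT.nd (nat_lit 78) (nat_lit 0) (nat_lit 0) (XT.lf (nat_lit 0) (nat_lit 5465553090)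 (nat_lit 76) (nat_lit 5481535519) (nat_lit 76) (nat_lit 4571677722) (nat_lit 12) (nat_lit 4) (nat_lit 13) (nat_lit 5) (nat_lit 13) (nat_lit 4) (nat_lit 290) (nat_lit 246) (nat_lit 244)) (XT.lf (nat_lit 0) (nat_lit 14106215561) (nat_lit 76) (nat_lit 1798087806) (nat_lit 76) (nat_lit 483200719) (nat_lit 12) (nat_lit 4) (nat_lit 13) (nat_lit 5) (nat_lit 13) (nat_lit 4) (nat_lit 291) (nat_lit 246) (nat_lit 243))))) (XT.nd (nat_lit 312) (nat_lit 152) (nat_lit 0) (XT.nd (nat_lit 156) (nat_lit 76) (nat_lit 0) (XT.nd (nat_lit 78) (nat_lit 0) (nat_lit 0) (XT.lf (nat_lit 0) (nat_lit 3714979582) (nat_lit 152) (nat_lit 11454836178) (nat_lit 0) (nat_lit 2150244205) (nat_lit 10) (nat_lit 5) (nat_lit 12) (nat_lit 4) (nat_lit 10) (nat_lit 4) (nat_lit 292) (nat_lit 246) (nat_lit 242)) (XT.lf (nat_lit 0) (nat_lit 8118925734) (nat_lit 152) (nat_lit 3983158907) (nat_lit 0) (nat_lit 6232665049) (nat_lit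 10) (nat_lit 5) (nat_lit 12) (nat_lit 4) (nat_lit 10) (nat_lit 4) (nat_lit 293) (nat_lit 246) (nat_lit 241))) (XT.nd (nat_lit 78) (nat_lit 0) (nat_lit 0) (XT.lf (nat_lit 0) (nat_lit 3918132891) (nat_lit 76) (nat_lit 8852506849) (nat_lit 76) (nat_lit 6668537544) (nat_lit 9) (nat_lit 4) (nat_lit 10) (nat_lit 5) (nat_lit 10) (nat_lit 4) (nat_lit 294) (nat_lit 246) (nat_lit 240)) (XT.lf (nat_lit 0) (nat_lit 12323151522) (nat_lit 76) (nat_lit 5387655904) (nat_lit 76) (nat_lit 2928030470) (nat_lit 9) (nat_lit 4) (nat_lit 10) (nat_lit 5) (nat_lit 10) (nat_lit 4) (nat_lit 295) (nat_lit 246) (nat_lit 239)))) (XT.nd (nat_lit 156) (nat_lit 0) (nat_lit 0) (XT.nd (nat_lit 78) (nat_lit 76) (nat_lit 0) (XT.lf (nat_lit 0) (nat_lit 872986678) (nat_lit 152) (nat_lit 899050299) (nat_lit 76) (nat_lit 20175102732) (nat_lit 8) (nat_lit 5) (nat_lit 10) (nat_lit 5) (nat_lit 9) (nat_lit 4) (nat_lit 296) (nat_lit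 246) (nat_lit 238)) (XT.lf (nat_lit 0) (nat_lit 4874738604) (nat_lit 152) (nat_lit 16332889342) (nat_lit 0) (nat_lit 2142152224) (nat_lit 7) (nat_lit 5) (nat_lit 9) (nat_lit 4) (nat_lit 7) (nat_lit 4) (nat_lit 297) (nat_lit 246) (nat_lit 237))) (XT.nd (nat_lit 78) (nat_lit 0) (nat_lit 0) (XT.lf (nat_lit 0) (nat_lit 9100145622) (nat_lit 152) (nat_lit 9607396637) (nat_lit 0) (nat_lit 6164943758) (nat_lit 7) (nat_lit 5) (nat_lit 9) (nat_lit 4) (nat_lit 7) (nat_lit 4) (nat_lit 298) (nat_lit 246) (nat_lit 236)) (XT.lf (nat_lit 0) (nat_lit 13508277693) (nat_lit 152) (nat_lit 2635811660) (nat_lit 0) (nat_lit 10385468900) (nat_lit 7) (nat_lit 5) (nat_lit 9) (nat_lit 4) (nat_lit 7) (nat_lit 4) (nat_lit 299) (nat_lit 246) (nat_lit 235))))))))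
noncomputable def xc28 : XT := (XT.nd (nat_lit 2340) (nat_lit 0) (nat_lit 0) (XT.nd (nat_lit 1170) (nat_lit 152) (nat_lit 0) (XT.nd (nat_lit 546) (nat_lit 76) (nat_lit 0) (XT.nd (nat_lit 234) (nat_lit 152) (nat_lit 0) (XT.nd (nat_lit 78) (nat_lit 0) (nat_lit 0) (XT.lf (nat_lit 0) (nat_lit 4866627082) (nat_lit 76) (nat_lit 13375672497) (nat_lit 76) (nat_lit 10079153584) (nat_lit 6) (nat_lit 4) (nat_lit 7) (nat_lit 5) (nat_lit 7) (nat_lit 4) (nat_lit 300) (nat_lit 246) (nat_lit 234)) (XT.nd (nat_lit 78) (nat_lit 0) (nat_lit 0) (XT.lf (nat_lit 0) (nat_lit 12855684020) (nat_lit 76) (nat_lit 10431939153) (nat_lit 76) (nat_lit 6974577536) (nat_lit 6) (nat_lit 4) (nat_lit 7) (nat_lit 5) (nat_lit 7) (nat_lit 4) (nat_lit 301) (nat_lit 246) (nat_lit 233)) (XT.lf (nat_lit 0) (nat_lit 21239904542) (nat_lit 76) (nat_lit 7367512738) (nat_lit 76) (nat_lit 3761222692) (nat_lit 6) (nat_lit 4) (nat_lit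 7) (nat_lit 5) (nat_lit 7) (nat_lit 4) (nat_lit 302) (nat_lit 246) (nat_lit 232)))) (XT.nd (nat_lit 156) (nat_lit 0) (nat_lit 0) (XT.nd (nat_lit 78) (nat_lit 152) (nat_lit 0) (XT.lf (nat_lit 0) (nat_lit 30068972918) (nat_lit 76) (nat_lit 4164233688) (nat_lit 76) (nat_lit 420046947) (nat_lit 6) (nat_lit 4) (nat_lit 7) (nat_lit 5) (nat_lit 7) (nat_lit 4) (nat_lit 303) (nat_lit 246) (nat_lit 231)) (XT.lf (nat_lit 0) (nat_lit 2307243834) (nat_lit 76) (nat_lit 663483424) (nat_lit 152) (nat_lit 34148509224) (nat_lit 4) (nat_lit 5) (nat_lit 5) (nat_lit 5) (nat_lit 6) (nat_lit 4) (nat_lit 304) (nat_lit 246) (nat_lit 230))) (XT.nd (nat_lit 78) (nat_lit 0) (nat_lit 0) (XT.lf (nat_lit 0) (nat_lit 6700936802) (nat_lit 152) (nat_lit 30067085998) (nat_lit 0) (nat_lit 3006406197) (nat_lit 4) (nat_lit 5) (nat_lit 6) (nat_lit 4) (nat_lit 4) (nat_lit 4) (nat_lit 305) (nat_lit 246) (nat_lit 229)) (XT.lf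 (nat_lit 0) (nat_lit 10642441867) (nat_lit 152) (nat_lit 25160079375) (nat_lit 0) (nat_lit 6846553076) (nat_lit 4) (nat_lit 5) (nat_lit 6) (nat_lit 4) (nat_lit 4) (nat_lit 4) (nat_lit 306) (nat_lit 246) (nat_lit 228))))) (XT.nd (nat_lit 312) (nat_lit 76) (nat_lit 0) (XT.nd (nat_lit 156) (nat_lit 0) (nat_lit 0) (XT.nd (nat_lit 78) (nat_lit 0) (nat_lit 0) (XT.lf (nat_lit 0) (nat_lit 14802642729) (nat_lit 152) (nat_lit 20045937429) (nat_lit 0) (nat_lit 10912903765) (nat_lit 4) (nat_lit 5) (nat_lit 6) (nat_lit 4) (nat_lit 4) (nat_lit 4) (nat_lit 307) (nat_lit 246) (nat_lit 227)) (XT.lf (nat_lit 0) (nat_lit 19206192429) (nat_lit 152) (nat_lit 14694354135) (nat_lit 0) (nat_lit 15229555157) (nat_lit 4) (nat_lit 5) (nat_lit 6) (nat_lit 4) (nat_lit 4) (nat_lit 4) (nat_lit 308) (nat_lit 246) (nat_lit 226))) (XT.nd (nat_lit 78) (nat_lit 0) (nat_lit 0) (XT.lf (nat_lit 0) (nat_lit 23879186078) (nat_lit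 152) (nat_lit 9073616406) (nat_lit 0) (nat_lit 19822087409) (nat_lit 4) (nat_lit 5) (nat_lit 6) (nat_lit 4) (nat_lit 4) (nat_lit 4) (nat_lit 309) (nat_lit 246) (nat_lit 225)) (XT.lf (nat_lit 0) (nat_lit 28849315489) (nat_lit 152) (nat_lit 3150416166) (nat_lit 0) (nat_lit 24717715528) (nat_lit 4) (nat_lit 5) (nat_lit 6) (nat_lit 4) (nat_lit 4) (nat_lit 4) (nat_lit 310) (nat_lit 246) (nat_lit 224)))) (XT.nd (nat_lit 156) (nat_lit 0) (nat_lit 0) (XT.nd (nat_lit 78) (nat_lit 0) (nat_lit 0) (XT.lf (nat_lit 0) (nat_lit 3274132391) (nat_lit 76) (nat_lit 30950643853) (nat_lit 76) (nat_lit 26750061213) (nat_lit 3) (nat_lit 4) (nat_lit 4) (nat_lit 5) (nat_lit 4) (nat_lit 4) (nat_lit 311) (nat_lit 246) (nat_lit 223)) (XT.lf (nat_lit 0) (nat_lit 10258969186) (nat_lit 76) (nat_lit 29788486681) (nat_lit 76) (nat_lit 25524031190) (nat_lit 3) (nat_lit 4) (nat_lit 4) (nat_lit 5) (nat_lit 4) (nat_lit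 4) (nat_lit 312) (nat_lit 246) (nat_lit 222))) (XT.nd (nat_lit 78) (nat_lit 0) (nat_lit 0) (XT.lf (nat_lit 0) (nat_lit 17679590513) (nat_lit 76) (nat_lit 28592511243) (nat_lit 76) (nat_lit 24268914224) (nat_lit 3) (nat_lit 4) (nat_lit 4) (nat_lit 5) (nat_lit 4) (nat_lit 4) (nat_lit 313) (nat_lit 246) (nat_lit 221)) (XT.lf (nat_lit 0) (nat_lit 25579970423) (nat_lit 76) (nat_lit 27355630277) (nat_lit 76) (nat_lit 22977272584) (nat_lit 3) (nat_lit 4) (nat_lit 4) (nat_lit 5) (nat_lit 4) (nat_lit 4) (nat_lit 314) (nat_lit 246) (nat_lit 220)))))) (XT.nd (nat_lit 546) (nat_lit 152) (nat_lit 0) (XT.nd (nat_lit 234) (nat_lit 0) (nat_lit 0) (XT.nd (nat_lit 78) (nat_lit 0) (nat_lit 0) (XT.lf (nat_lit 0) (nat_lit 34006925983) (nat_lit 76) (nat_lit 26070514120) (nat_lit 76) (nat_lit 21641452098) (nat_lit 3) (nat_lit 4) (nat_lit 4) (nat_lit 5) (nat_lit 4) (nat_lit 4) (nat_lit 315) (nat_lit 246) (nat_lit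 219)) (XT.nd (nat_lit 78) (nat_lit 0) (nat_lit 0) (XT.lf (nat_lit 0) (nat_lit 43010394706) (nat_lit 76) (nat_lit 24729547267) (nat_lit 76) (nat_lit 20253536793) (nat_lit 3) (nat_lit 4) (nat_lit 4) (nat_lit 5) (nat_lit 4) (nat_lit 4) (nat_lit 316) (nat_lit 246) (nat_lit 218)) (XT.lf (nat_lit 0) (nat_lit 52643730482) (nat_lit 76) (nat_lit 23324783248) (nat_lit 76) (nat_lit 18805301985) (nat_lit 3) (nat_lit 4) (nat_lit 4) (nat_lit 5) (nat_lit 4) (nat_lit 4) (nat_lit 317) (nat_lit 246) (nat_lit 217)))) (XT.nd (nat_lit 156) (nat_lit 0) (nat_lit 0) (XT.nd (nat_lit 78) (nat_lit 0) (nat_lit 0) (XT.lf (nat_lit 0) (nat_lit 62964019744) (nat_lit 76) (nat_lit 21847897535) (nat_lit 76) (nat_lit 17288165543) (nat_lit 3) (nat_lit 4) (nat_lit 4) (nat_lit 5) (nat_lit 4) (nat_lit 4) (nat_lit 318) (nat_lit 246) (nat_lit 216)) (XT.lf (nat_lit 0) (nat_lit 74032419763) (nat_lit 76) (nat_lit 20290138214) (nat_lit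 76) (nat_lit 15693137027) (nat_lit 3) (nat_lit 4) (nat_lit 4) (nat_lit 5) (nat_lit 4) (nat_lit 4) (nat_lit 319) (nat_lit 246) (nat_lit 215))) (XT.nd (nat_lit 78) (nat_lit 0) (nat_lit 0) (XT.lf (nat_lit 0) (nat_lit 85914521057) (nat_lit 76) (nat_lit 18642274118) (nat_lit 76) (nat_lit 14010764417) (nat_lit 3) (nat_lit 4) (nat_lit 4) (nat_lit 5) (nat_lit 4) (nat_lit 4) (nat_lit 320) (nat_lit 246) (nat_lit 214)) (XT.lf (nat_lit 0) (nat_lit 98680736079) (nat_lit 76) (nat_lit 16894540127) (nat_lit 76) (nat_lit 12231078098) (nat_lit 3) (nat_lit 4) (nat_lit 4) (nat_lit 5) (nat_lit 4) (nat_lit 4) (nat_lit 321) (nat_lit 246) (nat_lit 213))))) (XT.nd (nat_lit 312) (nat_lit 152) (nat_lit 0) (XT.nd (nat_lit 156) (nat_lit 0) (nat_lit 0) (XT.nd (nat_lit 78) (nat_lit 0) (nat_lit 0) (XT.lf (nat_lit 0) (nat_lit 112406716472) (nat_lit 76) (nat_lit 15036579298) (nat_lit 76) (nat_lit 10343531780) (nat_lit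 3) (nat_lit 4) (nat_lit 4) (nat_lit 5) (nat_lit 4) (nat_lit 4) (nat_lit 322) (nat_lit 246) (nat_lit 212)) (XT.lf (nat_lit 0) (nat_lit 127173801380) (nat_lit 76) (nat_lit 13057381493) (nat_lit 76) (nat_lit 8336940004) (nat_lit 3) (nat_lit 4) (nat_lit 4) (nat_lit 5) (nat_lit 4) (nat_lit 4) (nat_lit 323) (nat_lit 246) (nat_lit 211))) (XT.nd (nat_lit 78) (nat_lit 0) (nat_lit 0) (XT.lf (nat_lit 0) (nat_lit 143069499454) (nat_lit 76) (nat_lit 10945218132) (nat_lit 76) (nat_lit 6199411856) (nat_lit 3) (nat_lit 4) (nat_lit 4) (nat_lit 5) (nat_lit 4) (nat_lit 4) (nat_lit 324) (nat_lit 246) (nat_lit 210)) (XT.lf (nat_lit 0) (nat_lit 160188007424) (nat_lit 76) (nat_lit 8687572692) (nat_lit 76) (nat_lit 3918280501) (nat_lit 3) (nat_lit 4) (nat_lit 4) (nat_lit 5) (nat_lit 4) (nat_lit 4) (nat_lit 325) (nat_lit 246) (nat_lit 209)))) (XT.nd (nat_lit 156) (nat_lit 76) (nat_lit 0) (XT.nd (nat_lit 78)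 (nat_lit 76) (nat_lit 0) (XT.lf (nat_lit 0) (nat_lit 178630768299) (nat_lit 76) (nat_lit 6271066533) (nat_lit 76) (nat_lit 1480028125) (nat_lit 3) (nat_lit 4) (nat_lit 4) (nat_lit 5) (nat_lit 4) (nat_lit 4) (nat_lit 326) (nat_lit 246) (nat_lit 208)) (XT.lf (nat_lit 0) (nat_lit 1073277294) (nat_lit 152) (nat_lit 2578757021) (nat_lit 76) (nat_lit 197404449917) (nat_lit 2) (nat_lit 5) (nat_lit 4) (nat_lit 5) (nat_lit 3) (nat_lit 4) (nat_lit 327) (nat_lit 246) (nat_lit 207))) (XT.nd (nat_lit 78) (nat_lit 0) (nat_lit 0) (XT.lf (nat_lit 0) (nat_lit 3083288877) (nat_lit 76) (nat_lit 721089270) (nat_lit 152) (nat_lit 213093353934) (nat_lit 1) (nat_lit 5) (nat_lit 2) (nat_lit 5) (nat_lit 3) (nat_lit 4) (nat_lit 328) (nat_lit 246) (nat_lit 206)) (XT.lf (nat_lit 0) (nat_lit 6864573941) (nat_lit 152) (nat_lit 224756331520) (nat_lit 0) (nat_lit 2376536424) (nat_lit 1) (nat_lit 5) (nat_lit 3) (nat_lit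 4) (nat_lit 1) (nat_lit 4) (nat_lit 329) (nat_lit 246) (nat_lit 205))))))) (XT.nd (nat_lit 1170) (nat_lit 0) (nat_lit 0) (XT.nd (nat_lit 546) (nat_lit 0) (nat_lit 0) (XT.nd (nat_lit 234) (nat_lit 0) (nat_lit 0) (XT.nd (nat_lit 78) (nat_lit 0) (nat_lit 0) (XT.lf (nat_lit 0) (nat_lit 10169316366) (nat_lit 152) (nat_lit 236629364779) (nat_lit 0) (nat_lit 5666478738) (nat_lit 1) (nat_lit 5) (nat_lit 3) (nat_lit 4) (nat_lit 1) (nat_lit 4) (nat_lit 330) (nat_lit 246) (nat_lit 204)) (XT.nd (nat_lit 78) (nat_lit 0) (nat_lit 0) (XT.lf (nat_lit 0) (nat_lit 13720846864) (nat_lit 152) (nat_lit 249486559483) (nat_lit 0) (nat_lit 9204305432) (nat_lit 1) (nat_lit 5) (nat_lit 3) (nat_lit 4) (nat_lit 1) (nat_lit 4) (nat_lit 331) (nat_lit 246) (nat_lit 203)) (XT.lf (nat_lit 0) (nat_lit 17540211545) (nat_lit 152) (nat_lit 263404106415) (nat_lit 0) (nat_lit 13010981403) (nat_lit 1) (nat_lit 5) (nat_lit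 3) (nat_lit 4) (nat_lit 1) (nat_lit 4) (nat_lit 332) (nat_lit 246) (nat_lit 202)))) (XT.nd (nat_lit 156) (nat_lit 0) (nat_lit 0) (XT.nd (nat_lit 78) (nat_lit 0) (nat_lit 0) (XT.lf (nat_lit 0) (nat_lit 21650043679) (nat_lit 152) (nat_lit 278464479929) (nat_lit 0) (nat_lit 17109064733) (nat_lit 1) (nat_lit 5) (nat_lit 3) (nat_lit 4) (nat_lit 1) (nat_lit 4) (nat_lit 333) (nat_lit 246) (nat_lit 201)) (XT.lf (nat_lit 0) (nat_lit 26074697828) (nat_lit 152) (nat_lit 294756926681) (nat_lit 0) (nat_lit 21522840359) (nat_lit 1) (nat_lit 5) (nat_lit 3) (nat_lit 4) (nat_lit 1) (nat_lit 4) (nat_lit 334) (nat_lit 246) (nat_lit 200))) (XT.nd (nat_lit 78) (nat_lit 0) (nat_lit 0) (XT.lf (nat_lit 0) (nat_lit 30840394163) (nat_lit 152) (nat_lit 312377994504) (nat_lit 0) (nat_lit 26278463988) (nat_lit 1) (nat_lit 5) (nat_lit 3) (nat_lit 4) (nat_lit 1) (nat_lit 4) (nat_lit 335) (nat_lit 246) (nat_lit 199))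 (XT.lf (nat_lit 0) (nat_lit 35975373850) (nat_lit 152) (nat_lit 331432104541) (nat_lit 0) (nat_lit 31404117095) (nat_lit 1) (nat_lit 5) (nat_lit 3) (nat_lit 4) (nat_lit 1) (nat_lit 4) (nat_lit 336) (nat_lit 246) (nat_lit 198))))) (XT.nd (nat_lit 312) (nat_lit 0) (nat_lit 0) (XT.nd (nat_lit 156) (nat_lit 0) (nat_lit 0) (XT.nd (nat_lit 78) (nat_lit 0) (nat_lit 0) (XT.lf (nat_lit 0) (nat_lit 41510066396) (nat_lit 152) (nat_lit 352032170037) (nat_lit 0) (nat_lit 36930173919) (nat_lit 1) (nat_lit 5) (nat_lit 3) (nat_lit 4) (nat_lit 1) (nat_lit 4) (nat_lit 337) (nat_lit 246) (nat_lit 197)) (XT.lf (nat_lit 0) (nat_lit 47477269981) (nat_lit 152) (nat_lit 374300265453) (nat_lit 0) (nat_lit 42889381464) (nat_lit 1) (nat_lit 5) (nat_lit 3) (nat_lit 4) (nat_lit 1) (nat_lit 4) (nat_lit 338) (nat_lit 246) (nat_lit 196))) (XT.nd (nat_lit 78) (nat_lit 0) (nat_lit 0) (XT.lf (nat_lit 0) (nat_lit 53912345809)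 (nat_lit 152) (nat_lit 398368349874) (nat_lit 0) (nat_lit 49317053553) (nat_lit 1) (nat_lit 5) (nat_lit 3) (nat_lit 4) (nat_lit 1) (nat_lit 4) (nat_lit 339) (nat_lit 246) (nat_lit 195)) (XT.lf (nat_lit 0) (nat_lit 60853427665) (nat_lit 152) (nat_lit 424379048986) (nat_lit 0) (nat_lit 56251280095) (nat_lit 1) (nat_lit 5) (nat_lit 3) (nat_lit 4) (nat_lit 1) (nat_lit 4) (nat_lit 340) (nat_lit 246) (nat_lit 194)))) (XT.nd (nat_lit 156) (nat_lit 0) (nat_lit 0) (XT.nd (nat_lit 78) (nat_lit 0) (nat_lit 0) (XT.lf (nat_lit 0) (nat_lit 68341647885) (nat_lit 152) (nat_lit 452486500263) (nat_lit 0) (nat_lit 63733152801) (nat_lit 1) (nat_lit 5) (nat_lit 3) (nat_lit 4) (nat_lit 1) (nat_lit 4) (nat_lit 341) (nat_lit 246) (nat_lit 193)) (XT.lf (nat_lit 0) (nat_lit 76421381107) (nat_lit 152) (nat_lit 482857266381) (nat_lit 0) (nat_lit 71807008696) (nat_lit 1) (nat_lit 5) (nat_lit 3) (nat_lit 4) (nat_lit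 1) (nat_lit 4) (nat_lit 342) (nat_lit 246) (nat_lit 192))) (XT.nd (nat_lit 78) (nat_lit 0) (nat_lit 0) (XT.lf (nat_lit 0) (nat_lit 85140507232) (nat_lit 152) (nat_lit 515671322251) (nat_lit 0) (nat_lit 80520692851) (nat_lit 1) (nat_lit 5) (nat_lit 3) (nat_lit 4) (nat_lit 1) (nat_lit 4) (nat_lit 343) (nat_lit 246) (nat_lit 191)) (XT.lf (nat_lit 0) (nat_lit 94550695156) (nat_lit 152) (nat_lit 551123121535) (nat_lit 0) (nat_lit 89925841914) (nat_lit 1) (nat_lit 5) (nat_lit 3) (nat_lit 4) (nat_lit 1) (nat_lit 4) (nat_lit 344) (nat_lit 246) (nat_lit 190)))))) (XT.nd (nat_lit 624) (nat_lit 0) (nat_lit 0) (XT.nd (nat_lit 312) (nat_lit 0) (nat_lit 0) (XT.nd (nat_lit 156) (nat_lit 0) (nat_lit 0) (XT.nd (nat_lit 78) (nat_lit 0) (nat_lit 0) (XT.lf (nat_lit 0) (nat_lit 104707708954) (nat_lit 152) (nat_lit 589422748972) (nat_lit 0) (nat_lit 100078190101) (nat_lit 1) (nat_lit 5) (nat_lit 3) (nat_lit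 4) (nat_lit 1) (nat_lit 4) (nat_lit 345) (nat_lit 246) (nat_lit 189)) (XT.lf (nat_lit 0) (nat_lit 115671738339) (nat_lit 152) (nat_lit 630797165315) (nat_lit 0) (nat_lit 111037899475) (nat_lit 1) (nat_lit 5) (nat_lit 3) (nat_lit 4) (nat_lit 1) (nat_lit 4) (nat_lit 346) (nat_lit 246) (nat_lit 188))) (XT.nd (nat_lit 78) (nat_lit 0) (nat_lit 0) (XT.lf (nat_lit 0) (nat_lit 127507755337) (nat_lit 152) (nat_lit 675491552292) (nat_lit 0) (nat_lit 122869916462) (nat_lit 1) (nat_lit 5) (nat_lit 3) (nat_lit 4) (nat_lit 1) (nat_lit 4) (nat_lit 347) (nat_lit 246) (nat_lit 187)) (XT.lf (nat_lit 0) (nat_lit 140285899307) (nat_lit 152) (nat_lit 723770765529) (nat_lit 0) (nat_lit 135644356719) (nat_lit 1) (nat_lit 5) (nat_lit 3) (nat_lit 4) (nat_lit 1) (nat_lit 4) (nat_lit 348) (nat_lit 246) (nat_lit 186)))) (XT.nd (nat_lit 156) (nat_lit 0) (nat_lit 0) (XT.nd (nat_lit 78) (nat_lit 0) (nat_lit 0) (XT.lf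 (nat_lit 0) (nat_lit 154081892584) (nat_lit 152) (nat_lit 775920904068) (nat_lit 0) (nat_lit 149436920632) (nat_lit 1) (nat_lit 5) (nat_lit 3) (nat_lit 4) (nat_lit 1) (nat_lit 4) (nat_lit 349) (nat_lit 246) (nat_lit 185)) (XT.lf (nat_lit 0) (nat_lit 168977489202) (nat_lit 152) (nat_lit 832251005766) (nat_lit 0) (nat_lit 164329341913) (nat_lit 1) (nat_lit 5) (nat_lit 3) (nat_lit 4) (nat_lit 1) (nat_lit 4) (nat_lit 350) (nat_lit 246) (nat_lit 184))) (XT.nd (nat_lit 78) (nat_lit 0) (nat_lit 0) (XT.lf (nat_lit 0) (nat_lit 185060959364) (nat_lit 152) (nat_lit 893094878633) (nat_lit 0) (nat_lit 180409871948) (nat_lit 1) (nat_lit 5) (nat_lit 3) (nat_lit 4) (nat_lit 1) (nat_lit 4) (nat_lit 351) (nat_lit 246) (nat_lit 183)) (XT.lf (nat_lit 0) (nat_lit 202427612522) (nat_lit 152) (nat_lit 958813078954) (nat_lit 0) (nat_lit 197773802766) (nat_lit 1) (nat_lit 5) (nat_lit 3) (nat_lit 4) (nat_lit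 1) (nat_lit 4) (nat_lit 352) (nat_lit 246) (nat_lit 182))))) (XT.nd (nat_lit 312) (nat_lit 0) (nat_lit 0) (XT.nd (nat_lit 156) (nat_lit 0) (nat_lit 0) (XT.nd (nat_lit 78) (nat_lit 0) (nat_lit 0) (XT.lf (nat_lit 0) (nat_lit 221180362177) (nat_lit 152) (nat_lit 1029795047915) (nat_lit 0) (nat_lit 216524031736) (nat_lit 1) (nat_lit 5) (nat_lit 3) (nat_lit 4) (nat_lit 1) (nat_lit 4) (nat_lit 353) (nat_lit 246) (nat_lit 181)) (XT.lf (nat_lit 0) (nat_lit 241430335733) (nat_lit 152) (nat_lit 1106461419406) (nat_lit 0) (nat_lit 236771671325) (nat_lit 1) (nat_lit 5) (nat_lit 3) (nat_lit 4) (nat_lit 1) (nat_lit 4) (nat_lit 354) (nat_lit 246) (nat_lit 180))) (XT.nd (nat_lit 78) (nat_lit 0) (nat_lit 0) (XT.lf (nat_lit 0) (nat_lit 263297533035) (nat_lit 152) (nat_lit 1189266512666) (nat_lit 0) (nat_lit 258636707545) (nat_lit 1) (nat_lit 5) (nat_lit 3) (nat_lit 4) (nat_lit 1) (nat_lit 4) (nat_lit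 355) (nat_lit 246) (nat_lit 179)) (XT.lf (nat_lit 0) (nat_lit 286911537473) (nat_lit 152) (nat_lit 1278701024544) (nat_lit 0) (nat_lit 282248710983) (nat_lit 1) (nat_lit 5) (nat_lit 3) (nat_lit 4) (nat_lit 1) (nat_lit 4) (nat_lit 356) (nat_lit 246) (nat_lit 178)))) (XT.nd (nat_lit 156) (nat_lit 0) (nat_lit 0) (XT.nd (nat_lit 78) (nat_lit 0) (nat_lit 0) (XT.lf (nat_lit 0) (nat_lit 312412283889) (nat_lit 152) (nat_lit 1375294937332) (nat_lit 0) (nat_lit 307747604620) (nat_lit 1) (nat_lit 5) (nat_lit 3) (nat_lit 4) (nat_lit 1) (nat_lit 4) (nat_lit 357) (nat_lit 246) (nat_lit 177)) (XT.lf (nat_lit 0) (nat_lit 339950887817) (nat_lit 152) (nat_lit 1479620659403) (nat_lit 0) (nat_lit 335284493012) (nat_lit 1) (nat_lit 5) (nat_lit 3) (nat_lit 4) (nat_lit 1) (nat_lit 4) (nat_lit 358) (nat_lit 246) (nat_lit 176))) (XT.nd (nat_lit 78) (nat_lit 0) (nat_lit 0) (XT.lf (nat_lit 0) (nat_lit 369690540984)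 (nat_lit 152) (nat_lit 1592296417258) (nat_lit 0) (nat_lit 365022557720) (nat_lit 1) (nat_lit 5) (nat_lit 3) (nat_lit 4) (nat_lit 1) (nat_lit 4) (nat_lit 359) (nat_lit 246) (nat_lit 175)) (XT.lf (nat_lit 0) (nat_lit 401807478371) (nat_lit 152) (nat_lit 1713989919091) (nat_lit 0) (nat_lit 397138024312) (nat_lit 1) (nat_lit 5) (nat_lit 3) (nat_lit 4) (nat_lit 1) (nat_lit 4) (nat_lit 360) (nat_lit 246) (nat_lit 174))))))))
noncomputable def xc29 : XT := (XT.nd (nat_lit 36504) (nat_lit 0) (nat_lit 0) (XT.nd (nat_lit 35256) (nat_lit 0) (nat_lit 228) (XT.nd (nat_lit 546) (nat_lit 0) (nat_lit 0) (XT.nd (nat_lit 234) (nat_lit 0) (nat_lit 0) (XT.nd (nat_lit 78) (nat_lit 0) (nat_lit 0) (XT.lf (nat_lit 0) (nat_lit 436492022572) (nat_lit 152) (nat_lit 1845422311579) (nat_lit 0) (nat_lit 431821206664) (nat_lit 1) (nat_lit 5) (nat_lit 3) (nat_lit 4) (nat_lit 1) (nat_lit 4) (nat_lit 361) (nat_lit 246)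 (nat_lit 173)) (XT.nd (nat_lit 78) (nat_lit 0) (nat_lit 0) (XT.lf (nat_lit 0) (nat_lit 473949711624) (nat_lit 152) (nat_lit 1987372453346) (nat_lit 0) (nat_lit 469277634747) (nat_lit 1) (nat_lit 5) (nat_lit 3) (nat_lit 4) (nat_lit 1) (nat_lit 4) (nat_lit 362) (nat_lit 246) (nat_lit 172)) (XT.lf (nat_lit 0) (nat_lit 514402517020) (nat_lit 152) (nat_lit 2140681530416) (nat_lit 0) (nat_lit 509729272577) (nat_lit 1) (nat_lit 5) (nat_lit 3) (nat_lit 4) (nat_lit 1) (nat_lit 4) (nat_lit 363) (nat_lit 246) (nat_lit 171)))) (XT.nd (nat_lit 156) (nat_lit 0) (nat_lit 0) (XT.nd (nat_lit 78) (nat_lit 0) (nat_lit 0) (XT.lf (nat_lit 0) (nat_lit 558090159087) (nat_lit 152) (nat_lit 2306258041024) (nat_lit 0) (nat_lit 553415833566) (nat_lit 1) (nat_lit 5) (nat_lit 3) (nat_lit 4) (nat_lit 1) (nat_lit 4) (nat_lit 364) (nat_lit 246) (nat_lit 170)) (XT.lf (nat_lit 0) (nat_lit 605271527556) (nat_lit 152)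 (nat_lit 2485083179307) (nat_lit 0) (nat_lit 600596201036) (nat_lit 1) (nat_lit 5) (nat_lit 3) (nat_lit 4) (nat_lit 1) (nat_lit 4) (nat_lit 365) (nat_lit 246) (nat_lit 169))) (XT.nd (nat_lit 78) (nat_lit 0) (nat_lit 0) (XT.lf (nat_lit 0) (nat_lit 656226215721) (nat_lit 152) (nat_lit 2678216649788) (nat_lit 0) (nat_lit 651549962351) (nat_lit 1) (nat_lit 5) (nat_lit 3) (nat_lit 4) (nat_lit 1) (nat_lit 4) (nat_lit 366) (nat_lit 246) (nat_lit 168)) (XT.lf (nat_lit 0) (nat_lit 711256177291) (nat_lit 152) (nat_lit 2886802947106) (nat_lit 0) (nat_lit 706579065726) (nat_lit 1) (nat_lit 5) (nat_lit 3) (nat_lit 4) (nat_lit 1) (nat_lit 4) (nat_lit 367) (nat_lit 246) (nat_lit 167))))) (XT.nd (nat_lit 34398) (nat_lit 0) (nat_lit 836) (XT.nd (nat_lit 34242) (nat_lit 0) (nat_lit 1064) (XT.nd (nat_lit 78) (nat_lit 0) (nat_lit 0) (XT.lf (nat_lit 0) (nat_lit 770687515741) (nat_lit 152) (nat_lit 3112078138210)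 (nat_lit 0) (nat_lit 766009609551) (nat_lit 1) (nat_lit 5) (nat_lit 3) (nat_lit 4) (nat_lit 1) (nat_lit 4) (nat_lit 368) (nat_lit 246) (nat_lit 166)) (XT.lf (nat_lit 0) (nat_lit 834872416781) (nat_lit 152) (nat_lit 3355377187193) (nat_lit 0) (nat_lit 830193774827) (nat_lit 1) (nat_lit 5) (nat_lit 3) (nat_lit 4) (nat_lit 1) (nat_lit 4) (nat_lit 369) (nat_lit 246) (nat_lit 165))) (XT.nd (nat_lit 78) (nat_lit 0) (nat_lit 0) (XT.lf (nat_lit 0) (nat_lit 193870692) (nat_lit 152) (nat_lit 3078802133) (nat_lit 152) (nat_lit 3078802133) (nat_lit 15) (nat_lit 4) (nat_lit 17) (nat_lit 5) (nat_lit 17) (nat_lit 4) (nat_lit 286) (nat_lit 247) (nat_lit 247)) (XT.lf (nat_lit 0) (nat_lit 8666698608) (nat_lit 152) (nat_lit 2606301635) (nat_lit 152) (nat_lit 2055263757) (nat_lit 15) (nat_lit 4) (nat_lit 17) (nat_lit 5) (nat_lit 17) (nat_lit 4) (nat_lit 287) (nat_lit 247) (nat_lit 246)))) (XT.nd (nat_lit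 156) (nat_lit 76) (nat_lit 0) (XT.nd (nat_lit 78) (nat_lit 0) (nat_lit 0) (XT.lf (nat_lit 0) (nat_lit 2124242421) (nat_lit 152) (nat_lit 10744086449) (nat_lit 0) (nat_lit 1141596001) (nat_lit 13) (nat_lit 5) (nat_lit 15) (nat_lit 4) (nat_lit 13) (nat_lit 4) (nat_lit 288) (nat_lit 247) (nat_lit 245)) (XT.lf (nat_lit 0) (nat_lit 6489069499) (nat_lit 152) (nat_lit 3187119343) (nat_lit 0) (nat_lit 5068991446) (nat_lit 13) (nat_lit 5) (nat_lit 15) (nat_lit 4) (nat_lit 13) (nat_lit 4) (nat_lit 289) (nat_lit 247) (nat_lit 244))) (XT.nd (nat_lit 78) (nat_lit 0) (nat_lit 0) (XT.lf (nat_lit 0) (nat_lit 4827616001) (nat_lit 76) (nat_lit 6272622776) (nat_lit 76) (nat_lit 4447515433) (nat_lit 12) (nat_lit 4) (nat_lit 13) (nat_lit 5) (nat_lit 13) (nat_lit 4) (nat_lit 290) (nat_lit 247) (nat_lit 243)) (XT.lf (nat_lit 0) (nat_lit 13286328468) (nat_lit 76) (nat_lit 2669282887) (nat_lit 76) (nat_lit 469148423)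 (nat_lit 12) (nat_lit 4) (nat_lit 13) (nat_lit 5) (nat_lit 13) (nat_lit 4) (nat_lit 291) (nat_lit 247) (nat_lit 242)))))) (XT.nd (nat_lit 624) (nat_lit 228) (nat_lit 0) (XT.nd (nat_lit 312) (nat_lit 152) (nat_lit 0) (XT.nd (nat_lit 156) (nat_lit 76) (nat_lit 0) (XT.nd (nat_lit 78) (nat_lit 0) (nat_lit 0) (XT.lf (nat_lit 0) (nat_lit 3581901026) (nat_lit 152) (nat_lit 12563990907) (nat_lit 0) (nat_lit 1223214176) (nat_lit 10) (nat_lit 5) (nat_lit 12) (nat_lit 4) (nat_lit 10) (nat_lit 4) (nat_lit 292) (nat_lit 247) (nat_lit 241)) (XT.lf (nat_lit 0) (nat_lit 7890280337) (nat_lit 152) (nat_lit 5267371583) (nat_lit 0) (nat_lit 5233884869) (nat_lit 10) (nat_lit 5) (nat_lit 12) (nat_lit 4) (nat_lit 10) (nat_lit 4) (nat_lit 293) (nat_lit 247) (nat_lit 240))) (XT.nd (nat_lit 78) (nat_lit 0) (nat_lit 0) (XT.lf (nat_lit 0) (nat_lit 2395669751) (nat_lit 76) (nat_lit 10021221502) (nat_lit 76) (nat_lit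 7089169905) (nat_lit 9) (nat_lit 4) (nat_lit 10) (nat_lit 5) (nat_lit 10) (nat_lit 4) (nat_lit 294) (nat_lit 247) (nat_lit 239)) (XT.lf (nat_lit 0) (nat_lit 10642701251) (nat_lit 76) (nat_lit 6628624931) (nat_lit 76) (nat_lit 3441336177) (nat_lit 9) (nat_lit 4) (nat_lit 10) (nat_lit 5) (nat_lit 10) (nat_lit 4) (nat_lit 295) (nat_lit 247) (nat_lit 238)))) (XT.nd (nat_lit 156) (nat_lit 0) (nat_lit 0) (XT.nd (nat_lit 78) (nat_lit 76) (nat_lit 0) (XT.lf (nat_lit 0) (nat_lit 303842444) (nat_lit 152) (nat_lit 2791627168) (nat_lit 76) (nat_lit 18933073727) (nat_lit 8) (nat_lit 5) (nat_lit 10) (nat_lit 5) (nat_lit 9) (nat_lit 4) (nat_lit 296) (nat_lit 247) (nat_lit 237)) (XT.lf (nat_lit 0) (nat_lit 4143967506) (nat_lit 152) (nat_lit 18528877504) (nat_lit 0) (nat_lit 771334009) (nat_lit 7) (nat_lit 5) (nat_lit 9) (nat_lit 4) (nat_lit 7) (nat_lit 4) (nat_lit 297) (nat_lit 247) (nat_lit 236)))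 (XT.nd (nat_lit 78) (nat_lit 0) (nat_lit 0) (XT.lf (nat_lit 0) (nat_lit 8294707453) (nat_lit 152) (nat_lit 11943744003) (nat_lit 0) (nat_lit 4734467026) (nat_lit 7) (nat_lit 5) (nat_lit 9) (nat_lit 4) (nat_lit 7) (nat_lit 4) (nat_lit 298) (nat_lit 247) (nat_lit 235)) (XT.lf (nat_lit 0) (nat_lit 12633703347) (nat_lit 152) (nat_lit 5102121251) (nat_lit 0) (nat_lit 8899752800) (nat_lit 7) (nat_lit 5) (nat_lit 9) (nat_lit 4) (nat_lit 7) (nat_lit 4) (nat_lit 299) (nat_lit 247) (nat_lit 234))))) (XT.nd (nat_lit 312) (nat_lit 152) (nat_lit 0) (XT.nd (nat_lit 156) (nat_lit 0) (nat_lit 0) (XT.nd (nat_lit 78) (nat_lit 0) (nat_lit 0) (XT.lf (nat_lit 0) (nat_lit 2143773955) (nat_lit 76) (nat_lit 15094451615) (nat_lit 76) (nat_lit 11199658365) (nat_lit 6) (nat_lit 4) (nat_lit 7) (nat_lit 5) (nat_lit 7) (nat_lit 4) (nat_lit 300) (nat_lit 247) (nat_lit 233)) (XT.lf (nat_lit 0) (nat_lit 10015541965)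 (nat_lit 76) (nat_lit 12205913269) (nat_lit 76) (nat_lit 8162191590) (nat_lit 6) (nat_lit 4) (nat_lit 7) (nat_lit 5) (nat_lit 7) (nat_lit 4) (nat_lit 301) (nat_lit 247) (nat_lit 232))) (XT.nd (nat_lit 78) (nat_lit 0) (nat_lit 0) (XT.lf (nat_lit 0) (nat_lit 18291161627) (nat_lit 76) (nat_lit 9192593334) (nat_lit 76) (nat_lit 5010974961) (nat_lit 6) (nat_lit 4) (nat_lit 7) (nat_lit 5) (nat_lit 7) (nat_lit 4) (nat_lit 302) (nat_lit 247) (nat_lit 231)) (XT.lf (nat_lit 0) (nat_lit 27019673651) (nat_lit 76) (nat_lit 6036635098) (nat_lit 76) (nat_lit 1727334601) (nat_lit 6) (nat_lit 4) (nat_lit 7) (nat_lit 5) (nat_lit 7) (nat_lit 4) (nat_lit 303) (nat_lit 247) (nat_lit 230)))) (XT.nd (nat_lit 156) (nat_lit 0) (nat_lit 0) (XT.nd (nat_lit 78) (nat_lit 76) (nat_lit 0) (XT.lf (nat_lit 0) (nat_lit 1622737611) (nat_lit 152) (nat_lit 1052230455) (nat_lit 76) (nat_lit 34585696420) (nat_lit 5) (nat_lit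 5) (nat_lit 7) (nat_lit 5) (nat_lit 6) (nat_lit 4) (nat_lit 304) (nat_lit 247) (nat_lit 229)) (XT.lf (nat_lit 0) (nat_lit 5227069769) (nat_lit 152) (nat_lit 33672738284) (nat_lit 0) (nat_lit 1026151688) (nat_lit 4) (nat_lit 5) (nat_lit 6) (nat_lit 4) (nat_lit 4) (nat_lit 4) (nat_lit 305) (nat_lit 247) (nat_lit 228))) (XT.nd (nat_lit 78) (nat_lit 0) (nat_lit 0) (XT.lf (nat_lit 0) (nat_lit 9122120695) (nat_lit 152) (nat_lit 28854878396) (nat_lit 0) (nat_lit 4827352441) (nat_lit 4) (nat_lit 5) (nat_lit 6) (nat_lit 4) (nat_lit 4) (nat_lit 4) (nat_lit 306) (nat_lit 247) (nat_lit 227)) (XT.lf (nat_lit 0) (nat_lit 13239308465) (nat_lit 152) (nat_lit 23823279723) (nat_lit 0) (nat_lit 8857641903) (nat_lit 4) (nat_lit 5) (nat_lit 6) (nat_lit 4) (nat_lit 4) (nat_lit 4) (nat_lit 307) (nat_lit 247) (nat_lit 226))))))) (XT.nd (nat_lit 1170) (nat_lit 152) (nat_lit 0) (XT.nd (nat_lit 546) (nat_lit 0)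 (nat_lit 0) (XT.nd (nat_lit 234) (nat_lit 76) (nat_lit 0) (XT.nd (nat_lit 78) (nat_lit 0) (nat_lit 0) (XT.lf (nat_lit 0) (nat_lit 17603031229) (nat_lit 152) (nat_lit 18548125384) (nat_lit 0) (nat_lit 13140903271) (nat_lit 4) (nat_lit 5) (nat_lit 6) (nat_lit 4) (nat_lit 4) (nat_lit 4) (nat_lit 308) (nat_lit 247) (nat_lit 225)) (XT.nd (nat_lit 78) (nat_lit 0) (nat_lit 0) (XT.lf (nat_lit 0) (nat_lit 22239148085) (nat_lit 152) (nat_lit 12998155207) (nat_lit 0) (nat_lit 17702518834) (nat_lit 4) (nat_lit 5) (nat_lit 6) (nat_lit 4) (nat_lit 4) (nat_lit 4) (nat_lit 309) (nat_lit 247) (nat_lit 224)) (XT.lf (nat_lit 0) (nat_lit 27175132317) (nat_lit 152) (nat_lit 7140480479) (nat_lit 0) (nat_lit 22569520388) (nat_lit 4) (nat_lit 5) (nat_lit 6) (nat_lit 4) (nat_lit 4) (nat_lit 4) (nat_lit 310) (nat_lit 247) (nat_lit 223)))) (XT.nd (nat_lit 156) (nat_lit 0) (nat_lit 0) (XT.nd (nat_lit 78) (nat_lit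 76) (nat_lit 0) (XT.lf (nat_lit 0) (nat_lit 32440234203) (nat_lit 152) (nat_lit 940389053) (nat_lit 0) (nat_lit 27770749423) (nat_lit 4) (nat_lit 5) (nat_lit 6) (nat_lit 4) (nat_lit 4) (nat_lit 4) (nat_lit 311) (nat_lit 247) (nat_lit 222)) (XT.lf (nat_lit 0) (nat_lit 5935792745) (nat_lit 76) (nat_lit 32272617559) (nat_lit 76) (nat_lit 27543991250) (nat_lit 3) (nat_lit 4) (nat_lit 4) (nat_lit 5) (nat_lit 4) (nat_lit 4) (nat_lit 312) (nat_lit 247) (nat_lit 221))) (XT.nd (nat_lit 78) (nat_lit 0) (nat_lit 0) (XT.lf (nat_lit 0) (nat_lit 13301658724) (nat_lit 76) (nat_lit 31102975058) (nat_lit 76) (nat_lit 26319588075) (nat_lit 3) (nat_lit 4) (nat_lit 4) (nat_lit 5) (nat_lit 4) (nat_lit 4) (nat_lit 313) (nat_lit 247) (nat_lit 220)) (XT.lf (nat_lit 0) (nat_lit 21151339239) (nat_lit 76) (nat_lit 29890476441) (nat_lit 76) (nat_lit 25056385130) (nat_lit 3) (nat_lit 4) (nat_lit 4) (nat_lit 5) (nat_lit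 4) (nat_lit 4) (nat_lit 314) (nat_lit 247) (nat_lit 219))))) (XT.nd (nat_lit 312) (nat_lit 0) (nat_lit 0) (XT.nd (nat_lit 156) (nat_lit 0) (nat_lit 0) (XT.nd (nat_lit 78) (nat_lit 0) (nat_lit 0) (XT.lf (nat_lit 0) (nat_lit 29531350913) (nat_lit 76) (nat_lit 28627936532) (nat_lit 76) (nat_lit 23746896769) (nat_lit 3) (nat_lit 4) (nat_lit 4) (nat_lit 5) (nat_lit 4) (nat_lit 4) (nat_lit 315) (nat_lit 247) (nat_lit 218)) (XT.lf (nat_lit 0) (nat_lit 38491353076) (nat_lit 76) (nat_lit 27307873613) (nat_lit 76) (nat_lit 22383363060) (nat_lit 3) (nat_lit 4) (nat_lit 4) (nat_lit 5) (nat_lit 4) (nat_lit 4) (nat_lit 316) (nat_lit 247) (nat_lit 217))) (XT.nd (nat_lit 78) (nat_lit 0) (nat_lit 0) (XT.lf (nat_lit 0) (nat_lit 48084442037) (nat_lit 76) (nat_lit 25922465088) (nat_lit 76) (nat_lit 20957703805) (nat_lit 3) (nat_lit 4) (nat_lit 4) (nat_lit 5) (nat_lit 4) (nat_lit 4) (nat_lit 317) (nat_lit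 247) (nat_lit 216)) (XT.lf (nat_lit 0) (nat_lit 58367465730) (nat_lit 76) (nat_lit 24463501130) (nat_lit 76) (nat_lit 19461470652) (nat_lit 3) (nat_lit 4) (nat_lit 4) (nat_lit 5) (nat_lit 4) (nat_lit 4) (nat_lit 318) (nat_lit 247) (nat_lit 215)))) (XT.nd (nat_lit 156) (nat_lit 0) (nat_lit 0) (XT.nd (nat_lit 78) (nat_lit 0) (nat_lit 0) (XT.lf (nat_lit 0) (nat_lit 69401360592) (nat_lit 76) (nat_lit 22922336025) (nat_lit 76) (nat_lit 17885797034) (nat_lit 3) (nat_lit 4) (nat_lit 4) (nat_lit 5) (nat_lit 4) (nat_lit 4) (nat_lit 319) (nat_lit 247) (nat_lit 214)) (XT.lf (nat_lit 0) (nat_lit 81251512667) (nat_lit 76) (nat_lit 21289836945) (nat_lit 76) (nat_lit 16221345626) (nat_lit 3) (nat_lit 4) (nat_lit 4) (nat_lit 5) (nat_lit 4) (nat_lit 4) (nat_lit 320) (nat_lit 247) (nat_lit 213))) (XT.nd (nat_lit 78) (nat_lit 0) (nat_lit 0) (XT.lf (nat_lit 0) (nat_lit 93988145077) (nat_lit 76) (nat_lit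 19556329820) (nat_lit 76) (nat_lit 14458253012) (nat_lit 3) (nat_lit 4) (nat_lit 4) (nat_lit 5) (nat_lit 4) (nat_lit 4) (nat_lit 321) (nat_lit 247) (nat_lit 212)) (XT.lf (nat_lit 0) (nat_lit 107686734164) (nat_lit 76) (nat_lit 17711542015) (nat_lit 76) (nat_lit 12586071237) (nat_lit 3) (nat_lit 4) (nat_lit 4) (nat_lit 5) (nat_lit 4) (nat_lit 4) (nat_lit 322) (nat_lit 247) (nat_lit 211)))))) (XT.nd (nat_lit 624) (nat_lit 0) (nat_lit 0) (XT.nd (nat_lit 312) (nat_lit 152) (nat_lit 0) (XT.nd (nat_lit 156) (nat_lit 0) (nat_lit 0) (XT.nd (nat_lit 78) (nat_lit 0) (nat_lit 0) (XT.lf (nat_lit 0) (nat_lit 122428456752) (nat_lit 76) (nat_lit 15744541454) (nat_lit 76) (nat_lit 10593705888) (nat_lit 3) (nat_lit 4) (nat_lit 4) (nat_lit 5) (nat_lit 4) (nat_lit 4) (nat_lit 323) (nat_lit 247) (nat_lit 210)) (XT.lf (nat_lit 0) (nat_lit 138300671196) (nat_lit 76) (nat_lit 13643671838) (nat_lit 76) (nat_lit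 8469350358) (nat_lit 3) (nat_lit 4) (nat_lit 4) (nat_lit 5) (nat_lit 4) (nat_lit 4) (nat_lit 324) (nat_lit 247) (nat_lit 209))) (XT.nd (nat_lit 78) (nat_lit 0) (nat_lit 0) (XT.lf (nat_lit 0) (nat_lit 155397435064) (nat_lit 76) (nat_lit 11396483570) (nat_lit 76) (nat_lit 6200415872) (nat_lit 3) (nat_lit 4) (nat_lit 4) (nat_lit 5) (nat_lit 4) (nat_lit 4) (nat_lit 325) (nat_lit 247) (nat_lit 208)) (XT.lf (nat_lit 0) (nat_lit 173820062512) (nat_lit 76) (nat_lit 8989659977) (nat_lit 76) (nat_lit 3773456893) (nat_lit 3) (nat_lit 4) (nat_lit 4) (nat_lit 5) (nat_lit 4) (nat_lit 4) (nat_lit 326) (nat_lit 247) (nat_lit 207)))) (XT.nd (nat_lit 156) (nat_lit 76) (nat_lit 0) (XT.nd (nat_lit 78) (nat_lit 76) (nat_lit 0) (XT.lf (nat_lit 0) (nat_lit 193677724665) (nat_lit 76) (nat_lit 6408938402) (nat_lit 76) (nat_lit 1174091442) (nat_lit 3) (nat_lit 4) (nat_lit 4) (nat_lit 5) (nat_lit 4) (nat_lit 4)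 (nat_lit 327) (nat_lit 247) (nat_lit 206)) (XT.lf (nat_lit 0) (nat_lit 1532391127) (nat_lit 152) (nat_lit 2064736263) (nat_lit 76) (nat_lit 213513807142) (nat_lit 2) (nat_lit 5) (nat_lit 4) (nat_lit 5) (nat_lit 3) (nat_lit 4) (nat_lit 328) (nat_lit 247) (nat_lit 205))) (XT.nd (nat_lit 78) (nat_lit 0) (nat_lit 0) (XT.lf (nat_lit 0) (nat_lit 4032037325) (nat_lit 76) (nat_lit 439179623) (nat_lit 152) (nat_lit 229749141739) (nat_lit 1) (nat_lit 5) (nat_lit 2) (nat_lit 5) (nat_lit 3) (nat_lit 4) (nat_lit 329) (nat_lit 247) (nat_lit 204)) (XT.lf (nat_lit 0) (nat_lit 7756939727) (nat_lit 152) (nat_lit 242067291757) (nat_lit 0) (nat_lit 2865371173) (nat_lit 1) (nat_lit 5) (nat_lit 3) (nat_lit 4) (nat_lit 1) (nat_lit 4) (nat_lit 330) (nat_lit 247) (nat_lit 203))))) (XT.nd (nat_lit 312) (nat_lit 0) (nat_lit 0) (XT.nd (nat_lit 156) (nat_lit 0) (nat_lit 0) (XT.nd (nat_lit 78) (nat_lit 0) (nat_lit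 0) (XT.lf (nat_lit 0) (nat_lit 11300639332) (nat_lit 152) (nat_lit 254939763697) (nat_lit 0) (nat_lit 6396382070) (nat_lit 1) (nat_lit 5) (nat_lit 3) (nat_lit 4) (nat_lit 1) (nat_lit 4) (nat_lit 331) (nat_lit 247) (nat_lit 202)) (XT.lf (nat_lit 0) (nat_lit 15112753185) (nat_lit 152) (nat_lit 268871456219) (nat_lit 0) (nat_lit 10196747119) (nat_lit 1) (nat_lit 5) (nat_lit 3) (nat_lit 4) (nat_lit 1) (nat_lit 4) (nat_lit 332) (nat_lit 247) (nat_lit 201))) (XT.nd (nat_lit 78) (nat_lit 0) (nat_lit 0) (XT.lf (nat_lit 0) (nat_lit 19215871590) (nat_lit 152) (nat_lit 283944927501) (nat_lit 0) (nat_lit 14288987001) (nat_lit 1) (nat_lit 5) (nat_lit 3) (nat_lit 4) (nat_lit 1) (nat_lit 4) (nat_lit 333) (nat_lit 247) (nat_lit 200)) (XT.lf (nat_lit 0) (nat_lit 23634309323) (nat_lit 152) (nat_lit 300249501816) (nat_lit 0) (nat_lit 18697352028) (nat_lit 1) (nat_lit 5) (nat_lit 3) (nat_lit 4) (nat_lit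 1) (nat_lit 4) (nat_lit 334) (nat_lit 247) (nat_lit 199)))) (XT.nd (nat_lit 156) (nat_lit 0) (nat_lit 0) (XT.nd (nat_lit 78) (nat_lit 0) (nat_lit 0) (XT.lf (nat_lit 0) (nat_lit 28394249719) (nat_lit 152) (nat_lit 317881798864) (nat_lit 0) (nat_lit 23447965843) (nat_lit 1) (nat_lit 5) (nat_lit 3) (nat_lit 4) (nat_lit 1) (nat_lit 4) (nat_lit 335) (nat_lit 247) (nat_lit 198)) (XT.lf (nat_lit 0) (nat_lit 33523899831) (nat_lit 152) (nat_lit 336946306332) (nat_lit 0) (nat_lit 28568980233) (nat_lit 1) (nat_lit 5) (nat_lit 3) (nat_lit 4) (nat_lit 1) (nat_lit 4) (nat_lit 336) (nat_lit 247) (nat_lit 197))) (XT.nd (nat_lit 78) (nat_lit 0) (nat_lit 0) (XT.lf (nat_lit 0) (nat_lit 39053657586) (nat_lit 152) (nat_lit 357555999078) (nat_lit 0) (nat_lit 34090741949) (nat_lit 1) (nat_lit 5) (nat_lit 3) (nat_lit 4) (nat_lit 1) (nat_lit 4) (nat_lit 337) (nat_lit 247) (nat_lit 196)) (XT.lf (nat_lit 0) (nat_lit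 45016291919) (nat_lit 152) (nat_lit 379833008615) (nat_lit 0) (nat_lit 40045972543) (nat_lit 1) (nat_lit 5) (nat_lit 3) (nat_lit 4) (nat_lit 1) (nat_lit 4) (nat_lit 338) (nat_lit 247) (nat_lit 195))))))))
noncomputable def xc30 : XT := (XT.nd (nat_lit 2340) (nat_lit 0) (nat_lit 0) (XT.nd (nat_lit 1170) (nat_lit 0) (nat_lit 0) (XT.nd (nat_lit 546) (nat_lit 0) (nat_lit 0) (XT.nd (nat_lit 234) (nat_lit 0) (nat_lit 0) (XT.nd (nat_lit 78) (nat_lit 0) (nat_lit 0) (XT.lf (nat_lit 0) (nat_lit 51447136960) (nat_lit 152) (nat_lit 403909346852) (nat_lit 0) (nat_lit 46469962269) (nat_lit 1) (nat_lit 5) (nat_lit 3) (nat_lit 4) (nat_lit 1) (nat_lit 4) (nat_lit 339) (nat_lit 247) (nat_lit 194)) (XT.nd (nat_lit 78) (nat_lit 0) (nat_lit 0) (XT.lf (nat_lit 0) (nat_lit 58384301419) (nat_lit 152) (nat_lit 429927688385) (nat_lit 0) (nat_lit 53400779215) (nat_lit 1) (nat_lit 5) (nat_lit 3) (nat_lit 4) (nat_lit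 1) (nat_lit 4) (nat_lit 340) (nat_lit 247) (nat_lit 193)) (XT.lf (nat_lit 0) (nat_lit 65868894420) (nat_lit 152) (nat_lit 458042215979) (nat_lit 0) (nat_lit 60879494888) (nat_lit 1) (nat_lit 5) (nat_lit 3) (nat_lit 4) (nat_lit 1) (nat_lit 4) (nat_lit 341) (nat_lit 247) (nat_lit 192)))) (XT.nd (nat_lit 156) (nat_lit 0) (nat_lit 0) (XT.nd (nat_lit 78) (nat_lit 0) (nat_lit 0) (XT.lf (nat_lit 0) (nat_lit 73945269106) (nat_lit 152) (nat_lit 488419534243) (nat_lit 0) (nat_lit 68950427605) (nat_lit 1) (nat_lit 5) (nat_lit 3) (nat_lit 4) (nat_lit 1) (nat_lit 4) (nat_lit 342) (nat_lit 247) (nat_lit 191)) (XT.lf (nat_lit 0) (nat_lit 82661285476) (nat_lit 152) (nat_lit 521239656913) (nat_lit 0) (nat_lit 77661405113) (nat_lit 1) (nat_lit 5) (nat_lit 3) (nat_lit 4) (nat_lit 1) (nat_lit 4) (nat_lit 343) (nat_lit 247) (nat_lit 190))) (XT.nd (nat_lit 78) (nat_lit 0) (nat_lit 0) (XT.lf (nat_lit 0) (nat_lit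 92068593996) (nat_lit 152) (nat_lit 556697073605) (nat_lit 0) (nat_lit 87064048022) (nat_lit 1) (nat_lit 5) (nat_lit 3) (nat_lit 4) (nat_lit 1) (nat_lit 4) (nat_lit 344) (nat_lit 247) (nat_lit 189)) (XT.lf (nat_lit 0) (nat_lit 102222941680) (nat_lit 152) (nat_lit 595001902346) (nat_lit 0) (nat_lit 97214075695) (nat_lit 1) (nat_lit 5) (nat_lit 3) (nat_lit 4) (nat_lit 1) (nat_lit 4) (nat_lit 345) (nat_lit 247) (nat_lit 188))))) (XT.nd (nat_lit 312) (nat_lit 0) (nat_lit 0) (XT.nd (nat_lit 156) (nat_lit 0) (nat_lit 0) (XT.nd (nat_lit 78) (nat_lit 0) (nat_lit 0) (XT.lf (nat_lit 0) (nat_lit 113184502441) (nat_lit 152) (nat_lit 636381134711) (nat_lit 0) (nat_lit 108171636446) (nat_lit 1) (nat_lit 5) (nat_lit 3) (nat_lit 4) (nat_lit 1) (nat_lit 4) (nat_lit 346) (nat_lit 247) (nat_lit 187)) (XT.lf (nat_lit 0) (nat_lit 125018233676) (nat_lit 152) (nat_lit 681079980968) (nat_lit 0) (nat_lit 120001663967)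 (nat_lit 1) (nat_lit 5) (nat_lit 3) (nat_lit 4) (nat_lit 1) (nat_lit 4) (nat_lit 347) (nat_lit 247) (nat_lit 186))) (XT.nd (nat_lit 78) (nat_lit 0) (nat_lit 0) (XT.lf (nat_lit 0) (nat_lit 137794261198) (nat_lit 152) (nat_lit 729363323168) (nat_lit 0) (nat_lit 132774262126) (nat_lit 1) (nat_lit 5) (nat_lit 3) (nat_lit 4) (nat_lit 1) (nat_lit 4) (nat_lit 348) (nat_lit 247) (nat_lit 185)) (XT.lf (nat_lit 0) (nat_lit 151588294802) (nat_lit 152) (nat_lit 781517284820) (nat_lit 0) (nat_lit 146565120392) (nat_lit 1) (nat_lit 5) (nat_lit 3) (nat_lit 4) (nat_lit 1) (nat_lit 4) (nat_lit 349) (nat_lit 247) (nat_lit 184)))) (XT.nd (nat_lit 156) (nat_lit 0) (nat_lit 0) (XT.nd (nat_lit 78) (nat_lit 0) (nat_lit 0) (XT.lf (nat_lit 0) (nat_lit 166482076908) (nat_lit 152) (nat_lit 837850926438) (nat_lit 0) (nat_lit 161455962371) (nat_lit 1) (nat_lit 5) (nat_lit 3) (nat_lit 4) (nat_lit 1) (nat_lit 4) (nat_lit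 350) (nat_lit 247) (nat_lit 183)) (XT.lf (nat_lit 0) (nat_lit 182563866965) (nat_lit 152) (nat_lit 898698077009) (nat_lit 0) (nat_lit 177535030089) (nat_lit 1) (nat_lit 5) (nat_lit 3) (nat_lit 4) (nat_lit 1) (nat_lit 4) (nat_lit 351) (nat_lit 247) (nat_lit 182))) (XT.nd (nat_lit 78) (nat_lit 0) (nat_lit 0) (XT.lf (nat_lit 0) (nat_lit 199928964471) (nat_lit 152) (nat_lit 964419312241) (nat_lit 0) (nat_lit 194897606910) (nat_lit 1) (nat_lit 5) (nat_lit 3) (nat_lit 4) (nat_lit 1) (nat_lit 4) (nat_lit 352) (nat_lit 247) (nat_lit 181)) (XT.lf (nat_lit 0) (nat_lit 218680273708) (nat_lit 152) (nat_lit 1035404091304) (nat_lit 0) (nat_lit 213646582179) (nat_lit 1) (nat_lit 5) (nat_lit 3) (nat_lit 4) (nat_lit 1) (nat_lit 4) (nat_lit 353) (nat_lit 247) (nat_lit 180)))))) (XT.nd (nat_lit 546) (nat_lit 0) (nat_lit 0) (XT.nd (nat_lit 234) (nat_lit 0) (nat_lit 0) (XT.nd (nat_lit 78) (nat_lit 0) (nat_lit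 0) (XT.lf (nat_lit 0) (nat_lit 238928913543) (nat_lit 152) (nat_lit 1112073064742) (nat_lit 0) (nat_lit 233893060933) (nat_lit 1) (nat_lit 5) (nat_lit 3) (nat_lit 4) (nat_lit 1) (nat_lit 4) (nat_lit 354) (nat_lit 247) (nat_lit 179)) (XT.nd (nat_lit 78) (nat_lit 0) (nat_lit 0) (XT.lf (nat_lit 0) (nat_lit 260794875918) (nat_lit 152) (nat_lit 1194880567213) (nat_lit 0) (nat_lit 255757022307) (nat_lit 1) (nat_lit 5) (nat_lit 3) (nat_lit 4) (nat_lit 1) (nat_lit 4) (nat_lit 355) (nat_lit 247) (nat_lit 178)) (XT.lf (nat_lit 0) (nat_lit 284407736906) (nat_lit 152) (nat_lit 1284317309841) (nat_lit 0) (nat_lit 279368030516) (nat_lit 1) (nat_lit 5) (nat_lit 3) (nat_lit 4) (nat_lit 1) (nat_lit 4) (nat_lit 356) (nat_lit 247) (nat_lit 177)))) (XT.nd (nat_lit 156) (nat_lit 0) (nat_lit 0) (XT.nd (nat_lit 78) (nat_lit 0) (nat_lit 0) (XT.lf (nat_lit 0) (nat_lit 309907424571) (nat_lit 152) (nat_lit 1380913288138)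 (nat_lit 0) (nat_lit 304866002645) (nat_lit 1) (nat_lit 5) (nat_lit 3) (nat_lit 4) (nat_lit 1) (nat_lit 4) (nat_lit 357) (nat_lit 247) (nat_lit 176)) (XT.lf (nat_lit 0) (nat_lit 337445048174) (nat_lit 152) (nat_lit 1485240922718) (nat_lit 0) (nat_lit 332402037790) (nat_lit 1) (nat_lit 5) (nat_lit 3) (nat_lit 4) (nat_lit 1) (nat_lit 4) (nat_lit 358) (nat_lit 247) (nat_lit 175))) (XT.nd (nat_lit 78) (nat_lit 0) (nat_lit 0) (XT.lf (nat_lit 0) (nat_lit 367183793633) (nat_lit 152) (nat_lit 1597918451414) (nat_lit 0) (nat_lit 362139312453) (nat_lit 1) (nat_lit 5) (nat_lit 3) (nat_lit 4) (nat_lit 1) (nat_lit 4) (nat_lit 359) (nat_lit 247) (nat_lit 174)) (XT.lf (nat_lit 0) (nat_lit 399299890550) (nat_lit 152) (nat_lit 1719613592915) (nat_lit 0) (nat_lit 394254047523) (nat_lit 1) (nat_lit 5) (nat_lit 3) (nat_lit 4) (nat_lit 1) (nat_lit 4) (nat_lit 360) (nat_lit 247) (nat_lit 173))))) (XT.nd (nat_lit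 312) (nat_lit 0) (nat_lit 0) (XT.nd (nat_lit 156) (nat_lit 0) (nat_lit 0) (XT.nd (nat_lit 78) (nat_lit 0) (nat_lit 0) (XT.lf (nat_lit 0) (nat_lit 433983656537) (nat_lit 152) (nat_lit 1851047503614) (nat_lit 0) (nat_lit 428936552539) (nat_lit 1) (nat_lit 5) (nat_lit 3) (nat_lit 4) (nat_lit 1) (nat_lit 4) (nat_lit 361) (nat_lit 247) (nat_lit 172)) (XT.lf (nat_lit 0) (nat_lit 471440625022) (nat_lit 152) (nat_lit 1992999051132) (nat_lit 0) (nat_lit 466392353459) (nat_lit 1) (nat_lit 5) (nat_lit 3) (nat_lit 4) (nat_lit 1) (nat_lit 4) (nat_lit 362) (nat_lit 247) (nat_lit 171))) (XT.nd (nat_lit 78) (nat_lit 0) (nat_lit 0) (XT.lf (nat_lit 0) (nat_lit 511892763225) (nat_lit 152) (nat_lit 2146309429824) (nat_lit 0) (nat_lit 506843410584) (nat_lit 1) (nat_lit 5) (nat_lit 3) (nat_lit 4) (nat_lit 1) (nat_lit 4) (nat_lit 363) (nat_lit 247) (nat_lit 170)) (XT.lf (nat_lit 0) (nat_lit 555579787521) (nat_lit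 152) (nat_lit 2311887145636) (nat_lit 0) (nat_lit 550529433881) (nat_lit 1) (nat_lit 5) (nat_lit 3) (nat_lit 4) (nat_lit 1) (nat_lit 4) (nat_lit 364) (nat_lit 247) (nat_lit 169)))) (XT.nd (nat_lit 156) (nat_lit 0) (nat_lit 0) (XT.nd (nat_lit 78) (nat_lit 0) (nat_lit 0) (XT.lf (nat_lit 0) (nat_lit 602760583980) (nat_lit 152) (nat_lit 2490713399850) (nat_lit 0) (nat_lit 597709303489) (nat_lit 1) (nat_lit 5) (nat_lit 3) (nat_lit 4) (nat_lit 1) (nat_lit 4) (nat_lit 365) (nat_lit 247) (nat_lit 168)) (XT.lf (nat_lit 0) (nat_lit 653714742507) (nat_lit 152) (nat_lit 2683847903599) (nat_lit 0) (nat_lit 648662603821) (nat_lit 1) (nat_lit 5) (nat_lit 3) (nat_lit 4) (nat_lit 1) (nat_lit 4) (nat_lit 366) (nat_lit 247) (nat_lit 167))) (XT.nd (nat_lit 78) (nat_lit 0) (nat_lit 0) (XT.lf (nat_lit 0) (nat_lit 708744213670) (nat_lit 152) (nat_lit 2892435157648) (nat_lit 0) (nat_lit 703691280360) (nat_lit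 1) (nat_lit 5) (nat_lit 3) (nat_lit 4) (nat_lit 1) (nat_lit 4) (nat_lit 367) (nat_lit 247) (nat_lit 166)) (XT.lf (nat_lit 0) (nat_lit 768175098040) (nat_lit 152) (nat_lit 3117711234613) (nat_lit 0) (nat_lit 763121428966) (nat_lit 1) (nat_lit 5) (nat_lit 3) (nat_lit 4) (nat_lit 1) (nat_lit 4) (nat_lit 368) (nat_lit 247) (nat_lit 165))))))) (XT.nd (nat_lit 35100) (nat_lit 0) (nat_lit 152) (XT.nd (nat_lit 34476) (nat_lit 0) (nat_lit 456) (XT.nd (nat_lit 34164) (nat_lit 0) (nat_lit 912) (XT.nd (nat_lit 34008) (nat_lit 0) (nat_lit 1216) (XT.lf (nat_lit 0) (nat_lit 832359578636) (nat_lit 152) (nat_lit 3361011103839) (nat_lit 0) (nat_lit 827305228299) (nat_lit 1) (nat_lit 5) (nat_lit 3) (nat_lit 4) (nat_lit 1) (nat_lit 4) (nat_lit 369) (nat_lit 247) (nat_lit 164)) (XT.nd (nat_lit 78) (nat_lit 152) (nat_lit 0) (XT.lf (nat_lit 0) (nat_lit 4341465261) (nat_lit 152) (nat_lit 727581653) (nat_lit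 152) (nat_lit 727581653) (nat_lit 19) (nat_lit 4) (nat_lit 21) (nat_lit 5) (nat_lit 21) (nat_lit 4) (nat_lit 284) (nat_lit 248) (nat_lit 248)) (XT.lf (nat_lit 0) (nat_lit 2713720404) (nat_lit 152) (nat_lit 7295919372) (nat_lit 0) (nat_lit 2118599497) (nat_lit 17) (nat_lit 5) (nat_lit 19) (nat_lit 4) (nat_lit 17) (nat_lit 4) (nat_lit 285) (nat_lit 248) (nat_lit 247)))) (XT.nd (nat_lit 156) (nat_lit 152) (nat_lit 0) (XT.nd (nat_lit 78) (nat_lit 0) (nat_lit 0) (XT.lf (nat_lit 0) (nat_lit 178932830) (nat_lit 152) (nat_lit 6840036315) (nat_lit 152) (nat_lit 5693877530) (nat_lit 15) (nat_lit 4) (nat_lit 17) (nat_lit 5) (nat_lit 17) (nat_lit 4) (nat_lit 286) (nat_lit 248) (nat_lit 246)) (XT.lf (nat_lit 0) (nat_lit 8264548799) (nat_lit 152) (nat_lit 3369577332) (nat_lit 152) (nat_lit 1713198291) (nat_lit 15) (nat_lit 4) (nat_lit 17) (nat_lit 5) (nat_lit 17) (nat_lit 4) (nat_lit 287) (nat_lit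 248) (nat_lit 245))) (XT.nd (nat_lit 78) (nat_lit 0) (nat_lit 0) (XT.lf (nat_lit 0) (nat_lit 2306214397) (nat_lit 152) (nat_lit 11398593333) (nat_lit 0) (nat_lit 335098466) (nat_lit 13) (nat_lit 5) (nat_lit 15) (nat_lit 4) (nat_lit 13) (nat_lit 4) (nat_lit 288) (nat_lit 248) (nat_lit 244)) (XT.lf (nat_lit 0) (nat_lit 6565777895) (nat_lit 152) (nat_lit 4028302205) (nat_lit 0) (nat_lit 4189632674) (nat_lit 13) (nat_lit 5) (nat_lit 15) (nat_lit 4) (nat_lit 13) (nat_lit 4) (nat_lit 289) (nat_lit 248) (nat_lit 243))))) (XT.nd (nat_lit 312) (nat_lit 228) (nat_lit 0) (XT.nd (nat_lit 156) (nat_lit 152) (nat_lit 0) (XT.nd (nat_lit 78) (nat_lit 0) (nat_lit 0) (XT.lf (nat_lit 0) (nat_lit 3760187937) (nat_lit 76) (nat_lit 7293621287) (nat_lit 76) (nat_lit 4542448946) (nat_lit 12) (nat_lit 4) (nat_lit 13) (nat_lit 5) (nat_lit 13) (nat_lit 4) (nat_lit 290) (nat_lit 248) (nat_lit 242)) (XT.lf (nat_lit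 0) (nat_lit 12050428179) (nat_lit 76) (nat_lit 3764455308) (nat_lit 76) (nat_lit 666035634) (nat_lit 12) (nat_lit 4) (nat_lit 13) (nat_lit 5) (nat_lit 13) (nat_lit 4) (nat_lit 291) (nat_lit 248) (nat_lit 241))) (XT.nd (nat_lit 78) (nat_lit 0) (nat_lit 0) (XT.lf (nat_lit 0) (nat_lit 3239397157) (nat_lit 152) (nat_lit 14125998545) (nat_lit 0) (nat_lit 72781431) (nat_lit 10) (nat_lit 5) (nat_lit 12) (nat_lit 4) (nat_lit 10) (nat_lit 4) (nat_lit 292) (nat_lit 248) (nat_lit 240)) (XT.lf (nat_lit 0) (nat_lit 7459288653) (nat_lit 152) (nat_lit 6991469912) (nat_lit 0) (nat_lit 4017016799) (nat_lit 10) (nat_lit 5) (nat_lit 12) (nat_lit 4) (nat_lit 10) (nat_lit 4) (nat_lit 293) (nat_lit 248) (nat_lit 239)))) (XT.nd (nat_lit 156) (nat_lit 152) (nat_lit 0) (XT.nd (nat_lit 78) (nat_lit 0) (nat_lit 0) (XT.lf (nat_lit 0) (nat_lit 422796329) (nat_lit 76) (nat_lit 11433722424) (nat_lit 76) (nat_lit 7736213413)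 (nat_lit 9) (nat_lit 4) (nat_lit 10) (nat_lit 5) (nat_lit 10) (nat_lit 4) (nat_lit 294) (nat_lit 248) (nat_lit 238)) (XT.lf (nat_lit 0) (nat_lit 8523543450) (nat_lit 76) (nat_lit 8108028050) (nat_lit 76) (nat_lit 4174188339) (nat_lit 9) (nat_lit 4) (nat_lit 10) (nat_lit 5) (nat_lit 10) (nat_lit 4) (nat_lit 295) (nat_lit 248) (nat_lit 237))) (XT.nd (nat_lit 78) (nat_lit 152) (nat_lit 0) (XT.lf (nat_lit 0) (nat_lit 16990617462) (nat_lit 76) (nat_lit 4645126803) (nat_lit 76) (nat_lit 492462369) (nat_lit 9) (nat_lit 4) (nat_lit 10) (nat_lit 5) (nat_lit 10) (nat_lit 4) (nat_lit 296) (nat_lit 248) (nat_lit 236)) (XT.lf (nat_lit 0) (nat_lit 2343405593) (nat_lit 76) (nat_lit 877116286) (nat_lit 152) (nat_lit 20336470244) (nat_lit 7) (nat_lit 5) (nat_lit 8) (nat_lit 5) (nat_lit 9) (nat_lit 4) (nat_lit 297) (nat_lit 248) (nat_lit 235)))))) (XT.nd (nat_lit 624) (nat_lit 76) (nat_lit 0) (XT.nd (nat_lit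 312) (nat_lit 152) (nat_lit 0) (XT.nd (nat_lit 156) (nat_lit 76) (nat_lit 0) (XT.nd (nat_lit 78) (nat_lit 0) (nat_lit 0) (XT.lf (nat_lit 0) (nat_lit 7281030982) (nat_lit 152) (nat_lit 14737320587) (nat_lit 0) (nat_lit 3074654271) (nat_lit 7) (nat_lit 5) (nat_lit 9) (nat_lit 4) (nat_lit 7) (nat_lit 4) (nat_lit 298) (nat_lit 248) (nat_lit 234)) (XT.lf (nat_lit 0) (nat_lit 11556011896) (nat_lit 152) (nat_lit 8016033230) (nat_lit 0) (nat_lit 7188792482) (nat_lit 7) (nat_lit 5) (nat_lit 9) (nat_lit 4) (nat_lit 7) (nat_lit 4) (nat_lit 299) (nat_lit 248) (nat_lit 233))) (XT.nd (nat_lit 78) (nat_lit 76) (nat_lit 0) (XT.lf (nat_lit 0) (nat_lit 16049703177) (nat_lit 152) (nat_lit 988799939) (nat_lit 0) (nat_lit 11533555333) (nat_lit 7) (nat_lit 5) (nat_lit 9) (nat_lit 4) (nat_lit 7) (nat_lit 4) (nat_lit 300) (nat_lit 248) (nat_lit 232)) (XT.lf (nat_lit 0) (nat_lit 6722298758) (nat_lit 76) (nat_lit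 14228106793) (nat_lit 76) (nat_lit 9574062256) (nat_lit 6) (nat_lit 4) (nat_lit 7) (nat_lit 5) (nat_lit 7) (nat_lit 4) (nat_lit 301) (nat_lit 248) (nat_lit 231)))) (XT.nd (nat_lit 156) (nat_lit 152) (nat_lit 0) (XT.nd (nat_lit 78) (nat_lit 0) (nat_lit 0) (XT.lf (nat_lit 0) (nat_lit 14897362068) (nat_lit 76) (nat_lit 11262107672) (nat_lit 76) (nat_lit 6480381011) (nat_lit 6) (nat_lit 4) (nat_lit 7) (nat_lit 5) (nat_lit 7) (nat_lit 4) (nat_lit 302) (nat_lit 248) (nat_lit 230)) (XT.lf (nat_lit 0) (nat_lit 23532766360) (nat_lit 76) (nat_lit 8149965006) (nat_lit 76) (nat_lit 3250014156) (nat_lit 6) (nat_lit 4) (nat_lit 7) (nat_lit 5) (nat_lit 7) (nat_lit 4) (nat_lit 303) (nat_lit 248) (nat_lit 229))) (XT.nd (nat_lit 78) (nat_lit 76) (nat_lit 0) (XT.lf (nat_lit 0) (nat_lit 129368888) (nat_lit 152) (nat_lit 4740330403) (nat_lit 76) (nat_lit 32546778334) (nat_lit 5) (nat_lit 5) (nat_lit 7) (nat_lit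 5) (nat_lit 6) (nat_lit 4) (nat_lit 304) (nat_lit 248) (nat_lit 228)) (XT.lf (nat_lit 0) (nat_lit 2312504386) (nat_lit 76) (nat_lit 1256380355) (nat_lit 152) (nat_lit 36526103584) (nat_lit 4) (nat_lit 5) (nat_lit 5) (nat_lit 5) (nat_lit 6) (nat_lit 4) (nat_lit 305) (nat_lit 248) (nat_lit 227))))) (XT.nd (nat_lit 312) (nat_lit 76) (nat_lit 0) (XT.nd (nat_lit 156) (nat_lit 0) (nat_lit 0) (XT.nd (nat_lit 78) (nat_lit 0) (nat_lit 0) (XT.lf (nat_lit 0) (nat_lit 7390706599) (nat_lit 152) (nat_lit 33016951345) (nat_lit 0) (nat_lit 2571608404) (nat_lit 4) (nat_lit 5) (nat_lit 6) (nat_lit 4) (nat_lit 4) (nat_lit 4) (nat_lit 306) (nat_lit 248) (nat_lit 226)) (XT.lf (nat_lit 0) (nat_lit 11468067433) (nat_lit 152) (nat_lit 28061781628) (nat_lit 0) (nat_lit 6568507842) (nat_lit 4) (nat_lit 5) (nat_lit 6) (nat_lit 4) (nat_lit 4) (nat_lit 4) (nat_lit 307) (nat_lit 248) (nat_lit 225))) (XT.nd (nat_lit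 78) (nat_lit 0) (nat_lit 0) (XT.lf (nat_lit 0) (nat_lit 15794913404) (nat_lit 152) (nat_lit 22857394842) (nat_lit 0) (nat_lit 10820852520) (nat_lit 4) (nat_lit 5) (nat_lit 6) (nat_lit 4) (nat_lit 4) (nat_lit 4) (nat_lit 308) (nat_lit 248) (nat_lit 224)) (XT.lf (nat_lit 0) (nat_lit 20396885081) (nat_lit 152) (nat_lit 17372950176) (nat_lit 0) (nat_lit 15353841518) (nat_lit 4) (nat_lit 5) (nat_lit 6) (nat_lit 4) (nat_lit 4) (nat_lit 4) (nat_lit 309) (nat_lit 248) (nat_lit 223)))) (XT.nd (nat_lit 156) (nat_lit 76) (nat_lit 0) (XT.nd (nat_lit 78) (nat_lit 0) (nat_lit 0) (XT.lf (nat_lit 0) (nat_lit 25301253407) (nat_lit 152) (nat_lit 11575947217) (nat_lit 0) (nat_lit 20194336994) (nat_lit 4) (nat_lit 5) (nat_lit 6) (nat_lit 4) (nat_lit 4) (nat_lit 4) (nat_lit 310) (nat_lit 248) (nat_lit 222)) (XT.lf (nat_lit 0) (nat_lit 30537081306) (nat_lit 152) (nat_lit 5432033356) (nat_lit 0) (nat_lit 25371023364)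 (nat_lit 4) (nat_lit 5) (nat_lit 6) (nat_lit 4) (nat_lit 4) (nat_lit 4) (nat_lit 311) (nat_lit 248) (nat_lit 221))) (XT.nd (nat_lit 78) (nat_lit 0) (nat_lit 0) (XT.lf (nat_lit 0) (nat_lit 1152871066) (nat_lit 76) (nat_lit 35010251416) (nat_lit 76) (nat_lit 29789432800) (nat_lit 3) (nat_lit 4) (nat_lit 4) (nat_lit 5) (nat_lit 4) (nat_lit 4) (nat_lit 312) (nat_lit 248) (nat_lit 220)) (XT.lf (nat_lit 0) (nat_lit 8468037649) (nat_lit 76) (nat_lit 33864991263) (nat_lit 76) (nat_lit 28593468319) (nat_lit 3) (nat_lit 4) (nat_lit 4) (nat_lit 5) (nat_lit 4) (nat_lit 4) (nat_lit 313) (nat_lit 248) (nat_lit 219))))))))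
noncomputable def xc31 : XT := (XT.nd (nat_lit 2418) (nat_lit 0) (nat_lit 0) (XT.nd (nat_lit 1170) (nat_lit 152) (nat_lit 0) (XT.nd (nat_lit 546) (nat_lit 0) (nat_lit 0) (XT.nd (nat_lit 234) (nat_lit 0) (nat_lit 0) (XT.nd (nat_lit 78) (nat_lit 0) (nat_lit 0) (XT.lf (nat_lit 0) (nat_lit 16270774278) (nat_lit 76) (nat_lit 32675068895) (nat_lit 76) (nat_lit 27356597498) (nat_lit 3) (nat_lit 4) (nat_lit 4) (nat_lit 5) (nat_lit 4) (nat_lit 4) (nat_lit 314) (nat_lit 248) (nat_lit 218)) (XT.nd (nat_lit 78) (nat_lit 0) (nat_lit 0) (XT.lf (nat_lit 0) (nat_lit 24607319392) (nat_lit 76) (nat_lit 31433432920) (nat_lit 76) (nat_lit 26071490734) (nat_lit 3) (nat_lit 4) (nat_lit 4) (nat_lit 5) (nat_lit 4) (nat_lit 4) (nat_lit 315) (nat_lit 248) (nat_lit 217)) (XT.lf (nat_lit 0) (nat_lit 33527074740) (nat_lit 76) (nat_lit 30132725495) (nat_lit 76) (nat_lit 24730532579) (nat_lit 3) (nat_lit 4) (nat_lit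 4) (nat_lit 5) (nat_lit 4) (nat_lit 4) (nat_lit 316) (nat_lit 248) (nat_lit 216)))) (XT.nd (nat_lit 156) (nat_lit 0) (nat_lit 0) (XT.nd (nat_lit 78) (nat_lit 0) (nat_lit 0) (XT.lf (nat_lit 0) (nat_lit 43082898132) (nat_lit 76) (nat_lit 28765238724) (nat_lit 76) (nat_lit 23325776613) (nat_lit 3) (nat_lit 4) (nat_lit 4) (nat_lit 5) (nat_lit 4) (nat_lit 4) (nat_lit 317) (nat_lit 248) (nat_lit 215)) (XT.lf (nat_lit 0) (nat_lit 53331416668) (nat_lit 76) (nat_lit 27322868982) (nat_lit 76) (nat_lit 21848898358) (nat_lit 3) (nat_lit 4) (nat_lit 4) (nat_lit 5) (nat_lit 4) (nat_lit 4) (nat_lit 318) (nat_lit 248) (nat_lit 214))) (XT.nd (nat_lit 78) (nat_lit 0) (nat_lit 0) (XT.lf (nat_lit 0) (nat_lit 64333362310) (nat_lit 76) (nat_lit 25797068894) (nat_lit 76) (nat_lit 20291145942) (nat_lit 3) (nat_lit 4) (nat_lit 4) (nat_lit 5) (nat_lit 4) (nat_lit 4) (nat_lit 319) (nat_lit 248) (nat_lit 213))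 (XT.lf (nat_lit 0) (nat_lit 76153931775) (nat_lit 76) (nat_lit 24178796679) (nat_lit 76) (nat_lit 18643288239) (nat_lit 3) (nat_lit 4) (nat_lit 4) (nat_lit 5) (nat_lit 4) (nat_lit 4) (nat_lit 320) (nat_lit 248) (nat_lit 212))))) (XT.nd (nat_lit 312) (nat_lit 0) (nat_lit 0) (XT.nd (nat_lit 156) (nat_lit 0) (nat_lit 0) (XT.nd (nat_lit 78) (nat_lit 0) (nat_lit 0) (XT.lf (nat_lit 0) (nat_lit 88863172879) (nat_lit 76) (nat_lit 22458462578) (nat_lit 76) (nat_lit 16895560167) (nat_lit 3) (nat_lit 4) (nat_lit 4) (nat_lit 5) (nat_lit 4) (nat_lit 4) (nat_lit 321) (nat_lit 248) (nat_lit 211)) (XT.lf (nat_lit 0) (nat_lit 102536399646) (nat_lit 76) (nat_lit 20625872018) (nat_lit 76) (nat_lit 15037604819) (nat_lit 3) (nat_lit 4) (nat_lit 4) (nat_lit 5) (nat_lit 4) (nat_lit 4) (nat_lit 322) (nat_lit 248) (nat_lit 210))) (XT.nd (nat_lit 78) (nat_lit 0) (nat_lit 0) (XT.lf (nat_lit 0) (nat_lit 117254638604)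 (nat_lit 76) (nat_lit 18670165202) (nat_lit 76) (nat_lit 13058412089) (nat_lit 3) (nat_lit 4) (nat_lit 4) (nat_lit 5) (nat_lit 4) (nat_lit 4) (nat_lit 323) (nat_lit 248) (nat_lit 209)) (XT.lf (nat_lit 0) (nat_lit 133105108946) (nat_lit 76) (nat_lit 16579752758) (nat_lit 76) (nat_lit 10946253427) (nat_lit 3) (nat_lit 4) (nat_lit 4) (nat_lit 5) (nat_lit 4) (nat_lit 4) (nat_lit 324) (nat_lit 248) (nat_lit 208)))) (XT.nd (nat_lit 156) (nat_lit 0) (nat_lit 0) (XT.nd (nat_lit 78) (nat_lit 0) (nat_lit 0) (XT.lf (nat_lit 0) (nat_lit 150181739386) (nat_lit 76) (nat_lit 14342247055) (nat_lit 76) (nat_lit 8688612338) (nat_lit 3) (nat_lit 4) (nat_lit 4) (nat_lit 5) (nat_lit 4) (nat_lit 4) (nat_lit 325) (nat_lit 248) (nat_lit 207)) (XT.lf (nat_lit 0) (nat_lit 168585724771) (nat_lit 76) (nat_lit 11944388801) (nat_lit 76) (nat_lit 6272110208) (nat_lit 3) (nat_lit 4) (nat_lit 4) (nat_lit 5) (nat_lit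 4) (nat_lit 4) (nat_lit 326) (nat_lit 248) (nat_lit 206))) (XT.nd (nat_lit 78) (nat_lit 0) (nat_lit 0) (XT.lf (nat_lit 0) (nat_lit 188426125755) (nat_lit 76) (nat_lit 9371968466) (nat_lit 76) (nat_lit 3682427024) (nat_lit 3) (nat_lit 4) (nat_lit 4) (nat_lit 5) (nat_lit 4) (nat_lit 4) (nat_lit 327) (nat_lit 248) (nat_lit 205)) (XT.lf (nat_lit 0) (nat_lit 209820515085) (nat_lit 76) (nat_lit 6609742077) (nat_lit 76) (nat_lit 904216516) (nat_lit 3) (nat_lit 4) (nat_lit 4) (nat_lit 5) (nat_lit 4) (nat_lit 4) (nat_lit 328) (nat_lit 248) (nat_lit 204)))))) (XT.nd (nat_lit 624) (nat_lit 0) (nat_lit 0) (XT.nd (nat_lit 312) (nat_lit 0) (nat_lit 0) (XT.nd (nat_lit 156) (nat_lit 0) (nat_lit 0) (XT.nd (nat_lit 78) (nat_lit 76) (nat_lit 0) (XT.lf (nat_lit 0) (nat_lit 1974985546) (nat_lit 152) (nat_lit 1612355733) (nat_lit 76) (nat_lit 230866689175) (nat_lit 2) (nat_lit 5) (nat_lit 4) (nat_lit 5) (nat_lit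 3) (nat_lit 4) (nat_lit 329) (nat_lit 248) (nat_lit 203)) (XT.lf (nat_lit 0) (nat_lit 4956525326) (nat_lit 76) (nat_lit 183164482) (nat_lit 152) (nat_lit 247793270173) (nat_lit 1) (nat_lit 5) (nat_lit 2) (nat_lit 5) (nat_lit 3) (nat_lit 4) (nat_lit 330) (nat_lit 248) (nat_lit 202))) (XT.nd (nat_lit 78) (nat_lit 0) (nat_lit 0) (XT.lf (nat_lit 0) (nat_lit 8671733476) (nat_lit 152) (nat_lit 260858647075) (nat_lit 0) (nat_lit 3350698120) (nat_lit 1) (nat_lit 5) (nat_lit 3) (nat_lit 4) (nat_lit 1) (nat_lit 4) (nat_lit 331) (nat_lit 248) (nat_lit 201)) (XT.lf (nat_lit 0) (nat_lit 12477133601) (nat_lit 152) (nat_lit 274803437365) (nat_lit 0) (nat_lit 7145219721) (nat_lit 1) (nat_lit 5) (nat_lit 3) (nat_lit 4) (nat_lit 1) (nat_lit 4) (nat_lit 332) (nat_lit 248) (nat_lit 200)))) (XT.nd (nat_lit 156) (nat_lit 0) (nat_lit 0) (XT.nd (nat_lit 78) (nat_lit 0) (nat_lit 0) (XT.lf (nat_lit 0) (nat_lit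 16574035590) (nat_lit 152) (nat_lit 289889036210) (nat_lit 0) (nat_lit 11232049005) (nat_lit 1) (nat_lit 5) (nat_lit 3) (nat_lit 4) (nat_lit 1) (nat_lit 4) (nat_lit 333) (nat_lit 248) (nat_lit 199)) (XT.lf (nat_lit 0) (nat_lit 20986717382) (nat_lit 152) (nat_lit 306204839750) (nat_lit 0) (nat_lit 15635404217) (nat_lit 1) (nat_lit 5) (nat_lit 3) (nat_lit 4) (nat_lit 1) (nat_lit 4) (nat_lit 334) (nat_lit 248) (nat_lit 198))) (XT.nd (nat_lit 78) (nat_lit 0) (nat_lit 0) (XT.lf (nat_lit 0) (nat_lit 25741328203) (nat_lit 152) (nat_lit 323847534229) (nat_lit 0) (nat_lit 20381379316) (nat_lit 1) (nat_lit 5) (nat_lit 3) (nat_lit 4) (nat_lit 1) (nat_lit 4) (nat_lit 335) (nat_lit 248) (nat_lit 197)) (XT.lf (nat_lit 0) (nat_lit 30866043524) (nat_lit 152) (nat_lit 342921668947) (nat_lit 0) (nat_lit 25498098598) (nat_lit 1) (nat_lit 5) (nat_lit 3) (nat_lit 4) (nat_lit 1) (nat_lit 4) (nat_lit 336)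 (nat_lit 248) (nat_lit 196))))) (XT.nd (nat_lit 312) (nat_lit 0) (nat_lit 0) (XT.nd (nat_lit 156) (nat_lit 0) (nat_lit 0) (XT.nd (nat_lit 78) (nat_lit 0) (nat_lit 0) (XT.lf (nat_lit 0) (nat_lit 36391232028) (nat_lit 152) (nat_lit 363540275814) (nat_lit 0) (nat_lit 31015883362) (nat_lit 1) (nat_lit 5) (nat_lit 3) (nat_lit 4) (nat_lit 1) (nat_lit 4) (nat_lit 337) (nat_lit 248) (nat_lit 195)) (XT.lf (nat_lit 0) (nat_lit 42349635573) (nat_lit 152) (nat_lit 385825539167) (nat_lit 0) (nat_lit 36967431592) (nat_lit 1) (nat_lit 5) (nat_lit 3) (nat_lit 4) (nat_lit 1) (nat_lit 4) (nat_lit 338) (nat_lit 248) (nat_lit 194))) (XT.nd (nat_lit 78) (nat_lit 0) (nat_lit 0) (XT.lf (nat_lit 0) (nat_lit 48776563217) (nat_lit 152) (nat_lit 409909519825) (nat_lit 0) (nat_lit 43388011723) (nat_lit 1) (nat_lit 5) (nat_lit 3) (nat_lit 4) (nat_lit 1) (nat_lit 4) (nat_lit 339) (nat_lit 248) (nat_lit 193)) (XT.lf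 (nat_lit 0) (nat_lit 55710100458) (nat_lit 152) (nat_lit 435934937675) (nat_lit 0) (nat_lit 50315671636) (nat_lit 1) (nat_lit 5) (nat_lit 3) (nat_lit 4) (nat_lit 1) (nat_lit 4) (nat_lit 340) (nat_lit 248) (nat_lit 192)))) (XT.nd (nat_lit 156) (nat_lit 0) (nat_lit 0) (XT.nd (nat_lit 78) (nat_lit 0) (nat_lit 0) (XT.lf (nat_lit 0) (nat_lit 63191334923) (nat_lit 152) (nat_lit 464056017414) (nat_lit 0) (nat_lit 57791464132) (nat_lit 1) (nat_lit 5) (nat_lit 3) (nat_lit 4) (nat_lit 1) (nat_lit 4) (nat_lit 341) (nat_lit 248) (nat_lit 191)) (XT.lf (nat_lit 0) (nat_lit 71264599853) (nat_lit 152) (nat_lit 494439402478) (nat_lit 0) (nat_lit 65859690201) (nat_lit 1) (nat_lit 5) (nat_lit 3) (nat_lit 4) (nat_lit 1) (nat_lit 4) (nat_lit 342) (nat_lit 248) (nat_lit 190))) (XT.nd (nat_lit 78) (nat_lit 0) (nat_lit 0) (XT.lf (nat_lit 0) (nat_lit 79977736820) (nat_lit 152) (nat_lit 527265142557) (nat_lit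 0) (nat_lit 74568161556) (nat_lit 1) (nat_lit 5) (nat_lit 3) (nat_lit 4) (nat_lit 1) (nat_lit 4) (nat_lit 343) (nat_lit 248) (nat_lit 189)) (XT.lf (nat_lit 0) (nat_lit 89382379226) (nat_lit 152) (nat_lit 562727760553) (nat_lit 0) (nat_lit 83968483951) (nat_lit 1) (nat_lit 5) (nat_lit 3) (nat_lit 4) (nat_lit 1) (nat_lit 4) (nat_lit 344) (nat_lit 248) (nat_lit 188))))))) (XT.nd (nat_lit 1170) (nat_lit 0) (nat_lit 0) (XT.nd (nat_lit 546) (nat_lit 0) (nat_lit 0) (XT.nd (nat_lit 234) (nat_lit 0) (nat_lit 0) (XT.nd (nat_lit 78) (nat_lit 0) (nat_lit 0) (XT.lf (nat_lit 0) (nat_lit 99534258286) (nat_lit 152) (nat_lit 601037405316) (nat_lit 0) (nat_lit 94116363001) (nat_lit 1) (nat_lit 5) (nat_lit 3) (nat_lit 4) (nat_lit 1) (nat_lit 4) (nat_lit 345) (nat_lit 248) (nat_lit 187)) (XT.nd (nat_lit 78) (nat_lit 0) (nat_lit 0) (XT.lf (nat_lit 0) (nat_lit 110493533284) (nat_lit 152) (nat_lit 642421096961)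 (nat_lit 0) (nat_lit 105071934285) (nat_lit 1) (nat_lit 5) (nat_lit 3) (nat_lit 4) (nat_lit 1) (nat_lit 4) (nat_lit 346) (nat_lit 248) (nat_lit 186)) (XT.lf (nat_lit 0) (nat_lit 122325148071) (nat_lit 152) (nat_lit 687124072181) (nat_lit 0) (nat_lit 116900119708) (nat_lit 1) (nat_lit 5) (nat_lit 3) (nat_lit 4) (nat_lit 1) (nat_lit 4) (nat_lit 347) (nat_lit 248) (nat_lit 185)))) (XT.nd (nat_lit 156) (nat_lit 0) (nat_lit 0) (XT.nd (nat_lit 78) (nat_lit 0) (nat_lit 0) (XT.lf (nat_lit 0) (nat_lit 135099215920) (nat_lit 152) (nat_lit 735411237494) (nat_lit 0) (nat_lit 129671012220) (nat_lit 1) (nat_lit 5) (nat_lit 3) (nat_lit 4) (nat_lit 1) (nat_lit 4) (nat_lit 348) (nat_lit 248) (nat_lit 184)) (XT.lf (nat_lit 0) (nat_lit 148891435011) (nat_lit 152) (nat_lit 787568739066) (nat_lit 0) (nat_lit 143460291185) (nat_lit 1) (nat_lit 5) (nat_lit 3) (nat_lit 4) (nat_lit 1) (nat_lit 4) (nat_lit 349)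 (nat_lit 248) (nat_lit 183))) (XT.nd (nat_lit 78) (nat_lit 0) (nat_lit 0) (XT.lf (nat_lit 0) (nat_lit 163783537013) (nat_lit 152) (nat_lit 843905658388) (nat_lit 0) (nat_lit 158349670847) (nat_lit 1) (nat_lit 5) (nat_lit 3) (nat_lit 4) (nat_lit 1) (nat_lit 4) (nat_lit 350) (nat_lit 248) (nat_lit 182)) (XT.lf (nat_lit 0) (nat_lit 179863771418) (nat_lit 152) (nat_lit 904755843870) (nat_lit 0) (nat_lit 174427384567) (nat_lit 1) (nat_lit 5) (nat_lit 3) (nat_lit 4) (nat_lit 1) (nat_lit 4) (nat_lit 351) (nat_lit 248) (nat_lit 181))))) (XT.nd (nat_lit 312) (nat_lit 0) (nat_lit 0) (XT.nd (nat_lit 156) (nat_lit 0) (nat_lit 0) (XT.nd (nat_lit 78) (nat_lit 0) (nat_lit 0) (XT.lf (nat_lit 0) (nat_lit 197227428506) (nat_lit 152) (nat_lit 970479889204) (nat_lit 0) (nat_lit 191788707687) (nat_lit 1) (nat_lit 5) (nat_lit 3) (nat_lit 4) (nat_lit 1) (nat_lit 4) (nat_lit 352) (nat_lit 248) (nat_lit 180))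 (XT.lf (nat_lit 0) (nat_lit 215977404021) (nat_lit 152) (nat_lit 1041467270214) (nat_lit 0) (nat_lit 210536522121) (nat_lit 1) (nat_lit 5) (nat_lit 3) (nat_lit 4) (nat_lit 1) (nat_lit 4) (nat_lit 353) (nat_lit 248) (nat_lit 179))) (XT.nd (nat_lit 78) (nat_lit 0) (nat_lit 0) (XT.lf (nat_lit 0) (nat_lit 236224808930) (nat_lit 152) (nat_lit 1118138652863) (nat_lit 0) (nat_lit 230781926029) (nat_lit 1) (nat_lit 5) (nat_lit 3) (nat_lit 4) (nat_lit 1) (nat_lit 4) (nat_lit 354) (nat_lit 248) (nat_lit 178)) (XT.lf (nat_lit 0) (nat_lit 258089627854) (nat_lit 152) (nat_lit 1200948386083) (nat_lit 0) (nat_lit 252644892175) (nat_lit 1) (nat_lit 5) (nat_lit 3) (nat_lit 4) (nat_lit 1) (nat_lit 4) (nat_lit 355) (nat_lit 248) (nat_lit 177)))) (XT.nd (nat_lit 156) (nat_lit 0) (nat_lit 0) (XT.nd (nat_lit 78) (nat_lit 0) (nat_lit 0) (XT.lf (nat_lit 0) (nat_lit 281701430091) (nat_lit 152) (nat_lit 1290387194220)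 (nat_lit 0) (nat_lit 276254978876) (nat_lit 1) (nat_lit 5) (nat_lit 3) (nat_lit 4) (nat_lit 1) (nat_lit 4) (nat_lit 356) (nat_lit 248) (nat_lit 176)) (XT.lf (nat_lit 0) (nat_lit 307200137432) (nat_lit 152) (nat_lit 1386985085027) (nat_lit 0) (nat_lit 301752097758) (nat_lit 1) (nat_lit 5) (nat_lit 3) (nat_lit 4) (nat_lit 1) (nat_lit 4) (nat_lit 357) (nat_lit 248) (nat_lit 175))) (XT.nd (nat_lit 78) (nat_lit 0) (nat_lit 0) (XT.lf (nat_lit 0) (nat_lit 334736853327) (nat_lit 152) (nat_lit 1491314490448) (nat_lit 0) (nat_lit 329287342857) (nat_lit 1) (nat_lit 5) (nat_lit 3) (nat_lit 4) (nat_lit 1) (nat_lit 4) (nat_lit 358) (nat_lit 248) (nat_lit 174)) (XT.lf (nat_lit 0) (nat_lit 364474758316) (nat_lit 152) (nat_lit 1603993658812) (nat_lit 0) (nat_lit 359023885998) (nat_lit 1) (nat_lit 5) (nat_lit 3) (nat_lit 4) (nat_lit 1) (nat_lit 4) (nat_lit 359) (nat_lit 248) (nat_lit 173)))))) (XT.nd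 (nat_lit 624) (nat_lit 0) (nat_lit 0) (XT.nd (nat_lit 312) (nat_lit 0) (nat_lit 0) (XT.nd (nat_lit 156) (nat_lit 0) (nat_lit 0) (XT.nd (nat_lit 78) (nat_lit 0) (nat_lit 0) (XT.lf (nat_lit 0) (nat_lit 396590077020) (nat_lit 152) (nat_lit 1725690318523) (nat_lit 0) (nat_lit 391137943732) (nat_lit 1) (nat_lit 5) (nat_lit 3) (nat_lit 4) (nat_lit 1) (nat_lit 4) (nat_lit 360) (nat_lit 248) (nat_lit 172)) (XT.lf (nat_lit 0) (nat_lit 431273122439) (nat_lit 152) (nat_lit 1857125634974) (nat_lit 0) (nat_lit 425819821586) (nat_lit 1) (nat_lit 5) (nat_lit 3) (nat_lit 4) (nat_lit 1) (nat_lit 4) (nat_lit 361) (nat_lit 248) (nat_lit 171))) (XT.nd (nat_lit 78) (nat_lit 0) (nat_lit 0) (XT.lf (nat_lit 0) (nat_lit 468729423731) (nat_lit 152) (nat_lit 1999078484113) (nat_lit 0) (nat_lit 463275041800) (nat_lit 1) (nat_lit 5) (nat_lit 3) (nat_lit 4) (nat_lit 1) (nat_lit 4) (nat_lit 362) (nat_lit 248) (nat_lit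 170)) (XT.lf (nat_lit 0) (nat_lit 509180944163) (nat_lit 152) (nat_lit 2152390068009) (nat_lit 0) (nat_lit 503725561234) (nat_lit 1) (nat_lit 5) (nat_lit 3) (nat_lit 4) (nat_lit 1) (nat_lit 4) (nat_lit 363) (nat_lit 248) (nat_lit 169)))) (XT.nd (nat_lit 156) (nat_lit 0) (nat_lit 0) (XT.nd (nat_lit 78) (nat_lit 0) (nat_lit 0) (XT.lf (nat_lit 0) (nat_lit 552867396449) (nat_lit 152) (nat_lit 2317968899753) (nat_lit 0) (nat_lit 547411086669) (nat_lit 1) (nat_lit 5) (nat_lit 3) (nat_lit 4) (nat_lit 1) (nat_lit 4) (nat_lit 364) (nat_lit 248) (nat_lit 168)) (XT.lf (nat_lit 0) (nat_lit 600047663269) (nat_lit 152) (nat_lit 2496796187235) (nat_lit 0) (nat_lit 594590495294) (nat_lit 1) (nat_lit 5) (nat_lit 3) (nat_lit 4) (nat_lit 1) (nat_lit 4) (nat_lit 365) (nat_lit 248) (nat_lit 167))) (XT.nd (nat_lit 78) (nat_lit 0) (nat_lit 0) (XT.lf (nat_lit 0) (nat_lit 651001331389) (nat_lit 152) (nat_lit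 2689931647715) (nat_lit 0) (nat_lit 645543368789) (nat_lit 1) (nat_lit 5) (nat_lit 3) (nat_lit 4) (nat_lit 1) (nat_lit 4) (nat_lit 366) (nat_lit 248) (nat_lit 166)) (XT.lf (nat_lit 0) (nat_lit 706030348473) (nat_lit 152) (nat_lit 2898519787625) (nat_lit 0) (nat_lit 700571650109) (nat_lit 1) (nat_lit 5) (nat_lit 3) (nat_lit 4) (nat_lit 1) (nat_lit 4) (nat_lit 367) (nat_lit 248) (nat_lit 165))))) (XT.nd (nat_lit 34086) (nat_lit 0) (nat_lit 1064) (XT.nd (nat_lit 33930) (nat_lit 0) (nat_lit 1368) (XT.nd (nat_lit 78) (nat_lit 0) (nat_lit 0) (XT.lf (nat_lit 0) (nat_lit 765460812399) (nat_lit 152) (nat_lit 3123796684832) (nat_lit 0) (nat_lit 760001432772) (nat_lit 1) (nat_lit 5) (nat_lit 3) (nat_lit 4) (nat_lit 1) (nat_lit 4) (nat_lit 368) (nat_lit 248) (nat_lit 164)) (XT.lf (nat_lit 0) (nat_lit 829644903694) (nat_lit 152) (nat_lit 3367097313542) (nat_lit 0) (nat_lit 824184893268) (nat_lit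 1) (nat_lit 5) (nat_lit 3) (nat_lit 4) (nat_lit 1) (nat_lit 4) (nat_lit 369) (nat_lit 248) (nat_lit 163))) (XT.nd (nat_lit 78) (nat_lit 152) (nat_lit 0) (XT.lf (nat_lit 0) (nat_lit 1047780146) (nat_lit 152) (nat_lit 3222998971) (nat_lit 0) (nat_lit 1047780146) (nat_lit 21) (nat_lit 5) (nat_lit 23) (nat_lit 4) (nat_lit 21) (nat_lit 4) (nat_lit 282) (nat_lit 249) (nat_lit 249)) (XT.lf (nat_lit 0) (nat_lit 749599076) (nat_lit 152) (nat_lit 5521608883) (nat_lit 152) (nat_lit 4827459856) (nat_lit 19) (nat_lit 4) (nat_lit 21) (nat_lit 5) (nat_lit 21) (nat_lit 4) (nat_lit 283) (nat_lit 249) (nat_lit 248)))) (XT.nd (nat_lit 156) (nat_lit 152) (nat_lit 0) (XT.nd (nat_lit 78) (nat_lit 152) (nat_lit 0) (XT.lf (nat_lit 0) (nat_lit 8493575941) (nat_lit 152) (nat_lit 2223009887) (nat_lit 152) (nat_lit 886130280) (nat_lit 19) (nat_lit 4) (nat_lit 21) (nat_lit 5) (nat_lit 21) (nat_lit 4) (nat_lit 284)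 (nat_lit 249) (nat_lit 247)) (XT.lf (nat_lit 0) (nat_lit 3114181813) (nat_lit 152) (nat_lit 7708514631) (nat_lit 0) (nat_lit 1325292448) (nat_lit 17) (nat_lit 5) (nat_lit 19) (nat_lit 4) (nat_lit 17) (nat_lit 4) (nat_lit 285) (nat_lit 249) (nat_lit 246))) (XT.nd (nat_lit 78) (nat_lit 152) (nat_lit 0) (XT.lf (nat_lit 0) (nat_lit 7307279472) (nat_lit 152) (nat_lit 426282915) (nat_lit 0) (nat_lit 5008169850) (nat_lit 17) (nat_lit 5) (nat_lit 19) (nat_lit 4) (nat_lit 17) (nat_lit 4) (nat_lit 286) (nat_lit 249) (nat_lit 245)) (XT.lf (nat_lit 0) (nat_lit 7457866071) (nat_lit 152) (nat_lit 4349613965) (nat_lit 152) (nat_lit 1578078179) (nat_lit 15) (nat_lit 4) (nat_lit 17) (nat_lit 5) (nat_lit 17) (nat_lit 4) (nat_lit 287) (nat_lit 249) (nat_lit 244))))))))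
noncomputable def xc32 : XT := (XT.nd (nat_lit 2340) (nat_lit 152) (nat_lit 0) (XT.nd (nat_lit 1170) (nat_lit 228) (nat_lit 0) (XT.nd (nat_lit 546) (nat_lit 304) (nat_lit 0) (XT.nd (nat_lit 234) (nat_lit 152) (nat_lit 0) (XT.nd (nat_lit 78) (nat_lit 76) (nat_lit 0) (XT.lf (nat_lit 0) (nat_lit 1577528987) (nat_lit 76) (nat_lit 723671207) (nat_lit 152) (nat_lit 11787479903) (nat_lit 13) (nat_lit 5) (nat_lit 14) (nat_lit 5) (nat_lit 15) (nat_lit 4) (nat_lit 288) (nat_lit 249) (nat_lit 243)) (XT.nd (nat_lit 78) (nat_lit 76) (nat_lit 0) (XT.lf (nat_lit 0) (nat_lit 6445893105) (nat_lit 152) (nat_lit 5296303800) (nat_lit 0) (nat_lit 3099599856) (nat_lit 13) (nat_lit 5) (nat_lit 15) (nat_lit 4) (nat_lit 13) (nat_lit 4) (nat_lit 289) (nat_lit 249) (nat_lit 242)) (XT.lf (nat_lit 0) (nat_lit 2256943400) (nat_lit 76) (nat_lit 8550581413) (nat_lit 76) (nat_lit 4857040831) (nat_lit 12) (nat_lit 4)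 (nat_lit 13) (nat_lit 5) (nat_lit 13) (nat_lit 4) (nat_lit 290) (nat_lit 249) (nat_lit 241)))) (XT.nd (nat_lit 156) (nat_lit 0) (nat_lit 0) (XT.nd (nat_lit 78) (nat_lit 152) (nat_lit 0) (XT.lf (nat_lit 0) (nat_lit 10391190841) (nat_lit 76) (nat_lit 5090094981) (nat_lit 76) (nat_lit 1075029090) (nat_lit 12) (nat_lit 4) (nat_lit 13) (nat_lit 5) (nat_lit 13) (nat_lit 4) (nat_lit 291) (nat_lit 249) (nat_lit 240)) (XT.lf (nat_lit 0) (nat_lit 1341807391) (nat_lit 76) (nat_lit 1376741599) (nat_lit 152) (nat_lit 14806484501) (nat_lit 10) (nat_lit 5) (nat_lit 11) (nat_lit 5) (nat_lit 12) (nat_lit 4) (nat_lit 292) (nat_lit 249) (nat_lit 239))) (XT.nd (nat_lit 78) (nat_lit 0) (nat_lit 0) (XT.lf (nat_lit 0) (nat_lit 6823396656) (nat_lit 152) (nat_lit 9165670773) (nat_lit 0) (nat_lit 2574849768) (nat_lit 10) (nat_lit 5) (nat_lit 12) (nat_lit 4) (nat_lit 10) (nat_lit 4) (nat_lit 293) (nat_lit 249)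 (nat_lit 238)) (XT.lf (nat_lit 0) (nat_lit 11134594456) (nat_lit 152) (nat_lit 1911521158) (nat_lit 0) (nat_lit 6649716867) (nat_lit 10) (nat_lit 5) (nat_lit 12) (nat_lit 4) (nat_lit 10) (nat_lit 4) (nat_lit 294) (nat_lit 249) (nat_lit 237))))) (XT.nd (nat_lit 312) (nat_lit 76) (nat_lit 0) (XT.nd (nat_lit 156) (nat_lit 152) (nat_lit 0) (XT.nd (nat_lit 78) (nat_lit 0) (nat_lit 0) (XT.lf (nat_lit 0) (nat_lit 5953120146) (nat_lit 76) (nat_lit 9834632095) (nat_lit 76) (nat_lit 5130929784) (nat_lit 9) (nat_lit 4) (nat_lit 10) (nat_lit 5) (nat_lit 10) (nat_lit 4) (nat_lit 295) (nat_lit 249) (nat_lit 236)) (XT.lf (nat_lit 0) (nat_lit 14294778881) (nat_lit 76) (nat_lit 6429088699) (nat_lit 76) (nat_lit 1522770904) (nat_lit 9) (nat_lit 4) (nat_lit 10) (nat_lit 5) (nat_lit 10) (nat_lit 4) (nat_lit 296) (nat_lit 249) (nat_lit 235))) (XT.nd (nat_lit 78) (nat_lit 76) (nat_lit 0) (XT.lf (nat_lit 0)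 (nat_lit 2120684436) (nat_lit 152) (nat_lit 682901096) (nat_lit 76) (nat_lit 20883562073) (nat_lit 8) (nat_lit 5) (nat_lit 10) (nat_lit 5) (nat_lit 9) (nat_lit 4) (nat_lit 297) (nat_lit 249) (nat_lit 234)) (XT.lf (nat_lit 0) (nat_lit 6053109236) (nat_lit 152) (nat_lit 18004680918) (nat_lit 0) (nat_lit 1175669565) (nat_lit 7) (nat_lit 5) (nat_lit 9) (nat_lit 4) (nat_lit 7) (nat_lit 4) (nat_lit 298) (nat_lit 249) (nat_lit 233)))) (XT.nd (nat_lit 156) (nat_lit 76) (nat_lit 0) (XT.nd (nat_lit 78) (nat_lit 0) (nat_lit 0) (XT.lf (nat_lit 0) (nat_lit 10268817022) (nat_lit 152) (nat_lit 11394815222) (nat_lit 0) (nat_lit 5242448922) (nat_lit 7) (nat_lit 5) (nat_lit 9) (nat_lit 4) (nat_lit 7) (nat_lit 4) (nat_lit 299) (nat_lit 249) (nat_lit 232)) (XT.lf (nat_lit 0) (nat_lit 14707625776) (nat_lit 152) (nat_lit 4470750136) (nat_lit 0) (nat_lit 9543360982) (nat_lit 7) (nat_lit 5) (nat_lit 9) (nat_lit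 4) (nat_lit 7) (nat_lit 4) (nat_lit 300) (nat_lit 249) (nat_lit 231))) (XT.nd (nat_lit 78) (nat_lit 0) (nat_lit 0) (XT.lf (nat_lit 0) (nat_lit 2956438882) (nat_lit 76) (nat_lit 16510503093) (nat_lit 76) (nat_lit 11218556175) (nat_lit 6) (nat_lit 4) (nat_lit 7) (nat_lit 5) (nat_lit 7) (nat_lit 4) (nat_lit 301) (nat_lit 249) (nat_lit 230)) (XT.lf (nat_lit 0) (nat_lit 11038394460) (nat_lit 76) (nat_lit 13588319541) (nat_lit 76) (nat_lit 8178148434) (nat_lit 6) (nat_lit 4) (nat_lit 7) (nat_lit 5) (nat_lit 7) (nat_lit 4) (nat_lit 302) (nat_lit 249) (nat_lit 229)))))) (XT.nd (nat_lit 546) (nat_lit 76) (nat_lit 0) (XT.nd (nat_lit 234) (nat_lit 76) (nat_lit 0) (XT.nd (nat_lit 78) (nat_lit 76) (nat_lit 0) (XT.lf (nat_lit 0) (nat_lit 19587587888) (nat_lit 76) (nat_lit 10516746846) (nat_lit 76) (nat_lit 4997108898) (nat_lit 6) (nat_lit 4) (nat_lit 7) (nat_lit 5) (nat_lit 7) (nat_lit 4) (nat_lit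 303) (nat_lit 249) (nat_lit 228)) (XT.nd (nat_lit 78) (nat_lit 76) (nat_lit 0) (XT.lf (nat_lit 0) (nat_lit 28654681051) (nat_lit 76) (nat_lit 7277583095) (nat_lit 76) (nat_lit 1656586960) (nat_lit 6) (nat_lit 4) (nat_lit 7) (nat_lit 5) (nat_lit 7) (nat_lit 4) (nat_lit 304) (nat_lit 249) (nat_lit 227)) (XT.lf (nat_lit 0) (nat_lit 1770007599) (nat_lit 152) (nat_lit 2033230499) (nat_lit 76) (nat_lit 36475002130) (nat_lit 5) (nat_lit 5) (nat_lit 7) (nat_lit 5) (nat_lit 6) (nat_lit 4) (nat_lit 305) (nat_lit 249) (nat_lit 226)))) (XT.nd (nat_lit 156) (nat_lit 0) (nat_lit 0) (XT.nd (nat_lit 78) (nat_lit 0) (nat_lit 0) (XT.lf (nat_lit 0) (nat_lit 5437939348) (nat_lit 152) (nat_lit 37670962360) (nat_lit 0) (nat_lit 65953593) (nat_lit 4) (nat_lit 5) (nat_lit 6) (nat_lit 4) (nat_lit 4) (nat_lit 4) (nat_lit 306) (nat_lit 249) (nat_lit 225)) (XT.lf (nat_lit 0) (nat_lit 9478423389) (nat_lit 152) (nat_lit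 32786560195) (nat_lit 0) (nat_lit 4031936341) (nat_lit 4) (nat_lit 5) (nat_lit 6) (nat_lit 4) (nat_lit 4) (nat_lit 4) (nat_lit 307) (nat_lit 249) (nat_lit 224))) (XT.nd (nat_lit 78) (nat_lit 0) (nat_lit 0) (XT.lf (nat_lit 0) (nat_lit 13771124181) (nat_lit 152) (nat_lit 27647698920) (nat_lit 0) (nat_lit 8255654455) (nat_lit 4) (nat_lit 5) (nat_lit 6) (nat_lit 4) (nat_lit 4) (nat_lit 4) (nat_lit 308) (nat_lit 249) (nat_lit 223)) (XT.lf (nat_lit 0) (nat_lit 18341479952) (nat_lit 152) (nat_lit 22223926023) (nat_lit 0) (nat_lit 12762137375) (nat_lit 4) (nat_lit 5) (nat_lit 6) (nat_lit 4) (nat_lit 4) (nat_lit 4) (nat_lit 309) (nat_lit 249) (nat_lit 222))))) (XT.nd (nat_lit 312) (nat_lit 0) (nat_lit 0) (XT.nd (nat_lit 156) (nat_lit 76) (nat_lit 0) (XT.nd (nat_lit 78) (nat_lit 0) (nat_lit 0) (XT.lf (nat_lit 0) (nat_lit 23216574291) (nat_lit 152) (nat_lit 16483100629) (nat_lit 0) (nat_lit 17578090185)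 (nat_lit 4) (nat_lit 5) (nat_lit 6) (nat_lit 4) (nat_lit 4) (nat_lit 4) (nat_lit 310) (nat_lit 249) (nat_lit 221)) (XT.lf (nat_lit 0) (nat_lit 28425296646) (nat_lit 152) (nat_lit 10391203030) (nat_lit 0) (nat_lit 22732051866) (nat_lit 4) (nat_lit 5) (nat_lit 6) (nat_lit 4) (nat_lit 4) (nat_lit 4) (nat_lit 311) (nat_lit 249) (nat_lit 220))) (XT.nd (nat_lit 78) (nat_lit 76) (nat_lit 0) (XT.lf (nat_lit 0) (nat_lit 33998513520) (nat_lit 152) (nat_lit 3912133094) (nat_lit 0) (nat_lit 28254564411) (nat_lit 4) (nat_lit 5) (nat_lit 6) (nat_lit 4) (nat_lit 4) (nat_lit 4) (nat_lit 312) (nat_lit 249) (nat_lit 219)) (XT.lf (nat_lit 0) (nat_lit 3150083607) (nat_lit 76) (nat_lit 36894927362) (nat_lit 76) (nat_lit 31104029802) (nat_lit 3) (nat_lit 4) (nat_lit 4) (nat_lit 5) (nat_lit 4) (nat_lit 4) (nat_lit 313) (nat_lit 249) (nat_lit 218)))) (XT.nd (nat_lit 156) (nat_lit 0) (nat_lit 0) (XT.nd (nat_lit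 78) (nat_lit 0) (nat_lit 0) (XT.lf (nat_lit 0) (nat_lit 10909353676) (nat_lit 76) (nat_lit 35725908927) (nat_lit 76) (nat_lit 29891540578) (nat_lit 3) (nat_lit 4) (nat_lit 4) (nat_lit 5) (nat_lit 4) (nat_lit 4) (nat_lit 314) (nat_lit 249) (nat_lit 217)) (XT.lf (nat_lit 0) (nat_lit 19205651975) (nat_lit 76) (nat_lit 34503628446) (nat_lit 76) (nat_lit 28629009367) (nat_lit 3) (nat_lit 4) (nat_lit 4) (nat_lit 5) (nat_lit 4) (nat_lit 4) (nat_lit 315) (nat_lit 249) (nat_lit 216))) (XT.nd (nat_lit 78) (nat_lit 0) (nat_lit 0) (XT.lf (nat_lit 0) (nat_lit 28088141753) (nat_lit 76) (nat_lit 33220842775) (nat_lit 76) (nat_lit 27308954501) (nat_lit 3) (nat_lit 4) (nat_lit 4) (nat_lit 5) (nat_lit 4) (nat_lit 4) (nat_lit 316) (nat_lit 249) (nat_lit 215)) (XT.lf (nat_lit 0) (nat_lit 37609459988) (nat_lit 76) (nat_lit 31869950221) (nat_lit 76) (nat_lit 25923553434) (nat_lit 3) (nat_lit 4) (nat_lit 4)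 (nat_lit 5) (nat_lit 4) (nat_lit 4) (nat_lit 317) (nat_lit 249) (nat_lit 214))))))) (XT.nd (nat_lit 1170) (nat_lit 0) (nat_lit 0) (XT.nd (nat_lit 546) (nat_lit 152) (nat_lit 0) (XT.nd (nat_lit 234) (nat_lit 0) (nat_lit 0) (XT.nd (nat_lit 78) (nat_lit 0) (nat_lit 0) (XT.lf (nat_lit 0) (nat_lit 47826029304) (nat_lit 76) (nat_lit 30442945495) (nat_lit 76) (nat_lit 24464596380) (nat_lit 3) (nat_lit 4) (nat_lit 4) (nat_lit 5) (nat_lit 4) (nat_lit 4) (nat_lit 318) (nat_lit 249) (nat_lit 213)) (XT.nd (nat_lit 78) (nat_lit 0) (nat_lit 0) (XT.lf (nat_lit 0) (nat_lit 58798392337) (nat_lit 76) (nat_lit 28931372273) (nat_lit 76) (nat_lit 22923437669) (nat_lit 3) (nat_lit 4) (nat_lit 4) (nat_lit 5) (nat_lit 4) (nat_lit 4) (nat_lit 319) (nat_lit 249) (nat_lit 212)) (XT.lf (nat_lit 0) (nat_lit 70591570495) (nat_lit 76) (nat_lit 27326273083) (nat_lit 76) (nat_lit 21290944508) (nat_lit 3) (nat_lit 4)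 (nat_lit 4) (nat_lit 5) (nat_lit 4) (nat_lit 4) (nat_lit 320) (nat_lit 249) (nat_lit 211)))) (XT.nd (nat_lit 156) (nat_lit 0) (nat_lit 0) (XT.nd (nat_lit 78) (nat_lit 0) (nat_lit 0) (XT.lf (nat_lit 0) (nat_lit 83275449279) (nat_lit 76) (nat_lit 25618136226) (nat_lit 76) (nat_lit 19557442863) (nat_lit 3) (nat_lit 4) (nat_lit 4) (nat_lit 5) (nat_lit 4) (nat_lit 4) (nat_lit 321) (nat_lit 249) (nat_lit 210)) (XT.lf (nat_lit 0) (nat_lit 96925192416) (nat_lit 76) (nat_lit 23796839411) (nat_lit 76) (nat_lit 17712660134) (nat_lit 3) (nat_lit 4) (nat_lit 4) (nat_lit 5) (nat_lit 4) (nat_lit 4) (nat_lit 322) (nat_lit 249) (nat_lit 209))) (XT.nd (nat_lit 78) (nat_lit 0) (nat_lit 0) (XT.lf (nat_lit 0) (nat_lit 111621687272) (nat_lit 76) (nat_lit 21851589767) (nat_lit 76) (nat_lit 15745664272) (nat_lit 3) (nat_lit 4) (nat_lit 4) (nat_lit 5) (nat_lit 4) (nat_lit 4) (nat_lit 323) (nat_lit 249) (nat_lit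 208)) (XT.lf (nat_lit 0) (nat_lit 127452024186) (nat_lit 76) (nat_lit 19770859888) (nat_lit 76) (nat_lit 13644799007) (nat_lit 3) (nat_lit 4) (nat_lit 4) (nat_lit 5) (nat_lit 4) (nat_lit 4) (nat_lit 324) (nat_lit 249) (nat_lit 207))))) (XT.nd (nat_lit 312) (nat_lit 152) (nat_lit 0) (XT.nd (nat_lit 156) (nat_lit 0) (nat_lit 0) (XT.nd (nat_lit 78) (nat_lit 0) (nat_lit 0) (XT.lf (nat_lit 0) (nat_lit 144510012564) (nat_lit 76) (nat_lit 17542319525) (nat_lit 76) (nat_lit 11397614768) (nat_lit 3) (nat_lit 4) (nat_lit 4) (nat_lit 5) (nat_lit 4) (nat_lit 4) (nat_lit 325) (nat_lit 249) (nat_lit 206)) (XT.lf (nat_lit 0) (nat_lit 162896736780) (nat_lit 76) (nat_lit 15152762511) (nat_lit 76) (nat_lit 8990794905) (nat_lit 3) (nat_lit 4) (nat_lit 4) (nat_lit 5) (nat_lit 4) (nat_lit 4) (nat_lit 326) (nat_lit 249) (nat_lit 205))) (XT.nd (nat_lit 78) (nat_lit 0) (nat_lit 0) (XT.lf (nat_lit 0) (nat_lit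 182721155200) (nat_lit 76) (nat_lit 12588028508) (nat_lit 76) (nat_lit 6410076784) (nat_lit 3) (nat_lit 4) (nat_lit 4) (nat_lit 5) (nat_lit 4) (nat_lit 4) (nat_lit 327) (nat_lit 249) (nat_lit 204)) (XT.lf (nat_lit 0) (nat_lit 204100745859) (nat_lit 76) (nat_lit 9832919094) (nat_lit 76) (nat_lit 3640167260) (nat_lit 3) (nat_lit 4) (nat_lit 4) (nat_lit 5) (nat_lit 4) (nat_lit 4) (nat_lit 328) (nat_lit 249) (nat_lit 203)))) (XT.nd (nat_lit 156) (nat_lit 76) (nat_lit 0) (XT.nd (nat_lit 78) (nat_lit 76) (nat_lit 0) (XT.lf (nat_lit 0) (nat_lit 227162202629) (nat_lit 76) (nat_lit 6871107693) (nat_lit 76) (nat_lit 664652054) (nat_lit 3) (nat_lit 4) (nat_lit 4) (nat_lit 5) (nat_lit 4) (nat_lit 4) (nat_lit 329) (nat_lit 249) (nat_lit 202)) (XT.lf (nat_lit 0) (nat_lit 2407335495) (nat_lit 152) (nat_lit 1211886517) (nat_lit 76) (nat_lit 249569029678) (nat_lit 2) (nat_lit 5) (nat_lit 4) (nat_lit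 5) (nat_lit 3) (nat_lit 4) (nat_lit 330) (nat_lit 249) (nat_lit 201))) (XT.nd (nat_lit 78) (nat_lit 0) (nat_lit 0) (XT.lf (nat_lit 0) (nat_lit 5818550596) (nat_lit 152) (nat_lit 267278284481) (nat_lit 0) (nat_lit 49205084) (nat_lit 1) (nat_lit 5) (nat_lit 3) (nat_lit 4) (nat_lit 1) (nat_lit 4) (nat_lit 331) (nat_lit 249) (nat_lit 200)) (XT.lf (nat_lit 0) (nat_lit 9617734304) (nat_lit 152) (nat_lit 281235202334) (nat_lit 0) (nat_lit 3838316086) (nat_lit 1) (nat_lit 5) (nat_lit 3) (nat_lit 4) (nat_lit 1) (nat_lit 4) (nat_lit 332) (nat_lit 249) (nat_lit 199)))))) (XT.nd (nat_lit 624) (nat_lit 0) (nat_lit 0) (XT.nd (nat_lit 312) (nat_lit 0) (nat_lit 0) (XT.nd (nat_lit 156) (nat_lit 0) (nat_lit 0) (XT.nd (nat_lit 78) (nat_lit 0) (nat_lit 0) (XT.lf (nat_lit 0) (nat_lit 13708880353) (nat_lit 152) (nat_lit 296332030403) (nat_lit 0) (nat_lit 7920135555) (nat_lit 1) (nat_lit 5) (nat_lit 3) (nat_lit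 4) (nat_lit 1) (nat_lit 4) (nat_lit 333) (nat_lit 249) (nat_lit 198)) (XT.lf (nat_lit 0) (nat_lit 18116232571) (nat_lit 152) (nat_lit 312658231374) (nat_lit 0) (nat_lit 12318852051) (nat_lit 1) (nat_lit 5) (nat_lit 3) (nat_lit 4) (nat_lit 1) (nat_lit 4) (nat_lit 334) (nat_lit 249) (nat_lit 197))) (XT.nd (nat_lit 78) (nat_lit 0) (nat_lit 0) (XT.lf (nat_lit 0) (nat_lit 22865908601) (nat_lit 152) (nat_lit 330310553103) (nat_lit 0) (nat_lit 17060532042) (nat_lit 1) (nat_lit 5) (nat_lit 3) (nat_lit 4) (nat_lit 1) (nat_lit 4) (nat_lit 335) (nat_lit 249) (nat_lit 196)) (XT.lf (nat_lit 0) (nat_lit 27986054670) (nat_lit 152) (nat_lit 349393601942) (nat_lit 0) (nat_lit 22173274371) (nat_lit 1) (nat_lit 5) (nat_lit 3) (nat_lit 4) (nat_lit 1) (nat_lit 4) (nat_lit 336) (nat_lit 249) (nat_lit 195)))) (XT.nd (nat_lit 156) (nat_lit 0) (nat_lit 0) (XT.nd (nat_lit 78) (nat_lit 0) (nat_lit 0) (XT.lf (nat_lit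 0) (nat_lit 33507012386) (nat_lit 152) (nat_lit 370020462625) (nat_lit 0) (nat_lit 27687376773) (nat_lit 1) (nat_lit 5) (nat_lit 3) (nat_lit 4) (nat_lit 1) (nat_lit 4) (nat_lit 337) (nat_lit 249) (nat_lit 194)) (XT.lf (nat_lit 0) (nat_lit 39461498535) (nat_lit 152) (nat_lit 392313368400) (nat_lit 0) (nat_lit 33635515408) (nat_lit 1) (nat_lit 5) (nat_lit 3) (nat_lit 4) (nat_lit 1) (nat_lit 4) (nat_lit 338) (nat_lit 249) (nat_lit 193))) (XT.nd (nat_lit 78) (nat_lit 0) (nat_lit 0) (XT.lf (nat_lit 0) (nat_lit 45884798960) (nat_lit 152) (nat_lit 416404425375) (nat_lit 0) (nat_lit 40052938506) (nat_lit 1) (nat_lit 5) (nat_lit 3) (nat_lit 4) (nat_lit 1) (nat_lit 4) (nat_lit 339) (nat_lit 249) (nat_lit 192)) (XT.lf (nat_lit 0) (nat_lit 52814977665) (nat_lit 152) (nat_lit 442436395370) (nat_lit 0) (nat_lit 46977675241) (nat_lit 1) (nat_lit 5) (nat_lit 3) (nat_lit 4) (nat_lit 1) (nat_lit 4) (nat_lit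 340) (nat_lit 249) (nat_lit 191))))) (XT.nd (nat_lit 312) (nat_lit 0) (nat_lit 0) (XT.nd (nat_lit 156) (nat_lit 0) (nat_lit 0) (XT.nd (nat_lit 78) (nat_lit 0) (nat_lit 0) (XT.lf (nat_lit 0) (nat_lit 60293102374) (nat_lit 152) (nat_lit 470563541910) (nat_lit 0) (nat_lit 54450761089) (nat_lit 1) (nat_lit 5) (nat_lit 3) (nat_lit 4) (nat_lit 1) (nat_lit 4) (nat_lit 341) (nat_lit 249) (nat_lit 190)) (XT.lf (nat_lit 0) (nat_lit 68363487902) (nat_lit 152) (nat_lit 500952544382) (nat_lit 0) (nat_lit 62516481005) (nat_lit 1) (nat_lit 5) (nat_lit 3) (nat_lit 4) (nat_lit 1) (nat_lit 4) (nat_lit 342) (nat_lit 249) (nat_lit 189))) (XT.nd (nat_lit 78) (nat_lit 0) (nat_lit 0) (XT.lf (nat_lit 0) (nat_lit 77073958754) (nat_lit 152) (nat_lit 533783485764) (nat_lit 0) (nat_lit 71222631846) (nat_lit 1) (nat_lit 5) (nat_lit 3) (nat_lit 4) (nat_lit 1) (nat_lit 4) (nat_lit 343) (nat_lit 249) (nat_lit 188))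 (XT.lf (nat_lit 0) (nat_lit 86476132536) (nat_lit 152) (nat_lit 569250919783) (nat_lit 0) (nat_lit 80620805618) (nat_lit 1) (nat_lit 5) (nat_lit 3) (nat_lit 4) (nat_lit 1) (nat_lit 4) (nat_lit 344) (nat_lit 249) (nat_lit 187)))) (XT.nd (nat_lit 156) (nat_lit 0) (nat_lit 0) (XT.nd (nat_lit 78) (nat_lit 0) (nat_lit 0) (XT.lf (nat_lit 0) (nat_lit 96625725833) (nat_lit 152) (nat_lit 607565023825) (nat_lit 0) (nat_lit 90766695202) (nat_lit 1) (nat_lit 5) (nat_lit 3) (nat_lit 4) (nat_lit 1) (nat_lit 4) (nat_lit 345) (nat_lit 249) (nat_lit 186)) (XT.lf (nat_lit 0) (nat_lit 107582884383) (nat_lit 152) (nat_lit 648952844433) (nat_lit 0) (nat_lit 101720424388) (nat_lit 1) (nat_lit 5) (nat_lit 3) (nat_lit 4) (nat_lit 1) (nat_lit 4) (nat_lit 346) (nat_lit 249) (nat_lit 185))) (XT.nd (nat_lit 78) (nat_lit 0) (nat_lit 0) (XT.lf (nat_lit 0) (nat_lit 119412539497) (nat_lit 152) (nat_lit 693659642766)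 (nat_lit 0) (nat_lit 113546904164) (nat_lit 1) (nat_lit 5) (nat_lit 3) (nat_lit 4) (nat_lit 1) (nat_lit 4) (nat_lit 347) (nat_lit 249) (nat_lit 184)) (XT.lf (nat_lit 0) (nat_lit 132184792833) (nat_lit 152) (nat_lit 741950348000) (nat_lit 0) (nat_lit 126316217374) (nat_lit 1) (nat_lit 5) (nat_lit 3) (nat_lit 4) (nat_lit 1) (nat_lit 4) (nat_lit 348) (nat_lit 249) (nat_lit 183))))))))
noncomputable def xc33 : XT := (XT.nd (nat_lit 35958) (nat_lit 0) (nat_lit 152) (XT.nd (nat_lit 1170) (nat_lit 0) (nat_lit 0) (XT.nd (nat_lit 546) (nat_lit 0) (nat_lit 0) (XT.nd (nat_lit 234) (nat_lit 0) (nat_lit 0) (XT.nd (nat_lit 78) (nat_lit 0) (nat_lit 0) (XT.lf (nat_lit 0) (nat_lit 145975331820) (nat_lit 152) (nat_lit 794111127276) (nat_lit 0) (nat_lit 140104034021) (nat_lit 1) (nat_lit 5) (nat_lit 3) (nat_lit 4) (nat_lit 1) (nat_lit 4) (nat_lit 349) (nat_lit 249) (nat_lit 182)) (XT.nd (nat_lit 78) (nat_lit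 0) (nat_lit 0) (XT.lf (nat_lit 0) (nat_lit 160865878170) (nat_lit 152) (nat_lit 850451081508) (nat_lit 0) (nat_lit 154992059686) (nat_lit 1) (nat_lit 5) (nat_lit 3) (nat_lit 4) (nat_lit 1) (nat_lit 4) (nat_lit 350) (nat_lit 249) (nat_lit 181)) (XT.lf (nat_lit 0) (nat_lit 176944672157) (nat_lit 152) (nat_lit 911304077093) (nat_lit 0) (nat_lit 171068519705) (nat_lit 1) (nat_lit 5) (nat_lit 3) (nat_lit 4) (nat_lit 1) (nat_lit 4) (nat_lit 351) (nat_lit 249) (nat_lit 180)))) (XT.nd (nat_lit 156) (nat_lit 0) (nat_lit 0) (XT.nd (nat_lit 78) (nat_lit 0) (nat_lit 0) (XT.lf (nat_lit 0) (nat_lit 194306995524) (nat_lit 152) (nat_lit 977030724374) (nat_lit 0) (nat_lit 188428681991) (nat_lit 1) (nat_lit 5) (nat_lit 3) (nat_lit 4) (nat_lit 1) (nat_lit 4) (nat_lit 352) (nat_lit 249) (nat_lit 179)) (XT.lf (nat_lit 0) (nat_lit 213055736112) (nat_lit 152) (nat_lit 1048020514595) (nat_lit 0) (nat_lit 207175421579)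 (nat_lit 1) (nat_lit 5) (nat_lit 3) (nat_lit 4) (nat_lit 1) (nat_lit 4) (nat_lit 353) (nat_lit 249) (nat_lit 178))) (XT.nd (nat_lit 78) (nat_lit 0) (nat_lit 0) (XT.lf (nat_lit 0) (nat_lit 233301997571) (nat_lit 152) (nat_lit 1124694127993) (nat_lit 0) (nat_lit 227419830258) (nat_lit 1) (nat_lit 5) (nat_lit 3) (nat_lit 4) (nat_lit 1) (nat_lit 4) (nat_lit 354) (nat_lit 249) (nat_lit 177)) (XT.lf (nat_lit 0) (nat_lit 255165757744) (nat_lit 152) (nat_lit 1207505926723) (nat_lit 0) (nat_lit 249281874896) (nat_lit 1) (nat_lit 5) (nat_lit 3) (nat_lit 4) (nat_lit 1) (nat_lit 4) (nat_lit 355) (nat_lit 249) (nat_lit 176))))) (XT.nd (nat_lit 312) (nat_lit 0) (nat_lit 0) (XT.nd (nat_lit 156) (nat_lit 0) (nat_lit 0) (XT.nd (nat_lit 78) (nat_lit 0) (nat_lit 0) (XT.lf (nat_lit 0) (nat_lit 278776579657) (nat_lit 152) (nat_lit 1296946647369) (nat_lit 0) (nat_lit 272891108349) (nat_lit 1) (nat_lit 5)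 (nat_lit 3) (nat_lit 4) (nat_lit 1) (nat_lit 4) (nat_lit 356) (nat_lit 249) (nat_lit 175)) (XT.lf (nat_lit 0) (nat_lit 304274379289) (nat_lit 152) (nat_lit 1393546309016) (nat_lit 0) (nat_lit 298387437186) (nat_lit 1) (nat_lit 5) (nat_lit 3) (nat_lit 4) (nat_lit 1) (nat_lit 4) (nat_lit 357) (nat_lit 249) (nat_lit 174))) (XT.nd (nat_lit 78) (nat_lit 0) (nat_lit 0) (XT.lf (nat_lit 0) (nat_lit 331810254714) (nat_lit 152) (nat_lit 1497877354105) (nat_lit 0) (nat_lit 325921950764) (nat_lit 1) (nat_lit 5) (nat_lit 3) (nat_lit 4) (nat_lit 1) (nat_lit 4) (nat_lit 358) (nat_lit 249) (nat_lit 173)) (XT.lf (nat_lit 0) (nat_lit 361547381489) (nat_lit 152) (nat_lit 1610558040680) (nat_lit 0) (nat_lit 355657816569) (nat_lit 1) (nat_lit 5) (nat_lit 3) (nat_lit 4) (nat_lit 1) (nat_lit 4) (nat_lit 359) (nat_lit 249) (nat_lit 172)))) (XT.nd (nat_lit 156) (nat_lit 0) (nat_lit 0) (XT.nd (nat_lit 78) (nat_lit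 0) (nat_lit 0) (XT.lf (nat_lit 0) (nat_lit 393661979625) (nat_lit 152) (nat_lit 1732256106143) (nat_lit 0) (nat_lit 387771247140) (nat_lit 1) (nat_lit 5) (nat_lit 3) (nat_lit 4) (nat_lit 1) (nat_lit 4) (nat_lit 360) (nat_lit 249) (nat_lit 171)) (XT.lf (nat_lit 0) (nat_lit 428344357852) (nat_lit 152) (nat_lit 1863692724215) (nat_lit 0) (nat_lit 422452544288) (nat_lit 1) (nat_lit 5) (nat_lit 3) (nat_lit 4) (nat_lit 1) (nat_lit 4) (nat_lit 361) (nat_lit 249) (nat_lit 170))) (XT.nd (nat_lit 78) (nat_lit 0) (nat_lit 0) (XT.lf (nat_lit 0) (nat_lit 465800041373) (nat_lit 152) (nat_lit 2005646778559) (nat_lit 0) (nat_lit 459907226811) (nat_lit 1) (nat_lit 5) (nat_lit 3) (nat_lit 4) (nat_lit 1) (nat_lit 4) (nat_lit 362) (nat_lit 249) (nat_lit 169)) (XT.lf (nat_lit 0) (nat_lit 506250989796) (nat_lit 152) (nat_lit 2158959478385) (nat_lit 0) (nat_lit 500357248382) (nat_lit 1) (nat_lit 5) (nat_lit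 3) (nat_lit 4) (nat_lit 1) (nat_lit 4) (nat_lit 363) (nat_lit 249) (nat_lit 168)))))) (XT.nd (nat_lit 34164) (nat_lit 0) (nat_lit 912) (XT.nd (nat_lit 234) (nat_lit 0) (nat_lit 0) (XT.nd (nat_lit 78) (nat_lit 0) (nat_lit 0) (XT.lf (nat_lit 0) (nat_lit 549936912443) (nat_lit 152) (nat_lit 2324539343398) (nat_lit 0) (nat_lit 544042312834) (nat_lit 1) (nat_lit 5) (nat_lit 3) (nat_lit 4) (nat_lit 1) (nat_lit 4) (nat_lit 364) (nat_lit 249) (nat_lit 167)) (XT.nd (nat_lit 78) (nat_lit 0) (nat_lit 0) (XT.lf (nat_lit 0) (nat_lit 597116688856) (nat_lit 152) (nat_lit 2503367587610) (nat_lit 0) (nat_lit 591221294623) (nat_lit 1) (nat_lit 5) (nat_lit 3) (nat_lit 4) (nat_lit 1) (nat_lit 4) (nat_lit 365) (nat_lit 249) (nat_lit 166)) (XT.lf (nat_lit 0) (nat_lit 648069902897) (nat_lit 152) (nat_lit 2696503933952) (nat_lit 0) (nat_lit 642173772899) (nat_lit 1) (nat_lit 5) (nat_lit 3) (nat_lit 4) (nat_lit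 1) (nat_lit 4) (nat_lit 366) (nat_lit 249) (nat_lit 165)))) (XT.nd (nat_lit 156) (nat_lit 0) (nat_lit 0) (XT.nd (nat_lit 78) (nat_lit 0) (nat_lit 0) (XT.lf (nat_lit 0) (nat_lit 703098499536) (nat_lit 152) (nat_lit 2905092894104) (nat_lit 0) (nat_lit 697201688276) (nat_lit 1) (nat_lit 5) (nat_lit 3) (nat_lit 4) (nat_lit 1) (nat_lit 4) (nat_lit 367) (nat_lit 249) (nat_lit 164)) (XT.lf (nat_lit 0) (nat_lit 762528574161) (nat_lit 152) (nat_lit 3130370550795) (nat_lit 0) (nat_lit 756631132102) (nat_lit 1) (nat_lit 5) (nat_lit 3) (nat_lit 4) (nat_lit 1) (nat_lit 4) (nat_lit 368) (nat_lit 249) (nat_lit 163))) (XT.nd (nat_lit 33696) (nat_lit 0) (nat_lit 1824) (XT.lf (nat_lit 0) (nat_lit 826712304993) (nat_lit 152) (nat_lit 3373671882730) (nat_lit 0) (nat_lit 820814278861) (nat_lit 1) (nat_lit 5) (nat_lit 3) (nat_lit 4) (nat_lit 1) (nat_lit 4) (nat_lit 369) (nat_lit 249) (nat_lit 162)) (XT.lf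 (nat_lit 0) (nat_lit 2409139082) (nat_lit 228) (nat_lit 90381630) (nat_lit 0) (nat_lit 2409139082) (nat_lit 25) (nat_lit 5) (nat_lit 28) (nat_lit 4) (nat_lit 25) (nat_lit 4) (nat_lit 280) (nat_lit 250) (nat_lit 250))))) (XT.nd (nat_lit 312) (nat_lit 456) (nat_lit 0) (XT.nd (nat_lit 156) (nat_lit 152) (nat_lit 0) (XT.nd (nat_lit 78) (nat_lit 152) (nat_lit 0) (XT.lf (nat_lit 0) (nat_lit 7075630170) (nat_lit 152) (nat_lit 1974401094) (nat_lit 152) (nat_lit 1164745669) (nat_lit 23) (nat_lit 4) (nat_lit 25) (nat_lit 5) (nat_lit 25) (nat_lit 4) (nat_lit 281) (nat_lit 250) (nat_lit 249)) (XT.lf (nat_lit 0) (nat_lit 2725249952) (nat_lit 152) (nat_lit 6640270826) (nat_lit 0) (nat_lit 1281419977) (nat_lit 21) (nat_lit 5) (nat_lit 23) (nat_lit 4) (nat_lit 21) (nat_lit 4) (nat_lit 282) (nat_lit 250) (nat_lit 248))) (XT.nd (nat_lit 78) (nat_lit 0) (nat_lit 0) (XT.lf (nat_lit 0) (nat_lit 355741545)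 (nat_lit 152) (nat_lit 6424580745) (nat_lit 152) (nat_lit 4338020189) (nat_lit 19) (nat_lit 4) (nat_lit 21) (nat_lit 5) (nat_lit 21) (nat_lit 4) (nat_lit 283) (nat_lit 250) (nat_lit 247)) (XT.lf (nat_lit 0) (nat_lit 7924390094) (nat_lit 152) (nat_lit 3194220225) (nat_lit 152) (nat_lit 512538762) (nat_lit 19) (nat_lit 4) (nat_lit 21) (nat_lit 5) (nat_lit 21) (nat_lit 4) (nat_lit 284) (nat_lit 250) (nat_lit 246)))) (XT.nd (nat_lit 156) (nat_lit 304) (nat_lit 0) (XT.nd (nat_lit 78) (nat_lit 0) (nat_lit 0) (XT.lf (nat_lit 0) (nat_lit 3322356828) (nat_lit 152) (nat_lit 8536150158) (nat_lit 0) (nat_lit 329098180) (nat_lit 17) (nat_lit 5) (nat_lit 19) (nat_lit 4) (nat_lit 17) (nat_lit 4) (nat_lit 285) (nat_lit 250) (nat_lit 245)) (XT.lf (nat_lit 0) (nat_lit 7415595465) (nat_lit 152) (nat_lit 1423982832) (nat_lit 0) (nat_lit 3949910653) (nat_lit 17) (nat_lit 5) (nat_lit 19) (nat_lit 4) (nat_lit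 17) (nat_lit 4) (nat_lit 286) (nat_lit 250) (nat_lit 244))) (XT.nd (nat_lit 78) (nat_lit 152) (nat_lit 0) (XT.lf (nat_lit 0) (nat_lit 6241870081) (nat_lit 152) (nat_lit 5552219157) (nat_lit 152) (nat_lit 1649102713) (nat_lit 15) (nat_lit 4) (nat_lit 17) (nat_lit 5) (nat_lit 17) (nat_lit 4) (nat_lit 287) (nat_lit 250) (nat_lit 243)) (XT.lf (nat_lit 0) (nat_lit 71855292) (nat_lit 76) (nat_lit 2033914432) (nat_lit 152) (nat_lit 12051037909) (nat_lit 13) (nat_lit 5) (nat_lit 14) (nat_lit 5) (nat_lit 15) (nat_lit 4) (nat_lit 288) (nat_lit 250) (nat_lit 242))))))) (XT.nd (nat_lit 1170) (nat_lit 228) (nat_lit 0) (XT.nd (nat_lit 546) (nat_lit 228) (nat_lit 0) (XT.nd (nat_lit 234) (nat_lit 228) (nat_lit 0) (XT.nd (nat_lit 78) (nat_lit 76) (nat_lit 0) (XT.lf (nat_lit 0) (nat_lit 6128704700) (nat_lit 152) (nat_lit 6998638212) (nat_lit 0) (nat_lit 1792433538) (nat_lit 13) (nat_lit 5) (nat_lit 15)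 (nat_lit 4) (nat_lit 13) (nat_lit 4) (nat_lit 289) (nat_lit 250) (nat_lit 241)) (XT.nd (nat_lit 78) (nat_lit 0) (nat_lit 0) (XT.lf (nat_lit 0) (nat_lit 308974274) (nat_lit 76) (nat_lit 10050951806) (nat_lit 76) (nat_lit 5393155335) (nat_lit 12) (nat_lit 4) (nat_lit 13) (nat_lit 5) (nat_lit 13) (nat_lit 4) (nat_lit 290) (nat_lit 250) (nat_lit 240)) (XT.lf (nat_lit 0) (nat_lit 8298783936) (nat_lit 76) (nat_lit 6654057547) (nat_lit 76) (nat_lit 1698552457) (nat_lit 12) (nat_lit 4) (nat_lit 13) (nat_lit 5) (nat_lit 13) (nat_lit 4) (nat_lit 291) (nat_lit 250) (nat_lit 239)))) (XT.nd (nat_lit 156) (nat_lit 76) (nat_lit 0) (XT.nd (nat_lit 78) (nat_lit 76) (nat_lit 0) (XT.lf (nat_lit 0) (nat_lit 2017060809) (nat_lit 152) (nat_lit 1035674735) (nat_lit 76) (nat_lit 14577391082) (nat_lit 11) (nat_lit 5) (nat_lit 13) (nat_lit 5) (nat_lit 12) (nat_lit 4) (nat_lit 292) (nat_lit 250) (nat_lit 238))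 (XT.lf (nat_lit 0) (nat_lit 5978836098) (nat_lit 152) (nat_lit 11802858319) (nat_lit 0) (nat_lit 898837602) (nat_lit 10) (nat_lit 5) (nat_lit 12) (nat_lit 4) (nat_lit 10) (nat_lit 4) (nat_lit 293) (nat_lit 250) (nat_lit 237))) (XT.nd (nat_lit 78) (nat_lit 76) (nat_lit 0) (XT.lf (nat_lit 0) (nat_lit 10219789417) (nat_lit 152) (nat_lit 4677381521) (nat_lit 0) (nat_lit 4920966198) (nat_lit 10) (nat_lit 5) (nat_lit 12) (nat_lit 4) (nat_lit 10) (nat_lit 4) (nat_lit 294) (nat_lit 250) (nat_lit 236)) (XT.lf (nat_lit 0) (nat_lit 2916199201) (nat_lit 76) (nat_lit 11818668794) (nat_lit 76) (nat_lit 6317230092) (nat_lit 9) (nat_lit 4) (nat_lit 10) (nat_lit 5) (nat_lit 10) (nat_lit 4) (nat_lit 295) (nat_lit 250) (nat_lit 235))))) (XT.nd (nat_lit 312) (nat_lit 76) (nat_lit 0) (XT.nd (nat_lit 156) (nat_lit 76) (nat_lit 0) (XT.nd (nat_lit 78) (nat_lit 76) (nat_lit 0) (XT.lf (nat_lit 0) (nat_lit 11141732678)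 (nat_lit 76) (nat_lit 8466234519) (nat_lit 76) (nat_lit 2777188887) (nat_lit 9) (nat_lit 4) (nat_lit 10) (nat_lit 5) (nat_lit 10) (nat_lit 4) (nat_lit 296) (nat_lit 250) (nat_lit 234)) (XT.lf (nat_lit 0) (nat_lit 869100712) (nat_lit 152) (nat_lit 4055026270) (nat_lit 76) (nat_lit 18908796726) (nat_lit 8) (nat_lit 5) (nat_lit 10) (nat_lit 5) (nat_lit 9) (nat_lit 4) (nat_lit 297) (nat_lit 250) (nat_lit 233))) (XT.nd (nat_lit 78) (nat_lit 0) (nat_lit 0) (XT.lf (nat_lit 0) (nat_lit 3603301524) (nat_lit 76) (nat_lit 1025015773) (nat_lit 152) (nat_lit 20764823011) (nat_lit 7) (nat_lit 5) (nat_lit 8) (nat_lit 5) (nat_lit 9) (nat_lit 4) (nat_lit 298) (nat_lit 250) (nat_lit 232)) (XT.lf (nat_lit 0) (nat_lit 8764490903) (nat_lit 152) (nat_lit 15258489639) (nat_lit 0) (nat_lit 3049188232) (nat_lit 7) (nat_lit 5) (nat_lit 9) (nat_lit 4) (nat_lit 7) (nat_lit 4) (nat_lit 299) (nat_lit 250) (nat_lit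 231)))) (XT.nd (nat_lit 156) (nat_lit 76) (nat_lit 0) (XT.nd (nat_lit 78) (nat_lit 0) (nat_lit 0) (XT.lf (nat_lit 0) (nat_lit 13152482502) (nat_lit 152) (nat_lit 8429950669) (nat_lit 0) (nat_lit 7309497707) (nat_lit 7) (nat_lit 5) (nat_lit 9) (nat_lit 4) (nat_lit 7) (nat_lit 4) (nat_lit 300) (nat_lit 250) (nat_lit 230)) (XT.lf (nat_lit 0) (nat_lit 17793643355) (nat_lit 152) (nat_lit 1239104803) (nat_lit 0) (nat_lit 11832434371) (nat_lit 7) (nat_lit 5) (nat_lit 9) (nat_lit 4) (nat_lit 7) (nat_lit 4) (nat_lit 301) (nat_lit 250) (nat_lit 229))) (XT.nd (nat_lit 78) (nat_lit 0) (nat_lit 0) (XT.lf (nat_lit 0) (nat_lit 6691390847) (nat_lit 76) (nat_lit 16185013900) (nat_lit 76) (nat_lit 10114338074) (nat_lit 6) (nat_lit 4) (nat_lit 7) (nat_lit 5) (nat_lit 7) (nat_lit 4) (nat_lit 302) (nat_lit 250) (nat_lit 228)) (XT.lf (nat_lit 0) (nat_lit 15160759400) (nat_lit 76) (nat_lit 13151005993) (nat_lit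 76) (nat_lit 6978971981) (nat_lit 6) (nat_lit 4) (nat_lit 7) (nat_lit 5) (nat_lit 7) (nat_lit 4) (nat_lit 303) (nat_lit 250) (nat_lit 227)))))) (XT.nd (nat_lit 624) (nat_lit 76) (nat_lit 0) (XT.nd (nat_lit 312) (nat_lit 0) (nat_lit 0) (XT.nd (nat_lit 156) (nat_lit 152) (nat_lit 0) (XT.nd (nat_lit 78) (nat_lit 0) (nat_lit 0) (XT.lf (nat_lit 0) (nat_lit 24153940644) (nat_lit 76) (nat_lit 9946624454) (nat_lit 76) (nat_lit 3680740269) (nat_lit 6) (nat_lit 4) (nat_lit 7) (nat_lit 5) (nat_lit 7) (nat_lit 4) (nat_lit 304) (nat_lit 250) (nat_lit 226)) (XT.lf (nat_lit 0) (nat_lit 33724227503) (nat_lit 76) (nat_lit 6552880354) (nat_lit 76) (nat_lit 200097861) (nat_lit 6) (nat_lit 4) (nat_lit 7) (nat_lit 5) (nat_lit 7) (nat_lit 4) (nat_lit 305) (nat_lit 250) (nat_lit 225))) (XT.nd (nat_lit 78) (nat_lit 0) (nat_lit 0) (XT.lf (nat_lit 0) (nat_lit 473841932) (nat_lit 76) (nat_lit 2846872404) (nat_lit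 152) (nat_lit 40066085708) (nat_lit 4) (nat_lit 5) (nat_lit 5) (nat_lit 5) (nat_lit 6) (nat_lit 4) (nat_lit 306) (nat_lit 250) (nat_lit 224)) (XT.lf (nat_lit 0) (nat_lit 7258585849) (nat_lit 152) (nat_lit 38025614109) (nat_lit 0) (nat_lit 1232895866) (nat_lit 4) (nat_lit 5) (nat_lit 6) (nat_lit 4) (nat_lit 4) (nat_lit 4) (nat_lit 307) (nat_lit 250) (nat_lit 223)))) (XT.nd (nat_lit 156) (nat_lit 0) (nat_lit 0) (XT.nd (nat_lit 78) (nat_lit 0) (nat_lit 0) (XT.lf (nat_lit 0) (nat_lit 11519670735) (nat_lit 152) (nat_lit 32947424604) (nat_lit 0) (nat_lit 5430107901) (nat_lit 4) (nat_lit 5) (nat_lit 6) (nat_lit 4) (nat_lit 4) (nat_lit 4) (nat_lit 308) (nat_lit 250) (nat_lit 222)) (XT.lf (nat_lit 0) (nat_lit 16060752519) (nat_lit 152) (nat_lit 27579829272) (nat_lit 0) (nat_lit 9912048156) (nat_lit 4) (nat_lit 5) (nat_lit 6) (nat_lit 4) (nat_lit 4) (nat_lit 4) (nat_lit 309) (nat_lit 250) (nat_lit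 221))) (XT.nd (nat_lit 78) (nat_lit 0) (nat_lit 0) (XT.lf (nat_lit 0) (nat_lit 20908741314) (nat_lit 152) (nat_lit 21891020141) (nat_lit 0) (nat_lit 14705276277) (nat_lit 4) (nat_lit 5) (nat_lit 6) (nat_lit 4) (nat_lit 4) (nat_lit 4) (nat_lit 310) (nat_lit 250) (nat_lit 220)) (XT.lf (nat_lit 0) (nat_lit 26092365943) (nat_lit 152) (nat_lit 15847285749) (nat_lit 0) (nat_lit 19838196578) (nat_lit 4) (nat_lit 5) (nat_lit 6) (nat_lit 4) (nat_lit 4) (nat_lit 4) (nat_lit 311) (nat_lit 250) (nat_lit 219))))) (XT.nd (nat_lit 312) (nat_lit 0) (nat_lit 0) (XT.nd (nat_lit 156) (nat_lit 76) (nat_lit 0) (XT.nd (nat_lit 78) (nat_lit 0) (nat_lit 0) (XT.lf (nat_lit 0) (nat_lit 31642344182) (nat_lit 152) (nat_lit 9412811375) (nat_lit 0) (nat_lit 25341226365) (nat_lit 4) (nat_lit 5) (nat_lit 6) (nat_lit 4) (nat_lit 4) (nat_lit 4) (nat_lit 312) (nat_lit 250) (nat_lit 218)) (XT.lf (nat_lit 0) (nat_lit 37591564791)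 (nat_lit 152) (nat_lit 2549466799) (nat_lit 0) (nat_lit 31246976185) (nat_lit 4) (nat_lit 5) (nat_lit 6) (nat_lit 4) (nat_lit 4) (nat_lit 4) (nat_lit 313) (nat_lit 250) (nat_lit 217))) (XT.nd (nat_lit 78) (nat_lit 0) (nat_lit 0) (XT.lf (nat_lit 0) (nat_lit 5035306050) (nat_lit 76) (nat_lit 39061075591) (nat_lit 76) (nat_lit 32676236254) (nat_lit 3) (nat_lit 4) (nat_lit 4) (nat_lit 5) (nat_lit 4) (nat_lit 4) (nat_lit 314) (nat_lit 250) (nat_lit 216)) (XT.lf (nat_lit 0) (nat_lit 13294338780) (nat_lit 76) (nat_lit 37856716864) (nat_lit 76) (nat_lit 31434608333) (nat_lit 3) (nat_lit 4) (nat_lit 4) (nat_lit 5) (nat_lit 4) (nat_lit 4) (nat_lit 315) (nat_lit 250) (nat_lit 215)))) (XT.nd (nat_lit 156) (nat_lit 0) (nat_lit 0) (XT.nd (nat_lit 78) (nat_lit 0) (nat_lit 0) (XT.lf (nat_lit 0) (nat_lit 22142323401) (nat_lit 76) (nat_lit 36590525409) (nat_lit 76) (nat_lit 30133908365) (nat_lit 3) (nat_lit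 4) (nat_lit 4) (nat_lit 5) (nat_lit 4) (nat_lit 4) (nat_lit 316) (nat_lit 250) (nat_lit 214)) (XT.lf (nat_lit 0) (nat_lit 31631692416) (nat_lit 76) (nat_lit 35254997871) (nat_lit 76) (nat_lit 28766428499) (nat_lit 3) (nat_lit 4) (nat_lit 4) (nat_lit 5) (nat_lit 4) (nat_lit 4) (nat_lit 317) (nat_lit 250) (nat_lit 213))) (XT.nd (nat_lit 78) (nat_lit 0) (nat_lit 0) (XT.lf (nat_lit 0) (nat_lit 41818679122) (nat_lit 76) (nat_lit 33842220011) (nat_lit 76) (nat_lit 27324065150) (nat_lit 3) (nat_lit 4) (nat_lit 4) (nat_lit 5) (nat_lit 4) (nat_lit 4) (nat_lit 318) (nat_lit 250) (nat_lit 212)) (XT.lf (nat_lit 0) (nat_lit 52763650848) (nat_lit 76) (nat_lit 32343819812) (nat_lit 76) (nat_lit 25798270981) (nat_lit 3) (nat_lit 4) (nat_lit 4) (nat_lit 5) (nat_lit 4) (nat_lit 4) (nat_lit 319) (nat_lit 250) (nat_lit 211))))))))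
noncomputable def xc34 : XT := (XT.nd (nat_lit 2340) (nat_lit 0) (nat_lit 0) (XT.nd (nat_lit 1170) (nat_lit 0) (nat_lit 0) (XT.nd (nat_lit 546) (nat_lit 152) (nat_lit 0) (XT.nd (nat_lit 234) (nat_lit 0) (nat_lit 0) (XT.nd (nat_lit 78) (nat_lit 0) (nat_lit 0) (XT.lf (nat_lit 0) (nat_lit 64531466686) (nat_lit 76) (nat_lit 30750917867) (nat_lit 76) (nat_lit 24180004248) (nat_lit 3) (nat_lit 4) (nat_lit 4) (nat_lit 5) (nat_lit 4) (nat_lit 4) (nat_lit 320) (nat_lit 250) (nat_lit 210)) (XT.nd (nat_lit 78) (nat_lit 0) (nat_lit 0) (XT.lf (nat_lit 0) (nat_lit 77191861841) (nat_lit 76) (nat_lit 29054074756) (nat_lit 76) (nat_lit 22459675222) (nat_lit 3) (nat_lit 4) (nat_lit 4) (nat_lit 5) (nat_lit 4) (nat_lit 4) (nat_lit 321) (nat_lit 250) (nat_lit 209)) (XT.lf (nat_lit 0) (nat_lit 90819860875) (nat_lit 76) (nat_lit 27243235112) (nat_lit 76) (nat_lit 20627089360) (nat_lit 3) (nat_lit 4) (nat_lit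 4) (nat_lit 5) (nat_lit 4) (nat_lit 4) (nat_lit 322) (nat_lit 250) (nat_lit 208)))) (XT.nd (nat_lit 156) (nat_lit 0) (nat_lit 0) (XT.nd (nat_lit 78) (nat_lit 0) (nat_lit 0) (XT.lf (nat_lit 0) (nat_lit 105496222303) (nat_lit 76) (nat_lit 25307668033) (nat_lit 76) (nat_lit 18671386896) (nat_lit 3) (nat_lit 4) (nat_lit 4) (nat_lit 5) (nat_lit 4) (nat_lit 4) (nat_lit 323) (nat_lit 250) (nat_lit 207)) (XT.lf (nat_lit 0) (nat_lit 121307917155) (nat_lit 76) (nat_lit 23235903494) (nat_lit 76) (nat_lit 16580978480) (nat_lit 3) (nat_lit 4) (nat_lit 4) (nat_lit 5) (nat_lit 4) (nat_lit 4) (nat_lit 324) (nat_lit 250) (nat_lit 206))) (XT.nd (nat_lit 78) (nat_lit 0) (nat_lit 0) (XT.lf (nat_lit 0) (nat_lit 138348644364) (nat_lit 76) (nat_lit 21015664370) (nat_lit 76) (nat_lit 14343476508) (nat_lit 3) (nat_lit 4) (nat_lit 4) (nat_lit 5) (nat_lit 4) (nat_lit 4) (nat_lit 325) (nat_lit 250) (nat_lit 205))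 (XT.lf (nat_lit 0) (nat_lit 156719386016) (nat_lit 76) (nat_lit 18633793689) (nat_lit 76) (nat_lit 11945621708) (nat_lit 3) (nat_lit 4) (nat_lit 4) (nat_lit 5) (nat_lit 4) (nat_lit 4) (nat_lit 326) (nat_lit 250) (nat_lit 204))))) (XT.nd (nat_lit 312) (nat_lit 152) (nat_lit 0) (XT.nd (nat_lit 156) (nat_lit 0) (nat_lit 0) (XT.nd (nat_lit 78) (nat_lit 0) (nat_lit 0) (XT.lf (nat_lit 0) (nat_lit 176529005766) (nat_lit 76) (nat_lit 16076176662) (nat_lit 76) (nat_lit 9373204571) (nat_lit 3) (nat_lit 4) (nat_lit 4) (nat_lit 5) (nat_lit 4) (nat_lit 4) (nat_lit 327) (nat_lit 250) (nat_lit 203)) (XT.lf (nat_lit 0) (nat_lit 197894893952) (nat_lit 76) (nat_lit 13327657039) (nat_lit 76) (nat_lit 6610981143) (nat_lit 3) (nat_lit 4) (nat_lit 4) (nat_lit 5) (nat_lit 4) (nat_lit 4) (nat_lit 328) (nat_lit 250) (nat_lit 202))) (XT.nd (nat_lit 78) (nat_lit 0) (nat_lit 0) (XT.lf (nat_lit 0) (nat_lit 220943663247)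 (nat_lit 76) (nat_lit 10371947298) (nat_lit 76) (nat_lit 3642582692) (nat_lit 3) (nat_lit 4) (nat_lit 4) (nat_lit 5) (nat_lit 4) (nat_lit 4) (nat_lit 329) (nat_lit 250) (nat_lit 201)) (XT.lf (nat_lit 0) (nat_lit 245811898949) (nat_lit 76) (nat_lit 7191532120) (nat_lit 76) (nat_lit 450418710) (nat_lit 3) (nat_lit 4) (nat_lit 4) (nat_lit 5) (nat_lit 4) (nat_lit 4) (nat_lit 330) (nat_lit 250) (nat_lit 200)))) (XT.nd (nat_lit 156) (nat_lit 0) (nat_lit 0) (XT.nd (nat_lit 78) (nat_lit 76) (nat_lit 0) (XT.lf (nat_lit 0) (nat_lit 2835134187) (nat_lit 152) (nat_lit 854912821) (nat_lit 76) (nat_lit 269734316600) (nat_lit 2) (nat_lit 5) (nat_lit 4) (nat_lit 5) (nat_lit 3) (nat_lit 4) (nat_lit 331) (nat_lit 250) (nat_lit 199)) (XT.lf (nat_lit 0) (nat_lit 6517610708) (nat_lit 152) (nat_lit 288204865288) (nat_lit 0) (nat_lit 256439746) (nat_lit 1) (nat_lit 5) (nat_lit 3) (nat_lit 4) (nat_lit 1) (nat_lit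 4) (nat_lit 332) (nat_lit 250) (nat_lit 198))) (XT.nd (nat_lit 78) (nat_lit 0) (nat_lit 0) (XT.lf (nat_lit 0) (nat_lit 10603427183) (nat_lit 152) (nat_lit 303312090788) (nat_lit 0) (nat_lit 4333620499) (nat_lit 1) (nat_lit 5) (nat_lit 3) (nat_lit 4) (nat_lit 1) (nat_lit 4) (nat_lit 333) (nat_lit 250) (nat_lit 197)) (XT.lf (nat_lit 0) (nat_lit 15005844609) (nat_lit 152) (nat_lit 319647919009) (nat_lit 0) (nat_lit 8728041886) (nat_lit 1) (nat_lit 5) (nat_lit 3) (nat_lit 4) (nat_lit 1) (nat_lit 4) (nat_lit 334) (nat_lit 250) (nat_lit 196)))))) (XT.nd (nat_lit 546) (nat_lit 0) (nat_lit 0) (XT.nd (nat_lit 234) (nat_lit 0) (nat_lit 0) (XT.nd (nat_lit 78) (nat_lit 0) (nat_lit 0) (XT.lf (nat_lit 0) (nat_lit 19750951388) (nat_lit 152) (nat_lit 337309154859) (nat_lit 0) (nat_lit 13465744925) (nat_lit 1) (nat_lit 5) (nat_lit 3) (nat_lit 4) (nat_lit 1) (nat_lit 4) (nat_lit 335) (nat_lit 250) (nat_lit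 195)) (XT.nd (nat_lit 78) (nat_lit 0) (nat_lit 0) (XT.lf (nat_lit 0) (nat_lit 24866866669) (nat_lit 152) (nat_lit 356400457514) (nat_lit 0) (nat_lit 18574804892) (nat_lit 1) (nat_lit 5) (nat_lit 3) (nat_lit 4) (nat_lit 1) (nat_lit 4) (nat_lit 336) (nat_lit 250) (nat_lit 194)) (XT.lf (nat_lit 0) (nat_lit 30383906989) (nat_lit 152) (nat_lit 377034960619) (nat_lit 0) (nat_lit 24085497698) (nat_lit 1) (nat_lit 5) (nat_lit 3) (nat_lit 4) (nat_lit 1) (nat_lit 4) (nat_lit 337) (nat_lit 250) (nat_lit 193)))) (XT.nd (nat_lit 156) (nat_lit 0) (nat_lit 0) (XT.nd (nat_lit 78) (nat_lit 0) (nat_lit 0) (XT.lf (nat_lit 0) (nat_lit 36334765919) (nat_lit 152) (nat_lit 399334942710) (nat_lit 0) (nat_lit 30030479301) (nat_lit 1) (nat_lit 5) (nat_lit 3) (nat_lit 4) (nat_lit 1) (nat_lit 4) (nat_lit 338) (nat_lit 250) (nat_lit 192)) (XT.lf (nat_lit 0) (nat_lit 42754707808) (nat_lit 152) (nat_lit 423432551830)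 (nat_lit 0) (nat_lit 36444979220) (nat_lit 1) (nat_lit 5) (nat_lit 3) (nat_lit 4) (nat_lit 1) (nat_lit 4) (nat_lit 339) (nat_lit 250) (nat_lit 191))) (XT.nd (nat_lit 78) (nat_lit 0) (nat_lit 0) (XT.lf (nat_lit 0) (nat_lit 49681776757) (nat_lit 152) (nat_lit 449470588626) (nat_lit 0) (nat_lit 43367009308) (nat_lit 1) (nat_lit 5) (nat_lit 3) (nat_lit 4) (nat_lit 1) (nat_lit 4) (nat_lit 340) (nat_lit 250) (nat_lit 190)) (XT.lf (nat_lit 0) (nat_lit 57157022063) (nat_lit 152) (nat_lit 477603352574) (nat_lit 0) (nat_lit 50837589003) (nat_lit 1) (nat_lit 5) (nat_lit 3) (nat_lit 4) (nat_lit 1) (nat_lit 4) (nat_lit 341) (nat_lit 250) (nat_lit 189))))) (XT.nd (nat_lit 312) (nat_lit 0) (nat_lit 0) (XT.nd (nat_lit 156) (nat_lit 0) (nat_lit 0) (XT.nd (nat_lit 78) (nat_lit 0) (nat_lit 0) (XT.lf (nat_lit 0) (nat_lit 65224741477) (nat_lit 152) (nat_lit 507997556350) (nat_lit 0) (nat_lit 58900988405)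 (nat_lit 1) (nat_lit 5) (nat_lit 3) (nat_lit 4) (nat_lit 1) (nat_lit 4) (nat_lit 342) (nat_lit 250) (nat_lit 188)) (XT.lf (nat_lit 0) (nat_lit 73932743704) (nat_lit 152) (nat_lit 540833313754) (nat_lit 0) (nat_lit 67604990623) (nat_lit 1) (nat_lit 5) (nat_lit 3) (nat_lit 4) (nat_lit 1) (nat_lit 4) (nat_lit 343) (nat_lit 250) (nat_lit 187))) (XT.nd (nat_lit 78) (nat_lit 0) (nat_lit 0) (XT.lf (nat_lit 0) (nat_lit 83332631723) (nat_lit 152) (nat_lit 576305207053) (nat_lit 0) (nat_lit 77001174928) (nat_lit 1) (nat_lit 5) (nat_lit 3) (nat_lit 4) (nat_lit 1) (nat_lit 4) (nat_lit 344) (nat_lit 250) (nat_lit 186)) (XT.lf (nat_lit 0) (nat_lit 93480108573) (nat_lit 152) (nat_lit 614623440058) (nat_lit 0) (nat_lit 87145222414) (nat_lit 1) (nat_lit 5) (nat_lit 3) (nat_lit 4) (nat_lit 1) (nat_lit 4) (nat_lit 345) (nat_lit 250) (nat_lit 185)))) (XT.nd (nat_lit 156) (nat_lit 0) (nat_lit 0) (XT.nd (nat_lit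 78) (nat_lit 0) (nat_lit 0) (XT.lf (nat_lit 0) (nat_lit 104435307450) (nat_lit 152) (nat_lit 656015083780) (nat_lit 0) (nat_lit 98097245954) (nat_lit 1) (nat_lit 5) (nat_lit 3) (nat_lit 4) (nat_lit 1) (nat_lit 4) (nat_lit 346) (nat_lit 250) (nat_lit 184)) (XT.lf (nat_lit 0) (nat_lit 116263148051) (nat_lit 152) (nat_lit 700725422033) (nat_lit 0) (nat_lit 109922146428) (nat_lit 1) (nat_lit 5) (nat_lit 3) (nat_lit 4) (nat_lit 1) (nat_lit 4) (nat_lit 347) (nat_lit 250) (nat_lit 183))) (XT.nd (nat_lit 78) (nat_lit 0) (nat_lit 0) (XT.lf (nat_lit 0) (nat_lit 129033721283) (nat_lit 152) (nat_lit 749019404970) (nat_lit 0) (nat_lit 122689997320) (nat_lit 1) (nat_lit 5) (nat_lit 3) (nat_lit 4) (nat_lit 1) (nat_lit 4) (nat_lit 348) (nat_lit 250) (nat_lit 182)) (XT.lf (nat_lit 0) (nat_lit 142822704618) (nat_lit 152) (nat_lit 801183219157) (nat_lit 0) (nat_lit 136476459970) (nat_lit 1) (nat_lit 5)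 (nat_lit 3) (nat_lit 4) (nat_lit 1) (nat_lit 4) (nat_lit 349) (nat_lit 250) (nat_lit 181))))))) (XT.nd (nat_lit 1170) (nat_lit 0) (nat_lit 0) (XT.nd (nat_lit 546) (nat_lit 0) (nat_lit 0) (XT.nd (nat_lit 234) (nat_lit 0) (nat_lit 0) (XT.nd (nat_lit 78) (nat_lit 0) (nat_lit 0) (XT.lf (nat_lit 0) (nat_lit 157711810549) (nat_lit 152) (nat_lit 857525983492) (nat_lit 0) (nat_lit 151363231934) (nat_lit 1) (nat_lit 5) (nat_lit 3) (nat_lit 4) (nat_lit 1) (nat_lit 4) (nat_lit 350) (nat_lit 250) (nat_lit 180)) (XT.nd (nat_lit 78) (nat_lit 0) (nat_lit 0) (XT.lf (nat_lit 0) (nat_lit 173789270816) (nat_lit 152) (nat_lit 918381581024) (nat_lit 0) (nat_lit 167438531119) (nat_lit 1) (nat_lit 5) (nat_lit 3) (nat_lit 4) (nat_lit 1) (nat_lit 4) (nat_lit 351) (nat_lit 250) (nat_lit 179)) (XT.lf (nat_lit 0) (nat_lit 191150359256) (nat_lit 152) (nat_lit 984110637515) (nat_lit 0) (nat_lit 184797618558) (nat_lit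 1) (nat_lit 5) (nat_lit 3) (nat_lit 4) (nat_lit 1) (nat_lit 4) (nat_lit 352) (nat_lit 250) (nat_lit 178)))) (XT.nd (nat_lit 156) (nat_lit 0) (nat_lit 0) (XT.nd (nat_lit 78) (nat_lit 0) (nat_lit 0) (XT.lf (nat_lit 0) (nat_lit 209897956394) (nat_lit 152) (nat_lit 1055102658485) (nat_lit 0) (nat_lit 203543362917) (nat_lit 1) (nat_lit 5) (nat_lit 3) (nat_lit 4) (nat_lit 1) (nat_lit 4) (nat_lit 353) (nat_lit 250) (nat_lit 177)) (XT.lf (nat_lit 0) (nat_lit 230143159101) (nat_lit 152) (nat_lit 1131778337393) (nat_lit 0) (nat_lit 223786850089) (nat_lit 1) (nat_lit 5) (nat_lit 3) (nat_lit 4) (nat_lit 1) (nat_lit 4) (nat_lit 354) (nat_lit 250) (nat_lit 176))) (XT.nd (nat_lit 78) (nat_lit 0) (nat_lit 0) (XT.lf (nat_lit 0) (nat_lit 252005938950) (nat_lit 152) (nat_lit 1214592048631) (nat_lit 0) (nat_lit 245648041479) (nat_lit 1) (nat_lit 5) (nat_lit 3) (nat_lit 4) (nat_lit 1) (nat_lit 4) (nat_lit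 355) (nat_lit 250) (nat_lit 175)) (XT.lf (nat_lit 0) (nat_lit 275615853155) (nat_lit 152) (nat_lit 1304034540119) (nat_lit 0) (nat_lit 269256484888) (nat_lit 1) (nat_lit 5) (nat_lit 3) (nat_lit 4) (nat_lit 1) (nat_lit 4) (nat_lit 356) (nat_lit 250) (nat_lit 174))))) (XT.nd (nat_lit 312) (nat_lit 0) (nat_lit 0) (XT.nd (nat_lit 156) (nat_lit 0) (nat_lit 0) (XT.nd (nat_lit 78) (nat_lit 0) (nat_lit 0) (XT.lf (nat_lit 0) (nat_lit 301112812317) (nat_lit 152) (nat_lit 1400635841434) (nat_lit 0) (nat_lit 294752082203) (nat_lit 1) (nat_lit 5) (nat_lit 3) (nat_lit 4) (nat_lit 1) (nat_lit 4) (nat_lit 357) (nat_lit 250) (nat_lit 173)) (XT.lf (nat_lit 0) (nat_lit 328647909528) (nat_lit 152) (nat_lit 1504968404734) (nat_lit 0) (nat_lit 322285918444) (nat_lit 1) (nat_lit 5) (nat_lit 3) (nat_lit 4) (nat_lit 1) (nat_lit 4) (nat_lit 358) (nat_lit 250) (nat_lit 172))) (XT.nd (nat_lit 78) (nat_lit 0) (nat_lit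 0) (XT.lf (nat_lit 0) (nat_lit 358384315736) (nat_lit 152) (nat_lit 1617650497060) (nat_lit 0) (nat_lit 352021157087) (nat_lit 1) (nat_lit 5) (nat_lit 3) (nat_lit 4) (nat_lit 1) (nat_lit 4) (nat_lit 359) (nat_lit 250) (nat_lit 171)) (XT.lf (nat_lit 0) (nat_lit 390498246679) (nat_lit 152) (nat_lit 1739349864144) (nat_lit 0) (nat_lit 384134006952) (nat_lit 1) (nat_lit 5) (nat_lit 3) (nat_lit 4) (nat_lit 1) (nat_lit 4) (nat_lit 360) (nat_lit 250) (nat_lit 170)))) (XT.nd (nat_lit 156) (nat_lit 0) (nat_lit 0) (XT.nd (nat_lit 78) (nat_lit 0) (nat_lit 0) (XT.lf (nat_lit 0) (nat_lit 425180007135) (nat_lit 152) (nat_lit 1870787687421) (nat_lit 0) (nat_lit 418814766409) (nat_lit 1) (nat_lit 5) (nat_lit 3) (nat_lit 4) (nat_lit 1) (nat_lit 4) (nat_lit 361) (nat_lit 250) (nat_lit 169)) (XT.lf (nat_lit 0) (nat_lit 462635118646) (nat_lit 152) (nat_lit 2012742857695) (nat_lit 0) (nat_lit 456268951069)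 (nat_lit 1) (nat_lit 5) (nat_lit 3) (nat_lit 4) (nat_lit 1) (nat_lit 4) (nat_lit 362) (nat_lit 250) (nat_lit 168))) (XT.nd (nat_lit 78) (nat_lit 0) (nat_lit 0) (XT.lf (nat_lit 0) (nat_lit 503085537430) (nat_lit 152) (nat_lit 2166056590791) (nat_lit 0) (nat_lit 496718511658) (nat_lit 1) (nat_lit 5) (nat_lit 3) (nat_lit 4) (nat_lit 1) (nat_lit 4) (nat_lit 363) (nat_lit 250) (nat_lit 167)) (XT.lf (nat_lit 0) (nat_lit 546770969671) (nat_lit 152) (nat_lit 2331637412534) (nat_lit 0) (nat_lit 540403149274) (nat_lit 1) (nat_lit 5) (nat_lit 3) (nat_lit 4) (nat_lit 1) (nat_lit 4) (nat_lit 364) (nat_lit 250) (nat_lit 166)))))) (XT.nd (nat_lit 34086) (nat_lit 0) (nat_lit 988) (XT.nd (nat_lit 312) (nat_lit 0) (nat_lit 0) (XT.nd (nat_lit 156) (nat_lit 0) (nat_lit 0) (XT.nd (nat_lit 78) (nat_lit 0) (nat_lit 0) (XT.lf (nat_lit 0) (nat_lit 593950292004) (nat_lit 152) (nat_lit 2510466542608) (nat_lit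 0) (nat_lit 587581735843) (nat_lit 1) (nat_lit 5) (nat_lit 3) (nat_lit 4) (nat_lit 1) (nat_lit 4) (nat_lit 365) (nat_lit 250) (nat_lit 165)) (XT.lf (nat_lit 0) (nat_lit 644903085600) (nat_lit 152) (nat_lit 2703603709191) (nat_lit 0) (nat_lit 638533848176) (nat_lit 1) (nat_lit 5) (nat_lit 3) (nat_lit 4) (nat_lit 1) (nat_lit 4) (nat_lit 366) (nat_lit 250) (nat_lit 164))) (XT.nd (nat_lit 78) (nat_lit 0) (nat_lit 0) (XT.lf (nat_lit 0) (nat_lit 699931292939) (nat_lit 152) (nat_lit 2912193428828) (nat_lit 0) (nat_lit 693561424716) (nat_lit 1) (nat_lit 5) (nat_lit 3) (nat_lit 4) (nat_lit 1) (nat_lit 4) (nat_lit 367) (nat_lit 250) (nat_lit 163)) (XT.lf (nat_lit 0) (nat_lit 759361007101) (nat_lit 152) (nat_lit 3137471788744) (nat_lit 0) (nat_lit 752990554805) (nat_lit 1) (nat_lit 5) (nat_lit 3) (nat_lit 4) (nat_lit 1) (nat_lit 4) (nat_lit 368) (nat_lit 250) (nat_lit 162)))) (XT.nd (nat_lit 33618)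 (nat_lit 0) (nat_lit 1824) (XT.nd (nat_lit 33540) (nat_lit 0) (nat_lit 2052) (XT.lf (nat_lit 0) (nat_lit 823544404170) (nat_lit 152) (nat_lit 3380773771813) (nat_lit 0) (nat_lit 817173411066) (nat_lit 1) (nat_lit 5) (nat_lit 3) (nat_lit 4) (nat_lit 1) (nat_lit 4) (nat_lit 369) (nat_lit 250) (nat_lit 161)) (XT.lf (nat_lit 0) (nat_lit 2516575145) (nat_lit 152) (nat_lit 1019855344) (nat_lit 152) (nat_lit 1019855344) (nat_lit 28) (nat_lit 4) (nat_lit 30) (nat_lit 5) (nat_lit 30) (nat_lit 4) (nat_lit 278) (nat_lit 251) (nat_lit 251))) (XT.nd (nat_lit 78) (nat_lit 0) (nat_lit 0) (XT.lf (nat_lit 0) (nat_lit 1710106111) (nat_lit 228) (nat_lit 6909164741) (nat_lit 0) (nat_lit 835678253) (nat_lit 25) (nat_lit 5) (nat_lit 28) (nat_lit 4) (nat_lit 25) (nat_lit 4) (nat_lit 279) (nat_lit 251) (nat_lit 250)) (XT.lf (nat_lit 0) (nat_lit 5577502234) (nat_lit 228) (nat_lit 355874724) (nat_lit 0) (nat_lit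 3893418951) (nat_lit 25) (nat_lit 5) (nat_lit 28) (nat_lit 4) (nat_lit 25) (nat_lit 4) (nat_lit 280) (nat_lit 251) (nat_lit 249))))) (XT.nd (nat_lit 312) (nat_lit 380) (nat_lit 0) (XT.nd (nat_lit 156) (nat_lit 152) (nat_lit 0) (XT.nd (nat_lit 78) (nat_lit 152) (nat_lit 0) (XT.lf (nat_lit 0) (nat_lit 6720619385) (nat_lit 152) (nat_lit 2973427757) (nat_lit 152) (nat_lit 539663526) (nat_lit 23) (nat_lit 4) (nat_lit 25) (nat_lit 5) (nat_lit 25) (nat_lit 4) (nat_lit 281) (nat_lit 251) (nat_lit 248)) (XT.lf (nat_lit 0) (nat_lit 3174220450) (nat_lit 152) (nat_lit 7224240721) (nat_lit 0) (nat_lit 278004470) (nat_lit 21) (nat_lit 5) (nat_lit 23) (nat_lit 4) (nat_lit 21) (nat_lit 4) (nat_lit 282) (nat_lit 251) (nat_lit 247))) (XT.nd (nat_lit 78) (nat_lit 152) (nat_lit 0) (XT.lf (nat_lit 0) (nat_lit 7117864005) (nat_lit 152) (nat_lit 412581666) (nat_lit 0) (nat_lit 3626527118) (nat_lit 21) (nat_lit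 5) (nat_lit 23) (nat_lit 4) (nat_lit 21) (nat_lit 4) (nat_lit 283) (nat_lit 251) (nat_lit 246)) (XT.lf (nat_lit 0) (nat_lit 6972000028) (nat_lit 152) (nat_lit 4374549641) (nat_lit 152) (nat_lit 332174876) (nat_lit 19) (nat_lit 4) (nat_lit 21) (nat_lit 5) (nat_lit 21) (nat_lit 4) (nat_lit 284) (nat_lit 251) (nat_lit 245)))) (XT.nd (nat_lit 156) (nat_lit 228) (nat_lit 0) (XT.nd (nat_lit 78) (nat_lit 0) (nat_lit 0) (XT.lf (nat_lit 0) (nat_lit 2439644103) (nat_lit 76) (nat_lit 922009321) (nat_lit 152) (nat_lit 8883895483) (nat_lit 17) (nat_lit 5) (nat_lit 18) (nat_lit 5) (nat_lit 19) (nat_lit 4) (nat_lit 285) (nat_lit 251) (nat_lit 244)) (XT.lf (nat_lit 0) (nat_lit 7340255658) (nat_lit 152) (nat_lit 2829030161) (nat_lit 0) (nat_lit 2687458265) (nat_lit 17) (nat_lit 5) (nat_lit 19) (nat_lit 4) (nat_lit 17) (nat_lit 4) (nat_lit 286) (nat_lit 251) (nat_lit 243))) (XT.nd (nat_lit 78) (nat_lit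 76) (nat_lit 0) (XT.lf (nat_lit 0) (nat_lit 4609354928) (nat_lit 152) (nat_lit 6984519459) (nat_lit 152) (nat_lit 1926692776) (nat_lit 15) (nat_lit 4) (nat_lit 17) (nat_lit 5) (nat_lit 17) (nat_lit 4) (nat_lit 287) (nat_lit 251) (nat_lit 242)) (XT.lf (nat_lit 0) (nat_lit 1755386438) (nat_lit 228) (nat_lit 1781650012) (nat_lit 76) (nat_lit 10704726349) (nat_lit 14) (nat_lit 5) (nat_lit 17) (nat_lit 5) (nat_lit 15) (nat_lit 4) (nat_lit 288) (nat_lit 251) (nat_lit 241))))))))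
noncomputable def xc35 : XT := (XT.nd (nat_lit 2418) (nat_lit 152) (nat_lit 0) (XT.nd (nat_lit 1170) (nat_lit 228) (nat_lit 0) (XT.nd (nat_lit 546) (nat_lit 304) (nat_lit 0) (XT.nd (nat_lit 234) (nat_lit 152) (nat_lit 0) (XT.nd (nat_lit 78) (nat_lit 76) (nat_lit 0) (XT.lf (nat_lit 0) (nat_lit 5612333045) (nat_lit 152) (nat_lit 9145393348) (nat_lit 0) (nat_lit 260387547) (nat_lit 13) (nat_lit 5) (nat_lit 15) (nat_lit 4) (nat_lit 13) (nat_lit 4) (nat_lit 289) (nat_lit 251) (nat_lit 240)) (XT.nd (nat_lit 78) (nat_lit 76) (nat_lit 0) (XT.lf (nat_lit 0) (nat_lit 9758751714) (nat_lit 152) (nat_lit 1990449422) (nat_lit 0) (nat_lit 4109097597) (nat_lit 13) (nat_lit 5) (nat_lit 15) (nat_lit 4) (nat_lit 13) (nat_lit 4) (nat_lit 290) (nat_lit 251) (nat_lit 239)) (XT.lf (nat_lit 0) (nat_lit 5760808016) (nat_lit 76) (nat_lit 8465610933) (nat_lit 76) (nat_lit 2540300687) (nat_lit 12) (nat_lit 4) (nat_lit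 13) (nat_lit 5) (nat_lit 13) (nat_lit 4) (nat_lit 291) (nat_lit 251) (nat_lit 238)))) (XT.nd (nat_lit 156) (nat_lit 0) (nat_lit 0) (XT.nd (nat_lit 78) (nat_lit 76) (nat_lit 0) (XT.lf (nat_lit 0) (nat_lit 1146229976) (nat_lit 152) (nat_lit 3796389051) (nat_lit 76) (nat_lit 12810223938) (nat_lit 11) (nat_lit 5) (nat_lit 13) (nat_lit 5) (nat_lit 12) (nat_lit 4) (nat_lit 292) (nat_lit 251) (nat_lit 237)) (XT.lf (nat_lit 0) (nat_lit 3871735927) (nat_lit 76) (nat_lit 1074713125) (nat_lit 152) (nat_lit 13869794079) (nat_lit 10) (nat_lit 5) (nat_lit 11) (nat_lit 5) (nat_lit 12) (nat_lit 4) (nat_lit 293) (nat_lit 251) (nat_lit 236))) (XT.nd (nat_lit 78) (nat_lit 0) (nat_lit 0) (XT.lf (nat_lit 0) (nat_lit 9096514308) (nat_lit 152) (nat_lit 7912325027) (nat_lit 0) (nat_lit 2952345026) (nat_lit 10) (nat_lit 5) (nat_lit 12) (nat_lit 4) (nat_lit 10) (nat_lit 4) (nat_lit 294) (nat_lit 251) (nat_lit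 235)) (XT.lf (nat_lit 0) (nat_lit 13481234906) (nat_lit 152) (nat_lit 574940601) (nat_lit 0) (nat_lit 7149458694) (nat_lit 10) (nat_lit 5) (nat_lit 12) (nat_lit 4) (nat_lit 10) (nat_lit 4) (nat_lit 295) (nat_lit 251) (nat_lit 234))))) (XT.nd (nat_lit 312) (nat_lit 76) (nat_lit 0) (XT.nd (nat_lit 156) (nat_lit 152) (nat_lit 0) (XT.nd (nat_lit 78) (nat_lit 0) (nat_lit 0) (XT.lf (nat_lit 0) (nat_lit 7512794137) (nat_lit 76) (nat_lit 10768636239) (nat_lit 76) (nat_lit 4263149907) (nat_lit 9) (nat_lit 4) (nat_lit 10) (nat_lit 5) (nat_lit 10) (nat_lit 4) (nat_lit 296) (nat_lit 251) (nat_lit 233)) (XT.lf (nat_lit 0) (nat_lit 16073162960) (nat_lit 76) (nat_lit 7295823967) (nat_lit 76) (nat_lit 629494931) (nat_lit 9) (nat_lit 4) (nat_lit 10) (nat_lit 5) (nat_lit 10) (nat_lit 4) (nat_lit 297) (nat_lit 251) (nat_lit 232))) (XT.nd (nat_lit 78) (nat_lit 76) (nat_lit 0) (XT.lf (nat_lit 0) (nat_lit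 3023183045) (nat_lit 152) (nat_lit 527036731) (nat_lit 76) (nat_lit 22020776398) (nat_lit 8) (nat_lit 5) (nat_lit 10) (nat_lit 5) (nat_lit 9) (nat_lit 4) (nat_lit 298) (nat_lit 251) (nat_lit 231)) (XT.lf (nat_lit 0) (nat_lit 7034119013) (nat_lit 152) (nat_lit 19629952331) (nat_lit 0) (nat_lit 596013311) (nat_lit 7) (nat_lit 5) (nat_lit 9) (nat_lit 4) (nat_lit 7) (nat_lit 4) (nat_lit 299) (nat_lit 251) (nat_lit 230)))) (XT.nd (nat_lit 156) (nat_lit 76) (nat_lit 0) (XT.nd (nat_lit 78) (nat_lit 0) (nat_lit 0) (XT.lf (nat_lit 0) (nat_lit 11375057692) (nat_lit 152) (nat_lit 12889863467) (nat_lit 0) (nat_lit 4818727801) (nat_lit 7) (nat_lit 5) (nat_lit 9) (nat_lit 4) (nat_lit 7) (nat_lit 4) (nat_lit 300) (nat_lit 251) (nat_lit 229)) (XT.lf (nat_lit 0) (nat_lit 15972651026) (nat_lit 152) (nat_lit 5780915849) (nat_lit 0) (nat_lit 9306854293) (nat_lit 7) (nat_lit 5) (nat_lit 9) (nat_lit 4) (nat_lit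 7) (nat_lit 4) (nat_lit 301) (nat_lit 251) (nat_lit 228))) (XT.nd (nat_lit 78) (nat_lit 0) (nat_lit 0) (XT.lf (nat_lit 0) (nat_lit 1830591206) (nat_lit 76) (nat_lit 19067578567) (nat_lit 76) (nat_lit 12300423648) (nat_lit 6) (nat_lit 4) (nat_lit 7) (nat_lit 5) (nat_lit 7) (nat_lit 4) (nat_lit 302) (nat_lit 251) (nat_lit 227)) (XT.lf (nat_lit 0) (nat_lit 10226047839) (nat_lit 76) (nat_lit 16068352872) (nat_lit 76) (nat_lit 9207347780) (nat_lit 6) (nat_lit 4) (nat_lit 7) (nat_lit 5) (nat_lit 7) (nat_lit 4) (nat_lit 303) (nat_lit 251) (nat_lit 226)))))) (XT.nd (nat_lit 624) (nat_lit 76) (nat_lit 0) (XT.nd (nat_lit 312) (nat_lit 0) (nat_lit 0) (XT.nd (nat_lit 156) (nat_lit 152) (nat_lit 0) (XT.nd (nat_lit 78) (nat_lit 0) (nat_lit 0) (XT.lf (nat_lit 0) (nat_lit 19150792120) (nat_lit 76) (nat_lit 12896177084) (nat_lit 76) (nat_lit 5948273683) (nat_lit 6) (nat_lit 4) (nat_lit 7) (nat_lit 5)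 (nat_lit 7) (nat_lit 4) (nat_lit 304) (nat_lit 251) (nat_lit 225)) (XT.lf (nat_lit 0) (nat_lit 28657711421) (nat_lit 76) (nat_lit 9532253124) (nat_lit 76) (nat_lit 2503888327) (nat_lit 6) (nat_lit 4) (nat_lit 7) (nat_lit 5) (nat_lit 7) (nat_lit 4) (nat_lit 305) (nat_lit 251) (nat_lit 224))) (XT.nd (nat_lit 78) (nat_lit 76) (nat_lit 0) (XT.lf (nat_lit 0) (nat_lit 1088880921) (nat_lit 152) (nat_lit 4837993773) (nat_lit 76) (nat_lit 37684490187) (nat_lit 5) (nat_lit 5) (nat_lit 7) (nat_lit 5) (nat_lit 6) (nat_lit 4) (nat_lit 306) (nat_lit 251) (nat_lit 223)) (XT.lf (nat_lit 0) (nat_lit 2899748681) (nat_lit 76) (nat_lit 1942365477) (nat_lit 152) (nat_lit 41914338077) (nat_lit 4) (nat_lit 5) (nat_lit 5) (nat_lit 5) (nat_lit 6) (nat_lit 4) (nat_lit 307) (nat_lit 251) (nat_lit 222)))) (XT.nd (nat_lit 156) (nat_lit 0) (nat_lit 0) (XT.nd (nat_lit 78) (nat_lit 0) (nat_lit 0) (XT.lf (nat_lit 0)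 (nat_lit 9027211120) (nat_lit 152) (nat_lit 38787977677) (nat_lit 0) (nat_lit 2327468881) (nat_lit 4) (nat_lit 5) (nat_lit 6) (nat_lit 4) (nat_lit 4) (nat_lit 4) (nat_lit 308) (nat_lit 251) (nat_lit 221)) (XT.lf (nat_lit 0) (nat_lit 13541187360) (nat_lit 152) (nat_lit 33472398608) (nat_lit 0) (nat_lit 6786684446) (nat_lit 4) (nat_lit 5) (nat_lit 6) (nat_lit 4) (nat_lit 4) (nat_lit 4) (nat_lit 309) (nat_lit 251) (nat_lit 220))) (XT.nd (nat_lit 78) (nat_lit 0) (nat_lit 0) (XT.lf (nat_lit 0) (nat_lit 18364078429) (nat_lit 152) (nat_lit 27831752683) (nat_lit 0) (nat_lit 11558871187) (nat_lit 4) (nat_lit 5) (nat_lit 6) (nat_lit 4) (nat_lit 4) (nat_lit 4) (nat_lit 310) (nat_lit 251) (nat_lit 219)) (XT.lf (nat_lit 0) (nat_lit 23524464424) (nat_lit 152) (nat_lit 21832613854) (nat_lit 0) (nat_lit 16672308730) (nat_lit 4) (nat_lit 5) (nat_lit 6) (nat_lit 4) (nat_lit 4) (nat_lit 4) (nat_lit 311)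 (nat_lit 251) (nat_lit 218))))) (XT.nd (nat_lit 312) (nat_lit 0) (nat_lit 0) (XT.nd (nat_lit 156) (nat_lit 76) (nat_lit 0) (XT.nd (nat_lit 78) (nat_lit 0) (nat_lit 0) (XT.lf (nat_lit 0) (nat_lit 29052925408) (nat_lit 152) (nat_lit 15439431666) (nat_lit 0) (nat_lit 22157298925) (nat_lit 4) (nat_lit 5) (nat_lit 6) (nat_lit 4) (nat_lit 4) (nat_lit 4) (nat_lit 312) (nat_lit 251) (nat_lit 217)) (XT.lf (nat_lit 0) (nat_lit 34982222633) (nat_lit 152) (nat_lit 8614320597) (nat_lit 0) (nat_lit 28046345419) (nat_lit 4) (nat_lit 5) (nat_lit 6) (nat_lit 4) (nat_lit 4) (nat_lit 4) (nat_lit 313) (nat_lit 251) (nat_lit 216))) (XT.nd (nat_lit 78) (nat_lit 76) (nat_lit 0) (XT.lf (nat_lit 0) (nat_lit 41347492674) (nat_lit 152) (nat_lit 1316835543) (nat_lit 0) (nat_lit 34374346266) (nat_lit 4) (nat_lit 5) (nat_lit 6) (nat_lit 4) (nat_lit 4) (nat_lit 4) (nat_lit 314) (nat_lit 251) (nat_lit 215)) (XT.lf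 (nat_lit 0) (nat_lit 6838349802) (nat_lit 76) (nat_lit 41512568325) (nat_lit 76) (nat_lit 34504913403) (nat_lit 3) (nat_lit 4) (nat_lit 4) (nat_lit 5) (nat_lit 4) (nat_lit 4) (nat_lit 315) (nat_lit 251) (nat_lit 214)))) (XT.nd (nat_lit 156) (nat_lit 0) (nat_lit 0) (XT.nd (nat_lit 78) (nat_lit 0) (nat_lit 0) (XT.lf (nat_lit 0) (nat_lit 15654385204) (nat_lit 76) (nat_lit 40261741886) (nat_lit 76) (nat_lit 33222134637) (nat_lit 3) (nat_lit 4) (nat_lit 4) (nat_lit 5) (nat_lit 4) (nat_lit 4) (nat_lit 316) (nat_lit 251) (nat_lit 213)) (XT.lf (nat_lit 0) (nat_lit 25114171609) (nat_lit 76) (nat_lit 38940441214) (nat_lit 76) (nat_lit 31871248476) (nat_lit 3) (nat_lit 4) (nat_lit 4) (nat_lit 5) (nat_lit 4) (nat_lit 4) (nat_lit 317) (nat_lit 251) (nat_lit 212))) (XT.nd (nat_lit 78) (nat_lit 0) (nat_lit 0) (XT.lf (nat_lit 0) (nat_lit 35273767009) (nat_lit 76) (nat_lit 37540836378) (nat_lit 76) (nat_lit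 30444249669) (nat_lit 3) (nat_lit 4) (nat_lit 4) (nat_lit 5) (nat_lit 4) (nat_lit 4) (nat_lit 318) (nat_lit 251) (nat_lit 211)) (XT.lf (nat_lit 0) (nat_lit 46193376415) (nat_lit 76) (nat_lit 36054633424) (nat_lit 76) (nat_lit 28932681928) (nat_lit 3) (nat_lit 4) (nat_lit 4) (nat_lit 5) (nat_lit 4) (nat_lit 4) (nat_lit 319) (nat_lit 251) (nat_lit 210))))))) (XT.nd (nat_lit 1170) (nat_lit 0) (nat_lit 0) (XT.nd (nat_lit 546) (nat_lit 152) (nat_lit 0) (XT.nd (nat_lit 234) (nat_lit 0) (nat_lit 0) (XT.nd (nat_lit 78) (nat_lit 0) (nat_lit 0) (XT.lf (nat_lit 0) (nat_lit 57937708622) (nat_lit 76) (nat_lit 34473025224) (nat_lit 76) (nat_lit 27327587813) (nat_lit 3) (nat_lit 4) (nat_lit 4) (nat_lit 5) (nat_lit 4) (nat_lit 4) (nat_lit 320) (nat_lit 251) (nat_lit 209)) (XT.nd (nat_lit 78) (nat_lit 0) (nat_lit 0) (XT.lf (nat_lit 0) (nat_lit 70576359675) (nat_lit 76) (nat_lit 32786639284) (nat_lit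 76) (nat_lit 25619455655) (nat_lit 3) (nat_lit 4) (nat_lit 4) (nat_lit 5) (nat_lit 4) (nat_lit 4) (nat_lit 321) (nat_lit 251) (nat_lit 208)) (XT.lf (nat_lit 0) (nat_lit 84184225282) (nat_lit 76) (nat_lit 30985482206) (nat_lit 76) (nat_lit 23798163191) (nat_lit 3) (nat_lit 4) (nat_lit 4) (nat_lit 5) (nat_lit 4) (nat_lit 4) (nat_lit 322) (nat_lit 251) (nat_lit 207)))) (XT.nd (nat_lit 156) (nat_lit 0) (nat_lit 0) (XT.nd (nat_lit 78) (nat_lit 0) (nat_lit 0) (XT.lf (nat_lit 0) (nat_lit 98841944647) (nat_lit 76) (nat_lit 29058880467) (nat_lit 76) (nat_lit 21852917576) (nat_lit 3) (nat_lit 4) (nat_lit 4) (nat_lit 5) (nat_lit 4) (nat_lit 4) (nat_lit 323) (nat_lit 251) (nat_lit 206)) (XT.lf (nat_lit 0) (nat_lit 114636378330) (nat_lit 76) (nat_lit 26995417167) (nat_lit 76) (nat_lit 19772191428) (nat_lit 3) (nat_lit 4) (nat_lit 4) (nat_lit 5) (nat_lit 4) (nat_lit 4) (nat_lit 324) (nat_lit 251)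 (nat_lit 205))) (XT.nd (nat_lit 78) (nat_lit 0) (nat_lit 0) (XT.lf (nat_lit 0) (nat_lit 131661122975) (nat_lit 76) (nat_lit 24782864376) (nat_lit 76) (nat_lit 17543654518) (nat_lit 3) (nat_lit 4) (nat_lit 4) (nat_lit 5) (nat_lit 4) (nat_lit 4) (nat_lit 325) (nat_lit 251) (nat_lit 204)) (XT.lf (nat_lit 0) (nat_lit 150017065956) (nat_lit 76) (nat_lit 22408110670) (nat_lit 76) (nat_lit 15154100702) (nat_lit 3) (nat_lit 4) (nat_lit 4) (nat_lit 5) (nat_lit 4) (nat_lit 4) (nat_lit 326) (nat_lit 251) (nat_lit 203))))) (XT.nd (nat_lit 312) (nat_lit 152) (nat_lit 0) (XT.nd (nat_lit 156) (nat_lit 0) (nat_lit 0) (XT.nd (nat_lit 78) (nat_lit 0) (nat_lit 0) (XT.lf (nat_lit 0) (nat_lit 169812983234) (nat_lit 76) (nat_lit 19857083435) (nat_lit 76) (nat_lit 12589369661) (nat_lit 3) (nat_lit 4) (nat_lit 4) (nat_lit 5) (nat_lit 4) (nat_lit 4) (nat_lit 327) (nat_lit 251) (nat_lit 202)) (XT.lf (nat_lit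 0) (nat_lit 191166183946) (nat_lit 76) (nat_lit 17114665471) (nat_lit 76) (nat_lit 9834262989) (nat_lit 3) (nat_lit 4) (nat_lit 4) (nat_lit 5) (nat_lit 4) (nat_lit 4) (nat_lit 328) (nat_lit 251) (nat_lit 201))) (XT.nd (nat_lit 78) (nat_lit 0) (nat_lit 0) (XT.lf (nat_lit 0) (nat_lit 214203205579) (nat_lit 76) (nat_lit 14164605414) (nat_lit 76) (nat_lit 6872454127) (nat_lit 3) (nat_lit 4) (nat_lit 4) (nat_lit 5) (nat_lit 4) (nat_lit 4) (nat_lit 329) (nat_lit 251) (nat_lit 200)) (XT.lf (nat_lit 0) (nat_lit 239060563816) (nat_lit 76) (nat_lit 10989421426) (nat_lit 76) (nat_lit 3686391616) (nat_lit 3) (nat_lit 4) (nat_lit 4) (nat_lit 5) (nat_lit 4) (nat_lit 4) (nat_lit 330) (nat_lit 251) (nat_lit 199)))) (XT.nd (nat_lit 156) (nat_lit 76) (nat_lit 0) (XT.nd (nat_lit 78) (nat_lit 76) (nat_lit 0) (XT.lf (nat_lit 0) (nat_lit 265885561522) (nat_lit 76) (nat_lit 7570297601) (nat_lit 76) (nat_lit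 257195085) (nat_lit 3) (nat_lit 4) (nat_lit 4) (nat_lit 5) (nat_lit 4) (nat_lit 4) (nat_lit 331) (nat_lit 251) (nat_lit 198)) (XT.lf (nat_lit 0) (nat_lit 3263601175) (nat_lit 152) (nat_lit 534138651) (nat_lit 76) (nat_lit 291484327830) (nat_lit 2) (nat_lit 5) (nat_lit 4) (nat_lit 5) (nat_lit 3) (nat_lit 4) (nat_lit 332) (nat_lit 251) (nat_lit 197))) (XT.nd (nat_lit 78) (nat_lit 0) (nat_lit 0) (XT.lf (nat_lit 0) (nat_lit 7239273393) (nat_lit 152) (nat_lit 310870580685) (nat_lit 0) (nat_lit 451250413) (nat_lit 1) (nat_lit 5) (nat_lit 3) (nat_lit 4) (nat_lit 1) (nat_lit 4) (nat_lit 333) (nat_lit 251) (nat_lit 196)) (XT.lf (nat_lit 0) (nat_lit 11637121568) (nat_lit 152) (nat_lit 327215323027) (nat_lit 0) (nat_lit 4841694849) (nat_lit 1) (nat_lit 5) (nat_lit 3) (nat_lit 4) (nat_lit 1) (nat_lit 4) (nat_lit 334) (nat_lit 251) (nat_lit 195)))))) (XT.nd (nat_lit 624) (nat_lit 0) (nat_lit 0) (XT.nd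 (nat_lit 312) (nat_lit 0) (nat_lit 0) (XT.nd (nat_lit 156) (nat_lit 0) (nat_lit 0) (XT.nd (nat_lit 78) (nat_lit 0) (nat_lit 0) (XT.lf (nat_lit 0) (nat_lit 16377997559) (nat_lit 152) (nat_lit 344884812693) (nat_lit 0) (nat_lit 9575715525) (nat_lit 1) (nat_lit 5) (nat_lit 3) (nat_lit 4) (nat_lit 1) (nat_lit 4) (nat_lit 335) (nat_lit 251) (nat_lit 194)) (XT.lf (nat_lit 0) (nat_lit 21489995444) (nat_lit 152) (nat_lit 363983757769) (nat_lit 0) (nat_lit 14681365896) (nat_lit 1) (nat_lit 5) (nat_lit 3) (nat_lit 4) (nat_lit 1) (nat_lit 4) (nat_lit 336) (nat_lit 251) (nat_lit 193))) (XT.nd (nat_lit 78) (nat_lit 0) (nat_lit 0) (XT.lf (nat_lit 0) (nat_lit 27003408544) (nat_lit 152) (nat_lit 384625337190) (nat_lit 0) (nat_lit 20188901670) (nat_lit 1) (nat_lit 5) (nat_lit 3) (nat_lit 4) (nat_lit 1) (nat_lit 4) (nat_lit 337) (nat_lit 251) (nat_lit 192)) (XT.lf (nat_lit 0) (nat_lit 32950908938) (nat_lit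 152) (nat_lit 406931871426) (nat_lit 0) (nat_lit 26130960094) (nat_lit 1) (nat_lit 5) (nat_lit 3) (nat_lit 4) (nat_lit 1) (nat_lit 4) (nat_lit 338) (nat_lit 251) (nat_lit 191)))) (XT.nd (nat_lit 156) (nat_lit 0) (nat_lit 0) (XT.nd (nat_lit 78) (nat_lit 0) (nat_lit 0) (XT.lf (nat_lit 0) (nat_lit 39367741072) (nat_lit 152) (nat_lit 431035547347) (nat_lit 0) (nat_lit 32542753367) (nat_lit 1) (nat_lit 5) (nat_lit 3) (nat_lit 4) (nat_lit 1) (nat_lit 4) (nat_lit 339) (nat_lit 251) (nat_lit 190)) (XT.lf (nat_lit 0) (nat_lit 46291930618) (nat_lit 152) (nat_lit 457079201551) (nat_lit 0) (nat_lit 39462277301) (nat_lit 1) (nat_lit 5) (nat_lit 3) (nat_lit 4) (nat_lit 1) (nat_lit 4) (nat_lit 340) (nat_lit 251) (nat_lit 189))) (XT.nd (nat_lit 78) (nat_lit 0) (nat_lit 0) (XT.lf (nat_lit 0) (nat_lit 53764509810) (nat_lit 152) (nat_lit 485217166803) (nat_lit 0) (nat_lit 46930536481) (nat_lit 1) (nat_lit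 5) (nat_lit 3) (nat_lit 4) (nat_lit 1) (nat_lit 4) (nat_lit 341) (nat_lit 251) (nat_lit 188)) (XT.lf (nat_lit 0) (nat_lit 61829760599) (nat_lit 152) (nat_lit 515616186602) (nat_lit 0) (nat_lit 54991787260) (nat_lit 1) (nat_lit 5) (nat_lit 3) (nat_lit 4) (nat_lit 1) (nat_lit 4) (nat_lit 342) (nat_lit 251) (nat_lit 187))))) (XT.nd (nat_lit 312) (nat_lit 0) (nat_lit 0) (XT.nd (nat_lit 156) (nat_lit 0) (nat_lit 0) (XT.nd (nat_lit 78) (nat_lit 0) (nat_lit 0) (XT.lf (nat_lit 0) (nat_lit 70535477064) (nat_lit 152) (nat_lit 548456403286) (nat_lit 0) (nat_lit 63693800012) (nat_lit 1) (nat_lit 5) (nat_lit 3) (nat_lit 4) (nat_lit 1) (nat_lit 4) (nat_lit 343) (nat_lit 251) (nat_lit 186)) (XT.lf (nat_lit 0) (nat_lit 79933248635) (nat_lit 152) (nat_lit 583932425547) (nat_lit 0) (nat_lit 73088142219) (nat_lit 1) (nat_lit 5) (nat_lit 3) (nat_lit 4) (nat_lit 1) (nat_lit 4) (nat_lit 344) (nat_lit 251)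 (nat_lit 185))) (XT.nd (nat_lit 78) (nat_lit 0) (nat_lit 0) (XT.lf (nat_lit 0) (nat_lit 90078765811) (nat_lit 152) (nat_lit 622254481666) (nat_lit 0) (nat_lit 83230484058) (nat_lit 1) (nat_lit 5) (nat_lit 3) (nat_lit 4) (nat_lit 1) (nat_lit 4) (nat_lit 345) (nat_lit 251) (nat_lit 184)) (XT.lf (nat_lit 0) (nat_lit 101032150176) (nat_lit 152) (nat_lit 663649665307) (nat_lit 0) (nat_lit 94180928296) (nat_lit 1) (nat_lit 5) (nat_lit 3) (nat_lit 4) (nat_lit 1) (nat_lit 4) (nat_lit 346) (nat_lit 251) (nat_lit 183)))) (XT.nd (nat_lit 156) (nat_lit 0) (nat_lit 0) (XT.nd (nat_lit 78) (nat_lit 0) (nat_lit 0) (XT.lf (nat_lit 0) (nat_lit 112858310673) (nat_lit 152) (nat_lit 708363281264) (nat_lit 0) (nat_lit 106004366453) (nat_lit 1) (nat_lit 5) (nat_lit 3) (nat_lit 4) (nat_lit 1) (nat_lit 4) (nat_lit 347) (nat_lit 251) (nat_lit 182)) (XT.lf (nat_lit 0) (nat_lit 125627328253) (nat_lit 152) (nat_lit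 756660299112) (nat_lit 0) (nat_lit 118770863348) (nat_lit 1) (nat_lit 5) (nat_lit 3) (nat_lit 4) (nat_lit 1) (nat_lit 4) (nat_lit 348) (nat_lit 251) (nat_lit 181))) (XT.nd (nat_lit 78) (nat_lit 0) (nat_lit 0) (XT.lf (nat_lit 0) (nat_lit 139414871169) (nat_lit 152) (nat_lit 808826923402) (nat_lit 0) (nat_lit 132556072297) (nat_lit 1) (nat_lit 5) (nat_lit 3) (nat_lit 4) (nat_lit 1) (nat_lit 4) (nat_lit 349) (nat_lit 251) (nat_lit 180)) (XT.lf (nat_lit 0) (nat_lit 154302643380) (nat_lit 152) (nat_lit 865172289684) (nat_lit 0) (nat_lit 147441683427) (nat_lit 1) (nat_lit 5) (nat_lit 3) (nat_lit 4) (nat_lit 1) (nat_lit 4) (nat_lit 350) (nat_lit 251) (nat_lit 179))))))))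
noncomputable def xc36 : XT := (XT.nd (nat_lit 35646) (nat_lit 0) (nat_lit 152) (XT.nd (nat_lit 1170) (nat_lit 0) (nat_lit 0) (XT.nd (nat_lit 546) (nat_lit 0) (nat_lit 0) (XT.nd (nat_lit 234) (nat_lit 0) (nat_lit 0) (XT.nd (nat_lit 78) (nat_lit 0) (nat_lit 0) (XT.lf (nat_lit 0) (nat_lit 170378868719) (nat_lit 152) (nat_lit 926030296426) (nat_lit 0) (nat_lit 163515907765) (nat_lit 1) (nat_lit 5) (nat_lit 3) (nat_lit 4) (nat_lit 1) (nat_lit 4) (nat_lit 351) (nat_lit 251) (nat_lit 178)) (XT.nd (nat_lit 78) (nat_lit 0) (nat_lit 0) (XT.lf (nat_lit 0) (nat_lit 187738813709) (nat_lit 152) (nat_lit 991761583667) (nat_lit 0) (nat_lit 180873999976) (nat_lit 1) (nat_lit 5) (nat_lit 3) (nat_lit 4) (nat_lit 1) (nat_lit 4) (nat_lit 352) (nat_lit 251) (nat_lit 177)) (XT.lf (nat_lit 0) (nat_lit 206485352096) (nat_lit 152) (nat_lit 1062755670147) (nat_lit 0) (nat_lit 199618822827) (nat_lit 1) (nat_lit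 5) (nat_lit 3) (nat_lit 4) (nat_lit 1) (nat_lit 4) (nat_lit 353) (nat_lit 251) (nat_lit 176)))) (XT.nd (nat_lit 156) (nat_lit 0) (nat_lit 0) (XT.nd (nat_lit 78) (nat_lit 0) (nat_lit 0) (XT.lf (nat_lit 0) (nat_lit 226729574479) (nat_lit 152) (nat_lit 1139433261563) (nat_lit 0) (nat_lit 219861456751) (nat_lit 1) (nat_lit 5) (nat_lit 3) (nat_lit 4) (nat_lit 1) (nat_lit 4) (nat_lit 354) (nat_lit 251) (nat_lit 175)) (XT.lf (nat_lit 0) (nat_lit 248591446620) (nat_lit 152) (nat_lit 1222248743643) (nat_lit 0) (nat_lit 241721858097) (nat_lit 1) (nat_lit 5) (nat_lit 3) (nat_lit 4) (nat_lit 1) (nat_lit 4) (nat_lit 355) (nat_lit 251) (nat_lit 174))) (XT.nd (nat_lit 78) (nat_lit 0) (nat_lit 0) (XT.lf (nat_lit 0) (nat_lit 272200520354) (nat_lit 152) (nat_lit 1311692874798) (nat_lit 0) (nat_lit 265329569983) (nat_lit 1) (nat_lit 5) (nat_lit 3) (nat_lit 4) (nat_lit 1) (nat_lit 4) (nat_lit 356) (nat_lit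 251) (nat_lit 173)) (XT.lf (nat_lit 0) (nat_lit 297696701303) (nat_lit 152) (nat_lit 1408295694325) (nat_lit 0) (nat_lit 290824489962) (nat_lit 1) (nat_lit 5) (nat_lit 3) (nat_lit 4) (nat_lit 1) (nat_lit 4) (nat_lit 357) (nat_lit 251) (nat_lit 172))))) (XT.nd (nat_lit 312) (nat_lit 0) (nat_lit 0) (XT.nd (nat_lit 156) (nat_lit 0) (nat_lit 0) (XT.nd (nat_lit 78) (nat_lit 0) (nat_lit 0) (XT.lf (nat_lit 0) (nat_lit 325231077947) (nat_lit 152) (nat_lit 1512629663376) (nat_lit 0) (nat_lit 318357699041) (nat_lit 1) (nat_lit 5) (nat_lit 3) (nat_lit 4) (nat_lit 1) (nat_lit 4) (nat_lit 358) (nat_lit 251) (nat_lit 171)) (XT.lf (nat_lit 0) (nat_lit 354966816961) (nat_lit 152) (nat_lit 1625313057323) (nat_lit 0) (nat_lit 348092356977) (nat_lit 1) (nat_lit 5) (nat_lit 3) (nat_lit 4) (nat_lit 1) (nat_lit 4) (nat_lit 359) (nat_lit 251) (nat_lit 170))) (XT.nd (nat_lit 78) (nat_lit 0) (nat_lit 0) (XT.lf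 (nat_lit 0) (nat_lit 387080130134) (nat_lit 152) (nat_lit 1747013629612) (nat_lit 0) (nat_lit 380204669151) (nat_lit 1) (nat_lit 5) (nat_lit 3) (nat_lit 4) (nat_lit 1) (nat_lit 4) (nat_lit 360) (nat_lit 251) (nat_lit 169)) (XT.lf (nat_lit 0) (nat_lit 421761318580) (nat_lit 152) (nat_lit 1878452568819) (nat_lit 0) (nat_lit 414884930746) (nat_lit 1) (nat_lit 5) (nat_lit 3) (nat_lit 4) (nat_lit 1) (nat_lit 4) (nat_lit 361) (nat_lit 251) (nat_lit 168)))) (XT.nd (nat_lit 156) (nat_lit 0) (nat_lit 0) (XT.nd (nat_lit 78) (nat_lit 0) (nat_lit 0) (XT.lf (nat_lit 0) (nat_lit 459215900452) (nat_lit 152) (nat_lit 2020408772362) (nat_lit 0) (nat_lit 452338654424) (nat_lit 1) (nat_lit 5) (nat_lit 3) (nat_lit 4) (nat_lit 1) (nat_lit 4) (nat_lit 362) (nat_lit 251) (nat_lit 167)) (XT.lf (nat_lit 0) (nat_lit 499665828829) (nat_lit 152) (nat_lit 2173723462188) (nat_lit 0) (nat_lit 492787788176) (nat_lit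 1) (nat_lit 5) (nat_lit 3) (nat_lit 4) (nat_lit 1) (nat_lit 4) (nat_lit 363) (nat_lit 251) (nat_lit 166))) (XT.nd (nat_lit 78) (nat_lit 0) (nat_lit 0) (XT.lf (nat_lit 0) (nat_lit 543350806990) (nat_lit 152) (nat_lit 2339305169792) (nat_lit 0) (nat_lit 536472030572) (nat_lit 1) (nat_lit 5) (nat_lit 3) (nat_lit 4) (nat_lit 1) (nat_lit 4) (nat_lit 364) (nat_lit 251) (nat_lit 165)) (XT.lf (nat_lit 0) (nat_lit 590529708879) (nat_lit 152) (nat_lit 2518135120109) (nat_lit 0) (nat_lit 583650251199) (nat_lit 1) (nat_lit 5) (nat_lit 3) (nat_lit 4) (nat_lit 1) (nat_lit 4) (nat_lit 365) (nat_lit 251) (nat_lit 164)))))) (XT.nd (nat_lit 33852) (nat_lit 0) (nat_lit 1216) (XT.nd (nat_lit 234) (nat_lit 0) (nat_lit 0) (XT.nd (nat_lit 78) (nat_lit 0) (nat_lit 0) (XT.lf (nat_lit 0) (nat_lit 641482113175) (nat_lit 152) (nat_lit 2711273046176) (nat_lit 0) (nat_lit 634602024695) (nat_lit 1) (nat_lit 5) (nat_lit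 3) (nat_lit 4) (nat_lit 1) (nat_lit 4) (nat_lit 366) (nat_lit 251) (nat_lit 163)) (XT.nd (nat_lit 78) (nat_lit 0) (nat_lit 0) (XT.lf (nat_lit 0) (nat_lit 696509960050) (nat_lit 152) (nat_lit 2919863469038) (nat_lit 0) (nat_lit 689629287498) (nat_lit 1) (nat_lit 5) (nat_lit 3) (nat_lit 4) (nat_lit 1) (nat_lit 4) (nat_lit 367) (nat_lit 251) (nat_lit 162)) (XT.lf (nat_lit 0) (nat_lit 755939340450) (nat_lit 152) (nat_lit 3145142480088) (nat_lit 0) (nat_lit 749058127089) (nat_lit 1) (nat_lit 5) (nat_lit 3) (nat_lit 4) (nat_lit 1) (nat_lit 4) (nat_lit 368) (nat_lit 251) (nat_lit 161)))) (XT.nd (nat_lit 33462) (nat_lit 0) (nat_lit 2052) (XT.nd (nat_lit 33384) (nat_lit 0) (nat_lit 2204) (XT.lf (nat_lit 0) (nat_lit 820122428480) (nat_lit 152) (nat_lit 3388445066060) (nat_lit 0) (nat_lit 813240714371) (nat_lit 1) (nat_lit 5) (nat_lit 3) (nat_lit 4) (nat_lit 1) (nat_lit 4) (nat_lit 369) (nat_lit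 251) (nat_lit 160)) (XT.lf (nat_lit 0) (nat_lit 211647315) (nat_lit 228) (nat_lit 3833553209) (nat_lit 0) (nat_lit 211647315) (nat_lit 30) (nat_lit 5) (nat_lit 33) (nat_lit 4) (nat_lit 30) (nat_lit 4) (nat_lit 276) (nat_lit 252) (nat_lit 252))) (XT.nd (nat_lit 78) (nat_lit 152) (nat_lit 0) (XT.lf (nat_lit 0) (nat_lit 4110227881) (nat_lit 228) (nat_lit 1600962316) (nat_lit 0) (nat_lit 3090295226) (nat_lit 30) (nat_lit 5) (nat_lit 33) (nat_lit 4) (nat_lit 30) (nat_lit 4) (nat_lit 277) (nat_lit 252) (nat_lit 251)) (XT.lf (nat_lit 0) (nat_lit 4868329758) (nat_lit 152) (nat_lit 3109046656) (nat_lit 152) (nat_lit 1144731915) (nat_lit 28) (nat_lit 4) (nat_lit 30) (nat_lit 5) (nat_lit 30) (nat_lit 4) (nat_lit 278) (nat_lit 252) (nat_lit 250))))) (XT.nd (nat_lit 312) (nat_lit 304) (nat_lit 0) (XT.nd (nat_lit 156) (nat_lit 304) (nat_lit 0) (XT.nd (nat_lit 78) (nat_lit 0) (nat_lit 0) (XT.lf (nat_lit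 0) (nat_lit 2195423037) (nat_lit 152) (nat_lit 224848903) (nat_lit 228) (nat_lit 7053955303) (nat_lit 25) (nat_lit 5) (nat_lit 27) (nat_lit 5) (nat_lit 28) (nat_lit 4) (nat_lit 279) (nat_lit 252) (nat_lit 249)) (XT.lf (nat_lit 0) (nat_lit 6175590268) (nat_lit 228) (nat_lit 882246813) (nat_lit 0) (nat_lit 2797443949) (nat_lit 25) (nat_lit 5) (nat_lit 28) (nat_lit 4) (nat_lit 25) (nat_lit 4) (nat_lit 280) (nat_lit 252) (nat_lit 248))) (XT.nd (nat_lit 78) (nat_lit 152) (nat_lit 0) (XT.lf (nat_lit 0) (nat_lit 6008494048) (nat_lit 152) (nat_lit 4167745817) (nat_lit 152) (nat_lit 95450472) (nat_lit 23) (nat_lit 4) (nat_lit 25) (nat_lit 5) (nat_lit 25) (nat_lit 4) (nat_lit 281) (nat_lit 252) (nat_lit 247)) (XT.lf (nat_lit 0) (nat_lit 2499328238) (nat_lit 76) (nat_lit 969111263) (nat_lit 152) (nat_lit 7255564077) (nat_lit 21) (nat_lit 5) (nat_lit 22) (nat_lit 5) (nat_lit 23) (nat_lit 4) (nat_lit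 282) (nat_lit 252) (nat_lit 246)))) (XT.nd (nat_lit 156) (nat_lit 152) (nat_lit 0) (XT.nd (nat_lit 78) (nat_lit 152) (nat_lit 0) (XT.lf (nat_lit 0) (nat_lit 7293522954) (nat_lit 152) (nat_lit 1543929215) (nat_lit 0) (nat_lit 2376720331) (nat_lit 21) (nat_lit 5) (nat_lit 23) (nat_lit 4) (nat_lit 21) (nat_lit 4) (nat_lit 283) (nat_lit 252) (nat_lit 245)) (XT.lf (nat_lit 0) (nat_lit 5630761951) (nat_lit 152) (nat_lit 5770992679) (nat_lit 152) (nat_lit 343969799) (nat_lit 19) (nat_lit 4) (nat_lit 21) (nat_lit 5) (nat_lit 21) (nat_lit 4) (nat_lit 284) (nat_lit 252) (nat_lit 244))) (XT.nd (nat_lit 78) (nat_lit 0) (nat_lit 0) (XT.lf (nat_lit 0) (nat_lit 806048584) (nat_lit 76) (nat_lit 2417748351) (nat_lit 152) (nat_lit 9099047157) (nat_lit 17) (nat_lit 5) (nat_lit 18) (nat_lit 5) (nat_lit 19) (nat_lit 4) (nat_lit 285) (nat_lit 252) (nat_lit 243)) (XT.lf (nat_lit 0) (nat_lit 7080813594) (nat_lit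 152) (nat_lit 4649751109) (nat_lit 0) (nat_lit 1213331486) (nat_lit 17) (nat_lit 5) (nat_lit 19) (nat_lit 4) (nat_lit 17) (nat_lit 4) (nat_lit 286) (nat_lit 252) (nat_lit 242))))))) (XT.nd (nat_lit 1170) (nat_lit 304) (nat_lit 0) (XT.nd (nat_lit 546) (nat_lit 228) (nat_lit 0) (XT.nd (nat_lit 234) (nat_lit 228) (nat_lit 0) (XT.nd (nat_lit 78) (nat_lit 152) (nat_lit 0) (XT.lf (nat_lit 0) (nat_lit 2550646448) (nat_lit 152) (nat_lit 8655002575) (nat_lit 152) (nat_lit 2412493347) (nat_lit 15) (nat_lit 4) (nat_lit 17) (nat_lit 5) (nat_lit 17) (nat_lit 4) (nat_lit 287) (nat_lit 252) (nat_lit 241)) (XT.nd (nat_lit 78) (nat_lit 76) (nat_lit 0) (XT.lf (nat_lit 0) (nat_lit 1215228985) (nat_lit 228) (nat_lit 4062080272) (nat_lit 76) (nat_lit 9069359375) (nat_lit 14) (nat_lit 5) (nat_lit 17) (nat_lit 5) (nat_lit 15) (nat_lit 4) (nat_lit 288) (nat_lit 252) (nat_lit 240)) (XT.lf (nat_lit 0) (nat_lit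 3346935022) (nat_lit 76) (nat_lit 1584900022) (nat_lit 152) (nat_lit 10202507582) (nat_lit 13) (nat_lit 5) (nat_lit 14) (nat_lit 5) (nat_lit 15) (nat_lit 4) (nat_lit 289) (nat_lit 252) (nat_lit 239)))) (XT.nd (nat_lit 156) (nat_lit 152) (nat_lit 0) (XT.nd (nat_lit 78) (nat_lit 76) (nat_lit 0) (XT.lf (nat_lit 0) (nat_lit 8968496205) (nat_lit 152) (nat_lit 4721395328) (nat_lit 0) (nat_lit 2293505011) (nat_lit 13) (nat_lit 5) (nat_lit 15) (nat_lit 4) (nat_lit 13) (nat_lit 4) (nat_lit 290) (nat_lit 252) (nat_lit 238)) (XT.lf (nat_lit 0) (nat_lit 2762223223) (nat_lit 76) (nat_lit 10535490270) (nat_lit 76) (nat_lit 3605261919) (nat_lit 12) (nat_lit 4) (nat_lit 13) (nat_lit 5) (nat_lit 13) (nat_lit 4) (nat_lit 291) (nat_lit 252) (nat_lit 237))) (XT.nd (nat_lit 78) (nat_lit 76) (nat_lit 0) (XT.lf (nat_lit 0) (nat_lit 68625512) (nat_lit 152) (nat_lit 7023817985) (nat_lit 76) (nat_lit 10804047859)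 (nat_lit 11) (nat_lit 5) (nat_lit 13) (nat_lit 5) (nat_lit 12) (nat_lit 4) (nat_lit 292) (nat_lit 252) (nat_lit 236)) (XT.lf (nat_lit 0) (nat_lit 359148019) (nat_lit 76) (nat_lit 3364184573) (nat_lit 152) (nat_lit 15248264959) (nat_lit 10) (nat_lit 5) (nat_lit 11) (nat_lit 5) (nat_lit 12) (nat_lit 4) (nat_lit 293) (nat_lit 252) (nat_lit 235))))) (XT.nd (nat_lit 312) (nat_lit 152) (nat_lit 0) (XT.nd (nat_lit 156) (nat_lit 76) (nat_lit 0) (XT.nd (nat_lit 78) (nat_lit 0) (nat_lit 0) (XT.lf (nat_lit 0) (nat_lit 7758112685) (nat_lit 152) (nat_lit 11635521712) (nat_lit 0) (nat_lit 732187447) (nat_lit 10) (nat_lit 5) (nat_lit 12) (nat_lit 4) (nat_lit 10) (nat_lit 4) (nat_lit 294) (nat_lit 252) (nat_lit 234)) (XT.lf (nat_lit 0) (nat_lit 12087070949) (nat_lit 152) (nat_lit 4400281916) (nat_lit 0) (nat_lit 4887435590) (nat_lit 10) (nat_lit 5) (nat_lit 12) (nat_lit 4) (nat_lit 10) (nat_lit 4) (nat_lit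 295) (nat_lit 252) (nat_lit 233))) (XT.nd (nat_lit 78) (nat_lit 0) (nat_lit 0) (XT.lf (nat_lit 0) (nat_lit 3386458436) (nat_lit 76) (nat_lit 13349937720) (nat_lit 76) (nat_lit 5989459658) (nat_lit 9) (nat_lit 4) (nat_lit 10) (nat_lit 5) (nat_lit 10) (nat_lit 4) (nat_lit 296) (nat_lit 252) (nat_lit 232)) (XT.lf (nat_lit 0) (nat_lit 11854643286) (nat_lit 76) (nat_lit 9919285181) (nat_lit 76) (nat_lit 2409878689) (nat_lit 9) (nat_lit 4) (nat_lit 10) (nat_lit 5) (nat_lit 10) (nat_lit 4) (nat_lit 297) (nat_lit 252) (nat_lit 231)))) (XT.nd (nat_lit 156) (nat_lit 0) (nat_lit 0) (XT.nd (nat_lit 78) (nat_lit 76) (nat_lit 0) (XT.lf (nat_lit 0) (nat_lit 1284297398) (nat_lit 152) (nat_lit 4975964596) (nat_lit 76) (nat_lit 19503331055) (nat_lit 8) (nat_lit 5) (nat_lit 10) (nat_lit 5) (nat_lit 9) (nat_lit 4) (nat_lit 298) (nat_lit 252) (nat_lit 230)) (XT.lf (nat_lit 0) (nat_lit 2877552042) (nat_lit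 76) (nat_lit 2243860145) (nat_lit 152) (nat_lit 22345213005) (nat_lit 7) (nat_lit 5) (nat_lit 8) (nat_lit 5) (nat_lit 9) (nat_lit 4) (nat_lit 299) (nat_lit 252) (nat_lit 229))) (XT.nd (nat_lit 78) (nat_lit 0) (nat_lit 0) (XT.lf (nat_lit 0) (nat_lit 9364818457) (nat_lit 152) (nat_lit 17876917644) (nat_lit 0) (nat_lit 2056291144) (nat_lit 7) (nat_lit 5) (nat_lit 9) (nat_lit 4) (nat_lit 7) (nat_lit 4) (nat_lit 300) (nat_lit 252) (nat_lit 228)) (XT.lf (nat_lit 0) (nat_lit 13922071496) (nat_lit 152) (nat_lit 10843801736) (nat_lit 0) (nat_lit 6512185996) (nat_lit 7) (nat_lit 5) (nat_lit 9) (nat_lit 4) (nat_lit 7) (nat_lit 4) (nat_lit 301) (nat_lit 252) (nat_lit 227)))))) (XT.nd (nat_lit 624) (nat_lit 76) (nat_lit 0) (XT.nd (nat_lit 312) (nat_lit 152) (nat_lit 0) (XT.nd (nat_lit 156) (nat_lit 0) (nat_lit 0) (XT.nd (nat_lit 78) (nat_lit 76) (nat_lit 0) (XT.lf (nat_lit 0) (nat_lit 18766212356)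 (nat_lit 152) (nat_lit 3394082812) (nat_lit 0) (nat_lit 11262476684) (nat_lit 7) (nat_lit 5) (nat_lit 9) (nat_lit 4) (nat_lit 7) (nat_lit 4) (nat_lit 302) (nat_lit 252) (nat_lit 226)) (XT.lf (nat_lit 0) (nat_lit 4754210470) (nat_lit 76) (nat_lit 19286075464) (nat_lit 76) (nat_lit 11695441483) (nat_lit 6) (nat_lit 4) (nat_lit 7) (nat_lit 5) (nat_lit 7) (nat_lit 4) (nat_lit 303) (nat_lit 252) (nat_lit 225))) (XT.nd (nat_lit 78) (nat_lit 0) (nat_lit 0) (XT.lf (nat_lit 0) (nat_lit 13615587192) (nat_lit 76) (nat_lit 16143719816) (nat_lit 76) (nat_lit 8472624439) (nat_lit 6) (nat_lit 4) (nat_lit 7) (nat_lit 5) (nat_lit 7) (nat_lit 4) (nat_lit 304) (nat_lit 252) (nat_lit 224)) (XT.lf (nat_lit 0) (nat_lit 23063832828) (nat_lit 76) (nat_lit 12807407097) (nat_lit 76) (nat_lit 5061810427) (nat_lit 6) (nat_lit 4) (nat_lit 7) (nat_lit 5) (nat_lit 7) (nat_lit 4) (nat_lit 305) (nat_lit 252) (nat_lit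 223)))) (XT.nd (nat_lit 156) (nat_lit 76) (nat_lit 0) (XT.nd (nat_lit 78) (nat_lit 76) (nat_lit 0) (XT.lf (nat_lit 0) (nat_lit 33154936981) (nat_lit 76) (nat_lit 9257366565) (nat_lit 76) (nat_lit 1442787217) (nat_lit 6) (nat_lit 4) (nat_lit 7) (nat_lit 5) (nat_lit 7) (nat_lit 4) (nat_lit 306) (nat_lit 252) (nat_lit 222)) (XT.lf (nat_lit 0) (nat_lit 2285538831) (nat_lit 152) (nat_lit 3124531430) (nat_lit 76) (nat_lit 41600669275) (nat_lit 5) (nat_lit 5) (nat_lit 7) (nat_lit 5) (nat_lit 6) (nat_lit 4) (nat_lit 307) (nat_lit 252) (nat_lit 221))) (XT.nd (nat_lit 78) (nat_lit 0) (nat_lit 0) (XT.lf (nat_lit 0) (nat_lit 5179053159) (nat_lit 76) (nat_lit 1127027074) (nat_lit 152) (nat_lit 44104046776) (nat_lit 4) (nat_lit 5) (nat_lit 5) (nat_lit 5) (nat_lit 6) (nat_lit 4) (nat_lit 308) (nat_lit 252) (nat_lit 220)) (XT.lf (nat_lit 0) (nat_lit 10767853719) (nat_lit 152) (nat_lit 39936552961) (nat_lit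 0) (nat_lit 3367525569) (nat_lit 4) (nat_lit 5) (nat_lit 6) (nat_lit 4) (nat_lit 4) (nat_lit 4) (nat_lit 309) (nat_lit 252) (nat_lit 219))))) (XT.nd (nat_lit 312) (nat_lit 76) (nat_lit 0) (XT.nd (nat_lit 156) (nat_lit 0) (nat_lit 0) (XT.nd (nat_lit 78) (nat_lit 0) (nat_lit 0) (XT.lf (nat_lit 0) (nat_lit 15567506154) (nat_lit 152) (nat_lit 34340502598) (nat_lit 0) (nat_lit 8120229552) (nat_lit 4) (nat_lit 5) (nat_lit 6) (nat_lit 4) (nat_lit 4) (nat_lit 4) (nat_lit 310) (nat_lit 252) (nat_lit 218)) (XT.lf (nat_lit 0) (nat_lit 20706374893) (nat_lit 152) (nat_lit 28382655955) (nat_lit 0) (nat_lit 13215627503) (nat_lit 4) (nat_lit 5) (nat_lit 6) (nat_lit 4) (nat_lit 4) (nat_lit 4) (nat_lit 311) (nat_lit 252) (nat_lit 217))) (XT.nd (nat_lit 78) (nat_lit 0) (nat_lit 0) (XT.lf (nat_lit 0) (nat_lit 26214912494) (nat_lit 152) (nat_lit 22027707274) (nat_lit 0) (nat_lit 18683914373) (nat_lit 4)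 (nat_lit 5) (nat_lit 6) (nat_lit 4) (nat_lit 4) (nat_lit 4) (nat_lit 312) (nat_lit 252) (nat_lit 216)) (XT.lf (nat_lit 0) (nat_lit 32125762141) (nat_lit 152) (nat_lit 15237997600) (nat_lit 0) (nat_lit 24557494825) (nat_lit 4) (nat_lit 5) (nat_lit 6) (nat_lit 4) (nat_lit 4) (nat_lit 4) (nat_lit 313) (nat_lit 252) (nat_lit 215)))) (XT.nd (nat_lit 156) (nat_lit 76) (nat_lit 0) (XT.nd (nat_lit 78) (nat_lit 0) (nat_lit 0) (XT.lf (nat_lit 0) (nat_lit 38473951092) (nat_lit 152) (nat_lit 7973291615) (nat_lit 0) (nat_lit 30871175262) (nat_lit 4) (nat_lit 5) (nat_lit 6) (nat_lit 4) (nat_lit 4) (nat_lit 4) (nat_lit 314) (nat_lit 252) (nat_lit 214)) (XT.lf (nat_lit 0) (nat_lit 45297098244) (nat_lit 152) (nat_lit 190539211) (nat_lit 0) (nat_lit 37662370087) (nat_lit 4) (nat_lit 5) (nat_lit 6) (nat_lit 4) (nat_lit 4) (nat_lit 4) (nat_lit 315) (nat_lit 252) (nat_lit 213))) (XT.nd (nat_lit 78) (nat_lit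 0) (nat_lit 0) (XT.lf (nat_lit 0) (nat_lit 8585880122) (nat_lit 76) (nat_lit 44256247563) (nat_lit 76) (nat_lit 36591933917) (nat_lit 3) (nat_lit 4) (nat_lit 4) (nat_lit 5) (nat_lit 4) (nat_lit 4) (nat_lit 316) (nat_lit 252) (nat_lit 212)) (XT.lf (nat_lit 0) (nat_lit 18018275220) (nat_lit 76) (nat_lit 42948119915) (nat_lit 76) (nat_lit 35256412298) (nat_lit 3) (nat_lit 4) (nat_lit 4) (nat_lit 5) (nat_lit 4) (nat_lit 4) (nat_lit 317) (nat_lit 252) (nat_lit 211))))))))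
noncomputable def xc37 : XT := (XT.nd (nat_lit 2340) (nat_lit 0) (nat_lit 0) (XT.nd (nat_lit 1170) (nat_lit 152) (nat_lit 0) (XT.nd (nat_lit 546) (nat_lit 0) (nat_lit 0) (XT.nd (nat_lit 234) (nat_lit 0) (nat_lit 0) (XT.nd (nat_lit 78) (nat_lit 0) (nat_lit 0) (XT.lf (nat_lit 0) (nat_lit 28152508300) (nat_lit 76) (nat_lit 41560712324) (nat_lit 76) (nat_lit 33843639919) (nat_lit 3) (nat_lit 4) (nat_lit 4) (nat_lit 5) (nat_lit 4) (nat_lit 4) (nat_lit 318) (nat_lit 252) (nat_lit 210)) (XT.nd (nat_lit 78) (nat_lit 0) (nat_lit 0) (XT.lf (nat_lit 0) (nat_lit 39048634076) (nat_lit 76) (nat_lit 40085803115) (nat_lit 76) (nat_lit 32345244796) (nat_lit 3) (nat_lit 4) (nat_lit 4) (nat_lit 5) (nat_lit 4) (nat_lit 4) (nat_lit 319) (nat_lit 252) (nat_lit 209)) (XT.lf (nat_lit 0) (nat_lit 50771222182) (nat_lit 76) (nat_lit 38514652086) (nat_lit 76) (nat_lit 30752347550) (nat_lit 3) (nat_lit 4) (nat_lit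 4) (nat_lit 5) (nat_lit 4) (nat_lit 4) (nat_lit 320) (nat_lit 252) (nat_lit 208)))) (XT.nd (nat_lit 156) (nat_lit 0) (nat_lit 0) (XT.nd (nat_lit 78) (nat_lit 0) (nat_lit 0) (XT.lf (nat_lit 0) (nat_lit 63389739806) (nat_lit 76) (nat_lit 36837948712) (nat_lit 76) (nat_lit 29055508789) (nat_lit 3) (nat_lit 4) (nat_lit 4) (nat_lit 5) (nat_lit 4) (nat_lit 4) (nat_lit 321) (nat_lit 252) (nat_lit 207)) (XT.lf (nat_lit 0) (nat_lit 76978963351) (nat_lit 76) (nat_lit 35045756973) (nat_lit 76) (nat_lit 27244673174) (nat_lit 3) (nat_lit 4) (nat_lit 4) (nat_lit 5) (nat_lit 4) (nat_lit 4) (nat_lit 322) (nat_lit 252) (nat_lit 206))) (XT.nd (nat_lit 78) (nat_lit 0) (nat_lit 0) (XT.lf (nat_lit 0) (nat_lit 91619421547) (nat_lit 76) (nat_lit 33127456473) (nat_lit 76) (nat_lit 25309109826) (nat_lit 3) (nat_lit 4) (nat_lit 4) (nat_lit 5) (nat_lit 4) (nat_lit 4) (nat_lit 323) (nat_lit 252) (nat_lit 205))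 (XT.lf (nat_lit 0) (nat_lit 107397872666) (nat_lit 76) (nat_lit 31071679507) (nat_lit 76) (nat_lit 23237348741) (nat_lit 3) (nat_lit 4) (nat_lit 4) (nat_lit 5) (nat_lit 4) (nat_lit 4) (nat_lit 324) (nat_lit 252) (nat_lit 204))))) (XT.nd (nat_lit 312) (nat_lit 0) (nat_lit 0) (XT.nd (nat_lit 156) (nat_lit 0) (nat_lit 0) (XT.nd (nat_lit 78) (nat_lit 0) (nat_lit 0) (XT.lf (nat_lit 0) (nat_lit 124407818640) (nat_lit 76) (nat_lit 28866243691) (nat_lit 76) (nat_lit 21017112815) (nat_lit 3) (nat_lit 4) (nat_lit 4) (nat_lit 5) (nat_lit 4) (nat_lit 4) (nat_lit 325) (nat_lit 252) (nat_lit 203)) (XT.lf (nat_lit 0) (nat_lit 142750059149) (nat_lit 76) (nat_lit 26498079777) (nat_lit 76) (nat_lit 18635245095) (nat_lit 3) (nat_lit 4) (nat_lit 4) (nat_lit 5) (nat_lit 4) (nat_lit 4) (nat_lit 326) (nat_lit 252) (nat_lit 202))) (XT.nd (nat_lit 78) (nat_lit 0) (nat_lit 0) (XT.lf (nat_lit 0) (nat_lit 162533288952)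 (nat_lit 76) (nat_lit 23953154200) (nat_lit 76) (nat_lit 16077630810) (nat_lit 3) (nat_lit 4) (nat_lit 4) (nat_lit 5) (nat_lit 4) (nat_lit 4) (nat_lit 327) (nat_lit 252) (nat_lit 201)) (XT.lf (nat_lit 0) (nat_lit 183874742003) (nat_lit 76) (nat_lit 21216385921) (nat_lit 76) (nat_lit 13329113726) (nat_lit 3) (nat_lit 4) (nat_lit 4) (nat_lit 5) (nat_lit 4) (nat_lit 4) (nat_lit 328) (nat_lit 252) (nat_lit 200)))) (XT.nd (nat_lit 156) (nat_lit 0) (nat_lit 0) (XT.nd (nat_lit 78) (nat_lit 0) (nat_lit 0) (XT.lf (nat_lit 0) (nat_lit 206900886171) (nat_lit 76) (nat_lit 18271557053) (nat_lit 76) (nat_lit 10373406336) (nat_lit 3) (nat_lit 4) (nat_lit 4) (nat_lit 5) (nat_lit 4) (nat_lit 4) (nat_lit 329) (nat_lit 252) (nat_lit 199)) (XT.lf (nat_lit 0) (nat_lit 231748172682) (nat_lit 76) (nat_lit 15101216758) (nat_lit 76) (nat_lit 7192993335) (nat_lit 3) (nat_lit 4) (nat_lit 4) (nat_lit 5) (nat_lit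 4) (nat_lit 4) (nat_lit 330) (nat_lit 252) (nat_lit 198))) (XT.nd (nat_lit 78) (nat_lit 0) (nat_lit 0) (XT.lf (nat_lit 0) (nat_lit 258563844715) (nat_lit 76) (nat_lit 11686577835) (nat_lit 76) (nat_lit 3769027832) (nat_lit 3) (nat_lit 4) (nat_lit 4) (nat_lit 5) (nat_lit 4) (nat_lit 4) (nat_lit 331) (nat_lit 252) (nat_lit 197)) (XT.lf (nat_lit 0) (nat_lit 287506809956) (nat_lit 76) (nat_lit 8007405387) (nat_lit 76) (nat_lit 81219661) (nat_lit 3) (nat_lit 4) (nat_lit 4) (nat_lit 5) (nat_lit 4) (nat_lit 4) (nat_lit 332) (nat_lit 252) (nat_lit 196)))))) (XT.nd (nat_lit 546) (nat_lit 0) (nat_lit 0) (XT.nd (nat_lit 234) (nat_lit 0) (nat_lit 0) (XT.nd (nat_lit 78) (nat_lit 76) (nat_lit 0) (XT.lf (nat_lit 0) (nat_lit 3697577003) (nat_lit 152) (nat_lit 243221598) (nat_lit 76) (nat_lit 314949906962) (nat_lit 2) (nat_lit 5) (nat_lit 4) (nat_lit 5) (nat_lit 3) (nat_lit 4) (nat_lit 333) (nat_lit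 252) (nat_lit 195)) (XT.nd (nat_lit 78) (nat_lit 0) (nat_lit 0) (XT.lf (nat_lit 0) (nat_lit 7990100645) (nat_lit 152) (nat_lit 335405287302) (nat_lit 0) (nat_lit 636780733) (nat_lit 1) (nat_lit 5) (nat_lit 3) (nat_lit 4) (nat_lit 1) (nat_lit 4) (nat_lit 334) (nat_lit 252) (nat_lit 194)) (XT.lf (nat_lit 0) (nat_lit 12727059239) (nat_lit 152) (nat_lit 353082419390) (nat_lit 0) (nat_lit 5367391814) (nat_lit 1) (nat_lit 5) (nat_lit 3) (nat_lit 4) (nat_lit 1) (nat_lit 4) (nat_lit 335) (nat_lit 252) (nat_lit 193)))) (XT.nd (nat_lit 156) (nat_lit 0) (nat_lit 0) (XT.nd (nat_lit 78) (nat_lit 0) (nat_lit 0) (XT.lf (nat_lit 0) (nat_lit 17835429905) (nat_lit 152) (nat_lit 372188440783) (nat_lit 0) (nat_lit 10469885153) (nat_lit 1) (nat_lit 5) (nat_lit 3) (nat_lit 4) (nat_lit 1) (nat_lit 4) (nat_lit 336) (nat_lit 252) (nat_lit 192)) (XT.lf (nat_lit 0) (nat_lit 23345484470) (nat_lit 152) (nat_lit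 392836572349) (nat_lit 0) (nat_lit 15974497748) (nat_lit 1) (nat_lit 5) (nat_lit 3) (nat_lit 4) (nat_lit 1) (nat_lit 4) (nat_lit 337) (nat_lit 252) (nat_lit 191))) (XT.nd (nat_lit 78) (nat_lit 0) (nat_lit 0) (XT.lf (nat_lit 0) (nat_lit 29289875108) (nat_lit 152) (nat_lit 415149173386) (nat_lit 0) (nat_lit 21913849525) (nat_lit 1) (nat_lit 5) (nat_lit 3) (nat_lit 4) (nat_lit 1) (nat_lit 4) (nat_lit 338) (nat_lit 252) (nat_lit 190)) (XT.lf (nat_lit 0) (nat_lit 35703827839) (nat_lit 152) (nat_lit 439258466715) (nat_lit 0) (nat_lit 28323136644) (nat_lit 1) (nat_lit 5) (nat_lit 3) (nat_lit 4) (nat_lit 1) (nat_lit 4) (nat_lit 339) (nat_lit 252) (nat_lit 189))))) (XT.nd (nat_lit 312) (nat_lit 0) (nat_lit 0) (XT.nd (nat_lit 156) (nat_lit 0) (nat_lit 0) (XT.nd (nat_lit 78) (nat_lit 0) (nat_lit 0) (XT.lf (nat_lit 0) (nat_lit 42625351270) (nat_lit 152) (nat_lit 465307322223) (nat_lit 0) (nat_lit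 35240340064) (nat_lit 1) (nat_lit 5) (nat_lit 3) (nat_lit 4) (nat_lit 1) (nat_lit 4) (nat_lit 340) (nat_lit 252) (nat_lit 188)) (XT.lf (nat_lit 0) (nat_lit 50095461838) (nat_lit 152) (nat_lit 493450103497) (nat_lit 0) (nat_lit 42706450622) (nat_lit 1) (nat_lit 5) (nat_lit 3) (nat_lit 4) (nat_lit 1) (nat_lit 4) (nat_lit 341) (nat_lit 252) (nat_lit 187))) (XT.nd (nat_lit 78) (nat_lit 0) (nat_lit 0) (XT.lf (nat_lit 0) (nat_lit 58158426864) (nat_lit 152) (nat_lit 523853582575) (nat_lit 0) (nat_lit 50765711935) (nat_lit 1) (nat_lit 5) (nat_lit 3) (nat_lit 4) (nat_lit 1) (nat_lit 4) (nat_lit 342) (nat_lit 252) (nat_lit 186)) (XT.lf (nat_lit 0) (nat_lit 66862026881) (nat_lit 152) (nat_lit 556697928222) (nat_lit 0) (nat_lit 59465882588) (nat_lit 1) (nat_lit 5) (nat_lit 3) (nat_lit 4) (nat_lit 1) (nat_lit 4) (nat_lit 343) (nat_lit 252) (nat_lit 185)))) (XT.nd (nat_lit 156) (nat_lit 0) (nat_lit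 0) (XT.nd (nat_lit 78) (nat_lit 0) (nat_lit 0) (XT.lf (nat_lit 0) (nat_lit 76257838779) (nat_lit 152) (nat_lit 592177773597) (nat_lit 0) (nat_lit 68858519149) (nat_lit 1) (nat_lit 5) (nat_lit 3) (nat_lit 4) (nat_lit 1) (nat_lit 4) (nat_lit 344) (nat_lit 252) (nat_lit 184)) (XT.lf (nat_lit 0) (nat_lit 86401541443) (nat_lit 152) (nat_lit 630503369636) (nat_lit 0) (nat_lit 78999281686) (nat_lit 1) (nat_lit 5) (nat_lit 3) (nat_lit 4) (nat_lit 1) (nat_lit 4) (nat_lit 345) (nat_lit 252) (nat_lit 183))) (XT.nd (nat_lit 78) (nat_lit 0) (nat_lit 0) (XT.lf (nat_lit 0) (nat_lit 97353245703) (nat_lit 152) (nat_lit 671901830981) (nat_lit 0) (nat_lit 89948263606) (nat_lit 1) (nat_lit 5) (nat_lit 3) (nat_lit 4) (nat_lit 1) (nat_lit 4) (nat_lit 346) (nat_lit 252) (nat_lit 182)) (XT.lf (nat_lit 0) (nat_lit 109177850548) (nat_lit 152) (nat_lit 716618481849) (nat_lit 0) (nat_lit 101770347766) (nat_lit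 1) (nat_lit 5) (nat_lit 3) (nat_lit 4) (nat_lit 1) (nat_lit 4) (nat_lit 347) (nat_lit 252) (nat_lit 181))))))) (XT.nd (nat_lit 1170) (nat_lit 0) (nat_lit 0) (XT.nd (nat_lit 546) (nat_lit 0) (nat_lit 0) (XT.nd (nat_lit 234) (nat_lit 0) (nat_lit 0) (XT.nd (nat_lit 78) (nat_lit 0) (nat_lit 0) (XT.lf (nat_lit 0) (nat_lit 121945427710) (nat_lit 152) (nat_lit 764918309800) (nat_lit 0) (nat_lit 114535590960) (nat_lit 1) (nat_lit 5) (nat_lit 3) (nat_lit 4) (nat_lit 1) (nat_lit 4) (nat_lit 348) (nat_lit 252) (nat_lit 180)) (XT.nd (nat_lit 78) (nat_lit 0) (nat_lit 0) (XT.lf (nat_lit 0) (nat_lit 135731636905) (nat_lit 152) (nat_lit 817087536036) (nat_lit 0) (nat_lit 128319639075) (nat_lit 1) (nat_lit 5) (nat_lit 3) (nat_lit 4) (nat_lit 1) (nat_lit 4) (nat_lit 349) (nat_lit 252) (nat_lit 179)) (XT.lf (nat_lit 0) (nat_lit 150618174189) (nat_lit 152) (nat_lit 873435311528) (nat_lit 0) (nat_lit 143204175357)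 (nat_lit 1) (nat_lit 5) (nat_lit 3) (nat_lit 4) (nat_lit 1) (nat_lit 4) (nat_lit 350) (nat_lit 252) (nat_lit 178)))) (XT.nd (nat_lit 156) (nat_lit 0) (nat_lit 0) (XT.nd (nat_lit 78) (nat_lit 0) (nat_lit 0) (XT.lf (nat_lit 0) (nat_lit 166693256078) (nat_lit 152) (nat_lit 934295549020) (nat_lit 0) (nat_lit 159277404468) (nat_lit 1) (nat_lit 5) (nat_lit 3) (nat_lit 4) (nat_lit 1) (nat_lit 4) (nat_lit 351) (nat_lit 252) (nat_lit 177)) (XT.lf (nat_lit 0) (nat_lit 184052142317) (nat_lit 152) (nat_lit 1000028901771) (nat_lit 0) (nat_lit 176634575171) (nat_lit 1) (nat_lit 5) (nat_lit 3) (nat_lit 4) (nat_lit 1) (nat_lit 4) (nat_lit 352) (nat_lit 252) (nat_lit 176))) (XT.nd (nat_lit 78) (nat_lit 0) (nat_lit 0) (XT.lf (nat_lit 0) (nat_lit 202797700379) (nat_lit 152) (nat_lit 1071024900759) (nat_lit 0) (nat_lit 195378544774) (nat_lit 1) (nat_lit 5) (nat_lit 3) (nat_lit 4) (nat_lit 1) (nat_lit 4)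 (nat_lit 353) (nat_lit 252) (nat_lit 175)) (XT.lf (nat_lit 0) (nat_lit 223041015054) (nat_lit 152) (nat_lit 1147704263017) (nat_lit 0) (nat_lit 215620388654) (nat_lit 1) (nat_lit 5) (nat_lit 3) (nat_lit 4) (nat_lit 1) (nat_lit 4) (nat_lit 354) (nat_lit 252) (nat_lit 174))))) (XT.nd (nat_lit 312) (nat_lit 0) (nat_lit 0) (XT.nd (nat_lit 156) (nat_lit 0) (nat_lit 0) (XT.nd (nat_lit 78) (nat_lit 0) (nat_lit 0) (XT.lf (nat_lit 0) (nat_lit 244902046725) (nat_lit 152) (nat_lit 1230521384764) (nat_lit 0) (nat_lit 237480058477) (nat_lit 1) (nat_lit 5) (nat_lit 3) (nat_lit 4) (nat_lit 1) (nat_lit 4) (nat_lit 355) (nat_lit 252) (nat_lit 173)) (XT.lf (nat_lit 0) (nat_lit 268510342246) (nat_lit 152) (nat_lit 1319967034131) (nat_lit 0) (nat_lit 261087093027) (nat_lit 1) (nat_lit 5) (nat_lit 3) (nat_lit 4) (nat_lit 1) (nat_lit 4) (nat_lit 356) (nat_lit 252) (nat_lit 172))) (XT.nd (nat_lit 78) (nat_lit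 0) (nat_lit 0) (XT.lf (nat_lit 0) (nat_lit 294005802627) (nat_lit 152) (nat_lit 1416571259408) (nat_lit 0) (nat_lit 286581385844) (nat_lit 1) (nat_lit 5) (nat_lit 3) (nat_lit 4) (nat_lit 1) (nat_lit 4) (nat_lit 357) (nat_lit 252) (nat_lit 171)) (XT.lf (nat_lit 0) (nat_lit 321539512078) (nat_lit 152) (nat_lit 1520906530080) (nat_lit 0) (nat_lit 314114014216) (nat_lit 1) (nat_lit 5) (nat_lit 3) (nat_lit 4) (nat_lit 1) (nat_lit 4) (nat_lit 358) (nat_lit 252) (nat_lit 170)))) (XT.nd (nat_lit 156) (nat_lit 0) (nat_lit 0) (XT.nd (nat_lit 78) (nat_lit 0) (nat_lit 0) (XT.lf (nat_lit 0) (nat_lit 351274633322) (nat_lit 152) (nat_lit 1633591129232) (nat_lit 0) (nat_lit 343848134462) (nat_lit 1) (nat_lit 5) (nat_lit 3) (nat_lit 4) (nat_lit 1) (nat_lit 4) (nat_lit 359) (nat_lit 252) (nat_lit 169)) (XT.lf (nat_lit 0) (nat_lit 383387374485) (nat_lit 152) (nat_lit 1755292817452) (nat_lit 0) (nat_lit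 375959948774) (nat_lit 1) (nat_lit 5) (nat_lit 3) (nat_lit 4) (nat_lit 1) (nat_lit 4) (nat_lit 360) (nat_lit 252) (nat_lit 168))) (XT.nd (nat_lit 78) (nat_lit 0) (nat_lit 0) (XT.lf (nat_lit 0) (nat_lit 418068033291) (nat_lit 152) (nat_lit 1886732789928) (nat_lit 0) (nat_lit 410639749385) (nat_lit 1) (nat_lit 5) (nat_lit 3) (nat_lit 4) (nat_lit 1) (nat_lit 4) (nat_lit 361) (nat_lit 252) (nat_lit 167)) (XT.lf (nat_lit 0) (nat_lit 455522124758) (nat_lit 152) (nat_lit 2028689950202) (nat_lit 0) (nat_lit 448093046226) (nat_lit 1) (nat_lit 5) (nat_lit 3) (nat_lit 4) (nat_lit 1) (nat_lit 4) (nat_lit 362) (nat_lit 252) (nat_lit 166)))))) (XT.nd (nat_lit 33774) (nat_lit 0) (nat_lit 1520) (XT.nd (nat_lit 312) (nat_lit 0) (nat_lit 0) (XT.nd (nat_lit 156) (nat_lit 0) (nat_lit 0) (XT.nd (nat_lit 78) (nat_lit 0) (nat_lit 0) (XT.lf (nat_lit 0) (nat_lit 495971599055) (nat_lit 152) (nat_lit 2182005525889)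 (nat_lit 0) (nat_lit 488541784760) (nat_lit 1) (nat_lit 5) (nat_lit 3) (nat_lit 4) (nat_lit 1) (nat_lit 4) (nat_lit 363) (nat_lit 252) (nat_lit 165)) (XT.lf (nat_lit 0) (nat_lit 539656156771) (nat_lit 152) (nat_lit 2347588053736) (nat_lit 0) (nat_lit 532225661213) (nat_lit 1) (nat_lit 5) (nat_lit 3) (nat_lit 4) (nat_lit 1) (nat_lit 4) (nat_lit 364) (nat_lit 252) (nat_lit 164))) (XT.nd (nat_lit 78) (nat_lit 0) (nat_lit 0) (XT.lf (nat_lit 0) (nat_lit 586834669360) (nat_lit 152) (nat_lit 2526418763535) (nat_lit 0) (nat_lit 579403543003) (nat_lit 1) (nat_lit 5) (nat_lit 3) (nat_lit 4) (nat_lit 1) (nat_lit 4) (nat_lit 365) (nat_lit 252) (nat_lit 163)) (XT.lf (nat_lit 0) (nat_lit 637786713192) (nat_lit 152) (nat_lit 2719557392828) (nat_lit 0) (nat_lit 630355002762) (nat_lit 1) (nat_lit 5) (nat_lit 3) (nat_lit 4) (nat_lit 1) (nat_lit 4) (nat_lit 366) (nat_lit 252) (nat_lit 162)))) (XT.nd (nat_lit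 156) (nat_lit 0) (nat_lit 0) (XT.nd (nat_lit 78) (nat_lit 0) (nat_lit 0) (XT.lf (nat_lit 0) (nat_lit 692814226305) (nat_lit 152) (nat_lit 2928148466824) (nat_lit 0) (nat_lit 685381975067) (nat_lit 1) (nat_lit 5) (nat_lit 3) (nat_lit 4) (nat_lit 1) (nat_lit 4) (nat_lit 367) (nat_lit 252) (nat_lit 161)) (XT.lf (nat_lit 0) (nat_lit 752243297665) (nat_lit 152) (nat_lit 3153428080778) (nat_lit 0) (nat_lit 744810545679) (nat_lit 1) (nat_lit 5) (nat_lit 3) (nat_lit 4) (nat_lit 1) (nat_lit 4) (nat_lit 368) (nat_lit 252) (nat_lit 160))) (XT.nd (nat_lit 33228) (nat_lit 0) (nat_lit 2660) (XT.lf (nat_lit 0) (nat_lit 816426099548) (nat_lit 152) (nat_lit 3396731224993) (nat_lit 0) (nat_lit 808992883905) (nat_lit 1) (nat_lit 5) (nat_lit 3) (nat_lit 4) (nat_lit 1) (nat_lit 4) (nat_lit 369) (nat_lit 252) (nat_lit 159)) (XT.lf (nat_lit 0) (nat_lit 1299901657) (nat_lit 304) (nat_lit 1399144193) (nat_lit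 0) (nat_lit 1299901657) (nat_lit 36) (nat_lit 5) (nat_lit 40) (nat_lit 4) (nat_lit 36) (nat_lit 4) (nat_lit 274) (nat_lit 253) (nat_lit 253))))) (XT.nd (nat_lit 312) (nat_lit 532) (nat_lit 0) (XT.nd (nat_lit 156) (nat_lit 152) (nat_lit 0) (XT.nd (nat_lit 78) (nat_lit 228) (nat_lit 0) (XT.lf (nat_lit 0) (nat_lit 3037645866) (nat_lit 228) (nat_lit 3198781133) (nat_lit 228) (nat_lit 2009131686) (nat_lit 33) (nat_lit 4) (nat_lit 36) (nat_lit 5) (nat_lit 36) (nat_lit 4) (nat_lit 275) (nat_lit 253) (nat_lit 252)) (XT.lf (nat_lit 0) (nat_lit 667840532) (nat_lit 152) (nat_lit 754763913) (nat_lit 228) (nat_lit 7099596181) (nat_lit 30) (nat_lit 5) (nat_lit 32) (nat_lit 5) (nat_lit 33) (nat_lit 4) (nat_lit 276) (nat_lit 253) (nat_lit 251))) (XT.nd (nat_lit 78) (nat_lit 152) (nat_lit 0) (XT.lf (nat_lit 0) (nat_lit 4979932324) (nat_lit 228) (nat_lit 1926639443) (nat_lit 0) (nat_lit 1914090316) (nat_lit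 30) (nat_lit 5) (nat_lit 33) (nat_lit 4) (nat_lit 30) (nat_lit 4) (nat_lit 277) (nat_lit 253) (nat_lit 250)) (XT.lf (nat_lit 0) (nat_lit 4372891446) (nat_lit 152) (nat_lit 4359076626) (nat_lit 152) (nat_lit 418806759) (nat_lit 28) (nat_lit 4) (nat_lit 30) (nat_lit 5) (nat_lit 30) (nat_lit 4) (nat_lit 278) (nat_lit 253) (nat_lit 249)))) (XT.nd (nat_lit 156) (nat_lit 304) (nat_lit 0) (XT.nd (nat_lit 78) (nat_lit 0) (nat_lit 0) (XT.lf (nat_lit 0) (nat_lit 1470699325) (nat_lit 152) (nat_lit 1519985586) (nat_lit 228) (nat_lit 6520588789) (nat_lit 25) (nat_lit 5) (nat_lit 27) (nat_lit 5) (nat_lit 28) (nat_lit 4) (nat_lit 279) (nat_lit 253) (nat_lit 248)) (XT.lf (nat_lit 0) (nat_lit 6616086491) (nat_lit 228) (nat_lit 1762998768) (nat_lit 0) (nat_lit 1523858491) (nat_lit 25) (nat_lit 5) (nat_lit 28) (nat_lit 4) (nat_lit 25) (nat_lit 4) (nat_lit 280) (nat_lit 253) (nat_lit 247))) (XT.nd (nat_lit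 78) (nat_lit 76) (nat_lit 0) (XT.lf (nat_lit 0) (nat_lit 161995469) (nat_lit 228) (nat_lit 5398008002) (nat_lit 76) (nat_lit 4768609442) (nat_lit 22) (nat_lit 5) (nat_lit 25) (nat_lit 5) (nat_lit 23) (nat_lit 4) (nat_lit 281) (nat_lit 253) (nat_lit 246)) (XT.lf (nat_lit 0) (nat_lit 1154520931) (nat_lit 76) (nat_lit 2443844654) (nat_lit 152) (nat_lit 7192373490) (nat_lit 21) (nat_lit 5) (nat_lit 22) (nat_lit 5) (nat_lit 23) (nat_lit 4) (nat_lit 282) (nat_lit 253) (nat_lit 245))))))))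
noncomputable def xc38 : XT := (XT.nd (nat_lit 2340) (nat_lit 228) (nat_lit 0) (XT.nd (nat_lit 1170) (nat_lit 380) (nat_lit 0) (XT.nd (nat_lit 546) (nat_lit 304) (nat_lit 0) (XT.nd (nat_lit 234) (nat_lit 380) (nat_lit 0) (XT.nd (nat_lit 78) (nat_lit 228) (nat_lit 0) (XT.lf (nat_lit 0) (nat_lit 7299784485) (nat_lit 152) (nat_lit 3062801013) (nat_lit 0) (nat_lit 928379518) (nat_lit 21) (nat_lit 5) (nat_lit 23) (nat_lit 4) (nat_lit 21) (nat_lit 4) (nat_lit 283) (nat_lit 253) (nat_lit 244)) (XT.nd (nat_lit 78) (nat_lit 76) (nat_lit 0) (XT.lf (nat_lit 0) (nat_lit 3892727784) (nat_lit 152) (nat_lit 7391824558) (nat_lit 152) (nat_lit 547993427) (nat_lit 19) (nat_lit 4) (nat_lit 21) (nat_lit 5) (nat_lit 21) (nat_lit 4) (nat_lit 284) (nat_lit 253) (nat_lit 243)) (XT.lf (nat_lit 0) (nat_lit 2929701701) (nat_lit 228) (nat_lit 1187483224) (nat_lit 76) (nat_lit 8301025339) (nat_lit 18) (nat_lit 5)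 (nat_lit 21) (nat_lit 5) (nat_lit 19) (nat_lit 4) (nat_lit 285) (nat_lit 253) (nat_lit 242)))) (XT.nd (nat_lit 156) (nat_lit 152) (nat_lit 0) (XT.nd (nat_lit 78) (nat_lit 152) (nat_lit 0) (XT.lf (nat_lit 0) (nat_lit 6141369584) (nat_lit 76) (nat_lit 506544664) (nat_lit 152) (nat_lit 6402572880) (nat_lit 17) (nat_lit 5) (nat_lit 18) (nat_lit 5) (nat_lit 19) (nat_lit 4) (nat_lit 286) (nat_lit 253) (nat_lit 241)) (XT.lf (nat_lit 0) (nat_lit 53544887) (nat_lit 152) (nat_lit 10573567666) (nat_lit 152) (nat_lit 3109383245) (nat_lit 15) (nat_lit 4) (nat_lit 17) (nat_lit 5) (nat_lit 17) (nat_lit 4) (nat_lit 287) (nat_lit 253) (nat_lit 240))) (XT.nd (nat_lit 78) (nat_lit 76) (nat_lit 0) (XT.lf (nat_lit 0) (nat_lit 480368311) (nat_lit 228) (nat_lit 6786543642) (nat_lit 76) (nat_lit 7205373094) (nat_lit 14) (nat_lit 5) (nat_lit 17) (nat_lit 5) (nat_lit 15) (nat_lit 4) (nat_lit 288) (nat_lit 253)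 (nat_lit 239)) (XT.lf (nat_lit 0) (nat_lit 356421654) (nat_lit 76) (nat_lit 3701193731) (nat_lit 152) (nat_lit 11213580900) (nat_lit 13) (nat_lit 5) (nat_lit 14) (nat_lit 5) (nat_lit 15) (nat_lit 4) (nat_lit 289) (nat_lit 253) (nat_lit 238))))) (XT.nd (nat_lit 312) (nat_lit 152) (nat_lit 0) (XT.nd (nat_lit 156) (nat_lit 152) (nat_lit 0) (XT.nd (nat_lit 78) (nat_lit 0) (nat_lit 0) (XT.lf (nat_lit 0) (nat_lit 7977045721) (nat_lit 152) (nat_lit 7915502972) (nat_lit 0) (nat_lit 237161946) (nat_lit 13) (nat_lit 5) (nat_lit 15) (nat_lit 4) (nat_lit 13) (nat_lit 4) (nat_lit 290) (nat_lit 253) (nat_lit 237)) (XT.lf (nat_lit 0) (nat_lit 12178411187) (nat_lit 152) (nat_lit 678985652) (nat_lit 0) (nat_lit 4202196711) (nat_lit 13) (nat_lit 5) (nat_lit 15) (nat_lit 4) (nat_lit 13) (nat_lit 4) (nat_lit 291) (nat_lit 253) (nat_lit 236))) (XT.nd (nat_lit 78) (nat_lit 76) (nat_lit 0) (XT.lf (nat_lit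 0) (nat_lit 7291420578) (nat_lit 76) (nat_lit 9481533226) (nat_lit 76) (nat_lit 1286494028) (nat_lit 12) (nat_lit 4) (nat_lit 13) (nat_lit 5) (nat_lit 13) (nat_lit 4) (nat_lit 292) (nat_lit 253) (nat_lit 235)) (XT.lf (nat_lit 0) (nat_lit 2367418053) (nat_lit 152) (nat_lit 3473425130) (nat_lit 76) (nat_lit 13301458361) (nat_lit 11) (nat_lit 5) (nat_lit 13) (nat_lit 5) (nat_lit 12) (nat_lit 4) (nat_lit 293) (nat_lit 253) (nat_lit 234)))) (XT.nd (nat_lit 156) (nat_lit 76) (nat_lit 0) (XT.nd (nat_lit 78) (nat_lit 0) (nat_lit 0) (XT.lf (nat_lit 0) (nat_lit 4396069337) (nat_lit 76) (nat_lit 1844955157) (nat_lit 152) (nat_lit 14068451022) (nat_lit 10) (nat_lit 5) (nat_lit 11) (nat_lit 5) (nat_lit 12) (nat_lit 4) (nat_lit 294) (nat_lit 253) (nat_lit 233)) (XT.lf (nat_lit 0) (nat_lit 10473979752) (nat_lit 152) (nat_lit 8728373530) (nat_lit 0) (nat_lit 2363820741) (nat_lit 10) (nat_lit 5) (nat_lit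 12) (nat_lit 4) (nat_lit 10) (nat_lit 4) (nat_lit 295) (nat_lit 253) (nat_lit 232))) (XT.nd (nat_lit 78) (nat_lit 76) (nat_lit 0) (XT.lf (nat_lit 0) (nat_lit 14994053339) (nat_lit 152) (nat_lit 1198610100) (nat_lit 0) (nat_lit 6734965899) (nat_lit 10) (nat_lit 5) (nat_lit 12) (nat_lit 4) (nat_lit 10) (nat_lit 4) (nat_lit 296) (nat_lit 253) (nat_lit 231)) (XT.lf (nat_lit 0) (nat_lit 7121102535) (nat_lit 76) (nat_lit 12833819815) (nat_lit 76) (nat_lit 4436835680) (nat_lit 9) (nat_lit 4) (nat_lit 10) (nat_lit 5) (nat_lit 10) (nat_lit 4) (nat_lit 297) (nat_lit 253) (nat_lit 230)))))) (XT.nd (nat_lit 546) (nat_lit 152) (nat_lit 0) (XT.nd (nat_lit 234) (nat_lit 76) (nat_lit 0) (XT.nd (nat_lit 78) (nat_lit 152) (nat_lit 0) (XT.lf (nat_lit 0) (nat_lit 16010169771) (nat_lit 76) (nat_lit 9246056770) (nat_lit 76) (nat_lit 721390512) (nat_lit 9) (nat_lit 4) (nat_lit 10) (nat_lit 5) (nat_lit 10)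 (nat_lit 4) (nat_lit 298) (nat_lit 253) (nat_lit 229)) (XT.nd (nat_lit 78) (nat_lit 76) (nat_lit 0) (XT.lf (nat_lit 0) (nat_lit 3041827582) (nat_lit 152) (nat_lit 2315889074) (nat_lit 76) (nat_lit 22333154338) (nat_lit 8) (nat_lit 5) (nat_lit 10) (nat_lit 5) (nat_lit 9) (nat_lit 4) (nat_lit 299) (nat_lit 253) (nat_lit 228)) (XT.lf (nat_lit 0) (nat_lit 6088487309) (nat_lit 76) (nat_lit 1046534131) (nat_lit 152) (nat_lit 22399301151) (nat_lit 7) (nat_lit 5) (nat_lit 8) (nat_lit 5) (nat_lit 9) (nat_lit 4) (nat_lit 300) (nat_lit 253) (nat_lit 227)))) (XT.nd (nat_lit 156) (nat_lit 76) (nat_lit 0) (XT.nd (nat_lit 78) (nat_lit 0) (nat_lit 0) (XT.lf (nat_lit 0) (nat_lit 11629753182) (nat_lit 152) (nat_lit 16457764751) (nat_lit 0) (nat_lit 3431868483) (nat_lit 7) (nat_lit 5) (nat_lit 9) (nat_lit 4) (nat_lit 7) (nat_lit 4) (nat_lit 301) (nat_lit 253) (nat_lit 226)) (XT.lf (nat_lit 0) (nat_lit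 16439308741) (nat_lit 152) (nat_lit 9073059297) (nat_lit 0) (nat_lit 8154525734) (nat_lit 7) (nat_lit 5) (nat_lit 9) (nat_lit 4) (nat_lit 7) (nat_lit 4) (nat_lit 302) (nat_lit 253) (nat_lit 225))) (XT.nd (nat_lit 78) (nat_lit 76) (nat_lit 0) (XT.lf (nat_lit 0) (nat_lit 21567020017) (nat_lit 152) (nat_lit 1222788532) (nat_lit 0) (nat_lit 13201775614) (nat_lit 7) (nat_lit 5) (nat_lit 9) (nat_lit 4) (nat_lit 7) (nat_lit 4) (nat_lit 303) (nat_lit 253) (nat_lit 224)) (XT.lf (nat_lit 0) (nat_lit 7515524646) (nat_lit 76) (nat_lit 19708497347) (nat_lit 76) (nat_lit 11268751651) (nat_lit 6) (nat_lit 4) (nat_lit 7) (nat_lit 5) (nat_lit 7) (nat_lit 4) (nat_lit 304) (nat_lit 253) (nat_lit 223))))) (XT.nd (nat_lit 312) (nat_lit 76) (nat_lit 0) (XT.nd (nat_lit 156) (nat_lit 76) (nat_lit 0) (XT.nd (nat_lit 78) (nat_lit 0) (nat_lit 0) (XT.lf (nat_lit 0) (nat_lit 16909442814) (nat_lit 76) (nat_lit 16397750592)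 (nat_lit 76) (nat_lit 7889022217) (nat_lit 6) (nat_lit 4) (nat_lit 7) (nat_lit 5) (nat_lit 7) (nat_lit 4) (nat_lit 305) (nat_lit 253) (nat_lit 222)) (XT.lf (nat_lit 0) (nat_lit 26950243757) (nat_lit 76) (nat_lit 12871382249) (nat_lit 76) (nat_lit 4298781023) (nat_lit 6) (nat_lit 4) (nat_lit 7) (nat_lit 5) (nat_lit 7) (nat_lit 4) (nat_lit 306) (nat_lit 253) (nat_lit 221))) (XT.nd (nat_lit 78) (nat_lit 76) (nat_lit 0) (XT.lf (nat_lit 0) (nat_lit 37697428516) (nat_lit 76) (nat_lit 9108495320) (nat_lit 76) (nat_lit 476752566) (nat_lit 6) (nat_lit 4) (nat_lit 7) (nat_lit 5) (nat_lit 7) (nat_lit 4) (nat_lit 307) (nat_lit 253) (nat_lit 220)) (XT.lf (nat_lit 0) (nat_lit 3419640027) (nat_lit 152) (nat_lit 1573652171) (nat_lit 76) (nat_lit 45701545067) (nat_lit 5) (nat_lit 5) (nat_lit 7) (nat_lit 5) (nat_lit 6) (nat_lit 4) (nat_lit 308) (nat_lit 253) (nat_lit 219)))) (XT.nd (nat_lit 156) (nat_lit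 0) (nat_lit 0) (XT.nd (nat_lit 78) (nat_lit 0) (nat_lit 0) (XT.lf (nat_lit 0) (nat_lit 7348628254) (nat_lit 76) (nat_lit 384946750) (nat_lit 152) (nat_lit 46634909658) (nat_lit 4) (nat_lit 5) (nat_lit 5) (nat_lit 5) (nat_lit 6) (nat_lit 4) (nat_lit 309) (nat_lit 253) (nat_lit 218)) (XT.lf (nat_lit 0) (nat_lit 12502452206) (nat_lit 152) (nat_lit 41455840255) (nat_lit 0) (nat_lit 4368974235) (nat_lit 4) (nat_lit 5) (nat_lit 6) (nat_lit 4) (nat_lit 4) (nat_lit 4) (nat_lit 310) (nat_lit 253) (nat_lit 217))) (XT.nd (nat_lit 78) (nat_lit 0) (nat_lit 0) (XT.lf (nat_lit 0) (nat_lit 17621397562) (nat_lit 152) (nat_lit 35536227118) (nat_lit 0) (nat_lit 9447668861) (nat_lit 4) (nat_lit 5) (nat_lit 6) (nat_lit 4) (nat_lit 4) (nat_lit 4) (nat_lit 311) (nat_lit 253) (nat_lit 216)) (XT.lf (nat_lit 0) (nat_lit 23111487585) (nat_lit 152) (nat_lit 29216679832) (nat_lit 0) (nat_lit 14900489689) (nat_lit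 4) (nat_lit 5) (nat_lit 6) (nat_lit 4) (nat_lit 4) (nat_lit 4) (nat_lit 312) (nat_lit 253) (nat_lit 215))))))) (XT.nd (nat_lit 1170) (nat_lit 152) (nat_lit 0) (XT.nd (nat_lit 546) (nat_lit 0) (nat_lit 0) (XT.nd (nat_lit 234) (nat_lit 76) (nat_lit 0) (XT.nd (nat_lit 78) (nat_lit 0) (nat_lit 0) (XT.lf (nat_lit 0) (nat_lit 29005256142) (nat_lit 152) (nat_lit 22459749227) (nat_lit 0) (nat_lit 20759749732) (nat_lit 4) (nat_lit 5) (nat_lit 6) (nat_lit 4) (nat_lit 4) (nat_lit 4) (nat_lit 313) (nat_lit 253) (nat_lit 214)) (XT.nd (nat_lit 78) (nat_lit 0) (nat_lit 0) (XT.lf (nat_lit 0) (nat_lit 35337629268) (nat_lit 152) (nat_lit 15225394232) (nat_lit 0) (nat_lit 27060170531) (nat_lit 4) (nat_lit 5) (nat_lit 6) (nat_lit 4) (nat_lit 4) (nat_lit 4) (nat_lit 314) (nat_lit 253) (nat_lit 213)) (XT.lf (nat_lit 0) (nat_lit 42146132138) (nat_lit 152) (nat_lit 7470744597) (nat_lit 0) (nat_lit 33839087913)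 (nat_lit 4) (nat_lit 5) (nat_lit 6) (nat_lit 4) (nat_lit 4) (nat_lit 4) (nat_lit 315) (nat_lit 253) (nat_lit 212)))) (XT.nd (nat_lit 156) (nat_lit 0) (nat_lit 0) (XT.nd (nat_lit 78) (nat_lit 0) (nat_lit 0) (XT.lf (nat_lit 0) (nat_lit 894920716) (nat_lit 76) (nat_lit 48597713584) (nat_lit 76) (nat_lit 40263275387) (nat_lit 3) (nat_lit 4) (nat_lit 4) (nat_lit 5) (nat_lit 4) (nat_lit 4) (nat_lit 316) (nat_lit 253) (nat_lit 211)) (XT.lf (nat_lit 0) (nat_lit 10301953494) (nat_lit 76) (nat_lit 47301783180) (nat_lit 76) (nat_lit 38941980196) (nat_lit 3) (nat_lit 4) (nat_lit 4) (nat_lit 5) (nat_lit 4) (nat_lit 4) (nat_lit 317) (nat_lit 253) (nat_lit 210))) (XT.nd (nat_lit 78) (nat_lit 0) (nat_lit 0) (XT.lf (nat_lit 0) (nat_lit 20412702944) (nat_lit 76) (nat_lit 45925669334) (nat_lit 76) (nat_lit 37542380435) (nat_lit 3) (nat_lit 4) (nat_lit 4) (nat_lit 5) (nat_lit 4) (nat_lit 4) (nat_lit 318)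 (nat_lit 253) (nat_lit 209)) (XT.lf (nat_lit 0) (nat_lit 31287084618) (nat_lit 76) (nat_lit 44461217297) (nat_lit 76) (nat_lit 36056182181) (nat_lit 3) (nat_lit 4) (nat_lit 4) (nat_lit 5) (nat_lit 4) (nat_lit 4) (nat_lit 319) (nat_lit 253) (nat_lit 208))))) (XT.nd (nat_lit 312) (nat_lit 0) (nat_lit 0) (XT.nd (nat_lit 156) (nat_lit 0) (nat_lit 0) (XT.nd (nat_lit 78) (nat_lit 0) (nat_lit 0) (XT.lf (nat_lit 0) (nat_lit 42989539296) (nat_lit 76) (nat_lit 42899748834) (nat_lit 76) (nat_lit 34474578331) (nat_lit 3) (nat_lit 4) (nat_lit 4) (nat_lit 5) (nat_lit 4) (nat_lit 4) (nat_lit 320) (nat_lit 253) (nat_lit 207)) (XT.lf (nat_lit 0) (nat_lit 55589414858) (nat_lit 76) (nat_lit 41232010799) (nat_lit 76) (nat_lit 32788196420) (nat_lit 3) (nat_lit 4) (nat_lit 4) (nat_lit 5) (nat_lit 4) (nat_lit 4) (nat_lit 321) (nat_lit 253) (nat_lit 206))) (XT.nd (nat_lit 78) (nat_lit 0) (nat_lit 0) (XT.lf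 (nat_lit 0) (nat_lit 69161377234) (nat_lit 76) (nat_lit 39448120299) (nat_lit 76) (nat_lit 30987043072) (nat_lit 3) (nat_lit 4) (nat_lit 4) (nat_lit 5) (nat_lit 4) (nat_lit 4) (nat_lit 322) (nat_lit 253) (nat_lit 205)) (XT.lf (nat_lit 0) (nat_lit 83785852866) (nat_lit 76) (nat_lit 37537506133) (nat_lit 76) (nat_lit 29060444787) (nat_lit 3) (nat_lit 4) (nat_lit 4) (nat_lit 5) (nat_lit 4) (nat_lit 4) (nat_lit 323) (nat_lit 253) (nat_lit 204)))) (XT.nd (nat_lit 156) (nat_lit 0) (nat_lit 0) (XT.nd (nat_lit 78) (nat_lit 0) (nat_lit 0) (XT.lf (nat_lit 0) (nat_lit 99549505315) (nat_lit 76) (nat_lit 35488846142) (nat_lit 76) (nat_lit 26996984686) (nat_lit 3) (nat_lit 4) (nat_lit 4) (nat_lit 5) (nat_lit 4) (nat_lit 4) (nat_lit 324) (nat_lit 253) (nat_lit 203)) (XT.lf (nat_lit 0) (nat_lit 116545748816) (nat_lit 76) (nat_lit 33290000118) (nat_lit 76) (nat_lit 24784434856) (nat_lit 3) (nat_lit 4)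 (nat_lit 4) (nat_lit 5) (nat_lit 4) (nat_lit 4) (nat_lit 325) (nat_lit 253) (nat_lit 202))) (XT.nd (nat_lit 78) (nat_lit 0) (nat_lit 0) (XT.lf (nat_lit 0) (nat_lit 134875301851) (nat_lit 76) (nat_lit 30927937863) (nat_lit 76) (nat_lit 22409683892) (nat_lit 3) (nat_lit 4) (nat_lit 4) (nat_lit 5) (nat_lit 4) (nat_lit 4) (nat_lit 326) (nat_lit 253) (nat_lit 201)) (XT.lf (nat_lit 0) (nat_lit 154646783991) (nat_lit 76) (nat_lit 28388661971) (nat_lit 76) (nat_lit 19858659196) (nat_lit 3) (nat_lit 4) (nat_lit 4) (nat_lit 5) (nat_lit 4) (nat_lit 4) (nat_lit 327) (nat_lit 253) (nat_lit 200)))))) (XT.nd (nat_lit 624) (nat_lit 0) (nat_lit 0) (XT.nd (nat_lit 312) (nat_lit 152) (nat_lit 0) (XT.nd (nat_lit 156) (nat_lit 0) (nat_lit 0) (XT.nd (nat_lit 78) (nat_lit 0) (nat_lit 0) (XT.lf (nat_lit 0) (nat_lit 175977359578) (nat_lit 76) (nat_lit 25657124880) (nat_lit 76) (nat_lit 17116243583) (nat_lit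 3) (nat_lit 4) (nat_lit 4) (nat_lit 5) (nat_lit 4) (nat_lit 4) (nat_lit 328) (nat_lit 253) (nat_lit 199)) (XT.lf (nat_lit 0) (nat_lit 198993432020) (nat_lit 76) (nat_lit 22717139706) (nat_lit 76) (nat_lit 14166185702) (nat_lit 3) (nat_lit 4) (nat_lit 4) (nat_lit 5) (nat_lit 4) (nat_lit 4) (nat_lit 329) (nat_lit 253) (nat_lit 198))) (XT.nd (nat_lit 78) (nat_lit 0) (nat_lit 0) (XT.lf (nat_lit 0) (nat_lit 223831392858) (nat_lit 76) (nat_lit 19551284313) (nat_lit 76) (nat_lit 10991003729) (nat_lit 3) (nat_lit 4) (nat_lit 4) (nat_lit 5) (nat_lit 4) (nat_lit 4) (nat_lit 330) (nat_lit 253) (nat_lit 197)) (XT.lf (nat_lit 0) (nat_lit 250638430009) (nat_lit 76) (nat_lit 16140798076) (nat_lit 76) (nat_lit 7571881771) (nat_lit 3) (nat_lit 4) (nat_lit 4) (nat_lit 5) (nat_lit 4) (nat_lit 4) (nat_lit 331) (nat_lit 253) (nat_lit 196)))) (XT.nd (nat_lit 156) (nat_lit 76) (nat_lit 0) (XT.nd (nat_lit 78)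 (nat_lit 76) (nat_lit 0) (XT.lf (nat_lit 0) (nat_lit 279573399989) (nat_lit 76) (nat_lit 12465470708) (nat_lit 76) (nat_lit 3888558363) (nat_lit 3) (nat_lit 4) (nat_lit 4) (nat_lit 5) (nat_lit 4) (nat_lit 4) (nat_lit 332) (nat_lit 253) (nat_lit 195)) (XT.lf (nat_lit 0) (nat_lit 76751971) (nat_lit 152) (nat_lit 8424671983) (nat_lit 76) (nat_lit 310728918780) (nat_lit 2) (nat_lit 5) (nat_lit 4) (nat_lit 5) (nat_lit 3) (nat_lit 4) (nat_lit 333) (nat_lit 253) (nat_lit 194))) (XT.nd (nat_lit 78) (nat_lit 0) (nat_lit 0) (XT.lf (nat_lit 0) (nat_lit 24600813) (nat_lit 76) (nat_lit 4117597365) (nat_lit 152) (nat_lit 340247775907) (nat_lit 1) (nat_lit 5) (nat_lit 2) (nat_lit 5) (nat_lit 3) (nat_lit 4) (nat_lit 334) (nat_lit 253) (nat_lit 193)) (XT.lf (nat_lit 0) (nat_lit 8776501238) (nat_lit 152) (nat_lit 361950553361) (nat_lit 0) (nat_lit 815835578) (nat_lit 1) (nat_lit 5) (nat_lit 3) (nat_lit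 4) (nat_lit 1) (nat_lit 4) (nat_lit 335) (nat_lit 253) (nat_lit 192))))) (XT.nd (nat_lit 312) (nat_lit 0) (nat_lit 0) (XT.nd (nat_lit 156) (nat_lit 0) (nat_lit 0) (XT.nd (nat_lit 78) (nat_lit 0) (nat_lit 0) (XT.lf (nat_lit 0) (nat_lit 13881513368) (nat_lit 152) (nat_lit 381063126899) (nat_lit 0) (nat_lit 5915405739) (nat_lit 1) (nat_lit 5) (nat_lit 3) (nat_lit 4) (nat_lit 1) (nat_lit 4) (nat_lit 336) (nat_lit 253) (nat_lit 191)) (XT.lf (nat_lit 0) (nat_lit 19388458177) (nat_lit 152) (nat_lit 401717325266) (nat_lit 0) (nat_lit 11417311687) (nat_lit 1) (nat_lit 5) (nat_lit 3) (nat_lit 4) (nat_lit 1) (nat_lit 4) (nat_lit 337) (nat_lit 253) (nat_lit 190))) (XT.nd (nat_lit 78) (nat_lit 0) (nat_lit 0) (XT.lf (nat_lit 0) (nat_lit 25329969412) (nat_lit 152) (nat_lit 424035543711) (nat_lit 0) (nat_lit 17354157310) (nat_lit 1) (nat_lit 5) (nat_lit 3) (nat_lit 4) (nat_lit 1) (nat_lit 4) (nat_lit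 338) (nat_lit 253) (nat_lit 189)) (XT.lf (nat_lit 0) (nat_lit 31741256029) (nat_lit 152) (nat_lit 448150038345) (nat_lit 0) (nat_lit 23761123915) (nat_lit 1) (nat_lit 5) (nat_lit 3) (nat_lit 4) (nat_lit 1) (nat_lit 4) (nat_lit 339) (nat_lit 253) (nat_lit 188)))) (XT.nd (nat_lit 156) (nat_lit 0) (nat_lit 0) (XT.nd (nat_lit 78) (nat_lit 0) (nat_lit 0) (XT.lf (nat_lit 0) (nat_lit 38660310836) (nat_lit 152) (nat_lit 474203709874) (nat_lit 0) (nat_lit 30676178713) (nat_lit 1) (nat_lit 5) (nat_lit 3) (nat_lit 4) (nat_lit 1) (nat_lit 4) (nat_lit 340) (nat_lit 253) (nat_lit 187)) (XT.lf (nat_lit 0) (nat_lit 46128135641) (nat_lit 152) (nat_lit 502350950428) (nat_lit 0) (nat_lit 38140299804) (nat_lit 1) (nat_lit 5) (nat_lit 3) (nat_lit 4) (nat_lit 1) (nat_lit 4) (nat_lit 341) (nat_lit 253) (nat_lit 186))) (XT.nd (nat_lit 78) (nat_lit 0) (nat_lit 0) (XT.lf (nat_lit 0) (nat_lit 54188984219) (nat_lit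 152) (nat_lit 532758558469) (nat_lit 0) (nat_lit 46197719018) (nat_lit 1) (nat_lit 5) (nat_lit 3) (nat_lit 4) (nat_lit 1) (nat_lit 4) (nat_lit 342) (nat_lit 253) (nat_lit 185)) (XT.lf (nat_lit 0) (nat_lit 62890624563) (nat_lit 152) (nat_lit 565606727230) (nat_lit 0) (nat_lit 54896184025) (nat_lit 1) (nat_lit 5) (nat_lit 3) (nat_lit 4) (nat_lit 1) (nat_lit 4) (nat_lit 343) (nat_lit 253) (nat_lit 184))))))))
noncomputable def xc39 : XT := (XT.nd (nat_lit 35412) (nat_lit 0) (nat_lit 380) (XT.nd (nat_lit 1170) (nat_lit 0) (nat_lit 0) (XT.nd (nat_lit 546) (nat_lit 0) (nat_lit 0) (XT.nd (nat_lit 234) (nat_lit 0) (nat_lit 0) (XT.nd (nat_lit 78) (nat_lit 0) (nat_lit 0) (XT.lf (nat_lit 0) (nat_lit 72284621949) (nat_lit 152) (nat_lit 601090112525) (nat_lit 0) (nat_lit 64287241284) (nat_lit 1) (nat_lit 5) (nat_lit 3) (nat_lit 4) (nat_lit 1) (nat_lit 4) (nat_lit 344) (nat_lit 253) (nat_lit 183))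 (XT.nd (nat_lit 78) (nat_lit 0) (nat_lit 0) (XT.lf (nat_lit 0) (nat_lit 82426644508) (nat_lit 152) (nat_lit 639418986267) (nat_lit 0) (nat_lit 74426541504) (nat_lit 1) (nat_lit 5) (nat_lit 3) (nat_lit 4) (nat_lit 1) (nat_lit 4) (nat_lit 345) (nat_lit 253) (nat_lit 182)) (XT.lf (nat_lit 0) (nat_lit 93376793116) (nat_lit 152) (nat_lit 680820482523) (nat_lit 0) (nat_lit 85374169427) (nat_lit 1) (nat_lit 5) (nat_lit 3) (nat_lit 4) (nat_lit 1) (nat_lit 4) (nat_lit 346) (nat_lit 253) (nat_lit 181)))) (XT.nd (nat_lit 156) (nat_lit 0) (nat_lit 0) (XT.nd (nat_lit 78) (nat_lit 0) (nat_lit 0) (XT.lf (nat_lit 0) (nat_lit 105199957543) (nat_lit 152) (nat_lit 725539943494) (nat_lit 0) (nat_lit 97194999886) (nat_lit 1) (nat_lit 5) (nat_lit 3) (nat_lit 4) (nat_lit 1) (nat_lit 4) (nat_lit 347) (nat_lit 253) (nat_lit 180)) (XT.lf (nat_lit 0) (nat_lit 117966200984) (nat_lit 152) (nat_lit 773842373391)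 (nat_lit 0) (nat_lit 109959082246) (nat_lit 1) (nat_lit 5) (nat_lit 3) (nat_lit 4) (nat_lit 1) (nat_lit 4) (nat_lit 348) (nat_lit 253) (nat_lit 179))) (XT.nd (nat_lit 78) (nat_lit 0) (nat_lit 0) (XT.lf (nat_lit 0) (nat_lit 131751175253) (nat_lit 152) (nat_lit 826014008838) (nat_lit 0) (nat_lit 123742055514) (nat_lit 1) (nat_lit 5) (nat_lit 3) (nat_lit 4) (nat_lit 1) (nat_lit 4) (nat_lit 349) (nat_lit 253) (nat_lit 178)) (XT.lf (nat_lit 0) (nat_lit 146636569086) (nat_lit 152) (nat_lit 882364015080) (nat_lit 0) (nat_lit 138625596568) (nat_lit 1) (nat_lit 5) (nat_lit 3) (nat_lit 4) (nat_lit 1) (nat_lit 4) (nat_lit 350) (nat_lit 253) (nat_lit 177))))) (XT.nd (nat_lit 312) (nat_lit 0) (nat_lit 0) (XT.nd (nat_lit 156) (nat_lit 0) (nat_lit 0) (XT.nd (nat_lit 78) (nat_lit 0) (nat_lit 0) (XT.lf (nat_lit 0) (nat_lit 162710592224) (nat_lit 152) (nat_lit 943226318081) (nat_lit 0) (nat_lit 154697904170)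 (nat_lit 1) (nat_lit 5) (nat_lit 3) (nat_lit 4) (nat_lit 1) (nat_lit 4) (nat_lit 351) (nat_lit 253) (nat_lit 176)) (XT.lf (nat_lit 0) (nat_lit 180068498138) (nat_lit 152) (nat_lit 1008961583341) (nat_lit 0) (nat_lit 172054221625) (nat_lit 1) (nat_lit 5) (nat_lit 3) (nat_lit 4) (nat_lit 1) (nat_lit 4) (nat_lit 352) (nat_lit 253) (nat_lit 175))) (XT.nd (nat_lit 78) (nat_lit 0) (nat_lit 0) (XT.lf (nat_lit 0) (nat_lit 198813148493) (nat_lit 152) (nat_lit 1079959353171) (nat_lit 0) (nat_lit 190797401185) (nat_lit 1) (nat_lit 5) (nat_lit 3) (nat_lit 4) (nat_lit 1) (nat_lit 4) (nat_lit 353) (nat_lit 253) (nat_lit 174)) (XT.lf (nat_lit 0) (nat_lit 219055622697) (nat_lit 152) (nat_lit 1156640355096) (nat_lit 0) (nat_lit 211038513542) (nat_lit 1) (nat_lit 5) (nat_lit 3) (nat_lit 4) (nat_lit 1) (nat_lit 4) (nat_lit 354) (nat_lit 253) (nat_lit 173)))) (XT.nd (nat_lit 156) (nat_lit 0) (nat_lit 0)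 (XT.nd (nat_lit 78) (nat_lit 0) (nat_lit 0) (XT.lf (nat_lit 0) (nat_lit 240915876155) (nat_lit 152) (nat_lit 1239458995055) (nat_lit 0) (nat_lit 232897506029) (nat_lit 1) (nat_lit 5) (nat_lit 3) (nat_lit 4) (nat_lit 1) (nat_lit 4) (nat_lit 355) (nat_lit 253) (nat_lit 172)) (XT.lf (nat_lit 0) (nat_lit 264523451107) (nat_lit 152) (nat_lit 1328906050172) (nat_lit 0) (nat_lit 256503913417) (nat_lit 1) (nat_lit 5) (nat_lit 3) (nat_lit 4) (nat_lit 1) (nat_lit 4) (nat_lit 356) (nat_lit 253) (nat_lit 171))) (XT.nd (nat_lit 78) (nat_lit 0) (nat_lit 0) (XT.lf (nat_lit 0) (nat_lit 290018244296) (nat_lit 152) (nat_lit 1425511577071) (nat_lit 0) (nat_lit 281997625527) (nat_lit 1) (nat_lit 5) (nat_lit 3) (nat_lit 4) (nat_lit 1) (nat_lit 4) (nat_lit 357) (nat_lit 253) (nat_lit 170)) (XT.lf (nat_lit 0) (nat_lit 317551335976) (nat_lit 152) (nat_lit 1529848052948) (nat_lit 0) (nat_lit 309529716209) (nat_lit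 1) (nat_lit 5) (nat_lit 3) (nat_lit 4) (nat_lit 1) (nat_lit 4) (nat_lit 358) (nat_lit 253) (nat_lit 169)))))) (XT.nd (nat_lit 624) (nat_lit 0) (nat_lit 0) (XT.nd (nat_lit 312) (nat_lit 0) (nat_lit 0) (XT.nd (nat_lit 156) (nat_lit 0) (nat_lit 0) (XT.nd (nat_lit 78) (nat_lit 0) (nat_lit 0) (XT.lf (nat_lit 0) (nat_lit 347285885210) (nat_lit 152) (nat_lit 1642533768030) (nat_lit 0) (nat_lit 339263338592) (nat_lit 1) (nat_lit 5) (nat_lit 3) (nat_lit 4) (nat_lit 1) (nat_lit 4) (nat_lit 359) (nat_lit 253) (nat_lit 168)) (XT.lf (nat_lit 0) (nat_lit 379398096734) (nat_lit 152) (nat_lit 1764236489518) (nat_lit 0) (nat_lit 371374691921) (nat_lit 1) (nat_lit 5) (nat_lit 3) (nat_lit 4) (nat_lit 1) (nat_lit 4) (nat_lit 360) (nat_lit 253) (nat_lit 167))) (XT.nd (nat_lit 78) (nat_lit 0) (nat_lit 0) (XT.lf (nat_lit 0) (nat_lit 414078265135) (nat_lit 152) (nat_lit 1895677418725) (nat_lit 0) (nat_lit 406054065696)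 (nat_lit 1) (nat_lit 5) (nat_lit 3) (nat_lit 4) (nat_lit 1) (nat_lit 4) (nat_lit 361) (nat_lit 253) (nat_lit 166)) (XT.lf (nat_lit 0) (nat_lit 451531902521) (nat_lit 152) (nat_lit 2037635464860) (nat_lit 0) (nat_lit 443506967318) (nat_lit 1) (nat_lit 5) (nat_lit 3) (nat_lit 4) (nat_lit 1) (nat_lit 4) (nat_lit 362) (nat_lit 253) (nat_lit 165)))) (XT.nd (nat_lit 156) (nat_lit 0) (nat_lit 0) (XT.nd (nat_lit 78) (nat_lit 0) (nat_lit 0) (XT.lf (nat_lit 0) (nat_lit 491980956373) (nat_lit 152) (nat_lit 2190951860790) (nat_lit 0) (nat_lit 483955339908) (nat_lit 1) (nat_lit 5) (nat_lit 3) (nat_lit 4) (nat_lit 1) (nat_lit 4) (nat_lit 363) (nat_lit 253) (nat_lit 164)) (XT.lf (nat_lit 0) (nat_lit 535665124789) (nat_lit 152) (nat_lit 2356535148120) (nat_lit 0) (nat_lit 527638877525) (nat_lit 1) (nat_lit 5) (nat_lit 3) (nat_lit 4) (nat_lit 1) (nat_lit 4) (nat_lit 364) (nat_lit 253) (nat_lit 163)))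 (XT.nd (nat_lit 78) (nat_lit 0) (nat_lit 0) (XT.lf (nat_lit 0) (nat_lit 582843276915) (nat_lit 152) (nat_lit 2535366561145) (nat_lit 0) (nat_lit 574816445577) (nat_lit 1) (nat_lit 5) (nat_lit 3) (nat_lit 4) (nat_lit 1) (nat_lit 4) (nat_lit 365) (nat_lit 253) (nat_lit 162)) (XT.lf (nat_lit 0) (nat_lit 633794986985) (nat_lit 152) (nat_lit 2728505841573) (nat_lit 0) (nat_lit 625767614839) (nat_lit 1) (nat_lit 5) (nat_lit 3) (nat_lit 4) (nat_lit 1) (nat_lit 4) (nat_lit 366) (nat_lit 253) (nat_lit 161))))) (XT.nd (nat_lit 33306) (nat_lit 0) (nat_lit 2204) (XT.nd (nat_lit 156) (nat_lit 0) (nat_lit 0) (XT.nd (nat_lit 78) (nat_lit 0) (nat_lit 0) (XT.lf (nat_lit 0) (nat_lit 688822191058) (nat_lit 152) (nat_lit 2937097518472) (nat_lit 0) (nat_lit 680794318164) (nat_lit 1) (nat_lit 5) (nat_lit 3) (nat_lit 4) (nat_lit 1) (nat_lit 4) (nat_lit 367) (nat_lit 253) (nat_lit 160)) (XT.lf (nat_lit 0) (nat_lit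 748250976272) (nat_lit 152) (nat_lit 3162377690668) (nat_lit 0) (nat_lit 740222639721) (nat_lit 1) (nat_lit 5) (nat_lit 3) (nat_lit 4) (nat_lit 1) (nat_lit 4) (nat_lit 368) (nat_lit 253) (nat_lit 159))) (XT.nd (nat_lit 33072) (nat_lit 0) (nat_lit 2964) (XT.lf (nat_lit 0) (nat_lit 812433513203) (nat_lit 152) (nat_lit 3405681351774) (nat_lit 0) (nat_lit 804404747341) (nat_lit 1) (nat_lit 5) (nat_lit 3) (nat_lit 4) (nat_lit 1) (nat_lit 4) (nat_lit 369) (nat_lit 253) (nat_lit 158)) (XT.lf (nat_lit 0) (nat_lit 837298596) (nat_lit 228) (nat_lit 1473424280) (nat_lit 228) (nat_lit 1473424280) (nat_lit 40) (nat_lit 4) (nat_lit 43) (nat_lit 5) (nat_lit 43) (nat_lit 4) (nat_lit 272) (nat_lit 254) (nat_lit 254)))) (XT.nd (nat_lit 156) (nat_lit 456) (nat_lit 0) (XT.nd (nat_lit 78) (nat_lit 228) (nat_lit 0) (XT.lf (nat_lit 0) (nat_lit 396465852) (nat_lit 304) (nat_lit 562958143) (nat_lit 76) (nat_lit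 6819561790) (nat_lit 39) (nat_lit 5) (nat_lit 43) (nat_lit 5) (nat_lit 40) (nat_lit 4) (nat_lit 273) (nat_lit 254) (nat_lit 253)) (XT.lf (nat_lit 0) (nat_lit 3767146101) (nat_lit 304) (nat_lit 2947854006) (nat_lit 0) (nat_lit 1292675250) (nat_lit 36) (nat_lit 5) (nat_lit 40) (nat_lit 4) (nat_lit 36) (nat_lit 4) (nat_lit 274) (nat_lit 254) (nat_lit 252))) (XT.nd (nat_lit 78) (nat_lit 228) (nat_lit 0) (XT.lf (nat_lit 0) (nat_lit 2734425238) (nat_lit 228) (nat_lit 4553275588) (nat_lit 228) (nat_lit 977277470) (nat_lit 33) (nat_lit 4) (nat_lit 36) (nat_lit 5) (nat_lit 36) (nat_lit 4) (nat_lit 275) (nat_lit 254) (nat_lit 251)) (XT.lf (nat_lit 0) (nat_lit 153750100) (nat_lit 152) (nat_lit 2129750318) (nat_lit 228) (nat_lit 6265985070) (nat_lit 30) (nat_lit 5) (nat_lit 32) (nat_lit 5) (nat_lit 33) (nat_lit 4) (nat_lit 276) (nat_lit 254) (nat_lit 250))))))) (XT.nd (nat_lit 1170) (nat_lit 532)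 (nat_lit 0) (XT.nd (nat_lit 546) (nat_lit 608) (nat_lit 0) (XT.nd (nat_lit 234) (nat_lit 304) (nat_lit 0) (XT.nd (nat_lit 78) (nat_lit 380) (nat_lit 0) (XT.lf (nat_lit 0) (nat_lit 5704562360) (nat_lit 228) (nat_lit 2579923636) (nat_lit 0) (nat_lit 574643046) (nat_lit 30) (nat_lit 5) (nat_lit 33) (nat_lit 4) (nat_lit 30) (nat_lit 4) (nat_lit 277) (nat_lit 254) (nat_lit 249)) (XT.nd (nat_lit 78) (nat_lit 152) (nat_lit 0) (XT.lf (nat_lit 0) (nat_lit 135244805) (nat_lit 228) (nat_lit 5658265543) (nat_lit 76) (nat_lit 3404956787) (nat_lit 27) (nat_lit 5) (nat_lit 30) (nat_lit 5) (nat_lit 28) (nat_lit 4) (nat_lit 278) (nat_lit 254) (nat_lit 248)) (XT.lf (nat_lit 0) (nat_lit 390167493) (nat_lit 152) (nat_lit 3013401343) (nat_lit 228) (nat_lit 6164431684) (nat_lit 25) (nat_lit 5) (nat_lit 27) (nat_lit 5) (nat_lit 28) (nat_lit 4) (nat_lit 279) (nat_lit 254) (nat_lit 247)))) (XT.nd (nat_lit 156)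 (nat_lit 76) (nat_lit 0) (XT.nd (nat_lit 78) (nat_lit 228) (nat_lit 0) (XT.lf (nat_lit 0) (nat_lit 6901601250) (nat_lit 228) (nat_lit 3003349862) (nat_lit 0) (nat_lit 65115404) (nat_lit 25) (nat_lit 5) (nat_lit 28) (nat_lit 4) (nat_lit 25) (nat_lit 4) (nat_lit 280) (nat_lit 254) (nat_lit 246)) (XT.lf (nat_lit 0) (nat_lit 246843309) (nat_lit 228) (nat_lit 6918172670) (nat_lit 76) (nat_lit 3240286021) (nat_lit 22) (nat_lit 5) (nat_lit 25) (nat_lit 5) (nat_lit 23) (nat_lit 4) (nat_lit 281) (nat_lit 254) (nat_lit 245))) (XT.nd (nat_lit 78) (nat_lit 76) (nat_lit 0) (XT.lf (nat_lit 0) (nat_lit 3571741251) (nat_lit 228) (nat_lit 553422828) (nat_lit 76) (nat_lit 6751345713) (nat_lit 22) (nat_lit 5) (nat_lit 25) (nat_lit 5) (nat_lit 23) (nat_lit 4) (nat_lit 282) (nat_lit 254) (nat_lit 244)) (XT.lf (nat_lit 0) (nat_lit 6389728019) (nat_lit 76) (nat_lit 765364724) (nat_lit 152) (nat_lit 4231240099)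 (nat_lit 21) (nat_lit 5) (nat_lit 22) (nat_lit 5) (nat_lit 23) (nat_lit 4) (nat_lit 283) (nat_lit 254) (nat_lit 243))))) (XT.nd (nat_lit 312) (nat_lit 304) (nat_lit 0) (XT.nd (nat_lit 156) (nat_lit 76) (nat_lit 0) (XT.nd (nat_lit 78) (nat_lit 76) (nat_lit 0) (XT.lf (nat_lit 0) (nat_lit 1747598067) (nat_lit 152) (nat_lit 9246650206) (nat_lit 152) (nat_lit 945454789) (nat_lit 19) (nat_lit 4) (nat_lit 21) (nat_lit 5) (nat_lit 21) (nat_lit 4) (nat_lit 284) (nat_lit 254) (nat_lit 242)) (XT.lf (nat_lit 0) (nat_lit 2477222775) (nat_lit 228) (nat_lit 3553601335) (nat_lit 76) (nat_lit 6501420618) (nat_lit 18) (nat_lit 5) (nat_lit 21) (nat_lit 5) (nat_lit 19) (nat_lit 4) (nat_lit 285) (nat_lit 254) (nat_lit 241))) (XT.nd (nat_lit 78) (nat_lit 0) (nat_lit 0) (XT.lf (nat_lit 0) (nat_lit 3530389628) (nat_lit 76) (nat_lit 2532899533) (nat_lit 152) (nat_lit 7111915641) (nat_lit 17) (nat_lit 5) (nat_lit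 18) (nat_lit 5) (nat_lit 19) (nat_lit 4) (nat_lit 286) (nat_lit 254) (nat_lit 240)) (XT.lf (nat_lit 0) (nat_lit 9924503454) (nat_lit 152) (nat_lit 2751840357) (nat_lit 0) (nat_lit 1194411638) (nat_lit 17) (nat_lit 5) (nat_lit 19) (nat_lit 4) (nat_lit 17) (nat_lit 4) (nat_lit 287) (nat_lit 254) (nat_lit 239)))) (XT.nd (nat_lit 156) (nat_lit 76) (nat_lit 0) (XT.nd (nat_lit 78) (nat_lit 76) (nat_lit 0) (XT.lf (nat_lit 0) (nat_lit 4635770480) (nat_lit 152) (nat_lit 9505233905) (nat_lit 152) (nat_lit 477433469) (nat_lit 15) (nat_lit 4) (nat_lit 17) (nat_lit 5) (nat_lit 17) (nat_lit 4) (nat_lit 288) (nat_lit 254) (nat_lit 238)) (XT.lf (nat_lit 0) (nat_lit 3052683084) (nat_lit 228) (nat_lit 2953875749) (nat_lit 76) (nat_lit 9417471906) (nat_lit 14) (nat_lit 5) (nat_lit 17) (nat_lit 5) (nat_lit 15) (nat_lit 4) (nat_lit 289) (nat_lit 254) (nat_lit 237))) (XT.nd (nat_lit 78) (nat_lit 0) (nat_lit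 0) (XT.lf (nat_lit 0) (nat_lit 4649752306) (nat_lit 76) (nat_lit 2181231360) (nat_lit 152) (nat_lit 9462927703) (nat_lit 13) (nat_lit 5) (nat_lit 14) (nat_lit 5) (nat_lit 15) (nat_lit 4) (nat_lit 290) (nat_lit 254) (nat_lit 236)) (XT.lf (nat_lit 0) (nat_lit 10923019828) (nat_lit 152) (nat_lit 4456038299) (nat_lit 0) (nat_lit 1853552771) (nat_lit 13) (nat_lit 5) (nat_lit 15) (nat_lit 4) (nat_lit 13) (nat_lit 4) (nat_lit 291) (nat_lit 254) (nat_lit 235)))))) (XT.nd (nat_lit 624) (nat_lit 152) (nat_lit 0) (XT.nd (nat_lit 312) (nat_lit 152) (nat_lit 0) (XT.nd (nat_lit 156) (nat_lit 76) (nat_lit 0) (XT.nd (nat_lit 78) (nat_lit 76) (nat_lit 0) (XT.lf (nat_lit 0) (nat_lit 3217173107) (nat_lit 76) (nat_lit 12149745592) (nat_lit 76) (nat_lit 2877663051) (nat_lit 12) (nat_lit 4) (nat_lit 13) (nat_lit 5) (nat_lit 13) (nat_lit 4) (nat_lit 292) (nat_lit 254) (nat_lit 234)) (XT.lf (nat_lit 0) (nat_lit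 803518783) (nat_lit 152) (nat_lit 7788370400) (nat_lit 76) (nat_lit 10742849635) (nat_lit 11) (nat_lit 5) (nat_lit 13) (nat_lit 5) (nat_lit 12) (nat_lit 4) (nat_lit 293) (nat_lit 254) (nat_lit 233))) (XT.nd (nat_lit 78) (nat_lit 76) (nat_lit 0) (XT.lf (nat_lit 0) (nat_lit 4522948757) (nat_lit 152) (nat_lit 225666173) (nat_lit 76) (nat_lit 15765683631) (nat_lit 11) (nat_lit 5) (nat_lit 13) (nat_lit 5) (nat_lit 12) (nat_lit 4) (nat_lit 294) (nat_lit 254) (nat_lit 232)) (XT.lf (nat_lit 0) (nat_lit 8184131321) (nat_lit 76) (nat_lit 459317532) (nat_lit 152) (nat_lit 13136592457) (nat_lit 10) (nat_lit 5) (nat_lit 11) (nat_lit 5) (nat_lit 12) (nat_lit 4) (nat_lit 295) (nat_lit 254) (nat_lit 231)))) (XT.nd (nat_lit 156) (nat_lit 76) (nat_lit 0) (XT.nd (nat_lit 78) (nat_lit 76) (nat_lit 0) (XT.lf (nat_lit 0) (nat_lit 13108209905) (nat_lit 152) (nat_lit 6136185662) (nat_lit 0) (nat_lit 3901570346)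 (nat_lit 10) (nat_lit 5) (nat_lit 12) (nat_lit 4) (nat_lit 10) (nat_lit 4) (nat_lit 296) (nat_lit 254) (nat_lit 230)) (XT.lf (nat_lit 0) (nat_lit 1844490095) (nat_lit 76) (nat_lit 16056699184) (nat_lit 76) (nat_lit 6722377501) (nat_lit 9) (nat_lit 4) (nat_lit 10) (nat_lit 5) (nat_lit 10) (nat_lit 4) (nat_lit 297) (nat_lit 254) (nat_lit 229))) (XT.nd (nat_lit 78) (nat_lit 76) (nat_lit 0) (XT.lf (nat_lit 0) (nat_lit 10660378721) (nat_lit 76) (nat_lit 12502403895) (nat_lit 76) (nat_lit 3049858024) (nat_lit 9) (nat_lit 4) (nat_lit 10) (nat_lit 5) (nat_lit 10) (nat_lit 4) (nat_lit 298) (nat_lit 254) (nat_lit 228)) (XT.lf (nat_lit 0) (nat_lit 792081693) (nat_lit 152) (nat_lit 7914482789) (nat_lit 76) (nat_lit 19226863245) (nat_lit 8) (nat_lit 5) (nat_lit 10) (nat_lit 5) (nat_lit 9) (nat_lit 4) (nat_lit 299) (nat_lit 254) (nat_lit 227))))) (XT.nd (nat_lit 312) (nat_lit 76) (nat_lit 0) (XT.nd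 (nat_lit 156) (nat_lit 0) (nat_lit 0) (XT.nd (nat_lit 78) (nat_lit 0) (nat_lit 0) (XT.lf (nat_lit 0) (nat_lit 127069342) (nat_lit 76) (nat_lit 4579873081) (nat_lit 152) (nat_lit 25084233691) (nat_lit 7) (nat_lit 5) (nat_lit 8) (nat_lit 5) (nat_lit 9) (nat_lit 4) (nat_lit 300) (nat_lit 254) (nat_lit 226)) (XT.lf (nat_lit 0) (nat_lit 9082111977) (nat_lit 152) (nat_lit 22656072823) (nat_lit 0) (nat_lit 47648022) (nat_lit 7) (nat_lit 5) (nat_lit 9) (nat_lit 4) (nat_lit 7) (nat_lit 4) (nat_lit 301) (nat_lit 254) (nat_lit 225))) (XT.nd (nat_lit 78) (nat_lit 0) (nat_lit 0) (XT.lf (nat_lit 0) (nat_lit 13859644109) (nat_lit 152) (nat_lit 15331565025) (nat_lit 0) (nat_lit 4744718757) (nat_lit 7) (nat_lit 5) (nat_lit 9) (nat_lit 4) (nat_lit 7) (nat_lit 4) (nat_lit 302) (nat_lit 254) (nat_lit 224)) (XT.lf (nat_lit 0) (nat_lit 18957704063) (nat_lit 152) (nat_lit 7537032831) (nat_lit 0) (nat_lit 9768277418)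 (nat_lit 7) (nat_lit 5) (nat_lit 9) (nat_lit 4) (nat_lit 7) (nat_lit 4) (nat_lit 303) (nat_lit 254) (nat_lit 223)))) (XT.nd (nat_lit 156) (nat_lit 0) (nat_lit 0) (XT.nd (nat_lit 78) (nat_lit 0) (nat_lit 0) (XT.lf (nat_lit 0) (nat_lit 814455964) (nat_lit 76) (nat_lit 23611634286) (nat_lit 76) (nat_lit 14353224962) (nat_lit 6) (nat_lit 4) (nat_lit 7) (nat_lit 5) (nat_lit 7) (nat_lit 4) (nat_lit 304) (nat_lit 254) (nat_lit 222)) (XT.lf (nat_lit 0) (nat_lit 10158070921) (nat_lit 76) (nat_lit 20324559719) (nat_lit 76) (nat_lit 11002277545) (nat_lit 6) (nat_lit 4) (nat_lit 7) (nat_lit 5) (nat_lit 7) (nat_lit 4) (nat_lit 305) (nat_lit 254) (nat_lit 221))) (XT.nd (nat_lit 78) (nat_lit 0) (nat_lit 0) (XT.lf (nat_lit 0) (nat_lit 20152294816) (nat_lit 76) (nat_lit 16820110069) (nat_lit 76) (nat_lit 7438686367) (nat_lit 6) (nat_lit 4) (nat_lit 7) (nat_lit 5) (nat_lit 7) (nat_lit 4) (nat_lit 306)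 (nat_lit 254) (nat_lit 220)) (XT.lf (nat_lit 0) (nat_lit 30856352680) (nat_lit 76) (nat_lit 13077518227) (nat_lit 76) (nat_lit 3641333850) (nat_lit 6) (nat_lit 4) (nat_lit 7) (nat_lit 5) (nat_lit 7) (nat_lit 4) (nat_lit 307) (nat_lit 254) (nat_lit 219))))))))
noncomputable def xc40 : XT := (XT.nd (nat_lit 2340) (nat_lit 0) (nat_lit 0) (XT.nd (nat_lit 1170) (nat_lit 152) (nat_lit 0) (XT.nd (nat_lit 546) (nat_lit 76) (nat_lit 0) (XT.nd (nat_lit 234) (nat_lit 0) (nat_lit 0) (XT.nd (nat_lit 78) (nat_lit 76) (nat_lit 0) (XT.lf (nat_lit 0) (nat_lit 391658777) (nat_lit 152) (nat_lit 8672238447) (nat_lit 76) (nat_lit 41931308544) (nat_lit 5) (nat_lit 5) (nat_lit 7) (nat_lit 5) (nat_lit 6) (nat_lit 4) (nat_lit 308) (nat_lit 254) (nat_lit 218)) (XT.nd (nat_lit 78) (nat_lit 76) (nat_lit 0) (XT.lf (nat_lit 0) (nat_lit 4508761718) (nat_lit 152) (nat_lit 155612782) (nat_lit 76) (nat_lit 50020239189)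 (nat_lit 5) (nat_lit 5) (nat_lit 7) (nat_lit 5) (nat_lit 6) (nat_lit 4) (nat_lit 309) (nat_lit 254) (nat_lit 217)) (XT.lf (nat_lit 0) (nat_lit 9150753305) (nat_lit 152) (nat_lit 49219930617) (nat_lit 0) (nat_lit 282875577) (nat_lit 4) (nat_lit 5) (nat_lit 6) (nat_lit 4) (nat_lit 4) (nat_lit 4) (nat_lit 310) (nat_lit 254) (nat_lit 216)))) (XT.nd (nat_lit 156) (nat_lit 0) (nat_lit 0) (XT.nd (nat_lit 78) (nat_lit 0) (nat_lit 0) (XT.lf (nat_lit 0) (nat_lit 14251251083) (nat_lit 152) (nat_lit 43335718875) (nat_lit 0) (nat_lit 5346104160) (nat_lit 4) (nat_lit 5) (nat_lit 6) (nat_lit 4) (nat_lit 4) (nat_lit 4) (nat_lit 311) (nat_lit 254) (nat_lit 215)) (XT.lf (nat_lit 0) (nat_lit 19724260015) (nat_lit 152) (nat_lit 37048950658) (nat_lit 0) (nat_lit 10784604579) (nat_lit 4) (nat_lit 5) (nat_lit 6) (nat_lit 4) (nat_lit 4) (nat_lit 4) (nat_lit 312) (nat_lit 254) (nat_lit 214))) (XT.nd (nat_lit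 78) (nat_lit 0) (nat_lit 0) (XT.lf (nat_lit 0) (nat_lit 25602212748) (nat_lit 152) (nat_lit 30322371043) (nat_lit 0) (nat_lit 16630604984) (nat_lit 4) (nat_lit 5) (nat_lit 6) (nat_lit 4) (nat_lit 4) (nat_lit 4) (nat_lit 313) (nat_lit 254) (nat_lit 213)) (XT.lf (nat_lit 0) (nat_lit 31919941592) (nat_lit 152) (nat_lit 23116118817) (nat_lit 0) (nat_lit 22918748340) (nat_lit 4) (nat_lit 5) (nat_lit 6) (nat_lit 4) (nat_lit 4) (nat_lit 4) (nat_lit 314) (nat_lit 254) (nat_lit 212))))) (XT.nd (nat_lit 312) (nat_lit 0) (nat_lit 0) (XT.nd (nat_lit 156) (nat_lit 76) (nat_lit 0) (XT.nd (nat_lit 78) (nat_lit 0) (nat_lit 0) (XT.lf (nat_lit 0) (nat_lit 38714884942) (nat_lit 152) (nat_lit 15387490264) (nat_lit 0) (nat_lit 29686297719) (nat_lit 4) (nat_lit 5) (nat_lit 6) (nat_lit 4) (nat_lit 4) (nat_lit 4) (nat_lit 315) (nat_lit 254) (nat_lit 211)) (XT.lf (nat_lit 0) (nat_lit 46027309129) (nat_lit 152)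 (nat_lit 7090686103) (nat_lit 0) (nat_lit 36973357118) (nat_lit 4) (nat_lit 5) (nat_lit 6) (nat_lit 4) (nat_lit 4) (nat_lit 4) (nat_lit 316) (nat_lit 254) (nat_lit 210))) (XT.nd (nat_lit 78) (nat_lit 0) (nat_lit 0) (XT.lf (nat_lit 0) (nat_lit 1919480080) (nat_lit 76) (nat_lit 52027230497) (nat_lit 76) (nat_lit 42949792572) (nat_lit 3) (nat_lit 4) (nat_lit 4) (nat_lit 5) (nat_lit 4) (nat_lit 4) (nat_lit 317) (nat_lit 254) (nat_lit 209)) (XT.lf (nat_lit 0) (nat_lit 12008485428) (nat_lit 76) (nat_lit 50661573822) (nat_lit 76) (nat_lit 41562389680) (nat_lit 3) (nat_lit 4) (nat_lit 4) (nat_lit 5) (nat_lit 4) (nat_lit 4) (nat_lit 318) (nat_lit 254) (nat_lit 208)))) (XT.nd (nat_lit 156) (nat_lit 0) (nat_lit 0) (XT.nd (nat_lit 78) (nat_lit 0) (nat_lit 0) (XT.lf (nat_lit 0) (nat_lit 22862733674) (nat_lit 76) (nat_lit 49206804351) (nat_lit 76) (nat_lit 40087484822) (nat_lit 3) (nat_lit 4) (nat_lit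 4) (nat_lit 5) (nat_lit 4) (nat_lit 4) (nat_lit 319) (nat_lit 254) (nat_lit 207)) (XT.lf (nat_lit 0) (nat_lit 34546546289) (nat_lit 76) (nat_lit 47654301227) (nat_lit 76) (nat_lit 38516337822) (nat_lit 3) (nat_lit 4) (nat_lit 4) (nat_lit 5) (nat_lit 4) (nat_lit 4) (nat_lit 320) (nat_lit 254) (nat_lit 206))) (XT.nd (nat_lit 78) (nat_lit 0) (nat_lit 0) (XT.lf (nat_lit 0) (nat_lit 47129160682) (nat_lit 76) (nat_lit 45994864431) (nat_lit 76) (nat_lit 36839638178) (nat_lit 3) (nat_lit 4) (nat_lit 4) (nat_lit 5) (nat_lit 4) (nat_lit 4) (nat_lit 321) (nat_lit 254) (nat_lit 205)) (XT.lf (nat_lit 0) (nat_lit 60685140494) (nat_lit 76) (nat_lit 44218660265) (nat_lit 76) (nat_lit 35047449893) (nat_lit 3) (nat_lit 4) (nat_lit 4) (nat_lit 5) (nat_lit 4) (nat_lit 4) (nat_lit 322) (nat_lit 254) (nat_lit 204)))))) (XT.nd (nat_lit 546) (nat_lit 152) (nat_lit 0) (XT.nd (nat_lit 234) (nat_lit 0) (nat_lit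 0) (XT.nd (nat_lit 78) (nat_lit 0) (nat_lit 0) (XT.lf (nat_lit 0) (nat_lit 75294817456) (nat_lit 76) (nat_lit 42315163074) (nat_lit 76) (nat_lit 33129152592) (nat_lit 3) (nat_lit 4) (nat_lit 4) (nat_lit 5) (nat_lit 4) (nat_lit 4) (nat_lit 323) (nat_lit 254) (nat_lit 203)) (XT.nd (nat_lit 78) (nat_lit 0) (nat_lit 0) (XT.lf (nat_lit 0) (nat_lit 91044767432) (nat_lit 76) (nat_lit 40273092874) (nat_lit 76) (nat_lit 31073378586) (nat_lit 3) (nat_lit 4) (nat_lit 4) (nat_lit 5) (nat_lit 4) (nat_lit 4) (nat_lit 324) (nat_lit 254) (nat_lit 202)) (XT.lf (nat_lit 0) (nat_lit 108028323459) (nat_lit 76) (nat_lit 38080348509) (nat_lit 76) (nat_lit 28867945512) (nat_lit 3) (nat_lit 4) (nat_lit 4) (nat_lit 5) (nat_lit 4) (nat_lit 4) (nat_lit 325) (nat_lit 254) (nat_lit 201)))) (XT.nd (nat_lit 156) (nat_lit 0) (nat_lit 0) (XT.nd (nat_lit 78) (nat_lit 0) (nat_lit 0) (XT.lf (nat_lit 0) (nat_lit 126346128832)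 (nat_lit 76) (nat_lit 35723935939) (nat_lit 76) (nat_lit 26499784137) (nat_lit 3) (nat_lit 4) (nat_lit 4) (nat_lit 5) (nat_lit 4) (nat_lit 4) (nat_lit 326) (nat_lit 254) (nat_lit 200)) (XT.lf (nat_lit 0) (nat_lit 146106733508) (nat_lit 76) (nat_lit 33189891236) (nat_lit 76) (nat_lit 23954860912) (nat_lit 3) (nat_lit 4) (nat_lit 4) (nat_lit 5) (nat_lit 4) (nat_lit 4) (nat_lit 327) (nat_lit 254) (nat_lit 199))) (XT.nd (nat_lit 78) (nat_lit 0) (nat_lit 0) (XT.lf (nat_lit 0) (nat_lit 167427237368) (nat_lit 76) (nat_lit 30463197839) (nat_lit 76) (nat_lit 21218094809) (nat_lit 3) (nat_lit 4) (nat_lit 4) (nat_lit 5) (nat_lit 4) (nat_lit 4) (nat_lit 328) (nat_lit 254) (nat_lit 198)) (XT.lf (nat_lit 0) (nat_lit 190433984137) (nat_lit 76) (nat_lit 27527697566) (nat_lit 76) (nat_lit 18273267956) (nat_lit 3) (nat_lit 4) (nat_lit 4) (nat_lit 5) (nat_lit 4) (nat_lit 4) (nat_lit 329) (nat_lit 254)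 (nat_lit 197))))) (XT.nd (nat_lit 312) (nat_lit 152) (nat_lit 0) (XT.nd (nat_lit 156) (nat_lit 0) (nat_lit 0) (XT.nd (nat_lit 78) (nat_lit 0) (nat_lit 0) (XT.lf (nat_lit 0) (nat_lit 215263310094) (nat_lit 76) (nat_lit 24365994860) (nat_lit 76) (nat_lit 15102929528) (nat_lit 3) (nat_lit 4) (nat_lit 4) (nat_lit 5) (nat_lit 4) (nat_lit 4) (nat_lit 330) (nat_lit 254) (nat_lit 196)) (XT.lf (nat_lit 0) (nat_lit 242062351984) (nat_lit 76) (nat_lit 20959353704) (nat_lit 76) (nat_lit 11688292332) (nat_lit 3) (nat_lit 4) (nat_lit 4) (nat_lit 5) (nat_lit 4) (nat_lit 4) (nat_lit 331) (nat_lit 254) (nat_lit 195))) (XT.nd (nat_lit 78) (nat_lit 0) (nat_lit 0) (XT.lf (nat_lit 0) (nat_lit 270989918944) (nat_lit 76) (nat_lit 17287586594) (nat_lit 76) (nat_lit 8009121484) (nat_lit 3) (nat_lit 4) (nat_lit 4) (nat_lit 5) (nat_lit 4) (nat_lit 4) (nat_lit 332) (nat_lit 254) (nat_lit 194)) (XT.lf (nat_lit 0)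 (nat_lit 302217433594) (nat_lit 76) (nat_lit 13328934913) (nat_lit 76) (nat_lit 4043614487) (nat_lit 3) (nat_lit 4) (nat_lit 4) (nat_lit 5) (nat_lit 4) (nat_lit 4) (nat_lit 333) (nat_lit 254) (nat_lit 193)))) (XT.nd (nat_lit 156) (nat_lit 0) (nat_lit 0) (XT.nd (nat_lit 78) (nat_lit 76) (nat_lit 0) (XT.lf (nat_lit 0) (nat_lit 220135986) (nat_lit 152) (nat_lit 8833785087) (nat_lit 76) (nat_lit 335703792977) (nat_lit 2) (nat_lit 5) (nat_lit 4) (nat_lit 5) (nat_lit 3) (nat_lit 4) (nat_lit 334) (nat_lit 254) (nat_lit 192)) (XT.lf (nat_lit 0) (nat_lit 284724199) (nat_lit 76) (nat_lit 4322136120) (nat_lit 152) (nat_lit 367323577869) (nat_lit 1) (nat_lit 5) (nat_lit 2) (nat_lit 5) (nat_lit 3) (nat_lit 4) (nat_lit 335) (nat_lit 254) (nat_lit 191))) (XT.nd (nat_lit 78) (nat_lit 0) (nat_lit 0) (XT.lf (nat_lit 0) (nat_lit 9604815217) (nat_lit 152) (nat_lit 390660406851) (nat_lit 0) (nat_lit 990938146)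 (nat_lit 1) (nat_lit 5) (nat_lit 3) (nat_lit 4) (nat_lit 1) (nat_lit 4) (nat_lit 336) (nat_lit 254) (nat_lit 190)) (XT.lf (nat_lit 0) (nat_lit 15108880623) (nat_lit 152) (nat_lit 411320222626) (nat_lit 0) (nat_lit 6490337940) (nat_lit 1) (nat_lit 5) (nat_lit 3) (nat_lit 4) (nat_lit 1) (nat_lit 4) (nat_lit 337) (nat_lit 254) (nat_lit 189))))))) (XT.nd (nat_lit 1170) (nat_lit 0) (nat_lit 0) (XT.nd (nat_lit 546) (nat_lit 0) (nat_lit 0) (XT.nd (nat_lit 234) (nat_lit 0) (nat_lit 0) (XT.nd (nat_lit 78) (nat_lit 0) (nat_lit 0) (XT.lf (nat_lit 0) (nat_lit 21047725744) (nat_lit 152) (nat_lit 433643642375) (nat_lit 0) (nat_lit 12424863050) (nat_lit 1) (nat_lit 5) (nat_lit 3) (nat_lit 4) (nat_lit 1) (nat_lit 4) (nat_lit 338) (nat_lit 254) (nat_lit 188)) (XT.nd (nat_lit 78) (nat_lit 0) (nat_lit 0) (XT.lf (nat_lit 0) (nat_lit 27456543736) (nat_lit 152) (nat_lit 457762953030) (nat_lit 0) (nat_lit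 18829681032) (nat_lit 1) (nat_lit 5) (nat_lit 3) (nat_lit 4) (nat_lit 1) (nat_lit 4) (nat_lit 339) (nat_lit 254) (nat_lit 187)) (XT.lf (nat_lit 0) (nat_lit 34373312780) (nat_lit 152) (nat_lit 483821083840) (nat_lit 0) (nat_lit 25742746363) (nat_lit 1) (nat_lit 5) (nat_lit 3) (nat_lit 4) (nat_lit 1) (nat_lit 4) (nat_lit 340) (nat_lit 254) (nat_lit 186)))) (XT.nd (nat_lit 156) (nat_lit 0) (nat_lit 0) (XT.nd (nat_lit 78) (nat_lit 0) (nat_lit 0) (XT.lf (nat_lit 0) (nat_lit 41839021137) (nat_lit 152) (nat_lit 511972453357) (nat_lit 0) (nat_lit 33205025356) (nat_lit 1) (nat_lit 5) (nat_lit 3) (nat_lit 4) (nat_lit 1) (nat_lit 4) (nat_lit 341) (nat_lit 254) (nat_lit 185)) (XT.lf (nat_lit 0) (nat_lit 49897910042) (nat_lit 152) (nat_lit 542383884511) (nat_lit 0) (nat_lit 41260738924) (nat_lit 1) (nat_lit 5) (nat_lit 3) (nat_lit 4) (nat_lit 1) (nat_lit 4) (nat_lit 342) (nat_lit 254) (nat_lit 184)))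 (XT.nd (nat_lit 78) (nat_lit 0) (nat_lit 0) (XT.lf (nat_lit 0) (nat_lit 58597735874) (nat_lit 152) (nat_lit 575235593191) (nat_lit 0) (nat_lit 49957624629) (nat_lit 1) (nat_lit 5) (nat_lit 3) (nat_lit 4) (nat_lit 1) (nat_lit 4) (nat_lit 343) (nat_lit 254) (nat_lit 183)) (XT.lf (nat_lit 0) (nat_lit 67990053155) (nat_lit 152) (nat_lit 610722256190) (nat_lit 0) (nat_lit 59347219570) (nat_lit 1) (nat_lit 5) (nat_lit 3) (nat_lit 4) (nat_lit 1) (nat_lit 4) (nat_lit 344) (nat_lit 254) (nat_lit 182))))) (XT.nd (nat_lit 312) (nat_lit 0) (nat_lit 0) (XT.nd (nat_lit 156) (nat_lit 0) (nat_lit 0) (XT.nd (nat_lit 78) (nat_lit 0) (nat_lit 0) (XT.lf (nat_lit 0) (nat_lit 78130520063) (nat_lit 152) (nat_lit 649054164843) (nat_lit 0) (nat_lit 69485165793) (nat_lit 1) (nat_lit 5) (nat_lit 3) (nat_lit 4) (nat_lit 1) (nat_lit 4) (nat_lit 345) (nat_lit 254) (nat_lit 181)) (XT.lf (nat_lit 0) (nat_lit 89079228252)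 (nat_lit 152) (nat_lit 690458471203) (nat_lit 0) (nat_lit 80431540015) (nat_lit 1) (nat_lit 5) (nat_lit 3) (nat_lit 4) (nat_lit 1) (nat_lit 4) (nat_lit 346) (nat_lit 254) (nat_lit 180))) (XT.nd (nat_lit 78) (nat_lit 0) (nat_lit 0) (XT.lf (nat_lit 0) (nat_lit 100901058958) (nat_lit 152) (nat_lit 735180534120) (nat_lit 0) (nat_lit 92251209640) (nat_lit 1) (nat_lit 5) (nat_lit 3) (nat_lit 4) (nat_lit 1) (nat_lit 4) (nat_lit 347) (nat_lit 254) (nat_lit 179)) (XT.lf (nat_lit 0) (nat_lit 113666067472) (nat_lit 152) (nat_lit 783485373228) (nat_lit 0) (nat_lit 105014217153) (nat_lit 1) (nat_lit 5) (nat_lit 3) (nat_lit 4) (nat_lit 1) (nat_lit 4) (nat_lit 348) (nat_lit 254) (nat_lit 178)))) (XT.nd (nat_lit 156) (nat_lit 0) (nat_lit 0) (XT.nd (nat_lit 78) (nat_lit 0) (nat_lit 0) (XT.lf (nat_lit 0) (nat_lit 127449898290) (nat_lit 152) (nat_lit 835659239424) (nat_lit 0) (nat_lit 118796195192) (nat_lit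 1) (nat_lit 5) (nat_lit 3) (nat_lit 4) (nat_lit 1) (nat_lit 4) (nat_lit 349) (nat_lit 254) (nat_lit 177)) (XT.lf (nat_lit 0) (nat_lit 142334233373) (nat_lit 152) (nat_lit 892011311176) (nat_lit 0) (nat_lit 133678814739) (nat_lit 1) (nat_lit 5) (nat_lit 3) (nat_lit 4) (nat_lit 1) (nat_lit 4) (nat_lit 350) (nat_lit 254) (nat_lit 176))) (XT.nd (nat_lit 78) (nat_lit 0) (nat_lit 0) (XT.lf (nat_lit 0) (nat_lit 158407276186) (nat_lit 152) (nat_lit 952875526686) (nat_lit 0) (nat_lit 149750269094) (nat_lit 1) (nat_lit 5) (nat_lit 3) (nat_lit 4) (nat_lit 1) (nat_lit 4) (nat_lit 351) (nat_lit 254) (nat_lit 175)) (XT.lf (nat_lit 0) (nat_lit 175764274393) (nat_lit 152) (nat_lit 1018612562786) (nat_lit 0) (nat_lit 167105796504) (nat_lit 1) (nat_lit 5) (nat_lit 3) (nat_lit 4) (nat_lit 1) (nat_lit 4) (nat_lit 352) (nat_lit 254) (nat_lit 174)))))) (XT.nd (nat_lit 624) (nat_lit 0) (nat_lit 0) (XT.nd (nat_lit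 312) (nat_lit 0) (nat_lit 0) (XT.nd (nat_lit 156) (nat_lit 0) (nat_lit 0) (XT.nd (nat_lit 78) (nat_lit 0) (nat_lit 0) (XT.lf (nat_lit 0) (nat_lit 194508084277) (nat_lit 152) (nat_lit 1089611972284) (nat_lit 0) (nat_lit 185848244541) (nat_lit 1) (nat_lit 5) (nat_lit 3) (nat_lit 4) (nat_lit 1) (nat_lit 4) (nat_lit 353) (nat_lit 254) (nat_lit 173)) (XT.lf (nat_lit 0) (nat_lit 214749780268) (nat_lit 152) (nat_lit 1166294492421) (nat_lit 0) (nat_lit 206088679562) (nat_lit 1) (nat_lit 5) (nat_lit 3) (nat_lit 4) (nat_lit 1) (nat_lit 4) (nat_lit 354) (nat_lit 254) (nat_lit 172))) (XT.nd (nat_lit 78) (nat_lit 0) (nat_lit 0) (XT.lf (nat_lit 0) (nat_lit 236609313158) (nat_lit 152) (nat_lit 1249114538130) (nat_lit 0) (nat_lit 227947044887) (nat_lit 1) (nat_lit 5) (nat_lit 3) (nat_lit 4) (nat_lit 1) (nat_lit 4) (nat_lit 355) (nat_lit 254) (nat_lit 171)) (XT.lf (nat_lit 0) (nat_lit 260216220918) (nat_lit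 152) (nat_lit 1338562894869) (nat_lit 0) (nat_lit 251552871568) (nat_lit 1) (nat_lit 5) (nat_lit 3) (nat_lit 4) (nat_lit 1) (nat_lit 4) (nat_lit 356) (nat_lit 254) (nat_lit 170)))) (XT.nd (nat_lit 156) (nat_lit 0) (nat_lit 0) (XT.nd (nat_lit 78) (nat_lit 0) (nat_lit 0) (XT.lf (nat_lit 0) (nat_lit 285710396336) (nat_lit 152) (nat_lit 1435169626972) (nat_lit 0) (nat_lit 277046045988) (nat_lit 1) (nat_lit 5) (nat_lit 3) (nat_lit 4) (nat_lit 1) (nat_lit 4) (nat_lit 357) (nat_lit 254) (nat_lit 169)) (XT.lf (nat_lit 0) (nat_lit 313242916006) (nat_lit 152) (nat_lit 1539507218780) (nat_lit 0) (nat_lit 304577638807) (nat_lit 1) (nat_lit 5) (nat_lit 3) (nat_lit 4) (nat_lit 1) (nat_lit 4) (nat_lit 358) (nat_lit 254) (nat_lit 168))) (XT.nd (nat_lit 78) (nat_lit 0) (nat_lit 0) (XT.lf (nat_lit 0) (nat_lit 342976935601) (nat_lit 152) (nat_lit 1652193967131) (nat_lit 0) (nat_lit 334310800207) (nat_lit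 1) (nat_lit 5) (nat_lit 3) (nat_lit 4) (nat_lit 1) (nat_lit 4) (nat_lit 359) (nat_lit 254) (nat_lit 167)) (XT.lf (nat_lit 0) (nat_lit 375088656719) (nat_lit 152) (nat_lit 1773897645350) (nat_lit 0) (nat_lit 366421726700) (nat_lit 1) (nat_lit 5) (nat_lit 3) (nat_lit 4) (nat_lit 1) (nat_lit 4) (nat_lit 360) (nat_lit 254) (nat_lit 166))))) (XT.nd (nat_lit 312) (nat_lit 0) (nat_lit 0) (XT.nd (nat_lit 156) (nat_lit 0) (nat_lit 0) (XT.nd (nat_lit 78) (nat_lit 0) (nat_lit 0) (XT.lf (nat_lit 0) (nat_lit 409768371039) (nat_lit 152) (nat_lit 1905339460418) (nat_lit 0) (nat_lit 401100705256) (nat_lit 1) (nat_lit 5) (nat_lit 3) (nat_lit 4) (nat_lit 1) (nat_lit 4) (nat_lit 361) (nat_lit 254) (nat_lit 165)) (XT.lf (nat_lit 0) (nat_lit 447221587981) (nat_lit 152) (nat_lit 2047298326795) (nat_lit 0) (nat_lit 438553240935) (nat_lit 1) (nat_lit 5) (nat_lit 3) (nat_lit 4) (nat_lit 1) (nat_lit 4) (nat_lit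 362) (nat_lit 254) (nat_lit 164))) (XT.nd (nat_lit 78) (nat_lit 0) (nat_lit 0) (XT.lf (nat_lit 0) (nat_lit 487670252533) (nat_lit 152) (nat_lit 2200615482209) (nat_lit 0) (nat_lit 479001274688) (nat_lit 1) (nat_lit 5) (nat_lit 3) (nat_lit 4) (nat_lit 1) (nat_lit 4) (nat_lit 363) (nat_lit 254) (nat_lit 163)) (XT.lf (nat_lit 0) (nat_lit 531354060485) (nat_lit 152) (nat_lit 2366199472764) (nat_lit 0) (nat_lit 522684498568) (nat_lit 1) (nat_lit 5) (nat_lit 3) (nat_lit 4) (nat_lit 1) (nat_lit 4) (nat_lit 364) (nat_lit 254) (nat_lit 162)))) (XT.nd (nat_lit 156) (nat_lit 0) (nat_lit 0) (XT.nd (nat_lit 78) (nat_lit 0) (nat_lit 0) (XT.lf (nat_lit 0) (nat_lit 578531878849) (nat_lit 152) (nat_lit 2545031536924) (nat_lit 0) (nat_lit 569861776123) (nat_lit 1) (nat_lit 5) (nat_lit 3) (nat_lit 4) (nat_lit 1) (nat_lit 4) (nat_lit 365) (nat_lit 254) (nat_lit 161)) (XT.lf (nat_lit 0) (nat_lit 629483279879)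 (nat_lit 152) (nat_lit 2738171420254) (nat_lit 0) (nat_lit 620812676405) (nat_lit 1) (nat_lit 5) (nat_lit 3) (nat_lit 4) (nat_lit 1) (nat_lit 4) (nat_lit 366) (nat_lit 254) (nat_lit 160))) (XT.nd (nat_lit 78) (nat_lit 0) (nat_lit 0) (XT.lf (nat_lit 0) (nat_lit 684510197806) (nat_lit 152) (nat_lit 2946763655396) (nat_lit 0) (nat_lit 675839130675) (nat_lit 1) (nat_lit 5) (nat_lit 3) (nat_lit 4) (nat_lit 1) (nat_lit 4) (nat_lit 367) (nat_lit 254) (nat_lit 159)) (XT.lf (nat_lit 0) (nat_lit 743938718067) (nat_lit 152) (nat_lit 3172044344484) (nat_lit 0) (nat_lit 735267221626) (nat_lit 1) (nat_lit 5) (nat_lit 3) (nat_lit 4) (nat_lit 1) (nat_lit 4) (nat_lit 368) (nat_lit 254) (nat_lit 158))))))))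
noncomputable def xc41 : XT := (XT.nd (nat_lit 35178) (nat_lit 0) (nat_lit 152) (XT.nd (nat_lit 34008) (nat_lit 0) (nat_lit 608) (XT.nd (nat_lit 33384) (nat_lit 0) (nat_lit 1520) (XT.nd (nat_lit 33072) (nat_lit 0) (nat_lit 2432) (XT.nd (nat_lit 32916) (nat_lit 0) (nat_lit 3192) (XT.lf (nat_lit 0) (nat_lit 808121009674) (nat_lit 152) (nat_lit 3415348484194) (nat_lit 0) (nat_lit 799449115721) (nat_lit 1) (nat_lit 5) (nat_lit 3) (nat_lit 4) (nat_lit 1) (nat_lit 4) (nat_lit 369) (nat_lit 254) (nat_lit 157)) (XT.nd (nat_lit 78) (nat_lit 532) (nat_lit 0) (XT.lf (nat_lit 0) (nat_lit 3019623067) (nat_lit 380) (nat_lit 294271302) (nat_lit 380) (nat_lit 294271302) (nat_lit 50) (nat_lit 4) (nat_lit 55) (nat_lit 5) (nat_lit 55) (nat_lit 4) (nat_lit 270) (nat_lit 255) (nat_lit 255)) (XT.lf (nat_lit 0) (nat_lit 2669577096) (nat_lit 532) (nat_lit 3543958977) (nat_lit 0) (nat_lit 1170961411) (nat_lit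 43) (nat_lit 5) (nat_lit 50) (nat_lit 4) (nat_lit 43) (nat_lit 4) (nat_lit 271) (nat_lit 255) (nat_lit 254)))) (XT.nd (nat_lit 156) (nat_lit 456) (nat_lit 0) (XT.nd (nat_lit 78) (nat_lit 76) (nat_lit 0) (XT.lf (nat_lit 0) (nat_lit 1537424970) (nat_lit 228) (nat_lit 4463533022) (nat_lit 228) (nat_lit 1577310221) (nat_lit 40) (nat_lit 4) (nat_lit 43) (nat_lit 5) (nat_lit 43) (nat_lit 4) (nat_lit 272) (nat_lit 255) (nat_lit 253)) (XT.lf (nat_lit 0) (nat_lit 1583956953) (nat_lit 304) (nat_lit 876413742) (nat_lit 76) (nat_lit 5335419040) (nat_lit 39) (nat_lit 5) (nat_lit 43) (nat_lit 5) (nat_lit 40) (nat_lit 4) (nat_lit 273) (nat_lit 255) (nat_lit 252))) (XT.nd (nat_lit 78) (nat_lit 228) (nat_lit 0) (XT.lf (nat_lit 0) (nat_lit 4635208230) (nat_lit 228) (nat_lit 170513828) (nat_lit 304) (nat_lit 3231024212) (nat_lit 36) (nat_lit 5) (nat_lit 39) (nat_lit 5) (nat_lit 40) (nat_lit 4) (nat_lit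 274) (nat_lit 255) (nat_lit 251)) (XT.lf (nat_lit 0) (nat_lit 2126187118) (nat_lit 228) (nat_lit 6080641683) (nat_lit 228) (nat_lit 97103795) (nat_lit 33) (nat_lit 4) (nat_lit 36) (nat_lit 5) (nat_lit 36) (nat_lit 4) (nat_lit 275) (nat_lit 255) (nat_lit 250))))) (XT.nd (nat_lit 312) (nat_lit 456) (nat_lit 0) (XT.nd (nat_lit 156) (nat_lit 228) (nat_lit 0) (XT.nd (nat_lit 78) (nat_lit 152) (nat_lit 0) (XT.lf (nat_lit 0) (nat_lit 3016893931) (nat_lit 304) (nat_lit 652780598) (nat_lit 76) (nat_lit 4925572650) (nat_lit 32) (nat_lit 5) (nat_lit 36) (nat_lit 5) (nat_lit 33) (nat_lit 4) (nat_lit 276) (nat_lit 255) (nat_lit 249)) (XT.lf (nat_lit 0) (nat_lit 5326836581) (nat_lit 152) (nat_lit 985271310) (nat_lit 228) (nat_lit 2603110697) (nat_lit 30) (nat_lit 5) (nat_lit 32) (nat_lit 5) (nat_lit 33) (nat_lit 4) (nat_lit 277) (nat_lit 255) (nat_lit 248))) (XT.nd (nat_lit 78) (nat_lit 0) (nat_lit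 0) (XT.lf (nat_lit 0) (nat_lit 514994793) (nat_lit 228) (nat_lit 6902887920) (nat_lit 76) (nat_lit 1847365484) (nat_lit 27) (nat_lit 5) (nat_lit 30) (nat_lit 5) (nat_lit 28) (nat_lit 4) (nat_lit 278) (nat_lit 255) (nat_lit 247)) (XT.lf (nat_lit 0) (nat_lit 3686684905) (nat_lit 228) (nat_lit 999921514) (nat_lit 76) (nat_lit 4956112289) (nat_lit 27) (nat_lit 5) (nat_lit 30) (nat_lit 5) (nat_lit 28) (nat_lit 4) (nat_lit 279) (nat_lit 255) (nat_lit 246)))) (XT.nd (nat_lit 156) (nat_lit 76) (nat_lit 0) (XT.nd (nat_lit 78) (nat_lit 228) (nat_lit 0) (XT.lf (nat_lit 0) (nat_lit 5402993627) (nat_lit 152) (nat_lit 1671020951) (nat_lit 228) (nat_lit 2979817464) (nat_lit 25) (nat_lit 5) (nat_lit 27) (nat_lit 5) (nat_lit 28) (nat_lit 4) (nat_lit 280) (nat_lit 255) (nat_lit 245)) (XT.lf (nat_lit 0) (nat_lit 164370666) (nat_lit 228) (nat_lit 8830403091) (nat_lit 76) (nat_lit 1507621940) (nat_lit 22)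 (nat_lit 5) (nat_lit 25) (nat_lit 5) (nat_lit 23) (nat_lit 4) (nat_lit 281) (nat_lit 255) (nat_lit 244))) (XT.nd (nat_lit 78) (nat_lit 76) (nat_lit 0) (XT.lf (nat_lit 0) (nat_lit 3411763129) (nat_lit 228) (nat_lit 2586047026) (nat_lit 76) (nat_lit 4982145491) (nat_lit 22) (nat_lit 5) (nat_lit 25) (nat_lit 5) (nat_lit 23) (nat_lit 4) (nat_lit 282) (nat_lit 255) (nat_lit 243)) (XT.lf (nat_lit 0) (nat_lit 4132723600) (nat_lit 76) (nat_lit 2736345678) (nat_lit 152) (nat_lit 4630933527) (nat_lit 21) (nat_lit 5) (nat_lit 22) (nat_lit 5) (nat_lit 23) (nat_lit 4) (nat_lit 283) (nat_lit 255) (nat_lit 242)))))) (XT.nd (nat_lit 546) (nat_lit 304) (nat_lit 0) (XT.nd (nat_lit 234) (nat_lit 304) (nat_lit 0) (XT.nd (nat_lit 78) (nat_lit 304) (nat_lit 0) (XT.lf (nat_lit 0) (nat_lit 10548779130) (nat_lit 152) (nat_lit 776452468) (nat_lit 0) (nat_lit 741027155) (nat_lit 21) (nat_lit 5) (nat_lit 23) (nat_lit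 4) (nat_lit 21) (nat_lit 4) (nat_lit 284) (nat_lit 255) (nat_lit 241)) (XT.nd (nat_lit 78) (nat_lit 76) (nat_lit 0) (XT.lf (nat_lit 0) (nat_lit 1844293312) (nat_lit 228) (nat_lit 6346649004) (nat_lit 76) (nat_lit 4476231766) (nat_lit 18) (nat_lit 5) (nat_lit 21) (nat_lit 5) (nat_lit 19) (nat_lit 4) (nat_lit 285) (nat_lit 255) (nat_lit 240)) (XT.lf (nat_lit 0) (nat_lit 478907373) (nat_lit 76) (nat_lit 4813849262) (nat_lit 152) (nat_lit 8028489025) (nat_lit 17) (nat_lit 5) (nat_lit 18) (nat_lit 5) (nat_lit 19) (nat_lit 4) (nat_lit 286) (nat_lit 255) (nat_lit 239)))) (XT.nd (nat_lit 156) (nat_lit 152) (nat_lit 0) (XT.nd (nat_lit 78) (nat_lit 152) (nat_lit 0) (XT.lf (nat_lit 0) (nat_lit 7996981236) (nat_lit 76) (nat_lit 1064813462) (nat_lit 152) (nat_lit 4962471315) (nat_lit 17) (nat_lit 5) (nat_lit 18) (nat_lit 5) (nat_lit 19) (nat_lit 4) (nat_lit 287) (nat_lit 255) (nat_lit 238)) (XT.lf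 (nat_lit 0) (nat_lit 1110348000) (nat_lit 152) (nat_lit 11999285563) (nat_lit 152) (nat_lit 1675896345) (nat_lit 15) (nat_lit 4) (nat_lit 17) (nat_lit 5) (nat_lit 17) (nat_lit 4) (nat_lit 288) (nat_lit 255) (nat_lit 237))) (XT.nd (nat_lit 78) (nat_lit 76) (nat_lit 0) (XT.lf (nat_lit 0) (nat_lit 1856355761) (nat_lit 228) (nat_lit 6717406391) (nat_lit 76) (nat_lit 7024367696) (nat_lit 14) (nat_lit 5) (nat_lit 17) (nat_lit 5) (nat_lit 15) (nat_lit 4) (nat_lit 289) (nat_lit 255) (nat_lit 236)) (XT.lf (nat_lit 0) (nat_lit 590729213) (nat_lit 76) (nat_lit 4892773809) (nat_lit 152) (nat_lit 10996669996) (nat_lit 13) (nat_lit 5) (nat_lit 14) (nat_lit 5) (nat_lit 15) (nat_lit 4) (nat_lit 290) (nat_lit 255) (nat_lit 235))))) (XT.nd (nat_lit 312) (nat_lit 152) (nat_lit 0) (XT.nd (nat_lit 156) (nat_lit 152) (nat_lit 0) (XT.nd (nat_lit 78) (nat_lit 0) (nat_lit 0) (XT.lf (nat_lit 0) (nat_lit 8678125596)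 (nat_lit 76) (nat_lit 798752958) (nat_lit 152) (nat_lit 7949951915) (nat_lit 13) (nat_lit 5) (nat_lit 14) (nat_lit 5) (nat_lit 15) (nat_lit 4) (nat_lit 291) (nat_lit 255) (nat_lit 234)) (XT.lf (nat_lit 0) (nat_lit 13775436903) (nat_lit 152) (nat_lit 1303686564) (nat_lit 0) (nat_lit 3371365345) (nat_lit 13) (nat_lit 5) (nat_lit 15) (nat_lit 4) (nat_lit 13) (nat_lit 4) (nat_lit 292) (nat_lit 255) (nat_lit 233))) (XT.nd (nat_lit 78) (nat_lit 76) (nat_lit 0) (XT.lf (nat_lit 0) (nat_lit 6894550494) (nat_lit 76) (nat_lit 11615987209) (nat_lit 76) (nat_lit 1038205532) (nat_lit 12) (nat_lit 4) (nat_lit 13) (nat_lit 5) (nat_lit 13) (nat_lit 4) (nat_lit 293) (nat_lit 255) (nat_lit 232)) (XT.lf (nat_lit 0) (nat_lit 2688297749) (nat_lit 152) (nat_lit 5146965062) (nat_lit 76) (nat_lit 12898674460) (nat_lit 11) (nat_lit 5) (nat_lit 13) (nat_lit 5) (nat_lit 12) (nat_lit 4) (nat_lit 294) (nat_lit 255)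 (nat_lit 231)))) (XT.nd (nat_lit 156) (nat_lit 76) (nat_lit 0) (XT.nd (nat_lit 78) (nat_lit 0) (nat_lit 0) (XT.lf (nat_lit 0) (nat_lit 2925276731) (nat_lit 76) (nat_lit 3715506702) (nat_lit 152) (nat_lit 15372382023) (nat_lit 10) (nat_lit 5) (nat_lit 11) (nat_lit 5) (nat_lit 12) (nat_lit 4) (nat_lit 295) (nat_lit 255) (nat_lit 230)) (XT.lf (nat_lit 0) (nat_lit 10986246077) (nat_lit 152) (nat_lit 11624932324) (nat_lit 0) (nat_lit 777496536) (nat_lit 10) (nat_lit 5) (nat_lit 12) (nat_lit 4) (nat_lit 10) (nat_lit 4) (nat_lit 296) (nat_lit 255) (nat_lit 229))) (XT.nd (nat_lit 78) (nat_lit 76) (nat_lit 0) (XT.lf (nat_lit 0) (nat_lit 15696914513) (nat_lit 152) (nat_lit 3806043350) (nat_lit 0) (nat_lit 5369940783) (nat_lit 10) (nat_lit 5) (nat_lit 12) (nat_lit 4) (nat_lit 10) (nat_lit 4) (nat_lit 297) (nat_lit 255) (nat_lit 228)) (XT.lf (nat_lit 0) (nat_lit 4741667806) (nat_lit 76) (nat_lit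 16083715207) (nat_lit 76) (nat_lit 5647274635) (nat_lit 9) (nat_lit 4) (nat_lit 10) (nat_lit 5) (nat_lit 10) (nat_lit 4) (nat_lit 298) (nat_lit 255) (nat_lit 227))))))) (XT.nd (nat_lit 1170) (nat_lit 76) (nat_lit 0) (XT.nd (nat_lit 546) (nat_lit 152) (nat_lit 0) (XT.nd (nat_lit 234) (nat_lit 76) (nat_lit 0) (XT.nd (nat_lit 78) (nat_lit 152) (nat_lit 0) (XT.lf (nat_lit 0) (nat_lit 14059152077) (nat_lit 76) (nat_lit 12338225918) (nat_lit 76) (nat_lit 1800427160) (nat_lit 9) (nat_lit 4) (nat_lit 10) (nat_lit 5) (nat_lit 10) (nat_lit 4) (nat_lit 299) (nat_lit 255) (nat_lit 226)) (XT.nd (nat_lit 78) (nat_lit 76) (nat_lit 0) (XT.lf (nat_lit 0) (nat_lit 2169071019) (nat_lit 152) (nat_lit 6119981209) (nat_lit 76) (nat_lit 21772827423) (nat_lit 8) (nat_lit 5) (nat_lit 10) (nat_lit 5) (nat_lit 9) (nat_lit 4) (nat_lit 300) (nat_lit 255) (nat_lit 225)) (XT.lf (nat_lit 0) (nat_lit 2503435341) (nat_lit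 76) (nat_lit 3853287052) (nat_lit 152) (nat_lit 25714841260) (nat_lit 7) (nat_lit 5) (nat_lit 8) (nat_lit 5) (nat_lit 9) (nat_lit 4) (nat_lit 301) (nat_lit 255) (nat_lit 224)))) (XT.nd (nat_lit 156) (nat_lit 76) (nat_lit 0) (XT.nd (nat_lit 78) (nat_lit 0) (nat_lit 0) (XT.lf (nat_lit 0) (nat_lit 11011931558) (nat_lit 152) (nat_lit 22206687440) (nat_lit 0) (nat_lit 1012849488) (nat_lit 7) (nat_lit 5) (nat_lit 9) (nat_lit 4) (nat_lit 7) (nat_lit 4) (nat_lit 302) (nat_lit 255) (nat_lit 223)) (XT.lf (nat_lit 0) (nat_lit 16082536585) (nat_lit 152) (nat_lit 14463765034) (nat_lit 0) (nat_lit 6014471837) (nat_lit 7) (nat_lit 5) (nat_lit 9) (nat_lit 4) (nat_lit 7) (nat_lit 4) (nat_lit 303) (nat_lit 255) (nat_lit 222))) (XT.nd (nat_lit 78) (nat_lit 76) (nat_lit 0) (XT.lf (nat_lit 0) (nat_lit 21505913858) (nat_lit 152) (nat_lit 6200805464) (nat_lit 0) (nat_lit 11373976259) (nat_lit 7) (nat_lit 5)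 (nat_lit 9) (nat_lit 4) (nat_lit 7) (nat_lit 4) (nat_lit 304) (nat_lit 255) (nat_lit 221)) (XT.lf (nat_lit 0) (nat_lit 2769709018) (nat_lit 76) (nat_lit 24611104459) (nat_lit 76) (nat_lit 14420025332) (nat_lit 6) (nat_lit 4) (nat_lit 7) (nat_lit 5) (nat_lit 7) (nat_lit 4) (nat_lit 305) (nat_lit 255) (nat_lit 220))))) (XT.nd (nat_lit 312) (nat_lit 76) (nat_lit 0) (XT.nd (nat_lit 156) (nat_lit 76) (nat_lit 0) (XT.nd (nat_lit 78) (nat_lit 0) (nat_lit 0) (XT.lf (nat_lit 0) (nat_lit 12720806017) (nat_lit 76) (nat_lit 21126949895) (nat_lit 76) (nat_lit 10881110094) (nat_lit 6) (nat_lit 4) (nat_lit 7) (nat_lit 5) (nat_lit 7) (nat_lit 4) (nat_lit 306) (nat_lit 255) (nat_lit 219)) (XT.lf (nat_lit 0) (nat_lit 23384931570) (nat_lit 76) (nat_lit 17403149799) (nat_lit 76) (nat_lit 7106605670) (nat_lit 6) (nat_lit 4) (nat_lit 7) (nat_lit 5) (nat_lit 7) (nat_lit 4) (nat_lit 307) (nat_lit 255) (nat_lit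 218))) (XT.nd (nat_lit 78) (nat_lit 76) (nat_lit 0) (XT.lf (nat_lit 0) (nat_lit 34825280495) (nat_lit 76) (nat_lit 13417637207) (nat_lit 76) (nat_lit 3074144626) (nat_lit 6) (nat_lit 4) (nat_lit 7) (nat_lit 5) (nat_lit 7) (nat_lit 4) (nat_lit 308) (nat_lit 255) (nat_lit 217)) (XT.lf (nat_lit 0) (nat_lit 1178130821) (nat_lit 152) (nat_lit 7936451262) (nat_lit 76) (nat_lit 45899304446) (nat_lit 5) (nat_lit 5) (nat_lit 7) (nat_lit 5) (nat_lit 6) (nat_lit 4) (nat_lit 309) (nat_lit 255) (nat_lit 216)))) (XT.nd (nat_lit 156) (nat_lit 0) (nat_lit 0) (XT.nd (nat_lit 78) (nat_lit 0) (nat_lit 0) (XT.lf (nat_lit 0) (nat_lit 1216463068) (nat_lit 76) (nat_lit 4381458647) (nat_lit 152) (nat_lit 53402698648) (nat_lit 4) (nat_lit 5) (nat_lit 5) (nat_lit 5) (nat_lit 6) (nat_lit 4) (nat_lit 310) (nat_lit 255) (nat_lit 215)) (XT.lf (nat_lit 0) (nat_lit 10575964217) (nat_lit 152) (nat_lit 51827350437) (nat_lit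 0) (nat_lit 886627832) (nat_lit 4) (nat_lit 5) (nat_lit 6) (nat_lit 4) (nat_lit 4) (nat_lit 4) (nat_lit 311) (nat_lit 255) (nat_lit 214))) (XT.nd (nat_lit 78) (nat_lit 0) (nat_lit 0) (XT.lf (nat_lit 0) (nat_lit 16033157325) (nat_lit 152) (nat_lit 45570933210) (nat_lit 0) (nat_lit 6311868613) (nat_lit 4) (nat_lit 5) (nat_lit 6) (nat_lit 4) (nat_lit 4) (nat_lit 4) (nat_lit 312) (nat_lit 255) (nat_lit 213)) (XT.lf (nat_lit 0) (nat_lit 21896465776) (nat_lit 152) (nat_lit 38872456363) (nat_lit 0) (nat_lit 12145591575) (nat_lit 4) (nat_lit 5) (nat_lit 6) (nat_lit 4) (nat_lit 4) (nat_lit 4) (nat_lit 313) (nat_lit 255) (nat_lit 212)))))) (XT.nd (nat_lit 624) (nat_lit 0) (nat_lit 0) (XT.nd (nat_lit 312) (nat_lit 76) (nat_lit 0) (XT.nd (nat_lit 156) (nat_lit 0) (nat_lit 0) (XT.nd (nat_lit 78) (nat_lit 0) (nat_lit 0) (XT.lf (nat_lit 0) (nat_lit 28200635100) (nat_lit 152) (nat_lit 31692225220) (nat_lit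 0) (nat_lit 18422366928) (nat_lit 4) (nat_lit 5) (nat_lit 6) (nat_lit 4) (nat_lit 4) (nat_lit 4) (nat_lit 314) (nat_lit 255) (nat_lit 211)) (XT.lf (nat_lit 0) (nat_lit 34983023339) (nat_lit 152) (nat_lit 23987690261) (nat_lit 0) (nat_lit 25179390379) (nat_lit 4) (nat_lit 5) (nat_lit 6) (nat_lit 4) (nat_lit 4) (nat_lit 4) (nat_lit 315) (nat_lit 255) (nat_lit 210))) (XT.nd (nat_lit 78) (nat_lit 0) (nat_lit 0) (XT.lf (nat_lit 0) (nat_lit 42283822422) (nat_lit 152) (nat_lit 15713194983) (nat_lit 0) (nat_lit 32456703548) (nat_lit 4) (nat_lit 5) (nat_lit 6) (nat_lit 4) (nat_lit 4) (nat_lit 4) (nat_lit 316) (nat_lit 255) (nat_lit 209)) (XT.lf (nat_lit 0) (nat_lit 50146296344) (nat_lit 152) (nat_lit 6819705341) (nat_lit 0) (nat_lit 40297431253) (nat_lit 4) (nat_lit 5) (nat_lit 6) (nat_lit 4) (nat_lit 4) (nat_lit 4) (nat_lit 317) (nat_lit 255) (nat_lit 208)))) (XT.nd (nat_lit 156) (nat_lit 0)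 (nat_lit 0) (XT.nd (nat_lit 78) (nat_lit 0) (nat_lit 0) (XT.lf (nat_lit 0) (nat_lit 2890052980) (nat_lit 76) (nat_lit 55796490407) (nat_lit 76) (nat_lit 45927489929) (nat_lit 3) (nat_lit 4) (nat_lit 4) (nat_lit 5) (nat_lit 4) (nat_lit 4) (nat_lit 318) (nat_lit 255) (nat_lit 207)) (XT.lf (nat_lit 0) (nat_lit 13725659164) (nat_lit 76) (nat_lit 54350686274) (nat_lit 76) (nat_lit 44463041920) (nat_lit 3) (nat_lit 4) (nat_lit 4) (nat_lit 5) (nat_lit 4) (nat_lit 4) (nat_lit 319) (nat_lit 255) (nat_lit 206))) (XT.nd (nat_lit 78) (nat_lit 0) (nat_lit 0) (XT.lf (nat_lit 0) (nat_lit 25392210610) (nat_lit 76) (nat_lit 52806484390) (nat_lit 76) (nat_lit 42901577188) (nat_lit 3) (nat_lit 4) (nat_lit 4) (nat_lit 5) (nat_lit 4) (nat_lit 4) (nat_lit 320) (nat_lit 255) (nat_lit 205)) (XT.lf (nat_lit 0) (nat_lit 37958842439) (nat_lit 76) (nat_lit 51154733928) (nat_lit 76) (nat_lit 41233842607) (nat_lit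 3) (nat_lit 4) (nat_lit 4) (nat_lit 5) (nat_lit 4) (nat_lit 4) (nat_lit 321) (nat_lit 255) (nat_lit 204))))) (XT.nd (nat_lit 312) (nat_lit 0) (nat_lit 0) (XT.nd (nat_lit 156) (nat_lit 0) (nat_lit 0) (XT.nd (nat_lit 78) (nat_lit 0) (nat_lit 0) (XT.lf (nat_lit 0) (nat_lit 51500023581) (nat_lit 76) (nat_lit 49385646736) (nat_lit 76) (nat_lit 39449955305) (nat_lit 3) (nat_lit 4) (nat_lit 4) (nat_lit 5) (nat_lit 4) (nat_lit 4) (nat_lit 322) (nat_lit 255) (nat_lit 203)) (XT.lf (nat_lit 0) (nat_lit 66095998070) (nat_lit 76) (nat_lit 47488739337) (nat_lit 76) (nat_lit 37539344100) (nat_lit 3) (nat_lit 4) (nat_lit 4) (nat_lit 5) (nat_lit 4) (nat_lit 4) (nat_lit 323) (nat_lit 255) (nat_lit 202))) (XT.nd (nat_lit 78) (nat_lit 0) (nat_lit 0) (XT.lf (nat_lit 0) (nat_lit 81833260571) (nat_lit 76) (nat_lit 45452770796) (nat_lit 76) (nat_lit 35490686851) (nat_lit 3) (nat_lit 4) (nat_lit 4) (nat_lit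 5) (nat_lit 4) (nat_lit 4) (nat_lit 324) (nat_lit 255) (nat_lit 201)) (XT.lf (nat_lit 0) (nat_lit 98805068937) (nat_lit 76) (nat_lit 43265676116) (nat_lit 76) (nat_lit 33291843366) (nat_lit 3) (nat_lit 4) (nat_lit 4) (nat_lit 5) (nat_lit 4) (nat_lit 4) (nat_lit 325) (nat_lit 255) (nat_lit 200)))) (XT.nd (nat_lit 156) (nat_lit 0) (nat_lit 0) (XT.nd (nat_lit 78) (nat_lit 0) (nat_lit 0) (XT.lf (nat_lit 0) (nat_lit 117111996845) (nat_lit 76) (nat_lit 40914494734) (nat_lit 76) (nat_lit 30929783461) (nat_lit 3) (nat_lit 4) (nat_lit 4) (nat_lit 5) (nat_lit 4) (nat_lit 4) (nat_lit 326) (nat_lit 255) (nat_lit 199)) (XT.lf (nat_lit 0) (nat_lit 136862529795) (nat_lit 76) (nat_lit 38385293725) (nat_lit 76) (nat_lit 28390509746) (nat_lit 3) (nat_lit 4) (nat_lit 4) (nat_lit 5) (nat_lit 4) (nat_lit 4) (nat_lit 327) (nat_lit 255) (nat_lit 198))) (XT.nd (nat_lit 78) (nat_lit 0) (nat_lit 0) (XT.lf (nat_lit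 0) (nat_lit 158173707982) (nat_lit 76) (nat_lit 35663085230) (nat_lit 76) (nat_lit 25658974671) (nat_lit 3) (nat_lit 4) (nat_lit 4) (nat_lit 5) (nat_lit 4) (nat_lit 4) (nat_lit 328) (nat_lit 255) (nat_lit 197)) (XT.lf (nat_lit 0) (nat_lit 181171819870) (nat_lit 76) (nat_lit 32731737644) (nat_lit 76) (nat_lit 22718991363) (nat_lit 3) (nat_lit 4) (nat_lit 4) (nat_lit 5) (nat_lit 4) (nat_lit 4) (nat_lit 329) (nat_lit 255) (nat_lit 196))))))))
noncomputable def xc42 : XT := (XT.nd (nat_lit 2340) (nat_lit 0) (nat_lit 0) (XT.nd (nat_lit 1170) (nat_lit 0) (nat_lit 0) (XT.nd (nat_lit 546) (nat_lit 0) (nat_lit 0) (XT.nd (nat_lit 234) (nat_lit 152) (nat_lit 0) (XT.nd (nat_lit 78) (nat_lit 0) (nat_lit 0) (XT.lf (nat_lit 0) (nat_lit 205993150565) (nat_lit 76) (nat_lit 29573880017) (nat_lit 76) (nat_lit 19553137698) (nat_lit 3) (nat_lit 4) (nat_lit 4) (nat_lit 5) (nat_lit 4) (nat_lit 4) (nat_lit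 330) (nat_lit 255) (nat_lit 195)) (XT.nd (nat_lit 78) (nat_lit 0) (nat_lit 0) (XT.lf (nat_lit 0) (nat_lit 232784789435) (nat_lit 76) (nat_lit 26170799121) (nat_lit 76) (nat_lit 16142653061) (nat_lit 3) (nat_lit 4) (nat_lit 4) (nat_lit 5) (nat_lit 4) (nat_lit 4) (nat_lit 331) (nat_lit 255) (nat_lit 194)) (XT.lf (nat_lit 0) (nat_lit 261705501748) (nat_lit 76) (nat_lit 22502328548) (nat_lit 76) (nat_lit 12467327174) (nat_lit 3) (nat_lit 4) (nat_lit 4) (nat_lit 5) (nat_lit 4) (nat_lit 4) (nat_lit 332) (nat_lit 255) (nat_lit 193)))) (XT.nd (nat_lit 156) (nat_lit 152) (nat_lit 0) (XT.nd (nat_lit 78) (nat_lit 0) (nat_lit 0) (XT.lf (nat_lit 0) (nat_lit 292926669502) (nat_lit 76) (nat_lit 18546729215) (nat_lit 76) (nat_lit 8505380327) (nat_lit 3) (nat_lit 4) (nat_lit 4) (nat_lit 5) (nat_lit 4) (nat_lit 4) (nat_lit 333) (nat_lit 255) (nat_lit 192)) (XT.lf (nat_lit 0) (nat_lit 326633307024) (nat_lit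 76) (nat_lit 14280560532) (nat_lit 76) (nat_lit 4233334317) (nat_lit 3) (nat_lit 4) (nat_lit 4) (nat_lit 5) (nat_lit 4) (nat_lit 4) (nat_lit 334) (nat_lit 255) (nat_lit 191))) (XT.nd (nat_lit 78) (nat_lit 76) (nat_lit 0) (XT.lf (nat_lit 0) (nat_lit 355411351) (nat_lit 152) (nat_lit 9313412573) (nat_lit 76) (nat_lit 362660028424) (nat_lit 2) (nat_lit 5) (nat_lit 4) (nat_lit 5) (nat_lit 3) (nat_lit 4) (nat_lit 335) (nat_lit 255) (nat_lit 190)) (XT.lf (nat_lit 0) (nat_lit 528828714) (nat_lit 76) (nat_lit 4560851939) (nat_lit 152) (nat_lit 396585990067) (nat_lit 1) (nat_lit 5) (nat_lit 2) (nat_lit 5) (nat_lit 3) (nat_lit 4) (nat_lit 336) (nat_lit 255) (nat_lit 189))))) (XT.nd (nat_lit 312) (nat_lit 0) (nat_lit 0) (XT.nd (nat_lit 156) (nat_lit 0) (nat_lit 0) (XT.nd (nat_lit 78) (nat_lit 0) (nat_lit 0) (XT.lf (nat_lit 0) (nat_lit 10481391346) (nat_lit 152) (nat_lit 421702170486) (nat_lit 0)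 (nat_lit 1164379626) (nat_lit 1) (nat_lit 5) (nat_lit 3) (nat_lit 4) (nat_lit 1) (nat_lit 4) (nat_lit 337) (nat_lit 255) (nat_lit 188)) (XT.lf (nat_lit 0) (nat_lit 16417767843) (nat_lit 152) (nat_lit 444030406258) (nat_lit 0) (nat_lit 7096756113) (nat_lit 1) (nat_lit 5) (nat_lit 3) (nat_lit 4) (nat_lit 1) (nat_lit 4) (nat_lit 338) (nat_lit 255) (nat_lit 187))) (XT.nd (nat_lit 78) (nat_lit 0) (nat_lit 0) (XT.lf (nat_lit 0) (nat_lit 22824300072) (nat_lit 152) (nat_lit 468154176193) (nat_lit 0) (nat_lit 13499584629) (nat_lit 1) (nat_lit 5) (nat_lit 3) (nat_lit 4) (nat_lit 1) (nat_lit 4) (nat_lit 339) (nat_lit 255) (nat_lit 186)) (XT.lf (nat_lit 0) (nat_lit 29738952669) (nat_lit 152) (nat_lit 494216435965) (nat_lit 0) (nat_lit 20410807862) (nat_lit 1) (nat_lit 5) (nat_lit 3) (nat_lit 4) (nat_lit 1) (nat_lit 4) (nat_lit 340) (nat_lit 255) (nat_lit 185)))) (XT.nd (nat_lit 156) (nat_lit 0)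 (nat_lit 0) (XT.nd (nat_lit 78) (nat_lit 0) (nat_lit 0) (XT.lf (nat_lit 0) (nat_lit 37202701353) (nat_lit 152) (nat_lit 522371628595) (nat_lit 0) (nat_lit 27871381208) (nat_lit 1) (nat_lit 5) (nat_lit 3) (nat_lit 4) (nat_lit 1) (nat_lit 4) (nat_lit 341) (nat_lit 255) (nat_lit 184)) (XT.lf (nat_lit 0) (nat_lit 45259775745) (nat_lit 152) (nat_lit 552786599670) (nat_lit 0) (nat_lit 35925515474) (nat_lit 1) (nat_lit 5) (nat_lit 3) (nat_lit 4) (nat_lit 1) (nat_lit 4) (nat_lit 342) (nat_lit 255) (nat_lit 183))) (XT.nd (nat_lit 78) (nat_lit 0) (nat_lit 0) (XT.lf (nat_lit 0) (nat_lit 53957921473) (nat_lit 152) (nat_lit 585641586054) (nat_lit 0) (nat_lit 44620938861) (nat_lit 1) (nat_lit 5) (nat_lit 3) (nat_lit 4) (nat_lit 1) (nat_lit 4) (nat_lit 343) (nat_lit 255) (nat_lit 182)) (XT.lf (nat_lit 0) (nat_lit 63348683102) (nat_lit 152) (nat_lit 621131283964) (nat_lit 0) (nat_lit 54009179806) (nat_lit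 1) (nat_lit 5) (nat_lit 3) (nat_lit 4) (nat_lit 1) (nat_lit 4) (nat_lit 344) (nat_lit 255) (nat_lit 181)))))) (XT.nd (nat_lit 546) (nat_lit 0) (nat_lit 0) (XT.nd (nat_lit 234) (nat_lit 0) (nat_lit 0) (XT.nd (nat_lit 78) (nat_lit 0) (nat_lit 0) (XT.lf (nat_lit 0) (nat_lit 73487709591) (nat_lit 152) (nat_lit 659466002720) (nat_lit 0) (nat_lit 64145872327) (nat_lit 1) (nat_lit 5) (nat_lit 3) (nat_lit 4) (nat_lit 1) (nat_lit 4) (nat_lit 345) (nat_lit 255) (nat_lit 180)) (XT.nd (nat_lit 78) (nat_lit 0) (nat_lit 0) (XT.lf (nat_lit 0) (nat_lit 84435084060) (nat_lit 152) (nat_lit 700872911026) (nat_lit 0) (nat_lit 75091085715) (nat_lit 1) (nat_lit 5) (nat_lit 3) (nat_lit 4) (nat_lit 1) (nat_lit 4) (nat_lit 346) (nat_lit 255) (nat_lit 179)) (XT.lf (nat_lit 0) (nat_lit 96255679838) (nat_lit 152) (nat_lit 745597383153) (nat_lit 0) (nat_lit 86909680493) (nat_lit 1) (nat_lit 5) (nat_lit 3) (nat_lit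 4) (nat_lit 1) (nat_lit 4) (nat_lit 347) (nat_lit 255) (nat_lit 178)))) (XT.nd (nat_lit 156) (nat_lit 0) (nat_lit 0) (XT.nd (nat_lit 78) (nat_lit 0) (nat_lit 0) (XT.lf (nat_lit 0) (nat_lit 109019544902) (nat_lit 152) (nat_lit 793904453011) (nat_lit 0) (nat_lit 99671692778) (nat_lit 1) (nat_lit 5) (nat_lit 3) (nat_lit 4) (nat_lit 1) (nat_lit 4) (nat_lit 348) (nat_lit 255) (nat_lit 177)) (XT.lf (nat_lit 0) (nat_lit 122802316970) (nat_lit 152) (nat_lit 846080384717) (nat_lit 0) (nat_lit 113452749310) (nat_lit 1) (nat_lit 5) (nat_lit 3) (nat_lit 4) (nat_lit 1) (nat_lit 4) (nat_lit 349) (nat_lit 255) (nat_lit 176))) (XT.nd (nat_lit 78) (nat_lit 0) (nat_lit 0) (XT.lf (nat_lit 0) (nat_lit 137685671727) (nat_lit 152) (nat_lit 902434368977) (nat_lit 0) (nat_lit 128334515608) (nat_lit 1) (nat_lit 5) (nat_lit 3) (nat_lit 4) (nat_lit 1) (nat_lit 4) (nat_lit 350) (nat_lit 255) (nat_lit 175)) (XT.lf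 (nat_lit 0) (nat_lit 153757806833) (nat_lit 152) (nat_lit 963300355328) (nat_lit 0) (nat_lit 144405179918) (nat_lit 1) (nat_lit 5) (nat_lit 3) (nat_lit 4) (nat_lit 1) (nat_lit 4) (nat_lit 351) (nat_lit 255) (nat_lit 174))))) (XT.nd (nat_lit 312) (nat_lit 0) (nat_lit 0) (XT.nd (nat_lit 156) (nat_lit 0) (nat_lit 0) (XT.nd (nat_lit 78) (nat_lit 0) (nat_lit 0) (XT.lf (nat_lit 0) (nat_lit 171113964569) (nat_lit 152) (nat_lit 1029039031097) (nat_lit 0) (nat_lit 161759975807) (nat_lit 1) (nat_lit 5) (nat_lit 3) (nat_lit 4) (nat_lit 1) (nat_lit 4) (nat_lit 352) (nat_lit 255) (nat_lit 173)) (XT.lf (nat_lit 0) (nat_lit 189856996240) (nat_lit 152) (nat_lit 1100039958806) (nat_lit 0) (nat_lit 180501746507) (nat_lit 1) (nat_lit 5) (nat_lit 3) (nat_lit 4) (nat_lit 1) (nat_lit 4) (nat_lit 353) (nat_lit 255) (nat_lit 172))) (XT.nd (nat_lit 78) (nat_lit 0) (nat_lit 0) (XT.lf (nat_lit 0) (nat_lit 210097971663)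 (nat_lit 152) (nat_lit 1176723884693) (nat_lit 0) (nat_lit 200741554366) (nat_lit 1) (nat_lit 5) (nat_lit 3) (nat_lit 4) (nat_lit 1) (nat_lit 4) (nat_lit 354) (nat_lit 255) (nat_lit 171)) (XT.lf (nat_lit 0) (nat_lit 231956837360) (nat_lit 152) (nat_lit 1259545232024) (nat_lit 0) (nat_lit 222599338984) (nat_lit 1) (nat_lit 5) (nat_lit 3) (nat_lit 4) (nat_lit 1) (nat_lit 4) (nat_lit 355) (nat_lit 255) (nat_lit 170)))) (XT.nd (nat_lit 156) (nat_lit 0) (nat_lit 0) (XT.nd (nat_lit 78) (nat_lit 0) (nat_lit 0) (XT.lf (nat_lit 0) (nat_lit 255563127350) (nat_lit 152) (nat_lit 1348994793967) (nat_lit 0) (nat_lit 246204627975) (nat_lit 1) (nat_lit 5) (nat_lit 3) (nat_lit 4) (nat_lit 1) (nat_lit 4) (nat_lit 356) (nat_lit 255) (nat_lit 169)) (XT.lf (nat_lit 0) (nat_lit 281056730758) (nat_lit 152) (nat_lit 1445602642001) (nat_lit 0) (nat_lit 271697304532) (nat_lit 1) (nat_lit 5) (nat_lit 3) (nat_lit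 4) (nat_lit 1) (nat_lit 4) (nat_lit 357) (nat_lit 255) (nat_lit 168))) (XT.nd (nat_lit 78) (nat_lit 0) (nat_lit 0) (XT.lf (nat_lit 0) (nat_lit 308588720789) (nat_lit 152) (nat_lit 1549941267078) (nat_lit 0) (nat_lit 299228436369) (nat_lit 1) (nat_lit 5) (nat_lit 3) (nat_lit 4) (nat_lit 1) (nat_lit 4) (nat_lit 358) (nat_lit 255) (nat_lit 167)) (XT.lf (nat_lit 0) (nat_lit 338322249978) (nat_lit 152) (nat_lit 1662628972159) (nat_lit 0) (nat_lit 328961170933) (nat_lit 1) (nat_lit 5) (nat_lit 3) (nat_lit 4) (nat_lit 1) (nat_lit 4) (nat_lit 359) (nat_lit 255) (nat_lit 166))))))) (XT.nd (nat_lit 33852) (nat_lit 0) (nat_lit 1216) (XT.nd (nat_lit 546) (nat_lit 0) (nat_lit 0) (XT.nd (nat_lit 234) (nat_lit 0) (nat_lit 0) (XT.nd (nat_lit 78) (nat_lit 0) (nat_lit 0) (XT.lf (nat_lit 0) (nat_lit 370433517015) (nat_lit 152) (nat_lit 1784333536240) (nat_lit 0) (nat_lit 361071702206) (nat_lit 1) (nat_lit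 5) (nat_lit 3) (nat_lit 4) (nat_lit 1) (nat_lit 4) (nat_lit 360) (nat_lit 255) (nat_lit 165)) (XT.nd (nat_lit 78) (nat_lit 0) (nat_lit 0) (XT.lf (nat_lit 0) (nat_lit 405112810891) (nat_lit 152) (nat_lit 1915776171550) (nat_lit 0) (nat_lit 395750314819) (nat_lit 1) (nat_lit 5) (nat_lit 3) (nat_lit 4) (nat_lit 1) (nat_lit 4) (nat_lit 361) (nat_lit 255) (nat_lit 164)) (XT.lf (nat_lit 0) (nat_lit 442565638532) (nat_lit 152) (nat_lit 2057735797411) (nat_lit 0) (nat_lit 433202511662) (nat_lit 1) (nat_lit 5) (nat_lit 3) (nat_lit 4) (nat_lit 1) (nat_lit 4) (nat_lit 362) (nat_lit 255) (nat_lit 163)))) (XT.nd (nat_lit 156) (nat_lit 0) (nat_lit 0) (XT.nd (nat_lit 78) (nat_lit 0) (nat_lit 0) (XT.lf (nat_lit 0) (nat_lit 483013942621) (nat_lit 152) (nat_lit 2211053656050) (nat_lit 0) (nat_lit 473650231677) (nat_lit 1) (nat_lit 5) (nat_lit 3) (nat_lit 4) (nat_lit 1) (nat_lit 4) (nat_lit 363) (nat_lit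 255) (nat_lit 162)) (XT.lf (nat_lit 0) (nat_lit 526697416812) (nat_lit 152) (nat_lit 2376638297740) (nat_lit 0) (nat_lit 517333165059) (nat_lit 1) (nat_lit 5) (nat_lit 3) (nat_lit 4) (nat_lit 1) (nat_lit 4) (nat_lit 364) (nat_lit 255) (nat_lit 161))) (XT.nd (nat_lit 78) (nat_lit 0) (nat_lit 0) (XT.lf (nat_lit 0) (nat_lit 573874926135) (nat_lit 152) (nat_lit 2555470964802) (nat_lit 0) (nat_lit 564510173634) (nat_lit 1) (nat_lit 5) (nat_lit 3) (nat_lit 4) (nat_lit 1) (nat_lit 4) (nat_lit 365) (nat_lit 255) (nat_lit 160)) (XT.lf (nat_lit 0) (nat_lit 624826041019) (nat_lit 152) (nat_lit 2748611406375) (nat_lit 0) (nat_lit 615460824862) (nat_lit 1) (nat_lit 5) (nat_lit 3) (nat_lit 4) (nat_lit 1) (nat_lit 4) (nat_lit 366) (nat_lit 255) (nat_lit 159))))) (XT.nd (nat_lit 32994) (nat_lit 0) (nat_lit 2964) (XT.nd (nat_lit 156) (nat_lit 0) (nat_lit 0) (XT.nd (nat_lit 78) (nat_lit 0) (nat_lit 0)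 (XT.lf (nat_lit 0) (nat_lit 679852693994) (nat_lit 152) (nat_lit 2957204158409) (nat_lit 0) (nat_lit 670487048525) (nat_lit 1) (nat_lit 5) (nat_lit 3) (nat_lit 4) (nat_lit 1) (nat_lit 4) (nat_lit 367) (nat_lit 255) (nat_lit 158)) (XT.lf (nat_lit 0) (nat_lit 739280968930) (nat_lit 152) (nat_lit 3182485326100) (nat_lit 0) (nat_lit 729914925952) (nat_lit 1) (nat_lit 5) (nat_lit 3) (nat_lit 4) (nat_lit 1) (nat_lit 4) (nat_lit 368) (nat_lit 255) (nat_lit 157))) (XT.nd (nat_lit 32760) (nat_lit 0) (nat_lit 4104) (XT.lf (nat_lit 0) (nat_lit 803463033383) (nat_lit 152) (nat_lit 3425789908962) (nat_lit 0) (nat_lit 794096622340) (nat_lit 1) (nat_lit 5) (nat_lit 3) (nat_lit 4) (nat_lit 1) (nat_lit 4) (nat_lit 369) (nat_lit 255) (nat_lit 156)) (XT.lf (nat_lit 0) (nat_lit 874481227) (nat_lit 380) (nat_lit 1715924383) (nat_lit 0) (nat_lit 874481227) (nat_lit 55) (nat_lit 5) (nat_lit 60) (nat_lit 4)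 (nat_lit 55) (nat_lit 4) (nat_lit 268) (nat_lit 256) (nat_lit 256)))) (XT.nd (nat_lit 156) (nat_lit 684) (nat_lit 0) (XT.nd (nat_lit 78) (nat_lit 76) (nat_lit 0) (XT.lf (nat_lit 0) (nat_lit 1088464980) (nat_lit 380) (nat_lit 3862744915) (nat_lit 380) (nat_lit 2114759580) (nat_lit 50) (nat_lit 4) (nat_lit 55) (nat_lit 5) (nat_lit 55) (nat_lit 4) (nat_lit 269) (nat_lit 256) (nat_lit 255)) (XT.lf (nat_lit 0) (nat_lit 979640913) (nat_lit 456) (nat_lit 1328837176) (nat_lit 76) (nat_lit 4915847905) (nat_lit 49) (nat_lit 5) (nat_lit 55) (nat_lit 5) (nat_lit 50) (nat_lit 4) (nat_lit 270) (nat_lit 256) (nat_lit 254))) (XT.nd (nat_lit 78) (nat_lit 228) (nat_lit 0) (XT.lf (nat_lit 0) (nat_lit 3577180442) (nat_lit 456) (nat_lit 481611097) (nat_lit 532) (nat_lit 3344976086) (nat_lit 43) (nat_lit 5) (nat_lit 49) (nat_lit 5) (nat_lit 50) (nat_lit 4) (nat_lit 271) (nat_lit 256) (nat_lit 253)) (XT.lf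 (nat_lit 0) (nat_lit 1125095433) (nat_lit 228) (nat_lit 6136351367) (nat_lit 228) (nat_lit 346802223) (nat_lit 40) (nat_lit 4) (nat_lit 43) (nat_lit 5) (nat_lit 43) (nat_lit 4) (nat_lit 272) (nat_lit 256) (nat_lit 252)))))) (XT.nd (nat_lit 624) (nat_lit 608) (nat_lit 0) (XT.nd (nat_lit 312) (nat_lit 532) (nat_lit 0) (XT.nd (nat_lit 156) (nat_lit 304) (nat_lit 0) (XT.nd (nat_lit 78) (nat_lit 228) (nat_lit 0) (XT.lf (nat_lit 0) (nat_lit 2647782750) (nat_lit 304) (nat_lit 1471810470) (nat_lit 76) (nat_lit 3712573751) (nat_lit 39) (nat_lit 5) (nat_lit 43) (nat_lit 5) (nat_lit 40) (nat_lit 4) (nat_lit 273) (nat_lit 256) (nat_lit 251)) (XT.lf (nat_lit 0) (nat_lit 3888092726) (nat_lit 228) (nat_lit 1866146978) (nat_lit 304) (nat_lit 2328436005) (nat_lit 36) (nat_lit 5) (nat_lit 39) (nat_lit 5) (nat_lit 40) (nat_lit 4) (nat_lit 274) (nat_lit 256) (nat_lit 250))) (XT.nd (nat_lit 78) (nat_lit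 0) (nat_lit 0) (XT.lf (nat_lit 0) (nat_lit 604759613) (nat_lit 304) (nat_lit 7168635664) (nat_lit 76) (nat_lit 588032320) (nat_lit 32) (nat_lit 5) (nat_lit 36) (nat_lit 5) (nat_lit 33) (nat_lit 4) (nat_lit 275) (nat_lit 256) (nat_lit 249)) (XT.lf (nat_lit 0) (nat_lit 3622184427) (nat_lit 304) (nat_lit 1766819908) (nat_lit 76) (nat_lit 3271148265) (nat_lit 32) (nat_lit 5) (nat_lit 36) (nat_lit 5) (nat_lit 33) (nat_lit 4) (nat_lit 276) (nat_lit 256) (nat_lit 248)))) (XT.nd (nat_lit 156) (nat_lit 152) (nat_lit 0) (XT.nd (nat_lit 78) (nat_lit 228) (nat_lit 0) (XT.lf (nat_lit 0) (nat_lit 4036378736) (nat_lit 152) (nat_lit 2765062455) (nat_lit 228) (nat_lit 2188200152) (nat_lit 30) (nat_lit 5) (nat_lit 32) (nat_lit 5) (nat_lit 33) (nat_lit 4) (nat_lit 277) (nat_lit 256) (nat_lit 247)) (XT.lf (nat_lit 0) (nat_lit 743643985) (nat_lit 228) (nat_lit 8509053743) (nat_lit 76) (nat_lit 99621815)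 (nat_lit 27) (nat_lit 5) (nat_lit 30) (nat_lit 5) (nat_lit 28) (nat_lit 4) (nat_lit 278) (nat_lit 256) (nat_lit 246))) (XT.nd (nat_lit 78) (nat_lit 152) (nat_lit 0) (XT.lf (nat_lit 0) (nat_lit 3834546706) (nat_lit 228) (nat_lit 2722706664) (nat_lit 76) (nat_lit 3179190796) (nat_lit 27) (nat_lit 5) (nat_lit 30) (nat_lit 5) (nat_lit 28) (nat_lit 4) (nat_lit 279) (nat_lit 256) (nat_lit 245)) (XT.lf (nat_lit 0) (nat_lit 3475822726) (nat_lit 152) (nat_lit 3624902008) (nat_lit 228) (nat_lit 3056701863) (nat_lit 25) (nat_lit 5) (nat_lit 27) (nat_lit 5) (nat_lit 28) (nat_lit 4) (nat_lit 280) (nat_lit 256) (nat_lit 244))))) (XT.nd (nat_lit 312) (nat_lit 304) (nat_lit 0) (XT.nd (nat_lit 156) (nat_lit 76) (nat_lit 0) (XT.nd (nat_lit 78) (nat_lit 228) (nat_lit 0) (XT.lf (nat_lit 0) (nat_lit 10106163103) (nat_lit 152) (nat_lit 447147330) (nat_lit 228) (nat_lit 65108935) (nat_lit 25) (nat_lit 5) (nat_lit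 27) (nat_lit 5) (nat_lit 28) (nat_lit 4) (nat_lit 281) (nat_lit 256) (nat_lit 243)) (XT.lf (nat_lit 0) (nat_lit 3089716945) (nat_lit 228) (nat_lit 5013150656) (nat_lit 76) (nat_lit 3001043352) (nat_lit 22) (nat_lit 5) (nat_lit 25) (nat_lit 5) (nat_lit 23) (nat_lit 4) (nat_lit 282) (nat_lit 256) (nat_lit 242))) (XT.nd (nat_lit 78) (nat_lit 0) (nat_lit 0) (XT.lf (nat_lit 0) (nat_lit 1469159445) (nat_lit 76) (nat_lit 4947356410) (nat_lit 152) (nat_lit 5218012908) (nat_lit 21) (nat_lit 5) (nat_lit 22) (nat_lit 5) (nat_lit 23) (nat_lit 4) (nat_lit 283) (nat_lit 256) (nat_lit 241)) (XT.lf (nat_lit 0) (nat_lit 8545897988) (nat_lit 76) (nat_lit 1467621633) (nat_lit 152) (nat_lit 2194002017) (nat_lit 21) (nat_lit 5) (nat_lit 22) (nat_lit 5) (nat_lit 23) (nat_lit 4) (nat_lit 284) (nat_lit 256) (nat_lit 240)))) (XT.nd (nat_lit 156) (nat_lit 76) (nat_lit 0) (XT.nd (nat_lit 78) (nat_lit 0) (nat_lit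 0) (XT.lf (nat_lit 0) (nat_lit 1027162620) (nat_lit 228) (nat_lit 9583177625) (nat_lit 76) (nat_lit 2213457665) (nat_lit 18) (nat_lit 5) (nat_lit 21) (nat_lit 5) (nat_lit 19) (nat_lit 4) (nat_lit 285) (nat_lit 256) (nat_lit 239)) (XT.lf (nat_lit 0) (nat_lit 4404650022) (nat_lit 228) (nat_lit 2879529138) (nat_lit 76) (nat_lit 6199464008) (nat_lit 18) (nat_lit 5) (nat_lit 21) (nat_lit 5) (nat_lit 19) (nat_lit 4) (nat_lit 286) (nat_lit 256) (nat_lit 238))) (XT.nd (nat_lit 78) (nat_lit 0) (nat_lit 0) (XT.lf (nat_lit 0) (nat_lit 4391442590) (nat_lit 76) (nat_lit 3651996060) (nat_lit 152) (nat_lit 6153733353) (nat_lit 17) (nat_lit 5) (nat_lit 18) (nat_lit 5) (nat_lit 19) (nat_lit 4) (nat_lit 287) (nat_lit 256) (nat_lit 237)) (XT.lf (nat_lit 0) (nat_lit 11948401094) (nat_lit 152) (nat_lit 2753299434) (nat_lit 0) (nat_lit 268247453) (nat_lit 17) (nat_lit 5) (nat_lit 19) (nat_lit 4) (nat_lit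 17) (nat_lit 4) (nat_lit 288) (nat_lit 256) (nat_lit 236))))))))
noncomputable def xc43 : XT := (XT.nd (nat_lit 2418) (nat_lit 152) (nat_lit 0) (XT.nd (nat_lit 1170) (nat_lit 304) (nat_lit 0) (XT.nd (nat_lit 546) (nat_lit 304) (nat_lit 0) (XT.nd (nat_lit 234) (nat_lit 152) (nat_lit 0) (XT.nd (nat_lit 78) (nat_lit 76) (nat_lit 0) (XT.lf (nat_lit 0) (nat_lit 452972120) (nat_lit 228) (nat_lit 10974302331) (nat_lit 76) (nat_lit 4367936618) (nat_lit 14) (nat_lit 5) (nat_lit 17) (nat_lit 5) (nat_lit 15) (nat_lit 4) (nat_lit 289) (nat_lit 256) (nat_lit 235)) (XT.nd (nat_lit 78) (nat_lit 76) (nat_lit 0) (XT.lf (nat_lit 0) (nat_lit 4016344074) (nat_lit 228) (nat_lit 3781313389) (nat_lit 76) (nat_lit 8884763871) (nat_lit 14) (nat_lit 5) (nat_lit 17) (nat_lit 5) (nat_lit 15) (nat_lit 4) (nat_lit 290) (nat_lit 256) (nat_lit 234)) (XT.lf (nat_lit 0) (nat_lit 4023536722) (nat_lit 76) (nat_lit 3842550426)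 (nat_lit 152) (nat_lit 9774542481) (nat_lit 13) (nat_lit 5) (nat_lit 14) (nat_lit 5) (nat_lit 15) (nat_lit 4) (nat_lit 291) (nat_lit 256) (nat_lit 233)))) (XT.nd (nat_lit 156) (nat_lit 76) (nat_lit 0) (XT.nd (nat_lit 78) (nat_lit 76) (nat_lit 0) (XT.lf (nat_lit 0) (nat_lit 12046296350) (nat_lit 152) (nat_lit 6178933323) (nat_lit 0) (nat_lit 448582018) (nat_lit 13) (nat_lit 5) (nat_lit 15) (nat_lit 4) (nat_lit 13) (nat_lit 4) (nat_lit 292) (nat_lit 256) (nat_lit 232)) (XT.lf (nat_lit 0) (nat_lit 1684546643) (nat_lit 76) (nat_lit 14929748173) (nat_lit 76) (nat_lit 3171191138) (nat_lit 12) (nat_lit 4) (nat_lit 13) (nat_lit 5) (nat_lit 13) (nat_lit 4) (nat_lit 293) (nat_lit 256) (nat_lit 231))) (XT.nd (nat_lit 78) (nat_lit 0) (nat_lit 0) (XT.lf (nat_lit 0) (nat_lit 620473889) (nat_lit 152) (nat_lit 10616899774) (nat_lit 76) (nat_lit 9740777588) (nat_lit 11) (nat_lit 5) (nat_lit 13) (nat_lit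 5) (nat_lit 12) (nat_lit 4) (nat_lit 294) (nat_lit 256) (nat_lit 230)) (XT.lf (nat_lit 0) (nat_lit 4464144716) (nat_lit 152) (nat_lit 2759961147) (nat_lit 76) (nat_lit 15042019765) (nat_lit 11) (nat_lit 5) (nat_lit 13) (nat_lit 5) (nat_lit 12) (nat_lit 4) (nat_lit 295) (nat_lit 256) (nat_lit 229))))) (XT.nd (nat_lit 312) (nat_lit 152) (nat_lit 0) (XT.nd (nat_lit 156) (nat_lit 76) (nat_lit 0) (XT.nd (nat_lit 78) (nat_lit 0) (nat_lit 0) (XT.lf (nat_lit 0) (nat_lit 5887205277) (nat_lit 76) (nat_lit 2795616626) (nat_lit 152) (nat_lit 14968994011) (nat_lit 10) (nat_lit 5) (nat_lit 11) (nat_lit 5) (nat_lit 12) (nat_lit 4) (nat_lit 296) (nat_lit 256) (nat_lit 228)) (XT.lf (nat_lit 0) (nat_lit 13291115963) (nat_lit 152) (nat_lit 9942855460) (nat_lit 0) (nat_lit 1910293305) (nat_lit 10) (nat_lit 5) (nat_lit 12) (nat_lit 4) (nat_lit 10) (nat_lit 4) (nat_lit 297) (nat_lit 256) (nat_lit 227))) (XT.nd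 (nat_lit 78) (nat_lit 76) (nat_lit 0) (XT.lf (nat_lit 0) (nat_lit 18273010452) (nat_lit 152) (nat_lit 1691942142) (nat_lit 0) (nat_lit 6790829607) (nat_lit 10) (nat_lit 5) (nat_lit 12) (nat_lit 4) (nat_lit 10) (nat_lit 4) (nat_lit 298) (nat_lit 256) (nat_lit 226)) (XT.lf (nat_lit 0) (nat_lit 7478355914) (nat_lit 76) (nat_lit 16292291785) (nat_lit 76) (nat_lit 4716260768) (nat_lit 9) (nat_lit 4) (nat_lit 10) (nat_lit 5) (nat_lit 10) (nat_lit 4) (nat_lit 299) (nat_lit 256) (nat_lit 225)))) (XT.nd (nat_lit 156) (nat_lit 76) (nat_lit 0) (XT.nd (nat_lit 78) (nat_lit 76) (nat_lit 0) (XT.lf (nat_lit 0) (nat_lit 17366620062) (nat_lit 76) (nat_lit 12327024141) (nat_lit 76) (nat_lit 664094815) (nat_lit 9) (nat_lit 4) (nat_lit 10) (nat_lit 5) (nat_lit 10) (nat_lit 4) (nat_lit 300) (nat_lit 256) (nat_lit 224)) (XT.lf (nat_lit 0) (nat_lit 3468816514) (nat_lit 152) (nat_lit 4528252371) (nat_lit 76)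 (nat_lit 24378692641) (nat_lit 8) (nat_lit 5) (nat_lit 10) (nat_lit 5) (nat_lit 9) (nat_lit 4) (nat_lit 301) (nat_lit 256) (nat_lit 223))) (XT.nd (nat_lit 78) (nat_lit 0) (nat_lit 0) (XT.lf (nat_lit 0) (nat_lit 4732345671) (nat_lit 76) (nat_lit 3224499369) (nat_lit 152) (nat_lit 26592217924) (nat_lit 7) (nat_lit 5) (nat_lit 8) (nat_lit 5) (nat_lit 9) (nat_lit 4) (nat_lit 302) (nat_lit 256) (nat_lit 222)) (XT.lf (nat_lit 0) (nat_lit 12924479552) (nat_lit 152) (nat_lit 22044032441) (nat_lit 0) (nat_lit 1918114095) (nat_lit 7) (nat_lit 5) (nat_lit 9) (nat_lit 4) (nat_lit 7) (nat_lit 4) (nat_lit 303) (nat_lit 256) (nat_lit 221)))))) (XT.nd (nat_lit 624) (nat_lit 76) (nat_lit 0) (XT.nd (nat_lit 312) (nat_lit 152) (nat_lit 0) (XT.nd (nat_lit 156) (nat_lit 76) (nat_lit 0) (XT.nd (nat_lit 78) (nat_lit 0) (nat_lit 0) (XT.lf (nat_lit 0) (nat_lit 18324318650) (nat_lit 152) (nat_lit 13825319946)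 (nat_lit 0) (nat_lit 7258811664) (nat_lit 7) (nat_lit 5) (nat_lit 9) (nat_lit 4) (nat_lit 7) (nat_lit 4) (nat_lit 304) (nat_lit 256) (nat_lit 220)) (XT.lf (nat_lit 0) (nat_lit 24110812094) (nat_lit 152) (nat_lit 5034327039) (nat_lit 0) (nat_lit 12990544434) (nat_lit 7) (nat_lit 5) (nat_lit 9) (nat_lit 4) (nat_lit 7) (nat_lit 4) (nat_lit 305) (nat_lit 256) (nat_lit 219))) (XT.nd (nat_lit 78) (nat_lit 0) (nat_lit 0) (XT.lf (nat_lit 0) (nat_lit 4611738908) (nat_lit 76) (nat_lit 25817423740) (nat_lit 76) (nat_lit 14646451752) (nat_lit 6) (nat_lit 4) (nat_lit 7) (nat_lit 5) (nat_lit 7) (nat_lit 4) (nat_lit 306) (nat_lit 256) (nat_lit 218)) (XT.lf (nat_lit 0) (nat_lit 15238890099) (nat_lit 76) (nat_lit 22111023409) (nat_lit 76) (nat_lit 10893102969) (nat_lit 6) (nat_lit 4) (nat_lit 7) (nat_lit 5) (nat_lit 7) (nat_lit 4) (nat_lit 307) (nat_lit 256) (nat_lit 217)))) (XT.nd (nat_lit 156) (nat_lit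 152) (nat_lit 0) (XT.nd (nat_lit 78) (nat_lit 0) (nat_lit 0) (XT.lf (nat_lit 0) (nat_lit 26645003504) (nat_lit 76) (nat_lit 18141621711) (nat_lit 76) (nat_lit 6880230482) (nat_lit 6) (nat_lit 4) (nat_lit 7) (nat_lit 5) (nat_lit 7) (nat_lit 4) (nat_lit 308) (nat_lit 256) (nat_lit 216)) (XT.lf (nat_lit 0) (nat_lit 38897670905) (nat_lit 76) (nat_lit 13885696266) (nat_lit 76) (nat_lit 2584054306) (nat_lit 6) (nat_lit 4) (nat_lit 7) (nat_lit 5) (nat_lit 7) (nat_lit 4) (nat_lit 309) (nat_lit 256) (nat_lit 215))) (XT.nd (nat_lit 78) (nat_lit 76) (nat_lit 0) (XT.lf (nat_lit 0) (nat_lit 1919791558) (nat_lit 152) (nat_lit 7345744711) (nat_lit 76) (nat_lit 50097218640) (nat_lit 5) (nat_lit 5) (nat_lit 7) (nat_lit 5) (nat_lit 6) (nat_lit 4) (nat_lit 310) (nat_lit 256) (nat_lit 214)) (XT.lf (nat_lit 0) (nat_lit 2508374343) (nat_lit 76) (nat_lit 4165565084) (nat_lit 152) (nat_lit 56996059439) (nat_lit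 4) (nat_lit 5) (nat_lit 5) (nat_lit 5) (nat_lit 6) (nat_lit 4) (nat_lit 311) (nat_lit 256) (nat_lit 213))))) (XT.nd (nat_lit 312) (nat_lit 76) (nat_lit 0) (XT.nd (nat_lit 156) (nat_lit 0) (nat_lit 0) (XT.nd (nat_lit 78) (nat_lit 0) (nat_lit 0) (XT.lf (nat_lit 0) (nat_lit 12016306314) (nat_lit 152) (nat_lit 54833128125) (nat_lit 0) (nat_lit 1455776689) (nat_lit 4) (nat_lit 5) (nat_lit 6) (nat_lit 4) (nat_lit 4) (nat_lit 4) (nat_lit 312) (nat_lit 256) (nat_lit 212)) (XT.lf (nat_lit 0) (nat_lit 17866055244) (nat_lit 152) (nat_lit 48160672360) (nat_lit 0) (nat_lit 7278131648) (nat_lit 4) (nat_lit 5) (nat_lit 6) (nat_lit 4) (nat_lit 4) (nat_lit 4) (nat_lit 313) (nat_lit 256) (nat_lit 211))) (XT.nd (nat_lit 78) (nat_lit 0) (nat_lit 0) (XT.lf (nat_lit 0) (nat_lit 24157669457) (nat_lit 152) (nat_lit 41004534810) (nat_lit 0) (nat_lit 13544381073) (nat_lit 4) (nat_lit 5) (nat_lit 6) (nat_lit 4)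 (nat_lit 4) (nat_lit 4) (nat_lit 314) (nat_lit 256) (nat_lit 210)) (XT.lf (nat_lit 0) (nat_lit 30928432592) (nat_lit 152) (nat_lit 33322308735) (nat_lit 0) (nat_lit 20291658294) (nat_lit 4) (nat_lit 5) (nat_lit 6) (nat_lit 4) (nat_lit 4) (nat_lit 4) (nat_lit 315) (nat_lit 256) (nat_lit 209)))) (XT.nd (nat_lit 156) (nat_lit 76) (nat_lit 0) (XT.nd (nat_lit 78) (nat_lit 0) (nat_lit 0) (XT.lf (nat_lit 0) (nat_lit 38218467691) (nat_lit 152) (nat_lit 25068469832) (nat_lit 0) (nat_lit 27559947175) (nat_lit 4) (nat_lit 5) (nat_lit 6) (nat_lit 4) (nat_lit 4) (nat_lit 4) (nat_lit 316) (nat_lit 256) (nat_lit 208)) (XT.lf (nat_lit 0) (nat_lit 46070974961) (nat_lit 152) (nat_lit 16194106462) (nat_lit 0) (nat_lit 35392319059) (nat_lit 4) (nat_lit 5) (nat_lit 6) (nat_lit 4) (nat_lit 4) (nat_lit 4) (nat_lit 317) (nat_lit 256) (nat_lit 207))) (XT.nd (nat_lit 78) (nat_lit 76) (nat_lit 0) (XT.lf (nat_lit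 0) (nat_lit 54532487779) (nat_lit 152) (nat_lit 6646629805) (nat_lit 0) (nat_lit 43835188001) (nat_lit 4) (nat_lit 5) (nat_lit 6) (nat_lit 4) (nat_lit 4) (nat_lit 4) (nat_lit 318) (nat_lit 256) (nat_lit 206)) (XT.lf (nat_lit 0) (nat_lit 3821715462) (nat_lit 76) (nat_lit 59923345330) (nat_lit 76) (nat_lit 49208782703) (nat_lit 3) (nat_lit 4) (nat_lit 4) (nat_lit 5) (nat_lit 4) (nat_lit 4) (nat_lit 319) (nat_lit 256) (nat_lit 205))))))) (XT.nd (nat_lit 1170) (nat_lit 152) (nat_lit 0) (XT.nd (nat_lit 546) (nat_lit 0) (nat_lit 0) (XT.nd (nat_lit 234) (nat_lit 0) (nat_lit 0) (XT.nd (nat_lit 78) (nat_lit 0) (nat_lit 0) (XT.lf (nat_lit 0) (nat_lit 15472284344) (nat_lit 76) (nat_lit 58386829779) (nat_lit 76) (nat_lit 47656283033) (nat_lit 3) (nat_lit 4) (nat_lit 4) (nat_lit 5) (nat_lit 4) (nat_lit 4) (nat_lit 320) (nat_lit 256) (nat_lit 204)) (XT.nd (nat_lit 78) (nat_lit 0) (nat_lit 0) (XT.lf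 (nat_lit 0) (nat_lit 28024117503) (nat_lit 76) (nat_lit 56742196292) (nat_lit 76) (nat_lit 45996849436) (nat_lit 3) (nat_lit 4) (nat_lit 4) (nat_lit 5) (nat_lit 4) (nat_lit 4) (nat_lit 321) (nat_lit 256) (nat_lit 203)) (XT.lf (nat_lit 0) (nat_lit 41551596171) (nat_lit 76) (nat_lit 54979698892) (nat_lit 76) (nat_lit 44220648231) (nat_lit 3) (nat_lit 4) (nat_lit 4) (nat_lit 5) (nat_lit 4) (nat_lit 4) (nat_lit 322) (nat_lit 256) (nat_lit 202)))) (XT.nd (nat_lit 156) (nat_lit 0) (nat_lit 0) (XT.nd (nat_lit 78) (nat_lit 0) (nat_lit 0) (XT.lf (nat_lit 0) (nat_lit 56134883186) (nat_lit 76) (nat_lit 53088893152) (nat_lit 76) (nat_lit 42317153782) (nat_lit 3) (nat_lit 4) (nat_lit 4) (nat_lit 5) (nat_lit 4) (nat_lit 4) (nat_lit 323) (nat_lit 256) (nat_lit 201)) (XT.lf (nat_lit 0) (nat_lit 71860398026) (nat_lit 76) (nat_lit 51058574295) (nat_lit 76) (nat_lit 40275086121) (nat_lit 3) (nat_lit 4)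 (nat_lit 4) (nat_lit 5) (nat_lit 4) (nat_lit 4) (nat_lit 324) (nat_lit 256) (nat_lit 200))) (XT.nd (nat_lit 78) (nat_lit 0) (nat_lit 0) (XT.lf (nat_lit 0) (nat_lit 88821328926) (nat_lit 76) (nat_lit 48876710804) (nat_lit 76) (nat_lit 38082344107) (nat_lit 3) (nat_lit 4) (nat_lit 4) (nat_lit 5) (nat_lit 4) (nat_lit 4) (nat_lit 325) (nat_lit 256) (nat_lit 199)) (XT.lf (nat_lit 0) (nat_lit 107118185108) (nat_lit 76) (nat_lit 46530373116) (nat_lit 76) (nat_lit 35725933713) (nat_lit 3) (nat_lit 4) (nat_lit 4) (nat_lit 5) (nat_lit 4) (nat_lit 4) (nat_lit 326) (nat_lit 256) (nat_lit 198))))) (XT.nd (nat_lit 312) (nat_lit 0) (nat_lit 0) (XT.nd (nat_lit 156) (nat_lit 0) (nat_lit 0) (XT.nd (nat_lit 78) (nat_lit 0) (nat_lit 0) (XT.lf (nat_lit 0) (nat_lit 126859392386) (nat_lit 76) (nat_lit 44005657008) (nat_lit 76) (nat_lit 33191891025) (nat_lit 3) (nat_lit 4) (nat_lit 4) (nat_lit 5) (nat_lit 4)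 (nat_lit 4) (nat_lit 327) (nat_lit 256) (nat_lit 197)) (XT.lf (nat_lit 0) (nat_lit 148161935691) (nat_lit 76) (nat_lit 41287601200) (nat_lit 76) (nat_lit 30465199495) (nat_lit 3) (nat_lit 4) (nat_lit 4) (nat_lit 5) (nat_lit 4) (nat_lit 4) (nat_lit 328) (nat_lit 256) (nat_lit 196))) (XT.nd (nat_lit 78) (nat_lit 0) (nat_lit 0) (XT.lf (nat_lit 0) (nat_lit 171152052317) (nat_lit 76) (nat_lit 38360098694) (nat_lit 76) (nat_lit 27529700950) (nat_lit 3) (nat_lit 4) (nat_lit 4) (nat_lit 5) (nat_lit 4) (nat_lit 4) (nat_lit 329) (nat_lit 256) (nat_lit 195)) (XT.lf (nat_lit 0) (nat_lit 195965979993) (nat_lit 76) (nat_lit 35205801327) (nat_lit 76) (nat_lit 24367999843) (nat_lit 3) (nat_lit 4) (nat_lit 4) (nat_lit 5) (nat_lit 4) (nat_lit 4) (nat_lit 330) (nat_lit 256) (nat_lit 194)))) (XT.nd (nat_lit 156) (nat_lit 0) (nat_lit 0) (XT.nd (nat_lit 78) (nat_lit 0) (nat_lit 0) (XT.lf (nat_lit 0) (nat_lit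 222750764216) (nat_lit 76) (nat_lit 31806016967) (nat_lit 76) (nat_lit 20961360168) (nat_lit 3) (nat_lit 4) (nat_lit 4) (nat_lit 5) (nat_lit 4) (nat_lit 4) (nat_lit 331) (nat_lit 256) (nat_lit 193)) (XT.lf (nat_lit 0) (nat_lit 251665129632) (nat_lit 76) (nat_lit 28140598743) (nat_lit 76) (nat_lit 17289594431) (nat_lit 3) (nat_lit 4) (nat_lit 4) (nat_lit 5) (nat_lit 4) (nat_lit 4) (nat_lit 332) (nat_lit 256) (nat_lit 192))) (XT.nd (nat_lit 78) (nat_lit 0) (nat_lit 0) (XT.lf (nat_lit 0) (nat_lit 282880420630) (nat_lit 76) (nat_lit 24187825658) (nat_lit 76) (nat_lit 13330944019) (nat_lit 3) (nat_lit 4) (nat_lit 4) (nat_lit 5) (nat_lit 4) (nat_lit 4) (nat_lit 333) (nat_lit 256) (nat_lit 191)) (XT.lf (nat_lit 0) (nat_lit 316581616712) (nat_lit 76) (nat_lit 19924273873) (nat_lit 76) (nat_lit 9061950263) (nat_lit 3) (nat_lit 4) (nat_lit 4) (nat_lit 5) (nat_lit 4) (nat_lit 4) (nat_lit 334) (nat_lit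 256) (nat_lit 190)))))) (XT.nd (nat_lit 624) (nat_lit 0) (nat_lit 0) (XT.nd (nat_lit 312) (nat_lit 0) (nat_lit 0) (XT.nd (nat_lit 156) (nat_lit 76) (nat_lit 0) (XT.nd (nat_lit 78) (nat_lit 76) (nat_lit 0) (XT.lf (nat_lit 0) (nat_lit 352968428670) (nat_lit 76) (nat_lit 15324677894) (nat_lit 76) (nat_lit 4457315424) (nat_lit 3) (nat_lit 4) (nat_lit 4) (nat_lit 5) (nat_lit 4) (nat_lit 4) (nat_lit 335) (nat_lit 256) (nat_lit 189)) (XT.lf (nat_lit 0) (nat_lit 484722591) (nat_lit 152) (nat_lit 9863805091) (nat_lit 76) (nat_lit 391758506289) (nat_lit 2) (nat_lit 5) (nat_lit 4) (nat_lit 5) (nat_lit 3) (nat_lit 4) (nat_lit 336) (nat_lit 256) (nat_lit 188))) (XT.nd (nat_lit 78) (nat_lit 0) (nat_lit 0) (XT.lf (nat_lit 0) (nat_lit 760886879) (nat_lit 76) (nat_lit 4833937626) (nat_lit 152) (nat_lit 428207010192) (nat_lit 1) (nat_lit 5) (nat_lit 2) (nat_lit 5) (nat_lit 3) (nat_lit 4) (nat_lit 337)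 (nat_lit 256) (nat_lit 187)) (XT.lf (nat_lit 0) (nat_lit 11412658923) (nat_lit 152) (nat_lit 455257386553) (nat_lit 0) (nat_lit 1338262531) (nat_lit 1) (nat_lit 5) (nat_lit 3) (nat_lit 4) (nat_lit 1) (nat_lit 4) (nat_lit 338) (nat_lit 256) (nat_lit 186)))) (XT.nd (nat_lit 156) (nat_lit 0) (nat_lit 0) (XT.nd (nat_lit 78) (nat_lit 0) (nat_lit 0) (XT.lf (nat_lit 0) (nat_lit 17817074705) (nat_lit 152) (nat_lit 479385285451) (nat_lit 0) (nat_lit 7739248949) (nat_lit 1) (nat_lit 5) (nat_lit 3) (nat_lit 4) (nat_lit 1) (nat_lit 4) (nat_lit 339) (nat_lit 256) (nat_lit 185)) (XT.lf (nat_lit 0) (nat_lit 24729767628) (nat_lit 152) (nat_lit 505451368337) (nat_lit 0) (nat_lit 14648766535) (nat_lit 1) (nat_lit 5) (nat_lit 3) (nat_lit 4) (nat_lit 1) (nat_lit 4) (nat_lit 340) (nat_lit 256) (nat_lit 184))) (XT.nd (nat_lit 78) (nat_lit 0) (nat_lit 0) (XT.lf (nat_lit 0) (nat_lit 32191701799) (nat_lit 152)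 (nat_lit 533610100887) (nat_lit 0) (nat_lit 22107760579) (nat_lit 1) (nat_lit 5) (nat_lit 3) (nat_lit 4) (nat_lit 1) (nat_lit 4) (nat_lit 341) (nat_lit 256) (nat_lit 183)) (XT.lf (nat_lit 0) (nat_lit 40247096088) (nat_lit 152) (nat_lit 564028349665) (nat_lit 0) (nat_lit 30160432528) (nat_lit 1) (nat_lit 5) (nat_lit 3) (nat_lit 4) (nat_lit 1) (nat_lit 4) (nat_lit 342) (nat_lit 256) (nat_lit 182))))) (XT.nd (nat_lit 312) (nat_lit 0) (nat_lit 0) (XT.nd (nat_lit 156) (nat_lit 0) (nat_lit 0) (XT.nd (nat_lit 78) (nat_lit 0) (nat_lit 0) (XT.lf (nat_lit 0) (nat_lit 48943686163) (nat_lit 152) (nat_lit 596886370960) (nat_lit 0) (nat_lit 38854501918) (nat_lit 1) (nat_lit 5) (nat_lit 3) (nat_lit 4) (nat_lit 1) (nat_lit 4) (nat_lit 343) (nat_lit 256) (nat_lit 181)) (XT.lf (nat_lit 0) (nat_lit 58333007374) (nat_lit 152) (nat_lit 632378878973) (nat_lit 0) (nat_lit 48241489161) (nat_lit 1) (nat_lit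 5) (nat_lit 3) (nat_lit 4) (nat_lit 1) (nat_lit 4) (nat_lit 344) (nat_lit 256) (nat_lit 180))) (XT.nd (nat_lit 78) (nat_lit 0) (nat_lit 0) (XT.lf (nat_lit 0) (nat_lit 68470700142) (nat_lit 152) (nat_lit 670716199675) (nat_lit 0) (nat_lit 58377020849) (nat_lit 1) (nat_lit 5) (nat_lit 3) (nat_lit 4) (nat_lit 1) (nat_lit 4) (nat_lit 345) (nat_lit 256) (nat_lit 179)) (XT.lf (nat_lit 0) (nat_lit 79416839684) (nat_lit 152) (nat_lit 712125517191) (nat_lit 0) (nat_lit 69321159390) (nat_lit 1) (nat_lit 5) (nat_lit 3) (nat_lit 4) (nat_lit 1) (nat_lit 4) (nat_lit 346) (nat_lit 256) (nat_lit 178)))) (XT.nd (nat_lit 156) (nat_lit 0) (nat_lit 0) (XT.nd (nat_lit 78) (nat_lit 0) (nat_lit 0) (XT.lf (nat_lit 0) (nat_lit 91236292012) (nat_lit 152) (nat_lit 756852220069) (nat_lit 0) (nat_lit 81138758939) (nat_lit 1) (nat_lit 5) (nat_lit 3) (nat_lit 4) (nat_lit 1) (nat_lit 4) (nat_lit 347) (nat_lit 256)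 (nat_lit 177)) (XT.lf (nat_lit 0) (nat_lit 103999098325) (nat_lit 152) (nat_lit 805161355436) (nat_lit 0) (nat_lit 93899849717) (nat_lit 1) (nat_lit 5) (nat_lit 3) (nat_lit 4) (nat_lit 1) (nat_lit 4) (nat_lit 348) (nat_lit 256) (nat_lit 176))) (XT.nd (nat_lit 78) (nat_lit 0) (nat_lit 0) (XT.lf (nat_lit 0) (nat_lit 117780890068) (nat_lit 152) (nat_lit 857339199651) (nat_lit 0) (nat_lit 107680053000) (nat_lit 1) (nat_lit 5) (nat_lit 3) (nat_lit 4) (nat_lit 1) (nat_lit 4) (nat_lit 349) (nat_lit 256) (nat_lit 175)) (XT.lf (nat_lit 0) (nat_lit 132663337118) (nat_lit 152) (nat_lit 913694954752) (nat_lit 0) (nat_lit 122561029255) (nat_lit 1) (nat_lit 5) (nat_lit 3) (nat_lit 4) (nat_lit 1) (nat_lit 4) (nat_lit 350) (nat_lit 256) (nat_lit 174))))))))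
noncomputable def xc44 : XT := (XT.nd (nat_lit 34866) (nat_lit 0) (nat_lit 380) (XT.nd (nat_lit 1170) (nat_lit 0) (nat_lit 0) (XT.nd (nat_lit 546) (nat_lit 0) (nat_lit 0) (XT.nd (nat_lit 234) (nat_lit 0) (nat_lit 0) (XT.nd (nat_lit 78) (nat_lit 0) (nat_lit 0) (XT.lf (nat_lit 0) (nat_lit 148734631753) (nat_lit 152) (nat_lit 974562580771) (nat_lit 0) (nat_lit 138630962042) (nat_lit 1) (nat_lit 5) (nat_lit 3) (nat_lit 4) (nat_lit 1) (nat_lit 4) (nat_lit 351) (nat_lit 256) (nat_lit 173)) (XT.nd (nat_lit 78) (nat_lit 0) (nat_lit 0) (XT.lf (nat_lit 0) (nat_lit 166090011276) (nat_lit 152) (nat_lit 1040302774751) (nat_lit 0) (nat_lit 155985080595) (nat_lit 1) (nat_lit 5) (nat_lit 3) (nat_lit 4) (nat_lit 1) (nat_lit 4) (nat_lit 352) (nat_lit 256) (nat_lit 172)) (XT.lf (nat_lit 0) (nat_lit 184832322379) (nat_lit 152) (nat_lit 1111305108211) (nat_lit 0) (nat_lit 174726224133) (nat_lit 1) (nat_lit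 5) (nat_lit 3) (nat_lit 4) (nat_lit 1) (nat_lit 4) (nat_lit 353) (nat_lit 256) (nat_lit 171)))) (XT.nd (nat_lit 156) (nat_lit 0) (nat_lit 0) (XT.nd (nat_lit 78) (nat_lit 0) (nat_lit 0) (XT.lf (nat_lit 0) (nat_lit 205072630610) (nat_lit 152) (nat_lit 1187990335720) (nat_lit 0) (nat_lit 194965451285) (nat_lit 1) (nat_lit 5) (nat_lit 3) (nat_lit 4) (nat_lit 1) (nat_lit 4) (nat_lit 354) (nat_lit 256) (nat_lit 170)) (XT.lf (nat_lit 0) (nat_lit 226930878536) (nat_lit 152) (nat_lit 1270812888255) (nat_lit 0) (nat_lit 216822698213) (nat_lit 1) (nat_lit 5) (nat_lit 3) (nat_lit 4) (nat_lit 1) (nat_lit 4) (nat_lit 355) (nat_lit 256) (nat_lit 169))) (XT.nd (nat_lit 78) (nat_lit 0) (nat_lit 0) (XT.lf (nat_lit 0) (nat_lit 250536596515) (nat_lit 152) (nat_lit 1360263566129) (nat_lit 0) (nat_lit 240427489342) (nat_lit 1) (nat_lit 5) (nat_lit 3) (nat_lit 4) (nat_lit 1) (nat_lit 4) (nat_lit 356) (nat_lit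 256) (nat_lit 168)) (XT.lf (nat_lit 0) (nat_lit 276029670284) (nat_lit 152) (nat_lit 1456872447432) (nat_lit 0) (nat_lit 265919704915) (nat_lit 1) (nat_lit 5) (nat_lit 3) (nat_lit 4) (nat_lit 1) (nat_lit 4) (nat_lit 357) (nat_lit 256) (nat_lit 167))))) (XT.nd (nat_lit 312) (nat_lit 0) (nat_lit 0) (XT.nd (nat_lit 156) (nat_lit 0) (nat_lit 0) (XT.nd (nat_lit 78) (nat_lit 0) (nat_lit 0) (XT.lf (nat_lit 0) (nat_lit 303561169909) (nat_lit 152) (nat_lit 1561212029239) (nat_lit 0) (nat_lit 293450409916) (nat_lit 1) (nat_lit 5) (nat_lit 3) (nat_lit 4) (nat_lit 1) (nat_lit 4) (nat_lit 358) (nat_lit 256) (nat_lit 166)) (XT.lf (nat_lit 0) (nat_lit 333294245018) (nat_lit 152) (nat_lit 1673900620182) (nat_lit 0) (nat_lit 323182749260) (nat_lit 1) (nat_lit 5) (nat_lit 3) (nat_lit 4) (nat_lit 1) (nat_lit 4) (nat_lit 359) (nat_lit 256) (nat_lit 165))) (XT.nd (nat_lit 78) (nat_lit 0) (nat_lit 0) (XT.lf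 (nat_lit 0) (nat_lit 365405091611) (nat_lit 152) (nat_lit 1795606004505) (nat_lit 0) (nat_lit 355292914591) (nat_lit 1) (nat_lit 5) (nat_lit 3) (nat_lit 4) (nat_lit 1) (nat_lit 4) (nat_lit 360) (nat_lit 256) (nat_lit 164)) (XT.lf (nat_lit 0) (nat_lit 400083996187) (nat_lit 152) (nat_lit 1927049399299) (nat_lit 0) (nat_lit 389971188367) (nat_lit 1) (nat_lit 5) (nat_lit 3) (nat_lit 4) (nat_lit 1) (nat_lit 4) (nat_lit 361) (nat_lit 256) (nat_lit 163)))) (XT.nd (nat_lit 156) (nat_lit 0) (nat_lit 0) (XT.nd (nat_lit 78) (nat_lit 0) (nat_lit 0) (XT.lf (nat_lit 0) (nat_lit 437536463365) (nat_lit 152) (nat_lit 2069009728385) (nat_lit 0) (nat_lit 427423071472) (nat_lit 1) (nat_lit 5) (nat_lit 3) (nat_lit 4) (nat_lit 1) (nat_lit 4) (nat_lit 362) (nat_lit 256) (nat_lit 162)) (XT.lf (nat_lit 0) (nat_lit 477984433691) (nat_lit 152) (nat_lit 2222328238158) (nat_lit 0) (nat_lit 467870500990) (nat_lit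 1) (nat_lit 5) (nat_lit 3) (nat_lit 4) (nat_lit 1) (nat_lit 4) (nat_lit 363) (nat_lit 256) (nat_lit 161))) (XT.nd (nat_lit 78) (nat_lit 0) (nat_lit 0) (XT.lf (nat_lit 0) (nat_lit 521667598842) (nat_lit 152) (nat_lit 2387913482751) (nat_lit 0) (nat_lit 511553165393) (nat_lit 1) (nat_lit 5) (nat_lit 3) (nat_lit 4) (nat_lit 1) (nat_lit 4) (nat_lit 364) (nat_lit 256) (nat_lit 160)) (XT.lf (nat_lit 0) (nat_lit 568844822019) (nat_lit 152) (nat_lit 2566746708056) (nat_lit 0) (nat_lit 558729924913) (nat_lit 1) (nat_lit 5) (nat_lit 3) (nat_lit 4) (nat_lit 1) (nat_lit 4) (nat_lit 365) (nat_lit 256) (nat_lit 159)))))) (XT.nd (nat_lit 33072) (nat_lit 0) (nat_lit 2356) (XT.nd (nat_lit 234) (nat_lit 0) (nat_lit 0) (XT.nd (nat_lit 78) (nat_lit 0) (nat_lit 0) (XT.lf (nat_lit 0) (nat_lit 619795671951) (nat_lit 152) (nat_lit 2759887666521) (nat_lit 0) (nat_lit 609680345534) (nat_lit 1) (nat_lit 5) (nat_lit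 3) (nat_lit 4) (nat_lit 1) (nat_lit 4) (nat_lit 366) (nat_lit 256) (nat_lit 158)) (XT.nd (nat_lit 78) (nat_lit 0) (nat_lit 0) (XT.lf (nat_lit 0) (nat_lit 674822079600) (nat_lit 152) (nat_lit 2968480897158) (nat_lit 0) (nat_lit 664706355673) (nat_lit 1) (nat_lit 5) (nat_lit 3) (nat_lit 4) (nat_lit 1) (nat_lit 4) (nat_lit 367) (nat_lit 256) (nat_lit 157)) (XT.lf (nat_lit 0) (nat_lit 734250127384) (nat_lit 152) (nat_lit 3193762508001) (nat_lit 0) (nat_lit 724134035391) (nat_lit 1) (nat_lit 5) (nat_lit 3) (nat_lit 4) (nat_lit 1) (nat_lit 4) (nat_lit 368) (nat_lit 256) (nat_lit 156)))) (XT.nd (nat_lit 32682) (nat_lit 0) (nat_lit 4104) (XT.nd (nat_lit 32604) (nat_lit 0) (nat_lit 4484) (XT.lf (nat_lit 0) (nat_lit 798431981510) (nat_lit 152) (nat_lit 3437067501188) (nat_lit 0) (nat_lit 788315548717) (nat_lit 1) (nat_lit 5) (nat_lit 3) (nat_lit 4) (nat_lit 1) (nat_lit 4) (nat_lit 369) (nat_lit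 256) (nat_lit 155)) (XT.lf (nat_lit 0) (nat_lit 808344388) (nat_lit 228) (nat_lit 1273922779) (nat_lit 228) (nat_lit 1273922779) (nat_lit 60) (nat_lit 4) (nat_lit 63) (nat_lit 5) (nat_lit 63) (nat_lit 4) (nat_lit 266) (nat_lit 257) (nat_lit 257))) (XT.nd (nat_lit 78) (nat_lit 304) (nat_lit 0) (XT.lf (nat_lit 0) (nat_lit 516566079) (nat_lit 304) (nat_lit 964392649) (nat_lit 76) (nat_lit 5336202994) (nat_lit 59) (nat_lit 5) (nat_lit 63) (nat_lit 5) (nat_lit 60) (nat_lit 4) (nat_lit 267) (nat_lit 257) (nat_lit 256)) (XT.lf (nat_lit 0) (nat_lit 3385066802) (nat_lit 304) (nat_lit 130193322) (nat_lit 380) (nat_lit 3424797032) (nat_lit 55) (nat_lit 5) (nat_lit 59) (nat_lit 5) (nat_lit 60) (nat_lit 4) (nat_lit 268) (nat_lit 257) (nat_lit 255))))) (XT.nd (nat_lit 312) (nat_lit 532) (nat_lit 0) (XT.nd (nat_lit 156) (nat_lit 760) (nat_lit 0) (XT.nd (nat_lit 78) (nat_lit 76) (nat_lit 0) (XT.lf (nat_lit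 0) (nat_lit 845162810) (nat_lit 380) (nat_lit 5747938433) (nat_lit 380) (nat_lit 493623996) (nat_lit 50) (nat_lit 4) (nat_lit 55) (nat_lit 5) (nat_lit 55) (nat_lit 4) (nat_lit 269) (nat_lit 257) (nat_lit 254)) (XT.lf (nat_lit 0) (nat_lit 2406901289) (nat_lit 456) (nat_lit 1746575440) (nat_lit 76) (nat_lit 3097953941) (nat_lit 49) (nat_lit 5) (nat_lit 55) (nat_lit 5) (nat_lit 50) (nat_lit 4) (nat_lit 270) (nat_lit 257) (nat_lit 253))) (XT.nd (nat_lit 78) (nat_lit 304) (nat_lit 0) (XT.lf (nat_lit 0) (nat_lit 3025656434) (nat_lit 456) (nat_lit 2342705908) (nat_lit 532) (nat_lit 2072337742) (nat_lit 43) (nat_lit 5) (nat_lit 49) (nat_lit 5) (nat_lit 50) (nat_lit 4) (nat_lit 271) (nat_lit 257) (nat_lit 252)) (XT.lf (nat_lit 0) (nat_lit 407466064) (nat_lit 228) (nat_lit 314447282) (nat_lit 304) (nat_lit 6934449272) (nat_lit 39) (nat_lit 5) (nat_lit 42) (nat_lit 5) (nat_lit 43) (nat_lit 5) (nat_lit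 272) (nat_lit 257) (nat_lit 251)))) (XT.nd (nat_lit 156) (nat_lit 304) (nat_lit 0) (XT.nd (nat_lit 78) (nat_lit 228) (nat_lit 0) (XT.lf (nat_lit 0) (nat_lit 3594247398) (nat_lit 304) (nat_lit 2352676604) (nat_lit 76) (nat_lit 1941409064) (nat_lit 39) (nat_lit 5) (nat_lit 43) (nat_lit 5) (nat_lit 40) (nat_lit 4) (nat_lit 273) (nat_lit 257) (nat_lit 250)) (XT.lf (nat_lit 0) (nat_lit 2849391521) (nat_lit 228) (nat_lit 3736202406) (nat_lit 304) (nat_lit 1562759996) (nat_lit 36) (nat_lit 5) (nat_lit 39) (nat_lit 5) (nat_lit 40) (nat_lit 4) (nat_lit 274) (nat_lit 257) (nat_lit 249))) (XT.nd (nat_lit 78) (nat_lit 228) (nat_lit 0) (XT.lf (nat_lit 0) (nat_lit 1199739110) (nat_lit 304) (nat_lit 82508176) (nat_lit 76) (nat_lit 7154236924) (nat_lit 35) (nat_lit 5) (nat_lit 39) (nat_lit 5) (nat_lit 36) (nat_lit 5) (nat_lit 275) (nat_lit 257) (nat_lit 248)) (XT.lf (nat_lit 0) (nat_lit 4099261123)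 (nat_lit 304) (nat_lit 3202660747) (nat_lit 76) (nat_lit 1442960327) (nat_lit 32) (nat_lit 5) (nat_lit 36) (nat_lit 5) (nat_lit 33) (nat_lit 4) (nat_lit 276) (nat_lit 257) (nat_lit 247))))))) (XT.nd (nat_lit 1170) (nat_lit 608) (nat_lit 0) (XT.nd (nat_lit 546) (nat_lit 608) (nat_lit 0) (XT.nd (nat_lit 234) (nat_lit 380) (nat_lit 0) (XT.nd (nat_lit 78) (nat_lit 228) (nat_lit 0) (XT.lf (nat_lit 0) (nat_lit 2415896471) (nat_lit 152) (nat_lit 4745017616) (nat_lit 228) (nat_lit 1923088079) (nat_lit 30) (nat_lit 5) (nat_lit 32) (nat_lit 5) (nat_lit 33) (nat_lit 4) (nat_lit 277) (nat_lit 257) (nat_lit 246)) (XT.nd (nat_lit 78) (nat_lit 152) (nat_lit 0) (XT.lf (nat_lit 0) (nat_lit 895241076) (nat_lit 228) (nat_lit 1022771403) (nat_lit 76) (nat_lit 7536369172) (nat_lit 29) (nat_lit 5) (nat_lit 32) (nat_lit 5) (nat_lit 30) (nat_lit 5) (nat_lit 278) (nat_lit 257) (nat_lit 245)) (XT.lf (nat_lit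 0) (nat_lit 3838646920) (nat_lit 228) (nat_lit 4807914811) (nat_lit 76) (nat_lit 1203921258) (nat_lit 27) (nat_lit 5) (nat_lit 30) (nat_lit 5) (nat_lit 28) (nat_lit 4) (nat_lit 279) (nat_lit 257) (nat_lit 244)))) (XT.nd (nat_lit 156) (nat_lit 228) (nat_lit 0) (XT.nd (nat_lit 78) (nat_lit 0) (nat_lit 0) (XT.lf (nat_lit 0) (nat_lit 1175564047) (nat_lit 152) (nat_lit 5804677457) (nat_lit 228) (nat_lit 3301354446) (nat_lit 25) (nat_lit 5) (nat_lit 27) (nat_lit 5) (nat_lit 28) (nat_lit 4) (nat_lit 280) (nat_lit 257) (nat_lit 243)) (XT.lf (nat_lit 0) (nat_lit 7708453345) (nat_lit 152) (nat_lit 2657898522) (nat_lit 228) (nat_lit 381706600) (nat_lit 25) (nat_lit 5) (nat_lit 27) (nat_lit 5) (nat_lit 28) (nat_lit 4) (nat_lit 281) (nat_lit 257) (nat_lit 242))) (XT.nd (nat_lit 78) (nat_lit 0) (nat_lit 0) (XT.lf (nat_lit 0) (nat_lit 2603694277) (nat_lit 228) (nat_lit 7849116554) (nat_lit 76) (nat_lit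 796299429) (nat_lit 22) (nat_lit 5) (nat_lit 25) (nat_lit 5) (nat_lit 23) (nat_lit 4) (nat_lit 282) (nat_lit 257) (nat_lit 241)) (XT.lf (nat_lit 0) (nat_lit 5833633520) (nat_lit 228) (nat_lit 1535872219) (nat_lit 76) (nat_lit 4418091545) (nat_lit 22) (nat_lit 5) (nat_lit 25) (nat_lit 5) (nat_lit 23) (nat_lit 4) (nat_lit 283) (nat_lit 257) (nat_lit 240))))) (XT.nd (nat_lit 312) (nat_lit 228) (nat_lit 0) (XT.nd (nat_lit 156) (nat_lit 228) (nat_lit 0) (XT.nd (nat_lit 78) (nat_lit 76) (nat_lit 0) (XT.lf (nat_lit 0) (nat_lit 5366837108) (nat_lit 76) (nat_lit 3965708165) (nat_lit 152) (nat_lit 3036003763) (nat_lit 21) (nat_lit 5) (nat_lit 22) (nat_lit 5) (nat_lit 23) (nat_lit 4) (nat_lit 284) (nat_lit 257) (nat_lit 239)) (XT.lf (nat_lit 0) (nat_lit 35506429) (nat_lit 152) (nat_lit 273149720) (nat_lit 76) (nat_lit 12693226763) (nat_lit 20) (nat_lit 5) (nat_lit 22) (nat_lit 5) (nat_lit 21) (nat_lit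 5) (nat_lit 285) (nat_lit 257) (nat_lit 238))) (XT.nd (nat_lit 78) (nat_lit 76) (nat_lit 0) (XT.lf (nat_lit 0) (nat_lit 3343421967) (nat_lit 228) (nat_lit 6669413514) (nat_lit 76) (nat_lit 3654546964) (nat_lit 18) (nat_lit 5) (nat_lit 21) (nat_lit 5) (nat_lit 19) (nat_lit 4) (nat_lit 286) (nat_lit 257) (nat_lit 237)) (XT.lf (nat_lit 0) (nat_lit 313590329) (nat_lit 76) (nat_lit 6519572009) (nat_lit 152) (nat_lit 7559754771) (nat_lit 17) (nat_lit 5) (nat_lit 18) (nat_lit 5) (nat_lit 19) (nat_lit 4) (nat_lit 287) (nat_lit 257) (nat_lit 236)))) (XT.nd (nat_lit 156) (nat_lit 76) (nat_lit 0) (XT.nd (nat_lit 78) (nat_lit 152) (nat_lit 0) (XT.lf (nat_lit 0) (nat_lit 8064279454) (nat_lit 76) (nat_lit 2617885904) (nat_lit 152) (nat_lit 4488080380) (nat_lit 17) (nat_lit 5) (nat_lit 18) (nat_lit 5) (nat_lit 19) (nat_lit 4) (nat_lit 288) (nat_lit 257) (nat_lit 235)) (XT.lf (nat_lit 0) (nat_lit 234778068)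 (nat_lit 152) (nat_lit 14552130826) (nat_lit 152) (nat_lit 1227172314) (nat_lit 15) (nat_lit 4) (nat_lit 17) (nat_lit 5) (nat_lit 17) (nat_lit 4) (nat_lit 289) (nat_lit 257) (nat_lit 234))) (XT.nd (nat_lit 78) (nat_lit 0) (nat_lit 0) (XT.lf (nat_lit 0) (nat_lit 2351691235) (nat_lit 228) (nat_lit 8636056226) (nat_lit 76) (nat_lit 5919637065) (nat_lit 14) (nat_lit 5) (nat_lit 17) (nat_lit 5) (nat_lit 15) (nat_lit 4) (nat_lit 290) (nat_lit 257) (nat_lit 233)) (XT.lf (nat_lit 0) (nat_lit 6062171364) (nat_lit 228) (nat_lit 1105864487) (nat_lit 76) (nat_lit 10708753793) (nat_lit 14) (nat_lit 5) (nat_lit 17) (nat_lit 5) (nat_lit 15) (nat_lit 4) (nat_lit 291) (nat_lit 257) (nat_lit 232)))))) (XT.nd (nat_lit 624) (nat_lit 228) (nat_lit 0) (XT.nd (nat_lit 312) (nat_lit 152) (nat_lit 0) (XT.nd (nat_lit 156) (nat_lit 152) (nat_lit 0) (XT.nd (nat_lit 78) (nat_lit 0) (nat_lit 0) (XT.lf (nat_lit 0)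 (nat_lit 7247982394) (nat_lit 76) (nat_lit 2913975990) (nat_lit 152) (nat_lit 8754498750) (nat_lit 13) (nat_lit 5) (nat_lit 14) (nat_lit 5) (nat_lit 15) (nat_lit 4) (nat_lit 292) (nat_lit 257) (nat_lit 231)) (XT.lf (nat_lit 0) (nat_lit 14580657071) (nat_lit 152) (nat_lit 3887821796) (nat_lit 0) (nat_lit 1571644340) (nat_lit 13) (nat_lit 5) (nat_lit 15) (nat_lit 4) (nat_lit 13) (nat_lit 4) (nat_lit 293) (nat_lit 257) (nat_lit 230))) (XT.nd (nat_lit 78) (nat_lit 76) (nat_lit 0) (XT.lf (nat_lit 0) (nat_lit 4534219448) (nat_lit 76) (nat_lit 14928824632) (nat_lit 76) (nat_lit 1781915207) (nat_lit 12) (nat_lit 4) (nat_lit 13) (nat_lit 5) (nat_lit 13) (nat_lit 4) (nat_lit 294) (nat_lit 257) (nat_lit 229)) (XT.lf (nat_lit 0) (nat_lit 2115281381) (nat_lit 152) (nat_lit 8874806274) (nat_lit 76) (nat_lit 11549161414) (nat_lit 11) (nat_lit 5) (nat_lit 13) (nat_lit 5) (nat_lit 12) (nat_lit 4) (nat_lit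 295) (nat_lit 257) (nat_lit 228)))) (XT.nd (nat_lit 156) (nat_lit 76) (nat_lit 0) (XT.nd (nat_lit 78) (nat_lit 76) (nat_lit 0) (XT.lf (nat_lit 0) (nat_lit 6159396276) (nat_lit 152) (nat_lit 581271482) (nat_lit 76) (nat_lit 17198271735) (nat_lit 11) (nat_lit 5) (nat_lit 13) (nat_lit 5) (nat_lit 12) (nat_lit 4) (nat_lit 296) (nat_lit 257) (nat_lit 227)) (XT.lf (nat_lit 0) (nat_lit 8696921761) (nat_lit 76) (nat_lit 1975772633) (nat_lit 152) (nat_lit 14766326140) (nat_lit 10) (nat_lit 5) (nat_lit 11) (nat_lit 5) (nat_lit 12) (nat_lit 4) (nat_lit 297) (nat_lit 257) (nat_lit 226))) (XT.nd (nat_lit 78) (nat_lit 76) (nat_lit 0) (XT.lf (nat_lit 0) (nat_lit 15576944850) (nat_lit 152) (nat_lit 8498853642) (nat_lit 0) (nat_lit 2980981178) (nat_lit 10) (nat_lit 5) (nat_lit 12) (nat_lit 4) (nat_lit 10) (nat_lit 4) (nat_lit 298) (nat_lit 257) (nat_lit 225)) (XT.lf (nat_lit 0) (nat_lit 259216055) (nat_lit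 76) (nat_lit 20613850505) (nat_lit 76) (nat_lit 7930988525) (nat_lit 9) (nat_lit 4) (nat_lit 10) (nat_lit 5) (nat_lit 10) (nat_lit 4) (nat_lit 299) (nat_lit 257) (nat_lit 224))))) (XT.nd (nat_lit 312) (nat_lit 76) (nat_lit 0) (XT.nd (nat_lit 156) (nat_lit 76) (nat_lit 0) (XT.nd (nat_lit 78) (nat_lit 76) (nat_lit 0) (XT.lf (nat_lit 0) (nat_lit 10097676071) (nat_lit 76) (nat_lit 16671360453) (nat_lit 76) (nat_lit 3908037076) (nat_lit 9) (nat_lit 4) (nat_lit 10) (nat_lit 5) (nat_lit 10) (nat_lit 4) (nat_lit 300) (nat_lit 257) (nat_lit 223)) (XT.lf (nat_lit 0) (nat_lit 361452091) (nat_lit 152) (nat_lit 12086004318) (nat_lit 76) (nat_lit 20255958986) (nat_lit 8) (nat_lit 5) (nat_lit 10) (nat_lit 5) (nat_lit 9) (nat_lit 4) (nat_lit 301) (nat_lit 257) (nat_lit 222))) (XT.nd (nat_lit 78) (nat_lit 76) (nat_lit 0) (XT.lf (nat_lit 0) (nat_lit 4711873802) (nat_lit 152) (nat_lit 3106109839) (nat_lit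 76) (nat_lit 27069762251) (nat_lit 8) (nat_lit 5) (nat_lit 10) (nat_lit 5) (nat_lit 9) (nat_lit 4) (nat_lit 302) (nat_lit 257) (nat_lit 221)) (XT.lf (nat_lit 0) (nat_lit 6850161294) (nat_lit 76) (nat_lit 2679089423) (nat_lit 152) (nat_lit 27708097898) (nat_lit 7) (nat_lit 5) (nat_lit 8) (nat_lit 5) (nat_lit 9) (nat_lit 4) (nat_lit 303) (nat_lit 257) (nat_lit 220)))) (XT.nd (nat_lit 156) (nat_lit 76) (nat_lit 0) (XT.nd (nat_lit 78) (nat_lit 0) (nat_lit 0) (XT.lf (nat_lit 0) (nat_lit 14842863044) (nat_lit 152) (nat_lit 22145012174) (nat_lit 0) (nat_lit 2778213297) (nat_lit 7) (nat_lit 5) (nat_lit 9) (nat_lit 4) (nat_lit 7) (nat_lit 4) (nat_lit 304) (nat_lit 257) (nat_lit 219)) (XT.lf (nat_lit 0) (nat_lit 20609176297) (nat_lit 152) (nat_lit 13391954003) (nat_lit 0) (nat_lit 8493822222) (nat_lit 7) (nat_lit 5) (nat_lit 9) (nat_lit 4) (nat_lit 7) (nat_lit 4) (nat_lit 305) (nat_lit 257) (nat_lit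 218))) (XT.nd (nat_lit 78) (nat_lit 76) (nat_lit 0) (XT.lf (nat_lit 0) (nat_lit 26797929058) (nat_lit 152) (nat_lit 4011710667) (nat_lit 0) (nat_lit 14635626530) (nat_lit 7) (nat_lit 5) (nat_lit 9) (nat_lit 4) (nat_lit 7) (nat_lit 4) (nat_lit 306) (nat_lit 257) (nat_lit 217)) (XT.lf (nat_lit 0) (nat_lit 6369955429) (nat_lit 76) (nat_lit 27229037567) (nat_lit 76) (nat_lit 15023264251) (nat_lit 6) (nat_lit 4) (nat_lit 7) (nat_lit 5) (nat_lit 7) (nat_lit 4) (nat_lit 307) (nat_lit 257) (nat_lit 216))))))))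
noncomputable def xc45 : XT := (XT.nd (nat_lit 2340) (nat_lit 76) (nat_lit 0) (XT.nd (nat_lit 1170) (nat_lit 76) (nat_lit 0) (XT.nd (nat_lit 546) (nat_lit 76) (nat_lit 0) (XT.nd (nat_lit 234) (nat_lit 152) (nat_lit 0) (XT.nd (nat_lit 78) (nat_lit 0) (nat_lit 0) (XT.lf (nat_lit 0) (nat_lit 17744369278) (nat_lit 76) (nat_lit 23274553363) (nat_lit 76) (nat_lit 11028529317) (nat_lit 6) (nat_lit 4) (nat_lit 7) (nat_lit 5) (nat_lit 7) (nat_lit 4) (nat_lit 308) (nat_lit 257) (nat_lit 215)) (XT.nd (nat_lit 78) (nat_lit 0) (nat_lit 0) (XT.lf (nat_lit 0) (nat_lit 29967685239) (nat_lit 76) (nat_lit 19032440413) (nat_lit 76) (nat_lit 6749147171) (nat_lit 6) (nat_lit 4) (nat_lit 7) (nat_lit 5) (nat_lit 7) (nat_lit 4) (nat_lit 309) (nat_lit 257) (nat_lit 214)) (XT.lf (nat_lit 0) (nat_lit 43112337776) (nat_lit 76) (nat_lit 14477560267) (nat_lit 76) (nat_lit 2159758512) (nat_lit 6) (nat_lit 4) (nat_lit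 7) (nat_lit 5) (nat_lit 7) (nat_lit 4) (nat_lit 310) (nat_lit 257) (nat_lit 213)))) (XT.nd (nat_lit 156) (nat_lit 0) (nat_lit 0) (XT.nd (nat_lit 78) (nat_lit 76) (nat_lit 0) (XT.lf (nat_lit 0) (nat_lit 2628424842) (nat_lit 152) (nat_lit 6882630410) (nat_lit 76) (nat_lit 54555930492) (nat_lit 5) (nat_lit 5) (nat_lit 7) (nat_lit 5) (nat_lit 6) (nat_lit 4) (nat_lit 311) (nat_lit 257) (nat_lit 212)) (XT.lf (nat_lit 0) (nat_lit 3733216299) (nat_lit 76) (nat_lit 4013204792) (nat_lit 152) (nat_lit 60973735362) (nat_lit 4) (nat_lit 5) (nat_lit 5) (nat_lit 5) (nat_lit 6) (nat_lit 4) (nat_lit 312) (nat_lit 257) (nat_lit 211))) (XT.nd (nat_lit 78) (nat_lit 0) (nat_lit 0) (XT.lf (nat_lit 0) (nat_lit 13487097238) (nat_lit 152) (nat_lit 58242060312) (nat_lit 0) (nat_lit 1999380996) (nat_lit 4) (nat_lit 5) (nat_lit 6) (nat_lit 4) (nat_lit 4) (nat_lit 4) (nat_lit 313) (nat_lit 257) (nat_lit 210)) (XT.lf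 (nat_lit 0) (nat_lit 19767086348) (nat_lit 152) (nat_lit 51108231647) (nat_lit 0) (nat_lit 8255884191) (nat_lit 4) (nat_lit 5) (nat_lit 6) (nat_lit 4) (nat_lit 4) (nat_lit 4) (nat_lit 314) (nat_lit 257) (nat_lit 209))))) (XT.nd (nat_lit 312) (nat_lit 76) (nat_lit 0) (XT.nd (nat_lit 156) (nat_lit 0) (nat_lit 0) (XT.nd (nat_lit 78) (nat_lit 0) (nat_lit 0) (XT.lf (nat_lit 0) (nat_lit 26527085499) (nat_lit 152) (nat_lit 43446661945) (nat_lit 0) (nat_lit 14994137125) (nat_lit 4) (nat_lit 5) (nat_lit 6) (nat_lit 4) (nat_lit 4) (nat_lit 4) (nat_lit 315) (nat_lit 257) (nat_lit 208)) (XT.lf (nat_lit 0) (nat_lit 33807153946) (nat_lit 152) (nat_lit 35211949314) (nat_lit 0) (nat_lit 22254070185) (nat_lit 4) (nat_lit 5) (nat_lit 6) (nat_lit 4) (nat_lit 4) (nat_lit 4) (nat_lit 316) (nat_lit 257) (nat_lit 207))) (XT.nd (nat_lit 78) (nat_lit 0) (nat_lit 0) (XT.lf (nat_lit 0) (nat_lit 41650432834) (nat_lit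 152) (nat_lit 26355295455) (nat_lit 0) (nat_lit 30078705197) (nat_lit 4) (nat_lit 5) (nat_lit 6) (nat_lit 4) (nat_lit 4) (nat_lit 4) (nat_lit 317) (nat_lit 257) (nat_lit 206)) (XT.lf (nat_lit 0) (nat_lit 50103400854) (nat_lit 152) (nat_lit 16824216494) (nat_lit 0) (nat_lit 38514410369) (nat_lit 4) (nat_lit 5) (nat_lit 6) (nat_lit 4) (nat_lit 4) (nat_lit 4) (nat_lit 318) (nat_lit 257) (nat_lit 205)))) (XT.nd (nat_lit 156) (nat_lit 0) (nat_lit 0) (XT.nd (nat_lit 78) (nat_lit 76) (nat_lit 0) (XT.lf (nat_lit 0) (nat_lit 59216149668) (nat_lit 152) (nat_lit 6562231963) (nat_lit 0) (nat_lit 47611175064) (nat_lit 4) (nat_lit 5) (nat_lit 6) (nat_lit 4) (nat_lit 4) (nat_lit 4) (nat_lit 319) (nat_lit 257) (nat_lit 204)) (XT.lf (nat_lit 0) (nat_lit 4727982742) (nat_lit 76) (nat_lit 64428406107) (nat_lit 76) (nat_lit 52808631393) (nat_lit 3) (nat_lit 4) (nat_lit 4) (nat_lit 5) (nat_lit 4) (nat_lit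 4) (nat_lit 320) (nat_lit 257) (nat_lit 203))) (XT.nd (nat_lit 78) (nat_lit 0) (nat_lit 0) (XT.lf (nat_lit 0) (nat_lit 17266113428) (nat_lit 76) (nat_lit 62790362412) (nat_lit 76) (nat_lit 51156883892) (nat_lit 3) (nat_lit 4) (nat_lit 4) (nat_lit 5) (nat_lit 4) (nat_lit 4) (nat_lit 321) (nat_lit 257) (nat_lit 202)) (XT.lf (nat_lit 0) (nat_lit 30780904622) (nat_lit 76) (nat_lit 61033966671) (nat_lit 76) (nat_lit 49387799443) (nat_lit 3) (nat_lit 4) (nat_lit 4) (nat_lit 5) (nat_lit 4) (nat_lit 4) (nat_lit 322) (nat_lit 257) (nat_lit 201)))))) (XT.nd (nat_lit 546) (nat_lit 76) (nat_lit 0) (XT.nd (nat_lit 234) (nat_lit 0) (nat_lit 0) (XT.nd (nat_lit 78) (nat_lit 0) (nat_lit 0) (XT.lf (nat_lit 0) (nat_lit 45352443975) (nat_lit 76) (nat_lit 59148810615) (nat_lit 76) (nat_lit 47490894582) (nat_lit 3) (nat_lit 4) (nat_lit 4) (nat_lit 5) (nat_lit 4) (nat_lit 4) (nat_lit 323) (nat_lit 257) (nat_lit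 200)) (XT.nd (nat_lit 78) (nat_lit 0) (nat_lit 0) (XT.lf (nat_lit 0) (nat_lit 61067081350) (nat_lit 76) (nat_lit 57123722948) (nat_lit 76) (nat_lit 45454928392) (nat_lit 3) (nat_lit 4) (nat_lit 4) (nat_lit 5) (nat_lit 4) (nat_lit 4) (nat_lit 324) (nat_lit 257) (nat_lit 199)) (XT.lf (nat_lit 0) (nat_lit 78017940525) (nat_lit 76) (nat_lit 54946703150) (nat_lit 76) (nat_lit 43267835888) (nat_lit 3) (nat_lit 4) (nat_lit 4) (nat_lit 5) (nat_lit 4) (nat_lit 4) (nat_lit 325) (nat_lit 257) (nat_lit 198)))) (XT.nd (nat_lit 156) (nat_lit 0) (nat_lit 0) (XT.nd (nat_lit 78) (nat_lit 0) (nat_lit 0) (XT.lf (nat_lit 0) (nat_lit 96305471034) (nat_lit 76) (nat_lit 52604850364) (nat_lit 76) (nat_lit 40916656522) (nat_lit 3) (nat_lit 4) (nat_lit 4) (nat_lit 5) (nat_lit 4) (nat_lit 4) (nat_lit 326) (nat_lit 257) (nat_lit 197)) (XT.lf (nat_lit 0) (nat_lit 116038043430) (nat_lit 76) (nat_lit 50084286943)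 (nat_lit 76) (nat_lit 38387457379) (nat_lit 3) (nat_lit 4) (nat_lit 4) (nat_lit 5) (nat_lit 4) (nat_lit 4) (nat_lit 327) (nat_lit 257) (nat_lit 196))) (XT.nd (nat_lit 78) (nat_lit 0) (nat_lit 0) (XT.lf (nat_lit 0) (nat_lit 137332591473) (nat_lit 76) (nat_lit 47370076215) (nat_lit 76) (nat_lit 35665250612) (nat_lit 3) (nat_lit 4) (nat_lit 4) (nat_lit 5) (nat_lit 4) (nat_lit 4) (nat_lit 328) (nat_lit 257) (nat_lit 195)) (XT.lf (nat_lit 0) (nat_lit 160315305080) (nat_lit 76) (nat_lit 44446133968) (nat_lit 76) (nat_lit 32733904625) (nat_lit 3) (nat_lit 4) (nat_lit 4) (nat_lit 5) (nat_lit 4) (nat_lit 4) (nat_lit 329) (nat_lit 257) (nat_lit 194))))) (XT.nd (nat_lit 312) (nat_lit 76) (nat_lit 0) (XT.nd (nat_lit 156) (nat_lit 0) (nat_lit 0) (XT.nd (nat_lit 78) (nat_lit 0) (nat_lit 0) (XT.lf (nat_lit 0) (nat_lit 185122378108) (nat_lit 76) (nat_lit 41295133138) (nat_lit 76) (nat_lit 29576048480)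 (nat_lit 3) (nat_lit 4) (nat_lit 4) (nat_lit 5) (nat_lit 4) (nat_lit 4) (nat_lit 330) (nat_lit 257) (nat_lit 193)) (XT.lf (nat_lit 0) (nat_lit 211900815435) (nat_lit 76) (nat_lit 37898401126) (nat_lit 76) (nat_lit 26172968955) (nat_lit 3) (nat_lit 4) (nat_lit 4) (nat_lit 5) (nat_lit 4) (nat_lit 4) (nat_lit 331) (nat_lit 257) (nat_lit 192))) (XT.nd (nat_lit 78) (nat_lit 0) (nat_lit 0) (XT.lf (nat_lit 0) (nat_lit 240809304096) (nat_lit 76) (nat_lit 34235809151) (nat_lit 76) (nat_lit 22504499653) (nat_lit 3) (nat_lit 4) (nat_lit 4) (nat_lit 5) (nat_lit 4) (nat_lit 4) (nat_lit 332) (nat_lit 257) (nat_lit 191)) (XT.lf (nat_lit 0) (nat_lit 272019153653) (nat_lit 76) (nat_lit 30285652963) (nat_lit 76) (nat_lit 18548901495) (nat_lit 3) (nat_lit 4) (nat_lit 4) (nat_lit 5) (nat_lit 4) (nat_lit 4) (nat_lit 333) (nat_lit 257) (nat_lit 190)))) (XT.nd (nat_lit 156) (nat_lit 76) (nat_lit 0) (XT.nd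 (nat_lit 78) (nat_lit 0) (nat_lit 0) (XT.lf (nat_lit 0) (nat_lit 305715311365) (nat_lit 76) (nat_lit 26024524230) (nat_lit 76) (nat_lit 14282733902) (nat_lit 3) (nat_lit 4) (nat_lit 4) (nat_lit 5) (nat_lit 4) (nat_lit 4) (nat_lit 334) (nat_lit 257) (nat_lit 189)) (XT.lf (nat_lit 0) (nat_lit 342097458164) (nat_lit 76) (nat_lit 21427171819) (nat_lit 76) (nat_lit 9680715878) (nat_lit 3) (nat_lit 4) (nat_lit 4) (nat_lit 5) (nat_lit 4) (nat_lit 4) (nat_lit 335) (nat_lit 257) (nat_lit 188))) (XT.nd (nat_lit 78) (nat_lit 76) (nat_lit 0) (XT.lf (nat_lit 0) (nat_lit 381381191959) (nat_lit 76) (nat_lit 16466352159) (nat_lit 76) (nat_lit 4715576208) (nat_lit 3) (nat_lit 4) (nat_lit 4) (nat_lit 5) (nat_lit 4) (nat_lit 4) (nat_lit 336) (nat_lit 257) (nat_lit 187)) (XT.lf (nat_lit 0) (nat_lit 609987309) (nat_lit 152) (nat_lit 10486002358) (nat_lit 76) (nat_lit 423172639801) (nat_lit 2) (nat_lit 5)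 (nat_lit 4) (nat_lit 5) (nat_lit 3) (nat_lit 4) (nat_lit 337) (nat_lit 257) (nat_lit 186))))))) (XT.nd (nat_lit 1170) (nat_lit 0) (nat_lit 0) (XT.nd (nat_lit 546) (nat_lit 0) (nat_lit 0) (XT.nd (nat_lit 234) (nat_lit 0) (nat_lit 0) (XT.nd (nat_lit 78) (nat_lit 0) (nat_lit 0) (XT.lf (nat_lit 0) (nat_lit 984439472) (nat_lit 76) (nat_lit 5141963963) (nat_lit 152) (nat_lit 462372813908) (nat_lit 1) (nat_lit 5) (nat_lit 2) (nat_lit 5) (nat_lit 3) (nat_lit 4) (nat_lit 338) (nat_lit 257) (nat_lit 185)) (XT.nd (nat_lit 78) (nat_lit 0) (nat_lit 0) (XT.lf (nat_lit 0) (nat_lit 12405195187) (nat_lit 152) (nat_lit 491522835526) (nat_lit 0) (nat_lit 1514538670) (nat_lit 1) (nat_lit 5) (nat_lit 3) (nat_lit 4) (nat_lit 1) (nat_lit 4) (nat_lit 339) (nat_lit 257) (nat_lit 184)) (XT.lf (nat_lit 0) (nat_lit 19316073598) (nat_lit 152) (nat_lit 517592458332) (nat_lit 0) (nat_lit 8422476954) (nat_lit 1) (nat_lit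 5) (nat_lit 3) (nat_lit 4) (nat_lit 1) (nat_lit 4) (nat_lit 340) (nat_lit 257) (nat_lit 183)))) (XT.nd (nat_lit 156) (nat_lit 0) (nat_lit 0) (XT.nd (nat_lit 78) (nat_lit 0) (nat_lit 0) (XT.lf (nat_lit 0) (nat_lit 26776327665) (nat_lit 152) (nat_lit 545754468586) (nat_lit 0) (nat_lit 15880008681) (nat_lit 1) (nat_lit 5) (nat_lit 3) (nat_lit 4) (nat_lit 1) (nat_lit 4) (nat_lit 341) (nat_lit 257) (nat_lit 182)) (XT.lf (nat_lit 0) (nat_lit 34830166302) (nat_lit 152) (nat_lit 576175752275) (nat_lit 0) (nat_lit 23931326632) (nat_lit 1) (nat_lit 5) (nat_lit 3) (nat_lit 4) (nat_lit 1) (nat_lit 4) (nat_lit 342) (nat_lit 257) (nat_lit 181))) (XT.nd (nat_lit 78) (nat_lit 0) (nat_lit 0) (XT.lf (nat_lit 0) (nat_lit 43525315958) (nat_lit 152) (nat_lit 609036583673) (nat_lit 0) (nat_lit 32624142321) (nat_lit 1) (nat_lit 5) (nat_lit 3) (nat_lit 4) (nat_lit 1) (nat_lit 4) (nat_lit 343) (nat_lit 257)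 (nat_lit 180)) (XT.lf (nat_lit 0) (nat_lit 52913303448) (nat_lit 152) (nat_lit 644531693632) (nat_lit 0) (nat_lit 42009968730) (nat_lit 1) (nat_lit 5) (nat_lit 3) (nat_lit 4) (nat_lit 1) (nat_lit 4) (nat_lit 344) (nat_lit 257) (nat_lit 179))))) (XT.nd (nat_lit 312) (nat_lit 0) (nat_lit 0) (XT.nd (nat_lit 156) (nat_lit 0) (nat_lit 0) (XT.nd (nat_lit 78) (nat_lit 0) (nat_lit 0) (XT.lf (nat_lit 0) (nat_lit 63049761290) (nat_lit 152) (nat_lit 682871423545) (nat_lit 0) (nat_lit 52144425571) (nat_lit 1) (nat_lit 5) (nat_lit 3) (nat_lit 4) (nat_lit 1) (nat_lit 4) (nat_lit 345) (nat_lit 257) (nat_lit 178)) (XT.lf (nat_lit 0) (nat_lit 73994757381) (nat_lit 152) (nat_lit 724282971811) (nat_lit 0) (nat_lit 63087568884) (nat_lit 1) (nat_lit 5) (nat_lit 3) (nat_lit 4) (nat_lit 1) (nat_lit 4) (nat_lit 346) (nat_lit 257) (nat_lit 177))) (XT.nd (nat_lit 78) (nat_lit 0) (nat_lit 0) (XT.lf (nat_lit 0)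 (nat_lit 85813150959) (nat_lit 152) (nat_lit 769011740198) (nat_lit 0) (nat_lit 74904246925) (nat_lit 1) (nat_lit 5) (nat_lit 3) (nat_lit 4) (nat_lit 1) (nat_lit 4) (nat_lit 347) (nat_lit 257) (nat_lit 176)) (XT.lf (nat_lit 0) (nat_lit 98574976947) (nat_lit 152) (nat_lit 817322788074) (nat_lit 0) (nat_lit 87664484455) (nat_lit 1) (nat_lit 5) (nat_lit 3) (nat_lit 4) (nat_lit 1) (nat_lit 4) (nat_lit 348) (nat_lit 257) (nat_lit 175)))) (XT.nd (nat_lit 156) (nat_lit 0) (nat_lit 0) (XT.nd (nat_lit 78) (nat_lit 0) (nat_lit 0) (XT.lf (nat_lit 0) (nat_lit 112355860982) (nat_lit 152) (nat_lit 869502403129) (nat_lit 0) (nat_lit 101443897694) (nat_lit 1) (nat_lit 5) (nat_lit 3) (nat_lit 4) (nat_lit 1) (nat_lit 4) (nat_lit 349) (nat_lit 257) (nat_lit 174)) (XT.lf (nat_lit 0) (nat_lit 127237467561) (nat_lit 152) (nat_lit 925859797899) (nat_lit 0) (nat_lit 116324142426) (nat_lit 1) (nat_lit 5) (nat_lit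 3) (nat_lit 4) (nat_lit 1) (nat_lit 4) (nat_lit 350) (nat_lit 257) (nat_lit 173))) (XT.nd (nat_lit 78) (nat_lit 0) (nat_lit 0) (XT.lf (nat_lit 0) (nat_lit 143307983983) (nat_lit 152) (nat_lit 986728942129) (nat_lit 0) (nat_lit 132393397878) (nat_lit 1) (nat_lit 5) (nat_lit 3) (nat_lit 4) (nat_lit 1) (nat_lit 4) (nat_lit 351) (nat_lit 257) (nat_lit 172)) (XT.lf (nat_lit 0) (nat_lit 160662642938) (nat_lit 152) (nat_lit 1052470541859) (nat_lit 0) (nat_lit 149746889268) (nat_lit 1) (nat_lit 5) (nat_lit 3) (nat_lit 4) (nat_lit 1) (nat_lit 4) (nat_lit 352) (nat_lit 257) (nat_lit 171)))))) (XT.nd (nat_lit 624) (nat_lit 0) (nat_lit 0) (XT.nd (nat_lit 312) (nat_lit 0) (nat_lit 0) (XT.nd (nat_lit 156) (nat_lit 0) (nat_lit 0) (XT.nd (nat_lit 78) (nat_lit 0) (nat_lit 0) (XT.lf (nat_lit 0) (nat_lit 179404286849) (nat_lit 152) (nat_lit 1123474176941) (nat_lit 0) (nat_lit 168487452100) (nat_lit 1)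 (nat_lit 5) (nat_lit 3) (nat_lit 4) (nat_lit 1) (nat_lit 4) (nat_lit 353) (nat_lit 257) (nat_lit 170)) (XT.lf (nat_lit 0) (nat_lit 199643977309) (nat_lit 152) (nat_lit 1200160609654) (nat_lit 0) (nat_lit 188726141561) (nat_lit 1) (nat_lit 5) (nat_lit 3) (nat_lit 4) (nat_lit 1) (nat_lit 4) (nat_lit 354) (nat_lit 257) (nat_lit 169))) (XT.nd (nat_lit 78) (nat_lit 0) (nat_lit 0) (XT.lf (nat_lit 0) (nat_lit 221501653225) (nat_lit 152) (nat_lit 1282984278120) (nat_lit 0) (nat_lit 210582890627) (nat_lit 1) (nat_lit 5) (nat_lit 3) (nat_lit 4) (nat_lit 1) (nat_lit 4) (nat_lit 355) (nat_lit 257) (nat_lit 168)) (XT.lf (nat_lit 0) (nat_lit 245106841565) (nat_lit 152) (nat_lit 1372435989263) (nat_lit 0) (nat_lit 234187220772) (nat_lit 1) (nat_lit 5) (nat_lit 3) (nat_lit 4) (nat_lit 1) (nat_lit 4) (nat_lit 356) (nat_lit 257) (nat_lit 167)))) (XT.nd (nat_lit 156) (nat_lit 0) (nat_lit 0) (XT.nd (nat_lit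 78) (nat_lit 0) (nat_lit 0) (XT.lf (nat_lit 0) (nat_lit 270599424928) (nat_lit 152) (nat_lit 1469045827297) (nat_lit 0) (nat_lit 259679009510) (nat_lit 1) (nat_lit 5) (nat_lit 3) (nat_lit 4) (nat_lit 1) (nat_lit 4) (nat_lit 357) (nat_lit 257) (nat_lit 166)) (XT.lf (nat_lit 0) (nat_lit 298130470473) (nat_lit 152) (nat_lit 1573386294965) (nat_lit 0) (nat_lit 287209319291) (nat_lit 1) (nat_lit 5) (nat_lit 3) (nat_lit 4) (nat_lit 1) (nat_lit 4) (nat_lit 358) (nat_lit 257) (nat_lit 165))) (XT.nd (nat_lit 78) (nat_lit 0) (nat_lit 0) (XT.lf (nat_lit 0) (nat_lit 327863125137) (nat_lit 152) (nat_lit 1686075706150) (nat_lit 0) (nat_lit 316941292692) (nat_lit 1) (nat_lit 5) (nat_lit 3) (nat_lit 4) (nat_lit 1) (nat_lit 4) (nat_lit 359) (nat_lit 257) (nat_lit 164)) (XT.lf (nat_lit 0) (nat_lit 359973582430) (nat_lit 152) (nat_lit 1807781849956) (nat_lit 0) (nat_lit 349051119186) (nat_lit 1) (nat_lit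 5) (nat_lit 3) (nat_lit 4) (nat_lit 1) (nat_lit 4) (nat_lit 360) (nat_lit 257) (nat_lit 163))))) (XT.nd (nat_lit 312) (nat_lit 0) (nat_lit 0) (XT.nd (nat_lit 156) (nat_lit 0) (nat_lit 0) (XT.nd (nat_lit 78) (nat_lit 0) (nat_lit 0) (XT.lf (nat_lit 0) (nat_lit 394652126542) (nat_lit 152) (nat_lit 1939225947976) (nat_lit 0) (nat_lit 383729079225) (nat_lit 1) (nat_lit 5) (nat_lit 3) (nat_lit 4) (nat_lit 1) (nat_lit 4) (nat_lit 361) (nat_lit 257) (nat_lit 162)) (XT.lf (nat_lit 0) (nat_lit 432104259958) (nat_lit 152) (nat_lit 2081186928197) (nat_lit 0) (nat_lit 421180671832) (nat_lit 1) (nat_lit 5) (nat_lit 3) (nat_lit 4) (nat_lit 1) (nat_lit 4) (nat_lit 362) (nat_lit 257) (nat_lit 161))) (XT.nd (nat_lit 78) (nat_lit 0) (nat_lit 0) (XT.lf (nat_lit 0) (nat_lit 472551921245) (nat_lit 152) (nat_lit 2234506040873) (nat_lit 0) (nat_lit 461627832371) (nat_lit 1) (nat_lit 5) (nat_lit 3) (nat_lit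 4) (nat_lit 1) (nat_lit 4) (nat_lit 363) (nat_lit 257) (nat_lit 160)) (XT.lf (nat_lit 0) (nat_lit 516234800249) (nat_lit 152) (nat_lit 2400091843708) (nat_lit 0) (nat_lit 505310247718) (nat_lit 1) (nat_lit 5) (nat_lit 3) (nat_lit 4) (nat_lit 1) (nat_lit 4) (nat_lit 364) (nat_lit 257) (nat_lit 159)))) (XT.nd (nat_lit 156) (nat_lit 0) (nat_lit 0) (XT.nd (nat_lit 78) (nat_lit 0) (nat_lit 0) (XT.lf (nat_lit 0) (nat_lit 563411758474) (nat_lit 152) (nat_lit 2578925585906) (nat_lit 0) (nat_lit 552486776632) (nat_lit 1) (nat_lit 5) (nat_lit 3) (nat_lit 4) (nat_lit 1) (nat_lit 4) (nat_lit 365) (nat_lit 257) (nat_lit 158)) (XT.lf (nat_lit 0) (nat_lit 614362363080) (nat_lit 152) (nat_lit 2772067022974) (nat_lit 0) (nat_lit 603436983729) (nat_lit 1) (nat_lit 5) (nat_lit 3) (nat_lit 4) (nat_lit 1) (nat_lit 4) (nat_lit 366) (nat_lit 257) (nat_lit 157))) (XT.nd (nat_lit 78) (nat_lit 0) (nat_lit 0)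 (XT.lf (nat_lit 0) (nat_lit 669388543577) (nat_lit 152) (nat_lit 2980660696762) (nat_lit 0) (nat_lit 658462796160) (nat_lit 1) (nat_lit 5) (nat_lit 3) (nat_lit 4) (nat_lit 1) (nat_lit 4) (nat_lit 367) (nat_lit 257) (nat_lit 156)) (XT.lf (nat_lit 0) (nat_lit 728816381034) (nat_lit 152) (nat_lit 3205942717930) (nat_lit 0) (nat_lit 717890292816) (nat_lit 1) (nat_lit 5) (nat_lit 3) (nat_lit 4) (nat_lit 1) (nat_lit 4) (nat_lit 368) (nat_lit 257) (nat_lit 155))))))))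
noncomputable def xc46 : XT := (XT.nd (nat_lit 34710) (nat_lit 0) (nat_lit 152) (XT.nd (nat_lit 33540) (nat_lit 0) (nat_lit 912) (XT.nd (nat_lit 32916) (nat_lit 0) (nat_lit 2204) (XT.nd (nat_lit 32604) (nat_lit 0) (nat_lit 3648) (XT.nd (nat_lit 32448) (nat_lit 0) (nat_lit 4712) (XT.lf (nat_lit 0) (nat_lit 792998040413) (nat_lit 152) (nat_lit 3449248091048) (nat_lit 0) (nat_lit 782071636638) (nat_lit 1) (nat_lit 5) (nat_lit 3) (nat_lit 4) (nat_lit 1) (nat_lit 4) (nat_lit 369) (nat_lit 257) (nat_lit 154)) (XT.nd (nat_lit 78) (nat_lit 0) (nat_lit 0) (XT.lf (nat_lit 0) (nat_lit 107913305) (nat_lit 228) (nat_lit 3065496623) (nat_lit 0) (nat_lit 107913305) (nat_lit 63) (nat_lit 5) (nat_lit 66) (nat_lit 4) (nat_lit 63) (nat_lit 4) (nat_lit 264) (nat_lit 258) (nat_lit 258)) (XT.lf (nat_lit 0) (nat_lit 3219477834) (nat_lit 228) (nat_lit 2393568120) (nat_lit 0) (nat_lit 1017519732) (nat_lit 63)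 (nat_lit 5) (nat_lit 66) (nat_lit 4) (nat_lit 63) (nat_lit 4) (nat_lit 265) (nat_lit 258) (nat_lit 257)))) (XT.nd (nat_lit 156) (nat_lit 760) (nat_lit 0) (XT.nd (nat_lit 78) (nat_lit 76) (nat_lit 0) (XT.lf (nat_lit 0) (nat_lit 1512362979) (nat_lit 228) (nat_lit 4725870308) (nat_lit 228) (nat_lit 485062110) (nat_lit 60) (nat_lit 4) (nat_lit 63) (nat_lit 5) (nat_lit 63) (nat_lit 4) (nat_lit 266) (nat_lit 258) (nat_lit 256)) (XT.lf (nat_lit 0) (nat_lit 2353741695) (nat_lit 304) (nat_lit 1232849633) (nat_lit 76) (nat_lit 3247871982) (nat_lit 59) (nat_lit 5) (nat_lit 63) (nat_lit 5) (nat_lit 60) (nat_lit 4) (nat_lit 267) (nat_lit 258) (nat_lit 255))) (XT.nd (nat_lit 78) (nat_lit 456) (nat_lit 0) (XT.lf (nat_lit 0) (nat_lit 3001490587) (nat_lit 304) (nat_lit 2228369163) (nat_lit 380) (nat_lit 1737824851) (nat_lit 55) (nat_lit 5) (nat_lit 59) (nat_lit 5) (nat_lit 60) (nat_lit 4) (nat_lit 268)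 (nat_lit 258) (nat_lit 254)) (XT.lf (nat_lit 0) (nat_lit 313681930) (nat_lit 380) (nat_lit 661969288) (nat_lit 456) (nat_lit 6149491156) (nat_lit 49) (nat_lit 5) (nat_lit 54) (nat_lit 5) (nat_lit 55) (nat_lit 5) (nat_lit 269) (nat_lit 258) (nat_lit 253))))) (XT.nd (nat_lit 312) (nat_lit 684) (nat_lit 0) (XT.nd (nat_lit 156) (nat_lit 304) (nat_lit 0) (XT.nd (nat_lit 78) (nat_lit 456) (nat_lit 0) (XT.lf (nat_lit 0) (nat_lit 3731137647) (nat_lit 456) (nat_lit 2418621025) (nat_lit 76) (nat_lit 1149179677) (nat_lit 49) (nat_lit 5) (nat_lit 55) (nat_lit 5) (nat_lit 50) (nat_lit 4) (nat_lit 270) (nat_lit 258) (nat_lit 252)) (XT.lf (nat_lit 0) (nat_lit 2214714354) (nat_lit 456) (nat_lit 4361690977) (nat_lit 532) (nat_lit 921479954) (nat_lit 43) (nat_lit 5) (nat_lit 49) (nat_lit 5) (nat_lit 50) (nat_lit 4) (nat_lit 271) (nat_lit 258) (nat_lit 251))) (XT.nd (nat_lit 78) (nat_lit 228) (nat_lit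 0) (XT.lf (nat_lit 0) (nat_lit 1710846749) (nat_lit 532) (nat_lit 609869609) (nat_lit 76) (nat_lit 5399293065) (nat_lit 42) (nat_lit 5) (nat_lit 49) (nat_lit 5) (nat_lit 43) (nat_lit 5) (nat_lit 272) (nat_lit 258) (nat_lit 250)) (XT.lf (nat_lit 0) (nat_lit 4428959575) (nat_lit 304) (nat_lit 3524232092) (nat_lit 76) (nat_lit 11429185) (nat_lit 39) (nat_lit 5) (nat_lit 43) (nat_lit 5) (nat_lit 40) (nat_lit 4) (nat_lit 273) (nat_lit 258) (nat_lit 249)))) (XT.nd (nat_lit 156) (nat_lit 380) (nat_lit 0) (XT.nd (nat_lit 78) (nat_lit 76) (nat_lit 0) (XT.lf (nat_lit 0) (nat_lit 1512949347) (nat_lit 228) (nat_lit 5791761924) (nat_lit 304) (nat_lit 929458845) (nat_lit 36) (nat_lit 5) (nat_lit 39) (nat_lit 5) (nat_lit 40) (nat_lit 4) (nat_lit 274) (nat_lit 258) (nat_lit 248)) (XT.lf (nat_lit 0) (nat_lit 1719476588) (nat_lit 304) (nat_lit 1620100644) (nat_lit 76) (nat_lit 5188296128) (nat_lit 35)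 (nat_lit 5) (nat_lit 39) (nat_lit 5) (nat_lit 36) (nat_lit 5) (nat_lit 275) (nat_lit 258) (nat_lit 247))) (XT.nd (nat_lit 78) (nat_lit 152) (nat_lit 0) (XT.lf (nat_lit 0) (nat_lit 3865546245) (nat_lit 228) (nat_lit 599830838) (nat_lit 304) (nat_lit 4383406908) (nat_lit 32) (nat_lit 5) (nat_lit 35) (nat_lit 5) (nat_lit 36) (nat_lit 5) (nat_lit 276) (nat_lit 258) (nat_lit 246)) (XT.lf (nat_lit 0) (nat_lit 455786930) (nat_lit 152) (nat_lit 6936869860) (nat_lit 228) (nat_lit 1806203444) (nat_lit 30) (nat_lit 5) (nat_lit 32) (nat_lit 5) (nat_lit 33) (nat_lit 4) (nat_lit 277) (nat_lit 258) (nat_lit 245)))))) (XT.nd (nat_lit 546) (nat_lit 608) (nat_lit 0) (XT.nd (nat_lit 234) (nat_lit 456) (nat_lit 0) (XT.nd (nat_lit 78) (nat_lit 152) (nat_lit 0) (XT.lf (nat_lit 0) (nat_lit 934626022) (nat_lit 228) (nat_lit 3197978029) (nat_lit 76) (nat_lit 5442319957) (nat_lit 29) (nat_lit 5) (nat_lit 32)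 (nat_lit 5) (nat_lit 30) (nat_lit 5) (nat_lit 278) (nat_lit 258) (nat_lit 244)) (XT.nd (nat_lit 78) (nat_lit 0) (nat_lit 0) (XT.lf (nat_lit 0) (nat_lit 2690774958) (nat_lit 152) (nat_lit 1033080497) (nat_lit 228) (nat_lit 6259667858) (nat_lit 27) (nat_lit 5) (nat_lit 29) (nat_lit 5) (nat_lit 30) (nat_lit 5) (nat_lit 279) (nat_lit 258) (nat_lit 243)) (XT.lf (nat_lit 0) (nat_lit 6748200450) (nat_lit 228) (nat_lit 1435806542) (nat_lit 76) (nat_lit 2240160968) (nat_lit 27) (nat_lit 5) (nat_lit 30) (nat_lit 5) (nat_lit 28) (nat_lit 4) (nat_lit 280) (nat_lit 258) (nat_lit 242)))) (XT.nd (nat_lit 156) (nat_lit 76) (nat_lit 0) (XT.nd (nat_lit 78) (nat_lit 228) (nat_lit 0) (XT.lf (nat_lit 0) (nat_lit 4931243246) (nat_lit 152) (nat_lit 5105166797) (nat_lit 228) (nat_lit 862192975) (nat_lit 25) (nat_lit 5) (nat_lit 27) (nat_lit 5) (nat_lit 28) (nat_lit 4) (nat_lit 281) (nat_lit 258) (nat_lit 241))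 (XT.lf (nat_lit 0) (nat_lit 260682211) (nat_lit 152) (nat_lit 1731782183) (nat_lit 228) (nat_lit 9420617663) (nat_lit 22) (nat_lit 5) (nat_lit 24) (nat_lit 5) (nat_lit 25) (nat_lit 5) (nat_lit 282) (nat_lit 258) (nat_lit 240))) (XT.nd (nat_lit 78) (nat_lit 76) (nat_lit 0) (XT.lf (nat_lit 0) (nat_lit 5123785393) (nat_lit 228) (nat_lit 4885999128) (nat_lit 76) (nat_lit 1949785537) (nat_lit 22) (nat_lit 5) (nat_lit 25) (nat_lit 5) (nat_lit 23) (nat_lit 4) (nat_lit 283) (nat_lit 258) (nat_lit 239)) (XT.lf (nat_lit 0) (nat_lit 1754045762) (nat_lit 76) (nat_lit 6729014738) (nat_lit 152) (nat_lit 4068735498) (nat_lit 21) (nat_lit 5) (nat_lit 22) (nat_lit 5) (nat_lit 23) (nat_lit 4) (nat_lit 284) (nat_lit 258) (nat_lit 238))))) (XT.nd (nat_lit 312) (nat_lit 304) (nat_lit 0) (XT.nd (nat_lit 156) (nat_lit 76) (nat_lit 0) (XT.nd (nat_lit 78) (nat_lit 228) (nat_lit 0) (XT.lf (nat_lit 0) (nat_lit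 9037049053) (nat_lit 76) (nat_lit 3102034813) (nat_lit 152) (nat_lit 1050274515) (nat_lit 21) (nat_lit 5) (nat_lit 22) (nat_lit 5) (nat_lit 23) (nat_lit 4) (nat_lit 285) (nat_lit 258) (nat_lit 237)) (XT.lf (nat_lit 0) (nat_lit 2091265979) (nat_lit 228) (nat_lit 10937161214) (nat_lit 76) (nat_lit 846046541) (nat_lit 18) (nat_lit 5) (nat_lit 21) (nat_lit 5) (nat_lit 19) (nat_lit 4) (nat_lit 286) (nat_lit 258) (nat_lit 236))) (XT.nd (nat_lit 78) (nat_lit 76) (nat_lit 0) (XT.lf (nat_lit 0) (nat_lit 5526264670) (nat_lit 228) (nat_lit 4047601094) (nat_lit 76) (nat_lit 5030597866) (nat_lit 18) (nat_lit 5) (nat_lit 21) (nat_lit 5) (nat_lit 19) (nat_lit 4) (nat_lit 287) (nat_lit 258) (nat_lit 235)) (XT.lf (nat_lit 0) (nat_lit 3414160386) (nat_lit 76) (nat_lit 5813110140) (nat_lit 152) (nat_lit 6166431781) (nat_lit 17) (nat_lit 5) (nat_lit 18) (nat_lit 5) (nat_lit 19) (nat_lit 4) (nat_lit 288)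 (nat_lit 258) (nat_lit 234)))) (XT.nd (nat_lit 156) (nat_lit 76) (nat_lit 0) (XT.nd (nat_lit 78) (nat_lit 228) (nat_lit 0) (XT.lf (nat_lit 0) (nat_lit 11557091098) (nat_lit 76) (nat_lit 1690254156) (nat_lit 152) (nat_lit 2997031096) (nat_lit 17) (nat_lit 5) (nat_lit 18) (nat_lit 5) (nat_lit 19) (nat_lit 4) (nat_lit 289) (nat_lit 258) (nat_lit 233)) (XT.lf (nat_lit 0) (nat_lit 465472844) (nat_lit 228) (nat_lit 14031818813) (nat_lit 76) (nat_lit 2660240620) (nat_lit 14) (nat_lit 5) (nat_lit 17) (nat_lit 5) (nat_lit 15) (nat_lit 4) (nat_lit 290) (nat_lit 258) (nat_lit 232))) (XT.nd (nat_lit 78) (nat_lit 76) (nat_lit 0) (XT.lf (nat_lit 0) (nat_lit 4136604093) (nat_lit 228) (nat_lit 6569575934) (nat_lit 76) (nat_lit 7423956931) (nat_lit 14) (nat_lit 5) (nat_lit 17) (nat_lit 5) (nat_lit 15) (nat_lit 4) (nat_lit 291) (nat_lit 258) (nat_lit 231)) (XT.lf (nat_lit 0) (nat_lit 1430332947) (nat_lit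 76) (nat_lit 6629709408) (nat_lit 152) (nat_lit 11123917822) (nat_lit 13) (nat_lit 5) (nat_lit 14) (nat_lit 5) (nat_lit 15) (nat_lit 4) (nat_lit 292) (nat_lit 258) (nat_lit 230))))))) (XT.nd (nat_lit 1170) (nat_lit 304) (nat_lit 0) (XT.nd (nat_lit 546) (nat_lit 228) (nat_lit 0) (XT.nd (nat_lit 234) (nat_lit 152) (nat_lit 0) (XT.nd (nat_lit 78) (nat_lit 76) (nat_lit 0) (XT.lf (nat_lit 0) (nat_lit 10316300695) (nat_lit 76) (nat_lit 2087441745) (nat_lit 152) (nat_lit 7909927984) (nat_lit 13) (nat_lit 5) (nat_lit 14) (nat_lit 5) (nat_lit 15) (nat_lit 4) (nat_lit 293) (nat_lit 258) (nat_lit 229)) (XT.nd (nat_lit 78) (nat_lit 76) (nat_lit 0) (XT.lf (nat_lit 0) (nat_lit 17093694868) (nat_lit 152) (nat_lit 1810793534) (nat_lit 0) (nat_lit 2629453872) (nat_lit 13) (nat_lit 5) (nat_lit 15) (nat_lit 4) (nat_lit 13) (nat_lit 4) (nat_lit 294) (nat_lit 258) (nat_lit 228)) (XT.lf (nat_lit 0) (nat_lit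 7224553946) (nat_lit 76) (nat_lit 15098350600) (nat_lit 76) (nat_lit 515885415) (nat_lit 12) (nat_lit 4) (nat_lit 13) (nat_lit 5) (nat_lit 13) (nat_lit 4) (nat_lit 295) (nat_lit 258) (nat_lit 227)))) (XT.nd (nat_lit 156) (nat_lit 0) (nat_lit 0) (XT.nd (nat_lit 78) (nat_lit 76) (nat_lit 0) (XT.lf (nat_lit 0) (nat_lit 3523503875) (nat_lit 152) (nat_lit 7363043965) (nat_lit 76) (nat_lit 13355400242) (nat_lit 11) (nat_lit 5) (nat_lit 13) (nat_lit 5) (nat_lit 12) (nat_lit 4) (nat_lit 296) (nat_lit 258) (nat_lit 226)) (XT.lf (nat_lit 0) (nat_lit 1504669431) (nat_lit 76) (nat_lit 6330888090) (nat_lit 152) (nat_lit 17922601300) (nat_lit 10) (nat_lit 5) (nat_lit 11) (nat_lit 5) (nat_lit 12) (nat_lit 4) (nat_lit 297) (nat_lit 258) (nat_lit 225))) (XT.nd (nat_lit 78) (nat_lit 0) (nat_lit 0) (XT.lf (nat_lit 0) (nat_lit 11397768147) (nat_lit 76) (nat_lit 1239207108) (nat_lit 152) (nat_lit 14747197225)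 (nat_lit 10) (nat_lit 5) (nat_lit 11) (nat_lit 5) (nat_lit 12) (nat_lit 4) (nat_lit 298) (nat_lit 258) (nat_lit 224)) (XT.lf (nat_lit 0) (nat_lit 17871231104) (nat_lit 152) (nat_lit 7258811440) (nat_lit 0) (nat_lit 4006380461) (nat_lit 10) (nat_lit 5) (nat_lit 12) (nat_lit 4) (nat_lit 10) (nat_lit 4) (nat_lit 299) (nat_lit 258) (nat_lit 223))))) (XT.nd (nat_lit 312) (nat_lit 76) (nat_lit 0) (XT.nd (nat_lit 156) (nat_lit 76) (nat_lit 0) (XT.nd (nat_lit 78) (nat_lit 0) (nat_lit 0) (XT.lf (nat_lit 0) (nat_lit 2151297491) (nat_lit 76) (nat_lit 21407111623) (nat_lit 76) (nat_lit 7467759688) (nat_lit 9) (nat_lit 4) (nat_lit 10) (nat_lit 5) (nat_lit 10) (nat_lit 4) (nat_lit 300) (nat_lit 258) (nat_lit 222)) (XT.lf (nat_lit 0) (nat_lit 12638216223) (nat_lit 76) (nat_lit 17212618435) (nat_lit 76) (nat_lit 3204283821) (nat_lit 9) (nat_lit 4) (nat_lit 10) (nat_lit 5) (nat_lit 10) (nat_lit 4) (nat_lit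 301) (nat_lit 258) (nat_lit 221))) (XT.nd (nat_lit 78) (nat_lit 0) (nat_lit 0) (XT.lf (nat_lit 0) (nat_lit 1284397857) (nat_lit 152) (nat_lit 11400659921) (nat_lit 76) (nat_lit 22562337740) (nat_lit 8) (nat_lit 5) (nat_lit 10) (nat_lit 5) (nat_lit 9) (nat_lit 4) (nat_lit 302) (nat_lit 258) (nat_lit 220)) (XT.lf (nat_lit 0) (nat_lit 5916628889) (nat_lit 152) (nat_lit 1824760902) (nat_lit 76) (nat_lit 29870437708) (nat_lit 8) (nat_lit 5) (nat_lit 10) (nat_lit 5) (nat_lit 9) (nat_lit 4) (nat_lit 303) (nat_lit 258) (nat_lit 219)))) (XT.nd (nat_lit 156) (nat_lit 0) (nat_lit 0) (XT.nd (nat_lit 78) (nat_lit 0) (nat_lit 0) (XT.lf (nat_lit 0) (nat_lit 8889281853) (nat_lit 76) (nat_lit 2204656377) (nat_lit 152) (nat_lit 29057549691) (nat_lit 7) (nat_lit 5) (nat_lit 8) (nat_lit 5) (nat_lit 9) (nat_lit 4) (nat_lit 304) (nat_lit 258) (nat_lit 218)) (XT.lf (nat_lit 0) (nat_lit 16788544083) (nat_lit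 152) (nat_lit 22491250613) (nat_lit 0) (nat_lit 3606308902) (nat_lit 7) (nat_lit 5) (nat_lit 9) (nat_lit 4) (nat_lit 7) (nat_lit 4) (nat_lit 305) (nat_lit 258) (nat_lit 217))) (XT.nd (nat_lit 78) (nat_lit 0) (nat_lit 0) (XT.lf (nat_lit 0) (nat_lit 22959995582) (nat_lit 152) (nat_lit 13143530197) (nat_lit 0) (nat_lit 9734289612) (nat_lit 7) (nat_lit 5) (nat_lit 9) (nat_lit 4) (nat_lit 7) (nat_lit 4) (nat_lit 306) (nat_lit 258) (nat_lit 216)) (XT.lf (nat_lit 0) (nat_lit 29591842254) (nat_lit 152) (nat_lit 3110628885) (nat_lit 0) (nat_lit 16325885553) (nat_lit 7) (nat_lit 5) (nat_lit 9) (nat_lit 4) (nat_lit 7) (nat_lit 4) (nat_lit 307) (nat_lit 258) (nat_lit 215)))))) (XT.nd (nat_lit 624) (nat_lit 76) (nat_lit 0) (XT.nd (nat_lit 312) (nat_lit 152) (nat_lit 0) (XT.nd (nat_lit 156) (nat_lit 0) (nat_lit 0) (XT.nd (nat_lit 78) (nat_lit 0) (nat_lit 0) (XT.lf (nat_lit 0) (nat_lit 8070633318)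 (nat_lit 76) (nat_lit 28846849537) (nat_lit 76) (nat_lit 15543623641) (nat_lit 6) (nat_lit 4) (nat_lit 7) (nat_lit 5) (nat_lit 7) (nat_lit 4) (nat_lit 308) (nat_lit 258) (nat_lit 214)) (XT.lf (nat_lit 0) (nat_lit 20266772019) (nat_lit 76) (nat_lit 24617525933) (nat_lit 76) (nat_lit 11279791524) (nat_lit 6) (nat_lit 4) (nat_lit 7) (nat_lit 5) (nat_lit 7) (nat_lit 4) (nat_lit 309) (nat_lit 258) (nat_lit 213))) (XT.nd (nat_lit 78) (nat_lit 0) (nat_lit 0) (XT.lf (nat_lit 0) (nat_lit 33386260427) (nat_lit 76) (nat_lit 20074487776) (nat_lit 76) (nat_lit 6704801039) (nat_lit 6) (nat_lit 4) (nat_lit 7) (nat_lit 5) (nat_lit 7) (nat_lit 4) (nat_lit 310) (nat_lit 258) (nat_lit 212)) (XT.lf (nat_lit 0) (nat_lit 47506843659) (nat_lit 76) (nat_lit 15190813357) (nat_lit 76) (nat_lit 1791541132) (nat_lit 6) (nat_lit 4) (nat_lit 7) (nat_lit 5) (nat_lit 7) (nat_lit 4) (nat_lit 311) (nat_lit 258) (nat_lit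 211)))) (XT.nd (nat_lit 156) (nat_lit 0) (nat_lit 0) (XT.nd (nat_lit 78) (nat_lit 76) (nat_lit 0) (XT.lf (nat_lit 0) (nat_lit 3314564706) (nat_lit 152) (nat_lit 6532371605) (nat_lit 76) (nat_lit 59307008464) (nat_lit 5) (nat_lit 5) (nat_lit 7) (nat_lit 5) (nat_lit 6) (nat_lit 4) (nat_lit 312) (nat_lit 258) (nat_lit 210)) (XT.lf (nat_lit 0) (nat_lit 4909936024) (nat_lit 76) (nat_lit 3917932729) (nat_lit 152) (nat_lit 65352655426) (nat_lit 4) (nat_lit 5) (nat_lit 5) (nat_lit 5) (nat_lit 6) (nat_lit 4) (nat_lit 313) (nat_lit 258) (nat_lit 209))) (XT.nd (nat_lit 78) (nat_lit 0) (nat_lit 0) (XT.lf (nat_lit 0) (nat_lit 15002867503) (nat_lit 152) (nat_lit 62063189488) (nat_lit 0) (nat_lit 2525537041) (nat_lit 4) (nat_lit 5) (nat_lit 6) (nat_lit 4) (nat_lit 4) (nat_lit 4) (nat_lit 314) (nat_lit 258) (nat_lit 208)) (XT.lf (nat_lit 0) (nat_lit 21752900002) (nat_lit 152) (nat_lit 54420746058) (nat_lit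 0) (nat_lit 9255434154) (nat_lit 4) (nat_lit 5) (nat_lit 6) (nat_lit 4) (nat_lit 4) (nat_lit 4) (nat_lit 315) (nat_lit 258) (nat_lit 207))))) (XT.nd (nat_lit 312) (nat_lit 76) (nat_lit 0) (XT.nd (nat_lit 156) (nat_lit 0) (nat_lit 0) (XT.nd (nat_lit 78) (nat_lit 0) (nat_lit 0) (XT.lf (nat_lit 0) (nat_lit 29023740067) (nat_lit 152) (nat_lit 46203742938) (nat_lit 0) (nat_lit 16507630343) (nat_lit 4) (nat_lit 5) (nat_lit 6) (nat_lit 4) (nat_lit 4) (nat_lit 4) (nat_lit 316) (nat_lit 258) (nat_lit 206)) (XT.lf (nat_lit 0) (nat_lit 36858474157) (nat_lit 152) (nat_lit 37363486775) (nat_lit 0) (nat_lit 24325101585) (nat_lit 4) (nat_lit 5) (nat_lit 6) (nat_lit 4) (nat_lit 4) (nat_lit 4) (nat_lit 317) (nat_lit 258) (nat_lit 205))) (XT.nd (nat_lit 78) (nat_lit 0) (nat_lit 0) (XT.lf (nat_lit 0) (nat_lit 45303530328) (nat_lit 152) (nat_lit 27847590865) (nat_lit 0) (nat_lit 32754173636) (nat_lit 4)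 (nat_lit 5) (nat_lit 6) (nat_lit 4) (nat_lit 4) (nat_lit 4) (nat_lit 318) (nat_lit 258) (nat_lit 204)) (XT.lf (nat_lit 0) (nat_lit 54408953355) (nat_lit 152) (nat_lit 17599664715) (nat_lit 0) (nat_lit 41844796553) (nat_lit 4) (nat_lit 5) (nat_lit 6) (nat_lit 4) (nat_lit 4) (nat_lit 4) (nat_lit 319) (nat_lit 258) (nat_lit 203)))) (XT.nd (nat_lit 156) (nat_lit 0) (nat_lit 0) (XT.nd (nat_lit 78) (nat_lit 76) (nat_lit 0) (XT.lf (nat_lit 0) (nat_lit 64228701301) (nat_lit 152) (nat_lit 6558979874) (nat_lit 0) (nat_lit 51650840694) (nat_lit 4) (nat_lit 5) (nat_lit 6) (nat_lit 4) (nat_lit 4) (nat_lit 4) (nat_lit 320) (nat_lit 258) (nat_lit 202)) (XT.lf (nat_lit 0) (nat_lit 5621079080) (nat_lit 76) (nat_lit 69335073272) (nat_lit 76) (nat_lit 56744523956) (nat_lit 3) (nat_lit 4) (nat_lit 4) (nat_lit 5) (nat_lit 4) (nat_lit 4) (nat_lit 321) (nat_lit 258) (nat_lit 201))) (XT.nd (nat_lit 78) (nat_lit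 0) (nat_lit 0) (XT.lf (nat_lit 0) (nat_lit 19124122613) (nat_lit 76) (nat_lit 67584327216) (nat_lit 76) (nat_lit 54982029096) (nat_lit 3) (nat_lit 4) (nat_lit 4) (nat_lit 5) (nat_lit 4) (nat_lit 4) (nat_lit 322) (nat_lit 258) (nat_lit 200)) (XT.lf (nat_lit 0) (nat_lit 33684784501) (nat_lit 76) (nat_lit 65704402349) (nat_lit 76) (nat_lit 53091225706) (nat_lit 3) (nat_lit 4) (nat_lit 4) (nat_lit 5) (nat_lit 4) (nat_lit 4) (nat_lit 323) (nat_lit 258) (nat_lit 199))))))))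
noncomputable def xc47 : XT := (XT.nd (nat_lit 2418) (nat_lit 0) (nat_lit 0) (XT.nd (nat_lit 1170) (nat_lit 76) (nat_lit 0) (XT.nd (nat_lit 546) (nat_lit 76) (nat_lit 0) (XT.nd (nat_lit 234) (nat_lit 0) (nat_lit 0) (XT.nd (nat_lit 78) (nat_lit 0) (nat_lit 0) (XT.lf (nat_lit 0) (nat_lit 49389350150) (nat_lit 76) (nat_lit 63684158376) (nat_lit 76) (nat_lit 51060909026) (nat_lit 3) (nat_lit 4) (nat_lit 4) (nat_lit 5) (nat_lit 4) (nat_lit 4) (nat_lit 324) (nat_lit 258) (nat_lit 198)) (XT.nd (nat_lit 78) (nat_lit 0) (nat_lit 0) (XT.lf (nat_lit 0) (nat_lit 66330883652) (nat_lit 76) (nat_lit 61511623479) (nat_lit 76) (nat_lit 48879047550) (nat_lit 3) (nat_lit 4) (nat_lit 4) (nat_lit 5) (nat_lit 4) (nat_lit 4) (nat_lit 325) (nat_lit 258) (nat_lit 197)) (XT.lf (nat_lit 0) (nat_lit 84609779279) (nat_lit 76) (nat_lit 59173923380) (nat_lit 76) (nat_lit 46532711729) (nat_lit 3) (nat_lit 4) (nat_lit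 4) (nat_lit 5) (nat_lit 4) (nat_lit 4) (nat_lit 326) (nat_lit 258) (nat_lit 196)))) (XT.nd (nat_lit 156) (nat_lit 0) (nat_lit 0) (XT.nd (nat_lit 78) (nat_lit 0) (nat_lit 0) (XT.lf (nat_lit 0) (nat_lit 104334356413) (nat_lit 76) (nat_lit 56657205039) (nat_lit 76) (nat_lit 44007997349) (nat_lit 3) (nat_lit 4) (nat_lit 4) (nat_lit 5) (nat_lit 4) (nat_lit 4) (nat_lit 327) (nat_lit 258) (nat_lit 195)) (XT.lf (nat_lit 0) (nat_lit 125621501438) (nat_lit 76) (nat_lit 53946554570) (nat_lit 76) (nat_lit 41289943140) (nat_lit 3) (nat_lit 4) (nat_lit 4) (nat_lit 5) (nat_lit 4) (nat_lit 4) (nat_lit 328) (nat_lit 258) (nat_lit 194))) (XT.nd (nat_lit 78) (nat_lit 0) (nat_lit 0) (XT.lf (nat_lit 0) (nat_lit 148597360397) (nat_lit 76) (nat_lit 51025908860) (nat_lit 76) (nat_lit 38362442116) (nat_lit 3) (nat_lit 4) (nat_lit 4) (nat_lit 5) (nat_lit 4) (nat_lit 4) (nat_lit 329) (nat_lit 258) (nat_lit 193))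 (XT.lf (nat_lit 0) (nat_lit 173398086529) (nat_lit 76) (nat_lit 47877960378) (nat_lit 76) (nat_lit 35208146120) (nat_lit 3) (nat_lit 4) (nat_lit 4) (nat_lit 5) (nat_lit 4) (nat_lit 4) (nat_lit 330) (nat_lit 258) (nat_lit 192))))) (XT.nd (nat_lit 312) (nat_lit 76) (nat_lit 0) (XT.nd (nat_lit 156) (nat_lit 0) (nat_lit 0) (XT.nd (nat_lit 78) (nat_lit 0) (nat_lit 0) (XT.lf (nat_lit 0) (nat_lit 200170647100) (nat_lit 76) (nat_lit 44484054615) (nat_lit 76) (nat_lit 31808363030) (nat_lit 3) (nat_lit 4) (nat_lit 4) (nat_lit 5) (nat_lit 4) (nat_lit 4) (nat_lit 331) (nat_lit 258) (nat_lit 191)) (XT.lf (nat_lit 0) (nat_lit 229073694320) (nat_lit 76) (nat_lit 40824079537) (nat_lit 76) (nat_lit 28142945982) (nat_lit 3) (nat_lit 4) (nat_lit 4) (nat_lit 5) (nat_lit 4) (nat_lit 4) (nat_lit 332) (nat_lit 258) (nat_lit 190))) (XT.nd (nat_lit 78) (nat_lit 0) (nat_lit 0) (XT.lf (nat_lit 0) (nat_lit 260278505507)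 (nat_lit 76) (nat_lit 36876346402) (nat_lit 76) (nat_lit 24190173986) (nat_lit 3) (nat_lit 4) (nat_lit 4) (nat_lit 5) (nat_lit 4) (nat_lit 4) (nat_lit 333) (nat_lit 258) (nat_lit 189)) (XT.lf (nat_lit 0) (nat_lit 293969998061) (nat_lit 76) (nat_lit 32617461237) (nat_lit 76) (nat_lit 19926623209) (nat_lit 3) (nat_lit 4) (nat_lit 4) (nat_lit 5) (nat_lit 4) (nat_lit 4) (nat_lit 334) (nat_lit 258) (nat_lit 188)))) (XT.nd (nat_lit 156) (nat_lit 76) (nat_lit 0) (XT.nd (nat_lit 78) (nat_lit 0) (nat_lit 0) (XT.lf (nat_lit 0) (nat_lit 330347825269) (nat_lit 76) (nat_lit 28022186202) (nat_lit 76) (nat_lit 15327028164) (nat_lit 3) (nat_lit 4) (nat_lit 4) (nat_lit 5) (nat_lit 4) (nat_lit 4) (nat_lit 335) (nat_lit 258) (nat_lit 187)) (XT.lf (nat_lit 0) (nat_lit 369627559442) (nat_lit 76) (nat_lit 23063290040) (nat_lit 76) (nat_lit 10364131991) (nat_lit 3) (nat_lit 4) (nat_lit 4) (nat_lit 5) (nat_lit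 4) (nat_lit 4) (nat_lit 336) (nat_lit 258) (nat_lit 186))) (XT.nd (nat_lit 78) (nat_lit 76) (nat_lit 0) (XT.lf (nat_lit 0) (nat_lit 412041969376) (nat_lit 76) (nat_lit 17711386698) (nat_lit 76) (nat_lit 5008524936) (nat_lit 3) (nat_lit 4) (nat_lit 4) (nat_lit 5) (nat_lit 4) (nat_lit 4) (nat_lit 337) (nat_lit 258) (nat_lit 185)) (XT.lf (nat_lit 0) (nat_lit 732934879) (nat_lit 152) (nat_lit 11181786576) (nat_lit 76) (nat_lit 457089425102) (nat_lit 2) (nat_lit 5) (nat_lit 4) (nat_lit 5) (nat_lit 3) (nat_lit 4) (nat_lit 338) (nat_lit 258) (nat_lit 184)))))) (XT.nd (nat_lit 624) (nat_lit 0) (nat_lit 0) (XT.nd (nat_lit 312) (nat_lit 0) (nat_lit 0) (XT.nd (nat_lit 156) (nat_lit 0) (nat_lit 0) (XT.nd (nat_lit 78) (nat_lit 0) (nat_lit 0) (XT.lf (nat_lit 0) (nat_lit 1202667918) (nat_lit 76) (nat_lit 5485858226) (nat_lit 152) (nat_lit 499284829436) (nat_lit 1) (nat_lit 5) (nat_lit 2) (nat_lit 5)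 (nat_lit 3) (nat_lit 4) (nat_lit 339) (nat_lit 258) (nat_lit 183)) (XT.lf (nat_lit 0) (nat_lit 13465789429) (nat_lit 152) (nat_lit 530711653150) (nat_lit 0) (nat_lit 1695042586) (nat_lit 1) (nat_lit 5) (nat_lit 3) (nat_lit 4) (nat_lit 1) (nat_lit 4) (nat_lit 340) (nat_lit 258) (nat_lit 182))) (XT.nd (nat_lit 78) (nat_lit 0) (nat_lit 0) (XT.lf (nat_lit 0) (nat_lit 20924487844) (nat_lit 152) (nat_lit 558876698315) (nat_lit 0) (nat_lit 9151220316) (nat_lit 1) (nat_lit 5) (nat_lit 3) (nat_lit 4) (nat_lit 1) (nat_lit 4) (nat_lit 341) (nat_lit 258) (nat_lit 181)) (XT.lf (nat_lit 0) (nat_lit 28976886062) (nat_lit 152) (nat_lit 589300792107) (nat_lit 0) (nat_lit 17201284567) (nat_lit 1) (nat_lit 5) (nat_lit 3) (nat_lit 4) (nat_lit 1) (nat_lit 4) (nat_lit 342) (nat_lit 258) (nat_lit 180)))) (XT.nd (nat_lit 156) (nat_lit 0) (nat_lit 0) (XT.nd (nat_lit 78) (nat_lit 0) (nat_lit 0) (XT.lf (nat_lit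 0) (nat_lit 37670701998) (nat_lit 152) (nat_lit 622164225451) (nat_lit 0) (nat_lit 25892939421) (nat_lit 1) (nat_lit 5) (nat_lit 3) (nat_lit 4) (nat_lit 1) (nat_lit 4) (nat_lit 343) (nat_lit 258) (nat_lit 179)) (XT.lf (nat_lit 0) (nat_lit 47057454561) (nat_lit 152) (nat_lit 657661744621) (nat_lit 0) (nat_lit 35277690984) (nat_lit 1) (nat_lit 5) (nat_lit 3) (nat_lit 4) (nat_lit 1) (nat_lit 4) (nat_lit 344) (nat_lit 258) (nat_lit 178))) (XT.nd (nat_lit 78) (nat_lit 0) (nat_lit 0) (XT.lf (nat_lit 0) (nat_lit 57192768952) (nat_lit 152) (nat_lit 696003705284) (nat_lit 0) (nat_lit 45411152596) (nat_lit 1) (nat_lit 5) (nat_lit 3) (nat_lit 4) (nat_lit 1) (nat_lit 4) (nat_lit 345) (nat_lit 258) (nat_lit 177)) (XT.lf (nat_lit 0) (nat_lit 68136706293) (nat_lit 152) (nat_lit 737417319059) (nat_lit 0) (nat_lit 56353374401) (nat_lit 1) (nat_lit 5) (nat_lit 3) (nat_lit 4) (nat_lit 1) (nat_lit 4) (nat_lit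 346) (nat_lit 258) (nat_lit 176))))) (XT.nd (nat_lit 312) (nat_lit 0) (nat_lit 0) (XT.nd (nat_lit 156) (nat_lit 0) (nat_lit 0) (XT.nd (nat_lit 78) (nat_lit 0) (nat_lit 0) (XT.lf (nat_lit 0) (nat_lit 79954119546) (nat_lit 152) (nat_lit 782147999955) (nat_lit 0) (nat_lit 68169199195) (nat_lit 1) (nat_lit 5) (nat_lit 3) (nat_lit 4) (nat_lit 1) (nat_lit 4) (nat_lit 347) (nat_lit 258) (nat_lit 175)) (XT.lf (nat_lit 0) (nat_lit 92715037826) (nat_lit 152) (nat_lit 830460818672) (nat_lit 0) (nat_lit 80928646680) (nat_lit 1) (nat_lit 5) (nat_lit 3) (nat_lit 4) (nat_lit 1) (nat_lit 4) (nat_lit 348) (nat_lit 258) (nat_lit 174))) (XT.nd (nat_lit 78) (nat_lit 0) (nat_lit 0) (XT.lf (nat_lit 0) (nat_lit 106495081391) (nat_lit 152) (nat_lit 882642073396) (nat_lit 0) (nat_lit 94707328396) (nat_lit 1) (nat_lit 5) (nat_lit 3) (nat_lit 4) (nat_lit 1) (nat_lit 4) (nat_lit 349) (nat_lit 258) (nat_lit 173))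 (XT.lf (nat_lit 0) (nat_lit 121375909757) (nat_lit 152) (nat_lit 939000986376) (nat_lit 0) (nat_lit 109586895792) (nat_lit 1) (nat_lit 5) (nat_lit 3) (nat_lit 4) (nat_lit 1) (nat_lit 4) (nat_lit 350) (nat_lit 258) (nat_lit 172)))) (XT.nd (nat_lit 156) (nat_lit 0) (nat_lit 0) (XT.nd (nat_lit 78) (nat_lit 0) (nat_lit 0) (XT.lf (nat_lit 0) (nat_lit 137445705611) (nat_lit 152) (nat_lit 999871536357) (nat_lit 0) (nat_lit 125655524082) (nat_lit 1) (nat_lit 5) (nat_lit 3) (nat_lit 4) (nat_lit 1) (nat_lit 4) (nat_lit 351) (nat_lit 258) (nat_lit 171)) (XT.lf (nat_lit 0) (nat_lit 154799697373) (nat_lit 152) (nat_lit 1065614437709) (nat_lit 0) (nat_lit 143008434765) (nat_lit 1) (nat_lit 5) (nat_lit 3) (nat_lit 4) (nat_lit 1) (nat_lit 4) (nat_lit 352) (nat_lit 258) (nat_lit 170))) (XT.nd (nat_lit 78) (nat_lit 0) (nat_lit 0) (XT.lf (nat_lit 0) (nat_lit 173540723513) (nat_lit 152) (nat_lit 1136619277995)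 (nat_lit 0) (nat_lit 161748459906) (nat_lit 1) (nat_lit 5) (nat_lit 3) (nat_lit 4) (nat_lit 1) (nat_lit 4) (nat_lit 353) (nat_lit 258) (nat_lit 169)) (XT.lf (nat_lit 0) (nat_lit 193779841963) (nat_lit 152) (nat_lit 1213306826639) (nat_lit 0) (nat_lit 181986651506) (nat_lit 1) (nat_lit 5) (nat_lit 3) (nat_lit 4) (nat_lit 1) (nat_lit 4) (nat_lit 354) (nat_lit 258) (nat_lit 168))))))) (XT.nd (nat_lit 33384) (nat_lit 0) (nat_lit 2356) (XT.nd (nat_lit 546) (nat_lit 0) (nat_lit 0) (XT.nd (nat_lit 234) (nat_lit 0) (nat_lit 0) (XT.nd (nat_lit 78) (nat_lit 0) (nat_lit 0) (XT.lf (nat_lit 0) (nat_lit 215636988240) (nat_lit 152) (nat_lit 1296131528374) (nat_lit 0) (nat_lit 203842939588) (nat_lit 1) (nat_lit 5) (nat_lit 3) (nat_lit 4) (nat_lit 1) (nat_lit 4) (nat_lit 355) (nat_lit 258) (nat_lit 167)) (XT.nd (nat_lit 78) (nat_lit 0) (nat_lit 0) (XT.lf (nat_lit 0) (nat_lit 239241686174) (nat_lit 152)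 (nat_lit 1385584196247) (nat_lit 0) (nat_lit 227446842897) (nat_lit 1) (nat_lit 5) (nat_lit 3) (nat_lit 4) (nat_lit 1) (nat_lit 4) (nat_lit 356) (nat_lit 258) (nat_lit 166)) (XT.lf (nat_lit 0) (nat_lit 264733815457) (nat_lit 152) (nat_lit 1482194920142) (nat_lit 0) (nat_lit 252938236416) (nat_lit 1) (nat_lit 5) (nat_lit 3) (nat_lit 4) (nat_lit 1) (nat_lit 4) (nat_lit 357) (nat_lit 258) (nat_lit 165)))) (XT.nd (nat_lit 156) (nat_lit 0) (nat_lit 0) (XT.nd (nat_lit 78) (nat_lit 0) (nat_lit 0) (XT.lf (nat_lit 0) (nat_lit 292264440557) (nat_lit 152) (nat_lit 1586536208053) (nat_lit 0) (nat_lit 280468180254) (nat_lit 1) (nat_lit 5) (nat_lit 3) (nat_lit 4) (nat_lit 1) (nat_lit 4) (nat_lit 358) (nat_lit 258) (nat_lit 164)) (XT.lf (nat_lit 0) (nat_lit 321996705921) (nat_lit 152) (nat_lit 1699226378722) (nat_lit 0) (nat_lit 310199814819) (nat_lit 1) (nat_lit 5) (nat_lit 3) (nat_lit 4) (nat_lit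 1) (nat_lit 4) (nat_lit 359) (nat_lit 258) (nat_lit 163))) (XT.nd (nat_lit 78) (nat_lit 0) (nat_lit 0) (XT.lf (nat_lit 0) (nat_lit 354106802751) (nat_lit 152) (nat_lit 1820933225753) (nat_lit 0) (nat_lit 342309327575) (nat_lit 1) (nat_lit 5) (nat_lit 3) (nat_lit 4) (nat_lit 1) (nat_lit 4) (nat_lit 360) (nat_lit 258) (nat_lit 162)) (XT.lf (nat_lit 0) (nat_lit 388785013100) (nat_lit 152) (nat_lit 1952377974907) (nat_lit 0) (nat_lit 376986997116) (nat_lit 1) (nat_lit 5) (nat_lit 3) (nat_lit 4) (nat_lit 1) (nat_lit 4) (nat_lit 361) (nat_lit 258) (nat_lit 161))))) (XT.nd (nat_lit 312) (nat_lit 0) (nat_lit 0) (XT.nd (nat_lit 156) (nat_lit 0) (nat_lit 0) (XT.nd (nat_lit 78) (nat_lit 0) (nat_lit 0) (XT.lf (nat_lit 0) (nat_lit 426236837477) (nat_lit 152) (nat_lit 2094339558031) (nat_lit 0) (nat_lit 414438320744) (nat_lit 1) (nat_lit 5) (nat_lit 3) (nat_lit 4) (nat_lit 1) (nat_lit 4) (nat_lit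 362) (nat_lit 258) (nat_lit 160)) (XT.lf (nat_lit 0) (nat_lit 466684212617) (nat_lit 152) (nat_lit 2247659228950) (nat_lit 0) (nat_lit 454885232228) (nat_lit 1) (nat_lit 5) (nat_lit 3) (nat_lit 4) (nat_lit 1) (nat_lit 4) (nat_lit 363) (nat_lit 258) (nat_lit 159))) (XT.nd (nat_lit 78) (nat_lit 0) (nat_lit 0) (XT.lf (nat_lit 0) (nat_lit 510366826669) (nat_lit 152) (nat_lit 2413245548677) (nat_lit 0) (nat_lit 498567416969) (nat_lit 1) (nat_lit 5) (nat_lit 3) (nat_lit 4) (nat_lit 1) (nat_lit 4) (nat_lit 364) (nat_lit 258) (nat_lit 158)) (XT.lf (nat_lit 0) (nat_lit 557543539569) (nat_lit 152) (nat_lit 2592079769478) (nat_lit 0) (nat_lit 545743732359) (nat_lit 1) (nat_lit 5) (nat_lit 3) (nat_lit 4) (nat_lit 1) (nat_lit 4) (nat_lit 365) (nat_lit 258) (nat_lit 157)))) (XT.nd (nat_lit 156) (nat_lit 0) (nat_lit 0) (XT.nd (nat_lit 78) (nat_lit 0) (nat_lit 0) (XT.lf (nat_lit 0) (nat_lit 608493917022)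 (nat_lit 152) (nat_lit 2785221649697) (nat_lit 0) (nat_lit 596693741747) (nat_lit 1) (nat_lit 5) (nat_lit 3) (nat_lit 4) (nat_lit 1) (nat_lit 4) (nat_lit 366) (nat_lit 258) (nat_lit 156)) (XT.lf (nat_lit 0) (nat_lit 663519887192) (nat_lit 152) (nat_lit 2993815733811) (nat_lit 0) (nat_lit 651719371116) (nat_lit 1) (nat_lit 5) (nat_lit 3) (nat_lit 4) (nat_lit 1) (nat_lit 4) (nat_lit 367) (nat_lit 258) (nat_lit 155))) (XT.nd (nat_lit 78) (nat_lit 0) (nat_lit 0) (XT.lf (nat_lit 0) (nat_lit 722947529902) (nat_lit 152) (nat_lit 3219098134910) (nat_lit 0) (nat_lit 711146698269) (nat_lit 1) (nat_lit 5) (nat_lit 3) (nat_lit 4) (nat_lit 1) (nat_lit 4) (nat_lit 368) (nat_lit 258) (nat_lit 154)) (XT.lf (nat_lit 0) (nat_lit 787129008959) (nat_lit 152) (nat_lit 3462403859815) (nat_lit 0) (nat_lit 775327885144) (nat_lit 1) (nat_lit 5) (nat_lit 3) (nat_lit 4) (nat_lit 1) (nat_lit 4) (nat_lit 369) (nat_lit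 258) (nat_lit 153)))))) (XT.nd (nat_lit 624) (nat_lit 1672) (nat_lit 0) (XT.nd (nat_lit 312) (nat_lit 684) (nat_lit 0) (XT.nd (nat_lit 156) (nat_lit 228) (nat_lit 0) (XT.nd (nat_lit 78) (nat_lit 76) (nat_lit 0) (XT.lf (nat_lit 0) (nat_lit 1578793721) (nat_lit 76) (nat_lit 76998595) (nat_lit 0) (nat_lit 1578793721) (nat_lit 67) (nat_lit 5) (nat_lit 68) (nat_lit 0) (nat_lit 67) (nat_lit 4) (nat_lit 262) (nat_lit 259) (nat_lit 259)) (XT.lf (nat_lit 0) (nat_lit 3316526694) (nat_lit 76) (nat_lit 2880552585) (nat_lit 76) (nat_lit 312188654) (nat_lit 66) (nat_lit 4) (nat_lit 67) (nat_lit 5) (nat_lit 67) (nat_lit 4) (nat_lit 263) (nat_lit 259) (nat_lit 258))) (XT.nd (nat_lit 78) (nat_lit 0) (nat_lit 0) (XT.lf (nat_lit 0) (nat_lit 278171979) (nat_lit 152) (nat_lit 2233679299) (nat_lit 228) (nat_lit 4058069546) (nat_lit 63) (nat_lit 5) (nat_lit 65) (nat_lit 5) (nat_lit 66) (nat_lit 4) (nat_lit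 264) (nat_lit 259) (nat_lit 257)) (XT.lf (nat_lit 0) (nat_lit 4018065248) (nat_lit 152) (nat_lit 1350445344) (nat_lit 228) (nat_lit 1281743577) (nat_lit 63) (nat_lit 5) (nat_lit 65) (nat_lit 5) (nat_lit 66) (nat_lit 4) (nat_lit 265) (nat_lit 259) (nat_lit 256)))) (XT.nd (nat_lit 156) (nat_lit 380) (nat_lit 0) (XT.nd (nat_lit 78) (nat_lit 0) (nat_lit 0) (XT.lf (nat_lit 0) (nat_lit 1153888485) (nat_lit 228) (nat_lit 253132635) (nat_lit 304) (nat_lit 5345761108) (nat_lit 59) (nat_lit 5) (nat_lit 62) (nat_lit 5) (nat_lit 63) (nat_lit 5) (nat_lit 266) (nat_lit 259) (nat_lit 255)) (XT.lf (nat_lit 0) (nat_lit 4102121337) (nat_lit 304) (nat_lit 1722320063) (nat_lit 76) (nat_lit 1048650364) (nat_lit 59) (nat_lit 5) (nat_lit 63) (nat_lit 5) (nat_lit 60) (nat_lit 4) (nat_lit 267) (nat_lit 259) (nat_lit 254))) (XT.nd (nat_lit 78) (nat_lit 76) (nat_lit 0) (XT.lf (nat_lit 0) (nat_lit 2392742953) (nat_lit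 304) (nat_lit 4465901440) (nat_lit 380) (nat_lit 157717538) (nat_lit 55) (nat_lit 5) (nat_lit 59) (nat_lit 5) (nat_lit 60) (nat_lit 4) (nat_lit 268) (nat_lit 259) (nat_lit 253)) (XT.lf (nat_lit 0) (nat_lit 2366907174) (nat_lit 380) (nat_lit 489810389) (nat_lit 76) (nat_lit 4323259267) (nat_lit 54) (nat_lit 5) (nat_lit 59) (nat_lit 5) (nat_lit 55) (nat_lit 5) (nat_lit 269) (nat_lit 259) (nat_lit 252))))) (XT.nd (nat_lit 312) (nat_lit 532) (nat_lit 0) (XT.nd (nat_lit 156) (nat_lit 228) (nat_lit 0) (XT.nd (nat_lit 78) (nat_lit 532) (nat_lit 0) (XT.lf (nat_lit 0) (nat_lit 3992417555) (nat_lit 380) (nat_lit 991628447) (nat_lit 456) (nat_lit 2381176665) (nat_lit 49) (nat_lit 5) (nat_lit 54) (nat_lit 5) (nat_lit 55) (nat_lit 5) (nat_lit 270) (nat_lit 259) (nat_lit 251)) (XT.lf (nat_lit 0) (nat_lit 108693562) (nat_lit 532) (nat_lit 6438865225) (nat_lit 76) (nat_lit 1027883181) (nat_lit 42) (nat_lit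 5) (nat_lit 49) (nat_lit 5) (nat_lit 43) (nat_lit 5) (nat_lit 271) (nat_lit 259) (nat_lit 250))) (XT.nd (nat_lit 78) (nat_lit 228) (nat_lit 0) (XT.lf (nat_lit 0) (nat_lit 2607373876) (nat_lit 532) (nat_lit 1881380268) (nat_lit 76) (nat_lit 3314346336) (nat_lit 42) (nat_lit 5) (nat_lit 49) (nat_lit 5) (nat_lit 43) (nat_lit 5) (nat_lit 272) (nat_lit 259) (nat_lit 249)) (XT.lf (nat_lit 0) (nat_lit 3010951354) (nat_lit 228) (nat_lit 2198795453) (nat_lit 304) (nat_lit 2847505114) (nat_lit 39) (nat_lit 5) (nat_lit 42) (nat_lit 5) (nat_lit 43) (nat_lit 5) (nat_lit 273) (nat_lit 259) (nat_lit 248)))) (XT.nd (nat_lit 156) (nat_lit 228) (nat_lit 0) (XT.nd (nat_lit 78) (nat_lit 304) (nat_lit 0) (XT.lf (nat_lit 0) (nat_lit 7918959316) (nat_lit 304) (nat_lit 122692672) (nat_lit 76) (nat_lit 298732350) (nat_lit 39) (nat_lit 5) (nat_lit 43) (nat_lit 5) (nat_lit 40) (nat_lit 4) (nat_lit 274) (nat_lit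 259) (nat_lit 247)) (XT.lf (nat_lit 0) (nat_lit 2123091730) (nat_lit 304) (nat_lit 3473491845) (nat_lit 76) (nat_lit 3043069855) (nat_lit 35) (nat_lit 5) (nat_lit 39) (nat_lit 5) (nat_lit 36) (nat_lit 5) (nat_lit 275) (nat_lit 259) (nat_lit 246))) (XT.nd (nat_lit 78) (nat_lit 0) (nat_lit 0) (XT.lf (nat_lit 0) (nat_lit 1824217142) (nat_lit 228) (nat_lit 2925479265) (nat_lit 304) (nat_lit 4220617730) (nat_lit 32) (nat_lit 5) (nat_lit 35) (nat_lit 5) (nat_lit 36) (nat_lit 5) (nat_lit 276) (nat_lit 259) (nat_lit 245)) (XT.lf (nat_lit 0) (nat_lit 7542668979) (nat_lit 304) (nat_lit 1762742458) (nat_lit 76) (nat_lit 25914634) (nat_lit 32) (nat_lit 5) (nat_lit 36) (nat_lit 5) (nat_lit 33) (nat_lit 4) (nat_lit 277) (nat_lit 259) (nat_lit 244))))))))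
noncomputable def xc48 : XT := (XT.nd (nat_lit 2340) (nat_lit 304) (nat_lit 0) (XT.nd (nat_lit 1170) (nat_lit 532) (nat_lit 0) (XT.nd (nat_lit 546) (nat_lit 608) (nat_lit 0) (XT.nd (nat_lit 234) (nat_lit 380) (nat_lit 0) (XT.nd (nat_lit 78) (nat_lit 152) (nat_lit 0) (XT.lf (nat_lit 0) (nat_lit 839164071) (nat_lit 228) (nat_lit 5734840179) (nat_lit 76) (nat_lit 3142486137) (nat_lit 29) (nat_lit 5) (nat_lit 32) (nat_lit 5) (nat_lit 30) (nat_lit 5) (nat_lit 278) (nat_lit 259) (nat_lit 243)) (XT.nd (nat_lit 78) (nat_lit 152) (nat_lit 0) (XT.lf (nat_lit 0) (nat_lit 3502249706) (nat_lit 228) (nat_lit 64219407) (nat_lit 76) (nat_lit 6568863802) (nat_lit 29) (nat_lit 5) (nat_lit 32) (nat_lit 5) (nat_lit 30) (nat_lit 5) (nat_lit 279) (nat_lit 259) (nat_lit 242)) (XT.lf (nat_lit 0) (nat_lit 6209821241) (nat_lit 152) (nat_lit 199596523) (nat_lit 228) (nat_lit 4176074433) (nat_lit 27) (nat_lit 5)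 (nat_lit 29) (nat_lit 5) (nat_lit 30) (nat_lit 5) (nat_lit 280) (nat_lit 259) (nat_lit 241)))) (XT.nd (nat_lit 156) (nat_lit 152) (nat_lit 0) (XT.nd (nat_lit 78) (nat_lit 76) (nat_lit 0) (XT.lf (nat_lit 0) (nat_lit 1758075264) (nat_lit 152) (nat_lit 7803454483) (nat_lit 228) (nat_lit 1509415389) (nat_lit 25) (nat_lit 5) (nat_lit 27) (nat_lit 5) (nat_lit 28) (nat_lit 4) (nat_lit 281) (nat_lit 259) (nat_lit 240)) (XT.lf (nat_lit 0) (nat_lit 1317093918) (nat_lit 228) (nat_lit 3162630869) (nat_lit 76) (nat_lit 7111898143) (nat_lit 24) (nat_lit 5) (nat_lit 27) (nat_lit 5) (nat_lit 25) (nat_lit 5) (nat_lit 282) (nat_lit 259) (nat_lit 239))) (XT.nd (nat_lit 78) (nat_lit 0) (nat_lit 0) (XT.lf (nat_lit 0) (nat_lit 3458735216) (nat_lit 152) (nat_lit 808132026) (nat_lit 228) (nat_lit 7885870761) (nat_lit 22) (nat_lit 5) (nat_lit 24) (nat_lit 5) (nat_lit 25) (nat_lit 5) (nat_lit 283) (nat_lit 259)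 (nat_lit 238)) (XT.lf (nat_lit 0) (nat_lit 7515680314) (nat_lit 228) (nat_lit 2198135275) (nat_lit 76) (nat_lit 3040080925) (nat_lit 22) (nat_lit 5) (nat_lit 25) (nat_lit 5) (nat_lit 23) (nat_lit 4) (nat_lit 284) (nat_lit 259) (nat_lit 237))))) (XT.nd (nat_lit 312) (nat_lit 304) (nat_lit 0) (XT.nd (nat_lit 156) (nat_lit 152) (nat_lit 0) (XT.nd (nat_lit 78) (nat_lit 76) (nat_lit 0) (XT.lf (nat_lit 0) (nat_lit 4895170327) (nat_lit 76) (nat_lit 6173882209) (nat_lit 152) (nat_lit 2330706978) (nat_lit 21) (nat_lit 5) (nat_lit 22) (nat_lit 5) (nat_lit 23) (nat_lit 4) (nat_lit 285) (nat_lit 259) (nat_lit 236)) (XT.lf (nat_lit 0) (nat_lit 737539483) (nat_lit 152) (nat_lit 1580035340) (nat_lit 76) (nat_lit 11780827212) (nat_lit 20) (nat_lit 5) (nat_lit 22) (nat_lit 5) (nat_lit 21) (nat_lit 5) (nat_lit 286) (nat_lit 259) (nat_lit 235))) (XT.nd (nat_lit 78) (nat_lit 0) (nat_lit 0) (XT.lf (nat_lit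 0) (nat_lit 4032057022) (nat_lit 228) (nat_lit 8890499388) (nat_lit 76) (nat_lit 1917144288) (nat_lit 18) (nat_lit 5) (nat_lit 21) (nat_lit 5) (nat_lit 19) (nat_lit 4) (nat_lit 287) (nat_lit 259) (nat_lit 234)) (XT.lf (nat_lit 0) (nat_lit 7610485996) (nat_lit 228) (nat_lit 1666191845) (nat_lit 76) (nat_lit 6362132754) (nat_lit 18) (nat_lit 5) (nat_lit 21) (nat_lit 5) (nat_lit 19) (nat_lit 4) (nat_lit 288) (nat_lit 259) (nat_lit 233)))) (XT.nd (nat_lit 156) (nat_lit 228) (nat_lit 0) (XT.nd (nat_lit 78) (nat_lit 0) (nat_lit 0) (XT.lf (nat_lit 0) (nat_lit 6324024039) (nat_lit 76) (nat_lit 5225323191) (nat_lit 152) (nat_lit 4946694736) (nat_lit 17) (nat_lit 5) (nat_lit 18) (nat_lit 5) (nat_lit 19) (nat_lit 4) (nat_lit 289) (nat_lit 259) (nat_lit 232)) (XT.lf (nat_lit 0) (nat_lit 14923075813) (nat_lit 76) (nat_lit 850626563) (nat_lit 152) (nat_lit 1650634707) (nat_lit 17) (nat_lit 5) (nat_lit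 18) (nat_lit 5) (nat_lit 19) (nat_lit 4) (nat_lit 290) (nat_lit 259) (nat_lit 231))) (XT.nd (nat_lit 78) (nat_lit 0) (nat_lit 0) (XT.lf (nat_lit 0) (nat_lit 1981208412) (nat_lit 228) (nat_lit 12601248771) (nat_lit 76) (nat_lit 3827457000) (nat_lit 14) (nat_lit 5) (nat_lit 17) (nat_lit 5) (nat_lit 15) (nat_lit 4) (nat_lit 291) (nat_lit 259) (nat_lit 230)) (XT.lf (nat_lit 0) (nat_lit 5836511810) (nat_lit 228) (nat_lit 4731146133) (nat_lit 76) (nat_lit 8901574532) (nat_lit 14) (nat_lit 5) (nat_lit 17) (nat_lit 5) (nat_lit 15) (nat_lit 4) (nat_lit 292) (nat_lit 259) (nat_lit 229)))))) (XT.nd (nat_lit 546) (nat_lit 228) (nat_lit 0) (XT.nd (nat_lit 234) (nat_lit 152) (nat_lit 0) (XT.nd (nat_lit 78) (nat_lit 76) (nat_lit 0) (XT.lf (nat_lit 0) (nat_lit 3848907462) (nat_lit 76) (nat_lit 6178926602) (nat_lit 152) (nat_lit 10583339890) (nat_lit 13) (nat_lit 5) (nat_lit 14) (nat_lit 5) (nat_lit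 15) (nat_lit 4) (nat_lit 293) (nat_lit 259) (nat_lit 228)) (XT.nd (nat_lit 78) (nat_lit 76) (nat_lit 0) (XT.lf (nat_lit 0) (nat_lit 13275075009) (nat_lit 76) (nat_lit 1345956012) (nat_lit 152) (nat_lit 7218193188) (nat_lit 13) (nat_lit 5) (nat_lit 14) (nat_lit 5) (nat_lit 15) (nat_lit 4) (nat_lit 294) (nat_lit 259) (nat_lit 227)) (XT.lf (nat_lit 0) (nat_lit 96543903) (nat_lit 76) (nat_lit 19521448231) (nat_lit 76) (nat_lit 3544694801) (nat_lit 12) (nat_lit 4) (nat_lit 13) (nat_lit 5) (nat_lit 13) (nat_lit 4) (nat_lit 295) (nat_lit 259) (nat_lit 226)))) (XT.nd (nat_lit 156) (nat_lit 76) (nat_lit 0) (XT.nd (nat_lit 78) (nat_lit 0) (nat_lit 0) (XT.lf (nat_lit 0) (nat_lit 617937170) (nat_lit 152) (nat_lit 14792802301) (nat_lit 76) (nat_lit 9163224810) (nat_lit 11) (nat_lit 5) (nat_lit 13) (nat_lit 5) (nat_lit 12) (nat_lit 4) (nat_lit 296) (nat_lit 259) (nat_lit 225)) (XT.lf (nat_lit 0) (nat_lit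 4867626970) (nat_lit 152) (nat_lit 6047297691) (nat_lit 76) (nat_lit 15180267374) (nat_lit 11) (nat_lit 5) (nat_lit 13) (nat_lit 5) (nat_lit 12) (nat_lit 4) (nat_lit 297) (nat_lit 259) (nat_lit 224))) (XT.nd (nat_lit 78) (nat_lit 0) (nat_lit 0) (XT.lf (nat_lit 0) (nat_lit 3481610249) (nat_lit 76) (nat_lit 6009000494) (nat_lit 152) (nat_lit 18244895509) (nat_lit 10) (nat_lit 5) (nat_lit 11) (nat_lit 5) (nat_lit 12) (nat_lit 4) (nat_lit 298) (nat_lit 259) (nat_lit 223)) (XT.lf (nat_lit 0) (nat_lit 14028633362) (nat_lit 76) (nat_lit 571344933) (nat_lit 152) (nat_lit 14897793470) (nat_lit 10) (nat_lit 5) (nat_lit 11) (nat_lit 5) (nat_lit 12) (nat_lit 4) (nat_lit 299) (nat_lit 259) (nat_lit 222))))) (XT.nd (nat_lit 312) (nat_lit 76) (nat_lit 0) (XT.nd (nat_lit 156) (nat_lit 76) (nat_lit 0) (XT.nd (nat_lit 78) (nat_lit 76) (nat_lit 0) (XT.lf (nat_lit 0) (nat_lit 20199532701) (nat_lit 152)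 (nat_lit 6193468264) (nat_lit 0) (nat_lit 5001548639) (nat_lit 10) (nat_lit 5) (nat_lit 12) (nat_lit 4) (nat_lit 10) (nat_lit 4) (nat_lit 300) (nat_lit 259) (nat_lit 221)) (XT.lf (nat_lit 0) (nat_lit 3927777277) (nat_lit 76) (nat_lit 22385929763) (nat_lit 76) (nat_lit 7124072850) (nat_lit 9) (nat_lit 4) (nat_lit 10) (nat_lit 5) (nat_lit 10) (nat_lit 4) (nat_lit 301) (nat_lit 259) (nat_lit 220))) (XT.nd (nat_lit 78) (nat_lit 76) (nat_lit 0) (XT.lf (nat_lit 0) (nat_lit 15134806842) (nat_lit 76) (nat_lit 17910229030) (nat_lit 76) (nat_lit 2589230589) (nat_lit 9) (nat_lit 4) (nat_lit 10) (nat_lit 5) (nat_lit 10) (nat_lit 4) (nat_lit 302) (nat_lit 259) (nat_lit 219)) (XT.lf (nat_lit 0) (nat_lit 2153635966) (nat_lit 152) (nat_lit 10896196304) (nat_lit 76) (nat_lit 24955375201) (nat_lit 8) (nat_lit 5) (nat_lit 10) (nat_lit 5) (nat_lit 9) (nat_lit 4) (nat_lit 303) (nat_lit 259) (nat_lit 218))))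 (XT.nd (nat_lit 156) (nat_lit 0) (nat_lit 0) (XT.nd (nat_lit 78) (nat_lit 76) (nat_lit 0) (XT.lf (nat_lit 0) (nat_lit 7099668720) (nat_lit 152) (nat_lit 659152504) (nat_lit 76) (nat_lit 32804563874) (nat_lit 8) (nat_lit 5) (nat_lit 10) (nat_lit 5) (nat_lit 9) (nat_lit 4) (nat_lit 304) (nat_lit 259) (nat_lit 217)) (XT.lf (nat_lit 0) (nat_lit 10878808880) (nat_lit 76) (nat_lit 1790528031) (nat_lit 152) (nat_lit 30638672838) (nat_lit 7) (nat_lit 5) (nat_lit 8) (nat_lit 5) (nat_lit 9) (nat_lit 4) (nat_lit 305) (nat_lit 259) (nat_lit 216))) (XT.nd (nat_lit 78) (nat_lit 0) (nat_lit 0) (XT.lf (nat_lit 0) (nat_lit 18781706482) (nat_lit 152) (nat_lit 23068532027) (nat_lit 0) (nat_lit 4414222515) (nat_lit 7) (nat_lit 5) (nat_lit 9) (nat_lit 4) (nat_lit 7) (nat_lit 4) (nat_lit 306) (nat_lit 259) (nat_lit 215)) (XT.lf (nat_lit 0) (nat_lit 25398720110) (nat_lit 152) (nat_lit 13063513877) (nat_lit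 0) (nat_lit 10993966948) (nat_lit 7) (nat_lit 5) (nat_lit 9) (nat_lit 4) (nat_lit 7) (nat_lit 4) (nat_lit 307) (nat_lit 259) (nat_lit 214))))))) (XT.nd (nat_lit 1170) (nat_lit 0) (nat_lit 0) (XT.nd (nat_lit 546) (nat_lit 76) (nat_lit 0) (XT.nd (nat_lit 234) (nat_lit 152) (nat_lit 0) (XT.nd (nat_lit 78) (nat_lit 76) (nat_lit 0) (XT.lf (nat_lit 0) (nat_lit 32516527487) (nat_lit 152) (nat_lit 2311795181) (nat_lit 0) (nat_lit 18077265811) (nat_lit 7) (nat_lit 5) (nat_lit 9) (nat_lit 4) (nat_lit 7) (nat_lit 4) (nat_lit 308) (nat_lit 259) (nat_lit 213)) (XT.nd (nat_lit 78) (nat_lit 0) (nat_lit 0) (XT.lf (nat_lit 0) (nat_lit 9737444352) (nat_lit 76) (nat_lit 30674049630) (nat_lit 76) (nat_lit 16202835627) (nat_lit 6) (nat_lit 4) (nat_lit 7) (nat_lit 5) (nat_lit 7) (nat_lit 4) (nat_lit 309) (nat_lit 259) (nat_lit 212)) (XT.lf (nat_lit 0) (nat_lit 22833632641) (nat_lit 76) (nat_lit 26141976276)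 (nat_lit 76) (nat_lit 11641176784) (nat_lit 6) (nat_lit 4) (nat_lit 7) (nat_lit 5) (nat_lit 7) (nat_lit 4) (nat_lit 310) (nat_lit 259) (nat_lit 211)))) (XT.nd (nat_lit 156) (nat_lit 152) (nat_lit 0) (XT.nd (nat_lit 78) (nat_lit 0) (nat_lit 0) (XT.lf (nat_lit 0) (nat_lit 36932641687) (nat_lit 76) (nat_lit 21268454454) (nat_lit 76) (nat_lit 6740260991) (nat_lit 6) (nat_lit 4) (nat_lit 7) (nat_lit 5) (nat_lit 7) (nat_lit 4) (nat_lit 311) (nat_lit 259) (nat_lit 210)) (XT.lf (nat_lit 0) (nat_lit 52118021175) (nat_lit 76) (nat_lit 16024604033) (nat_lit 76) (nat_lit 1471045783) (nat_lit 6) (nat_lit 4) (nat_lit 7) (nat_lit 5) (nat_lit 7) (nat_lit 4) (nat_lit 312) (nat_lit 259) (nat_lit 209))) (XT.nd (nat_lit 78) (nat_lit 76) (nat_lit 0) (XT.lf (nat_lit 0) (nat_lit 3987708173) (nat_lit 152) (nat_lit 6282611164) (nat_lit 76) (nat_lit 64383019358) (nat_lit 5) (nat_lit 5) (nat_lit 7) (nat_lit 5)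 (nat_lit 6) (nat_lit 4) (nat_lit 313) (nat_lit 259) (nat_lit 208)) (XT.lf (nat_lit 0) (nat_lit 6055527906) (nat_lit 76) (nat_lit 3874432808) (nat_lit 152) (nat_lit 70153073995) (nat_lit 4) (nat_lit 5) (nat_lit 5) (nat_lit 5) (nat_lit 6) (nat_lit 4) (nat_lit 314) (nat_lit 259) (nat_lit 207))))) (XT.nd (nat_lit 312) (nat_lit 76) (nat_lit 0) (XT.nd (nat_lit 156) (nat_lit 0) (nat_lit 0) (XT.nd (nat_lit 78) (nat_lit 0) (nat_lit 0) (XT.lf (nat_lit 0) (nat_lit 16577584630) (nat_lit 152) (nat_lit 66309592683) (nat_lit 0) (nat_lit 3041542252) (nat_lit 4) (nat_lit 5) (nat_lit 6) (nat_lit 4) (nat_lit 4) (nat_lit 4) (nat_lit 315) (nat_lit 259) (nat_lit 206)) (XT.lf (nat_lit 0) (nat_lit 23839879898) (nat_lit 152) (nat_lit 58108987259) (nat_lit 0) (nat_lit 10286574671) (nat_lit 4) (nat_lit 5) (nat_lit 6) (nat_lit 4) (nat_lit 4) (nat_lit 4) (nat_lit 316) (nat_lit 259) (nat_lit 205))) (XT.nd (nat_lit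 78) (nat_lit 0) (nat_lit 0) (XT.lf (nat_lit 0) (nat_lit 31666702138) (nat_lit 152) (nat_lit 49283914147) (nat_lit 0) (nat_lit 18097412793) (nat_lit 4) (nat_lit 5) (nat_lit 6) (nat_lit 4) (nat_lit 4) (nat_lit 4) (nat_lit 317) (nat_lit 259) (nat_lit 204)) (XT.lf (nat_lit 0) (nat_lit 40104432522) (nat_lit 152) (nat_lit 39782076618) (nat_lit 0) (nat_lit 26520343066) (nat_lit 4) (nat_lit 5) (nat_lit 6) (nat_lit 4) (nat_lit 4) (nat_lit 4) (nat_lit 318) (nat_lit 259) (nat_lit 203)))) (XT.nd (nat_lit 156) (nat_lit 76) (nat_lit 0) (XT.nd (nat_lit 78) (nat_lit 0) (nat_lit 0) (XT.lf (nat_lit 0) (nat_lit 49203072413) (nat_lit 152) (nat_lit 29547167488) (nat_lit 0) (nat_lit 35605279152) (nat_lit 4) (nat_lit 5) (nat_lit 6) (nat_lit 4) (nat_lit 4) (nat_lit 4) (nat_lit 319) (nat_lit 259) (nat_lit 202)) (XT.lf (nat_lit 0) (nat_lit 59016539678) (nat_lit 152) (nat_lit 18518535442) (nat_lit 0) (nat_lit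 45406057708) (nat_lit 4) (nat_lit 5) (nat_lit 6) (nat_lit 4) (nat_lit 4) (nat_lit 4) (nat_lit 320) (nat_lit 259) (nat_lit 201))) (XT.nd (nat_lit 78) (nat_lit 76) (nat_lit 0) (XT.lf (nat_lit 0) (nat_lit 69602988197) (nat_lit 152) (nat_lit 6630825624) (nat_lit 0) (nat_lit 55980757422) (nat_lit 4) (nat_lit 5) (nat_lit 6) (nat_lit 4) (nat_lit 4) (nat_lit 4) (nat_lit 321) (nat_lit 259) (nat_lit 200)) (XT.lf (nat_lit 0) (nat_lit 6512172916) (nat_lit 76) (nat_lit 74669597478) (nat_lit 76) (nat_lit 61036488181) (nat_lit 3) (nat_lit 4) (nat_lit 4) (nat_lit 5) (nat_lit 4) (nat_lit 4) (nat_lit 322) (nat_lit 259) (nat_lit 199)))))) (XT.nd (nat_lit 624) (nat_lit 0) (nat_lit 0) (XT.nd (nat_lit 312) (nat_lit 0) (nat_lit 0) (XT.nd (nat_lit 156) (nat_lit 0) (nat_lit 0) (XT.nd (nat_lit 78) (nat_lit 0) (nat_lit 0) (XT.lf (nat_lit 0) (nat_lit 21062763078) (nat_lit 76) (nat_lit 72794516305) (nat_lit 76)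 (nat_lit 59151334301) (nat_lit 3) (nat_lit 4) (nat_lit 4) (nat_lit 5) (nat_lit 4) (nat_lit 4) (nat_lit 323) (nat_lit 259) (nat_lit 198)) (XT.lf (nat_lit 0) (nat_lit 36758003055) (nat_lit 76) (nat_lit 70778757233) (nat_lit 76) (nat_lit 57126248649) (nat_lit 3) (nat_lit 4) (nat_lit 4) (nat_lit 5) (nat_lit 4) (nat_lit 4) (nat_lit 324) (nat_lit 259) (nat_lit 197))) (XT.nd (nat_lit 78) (nat_lit 0) (nat_lit 0) (XT.lf (nat_lit 0) (nat_lit 53690901674) (nat_lit 76) (nat_lit 68610375023) (nat_lit 76) (nat_lit 54949230718) (nat_lit 3) (nat_lit 4) (nat_lit 4) (nat_lit 5) (nat_lit 4) (nat_lit 4) (nat_lit 325) (nat_lit 259) (nat_lit 196)) (XT.lf (nat_lit 0) (nat_lit 71961802041) (nat_lit 76) (nat_lit 66276520003) (nat_lit 76) (nat_lit 52607379659) (nat_lit 3) (nat_lit 4) (nat_lit 4) (nat_lit 5) (nat_lit 4) (nat_lit 4) (nat_lit 326) (nat_lit 259) (nat_lit 195)))) (XT.nd (nat_lit 156) (nat_lit 0) (nat_lit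 0) (XT.nd (nat_lit 78) (nat_lit 0) (nat_lit 0) (XT.lf (nat_lit 0) (nat_lit 91678976155) (nat_lit 76) (nat_lit 63763361922) (nat_lit 76) (nat_lit 50086817838) (nat_lit 3) (nat_lit 4) (nat_lit 4) (nat_lit 5) (nat_lit 4) (nat_lit 4) (nat_lit 327) (nat_lit 259) (nat_lit 194)) (XT.lf (nat_lit 0) (nat_lit 112959266532) (nat_lit 76) (nat_lit 61056007990) (nat_lit 76) (nat_lit 47372608591) (nat_lit 3) (nat_lit 4) (nat_lit 4) (nat_lit 5) (nat_lit 4) (nat_lit 4) (nat_lit 328) (nat_lit 259) (nat_lit 193))) (XT.nd (nat_lit 78) (nat_lit 0) (nat_lit 0) (XT.lf (nat_lit 0) (nat_lit 135928778595) (nat_lit 76) (nat_lit 58138414628) (nat_lit 76) (nat_lit 44448667716) (nat_lit 3) (nat_lit 4) (nat_lit 4) (nat_lit 5) (nat_lit 4) (nat_lit 4) (nat_lit 329) (nat_lit 259) (nat_lit 192)) (XT.lf (nat_lit 0) (nat_lit 160723627971) (nat_lit 76) (nat_lit 54993292395) (nat_lit 76) (nat_lit 41297668156) (nat_lit 3)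 (nat_lit 4) (nat_lit 4) (nat_lit 5) (nat_lit 4) (nat_lit 4) (nat_lit 330) (nat_lit 259) (nat_lit 191))))) (XT.nd (nat_lit 312) (nat_lit 0) (nat_lit 0) (XT.nd (nat_lit 156) (nat_lit 0) (nat_lit 0) (XT.nd (nat_lit 78) (nat_lit 0) (nat_lit 0) (XT.lf (nat_lit 0) (nat_lit 187490747102) (nat_lit 76) (nat_lit 51602003529) (nat_lit 76) (nat_lit 37900937320) (nat_lit 3) (nat_lit 4) (nat_lit 4) (nat_lit 5) (nat_lit 4) (nat_lit 4) (nat_lit 331) (nat_lit 259) (nat_lit 190)) (XT.lf (nat_lit 0) (nat_lit 216388755952) (nat_lit 76) (nat_lit 47944451504) (nat_lit 76) (nat_lit 34238346434) (nat_lit 3) (nat_lit 4) (nat_lit 4) (nat_lit 5) (nat_lit 4) (nat_lit 4) (nat_lit 332) (nat_lit 259) (nat_lit 189))) (XT.nd (nat_lit 78) (nat_lit 0) (nat_lit 0) (XT.lf (nat_lit 0) (nat_lit 247588901981) (nat_lit 76) (nat_lit 43998961936) (nat_lit 76) (nat_lit 30288191254) (nat_lit 3) (nat_lit 4) (nat_lit 4) (nat_lit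 5) (nat_lit 4) (nat_lit 4) (nat_lit 333) (nat_lit 259) (nat_lit 188)) (XT.lf (nat_lit 0) (nat_lit 281276074943) (nat_lit 76) (nat_lit 39742154148) (nat_lit 76) (nat_lit 26027063455) (nat_lit 3) (nat_lit 4) (nat_lit 4) (nat_lit 5) (nat_lit 4) (nat_lit 4) (nat_lit 334) (nat_lit 259) (nat_lit 187)))) (XT.nd (nat_lit 156) (nat_lit 0) (nat_lit 0) (XT.nd (nat_lit 78) (nat_lit 0) (nat_lit 0) (XT.lf (nat_lit 0) (nat_lit 317649902531) (nat_lit 76) (nat_lit 35148802611) (nat_lit 76) (nat_lit 21429711908) (nat_lit 3) (nat_lit 4) (nat_lit 4) (nat_lit 5) (nat_lit 4) (nat_lit 4) (nat_lit 335) (nat_lit 259) (nat_lit 186)) (XT.lf (nat_lit 0) (nat_lit 356925933351) (nat_lit 76) (nat_lit 30191687465) (nat_lit 76) (nat_lit 16468893049) (nat_lit 3) (nat_lit 4) (nat_lit 4) (nat_lit 5) (nat_lit 4) (nat_lit 4) (nat_lit 336) (nat_lit 259) (nat_lit 185))) (XT.nd (nat_lit 78) (nat_lit 0) (nat_lit 0) (XT.lf (nat_lit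 0) (nat_lit 399336914254) (nat_lit 76) (nat_lit 24841433212) (nat_lit 76) (nat_lit 11115209432) (nat_lit 3) (nat_lit 4) (nat_lit 4) (nat_lit 5) (nat_lit 4) (nat_lit 4) (nat_lit 337) (nat_lit 259) (nat_lit 184)) (XT.lf (nat_lit 0) (nat_lit 445134169570) (nat_lit 76) (nat_lit 19066334642) (nat_lit 76) (nat_lit 5336935525) (nat_lit 3) (nat_lit 4) (nat_lit 4) (nat_lit 5) (nat_lit 4) (nat_lit 4) (nat_lit 338) (nat_lit 259) (nat_lit 183))))))))
noncomputable def xc49 : XT := (XT.nd (nat_lit 34476) (nat_lit 0) (nat_lit 1216) (XT.nd (nat_lit 1170) (nat_lit 0) (nat_lit 0) (XT.nd (nat_lit 546) (nat_lit 0) (nat_lit 0) (XT.nd (nat_lit 234) (nat_lit 0) (nat_lit 0) (XT.nd (nat_lit 78) (nat_lit 76) (nat_lit 0) (XT.lf (nat_lit 0) (nat_lit 855140130) (nat_lit 152) (nat_lit 11953647772) (nat_lit 76) (nat_lit 493710569265) (nat_lit 2) (nat_lit 5) (nat_lit 4) (nat_lit 5) (nat_lit 3) (nat_lit 4) (nat_lit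 339) (nat_lit 259) (nat_lit 182)) (XT.nd (nat_lit 78) (nat_lit 0) (nat_lit 0) (XT.lf (nat_lit 0) (nat_lit 1418457215) (nat_lit 76) (nat_lit 5866888361) (nat_lit 152) (nat_lit 539160906613) (nat_lit 1) (nat_lit 5) (nat_lit 2) (nat_lit 5) (nat_lit 3) (nat_lit 4) (nat_lit 340) (nat_lit 259) (nat_lit 181)) (XT.lf (nat_lit 0) (nat_lit 14601504767) (nat_lit 152) (nat_lit 573054551436) (nat_lit 0) (nat_lit 1881521184) (nat_lit 1) (nat_lit 5) (nat_lit 3) (nat_lit 4) (nat_lit 1) (nat_lit 4) (nat_lit 341) (nat_lit 259) (nat_lit 180)))) (XT.nd (nat_lit 156) (nat_lit 0) (nat_lit 0) (XT.nd (nat_lit 78) (nat_lit 0) (nat_lit 0) (XT.lf (nat_lit 0) (nat_lit 22652569264) (nat_lit 152) (nat_lit 603481247175) (nat_lit 0) (nat_lit 9930424600) (nat_lit 1) (nat_lit 5) (nat_lit 3) (nat_lit 4) (nat_lit 1) (nat_lit 4) (nat_lit 342) (nat_lit 259) (nat_lit 179)) (XT.lf (nat_lit 0) (nat_lit 31345150273) (nat_lit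 152) (nat_lit 636347089730) (nat_lit 0) (nat_lit 18621004608) (nat_lit 1) (nat_lit 5) (nat_lit 3) (nat_lit 4) (nat_lit 1) (nat_lit 4) (nat_lit 343) (nat_lit 259) (nat_lit 178))) (XT.nd (nat_lit 78) (nat_lit 0) (nat_lit 0) (XT.lf (nat_lit 0) (nat_lit 40730759385) (nat_lit 152) (nat_lit 671846839649) (nat_lit 0) (nat_lit 28004760942) (nat_lit 1) (nat_lit 5) (nat_lit 3) (nat_lit 4) (nat_lit 1) (nat_lit 4) (nat_lit 344) (nat_lit 259) (nat_lit 177)) (XT.lf (nat_lit 0) (nat_lit 50865015026) (nat_lit 152) (nat_lit 710190865821) (nat_lit 0) (nat_lit 38137301047) (nat_lit 1) (nat_lit 5) (nat_lit 3) (nat_lit 4) (nat_lit 1) (nat_lit 4) (nat_lit 345) (nat_lit 259) (nat_lit 176))))) (XT.nd (nat_lit 312) (nat_lit 0) (nat_lit 0) (XT.nd (nat_lit 156) (nat_lit 0) (nat_lit 0) (XT.nd (nat_lit 78) (nat_lit 0) (nat_lit 0) (XT.lf (nat_lit 0) (nat_lit 61807972042) (nat_lit 152) (nat_lit 751606392105) (nat_lit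 0) (nat_lit 49078669604) (nat_lit 1) (nat_lit 5) (nat_lit 3) (nat_lit 4) (nat_lit 1) (nat_lit 4) (nat_lit 346) (nat_lit 259) (nat_lit 175)) (XT.lf (nat_lit 0) (nat_lit 73624477587) (nat_lit 152) (nat_lit 796338843842) (nat_lit 0) (nat_lit 60893704353) (nat_lit 1) (nat_lit 5) (nat_lit 3) (nat_lit 4) (nat_lit 1) (nat_lit 4) (nat_lit 347) (nat_lit 259) (nat_lit 174))) (XT.nd (nat_lit 78) (nat_lit 0) (nat_lit 0) (XT.lf (nat_lit 0) (nat_lit 86384555397) (nat_lit 152) (nat_lit 844653302227) (nat_lit 0) (nat_lit 73652420316) (nat_lit 1) (nat_lit 5) (nat_lit 3) (nat_lit 4) (nat_lit 1) (nat_lit 4) (nat_lit 348) (nat_lit 259) (nat_lit 173)) (XT.lf (nat_lit 0) (nat_lit 100163820748) (nat_lit 152) (nat_lit 896836075162) (nat_lit 0) (nat_lit 87430424697) (nat_lit 1) (nat_lit 5) (nat_lit 3) (nat_lit 4) (nat_lit 1) (nat_lit 4) (nat_lit 349) (nat_lit 259) (nat_lit 172)))) (XT.nd (nat_lit 156) (nat_lit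 0) (nat_lit 0) (XT.nd (nat_lit 78) (nat_lit 0) (nat_lit 0) (XT.lf (nat_lit 0) (nat_lit 115043928546) (nat_lit 152) (nat_lit 953196393894) (nat_lit 0) (nat_lit 102309364930) (nat_lit 1) (nat_lit 5) (nat_lit 3) (nat_lit 4) (nat_lit 1) (nat_lit 4) (nat_lit 350) (nat_lit 259) (nat_lit 171)) (XT.lf (nat_lit 0) (nat_lit 131113057208) (nat_lit 152) (nat_lit 1014068245496) (nat_lit 0) (nat_lit 118377412513) (nat_lit 1) (nat_lit 5) (nat_lit 3) (nat_lit 4) (nat_lit 1) (nat_lit 4) (nat_lit 351) (nat_lit 259) (nat_lit 170))) (XT.nd (nat_lit 78) (nat_lit 0) (nat_lit 0) (XT.lf (nat_lit 0) (nat_lit 148466431199) (nat_lit 152) (nat_lit 1079812352053) (nat_lit 0) (nat_lit 135729785506) (nat_lit 1) (nat_lit 5) (nat_lit 3) (nat_lit 4) (nat_lit 1) (nat_lit 4) (nat_lit 352) (nat_lit 259) (nat_lit 169)) (XT.lf (nat_lit 0) (nat_lit 167206885329) (nat_lit 152) (nat_lit 1150818308269) (nat_lit 0) (nat_lit 154469312785)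 (nat_lit 1) (nat_lit 5) (nat_lit 3) (nat_lit 4) (nat_lit 1) (nat_lit 4) (nat_lit 353) (nat_lit 259) (nat_lit 168)))))) (XT.nd (nat_lit 546) (nat_lit 0) (nat_lit 0) (XT.nd (nat_lit 234) (nat_lit 0) (nat_lit 0) (XT.nd (nat_lit 78) (nat_lit 0) (nat_lit 0) (XT.lf (nat_lit 0) (nat_lit 187445474140) (nat_lit 152) (nat_lit 1227506890182) (nat_lit 0) (nat_lit 174707043401) (nat_lit 1) (nat_lit 5) (nat_lit 3) (nat_lit 4) (nat_lit 1) (nat_lit 4) (nat_lit 354) (nat_lit 259) (nat_lit 167)) (XT.nd (nat_lit 78) (nat_lit 0) (nat_lit 0) (XT.lf (nat_lit 0) (nat_lit 209302130011) (nat_lit 152) (nat_lit 1310332548647) (nat_lit 0) (nat_lit 196562904647) (nat_lit 1) (nat_lit 5) (nat_lit 3) (nat_lit 4) (nat_lit 1) (nat_lit 4) (nat_lit 355) (nat_lit 259) (nat_lit 166)) (XT.lf (nat_lit 0) (nat_lit 232906373865) (nat_lit 152) (nat_lit 1399786102382) (nat_lit 0) (nat_lit 220166412737) (nat_lit 1) (nat_lit 5)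 (nat_lit 3) (nat_lit 4) (nat_lit 1) (nat_lit 4) (nat_lit 356) (nat_lit 259) (nat_lit 165)))) (XT.nd (nat_lit 156) (nat_lit 0) (nat_lit 0) (XT.nd (nat_lit 78) (nat_lit 0) (nat_lit 0) (XT.lf (nat_lit 0) (nat_lit 258398082703) (nat_lit 152) (nat_lit 1496397646520) (nat_lit 0) (nat_lit 245657440312) (nat_lit 1) (nat_lit 5) (nat_lit 3) (nat_lit 4) (nat_lit 1) (nat_lit 4) (nat_lit 357) (nat_lit 259) (nat_lit 164)) (XT.lf (nat_lit 0) (nat_lit 285928318504) (nat_lit 152) (nat_lit 1600739693913) (nat_lit 0) (nat_lit 273187045314) (nat_lit 1) (nat_lit 5) (nat_lit 3) (nat_lit 4) (nat_lit 1) (nat_lit 4) (nat_lit 358) (nat_lit 259) (nat_lit 163))) (XT.nd (nat_lit 78) (nat_lit 0) (nat_lit 0) (XT.lf (nat_lit 0) (nat_lit 315660223404) (nat_lit 152) (nat_lit 1713430567808) (nat_lit 0) (nat_lit 302918366141) (nat_lit 1) (nat_lit 5) (nat_lit 3) (nat_lit 4) (nat_lit 1) (nat_lit 4) (nat_lit 359) (nat_lit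 259) (nat_lit 162)) (XT.lf (nat_lit 0) (nat_lit 347769986471) (nat_lit 152) (nat_lit 1835138065974) (nat_lit 0) (nat_lit 335027588400) (nat_lit 1) (nat_lit 5) (nat_lit 3) (nat_lit 4) (nat_lit 1) (nat_lit 4) (nat_lit 360) (nat_lit 259) (nat_lit 161))))) (XT.nd (nat_lit 312) (nat_lit 0) (nat_lit 0) (XT.nd (nat_lit 156) (nat_lit 0) (nat_lit 0) (XT.nd (nat_lit 78) (nat_lit 0) (nat_lit 0) (XT.lf (nat_lit 0) (nat_lit 382447887782) (nat_lit 152) (nat_lit 1966583418031) (nat_lit 0) (nat_lit 369704988962) (nat_lit 1) (nat_lit 5) (nat_lit 3) (nat_lit 4) (nat_lit 1) (nat_lit 4) (nat_lit 361) (nat_lit 259) (nat_lit 160)) (XT.lf (nat_lit 0) (nat_lit 419899426011) (nat_lit 152) (nat_lit 2108545559397) (nat_lit 0) (nat_lit 407156063535) (nat_lit 1) (nat_lit 5) (nat_lit 3) (nat_lit 4) (nat_lit 1) (nat_lit 4) (nat_lit 362) (nat_lit 259) (nat_lit 159))) (XT.nd (nat_lit 78) (nat_lit 0) (nat_lit 0) (XT.lf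 (nat_lit 0) (nat_lit 460346536199) (nat_lit 152) (nat_lit 2261865747208) (nat_lit 0) (nat_lit 447602744412) (nat_lit 1) (nat_lit 5) (nat_lit 3) (nat_lit 4) (nat_lit 1) (nat_lit 4) (nat_lit 363) (nat_lit 259) (nat_lit 158)) (XT.lf (nat_lit 0) (nat_lit 504028904926) (nat_lit 152) (nat_lit 2427452545539) (nat_lit 0) (nat_lit 491284715629) (nat_lit 1) (nat_lit 5) (nat_lit 3) (nat_lit 4) (nat_lit 1) (nat_lit 4) (nat_lit 364) (nat_lit 259) (nat_lit 157)))) (XT.nd (nat_lit 156) (nat_lit 0) (nat_lit 0) (XT.nd (nat_lit 78) (nat_lit 0) (nat_lit 0) (XT.lf (nat_lit 0) (nat_lit 551205390673) (nat_lit 152) (nat_lit 2606287209491) (nat_lit 0) (nat_lit 538460833311) (nat_lit 1) (nat_lit 5) (nat_lit 3) (nat_lit 4) (nat_lit 1) (nat_lit 4) (nat_lit 365) (nat_lit 259) (nat_lit 156)) (XT.lf (nat_lit 0) (nat_lit 602155557800) (nat_lit 152) (nat_lit 2799429500035) (nat_lit 0) (nat_lit 589410659636) (nat_lit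 1) (nat_lit 5) (nat_lit 3) (nat_lit 4) (nat_lit 1) (nat_lit 4) (nat_lit 366) (nat_lit 259) (nat_lit 155))) (XT.nd (nat_lit 78) (nat_lit 0) (nat_lit 0) (XT.lf (nat_lit 0) (nat_lit 657181333223) (nat_lit 152) (nat_lit 3008023964080) (nat_lit 0) (nat_lit 644436119502) (nat_lit 1) (nat_lit 5) (nat_lit 3) (nat_lit 4) (nat_lit 1) (nat_lit 4) (nat_lit 367) (nat_lit 259) (nat_lit 154)) (XT.lf (nat_lit 0) (nat_lit 716608795611) (nat_lit 152) (nat_lit 3233306716966) (nat_lit 0) (nat_lit 703863289708) (nat_lit 1) (nat_lit 5) (nat_lit 3) (nat_lit 4) (nat_lit 1) (nat_lit 4) (nat_lit 368) (nat_lit 259) (nat_lit 153))))))) (XT.nd (nat_lit 1170) (nat_lit 1596) (nat_lit 0) (XT.nd (nat_lit 546) (nat_lit 1596) (nat_lit 0) (XT.nd (nat_lit 234) (nat_lit 608) (nat_lit 0) (XT.nd (nat_lit 78) (nat_lit 76) (nat_lit 0) (XT.lf (nat_lit 0) (nat_lit 1073741823) (nat_lit 0) (nat_lit 0) (nat_lit 0) (nat_lit 0) (nat_lit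 68) (nat_lit 0) (nat_lit 1) (nat_lit 0) (nat_lit 1) (nat_lit 0) (nat_lit 260) (nat_lit 260) (nat_lit 260)) (XT.nd (nat_lit 78) (nat_lit 0) (nat_lit 0) (XT.lf (nat_lit 0) (nat_lit 2923692077) (nat_lit 76) (nat_lit 3375554451) (nat_lit 0) (nat_lit 149859032) (nat_lit 67) (nat_lit 5) (nat_lit 68) (nat_lit 0) (nat_lit 67) (nat_lit 4) (nat_lit 261) (nat_lit 260) (nat_lit 259)) (XT.lf (nat_lit 0) (nat_lit 5792662125) (nat_lit 76) (nat_lit 237970293) (nat_lit 0) (nat_lit 450465149) (nat_lit 67) (nat_lit 5) (nat_lit 68) (nat_lit 0) (nat_lit 67) (nat_lit 4) (nat_lit 262) (nat_lit 260) (nat_lit 258)))) (XT.nd (nat_lit 156) (nat_lit 456) (nat_lit 0) (XT.nd (nat_lit 78) (nat_lit 0) (nat_lit 0) (XT.lf (nat_lit 0) (nat_lit 2058613628) (nat_lit 152) (nat_lit 3438395378) (nat_lit 76) (nat_lit 1031384741) (nat_lit 65) (nat_lit 5) (nat_lit 67) (nat_lit 5) (nat_lit 66) (nat_lit 4) (nat_lit 263) (nat_lit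 260) (nat_lit 257)) (XT.lf (nat_lit 0) (nat_lit 4735751965) (nat_lit 152) (nat_lit 71905741) (nat_lit 76) (nat_lit 1791945825) (nat_lit 65) (nat_lit 5) (nat_lit 67) (nat_lit 5) (nat_lit 66) (nat_lit 4) (nat_lit 264) (nat_lit 260) (nat_lit 256))) (XT.nd (nat_lit 78) (nat_lit 228) (nat_lit 0) (XT.lf (nat_lit 0) (nat_lit 744027072) (nat_lit 228) (nat_lit 3125607565) (nat_lit 76) (nat_lit 2818932128) (nat_lit 62) (nat_lit 5) (nat_lit 65) (nat_lit 5) (nat_lit 63) (nat_lit 5) (nat_lit 265) (nat_lit 260) (nat_lit 255)) (XT.lf (nat_lit 0) (nat_lit 516433182) (nat_lit 228) (nat_lit 2724933858) (nat_lit 304) (nat_lit 3557966024) (nat_lit 59) (nat_lit 5) (nat_lit 62) (nat_lit 5) (nat_lit 63) (nat_lit 5) (nat_lit 266) (nat_lit 260) (nat_lit 254))))) (XT.nd (nat_lit 312) (nat_lit 836) (nat_lit 0) (XT.nd (nat_lit 156) (nat_lit 380) (nat_lit 0) (XT.nd (nat_lit 78) (nat_lit 380) (nat_lit 0) (XT.lf (nat_lit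 0) (nat_lit 4462724558) (nat_lit 228) (nat_lit 1341606894) (nat_lit 304) (nat_lit 1126363289) (nat_lit 59) (nat_lit 5) (nat_lit 62) (nat_lit 5) (nat_lit 63) (nat_lit 5) (nat_lit 267) (nat_lit 260) (nat_lit 253)) (XT.lf (nat_lit 0) (nat_lit 1258612214) (nat_lit 380) (nat_lit 5563024699) (nat_lit 76) (nat_lit 262191604) (nat_lit 54) (nat_lit 5) (nat_lit 59) (nat_lit 5) (nat_lit 55) (nat_lit 5) (nat_lit 268) (nat_lit 260) (nat_lit 252))) (XT.nd (nat_lit 78) (nat_lit 380) (nat_lit 0) (XT.lf (nat_lit 0) (nat_lit 3680658432) (nat_lit 380) (nat_lit 1518540791) (nat_lit 76) (nat_lit 2055897903) (nat_lit 54) (nat_lit 5) (nat_lit 59) (nat_lit 5) (nat_lit 55) (nat_lit 5) (nat_lit 269) (nat_lit 260) (nat_lit 251)) (XT.lf (nat_lit 0) (nat_lit 2826149819) (nat_lit 380) (nat_lit 3355923836) (nat_lit 456) (nat_lit 1267880948) (nat_lit 49) (nat_lit 5) (nat_lit 54) (nat_lit 5) (nat_lit 55) (nat_lit 5)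 (nat_lit 270) (nat_lit 260) (nat_lit 250)))) (XT.nd (nat_lit 156) (nat_lit 304) (nat_lit 0) (XT.nd (nat_lit 78) (nat_lit 456) (nat_lit 0) (XT.lf (nat_lit 0) (nat_lit 1026759942) (nat_lit 456) (nat_lit 253352381) (nat_lit 76) (nat_lit 6389385906) (nat_lit 48) (nat_lit 5) (nat_lit 54) (nat_lit 5) (nat_lit 49) (nat_lit 5) (nat_lit 271) (nat_lit 260) (nat_lit 249)) (XT.lf (nat_lit 0) (nat_lit 3407007914) (nat_lit 532) (nat_lit 3434983892) (nat_lit 76) (nat_lit 1064920341) (nat_lit 42) (nat_lit 5) (nat_lit 49) (nat_lit 5) (nat_lit 43) (nat_lit 5) (nat_lit 272) (nat_lit 260) (nat_lit 248))) (XT.nd (nat_lit 78) (nat_lit 76) (nat_lit 0) (XT.lf (nat_lit 0) (nat_lit 1291015730) (nat_lit 228) (nat_lit 4601940410) (nat_lit 304) (nat_lit 2277681444) (nat_lit 39) (nat_lit 5) (nat_lit 42) (nat_lit 5) (nat_lit 43) (nat_lit 5) (nat_lit 273) (nat_lit 260) (nat_lit 247)) (XT.lf (nat_lit 0) (nat_lit 59750685)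 (nat_lit 304) (nat_lit 2034176235) (nat_lit 76) (nat_lit 6366278442) (nat_lit 38) (nat_lit 5) (nat_lit 42) (nat_lit 5) (nat_lit 39) (nat_lit 5) (nat_lit 274) (nat_lit 260) (nat_lit 246)))))) (XT.nd (nat_lit 624) (nat_lit 532) (nat_lit 0) (XT.nd (nat_lit 312) (nat_lit 380) (nat_lit 0) (XT.nd (nat_lit 156) (nat_lit 456) (nat_lit 0) (XT.nd (nat_lit 78) (nat_lit 0) (nat_lit 0) (XT.lf (nat_lit 0) (nat_lit 2412976330) (nat_lit 304) (nat_lit 5653664836) (nat_lit 76) (nat_lit 705845653) (nat_lit 35) (nat_lit 5) (nat_lit 39) (nat_lit 5) (nat_lit 36) (nat_lit 5) (nat_lit 275) (nat_lit 260) (nat_lit 245)) (XT.lf (nat_lit 0) (nat_lit 4930706871) (nat_lit 304) (nat_lit 526675721) (nat_lit 76) (nat_lit 3654665988) (nat_lit 35) (nat_lit 5) (nat_lit 39) (nat_lit 5) (nat_lit 36) (nat_lit 5) (nat_lit 276) (nat_lit 260) (nat_lit 244))) (XT.nd (nat_lit 78) (nat_lit 228) (nat_lit 0) (XT.lf (nat_lit 0) (nat_lit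 5113212125) (nat_lit 228) (nat_lit 2534428200) (nat_lit 304) (nat_lit 1831680282) (nat_lit 32) (nat_lit 5) (nat_lit 35) (nat_lit 5) (nat_lit 36) (nat_lit 5) (nat_lit 277) (nat_lit 260) (nat_lit 243)) (XT.lf (nat_lit 0) (nat_lit 608289524) (nat_lit 228) (nat_lit 8648391111) (nat_lit 76) (nat_lit 623239067) (nat_lit 29) (nat_lit 5) (nat_lit 32) (nat_lit 5) (nat_lit 30) (nat_lit 5) (nat_lit 278) (nat_lit 260) (nat_lit 242)))) (XT.nd (nat_lit 156) (nat_lit 228) (nat_lit 0) (XT.nd (nat_lit 78) (nat_lit 152) (nat_lit 0) (XT.lf (nat_lit 0) (nat_lit 3214494977) (nat_lit 228) (nat_lit 3055111778) (nat_lit 76) (nat_lit 4033846369) (nat_lit 29) (nat_lit 5) (nat_lit 32) (nat_lit 5) (nat_lit 30) (nat_lit 5) (nat_lit 279) (nat_lit 260) (nat_lit 241)) (XT.lf (nat_lit 0) (nat_lit 2986050349) (nat_lit 152) (nat_lit 3005414082) (nat_lit 228) (nat_lit 4772693936) (nat_lit 27) (nat_lit 5) (nat_lit 29) (nat_lit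 5) (nat_lit 30) (nat_lit 5) (nat_lit 280) (nat_lit 260) (nat_lit 240))) (XT.nd (nat_lit 78) (nat_lit 228) (nat_lit 0) (XT.lf (nat_lit 0) (nat_lit 8982904924) (nat_lit 228) (nat_lit 1738317821) (nat_lit 76) (nat_lit 541362721) (nat_lit 27) (nat_lit 5) (nat_lit 30) (nat_lit 5) (nat_lit 28) (nat_lit 4) (nat_lit 281) (nat_lit 260) (nat_lit 239)) (XT.lf (nat_lit 0) (nat_lit 489973013) (nat_lit 228) (nat_lit 7000431773) (nat_lit 76) (nat_lit 4302074725) (nat_lit 24) (nat_lit 5) (nat_lit 27) (nat_lit 5) (nat_lit 25) (nat_lit 5) (nat_lit 282) (nat_lit 260) (nat_lit 238))))) (XT.nd (nat_lit 312) (nat_lit 304) (nat_lit 0) (XT.nd (nat_lit 156) (nat_lit 76) (nat_lit 0) (XT.nd (nat_lit 78) (nat_lit 152) (nat_lit 0) (XT.lf (nat_lit 0) (nat_lit 3310048466) (nat_lit 228) (nat_lit 620954214) (nat_lit 76) (nat_lit 8433063340) (nat_lit 24) (nat_lit 5) (nat_lit 27) (nat_lit 5) (nat_lit 25) (nat_lit 5) (nat_lit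 283) (nat_lit 260) (nat_lit 237)) (XT.lf (nat_lit 0) (nat_lit 6422404040) (nat_lit 228) (nat_lit 6517843879) (nat_lit 76) (nat_lit 35981740) (nat_lit 22) (nat_lit 5) (nat_lit 25) (nat_lit 5) (nat_lit 23) (nat_lit 4) (nat_lit 284) (nat_lit 260) (nat_lit 236))) (XT.nd (nat_lit 78) (nat_lit 0) (nat_lit 0) (XT.lf (nat_lit 0) (nat_lit 279523356) (nat_lit 76) (nat_lit 9543372686) (nat_lit 152) (nat_lit 3811509002) (nat_lit 21) (nat_lit 5) (nat_lit 22) (nat_lit 5) (nat_lit 23) (nat_lit 4) (nat_lit 285) (nat_lit 260) (nat_lit 235)) (XT.lf (nat_lit 0) (nat_lit 7859487059) (nat_lit 76) (nat_lit 5730332473) (nat_lit 152) (nat_lit 748021423) (nat_lit 21) (nat_lit 5) (nat_lit 22) (nat_lit 5) (nat_lit 23) (nat_lit 4) (nat_lit 286) (nat_lit 260) (nat_lit 234)))) (XT.nd (nat_lit 156) (nat_lit 76) (nat_lit 0) (XT.nd (nat_lit 78) (nat_lit 0) (nat_lit 0) (XT.lf (nat_lit 0) (nat_lit 800313918) (nat_lit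 152) (nat_lit 1571626717) (nat_lit 228) (nat_lit 12725661209) (nat_lit 18) (nat_lit 5) (nat_lit 20) (nat_lit 5) (nat_lit 21) (nat_lit 5) (nat_lit 287) (nat_lit 260) (nat_lit 233)) (XT.lf (nat_lit 0) (nat_lit 5875103206) (nat_lit 228) (nat_lit 7096908472) (nat_lit 76) (nat_lit 2930781626) (nat_lit 18) (nat_lit 5) (nat_lit 21) (nat_lit 5) (nat_lit 19) (nat_lit 4) (nat_lit 288) (nat_lit 260) (nat_lit 232))) (XT.nd (nat_lit 78) (nat_lit 0) (nat_lit 0) (XT.lf (nat_lit 0) (nat_lit 547172427) (nat_lit 76) (nat_lit 9093165311) (nat_lit 152) (nat_lit 7133632859) (nat_lit 17) (nat_lit 5) (nat_lit 18) (nat_lit 5) (nat_lit 19) (nat_lit 4) (nat_lit 289) (nat_lit 260) (nat_lit 231)) (XT.lf (nat_lit 0) (nat_lit 9090517654) (nat_lit 76) (nat_lit 4740712078) (nat_lit 152) (nat_lit 3873764688) (nat_lit 17) (nat_lit 5) (nat_lit 18) (nat_lit 5) (nat_lit 19) (nat_lit 4) (nat_lit 290) (nat_lit 260) (nat_lit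 230))))))))
noncomputable def xc50 : XT := (XT.nd (nat_lit 2340) (nat_lit 228) (nat_lit 0) (XT.nd (nat_lit 1170) (nat_lit 228) (nat_lit 0) (XT.nd (nat_lit 546) (nat_lit 304) (nat_lit 0) (XT.nd (nat_lit 234) (nat_lit 228) (nat_lit 0) (XT.nd (nat_lit 78) (nat_lit 228) (nat_lit 0) (XT.lf (nat_lit 0) (nat_lit 18210043815) (nat_lit 76) (nat_lit 82901717) (nat_lit 152) (nat_lit 422809903) (nat_lit 17) (nat_lit 5) (nat_lit 18) (nat_lit 5) (nat_lit 19) (nat_lit 4) (nat_lit 291) (nat_lit 260) (nat_lit 229)) (XT.nd (nat_lit 78) (nat_lit 0) (nat_lit 0) (XT.lf (nat_lit 0) (nat_lit 3407278593) (nat_lit 228) (nat_lit 11420463603) (nat_lit 76) (nat_lit 4951895269) (nat_lit 14) (nat_lit 5) (nat_lit 17) (nat_lit 5) (nat_lit 15) (nat_lit 4) (nat_lit 292) (nat_lit 260) (nat_lit 228)) (XT.lf (nat_lit 0) (nat_lit 7477111929) (nat_lit 228) (nat_lit 3082892388) (nat_lit 76) (nat_lit 10371331708) (nat_lit 14)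 (nat_lit 5) (nat_lit 17) (nat_lit 5) (nat_lit 15) (nat_lit 4) (nat_lit 293) (nat_lit 260) (nat_lit 227)))) (XT.nd (nat_lit 156) (nat_lit 152) (nat_lit 0) (XT.nd (nat_lit 78) (nat_lit 0) (nat_lit 0) (XT.lf (nat_lit 0) (nat_lit 6132255483) (nat_lit 76) (nat_lit 5832054551) (nat_lit 152) (nat_lit 10203591308) (nat_lit 13) (nat_lit 5) (nat_lit 14) (nat_lit 5) (nat_lit 15) (nat_lit 4) (nat_lit 294) (nat_lit 260) (nat_lit 226)) (XT.lf (nat_lit 0) (nat_lit 16166187884) (nat_lit 76) (nat_lit 674756401) (nat_lit 152) (nat_lit 6660078483) (nat_lit 13) (nat_lit 5) (nat_lit 14) (nat_lit 5) (nat_lit 15) (nat_lit 4) (nat_lit 295) (nat_lit 260) (nat_lit 225))) (XT.nd (nat_lit 78) (nat_lit 76) (nat_lit 0) (XT.lf (nat_lit 0) (nat_lit 1951988912) (nat_lit 76) (nat_lit 20269660684) (nat_lit 76) (nat_lit 2710091778) (nat_lit 12) (nat_lit 4) (nat_lit 13) (nat_lit 5) (nat_lit 13) (nat_lit 4) (nat_lit 296)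 (nat_lit 260) (nat_lit 224)) (XT.lf (nat_lit 0) (nat_lit 1650930278) (nat_lit 152) (nat_lit 14212532235) (nat_lit 76) (nat_lit 10596685677) (nat_lit 11) (nat_lit 5) (nat_lit 13) (nat_lit 5) (nat_lit 12) (nat_lit 4) (nat_lit 297) (nat_lit 260) (nat_lit 223))))) (XT.nd (nat_lit 312) (nat_lit 228) (nat_lit 0) (XT.nd (nat_lit 156) (nat_lit 0) (nat_lit 0) (XT.nd (nat_lit 78) (nat_lit 76) (nat_lit 0) (XT.lf (nat_lit 0) (nat_lit 6167739103) (nat_lit 152) (nat_lit 4898031275) (nat_lit 76) (nat_lit 17043209951) (nat_lit 11) (nat_lit 5) (nat_lit 13) (nat_lit 5) (nat_lit 12) (nat_lit 4) (nat_lit 298) (nat_lit 260) (nat_lit 222)) (XT.lf (nat_lit 0) (nat_lit 5351846258) (nat_lit 76) (nat_lit 5779536511) (nat_lit 152) (nat_lit 18751543138) (nat_lit 10) (nat_lit 5) (nat_lit 11) (nat_lit 5) (nat_lit 12) (nat_lit 4) (nat_lit 299) (nat_lit 260) (nat_lit 221))) (XT.nd (nat_lit 78) (nat_lit 0) (nat_lit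 0) (XT.lf (nat_lit 0) (nat_lit 16585176347) (nat_lit 152) (nat_lit 15167710746) (nat_lit 0) (nat_lit 38498031) (nat_lit 10) (nat_lit 5) (nat_lit 12) (nat_lit 4) (nat_lit 10) (nat_lit 4) (nat_lit 300) (nat_lit 260) (nat_lit 220)) (XT.lf (nat_lit 0) (nat_lit 22585902647) (nat_lit 152) (nat_lit 5277724797) (nat_lit 0) (nat_lit 5980082802) (nat_lit 10) (nat_lit 5) (nat_lit 12) (nat_lit 4) (nat_lit 10) (nat_lit 4) (nat_lit 301) (nat_lit 260) (nat_lit 219)))) (XT.nd (nat_lit 156) (nat_lit 152) (nat_lit 0) (XT.nd (nat_lit 78) (nat_lit 0) (nat_lit 0) (XT.lf (nat_lit 0) (nat_lit 5617493276) (nat_lit 76) (nat_lit 23547731107) (nat_lit 76) (nat_lit 6887150588) (nat_lit 9) (nat_lit 4) (nat_lit 10) (nat_lit 5) (nat_lit 10) (nat_lit 4) (nat_lit 302) (nat_lit 260) (nat_lit 218)) (XT.lf (nat_lit 0) (nat_lit 17619196775) (nat_lit 76) (nat_lit 18760572318) (nat_lit 76) (nat_lit 2049287471) (nat_lit 9)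 (nat_lit 4) (nat_lit 10) (nat_lit 5) (nat_lit 10) (nat_lit 4) (nat_lit 303) (nat_lit 260) (nat_lit 217))) (XT.nd (nat_lit 78) (nat_lit 76) (nat_lit 0) (XT.lf (nat_lit 0) (nat_lit 2983065288) (nat_lit 152) (nat_lit 10553457499) (nat_lit 76) (nat_lit 27455963690) (nat_lit 8) (nat_lit 5) (nat_lit 10) (nat_lit 5) (nat_lit 9) (nat_lit 4) (nat_lit 304) (nat_lit 260) (nat_lit 216)) (XT.lf (nat_lit 0) (nat_lit 434318040) (nat_lit 76) (nat_lit 7852231059) (nat_lit 152) (nat_lit 35471869704) (nat_lit 7) (nat_lit 5) (nat_lit 8) (nat_lit 5) (nat_lit 9) (nat_lit 4) (nat_lit 305) (nat_lit 260) (nat_lit 215)))))) (XT.nd (nat_lit 546) (nat_lit 152) (nat_lit 0) (XT.nd (nat_lit 234) (nat_lit 76) (nat_lit 0) (XT.nd (nat_lit 78) (nat_lit 0) (nat_lit 0) (XT.lf (nat_lit 0) (nat_lit 12845122231) (nat_lit 76) (nat_lit 1427510965) (nat_lit 152) (nat_lit 32452351688) (nat_lit 7) (nat_lit 5) (nat_lit 8) (nat_lit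 5) (nat_lit 9) (nat_lit 4) (nat_lit 306) (nat_lit 260) (nat_lit 214)) (XT.nd (nat_lit 78) (nat_lit 0) (nat_lit 0) (XT.lf (nat_lit 0) (nat_lit 20841580853) (nat_lit 152) (nat_lit 23866330574) (nat_lit 0) (nat_lit 5212669730) (nat_lit 7) (nat_lit 5) (nat_lit 9) (nat_lit 4) (nat_lit 7) (nat_lit 4) (nat_lit 307) (nat_lit 260) (nat_lit 213)) (XT.lf (nat_lit 0) (nat_lit 27946671287) (nat_lit 152) (nat_lit 13138517196) (nat_lit 0) (nat_lit 12285807836) (nat_lit 7) (nat_lit 5) (nat_lit 9) (nat_lit 4) (nat_lit 7) (nat_lit 4) (nat_lit 308) (nat_lit 260) (nat_lit 212)))) (XT.nd (nat_lit 156) (nat_lit 0) (nat_lit 0) (XT.nd (nat_lit 78) (nat_lit 76) (nat_lit 0) (XT.lf (nat_lit 0) (nat_lit 35595677063) (nat_lit 152) (nat_lit 1598518618) (nat_lit 0) (nat_lit 19905228124) (nat_lit 7) (nat_lit 5) (nat_lit 9) (nat_lit 4) (nat_lit 7) (nat_lit 4) (nat_lit 309) (nat_lit 260) (nat_lit 211)) (XT.lf (nat_lit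 0) (nat_lit 11391920326) (nat_lit 76) (nat_lit 32715981256) (nat_lit 76) (nat_lit 16998138346) (nat_lit 6) (nat_lit 4) (nat_lit 7) (nat_lit 5) (nat_lit 7) (nat_lit 4) (nat_lit 310) (nat_lit 260) (nat_lit 210))) (XT.nd (nat_lit 78) (nat_lit 0) (nat_lit 0) (XT.lf (nat_lit 0) (nat_lit 25470953276) (nat_lit 76) (nat_lit 27851859986) (nat_lit 76) (nat_lit 12108652288) (nat_lit 6) (nat_lit 4) (nat_lit 7) (nat_lit 5) (nat_lit 7) (nat_lit 4) (nat_lit 311) (nat_lit 260) (nat_lit 209)) (XT.lf (nat_lit 0) (nat_lit 40637836378) (nat_lit 76) (nat_lit 22616713780) (nat_lit 76) (nat_lit 6850020167) (nat_lit 6) (nat_lit 4) (nat_lit 7) (nat_lit 5) (nat_lit 7) (nat_lit 4) (nat_lit 312) (nat_lit 260) (nat_lit 208))))) (XT.nd (nat_lit 312) (nat_lit 0) (nat_lit 0) (XT.nd (nat_lit 156) (nat_lit 76) (nat_lit 0) (XT.nd (nat_lit 78) (nat_lit 76) (nat_lit 0) (XT.lf (nat_lit 0) (nat_lit 56982447458) (nat_lit 76)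 (nat_lit 16979519550) (nat_lit 76) (nat_lit 1191079720) (nat_lit 6) (nat_lit 4) (nat_lit 7) (nat_lit 5) (nat_lit 7) (nat_lit 4) (nat_lit 313) (nat_lit 260) (nat_lit 207)) (XT.lf (nat_lit 0) (nat_lit 4656500452) (nat_lit 152) (nat_lit 6123054275) (nat_lit 76) (nat_lit 69817826044) (nat_lit 5) (nat_lit 5) (nat_lit 7) (nat_lit 5) (nat_lit 6) (nat_lit 4) (nat_lit 314) (nat_lit 260) (nat_lit 206))) (XT.nd (nat_lit 78) (nat_lit 0) (nat_lit 0) (XT.lf (nat_lit 0) (nat_lit 7185372231) (nat_lit 76) (nat_lit 3878373597) (nat_lit 152) (nat_lit 75398555626) (nat_lit 4) (nat_lit 5) (nat_lit 5) (nat_lit 5) (nat_lit 6) (nat_lit 4) (nat_lit 315) (nat_lit 260) (nat_lit 205)) (XT.lf (nat_lit 0) (nat_lit 18224854267) (nat_lit 152) (nat_lit 70998231872) (nat_lit 0) (nat_lit 3554037656) (nat_lit 4) (nat_lit 5) (nat_lit 6) (nat_lit 4) (nat_lit 4) (nat_lit 4) (nat_lit 316) (nat_lit 260) (nat_lit 204)))) (XT.nd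 (nat_lit 156) (nat_lit 0) (nat_lit 0) (XT.nd (nat_lit 78) (nat_lit 0) (nat_lit 0) (XT.lf (nat_lit 0) (nat_lit 26044350721) (nat_lit 152) (nat_lit 62187217141) (nat_lit 0) (nat_lit 11358734000) (nat_lit 4) (nat_lit 5) (nat_lit 6) (nat_lit 4) (nat_lit 4) (nat_lit 4) (nat_lit 317) (nat_lit 260) (nat_lit 203)) (XT.lf (nat_lit 0) (nat_lit 34475297969) (nat_lit 152) (nat_lit 52698396632) (nat_lit 0) (nat_lit 19775977441) (nat_lit 4) (nat_lit 5) (nat_lit 6) (nat_lit 4) (nat_lit 4) (nat_lit 4) (nat_lit 318) (nat_lit 260) (nat_lit 202))) (XT.nd (nat_lit 78) (nat_lit 0) (nat_lit 0) (XT.lf (nat_lit 0) (nat_lit 43567657179) (nat_lit 152) (nat_lit 42475540297) (nat_lit 0) (nat_lit 28855647942) (nat_lit 4) (nat_lit 5) (nat_lit 6) (nat_lit 4) (nat_lit 4) (nat_lit 4) (nat_lit 319) (nat_lit 260) (nat_lit 201)) (XT.lf (nat_lit 0) (nat_lit 53375308998) (nat_lit 152) (nat_lit 31458068247) (nat_lit 0) (nat_lit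 38651550957) (nat_lit 4) (nat_lit 5) (nat_lit 6) (nat_lit 4) (nat_lit 4) (nat_lit 4) (nat_lit 320) (nat_lit 260) (nat_lit 200))))))) (XT.nd (nat_lit 1170) (nat_lit 152) (nat_lit 0) (XT.nd (nat_lit 546) (nat_lit 0) (nat_lit 0) (XT.nd (nat_lit 234) (nat_lit 0) (nat_lit 0) (XT.nd (nat_lit 78) (nat_lit 76) (nat_lit 0) (XT.lf (nat_lit 0) (nat_lit 63956372844) (nat_lit 152) (nat_lit 19580691759) (nat_lit 0) (nat_lit 49221736281) (nat_lit 4) (nat_lit 5) (nat_lit 6) (nat_lit 4) (nat_lit 4) (nat_lit 4) (nat_lit 321) (nat_lit 260) (nat_lit 199)) (XT.nd (nat_lit 78) (nat_lit 76) (nat_lit 0) (XT.lf (nat_lit 0) (nat_lit 75373551319) (nat_lit 152) (nat_lit 6773026379) (nat_lit 0) (nat_lit 60628842050) (nat_lit 4) (nat_lit 5) (nat_lit 6) (nat_lit 4) (nat_lit 4) (nat_lit 4) (nat_lit 322) (nat_lit 260) (nat_lit 198)) (XT.lf (nat_lit 0) (nat_lit 7411582543) (nat_lit 76) (nat_lit 80461167972) (nat_lit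 76) (nat_lit 65707132122) (nat_lit 3) (nat_lit 4) (nat_lit 4) (nat_lit 5) (nat_lit 4) (nat_lit 4) (nat_lit 323) (nat_lit 260) (nat_lit 197)))) (XT.nd (nat_lit 156) (nat_lit 0) (nat_lit 0) (XT.nd (nat_lit 78) (nat_lit 0) (nat_lit 0) (XT.lf (nat_lit 0) (nat_lit 23098187637) (nat_lit 76) (nat_lit 78449561586) (nat_lit 76) (nat_lit 63686890015) (nat_lit 3) (nat_lit 4) (nat_lit 4) (nat_lit 5) (nat_lit 4) (nat_lit 4) (nat_lit 324) (nat_lit 260) (nat_lit 196)) (XT.lf (nat_lit 0) (nat_lit 40023090996) (nat_lit 76) (nat_lit 76285024457) (nat_lit 76) (nat_lit 61514356846) (nat_lit 3) (nat_lit 4) (nat_lit 4) (nat_lit 5) (nat_lit 4) (nat_lit 4) (nat_lit 325) (nat_lit 260) (nat_lit 195))) (XT.nd (nat_lit 78) (nat_lit 0) (nat_lit 0) (XT.lf (nat_lit 0) (nat_lit 58286588342) (nat_lit 76) (nat_lit 73954729697) (nat_lit 76) (nat_lit 59176658346) (nat_lit 3) (nat_lit 4) (nat_lit 4) (nat_lit 5) (nat_lit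 4) (nat_lit 4) (nat_lit 326) (nat_lit 260) (nat_lit 194)) (XT.lf (nat_lit 0) (nat_lit 77996907809) (nat_lit 76) (nat_lit 71444868152) (nat_lit 76) (nat_lit 56659941487) (nat_lit 3) (nat_lit 4) (nat_lit 4) (nat_lit 5) (nat_lit 4) (nat_lit 4) (nat_lit 327) (nat_lit 260) (nat_lit 193))))) (XT.nd (nat_lit 312) (nat_lit 0) (nat_lit 0) (XT.nd (nat_lit 156) (nat_lit 0) (nat_lit 0) (XT.nd (nat_lit 78) (nat_lit 0) (nat_lit 0) (XT.lf (nat_lit 0) (nat_lit 99270851290) (nat_lit 76) (nat_lit 68740566568) (nat_lit 76) (nat_lit 53949292390) (nat_lit 3) (nat_lit 4) (nat_lit 4) (nat_lit 5) (nat_lit 4) (nat_lit 4) (nat_lit 328) (nat_lit 260) (nat_lit 192)) (XT.lf (nat_lit 0) (nat_lit 122234486597) (nat_lit 76) (nat_lit 65825799456) (nat_lit 76) (nat_lit 51028647950) (nat_lit 3) (nat_lit 4) (nat_lit 4) (nat_lit 5) (nat_lit 4) (nat_lit 4) (nat_lit 329) (nat_lit 260) (nat_lit 191))) (XT.nd (nat_lit 78) (nat_lit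 0) (nat_lit 0) (XT.lf (nat_lit 0) (nat_lit 147023894533) (nat_lit 76) (nat_lit 62683294119) (nat_lit 76) (nat_lit 47880700644) (nat_lit 3) (nat_lit 4) (nat_lit 4) (nat_lit 5) (nat_lit 4) (nat_lit 4) (nat_lit 330) (nat_lit 260) (nat_lit 190)) (XT.lf (nat_lit 0) (nat_lit 173785975293) (nat_lit 76) (nat_lit 59294428306) (nat_lit 76) (nat_lit 44486795970) (nat_lit 3) (nat_lit 4) (nat_lit 4) (nat_lit 5) (nat_lit 4) (nat_lit 4) (nat_lit 331) (nat_lit 260) (nat_lit 189)))) (XT.nd (nat_lit 156) (nat_lit 0) (nat_lit 0) (XT.nd (nat_lit 78) (nat_lit 0) (nat_lit 0) (XT.lf (nat_lit 0) (nat_lit 202679318985) (nat_lit 76) (nat_lit 55639119848) (nat_lit 76) (nat_lit 40826821900) (nat_lit 3) (nat_lit 4) (nat_lit 4) (nat_lit 5) (nat_lit 4) (nat_lit 4) (nat_lit 332) (nat_lit 260) (nat_lit 188)) (XT.lf (nat_lit 0) (nat_lit 233875145423) (nat_lit 76) (nat_lit 51695707658) (nat_lit 76) (nat_lit 36879089698)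 (nat_lit 3) (nat_lit 4) (nat_lit 4) (nat_lit 5) (nat_lit 4) (nat_lit 4) (nat_lit 333) (nat_lit 260) (nat_lit 187))) (XT.nd (nat_lit 78) (nat_lit 0) (nat_lit 0) (XT.lf (nat_lit 0) (nat_lit 267558318764) (nat_lit 76) (nat_lit 47440823367) (nat_lit 76) (nat_lit 32620205397) (nat_lit 3) (nat_lit 4) (nat_lit 4) (nat_lit 5) (nat_lit 4) (nat_lit 4) (nat_lit 334) (nat_lit 260) (nat_lit 186)) (XT.lf (nat_lit 0) (nat_lit 303928442999) (nat_lit 76) (nat_lit 42849252846) (nat_lit 76) (nat_lit 28024931163) (nat_lit 3) (nat_lit 4) (nat_lit 4) (nat_lit 5) (nat_lit 4) (nat_lit 4) (nat_lit 335) (nat_lit 260) (nat_lit 185)))))) (XT.nd (nat_lit 624) (nat_lit 0) (nat_lit 0) (XT.nd (nat_lit 312) (nat_lit 152) (nat_lit 0) (XT.nd (nat_lit 156) (nat_lit 0) (nat_lit 0) (XT.nd (nat_lit 78) (nat_lit 0) (nat_lit 0) (XT.lf (nat_lit 0) (nat_lit 343201044789) (nat_lit 76) (nat_lit 37893786789) (nat_lit 76) (nat_lit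 23066035742) (nat_lit 3) (nat_lit 4) (nat_lit 4) (nat_lit 5) (nat_lit 4) (nat_lit 4) (nat_lit 336) (nat_lit 260) (nat_lit 184)) (XT.lf (nat_lit 0) (nat_lit 385608850663) (nat_lit 76) (nat_lit 32545059470) (nat_lit 76) (nat_lit 17714133087) (nat_lit 3) (nat_lit 4) (nat_lit 4) (nat_lit 5) (nat_lit 4) (nat_lit 4) (nat_lit 337) (nat_lit 260) (nat_lit 183))) (XT.nd (nat_lit 78) (nat_lit 0) (nat_lit 0) (XT.lf (nat_lit 0) (nat_lit 431403166139) (nat_lit 76) (nat_lit 26771374729) (nat_lit 76) (nat_lit 11937508218) (nat_lit 3) (nat_lit 4) (nat_lit 4) (nat_lit 5) (nat_lit 4) (nat_lit 4) (nat_lit 338) (nat_lit 260) (nat_lit 182)) (XT.lf (nat_lit 0) (nat_lit 480855364936) (nat_lit 76) (nat_lit 20538518136) (nat_lit 76) (nat_lit 5701929285) (nat_lit 3) (nat_lit 4) (nat_lit 4) (nat_lit 5) (nat_lit 4) (nat_lit 4) (nat_lit 339) (nat_lit 260) (nat_lit 181)))) (XT.nd (nat_lit 156) (nat_lit 0) (nat_lit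 0) (XT.nd (nat_lit 78) (nat_lit 76) (nat_lit 0) (XT.lf (nat_lit 0) (nat_lit 978052765) (nat_lit 152) (nat_lit 12804759784) (nat_lit 76) (nat_lit 533253702662) (nat_lit 2) (nat_lit 5) (nat_lit 4) (nat_lit 5) (nat_lit 3) (nat_lit 4) (nat_lit 340) (nat_lit 260) (nat_lit 180)) (XT.lf (nat_lit 0) (nat_lit 1634450822) (nat_lit 76) (nat_lit 6286652218) (nat_lit 152) (nat_lit 582236586775) (nat_lit 1) (nat_lit 5) (nat_lit 2) (nat_lit 5) (nat_lit 3) (nat_lit 4) (nat_lit 341) (nat_lit 260) (nat_lit 179))) (XT.nd (nat_lit 78) (nat_lit 0) (nat_lit 0) (XT.lf (nat_lit 0) (nat_lit 15819738474) (nat_lit 152) (nat_lit 618801149805) (nat_lit 0) (nat_lit 2075660155) (nat_lit 1) (nat_lit 5) (nat_lit 3) (nat_lit 4) (nat_lit 1) (nat_lit 4) (nat_lit 342) (nat_lit 260) (nat_lit 178)) (XT.lf (nat_lit 0) (nat_lit 24511176033) (nat_lit 152) (nat_lit 651669223110) (nat_lit 0) (nat_lit 10765244935) (nat_lit 1) (nat_lit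 5) (nat_lit 3) (nat_lit 4) (nat_lit 1) (nat_lit 4) (nat_lit 343) (nat_lit 260) (nat_lit 177))))) (XT.nd (nat_lit 312) (nat_lit 0) (nat_lit 0) (XT.nd (nat_lit 156) (nat_lit 0) (nat_lit 0) (XT.nd (nat_lit 78) (nat_lit 0) (nat_lit 0) (XT.lf (nat_lit 0) (nat_lit 33895726394) (nat_lit 152) (nat_lit 687171038539) (nat_lit 0) (nat_lit 20148079761) (nat_lit 1) (nat_lit 5) (nat_lit 3) (nat_lit 4) (nat_lit 1) (nat_lit 4) (nat_lit 344) (nat_lit 260) (nat_lit 176)) (XT.lf (nat_lit 0) (nat_lit 44029001710) (nat_lit 152) (nat_lit 725516977220) (nat_lit 0) (nat_lit 30279766618) (nat_lit 1) (nat_lit 5) (nat_lit 3) (nat_lit 4) (nat_lit 1) (nat_lit 4) (nat_lit 345) (nat_lit 260) (nat_lit 175))) (XT.nd (nat_lit 78) (nat_lit 0) (nat_lit 0) (XT.lf (nat_lit 0) (nat_lit 54971051018) (nat_lit 152) (nat_lit 766934274345) (nat_lit 0) (nat_lit 41220345131) (nat_lit 1) (nat_lit 5) (nat_lit 3) (nat_lit 4) (nat_lit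 1) (nat_lit 4) (nat_lit 346) (nat_lit 260) (nat_lit 174)) (XT.lf (nat_lit 0) (nat_lit 66786716093) (nat_lit 152) (nat_lit 811668365750) (nat_lit 0) (nat_lit 53034648357) (nat_lit 1) (nat_lit 5) (nat_lit 3) (nat_lit 4) (nat_lit 1) (nat_lit 4) (nat_lit 347) (nat_lit 260) (nat_lit 173)))) (XT.nd (nat_lit 156) (nat_lit 0) (nat_lit 0) (XT.nd (nat_lit 78) (nat_lit 0) (nat_lit 0) (XT.lf (nat_lit 0) (nat_lit 79546015690) (nat_lit 152) (nat_lit 859984342346) (nat_lit 0) (nat_lit 65792686984) (nat_lit 1) (nat_lit 5) (nat_lit 3) (nat_lit 4) (nat_lit 1) (nat_lit 4) (nat_lit 348) (nat_lit 260) (nat_lit 172)) (XT.lf (nat_lit 0) (nat_lit 93324560473) (nat_lit 152) (nat_lit 912168521032) (nat_lit 0) (nat_lit 79570064203) (nat_lit 1) (nat_lit 5) (nat_lit 3) (nat_lit 4) (nat_lit 1) (nat_lit 4) (nat_lit 349) (nat_lit 260) (nat_lit 171))) (XT.nd (nat_lit 78) (nat_lit 0) (nat_lit 0) (XT.lf (nat_lit 0) (nat_lit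 108204001079) (nat_lit 152) (nat_lit 968530141385) (nat_lit 0) (nat_lit 94448423730) (nat_lit 1) (nat_lit 5) (nat_lit 3) (nat_lit 4) (nat_lit 1) (nat_lit 4) (nat_lit 350) (nat_lit 260) (nat_lit 170)) (XT.lf (nat_lit 0) (nat_lit 124272511970) (nat_lit 152) (nat_lit 1029403198192) (nat_lit 0) (nat_lit 110515933622) (nat_lit 1) (nat_lit 5) (nat_lit 3) (nat_lit 4) (nat_lit 1) (nat_lit 4) (nat_lit 351) (nat_lit 260) (nat_lit 169))))))))
noncomputable def xc51 : XT := (XT.nd (nat_lit 34632) (nat_lit 0) (nat_lit 532) (XT.nd (nat_lit 1170) (nat_lit 0) (nat_lit 0) (XT.nd (nat_lit 546) (nat_lit 0) (nat_lit 0) (XT.nd (nat_lit 234) (nat_lit 0) (nat_lit 0) (XT.nd (nat_lit 78) (nat_lit 0) (nat_lit 0) (XT.lf (nat_lit 0) (nat_lit 141625313951) (nat_lit 152) (nat_lit 1095148420679) (nat_lit 0) (nat_lit 127867808753) (nat_lit 1) (nat_lit 5) (nat_lit 3) (nat_lit 4) (nat_lit 1) (nat_lit 4) (nat_lit 352)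 (nat_lit 260) (nat_lit 168)) (XT.nd (nat_lit 78) (nat_lit 0) (nat_lit 0) (XT.lf (nat_lit 0) (nat_lit 160365238442) (nat_lit 152) (nat_lit 1166155410164) (nat_lit 0) (nat_lit 146606875049) (nat_lit 1) (nat_lit 5) (nat_lit 3) (nat_lit 4) (nat_lit 1) (nat_lit 4) (nat_lit 353) (nat_lit 260) (nat_lit 167)) (XT.lf (nat_lit 0) (nat_lit 180603336847) (nat_lit 152) (nat_lit 1242844948808) (nat_lit 0) (nat_lit 166844178828) (nat_lit 1) (nat_lit 5) (nat_lit 3) (nat_lit 4) (nat_lit 1) (nat_lit 4) (nat_lit 354) (nat_lit 260) (nat_lit 166)))) (XT.nd (nat_lit 156) (nat_lit 0) (nat_lit 0) (XT.nd (nat_lit 78) (nat_lit 0) (nat_lit 0) (XT.lf (nat_lit 0) (nat_lit 202459538637) (nat_lit 152) (nat_lit 1325671493135) (nat_lit 0) (nat_lit 188699644855) (nat_lit 1) (nat_lit 5) (nat_lit 3) (nat_lit 4) (nat_lit 1) (nat_lit 4) (nat_lit 355) (nat_lit 260) (nat_lit 165)) (XT.lf (nat_lit 0) (nat_lit 226063362047)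 (nat_lit 152) (nat_lit 1415125867112) (nat_lit 0) (nat_lit 212302787002) (nat_lit 1) (nat_lit 5) (nat_lit 3) (nat_lit 4) (nat_lit 1) (nat_lit 4) (nat_lit 356) (nat_lit 260) (nat_lit 164))) (XT.nd (nat_lit 78) (nat_lit 0) (nat_lit 0) (XT.lf (nat_lit 0) (nat_lit 251554681585) (nat_lit 152) (nat_lit 1511738170732) (nat_lit 0) (nat_lit 237793475741) (nat_lit 1) (nat_lit 5) (nat_lit 3) (nat_lit 4) (nat_lit 1) (nat_lit 4) (nat_lit 357) (nat_lit 260) (nat_lit 163)) (XT.lf (nat_lit 0) (nat_lit 279084556922) (nat_lit 152) (nat_lit 1616080921352) (nat_lit 0) (nat_lit 265322767005) (nat_lit 1) (nat_lit 5) (nat_lit 3) (nat_lit 4) (nat_lit 1) (nat_lit 4) (nat_lit 358) (nat_lit 260) (nat_lit 162))))) (XT.nd (nat_lit 312) (nat_lit 0) (nat_lit 0) (XT.nd (nat_lit 156) (nat_lit 0) (nat_lit 0) (XT.nd (nat_lit 78) (nat_lit 0) (nat_lit 0) (XT.lf (nat_lit 0) (nat_lit 308816128060) (nat_lit 152) (nat_lit 1728772446381)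 (nat_lit 0) (nat_lit 295053797334) (nat_lit 1) (nat_lit 5) (nat_lit 3) (nat_lit 4) (nat_lit 1) (nat_lit 4) (nat_lit 359) (nat_lit 260) (nat_lit 161)) (XT.lf (nat_lit 0) (nat_lit 340925582088) (nat_lit 152) (nat_lit 1850480547450) (nat_lit 0) (nat_lit 327162750614) (nat_lit 1) (nat_lit 5) (nat_lit 3) (nat_lit 4) (nat_lit 1) (nat_lit 4) (nat_lit 360) (nat_lit 260) (nat_lit 160))) (XT.nd (nat_lit 78) (nat_lit 0) (nat_lit 0) (XT.lf (nat_lit 0) (nat_lit 375603197251) (nat_lit 152) (nat_lit 1981926457749) (nat_lit 0) (nat_lit 361839902121) (nat_lit 1) (nat_lit 5) (nat_lit 3) (nat_lit 4) (nat_lit 1) (nat_lit 4) (nat_lit 361) (nat_lit 260) (nat_lit 159)) (XT.lf (nat_lit 0) (nat_lit 413054470529) (nat_lit 152) (nat_lit 2123889116008) (nat_lit 0) (nat_lit 399290746087) (nat_lit 1) (nat_lit 5) (nat_lit 3) (nat_lit 4) (nat_lit 1) (nat_lit 4) (nat_lit 362) (nat_lit 260) (nat_lit 158)))) (XT.nd (nat_lit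 156) (nat_lit 0) (nat_lit 0) (XT.nd (nat_lit 78) (nat_lit 0) (nat_lit 0) (XT.lf (nat_lit 0) (nat_lit 453501335392) (nat_lit 152) (nat_lit 2277209782422) (nat_lit 0) (nat_lit 439737213440) (nat_lit 1) (nat_lit 5) (nat_lit 3) (nat_lit 4) (nat_lit 1) (nat_lit 4) (nat_lit 363) (nat_lit 260) (nat_lit 157)) (XT.lf (nat_lit 0) (nat_lit 497183476966) (nat_lit 152) (nat_lit 2442797023904) (nat_lit 0) (nat_lit 483418986949) (nat_lit 1) (nat_lit 5) (nat_lit 3) (nat_lit 4) (nat_lit 1) (nat_lit 4) (nat_lit 364) (nat_lit 260) (nat_lit 156))) (XT.nd (nat_lit 78) (nat_lit 0) (nat_lit 0) (XT.lf (nat_lit 0) (nat_lit 544359752386) (nat_lit 152) (nat_lit 2621632098181) (nat_lit 0) (nat_lit 530594921568) (nat_lit 1) (nat_lit 5) (nat_lit 3) (nat_lit 4) (nat_lit 1) (nat_lit 4) (nat_lit 365) (nat_lit 260) (nat_lit 155)) (XT.lf (nat_lit 0) (nat_lit 595309724765) (nat_lit 152) (nat_lit 2814774768657) (nat_lit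 0) (nat_lit 581544578391) (nat_lit 1) (nat_lit 5) (nat_lit 3) (nat_lit 4) (nat_lit 1) (nat_lit 4) (nat_lit 366) (nat_lit 260) (nat_lit 154)))))) (XT.nd (nat_lit 32838) (nat_lit 0) (nat_lit 2812) (XT.nd (nat_lit 32526) (nat_lit 0) (nat_lit 4560) (XT.nd (nat_lit 32370) (nat_lit 0) (nat_lit 4788) (XT.nd (nat_lit 78) (nat_lit 0) (nat_lit 0) (XT.lf (nat_lit 0) (nat_lit 650335319867) (nat_lit 152) (nat_lit 3023369584489) (nat_lit 0) (nat_lit 636569881310) (nat_lit 1) (nat_lit 5) (nat_lit 3) (nat_lit 4) (nat_lit 1) (nat_lit 4) (nat_lit 367) (nat_lit 260) (nat_lit 153)) (XT.lf (nat_lit 0) (nat_lit 709762615290) (nat_lit 152) (nat_lit 3248652663105) (nat_lit 0) (nat_lit 695996906195) (nat_lit 1) (nat_lit 5) (nat_lit 3) (nat_lit 4) (nat_lit 1) (nat_lit 4) (nat_lit 368) (nat_lit 260) (nat_lit 152))) (XT.nd (nat_lit 78) (nat_lit 228) (nat_lit 0) (XT.lf (nat_lit 0) (nat_lit 1424837278) (nat_lit 0)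 (nat_lit 1424837278) (nat_lit 76) (nat_lit 384539345) (nat_lit 67) (nat_lit 5) (nat_lit 67) (nat_lit 3) (nat_lit 68) (nat_lit 0) (nat_lit 261) (nat_lit 261) (nat_lit 258)) (XT.lf (nat_lit 0) (nat_lit 1822499675) (nat_lit 228) (nat_lit 595887135) (nat_lit 228) (nat_lit 4090117908) (nat_lit 64) (nat_lit 3) (nat_lit 67) (nat_lit 3) (nat_lit 67) (nat_lit 5) (nat_lit 262) (nat_lit 261) (nat_lit 257)))) (XT.nd (nat_lit 156) (nat_lit 0) (nat_lit 76) (XT.nd (nat_lit 78) (nat_lit 228) (nat_lit 0) (XT.lf (nat_lit 76) (nat_lit 2640738779) (nat_lit 0) (nat_lit 1744267908) (nat_lit 228) (nat_lit 2182132729) (nat_lit 65) (nat_lit 5) (nat_lit 64) (nat_lit 3) (nat_lit 67) (nat_lit 5) (nat_lit 263) (nat_lit 261) (nat_lit 256)) (XT.lf (nat_lit 0) (nat_lit 262647364) (nat_lit 228) (nat_lit 622933555) (nat_lit 304) (nat_lit 5763710134) (nat_lit 61) (nat_lit 5) (nat_lit 64) (nat_lit 3) (nat_lit 65) (nat_lit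 5) (nat_lit 264) (nat_lit 261) (nat_lit 255))) (XT.nd (nat_lit 78) (nat_lit 0) (nat_lit 0) (XT.lf (nat_lit 0) (nat_lit 2629702036) (nat_lit 228) (nat_lit 3860942749) (nat_lit 76) (nat_lit 256350152) (nat_lit 62) (nat_lit 5) (nat_lit 65) (nat_lit 5) (nat_lit 63) (nat_lit 5) (nat_lit 265) (nat_lit 261) (nat_lit 254)) (XT.lf (nat_lit 0) (nat_lit 5010940376) (nat_lit 228) (nat_lit 320034784) (nat_lit 76) (nat_lit 1536555482) (nat_lit 62) (nat_lit 5) (nat_lit 65) (nat_lit 5) (nat_lit 63) (nat_lit 5) (nat_lit 266) (nat_lit 261) (nat_lit 253))))) (XT.nd (nat_lit 312) (nat_lit 836) (nat_lit 0) (XT.nd (nat_lit 156) (nat_lit 380) (nat_lit 0) (XT.nd (nat_lit 78) (nat_lit 304) (nat_lit 0) (XT.lf (nat_lit 0) (nat_lit 437206320) (nat_lit 304) (nat_lit 3482864222) (nat_lit 76) (nat_lit 3086851404) (nat_lit 58) (nat_lit 5) (nat_lit 62) (nat_lit 5) (nat_lit 59) (nat_lit 5) (nat_lit 267) (nat_lit 261)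 (nat_lit 252)) (XT.lf (nat_lit 0) (nat_lit 354014041) (nat_lit 304) (nat_lit 2283683346) (nat_lit 380) (nat_lit 4530824396) (nat_lit 54) (nat_lit 5) (nat_lit 58) (nat_lit 5) (nat_lit 59) (nat_lit 5) (nat_lit 268) (nat_lit 261) (nat_lit 251))) (XT.nd (nat_lit 78) (nat_lit 380) (nat_lit 0) (XT.lf (nat_lit 0) (nat_lit 4547414784) (nat_lit 304) (nat_lit 378842516) (nat_lit 380) (nat_lit 2424565750) (nat_lit 54) (nat_lit 5) (nat_lit 58) (nat_lit 5) (nat_lit 59) (nat_lit 5) (nat_lit 269) (nat_lit 261) (nat_lit 250)) (XT.lf (nat_lit 0) (nat_lit 1406023510) (nat_lit 380) (nat_lit 5897203363) (nat_lit 456) (nat_lit 252736853) (nat_lit 49) (nat_lit 5) (nat_lit 54) (nat_lit 5) (nat_lit 55) (nat_lit 5) (nat_lit 270) (nat_lit 261) (nat_lit 249)))) (XT.nd (nat_lit 156) (nat_lit 304) (nat_lit 0) (XT.nd (nat_lit 78) (nat_lit 456) (nat_lit 0) (XT.lf (nat_lit 0) (nat_lit 1911951294) (nat_lit 456) (nat_lit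 1879824976) (nat_lit 76) (nat_lit 3988392453) (nat_lit 48) (nat_lit 5) (nat_lit 54) (nat_lit 5) (nat_lit 49) (nat_lit 5) (nat_lit 271) (nat_lit 261) (nat_lit 248)) (XT.lf (nat_lit 0) (nat_lit 2714924481) (nat_lit 456) (nat_lit 1434051935) (nat_lit 532) (nat_lit 3880324070) (nat_lit 42) (nat_lit 5) (nat_lit 48) (nat_lit 5) (nat_lit 49) (nat_lit 5) (nat_lit 272) (nat_lit 261) (nat_lit 247))) (XT.nd (nat_lit 78) (nat_lit 304) (nat_lit 0) (XT.lf (nat_lit 0) (nat_lit 6499886505) (nat_lit 532) (nat_lit 692815396) (nat_lit 76) (nat_lit 1111367832) (nat_lit 42) (nat_lit 5) (nat_lit 49) (nat_lit 5) (nat_lit 43) (nat_lit 5) (nat_lit 273) (nat_lit 261) (nat_lit 246)) (XT.lf (nat_lit 0) (nat_lit 423544083) (nat_lit 304) (nat_lit 4276509559) (nat_lit 76) (nat_lit 3899760750) (nat_lit 38) (nat_lit 5) (nat_lit 42) (nat_lit 5) (nat_lit 39) (nat_lit 5) (nat_lit 274) (nat_lit 261) (nat_lit 245)))))))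 (XT.nd (nat_lit 1170) (nat_lit 760) (nat_lit 0) (XT.nd (nat_lit 546) (nat_lit 684) (nat_lit 0) (XT.nd (nat_lit 234) (nat_lit 380) (nat_lit 0) (XT.nd (nat_lit 78) (nat_lit 228) (nat_lit 0) (XT.lf (nat_lit 0) (nat_lit 703388494) (nat_lit 228) (nat_lit 1933971797) (nat_lit 304) (nat_lit 6286079435) (nat_lit 35) (nat_lit 5) (nat_lit 38) (nat_lit 5) (nat_lit 39) (nat_lit 5) (nat_lit 275) (nat_lit 261) (nat_lit 244)) (XT.nd (nat_lit 78) (nat_lit 228) (nat_lit 0) (XT.lf (nat_lit 0) (nat_lit 5048392031) (nat_lit 304) (nat_lit 3120128883) (nat_lit 76) (nat_lit 1103193439) (nat_lit 35) (nat_lit 5) (nat_lit 39) (nat_lit 5) (nat_lit 36) (nat_lit 5) (nat_lit 276) (nat_lit 261) (nat_lit 243)) (XT.lf (nat_lit 0) (nat_lit 2311476235) (nat_lit 228) (nat_lit 5330738980) (nat_lit 304) (nat_lit 2006783844) (nat_lit 32) (nat_lit 5) (nat_lit 35) (nat_lit 5) (nat_lit 36) (nat_lit 5) (nat_lit 277) (nat_lit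 261) (nat_lit 242)))) (XT.nd (nat_lit 156) (nat_lit 152) (nat_lit 0) (XT.nd (nat_lit 78) (nat_lit 152) (nat_lit 0) (XT.lf (nat_lit 0) (nat_lit 341415716) (nat_lit 304) (nat_lit 1850518415) (nat_lit 76) (nat_lit 7866183772) (nat_lit 31) (nat_lit 5) (nat_lit 35) (nat_lit 5) (nat_lit 32) (nat_lit 5) (nat_lit 278) (nat_lit 261) (nat_lit 241)) (XT.lf (nat_lit 0) (nat_lit 2794172852) (nat_lit 228) (nat_lit 6434229422) (nat_lit 76) (nat_lit 1265654990) (nat_lit 29) (nat_lit 5) (nat_lit 32) (nat_lit 5) (nat_lit 30) (nat_lit 5) (nat_lit 279) (nat_lit 261) (nat_lit 240))) (XT.nd (nat_lit 78) (nat_lit 152) (nat_lit 0) (XT.lf (nat_lit 0) (nat_lit 5450562137) (nat_lit 228) (nat_lit 608749445) (nat_lit 76) (nat_lit 4905217780) (nat_lit 29) (nat_lit 5) (nat_lit 32) (nat_lit 5) (nat_lit 30) (nat_lit 5) (nat_lit 280) (nat_lit 261) (nat_lit 239)) (XT.lf (nat_lit 0) (nat_lit 5847584861) (nat_lit 152) (nat_lit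 2518593349) (nat_lit 228) (nat_lit 3102955721) (nat_lit 27) (nat_lit 5) (nat_lit 29) (nat_lit 5) (nat_lit 30) (nat_lit 5) (nat_lit 281) (nat_lit 261) (nat_lit 238))))) (XT.nd (nat_lit 312) (nat_lit 304) (nat_lit 0) (XT.nd (nat_lit 156) (nat_lit 152) (nat_lit 0) (XT.nd (nat_lit 78) (nat_lit 76) (nat_lit 0) (XT.lf (nat_lit 0) (nat_lit 715167433) (nat_lit 152) (nat_lit 10774761434) (nat_lit 228) (nat_lit 526401948) (nat_lit 25) (nat_lit 5) (nat_lit 27) (nat_lit 5) (nat_lit 28) (nat_lit 4) (nat_lit 282) (nat_lit 261) (nat_lit 237)) (XT.lf (nat_lit 0) (nat_lit 2276936627) (nat_lit 228) (nat_lit 4972793052) (nat_lit 76) (nat_lit 5342734542) (nat_lit 24) (nat_lit 5) (nat_lit 27) (nat_lit 5) (nat_lit 25) (nat_lit 5) (nat_lit 283) (nat_lit 261) (nat_lit 236))) (XT.nd (nat_lit 78) (nat_lit 0) (nat_lit 0) (XT.lf (nat_lit 0) (nat_lit 1816217779) (nat_lit 152) (nat_lit 3420616287) (nat_lit 228) (nat_lit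 7980072411) (nat_lit 22) (nat_lit 5) (nat_lit 24) (nat_lit 5) (nat_lit 25) (nat_lit 5) (nat_lit 284) (nat_lit 261) (nat_lit 235)) (XT.lf (nat_lit 0) (nat_lit 8509565586) (nat_lit 228) (nat_lit 4595265312) (nat_lit 76) (nat_lit 780547701) (nat_lit 22) (nat_lit 5) (nat_lit 25) (nat_lit 5) (nat_lit 23) (nat_lit 4) (nat_lit 285) (nat_lit 261) (nat_lit 234)))) (XT.nd (nat_lit 156) (nat_lit 152) (nat_lit 0) (XT.nd (nat_lit 78) (nat_lit 76) (nat_lit 0) (XT.lf (nat_lit 0) (nat_lit 2684017731) (nat_lit 76) (nat_lit 9438823693) (nat_lit 152) (nat_lit 2478335173) (nat_lit 21) (nat_lit 5) (nat_lit 22) (nat_lit 5) (nat_lit 23) (nat_lit 4) (nat_lit 286) (nat_lit 261) (nat_lit 233)) (XT.lf (nat_lit 0) (nat_lit 673429472) (nat_lit 152) (nat_lit 4693195725) (nat_lit 76) (nat_lit 10002082043) (nat_lit 20) (nat_lit 5) (nat_lit 22) (nat_lit 5) (nat_lit 21) (nat_lit 5) (nat_lit 287) (nat_lit 261) (nat_lit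 232))) (XT.nd (nat_lit 78) (nat_lit 0) (nat_lit 0) (XT.lf (nat_lit 0) (nat_lit 3090513669) (nat_lit 152) (nat_lit 858869941) (nat_lit 228) (nat_lit 12242747549) (nat_lit 18) (nat_lit 5) (nat_lit 20) (nat_lit 5) (nat_lit 21) (nat_lit 5) (nat_lit 288) (nat_lit 261) (nat_lit 231)) (XT.lf (nat_lit 0) (nat_lit 7648679382) (nat_lit 228) (nat_lit 5517172409) (nat_lit 76) (nat_lit 3902783418) (nat_lit 18) (nat_lit 5) (nat_lit 21) (nat_lit 5) (nat_lit 19) (nat_lit 4) (nat_lit 289) (nat_lit 261) (nat_lit 230)))))) (XT.nd (nat_lit 624) (nat_lit 304) (nat_lit 0) (XT.nd (nat_lit 312) (nat_lit 152) (nat_lit 0) (XT.nd (nat_lit 156) (nat_lit 228) (nat_lit 0) (XT.nd (nat_lit 78) (nat_lit 0) (nat_lit 0) (XT.lf (nat_lit 0) (nat_lit 2684068159) (nat_lit 76) (nat_lit 8984843566) (nat_lit 152) (nat_lit 6344447907) (nat_lit 17) (nat_lit 5) (nat_lit 18) (nat_lit 5) (nat_lit 19) (nat_lit 4) (nat_lit 290) (nat_lit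 261) (nat_lit 229)) (XT.lf (nat_lit 0) (nat_lit 11755834934) (nat_lit 76) (nat_lit 4346103331) (nat_lit 152) (nat_lit 2924521807) (nat_lit 17) (nat_lit 5) (nat_lit 18) (nat_lit 5) (nat_lit 19) (nat_lit 4) (nat_lit 291) (nat_lit 261) (nat_lit 228))) (XT.nd (nat_lit 78) (nat_lit 0) (nat_lit 0) (XT.lf (nat_lit 0) (nat_lit 723547707) (nat_lit 228) (nat_lit 18748810908) (nat_lit 76) (nat_lit 647407931) (nat_lit 14) (nat_lit 5) (nat_lit 17) (nat_lit 5) (nat_lit 15) (nat_lit 4) (nat_lit 292) (nat_lit 261) (nat_lit 227)) (XT.lf (nat_lit 0) (nat_lit 4766600857) (nat_lit 228) (nat_lit 10457484547) (nat_lit 76) (nat_lit 6049557273) (nat_lit 14) (nat_lit 5) (nat_lit 17) (nat_lit 5) (nat_lit 15) (nat_lit 4) (nat_lit 293) (nat_lit 261) (nat_lit 226)))) (XT.nd (nat_lit 156) (nat_lit 76) (nat_lit 0) (XT.nd (nat_lit 78) (nat_lit 76) (nat_lit 0) (XT.lf (nat_lit 0) (nat_lit 9081521602) (nat_lit 228) (nat_lit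 1591916238) (nat_lit 76) (nat_lit 11850584895) (nat_lit 14) (nat_lit 5) (nat_lit 17) (nat_lit 5) (nat_lit 15) (nat_lit 4) (nat_lit 294) (nat_lit 261) (nat_lit 225)) (XT.lf (nat_lit 0) (nat_lit 8316453398) (nat_lit 76) (nat_lit 5577437349) (nat_lit 152) (nat_lit 9968424761) (nat_lit 13) (nat_lit 5) (nat_lit 14) (nat_lit 5) (nat_lit 15) (nat_lit 4) (nat_lit 295) (nat_lit 261) (nat_lit 224))) (XT.nd (nat_lit 78) (nat_lit 76) (nat_lit 0) (XT.lf (nat_lit 0) (nat_lit 19027647245) (nat_lit 76) (nat_lit 60976204) (nat_lit 152) (nat_lit 6219316380) (nat_lit 13) (nat_lit 5) (nat_lit 14) (nat_lit 5) (nat_lit 15) (nat_lit 4) (nat_lit 296) (nat_lit 261) (nat_lit 223)) (XT.lf (nat_lit 0) (nat_lit 3692271393) (nat_lit 76) (nat_lit 21193785488) (nat_lit 76) (nat_lit 1968241193) (nat_lit 12) (nat_lit 4) (nat_lit 13) (nat_lit 5) (nat_lit 13) (nat_lit 4) (nat_lit 297) (nat_lit 261) (nat_lit 222))))) (XT.nd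 (nat_lit 312) (nat_lit 152) (nat_lit 0) (XT.nd (nat_lit 156) (nat_lit 76) (nat_lit 0) (XT.nd (nat_lit 78) (nat_lit 0) (nat_lit 0) (XT.lf (nat_lit 0) (nat_lit 2626247270) (nat_lit 152) (nat_lit 13837451266) (nat_lit 76) (nat_lit 12044903111) (nat_lit 11) (nat_lit 5) (nat_lit 13) (nat_lit 5) (nat_lit 12) (nat_lit 4) (nat_lit 298) (nat_lit 261) (nat_lit 221)) (XT.lf (nat_lit 0) (nat_lit 7441938389) (nat_lit 152) (nat_lit 3889796417) (nat_lit 76) (nat_lit 18962669136) (nat_lit 11) (nat_lit 5) (nat_lit 13) (nat_lit 5) (nat_lit 12) (nat_lit 4) (nat_lit 299) (nat_lit 261) (nat_lit 220))) (XT.nd (nat_lit 78) (nat_lit 0) (nat_lit 0) (XT.lf (nat_lit 0) (nat_lit 7144626321) (nat_lit 76) (nat_lit 5633031100) (nat_lit 152) (nat_lit 19434670694) (nat_lit 10) (nat_lit 5) (nat_lit 11) (nat_lit 5) (nat_lit 12) (nat_lit 4) (nat_lit 300) (nat_lit 261) (nat_lit 219)) (XT.lf (nat_lit 0) (nat_lit 18625330575)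 (nat_lit 152) (nat_lit 15074441561) (nat_lit 0) (nat_lit 577142940) (nat_lit 10) (nat_lit 5) (nat_lit 12) (nat_lit 4) (nat_lit 10) (nat_lit 4) (nat_lit 301) (nat_lit 261) (nat_lit 218)))) (XT.nd (nat_lit 156) (nat_lit 76) (nat_lit 0) (XT.nd (nat_lit 78) (nat_lit 76) (nat_lit 0) (XT.lf (nat_lit 0) (nat_lit 25053274969) (nat_lit 152) (nat_lit 4490048295) (nat_lit 0) (nat_lit 6954383006) (nat_lit 10) (nat_lit 5) (nat_lit 12) (nat_lit 4) (nat_lit 10) (nat_lit 4) (nat_lit 302) (nat_lit 261) (nat_lit 217)) (XT.lf (nat_lit 0) (nat_lit 7246156984) (nat_lit 76) (nat_lit 24892220860) (nat_lit 76) (nat_lit 6746380445) (nat_lit 9) (nat_lit 4) (nat_lit 10) (nat_lit 5) (nat_lit 10) (nat_lit 4) (nat_lit 303) (nat_lit 261) (nat_lit 216))) (XT.nd (nat_lit 78) (nat_lit 76) (nat_lit 0) (XT.lf (nat_lit 0) (nat_lit 20120643855) (nat_lit 76) (nat_lit 19762039645) (nat_lit 76) (nat_lit 1572728441) (nat_lit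 9) (nat_lit 4) (nat_lit 10) (nat_lit 5) (nat_lit 10) (nat_lit 4) (nat_lit 304) (nat_lit 261) (nat_lit 215)) (XT.lf (nat_lit 0) (nat_lit 3785100809) (nat_lit 152) (nat_lit 10356552249) (nat_lit 76) (nat_lit 30084675414) (nat_lit 8) (nat_lit 5) (nat_lit 10) (nat_lit 5) (nat_lit 9) (nat_lit 4) (nat_lit 305) (nat_lit 261) (nat_lit 214))))))))
noncomputable def xc52 : XT := (XT.nd (nat_lit 2340) (nat_lit 152) (nat_lit 0) (XT.nd (nat_lit 1170) (nat_lit 76) (nat_lit 0) (XT.nd (nat_lit 546) (nat_lit 152) (nat_lit 0) (XT.nd (nat_lit 234) (nat_lit 76) (nat_lit 0) (XT.nd (nat_lit 78) (nat_lit 0) (nat_lit 0) (XT.lf (nat_lit 0) (nat_lit 1483886298) (nat_lit 76) (nat_lit 8011650926) (nat_lit 152) (nat_lit 37719420228) (nat_lit 7) (nat_lit 5) (nat_lit 8) (nat_lit 5) (nat_lit 9) (nat_lit 4) (nat_lit 306) (nat_lit 261) (nat_lit 213)) (XT.nd (nat_lit 78) (nat_lit 0) (nat_lit 0) (XT.lf (nat_lit 0) (nat_lit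 14812382764) (nat_lit 76) (nat_lit 1107676085) (nat_lit 152) (nat_lit 34502059219) (nat_lit 7) (nat_lit 5) (nat_lit 8) (nat_lit 5) (nat_lit 9) (nat_lit 4) (nat_lit 307) (nat_lit 261) (nat_lit 212)) (XT.lf (nat_lit 0) (nat_lit 22986734699) (nat_lit 152) (nat_lit 24877416843) (nat_lit 0) (nat_lit 6011464356) (nat_lit 7) (nat_lit 5) (nat_lit 9) (nat_lit 4) (nat_lit 7) (nat_lit 4) (nat_lit 308) (nat_lit 261) (nat_lit 211)))) (XT.nd (nat_lit 156) (nat_lit 76) (nat_lit 0) (XT.nd (nat_lit 78) (nat_lit 0) (nat_lit 0) (XT.lf (nat_lit 0) (nat_lit 30624837746) (nat_lit 152) (nat_lit 13357913222) (nat_lit 0) (nat_lit 13622173432) (nat_lit 7) (nat_lit 5) (nat_lit 9) (nat_lit 4) (nat_lit 7) (nat_lit 4) (nat_lit 309) (nat_lit 261) (nat_lit 210)) (XT.lf (nat_lit 0) (nat_lit 38852991188) (nat_lit 152) (nat_lit 956321081) (nat_lit 0) (nat_lit 21824962087) (nat_lit 7) (nat_lit 5) (nat_lit 9) (nat_lit 4)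 (nat_lit 7) (nat_lit 4) (nat_lit 310) (nat_lit 261) (nat_lit 209))) (XT.nd (nat_lit 78) (nat_lit 0) (nat_lit 0) (XT.lf (nat_lit 0) (nat_lit 13053857308) (nat_lit 76) (nat_lit 34980042727) (nat_lit 76) (nat_lit 17928527710) (nat_lit 6) (nat_lit 4) (nat_lit 7) (nat_lit 5) (nat_lit 7) (nat_lit 4) (nat_lit 311) (nat_lit 261) (nat_lit 208)) (XT.lf (nat_lit 0) (nat_lit 28203614127) (nat_lit 76) (nat_lit 29752955979) (nat_lit 76) (nat_lit 12679694745) (nat_lit 6) (nat_lit 4) (nat_lit 7) (nat_lit 5) (nat_lit 7) (nat_lit 4) (nat_lit 312) (nat_lit 261) (nat_lit 207))))) (XT.nd (nat_lit 312) (nat_lit 0) (nat_lit 0) (XT.nd (nat_lit 156) (nat_lit 152) (nat_lit 0) (XT.nd (nat_lit 78) (nat_lit 0) (nat_lit 0) (XT.lf (nat_lit 0) (nat_lit 44532367537) (nat_lit 76) (nat_lit 24123224210) (nat_lit 76) (nat_lit 7029827591) (nat_lit 6) (nat_lit 4) (nat_lit 7) (nat_lit 5) (nat_lit 7) (nat_lit 4) (nat_lit 313)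 (nat_lit 261) (nat_lit 206)) (XT.lf (nat_lit 0) (nat_lit 62136880522) (nat_lit 76) (nat_lit 18057486048) (nat_lit 76) (nat_lit 945445552) (nat_lit 6) (nat_lit 4) (nat_lit 7) (nat_lit 5) (nat_lit 7) (nat_lit 4) (nat_lit 314) (nat_lit 261) (nat_lit 205))) (XT.nd (nat_lit 78) (nat_lit 76) (nat_lit 0) (XT.lf (nat_lit 0) (nat_lit 5328896710) (nat_lit 152) (nat_lit 6045198186) (nat_lit 76) (nat_lit 75646877932) (nat_lit 5) (nat_lit 5) (nat_lit 7) (nat_lit 5) (nat_lit 6) (nat_lit 4) (nat_lit 315) (nat_lit 261) (nat_lit 204)) (XT.lf (nat_lit 0) (nat_lit 8313530278) (nat_lit 76) (nat_lit 3926285943) (nat_lit 152) (nat_lit 81115998814) (nat_lit 4) (nat_lit 5) (nat_lit 5) (nat_lit 5) (nat_lit 6) (nat_lit 4) (nat_lit 316) (nat_lit 261) (nat_lit 203)))) (XT.nd (nat_lit 156) (nat_lit 0) (nat_lit 0) (XT.nd (nat_lit 78) (nat_lit 0) (nat_lit 0) (XT.lf (nat_lit 0) (nat_lit 19958102268) (nat_lit 152) (nat_lit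 76149859775) (nat_lit 0) (nat_lit 4069132293) (nat_lit 4) (nat_lit 5) (nat_lit 6) (nat_lit 4) (nat_lit 4) (nat_lit 4) (nat_lit 317) (nat_lit 261) (nat_lit 202)) (XT.lf (nat_lit 0) (nat_lit 28382768834) (nat_lit 152) (nat_lit 66673092061) (nat_lit 0) (nat_lit 12481110150) (nat_lit 4) (nat_lit 5) (nat_lit 6) (nat_lit 4) (nat_lit 4) (nat_lit 4) (nat_lit 318) (nat_lit 261) (nat_lit 201))) (XT.nd (nat_lit 78) (nat_lit 0) (nat_lit 0) (XT.lf (nat_lit 0) (nat_lit 37469312598) (nat_lit 152) (nat_lit 56461395723) (nat_lit 0) (nat_lit 21555905109) (nat_lit 4) (nat_lit 5) (nat_lit 6) (nat_lit 4) (nat_lit 4) (nat_lit 4) (nat_lit 319) (nat_lit 261) (nat_lit 200)) (XT.lf (nat_lit 0) (nat_lit 47271579745) (nat_lit 152) (nat_lit 45454257003) (nat_lit 0) (nat_lit 31347293734) (nat_lit 4) (nat_lit 5) (nat_lit 6) (nat_lit 4) (nat_lit 4) (nat_lit 4) (nat_lit 320) (nat_lit 261) (nat_lit 199)))))) (XT.nd (nat_lit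 546) (nat_lit 0) (nat_lit 0) (XT.nd (nat_lit 234) (nat_lit 76) (nat_lit 0) (XT.nd (nat_lit 78) (nat_lit 0) (nat_lit 0) (XT.lf (nat_lit 0) (nat_lit 57847657784) (nat_lit 152) (nat_lit 33586448412) (nat_lit 0) (nat_lit 41913299067) (nat_lit 4) (nat_lit 5) (nat_lit 6) (nat_lit 4) (nat_lit 4) (nat_lit 4) (nat_lit 321) (nat_lit 261) (nat_lit 198)) (XT.nd (nat_lit 78) (nat_lit 0) (nat_lit 0) (XT.lf (nat_lit 0) (nat_lit 69260219771) (nat_lit 152) (nat_lit 20787642197) (nat_lit 0) (nat_lit 53316534474) (nat_lit 4) (nat_lit 5) (nat_lit 6) (nat_lit 4) (nat_lit 4) (nat_lit 4) (nat_lit 322) (nat_lit 261) (nat_lit 197)) (XT.lf (nat_lit 0) (nat_lit 81576895702) (nat_lit 152) (nat_lit 6981993580) (nat_lit 0) (nat_lit 65624574682) (nat_lit 4) (nat_lit 5) (nat_lit 6) (nat_lit 4) (nat_lit 4) (nat_lit 4) (nat_lit 323) (nat_lit 261) (nat_lit 196)))) (XT.nd (nat_lit 156) (nat_lit 0) (nat_lit 0) (XT.nd (nat_lit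 78) (nat_lit 0) (nat_lit 0) (XT.lf (nat_lit 0) (nat_lit 8328956843) (nat_lit 76) (nat_lit 86742028055) (nat_lit 76) (nat_lit 70781710997) (nat_lit 3) (nat_lit 4) (nat_lit 4) (nat_lit 5) (nat_lit 4) (nat_lit 4) (nat_lit 324) (nat_lit 261) (nat_lit 195)) (XT.lf (nat_lit 0) (nat_lit 25246457182) (nat_lit 76) (nat_lit 84581051185) (nat_lit 76) (nat_lit 68613330387) (nat_lit 3) (nat_lit 4) (nat_lit 4) (nat_lit 5) (nat_lit 4) (nat_lit 4) (nat_lit 325) (nat_lit 261) (nat_lit 194))) (XT.nd (nat_lit 78) (nat_lit 0) (nat_lit 0) (XT.lf (nat_lit 0) (nat_lit 43503099881) (nat_lit 76) (nat_lit 82254052961) (nat_lit 76) (nat_lit 66279476849) (nat_lit 3) (nat_lit 4) (nat_lit 4) (nat_lit 5) (nat_lit 4) (nat_lit 4) (nat_lit 326) (nat_lit 261) (nat_lit 193)) (XT.lf (nat_lit 0) (nat_lit 63207072452) (nat_lit 76) (nat_lit 79747243765) (nat_lit 76) (nat_lit 63766320139) (nat_lit 3) (nat_lit 4) (nat_lit 4)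 (nat_lit 5) (nat_lit 4) (nat_lit 4) (nat_lit 327) (nat_lit 261) (nat_lit 192))))) (XT.nd (nat_lit 312) (nat_lit 0) (nat_lit 0) (XT.nd (nat_lit 156) (nat_lit 0) (nat_lit 0) (XT.nd (nat_lit 78) (nat_lit 0) (nat_lit 0) (XT.lf (nat_lit 0) (nat_lit 84475139177) (nat_lit 76) (nat_lit 77045768430) (nat_lit 76) (nat_lit 61058967477) (nat_lit 3) (nat_lit 4) (nat_lit 4) (nat_lit 5) (nat_lit 4) (nat_lit 4) (nat_lit 328) (nat_lit 261) (nat_lit 191)) (XT.lf (nat_lit 0) (nat_lit 107433333044) (nat_lit 76) (nat_lit 74133618215) (nat_lit 76) (nat_lit 58141375291) (nat_lit 3) (nat_lit 4) (nat_lit 4) (nat_lit 5) (nat_lit 4) (nat_lit 4) (nat_lit 329) (nat_lit 261) (nat_lit 190))) (XT.nd (nat_lit 78) (nat_lit 0) (nat_lit 0) (XT.lf (nat_lit 0) (nat_lit 132217702609) (nat_lit 76) (nat_lit 70993535931) (nat_lit 76) (nat_lit 54996254147) (nat_lit 3) (nat_lit 4) (nat_lit 4) (nat_lit 5) (nat_lit 4) (nat_lit 4)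 (nat_lit 330) (nat_lit 261) (nat_lit 189)) (XT.lf (nat_lit 0) (nat_lit 158975118211) (nat_lit 76) (nat_lit 67606913685) (nat_lit 76) (nat_lit 51604966289) (nat_lit 3) (nat_lit 4) (nat_lit 4) (nat_lit 5) (nat_lit 4) (nat_lit 4) (nat_lit 331) (nat_lit 261) (nat_lit 188)))) (XT.nd (nat_lit 156) (nat_lit 0) (nat_lit 0) (XT.nd (nat_lit 78) (nat_lit 0) (nat_lit 0) (XT.lf (nat_lit 0) (nat_lit 187864142312) (nat_lit 76) (nat_lit 63953682605) (nat_lit 76) (nat_lit 47947415197) (nat_lit 3) (nat_lit 4) (nat_lit 4) (nat_lit 5) (nat_lit 4) (nat_lit 4) (nat_lit 332) (nat_lit 261) (nat_lit 187)) (XT.lf (nat_lit 0) (nat_lit 219055969129) (nat_lit 76) (nat_lit 60012193912) (nat_lit 76) (nat_lit 44001926494) (nat_lit 3) (nat_lit 4) (nat_lit 4) (nat_lit 5) (nat_lit 4) (nat_lit 4) (nat_lit 333) (nat_lit 261) (nat_lit 186))) (XT.nd (nat_lit 78) (nat_lit 0) (nat_lit 0) (XT.lf (nat_lit 0) (nat_lit 252735439117)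 (nat_lit 76) (nat_lit 55759090637) (nat_lit 76) (nat_lit 39745119506) (nat_lit 3) (nat_lit 4) (nat_lit 4) (nat_lit 5) (nat_lit 4) (nat_lit 4) (nat_lit 334) (nat_lit 261) (nat_lit 185)) (XT.lf (nat_lit 0) (nat_lit 289102134321) (nat_lit 76) (nat_lit 51169169205) (nat_lit 76) (nat_lit 35151768710) (nat_lit 3) (nat_lit 4) (nat_lit 4) (nat_lit 5) (nat_lit 4) (nat_lit 4) (nat_lit 335) (nat_lit 261) (nat_lit 184))))))) (XT.nd (nat_lit 1170) (nat_lit 0) (nat_lit 0) (XT.nd (nat_lit 546) (nat_lit 0) (nat_lit 0) (XT.nd (nat_lit 234) (nat_lit 152) (nat_lit 0) (XT.nd (nat_lit 78) (nat_lit 0) (nat_lit 0) (XT.lf (nat_lit 0) (nat_lit 328371561083) (nat_lit 76) (nat_lit 46215230082) (nat_lit 76) (nat_lit 30194654250) (nat_lit 3) (nat_lit 4) (nat_lit 4) (nat_lit 5) (nat_lit 4) (nat_lit 4) (nat_lit 336) (nat_lit 261) (nat_lit 183)) (XT.nd (nat_lit 78) (nat_lit 0) (nat_lit 0) (XT.lf (nat_lit 0) (nat_lit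 370776427117) (nat_lit 76) (nat_lit 40867916592) (nat_lit 76) (nat_lit 24844400633) (nat_lit 3) (nat_lit 4) (nat_lit 4) (nat_lit 5) (nat_lit 4) (nat_lit 4) (nat_lit 337) (nat_lit 261) (nat_lit 182)) (XT.lf (nat_lit 0) (nat_lit 416568020517) (nat_lit 76) (nat_lit 35095540950) (nat_lit 76) (nat_lit 19069302651) (nat_lit 3) (nat_lit 4) (nat_lit 4) (nat_lit 5) (nat_lit 4) (nat_lit 4) (nat_lit 338) (nat_lit 261) (nat_lit 181)))) (XT.nd (nat_lit 156) (nat_lit 152) (nat_lit 0) (XT.nd (nat_lit 78) (nat_lit 0) (nat_lit 0) (XT.lf (nat_lit 0) (nat_lit 466017698875) (nat_lit 76) (nat_lit 28863896486) (nat_lit 76) (nat_lit 12835137503) (nat_lit 3) (nat_lit 4) (nat_lit 4) (nat_lit 5) (nat_lit 4) (nat_lit 4) (nat_lit 339) (nat_lit 261) (nat_lit 180)) (XT.lf (nat_lit 0) (nat_lit 519418497321) (nat_lit 76) (nat_lit 22136054938) (nat_lit 76) (nat_lit 6104961987) (nat_lit 3) (nat_lit 4) (nat_lit 4) (nat_lit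 5) (nat_lit 4) (nat_lit 4) (nat_lit 340) (nat_lit 261) (nat_lit 179))) (XT.nd (nat_lit 78) (nat_lit 76) (nat_lit 0) (XT.lf (nat_lit 0) (nat_lit 1103023172) (nat_lit 152) (nat_lit 13738965832) (nat_lit 76) (nat_lit 575953683251) (nat_lit 2) (nat_lit 5) (nat_lit 4) (nat_lit 5) (nat_lit 3) (nat_lit 4) (nat_lit 341) (nat_lit 261) (nat_lit 178)) (XT.lf (nat_lit 0) (nat_lit 1853098718) (nat_lit 76) (nat_lit 6747071354) (nat_lit 152) (nat_lit 628766480480) (nat_lit 1) (nat_lit 5) (nat_lit 2) (nat_lit 5) (nat_lit 3) (nat_lit 4) (nat_lit 342) (nat_lit 261) (nat_lit 177))))) (XT.nd (nat_lit 312) (nat_lit 0) (nat_lit 0) (XT.nd (nat_lit 156) (nat_lit 0) (nat_lit 0) (XT.nd (nat_lit 78) (nat_lit 0) (nat_lit 0) (XT.lf (nat_lit 0) (nat_lit 17128281652) (nat_lit 152) (nat_lit 668221423421) (nat_lit 0) (nat_lit 2279107752) (nat_lit 1) (nat_lit 5) (nat_lit 3) (nat_lit 4) (nat_lit 1) (nat_lit 4) (nat_lit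 343) (nat_lit 261) (nat_lit 176)) (XT.lf (nat_lit 0) (nat_lit 26511851689) (nat_lit 152) (nat_lit 703725151358) (nat_lit 0) (nat_lit 11661089330) (nat_lit 1) (nat_lit 5) (nat_lit 3) (nat_lit 4) (nat_lit 1) (nat_lit 4) (nat_lit 344) (nat_lit 261) (nat_lit 175))) (XT.nd (nat_lit 78) (nat_lit 0) (nat_lit 0) (XT.lf (nat_lit 0) (nat_lit 36644219297) (nat_lit 152) (nat_lit 742072860880) (nat_lit 0) (nat_lit 21791986142) (nat_lit 1) (nat_lit 5) (nat_lit 3) (nat_lit 4) (nat_lit 1) (nat_lit 4) (nat_lit 345) (nat_lit 261) (nat_lit 174)) (XT.lf (nat_lit 0) (nat_lit 47585428135) (nat_lit 152) (nat_lit 783491797674) (nat_lit 0) (nat_lit 32731833133) (nat_lit 1) (nat_lit 5) (nat_lit 3) (nat_lit 4) (nat_lit 1) (nat_lit 4) (nat_lit 346) (nat_lit 261) (nat_lit 173)))) (XT.nd (nat_lit 156) (nat_lit 0) (nat_lit 0) (XT.nd (nat_lit 78) (nat_lit 0) (nat_lit 0) (XT.lf (nat_lit 0) (nat_lit 59400314996) (nat_lit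 152) (nat_lit 828227407289) (nat_lit 0) (nat_lit 44545459024) (nat_lit 1) (nat_lit 5) (nat_lit 3) (nat_lit 4) (nat_lit 1) (nat_lit 4) (nat_lit 347) (nat_lit 261) (nat_lit 172)) (XT.lf (nat_lit 0) (nat_lit 72158894025) (nat_lit 152) (nat_lit 876544789636) (nat_lit 0) (nat_lit 57302870488) (nat_lit 1) (nat_lit 5) (nat_lit 3) (nat_lit 4) (nat_lit 1) (nat_lit 4) (nat_lit 348) (nat_lit 261) (nat_lit 171))) (XT.nd (nat_lit 78) (nat_lit 0) (nat_lit 0) (XT.lf (nat_lit 0) (nat_lit 85936771616) (nat_lit 152) (nat_lit 928730269943) (nat_lit 0) (nat_lit 71079667000) (nat_lit 1) (nat_lit 5) (nat_lit 3) (nat_lit 4) (nat_lit 1) (nat_lit 4) (nat_lit 349) (nat_lit 261) (nat_lit 170)) (XT.lf (nat_lit 0) (nat_lit 100815594450) (nat_lit 152) (nat_lit 985093095501) (nat_lit 0) (nat_lit 85957488836) (nat_lit 1) (nat_lit 5) (nat_lit 3) (nat_lit 4) (nat_lit 1) (nat_lit 4) (nat_lit 350) (nat_lit 261) (nat_lit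 169)))))) (XT.nd (nat_lit 624) (nat_lit 0) (nat_lit 0) (XT.nd (nat_lit 312) (nat_lit 0) (nat_lit 0) (XT.nd (nat_lit 156) (nat_lit 0) (nat_lit 0) (XT.nd (nat_lit 78) (nat_lit 0) (nat_lit 0) (XT.lf (nat_lit 0) (nat_lit 116883533331) (nat_lit 152) (nat_lit 1045967268239) (nat_lit 0) (nat_lit 102024500867) (nat_lit 1) (nat_lit 5) (nat_lit 3) (nat_lit 4) (nat_lit 1) (nat_lit 4) (nat_lit 351) (nat_lit 261) (nat_lit 168)) (XT.lf (nat_lit 0) (nat_lit 134235805674) (nat_lit 152) (nat_lit 1111713523995) (nat_lit 0) (nat_lit 119375915014) (nat_lit 1) (nat_lit 5) (nat_lit 3) (nat_lit 4) (nat_lit 1) (nat_lit 4) (nat_lit 352) (nat_lit 261) (nat_lit 167))) (XT.nd (nat_lit 78) (nat_lit 0) (nat_lit 0) (XT.lf (nat_lit 0) (nat_lit 152975239758) (nat_lit 152) (nat_lit 1182721470210) (nat_lit 0) (nat_lit 138114554473) (nat_lit 1) (nat_lit 5) (nat_lit 3) (nat_lit 4) (nat_lit 1) (nat_lit 4) (nat_lit 353) (nat_lit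 261) (nat_lit 166)) (XT.lf (nat_lit 0) (nat_lit 173212884083) (nat_lit 152) (nat_lit 1259411894716) (nat_lit 0) (nat_lit 158351463034) (nat_lit 1) (nat_lit 5) (nat_lit 3) (nat_lit 4) (nat_lit 1) (nat_lit 4) (nat_lit 354) (nat_lit 261) (nat_lit 165)))) (XT.nd (nat_lit 156) (nat_lit 0) (nat_lit 0) (XT.nd (nat_lit 78) (nat_lit 0) (nat_lit 0) (XT.lf (nat_lit 0) (nat_lit 195068665429) (nat_lit 152) (nat_lit 1342239259285) (nat_lit 0) (nat_lit 180206563118) (nat_lit 1) (nat_lit 5) (nat_lit 3) (nat_lit 4) (nat_lit 1) (nat_lit 4) (nat_lit 355) (nat_lit 261) (nat_lit 164)) (XT.lf (nat_lit 0) (nat_lit 218672099539) (nat_lit 152) (nat_lit 1431694392745) (nat_lit 0) (nat_lit 203809366428) (nat_lit 1) (nat_lit 5) (nat_lit 3) (nat_lit 4) (nat_lit 1) (nat_lit 4) (nat_lit 356) (nat_lit 261) (nat_lit 163))) (XT.nd (nat_lit 78) (nat_lit 0) (nat_lit 0) (XT.lf (nat_lit 0) (nat_lit 244163058613) (nat_lit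 152) (nat_lit 1528307399591) (nat_lit 0) (nat_lit 229299741430) (nat_lit 1) (nat_lit 5) (nat_lit 3) (nat_lit 4) (nat_lit 1) (nat_lit 4) (nat_lit 357) (nat_lit 261) (nat_lit 162)) (XT.lf (nat_lit 0) (nat_lit 271692600188) (nat_lit 152) (nat_lit 1632650801346) (nat_lit 0) (nat_lit 256828742196) (nat_lit 1) (nat_lit 5) (nat_lit 3) (nat_lit 4) (nat_lit 1) (nat_lit 4) (nat_lit 358) (nat_lit 261) (nat_lit 161))))) (XT.nd (nat_lit 312) (nat_lit 0) (nat_lit 0) (XT.nd (nat_lit 156) (nat_lit 0) (nat_lit 0) (XT.nd (nat_lit 78) (nat_lit 0) (nat_lit 0) (XT.lf (nat_lit 0) (nat_lit 301423862287) (nat_lit 152) (nat_lit 1745342929277) (nat_lit 0) (nat_lit 286559503546) (nat_lit 1) (nat_lit 5) (nat_lit 3) (nat_lit 4) (nat_lit 1) (nat_lit 4) (nat_lit 359) (nat_lit 261) (nat_lit 160)) (XT.lf (nat_lit 0) (nat_lit 333533030167) (nat_lit 152) (nat_lit 1867051588589) (nat_lit 0) (nat_lit 318668207770) (nat_lit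 1) (nat_lit 5) (nat_lit 3) (nat_lit 4) (nat_lit 1) (nat_lit 4) (nat_lit 360) (nat_lit 261) (nat_lit 159))) (XT.nd (nat_lit 78) (nat_lit 0) (nat_lit 0) (XT.lf (nat_lit 0) (nat_lit 368210380379) (nat_lit 152) (nat_lit 1998498015780) (nat_lit 0) (nat_lit 353345128671) (nat_lit 1) (nat_lit 5) (nat_lit 3) (nat_lit 4) (nat_lit 1) (nat_lit 4) (nat_lit 361) (nat_lit 261) (nat_lit 158)) (XT.lf (nat_lit 0) (nat_lit 405661408331) (nat_lit 152) (nat_lit 2140461152642) (nat_lit 0) (nat_lit 390795759113) (nat_lit 1) (nat_lit 5) (nat_lit 3) (nat_lit 4) (nat_lit 1) (nat_lit 4) (nat_lit 362) (nat_lit 261) (nat_lit 157)))) (XT.nd (nat_lit 156) (nat_lit 0) (nat_lit 0) (XT.nd (nat_lit 78) (nat_lit 0) (nat_lit 0) (XT.lf (nat_lit 0) (nat_lit 446108046042) (nat_lit 152) (nat_lit 2293782262207) (nat_lit 0) (nat_lit 431242028758) (nat_lit 1) (nat_lit 5) (nat_lit 3) (nat_lit 4) (nat_lit 1) (nat_lit 4) (nat_lit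 363) (nat_lit 261) (nat_lit 156)) (XT.lf (nat_lit 0) (nat_lit 489789977289) (nat_lit 152) (nat_lit 2459369914015) (nat_lit 0) (nat_lit 474923619204) (nat_lit 1) (nat_lit 5) (nat_lit 3) (nat_lit 4) (nat_lit 1) (nat_lit 4) (nat_lit 364) (nat_lit 261) (nat_lit 155))) (XT.nd (nat_lit 78) (nat_lit 0) (nat_lit 0) (XT.lf (nat_lit 0) (nat_lit 536966057961) (nat_lit 152) (nat_lit 2638205368223) (nat_lit 0) (nat_lit 522099384321) (nat_lit 1) (nat_lit 5) (nat_lit 3) (nat_lit 4) (nat_lit 1) (nat_lit 4) (nat_lit 365) (nat_lit 261) (nat_lit 154)) (XT.lf (nat_lit 0) (nat_lit 587915850020) (nat_lit 152) (nat_lit 2831348390486) (nat_lit 0) (nat_lit 573048884197) (nat_lit 1) (nat_lit 5) (nat_lit 3) (nat_lit 4) (nat_lit 1) (nat_lit 4) (nat_lit 366) (nat_lit 261) (nat_lit 153))))))))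
noncomputable def xc53 : XT := (XT.nd (nat_lit 34632) (nat_lit 0) (nat_lit 228) (XT.nd (nat_lit 33462) (nat_lit 0) (nat_lit 1292) (XT.nd (nat_lit 32838) (nat_lit 0) (nat_lit 2812) (XT.nd (nat_lit 32526) (nat_lit 0) (nat_lit 4560) (XT.nd (nat_lit 78) (nat_lit 0) (nat_lit 0) (XT.lf (nat_lit 0) (nat_lit 642941278157) (nat_lit 152) (nat_lit 3039943532048) (nat_lit 0) (nat_lit 628074041795) (nat_lit 1) (nat_lit 5) (nat_lit 3) (nat_lit 4) (nat_lit 1) (nat_lit 4) (nat_lit 367) (nat_lit 261) (nat_lit 152)) (XT.nd (nat_lit 32370) (nat_lit 0) (nat_lit 4788) (XT.lf (nat_lit 0) (nat_lit 702368418984) (nat_lit 152) (nat_lit 3265226912265) (nat_lit 0) (nat_lit 687500932123) (nat_lit 1) (nat_lit 5) (nat_lit 3) (nat_lit 4) (nat_lit 1) (nat_lit 4) (nat_lit 368) (nat_lit 261) (nat_lit 151)) (XT.lf (nat_lit 0) (nat_lit 2125697702) (nat_lit 228) (nat_lit 576574527) (nat_lit 228) (nat_lit 576574527) (nat_lit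 64) (nat_lit 3) (nat_lit 67) (nat_lit 3) (nat_lit 67) (nat_lit 5) (nat_lit 262) (nat_lit 262) (nat_lit 256)))) (XT.nd (nat_lit 156) (nat_lit 0) (nat_lit 0) (XT.nd (nat_lit 78) (nat_lit 0) (nat_lit 0) (XT.lf (nat_lit 0) (nat_lit 53022765) (nat_lit 228) (nat_lit 4640294722) (nat_lit 304) (nat_lit 1933965388) (nat_lit 61) (nat_lit 5) (nat_lit 64) (nat_lit 3) (nat_lit 65) (nat_lit 5) (nat_lit 263) (nat_lit 262) (nat_lit 255)) (XT.lf (nat_lit 0) (nat_lit 2277353332) (nat_lit 228) (nat_lit 1456516401) (nat_lit 304) (nat_lit 2980789364) (nat_lit 61) (nat_lit 5) (nat_lit 64) (nat_lit 3) (nat_lit 65) (nat_lit 5) (nat_lit 264) (nat_lit 262) (nat_lit 254))) (XT.nd (nat_lit 78) (nat_lit 0) (nat_lit 0) (XT.lf (nat_lit 76) (nat_lit 1950076479) (nat_lit 0) (nat_lit 2562116166) (nat_lit 304) (nat_lit 2311228840) (nat_lit 62) (nat_lit 5) (nat_lit 61) (nat_lit 5) (nat_lit 65) (nat_lit 5) (nat_lit 265)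 (nat_lit 262) (nat_lit 253)) (XT.lf (nat_lit 76) (nat_lit 5585868659) (nat_lit 0) (nat_lit 1178279731) (nat_lit 304) (nat_lit 190597032) (nat_lit 62) (nat_lit 5) (nat_lit 61) (nat_lit 5) (nat_lit 65) (nat_lit 5) (nat_lit 266) (nat_lit 262) (nat_lit 252))))) (XT.nd (nat_lit 312) (nat_lit 1140) (nat_lit 0) (XT.nd (nat_lit 156) (nat_lit 380) (nat_lit 0) (XT.nd (nat_lit 78) (nat_lit 0) (nat_lit 0) (XT.lf (nat_lit 0) (nat_lit 1871011831) (nat_lit 304) (nat_lit 4760564509) (nat_lit 76) (nat_lit 471644904) (nat_lit 58) (nat_lit 5) (nat_lit 62) (nat_lit 5) (nat_lit 59) (nat_lit 5) (nat_lit 267) (nat_lit 262) (nat_lit 251)) (XT.lf (nat_lit 0) (nat_lit 3976629881) (nat_lit 304) (nat_lit 1009218883) (nat_lit 76) (nat_lit 2286915911) (nat_lit 58) (nat_lit 5) (nat_lit 62) (nat_lit 5) (nat_lit 59) (nat_lit 5) (nat_lit 268) (nat_lit 262) (nat_lit 250))) (XT.nd (nat_lit 78) (nat_lit 76) (nat_lit 0)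 (XT.lf (nat_lit 0) (nat_lit 3064931807) (nat_lit 304) (nat_lit 3093156270) (nat_lit 380) (nat_lit 1305873548) (nat_lit 54) (nat_lit 5) (nat_lit 58) (nat_lit 5) (nat_lit 59) (nat_lit 5) (nat_lit 269) (nat_lit 262) (nat_lit 249)) (XT.lf (nat_lit 0) (nat_lit 667976740) (nat_lit 380) (nat_lit 303259747) (nat_lit 76) (nat_lit 6708853338) (nat_lit 53) (nat_lit 5) (nat_lit 58) (nat_lit 5) (nat_lit 54) (nat_lit 5) (nat_lit 270) (nat_lit 262) (nat_lit 248)))) (XT.nd (nat_lit 156) (nat_lit 304) (nat_lit 0) (XT.nd (nat_lit 78) (nat_lit 456) (nat_lit 0) (XT.lf (nat_lit 0) (nat_lit 2715480233) (nat_lit 456) (nat_lit 3782637304) (nat_lit 76) (nat_lit 1414314374) (nat_lit 48) (nat_lit 5) (nat_lit 54) (nat_lit 5) (nat_lit 49) (nat_lit 5) (nat_lit 271) (nat_lit 262) (nat_lit 247)) (XT.lf (nat_lit 0) (nat_lit 643394146) (nat_lit 456) (nat_lit 4191414377) (nat_lit 532) (nat_lit 3336411657) (nat_lit 42)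 (nat_lit 5) (nat_lit 48) (nat_lit 5) (nat_lit 49) (nat_lit 5) (nat_lit 272) (nat_lit 262) (nat_lit 246))) (XT.nd (nat_lit 78) (nat_lit 304) (nat_lit 0) (XT.lf (nat_lit 0) (nat_lit 5506666989) (nat_lit 456) (nat_lit 1586541312) (nat_lit 532) (nat_lit 1360404873) (nat_lit 42) (nat_lit 5) (nat_lit 48) (nat_lit 5) (nat_lit 49) (nat_lit 5) (nat_lit 273) (nat_lit 262) (nat_lit 245)) (XT.lf (nat_lit 0) (nat_lit 685433089) (nat_lit 304) (nat_lit 6845085979) (nat_lit 76) (nat_lit 1230951237) (nat_lit 38) (nat_lit 5) (nat_lit 42) (nat_lit 5) (nat_lit 39) (nat_lit 5) (nat_lit 274) (nat_lit 262) (nat_lit 244)))))) (XT.nd (nat_lit 546) (nat_lit 684) (nat_lit 0) (XT.nd (nat_lit 234) (nat_lit 608) (nat_lit 0) (XT.nd (nat_lit 78) (nat_lit 228) (nat_lit 0) (XT.lf (nat_lit 0) (nat_lit 2824013759) (nat_lit 304) (nat_lit 1965748390) (nat_lit 76) (nat_lit 4301529297) (nat_lit 38) (nat_lit 5) (nat_lit 42)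 (nat_lit 5) (nat_lit 39) (nat_lit 5) (nat_lit 275) (nat_lit 262) (nat_lit 243)) (XT.nd (nat_lit 78) (nat_lit 0) (nat_lit 0) (XT.lf (nat_lit 0) (nat_lit 3345379940) (nat_lit 228) (nat_lit 1756439284) (nat_lit 304) (nat_lit 4348568808) (nat_lit 35) (nat_lit 5) (nat_lit 38) (nat_lit 5) (nat_lit 39) (nat_lit 5) (nat_lit 276) (nat_lit 262) (nat_lit 242)) (XT.lf (nat_lit 0) (nat_lit 7546208519) (nat_lit 304) (nat_lit 809871961) (nat_lit 76) (nat_lit 1483698685) (nat_lit 35) (nat_lit 5) (nat_lit 39) (nat_lit 5) (nat_lit 36) (nat_lit 5) (nat_lit 277) (nat_lit 262) (nat_lit 241)))) (XT.nd (nat_lit 156) (nat_lit 152) (nat_lit 0) (XT.nd (nat_lit 78) (nat_lit 228) (nat_lit 0) (XT.lf (nat_lit 0) (nat_lit 4991454801) (nat_lit 228) (nat_lit 5260981974) (nat_lit 304) (nat_lit 2873989) (nat_lit 32) (nat_lit 5) (nat_lit 35) (nat_lit 5) (nat_lit 36) (nat_lit 5) (nat_lit 278) (nat_lit 262) (nat_lit 240))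 (XT.lf (nat_lit 0) (nat_lit 438772190) (nat_lit 152) (nat_lit 1844377672) (nat_lit 228) (nat_lit 8421576396) (nat_lit 29) (nat_lit 5) (nat_lit 31) (nat_lit 5) (nat_lit 32) (nat_lit 5) (nat_lit 279) (nat_lit 262) (nat_lit 239))) (XT.nd (nat_lit 78) (nat_lit 152) (nat_lit 0) (XT.lf (nat_lit 0) (nat_lit 4850028497) (nat_lit 228) (nat_lit 4457512892) (nat_lit 76) (nat_lit 1874929335) (nat_lit 29) (nat_lit 5) (nat_lit 32) (nat_lit 5) (nat_lit 30) (nat_lit 5) (nat_lit 280) (nat_lit 262) (nat_lit 238)) (XT.lf (nat_lit 0) (nat_lit 1736310555) (nat_lit 152) (nat_lit 5888649137) (nat_lit 228) (nat_lit 4073473647) (nat_lit 27) (nat_lit 5) (nat_lit 29) (nat_lit 5) (nat_lit 30) (nat_lit 5) (nat_lit 281) (nat_lit 262) (nat_lit 237))))) (XT.nd (nat_lit 312) (nat_lit 304) (nat_lit 0) (XT.nd (nat_lit 156) (nat_lit 152) (nat_lit 0) (XT.nd (nat_lit 78) (nat_lit 228) (nat_lit 0) (XT.lf (nat_lit 0) (nat_lit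 8563891721) (nat_lit 152) (nat_lit 2096577851) (nat_lit 228) (nat_lit 1592315523) (nat_lit 27) (nat_lit 5) (nat_lit 29) (nat_lit 5) (nat_lit 30) (nat_lit 5) (nat_lit 282) (nat_lit 262) (nat_lit 236)) (XT.lf (nat_lit 0) (nat_lit 1078226915) (nat_lit 228) (nat_lit 9795589913) (nat_lit 76) (nat_lit 1972123857) (nat_lit 24) (nat_lit 5) (nat_lit 27) (nat_lit 5) (nat_lit 25) (nat_lit 5) (nat_lit 283) (nat_lit 262) (nat_lit 235))) (XT.nd (nat_lit 78) (nat_lit 152) (nat_lit 0) (XT.lf (nat_lit 0) (nat_lit 3957519003) (nat_lit 228) (nat_lit 3152103753) (nat_lit 76) (nat_lit 6367284511) (nat_lit 24) (nat_lit 5) (nat_lit 27) (nat_lit 5) (nat_lit 25) (nat_lit 5) (nat_lit 284) (nat_lit 262) (nat_lit 234)) (XT.lf (nat_lit 0) (nat_lit 4123863065) (nat_lit 152) (nat_lit 2971355065) (nat_lit 228) (nat_lit 7061034124) (nat_lit 22) (nat_lit 5) (nat_lit 24) (nat_lit 5) (nat_lit 25) (nat_lit 5) (nat_lit 285)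 (nat_lit 262) (nat_lit 233)))) (XT.nd (nat_lit 156) (nat_lit 228) (nat_lit 0) (XT.nd (nat_lit 78) (nat_lit 76) (nat_lit 0) (XT.lf (nat_lit 0) (nat_lit 10539241345) (nat_lit 228) (nat_lit 2867545249) (nat_lit 76) (nat_lit 1478868936) (nat_lit 22) (nat_lit 5) (nat_lit 25) (nat_lit 5) (nat_lit 23) (nat_lit 4) (nat_lit 286) (nat_lit 262) (nat_lit 232)) (XT.lf (nat_lit 0) (nat_lit 4941033822) (nat_lit 76) (nat_lit 9449743368) (nat_lit 152) (nat_lit 1272199939) (nat_lit 21) (nat_lit 5) (nat_lit 22) (nat_lit 5) (nat_lit 23) (nat_lit 4) (nat_lit 287) (nat_lit 262) (nat_lit 231))) (XT.nd (nat_lit 78) (nat_lit 152) (nat_lit 0) (XT.lf (nat_lit 0) (nat_lit 1962626209) (nat_lit 152) (nat_lit 3110491785) (nat_lit 76) (nat_lit 11424163909) (nat_lit 20) (nat_lit 5) (nat_lit 22) (nat_lit 5) (nat_lit 21) (nat_lit 5) (nat_lit 288) (nat_lit 262) (nat_lit 230)) (XT.lf (nat_lit 0) (nat_lit 5246340700) (nat_lit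 152) (nat_lit 208712154) (nat_lit 228) (nat_lit 11935330457) (nat_lit 18) (nat_lit 5) (nat_lit 20) (nat_lit 5) (nat_lit 21) (nat_lit 5) (nat_lit 289) (nat_lit 262) (nat_lit 229))))))) (XT.nd (nat_lit 1170) (nat_lit 380) (nat_lit 0) (XT.nd (nat_lit 546) (nat_lit 304) (nat_lit 0) (XT.nd (nat_lit 234) (nat_lit 304) (nat_lit 0) (XT.nd (nat_lit 78) (nat_lit 76) (nat_lit 0) (XT.lf (nat_lit 0) (nat_lit 9378173116) (nat_lit 228) (nat_lit 4117420738) (nat_lit 76) (nat_lit 4847327131) (nat_lit 18) (nat_lit 5) (nat_lit 21) (nat_lit 5) (nat_lit 19) (nat_lit 4) (nat_lit 290) (nat_lit 262) (nat_lit 228)) (XT.nd (nat_lit 78) (nat_lit 0) (nat_lit 0) (XT.lf (nat_lit 0) (nat_lit 4693308304) (nat_lit 76) (nat_lit 8987088724) (nat_lit 152) (nat_lit 5686129614) (nat_lit 17) (nat_lit 5) (nat_lit 18) (nat_lit 5) (nat_lit 19) (nat_lit 4) (nat_lit 291) (nat_lit 262) (nat_lit 227)) (XT.lf (nat_lit 0) (nat_lit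 14357889407) (nat_lit 76) (nat_lit 4030326479) (nat_lit 152) (nat_lit 2078970473) (nat_lit 17) (nat_lit 5) (nat_lit 18) (nat_lit 5) (nat_lit 19) (nat_lit 4) (nat_lit 292) (nat_lit 262) (nat_lit 226)))) (XT.nd (nat_lit 156) (nat_lit 76) (nat_lit 0) (XT.nd (nat_lit 78) (nat_lit 0) (nat_lit 0) (XT.lf (nat_lit 0) (nat_lit 1787672243) (nat_lit 228) (nat_lit 18511108240) (nat_lit 76) (nat_lit 1348747216) (nat_lit 14) (nat_lit 5) (nat_lit 17) (nat_lit 5) (nat_lit 15) (nat_lit 4) (nat_lit 293) (nat_lit 262) (nat_lit 225)) (XT.lf (nat_lit 0) (nat_lit 6079633294) (nat_lit 228) (nat_lit 9685187439) (nat_lit 76) (nat_lit 7134953939) (nat_lit 14) (nat_lit 5) (nat_lit 17) (nat_lit 5) (nat_lit 15) (nat_lit 4) (nat_lit 294) (nat_lit 262) (nat_lit 224))) (XT.nd (nat_lit 78) (nat_lit 76) (nat_lit 0) (XT.lf (nat_lit 0) (nat_lit 10670732561) (nat_lit 228) (nat_lit 229551138) (nat_lit 76) (nat_lit 13355513245)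 (nat_lit 14) (nat_lit 5) (nat_lit 17) (nat_lit 5) (nat_lit 15) (nat_lit 4) (nat_lit 295) (nat_lit 262) (nat_lit 223)) (XT.lf (nat_lit 0) (nat_lit 10433773680) (nat_lit 76) (nat_lit 5405335384) (nat_lit 152) (nat_lit 9864446537) (nat_lit 13) (nat_lit 5) (nat_lit 14) (nat_lit 5) (nat_lit 15) (nat_lit 4) (nat_lit 296) (nat_lit 262) (nat_lit 222))))) (XT.nd (nat_lit 312) (nat_lit 152) (nat_lit 0) (XT.nd (nat_lit 156) (nat_lit 76) (nat_lit 0) (XT.nd (nat_lit 78) (nat_lit 76) (nat_lit 0) (XT.lf (nat_lit 0) (nat_lit 21399849077) (nat_lit 152) (nat_lit 5387725618) (nat_lit 0) (nat_lit 481298549) (nat_lit 13) (nat_lit 5) (nat_lit 15) (nat_lit 4) (nat_lit 13) (nat_lit 4) (nat_lit 297) (nat_lit 262) (nat_lit 221)) (XT.lf (nat_lit 0) (nat_lit 5345783565) (nat_lit 76) (nat_lit 22291339038) (nat_lit 76) (nat_lit 1303805831) (nat_lit 12) (nat_lit 4) (nat_lit 13) (nat_lit 5) (nat_lit 13) (nat_lit 4)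 (nat_lit 298) (nat_lit 262) (nat_lit 220))) (XT.nd (nat_lit 78) (nat_lit 0) (nat_lit 0) (XT.lf (nat_lit 0) (nat_lit 3559291642) (nat_lit 152) (nat_lit 13648079441) (nat_lit 76) (nat_lit 13523312388) (nat_lit 11) (nat_lit 5) (nat_lit 13) (nat_lit 5) (nat_lit 12) (nat_lit 4) (nat_lit 299) (nat_lit 262) (nat_lit 219)) (XT.lf (nat_lit 0) (nat_lit 8706686599) (nat_lit 152) (nat_lit 3000639459) (nat_lit 76) (nat_lit 20956365099) (nat_lit 11) (nat_lit 5) (nat_lit 13) (nat_lit 5) (nat_lit 12) (nat_lit 4) (nat_lit 300) (nat_lit 262) (nat_lit 218)))) (XT.nd (nat_lit 156) (nat_lit 76) (nat_lit 0) (XT.nd (nat_lit 78) (nat_lit 0) (nat_lit 0) (XT.lf (nat_lit 0) (nat_lit 8886148727) (nat_lit 76) (nat_lit 5561667131) (nat_lit 152) (nat_lit 20289002053) (nat_lit 10) (nat_lit 5) (nat_lit 11) (nat_lit 5) (nat_lit 12) (nat_lit 4) (nat_lit 301) (nat_lit 262) (nat_lit 217)) (XT.lf (nat_lit 0) (nat_lit 20726931198)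 (nat_lit 152) (nat_lit 15160124214) (nat_lit 0) (nat_lit 1082475097) (nat_lit 10) (nat_lit 5) (nat_lit 12) (nat_lit 4) (nat_lit 10) (nat_lit 4) (nat_lit 302) (nat_lit 262) (nat_lit 216))) (XT.nd (nat_lit 78) (nat_lit 76) (nat_lit 0) (XT.lf (nat_lit 0) (nat_lit 27623809353) (nat_lit 152) (nat_lit 3811962648) (nat_lit 0) (nat_lit 7935882464) (nat_lit 10) (nat_lit 5) (nat_lit 12) (nat_lit 4) (nat_lit 10) (nat_lit 4) (nat_lit 303) (nat_lit 262) (nat_lit 215)) (XT.lf (nat_lit 0) (nat_lit 8836878560) (nat_lit 76) (nat_lit 26421211067) (nat_lit 76) (nat_lit 6693033447) (nat_lit 9) (nat_lit 4) (nat_lit 10) (nat_lit 5) (nat_lit 10) (nat_lit 4) (nat_lit 304) (nat_lit 262) (nat_lit 214)))))) (XT.nd (nat_lit 624) (nat_lit 152) (nat_lit 0) (XT.nd (nat_lit 312) (nat_lit 76) (nat_lit 0) (XT.nd (nat_lit 156) (nat_lit 76) (nat_lit 0) (XT.nd (nat_lit 78) (nat_lit 76) (nat_lit 0) (XT.lf (nat_lit 0) (nat_lit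 22666433343) (nat_lit 76) (nat_lit 20914866277) (nat_lit 76) (nat_lit 1149419463) (nat_lit 9) (nat_lit 4) (nat_lit 10) (nat_lit 5) (nat_lit 10) (nat_lit 4) (nat_lit 305) (nat_lit 262) (nat_lit 213)) (XT.lf (nat_lit 0) (nat_lit 4570925248) (nat_lit 152) (nat_lit 10292430811) (nat_lit 76) (nat_lit 32862020975) (nat_lit 8) (nat_lit 5) (nat_lit 10) (nat_lit 5) (nat_lit 9) (nat_lit 4) (nat_lit 306) (nat_lit 262) (nat_lit 212))) (XT.nd (nat_lit 78) (nat_lit 0) (nat_lit 0) (XT.lf (nat_lit 0) (nat_lit 2472644197) (nat_lit 76) (nat_lit 8250698039) (nat_lit 152) (nat_lit 40230973286) (nat_lit 7) (nat_lit 5) (nat_lit 8) (nat_lit 5) (nat_lit 9) (nat_lit 4) (nat_lit 307) (nat_lit 262) (nat_lit 211)) (XT.lf (nat_lit 0) (nat_lit 16802972455) (nat_lit 76) (nat_lit 824174467) (nat_lit 152) (nat_lit 36793704920) (nat_lit 7) (nat_lit 5) (nat_lit 8) (nat_lit 5) (nat_lit 9) (nat_lit 4) (nat_lit 308) (nat_lit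 262) (nat_lit 210)))) (XT.nd (nat_lit 156) (nat_lit 76) (nat_lit 0) (XT.nd (nat_lit 78) (nat_lit 0) (nat_lit 0) (XT.lf (nat_lit 0) (nat_lit 25235333435) (nat_lit 152) (nat_lit 26097531163) (nat_lit 0) (nat_lit 6819697217) (nat_lit 7) (nat_lit 5) (nat_lit 9) (nat_lit 4) (nat_lit 7) (nat_lit 4) (nat_lit 309) (nat_lit 262) (nat_lit 209)) (XT.lf (nat_lit 0) (nat_lit 33454139544) (nat_lit 152) (nat_lit 13713510144) (nat_lit 0) (nat_lit 15015017412) (nat_lit 7) (nat_lit 5) (nat_lit 9) (nat_lit 4) (nat_lit 7) (nat_lit 4) (nat_lit 310) (nat_lit 262) (nat_lit 208))) (XT.nd (nat_lit 78) (nat_lit 76) (nat_lit 0) (XT.lf (nat_lit 0) (nat_lit 42312447870) (nat_lit 152) (nat_lit 372608122) (nat_lit 0) (nat_lit 23851579521) (nat_lit 7) (nat_lit 5) (nat_lit 9) (nat_lit 4) (nat_lit 7) (nat_lit 4) (nat_lit 311) (nat_lit 262) (nat_lit 207)) (XT.lf (nat_lit 0) (nat_lit 14741670142) (nat_lit 76) (nat_lit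 37475619473) (nat_lit 76) (nat_lit 18994615737) (nat_lit 6) (nat_lit 4) (nat_lit 7) (nat_lit 5) (nat_lit 7) (nat_lit 4) (nat_lit 312) (nat_lit 262) (nat_lit 206))))) (XT.nd (nat_lit 312) (nat_lit 76) (nat_lit 0) (XT.nd (nat_lit 156) (nat_lit 76) (nat_lit 0) (XT.nd (nat_lit 78) (nat_lit 0) (nat_lit 0) (XT.lf (nat_lit 0) (nat_lit 31055740524) (nat_lit 76) (nat_lit 31852797391) (nat_lit 76) (nat_lit 13353149779) (nat_lit 6) (nat_lit 4) (nat_lit 7) (nat_lit 5) (nat_lit 7) (nat_lit 4) (nat_lit 313) (nat_lit 262) (nat_lit 205)) (XT.lf (nat_lit 0) (nat_lit 48646658113) (nat_lit 76) (nat_lit 25793457086) (nat_lit 76) (nat_lit 7276546625) (nat_lit 6) (nat_lit 4) (nat_lit 7) (nat_lit 5) (nat_lit 7) (nat_lit 4) (nat_lit 314) (nat_lit 262) (nat_lit 204))) (XT.nd (nat_lit 78) (nat_lit 76) (nat_lit 0) (XT.lf (nat_lit 0) (nat_lit 67618665384) (nat_lit 76) (nat_lit 19261691356) (nat_lit 76) (nat_lit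 728796777) (nat_lit 6) (nat_lit 4) (nat_lit 7) (nat_lit 5) (nat_lit 7) (nat_lit 4) (nat_lit 315) (nat_lit 262) (nat_lit 203)) (XT.lf (nat_lit 0) (nat_lit 6012303974) (nat_lit 152) (nat_lit 6042102422) (nat_lit 76) (nat_lit 81907498026) (nat_lit 5) (nat_lit 5) (nat_lit 7) (nat_lit 5) (nat_lit 6) (nat_lit 4) (nat_lit 316) (nat_lit 262) (nat_lit 202)))) (XT.nd (nat_lit 156) (nat_lit 0) (nat_lit 0) (XT.nd (nat_lit 78) (nat_lit 0) (nat_lit 0) (XT.lf (nat_lit 0) (nat_lit 9453002505) (nat_lit 76) (nat_lit 4015459513) (nat_lit 152) (nat_lit 87335696019) (nat_lit 4) (nat_lit 5) (nat_lit 5) (nat_lit 5) (nat_lit 6) (nat_lit 4) (nat_lit 317) (nat_lit 262) (nat_lit 201)) (XT.lf (nat_lit 0) (nat_lit 21790741241) (nat_lit 152) (nat_lit 81788975917) (nat_lit 0) (nat_lit 4592512349) (nat_lit 4) (nat_lit 5) (nat_lit 6) (nat_lit 4) (nat_lit 4) (nat_lit 4) (nat_lit 318) (nat_lit 262) (nat_lit 200))) (XT.nd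 (nat_lit 78) (nat_lit 0) (nat_lit 0) (XT.lf (nat_lit 0) (nat_lit 30871900333) (nat_lit 152) (nat_lit 71587612908) (nat_lit 0) (nat_lit 13662792918) (nat_lit 4) (nat_lit 5) (nat_lit 6) (nat_lit 4) (nat_lit 4) (nat_lit 4) (nat_lit 319) (nat_lit 262) (nat_lit 199)) (XT.lf (nat_lit 0) (nat_lit 40669181673) (nat_lit 152) (nat_lit 60590042086) (nat_lit 0) (nat_lit 23450001551) (nat_lit 4) (nat_lit 5) (nat_lit 6) (nat_lit 4) (nat_lit 4) (nat_lit 4) (nat_lit 320) (nat_lit 262) (nat_lit 198))))))))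
noncomputable def xc54 : XT := (XT.nd (nat_lit 2340) (nat_lit 0) (nat_lit 0) (XT.nd (nat_lit 1170) (nat_lit 152) (nat_lit 0) (XT.nd (nat_lit 546) (nat_lit 0) (nat_lit 0) (XT.nd (nat_lit 234) (nat_lit 76) (nat_lit 0) (XT.nd (nat_lit 78) (nat_lit 0) (nat_lit 0) (XT.lf (nat_lit 0) (nat_lit 51240643224) (nat_lit 152) (nat_lit 48731092660) (nat_lit 0) (nat_lit 34012136523) (nat_lit 4) (nat_lit 5) (nat_lit 6) (nat_lit 4) (nat_lit 4) (nat_lit 4) (nat_lit 321) (nat_lit 262) (nat_lit 197)) (XT.nd (nat_lit 78) (nat_lit 0) (nat_lit 0) (XT.lf (nat_lit 0) (nat_lit 62648930684) (nat_lit 152) (nat_lit 35940489376) (nat_lit 0) (nat_lit 45411788261) (nat_lit 4) (nat_lit 5) (nat_lit 6) (nat_lit 4) (nat_lit 4) (nat_lit 4) (nat_lit 322) (nat_lit 262) (nat_lit 196)) (XT.lf (nat_lit 0) (nat_lit 74961648720) (nat_lit 152) (nat_lit 22142436064) (nat_lit 0) (nat_lit 57716510258) (nat_lit 4) (nat_lit 5) (nat_lit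 6) (nat_lit 4) (nat_lit 4) (nat_lit 4) (nat_lit 323) (nat_lit 262) (nat_lit 195)))) (XT.nd (nat_lit 156) (nat_lit 0) (nat_lit 0) (XT.nd (nat_lit 78) (nat_lit 76) (nat_lit 0) (XT.lf (nat_lit 0) (nat_lit 88251761587) (nat_lit 152) (nat_lit 7255166484) (nat_lit 0) (nat_lit 70999219385) (nat_lit 4) (nat_lit 5) (nat_lit 6) (nat_lit 4) (nat_lit 4) (nat_lit 4) (nat_lit 324) (nat_lit 262) (nat_lit 194)) (XT.lf (nat_lit 0) (nat_lit 9273434996) (nat_lit 76) (nat_lit 93547616848) (nat_lit 76) (nat_lit 76288219331) (nat_lit 3) (nat_lit 4) (nat_lit 4) (nat_lit 5) (nat_lit 4) (nat_lit 4) (nat_lit 325) (nat_lit 262) (nat_lit 193))) (XT.nd (nat_lit 78) (nat_lit 0) (nat_lit 0) (XT.lf (nat_lit 0) (nat_lit 27523730799) (nat_lit 76) (nat_lit 91223670973) (nat_lit 76) (nat_lit 73957925943) (nat_lit 3) (nat_lit 4) (nat_lit 4) (nat_lit 5) (nat_lit 4) (nat_lit 4) (nat_lit 326) (nat_lit 262) (nat_lit 192)) (XT.lf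 (nat_lit 0) (nat_lit 47221826614) (nat_lit 76) (nat_lit 88719688025) (nat_lit 76) (nat_lit 71448065668) (nat_lit 3) (nat_lit 4) (nat_lit 4) (nat_lit 5) (nat_lit 4) (nat_lit 4) (nat_lit 327) (nat_lit 262) (nat_lit 191))))) (XT.nd (nat_lit 312) (nat_lit 0) (nat_lit 0) (XT.nd (nat_lit 156) (nat_lit 0) (nat_lit 0) (XT.nd (nat_lit 78) (nat_lit 0) (nat_lit 0) (XT.lf (nat_lit 0) (nat_lit 68484451899) (nat_lit 76) (nat_lit 86020829587) (nat_lit 76) (nat_lit 68743765260) (nat_lit 3) (nat_lit 4) (nat_lit 4) (nat_lit 5) (nat_lit 4) (nat_lit 4) (nat_lit 328) (nat_lit 262) (nat_lit 190)) (XT.lf (nat_lit 0) (nat_lit 91437607395) (nat_lit 76) (nat_lit 83111102424) (nat_lit 76) (nat_lit 65828999236) (nat_lit 3) (nat_lit 4) (nat_lit 4) (nat_lit 5) (nat_lit 4) (nat_lit 4) (nat_lit 329) (nat_lit 262) (nat_lit 189))) (XT.nd (nat_lit 78) (nat_lit 0) (nat_lit 0) (XT.lf (nat_lit 0) (nat_lit 116217311802) (nat_lit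 76) (nat_lit 79973263708) (nat_lit 76) (nat_lit 62686494908) (nat_lit 3) (nat_lit 4) (nat_lit 4) (nat_lit 5) (nat_lit 4) (nat_lit 4) (nat_lit 330) (nat_lit 262) (nat_lit 188)) (XT.lf (nat_lit 0) (nat_lit 142970407813) (nat_lit 76) (nat_lit 76588718840) (nat_lit 76) (nat_lit 59297630029) (nat_lit 3) (nat_lit 4) (nat_lit 4) (nat_lit 5) (nat_lit 4) (nat_lit 4) (nat_lit 331) (nat_lit 262) (nat_lit 187)))) (XT.nd (nat_lit 156) (nat_lit 0) (nat_lit 0) (XT.nd (nat_lit 78) (nat_lit 0) (nat_lit 0) (XT.lf (nat_lit 0) (nat_lit 171855432293) (nat_lit 76) (nat_lit 72937411256) (nat_lit 76) (nat_lit 55642322435) (nat_lit 3) (nat_lit 4) (nat_lit 4) (nat_lit 5) (nat_lit 4) (nat_lit 4) (nat_lit 332) (nat_lit 262) (nat_lit 186)) (XT.lf (nat_lit 0) (nat_lit 203043555757) (nat_lit 76) (nat_lit 68997703579) (nat_lit 76) (nat_lit 51698911045) (nat_lit 3) (nat_lit 4) (nat_lit 4) (nat_lit 5) (nat_lit 4) (nat_lit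 4) (nat_lit 333) (nat_lit 262) (nat_lit 185))) (XT.nd (nat_lit 78) (nat_lit 0) (nat_lit 0) (XT.lf (nat_lit 0) (nat_lit 236719596715) (nat_lit 76) (nat_lit 64746249393) (nat_lit 76) (nat_lit 47444027495) (nat_lit 3) (nat_lit 4) (nat_lit 4) (nat_lit 5) (nat_lit 4) (nat_lit 4) (nat_lit 334) (nat_lit 262) (nat_lit 184)) (XT.lf (nat_lit 0) (nat_lit 273083116891) (nat_lit 76) (nat_lit 60157854896) (nat_lit 76) (nat_lit 42852457661) (nat_lit 3) (nat_lit 4) (nat_lit 4) (nat_lit 5) (nat_lit 4) (nat_lit 4) (nat_lit 335) (nat_lit 262) (nat_lit 183)))))) (XT.nd (nat_lit 546) (nat_lit 76) (nat_lit 0) (XT.nd (nat_lit 234) (nat_lit 76) (nat_lit 0) (XT.nd (nat_lit 78) (nat_lit 0) (nat_lit 0) (XT.lf (nat_lit 0) (nat_lit 312349603812) (nat_lit 76) (nat_lit 55205329601) (nat_lit 76) (nat_lit 37896992239) (nat_lit 3) (nat_lit 4) (nat_lit 4) (nat_lit 5) (nat_lit 4) (nat_lit 4) (nat_lit 336) (nat_lit 262)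 (nat_lit 182)) (XT.nd (nat_lit 78) (nat_lit 0) (nat_lit 0) (XT.lf (nat_lit 0) (nat_lit 354751747771) (nat_lit 76) (nat_lit 49859325210) (nat_lit 76) (nat_lit 32548265508) (nat_lit 3) (nat_lit 4) (nat_lit 4) (nat_lit 5) (nat_lit 4) (nat_lit 4) (nat_lit 337) (nat_lit 262) (nat_lit 181)) (XT.lf (nat_lit 0) (nat_lit 400540820731) (nat_lit 76) (nat_lit 44088161698) (nat_lit 76) (nat_lit 26774581311) (nat_lit 3) (nat_lit 4) (nat_lit 4) (nat_lit 5) (nat_lit 4) (nat_lit 4) (nat_lit 338) (nat_lit 262) (nat_lit 180)))) (XT.nd (nat_lit 156) (nat_lit 76) (nat_lit 0) (XT.nd (nat_lit 78) (nat_lit 0) (nat_lit 0) (XT.lf (nat_lit 0) (nat_lit 449988165349) (nat_lit 76) (nat_lit 37857639577) (nat_lit 76) (nat_lit 20541725223) (nat_lit 3) (nat_lit 4) (nat_lit 4) (nat_lit 5) (nat_lit 4) (nat_lit 4) (nat_lit 339) (nat_lit 262) (nat_lit 179)) (XT.lf (nat_lit 0) (nat_lit 503386802924) (nat_lit 76) (nat_lit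 31130837234) (nat_lit 76) (nat_lit 13812761799) (nat_lit 3) (nat_lit 4) (nat_lit 4) (nat_lit 5) (nat_lit 4) (nat_lit 4) (nat_lit 340) (nat_lit 262) (nat_lit 178))) (XT.nd (nat_lit 78) (nat_lit 76) (nat_lit 0) (XT.lf (nat_lit 0) (nat_lit 561053169828) (nat_lit 76) (nat_lit 23867892137) (nat_lit 76) (nat_lit 6547815701) (nat_lit 3) (nat_lit 4) (nat_lit 4) (nat_lit 5) (nat_lit 4) (nat_lit 4) (nat_lit 341) (nat_lit 262) (nat_lit 177)) (XT.lf (nat_lit 0) (nat_lit 1231325200) (nat_lit 152) (nat_lit 14760772798) (nat_lit 76) (nat_lit 622064000867) (nat_lit 2) (nat_lit 5) (nat_lit 4) (nat_lit 5) (nat_lit 3) (nat_lit 4) (nat_lit 342) (nat_lit 262) (nat_lit 176))))) (XT.nd (nat_lit 312) (nat_lit 0) (nat_lit 0) (XT.nd (nat_lit 156) (nat_lit 0) (nat_lit 0) (XT.nd (nat_lit 78) (nat_lit 0) (nat_lit 0) (XT.lf (nat_lit 0) (nat_lit 2076699693) (nat_lit 76) (nat_lit 7250388981) (nat_lit 152) (nat_lit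 679025760821) (nat_lit 1) (nat_lit 5) (nat_lit 2) (nat_lit 5) (nat_lit 3) (nat_lit 4) (nat_lit 343) (nat_lit 262) (nat_lit 175)) (XT.lf (nat_lit 0) (nat_lit 18535378975) (nat_lit 152) (nat_lit 721607276553) (nat_lit 0) (nat_lit 2493496373) (nat_lit 1) (nat_lit 5) (nat_lit 3) (nat_lit 4) (nat_lit 1) (nat_lit 4) (nat_lit 344) (nat_lit 262) (nat_lit 174))) (XT.nd (nat_lit 78) (nat_lit 0) (nat_lit 0) (XT.lf (nat_lit 0) (nat_lit 28666906112) (nat_lit 152) (nat_lit 759956625743) (nat_lit 0) (nat_lit 12623661662) (nat_lit 1) (nat_lit 5) (nat_lit 3) (nat_lit 4) (nat_lit 1) (nat_lit 4) (nat_lit 345) (nat_lit 262) (nat_lit 173)) (XT.lf (nat_lit 0) (nat_lit 39607336736) (nat_lit 152) (nat_lit 801377080747) (nat_lit 0) (nat_lit 23562831317) (nat_lit 1) (nat_lit 5) (nat_lit 3) (nat_lit 4) (nat_lit 1) (nat_lit 4) (nat_lit 346) (nat_lit 262) (nat_lit 172)))) (XT.nd (nat_lit 156) (nat_lit 0) (nat_lit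 0) (XT.nd (nat_lit 78) (nat_lit 0) (nat_lit 0) (XT.lf (nat_lit 0) (nat_lit 51421503030) (nat_lit 152) (nat_lit 846114096114) (nat_lit 0) (nat_lit 35375830045) (nat_lit 1) (nat_lit 5) (nat_lit 3) (nat_lit 4) (nat_lit 1) (nat_lit 4) (nat_lit 347) (nat_lit 262) (nat_lit 171)) (XT.lf (nat_lit 0) (nat_lit 64179414866) (nat_lit 152) (nat_lit 894432780082) (nat_lit 0) (nat_lit 48132660803) (nat_lit 1) (nat_lit 5) (nat_lit 3) (nat_lit 4) (nat_lit 1) (nat_lit 4) (nat_lit 348) (nat_lit 262) (nat_lit 170))) (XT.nd (nat_lit 78) (nat_lit 0) (nat_lit 0) (XT.lf (nat_lit 0) (nat_lit 77956674686) (nat_lit 152) (nat_lit 946619465594) (nat_lit 0) (nat_lit 61908919624) (nat_lit 1) (nat_lit 5) (nat_lit 3) (nat_lit 4) (nat_lit 1) (nat_lit 4) (nat_lit 349) (nat_lit 262) (nat_lit 169)) (XT.lf (nat_lit 0) (nat_lit 92834925511) (nat_lit 152) (nat_lit 1002983407082) (nat_lit 0) (nat_lit 76786243599) (nat_lit 1)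 (nat_lit 5) (nat_lit 3) (nat_lit 4) (nat_lit 1) (nat_lit 4) (nat_lit 350) (nat_lit 262) (nat_lit 168))))))) (XT.nd (nat_lit 1170) (nat_lit 0) (nat_lit 0) (XT.nd (nat_lit 546) (nat_lit 0) (nat_lit 0) (XT.nd (nat_lit 234) (nat_lit 0) (nat_lit 0) (XT.nd (nat_lit 78) (nat_lit 0) (nat_lit 0) (XT.lf (nat_lit 0) (nat_lit 108902334753) (nat_lit 152) (nat_lit 1063858613089) (nat_lit 0) (nat_lit 92852794646) (nat_lit 1) (nat_lit 5) (nat_lit 3) (nat_lit 4) (nat_lit 1) (nat_lit 4) (nat_lit 351) (nat_lit 262) (nat_lit 167)) (XT.nd (nat_lit 78) (nat_lit 0) (nat_lit 0) (XT.lf (nat_lit 0) (nat_lit 126254116689) (nat_lit 152) (nat_lit 1129605825575) (nat_lit 0) (nat_lit 110203781957) (nat_lit 1) (nat_lit 5) (nat_lit 3) (nat_lit 4) (nat_lit 1) (nat_lit 4) (nat_lit 352) (nat_lit 262) (nat_lit 166)) (XT.lf (nat_lit 0) (nat_lit 144993096694) (nat_lit 152) (nat_lit 1200614657652) (nat_lit 0) (nat_lit 128942026197)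 (nat_lit 1) (nat_lit 5) (nat_lit 3) (nat_lit 4) (nat_lit 1) (nat_lit 4) (nat_lit 353) (nat_lit 262) (nat_lit 165)))) (XT.nd (nat_lit 156) (nat_lit 0) (nat_lit 0) (XT.nd (nat_lit 78) (nat_lit 0) (nat_lit 0) (XT.lf (nat_lit 0) (nat_lit 165230320574) (nat_lit 152) (nat_lit 1277305902400) (nat_lit 0) (nat_lit 149178568815) (nat_lit 1) (nat_lit 5) (nat_lit 3) (nat_lit 4) (nat_lit 1) (nat_lit 4) (nat_lit 354) (nat_lit 262) (nat_lit 164)) (XT.lf (nat_lit 0) (nat_lit 187085712620) (nat_lit 152) (nat_lit 1360134026452) (nat_lit 0) (nat_lit 171033330062) (nat_lit 1) (nat_lit 5) (nat_lit 3) (nat_lit 4) (nat_lit 1) (nat_lit 4) (nat_lit 355) (nat_lit 262) (nat_lit 163))) (XT.nd (nat_lit 78) (nat_lit 0) (nat_lit 0) (XT.lf (nat_lit 0) (nat_lit 210688786266) (nat_lit 152) (nat_lit 1449589863138) (nat_lit 0) (nat_lit 194635819635) (nat_lit 1) (nat_lit 5) (nat_lit 3) (nat_lit 4) (nat_lit 1) (nat_lit 4)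 (nat_lit 356) (nat_lit 262) (nat_lit 162)) (XT.lf (nat_lit 0) (nat_lit 236179411578) (nat_lit 152) (nat_lit 1546203521119) (nat_lit 0) (nat_lit 220125904138) (nat_lit 1) (nat_lit 5) (nat_lit 3) (nat_lit 4) (nat_lit 1) (nat_lit 4) (nat_lit 357) (nat_lit 262) (nat_lit 161))))) (XT.nd (nat_lit 312) (nat_lit 0) (nat_lit 0) (XT.nd (nat_lit 156) (nat_lit 0) (nat_lit 0) (XT.nd (nat_lit 78) (nat_lit 0) (nat_lit 0) (XT.lf (nat_lit 0) (nat_lit 263708644113) (nat_lit 152) (nat_lit 1650547525776) (nat_lit 0) (nat_lit 247654635925) (nat_lit 1) (nat_lit 5) (nat_lit 3) (nat_lit 4) (nat_lit 1) (nat_lit 4) (nat_lit 358) (nat_lit 262) (nat_lit 160)) (XT.lf (nat_lit 0) (nat_lit 293439620065) (nat_lit 152) (nat_lit 1763240211950) (nat_lit 0) (nat_lit 277385148221) (nat_lit 1) (nat_lit 5) (nat_lit 3) (nat_lit 4) (nat_lit 1) (nat_lit 4) (nat_lit 359) (nat_lit 262) (nat_lit 159))) (XT.nd (nat_lit 78) (nat_lit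 0) (nat_lit 0) (XT.lf (nat_lit 0) (nat_lit 325548522994) (nat_lit 152) (nat_lit 1884949388154) (nat_lit 0) (nat_lit 309493621838) (nat_lit 1) (nat_lit 5) (nat_lit 3) (nat_lit 4) (nat_lit 1) (nat_lit 4) (nat_lit 360) (nat_lit 262) (nat_lit 158)) (XT.lf (nat_lit 0) (nat_lit 360225627881) (nat_lit 152) (nat_lit 2016396293949) (nat_lit 0) (nat_lit 344170329215) (nat_lit 1) (nat_lit 5) (nat_lit 3) (nat_lit 4) (nat_lit 1) (nat_lit 4) (nat_lit 361) (nat_lit 262) (nat_lit 157)))) (XT.nd (nat_lit 156) (nat_lit 0) (nat_lit 0) (XT.nd (nat_lit 78) (nat_lit 0) (nat_lit 0) (XT.lf (nat_lit 0) (nat_lit 397676428680) (nat_lit 152) (nat_lit 2158359873962) (nat_lit 0) (nat_lit 381620761949) (nat_lit 1) (nat_lit 5) (nat_lit 3) (nat_lit 4) (nat_lit 1) (nat_lit 4) (nat_lit 362) (nat_lit 262) (nat_lit 156)) (XT.lf (nat_lit 0) (nat_lit 438122856063) (nat_lit 152) (nat_lit 2311681393853) (nat_lit 0) (nat_lit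 422066848531) (nat_lit 1) (nat_lit 5) (nat_lit 3) (nat_lit 4) (nat_lit 1) (nat_lit 4) (nat_lit 363) (nat_lit 262) (nat_lit 155))) (XT.nd (nat_lit 78) (nat_lit 0) (nat_lit 0) (XT.lf (nat_lit 0) (nat_lit 481804592563) (nat_lit 152) (nat_lit 2477269425591) (nat_lit 0) (nat_lit 465748269475) (nat_lit 1) (nat_lit 5) (nat_lit 3) (nat_lit 4) (nat_lit 1) (nat_lit 4) (nat_lit 364) (nat_lit 262) (nat_lit 154)) (XT.lf (nat_lit 0) (nat_lit 528980492915) (nat_lit 152) (nat_lit 2656105231587) (nat_lit 0) (nat_lit 512923877644) (nat_lit 1) (nat_lit 5) (nat_lit 3) (nat_lit 4) (nat_lit 1) (nat_lit 4) (nat_lit 365) (nat_lit 262) (nat_lit 153)))))) (XT.nd (nat_lit 32994) (nat_lit 0) (nat_lit 2812) (XT.nd (nat_lit 32682) (nat_lit 0) (nat_lit 4256) (XT.nd (nat_lit 156) (nat_lit 0) (nat_lit 0) (XT.nd (nat_lit 78) (nat_lit 0) (nat_lit 0) (XT.lf (nat_lit 0) (nat_lit 579930118008) (nat_lit 152) (nat_lit 2849248579579)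 (nat_lit 0) (nat_lit 563873232199) (nat_lit 1) (nat_lit 5) (nat_lit 3) (nat_lit 4) (nat_lit 1) (nat_lit 4) (nat_lit 366) (nat_lit 262) (nat_lit 152)) (XT.lf (nat_lit 0) (nat_lit 634955391549) (nat_lit 152) (nat_lit 3057844022742) (nat_lit 0) (nat_lit 618898255241) (nat_lit 1) (nat_lit 5) (nat_lit 3) (nat_lit 4) (nat_lit 1) (nat_lit 4) (nat_lit 367) (nat_lit 262) (nat_lit 151))) (XT.nd (nat_lit 32448) (nat_lit 0) (nat_lit 4560) (XT.lf (nat_lit 0) (nat_lit 694382389231) (nat_lit 152) (nat_lit 3283127682220) (nat_lit 0) (nat_lit 678325020979) (nat_lit 1) (nat_lit 5) (nat_lit 3) (nat_lit 4) (nat_lit 1) (nat_lit 4) (nat_lit 368) (nat_lit 262) (nat_lit 150)) (XT.lf (nat_lit 0) (nat_lit 535847270) (nat_lit 0) (nat_lit 535847270) (nat_lit 228) (nat_lit 2280926175) (nat_lit 61) (nat_lit 5) (nat_lit 61) (nat_lit 3) (nat_lit 64) (nat_lit 3) (nat_lit 263) (nat_lit 263) (nat_lit 254)))) (XT.nd (nat_lit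 156) (nat_lit 304) (nat_lit 0) (XT.nd (nat_lit 78) (nat_lit 0) (nat_lit 0) (XT.lf (nat_lit 0) (nat_lit 4238898691) (nat_lit 228) (nat_lit 2486224304) (nat_lit 304) (nat_lit 78281607) (nat_lit 61) (nat_lit 5) (nat_lit 64) (nat_lit 3) (nat_lit 65) (nat_lit 5) (nat_lit 264) (nat_lit 263) (nat_lit 253)) (XT.lf (nat_lit 76) (nat_lit 805491411) (nat_lit 0) (nat_lit 5545305706) (nat_lit 304) (nat_lit 571650771) (nat_lit 62) (nat_lit 5) (nat_lit 61) (nat_lit 5) (nat_lit 65) (nat_lit 5) (nat_lit 265) (nat_lit 263) (nat_lit 252))) (XT.nd (nat_lit 78) (nat_lit 0) (nat_lit 0) (XT.lf (nat_lit 0) (nat_lit 1379076369) (nat_lit 304) (nat_lit 2711151545) (nat_lit 380) (nat_lit 2968339189) (nat_lit 57) (nat_lit 5) (nat_lit 61) (nat_lit 5) (nat_lit 62) (nat_lit 5) (nat_lit 266) (nat_lit 263) (nat_lit 251)) (XT.lf (nat_lit 76) (nat_lit 877914919) (nat_lit 0) (nat_lit 2420185728) (nat_lit 380) (nat_lit 3919573333)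 (nat_lit 58) (nat_lit 5) (nat_lit 57) (nat_lit 5) (nat_lit 62) (nat_lit 5) (nat_lit 267) (nat_lit 263) (nat_lit 250))))) (XT.nd (nat_lit 312) (nat_lit 760) (nat_lit 0) (XT.nd (nat_lit 156) (nat_lit 456) (nat_lit 0) (XT.nd (nat_lit 78) (nat_lit 228) (nat_lit 0) (XT.lf (nat_lit 76) (nat_lit 4793014861) (nat_lit 0) (nat_lit 484180862) (nat_lit 380) (nat_lit 2120471075) (nat_lit 58) (nat_lit 5) (nat_lit 57) (nat_lit 5) (nat_lit 62) (nat_lit 5) (nat_lit 268) (nat_lit 263) (nat_lit 249)) (XT.lf (nat_lit 0) (nat_lit 1336534213) (nat_lit 304) (nat_lit 5994868243) (nat_lit 380) (nat_lit 267944695) (nat_lit 54) (nat_lit 5) (nat_lit 58) (nat_lit 5) (nat_lit 59) (nat_lit 5) (nat_lit 269) (nat_lit 263) (nat_lit 248))) (XT.nd (nat_lit 78) (nat_lit 380) (nat_lit 0) (XT.lf (nat_lit 0) (nat_lit 1581983791) (nat_lit 380) (nat_lit 2252732072) (nat_lit 76) (nat_lit 3984782560) (nat_lit 53) (nat_lit 5) (nat_lit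 58) (nat_lit 5) (nat_lit 54) (nat_lit 5) (nat_lit 270) (nat_lit 263) (nat_lit 247)) (XT.lf (nat_lit 0) (nat_lit 2057146786) (nat_lit 380) (nat_lit 1419090794) (nat_lit 456) (nat_lit 4588103664) (nat_lit 48) (nat_lit 5) (nat_lit 53) (nat_lit 5) (nat_lit 54) (nat_lit 5) (nat_lit 271) (nat_lit 263) (nat_lit 246)))) (XT.nd (nat_lit 156) (nat_lit 304) (nat_lit 0) (XT.nd (nat_lit 78) (nat_lit 456) (nat_lit 0) (XT.lf (nat_lit 0) (nat_lit 5483114468) (nat_lit 456) (nat_lit 1639489085) (nat_lit 76) (nat_lit 1209744996) (nat_lit 48) (nat_lit 5) (nat_lit 54) (nat_lit 5) (nat_lit 49) (nat_lit 5) (nat_lit 272) (nat_lit 263) (nat_lit 245)) (XT.lf (nat_lit 0) (nat_lit 3078706928) (nat_lit 456) (nat_lit 4561695325) (nat_lit 532) (nat_lit 982634661) (nat_lit 42) (nat_lit 5) (nat_lit 48) (nat_lit 5) (nat_lit 49) (nat_lit 5) (nat_lit 273) (nat_lit 263) (nat_lit 244))) (XT.nd (nat_lit 78) (nat_lit 228)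 (nat_lit 0) (XT.lf (nat_lit 0) (nat_lit 909438086) (nat_lit 532) (nat_lit 811538472) (nat_lit 76) (nat_lit 7220157029) (nat_lit 41) (nat_lit 5) (nat_lit 48) (nat_lit 5) (nat_lit 42) (nat_lit 5) (nat_lit 274) (nat_lit 263) (nat_lit 243)) (XT.lf (nat_lit 0) (nat_lit 2931551208) (nat_lit 304) (nat_lit 4936320697) (nat_lit 76) (nat_lit 1412564084) (nat_lit 38) (nat_lit 5) (nat_lit 42) (nat_lit 5) (nat_lit 39) (nat_lit 5) (nat_lit 275) (nat_lit 263) (nat_lit 242))))))))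
noncomputable def xc55 : XT := (XT.nd (nat_lit 2418) (nat_lit 456) (nat_lit 0) (XT.nd (nat_lit 1170) (nat_lit 684) (nat_lit 0) (XT.nd (nat_lit 546) (nat_lit 684) (nat_lit 0) (XT.nd (nat_lit 234) (nat_lit 380) (nat_lit 0) (XT.nd (nat_lit 78) (nat_lit 228) (nat_lit 0) (XT.lf (nat_lit 0) (nat_lit 159383409) (nat_lit 228) (nat_lit 4923350803) (nat_lit 304) (nat_lit 4567079876) (nat_lit 35) (nat_lit 5) (nat_lit 38) (nat_lit 5) (nat_lit 39) (nat_lit 5) (nat_lit 276) (nat_lit 263) (nat_lit 241)) (XT.nd (nat_lit 78) (nat_lit 228) (nat_lit 0) (XT.lf (nat_lit 0) (nat_lit 5829848783) (nat_lit 228) (nat_lit 1612103383) (nat_lit 304) (nat_lit 2604207244) (nat_lit 35) (nat_lit 5) (nat_lit 38) (nat_lit 5) (nat_lit 39) (nat_lit 5) (nat_lit 277) (nat_lit 263) (nat_lit 240)) (XT.lf (nat_lit 0) (nat_lit 1389521318) (nat_lit 228) (nat_lit 8589022347) (nat_lit 304) (nat_lit 496848357) (nat_lit 32) (nat_lit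 5) (nat_lit 35) (nat_lit 5) (nat_lit 36) (nat_lit 5) (nat_lit 278) (nat_lit 263) (nat_lit 239)))) (XT.nd (nat_lit 156) (nat_lit 152) (nat_lit 0) (XT.nd (nat_lit 78) (nat_lit 152) (nat_lit 0) (XT.lf (nat_lit 0) (nat_lit 1759892479) (nat_lit 304) (nat_lit 3448424127) (nat_lit 76) (nat_lit 5721872324) (nat_lit 31) (nat_lit 5) (nat_lit 35) (nat_lit 5) (nat_lit 32) (nat_lit 5) (nat_lit 279) (nat_lit 263) (nat_lit 238)) (XT.lf (nat_lit 0) (nat_lit 2653720245) (nat_lit 152) (nat_lit 1496767255) (nat_lit 228) (nat_lit 7271651843) (nat_lit 29) (nat_lit 5) (nat_lit 31) (nat_lit 5) (nat_lit 32) (nat_lit 5) (nat_lit 280) (nat_lit 263) (nat_lit 237))) (XT.nd (nat_lit 78) (nat_lit 152) (nat_lit 0) (XT.lf (nat_lit 0) (nat_lit 6808951401) (nat_lit 228) (nat_lit 2678092932) (nat_lit 76) (nat_lit 2460470617) (nat_lit 29) (nat_lit 5) (nat_lit 32) (nat_lit 5) (nat_lit 30) (nat_lit 5) (nat_lit 281) (nat_lit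 263) (nat_lit 236)) (XT.lf (nat_lit 0) (nat_lit 3957159910) (nat_lit 152) (nat_lit 5782423507) (nat_lit 228) (nat_lit 2770762044) (nat_lit 27) (nat_lit 5) (nat_lit 29) (nat_lit 5) (nat_lit 30) (nat_lit 5) (nat_lit 282) (nat_lit 263) (nat_lit 235))))) (XT.nd (nat_lit 312) (nat_lit 304) (nat_lit 0) (XT.nd (nat_lit 156) (nat_lit 152) (nat_lit 0) (XT.nd (nat_lit 78) (nat_lit 228) (nat_lit 0) (XT.lf (nat_lit 0) (nat_lit 11176729457) (nat_lit 152) (nat_lit 1729750782) (nat_lit 228) (nat_lit 211747529) (nat_lit 27) (nat_lit 5) (nat_lit 29) (nat_lit 5) (nat_lit 30) (nat_lit 5) (nat_lit 283) (nat_lit 263) (nat_lit 234)) (XT.lf (nat_lit 0) (nat_lit 2551917888) (nat_lit 228) (nat_lit 8525058640) (nat_lit 76) (nat_lit 2682793030) (nat_lit 24) (nat_lit 5) (nat_lit 27) (nat_lit 5) (nat_lit 25) (nat_lit 5) (nat_lit 284) (nat_lit 263) (nat_lit 233))) (XT.nd (nat_lit 78) (nat_lit 152) (nat_lit 0) (XT.lf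 (nat_lit 0) (nat_lit 5558780542) (nat_lit 228) (nat_lit 1502254955) (nat_lit 76) (nat_lit 7388611036) (nat_lit 24) (nat_lit 5) (nat_lit 27) (nat_lit 5) (nat_lit 25) (nat_lit 5) (nat_lit 285) (nat_lit 263) (nat_lit 232)) (XT.lf (nat_lit 0) (nat_lit 6307636877) (nat_lit 152) (nat_lit 2589284213) (nat_lit 228) (nat_lit 6290659583) (nat_lit 22) (nat_lit 5) (nat_lit 24) (nat_lit 5) (nat_lit 25) (nat_lit 5) (nat_lit 286) (nat_lit 263) (nat_lit 231)))) (XT.nd (nat_lit 156) (nat_lit 228) (nat_lit 0) (XT.nd (nat_lit 78) (nat_lit 76) (nat_lit 0) (XT.lf (nat_lit 0) (nat_lit 12538854001) (nat_lit 228) (nat_lit 1300531442) (nat_lit 76) (nat_lit 2142340848) (nat_lit 22) (nat_lit 5) (nat_lit 25) (nat_lit 5) (nat_lit 23) (nat_lit 4) (nat_lit 287) (nat_lit 263) (nat_lit 230)) (XT.lf (nat_lit 0) (nat_lit 7087255033) (nat_lit 76) (nat_lit 9567703100) (nat_lit 152) (nat_lit 169927539) (nat_lit 21) (nat_lit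 5) (nat_lit 22) (nat_lit 5) (nat_lit 23) (nat_lit 4) (nat_lit 288) (nat_lit 263) (nat_lit 229))) (XT.nd (nat_lit 78) (nat_lit 152) (nat_lit 0) (XT.lf (nat_lit 0) (nat_lit 3178726137) (nat_lit 152) (nat_lit 1680524888) (nat_lit 76) (nat_lit 12871289154) (nat_lit 20) (nat_lit 5) (nat_lit 22) (nat_lit 5) (nat_lit 21) (nat_lit 5) (nat_lit 289) (nat_lit 263) (nat_lit 228)) (XT.lf (nat_lit 0) (nat_lit 6920850232) (nat_lit 228) (nat_lit 11405399126) (nat_lit 76) (nat_lit 371349195) (nat_lit 18) (nat_lit 5) (nat_lit 21) (nat_lit 5) (nat_lit 19) (nat_lit 4) (nat_lit 290) (nat_lit 263) (nat_lit 227)))))) (XT.nd (nat_lit 624) (nat_lit 304) (nat_lit 0) (XT.nd (nat_lit 312) (nat_lit 76) (nat_lit 0) (XT.nd (nat_lit 156) (nat_lit 228) (nat_lit 0) (XT.nd (nat_lit 78) (nat_lit 76) (nat_lit 0) (XT.lf (nat_lit 0) (nat_lit 11086588302) (nat_lit 228) (nat_lit 2868346064) (nat_lit 76) (nat_lit 5777226677)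 (nat_lit 18) (nat_lit 5) (nat_lit 21) (nat_lit 5) (nat_lit 19) (nat_lit 4) (nat_lit 291) (nat_lit 263) (nat_lit 226)) (XT.lf (nat_lit 0) (nat_lit 6607280077) (nat_lit 76) (nat_lit 9091736268) (nat_lit 152) (nat_lit 5141470836) (nat_lit 17) (nat_lit 5) (nat_lit 18) (nat_lit 5) (nat_lit 19) (nat_lit 4) (nat_lit 292) (nat_lit 263) (nat_lit 225))) (XT.nd (nat_lit 78) (nat_lit 228) (nat_lit 0) (XT.lf (nat_lit 0) (nat_lit 16931064179) (nat_lit 76) (nat_lit 3783938196) (nat_lit 152) (nat_lit 1319779640) (nat_lit 17) (nat_lit 5) (nat_lit 18) (nat_lit 5) (nat_lit 19) (nat_lit 4) (nat_lit 293) (nat_lit 263) (nat_lit 224)) (XT.lf (nat_lit 0) (nat_lit 2793375253) (nat_lit 228) (nat_lit 18502278500) (nat_lit 76) (nat_lit 2013528552) (nat_lit 14) (nat_lit 5) (nat_lit 17) (nat_lit 5) (nat_lit 15) (nat_lit 4) (nat_lit 294) (nat_lit 263) (nat_lit 223)))) (XT.nd (nat_lit 156) (nat_lit 0) (nat_lit 0) (XT.nd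 (nat_lit 78) (nat_lit 76) (nat_lit 0) (XT.lf (nat_lit 0) (nat_lit 7364790283) (nat_lit 228) (nat_lit 9080633546) (nat_lit 76) (nat_lit 8221381327) (nat_lit 14) (nat_lit 5) (nat_lit 17) (nat_lit 5) (nat_lit 15) (nat_lit 4) (nat_lit 295) (nat_lit 263) (nat_lit 222)) (XT.lf (nat_lit 0) (nat_lit 1083478150) (nat_lit 76) (nat_lit 11206587658) (nat_lit 152) (nat_lit 13843970008) (nat_lit 13) (nat_lit 5) (nat_lit 14) (nat_lit 5) (nat_lit 15) (nat_lit 4) (nat_lit 296) (nat_lit 263) (nat_lit 221))) (XT.nd (nat_lit 78) (nat_lit 0) (nat_lit 0) (XT.lf (nat_lit 0) (nat_lit 12513334979) (nat_lit 76) (nat_lit 5307672234) (nat_lit 152) (nat_lit 9880752290) (nat_lit 13) (nat_lit 5) (nat_lit 14) (nat_lit 5) (nat_lit 15) (nat_lit 4) (nat_lit 297) (nat_lit 263) (nat_lit 220)) (XT.lf (nat_lit 0) (nat_lit 23785464874) (nat_lit 152) (nat_lit 4624122118) (nat_lit 0) (nat_lit 986073482) (nat_lit 13) (nat_lit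 5) (nat_lit 15) (nat_lit 4) (nat_lit 13) (nat_lit 4) (nat_lit 298) (nat_lit 263) (nat_lit 219))))) (XT.nd (nat_lit 312) (nat_lit 76) (nat_lit 0) (XT.nd (nat_lit 156) (nat_lit 76) (nat_lit 0) (XT.nd (nat_lit 78) (nat_lit 76) (nat_lit 0) (XT.lf (nat_lit 0) (nat_lit 6937824216) (nat_lit 76) (nat_lit 23562001023) (nat_lit 76) (nat_lit 703468102) (nat_lit 12) (nat_lit 4) (nat_lit 13) (nat_lit 5) (nat_lit 13) (nat_lit 4) (nat_lit 299) (nat_lit 263) (nat_lit 218)) (XT.lf (nat_lit 0) (nat_lit 4463843435) (nat_lit 152) (nat_lit 13628499249) (nat_lit 76) (nat_lit 15046550001) (nat_lit 11) (nat_lit 5) (nat_lit 13) (nat_lit 5) (nat_lit 12) (nat_lit 4) (nat_lit 300) (nat_lit 263) (nat_lit 217))) (XT.nd (nat_lit 78) (nat_lit 76) (nat_lit 0) (XT.lf (nat_lit 0) (nat_lit 9977118251) (nat_lit 152) (nat_lit 2211591960) (nat_lit 76) (nat_lit 23041552662) (nat_lit 11) (nat_lit 5) (nat_lit 13) (nat_lit 5)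 (nat_lit 12) (nat_lit 4) (nat_lit 301) (nat_lit 263) (nat_lit 216)) (XT.lf (nat_lit 0) (nat_lit 10600086150) (nat_lit 76) (nat_lit 5559064102) (nat_lit 152) (nat_lit 21311605845) (nat_lit 10) (nat_lit 5) (nat_lit 11) (nat_lit 5) (nat_lit 12) (nat_lit 4) (nat_lit 302) (nat_lit 263) (nat_lit 215)))) (XT.nd (nat_lit 156) (nat_lit 76) (nat_lit 0) (XT.nd (nat_lit 78) (nat_lit 0) (nat_lit 0) (XT.lf (nat_lit 0) (nat_lit 22909411977) (nat_lit 152) (nat_lit 15412480900) (nat_lit 0) (nat_lit 1562729417) (nat_lit 10) (nat_lit 5) (nat_lit 12) (nat_lit 4) (nat_lit 10) (nat_lit 4) (nat_lit 303) (nat_lit 263) (nat_lit 214)) (XT.lf (nat_lit 0) (nat_lit 30319201400) (nat_lit 152) (nat_lit 3227611094) (nat_lit 0) (nat_lit 8935249646) (nat_lit 10) (nat_lit 5) (nat_lit 12) (nat_lit 4) (nat_lit 10) (nat_lit 4) (nat_lit 304) (nat_lit 263) (nat_lit 213))) (XT.nd (nat_lit 78) (nat_lit 0) (nat_lit 0) (XT.lf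 (nat_lit 0) (nat_lit 10410623269) (nat_lit 76) (nat_lit 28138485231) (nat_lit 76) (nat_lit 6720024963) (nat_lit 9) (nat_lit 4) (nat_lit 10) (nat_lit 5) (nat_lit 10) (nat_lit 4) (nat_lit 305) (nat_lit 263) (nat_lit 212)) (XT.lf (nat_lit 0) (nat_lit 25282335441) (nat_lit 76) (nat_lit 22220997505) (nat_lit 76) (nat_lit 770584909) (nat_lit 9) (nat_lit 4) (nat_lit 10) (nat_lit 5) (nat_lit 10) (nat_lit 4) (nat_lit 306) (nat_lit 263) (nat_lit 211))))))) (XT.nd (nat_lit 1170) (nat_lit 76) (nat_lit 0) (XT.nd (nat_lit 546) (nat_lit 152) (nat_lit 0) (XT.nd (nat_lit 234) (nat_lit 76) (nat_lit 0) (XT.nd (nat_lit 78) (nat_lit 76) (nat_lit 0) (XT.lf (nat_lit 0) (nat_lit 5350707956) (nat_lit 152) (nat_lit 10350525534) (nat_lit 76) (nat_lit 35808688009) (nat_lit 8) (nat_lit 5) (nat_lit 10) (nat_lit 5) (nat_lit 9) (nat_lit 4) (nat_lit 307) (nat_lit 263) (nat_lit 210)) (XT.nd (nat_lit 78) (nat_lit 0) (nat_lit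 0) (XT.lf (nat_lit 0) (nat_lit 3416380798) (nat_lit 76) (nat_lit 8566202304) (nat_lit 152) (nat_lit 43015637227) (nat_lit 7) (nat_lit 5) (nat_lit 8) (nat_lit 5) (nat_lit 9) (nat_lit 4) (nat_lit 308) (nat_lit 263) (nat_lit 209)) (XT.lf (nat_lit 0) (nat_lit 18837881608) (nat_lit 76) (nat_lit 571079185) (nat_lit 152) (nat_lit 39335521756) (nat_lit 7) (nat_lit 5) (nat_lit 8) (nat_lit 5) (nat_lit 9) (nat_lit 4) (nat_lit 309) (nat_lit 263) (nat_lit 208)))) (XT.nd (nat_lit 156) (nat_lit 76) (nat_lit 0) (XT.nd (nat_lit 78) (nat_lit 0) (nat_lit 0) (XT.lf (nat_lit 0) (nat_lit 27605377496) (nat_lit 152) (nat_lit 27525115011) (nat_lit 0) (nat_lit 7645893462) (nat_lit 7) (nat_lit 5) (nat_lit 9) (nat_lit 4) (nat_lit 7) (nat_lit 4) (nat_lit 310) (nat_lit 263) (nat_lit 207)) (XT.lf (nat_lit 0) (nat_lit 36455671991) (nat_lit 152) (nat_lit 14199277395) (nat_lit 0) (nat_lit 16476052570) (nat_lit 7) (nat_lit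 5) (nat_lit 9) (nat_lit 4) (nat_lit 7) (nat_lit 4) (nat_lit 311) (nat_lit 263) (nat_lit 206))) (XT.nd (nat_lit 78) (nat_lit 0) (nat_lit 0) (XT.lf (nat_lit 0) (nat_lit 172229940) (nat_lit 76) (nat_lit 45830468194) (nat_lit 76) (nat_lit 25832204897) (nat_lit 6) (nat_lit 4) (nat_lit 7) (nat_lit 5) (nat_lit 7) (nat_lit 4) (nat_lit 312) (nat_lit 263) (nat_lit 205)) (XT.lf (nat_lit 0) (nat_lit 16472704926) (nat_lit 76) (nat_lit 40214043969) (nat_lit 76) (nat_lit 20198517824) (nat_lit 6) (nat_lit 4) (nat_lit 7) (nat_lit 5) (nat_lit 7) (nat_lit 4) (nat_lit 313) (nat_lit 263) (nat_lit 204))))) (XT.nd (nat_lit 312) (nat_lit 76) (nat_lit 0) (XT.nd (nat_lit 156) (nat_lit 76) (nat_lit 0) (XT.nd (nat_lit 78) (nat_lit 0) (nat_lit 0) (XT.lf (nat_lit 0) (nat_lit 34051034186) (nat_lit 76) (nat_lit 34160627606) (nat_lit 76) (nat_lit 14129117342) (nat_lit 6) (nat_lit 4) (nat_lit 7) (nat_lit 5) (nat_lit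 7) (nat_lit 4) (nat_lit 314) (nat_lit 263) (nat_lit 203)) (XT.lf (nat_lit 0) (nat_lit 53011385595) (nat_lit 76) (nat_lit 27634347008) (nat_lit 76) (nat_lit 7588036634) (nat_lit 6) (nat_lit 4) (nat_lit 7) (nat_lit 5) (nat_lit 7) (nat_lit 4) (nat_lit 315) (nat_lit 263) (nat_lit 202))) (XT.nd (nat_lit 78) (nat_lit 76) (nat_lit 0) (XT.lf (nat_lit 0) (nat_lit 73466116793) (nat_lit 76) (nat_lit 20596527920) (nat_lit 76) (nat_lit 536513740) (nat_lit 6) (nat_lit 4) (nat_lit 7) (nat_lit 5) (nat_lit 7) (nat_lit 4) (nat_lit 316) (nat_lit 263) (nat_lit 201)) (XT.lf (nat_lit 0) (nat_lit 6713706267) (nat_lit 152) (nat_lit 6108193852) (nat_lit 76) (nat_lit 88639170107) (nat_lit 5) (nat_lit 5) (nat_lit 7) (nat_lit 5) (nat_lit 6) (nat_lit 4) (nat_lit 317) (nat_lit 263) (nat_lit 200)))) (XT.nd (nat_lit 156) (nat_lit 0) (nat_lit 0) (XT.nd (nat_lit 78) (nat_lit 0) (nat_lit 0) (XT.lf (nat_lit 0) (nat_lit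 10615955501) (nat_lit 76) (nat_lit 4143855649) (nat_lit 152) (nat_lit 94091427986) (nat_lit 4) (nat_lit 5) (nat_lit 5) (nat_lit 5) (nat_lit 6) (nat_lit 4) (nat_lit 318) (nat_lit 263) (nat_lit 199)) (XT.lf (nat_lit 0) (nat_lit 23736324607) (nat_lit 152) (nat_lit 87943828696) (nat_lit 0) (nat_lit 5129537370) (nat_lit 4) (nat_lit 5) (nat_lit 6) (nat_lit 4) (nat_lit 4) (nat_lit 4) (nat_lit 319) (nat_lit 263) (nat_lit 198))) (XT.nd (nat_lit 78) (nat_lit 0) (nat_lit 0) (XT.lf (nat_lit 0) (nat_lit 33528989459) (nat_lit 152) (nat_lit 76955117039) (nat_lit 0) (nat_lit 14912875642) (nat_lit 4) (nat_lit 5) (nat_lit 6) (nat_lit 4) (nat_lit 4) (nat_lit 4) (nat_lit 320) (nat_lit 263) (nat_lit 197)) (XT.lf (nat_lit 0) (nat_lit 44096176483) (nat_lit 152) (nat_lit 65104370543) (nat_lit 0) (nat_lit 25471426944) (nat_lit 4) (nat_lit 5) (nat_lit 6) (nat_lit 4) (nat_lit 4) (nat_lit 4) (nat_lit 321) (nat_lit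 263) (nat_lit 196)))))) (XT.nd (nat_lit 624) (nat_lit 0) (nat_lit 0) (XT.nd (nat_lit 312) (nat_lit 76) (nat_lit 0) (XT.nd (nat_lit 156) (nat_lit 0) (nat_lit 0) (XT.nd (nat_lit 78) (nat_lit 0) (nat_lit 0) (XT.lf (nat_lit 0) (nat_lit 55500506049) (nat_lit 152) (nat_lit 52321362564) (nat_lit 0) (nat_lit 36867760471) (nat_lit 4) (nat_lit 5) (nat_lit 6) (nat_lit 4) (nat_lit 4) (nat_lit 4) (nat_lit 322) (nat_lit 263) (nat_lit 195)) (XT.lf (nat_lit 0) (nat_lit 67809559368) (nat_lit 152) (nat_lit 38530341944) (nat_lit 0) (nat_lit 49169410050) (nat_lit 4) (nat_lit 5) (nat_lit 6) (nat_lit 4) (nat_lit 4) (nat_lit 4) (nat_lit 323) (nat_lit 263) (nat_lit 194))) (XT.nd (nat_lit 78) (nat_lit 0) (nat_lit 0) (XT.lf (nat_lit 0) (nat_lit 81096278978) (nat_lit 152) (nat_lit 23649584114) (nat_lit 0) (nat_lit 62449274346) (nat_lit 4) (nat_lit 5) (nat_lit 6) (nat_lit 4) (nat_lit 4) (nat_lit 4) (nat_lit 324)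 (nat_lit 263) (nat_lit 193)) (XT.lf (nat_lit 0) (nat_lit 95439400996) (nat_lit 152) (nat_lit 7590906807) (nat_lit 0) (nat_lit 76786048850) (nat_lit 4) (nat_lit 5) (nat_lit 6) (nat_lit 4) (nat_lit 4) (nat_lit 4) (nat_lit 325) (nat_lit 263) (nat_lit 192)))) (XT.nd (nat_lit 156) (nat_lit 0) (nat_lit 0) (XT.nd (nat_lit 78) (nat_lit 0) (nat_lit 0) (XT.lf (nat_lit 0) (nat_lit 10253788538) (nat_lit 76) (nat_lit 100916737022) (nat_lit 76) (nat_lit 82257507549) (nat_lit 3) (nat_lit 4) (nat_lit 4) (nat_lit 5) (nat_lit 4) (nat_lit 4) (nat_lit 326) (nat_lit 263) (nat_lit 191)) (XT.lf (nat_lit 0) (nat_lit 29946442913) (nat_lit 76) (nat_lit 98415370971) (nat_lit 76) (nat_lit 79750699528) (nat_lit 3) (nat_lit 4) (nat_lit 4) (nat_lit 5) (nat_lit 4) (nat_lit 4) (nat_lit 327) (nat_lit 263) (nat_lit 190))) (XT.nd (nat_lit 78) (nat_lit 0) (nat_lit 0) (XT.lf (nat_lit 0) (nat_lit 51204029827) (nat_lit 76)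 (nat_lit 95718935586) (nat_lit 76) (nat_lit 77049225282) (nat_lit 3) (nat_lit 4) (nat_lit 4) (nat_lit 5) (nat_lit 4) (nat_lit 4) (nat_lit 328) (nat_lit 263) (nat_lit 189)) (XT.lf (nat_lit 0) (nat_lit 74152520166) (nat_lit 76) (nat_lit 92811451991) (nat_lit 76) (nat_lit 74137076075) (nat_lit 3) (nat_lit 4) (nat_lit 4) (nat_lit 5) (nat_lit 4) (nat_lit 4) (nat_lit 329) (nat_lit 263) (nat_lit 188))))) (XT.nd (nat_lit 312) (nat_lit 0) (nat_lit 0) (XT.nd (nat_lit 156) (nat_lit 0) (nat_lit 0) (XT.nd (nat_lit 78) (nat_lit 0) (nat_lit 0) (XT.lf (nat_lit 0) (nat_lit 98927904982) (nat_lit 76) (nat_lit 89675690652) (nat_lit 76) (nat_lit 70996994725) (nat_lit 3) (nat_lit 4) (nat_lit 4) (nat_lit 5) (nat_lit 4) (nat_lit 4) (nat_lit 330) (nat_lit 263) (nat_lit 187)) (XT.lf (nat_lit 0) (nat_lit 125677001372) (nat_lit 76) (nat_lit 86293069281) (nat_lit 76) (nat_lit 67610373344) (nat_lit 3) (nat_lit 4)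 (nat_lit 4) (nat_lit 5) (nat_lit 4) (nat_lit 4) (nat_lit 331) (nat_lit 263) (nat_lit 186))) (XT.nd (nat_lit 78) (nat_lit 0) (nat_lit 0) (XT.lf (nat_lit 0) (nat_lit 154558322499) (nat_lit 76) (nat_lit 82643542713) (nat_lit 76) (nat_lit 63957143063) (nat_lit 3) (nat_lit 4) (nat_lit 4) (nat_lit 5) (nat_lit 4) (nat_lit 4) (nat_lit 332) (nat_lit 263) (nat_lit 185)) (XT.lf (nat_lit 0) (nat_lit 185743016932) (nat_lit 76) (nat_lit 78705484125) (nat_lit 76) (nat_lit 60015655111) (nat_lit 3) (nat_lit 4) (nat_lit 4) (nat_lit 5) (nat_lit 4) (nat_lit 4) (nat_lit 333) (nat_lit 263) (nat_lit 184)))) (XT.nd (nat_lit 156) (nat_lit 0) (nat_lit 0) (XT.nd (nat_lit 78) (nat_lit 0) (nat_lit 0) (XT.lf (nat_lit 0) (nat_lit 219415882862) (nat_lit 76) (nat_lit 74455556874) (nat_lit 76) (nat_lit 55762552523) (nat_lit 3) (nat_lit 4) (nat_lit 4) (nat_lit 5) (nat_lit 4) (nat_lit 4) (nat_lit 334) (nat_lit 263) (nat_lit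 183)) (XT.lf (nat_lit 0) (nat_lit 255776463197) (nat_lit 76) (nat_lit 69868576204) (nat_lit 76) (nat_lit 51172631726) (nat_lit 3) (nat_lit 4) (nat_lit 4) (nat_lit 5) (nat_lit 4) (nat_lit 4) (nat_lit 335) (nat_lit 263) (nat_lit 182))) (XT.nd (nat_lit 78) (nat_lit 0) (nat_lit 0) (XT.lf (nat_lit 0) (nat_lit 295040228043) (nat_lit 76) (nat_lit 64917360009) (nat_lit 76) (nat_lit 46218693191) (nat_lit 3) (nat_lit 4) (nat_lit 4) (nat_lit 5) (nat_lit 4) (nat_lit 4) (nat_lit 336) (nat_lit 263) (nat_lit 181)) (XT.lf (nat_lit 0) (nat_lit 337439851562) (nat_lit 76) (nat_lit 59572567748) (nat_lit 76) (nat_lit 40871380246) (nat_lit 3) (nat_lit 4) (nat_lit 4) (nat_lit 5) (nat_lit 4) (nat_lit 4) (nat_lit 337) (nat_lit 263) (nat_lit 180))))))))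
noncomputable def xc56 : XT := (XT.nd (nat_lit 2340) (nat_lit 0) (nat_lit 0) (XT.nd (nat_lit 1170) (nat_lit 0) (nat_lit 0) (XT.nd (nat_lit 546) (nat_lit 0) (nat_lit 0) (XT.nd (nat_lit 234) (nat_lit 152) (nat_lit 0) (XT.nd (nat_lit 78) (nat_lit 0) (nat_lit 0) (XT.lf (nat_lit 0) (nat_lit 383226590782) (nat_lit 76) (nat_lit 53802526579) (nat_lit 76) (nat_lit 35099005108) (nat_lit 3) (nat_lit 4) (nat_lit 4) (nat_lit 5) (nat_lit 4) (nat_lit 4) (nat_lit 338) (nat_lit 263) (nat_lit 179)) (XT.nd (nat_lit 78) (nat_lit 0) (nat_lit 0) (XT.lf (nat_lit 0) (nat_lit 432671774529) (nat_lit 76) (nat_lit 47573043663) (nat_lit 76) (nat_lit 28867361112) (nat_lit 3) (nat_lit 4) (nat_lit 4) (nat_lit 5) (nat_lit 4) (nat_lit 4) (nat_lit 339) (nat_lit 263) (nat_lit 178)) (XT.lf (nat_lit 0) (nat_lit 486068411298) (nat_lit 76) (nat_lit 40847203548) (nat_lit 76) (nat_lit 22139519995) (nat_lit 3) (nat_lit 4) (nat_lit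 4) (nat_lit 5) (nat_lit 4) (nat_lit 4) (nat_lit 340) (nat_lit 263) (nat_lit 177)))) (XT.nd (nat_lit 156) (nat_lit 152) (nat_lit 0) (XT.nd (nat_lit 78) (nat_lit 0) (nat_lit 0) (XT.lf (nat_lit 0) (nat_lit 543732925603) (nat_lit 76) (nat_lit 33585149402) (nat_lit 76) (nat_lit 14875613071) (nat_lit 3) (nat_lit 4) (nat_lit 4) (nat_lit 5) (nat_lit 4) (nat_lit 4) (nat_lit 341) (nat_lit 263) (nat_lit 176)) (XT.lf (nat_lit 0) (nat_lit 606007033086) (nat_lit 76) (nat_lit 25743846832) (nat_lit 76) (nat_lit 7032594965) (nat_lit 3) (nat_lit 4) (nat_lit 4) (nat_lit 5) (nat_lit 4) (nat_lit 4) (nat_lit 342) (nat_lit 263) (nat_lit 175))) (XT.nd (nat_lit 78) (nat_lit 76) (nat_lit 0) (XT.lf (nat_lit 0) (nat_lit 1364176358) (nat_lit 152) (nat_lit 15875353501) (nat_lit 76) (nat_lit 671858290137) (nat_lit 2) (nat_lit 5) (nat_lit 4) (nat_lit 5) (nat_lit 3) (nat_lit 4) (nat_lit 343) (nat_lit 263) (nat_lit 174))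 (XT.lf (nat_lit 0) (nat_lit 2307438787) (nat_lit 76) (nat_lit 7799171745) (nat_lit 152) (nat_lit 733311780794) (nat_lit 1) (nat_lit 5) (nat_lit 2) (nat_lit 5) (nat_lit 3) (nat_lit 4) (nat_lit 344) (nat_lit 263) (nat_lit 173))))) (XT.nd (nat_lit 312) (nat_lit 0) (nat_lit 0) (XT.nd (nat_lit 156) (nat_lit 0) (nat_lit 0) (XT.nd (nat_lit 78) (nat_lit 0) (nat_lit 0) (XT.lf (nat_lit 0) (nat_lit 20049789189) (nat_lit 152) (nat_lit 779274249673) (nat_lit 0) (nat_lit 2720462365) (nat_lit 1) (nat_lit 5) (nat_lit 3) (nat_lit 4) (nat_lit 1) (nat_lit 4) (nat_lit 345) (nat_lit 263) (nat_lit 172)) (XT.lf (nat_lit 0) (nat_lit 30989499245) (nat_lit 152) (nat_lit 820696110429) (nat_lit 0) (nat_lit 13659004857) (nat_lit 1) (nat_lit 5) (nat_lit 3) (nat_lit 4) (nat_lit 1) (nat_lit 4) (nat_lit 346) (nat_lit 263) (nat_lit 171))) (XT.nd (nat_lit 78) (nat_lit 0) (nat_lit 0) (XT.lf (nat_lit 0) (nat_lit 42802998346)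 (nat_lit 152) (nat_lit 865434427417) (nat_lit 0) (nat_lit 25471422879) (nat_lit 1) (nat_lit 5) (nat_lit 3) (nat_lit 4) (nat_lit 1) (nat_lit 4) (nat_lit 347) (nat_lit 263) (nat_lit 170)) (XT.lf (nat_lit 0) (nat_lit 55560292412) (nat_lit 152) (nat_lit 913754316590) (nat_lit 0) (nat_lit 38227715946) (nat_lit 1) (nat_lit 5) (nat_lit 3) (nat_lit 4) (nat_lit 1) (nat_lit 4) (nat_lit 348) (nat_lit 263) (nat_lit 169)))) (XT.nd (nat_lit 156) (nat_lit 0) (nat_lit 0) (XT.nd (nat_lit 78) (nat_lit 0) (nat_lit 0) (XT.lf (nat_lit 0) (nat_lit 69336980222) (nat_lit 152) (nat_lit 965942118032) (nat_lit 0) (nat_lit 52003476906) (nat_lit 1) (nat_lit 5) (nat_lit 3) (nat_lit 4) (nat_lit 1) (nat_lit 4) (nat_lit 349) (nat_lit 263) (nat_lit 168)) (XT.lf (nat_lit 0) (nat_lit 84214701408) (nat_lit 152) (nat_lit 1022307092789) (nat_lit 0) (nat_lit 66880339897) (nat_lit 1) (nat_lit 5) (nat_lit 3) (nat_lit 4) (nat_lit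 1) (nat_lit 4) (nat_lit 350) (nat_lit 263) (nat_lit 167))) (XT.nd (nat_lit 78) (nat_lit 0) (nat_lit 0) (XT.lf (nat_lit 0) (nat_lit 100281620243) (nat_lit 152) (nat_lit 1083183255526) (nat_lit 0) (nat_lit 82946464107) (nat_lit 1) (nat_lit 5) (nat_lit 3) (nat_lit 4) (nat_lit 1) (nat_lit 4) (nat_lit 351) (nat_lit 263) (nat_lit 166)) (XT.lf (nat_lit 0) (nat_lit 117632948099) (nat_lit 152) (nat_lit 1148931353874) (nat_lit 0) (nat_lit 100297056199) (nat_lit 1) (nat_lit 5) (nat_lit 3) (nat_lit 4) (nat_lit 1) (nat_lit 4) (nat_lit 352) (nat_lit 263) (nat_lit 165)))))) (XT.nd (nat_lit 546) (nat_lit 0) (nat_lit 0) (XT.nd (nat_lit 234) (nat_lit 0) (nat_lit 0) (XT.nd (nat_lit 78) (nat_lit 0) (nat_lit 0) (XT.lf (nat_lit 0) (nat_lit 136371507659) (nat_lit 152) (nat_lit 1219941006194) (nat_lit 0) (nat_lit 119034934496) (nat_lit 1) (nat_lit 5) (nat_lit 3) (nat_lit 4) (nat_lit 1) (nat_lit 4) (nat_lit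 353) (nat_lit 263) (nat_lit 164)) (XT.nd (nat_lit 78) (nat_lit 0) (nat_lit 0) (XT.lf (nat_lit 0) (nat_lit 156608342239) (nat_lit 152) (nat_lit 1296633010424) (nat_lit 0) (nat_lit 139271138278) (nat_lit 1) (nat_lit 5) (nat_lit 3) (nat_lit 4) (nat_lit 1) (nat_lit 4) (nat_lit 354) (nat_lit 263) (nat_lit 163)) (XT.lf (nat_lit 0) (nat_lit 178463373822) (nat_lit 152) (nat_lit 1379461837702) (nat_lit 0) (nat_lit 161125585787) (nat_lit 1) (nat_lit 5) (nat_lit 3) (nat_lit 4) (nat_lit 1) (nat_lit 4) (nat_lit 355) (nat_lit 263) (nat_lit 162)))) (XT.nd (nat_lit 156) (nat_lit 0) (nat_lit 0) (XT.nd (nat_lit 78) (nat_lit 0) (nat_lit 0) (XT.lf (nat_lit 0) (nat_lit 202066113706) (nat_lit 152) (nat_lit 1468918325523) (nat_lit 0) (nat_lit 184727784862) (nat_lit 1) (nat_lit 5) (nat_lit 3) (nat_lit 4) (nat_lit 1) (nat_lit 4) (nat_lit 356) (nat_lit 263) (nat_lit 161)) (XT.lf (nat_lit 0) (nat_lit 227556429979)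 (nat_lit 152) (nat_lit 1565532586407) (nat_lit 0) (nat_lit 210217600387) (nat_lit 1) (nat_lit 5) (nat_lit 3) (nat_lit 4) (nat_lit 1) (nat_lit 4) (nat_lit 357) (nat_lit 263) (nat_lit 160))) (XT.nd (nat_lit 78) (nat_lit 0) (nat_lit 0) (XT.lf (nat_lit 0) (nat_lit 255085376366) (nat_lit 152) (nat_lit 1669877149306) (nat_lit 0) (nat_lit 237746083118) (nat_lit 1) (nat_lit 5) (nat_lit 3) (nat_lit 4) (nat_lit 1) (nat_lit 4) (nat_lit 358) (nat_lit 263) (nat_lit 159)) (XT.lf (nat_lit 0) (nat_lit 284816087367) (nat_lit 152) (nat_lit 1782570352372) (nat_lit 0) (nat_lit 267476364808) (nat_lit 1) (nat_lit 5) (nat_lit 3) (nat_lit 4) (nat_lit 1) (nat_lit 4) (nat_lit 359) (nat_lit 263) (nat_lit 158))))) (XT.nd (nat_lit 312) (nat_lit 0) (nat_lit 0) (XT.nd (nat_lit 156) (nat_lit 0) (nat_lit 0) (XT.nd (nat_lit 78) (nat_lit 0) (nat_lit 0) (XT.lf (nat_lit 0) (nat_lit 316924744970) (nat_lit 152) (nat_lit 1904280007179)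 (nat_lit 0) (nat_lit 299584624901) (nat_lit 1) (nat_lit 5) (nat_lit 3) (nat_lit 4) (nat_lit 1) (nat_lit 4) (nat_lit 360) (nat_lit 263) (nat_lit 157)) (XT.lf (nat_lit 0) (nat_lit 351601622704) (nat_lit 152) (nat_lit 2035727356125) (nat_lit 0) (nat_lit 334261134569) (nat_lit 1) (nat_lit 5) (nat_lit 3) (nat_lit 4) (nat_lit 1) (nat_lit 4) (nat_lit 361) (nat_lit 263) (nat_lit 156))) (XT.nd (nat_lit 78) (nat_lit 0) (nat_lit 0) (XT.lf (nat_lit 0) (nat_lit 389052213177) (nat_lit 152) (nat_lit 2177691346464) (nat_lit 0) (nat_lit 371711384241) (nat_lit 1) (nat_lit 5) (nat_lit 3) (nat_lit 4) (nat_lit 1) (nat_lit 4) (nat_lit 362) (nat_lit 263) (nat_lit 155)) (XT.lf (nat_lit 0) (nat_lit 429498445813) (nat_lit 152) (nat_lit 2331013246285) (nat_lit 0) (nat_lit 412157301320) (nat_lit 1) (nat_lit 5) (nat_lit 3) (nat_lit 4) (nat_lit 1) (nat_lit 4) (nat_lit 363) (nat_lit 263) (nat_lit 154)))) (XT.nd (nat_lit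 156) (nat_lit 0) (nat_lit 0) (XT.nd (nat_lit 78) (nat_lit 0) (nat_lit 0) (XT.lf (nat_lit 0) (nat_lit 473180001991) (nat_lit 152) (nat_lit 2496601629811) (nat_lit 0) (nat_lit 455838565317) (nat_lit 1) (nat_lit 5) (nat_lit 3) (nat_lit 4) (nat_lit 1) (nat_lit 4) (nat_lit 364) (nat_lit 263) (nat_lit 153)) (XT.lf (nat_lit 0) (nat_lit 520355735378) (nat_lit 152) (nat_lit 2675437761537) (nat_lit 0) (nat_lit 503014028165) (nat_lit 1) (nat_lit 5) (nat_lit 3) (nat_lit 4) (nat_lit 1) (nat_lit 4) (nat_lit 365) (nat_lit 263) (nat_lit 152))) (XT.nd (nat_lit 78) (nat_lit 0) (nat_lit 0) (XT.lf (nat_lit 0) (nat_lit 571305205876) (nat_lit 152) (nat_lit 2868581411131) (nat_lit 0) (nat_lit 553963248164) (nat_lit 1) (nat_lit 5) (nat_lit 3) (nat_lit 4) (nat_lit 1) (nat_lit 4) (nat_lit 366) (nat_lit 263) (nat_lit 151)) (XT.lf (nat_lit 0) (nat_lit 626330336271) (nat_lit 152) (nat_lit 3077177133554) (nat_lit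 0) (nat_lit 608988146616) (nat_lit 1) (nat_lit 5) (nat_lit 3) (nat_lit 4) (nat_lit 1) (nat_lit 4) (nat_lit 367) (nat_lit 263) (nat_lit 150))))))) (XT.nd (nat_lit 33618) (nat_lit 0) (nat_lit 1216) (XT.nd (nat_lit 32994) (nat_lit 0) (nat_lit 2584) (XT.nd (nat_lit 32682) (nat_lit 0) (nat_lit 3876) (XT.nd (nat_lit 32526) (nat_lit 0) (nat_lit 4180) (XT.lf (nat_lit 0) (nat_lit 685757201412) (nat_lit 152) (nat_lit 3302461051607) (nat_lit 0) (nat_lit 668414796994) (nat_lit 1) (nat_lit 5) (nat_lit 3) (nat_lit 4) (nat_lit 1) (nat_lit 4) (nat_lit 368) (nat_lit 263) (nat_lit 149)) (XT.nd (nat_lit 78) (nat_lit 380) (nat_lit 0) (XT.lf (nat_lit 0) (nat_lit 1558467443) (nat_lit 0) (nat_lit 1558467443) (nat_lit 228) (nat_lit 338093355) (nat_lit 61) (nat_lit 5) (nat_lit 61) (nat_lit 3) (nat_lit 64) (nat_lit 3) (nat_lit 264) (nat_lit 264) (nat_lit 252)) (XT.lf (nat_lit 0) (nat_lit 1105558806) (nat_lit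 380) (nat_lit 589573457) (nat_lit 380) (nat_lit 5343435848) (nat_lit 56) (nat_lit 3) (nat_lit 61) (nat_lit 3) (nat_lit 61) (nat_lit 5) (nat_lit 265) (nat_lit 264) (nat_lit 251)))) (XT.nd (nat_lit 156) (nat_lit 380) (nat_lit 0) (XT.nd (nat_lit 78) (nat_lit 0) (nat_lit 0) (XT.lf (nat_lit 0) (nat_lit 2886035534) (nat_lit 304) (nat_lit 4284030531) (nat_lit 380) (nat_lit 15207487) (nat_lit 57) (nat_lit 5) (nat_lit 61) (nat_lit 5) (nat_lit 62) (nat_lit 5) (nat_lit 266) (nat_lit 264) (nat_lit 250)) (XT.lf (nat_lit 0) (nat_lit 4704712088) (nat_lit 304) (nat_lit 791530343) (nat_lit 380) (nat_lit 1856493364) (nat_lit 57) (nat_lit 5) (nat_lit 61) (nat_lit 5) (nat_lit 62) (nat_lit 5) (nat_lit 267) (nat_lit 264) (nat_lit 249))) (XT.nd (nat_lit 78) (nat_lit 380) (nat_lit 0) (XT.lf (nat_lit 76) (nat_lit 3030572494) (nat_lit 0) (nat_lit 3558597089) (nat_lit 380) (nat_lit 951433323) (nat_lit 58) (nat_lit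 5) (nat_lit 57) (nat_lit 5) (nat_lit 62) (nat_lit 5) (nat_lit 268) (nat_lit 264) (nat_lit 248)) (XT.lf (nat_lit 0) (nat_lit 711064400) (nat_lit 380) (nat_lit 667220746) (nat_lit 456) (nat_lit 6374120612) (nat_lit 52) (nat_lit 5) (nat_lit 57) (nat_lit 5) (nat_lit 58) (nat_lit 5) (nat_lit 269) (nat_lit 264) (nat_lit 247))))) (XT.nd (nat_lit 312) (nat_lit 532) (nat_lit 0) (XT.nd (nat_lit 156) (nat_lit 836) (nat_lit 0) (XT.nd (nat_lit 78) (nat_lit 0) (nat_lit 0) (XT.lf (nat_lit 0) (nat_lit 2430443973) (nat_lit 380) (nat_lit 4475117872) (nat_lit 76) (nat_lit 1076092035) (nat_lit 53) (nat_lit 5) (nat_lit 58) (nat_lit 5) (nat_lit 54) (nat_lit 5) (nat_lit 270) (nat_lit 264) (nat_lit 246)) (XT.lf (nat_lit 0) (nat_lit 4213494597) (nat_lit 380) (nat_lit 320209435) (nat_lit 76) (nat_lit 3701911847) (nat_lit 53) (nat_lit 5) (nat_lit 58) (nat_lit 5) (nat_lit 54) (nat_lit 5) (nat_lit 271) (nat_lit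 264) (nat_lit 245))) (XT.nd (nat_lit 78) (nat_lit 456) (nat_lit 0) (XT.lf (nat_lit 0) (nat_lit 4280972613) (nat_lit 380) (nat_lit 1842289180) (nat_lit 456) (nat_lit 2388336578) (nat_lit 48) (nat_lit 5) (nat_lit 53) (nat_lit 5) (nat_lit 54) (nat_lit 5) (nat_lit 272) (nat_lit 264) (nat_lit 244)) (XT.lf (nat_lit 0) (nat_lit 343373006) (nat_lit 456) (nat_lit 7773202089) (nat_lit 532) (nat_lit 699020720) (nat_lit 42) (nat_lit 5) (nat_lit 48) (nat_lit 5) (nat_lit 49) (nat_lit 5) (nat_lit 273) (nat_lit 264) (nat_lit 243)))) (XT.nd (nat_lit 156) (nat_lit 228) (nat_lit 0) (XT.nd (nat_lit 78) (nat_lit 228) (nat_lit 0) (XT.lf (nat_lit 0) (nat_lit 1126266574) (nat_lit 532) (nat_lit 3799549503) (nat_lit 76) (nat_lit 4211702427) (nat_lit 41) (nat_lit 5) (nat_lit 48) (nat_lit 5) (nat_lit 42) (nat_lit 5) (nat_lit 274) (nat_lit 264) (nat_lit 242)) (XT.lf (nat_lit 0) (nat_lit 1185434912) (nat_lit 228)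 (nat_lit 1801586676) (nat_lit 304) (nat_lit 6502859684) (nat_lit 38) (nat_lit 5) (nat_lit 41) (nat_lit 5) (nat_lit 42) (nat_lit 5) (nat_lit 275) (nat_lit 264) (nat_lit 241))) (XT.nd (nat_lit 78) (nat_lit 228) (nat_lit 0) (XT.lf (nat_lit 0) (nat_lit 5044747691) (nat_lit 304) (nat_lit 3225283142) (nat_lit 76) (nat_lit 1596845572) (nat_lit 38) (nat_lit 5) (nat_lit 42) (nat_lit 5) (nat_lit 39) (nat_lit 5) (nat_lit 276) (nat_lit 264) (nat_lit 240)) (XT.lf (nat_lit 0) (nat_lit 2224762274) (nat_lit 228) (nat_lit 5053467901) (nat_lit 304) (nat_lit 2995180462) (nat_lit 35) (nat_lit 5) (nat_lit 38) (nat_lit 5) (nat_lit 39) (nat_lit 5) (nat_lit 277) (nat_lit 264) (nat_lit 239)))))) (XT.nd (nat_lit 624) (nat_lit 532) (nat_lit 0) (XT.nd (nat_lit 312) (nat_lit 380) (nat_lit 0) (XT.nd (nat_lit 156) (nat_lit 152) (nat_lit 0) (XT.nd (nat_lit 78) (nat_lit 304) (nat_lit 0) (XT.lf (nat_lit 0) (nat_lit 8196818346)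 (nat_lit 228) (nat_lit 1496857796) (nat_lit 304) (nat_lit 1018779190) (nat_lit 35) (nat_lit 5) (nat_lit 38) (nat_lit 5) (nat_lit 39) (nat_lit 5) (nat_lit 278) (nat_lit 264) (nat_lit 238)) (XT.lf (nat_lit 0) (nat_lit 1122506784) (nat_lit 304) (nat_lit 7729033668) (nat_lit 76) (nat_lit 2328144357) (nat_lit 31) (nat_lit 5) (nat_lit 35) (nat_lit 5) (nat_lit 32) (nat_lit 5) (nat_lit 279) (nat_lit 264) (nat_lit 237))) (XT.nd (nat_lit 78) (nat_lit 152) (nat_lit 0) (XT.lf (nat_lit 0) (nat_lit 3412036001) (nat_lit 304) (nat_lit 1806889224) (nat_lit 76) (nat_lit 6460890869) (nat_lit 31) (nat_lit 5) (nat_lit 35) (nat_lit 5) (nat_lit 32) (nat_lit 5) (nat_lit 280) (nat_lit 264) (nat_lit 236)) (XT.lf (nat_lit 0) (nat_lit 4734884703) (nat_lit 152) (nat_lit 1191988205) (nat_lit 228) (nat_lit 6289897480) (nat_lit 29) (nat_lit 5) (nat_lit 31) (nat_lit 5) (nat_lit 32) (nat_lit 5) (nat_lit 281) (nat_lit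 264) (nat_lit 235)))) (XT.nd (nat_lit 156) (nat_lit 228) (nat_lit 0) (XT.nd (nat_lit 78) (nat_lit 152) (nat_lit 0) (XT.lf (nat_lit 0) (nat_lit 8700478748) (nat_lit 228) (nat_lit 1061046649) (nat_lit 76) (nat_lit 3030719563) (nat_lit 29) (nat_lit 5) (nat_lit 32) (nat_lit 5) (nat_lit 30) (nat_lit 5) (nat_lit 282) (nat_lit 264) (nat_lit 234)) (XT.lf (nat_lit 0) (nat_lit 6058664554) (nat_lit 152) (nat_lit 5750060630) (nat_lit 228) (nat_lit 1596170010) (nat_lit 27) (nat_lit 5) (nat_lit 29) (nat_lit 5) (nat_lit 30) (nat_lit 5) (nat_lit 283) (nat_lit 264) (nat_lit 233))) (XT.nd (nat_lit 78) (nat_lit 152) (nat_lit 0) (XT.lf (nat_lit 0) (nat_lit 1010906949) (nat_lit 228) (nat_lit 371290614) (nat_lit 76) (nat_lit 12685035554) (nat_lit 26) (nat_lit 5) (nat_lit 29) (nat_lit 5) (nat_lit 27) (nat_lit 5) (nat_lit 284) (nat_lit 264) (nat_lit 232)) (XT.lf (nat_lit 0) (nat_lit 3945571336) (nat_lit 228)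 (nat_lit 7445936389) (nat_lit 76) (nat_lit 3371438476) (nat_lit 24) (nat_lit 5) (nat_lit 27) (nat_lit 5) (nat_lit 25) (nat_lit 5) (nat_lit 285) (nat_lit 264) (nat_lit 231))))) (XT.nd (nat_lit 312) (nat_lit 228) (nat_lit 0) (XT.nd (nat_lit 156) (nat_lit 152) (nat_lit 0) (XT.nd (nat_lit 78) (nat_lit 0) (nat_lit 0) (XT.lf (nat_lit 0) (nat_lit 8671528) (nat_lit 152) (nat_lit 7096408913) (nat_lit 228) (nat_lit 8410146203) (nat_lit 22) (nat_lit 5) (nat_lit 24) (nat_lit 5) (nat_lit 25) (nat_lit 5) (nat_lit 286) (nat_lit 264) (nat_lit 230)) (XT.lf (nat_lit 0) (nat_lit 8401638059) (nat_lit 152) (nat_lit 2265066133) (nat_lit 228) (nat_lit 5649144456) (nat_lit 22) (nat_lit 5) (nat_lit 24) (nat_lit 5) (nat_lit 25) (nat_lit 5) (nat_lit 287) (nat_lit 264) (nat_lit 229))) (XT.nd (nat_lit 78) (nat_lit 76) (nat_lit 0) (XT.lf (nat_lit 0) (nat_lit 142703023) (nat_lit 76) (nat_lit 14394180805) (nat_lit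 152) (nat_lit 2641845990) (nat_lit 21) (nat_lit 5) (nat_lit 22) (nat_lit 5) (nat_lit 23) (nat_lit 4) (nat_lit 288) (nat_lit 264) (nat_lit 228)) (XT.lf (nat_lit 0) (nat_lit 806297491) (nat_lit 152) (nat_lit 8957777166) (nat_lit 76) (nat_lit 8327039894) (nat_lit 20) (nat_lit 5) (nat_lit 22) (nat_lit 5) (nat_lit 21) (nat_lit 5) (nat_lit 289) (nat_lit 264) (nat_lit 227)))) (XT.nd (nat_lit 156) (nat_lit 76) (nat_lit 0) (XT.nd (nat_lit 78) (nat_lit 152) (nat_lit 0) (XT.lf (nat_lit 0) (nat_lit 4341023055) (nat_lit 152) (nat_lit 375661118) (nat_lit 76) (nat_lit 14358118600) (nat_lit 20) (nat_lit 5) (nat_lit 22) (nat_lit 5) (nat_lit 21) (nat_lit 5) (nat_lit 290) (nat_lit 264) (nat_lit 226)) (XT.lf (nat_lit 0) (nat_lit 8361704673) (nat_lit 228) (nat_lit 10856286303) (nat_lit 76) (nat_lit 903013959) (nat_lit 18) (nat_lit 5) (nat_lit 21) (nat_lit 5) (nat_lit 19) (nat_lit 4) (nat_lit 291) (nat_lit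 264) (nat_lit 225))) (XT.nd (nat_lit 78) (nat_lit 76) (nat_lit 0) (XT.lf (nat_lit 0) (nat_lit 12794984276) (nat_lit 228) (nat_lit 1744531571) (nat_lit 76) (nat_lit 6704179653) (nat_lit 18) (nat_lit 5) (nat_lit 21) (nat_lit 5) (nat_lit 19) (nat_lit 4) (nat_lit 292) (nat_lit 264) (nat_lit 224)) (XT.lf (nat_lit 0) (nat_lit 8454884354) (nat_lit 76) (nat_lit 9292395168) (nat_lit 152) (nat_lit 4695836215) (nat_lit 17) (nat_lit 5) (nat_lit 18) (nat_lit 5) (nat_lit 19) (nat_lit 4) (nat_lit 293) (nat_lit 264) (nat_lit 223))))))))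
noncomputable def xc57 : XT := (XT.nd (nat_lit 2340) (nat_lit 228) (nat_lit 0) (XT.nd (nat_lit 1170) (nat_lit 304) (nat_lit 0) (XT.nd (nat_lit 546) (nat_lit 304) (nat_lit 0) (XT.nd (nat_lit 234) (nat_lit 152) (nat_lit 0) (XT.nd (nat_lit 78) (nat_lit 228) (nat_lit 0) (XT.lf (nat_lit 0) (nat_lit 19506865860) (nat_lit 76) (nat_lit 3598986584) (nat_lit 152) (nat_lit 631887672) (nat_lit 17) (nat_lit 5) (nat_lit 18) (nat_lit 5) (nat_lit 19) (nat_lit 4) (nat_lit 294) (nat_lit 264) (nat_lit 222)) (XT.nd (nat_lit 78) (nat_lit 0) (nat_lit 0) (XT.lf (nat_lit 0) (nat_lit 3756462241) (nat_lit 228) (nat_lit 18705267365) (nat_lit 76) (nat_lit 2652047015) (nat_lit 14) (nat_lit 5) (nat_lit 17) (nat_lit 5) (nat_lit 15) (nat_lit 4) (nat_lit 295) (nat_lit 264) (nat_lit 221)) (XT.lf (nat_lit 0) (nat_lit 8638804031) (nat_lit 228) (nat_lit 8624497735) (nat_lit 76) (nat_lit 9321162369) (nat_lit 14) (nat_lit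 5) (nat_lit 17) (nat_lit 5) (nat_lit 15) (nat_lit 4) (nat_lit 296) (nat_lit 264) (nat_lit 220)))) (XT.nd (nat_lit 156) (nat_lit 76) (nat_lit 0) (XT.nd (nat_lit 78) (nat_lit 0) (nat_lit 0) (XT.lf (nat_lit 0) (nat_lit 2322803999) (nat_lit 76) (nat_lit 11612290615) (nat_lit 152) (nat_lit 14235885785) (nat_lit 13) (nat_lit 5) (nat_lit 14) (nat_lit 5) (nat_lit 15) (nat_lit 4) (nat_lit 297) (nat_lit 264) (nat_lit 219)) (XT.lf (nat_lit 0) (nat_lit 14581668070) (nat_lit 76) (nat_lit 5277819294) (nat_lit 152) (nat_lit 10008618191) (nat_lit 13) (nat_lit 5) (nat_lit 14) (nat_lit 5) (nat_lit 15) (nat_lit 4) (nat_lit 298) (nat_lit 264) (nat_lit 218))) (XT.nd (nat_lit 78) (nat_lit 76) (nat_lit 0) (XT.lf (nat_lit 0) (nat_lit 26265829389) (nat_lit 152) (nat_lit 3969856457) (nat_lit 0) (nat_lit 1464711631) (nat_lit 13) (nat_lit 5) (nat_lit 15) (nat_lit 4) (nat_lit 13) (nat_lit 4) (nat_lit 299) (nat_lit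 264) (nat_lit 217)) (XT.lf (nat_lit 0) (nat_lit 8491116585) (nat_lit 76) (nat_lit 25007450528) (nat_lit 76) (nat_lit 155628442) (nat_lit 12) (nat_lit 4) (nat_lit 13) (nat_lit 5) (nat_lit 13) (nat_lit 4) (nat_lit 300) (nat_lit 264) (nat_lit 216))))) (XT.nd (nat_lit 312) (nat_lit 152) (nat_lit 0) (XT.nd (nat_lit 156) (nat_lit 76) (nat_lit 0) (XT.nd (nat_lit 78) (nat_lit 0) (nat_lit 0) (XT.lf (nat_lit 0) (nat_lit 5352336766) (nat_lit 152) (nat_lit 13765910064) (nat_lit 76) (nat_lit 16628679885) (nat_lit 11) (nat_lit 5) (nat_lit 13) (nat_lit 5) (nat_lit 12) (nat_lit 4) (nat_lit 301) (nat_lit 264) (nat_lit 215)) (XT.lf (nat_lit 0) (nat_lit 11267311651) (nat_lit 152) (nat_lit 1506233090) (nat_lit 76) (nat_lit 25235252693) (nat_lit 11) (nat_lit 5) (nat_lit 13) (nat_lit 5) (nat_lit 12) (nat_lit 4) (nat_lit 302) (nat_lit 264) (nat_lit 214))) (XT.nd (nat_lit 78) (nat_lit 0) (nat_lit 0) (XT.lf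 (nat_lit 0) (nat_lit 12308042909) (nat_lit 76) (nat_lit 5620098901) (nat_lit 152) (nat_lit 22501688315) (nat_lit 10) (nat_lit 5) (nat_lit 11) (nat_lit 5) (nat_lit 12) (nat_lit 4) (nat_lit 303) (nat_lit 264) (nat_lit 213)) (XT.lf (nat_lit 0) (nat_lit 25191690212) (nat_lit 152) (nat_lit 15822045514) (nat_lit 0) (nat_lit 2025244609) (nat_lit 10) (nat_lit 5) (nat_lit 12) (nat_lit 4) (nat_lit 10) (nat_lit 4) (nat_lit 304) (nat_lit 264) (nat_lit 212)))) (XT.nd (nat_lit 156) (nat_lit 76) (nat_lit 0) (XT.nd (nat_lit 78) (nat_lit 76) (nat_lit 0) (XT.lf (nat_lit 0) (nat_lit 33160964621) (nat_lit 152) (nat_lit 2723381225) (nat_lit 0) (nat_lit 9962566690) (nat_lit 10) (nat_lit 5) (nat_lit 12) (nat_lit 4) (nat_lit 10) (nat_lit 4) (nat_lit 305) (nat_lit 264) (nat_lit 211)) (XT.lf (nat_lit 0) (nat_lit 11986609641) (nat_lit 76) (nat_lit 30049695462) (nat_lit 76) (nat_lit 6821712042) (nat_lit 9) (nat_lit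 4) (nat_lit 10) (nat_lit 5) (nat_lit 10) (nat_lit 4) (nat_lit 306) (nat_lit 264) (nat_lit 210))) (XT.nd (nat_lit 78) (nat_lit 76) (nat_lit 0) (XT.lf (nat_lit 0) (nat_lit 27993011637) (nat_lit 76) (nat_lit 23683984168) (nat_lit 76) (nat_lit 428606778) (nat_lit 9) (nat_lit 4) (nat_lit 10) (nat_lit 5) (nat_lit 10) (nat_lit 4) (nat_lit 307) (nat_lit 264) (nat_lit 209)) (XT.lf (nat_lit 0) (nat_lit 6133796047) (nat_lit 152) (nat_lit 10522446399) (nat_lit 76) (nat_lit 38945764185) (nat_lit 8) (nat_lit 5) (nat_lit 10) (nat_lit 5) (nat_lit 9) (nat_lit 4) (nat_lit 308) (nat_lit 264) (nat_lit 208)))))) (XT.nd (nat_lit 546) (nat_lit 152) (nat_lit 0) (XT.nd (nat_lit 234) (nat_lit 76) (nat_lit 0) (XT.nd (nat_lit 78) (nat_lit 0) (nat_lit 0) (XT.lf (nat_lit 0) (nat_lit 4329201776) (nat_lit 76) (nat_lit 8956101045) (nat_lit 152) (nat_lit 46084962688) (nat_lit 7) (nat_lit 5) (nat_lit 8) (nat_lit 5) (nat_lit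 9) (nat_lit 4) (nat_lit 309) (nat_lit 264) (nat_lit 207)) (XT.nd (nat_lit 78) (nat_lit 0) (nat_lit 0) (XT.lf (nat_lit 0) (nat_lit 20937051502) (nat_lit 76) (nat_lit 343249368) (nat_lit 152) (nat_lit 42137988018) (nat_lit 7) (nat_lit 5) (nat_lit 8) (nat_lit 5) (nat_lit 9) (nat_lit 4) (nat_lit 310) (nat_lit 264) (nat_lit 206)) (XT.lf (nat_lit 0) (nat_lit 30114919996) (nat_lit 152) (nat_lit 29161093138) (nat_lit 0) (nat_lit 8498151759) (nat_lit 7) (nat_lit 5) (nat_lit 9) (nat_lit 4) (nat_lit 7) (nat_lit 4) (nat_lit 311) (nat_lit 264) (nat_lit 205)))) (XT.nd (nat_lit 156) (nat_lit 0) (nat_lit 0) (XT.nd (nat_lit 78) (nat_lit 76) (nat_lit 0) (XT.lf (nat_lit 0) (nat_lit 39650933436) (nat_lit 152) (nat_lit 14811116740) (nat_lit 0) (nat_lit 18016902350) (nat_lit 7) (nat_lit 5) (nat_lit 9) (nat_lit 4) (nat_lit 7) (nat_lit 4) (nat_lit 312) (nat_lit 264) (nat_lit 204)) (XT.lf (nat_lit 0) (nat_lit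 696842755) (nat_lit 76) (nat_lit 49256512074) (nat_lit 76) (nat_lit 27606496869) (nat_lit 6) (nat_lit 4) (nat_lit 7) (nat_lit 5) (nat_lit 7) (nat_lit 4) (nat_lit 313) (nat_lit 264) (nat_lit 203))) (XT.nd (nat_lit 78) (nat_lit 0) (nat_lit 0) (XT.lf (nat_lit 0) (nat_lit 18263516154) (nat_lit 76) (nat_lit 43208580843) (nat_lit 76) (nat_lit 21543765528) (nat_lit 6) (nat_lit 4) (nat_lit 7) (nat_lit 5) (nat_lit 7) (nat_lit 4) (nat_lit 314) (nat_lit 264) (nat_lit 202)) (XT.lf (nat_lit 0) (nat_lit 37213075100) (nat_lit 76) (nat_lit 36687379070) (nat_lit 76) (nat_lit 15008859950) (nat_lit 6) (nat_lit 4) (nat_lit 7) (nat_lit 5) (nat_lit 7) (nat_lit 4) (nat_lit 315) (nat_lit 264) (nat_lit 201))))) (XT.nd (nat_lit 312) (nat_lit 0) (nat_lit 0) (XT.nd (nat_lit 156) (nat_lit 152) (nat_lit 0) (XT.nd (nat_lit 78) (nat_lit 0) (nat_lit 0) (XT.lf (nat_lit 0) (nat_lit 57657813275) (nat_lit 76) (nat_lit 29654262598)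 (nat_lit 76) (nat_lit 7963054769) (nat_lit 6) (nat_lit 4) (nat_lit 7) (nat_lit 5) (nat_lit 7) (nat_lit 4) (nat_lit 316) (nat_lit 264) (nat_lit 200)) (XT.lf (nat_lit 0) (nat_lit 79718884685) (nat_lit 76) (nat_lit 22067553699) (nat_lit 76) (nat_lit 364597066) (nat_lit 6) (nat_lit 4) (nat_lit 7) (nat_lit 5) (nat_lit 7) (nat_lit 4) (nat_lit 317) (nat_lit 264) (nat_lit 199))) (XT.nd (nat_lit 78) (nat_lit 76) (nat_lit 0) (XT.lf (nat_lit 0) (nat_lit 7439775655) (nat_lit 152) (nat_lit 6239101791) (nat_lit 76) (nat_lit 95883829297) (nat_lit 5) (nat_lit 5) (nat_lit 7) (nat_lit 5) (nat_lit 6) (nat_lit 4) (nat_lit 318) (nat_lit 264) (nat_lit 198)) (XT.lf (nat_lit 0) (nat_lit 11813922610) (nat_lit 76) (nat_lit 4310034347) (nat_lit 152) (nat_lit 101420590892) (nat_lit 4) (nat_lit 5) (nat_lit 5) (nat_lit 5) (nat_lit 6) (nat_lit 4) (nat_lit 319) (nat_lit 264) (nat_lit 197)))) (XT.nd (nat_lit 156) (nat_lit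 0) (nat_lit 0) (XT.nd (nat_lit 78) (nat_lit 0) (nat_lit 0) (XT.lf (nat_lit 0) (nat_lit 25808690853) (nat_lit 152) (nat_lit 94646460082) (nat_lit 0) (nat_lit 5685325629) (nat_lit 4) (nat_lit 5) (nat_lit 6) (nat_lit 4) (nat_lit 4) (nat_lit 4) (nat_lit 320) (nat_lit 264) (nat_lit 196)) (XT.lf (nat_lit 0) (nat_lit 36371919983) (nat_lit 152) (nat_lit 82803308893) (nat_lit 0) (nat_lit 16240558720) (nat_lit 4) (nat_lit 5) (nat_lit 6) (nat_lit 4) (nat_lit 4) (nat_lit 4) (nat_lit 321) (nat_lit 264) (nat_lit 195))) (XT.nd (nat_lit 78) (nat_lit 0) (nat_lit 0) (XT.lf (nat_lit 0) (nat_lit 47772584831) (nat_lit 152) (nat_lit 70027333605) (nat_lit 0) (nat_lit 27633819828) (nat_lit 4) (nat_lit 5) (nat_lit 6) (nat_lit 4) (nat_lit 4) (nat_lit 4) (nat_lit 322) (nat_lit 264) (nat_lit 194)) (XT.lf (nat_lit 0) (nat_lit 60078244893) (nat_lit 152) (nat_lit 56242824734) (nat_lit 0) (nat_lit 39932624576) (nat_lit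 4) (nat_lit 5) (nat_lit 6) (nat_lit 4) (nat_lit 4) (nat_lit 4) (nat_lit 323) (nat_lit 264) (nat_lit 193))))))) (XT.nd (nat_lit 1170) (nat_lit 152) (nat_lit 0) (XT.nd (nat_lit 546) (nat_lit 0) (nat_lit 0) (XT.nd (nat_lit 234) (nat_lit 76) (nat_lit 0) (XT.nd (nat_lit 78) (nat_lit 0) (nat_lit 0) (XT.lf (nat_lit 0) (nat_lit 73361822599) (nat_lit 152) (nat_lit 41368096303) (nat_lit 0) (nat_lit 53209854768) (nat_lit 4) (nat_lit 5) (nat_lit 6) (nat_lit 4) (nat_lit 4) (nat_lit 4) (nat_lit 324) (nat_lit 264) (nat_lit 192)) (XT.nd (nat_lit 78) (nat_lit 0) (nat_lit 0) (XT.lf (nat_lit 0) (nat_lit 87702035446) (nat_lit 152) (nat_lit 25315001773) (nat_lit 0) (nat_lit 67544190288) (nat_lit 4) (nat_lit 5) (nat_lit 6) (nat_lit 4) (nat_lit 4) (nat_lit 4) (nat_lit 325) (nat_lit 264) (nat_lit 191)) (XT.lf (nat_lit 0) (nat_lit 103183862473) (nat_lit 152) (nat_lit 7988411695) (nat_lit 0) (nat_lit 83020575345)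 (nat_lit 4) (nat_lit 5) (nat_lit 6) (nat_lit 4) (nat_lit 4) (nat_lit 4) (nat_lit 326) (nat_lit 264) (nat_lit 190)))) (XT.nd (nat_lit 156) (nat_lit 0) (nat_lit 0) (XT.nd (nat_lit 78) (nat_lit 0) (nat_lit 0) (XT.lf (nat_lit 0) (nat_lit 11278548706) (nat_lit 76) (nat_lit 108891748503) (nat_lit 76) (nat_lit 88723422514) (nat_lit 3) (nat_lit 4) (nat_lit 4) (nat_lit 5) (nat_lit 4) (nat_lit 4) (nat_lit 327) (nat_lit 264) (nat_lit 189)) (XT.lf (nat_lit 0) (nat_lit 32531470461) (nat_lit 76) (nat_lit 106197556685) (nat_lit 76) (nat_lit 86024565084) (nat_lit 3) (nat_lit 4) (nat_lit 4) (nat_lit 5) (nat_lit 4) (nat_lit 4) (nat_lit 328) (nat_lit 264) (nat_lit 188))) (XT.nd (nat_lit 78) (nat_lit 0) (nat_lit 0) (XT.lf (nat_lit 0) (nat_lit 55475641209) (nat_lit 76) (nat_lit 103292150467) (nat_lit 76) (nat_lit 83114838855) (nat_lit 3) (nat_lit 4) (nat_lit 4) (nat_lit 5) (nat_lit 4) (nat_lit 4) (nat_lit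 329) (nat_lit 264) (nat_lit 187)) (XT.lf (nat_lit 0) (nat_lit 80247026404) (nat_lit 76) (nat_lit 100158312626) (nat_lit 76) (nat_lit 79977001003) (nat_lit 3) (nat_lit 4) (nat_lit 4) (nat_lit 5) (nat_lit 4) (nat_lit 4) (nat_lit 330) (nat_lit 264) (nat_lit 186))))) (XT.nd (nat_lit 312) (nat_lit 0) (nat_lit 0) (XT.nd (nat_lit 156) (nat_lit 0) (nat_lit 0) (XT.nd (nat_lit 78) (nat_lit 0) (nat_lit 0) (XT.lf (nat_lit 0) (nat_lit 106992419441) (nat_lit 76) (nat_lit 96777472270) (nat_lit 76) (nat_lit 76592456935) (nat_lit 3) (nat_lit 4) (nat_lit 4) (nat_lit 5) (nat_lit 4) (nat_lit 4) (nat_lit 331) (nat_lit 264) (nat_lit 185)) (XT.lf (nat_lit 0) (nat_lit 135870311537) (nat_lit 76) (nat_lit 93129594792) (nat_lit 76) (nat_lit 72941150093) (nat_lit 3) (nat_lit 4) (nat_lit 4) (nat_lit 5) (nat_lit 4) (nat_lit 4) (nat_lit 332) (nat_lit 264) (nat_lit 184))) (XT.nd (nat_lit 78) (nat_lit 0) (nat_lit 0)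 (XT.lf (nat_lit 0) (nat_lit 167051830943) (nat_lit 76) (nat_lit 89193063138) (nat_lit 76) (nat_lit 69001443102) (nat_lit 3) (nat_lit 4) (nat_lit 4) (nat_lit 5) (nat_lit 4) (nat_lit 4) (nat_lit 333) (nat_lit 264) (nat_lit 183)) (XT.lf (nat_lit 0) (nat_lit 200721757032) (nat_lit 76) (nat_lit 84944549715) (nat_lit 76) (nat_lit 64749989551) (nat_lit 3) (nat_lit 4) (nat_lit 4) (nat_lit 5) (nat_lit 4) (nat_lit 4) (nat_lit 334) (nat_lit 264) (nat_lit 182)))) (XT.nd (nat_lit 156) (nat_lit 0) (nat_lit 0) (XT.nd (nat_lit 78) (nat_lit 0) (nat_lit 0) (XT.lf (nat_lit 0) (nat_lit 237079615292) (nat_lit 76) (nat_lit 80358878145) (nat_lit 76) (nat_lit 60161595642) (nat_lit 3) (nat_lit 4) (nat_lit 4) (nat_lit 5) (nat_lit 4) (nat_lit 4) (nat_lit 335) (nat_lit 264) (nat_lit 181)) (XT.lf (nat_lit 0) (nat_lit 276340859698) (nat_lit 76) (nat_lit 75408874080) (nat_lit 76) (nat_lit 55209070892) (nat_lit 3)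 (nat_lit 4) (nat_lit 4) (nat_lit 5) (nat_lit 4) (nat_lit 4) (nat_lit 336) (nat_lit 264) (nat_lit 180))) (XT.nd (nat_lit 78) (nat_lit 0) (nat_lit 0) (XT.lf (nat_lit 0) (nat_lit 318738149476) (nat_lit 76) (nat_lit 70065204161) (nat_lit 76) (nat_lit 49863067006) (nat_lit 3) (nat_lit 4) (nat_lit 4) (nat_lit 5) (nat_lit 4) (nat_lit 4) (nat_lit 337) (nat_lit 264) (nat_lit 179)) (XT.lf (nat_lit 0) (nat_lit 364522727826) (nat_lit 76) (nat_lit 64296202197) (nat_lit 76) (nat_lit 44091903961) (nat_lit 3) (nat_lit 4) (nat_lit 4) (nat_lit 5) (nat_lit 4) (nat_lit 4) (nat_lit 338) (nat_lit 264) (nat_lit 178)))))) (XT.nd (nat_lit 624) (nat_lit 0) (nat_lit 0) (XT.nd (nat_lit 312) (nat_lit 152) (nat_lit 0) (XT.nd (nat_lit 156) (nat_lit 0) (nat_lit 0) (XT.nd (nat_lit 78) (nat_lit 0) (nat_lit 0) (XT.lf (nat_lit 0) (nat_lit 413965910766) (nat_lit 76) (nat_lit 58067681509) (nat_lit 76) (nat_lit 37861382272)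 (nat_lit 3) (nat_lit 4) (nat_lit 4) (nat_lit 5) (nat_lit 4) (nat_lit 4) (nat_lit 339) (nat_lit 264) (nat_lit 177)) (XT.lf (nat_lit 0) (nat_lit 467360694936) (nat_lit 76) (nat_lit 51342732346) (nat_lit 76) (nat_lit 31134580329) (nat_lit 3) (nat_lit 4) (nat_lit 4) (nat_lit 5) (nat_lit 4) (nat_lit 4) (nat_lit 340) (nat_lit 264) (nat_lit 176))) (XT.nd (nat_lit 78) (nat_lit 0) (nat_lit 0) (XT.lf (nat_lit 0) (nat_lit 525023493873) (nat_lit 76) (nat_lit 44081503155) (nat_lit 76) (nat_lit 23871635603) (nat_lit 3) (nat_lit 4) (nat_lit 4) (nat_lit 5) (nat_lit 4) (nat_lit 4) (nat_lit 341) (nat_lit 264) (nat_lit 175)) (XT.lf (nat_lit 0) (nat_lit 587296013051) (nat_lit 76) (nat_lit 36240964432) (nat_lit 76) (nat_lit 16029508421) (nat_lit 3) (nat_lit 4) (nat_lit 4) (nat_lit 5) (nat_lit 4) (nat_lit 4) (nat_lit 342) (nat_lit 264) (nat_lit 174)))) (XT.nd (nat_lit 156) (nat_lit 76) (nat_lit 0) (XT.nd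 (nat_lit 78) (nat_lit 76) (nat_lit 0) (XT.lf (nat_lit 0) (nat_lit 654547274807) (nat_lit 76) (nat_lit 27774653724) (nat_lit 76) (nat_lit 7561726917) (nat_lit 3) (nat_lit 4) (nat_lit 4) (nat_lit 5) (nat_lit 4) (nat_lit 4) (nat_lit 343) (nat_lit 264) (nat_lit 173)) (XT.lf (nat_lit 0) (nat_lit 1502755890) (nat_lit 152) (nat_lit 17088556402) (nat_lit 76) (nat_lit 725631961236) (nat_lit 2) (nat_lit 5) (nat_lit 4) (nat_lit 5) (nat_lit 3) (nat_lit 4) (nat_lit 344) (nat_lit 264) (nat_lit 172))) (XT.nd (nat_lit 78) (nat_lit 0) (nat_lit 0) (XT.lf (nat_lit 0) (nat_lit 2547420651) (nat_lit 76) (nat_lit 8396315057) (nat_lit 152) (nat_lit 791945824001) (nat_lit 1) (nat_lit 5) (nat_lit 2) (nat_lit 5) (nat_lit 3) (nat_lit 4) (nat_lit 345) (nat_lit 264) (nat_lit 171)) (XT.lf (nat_lit 0) (nat_lit 21680846994) (nat_lit 152) (nat_lit 841563369857) (nat_lit 0) (nat_lit 2961664412) (nat_lit 1) (nat_lit 5)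 (nat_lit 3) (nat_lit 4) (nat_lit 1) (nat_lit 4) (nat_lit 346) (nat_lit 264) (nat_lit 170))))) (XT.nd (nat_lit 312) (nat_lit 0) (nat_lit 0) (XT.nd (nat_lit 156) (nat_lit 0) (nat_lit 0) (XT.nd (nat_lit 78) (nat_lit 0) (nat_lit 0) (XT.lf (nat_lit 0) (nat_lit 33493728324) (nat_lit 152) (nat_lit 886302892050) (nat_lit 0) (nat_lit 14773544743) (nat_lit 1) (nat_lit 5) (nat_lit 3) (nat_lit 4) (nat_lit 1) (nat_lit 4) (nat_lit 347) (nat_lit 264) (nat_lit 169)) (XT.lf (nat_lit 0) (nat_lit 46250450380) (nat_lit 152) (nat_lit 934623897153) (nat_lit 0) (nat_lit 27529339948) (nat_lit 1) (nat_lit 5) (nat_lit 3) (nat_lit 4) (nat_lit 1) (nat_lit 4) (nat_lit 348) (nat_lit 264) (nat_lit 168))) (XT.nd (nat_lit 78) (nat_lit 0) (nat_lit 0) (XT.lf (nat_lit 0) (nat_lit 60026608551) (nat_lit 152) (nat_lit 986812731864) (nat_lit 0) (nat_lit 41304639924) (nat_lit 1) (nat_lit 5) (nat_lit 3) (nat_lit 4) (nat_lit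 1) (nat_lit 4) (nat_lit 349) (nat_lit 264) (nat_lit 167)) (XT.lf (nat_lit 0) (nat_lit 74903839331) (nat_lit 152) (nat_lit 1043178663352) (nat_lit 0) (nat_lit 56181076079) (nat_lit 1) (nat_lit 5) (nat_lit 3) (nat_lit 4) (nat_lit 1) (nat_lit 4) (nat_lit 350) (nat_lit 264) (nat_lit 166)))) (XT.nd (nat_lit 156) (nat_lit 0) (nat_lit 0) (XT.nd (nat_lit 78) (nat_lit 0) (nat_lit 0) (XT.lf (nat_lit 0) (nat_lit 90970304086) (nat_lit 152) (nat_lit 1104055711950) (nat_lit 0) (nat_lit 72246805070) (nat_lit 1) (nat_lit 5) (nat_lit 3) (nat_lit 4) (nat_lit 1) (nat_lit 4) (nat_lit 351) (nat_lit 264) (nat_lit 165)) (XT.lf (nat_lit 0) (nat_lit 108321211498) (nat_lit 152) (nat_lit 1169804630541) (nat_lit 0) (nat_lit 89597031219) (nat_lit 1) (nat_lit 5) (nat_lit 3) (nat_lit 4) (nat_lit 1) (nat_lit 4) (nat_lit 352) (nat_lit 264) (nat_lit 164))) (XT.nd (nat_lit 78) (nat_lit 0) (nat_lit 0) (XT.lf (nat_lit 0)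 (nat_lit 127059381758) (nat_lit 152) (nat_lit 1240815042344) (nat_lit 0) (nat_lit 108334570680) (nat_lit 1) (nat_lit 5) (nat_lit 3) (nat_lit 4) (nat_lit 1) (nat_lit 4) (nat_lit 353) (nat_lit 264) (nat_lit 163)) (XT.lf (nat_lit 0) (nat_lit 147295855874) (nat_lit 152) (nat_lit 1317507749800) (nat_lit 0) (nat_lit 128570460723) (nat_lit 1) (nat_lit 5) (nat_lit 3) (nat_lit 4) (nat_lit 1) (nat_lit 4) (nat_lit 354) (nat_lit 264) (nat_lit 162))))))))
noncomputable def xc58 : XT := (XT.nd (nat_lit 34866) (nat_lit 0) (nat_lit 456) (XT.nd (nat_lit 33696) (nat_lit 0) (nat_lit 2280) (XT.nd (nat_lit 546) (nat_lit 0) (nat_lit 0) (XT.nd (nat_lit 234) (nat_lit 0) (nat_lit 0) (XT.nd (nat_lit 78) (nat_lit 0) (nat_lit 0) (XT.lf (nat_lit 0) (nat_lit 169150553695) (nat_lit 152) (nat_lit 1400337228213) (nat_lit 0) (nat_lit 150424617735) (nat_lit 1) (nat_lit 5) (nat_lit 3) (nat_lit 4) (nat_lit 1) (nat_lit 4)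 (nat_lit 355) (nat_lit 264) (nat_lit 161)) (XT.nd (nat_lit 78) (nat_lit 0) (nat_lit 0) (XT.lf (nat_lit 0) (nat_lit 192752984539) (nat_lit 152) (nat_lit 1489794318936) (nat_lit 0) (nat_lit 174026547831) (nat_lit 1) (nat_lit 5) (nat_lit 3) (nat_lit 4) (nat_lit 1) (nat_lit 4) (nat_lit 356) (nat_lit 264) (nat_lit 160)) (XT.lf (nat_lit 0) (nat_lit 218243014664) (nat_lit 152) (nat_lit 1586409138062) (nat_lit 0) (nat_lit 199516114301) (nat_lit 1) (nat_lit 5) (nat_lit 3) (nat_lit 4) (nat_lit 1) (nat_lit 4) (nat_lit 357) (nat_lit 264) (nat_lit 159)))) (XT.nd (nat_lit 156) (nat_lit 0) (nat_lit 0) (XT.nd (nat_lit 78) (nat_lit 0) (nat_lit 0) (XT.lf (nat_lit 0) (nat_lit 245771696101) (nat_lit 152) (nat_lit 1690754217854) (nat_lit 0) (nat_lit 227044366426) (nat_lit 1) (nat_lit 5) (nat_lit 3) (nat_lit 4) (nat_lit 1) (nat_lit 4) (nat_lit 358) (nat_lit 264) (nat_lit 158)) (XT.lf (nat_lit 0) (nat_lit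 275502161776) (nat_lit 152) (nat_lit 1803447899523) (nat_lit 0) (nat_lit 256774434591) (nat_lit 1) (nat_lit 5) (nat_lit 3) (nat_lit 4) (nat_lit 1) (nat_lit 4) (nat_lit 359) (nat_lit 264) (nat_lit 157))) (XT.nd (nat_lit 78) (nat_lit 0) (nat_lit 0) (XT.lf (nat_lit 0) (nat_lit 307610592227) (nat_lit 152) (nat_lit 1925157997481) (nat_lit 0) (nat_lit 288882496976) (nat_lit 1) (nat_lit 5) (nat_lit 3) (nat_lit 4) (nat_lit 1) (nat_lit 4) (nat_lit 360) (nat_lit 264) (nat_lit 156)) (XT.lf (nat_lit 0) (nat_lit 342287259633) (nat_lit 152) (nat_lit 2056605756753) (nat_lit 0) (nat_lit 323558823582) (nat_lit 1) (nat_lit 5) (nat_lit 3) (nat_lit 4) (nat_lit 1) (nat_lit 4) (nat_lit 361) (nat_lit 264) (nat_lit 155))))) (XT.nd (nat_lit 312) (nat_lit 0) (nat_lit 0) (XT.nd (nat_lit 156) (nat_lit 0) (nat_lit 0) (XT.nd (nat_lit 78) (nat_lit 0) (nat_lit 0) (XT.lf (nat_lit 0) (nat_lit 379737655359) (nat_lit 152)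 (nat_lit 2198570127022) (nat_lit 0) (nat_lit 361008903751) (nat_lit 1) (nat_lit 5) (nat_lit 3) (nat_lit 4) (nat_lit 1) (nat_lit 4) (nat_lit 362) (nat_lit 264) (nat_lit 154)) (XT.lf (nat_lit 0) (nat_lit 420183707674) (nat_lit 152) (nat_lit 2351892378632) (nat_lit 0) (nat_lit 401454663883) (nat_lit 1) (nat_lit 5) (nat_lit 3) (nat_lit 4) (nat_lit 1) (nat_lit 4) (nat_lit 363) (nat_lit 264) (nat_lit 153))) (XT.nd (nat_lit 78) (nat_lit 0) (nat_lit 0) (XT.lf (nat_lit 0) (nat_lit 463865096888) (nat_lit 152) (nat_lit 2517481087887) (nat_lit 0) (nat_lit 445135782559) (nat_lit 1) (nat_lit 5) (nat_lit 3) (nat_lit 4) (nat_lit 1) (nat_lit 4) (nat_lit 364) (nat_lit 264) (nat_lit 152)) (XT.lf (nat_lit 0) (nat_lit 511040675678) (nat_lit 152) (nat_lit 2696317521214) (nat_lit 0) (nat_lit 492311110850) (nat_lit 1) (nat_lit 5) (nat_lit 3) (nat_lit 4) (nat_lit 1) (nat_lit 4) (nat_lit 365) (nat_lit 264) (nat_lit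 151)))) (XT.nd (nat_lit 156) (nat_lit 0) (nat_lit 0) (XT.nd (nat_lit 78) (nat_lit 0) (nat_lit 0) (XT.lf (nat_lit 0) (nat_lit 561990003031) (nat_lit 152) (nat_lit 2889461450068) (nat_lit 0) (nat_lit 543260206259) (nat_lit 1) (nat_lit 5) (nat_lit 3) (nat_lit 4) (nat_lit 1) (nat_lit 4) (nat_lit 366) (nat_lit 264) (nat_lit 150)) (XT.lf (nat_lit 0) (nat_lit 617015000885) (nat_lit 152) (nat_lit 3098057431066) (nat_lit 0) (nat_lit 598284989351) (nat_lit 1) (nat_lit 5) (nat_lit 3) (nat_lit 4) (nat_lit 1) (nat_lit 4) (nat_lit 367) (nat_lit 264) (nat_lit 149))) (XT.nd (nat_lit 32604) (nat_lit 0) (nat_lit 4180) (XT.lf (nat_lit 0) (nat_lit 676441743302) (nat_lit 152) (nat_lit 3323341588540) (nat_lit 0) (nat_lit 657711532914) (nat_lit 1) (nat_lit 5) (nat_lit 3) (nat_lit 4) (nat_lit 1) (nat_lit 4) (nat_lit 368) (nat_lit 264) (nat_lit 148)) (XT.lf (nat_lit 0) (nat_lit 1384083894) (nat_lit 380) (nat_lit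 1101197398) (nat_lit 380) (nat_lit 1101197398) (nat_lit 56) (nat_lit 3) (nat_lit 61) (nat_lit 3) (nat_lit 61) (nat_lit 5) (nat_lit 265) (nat_lit 265) (nat_lit 250)))))) (XT.nd (nat_lit 546) (nat_lit 1292) (nat_lit 0) (XT.nd (nat_lit 234) (nat_lit 304) (nat_lit 0) (XT.nd (nat_lit 78) (nat_lit 304) (nat_lit 0) (XT.lf (nat_lit 76) (nat_lit 1158835141) (nat_lit 0) (nat_lit 3268517816) (nat_lit 380) (nat_lit 2902340738) (nat_lit 57) (nat_lit 5) (nat_lit 56) (nat_lit 3) (nat_lit 61) (nat_lit 5) (nat_lit 266) (nat_lit 265) (nat_lit 249)) (XT.nd (nat_lit 78) (nat_lit 304) (nat_lit 0) (XT.lf (nat_lit 76) (nat_lit 4827406380) (nat_lit 0) (nat_lit 1297864189) (nat_lit 380) (nat_lit 1381849370) (nat_lit 57) (nat_lit 5) (nat_lit 56) (nat_lit 3) (nat_lit 61) (nat_lit 5) (nat_lit 267) (nat_lit 265) (nat_lit 248)) (XT.lf (nat_lit 0) (nat_lit 147605133) (nat_lit 380) (nat_lit 6682485672) (nat_lit 456)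 (nat_lit 876662000) (nat_lit 52) (nat_lit 5) (nat_lit 57) (nat_lit 5) (nat_lit 58) (nat_lit 5) (nat_lit 268) (nat_lit 265) (nat_lit 247)))) (XT.nd (nat_lit 156) (nat_lit 304) (nat_lit 0) (XT.nd (nat_lit 78) (nat_lit 0) (nat_lit 0) (XT.lf (nat_lit 0) (nat_lit 1696643610) (nat_lit 380) (nat_lit 2910262722) (nat_lit 456) (nat_lit 3315328702) (nat_lit 52) (nat_lit 5) (nat_lit 57) (nat_lit 5) (nat_lit 58) (nat_lit 5) (nat_lit 269) (nat_lit 265) (nat_lit 246)) (XT.lf (nat_lit 76) (nat_lit 1128304675) (nat_lit 0) (nat_lit 2141585712) (nat_lit 456) (nat_lit 4893506316) (nat_lit 53) (nat_lit 5) (nat_lit 52) (nat_lit 5) (nat_lit 58) (nat_lit 5) (nat_lit 270) (nat_lit 265) (nat_lit 245))) (XT.nd (nat_lit 78) (nat_lit 380) (nat_lit 0) (XT.lf (nat_lit 0) (nat_lit 4944279587) (nat_lit 380) (nat_lit 2876885447) (nat_lit 76) (nat_lit 605092992) (nat_lit 53) (nat_lit 5) (nat_lit 58) (nat_lit 5) (nat_lit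 54) (nat_lit 5) (nat_lit 271) (nat_lit 265) (nat_lit 244)) (XT.lf (nat_lit 0) (nat_lit 1542679959) (nat_lit 380) (nat_lit 5192588377) (nat_lit 456) (nat_lit 1976665579) (nat_lit 48) (nat_lit 5) (nat_lit 53) (nat_lit 5) (nat_lit 54) (nat_lit 5) (nat_lit 272) (nat_lit 265) (nat_lit 243))))) (XT.nd (nat_lit 312) (nat_lit 532) (nat_lit 0) (XT.nd (nat_lit 156) (nat_lit 228) (nat_lit 0) (XT.nd (nat_lit 78) (nat_lit 532) (nat_lit 0) (XT.lf (nat_lit 0) (nat_lit 6388928889) (nat_lit 380) (nat_lit 2255165389) (nat_lit 456) (nat_lit 378773035) (nat_lit 48) (nat_lit 5) (nat_lit 53) (nat_lit 5) (nat_lit 54) (nat_lit 5) (nat_lit 273) (nat_lit 265) (nat_lit 242)) (XT.lf (nat_lit 0) (nat_lit 1259141614) (nat_lit 532) (nat_lit 7129248043) (nat_lit 76) (nat_lit 969644110) (nat_lit 41) (nat_lit 5) (nat_lit 48) (nat_lit 5) (nat_lit 42) (nat_lit 5) (nat_lit 274) (nat_lit 265) (nat_lit 241))) (XT.nd (nat_lit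 78) (nat_lit 228) (nat_lit 0) (XT.lf (nat_lit 0) (nat_lit 3046292639) (nat_lit 532) (nat_lit 2249257715) (nat_lit 76) (nat_lit 4420874981) (nat_lit 41) (nat_lit 5) (nat_lit 48) (nat_lit 5) (nat_lit 42) (nat_lit 5) (nat_lit 275) (nat_lit 265) (nat_lit 240)) (XT.lf (nat_lit 0) (nat_lit 3087582270) (nat_lit 228) (nat_lit 1876241714) (nat_lit 304) (nat_lit 5140942137) (nat_lit 38) (nat_lit 5) (nat_lit 41) (nat_lit 5) (nat_lit 42) (nat_lit 5) (nat_lit 276) (nat_lit 265) (nat_lit 239)))) (XT.nd (nat_lit 156) (nat_lit 304) (nat_lit 0) (XT.nd (nat_lit 78) (nat_lit 228) (nat_lit 0) (XT.lf (nat_lit 0) (nat_lit 7058986275) (nat_lit 304) (nat_lit 1677798925) (nat_lit 76) (nat_lit 1785701209) (nat_lit 38) (nat_lit 5) (nat_lit 42) (nat_lit 5) (nat_lit 39) (nat_lit 5) (nat_lit 277) (nat_lit 265) (nat_lit 238)) (XT.lf (nat_lit 0) (nat_lit 4162541090) (nat_lit 228) (nat_lit 5231621392) (nat_lit 304)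 (nat_lit 1573901719) (nat_lit 35) (nat_lit 5) (nat_lit 38) (nat_lit 5) (nat_lit 39) (nat_lit 5) (nat_lit 278) (nat_lit 265) (nat_lit 237))) (XT.nd (nat_lit 78) (nat_lit 228) (nat_lit 0) (XT.lf (nat_lit 0) (nat_lit 415692879) (nat_lit 304) (nat_lit 980173740) (nat_lit 76) (nat_lit 10054947592) (nat_lit 34) (nat_lit 5) (nat_lit 38) (nat_lit 5) (nat_lit 35) (nat_lit 5) (nat_lit 279) (nat_lit 265) (nat_lit 236)) (XT.lf (nat_lit 0) (nat_lit 2611707442) (nat_lit 304) (nat_lit 6571977811) (nat_lit 76) (nat_lit 2774829941) (nat_lit 31) (nat_lit 5) (nat_lit 35) (nat_lit 5) (nat_lit 32) (nat_lit 5) (nat_lit 280) (nat_lit 265) (nat_lit 235))))))) (XT.nd (nat_lit 1170) (nat_lit 760) (nat_lit 0) (XT.nd (nat_lit 546) (nat_lit 380) (nat_lit 0) (XT.nd (nat_lit 234) (nat_lit 380) (nat_lit 0) (XT.nd (nat_lit 78) (nat_lit 304) (nat_lit 0) (XT.lf (nat_lit 0) (nat_lit 4980739729) (nat_lit 304) (nat_lit 307571334)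 (nat_lit 76) (nat_lit 7218904764) (nat_lit 31) (nat_lit 5) (nat_lit 35) (nat_lit 5) (nat_lit 32) (nat_lit 5) (nat_lit 281) (nat_lit 265) (nat_lit 234)) (XT.nd (nat_lit 78) (nat_lit 152) (nat_lit 0) (XT.lf (nat_lit 0) (nat_lit 6715927569) (nat_lit 152) (nat_lit 923389416) (nat_lit 228) (nat_lit 5452651598) (nat_lit 29) (nat_lit 5) (nat_lit 31) (nat_lit 5) (nat_lit 32) (nat_lit 5) (nat_lit 282) (nat_lit 265) (nat_lit 233)) (XT.lf (nat_lit 0) (nat_lit 446441631) (nat_lit 152) (nat_lit 10115485904) (nat_lit 228) (nat_lit 3157612428) (nat_lit 27) (nat_lit 5) (nat_lit 29) (nat_lit 5) (nat_lit 30) (nat_lit 5) (nat_lit 283) (nat_lit 265) (nat_lit 232)))) (XT.nd (nat_lit 156) (nat_lit 152) (nat_lit 0) (XT.nd (nat_lit 78) (nat_lit 228) (nat_lit 0) (XT.lf (nat_lit 0) (nat_lit 8073649086) (nat_lit 152) (nat_lit 5785719839) (nat_lit 228) (nat_lit 526801714) (nat_lit 27) (nat_lit 5) (nat_lit 29) (nat_lit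 5) (nat_lit 30) (nat_lit 5) (nat_lit 284) (nat_lit 265) (nat_lit 231)) (XT.lf (nat_lit 0) (nat_lit 1130189234) (nat_lit 152) (nat_lit 1041715805) (nat_lit 228) (nat_lit 12932032870) (nat_lit 24) (nat_lit 5) (nat_lit 26) (nat_lit 5) (nat_lit 27) (nat_lit 5) (nat_lit 285) (nat_lit 265) (nat_lit 230))) (XT.nd (nat_lit 78) (nat_lit 152) (nat_lit 0) (XT.lf (nat_lit 0) (nat_lit 5281021585) (nat_lit 228) (nat_lit 6531728805) (nat_lit 76) (nat_lit 4047551019) (nat_lit 24) (nat_lit 5) (nat_lit 27) (nat_lit 5) (nat_lit 25) (nat_lit 5) (nat_lit 286) (nat_lit 265) (nat_lit 229)) (XT.lf (nat_lit 0) (nat_lit 1481022872) (nat_lit 152) (nat_lit 7172120870) (nat_lit 228) (nat_lit 8022987628) (nat_lit 22) (nat_lit 5) (nat_lit 24) (nat_lit 5) (nat_lit 25) (nat_lit 5) (nat_lit 287) (nat_lit 265) (nat_lit 228))))) (XT.nd (nat_lit 312) (nat_lit 76) (nat_lit 0) (XT.nd (nat_lit 156) (nat_lit 228) (nat_lit 0)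 (XT.nd (nat_lit 78) (nat_lit 76) (nat_lit 0) (XT.lf (nat_lit 0) (nat_lit 10436415050) (nat_lit 152) (nat_lit 1990715168) (nat_lit 228) (nat_lit 5119622058) (nat_lit 22) (nat_lit 5) (nat_lit 24) (nat_lit 5) (nat_lit 25) (nat_lit 5) (nat_lit 288) (nat_lit 265) (nat_lit 227)) (XT.lf (nat_lit 0) (nat_lit 1544070702) (nat_lit 76) (nat_lit 15039234632) (nat_lit 152) (nat_lit 1897381233) (nat_lit 21) (nat_lit 5) (nat_lit 22) (nat_lit 5) (nat_lit 23) (nat_lit 4) (nat_lit 289) (nat_lit 265) (nat_lit 226))) (XT.nd (nat_lit 78) (nat_lit 152) (nat_lit 0) (XT.lf (nat_lit 0) (nat_lit 1711540945) (nat_lit 152) (nat_lit 8341708820) (nat_lit 76) (nat_lit 9416468191) (nat_lit 20) (nat_lit 5) (nat_lit 22) (nat_lit 5) (nat_lit 21) (nat_lit 5) (nat_lit 290) (nat_lit 265) (nat_lit 225)) (XT.lf (nat_lit 0) (nat_lit 871873330) (nat_lit 152) (nat_lit 4615862787) (nat_lit 228) (nat_lit 15047775467) (nat_lit 18)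 (nat_lit 5) (nat_lit 20) (nat_lit 5) (nat_lit 21) (nat_lit 5) (nat_lit 291) (nat_lit 265) (nat_lit 224)))) (XT.nd (nat_lit 156) (nat_lit 76) (nat_lit 0) (XT.nd (nat_lit 78) (nat_lit 0) (nat_lit 0) (XT.lf (nat_lit 0) (nat_lit 9791260408) (nat_lit 228) (nat_lit 10471750153) (nat_lit 76) (nat_lit 1405602151) (nat_lit 18) (nat_lit 5) (nat_lit 21) (nat_lit 5) (nat_lit 19) (nat_lit 4) (nat_lit 292) (nat_lit 265) (nat_lit 223)) (XT.lf (nat_lit 0) (nat_lit 14522860204) (nat_lit 228) (nat_lit 723872750) (nat_lit 76) (nat_lit 7638983539) (nat_lit 18) (nat_lit 5) (nat_lit 21) (nat_lit 5) (nat_lit 19) (nat_lit 4) (nat_lit 293) (nat_lit 265) (nat_lit 222))) (XT.nd (nat_lit 78) (nat_lit 0) (nat_lit 0) (XT.lf (nat_lit 0) (nat_lit 10262123756) (nat_lit 76) (nat_lit 9584243570) (nat_lit 152) (nat_lit 4336804650) (nat_lit 17) (nat_lit 5) (nat_lit 18) (nat_lit 5) (nat_lit 19) (nat_lit 4) (nat_lit 294)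 (nat_lit 265) (nat_lit 221)) (XT.lf (nat_lit 0) (nat_lit 22114497216) (nat_lit 76) (nat_lit 3468809945) (nat_lit 152) (nat_lit 2162331) (nat_lit 17) (nat_lit 5) (nat_lit 18) (nat_lit 5) (nat_lit 19) (nat_lit 4) (nat_lit 295) (nat_lit 265) (nat_lit 220)))))) (XT.nd (nat_lit 624) (nat_lit 304) (nat_lit 0) (XT.nd (nat_lit 312) (nat_lit 152) (nat_lit 0) (XT.nd (nat_lit 156) (nat_lit 76) (nat_lit 0) (XT.nd (nat_lit 78) (nat_lit 0) (nat_lit 0) (XT.lf (nat_lit 0) (nat_lit 4691081558) (nat_lit 228) (nat_lit 19106701259) (nat_lit 76) (nat_lit 3273535347) (nat_lit 14) (nat_lit 5) (nat_lit 17) (nat_lit 5) (nat_lit 15) (nat_lit 4) (nat_lit 296) (nat_lit 265) (nat_lit 219)) (XT.lf (nat_lit 0) (nat_lit 9917040148) (nat_lit 228) (nat_lit 8300580243) (nat_lit 76) (nat_lit 10445859590) (nat_lit 14) (nat_lit 5) (nat_lit 17) (nat_lit 5) (nat_lit 15) (nat_lit 4) (nat_lit 297) (nat_lit 265) (nat_lit 218)))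 (XT.nd (nat_lit 78) (nat_lit 0) (nat_lit 0) (XT.lf (nat_lit 0) (nat_lit 3496837850) (nat_lit 76) (nat_lit 12120471347) (nat_lit 152) (nat_lit 14761243424) (nat_lit 13) (nat_lit 5) (nat_lit 14) (nat_lit 5) (nat_lit 15) (nat_lit 4) (nat_lit 298) (nat_lit 265) (nat_lit 217)) (XT.lf (nat_lit 0) (nat_lit 16663210341) (nat_lit 76) (nat_lit 5310412878) (nat_lit 152) (nat_lit 10241239847) (nat_lit 13) (nat_lit 5) (nat_lit 14) (nat_lit 5) (nat_lit 15) (nat_lit 4) (nat_lit 299) (nat_lit 265) (nat_lit 216)))) (XT.nd (nat_lit 156) (nat_lit 0) (nat_lit 0) (XT.nd (nat_lit 78) (nat_lit 152) (nat_lit 0) (XT.lf (nat_lit 0) (nat_lit 28862232335) (nat_lit 152) (nat_lit 3409362472) (nat_lit 0) (nat_lit 1924611702) (nat_lit 13) (nat_lit 5) (nat_lit 15) (nat_lit 4) (nat_lit 13) (nat_lit 4) (nat_lit 300) (nat_lit 265) (nat_lit 215)) (XT.lf (nat_lit 0) (nat_lit 332353200) (nat_lit 152) (nat_lit 26289796763)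 (nat_lit 76) (nat_lit 9684818151) (nat_lit 11) (nat_lit 5) (nat_lit 13) (nat_lit 5) (nat_lit 12) (nat_lit 4) (nat_lit 301) (nat_lit 265) (nat_lit 214))) (XT.nd (nat_lit 78) (nat_lit 0) (nat_lit 0) (XT.lf (nat_lit 0) (nat_lit 6236101429) (nat_lit 152) (nat_lit 14050251177) (nat_lit 76) (nat_lit 18283396330) (nat_lit 11) (nat_lit 5) (nat_lit 13) (nat_lit 5) (nat_lit 12) (nat_lit 4) (nat_lit 302) (nat_lit 265) (nat_lit 213)) (XT.lf (nat_lit 0) (nat_lit 12590527808) (nat_lit 152) (nat_lit 870313504) (nat_lit 76) (nat_lit 27554463699) (nat_lit 11) (nat_lit 5) (nat_lit 13) (nat_lit 5) (nat_lit 12) (nat_lit 4) (nat_lit 303) (nat_lit 265) (nat_lit 212))))) (XT.nd (nat_lit 312) (nat_lit 152) (nat_lit 0) (XT.nd (nat_lit 156) (nat_lit 76) (nat_lit 0) (XT.nd (nat_lit 78) (nat_lit 0) (nat_lit 0) (XT.lf (nat_lit 0) (nat_lit 14029954747) (nat_lit 76) (nat_lit 5740754198) (nat_lit 152) (nat_lit 23860425919)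 (nat_lit 10) (nat_lit 5) (nat_lit 11) (nat_lit 5) (nat_lit 12) (nat_lit 4) (nat_lit 304) (nat_lit 265) (nat_lit 211)) (XT.lf (nat_lit 0) (nat_lit 27592420900) (nat_lit 152) (nat_lit 16381847344) (nat_lit 0) (nat_lit 2476613319) (nat_lit 10) (nat_lit 5) (nat_lit 12) (nat_lit 4) (nat_lit 10) (nat_lit 4) (nat_lit 305) (nat_lit 265) (nat_lit 210))) (XT.nd (nat_lit 78) (nat_lit 76) (nat_lit 0) (XT.lf (nat_lit 0) (nat_lit 36170689449) (nat_lit 152) (nat_lit 2287583378) (nat_lit 0) (nat_lit 11027487897) (nat_lit 10) (nat_lit 5) (nat_lit 12) (nat_lit 4) (nat_lit 10) (nat_lit 4) (nat_lit 306) (nat_lit 265) (nat_lit 209)) (XT.lf (nat_lit 0) (nat_lit 13582658191) (nat_lit 76) (nat_lit 32162288564) (nat_lit 76) (nat_lit 6993722224) (nat_lit 9) (nat_lit 4) (nat_lit 10) (nat_lit 5) (nat_lit 10) (nat_lit 4) (nat_lit 307) (nat_lit 265) (nat_lit 208)))) (XT.nd (nat_lit 156) (nat_lit 76) (nat_lit 0) (XT.nd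 (nat_lit 78) (nat_lit 76) (nat_lit 0) (XT.lf (nat_lit 0) (nat_lit 30822378289) (nat_lit 76) (nat_lit 25308904259) (nat_lit 76) (nat_lit 116852004) (nat_lit 9) (nat_lit 4) (nat_lit 10) (nat_lit 5) (nat_lit 10) (nat_lit 4) (nat_lit 308) (nat_lit 265) (nat_lit 207)) (XT.lf (nat_lit 0) (nat_lit 6928881979) (nat_lit 152) (nat_lit 10801723955) (nat_lit 76) (nat_lit 42294948242) (nat_lit 8) (nat_lit 5) (nat_lit 10) (nat_lit 5) (nat_lit 9) (nat_lit 4) (nat_lit 309) (nat_lit 265) (nat_lit 206))) (XT.nd (nat_lit 78) (nat_lit 0) (nat_lit 0) (XT.lf (nat_lit 0) (nat_lit 5223815109) (nat_lit 76) (nat_lit 9419333432) (nat_lit 152) (nat_lit 49452893520) (nat_lit 7) (nat_lit 5) (nat_lit 8) (nat_lit 5) (nat_lit 9) (nat_lit 4) (nat_lit 310) (nat_lit 265) (nat_lit 205)) (XT.lf (nat_lit 0) (nat_lit 23119679687) (nat_lit 76) (nat_lit 136213303) (nat_lit 152) (nat_lit 45213780593) (nat_lit 7) (nat_lit 5) (nat_lit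 8) (nat_lit 5) (nat_lit 9) (nat_lit 4) (nat_lit 311) (nat_lit 265) (nat_lit 204))))))))
noncomputable def xc59 : XT := (XT.nd (nat_lit 2418) (nat_lit 152) (nat_lit 0) (XT.nd (nat_lit 1170) (nat_lit 76) (nat_lit 0) (XT.nd (nat_lit 546) (nat_lit 152) (nat_lit 0) (XT.nd (nat_lit 234) (nat_lit 0) (nat_lit 0) (XT.nd (nat_lit 78) (nat_lit 76) (nat_lit 0) (XT.lf (nat_lit 0) (nat_lit 32782268860) (nat_lit 152) (nat_lit 31008700176) (nat_lit 0) (nat_lit 9384268320) (nat_lit 7) (nat_lit 5) (nat_lit 9) (nat_lit 4) (nat_lit 7) (nat_lit 4) (nat_lit 312) (nat_lit 265) (nat_lit 203)) (XT.nd (nat_lit 78) (nat_lit 76) (nat_lit 0) (XT.lf (nat_lit 0) (nat_lit 43062040763) (nat_lit 152) (nat_lit 15546672364) (nat_lit 0) (nat_lit 19649240113) (nat_lit 7) (nat_lit 5) (nat_lit 9) (nat_lit 4) (nat_lit 7) (nat_lit 4) (nat_lit 313) (nat_lit 265) (nat_lit 202)) (XT.lf (nat_lit 0) (nat_lit 1190548355) (nat_lit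 76) (nat_lit 52990934295) (nat_lit 76) (nat_lit 29564429840) (nat_lit 6) (nat_lit 4) (nat_lit 7) (nat_lit 5) (nat_lit 7) (nat_lit 4) (nat_lit 314) (nat_lit 265) (nat_lit 201)))) (XT.nd (nat_lit 156) (nat_lit 0) (nat_lit 0) (XT.nd (nat_lit 78) (nat_lit 0) (nat_lit 0) (XT.lf (nat_lit 0) (nat_lit 20130114278) (nat_lit 76) (nat_lit 46474435139) (nat_lit 76) (nat_lit 23035241975) (nat_lit 6) (nat_lit 4) (nat_lit 7) (nat_lit 5) (nat_lit 7) (nat_lit 4) (nat_lit 315) (nat_lit 265) (nat_lit 200)) (XT.lf (nat_lit 0) (nat_lit 40565599656) (nat_lit 76) (nat_lit 39445672941) (nat_lit 76) (nat_lit 15994730973) (nat_lit 6) (nat_lit 4) (nat_lit 7) (nat_lit 5) (nat_lit 7) (nat_lit 4) (nat_lit 316) (nat_lit 265) (nat_lit 199))) (XT.nd (nat_lit 78) (nat_lit 0) (nat_lit 0) (XT.lf (nat_lit 0) (nat_lit 62618103660) (nat_lit 76) (nat_lit 31862995778) (nat_lit 76) (nat_lit 8401175287) (nat_lit 6) (nat_lit 4)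 (nat_lit 7) (nat_lit 5) (nat_lit 7) (nat_lit 4) (nat_lit 317) (nat_lit 265) (nat_lit 198)) (XT.lf (nat_lit 0) (nat_lit 86418307796) (nat_lit 76) (nat_lit 23681469265) (nat_lit 76) (nat_lit 209576068) (nat_lit 6) (nat_lit 4) (nat_lit 7) (nat_lit 5) (nat_lit 7) (nat_lit 4) (nat_lit 318) (nat_lit 265) (nat_lit 197))))) (XT.nd (nat_lit 312) (nat_lit 0) (nat_lit 0) (XT.nd (nat_lit 156) (nat_lit 0) (nat_lit 0) (XT.nd (nat_lit 78) (nat_lit 76) (nat_lit 0) (XT.lf (nat_lit 0) (nat_lit 8196971500) (nat_lit 152) (nat_lit 6431519056) (nat_lit 76) (nat_lit 103686159082) (nat_lit 5) (nat_lit 5) (nat_lit 7) (nat_lit 5) (nat_lit 6) (nat_lit 4) (nat_lit 319) (nat_lit 265) (nat_lit 196)) (XT.lf (nat_lit 0) (nat_lit 13057982465) (nat_lit 76) (nat_lit 4513093479) (nat_lit 152) (nat_lit 109364355333) (nat_lit 4) (nat_lit 5) (nat_lit 5) (nat_lit 5) (nat_lit 6) (nat_lit 4) (nat_lit 320) (nat_lit 265) (nat_lit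 195))) (XT.nd (nat_lit 78) (nat_lit 0) (nat_lit 0) (XT.lf (nat_lit 0) (nat_lit 28022100350) (nat_lit 152) (nat_lit 101932790307) (nat_lit 0) (nat_lit 6264830407) (nat_lit 4) (nat_lit 5) (nat_lit 6) (nat_lit 4) (nat_lit 4) (nat_lit 4) (nat_lit 321) (nat_lit 265) (nat_lit 194)) (XT.lf (nat_lit 0) (nat_lit 39419371942) (nat_lit 152) (nat_lit 89163326769) (nat_lit 0) (nat_lit 17655246684) (nat_lit 4) (nat_lit 5) (nat_lit 6) (nat_lit 4) (nat_lit 4) (nat_lit 4) (nat_lit 322) (nat_lit 265) (nat_lit 193)))) (XT.nd (nat_lit 156) (nat_lit 0) (nat_lit 0) (XT.nd (nat_lit 78) (nat_lit 0) (nat_lit 0) (XT.lf (nat_lit 0) (nat_lit 51721890099) (nat_lit 152) (nat_lit 75384847297) (nat_lit 0) (nat_lit 29951417328) (nat_lit 4) (nat_lit 5) (nat_lit 6) (nat_lit 4) (nat_lit 4) (nat_lit 4) (nat_lit 323) (nat_lit 265) (nat_lit 192)) (XT.lf (nat_lit 0) (nat_lit 65002558634) (nat_lit 152) (nat_lit 60515701643)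 (nat_lit 0) (nat_lit 43226208536) (nat_lit 4) (nat_lit 5) (nat_lit 6) (nat_lit 4) (nat_lit 4) (nat_lit 4) (nat_lit 324) (nat_lit 265) (nat_lit 191))) (XT.nd (nat_lit 78) (nat_lit 0) (nat_lit 0) (XT.lf (nat_lit 0) (nat_lit 79340077805) (nat_lit 152) (nat_lit 44467776350) (nat_lit 0) (nat_lit 57558285737) (nat_lit 4) (nat_lit 5) (nat_lit 6) (nat_lit 4) (nat_lit 4) (nat_lit 4) (nat_lit 325) (nat_lit 265) (nat_lit 190)) (XT.lf (nat_lit 0) (nat_lit 94819410687) (nat_lit 152) (nat_lit 27145972602) (nat_lit 0) (nat_lit 73032579758) (nat_lit 4) (nat_lit 5) (nat_lit 6) (nat_lit 4) (nat_lit 4) (nat_lit 4) (nat_lit 326) (nat_lit 265) (nat_lit 189)))))) (XT.nd (nat_lit 624) (nat_lit 0) (nat_lit 0) (XT.nd (nat_lit 312) (nat_lit 0) (nat_lit 0) (XT.nd (nat_lit 156) (nat_lit 0) (nat_lit 0) (XT.nd (nat_lit 78) (nat_lit 76) (nat_lit 0) (XT.lf (nat_lit 0) (nat_lit 111532286662) (nat_lit 152) (nat_lit 8447642674)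 (nat_lit 0) (nat_lit 89740790121) (nat_lit 4) (nat_lit 5) (nat_lit 6) (nat_lit 4) (nat_lit 4) (nat_lit 4) (nat_lit 327) (nat_lit 265) (nat_lit 188)) (XT.lf (nat_lit 0) (nat_lit 12356121597) (nat_lit 76) (nat_lit 117518788417) (nat_lit 76) (nat_lit 95722971865) (nat_lit 3) (nat_lit 4) (nat_lit 4) (nat_lit 5) (nat_lit 4) (nat_lit 4) (nat_lit 328) (nat_lit 265) (nat_lit 187))) (XT.nd (nat_lit 78) (nat_lit 0) (nat_lit 0) (XT.lf (nat_lit 0) (nat_lit 35296292723) (nat_lit 76) (nat_lit 114615305696) (nat_lit 76) (nat_lit 92815489134) (nat_lit 3) (nat_lit 4) (nat_lit 4) (nat_lit 5) (nat_lit 4) (nat_lit 4) (nat_lit 329) (nat_lit 265) (nat_lit 186)) (XT.lf (nat_lit 0) (nat_lit 60063974566) (nat_lit 76) (nat_lit 111483248871) (nat_lit 76) (nat_lit 89679728595) (nat_lit 3) (nat_lit 4) (nat_lit 4) (nat_lit 5) (nat_lit 4) (nat_lit 4) (nat_lit 330) (nat_lit 265) (nat_lit 185)))) (XT.nd (nat_lit 156)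 (nat_lit 0) (nat_lit 0) (XT.nd (nat_lit 78) (nat_lit 0) (nat_lit 0) (XT.lf (nat_lit 0) (nat_lit 86805938572) (nat_lit 76) (nat_lit 108104057604) (nat_lit 76) (nat_lit 86297107965) (nat_lit 3) (nat_lit 4) (nat_lit 4) (nat_lit 5) (nat_lit 4) (nat_lit 4) (nat_lit 331) (nat_lit 265) (nat_lit 184)) (XT.lf (nat_lit 0) (nat_lit 115680655640) (nat_lit 76) (nat_lit 104457707060) (nat_lit 76) (nat_lit 82647582084) (nat_lit 3) (nat_lit 4) (nat_lit 4) (nat_lit 5) (nat_lit 4) (nat_lit 4) (nat_lit 332) (nat_lit 265) (nat_lit 183))) (XT.nd (nat_lit 78) (nat_lit 0) (nat_lit 0) (XT.lf (nat_lit 0) (nat_lit 146859235205) (nat_lit 76) (nat_lit 100522589235) (nat_lit 76) (nat_lit 78709524131) (nat_lit 3) (nat_lit 4) (nat_lit 4) (nat_lit 5) (nat_lit 4) (nat_lit 4) (nat_lit 333) (nat_lit 265) (nat_lit 182)) (XT.lf (nat_lit 0) (nat_lit 180526439219) (nat_lit 76) (nat_lit 96275384911) (nat_lit 76) (nat_lit 74459597468)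 (nat_lit 3) (nat_lit 4) (nat_lit 4) (nat_lit 5) (nat_lit 4) (nat_lit 4) (nat_lit 334) (nat_lit 265) (nat_lit 181))))) (XT.nd (nat_lit 312) (nat_lit 0) (nat_lit 0) (XT.nd (nat_lit 156) (nat_lit 0) (nat_lit 0) (XT.nd (nat_lit 78) (nat_lit 0) (nat_lit 0) (XT.lf (nat_lit 0) (nat_lit 216881777039) (nat_lit 76) (nat_lit 91690925471) (nat_lit 76) (nat_lit 69872617343) (nat_lit 3) (nat_lit 4) (nat_lit 4) (nat_lit 5) (nat_lit 4) (nat_lit 4) (nat_lit 335) (nat_lit 265) (nat_lit 180)) (XT.lf (nat_lit 0) (nat_lit 256140687705) (nat_lit 76) (nat_lit 86742043748) (nat_lit 76) (nat_lit 64921401653) (nat_lit 3) (nat_lit 4) (nat_lit 4) (nat_lit 5) (nat_lit 4) (nat_lit 4) (nat_lit 336) (nat_lit 265) (nat_lit 179))) (XT.nd (nat_lit 78) (nat_lit 0) (nat_lit 0) (XT.lf (nat_lit 0) (nat_lit 298535816612) (nat_lit 76) (nat_lit 81399413035) (nat_lit 76) (nat_lit 59576609859) (nat_lit 3) (nat_lit 4) (nat_lit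 4) (nat_lit 5) (nat_lit 4) (nat_lit 4) (nat_lit 337) (nat_lit 265) (nat_lit 178)) (XT.lf (nat_lit 0) (nat_lit 344318394156) (nat_lit 76) (nat_lit 75631373299) (nat_lit 76) (nat_lit 53806569121) (nat_lit 3) (nat_lit 4) (nat_lit 4) (nat_lit 5) (nat_lit 4) (nat_lit 4) (nat_lit 338) (nat_lit 265) (nat_lit 177)))) (XT.nd (nat_lit 156) (nat_lit 0) (nat_lit 0) (XT.nd (nat_lit 78) (nat_lit 0) (nat_lit 0) (XT.lf (nat_lit 0) (nat_lit 393759724497) (nat_lit 76) (nat_lit 69403743563) (nat_lit 76) (nat_lit 47577086606) (nat_lit 3) (nat_lit 4) (nat_lit 4) (nat_lit 5) (nat_lit 4) (nat_lit 4) (nat_lit 339) (nat_lit 265) (nat_lit 176)) (XT.lf (nat_lit 0) (nat_lit 447152793299) (nat_lit 76) (nat_lit 62679619354) (nat_lit 76) (nat_lit 40851246862) (nat_lit 3) (nat_lit 4) (nat_lit 4) (nat_lit 5) (nat_lit 4) (nat_lit 4) (nat_lit 340) (nat_lit 265) (nat_lit 175))) (XT.nd (nat_lit 78) (nat_lit 0) (nat_lit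 0) (XT.lf (nat_lit 0) (nat_lit 504814003931) (nat_lit 76) (nat_lit 55419154011) (nat_lit 76) (nat_lit 33589193059) (nat_lit 3) (nat_lit 4) (nat_lit 4) (nat_lit 5) (nat_lit 4) (nat_lit 4) (nat_lit 341) (nat_lit 265) (nat_lit 174)) (XT.lf (nat_lit 0) (nat_lit 567085052457) (nat_lit 76) (nat_lit 47579322553) (nat_lit 76) (nat_lit 25747890807) (nat_lit 3) (nat_lit 4) (nat_lit 4) (nat_lit 5) (nat_lit 4) (nat_lit 4) (nat_lit 342) (nat_lit 265) (nat_lit 173))))))) (XT.nd (nat_lit 1170) (nat_lit 0) (nat_lit 0) (XT.nd (nat_lit 546) (nat_lit 0) (nat_lit 0) (XT.nd (nat_lit 234) (nat_lit 76) (nat_lit 0) (XT.nd (nat_lit 78) (nat_lit 76) (nat_lit 0) (XT.lf (nat_lit 0) (nat_lit 634334952497) (nat_lit 76) (nat_lit 39113666721) (nat_lit 76) (nat_lit 17280873127) (nat_lit 3) (nat_lit 4) (nat_lit 4) (nat_lit 5) (nat_lit 4) (nat_lit 4) (nat_lit 343) (nat_lit 265) (nat_lit 172)) (XT.nd (nat_lit 78) (nat_lit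 76) (nat_lit 0) (XT.lf (nat_lit 0) (nat_lit 706962221978) (nat_lit 76) (nat_lit 29972019666) (nat_lit 76) (nat_lit 8137965101) (nat_lit 3) (nat_lit 4) (nat_lit 4) (nat_lit 5) (nat_lit 4) (nat_lit 4) (nat_lit 344) (nat_lit 265) (nat_lit 171)) (XT.lf (nat_lit 0) (nat_lit 1648221066) (nat_lit 152) (nat_lit 18406922311) (nat_lit 76) (nat_lit 783703958368) (nat_lit 2) (nat_lit 5) (nat_lit 4) (nat_lit 5) (nat_lit 3) (nat_lit 4) (nat_lit 345) (nat_lit 265) (nat_lit 170)))) (XT.nd (nat_lit 156) (nat_lit 0) (nat_lit 0) (XT.nd (nat_lit 78) (nat_lit 0) (nat_lit 0) (XT.lf (nat_lit 0) (nat_lit 2798699524) (nat_lit 76) (nat_lit 9045051788) (nat_lit 152) (nat_lit 855274998789) (nat_lit 1) (nat_lit 5) (nat_lit 2) (nat_lit 5) (nat_lit 3) (nat_lit 4) (nat_lit 346) (nat_lit 265) (nat_lit 169)) (XT.lf (nat_lit 0) (nat_lit 23438526920) (nat_lit 152) (nat_lit 908843154989) (nat_lit 0) (nat_lit 3218800803)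 (nat_lit 1) (nat_lit 5) (nat_lit 3) (nat_lit 4) (nat_lit 1) (nat_lit 4) (nat_lit 347) (nat_lit 265) (nat_lit 168))) (XT.nd (nat_lit 78) (nat_lit 0) (nat_lit 0) (XT.lf (nat_lit 0) (nat_lit 36194719337) (nat_lit 152) (nat_lit 957165193361) (nat_lit 0) (nat_lit 15974135025) (nat_lit 1) (nat_lit 5) (nat_lit 3) (nat_lit 4) (nat_lit 1) (nat_lit 4) (nat_lit 348) (nat_lit 265) (nat_lit 167)) (XT.lf (nat_lit 0) (nat_lit 49970387102) (nat_lit 152) (nat_lit 1009354984803) (nat_lit 0) (nat_lit 29749008165) (nat_lit 1) (nat_lit 5) (nat_lit 3) (nat_lit 4) (nat_lit 1) (nat_lit 4) (nat_lit 349) (nat_lit 265) (nat_lit 166))))) (XT.nd (nat_lit 312) (nat_lit 0) (nat_lit 0) (XT.nd (nat_lit 156) (nat_lit 0) (nat_lit 0) (XT.nd (nat_lit 78) (nat_lit 0) (nat_lit 0) (XT.lf (nat_lit 0) (nat_lit 64847163801) (nat_lit 152) (nat_lit 1065721802152) (nat_lit 0) (nat_lit 44625049100) (nat_lit 1) (nat_lit 5) (nat_lit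 3) (nat_lit 4) (nat_lit 1) (nat_lit 4) (nat_lit 350) (nat_lit 265) (nat_lit 165)) (XT.lf (nat_lit 0) (nat_lit 80913208112) (nat_lit 152) (nat_lit 1126599670992) (nat_lit 0) (nat_lit 60690412148) (nat_lit 1) (nat_lit 5) (nat_lit 3) (nat_lit 4) (nat_lit 1) (nat_lit 4) (nat_lit 351) (nat_lit 265) (nat_lit 164))) (XT.nd (nat_lit 78) (nat_lit 0) (nat_lit 0) (XT.lf (nat_lit 0) (nat_lit 98263726224) (nat_lit 152) (nat_lit 1192349349066) (nat_lit 0) (nat_lit 78040299461) (nat_lit 1) (nat_lit 5) (nat_lit 3) (nat_lit 4) (nat_lit 1) (nat_lit 4) (nat_lit 352) (nat_lit 265) (nat_lit 163)) (XT.lf (nat_lit 0) (nat_lit 117001536020) (nat_lit 152) (nat_lit 1263360464095) (nat_lit 0) (nat_lit 96777525184) (nat_lit 1) (nat_lit 5) (nat_lit 3) (nat_lit 4) (nat_lit 1) (nat_lit 4) (nat_lit 353) (nat_lit 265) (nat_lit 162)))) (XT.nd (nat_lit 156) (nat_lit 0) (nat_lit 0) (XT.nd (nat_lit 78) (nat_lit 0) (nat_lit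 0) (XT.lf (nat_lit 0) (nat_lit 137237676374) (nat_lit 152) (nat_lit 1340053822686) (nat_lit 0) (nat_lit 117013124730) (nat_lit 1) (nat_lit 5) (nat_lit 3) (nat_lit 4) (nat_lit 1) (nat_lit 4) (nat_lit 354) (nat_lit 265) (nat_lit 161)) (XT.lf (nat_lit 0) (nat_lit 159092065155) (nat_lit 152) (nat_lit 1422883904001) (nat_lit 0) (nat_lit 138867012762) (nat_lit 1) (nat_lit 5) (nat_lit 3) (nat_lit 4) (nat_lit 1) (nat_lit 4) (nat_lit 355) (nat_lit 265) (nat_lit 160))) (XT.nd (nat_lit 78) (nat_lit 0) (nat_lit 0) (XT.lf (nat_lit 0) (nat_lit 182694209852) (nat_lit 152) (nat_lit 1512341552967) (nat_lit 0) (nat_lit 162468693803) (nat_lit 1) (nat_lit 5) (nat_lit 3) (nat_lit 4) (nat_lit 1) (nat_lit 4) (nat_lit 356) (nat_lit 265) (nat_lit 159)) (XT.lf (nat_lit 0) (nat_lit 208183975027) (nat_lit 152) (nat_lit 1608956888985) (nat_lit 0) (nat_lit 187958029666) (nat_lit 1) (nat_lit 5) (nat_lit 3) (nat_lit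 4) (nat_lit 1) (nat_lit 4) (nat_lit 357) (nat_lit 265) (nat_lit 158)))))) (XT.nd (nat_lit 624) (nat_lit 0) (nat_lit 0) (XT.nd (nat_lit 312) (nat_lit 0) (nat_lit 0) (XT.nd (nat_lit 156) (nat_lit 0) (nat_lit 0) (XT.nd (nat_lit 78) (nat_lit 0) (nat_lit 0) (XT.lf (nat_lit 0) (nat_lit 235712411138) (nat_lit 152) (nat_lit 1713302447380) (nat_lit 0) (nat_lit 215486068267) (nat_lit 1) (nat_lit 5) (nat_lit 3) (nat_lit 4) (nat_lit 1) (nat_lit 4) (nat_lit 358) (nat_lit 265) (nat_lit 157)) (XT.lf (nat_lit 0) (nat_lit 265442649660) (nat_lit 152) (nat_lit 1825996572201) (nat_lit 0) (nat_lit 245215938724) (nat_lit 1) (nat_lit 5) (nat_lit 3) (nat_lit 4) (nat_lit 1) (nat_lit 4) (nat_lit 359) (nat_lit 265) (nat_lit 156))) (XT.nd (nat_lit 78) (nat_lit 0) (nat_lit 0) (XT.lf (nat_lit 0) (nat_lit 297550869784) (nat_lit 152) (nat_lit 1947707080484) (nat_lit 0) (nat_lit 277323818047) (nat_lit 1) (nat_lit 5)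 (nat_lit 3) (nat_lit 4) (nat_lit 1) (nat_lit 4) (nat_lit 360) (nat_lit 265) (nat_lit 155)) (XT.lf (nat_lit 0) (nat_lit 332227342443) (nat_lit 152) (nat_lit 2079155219687) (nat_lit 0) (nat_lit 311999975150) (nat_lit 1) (nat_lit 5) (nat_lit 3) (nat_lit 4) (nat_lit 1) (nat_lit 4) (nat_lit 361) (nat_lit 265) (nat_lit 154)))) (XT.nd (nat_lit 156) (nat_lit 0) (nat_lit 0) (XT.nd (nat_lit 78) (nat_lit 0) (nat_lit 0) (XT.lf (nat_lit 0) (nat_lit 369677557847) (nat_lit 152) (nat_lit 2221119941744) (nat_lit 0) (nat_lit 349449898372) (nat_lit 1) (nat_lit 5) (nat_lit 3) (nat_lit 4) (nat_lit 1) (nat_lit 4) (nat_lit 362) (nat_lit 265) (nat_lit 153)) (XT.lf (nat_lit 0) (nat_lit 410123443198) (nat_lit 152) (nat_lit 2374442519083) (nat_lit 0) (nat_lit 389895513183) (nat_lit 1) (nat_lit 5) (nat_lit 3) (nat_lit 4) (nat_lit 1) (nat_lit 4) (nat_lit 363) (nat_lit 265) (nat_lit 152))) (XT.nd (nat_lit 78) (nat_lit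 0) (nat_lit 0) (XT.lf (nat_lit 0) (nat_lit 453804677815) (nat_lit 152) (nat_lit 2540031529939) (nat_lit 0) (nat_lit 433576497302) (nat_lit 1) (nat_lit 5) (nat_lit 3) (nat_lit 4) (nat_lit 1) (nat_lit 4) (nat_lit 364) (nat_lit 265) (nat_lit 151)) (XT.lf (nat_lit 0) (nat_lit 500980113461) (nat_lit 152) (nat_lit 2718868242527) (nat_lit 0) (nat_lit 480751701004) (nat_lit 1) (nat_lit 5) (nat_lit 3) (nat_lit 4) (nat_lit 1) (nat_lit 4) (nat_lit 365) (nat_lit 265) (nat_lit 150))))) (XT.nd (nat_lit 32916) (nat_lit 0) (nat_lit 3800) (XT.nd (nat_lit 156) (nat_lit 0) (nat_lit 0) (XT.nd (nat_lit 78) (nat_lit 0) (nat_lit 0) (XT.lf (nat_lit 0) (nat_lit 551929308272) (nat_lit 152) (nat_lit 2912012429956) (nat_lit 0) (nat_lit 531700681053) (nat_lit 1) (nat_lit 5) (nat_lit 3) (nat_lit 4) (nat_lit 1) (nat_lit 4) (nat_lit 366) (nat_lit 265) (nat_lit 149)) (XT.lf (nat_lit 0) (nat_lit 606954183402) (nat_lit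 152) (nat_lit 3120608650375) (nat_lit 0) (nat_lit 586725357329) (nat_lit 1) (nat_lit 5) (nat_lit 3) (nat_lit 4) (nat_lit 1) (nat_lit 4) (nat_lit 367) (nat_lit 265) (nat_lit 148))) (XT.nd (nat_lit 32682) (nat_lit 0) (nat_lit 4180) (XT.lf (nat_lit 0) (nat_lit 666380812186) (nat_lit 152) (nat_lit 3345893029534) (nat_lit 0) (nat_lit 646151801988) (nat_lit 1) (nat_lit 5) (nat_lit 3) (nat_lit 4) (nat_lit 1) (nat_lit 4) (nat_lit 368) (nat_lit 265) (nat_lit 147)) (XT.lf (nat_lit 0) (nat_lit 2978828862) (nat_lit 380) (nat_lit 384846501) (nat_lit 380) (nat_lit 384846501) (nat_lit 56) (nat_lit 3) (nat_lit 61) (nat_lit 3) (nat_lit 61) (nat_lit 5) (nat_lit 266) (nat_lit 266) (nat_lit 248)))) (XT.nd (nat_lit 156) (nat_lit 0) (nat_lit 76) (XT.nd (nat_lit 78) (nat_lit 380) (nat_lit 0) (XT.lf (nat_lit 76) (nat_lit 2819703853) (nat_lit 0) (nat_lit 4747733630) (nat_lit 380) (nat_lit 114364336) (nat_lit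 57) (nat_lit 5) (nat_lit 56) (nat_lit 3) (nat_lit 61) (nat_lit 5) (nat_lit 267) (nat_lit 266) (nat_lit 247)) (XT.lf (nat_lit 0) (nat_lit 1238816625) (nat_lit 380) (nat_lit 1256537096) (nat_lit 456) (nat_lit 5392912583) (nat_lit 51) (nat_lit 5) (nat_lit 56) (nat_lit 3) (nat_lit 57) (nat_lit 5) (nat_lit 268) (nat_lit 266) (nat_lit 246))) (XT.nd (nat_lit 78) (nat_lit 0) (nat_lit 0) (XT.lf (nat_lit 0) (nat_lit 2634218625) (nat_lit 380) (nat_lit 5424623813) (nat_lit 456) (nat_lit 57419936) (nat_lit 52) (nat_lit 5) (nat_lit 57) (nat_lit 5) (nat_lit 58) (nat_lit 5) (nat_lit 269) (nat_lit 266) (nat_lit 245)) (XT.lf (nat_lit 0) (nat_lit 4123861285) (nat_lit 380) (nat_lit 1483397894) (nat_lit 456) (nat_lit 2757059605) (nat_lit 52) (nat_lit 5) (nat_lit 57) (nat_lit 5) (nat_lit 58) (nat_lit 5) (nat_lit 270) (nat_lit 266) (nat_lit 244))))))))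
noncomputable def xc60 : XT := (XT.nd (nat_lit 2340) (nat_lit 760) (nat_lit 0) (XT.nd (nat_lit 1170) (nat_lit 988) (nat_lit 0) (XT.nd (nat_lit 546) (nat_lit 912) (nat_lit 0) (XT.nd (nat_lit 234) (nat_lit 760) (nat_lit 0) (XT.nd (nat_lit 78) (nat_lit 304) (nat_lit 0) (XT.lf (nat_lit 76) (nat_lit 2836237531) (nat_lit 0) (nat_lit 2855895521) (nat_lit 456) (nat_lit 2943727571) (nat_lit 53) (nat_lit 5) (nat_lit 52) (nat_lit 5) (nat_lit 58) (nat_lit 5) (nat_lit 271) (nat_lit 266) (nat_lit 243)) (XT.nd (nat_lit 78) (nat_lit 380) (nat_lit 0) (XT.lf (nat_lit 0) (nat_lit 7328333696) (nat_lit 380) (nat_lit 1429874199) (nat_lit 76) (nat_lit 175888630) (nat_lit 53) (nat_lit 5) (nat_lit 58) (nat_lit 5) (nat_lit 54) (nat_lit 5) (nat_lit 272) (nat_lit 266) (nat_lit 242)) (XT.lf (nat_lit 0) (nat_lit 3300796641) (nat_lit 380) (nat_lit 5853822368) (nat_lit 456) (nat_lit 97178020) (nat_lit 48) (nat_lit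 5) (nat_lit 53) (nat_lit 5) (nat_lit 54) (nat_lit 5) (nat_lit 273) (nat_lit 266) (nat_lit 241)))) (XT.nd (nat_lit 156) (nat_lit 228) (nat_lit 0) (XT.nd (nat_lit 78) (nat_lit 456) (nat_lit 0) (XT.lf (nat_lit 0) (nat_lit 1403694963) (nat_lit 456) (nat_lit 1221121668) (nat_lit 76) (nat_lit 6971581955) (nat_lit 47) (nat_lit 5) (nat_lit 53) (nat_lit 5) (nat_lit 48) (nat_lit 5) (nat_lit 274) (nat_lit 266) (nat_lit 240)) (XT.lf (nat_lit 0) (nat_lit 3054247702) (nat_lit 532) (nat_lit 5982684416) (nat_lit 76) (nat_lit 928915971) (nat_lit 41) (nat_lit 5) (nat_lit 48) (nat_lit 5) (nat_lit 42) (nat_lit 5) (nat_lit 275) (nat_lit 266) (nat_lit 239))) (XT.nd (nat_lit 78) (nat_lit 228) (nat_lit 0) (XT.lf (nat_lit 0) (nat_lit 4858861567) (nat_lit 532) (nat_lit 839472897) (nat_lit 76) (nat_lit 4665008250) (nat_lit 41) (nat_lit 5) (nat_lit 48) (nat_lit 5) (nat_lit 42) (nat_lit 5) (nat_lit 276) (nat_lit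 266) (nat_lit 238)) (XT.lf (nat_lit 0) (nat_lit 4884068074) (nat_lit 228) (nat_lit 1966780097) (nat_lit 304) (nat_lit 3938580401) (nat_lit 38) (nat_lit 5) (nat_lit 41) (nat_lit 5) (nat_lit 42) (nat_lit 5) (nat_lit 277) (nat_lit 266) (nat_lit 237))))) (XT.nd (nat_lit 312) (nat_lit 380) (nat_lit 0) (XT.nd (nat_lit 156) (nat_lit 304) (nat_lit 0) (XT.nd (nat_lit 78) (nat_lit 228) (nat_lit 0) (XT.lf (nat_lit 0) (nat_lit 9004585465) (nat_lit 304) (nat_lit 264091711) (nat_lit 76) (nat_lit 1980947559) (nat_lit 38) (nat_lit 5) (nat_lit 42) (nat_lit 5) (nat_lit 39) (nat_lit 5) (nat_lit 278) (nat_lit 266) (nat_lit 236)) (XT.lf (nat_lit 0) (nat_lit 6004287375) (nat_lit 228) (nat_lit 5456286269) (nat_lit 304) (nat_lit 275865658) (nat_lit 35) (nat_lit 5) (nat_lit 38) (nat_lit 5) (nat_lit 39) (nat_lit 5) (nat_lit 279) (nat_lit 266) (nat_lit 235))) (XT.nd (nat_lit 78) (nat_lit 0) (nat_lit 0) (XT.lf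 (nat_lit 0) (nat_lit 429145750) (nat_lit 228) (nat_lit 1282638843) (nat_lit 304) (nat_lit 10550741566) (nat_lit 31) (nat_lit 5) (nat_lit 34) (nat_lit 5) (nat_lit 35) (nat_lit 5) (nat_lit 280) (nat_lit 266) (nat_lit 234)) (XT.lf (nat_lit 0) (nat_lit 4020404080) (nat_lit 304) (nat_lit 5575635085) (nat_lit 76) (nat_lit 3220096546) (nat_lit 31) (nat_lit 5) (nat_lit 35) (nat_lit 5) (nat_lit 32) (nat_lit 5) (nat_lit 281) (nat_lit 266) (nat_lit 233)))) (XT.nd (nat_lit 156) (nat_lit 228) (nat_lit 0) (XT.nd (nat_lit 78) (nat_lit 0) (nat_lit 0) (XT.lf (nat_lit 0) (nat_lit 1133897855) (nat_lit 152) (nat_lit 5383460252) (nat_lit 228) (nat_lit 6896530495) (nat_lit 29) (nat_lit 5) (nat_lit 31) (nat_lit 5) (nat_lit 32) (nat_lit 5) (nat_lit 282) (nat_lit 266) (nat_lit 232)) (XT.lf (nat_lit 0) (nat_lit 8626874692) (nat_lit 152) (nat_lit 685225379) (nat_lit 228) (nat_lit 4739654467) (nat_lit 29) (nat_lit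 5) (nat_lit 31) (nat_lit 5) (nat_lit 32) (nat_lit 5) (nat_lit 283) (nat_lit 266) (nat_lit 231))) (XT.nd (nat_lit 78) (nat_lit 76) (nat_lit 0) (XT.lf (nat_lit 0) (nat_lit 1899093413) (nat_lit 152) (nat_lit 10531812145) (nat_lit 228) (nat_lit 2301830777) (nat_lit 27) (nat_lit 5) (nat_lit 29) (nat_lit 5) (nat_lit 30) (nat_lit 5) (nat_lit 284) (nat_lit 266) (nat_lit 230)) (XT.lf (nat_lit 0) (nat_lit 434463694) (nat_lit 228) (nat_lit 5438426732) (nat_lit 76) (nat_lit 9585176506) (nat_lit 26) (nat_lit 5) (nat_lit 29) (nat_lit 5) (nat_lit 27) (nat_lit 5) (nat_lit 285) (nat_lit 266) (nat_lit 229)))))) (XT.nd (nat_lit 546) (nat_lit 380) (nat_lit 0) (XT.nd (nat_lit 234) (nat_lit 304) (nat_lit 0) (XT.nd (nat_lit 78) (nat_lit 152) (nat_lit 0) (XT.lf (nat_lit 0) (nat_lit 2551450330) (nat_lit 152) (nat_lit 728944148) (nat_lit 228) (nat_lit 12955138644) (nat_lit 24) (nat_lit 5) (nat_lit 26) (nat_lit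 5) (nat_lit 27) (nat_lit 5) (nat_lit 286) (nat_lit 266) (nat_lit 228)) (XT.nd (nat_lit 78) (nat_lit 152) (nat_lit 0) (XT.lf (nat_lit 0) (nat_lit 6577821335) (nat_lit 228) (nat_lit 5759786232) (nat_lit 76) (nat_lit 4719775424) (nat_lit 24) (nat_lit 5) (nat_lit 27) (nat_lit 5) (nat_lit 25) (nat_lit 5) (nat_lit 287) (nat_lit 266) (nat_lit 227)) (XT.lf (nat_lit 0) (nat_lit 2861213911) (nat_lit 152) (nat_lit 7324079191) (nat_lit 228) (nat_lit 7756072976) (nat_lit 22) (nat_lit 5) (nat_lit 24) (nat_lit 5) (nat_lit 25) (nat_lit 5) (nat_lit 288) (nat_lit 266) (nat_lit 226)))) (XT.nd (nat_lit 156) (nat_lit 228) (nat_lit 0) (XT.nd (nat_lit 78) (nat_lit 76) (nat_lit 0) (XT.lf (nat_lit 0) (nat_lit 12439577522) (nat_lit 152) (nat_lit 1759406319) (nat_lit 228) (nat_lit 4687753246) (nat_lit 22) (nat_lit 5) (nat_lit 24) (nat_lit 5) (nat_lit 25) (nat_lit 5) (nat_lit 289) (nat_lit 266) (nat_lit 225)) (XT.lf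 (nat_lit 0) (nat_lit 2859255684) (nat_lit 76) (nat_lit 15808147890) (nat_lit 152) (nat_lit 1229716625) (nat_lit 21) (nat_lit 5) (nat_lit 22) (nat_lit 5) (nat_lit 23) (nat_lit 4) (nat_lit 290) (nat_lit 266) (nat_lit 224))) (XT.nd (nat_lit 78) (nat_lit 152) (nat_lit 0) (XT.lf (nat_lit 0) (nat_lit 2569262964) (nat_lit 152) (nat_lit 7866478208) (nat_lit 76) (nat_lit 10532667252) (nat_lit 20) (nat_lit 5) (nat_lit 22) (nat_lit 5) (nat_lit 21) (nat_lit 5) (nat_lit 291) (nat_lit 266) (nat_lit 223)) (XT.lf (nat_lit 0) (nat_lit 2055264759) (nat_lit 152) (nat_lit 4565679597) (nat_lit 228) (nat_lit 15500740535) (nat_lit 18) (nat_lit 5) (nat_lit 20) (nat_lit 5) (nat_lit 21) (nat_lit 5) (nat_lit 292) (nat_lit 266) (nat_lit 222))))) (XT.nd (nat_lit 312) (nat_lit 228) (nat_lit 0) (XT.nd (nat_lit 156) (nat_lit 76) (nat_lit 0) (XT.nd (nat_lit 78) (nat_lit 76) (nat_lit 0) (XT.lf (nat_lit 0) (nat_lit 11226669746)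 (nat_lit 228) (nat_lit 10235211141) (nat_lit 76) (nat_lit 1887003577) (nat_lit 18) (nat_lit 5) (nat_lit 21) (nat_lit 5) (nat_lit 19) (nat_lit 4) (nat_lit 293) (nat_lit 266) (nat_lit 221)) (XT.lf (nat_lit 0) (nat_lit 224132231) (nat_lit 76) (nat_lit 16069751346) (nat_lit 152) (nat_lit 8372983759) (nat_lit 17) (nat_lit 5) (nat_lit 18) (nat_lit 5) (nat_lit 19) (nat_lit 4) (nat_lit 294) (nat_lit 266) (nat_lit 220))) (XT.nd (nat_lit 78) (nat_lit 76) (nat_lit 0) (XT.lf (nat_lit 0) (nat_lit 12052614108) (nat_lit 76) (nat_lit 9963857532) (nat_lit 152) (nat_lit 4053863508) (nat_lit 17) (nat_lit 5) (nat_lit 18) (nat_lit 5) (nat_lit 19) (nat_lit 4) (nat_lit 295) (nat_lit 266) (nat_lit 219)) (XT.lf (nat_lit 0) (nat_lit 551833438) (nat_lit 152) (nat_lit 2820943639) (nat_lit 76) (nat_lit 24214439572) (nat_lit 16) (nat_lit 5) (nat_lit 18) (nat_lit 5) (nat_lit 17) (nat_lit 5) (nat_lit 296) (nat_lit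 266) (nat_lit 218)))) (XT.nd (nat_lit 156) (nat_lit 76) (nat_lit 0) (XT.nd (nat_lit 78) (nat_lit 0) (nat_lit 0) (XT.lf (nat_lit 0) (nat_lit 5610008634) (nat_lit 228) (nat_lit 19696462072) (nat_lit 76) (nat_lit 3886348018) (nat_lit 14) (nat_lit 5) (nat_lit 17) (nat_lit 5) (nat_lit 15) (nat_lit 4) (nat_lit 297) (nat_lit 266) (nat_lit 217)) (XT.lf (nat_lit 0) (nat_lit 11213774240) (nat_lit 228) (nat_lit 8095390285) (nat_lit 76) (nat_lit 11606463398) (nat_lit 14) (nat_lit 5) (nat_lit 17) (nat_lit 5) (nat_lit 15) (nat_lit 4) (nat_lit 298) (nat_lit 266) (nat_lit 216))) (XT.nd (nat_lit 78) (nat_lit 0) (nat_lit 0) (XT.lf (nat_lit 0) (nat_lit 4623815271) (nat_lit 76) (nat_lit 12729338721) (nat_lit 152) (nat_lit 15416154195) (nat_lit 13) (nat_lit 5) (nat_lit 14) (nat_lit 5) (nat_lit 15) (nat_lit 4) (nat_lit 299) (nat_lit 266) (nat_lit 215)) (XT.lf (nat_lit 0) (nat_lit 18780739754) (nat_lit 76)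 (nat_lit 5401199303) (nat_lit 152) (nat_lit 10573512458) (nat_lit 13) (nat_lit 5) (nat_lit 14) (nat_lit 5) (nat_lit 15) (nat_lit 4) (nat_lit 300) (nat_lit 266) (nat_lit 214))))))) (XT.nd (nat_lit 1170) (nat_lit 228) (nat_lit 0) (XT.nd (nat_lit 546) (nat_lit 304) (nat_lit 0) (XT.nd (nat_lit 234) (nat_lit 76) (nat_lit 0) (XT.nd (nat_lit 78) (nat_lit 152) (nat_lit 0) (XT.lf (nat_lit 0) (nat_lit 31595710746) (nat_lit 152) (nat_lit 2929297254) (nat_lit 0) (nat_lit 2372410491) (nat_lit 13) (nat_lit 5) (nat_lit 15) (nat_lit 4) (nat_lit 13) (nat_lit 4) (nat_lit 301) (nat_lit 266) (nat_lit 213)) (XT.nd (nat_lit 78) (nat_lit 0) (nat_lit 0) (XT.lf (nat_lit 0) (nat_lit 780772681) (nat_lit 152) (nat_lit 27636562271) (nat_lit 76) (nat_lit 10759994394) (nat_lit 11) (nat_lit 5) (nat_lit 13) (nat_lit 5) (nat_lit 12) (nat_lit 4) (nat_lit 302) (nat_lit 266) (nat_lit 212)) (XT.lf (nat_lit 0) (nat_lit 7125574011)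 (nat_lit 152) (nat_lit 14473884018) (nat_lit 76) (nat_lit 20024207657) (nat_lit 11) (nat_lit 5) (nat_lit 13) (nat_lit 5) (nat_lit 12) (nat_lit 4) (nat_lit 303) (nat_lit 266) (nat_lit 211)))) (XT.nd (nat_lit 156) (nat_lit 0) (nat_lit 0) (XT.nd (nat_lit 78) (nat_lit 76) (nat_lit 0) (XT.lf (nat_lit 0) (nat_lit 13959422317) (nat_lit 152) (nat_lit 291431869) (nat_lit 76) (nat_lit 30016357481) (nat_lit 11) (nat_lit 5) (nat_lit 13) (nat_lit 5) (nat_lit 12) (nat_lit 4) (nat_lit 304) (nat_lit 266) (nat_lit 210)) (XT.lf (nat_lit 0) (nat_lit 15784439951) (nat_lit 76) (nat_lit 5917990688) (nat_lit 152) (nat_lit 25390832815) (nat_lit 10) (nat_lit 5) (nat_lit 11) (nat_lit 5) (nat_lit 12) (nat_lit 4) (nat_lit 305) (nat_lit 266) (nat_lit 209))) (XT.nd (nat_lit 78) (nat_lit 0) (nat_lit 0) (XT.lf (nat_lit 0) (nat_lit 30130229070) (nat_lit 152) (nat_lit 17087146664) (nat_lit 0) (nat_lit 2922812635) (nat_lit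 10) (nat_lit 5) (nat_lit 12) (nat_lit 4) (nat_lit 10) (nat_lit 4) (nat_lit 306) (nat_lit 266) (nat_lit 208)) (XT.lf (nat_lit 0) (nat_lit 39370283955) (nat_lit 152) (nat_lit 1910174801) (nat_lit 0) (nat_lit 12139381605) (nat_lit 10) (nat_lit 5) (nat_lit 12) (nat_lit 4) (nat_lit 10) (nat_lit 4) (nat_lit 307) (nat_lit 266) (nat_lit 207))))) (XT.nd (nat_lit 312) (nat_lit 76) (nat_lit 0) (XT.nd (nat_lit 156) (nat_lit 76) (nat_lit 0) (XT.nd (nat_lit 78) (nat_lit 76) (nat_lit 0) (XT.lf (nat_lit 0) (nat_lit 15215498365) (nat_lit 76) (nat_lit 34485458091) (nat_lit 76) (nat_lit 7232809524) (nat_lit 9) (nat_lit 4) (nat_lit 10) (nat_lit 5) (nat_lit 10) (nat_lit 4) (nat_lit 308) (nat_lit 266) (nat_lit 206)) (XT.lf (nat_lit 0) (nat_lit 161948293) (nat_lit 152) (nat_lit 26935931502) (nat_lit 76) (nat_lit 33627558527) (nat_lit 8) (nat_lit 5) (nat_lit 10) (nat_lit 5) (nat_lit 9) (nat_lit 4) (nat_lit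 309) (nat_lit 266) (nat_lit 205))) (XT.nd (nat_lit 78) (nat_lit 76) (nat_lit 0) (XT.lf (nat_lit 0) (nat_lit 7744151254) (nat_lit 152) (nat_lit 11183593219) (nat_lit 76) (nat_lit 45878752367) (nat_lit 8) (nat_lit 5) (nat_lit 10) (nat_lit 5) (nat_lit 9) (nat_lit 4) (nat_lit 310) (nat_lit 266) (nat_lit 204)) (XT.lf (nat_lit 0) (nat_lit 6111779637) (nat_lit 76) (nat_lit 9955754167) (nat_lit 152) (nat_lit 53135748643) (nat_lit 7) (nat_lit 5) (nat_lit 8) (nat_lit 5) (nat_lit 9) (nat_lit 4) (nat_lit 311) (nat_lit 266) (nat_lit 203)))) (XT.nd (nat_lit 156) (nat_lit 76) (nat_lit 0) (XT.nd (nat_lit 78) (nat_lit 0) (nat_lit 0) (XT.lf (nat_lit 0) (nat_lit 25351859074) (nat_lit 152) (nat_lit 48525121684) (nat_lit 0) (nat_lit 51234263) (nat_lit 7) (nat_lit 5) (nat_lit 9) (nat_lit 4) (nat_lit 7) (nat_lit 4) (nat_lit 312) (nat_lit 266) (nat_lit 202)) (XT.lf (nat_lit 0) (nat_lit 35626176898) (nat_lit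 152) (nat_lit 33073346453) (nat_lit 0) (nat_lit 10311848281) (nat_lit 7) (nat_lit 5) (nat_lit 9) (nat_lit 4) (nat_lit 7) (nat_lit 4) (nat_lit 313) (nat_lit 266) (nat_lit 201))) (XT.nd (nat_lit 78) (nat_lit 76) (nat_lit 0) (XT.lf (nat_lit 0) (nat_lit 46711935996) (nat_lit 152) (nat_lit 16405174915) (nat_lit 0) (nat_lit 21384918670) (nat_lit 7) (nat_lit 5) (nat_lit 9) (nat_lit 4) (nat_lit 7) (nat_lit 4) (nat_lit 314) (nat_lit 266) (nat_lit 200)) (XT.lf (nat_lit 0) (nat_lit 1661270771) (nat_lit 76) (nat_lit 57053512584) (nat_lit 76) (nat_lit 31714746454) (nat_lit 6) (nat_lit 4) (nat_lit 7) (nat_lit 5) (nat_lit 7) (nat_lit 4) (nat_lit 315) (nat_lit 266) (nat_lit 199)))))) (XT.nd (nat_lit 624) (nat_lit 76) (nat_lit 0) (XT.nd (nat_lit 312) (nat_lit 152) (nat_lit 0) (XT.nd (nat_lit 156) (nat_lit 0) (nat_lit 0) (XT.nd (nat_lit 78) (nat_lit 0) (nat_lit 0) (XT.lf (nat_lit 0) (nat_lit 22088188743)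 (nat_lit 76) (nat_lit 50028782122) (nat_lit 76) (nat_lit 24679137469) (nat_lit 6) (nat_lit 4) (nat_lit 7) (nat_lit 5) (nat_lit 7) (nat_lit 4) (nat_lit 316) (nat_lit 266) (nat_lit 198)) (XT.lf (nat_lit 0) (nat_lit 44132759964) (nat_lit 76) (nat_lit 42449838047) (nat_lit 76) (nat_lit 17090120687) (nat_lit 6) (nat_lit 4) (nat_lit 7) (nat_lit 5) (nat_lit 7) (nat_lit 4) (nat_lit 317) (nat_lit 266) (nat_lit 197))) (XT.nd (nat_lit 78) (nat_lit 0) (nat_lit 0) (XT.lf (nat_lit 0) (nat_lit 67925618931) (nat_lit 76) (nat_lit 34271768098) (nat_lit 76) (nat_lit 8902724158) (nat_lit 6) (nat_lit 4) (nat_lit 7) (nat_lit 5) (nat_lit 7) (nat_lit 4) (nat_lit 318) (nat_lit 266) (nat_lit 196)) (XT.lf (nat_lit 0) (nat_lit 93607760362) (nat_lit 76) (nat_lit 25446109638) (nat_lit 76) (nat_lit 68429976) (nat_lit 6) (nat_lit 4) (nat_lit 7) (nat_lit 5) (nat_lit 7) (nat_lit 4) (nat_lit 319) (nat_lit 266) (nat_lit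 195)))) (XT.nd (nat_lit 156) (nat_lit 0) (nat_lit 0) (XT.nd (nat_lit 78) (nat_lit 76) (nat_lit 0) (XT.lf (nat_lit 0) (nat_lit 8991629933) (nat_lit 152) (nat_lit 6683085437) (nat_lit 76) (nat_lit 112093897695) (nat_lit 5) (nat_lit 5) (nat_lit 7) (nat_lit 5) (nat_lit 6) (nat_lit 4) (nat_lit 320) (nat_lit 266) (nat_lit 194)) (XT.lf (nat_lit 0) (nat_lit 14358919113) (nat_lit 76) (nat_lit 4752618652) (nat_lit 152) (nat_lit 117967856615) (nat_lit 4) (nat_lit 5) (nat_lit 5) (nat_lit 5) (nat_lit 6) (nat_lit 4) (nat_lit 321) (nat_lit 266) (nat_lit 193))) (XT.nd (nat_lit 78) (nat_lit 0) (nat_lit 0) (XT.lf (nat_lit 0) (nat_lit 30391366860) (nat_lit 152) (nat_lit 109842740536) (nat_lit 0) (nat_lit 6872908754) (nat_lit 4) (nat_lit 5) (nat_lit 6) (nat_lit 4) (nat_lit 4) (nat_lit 4) (nat_lit 322) (nat_lit 266) (nat_lit 192)) (XT.lf (nat_lit 0) (nat_lit 42690975847) (nat_lit 152) (nat_lit 96069843840)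 (nat_lit 0) (nat_lit 19166640413) (nat_lit 4) (nat_lit 5) (nat_lit 6) (nat_lit 4) (nat_lit 4) (nat_lit 4) (nat_lit 323) (nat_lit 266) (nat_lit 191))))) (XT.nd (nat_lit 312) (nat_lit 76) (nat_lit 0) (XT.nd (nat_lit 156) (nat_lit 0) (nat_lit 0) (XT.nd (nat_lit 78) (nat_lit 0) (nat_lit 0) (XT.lf (nat_lit 0) (nat_lit 55968950705) (nat_lit 152) (nat_lit 81205867423) (nat_lit 0) (nat_lit 32439173302) (nat_lit 4) (nat_lit 5) (nat_lit 6) (nat_lit 4) (nat_lit 4) (nat_lit 4) (nat_lit 324) (nat_lit 266) (nat_lit 190)) (XT.lf (nat_lit 0) (nat_lit 70303975731) (nat_lit 152) (nat_lit 65162728462) (nat_lit 0) (nat_lit 46769159466) (nat_lit 4) (nat_lit 5) (nat_lit 6) (nat_lit 4) (nat_lit 4) (nat_lit 4) (nat_lit 325) (nat_lit 266) (nat_lit 189))) (XT.nd (nat_lit 78) (nat_lit 0) (nat_lit 0) (XT.lf (nat_lit 0) (nat_lit 85780999219) (nat_lit 152) (nat_lit 47845356502) (nat_lit 0) (nat_lit 62241517343) (nat_lit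 4) (nat_lit 5) (nat_lit 6) (nat_lit 4) (nat_lit 4) (nat_lit 4) (nat_lit 326) (nat_lit 266) (nat_lit 188)) (XT.lf (nat_lit 0) (nat_lit 102491736866) (nat_lit 152) (nat_lit 29151130081) (nat_lit 0) (nat_lit 78947934979) (nat_lit 4) (nat_lit 5) (nat_lit 6) (nat_lit 4) (nat_lit 4) (nat_lit 4) (nat_lit 327) (nat_lit 266) (nat_lit 187)))) (XT.nd (nat_lit 156) (nat_lit 0) (nat_lit 0) (XT.nd (nat_lit 78) (nat_lit 76) (nat_lit 0) (XT.lf (nat_lit 0) (nat_lit 120535215265) (nat_lit 152) (nat_lit 8969268598) (nat_lit 0) (nat_lit 96987413368) (nat_lit 4) (nat_lit 5) (nat_lit 6) (nat_lit 4) (nat_lit 4) (nat_lit 4) (nat_lit 328) (nat_lit 266) (nat_lit 186)) (XT.lf (nat_lit 0) (nat_lit 13494893385) (nat_lit 76) (nat_lit 126848017857) (nat_lit 76) (nat_lit 103296512246) (nat_lit 3) (nat_lit 4) (nat_lit 4) (nat_lit 5) (nat_lit 4) (nat_lit 4) (nat_lit 329) (nat_lit 266) (nat_lit 185))) (XT.nd (nat_lit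 78) (nat_lit 0) (nat_lit 0) (XT.lf (nat_lit 0) (nat_lit 38259146197) (nat_lit 76) (nat_lit 123717610120) (nat_lit 76) (nat_lit 100162675146) (nat_lit 3) (nat_lit 4) (nat_lit 4) (nat_lit 5) (nat_lit 4) (nat_lit 4) (nat_lit 330) (nat_lit 266) (nat_lit 184)) (XT.lf (nat_lit 0) (nat_lit 64997935175) (nat_lit 76) (nat_lit 120339945788) (nat_lit 76) (nat_lit 96781835477) (nat_lit 3) (nat_lit 4) (nat_lit 4) (nat_lit 5) (nat_lit 4) (nat_lit 4) (nat_lit 331) (nat_lit 266) (nat_lit 183))))))))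
noncomputable def xc61 : XT := (XT.nd (nat_lit 2418) (nat_lit 0) (nat_lit 0) (XT.nd (nat_lit 1170) (nat_lit 76) (nat_lit 0) (XT.nd (nat_lit 546) (nat_lit 76) (nat_lit 0) (XT.nd (nat_lit 234) (nat_lit 0) (nat_lit 0) (XT.nd (nat_lit 78) (nat_lit 0) (nat_lit 0) (XT.lf (nat_lit 0) (nat_lit 93869712403) (nat_lit 76) (nat_lit 116695009072) (nat_lit 76) (nat_lit 93133958634) (nat_lit 3) (nat_lit 4) (nat_lit 4) (nat_lit 5) (nat_lit 4) (nat_lit 4) (nat_lit 332) (nat_lit 266) (nat_lit 182)) (XT.nd (nat_lit 78) (nat_lit 0) (nat_lit 0) (XT.lf (nat_lit 0) (nat_lit 125045569892) (nat_lit 76) (nat_lit 112761200347) (nat_lit 76) (nat_lit 89197427568) (nat_lit 3) (nat_lit 4) (nat_lit 4) (nat_lit 5) (nat_lit 4) (nat_lit 4) (nat_lit 333) (nat_lit 266) (nat_lit 181)) (XT.lf (nat_lit 0) (nat_lit 158710253467) (nat_lit 76) (nat_lit 108515208153) (nat_lit 76) (nat_lit 84948914690) (nat_lit 3) (nat_lit 4) (nat_lit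 4) (nat_lit 5) (nat_lit 4) (nat_lit 4) (nat_lit 334) (nat_lit 266) (nat_lit 180)))) (XT.nd (nat_lit 156) (nat_lit 0) (nat_lit 0) (XT.nd (nat_lit 78) (nat_lit 0) (nat_lit 0) (XT.lf (nat_lit 0) (nat_lit 195063257546) (nat_lit 76) (nat_lit 103931871055) (nat_lit 76) (nat_lit 80363243625) (nat_lit 3) (nat_lit 4) (nat_lit 4) (nat_lit 5) (nat_lit 4) (nat_lit 4) (nat_lit 335) (nat_lit 266) (nat_lit 179)) (XT.lf (nat_lit 0) (nat_lit 234320007341) (nat_lit 76) (nat_lit 98984028538) (nat_lit 76) (nat_lit 75413240026) (nat_lit 3) (nat_lit 4) (nat_lit 4) (nat_lit 5) (nat_lit 4) (nat_lit 4) (nat_lit 336) (nat_lit 266) (nat_lit 178))) (XT.nd (nat_lit 78) (nat_lit 0) (nat_lit 0) (XT.lf (nat_lit 0) (nat_lit 276713135442) (nat_lit 76) (nat_lit 93642360053) (nat_lit 76) (nat_lit 70069570540) (nat_lit 3) (nat_lit 4) (nat_lit 4) (nat_lit 5) (nat_lit 4) (nat_lit 4) (nat_lit 337) (nat_lit 266) (nat_lit 177))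 (XT.lf (nat_lit 0) (nat_lit 322493860387) (nat_lit 76) (nat_lit 87875211268) (nat_lit 76) (nat_lit 64300568976) (nat_lit 3) (nat_lit 4) (nat_lit 4) (nat_lit 5) (nat_lit 4) (nat_lit 4) (nat_lit 338) (nat_lit 266) (nat_lit 176))))) (XT.nd (nat_lit 312) (nat_lit 76) (nat_lit 0) (XT.nd (nat_lit 156) (nat_lit 0) (nat_lit 0) (XT.nd (nat_lit 78) (nat_lit 0) (nat_lit 0) (XT.lf (nat_lit 0) (nat_lit 371933475360) (nat_lit 76) (nat_lit 81648406486) (nat_lit 76) (nat_lit 58072048659) (nat_lit 3) (nat_lit 4) (nat_lit 4) (nat_lit 5) (nat_lit 4) (nat_lit 4) (nat_lit 339) (nat_lit 266) (nat_lit 175)) (XT.lf (nat_lit 0) (nat_lit 425324955857) (nat_lit 76) (nat_lit 74925046125) (nat_lit 76) (nat_lit 51347099838) (nat_lit 3) (nat_lit 4) (nat_lit 4) (nat_lit 5) (nat_lit 4) (nat_lit 4) (nat_lit 340) (nat_lit 266) (nat_lit 174))) (XT.nd (nat_lit 78) (nat_lit 0) (nat_lit 0) (XT.lf (nat_lit 0) (nat_lit 482984695837)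 (nat_lit 76) (nat_lit 67665288048) (nat_lit 76) (nat_lit 44085870966) (nat_lit 3) (nat_lit 4) (nat_lit 4) (nat_lit 5) (nat_lit 4) (nat_lit 4) (nat_lit 341) (nat_lit 266) (nat_lit 173)) (XT.lf (nat_lit 0) (nat_lit 545254382647) (nat_lit 76) (nat_lit 59826111466) (nat_lit 76) (nat_lit 36245332537) (nat_lit 3) (nat_lit 4) (nat_lit 4) (nat_lit 5) (nat_lit 4) (nat_lit 4) (nat_lit 342) (nat_lit 266) (nat_lit 172)))) (XT.nd (nat_lit 156) (nat_lit 76) (nat_lit 0) (XT.nd (nat_lit 78) (nat_lit 0) (nat_lit 0) (XT.lf (nat_lit 0) (nat_lit 612503021840) (nat_lit 76) (nat_lit 51361062001) (nat_lit 76) (nat_lit 27779022102) (nat_lit 3) (nat_lit 4) (nat_lit 4) (nat_lit 5) (nat_lit 4) (nat_lit 4) (nat_lit 343) (nat_lit 266) (nat_lit 171)) (XT.lf (nat_lit 0) (nat_lit 685129123870) (nat_lit 76) (nat_lit 42219976396) (nat_lit 76) (nat_lit 18636768931) (nat_lit 3) (nat_lit 4) (nat_lit 4) (nat_lit 5) (nat_lit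 4) (nat_lit 4) (nat_lit 344) (nat_lit 266) (nat_lit 170))) (XT.nd (nat_lit 78) (nat_lit 76) (nat_lit 0) (XT.lf (nat_lit 0) (nat_lit 763563065637) (nat_lit 76) (nat_lit 32348685254) (nat_lit 76) (nat_lit 8764396711) (nat_lit 3) (nat_lit 4) (nat_lit 4) (nat_lit 5) (nat_lit 4) (nat_lit 4) (nat_lit 345) (nat_lit 266) (nat_lit 169)) (XT.lf (nat_lit 0) (nat_lit 1801722016) (nat_lit 152) (nat_lit 19837707747) (nat_lit 76) (nat_lit 846418656582) (nat_lit 2) (nat_lit 5) (nat_lit 4) (nat_lit 5) (nat_lit 3) (nat_lit 4) (nat_lit 346) (nat_lit 266) (nat_lit 168)))))) (XT.nd (nat_lit 624) (nat_lit 0) (nat_lit 0) (XT.nd (nat_lit 312) (nat_lit 0) (nat_lit 0) (XT.nd (nat_lit 156) (nat_lit 0) (nat_lit 0) (XT.nd (nat_lit 78) (nat_lit 0) (nat_lit 0) (XT.lf (nat_lit 0) (nat_lit 3063306409) (nat_lit 76) (nat_lit 9748964168) (nat_lit 152) (nat_lit 923674286817) (nat_lit 1) (nat_lit 5) (nat_lit 2) (nat_lit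 5) (nat_lit 3) (nat_lit 4) (nat_lit 347) (nat_lit 266) (nat_lit 167)) (XT.lf (nat_lit 0) (nat_lit 25333509765) (nat_lit 152) (nat_lit 981511783265) (nat_lit 0) (nat_lit 3493625888) (nat_lit 1) (nat_lit 5) (nat_lit 3) (nat_lit 4) (nat_lit 1) (nat_lit 4) (nat_lit 348) (nat_lit 266) (nat_lit 166))) (XT.nd (nat_lit 78) (nat_lit 0) (nat_lit 0) (XT.lf (nat_lit 0) (nat_lit 39108723450) (nat_lit 152) (nat_lit 1033702460568) (nat_lit 0) (nat_lit 17268103809) (nat_lit 1) (nat_lit 5) (nat_lit 3) (nat_lit 4) (nat_lit 1) (nat_lit 4) (nat_lit 349) (nat_lit 266) (nat_lit 165)) (XT.lf (nat_lit 0) (nat_lit 53985079705) (nat_lit 152) (nat_lit 1090070098159) (nat_lit 0) (nat_lit 32143778801) (nat_lit 1) (nat_lit 5) (nat_lit 3) (nat_lit 4) (nat_lit 1) (nat_lit 4) (nat_lit 350) (nat_lit 266) (nat_lit 164)))) (XT.nd (nat_lit 156) (nat_lit 0) (nat_lit 0) (XT.nd (nat_lit 78) (nat_lit 0) (nat_lit 0) (XT.lf (nat_lit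 0) (nat_lit 70050734716) (nat_lit 152) (nat_lit 1150948726484) (nat_lit 0) (nat_lit 48208803013) (nat_lit 1) (nat_lit 5) (nat_lit 3) (nat_lit 4) (nat_lit 1) (nat_lit 4) (nat_lit 351) (nat_lit 266) (nat_lit 163)) (XT.lf (nat_lit 0) (nat_lit 87400892364) (nat_lit 152) (nat_lit 1216699107783) (nat_lit 0) (nat_lit 65558376588) (nat_lit 1) (nat_lit 5) (nat_lit 3) (nat_lit 4) (nat_lit 1) (nat_lit 4) (nat_lit 352) (nat_lit 266) (nat_lit 162))) (XT.nd (nat_lit 78) (nat_lit 0) (nat_lit 0) (XT.lf (nat_lit 0) (nat_lit 106138368398) (nat_lit 152) (nat_lit 1287710873946) (nat_lit 0) (nat_lit 84295311813) (nat_lit 1) (nat_lit 5) (nat_lit 3) (nat_lit 4) (nat_lit 1) (nat_lit 4) (nat_lit 353) (nat_lit 266) (nat_lit 161)) (XT.lf (nat_lit 0) (nat_lit 126374199713) (nat_lit 152) (nat_lit 1364404835439) (nat_lit 0) (nat_lit 104530642380) (nat_lit 1) (nat_lit 5) (nat_lit 3) (nat_lit 4) (nat_lit 1) (nat_lit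 4) (nat_lit 354) (nat_lit 266) (nat_lit 160))))) (XT.nd (nat_lit 312) (nat_lit 0) (nat_lit 0) (XT.nd (nat_lit 156) (nat_lit 0) (nat_lit 0) (XT.nd (nat_lit 78) (nat_lit 0) (nat_lit 0) (XT.lf (nat_lit 0) (nat_lit 148228302346) (nat_lit 152) (nat_lit 1447235474998) (nat_lit 0) (nat_lit 126384281357) (nat_lit 1) (nat_lit 5) (nat_lit 3) (nat_lit 4) (nat_lit 1) (nat_lit 4) (nat_lit 355) (nat_lit 266) (nat_lit 159)) (XT.lf (nat_lit 0) (nat_lit 171830182092) (nat_lit 152) (nat_lit 1536693640856) (nat_lit 0) (nat_lit 149985731792) (nat_lit 1) (nat_lit 5) (nat_lit 3) (nat_lit 4) (nat_lit 1) (nat_lit 4) (nat_lit 356) (nat_lit 266) (nat_lit 158))) (XT.nd (nat_lit 78) (nat_lit 0) (nat_lit 0) (XT.lf (nat_lit 0) (nat_lit 197319701941) (nat_lit 152) (nat_lit 1633309455477) (nat_lit 0) (nat_lit 175474854130) (nat_lit 1) (nat_lit 5) (nat_lit 3) (nat_lit 4) (nat_lit 1) (nat_lit 4) (nat_lit 357) (nat_lit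 266) (nat_lit 157)) (XT.lf (nat_lit 0) (nat_lit 224847910899) (nat_lit 152) (nat_lit 1737655457023) (nat_lit 0) (nat_lit 203002695023) (nat_lit 1) (nat_lit 5) (nat_lit 3) (nat_lit 4) (nat_lit 1) (nat_lit 4) (nat_lit 358) (nat_lit 266) (nat_lit 156)))) (XT.nd (nat_lit 156) (nat_lit 0) (nat_lit 0) (XT.nd (nat_lit 78) (nat_lit 0) (nat_lit 0) (XT.lf (nat_lit 0) (nat_lit 254577939094) (nat_lit 152) (nat_lit 1850349992170) (nat_lit 0) (nat_lit 232732382417) (nat_lit 1) (nat_lit 5) (nat_lit 3) (nat_lit 4) (nat_lit 1) (nat_lit 4) (nat_lit 359) (nat_lit 266) (nat_lit 155)) (XT.lf (nat_lit 0) (nat_lit 286685964471) (nat_lit 152) (nat_lit 1972060880384) (nat_lit 0) (nat_lit 264840092238) (nat_lit 1) (nat_lit 5) (nat_lit 3) (nat_lit 4) (nat_lit 1) (nat_lit 4) (nat_lit 360) (nat_lit 266) (nat_lit 154))) (XT.nd (nat_lit 78) (nat_lit 0) (nat_lit 0) (XT.lf (nat_lit 0) (nat_lit 321362256809) (nat_lit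 152) (nat_lit 2103509371374) (nat_lit 0) (nat_lit 299516092394) (nat_lit 1) (nat_lit 5) (nat_lit 3) (nat_lit 4) (nat_lit 1) (nat_lit 4) (nat_lit 361) (nat_lit 266) (nat_lit 153)) (XT.lf (nat_lit 0) (nat_lit 358812305249) (nat_lit 152) (nat_lit 2245474419160) (nat_lit 0) (nat_lit 336965870295) (nat_lit 1) (nat_lit 5) (nat_lit 3) (nat_lit 4) (nat_lit 1) (nat_lit 4) (nat_lit 362) (nat_lit 266) (nat_lit 152))))))) (XT.nd (nat_lit 33852) (nat_lit 0) (nat_lit 1520) (XT.nd (nat_lit 33228) (nat_lit 0) (nat_lit 3040) (XT.nd (nat_lit 234) (nat_lit 0) (nat_lit 0) (XT.nd (nat_lit 78) (nat_lit 0) (nat_lit 0) (XT.lf (nat_lit 0) (nat_lit 399258036003) (nat_lit 152) (nat_lit 2398797298101) (nat_lit 0) (nat_lit 377411350550) (nat_lit 1) (nat_lit 5) (nat_lit 3) (nat_lit 4) (nat_lit 1) (nat_lit 4) (nat_lit 363) (nat_lit 266) (nat_lit 151)) (XT.nd (nat_lit 78) (nat_lit 0) (nat_lit 0) (XT.lf (nat_lit 0)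 (nat_lit 442939127475) (nat_lit 152) (nat_lit 2564386588218) (nat_lit 0) (nat_lit 421092210079) (nat_lit 1) (nat_lit 5) (nat_lit 3) (nat_lit 4) (nat_lit 1) (nat_lit 4) (nat_lit 364) (nat_lit 266) (nat_lit 150)) (XT.lf (nat_lit 0) (nat_lit 490114430580) (nat_lit 152) (nat_lit 2743223559380) (nat_lit 0) (nat_lit 468267298420) (nat_lit 1) (nat_lit 5) (nat_lit 3) (nat_lit 4) (nat_lit 1) (nat_lit 4) (nat_lit 365) (nat_lit 266) (nat_lit 149)))) (XT.nd (nat_lit 156) (nat_lit 0) (nat_lit 0) (XT.nd (nat_lit 78) (nat_lit 0) (nat_lit 0) (XT.lf (nat_lit 0) (nat_lit 541063502667) (nat_lit 152) (nat_lit 2936367986230) (nat_lit 0) (nat_lit 519216171653) (nat_lit 1) (nat_lit 5) (nat_lit 3) (nat_lit 4) (nat_lit 1) (nat_lit 4) (nat_lit 366) (nat_lit 266) (nat_lit 148)) (XT.lf (nat_lit 0) (nat_lit 596088264164) (nat_lit 152) (nat_lit 3144964428335) (nat_lit 0) (nat_lit 574240749026) (nat_lit 1) (nat_lit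 5) (nat_lit 3) (nat_lit 4) (nat_lit 1) (nat_lit 4) (nat_lit 367) (nat_lit 266) (nat_lit 147))) (XT.nd (nat_lit 32760) (nat_lit 0) (nat_lit 3800) (XT.lf (nat_lit 0) (nat_lit 655514787732) (nat_lit 152) (nat_lit 3370249012759) (nat_lit 0) (nat_lit 633667102109) (nat_lit 1) (nat_lit 5) (nat_lit 3) (nat_lit 4) (nat_lit 1) (nat_lit 4) (nat_lit 368) (nat_lit 266) (nat_lit 146)) (XT.lf (nat_lit 0) (nat_lit 267111201) (nat_lit 0) (nat_lit 267111201) (nat_lit 380) (nat_lit 3404983004) (nat_lit 51) (nat_lit 5) (nat_lit 51) (nat_lit 3) (nat_lit 56) (nat_lit 3) (nat_lit 267) (nat_lit 267) (nat_lit 246))))) (XT.nd (nat_lit 312) (nat_lit 760) (nat_lit 0) (XT.nd (nat_lit 156) (nat_lit 0) (nat_lit 0) (XT.nd (nat_lit 78) (nat_lit 0) (nat_lit 0) (XT.lf (nat_lit 0) (nat_lit 2342441260) (nat_lit 380) (nat_lit 3765075527) (nat_lit 456) (nat_lit 1983238480) (nat_lit 51) (nat_lit 5) (nat_lit 56) (nat_lit 3)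 (nat_lit 57) (nat_lit 5) (nat_lit 268) (nat_lit 267) (nat_lit 245)) (XT.lf (nat_lit 76) (nat_lit 16954526) (nat_lit 0) (nat_lit 3598945648) (nat_lit 456) (nat_lit 4712813020) (nat_lit 52) (nat_lit 5) (nat_lit 51) (nat_lit 5) (nat_lit 57) (nat_lit 5) (nat_lit 269) (nat_lit 267) (nat_lit 244))) (XT.nd (nat_lit 78) (nat_lit 0) (nat_lit 76) (XT.lf (nat_lit 76) (nat_lit 4247067956) (nat_lit 0) (nat_lit 737368354) (nat_lit 456) (nat_lit 3602212938) (nat_lit 52) (nat_lit 5) (nat_lit 51) (nat_lit 5) (nat_lit 57) (nat_lit 5) (nat_lit 270) (nat_lit 267) (nat_lit 243)) (XT.lf (nat_lit 0) (nat_lit 6418350251) (nat_lit 380) (nat_lit 179156621) (nat_lit 456) (nat_lit 2271609805) (nat_lit 52) (nat_lit 5) (nat_lit 57) (nat_lit 5) (nat_lit 58) (nat_lit 5) (nat_lit 271) (nat_lit 267) (nat_lit 242)))) (XT.nd (nat_lit 156) (nat_lit 380) (nat_lit 0) (XT.nd (nat_lit 78) (nat_lit 456) (nat_lit 0) (XT.lf (nat_lit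 76) (nat_lit 4450026521) (nat_lit 0) (nat_lit 3549887527) (nat_lit 456) (nat_lit 1171973333) (nat_lit 53) (nat_lit 5) (nat_lit 52) (nat_lit 5) (nat_lit 58) (nat_lit 5) (nat_lit 272) (nat_lit 267) (nat_lit 241)) (XT.lf (nat_lit 0) (nat_lit 113189050) (nat_lit 456) (nat_lit 114790871) (nat_lit 532) (nat_lit 9277627504) (nat_lit 46) (nat_lit 5) (nat_lit 52) (nat_lit 5) (nat_lit 53) (nat_lit 5) (nat_lit 273) (nat_lit 267) (nat_lit 240))) (XT.nd (nat_lit 78) (nat_lit 456) (nat_lit 0) (XT.lf (nat_lit 0) (nat_lit 1559840708) (nat_lit 456) (nat_lit 4930395602) (nat_lit 76) (nat_lit 3363864583) (nat_lit 47) (nat_lit 5) (nat_lit 53) (nat_lit 5) (nat_lit 48) (nat_lit 5) (nat_lit 274) (nat_lit 267) (nat_lit 239)) (XT.lf (nat_lit 0) (nat_lit 68076185) (nat_lit 456) (nat_lit 2986165342) (nat_lit 532) (nat_lit 7181921461) (nat_lit 41) (nat_lit 5) (nat_lit 47) (nat_lit 5) (nat_lit 48) (nat_lit 5) (nat_lit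 275) (nat_lit 267) (nat_lit 238)))))) (XT.nd (nat_lit 624) (nat_lit 608) (nat_lit 0) (XT.nd (nat_lit 312) (nat_lit 456) (nat_lit 0) (XT.nd (nat_lit 156) (nat_lit 228) (nat_lit 0) (XT.nd (nat_lit 78) (nat_lit 228) (nat_lit 0) (XT.lf (nat_lit 0) (nat_lit 4751240774) (nat_lit 532) (nat_lit 4989331174) (nat_lit 76) (nat_lit 901806352) (nat_lit 41) (nat_lit 5) (nat_lit 48) (nat_lit 5) (nat_lit 42) (nat_lit 5) (nat_lit 276) (nat_lit 267) (nat_lit 237)) (XT.lf (nat_lit 0) (nat_lit 480330686) (nat_lit 228) (nat_lit 6123841081) (nat_lit 304) (nat_lit 4475520097) (nat_lit 38) (nat_lit 5) (nat_lit 41) (nat_lit 5) (nat_lit 42) (nat_lit 5) (nat_lit 277) (nat_lit 267) (nat_lit 236))) (XT.nd (nat_lit 78) (nat_lit 228) (nat_lit 0) (XT.lf (nat_lit 0) (nat_lit 6603222208) (nat_lit 228) (nat_lit 2073058588) (nat_lit 304) (nat_lit 2870233100) (nat_lit 38) (nat_lit 5) (nat_lit 41) (nat_lit 5) (nat_lit 42)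 (nat_lit 5) (nat_lit 278) (nat_lit 267) (nat_lit 235)) (XT.lf (nat_lit 0) (nat_lit 1096746079) (nat_lit 228) (nat_lit 9838465269) (nat_lit 304) (nat_lit 1113970252) (nat_lit 35) (nat_lit 5) (nat_lit 38) (nat_lit 5) (nat_lit 39) (nat_lit 5) (nat_lit 279) (nat_lit 267) (nat_lit 234)))) (XT.nd (nat_lit 156) (nat_lit 152) (nat_lit 0) (XT.nd (nat_lit 78) (nat_lit 228) (nat_lit 0) (XT.lf (nat_lit 0) (nat_lit 876705405) (nat_lit 304) (nat_lit 4825905238) (nat_lit 76) (nat_lit 6877458223) (nat_lit 34) (nat_lit 5) (nat_lit 38) (nat_lit 5) (nat_lit 35) (nat_lit 5) (nat_lit 280) (nat_lit 267) (nat_lit 233)) (XT.lf (nat_lit 0) (nat_lit 1786759937) (nat_lit 228) (nat_lit 1167622405) (nat_lit 304) (nat_lit 10197841756) (nat_lit 31) (nat_lit 5) (nat_lit 34) (nat_lit 5) (nat_lit 35) (nat_lit 5) (nat_lit 281) (nat_lit 267) (nat_lit 232))) (XT.nd (nat_lit 78) (nat_lit 152) (nat_lit 0) (XT.lf (nat_lit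 0) (nat_lit 5370637267) (nat_lit 304) (nat_lit 4716729657) (nat_lit 76) (nat_lit 3669131060) (nat_lit 31) (nat_lit 5) (nat_lit 35) (nat_lit 5) (nat_lit 32) (nat_lit 5) (nat_lit 282) (nat_lit 267) (nat_lit 231)) (XT.lf (nat_lit 0) (nat_lit 2496529050) (nat_lit 152) (nat_lit 5525215600) (nat_lit 228) (nat_lit 6384170287) (nat_lit 29) (nat_lit 5) (nat_lit 31) (nat_lit 5) (nat_lit 32) (nat_lit 5) (nat_lit 283) (nat_lit 267) (nat_lit 230))))) (XT.nd (nat_lit 312) (nat_lit 228) (nat_lit 0) (XT.nd (nat_lit 156) (nat_lit 228) (nat_lit 0) (XT.nd (nat_lit 78) (nat_lit 152) (nat_lit 0) (XT.lf (nat_lit 0) (nat_lit 10494727785) (nat_lit 152) (nat_lit 472523528) (nat_lit 228) (nat_lit 4133565114) (nat_lit 29) (nat_lit 5) (nat_lit 31) (nat_lit 5) (nat_lit 32) (nat_lit 5) (nat_lit 284) (nat_lit 267) (nat_lit 229)) (XT.lf (nat_lit 0) (nat_lit 3265815511) (nat_lit 152) (nat_lit 11037497864) (nat_lit 228)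 (nat_lit 1535710911) (nat_lit 27) (nat_lit 5) (nat_lit 29) (nat_lit 5) (nat_lit 30) (nat_lit 5) (nat_lit 285) (nat_lit 267) (nat_lit 228))) (XT.nd (nat_lit 78) (nat_lit 152) (nat_lit 0) (XT.lf (nat_lit 0) (nat_lit 1305082047) (nat_lit 228) (nat_lit 4702878970) (nat_lit 76) (nat_lit 10618085279) (nat_lit 26) (nat_lit 5) (nat_lit 29) (nat_lit 5) (nat_lit 27) (nat_lit 5) (nat_lit 286) (nat_lit 267) (nat_lit 227)) (XT.lf (nat_lit 0) (nat_lit 3896552259) (nat_lit 152) (nat_lit 447660124) (nat_lit 228) (nat_lit 13124388509) (nat_lit 24) (nat_lit 5) (nat_lit 26) (nat_lit 5) (nat_lit 27) (nat_lit 5) (nat_lit 287) (nat_lit 267) (nat_lit 226)))) (XT.nd (nat_lit 156) (nat_lit 76) (nat_lit 0) (XT.nd (nat_lit 78) (nat_lit 152) (nat_lit 0) (XT.lf (nat_lit 0) (nat_lit 7853633824) (nat_lit 228) (nat_lit 5110760422) (nat_lit 76) (nat_lit 5396071728) (nat_lit 24) (nat_lit 5) (nat_lit 27) (nat_lit 5) (nat_lit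 25) (nat_lit 5) (nat_lit 288) (nat_lit 267) (nat_lit 225)) (XT.lf (nat_lit 0) (nat_lit 4171823310) (nat_lit 152) (nat_lit 7548370283) (nat_lit 228) (nat_lit 7597449022) (nat_lit 22) (nat_lit 5) (nat_lit 24) (nat_lit 5) (nat_lit 25) (nat_lit 5) (nat_lit 289) (nat_lit 267) (nat_lit 224))) (XT.nd (nat_lit 78) (nat_lit 76) (nat_lit 0) (XT.lf (nat_lit 0) (nat_lit 14436329173) (nat_lit 152) (nat_lit 1565311376) (nat_lit 228) (nat_lit 4341375550) (nat_lit 22) (nat_lit 5) (nat_lit 24) (nat_lit 5) (nat_lit 25) (nat_lit 5) (nat_lit 290) (nat_lit 267) (nat_lit 223)) (XT.lf (nat_lit 0) (nat_lit 4109651939) (nat_lit 76) (nat_lit 16700521333) (nat_lit 152) (nat_lit 625543282) (nat_lit 21) (nat_lit 5) (nat_lit 22) (nat_lit 5) (nat_lit 23) (nat_lit 4) (nat_lit 291) (nat_lit 267) (nat_lit 222))))))))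
noncomputable def xc62 : XT := (XT.nd (nat_lit 2340) (nat_lit 304) (nat_lit 0) (XT.nd (nat_lit 1170) (nat_lit 380) (nat_lit 0) (XT.nd (nat_lit 546) (nat_lit 304) (nat_lit 0) (XT.nd (nat_lit 234) (nat_lit 304) (nat_lit 0) (XT.nd (nat_lit 78) (nat_lit 152) (nat_lit 0) (XT.lf (nat_lit 0) (nat_lit 3392772745) (nat_lit 152) (nat_lit 7516229148) (nat_lit 76) (nat_lit 11686393120) (nat_lit 20) (nat_lit 5) (nat_lit 22) (nat_lit 5) (nat_lit 21) (nat_lit 5) (nat_lit 292) (nat_lit 267) (nat_lit 221)) (XT.nd (nat_lit 78) (nat_lit 0) (nat_lit 0) (XT.lf (nat_lit 0) (nat_lit 3174454084) (nat_lit 152) (nat_lit 4571321300) (nat_lit 228) (nat_lit 16097060950) (nat_lit 18) (nat_lit 5) (nat_lit 20) (nat_lit 5) (nat_lit 21) (nat_lit 5) (nat_lit 293) (nat_lit 267) (nat_lit 220)) (XT.lf (nat_lit 0) (nat_lit 12683881263) (nat_lit 228) (nat_lit 10133006921) (nat_lit 76) (nat_lit 2354281811) (nat_lit 18) (nat_lit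 5) (nat_lit 21) (nat_lit 5) (nat_lit 19) (nat_lit 4) (nat_lit 294) (nat_lit 267) (nat_lit 219)))) (XT.nd (nat_lit 156) (nat_lit 228) (nat_lit 0) (XT.nd (nat_lit 78) (nat_lit 0) (nat_lit 0) (XT.lf (nat_lit 0) (nat_lit 1139766931) (nat_lit 76) (nat_lit 16996881895) (nat_lit 152) (nat_lit 8459595133) (nat_lit 17) (nat_lit 5) (nat_lit 18) (nat_lit 5) (nat_lit 19) (nat_lit 4) (nat_lit 295) (nat_lit 267) (nat_lit 218)) (XT.lf (nat_lit 0) (nat_lit 13848030756) (nat_lit 76) (nat_lit 10429068395) (nat_lit 152) (nat_lit 3838147286) (nat_lit 17) (nat_lit 5) (nat_lit 18) (nat_lit 5) (nat_lit 19) (nat_lit 4) (nat_lit 296) (nat_lit 267) (nat_lit 217))) (XT.nd (nat_lit 78) (nat_lit 152) (nat_lit 0) (XT.lf (nat_lit 0) (nat_lit 1070990345) (nat_lit 152) (nat_lit 2251308555) (nat_lit 76) (nat_lit 26433233477) (nat_lit 16) (nat_lit 5) (nat_lit 18) (nat_lit 5) (nat_lit 17) (nat_lit 5) (nat_lit 297) (nat_lit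 267) (nat_lit 216)) (XT.lf (nat_lit 0) (nat_lit 6524893473) (nat_lit 228) (nat_lit 20467330540) (nat_lit 76) (nat_lit 4498121639) (nat_lit 14) (nat_lit 5) (nat_lit 17) (nat_lit 5) (nat_lit 15) (nat_lit 4) (nat_lit 298) (nat_lit 267) (nat_lit 215))))) (XT.nd (nat_lit 312) (nat_lit 228) (nat_lit 0) (XT.nd (nat_lit 156) (nat_lit 0) (nat_lit 0) (XT.nd (nat_lit 78) (nat_lit 76) (nat_lit 0) (XT.lf (nat_lit 0) (nat_lit 12542435576) (nat_lit 228) (nat_lit 7997791417) (nat_lit 76) (nat_lit 12813559894) (nat_lit 14) (nat_lit 5) (nat_lit 17) (nat_lit 5) (nat_lit 15) (nat_lit 4) (nat_lit 299) (nat_lit 267) (nat_lit 214)) (XT.lf (nat_lit 0) (nat_lit 5720083999) (nat_lit 76) (nat_lit 13438383406) (nat_lit 152) (nat_lit 16198495996) (nat_lit 13) (nat_lit 5) (nat_lit 14) (nat_lit 5) (nat_lit 15) (nat_lit 4) (nat_lit 300) (nat_lit 267) (nat_lit 213))) (XT.nd (nat_lit 78) (nat_lit 0) (nat_lit 0) (XT.lf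 (nat_lit 0) (nat_lit 20955757737) (nat_lit 76) (nat_lit 5546904124) (nat_lit 152) (nat_lit 11001846663) (nat_lit 13) (nat_lit 5) (nat_lit 14) (nat_lit 5) (nat_lit 15) (nat_lit 4) (nat_lit 301) (nat_lit 267) (nat_lit 212)) (XT.lf (nat_lit 0) (nat_lit 34487307784) (nat_lit 152) (nat_lit 2518224182) (nat_lit 0) (nat_lit 2814115070) (nat_lit 13) (nat_lit 5) (nat_lit 15) (nat_lit 4) (nat_lit 13) (nat_lit 4) (nat_lit 302) (nat_lit 267) (nat_lit 211)))) (XT.nd (nat_lit 156) (nat_lit 76) (nat_lit 0) (XT.nd (nat_lit 78) (nat_lit 0) (nat_lit 0) (XT.lf (nat_lit 0) (nat_lit 1204886780) (nat_lit 152) (nat_lit 29198980537) (nat_lit 76) (nat_lit 11878330631) (nat_lit 11) (nat_lit 5) (nat_lit 13) (nat_lit 5) (nat_lit 12) (nat_lit 4) (nat_lit 303) (nat_lit 267) (nat_lit 210)) (XT.lf (nat_lit 0) (nat_lit 8030483159) (nat_lit 152) (nat_lit 15031325558) (nat_lit 76) (nat_lit 21864604164) (nat_lit 11) (nat_lit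 5) (nat_lit 13) (nat_lit 5) (nat_lit 12) (nat_lit 4) (nat_lit 304) (nat_lit 267) (nat_lit 209))) (XT.nd (nat_lit 78) (nat_lit 0) (nat_lit 0) (XT.lf (nat_lit 0) (nat_lit 253947022) (nat_lit 76) (nat_lit 15138395055) (nat_lit 152) (nat_lit 32390622688) (nat_lit 10) (nat_lit 5) (nat_lit 11) (nat_lit 5) (nat_lit 12) (nat_lit 4) (nat_lit 305) (nat_lit 267) (nat_lit 208)) (XT.lf (nat_lit 0) (nat_lit 17589109433) (nat_lit 76) (nat_lit 6149639951) (nat_lit 152) (nat_lit 27097659129) (nat_lit 10) (nat_lit 5) (nat_lit 11) (nat_lit 5) (nat_lit 12) (nat_lit 4) (nat_lit 306) (nat_lit 267) (nat_lit 207)))))) (XT.nd (nat_lit 546) (nat_lit 152) (nat_lit 0) (XT.nd (nat_lit 234) (nat_lit 152) (nat_lit 0) (XT.nd (nat_lit 78) (nat_lit 76) (nat_lit 0) (XT.lf (nat_lit 0) (nat_lit 32823924572) (nat_lit 152) (nat_lit 17935215391) (nat_lit 0) (nat_lit 3369317903) (nat_lit 10) (nat_lit 5) (nat_lit 12) (nat_lit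 4) (nat_lit 10) (nat_lit 4) (nat_lit 307) (nat_lit 267) (nat_lit 206)) (XT.nd (nat_lit 78) (nat_lit 76) (nat_lit 0) (XT.lf (nat_lit 0) (nat_lit 42782200353) (nat_lit 152) (nat_lit 1582523039) (nat_lit 0) (nat_lit 13307458297) (nat_lit 10) (nat_lit 5) (nat_lit 12) (nat_lit 4) (nat_lit 10) (nat_lit 4) (nat_lit 308) (nat_lit 267) (nat_lit 205)) (XT.lf (nat_lit 0) (nat_lit 16901040292) (nat_lit 76) (nat_lit 37030119877) (nat_lit 76) (nat_lit 7536733945) (nat_lit 9) (nat_lit 4) (nat_lit 10) (nat_lit 5) (nat_lit 10) (nat_lit 4) (nat_lit 309) (nat_lit 267) (nat_lit 204)))) (XT.nd (nat_lit 156) (nat_lit 76) (nat_lit 0) (XT.nd (nat_lit 78) (nat_lit 0) (nat_lit 0) (XT.lf (nat_lit 0) (nat_lit 416532598) (nat_lit 152) (nat_lit 28644260974) (nat_lit 76) (nat_lit 36503141233) (nat_lit 8) (nat_lit 5) (nat_lit 10) (nat_lit 5) (nat_lit 9) (nat_lit 4) (nat_lit 310) (nat_lit 267) (nat_lit 203)) (XT.lf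 (nat_lit 0) (nat_lit 8587413394) (nat_lit 152) (nat_lit 11664813039) (nat_lit 76) (nat_lit 49720698875) (nat_lit 8) (nat_lit 5) (nat_lit 10) (nat_lit 5) (nat_lit 9) (nat_lit 4) (nat_lit 311) (nat_lit 267) (nat_lit 202))) (XT.nd (nat_lit 78) (nat_lit 0) (nat_lit 0) (XT.lf (nat_lit 0) (nat_lit 7003722111) (nat_lit 76) (nat_lit 10566064004) (nat_lit 152) (nat_lit 57152232371) (nat_lit 7) (nat_lit 5) (nat_lit 8) (nat_lit 5) (nat_lit 9) (nat_lit 4) (nat_lit 312) (nat_lit 267) (nat_lit 201)) (XT.lf (nat_lit 0) (nat_lit 27584939772) (nat_lit 152) (nat_lit 52021900181) (nat_lit 0) (nat_lit 219072351) (nat_lit 7) (nat_lit 5) (nat_lit 9) (nat_lit 4) (nat_lit 7) (nat_lit 4) (nat_lit 313) (nat_lit 267) (nat_lit 200))))) (XT.nd (nat_lit 312) (nat_lit 76) (nat_lit 0) (XT.nd (nat_lit 156) (nat_lit 76) (nat_lit 0) (XT.nd (nat_lit 78) (nat_lit 0) (nat_lit 0) (XT.lf (nat_lit 0) (nat_lit 38666022876) (nat_lit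 152) (nat_lit 35362518579) (nat_lit 0) (nat_lit 11288406650) (nat_lit 7) (nat_lit 5) (nat_lit 9) (nat_lit 4) (nat_lit 7) (nat_lit 4) (nat_lit 314) (nat_lit 267) (nat_lit 199)) (XT.lf (nat_lit 0) (nat_lit 50624587010) (nat_lit 152) (nat_lit 17387315213) (nat_lit 0) (nat_lit 23236092262) (nat_lit 7) (nat_lit 5) (nat_lit 9) (nat_lit 4) (nat_lit 7) (nat_lit 4) (nat_lit 315) (nat_lit 267) (nat_lit 198))) (XT.nd (nat_lit 78) (nat_lit 0) (nat_lit 0) (XT.lf (nat_lit 0) (nat_lit 2116084769) (nat_lit 76) (nat_lit 61466304861) (nat_lit 76) (nat_lit 34067737407) (nat_lit 6) (nat_lit 4) (nat_lit 7) (nat_lit 5) (nat_lit 7) (nat_lit 4) (nat_lit 316) (nat_lit 267) (nat_lit 197)) (XT.lf (nat_lit 0) (nat_lit 24153310820) (nat_lit 76) (nat_lit 53890817349) (nat_lit 76) (nat_lit 26482923315) (nat_lit 6) (nat_lit 4) (nat_lit 7) (nat_lit 5) (nat_lit 7) (nat_lit 4) (nat_lit 317) (nat_lit 267) (nat_lit 196))))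 (XT.nd (nat_lit 156) (nat_lit 76) (nat_lit 0) (XT.nd (nat_lit 78) (nat_lit 0) (nat_lit 0) (XT.lf (nat_lit 0) (nat_lit 47939368704) (nat_lit 76) (nat_lit 45715947922) (nat_lit 76) (nat_lit 18299418165) (nat_lit 6) (nat_lit 4) (nat_lit 7) (nat_lit 5) (nat_lit 7) (nat_lit 4) (nat_lit 318) (nat_lit 267) (nat_lit 195)) (XT.lf (nat_lit 0) (nat_lit 73615212836) (nat_lit 76) (nat_lit 36893252908) (nat_lit 76) (nat_lit 9468727112) (nat_lit 6) (nat_lit 4) (nat_lit 7) (nat_lit 5) (nat_lit 7) (nat_lit 4) (nat_lit 319) (nat_lit 267) (nat_lit 194))) (XT.nd (nat_lit 78) (nat_lit 0) (nat_lit 0) (XT.lf (nat_lit 0) (nat_lit 58404392) (nat_lit 152) (nat_lit 27310448397) (nat_lit 76) (nat_lit 101272995095) (nat_lit 5) (nat_lit 5) (nat_lit 7) (nat_lit 5) (nat_lit 6) (nat_lit 4) (nat_lit 320) (nat_lit 267) (nat_lit 193)) (XT.lf (nat_lit 0) (nat_lit 9830045302) (nat_lit 152) (nat_lit 6992290621) (nat_lit 76)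 (nat_lit 121158156669) (nat_lit 5) (nat_lit 5) (nat_lit 7) (nat_lit 5) (nat_lit 6) (nat_lit 4) (nat_lit 321) (nat_lit 267) (nat_lit 192))))))) (XT.nd (nat_lit 1170) (nat_lit 152) (nat_lit 0) (XT.nd (nat_lit 546) (nat_lit 76) (nat_lit 0) (XT.nd (nat_lit 234) (nat_lit 0) (nat_lit 0) (XT.nd (nat_lit 78) (nat_lit 0) (nat_lit 0) (XT.lf (nat_lit 0) (nat_lit 15727366910) (nat_lit 76) (nat_lit 5028642355) (nat_lit 152) (nat_lit 127280416193) (nat_lit 4) (nat_lit 5) (nat_lit 5) (nat_lit 5) (nat_lit 6) (nat_lit 4) (nat_lit 322) (nat_lit 267) (nat_lit 191)) (XT.nd (nat_lit 78) (nat_lit 0) (nat_lit 0) (XT.lf (nat_lit 0) (nat_lit 32931985607) (nat_lit 152) (nat_lit 118420392121) (nat_lit 0) (nat_lit 7514384041) (nat_lit 4) (nat_lit 5) (nat_lit 6) (nat_lit 4) (nat_lit 4) (nat_lit 4) (nat_lit 323) (nat_lit 267) (nat_lit 190)) (XT.lf (nat_lit 0) (nat_lit 46207466320) (nat_lit 152) (nat_lit 103561202035)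 (nat_lit 0) (nat_lit 20784825894) (nat_lit 4) (nat_lit 5) (nat_lit 6) (nat_lit 4) (nat_lit 4) (nat_lit 4) (nat_lit 324) (nat_lit 267) (nat_lit 189)))) (XT.nd (nat_lit 156) (nat_lit 0) (nat_lit 0) (XT.nd (nat_lit 78) (nat_lit 0) (nat_lit 0) (XT.lf (nat_lit 0) (nat_lit 60540181952) (nat_lit 152) (nat_lit 87522494861) (nat_lit 0) (nat_lit 35112875914) (nat_lit 4) (nat_lit 5) (nat_lit 6) (nat_lit 4) (nat_lit 4) (nat_lit 4) (nat_lit 325) (nat_lit 267) (nat_lit 188)) (XT.lf (nat_lit 0) (nat_lit 76015067113) (nat_lit 152) (nat_lit 70209226409) (nat_lit 0) (nat_lit 50583441064) (nat_lit 4) (nat_lit 5) (nat_lit 6) (nat_lit 4) (nat_lit 4) (nat_lit 4) (nat_lit 326) (nat_lit 267) (nat_lit 187))) (XT.nd (nat_lit 78) (nat_lit 0) (nat_lit 0) (XT.lf (nat_lit 0) (nat_lit 92723824828) (nat_lit 152) (nat_lit 51518799532) (nat_lit 0) (nat_lit 67288198768) (nat_lit 4) (nat_lit 5) (nat_lit 6) (nat_lit 4)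 (nat_lit 4) (nat_lit 4) (nat_lit 327) (nat_lit 267) (nat_lit 186)) (XT.lf (nat_lit 0) (nat_lit 110765469955) (nat_lit 152) (nat_lit 31340456145) (nat_lit 0) (nat_lit 85326140183) (nat_lit 4) (nat_lit 5) (nat_lit 6) (nat_lit 4) (nat_lit 4) (nat_lit 4) (nat_lit 328) (nat_lit 267) (nat_lit 185))))) (XT.nd (nat_lit 312) (nat_lit 0) (nat_lit 0) (XT.nd (nat_lit 156) (nat_lit 0) (nat_lit 0) (XT.nd (nat_lit 78) (nat_lit 76) (nat_lit 0) (XT.lf (nat_lit 0) (nat_lit 130246915949) (nat_lit 152) (nat_lit 9554620879) (nat_lit 0) (nat_lit 104804156812) (nat_lit 4) (nat_lit 5) (nat_lit 6) (nat_lit 4) (nat_lit 4) (nat_lit 4) (nat_lit 329) (nat_lit 267) (nat_lit 184)) (XT.lf (nat_lit 0) (nat_lit 14703327501) (nat_lit 76) (nat_lit 136933896293) (nat_lit 76) (nat_lit 111487961820) (nat_lit 3) (nat_lit 4) (nat_lit 4) (nat_lit 5) (nat_lit 4) (nat_lit 4) (nat_lit 330) (nat_lit 267) (nat_lit 183))) (XT.nd (nat_lit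 78) (nat_lit 0) (nat_lit 0) (XT.lf (nat_lit 0) (nat_lit 41439176638) (nat_lit 76) (nat_lit 133557645789) (nat_lit 76) (nat_lit 108108771189) (nat_lit 3) (nat_lit 4) (nat_lit 4) (nat_lit 5) (nat_lit 4) (nat_lit 4) (nat_lit 331) (nat_lit 267) (nat_lit 182)) (XT.lf (nat_lit 0) (nat_lit 70308231790) (nat_lit 76) (nat_lit 129914018173) (nat_lit 76) (nat_lit 104462421233) (nat_lit 3) (nat_lit 4) (nat_lit 4) (nat_lit 5) (nat_lit 4) (nat_lit 4) (nat_lit 332) (nat_lit 267) (nat_lit 181)))) (XT.nd (nat_lit 156) (nat_lit 0) (nat_lit 0) (XT.nd (nat_lit 78) (nat_lit 0) (nat_lit 0) (XT.lf (nat_lit 0) (nat_lit 101481568840) (nat_lit 76) (nat_lit 125981421577) (nat_lit 76) (nat_lit 100527303952) (nat_lit 3) (nat_lit 4) (nat_lit 4) (nat_lit 5) (nat_lit 4) (nat_lit 4) (nat_lit 333) (nat_lit 267) (nat_lit 180)) (XT.lf (nat_lit 0) (nat_lit 135143918674) (nat_lit 76) (nat_lit 121736551726) (nat_lit 76) (nat_lit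 96280100133) (nat_lit 3) (nat_lit 4) (nat_lit 4) (nat_lit 5) (nat_lit 4) (nat_lit 4) (nat_lit 334) (nat_lit 267) (nat_lit 179))) (XT.nd (nat_lit 78) (nat_lit 0) (nat_lit 0) (XT.lf (nat_lit 0) (nat_lit 171494761883) (nat_lit 76) (nat_lit 117154253834) (nat_lit 76) (nat_lit 91695641160) (nat_lit 3) (nat_lit 4) (nat_lit 4) (nat_lit 5) (nat_lit 4) (nat_lit 4) (nat_lit 335) (nat_lit 267) (nat_lit 178)) (XT.lf (nat_lit 0) (nat_lit 210749510871) (nat_lit 76) (nat_lit 112207373544) (nat_lit 76) (nat_lit 86746759869) (nat_lit 3) (nat_lit 4) (nat_lit 4) (nat_lit 5) (nat_lit 4) (nat_lit 4) (nat_lit 336) (nat_lit 267) (nat_lit 177)))))) (XT.nd (nat_lit 624) (nat_lit 152) (nat_lit 0) (XT.nd (nat_lit 312) (nat_lit 0) (nat_lit 0) (XT.nd (nat_lit 156) (nat_lit 0) (nat_lit 0) (XT.nd (nat_lit 78) (nat_lit 0) (nat_lit 0) (XT.lf (nat_lit 0) (nat_lit 253140786374) (nat_lit 76) (nat_lit 106866596011) (nat_lit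 76) (nat_lit 81404129557) (nat_lit 3) (nat_lit 4) (nat_lit 4) (nat_lit 5) (nat_lit 4) (nat_lit 4) (nat_lit 337) (nat_lit 267) (nat_lit 176)) (XT.lf (nat_lit 0) (nat_lit 298919795950) (nat_lit 76) (nat_lit 101100272181) (nat_lit 76) (nat_lit 75636090191) (nat_lit 3) (nat_lit 4) (nat_lit 4) (nat_lit 5) (nat_lit 4) (nat_lit 4) (nat_lit 338) (nat_lit 267) (nat_lit 175))) (XT.nd (nat_lit 78) (nat_lit 0) (nat_lit 0) (XT.lf (nat_lit 0) (nat_lit 348357822618) (nat_lit 76) (nat_lit 94874231247) (nat_lit 76) (nat_lit 69408460798) (nat_lit 3) (nat_lit 4) (nat_lit 4) (nat_lit 5) (nat_lit 4) (nat_lit 4) (nat_lit 339) (nat_lit 267) (nat_lit 174)) (XT.lf (nat_lit 0) (nat_lit 401747832462) (nat_lit 76) (nat_lit 88151578151) (nat_lit 76) (nat_lit 62684336907) (nat_lit 3) (nat_lit 4) (nat_lit 4) (nat_lit 5) (nat_lit 4) (nat_lit 4) (nat_lit 340) (nat_lit 267) (nat_lit 173)))) (XT.nd (nat_lit 156) (nat_lit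 0) (nat_lit 0) (XT.nd (nat_lit 78) (nat_lit 0) (nat_lit 0) (XT.lf (nat_lit 0) (nat_lit 459406210727) (nat_lit 76) (nat_lit 80892474950) (nat_lit 76) (nat_lit 55423871858) (nat_lit 3) (nat_lit 4) (nat_lit 4) (nat_lit 5) (nat_lit 4) (nat_lit 4) (nat_lit 341) (nat_lit 267) (nat_lit 172)) (XT.lf (nat_lit 0) (nat_lit 521674636690) (nat_lit 76) (nat_lit 73053904735) (nat_lit 76) (nat_lit 47584040673) (nat_lit 3) (nat_lit 4) (nat_lit 4) (nat_lit 5) (nat_lit 4) (nat_lit 4) (nat_lit 342) (nat_lit 267) (nat_lit 171))) (XT.nd (nat_lit 78) (nat_lit 0) (nat_lit 0) (XT.lf (nat_lit 0) (nat_lit 588922108432) (nat_lit 76) (nat_lit 64589416720) (nat_lit 76) (nat_lit 39118385094) (nat_lit 3) (nat_lit 4) (nat_lit 4) (nat_lit 5) (nat_lit 4) (nat_lit 4) (nat_lit 343) (nat_lit 267) (nat_lit 170)) (XT.lf (nat_lit 0) (nat_lit 661547129488) (nat_lit 76) (nat_lit 55448850977) (nat_lit 76) (nat_lit 29976738272)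 (nat_lit 3) (nat_lit 4) (nat_lit 4) (nat_lit 5) (nat_lit 4) (nat_lit 4) (nat_lit 344) (nat_lit 267) (nat_lit 169))))) (XT.nd (nat_lit 312) (nat_lit 0) (nat_lit 0) (XT.nd (nat_lit 156) (nat_lit 152) (nat_lit 0) (XT.nd (nat_lit 78) (nat_lit 0) (nat_lit 0) (XT.lf (nat_lit 0) (nat_lit 739980070354) (nat_lit 76) (nat_lit 45578041188) (nat_lit 76) (nat_lit 20104927485) (nat_lit 3) (nat_lit 4) (nat_lit 4) (nat_lit 5) (nat_lit 4) (nat_lit 4) (nat_lit 345) (nat_lit 267) (nat_lit 168)) (XT.lf (nat_lit 0) (nat_lit 824685718828) (nat_lit 76) (nat_lit 34918493668) (nat_lit 76) (nat_lit 9444453113) (nat_lit 3) (nat_lit 4) (nat_lit 4) (nat_lit 5) (nat_lit 4) (nat_lit 4) (nat_lit 346) (nat_lit 267) (nat_lit 167))) (XT.nd (nat_lit 78) (nat_lit 76) (nat_lit 0) (XT.lf (nat_lit 0) (nat_lit 1964415389) (nat_lit 152) (nat_lit 21388914739) (nat_lit 76) (nat_lit 914147908320) (nat_lit 2) (nat_lit 5) (nat_lit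 4) (nat_lit 5) (nat_lit 3) (nat_lit 4) (nat_lit 347) (nat_lit 267) (nat_lit 166)) (XT.lf (nat_lit 0) (nat_lit 3343273977) (nat_lit 76) (nat_lit 10511998787) (nat_lit 152) (nat_lit 997548757989) (nat_lit 1) (nat_lit 5) (nat_lit 2) (nat_lit 5) (nat_lit 3) (nat_lit 4) (nat_lit 348) (nat_lit 267) (nat_lit 165)))) (XT.nd (nat_lit 156) (nat_lit 0) (nat_lit 0) (XT.nd (nat_lit 78) (nat_lit 0) (nat_lit 0) (XT.lf (nat_lit 0) (nat_lit 27377252182) (nat_lit 152) (nat_lit 1059999440499) (nat_lit 0) (nat_lit 3787965942) (nat_lit 1) (nat_lit 5) (nat_lit 3) (nat_lit 4) (nat_lit 1) (nat_lit 4) (nat_lit 349) (nat_lit 267) (nat_lit 164)) (XT.lf (nat_lit 0) (nat_lit 42253219136) (nat_lit 152) (nat_lit 1116367837573) (nat_lit 0) (nat_lit 18663302098) (nat_lit 1) (nat_lit 5) (nat_lit 3) (nat_lit 4) (nat_lit 1) (nat_lit 4) (nat_lit 350) (nat_lit 267) (nat_lit 163))) (XT.nd (nat_lit 78) (nat_lit 0) (nat_lit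 0) (XT.lf (nat_lit 0) (nat_lit 58318513684) (nat_lit 152) (nat_lit 1177247169123) (nat_lit 0) (nat_lit 34728012572) (nat_lit 1) (nat_lit 5) (nat_lit 3) (nat_lit 4) (nat_lit 1) (nat_lit 4) (nat_lit 351) (nat_lit 267) (nat_lit 162)) (XT.lf (nat_lit 0) (nat_lit 75668337569) (nat_lit 152) (nat_lit 1242998201557) (nat_lit 0) (nat_lit 52077295649) (nat_lit 1) (nat_lit 5) (nat_lit 3) (nat_lit 4) (nat_lit 1) (nat_lit 4) (nat_lit 352) (nat_lit 267) (nat_lit 161))))))))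
noncomputable def xc63 : XT := (XT.nd (nat_lit 35178) (nat_lit 0) (nat_lit 456) (XT.nd (nat_lit 1170) (nat_lit 0) (nat_lit 0) (XT.nd (nat_lit 546) (nat_lit 0) (nat_lit 0) (XT.nd (nat_lit 234) (nat_lit 0) (nat_lit 0) (XT.nd (nat_lit 78) (nat_lit 0) (nat_lit 0) (XT.lf (nat_lit 0) (nat_lit 94405504564) (nat_lit 152) (nat_lit 1314010570622) (nat_lit 0) (nat_lit 70813961896) (nat_lit 1) (nat_lit 5) (nat_lit 3) (nat_lit 4) (nat_lit 1) (nat_lit 4) (nat_lit 353) (nat_lit 267) (nat_lit 160)) (XT.nd (nat_lit 78) (nat_lit 0) (nat_lit 0) (XT.lf (nat_lit 0) (nat_lit 114641049732) (nat_lit 152) (nat_lit 1390705090359) (nat_lit 0) (nat_lit 91049043407) (nat_lit 1) (nat_lit 5) (nat_lit 3) (nat_lit 4) (nat_lit 1) (nat_lit 4) (nat_lit 354) (nat_lit 267) (nat_lit 159)) (XT.lf (nat_lit 0) (nat_lit 136494887414) (nat_lit 152) (nat_lit 1473536246809) (nat_lit 0) (nat_lit 112902451779) (nat_lit 1) (nat_lit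 5) (nat_lit 3) (nat_lit 4) (nat_lit 1) (nat_lit 4) (nat_lit 355) (nat_lit 267) (nat_lit 158)))) (XT.nd (nat_lit 156) (nat_lit 0) (nat_lit 0) (XT.nd (nat_lit 78) (nat_lit 0) (nat_lit 0) (XT.lf (nat_lit 0) (nat_lit 160096521834) (nat_lit 152) (nat_lit 1562994891270) (nat_lit 0) (nat_lit 136503688689) (nat_lit 1) (nat_lit 5) (nat_lit 3) (nat_lit 4) (nat_lit 1) (nat_lit 4) (nat_lit 356) (nat_lit 267) (nat_lit 157)) (XT.lf (nat_lit 0) (nat_lit 185585814530) (nat_lit 152) (nat_lit 1659611149043) (nat_lit 0) (nat_lit 161992613319) (nat_lit 1) (nat_lit 5) (nat_lit 3) (nat_lit 4) (nat_lit 1) (nat_lit 4) (nat_lit 357) (nat_lit 267) (nat_lit 156))) (XT.nd (nat_lit 78) (nat_lit 0) (nat_lit 0) (XT.lf (nat_lit 0) (nat_lit 213113813162) (nat_lit 152) (nat_lit 1763957560915) (nat_lit 0) (nat_lit 189520271150) (nat_lit 1) (nat_lit 5) (nat_lit 3) (nat_lit 4) (nat_lit 1) (nat_lit 4) (nat_lit 358) (nat_lit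 267) (nat_lit 155)) (XT.lf (nat_lit 0) (nat_lit 242843646610) (nat_lit 152) (nat_lit 1876652475992) (nat_lit 0) (nat_lit 219249789041) (nat_lit 1) (nat_lit 5) (nat_lit 3) (nat_lit 4) (nat_lit 1) (nat_lit 4) (nat_lit 359) (nat_lit 267) (nat_lit 154))))) (XT.nd (nat_lit 312) (nat_lit 0) (nat_lit 0) (XT.nd (nat_lit 156) (nat_lit 0) (nat_lit 0) (XT.nd (nat_lit 78) (nat_lit 0) (nat_lit 0) (XT.lf (nat_lit 0) (nat_lit 274951491665) (nat_lit 152) (nat_lit 1998363715994) (nat_lit 0) (nat_lit 251357341914) (nat_lit 1) (nat_lit 5) (nat_lit 3) (nat_lit 4) (nat_lit 1) (nat_lit 4) (nat_lit 360) (nat_lit 267) (nat_lit 153)) (XT.lf (nat_lit 0) (nat_lit 309627617039) (nat_lit 152) (nat_lit 2129812532713) (nat_lit 0) (nat_lit 286033196749) (nat_lit 1) (nat_lit 5) (nat_lit 3) (nat_lit 4) (nat_lit 1) (nat_lit 4) (nat_lit 361) (nat_lit 267) (nat_lit 152))) (XT.nd (nat_lit 78) (nat_lit 0) (nat_lit 0) (XT.lf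 (nat_lit 0) (nat_lit 347077510882) (nat_lit 152) (nat_lit 2271777882101) (nat_lit 0) (nat_lit 323482840093) (nat_lit 1) (nat_lit 5) (nat_lit 3) (nat_lit 4) (nat_lit 1) (nat_lit 4) (nat_lit 362) (nat_lit 267) (nat_lit 151)) (XT.lf (nat_lit 0) (nat_lit 387523098491) (nat_lit 152) (nat_lit 2425101040302) (nat_lit 0) (nat_lit 363928195759) (nat_lit 1) (nat_lit 5) (nat_lit 3) (nat_lit 4) (nat_lit 1) (nat_lit 4) (nat_lit 363) (nat_lit 267) (nat_lit 150)))) (XT.nd (nat_lit 156) (nat_lit 0) (nat_lit 0) (XT.nd (nat_lit 78) (nat_lit 0) (nat_lit 0) (XT.lf (nat_lit 0) (nat_lit 431204057422) (nat_lit 152) (nat_lit 2590690588994) (nat_lit 0) (nat_lit 407608939928) (nat_lit 1) (nat_lit 5) (nat_lit 3) (nat_lit 4) (nat_lit 1) (nat_lit 4) (nat_lit 364) (nat_lit 267) (nat_lit 149)) (XT.lf (nat_lit 0) (nat_lit 478379237802) (nat_lit 152) (nat_lit 2769527799576) (nat_lit 0) (nat_lit 454783921454) (nat_lit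 1) (nat_lit 5) (nat_lit 3) (nat_lit 4) (nat_lit 1) (nat_lit 4) (nat_lit 365) (nat_lit 267) (nat_lit 148))) (XT.nd (nat_lit 78) (nat_lit 0) (nat_lit 0) (XT.lf (nat_lit 0) (nat_lit 529328196256) (nat_lit 152) (nat_lit 2962672448112) (nat_lit 0) (nat_lit 505732695784) (nat_lit 1) (nat_lit 5) (nat_lit 3) (nat_lit 4) (nat_lit 1) (nat_lit 4) (nat_lit 366) (nat_lit 267) (nat_lit 147)) (XT.lf (nat_lit 0) (nat_lit 584352852538) (nat_lit 152) (nat_lit 3171269095482) (nat_lit 0) (nat_lit 560757181580) (nat_lit 1) (nat_lit 5) (nat_lit 3) (nat_lit 4) (nat_lit 1) (nat_lit 4) (nat_lit 367) (nat_lit 267) (nat_lit 146)))))) (XT.nd (nat_lit 33384) (nat_lit 0) (nat_lit 2280) (XT.nd (nat_lit 33072) (nat_lit 0) (nat_lit 3420) (XT.nd (nat_lit 32916) (nat_lit 0) (nat_lit 3800) (XT.nd (nat_lit 32838) (nat_lit 0) (nat_lit 3800) (XT.lf (nat_lit 0) (nat_lit 643779278684) (nat_lit 152) (nat_lit 3396553869966) (nat_lit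 0) (nat_lit 620183449869) (nat_lit 1) (nat_lit 5) (nat_lit 3) (nat_lit 4) (nat_lit 1) (nat_lit 4) (nat_lit 368) (nat_lit 267) (nat_lit 145)) (XT.lf (nat_lit 0) (nat_lit 864803002) (nat_lit 0) (nat_lit 864803002) (nat_lit 380) (nat_lit 2428336089) (nat_lit 51) (nat_lit 5) (nat_lit 51) (nat_lit 3) (nat_lit 56) (nat_lit 3) (nat_lit 268) (nat_lit 268) (nat_lit 244))) (XT.nd (nat_lit 78) (nat_lit 0) (nat_lit 0) (XT.lf (nat_lit 0) (nat_lit 4638698101) (nat_lit 380) (nat_lit 2794831146) (nat_lit 456) (nat_lit 1128021818) (nat_lit 51) (nat_lit 5) (nat_lit 56) (nat_lit 3) (nat_lit 57) (nat_lit 5) (nat_lit 269) (nat_lit 268) (nat_lit 243)) (XT.lf (nat_lit 76) (nat_lit 1257572694) (nat_lit 0) (nat_lit 4630053345) (nat_lit 456) (nat_lit 2941606699) (nat_lit 52) (nat_lit 5) (nat_lit 51) (nat_lit 5) (nat_lit 57) (nat_lit 5) (nat_lit 270) (nat_lit 268) (nat_lit 242)))) (XT.nd (nat_lit 156) (nat_lit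 380) (nat_lit 0) (XT.nd (nat_lit 78) (nat_lit 0) (nat_lit 76) (XT.lf (nat_lit 76) (nat_lit 5734298027) (nat_lit 0) (nat_lit 1484498604) (nat_lit 456) (nat_lit 1901286860) (nat_lit 52) (nat_lit 5) (nat_lit 51) (nat_lit 5) (nat_lit 57) (nat_lit 5) (nat_lit 271) (nat_lit 268) (nat_lit 241)) (XT.lf (nat_lit 76) (nat_lit 1080479448) (nat_lit 0) (nat_lit 7561635133) (nat_lit 456) (nat_lit 793551000) (nat_lit 53) (nat_lit 5) (nat_lit 52) (nat_lit 5) (nat_lit 58) (nat_lit 5) (nat_lit 272) (nat_lit 268) (nat_lit 240))) (XT.nd (nat_lit 78) (nat_lit 0) (nat_lit 0) (XT.lf (nat_lit 0) (nat_lit 432395082) (nat_lit 456) (nat_lit 3788769678) (nat_lit 532) (nat_lit 5550845739) (nat_lit 46) (nat_lit 5) (nat_lit 52) (nat_lit 5) (nat_lit 53) (nat_lit 5) (nat_lit 273) (nat_lit 268) (nat_lit 239)) (XT.lf (nat_lit 76) (nat_lit 1117481616) (nat_lit 0) (nat_lit 545350316) (nat_lit 532) (nat_lit 8475089659) (nat_lit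 47) (nat_lit 5) (nat_lit 46) (nat_lit 5) (nat_lit 53) (nat_lit 5) (nat_lit 274) (nat_lit 268) (nat_lit 238))))) (XT.nd (nat_lit 312) (nat_lit 532) (nat_lit 0) (XT.nd (nat_lit 156) (nat_lit 228) (nat_lit 0) (XT.nd (nat_lit 78) (nat_lit 456) (nat_lit 0) (XT.lf (nat_lit 0) (nat_lit 3107418459) (nat_lit 456) (nat_lit 4043825268) (nat_lit 76) (nat_lit 3372836621) (nat_lit 47) (nat_lit 5) (nat_lit 53) (nat_lit 5) (nat_lit 48) (nat_lit 5) (nat_lit 275) (nat_lit 268) (nat_lit 237)) (XT.lf (nat_lit 0) (nat_lit 1322093833) (nat_lit 456) (nat_lit 3323913799) (nat_lit 532) (nat_lit 6297064089) (nat_lit 41) (nat_lit 5) (nat_lit 47) (nat_lit 5) (nat_lit 48) (nat_lit 5) (nat_lit 276) (nat_lit 268) (nat_lit 236))) (XT.nd (nat_lit 78) (nat_lit 228) (nat_lit 0) (XT.lf (nat_lit 0) (nat_lit 6376756065) (nat_lit 532) (nat_lit 4126502362) (nat_lit 76) (nat_lit 886997072) (nat_lit 41) (nat_lit 5) (nat_lit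 48) (nat_lit 5) (nat_lit 42) (nat_lit 5) (nat_lit 277) (nat_lit 268) (nat_lit 235)) (XT.lf (nat_lit 0) (nat_lit 1748783705) (nat_lit 228) (nat_lit 6566466962) (nat_lit 304) (nat_lit 3552604544) (nat_lit 38) (nat_lit 5) (nat_lit 41) (nat_lit 5) (nat_lit 42) (nat_lit 5) (nat_lit 278) (nat_lit 268) (nat_lit 234)))) (XT.nd (nat_lit 156) (nat_lit 304) (nat_lit 0) (XT.nd (nat_lit 78) (nat_lit 228) (nat_lit 0) (XT.lf (nat_lit 0) (nat_lit 8270393470) (nat_lit 228) (nat_lit 2195124196) (nat_lit 304) (nat_lit 1913780302) (nat_lit 38) (nat_lit 5) (nat_lit 41) (nat_lit 5) (nat_lit 42) (nat_lit 5) (nat_lit 279) (nat_lit 268) (nat_lit 233)) (XT.lf (nat_lit 0) (nat_lit 2382174600) (nat_lit 228) (nat_lit 10471646335) (nat_lit 304) (nat_lit 72711882) (nat_lit 35) (nat_lit 5) (nat_lit 38) (nat_lit 5) (nat_lit 39) (nat_lit 5) (nat_lit 280) (nat_lit 268) (nat_lit 232))) (XT.nd (nat_lit 78) (nat_lit 228)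 (nat_lit 0) (XT.lf (nat_lit 0) (nat_lit 1941128879) (nat_lit 304) (nat_lit 4048008606) (nat_lit 76) (nat_lit 7515153413) (nat_lit 34) (nat_lit 5) (nat_lit 38) (nat_lit 5) (nat_lit 35) (nat_lit 5) (nat_lit 281) (nat_lit 268) (nat_lit 231)) (XT.lf (nat_lit 0) (nat_lit 3064202212) (nat_lit 228) (nat_lit 1074451654) (nat_lit 304) (nat_lit 9987469564) (nat_lit 31) (nat_lit 5) (nat_lit 34) (nat_lit 5) (nat_lit 35) (nat_lit 5) (nat_lit 282) (nat_lit 268) (nat_lit 230))))))) (XT.nd (nat_lit 1170) (nat_lit 760) (nat_lit 0) (XT.nd (nat_lit 546) (nat_lit 532) (nat_lit 0) (XT.nd (nat_lit 234) (nat_lit 380) (nat_lit 0) (XT.nd (nat_lit 78) (nat_lit 152) (nat_lit 0) (XT.lf (nat_lit 0) (nat_lit 6682147697) (nat_lit 304) (nat_lit 3975278392) (nat_lit 76) (nat_lit 4126779164) (nat_lit 31) (nat_lit 5) (nat_lit 35) (nat_lit 5) (nat_lit 32) (nat_lit 5) (nat_lit 283) (nat_lit 268) (nat_lit 229)) (XT.nd (nat_lit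 78) (nat_lit 0) (nat_lit 0) (XT.lf (nat_lit 0) (nat_lit 3786717225) (nat_lit 152) (nat_lit 5719529254) (nat_lit 228) (nat_lit 5982624548) (nat_lit 29) (nat_lit 5) (nat_lit 31) (nat_lit 5) (nat_lit 32) (nat_lit 5) (nat_lit 284) (nat_lit 268) (nat_lit 228)) (XT.lf (nat_lit 0) (nat_lit 12343996610) (nat_lit 152) (nat_lit 280970230) (nat_lit 228) (nat_lit 3619547210) (nat_lit 29) (nat_lit 5) (nat_lit 31) (nat_lit 5) (nat_lit 32) (nat_lit 5) (nat_lit 285) (nat_lit 268) (nat_lit 227)))) (XT.nd (nat_lit 156) (nat_lit 152) (nat_lit 0) (XT.nd (nat_lit 78) (nat_lit 76) (nat_lit 0) (XT.lf (nat_lit 0) (nat_lit 4568571344) (nat_lit 152) (nat_lit 11631695180) (nat_lit 228) (nat_lit 843867570) (nat_lit 27) (nat_lit 5) (nat_lit 29) (nat_lit 5) (nat_lit 30) (nat_lit 5) (nat_lit 286) (nat_lit 268) (nat_lit 226)) (XT.lf (nat_lit 0) (nat_lit 2126104916) (nat_lit 228) (nat_lit 4075489688) (nat_lit 76) (nat_lit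 11695665378) (nat_lit 26) (nat_lit 5) (nat_lit 29) (nat_lit 5) (nat_lit 27) (nat_lit 5) (nat_lit 287) (nat_lit 268) (nat_lit 225))) (XT.nd (nat_lit 78) (nat_lit 0) (nat_lit 0) (XT.lf (nat_lit 0) (nat_lit 5186487948) (nat_lit 152) (nat_lit 192321051) (nat_lit 228) (nat_lit 13430888607) (nat_lit 24) (nat_lit 5) (nat_lit 26) (nat_lit 5) (nat_lit 27) (nat_lit 5) (nat_lit 288) (nat_lit 268) (nat_lit 224)) (XT.lf (nat_lit 0) (nat_lit 9124574377) (nat_lit 228) (nat_lit 4568139167) (nat_lit 76) (nat_lit 6083856805) (nat_lit 24) (nat_lit 5) (nat_lit 27) (nat_lit 5) (nat_lit 25) (nat_lit 5) (nat_lit 289) (nat_lit 268) (nat_lit 223))))) (XT.nd (nat_lit 312) (nat_lit 228) (nat_lit 0) (XT.nd (nat_lit 156) (nat_lit 152) (nat_lit 0) (XT.nd (nat_lit 78) (nat_lit 0) (nat_lit 0) (XT.lf (nat_lit 0) (nat_lit 5432963109) (nat_lit 152) (nat_lit 7842195972) (nat_lit 228) (nat_lit 7537283873) (nat_lit 22) (nat_lit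 5) (nat_lit 24) (nat_lit 5) (nat_lit 25) (nat_lit 5) (nat_lit 290) (nat_lit 268) (nat_lit 222)) (XT.lf (nat_lit 0) (nat_lit 16449933595) (nat_lit 152) (nat_lit 1403458571) (nat_lit 228) (nat_lit 4070203121) (nat_lit 22) (nat_lit 5) (nat_lit 24) (nat_lit 5) (nat_lit 25) (nat_lit 5) (nat_lit 291) (nat_lit 268) (nat_lit 221))) (XT.nd (nat_lit 78) (nat_lit 76) (nat_lit 0) (XT.lf (nat_lit 0) (nat_lit 5314329273) (nat_lit 76) (nat_lit 17717394326) (nat_lit 152) (nat_lit 73262778) (nat_lit 21) (nat_lit 5) (nat_lit 22) (nat_lit 5) (nat_lit 23) (nat_lit 4) (nat_lit 292) (nat_lit 268) (nat_lit 220)) (XT.lf (nat_lit 0) (nat_lit 4194003159) (nat_lit 152) (nat_lit 7277706393) (nat_lit 76) (nat_lit 12888033383) (nat_lit 20) (nat_lit 5) (nat_lit 22) (nat_lit 5) (nat_lit 21) (nat_lit 5) (nat_lit 293) (nat_lit 268) (nat_lit 219)))) (XT.nd (nat_lit 156) (nat_lit 76) (nat_lit 0) (XT.nd (nat_lit 78) (nat_lit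 0) (nat_lit 0) (XT.lf (nat_lit 0) (nat_lit 4246970204) (nat_lit 152) (nat_lit 4628717106) (nat_lit 228) (nat_lit 16832923538) (nat_lit 18) (nat_lit 5) (nat_lit 20) (nat_lit 5) (nat_lit 21) (nat_lit 5) (nat_lit 294) (nat_lit 268) (nat_lit 218)) (XT.lf (nat_lit 0) (nat_lit 14177910983) (nat_lit 228) (nat_lit 10154020321) (nat_lit 76) (nat_lit 2813816011) (nat_lit 18) (nat_lit 5) (nat_lit 21) (nat_lit 5) (nat_lit 19) (nat_lit 4) (nat_lit 295) (nat_lit 268) (nat_lit 217))) (XT.nd (nat_lit 78) (nat_lit 0) (nat_lit 0) (XT.lf (nat_lit 0) (nat_lit 2000584878) (nat_lit 76) (nat_lit 18049319724) (nat_lit 152) (nat_lit 8636339315) (nat_lit 17) (nat_lit 5) (nat_lit 18) (nat_lit 5) (nat_lit 19) (nat_lit 4) (nat_lit 296) (nat_lit 268) (nat_lit 216)) (XT.lf (nat_lit 0) (nat_lit 15668499691) (nat_lit 76) (nat_lit 10978845049) (nat_lit 152) (nat_lit 3682214413) (nat_lit 17) (nat_lit 5) (nat_lit 18) (nat_lit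 5) (nat_lit 19) (nat_lit 4) (nat_lit 297) (nat_lit 268) (nat_lit 215)))))) (XT.nd (nat_lit 624) (nat_lit 304) (nat_lit 0) (XT.nd (nat_lit 312) (nat_lit 152) (nat_lit 0) (XT.nd (nat_lit 156) (nat_lit 76) (nat_lit 0) (XT.nd (nat_lit 78) (nat_lit 152) (nat_lit 0) (XT.lf (nat_lit 0) (nat_lit 1563914284) (nat_lit 152) (nat_lit 1749562609) (nat_lit 76) (nat_lit 28789351980) (nat_lit 16) (nat_lit 5) (nat_lit 18) (nat_lit 5) (nat_lit 17) (nat_lit 5) (nat_lit 298) (nat_lit 268) (nat_lit 214)) (XT.lf (nat_lit 0) (nat_lit 7446476985) (nat_lit 228) (nat_lit 21414689121) (nat_lit 76) (nat_lit 5115915281) (nat_lit 14) (nat_lit 5) (nat_lit 17) (nat_lit 5) (nat_lit 15) (nat_lit 4) (nat_lit 299) (nat_lit 268) (nat_lit 213))) (XT.nd (nat_lit 78) (nat_lit 76) (nat_lit 0) (XT.lf (nat_lit 0) (nat_lit 13915823046) (nat_lit 228) (nat_lit 7998700044) (nat_lit 76) (nat_lit 14077481641) (nat_lit 14) (nat_lit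 5) (nat_lit 17) (nat_lit 5) (nat_lit 15) (nat_lit 4) (nat_lit 300) (nat_lit 268) (nat_lit 212)) (XT.lf (nat_lit 0) (nat_lit 6800430350) (nat_lit 76) (nat_lit 14248277114) (nat_lit 152) (nat_lit 17107758276) (nat_lit 13) (nat_lit 5) (nat_lit 14) (nat_lit 5) (nat_lit 15) (nat_lit 4) (nat_lit 301) (nat_lit 268) (nat_lit 211)))) (XT.nd (nat_lit 156) (nat_lit 152) (nat_lit 0) (XT.nd (nat_lit 78) (nat_lit 0) (nat_lit 0) (XT.lf (nat_lit 0) (nat_lit 23208829125) (nat_lit 76) (nat_lit 5745122227) (nat_lit 152) (nat_lit 11524015323) (nat_lit 13) (nat_lit 5) (nat_lit 14) (nat_lit 5) (nat_lit 15) (nat_lit 4) (nat_lit 302) (nat_lit 268) (nat_lit 210)) (XT.lf (nat_lit 0) (nat_lit 37558312450) (nat_lit 152) (nat_lit 2166341194) (nat_lit 0) (nat_lit 3255217989) (nat_lit 13) (nat_lit 5) (nat_lit 15) (nat_lit 4) (nat_lit 13) (nat_lit 4) (nat_lit 303) (nat_lit 268) (nat_lit 209))) (XT.nd (nat_lit 78) (nat_lit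 0) (nat_lit 0) (XT.lf (nat_lit 0) (nat_lit 1611336265) (nat_lit 152) (nat_lit 30978908998) (nat_lit 76) (nat_lit 13049393281) (nat_lit 11) (nat_lit 5) (nat_lit 13) (nat_lit 5) (nat_lit 12) (nat_lit 4) (nat_lit 304) (nat_lit 268) (nat_lit 208)) (XT.lf (nat_lit 0) (nat_lit 8960013055) (nat_lit 152) (nat_lit 15719026064) (nat_lit 76) (nat_lit 23818213422) (nat_lit 11) (nat_lit 5) (nat_lit 13) (nat_lit 5) (nat_lit 12) (nat_lit 4) (nat_lit 305) (nat_lit 268) (nat_lit 207))))) (XT.nd (nat_lit 312) (nat_lit 228) (nat_lit 0) (XT.nd (nat_lit 156) (nat_lit 0) (nat_lit 0) (XT.nd (nat_lit 78) (nat_lit 0) (nat_lit 0) (XT.lf (nat_lit 0) (nat_lit 776035271) (nat_lit 76) (nat_lit 16125587038) (nat_lit 152) (nat_lit 34681464808) (nat_lit 10) (nat_lit 5) (nat_lit 11) (nat_lit 5) (nat_lit 12) (nat_lit 4) (nat_lit 306) (nat_lit 268) (nat_lit 206)) (XT.lf (nat_lit 0) (nat_lit 19460842344) (nat_lit 76) (nat_lit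 6434315201) (nat_lit 152) (nat_lit 28987316587) (nat_lit 10) (nat_lit 5) (nat_lit 11) (nat_lit 5) (nat_lit 12) (nat_lit 4) (nat_lit 307) (nat_lit 268) (nat_lit 205))) (XT.nd (nat_lit 78) (nat_lit 0) (nat_lit 0) (XT.lf (nat_lit 0) (nat_lit 35692703058) (nat_lit 152) (nat_lit 18925156931) (nat_lit 0) (nat_lit 3821202375) (nat_lit 10) (nat_lit 5) (nat_lit 12) (nat_lit 4) (nat_lit 10) (nat_lit 4) (nat_lit 308) (nat_lit 268) (nat_lit 204)) (XT.lf (nat_lit 0) (nat_lit 46429650937) (nat_lit 152) (nat_lit 1297202945) (nat_lit 0) (nat_lit 14540887406) (nat_lit 10) (nat_lit 5) (nat_lit 12) (nat_lit 4) (nat_lit 10) (nat_lit 4) (nat_lit 309) (nat_lit 268) (nat_lit 203)))) (XT.nd (nat_lit 156) (nat_lit 76) (nat_lit 0) (XT.nd (nat_lit 78) (nat_lit 76) (nat_lit 0) (XT.lf (nat_lit 0) (nat_lit 18654617048) (nat_lit 76) (nat_lit 39808909045) (nat_lit 76) (nat_lit 7904161395) (nat_lit 9) (nat_lit 4) (nat_lit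 10) (nat_lit 5) (nat_lit 10) (nat_lit 4) (nat_lit 310) (nat_lit 268) (nat_lit 202)) (XT.lf (nat_lit 0) (nat_lit 657012650) (nat_lit 152) (nat_lit 30552961447) (nat_lit 76) (nat_lit 39582324308) (nat_lit 8) (nat_lit 5) (nat_lit 10) (nat_lit 5) (nat_lit 9) (nat_lit 4) (nat_lit 311) (nat_lit 268) (nat_lit 201))) (XT.nd (nat_lit 78) (nat_lit 76) (nat_lit 0) (XT.lf (nat_lit 0) (nat_lit 9466218913) (nat_lit 152) (nat_lit 12243516225) (nat_lit 76) (nat_lit 53845513837) (nat_lit 8) (nat_lit 5) (nat_lit 10) (nat_lit 5) (nat_lit 9) (nat_lit 4) (nat_lit 312) (nat_lit 268) (nat_lit 200)) (XT.lf (nat_lit 0) (nat_lit 7909527512) (nat_lit 76) (nat_lit 11251755077) (nat_lit 152) (nat_lit 61523471176) (nat_lit 7) (nat_lit 5) (nat_lit 8) (nat_lit 5) (nat_lit 9) (nat_lit 4) (nat_lit 313) (nat_lit 268) (nat_lit 199))))))))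
noncomputable def xc64 : XT := (XT.nd (nat_lit 2340) (nat_lit 152) (nat_lit 0) (XT.nd (nat_lit 1170) (nat_lit 76) (nat_lit 0) (XT.nd (nat_lit 546) (nat_lit 152) (nat_lit 0) (XT.nd (nat_lit 234) (nat_lit 76) (nat_lit 0) (XT.nd (nat_lit 78) (nat_lit 0) (nat_lit 0) (XT.lf (nat_lit 0) (nat_lit 29967431089) (nat_lit 152) (nat_lit 55853378500) (nat_lit 0) (nat_lit 376978238) (nat_lit 7) (nat_lit 5) (nat_lit 9) (nat_lit 4) (nat_lit 7) (nat_lit 4) (nat_lit 314) (nat_lit 268) (nat_lit 198)) (XT.nd (nat_lit 78) (nat_lit 0) (nat_lit 0) (XT.lf (nat_lit 0) (nat_lit 41921986313) (nat_lit 152) (nat_lit 37885711088) (nat_lit 0) (nat_lit 12321460755) (nat_lit 7) (nat_lit 5) (nat_lit 9) (nat_lit 4) (nat_lit 7) (nat_lit 4) (nat_lit 315) (nat_lit 268) (nat_lit 197)) (XT.lf (nat_lit 0) (nat_lit 54825185088) (nat_lit 152) (nat_lit 18495143970) (nat_lit 0) (nat_lit 25215332951) (nat_lit 7) (nat_lit 5) (nat_lit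 9) (nat_lit 4) (nat_lit 7) (nat_lit 4) (nat_lit 316) (nat_lit 268) (nat_lit 196)))) (XT.nd (nat_lit 156) (nat_lit 0) (nat_lit 0) (XT.nd (nat_lit 78) (nat_lit 0) (nat_lit 0) (XT.lf (nat_lit 0) (nat_lit 2561359493) (nat_lit 76) (nat_lit 66253732081) (nat_lit 76) (nat_lit 36635244222) (nat_lit 6) (nat_lit 4) (nat_lit 7) (nat_lit 5) (nat_lit 7) (nat_lit 4) (nat_lit 317) (nat_lit 268) (nat_lit 195)) (XT.lf (nat_lit 0) (nat_lit 26341120077) (nat_lit 76) (nat_lit 58081826099) (nat_lit 76) (nat_lit 28455342202) (nat_lit 6) (nat_lit 4) (nat_lit 7) (nat_lit 5) (nat_lit 7) (nat_lit 4) (nat_lit 318) (nat_lit 268) (nat_lit 194))) (XT.nd (nat_lit 78) (nat_lit 0) (nat_lit 0) (XT.lf (nat_lit 0) (nat_lit 52011133377) (nat_lit 76) (nat_lit 49261875017) (nat_lit 76) (nat_lit 19627987379) (nat_lit 6) (nat_lit 4) (nat_lit 7) (nat_lit 5) (nat_lit 7) (nat_lit 4) (nat_lit 319) (nat_lit 268) (nat_lit 193)) (XT.lf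 (nat_lit 0) (nat_lit 79723517989) (nat_lit 76) (nat_lit 39741612456) (nat_lit 76) (nat_lit 10100869504) (nat_lit 6) (nat_lit 4) (nat_lit 7) (nat_lit 5) (nat_lit 7) (nat_lit 4) (nat_lit 320) (nat_lit 268) (nat_lit 192))))) (XT.nd (nat_lit 312) (nat_lit 0) (nat_lit 0) (XT.nd (nat_lit 156) (nat_lit 76) (nat_lit 0) (XT.nd (nat_lit 78) (nat_lit 0) (nat_lit 0) (XT.lf (nat_lit 0) (nat_lit 173340608) (nat_lit 152) (nat_lit 29286541999) (nat_lit 76) (nat_lit 109464415405) (nat_lit 5) (nat_lit 5) (nat_lit 7) (nat_lit 5) (nat_lit 6) (nat_lit 4) (nat_lit 321) (nat_lit 268) (nat_lit 191)) (XT.lf (nat_lit 0) (nat_lit 10718545097) (nat_lit 152) (nat_lit 7358393990) (nat_lit 76) (nat_lit 130933754298) (nat_lit 5) (nat_lit 5) (nat_lit 7) (nat_lit 5) (nat_lit 6) (nat_lit 4) (nat_lit 322) (nat_lit 268) (nat_lit 190))) (XT.nd (nat_lit 78) (nat_lit 0) (nat_lit 0) (XT.lf (nat_lit 0) (nat_lit 17173942982)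 (nat_lit 76) (nat_lit 5341611222) (nat_lit 152) (nat_lit 137355794489) (nat_lit 4) (nat_lit 5) (nat_lit 5) (nat_lit 5) (nat_lit 6) (nat_lit 4) (nat_lit 323) (nat_lit 268) (nat_lit 189)) (XT.lf (nat_lit 0) (nat_lit 35660259645) (nat_lit 152) (nat_lit 127714181534) (nat_lit 0) (nat_lit 8194103512) (nat_lit 4) (nat_lit 5) (nat_lit 6) (nat_lit 4) (nat_lit 4) (nat_lit 4) (nat_lit 324) (nat_lit 268) (nat_lit 188)))) (XT.nd (nat_lit 156) (nat_lit 0) (nat_lit 0) (XT.nd (nat_lit 78) (nat_lit 0) (nat_lit 0) (XT.lf (nat_lit 0) (nat_lit 49990836950) (nat_lit 152) (nat_lit 111679577868) (nat_lit 0) (nat_lit 22520360806) (nat_lit 4) (nat_lit 5) (nat_lit 6) (nat_lit 4) (nat_lit 4) (nat_lit 4) (nat_lit 325) (nat_lit 268) (nat_lit 187)) (XT.lf (nat_lit 0) (nat_lit 65463742179) (nat_lit 152) (nat_lit 94370108960) (nat_lit 0) (nat_lit 37989266024) (nat_lit 4) (nat_lit 5) (nat_lit 6) (nat_lit 4) (nat_lit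 4) (nat_lit 4) (nat_lit 326) (nat_lit 268) (nat_lit 186))) (XT.nd (nat_lit 78) (nat_lit 0) (nat_lit 0) (XT.lf (nat_lit 0) (nat_lit 82170666622) (nat_lit 152) (nat_lit 75683200179) (nat_lit 0) (nat_lit 54692486754) (nat_lit 4) (nat_lit 5) (nat_lit 6) (nat_lit 4) (nat_lit 4) (nat_lit 4) (nat_lit 327) (nat_lit 268) (nat_lit 185)) (XT.lf (nat_lit 0) (nat_lit 100210614276) (nat_lit 152) (nat_lit 55508114288) (nat_lit 0) (nat_lit 72729005045) (nat_lit 4) (nat_lit 5) (nat_lit 6) (nat_lit 4) (nat_lit 4) (nat_lit 4) (nat_lit 328) (nat_lit 268) (nat_lit 184)))))) (XT.nd (nat_lit 546) (nat_lit 0) (nat_lit 0) (XT.nd (nat_lit 234) (nat_lit 0) (nat_lit 0) (XT.nd (nat_lit 78) (nat_lit 76) (nat_lit 0) (XT.lf (nat_lit 0) (nat_lit 119690488536) (nat_lit 152) (nat_lit 33725295223) (nat_lit 0) (nat_lit 92205703967) (nat_lit 4) (nat_lit 5) (nat_lit 6) (nat_lit 4) (nat_lit 4) (nat_lit 4) (nat_lit 329) (nat_lit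 268) (nat_lit 183)) (XT.nd (nat_lit 78) (nat_lit 76) (nat_lit 0) (XT.lf (nat_lit 0) (nat_lit 140725725691) (nat_lit 152) (nat_lit 10205659611) (nat_lit 0) (nat_lit 113238000996) (nat_lit 4) (nat_lit 5) (nat_lit 6) (nat_lit 4) (nat_lit 4) (nat_lit 4) (nat_lit 330) (nat_lit 268) (nat_lit 182)) (XT.lf (nat_lit 0) (nat_lit 15990055501) (nat_lit 76) (nat_lit 147835484719) (nat_lit 76) (nat_lit 120345037683) (nat_lit 3) (nat_lit 4) (nat_lit 4) (nat_lit 5) (nat_lit 4) (nat_lit 4) (nat_lit 331) (nat_lit 268) (nat_lit 181)))) (XT.nd (nat_lit 156) (nat_lit 0) (nat_lit 0) (XT.nd (nat_lit 78) (nat_lit 0) (nat_lit 0) (XT.lf (nat_lit 0) (nat_lit 44856590214) (nat_lit 76) (nat_lit 144193069232) (nat_lit 76) (nat_lit 116700101512) (nat_lit 3) (nat_lit 4) (nat_lit 4) (nat_lit 5) (nat_lit 4) (nat_lit 4) (nat_lit 332) (nat_lit 268) (nat_lit 180)) (XT.lf (nat_lit 0) (nat_lit 76027593523) (nat_lit 76) (nat_lit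 140261594978) (nat_lit 76) (nat_lit 112766293291) (nat_lit 3) (nat_lit 4) (nat_lit 4) (nat_lit 5) (nat_lit 4) (nat_lit 4) (nat_lit 333) (nat_lit 268) (nat_lit 179))) (XT.nd (nat_lit 78) (nat_lit 0) (nat_lit 0) (XT.lf (nat_lit 0) (nat_lit 109687782486) (nat_lit 76) (nat_lit 136017764333) (nat_lit 76) (nat_lit 108520301564) (nat_lit 3) (nat_lit 4) (nat_lit 4) (nat_lit 5) (nat_lit 4) (nat_lit 4) (nat_lit 334) (nat_lit 268) (nat_lit 178)) (XT.lf (nat_lit 0) (nat_lit 146036624889) (nat_lit 76) (nat_lit 131436428668) (nat_lit 76) (nat_lit 103936964899) (nat_lit 3) (nat_lit 4) (nat_lit 4) (nat_lit 5) (nat_lit 4) (nat_lit 4) (nat_lit 335) (nat_lit 268) (nat_lit 177))))) (XT.nd (nat_lit 312) (nat_lit 0) (nat_lit 0) (XT.nd (nat_lit 156) (nat_lit 0) (nat_lit 0) (XT.nd (nat_lit 78) (nat_lit 0) (nat_lit 0) (XT.lf (nat_lit 0) (nat_lit 185289521279) (nat_lit 76) (nat_lit 126490439330) (nat_lit 76)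 (nat_lit 98989122782) (nat_lit 3) (nat_lit 4) (nat_lit 4) (nat_lit 5) (nat_lit 4) (nat_lit 4) (nat_lit 336) (nat_lit 268) (nat_lit 176)) (XT.lf (nat_lit 0) (nat_lit 227679081413) (nat_lit 76) (nat_lit 121150486751) (nat_lit 76) (nat_lit 93647454667) (nat_lit 3) (nat_lit 4) (nat_lit 4) (nat_lit 5) (nat_lit 4) (nat_lit 4) (nat_lit 337) (nat_lit 268) (nat_lit 175))) (XT.nd (nat_lit 78) (nat_lit 0) (nat_lit 0) (XT.lf (nat_lit 0) (nat_lit 273456502684) (nat_lit 76) (nat_lit 115384926769) (nat_lit 76) (nat_lit 87880306225) (nat_lit 3) (nat_lit 4) (nat_lit 4) (nat_lit 5) (nat_lit 4) (nat_lit 4) (nat_lit 338) (nat_lit 268) (nat_lit 174)) (XT.lf (nat_lit 0) (nat_lit 322893058699) (nat_lit 76) (nat_lit 109159593101) (nat_lit 76) (nat_lit 81653501762) (nat_lit 3) (nat_lit 4) (nat_lit 4) (nat_lit 5) (nat_lit 4) (nat_lit 4) (nat_lit 339) (nat_lit 268) (nat_lit 173)))) (XT.nd (nat_lit 156) (nat_lit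 0) (nat_lit 0) (XT.nd (nat_lit 78) (nat_lit 0) (nat_lit 0) (XT.lf (nat_lit 0) (nat_lit 376281706829) (nat_lit 76) (nat_lit 102437594881) (nat_lit 76) (nat_lit 74930141695) (nat_lit 3) (nat_lit 4) (nat_lit 4) (nat_lit 5) (nat_lit 4) (nat_lit 4) (nat_lit 340) (nat_lit 268) (nat_lit 172)) (XT.lf (nat_lit 0) (nat_lit 433938824246) (nat_lit 76) (nat_lit 95179098047) (nat_lit 76) (nat_lit 67670383890) (nat_lit 3) (nat_lit 4) (nat_lit 4) (nat_lit 5) (nat_lit 4) (nat_lit 4) (nat_lit 341) (nat_lit 268) (nat_lit 171))) (XT.nd (nat_lit 78) (nat_lit 0) (nat_lit 0) (XT.lf (nat_lit 0) (nat_lit 496206082758) (nat_lit 76) (nat_lit 87341089282) (nat_lit 76) (nat_lit 59831207561) (nat_lit 3) (nat_lit 4) (nat_lit 4) (nat_lit 5) (nat_lit 4) (nat_lit 4) (nat_lit 342) (nat_lit 268) (nat_lit 170)) (XT.lf (nat_lit 0) (nat_lit 563452473526) (nat_lit 76) (nat_lit 78877121129) (nat_lit 76) (nat_lit 51366158329)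 (nat_lit 3) (nat_lit 4) (nat_lit 4) (nat_lit 5) (nat_lit 4) (nat_lit 4) (nat_lit 343) (nat_lit 268) (nat_lit 169))))))) (XT.nd (nat_lit 1170) (nat_lit 0) (nat_lit 0) (XT.nd (nat_lit 546) (nat_lit 0) (nat_lit 0) (XT.nd (nat_lit 234) (nat_lit 152) (nat_lit 0) (XT.nd (nat_lit 78) (nat_lit 0) (nat_lit 0) (XT.lf (nat_lit 0) (nat_lit 636076493681) (nat_lit 76) (nat_lit 69737036739) (nat_lit 76) (nat_lit 42225072940) (nat_lit 3) (nat_lit 4) (nat_lit 4) (nat_lit 5) (nat_lit 4) (nat_lit 4) (nat_lit 344) (nat_lit 268) (nat_lit 168)) (XT.nd (nat_lit 78) (nat_lit 0) (nat_lit 0) (XT.lf (nat_lit 0) (nat_lit 714508507787) (nat_lit 76) (nat_lit 59866672648) (nat_lit 76) (nat_lit 32353781999) (nat_lit 3) (nat_lit 4) (nat_lit 4) (nat_lit 5) (nat_lit 4) (nat_lit 4) (nat_lit 345) (nat_lit 268) (nat_lit 167)) (XT.lf (nat_lit 0) (nat_lit 799213298149) (nat_lit 76) (nat_lit 49207537811) (nat_lit 76) (nat_lit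 21693788966) (nat_lit 3) (nat_lit 4) (nat_lit 4) (nat_lit 5) (nat_lit 4) (nat_lit 4) (nat_lit 346) (nat_lit 268) (nat_lit 166)))) (XT.nd (nat_lit 156) (nat_lit 76) (nat_lit 0) (XT.nd (nat_lit 78) (nat_lit 76) (nat_lit 0) (XT.lf (nat_lit 0) (nat_lit 890692819081) (nat_lit 76) (nat_lit 37696466983) (nat_lit 76) (nat_lit 10181923513) (nat_lit 3) (nat_lit 4) (nat_lit 4) (nat_lit 5) (nat_lit 4) (nat_lit 4) (nat_lit 347) (nat_lit 268) (nat_lit 165)) (XT.lf (nat_lit 0) (nat_lit 2137477066) (nat_lit 152) (nat_lit 23069326934) (nat_lit 76) (nat_lit 987293251969) (nat_lit 2) (nat_lit 5) (nat_lit 4) (nat_lit 5) (nat_lit 3) (nat_lit 4) (nat_lit 348) (nat_lit 268) (nat_lit 164))) (XT.nd (nat_lit 78) (nat_lit 0) (nat_lit 0) (XT.lf (nat_lit 0) (nat_lit 3640659639) (nat_lit 76) (nat_lit 11338484656) (nat_lit 152) (nat_lit 1077335964721) (nat_lit 1) (nat_lit 5) (nat_lit 2) (nat_lit 5) (nat_lit 3) (nat_lit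 4) (nat_lit 349) (nat_lit 268) (nat_lit 163)) (XT.lf (nat_lit 0) (nat_lit 29582059958) (nat_lit 152) (nat_lit 1144770858849) (nat_lit 0) (nat_lit 4103734685) (nat_lit 1) (nat_lit 5) (nat_lit 3) (nat_lit 4) (nat_lit 1) (nat_lit 4) (nat_lit 350) (nat_lit 268) (nat_lit 162))))) (XT.nd (nat_lit 312) (nat_lit 0) (nat_lit 0) (XT.nd (nat_lit 156) (nat_lit 0) (nat_lit 0) (XT.nd (nat_lit 78) (nat_lit 0) (nat_lit 0) (XT.lf (nat_lit 0) (nat_lit 45647020743) (nat_lit 152) (nat_lit 1205650841534) (nat_lit 0) (nat_lit 20168154662) (nat_lit 1) (nat_lit 5) (nat_lit 3) (nat_lit 4) (nat_lit 1) (nat_lit 4) (nat_lit 351) (nat_lit 268) (nat_lit 161)) (XT.lf (nat_lit 0) (nat_lit 62996535590) (nat_lit 152) (nat_lit 1271402476870) (nat_lit 0) (nat_lit 37517168759) (nat_lit 1) (nat_lit 5) (nat_lit 3) (nat_lit 4) (nat_lit 1) (nat_lit 4) (nat_lit 352) (nat_lit 268) (nat_lit 160))) (XT.nd (nat_lit 78) (nat_lit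 0) (nat_lit 0) (XT.lf (nat_lit 0) (nat_lit 81733416437) (nat_lit 152) (nat_lit 1342415404179) (nat_lit 0) (nat_lit 56253585951) (nat_lit 1) (nat_lit 5) (nat_lit 3) (nat_lit 4) (nat_lit 1) (nat_lit 4) (nat_lit 353) (nat_lit 268) (nat_lit 159)) (XT.lf (nat_lit 0) (nat_lit 101968696653) (nat_lit 152) (nat_lit 1419110440807) (nat_lit 0) (nat_lit 76488436856) (nat_lit 1) (nat_lit 5) (nat_lit 3) (nat_lit 4) (nat_lit 1) (nat_lit 4) (nat_lit 354) (nat_lit 268) (nat_lit 158)))) (XT.nd (nat_lit 156) (nat_lit 0) (nat_lit 0) (XT.nd (nat_lit 78) (nat_lit 0) (nat_lit 0) (XT.lf (nat_lit 0) (nat_lit 123822289010) (nat_lit 152) (nat_lit 1501942075860) (nat_lit 0) (nat_lit 98341631703) (nat_lit 1) (nat_lit 5) (nat_lit 3) (nat_lit 4) (nat_lit 1) (nat_lit 4) (nat_lit 355) (nat_lit 268) (nat_lit 157)) (XT.lf (nat_lit 0) (nat_lit 147423696278) (nat_lit 152) (nat_lit 1591401163473) (nat_lit 0) (nat_lit 121942670905)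 (nat_lit 1) (nat_lit 5) (nat_lit 3) (nat_lit 4) (nat_lit 1) (nat_lit 4) (nat_lit 356) (nat_lit 268) (nat_lit 156))) (XT.nd (nat_lit 78) (nat_lit 0) (nat_lit 0) (XT.lf (nat_lit 0) (nat_lit 172912778647) (nat_lit 152) (nat_lit 1688017831571) (nat_lit 0) (nat_lit 147431412473) (nat_lit 1) (nat_lit 5) (nat_lit 3) (nat_lit 4) (nat_lit 1) (nat_lit 4) (nat_lit 357) (nat_lit 268) (nat_lit 155)) (XT.lf (nat_lit 0) (nat_lit 200440582531) (nat_lit 152) (nat_lit 1792364623373) (nat_lit 0) (nat_lit 174958900800) (nat_lit 1) (nat_lit 5) (nat_lit 3) (nat_lit 4) (nat_lit 1) (nat_lit 4) (nat_lit 358) (nat_lit 268) (nat_lit 154)))))) (XT.nd (nat_lit 624) (nat_lit 0) (nat_lit 0) (XT.nd (nat_lit 312) (nat_lit 0) (nat_lit 0) (XT.nd (nat_lit 156) (nat_lit 0) (nat_lit 0) (XT.nd (nat_lit 78) (nat_lit 0) (nat_lit 0) (XT.lf (nat_lit 0) (nat_lit 230170235657) (nat_lit 152) (nat_lit 1905059890238) (nat_lit 0) (nat_lit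 204688261745) (nat_lit 1) (nat_lit 5) (nat_lit 3) (nat_lit 4) (nat_lit 1) (nat_lit 4) (nat_lit 359) (nat_lit 268) (nat_lit 153)) (XT.lf (nat_lit 0) (nat_lit 262277913748) (nat_lit 152) (nat_lit 2026771455970) (nat_lit 0) (nat_lit 236795669297) (nat_lit 1) (nat_lit 5) (nat_lit 3) (nat_lit 4) (nat_lit 1) (nat_lit 4) (nat_lit 360) (nat_lit 268) (nat_lit 152))) (XT.nd (nat_lit 78) (nat_lit 0) (nat_lit 0) (XT.lf (nat_lit 0) (nat_lit 296953884526) (nat_lit 152) (nat_lit 2158220574291) (nat_lit 0) (nat_lit 271471389575) (nat_lit 1) (nat_lit 5) (nat_lit 3) (nat_lit 4) (nat_lit 1) (nat_lit 4) (nat_lit 361) (nat_lit 268) (nat_lit 151)) (XT.lf (nat_lit 0) (nat_lit 334403635224) (nat_lit 152) (nat_lit 2300186202939) (nat_lit 0) (nat_lit 308920908330) (nat_lit 1) (nat_lit 5) (nat_lit 3) (nat_lit 4) (nat_lit 1) (nat_lit 4) (nat_lit 362) (nat_lit 268) (nat_lit 150)))) (XT.nd (nat_lit 156) (nat_lit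 0) (nat_lit 0) (XT.nd (nat_lit 78) (nat_lit 0) (nat_lit 0) (XT.lf (nat_lit 0) (nat_lit 374849090291) (nat_lit 152) (nat_lit 2453509619714) (nat_lit 0) (nat_lit 349366148635) (nat_lit 1) (nat_lit 5) (nat_lit 3) (nat_lit 4) (nat_lit 1) (nat_lit 4) (nat_lit 363) (nat_lit 268) (nat_lit 149)) (XT.lf (nat_lit 0) (nat_lit 418529926499) (nat_lit 152) (nat_lit 2619099407827) (nat_lit 0) (nat_lit 393046785988) (nat_lit 1) (nat_lit 5) (nat_lit 3) (nat_lit 4) (nat_lit 1) (nat_lit 4) (nat_lit 364) (nat_lit 268) (nat_lit 148))) (XT.nd (nat_lit 78) (nat_lit 0) (nat_lit 0) (XT.lf (nat_lit 0) (nat_lit 465704993246) (nat_lit 152) (nat_lit 2797936840096) (nat_lit 0) (nat_lit 440221668611) (nat_lit 1) (nat_lit 5) (nat_lit 3) (nat_lit 4) (nat_lit 1) (nat_lit 4) (nat_lit 365) (nat_lit 268) (nat_lit 147)) (XT.lf (nat_lit 0) (nat_lit 516653846484) (nat_lit 152) (nat_lit 2991081693897) (nat_lit 0) (nat_lit 491170351364)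 (nat_lit 1) (nat_lit 5) (nat_lit 3) (nat_lit 4) (nat_lit 1) (nat_lit 4) (nat_lit 366) (nat_lit 268) (nat_lit 146))))) (XT.nd (nat_lit 33228) (nat_lit 0) (nat_lit 3420) (XT.nd (nat_lit 33072) (nat_lit 0) (nat_lit 3800) (XT.nd (nat_lit 32994) (nat_lit 0) (nat_lit 3800) (XT.lf (nat_lit 0) (nat_lit 571678405343) (nat_lit 152) (nat_lit 3199678531326) (nat_lit 0) (nat_lit 546194752367) (nat_lit 1) (nat_lit 5) (nat_lit 3) (nat_lit 4) (nat_lit 1) (nat_lit 4) (nat_lit 367) (nat_lit 268) (nat_lit 145)) (XT.lf (nat_lit 0) (nat_lit 1428091243) (nat_lit 0) (nat_lit 1428091243) (nat_lit 380) (nat_lit 1551747734) (nat_lit 51) (nat_lit 5) (nat_lit 51) (nat_lit 3) (nat_lit 56) (nat_lit 3) (nat_lit 269) (nat_lit 269) (nat_lit 242))) (XT.nd (nat_lit 78) (nat_lit 0) (nat_lit 0) (XT.lf (nat_lit 0) (nat_lit 6817802813) (nat_lit 380) (nat_lit 1928353831) (nat_lit 456) (nat_lit 349028532) (nat_lit 51) (nat_lit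 5) (nat_lit 56) (nat_lit 3) (nat_lit 57) (nat_lit 5) (nat_lit 270) (nat_lit 269) (nat_lit 241)) (XT.lf (nat_lit 76) (nat_lit 2420645763) (nat_lit 0) (nat_lit 5637625003) (nat_lit 456) (nat_lit 1335173093) (nat_lit 52) (nat_lit 5) (nat_lit 51) (nat_lit 5) (nat_lit 57) (nat_lit 5) (nat_lit 271) (nat_lit 269) (nat_lit 240)))) (XT.nd (nat_lit 156) (nat_lit 0) (nat_lit 0) (XT.nd (nat_lit 78) (nat_lit 380) (nat_lit 0) (XT.lf (nat_lit 76) (nat_lit 7176807845) (nat_lit 0) (nat_lit 2193228299) (nat_lit 456) (nat_lit 348054492) (nat_lit 52) (nat_lit 5) (nat_lit 51) (nat_lit 5) (nat_lit 57) (nat_lit 5) (nat_lit 272) (nat_lit 269) (nat_lit 239)) (XT.lf (nat_lit 0) (nat_lit 699549583) (nat_lit 456) (nat_lit 7817434509) (nat_lit 532) (nat_lit 1549199282) (nat_lit 46) (nat_lit 5) (nat_lit 52) (nat_lit 5) (nat_lit 53) (nat_lit 5) (nat_lit 273) (nat_lit 269) (nat_lit 238))) (XT.nd (nat_lit 78) (nat_lit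 0) (nat_lit 0) (XT.lf (nat_lit 0) (nat_lit 1868572150) (nat_lit 456) (nat_lit 2994135326) (nat_lit 532) (nat_lit 5574411650) (nat_lit 46) (nat_lit 5) (nat_lit 52) (nat_lit 5) (nat_lit 53) (nat_lit 5) (nat_lit 274) (nat_lit 269) (nat_lit 237)) (XT.lf (nat_lit 76) (nat_lit 2276825290) (nat_lit 0) (nat_lit 842529719) (nat_lit 532) (nat_lit 7719530423) (nat_lit 47) (nat_lit 5) (nat_lit 46) (nat_lit 5) (nat_lit 53) (nat_lit 5) (nat_lit 275) (nat_lit 269) (nat_lit 236))))))))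
noncomputable def xc65 : XT := (XT.nd (nat_lit 2340) (nat_lit 608) (nat_lit 0) (XT.nd (nat_lit 1170) (nat_lit 988) (nat_lit 0) (XT.nd (nat_lit 546) (nat_lit 760) (nat_lit 0) (XT.nd (nat_lit 234) (nat_lit 532) (nat_lit 0) (XT.nd (nat_lit 78) (nat_lit 456) (nat_lit 0) (XT.lf (nat_lit 0) (nat_lit 4575825459) (nat_lit 456) (nat_lit 3269078561) (nat_lit 76) (nat_lit 3419637892) (nat_lit 47) (nat_lit 5) (nat_lit 53) (nat_lit 5) (nat_lit 48) (nat_lit 5) (nat_lit 276) (nat_lit 269) (nat_lit 235)) (XT.nd (nat_lit 78) (nat_lit 0) (nat_lit 0) (XT.lf (nat_lit 0) (nat_lit 2498310201) (nat_lit 456) (nat_lit 3674579329) (nat_lit 532) (nat_lit 5549619436) (nat_lit 41) (nat_lit 5) (nat_lit 47) (nat_lit 5) (nat_lit 48) (nat_lit 5) (nat_lit 277) (nat_lit 269) (nat_lit 234)) (XT.lf (nat_lit 0) (nat_lit 7954640059) (nat_lit 532) (nat_lit 3374682132) (nat_lit 76) (nat_lit 883407981) (nat_lit 41) (nat_lit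 5) (nat_lit 48) (nat_lit 5) (nat_lit 42) (nat_lit 5) (nat_lit 278) (nat_lit 269) (nat_lit 233)))) (XT.nd (nat_lit 156) (nat_lit 304) (nat_lit 0) (XT.nd (nat_lit 78) (nat_lit 0) (nat_lit 0) (XT.lf (nat_lit 0) (nat_lit 2943235924) (nat_lit 228) (nat_lit 7051248135) (nat_lit 304) (nat_lit 2738598606) (nat_lit 38) (nat_lit 5) (nat_lit 41) (nat_lit 5) (nat_lit 42) (nat_lit 5) (nat_lit 279) (nat_lit 269) (nat_lit 232)) (XT.lf (nat_lit 0) (nat_lit 9908459690) (nat_lit 228) (nat_lit 2333200628) (nat_lit 304) (nat_lit 1050017633) (nat_lit 38) (nat_lit 5) (nat_lit 41) (nat_lit 5) (nat_lit 42) (nat_lit 5) (nat_lit 280) (nat_lit 269) (nat_lit 231))) (XT.nd (nat_lit 78) (nat_lit 0) (nat_lit 0) (XT.lf (nat_lit 0) (nat_lit 846035646) (nat_lit 304) (nat_lit 10308269133) (nat_lit 76) (nat_lit 2730405941) (nat_lit 34) (nat_lit 5) (nat_lit 38) (nat_lit 5) (nat_lit 35) (nat_lit 5) (nat_lit 281) (nat_lit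 269) (nat_lit 230)) (XT.lf (nat_lit 0) (nat_lit 2948860069) (nat_lit 304) (nat_lit 3373933441) (nat_lit 76) (nat_lit 8191381575) (nat_lit 34) (nat_lit 5) (nat_lit 38) (nat_lit 5) (nat_lit 35) (nat_lit 5) (nat_lit 282) (nat_lit 269) (nat_lit 229))))) (XT.nd (nat_lit 312) (nat_lit 380) (nat_lit 0) (XT.nd (nat_lit 156) (nat_lit 152) (nat_lit 0) (XT.nd (nat_lit 78) (nat_lit 0) (nat_lit 0) (XT.lf (nat_lit 0) (nat_lit 4281990550) (nat_lit 228) (nat_lit 1000445044) (nat_lit 304) (nat_lit 9906666432) (nat_lit 31) (nat_lit 5) (nat_lit 34) (nat_lit 5) (nat_lit 35) (nat_lit 5) (nat_lit 283) (nat_lit 269) (nat_lit 228)) (XT.lf (nat_lit 0) (nat_lit 7972771852) (nat_lit 304) (nat_lit 3334118874) (nat_lit 76) (nat_lit 4597625903) (nat_lit 31) (nat_lit 5) (nat_lit 35) (nat_lit 5) (nat_lit 32) (nat_lit 5) (nat_lit 284) (nat_lit 269) (nat_lit 227))) (XT.nd (nat_lit 78) (nat_lit 0) (nat_lit 0) (XT.lf (nat_lit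 0) (nat_lit 5024553308) (nat_lit 152) (nat_lit 5964725687) (nat_lit 228) (nat_lit 5679102000) (nat_lit 29) (nat_lit 5) (nat_lit 31) (nat_lit 5) (nat_lit 32) (nat_lit 5) (nat_lit 285) (nat_lit 269) (nat_lit 226)) (XT.lf (nat_lit 0) (nat_lit 14197163289) (nat_lit 152) (nat_lit 106812750) (nat_lit 228) (nat_lit 3184914217) (nat_lit 29) (nat_lit 5) (nat_lit 31) (nat_lit 5) (nat_lit 32) (nat_lit 5) (nat_lit 286) (nat_lit 269) (nat_lit 225)))) (XT.nd (nat_lit 156) (nat_lit 152) (nat_lit 0) (XT.nd (nat_lit 78) (nat_lit 76) (nat_lit 0) (XT.lf (nat_lit 0) (nat_lit 5826967366) (nat_lit 152) (nat_lit 12314629188) (nat_lit 228) (nat_lit 212902857) (nat_lit 27) (nat_lit 5) (nat_lit 29) (nat_lit 5) (nat_lit 30) (nat_lit 5) (nat_lit 287) (nat_lit 269) (nat_lit 224)) (XT.lf (nat_lit 0) (nat_lit 2910576286) (nat_lit 228) (nat_lit 3541086820) (nat_lit 76) (nat_lit 12826906121) (nat_lit 26) (nat_lit 5)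 (nat_lit 29) (nat_lit 5) (nat_lit 27) (nat_lit 5) (nat_lit 288) (nat_lit 269) (nat_lit 223))) (XT.nd (nat_lit 78) (nat_lit 0) (nat_lit 0) (XT.lf (nat_lit 0) (nat_lit 6399164523) (nat_lit 228) (nat_lit 13827069145) (nat_lit 76) (nat_lit 39812614) (nat_lit 24) (nat_lit 5) (nat_lit 27) (nat_lit 5) (nat_lit 25) (nat_lit 5) (nat_lit 289) (nat_lit 269) (nat_lit 222)) (XT.lf (nat_lit 0) (nat_lit 10405508989) (nat_lit 228) (nat_lit 4117847769) (nat_lit 76) (nat_lit 6790129254) (nat_lit 24) (nat_lit 5) (nat_lit 27) (nat_lit 5) (nat_lit 25) (nat_lit 5) (nat_lit 290) (nat_lit 269) (nat_lit 221)))))) (XT.nd (nat_lit 546) (nat_lit 456) (nat_lit 0) (XT.nd (nat_lit 234) (nat_lit 228) (nat_lit 0) (XT.nd (nat_lit 78) (nat_lit 152) (nat_lit 0) (XT.lf (nat_lit 0) (nat_lit 6662690980) (nat_lit 152) (nat_lit 8203758950) (nat_lit 228) (nat_lit 7567597626) (nat_lit 22) (nat_lit 5) (nat_lit 24) (nat_lit 5)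 (nat_lit 25) (nat_lit 5) (nat_lit 291) (nat_lit 269) (nat_lit 220)) (XT.nd (nat_lit 78) (nat_lit 152) (nat_lit 0) (XT.lf (nat_lit 0) (nat_lit 18502123488) (nat_lit 152) (nat_lit 1269612386) (nat_lit 228) (nat_lit 3865570337) (nat_lit 22) (nat_lit 5) (nat_lit 24) (nat_lit 5) (nat_lit 25) (nat_lit 5) (nat_lit 292) (nat_lit 269) (nat_lit 219)) (XT.lf (nat_lit 0) (nat_lit 415397805) (nat_lit 152) (nat_lit 18434394625) (nat_lit 76) (nat_lit 6063667610) (nat_lit 20) (nat_lit 5) (nat_lit 22) (nat_lit 5) (nat_lit 21) (nat_lit 5) (nat_lit 293) (nat_lit 269) (nat_lit 218)))) (XT.nd (nat_lit 156) (nat_lit 76) (nat_lit 0) (XT.nd (nat_lit 78) (nat_lit 152) (nat_lit 0) (XT.lf (nat_lit 0) (nat_lit 4983748887) (nat_lit 152) (nat_lit 7139911684) (nat_lit 76) (nat_lit 14147753020) (nat_lit 20) (nat_lit 5) (nat_lit 22) (nat_lit 5) (nat_lit 21) (nat_lit 5) (nat_lit 294) (nat_lit 269) (nat_lit 217)) (XT.lf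 (nat_lit 0) (nat_lit 5288510909) (nat_lit 152) (nat_lit 4734688430) (nat_lit 228) (nat_lit 17706390165) (nat_lit 18) (nat_lit 5) (nat_lit 20) (nat_lit 5) (nat_lit 21) (nat_lit 5) (nat_lit 295) (nat_lit 269) (nat_lit 216))) (XT.nd (nat_lit 78) (nat_lit 76) (nat_lit 0) (XT.lf (nat_lit 0) (nat_lit 15723082836) (nat_lit 228) (nat_lit 10289363935) (nat_lit 76) (nat_lit 3271424427) (nat_lit 18) (nat_lit 5) (nat_lit 21) (nat_lit 5) (nat_lit 19) (nat_lit 4) (nat_lit 296) (nat_lit 269) (nat_lit 215)) (XT.lf (nat_lit 0) (nat_lit 2820470996) (nat_lit 76) (nat_lit 19229794176) (nat_lit 152) (nat_lit 8898556963) (nat_lit 17) (nat_lit 5) (nat_lit 18) (nat_lit 5) (nat_lit 19) (nat_lit 4) (nat_lit 297) (nat_lit 269) (nat_lit 214))))) (XT.nd (nat_lit 312) (nat_lit 228) (nat_lit 0) (XT.nd (nat_lit 156) (nat_lit 152) (nat_lit 0) (XT.nd (nat_lit 78) (nat_lit 76) (nat_lit 0) (XT.lf (nat_lit 0) (nat_lit 17532942007)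 (nat_lit 76) (nat_lit 11613197906) (nat_lit 152) (nat_lit 3579856847) (nat_lit 17) (nat_lit 5) (nat_lit 18) (nat_lit 5) (nat_lit 19) (nat_lit 4) (nat_lit 298) (nat_lit 269) (nat_lit 213)) (XT.lf (nat_lit 0) (nat_lit 2038174128) (nat_lit 152) (nat_lit 1304950602) (nat_lit 76) (nat_lit 31299513019) (nat_lit 16) (nat_lit 5) (nat_lit 18) (nat_lit 5) (nat_lit 17) (nat_lit 5) (nat_lit 299) (nat_lit 269) (nat_lit 212))) (XT.nd (nat_lit 78) (nat_lit 0) (nat_lit 0) (XT.lf (nat_lit 0) (nat_lit 8384780906) (nat_lit 228) (nat_lit 22536276578) (nat_lit 76) (nat_lit 5746333833) (nat_lit 14) (nat_lit 5) (nat_lit 17) (nat_lit 5) (nat_lit 15) (nat_lit 4) (nat_lit 300) (nat_lit 269) (nat_lit 211)) (XT.lf (nat_lit 0) (nat_lit 15346297930) (nat_lit 228) (nat_lit 8090829684) (nat_lit 76) (nat_lit 15408444366) (nat_lit 14) (nat_lit 5) (nat_lit 17) (nat_lit 5) (nat_lit 15) (nat_lit 4) (nat_lit 301) (nat_lit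 269) (nat_lit 210)))) (XT.nd (nat_lit 156) (nat_lit 152) (nat_lit 0) (XT.nd (nat_lit 78) (nat_lit 0) (nat_lit 0) (XT.lf (nat_lit 0) (nat_lit 7878363639) (nat_lit 76) (nat_lit 15160792776) (nat_lit 152) (nat_lit 18144916833) (nat_lit 13) (nat_lit 5) (nat_lit 14) (nat_lit 5) (nat_lit 15) (nat_lit 4) (nat_lit 302) (nat_lit 269) (nat_lit 209)) (XT.lf (nat_lit 0) (nat_lit 25559886253) (nat_lit 76) (nat_lit 5994225981) (nat_lit 152) (nat_lit 12139027192) (nat_lit 13) (nat_lit 5) (nat_lit 14) (nat_lit 5) (nat_lit 15) (nat_lit 4) (nat_lit 303) (nat_lit 269) (nat_lit 208))) (XT.nd (nat_lit 78) (nat_lit 152) (nat_lit 0) (XT.lf (nat_lit 0) (nat_lit 40830484342) (nat_lit 152) (nat_lit 1865247836) (nat_lit 0) (nat_lit 3700798077) (nat_lit 13) (nat_lit 5) (nat_lit 15) (nat_lit 4) (nat_lit 13) (nat_lit 4) (nat_lit 304) (nat_lit 269) (nat_lit 207)) (XT.lf (nat_lit 0) (nat_lit 2006068392) (nat_lit 152)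 (nat_lit 32980549922) (nat_lit 76) (nat_lit 14282641896) (nat_lit 11) (nat_lit 5) (nat_lit 13) (nat_lit 5) (nat_lit 12) (nat_lit 4) (nat_lit 305) (nat_lit 269) (nat_lit 206))))))) (XT.nd (nat_lit 1170) (nat_lit 228) (nat_lit 0) (XT.nd (nat_lit 546) (nat_lit 152) (nat_lit 0) (XT.nd (nat_lit 234) (nat_lit 152) (nat_lit 0) (XT.nd (nat_lit 78) (nat_lit 76) (nat_lit 0) (XT.lf (nat_lit 0) (nat_lit 9922948567) (nat_lit 152) (nat_lit 16535185375) (nat_lit 76) (nat_lit 25898945637) (nat_lit 11) (nat_lit 5) (nat_lit 13) (nat_lit 5) (nat_lit 12) (nat_lit 4) (nat_lit 306) (nat_lit 269) (nat_lit 205)) (XT.nd (nat_lit 78) (nat_lit 0) (nat_lit 0) (XT.lf (nat_lit 0) (nat_lit 1268307126) (nat_lit 76) (nat_lit 17223693310) (nat_lit 152) (nat_lit 37198430814) (nat_lit 10) (nat_lit 5) (nat_lit 11) (nat_lit 5) (nat_lit 12) (nat_lit 4) (nat_lit 307) (nat_lit 269) (nat_lit 204)) (XT.lf (nat_lit 0) (nat_lit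 21416032910) (nat_lit 76) (nat_lit 6771337555) (nat_lit 152) (nat_lit 31067828600) (nat_lit 10) (nat_lit 5) (nat_lit 11) (nat_lit 5) (nat_lit 12) (nat_lit 4) (nat_lit 308) (nat_lit 269) (nat_lit 203)))) (XT.nd (nat_lit 156) (nat_lit 152) (nat_lit 0) (XT.nd (nat_lit 78) (nat_lit 0) (nat_lit 0) (XT.lf (nat_lit 0) (nat_lit 38756336484) (nat_lit 152) (nat_lit 20057760285) (nat_lit 0) (nat_lit 4283224903) (nat_lit 10) (nat_lit 5) (nat_lit 12) (nat_lit 4) (nat_lit 10) (nat_lit 4) (nat_lit 309) (nat_lit 269) (nat_lit 202)) (XT.lf (nat_lit 0) (nat_lit 50336816698) (nat_lit 152) (nat_lit 1047822514) (nat_lit 0) (nat_lit 15848905007) (nat_lit 10) (nat_lit 5) (nat_lit 12) (nat_lit 4) (nat_lit 10) (nat_lit 4) (nat_lit 310) (nat_lit 269) (nat_lit 201))) (XT.nd (nat_lit 78) (nat_lit 76) (nat_lit 0) (XT.lf (nat_lit 0) (nat_lit 20491202404) (nat_lit 76) (nat_lit 42836196851) (nat_lit 76) (nat_lit 8334581355)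 (nat_lit 9) (nat_lit 4) (nat_lit 10) (nat_lit 5) (nat_lit 10) (nat_lit 4) (nat_lit 311) (nat_lit 269) (nat_lit 200)) (XT.lf (nat_lit 0) (nat_lit 887177780) (nat_lit 152) (nat_lit 32668974421) (nat_lit 76) (nat_lit 42885168634) (nat_lit 8) (nat_lit 5) (nat_lit 10) (nat_lit 5) (nat_lit 9) (nat_lit 4) (nat_lit 312) (nat_lit 269) (nat_lit 199))))) (XT.nd (nat_lit 312) (nat_lit 76) (nat_lit 0) (XT.nd (nat_lit 156) (nat_lit 0) (nat_lit 0) (XT.nd (nat_lit 78) (nat_lit 76) (nat_lit 0) (XT.lf (nat_lit 0) (nat_lit 10387964684) (nat_lit 152) (nat_lit 12919086466) (nat_lit 76) (nat_lit 58279320112) (nat_lit 8) (nat_lit 5) (nat_lit 10) (nat_lit 5) (nat_lit 9) (nat_lit 4) (nat_lit 313) (nat_lit 269) (nat_lit 198)) (XT.lf (nat_lit 0) (nat_lit 8838506819) (nat_lit 76) (nat_lit 12015069311) (nat_lit 152) (nat_lit 66273075393) (nat_lit 7) (nat_lit 5) (nat_lit 8) (nat_lit 5) (nat_lit 9) (nat_lit 4) (nat_lit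 314) (nat_lit 269) (nat_lit 197))) (XT.nd (nat_lit 78) (nat_lit 0) (nat_lit 0) (XT.lf (nat_lit 0) (nat_lit 32515456693) (nat_lit 152) (nat_lit 60038492320) (nat_lit 0) (nat_lit 527489806) (nat_lit 7) (nat_lit 5) (nat_lit 9) (nat_lit 4) (nat_lit 7) (nat_lit 4) (nat_lit 315) (nat_lit 269) (nat_lit 196)) (XT.lf (nat_lit 0) (nat_lit 45415218474) (nat_lit 152) (nat_lit 40654386067) (nat_lit 0) (nat_lit 13418615864) (nat_lit 7) (nat_lit 5) (nat_lit 9) (nat_lit 4) (nat_lit 7) (nat_lit 4) (nat_lit 316) (nat_lit 269) (nat_lit 195)))) (XT.nd (nat_lit 156) (nat_lit 0) (nat_lit 0) (XT.nd (nat_lit 78) (nat_lit 76) (nat_lit 0) (XT.lf (nat_lit 0) (nat_lit 59340341800) (nat_lit 152) (nat_lit 19731994462) (nat_lit 0) (nat_lit 27335743151) (nat_lit 7) (nat_lit 5) (nat_lit 9) (nat_lit 4) (nat_lit 7) (nat_lit 4) (nat_lit 317) (nat_lit 269) (nat_lit 194)) (XT.lf (nat_lit 0) (nat_lit 3002883429) (nat_lit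 76) (nat_lit 71442681909) (nat_lit 76) (nat_lit 39430679520) (nat_lit 6) (nat_lit 4) (nat_lit 7) (nat_lit 5) (nat_lit 7) (nat_lit 4) (nat_lit 318) (nat_lit 269) (nat_lit 193))) (XT.nd (nat_lit 78) (nat_lit 0) (nat_lit 0) (XT.lf (nat_lit 0) (nat_lit 28667497810) (nat_lit 76) (nat_lit 62625271503) (nat_lit 76) (nat_lit 30606413800) (nat_lit 6) (nat_lit 4) (nat_lit 7) (nat_lit 5) (nat_lit 7) (nat_lit 4) (nat_lit 319) (nat_lit 269) (nat_lit 192)) (XT.lf (nat_lit 0) (nat_lit 56374883423) (nat_lit 76) (nat_lit 53107361422) (nat_lit 76) (nat_lit 21082156205) (nat_lit 6) (nat_lit 4) (nat_lit 7) (nat_lit 5) (nat_lit 7) (nat_lit 4) (nat_lit 320) (nat_lit 269) (nat_lit 191)))))) (XT.nd (nat_lit 624) (nat_lit 76) (nat_lit 0) (XT.nd (nat_lit 312) (nat_lit 0) (nat_lit 0) (XT.nd (nat_lit 156) (nat_lit 76) (nat_lit 0) (XT.nd (nat_lit 78) (nat_lit 76) (nat_lit 0) (XT.lf (nat_lit 0) (nat_lit 86289232185)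 (nat_lit 76) (nat_lit 42832549234) (nat_lit 76) (nat_lit 10801466690) (nat_lit 6) (nat_lit 4) (nat_lit 7) (nat_lit 5) (nat_lit 7) (nat_lit 4) (nat_lit 321) (nat_lit 269) (nat_lit 190)) (XT.lf (nat_lit 0) (nat_lit 281741349) (nat_lit 152) (nat_lit 31450502507) (nat_lit 76) (nat_lit 118298369651) (nat_lit 5) (nat_lit 5) (nat_lit 7) (nat_lit 5) (nat_lit 6) (nat_lit 4) (nat_lit 322) (nat_lit 269) (nat_lit 189))) (XT.nd (nat_lit 78) (nat_lit 76) (nat_lit 0) (XT.lf (nat_lit 0) (nat_lit 11663559715) (nat_lit 152) (nat_lit 7781359165) (nat_lit 76) (nat_lit 141479566691) (nat_lit 5) (nat_lit 5) (nat_lit 7) (nat_lit 5) (nat_lit 6) (nat_lit 4) (nat_lit 323) (nat_lit 269) (nat_lit 188)) (XT.lf (nat_lit 0) (nat_lit 18709369667) (nat_lit 76) (nat_lit 5692360454) (nat_lit 152) (nat_lit 148252475641) (nat_lit 4) (nat_lit 5) (nat_lit 5) (nat_lit 5) (nat_lit 6) (nat_lit 4) (nat_lit 324) (nat_lit 269)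 (nat_lit 187)))) (XT.nd (nat_lit 156) (nat_lit 0) (nat_lit 0) (XT.nd (nat_lit 78) (nat_lit 0) (nat_lit 0) (XT.lf (nat_lit 0) (nat_lit 38593426088) (nat_lit 152) (nat_lit 137777130567) (nat_lit 0) (nat_lit 8916991831) (nat_lit 4) (nat_lit 5) (nat_lit 6) (nat_lit 4) (nat_lit 4) (nat_lit 4) (nat_lit 325) (nat_lit 269) (nat_lit 186)) (XT.lf (nat_lit 0) (nat_lit 54064498045) (nat_lit 152) (nat_lit 120471179755) (nat_lit 0) (nat_lit 24384360075) (nat_lit 4) (nat_lit 5) (nat_lit 6) (nat_lit 4) (nat_lit 4) (nat_lit 4) (nat_lit 326) (nat_lit 269) (nat_lit 185))) (XT.nd (nat_lit 78) (nat_lit 0) (nat_lit 0) (XT.lf (nat_lit 0) (nat_lit 70769725015) (nat_lit 152) (nat_lit 101787528470) (nat_lit 0) (nat_lit 41086157681) (nat_lit 4) (nat_lit 5) (nat_lit 6) (nat_lit 4) (nat_lit 4) (nat_lit 4) (nat_lit 327) (nat_lit 269) (nat_lit 184)) (XT.lf (nat_lit 0) (nat_lit 88808100935) (nat_lit 152) (nat_lit 81615458780)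 (nat_lit 0) (nat_lit 59121358264) (nat_lit 4) (nat_lit 5) (nat_lit 6) (nat_lit 4) (nat_lit 4) (nat_lit 4) (nat_lit 328) (nat_lit 269) (nat_lit 183))))) (XT.nd (nat_lit 312) (nat_lit 0) (nat_lit 0) (XT.nd (nat_lit 156) (nat_lit 76) (nat_lit 0) (XT.nd (nat_lit 78) (nat_lit 0) (nat_lit 0) (XT.lf (nat_lit 0) (nat_lit 108286519885) (nat_lit 152) (nat_lit 59835432493) (nat_lit 0) (nat_lit 78596837087) (nat_lit 4) (nat_lit 5) (nat_lit 6) (nat_lit 4) (nat_lit 4) (nat_lit 4) (nat_lit 329) (nat_lit 269) (nat_lit 182)) (XT.lf (nat_lit 0) (nat_lit 129320409532) (nat_lit 152) (nat_lit 36318382787) (nat_lit 0) (nat_lit 99628004394) (nat_lit 4) (nat_lit 5) (nat_lit 6) (nat_lit 4) (nat_lit 4) (nat_lit 4) (nat_lit 330) (nat_lit 269) (nat_lit 181))) (XT.nd (nat_lit 78) (nat_lit 76) (nat_lit 0) (XT.lf (nat_lit 0) (nat_lit 152034415148) (nat_lit 152) (nat_lit 10924949367) (nat_lit 0) (nat_lit 122339489325)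 (nat_lit 4) (nat_lit 5) (nat_lit 6) (nat_lit 4) (nat_lit 4) (nat_lit 4) (nat_lit 331) (nat_lit 269) (nat_lit 180)) (XT.lf (nat_lit 0) (nat_lit 17363963131) (nat_lit 76) (nat_lit 159616778847) (nat_lit 76) (nat_lit 129919519057) (nat_lit 3) (nat_lit 4) (nat_lit 4) (nat_lit 5) (nat_lit 4) (nat_lit 4) (nat_lit 332) (nat_lit 269) (nat_lit 179)))) (XT.nd (nat_lit 156) (nat_lit 0) (nat_lit 0) (XT.nd (nat_lit 78) (nat_lit 0) (nat_lit 0) (XT.lf (nat_lit 0) (nat_lit 48532805570) (nat_lit 76) (nat_lit 155686343800) (nat_lit 76) (nat_lit 125986922928) (nat_lit 3) (nat_lit 4) (nat_lit 4) (nat_lit 5) (nat_lit 4) (nat_lit 4) (nat_lit 333) (nat_lit 269) (nat_lit 178)) (XT.lf (nat_lit 0) (nat_lit 82190993726) (nat_lit 76) (nat_lit 151443475381) (nat_lit 76) (nat_lit 121742053509) (nat_lit 3) (nat_lit 4) (nat_lit 4) (nat_lit 5) (nat_lit 4) (nat_lit 4) (nat_lit 334) (nat_lit 269) (nat_lit 177))) (XT.nd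 (nat_lit 78) (nat_lit 0) (nat_lit 0) (XT.lf (nat_lit 0) (nat_lit 118537983530) (nat_lit 76) (nat_lit 146863030669) (nat_lit 76) (nat_lit 117159756018) (nat_lit 3) (nat_lit 4) (nat_lit 4) (nat_lit 5) (nat_lit 4) (nat_lit 4) (nat_lit 335) (nat_lit 269) (nat_lit 176)) (XT.lf (nat_lit 0) (nat_lit 157789164552) (nat_lit 76) (nat_lit 141917866285) (nat_lit 76) (nat_lit 112212876099) (nat_lit 3) (nat_lit 4) (nat_lit 4) (nat_lit 5) (nat_lit 4) (nat_lit 4) (nat_lit 336) (nat_lit 269) (nat_lit 175))))))))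
noncomputable def xc66 : XT := (XT.nd (nat_lit 2340) (nat_lit 0) (nat_lit 0) (XT.nd (nat_lit 1170) (nat_lit 0) (nat_lit 0) (XT.nd (nat_lit 546) (nat_lit 152) (nat_lit 0) (XT.nd (nat_lit 234) (nat_lit 0) (nat_lit 0) (XT.nd (nat_lit 78) (nat_lit 0) (nat_lit 0) (XT.lf (nat_lit 0) (nat_lit 200177136381) (nat_lit 76) (nat_lit 136578677554) (nat_lit 76) (nat_lit 106872098908) (nat_lit 3) (nat_lit 4) (nat_lit 4) (nat_lit 5) (nat_lit 4) (nat_lit 4) (nat_lit 337) (nat_lit 269) (nat_lit 174)) (XT.nd (nat_lit 78) (nat_lit 0) (nat_lit 0) (XT.lf (nat_lit 0) (nat_lit 245953086999) (nat_lit 76) (nat_lit 130813824837) (nat_lit 76) (nat_lit 101105775396) (nat_lit 3) (nat_lit 4) (nat_lit 4) (nat_lit 5) (nat_lit 4) (nat_lit 4) (nat_lit 338) (nat_lit 269) (nat_lit 173)) (XT.lf (nat_lit 0) (nat_lit 295388281300) (nat_lit 76) (nat_lit 124589146045) (nat_lit 76) (nat_lit 94879734756) (nat_lit 3) (nat_lit 4)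 (nat_lit 4) (nat_lit 5) (nat_lit 4) (nat_lit 4) (nat_lit 339) (nat_lit 269) (nat_lit 172)))) (XT.nd (nat_lit 156) (nat_lit 0) (nat_lit 0) (XT.nd (nat_lit 78) (nat_lit 0) (nat_lit 0) (XT.lf (nat_lit 0) (nat_lit 348775668582) (nat_lit 76) (nat_lit 117867754192) (nat_lit 76) (nat_lit 88157081933) (nat_lit 3) (nat_lit 4) (nat_lit 4) (nat_lit 5) (nat_lit 4) (nat_lit 4) (nat_lit 340) (nat_lit 269) (nat_lit 171)) (XT.lf (nat_lit 0) (nat_lit 406431618548) (nat_lit 76) (nat_lit 110609818808) (nat_lit 76) (nat_lit 80897978984) (nat_lit 3) (nat_lit 4) (nat_lit 4) (nat_lit 5) (nat_lit 4) (nat_lit 4) (nat_lit 341) (nat_lit 269) (nat_lit 170))) (XT.nd (nat_lit 78) (nat_lit 0) (nat_lit 0) (XT.lf (nat_lit 0) (nat_lit 468697796087) (nat_lit 76) (nat_lit 102772329906) (nat_lit 76) (nat_lit 73059409003) (nat_lit 3) (nat_lit 4) (nat_lit 4) (nat_lit 5) (nat_lit 4) (nat_lit 4) (nat_lit 342) (nat_lit 269)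 (nat_lit 169)) (XT.lf (nat_lit 0) (nat_lit 535943185954) (nat_lit 76) (nat_lit 94308843106) (nat_lit 76) (nat_lit 64594921205) (nat_lit 3) (nat_lit 4) (nat_lit 4) (nat_lit 5) (nat_lit 4) (nat_lit 4) (nat_lit 343) (nat_lit 269) (nat_lit 168))))) (XT.nd (nat_lit 312) (nat_lit 152) (nat_lit 0) (XT.nd (nat_lit 156) (nat_lit 0) (nat_lit 0) (XT.nd (nat_lit 78) (nat_lit 0) (nat_lit 0) (XT.lf (nat_lit 0) (nat_lit 608566279348) (nat_lit 76) (nat_lit 85169204413) (nat_lit 76) (nat_lit 55454355661) (nat_lit 3) (nat_lit 4) (nat_lit 4) (nat_lit 5) (nat_lit 4) (nat_lit 4) (nat_lit 344) (nat_lit 269) (nat_lit 167)) (XT.lf (nat_lit 0) (nat_lit 686997435342) (nat_lit 76) (nat_lit 75299253005) (nat_lit 76) (nat_lit 45583546058) (nat_lit 3) (nat_lit 4) (nat_lit 4) (nat_lit 5) (nat_lit 4) (nat_lit 4) (nat_lit 345) (nat_lit 269) (nat_lit 166))) (XT.nd (nat_lit 78) (nat_lit 0) (nat_lit 0) (XT.lf (nat_lit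 0) (nat_lit 771701431157) (nat_lit 76) (nat_lit 64640500281) (nat_lit 76) (nat_lit 34923998709) (nat_lit 3) (nat_lit 4) (nat_lit 4) (nat_lit 5) (nat_lit 4) (nat_lit 4) (nat_lit 346) (nat_lit 269) (nat_lit 165)) (XT.lf (nat_lit 0) (nat_lit 863180216396) (nat_lit 76) (nat_lit 53129783263) (nat_lit 76) (nat_lit 23412545927) (nat_lit 3) (nat_lit 4) (nat_lit 4) (nat_lit 5) (nat_lit 4) (nat_lit 4) (nat_lit 347) (nat_lit 269) (nat_lit 164)))) (XT.nd (nat_lit 156) (nat_lit 76) (nat_lit 0) (XT.nd (nat_lit 78) (nat_lit 76) (nat_lit 0) (XT.lf (nat_lit 0) (nat_lit 961975887566) (nat_lit 76) (nat_lit 40698890293) (nat_lit 76) (nat_lit 10980971694) (nat_lit 3) (nat_lit 4) (nat_lit 4) (nat_lit 5) (nat_lit 4) (nat_lit 4) (nat_lit 348) (nat_lit 269) (nat_lit 163)) (XT.lf (nat_lit 0) (nat_lit 2322114160) (nat_lit 152) (nat_lit 24888551943) (nat_lit 76) (nat_lit 1066288295618) (nat_lit 2) (nat_lit 5) (nat_lit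 4) (nat_lit 5) (nat_lit 3) (nat_lit 4) (nat_lit 349) (nat_lit 269) (nat_lit 162))) (XT.nd (nat_lit 78) (nat_lit 0) (nat_lit 0) (XT.lf (nat_lit 0) (nat_lit 3957567197) (nat_lit 76) (nat_lit 12233154277) (nat_lit 152) (nat_lit 1163508529565) (nat_lit 1) (nat_lit 5) (nat_lit 2) (nat_lit 5) (nat_lit 3) (nat_lit 4) (nat_lit 350) (nat_lit 269) (nat_lit 161)) (XT.lf (nat_lit 0) (nat_lit 31961165566) (nat_lit 152) (nat_lit 1236328061774) (nat_lit 0) (nat_lit 4442948641) (nat_lit 1) (nat_lit 5) (nat_lit 3) (nat_lit 4) (nat_lit 1) (nat_lit 4) (nat_lit 351) (nat_lit 269) (nat_lit 160)))))) (XT.nd (nat_lit 546) (nat_lit 0) (nat_lit 0) (XT.nd (nat_lit 234) (nat_lit 0) (nat_lit 0) (XT.nd (nat_lit 78) (nat_lit 0) (nat_lit 0) (XT.lf (nat_lit 0) (nat_lit 49310394265) (nat_lit 152) (nat_lit 1302080255354) (nat_lit 0) (nat_lit 21791713684) (nat_lit 1) (nat_lit 5) (nat_lit 3) (nat_lit 4) (nat_lit 1) (nat_lit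 4) (nat_lit 352) (nat_lit 269) (nat_lit 159)) (XT.nd (nat_lit 78) (nat_lit 0) (nat_lit 0) (XT.lf (nat_lit 0) (nat_lit 68047010161) (nat_lit 152) (nat_lit 1373093699554) (nat_lit 0) (nat_lit 40527900269) (nat_lit 1) (nat_lit 5) (nat_lit 3) (nat_lit 4) (nat_lit 1) (nat_lit 4) (nat_lit 353) (nat_lit 269) (nat_lit 158)) (XT.lf (nat_lit 0) (nat_lit 88282045052) (nat_lit 152) (nat_lit 1449789214786) (nat_lit 0) (nat_lit 60762537649) (nat_lit 1) (nat_lit 5) (nat_lit 3) (nat_lit 4) (nat_lit 1) (nat_lit 4) (nat_lit 354) (nat_lit 269) (nat_lit 157)))) (XT.nd (nat_lit 156) (nat_lit 0) (nat_lit 0) (XT.nd (nat_lit 78) (nat_lit 0) (nat_lit 0) (XT.lf (nat_lit 0) (nat_lit 110135410256) (nat_lit 152) (nat_lit 1532621292990) (nat_lit 0) (nat_lit 82615534788) (nat_lit 1) (nat_lit 5) (nat_lit 3) (nat_lit 4) (nat_lit 1) (nat_lit 4) (nat_lit 355) (nat_lit 269) (nat_lit 156)) (XT.lf (nat_lit 0) (nat_lit 133736607197)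 (nat_lit 152) (nat_lit 1622080790928) (nat_lit 0) (nat_lit 106216390928) (nat_lit 1) (nat_lit 5) (nat_lit 3) (nat_lit 4) (nat_lit 1) (nat_lit 4) (nat_lit 356) (nat_lit 269) (nat_lit 155))) (XT.nd (nat_lit 78) (nat_lit 0) (nat_lit 0) (XT.lf (nat_lit 0) (nat_lit 159225494818) (nat_lit 152) (nat_lit 1718697838957) (nat_lit 0) (nat_lit 131704962993) (nat_lit 1) (nat_lit 5) (nat_lit 3) (nat_lit 4) (nat_lit 1) (nat_lit 4) (nat_lit 357) (nat_lit 269) (nat_lit 154)) (XT.lf (nat_lit 0) (nat_lit 186753118381) (nat_lit 152) (nat_lit 1823044982547) (nat_lit 0) (nat_lit 159232294374) (nat_lit 1) (nat_lit 5) (nat_lit 3) (nat_lit 4) (nat_lit 1) (nat_lit 4) (nat_lit 358) (nat_lit 269) (nat_lit 153))))) (XT.nd (nat_lit 312) (nat_lit 0) (nat_lit 0) (XT.nd (nat_lit 156) (nat_lit 0) (nat_lit 0) (XT.nd (nat_lit 78) (nat_lit 0) (nat_lit 0) (XT.lf (nat_lit 0) (nat_lit 216482604544) (nat_lit 152) (nat_lit 1935740575142)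 (nat_lit 0) (nat_lit 188961509997) (nat_lit 1) (nat_lit 5) (nat_lit 3) (nat_lit 4) (nat_lit 1) (nat_lit 4) (nat_lit 359) (nat_lit 269) (nat_lit 152)) (XT.lf (nat_lit 0) (nat_lit 248590128038) (nat_lit 152) (nat_lit 2057452442475) (nat_lit 0) (nat_lit 221068782993) (nat_lit 1) (nat_lit 5) (nat_lit 3) (nat_lit 4) (nat_lit 1) (nat_lit 4) (nat_lit 360) (nat_lit 269) (nat_lit 151))) (XT.nd (nat_lit 78) (nat_lit 0) (nat_lit 0) (XT.lf (nat_lit 0) (nat_lit 283265955670) (nat_lit 152) (nat_lit 2188901840056) (nat_lit 0) (nat_lit 255744378682) (nat_lit 1) (nat_lit 5) (nat_lit 3) (nat_lit 4) (nat_lit 1) (nat_lit 4) (nat_lit 361) (nat_lit 269) (nat_lit 150)) (XT.lf (nat_lit 0) (nat_lit 320715573827) (nat_lit 152) (nat_lit 2330867727279) (nat_lit 0) (nat_lit 293193782076) (nat_lit 1) (nat_lit 5) (nat_lit 3) (nat_lit 4) (nat_lit 1) (nat_lit 4) (nat_lit 362) (nat_lit 269) (nat_lit 149)))) (XT.nd (nat_lit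 156) (nat_lit 0) (nat_lit 0) (XT.nd (nat_lit 78) (nat_lit 0) (nat_lit 0) (XT.lf (nat_lit 0) (nat_lit 361160906171) (nat_lit 152) (nat_lit 2484191383475) (nat_lit 0) (nat_lit 333638915565) (nat_lit 1) (nat_lit 5) (nat_lit 3) (nat_lit 4) (nat_lit 1) (nat_lit 4) (nat_lit 363) (nat_lit 269) (nat_lit 148)) (XT.lf (nat_lit 0) (nat_lit 404841628745) (nat_lit 152) (nat_lit 2649781393274) (nat_lit 0) (nat_lit 377319454015) (nat_lit 1) (nat_lit 5) (nat_lit 3) (nat_lit 4) (nat_lit 1) (nat_lit 4) (nat_lit 364) (nat_lit 269) (nat_lit 147))) (XT.nd (nat_lit 78) (nat_lit 0) (nat_lit 0) (XT.lf (nat_lit 0) (nat_lit 452016590276) (nat_lit 152) (nat_lit 2828619030807) (nat_lit 0) (nat_lit 424494245061) (nat_lit 1) (nat_lit 5) (nat_lit 3) (nat_lit 4) (nat_lit 1) (nat_lit 4) (nat_lit 365) (nat_lit 269) (nat_lit 146)) (XT.lf (nat_lit 0) (nat_lit 502965346092) (nat_lit 152) (nat_lit 3021764074668) (nat_lit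 0) (nat_lit 475442843021) (nat_lit 1) (nat_lit 5) (nat_lit 3) (nat_lit 4) (nat_lit 1) (nat_lit 4) (nat_lit 366) (nat_lit 269) (nat_lit 145))))))) (XT.nd (nat_lit 34164) (nat_lit 0) (nat_lit 1216) (XT.nd (nat_lit 33540) (nat_lit 0) (nat_lit 2508) (XT.nd (nat_lit 33228) (nat_lit 0) (nat_lit 3344) (XT.nd (nat_lit 33072) (nat_lit 0) (nat_lit 3800) (XT.lf (nat_lit 0) (nat_lit 557989814746) (nat_lit 152) (nat_lit 3230361088080) (nat_lit 0) (nat_lit 530467165511) (nat_lit 1) (nat_lit 5) (nat_lit 3) (nat_lit 4) (nat_lit 1) (nat_lit 4) (nat_lit 367) (nat_lit 269) (nat_lit 144)) (XT.nd (nat_lit 78) (nat_lit 0) (nat_lit 0) (XT.lf (nat_lit 0) (nat_lit 1965953083) (nat_lit 0) (nat_lit 1965953083) (nat_lit 380) (nat_lit 757801783) (nat_lit 51) (nat_lit 5) (nat_lit 51) (nat_lit 3) (nat_lit 56) (nat_lit 3) (nat_lit 270) (nat_lit 270) (nat_lit 240)) (XT.lf (nat_lit 0) (nat_lit 8534955729) (nat_lit 0)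 (nat_lit 387670993) (nat_lit 380) (nat_lit 769720623) (nat_lit 51) (nat_lit 5) (nat_lit 51) (nat_lit 3) (nat_lit 56) (nat_lit 3) (nat_lit 271) (nat_lit 270) (nat_lit 239)))) (XT.nd (nat_lit 156) (nat_lit 0) (nat_lit 76) (XT.nd (nat_lit 78) (nat_lit 0) (nat_lit 0) (XT.lf (nat_lit 0) (nat_lit 130172583) (nat_lit 456) (nat_lit 6501171610) (nat_lit 532) (nat_lit 3391460114) (nat_lit 45) (nat_lit 5) (nat_lit 51) (nat_lit 5) (nat_lit 52) (nat_lit 5) (nat_lit 272) (nat_lit 270) (nat_lit 238)) (XT.lf (nat_lit 0) (nat_lit 1031817629) (nat_lit 456) (nat_lit 1814461229) (nat_lit 532) (nat_lit 7534343882) (nat_lit 45) (nat_lit 5) (nat_lit 51) (nat_lit 5) (nat_lit 52) (nat_lit 5) (nat_lit 273) (nat_lit 270) (nat_lit 237))) (XT.nd (nat_lit 78) (nat_lit 0) (nat_lit 0) (XT.lf (nat_lit 0) (nat_lit 2053277866) (nat_lit 456) (nat_lit 7426407115) (nat_lit 532) (nat_lit 1283781754) (nat_lit 46) (nat_lit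 5) (nat_lit 52) (nat_lit 5) (nat_lit 53) (nat_lit 5) (nat_lit 274) (nat_lit 270) (nat_lit 236)) (XT.lf (nat_lit 0) (nat_lit 3219691548) (nat_lit 456) (nat_lit 2292534527) (nat_lit 532) (nat_lit 5659852109) (nat_lit 46) (nat_lit 5) (nat_lit 52) (nat_lit 5) (nat_lit 53) (nat_lit 5) (nat_lit 275) (nat_lit 270) (nat_lit 235))))) (XT.nd (nat_lit 312) (nat_lit 532) (nat_lit 0) (XT.nd (nat_lit 156) (nat_lit 380) (nat_lit 0) (XT.nd (nat_lit 78) (nat_lit 0) (nat_lit 76) (XT.lf (nat_lit 76) (nat_lit 3376276821) (nat_lit 0) (nat_lit 1127311537) (nat_lit 532) (nat_lit 7108040723) (nat_lit 47) (nat_lit 5) (nat_lit 46) (nat_lit 5) (nat_lit 53) (nat_lit 5) (nat_lit 276) (nat_lit 270) (nat_lit 234)) (XT.lf (nat_lit 0) (nat_lit 5987684984) (nat_lit 456) (nat_lit 2589030147) (nat_lit 76) (nat_lit 3502000368) (nat_lit 47) (nat_lit 5) (nat_lit 53) (nat_lit 5) (nat_lit 48) (nat_lit 5) (nat_lit 277) (nat_lit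 270) (nat_lit 233))) (XT.nd (nat_lit 78) (nat_lit 0) (nat_lit 0) (XT.lf (nat_lit 0) (nat_lit 3615912382) (nat_lit 456) (nat_lit 4041207219) (nat_lit 532) (nat_lit 4920878273) (nat_lit 41) (nat_lit 5) (nat_lit 47) (nat_lit 5) (nat_lit 48) (nat_lit 5) (nat_lit 278) (nat_lit 270) (nat_lit 232)) (XT.lf (nat_lit 0) (nat_lit 9506429224) (nat_lit 532) (nat_lit 2717067180) (nat_lit 76) (nat_lit 890166990) (nat_lit 41) (nat_lit 5) (nat_lit 48) (nat_lit 5) (nat_lit 42) (nat_lit 5) (nat_lit 279) (nat_lit 270) (nat_lit 231)))) (XT.nd (nat_lit 156) (nat_lit 304) (nat_lit 0) (XT.nd (nat_lit 78) (nat_lit 0) (nat_lit 0) (XT.lf (nat_lit 0) (nat_lit 4082801041) (nat_lit 228) (nat_lit 7580594741) (nat_lit 304) (nat_lit 2016144742) (nat_lit 38) (nat_lit 5) (nat_lit 41) (nat_lit 5) (nat_lit 42) (nat_lit 5) (nat_lit 280) (nat_lit 270) (nat_lit 230)) (XT.lf (nat_lit 0) (nat_lit 11538271877) (nat_lit 228) (nat_lit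 2487677748) (nat_lit 304) (nat_lit 262221124) (nat_lit 38) (nat_lit 5) (nat_lit 41) (nat_lit 5) (nat_lit 42) (nat_lit 5) (nat_lit 281) (nat_lit 270) (nat_lit 229))) (XT.nd (nat_lit 78) (nat_lit 0) (nat_lit 0) (XT.lf (nat_lit 0) (nat_lit 1703015609) (nat_lit 304) (nat_lit 10208934503) (nat_lit 76) (nat_lit 3018297572) (nat_lit 34) (nat_lit 5) (nat_lit 38) (nat_lit 5) (nat_lit 35) (nat_lit 5) (nat_lit 282) (nat_lit 270) (nat_lit 228)) (XT.lf (nat_lit 0) (nat_lit 3915599532) (nat_lit 304) (nat_lit 2788296116) (nat_lit 76) (nat_lit 8911006134) (nat_lit 34) (nat_lit 5) (nat_lit 38) (nat_lit 5) (nat_lit 35) (nat_lit 5) (nat_lit 283) (nat_lit 270) (nat_lit 227)))))) (XT.nd (nat_lit 624) (nat_lit 532) (nat_lit 0) (XT.nd (nat_lit 312) (nat_lit 380) (nat_lit 0) (XT.nd (nat_lit 156) (nat_lit 152) (nat_lit 0) (XT.nd (nat_lit 78) (nat_lit 0) (nat_lit 0) (XT.lf (nat_lit 0) (nat_lit 5458442251) (nat_lit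 228) (nat_lit 943338378) (nat_lit 304) (nat_lit 9944912455) (nat_lit 31) (nat_lit 5) (nat_lit 34) (nat_lit 5) (nat_lit 35) (nat_lit 5) (nat_lit 284) (nat_lit 270) (nat_lit 226)) (XT.lf (nat_lit 0) (nat_lit 9258786621) (nat_lit 304) (nat_lit 2778504601) (nat_lit 76) (nat_lit 5086067325) (nat_lit 31) (nat_lit 5) (nat_lit 35) (nat_lit 5) (nat_lit 32) (nat_lit 5) (nat_lit 285) (nat_lit 270) (nat_lit 225))) (XT.nd (nat_lit 78) (nat_lit 0) (nat_lit 0) (XT.lf (nat_lit 0) (nat_lit 6228042526) (nat_lit 152) (nat_lit 6259834206) (nat_lit 228) (nat_lit 5462877596) (nat_lit 29) (nat_lit 5) (nat_lit 31) (nat_lit 5) (nat_lit 32) (nat_lit 5) (nat_lit 286) (nat_lit 270) (nat_lit 224)) (XT.lf (nat_lit 0) (nat_lit 16023144018) (nat_lit 228) (nat_lit 2766880281) (nat_lit 76) (nat_lit 50562596) (nat_lit 29) (nat_lit 5) (nat_lit 32) (nat_lit 5) (nat_lit 30) (nat_lit 5) (nat_lit 287) (nat_lit 270) (nat_lit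 223)))) (XT.nd (nat_lit 156) (nat_lit 152) (nat_lit 0) (XT.nd (nat_lit 78) (nat_lit 0) (nat_lit 0) (XT.lf (nat_lit 0) (nat_lit 350440325) (nat_lit 228) (nat_lit 12727499069) (nat_lit 76) (nat_lit 6698629446) (nat_lit 26) (nat_lit 5) (nat_lit 29) (nat_lit 5) (nat_lit 27) (nat_lit 5) (nat_lit 288) (nat_lit 270) (nat_lit 222)) (XT.lf (nat_lit 0) (nat_lit 3670156766) (nat_lit 228) (nat_lit 3086683400) (nat_lit 76) (nat_lit 14020743379) (nat_lit 26) (nat_lit 5) (nat_lit 29) (nat_lit 5) (nat_lit 27) (nat_lit 5) (nat_lit 289) (nat_lit 270) (nat_lit 221))) (XT.nd (nat_lit 78) (nat_lit 0) (nat_lit 0) (XT.lf (nat_lit 0) (nat_lit 7421253853) (nat_lit 228) (nat_lit 14177917518) (nat_lit 76) (nat_lit 246297535) (nat_lit 24) (nat_lit 5) (nat_lit 27) (nat_lit 5) (nat_lit 25) (nat_lit 5) (nat_lit 290) (nat_lit 270) (nat_lit 220)) (XT.lf (nat_lit 0) (nat_lit 11710316531) (nat_lit 228) (nat_lit 3747907851)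 (nat_lit 76) (nat_lit 7521580254) (nat_lit 24) (nat_lit 5) (nat_lit 27) (nat_lit 5) (nat_lit 25) (nat_lit 5) (nat_lit 291) (nat_lit 270) (nat_lit 219))))) (XT.nd (nat_lit 312) (nat_lit 228) (nat_lit 0) (XT.nd (nat_lit 156) (nat_lit 152) (nat_lit 0) (XT.nd (nat_lit 78) (nat_lit 0) (nat_lit 0) (XT.lf (nat_lit 0) (nat_lit 7877368485) (nat_lit 152) (nat_lit 8632168120) (nat_lit 228) (nat_lit 7682034109) (nat_lit 22) (nat_lit 5) (nat_lit 24) (nat_lit 5) (nat_lit 25) (nat_lit 5) (nat_lit 292) (nat_lit 270) (nat_lit 218)) (XT.lf (nat_lit 0) (nat_lit 20613462096) (nat_lit 152) (nat_lit 1160170686) (nat_lit 228) (nat_lit 3720212883) (nat_lit 22) (nat_lit 5) (nat_lit 24) (nat_lit 5) (nat_lit 25) (nat_lit 5) (nat_lit 293) (nat_lit 270) (nat_lit 217))) (XT.nd (nat_lit 78) (nat_lit 0) (nat_lit 0) (XT.lf (nat_lit 0) (nat_lit 869208773) (nat_lit 152) (nat_lit 19242469139) (nat_lit 76) (nat_lit 6760498950)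 (nat_lit 20) (nat_lit 5) (nat_lit 22) (nat_lit 5) (nat_lit 21) (nat_lit 5) (nat_lit 294) (nat_lit 270) (nat_lit 216)) (XT.lf (nat_lit 0) (nat_lit 5771873931) (nat_lit 152) (nat_lit 7093811048) (nat_lit 76) (nat_lit 15475626902) (nat_lit 20) (nat_lit 5) (nat_lit 22) (nat_lit 5) (nat_lit 21) (nat_lit 5) (nat_lit 295) (nat_lit 270) (nat_lit 215)))) (XT.nd (nat_lit 156) (nat_lit 76) (nat_lit 0) (XT.nd (nat_lit 78) (nat_lit 0) (nat_lit 0) (XT.lf (nat_lit 0) (nat_lit 6313257667) (nat_lit 152) (nat_lit 4886846525) (nat_lit 228) (nat_lit 18717236720) (nat_lit 18) (nat_lit 5) (nat_lit 20) (nat_lit 5) (nat_lit 21) (nat_lit 5) (nat_lit 296) (nat_lit 270) (nat_lit 214)) (XT.lf (nat_lit 0) (nat_lit 17333243397) (nat_lit 228) (nat_lit 10532113520) (nat_lit 76) (nat_lit 3732472344) (nat_lit 18) (nat_lit 5) (nat_lit 21) (nat_lit 5) (nat_lit 19) (nat_lit 4) (nat_lit 297) (nat_lit 270) (nat_lit 213)))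 (XT.nd (nat_lit 78) (nat_lit 0) (nat_lit 0) (XT.lf (nat_lit 0) (nat_lit 3611814547) (nat_lit 76) (nat_lit 20542293685) (nat_lit 152) (nat_lit 9242909373) (nat_lit 17) (nat_lit 5) (nat_lit 18) (nat_lit 5) (nat_lit 19) (nat_lit 4) (nat_lit 298) (nat_lit 270) (nat_lit 212)) (XT.lf (nat_lit 0) (nat_lit 19459379101) (nat_lit 76) (nat_lit 12333101864) (nat_lit 152) (nat_lit 3525937851) (nat_lit 17) (nat_lit 5) (nat_lit 18) (nat_lit 5) (nat_lit 19) (nat_lit 4) (nat_lit 299) (nat_lit 270) (nat_lit 211))))))))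
noncomputable def xc67 : XT := (XT.nd (nat_lit 2418) (nat_lit 228) (nat_lit 0) (XT.nd (nat_lit 1170) (nat_lit 304) (nat_lit 0) (XT.nd (nat_lit 546) (nat_lit 228) (nat_lit 0) (XT.nd (nat_lit 234) (nat_lit 228) (nat_lit 0) (XT.nd (nat_lit 78) (nat_lit 152) (nat_lit 0) (XT.lf (nat_lit 0) (nat_lit 2500565078) (nat_lit 152) (nat_lit 908166082) (nat_lit 76) (nat_lit 33980954240) (nat_lit 16) (nat_lit 5) (nat_lit 18) (nat_lit 5) (nat_lit 17) (nat_lit 5) (nat_lit 300) (nat_lit 270) (nat_lit 210)) (XT.nd (nat_lit 78) (nat_lit 0) (nat_lit 0) (XT.lf (nat_lit 0) (nat_lit 9349275453) (nat_lit 228) (nat_lit 23831987627) (nat_lit 76) (nat_lit 6395637015) (nat_lit 14) (nat_lit 5) (nat_lit 17) (nat_lit 5) (nat_lit 15) (nat_lit 4) (nat_lit 301) (nat_lit 270) (nat_lit 209)) (XT.lf (nat_lit 0) (nat_lit 16845957388) (nat_lit 228) (nat_lit 8268474690) (nat_lit 76) (nat_lit 16816672207) (nat_lit 14) (nat_lit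 5) (nat_lit 17) (nat_lit 5) (nat_lit 15) (nat_lit 4) (nat_lit 302) (nat_lit 270) (nat_lit 208)))) (XT.nd (nat_lit 156) (nat_lit 152) (nat_lit 0) (XT.nd (nat_lit 78) (nat_lit 0) (nat_lit 0) (XT.lf (nat_lit 0) (nat_lit 8966364949) (nat_lit 76) (nat_lit 16178743213) (nat_lit 152) (nat_lit 19312334850) (nat_lit 13) (nat_lit 5) (nat_lit 14) (nat_lit 5) (nat_lit 15) (nat_lit 4) (nat_lit 303) (nat_lit 270) (nat_lit 207)) (XT.lf (nat_lit 0) (nat_lit 28028503282) (nat_lit 76) (nat_lit 6293289073) (nat_lit 152) (nat_lit 12847024062) (nat_lit 13) (nat_lit 5) (nat_lit 14) (nat_lit 5) (nat_lit 15) (nat_lit 4) (nat_lit 304) (nat_lit 270) (nat_lit 206))) (XT.nd (nat_lit 78) (nat_lit 152) (nat_lit 0) (XT.lf (nat_lit 0) (nat_lit 44326267136) (nat_lit 152) (nat_lit 1607745566) (nat_lit 0) (nat_lit 4155609050) (nat_lit 13) (nat_lit 5) (nat_lit 15) (nat_lit 4) (nat_lit 13) (nat_lit 4) (nat_lit 305) (nat_lit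 270) (nat_lit 205)) (XT.lf (nat_lit 0) (nat_lit 2394456149) (nat_lit 152) (nat_lit 35210324680) (nat_lit 76) (nat_lit 15587545045) (nat_lit 11) (nat_lit 5) (nat_lit 13) (nat_lit 5) (nat_lit 12) (nat_lit 4) (nat_lit 306) (nat_lit 270) (nat_lit 204))))) (XT.nd (nat_lit 312) (nat_lit 152) (nat_lit 0) (XT.nd (nat_lit 156) (nat_lit 0) (nat_lit 0) (XT.nd (nat_lit 78) (nat_lit 76) (nat_lit 0) (XT.lf (nat_lit 0) (nat_lit 10927805087) (nat_lit 152) (nat_lit 17479602765) (nat_lit 76) (nat_lit 28121131471) (nat_lit 11) (nat_lit 5) (nat_lit 13) (nat_lit 5) (nat_lit 12) (nat_lit 4) (nat_lit 307) (nat_lit 270) (nat_lit 203)) (XT.lf (nat_lit 0) (nat_lit 1738589454) (nat_lit 76) (nat_lit 18437030569) (nat_lit 152) (nat_lit 39953496655) (nat_lit 10) (nat_lit 5) (nat_lit 11) (nat_lit 5) (nat_lit 12) (nat_lit 4) (nat_lit 308) (nat_lit 270) (nat_lit 202))) (XT.nd (nat_lit 78) (nat_lit 0) (nat_lit 0) (XT.lf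 (nat_lit 0) (nat_lit 23470813466) (nat_lit 76) (nat_lit 7160675851) (nat_lit 152) (nat_lit 33348802459) (nat_lit 10) (nat_lit 5) (nat_lit 11) (nat_lit 5) (nat_lit 12) (nat_lit 4) (nat_lit 309) (nat_lit 270) (nat_lit 201)) (XT.lf (nat_lit 0) (nat_lit 42035356075) (nat_lit 152) (nat_lit 21335384193) (nat_lit 0) (nat_lit 4759907533) (nat_lit 10) (nat_lit 5) (nat_lit 12) (nat_lit 4) (nat_lit 10) (nat_lit 4) (nat_lit 310) (nat_lit 270) (nat_lit 200)))) (XT.nd (nat_lit 156) (nat_lit 76) (nat_lit 0) (XT.nd (nat_lit 78) (nat_lit 76) (nat_lit 0) (XT.lf (nat_lit 0) (nat_lit 54529051545) (nat_lit 152) (nat_lit 828873395) (nat_lit 0) (nat_lit 17240914295) (nat_lit 10) (nat_lit 5) (nat_lit 12) (nat_lit 4) (nat_lit 10) (nat_lit 4) (nat_lit 311) (nat_lit 270) (nat_lit 199)) (XT.lf (nat_lit 0) (nat_lit 22425608329) (nat_lit 76) (nat_lit 46128126107) (nat_lit 76) (nat_lit 8828240052) (nat_lit 9) (nat_lit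 4) (nat_lit 10) (nat_lit 5) (nat_lit 10) (nat_lit 4) (nat_lit 312) (nat_lit 270) (nat_lit 198))) (XT.nd (nat_lit 78) (nat_lit 0) (nat_lit 0) (XT.lf (nat_lit 0) (nat_lit 1110418908) (nat_lit 152) (nat_lit 35001093248) (nat_lit 76) (nat_lit 46432801725) (nat_lit 8) (nat_lit 5) (nat_lit 10) (nat_lit 5) (nat_lit 9) (nat_lit 4) (nat_lit 313) (nat_lit 270) (nat_lit 197)) (XT.lf (nat_lit 0) (nat_lit 11359989734) (nat_lit 152) (nat_lit 13692058637) (nat_lit 76) (nat_lit 63049832017) (nat_lit 8) (nat_lit 5) (nat_lit 10) (nat_lit 5) (nat_lit 9) (nat_lit 4) (nat_lit 314) (nat_lit 270) (nat_lit 196)))))) (XT.nd (nat_lit 624) (nat_lit 152) (nat_lit 0) (XT.nd (nat_lit 312) (nat_lit 76) (nat_lit 0) (XT.nd (nat_lit 156) (nat_lit 0) (nat_lit 0) (XT.nd (nat_lit 78) (nat_lit 0) (nat_lit 0) (XT.lf (nat_lit 0) (nat_lit 9799545789) (nat_lit 76) (nat_lit 12858968466) (nat_lit 152) (nat_lit 71427224685) (nat_lit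 7) (nat_lit 5) (nat_lit 8) (nat_lit 5) (nat_lit 9) (nat_lit 4) (nat_lit 315) (nat_lit 270) (nat_lit 195)) (XT.lf (nat_lit 0) (nat_lit 35245835133) (nat_lit 152) (nat_lit 64598810681) (nat_lit 0) (nat_lit 672872554) (nat_lit 7) (nat_lit 5) (nat_lit 9) (nat_lit 4) (nat_lit 7) (nat_lit 4) (nat_lit 316) (nat_lit 270) (nat_lit 194))) (XT.nd (nat_lit 78) (nat_lit 0) (nat_lit 0) (XT.lf (nat_lit 0) (nat_lit 49168011789) (nat_lit 152) (nat_lit 43681958226) (nat_lit 0) (nat_lit 14587645470) (nat_lit 7) (nat_lit 5) (nat_lit 9) (nat_lit 4) (nat_lit 7) (nat_lit 4) (nat_lit 317) (nat_lit 270) (nat_lit 193)) (XT.lf (nat_lit 0) (nat_lit 64198287512) (nat_lit 152) (nat_lit 21102425568) (nat_lit 0) (nat_lit 29611065878) (nat_lit 7) (nat_lit 5) (nat_lit 9) (nat_lit 4) (nat_lit 7) (nat_lit 4) (nat_lit 318) (nat_lit 270) (nat_lit 192)))) (XT.nd (nat_lit 156) (nat_lit 0) (nat_lit 0) (XT.nd (nat_lit 78) (nat_lit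 0) (nat_lit 0) (XT.lf (nat_lit 0) (nat_lit 3445973480) (nat_lit 76) (nat_lit 77062632865) (nat_lit 76) (nat_lit 42469063718) (nat_lit 6) (nat_lit 4) (nat_lit 7) (nat_lit 5) (nat_lit 7) (nat_lit 4) (nat_lit 319) (nat_lit 270) (nat_lit 191)) (XT.lf (nat_lit 0) (nat_lit 31148730391) (nat_lit 76) (nat_lit 67546901005) (nat_lit 76) (nat_lit 32947454530) (nat_lit 6) (nat_lit 4) (nat_lit 7) (nat_lit 5) (nat_lit 7) (nat_lit 4) (nat_lit 320) (nat_lit 270) (nat_lit 190))) (XT.nd (nat_lit 78) (nat_lit 0) (nat_lit 0) (XT.lf (nat_lit 0) (nat_lit 61058793316) (nat_lit 76) (nat_lit 57274105688) (nat_lit 76) (nat_lit 22669217244) (nat_lit 6) (nat_lit 4) (nat_lit 7) (nat_lit 5) (nat_lit 7) (nat_lit 4) (nat_lit 321) (nat_lit 270) (nat_lit 189)) (XT.lf (nat_lit 0) (nat_lit 93353407073) (nat_lit 76) (nat_lit 46183371092) (nat_lit 76) (nat_lit 11573443787) (nat_lit 6) (nat_lit 4) (nat_lit 7) (nat_lit 5)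 (nat_lit 7) (nat_lit 4) (nat_lit 322) (nat_lit 270) (nat_lit 188))))) (XT.nd (nat_lit 312) (nat_lit 0) (nat_lit 0) (XT.nd (nat_lit 156) (nat_lit 76) (nat_lit 0) (XT.nd (nat_lit 78) (nat_lit 0) (nat_lit 0) (XT.lf (nat_lit 0) (nat_lit 385327889) (nat_lit 152) (nat_lit 33813110907) (nat_lit 76) (nat_lit 127828083714) (nat_lit 5) (nat_lit 5) (nat_lit 7) (nat_lit 5) (nat_lit 6) (nat_lit 4) (nat_lit 323) (nat_lit 270) (nat_lit 187)) (XT.lf (nat_lit 0) (nat_lit 12671688226) (nat_lit 152) (nat_lit 8261801417) (nat_lit 76) (nat_lit 152858899147) (nat_lit 5) (nat_lit 5) (nat_lit 7) (nat_lit 5) (nat_lit 6) (nat_lit 4) (nat_lit 324) (nat_lit 270) (nat_lit 186))) (XT.nd (nat_lit 78) (nat_lit 0) (nat_lit 0) (XT.lf (nat_lit 0) (nat_lit 20344589103) (nat_lit 76) (nat_lit 6082094570) (nat_lit 152) (nat_lit 160033985071) (nat_lit 4) (nat_lit 5) (nat_lit 5) (nat_lit 5) (nat_lit 6) (nat_lit 4) (nat_lit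 325) (nat_lit 270) (nat_lit 185)) (XT.lf (nat_lit 0) (nat_lit 41749783637) (nat_lit 152) (nat_lit 148667111806) (nat_lit 0) (nat_lit 9688101552) (nat_lit 4) (nat_lit 5) (nat_lit 6) (nat_lit 4) (nat_lit 4) (nat_lit 4) (nat_lit 326) (nat_lit 270) (nat_lit 184)))) (XT.nd (nat_lit 156) (nat_lit 0) (nat_lit 0) (XT.nd (nat_lit 78) (nat_lit 0) (nat_lit 0) (XT.lf (nat_lit 0) (nat_lit 58453438873) (nat_lit 152) (nat_lit 129986476722) (nat_lit 0) (nat_lit 26388581451) (nat_lit 4) (nat_lit 5) (nat_lit 6) (nat_lit 4) (nat_lit 4) (nat_lit 4) (nat_lit 327) (nat_lit 270) (nat_lit 183)) (XT.lf (nat_lit 0) (nat_lit 76490359483) (nat_lit 152) (nat_lit 109817199809) (nat_lit 0) (nat_lit 44422561934) (nat_lit 4) (nat_lit 5) (nat_lit 6) (nat_lit 4) (nat_lit 4) (nat_lit 4) (nat_lit 328) (nat_lit 270) (nat_lit 182))) (XT.nd (nat_lit 78) (nat_lit 0) (nat_lit 0) (XT.lf (nat_lit 0) (nat_lit 95967430924) (nat_lit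 152) (nat_lit 88039759428) (nat_lit 0) (nat_lit 63896911035) (nat_lit 4) (nat_lit 5) (nat_lit 6) (nat_lit 4) (nat_lit 4) (nat_lit 4) (nat_lit 329) (nat_lit 270) (nat_lit 181)) (XT.lf (nat_lit 0) (nat_lit 117000072877) (nat_lit 152) (nat_lit 64525104079) (nat_lit 0) (nat_lit 84927032304) (nat_lit 4) (nat_lit 5) (nat_lit 6) (nat_lit 4) (nat_lit 4) (nat_lit 4) (nat_lit 330) (nat_lit 270) (nat_lit 180))))))) (XT.nd (nat_lit 1170) (nat_lit 152) (nat_lit 0) (XT.nd (nat_lit 546) (nat_lit 0) (nat_lit 0) (XT.nd (nat_lit 234) (nat_lit 0) (nat_lit 0) (XT.nd (nat_lit 78) (nat_lit 76) (nat_lit 0) (XT.lf (nat_lit 0) (nat_lit 139712923222) (nat_lit 152) (nat_lit 39133887657) (nat_lit 0) (nat_lit 107637548680) (nat_lit 4) (nat_lit 5) (nat_lit 6) (nat_lit 4) (nat_lit 4) (nat_lit 4) (nat_lit 331) (nat_lit 270) (nat_lit 179)) (XT.nd (nat_lit 78) (nat_lit 76) (nat_lit 0) (XT.lf (nat_lit 0) (nat_lit 164240576626)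 (nat_lit 152) (nat_lit 11715643693) (nat_lit 0) (nat_lit 132163041004) (nat_lit 4) (nat_lit 5) (nat_lit 6) (nat_lit 4) (nat_lit 4) (nat_lit 4) (nat_lit 332) (nat_lit 270) (nat_lit 178)) (XT.lf (nat_lit 0) (nat_lit 18834272903) (nat_lit 76) (nat_lit 172347073960) (nat_lit 76) (nat_lit 140267537337) (nat_lit 3) (nat_lit 4) (nat_lit 4) (nat_lit 5) (nat_lit 4) (nat_lit 4) (nat_lit 333) (nat_lit 270) (nat_lit 177)))) (XT.nd (nat_lit 156) (nat_lit 0) (nat_lit 0) (XT.nd (nat_lit 78) (nat_lit 0) (nat_lit 0) (XT.lf (nat_lit 0) (nat_lit 52490608461) (nat_lit 76) (nat_lit 168105096493) (nat_lit 76) (nat_lit 136023707091) (nat_lit 3) (nat_lit 4) (nat_lit 4) (nat_lit 5) (nat_lit 4) (nat_lit 4) (nat_lit 334) (nat_lit 270) (nat_lit 176)) (XT.lf (nat_lit 0) (nat_lit 88835882896) (nat_lit 76) (nat_lit 163525476735) (nat_lit 76) (nat_lit 131442371798) (nat_lit 3) (nat_lit 4) (nat_lit 4) (nat_lit 5) (nat_lit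 4) (nat_lit 4) (nat_lit 335) (nat_lit 270) (nat_lit 175))) (XT.nd (nat_lit 78) (nat_lit 0) (nat_lit 0) (XT.lf (nat_lit 0) (nat_lit 128085475613) (nat_lit 76) (nat_lit 158581076199) (nat_lit 76) (nat_lit 126496382803) (nat_lit 3) (nat_lit 4) (nat_lit 4) (nat_lit 5) (nat_lit 4) (nat_lit 4) (nat_lit 336) (nat_lit 270) (nat_lit 174)) (XT.lf (nat_lit 0) (nat_lit 170471976790) (nat_lit 76) (nat_lit 153242594734) (nat_lit 76) (nat_lit 121156430542) (nat_lit 3) (nat_lit 4) (nat_lit 4) (nat_lit 5) (nat_lit 4) (nat_lit 4) (nat_lit 337) (nat_lit 270) (nat_lit 173))))) (XT.nd (nat_lit 312) (nat_lit 0) (nat_lit 0) (XT.nd (nat_lit 156) (nat_lit 0) (nat_lit 0) (XT.nd (nat_lit 78) (nat_lit 0) (nat_lit 0) (XT.lf (nat_lit 0) (nat_lit 216246565693) (nat_lit 76) (nat_lit 147478396893) (nat_lit 76) (nat_lit 115390870853) (nat_lit 3) (nat_lit 4) (nat_lit 4) (nat_lit 5) (nat_lit 4) (nat_lit 4) (nat_lit 338)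 (nat_lit 270) (nat_lit 172)) (XT.lf (nat_lit 0) (nat_lit 265680499146) (nat_lit 76) (nat_lit 141254324468) (nat_lit 76) (nat_lit 109165537458) (nat_lit 3) (nat_lit 4) (nat_lit 4) (nat_lit 5) (nat_lit 4) (nat_lit 4) (nat_lit 339) (nat_lit 270) (nat_lit 171))) (XT.nd (nat_lit 78) (nat_lit 0) (nat_lit 0) (XT.lf (nat_lit 0) (nat_lit 319066718977) (nat_lit 76) (nat_lit 134533494065) (nat_lit 76) (nat_lit 102443539491) (nat_lit 3) (nat_lit 4) (nat_lit 4) (nat_lit 5) (nat_lit 4) (nat_lit 4) (nat_lit 340) (nat_lit 270) (nat_lit 170)) (XT.lf (nat_lit 0) (nat_lit 376721587970) (nat_lit 76) (nat_lit 127276078543) (nat_lit 76) (nat_lit 95185042890) (nat_lit 3) (nat_lit 4) (nat_lit 4) (nat_lit 5) (nat_lit 4) (nat_lit 4) (nat_lit 341) (nat_lit 270) (nat_lit 169)))) (XT.nd (nat_lit 156) (nat_lit 0) (nat_lit 0) (XT.nd (nat_lit 78) (nat_lit 0) (nat_lit 0) (XT.lf (nat_lit 0) (nat_lit 438986764607) (nat_lit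 76) (nat_lit 119439070994) (nat_lit 76) (nat_lit 87347034342) (nat_lit 3) (nat_lit 4) (nat_lit 4) (nat_lit 5) (nat_lit 4) (nat_lit 4) (nat_lit 342) (nat_lit 270) (nat_lit 168)) (XT.lf (nat_lit 0) (nat_lit 506231227713) (nat_lit 76) (nat_lit 110976029891) (nat_lit 76) (nat_lit 78883066389) (nat_lit 3) (nat_lit 4) (nat_lit 4) (nat_lit 5) (nat_lit 4) (nat_lit 4) (nat_lit 343) (nat_lit 270) (nat_lit 167))) (XT.nd (nat_lit 78) (nat_lit 0) (nat_lit 0) (XT.lf (nat_lit 0) (nat_lit 578853462996) (nat_lit 76) (nat_lit 101836803882) (nat_lit 76) (nat_lit 69742982184) (nat_lit 3) (nat_lit 4) (nat_lit 4) (nat_lit 5) (nat_lit 4) (nat_lit 4) (nat_lit 344) (nat_lit 270) (nat_lit 166)) (XT.lf (nat_lit 0) (nat_lit 657283824443) (nat_lit 76) (nat_lit 91967234587) (nat_lit 76) (nat_lit 59872618265) (nat_lit 3) (nat_lit 4) (nat_lit 4) (nat_lit 5) (nat_lit 4) (nat_lit 4) (nat_lit 345) (nat_lit 270) (nat_lit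 165)))))) (XT.nd (nat_lit 624) (nat_lit 0) (nat_lit 0) (XT.nd (nat_lit 312) (nat_lit 152) (nat_lit 0) (XT.nd (nat_lit 156) (nat_lit 0) (nat_lit 0) (XT.nd (nat_lit 78) (nat_lit 0) (nat_lit 0) (XT.lf (nat_lit 0) (nat_lit 741987084565) (nat_lit 76) (nat_lit 81308835673) (nat_lit 76) (nat_lit 49213483586) (nat_lit 3) (nat_lit 4) (nat_lit 4) (nat_lit 5) (nat_lit 4) (nat_lit 4) (nat_lit 346) (nat_lit 270) (nat_lit 164)) (XT.lf (nat_lit 0) (nat_lit 833465188608) (nat_lit 76) (nat_lit 69798446255) (nat_lit 76) (nat_lit 37702412906) (nat_lit 3) (nat_lit 4) (nat_lit 4) (nat_lit 5) (nat_lit 4) (nat_lit 4) (nat_lit 347) (nat_lit 270) (nat_lit 163))) (XT.nd (nat_lit 78) (nat_lit 0) (nat_lit 0) (XT.lf (nat_lit 0) (nat_lit 932260229040) (nat_lit 76) (nat_lit 57367856619) (nat_lit 76) (nat_lit 25271192471) (nat_lit 3) (nat_lit 4) (nat_lit 4) (nat_lit 5) (nat_lit 4) (nat_lit 4) (nat_lit 348) (nat_lit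 270) (nat_lit 162)) (XT.lf (nat_lit 0) (nat_lit 1038957657952) (nat_lit 76) (nat_lit 43943404012) (nat_lit 76) (nat_lit 11846155790) (nat_lit 3) (nat_lit 4) (nat_lit 4) (nat_lit 5) (nat_lit 4) (nat_lit 4) (nat_lit 349) (nat_lit 270) (nat_lit 161)))) (XT.nd (nat_lit 156) (nat_lit 0) (nat_lit 0) (XT.nd (nat_lit 78) (nat_lit 76) (nat_lit 0) (XT.lf (nat_lit 0) (nat_lit 2519576476) (nat_lit 152) (nat_lit 26857069959) (nat_lit 76) (nat_lit 1151601290244) (nat_lit 2) (nat_lit 5) (nat_lit 4) (nat_lit 5) (nat_lit 3) (nat_lit 4) (nat_lit 350) (nat_lit 270) (nat_lit 160)) (XT.lf (nat_lit 0) (nat_lit 4296167418) (nat_lit 76) (nat_lit 13201167772) (nat_lit 152) (nat_lit 1256576941410) (nat_lit 1) (nat_lit 5) (nat_lit 2) (nat_lit 5) (nat_lit 3) (nat_lit 4) (nat_lit 351) (nat_lit 270) (nat_lit 159))) (XT.nd (nat_lit 78) (nat_lit 0) (nat_lit 0) (XT.lf (nat_lit 0) (nat_lit 34528810536) (nat_lit 152)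 (nat_lit 1335213331251) (nat_lit 0) (nat_lit 4807742541) (nat_lit 1) (nat_lit 5) (nat_lit 3) (nat_lit 4) (nat_lit 1) (nat_lit 4) (nat_lit 352) (nat_lit 270) (nat_lit 158)) (XT.lf (nat_lit 0) (nat_lit 53265181106) (nat_lit 152) (nat_lit 1406227254055) (nat_lit 0) (nat_lit 23543715601) (nat_lit 1) (nat_lit 5) (nat_lit 3) (nat_lit 4) (nat_lit 1) (nat_lit 4) (nat_lit 353) (nat_lit 270) (nat_lit 157))))) (XT.nd (nat_lit 312) (nat_lit 0) (nat_lit 0) (XT.nd (nat_lit 156) (nat_lit 0) (nat_lit 0) (XT.nd (nat_lit 78) (nat_lit 0) (nat_lit 0) (XT.lf (nat_lit 0) (nat_lit 73499988845) (nat_lit 152) (nat_lit 1482923212437) (nat_lit 0) (nat_lit 43778155274) (nat_lit 1) (nat_lit 5) (nat_lit 3) (nat_lit 4) (nat_lit 1) (nat_lit 4) (nat_lit 354) (nat_lit 270) (nat_lit 156)) (XT.lf (nat_lit 0) (nat_lit 95353143722) (nat_lit 152) (nat_lit 1565755700968) (nat_lit 0) (nat_lit 65630969350) (nat_lit 1) (nat_lit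 5) (nat_lit 3) (nat_lit 4) (nat_lit 1) (nat_lit 4) (nat_lit 355) (nat_lit 270) (nat_lit 155))) (XT.nd (nat_lit 78) (nat_lit 0) (nat_lit 0) (XT.lf (nat_lit 0) (nat_lit 118954145915) (nat_lit 152) (nat_lit 1655215578836) (nat_lit 0) (nat_lit 89231655987) (nat_lit 1) (nat_lit 5) (nat_lit 3) (nat_lit 4) (nat_lit 1) (nat_lit 4) (nat_lit 356) (nat_lit 270) (nat_lit 154)) (XT.lf (nat_lit 0) (nat_lit 144442853215) (nat_lit 152) (nat_lit 1751832978653) (nat_lit 0) (nat_lit 114720071105) (nat_lit 1) (nat_lit 5) (nat_lit 3) (nat_lit 4) (nat_lit 1) (nat_lit 4) (nat_lit 357) (nat_lit 270) (nat_lit 153)))) (XT.nd (nat_lit 156) (nat_lit 0) (nat_lit 0) (XT.nd (nat_lit 78) (nat_lit 0) (nat_lit 0) (XT.lf (nat_lit 0) (nat_lit 171970309814) (nat_lit 152) (nat_lit 1856180447973) (nat_lit 0) (nat_lit 142247257165) (nat_lit 1) (nat_lit 5) (nat_lit 3) (nat_lit 4) (nat_lit 1) (nat_lit 4) (nat_lit 358) (nat_lit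 270) (nat_lit 152)) (XT.lf (nat_lit 0) (nat_lit 201699641380) (nat_lit 152) (nat_lit 1968876342169) (nat_lit 0) (nat_lit 171976338232) (nat_lit 1) (nat_lit 5) (nat_lit 3) (nat_lit 4) (nat_lit 1) (nat_lit 4) (nat_lit 359) (nat_lit 270) (nat_lit 151))) (XT.nd (nat_lit 78) (nat_lit 0) (nat_lit 0) (XT.lf (nat_lit 0) (nat_lit 233807021729) (nat_lit 152) (nat_lit 2090588488762) (nat_lit 0) (nat_lit 204083486638) (nat_lit 1) (nat_lit 5) (nat_lit 3) (nat_lit 4) (nat_lit 1) (nat_lit 4) (nat_lit 360) (nat_lit 270) (nat_lit 150)) (XT.lf (nat_lit 0) (nat_lit 268482716820) (nat_lit 152) (nat_lit 2222038144918) (nat_lit 0) (nat_lit 238758966966) (nat_lit 1) (nat_lit 5) (nat_lit 3) (nat_lit 4) (nat_lit 1) (nat_lit 4) (nat_lit 361) (nat_lit 270) (nat_lit 149))))))))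
noncomputable def xc68 : XT := (XT.nd (nat_lit 35412) (nat_lit 0) (nat_lit 304) (XT.nd (nat_lit 34242) (nat_lit 0) (nat_lit 1596) (XT.nd (nat_lit 33618) (nat_lit 0) (nat_lit 3040) (XT.nd (nat_lit 234) (nat_lit 0) (nat_lit 0) (XT.nd (nat_lit 78) (nat_lit 0) (nat_lit 0) (XT.lf (nat_lit 0) (nat_lit 305932212253) (nat_lit 152) (nat_lit 2364004271562) (nat_lit 0) (nat_lit 276208263545) (nat_lit 1) (nat_lit 5) (nat_lit 3) (nat_lit 4) (nat_lit 1) (nat_lit 4) (nat_lit 362) (nat_lit 270) (nat_lit 148)) (XT.nd (nat_lit 78) (nat_lit 0) (nat_lit 0) (XT.lf (nat_lit 0) (nat_lit 346377430963) (nat_lit 152) (nat_lit 2517328149444) (nat_lit 0) (nat_lit 316653298131) (nat_lit 1) (nat_lit 5) (nat_lit 3) (nat_lit 4) (nat_lit 1) (nat_lit 4) (nat_lit 363) (nat_lit 270) (nat_lit 147)) (XT.lf (nat_lit 0) (nat_lit 390058048322) (nat_lit 152) (nat_lit 2682918364507) (nat_lit 0) (nat_lit 360333745004) (nat_lit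 1) (nat_lit 5) (nat_lit 3) (nat_lit 4) (nat_lit 1) (nat_lit 4) (nat_lit 364) (nat_lit 270) (nat_lit 146)))) (XT.nd (nat_lit 156) (nat_lit 0) (nat_lit 0) (XT.nd (nat_lit 78) (nat_lit 0) (nat_lit 0) (XT.lf (nat_lit 0) (nat_lit 437232912431) (nat_lit 152) (nat_lit 2861756192101) (nat_lit 0) (nat_lit 407508451257) (nat_lit 1) (nat_lit 5) (nat_lit 3) (nat_lit 4) (nat_lit 1) (nat_lit 4) (nat_lit 365) (nat_lit 270) (nat_lit 145)) (XT.lf (nat_lit 0) (nat_lit 488181578042) (nat_lit 152) (nat_lit 3054901411943) (nat_lit 0) (nat_lit 458456970704) (nat_lit 1) (nat_lit 5) (nat_lit 3) (nat_lit 4) (nat_lit 1) (nat_lit 4) (nat_lit 366) (nat_lit 270) (nat_lit 144))) (XT.nd (nat_lit 33150) (nat_lit 0) (nat_lit 3800) (XT.lf (nat_lit 0) (nat_lit 543205963172) (nat_lit 152) (nat_lit 3263498588300) (nat_lit 0) (nat_lit 513481220497) (nat_lit 1) (nat_lit 5) (nat_lit 3) (nat_lit 4) (nat_lit 1) (nat_lit 4) (nat_lit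 367) (nat_lit 270) (nat_lit 143)) (XT.lf (nat_lit 0) (nat_lit 2486410520) (nat_lit 0) (nat_lit 2486410520) (nat_lit 380) (nat_lit 31315355) (nat_lit 51) (nat_lit 5) (nat_lit 51) (nat_lit 3) (nat_lit 56) (nat_lit 3) (nat_lit 271) (nat_lit 271) (nat_lit 238))))) (XT.nd (nat_lit 312) (nat_lit 228) (nat_lit 0) (XT.nd (nat_lit 156) (nat_lit 0) (nat_lit 76) (XT.nd (nat_lit 78) (nat_lit 0) (nat_lit 76) (XT.lf (nat_lit 0) (nat_lit 594983137) (nat_lit 532) (nat_lit 479991402) (nat_lit 532) (nat_lit 9279058916) (nat_lit 44) (nat_lit 3) (nat_lit 51) (nat_lit 3) (nat_lit 51) (nat_lit 5) (nat_lit 272) (nat_lit 271) (nat_lit 237)) (XT.lf (nat_lit 0) (nat_lit 1426616480) (nat_lit 456) (nat_lit 6168409960) (nat_lit 532) (nat_lit 3122529640) (nat_lit 45) (nat_lit 5) (nat_lit 51) (nat_lit 5) (nat_lit 52) (nat_lit 5) (nat_lit 273) (nat_lit 271) (nat_lit 236))) (XT.nd (nat_lit 78) (nat_lit 0) (nat_lit 76)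 (XT.lf (nat_lit 0) (nat_lit 2305131642) (nat_lit 456) (nat_lit 1169937221) (nat_lit 532) (nat_lit 7636862427) (nat_lit 45) (nat_lit 5) (nat_lit 51) (nat_lit 5) (nat_lit 52) (nat_lit 5) (nat_lit 274) (nat_lit 271) (nat_lit 235)) (XT.lf (nat_lit 0) (nat_lit 3330163823) (nat_lit 456) (nat_lit 7149101513) (nat_lit 532) (nat_lit 1052676450) (nat_lit 46) (nat_lit 5) (nat_lit 52) (nat_lit 5) (nat_lit 53) (nat_lit 5) (nat_lit 275) (nat_lit 271) (nat_lit 234)))) (XT.nd (nat_lit 156) (nat_lit 380) (nat_lit 0) (XT.nd (nat_lit 78) (nat_lit 0) (nat_lit 0) (XT.lf (nat_lit 0) (nat_lit 4507474028) (nat_lit 456) (nat_lit 1669068612) (nat_lit 532) (nat_lit 5803558940) (nat_lit 46) (nat_lit 5) (nat_lit 52) (nat_lit 5) (nat_lit 53) (nat_lit 5) (nat_lit 276) (nat_lit 271) (nat_lit 233)) (XT.lf (nat_lit 76) (nat_lit 4432820589) (nat_lit 0) (nat_lit 1403864292) (nat_lit 532) (nat_lit 6622969875) (nat_lit 47)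 (nat_lit 5) (nat_lit 46) (nat_lit 5) (nat_lit 53) (nat_lit 5) (nat_lit 277) (nat_lit 271) (nat_lit 232))) (XT.nd (nat_lit 78) (nat_lit 456) (nat_lit 0) (XT.lf (nat_lit 0) (nat_lit 7363299137) (nat_lit 456) (nat_lit 1988904018) (nat_lit 76) (nat_lit 3618229880) (nat_lit 47) (nat_lit 5) (nat_lit 53) (nat_lit 5) (nat_lit 48) (nat_lit 5) (nat_lit 278) (nat_lit 271) (nat_lit 231)) (XT.lf (nat_lit 0) (nat_lit 4691997242) (nat_lit 456) (nat_lit 4426799360) (nat_lit 532) (nat_lit 4394871994) (nat_lit 41) (nat_lit 5) (nat_lit 47) (nat_lit 5) (nat_lit 48) (nat_lit 5) (nat_lit 279) (nat_lit 271) (nat_lit 230)))))) (XT.nd (nat_lit 546) (nat_lit 684) (nat_lit 0) (XT.nd (nat_lit 234) (nat_lit 456) (nat_lit 0) (XT.nd (nat_lit 78) (nat_lit 304) (nat_lit 0) (XT.lf (nat_lit 0) (nat_lit 11051766916) (nat_lit 532) (nat_lit 2139174047) (nat_lit 76) (nat_lit 906584713) (nat_lit 41) (nat_lit 5) (nat_lit 48)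 (nat_lit 5) (nat_lit 42) (nat_lit 5) (nat_lit 280) (nat_lit 271) (nat_lit 229)) (XT.nd (nat_lit 78) (nat_lit 76) (nat_lit 0) (XT.lf (nat_lit 0) (nat_lit 5184550505) (nat_lit 228) (nat_lit 8157247015) (nat_lit 304) (nat_lit 1370216025) (nat_lit 38) (nat_lit 5) (nat_lit 41) (nat_lit 5) (nat_lit 42) (nat_lit 5) (nat_lit 281) (nat_lit 271) (nat_lit 228)) (XT.lf (nat_lit 0) (nat_lit 441004852) (nat_lit 304) (nat_lit 2206041016) (nat_lit 76) (nat_lit 12725979606) (nat_lit 37) (nat_lit 5) (nat_lit 41) (nat_lit 5) (nat_lit 38) (nat_lit 5) (nat_lit 282) (nat_lit 271) (nat_lit 227)))) (XT.nd (nat_lit 156) (nat_lit 228) (nat_lit 0) (XT.nd (nat_lit 78) (nat_lit 0) (nat_lit 0) (XT.lf (nat_lit 0) (nat_lit 2515951911) (nat_lit 304) (nat_lit 10233471485) (nat_lit 76) (nat_lit 3319311409) (nat_lit 34) (nat_lit 5) (nat_lit 38) (nat_lit 5) (nat_lit 35) (nat_lit 5) (nat_lit 283) (nat_lit 271) (nat_lit 226))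 (XT.lf (nat_lit 0) (nat_lit 4855416989) (nat_lit 304) (nat_lit 2277861862) (nat_lit 76) (nat_lit 9679025543) (nat_lit 34) (nat_lit 5) (nat_lit 38) (nat_lit 5) (nat_lit 35) (nat_lit 5) (nat_lit 284) (nat_lit 271) (nat_lit 225))) (XT.nd (nat_lit 78) (nat_lit 0) (nat_lit 0) (XT.lf (nat_lit 0) (nat_lit 6610046005) (nat_lit 228) (nat_lit 901228057) (nat_lit 304) (nat_lit 10093825675) (nat_lit 31) (nat_lit 5) (nat_lit 34) (nat_lit 5) (nat_lit 35) (nat_lit 5) (nat_lit 285) (nat_lit 271) (nat_lit 224)) (XT.lf (nat_lit 0) (nat_lit 10555210590) (nat_lit 304) (nat_lit 2295757720) (nat_lit 76) (nat_lit 5596374650) (nat_lit 31) (nat_lit 5) (nat_lit 35) (nat_lit 5) (nat_lit 32) (nat_lit 5) (nat_lit 286) (nat_lit 271) (nat_lit 223))))) (XT.nd (nat_lit 312) (nat_lit 304) (nat_lit 0) (XT.nd (nat_lit 156) (nat_lit 228) (nat_lit 0) (XT.nd (nat_lit 78) (nat_lit 0) (nat_lit 0) (XT.lf (nat_lit 0) (nat_lit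 7413464386) (nat_lit 152) (nat_lit 6604525661) (nat_lit 228) (nat_lit 5325017058) (nat_lit 29) (nat_lit 5) (nat_lit 31) (nat_lit 5) (nat_lit 32) (nat_lit 5) (nat_lit 287) (nat_lit 271) (nat_lit 222)) (XT.lf (nat_lit 0) (nat_lit 17800215236) (nat_lit 228) (nat_lit 2314867805) (nat_lit 76) (nat_lit 191910163) (nat_lit 29) (nat_lit 5) (nat_lit 32) (nat_lit 5) (nat_lit 30) (nat_lit 5) (nat_lit 288) (nat_lit 271) (nat_lit 221))) (XT.nd (nat_lit 78) (nat_lit 0) (nat_lit 0) (XT.lf (nat_lit 0) (nat_lit 866192567) (nat_lit 228) (nat_lit 13062652359) (nat_lit 76) (nat_lit 7389783476) (nat_lit 26) (nat_lit 5) (nat_lit 29) (nat_lit 5) (nat_lit 27) (nat_lit 5) (nat_lit 289) (nat_lit 271) (nat_lit 220)) (XT.lf (nat_lit 0) (nat_lit 4415359136) (nat_lit 228) (nat_lit 2701167483) (nat_lit 76) (nat_lit 15286165511) (nat_lit 26) (nat_lit 5) (nat_lit 29) (nat_lit 5) (nat_lit 27) (nat_lit 5) (nat_lit 290)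 (nat_lit 271) (nat_lit 219)))) (XT.nd (nat_lit 156) (nat_lit 152) (nat_lit 0) (XT.nd (nat_lit 78) (nat_lit 0) (nat_lit 0) (XT.lf (nat_lit 0) (nat_lit 8452330849) (nat_lit 228) (nat_lit 14664588198) (nat_lit 76) (nat_lit 440298245) (nat_lit 24) (nat_lit 5) (nat_lit 27) (nat_lit 5) (nat_lit 25) (nat_lit 5) (nat_lit 291) (nat_lit 271) (nat_lit 218)) (XT.lf (nat_lit 0) (nat_lit 13052120269) (nat_lit 228) (nat_lit 3448145366) (nat_lit 76) (nat_lit 8284692700) (nat_lit 24) (nat_lit 5) (nat_lit 27) (nat_lit 5) (nat_lit 25) (nat_lit 5) (nat_lit 292) (nat_lit 271) (nat_lit 217))) (XT.nd (nat_lit 78) (nat_lit 0) (nat_lit 0) (XT.lf (nat_lit 0) (nat_lit 9091973454) (nat_lit 152) (nat_lit 9127361300) (nat_lit 228) (nat_lit 7875668059) (nat_lit 22) (nat_lit 5) (nat_lit 24) (nat_lit 5) (nat_lit 25) (nat_lit 5) (nat_lit 293) (nat_lit 271) (nat_lit 216)) (XT.lf (nat_lit 0) (nat_lit 22803664517) (nat_lit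 152) (nat_lit 1072076684) (nat_lit 228) (nat_lit 3628081045) (nat_lit 22) (nat_lit 5) (nat_lit 24) (nat_lit 5) (nat_lit 25) (nat_lit 5) (nat_lit 294) (nat_lit 271) (nat_lit 215))))))) (XT.nd (nat_lit 1170) (nat_lit 380) (nat_lit 0) (XT.nd (nat_lit 546) (nat_lit 456) (nat_lit 0) (XT.nd (nat_lit 234) (nat_lit 152) (nat_lit 0) (XT.nd (nat_lit 78) (nat_lit 152) (nat_lit 0) (XT.lf (nat_lit 0) (nat_lit 1299324302) (nat_lit 152) (nat_lit 20210298550) (nat_lit 76) (nat_lit 7482870015) (nat_lit 20) (nat_lit 5) (nat_lit 22) (nat_lit 5) (nat_lit 21) (nat_lit 5) (nat_lit 295) (nat_lit 271) (nat_lit 214)) (XT.nd (nat_lit 78) (nat_lit 152) (nat_lit 0) (XT.lf (nat_lit 0) (nat_lit 6567493130) (nat_lit 152) (nat_lit 7132086191) (nat_lit 76) (nat_lit 16881761452) (nat_lit 20) (nat_lit 5) (nat_lit 22) (nat_lit 5) (nat_lit 21) (nat_lit 5) (nat_lit 296) (nat_lit 271) (nat_lit 213)) (XT.lf (nat_lit 0) (nat_lit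 7334149800) (nat_lit 152) (nat_lit 5083506714) (nat_lit 228) (nat_lit 19866823599) (nat_lit 18) (nat_lit 5) (nat_lit 20) (nat_lit 5) (nat_lit 21) (nat_lit 5) (nat_lit 297) (nat_lit 271) (nat_lit 212)))) (XT.nd (nat_lit 156) (nat_lit 76) (nat_lit 0) (XT.nd (nat_lit 78) (nat_lit 76) (nat_lit 0) (XT.lf (nat_lit 0) (nat_lit 19021955283) (nat_lit 228) (nat_lit 10877083553) (nat_lit 76) (nat_lit 4201966876) (nat_lit 18) (nat_lit 5) (nat_lit 21) (nat_lit 5) (nat_lit 19) (nat_lit 4) (nat_lit 298) (nat_lit 271) (nat_lit 211)) (XT.lf (nat_lit 0) (nat_lit 4385761315) (nat_lit 76) (nat_lit 21992018036) (nat_lit 152) (nat_lit 9667242545) (nat_lit 17) (nat_lit 5) (nat_lit 18) (nat_lit 5) (nat_lit 19) (nat_lit 4) (nat_lit 299) (nat_lit 271) (nat_lit 210))) (XT.nd (nat_lit 78) (nat_lit 76) (nat_lit 0) (XT.lf (nat_lit 0) (nat_lit 21465204988) (nat_lit 76) (nat_lit 13140435991) (nat_lit 152) (nat_lit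 3516254011) (nat_lit 17) (nat_lit 5) (nat_lit 18) (nat_lit 5) (nat_lit 19) (nat_lit 4) (nat_lit 300) (nat_lit 271) (nat_lit 209)) (XT.lf (nat_lit 0) (nat_lit 2957243533) (nat_lit 152) (nat_lit 551137811) (nat_lit 76) (nat_lit 36851591227) (nat_lit 16) (nat_lit 5) (nat_lit 18) (nat_lit 5) (nat_lit 17) (nat_lit 5) (nat_lit 301) (nat_lit 271) (nat_lit 208))))) (XT.nd (nat_lit 312) (nat_lit 228) (nat_lit 0) (XT.nd (nat_lit 156) (nat_lit 76) (nat_lit 0) (XT.nd (nat_lit 78) (nat_lit 0) (nat_lit 0) (XT.lf (nat_lit 0) (nat_lit 10349028252) (nat_lit 228) (nat_lit 25303712037) (nat_lit 76) (nat_lit 7069836395) (nat_lit 14) (nat_lit 5) (nat_lit 17) (nat_lit 5) (nat_lit 15) (nat_lit 4) (nat_lit 302) (nat_lit 271) (nat_lit 207)) (XT.lf (nat_lit 0) (nat_lit 18426792093) (nat_lit 228) (nat_lit 8527328036) (nat_lit 76) (nat_lit 18312513779) (nat_lit 14) (nat_lit 5) (nat_lit 17) (nat_lit 5) (nat_lit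 15) (nat_lit 4) (nat_lit 303) (nat_lit 271) (nat_lit 206))) (XT.nd (nat_lit 78) (nat_lit 0) (nat_lit 0) (XT.lf (nat_lit 0) (nat_lit 10076105746) (nat_lit 76) (nat_lit 17305936201) (nat_lit 152) (nat_lit 20613687096) (nat_lit 13) (nat_lit 5) (nat_lit 14) (nat_lit 5) (nat_lit 15) (nat_lit 4) (nat_lit 304) (nat_lit 271) (nat_lit 205)) (XT.lf (nat_lit 0) (nat_lit 30634146138) (nat_lit 76) (nat_lit 6642023986) (nat_lit 152) (nat_lit 13649198448) (nat_lit 13) (nat_lit 5) (nat_lit 14) (nat_lit 5) (nat_lit 15) (nat_lit 4) (nat_lit 305) (nat_lit 271) (nat_lit 204)))) (XT.nd (nat_lit 156) (nat_lit 76) (nat_lit 0) (XT.nd (nat_lit 78) (nat_lit 152) (nat_lit 0) (XT.lf (nat_lit 0) (nat_lit 48068994061) (nat_lit 152) (nat_lit 1387666568) (nat_lit 0) (nat_lit 4624157849) (nat_lit 13) (nat_lit 5) (nat_lit 15) (nat_lit 4) (nat_lit 13) (nat_lit 4) (nat_lit 306) (nat_lit 271) (nat_lit 203)) (XT.lf (nat_lit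 0) (nat_lit 2781402117) (nat_lit 152) (nat_lit 37676782655) (nat_lit 76) (nat_lit 16973687706) (nat_lit 11) (nat_lit 5) (nat_lit 13) (nat_lit 5) (nat_lit 12) (nat_lit 4) (nat_lit 307) (nat_lit 271) (nat_lit 202))) (XT.nd (nat_lit 78) (nat_lit 76) (nat_lit 0) (XT.lf (nat_lit 0) (nat_lit 11982945676) (nat_lit 152) (nat_lit 18553556172) (nat_lit 76) (nat_lit 30499654450) (nat_lit 11) (nat_lit 5) (nat_lit 13) (nat_lit 5) (nat_lit 12) (nat_lit 4) (nat_lit 308) (nat_lit 271) (nat_lit 201)) (XT.lf (nat_lit 0) (nat_lit 2193878392) (nat_lit 76) (nat_lit 19770910877) (nat_lit 152) (nat_lit 42960468583) (nat_lit 10) (nat_lit 5) (nat_lit 11) (nat_lit 5) (nat_lit 12) (nat_lit 4) (nat_lit 309) (nat_lit 271) (nat_lit 200)))))) (XT.nd (nat_lit 624) (nat_lit 152) (nat_lit 0) (XT.nd (nat_lit 312) (nat_lit 152) (nat_lit 0) (XT.nd (nat_lit 156) (nat_lit 76) (nat_lit 0) (XT.nd (nat_lit 78) (nat_lit 0) (nat_lit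 0) (XT.lf (nat_lit 0) (nat_lit 25641257971) (nat_lit 76) (nat_lit 7602898310) (nat_lit 152) (nat_lit 35841421651) (nat_lit 10) (nat_lit 5) (nat_lit 11) (nat_lit 5) (nat_lit 12) (nat_lit 4) (nat_lit 310) (nat_lit 271) (nat_lit 199)) (XT.lf (nat_lit 0) (nat_lit 45551230405) (nat_lit 152) (nat_lit 22761867780) (nat_lit 0) (nat_lit 5255604661) (nat_lit 10) (nat_lit 5) (nat_lit 12) (nat_lit 4) (nat_lit 10) (nat_lit 4) (nat_lit 311) (nat_lit 271) (nat_lit 198))) (XT.nd (nat_lit 78) (nat_lit 76) (nat_lit 0) (XT.lf (nat_lit 0) (nat_lit 59033084784) (nat_lit 152) (nat_lit 635602573) (nat_lit 0) (nat_lit 18726580517) (nat_lit 10) (nat_lit 5) (nat_lit 12) (nat_lit 4) (nat_lit 10) (nat_lit 4) (nat_lit 312) (nat_lit 271) (nat_lit 197)) (XT.lf (nat_lit 0) (nat_lit 24472666025) (nat_lit 76) (nat_lit 49702664182) (nat_lit 76) (nat_lit 9386087209) (nat_lit 9) (nat_lit 4) (nat_lit 10) (nat_lit 5) (nat_lit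 10) (nat_lit 4) (nat_lit 313) (nat_lit 271) (nat_lit 196)))) (XT.nd (nat_lit 156) (nat_lit 76) (nat_lit 0) (XT.nd (nat_lit 78) (nat_lit 0) (nat_lit 0) (XT.lf (nat_lit 0) (nat_lit 1329796749) (nat_lit 152) (nat_lit 37559926313) (nat_lit 76) (nat_lit 50247579841) (nat_lit 8) (nat_lit 5) (nat_lit 10) (nat_lit 5) (nat_lit 9) (nat_lit 4) (nat_lit 314) (nat_lit 271) (nat_lit 195)) (XT.lf (nat_lit 0) (nat_lit 12389663291) (nat_lit 152) (nat_lit 14564039628) (nat_lit 76) (nat_lit 68186553744) (nat_lit 8) (nat_lit 5) (nat_lit 10) (nat_lit 5) (nat_lit 9) (nat_lit 4) (nat_lit 315) (nat_lit 271) (nat_lit 194))) (XT.nd (nat_lit 78) (nat_lit 0) (nat_lit 0) (XT.lf (nat_lit 0) (nat_lit 10801237868) (nat_lit 76) (nat_lit 13787114623) (nat_lit 152) (nat_lit 77014776511) (nat_lit 7) (nat_lit 5) (nat_lit 8) (nat_lit 5) (nat_lit 9) (nat_lit 4) (nat_lit 316) (nat_lit 271) (nat_lit 193)) (XT.lf (nat_lit 0)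 (nat_lit 38176220312) (nat_lit 152) (nat_lit 69558587084) (nat_lit 0) (nat_lit 815165632) (nat_lit 7) (nat_lit 5) (nat_lit 9) (nat_lit 4) (nat_lit 7) (nat_lit 4) (nat_lit 317) (nat_lit 271) (nat_lit 192))))) (XT.nd (nat_lit 312) (nat_lit 76) (nat_lit 0) (XT.nd (nat_lit 156) (nat_lit 76) (nat_lit 0) (XT.nd (nat_lit 78) (nat_lit 0) (nat_lit 0) (XT.lf (nat_lit 0) (nat_lit 53203969740) (nat_lit 152) (nat_lit 46983803355) (nat_lit 0) (nat_lit 15836567547) (nat_lit 7) (nat_lit 5) (nat_lit 9) (nat_lit 4) (nat_lit 7) (nat_lit 4) (nat_lit 318) (nat_lit 271) (nat_lit 191)) (XT.lf (nat_lit 0) (nat_lit 69429073667) (nat_lit 152) (nat_lit 22612183012) (nat_lit 0) (nat_lit 32055794147) (nat_lit 7) (nat_lit 5) (nat_lit 9) (nat_lit 4) (nat_lit 7) (nat_lit 4) (nat_lit 319) (nat_lit 271) (nat_lit 190))) (XT.nd (nat_lit 78) (nat_lit 0) (nat_lit 0) (XT.lf (nat_lit 0) (nat_lit 3895570577) (nat_lit 76) (nat_lit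 83145798847) (nat_lit 76) (nat_lit 45767077358) (nat_lit 6) (nat_lit 4) (nat_lit 7) (nat_lit 5) (nat_lit 7) (nat_lit 4) (nat_lit 320) (nat_lit 271) (nat_lit 189)) (XT.lf (nat_lit 0) (nat_lit 33801665135) (nat_lit 76) (nat_lit 72874871005) (nat_lit 76) (nat_lit 35491110654) (nat_lit 6) (nat_lit 4) (nat_lit 7) (nat_lit 5) (nat_lit 7) (nat_lit 4) (nat_lit 321) (nat_lit 271) (nat_lit 188)))) (XT.nd (nat_lit 156) (nat_lit 76) (nat_lit 0) (XT.nd (nat_lit 78) (nat_lit 0) (nat_lit 0) (XT.lf (nat_lit 0) (nat_lit 66092604479) (nat_lit 76) (nat_lit 61785865550) (nat_lit 76) (nat_lit 24397439588) (nat_lit 6) (nat_lit 4) (nat_lit 7) (nat_lit 5) (nat_lit 7) (nat_lit 4) (nat_lit 322) (nat_lit 271) (nat_lit 187)) (XT.lf (nat_lit 0) (nat_lit 100959742322) (nat_lit 76) (nat_lit 49813069860) (nat_lit 76) (nat_lit 12420323886) (nat_lit 6) (nat_lit 4) (nat_lit 7) (nat_lit 5) (nat_lit 7) (nat_lit 4) (nat_lit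 323) (nat_lit 271) (nat_lit 186))) (XT.nd (nat_lit 78) (nat_lit 0) (nat_lit 0) (XT.lf (nat_lit 0) (nat_lit 485639058) (nat_lit 152) (nat_lit 36386616741) (nat_lit 76) (nat_lit 138110781449) (nat_lit 5) (nat_lit 5) (nat_lit 7) (nat_lit 5) (nat_lit 6) (nat_lit 4) (nat_lit 324) (nat_lit 271) (nat_lit 185)) (XT.lf (nat_lit 0) (nat_lit 13749761190) (nat_lit 152) (nat_lit 8800946420) (nat_lit 76) (nat_lit 165139880559) (nat_lit 5) (nat_lit 5) (nat_lit 7) (nat_lit 5) (nat_lit 6) (nat_lit 4) (nat_lit 325) (nat_lit 271) (nat_lit 184))))))))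
noncomputable def xc69 : XT := (XT.nd (nat_lit 2340) (nat_lit 0) (nat_lit 0) (XT.nd (nat_lit 1170) (nat_lit 152) (nat_lit 0) (XT.nd (nat_lit 546) (nat_lit 76) (nat_lit 0) (XT.nd (nat_lit 234) (nat_lit 0) (nat_lit 0) (XT.nd (nat_lit 78) (nat_lit 0) (nat_lit 0) (XT.lf (nat_lit 0) (nat_lit 22090871819) (nat_lit 76) (nat_lit 6512373796) (nat_lit 152) (nat_lit 172769241068) (nat_lit 4) (nat_lit 5) (nat_lit 5) (nat_lit 5) (nat_lit 6) (nat_lit 4) (nat_lit 326) (nat_lit 271) (nat_lit 183)) (XT.nd (nat_lit 78) (nat_lit 0) (nat_lit 0) (XT.lf (nat_lit 0) (nat_lit 45148822795) (nat_lit 152) (nat_lit 160447149812) (nat_lit 0) (nat_lit 10512661315) (nat_lit 4) (nat_lit 5) (nat_lit 6) (nat_lit 4) (nat_lit 4) (nat_lit 4) (nat_lit 327) (nat_lit 271) (nat_lit 182)) (XT.lf (nat_lit 0) (nat_lit 63184395896) (nat_lit 152) (nat_lit 140280458805) (nat_lit 0) (nat_lit 28545512077) (nat_lit 4) (nat_lit 5) (nat_lit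 6) (nat_lit 4) (nat_lit 4) (nat_lit 4) (nat_lit 328) (nat_lit 271) (nat_lit 181)))) (XT.nd (nat_lit 156) (nat_lit 0) (nat_lit 0) (XT.nd (nat_lit 78) (nat_lit 0) (nat_lit 0) (XT.lf (nat_lit 0) (nat_lit 82660219643) (nat_lit 152) (nat_lit 118505412781) (nat_lit 0) (nat_lit 48018815139) (nat_lit 4) (nat_lit 5) (nat_lit 6) (nat_lit 4) (nat_lit 4) (nat_lit 4) (nat_lit 329) (nat_lit 271) (nat_lit 180)) (XT.lf (nat_lit 0) (nat_lit 103691706325) (nat_lit 152) (nat_lit 94992974430) (nat_lit 0) (nat_lit 69047967853) (nat_lit 4) (nat_lit 5) (nat_lit 6) (nat_lit 4) (nat_lit 4) (nat_lit 4) (nat_lit 330) (nat_lit 271) (nat_lit 179))) (XT.nd (nat_lit 78) (nat_lit 0) (nat_lit 0) (XT.lf (nat_lit 0) (nat_lit 126403486973) (nat_lit 152) (nat_lit 69603810783) (nat_lit 0) (nat_lit 91757587420) (nat_lit 4) (nat_lit 5) (nat_lit 6) (nat_lit 4) (nat_lit 4) (nat_lit 4) (nat_lit 331) (nat_lit 271) (nat_lit 178))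 (XT.lf (nat_lit 0) (nat_lit 150930149918) (nat_lit 152) (nat_lit 42187467537) (nat_lit 0) (nat_lit 116282249364) (nat_lit 4) (nat_lit 5) (nat_lit 6) (nat_lit 4) (nat_lit 4) (nat_lit 4) (nat_lit 332) (nat_lit 271) (nat_lit 177))))) (XT.nd (nat_lit 312) (nat_lit 0) (nat_lit 0) (XT.nd (nat_lit 156) (nat_lit 0) (nat_lit 0) (XT.nd (nat_lit 78) (nat_lit 76) (nat_lit 0) (XT.lf (nat_lit 0) (nat_lit 177417038347) (nat_lit 152) (nat_lit 12581477474) (nat_lit 0) (nat_lit 142767285015) (nat_lit 4) (nat_lit 5) (nat_lit 6) (nat_lit 4) (nat_lit 4) (nat_lit 4) (nat_lit 333) (nat_lit 271) (nat_lit 176)) (XT.lf (nat_lit 0) (nat_lit 20410624407) (nat_lit 76) (nat_lit 186101363200) (nat_lit 76) (nat_lit 151449894332) (nat_lit 3) (nat_lit 4) (nat_lit 4) (nat_lit 5) (nat_lit 4) (nat_lit 4) (nat_lit 334) (nat_lit 271) (nat_lit 175))) (XT.nd (nat_lit 78) (nat_lit 0) (nat_lit 0) (XT.lf (nat_lit 0) (nat_lit 56754310538)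 (nat_lit 76) (nat_lit 181522507290) (nat_lit 76) (nat_lit 146869449962) (nat_lit 3) (nat_lit 4) (nat_lit 4) (nat_lit 5) (nat_lit 4) (nat_lit 4) (nat_lit 335) (nat_lit 271) (nat_lit 174)) (XT.lf (nat_lit 0) (nat_lit 96002432602) (nat_lit 76) (nat_lit 176578814020) (nat_lit 76) (nat_lit 141924285897) (nat_lit 3) (nat_lit 4) (nat_lit 4) (nat_lit 5) (nat_lit 4) (nat_lit 4) (nat_lit 336) (nat_lit 271) (nat_lit 173)))) (XT.nd (nat_lit 156) (nat_lit 0) (nat_lit 0) (XT.nd (nat_lit 78) (nat_lit 0) (nat_lit 0) (XT.lf (nat_lit 0) (nat_lit 138387572063) (nat_lit 76) (nat_lit 171240987430) (nat_lit 76) (nat_lit 136585097460) (nat_lit 3) (nat_lit 4) (nat_lit 4) (nat_lit 5) (nat_lit 4) (nat_lit 4) (nat_lit 337) (nat_lit 271) (nat_lit 172)) (XT.lf (nat_lit 0) (nat_lit 184160900120) (nat_lit 76) (nat_lit 165477395956) (nat_lit 76) (nat_lit 130820245015) (nat_lit 3) (nat_lit 4) (nat_lit 4) (nat_lit 5)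 (nat_lit 4) (nat_lit 4) (nat_lit 338) (nat_lit 271) (nat_lit 171))) (XT.nd (nat_lit 78) (nat_lit 0) (nat_lit 0) (XT.lf (nat_lit 0) (nat_lit 233593666121) (nat_lit 76) (nat_lit 159253884981) (nat_lit 76) (nat_lit 124595566476) (nat_lit 3) (nat_lit 4) (nat_lit 4) (nat_lit 5) (nat_lit 4) (nat_lit 4) (nat_lit 339) (nat_lit 271) (nat_lit 170)) (XT.lf (nat_lit 0) (nat_lit 286978804979) (nat_lit 76) (nat_lit 152533574440) (nat_lit 76) (nat_lit 117874174856) (nat_lit 3) (nat_lit 4) (nat_lit 4) (nat_lit 5) (nat_lit 4) (nat_lit 4) (nat_lit 340) (nat_lit 271) (nat_lit 169)))))) (XT.nd (nat_lit 546) (nat_lit 152) (nat_lit 0) (XT.nd (nat_lit 234) (nat_lit 0) (nat_lit 0) (XT.nd (nat_lit 78) (nat_lit 0) (nat_lit 0) (XT.lf (nat_lit 0) (nat_lit 344632673070) (nat_lit 76) (nat_lit 145276640271) (nat_lit 76) (nat_lit 110616239689) (nat_lit 3) (nat_lit 4) (nat_lit 4) (nat_lit 5) (nat_lit 4) (nat_lit 4)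 (nat_lit 341) (nat_lit 271) (nat_lit 168)) (XT.nd (nat_lit 78) (nat_lit 0) (nat_lit 0) (XT.lf (nat_lit 0) (nat_lit 406896922947) (nat_lit 76) (nat_lit 137440078420) (nat_lit 76) (nat_lit 102778750986) (nat_lit 3) (nat_lit 4) (nat_lit 4) (nat_lit 5) (nat_lit 4) (nat_lit 4) (nat_lit 342) (nat_lit 271) (nat_lit 167)) (XT.lf (nat_lit 0) (nat_lit 474140527942) (nat_lit 76) (nat_lit 128977450000) (nat_lit 76) (nat_lit 94315264372) (nat_lit 3) (nat_lit 4) (nat_lit 4) (nat_lit 5) (nat_lit 4) (nat_lit 4) (nat_lit 343) (nat_lit 271) (nat_lit 166)))) (XT.nd (nat_lit 156) (nat_lit 0) (nat_lit 0) (XT.nd (nat_lit 78) (nat_lit 0) (nat_lit 0) (XT.lf (nat_lit 0) (nat_lit 546761968677) (nat_lit 76) (nat_lit 119838606104) (nat_lit 76) (nat_lit 85175625851) (nat_lit 3) (nat_lit 4) (nat_lit 4) (nat_lit 5) (nat_lit 4) (nat_lit 4) (nat_lit 344) (nat_lit 271) (nat_lit 165)) (XT.lf (nat_lit 0) (nat_lit 625191594431)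 (nat_lit 76) (nat_lit 109969390619) (nat_lit 76) (nat_lit 75305674602) (nat_lit 3) (nat_lit 4) (nat_lit 4) (nat_lit 5) (nat_lit 4) (nat_lit 4) (nat_lit 345) (nat_lit 271) (nat_lit 164))) (XT.nd (nat_lit 78) (nat_lit 0) (nat_lit 0) (XT.lf (nat_lit 0) (nat_lit 709894173357) (nat_lit 76) (nat_lit 99311319306) (nat_lit 76) (nat_lit 64646922025) (nat_lit 3) (nat_lit 4) (nat_lit 4) (nat_lit 5) (nat_lit 4) (nat_lit 4) (nat_lit 346) (nat_lit 271) (nat_lit 163)) (XT.lf (nat_lit 0) (nat_lit 801371646662) (nat_lit 76) (nat_lit 87801233222) (nat_lit 76) (nat_lit 53136205143) (nat_lit 3) (nat_lit 4) (nat_lit 4) (nat_lit 5) (nat_lit 4) (nat_lit 4) (nat_lit 347) (nat_lit 271) (nat_lit 162))))) (XT.nd (nat_lit 312) (nat_lit 76) (nat_lit 0) (XT.nd (nat_lit 156) (nat_lit 76) (nat_lit 0) (XT.nd (nat_lit 78) (nat_lit 0) (nat_lit 0) (XT.lf (nat_lit 0) (nat_lit 900166103078) (nat_lit 76) (nat_lit 75370924451)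 (nat_lit 76) (nat_lit 40705312299) (nat_lit 3) (nat_lit 4) (nat_lit 4) (nat_lit 5) (nat_lit 4) (nat_lit 4) (nat_lit 348) (nat_lit 271) (nat_lit 161)) (XT.lf (nat_lit 0) (nat_lit 1006862991234) (nat_lit 76) (nat_lit 61946731904) (nat_lit 76) (nat_lit 27280578943) (nat_lit 3) (nat_lit 4) (nat_lit 4) (nat_lit 5) (nat_lit 4) (nat_lit 4) (nat_lit 349) (nat_lit 271) (nat_lit 160))) (XT.nd (nat_lit 78) (nat_lit 76) (nat_lit 0) (XT.lf (nat_lit 0) (nat_lit 1122094588988) (nat_lit 76) (nat_lit 47449104810) (nat_lit 76) (nat_lit 12782451101) (nat_lit 3) (nat_lit 4) (nat_lit 4) (nat_lit 5) (nat_lit 4) (nat_lit 4) (nat_lit 350) (nat_lit 271) (nat_lit 159)) (XT.lf (nat_lit 0) (nat_lit 2731167613) (nat_lit 152) (nat_lit 28986288728) (nat_lit 76) (nat_lit 1243737907675) (nat_lit 2) (nat_lit 5) (nat_lit 4) (nat_lit 5) (nat_lit 3) (nat_lit 4) (nat_lit 351) (nat_lit 271) (nat_lit 158)))) (XT.nd (nat_lit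 156) (nat_lit 0) (nat_lit 0) (XT.nd (nat_lit 78) (nat_lit 0) (nat_lit 0) (XT.lf (nat_lit 0) (nat_lit 4658717846) (nat_lit 76) (nat_lit 14248140097) (nat_lit 152) (nat_lit 1357092576730) (nat_lit 1) (nat_lit 5) (nat_lit 2) (nat_lit 5) (nat_lit 3) (nat_lit 4) (nat_lit 352) (nat_lit 271) (nat_lit 157)) (XT.lf (nat_lit 0) (nat_lit 37300333249) (nat_lit 152) (nat_lit 1442012414670) (nat_lit 0) (nat_lit 5200384928) (nat_lit 1) (nat_lit 5) (nat_lit 3) (nat_lit 4) (nat_lit 1) (nat_lit 4) (nat_lit 353) (nat_lit 271) (nat_lit 156))) (XT.nd (nat_lit 78) (nat_lit 0) (nat_lit 0) (XT.lf (nat_lit 0) (nat_lit 57534930660) (nat_lit 152) (nat_lit 1518708783378) (nat_lit 0) (nat_lit 25434641538) (nat_lit 1) (nat_lit 5) (nat_lit 3) (nat_lit 4) (nat_lit 1) (nat_lit 4) (nat_lit 354) (nat_lit 271) (nat_lit 155)) (XT.lf (nat_lit 0) (nat_lit 79387890790) (nat_lit 152) (nat_lit 1601541651839) (nat_lit 0) (nat_lit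 47287286112) (nat_lit 1) (nat_lit 5) (nat_lit 3) (nat_lit 4) (nat_lit 1) (nat_lit 4) (nat_lit 355) (nat_lit 271) (nat_lit 154))))))) (XT.nd (nat_lit 34320) (nat_lit 0) (nat_lit 1900) (XT.nd (nat_lit 546) (nat_lit 0) (nat_lit 0) (XT.nd (nat_lit 234) (nat_lit 0) (nat_lit 0) (XT.nd (nat_lit 78) (nat_lit 0) (nat_lit 0) (XT.lf (nat_lit 0) (nat_lit 102988712662) (nat_lit 152) (nat_lit 1691001881496) (nat_lit 0) (nat_lit 70887815802) (nat_lit 1) (nat_lit 5) (nat_lit 3) (nat_lit 4) (nat_lit 1) (nat_lit 4) (nat_lit 356) (nat_lit 271) (nat_lit 153)) (XT.nd (nat_lit 78) (nat_lit 0) (nat_lit 0) (XT.lf (nat_lit 0) (nat_lit 128477252998) (nat_lit 152) (nat_lit 1787619607042) (nat_lit 0) (nat_lit 96376085599) (nat_lit 1) (nat_lit 5) (nat_lit 3) (nat_lit 4) (nat_lit 1) (nat_lit 4) (nat_lit 357) (nat_lit 271) (nat_lit 152)) (XT.lf (nat_lit 0) (nat_lit 156004555000) (nat_lit 152) (nat_lit 1891967377963)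 (nat_lit 0) (nat_lit 123903137102) (nat_lit 1) (nat_lit 5) (nat_lit 3) (nat_lit 4) (nat_lit 1) (nat_lit 4) (nat_lit 358) (nat_lit 271) (nat_lit 151)))) (XT.nd (nat_lit 156) (nat_lit 0) (nat_lit 0) (XT.nd (nat_lit 78) (nat_lit 0) (nat_lit 0) (XT.lf (nat_lit 0) (nat_lit 185733743421) (nat_lit 152) (nat_lit 2004663551419) (nat_lit 0) (nat_lit 153632093579) (nat_lit 1) (nat_lit 5) (nat_lit 3) (nat_lit 4) (nat_lit 1) (nat_lit 4) (nat_lit 359) (nat_lit 271) (nat_lit 150)) (XT.lf (nat_lit 0) (nat_lit 217840991229) (nat_lit 152) (nat_lit 2126375956587) (nat_lit 0) (nat_lit 185739126624) (nat_lit 1) (nat_lit 5) (nat_lit 3) (nat_lit 4) (nat_lit 1) (nat_lit 4) (nat_lit 360) (nat_lit 271) (nat_lit 149))) (XT.nd (nat_lit 78) (nat_lit 0) (nat_lit 0) (XT.lf (nat_lit 0) (nat_lit 252516563596) (nat_lit 152) (nat_lit 2257825852164) (nat_lit 0) (nat_lit 220414500137) (nat_lit 1) (nat_lit 5) (nat_lit 3)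 (nat_lit 4) (nat_lit 1) (nat_lit 4) (nat_lit 361) (nat_lit 271) (nat_lit 148)) (XT.lf (nat_lit 0) (nat_lit 289965945396) (nat_lit 152) (nat_lit 2399792200494) (nat_lit 0) (nat_lit 257863697813) (nat_lit 1) (nat_lit 5) (nat_lit 3) (nat_lit 4) (nat_lit 1) (nat_lit 4) (nat_lit 362) (nat_lit 271) (nat_lit 147))))) (XT.nd (nat_lit 312) (nat_lit 0) (nat_lit 0) (XT.nd (nat_lit 156) (nat_lit 0) (nat_lit 0) (XT.nd (nat_lit 78) (nat_lit 0) (nat_lit 0) (XT.lf (nat_lit 0) (nat_lit 330411058891) (nat_lit 152) (nat_lit 2553116283641) (nat_lit 0) (nat_lit 298308640822) (nat_lit 1) (nat_lit 5) (nat_lit 3) (nat_lit 4) (nat_lit 1) (nat_lit 4) (nat_lit 363) (nat_lit 271) (nat_lit 146)) (XT.lf (nat_lit 0) (nat_lit 374091578827) (nat_lit 152) (nat_lit 2718706688764) (nat_lit 0) (nat_lit 341989002902) (nat_lit 1) (nat_lit 5) (nat_lit 3) (nat_lit 4) (nat_lit 1) (nat_lit 4) (nat_lit 364) (nat_lit 271) (nat_lit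 145))) (XT.nd (nat_lit 78) (nat_lit 0) (nat_lit 0) (XT.lf (nat_lit 0) (nat_lit 421266352731) (nat_lit 152) (nat_lit 2897544692339) (nat_lit 0) (nat_lit 389163630642) (nat_lit 1) (nat_lit 5) (nat_lit 3) (nat_lit 4) (nat_lit 1) (nat_lit 4) (nat_lit 365) (nat_lit 271) (nat_lit 144)) (XT.lf (nat_lit 0) (nat_lit 472214934818) (nat_lit 152) (nat_lit 3090690075127) (nat_lit 0) (nat_lit 440112077392) (nat_lit 1) (nat_lit 5) (nat_lit 3) (nat_lit 4) (nat_lit 1) (nat_lit 4) (nat_lit 366) (nat_lit 271) (nat_lit 143)))) (XT.nd (nat_lit 33306) (nat_lit 0) (nat_lit 3268) (XT.nd (nat_lit 33228) (nat_lit 0) (nat_lit 3268) (XT.lf (nat_lit 0) (nat_lit 527239242611) (nat_lit 152) (nat_lit 3299287402360) (nat_lit 0) (nat_lit 495136259873) (nat_lit 1) (nat_lit 5) (nat_lit 3) (nat_lit 4) (nat_lit 1) (nat_lit 4) (nat_lit 367) (nat_lit 271) (nat_lit 142)) (XT.lf (nat_lit 0) (nat_lit 608934455) (nat_lit 532)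 (nat_lit 2371108892) (nat_lit 532) (nat_lit 2371108892) (nat_lit 44) (nat_lit 3) (nat_lit 51) (nat_lit 3) (nat_lit 51) (nat_lit 5) (nat_lit 272) (nat_lit 272) (nat_lit 236))) (XT.nd (nat_lit 78) (nat_lit 0) (nat_lit 76) (XT.lf (nat_lit 76) (nat_lit 131174239) (nat_lit 0) (nat_lit 1701716360) (nat_lit 532) (nat_lit 9250361046) (nat_lit 45) (nat_lit 5) (nat_lit 44) (nat_lit 3) (nat_lit 51) (nat_lit 5) (nat_lit 273) (nat_lit 272) (nat_lit 235)) (XT.lf (nat_lit 0) (nat_lit 2643309320) (nat_lit 456) (nat_lit 5930696732) (nat_lit 532) (nat_lit 2909157043) (nat_lit 45) (nat_lit 5) (nat_lit 51) (nat_lit 5) (nat_lit 52) (nat_lit 5) (nat_lit 274) (nat_lit 272) (nat_lit 234)))))) (XT.nd (nat_lit 624) (nat_lit 912) (nat_lit 0) (XT.nd (nat_lit 312) (nat_lit 532) (nat_lit 0) (XT.nd (nat_lit 156) (nat_lit 0) (nat_lit 76) (XT.nd (nat_lit 78) (nat_lit 0) (nat_lit 76) (XT.lf (nat_lit 0) (nat_lit 3510434322)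 (nat_lit 456) (nat_lit 586508102) (nat_lit 532) (nat_lit 7818945710) (nat_lit 45) (nat_lit 5) (nat_lit 51) (nat_lit 5) (nat_lit 52) (nat_lit 5) (nat_lit 275) (nat_lit 272) (nat_lit 233)) (XT.lf (nat_lit 0) (nat_lit 4550472443) (nat_lit 456) (nat_lit 6973929007) (nat_lit 532) (nat_lit 850704142) (nat_lit 46) (nat_lit 5) (nat_lit 52) (nat_lit 5) (nat_lit 53) (nat_lit 5) (nat_lit 276) (nat_lit 272) (nat_lit 232))) (XT.nd (nat_lit 78) (nat_lit 0) (nat_lit 0) (XT.lf (nat_lit 0) (nat_lit 5751308537) (nat_lit 456) (nat_lit 1110834261) (nat_lit 532) (nat_lit 6002856225) (nat_lit 46) (nat_lit 5) (nat_lit 52) (nat_lit 5) (nat_lit 53) (nat_lit 5) (nat_lit 277) (nat_lit 272) (nat_lit 231)) (XT.lf (nat_lit 76) (nat_lit 5461693168) (nat_lit 0) (nat_lit 1675953813) (nat_lit 532) (nat_lit 6249417456) (nat_lit 47) (nat_lit 5) (nat_lit 46) (nat_lit 5) (nat_lit 53) (nat_lit 5) (nat_lit 278) (nat_lit 272)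 (nat_lit 230)))) (XT.nd (nat_lit 156) (nat_lit 228) (nat_lit 0) (XT.nd (nat_lit 78) (nat_lit 456) (nat_lit 0) (XT.lf (nat_lit 0) (nat_lit 8721052502) (nat_lit 456) (nat_lit 1455930827) (nat_lit 76) (nat_lit 3767144274) (nat_lit 47) (nat_lit 5) (nat_lit 53) (nat_lit 5) (nat_lit 48) (nat_lit 5) (nat_lit 279) (nat_lit 272) (nat_lit 229)) (XT.lf (nat_lit 0) (nat_lit 5741921381) (nat_lit 456) (nat_lit 4834351713) (nat_lit 532) (nat_lit 3957987353) (nat_lit 41) (nat_lit 5) (nat_lit 47) (nat_lit 5) (nat_lit 48) (nat_lit 5) (nat_lit 280) (nat_lit 272) (nat_lit 228))) (XT.nd (nat_lit 78) (nat_lit 228) (nat_lit 0) (XT.lf (nat_lit 0) (nat_lit 12608767798) (nat_lit 532) (nat_lit 1628501980) (nat_lit 76) (nat_lit 932133065) (nat_lit 41) (nat_lit 5) (nat_lit 48) (nat_lit 5) (nat_lit 42) (nat_lit 5) (nat_lit 281) (nat_lit 272) (nat_lit 227)) (XT.lf (nat_lit 0) (nat_lit 6263859625) (nat_lit 228) (nat_lit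 8784282105) (nat_lit 304) (nat_lit 787772010) (nat_lit 38) (nat_lit 5) (nat_lit 41) (nat_lit 5) (nat_lit 42) (nat_lit 5) (nat_lit 282) (nat_lit 272) (nat_lit 226))))) (XT.nd (nat_lit 312) (nat_lit 380) (nat_lit 0) (XT.nd (nat_lit 156) (nat_lit 228) (nat_lit 0) (XT.nd (nat_lit 78) (nat_lit 228) (nat_lit 0) (XT.lf (nat_lit 0) (nat_lit 1085027450) (nat_lit 304) (nat_lit 1733485521) (nat_lit 76) (nat_lit 13733991191) (nat_lit 37) (nat_lit 5) (nat_lit 41) (nat_lit 5) (nat_lit 38) (nat_lit 5) (nat_lit 283) (nat_lit 272) (nat_lit 225)) (XT.lf (nat_lit 0) (nat_lit 3297385003) (nat_lit 304) (nat_lit 10372984442) (nat_lit 76) (nat_lit 3635910875) (nat_lit 34) (nat_lit 5) (nat_lit 38) (nat_lit 5) (nat_lit 35) (nat_lit 5) (nat_lit 284) (nat_lit 272) (nat_lit 224))) (XT.nd (nat_lit 78) (nat_lit 228) (nat_lit 0) (XT.lf (nat_lit 0) (nat_lit 5781032699) (nat_lit 304) (nat_lit 1831234550) (nat_lit 76)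 (nat_lit 10500620321) (nat_lit 34) (nat_lit 5) (nat_lit 38) (nat_lit 5) (nat_lit 35) (nat_lit 5) (nat_lit 285) (nat_lit 272) (nat_lit 223)) (XT.lf (nat_lit 0) (nat_lit 7751785535) (nat_lit 228) (nat_lit 872522640) (nat_lit 304) (nat_lit 10346908052) (nat_lit 31) (nat_lit 5) (nat_lit 34) (nat_lit 5) (nat_lit 35) (nat_lit 5) (nat_lit 286) (nat_lit 272) (nat_lit 222)))) (XT.nd (nat_lit 156) (nat_lit 228) (nat_lit 0) (XT.nd (nat_lit 78) (nat_lit 152) (nat_lit 0) (XT.lf (nat_lit 0) (nat_lit 11876068657) (nat_lit 304) (nat_lit 1874971108) (nat_lit 76) (nat_lit 6132752265) (nat_lit 31) (nat_lit 5) (nat_lit 35) (nat_lit 5) (nat_lit 32) (nat_lit 5) (nat_lit 287) (nat_lit 272) (nat_lit 221)) (XT.lf (nat_lit 0) (nat_lit 8595686305) (nat_lit 152) (nat_lit 6999061170) (nat_lit 228) (nat_lit 5258142270) (nat_lit 29) (nat_lit 5) (nat_lit 31) (nat_lit 5) (nat_lit 32) (nat_lit 5) (nat_lit 288) (nat_lit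 272) (nat_lit 220))) (XT.nd (nat_lit 78) (nat_lit 228) (nat_lit 0) (XT.lf (nat_lit 0) (nat_lit 19648803525) (nat_lit 228) (nat_lit 1922757076) (nat_lit 76) (nat_lit 324977789) (nat_lit 29) (nat_lit 5) (nat_lit 32) (nat_lit 5) (nat_lit 30) (nat_lit 5) (nat_lit 289) (nat_lit 272) (nat_lit 219)) (XT.lf (nat_lit 0) (nat_lit 1353626703) (nat_lit 228) (nat_lit 13522062151) (nat_lit 76) (nat_lit 8114079729) (nat_lit 26) (nat_lit 5) (nat_lit 29) (nat_lit 5) (nat_lit 27) (nat_lit 5) (nat_lit 290) (nat_lit 272) (nat_lit 218))))))))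
noncomputable def xc70 : XT := (XT.nd (nat_lit 2340) (nat_lit 304) (nat_lit 0) (XT.nd (nat_lit 1170) (nat_lit 456) (nat_lit 0) (XT.nd (nat_lit 546) (nat_lit 532) (nat_lit 0) (XT.nd (nat_lit 234) (nat_lit 304) (nat_lit 0) (XT.nd (nat_lit 78) (nat_lit 152) (nat_lit 0) (XT.lf (nat_lit 0) (nat_lit 5155753358) (nat_lit 228) (nat_lit 2375036441) (nat_lit 76) (nat_lit 16632312062) (nat_lit 26) (nat_lit 5) (nat_lit 29) (nat_lit 5) (nat_lit 27) (nat_lit 5) (nat_lit 291) (nat_lit 272) (nat_lit 217)) (XT.nd (nat_lit 78) (nat_lit 0) (nat_lit 0) (XT.lf (nat_lit 0) (nat_lit 9503497331) (nat_lit 228) (nat_lit 15282574594) (nat_lit 76) (nat_lit 624953609) (nat_lit 24) (nat_lit 5) (nat_lit 27) (nat_lit 5) (nat_lit 25) (nat_lit 5) (nat_lit 292) (nat_lit 272) (nat_lit 216)) (XT.lf (nat_lit 0) (nat_lit 14443493606) (nat_lit 228) (nat_lit 3209940829) (nat_lit 76) (nat_lit 9085830620) (nat_lit 24) (nat_lit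 5) (nat_lit 27) (nat_lit 5) (nat_lit 25) (nat_lit 5) (nat_lit 293) (nat_lit 272) (nat_lit 215)))) (XT.nd (nat_lit 156) (nat_lit 152) (nat_lit 0) (XT.nd (nat_lit 78) (nat_lit 0) (nat_lit 0) (XT.lf (nat_lit 0) (nat_lit 10320373417) (nat_lit 152) (nat_lit 9690043114) (nat_lit 228) (nat_lit 8144842922) (nat_lit 22) (nat_lit 5) (nat_lit 24) (nat_lit 5) (nat_lit 25) (nat_lit 5) (nat_lit 294) (nat_lit 272) (nat_lit 214)) (XT.lf (nat_lit 0) (nat_lit 25091885536) (nat_lit 152) (nat_lit 1002743661) (nat_lit 228) (nat_lit 3584180693) (nat_lit 22) (nat_lit 5) (nat_lit 24) (nat_lit 5) (nat_lit 25) (nat_lit 5) (nat_lit 295) (nat_lit 272) (nat_lit 213))) (XT.nd (nat_lit 78) (nat_lit 0) (nat_lit 0) (XT.lf (nat_lit 0) (nat_lit 1712408472) (nat_lit 152) (nat_lit 21337094896) (nat_lit 76) (nat_lit 8237133317) (nat_lit 20) (nat_lit 5) (nat_lit 22) (nat_lit 5) (nat_lit 21) (nat_lit 5) (nat_lit 296) (nat_lit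 272) (nat_lit 212)) (XT.lf (nat_lit 0) (nat_lit 7379131679) (nat_lit 152) (nat_lit 7248923884) (nat_lit 76) (nat_lit 18376407646) (nat_lit 20) (nat_lit 5) (nat_lit 22) (nat_lit 5) (nat_lit 21) (nat_lit 5) (nat_lit 297) (nat_lit 272) (nat_lit 211))))) (XT.nd (nat_lit 312) (nat_lit 304) (nat_lit 0) (XT.nd (nat_lit 156) (nat_lit 76) (nat_lit 0) (XT.nd (nat_lit 78) (nat_lit 0) (nat_lit 0) (XT.lf (nat_lit 0) (nat_lit 8363124171) (nat_lit 152) (nat_lit 5323617006) (nat_lit 228) (nat_lit 21157993854) (nat_lit 18) (nat_lit 5) (nat_lit 20) (nat_lit 5) (nat_lit 21) (nat_lit 5) (nat_lit 298) (nat_lit 272) (nat_lit 210)) (XT.lf (nat_lit 0) (nat_lit 20802672965) (nat_lit 228) (nat_lit 11320639256) (nat_lit 76) (nat_lit 4684640640) (nat_lit 18) (nat_lit 5) (nat_lit 21) (nat_lit 5) (nat_lit 19) (nat_lit 4) (nat_lit 299) (nat_lit 272) (nat_lit 209))) (XT.nd (nat_lit 78) (nat_lit 0) (nat_lit 0) (XT.lf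 (nat_lit 0) (nat_lit 5152432924) (nat_lit 76) (nat_lit 23585347977) (nat_lit 152) (nat_lit 10170474849) (nat_lit 17) (nat_lit 5) (nat_lit 18) (nat_lit 5) (nat_lit 19) (nat_lit 4) (nat_lit 300) (nat_lit 272) (nat_lit 208)) (XT.lf (nat_lit 0) (nat_lit 23567431298) (nat_lit 76) (nat_lit 14037937999) (nat_lit 152) (nat_lit 3547418128) (nat_lit 17) (nat_lit 5) (nat_lit 18) (nat_lit 5) (nat_lit 19) (nat_lit 4) (nat_lit 301) (nat_lit 272) (nat_lit 207)))) (XT.nd (nat_lit 156) (nat_lit 76) (nat_lit 0) (XT.nd (nat_lit 78) (nat_lit 152) (nat_lit 0) (XT.lf (nat_lit 0) (nat_lit 3413844661) (nat_lit 152) (nat_lit 226846156) (nat_lit 76) (nat_lit 39930171755) (nat_lit 16) (nat_lit 5) (nat_lit 18) (nat_lit 5) (nat_lit 17) (nat_lit 5) (nat_lit 302) (nat_lit 272) (nat_lit 206)) (XT.lf (nat_lit 0) (nat_lit 11392837655) (nat_lit 228) (nat_lit 26955208417) (nat_lit 76) (nat_lit 7774782376) (nat_lit 14)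 (nat_lit 5) (nat_lit 17) (nat_lit 5) (nat_lit 15) (nat_lit 4) (nat_lit 303) (nat_lit 272) (nat_lit 205))) (XT.nd (nat_lit 78) (nat_lit 76) (nat_lit 0) (XT.lf (nat_lit 0) (nat_lit 20100830963) (nat_lit 228) (nat_lit 8864328554) (nat_lit 76) (nat_lit 19906551057) (nat_lit 14) (nat_lit 5) (nat_lit 17) (nat_lit 5) (nat_lit 15) (nat_lit 4) (nat_lit 304) (nat_lit 272) (nat_lit 204)) (XT.lf (nat_lit 0) (nat_lit 11218641052) (nat_lit 76) (nat_lit 18547144234) (nat_lit 152) (nat_lit 22053904712) (nat_lit 13) (nat_lit 5) (nat_lit 14) (nat_lit 5) (nat_lit 15) (nat_lit 4) (nat_lit 305) (nat_lit 272) (nat_lit 203)))))) (XT.nd (nat_lit 546) (nat_lit 228) (nat_lit 0) (XT.nd (nat_lit 234) (nat_lit 76) (nat_lit 0) (XT.nd (nat_lit 78) (nat_lit 152) (nat_lit 0) (XT.lf (nat_lit 0) (nat_lit 33396402687) (nat_lit 76) (nat_lit 7040731402) (nat_lit 152) (nat_lit 14547729369) (nat_lit 13) (nat_lit 5) (nat_lit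 14) (nat_lit 5) (nat_lit 15) (nat_lit 4) (nat_lit 306) (nat_lit 272) (nat_lit 202)) (XT.nd (nat_lit 78) (nat_lit 152) (nat_lit 0) (XT.lf (nat_lit 0) (nat_lit 52083088306) (nat_lit 152) (nat_lit 1199727011) (nat_lit 0) (nat_lit 5110774354) (nat_lit 13) (nat_lit 5) (nat_lit 15) (nat_lit 4) (nat_lit 13) (nat_lit 4) (nat_lit 307) (nat_lit 272) (nat_lit 201)) (XT.lf (nat_lit 0) (nat_lit 3171429270) (nat_lit 152) (nat_lit 40390541180) (nat_lit 76) (nat_lit 18450872039) (nat_lit 11) (nat_lit 5) (nat_lit 13) (nat_lit 5) (nat_lit 12) (nat_lit 4) (nat_lit 308) (nat_lit 272) (nat_lit 200)))) (XT.nd (nat_lit 156) (nat_lit 0) (nat_lit 0) (XT.nd (nat_lit 78) (nat_lit 76) (nat_lit 0) (XT.lf (nat_lit 0) (nat_lit 13096687796) (nat_lit 152) (nat_lit 19759707251) (nat_lit 76) (nat_lit 33050079876) (nat_lit 11) (nat_lit 5) (nat_lit 13) (nat_lit 5) (nat_lit 12) (nat_lit 4) (nat_lit 309) (nat_lit 272) (nat_lit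 199)) (XT.lf (nat_lit 0) (nat_lit 2640480725) (nat_lit 76) (nat_lit 21231628554) (nat_lit 152) (nat_lit 46235005139) (nat_lit 10) (nat_lit 5) (nat_lit 11) (nat_lit 5) (nat_lit 12) (nat_lit 4) (nat_lit 310) (nat_lit 272) (nat_lit 198))) (XT.nd (nat_lit 78) (nat_lit 0) (nat_lit 0) (XT.lf (nat_lit 0) (nat_lit 27943569777) (nat_lit 76) (nat_lit 8099134625) (nat_lit 152) (nat_lit 38558456744) (nat_lit 10) (nat_lit 5) (nat_lit 11) (nat_lit 5) (nat_lit 12) (nat_lit 4) (nat_lit 311) (nat_lit 272) (nat_lit 197)) (XT.lf (nat_lit 0) (nat_lit 49326540980) (nat_lit 152) (nat_lit 24342464709) (nat_lit 0) (nat_lit 5774565143) (nat_lit 10) (nat_lit 5) (nat_lit 12) (nat_lit 4) (nat_lit 10) (nat_lit 4) (nat_lit 312) (nat_lit 272) (nat_lit 196))))) (XT.nd (nat_lit 312) (nat_lit 76) (nat_lit 0) (XT.nd (nat_lit 156) (nat_lit 76) (nat_lit 0) (XT.nd (nat_lit 78) (nat_lit 76) (nat_lit 0) (XT.lf (nat_lit 0)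 (nat_lit 63877224292) (nat_lit 152) (nat_lit 463902174) (nat_lit 0) (nat_lit 20315921875) (nat_lit 10) (nat_lit 5) (nat_lit 12) (nat_lit 4) (nat_lit 10) (nat_lit 4) (nat_lit 313) (nat_lit 272) (nat_lit 195)) (XT.lf (nat_lit 0) (nat_lit 26647393771) (nat_lit 76) (nat_lit 53579672916) (nat_lit 76) (nat_lit 10009734777) (nat_lit 9) (nat_lit 4) (nat_lit 10) (nat_lit 5) (nat_lit 10) (nat_lit 4) (nat_lit 314) (nat_lit 272) (nat_lit 194))) (XT.nd (nat_lit 78) (nat_lit 0) (nat_lit 0) (XT.lf (nat_lit 0) (nat_lit 1548101210) (nat_lit 152) (nat_lit 40357883659) (nat_lit 76) (nat_lit 54353252122) (nat_lit 8) (nat_lit 5) (nat_lit 10) (nat_lit 5) (nat_lit 9) (nat_lit 4) (nat_lit 315) (nat_lit 272) (nat_lit 193)) (XT.lf (nat_lit 0) (nat_lit 13484466651) (nat_lit 152) (nat_lit 15537647281) (nat_lit 76) (nat_lit 73720983500) (nat_lit 8) (nat_lit 5) (nat_lit 10) (nat_lit 5) (nat_lit 9) (nat_lit 4) (nat_lit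 316) (nat_lit 272) (nat_lit 192)))) (XT.nd (nat_lit 156) (nat_lit 0) (nat_lit 0) (XT.nd (nat_lit 78) (nat_lit 0) (nat_lit 0) (XT.lf (nat_lit 0) (nat_lit 11852003921) (nat_lit 76) (nat_lit 14803860094) (nat_lit 152) (nat_lit 83067397119) (nat_lit 7) (nat_lit 5) (nat_lit 8) (nat_lit 5) (nat_lit 9) (nat_lit 4) (nat_lit 317) (nat_lit 272) (nat_lit 191)) (XT.lf (nat_lit 0) (nat_lit 41325241091) (nat_lit 152) (nat_lit 74944837450) (nat_lit 0) (nat_lit 956221882) (nat_lit 7) (nat_lit 5) (nat_lit 9) (nat_lit 4) (nat_lit 7) (nat_lit 4) (nat_lit 318) (nat_lit 272) (nat_lit 190))) (XT.nd (nat_lit 78) (nat_lit 0) (nat_lit 0) (XT.lf (nat_lit 0) (nat_lit 57548179129) (nat_lit 152) (nat_lit 50577288548) (nat_lit 0) (nat_lit 17173717950) (nat_lit 7) (nat_lit 5) (nat_lit 9) (nat_lit 4) (nat_lit 7) (nat_lit 4) (nat_lit 319) (nat_lit 272) (nat_lit 189)) (XT.lf (nat_lit 0) (nat_lit 75064780866) (nat_lit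 152) (nat_lit 24268177029) (nat_lit 0) (nat_lit 34685280827) (nat_lit 7) (nat_lit 5) (nat_lit 9) (nat_lit 4) (nat_lit 7) (nat_lit 4) (nat_lit 320) (nat_lit 272) (nat_lit 188))))))) (XT.nd (nat_lit 1170) (nat_lit 0) (nat_lit 0) (XT.nd (nat_lit 546) (nat_lit 76) (nat_lit 0) (XT.nd (nat_lit 234) (nat_lit 152) (nat_lit 0) (XT.nd (nat_lit 78) (nat_lit 0) (nat_lit 0) (XT.lf (nat_lit 0) (nat_lit 4356323920) (nat_lit 76) (nat_lit 89727294162) (nat_lit 76) (nat_lit 49343128510) (nat_lit 6) (nat_lit 4) (nat_lit 7) (nat_lit 5) (nat_lit 7) (nat_lit 4) (nat_lit 321) (nat_lit 272) (nat_lit 187)) (XT.nd (nat_lit 78) (nat_lit 0) (nat_lit 0) (XT.lf (nat_lit 0) (nat_lit 36643861029) (nat_lit 76) (nat_lit 78639889765) (nat_lit 76) (nat_lit 38251404103) (nat_lit 6) (nat_lit 4) (nat_lit 7) (nat_lit 5) (nat_lit 7) (nat_lit 4) (nat_lit 322) (nat_lit 272) (nat_lit 186)) (XT.lf (nat_lit 0) (nat_lit 71507848655)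 (nat_lit 76) (nat_lit 66668576536) (nat_lit 76) (nat_lit 26276090863) (nat_lit 6) (nat_lit 4) (nat_lit 7) (nat_lit 5) (nat_lit 7) (nat_lit 4) (nat_lit 323) (nat_lit 272) (nat_lit 185)))) (XT.nd (nat_lit 156) (nat_lit 76) (nat_lit 0) (XT.nd (nat_lit 78) (nat_lit 76) (nat_lit 0) (XT.lf (nat_lit 0) (nat_lit 109154888205) (nat_lit 76) (nat_lit 53742413357) (nat_lit 76) (nat_lit 13346223971) (nat_lit 6) (nat_lit 4) (nat_lit 7) (nat_lit 5) (nat_lit 7) (nat_lit 4) (nat_lit 324) (nat_lit 272) (nat_lit 184)) (XT.lf (nat_lit 0) (nat_lit 584062318) (nat_lit 152) (nat_lit 39184769127) (nat_lit 76) (nat_lit 149208041631) (nat_lit 5) (nat_lit 5) (nat_lit 7) (nat_lit 5) (nat_lit 6) (nat_lit 4) (nat_lit 325) (nat_lit 272) (nat_lit 183))) (XT.nd (nat_lit 78) (nat_lit 76) (nat_lit 0) (XT.lf (nat_lit 0) (nat_lit 14904901470) (nat_lit 152) (nat_lit 9400599029) (nat_lit 76) (nat_lit 178395883657) (nat_lit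 5) (nat_lit 5) (nat_lit 7) (nat_lit 5) (nat_lit 6) (nat_lit 4) (nat_lit 326) (nat_lit 272) (nat_lit 182)) (XT.lf (nat_lit 0) (nat_lit 23959921047) (nat_lit 76) (nat_lit 6985105520) (nat_lit 152) (nat_lit 186532941868) (nat_lit 4) (nat_lit 5) (nat_lit 5) (nat_lit 5) (nat_lit 6) (nat_lit 4) (nat_lit 327) (nat_lit 272) (nat_lit 181))))) (XT.nd (nat_lit 312) (nat_lit 76) (nat_lit 0) (XT.nd (nat_lit 156) (nat_lit 0) (nat_lit 0) (XT.nd (nat_lit 78) (nat_lit 0) (nat_lit 0) (XT.lf (nat_lit 0) (nat_lit 48811360020) (nat_lit 152) (nat_lit 173185758784) (nat_lit 0) (nat_lit 11396122470) (nat_lit 4) (nat_lit 5) (nat_lit 6) (nat_lit 4) (nat_lit 4) (nat_lit 4) (nat_lit 328) (nat_lit 272) (nat_lit 180)) (XT.lf (nat_lit 0) (nat_lit 68286028495) (nat_lit 152) (nat_lit 151412929757) (nat_lit 0) (nat_lit 30868456978) (nat_lit 4) (nat_lit 5) (nat_lit 6) (nat_lit 4) (nat_lit 4) (nat_lit 4) (nat_lit 329)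 (nat_lit 272) (nat_lit 179))) (XT.nd (nat_lit 78) (nat_lit 0) (nat_lit 0) (XT.lf (nat_lit 0) (nat_lit 89316445481) (nat_lit 152) (nat_lit 127902544181) (nat_lit 0) (nat_lit 51896712882) (nat_lit 4) (nat_lit 5) (nat_lit 6) (nat_lit 4) (nat_lit 4) (nat_lit 4) (nat_lit 330) (nat_lit 272) (nat_lit 178)) (XT.lf (nat_lit 0) (nat_lit 112027235670) (nat_lit 152) (nat_lit 102515281252) (nat_lit 0) (nat_lit 74605502070) (nat_lit 4) (nat_lit 5) (nat_lit 6) (nat_lit 4) (nat_lit 4) (nat_lit 4) (nat_lit 331) (nat_lit 272) (nat_lit 177)))) (XT.nd (nat_lit 156) (nat_lit 76) (nat_lit 0) (XT.nd (nat_lit 78) (nat_lit 0) (nat_lit 0) (XT.lf (nat_lit 0) (nat_lit 136552981523) (nat_lit 152) (nat_lit 75100697930) (nat_lit 0) (nat_lit 99129395144) (nat_lit 4) (nat_lit 5) (nat_lit 6) (nat_lit 4) (nat_lit 4) (nat_lit 4) (nat_lit 332) (nat_lit 272) (nat_lit 176)) (XT.lf (nat_lit 0) (nat_lit 163039020793) (nat_lit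 152) (nat_lit 45496337426) (nat_lit 0) (nat_lit 125613718879) (nat_lit 4) (nat_lit 5) (nat_lit 6) (nat_lit 4) (nat_lit 4) (nat_lit 4) (nat_lit 333) (nat_lit 272) (nat_lit 175))) (XT.nd (nat_lit 78) (nat_lit 76) (nat_lit 0) (XT.lf (nat_lit 0) (nat_lit 191642307786) (nat_lit 152) (nat_lit 13526766492) (nat_lit 0) (nat_lit 154215417413) (nat_lit 4) (nat_lit 5) (nat_lit 6) (nat_lit 4) (nat_lit 4) (nat_lit 4) (nat_lit 334) (nat_lit 272) (nat_lit 174)) (XT.lf (nat_lit 0) (nat_lit 22103153433) (nat_lit 76) (nat_lit 200960771402) (nat_lit 76) (nat_lit 163532410233) (nat_lit 3) (nat_lit 4) (nat_lit 4) (nat_lit 5) (nat_lit 4) (nat_lit 4) (nat_lit 335) (nat_lit 272) (nat_lit 173)))))) (XT.nd (nat_lit 624) (nat_lit 0) (nat_lit 0) (XT.nd (nat_lit 312) (nat_lit 0) (nat_lit 0) (XT.nd (nat_lit 156) (nat_lit 0) (nat_lit 0) (XT.nd (nat_lit 78) (nat_lit 0) (nat_lit 0) (XT.lf (nat_lit 0) (nat_lit 61349913782)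 (nat_lit 76) (nat_lit 196017733008) (nat_lit 76) (nat_lit 158588009992) (nat_lit 3) (nat_lit 4) (nat_lit 4) (nat_lit 5) (nat_lit 4) (nat_lit 4) (nat_lit 336) (nat_lit 272) (nat_lit 172)) (XT.lf (nat_lit 0) (nat_lit 103733792397) (nat_lit 76) (nat_lit 190680512785) (nat_lit 76) (nat_lit 153249528799) (nat_lit 3) (nat_lit 4) (nat_lit 4) (nat_lit 5) (nat_lit 4) (nat_lit 4) (nat_lit 337) (nat_lit 272) (nat_lit 171))) (XT.nd (nat_lit 78) (nat_lit 0) (nat_lit 0) (XT.lf (nat_lit 0) (nat_lit 149505953001) (nat_lit 76) (nat_lit 184917482761) (nat_lit 76) (nat_lit 147485331210) (nat_lit 3) (nat_lit 4) (nat_lit 4) (nat_lit 5) (nat_lit 4) (nat_lit 4) (nat_lit 338) (nat_lit 272) (nat_lit 170)) (XT.lf (nat_lit 0) (nat_lit 198937638030) (nat_lit 76) (nat_lit 178694491648) (nat_lit 76) (nat_lit 141261259018) (nat_lit 3) (nat_lit 4) (nat_lit 4) (nat_lit 5) (nat_lit 4) (nat_lit 4) (nat_lit 339) (nat_lit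 272) (nat_lit 169)))) (XT.nd (nat_lit 156) (nat_lit 0) (nat_lit 0) (XT.nd (nat_lit 78) (nat_lit 0) (nat_lit 0) (XT.lf (nat_lit 0) (nat_lit 252321775986) (nat_lit 76) (nat_lit 171974662461) (nat_lit 76) (nat_lit 134540428832) (nat_lit 3) (nat_lit 4) (nat_lit 4) (nat_lit 5) (nat_lit 4) (nat_lit 4) (nat_lit 340) (nat_lit 272) (nat_lit 168)) (XT.lf (nat_lit 0) (nat_lit 309974717317) (nat_lit 76) (nat_lit 164718173989) (nat_lit 76) (nat_lit 127283013510) (nat_lit 3) (nat_lit 4) (nat_lit 4) (nat_lit 5) (nat_lit 4) (nat_lit 4) (nat_lit 341) (nat_lit 272) (nat_lit 167))) (XT.nd (nat_lit 78) (nat_lit 0) (nat_lit 0) (XT.lf (nat_lit 0) (nat_lit 372238109082) (nat_lit 76) (nat_lit 156882024820) (nat_lit 76) (nat_lit 119446006147) (nat_lit 3) (nat_lit 4) (nat_lit 4) (nat_lit 5) (nat_lit 4) (nat_lit 4) (nat_lit 342) (nat_lit 272) (nat_lit 166)) (XT.lf (nat_lit 0) (nat_lit 439480919529) (nat_lit 76)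 (nat_lit 148419778515) (nat_lit 76) (nat_lit 110982965216) (nat_lit 3) (nat_lit 4) (nat_lit 4) (nat_lit 5) (nat_lit 4) (nat_lit 4) (nat_lit 343) (nat_lit 272) (nat_lit 165))))) (XT.nd (nat_lit 312) (nat_lit 0) (nat_lit 0) (XT.nd (nat_lit 156) (nat_lit 0) (nat_lit 0) (XT.nd (nat_lit 78) (nat_lit 0) (nat_lit 0) (XT.lf (nat_lit 0) (nat_lit 512101624572) (nat_lit 76) (nat_lit 139281288428) (nat_lit 76) (nat_lit 101843739365) (nat_lit 3) (nat_lit 4) (nat_lit 4) (nat_lit 5) (nat_lit 4) (nat_lit 4) (nat_lit 344) (nat_lit 272) (nat_lit 164)) (XT.lf (nat_lit 0) (nat_lit 590530569130) (nat_lit 76) (nat_lit 129412400544) (nat_lit 76) (nat_lit 91974170218) (nat_lit 3) (nat_lit 4) (nat_lit 4) (nat_lit 5) (nat_lit 4) (nat_lit 4) (nat_lit 345) (nat_lit 272) (nat_lit 163))) (XT.nd (nat_lit 78) (nat_lit 0) (nat_lit 0) (XT.lf (nat_lit 0) (nat_lit 675232517318) (nat_lit 76) (nat_lit 118754632564) (nat_lit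 76) (nat_lit 81315771440) (nat_lit 3) (nat_lit 4) (nat_lit 4) (nat_lit 5) (nat_lit 4) (nat_lit 4) (nat_lit 346) (nat_lit 272) (nat_lit 162)) (XT.lf (nat_lit 0) (nat_lit 766709406606) (nat_lit 76) (nat_lit 107244827346) (nat_lit 76) (nat_lit 69805382148) (nat_lit 3) (nat_lit 4) (nat_lit 4) (nat_lit 5) (nat_lit 4) (nat_lit 4) (nat_lit 347) (nat_lit 272) (nat_lit 161)))) (XT.nd (nat_lit 156) (nat_lit 0) (nat_lit 0) (XT.nd (nat_lit 78) (nat_lit 0) (nat_lit 0) (XT.lf (nat_lit 0) (nat_lit 865503322266) (nat_lit 76) (nat_lit 94814778636) (nat_lit 76) (nat_lit 57374792629) (nat_lit 3) (nat_lit 4) (nat_lit 4) (nat_lit 5) (nat_lit 4) (nat_lit 4) (nat_lit 348) (nat_lit 272) (nat_lit 160)) (XT.lf (nat_lit 0) (nat_lit 972199709723) (nat_lit 76) (nat_lit 81390826885) (nat_lit 76) (nat_lit 43950340130) (nat_lit 3) (nat_lit 4) (nat_lit 4) (nat_lit 5) (nat_lit 4) (nat_lit 4) (nat_lit 349) (nat_lit 272)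 (nat_lit 159))) (XT.nd (nat_lit 78) (nat_lit 0) (nat_lit 0) (XT.lf (nat_lit 0) (nat_lit 1087430843866) (nat_lit 76) (nat_lit 66893422750) (nat_lit 76) (nat_lit 29452472340) (nat_lit 3) (nat_lit 4) (nat_lit 4) (nat_lit 5) (nat_lit 4) (nat_lit 4) (nat_lit 350) (nat_lit 272) (nat_lit 158)) (XT.lf (nat_lit 0) (nat_lit 1211879575860) (nat_lit 76) (nat_lit 51236655689) (nat_lit 76) (nat_lit 13795275967) (nat_lit 3) (nat_lit 4) (nat_lit 4) (nat_lit 5) (nat_lit 4) (nat_lit 4) (nat_lit 351) (nat_lit 272) (nat_lit 157))))))))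
noncomputable def xc71 : XT := (XT.nd (nat_lit 35646) (nat_lit 0) (nat_lit 456) (XT.nd (nat_lit 1170) (nat_lit 0) (nat_lit 0) (XT.nd (nat_lit 546) (nat_lit 0) (nat_lit 0) (XT.nd (nat_lit 234) (nat_lit 0) (nat_lit 0) (XT.nd (nat_lit 78) (nat_lit 76) (nat_lit 0) (XT.lf (nat_lit 0) (nat_lit 2958255861) (nat_lit 152) (nat_lit 31288605040) (nat_lit 76) (nat_lit 1343244239853) (nat_lit 2) (nat_lit 5) (nat_lit 4) (nat_lit 5) (nat_lit 3) (nat_lit 4) (nat_lit 352) (nat_lit 272) (nat_lit 156)) (XT.nd (nat_lit 78) (nat_lit 0) (nat_lit 0) (XT.lf (nat_lit 0) (nat_lit 5047582142) (nat_lit 76) (nat_lit 15380171434) (nat_lit 152) (nat_lit 1465650963670) (nat_lit 1) (nat_lit 5) (nat_lit 2) (nat_lit 5) (nat_lit 3) (nat_lit 4) (nat_lit 353) (nat_lit 272) (nat_lit 155)) (XT.lf (nat_lit 0) (nat_lit 40292262747) (nat_lit 152) (nat_lit 1557357990250) (nat_lit 0) (nat_lit 5623294138) (nat_lit 1) (nat_lit 5)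 (nat_lit 3) (nat_lit 4) (nat_lit 1) (nat_lit 4) (nat_lit 354) (nat_lit 272) (nat_lit 154)))) (XT.nd (nat_lit 156) (nat_lit 0) (nat_lit 0) (XT.nd (nat_lit 78) (nat_lit 0) (nat_lit 0) (XT.lf (nat_lit 0) (nat_lit 62145042556) (nat_lit 152) (nat_lit 1640191210499) (nat_lit 0) (nat_lit 27475781764) (nat_lit 1) (nat_lit 5) (nat_lit 3) (nat_lit 4) (nat_lit 1) (nat_lit 4) (nat_lit 355) (nat_lit 272) (nat_lit 153)) (XT.lf (nat_lit 0) (nat_lit 85745697464) (nat_lit 152) (nat_lit 1729651765885) (nat_lit 0) (nat_lit 51076166133) (nat_lit 1) (nat_lit 5) (nat_lit 3) (nat_lit 4) (nat_lit 1) (nat_lit 4) (nat_lit 356) (nat_lit 272) (nat_lit 152))) (XT.nd (nat_lit 78) (nat_lit 0) (nat_lit 0) (XT.lf (nat_lit 0) (nat_lit 111234083203) (nat_lit 152) (nat_lit 1826269793033) (nat_lit 0) (nat_lit 76564301374) (nat_lit 1) (nat_lit 5) (nat_lit 3) (nat_lit 4) (nat_lit 1) (nat_lit 4) (nat_lit 357) (nat_lit 272)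 (nat_lit 151)) (XT.lf (nat_lit 0) (nat_lit 138761242060) (nat_lit 152) (nat_lit 1930617843214) (nat_lit 0) (nat_lit 104091228287) (nat_lit 1) (nat_lit 5) (nat_lit 3) (nat_lit 4) (nat_lit 1) (nat_lit 4) (nat_lit 358) (nat_lit 272) (nat_lit 150))))) (XT.nd (nat_lit 312) (nat_lit 0) (nat_lit 0) (XT.nd (nat_lit 156) (nat_lit 0) (nat_lit 0) (XT.nd (nat_lit 78) (nat_lit 0) (nat_lit 0) (XT.lf (nat_lit 0) (nat_lit 168490297939) (nat_lit 152) (nat_lit 2043314275245) (nat_lit 0) (nat_lit 133820069404) (nat_lit 1) (nat_lit 5) (nat_lit 3) (nat_lit 4) (nat_lit 1) (nat_lit 4) (nat_lit 359) (nat_lit 272) (nat_lit 149)) (XT.lf (nat_lit 0) (nat_lit 200597423024) (nat_lit 152) (nat_lit 2165026919834) (nat_lit 0) (nat_lit 165926995634) (nat_lit 1) (nat_lit 5) (nat_lit 3) (nat_lit 4) (nat_lit 1) (nat_lit 4) (nat_lit 360) (nat_lit 272) (nat_lit 148))) (XT.nd (nat_lit 78) (nat_lit 0) (nat_lit 0) (XT.lf (nat_lit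 0) (nat_lit 235272881758) (nat_lit 152) (nat_lit 2296477037097) (nat_lit 0) (nat_lit 200602270244) (nat_lit 1) (nat_lit 5) (nat_lit 3) (nat_lit 4) (nat_lit 1) (nat_lit 4) (nat_lit 361) (nat_lit 272) (nat_lit 147)) (XT.lf (nat_lit 0) (nat_lit 272722158341) (nat_lit 152) (nat_lit 2438443590691) (nat_lit 0) (nat_lit 238051376342) (nat_lit 1) (nat_lit 5) (nat_lit 3) (nat_lit 4) (nat_lit 1) (nat_lit 4) (nat_lit 362) (nat_lit 272) (nat_lit 146)))) (XT.nd (nat_lit 156) (nat_lit 0) (nat_lit 0) (XT.nd (nat_lit 78) (nat_lit 0) (nat_lit 0) (XT.lf (nat_lit 0) (nat_lit 313167174414) (nat_lit 152) (nat_lit 2591767863898) (nat_lit 0) (nat_lit 278496234558) (nat_lit 1) (nat_lit 5) (nat_lit 3) (nat_lit 4) (nat_lit 1) (nat_lit 4) (nat_lit 363) (nat_lit 272) (nat_lit 145)) (XT.lf (nat_lit 0) (nat_lit 356847604145) (nat_lit 152) (nat_lit 2757358445003) (nat_lit 0) (nat_lit 322176518125) (nat_lit 1) (nat_lit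 5) (nat_lit 3) (nat_lit 4) (nat_lit 1) (nat_lit 4) (nat_lit 364) (nat_lit 272) (nat_lit 144))) (XT.nd (nat_lit 78) (nat_lit 0) (nat_lit 0) (XT.lf (nat_lit 0) (nat_lit 404022294525) (nat_lit 152) (nat_lit 2936196611524) (nat_lit 0) (nat_lit 369351073169) (nat_lit 1) (nat_lit 5) (nat_lit 3) (nat_lit 4) (nat_lit 1) (nat_lit 4) (nat_lit 365) (nat_lit 272) (nat_lit 143)) (XT.lf (nat_lit 0) (nat_lit 454970799275) (nat_lit 152) (nat_lit 3129342145188) (nat_lit 0) (nat_lit 420299452607) (nat_lit 1) (nat_lit 5) (nat_lit 3) (nat_lit 4) (nat_lit 1) (nat_lit 4) (nat_lit 366) (nat_lit 272) (nat_lit 142)))))) (XT.nd (nat_lit 33852) (nat_lit 0) (nat_lit 2280) (XT.nd (nat_lit 33540) (nat_lit 0) (nat_lit 3344) (XT.nd (nat_lit 33384) (nat_lit 0) (nat_lit 3268) (XT.nd (nat_lit 33306) (nat_lit 0) (nat_lit 3268) (XT.lf (nat_lit 0) (nat_lit 509995035460) (nat_lit 152) (nat_lit 3337939612121) (nat_lit 0) (nat_lit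 475323572763) (nat_lit 1) (nat_lit 5) (nat_lit 3) (nat_lit 4) (nat_lit 1) (nat_lit 4) (nat_lit 367) (nat_lit 272) (nat_lit 141)) (XT.lf (nat_lit 0) (nat_lit 1207257576) (nat_lit 532) (nat_lit 2263110989) (nat_lit 532) (nat_lit 2263110989) (nat_lit 44) (nat_lit 3) (nat_lit 51) (nat_lit 3) (nat_lit 51) (nat_lit 5) (nat_lit 273) (nat_lit 273) (nat_lit 234))) (XT.nd (nat_lit 78) (nat_lit 0) (nat_lit 76) (XT.lf (nat_lit 76) (nat_lit 721968667) (nat_lit 0) (nat_lit 2289302688) (nat_lit 532) (nat_lit 8872774174) (nat_lit 45) (nat_lit 5) (nat_lit 44) (nat_lit 3) (nat_lit 51) (nat_lit 5) (nat_lit 274) (nat_lit 273) (nat_lit 233)) (XT.lf (nat_lit 0) (nat_lit 3800044574) (nat_lit 456) (nat_lit 5778278307) (nat_lit 532) (nat_lit 2744791726) (nat_lit 45) (nat_lit 5) (nat_lit 51) (nat_lit 5) (nat_lit 52) (nat_lit 5) (nat_lit 275) (nat_lit 273) (nat_lit 232)))) (XT.nd (nat_lit 156) (nat_lit 0) (nat_lit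 76) (XT.nd (nat_lit 78) (nat_lit 0) (nat_lit 76) (XT.lf (nat_lit 0) (nat_lit 4666519538) (nat_lit 456) (nat_lit 52989710) (nat_lit 532) (nat_lit 8076778144) (nat_lit 45) (nat_lit 5) (nat_lit 51) (nat_lit 5) (nat_lit 52) (nat_lit 5) (nat_lit 276) (nat_lit 273) (nat_lit 231)) (XT.lf (nat_lit 0) (nat_lit 5732321894) (nat_lit 456) (nat_lit 6891324957) (nat_lit 532) (nat_lit 673401742) (nat_lit 46) (nat_lit 5) (nat_lit 52) (nat_lit 5) (nat_lit 53) (nat_lit 5) (nat_lit 277) (nat_lit 273) (nat_lit 230))) (XT.nd (nat_lit 78) (nat_lit 0) (nat_lit 0) (XT.lf (nat_lit 0) (nat_lit 6968646234) (nat_lit 456) (nat_lit 606628437) (nat_lit 532) (nat_lit 6255900713) (nat_lit 46) (nat_lit 5) (nat_lit 52) (nat_lit 5) (nat_lit 53) (nat_lit 5) (nat_lit 278) (nat_lit 273) (nat_lit 229)) (XT.lf (nat_lit 76) (nat_lit 6476686691) (nat_lit 0) (nat_lit 1947016038) (nat_lit 532) (nat_lit 5974859529) (nat_lit 47)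 (nat_lit 5) (nat_lit 46) (nat_lit 5) (nat_lit 53) (nat_lit 5) (nat_lit 279) (nat_lit 273) (nat_lit 228))))) (XT.nd (nat_lit 312) (nat_lit 532) (nat_lit 0) (XT.nd (nat_lit 156) (nat_lit 228) (nat_lit 0) (XT.nd (nat_lit 78) (nat_lit 456) (nat_lit 0) (XT.lf (nat_lit 0) (nat_lit 10077763994) (nat_lit 456) (nat_lit 979053517) (nat_lit 76) (nat_lit 3948021992) (nat_lit 47) (nat_lit 5) (nat_lit 53) (nat_lit 5) (nat_lit 48) (nat_lit 5) (nat_lit 280) (nat_lit 273) (nat_lit 227)) (XT.lf (nat_lit 0) (nat_lit 6779605304) (nat_lit 456) (nat_lit 5266888949) (nat_lit 532) (nat_lit 3598636629) (nat_lit 41) (nat_lit 5) (nat_lit 47) (nat_lit 5) (nat_lit 48) (nat_lit 5) (nat_lit 281) (nat_lit 273) (nat_lit 226))) (XT.nd (nat_lit 78) (nat_lit 228) (nat_lit 0) (XT.lf (nat_lit 0) (nat_lit 14194337816) (nat_lit 532) (nat_lit 1174243395) (nat_lit 76) (nat_lit 966427282) (nat_lit 41) (nat_lit 5) (nat_lit 48)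 (nat_lit 5) (nat_lit 42) (nat_lit 5) (nat_lit 282) (nat_lit 273) (nat_lit 225)) (XT.lf (nat_lit 0) (nat_lit 7334708689) (nat_lit 228) (nat_lit 9465124234) (nat_lit 304) (nat_lit 257462756) (nat_lit 38) (nat_lit 5) (nat_lit 41) (nat_lit 5) (nat_lit 42) (nat_lit 5) (nat_lit 283) (nat_lit 273) (nat_lit 224)))) (XT.nd (nat_lit 156) (nat_lit 228) (nat_lit 0) (XT.nd (nat_lit 78) (nat_lit 228) (nat_lit 0) (XT.lf (nat_lit 0) (nat_lit 1693727975) (nat_lit 304) (nat_lit 1315718225) (nat_lit 76) (nat_lit 14824079842) (nat_lit 37) (nat_lit 5) (nat_lit 41) (nat_lit 5) (nat_lit 38) (nat_lit 5) (nat_lit 284) (nat_lit 273) (nat_lit 223)) (XT.lf (nat_lit 0) (nat_lit 4058566869) (nat_lit 304) (nat_lit 10620548882) (nat_lit 76) (nat_lit 3970554796) (nat_lit 34) (nat_lit 5) (nat_lit 38) (nat_lit 5) (nat_lit 35) (nat_lit 5) (nat_lit 285) (nat_lit 273) (nat_lit 222))) (XT.nd (nat_lit 78) (nat_lit 228) (nat_lit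 0) (XT.lf (nat_lit 0) (nat_lit 6704062597) (nat_lit 304) (nat_lit 1438590429) (nat_lit 76) (nat_lit 11381198697) (nat_lit 34) (nat_lit 5) (nat_lit 38) (nat_lit 5) (nat_lit 35) (nat_lit 5) (nat_lit 286) (nat_lit 273) (nat_lit 221)) (XT.lf (nat_lit 0) (nat_lit 8897422076) (nat_lit 228) (nat_lit 855901558) (nat_lit 304) (nat_lit 10699331755) (nat_lit 31) (nat_lit 5) (nat_lit 34) (nat_lit 5) (nat_lit 35) (nat_lit 5) (nat_lit 287) (nat_lit 273) (nat_lit 220))))))) (XT.nd (nat_lit 1170) (nat_lit 760) (nat_lit 0) (XT.nd (nat_lit 546) (nat_lit 532) (nat_lit 0) (XT.nd (nat_lit 234) (nat_lit 380) (nat_lit 0) (XT.nd (nat_lit 78) (nat_lit 152) (nat_lit 0) (XT.lf (nat_lit 0) (nat_lit 13234625704) (nat_lit 304) (nat_lit 1506752721) (nat_lit 76) (nat_lit 6699390659) (nat_lit 31) (nat_lit 5) (nat_lit 35) (nat_lit 5) (nat_lit 32) (nat_lit 5) (nat_lit 288) (nat_lit 273) (nat_lit 219)) (XT.nd (nat_lit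 78) (nat_lit 0) (nat_lit 0) (XT.lf (nat_lit 0) (nat_lit 9788437891) (nat_lit 152) (nat_lit 7444251371) (nat_lit 228) (nat_lit 5256231792) (nat_lit 29) (nat_lit 5) (nat_lit 31) (nat_lit 5) (nat_lit 32) (nat_lit 5) (nat_lit 289) (nat_lit 273) (nat_lit 218)) (XT.lf (nat_lit 0) (nat_lit 21584709067) (nat_lit 228) (nat_lit 1581635809) (nat_lit 76) (nat_lit 451897492) (nat_lit 29) (nat_lit 5) (nat_lit 32) (nat_lit 5) (nat_lit 30) (nat_lit 5) (nat_lit 290) (nat_lit 273) (nat_lit 217)))) (XT.nd (nat_lit 156) (nat_lit 152) (nat_lit 0) (XT.nd (nat_lit 78) (nat_lit 0) (nat_lit 0) (XT.lf (nat_lit 0) (nat_lit 1820403405) (nat_lit 228) (nat_lit 14101767455) (nat_lit 76) (nat_lit 8877329543) (nat_lit 26) (nat_lit 5) (nat_lit 29) (nat_lit 5) (nat_lit 27) (nat_lit 5) (nat_lit 291) (nat_lit 273) (nat_lit 216)) (XT.lf (nat_lit 0) (nat_lit 5900145633) (nat_lit 228) (nat_lit 2100169293) (nat_lit 76) (nat_lit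 18068566875) (nat_lit 26) (nat_lit 5) (nat_lit 29) (nat_lit 5) (nat_lit 27) (nat_lit 5) (nat_lit 292) (nat_lit 273) (nat_lit 215))) (XT.nd (nat_lit 78) (nat_lit 0) (nat_lit 0) (XT.lf (nat_lit 0) (nat_lit 10585262040) (nat_lit 228) (nat_lit 16029202629) (nat_lit 76) (nat_lit 803063327) (nat_lit 24) (nat_lit 5) (nat_lit 27) (nat_lit 5) (nat_lit 25) (nat_lit 5) (nat_lit 293) (nat_lit 273) (nat_lit 214)) (XT.lf (nat_lit 0) (nat_lit 15896644319) (nat_lit 228) (nat_lit 3026015788) (nat_lit 76) (nat_lit 9931320616) (nat_lit 24) (nat_lit 5) (nat_lit 27) (nat_lit 5) (nat_lit 25) (nat_lit 5) (nat_lit 294) (nat_lit 273) (nat_lit 213))))) (XT.nd (nat_lit 312) (nat_lit 228) (nat_lit 0) (XT.nd (nat_lit 156) (nat_lit 152) (nat_lit 0) (XT.nd (nat_lit 78) (nat_lit 0) (nat_lit 0) (XT.lf (nat_lit 0) (nat_lit 11575566122) (nat_lit 152) (nat_lit 10321636233) (nat_lit 228) (nat_lit 8487035137) (nat_lit 22)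 (nat_lit 5) (nat_lit 24) (nat_lit 5) (nat_lit 25) (nat_lit 5) (nat_lit 295) (nat_lit 273) (nat_lit 212)) (XT.lf (nat_lit 0) (nat_lit 27496979742) (nat_lit 152) (nat_lit 949990626) (nat_lit 228) (nat_lit 3584438095) (nat_lit 22) (nat_lit 5) (nat_lit 24) (nat_lit 5) (nat_lit 25) (nat_lit 5) (nat_lit 296) (nat_lit 273) (nat_lit 211))) (XT.nd (nat_lit 78) (nat_lit 0) (nat_lit 0) (XT.lf (nat_lit 0) (nat_lit 2114437352) (nat_lit 152) (nat_lit 22623942856) (nat_lit 76) (nat_lit 9029534796) (nat_lit 20) (nat_lit 5) (nat_lit 22) (nat_lit 5) (nat_lit 21) (nat_lit 5) (nat_lit 297) (nat_lit 273) (nat_lit 210)) (XT.lf (nat_lit 0) (nat_lit 8214866104) (nat_lit 152) (nat_lit 7439838136) (nat_lit 76) (nat_lit 19970067307) (nat_lit 20) (nat_lit 5) (nat_lit 22) (nat_lit 5) (nat_lit 21) (nat_lit 5) (nat_lit 298) (nat_lit 273) (nat_lit 209)))) (XT.nd (nat_lit 156) (nat_lit 76) (nat_lit 0) (XT.nd (nat_lit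 78) (nat_lit 0) (nat_lit 0) (XT.lf (nat_lit 0) (nat_lit 9411325671) (nat_lit 152) (nat_lit 5606699229) (nat_lit 228) (nat_lit 22594995817) (nat_lit 18) (nat_lit 5) (nat_lit 20) (nat_lit 5) (nat_lit 21) (nat_lit 5) (nat_lit 299) (nat_lit 273) (nat_lit 208)) (XT.lf (nat_lit 0) (nat_lit 22688904343) (nat_lit 228) (nat_lit 11860540241) (nat_lit 76) (nat_lit 5185026100) (nat_lit 18) (nat_lit 5) (nat_lit 21) (nat_lit 5) (nat_lit 19) (nat_lit 4) (nat_lit 300) (nat_lit 273) (nat_lit 207))) (XT.nd (nat_lit 78) (nat_lit 0) (nat_lit 0) (XT.lf (nat_lit 0) (nat_lit 5921118216) (nat_lit 76) (nat_lit 25329830564) (nat_lit 152) (nat_lit 10752505241) (nat_lit 17) (nat_lit 5) (nat_lit 18) (nat_lit 5) (nat_lit 19) (nat_lit 4) (nat_lit 301) (nat_lit 273) (nat_lit 206)) (XT.lf (nat_lit 0) (nat_lit 25782909744) (nat_lit 76) (nat_lit 15029171880) (nat_lit 152) (nat_lit 3616760100) (nat_lit 17) (nat_lit 5)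 (nat_lit 18) (nat_lit 5) (nat_lit 19) (nat_lit 4) (nat_lit 302) (nat_lit 273) (nat_lit 205)))))) (XT.nd (nat_lit 624) (nat_lit 304) (nat_lit 0) (XT.nd (nat_lit 312) (nat_lit 152) (nat_lit 0) (XT.nd (nat_lit 156) (nat_lit 76) (nat_lit 0) (XT.nd (nat_lit 78) (nat_lit 0) (nat_lit 0) (XT.lf (nat_lit 0) (nat_lit 74564964) (nat_lit 152) (nat_lit 3802813658) (nat_lit 228) (nat_lit 43163656438) (nat_lit 14) (nat_lit 5) (nat_lit 16) (nat_lit 5) (nat_lit 17) (nat_lit 5) (nat_lit 303) (nat_lit 273) (nat_lit 204)) (XT.lf (nat_lit 0) (nat_lit 12489353095) (nat_lit 228) (nat_lit 28792008678) (nat_lit 76) (nat_lit 8516242906) (nat_lit 14) (nat_lit 5) (nat_lit 17) (nat_lit 5) (nat_lit 15) (nat_lit 4) (nat_lit 304) (nat_lit 273) (nat_lit 203))) (XT.nd (nat_lit 78) (nat_lit 76) (nat_lit 0) (XT.lf (nat_lit 0) (nat_lit 21880275614) (nat_lit 228) (nat_lit 9277533716) (nat_lit 76) (nat_lit 21609702864) (nat_lit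 14) (nat_lit 5) (nat_lit 17) (nat_lit 5) (nat_lit 15) (nat_lit 4) (nat_lit 305) (nat_lit 273) (nat_lit 202)) (XT.lf (nat_lit 0) (nat_lit 12404581278) (nat_lit 76) (nat_lit 19908087529) (nat_lit 152) (nat_lit 23639138428) (nat_lit 13) (nat_lit 5) (nat_lit 14) (nat_lit 5) (nat_lit 15) (nat_lit 4) (nat_lit 306) (nat_lit 273) (nat_lit 201)))) (XT.nd (nat_lit 156) (nat_lit 152) (nat_lit 0) (XT.nd (nat_lit 78) (nat_lit 0) (nat_lit 0) (XT.lf (nat_lit 0) (nat_lit 36335197255) (nat_lit 76) (nat_lit 7490260059) (nat_lit 152) (nat_lit 15545734143) (nat_lit 13) (nat_lit 5) (nat_lit 14) (nat_lit 5) (nat_lit 15) (nat_lit 4) (nat_lit 307) (nat_lit 273) (nat_lit 200)) (XT.lf (nat_lit 0) (nat_lit 56394261023) (nat_lit 152) (nat_lit 1039401259) (nat_lit 0) (nat_lit 5619673920) (nat_lit 13) (nat_lit 5) (nat_lit 15) (nat_lit 4) (nat_lit 13) (nat_lit 4) (nat_lit 308) (nat_lit 273) (nat_lit 199))) (XT.nd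 (nat_lit 78) (nat_lit 0) (nat_lit 0) (XT.lf (nat_lit 0) (nat_lit 3568760709) (nat_lit 152) (nat_lit 43364253535) (nat_lit 76) (nat_lit 20029213163) (nat_lit 11) (nat_lit 5) (nat_lit 13) (nat_lit 5) (nat_lit 12) (nat_lit 4) (nat_lit 309) (nat_lit 273) (nat_lit 198)) (XT.lf (nat_lit 0) (nat_lit 14277401614) (nat_lit 152) (nat_lit 21102029258) (nat_lit 76) (nat_lit 35788781971) (nat_lit 11) (nat_lit 5) (nat_lit 13) (nat_lit 5) (nat_lit 12) (nat_lit 4) (nat_lit 310) (nat_lit 273) (nat_lit 197))))) (XT.nd (nat_lit 312) (nat_lit 228) (nat_lit 0) (XT.nd (nat_lit 156) (nat_lit 0) (nat_lit 0) (XT.nd (nat_lit 78) (nat_lit 0) (nat_lit 0) (XT.lf (nat_lit 0) (nat_lit 3084136932) (nat_lit 76) (nat_lit 22826459255) (nat_lit 152) (nat_lit 49794658662) (nat_lit 10) (nat_lit 5) (nat_lit 11) (nat_lit 5) (nat_lit 12) (nat_lit 4) (nat_lit 311) (nat_lit 273) (nat_lit 196)) (XT.lf (nat_lit 0) (nat_lit 30394256979)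 (nat_lit 76) (nat_lit 8651047263) (nat_lit 152) (nat_lit 41514293572) (nat_lit 10) (nat_lit 5) (nat_lit 11) (nat_lit 5) (nat_lit 12) (nat_lit 4) (nat_lit 312) (nat_lit 273) (nat_lit 195))) (XT.nd (nat_lit 78) (nat_lit 0) (nat_lit 0) (XT.lf (nat_lit 0) (nat_lit 53385157523) (nat_lit 152) (nat_lit 26083798363) (nat_lit 0) (nat_lit 6320988611) (nat_lit 10) (nat_lit 5) (nat_lit 12) (nat_lit 4) (nat_lit 10) (nat_lit 4) (nat_lit 313) (nat_lit 273) (nat_lit 194)) (XT.lf (nat_lit 0) (nat_lit 69091562665) (nat_lit 152) (nat_lit 310214789) (nat_lit 0) (nat_lit 22019397714) (nat_lit 10) (nat_lit 5) (nat_lit 12) (nat_lit 4) (nat_lit 10) (nat_lit 4) (nat_lit 314) (nat_lit 273) (nat_lit 193)))) (XT.nd (nat_lit 156) (nat_lit 76) (nat_lit 0) (XT.nd (nat_lit 78) (nat_lit 76) (nat_lit 0) (XT.lf (nat_lit 0) (nat_lit 28965154462) (nat_lit 76) (nat_lit 57780994965) (nat_lit 76) (nat_lit 10701426274) (nat_lit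 9) (nat_lit 4) (nat_lit 10) (nat_lit 5) (nat_lit 10) (nat_lit 4) (nat_lit 315) (nat_lit 273) (nat_lit 192)) (XT.lf (nat_lit 0) (nat_lit 1767903286) (nat_lit 152) (nat_lit 43409185169) (nat_lit 76) (nat_lit 58775128456) (nat_lit 8) (nat_lit 5) (nat_lit 10) (nat_lit 5) (nat_lit 9) (nat_lit 4) (nat_lit 316) (nat_lit 273) (nat_lit 191))) (XT.nd (nat_lit 78) (nat_lit 76) (nat_lit 0) (XT.lf (nat_lit 0) (nat_lit 14652070260) (nat_lit 152) (nat_lit 16616465376) (nat_lit 76) (nat_lit 79686825295) (nat_lit 8) (nat_lit 5) (nat_lit 10) (nat_lit 5) (nat_lit 9) (nat_lit 4) (nat_lit 317) (nat_lit 273) (nat_lit 190)) (XT.lf (nat_lit 0) (nat_lit 12960201120) (nat_lit 76) (nat_lit 15914245979) (nat_lit 152) (nat_lit 89619714889) (nat_lit 7) (nat_lit 5) (nat_lit 8) (nat_lit 5) (nat_lit 9) (nat_lit 4) (nat_lit 318) (nat_lit 273) (nat_lit 189))))))))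
noncomputable def xc72 : XT := (XT.nd (nat_lit 2340) (nat_lit 152) (nat_lit 0) (XT.nd (nat_lit 1170) (nat_lit 76) (nat_lit 0) (XT.nd (nat_lit 546) (nat_lit 152) (nat_lit 0) (XT.nd (nat_lit 234) (nat_lit 76) (nat_lit 0) (XT.nd (nat_lit 78) (nat_lit 0) (nat_lit 0) (XT.lf (nat_lit 0) (nat_lit 44712641684) (nat_lit 152) (nat_lit 80787443821) (nat_lit 0) (nat_lit 1097742781) (nat_lit 7) (nat_lit 5) (nat_lit 9) (nat_lit 4) (nat_lit 7) (nat_lit 4) (nat_lit 319) (nat_lit 273) (nat_lit 188)) (XT.nd (nat_lit 78) (nat_lit 0) (nat_lit 0) (XT.lf (nat_lit 0) (nat_lit 62227386520) (nat_lit 152) (nat_lit 54481822906) (nat_lit 0) (nat_lit 18607822005) (nat_lit 7) (nat_lit 5) (nat_lit 9) (nat_lit 4) (nat_lit 7) (nat_lit 4) (nat_lit 320) (nat_lit 273) (nat_lit 187)) (XT.lf (nat_lit 0) (nat_lit 81139734688) (nat_lit 152) (nat_lit 26078474962) (nat_lit 0) (nat_lit 37515850162) (nat_lit 7) (nat_lit 5) (nat_lit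 9) (nat_lit 4) (nat_lit 7) (nat_lit 4) (nat_lit 321) (nat_lit 273) (nat_lit 186)))) (XT.nd (nat_lit 156) (nat_lit 0) (nat_lit 0) (XT.nd (nat_lit 78) (nat_lit 0) (nat_lit 0) (XT.lf (nat_lit 0) (nat_lit 4832665652) (nat_lit 76) (nat_lit 96845319436) (nat_lit 76) (nat_lit 53217434899) (nat_lit 6) (nat_lit 4) (nat_lit 7) (nat_lit 5) (nat_lit 7) (nat_lit 4) (nat_lit 322) (nat_lit 273) (nat_lit 185)) (XT.lf (nat_lit 0) (nat_lit 39693736409) (nat_lit 76) (nat_lit 84875378855) (nat_lit 76) (nat_lit 41243790605) (nat_lit 6) (nat_lit 4) (nat_lit 7) (nat_lit 5) (nat_lit 7) (nat_lit 4) (nat_lit 323) (nat_lit 273) (nat_lit 184))) (XT.nd (nat_lit 78) (nat_lit 0) (nat_lit 0) (XT.lf (nat_lit 0) (nat_lit 77338075156) (nat_lit 76) (nat_lit 71950486648) (nat_lit 76) (nat_lit 28315469034) (nat_lit 6) (nat_lit 4) (nat_lit 7) (nat_lit 5) (nat_lit 7) (nat_lit 4) (nat_lit 324) (nat_lit 273) (nat_lit 183)) (XT.lf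 (nat_lit 0) (nat_lit 117988759455) (nat_lit 76) (nat_lit 57994050860) (nat_lit 76) (nat_lit 14355857909) (nat_lit 6) (nat_lit 4) (nat_lit 7) (nat_lit 5) (nat_lit 7) (nat_lit 4) (nat_lit 325) (nat_lit 273) (nat_lit 182))))) (XT.nd (nat_lit 312) (nat_lit 0) (nat_lit 0) (XT.nd (nat_lit 156) (nat_lit 76) (nat_lit 0) (XT.nd (nat_lit 78) (nat_lit 0) (nat_lit 0) (XT.lf (nat_lit 0) (nat_lit 681860808) (nat_lit 152) (nat_lit 42222862597) (nat_lit 76) (nat_lit 161186178160) (nat_lit 5) (nat_lit 5) (nat_lit 7) (nat_lit 5) (nat_lit 6) (nat_lit 4) (nat_lit 326) (nat_lit 273) (nat_lit 181)) (XT.lf (nat_lit 0) (nat_lit 16144583869) (nat_lit 152) (nat_lit 10063120969) (nat_lit 76) (nat_lit 192705973978) (nat_lit 5) (nat_lit 5) (nat_lit 7) (nat_lit 5) (nat_lit 6) (nat_lit 4) (nat_lit 327) (nat_lit 273) (nat_lit 180))) (XT.nd (nat_lit 78) (nat_lit 0) (nat_lit 0) (XT.lf (nat_lit 0) (nat_lit 25963974232)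 (nat_lit 76) (nat_lit 7502540351) (nat_lit 152) (nat_lit 201405990039) (nat_lit 4) (nat_lit 5) (nat_lit 5) (nat_lit 5) (nat_lit 6) (nat_lit 4) (nat_lit 328) (nat_lit 273) (nat_lit 179)) (XT.lf (nat_lit 0) (nat_lit 52759677087) (nat_lit 152) (nat_lit 186957317864) (nat_lit 0) (nat_lit 12344204800) (nat_lit 4) (nat_lit 5) (nat_lit 6) (nat_lit 4) (nat_lit 4) (nat_lit 4) (nat_lit 329) (nat_lit 273) (nat_lit 178)))) (XT.nd (nat_lit 156) (nat_lit 0) (nat_lit 0) (XT.nd (nat_lit 78) (nat_lit 0) (nat_lit 0) (XT.lf (nat_lit 0) (nat_lit 73789103613) (nat_lit 152) (nat_lit 163448833005) (nat_lit 0) (nat_lit 33371630325) (nat_lit 4) (nat_lit 5) (nat_lit 6) (nat_lit 4) (nat_lit 4) (nat_lit 4) (nat_lit 330) (nat_lit 273) (nat_lit 177)) (XT.lf (nat_lit 0) (nat_lit 96498976710) (nat_lit 152) (nat_lit 138063330000) (nat_lit 0) (nat_lit 56079650644) (nat_lit 4) (nat_lit 5) (nat_lit 6) (nat_lit 4) (nat_lit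 4) (nat_lit 4) (nat_lit 331) (nat_lit 273) (nat_lit 176))) (XT.nd (nat_lit 78) (nat_lit 0) (nat_lit 0) (XT.lf (nat_lit 0) (nat_lit 121023873404) (nat_lit 152) (nat_lit 110650376238) (nat_lit 0) (nat_lit 80602831801) (nat_lit 4) (nat_lit 5) (nat_lit 6) (nat_lit 4) (nat_lit 4) (nat_lit 4) (nat_lit 332) (nat_lit 273) (nat_lit 175)) (XT.lf (nat_lit 0) (nat_lit 147509126416) (nat_lit 152) (nat_lit 81047524585) (nat_lit 0) (nat_lit 107086496354) (nat_lit 4) (nat_lit 5) (nat_lit 6) (nat_lit 4) (nat_lit 4) (nat_lit 4) (nat_lit 333) (nat_lit 273) (nat_lit 174)))))) (XT.nd (nat_lit 546) (nat_lit 0) (nat_lit 0) (XT.nd (nat_lit 234) (nat_lit 0) (nat_lit 0) (XT.nd (nat_lit 78) (nat_lit 76) (nat_lit 0) (XT.lf (nat_lit 0) (nat_lit 176111685392) (nat_lit 152) (nat_lit 49079350735) (nat_lit 0) (nat_lit 135687584535) (nat_lit 4) (nat_lit 5) (nat_lit 6) (nat_lit 4) (nat_lit 4) (nat_lit 4) (nat_lit 334)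 (nat_lit 273) (nat_lit 173)) (XT.nd (nat_lit 78) (nat_lit 76) (nat_lit 0) (XT.lf (nat_lit 0) (nat_lit 207001046980) (nat_lit 152) (nat_lit 14556413659) (nat_lit 0) (nat_lit 166575584275) (nat_lit 4) (nat_lit 5) (nat_lit 6) (nat_lit 4) (nat_lit 4) (nat_lit 4) (nat_lit 335) (nat_lit 273) (nat_lit 172)) (XT.lf (nat_lit 0) (nat_lit 23922570895) (nat_lit 76) (nat_lit 217013026757) (nat_lit 76) (nat_lit 176586303082) (nat_lit 3) (nat_lit 4) (nat_lit 4) (nat_lit 5) (nat_lit 4) (nat_lit 4) (nat_lit 336) (nat_lit 273) (nat_lit 171)))) (XT.nd (nat_lit 156) (nat_lit 0) (nat_lit 0) (XT.nd (nat_lit 78) (nat_lit 0) (nat_lit 0) (XT.lf (nat_lit 0) (nat_lit 66305282058) (nat_lit 76) (nat_lit 211676367985) (nat_lit 76) (nat_lit 171248476745) (nat_lit 3) (nat_lit 4) (nat_lit 4) (nat_lit 5) (nat_lit 4) (nat_lit 4) (nat_lit 337) (nat_lit 273) (nat_lit 170)) (XT.lf (nat_lit 0) (nat_lit 112076361689) (nat_lit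 76) (nat_lit 205913857823) (nat_lit 76) (nat_lit 165484885505) (nat_lit 3) (nat_lit 4) (nat_lit 4) (nat_lit 5) (nat_lit 4) (nat_lit 4) (nat_lit 338) (nat_lit 273) (nat_lit 169))) (XT.nd (nat_lit 78) (nat_lit 0) (nat_lit 0) (XT.lf (nat_lit 0) (nat_lit 161507045816) (nat_lit 76) (nat_lit 199691348063) (nat_lit 76) (nat_lit 159261374746) (nat_lit 3) (nat_lit 4) (nat_lit 4) (nat_lit 5) (nat_lit 4) (nat_lit 4) (nat_lit 339) (nat_lit 273) (nat_lit 168)) (XT.lf (nat_lit 0) (nat_lit 214890257012) (nat_lit 76) (nat_lit 192971964573) (nat_lit 76) (nat_lit 152541064405) (nat_lit 3) (nat_lit 4) (nat_lit 4) (nat_lit 5) (nat_lit 4) (nat_lit 4) (nat_lit 340) (nat_lit 273) (nat_lit 167))))) (XT.nd (nat_lit 312) (nat_lit 0) (nat_lit 0) (XT.nd (nat_lit 156) (nat_lit 0) (nat_lit 0) (XT.nd (nat_lit 78) (nat_lit 0) (nat_lit 0) (XT.lf (nat_lit 0) (nat_lit 272542340231) (nat_lit 76) (nat_lit 185715888785)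 (nat_lit 76) (nat_lit 145284130422) (nat_lit 3) (nat_lit 4) (nat_lit 4) (nat_lit 5) (nat_lit 4) (nat_lit 4) (nat_lit 341) (nat_lit 273) (nat_lit 166)) (XT.lf (nat_lit 0) (nat_lit 334804937449) (nat_lit 76) (nat_lit 177880121730) (nat_lit 76) (nat_lit 137447568742) (nat_lit 3) (nat_lit 4) (nat_lit 4) (nat_lit 5) (nat_lit 4) (nat_lit 4) (nat_lit 342) (nat_lit 273) (nat_lit 165))) (XT.nd (nat_lit 78) (nat_lit 0) (nat_lit 0) (XT.lf (nat_lit 0) (nat_lit 402047012204) (nat_lit 76) (nat_lit 169418229233) (nat_lit 76) (nat_lit 128984940482) (nat_lit 3) (nat_lit 4) (nat_lit 4) (nat_lit 5) (nat_lit 4) (nat_lit 4) (nat_lit 343) (nat_lit 273) (nat_lit 164)) (XT.lf (nat_lit 0) (nat_lit 474667036050) (nat_lit 76) (nat_lit 160280066747) (nat_lit 76) (nat_lit 119846096733) (nat_lit 3) (nat_lit 4) (nat_lit 4) (nat_lit 5) (nat_lit 4) (nat_lit 4) (nat_lit 344) (nat_lit 273) (nat_lit 163)))) (XT.nd (nat_lit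 156) (nat_lit 0) (nat_lit 0) (XT.nd (nat_lit 78) (nat_lit 0) (nat_lit 0) (XT.lf (nat_lit 0) (nat_lit 553095349870) (nat_lit 76) (nat_lit 150411482198) (nat_lit 76) (nat_lit 109976881384) (nat_lit 3) (nat_lit 4) (nat_lit 4) (nat_lit 5) (nat_lit 4) (nat_lit 4) (nat_lit 345) (nat_lit 273) (nat_lit 162)) (XT.lf (nat_lit 0) (nat_lit 637796714041) (nat_lit 76) (nat_lit 139753995083) (nat_lit 76) (nat_lit 99318810197) (nat_lit 3) (nat_lit 4) (nat_lit 4) (nat_lit 5) (nat_lit 4) (nat_lit 4) (nat_lit 346) (nat_lit 273) (nat_lit 161))) (XT.nd (nat_lit 78) (nat_lit 0) (nat_lit 0) (XT.lf (nat_lit 0) (nat_lit 729273062575) (nat_lit 76) (nat_lit 128244449925) (nat_lit 76) (nat_lit 87808724230) (nat_lit 3) (nat_lit 4) (nat_lit 4) (nat_lit 5) (nat_lit 4) (nat_lit 4) (nat_lit 347) (nat_lit 273) (nat_lit 160)) (XT.lf (nat_lit 0) (nat_lit 828066477535) (nat_lit 76) (nat_lit 115814642011) (nat_lit 76) (nat_lit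 75378415567) (nat_lit 3) (nat_lit 4) (nat_lit 4) (nat_lit 5) (nat_lit 4) (nat_lit 4) (nat_lit 348) (nat_lit 273) (nat_lit 159))))))) (XT.nd (nat_lit 1170) (nat_lit 0) (nat_lit 0) (XT.nd (nat_lit 546) (nat_lit 0) (nat_lit 0) (XT.nd (nat_lit 234) (nat_lit 152) (nat_lit 0) (XT.nd (nat_lit 78) (nat_lit 0) (nat_lit 0) (XT.lf (nat_lit 0) (nat_lit 934762401381) (nat_lit 76) (nat_lit 102390913220) (nat_lit 76) (nat_lit 61954223120) (nat_lit 3) (nat_lit 4) (nat_lit 4) (nat_lit 5) (nat_lit 4) (nat_lit 4) (nat_lit 349) (nat_lit 273) (nat_lit 158)) (XT.nd (nat_lit 78) (nat_lit 0) (nat_lit 0) (XT.lf (nat_lit 0) (nat_lit 1049993106254) (nat_lit 76) (nat_lit 87893715530) (nat_lit 76) (nat_lit 47456596119) (nat_lit 3) (nat_lit 4) (nat_lit 4) (nat_lit 5) (nat_lit 4) (nat_lit 4) (nat_lit 350) (nat_lit 273) (nat_lit 157)) (XT.lf (nat_lit 0) (nat_lit 1174441440776) (nat_lit 76) (nat_lit 72237139621) (nat_lit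 76) (nat_lit 31799622699) (nat_lit 3) (nat_lit 4) (nat_lit 4) (nat_lit 5) (nat_lit 4) (nat_lit 4) (nat_lit 351) (nat_lit 273) (nat_lit 156)))) (XT.nd (nat_lit 156) (nat_lit 76) (nat_lit 0) (XT.nd (nat_lit 78) (nat_lit 76) (nat_lit 0) (XT.lf (nat_lit 0) (nat_lit 1308844876559) (nat_lit 76) (nat_lit 55328405783) (nat_lit 76) (nat_lit 14890520797) (nat_lit 3) (nat_lit 4) (nat_lit 4) (nat_lit 5) (nat_lit 4) (nat_lit 4) (nat_lit 352) (nat_lit 273) (nat_lit 155)) (XT.lf (nat_lit 0) (nat_lit 3202285018) (nat_lit 152) (nat_lit 33777472948) (nat_lit 76) (nat_lit 1450710037241) (nat_lit 2) (nat_lit 5) (nat_lit 4) (nat_lit 5) (nat_lit 3) (nat_lit 4) (nat_lit 353) (nat_lit 273) (nat_lit 154))) (XT.nd (nat_lit 78) (nat_lit 0) (nat_lit 0) (XT.lf (nat_lit 0) (nat_lit 5465249196) (nat_lit 76) (nat_lit 16603880870) (nat_lit 152) (nat_lit 1582895308254) (nat_lit 1) (nat_lit 5) (nat_lit 2) (nat_lit 5)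 (nat_lit 3) (nat_lit 4) (nat_lit 354) (nat_lit 273) (nat_lit 153)) (XT.lf (nat_lit 0) (nat_lit 43522419177) (nat_lit 152) (nat_lit 1681933411369) (nat_lit 0) (nat_lit 6079054801) (nat_lit 1) (nat_lit 5) (nat_lit 3) (nat_lit 4) (nat_lit 1) (nat_lit 4) (nat_lit 355) (nat_lit 273) (nat_lit 152))))) (XT.nd (nat_lit 312) (nat_lit 0) (nat_lit 0) (XT.nd (nat_lit 156) (nat_lit 0) (nat_lit 0) (XT.nd (nat_lit 78) (nat_lit 0) (nat_lit 0) (XT.lf (nat_lit 0) (nat_lit 67122919488) (nat_lit 152) (nat_lit 1771394268356) (nat_lit 0) (nat_lit 29679304614) (nat_lit 1) (nat_lit 5) (nat_lit 3) (nat_lit 4) (nat_lit 1) (nat_lit 4) (nat_lit 356) (nat_lit 273) (nat_lit 151)) (XT.lf (nat_lit 0) (nat_lit 92611162083) (nat_lit 152) (nat_lit 1868012574765) (nat_lit 0) (nat_lit 55167315265) (nat_lit 1) (nat_lit 5) (nat_lit 3) (nat_lit 4) (nat_lit 1) (nat_lit 4) (nat_lit 357) (nat_lit 273) (nat_lit 150))) (XT.nd (nat_lit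 78) (nat_lit 0) (nat_lit 0) (XT.lf (nat_lit 0) (nat_lit 120138188398) (nat_lit 152) (nat_lit 1972360883521) (nat_lit 0) (nat_lit 82694126818) (nat_lit 1) (nat_lit 5) (nat_lit 3) (nat_lit 4) (nat_lit 1) (nat_lit 4) (nat_lit 358) (nat_lit 273) (nat_lit 149)) (XT.lf (nat_lit 0) (nat_lit 149867121554) (nat_lit 152) (nat_lit 2085057554972) (nat_lit 0) (nat_lit 112422861119) (nat_lit 1) (nat_lit 5) (nat_lit 3) (nat_lit 4) (nat_lit 1) (nat_lit 4) (nat_lit 359) (nat_lit 273) (nat_lit 148)))) (XT.nd (nat_lit 156) (nat_lit 0) (nat_lit 0) (XT.nd (nat_lit 78) (nat_lit 0) (nat_lit 0) (XT.lf (nat_lit 0) (nat_lit 181974133005) (nat_lit 152) (nat_lit 2206770421247) (nat_lit 0) (nat_lit 144529688446) (nat_lit 1) (nat_lit 5) (nat_lit 3) (nat_lit 4) (nat_lit 1) (nat_lit 4) (nat_lit 360) (nat_lit 273) (nat_lit 147)) (XT.lf (nat_lit 0) (nat_lit 216649486523) (nat_lit 152) (nat_lit 2338220743775) (nat_lit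 0) (nat_lit 179204871479) (nat_lit 1) (nat_lit 5) (nat_lit 3) (nat_lit 4) (nat_lit 1) (nat_lit 4) (nat_lit 361) (nat_lit 273) (nat_lit 146))) (XT.nd (nat_lit 78) (nat_lit 0) (nat_lit 0) (XT.lf (nat_lit 0) (nat_lit 254098665685) (nat_lit 152) (nat_lit 2480187487429) (nat_lit 0) (nat_lit 216653892784) (nat_lit 1) (nat_lit 5) (nat_lit 3) (nat_lit 4) (nat_lit 1) (nat_lit 4) (nat_lit 362) (nat_lit 273) (nat_lit 145)) (XT.lf (nat_lit 0) (nat_lit 294543591552) (nat_lit 152) (nat_lit 2633511936618) (nat_lit 0) (nat_lit 257098672487) (nat_lit 1) (nat_lit 5) (nat_lit 3) (nat_lit 4) (nat_lit 1) (nat_lit 4) (nat_lit 363) (nat_lit 273) (nat_lit 144)))))) (XT.nd (nat_lit 33930) (nat_lit 0) (nat_lit 2736) (XT.nd (nat_lit 33618) (nat_lit 0) (nat_lit 3268) (XT.nd (nat_lit 156) (nat_lit 0) (nat_lit 0) (XT.nd (nat_lit 78) (nat_lit 0) (nat_lit 0) (XT.lf (nat_lit 0) (nat_lit 338223937759) (nat_lit 152) (nat_lit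 2799102680669) (nat_lit 0) (nat_lit 300778883357) (nat_lit 1) (nat_lit 5) (nat_lit 3) (nat_lit 4) (nat_lit 1) (nat_lit 4) (nat_lit 364) (nat_lit 273) (nat_lit 143)) (XT.lf (nat_lit 0) (nat_lit 385398550803) (nat_lit 152) (nat_lit 2977940998065) (nat_lit 0) (nat_lit 347953371089) (nat_lit 1) (nat_lit 5) (nat_lit 3) (nat_lit 4) (nat_lit 1) (nat_lit 4) (nat_lit 365) (nat_lit 273) (nat_lit 142))) (XT.nd (nat_lit 78) (nat_lit 0) (nat_lit 0) (XT.lf (nat_lit 0) (nat_lit 436346983944) (nat_lit 152) (nat_lit 3171086671429) (nat_lit 0) (nat_lit 398901688201) (nat_lit 1) (nat_lit 5) (nat_lit 3) (nat_lit 4) (nat_lit 1) (nat_lit 4) (nat_lit 366) (nat_lit 273) (nat_lit 141)) (XT.lf (nat_lit 0) (nat_lit 491371153826) (nat_lit 152) (nat_lit 3379684267713) (nat_lit 0) (nat_lit 453925750648) (nat_lit 1) (nat_lit 5) (nat_lit 3) (nat_lit 4) (nat_lit 1) (nat_lit 4) (nat_lit 367) (nat_lit 273) (nat_lit 140))))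 (XT.nd (nat_lit 156) (nat_lit 0) (nat_lit 76) (XT.nd (nat_lit 78) (nat_lit 0) (nat_lit 0) (XT.lf (nat_lit 0) (nat_lit 1775038769) (nat_lit 532) (nat_lit 2188941577) (nat_lit 532) (nat_lit 2188941577) (nat_lit 44) (nat_lit 3) (nat_lit 51) (nat_lit 3) (nat_lit 51) (nat_lit 5) (nat_lit 274) (nat_lit 274) (nat_lit 232)) (XT.lf (nat_lit 76) (nat_lit 1277240297) (nat_lit 0) (nat_lit 2859491673) (nat_lit 532) (nat_lit 8624420733) (nat_lit 45) (nat_lit 5) (nat_lit 44) (nat_lit 3) (nat_lit 51) (nat_lit 5) (nat_lit 275) (nat_lit 274) (nat_lit 231))) (XT.nd (nat_lit 78) (nat_lit 0) (nat_lit 0) (XT.lf (nat_lit 0) (nat_lit 4914465242) (nat_lit 456) (nat_lit 5703097016) (nat_lit 532) (nat_lit 2623927636) (nat_lit 45) (nat_lit 5) (nat_lit 51) (nat_lit 5) (nat_lit 52) (nat_lit 5) (nat_lit 276) (nat_lit 274) (nat_lit 230)) (XT.lf (nat_lit 76) (nat_lit 463594931) (nat_lit 0) (nat_lit 5337781845) (nat_lit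 532) (nat_lit 7955245833) (nat_lit 46) (nat_lit 5) (nat_lit 45) (nat_lit 5) (nat_lit 52) (nat_lit 5) (nat_lit 277) (nat_lit 274) (nat_lit 229))))) (XT.nd (nat_lit 312) (nat_lit 684) (nat_lit 0) (XT.nd (nat_lit 156) (nat_lit 0) (nat_lit 0) (XT.nd (nat_lit 78) (nat_lit 0) (nat_lit 0) (XT.lf (nat_lit 0) (nat_lit 6892049325) (nat_lit 456) (nat_lit 6893489690) (nat_lit 532) (nat_lit 516918316) (nat_lit 46) (nat_lit 5) (nat_lit 52) (nat_lit 5) (nat_lit 53) (nat_lit 5) (nat_lit 278) (nat_lit 274) (nat_lit 228)) (XT.lf (nat_lit 0) (nat_lit 8175343192) (nat_lit 456) (nat_lit 146694579) (nat_lit 532) (nat_lit 6561599098) (nat_lit 46) (nat_lit 5) (nat_lit 52) (nat_lit 5) (nat_lit 53) (nat_lit 5) (nat_lit 279) (nat_lit 274) (nat_lit 227))) (XT.nd (nat_lit 78) (nat_lit 0) (nat_lit 76) (XT.lf (nat_lit 76) (nat_lit 7490413250) (nat_lit 0) (nat_lit 2220220669) (nat_lit 532) (nat_lit 5788829666) (nat_lit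 47) (nat_lit 5) (nat_lit 46) (nat_lit 5) (nat_lit 53) (nat_lit 5) (nat_lit 280) (nat_lit 274) (nat_lit 226)) (XT.lf (nat_lit 0) (nat_lit 11448994794) (nat_lit 456) (nat_lit 548674286) (nat_lit 76) (nat_lit 4160559719) (nat_lit 47) (nat_lit 5) (nat_lit 53) (nat_lit 5) (nat_lit 48) (nat_lit 5) (nat_lit 281) (nat_lit 274) (nat_lit 225)))) (XT.nd (nat_lit 156) (nat_lit 304) (nat_lit 0) (XT.nd (nat_lit 78) (nat_lit 0) (nat_lit 0) (XT.lf (nat_lit 0) (nat_lit 7817798671) (nat_lit 456) (nat_lit 5727496836) (nat_lit 532) (nat_lit 3306975337) (nat_lit 41) (nat_lit 5) (nat_lit 47) (nat_lit 5) (nat_lit 48) (nat_lit 5) (nat_lit 282) (nat_lit 274) (nat_lit 224)) (XT.lf (nat_lit 0) (nat_lit 15824456682) (nat_lit 532) (nat_lit 767035110) (nat_lit 76) (nat_lit 1009210919) (nat_lit 41) (nat_lit 5) (nat_lit 48) (nat_lit 5) (nat_lit 42) (nat_lit 5) (nat_lit 283) (nat_lit 274) (nat_lit 223))) (XT.nd (nat_lit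 78) (nat_lit 0) (nat_lit 0) (XT.lf (nat_lit 0) (nat_lit 219089092) (nat_lit 304) (nat_lit 9978478699) (nat_lit 76) (nat_lit 8184866480) (nat_lit 37) (nat_lit 5) (nat_lit 41) (nat_lit 5) (nat_lit 38) (nat_lit 5) (nat_lit 284) (nat_lit 274) (nat_lit 222)) (XT.lf (nat_lit 0) (nat_lit 2276669911) (nat_lit 304) (nat_lit 943912807) (nat_lit 76) (nat_lit 16002606843) (nat_lit 37) (nat_lit 5) (nat_lit 41) (nat_lit 5) (nat_lit 38) (nat_lit 5) (nat_lit 285) (nat_lit 274) (nat_lit 221))))))))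
noncomputable def xc73 : XT := (XT.nd (nat_lit 2340) (nat_lit 532) (nat_lit 0) (XT.nd (nat_lit 1170) (nat_lit 608) (nat_lit 0) (XT.nd (nat_lit 546) (nat_lit 608) (nat_lit 0) (XT.nd (nat_lit 234) (nat_lit 380) (nat_lit 0) (XT.nd (nat_lit 78) (nat_lit 228) (nat_lit 0) (XT.lf (nat_lit 0) (nat_lit 4809684888) (nat_lit 304) (nat_lit 10970986417) (nat_lit 76) (nat_lit 4325725800) (nat_lit 34) (nat_lit 5) (nat_lit 38) (nat_lit 5) (nat_lit 35) (nat_lit 5) (nat_lit 286) (nat_lit 274) (nat_lit 220)) (XT.nd (nat_lit 78) (nat_lit 228) (nat_lit 0) (XT.lf (nat_lit 0) (nat_lit 7635232670) (nat_lit 304) (nat_lit 1091449538) (nat_lit 76) (nat_lit 12326441464) (nat_lit 34) (nat_lit 5) (nat_lit 38) (nat_lit 5) (nat_lit 35) (nat_lit 5) (nat_lit 287) (nat_lit 274) (nat_lit 219)) (XT.lf (nat_lit 0) (nat_lit 10059741990) (nat_lit 228) (nat_lit 850279982) (nat_lit 304) (nat_lit 11147760341) (nat_lit 31) (nat_lit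 5) (nat_lit 34) (nat_lit 5) (nat_lit 35) (nat_lit 5) (nat_lit 288) (nat_lit 274) (nat_lit 218)))) (XT.nd (nat_lit 156) (nat_lit 228) (nat_lit 0) (XT.nd (nat_lit 78) (nat_lit 152) (nat_lit 0) (XT.lf (nat_lit 0) (nat_lit 14643594280) (nat_lit 304) (nat_lit 1183006181) (nat_lit 76) (nat_lit 7300515276) (nat_lit 31) (nat_lit 5) (nat_lit 35) (nat_lit 5) (nat_lit 32) (nat_lit 5) (nat_lit 289) (nat_lit 274) (nat_lit 217)) (XT.lf (nat_lit 0) (nat_lit 11004551914) (nat_lit 152) (nat_lit 7941424976) (nat_lit 228) (nat_lit 5314451649) (nat_lit 29) (nat_lit 5) (nat_lit 31) (nat_lit 5) (nat_lit 32) (nat_lit 5) (nat_lit 290) (nat_lit 274) (nat_lit 216))) (XT.nd (nat_lit 78) (nat_lit 228) (nat_lit 0) (XT.lf (nat_lit 0) (nat_lit 23623558203) (nat_lit 228) (nat_lit 1283833827) (nat_lit 76) (nat_lit 574573193) (nat_lit 29) (nat_lit 5) (nat_lit 32) (nat_lit 5) (nat_lit 30) (nat_lit 5) (nat_lit 291) (nat_lit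 274) (nat_lit 215)) (XT.lf (nat_lit 0) (nat_lit 2273380127) (nat_lit 228) (nat_lit 14799473608) (nat_lit 76) (nat_lit 9685358358) (nat_lit 26) (nat_lit 5) (nat_lit 29) (nat_lit 5) (nat_lit 27) (nat_lit 5) (nat_lit 292) (nat_lit 274) (nat_lit 214))))) (XT.nd (nat_lit 312) (nat_lit 304) (nat_lit 0) (XT.nd (nat_lit 156) (nat_lit 152) (nat_lit 0) (XT.nd (nat_lit 78) (nat_lit 152) (nat_lit 0) (XT.lf (nat_lit 0) (nat_lit 6656735478) (nat_lit 228) (nat_lit 1869631685) (nat_lit 76) (nat_lit 19604647087) (nat_lit 26) (nat_lit 5) (nat_lit 29) (nat_lit 5) (nat_lit 27) (nat_lit 5) (nat_lit 293) (nat_lit 274) (nat_lit 213)) (XT.lf (nat_lit 0) (nat_lit 11707704507) (nat_lit 228) (nat_lit 16903464480) (nat_lit 76) (nat_lit 977145010) (nat_lit 24) (nat_lit 5) (nat_lit 27) (nat_lit 5) (nat_lit 25) (nat_lit 5) (nat_lit 294) (nat_lit 274) (nat_lit 212))) (XT.nd (nat_lit 78) (nat_lit 152) (nat_lit 0) (XT.lf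 (nat_lit 0) (nat_lit 17423580961) (nat_lit 228) (nat_lit 2890250422) (nat_lit 76) (nat_lit 10827526836) (nat_lit 24) (nat_lit 5) (nat_lit 27) (nat_lit 5) (nat_lit 25) (nat_lit 5) (nat_lit 295) (nat_lit 274) (nat_lit 211)) (XT.lf (nat_lit 0) (nat_lit 12869892303) (nat_lit 152) (nat_lit 11024244420) (nat_lit 228) (nat_lit 8900741417) (nat_lit 22) (nat_lit 5) (nat_lit 24) (nat_lit 5) (nat_lit 25) (nat_lit 5) (nat_lit 296) (nat_lit 274) (nat_lit 210)))) (XT.nd (nat_lit 156) (nat_lit 152) (nat_lit 0) (XT.nd (nat_lit 78) (nat_lit 152) (nat_lit 0) (XT.lf (nat_lit 0) (nat_lit 30037738946) (nat_lit 152) (nat_lit 911987365) (nat_lit 228) (nat_lit 3625585243) (nat_lit 22) (nat_lit 5) (nat_lit 24) (nat_lit 5) (nat_lit 25) (nat_lit 5) (nat_lit 297) (nat_lit 274) (nat_lit 209)) (XT.lf (nat_lit 0) (nat_lit 2510818165) (nat_lit 152) (nat_lit 24073673415) (nat_lit 76) (nat_lit 9866292996) (nat_lit 20)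 (nat_lit 5) (nat_lit 22) (nat_lit 5) (nat_lit 21) (nat_lit 5) (nat_lit 298) (nat_lit 274) (nat_lit 208))) (XT.nd (nat_lit 78) (nat_lit 152) (nat_lit 0) (XT.lf (nat_lit 0) (nat_lit 9082449674) (nat_lit 152) (nat_lit 7701520678) (nat_lit 76) (nat_lit 21673594374) (nat_lit 20) (nat_lit 5) (nat_lit 22) (nat_lit 5) (nat_lit 21) (nat_lit 5) (nat_lit 299) (nat_lit 274) (nat_lit 207)) (XT.lf (nat_lit 0) (nat_lit 10489293081) (nat_lit 152) (nat_lit 5932801065) (nat_lit 228) (nat_lit 24183427490) (nat_lit 18) (nat_lit 5) (nat_lit 20) (nat_lit 5) (nat_lit 21) (nat_lit 5) (nat_lit 300) (nat_lit 274) (nat_lit 206)))))) (XT.nd (nat_lit 546) (nat_lit 228) (nat_lit 0) (XT.nd (nat_lit 234) (nat_lit 304) (nat_lit 0) (XT.nd (nat_lit 78) (nat_lit 76) (nat_lit 0) (XT.lf (nat_lit 0) (nat_lit 24694360947) (nat_lit 228) (nat_lit 12495811654) (nat_lit 76) (nat_lit 5707522126) (nat_lit 18) (nat_lit 5) (nat_lit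 21) (nat_lit 5) (nat_lit 19) (nat_lit 4) (nat_lit 301) (nat_lit 274) (nat_lit 205)) (XT.nd (nat_lit 78) (nat_lit 0) (nat_lit 0) (XT.lf (nat_lit 0) (nat_lit 6700440953) (nat_lit 76) (nat_lit 27234178899) (nat_lit 152) (nat_lit 11414139477) (nat_lit 17) (nat_lit 5) (nat_lit 18) (nat_lit 5) (nat_lit 19) (nat_lit 4) (nat_lit 302) (nat_lit 274) (nat_lit 204)) (XT.lf (nat_lit 0) (nat_lit 28128536301) (nat_lit 76) (nat_lit 16118507380) (nat_lit 152) (nat_lit 3722243331) (nat_lit 17) (nat_lit 5) (nat_lit 18) (nat_lit 5) (nat_lit 19) (nat_lit 4) (nat_lit 303) (nat_lit 274) (nat_lit 203)))) (XT.nd (nat_lit 156) (nat_lit 76) (nat_lit 0) (XT.nd (nat_lit 78) (nat_lit 0) (nat_lit 0) (XT.lf (nat_lit 0) (nat_lit 365560815) (nat_lit 152) (nat_lit 3990585568) (nat_lit 228) (nat_lit 46434460311) (nat_lit 14) (nat_lit 5) (nat_lit 16) (nat_lit 5) (nat_lit 17) (nat_lit 5) (nat_lit 304) (nat_lit 274) (nat_lit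 202)) (XT.lf (nat_lit 0) (nat_lit 13647184837) (nat_lit 228) (nat_lit 30821349815) (nat_lit 76) (nat_lit 9299975415) (nat_lit 14) (nat_lit 5) (nat_lit 17) (nat_lit 5) (nat_lit 15) (nat_lit 4) (nat_lit 305) (nat_lit 274) (nat_lit 201))) (XT.nd (nat_lit 78) (nat_lit 76) (nat_lit 0) (XT.lf (nat_lit 0) (nat_lit 23777626825) (nat_lit 228) (nat_lit 9766014600) (nat_lit 76) (nat_lit 23433324534) (nat_lit 14) (nat_lit 5) (nat_lit 17) (nat_lit 5) (nat_lit 15) (nat_lit 4) (nat_lit 306) (nat_lit 274) (nat_lit 200)) (XT.lf (nat_lit 0) (nat_lit 13644246256) (nat_lit 76) (nat_lit 21395429110) (nat_lit 152) (nat_lit 25376738413) (nat_lit 13) (nat_lit 5) (nat_lit 14) (nat_lit 5) (nat_lit 15) (nat_lit 4) (nat_lit 307) (nat_lit 274) (nat_lit 199))))) (XT.nd (nat_lit 312) (nat_lit 76) (nat_lit 0) (XT.nd (nat_lit 156) (nat_lit 152) (nat_lit 0) (XT.nd (nat_lit 78) (nat_lit 0) (nat_lit 0) (XT.lf (nat_lit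 0) (nat_lit 39470993106) (nat_lit 76) (nat_lit 7991975844) (nat_lit 152) (nat_lit 16647234459) (nat_lit 13) (nat_lit 5) (nat_lit 14) (nat_lit 5) (nat_lit 15) (nat_lit 4) (nat_lit 308) (nat_lit 274) (nat_lit 198)) (XT.lf (nat_lit 0) (nat_lit 61029709357) (nat_lit 152) (nat_lit 902814067) (nat_lit 0) (nat_lit 6155013967) (nat_lit 13) (nat_lit 5) (nat_lit 15) (nat_lit 4) (nat_lit 13) (nat_lit 4) (nat_lit 309) (nat_lit 274) (nat_lit 197))) (XT.nd (nat_lit 78) (nat_lit 0) (nat_lit 0) (XT.lf (nat_lit 0) (nat_lit 3977390079) (nat_lit 152) (nat_lit 46612602546) (nat_lit 76) (nat_lit 21719231425) (nat_lit 11) (nat_lit 5) (nat_lit 13) (nat_lit 5) (nat_lit 12) (nat_lit 4) (nat_lit 310) (nat_lit 274) (nat_lit 196)) (XT.lf (nat_lit 0) (nat_lit 15533601626) (nat_lit 152) (nat_lit 22585755235) (nat_lit 76) (nat_lit 38733070833) (nat_lit 11) (nat_lit 5) (nat_lit 13) (nat_lit 5) (nat_lit 12) (nat_lit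 4) (nat_lit 311) (nat_lit 274) (nat_lit 195)))) (XT.nd (nat_lit 156) (nat_lit 0) (nat_lit 0) (XT.nd (nat_lit 78) (nat_lit 0) (nat_lit 0) (XT.lf (nat_lit 0) (nat_lit 3530128645) (nat_lit 76) (nat_lit 24563670317) (nat_lit 152) (nat_lit 53658935326) (nat_lit 10) (nat_lit 5) (nat_lit 11) (nat_lit 5) (nat_lit 12) (nat_lit 4) (nat_lit 312) (nat_lit 274) (nat_lit 194)) (XT.lf (nat_lit 0) (nat_lit 33010298240) (nat_lit 76) (nat_lit 9260810971) (nat_lit 152) (nat_lit 44724977772) (nat_lit 10) (nat_lit 5) (nat_lit 11) (nat_lit 5) (nat_lit 12) (nat_lit 4) (nat_lit 313) (nat_lit 274) (nat_lit 193))) (XT.nd (nat_lit 78) (nat_lit 0) (nat_lit 0) (XT.lf (nat_lit 0) (nat_lit 57752414967) (nat_lit 152) (nat_lit 27993835974) (nat_lit 0) (nat_lit 6899077042) (nat_lit 10) (nat_lit 5) (nat_lit 12) (nat_lit 4) (nat_lit 10) (nat_lit 4) (nat_lit 314) (nat_lit 274) (nat_lit 192)) (XT.lf (nat_lit 0) (nat_lit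 74708188458) (nat_lit 152) (nat_lit 171452104) (nat_lit 0) (nat_lit 23847995218) (nat_lit 10) (nat_lit 5) (nat_lit 12) (nat_lit 4) (nat_lit 10) (nat_lit 4) (nat_lit 315) (nat_lit 274) (nat_lit 191))))))) (XT.nd (nat_lit 1170) (nat_lit 76) (nat_lit 0) (XT.nd (nat_lit 546) (nat_lit 228) (nat_lit 0) (XT.nd (nat_lit 234) (nat_lit 76) (nat_lit 0) (XT.nd (nat_lit 78) (nat_lit 76) (nat_lit 0) (XT.lf (nat_lit 0) (nat_lit 31441805425) (nat_lit 76) (nat_lit 62330556366) (nat_lit 76) (nat_lit 11464015612) (nat_lit 9) (nat_lit 4) (nat_lit 10) (nat_lit 5) (nat_lit 10) (nat_lit 4) (nat_lit 316) (nat_lit 274) (nat_lit 190)) (XT.nd (nat_lit 78) (nat_lit 0) (nat_lit 0) (XT.lf (nat_lit 0) (nat_lit 1991600620) (nat_lit 152) (nat_lit 46729888790) (nat_lit 76) (nat_lit 63540252728) (nat_lit 8) (nat_lit 5) (nat_lit 10) (nat_lit 5) (nat_lit 9) (nat_lit 4) (nat_lit 317) (nat_lit 274) (nat_lit 189)) (XT.lf (nat_lit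 0) (nat_lit 15900407243) (nat_lit 152) (nat_lit 17805012984) (nat_lit 76) (nat_lit 86120210203) (nat_lit 8) (nat_lit 5) (nat_lit 10) (nat_lit 5) (nat_lit 9) (nat_lit 4) (nat_lit 318) (nat_lit 274) (nat_lit 188)))) (XT.nd (nat_lit 156) (nat_lit 0) (nat_lit 0) (XT.nd (nat_lit 78) (nat_lit 0) (nat_lit 0) (XT.lf (nat_lit 0) (nat_lit 14134223044) (nat_lit 76) (nat_lit 17124008665) (nat_lit 152) (nat_lit 96709496127) (nat_lit 7) (nat_lit 5) (nat_lit 8) (nat_lit 5) (nat_lit 9) (nat_lit 4) (nat_lit 319) (nat_lit 274) (nat_lit 187)) (XT.lf (nat_lit 0) (nat_lit 48359424372) (nat_lit 152) (nat_lit 87119283098) (nat_lit 0) (nat_lit 1241309072) (nat_lit 7) (nat_lit 5) (nat_lit 9) (nat_lit 4) (nat_lit 7) (nat_lit 4) (nat_lit 320) (nat_lit 274) (nat_lit 186))) (XT.nd (nat_lit 78) (nat_lit 0) (nat_lit 0) (XT.lf (nat_lit 0) (nat_lit 67270180546) (nat_lit 152) (nat_lit 58718927786) (nat_lit 0) (nat_lit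 20148065236) (nat_lit 7) (nat_lit 5) (nat_lit 9) (nat_lit 4) (nat_lit 7) (nat_lit 4) (nat_lit 321) (nat_lit 274) (nat_lit 185)) (XT.lf (nat_lit 0) (nat_lit 87690731152) (nat_lit 152) (nat_lit 28052307633) (nat_lit 0) (nat_lit 40564912129) (nat_lit 7) (nat_lit 5) (nat_lit 9) (nat_lit 4) (nat_lit 7) (nat_lit 4) (nat_lit 322) (nat_lit 274) (nat_lit 184))))) (XT.nd (nat_lit 312) (nat_lit 152) (nat_lit 0) (XT.nd (nat_lit 156) (nat_lit 0) (nat_lit 0) (XT.nd (nat_lit 78) (nat_lit 0) (nat_lit 0) (XT.lf (nat_lit 0) (nat_lit 5328877513) (nat_lit 76) (nat_lit 104541368980) (nat_lit 76) (nat_lit 57412120593) (nat_lit 6) (nat_lit 4) (nat_lit 7) (nat_lit 5) (nat_lit 7) (nat_lit 4) (nat_lit 323) (nat_lit 274) (nat_lit 183)) (XT.lf (nat_lit 0) (nat_lit 42970715516) (nat_lit 76) (nat_lit 91617653598) (nat_lit 76) (nat_lit 44485229874) (nat_lit 6) (nat_lit 4) (nat_lit 7) (nat_lit 5) (nat_lit 7) (nat_lit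 4) (nat_lit 324) (nat_lit 274) (nat_lit 182))) (XT.nd (nat_lit 78) (nat_lit 0) (nat_lit 0) (XT.lf (nat_lit 0) (nat_lit 83619084311) (nat_lit 76) (nat_lit 77662307463) (nat_lit 76) (nat_lit 30526943612) (nat_lit 6) (nat_lit 4) (nat_lit 7) (nat_lit 5) (nat_lit 7) (nat_lit 4) (nat_lit 325) (nat_lit 274) (nat_lit 181)) (XT.lf (nat_lit 0) (nat_lit 127514863121) (nat_lit 76) (nat_lit 62592632229) (nat_lit 76) (nat_lit 15454546038) (nat_lit 6) (nat_lit 4) (nat_lit 7) (nat_lit 5) (nat_lit 7) (nat_lit 4) (nat_lit 326) (nat_lit 274) (nat_lit 180)))) (XT.nd (nat_lit 156) (nat_lit 76) (nat_lit 0) (XT.nd (nat_lit 78) (nat_lit 0) (nat_lit 0) (XT.lf (nat_lit 0) (nat_lit 780196970) (nat_lit 152) (nat_lit 45517797177) (nat_lit 76) (nat_lit 174116646142) (nat_lit 5) (nat_lit 5) (nat_lit 7) (nat_lit 5) (nat_lit 6) (nat_lit 4) (nat_lit 327) (nat_lit 274) (nat_lit 179)) (XT.lf (nat_lit 0) (nat_lit 17476694372)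 (nat_lit 152) (nat_lit 10791416547) (nat_lit 76) (nat_lit 208155390535) (nat_lit 5) (nat_lit 5) (nat_lit 7) (nat_lit 5) (nat_lit 6) (nat_lit 4) (nat_lit 328) (nat_lit 274) (nat_lit 178))) (XT.nd (nat_lit 78) (nat_lit 0) (nat_lit 0) (XT.lf (nat_lit 0) (nat_lit 28115903128) (nat_lit 76) (nat_lit 8067272377) (nat_lit 152) (nat_lit 217475956229) (nat_lit 4) (nat_lit 5) (nat_lit 5) (nat_lit 5) (nat_lit 6) (nat_lit 4) (nat_lit 329) (nat_lit 274) (nat_lit 177)) (XT.lf (nat_lit 0) (nat_lit 57017666846) (nat_lit 152) (nat_lit 201842485578) (nat_lit 0) (nat_lit 13362941915) (nat_lit 4) (nat_lit 5) (nat_lit 6) (nat_lit 4) (nat_lit 4) (nat_lit 4) (nat_lit 330) (nat_lit 274) (nat_lit 176)))))) (XT.nd (nat_lit 624) (nat_lit 0) (nat_lit 0) (XT.nd (nat_lit 312) (nat_lit 76) (nat_lit 0) (XT.nd (nat_lit 156) (nat_lit 0) (nat_lit 0) (XT.nd (nat_lit 78) (nat_lit 0) (nat_lit 0) (XT.lf (nat_lit 0) (nat_lit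 79726690783) (nat_lit 152) (nat_lit 176458612132) (nat_lit 0) (nat_lit 36070250317) (nat_lit 4) (nat_lit 5) (nat_lit 6) (nat_lit 4) (nat_lit 4) (nat_lit 4) (nat_lit 331) (nat_lit 274) (nat_lit 175)) (XT.lf (nat_lit 0) (nat_lit 104250801219) (nat_lit 152) (nat_lit 149047167221) (nat_lit 0) (nat_lit 60592772293) (nat_lit 4) (nat_lit 5) (nat_lit 6) (nat_lit 4) (nat_lit 4) (nat_lit 4) (nat_lit 332) (nat_lit 274) (nat_lit 174))) (XT.nd (nat_lit 78) (nat_lit 0) (nat_lit 0) (XT.lf (nat_lit 0) (nat_lit 130735326213) (nat_lit 152) (nat_lit 119445712652) (nat_lit 0) (nat_lit 87075826492) (nat_lit 4) (nat_lit 5) (nat_lit 6) (nat_lit 4) (nat_lit 4) (nat_lit 4) (nat_lit 333) (nat_lit 274) (nat_lit 173)) (XT.lf (nat_lit 0) (nat_lit 159337211100) (nat_lit 152) (nat_lit 87478832399) (nat_lit 0) (nat_lit 115676349531) (nat_lit 4) (nat_lit 5) (nat_lit 6) (nat_lit 4) (nat_lit 4) (nat_lit 4) (nat_lit 334)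 (nat_lit 274) (nat_lit 172)))) (XT.nd (nat_lit 156) (nat_lit 76) (nat_lit 0) (XT.nd (nat_lit 78) (nat_lit 0) (nat_lit 0) (XT.lf (nat_lit 0) (nat_lit 190225948530) (nat_lit 152) (nat_lit 52957093097) (nat_lit 0) (nat_lit 146563825991) (nat_lit 4) (nat_lit 5) (nat_lit 6) (nat_lit 4) (nat_lit 4) (nat_lit 4) (nat_lit 335) (nat_lit 274) (nat_lit 171)) (XT.lf (nat_lit 0) (nat_lit 223584582874) (nat_lit 152) (nat_lit 15675921477) (nat_lit 0) (nat_lit 179921292770) (nat_lit 4) (nat_lit 5) (nat_lit 6) (nat_lit 4) (nat_lit 4) (nat_lit 4) (nat_lit 336) (nat_lit 274) (nat_lit 170))) (XT.nd (nat_lit 78) (nat_lit 0) (nat_lit 0) (XT.lf (nat_lit 0) (nat_lit 25880242467) (nat_lit 76) (nat_lit 234352972913) (nat_lit 76) (nat_lit 190688601731) (nat_lit 3) (nat_lit 4) (nat_lit 4) (nat_lit 5) (nat_lit 4) (nat_lit 4) (nat_lit 337) (nat_lit 274) (nat_lit 169)) (XT.lf (nat_lit 0) (nat_lit 71650321197) (nat_lit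 76) (nat_lit 228590944105) (nat_lit 76) (nat_lit 184925571924) (nat_lit 3) (nat_lit 4) (nat_lit 4) (nat_lit 5) (nat_lit 4) (nat_lit 4) (nat_lit 338) (nat_lit 274) (nat_lit 168))))) (XT.nd (nat_lit 312) (nat_lit 0) (nat_lit 0) (XT.nd (nat_lit 156) (nat_lit 0) (nat_lit 0) (XT.nd (nat_lit 78) (nat_lit 0) (nat_lit 0) (XT.lf (nat_lit 0) (nat_lit 121080078564) (nat_lit 76) (nat_lit 222368880042) (nat_lit 76) (nat_lit 178702581011) (nat_lit 3) (nat_lit 4) (nat_lit 4) (nat_lit 5) (nat_lit 4) (nat_lit 4) (nat_lit 339) (nat_lit 274) (nat_lit 167)) (XT.lf (nat_lit 0) (nat_lit 174462431648) (nat_lit 76) (nat_lit 215649909235) (nat_lit 76) (nat_lit 171982752009) (nat_lit 3) (nat_lit 4) (nat_lit 4) (nat_lit 5) (nat_lit 4) (nat_lit 4) (nat_lit 340) (nat_lit 274) (nat_lit 166))) (XT.nd (nat_lit 78) (nat_lit 0) (nat_lit 0) (XT.lf (nat_lit 0) (nat_lit 232113720320) (nat_lit 76) (nat_lit 208394215561)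 (nat_lit 76) (nat_lit 164726263709) (nat_lit 3) (nat_lit 4) (nat_lit 4) (nat_lit 5) (nat_lit 4) (nat_lit 4) (nat_lit 341) (nat_lit 274) (nat_lit 165)) (XT.lf (nat_lit 0) (nat_lit 294375581845) (nat_lit 76) (nat_lit 200558802315) (nat_lit 76) (nat_lit 156890114699) (nat_lit 3) (nat_lit 4) (nat_lit 4) (nat_lit 5) (nat_lit 4) (nat_lit 4) (nat_lit 342) (nat_lit 274) (nat_lit 164)))) (XT.nd (nat_lit 156) (nat_lit 0) (nat_lit 0) (XT.nd (nat_lit 78) (nat_lit 0) (nat_lit 0) (XT.lf (nat_lit 0) (nat_lit 361616975403) (nat_lit 76) (nat_lit 192097237419) (nat_lit 76) (nat_lit 148427868541) (nat_lit 3) (nat_lit 4) (nat_lit 4) (nat_lit 5) (nat_lit 4) (nat_lit 4) (nat_lit 343) (nat_lit 274) (nat_lit 163)) (XT.lf (nat_lit 0) (nat_lit 434236368512) (nat_lit 76) (nat_lit 182959378268) (nat_lit 76) (nat_lit 139289378590) (nat_lit 3) (nat_lit 4) (nat_lit 4) (nat_lit 5) (nat_lit 4) (nat_lit 4) (nat_lit 344)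 (nat_lit 274) (nat_lit 162))) (XT.nd (nat_lit 78) (nat_lit 0) (nat_lit 0) (XT.lf (nat_lit 0) (nat_lit 512664098316) (nat_lit 76) (nat_lit 173091074583) (nat_lit 76) (nat_lit 129420490832) (nat_lit 3) (nat_lit 4) (nat_lit 4) (nat_lit 5) (nat_lit 4) (nat_lit 4) (nat_lit 345) (nat_lit 274) (nat_lit 161)) (XT.lf (nat_lit 0) (nat_lit 597364921731) (nat_lit 76) (nat_lit 162433847529) (nat_lit 76) (nat_lit 118762722970) (nat_lit 3) (nat_lit 4) (nat_lit 4) (nat_lit 5) (nat_lit 4) (nat_lit 4) (nat_lit 346) (nat_lit 274) (nat_lit 160))))))))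
noncomputable def xc74 : XT := (XT.nd (nat_lit 35802) (nat_lit 0) (nat_lit 684) (XT.nd (nat_lit 1170) (nat_lit 0) (nat_lit 0) (XT.nd (nat_lit 546) (nat_lit 152) (nat_lit 0) (XT.nd (nat_lit 234) (nat_lit 0) (nat_lit 0) (XT.nd (nat_lit 78) (nat_lit 0) (nat_lit 0) (XT.lf (nat_lit 0) (nat_lit 688840769564) (nat_lit 76) (nat_lit 150924543167) (nat_lit 76) (nat_lit 107252917860) (nat_lit 3) (nat_lit 4) (nat_lit 4) (nat_lit 5) (nat_lit 4) (nat_lit 4) (nat_lit 347) (nat_lit 274) (nat_lit 159)) (XT.nd (nat_lit 78) (nat_lit 0) (nat_lit 0) (XT.lf (nat_lit 0) (nat_lit 787633720914) (nat_lit 76) (nat_lit 138494958213) (nat_lit 76) (nat_lit 94822869249) (nat_lit 3) (nat_lit 4) (nat_lit 4) (nat_lit 5) (nat_lit 4) (nat_lit 4) (nat_lit 348) (nat_lit 274) (nat_lit 158)) (XT.lf (nat_lit 0) (nat_lit 894329215490) (nat_lit 76) (nat_lit 125071435866) (nat_lit 76) (nat_lit 81398917591) (nat_lit 3) (nat_lit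 4) (nat_lit 4) (nat_lit 5) (nat_lit 4) (nat_lit 4) (nat_lit 349) (nat_lit 274) (nat_lit 157)))) (XT.nd (nat_lit 156) (nat_lit 0) (nat_lit 0) (XT.nd (nat_lit 78) (nat_lit 0) (nat_lit 0) (XT.lf (nat_lit 0) (nat_lit 1009559522892) (nat_lit 76) (nat_lit 110574429328) (nat_lit 76) (nat_lit 66901513543) (nat_lit 3) (nat_lit 4) (nat_lit 4) (nat_lit 5) (nat_lit 4) (nat_lit 4) (nat_lit 350) (nat_lit 274) (nat_lit 156)) (XT.lf (nat_lit 0) (nat_lit 1134007489385) (nat_lit 76) (nat_lit 94918030411) (nat_lit 76) (nat_lit 51244746561) (nat_lit 3) (nat_lit 4) (nat_lit 4) (nat_lit 5) (nat_lit 4) (nat_lit 4) (nat_lit 351) (nat_lit 274) (nat_lit 155))) (XT.nd (nat_lit 78) (nat_lit 0) (nat_lit 0) (XT.lf (nat_lit 0) (nat_lit 1268410584400) (nat_lit 76) (nat_lit 78009460456) (nat_lit 76) (nat_lit 34335835805) (nat_lit 3) (nat_lit 4) (nat_lit 4) (nat_lit 5) (nat_lit 4) (nat_lit 4) (nat_lit 352) (nat_lit 274)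 (nat_lit 154)) (XT.lf (nat_lit 0) (nat_lit 1413565270722) (nat_lit 76) (nat_lit 59748520529) (nat_lit 76) (nat_lit 16074580321) (nat_lit 3) (nat_lit 4) (nat_lit 4) (nat_lit 5) (nat_lit 4) (nat_lit 4) (nat_lit 353) (nat_lit 274) (nat_lit 153))))) (XT.nd (nat_lit 312) (nat_lit 0) (nat_lit 0) (XT.nd (nat_lit 156) (nat_lit 0) (nat_lit 0) (XT.nd (nat_lit 78) (nat_lit 76) (nat_lit 0) (XT.lf (nat_lit 0) (nat_lit 3464785283) (nat_lit 152) (nat_lit 36467479000) (nat_lit 76) (nat_lit 1566772205618) (nat_lit 2) (nat_lit 5) (nat_lit 4) (nat_lit 5) (nat_lit 3) (nat_lit 4) (nat_lit 354) (nat_lit 274) (nat_lit 152)) (XT.lf (nat_lit 0) (nat_lit 5914352263) (nat_lit 76) (nat_lit 17926443502) (nat_lit 152) (nat_lit 1709520303535) (nat_lit 1) (nat_lit 5) (nat_lit 2) (nat_lit 5) (nat_lit 3) (nat_lit 4) (nat_lit 355) (nat_lit 274) (nat_lit 151))) (XT.nd (nat_lit 78) (nat_lit 0) (nat_lit 0) (XT.lf (nat_lit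 0) (nat_lit 47010021534) (nat_lit 152) (nat_lit 1816476751887) (nat_lit 0) (nat_lit 6570435026) (nat_lit 1) (nat_lit 5) (nat_lit 3) (nat_lit 4) (nat_lit 1) (nat_lit 4) (nat_lit 356) (nat_lit 274) (nat_lit 150)) (XT.lf (nat_lit 0) (nat_lit 72498131587) (nat_lit 152) (nat_lit 1913095316870) (nat_lit 0) (nat_lit 32058330317) (nat_lit 1) (nat_lit 5) (nat_lit 3) (nat_lit 4) (nat_lit 1) (nat_lit 4) (nat_lit 357) (nat_lit 274) (nat_lit 149)))) (XT.nd (nat_lit 156) (nat_lit 0) (nat_lit 0) (XT.nd (nat_lit 78) (nat_lit 0) (nat_lit 0) (XT.lf (nat_lit 0) (nat_lit 100025035178) (nat_lit 152) (nat_lit 2017443865047) (nat_lit 0) (nat_lit 59585035054) (nat_lit 1) (nat_lit 5) (nat_lit 3) (nat_lit 4) (nat_lit 1) (nat_lit 4) (nat_lit 358) (nat_lit 274) (nat_lit 148)) (XT.lf (nat_lit 0) (nat_lit 129753854701) (nat_lit 152) (nat_lit 2130140758185) (nat_lit 0) (nat_lit 89313670453) (nat_lit 1) (nat_lit 5)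 (nat_lit 3) (nat_lit 4) (nat_lit 1) (nat_lit 4) (nat_lit 359) (nat_lit 274) (nat_lit 147))) (XT.nd (nat_lit 78) (nat_lit 0) (nat_lit 0) (XT.lf (nat_lit 0) (nat_lit 161860760936) (nat_lit 152) (nat_lit 2251853829724) (nat_lit 0) (nat_lit 121420406202) (nat_lit 1) (nat_lit 5) (nat_lit 3) (nat_lit 4) (nat_lit 1) (nat_lit 4) (nat_lit 360) (nat_lit 274) (nat_lit 146)) (XT.lf (nat_lit 0) (nat_lit 196536017032) (nat_lit 152) (nat_lit 2383304342312) (nat_lit 0) (nat_lit 156095504442) (nat_lit 1) (nat_lit 5) (nat_lit 3) (nat_lit 4) (nat_lit 1) (nat_lit 4) (nat_lit 361) (nat_lit 274) (nat_lit 145)))))) (XT.nd (nat_lit 34008) (nat_lit 0) (nat_lit 3040) (XT.nd (nat_lit 234) (nat_lit 0) (nat_lit 0) (XT.nd (nat_lit 78) (nat_lit 0) (nat_lit 0) (XT.lf (nat_lit 0) (nat_lit 233985105988) (nat_lit 152) (nat_lit 2525271261948) (nat_lit 0) (nat_lit 193544447234) (nat_lit 1) (nat_lit 5) (nat_lit 3) (nat_lit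 4) (nat_lit 1) (nat_lit 4) (nat_lit 362) (nat_lit 274) (nat_lit 144)) (XT.nd (nat_lit 78) (nat_lit 0) (nat_lit 0) (XT.lf (nat_lit 0) (nat_lit 274429948332) (nat_lit 152) (nat_lit 2678595874082) (nat_lit 0) (nat_lit 233989154241) (nat_lit 1) (nat_lit 5) (nat_lit 3) (nat_lit 4) (nat_lit 1) (nat_lit 4) (nat_lit 363) (nat_lit 274) (nat_lit 143)) (XT.lf (nat_lit 0) (nat_lit 318110217202) (nat_lit 152) (nat_lit 2844186769009) (nat_lit 0) (nat_lit 277669297800) (nat_lit 1) (nat_lit 5) (nat_lit 3) (nat_lit 4) (nat_lit 1) (nat_lit 4) (nat_lit 364) (nat_lit 274) (nat_lit 142)))) (XT.nd (nat_lit 33618) (nat_lit 0) (nat_lit 3268) (XT.nd (nat_lit 78) (nat_lit 0) (nat_lit 0) (XT.lf (nat_lit 0) (nat_lit 365284758637) (nat_lit 152) (nat_lit 3023025226105) (nat_lit 0) (nat_lit 324843723205) (nat_lit 1) (nat_lit 5) (nat_lit 3) (nat_lit 4) (nat_lit 1) (nat_lit 4) (nat_lit 365) (nat_lit 274) (nat_lit 141))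 (XT.lf (nat_lit 0) (nat_lit 416233125475) (nat_lit 152) (nat_lit 3216171028820) (nat_lit 0) (nat_lit 375791982609) (nat_lit 1) (nat_lit 5) (nat_lit 3) (nat_lit 4) (nat_lit 1) (nat_lit 4) (nat_lit 366) (nat_lit 274) (nat_lit 140))) (XT.nd (nat_lit 78) (nat_lit 0) (nat_lit 0) (XT.lf (nat_lit 0) (nat_lit 2321020426) (nat_lit 532) (nat_lit 2145248355) (nat_lit 532) (nat_lit 2145248355) (nat_lit 44) (nat_lit 3) (nat_lit 51) (nat_lit 3) (nat_lit 51) (nat_lit 5) (nat_lit 275) (nat_lit 275) (nat_lit 230)) (XT.lf (nat_lit 76) (nat_lit 1805957704) (nat_lit 0) (nat_lit 3420079514) (nat_lit 532) (nat_lit 8492893447) (nat_lit 45) (nat_lit 5) (nat_lit 44) (nat_lit 3) (nat_lit 51) (nat_lit 5) (nat_lit 276) (nat_lit 275) (nat_lit 229))))) (XT.nd (nat_lit 312) (nat_lit 304) (nat_lit 0) (XT.nd (nat_lit 156) (nat_lit 0) (nat_lit 76) (XT.nd (nat_lit 78) (nat_lit 0) (nat_lit 0) (XT.lf (nat_lit 0) (nat_lit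 6002424504) (nat_lit 456) (nat_lit 5698573553) (nat_lit 532) (nat_lit 2541963049) (nat_lit 45) (nat_lit 5) (nat_lit 51) (nat_lit 5) (nat_lit 52) (nat_lit 5) (nat_lit 277) (nat_lit 275) (nat_lit 228)) (XT.lf (nat_lit 76) (nat_lit 949788655) (nat_lit 0) (nat_lit 5969834501) (nat_lit 532) (nat_lit 7883102238) (nat_lit 46) (nat_lit 5) (nat_lit 45) (nat_lit 5) (nat_lit 52) (nat_lit 5) (nat_lit 278) (nat_lit 275) (nat_lit 227))) (XT.nd (nat_lit 78) (nat_lit 0) (nat_lit 0) (XT.lf (nat_lit 0) (nat_lit 8044529251) (nat_lit 456) (nat_lit 6974168742) (nat_lit 532) (nat_lit 377925789) (nat_lit 46) (nat_lit 5) (nat_lit 52) (nat_lit 5) (nat_lit 53) (nat_lit 5) (nat_lit 279) (nat_lit 275) (nat_lit 226)) (XT.lf (nat_lit 76) (nat_lit 292108336) (nat_lit 0) (nat_lit 9100876394) (nat_lit 532) (nat_lit 6634456873) (nat_lit 47) (nat_lit 5) (nat_lit 46) (nat_lit 5) (nat_lit 53) (nat_lit 5) (nat_lit 280) (nat_lit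 275) (nat_lit 225)))) (XT.nd (nat_lit 156) (nat_lit 380) (nat_lit 0) (XT.nd (nat_lit 78) (nat_lit 0) (nat_lit 76) (XT.lf (nat_lit 76) (nat_lit 8514536248) (nat_lit 0) (nat_lit 2498527063) (nat_lit 532) (nat_lit 5682647094) (nat_lit 47) (nat_lit 5) (nat_lit 46) (nat_lit 5) (nat_lit 53) (nat_lit 5) (nat_lit 281) (nat_lit 275) (nat_lit 224)) (XT.lf (nat_lit 0) (nat_lit 12849319111) (nat_lit 456) (nat_lit 156436960) (nat_lit 76) (nat_lit 4404837939) (nat_lit 47) (nat_lit 5) (nat_lit 53) (nat_lit 5) (nat_lit 48) (nat_lit 5) (nat_lit 282) (nat_lit 275) (nat_lit 223))) (XT.nd (nat_lit 78) (nat_lit 0) (nat_lit 0) (XT.lf (nat_lit 0) (nat_lit 8868312535) (nat_lit 456) (nat_lit 6219352937) (nat_lit 532) (nat_lit 3074660745) (nat_lit 41) (nat_lit 5) (nat_lit 47) (nat_lit 5) (nat_lit 48) (nat_lit 5) (nat_lit 283) (nat_lit 275) (nat_lit 222)) (XT.lf (nat_lit 0) (nat_lit 17514428855) (nat_lit 532)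 (nat_lit 398744492) (nat_lit 76) (nat_lit 1060343416) (nat_lit 41) (nat_lit 5) (nat_lit 48) (nat_lit 5) (nat_lit 42) (nat_lit 5) (nat_lit 284) (nat_lit 275) (nat_lit 221))))))) (XT.nd (nat_lit 1170) (nat_lit 760) (nat_lit 0) (XT.nd (nat_lit 546) (nat_lit 684) (nat_lit 0) (XT.nd (nat_lit 234) (nat_lit 380) (nat_lit 0) (XT.nd (nat_lit 78) (nat_lit 228) (nat_lit 0) (XT.lf (nat_lit 0) (nat_lit 650915940) (nat_lit 304) (nat_lit 10335032110) (nat_lit 76) (nat_lit 8832804514) (nat_lit 37) (nat_lit 5) (nat_lit 41) (nat_lit 5) (nat_lit 38) (nat_lit 5) (nat_lit 285) (nat_lit 275) (nat_lit 220)) (XT.nd (nat_lit 78) (nat_lit 228) (nat_lit 0) (XT.lf (nat_lit 0) (nat_lit 2842414355) (nat_lit 304) (nat_lit 610421309) (nat_lit 76) (nat_lit 17276471609) (nat_lit 37) (nat_lit 5) (nat_lit 41) (nat_lit 5) (nat_lit 38) (nat_lit 5) (nat_lit 286) (nat_lit 275) (nat_lit 219)) (XT.lf (nat_lit 0) (nat_lit 5560056960)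 (nat_lit 304) (nat_lit 11420676326) (nat_lit 76) (nat_lit 4703956893) (nat_lit 34) (nat_lit 5) (nat_lit 38) (nat_lit 5) (nat_lit 35) (nat_lit 5) (nat_lit 287) (nat_lit 275) (nat_lit 218)))) (XT.nd (nat_lit 156) (nat_lit 152) (nat_lit 0) (XT.nd (nat_lit 78) (nat_lit 228) (nat_lit 0) (XT.lf (nat_lit 0) (nat_lit 8584567285) (nat_lit 304) (nat_lit 782479386) (nat_lit 76) (nat_lit 13342346623) (nat_lit 34) (nat_lit 5) (nat_lit 38) (nat_lit 5) (nat_lit 35) (nat_lit 5) (nat_lit 288) (nat_lit 275) (nat_lit 217)) (XT.lf (nat_lit 0) (nat_lit 11250774904) (nat_lit 228) (nat_lit 854778975) (nat_lit 304) (nat_lit 11690200207) (nat_lit 31) (nat_lit 5) (nat_lit 34) (nat_lit 5) (nat_lit 35) (nat_lit 5) (nat_lit 289) (nat_lit 275) (nat_lit 216))) (XT.nd (nat_lit 78) (nat_lit 152) (nat_lit 0) (XT.lf (nat_lit 0) (nat_lit 16115320609) (nat_lit 304) (nat_lit 896742390) (nat_lit 76) (nat_lit 7940432154) (nat_lit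 31) (nat_lit 5) (nat_lit 35) (nat_lit 5) (nat_lit 32) (nat_lit 5) (nat_lit 290) (nat_lit 275) (nat_lit 215)) (XT.lf (nat_lit 0) (nat_lit 12256177206) (nat_lit 152) (nat_lit 8492405550) (nat_lit 228) (nat_lit 5429012199) (nat_lit 29) (nat_lit 5) (nat_lit 31) (nat_lit 5) (nat_lit 32) (nat_lit 5) (nat_lit 291) (nat_lit 275) (nat_lit 214))))) (XT.nd (nat_lit 312) (nat_lit 304) (nat_lit 0) (XT.nd (nat_lit 156) (nat_lit 152) (nat_lit 0) (XT.nd (nat_lit 78) (nat_lit 228) (nat_lit 0) (XT.lf (nat_lit 0) (nat_lit 25780994653) (nat_lit 228) (nat_lit 1022743511) (nat_lit 76) (nat_lit 694719349) (nat_lit 29) (nat_lit 5) (nat_lit 32) (nat_lit 5) (nat_lit 30) (nat_lit 5) (nat_lit 292) (nat_lit 275) (nat_lit 213)) (XT.lf (nat_lit 0) (nat_lit 2718748865) (nat_lit 228) (nat_lit 15614402653) (nat_lit 76) (nat_lit 10544071159) (nat_lit 26) (nat_lit 5) (nat_lit 29) (nat_lit 5) (nat_lit 27) (nat_lit 5) (nat_lit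 293) (nat_lit 275) (nat_lit 212))) (XT.nd (nat_lit 78) (nat_lit 152) (nat_lit 0) (XT.lf (nat_lit 0) (nat_lit 7433254249) (nat_lit 228) (nat_lit 1677508847) (nat_lit 76) (nat_lit 21250689347) (nat_lit 26) (nat_lit 5) (nat_lit 29) (nat_lit 5) (nat_lit 27) (nat_lit 5) (nat_lit 294) (nat_lit 275) (nat_lit 211)) (XT.lf (nat_lit 0) (nat_lit 12880621883) (nat_lit 228) (nat_lit 17905883649) (nat_lit 76) (nat_lit 1149483807) (nat_lit 24) (nat_lit 5) (nat_lit 27) (nat_lit 5) (nat_lit 25) (nat_lit 5) (nat_lit 295) (nat_lit 275) (nat_lit 210)))) (XT.nd (nat_lit 156) (nat_lit 152) (nat_lit 0) (XT.nd (nat_lit 78) (nat_lit 152) (nat_lit 0) (XT.lf (nat_lit 0) (nat_lit 19036264675) (nat_lit 228) (nat_lit 2797527873) (nat_lit 76) (nat_lit 11780920831) (nat_lit 24) (nat_lit 5) (nat_lit 27) (nat_lit 5) (nat_lit 25) (nat_lit 5) (nat_lit 296) (nat_lit 275) (nat_lit 209)) (XT.lf (nat_lit 0) (nat_lit 14215225192)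 (nat_lit 152) (nat_lit 11800626093) (nat_lit 228) (nat_lit 9385386009) (nat_lit 22) (nat_lit 5) (nat_lit 24) (nat_lit 5) (nat_lit 25) (nat_lit 5) (nat_lit 297) (nat_lit 275) (nat_lit 208))) (XT.nd (nat_lit 78) (nat_lit 152) (nat_lit 0) (XT.lf (nat_lit 0) (nat_lit 32733111307) (nat_lit 152) (nat_lit 887207576) (nat_lit 228) (nat_lit 3705062875) (nat_lit 22) (nat_lit 5) (nat_lit 24) (nat_lit 5) (nat_lit 25) (nat_lit 5) (nat_lit 298) (nat_lit 275) (nat_lit 207)) (XT.lf (nat_lit 0) (nat_lit 2906493139) (nat_lit 152) (nat_lit 25690766817) (nat_lit 76) (nat_lit 10753672067) (nat_lit 20) (nat_lit 5) (nat_lit 22) (nat_lit 5) (nat_lit 21) (nat_lit 5) (nat_lit 299) (nat_lit 275) (nat_lit 206)))))) (XT.nd (nat_lit 624) (nat_lit 304) (nat_lit 0) (XT.nd (nat_lit 312) (nat_lit 228) (nat_lit 0) (XT.nd (nat_lit 156) (nat_lit 76) (nat_lit 0) (XT.nd (nat_lit 78) (nat_lit 152) (nat_lit 0) (XT.lf (nat_lit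 0) (nat_lit 9989424834) (nat_lit 152) (nat_lit 8031715971) (nat_lit 76) (nat_lit 23498292693) (nat_lit 20) (nat_lit 5) (nat_lit 22) (nat_lit 5) (nat_lit 21) (nat_lit 5) (nat_lit 300) (nat_lit 275) (nat_lit 205)) (XT.lf (nat_lit 0) (nat_lit 11607124248) (nat_lit 152) (nat_lit 6302457642) (nat_lit 228) (nat_lit 25930200462) (nat_lit 18) (nat_lit 5) (nat_lit 20) (nat_lit 5) (nat_lit 21) (nat_lit 5) (nat_lit 301) (nat_lit 275) (nat_lit 204))) (XT.nd (nat_lit 78) (nat_lit 76) (nat_lit 0) (XT.lf (nat_lit 0) (nat_lit 26833099344) (nat_lit 228) (nat_lit 13226639303) (nat_lit 76) (nat_lit 6256454089) (nat_lit 18) (nat_lit 5) (nat_lit 21) (nat_lit 5) (nat_lit 19) (nat_lit 4) (nat_lit 302) (nat_lit 275) (nat_lit 203)) (XT.lf (nat_lit 0) (nat_lit 7498507505) (nat_lit 76) (nat_lit 29308285201) (nat_lit 152) (nat_lit 12157032138) (nat_lit 17) (nat_lit 5) (nat_lit 18) (nat_lit 5) (nat_lit 19) (nat_lit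 4) (nat_lit 303) (nat_lit 275) (nat_lit 202)))) (XT.nd (nat_lit 156) (nat_lit 0) (nat_lit 0) (XT.nd (nat_lit 78) (nat_lit 228) (nat_lit 0) (XT.lf (nat_lit 0) (nat_lit 30621440757) (nat_lit 76) (nat_lit 17311110184) (nat_lit 152) (nat_lit 3862394560) (nat_lit 17) (nat_lit 5) (nat_lit 18) (nat_lit 5) (nat_lit 19) (nat_lit 4) (nat_lit 304) (nat_lit 275) (nat_lit 201)) (XT.lf (nat_lit 0) (nat_lit 639173526) (nat_lit 152) (nat_lit 4209992580) (nat_lit 228) (nat_lit 49992934007) (nat_lit 14) (nat_lit 5) (nat_lit 16) (nat_lit 5) (nat_lit 17) (nat_lit 5) (nat_lit 305) (nat_lit 275) (nat_lit 200))) (XT.nd (nat_lit 78) (nat_lit 0) (nat_lit 0) (XT.lf (nat_lit 0) (nat_lit 14875005144) (nat_lit 228) (nat_lit 33052130196) (nat_lit 76) (nat_lit 10131793301) (nat_lit 14) (nat_lit 5) (nat_lit 17) (nat_lit 5) (nat_lit 15) (nat_lit 4) (nat_lit 306) (nat_lit 275) (nat_lit 199)) (XT.lf (nat_lit 0) (nat_lit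 25805805045) (nat_lit 228) (nat_lit 10329770209) (nat_lit 76) (nat_lit 25389305175) (nat_lit 14) (nat_lit 5) (nat_lit 17) (nat_lit 5) (nat_lit 15) (nat_lit 4) (nat_lit 307) (nat_lit 275) (nat_lit 198))))) (XT.nd (nat_lit 312) (nat_lit 76) (nat_lit 0) (XT.nd (nat_lit 156) (nat_lit 152) (nat_lit 0) (XT.nd (nat_lit 78) (nat_lit 0) (nat_lit 0) (XT.lf (nat_lit 0) (nat_lit 14947804540) (nat_lit 76) (nat_lit 23016781013) (nat_lit 152) (nat_lit 27275249324) (nat_lit 13) (nat_lit 5) (nat_lit 14) (nat_lit 5) (nat_lit 15) (nat_lit 4) (nat_lit 308) (nat_lit 275) (nat_lit 197)) (XT.lf (nat_lit 0) (nat_lit 42824986058) (nat_lit 76) (nat_lit 8547739073) (nat_lit 152) (nat_lit 17857135288) (nat_lit 13) (nat_lit 5) (nat_lit 14) (nat_lit 5) (nat_lit 15) (nat_lit 4) (nat_lit 309) (nat_lit 275) (nat_lit 196))) (XT.nd (nat_lit 78) (nat_lit 152) (nat_lit 0) (XT.lf (nat_lit 0) (nat_lit 66018316775) (nat_lit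 152) (nat_lit 786648165) (nat_lit 0) (nat_lit 6720945720) (nat_lit 13) (nat_lit 5) (nat_lit 15) (nat_lit 4) (nat_lit 13) (nat_lit 4) (nat_lit 310) (nat_lit 275) (nat_lit 195)) (XT.lf (nat_lit 0) (nat_lit 4401144140) (nat_lit 152) (nat_lit 50152317821) (nat_lit 76) (nat_lit 23531942443) (nat_lit 11) (nat_lit 5) (nat_lit 13) (nat_lit 5) (nat_lit 12) (nat_lit 4) (nat_lit 311) (nat_lit 275) (nat_lit 194)))) (XT.nd (nat_lit 156) (nat_lit 0) (nat_lit 0) (XT.nd (nat_lit 78) (nat_lit 76) (nat_lit 0) (XT.lf (nat_lit 0) (nat_lit 16874033140) (nat_lit 152) (nat_lit 24217344424) (nat_lit 76) (nat_lit 41901320670) (nat_lit 11) (nat_lit 5) (nat_lit 13) (nat_lit 5) (nat_lit 12) (nat_lit 4) (nat_lit 312) (nat_lit 275) (nat_lit 193)) (XT.lf (nat_lit 0) (nat_lit 3983372921) (nat_lit 76) (nat_lit 26452541654) (nat_lit 152) (nat_lit 57849373036) (nat_lit 10) (nat_lit 5) (nat_lit 11) (nat_lit 5) (nat_lit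 12) (nat_lit 4) (nat_lit 313) (nat_lit 275) (nat_lit 192))) (XT.nd (nat_lit 78) (nat_lit 0) (nat_lit 0) (XT.lf (nat_lit 0) (nat_lit 35809301713) (nat_lit 76) (nat_lit 9931099655) (nat_lit 152) (nat_lit 48208274960) (nat_lit 10) (nat_lit 5) (nat_lit 11) (nat_lit 5) (nat_lit 12) (nat_lit 4) (nat_lit 314) (nat_lit 275) (nat_lit 191)) (XT.lf (nat_lit 0) (nat_lit 62455294072) (nat_lit 152) (nat_lit 30081880010) (nat_lit 0) (nat_lit 7513082544) (nat_lit 10) (nat_lit 5) (nat_lit 12) (nat_lit 4) (nat_lit 10) (nat_lit 4) (nat_lit 315) (nat_lit 275) (nat_lit 190))))))))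
noncomputable def xc75 : XT := (XT.nd (nat_lit 2418) (nat_lit 152) (nat_lit 0) (XT.nd (nat_lit 1170) (nat_lit 76) (nat_lit 0) (XT.nd (nat_lit 546) (nat_lit 228) (nat_lit 0) (XT.nd (nat_lit 234) (nat_lit 76) (nat_lit 0) (XT.nd (nat_lit 78) (nat_lit 152) (nat_lit 0) (XT.lf (nat_lit 0) (nat_lit 80761404560) (nat_lit 152) (nat_lit 44924901) (nat_lit 0) (nat_lit 25813315705) (nat_lit 10) (nat_lit 5) (nat_lit 12) (nat_lit 4) (nat_lit 10) (nat_lit 4) (nat_lit 316) (nat_lit 275) (nat_lit 189)) (XT.nd (nat_lit 78) (nat_lit 76) (nat_lit 0) (XT.lf (nat_lit 0) (nat_lit 34093842766) (nat_lit 76) (nat_lit 67254485275) (nat_lit 76) (nat_lit 12300954450) (nat_lit 9) (nat_lit 4) (nat_lit 10) (nat_lit 5) (nat_lit 10) (nat_lit 4) (nat_lit 317) (nat_lit 275) (nat_lit 188)) (XT.lf (nat_lit 0) (nat_lit 2221457708) (nat_lit 152) (nat_lit 50337937651) (nat_lit 76) (nat_lit 68677583024) (nat_lit 8) (nat_lit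 5) (nat_lit 10) (nat_lit 5) (nat_lit 9) (nat_lit 4) (nat_lit 318) (nat_lit 275) (nat_lit 187)))) (XT.nd (nat_lit 156) (nat_lit 0) (nat_lit 0) (XT.nd (nat_lit 78) (nat_lit 76) (nat_lit 0) (XT.lf (nat_lit 0) (nat_lit 17237744488) (nat_lit 152) (nat_lit 19108726760) (nat_lit 76) (nat_lit 93059928943) (nat_lit 8) (nat_lit 5) (nat_lit 10) (nat_lit 5) (nat_lit 9) (nat_lit 4) (nat_lit 319) (nat_lit 275) (nat_lit 186)) (XT.lf (nat_lit 0) (nat_lit 15382592776) (nat_lit 76) (nat_lit 18439593802) (nat_lit 152) (nat_lit 104377843649) (nat_lit 7) (nat_lit 5) (nat_lit 8) (nat_lit 5) (nat_lit 9) (nat_lit 4) (nat_lit 320) (nat_lit 275) (nat_lit 185))) (XT.nd (nat_lit 78) (nat_lit 0) (nat_lit 0) (XT.lf (nat_lit 0) (nat_lit 52287996011) (nat_lit 152) (nat_lit 93976380420) (nat_lit 0) (nat_lit 1388407752) (nat_lit 7) (nat_lit 5) (nat_lit 9) (nat_lit 4) (nat_lit 7) (nat_lit 4) (nat_lit 321) (nat_lit 275)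 (nat_lit 184)) (XT.lf (nat_lit 0) (nat_lit 72707181739) (nat_lit 152) (nat_lit 63312325966) (nat_lit 0) (nat_lit 21804164117) (nat_lit 7) (nat_lit 5) (nat_lit 9) (nat_lit 4) (nat_lit 7) (nat_lit 4) (nat_lit 322) (nat_lit 275) (nat_lit 183))))) (XT.nd (nat_lit 312) (nat_lit 152) (nat_lit 0) (XT.nd (nat_lit 156) (nat_lit 0) (nat_lit 0) (XT.nd (nat_lit 78) (nat_lit 76) (nat_lit 0) (XT.lf (nat_lit 0) (nat_lit 94757273672) (nat_lit 152) (nat_lit 30200088501) (nat_lit 0) (nat_lit 43851080712) (nat_lit 7) (nat_lit 5) (nat_lit 9) (nat_lit 4) (nat_lit 7) (nat_lit 4) (nat_lit 323) (nat_lit 275) (nat_lit 182)) (XT.lf (nat_lit 0) (nat_lit 5849150856) (nat_lit 76) (nat_lit 112860460382) (nat_lit 76) (nat_lit 61951327296) (nat_lit 6) (nat_lit 4) (nat_lit 7) (nat_lit 5) (nat_lit 7) (nat_lit 4) (nat_lit 324) (nat_lit 275) (nat_lit 181))) (XT.nd (nat_lit 78) (nat_lit 0) (nat_lit 0) (XT.lf (nat_lit 0)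 (nat_lit 46495375666) (nat_lit 76) (nat_lit 98906123186) (nat_lit 76) (nat_lit 47994267760) (nat_lit 6) (nat_lit 4) (nat_lit 7) (nat_lit 5) (nat_lit 7) (nat_lit 4) (nat_lit 325) (nat_lit 275) (nat_lit 180)) (XT.lf (nat_lit 0) (nat_lit 90389169305) (nat_lit 76) (nat_lit 83837382153) (nat_lit 76) (nat_lit 32923006042) (nat_lit 6) (nat_lit 4) (nat_lit 7) (nat_lit 5) (nat_lit 7) (nat_lit 4) (nat_lit 326) (nat_lit 275) (nat_lit 179)))) (XT.nd (nat_lit 156) (nat_lit 76) (nat_lit 0) (XT.nd (nat_lit 78) (nat_lit 76) (nat_lit 0) (XT.lf (nat_lit 0) (nat_lit 137790643143) (nat_lit 76) (nat_lit 67564941041) (nat_lit 76) (nat_lit 16648230962) (nat_lit 6) (nat_lit 4) (nat_lit 7) (nat_lit 5) (nat_lit 7) (nat_lit 4) (nat_lit 327) (nat_lit 275) (nat_lit 178)) (XT.lf (nat_lit 0) (nat_lit 880153278) (nat_lit 152) (nat_lit 49088152340) (nat_lit 76) (nat_lit 188076476573) (nat_lit 5) (nat_lit 5) (nat_lit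 7) (nat_lit 5) (nat_lit 6) (nat_lit 4) (nat_lit 328) (nat_lit 275) (nat_lit 177))) (XT.nd (nat_lit 78) (nat_lit 76) (nat_lit 0) (XT.lf (nat_lit 0) (nat_lit 18909589691) (nat_lit 152) (nat_lit 11588925602) (nat_lit 76) (nat_lit 224836061351) (nat_lit 5) (nat_lit 5) (nat_lit 7) (nat_lit 5) (nat_lit 6) (nat_lit 4) (nat_lit 329) (nat_lit 275) (nat_lit 176)) (XT.lf (nat_lit 0) (nat_lit 30429313717) (nat_lit 76) (nat_lit 8682243328) (nat_lit 152) (nat_lit 234837584671) (nat_lit 4) (nat_lit 5) (nat_lit 5) (nat_lit 5) (nat_lit 6) (nat_lit 4) (nat_lit 330) (nat_lit 275) (nat_lit 175)))))) (XT.nd (nat_lit 624) (nat_lit 0) (nat_lit 0) (XT.nd (nat_lit 312) (nat_lit 76) (nat_lit 0) (XT.nd (nat_lit 156) (nat_lit 0) (nat_lit 0) (XT.nd (nat_lit 78) (nat_lit 0) (nat_lit 0) (XT.lf (nat_lit 0) (nat_lit 61610986564) (nat_lit 152) (nat_lit 217928655244) (nat_lit 0) (nat_lit 14458726865) (nat_lit 4) (nat_lit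 5) (nat_lit 6) (nat_lit 4) (nat_lit 4) (nat_lit 4) (nat_lit 331) (nat_lit 275) (nat_lit 174)) (XT.lf (nat_lit 0) (nat_lit 86134368982) (nat_lit 152) (nat_lit 190518607417) (nat_lit 0) (nat_lit 38980638488) (nat_lit 4) (nat_lit 5) (nat_lit 6) (nat_lit 4) (nat_lit 4) (nat_lit 4) (nat_lit 332) (nat_lit 275) (nat_lit 173))) (XT.nd (nat_lit 78) (nat_lit 0) (nat_lit 0) (XT.lf (nat_lit 0) (nat_lit 112618219887) (nat_lit 152) (nat_lit 160918446446) (nat_lit 0) (nat_lit 65463127545) (nat_lit 4) (nat_lit 5) (nat_lit 6) (nat_lit 4) (nat_lit 4) (nat_lit 4) (nat_lit 333) (nat_lit 275) (nat_lit 172)) (XT.lf (nat_lit 0) (nat_lit 141219480616) (nat_lit 152) (nat_lit 128952763967) (nat_lit 0) (nat_lit 94063127304) (nat_lit 4) (nat_lit 5) (nat_lit 6) (nat_lit 4) (nat_lit 4) (nat_lit 4) (nat_lit 334) (nat_lit 275) (nat_lit 171)))) (XT.nd (nat_lit 156) (nat_lit 76) (nat_lit 0) (XT.nd (nat_lit 78) (nat_lit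 0) (nat_lit 0) (XT.lf (nat_lit 0) (nat_lit 172107640123) (nat_lit 152) (nat_lit 94432133716) (nat_lit 0) (nat_lit 124950119246) (nat_lit 4) (nat_lit 5) (nat_lit 6) (nat_lit 4) (nat_lit 4) (nat_lit 4) (nat_lit 335) (nat_lit 275) (nat_lit 170)) (XT.lf (nat_lit 0) (nat_lit 205465739353) (nat_lit 152) (nat_lit 57151988994) (nat_lit 0) (nat_lit 158307137397) (nat_lit 4) (nat_lit 5) (nat_lit 6) (nat_lit 4) (nat_lit 4) (nat_lit 4) (nat_lit 336) (nat_lit 275) (nat_lit 169))) (XT.nd (nat_lit 78) (nat_lit 76) (nat_lit 0) (XT.lf (nat_lit 0) (nat_lit 241491455930) (nat_lit 152) (nat_lit 16891410425) (nat_lit 0) (nat_lit 194331852976) (nat_lit 4) (nat_lit 5) (nat_lit 6) (nat_lit 4) (nat_lit 4) (nat_lit 4) (nat_lit 337) (nat_lit 275) (nat_lit 168)) (XT.lf (nat_lit 0) (nat_lit 27988269804) (nat_lit 76) (nat_lit 253083124340) (nat_lit 76) (nat_lit 205922594535) (nat_lit 3) (nat_lit 4) (nat_lit 4) (nat_lit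 5) (nat_lit 4) (nat_lit 4) (nat_lit 338) (nat_lit 275) (nat_lit 167))))) (XT.nd (nat_lit 312) (nat_lit 0) (nat_lit 0) (XT.nd (nat_lit 156) (nat_lit 0) (nat_lit 0) (XT.nd (nat_lit 78) (nat_lit 0) (nat_lit 0) (XT.lf (nat_lit 0) (nat_lit 77417169060) (nat_lit 76) (nat_lit 246861472960) (nat_lit 76) (nat_lit 199700084960) (nat_lit 3) (nat_lit 4) (nat_lit 4) (nat_lit 5) (nat_lit 4) (nat_lit 4) (nat_lit 339) (nat_lit 275) (nat_lit 166)) (XT.lf (nat_lit 0) (nat_lit 130798727596) (nat_lit 76) (nat_lit 240142884267) (nat_lit 76) (nat_lit 192980701642) (nat_lit 3) (nat_lit 4) (nat_lit 4) (nat_lit 5) (nat_lit 4) (nat_lit 4) (nat_lit 340) (nat_lit 275) (nat_lit 165))) (XT.nd (nat_lit 78) (nat_lit 0) (nat_lit 0) (XT.lf (nat_lit 0) (nat_lit 188449280575) (nat_lit 76) (nat_lit 232887544401) (nat_lit 76) (nat_lit 185724626013) (nat_lit 3) (nat_lit 4) (nat_lit 4) (nat_lit 5) (nat_lit 4) (nat_lit 4) (nat_lit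 341) (nat_lit 275) (nat_lit 164)) (XT.lf (nat_lit 0) (nat_lit 250710460904) (nat_lit 76) (nat_lit 225052458757) (nat_lit 76) (nat_lit 177888859105) (nat_lit 3) (nat_lit 4) (nat_lit 4) (nat_lit 5) (nat_lit 4) (nat_lit 4) (nat_lit 342) (nat_lit 275) (nat_lit 163)))) (XT.nd (nat_lit 156) (nat_lit 0) (nat_lit 0) (XT.nd (nat_lit 78) (nat_lit 0) (nat_lit 0) (XT.lf (nat_lit 0) (nat_lit 317951223724) (nat_lit 76) (nat_lit 216591197195) (nat_lit 76) (nat_lit 169426966745) (nat_lit 3) (nat_lit 4) (nat_lit 4) (nat_lit 5) (nat_lit 4) (nat_lit 4) (nat_lit 343) (nat_lit 275) (nat_lit 162)) (XT.lf (nat_lit 0) (nat_lit 390570032817) (nat_lit 76) (nat_lit 207453618909) (nat_lit 76) (nat_lit 160288804385) (nat_lit 3) (nat_lit 4) (nat_lit 4) (nat_lit 5) (nat_lit 4) (nat_lit 4) (nat_lit 344) (nat_lit 275) (nat_lit 161))) (XT.nd (nat_lit 78) (nat_lit 0) (nat_lit 0) (XT.lf (nat_lit 0) (nat_lit 468997221865)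 (nat_lit 76) (nat_lit 197585575284) (nat_lit 76) (nat_lit 150420219952) (nat_lit 3) (nat_lit 4) (nat_lit 4) (nat_lit 5) (nat_lit 4) (nat_lit 4) (nat_lit 345) (nat_lit 275) (nat_lit 160)) (XT.lf (nat_lit 0) (nat_lit 553697544580) (nat_lit 76) (nat_lit 186928589027) (nat_lit 76) (nat_lit 139762732946) (nat_lit 3) (nat_lit 4) (nat_lit 4) (nat_lit 5) (nat_lit 4) (nat_lit 4) (nat_lit 346) (nat_lit 275) (nat_lit 159))))))) (XT.nd (nat_lit 1170) (nat_lit 0) (nat_lit 0) (XT.nd (nat_lit 546) (nat_lit 152) (nat_lit 0) (XT.nd (nat_lit 234) (nat_lit 0) (nat_lit 0) (XT.nd (nat_lit 78) (nat_lit 0) (nat_lit 0) (XT.lf (nat_lit 0) (nat_lit 645172928803) (nat_lit 76) (nat_lit 175419507625) (nat_lit 76) (nat_lit 128253187888) (nat_lit 3) (nat_lit 4) (nat_lit 4) (nat_lit 5) (nat_lit 4) (nat_lit 4) (nat_lit 347) (nat_lit 275) (nat_lit 158)) (XT.nd (nat_lit 78) (nat_lit 0) (nat_lit 0) (XT.lf (nat_lit 0) (nat_lit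 743965450882) (nat_lit 76) (nat_lit 162990129115) (nat_lit 76) (nat_lit 115823380067) (nat_lit 3) (nat_lit 4) (nat_lit 4) (nat_lit 5) (nat_lit 4) (nat_lit 4) (nat_lit 348) (nat_lit 275) (nat_lit 157)) (XT.lf (nat_lit 0) (nat_lit 850660547987) (nat_lit 76) (nat_lit 149566797920) (nat_lit 76) (nat_lit 102399651362) (nat_lit 3) (nat_lit 4) (nat_lit 4) (nat_lit 5) (nat_lit 4) (nat_lit 4) (nat_lit 349) (nat_lit 275) (nat_lit 156)))) (XT.nd (nat_lit 156) (nat_lit 0) (nat_lit 0) (XT.nd (nat_lit 78) (nat_lit 0) (nat_lit 0) (XT.lf (nat_lit 0) (nat_lit 965890487360) (nat_lit 76) (nat_lit 135069968375) (nat_lit 76) (nat_lit 87902453751) (nat_lit 3) (nat_lit 4) (nat_lit 4) (nat_lit 5) (nat_lit 4) (nat_lit 4) (nat_lit 350) (nat_lit 275) (nat_lit 155)) (XT.lf (nat_lit 0) (nat_lit 1090338113085) (nat_lit 76) (nat_lit 119413733340) (nat_lit 76) (nat_lit 72245877915) (nat_lit 3) (nat_lit 4) (nat_lit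 4) (nat_lit 5) (nat_lit 4) (nat_lit 4) (nat_lit 351) (nat_lit 275) (nat_lit 154))) (XT.nd (nat_lit 78) (nat_lit 0) (nat_lit 0) (XT.lf (nat_lit 0) (nat_lit 1224740892574) (nat_lit 76) (nat_lit 102505315128) (nat_lit 76) (nat_lit 55337144146) (nat_lit 3) (nat_lit 4) (nat_lit 4) (nat_lit 5) (nat_lit 4) (nat_lit 4) (nat_lit 352) (nat_lit 275) (nat_lit 153)) (XT.lf (nat_lit 0) (nat_lit 1369895286743) (nat_lit 76) (nat_lit 84244515703) (nat_lit 76) (nat_lit 37076052540) (nat_lit 3) (nat_lit 4) (nat_lit 4) (nat_lit 5) (nat_lit 4) (nat_lit 4) (nat_lit 353) (nat_lit 275) (nat_lit 152))))) (XT.nd (nat_lit 312) (nat_lit 0) (nat_lit 0) (XT.nd (nat_lit 156) (nat_lit 76) (nat_lit 0) (XT.nd (nat_lit 78) (nat_lit 76) (nat_lit 0) (XT.lf (nat_lit 0) (nat_lit 1526661469779) (nat_lit 76) (nat_lit 64523122922) (nat_lit 76) (nat_lit 17354389220) (nat_lit 3) (nat_lit 4) (nat_lit 4) (nat_lit 5) (nat_lit 4)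 (nat_lit 4) (nat_lit 354) (nat_lit 275) (nat_lit 151)) (XT.lf (nat_lit 0) (nat_lit 3747384312) (nat_lit 152) (nat_lit 39374424831) (nat_lit 76) (nat_lit 1692118582031) (nat_lit 2) (nat_lit 5) (nat_lit 4) (nat_lit 5) (nat_lit 3) (nat_lit 4) (nat_lit 355) (nat_lit 275) (nat_lit 150))) (XT.nd (nat_lit 78) (nat_lit 0) (nat_lit 0) (XT.lf (nat_lit 0) (nat_lit 6397688313) (nat_lit 76) (nat_lit 19355631137) (nat_lit 152) (nat_lit 1846276244192) (nat_lit 1) (nat_lit 5) (nat_lit 2) (nat_lit 5) (nat_lit 3) (nat_lit 4) (nat_lit 356) (nat_lit 275) (nat_lit 149)) (XT.lf (nat_lit 0) (nat_lit 50775803385) (nat_lit 152) (nat_lit 1961785176339) (nat_lit 0) (nat_lit 7100404397) (nat_lit 1) (nat_lit 5) (nat_lit 3) (nat_lit 4) (nat_lit 1) (nat_lit 4) (nat_lit 357) (nat_lit 275) (nat_lit 148)))) (XT.nd (nat_lit 156) (nat_lit 0) (nat_lit 0) (XT.nd (nat_lit 78) (nat_lit 0) (nat_lit 0) (XT.lf (nat_lit 0) (nat_lit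 78302593344) (nat_lit 152) (nat_lit 2066133946202) (nat_lit 0) (nat_lit 34627010232) (nat_lit 1) (nat_lit 5) (nat_lit 3) (nat_lit 4) (nat_lit 1) (nat_lit 4) (nat_lit 358) (nat_lit 275) (nat_lit 147)) (XT.lf (nat_lit 0) (nat_lit 108031307650) (nat_lit 152) (nat_lit 2178831044605) (nat_lit 0) (nat_lit 64355554053) (nat_lit 1) (nat_lit 5) (nat_lit 3) (nat_lit 4) (nat_lit 1) (nat_lit 4) (nat_lit 359) (nat_lit 275) (nat_lit 146))) (XT.nd (nat_lit 78) (nat_lit 0) (nat_lit 0) (XT.lf (nat_lit 0) (nat_lit 140138116463) (nat_lit 152) (nat_lit 2300544306204) (nat_lit 0) (nat_lit 96462205009) (nat_lit 1) (nat_lit 5) (nat_lit 3) (nat_lit 4) (nat_lit 1) (nat_lit 4) (nat_lit 360) (nat_lit 275) (nat_lit 145)) (XT.lf (nat_lit 0) (nat_lit 174813282354) (nat_lit 152) (nat_lit 2431994994773) (nat_lit 0) (nat_lit 131137224736) (nat_lit 1) (nat_lit 5) (nat_lit 3) (nat_lit 4) (nat_lit 1) (nat_lit 4) (nat_lit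 361) (nat_lit 275) (nat_lit 144)))))) (XT.nd (nat_lit 34164) (nat_lit 0) (nat_lit 2736) (XT.nd (nat_lit 312) (nat_lit 0) (nat_lit 0) (XT.nd (nat_lit 156) (nat_lit 0) (nat_lit 0) (XT.nd (nat_lit 78) (nat_lit 0) (nat_lit 0) (XT.lf (nat_lit 0) (nat_lit 212262287787) (nat_lit 152) (nat_lit 2573962077355) (nat_lit 0) (nat_lit 168586094832) (nat_lit 1) (nat_lit 5) (nat_lit 3) (nat_lit 4) (nat_lit 1) (nat_lit 4) (nat_lit 362) (nat_lit 275) (nat_lit 143)) (XT.lf (nat_lit 0) (nat_lit 252707052793) (nat_lit 152) (nat_lit 2727286840365) (nat_lit 0) (nat_lit 209030734527) (nat_lit 1) (nat_lit 5) (nat_lit 3) (nat_lit 4) (nat_lit 1) (nat_lit 4) (nat_lit 363) (nat_lit 275) (nat_lit 142))) (XT.nd (nat_lit 78) (nat_lit 0) (nat_lit 0) (XT.lf (nat_lit 0) (nat_lit 296387250055) (nat_lit 152) (nat_lit 2892877874992) (nat_lit 0) (nat_lit 252710815759) (nat_lit 1) (nat_lit 5) (nat_lit 3) (nat_lit 4) (nat_lit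 1) (nat_lit 4) (nat_lit 364) (nat_lit 275) (nat_lit 141)) (XT.lf (nat_lit 0) (nat_lit 343561725187) (nat_lit 152) (nat_lit 3071716461440) (nat_lit 0) (nat_lit 299885183456) (nat_lit 1) (nat_lit 5) (nat_lit 3) (nat_lit 4) (nat_lit 1) (nat_lit 4) (nat_lit 365) (nat_lit 275) (nat_lit 140)))) (XT.nd (nat_lit 33696) (nat_lit 0) (nat_lit 3268) (XT.nd (nat_lit 33618) (nat_lit 0) (nat_lit 3268) (XT.lf (nat_lit 0) (nat_lit 394510030633) (nat_lit 152) (nat_lit 3264862383925) (nat_lit 0) (nat_lit 350833389425) (nat_lit 1) (nat_lit 5) (nat_lit 3) (nat_lit 4) (nat_lit 1) (nat_lit 4) (nat_lit 366) (nat_lit 275) (nat_lit 139)) (XT.lf (nat_lit 0) (nat_lit 2853048559) (nat_lit 532) (nat_lit 2129275160) (nat_lit 532) (nat_lit 2129275160) (nat_lit 44) (nat_lit 3) (nat_lit 51) (nat_lit 3) (nat_lit 51) (nat_lit 5) (nat_lit 276) (nat_lit 276) (nat_lit 228))) (XT.nd (nat_lit 78) (nat_lit 0) (nat_lit 76) (XT.lf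 (nat_lit 76) (nat_lit 2316122063) (nat_lit 0) (nat_lit 3978175335) (nat_lit 532) (nat_lit 8468037418) (nat_lit 45) (nat_lit 5) (nat_lit 44) (nat_lit 3) (nat_lit 51) (nat_lit 5) (nat_lit 277) (nat_lit 276) (nat_lit 227)) (XT.lf (nat_lit 0) (nat_lit 7078299228) (nat_lit 456) (nat_lit 5759422380) (nat_lit 532) (nat_lit 2495081070) (nat_lit 45) (nat_lit 5) (nat_lit 51) (nat_lit 5) (nat_lit 52) (nat_lit 5) (nat_lit 278) (nat_lit 276) (nat_lit 226))))) (XT.nd (nat_lit 312) (nat_lit 608) (nat_lit 0) (XT.nd (nat_lit 156) (nat_lit 0) (nat_lit 76) (XT.nd (nat_lit 78) (nat_lit 0) (nat_lit 76) (XT.lf (nat_lit 76) (nat_lit 1410807867) (nat_lit 0) (nat_lit 6623201532) (nat_lit 532) (nat_lit 7906271626) (nat_lit 46) (nat_lit 5) (nat_lit 45) (nat_lit 5) (nat_lit 52) (nat_lit 5) (nat_lit 279) (nat_lit 276) (nat_lit 225)) (XT.lf (nat_lit 0) (nat_lit 9203451657) (nat_lit 456) (nat_lit 7128467019) (nat_lit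 532) (nat_lit 253542232) (nat_lit 46) (nat_lit 5) (nat_lit 52) (nat_lit 5) (nat_lit 53) (nat_lit 5) (nat_lit 280) (nat_lit 276) (nat_lit 224))) (XT.nd (nat_lit 78) (nat_lit 0) (nat_lit 0) (XT.lf (nat_lit 76) (nat_lit 708893612) (nat_lit 0) (nat_lit 9922176821) (nat_lit 532) (nat_lit 6638094030) (nat_lit 47) (nat_lit 5) (nat_lit 46) (nat_lit 5) (nat_lit 53) (nat_lit 5) (nat_lit 281) (nat_lit 276) (nat_lit 223)) (XT.lf (nat_lit 76) (nat_lit 9559973786) (nat_lit 0) (nat_lit 2784733595) (nat_lit 532) (nat_lit 5649185350) (nat_lit 47) (nat_lit 5) (nat_lit 46) (nat_lit 5) (nat_lit 53) (nat_lit 5) (nat_lit 282) (nat_lit 276) (nat_lit 222)))) (XT.nd (nat_lit 156) (nat_lit 304) (nat_lit 0) (XT.nd (nat_lit 78) (nat_lit 0) (nat_lit 0) (XT.lf (nat_lit 0) (nat_lit 215753199) (nat_lit 456) (nat_lit 14081999293) (nat_lit 532) (nat_lit 4470729097) (nat_lit 41) (nat_lit 5) (nat_lit 47) (nat_lit 5) (nat_lit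 48) (nat_lit 5) (nat_lit 283) (nat_lit 276) (nat_lit 221)) (XT.lf (nat_lit 0) (nat_lit 9942223673) (nat_lit 456) (nat_lit 6745756072) (nat_lit 532) (nat_lit 2894645420) (nat_lit 41) (nat_lit 5) (nat_lit 47) (nat_lit 5) (nat_lit 48) (nat_lit 5) (nat_lit 284) (nat_lit 276) (nat_lit 220))) (XT.nd (nat_lit 78) (nat_lit 304) (nat_lit 0) (XT.lf (nat_lit 0) (nat_lit 19279108230) (nat_lit 532) (nat_lit 62285490) (nat_lit 76) (nat_lit 1119789908) (nat_lit 41) (nat_lit 5) (nat_lit 48) (nat_lit 5) (nat_lit 42) (nat_lit 5) (nat_lit 285) (nat_lit 276) (nat_lit 219)) (XT.lf (nat_lit 0) (nat_lit 1058184448) (nat_lit 304) (nat_lit 10783126787) (nat_lit 76) (nat_lit 9533555004) (nat_lit 37) (nat_lit 5) (nat_lit 41) (nat_lit 5) (nat_lit 38) (nat_lit 5) (nat_lit 286) (nat_lit 276) (nat_lit 218))))))))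
noncomputable def xc76 : XT := (XT.nd (nat_lit 2340) (nat_lit 532) (nat_lit 0) (XT.nd (nat_lit 1170) (nat_lit 760) (nat_lit 0) (XT.nd (nat_lit 546) (nat_lit 684) (nat_lit 0) (XT.nd (nat_lit 234) (nat_lit 380) (nat_lit 0) (XT.nd (nat_lit 78) (nat_lit 228) (nat_lit 0) (XT.lf (nat_lit 0) (nat_lit 3398691979) (nat_lit 304) (nat_lit 308599558) (nat_lit 76) (nat_lit 18653150568) (nat_lit 37) (nat_lit 5) (nat_lit 41) (nat_lit 5) (nat_lit 38) (nat_lit 5) (nat_lit 287) (nat_lit 276) (nat_lit 217)) (XT.nd (nat_lit 78) (nat_lit 0) (nat_lit 0) (XT.lf (nat_lit 0) (nat_lit 6318302259) (nat_lit 304) (nat_lit 11967398844) (nat_lit 76) (nat_lit 5107856631) (nat_lit 34) (nat_lit 5) (nat_lit 38) (nat_lit 5) (nat_lit 35) (nat_lit 5) (nat_lit 288) (nat_lit 276) (nat_lit 216)) (XT.lf (nat_lit 0) (nat_lit 9561555577) (nat_lit 304) (nat_lit 505326266) (nat_lit 76) (nat_lit 14435274340) (nat_lit 34) (nat_lit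 5) (nat_lit 38) (nat_lit 5) (nat_lit 35) (nat_lit 5) (nat_lit 289) (nat_lit 276) (nat_lit 215)))) (XT.nd (nat_lit 156) (nat_lit 152) (nat_lit 0) (XT.nd (nat_lit 78) (nat_lit 0) (nat_lit 0) (XT.lf (nat_lit 0) (nat_lit 12481987064) (nat_lit 228) (nat_lit 868700211) (nat_lit 304) (nat_lit 12325878362) (nat_lit 31) (nat_lit 5) (nat_lit 34) (nat_lit 5) (nat_lit 35) (nat_lit 5) (nat_lit 290) (nat_lit 276) (nat_lit 214)) (XT.lf (nat_lit 0) (nat_lit 17661952624) (nat_lit 304) (nat_lit 641917751) (nat_lit 76) (nat_lit 8623571095) (nat_lit 31) (nat_lit 5) (nat_lit 35) (nat_lit 5) (nat_lit 32) (nat_lit 5) (nat_lit 291) (nat_lit 276) (nat_lit 213))) (XT.nd (nat_lit 78) (nat_lit 0) (nat_lit 0) (XT.lf (nat_lit 0) (nat_lit 13554967970) (nat_lit 152) (nat_lit 9099495677) (nat_lit 228) (nat_lit 5597047526) (nat_lit 29) (nat_lit 5) (nat_lit 31) (nat_lit 5) (nat_lit 32) (nat_lit 5) (nat_lit 292) (nat_lit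 276) (nat_lit 212)) (XT.lf (nat_lit 0) (nat_lit 28072856763) (nat_lit 228) (nat_lit 792665681) (nat_lit 76) (nat_lit 813894548) (nat_lit 29) (nat_lit 5) (nat_lit 32) (nat_lit 5) (nat_lit 30) (nat_lit 5) (nat_lit 293) (nat_lit 276) (nat_lit 211))))) (XT.nd (nat_lit 312) (nat_lit 304) (nat_lit 0) (XT.nd (nat_lit 156) (nat_lit 152) (nat_lit 0) (XT.nd (nat_lit 78) (nat_lit 0) (nat_lit 0) (XT.lf (nat_lit 0) (nat_lit 3162156120) (nat_lit 228) (nat_lit 16547172112) (nat_lit 76) (nat_lit 11459513974) (nat_lit 26) (nat_lit 5) (nat_lit 29) (nat_lit 5) (nat_lit 27) (nat_lit 5) (nat_lit 294) (nat_lit 276) (nat_lit 210)) (XT.lf (nat_lit 0) (nat_lit 8237088057) (nat_lit 228) (nat_lit 1518762560) (nat_lit 76) (nat_lit 23017334423) (nat_lit 26) (nat_lit 5) (nat_lit 29) (nat_lit 5) (nat_lit 27) (nat_lit 5) (nat_lit 295) (nat_lit 276) (nat_lit 209))) (XT.nd (nat_lit 78) (nat_lit 0) (nat_lit 0) (XT.lf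 (nat_lit 0) (nat_lit 14113661667) (nat_lit 228) (nat_lit 19038407506) (nat_lit 76) (nat_lit 1322175704) (nat_lit 24) (nat_lit 5) (nat_lit 27) (nat_lit 5) (nat_lit 25) (nat_lit 5) (nat_lit 296) (nat_lit 276) (nat_lit 208)) (XT.lf (nat_lit 0) (nat_lit 20746749213) (nat_lit 228) (nat_lit 2743601552) (nat_lit 76) (nat_lit 12798147453) (nat_lit 24) (nat_lit 5) (nat_lit 27) (nat_lit 5) (nat_lit 25) (nat_lit 5) (nat_lit 297) (nat_lit 276) (nat_lit 207)))) (XT.nd (nat_lit 156) (nat_lit 152) (nat_lit 0) (XT.nd (nat_lit 78) (nat_lit 0) (nat_lit 0) (XT.lf (nat_lit 0) (nat_lit 15623140656) (nat_lit 152) (nat_lit 12654177312) (nat_lit 228) (nat_lit 9941245420) (nat_lit 22) (nat_lit 5) (nat_lit 24) (nat_lit 5) (nat_lit 25) (nat_lit 5) (nat_lit 298) (nat_lit 276) (nat_lit 206)) (XT.lf (nat_lit 0) (nat_lit 35602405998) (nat_lit 152) (nat_lit 874388934) (nat_lit 228) (nat_lit 3820938767) (nat_lit 22)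 (nat_lit 5) (nat_lit 24) (nat_lit 5) (nat_lit 25) (nat_lit 5) (nat_lit 299) (nat_lit 276) (nat_lit 205))) (XT.nd (nat_lit 78) (nat_lit 0) (nat_lit 0) (XT.lf (nat_lit 0) (nat_lit 3306030355) (nat_lit 152) (nat_lit 27481281531) (nat_lit 76) (nat_lit 11698049878) (nat_lit 20) (nat_lit 5) (nat_lit 22) (nat_lit 5) (nat_lit 21) (nat_lit 5) (nat_lit 300) (nat_lit 276) (nat_lit 204)) (XT.lf (nat_lit 0) (nat_lit 10943224899) (nat_lit 152) (nat_lit 8429117478) (nat_lit 76) (nat_lit 25456011707) (nat_lit 20) (nat_lit 5) (nat_lit 22) (nat_lit 5) (nat_lit 21) (nat_lit 5) (nat_lit 301) (nat_lit 276) (nat_lit 203)))))) (XT.nd (nat_lit 546) (nat_lit 304) (nat_lit 0) (XT.nd (nat_lit 234) (nat_lit 228) (nat_lit 0) (XT.nd (nat_lit 78) (nat_lit 76) (nat_lit 0) (XT.lf (nat_lit 0) (nat_lit 12774623989) (nat_lit 152) (nat_lit 6716661533) (nat_lit 228) (nat_lit 27843521482) (nat_lit 18) (nat_lit 5) (nat_lit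 20) (nat_lit 5) (nat_lit 21) (nat_lit 5) (nat_lit 302) (nat_lit 276) (nat_lit 202)) (XT.nd (nat_lit 78) (nat_lit 76) (nat_lit 0) (XT.lf (nat_lit 0) (nat_lit 29119656002) (nat_lit 228) (nat_lit 14054285808) (nat_lit 76) (nat_lit 6836128676) (nat_lit 18) (nat_lit 5) (nat_lit 21) (nat_lit 5) (nat_lit 19) (nat_lit 4) (nat_lit 303) (nat_lit 276) (nat_lit 201)) (XT.lf (nat_lit 0) (nat_lit 8323037690) (nat_lit 76) (nat_lit 31563246363) (nat_lit 152) (nat_lit 12983642637) (nat_lit 17) (nat_lit 5) (nat_lit 18) (nat_lit 5) (nat_lit 19) (nat_lit 4) (nat_lit 304) (nat_lit 276) (nat_lit 200)))) (XT.nd (nat_lit 156) (nat_lit 0) (nat_lit 0) (XT.nd (nat_lit 78) (nat_lit 228) (nat_lit 0) (XT.lf (nat_lit 0) (nat_lit 33279164893) (nat_lit 76) (nat_lit 18612941912) (nat_lit 152) (nat_lit 4036245317) (nat_lit 17) (nat_lit 5) (nat_lit 18) (nat_lit 5) (nat_lit 19) (nat_lit 4) (nat_lit 305) (nat_lit 276) (nat_lit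 199)) (XT.lf (nat_lit 0) (nat_lit 899813448) (nat_lit 152) (nat_lit 4461195421) (nat_lit 228) (nat_lit 53858381134) (nat_lit 14) (nat_lit 5) (nat_lit 16) (nat_lit 5) (nat_lit 17) (nat_lit 5) (nat_lit 306) (nat_lit 276) (nat_lit 198))) (XT.nd (nat_lit 78) (nat_lit 0) (nat_lit 0) (XT.lf (nat_lit 0) (nat_lit 16181642661) (nat_lit 228) (nat_lit 35494888056) (nat_lit 76) (nat_lit 11017628134) (nat_lit 14) (nat_lit 5) (nat_lit 17) (nat_lit 5) (nat_lit 15) (nat_lit 4) (nat_lit 307) (nat_lit 276) (nat_lit 197)) (XT.lf (nat_lit 0) (nat_lit 27978266768) (nat_lit 228) (nat_lit 10969658719) (nat_lit 76) (nat_lit 27490163820) (nat_lit 14) (nat_lit 5) (nat_lit 17) (nat_lit 5) (nat_lit 15) (nat_lit 4) (nat_lit 308) (nat_lit 276) (nat_lit 196))))) (XT.nd (nat_lit 312) (nat_lit 76) (nat_lit 0) (XT.nd (nat_lit 156) (nat_lit 152) (nat_lit 0) (XT.nd (nat_lit 78) (nat_lit 0) (nat_lit 0) (XT.lf (nat_lit 0)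 (nat_lit 16325400666) (nat_lit 76) (nat_lit 24780720866) (nat_lit 152) (nat_lit 29344419337) (nat_lit 13) (nat_lit 5) (nat_lit 14) (nat_lit 5) (nat_lit 15) (nat_lit 4) (nat_lit 309) (nat_lit 276) (nat_lit 195)) (XT.lf (nat_lit 0) (nat_lit 46419292129) (nat_lit 76) (nat_lit 9159889099) (nat_lit 152) (nat_lit 19181215432) (nat_lit 13) (nat_lit 5) (nat_lit 14) (nat_lit 5) (nat_lit 15) (nat_lit 4) (nat_lit 310) (nat_lit 276) (nat_lit 194))) (XT.nd (nat_lit 78) (nat_lit 152) (nat_lit 0) (XT.lf (nat_lit 0) (nat_lit 71390857793) (nat_lit 152) (nat_lit 688065078) (nat_lit 0) (nat_lit 7321662046) (nat_lit 13) (nat_lit 5) (nat_lit 15) (nat_lit 4) (nat_lit 13) (nat_lit 4) (nat_lit 311) (nat_lit 276) (nat_lit 193)) (XT.lf (nat_lit 0) (nat_lit 4843738805) (nat_lit 152) (nat_lit 54002215071) (nat_lit 76) (nat_lit 25478946144) (nat_lit 11) (nat_lit 5) (nat_lit 13) (nat_lit 5) (nat_lit 12) (nat_lit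 4) (nat_lit 312) (nat_lit 276) (nat_lit 192)))) (XT.nd (nat_lit 156) (nat_lit 0) (nat_lit 0) (XT.nd (nat_lit 78) (nat_lit 76) (nat_lit 0) (XT.lf (nat_lit 0) (nat_lit 18307754988) (nat_lit 152) (nat_lit 26004465149) (nat_lit 76) (nat_lit 45313100680) (nat_lit 11) (nat_lit 5) (nat_lit 13) (nat_lit 5) (nat_lit 12) (nat_lit 4) (nat_lit 313) (nat_lit 276) (nat_lit 191)) (XT.lf (nat_lit 0) (nat_lit 4448505361) (nat_lit 76) (nat_lit 28503396658) (nat_lit 152) (nat_lit 62389636736) (nat_lit 10) (nat_lit 5) (nat_lit 11) (nat_lit 5) (nat_lit 12) (nat_lit 4) (nat_lit 314) (nat_lit 276) (nat_lit 190))) (XT.nd (nat_lit 78) (nat_lit 0) (nat_lit 0) (XT.lf (nat_lit 0) (nat_lit 38809659375) (nat_lit 76) (nat_lit 10665079917) (nat_lit 152) (nat_lit 51983746084) (nat_lit 10) (nat_lit 5) (nat_lit 11) (nat_lit 5) (nat_lit 12) (nat_lit 4) (nat_lit 315) (nat_lit 276) (nat_lit 189)) (XT.lf (nat_lit 0) (nat_lit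 67522607436) (nat_lit 152) (nat_lit 32358575438) (nat_lit 0) (nat_lit 8167352176) (nat_lit 10) (nat_lit 5) (nat_lit 12) (nat_lit 4) (nat_lit 10) (nat_lit 4) (nat_lit 316) (nat_lit 276) (nat_lit 188))))))) (XT.nd (nat_lit 1170) (nat_lit 76) (nat_lit 0) (XT.nd (nat_lit 546) (nat_lit 228) (nat_lit 0) (XT.nd (nat_lit 234) (nat_lit 76) (nat_lit 0) (XT.nd (nat_lit 78) (nat_lit 76) (nat_lit 0) (XT.lf (nat_lit 0) (nat_lit 75493693) (nat_lit 76) (nat_lit 87214277596) (nat_lit 76) (nat_lit 27853983474) (nat_lit 9) (nat_lit 4) (nat_lit 10) (nat_lit 5) (nat_lit 10) (nat_lit 4) (nat_lit 317) (nat_lit 276) (nat_lit 187)) (XT.nd (nat_lit 78) (nat_lit 76) (nat_lit 0) (XT.lf (nat_lit 0) (nat_lit 36938542322) (nat_lit 76) (nat_lit 72581247046) (nat_lit 76) (nat_lit 13216287312) (nat_lit 9) (nat_lit 4) (nat_lit 10) (nat_lit 5) (nat_lit 10) (nat_lit 4) (nat_lit 318) (nat_lit 276) (nat_lit 186)) (XT.lf (nat_lit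 0) (nat_lit 2459641608) (nat_lit 152) (nat_lit 54253225198) (nat_lit 76) (nat_lit 74218180336) (nat_lit 8) (nat_lit 5) (nat_lit 10) (nat_lit 5) (nat_lit 9) (nat_lit 4) (nat_lit 319) (nat_lit 276) (nat_lit 185)))) (XT.nd (nat_lit 156) (nat_lit 0) (nat_lit 0) (XT.nd (nat_lit 78) (nat_lit 76) (nat_lit 0) (XT.lf (nat_lit 0) (nat_lit 18672752272) (nat_lit 152) (nat_lit 20533955026) (nat_lit 76) (nat_lit 100547677583) (nat_lit 8) (nat_lit 5) (nat_lit 10) (nat_lit 5) (nat_lit 9) (nat_lit 4) (nat_lit 320) (nat_lit 276) (nat_lit 184)) (XT.lf (nat_lit 0) (nat_lit 16714050582) (nat_lit 76) (nat_lit 19868177326) (nat_lit 152) (nat_lit 112669418734) (nat_lit 7) (nat_lit 5) (nat_lit 8) (nat_lit 5) (nat_lit 9) (nat_lit 4) (nat_lit 321) (nat_lit 276) (nat_lit 183))) (XT.nd (nat_lit 78) (nat_lit 0) (nat_lit 0) (XT.lf (nat_lit 0) (nat_lit 56522319718) (nat_lit 152) (nat_lit 101398087110) (nat_lit 0) (nat_lit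 1540455985) (nat_lit 7) (nat_lit 5) (nat_lit 9) (nat_lit 4) (nat_lit 7) (nat_lit 4) (nat_lit 322) (nat_lit 276) (nat_lit 182)) (XT.lf (nat_lit 0) (nat_lit 78571241488) (nat_lit 152) (nat_lit 68288049318) (nat_lit 0) (nat_lit 23586437628) (nat_lit 7) (nat_lit 5) (nat_lit 9) (nat_lit 4) (nat_lit 7) (nat_lit 4) (nat_lit 323) (nat_lit 276) (nat_lit 181))))) (XT.nd (nat_lit 312) (nat_lit 152) (nat_lit 0) (XT.nd (nat_lit 156) (nat_lit 0) (nat_lit 0) (XT.nd (nat_lit 78) (nat_lit 76) (nat_lit 0) (XT.lf (nat_lit 0) (nat_lit 102381823353) (nat_lit 152) (nat_lit 32533444909) (nat_lit 0) (nat_lit 47394297153) (nat_lit 7) (nat_lit 5) (nat_lit 9) (nat_lit 4) (nat_lit 7) (nat_lit 4) (nat_lit 324) (nat_lit 276) (nat_lit 180)) (XT.lf (nat_lit 0) (nat_lit 6397641174) (nat_lit 76) (nat_lit 121851387306) (nat_lit 76) (nat_lit 66861340421) (nat_lit 6) (nat_lit 4) (nat_lit 7) (nat_lit 5) (nat_lit 7) (nat_lit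 4) (nat_lit 325) (nat_lit 276) (nat_lit 179))) (XT.nd (nat_lit 78) (nat_lit 0) (nat_lit 0) (XT.lf (nat_lit 0) (nat_lit 50289596692) (nat_lit 76) (nat_lit 106783511274) (nat_lit 76) (nat_lit 51791130422) (nat_lit 6) (nat_lit 4) (nat_lit 7) (nat_lit 5) (nat_lit 7) (nat_lit 4) (nat_lit 326) (nat_lit 276) (nat_lit 178)) (XT.lf (nat_lit 0) (nat_lit 97689368565) (nat_lit 76) (nat_lit 90511871090) (nat_lit 76) (nat_lit 35517329156) (nat_lit 6) (nat_lit 4) (nat_lit 7) (nat_lit 5) (nat_lit 7) (nat_lit 4) (nat_lit 327) (nat_lit 276) (nat_lit 177)))) (XT.nd (nat_lit 156) (nat_lit 76) (nat_lit 0) (XT.nd (nat_lit 78) (nat_lit 76) (nat_lit 0) (XT.lf (nat_lit 0) (nat_lit 148877844330) (nat_lit 76) (nat_lit 72940042217) (nat_lit 76) (nat_lit 17943499283) (nat_lit 6) (nat_lit 4) (nat_lit 7) (nat_lit 5) (nat_lit 7) (nat_lit 4) (nat_lit 328) (nat_lit 276) (nat_lit 176)) (XT.lf (nat_lit 0) (nat_lit 982750511)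 (nat_lit 152) (nat_lit 52954274649) (nat_lit 76) (nat_lit 203148742452) (nat_lit 5) (nat_lit 5) (nat_lit 7) (nat_lit 5) (nat_lit 6) (nat_lit 4) (nat_lit 329) (nat_lit 276) (nat_lit 175))) (XT.nd (nat_lit 78) (nat_lit 76) (nat_lit 0) (XT.lf (nat_lit 0) (nat_lit 20452157765) (nat_lit 152) (nat_lit 12459623095) (nat_lit 76) (nat_lit 242847157141) (nat_lit 5) (nat_lit 5) (nat_lit 7) (nat_lit 5) (nat_lit 6) (nat_lit 4) (nat_lit 330) (nat_lit 276) (nat_lit 174)) (XT.lf (nat_lit 0) (nat_lit 32918647102) (nat_lit 76) (nat_lit 9350750402) (nat_lit 152) (nat_lit 253593343111) (nat_lit 4) (nat_lit 5) (nat_lit 5) (nat_lit 5) (nat_lit 6) (nat_lit 4) (nat_lit 331) (nat_lit 276) (nat_lit 173)))))) (XT.nd (nat_lit 624) (nat_lit 0) (nat_lit 0) (XT.nd (nat_lit 312) (nat_lit 76) (nat_lit 0) (XT.nd (nat_lit 156) (nat_lit 0) (nat_lit 0) (XT.nd (nat_lit 78) (nat_lit 0) (nat_lit 0) (XT.lf (nat_lit 0) (nat_lit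 66567220060) (nat_lit 152) (nat_lit 235310453511) (nat_lit 0) (nat_lit 15638358483) (nat_lit 4) (nat_lit 5) (nat_lit 6) (nat_lit 4) (nat_lit 4) (nat_lit 4) (nat_lit 332) (nat_lit 276) (nat_lit 172)) (XT.lf (nat_lit 0) (nat_lit 93050446807) (nat_lit 152) (nat_lit 205711490314) (nat_lit 0) (nat_lit 42120324260) (nat_lit 4) (nat_lit 5) (nat_lit 6) (nat_lit 4) (nat_lit 4) (nat_lit 4) (nat_lit 333) (nat_lit 276) (nat_lit 171))) (XT.nd (nat_lit 78) (nat_lit 0) (nat_lit 0) (XT.lf (nat_lit 0) (nat_lit 121651129613) (nat_lit 152) (nat_lit 173746916886) (nat_lit 0) (nat_lit 70719839501) (nat_lit 4) (nat_lit 5) (nat_lit 6) (nat_lit 4) (nat_lit 4) (nat_lit 4) (nat_lit 334) (nat_lit 276) (nat_lit 170)) (XT.lf (nat_lit 0) (nat_lit 152538754006) (nat_lit 152) (nat_lit 139227313534) (nat_lit 0) (nat_lit 101606382815) (nat_lit 4) (nat_lit 5) (nat_lit 6) (nat_lit 4) (nat_lit 4) (nat_lit 4) (nat_lit 335)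 (nat_lit 276) (nat_lit 169)))) (XT.nd (nat_lit 156) (nat_lit 76) (nat_lit 0) (XT.nd (nat_lit 78) (nat_lit 0) (nat_lit 0) (XT.lf (nat_lit 0) (nat_lit 185896357759) (nat_lit 152) (nat_lit 101948119644) (nat_lit 0) (nat_lit 134962985570) (nat_lit 4) (nat_lit 5) (nat_lit 6) (nat_lit 4) (nat_lit 4) (nat_lit 4) (nat_lit 336) (nat_lit 276) (nat_lit 168)) (XT.lf (nat_lit 0) (nat_lit 221921615562) (nat_lit 152) (nat_lit 61688421475) (nat_lit 0) (nat_lit 170987316522) (nat_lit 4) (nat_lit 5) (nat_lit 6) (nat_lit 4) (nat_lit 4) (nat_lit 4) (nat_lit 337) (nat_lit 276) (nat_lit 167))) (XT.nd (nat_lit 78) (nat_lit 76) (nat_lit 0) (XT.lf (nat_lit 0) (nat_lit 260828010424) (nat_lit 152) (nat_lit 18209643039) (nat_lit 0) (nat_lit 209892853189) (nat_lit 4) (nat_lit 5) (nat_lit 6) (nat_lit 4) (nat_lit 4) (nat_lit 4) (nat_lit 338) (nat_lit 276) (nat_lit 166)) (XT.lf (nat_lit 0) (nat_lit 30259574135) (nat_lit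 76) (nat_lit 273314268108) (nat_lit 76) (nat_lit 222378316248) (nat_lit 3) (nat_lit 4) (nat_lit 4) (nat_lit 5) (nat_lit 4) (nat_lit 4) (nat_lit 339) (nat_lit 276) (nat_lit 165))))) (XT.nd (nat_lit 312) (nat_lit 0) (nat_lit 0) (XT.nd (nat_lit 156) (nat_lit 0) (nat_lit 0) (XT.nd (nat_lit 78) (nat_lit 0) (nat_lit 0) (XT.lf (nat_lit 0) (nat_lit 83640396979) (nat_lit 76) (nat_lit 266596033224) (nat_lit 76) (nat_lit 215659345601) (nat_lit 3) (nat_lit 4) (nat_lit 4) (nat_lit 5) (nat_lit 4) (nat_lit 4) (nat_lit 340) (nat_lit 276) (nat_lit 164)) (XT.lf (nat_lit 0) (nat_lit 141290268762) (nat_lit 76) (nat_lit 259341020960) (nat_lit 76) (nat_lit 208403652073) (nat_lit 3) (nat_lit 4) (nat_lit 4) (nat_lit 5) (nat_lit 4) (nat_lit 4) (nat_lit 341) (nat_lit 276) (nat_lit 163))) (XT.nd (nat_lit 78) (nat_lit 0) (nat_lit 0) (XT.lf (nat_lit 0) (nat_lit 203550818353) (nat_lit 76) (nat_lit 251506238649) (nat_lit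 76) (nat_lit 200568238963) (nat_lit 3) (nat_lit 4) (nat_lit 4) (nat_lit 5) (nat_lit 4) (nat_lit 4) (nat_lit 342) (nat_lit 276) (nat_lit 162)) (XT.lf (nat_lit 0) (nat_lit 270790997157) (nat_lit 76) (nat_lit 243045257953) (nat_lit 76) (nat_lit 192106674194) (nat_lit 3) (nat_lit 4) (nat_lit 4) (nat_lit 5) (nat_lit 4) (nat_lit 4) (nat_lit 343) (nat_lit 276) (nat_lit 161)))) (XT.nd (nat_lit 156) (nat_lit 0) (nat_lit 0) (XT.nd (nat_lit 78) (nat_lit 0) (nat_lit 0) (XT.lf (nat_lit 0) (nat_lit 343409265494) (nat_lit 76) (nat_lit 233907939727) (nat_lit 76) (nat_lit 182968815159) (nat_lit 3) (nat_lit 4) (nat_lit 4) (nat_lit 5) (nat_lit 4) (nat_lit 4) (nat_lit 344) (nat_lit 276) (nat_lit 160)) (XT.lf (nat_lit 0) (nat_lit 421835953842) (nat_lit 76) (nat_lit 224040136899) (nat_lit 76) (nat_lit 173100511583) (nat_lit 3) (nat_lit 4) (nat_lit 4) (nat_lit 5) (nat_lit 4) (nat_lit 4) (nat_lit 345) (nat_lit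 276) (nat_lit 159))) (XT.nd (nat_lit 78) (nat_lit 0) (nat_lit 0) (XT.lf (nat_lit 0) (nat_lit 506535812947) (nat_lit 76) (nat_lit 213383373601) (nat_lit 76) (nat_lit 162443284629) (nat_lit 3) (nat_lit 4) (nat_lit 4) (nat_lit 5) (nat_lit 4) (nat_lit 4) (nat_lit 346) (nat_lit 276) (nat_lit 158)) (XT.lf (nat_lit 0) (nat_lit 598010767900) (nat_lit 76) (nat_lit 201874498643) (nat_lit 76) (nat_lit 150933980360) (nat_lit 3) (nat_lit 4) (nat_lit 4) (nat_lit 5) (nat_lit 4) (nat_lit 4) (nat_lit 347) (nat_lit 276) (nat_lit 157))))))))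
noncomputable def xc77 : XT := (XT.nd (nat_lit 35958) (nat_lit 0) (nat_lit 608) (XT.nd (nat_lit 1170) (nat_lit 0) (nat_lit 0) (XT.nd (nat_lit 546) (nat_lit 152) (nat_lit 0) (XT.nd (nat_lit 234) (nat_lit 0) (nat_lit 0) (XT.nd (nat_lit 78) (nat_lit 0) (nat_lit 0) (XT.lf (nat_lit 0) (nat_lit 696802892508) (nat_lit 76) (nat_lit 189445311285) (nat_lit 76) (nat_lit 138504395492) (nat_lit 3) (nat_lit 4) (nat_lit 4) (nat_lit 5) (nat_lit 4) (nat_lit 4) (nat_lit 348) (nat_lit 276) (nat_lit 156)) (XT.nd (nat_lit 78) (nat_lit 0) (nat_lit 0) (XT.lf (nat_lit 0) (nat_lit 803497621583) (nat_lit 76) (nat_lit 176022157083) (nat_lit 76) (nat_lit 125080873225) (nat_lit 3) (nat_lit 4) (nat_lit 4) (nat_lit 5) (nat_lit 4) (nat_lit 4) (nat_lit 349) (nat_lit 276) (nat_lit 155)) (XT.lf (nat_lit 0) (nat_lit 918727220188) (nat_lit 76) (nat_lit 161525491420) (nat_lit 76) (nat_lit 110583866760) (nat_lit 3) (nat_lit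 4) (nat_lit 4) (nat_lit 5) (nat_lit 4) (nat_lit 4) (nat_lit 350) (nat_lit 276) (nat_lit 154)))) (XT.nd (nat_lit 156) (nat_lit 0) (nat_lit 0) (XT.nd (nat_lit 78) (nat_lit 0) (nat_lit 0) (XT.lf (nat_lit 0) (nat_lit 1043174530387) (nat_lit 76) (nat_lit 145869408128) (nat_lit 76) (nat_lit 94927467912) (nat_lit 3) (nat_lit 4) (nat_lit 4) (nat_lit 5) (nat_lit 4) (nat_lit 4) (nat_lit 351) (nat_lit 276) (nat_lit 153)) (XT.lf (nat_lit 0) (nat_lit 1177577017723) (nat_lit 76) (nat_lit 128961130418) (nat_lit 76) (nat_lit 78018898020) (nat_lit 3) (nat_lit 4) (nat_lit 4) (nat_lit 5) (nat_lit 4) (nat_lit 4) (nat_lit 352) (nat_lit 276) (nat_lit 152))) (XT.nd (nat_lit 78) (nat_lit 0) (nat_lit 0) (XT.lf (nat_lit 0) (nat_lit 1322731141379) (nat_lit 76) (nat_lit 110700461088) (nat_lit 76) (nat_lit 59757958151) (nat_lit 3) (nat_lit 4) (nat_lit 4) (nat_lit 5) (nat_lit 4) (nat_lit 4) (nat_lit 353) (nat_lit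 276) (nat_lit 151)) (XT.lf (nat_lit 0) (nat_lit 1479497073941) (nat_lit 76) (nat_lit 90979188765) (nat_lit 76) (nat_lit 40036435329) (nat_lit 3) (nat_lit 4) (nat_lit 4) (nat_lit 5) (nat_lit 4) (nat_lit 4) (nat_lit 354) (nat_lit 276) (nat_lit 150))))) (XT.nd (nat_lit 312) (nat_lit 0) (nat_lit 0) (XT.nd (nat_lit 156) (nat_lit 76) (nat_lit 0) (XT.nd (nat_lit 78) (nat_lit 76) (nat_lit 0) (XT.lf (nat_lit 0) (nat_lit 1648803798712) (nat_lit 76) (nat_lit 69680446650) (nat_lit 76) (nat_lit 18737461271) (nat_lit 3) (nat_lit 4) (nat_lit 4) (nat_lit 5) (nat_lit 4) (nat_lit 4) (nat_lit 355) (nat_lit 276) (nat_lit 149)) (XT.lf (nat_lit 0) (nat_lit 4051818580) (nat_lit 152) (nat_lit 42515417493) (nat_lit 76) (nat_lit 1827492012321) (nat_lit 2) (nat_lit 5) (nat_lit 4) (nat_lit 5) (nat_lit 3) (nat_lit 4) (nat_lit 356) (nat_lit 276) (nat_lit 148))) (XT.nd (nat_lit 78) (nat_lit 0) (nat_lit 0) (XT.lf (nat_lit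 0) (nat_lit 6918237833) (nat_lit 76) (nat_lit 20899856795) (nat_lit 152) (nat_lit 1993973470936) (nat_lit 1) (nat_lit 5) (nat_lit 2) (nat_lit 5) (nat_lit 3) (nat_lit 4) (nat_lit 357) (nat_lit 276) (nat_lit 147)) (XT.lf (nat_lit 0) (nat_lit 54842137313) (nat_lit 152) (nat_lit 2118719660801) (nat_lit 0) (nat_lit 7672152943) (nat_lit 1) (nat_lit 5) (nat_lit 3) (nat_lit 4) (nat_lit 1) (nat_lit 4) (nat_lit 358) (nat_lit 276) (nat_lit 146)))) (XT.nd (nat_lit 156) (nat_lit 0) (nat_lit 0) (XT.nd (nat_lit 78) (nat_lit 0) (nat_lit 0) (XT.lf (nat_lit 0) (nat_lit 84570754198) (nat_lit 152) (nat_lit 2231416949263) (nat_lit 0) (nat_lit 37400611971) (nat_lit 1) (nat_lit 5) (nat_lit 3) (nat_lit 4) (nat_lit 1) (nat_lit 4) (nat_lit 359) (nat_lit 276) (nat_lit 145)) (XT.lf (nat_lit 0) (nat_lit 116677472806) (nat_lit 152) (nat_lit 2353130386844) (nat_lit 0) (nat_lit 69507184414) (nat_lit 1) (nat_lit 5)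 (nat_lit 3) (nat_lit 4) (nat_lit 1) (nat_lit 4) (nat_lit 360) (nat_lit 276) (nat_lit 144))) (XT.nd (nat_lit 78) (nat_lit 0) (nat_lit 0) (XT.lf (nat_lit 0) (nat_lit 151352555172) (nat_lit 152) (nat_lit 2484581238359) (nat_lit 0) (nat_lit 104182131444) (nat_lit 1) (nat_lit 5) (nat_lit 3) (nat_lit 4) (nat_lit 1) (nat_lit 4) (nat_lit 361) (nat_lit 276) (nat_lit 143)) (XT.lf (nat_lit 0) (nat_lit 188801483268) (nat_lit 152) (nat_lit 2626548471817) (nat_lit 0) (nat_lit 141630934228) (nat_lit 1) (nat_lit 5) (nat_lit 3) (nat_lit 4) (nat_lit 1) (nat_lit 4) (nat_lit 362) (nat_lit 276) (nat_lit 142)))))) (XT.nd (nat_lit 34164) (nat_lit 0) (nat_lit 2736) (XT.nd (nat_lit 234) (nat_lit 0) (nat_lit 0) (XT.nd (nat_lit 78) (nat_lit 0) (nat_lit 0) (XT.lf (nat_lit 0) (nat_lit 229246176667) (nat_lit 152) (nat_lit 2779873374527) (nat_lit 0) (nat_lit 182075511597) (nat_lit 1) (nat_lit 5) (nat_lit 3) (nat_lit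 4) (nat_lit 1) (nat_lit 4) (nat_lit 363) (nat_lit 276) (nat_lit 141)) (XT.nd (nat_lit 78) (nat_lit 0) (nat_lit 0) (XT.lf (nat_lit 0) (nat_lit 272926307625) (nat_lit 152) (nat_lit 2945464538505) (nat_lit 0) (nat_lit 225755535121) (nat_lit 1) (nat_lit 5) (nat_lit 3) (nat_lit 4) (nat_lit 1) (nat_lit 4) (nat_lit 364) (nat_lit 276) (nat_lit 140)) (XT.lf (nat_lit 0) (nat_lit 320100721364) (nat_lit 152) (nat_lit 3124303244723) (nat_lit 0) (nat_lit 272929849384) (nat_lit 1) (nat_lit 5) (nat_lit 3) (nat_lit 4) (nat_lit 1) (nat_lit 4) (nat_lit 365) (nat_lit 276) (nat_lit 139)))) (XT.nd (nat_lit 33774) (nat_lit 0) (nat_lit 3268) (XT.nd (nat_lit 33696) (nat_lit 0) (nat_lit 3268) (XT.lf (nat_lit 0) (nat_lit 371048969965) (nat_lit 152) (nat_lit 3317449278106) (nat_lit 0) (nat_lit 323878005877) (nat_lit 1) (nat_lit 5) (nat_lit 3) (nat_lit 4) (nat_lit 1) (nat_lit 4) (nat_lit 366) (nat_lit 276) (nat_lit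 138)) (XT.lf (nat_lit 0) (nat_lit 3378228742) (nat_lit 532) (nat_lit 2138786358) (nat_lit 532) (nat_lit 2138786358) (nat_lit 44) (nat_lit 3) (nat_lit 51) (nat_lit 3) (nat_lit 51) (nat_lit 5) (nat_lit 277) (nat_lit 277) (nat_lit 226))) (XT.nd (nat_lit 78) (nat_lit 0) (nat_lit 76) (XT.lf (nat_lit 76) (nat_lit 2814930126) (nat_lit 0) (nat_lit 4540333220) (nat_lit 532) (nat_lit 8541667394) (nat_lit 45) (nat_lit 5) (nat_lit 44) (nat_lit 3) (nat_lit 51) (nat_lit 5) (nat_lit 278) (nat_lit 277) (nat_lit 225)) (XT.lf (nat_lit 0) (nat_lit 8155263409) (nat_lit 456) (nat_lit 5881495565) (nat_lit 532) (nat_lit 2480147927) (nat_lit 45) (nat_lit 5) (nat_lit 51) (nat_lit 5) (nat_lit 52) (nat_lit 5) (nat_lit 279) (nat_lit 277) (nat_lit 224))))) (XT.nd (nat_lit 312) (nat_lit 608) (nat_lit 0) (XT.nd (nat_lit 156) (nat_lit 0) (nat_lit 76) (XT.nd (nat_lit 78) (nat_lit 0) (nat_lit 76) (XT.lf (nat_lit 76)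 (nat_lit 1853778909) (nat_lit 0) (nat_lit 7303760905) (nat_lit 532) (nat_lit 8017958206) (nat_lit 46) (nat_lit 5) (nat_lit 45) (nat_lit 5) (nat_lit 52) (nat_lit 5) (nat_lit 280) (nat_lit 277) (nat_lit 223)) (XT.lf (nat_lit 0) (nat_lit 10381565980) (nat_lit 456) (nat_lit 7352692236) (nat_lit 532) (nat_lit 141265923) (nat_lit 46) (nat_lit 5) (nat_lit 52) (nat_lit 5) (nat_lit 53) (nat_lit 5) (nat_lit 281) (nat_lit 277) (nat_lit 222))) (XT.nd (nat_lit 78) (nat_lit 0) (nat_lit 0) (XT.lf (nat_lit 76) (nat_lit 1102896432) (nat_lit 0) (nat_lit 10795880936) (nat_lit 532) (nat_lit 6717221633) (nat_lit 47) (nat_lit 5) (nat_lit 46) (nat_lit 5) (nat_lit 53) (nat_lit 5) (nat_lit 282) (nat_lit 277) (nat_lit 221)) (XT.lf (nat_lit 76) (nat_lit 10637078477) (nat_lit 0) (nat_lit 3081521513) (nat_lit 532) (nat_lit 5682675809) (nat_lit 47) (nat_lit 5) (nat_lit 46) (nat_lit 5) (nat_lit 53) (nat_lit 5) (nat_lit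 283) (nat_lit 277) (nat_lit 220)))) (XT.nd (nat_lit 156) (nat_lit 304) (nat_lit 0) (XT.nd (nat_lit 78) (nat_lit 0) (nat_lit 0) (XT.lf (nat_lit 0) (nat_lit 570463579) (nat_lit 456) (nat_lit 15235276736) (nat_lit 532) (nat_lit 4433953920) (nat_lit 41) (nat_lit 5) (nat_lit 47) (nat_lit 5) (nat_lit 48) (nat_lit 5) (nat_lit 284) (nat_lit 277) (nat_lit 219)) (XT.lf (nat_lit 0) (nat_lit 11050055385) (nat_lit 456) (nat_lit 7310154983) (nat_lit 532) (nat_lit 2761000845) (nat_lit 41) (nat_lit 5) (nat_lit 47) (nat_lit 5) (nat_lit 48) (nat_lit 5) (nat_lit 285) (nat_lit 277) (nat_lit 218))) (XT.nd (nat_lit 78) (nat_lit 76) (nat_lit 0) (XT.lf (nat_lit 0) (nat_lit 261627428) (nat_lit 228) (nat_lit 20877765757) (nat_lit 304) (nat_lit 932277717) (nat_lit 38) (nat_lit 5) (nat_lit 41) (nat_lit 5) (nat_lit 42) (nat_lit 5) (nat_lit 286) (nat_lit 277) (nat_lit 217)) (XT.lf (nat_lit 0) (nat_lit 1447361866)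 (nat_lit 304) (nat_lit 11321095953) (nat_lit 76) (nat_lit 10291203506) (nat_lit 37) (nat_lit 5) (nat_lit 41) (nat_lit 5) (nat_lit 38) (nat_lit 5) (nat_lit 287) (nat_lit 277) (nat_lit 216))))))) (XT.nd (nat_lit 1170) (nat_lit 836) (nat_lit 0) (XT.nd (nat_lit 546) (nat_lit 684) (nat_lit 0) (XT.nd (nat_lit 234) (nat_lit 380) (nat_lit 0) (XT.nd (nat_lit 78) (nat_lit 228) (nat_lit 0) (XT.lf (nat_lit 0) (nat_lit 3952552765) (nat_lit 304) (nat_lit 32656988) (nat_lit 76) (nat_lit 20140739745) (nat_lit 37) (nat_lit 5) (nat_lit 41) (nat_lit 5) (nat_lit 38) (nat_lit 5) (nat_lit 288) (nat_lit 277) (nat_lit 215)) (XT.nd (nat_lit 78) (nat_lit 0) (nat_lit 0) (XT.lf (nat_lit 0) (nat_lit 7092491356) (nat_lit 304) (nat_lit 12610206057) (nat_lit 76) (nat_lit 5540133299) (nat_lit 34) (nat_lit 5) (nat_lit 38) (nat_lit 5) (nat_lit 35) (nat_lit 5) (nat_lit 289) (nat_lit 277) (nat_lit 214)) (XT.lf (nat_lit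 0) (nat_lit 10575299390) (nat_lit 304) (nat_lit 254470243) (nat_lit 76) (nat_lit 15611992710) (nat_lit 34) (nat_lit 5) (nat_lit 38) (nat_lit 5) (nat_lit 35) (nat_lit 5) (nat_lit 290) (nat_lit 277) (nat_lit 213)))) (XT.nd (nat_lit 156) (nat_lit 152) (nat_lit 0) (XT.nd (nat_lit 78) (nat_lit 0) (nat_lit 0) (XT.lf (nat_lit 0) (nat_lit 13764453924) (nat_lit 228) (nat_lit 891504628) (nat_lit 304) (nat_lit 13055143194) (nat_lit 31) (nat_lit 5) (nat_lit 34) (nat_lit 5) (nat_lit 35) (nat_lit 5) (nat_lit 291) (nat_lit 277) (nat_lit 212)) (XT.lf (nat_lit 0) (nat_lit 19295593305) (nat_lit 304) (nat_lit 413295150) (nat_lit 76) (nat_lit 9354527057) (nat_lit 31) (nat_lit 5) (nat_lit 35) (nat_lit 5) (nat_lit 32) (nat_lit 5) (nat_lit 292) (nat_lit 277) (nat_lit 211))) (XT.nd (nat_lit 78) (nat_lit 0) (nat_lit 0) (XT.lf (nat_lit 0) (nat_lit 14912253428) (nat_lit 152) (nat_lit 9765467747) (nat_lit 228)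 (nat_lit 5816514304) (nat_lit 29) (nat_lit 5) (nat_lit 31) (nat_lit 5) (nat_lit 32) (nat_lit 5) (nat_lit 293) (nat_lit 277) (nat_lit 210)) (XT.lf (nat_lit 0) (nat_lit 30515343859) (nat_lit 228) (nat_lit 588677264) (nat_lit 76) (nat_lit 933530847) (nat_lit 29) (nat_lit 5) (nat_lit 32) (nat_lit 5) (nat_lit 30) (nat_lit 5) (nat_lit 294) (nat_lit 277) (nat_lit 209))))) (XT.nd (nat_lit 312) (nat_lit 304) (nat_lit 0) (XT.nd (nat_lit 156) (nat_lit 152) (nat_lit 0) (XT.nd (nat_lit 78) (nat_lit 0) (nat_lit 0) (XT.lf (nat_lit 0) (nat_lit 3608807747) (nat_lit 228) (nat_lit 17599698664) (nat_lit 76) (nat_lit 12437932434) (nat_lit 26) (nat_lit 5) (nat_lit 29) (nat_lit 5) (nat_lit 27) (nat_lit 5) (nat_lit 295) (nat_lit 277) (nat_lit 208)) (XT.lf (nat_lit 0) (nat_lit 9075387636) (nat_lit 228) (nat_lit 1389108735) (nat_lit 76) (nat_lit 24915811308) (nat_lit 26) (nat_lit 5) (nat_lit 29) (nat_lit 5) (nat_lit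 27) (nat_lit 5) (nat_lit 296) (nat_lit 277) (nat_lit 207))) (XT.nd (nat_lit 78) (nat_lit 0) (nat_lit 0) (XT.lf (nat_lit 0) (nat_lit 15416442901) (nat_lit 228) (nat_lit 20304324040) (nat_lit 76) (nat_lit 1497165460) (nat_lit 24) (nat_lit 5) (nat_lit 27) (nat_lit 5) (nat_lit 25) (nat_lit 5) (nat_lit 297) (nat_lit 277) (nat_lit 206)) (XT.lf (nat_lit 0) (nat_lit 22567311651) (nat_lit 228) (nat_lit 2724982207) (nat_lit 76) (nat_lit 13886087860) (nat_lit 24) (nat_lit 5) (nat_lit 27) (nat_lit 5) (nat_lit 25) (nat_lit 5) (nat_lit 298) (nat_lit 277) (nat_lit 205)))) (XT.nd (nat_lit 156) (nat_lit 152) (nat_lit 0) (XT.nd (nat_lit 78) (nat_lit 0) (nat_lit 0) (XT.lf (nat_lit 0) (nat_lit 17105071341) (nat_lit 152) (nat_lit 13588923304) (nat_lit 228) (nat_lit 10569388444) (nat_lit 22) (nat_lit 5) (nat_lit 24) (nat_lit 5) (nat_lit 25) (nat_lit 5) (nat_lit 299) (nat_lit 277) (nat_lit 204)) (XT.lf (nat_lit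 0) (nat_lit 38665486841) (nat_lit 152) (nat_lit 872499129) (nat_lit 228) (nat_lit 3971839230) (nat_lit 22) (nat_lit 5) (nat_lit 24) (nat_lit 5) (nat_lit 25) (nat_lit 5) (nat_lit 300) (nat_lit 277) (nat_lit 203))) (XT.nd (nat_lit 78) (nat_lit 0) (nat_lit 0) (XT.lf (nat_lit 0) (nat_lit 3713703596) (nat_lit 152) (nat_lit 29452806489) (nat_lit 76) (nat_lit 12705982385) (nat_lit 20) (nat_lit 5) (nat_lit 22) (nat_lit 5) (nat_lit 21) (nat_lit 5) (nat_lit 301) (nat_lit 277) (nat_lit 202)) (XT.lf (nat_lit 0) (nat_lit 11951266978) (nat_lit 152) (nat_lit 8893282465) (nat_lit 76) (nat_lit 27559241270) (nat_lit 20) (nat_lit 5) (nat_lit 22) (nat_lit 5) (nat_lit 21) (nat_lit 5) (nat_lit 302) (nat_lit 277) (nat_lit 201)))))) (XT.nd (nat_lit 624) (nat_lit 304) (nat_lit 0) (XT.nd (nat_lit 312) (nat_lit 304) (nat_lit 0) (XT.nd (nat_lit 156) (nat_lit 76) (nat_lit 0) (XT.nd (nat_lit 78) (nat_lit 0) (nat_lit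 0) (XT.lf (nat_lit 0) (nat_lit 14001437702) (nat_lit 152) (nat_lit 7176840203) (nat_lit 228) (nat_lit 29932890189) (nat_lit 18) (nat_lit 5) (nat_lit 20) (nat_lit 5) (nat_lit 21) (nat_lit 5) (nat_lit 303) (nat_lit 277) (nat_lit 200)) (XT.lf (nat_lit 0) (nat_lit 31569177651) (nat_lit 228) (nat_lit 14981025245) (nat_lit 76) (nat_lit 7450884418) (nat_lit 18) (nat_lit 5) (nat_lit 21) (nat_lit 5) (nat_lit 19) (nat_lit 4) (nat_lit 304) (nat_lit 277) (nat_lit 199))) (XT.nd (nat_lit 78) (nat_lit 0) (nat_lit 0) (XT.lf (nat_lit 0) (nat_lit 9181481516) (nat_lit 76) (nat_lit 34011401362) (nat_lit 152) (nat_lit 13897203670) (nat_lit 17) (nat_lit 5) (nat_lit 18) (nat_lit 5) (nat_lit 19) (nat_lit 4) (nat_lit 305) (nat_lit 277) (nat_lit 198)) (XT.lf (nat_lit 0) (nat_lit 36119832167) (nat_lit 76) (nat_lit 20030769199) (nat_lit 152) (nat_lit 4243283481) (nat_lit 17) (nat_lit 5) (nat_lit 18) (nat_lit 5)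 (nat_lit 19) (nat_lit 4) (nat_lit 306) (nat_lit 277) (nat_lit 197)))) (XT.nd (nat_lit 156) (nat_lit 76) (nat_lit 0) (XT.nd (nat_lit 78) (nat_lit 0) (nat_lit 0) (XT.lf (nat_lit 0) (nat_lit 1151416185) (nat_lit 152) (nat_lit 4744705796) (nat_lit 228) (nat_lit 58052178859) (nat_lit 14) (nat_lit 5) (nat_lit 16) (nat_lit 5) (nat_lit 17) (nat_lit 5) (nat_lit 307) (nat_lit 277) (nat_lit 196)) (XT.lf (nat_lit 0) (nat_lit 17576171593) (nat_lit 228) (nat_lit 38161800299) (nat_lit 76) (nat_lit 11963588598) (nat_lit 14) (nat_lit 5) (nat_lit 17) (nat_lit 5) (nat_lit 15) (nat_lit 4) (nat_lit 308) (nat_lit 277) (nat_lit 195))) (XT.nd (nat_lit 78) (nat_lit 76) (nat_lit 0) (XT.lf (nat_lit 0) (nat_lit 30309118405) (nat_lit 228) (nat_lit 11687343636) (nat_lit 76) (nat_lit 29749145641) (nat_lit 14) (nat_lit 5) (nat_lit 17) (nat_lit 5) (nat_lit 15) (nat_lit 4) (nat_lit 309) (nat_lit 277) (nat_lit 194)) (XT.lf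 (nat_lit 0) (nat_lit 17787272707) (nat_lit 76) (nat_lit 26696818257) (nat_lit 152) (nat_lit 31595222255) (nat_lit 13) (nat_lit 5) (nat_lit 14) (nat_lit 5) (nat_lit 15) (nat_lit 4) (nat_lit 310) (nat_lit 277) (nat_lit 193))))) (XT.nd (nat_lit 312) (nat_lit 152) (nat_lit 0) (XT.nd (nat_lit 156) (nat_lit 152) (nat_lit 0) (XT.nd (nat_lit 78) (nat_lit 0) (nat_lit 0) (XT.lf (nat_lit 0) (nat_lit 50277131785) (nat_lit 76) (nat_lit 9831235525) (nat_lit 152) (nat_lit 20626128751) (nat_lit 13) (nat_lit 5) (nat_lit 14) (nat_lit 5) (nat_lit 15) (nat_lit 4) (nat_lit 311) (nat_lit 277) (nat_lit 192)) (XT.lf (nat_lit 0) (nat_lit 77180209129) (nat_lit 152) (nat_lit 604637256) (nat_lit 0) (nat_lit 7961442222) (nat_lit 13) (nat_lit 5) (nat_lit 15) (nat_lit 4) (nat_lit 13) (nat_lit 4) (nat_lit 312) (nat_lit 277) (nat_lit 191))) (XT.nd (nat_lit 78) (nat_lit 0) (nat_lit 0) (XT.lf (nat_lit 0) (nat_lit 5308829758)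 (nat_lit 152) (nat_lit 58183256323) (nat_lit 76) (nat_lit 27572515870) (nat_lit 11) (nat_lit 5) (nat_lit 13) (nat_lit 5) (nat_lit 12) (nat_lit 4) (nat_lit 313) (nat_lit 277) (nat_lit 190)) (XT.lf (nat_lit 0) (nat_lit 19844219692) (nat_lit 152) (nat_lit 27955992774) (nat_lit 76) (nat_lit 48989309878) (nat_lit 11) (nat_lit 5) (nat_lit 13) (nat_lit 5) (nat_lit 12) (nat_lit 4) (nat_lit 314) (nat_lit 277) (nat_lit 189)))) (XT.nd (nat_lit 156) (nat_lit 76) (nat_lit 0) (XT.nd (nat_lit 78) (nat_lit 0) (nat_lit 0) (XT.lf (nat_lit 0) (nat_lit 4929953867) (nat_lit 76) (nat_lit 30727642733) (nat_lit 152) (nat_lit 67305630941) (nat_lit 10) (nat_lit 5) (nat_lit 11) (nat_lit 5) (nat_lit 12) (nat_lit 4) (nat_lit 315) (nat_lit 277) (nat_lit 188)) (XT.lf (nat_lit 0) (nat_lit 42030698863) (nat_lit 76) (nat_lit 11466410701) (nat_lit 152) (nat_lit 56072837683) (nat_lit 10) (nat_lit 5) (nat_lit 11) (nat_lit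 5) (nat_lit 12) (nat_lit 4) (nat_lit 316) (nat_lit 277) (nat_lit 187))) (XT.nd (nat_lit 78) (nat_lit 76) (nat_lit 0) (XT.lf (nat_lit 0) (nat_lit 72985192642) (nat_lit 152) (nat_lit 34835931763) (nat_lit 0) (nat_lit 8866370518) (nat_lit 10) (nat_lit 5) (nat_lit 12) (nat_lit 4) (nat_lit 10) (nat_lit 4) (nat_lit 317) (nat_lit 277) (nat_lit 186)) (XT.lf (nat_lit 0) (nat_lit 190044425) (nat_lit 76) (nat_lit 94141792904) (nat_lit 76) (nat_lit 30018650769) (nat_lit 9) (nat_lit 4) (nat_lit 10) (nat_lit 5) (nat_lit 10) (nat_lit 4) (nat_lit 318) (nat_lit 277) (nat_lit 185))))))))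
noncomputable def xc78 : XT := (XT.nd (nat_lit 2340) (nat_lit 152) (nat_lit 0) (XT.nd (nat_lit 1170) (nat_lit 76) (nat_lit 0) (XT.nd (nat_lit 546) (nat_lit 228) (nat_lit 0) (XT.nd (nat_lit 234) (nat_lit 76) (nat_lit 0) (XT.nd (nat_lit 78) (nat_lit 76) (nat_lit 0) (XT.lf (nat_lit 0) (nat_lit 39994099075) (nat_lit 76) (nat_lit 78341795977) (nat_lit 76) (nat_lit 14214653832) (nat_lit 9) (nat_lit 4) (nat_lit 10) (nat_lit 5) (nat_lit 10) (nat_lit 4) (nat_lit 319) (nat_lit 277) (nat_lit 184)) (XT.nd (nat_lit 78) (nat_lit 0) (nat_lit 0) (XT.lf (nat_lit 0) (nat_lit 2708253886) (nat_lit 152) (nat_lit 58497677774) (nat_lit 76) (nat_lit 80195407286) (nat_lit 8) (nat_lit 5) (nat_lit 10) (nat_lit 5) (nat_lit 9) (nat_lit 4) (nat_lit 320) (nat_lit 277) (nat_lit 183)) (XT.lf (nat_lit 0) (nat_lit 20214573333) (nat_lit 152) (nat_lit 22087962688) (nat_lit 76) (nat_lit 108628318200) (nat_lit 8) (nat_lit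 5) (nat_lit 10) (nat_lit 5) (nat_lit 9) (nat_lit 4) (nat_lit 321) (nat_lit 277) (nat_lit 182)))) (XT.nd (nat_lit 156) (nat_lit 0) (nat_lit 0) (XT.nd (nat_lit 78) (nat_lit 0) (nat_lit 0) (XT.lf (nat_lit 0) (nat_lit 18137637579) (nat_lit 76) (nat_lit 21417693256) (nat_lit 152) (nat_lit 121632687247) (nat_lit 7) (nat_lit 5) (nat_lit 8) (nat_lit 5) (nat_lit 9) (nat_lit 4) (nat_lit 322) (nat_lit 277) (nat_lit 181)) (XT.lf (nat_lit 0) (nat_lit 61088073083) (nat_lit 152) (nat_lit 109427283408) (nat_lit 0) (nat_lit 1698822448) (nat_lit 7) (nat_lit 5) (nat_lit 9) (nat_lit 4) (nat_lit 7) (nat_lit 4) (nat_lit 323) (nat_lit 277) (nat_lit 180))) (XT.nd (nat_lit 78) (nat_lit 0) (nat_lit 0) (XT.lf (nat_lit 0) (nat_lit 84897651721) (nat_lit 152) (nat_lit 73674564864) (nat_lit 0) (nat_lit 25505880401) (nat_lit 7) (nat_lit 5) (nat_lit 9) (nat_lit 4) (nat_lit 7) (nat_lit 4) (nat_lit 324) (nat_lit 277)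 (nat_lit 179)) (XT.lf (nat_lit 0) (nat_lit 110610064512) (nat_lit 152) (nat_lit 35065260873) (nat_lit 0) (nat_lit 51215959224) (nat_lit 7) (nat_lit 5) (nat_lit 9) (nat_lit 4) (nat_lit 7) (nat_lit 4) (nat_lit 325) (nat_lit 277) (nat_lit 178))))) (XT.nd (nat_lit 312) (nat_lit 152) (nat_lit 0) (XT.nd (nat_lit 156) (nat_lit 0) (nat_lit 0) (XT.nd (nat_lit 78) (nat_lit 0) (nat_lit 0) (XT.lf (nat_lit 0) (nat_lit 6978518183) (nat_lit 76) (nat_lit 131566996655) (nat_lit 76) (nat_lit 72170730285) (nat_lit 6) (nat_lit 4) (nat_lit 7) (nat_lit 5) (nat_lit 7) (nat_lit 4) (nat_lit 326) (nat_lit 277) (nat_lit 177)) (XT.lf (nat_lit 0) (nat_lit 54376714163) (nat_lit 76) (nat_lit 115296098069) (nat_lit 76) (nat_lit 55897830699) (nat_lit 6) (nat_lit 4) (nat_lit 7) (nat_lit 5) (nat_lit 7) (nat_lit 4) (nat_lit 327) (nat_lit 277) (nat_lit 176))) (XT.nd (nat_lit 78) (nat_lit 0) (nat_lit 0) (XT.lf (nat_lit 0)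 (nat_lit 105563730768) (nat_lit 76) (nat_lit 97724955863) (nat_lit 76) (nat_lit 38324835714) (nat_lit 6) (nat_lit 4) (nat_lit 7) (nat_lit 5) (nat_lit 7) (nat_lit 4) (nat_lit 328) (nat_lit 277) (nat_lit 175)) (XT.lf (nat_lit 0) (nat_lit 160842898467) (nat_lit 76) (nat_lit 78749444749) (nat_lit 76) (nat_lit 19347609064) (nat_lit 6) (nat_lit 4) (nat_lit 7) (nat_lit 5) (nat_lit 7) (nat_lit 4) (nat_lit 329) (nat_lit 277) (nat_lit 174)))) (XT.nd (nat_lit 156) (nat_lit 76) (nat_lit 0) (XT.nd (nat_lit 78) (nat_lit 0) (nat_lit 0) (XT.lf (nat_lit 0) (nat_lit 1088963977) (nat_lit 152) (nat_lit 57138379070) (nat_lit 76) (nat_lit 219423059332) (nat_lit 5) (nat_lit 5) (nat_lit 7) (nat_lit 5) (nat_lit 6) (nat_lit 4) (nat_lit 330) (nat_lit 277) (nat_lit 173)) (XT.lf (nat_lit 0) (nat_lit 22113879854) (nat_lit 152) (nat_lit 13408024841) (nat_lit 76) (nat_lit 262295686642) (nat_lit 5) (nat_lit 5) (nat_lit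 7) (nat_lit 5) (nat_lit 6) (nat_lit 4) (nat_lit 331) (nat_lit 277) (nat_lit 172))) (XT.nd (nat_lit 78) (nat_lit 0) (nat_lit 0) (XT.lf (nat_lit 0) (nat_lit 35599282463) (nat_lit 76) (nat_lit 10076457560) (nat_lit 152) (nat_lit 273854020150) (nat_lit 4) (nat_lit 5) (nat_lit 5) (nat_lit 5) (nat_lit 6) (nat_lit 4) (nat_lit 332) (nat_lit 277) (nat_lit 171)) (XT.lf (nat_lit 0) (nat_lit 71916049801) (nat_lit 152) (nat_lit 254090284517) (nat_lit 0) (nat_lit 16909088915) (nat_lit 4) (nat_lit 5) (nat_lit 6) (nat_lit 4) (nat_lit 4) (nat_lit 4) (nat_lit 333) (nat_lit 277) (nat_lit 170)))))) (XT.nd (nat_lit 546) (nat_lit 0) (nat_lit 0) (XT.nd (nat_lit 234) (nat_lit 76) (nat_lit 0) (XT.nd (nat_lit 78) (nat_lit 0) (nat_lit 0) (XT.lf (nat_lit 0) (nat_lit 100516197492) (nat_lit 152) (nat_lit 222126737988) (nat_lit 0) (nat_lit 45508155528) (nat_lit 4) (nat_lit 5) (nat_lit 6) (nat_lit 4) (nat_lit 4) (nat_lit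 4) (nat_lit 334) (nat_lit 277) (nat_lit 169)) (XT.nd (nat_lit 78) (nat_lit 0) (nat_lit 0) (XT.lf (nat_lit 0) (nat_lit 131403326408) (nat_lit 152) (nat_lit 187608085468) (nat_lit 0) (nat_lit 76394283445) (nat_lit 4) (nat_lit 5) (nat_lit 6) (nat_lit 4) (nat_lit 4) (nat_lit 4) (nat_lit 335) (nat_lit 277) (nat_lit 168)) (XT.lf (nat_lit 0) (nat_lit 164760471387) (nat_lit 152) (nat_lit 150329771978) (nat_lit 0) (nat_lit 109750501574) (nat_lit 4) (nat_lit 5) (nat_lit 6) (nat_lit 4) (nat_lit 4) (nat_lit 4) (nat_lit 336) (nat_lit 277) (nat_lit 167)))) (XT.nd (nat_lit 156) (nat_lit 76) (nat_lit 0) (XT.nd (nat_lit 78) (nat_lit 0) (nat_lit 0) (XT.lf (nat_lit 0) (nat_lit 200785304399) (nat_lit 152) (nat_lit 110070888995) (nat_lit 0) (nat_lit 145774476390) (nat_lit 4) (nat_lit 5) (nat_lit 6) (nat_lit 4) (nat_lit 4) (nat_lit 4) (nat_lit 337) (nat_lit 277) (nat_lit 166)) (XT.lf (nat_lit 0) (nat_lit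 239691305936) (nat_lit 152) (nat_lit 66592865360) (nat_lit 0) (nat_lit 184679683302) (nat_lit 4) (nat_lit 5) (nat_lit 6) (nat_lit 4) (nat_lit 4) (nat_lit 4) (nat_lit 338) (nat_lit 277) (nat_lit 165))) (XT.nd (nat_lit 78) (nat_lit 76) (nat_lit 0) (XT.lf (nat_lit 0) (nat_lit 281709030081) (nat_lit 152) (nat_lit 19638053525) (nat_lit 0) (nat_lit 226696671683) (nat_lit 4) (nat_lit 5) (nat_lit 6) (nat_lit 4) (nat_lit 4) (nat_lit 4) (nat_lit 339) (nat_lit 277) (nat_lit 164)) (XT.lf (nat_lit 0) (nat_lit 32707983025) (nat_lit 76) (nat_lit 295166115508) (nat_lit 76) (nat_lit 240153075848) (nat_lit 3) (nat_lit 4) (nat_lit 4) (nat_lit 5) (nat_lit 4) (nat_lit 4) (nat_lit 340) (nat_lit 277) (nat_lit 163))))) (XT.nd (nat_lit 312) (nat_lit 0) (nat_lit 0) (XT.nd (nat_lit 156) (nat_lit 0) (nat_lit 0) (XT.nd (nat_lit 78) (nat_lit 0) (nat_lit 0) (XT.lf (nat_lit 0) (nat_lit 90357224070) (nat_lit 76) (nat_lit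 287911406578) (nat_lit 76) (nat_lit 232897736118) (nat_lit 3) (nat_lit 4) (nat_lit 4) (nat_lit 5) (nat_lit 4) (nat_lit 4) (nat_lit 341) (nat_lit 277) (nat_lit 162)) (XT.lf (nat_lit 0) (nat_lit 152617189644) (nat_lit 76) (nat_lit 280076905132) (nat_lit 76) (nat_lit 225062650600) (nat_lit 3) (nat_lit 4) (nat_lit 4) (nat_lit 5) (nat_lit 4) (nat_lit 4) (nat_lit 342) (nat_lit 277) (nat_lit 161))) (XT.nd (nat_lit 78) (nat_lit 0) (nat_lit 0) (XT.lf (nat_lit 0) (nat_lit 219856827693) (nat_lit 76) (nat_lit 271616184497) (nat_lit 76) (nat_lit 216601389155) (nat_lit 3) (nat_lit 4) (nat_lit 4) (nat_lit 5) (nat_lit 4) (nat_lit 4) (nat_lit 343) (nat_lit 277) (nat_lit 160)) (XT.lf (nat_lit 0) (nat_lit 292474595330) (nat_lit 76) (nat_lit 262479107067) (nat_lit 76) (nat_lit 207463810977) (nat_lit 3) (nat_lit 4) (nat_lit 4) (nat_lit 5) (nat_lit 4) (nat_lit 4) (nat_lit 344) (nat_lit 277) (nat_lit 159))))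 (XT.nd (nat_lit 156) (nat_lit 0) (nat_lit 0) (XT.nd (nat_lit 78) (nat_lit 0) (nat_lit 0) (XT.lf (nat_lit 0) (nat_lit 370900820067) (nat_lit 76) (nat_lit 252611527199) (nat_lit 76) (nat_lit 197595767453) (nat_lit 3) (nat_lit 4) (nat_lit 4) (nat_lit 5) (nat_lit 4) (nat_lit 4) (nat_lit 345) (nat_lit 277) (nat_lit 158)) (XT.lf (nat_lit 0) (nat_lit 455600249902) (nat_lit 76) (nat_lit 241954970345) (nat_lit 76) (nat_lit 186938781288) (nat_lit 3) (nat_lit 4) (nat_lit 4) (nat_lit 5) (nat_lit 4) (nat_lit 4) (nat_lit 346) (nat_lit 277) (nat_lit 157))) (XT.nd (nat_lit 78) (nat_lit 0) (nat_lit 0) (XT.lf (nat_lit 0) (nat_lit 547074807383) (nat_lit 76) (nat_lit 230446286539) (nat_lit 76) (nat_lit 175429699972) (nat_lit 3) (nat_lit 4) (nat_lit 4) (nat_lit 5) (nat_lit 4) (nat_lit 4) (nat_lit 347) (nat_lit 277) (nat_lit 156)) (XT.lf (nat_lit 0) (nat_lit 645866563962) (nat_lit 76) (nat_lit 218017276174)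 (nat_lit 76) (nat_lit 163000321541) (nat_lit 3) (nat_lit 4) (nat_lit 4) (nat_lit 5) (nat_lit 4) (nat_lit 4) (nat_lit 348) (nat_lit 277) (nat_lit 155))))))) (XT.nd (nat_lit 1170) (nat_lit 0) (nat_lit 0) (XT.nd (nat_lit 546) (nat_lit 152) (nat_lit 0) (XT.nd (nat_lit 234) (nat_lit 0) (nat_lit 0) (XT.nd (nat_lit 78) (nat_lit 0) (nat_lit 0) (XT.lf (nat_lit 0) (nat_lit 752560952270) (nat_lit 76) (nat_lit 204594285854) (nat_lit 76) (nat_lit 149576990420) (nat_lit 3) (nat_lit 4) (nat_lit 4) (nat_lit 5) (nat_lit 4) (nat_lit 4) (nat_lit 349) (nat_lit 277) (nat_lit 154)) (XT.nd (nat_lit 78) (nat_lit 0) (nat_lit 0) (XT.lf (nat_lit 0) (nat_lit 867790235348) (nat_lit 76) (nat_lit 190097771933) (nat_lit 76) (nat_lit 135080160943) (nat_lit 3) (nat_lit 4) (nat_lit 4) (nat_lit 5) (nat_lit 4) (nat_lit 4) (nat_lit 350) (nat_lit 277) (nat_lit 153)) (XT.lf (nat_lit 0) (nat_lit 992237253394) (nat_lit 76) (nat_lit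 174441829144) (nat_lit 76) (nat_lit 119423925972) (nat_lit 3) (nat_lit 4) (nat_lit 4) (nat_lit 5) (nat_lit 4) (nat_lit 4) (nat_lit 351) (nat_lit 277) (nat_lit 152)))) (XT.nd (nat_lit 156) (nat_lit 0) (nat_lit 0) (XT.nd (nat_lit 78) (nat_lit 0) (nat_lit 0) (XT.lf (nat_lit 0) (nat_lit 1126639470217) (nat_lit 76) (nat_lit 157533681528) (nat_lit 76) (nat_lit 102515507817) (nat_lit 3) (nat_lit 4) (nat_lit 4) (nat_lit 5) (nat_lit 4) (nat_lit 4) (nat_lit 352) (nat_lit 277) (nat_lit 151)) (XT.lf (nat_lit 0) (nat_lit 1271793343399) (nat_lit 76) (nat_lit 139273132657) (nat_lit 76) (nat_lit 84254708447) (nat_lit 3) (nat_lit 4) (nat_lit 4) (nat_lit 5) (nat_lit 4) (nat_lit 4) (nat_lit 353) (nat_lit 277) (nat_lit 150))) (XT.nd (nat_lit 78) (nat_lit 0) (nat_lit 0) (XT.lf (nat_lit 0) (nat_lit 1428559044040) (nat_lit 76) (nat_lit 119551971869) (nat_lit 76) (nat_lit 64533315716) (nat_lit 3) (nat_lit 4)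 (nat_lit 4) (nat_lit 5) (nat_lit 4) (nat_lit 4) (nat_lit 354) (nat_lit 277) (nat_lit 149)) (XT.lf (nat_lit 0) (nat_lit 1597865554069) (nat_lit 76) (nat_lit 98253333028) (nat_lit 76) (nat_lit 43234462112) (nat_lit 3) (nat_lit 4) (nat_lit 4) (nat_lit 5) (nat_lit 4) (nat_lit 4) (nat_lit 355) (nat_lit 277) (nat_lit 148))))) (XT.nd (nat_lit 312) (nat_lit 0) (nat_lit 0) (XT.nd (nat_lit 156) (nat_lit 76) (nat_lit 0) (XT.nd (nat_lit 78) (nat_lit 76) (nat_lit 0) (XT.lf (nat_lit 0) (nat_lit 1780716171325) (nat_lit 76) (nat_lit 75251001976) (nat_lit 76) (nat_lit 20231932206) (nat_lit 3) (nat_lit 4) (nat_lit 4) (nat_lit 5) (nat_lit 4) (nat_lit 4) (nat_lit 356) (nat_lit 277) (nat_lit 147)) (XT.lf (nat_lit 0) (nat_lit 4379945140) (nat_lit 152) (nat_lit 45908968001) (nat_lit 76) (nat_lit 1973694754418) (nat_lit 2) (nat_lit 5) (nat_lit 4) (nat_lit 5) (nat_lit 3) (nat_lit 4) (nat_lit 357) (nat_lit 277)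 (nat_lit 146))) (XT.nd (nat_lit 78) (nat_lit 0) (nat_lit 0) (XT.lf (nat_lit 0) (nat_lit 7479185248) (nat_lit 76) (nat_lit 22568223226) (nat_lit 152) (nat_lit 2153487170976) (nat_lit 1) (nat_lit 5) (nat_lit 2) (nat_lit 5) (nat_lit 3) (nat_lit 4) (nat_lit 358) (nat_lit 277) (nat_lit 145)) (XT.lf (nat_lit 0) (nat_lit 59233168842) (nat_lit 152) (nat_lit 2288210092336) (nat_lit 0) (nat_lit 8289111216) (nat_lit 1) (nat_lit 5) (nat_lit 3) (nat_lit 4) (nat_lit 1) (nat_lit 4) (nat_lit 359) (nat_lit 277) (nat_lit 144)))) (XT.nd (nat_lit 156) (nat_lit 0) (nat_lit 0) (XT.nd (nat_lit 78) (nat_lit 0) (nat_lit 0) (XT.lf (nat_lit 0) (nat_lit 91339803926) (nat_lit 152) (nat_lit 2409923692863) (nat_lit 0) (nat_lit 40395610963) (nat_lit 1) (nat_lit 5) (nat_lit 3) (nat_lit 4) (nat_lit 1) (nat_lit 4) (nat_lit 360) (nat_lit 277) (nat_lit 143)) (XT.lf (nat_lit 0) (nat_lit 126014808956) (nat_lit 152) (nat_lit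 2541374695253) (nat_lit 0) (nat_lit 75070490681) (nat_lit 1) (nat_lit 5) (nat_lit 3) (nat_lit 4) (nat_lit 1) (nat_lit 4) (nat_lit 361) (nat_lit 277) (nat_lit 142))) (XT.nd (nat_lit 78) (nat_lit 0) (nat_lit 0) (XT.lf (nat_lit 0) (nat_lit 163463665443) (nat_lit 152) (nat_lit 2683342068411) (nat_lit 0) (nat_lit 112519231139) (nat_lit 1) (nat_lit 5) (nat_lit 3) (nat_lit 4) (nat_lit 1) (nat_lit 4) (nat_lit 362) (nat_lit 277) (nat_lit 141)) (XT.lf (nat_lit 0) (nat_lit 203908292538) (nat_lit 152) (nat_lit 2836667100472) (nat_lit 0) (nat_lit 152963750799) (nat_lit 1) (nat_lit 5) (nat_lit 3) (nat_lit 4) (nat_lit 1) (nat_lit 4) (nat_lit 363) (nat_lit 277) (nat_lit 140)))))) (XT.nd (nat_lit 34320) (nat_lit 0) (nat_lit 2508) (XT.nd (nat_lit 34008) (nat_lit 0) (nat_lit 3268) (XT.nd (nat_lit 156) (nat_lit 0) (nat_lit 0) (XT.nd (nat_lit 78) (nat_lit 0) (nat_lit 0) (XT.lf (nat_lit 0) (nat_lit 247588362104)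 (nat_lit 152) (nat_lit 3002258384220) (nat_lit 0) (nat_lit 196643720889) (nat_lit 1) (nat_lit 5) (nat_lit 3) (nat_lit 4) (nat_lit 1) (nat_lit 4) (nat_lit 364) (nat_lit 277) (nat_lit 139)) (XT.lf (nat_lit 0) (nat_lit 294762718998) (nat_lit 152) (nat_lit 3181097201337) (nat_lit 0) (nat_lit 243817985675) (nat_lit 1) (nat_lit 5) (nat_lit 3) (nat_lit 4) (nat_lit 1) (nat_lit 4) (nat_lit 365) (nat_lit 277) (nat_lit 138))) (XT.nd (nat_lit 33774) (nat_lit 0) (nat_lit 3268) (XT.lf (nat_lit 0) (nat_lit 345710914965) (nat_lit 152) (nat_lit 3374243337404) (nat_lit 0) (nat_lit 294766096357) (nat_lit 1) (nat_lit 5) (nat_lit 3) (nat_lit 4) (nat_lit 1) (nat_lit 4) (nat_lit 366) (nat_lit 277) (nat_lit 137)) (XT.lf (nat_lit 0) (nat_lit 3903062056) (nat_lit 532) (nat_lit 2172002765) (nat_lit 532) (nat_lit 2172002765) (nat_lit 44) (nat_lit 3) (nat_lit 51) (nat_lit 3) (nat_lit 51) (nat_lit 5) (nat_lit 278)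 (nat_lit 278) (nat_lit 224)))) (XT.nd (nat_lit 156) (nat_lit 0) (nat_lit 76) (XT.nd (nat_lit 78) (nat_lit 0) (nat_lit 76) (XT.lf (nat_lit 76) (nat_lit 3308915944) (nat_lit 0) (nat_lit 5112668124) (nat_lit 532) (nat_lit 8707328445) (nat_lit 45) (nat_lit 5) (nat_lit 44) (nat_lit 3) (nat_lit 51) (nat_lit 5) (nat_lit 279) (nat_lit 278) (nat_lit 223)) (XT.lf (nat_lit 0) (nat_lit 9245527626) (nat_lit 456) (nat_lit 6061651180) (nat_lit 532) (nat_lit 2494626608) (nat_lit 45) (nat_lit 5) (nat_lit 51) (nat_lit 5) (nat_lit 52) (nat_lit 5) (nat_lit 280) (nat_lit 278) (nat_lit 222))) (XT.nd (nat_lit 78) (nat_lit 0) (nat_lit 76) (XT.lf (nat_lit 76) (nat_lit 2285094264) (nat_lit 0) (nat_lit 8017265524) (nat_lit 532) (nat_lit 8212879816) (nat_lit 46) (nat_lit 5) (nat_lit 45) (nat_lit 5) (nat_lit 52) (nat_lit 5) (nat_lit 281) (nat_lit 278) (nat_lit 221)) (XT.lf (nat_lit 0) (nat_lit 11590896291) (nat_lit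 456) (nat_lit 7644223676) (nat_lit 532) (nat_lit 38918630) (nat_lit 46) (nat_lit 5) (nat_lit 52) (nat_lit 5) (nat_lit 53) (nat_lit 5) (nat_lit 282) (nat_lit 278) (nat_lit 220))))) (XT.nd (nat_lit 312) (nat_lit 532) (nat_lit 0) (XT.nd (nat_lit 156) (nat_lit 380) (nat_lit 0) (XT.nd (nat_lit 78) (nat_lit 0) (nat_lit 0) (XT.lf (nat_lit 76) (nat_lit 1480301099) (nat_lit 0) (nat_lit 11728078476) (nat_lit 532) (nat_lit 6867150874) (nat_lit 47) (nat_lit 5) (nat_lit 46) (nat_lit 5) (nat_lit 53) (nat_lit 5) (nat_lit 283) (nat_lit 278) (nat_lit 219)) (XT.lf (nat_lit 76) (nat_lit 11755797489) (nat_lit 0) (nat_lit 3391494220) (nat_lit 532) (nat_lit 5778541271) (nat_lit 47) (nat_lit 5) (nat_lit 46) (nat_lit 5) (nat_lit 53) (nat_lit 5) (nat_lit 284) (nat_lit 278) (nat_lit 218))) (XT.nd (nat_lit 78) (nat_lit 0) (nat_lit 0) (XT.lf (nat_lit 0) (nat_lit 905409757) (nat_lit 456) (nat_lit 16477004824) (nat_lit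 532) (nat_lit 4450507078) (nat_lit 41) (nat_lit 5) (nat_lit 47) (nat_lit 5) (nat_lit 48) (nat_lit 5) (nat_lit 285) (nat_lit 278) (nat_lit 217)) (XT.lf (nat_lit 0) (nat_lit 12201938604) (nat_lit 456) (nat_lit 7916176593) (nat_lit 532) (nat_lit 2668766880) (nat_lit 41) (nat_lit 5) (nat_lit 47) (nat_lit 5) (nat_lit 48) (nat_lit 5) (nat_lit 286) (nat_lit 278) (nat_lit 216)))) (XT.nd (nat_lit 156) (nat_lit 228) (nat_lit 0) (XT.nd (nat_lit 78) (nat_lit 76) (nat_lit 0) (XT.lf (nat_lit 0) (nat_lit 567569617) (nat_lit 228) (nat_lit 22537031346) (nat_lit 304) (nat_lit 710046706) (nat_lit 38) (nat_lit 5) (nat_lit 41) (nat_lit 5) (nat_lit 42) (nat_lit 5) (nat_lit 287) (nat_lit 278) (nat_lit 215)) (XT.lf (nat_lit 0) (nat_lit 1824229915) (nat_lit 304) (nat_lit 11948422024) (nat_lit 76) (nat_lit 11110182316) (nat_lit 37) (nat_lit 5) (nat_lit 41) (nat_lit 5) (nat_lit 38) (nat_lit 5) (nat_lit 288) (nat_lit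 278) (nat_lit 214))) (XT.nd (nat_lit 78) (nat_lit 0) (nat_lit 0) (XT.lf (nat_lit 0) (nat_lit 234187696) (nat_lit 228) (nat_lit 4281941417) (nat_lit 304) (nat_lit 21519445789) (nat_lit 34) (nat_lit 5) (nat_lit 37) (nat_lit 5) (nat_lit 38) (nat_lit 5) (nat_lit 289) (nat_lit 278) (nat_lit 213)) (XT.lf (nat_lit 0) (nat_lit 7890278968) (nat_lit 304) (nat_lit 13349316870) (nat_lit 76) (nat_lit 6003618428) (nat_lit 34) (nat_lit 5) (nat_lit 38) (nat_lit 5) (nat_lit 35) (nat_lit 5) (nat_lit 290) (nat_lit 278) (nat_lit 212))))))))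
noncomputable def xc79 : XT := (XT.nd (nat_lit 2418) (nat_lit 380) (nat_lit 0) (XT.nd (nat_lit 1170) (nat_lit 760) (nat_lit 0) (XT.nd (nat_lit 546) (nat_lit 608) (nat_lit 0) (XT.nd (nat_lit 234) (nat_lit 380) (nat_lit 0) (XT.nd (nat_lit 78) (nat_lit 228) (nat_lit 0) (XT.lf (nat_lit 0) (nat_lit 11634645844) (nat_lit 304) (nat_lit 25100389) (nat_lit 76) (nat_lit 16879724780) (nat_lit 34) (nat_lit 5) (nat_lit 38) (nat_lit 5) (nat_lit 35) (nat_lit 5) (nat_lit 291) (nat_lit 278) (nat_lit 211)) (XT.nd (nat_lit 78) (nat_lit 0) (nat_lit 0) (XT.lf (nat_lit 0) (nat_lit 15109015496) (nat_lit 228) (nat_lit 922794478) (nat_lit 304) (nat_lit 13879385380) (nat_lit 31) (nat_lit 5) (nat_lit 34) (nat_lit 5) (nat_lit 35) (nat_lit 5) (nat_lit 292) (nat_lit 278) (nat_lit 210)) (XT.lf (nat_lit 0) (nat_lit 21028442133) (nat_lit 304) (nat_lit 206324450) (nat_lit 76) (nat_lit 10138100363) (nat_lit 31) (nat_lit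 5) (nat_lit 35) (nat_lit 5) (nat_lit 32) (nat_lit 5) (nat_lit 293) (nat_lit 278) (nat_lit 209)))) (XT.nd (nat_lit 156) (nat_lit 228) (nat_lit 0) (XT.nd (nat_lit 78) (nat_lit 0) (nat_lit 0) (XT.lf (nat_lit 0) (nat_lit 16339191195) (nat_lit 152) (nat_lit 10493560805) (nat_lit 228) (nat_lit 6086107546) (nat_lit 29) (nat_lit 5) (nat_lit 31) (nat_lit 5) (nat_lit 32) (nat_lit 5) (nat_lit 294) (nat_lit 278) (nat_lit 208)) (XT.lf (nat_lit 0) (nat_lit 33125174381) (nat_lit 228) (nat_lit 406517612) (nat_lit 76) (nat_lit 1054959487) (nat_lit 29) (nat_lit 5) (nat_lit 32) (nat_lit 5) (nat_lit 30) (nat_lit 5) (nat_lit 295) (nat_lit 278) (nat_lit 207))) (XT.nd (nat_lit 78) (nat_lit 0) (nat_lit 0) (XT.lf (nat_lit 0) (nat_lit 4063561010) (nat_lit 228) (nat_lit 18775123789) (nat_lit 76) (nat_lit 13485828261) (nat_lit 26) (nat_lit 5) (nat_lit 29) (nat_lit 5) (nat_lit 27) (nat_lit 5) (nat_lit 296) (nat_lit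 278) (nat_lit 206)) (XT.lf (nat_lit 0) (nat_lit 9955167391) (nat_lit 228) (nat_lit 1284912648) (nat_lit 76) (nat_lit 26958021798) (nat_lit 26) (nat_lit 5) (nat_lit 29) (nat_lit 5) (nat_lit 27) (nat_lit 5) (nat_lit 297) (nat_lit 278) (nat_lit 205))))) (XT.nd (nat_lit 312) (nat_lit 304) (nat_lit 0) (XT.nd (nat_lit 156) (nat_lit 152) (nat_lit 0) (XT.nd (nat_lit 78) (nat_lit 0) (nat_lit 0) (XT.lf (nat_lit 0) (nat_lit 16798668056) (nat_lit 228) (nat_lit 21708200084) (nat_lit 76) (nat_lit 1676280003) (nat_lit 24) (nat_lit 5) (nat_lit 27) (nat_lit 5) (nat_lit 25) (nat_lit 5) (nat_lit 298) (nat_lit 278) (nat_lit 204)) (XT.lf (nat_lit 0) (nat_lit 24510575955) (nat_lit 228) (nat_lit 2738842007) (nat_lit 76) (nat_lit 15051920543) (nat_lit 24) (nat_lit 5) (nat_lit 27) (nat_lit 5) (nat_lit 25) (nat_lit 5) (nat_lit 299) (nat_lit 278) (nat_lit 203))) (XT.nd (nat_lit 78) (nat_lit 0) (nat_lit 0) (XT.lf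 (nat_lit 0) (nat_lit 18672447754) (nat_lit 152) (nat_lit 14609517798) (nat_lit 228) (nat_lit 11271629670) (nat_lit 22) (nat_lit 5) (nat_lit 24) (nat_lit 5) (nat_lit 25) (nat_lit 5) (nat_lit 300) (nat_lit 278) (nat_lit 202)) (XT.lf (nat_lit 0) (nat_lit 41942957923) (nat_lit 152) (nat_lit 880707050) (nat_lit 228) (nat_lit 4156892063) (nat_lit 22) (nat_lit 5) (nat_lit 24) (nat_lit 5) (nat_lit 25) (nat_lit 5) (nat_lit 301) (nat_lit 278) (nat_lit 201)))) (XT.nd (nat_lit 156) (nat_lit 152) (nat_lit 0) (XT.nd (nat_lit 78) (nat_lit 0) (nat_lit 0) (XT.lf (nat_lit 0) (nat_lit 4133562927) (nat_lit 152) (nat_lit 31614434330) (nat_lit 76) (nat_lit 13784265260) (nat_lit 20) (nat_lit 5) (nat_lit 22) (nat_lit 5) (nat_lit 21) (nat_lit 5) (nat_lit 302) (nat_lit 278) (nat_lit 200)) (XT.lf (nat_lit 0) (nat_lit 13021037820) (nat_lit 152) (nat_lit 9424562953) (nat_lit 76) (nat_lit 29821206760) (nat_lit 20)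 (nat_lit 5) (nat_lit 22) (nat_lit 5) (nat_lit 21) (nat_lit 5) (nat_lit 303) (nat_lit 278) (nat_lit 199))) (XT.nd (nat_lit 78) (nat_lit 0) (nat_lit 0) (XT.lf (nat_lit 0) (nat_lit 15297173254) (nat_lit 152) (nat_lit 7684840083) (nat_lit 228) (nat_lit 32209111757) (nat_lit 18) (nat_lit 5) (nat_lit 20) (nat_lit 5) (nat_lit 21) (nat_lit 5) (nat_lit 304) (nat_lit 278) (nat_lit 198)) (XT.lf (nat_lit 0) (nat_lit 34197548943) (nat_lit 228) (nat_lit 16010094174) (nat_lit 76) (nat_lit 8105138855) (nat_lit 18) (nat_lit 5) (nat_lit 21) (nat_lit 5) (nat_lit 19) (nat_lit 4) (nat_lit 305) (nat_lit 278) (nat_lit 197)))))) (XT.nd (nat_lit 624) (nat_lit 380) (nat_lit 0) (XT.nd (nat_lit 312) (nat_lit 76) (nat_lit 0) (XT.nd (nat_lit 156) (nat_lit 228) (nat_lit 0) (XT.nd (nat_lit 78) (nat_lit 0) (nat_lit 0) (XT.lf (nat_lit 0) (nat_lit 10081124188) (nat_lit 76) (nat_lit 36666380077) (nat_lit 152) (nat_lit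 14901700833) (nat_lit 17) (nat_lit 5) (nat_lit 18) (nat_lit 5) (nat_lit 19) (nat_lit 4) (nat_lit 306) (nat_lit 278) (nat_lit 196)) (XT.lf (nat_lit 0) (nat_lit 39162311473) (nat_lit 76) (nat_lit 21572181297) (nat_lit 152) (nat_lit 4483413632) (nat_lit 17) (nat_lit 5) (nat_lit 18) (nat_lit 5) (nat_lit 19) (nat_lit 4) (nat_lit 307) (nat_lit 278) (nat_lit 195))) (XT.nd (nat_lit 78) (nat_lit 0) (nat_lit 0) (XT.lf (nat_lit 0) (nat_lit 1397522673) (nat_lit 152) (nat_lit 5061366229) (nat_lit 228) (nat_lit 62597868287) (nat_lit 14) (nat_lit 5) (nat_lit 16) (nat_lit 5) (nat_lit 17) (nat_lit 5) (nat_lit 308) (nat_lit 278) (nat_lit 194)) (XT.lf (nat_lit 0) (nat_lit 19067997075) (nat_lit 228) (nat_lit 41066700082) (nat_lit 76) (nat_lit 12976017090) (nat_lit 14) (nat_lit 5) (nat_lit 17) (nat_lit 5) (nat_lit 15) (nat_lit 4) (nat_lit 309) (nat_lit 278) (nat_lit 193)))) (XT.nd (nat_lit 156) (nat_lit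 0) (nat_lit 0) (XT.nd (nat_lit 78) (nat_lit 76) (nat_lit 0) (XT.lf (nat_lit 0) (nat_lit 32813229131) (nat_lit 228) (nat_lit 12485253127) (nat_lit 76) (nat_lit 32180319333) (nat_lit 14) (nat_lit 5) (nat_lit 17) (nat_lit 5) (nat_lit 15) (nat_lit 4) (nat_lit 310) (nat_lit 278) (nat_lit 192)) (XT.lf (nat_lit 0) (nat_lit 19343862195) (nat_lit 76) (nat_lit 28775670475) (nat_lit 152) (nat_lit 34039891965) (nat_lit 13) (nat_lit 5) (nat_lit 14) (nat_lit 5) (nat_lit 15) (nat_lit 4) (nat_lit 311) (nat_lit 278) (nat_lit 191))) (XT.nd (nat_lit 78) (nat_lit 0) (nat_lit 0) (XT.lf (nat_lit 0) (nat_lit 54423013135) (nat_lit 76) (nat_lit 10565055439) (nat_lit 152) (nat_lit 22199415282) (nat_lit 13) (nat_lit 5) (nat_lit 14) (nat_lit 5) (nat_lit 15) (nat_lit 4) (nat_lit 312) (nat_lit 278) (nat_lit 190)) (XT.lf (nat_lit 0) (nat_lit 83421569201) (nat_lit 152) (nat_lit 534289933) (nat_lit 0) (nat_lit 8644694372)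 (nat_lit 13) (nat_lit 5) (nat_lit 15) (nat_lit 4) (nat_lit 13) (nat_lit 4) (nat_lit 313) (nat_lit 278) (nat_lit 189))))) (XT.nd (nat_lit 312) (nat_lit 152) (nat_lit 0) (XT.nd (nat_lit 156) (nat_lit 76) (nat_lit 0) (XT.nd (nat_lit 78) (nat_lit 0) (nat_lit 0) (XT.lf (nat_lit 0) (nat_lit 5800058644) (nat_lit 152) (nat_lit 62718630175) (nat_lit 76) (nat_lit 29825688568) (nat_lit 11) (nat_lit 5) (nat_lit 13) (nat_lit 5) (nat_lit 12) (nat_lit 4) (nat_lit 314) (nat_lit 278) (nat_lit 188)) (XT.lf (nat_lit 0) (nat_lit 21493352179) (nat_lit 152) (nat_lit 30082021590) (nat_lit 76) (nat_lit 52952317102) (nat_lit 11) (nat_lit 5) (nat_lit 13) (nat_lit 5) (nat_lit 12) (nat_lit 4) (nat_lit 315) (nat_lit 278) (nat_lit 187))) (XT.nd (nat_lit 78) (nat_lit 0) (nat_lit 0) (XT.lf (nat_lit 0) (nat_lit 5432004565) (nat_lit 76) (nat_lit 33137821180) (nat_lit 152) (nat_lit 72625629484) (nat_lit 10) (nat_lit 5)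 (nat_lit 11) (nat_lit 5) (nat_lit 12) (nat_lit 4) (nat_lit 316) (nat_lit 278) (nat_lit 186)) (XT.lf (nat_lit 0) (nat_lit 45492834761) (nat_lit 76) (nat_lit 12339248584) (nat_lit 152) (nat_lit 60498986983) (nat_lit 10) (nat_lit 5) (nat_lit 11) (nat_lit 5) (nat_lit 12) (nat_lit 4) (nat_lit 317) (nat_lit 278) (nat_lit 185)))) (XT.nd (nat_lit 156) (nat_lit 76) (nat_lit 0) (XT.nd (nat_lit 78) (nat_lit 76) (nat_lit 0) (XT.lf (nat_lit 0) (nat_lit 78876114200) (nat_lit 152) (nat_lit 37527359022) (nat_lit 0) (nat_lit 9614800673) (nat_lit 10) (nat_lit 5) (nat_lit 12) (nat_lit 4) (nat_lit 10) (nat_lit 4) (nat_lit 318) (nat_lit 278) (nat_lit 184)) (XT.lf (nat_lit 0) (nat_lit 298278874) (nat_lit 76) (nat_lit 101630589269) (nat_lit 76) (nat_lit 32365572029) (nat_lit 9) (nat_lit 4) (nat_lit 10) (nat_lit 5) (nat_lit 10) (nat_lit 4) (nat_lit 319) (nat_lit 278) (nat_lit 183))) (XT.nd (nat_lit 78) (nat_lit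 76) (nat_lit 0) (XT.lf (nat_lit 0) (nat_lit 43279766719) (nat_lit 76) (nat_lit 84569744223) (nat_lit 76) (nat_lit 15301297618) (nat_lit 9) (nat_lit 4) (nat_lit 10) (nat_lit 5) (nat_lit 10) (nat_lit 4) (nat_lit 320) (nat_lit 278) (nat_lit 182)) (XT.lf (nat_lit 0) (nat_lit 2969359455) (nat_lit 152) (nat_lit 63095354273) (nat_lit 76) (nat_lit 86645138397) (nat_lit 8) (nat_lit 5) (nat_lit 10) (nat_lit 5) (nat_lit 9) (nat_lit 4) (nat_lit 321) (nat_lit 278) (nat_lit 181))))))) (XT.nd (nat_lit 1170) (nat_lit 76) (nat_lit 0) (XT.nd (nat_lit 546) (nat_lit 152) (nat_lit 0) (XT.nd (nat_lit 234) (nat_lit 76) (nat_lit 0) (XT.nd (nat_lit 78) (nat_lit 76) (nat_lit 0) (XT.lf (nat_lit 0) (nat_lit 21872892217) (nat_lit 152) (nat_lit 23778946256) (nat_lit 76) (nat_lit 117350156366) (nat_lit 8) (nat_lit 5) (nat_lit 10) (nat_lit 5) (nat_lit 9) (nat_lit 4) (nat_lit 322) (nat_lit 278) (nat_lit 180)) (XT.nd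 (nat_lit 78) (nat_lit 0) (nat_lit 0) (XT.lf (nat_lit 0) (nat_lit 19662776628) (nat_lit 76) (nat_lit 23096868100) (nat_lit 152) (nat_lit 131320190956) (nat_lit 7) (nat_lit 5) (nat_lit 8) (nat_lit 5) (nat_lit 9) (nat_lit 4) (nat_lit 323) (nat_lit 278) (nat_lit 179)) (XT.lf (nat_lit 0) (nat_lit 66012814221) (nat_lit 152) (nat_lit 118110606451) (nat_lit 0) (nat_lit 1864846542) (nat_lit 7) (nat_lit 5) (nat_lit 9) (nat_lit 4) (nat_lit 7) (nat_lit 4) (nat_lit 324) (nat_lit 278) (nat_lit 178)))) (XT.nd (nat_lit 156) (nat_lit 76) (nat_lit 0) (XT.nd (nat_lit 78) (nat_lit 0) (nat_lit 0) (XT.lf (nat_lit 0) (nat_lit 91724366906) (nat_lit 152) (nat_lit 79502919285) (nat_lit 0) (nat_lit 27574238147) (nat_lit 7) (nat_lit 5) (nat_lit 9) (nat_lit 4) (nat_lit 7) (nat_lit 4) (nat_lit 325) (nat_lit 278) (nat_lit 177)) (XT.lf (nat_lit 0) (nat_lit 119491187309) (nat_lit 152) (nat_lit 37809731032) (nat_lit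 0) (nat_lit 55339057548) (nat_lit 7) (nat_lit 5) (nat_lit 9) (nat_lit 4) (nat_lit 7) (nat_lit 4) (nat_lit 326) (nat_lit 278) (nat_lit 176))) (XT.nd (nat_lit 78) (nat_lit 0) (nat_lit 0) (XT.lf (nat_lit 0) (nat_lit 7596012356) (nat_lit 76) (nat_lit 142064491473) (nat_lit 76) (nat_lit 77910508934) (nat_lit 6) (nat_lit 4) (nat_lit 7) (nat_lit 5) (nat_lit 7) (nat_lit 4) (nat_lit 327) (nat_lit 278) (nat_lit 175)) (XT.lf (nat_lit 0) (nat_lit 58781677887) (nat_lit 76) (nat_lit 124493985069) (nat_lit 76) (nat_lit 60338286994) (nat_lit 6) (nat_lit 4) (nat_lit 7) (nat_lit 5) (nat_lit 7) (nat_lit 4) (nat_lit 328) (nat_lit 278) (nat_lit 174))))) (XT.nd (nat_lit 312) (nat_lit 76) (nat_lit 0) (XT.nd (nat_lit 156) (nat_lit 76) (nat_lit 0) (XT.nd (nat_lit 78) (nat_lit 0) (nat_lit 0) (XT.lf (nat_lit 0) (nat_lit 114059594591) (nat_lit 76) (nat_lit 105519062660) (nat_lit 76) (nat_lit 41361776126) (nat_lit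 6) (nat_lit 4) (nat_lit 7) (nat_lit 5) (nat_lit 7) (nat_lit 4) (nat_lit 329) (nat_lit 278) (nat_lit 173)) (XT.lf (nat_lit 0) (nat_lit 173757335310) (nat_lit 76) (nat_lit 85027280262) (nat_lit 76) (nat_lit 20868522932) (nat_lit 6) (nat_lit 4) (nat_lit 7) (nat_lit 5) (nat_lit 7) (nat_lit 4) (nat_lit 330) (nat_lit 278) (nat_lit 172))) (XT.nd (nat_lit 78) (nat_lit 0) (nat_lit 0) (XT.lf (nat_lit 0) (nat_lit 1199738010) (nat_lit 152) (nat_lit 61664664116) (nat_lit 76) (nat_lit 236996123457) (nat_lit 5) (nat_lit 5) (nat_lit 7) (nat_lit 5) (nat_lit 6) (nat_lit 4) (nat_lit 331) (nat_lit 278) (nat_lit 171)) (XT.lf (nat_lit 0) (nat_lit 23904894793) (nat_lit 152) (nat_lit 14439198976) (nat_lit 76) (nat_lit 283297137295) (nat_lit 5) (nat_lit 5) (nat_lit 7) (nat_lit 5) (nat_lit 6) (nat_lit 4) (nat_lit 332) (nat_lit 278) (nat_lit 170)))) (XT.nd (nat_lit 156) (nat_lit 0) (nat_lit 0) (XT.nd (nat_lit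 78) (nat_lit 0) (nat_lit 0) (XT.lf (nat_lit 0) (nat_lit 38487643093) (nat_lit 76) (nat_lit 10863410178) (nat_lit 152) (nat_lit 295739373304) (nat_lit 4) (nat_lit 5) (nat_lit 5) (nat_lit 5) (nat_lit 6) (nat_lit 4) (nat_lit 333) (nat_lit 278) (nat_lit 169)) (XT.lf (nat_lit 0) (nat_lit 77689440211) (nat_lit 152) (nat_lit 274378922509) (nat_lit 0) (nat_lit 18278672812) (nat_lit 4) (nat_lit 5) (nat_lit 6) (nat_lit 4) (nat_lit 4) (nat_lit 4) (nat_lit 334) (nat_lit 278) (nat_lit 168))) (XT.nd (nat_lit 78) (nat_lit 0) (nat_lit 0) (XT.lf (nat_lit 0) (nat_lit 108576110353) (nat_lit 152) (nat_lit 239861150389) (nat_lit 0) (nat_lit 49164416103) (nat_lit 4) (nat_lit 5) (nat_lit 6) (nat_lit 4) (nat_lit 4) (nat_lit 4) (nat_lit 335) (nat_lit 278) (nat_lit 167)) (XT.lf (nat_lit 0) (nat_lit 141932830541) (nat_lit 152) (nat_lit 202583652085) (nat_lit 0) (nat_lit 82520278096) (nat_lit 4) (nat_lit 5) (nat_lit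 6) (nat_lit 4) (nat_lit 4) (nat_lit 4) (nat_lit 336) (nat_lit 278) (nat_lit 166)))))) (XT.nd (nat_lit 624) (nat_lit 0) (nat_lit 0) (XT.nd (nat_lit 312) (nat_lit 76) (nat_lit 0) (XT.nd (nat_lit 156) (nat_lit 0) (nat_lit 0) (XT.nd (nat_lit 78) (nat_lit 0) (nat_lit 0) (XT.lf (nat_lit 0) (nat_lit 177957270228) (nat_lit 152) (nat_lit 162325523903) (nat_lit 0) (nat_lit 118543923158) (nat_lit 4) (nat_lit 5) (nat_lit 6) (nat_lit 4) (nat_lit 4) (nat_lit 4) (nat_lit 337) (nat_lit 278) (nat_lit 165)) (XT.lf (nat_lit 0) (nat_lit 216862907575) (nat_lit 152) (nat_lit 118848199157) (nat_lit 0) (nat_lit 157448824741) (nat_lit 4) (nat_lit 5) (nat_lit 6) (nat_lit 4) (nat_lit 4) (nat_lit 4) (nat_lit 338) (nat_lit 278) (nat_lit 164))) (XT.nd (nat_lit 78) (nat_lit 0) (nat_lit 0) (XT.lf (nat_lit 0) (nat_lit 258880294507) (nat_lit 152) (nat_lit 71894034443) (nat_lit 0) (nat_lit 199465530411) (nat_lit 4) (nat_lit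 5) (nat_lit 6) (nat_lit 4) (nat_lit 4) (nat_lit 4) (nat_lit 339) (nat_lit 278) (nat_lit 163)) (XT.lf (nat_lit 0) (nat_lit 304258422947) (nat_lit 152) (nat_lit 21184782857) (nat_lit 0) (nat_lit 244843028051) (nat_lit 4) (nat_lit 5) (nat_lit 6) (nat_lit 4) (nat_lit 4) (nat_lit 4) (nat_lit 340) (nat_lit 278) (nat_lit 162)))) (XT.nd (nat_lit 156) (nat_lit 0) (nat_lit 0) (XT.nd (nat_lit 78) (nat_lit 0) (nat_lit 0) (XT.lf (nat_lit 0) (nat_lit 35348321048) (nat_lit 76) (nat_lit 318768007245) (nat_lit 76) (nat_lit 259352028277) (nat_lit 3) (nat_lit 4) (nat_lit 4) (nat_lit 5) (nat_lit 4) (nat_lit 4) (nat_lit 341) (nat_lit 278) (nat_lit 161)) (XT.lf (nat_lit 0) (nat_lit 97607745867) (nat_lit 76) (nat_lit 310933765860) (nat_lit 76) (nat_lit 251517246083) (nat_lit 3) (nat_lit 4) (nat_lit 4) (nat_lit 5) (nat_lit 4) (nat_lit 4) (nat_lit 342) (nat_lit 278) (nat_lit 160))) (XT.nd (nat_lit 78) (nat_lit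 0) (nat_lit 0) (XT.lf (nat_lit 0) (nat_lit 164846883216) (nat_lit 76) (nat_lit 302473286020) (nat_lit 76) (nat_lit 243056265495) (nat_lit 3) (nat_lit 4) (nat_lit 4) (nat_lit 5) (nat_lit 4) (nat_lit 4) (nat_lit 343) (nat_lit 278) (nat_lit 159)) (XT.lf (nat_lit 0) (nat_lit 237464187241) (nat_lit 76) (nat_lit 293336431550) (nat_lit 76) (nat_lit 233918947369) (nat_lit 3) (nat_lit 4) (nat_lit 4) (nat_lit 5) (nat_lit 4) (nat_lit 4) (nat_lit 344) (nat_lit 278) (nat_lit 158))))) (XT.nd (nat_lit 312) (nat_lit 0) (nat_lit 0) (XT.nd (nat_lit 156) (nat_lit 0) (nat_lit 0) (XT.nd (nat_lit 78) (nat_lit 0) (nat_lit 0) (XT.lf (nat_lit 0) (nat_lit 315889982709) (nat_lit 76) (nat_lit 283469058126) (nat_lit 76) (nat_lit 224051144634) (nat_lit 3) (nat_lit 4) (nat_lit 4) (nat_lit 5) (nat_lit 4) (nat_lit 4) (nat_lit 345) (nat_lit 278) (nat_lit 157)) (XT.lf (nat_lit 0) (nat_lit 400589015073) (nat_lit 76) (nat_lit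 272812692425) (nat_lit 76) (nat_lit 213394381422) (nat_lit 3) (nat_lit 4) (nat_lit 4) (nat_lit 5) (nat_lit 4) (nat_lit 4) (nat_lit 346) (nat_lit 278) (nat_lit 156))) (XT.nd (nat_lit 78) (nat_lit 0) (nat_lit 0) (XT.lf (nat_lit 0) (nat_lit 492063204525) (nat_lit 76) (nat_lit 261304185612) (nat_lit 76) (nat_lit 201885506543) (nat_lit 3) (nat_lit 4) (nat_lit 4) (nat_lit 5) (nat_lit 4) (nat_lit 4) (nat_lit 347) (nat_lit 278) (nat_lit 155)) (XT.lf (nat_lit 0) (nat_lit 590854620335) (nat_lit 76) (nat_lit 248875339128) (nat_lit 76) (nat_lit 189456319259) (nat_lit 3) (nat_lit 4) (nat_lit 4) (nat_lit 5) (nat_lit 4) (nat_lit 4) (nat_lit 348) (nat_lit 278) (nat_lit 154)))) (XT.nd (nat_lit 156) (nat_lit 0) (nat_lit 0) (XT.nd (nat_lit 78) (nat_lit 0) (nat_lit 0) (XT.lf (nat_lit 0) (nat_lit 697548693117) (nat_lit 76) (nat_lit 235452500551) (nat_lit 76) (nat_lit 176033165125) (nat_lit 3) (nat_lit 4)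 (nat_lit 4) (nat_lit 5) (nat_lit 4) (nat_lit 4) (nat_lit 349) (nat_lit 278) (nat_lit 153)) (XT.lf (nat_lit 0) (nat_lit 812777684042) (nat_lit 76) (nat_lit 220956127133) (nat_lit 76) (nat_lit 161536499525) (nat_lit 3) (nat_lit 4) (nat_lit 4) (nat_lit 5) (nat_lit 4) (nat_lit 4) (nat_lit 350) (nat_lit 278) (nat_lit 152))) (XT.nd (nat_lit 78) (nat_lit 0) (nat_lit 0) (XT.lf (nat_lit 0) (nat_lit 937224431575) (nat_lit 76) (nat_lit 205300314438) (nat_lit 76) (nat_lit 145880416291) (nat_lit 3) (nat_lit 4) (nat_lit 4) (nat_lit 5) (nat_lit 4) (nat_lit 4) (nat_lit 351) (nat_lit 278) (nat_lit 151)) (XT.lf (nat_lit 0) (nat_lit 1071626397924) (nat_lit 76) (nat_lit 188392287281) (nat_lit 76) (nat_lit 128972138635) (nat_lit 3) (nat_lit 4) (nat_lit 4) (nat_lit 5) (nat_lit 4) (nat_lit 4) (nat_lit 352) (nat_lit 278) (nat_lit 150))))))))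
noncomputable def xc80 : XT := (XT.nd (nat_lit 36114) (nat_lit 0) (nat_lit 456) (XT.nd (nat_lit 34944) (nat_lit 0) (nat_lit 2280) (XT.nd (nat_lit 546) (nat_lit 0) (nat_lit 0) (XT.nd (nat_lit 234) (nat_lit 152) (nat_lit 0) (XT.nd (nat_lit 78) (nat_lit 0) (nat_lit 0) (XT.lf (nat_lit 0) (nat_lit 1216780039185) (nat_lit 76) (nat_lit 170131849945) (nat_lit 76) (nat_lit 110711469356) (nat_lit 3) (nat_lit 4) (nat_lit 4) (nat_lit 5) (nat_lit 4) (nat_lit 4) (nat_lit 353) (nat_lit 278) (nat_lit 149)) (XT.nd (nat_lit 78) (nat_lit 0) (nat_lit 0) (XT.lf (nat_lit 0) (nat_lit 1373545525084) (nat_lit 76) (nat_lit 150410792431) (nat_lit 76) (nat_lit 90990197079) (nat_lit 3) (nat_lit 4) (nat_lit 4) (nat_lit 5) (nat_lit 4) (nat_lit 4) (nat_lit 354) (nat_lit 278) (nat_lit 148)) (XT.lf (nat_lit 0) (nat_lit 1542851836279) (nat_lit 76) (nat_lit 129112249213) (nat_lit 76) (nat_lit 69691455007) (nat_lit 3) (nat_lit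 4) (nat_lit 4) (nat_lit 5) (nat_lit 4) (nat_lit 4) (nat_lit 355) (nat_lit 278) (nat_lit 147)))) (XT.nd (nat_lit 156) (nat_lit 152) (nat_lit 0) (XT.nd (nat_lit 78) (nat_lit 0) (nat_lit 0) (XT.lf (nat_lit 0) (nat_lit 1725702269428) (nat_lit 76) (nat_lit 106110006701) (nat_lit 76) (nat_lit 46689028372) (nat_lit 3) (nat_lit 4) (nat_lit 4) (nat_lit 5) (nat_lit 4) (nat_lit 4) (nat_lit 356) (nat_lit 278) (nat_lit 146)) (XT.lf (nat_lit 0) (nat_lit 1923180382655) (nat_lit 76) (nat_lit 81267755311) (nat_lit 76) (nat_lit 21846606496) (nat_lit 3) (nat_lit 4) (nat_lit 4) (nat_lit 5) (nat_lit 4) (nat_lit 4) (nat_lit 357) (nat_lit 278) (nat_lit 145))) (XT.nd (nat_lit 78) (nat_lit 76) (nat_lit 0) (XT.lf (nat_lit 0) (nat_lit 4733753880) (nat_lit 152) (nat_lit 49575098600) (nat_lit 76) (nat_lit 2131593233528) (nat_lit 2) (nat_lit 5) (nat_lit 4) (nat_lit 5) (nat_lit 3) (nat_lit 4) (nat_lit 358) (nat_lit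 278) (nat_lit 144)) (XT.lf (nat_lit 0) (nat_lit 8083940153) (nat_lit 76) (nat_lit 24370575706) (nat_lit 152) (nat_lit 2325762563007) (nat_lit 1) (nat_lit 5) (nat_lit 2) (nat_lit 5) (nat_lit 3) (nat_lit 4) (nat_lit 359) (nat_lit 278) (nat_lit 143))))) (XT.nd (nat_lit 312) (nat_lit 0) (nat_lit 0) (XT.nd (nat_lit 156) (nat_lit 0) (nat_lit 0) (XT.nd (nat_lit 78) (nat_lit 0) (nat_lit 0) (XT.lf (nat_lit 0) (nat_lit 63974960675) (nat_lit 152) (nat_lit 2471260777184) (nat_lit 0) (nat_lit 8954971626) (nat_lit 1) (nat_lit 5) (nat_lit 3) (nat_lit 4) (nat_lit 1) (nat_lit 4) (nat_lit 360) (nat_lit 278) (nat_lit 142)) (XT.lf (nat_lit 0) (nat_lit 98649894097) (nat_lit 152) (nat_lit 2602711919275) (nat_lit 0) (nat_lit 43629789019) (nat_lit 1) (nat_lit 5) (nat_lit 3) (nat_lit 4) (nat_lit 1) (nat_lit 4) (nat_lit 361) (nat_lit 278) (nat_lit 141))) (XT.nd (nat_lit 78) (nat_lit 0) (nat_lit 0) (XT.lf (nat_lit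 0) (nat_lit 136098684281) (nat_lit 152) (nat_lit 2744679421784) (nat_lit 0) (nat_lit 81078471768) (nat_lit 1) (nat_lit 5) (nat_lit 3) (nat_lit 4) (nat_lit 1) (nat_lit 4) (nat_lit 362) (nat_lit 278) (nat_lit 140)) (XT.lf (nat_lit 0) (nat_lit 176543249983) (nat_lit 152) (nat_lit 2898004573615) (nat_lit 0) (nat_lit 121522937994) (nat_lit 1) (nat_lit 5) (nat_lit 3) (nat_lit 4) (nat_lit 1) (nat_lit 4) (nat_lit 363) (nat_lit 278) (nat_lit 139)))) (XT.nd (nat_lit 156) (nat_lit 0) (nat_lit 0) (XT.nd (nat_lit 78) (nat_lit 0) (nat_lit 0) (XT.lf (nat_lit 0) (nat_lit 220223262704) (nat_lit 152) (nat_lit 3063595968262) (nat_lit 0) (nat_lit 165202858607) (nat_lit 1) (nat_lit 5) (nat_lit 3) (nat_lit 4) (nat_lit 1) (nat_lit 4) (nat_lit 364) (nat_lit 278) (nat_lit 138)) (XT.lf (nat_lit 0) (nat_lit 267397566965) (nat_lit 152) (nat_lit 3242434888061) (nat_lit 0) (nat_lit 212377077582) (nat_lit 1) (nat_lit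 5) (nat_lit 3) (nat_lit 4) (nat_lit 1) (nat_lit 4) (nat_lit 365) (nat_lit 278) (nat_lit 137))) (XT.nd (nat_lit 33852) (nat_lit 0) (nat_lit 3268) (XT.lf (nat_lit 0) (nat_lit 318345714196) (nat_lit 152) (nat_lit 3435581119206) (nat_lit 0) (nat_lit 263325145846) (nat_lit 1) (nat_lit 5) (nat_lit 3) (nat_lit 4) (nat_lit 1) (nat_lit 4) (nat_lit 366) (nat_lit 278) (nat_lit 136)) (XT.lf (nat_lit 0) (nat_lit 4433564065) (nat_lit 532) (nat_lit 2227547536) (nat_lit 532) (nat_lit 2227547536) (nat_lit 44) (nat_lit 3) (nat_lit 51) (nat_lit 3) (nat_lit 51) (nat_lit 5) (nat_lit 279) (nat_lit 279) (nat_lit 222)))))) (XT.nd (nat_lit 546) (nat_lit 760) (nat_lit 0) (XT.nd (nat_lit 234) (nat_lit 228) (nat_lit 0) (XT.nd (nat_lit 78) (nat_lit 0) (nat_lit 76) (XT.lf (nat_lit 76) (nat_lit 3804074527) (nat_lit 0) (nat_lit 5700958191) (nat_lit 532) (nat_lit 8960094126) (nat_lit 45) (nat_lit 5) (nat_lit 44) (nat_lit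 3) (nat_lit 51) (nat_lit 5) (nat_lit 280) (nat_lit 279) (nat_lit 221)) (XT.nd (nat_lit 78) (nat_lit 0) (nat_lit 0) (XT.lf (nat_lit 0) (nat_lit 10360549760) (nat_lit 456) (nat_lit 6297642919) (nat_lit 532) (nat_lit 2536503705) (nat_lit 45) (nat_lit 5) (nat_lit 51) (nat_lit 5) (nat_lit 52) (nat_lit 5) (nat_lit 281) (nat_lit 279) (nat_lit 220)) (XT.lf (nat_lit 76) (nat_lit 2710539873) (nat_lit 0) (nat_lit 8769418153) (nat_lit 532) (nat_lit 8487095518) (nat_lit 46) (nat_lit 5) (nat_lit 45) (nat_lit 5) (nat_lit 52) (nat_lit 5) (nat_lit 282) (nat_lit 279) (nat_lit 219)))) (XT.nd (nat_lit 156) (nat_lit 304) (nat_lit 0) (XT.nd (nat_lit 78) (nat_lit 0) (nat_lit 76) (XT.lf (nat_lit 76) (nat_lit 12786014225) (nat_lit 0) (nat_lit 58320641) (nat_lit 532) (nat_lit 7944484884) (nat_lit 46) (nat_lit 5) (nat_lit 45) (nat_lit 5) (nat_lit 52) (nat_lit 5) (nat_lit 283) (nat_lit 279) (nat_lit 218)) (XT.lf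 (nat_lit 76) (nat_lit 1846644385) (nat_lit 0) (nat_lit 12725075667) (nat_lit 532) (nat_lit 7084348312) (nat_lit 47) (nat_lit 5) (nat_lit 46) (nat_lit 5) (nat_lit 53) (nat_lit 5) (nat_lit 284) (nat_lit 279) (nat_lit 217))) (XT.nd (nat_lit 78) (nat_lit 380) (nat_lit 0) (XT.lf (nat_lit 76) (nat_lit 12925816101) (nat_lit 0) (nat_lit 3717212751) (nat_lit 532) (nat_lit 5933255470) (nat_lit 47) (nat_lit 5) (nat_lit 46) (nat_lit 5) (nat_lit 53) (nat_lit 5) (nat_lit 285) (nat_lit 279) (nat_lit 216)) (XT.lf (nat_lit 0) (nat_lit 1225878452) (nat_lit 456) (nat_lit 17814803370) (nat_lit 532) (nat_lit 4516627243) (nat_lit 41) (nat_lit 5) (nat_lit 47) (nat_lit 5) (nat_lit 48) (nat_lit 5) (nat_lit 286) (nat_lit 279) (nat_lit 215))))) (XT.nd (nat_lit 312) (nat_lit 228) (nat_lit 0) (XT.nd (nat_lit 156) (nat_lit 304) (nat_lit 0) (XT.nd (nat_lit 78) (nat_lit 228) (nat_lit 0) (XT.lf (nat_lit 0) (nat_lit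 13407756577) (nat_lit 456) (nat_lit 8567654202) (nat_lit 532) (nat_lit 2613823415) (nat_lit 41) (nat_lit 5) (nat_lit 47) (nat_lit 5) (nat_lit 48) (nat_lit 5) (nat_lit 287) (nat_lit 279) (nat_lit 214)) (XT.lf (nat_lit 0) (nat_lit 857327032) (nat_lit 228) (nat_lit 24330601131) (nat_lit 304) (nat_lit 512380940) (nat_lit 38) (nat_lit 5) (nat_lit 41) (nat_lit 5) (nat_lit 42) (nat_lit 5) (nat_lit 288) (nat_lit 279) (nat_lit 213))) (XT.nd (nat_lit 78) (nat_lit 228) (nat_lit 0) (XT.lf (nat_lit 0) (nat_lit 2194001556) (nat_lit 304) (nat_lit 12665645575) (nat_lit 76) (nat_lit 11995295366) (nat_lit 37) (nat_lit 5) (nat_lit 41) (nat_lit 5) (nat_lit 38) (nat_lit 5) (nat_lit 289) (nat_lit 279) (nat_lit 212)) (XT.lf (nat_lit 0) (nat_lit 485531145) (nat_lit 228) (nat_lit 4604735542) (nat_lit 304) (nat_lit 23010559910) (nat_lit 34) (nat_lit 5) (nat_lit 37) (nat_lit 5) (nat_lit 38) (nat_lit 5) (nat_lit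 290) (nat_lit 279) (nat_lit 211)))) (XT.nd (nat_lit 156) (nat_lit 0) (nat_lit 0) (XT.nd (nat_lit 78) (nat_lit 228) (nat_lit 0) (XT.lf (nat_lit 0) (nat_lit 8719022121) (nat_lit 304) (nat_lit 14186033077) (nat_lit 76) (nat_lit 6501289989) (nat_lit 34) (nat_lit 5) (nat_lit 38) (nat_lit 5) (nat_lit 35) (nat_lit 5) (nat_lit 291) (nat_lit 279) (nat_lit 210)) (XT.lf (nat_lit 0) (nat_lit 196839338) (nat_lit 228) (nat_lit 12556201827) (nat_lit 304) (nat_lit 18054091940) (nat_lit 31) (nat_lit 5) (nat_lit 34) (nat_lit 5) (nat_lit 35) (nat_lit 5) (nat_lit 292) (nat_lit 279) (nat_lit 209))) (XT.nd (nat_lit 78) (nat_lit 0) (nat_lit 0) (XT.lf (nat_lit 0) (nat_lit 16526417514) (nat_lit 228) (nat_lit 962298316) (nat_lit 304) (nat_lit 14800976548) (nat_lit 31) (nat_lit 5) (nat_lit 34) (nat_lit 5) (nat_lit 35) (nat_lit 5) (nat_lit 293) (nat_lit 279) (nat_lit 208)) (XT.lf (nat_lit 0) (nat_lit 22872927178)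 (nat_lit 304) (nat_lit 17039673) (nat_lit 76) (nat_lit 10979336270) (nat_lit 31) (nat_lit 5) (nat_lit 35) (nat_lit 5) (nat_lit 32) (nat_lit 5) (nat_lit 294) (nat_lit 279) (nat_lit 207))))))) (XT.nd (nat_lit 1170) (nat_lit 532) (nat_lit 0) (XT.nd (nat_lit 546) (nat_lit 608) (nat_lit 0) (XT.nd (nat_lit 234) (nat_lit 304) (nat_lit 0) (XT.nd (nat_lit 78) (nat_lit 228) (nat_lit 0) (XT.lf (nat_lit 0) (nat_lit 17846907332) (nat_lit 152) (nat_lit 11287482944) (nat_lit 228) (nat_lit 6405191021) (nat_lit 29) (nat_lit 5) (nat_lit 31) (nat_lit 5) (nat_lit 32) (nat_lit 5) (nat_lit 295) (nat_lit 279) (nat_lit 206)) (XT.nd (nat_lit 78) (nat_lit 228) (nat_lit 0) (XT.lf (nat_lit 0) (nat_lit 35919738241) (nat_lit 228) (nat_lit 242490809) (nat_lit 76) (nat_lit 1179433554) (nat_lit 29) (nat_lit 5) (nat_lit 32) (nat_lit 5) (nat_lit 30) (nat_lit 5) (nat_lit 296) (nat_lit 279) (nat_lit 205)) (XT.lf (nat_lit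 0) (nat_lit 4531005839) (nat_lit 228) (nat_lit 20077758890) (nat_lit 76) (nat_lit 14610014508) (nat_lit 26) (nat_lit 5) (nat_lit 29) (nat_lit 5) (nat_lit 27) (nat_lit 5) (nat_lit 297) (nat_lit 279) (nat_lit 204)))) (XT.nd (nat_lit 156) (nat_lit 152) (nat_lit 0) (XT.nd (nat_lit 78) (nat_lit 152) (nat_lit 0) (XT.lf (nat_lit 0) (nat_lit 10883395549) (nat_lit 228) (nat_lit 1203099362) (nat_lit 76) (nat_lit 29156626492) (nat_lit 26) (nat_lit 5) (nat_lit 29) (nat_lit 5) (nat_lit 27) (nat_lit 5) (nat_lit 298) (nat_lit 279) (nat_lit 203)) (XT.lf (nat_lit 0) (nat_lit 18270227586) (nat_lit 228) (nat_lit 23255838705) (nat_lit 76) (nat_lit 1861258009) (nat_lit 24) (nat_lit 5) (nat_lit 27) (nat_lit 5) (nat_lit 25) (nat_lit 5) (nat_lit 299) (nat_lit 279) (nat_lit 202))) (XT.nd (nat_lit 78) (nat_lit 152) (nat_lit 0) (XT.lf (nat_lit 0) (nat_lit 26589631371) (nat_lit 228) (nat_lit 2782933270) (nat_lit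 76) (nat_lit 16303181229) (nat_lit 24) (nat_lit 5) (nat_lit 27) (nat_lit 5) (nat_lit 25) (nat_lit 5) (nat_lit 300) (nat_lit 279) (nat_lit 201)) (XT.lf (nat_lit 0) (nat_lit 20336828885) (nat_lit 152) (nat_lit 15721249583) (nat_lit 228) (nat_lit 12050494945) (nat_lit 22) (nat_lit 5) (nat_lit 24) (nat_lit 5) (nat_lit 25) (nat_lit 5) (nat_lit 301) (nat_lit 279) (nat_lit 200))))) (XT.nd (nat_lit 312) (nat_lit 304) (nat_lit 0) (XT.nd (nat_lit 156) (nat_lit 152) (nat_lit 0) (XT.nd (nat_lit 78) (nat_lit 152) (nat_lit 0) (XT.lf (nat_lit 0) (nat_lit 45456343919) (nat_lit 152) (nat_lit 898358393) (nat_lit 228) (nat_lit 4375679449) (nat_lit 22) (nat_lit 5) (nat_lit 24) (nat_lit 5) (nat_lit 25) (nat_lit 5) (nat_lit 302) (nat_lit 279) (nat_lit 199)) (XT.lf (nat_lit 0) (nat_lit 4569497484) (nat_lit 152) (nat_lit 33976753791) (nat_lit 76) (nat_lit 14939993693) (nat_lit 20) (nat_lit 5) (nat_lit 22) (nat_lit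 5) (nat_lit 21) (nat_lit 5) (nat_lit 303) (nat_lit 279) (nat_lit 198))) (XT.nd (nat_lit 78) (nat_lit 152) (nat_lit 0) (XT.lf (nat_lit 0) (nat_lit 14160174107) (nat_lit 152) (nat_lit 10024050873) (nat_lit 76) (nat_lit 32255965534) (nat_lit 20) (nat_lit 5) (nat_lit 22) (nat_lit 5) (nat_lit 21) (nat_lit 5) (nat_lit 304) (nat_lit 279) (nat_lit 197)) (XT.lf (nat_lit 0) (nat_lit 16671513418) (nat_lit 152) (nat_lit 8242916611) (nat_lit 228) (nat_lit 34684323511) (nat_lit 18) (nat_lit 5) (nat_lit 20) (nat_lit 5) (nat_lit 21) (nat_lit 5) (nat_lit 305) (nat_lit 279) (nat_lit 196)))) (XT.nd (nat_lit 156) (nat_lit 228) (nat_lit 0) (XT.nd (nat_lit 78) (nat_lit 76) (nat_lit 0) (XT.lf (nat_lit 0) (nat_lit 37021519078) (nat_lit 228) (nat_lit 17145657289) (nat_lit 76) (nat_lit 8803433095) (nat_lit 18) (nat_lit 5) (nat_lit 21) (nat_lit 5) (nat_lit 19) (nat_lit 4) (nat_lit 306) (nat_lit 279) (nat_lit 195))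 (XT.lf (nat_lit 0) (nat_lit 11029181468) (nat_lit 76) (nat_lit 39543163226) (nat_lit 152) (nat_lit 16001862337) (nat_lit 17) (nat_lit 5) (nat_lit 18) (nat_lit 5) (nat_lit 19) (nat_lit 4) (nat_lit 307) (nat_lit 279) (nat_lit 194))) (XT.nd (nat_lit 78) (nat_lit 228) (nat_lit 0) (XT.lf (nat_lit 0) (nat_lit 42426377266) (nat_lit 76) (nat_lit 23245615747) (nat_lit 152) (nat_lit 4756925090) (nat_lit 17) (nat_lit 5) (nat_lit 18) (nat_lit 5) (nat_lit 19) (nat_lit 4) (nat_lit 308) (nat_lit 279) (nat_lit 193)) (XT.lf (nat_lit 0) (nat_lit 1641348830) (nat_lit 152) (nat_lit 5412335172) (nat_lit 228) (nat_lit 67521262838) (nat_lit 14) (nat_lit 5) (nat_lit 16) (nat_lit 5) (nat_lit 17) (nat_lit 5) (nat_lit 309) (nat_lit 279) (nat_lit 192)))))) (XT.nd (nat_lit 624) (nat_lit 228) (nat_lit 0) (XT.nd (nat_lit 312) (nat_lit 228) (nat_lit 0) (XT.nd (nat_lit 156) (nat_lit 76) (nat_lit 0) (XT.nd (nat_lit 78)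 (nat_lit 0) (nat_lit 0) (XT.lf (nat_lit 0) (nat_lit 20666938002) (nat_lit 228) (nat_lit 44225112014) (nat_lit 76) (nat_lit 14061544791) (nat_lit 14) (nat_lit 5) (nat_lit 17) (nat_lit 5) (nat_lit 15) (nat_lit 4) (nat_lit 310) (nat_lit 279) (nat_lit 191)) (XT.lf (nat_lit 0) (nat_lit 35506344093) (nat_lit 228) (nat_lit 13366551085) (nat_lit 76) (nat_lit 34798676671) (nat_lit 14) (nat_lit 5) (nat_lit 17) (nat_lit 5) (nat_lit 15) (nat_lit 4) (nat_lit 311) (nat_lit 279) (nat_lit 190))) (XT.nd (nat_lit 78) (nat_lit 0) (nat_lit 0) (XT.lf (nat_lit 0) (nat_lit 21005918214) (nat_lit 76) (nat_lit 31028947327) (nat_lit 152) (nat_lit 36691968722) (nat_lit 13) (nat_lit 5) (nat_lit 14) (nat_lit 5) (nat_lit 15) (nat_lit 4) (nat_lit 312) (nat_lit 279) (nat_lit 189)) (XT.lf (nat_lit 0) (nat_lit 58882916263) (nat_lit 76) (nat_lit 11365096184) (nat_lit 152) (nat_lit 23909521653) (nat_lit 13) (nat_lit 5)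 (nat_lit 14) (nat_lit 5) (nat_lit 15) (nat_lit 4) (nat_lit 313) (nat_lit 279) (nat_lit 188)))) (XT.nd (nat_lit 156) (nat_lit 76) (nat_lit 0) (XT.nd (nat_lit 78) (nat_lit 152) (nat_lit 0) (XT.lf (nat_lit 0) (nat_lit 90152687862) (nat_lit 152) (nat_lit 475251318) (nat_lit 0) (nat_lit 9375996237) (nat_lit 13) (nat_lit 5) (nat_lit 15) (nat_lit 4) (nat_lit 13) (nat_lit 4) (nat_lit 314) (nat_lit 279) (nat_lit 187)) (XT.lf (nat_lit 0) (nat_lit 6321095661) (nat_lit 152) (nat_lit 67633851510) (nat_lit 76) (nat_lit 32252357018) (nat_lit 11) (nat_lit 5) (nat_lit 13) (nat_lit 5) (nat_lit 12) (nat_lit 4) (nat_lit 315) (nat_lit 279) (nat_lit 186))) (XT.nd (nat_lit 78) (nat_lit 76) (nat_lit 0) (XT.lf (nat_lit 0) (nat_lit 23265628063) (nat_lit 152) (nat_lit 32393889726) (nat_lit 76) (nat_lit 57226107437) (nat_lit 11) (nat_lit 5) (nat_lit 13) (nat_lit 5) (nat_lit 12) (nat_lit 4) (nat_lit 316) (nat_lit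 279) (nat_lit 185)) (XT.lf (nat_lit 0) (nat_lit 5958861216) (nat_lit 76) (nat_lit 35747666343) (nat_lit 152) (nat_lit 78380422699) (nat_lit 10) (nat_lit 5) (nat_lit 11) (nat_lit 5) (nat_lit 12) (nat_lit 4) (nat_lit 317) (nat_lit 279) (nat_lit 184))))) (XT.nd (nat_lit 312) (nat_lit 152) (nat_lit 0) (XT.nd (nat_lit 156) (nat_lit 76) (nat_lit 0) (XT.nd (nat_lit 78) (nat_lit 0) (nat_lit 0) (XT.lf (nat_lit 0) (nat_lit 49217721066) (nat_lit 76) (nat_lit 13288258349) (nat_lit 152) (nat_lit 65287741920) (nat_lit 10) (nat_lit 5) (nat_lit 11) (nat_lit 5) (nat_lit 12) (nat_lit 4) (nat_lit 318) (nat_lit 279) (nat_lit 183)) (XT.lf (nat_lit 0) (nat_lit 85230875959) (nat_lit 152) (nat_lit 40447717083) (nat_lit 0) (nat_lit 10417524263) (nat_lit 10) (nat_lit 5) (nat_lit 12) (nat_lit 4) (nat_lit 10) (nat_lit 4) (nat_lit 319) (nat_lit 279) (nat_lit 182))) (XT.nd (nat_lit 78) (nat_lit 0) (nat_lit 0) (XT.lf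 (nat_lit 0) (nat_lit 401900182) (nat_lit 76) (nat_lit 109724559158) (nat_lit 76) (nat_lit 34908032125) (nat_lit 9) (nat_lit 4) (nat_lit 10) (nat_lit 5) (nat_lit 10) (nat_lit 4) (nat_lit 320) (nat_lit 279) (nat_lit 181)) (XT.lf (nat_lit 0) (nat_lit 46815998980) (nat_lit 76) (nat_lit 91301548527) (nat_lit 76) (nat_lit 16482081366) (nat_lit 9) (nat_lit 4) (nat_lit 10) (nat_lit 5) (nat_lit 10) (nat_lit 4) (nat_lit 321) (nat_lit 279) (nat_lit 180)))) (XT.nd (nat_lit 156) (nat_lit 76) (nat_lit 0) (XT.nd (nat_lit 78) (nat_lit 0) (nat_lit 0) (XT.lf (nat_lit 0) (nat_lit 3245012857) (nat_lit 152) (nat_lit 68072562757) (nat_lit 76) (nat_lit 93605983460) (nat_lit 8) (nat_lit 5) (nat_lit 10) (nat_lit 5) (nat_lit 9) (nat_lit 4) (nat_lit 322) (nat_lit 279) (nat_lit 179)) (XT.lf (nat_lit 0) (nat_lit 23658005673) (nat_lit 152) (nat_lit 25616058384) (nat_lit 76) (nat_lit 126765237387) (nat_lit 8) (nat_lit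 5) (nat_lit 10) (nat_lit 5) (nat_lit 9) (nat_lit 4) (nat_lit 323) (nat_lit 279) (nat_lit 178))) (XT.nd (nat_lit 78) (nat_lit 0) (nat_lit 0) (XT.lf (nat_lit 0) (nat_lit 21299351607) (nat_lit 76) (nat_lit 24915261738) (nat_lit 152) (nat_lit 141788845267) (nat_lit 7) (nat_lit 5) (nat_lit 8) (nat_lit 5) (nat_lit 9) (nat_lit 4) (nat_lit 324) (nat_lit 279) (nat_lit 177)) (XT.lf (nat_lit 0) (nat_lit 71326156994) (nat_lit 152) (nat_lit 127498704256) (nat_lit 0) (nat_lit 2039855852) (nat_lit 7) (nat_lit 5) (nat_lit 9) (nat_lit 4) (nat_lit 7) (nat_lit 4) (nat_lit 325) (nat_lit 279) (nat_lit 176))))))))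
noncomputable def xc81 : XT := (XT.nd (nat_lit 2340) (nat_lit 152) (nat_lit 0) (XT.nd (nat_lit 1170) (nat_lit 76) (nat_lit 0) (XT.nd (nat_lit 546) (nat_lit 76) (nat_lit 0) (XT.nd (nat_lit 234) (nat_lit 76) (nat_lit 0) (XT.nd (nat_lit 78) (nat_lit 76) (nat_lit 0) (XT.lf (nat_lit 0) (nat_lit 99092239996) (nat_lit 152) (nat_lit 85806902170) (nat_lit 0) (nat_lit 29804086075) (nat_lit 7) (nat_lit 5) (nat_lit 9) (nat_lit 4) (nat_lit 7) (nat_lit 4) (nat_lit 326) (nat_lit 279) (nat_lit 175)) (XT.nd (nat_lit 78) (nat_lit 76) (nat_lit 0) (XT.lf (nat_lit 0) (nat_lit 129078189458) (nat_lit 152) (nat_lit 40782425572) (nat_lit 0) (nat_lit 59788320001) (nat_lit 7) (nat_lit 5) (nat_lit 9) (nat_lit 4) (nat_lit 7) (nat_lit 4) (nat_lit 327) (nat_lit 279) (nat_lit 174)) (XT.lf (nat_lit 0) (nat_lit 8254458706) (nat_lit 76) (nat_lit 153405761119) (nat_lit 76) (nat_lit 84114303203) (nat_lit 6) (nat_lit 4)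 (nat_lit 7) (nat_lit 5) (nat_lit 7) (nat_lit 4) (nat_lit 328) (nat_lit 279) (nat_lit 173)))) (XT.nd (nat_lit 156) (nat_lit 76) (nat_lit 0) (XT.nd (nat_lit 78) (nat_lit 0) (nat_lit 0) (XT.lf (nat_lit 0) (nat_lit 63531217082) (nat_lit 76) (nat_lit 134431383808) (nat_lit 76) (nat_lit 65138455096) (nat_lit 6) (nat_lit 4) (nat_lit 7) (nat_lit 5) (nat_lit 7) (nat_lit 4) (nat_lit 329) (nat_lit 279) (nat_lit 172)) (XT.lf (nat_lit 0) (nat_lit 123227885274) (nat_lit 76) (nat_lit 113940106129) (nat_lit 76) (nat_lit 44645815570) (nat_lit 6) (nat_lit 4) (nat_lit 7) (nat_lit 5) (nat_lit 7) (nat_lit 4) (nat_lit 330) (nat_lit 279) (nat_lit 171))) (XT.nd (nat_lit 78) (nat_lit 76) (nat_lit 0) (XT.lf (nat_lit 0) (nat_lit 187698221316) (nat_lit 76) (nat_lit 91810498290) (nat_lit 76) (nat_lit 22514946761) (nat_lit 6) (nat_lit 4) (nat_lit 7) (nat_lit 5) (nat_lit 7) (nat_lit 4) (nat_lit 331) (nat_lit 279)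 (nat_lit 170)) (XT.lf (nat_lit 0) (nat_lit 1315999042) (nat_lit 152) (nat_lit 66559441086) (nat_lit 76) (nat_lit 255972290854) (nat_lit 5) (nat_lit 5) (nat_lit 7) (nat_lit 5) (nat_lit 6) (nat_lit 4) (nat_lit 332) (nat_lit 279) (nat_lit 169))))) (XT.nd (nat_lit 312) (nat_lit 0) (nat_lit 0) (XT.nd (nat_lit 156) (nat_lit 0) (nat_lit 0) (XT.nd (nat_lit 78) (nat_lit 76) (nat_lit 0) (XT.lf (nat_lit 0) (nat_lit 25836065998) (nat_lit 152) (nat_lit 15558782895) (nat_lit 76) (nat_lit 305976165241) (nat_lit 5) (nat_lit 5) (nat_lit 7) (nat_lit 5) (nat_lit 6) (nat_lit 4) (nat_lit 333) (nat_lit 279) (nat_lit 168)) (XT.lf (nat_lit 0) (nat_lit 41601306489) (nat_lit 76) (nat_lit 11716052962) (nat_lit 152) (nat_lit 319378831417) (nat_lit 4) (nat_lit 5) (nat_lit 5) (nat_lit 5) (nat_lit 6) (nat_lit 4) (nat_lit 334) (nat_lit 279) (nat_lit 167))) (XT.nd (nat_lit 78) (nat_lit 0) (nat_lit 0) (XT.lf (nat_lit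 0) (nat_lit 83921833447) (nat_lit 152) (nat_lit 296296156090) (nat_lit 0) (nat_lit 19755418612) (nat_lit 4) (nat_lit 5) (nat_lit 6) (nat_lit 4) (nat_lit 4) (nat_lit 4) (nat_lit 335) (nat_lit 279) (nat_lit 166)) (XT.lf (nat_lit 0) (nat_lit 117278160310) (nat_lit 152) (nat_lit 259019412586) (nat_lit 0) (nat_lit 53110950850) (nat_lit 4) (nat_lit 5) (nat_lit 6) (nat_lit 4) (nat_lit 4) (nat_lit 4) (nat_lit 336) (nat_lit 279) (nat_lit 165)))) (XT.nd (nat_lit 156) (nat_lit 0) (nat_lit 0) (XT.nd (nat_lit 78) (nat_lit 0) (nat_lit 0) (XT.lf (nat_lit 0) (nat_lit 153302235807) (nat_lit 152) (nat_lit 218761983294) (nat_lit 0) (nat_lit 89134290583) (nat_lit 4) (nat_lit 5) (nat_lit 6) (nat_lit 4) (nat_lit 4) (nat_lit 4) (nat_lit 337) (nat_lit 279) (nat_lit 164)) (XT.lf (nat_lit 0) (nat_lit 192207535942) (nat_lit 152) (nat_lit 175285305669) (nat_lit 0) (nat_lit 128038909455) (nat_lit 4) (nat_lit 5)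 (nat_lit 6) (nat_lit 4) (nat_lit 4) (nat_lit 4) (nat_lit 338) (nat_lit 279) (nat_lit 163))) (XT.nd (nat_lit 78) (nat_lit 0) (nat_lit 0) (XT.lf (nat_lit 0) (nat_lit 234224610640) (nat_lit 152) (nat_lit 128331740140) (nat_lit 0) (nat_lit 170055353354) (nat_lit 4) (nat_lit 5) (nat_lit 6) (nat_lit 4) (nat_lit 4) (nat_lit 4) (nat_lit 339) (nat_lit 279) (nat_lit 162)) (XT.lf (nat_lit 0) (nat_lit 279602449974) (nat_lit 152) (nat_lit 77623043356) (nat_lit 0) (nat_lit 215432608615) (nat_lit 4) (nat_lit 5) (nat_lit 6) (nat_lit 4) (nat_lit 4) (nat_lit 4) (nat_lit 340) (nat_lit 279) (nat_lit 161)))))) (XT.nd (nat_lit 546) (nat_lit 0) (nat_lit 0) (XT.nd (nat_lit 234) (nat_lit 0) (nat_lit 0) (XT.nd (nat_lit 78) (nat_lit 76) (nat_lit 0) (XT.lf (nat_lit 0) (nat_lit 328609959659) (nat_lit 152) (nat_lit 22858719335) (nat_lit 0) (nat_lit 264439577491) (nat_lit 4) (nat_lit 5) (nat_lit 6) (nat_lit 4) (nat_lit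 4) (nat_lit 4) (nat_lit 341) (nat_lit 279) (nat_lit 160)) (XT.nd (nat_lit 78) (nat_lit 0) (nat_lit 0) (XT.lf (nat_lit 0) (nat_lit 38196505132) (nat_lit 76) (nat_lit 344259676302) (nat_lit 76) (nat_lit 280088793386) (nat_lit 3) (nat_lit 4) (nat_lit 4) (nat_lit 5) (nat_lit 4) (nat_lit 4) (nat_lit 342) (nat_lit 279) (nat_lit 159)) (XT.lf (nat_lit 0) (nat_lit 105435178869) (nat_lit 76) (nat_lit 335799419422) (nat_lit 76) (nat_lit 271628072850) (nat_lit 3) (nat_lit 4) (nat_lit 4) (nat_lit 5) (nat_lit 4) (nat_lit 4) (nat_lit 343) (nat_lit 279) (nat_lit 158)))) (XT.nd (nat_lit 156) (nat_lit 0) (nat_lit 0) (XT.nd (nat_lit 78) (nat_lit 0) (nat_lit 0) (XT.lf (nat_lit 0) (nat_lit 178052053626) (nat_lit 76) (nat_lit 326662771396) (nat_lit 76) (nat_lit 262490995513) (nat_lit 3) (nat_lit 4) (nat_lit 4) (nat_lit 5) (nat_lit 4) (nat_lit 4) (nat_lit 344) (nat_lit 279) (nat_lit 157)) (XT.lf (nat_lit 0)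 (nat_lit 256477451621) (nat_lit 76) (nat_lit 316795589124) (nat_lit 76) (nat_lit 252623415731) (nat_lit 3) (nat_lit 4) (nat_lit 4) (nat_lit 5) (nat_lit 4) (nat_lit 4) (nat_lit 345) (nat_lit 279) (nat_lit 156))) (XT.nd (nat_lit 78) (nat_lit 0) (nat_lit 0) (XT.lf (nat_lit 0) (nat_lit 341176115956) (nat_lit 76) (nat_lit 306139400415) (nat_lit 76) (nat_lit 241966858957) (nat_lit 3) (nat_lit 4) (nat_lit 4) (nat_lit 5) (nat_lit 4) (nat_lit 4) (nat_lit 346) (nat_lit 279) (nat_lit 155)) (XT.lf (nat_lit 0) (nat_lit 432649964640) (nat_lit 76) (nat_lit 294631057484) (nat_lit 76) (nat_lit 230458175225) (nat_lit 3) (nat_lit 4) (nat_lit 4) (nat_lit 5) (nat_lit 4) (nat_lit 4) (nat_lit 347) (nat_lit 279) (nat_lit 154))))) (XT.nd (nat_lit 312) (nat_lit 0) (nat_lit 0) (XT.nd (nat_lit 156) (nat_lit 0) (nat_lit 0) (XT.nd (nat_lit 78) (nat_lit 0) (nat_lit 0) (XT.lf (nat_lit 0) (nat_lit 531441064925) (nat_lit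 76) (nat_lit 282202362744) (nat_lit 76) (nat_lit 218029164927) (nat_lit 3) (nat_lit 4) (nat_lit 4) (nat_lit 5) (nat_lit 4) (nat_lit 4) (nat_lit 348) (nat_lit 279) (nat_lit 153)) (XT.lf (nat_lit 0) (nat_lit 638134845553) (nat_lit 76) (nat_lit 268779664669) (nat_lit 76) (nat_lit 204606174671) (nat_lit 3) (nat_lit 4) (nat_lit 4) (nat_lit 5) (nat_lit 4) (nat_lit 4) (nat_lit 349) (nat_lit 279) (nat_lit 152))) (XT.nd (nat_lit 78) (nat_lit 0) (nat_lit 0) (XT.lf (nat_lit 0) (nat_lit 753363565966) (nat_lit 76) (nat_lit 254283421345) (nat_lit 76) (nat_lit 190109660808) (nat_lit 3) (nat_lit 4) (nat_lit 4) (nat_lit 5) (nat_lit 4) (nat_lit 4) (nat_lit 350) (nat_lit 279) (nat_lit 151)) (XT.lf (nat_lit 0) (nat_lit 877810063024) (nat_lit 76) (nat_lit 238627729109) (nat_lit 76) (nat_lit 174453718073) (nat_lit 3) (nat_lit 4) (nat_lit 4) (nat_lit 5) (nat_lit 4) (nat_lit 4) (nat_lit 351) (nat_lit 279) (nat_lit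 150)))) (XT.nd (nat_lit 156) (nat_lit 0) (nat_lit 0) (XT.nd (nat_lit 78) (nat_lit 0) (nat_lit 0) (XT.lf (nat_lit 0) (nat_lit 1012211797452) (nat_lit 76) (nat_lit 221719813487) (nat_lit 76) (nat_lit 157545570508) (nat_lit 3) (nat_lit 4) (nat_lit 4) (nat_lit 5) (nat_lit 4) (nat_lit 4) (nat_lit 352) (nat_lit 279) (nat_lit 149)) (XT.lf (nat_lit 0) (nat_lit 1157365223971) (nat_lit 76) (nat_lit 203459479425) (nat_lit 76) (nat_lit 139285021683) (nat_lit 3) (nat_lit 4) (nat_lit 4) (nat_lit 5) (nat_lit 4) (nat_lit 4) (nat_lit 353) (nat_lit 279) (nat_lit 148))) (XT.nd (nat_lit 78) (nat_lit 0) (nat_lit 0) (XT.lf (nat_lit 0) (nat_lit 1314130511036) (nat_lit 76) (nat_lit 183738517534) (nat_lit 76) (nat_lit 119563860938) (nat_lit 3) (nat_lit 4) (nat_lit 4) (nat_lit 5) (nat_lit 4) (nat_lit 4) (nat_lit 354) (nat_lit 279) (nat_lit 147)) (XT.lf (nat_lit 0) (nat_lit 1483436638124) (nat_lit 76) (nat_lit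 162440062857) (nat_lit 76) (nat_lit 98265222136) (nat_lit 3) (nat_lit 4) (nat_lit 4) (nat_lit 5) (nat_lit 4) (nat_lit 4) (nat_lit 355) (nat_lit 279) (nat_lit 146))))))) (XT.nd (nat_lit 35022) (nat_lit 0) (nat_lit 1900) (XT.nd (nat_lit 546) (nat_lit 0) (nat_lit 0) (XT.nd (nat_lit 234) (nat_lit 152) (nat_lit 0) (XT.nd (nat_lit 78) (nat_lit 0) (nat_lit 0) (XT.lf (nat_lit 0) (nat_lit 1666286900805) (nat_lit 76) (nat_lit 139437902327) (nat_lit 76) (nat_lit 75262891121) (nat_lit 3) (nat_lit 4) (nat_lit 4) (nat_lit 5) (nat_lit 4) (nat_lit 4) (nat_lit 356) (nat_lit 279) (nat_lit 145)) (XT.nd (nat_lit 78) (nat_lit 0) (nat_lit 0) (XT.lf (nat_lit 0) (nat_lit 1863764856190) (nat_lit 76) (nat_lit 114595726846) (nat_lit 76) (nat_lit 50420557784) (nat_lit 3) (nat_lit 4) (nat_lit 4) (nat_lit 5) (nat_lit 4) (nat_lit 4) (nat_lit 357) (nat_lit 279) (nat_lit 144)) (XT.lf (nat_lit 0) (nat_lit 2077040744014)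 (nat_lit 76) (nat_lit 87766323522) (nat_lit 76) (nat_lit 23591008296) (nat_lit 3) (nat_lit 4) (nat_lit 4) (nat_lit 5) (nat_lit 4) (nat_lit 4) (nat_lit 358) (nat_lit 279) (nat_lit 143)))) (XT.nd (nat_lit 156) (nat_lit 0) (nat_lit 0) (XT.nd (nat_lit 78) (nat_lit 76) (nat_lit 0) (XT.lf (nat_lit 0) (nat_lit 5115380398) (nat_lit 152) (nat_lit 53535459334) (nat_lit 76) (nat_lit 2302123177428) (nat_lit 2) (nat_lit 5) (nat_lit 4) (nat_lit 5) (nat_lit 3) (nat_lit 4) (nat_lit 359) (nat_lit 279) (nat_lit 142)) (XT.lf (nat_lit 0) (nat_lit 8736159554) (nat_lit 76) (nat_lit 26317559401) (nat_lit 152) (nat_lit 2511820497362) (nat_lit 1) (nat_lit 5) (nat_lit 2) (nat_lit 5) (nat_lit 3) (nat_lit 4) (nat_lit 360) (nat_lit 279) (nat_lit 141))) (XT.nd (nat_lit 78) (nat_lit 0) (nat_lit 0) (XT.lf (nat_lit 0) (nat_lit 69095648138) (nat_lit 152) (nat_lit 2668956390269) (nat_lit 0) (nat_lit 9673711189) (nat_lit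 1) (nat_lit 5) (nat_lit 3) (nat_lit 4) (nat_lit 1) (nat_lit 4) (nat_lit 361) (nat_lit 279) (nat_lit 140)) (XT.lf (nat_lit 0) (nat_lit 106544376929) (nat_lit 152) (nat_lit 2810924012548) (nat_lit 0) (nat_lit 47122340504) (nat_lit 1) (nat_lit 5) (nat_lit 3) (nat_lit 4) (nat_lit 1) (nat_lit 4) (nat_lit 362) (nat_lit 279) (nat_lit 139))))) (XT.nd (nat_lit 34164) (nat_lit 0) (nat_lit 3268) (XT.nd (nat_lit 156) (nat_lit 0) (nat_lit 0) (XT.nd (nat_lit 78) (nat_lit 0) (nat_lit 0) (XT.lf (nat_lit 0) (nat_lit 146988885787) (nat_lit 152) (nat_lit 2964249275278) (nat_lit 0) (nat_lit 87566757254) (nat_lit 1) (nat_lit 5) (nat_lit 3) (nat_lit 4) (nat_lit 1) (nat_lit 4) (nat_lit 363) (nat_lit 279) (nat_lit 138)) (XT.lf (nat_lit 0) (nat_lit 190668845874) (nat_lit 152) (nat_lit 3129840772608) (nat_lit 0) (nat_lit 131246632056) (nat_lit 1) (nat_lit 5) (nat_lit 3) (nat_lit 4) (nat_lit 1) (nat_lit 4) (nat_lit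 364) (nat_lit 279) (nat_lit 137))) (XT.nd (nat_lit 78) (nat_lit 0) (nat_lit 0) (XT.lf (nat_lit 0) (nat_lit 237843101398) (nat_lit 152) (nat_lit 3308679787485) (nat_lit 0) (nat_lit 178420808613) (nat_lit 1) (nat_lit 5) (nat_lit 3) (nat_lit 4) (nat_lit 1) (nat_lit 4) (nat_lit 365) (nat_lit 279) (nat_lit 136)) (XT.lf (nat_lit 0) (nat_lit 288791203505) (nat_lit 152) (nat_lit 3501826106664) (nat_lit 0) (nat_lit 229368837601) (nat_lit 1) (nat_lit 5) (nat_lit 3) (nat_lit 4) (nat_lit 1) (nat_lit 4) (nat_lit 366) (nat_lit 279) (nat_lit 135)))) (XT.nd (nat_lit 156) (nat_lit 0) (nat_lit 76) (XT.nd (nat_lit 78) (nat_lit 0) (nat_lit 0) (XT.lf (nat_lit 0) (nat_lit 4975369426) (nat_lit 532) (nat_lit 2304400644) (nat_lit 532) (nat_lit 2304400644) (nat_lit 44) (nat_lit 3) (nat_lit 51) (nat_lit 3) (nat_lit 51) (nat_lit 5) (nat_lit 280) (nat_lit 280) (nat_lit 220)) (XT.lf (nat_lit 76) (nat_lit 4305970198)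 (nat_lit 0) (nat_lit 6310735650) (nat_lit 532) (nat_lit 9296397032) (nat_lit 45) (nat_lit 5) (nat_lit 44) (nat_lit 3) (nat_lit 51) (nat_lit 5) (nat_lit 281) (nat_lit 280) (nat_lit 219))) (XT.nd (nat_lit 78) (nat_lit 0) (nat_lit 0) (XT.lf (nat_lit 0) (nat_lit 11511221523) (nat_lit 456) (nat_lit 6588028122) (nat_lit 532) (nat_lit 2604227643) (nat_lit 45) (nat_lit 5) (nat_lit 51) (nat_lit 5) (nat_lit 52) (nat_lit 5) (nat_lit 282) (nat_lit 280) (nat_lit 218)) (XT.lf (nat_lit 76) (nat_lit 3135406098) (nat_lit 0) (nat_lit 9565940216) (nat_lit 532) (nat_lit 8837861270) (nat_lit 46) (nat_lit 5) (nat_lit 45) (nat_lit 5) (nat_lit 52) (nat_lit 5) (nat_lit 283) (nat_lit 280) (nat_lit 217)))))) (XT.nd (nat_lit 624) (nat_lit 608) (nat_lit 0) (XT.nd (nat_lit 312) (nat_lit 532) (nat_lit 0) (XT.nd (nat_lit 156) (nat_lit 304) (nat_lit 0) (XT.nd (nat_lit 78) (nat_lit 0) (nat_lit 76) (XT.lf (nat_lit 76)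 (nat_lit 14001509285) (nat_lit 0) (nat_lit 150920192) (nat_lit 532) (nat_lit 8276153037) (nat_lit 46) (nat_lit 5) (nat_lit 45) (nat_lit 5) (nat_lit 52) (nat_lit 5) (nat_lit 284) (nat_lit 280) (nat_lit 216)) (XT.lf (nat_lit 76) (nat_lit 2206926688) (nat_lit 0) (nat_lit 13793451159) (nat_lit 532) (nat_lit 7366309971) (nat_lit 47) (nat_lit 5) (nat_lit 46) (nat_lit 5) (nat_lit 53) (nat_lit 5) (nat_lit 285) (nat_lit 280) (nat_lit 215))) (XT.nd (nat_lit 78) (nat_lit 380) (nat_lit 0) (XT.lf (nat_lit 76) (nat_lit 14156687641) (nat_lit 0) (nat_lit 4061228140) (nat_lit 532) (nat_lit 6144224976) (nat_lit 47) (nat_lit 5) (nat_lit 46) (nat_lit 5) (nat_lit 53) (nat_lit 5) (nat_lit 286) (nat_lit 280) (nat_lit 214)) (XT.lf (nat_lit 0) (nat_lit 1536599548) (nat_lit 456) (nat_lit 19256824196) (nat_lit 532) (nat_lit 4629397409) (nat_lit 41) (nat_lit 5) (nat_lit 47) (nat_lit 5) (nat_lit 48) (nat_lit 5)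 (nat_lit 287) (nat_lit 280) (nat_lit 213)))) (XT.nd (nat_lit 156) (nat_lit 304) (nat_lit 0) (XT.nd (nat_lit 78) (nat_lit 228) (nat_lit 0) (XT.lf (nat_lit 0) (nat_lit 14677276010) (nat_lit 456) (nat_lit 9268655942) (nat_lit 532) (nat_lit 2592781127) (nat_lit 41) (nat_lit 5) (nat_lit 47) (nat_lit 5) (nat_lit 48) (nat_lit 5) (nat_lit 288) (nat_lit 280) (nat_lit 212)) (XT.lf (nat_lit 0) (nat_lit 1135405519) (nat_lit 228) (nat_lit 26268996475) (nat_lit 304) (nat_lit 335204833) (nat_lit 38) (nat_lit 5) (nat_lit 41) (nat_lit 5) (nat_lit 42) (nat_lit 5) (nat_lit 289) (nat_lit 280) (nat_lit 211))) (XT.nd (nat_lit 78) (nat_lit 228) (nat_lit 0) (XT.lf (nat_lit 0) (nat_lit 2561422613) (nat_lit 304) (nat_lit 13474293131) (nat_lit 76) (nat_lit 12951745525) (nat_lit 37) (nat_lit 5) (nat_lit 41) (nat_lit 5) (nat_lit 38) (nat_lit 5) (nat_lit 290) (nat_lit 280) (nat_lit 210)) (XT.lf (nat_lit 0) (nat_lit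 723797877) (nat_lit 228) (nat_lit 4956172352) (nat_lit 304) (nat_lit 24653838223) (nat_lit 34) (nat_lit 5) (nat_lit 37) (nat_lit 5) (nat_lit 38) (nat_lit 5) (nat_lit 291) (nat_lit 280) (nat_lit 209))))) (XT.nd (nat_lit 312) (nat_lit 228) (nat_lit 0) (XT.nd (nat_lit 156) (nat_lit 152) (nat_lit 0) (XT.nd (nat_lit 78) (nat_lit 228) (nat_lit 0) (XT.lf (nat_lit 0) (nat_lit 9585886171) (nat_lit 304) (nat_lit 15122674004) (nat_lit 76) (nat_lit 7036295525) (nat_lit 34) (nat_lit 5) (nat_lit 38) (nat_lit 5) (nat_lit 35) (nat_lit 5) (nat_lit 292) (nat_lit 280) (nat_lit 208)) (XT.lf (nat_lit 0) (nat_lit 405809427) (nat_lit 228) (nat_lit 13528920454) (nat_lit 304) (nat_lit 19323641830) (nat_lit 31) (nat_lit 5) (nat_lit 34) (nat_lit 5) (nat_lit 35) (nat_lit 5) (nat_lit 293) (nat_lit 280) (nat_lit 207))) (XT.nd (nat_lit 78) (nat_lit 152) (nat_lit 0) (XT.lf (nat_lit 0) (nat_lit 18027441047) (nat_lit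 228) (nat_lit 1009858554) (nat_lit 304) (nat_lit 15823223685) (nat_lit 31) (nat_lit 5) (nat_lit 34) (nat_lit 5) (nat_lit 35) (nat_lit 5) (nat_lit 294) (nat_lit 280) (nat_lit 206)) (XT.lf (nat_lit 0) (nat_lit 166351092) (nat_lit 152) (nat_lit 24679479658) (nat_lit 228) (nat_lit 11721214067) (nat_lit 29) (nat_lit 5) (nat_lit 31) (nat_lit 5) (nat_lit 32) (nat_lit 5) (nat_lit 295) (nat_lit 280) (nat_lit 205)))) (XT.nd (nat_lit 156) (nat_lit 228) (nat_lit 0) (XT.nd (nat_lit 78) (nat_lit 0) (nat_lit 0) (XT.lf (nat_lit 0) (nat_lit 19446625661) (nat_lit 152) (nat_lit 12151418887) (nat_lit 228) (nat_lit 6773740452) (nat_lit 29) (nat_lit 5) (nat_lit 31) (nat_lit 5) (nat_lit 32) (nat_lit 5) (nat_lit 296) (nat_lit 280) (nat_lit 204)) (XT.lf (nat_lit 0) (nat_lit 38917245548) (nat_lit 228) (nat_lit 93381662) (nat_lit 76) (nat_lit 1308148070) (nat_lit 29) (nat_lit 5) (nat_lit 32) (nat_lit 5) (nat_lit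 30) (nat_lit 5) (nat_lit 297) (nat_lit 280) (nat_lit 203))) (XT.nd (nat_lit 78) (nat_lit 0) (nat_lit 0) (XT.lf (nat_lit 0) (nat_lit 5015537015) (nat_lit 228) (nat_lit 21513047844) (nat_lit 76) (nat_lit 15817670252) (nat_lit 26) (nat_lit 5) (nat_lit 29) (nat_lit 5) (nat_lit 27) (nat_lit 5) (nat_lit 298) (nat_lit 280) (nat_lit 202)) (XT.lf (nat_lit 0) (nat_lit 11867077109) (nat_lit 228) (nat_lit 1141077165) (nat_lit 76) (nat_lit 31525133078) (nat_lit 26) (nat_lit 5) (nat_lit 29) (nat_lit 5) (nat_lit 27) (nat_lit 5) (nat_lit 299) (nat_lit 280) (nat_lit 201))))))))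
noncomputable def xc82 : XT := (XT.nd (nat_lit 2340) (nat_lit 304) (nat_lit 0) (XT.nd (nat_lit 1170) (nat_lit 532) (nat_lit 0) (XT.nd (nat_lit 546) (nat_lit 380) (nat_lit 0) (XT.nd (nat_lit 234) (nat_lit 304) (nat_lit 0) (XT.nd (nat_lit 78) (nat_lit 152) (nat_lit 0) (XT.lf (nat_lit 0) (nat_lit 19841298885) (nat_lit 228) (nat_lit 24954253859) (nat_lit 76) (nat_lit 2053776281) (nat_lit 24) (nat_lit 5) (nat_lit 27) (nat_lit 5) (nat_lit 25) (nat_lit 5) (nat_lit 300) (nat_lit 280) (nat_lit 200)) (XT.nd (nat_lit 78) (nat_lit 152) (nat_lit 0) (XT.lf (nat_lit 0) (nat_lit 28818147335) (nat_lit 228) (nat_lit 2855519836) (nat_lit 76) (nat_lit 17647822423) (nat_lit 24) (nat_lit 5) (nat_lit 27) (nat_lit 5) (nat_lit 25) (nat_lit 5) (nat_lit 301) (nat_lit 280) (nat_lit 199)) (XT.lf (nat_lit 0) (nat_lit 22110024605) (nat_lit 152) (nat_lit 16930055827) (nat_lit 228) (nat_lit 12909197523) (nat_lit 22)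 (nat_lit 5) (nat_lit 24) (nat_lit 5) (nat_lit 25) (nat_lit 5) (nat_lit 302) (nat_lit 280) (nat_lit 198)))) (XT.nd (nat_lit 156) (nat_lit 152) (nat_lit 0) (XT.nd (nat_lit 78) (nat_lit 152) (nat_lit 0) (XT.lf (nat_lit 0) (nat_lit 49228267552) (nat_lit 152) (nat_lit 924955099) (nat_lit 228) (nat_lit 4628199528) (nat_lit 22) (nat_lit 5) (nat_lit 24) (nat_lit 5) (nat_lit 25) (nat_lit 5) (nat_lit 303) (nat_lit 280) (nat_lit 197)) (XT.lf (nat_lit 0) (nat_lit 5025291784) (nat_lit 152) (nat_lit 36551859727) (nat_lit 76) (nat_lit 16180621182) (nat_lit 20) (nat_lit 5) (nat_lit 22) (nat_lit 5) (nat_lit 21) (nat_lit 5) (nat_lit 304) (nat_lit 280) (nat_lit 196))) (XT.nd (nat_lit 78) (nat_lit 152) (nat_lit 0) (XT.lf (nat_lit 0) (nat_lit 15376538500) (nat_lit 152) (nat_lit 10693535714) (nat_lit 76) (nat_lit 34878505734) (nat_lit 20) (nat_lit 5) (nat_lit 22) (nat_lit 5) (nat_lit 21) (nat_lit 5) (nat_lit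 305) (nat_lit 280) (nat_lit 195)) (XT.lf (nat_lit 0) (nat_lit 18134320829) (nat_lit 152) (nat_lit 8853729673) (nat_lit 228) (nat_lit 37372034767) (nat_lit 18) (nat_lit 5) (nat_lit 20) (nat_lit 5) (nat_lit 21) (nat_lit 5) (nat_lit 306) (nat_lit 280) (nat_lit 194))))) (XT.nd (nat_lit 312) (nat_lit 76) (nat_lit 0) (XT.nd (nat_lit 156) (nat_lit 228) (nat_lit 0) (XT.nd (nat_lit 78) (nat_lit 76) (nat_lit 0) (XT.lf (nat_lit 0) (nat_lit 40058828928) (nat_lit 228) (nat_lit 18392786193) (nat_lit 76) (nat_lit 9550474487) (nat_lit 18) (nat_lit 5) (nat_lit 21) (nat_lit 5) (nat_lit 19) (nat_lit 4) (nat_lit 307) (nat_lit 280) (nat_lit 193)) (XT.lf (nat_lit 0) (nat_lit 12032887166) (nat_lit 76) (nat_lit 42658153271) (nat_lit 152) (nat_lit 17203157961) (nat_lit 17) (nat_lit 5) (nat_lit 18) (nat_lit 5) (nat_lit 19) (nat_lit 4) (nat_lit 308) (nat_lit 280) (nat_lit 192))) (XT.nd (nat_lit 78) (nat_lit 228)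 (nat_lit 0) (XT.lf (nat_lit 0) (nat_lit 45932868170) (nat_lit 76) (nat_lit 25060391847) (nat_lit 152) (nat_lit 5064466724) (nat_lit 17) (nat_lit 5) (nat_lit 18) (nat_lit 5) (nat_lit 19) (nat_lit 4) (nat_lit 309) (nat_lit 280) (nat_lit 191)) (XT.lf (nat_lit 0) (nat_lit 1885846331) (nat_lit 152) (nat_lit 5799076825) (nat_lit 228) (nat_lit 72850574537) (nat_lit 14) (nat_lit 5) (nat_lit 16) (nat_lit 5) (nat_lit 17) (nat_lit 5) (nat_lit 310) (nat_lit 280) (nat_lit 190)))) (XT.nd (nat_lit 156) (nat_lit 76) (nat_lit 0) (XT.nd (nat_lit 78) (nat_lit 0) (nat_lit 0) (XT.lf (nat_lit 0) (nat_lit 22383308441) (nat_lit 228) (nat_lit 47654304038) (nat_lit 76) (nat_lit 15227145958) (nat_lit 14) (nat_lit 5) (nat_lit 17) (nat_lit 5) (nat_lit 15) (nat_lit 4) (nat_lit 311) (nat_lit 280) (nat_lit 189)) (XT.lf (nat_lit 0) (nat_lit 38405199212) (nat_lit 228) (nat_lit 14335118749) (nat_lit 76) (nat_lit 37620235234)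 (nat_lit 14) (nat_lit 5) (nat_lit 17) (nat_lit 5) (nat_lit 15) (nat_lit 4) (nat_lit 312) (nat_lit 280) (nat_lit 188))) (XT.nd (nat_lit 78) (nat_lit 0) (nat_lit 0) (XT.lf (nat_lit 0) (nat_lit 22784597299) (nat_lit 76) (nat_lit 33469444882) (nat_lit 152) (nat_lit 39566356912) (nat_lit 13) (nat_lit 5) (nat_lit 14) (nat_lit 5) (nat_lit 15) (nat_lit 4) (nat_lit 313) (nat_lit 280) (nat_lit 187)) (XT.lf (nat_lit 0) (nat_lit 63684480700) (nat_lit 76) (nat_lit 12235583294) (nat_lit 152) (nat_lit 25765830322) (nat_lit 13) (nat_lit 5) (nat_lit 14) (nat_lit 5) (nat_lit 15) (nat_lit 4) (nat_lit 314) (nat_lit 280) (nat_lit 186)))))) (XT.nd (nat_lit 546) (nat_lit 228) (nat_lit 0) (XT.nd (nat_lit 234) (nat_lit 152) (nat_lit 0) (XT.nd (nat_lit 78) (nat_lit 152) (nat_lit 0) (XT.lf (nat_lit 0) (nat_lit 97414108245) (nat_lit 152) (nat_lit 426009926) (nat_lit 0) (nat_lit 10160134847) (nat_lit 13) (nat_lit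 5) (nat_lit 15) (nat_lit 4) (nat_lit 13) (nat_lit 4) (nat_lit 315) (nat_lit 280) (nat_lit 185)) (XT.nd (nat_lit 78) (nat_lit 0) (nat_lit 0) (XT.lf (nat_lit 0) (nat_lit 6875679340) (nat_lit 152) (nat_lit 72956880379) (nat_lit 76) (nat_lit 34867364994) (nat_lit 11) (nat_lit 5) (nat_lit 13) (nat_lit 5) (nat_lit 12) (nat_lit 4) (nat_lit 316) (nat_lit 280) (nat_lit 184)) (XT.lf (nat_lit 0) (nat_lit 25172152407) (nat_lit 152) (nat_lit 34904216412) (nat_lit 76) (nat_lit 61836436231) (nat_lit 11) (nat_lit 5) (nat_lit 13) (nat_lit 5) (nat_lit 12) (nat_lit 4) (nat_lit 317) (nat_lit 280) (nat_lit 183)))) (XT.nd (nat_lit 156) (nat_lit 76) (nat_lit 0) (XT.nd (nat_lit 78) (nat_lit 0) (nat_lit 0) (XT.lf (nat_lit 0) (nat_lit 6514699302) (nat_lit 76) (nat_lit 38572173983) (nat_lit 152) (nat_lit 84603482421) (nat_lit 10) (nat_lit 5) (nat_lit 11) (nat_lit 5) (nat_lit 12) (nat_lit 4) (nat_lit 318) (nat_lit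 280) (nat_lit 182)) (XT.lf (nat_lit 0) (nat_lit 53228406519) (nat_lit 76) (nat_lit 14318628584) (nat_lit 152) (nat_lit 70466896371) (nat_lit 10) (nat_lit 5) (nat_lit 11) (nat_lit 5) (nat_lit 12) (nat_lit 4) (nat_lit 319) (nat_lit 280) (nat_lit 181))) (XT.nd (nat_lit 78) (nat_lit 76) (nat_lit 0) (XT.lf (nat_lit 0) (nat_lit 92087645610) (nat_lit 152) (nat_lit 43613377848) (nat_lit 0) (nat_lit 11279680950) (nat_lit 10) (nat_lit 5) (nat_lit 12) (nat_lit 4) (nat_lit 10) (nat_lit 4) (nat_lit 320) (nat_lit 280) (nat_lit 180)) (XT.lf (nat_lit 0) (nat_lit 502432682) (nat_lit 76) (nat_lit 118471250527) (nat_lit 76) (nat_lit 37660563526) (nat_lit 9) (nat_lit 4) (nat_lit 10) (nat_lit 5) (nat_lit 10) (nat_lit 4) (nat_lit 321) (nat_lit 280) (nat_lit 179))))) (XT.nd (nat_lit 312) (nat_lit 76) (nat_lit 0) (XT.nd (nat_lit 156) (nat_lit 76) (nat_lit 0) (XT.nd (nat_lit 78) (nat_lit 76) (nat_lit 0) (XT.lf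 (nat_lit 0) (nat_lit 50624594163) (nat_lit 76) (nat_lit 98576715590) (nat_lit 76) (nat_lit 17763507905) (nat_lit 9) (nat_lit 4) (nat_lit 10) (nat_lit 5) (nat_lit 10) (nat_lit 4) (nat_lit 322) (nat_lit 280) (nat_lit 178)) (XT.lf (nat_lit 0) (nat_lit 3537282477) (nat_lit 152) (nat_lit 73457994099) (nat_lit 76) (nat_lit 101119525572) (nat_lit 8) (nat_lit 5) (nat_lit 10) (nat_lit 5) (nat_lit 9) (nat_lit 4) (nat_lit 323) (nat_lit 280) (nat_lit 177))) (XT.nd (nat_lit 78) (nat_lit 76) (nat_lit 0) (XT.lf (nat_lit 0) (nat_lit 25580894823) (nat_lit 152) (nat_lit 27609441501) (nat_lit 76) (nat_lit 136929663262) (nat_lit 8) (nat_lit 5) (nat_lit 10) (nat_lit 5) (nat_lit 9) (nat_lit 4) (nat_lit 324) (nat_lit 280) (nat_lit 176)) (XT.lf (nat_lit 0) (nat_lit 23057786061) (nat_lit 76) (nat_lit 26883314802) (nat_lit 152) (nat_lit 153100264818) (nat_lit 7) (nat_lit 5) (nat_lit 8) (nat_lit 5) (nat_lit 9)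 (nat_lit 4) (nat_lit 325) (nat_lit 280) (nat_lit 175)))) (XT.nd (nat_lit 156) (nat_lit 76) (nat_lit 0) (XT.nd (nat_lit 78) (nat_lit 0) (nat_lit 0) (XT.lf (nat_lit 0) (nat_lit 77059956718) (nat_lit 152) (nat_lit 137646516654) (nat_lit 0) (nat_lit 2225182169) (nat_lit 7) (nat_lit 5) (nat_lit 9) (nat_lit 4) (nat_lit 7) (nat_lit 4) (nat_lit 326) (nat_lit 280) (nat_lit 174)) (XT.lf (nat_lit 0) (nat_lit 107045273977) (nat_lit 152) (nat_lit 92623228470) (nat_lit 0) (nat_lit 32208910969) (nat_lit 7) (nat_lit 5) (nat_lit 9) (nat_lit 4) (nat_lit 7) (nat_lit 4) (nat_lit 327) (nat_lit 280) (nat_lit 173))) (XT.nd (nat_lit 78) (nat_lit 76) (nat_lit 0) (XT.lf (nat_lit 0) (nat_lit 139428199042) (nat_lit 152) (nat_lit 44000366031) (nat_lit 0) (nat_lit 64590365238) (nat_lit 7) (nat_lit 5) (nat_lit 9) (nat_lit 4) (nat_lit 7) (nat_lit 4) (nat_lit 328) (nat_lit 280) (nat_lit 172)) (XT.lf (nat_lit 0) (nat_lit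 8958338518) (nat_lit 76) (nat_lit 165657740465) (nat_lit 76) (nat_lit 90818544813) (nat_lit 6) (nat_lit 4) (nat_lit 7) (nat_lit 5) (nat_lit 7) (nat_lit 4) (nat_lit 329) (nat_lit 280) (nat_lit 171))))))) (XT.nd (nat_lit 1170) (nat_lit 76) (nat_lit 0) (XT.nd (nat_lit 546) (nat_lit 76) (nat_lit 0) (XT.nd (nat_lit 234) (nat_lit 152) (nat_lit 0) (XT.nd (nat_lit 78) (nat_lit 0) (nat_lit 0) (XT.lf (nat_lit 0) (nat_lit 68654013630) (nat_lit 76) (nat_lit 145166930120) (nat_lit 76) (nat_lit 70326473498) (nat_lit 6) (nat_lit 4) (nat_lit 7) (nat_lit 5) (nat_lit 7) (nat_lit 4) (nat_lit 330) (nat_lit 280) (nat_lit 170)) (XT.nd (nat_lit 78) (nat_lit 0) (nat_lit 0) (XT.lf (nat_lit 0) (nat_lit 133123430153) (nat_lit 76) (nat_lit 123037754997) (nat_lit 76) (nat_lit 48196130811) (nat_lit 6) (nat_lit 4) (nat_lit 7) (nat_lit 5) (nat_lit 7) (nat_lit 4) (nat_lit 331) (nat_lit 280) (nat_lit 169)) (XT.lf (nat_lit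 0) (nat_lit 202748629073) (nat_lit 76) (nat_lit 99139079244) (nat_lit 76) (nat_lit 24296373979) (nat_lit 6) (nat_lit 4) (nat_lit 7) (nat_lit 5) (nat_lit 7) (nat_lit 4) (nat_lit 332) (nat_lit 280) (nat_lit 168)))) (XT.nd (nat_lit 156) (nat_lit 76) (nat_lit 0) (XT.nd (nat_lit 78) (nat_lit 0) (nat_lit 0) (XT.lf (nat_lit 0) (nat_lit 1438667503) (nat_lit 152) (nat_lit 71851277855) (nat_lit 76) (nat_lit 276464200939) (nat_lit 5) (nat_lit 5) (nat_lit 7) (nat_lit 5) (nat_lit 6) (nat_lit 4) (nat_lit 333) (nat_lit 280) (nat_lit 167)) (XT.lf (nat_lit 0) (nat_lit 27919051776) (nat_lit 152) (nat_lit 16773005418) (nat_lit 76) (nat_lit 330467338847) (nat_lit 5) (nat_lit 5) (nat_lit 7) (nat_lit 5) (nat_lit 6) (nat_lit 4) (nat_lit 334) (nat_lit 280) (nat_lit 166))) (XT.nd (nat_lit 78) (nat_lit 0) (nat_lit 0) (XT.lf (nat_lit 0) (nat_lit 44959119469) (nat_lit 76) (nat_lit 12639251097) (nat_lit 152) (nat_lit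 344912255428) (nat_lit 4) (nat_lit 5) (nat_lit 5) (nat_lit 5) (nat_lit 6) (nat_lit 4) (nat_lit 335) (nat_lit 280) (nat_lit 165)) (XT.lf (nat_lit 0) (nat_lit 90650358946) (nat_lit 152) (nat_lit 319971487619) (nat_lit 0) (nat_lit 21348242341) (nat_lit 4) (nat_lit 5) (nat_lit 6) (nat_lit 4) (nat_lit 4) (nat_lit 4) (nat_lit 336) (nat_lit 280) (nat_lit 164))))) (XT.nd (nat_lit 312) (nat_lit 76) (nat_lit 0) (XT.nd (nat_lit 156) (nat_lit 0) (nat_lit 0) (XT.nd (nat_lit 78) (nat_lit 0) (nat_lit 0) (XT.lf (nat_lit 0) (nat_lit 126674097231) (nat_lit 152) (nat_lit 279714705448) (nat_lit 0) (nat_lit 57371299362) (nat_lit 4) (nat_lit 5) (nat_lit 6) (nat_lit 4) (nat_lit 4) (nat_lit 4) (nat_lit 337) (nat_lit 280) (nat_lit 163)) (XT.lf (nat_lit 0) (nat_lit 165579085131) (nat_lit 152) (nat_lit 236238627008) (nat_lit 0) (nat_lit 96275656463) (nat_lit 4) (nat_lit 5) (nat_lit 6) (nat_lit 4) (nat_lit 4) (nat_lit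 4) (nat_lit 338) (nat_lit 280) (nat_lit 162))) (XT.nd (nat_lit 78) (nat_lit 0) (nat_lit 0) (XT.lf (nat_lit 0) (nat_lit 207595870723) (nat_lit 152) (nat_lit 189285616281) (nat_lit 0) (nat_lit 138291857983) (nat_lit 4) (nat_lit 5) (nat_lit 6) (nat_lit 4) (nat_lit 4) (nat_lit 4) (nat_lit 339) (nat_lit 280) (nat_lit 161)) (XT.lf (nat_lit 0) (nat_lit 252973442367) (nat_lit 152) (nat_lit 138577433201) (nat_lit 0) (nat_lit 183668888818) (nat_lit 4) (nat_lit 5) (nat_lit 6) (nat_lit 4) (nat_lit 4) (nat_lit 4) (nat_lit 340) (nat_lit 280) (nat_lit 160)))) (XT.nd (nat_lit 156) (nat_lit 76) (nat_lit 0) (XT.nd (nat_lit 78) (nat_lit 0) (nat_lit 0) (XT.lf (nat_lit 0) (nat_lit 301980704191) (nat_lit 152) (nat_lit 83813584834) (nat_lit 0) (nat_lit 232675649893) (nat_lit 4) (nat_lit 5) (nat_lit 6) (nat_lit 4) (nat_lit 4) (nat_lit 4) (nat_lit 341) (nat_lit 280) (nat_lit 159)) (XT.lf (nat_lit 0) (nat_lit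 354908069597) (nat_lit 152) (nat_lit 24669544668) (nat_lit 0) (nat_lit 285602551643) (nat_lit 4) (nat_lit 5) (nat_lit 6) (nat_lit 4) (nat_lit 4) (nat_lit 4) (nat_lit 342) (nat_lit 280) (nat_lit 158))) (XT.nd (nat_lit 78) (nat_lit 0) (nat_lit 0) (XT.lf (nat_lit 0) (nat_lit 41269645295) (nat_lit 76) (nat_lit 371792072900) (nat_lit 76) (nat_lit 302486125635) (nat_lit 3) (nat_lit 4) (nat_lit 4) (nat_lit 5) (nat_lit 4) (nat_lit 4) (nat_lit 343) (nat_lit 280) (nat_lit 157)) (XT.lf (nat_lit 0) (nat_lit 113886122580) (nat_lit 76) (nat_lit 362655616026) (nat_lit 76) (nat_lit 293349271251) (nat_lit 3) (nat_lit 4) (nat_lit 4) (nat_lit 5) (nat_lit 4) (nat_lit 4) (nat_lit 344) (nat_lit 280) (nat_lit 156)))))) (XT.nd (nat_lit 624) (nat_lit 76) (nat_lit 0) (XT.nd (nat_lit 312) (nat_lit 0) (nat_lit 0) (XT.nd (nat_lit 156) (nat_lit 0) (nat_lit 0) (XT.nd (nat_lit 78) (nat_lit 0) (nat_lit 0) (XT.lf (nat_lit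 0) (nat_lit 192311152546) (nat_lit 76) (nat_lit 352788610747) (nat_lit 76) (nat_lit 283481897906) (nat_lit 3) (nat_lit 4) (nat_lit 4) (nat_lit 5) (nat_lit 4) (nat_lit 4) (nat_lit 345) (nat_lit 280) (nat_lit 155)) (XT.lf (nat_lit 0) (nat_lit 277009476113) (nat_lit 76) (nat_lit 342132585920) (nat_lit 76) (nat_lit 272825532279) (nat_lit 3) (nat_lit 4) (nat_lit 4) (nat_lit 5) (nat_lit 4) (nat_lit 4) (nat_lit 346) (nat_lit 280) (nat_lit 154))) (XT.nd (nat_lit 78) (nat_lit 0) (nat_lit 0) (XT.lf (nat_lit 0) (nat_lit 368483009271) (nat_lit 76) (nat_lit 330624394732) (nat_lit 76) (nat_lit 261317025534) (nat_lit 3) (nat_lit 4) (nat_lit 4) (nat_lit 5) (nat_lit 4) (nat_lit 4) (nat_lit 347) (nat_lit 280) (nat_lit 153)) (XT.lf (nat_lit 0) (nat_lit 467273817402) (nat_lit 76) (nat_lit 318195840494) (nat_lit 76) (nat_lit 248888179113) (nat_lit 3) (nat_lit 4) (nat_lit 4) (nat_lit 5) (nat_lit 4) (nat_lit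 4) (nat_lit 348) (nat_lit 280) (nat_lit 152)))) (XT.nd (nat_lit 156) (nat_lit 0) (nat_lit 0) (XT.nd (nat_lit 78) (nat_lit 0) (nat_lit 0) (XT.lf (nat_lit 0) (nat_lit 573967327518) (nat_lit 76) (nat_lit 304773272514) (nat_lit 76) (nat_lit 235465340595) (nat_lit 3) (nat_lit 4) (nat_lit 4) (nat_lit 5) (nat_lit 4) (nat_lit 4) (nat_lit 349) (nat_lit 280) (nat_lit 151)) (XT.lf (nat_lit 0) (nat_lit 689195797456) (nat_lit 76) (nat_lit 290277149648) (nat_lit 76) (nat_lit 220968967230) (nat_lit 3) (nat_lit 4) (nat_lit 4) (nat_lit 5) (nat_lit 4) (nat_lit 4) (nat_lit 350) (nat_lit 280) (nat_lit 150))) (XT.nd (nat_lit 78) (nat_lit 0) (nat_lit 0) (XT.lf (nat_lit 0) (nat_lit 813642062593) (nat_lit 76) (nat_lit 274621568947) (nat_lit 76) (nat_lit 205313154586) (nat_lit 3) (nat_lit 4) (nat_lit 4) (nat_lit 5) (nat_lit 4) (nat_lit 4) (nat_lit 351) (nat_lit 280) (nat_lit 149)) (XT.lf (nat_lit 0) (nat_lit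 948043582280) (nat_lit 76) (nat_lit 257713756599) (nat_lit 76) (nat_lit 188405127475) (nat_lit 3) (nat_lit 4) (nat_lit 4) (nat_lit 5) (nat_lit 4) (nat_lit 4) (nat_lit 352) (nat_lit 280) (nat_lit 148))))) (XT.nd (nat_lit 312) (nat_lit 76) (nat_lit 0) (XT.nd (nat_lit 156) (nat_lit 0) (nat_lit 0) (XT.nd (nat_lit 78) (nat_lit 0) (nat_lit 0) (XT.lf (nat_lit 0) (nat_lit 1093196809964) (nat_lit 76) (nat_lit 239453518160) (nat_lit 76) (nat_lit 170144690182) (nat_lit 3) (nat_lit 4) (nat_lit 4) (nat_lit 5) (nat_lit 4) (nat_lit 4) (nat_lit 353) (nat_lit 280) (nat_lit 147)) (XT.lf (nat_lit 0) (nat_lit 1249961912922) (nat_lit 76) (nat_lit 219732644810) (nat_lit 76) (nat_lit 150423632708) (nat_lit 3) (nat_lit 4) (nat_lit 4) (nat_lit 5) (nat_lit 4) (nat_lit 4) (nat_lit 354) (nat_lit 280) (nat_lit 146))) (XT.nd (nat_lit 78) (nat_lit 0) (nat_lit 0) (XT.lf (nat_lit 0) (nat_lit 1419267869542) (nat_lit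 76) (nat_lit 198434272114) (nat_lit 76) (nat_lit 129125089527) (nat_lit 3) (nat_lit 4) (nat_lit 4) (nat_lit 5) (nat_lit 4) (nat_lit 4) (nat_lit 355) (nat_lit 280) (nat_lit 145)) (XT.lf (nat_lit 0) (nat_lit 1602117974381) (nat_lit 76) (nat_lit 175432187494) (nat_lit 76) (nat_lit 106122847049) (nat_lit 3) (nat_lit 4) (nat_lit 4) (nat_lit 5) (nat_lit 4) (nat_lit 4) (nat_lit 356) (nat_lit 280) (nat_lit 144)))) (XT.nd (nat_lit 156) (nat_lit 76) (nat_lit 0) (XT.nd (nat_lit 78) (nat_lit 0) (nat_lit 0) (XT.lf (nat_lit 0) (nat_lit 1799595783616) (nat_lit 76) (nat_lit 150590082299) (nat_lit 76) (nat_lit 81280595691) (nat_lit 3) (nat_lit 4) (nat_lit 4) (nat_lit 5) (nat_lit 4) (nat_lit 4) (nat_lit 357) (nat_lit 280) (nat_lit 143)) (XT.lf (nat_lit 0) (nat_lit 2012871536117) (nat_lit 76) (nat_lit 123760744055) (nat_lit 76) (nat_lit 54451122110) (nat_lit 3) (nat_lit 4) (nat_lit 4) (nat_lit 5) (nat_lit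 4) (nat_lit 4) (nat_lit 358) (nat_lit 280) (nat_lit 142))) (XT.nd (nat_lit 78) (nat_lit 76) (nat_lit 0) (XT.lf (nat_lit 0) (nat_lit 2243209088195) (nat_lit 76) (nat_lit 94785184090) (nat_lit 76) (nat_lit 25475436833) (nat_lit 3) (nat_lit 4) (nat_lit 4) (nat_lit 5) (nat_lit 4) (nat_lit 4) (nat_lit 359) (nat_lit 280) (nat_lit 141)) (XT.lf (nat_lit 0) (nat_lit 5527119581) (nat_lit 152) (nat_lit 57813454556) (nat_lit 76) (nat_lit 2486295162295) (nat_lit 2) (nat_lit 5) (nat_lit 4) (nat_lit 5) (nat_lit 3) (nat_lit 4) (nat_lit 360) (nat_lit 280) (nat_lit 140))))))))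
noncomputable def xc83 : XT := (XT.nd (nat_lit 36426) (nat_lit 0) (nat_lit 228) (XT.nd (nat_lit 35178) (nat_lit 0) (nat_lit 1444) (XT.nd (nat_lit 34554) (nat_lit 0) (nat_lit 2812) (XT.nd (nat_lit 234) (nat_lit 0) (nat_lit 0) (XT.nd (nat_lit 78) (nat_lit 0) (nat_lit 0) (XT.lf (nat_lit 0) (nat_lit 9439771273) (nat_lit 76) (nat_lit 28420681608) (nat_lit 152) (nat_lit 2712763504533) (nat_lit 1) (nat_lit 5) (nat_lit 2) (nat_lit 5) (nat_lit 3) (nat_lit 4) (nat_lit 361) (nat_lit 280) (nat_lit 139)) (XT.nd (nat_lit 78) (nat_lit 0) (nat_lit 0) (XT.lf (nat_lit 0) (nat_lit 74625606752) (nat_lit 152) (nat_lit 2882468401242) (nat_lit 0) (nat_lit 10449615828) (nat_lit 1) (nat_lit 5) (nat_lit 3) (nat_lit 4) (nat_lit 1) (nat_lit 4) (nat_lit 362) (nat_lit 280) (nat_lit 138)) (XT.lf (nat_lit 0) (nat_lit 115070062975) (nat_lit 152) (nat_lit 3035793766655) (nat_lit 0) (nat_lit 50893986766) (nat_lit 1) (nat_lit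 5) (nat_lit 3) (nat_lit 4) (nat_lit 1) (nat_lit 4) (nat_lit 363) (nat_lit 280) (nat_lit 137)))) (XT.nd (nat_lit 34164) (nat_lit 0) (nat_lit 3268) (XT.nd (nat_lit 78) (nat_lit 0) (nat_lit 0) (XT.lf (nat_lit 0) (nat_lit 158749974327) (nat_lit 152) (nat_lit 3201385359063) (nat_lit 0) (nat_lit 94573819151) (nat_lit 1) (nat_lit 5) (nat_lit 3) (nat_lit 4) (nat_lit 1) (nat_lit 4) (nat_lit 364) (nat_lit 280) (nat_lit 136)) (XT.lf (nat_lit 0) (nat_lit 205924184727) (nat_lit 152) (nat_lit 3380224461974) (nat_lit 0) (nat_lit 141747956432) (nat_lit 1) (nat_lit 5) (nat_lit 3) (nat_lit 4) (nat_lit 1) (nat_lit 4) (nat_lit 365) (nat_lit 280) (nat_lit 135))) (XT.nd (nat_lit 78) (nat_lit 0) (nat_lit 0) (XT.lf (nat_lit 0) (nat_lit 5533824423) (nat_lit 532) (nat_lit 2401860811) (nat_lit 532) (nat_lit 2401860811) (nat_lit 44) (nat_lit 3) (nat_lit 51) (nat_lit 3) (nat_lit 51) (nat_lit 5) (nat_lit 281) (nat_lit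 281) (nat_lit 218)) (XT.lf (nat_lit 76) (nat_lit 4819831995) (nat_lit 0) (nat_lit 6947368167) (nat_lit 532) (nat_lit 9713887409) (nat_lit 45) (nat_lit 5) (nat_lit 44) (nat_lit 3) (nat_lit 51) (nat_lit 5) (nat_lit 282) (nat_lit 281) (nat_lit 217))))) (XT.nd (nat_lit 312) (nat_lit 532) (nat_lit 0) (XT.nd (nat_lit 156) (nat_lit 0) (nat_lit 0) (XT.nd (nat_lit 78) (nat_lit 0) (nat_lit 0) (XT.lf (nat_lit 0) (nat_lit 12708034695) (nat_lit 456) (nat_lit 6932091779) (nat_lit 532) (nat_lit 2696656769) (nat_lit 45) (nat_lit 5) (nat_lit 51) (nat_lit 5) (nat_lit 52) (nat_lit 5) (nat_lit 283) (nat_lit 281) (nat_lit 216)) (XT.lf (nat_lit 76) (nat_lit 3564584809) (nat_lit 0) (nat_lit 10412635710) (nat_lit 532) (nat_lit 9263509952) (nat_lit 46) (nat_lit 5) (nat_lit 45) (nat_lit 5) (nat_lit 52) (nat_lit 5) (nat_lit 284) (nat_lit 281) (nat_lit 215))) (XT.nd (nat_lit 78) (nat_lit 0) (nat_lit 76) (XT.lf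 (nat_lit 76) (nat_lit 15286765419) (nat_lit 0) (nat_lit 238382952) (nat_lit 532) (nat_lit 8677708039) (nat_lit 46) (nat_lit 5) (nat_lit 45) (nat_lit 5) (nat_lit 52) (nat_lit 5) (nat_lit 285) (nat_lit 281) (nat_lit 214)) (XT.lf (nat_lit 76) (nat_lit 2565708834) (nat_lit 0) (nat_lit 14940110927) (nat_lit 532) (nat_lit 7711456498) (nat_lit 47) (nat_lit 5) (nat_lit 46) (nat_lit 5) (nat_lit 53) (nat_lit 5) (nat_lit 286) (nat_lit 281) (nat_lit 213)))) (XT.nd (nat_lit 156) (nat_lit 228) (nat_lit 0) (XT.nd (nat_lit 78) (nat_lit 380) (nat_lit 0) (XT.lf (nat_lit 76) (nat_lit 15457952293) (nat_lit 0) (nat_lit 4426111276) (nat_lit 532) (nat_lit 6409690501) (nat_lit 47) (nat_lit 5) (nat_lit 46) (nat_lit 5) (nat_lit 53) (nat_lit 5) (nat_lit 287) (nat_lit 281) (nat_lit 212)) (XT.lf (nat_lit 0) (nat_lit 1841841314) (nat_lit 456) (nat_lit 20811804765) (nat_lit 532) (nat_lit 4786649052) (nat_lit 41) (nat_lit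 5) (nat_lit 47) (nat_lit 5) (nat_lit 48) (nat_lit 5) (nat_lit 288) (nat_lit 281) (nat_lit 211))) (XT.nd (nat_lit 78) (nat_lit 228) (nat_lit 0) (XT.lf (nat_lit 0) (nat_lit 16020267167) (nat_lit 456) (nat_lit 10023513819) (nat_lit 532) (nat_lit 2602888664) (nat_lit 41) (nat_lit 5) (nat_lit 47) (nat_lit 5) (nat_lit 48) (nat_lit 5) (nat_lit 289) (nat_lit 281) (nat_lit 210)) (XT.lf (nat_lit 0) (nat_lit 1405843862) (nat_lit 228) (nat_lit 28363612262) (nat_lit 304) (nat_lit 174978538) (nat_lit 38) (nat_lit 5) (nat_lit 41) (nat_lit 5) (nat_lit 42) (nat_lit 5) (nat_lit 290) (nat_lit 281) (nat_lit 209)))))) (XT.nd (nat_lit 624) (nat_lit 532) (nat_lit 0) (XT.nd (nat_lit 312) (nat_lit 304) (nat_lit 0) (XT.nd (nat_lit 156) (nat_lit 228) (nat_lit 0) (XT.nd (nat_lit 78) (nat_lit 228) (nat_lit 0) (XT.lf (nat_lit 0) (nat_lit 2930860541) (nat_lit 304) (nat_lit 14376821552) (nat_lit 76) (nat_lit 13985164428)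 (nat_lit 37) (nat_lit 5) (nat_lit 41) (nat_lit 5) (nat_lit 38) (nat_lit 5) (nat_lit 291) (nat_lit 281) (nat_lit 208)) (XT.lf (nat_lit 0) (nat_lit 952675849) (nat_lit 228) (nat_lit 5338141077) (nat_lit 304) (nat_lit 26456763867) (nat_lit 34) (nat_lit 5) (nat_lit 37) (nat_lit 5) (nat_lit 38) (nat_lit 5) (nat_lit 292) (nat_lit 281) (nat_lit 207))) (XT.nd (nat_lit 78) (nat_lit 228) (nat_lit 0) (XT.lf (nat_lit 0) (nat_lit 10497940775) (nat_lit 304) (nat_lit 16162527602) (nat_lit 76) (nat_lit 7611975520) (nat_lit 34) (nat_lit 5) (nat_lit 38) (nat_lit 5) (nat_lit 35) (nat_lit 5) (nat_lit 293) (nat_lit 281) (nat_lit 206)) (XT.lf (nat_lit 0) (nat_lit 603931710) (nat_lit 228) (nat_lit 14583989991) (nat_lit 304) (nat_lit 20719689670) (nat_lit 31) (nat_lit 5) (nat_lit 34) (nat_lit 5) (nat_lit 35) (nat_lit 5) (nat_lit 294) (nat_lit 281) (nat_lit 205)))) (XT.nd (nat_lit 156) (nat_lit 152) (nat_lit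 0) (XT.nd (nat_lit 78) (nat_lit 152) (nat_lit 0) (XT.lf (nat_lit 0) (nat_lit 19623022932) (nat_lit 228) (nat_lit 1065421219) (nat_lit 304) (nat_lit 16950337593) (nat_lit 31) (nat_lit 5) (nat_lit 34) (nat_lit 5) (nat_lit 35) (nat_lit 5) (nat_lit 295) (nat_lit 281) (nat_lit 204)) (XT.lf (nat_lit 0) (nat_lit 338886718) (nat_lit 152) (nat_lit 26617668871) (nat_lit 228) (nat_lit 12525702071) (nat_lit 29) (nat_lit 5) (nat_lit 31) (nat_lit 5) (nat_lit 32) (nat_lit 5) (nat_lit 296) (nat_lit 281) (nat_lit 203))) (XT.nd (nat_lit 78) (nat_lit 152) (nat_lit 0) (XT.lf (nat_lit 0) (nat_lit 21149788620) (nat_lit 152) (nat_lit 13090042436) (nat_lit 228) (nat_lit 7192297910) (nat_lit 29) (nat_lit 5) (nat_lit 31) (nat_lit 5) (nat_lit 32) (nat_lit 5) (nat_lit 297) (nat_lit 281) (nat_lit 202)) (XT.lf (nat_lit 0) (nat_lit 45913380) (nat_lit 152) (nat_lit 42092064527) (nat_lit 228) (nat_lit 1397448771) (nat_lit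 27) (nat_lit 5) (nat_lit 29) (nat_lit 5) (nat_lit 30) (nat_lit 5) (nat_lit 298) (nat_lit 281) (nat_lit 201))))) (XT.nd (nat_lit 312) (nat_lit 304) (nat_lit 0) (XT.nd (nat_lit 156) (nat_lit 152) (nat_lit 0) (XT.nd (nat_lit 78) (nat_lit 0) (nat_lit 0) (XT.lf (nat_lit 0) (nat_lit 5521418788) (nat_lit 228) (nat_lit 23087545240) (nat_lit 76) (nat_lit 17116395415) (nat_lit 26) (nat_lit 5) (nat_lit 29) (nat_lit 5) (nat_lit 27) (nat_lit 5) (nat_lit 299) (nat_lit 281) (nat_lit 200)) (XT.lf (nat_lit 0) (nat_lit 12913331066) (nat_lit 228) (nat_lit 1096672198) (nat_lit 76) (nat_lit 34077987746) (nat_lit 26) (nat_lit 5) (nat_lit 29) (nat_lit 5) (nat_lit 27) (nat_lit 5) (nat_lit 300) (nat_lit 281) (nat_lit 199))) (XT.nd (nat_lit 78) (nat_lit 0) (nat_lit 0) (XT.lf (nat_lit 0) (nat_lit 21522441180) (nat_lit 228) (nat_lit 26811660747) (nat_lit 76) (nat_lit 2255473473) (nat_lit 24) (nat_lit 5) (nat_lit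 27) (nat_lit 5) (nat_lit 25) (nat_lit 5) (nat_lit 301) (nat_lit 281) (nat_lit 198)) (XT.lf (nat_lit 0) (nat_lit 31210486515) (nat_lit 228) (nat_lit 2955319367) (nat_lit 76) (nat_lit 19094273299) (nat_lit 24) (nat_lit 5) (nat_lit 27) (nat_lit 5) (nat_lit 25) (nat_lit 5) (nat_lit 302) (nat_lit 281) (nat_lit 197)))) (XT.nd (nat_lit 156) (nat_lit 152) (nat_lit 0) (XT.nd (nat_lit 78) (nat_lit 0) (nat_lit 0) (XT.lf (nat_lit 0) (nat_lit 24004211869) (nat_lit 152) (nat_lit 18242541807) (nat_lit 228) (nat_lit 13851623810) (nat_lit 22) (nat_lit 5) (nat_lit 24) (nat_lit 5) (nat_lit 25) (nat_lit 5) (nat_lit 303) (nat_lit 281) (nat_lit 196)) (XT.lf (nat_lit 0) (nat_lit 53282626452) (nat_lit 152) (nat_lit 960138094) (nat_lit 228) (nat_lit 4914835570) (nat_lit 22) (nat_lit 5) (nat_lit 24) (nat_lit 5) (nat_lit 25) (nat_lit 5) (nat_lit 304) (nat_lit 281) (nat_lit 195))) (XT.nd (nat_lit 78) (nat_lit 0)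 (nat_lit 0) (XT.lf (nat_lit 0) (nat_lit 5504676667) (nat_lit 152) (nat_lit 39353379589) (nat_lit 76) (nat_lit 17514018059) (nat_lit 20) (nat_lit 5) (nat_lit 22) (nat_lit 5) (nat_lit 21) (nat_lit 5) (nat_lit 305) (nat_lit 281) (nat_lit 194)) (XT.lf (nat_lit 0) (nat_lit 16678292636) (nat_lit 152) (nat_lit 11435473279) (nat_lit 76) (nat_lit 37704848399) (nat_lit 20) (nat_lit 5) (nat_lit 22) (nat_lit 5) (nat_lit 21) (nat_lit 5) (nat_lit 306) (nat_lit 281) (nat_lit 193))))))) (XT.nd (nat_lit 1170) (nat_lit 456) (nat_lit 0) (XT.nd (nat_lit 546) (nat_lit 304) (nat_lit 0) (XT.nd (nat_lit 234) (nat_lit 228) (nat_lit 0) (XT.nd (nat_lit 78) (nat_lit 76) (nat_lit 0) (XT.lf (nat_lit 0) (nat_lit 19695737223) (nat_lit 152) (nat_lit 9520344005) (nat_lit 228) (nat_lit 40287179386) (nat_lit 18) (nat_lit 5) (nat_lit 20) (nat_lit 5) (nat_lit 21) (nat_lit 5) (nat_lit 307) (nat_lit 281) (nat_lit 192)) (XT.nd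 (nat_lit 78) (nat_lit 76) (nat_lit 0) (XT.lf (nat_lit 0) (nat_lit 43328340046) (nat_lit 228) (nat_lit 19757450105) (nat_lit 76) (nat_lit 10351178036) (nat_lit 18) (nat_lit 5) (nat_lit 21) (nat_lit 5) (nat_lit 19) (nat_lit 4) (nat_lit 308) (nat_lit 281) (nat_lit 191)) (XT.lf (nat_lit 0) (nat_lit 13099574364) (nat_lit 76) (nat_lit 46029256311) (nat_lit 152) (nat_lit 18511806548) (nat_lit 17) (nat_lit 5) (nat_lit 18) (nat_lit 5) (nat_lit 19) (nat_lit 4) (nat_lit 309) (nat_lit 281) (nat_lit 190)))) (XT.nd (nat_lit 156) (nat_lit 0) (nat_lit 0) (XT.nd (nat_lit 78) (nat_lit 228) (nat_lit 0) (XT.lf (nat_lit 0) (nat_lit 49703845980) (nat_lit 76) (nat_lit 27026751693) (nat_lit 152) (nat_lit 5407027719) (nat_lit 17) (nat_lit 5) (nat_lit 18) (nat_lit 5) (nat_lit 19) (nat_lit 4) (nat_lit 310) (nat_lit 281) (nat_lit 189)) (XT.lf (nat_lit 0) (nat_lit 2133755871) (nat_lit 152) (nat_lit 6223355199) (nat_lit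 228) (nat_lit 78616558320) (nat_lit 14) (nat_lit 5) (nat_lit 16) (nat_lit 5) (nat_lit 17) (nat_lit 5) (nat_lit 311) (nat_lit 281) (nat_lit 188))) (XT.nd (nat_lit 78) (nat_lit 0) (nat_lit 0) (XT.lf (nat_lit 0) (nat_lit 24227998665) (nat_lit 228) (nat_lit 51373355377) (nat_lit 76) (nat_lit 16480192107) (nat_lit 14) (nat_lit 5) (nat_lit 17) (nat_lit 5) (nat_lit 15) (nat_lit 4) (nat_lit 312) (nat_lit 281) (nat_lit 187)) (XT.lf (nat_lit 0) (nat_lit 41527638804) (nat_lit 228) (nat_lit 15395545857) (nat_lit 76) (nat_lit 40662145230) (nat_lit 14) (nat_lit 5) (nat_lit 17) (nat_lit 5) (nat_lit 15) (nat_lit 4) (nat_lit 313) (nat_lit 281) (nat_lit 186))))) (XT.nd (nat_lit 312) (nat_lit 76) (nat_lit 0) (XT.nd (nat_lit 156) (nat_lit 152) (nat_lit 0) (XT.nd (nat_lit 78) (nat_lit 0) (nat_lit 0) (XT.lf (nat_lit 0) (nat_lit 24691560579) (nat_lit 76) (nat_lit 36111148079) (nat_lit 152) (nat_lit 42679394111)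 (nat_lit 13) (nat_lit 5) (nat_lit 14) (nat_lit 5) (nat_lit 15) (nat_lit 4) (nat_lit 314) (nat_lit 281) (nat_lit 185)) (XT.lf (nat_lit 0) (nat_lit 68857197950) (nat_lit 76) (nat_lit 13181233296) (nat_lit 152) (nat_lit 27778697346) (nat_lit 13) (nat_lit 5) (nat_lit 14) (nat_lit 5) (nat_lit 15) (nat_lit 4) (nat_lit 315) (nat_lit 281) (nat_lit 184))) (XT.nd (nat_lit 78) (nat_lit 152) (nat_lit 0) (XT.lf (nat_lit 0) (nat_lit 105249422565) (nat_lit 152) (nat_lit 385278052) (nat_lit 0) (nat_lit 11002145662) (nat_lit 13) (nat_lit 5) (nat_lit 15) (nat_lit 4) (nat_lit 13) (nat_lit 4) (nat_lit 316) (nat_lit 281) (nat_lit 183)) (XT.lf (nat_lit 0) (nat_lit 7467654150) (nat_lit 152) (nat_lit 78718259983) (nat_lit 76) (nat_lit 37686606229) (nat_lit 11) (nat_lit 5) (nat_lit 13) (nat_lit 5) (nat_lit 12) (nat_lit 4) (nat_lit 317) (nat_lit 281) (nat_lit 182)))) (XT.nd (nat_lit 156) (nat_lit 0) (nat_lit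 0) (XT.nd (nat_lit 78) (nat_lit 76) (nat_lit 0) (XT.lf (nat_lit 0) (nat_lit 27224739842) (nat_lit 152) (nat_lit 37626951108) (nat_lit 76) (nat_lit 66810991903) (nat_lit 11) (nat_lit 5) (nat_lit 13) (nat_lit 5) (nat_lit 12) (nat_lit 4) (nat_lit 318) (nat_lit 281) (nat_lit 181)) (XT.lf (nat_lit 0) (nat_lit 7103715771) (nat_lit 76) (nat_lit 41627678982) (nat_lit 152) (nat_lit 91331145364) (nat_lit 10) (nat_lit 5) (nat_lit 11) (nat_lit 5) (nat_lit 12) (nat_lit 4) (nat_lit 319) (nat_lit 281) (nat_lit 180))) (XT.nd (nat_lit 78) (nat_lit 0) (nat_lit 0) (XT.lf (nat_lit 0) (nat_lit 57549494342) (nat_lit 76) (nat_lit 15436092093) (nat_lit 152) (nat_lit 76066640997) (nat_lit 10) (nat_lit 5) (nat_lit 11) (nat_lit 5) (nat_lit 12) (nat_lit 4) (nat_lit 320) (nat_lit 281) (nat_lit 179)) (XT.lf (nat_lit 0) (nat_lit 99487492970) (nat_lit 152) (nat_lit 47042300098) (nat_lit 0) (nat_lit 12206707985) (nat_lit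 10) (nat_lit 5) (nat_lit 12) (nat_lit 4) (nat_lit 10) (nat_lit 4) (nat_lit 321) (nat_lit 281) (nat_lit 178)))))) (XT.nd (nat_lit 624) (nat_lit 228) (nat_lit 0) (XT.nd (nat_lit 312) (nat_lit 76) (nat_lit 0) (XT.nd (nat_lit 156) (nat_lit 76) (nat_lit 0) (XT.nd (nat_lit 78) (nat_lit 0) (nat_lit 0) (XT.lf (nat_lit 0) (nat_lit 601252541) (nat_lit 76) (nat_lit 127922138699) (nat_lit 76) (nat_lit 40639019747) (nat_lit 9) (nat_lit 4) (nat_lit 10) (nat_lit 5) (nat_lit 10) (nat_lit 4) (nat_lit 322) (nat_lit 281) (nat_lit 177)) (XT.lf (nat_lit 0) (nat_lit 54728844330) (nat_lit 76) (nat_lit 106438027032) (nat_lit 76) (nat_lit 19152746999) (nat_lit 9) (nat_lit 4) (nat_lit 10) (nat_lit 5) (nat_lit 10) (nat_lit 4) (nat_lit 323) (nat_lit 281) (nat_lit 176))) (XT.nd (nat_lit 78) (nat_lit 0) (nat_lit 0) (XT.lf (nat_lit 0) (nat_lit 3848273127) (nat_lit 152) (nat_lit 79282872929) (nat_lit 76) (nat_lit 109230575475)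 (nat_lit 8) (nat_lit 5) (nat_lit 10) (nat_lit 5) (nat_lit 9) (nat_lit 4) (nat_lit 324) (nat_lit 281) (nat_lit 175)) (XT.lf (nat_lit 0) (nat_lit 27653299790) (nat_lit 152) (nat_lit 29770270249) (nat_lit 76) (nat_lit 147903932487) (nat_lit 8) (nat_lit 5) (nat_lit 10) (nat_lit 5) (nat_lit 9) (nat_lit 4) (nat_lit 325) (nat_lit 281) (nat_lit 174)))) (XT.nd (nat_lit 156) (nat_lit 0) (nat_lit 0) (XT.nd (nat_lit 78) (nat_lit 0) (nat_lit 0) (XT.lf (nat_lit 0) (nat_lit 24949122187) (nat_lit 76) (nat_lit 29012402589) (nat_lit 152) (nat_lit 165321118590) (nat_lit 7) (nat_lit 5) (nat_lit 8) (nat_lit 5) (nat_lit 9) (nat_lit 4) (nat_lit 326) (nat_lit 281) (nat_lit 173)) (XT.lf (nat_lit 0) (nat_lit 83248507683) (nat_lit 152) (nat_lit 148613584400) (nat_lit 0) (nat_lit 2422176379) (nat_lit 7) (nat_lit 5) (nat_lit 9) (nat_lit 4) (nat_lit 7) (nat_lit 4) (nat_lit 327) (nat_lit 281) (nat_lit 172))) (XT.nd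 (nat_lit 78) (nat_lit 0) (nat_lit 0) (XT.lf (nat_lit 0) (nat_lit 115630890736) (nat_lit 152) (nat_lit 99991740835) (nat_lit 0) (nat_lit 34803197584) (nat_lit 7) (nat_lit 5) (nat_lit 9) (nat_lit 4) (nat_lit 7) (nat_lit 4) (nat_lit 328) (nat_lit 281) (nat_lit 171)) (XT.lf (nat_lit 0) (nat_lit 150602820558) (nat_lit 152) (nat_lit 47482112061) (nat_lit 0) (nat_lit 69773866436) (nat_lit 7) (nat_lit 5) (nat_lit 9) (nat_lit 4) (nat_lit 7) (nat_lit 4) (nat_lit 329) (nat_lit 281) (nat_lit 170))))) (XT.nd (nat_lit 312) (nat_lit 152) (nat_lit 0) (XT.nd (nat_lit 156) (nat_lit 0) (nat_lit 0) (XT.nd (nat_lit 78) (nat_lit 0) (nat_lit 0) (XT.lf (nat_lit 0) (nat_lit 9712319656) (nat_lit 76) (nat_lit 178892800080) (nat_lit 76) (nat_lit 98062678394) (nat_lit 6) (nat_lit 4) (nat_lit 7) (nat_lit 5) (nat_lit 7) (nat_lit 4) (nat_lit 330) (nat_lit 281) (nat_lit 169)) (XT.lf (nat_lit 0) (nat_lit 74180884773)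 (nat_lit 76) (nat_lit 156764025620) (nat_lit 76) (nat_lit 75932822855) (nat_lit 6) (nat_lit 4) (nat_lit 7) (nat_lit 5) (nat_lit 7) (nat_lit 4) (nat_lit 331) (nat_lit 281) (nat_lit 168))) (XT.nd (nat_lit 78) (nat_lit 0) (nat_lit 0) (XT.lf (nat_lit 0) (nat_lit 143805295354) (nat_lit 76) (nat_lit 132865720851) (nat_lit 76) (nat_lit 52033517088) (nat_lit 6) (nat_lit 4) (nat_lit 7) (nat_lit 5) (nat_lit 7) (nat_lit 4) (nat_lit 332) (nat_lit 281) (nat_lit 167)) (XT.lf (nat_lit 0) (nat_lit 218998140500) (nat_lit 76) (nat_lit 107056266189) (nat_lit 76) (nat_lit 26223135575) (nat_lit 6) (nat_lit 4) (nat_lit 7) (nat_lit 5) (nat_lit 7) (nat_lit 4) (nat_lit 333) (nat_lit 281) (nat_lit 166)))) (XT.nd (nat_lit 156) (nat_lit 76) (nat_lit 0) (XT.nd (nat_lit 78) (nat_lit 0) (nat_lit 0) (XT.lf (nat_lit 0) (nat_lit 1568668773) (nat_lit 152) (nat_lit 77571157760) (nat_lit 76) (nat_lit 298593448484) (nat_lit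 5) (nat_lit 5) (nat_lit 7) (nat_lit 5) (nat_lit 6) (nat_lit 4) (nat_lit 334) (nat_lit 281) (nat_lit 165)) (XT.lf (nat_lit 0) (nat_lit 30166379501) (nat_lit 152) (nat_lit 18088714071) (nat_lit 76) (nat_lit 356915940278) (nat_lit 5) (nat_lit 5) (nat_lit 7) (nat_lit 5) (nat_lit 6) (nat_lit 4) (nat_lit 335) (nat_lit 281) (nat_lit 164))) (XT.nd (nat_lit 78) (nat_lit 0) (nat_lit 0) (XT.lf (nat_lit 0) (nat_lit 48581319243) (nat_lit 76) (nat_lit 13638314622) (nat_lit 152) (nat_lit 372490761838) (nat_lit 4) (nat_lit 5) (nat_lit 5) (nat_lit 5) (nat_lit 6) (nat_lit 4) (nat_lit 336) (nat_lit 281) (nat_lit 163)) (XT.lf (nat_lit 0) (nat_lit 97915058121) (nat_lit 152) (nat_lit 345544891679) (nat_lit 0) (nat_lit 23066724361) (nat_lit 4) (nat_lit 5) (nat_lit 6) (nat_lit 4) (nat_lit 4) (nat_lit 4) (nat_lit 337) (nat_lit 281) (nat_lit 162))))))))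
noncomputable def xc84 : XT := (XT.nd (nat_lit 36426) (nat_lit 0) (nat_lit 988) (XT.nd (nat_lit 1170) (nat_lit 152) (nat_lit 0) (XT.nd (nat_lit 546) (nat_lit 0) (nat_lit 0) (XT.nd (nat_lit 234) (nat_lit 76) (nat_lit 0) (XT.nd (nat_lit 78) (nat_lit 0) (nat_lit 0) (XT.lf (nat_lit 0) (nat_lit 136819756916) (nat_lit 152) (nat_lit 302069368041) (nat_lit 0) (nat_lit 61970839083) (nat_lit 4) (nat_lit 5) (nat_lit 6) (nat_lit 4) (nat_lit 4) (nat_lit 4) (nat_lit 338) (nat_lit 281) (nat_lit 161)) (XT.nd (nat_lit 78) (nat_lit 0) (nat_lit 0) (XT.lf (nat_lit 0) (nat_lit 178836274818) (nat_lit 152) (nat_lit 255116871019) (nat_lit 0) (nat_lit 103986816176) (nat_lit 4) (nat_lit 5) (nat_lit 6) (nat_lit 4) (nat_lit 4) (nat_lit 4) (nat_lit 339) (nat_lit 281) (nat_lit 160)) (XT.lf (nat_lit 0) (nat_lit 224213598600) (nat_lit 152) (nat_lit 204409163592) (nat_lit 0) (nat_lit 149363639210) (nat_lit 4) (nat_lit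 5) (nat_lit 6) (nat_lit 4) (nat_lit 4) (nat_lit 4) (nat_lit 340) (nat_lit 281) (nat_lit 159)))) (XT.nd (nat_lit 156) (nat_lit 76) (nat_lit 0) (XT.nd (nat_lit 78) (nat_lit 0) (nat_lit 0) (XT.lf (nat_lit 0) (nat_lit 273220630922) (nat_lit 152) (nat_lit 149645755644) (nat_lit 0) (nat_lit 198370207876) (nat_lit 4) (nat_lit 5) (nat_lit 6) (nat_lit 4) (nat_lit 4) (nat_lit 4) (nat_lit 341) (nat_lit 281) (nat_lit 158)) (XT.lf (nat_lit 0) (nat_lit 326147783828) (nat_lit 152) (nat_lit 90502123274) (nat_lit 0) (nat_lit 251296931470) (nat_lit 4) (nat_lit 5) (nat_lit 6) (nat_lit 4) (nat_lit 4) (nat_lit 4) (nat_lit 342) (nat_lit 281) (nat_lit 157))) (XT.nd (nat_lit 78) (nat_lit 76) (nat_lit 0) (XT.lf (nat_lit 0) (nat_lit 383308699704) (nat_lit 152) (nat_lit 26627785699) (nat_lit 0) (nat_lit 308457449836) (nat_lit 4) (nat_lit 5) (nat_lit 6) (nat_lit 4) (nat_lit 4) (nat_lit 4) (nat_lit 343) (nat_lit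 281) (nat_lit 156)) (XT.lf (nat_lit 0) (nat_lit 44586151549) (nat_lit 76) (nat_lit 401528256371) (nat_lit 76) (nat_lit 326676638438) (nat_lit 3) (nat_lit 4) (nat_lit 4) (nat_lit 5) (nat_lit 4) (nat_lit 4) (nat_lit 344) (nat_lit 281) (nat_lit 155))))) (XT.nd (nat_lit 312) (nat_lit 0) (nat_lit 0) (XT.nd (nat_lit 156) (nat_lit 0) (nat_lit 0) (XT.nd (nat_lit 78) (nat_lit 0) (nat_lit 0) (XT.lf (nat_lit 0) (nat_lit 123010840747) (nat_lit 76) (nat_lit 391661414974) (nat_lit 76) (nat_lit 316809456240) (nat_lit 3) (nat_lit 4) (nat_lit 4) (nat_lit 5) (nat_lit 4) (nat_lit 4) (nat_lit 345) (nat_lit 281) (nat_lit 154)) (XT.lf (nat_lit 0) (nat_lit 207708848788) (nat_lit 76) (nat_lit 381005541890) (nat_lit 76) (nat_lit 306153267599) (nat_lit 3) (nat_lit 4) (nat_lit 4) (nat_lit 5) (nat_lit 4) (nat_lit 4) (nat_lit 346) (nat_lit 281) (nat_lit 153))) (XT.nd (nat_lit 78) (nat_lit 0) (nat_lit 0) (XT.lf (nat_lit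 0) (nat_lit 299182089793) (nat_lit 76) (nat_lit 369497491204) (nat_lit 76) (nat_lit 294644924732) (nat_lit 3) (nat_lit 4) (nat_lit 4) (nat_lit 5) (nat_lit 4) (nat_lit 4) (nat_lit 347) (nat_lit 281) (nat_lit 152)) (XT.lf (nat_lit 0) (nat_lit 397972627412) (nat_lit 76) (nat_lit 357069067061) (nat_lit 76) (nat_lit 282216230049) (nat_lit 3) (nat_lit 4) (nat_lit 4) (nat_lit 5) (nat_lit 4) (nat_lit 4) (nat_lit 348) (nat_lit 281) (nat_lit 151)))) (XT.nd (nat_lit 156) (nat_lit 0) (nat_lit 0) (XT.nd (nat_lit 78) (nat_lit 0) (nat_lit 0) (XT.lf (nat_lit 0) (nat_lit 504665887053) (nat_lit 76) (nat_lit 343646619539) (nat_lit 76) (nat_lit 268793532029) (nat_lit 3) (nat_lit 4) (nat_lit 4) (nat_lit 5) (nat_lit 4) (nat_lit 4) (nat_lit 349) (nat_lit 281) (nat_lit 150)) (XT.lf (nat_lit 0) (nat_lit 619894125070) (nat_lit 76) (nat_lit 329150608209) (nat_lit 76) (nat_lit 254297288755) (nat_lit 3) (nat_lit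 4) (nat_lit 4) (nat_lit 5) (nat_lit 4) (nat_lit 4) (nat_lit 350) (nat_lit 281) (nat_lit 149))) (XT.nd (nat_lit 78) (nat_lit 0) (nat_lit 0) (XT.lf (nat_lit 0) (nat_lit 744340175466) (nat_lit 76) (nat_lit 313495130782) (nat_lit 76) (nat_lit 238641596565) (nat_lit 3) (nat_lit 4) (nat_lit 4) (nat_lit 5) (nat_lit 4) (nat_lit 4) (nat_lit 351) (nat_lit 281) (nat_lit 148)) (XT.lf (nat_lit 0) (nat_lit 878741496317) (nat_lit 76) (nat_lit 296587414057) (nat_lit 76) (nat_lit 221733680987) (nat_lit 3) (nat_lit 4) (nat_lit 4) (nat_lit 5) (nat_lit 4) (nat_lit 4) (nat_lit 352) (nat_lit 281) (nat_lit 147)))))) (XT.nd (nat_lit 546) (nat_lit 152) (nat_lit 0) (XT.nd (nat_lit 234) (nat_lit 0) (nat_lit 0) (XT.nd (nat_lit 78) (nat_lit 0) (nat_lit 0) (XT.lf (nat_lit 0) (nat_lit 1023894539895) (nat_lit 76) (nat_lit 278327264158) (nat_lit 76) (nat_lit 203473346964) (nat_lit 3) (nat_lit 4) (nat_lit 4) (nat_lit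 5) (nat_lit 4) (nat_lit 4) (nat_lit 353) (nat_lit 281) (nat_lit 146)) (XT.nd (nat_lit 78) (nat_lit 0) (nat_lit 0) (XT.lf (nat_lit 0) (nat_lit 1180659472385) (nat_lit 76) (nat_lit 258606472790) (nat_lit 76) (nat_lit 183752385110) (nat_lit 3) (nat_lit 4) (nat_lit 4) (nat_lit 5) (nat_lit 4) (nat_lit 4) (nat_lit 354) (nat_lit 281) (nat_lit 145)) (XT.lf (nat_lit 0) (nat_lit 1349965271163) (nat_lit 76) (nat_lit 237308176004) (nat_lit 76) (nat_lit 162453930467) (nat_lit 3) (nat_lit 4) (nat_lit 4) (nat_lit 5) (nat_lit 4) (nat_lit 4) (nat_lit 355) (nat_lit 281) (nat_lit 144)))) (XT.nd (nat_lit 156) (nat_lit 0) (nat_lit 0) (XT.nd (nat_lit 78) (nat_lit 0) (nat_lit 0) (XT.lf (nat_lit 0) (nat_lit 1532815229853) (nat_lit 76) (nat_lit 214306161669) (nat_lit 76) (nat_lit 139451769969) (nat_lit 3) (nat_lit 4) (nat_lit 4) (nat_lit 5) (nat_lit 4) (nat_lit 4) (nat_lit 356) (nat_lit 281) (nat_lit 143)) (XT.lf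 (nat_lit 0) (nat_lit 1730292903764) (nat_lit 76) (nat_lit 189464121554) (nat_lit 76) (nat_lit 114609594517) (nat_lit 3) (nat_lit 4) (nat_lit 4) (nat_lit 5) (nat_lit 4) (nat_lit 4) (nat_lit 357) (nat_lit 281) (nat_lit 142))) (XT.nd (nat_lit 78) (nat_lit 0) (nat_lit 0) (XT.lf (nat_lit 0) (nat_lit 1943568530966) (nat_lit 76) (nat_lit 162634843569) (nat_lit 76) (nat_lit 87780191220) (nat_lit 3) (nat_lit 4) (nat_lit 4) (nat_lit 5) (nat_lit 4) (nat_lit 4) (nat_lit 358) (nat_lit 281) (nat_lit 141)) (XT.lf (nat_lit 0) (nat_lit 2173905967025) (nat_lit 76) (nat_lit 133659339399) (nat_lit 76) (nat_lit 58804571021) (nat_lit 3) (nat_lit 4) (nat_lit 4) (nat_lit 5) (nat_lit 4) (nat_lit 4) (nat_lit 359) (nat_lit 281) (nat_lit 140))))) (XT.nd (nat_lit 312) (nat_lit 0) (nat_lit 0) (XT.nd (nat_lit 156) (nat_lit 76) (nat_lit 0) (XT.nd (nat_lit 78) (nat_lit 76) (nat_lit 0) (XT.lf (nat_lit 0) (nat_lit 2422670174527)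 (nat_lit 76) (nat_lit 102365902354) (nat_lit 76) (nat_lit 27511026541) (nat_lit 3) (nat_lit 4) (nat_lit 4) (nat_lit 5) (nat_lit 4) (nat_lit 4) (nat_lit 360) (nat_lit 281) (nat_lit 139)) (XT.lf (nat_lit 0) (nat_lit 5971439998) (nat_lit 152) (nat_lit 62434380093) (nat_lit 76) (nat_lit 2685200601988) (nat_lit 2) (nat_lit 5) (nat_lit 4) (nat_lit 5) (nat_lit 3) (nat_lit 4) (nat_lit 361) (nat_lit 281) (nat_lit 138))) (XT.nd (nat_lit 78) (nat_lit 0) (nat_lit 0) (XT.lf (nat_lit 0) (nat_lit 10198998718) (nat_lit 76) (nat_lit 30692379222) (nat_lit 152) (nat_lit 2929782327850) (nat_lit 1) (nat_lit 5) (nat_lit 2) (nat_lit 5) (nat_lit 3) (nat_lit 4) (nat_lit 362) (nat_lit 281) (nat_lit 137)) (XT.lf (nat_lit 0) (nat_lit 80597632970) (nat_lit 152) (nat_lit 3113062015104) (nat_lit 0) (nat_lit 11287306411) (nat_lit 1) (nat_lit 5) (nat_lit 3) (nat_lit 4) (nat_lit 1) (nat_lit 4) (nat_lit 363) (nat_lit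 281) (nat_lit 136)))) (XT.nd (nat_lit 34242) (nat_lit 0) (nat_lit 3268) (XT.nd (nat_lit 78) (nat_lit 0) (nat_lit 0) (XT.lf (nat_lit 0) (nat_lit 124277499196) (nat_lit 152) (nat_lit 3278653695546) (nat_lit 0) (nat_lit 54967099520) (nat_lit 1) (nat_lit 5) (nat_lit 3) (nat_lit 4) (nat_lit 1) (nat_lit 4) (nat_lit 364) (nat_lit 281) (nat_lit 135)) (XT.lf (nat_lit 0) (nat_lit 171451667813) (nat_lit 152) (nat_lit 3457492879971) (nat_lit 0) (nat_lit 102141200434) (nat_lit 1) (nat_lit 5) (nat_lit 3) (nat_lit 4) (nat_lit 1) (nat_lit 4) (nat_lit 365) (nat_lit 281) (nat_lit 134))) (XT.nd (nat_lit 78) (nat_lit 0) (nat_lit 0) (XT.lf (nat_lit 0) (nat_lit 6114069336) (nat_lit 532) (nat_lit 2519513890) (nat_lit 532) (nat_lit 2519513890) (nat_lit 44) (nat_lit 3) (nat_lit 51) (nat_lit 3) (nat_lit 51) (nat_lit 5) (nat_lit 282) (nat_lit 282) (nat_lit 216)) (XT.lf (nat_lit 76) (nat_lit 5350638189) (nat_lit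 0) (nat_lit 7616132300) (nat_lit 532) (nat_lit 10211316144) (nat_lit 45) (nat_lit 5) (nat_lit 44) (nat_lit 3) (nat_lit 51) (nat_lit 5) (nat_lit 283) (nat_lit 282) (nat_lit 215))))))) (XT.nd (nat_lit 1170) (nat_lit 1140) (nat_lit 0) (XT.nd (nat_lit 546) (nat_lit 912) (nat_lit 0) (XT.nd (nat_lit 234) (nat_lit 304) (nat_lit 0) (XT.nd (nat_lit 78) (nat_lit 0) (nat_lit 0) (XT.lf (nat_lit 0) (nat_lit 13961230498) (nat_lit 456) (nat_lit 7329784471) (nat_lit 532) (nat_lit 2813015951) (nat_lit 45) (nat_lit 5) (nat_lit 51) (nat_lit 5) (nat_lit 52) (nat_lit 5) (nat_lit 284) (nat_lit 282) (nat_lit 214)) (XT.nd (nat_lit 78) (nat_lit 0) (nat_lit 0) (XT.lf (nat_lit 76) (nat_lit 4002654735) (nat_lit 0) (nat_lit 11315451331) (nat_lit 532) (nat_lit 9763352562) (nat_lit 46) (nat_lit 5) (nat_lit 45) (nat_lit 5) (nat_lit 52) (nat_lit 5) (nat_lit 285) (nat_lit 282) (nat_lit 213)) (XT.lf (nat_lit 76) (nat_lit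 16651283635) (nat_lit 0) (nat_lit 322087629) (nat_lit 532) (nat_lit 9148555991) (nat_lit 46) (nat_lit 5) (nat_lit 45) (nat_lit 5) (nat_lit 52) (nat_lit 5) (nat_lit 286) (nat_lit 282) (nat_lit 212)))) (XT.nd (nat_lit 156) (nat_lit 380) (nat_lit 0) (XT.nd (nat_lit 78) (nat_lit 0) (nat_lit 0) (XT.lf (nat_lit 76) (nat_lit 2927196690) (nat_lit 0) (nat_lit 16172342843) (nat_lit 532) (nat_lit 8119046655) (nat_lit 47) (nat_lit 5) (nat_lit 46) (nat_lit 5) (nat_lit 53) (nat_lit 5) (nat_lit 287) (nat_lit 282) (nat_lit 211)) (XT.lf (nat_lit 76) (nat_lit 16839246947) (nat_lit 0) (nat_lit 4814480772) (nat_lit 532) (nat_lit 6728645034) (nat_lit 47) (nat_lit 5) (nat_lit 46) (nat_lit 5) (nat_lit 53) (nat_lit 5) (nat_lit 288) (nat_lit 282) (nat_lit 210))) (XT.nd (nat_lit 78) (nat_lit 0) (nat_lit 0) (XT.lf (nat_lit 0) (nat_lit 2145493319) (nat_lit 456) (nat_lit 22489124518) (nat_lit 532) (nat_lit 4986881945)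 (nat_lit 41) (nat_lit 5) (nat_lit 47) (nat_lit 5) (nat_lit 48) (nat_lit 5) (nat_lit 289) (nat_lit 282) (nat_lit 209)) (XT.lf (nat_lit 0) (nat_lit 17446615115) (nat_lit 456) (nat_lit 10836853602) (nat_lit 532) (nat_lit 2641953988) (nat_lit 41) (nat_lit 5) (nat_lit 47) (nat_lit 5) (nat_lit 48) (nat_lit 5) (nat_lit 290) (nat_lit 282) (nat_lit 208))))) (XT.nd (nat_lit 312) (nat_lit 380) (nat_lit 0) (XT.nd (nat_lit 156) (nat_lit 228) (nat_lit 0) (XT.nd (nat_lit 78) (nat_lit 76) (nat_lit 0) (XT.lf (nat_lit 0) (nat_lit 1672294483) (nat_lit 228) (nat_lit 30626782234) (nat_lit 304) (nat_lit 28617870) (nat_lit 38) (nat_lit 5) (nat_lit 41) (nat_lit 5) (nat_lit 42) (nat_lit 5) (nat_lit 291) (nat_lit 282) (nat_lit 207)) (XT.lf (nat_lit 0) (nat_lit 3306382298) (nat_lit 304) (nat_lit 15376577162) (nat_lit 76) (nat_lit 15101644987) (nat_lit 37) (nat_lit 5) (nat_lit 41) (nat_lit 5) (nat_lit 38) (nat_lit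 5) (nat_lit 292) (nat_lit 282) (nat_lit 206))) (XT.nd (nat_lit 78) (nat_lit 0) (nat_lit 0) (XT.lf (nat_lit 0) (nat_lit 1175472687) (nat_lit 228) (nat_lit 5752739463) (nat_lit 304) (nat_lit 28428087716) (nat_lit 34) (nat_lit 5) (nat_lit 37) (nat_lit 5) (nat_lit 38) (nat_lit 5) (nat_lit 293) (nat_lit 282) (nat_lit 205)) (XT.lf (nat_lit 0) (nat_lit 11462247668) (nat_lit 304) (nat_lit 17309816227) (nat_lit 76) (nat_lit 8231887224) (nat_lit 34) (nat_lit 5) (nat_lit 38) (nat_lit 5) (nat_lit 35) (nat_lit 5) (nat_lit 294) (nat_lit 282) (nat_lit 204)))) (XT.nd (nat_lit 156) (nat_lit 152) (nat_lit 0) (XT.nd (nat_lit 78) (nat_lit 0) (nat_lit 0) (XT.lf (nat_lit 0) (nat_lit 794270878) (nat_lit 228) (nat_lit 15727351766) (nat_lit 304) (nat_lit 22248798189) (nat_lit 31) (nat_lit 5) (nat_lit 34) (nat_lit 5) (nat_lit 35) (nat_lit 5) (nat_lit 295) (nat_lit 282) (nat_lit 203)) (XT.lf (nat_lit 0) (nat_lit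 21324369054) (nat_lit 228) (nat_lit 1129027672) (nat_lit 304) (nat_lit 18187413995) (nat_lit 31) (nat_lit 5) (nat_lit 34) (nat_lit 5) (nat_lit 35) (nat_lit 5) (nat_lit 296) (nat_lit 282) (nat_lit 202))) (XT.nd (nat_lit 78) (nat_lit 0) (nat_lit 0) (XT.lf (nat_lit 0) (nat_lit 502509606) (nat_lit 152) (nat_lit 28716073156) (nat_lit 228) (nat_lit 13413552886) (nat_lit 29) (nat_lit 5) (nat_lit 31) (nat_lit 5) (nat_lit 32) (nat_lit 5) (nat_lit 297) (nat_lit 282) (nat_lit 201)) (XT.lf (nat_lit 0) (nat_lit 22968171664) (nat_lit 152) (nat_lit 14108533585) (nat_lit 228) (nat_lit 7661936048) (nat_lit 29) (nat_lit 5) (nat_lit 31) (nat_lit 5) (nat_lit 32) (nat_lit 5) (nat_lit 298) (nat_lit 282) (nat_lit 200)))))) (XT.nd (nat_lit 624) (nat_lit 456) (nat_lit 0) (XT.nd (nat_lit 312) (nat_lit 304) (nat_lit 0) (XT.nd (nat_lit 156) (nat_lit 152) (nat_lit 0) (XT.nd (nat_lit 78) (nat_lit 76) (nat_lit 0)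 (XT.lf (nat_lit 0) (nat_lit 179967344) (nat_lit 152) (nat_lit 45423275421) (nat_lit 228) (nat_lit 1407254945) (nat_lit 27) (nat_lit 5) (nat_lit 29) (nat_lit 5) (nat_lit 30) (nat_lit 5) (nat_lit 299) (nat_lit 282) (nat_lit 199)) (XT.lf (nat_lit 0) (nat_lit 6052843206) (nat_lit 228) (nat_lit 24808908915) (nat_lit 76) (nat_lit 18514266328) (nat_lit 26) (nat_lit 5) (nat_lit 29) (nat_lit 5) (nat_lit 27) (nat_lit 5) (nat_lit 300) (nat_lit 282) (nat_lit 198))) (XT.nd (nat_lit 78) (nat_lit 152) (nat_lit 0) (XT.lf (nat_lit 0) (nat_lit 14029463213) (nat_lit 228) (nat_lit 1068072692) (nat_lit 76) (nat_lit 36830670542) (nat_lit 26) (nat_lit 5) (nat_lit 29) (nat_lit 5) (nat_lit 27) (nat_lit 5) (nat_lit 301) (nat_lit 282) (nat_lit 197)) (XT.lf (nat_lit 0) (nat_lit 23324687764) (nat_lit 228) (nat_lit 28837480591) (nat_lit 76) (nat_lit 2467971612) (nat_lit 24) (nat_lit 5) (nat_lit 27) (nat_lit 5) (nat_lit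 25) (nat_lit 5) (nat_lit 302) (nat_lit 282) (nat_lit 196)))) (XT.nd (nat_lit 156) (nat_lit 152) (nat_lit 0) (XT.nd (nat_lit 78) (nat_lit 152) (nat_lit 0) (XT.lf (nat_lit 0) (nat_lit 33781817371) (nat_lit 228) (nat_lit 3081455087) (nat_lit 76) (nat_lit 20651500591) (nat_lit 24) (nat_lit 5) (nat_lit 27) (nat_lit 5) (nat_lit 25) (nat_lit 5) (nat_lit 303) (nat_lit 282) (nat_lit 195)) (XT.lf (nat_lit 0) (nat_lit 26032046500) (nat_lit 152) (nat_lit 19666006806) (nat_lit 228) (nat_lit 14882327862) (nat_lit 22) (nat_lit 5) (nat_lit 24) (nat_lit 5) (nat_lit 25) (nat_lit 5) (nat_lit 304) (nat_lit 282) (nat_lit 194))) (XT.nd (nat_lit 78) (nat_lit 152) (nat_lit 0) (XT.lf (nat_lit 0) (nat_lit 57644771459) (nat_lit 152) (nat_lit 1003672895) (nat_lit 228) (nat_lit 5236331811) (nat_lit 22) (nat_lit 5) (nat_lit 24) (nat_lit 5) (nat_lit 25) (nat_lit 5) (nat_lit 305) (nat_lit 282) (nat_lit 193)) (XT.lf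 (nat_lit 0) (nat_lit 6011375853) (nat_lit 152) (nat_lit 42396515427) (nat_lit 76) (nat_lit 18948530435) (nat_lit 20) (nat_lit 5) (nat_lit 22) (nat_lit 5) (nat_lit 21) (nat_lit 5) (nat_lit 306) (nat_lit 282) (nat_lit 192))))) (XT.nd (nat_lit 312) (nat_lit 228) (nat_lit 0) (XT.nd (nat_lit 156) (nat_lit 76) (nat_lit 0) (XT.nd (nat_lit 78) (nat_lit 152) (nat_lit 0) (XT.lf (nat_lit 0) (nat_lit 18073968133) (nat_lit 152) (nat_lit 12252964354) (nat_lit 76) (nat_lit 40752153800) (nat_lit 20) (nat_lit 5) (nat_lit 22) (nat_lit 5) (nat_lit 21) (nat_lit 5) (nat_lit 307) (nat_lit 282) (nat_lit 191)) (XT.lf (nat_lit 0) (nat_lit 21366278512) (nat_lit 152) (nat_lit 10246234178) (nat_lit 228) (nat_lit 43446180689) (nat_lit 18) (nat_lit 5) (nat_lit 20) (nat_lit 5) (nat_lit 21) (nat_lit 5) (nat_lit 308) (nat_lit 282) (nat_lit 190))) (XT.nd (nat_lit 78) (nat_lit 76) (nat_lit 0) (XT.lf (nat_lit 0) (nat_lit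 46850166924) (nat_lit 228) (nat_lit 21246517492) (nat_lit 76) (nat_lit 11210707113) (nat_lit 18) (nat_lit 5) (nat_lit 21) (nat_lit 5) (nat_lit 19) (nat_lit 4) (nat_lit 309) (nat_lit 282) (nat_lit 189)) (XT.lf (nat_lit 0) (nat_lit 14236751755) (nat_lit 76) (nat_lit 49675975055) (nat_lit 152) (nat_lit 19934791496) (nat_lit 17) (nat_lit 5) (nat_lit 18) (nat_lit 5) (nat_lit 19) (nat_lit 4) (nat_lit 310) (nat_lit 282) (nat_lit 188)))) (XT.nd (nat_lit 156) (nat_lit 0) (nat_lit 0) (XT.nd (nat_lit 78) (nat_lit 228) (nat_lit 0) (XT.lf (nat_lit 0) (nat_lit 53762756845) (nat_lit 76) (nat_lit 29155908716) (nat_lit 152) (nat_lit 5785923663) (nat_lit 17) (nat_lit 5) (nat_lit 18) (nat_lit 5) (nat_lit 19) (nat_lit 4) (nat_lit 311) (nat_lit 282) (nat_lit 187)) (XT.lf (nat_lit 0) (nat_lit 2387654072) (nat_lit 152) (nat_lit 6687232041) (nat_lit 228) (nat_lit 84852674668) (nat_lit 14) (nat_lit 5) (nat_lit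 16) (nat_lit 5) (nat_lit 17) (nat_lit 5) (nat_lit 312) (nat_lit 282) (nat_lit 186))) (XT.nd (nat_lit 78) (nat_lit 0) (nat_lit 0) (XT.lf (nat_lit 0) (nat_lit 26212556757) (nat_lit 228) (nat_lit 55403240111) (nat_lit 76) (nat_lit 17828506714) (nat_lit 14) (nat_lit 5) (nat_lit 17) (nat_lit 5) (nat_lit 15) (nat_lit 4) (nat_lit 313) (nat_lit 282) (nat_lit 185)) (XT.lf (nat_lit 0) (nat_lit 44892737130) (nat_lit 228) (nat_lit 16553130547) (nat_lit 76) (nat_lit 43942801329) (nat_lit 14) (nat_lit 5) (nat_lit 17) (nat_lit 5) (nat_lit 15) (nat_lit 4) (nat_lit 314) (nat_lit 282) (nat_lit 184))))))))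
noncomputable def xc85 : XT := (XT.nd (nat_lit 2340) (nat_lit 228) (nat_lit 0) (XT.nd (nat_lit 1170) (nat_lit 228) (nat_lit 0) (XT.nd (nat_lit 546) (nat_lit 228) (nat_lit 0) (XT.nd (nat_lit 234) (nat_lit 228) (nat_lit 0) (XT.nd (nat_lit 78) (nat_lit 0) (nat_lit 0) (XT.lf (nat_lit 0) (nat_lit 26739069493) (nat_lit 76) (nat_lit 38969302277) (nat_lit 152) (nat_lit 46048931379) (nat_lit 13) (nat_lit 5) (nat_lit 14) (nat_lit 5) (nat_lit 15) (nat_lit 4) (nat_lit 315) (nat_lit 282) (nat_lit 183)) (XT.nd (nat_lit 78) (nat_lit 0) (nat_lit 0) (XT.lf (nat_lit 0) (nat_lit 74432610885) (nat_lit 76) (nat_lit 14207271174) (nat_lit 152) (nat_lit 29959498447) (nat_lit 13) (nat_lit 5) (nat_lit 14) (nat_lit 5) (nat_lit 15) (nat_lit 4) (nat_lit 316) (nat_lit 282) (nat_lit 182)) (XT.lf (nat_lit 0) (nat_lit 113705543774) (nat_lit 152) (nat_lit 351960491) (nat_lit 0) (nat_lit 11907351632) (nat_lit 13) (nat_lit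 5) (nat_lit 15) (nat_lit 4) (nat_lit 13) (nat_lit 4) (nat_lit 317) (nat_lit 282) (nat_lit 181)))) (XT.nd (nat_lit 156) (nat_lit 76) (nat_lit 0) (XT.nd (nat_lit 78) (nat_lit 0) (nat_lit 0) (XT.lf (nat_lit 0) (nat_lit 8101006521) (nat_lit 152) (nat_lit 84951273914) (nat_lit 76) (nat_lit 40727128036) (nat_lit 11) (nat_lit 5) (nat_lit 13) (nat_lit 5) (nat_lit 12) (nat_lit 4) (nat_lit 318) (nat_lit 282) (nat_lit 180)) (XT.lf (nat_lit 0) (nat_lit 29435996843) (nat_lit 152) (nat_lit 40577434171) (nat_lit 76) (nat_lit 72179568763) (nat_lit 11) (nat_lit 5) (nat_lit 13) (nat_lit 5) (nat_lit 12) (nat_lit 4) (nat_lit 319) (nat_lit 282) (nat_lit 179))) (XT.nd (nat_lit 78) (nat_lit 0) (nat_lit 0) (XT.lf (nat_lit 0) (nat_lit 7730175349) (nat_lit 76) (nat_lit 44931942580) (nat_lit 152) (nat_lit 98602815619) (nat_lit 10) (nat_lit 5) (nat_lit 11) (nat_lit 5) (nat_lit 12) (nat_lit 4) (nat_lit 320) (nat_lit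 282) (nat_lit 178)) (XT.lf (nat_lit 0) (nat_lit 62207307885) (nat_lit 76) (nat_lit 16646951016) (nat_lit 152) (nat_lit 82119730264) (nat_lit 10) (nat_lit 5) (nat_lit 11) (nat_lit 5) (nat_lit 12) (nat_lit 4) (nat_lit 321) (nat_lit 282) (nat_lit 177))))) (XT.nd (nat_lit 312) (nat_lit 76) (nat_lit 0) (XT.nd (nat_lit 156) (nat_lit 76) (nat_lit 0) (XT.nd (nat_lit 78) (nat_lit 76) (nat_lit 0) (XT.lf (nat_lit 0) (nat_lit 107474643738) (nat_lit 152) (nat_lit 50754116909) (nat_lit 0) (nat_lit 13204380221) (nat_lit 10) (nat_lit 5) (nat_lit 12) (nat_lit 4) (nat_lit 10) (nat_lit 4) (nat_lit 322) (nat_lit 282) (nat_lit 176)) (XT.lf (nat_lit 0) (nat_lit 699614443) (nat_lit 76) (nat_lit 138132922939) (nat_lit 76) (nat_lit 43860658421) (nat_lit 9) (nat_lit 4) (nat_lit 10) (nat_lit 5) (nat_lit 10) (nat_lit 4) (nat_lit 323) (nat_lit 282) (nat_lit 175))) (XT.nd (nat_lit 78) (nat_lit 76) (nat_lit 0) (XT.lf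 (nat_lit 0) (nat_lit 59153690486) (nat_lit 76) (nat_lit 114931785068) (nat_lit 76) (nat_lit 20657667771) (nat_lit 9) (nat_lit 4) (nat_lit 10) (nat_lit 5) (nat_lit 10) (nat_lit 4) (nat_lit 324) (nat_lit 282) (nat_lit 174)) (XT.lf (nat_lit 0) (nat_lit 4180147367) (nat_lit 152) (nat_lit 85581126308) (nat_lit 76) (nat_lit 117987443886) (nat_lit 8) (nat_lit 5) (nat_lit 10) (nat_lit 5) (nat_lit 9) (nat_lit 4) (nat_lit 325) (nat_lit 282) (nat_lit 173)))) (XT.nd (nat_lit 156) (nat_lit 0) (nat_lit 0) (XT.nd (nat_lit 78) (nat_lit 76) (nat_lit 0) (XT.lf (nat_lit 0) (nat_lit 29887797467) (nat_lit 152) (nat_lit 32110802558) (nat_lit 76) (nat_lit 159753304839) (nat_lit 8) (nat_lit 5) (nat_lit 10) (nat_lit 5) (nat_lit 9) (nat_lit 4) (nat_lit 326) (nat_lit 282) (nat_lit 172)) (XT.lf (nat_lit 0) (nat_lit 26985101037) (nat_lit 76) (nat_lit 31314895656) (nat_lit 152) (nat_lit 178523516399) (nat_lit 7)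 (nat_lit 5) (nat_lit 8) (nat_lit 5) (nat_lit 9) (nat_lit 4) (nat_lit 327) (nat_lit 282) (nat_lit 171))) (XT.nd (nat_lit 78) (nat_lit 0) (nat_lit 0) (XT.lf (nat_lit 0) (nat_lit 89928753890) (nat_lit 152) (nat_lit 160464387899) (nat_lit 0) (nat_lit 2632222469) (nat_lit 7) (nat_lit 5) (nat_lit 9) (nat_lit 4) (nat_lit 7) (nat_lit 4) (nat_lit 328) (nat_lit 282) (nat_lit 170)) (XT.lf (nat_lit 0) (nat_lit 124900219025) (nat_lit 152) (nat_lit 107955632645) (nat_lit 0) (nat_lit 37602520039) (nat_lit 7) (nat_lit 5) (nat_lit 9) (nat_lit 4) (nat_lit 7) (nat_lit 4) (nat_lit 329) (nat_lit 282) (nat_lit 169)))))) (XT.nd (nat_lit 546) (nat_lit 76) (nat_lit 0) (XT.nd (nat_lit 234) (nat_lit 76) (nat_lit 0) (XT.nd (nat_lit 78) (nat_lit 76) (nat_lit 0) (XT.lf (nat_lit 0) (nat_lit 162668506416) (nat_lit 152) (nat_lit 51247859307) (nat_lit 0) (nat_lit 75369726351) (nat_lit 7) (nat_lit 5) (nat_lit 9) (nat_lit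 4) (nat_lit 7) (nat_lit 4) (nat_lit 330) (nat_lit 282) (nat_lit 168)) (XT.nd (nat_lit 78) (nat_lit 0) (nat_lit 0) (XT.lf (nat_lit 0) (nat_lit 10521296018) (nat_lit 76) (nat_lit 193189169540) (nat_lit 76) (nat_lit 105889388477) (nat_lit 6) (nat_lit 4) (nat_lit 7) (nat_lit 5) (nat_lit 7) (nat_lit 4) (nat_lit 331) (nat_lit 282) (nat_lit 167)) (XT.lf (nat_lit 0) (nat_lit 80144976656) (nat_lit 76) (nat_lit 169291208275) (nat_lit 76) (nat_lit 81990500362) (nat_lit 6) (nat_lit 4) (nat_lit 7) (nat_lit 5) (nat_lit 7) (nat_lit 4) (nat_lit 332) (nat_lit 282) (nat_lit 166)))) (XT.nd (nat_lit 156) (nat_lit 76) (nat_lit 0) (XT.nd (nat_lit 78) (nat_lit 0) (nat_lit 0) (XT.lf (nat_lit 0) (nat_lit 155337145928) (nat_lit 76) (nat_lit 143482071673) (nat_lit 76) (nat_lit 56180505564) (nat_lit 6) (nat_lit 4) (nat_lit 7) (nat_lit 5) (nat_lit 7) (nat_lit 4) (nat_lit 333) (nat_lit 282) (nat_lit 165)) (XT.lf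 (nat_lit 0) (nat_lit 236543387060) (nat_lit 76) (nat_lit 115608816701) (nat_lit 76) (nat_lit 28306455967) (nat_lit 6) (nat_lit 4) (nat_lit 7) (nat_lit 5) (nat_lit 7) (nat_lit 4) (nat_lit 334) (nat_lit 282) (nat_lit 164))) (XT.nd (nat_lit 78) (nat_lit 0) (nat_lit 0) (XT.lf (nat_lit 0) (nat_lit 1706943369) (nat_lit 152) (nat_lit 83752654288) (nat_lit 76) (nat_lit 322491307995) (nat_lit 5) (nat_lit 5) (nat_lit 7) (nat_lit 5) (nat_lit 6) (nat_lit 4) (nat_lit 335) (nat_lit 282) (nat_lit 163)) (XT.lf (nat_lit 0) (nat_lit 32591524208) (nat_lit 152) (nat_lit 19513407407) (nat_lit 76) (nat_lit 385478829975) (nat_lit 5) (nat_lit 5) (nat_lit 7) (nat_lit 5) (nat_lit 6) (nat_lit 4) (nat_lit 336) (nat_lit 282) (nat_lit 162))))) (XT.nd (nat_lit 312) (nat_lit 0) (nat_lit 0) (XT.nd (nat_lit 156) (nat_lit 0) (nat_lit 0) (XT.nd (nat_lit 78) (nat_lit 0) (nat_lit 0) (XT.lf (nat_lit 0) (nat_lit 52489661388)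 (nat_lit 76) (nat_lit 14719026086) (nat_lit 152) (nat_lit 402277613641) (nat_lit 4) (nat_lit 5) (nat_lit 5) (nat_lit 5) (nat_lit 6) (nat_lit 4) (nat_lit 337) (nat_lit 282) (nat_lit 161)) (XT.lf (nat_lit 0) (nat_lit 105759125647) (nat_lit 152) (nat_lit 373167636863) (nat_lit 0) (nat_lit 24921169506) (nat_lit 4) (nat_lit 5) (nat_lit 6) (nat_lit 4) (nat_lit 4) (nat_lit 4) (nat_lit 338) (nat_lit 282) (nat_lit 160))) (XT.nd (nat_lit 78) (nat_lit 0) (nat_lit 0) (XT.lf (nat_lit 0) (nat_lit 147775395688) (nat_lit 152) (nat_lit 326215615494) (nat_lit 0) (nat_lit 66936938798) (nat_lit 4) (nat_lit 5) (nat_lit 6) (nat_lit 4) (nat_lit 4) (nat_lit 4) (nat_lit 339) (nat_lit 282) (nat_lit 159)) (XT.lf (nat_lit 0) (nat_lit 193152489969) (nat_lit 152) (nat_lit 275508348486) (nat_lit 0) (nat_lit 112313569423) (nat_lit 4) (nat_lit 5) (nat_lit 6) (nat_lit 4) (nat_lit 4) (nat_lit 4) (nat_lit 340) (nat_lit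 282) (nat_lit 158)))) (XT.nd (nat_lit 156) (nat_lit 0) (nat_lit 0) (XT.nd (nat_lit 78) (nat_lit 0) (nat_lit 0) (XT.lf (nat_lit 0) (nat_lit 242159309790) (nat_lit 152) (nat_lit 220745348334) (nat_lit 0) (nat_lit 161319959933) (nat_lit 4) (nat_lit 5) (nat_lit 6) (nat_lit 4) (nat_lit 4) (nat_lit 4) (nat_lit 341) (nat_lit 282) (nat_lit 157)) (XT.lf (nat_lit 0) (nat_lit 295086265935) (nat_lit 152) (nat_lit 161602093552) (nat_lit 0) (nat_lit 214246518567) (nat_lit 4) (nat_lit 5) (nat_lit 6) (nat_lit 4) (nat_lit 4) (nat_lit 4) (nat_lit 342) (nat_lit 282) (nat_lit 156))) (XT.nd (nat_lit 78) (nat_lit 0) (nat_lit 0) (XT.lf (nat_lit 0) (nat_lit 352246999625) (nat_lit 152) (nat_lit 97728105597) (nat_lit 0) (nat_lit 271406884192) (nat_lit 4) (nat_lit 5) (nat_lit 6) (nat_lit 4) (nat_lit 4) (nat_lit 4) (nat_lit 343) (nat_lit 282) (nat_lit 155)) (XT.lf (nat_lit 0) (nat_lit 413980241135) (nat_lit 152)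 (nat_lit 28744871944) (nat_lit 0) (nat_lit 333139784901) (nat_lit 4) (nat_lit 5) (nat_lit 6) (nat_lit 4) (nat_lit 4) (nat_lit 4) (nat_lit 344) (nat_lit 282) (nat_lit 154))))))) (XT.nd (nat_lit 1170) (nat_lit 152) (nat_lit 0) (XT.nd (nat_lit 546) (nat_lit 0) (nat_lit 0) (XT.nd (nat_lit 234) (nat_lit 0) (nat_lit 0) (XT.nd (nat_lit 78) (nat_lit 0) (nat_lit 0) (XT.lf (nat_lit 0) (nat_lit 48165847711) (nat_lit 76) (nat_lit 433644359164) (nat_lit 76) (nat_lit 352803587374) (nat_lit 3) (nat_lit 4) (nat_lit 4) (nat_lit 5) (nat_lit 4) (nat_lit 4) (nat_lit 345) (nat_lit 282) (nat_lit 153)) (XT.nd (nat_lit 78) (nat_lit 0) (nat_lit 0) (XT.lf (nat_lit 0) (nat_lit 132863563598) (nat_lit 76) (nat_lit 422988626583) (nat_lit 76) (nat_lit 342147562610) (nat_lit 3) (nat_lit 4) (nat_lit 4) (nat_lit 5) (nat_lit 4) (nat_lit 4) (nat_lit 346) (nat_lit 282) (nat_lit 152)) (XT.lf (nat_lit 0) (nat_lit 224336534090)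 (nat_lit 76) (nat_lit 411480705992) (nat_lit 76) (nat_lit 330639371480) (nat_lit 3) (nat_lit 4) (nat_lit 4) (nat_lit 5) (nat_lit 4) (nat_lit 4) (nat_lit 347) (nat_lit 282) (nat_lit 151)))) (XT.nd (nat_lit 156) (nat_lit 0) (nat_lit 0) (XT.nd (nat_lit 78) (nat_lit 0) (nat_lit 0) (XT.lf (nat_lit 0) (nat_lit 323126821235) (nat_lit 76) (nat_lit 399052402306) (nat_lit 76) (nat_lit 318210817296) (nat_lit 3) (nat_lit 4) (nat_lit 4) (nat_lit 5) (nat_lit 4) (nat_lit 4) (nat_lit 348) (nat_lit 282) (nat_lit 150)) (XT.lf (nat_lit 0) (nat_lit 429819848955) (nat_lit 76) (nat_lit 385630066320) (nat_lit 76) (nat_lit 304788249366) (nat_lit 3) (nat_lit 4) (nat_lit 4) (nat_lit 5) (nat_lit 4) (nat_lit 4) (nat_lit 349) (nat_lit 282) (nat_lit 149))) (XT.nd (nat_lit 78) (nat_lit 0) (nat_lit 0) (XT.lf (nat_lit 0) (nat_lit 545047872230) (nat_lit 76) (nat_lit 371134158263) (nat_lit 76) (nat_lit 290292126547) (nat_lit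 3) (nat_lit 4) (nat_lit 4) (nat_lit 5) (nat_lit 4) (nat_lit 4) (nat_lit 350) (nat_lit 282) (nat_lit 148)) (XT.lf (nat_lit 0) (nat_lit 669493723792) (nat_lit 76) (nat_lit 355478776460) (nat_lit 76) (nat_lit 274636545889) (nat_lit 3) (nat_lit 4) (nat_lit 4) (nat_lit 5) (nat_lit 4) (nat_lit 4) (nat_lit 351) (nat_lit 282) (nat_lit 147))))) (XT.nd (nat_lit 312) (nat_lit 0) (nat_lit 0) (XT.nd (nat_lit 156) (nat_lit 0) (nat_lit 0) (XT.nd (nat_lit 78) (nat_lit 0) (nat_lit 0) (XT.lf (nat_lit 0) (nat_lit 803894860536) (nat_lit 76) (nat_lit 338571148275) (nat_lit 76) (nat_lit 257728733581) (nat_lit 3) (nat_lit 4) (nat_lit 4) (nat_lit 5) (nat_lit 4) (nat_lit 4) (nat_lit 352) (nat_lit 282) (nat_lit 146)) (XT.lf (nat_lit 0) (nat_lit 949047733646) (nat_lit 76) (nat_lit 320311080359) (nat_lit 76) (nat_lit 239468495179) (nat_lit 3) (nat_lit 4) (nat_lit 4) (nat_lit 5) (nat_lit 4) (nat_lit 4) (nat_lit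 353) (nat_lit 282) (nat_lit 145))) (XT.nd (nat_lit 78) (nat_lit 0) (nat_lit 0) (XT.lf (nat_lit 0) (nat_lit 1105812508294) (nat_lit 76) (nat_lit 300590364900) (nat_lit 76) (nat_lit 219747621863) (nat_lit 3) (nat_lit 4) (nat_lit 4) (nat_lit 5) (nat_lit 4) (nat_lit 4) (nat_lit 354) (nat_lit 282) (nat_lit 144)) (XT.lf (nat_lit 0) (nat_lit 1275118160923) (nat_lit 76) (nat_lit 279292138399) (nat_lit 76) (nat_lit 198449249199) (nat_lit 3) (nat_lit 4) (nat_lit 4) (nat_lit 5) (nat_lit 4) (nat_lit 4) (nat_lit 355) (nat_lit 282) (nat_lit 143)))) (XT.nd (nat_lit 156) (nat_lit 0) (nat_lit 0) (XT.nd (nat_lit 78) (nat_lit 0) (nat_lit 0) (XT.lf (nat_lit 0) (nat_lit 1457967984289) (nat_lit 76) (nat_lit 256290189145) (nat_lit 76) (nat_lit 175447164608) (nat_lit 3) (nat_lit 4) (nat_lit 4) (nat_lit 5) (nat_lit 4) (nat_lit 4) (nat_lit 356) (nat_lit 282) (nat_lit 142)) (XT.lf (nat_lit 0) (nat_lit 1655445532901)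 (nat_lit 76) (nat_lit 231448209289) (nat_lit 76) (nat_lit 150605059440) (nat_lit 3) (nat_lit 4) (nat_lit 4) (nat_lit 5) (nat_lit 4) (nat_lit 4) (nat_lit 357) (nat_lit 282) (nat_lit 141))) (XT.nd (nat_lit 78) (nat_lit 0) (nat_lit 0) (XT.lf (nat_lit 0) (nat_lit 1868721044084) (nat_lit 76) (nat_lit 204618987099) (nat_lit 76) (nat_lit 123775721220) (nat_lit 3) (nat_lit 4) (nat_lit 4) (nat_lit 5) (nat_lit 4) (nat_lit 4) (nat_lit 358) (nat_lit 282) (nat_lit 140)) (XT.lf (nat_lit 0) (nat_lit 2099058372719) (nat_lit 76) (nat_lit 175643534592) (nat_lit 76) (nat_lit 94800161279) (nat_lit 3) (nat_lit 4) (nat_lit 4) (nat_lit 5) (nat_lit 4) (nat_lit 4) (nat_lit 359) (nat_lit 282) (nat_lit 139)))))) (XT.nd (nat_lit 34788) (nat_lit 0) (nat_lit 2736) (XT.nd (nat_lit 312) (nat_lit 0) (nat_lit 0) (XT.nd (nat_lit 156) (nat_lit 152) (nat_lit 0) (XT.nd (nat_lit 78) (nat_lit 0) (nat_lit 0) (XT.lf (nat_lit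 0) (nat_lit 2347822480754) (nat_lit 76) (nat_lit 144350145382) (nat_lit 76) (nat_lit 63506672592) (nat_lit 3) (nat_lit 4) (nat_lit 4) (nat_lit 5) (nat_lit 4) (nat_lit 4) (nat_lit 360) (nat_lit 282) (nat_lit 138)) (XT.lf (nat_lit 0) (nat_lit 2616487525866) (nat_lit 76) (nat_lit 110553377164) (nat_lit 76) (nat_lit 29709812266) (nat_lit 3) (nat_lit 4) (nat_lit 4) (nat_lit 5) (nat_lit 4) (nat_lit 4) (nat_lit 361) (nat_lit 282) (nat_lit 137))) (XT.nd (nat_lit 78) (nat_lit 76) (nat_lit 0) (XT.lf (nat_lit 0) (nat_lit 6450999205) (nat_lit 152) (nat_lit 67425571836) (nat_lit 76) (nat_lit 2900018216255) (nat_lit 2) (nat_lit 5) (nat_lit 4) (nat_lit 5) (nat_lit 3) (nat_lit 4) (nat_lit 362) (nat_lit 282) (nat_lit 136)) (XT.lf (nat_lit 0) (nat_lit 11018387188) (nat_lit 76) (nat_lit 33146091820) (nat_lit 152) (nat_lit 3164162979025) (nat_lit 1) (nat_lit 5) (nat_lit 2) (nat_lit 5) (nat_lit 3) (nat_lit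 4) (nat_lit 363) (nat_lit 282) (nat_lit 135)))) (XT.nd (nat_lit 34320) (nat_lit 0) (nat_lit 3268) (XT.nd (nat_lit 78) (nat_lit 0) (nat_lit 0) (XT.lf (nat_lit 0) (nat_lit 87047139147) (nat_lit 152) (nat_lit 3362103668495) (nat_lit 0) (nat_lit 12191766676) (nat_lit 1) (nat_lit 5) (nat_lit 3) (nat_lit 4) (nat_lit 1) (nat_lit 4) (nat_lit 364) (nat_lit 282) (nat_lit 134)) (XT.lf (nat_lit 0) (nat_lit 134221269076) (nat_lit 152) (nat_lit 3540942928396) (nat_lit 0) (nat_lit 59365833918) (nat_lit 1) (nat_lit 5) (nat_lit 3) (nat_lit 4) (nat_lit 1) (nat_lit 4) (nat_lit 365) (nat_lit 282) (nat_lit 133))) (XT.nd (nat_lit 78) (nat_lit 0) (nat_lit 0) (XT.lf (nat_lit 0) (nat_lit 6721112372) (nat_lit 532) (nat_lit 2657206871) (nat_lit 532) (nat_lit 2657206871) (nat_lit 44) (nat_lit 3) (nat_lit 51) (nat_lit 3) (nat_lit 51) (nat_lit 5) (nat_lit 283) (nat_lit 283) (nat_lit 214)) (XT.lf (nat_lit 76) (nat_lit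 5903191674) (nat_lit 0) (nat_lit 8322280462) (nat_lit 532) (nat_lit 10788438978) (nat_lit 45) (nat_lit 5) (nat_lit 44) (nat_lit 3) (nat_lit 51) (nat_lit 5) (nat_lit 284) (nat_lit 283) (nat_lit 213))))) (XT.nd (nat_lit 312) (nat_lit 608) (nat_lit 0) (XT.nd (nat_lit 156) (nat_lit 0) (nat_lit 0) (XT.nd (nat_lit 78) (nat_lit 0) (nat_lit 0) (XT.lf (nat_lit 0) (nat_lit 15280935031) (nat_lit 456) (nat_lit 7781672500) (nat_lit 532) (nat_lit 2952860589) (nat_lit 45) (nat_lit 5) (nat_lit 51) (nat_lit 5) (nat_lit 52) (nat_lit 5) (nat_lit 285) (nat_lit 283) (nat_lit 212)) (XT.lf (nat_lit 76) (nat_lit 4453956912) (nat_lit 0) (nat_lit 12280533772) (nat_lit 532) (nat_lit 10337597905) (nat_lit 46) (nat_lit 5) (nat_lit 45) (nat_lit 5) (nat_lit 52) (nat_lit 5) (nat_lit 286) (nat_lit 283) (nat_lit 211))) (XT.nd (nat_lit 78) (nat_lit 0) (nat_lit 76) (XT.lf (nat_lit 76) (nat_lit 18104765769) (nat_lit 0)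 (nat_lit 403267912) (nat_lit 532) (nat_lit 9688937821) (nat_lit 46) (nat_lit 5) (nat_lit 45) (nat_lit 5) (nat_lit 52) (nat_lit 5) (nat_lit 287) (nat_lit 283) (nat_lit 210)) (XT.lf (nat_lit 76) (nat_lit 3295315453) (nat_lit 0) (nat_lit 17497871560) (nat_lit 532) (nat_lit 8589106769) (nat_lit 47) (nat_lit 5) (nat_lit 46) (nat_lit 5) (nat_lit 53) (nat_lit 5) (nat_lit 288) (nat_lit 283) (nat_lit 209)))) (XT.nd (nat_lit 156) (nat_lit 304) (nat_lit 0) (XT.nd (nat_lit 78) (nat_lit 380) (nat_lit 0) (XT.lf (nat_lit 76) (nat_lit 18310408026) (nat_lit 0) (nat_lit 5229029317) (nat_lit 532) (nat_lit 7100766621) (nat_lit 47) (nat_lit 5) (nat_lit 46) (nat_lit 5) (nat_lit 53) (nat_lit 5) (nat_lit 289) (nat_lit 283) (nat_lit 208)) (XT.lf (nat_lit 0) (nat_lit 2451138872) (nat_lit 456) (nat_lit 24298864366) (nat_lit 532) (nat_lit 5229197529) (nat_lit 41) (nat_lit 5) (nat_lit 47) (nat_lit 5) (nat_lit 48)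 (nat_lit 5) (nat_lit 290) (nat_lit 283) (nat_lit 207))) (XT.nd (nat_lit 78) (nat_lit 304) (nat_lit 0) (XT.lf (nat_lit 0) (nat_lit 18966424034) (nat_lit 456) (nat_lit 11713625859) (nat_lit 532) (nat_lit 2708277926) (nat_lit 41) (nat_lit 5) (nat_lit 47) (nat_lit 5) (nat_lit 48) (nat_lit 5) (nat_lit 291) (nat_lit 283) (nat_lit 206)) (XT.lf (nat_lit 0) (nat_lit 101243358) (nat_lit 304) (nat_lit 32967838686) (nat_lit 76) (nat_lit 1834082210) (nat_lit 37) (nat_lit 5) (nat_lit 41) (nat_lit 5) (nat_lit 38) (nat_lit 5) (nat_lit 292) (nat_lit 283) (nat_lit 205))))))))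
noncomputable def xc86 : XT := (XT.nd (nat_lit 2340) (nat_lit 532) (nat_lit 0) (XT.nd (nat_lit 1170) (nat_lit 760) (nat_lit 0) (XT.nd (nat_lit 546) (nat_lit 684) (nat_lit 0) (XT.nd (nat_lit 234) (nat_lit 380) (nat_lit 0) (XT.nd (nat_lit 78) (nat_lit 228) (nat_lit 0) (XT.lf (nat_lit 0) (nat_lit 3691823021) (nat_lit 304) (nat_lit 16477768052) (nat_lit 76) (nat_lit 16307776761) (nat_lit 37) (nat_lit 5) (nat_lit 41) (nat_lit 5) (nat_lit 38) (nat_lit 5) (nat_lit 293) (nat_lit 283) (nat_lit 204)) (XT.nd (nat_lit 78) (nat_lit 0) (nat_lit 0) (XT.lf (nat_lit 0) (nat_lit 1395181601) (nat_lit 228) (nat_lit 6202282265) (nat_lit 304) (nat_lit 30577834338) (nat_lit 34) (nat_lit 5) (nat_lit 37) (nat_lit 5) (nat_lit 38) (nat_lit 5) (nat_lit 294) (nat_lit 283) (nat_lit 203)) (XT.lf (nat_lit 0) (nat_lit 12485941843) (nat_lit 304) (nat_lit 18569675615) (nat_lit 76) (nat_lit 8899829203) (nat_lit 34) (nat_lit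 5) (nat_lit 38) (nat_lit 5) (nat_lit 35) (nat_lit 5) (nat_lit 295) (nat_lit 283) (nat_lit 202)))) (XT.nd (nat_lit 156) (nat_lit 152) (nat_lit 0) (XT.nd (nat_lit 78) (nat_lit 0) (nat_lit 0) (XT.lf (nat_lit 0) (nat_lit 979575778) (nat_lit 228) (nat_lit 16965514680) (nat_lit 304) (nat_lit 23918562595) (nat_lit 31) (nat_lit 5) (nat_lit 34) (nat_lit 5) (nat_lit 35) (nat_lit 5) (nat_lit 296) (nat_lit 283) (nat_lit 201)) (XT.lf (nat_lit 0) (nat_lit 23143062309) (nat_lit 228) (nat_lit 1200808009) (nat_lit 304) (nat_lit 19540426142) (nat_lit 31) (nat_lit 5) (nat_lit 34) (nat_lit 5) (nat_lit 35) (nat_lit 5) (nat_lit 297) (nat_lit 283) (nat_lit 200))) (XT.nd (nat_lit 78) (nat_lit 0) (nat_lit 0) (XT.lf (nat_lit 0) (nat_lit 659747369) (nat_lit 152) (nat_lit 30986773596) (nat_lit 228) (nat_lit 14388724436) (nat_lit 29) (nat_lit 5) (nat_lit 31) (nat_lit 5) (nat_lit 32) (nat_lit 5) (nat_lit 298) (nat_lit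 283) (nat_lit 199)) (XT.lf (nat_lit 0) (nat_lit 24913992984) (nat_lit 152) (nat_lit 15212600150) (nat_lit 228) (nat_lit 8184231042) (nat_lit 29) (nat_lit 5) (nat_lit 31) (nat_lit 5) (nat_lit 32) (nat_lit 5) (nat_lit 299) (nat_lit 283) (nat_lit 198))))) (XT.nd (nat_lit 312) (nat_lit 304) (nat_lit 0) (XT.nd (nat_lit 156) (nat_lit 152) (nat_lit 0) (XT.nd (nat_lit 78) (nat_lit 76) (nat_lit 0) (XT.lf (nat_lit 0) (nat_lit 306145333) (nat_lit 152) (nat_lit 49026140998) (nat_lit 228) (nat_lit 1432395588) (nat_lit 27) (nat_lit 5) (nat_lit 29) (nat_lit 5) (nat_lit 30) (nat_lit 5) (nat_lit 300) (nat_lit 283) (nat_lit 197)) (XT.lf (nat_lit 0) (nat_lit 6613983313) (nat_lit 228) (nat_lit 26685905626) (nat_lit 76) (nat_lit 20019892612) (nat_lit 26) (nat_lit 5) (nat_lit 29) (nat_lit 5) (nat_lit 27) (nat_lit 5) (nat_lit 301) (nat_lit 283) (nat_lit 196))) (XT.nd (nat_lit 78) (nat_lit 152) (nat_lit 0)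 (XT.lf (nat_lit 0) (nat_lit 15223035687) (nat_lit 228) (nat_lit 1053781469) (nat_lit 76) (nat_lit 39799795462) (nat_lit 26) (nat_lit 5) (nat_lit 29) (nat_lit 5) (nat_lit 27) (nat_lit 5) (nat_lit 302) (nat_lit 283) (nat_lit 195)) (XT.lf (nat_lit 0) (nat_lit 25259636799) (nat_lit 228) (nat_lit 31042358827) (nat_lit 76) (nat_lit 2692895848) (nat_lit 24) (nat_lit 5) (nat_lit 27) (nat_lit 5) (nat_lit 25) (nat_lit 5) (nat_lit 303) (nat_lit 283) (nat_lit 194)))) (XT.nd (nat_lit 156) (nat_lit 152) (nat_lit 0) (XT.nd (nat_lit 78) (nat_lit 152) (nat_lit 0) (XT.lf (nat_lit 0) (nat_lit 36548227589) (nat_lit 228) (nat_lit 3233415742) (nat_lit 76) (nat_lit 22329071107) (nat_lit 24) (nat_lit 5) (nat_lit 27) (nat_lit 5) (nat_lit 25) (nat_lit 5) (nat_lit 304) (nat_lit 283) (nat_lit 193)) (XT.lf (nat_lit 0) (nat_lit 28206772155) (nat_lit 152) (nat_lit 21208476011) (nat_lit 228) (nat_lit 16006533901) (nat_lit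 22) (nat_lit 5) (nat_lit 24) (nat_lit 5) (nat_lit 25) (nat_lit 5) (nat_lit 305) (nat_lit 283) (nat_lit 192))) (XT.nd (nat_lit 78) (nat_lit 152) (nat_lit 0) (XT.lf (nat_lit 0) (nat_lit 62341688301) (nat_lit 152) (nat_lit 1055437709) (nat_lit 228) (nat_lit 5593775217) (nat_lit 22) (nat_lit 5) (nat_lit 24) (nat_lit 5) (nat_lit 25) (nat_lit 5) (nat_lit 306) (nat_lit 283) (nat_lit 191)) (XT.lf (nat_lit 0) (nat_lit 6549148963) (nat_lit 152) (nat_lit 45698100747) (nat_lit 76) (nat_lit 20493040212) (nat_lit 20) (nat_lit 5) (nat_lit 22) (nat_lit 5) (nat_lit 21) (nat_lit 5) (nat_lit 307) (nat_lit 283) (nat_lit 190)))))) (XT.nd (nat_lit 546) (nat_lit 304) (nat_lit 0) (XT.nd (nat_lit 234) (nat_lit 304) (nat_lit 0) (XT.nd (nat_lit 78) (nat_lit 152) (nat_lit 0) (XT.lf (nat_lit 0) (nat_lit 19572536548) (nat_lit 152) (nat_lit 13149742323) (nat_lit 76) (nat_lit 44038832902) (nat_lit 20) (nat_lit 5) (nat_lit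 22) (nat_lit 5) (nat_lit 21) (nat_lit 5) (nat_lit 308) (nat_lit 283) (nat_lit 189)) (XT.nd (nat_lit 78) (nat_lit 0) (nat_lit 0) (XT.lf (nat_lit 0) (nat_lit 23156927082) (nat_lit 152) (nat_lit 11035293897) (nat_lit 228) (nat_lit 46867028567) (nat_lit 18) (nat_lit 5) (nat_lit 20) (nat_lit 5) (nat_lit 21) (nat_lit 5) (nat_lit 309) (nat_lit 283) (nat_lit 188)) (XT.lf (nat_lit 0) (nat_lit 50645813743) (nat_lit 228) (nat_lit 22867767852) (nat_lit 76) (nat_lit 12134513985) (nat_lit 18) (nat_lit 5) (nat_lit 21) (nat_lit 5) (nat_lit 19) (nat_lit 4) (nat_lit 310) (nat_lit 283) (nat_lit 187)))) (XT.nd (nat_lit 156) (nat_lit 228) (nat_lit 0) (XT.nd (nat_lit 78) (nat_lit 0) (nat_lit 0) (XT.lf (nat_lit 0) (nat_lit 15452176327) (nat_lit 76) (nat_lit 53619513140) (nat_lit 152) (nat_lit 21479883821) (nat_lit 17) (nat_lit 5) (nat_lit 18) (nat_lit 5) (nat_lit 19) (nat_lit 4) (nat_lit 311) (nat_lit 283)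 (nat_lit 186)) (XT.lf (nat_lit 0) (nat_lit 58134596311) (nat_lit 76) (nat_lit 31460103711) (nat_lit 152) (nat_lit 6202787376) (nat_lit 17) (nat_lit 5) (nat_lit 18) (nat_lit 5) (nat_lit 19) (nat_lit 4) (nat_lit 312) (nat_lit 283) (nat_lit 185))) (XT.nd (nat_lit 78) (nat_lit 0) (nat_lit 0) (XT.lf (nat_lit 0) (nat_lit 2649995042) (nat_lit 152) (nat_lit 7193068309) (nat_lit 228) (nat_lit 91595271086) (nat_lit 14) (nat_lit 5) (nat_lit 16) (nat_lit 5) (nat_lit 17) (nat_lit 5) (nat_lit 313) (nat_lit 283) (nat_lit 184)) (XT.lf (nat_lit 0) (nat_lit 28349271688) (nat_lit 228) (nat_lit 59766926191) (nat_lit 76) (nat_lit 19280421029) (nat_lit 14) (nat_lit 5) (nat_lit 17) (nat_lit 5) (nat_lit 15) (nat_lit 4) (nat_lit 314) (nat_lit 283) (nat_lit 183))))) (XT.nd (nat_lit 312) (nat_lit 228) (nat_lit 0) (XT.nd (nat_lit 156) (nat_lit 0) (nat_lit 0) (XT.nd (nat_lit 78) (nat_lit 76) (nat_lit 0) (XT.lf (nat_lit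 0) (nat_lit 48520924981) (nat_lit 228) (nat_lit 17813887354) (nat_lit 76) (nat_lit 47481960415) (nat_lit 14) (nat_lit 5) (nat_lit 17) (nat_lit 5) (nat_lit 15) (nat_lit 4) (nat_lit 315) (nat_lit 283) (nat_lit 182)) (XT.lf (nat_lit 0) (nat_lit 28940081256) (nat_lit 76) (nat_lit 42060493880) (nat_lit 152) (nat_lit 49694424883) (nat_lit 13) (nat_lit 5) (nat_lit 14) (nat_lit 5) (nat_lit 15) (nat_lit 4) (nat_lit 316) (nat_lit 283) (nat_lit 181))) (XT.nd (nat_lit 78) (nat_lit 0) (nat_lit 0) (XT.lf (nat_lit 0) (nat_lit 80444521796) (nat_lit 76) (nat_lit 15319452332) (nat_lit 152) (nat_lit 32320683318) (nat_lit 13) (nat_lit 5) (nat_lit 14) (nat_lit 5) (nat_lit 15) (nat_lit 4) (nat_lit 317) (nat_lit 283) (nat_lit 180)) (XT.lf (nat_lit 0) (nat_lit 122832994995) (nat_lit 152) (nat_lit 325127785) (nat_lit 0) (nat_lit 12881402654) (nat_lit 13) (nat_lit 5) (nat_lit 15) (nat_lit 4) (nat_lit 13) (nat_lit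 4) (nat_lit 318) (nat_lit 283) (nat_lit 179)))) (XT.nd (nat_lit 156) (nat_lit 76) (nat_lit 0) (XT.nd (nat_lit 78) (nat_lit 0) (nat_lit 0) (XT.lf (nat_lit 0) (nat_lit 8779899834) (nat_lit 152) (nat_lit 91692123026) (nat_lit 76) (nat_lit 44007240416) (nat_lit 11) (nat_lit 5) (nat_lit 13) (nat_lit 5) (nat_lit 12) (nat_lit 4) (nat_lit 319) (nat_lit 283) (nat_lit 178)) (XT.lf (nat_lit 0) (nat_lit 31819406953) (nat_lit 152) (nat_lit 43772468903) (nat_lit 76) (nat_lit 77974251058) (nat_lit 11) (nat_lit 5) (nat_lit 13) (nat_lit 5) (nat_lit 12) (nat_lit 4) (nat_lit 320) (nat_lit 283) (nat_lit 177))) (XT.nd (nat_lit 78) (nat_lit 0) (nat_lit 0) (XT.lf (nat_lit 0) (nat_lit 8398454189) (nat_lit 76) (nat_lit 48504249427) (nat_lit 152) (nat_lit 106461187154) (nat_lit 10) (nat_lit 5) (nat_lit 11) (nat_lit 5) (nat_lit 12) (nat_lit 4) (nat_lit 321) (nat_lit 283) (nat_lit 176)) (XT.lf (nat_lit 0) (nat_lit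 67230063638) (nat_lit 76) (nat_lit 17958106579) (nat_lit 152) (nat_lit 88661666357) (nat_lit 10) (nat_lit 5) (nat_lit 11) (nat_lit 5) (nat_lit 12) (nat_lit 4) (nat_lit 322) (nat_lit 283) (nat_lit 175))))))) (XT.nd (nat_lit 1170) (nat_lit 152) (nat_lit 0) (XT.nd (nat_lit 546) (nat_lit 152) (nat_lit 0) (XT.nd (nat_lit 234) (nat_lit 152) (nat_lit 0) (XT.nd (nat_lit 78) (nat_lit 76) (nat_lit 0) (XT.lf (nat_lit 0) (nat_lit 116096750465) (nat_lit 152) (nat_lit 54770235703) (nat_lit 0) (nat_lit 14278851006) (nat_lit 10) (nat_lit 5) (nat_lit 12) (nat_lit 4) (nat_lit 10) (nat_lit 4) (nat_lit 323) (nat_lit 283) (nat_lit 174)) (XT.nd (nat_lit 78) (nat_lit 0) (nat_lit 0) (XT.lf (nat_lit 0) (nat_lit 798674903) (nat_lit 76) (nat_lit 149163849249) (nat_lit 76) (nat_lit 47344234254) (nat_lit 9) (nat_lit 4) (nat_lit 10) (nat_lit 5) (nat_lit 10) (nat_lit 4) (nat_lit 324) (nat_lit 283) (nat_lit 173)) (XT.lf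 (nat_lit 0) (nat_lit 63925885081) (nat_lit 76) (nat_lit 124108080166) (nat_lit 76) (nat_lit 22286876712) (nat_lit 9) (nat_lit 4) (nat_lit 10) (nat_lit 5) (nat_lit 10) (nat_lit 4) (nat_lit 325) (nat_lit 283) (nat_lit 172)))) (XT.nd (nat_lit 156) (nat_lit 76) (nat_lit 0) (XT.nd (nat_lit 78) (nat_lit 0) (nat_lit 0) (XT.lf (nat_lit 0) (nat_lit 4535145910) (nat_lit 152) (nat_lit 92389570754) (nat_lit 76) (nat_lit 127442233613) (nat_lit 8) (nat_lit 5) (nat_lit 10) (nat_lit 5) (nat_lit 9) (nat_lit 4) (nat_lit 326) (nat_lit 283) (nat_lit 171)) (XT.lf (nat_lit 0) (nat_lit 32297883074) (nat_lit 152) (nat_lit 34644439301) (nat_lit 76) (nat_lit 172548193500) (nat_lit 8) (nat_lit 5) (nat_lit 10) (nat_lit 5) (nat_lit 9) (nat_lit 4) (nat_lit 327) (nat_lit 283) (nat_lit 170))) (XT.nd (nat_lit 78) (nat_lit 0) (nat_lit 0) (XT.lf (nat_lit 0) (nat_lit 29178244747) (nat_lit 76) (nat_lit 33804227278) (nat_lit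 152) (nat_lit 192785428851) (nat_lit 7) (nat_lit 5) (nat_lit 8) (nat_lit 5) (nat_lit 9) (nat_lit 4) (nat_lit 328) (nat_lit 283) (nat_lit 169)) (XT.lf (nat_lit 0) (nat_lit 97140514415) (nat_lit 152) (nat_lit 173268717212) (nat_lit 0) (nat_lit 2856750866) (nat_lit 7) (nat_lit 5) (nat_lit 9) (nat_lit 4) (nat_lit 7) (nat_lit 4) (nat_lit 329) (nat_lit 283) (nat_lit 168))))) (XT.nd (nat_lit 312) (nat_lit 76) (nat_lit 0) (XT.nd (nat_lit 156) (nat_lit 76) (nat_lit 0) (XT.nd (nat_lit 78) (nat_lit 0) (nat_lit 0) (XT.lf (nat_lit 0) (nat_lit 134908403411) (nat_lit 152) (nat_lit 116561692777) (nat_lit 0) (nat_lit 40623638864) (nat_lit 7) (nat_lit 5) (nat_lit 9) (nat_lit 4) (nat_lit 7) (nat_lit 4) (nat_lit 330) (nat_lit 283) (nat_lit 167)) (XT.lf (nat_lit 0) (nat_lit 175696956248) (nat_lit 152) (nat_lit 55319548718) (nat_lit 0) (nat_lit 81411264850) (nat_lit 7) (nat_lit 5) (nat_lit 9) (nat_lit 4)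 (nat_lit 7) (nat_lit 4) (nat_lit 331) (nat_lit 283) (nat_lit 166))) (XT.nd (nat_lit 78) (nat_lit 0) (nat_lit 0) (XT.lf (nat_lit 0) (nat_lit 11390426645) (nat_lit 76) (nat_lit 208631396257) (nat_lit 76) (nat_lit 114344846664) (nat_lit 6) (nat_lit 4) (nat_lit 7) (nat_lit 5) (nat_lit 7) (nat_lit 4) (nat_lit 332) (nat_lit 283) (nat_lit 165)) (XT.lf (nat_lit 0) (nat_lit 86581970109) (nat_lit 76) (nat_lit 182822554154) (nat_lit 76) (nat_lit 88535209936) (nat_lit 6) (nat_lit 4) (nat_lit 7) (nat_lit 5) (nat_lit 7) (nat_lit 4) (nat_lit 333) (nat_lit 283) (nat_lit 164)))) (XT.nd (nat_lit 156) (nat_lit 76) (nat_lit 0) (XT.nd (nat_lit 78) (nat_lit 0) (nat_lit 0) (XT.lf (nat_lit 0) (nat_lit 167787631788) (nat_lit 76) (nat_lit 154949571866) (nat_lit 76) (nat_lit 60661491885) (nat_lit 6) (nat_lit 4) (nat_lit 7) (nat_lit 5) (nat_lit 7) (nat_lit 4) (nat_lit 334) (nat_lit 283) (nat_lit 163)) (XT.lf (nat_lit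 0) (nat_lit 255488630419) (nat_lit 76) (nat_lit 124847276166) (nat_lit 76) (nat_lit 30558514921) (nat_lit 6) (nat_lit 4) (nat_lit 7) (nat_lit 5) (nat_lit 7) (nat_lit 4) (nat_lit 335) (nat_lit 283) (nat_lit 162))) (XT.nd (nat_lit 78) (nat_lit 0) (nat_lit 0) (XT.lf (nat_lit 0) (nat_lit 1854456568) (nat_lit 152) (nat_lit 90432122381) (nat_lit 76) (nat_lit 348299514926) (nat_lit 5) (nat_lit 5) (nat_lit 7) (nat_lit 5) (nat_lit 6) (nat_lit 4) (nat_lit 336) (nat_lit 283) (nat_lit 161)) (XT.lf (nat_lit 0) (nat_lit 35208992190) (nat_lit 152) (nat_lit 21055272360) (nat_lit 76) (nat_lit 416325379235) (nat_lit 5) (nat_lit 5) (nat_lit 7) (nat_lit 5) (nat_lit 6) (nat_lit 4) (nat_lit 337) (nat_lit 283) (nat_lit 160)))))) (XT.nd (nat_lit 624) (nat_lit 76) (nat_lit 0) (XT.nd (nat_lit 312) (nat_lit 0) (nat_lit 0) (XT.nd (nat_lit 156) (nat_lit 0) (nat_lit 0) (XT.nd (nat_lit 78) (nat_lit 0) (nat_lit 0)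 (XT.lf (nat_lit 0) (nat_lit 56707555669) (nat_lit 76) (nat_lit 15887671539) (nat_lit 152) (nat_lit 434449183892) (nat_lit 4) (nat_lit 5) (nat_lit 5) (nat_lit 5) (nat_lit 6) (nat_lit 4) (nat_lit 338) (nat_lit 283) (nat_lit 159)) (XT.lf (nat_lit 0) (nat_lit 114229168865) (nat_lit 152) (nat_lit 403003175599) (nat_lit 0) (nat_lit 26922671019) (nat_lit 4) (nat_lit 5) (nat_lit 6) (nat_lit 4) (nat_lit 4) (nat_lit 4) (nat_lit 339) (nat_lit 283) (nat_lit 158))) (XT.nd (nat_lit 78) (nat_lit 0) (nat_lit 0) (XT.lf (nat_lit 0) (nat_lit 159606050645) (nat_lit 152) (nat_lit 352296316387) (nat_lit 0) (nat_lit 72299123488) (nat_lit 4) (nat_lit 5) (nat_lit 6) (nat_lit 4) (nat_lit 4) (nat_lit 4) (nat_lit 340) (nat_lit 283) (nat_lit 157)) (XT.lf (nat_lit 0) (nat_lit 208612673705) (nat_lit 152) (nat_lit 297533693823) (nat_lit 0) (nat_lit 121305349038) (nat_lit 4) (nat_lit 5) (nat_lit 6) (nat_lit 4) (nat_lit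 4) (nat_lit 4) (nat_lit 341) (nat_lit 283) (nat_lit 156)))) (XT.nd (nat_lit 156) (nat_lit 0) (nat_lit 0) (XT.nd (nat_lit 78) (nat_lit 0) (nat_lit 0) (XT.lf (nat_lit 0) (nat_lit 261539447664) (nat_lit 152) (nat_lit 238390788661) (nat_lit 0) (nat_lit 174231754932) (nat_lit 4) (nat_lit 5) (nat_lit 6) (nat_lit 4) (nat_lit 4) (nat_lit 4) (nat_lit 342) (nat_lit 283) (nat_lit 155)) (XT.lf (nat_lit 0) (nat_lit 318700012664) (nat_lit 152) (nat_lit 174517124426) (nat_lit 0) (nat_lit 231391979131) (nat_lit 4) (nat_lit 5) (nat_lit 6) (nat_lit 4) (nat_lit 4) (nat_lit 4) (nat_lit 343) (nat_lit 283) (nat_lit 154))) (XT.nd (nat_lit 78) (nat_lit 0) (nat_lit 0) (XT.lf (nat_lit 0) (nat_lit 380433097979) (nat_lit 152) (nat_lit 105534190516) (nat_lit 0) (nat_lit 293124748889) (nat_lit 4) (nat_lit 5) (nat_lit 6) (nat_lit 4) (nat_lit 4) (nat_lit 4) (nat_lit 344) (nat_lit 283) (nat_lit 153)) (XT.lf (nat_lit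 0) (nat_lit 447104529300) (nat_lit 152) (nat_lit 31033199174) (nat_lit 0) (nat_lit 359795888028) (nat_lit 4) (nat_lit 5) (nat_lit 6) (nat_lit 4) (nat_lit 4) (nat_lit 4) (nat_lit 345) (nat_lit 283) (nat_lit 152))))) (XT.nd (nat_lit 312) (nat_lit 0) (nat_lit 0) (XT.nd (nat_lit 156) (nat_lit 0) (nat_lit 0) (XT.nd (nat_lit 78) (nat_lit 0) (nat_lit 0) (XT.lf (nat_lit 0) (nat_lit 52030092927) (nat_lit 76) (nat_lit 468330628648) (nat_lit 76) (nat_lit 381021716837) (nat_lit 3) (nat_lit 4) (nat_lit 4) (nat_lit 5) (nat_lit 4) (nat_lit 4) (nat_lit 346) (nat_lit 283) (nat_lit 151)) (XT.lf (nat_lit 0) (nat_lit 143502812944) (nat_lit 76) (nat_lit 456822828515) (nat_lit 76) (nat_lit 369513666205) (nat_lit 3) (nat_lit 4) (nat_lit 4) (nat_lit 5) (nat_lit 4) (nat_lit 4) (nat_lit 347) (nat_lit 283) (nat_lit 150))) (XT.nd (nat_lit 78) (nat_lit 0) (nat_lit 0) (XT.lf (nat_lit 0) (nat_lit 242292868168) (nat_lit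 76) (nat_lit 444394636365) (nat_lit 76) (nat_lit 357085242112) (nat_lit 3) (nat_lit 4) (nat_lit 4) (nat_lit 5) (nat_lit 4) (nat_lit 4) (nat_lit 348) (nat_lit 283) (nat_lit 149)) (XT.lf (nat_lit 0) (nat_lit 348985681147) (nat_lit 76) (nat_lit 430972403652) (nat_lit 76) (nat_lit 343662794637) (nat_lit 3) (nat_lit 4) (nat_lit 4) (nat_lit 5) (nat_lit 4) (nat_lit 4) (nat_lit 349) (nat_lit 283) (nat_lit 148)))) (XT.nd (nat_lit 156) (nat_lit 0) (nat_lit 0) (XT.nd (nat_lit 78) (nat_lit 0) (nat_lit 0) (XT.lf (nat_lit 0) (nat_lit 464213505587) (nat_lit 76) (nat_lit 416476591219) (nat_lit 76) (nat_lit 329166783350) (nat_lit 3) (nat_lit 4) (nat_lit 4) (nat_lit 5) (nat_lit 4) (nat_lit 4) (nat_lit 350) (nat_lit 283) (nat_lit 147)) (XT.lf (nat_lit 0) (nat_lit 588659173042) (nat_lit 76) (nat_lit 400821297956) (nat_lit 76) (nat_lit 313511305962) (nat_lit 3) (nat_lit 4) (nat_lit 4) (nat_lit 5) (nat_lit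 4) (nat_lit 4) (nat_lit 351) (nat_lit 283) (nat_lit 146))) (XT.nd (nat_lit 78) (nat_lit 0) (nat_lit 0) (XT.lf (nat_lit 0) (nat_lit 723060139318) (nat_lit 76) (nat_lit 383913751754) (nat_lit 76) (nat_lit 296603589274) (nat_lit 3) (nat_lit 4) (nat_lit 4) (nat_lit 5) (nat_lit 4) (nat_lit 4) (nat_lit 352) (nat_lit 283) (nat_lit 145)) (XT.lf (nat_lit 0) (nat_lit 868212854586) (nat_lit 76) (nat_lit 365653759746) (nat_lit 76) (nat_lit 278343439410) (nat_lit 3) (nat_lit 4) (nat_lit 4) (nat_lit 5) (nat_lit 4) (nat_lit 4) (nat_lit 353) (nat_lit 283) (nat_lit 144))))))))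
noncomputable def xc87 : XT := (XT.nd (nat_lit 36660) (nat_lit 0) (nat_lit 380) (XT.nd (nat_lit 35412) (nat_lit 0) (nat_lit 1900) (XT.nd (nat_lit 546) (nat_lit 152) (nat_lit 0) (XT.nd (nat_lit 234) (nat_lit 0) (nat_lit 0) (XT.nd (nat_lit 78) (nat_lit 0) (nat_lit 0) (XT.lf (nat_lit 0) (nat_lit 1024977483085) (nat_lit 76) (nat_lit 345933114573) (nat_lit 76) (nat_lit 258622648073) (nat_lit 3) (nat_lit 4) (nat_lit 4) (nat_lit 5) (nat_lit 4) (nat_lit 4) (nat_lit 354) (nat_lit 283) (nat_lit 143)) (XT.nd (nat_lit 78) (nat_lit 0) (nat_lit 0) (XT.lf (nat_lit 0) (nat_lit 1194283000390) (nat_lit 76) (nat_lit 324634953153) (nat_lit 76) (nat_lit 237324351316) (nat_lit 3) (nat_lit 4) (nat_lit 4) (nat_lit 5) (nat_lit 4) (nat_lit 4) (nat_lit 355) (nat_lit 283) (nat_lit 142)) (XT.lf (nat_lit 0) (nat_lit 1377132698456) (nat_lit 76) (nat_lit 301633064157) (nat_lit 76) (nat_lit 214322337008) (nat_lit 3)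 (nat_lit 4) (nat_lit 4) (nat_lit 5) (nat_lit 4) (nat_lit 4) (nat_lit 356) (nat_lit 283) (nat_lit 141)))) (XT.nd (nat_lit 156) (nat_lit 0) (nat_lit 0) (XT.nd (nat_lit 78) (nat_lit 0) (nat_lit 0) (XT.lf (nat_lit 0) (nat_lit 1574610131050) (nat_lit 76) (nat_lit 276791140097) (nat_lit 76) (nat_lit 189480296918) (nat_lit 3) (nat_lit 4) (nat_lit 4) (nat_lit 5) (nat_lit 4) (nat_lit 4) (nat_lit 357) (nat_lit 283) (nat_lit 140)) (XT.lf (nat_lit 0) (nat_lit 1787885534809) (nat_lit 76) (nat_lit 249961969569) (nat_lit 76) (nat_lit 162651018956) (nat_lit 3) (nat_lit 4) (nat_lit 4) (nat_lit 5) (nat_lit 4) (nat_lit 4) (nat_lit 358) (nat_lit 283) (nat_lit 139))) (XT.nd (nat_lit 78) (nat_lit 0) (nat_lit 0) (XT.lf (nat_lit 0) (nat_lit 2018222763977) (nat_lit 76) (nat_lit 220986564898) (nat_lit 76) (nat_lit 133675514808) (nat_lit 3) (nat_lit 4) (nat_lit 4) (nat_lit 5) (nat_lit 4) (nat_lit 4) (nat_lit 359)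 (nat_lit 283) (nat_lit 138)) (XT.lf (nat_lit 0) (nat_lit 2266986779913) (nat_lit 76) (nat_lit 189693219980) (nat_lit 76) (nat_lit 102382077783) (nat_lit 3) (nat_lit 4) (nat_lit 4) (nat_lit 5) (nat_lit 4) (nat_lit 4) (nat_lit 360) (nat_lit 283) (nat_lit 137))))) (XT.nd (nat_lit 312) (nat_lit 0) (nat_lit 0) (XT.nd (nat_lit 156) (nat_lit 152) (nat_lit 0) (XT.nd (nat_lit 78) (nat_lit 0) (nat_lit 0) (XT.lf (nat_lit 0) (nat_lit 2535651739748) (nat_lit 76) (nat_lit 155896492773) (nat_lit 76) (nat_lit 68585265291) (nat_lit 3) (nat_lit 4) (nat_lit 4) (nat_lit 5) (nat_lit 4) (nat_lit 4) (nat_lit 361) (nat_lit 283) (nat_lit 136)) (XT.lf (nat_lit 0) (nat_lit 2825809732133) (nat_lit 76) (nat_lit 119396106374) (nat_lit 76) (nat_lit 32084799924) (nat_lit 3) (nat_lit 4) (nat_lit 4) (nat_lit 5) (nat_lit 4) (nat_lit 4) (nat_lit 362) (nat_lit 283) (nat_lit 135))) (XT.nd (nat_lit 78) (nat_lit 76) (nat_lit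 0) (XT.lf (nat_lit 0) (nat_lit 6968660080) (nat_lit 152) (nat_lit 72816566600) (nat_lit 76) (nat_lit 3132021016241) (nat_lit 2) (nat_lit 5) (nat_lit 4) (nat_lit 5) (nat_lit 3) (nat_lit 4) (nat_lit 363) (nat_lit 283) (nat_lit 134)) (XT.lf (nat_lit 0) (nat_lit 11902831905) (nat_lit 76) (nat_lit 35796340775) (nat_lit 152) (nat_lit 3417294358351) (nat_lit 1) (nat_lit 5) (nat_lit 2) (nat_lit 5) (nat_lit 3) (nat_lit 4) (nat_lit 364) (nat_lit 283) (nat_lit 133)))) (XT.nd (nat_lit 34398) (nat_lit 0) (nat_lit 3268) (XT.nd (nat_lit 34320) (nat_lit 0) (nat_lit 3268) (XT.lf (nat_lit 0) (nat_lit 94012363931) (nat_lit 152) (nat_lit 3631069126055) (nat_lit 0) (nat_lit 13168373229) (nat_lit 1) (nat_lit 5) (nat_lit 3) (nat_lit 4) (nat_lit 1) (nat_lit 4) (nat_lit 365) (nat_lit 283) (nat_lit 132)) (XT.lf (nat_lit 0) (nat_lit 7359896604) (nat_lit 532) (nat_lit 2815026794) (nat_lit 532) (nat_lit 2815026794)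 (nat_lit 44) (nat_lit 3) (nat_lit 51) (nat_lit 3) (nat_lit 51) (nat_lit 5) (nat_lit 284) (nat_lit 284) (nat_lit 212))) (XT.nd (nat_lit 78) (nat_lit 0) (nat_lit 76) (XT.lf (nat_lit 76) (nat_lit 6482187774) (nat_lit 0) (nat_lit 9071102660) (nat_lit 532) (nat_lit 11445939288) (nat_lit 45) (nat_lit 5) (nat_lit 44) (nat_lit 3) (nat_lit 51) (nat_lit 5) (nat_lit 285) (nat_lit 284) (nat_lit 211)) (XT.lf (nat_lit 0) (nat_lit 16677283370) (nat_lit 456) (nat_lit 8288898749) (nat_lit 532) (nat_lit 3116047050) (nat_lit 45) (nat_lit 5) (nat_lit 51) (nat_lit 5) (nat_lit 52) (nat_lit 5) (nat_lit 286) (nat_lit 284) (nat_lit 210)))))) (XT.nd (nat_lit 624) (nat_lit 836) (nat_lit 0) (XT.nd (nat_lit 312) (nat_lit 608) (nat_lit 0) (XT.nd (nat_lit 156) (nat_lit 0) (nat_lit 76) (XT.nd (nat_lit 78) (nat_lit 0) (nat_lit 0) (XT.lf (nat_lit 76) (nat_lit 4922661838) (nat_lit 0) (nat_lit 13314285059) (nat_lit 532)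 (nat_lit 10987288469) (nat_lit 46) (nat_lit 5) (nat_lit 45) (nat_lit 5) (nat_lit 52) (nat_lit 5) (nat_lit 287) (nat_lit 284) (nat_lit 209)) (XT.lf (nat_lit 76) (nat_lit 19657210339) (nat_lit 0) (nat_lit 483037294) (nat_lit 532) (nat_lit 10299870191) (nat_lit 46) (nat_lit 5) (nat_lit 45) (nat_lit 5) (nat_lit 52) (nat_lit 5) (nat_lit 288) (nat_lit 284) (nat_lit 208))) (XT.nd (nat_lit 78) (nat_lit 0) (nat_lit 0) (XT.lf (nat_lit 76) (nat_lit 3673775247) (nat_lit 0) (nat_lit 18924914326) (nat_lit 532) (nat_lit 9122374185) (nat_lit 47) (nat_lit 5) (nat_lit 46) (nat_lit 5) (nat_lit 53) (nat_lit 5) (nat_lit 289) (nat_lit 284) (nat_lit 207)) (XT.lf (nat_lit 76) (nat_lit 19881568962) (nat_lit 0) (nat_lit 5672548922) (nat_lit 532) (nat_lit 7526363945) (nat_lit 47) (nat_lit 5) (nat_lit 46) (nat_lit 5) (nat_lit 53) (nat_lit 5) (nat_lit 290) (nat_lit 284) (nat_lit 206)))) (XT.nd (nat_lit 156) (nat_lit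 304) (nat_lit 0) (XT.nd (nat_lit 78) (nat_lit 0) (nat_lit 0) (XT.lf (nat_lit 0) (nat_lit 2762118602) (nat_lit 456) (nat_lit 26251869783) (nat_lit 532) (nat_lit 5513244090) (nat_lit 41) (nat_lit 5) (nat_lit 47) (nat_lit 5) (nat_lit 48) (nat_lit 5) (nat_lit 291) (nat_lit 284) (nat_lit 205)) (XT.lf (nat_lit 0) (nat_lit 20590116309) (nat_lit 456) (nat_lit 12659138398) (nat_lit 532) (nat_lit 2800598269) (nat_lit 41) (nat_lit 5) (nat_lit 47) (nat_lit 5) (nat_lit 48) (nat_lit 5) (nat_lit 292) (nat_lit 284) (nat_lit 204))) (XT.nd (nat_lit 78) (nat_lit 0) (nat_lit 0) (XT.lf (nat_lit 0) (nat_lit 221315177) (nat_lit 304) (nat_lit 35485881259) (nat_lit 76) (nat_lit 1978957098) (nat_lit 37) (nat_lit 5) (nat_lit 41) (nat_lit 5) (nat_lit 38) (nat_lit 5) (nat_lit 293) (nat_lit 284) (nat_lit 203)) (XT.lf (nat_lit 0) (nat_lit 4090846965) (nat_lit 304) (nat_lit 17685448272) (nat_lit 76) (nat_lit 17610684375)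 (nat_lit 37) (nat_lit 5) (nat_lit 41) (nat_lit 5) (nat_lit 38) (nat_lit 5) (nat_lit 294) (nat_lit 284) (nat_lit 202))))) (XT.nd (nat_lit 312) (nat_lit 380) (nat_lit 0) (XT.nd (nat_lit 156) (nat_lit 228) (nat_lit 0) (XT.nd (nat_lit 78) (nat_lit 0) (nat_lit 0) (XT.lf (nat_lit 0) (nat_lit 1614538841) (nat_lit 228) (nat_lit 6689311593) (nat_lit 304) (nat_lit 32917322063) (nat_lit 34) (nat_lit 5) (nat_lit 37) (nat_lit 5) (nat_lit 38) (nat_lit 5) (nat_lit 295) (nat_lit 284) (nat_lit 201)) (XT.lf (nat_lit 0) (nat_lit 13576307555) (nat_lit 304) (nat_lit 19948145831) (nat_lit 76) (nat_lit 9619866808) (nat_lit 34) (nat_lit 5) (nat_lit 38) (nat_lit 5) (nat_lit 35) (nat_lit 5) (nat_lit 296) (nat_lit 284) (nat_lit 200))) (XT.nd (nat_lit 78) (nat_lit 0) (nat_lit 0) (XT.lf (nat_lit 0) (nat_lit 1162334183) (nat_lit 228) (nat_lit 18305587450) (nat_lit 304) (nat_lit 25737620776) (nat_lit 31) (nat_lit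 5) (nat_lit 34) (nat_lit 5) (nat_lit 35) (nat_lit 5) (nat_lit 297) (nat_lit 284) (nat_lit 199)) (XT.lf (nat_lit 0) (nat_lit 25091166871) (nat_lit 228) (nat_lit 1280975979) (nat_lit 304) (nat_lit 21016227987) (nat_lit 31) (nat_lit 5) (nat_lit 34) (nat_lit 5) (nat_lit 35) (nat_lit 5) (nat_lit 298) (nat_lit 284) (nat_lit 198)))) (XT.nd (nat_lit 156) (nat_lit 228) (nat_lit 0) (XT.nd (nat_lit 78) (nat_lit 0) (nat_lit 0) (XT.lf (nat_lit 0) (nat_lit 812867517) (nat_lit 152) (nat_lit 33442922778) (nat_lit 228) (nat_lit 15455878049) (nat_lit 29) (nat_lit 5) (nat_lit 31) (nat_lit 5) (nat_lit 32) (nat_lit 5) (nat_lit 299) (nat_lit 284) (nat_lit 197)) (XT.lf (nat_lit 0) (nat_lit 27000020163) (nat_lit 152) (nat_lit 16408503804) (nat_lit 228) (nat_lit 8761243283) (nat_lit 29) (nat_lit 5) (nat_lit 31) (nat_lit 5) (nat_lit 32) (nat_lit 5) (nat_lit 300) (nat_lit 284) (nat_lit 196))) (XT.nd (nat_lit 78)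 (nat_lit 76) (nat_lit 0) (XT.lf (nat_lit 0) (nat_lit 426470809) (nat_lit 152) (nat_lit 52921657812) (nat_lit 228) (nat_lit 1472021741) (nat_lit 27) (nat_lit 5) (nat_lit 29) (nat_lit 5) (nat_lit 30) (nat_lit 5) (nat_lit 301) (nat_lit 284) (nat_lit 195)) (XT.lf (nat_lit 0) (nat_lit 7209042179) (nat_lit 228) (nat_lit 28728428967) (nat_lit 76) (nat_lit 21642475944) (nat_lit 26) (nat_lit 5) (nat_lit 29) (nat_lit 5) (nat_lit 27) (nat_lit 5) (nat_lit 302) (nat_lit 284) (nat_lit 194))))))) (XT.nd (nat_lit 1170) (nat_lit 532) (nat_lit 0) (XT.nd (nat_lit 546) (nat_lit 532) (nat_lit 0) (XT.nd (nat_lit 234) (nat_lit 304) (nat_lit 0) (XT.nd (nat_lit 78) (nat_lit 152) (nat_lit 0) (XT.lf (nat_lit 0) (nat_lit 16501934284) (nat_lit 228) (nat_lit 1052575551) (nat_lit 76) (nat_lit 43003216064) (nat_lit 26) (nat_lit 5) (nat_lit 29) (nat_lit 5) (nat_lit 27) (nat_lit 5) (nat_lit 303) (nat_lit 284) (nat_lit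 193)) (XT.nd (nat_lit 78) (nat_lit 0) (nat_lit 0) (XT.lf (nat_lit 0) (nat_lit 27339541842) (nat_lit 228) (nat_lit 33438195911) (nat_lit 76) (nat_lit 2931892765) (nat_lit 24) (nat_lit 5) (nat_lit 27) (nat_lit 5) (nat_lit 25) (nat_lit 5) (nat_lit 304) (nat_lit 284) (nat_lit 192)) (XT.lf (nat_lit 0) (nat_lit 39526839592) (nat_lit 228) (nat_lit 3411022685) (nat_lit 76) (nat_lit 24137216471) (nat_lit 24) (nat_lit 5) (nat_lit 27) (nat_lit 5) (nat_lit 25) (nat_lit 5) (nat_lit 305) (nat_lit 284) (nat_lit 191)))) (XT.nd (nat_lit 156) (nat_lit 152) (nat_lit 0) (XT.nd (nat_lit 78) (nat_lit 0) (nat_lit 0) (XT.lf (nat_lit 0) (nat_lit 30542327933) (nat_lit 152) (nat_lit 22878738335) (nat_lit 228) (nat_lit 17230146300) (nat_lit 22) (nat_lit 5) (nat_lit 24) (nat_lit 5) (nat_lit 25) (nat_lit 5) (nat_lit 306) (nat_lit 284) (nat_lit 190)) (XT.lf (nat_lit 0) (nat_lit 67402184481) (nat_lit 152) (nat_lit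 1115413692) (nat_lit 228) (nat_lit 5988582500) (nat_lit 22) (nat_lit 5) (nat_lit 24) (nat_lit 5) (nat_lit 25) (nat_lit 5) (nat_lit 307) (nat_lit 284) (nat_lit 189))) (XT.nd (nat_lit 78) (nat_lit 0) (nat_lit 0) (XT.lf (nat_lit 0) (nat_lit 7121831774) (nat_lit 152) (nat_lit 49276671789) (nat_lit 76) (nat_lit 22157026760) (nat_lit 20) (nat_lit 5) (nat_lit 22) (nat_lit 5) (nat_lit 21) (nat_lit 5) (nat_lit 308) (nat_lit 284) (nat_lit 188)) (XT.lf (nat_lit 0) (nat_lit 21183479188) (nat_lit 152) (nat_lit 14130168914) (nat_lit 76) (nat_lit 47584664842) (nat_lit 20) (nat_lit 5) (nat_lit 22) (nat_lit 5) (nat_lit 21) (nat_lit 5) (nat_lit 309) (nat_lit 284) (nat_lit 187))))) (XT.nd (nat_lit 312) (nat_lit 304) (nat_lit 0) (XT.nd (nat_lit 156) (nat_lit 76) (nat_lit 0) (XT.nd (nat_lit 78) (nat_lit 0) (nat_lit 0) (XT.lf (nat_lit 0) (nat_lit 25079222580) (nat_lit 152) (nat_lit 11891849391) (nat_lit 228)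 (nat_lit 50569368752) (nat_lit 18) (nat_lit 5) (nat_lit 20) (nat_lit 5) (nat_lit 21) (nat_lit 5) (nat_lit 310) (nat_lit 284) (nat_lit 186)) (XT.lf (nat_lit 0) (nat_lit 54738316862) (nat_lit 228) (nat_lit 24629913011) (nat_lit 76) (nat_lit 13128380645) (nat_lit 18) (nat_lit 5) (nat_lit 21) (nat_lit 5) (nat_lit 19) (nat_lit 4) (nat_lit 311) (nat_lit 284) (nat_lit 185))) (XT.nd (nat_lit 78) (nat_lit 0) (nat_lit 0) (XT.lf (nat_lit 0) (nat_lit 16753923505) (nat_lit 76) (nat_lit 57882891134) (nat_lit 152) (nat_lit 23155672508) (nat_lit 17) (nat_lit 5) (nat_lit 18) (nat_lit 5) (nat_lit 19) (nat_lit 4) (nat_lit 312) (nat_lit 284) (nat_lit 184)) (XT.lf (nat_lit 0) (nat_lit 62846079823) (nat_lit 76) (nat_lit 33952668436) (nat_lit 152) (nat_lit 6659564052) (nat_lit 17) (nat_lit 5) (nat_lit 18) (nat_lit 5) (nat_lit 19) (nat_lit 4) (nat_lit 313) (nat_lit 284) (nat_lit 183)))) (XT.nd (nat_lit 156)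 (nat_lit 76) (nat_lit 0) (XT.nd (nat_lit 78) (nat_lit 0) (nat_lit 0) (XT.lf (nat_lit 0) (nat_lit 2923147462) (nat_lit 152) (nat_lit 7743528952) (nat_lit 228) (nat_lit 98883783072) (nat_lit 14) (nat_lit 5) (nat_lit 16) (nat_lit 5) (nat_lit 17) (nat_lit 5) (nat_lit 314) (nat_lit 284) (nat_lit 182)) (XT.lf (nat_lit 0) (nat_lit 30651258683) (nat_lit 228) (nat_lit 64489489882) (nat_lit 76) (nat_lit 20844831544) (nat_lit 14) (nat_lit 5) (nat_lit 17) (nat_lit 5) (nat_lit 15) (nat_lit 4) (nat_lit 315) (nat_lit 284) (nat_lit 181))) (XT.nd (nat_lit 78) (nat_lit 76) (nat_lit 0) (XT.lf (nat_lit 0) (nat_lit 52434122367) (nat_lit 228) (nat_lit 19184562782) (nat_lit 76) (nat_lit 51300866167) (nat_lit 14) (nat_lit 5) (nat_lit 17) (nat_lit 5) (nat_lit 15) (nat_lit 4) (nat_lit 316) (nat_lit 284) (nat_lit 180)) (XT.lf (nat_lit 0) (nat_lit 31308345201) (nat_lit 76) (nat_lit 45402740301) (nat_lit 152) (nat_lit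 53637039054) (nat_lit 13) (nat_lit 5) (nat_lit 14) (nat_lit 5) (nat_lit 15) (nat_lit 4) (nat_lit 317) (nat_lit 284) (nat_lit 179)))))) (XT.nd (nat_lit 624) (nat_lit 228) (nat_lit 0) (XT.nd (nat_lit 312) (nat_lit 152) (nat_lit 0) (XT.nd (nat_lit 156) (nat_lit 152) (nat_lit 0) (XT.nd (nat_lit 78) (nat_lit 0) (nat_lit 0) (XT.lf (nat_lit 0) (nat_lit 86929210804) (nat_lit 76) (nat_lit 16524088991) (nat_lit 152) (nat_lit 34875838150) (nat_lit 13) (nat_lit 5) (nat_lit 14) (nat_lit 5) (nat_lit 15) (nat_lit 4) (nat_lit 318) (nat_lit 284) (nat_lit 178)) (XT.lf (nat_lit 0) (nat_lit 132686218717) (nat_lit 152) (nat_lit 303993337) (nat_lit 0) (nat_lit 13930315836) (nat_lit 13) (nat_lit 5) (nat_lit 15) (nat_lit 4) (nat_lit 13) (nat_lit 4) (nat_lit 319) (nat_lit 284) (nat_lit 177))) (XT.nd (nat_lit 78) (nat_lit 0) (nat_lit 0) (XT.lf (nat_lit 0) (nat_lit 9508708822) (nat_lit 152) (nat_lit 98980122496)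 (nat_lit 76) (nat_lit 47546631495) (nat_lit 11) (nat_lit 5) (nat_lit 13) (nat_lit 5) (nat_lit 12) (nat_lit 4) (nat_lit 320) (nat_lit 284) (nat_lit 176)) (XT.lf (nat_lit 0) (nat_lit 34389419696) (nat_lit 152) (nat_lit 47230404960) (nat_lit 76) (nat_lit 84229609519) (nat_lit 11) (nat_lit 5) (nat_lit 13) (nat_lit 5) (nat_lit 12) (nat_lit 4) (nat_lit 321) (nat_lit 284) (nat_lit 175)))) (XT.nd (nat_lit 156) (nat_lit 76) (nat_lit 0) (XT.nd (nat_lit 78) (nat_lit 0) (nat_lit 0) (XT.lf (nat_lit 0) (nat_lit 9113081562) (nat_lit 76) (nat_lit 52365514828) (nat_lit 152) (nat_lit 114952487377) (nat_lit 10) (nat_lit 5) (nat_lit 11) (nat_lit 5) (nat_lit 12) (nat_lit 4) (nat_lit 322) (nat_lit 284) (nat_lit 174)) (XT.lf (nat_lit 0) (nat_lit 72648053024) (nat_lit 76) (nat_lit 19377093482) (nat_lit 152) (nat_lit 95730900823) (nat_lit 10) (nat_lit 5) (nat_lit 11) (nat_lit 5) (nat_lit 12) (nat_lit 4) (nat_lit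 323) (nat_lit 284) (nat_lit 173))) (XT.nd (nat_lit 78) (nat_lit 76) (nat_lit 0) (XT.lf (nat_lit 0) (nat_lit 125405182571) (nat_lit 152) (nat_lit 59113951130) (nat_lit 0) (nat_lit 15436694381) (nat_lit 10) (nat_lit 5) (nat_lit 12) (nat_lit 4) (nat_lit 10) (nat_lit 4) (nat_lit 324) (nat_lit 284) (nat_lit 172)) (XT.lf (nat_lit 0) (nat_lit 899512744) (nat_lit 76) (nat_lit 161080061164) (nat_lit 76) (nat_lit 51110102179) (nat_lit 9) (nat_lit 4) (nat_lit 10) (nat_lit 5) (nat_lit 10) (nat_lit 4) (nat_lit 325) (nat_lit 284) (nat_lit 171))))) (XT.nd (nat_lit 312) (nat_lit 76) (nat_lit 0) (XT.nd (nat_lit 156) (nat_lit 76) (nat_lit 0) (XT.nd (nat_lit 78) (nat_lit 76) (nat_lit 0) (XT.lf (nat_lit 0) (nat_lit 69074163155) (nat_lit 76) (nat_lit 134021082111) (nat_lit 76) (nat_lit 24049761278) (nat_lit 9) (nat_lit 4) (nat_lit 10) (nat_lit 5) (nat_lit 10) (nat_lit 4) (nat_lit 326) (nat_lit 284) (nat_lit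 170)) (XT.lf (nat_lit 0) (nat_lit 4915607407) (nat_lit 152) (nat_lit 99748118395) (nat_lit 76) (nat_lit 137651153297) (nat_lit 8) (nat_lit 5) (nat_lit 10) (nat_lit 5) (nat_lit 9) (nat_lit 4) (nat_lit 327) (nat_lit 284) (nat_lit 169))) (XT.nd (nat_lit 78) (nat_lit 76) (nat_lit 0) (XT.lf (nat_lit 0) (nat_lit 34898056149) (nat_lit 152) (nat_lit 37385792575) (nat_lit 76) (nat_lit 186364586938) (nat_lit 8) (nat_lit 5) (nat_lit 10) (nat_lit 5) (nat_lit 9) (nat_lit 4) (nat_lit 328) (nat_lit 284) (nat_lit 168)) (XT.lf (nat_lit 0) (nat_lit 31541941593) (nat_lit 76) (nat_lit 36494968041) (nat_lit 152) (nat_lit 208191143081) (nat_lit 7) (nat_lit 5) (nat_lit 8) (nat_lit 5) (nat_lit 9) (nat_lit 4) (nat_lit 329) (nat_lit 284) (nat_lit 167)))) (XT.nd (nat_lit 156) (nat_lit 76) (nat_lit 0) (XT.nd (nat_lit 78) (nat_lit 0) (nat_lit 0) (XT.lf (nat_lit 0) (nat_lit 104926724887) (nat_lit 152) (nat_lit 187102075256)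 (nat_lit 0) (nat_lit 3097251327) (nat_lit 7) (nat_lit 5) (nat_lit 9) (nat_lit 4) (nat_lit 7) (nat_lit 4) (nat_lit 330) (nat_lit 284) (nat_lit 166)) (XT.lf (nat_lit 0) (nat_lit 145714936164) (nat_lit 152) (nat_lit 125860573260) (nat_lit 0) (nat_lit 43884604409) (nat_lit 7) (nat_lit 5) (nat_lit 9) (nat_lit 4) (nat_lit 7) (nat_lit 4) (nat_lit 331) (nat_lit 284) (nat_lit 165))) (XT.nd (nat_lit 78) (nat_lit 76) (nat_lit 0) (XT.lf (nat_lit 0) (nat_lit 189765546525) (nat_lit 152) (nat_lit 59720987672) (nat_lit 0) (nat_lit 87934420145) (nat_lit 7) (nat_lit 5) (nat_lit 9) (nat_lit 4) (nat_lit 7) (nat_lit 4) (nat_lit 332) (nat_lit 284) (nat_lit 164)) (XT.lf (nat_lit 0) (nat_lit 12325174962) (nat_lit 76) (nat_lit 225310842417) (nat_lit 76) (nat_lit 123478980273) (nat_lit 6) (nat_lit 4) (nat_lit 7) (nat_lit 5) (nat_lit 7) (nat_lit 4) (nat_lit 333) (nat_lit 284) (nat_lit 163))))))))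
noncomputable def xc88 : XT := (XT.nd (nat_lit 2340) (nat_lit 152) (nat_lit 0) (XT.nd (nat_lit 1170) (nat_lit 0) (nat_lit 0) (XT.nd (nat_lit 546) (nat_lit 76) (nat_lit 0) (XT.nd (nat_lit 234) (nat_lit 152) (nat_lit 0) (XT.nd (nat_lit 78) (nat_lit 0) (nat_lit 0) (XT.lf (nat_lit 0) (nat_lit 93530300111) (nat_lit 76) (nat_lit 197438112615) (nat_lit 76) (nat_lit 95605569208) (nat_lit 6) (nat_lit 4) (nat_lit 7) (nat_lit 5) (nat_lit 7) (nat_lit 4) (nat_lit 334) (nat_lit 284) (nat_lit 162)) (XT.nd (nat_lit 78) (nat_lit 0) (nat_lit 0) (XT.lf (nat_lit 0) (nat_lit 181230801955) (nat_lit 76) (nat_lit 167336050698) (nat_lit 76) (nat_lit 65502876492) (nat_lit 6) (nat_lit 4) (nat_lit 7) (nat_lit 5) (nat_lit 7) (nat_lit 4) (nat_lit 335) (nat_lit 284) (nat_lit 161)) (XT.lf (nat_lit 0) (nat_lit 275946387171) (nat_lit 76) (nat_lit 134826274076) (nat_lit 76) (nat_lit 32992515797) (nat_lit 6) (nat_lit 4)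 (nat_lit 7) (nat_lit 5) (nat_lit 7) (nat_lit 4) (nat_lit 336) (nat_lit 284) (nat_lit 160)))) (XT.nd (nat_lit 156) (nat_lit 76) (nat_lit 0) (XT.nd (nat_lit 78) (nat_lit 0) (nat_lit 0) (XT.lf (nat_lit 0) (nat_lit 2012207579) (nat_lit 152) (nat_lit 97648907321) (nat_lit 76) (nat_lit 376171108400) (nat_lit 5) (nat_lit 5) (nat_lit 7) (nat_lit 5) (nat_lit 6) (nat_lit 4) (nat_lit 337) (nat_lit 284) (nat_lit 159)) (XT.lf (nat_lit 0) (nat_lit 38034410163) (nat_lit 152) (nat_lit 22723226695) (nat_lit 76) (nat_lit 449638476500) (nat_lit 5) (nat_lit 5) (nat_lit 7) (nat_lit 5) (nat_lit 6) (nat_lit 4) (nat_lit 338) (nat_lit 284) (nat_lit 158))) (XT.nd (nat_lit 78) (nat_lit 0) (nat_lit 0) (XT.lf (nat_lit 0) (nat_lit 61260210679) (nat_lit 76) (nat_lit 17151074979) (nat_lit 152) (nat_lit 469195997513) (nat_lit 4) (nat_lit 5) (nat_lit 5) (nat_lit 5) (nat_lit 6) (nat_lit 4) (nat_lit 339) (nat_lit 284)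 (nat_lit 157)) (XT.lf (nat_lit 0) (nat_lit 123375486913) (nat_lit 152) (nat_lit 435228107104) (nat_lit 0) (nat_lit 29083178761) (nat_lit 4) (nat_lit 5) (nat_lit 6) (nat_lit 4) (nat_lit 4) (nat_lit 4) (nat_lit 340) (nat_lit 284) (nat_lit 156))))) (XT.nd (nat_lit 312) (nat_lit 76) (nat_lit 0) (XT.nd (nat_lit 156) (nat_lit 0) (nat_lit 0) (XT.nd (nat_lit 78) (nat_lit 0) (nat_lit 0) (XT.lf (nat_lit 0) (nat_lit 172381927787) (nat_lit 152) (nat_lit 380465834158) (nat_lit 0) (nat_lit 78089251571) (nat_lit 4) (nat_lit 5) (nat_lit 6) (nat_lit 4) (nat_lit 4) (nat_lit 4) (nat_lit 341) (nat_lit 284) (nat_lit 155)) (XT.lf (nat_lit 0) (nat_lit 225308533056) (nat_lit 152) (nat_lit 321323252718) (nat_lit 0) (nat_lit 131015516039) (nat_lit 4) (nat_lit 5) (nat_lit 6) (nat_lit 4) (nat_lit 4) (nat_lit 4) (nat_lit 342) (nat_lit 284) (nat_lit 154))) (XT.nd (nat_lit 78) (nat_lit 0) (nat_lit 0) (XT.lf (nat_lit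 0) (nat_lit 282468941861) (nat_lit 152) (nat_lit 257449888225) (nat_lit 0) (nat_lit 188175609288) (nat_lit 4) (nat_lit 5) (nat_lit 6) (nat_lit 4) (nat_lit 4) (nat_lit 4) (nat_lit 343) (nat_lit 284) (nat_lit 153)) (XT.lf (nat_lit 0) (nat_lit 344201882552) (nat_lit 152) (nat_lit 188467231854) (nat_lit 0) (nat_lit 249908257796) (nat_lit 4) (nat_lit 5) (nat_lit 6) (nat_lit 4) (nat_lit 4) (nat_lit 4) (nat_lit 344) (nat_lit 284) (nat_lit 152)))) (XT.nd (nat_lit 156) (nat_lit 76) (nat_lit 0) (XT.nd (nat_lit 78) (nat_lit 0) (nat_lit 0) (XT.lf (nat_lit 0) (nat_lit 410873179960) (nat_lit 152) (nat_lit 113966497492) (nat_lit 0) (nat_lit 316579284666) (nat_lit 4) (nat_lit 5) (nat_lit 6) (nat_lit 4) (nat_lit 4) (nat_lit 4) (nat_lit 345) (nat_lit 284) (nat_lit 151)) (XT.lf (nat_lit 0) (nat_lit 482877923257) (nat_lit 152) (nat_lit 33506199307) (nat_lit 0) (nat_lit 388583777464) (nat_lit 4) (nat_lit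 5) (nat_lit 6) (nat_lit 4) (nat_lit 4) (nat_lit 4) (nat_lit 346) (nat_lit 284) (nat_lit 150))) (XT.nd (nat_lit 78) (nat_lit 0) (nat_lit 0) (XT.lf (nat_lit 0) (nat_lit 56201911712) (nat_lit 76) (nat_lit 505792552834) (nat_lit 76) (nat_lit 411498175097) (nat_lit 3) (nat_lit 4) (nat_lit 4) (nat_lit 5) (nat_lit 4) (nat_lit 4) (nat_lit 347) (nat_lit 284) (nat_lit 149)) (XT.lf (nat_lit 0) (nat_lit 154991752193) (nat_lit 76) (nat_lit 493364463958) (nat_lit 76) (nat_lit 399069871458) (nat_lit 3) (nat_lit 4) (nat_lit 4) (nat_lit 5) (nat_lit 4) (nat_lit 4) (nat_lit 348) (nat_lit 284) (nat_lit 148)))))) (XT.nd (nat_lit 546) (nat_lit 0) (nat_lit 0) (XT.nd (nat_lit 234) (nat_lit 0) (nat_lit 0) (XT.nd (nat_lit 78) (nat_lit 0) (nat_lit 0) (XT.lf (nat_lit 0) (nat_lit 261684366337) (nat_lit 76) (nat_lit 479942326868) (nat_lit 76) (nat_lit 385647535515) (nat_lit 3) (nat_lit 4) (nat_lit 4) (nat_lit 5)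 (nat_lit 4) (nat_lit 4) (nat_lit 349) (nat_lit 284) (nat_lit 147)) (XT.nd (nat_lit 78) (nat_lit 0) (nat_lit 0) (XT.lf (nat_lit 0) (nat_lit 376912006672) (nat_lit 76) (nat_lit 465446602976) (nat_lit 76) (nat_lit 371151627498) (nat_lit 3) (nat_lit 4) (nat_lit 4) (nat_lit 5) (nat_lit 4) (nat_lit 4) (nat_lit 350) (nat_lit 284) (nat_lit 146)) (XT.lf (nat_lit 0) (nat_lit 501357503658) (nat_lit 76) (nat_lit 449791391694) (nat_lit 76) (nat_lit 355496245731) (nat_lit 3) (nat_lit 4) (nat_lit 4) (nat_lit 5) (nat_lit 4) (nat_lit 4) (nat_lit 351) (nat_lit 284) (nat_lit 145)))) (XT.nd (nat_lit 156) (nat_lit 0) (nat_lit 0) (XT.nd (nat_lit 78) (nat_lit 0) (nat_lit 0) (XT.lf (nat_lit 0) (nat_lit 635758312093) (nat_lit 76) (nat_lit 432883921401) (nat_lit 76) (nat_lit 338588617581) (nat_lit 3) (nat_lit 4) (nat_lit 4) (nat_lit 5) (nat_lit 4) (nat_lit 4) (nat_lit 352) (nat_lit 284) (nat_lit 144)) (XT.lf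 (nat_lit 0) (nat_lit 780910881211) (nat_lit 76) (nat_lit 414623999680) (nat_lit 76) (nat_lit 320328549696) (nat_lit 3) (nat_lit 4) (nat_lit 4) (nat_lit 5) (nat_lit 4) (nat_lit 4) (nat_lit 353) (nat_lit 284) (nat_lit 143))) (XT.nd (nat_lit 78) (nat_lit 0) (nat_lit 0) (XT.lf (nat_lit 0) (nat_lit 937675374386) (nat_lit 76) (nat_lit 394903419587) (nat_lit 76) (nat_lit 300607834266) (nat_lit 3) (nat_lit 4) (nat_lit 4) (nat_lit 5) (nat_lit 4) (nat_lit 4) (nat_lit 354) (nat_lit 284) (nat_lit 142)) (XT.lf (nat_lit 0) (nat_lit 1106980766391) (nat_lit 76) (nat_lit 373605318425) (nat_lit 76) (nat_lit 279309607793) (nat_lit 3) (nat_lit 4) (nat_lit 4) (nat_lit 5) (nat_lit 4) (nat_lit 4) (nat_lit 355) (nat_lit 284) (nat_lit 141))))) (XT.nd (nat_lit 312) (nat_lit 0) (nat_lit 0) (XT.nd (nat_lit 156) (nat_lit 0) (nat_lit 0) (XT.nd (nat_lit 78) (nat_lit 0) (nat_lit 0) (XT.lf (nat_lit 0) (nat_lit 1289830348440)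 (nat_lit 76) (nat_lit 350603485225) (nat_lit 76) (nat_lit 256307658563) (nat_lit 3) (nat_lit 4) (nat_lit 4) (nat_lit 5) (nat_lit 4) (nat_lit 4) (nat_lit 356) (nat_lit 284) (nat_lit 140)) (XT.lf (nat_lit 0) (nat_lit 1487307673609) (nat_lit 76) (nat_lit 325761612827) (nat_lit 76) (nat_lit 231465678730) (nat_lit 3) (nat_lit 4) (nat_lit 4) (nat_lit 5) (nat_lit 4) (nat_lit 4) (nat_lit 357) (nat_lit 284) (nat_lit 139))) (XT.nd (nat_lit 78) (nat_lit 0) (nat_lit 0) (XT.lf (nat_lit 0) (nat_lit 1700582977901) (nat_lit 76) (nat_lit 298932490135) (nat_lit 76) (nat_lit 204636456562) (nat_lit 3) (nat_lit 4) (nat_lit 4) (nat_lit 5) (nat_lit 4) (nat_lit 4) (nat_lit 358) (nat_lit 284) (nat_lit 138)) (XT.lf (nat_lit 0) (nat_lit 1930920114970) (nat_lit 76) (nat_lit 269957129756) (nat_lit 76) (nat_lit 175661004075) (nat_lit 3) (nat_lit 4) (nat_lit 4) (nat_lit 5) (nat_lit 4) (nat_lit 4) (nat_lit 359) (nat_lit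 284) (nat_lit 137)))) (XT.nd (nat_lit 156) (nat_lit 0) (nat_lit 0) (XT.nd (nat_lit 78) (nat_lit 0) (nat_lit 0) (XT.lf (nat_lit 0) (nat_lit 2179684045630) (nat_lit 76) (nat_lit 238663825850) (nat_lit 76) (nat_lit 144367614884) (nat_lit 3) (nat_lit 4) (nat_lit 4) (nat_lit 5) (nat_lit 4) (nat_lit 4) (nat_lit 360) (nat_lit 284) (nat_lit 136)) (XT.lf (nat_lit 0) (nat_lit 2448348926505) (nat_lit 76) (nat_lit 204867136616) (nat_lit 76) (nat_lit 110570846682) (nat_lit 3) (nat_lit 4) (nat_lit 4) (nat_lit 5) (nat_lit 4) (nat_lit 4) (nat_lit 361) (nat_lit 284) (nat_lit 135))) (XT.nd (nat_lit 78) (nat_lit 0) (nat_lit 0) (XT.lf (nat_lit 0) (nat_lit 2738506845779) (nat_lit 76) (nat_lit 168366785378) (nat_lit 76) (nat_lit 74070422325) (nat_lit 3) (nat_lit 4) (nat_lit 4) (nat_lit 5) (nat_lit 4) (nat_lit 4) (nat_lit 362) (nat_lit 284) (nat_lit 134)) (XT.lf (nat_lit 0) (nat_lit 3051877257788) (nat_lit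 76) (nat_lit 128946473757) (nat_lit 76) (nat_lit 34650043003) (nat_lit 3) (nat_lit 4) (nat_lit 4) (nat_lit 5) (nat_lit 4) (nat_lit 4) (nat_lit 363) (nat_lit 284) (nat_lit 133))))))) (XT.nd (nat_lit 35490) (nat_lit 0) (nat_lit 1216) (XT.nd (nat_lit 34866) (nat_lit 0) (nat_lit 2508) (XT.nd (nat_lit 34554) (nat_lit 0) (nat_lit 3268) (XT.nd (nat_lit 78) (nat_lit 76) (nat_lit 0) (XT.lf (nat_lit 0) (nat_lit 7527508287) (nat_lit 152) (nat_lit 78639276203) (nat_lit 76) (nat_lit 3382583848677) (nat_lit 2) (nat_lit 5) (nat_lit 4) (nat_lit 5) (nat_lit 3) (nat_lit 4) (nat_lit 364) (nat_lit 284) (nat_lit 132)) (XT.nd (nat_lit 34398) (nat_lit 0) (nat_lit 3268) (XT.lf (nat_lit 0) (nat_lit 12857607961) (nat_lit 76) (nat_lit 38658814849) (nat_lit 152) (nat_lit 3690676484697) (nat_lit 1) (nat_lit 5) (nat_lit 2) (nat_lit 5) (nat_lit 3) (nat_lit 4) (nat_lit 365) (nat_lit 284) (nat_lit 131)) (XT.lf (nat_lit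 0) (nat_lit 8035361207) (nat_lit 532) (nat_lit 2993283956) (nat_lit 532) (nat_lit 2993283956) (nat_lit 44) (nat_lit 3) (nat_lit 51) (nat_lit 3) (nat_lit 51) (nat_lit 5) (nat_lit 285) (nat_lit 285) (nat_lit 210)))) (XT.nd (nat_lit 156) (nat_lit 0) (nat_lit 76) (XT.nd (nat_lit 78) (nat_lit 0) (nat_lit 76) (XT.lf (nat_lit 76) (nat_lit 7092275799) (nat_lit 0) (nat_lit 9867984084) (nat_lit 532) (nat_lit 12185367166) (nat_lit 45) (nat_lit 5) (nat_lit 44) (nat_lit 3) (nat_lit 51) (nat_lit 5) (nat_lit 286) (nat_lit 285) (nat_lit 209)) (XT.lf (nat_lit 0) (nat_lit 18160534572) (nat_lit 456) (nat_lit 8853153009) (nat_lit 532) (nat_lit 3302708742) (nat_lit 45) (nat_lit 5) (nat_lit 51) (nat_lit 5) (nat_lit 52) (nat_lit 5) (nat_lit 287) (nat_lit 285) (nat_lit 208))) (XT.nd (nat_lit 78) (nat_lit 0) (nat_lit 0) (XT.lf (nat_lit 76) (nat_lit 5412829700) (nat_lit 0) (nat_lit 14423416706) (nat_lit 532)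 (nat_lit 11714250569) (nat_lit 46) (nat_lit 5) (nat_lit 45) (nat_lit 5) (nat_lit 52) (nat_lit 5) (nat_lit 288) (nat_lit 285) (nat_lit 207)) (XT.lf (nat_lit 76) (nat_lit 21319004680) (nat_lit 0) (nat_lit 562410687) (nat_lit 532) (nat_lit 10983099642) (nat_lit 46) (nat_lit 5) (nat_lit 45) (nat_lit 5) (nat_lit 52) (nat_lit 5) (nat_lit 289) (nat_lit 285) (nat_lit 206))))) (XT.nd (nat_lit 312) (nat_lit 532) (nat_lit 0) (XT.nd (nat_lit 156) (nat_lit 380) (nat_lit 0) (XT.nd (nat_lit 78) (nat_lit 0) (nat_lit 0) (XT.lf (nat_lit 76) (nat_lit 4066129392) (nat_lit 0) (nat_lit 20462238268) (nat_lit 532) (nat_lit 9720253003) (nat_lit 47) (nat_lit 5) (nat_lit 46) (nat_lit 5) (nat_lit 53) (nat_lit 5) (nat_lit 290) (nat_lit 285) (nat_lit 205)) (XT.lf (nat_lit 76) (nat_lit 21563253854) (nat_lit 0) (nat_lit 6147955425) (nat_lit 532) (nat_lit 8006333138) (nat_lit 47) (nat_lit 5) (nat_lit 46) (nat_lit 5)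 (nat_lit 53) (nat_lit 5) (nat_lit 291) (nat_lit 285) (nat_lit 204))) (XT.nd (nat_lit 78) (nat_lit 0) (nat_lit 0) (XT.lf (nat_lit 0) (nat_lit 3081586565) (nat_lit 456) (nat_lit 28359817949) (nat_lit 532) (nat_lit 5839172237) (nat_lit 41) (nat_lit 5) (nat_lit 47) (nat_lit 5) (nat_lit 48) (nat_lit 5) (nat_lit 292) (nat_lit 285) (nat_lit 203)) (XT.lf (nat_lit 0) (nat_lit 22328527905) (nat_lit 456) (nat_lit 13679090380) (nat_lit 532) (nat_lit 2918043001) (nat_lit 41) (nat_lit 5) (nat_lit 47) (nat_lit 5) (nat_lit 48) (nat_lit 5) (nat_lit 293) (nat_lit 285) (nat_lit 202)))) (XT.nd (nat_lit 156) (nat_lit 228) (nat_lit 0) (XT.nd (nat_lit 78) (nat_lit 0) (nat_lit 0) (XT.lf (nat_lit 0) (nat_lit 335018635) (nat_lit 304) (nat_lit 38222398775) (nat_lit 76) (nat_lit 2135686141) (nat_lit 37) (nat_lit 5) (nat_lit 41) (nat_lit 5) (nat_lit 38) (nat_lit 5) (nat_lit 294) (nat_lit 285) (nat_lit 201)) (XT.lf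 (nat_lit 0) (nat_lit 4507001985) (nat_lit 304) (nat_lit 19005512852) (nat_lit 76) (nat_lit 19018069195) (nat_lit 37) (nat_lit 5) (nat_lit 41) (nat_lit 5) (nat_lit 38) (nat_lit 5) (nat_lit 295) (nat_lit 285) (nat_lit 200))) (XT.nd (nat_lit 78) (nat_lit 0) (nat_lit 0) (XT.lf (nat_lit 0) (nat_lit 1836073957) (nat_lit 228) (nat_lit 7216609081) (nat_lit 304) (nat_lit 35459196321) (nat_lit 34) (nat_lit 5) (nat_lit 37) (nat_lit 5) (nat_lit 38) (nat_lit 5) (nat_lit 296) (nat_lit 285) (nat_lit 199)) (XT.lf (nat_lit 0) (nat_lit 14740850401) (nat_lit 304) (nat_lit 21452173224) (nat_lit 76) (nat_lit 10396358819) (nat_lit 34) (nat_lit 5) (nat_lit 38) (nat_lit 5) (nat_lit 35) (nat_lit 5) (nat_lit 297) (nat_lit 285) (nat_lit 198)))))) (XT.nd (nat_lit 624) (nat_lit 532) (nat_lit 0) (XT.nd (nat_lit 312) (nat_lit 380) (nat_lit 0) (XT.nd (nat_lit 156) (nat_lit 152) (nat_lit 0) (XT.nd (nat_lit 78) (nat_lit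 0) (nat_lit 0) (XT.lf (nat_lit 0) (nat_lit 1344820527) (nat_lit 228) (nat_lit 19755315307) (nat_lit 304) (nat_lit 27715674654) (nat_lit 31) (nat_lit 5) (nat_lit 34) (nat_lit 5) (nat_lit 35) (nat_lit 5) (nat_lit 298) (nat_lit 285) (nat_lit 197)) (XT.lf (nat_lit 0) (nat_lit 27181330229) (nat_lit 228) (nat_lit 1369825225) (nat_lit 304) (nat_lit 22622567167) (nat_lit 31) (nat_lit 5) (nat_lit 34) (nat_lit 5) (nat_lit 35) (nat_lit 5) (nat_lit 299) (nat_lit 285) (nat_lit 196))) (XT.nd (nat_lit 78) (nat_lit 0) (nat_lit 0) (XT.lf (nat_lit 0) (nat_lit 963922603) (nat_lit 152) (nat_lit 36098815529) (nat_lit 228) (nat_lit 16620379550) (nat_lit 29) (nat_lit 5) (nat_lit 31) (nat_lit 5) (nat_lit 32) (nat_lit 5) (nat_lit 300) (nat_lit 285) (nat_lit 195)) (XT.lf (nat_lit 0) (nat_lit 29239675188) (nat_lit 152) (nat_lit 17703090524) (nat_lit 228) (nat_lit 9395505020) (nat_lit 29) (nat_lit 5) (nat_lit 31)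 (nat_lit 5) (nat_lit 32) (nat_lit 5) (nat_lit 301) (nat_lit 285) (nat_lit 194)))) (XT.nd (nat_lit 156) (nat_lit 152) (nat_lit 0) (XT.nd (nat_lit 78) (nat_lit 76) (nat_lit 0) (XT.lf (nat_lit 0) (nat_lit 542750552) (nat_lit 152) (nat_lit 57132607115) (nat_lit 228) (nat_lit 1525512652) (nat_lit 27) (nat_lit 5) (nat_lit 29) (nat_lit 5) (nat_lit 30) (nat_lit 5) (nat_lit 302) (nat_lit 285) (nat_lit 193)) (XT.lf (nat_lit 0) (nat_lit 7842298647) (nat_lit 228) (nat_lit 30947528807) (nat_lit 76) (nat_lit 23391871210) (nat_lit 26) (nat_lit 5) (nat_lit 29) (nat_lit 5) (nat_lit 27) (nat_lit 5) (nat_lit 303) (nat_lit 285) (nat_lit 192))) (XT.nd (nat_lit 78) (nat_lit 152) (nat_lit 0) (XT.lf (nat_lit 0) (nat_lit 17874434484) (nat_lit 228) (nat_lit 1063471895) (nat_lit 76) (nat_lit 46460137415) (nat_lit 26) (nat_lit 5) (nat_lit 29) (nat_lit 5) (nat_lit 27) (nat_lit 5) (nat_lit 304) (nat_lit 285) (nat_lit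 191)) (XT.lf (nat_lit 0) (nat_lit 29577403149) (nat_lit 228) (nat_lit 36038190179) (nat_lit 76) (nat_lit 3186647589) (nat_lit 24) (nat_lit 5) (nat_lit 27) (nat_lit 5) (nat_lit 25) (nat_lit 5) (nat_lit 305) (nat_lit 285) (nat_lit 190))))) (XT.nd (nat_lit 312) (nat_lit 228) (nat_lit 0) (XT.nd (nat_lit 156) (nat_lit 152) (nat_lit 0) (XT.nd (nat_lit 78) (nat_lit 152) (nat_lit 0) (XT.lf (nat_lit 0) (nat_lit 42735929314) (nat_lit 228) (nat_lit 3614403199) (nat_lit 76) (nat_lit 26086900643) (nat_lit 24) (nat_lit 5) (nat_lit 27) (nat_lit 5) (nat_lit 25) (nat_lit 5) (nat_lit 306) (nat_lit 285) (nat_lit 189)) (XT.lf (nat_lit 0) (nat_lit 33053455941) (nat_lit 152) (nat_lit 24686390148) (nat_lit 228) (nat_lit 18559766583) (nat_lit 22) (nat_lit 5) (nat_lit 24) (nat_lit 5) (nat_lit 25) (nat_lit 5) (nat_lit 307) (nat_lit 285) (nat_lit 188))) (XT.nd (nat_lit 78) (nat_lit 152) (nat_lit 0) (XT.lf (nat_lit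 0) (nat_lit 72857083104) (nat_lit 152) (nat_lit 1183677107) (nat_lit 228) (nat_lit 6422491858) (nat_lit 22) (nat_lit 5) (nat_lit 24) (nat_lit 5) (nat_lit 25) (nat_lit 5) (nat_lit 308) (nat_lit 285) (nat_lit 187)) (XT.lf (nat_lit 0) (nat_lit 7733374349) (nat_lit 152) (nat_lit 53152552944) (nat_lit 76) (nat_lit 23950630852) (nat_lit 20) (nat_lit 5) (nat_lit 22) (nat_lit 5) (nat_lit 21) (nat_lit 5) (nat_lit 309) (nat_lit 285) (nat_lit 186)))) (XT.nd (nat_lit 156) (nat_lit 76) (nat_lit 0) (XT.nd (nat_lit 78) (nat_lit 152) (nat_lit 0) (XT.lf (nat_lit 0) (nat_lit 22916857554) (nat_lit 152) (nat_lit 15199237439) (nat_lit 76) (nat_lit 51410921317) (nat_lit 20) (nat_lit 5) (nat_lit 22) (nat_lit 5) (nat_lit 21) (nat_lit 5) (nat_lit 310) (nat_lit 285) (nat_lit 185)) (XT.lf (nat_lit 0) (nat_lit 27145352337) (nat_lit 152) (nat_lit 12820676752) (nat_lit 228) (nat_lit 54574604381) (nat_lit 18) (nat_lit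 5) (nat_lit 20) (nat_lit 5) (nat_lit 21) (nat_lit 5) (nat_lit 311) (nat_lit 285) (nat_lit 184))) (XT.nd (nat_lit 78) (nat_lit 76) (nat_lit 0) (XT.lf (nat_lit 0) (nat_lit 59152394230) (nat_lit 228) (nat_lit 26542627494) (nat_lit 76) (nat_lit 14198460374) (nat_lit 18) (nat_lit 5) (nat_lit 21) (nat_lit 5) (nat_lit 19) (nat_lit 4) (nat_lit 312) (nat_lit 285) (nat_lit 183)) (XT.lf (nat_lit 0) (nat_lit 18150455726) (nat_lit 76) (nat_lit 62491074673) (nat_lit 152) (nat_lit 24971601945) (nat_lit 17) (nat_lit 5) (nat_lit 18) (nat_lit 5) (nat_lit 19) (nat_lit 4) (nat_lit 313) (nat_lit 285) (nat_lit 182))))))))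
noncomputable def xc89 : XT := (XT.nd (nat_lit 2340) (nat_lit 152) (nat_lit 0) (XT.nd (nat_lit 1170) (nat_lit 304) (nat_lit 0) (XT.nd (nat_lit 546) (nat_lit 380) (nat_lit 0) (XT.nd (nat_lit 234) (nat_lit 76) (nat_lit 0) (XT.nd (nat_lit 78) (nat_lit 228) (nat_lit 0) (XT.lf (nat_lit 0) (nat_lit 67925820228) (nat_lit 76) (nat_lit 36648096955) (nat_lit 152) (nat_lit 7158510321) (nat_lit 17) (nat_lit 5) (nat_lit 18) (nat_lit 5) (nat_lit 19) (nat_lit 4) (nat_lit 314) (nat_lit 285) (nat_lit 181)) (XT.nd (nat_lit 78) (nat_lit 0) (nat_lit 0) (XT.lf (nat_lit 0) (nat_lit 3209427942) (nat_lit 152) (nat_lit 8341590811) (nat_lit 228) (nat_lit 106760955452) (nat_lit 14) (nat_lit 5) (nat_lit 16) (nat_lit 5) (nat_lit 17) (nat_lit 5) (nat_lit 315) (nat_lit 285) (nat_lit 180)) (XT.lf (nat_lit 0) (nat_lit 33132547700) (nat_lit 228) (nat_lit 69598245776) (nat_lit 76) (nat_lit 22531259660) (nat_lit 14) (nat_lit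 5) (nat_lit 17) (nat_lit 5) (nat_lit 15) (nat_lit 4) (nat_lit 316) (nat_lit 285) (nat_lit 179)))) (XT.nd (nat_lit 156) (nat_lit 0) (nat_lit 0) (XT.nd (nat_lit 78) (nat_lit 76) (nat_lit 0) (XT.lf (nat_lit 0) (nat_lit 56655878381) (nat_lit 228) (nat_lit 20672658085) (nat_lit 76) (nat_lit 55422381379) (nat_lit 14) (nat_lit 5) (nat_lit 17) (nat_lit 5) (nat_lit 15) (nat_lit 4) (nat_lit 317) (nat_lit 285) (nat_lit 178)) (XT.lf (nat_lit 0) (nat_lit 33858501025) (nat_lit 76) (nat_lit 49015589592) (nat_lit 152) (nat_lit 57899761592) (nat_lit 13) (nat_lit 5) (nat_lit 14) (nat_lit 5) (nat_lit 15) (nat_lit 4) (nat_lit 318) (nat_lit 285) (nat_lit 177))) (XT.nd (nat_lit 78) (nat_lit 0) (nat_lit 0) (XT.lf (nat_lit 0) (nat_lit 93925666378) (nat_lit 76) (nat_lit 17828080988) (nat_lit 152) (nat_lit 37639756511) (nat_lit 13) (nat_lit 5) (nat_lit 14) (nat_lit 5) (nat_lit 15) (nat_lit 4) (nat_lit 319) (nat_lit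 285) (nat_lit 176)) (XT.lf (nat_lit 0) (nat_lit 143323907814) (nat_lit 152) (nat_lit 287893847) (nat_lit 0) (nat_lit 15060516969) (nat_lit 13) (nat_lit 5) (nat_lit 15) (nat_lit 4) (nat_lit 13) (nat_lit 4) (nat_lit 320) (nat_lit 285) (nat_lit 175))))) (XT.nd (nat_lit 312) (nat_lit 152) (nat_lit 0) (XT.nd (nat_lit 156) (nat_lit 76) (nat_lit 0) (XT.nd (nat_lit 78) (nat_lit 0) (nat_lit 0) (XT.lf (nat_lit 0) (nat_lit 10292053849) (nat_lit 152) (nat_lit 106857919838) (nat_lit 76) (nat_lit 51366490141) (nat_lit 11) (nat_lit 5) (nat_lit 13) (nat_lit 5) (nat_lit 12) (nat_lit 4) (nat_lit 321) (nat_lit 285) (nat_lit 174)) (XT.lf (nat_lit 0) (nat_lit 37161543939) (nat_lit 152) (nat_lit 50971233229) (nat_lit 76) (nat_lit 90982911731) (nat_lit 11) (nat_lit 5) (nat_lit 13) (nat_lit 5) (nat_lit 12) (nat_lit 4) (nat_lit 322) (nat_lit 285) (nat_lit 173))) (XT.nd (nat_lit 78) (nat_lit 0) (nat_lit 0) (XT.lf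 (nat_lit 0) (nat_lit 9878780212) (nat_lit 76) (nat_lit 56538402658) (nat_lit 152) (nat_lit 124126742995) (nat_lit 10) (nat_lit 5) (nat_lit 11) (nat_lit 5) (nat_lit 12) (nat_lit 4) (nat_lit 323) (nat_lit 285) (nat_lit 172)) (XT.lf (nat_lit 0) (nat_lit 78493834419) (nat_lit 76) (nat_lit 20912118964) (nat_lit 152) (nat_lit 103369054952) (nat_lit 10) (nat_lit 5) (nat_lit 11) (nat_lit 5) (nat_lit 12) (nat_lit 4) (nat_lit 324) (nat_lit 285) (nat_lit 171)))) (XT.nd (nat_lit 156) (nat_lit 76) (nat_lit 0) (XT.nd (nat_lit 78) (nat_lit 76) (nat_lit 0) (XT.lf (nat_lit 0) (nat_lit 135455337290) (nat_lit 152) (nat_lit 63810571139) (nat_lit 0) (nat_lit 16684948943) (nat_lit 10) (nat_lit 5) (nat_lit 12) (nat_lit 4) (nat_lit 10) (nat_lit 4) (nat_lit 325) (nat_lit 285) (nat_lit 170)) (XT.lf (nat_lit 0) (nat_lit 1003147159) (nat_lit 76) (nat_lit 173951980438) (nat_lit 76) (nat_lit 55180331121) (nat_lit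 9) (nat_lit 4) (nat_lit 10) (nat_lit 5) (nat_lit 10) (nat_lit 4) (nat_lit 326) (nat_lit 285) (nat_lit 169))) (XT.nd (nat_lit 78) (nat_lit 76) (nat_lit 0) (XT.lf (nat_lit 0) (nat_lit 74629423425) (nat_lit 76) (nat_lit 144729356070) (nat_lit 76) (nat_lit 25956539188) (nat_lit 9) (nat_lit 4) (nat_lit 10) (nat_lit 5) (nat_lit 10) (nat_lit 4) (nat_lit 327) (nat_lit 285) (nat_lit 168)) (XT.lf (nat_lit 0) (nat_lit 5323987878) (nat_lit 152) (nat_lit 107700003172) (nat_lit 76) (nat_lit 148674854781) (nat_lit 8) (nat_lit 5) (nat_lit 10) (nat_lit 5) (nat_lit 9) (nat_lit 4) (nat_lit 328) (nat_lit 285) (nat_lit 167)))))) (XT.nd (nat_lit 546) (nat_lit 152) (nat_lit 0) (XT.nd (nat_lit 234) (nat_lit 76) (nat_lit 0) (XT.nd (nat_lit 78) (nat_lit 76) (nat_lit 0) (XT.lf (nat_lit 0) (nat_lit 37703911640) (nat_lit 152) (nat_lit 40350762746) (nat_lit 76) (nat_lit 201284503171) (nat_lit 8) (nat_lit 5) (nat_lit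 10) (nat_lit 5) (nat_lit 9) (nat_lit 4) (nat_lit 329) (nat_lit 285) (nat_lit 166)) (XT.nd (nat_lit 78) (nat_lit 0) (nat_lit 0) (XT.lf (nat_lit 0) (nat_lit 34090534631) (nat_lit 76) (nat_lit 39402907888) (nat_lit 152) (nat_lit 224831756819) (nat_lit 7) (nat_lit 5) (nat_lit 8) (nat_lit 5) (nat_lit 9) (nat_lit 4) (nat_lit 330) (nat_lit 285) (nat_lit 165)) (XT.lf (nat_lit 0) (nat_lit 113333696656) (nat_lit 152) (nat_lit 202046116333) (nat_lit 0) (nat_lit 3355285540) (nat_lit 7) (nat_lit 5) (nat_lit 9) (nat_lit 4) (nat_lit 7) (nat_lit 4) (nat_lit 331) (nat_lit 285) (nat_lit 164)))) (XT.nd (nat_lit 156) (nat_lit 76) (nat_lit 0) (XT.nd (nat_lit 78) (nat_lit 0) (nat_lit 0) (XT.lf (nat_lit 0) (nat_lit 157384014185) (nat_lit 152) (nat_lit 135907081211) (nat_lit 0) (nat_lit 47404867305) (nat_lit 7) (nat_lit 5) (nat_lit 9) (nat_lit 4) (nat_lit 7) (nat_lit 4) (nat_lit 332) (nat_lit 285) (nat_lit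 163)) (XT.lf (nat_lit 0) (nat_lit 204957793143) (nat_lit 152) (nat_lit 64477983436) (nat_lit 0) (nat_lit 94977965001) (nat_lit 7) (nat_lit 5) (nat_lit 9) (nat_lit 4) (nat_lit 7) (nat_lit 4) (nat_lit 333) (nat_lit 285) (nat_lit 162))) (XT.nd (nat_lit 78) (nat_lit 0) (nat_lit 0) (XT.lf (nat_lit 0) (nat_lit 13331348582) (nat_lit 76) (nat_lit 243326222893) (nat_lit 76) (nat_lit 133345763951) (nat_lit 6) (nat_lit 4) (nat_lit 7) (nat_lit 5) (nat_lit 7) (nat_lit 4) (nat_lit 334) (nat_lit 285) (nat_lit 161)) (XT.lf (nat_lit 0) (nat_lit 101031390438) (nat_lit 76) (nat_lit 213224377441) (nat_lit 76) (nat_lit 103243334427) (nat_lit 6) (nat_lit 4) (nat_lit 7) (nat_lit 5) (nat_lit 7) (nat_lit 4) (nat_lit 335) (nat_lit 285) (nat_lit 160))))) (XT.nd (nat_lit 312) (nat_lit 76) (nat_lit 0) (XT.nd (nat_lit 156) (nat_lit 76) (nat_lit 0) (XT.nd (nat_lit 78) (nat_lit 0) (nat_lit 0) (XT.lf (nat_lit 0) (nat_lit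 195746549739) (nat_lit 76) (nat_lit 180714801251) (nat_lit 76) (nat_lit 70733217428) (nat_lit 6) (nat_lit 4) (nat_lit 7) (nat_lit 5) (nat_lit 7) (nat_lit 4) (nat_lit 336) (nat_lit 285) (nat_lit 159)) (XT.lf (nat_lit 0) (nat_lit 298038101504) (nat_lit 76) (nat_lit 145604844981) (nat_lit 76) (nat_lit 35622760410) (nat_lit 6) (nat_lit 4) (nat_lit 7) (nat_lit 5) (nat_lit 7) (nat_lit 4) (nat_lit 337) (nat_lit 285) (nat_lit 158))) (XT.nd (nat_lit 78) (nat_lit 0) (nat_lit 0) (XT.lf (nat_lit 0) (nat_lit 2181238443) (nat_lit 152) (nat_lit 105445572264) (nat_lit 76) (nat_lit 406271340522) (nat_lit 5) (nat_lit 5) (nat_lit 7) (nat_lit 5) (nat_lit 6) (nat_lit 4) (nat_lit 338) (nat_lit 285) (nat_lit 157)) (XT.lf (nat_lit 0) (nat_lit 41084620622) (nat_lit 152) (nat_lit 24526966642) (nat_lit 76) (nat_lit 485615613370) (nat_lit 5) (nat_lit 5) (nat_lit 7) (nat_lit 5) (nat_lit 6) (nat_lit 4) (nat_lit 339)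 (nat_lit 285) (nat_lit 156)))) (XT.nd (nat_lit 156) (nat_lit 0) (nat_lit 0) (XT.nd (nat_lit 78) (nat_lit 0) (nat_lit 0) (XT.lf (nat_lit 0) (nat_lit 66174788299) (nat_lit 76) (nat_lit 18516636387) (nat_lit 152) (nat_lit 506723857449) (nat_lit 4) (nat_lit 5) (nat_lit 5) (nat_lit 5) (nat_lit 6) (nat_lit 4) (nat_lit 340) (nat_lit 285) (nat_lit 155)) (XT.lf (nat_lit 0) (nat_lit 133252371320) (nat_lit 152) (nat_lit 470033219061) (nat_lit 0) (nat_lit 31415572141) (nat_lit 4) (nat_lit 5) (nat_lit 6) (nat_lit 4) (nat_lit 4) (nat_lit 4) (nat_lit 341) (nat_lit 285) (nat_lit 154))) (XT.nd (nat_lit 78) (nat_lit 0) (nat_lit 0) (XT.lf (nat_lit 0) (nat_lit 186178820394) (nat_lit 152) (nat_lit 410890937363) (nat_lit 0) (nat_lit 84341705658) (nat_lit 4) (nat_lit 5) (nat_lit 6) (nat_lit 4) (nat_lit 4) (nat_lit 4) (nat_lit 342) (nat_lit 285) (nat_lit 153)) (XT.lf (nat_lit 0) (nat_lit 243339084575) (nat_lit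 152) (nat_lit 347017850409) (nat_lit 0) (nat_lit 141501677657) (nat_lit 4) (nat_lit 5) (nat_lit 6) (nat_lit 4) (nat_lit 4) (nat_lit 4) (nat_lit 343) (nat_lit 285) (nat_lit 152))))))) (XT.nd (nat_lit 1170) (nat_lit 76) (nat_lit 0) (XT.nd (nat_lit 546) (nat_lit 0) (nat_lit 0) (XT.nd (nat_lit 234) (nat_lit 76) (nat_lit 0) (XT.nd (nat_lit 78) (nat_lit 0) (nat_lit 0) (XT.lf (nat_lit 0) (nat_lit 305071891353) (nat_lit 152) (nat_lit 278035451018) (nat_lit 0) (nat_lit 203234213896) (nat_lit 4) (nat_lit 5) (nat_lit 6) (nat_lit 4) (nat_lit 4) (nat_lit 4) (nat_lit 344) (nat_lit 285) (nat_lit 151)) (XT.nd (nat_lit 78) (nat_lit 0) (nat_lit 0) (XT.lf (nat_lit 0) (nat_lit 371743064769) (nat_lit 152) (nat_lit 203534954601) (nat_lit 0) (nat_lit 269905136813) (nat_lit 4) (nat_lit 5) (nat_lit 6) (nat_lit 4) (nat_lit 4) (nat_lit 4) (nat_lit 345) (nat_lit 285) (nat_lit 150)) (XT.lf (nat_lit 0) (nat_lit 443747693258)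 (nat_lit 152) (nat_lit 123074876735) (nat_lit 0) (nat_lit 341909533359) (nat_lit 4) (nat_lit 5) (nat_lit 6) (nat_lit 4) (nat_lit 4) (nat_lit 4) (nat_lit 346) (nat_lit 285) (nat_lit 149)))) (XT.nd (nat_lit 156) (nat_lit 0) (nat_lit 0) (XT.nd (nat_lit 78) (nat_lit 76) (nat_lit 0) (XT.lf (nat_lit 0) (nat_lit 521512470915) (nat_lit 152) (nat_lit 36178416958) (nat_lit 0) (nat_lit 419674096254) (nat_lit 4) (nat_lit 5) (nat_lit 6) (nat_lit 4) (nat_lit 4) (nat_lit 4) (nat_lit 347) (nat_lit 285) (nat_lit 148)) (XT.lf (nat_lit 0) (nat_lit 60706133365) (nat_lit 76) (nat_lit 546252076655) (nat_lit 76) (nat_lit 444413503138) (nat_lit 3) (nat_lit 4) (nat_lit 4) (nat_lit 5) (nat_lit 4) (nat_lit 4) (nat_lit 348) (nat_lit 285) (nat_lit 147))) (XT.nd (nat_lit 78) (nat_lit 0) (nat_lit 0) (XT.lf (nat_lit 0) (nat_lit 167398563402) (nat_lit 76) (nat_lit 532830028106) (nat_lit 76) (nat_lit 430991270465) (nat_lit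 3) (nat_lit 4) (nat_lit 4) (nat_lit 5) (nat_lit 4) (nat_lit 4) (nat_lit 349) (nat_lit 285) (nat_lit 146)) (XT.lf (nat_lit 0) (nat_lit 282626033268) (nat_lit 76) (nat_lit 518334386195) (nat_lit 76) (nat_lit 416495458069) (nat_lit 3) (nat_lit 4) (nat_lit 4) (nat_lit 5) (nat_lit 4) (nat_lit 4) (nat_lit 350) (nat_lit 285) (nat_lit 145))))) (XT.nd (nat_lit 312) (nat_lit 0) (nat_lit 0) (XT.nd (nat_lit 156) (nat_lit 0) (nat_lit 0) (XT.nd (nat_lit 78) (nat_lit 0) (nat_lit 0) (XT.lf (nat_lit 0) (nat_lit 407071372413) (nat_lit 76) (nat_lit 502679250822) (nat_lit 76) (nat_lit 400840164840) (nat_lit 3) (nat_lit 4) (nat_lit 4) (nat_lit 5) (nat_lit 4) (nat_lit 4) (nat_lit 351) (nat_lit 285) (nat_lit 144)) (XT.lf (nat_lit 0) (nat_lit 541472034698) (nat_lit 76) (nat_lit 485771850815) (nat_lit 76) (nat_lit 383932618669) (nat_lit 3) (nat_lit 4) (nat_lit 4) (nat_lit 5) (nat_lit 4) (nat_lit 4) (nat_lit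 352) (nat_lit 285) (nat_lit 143))) (XT.nd (nat_lit 78) (nat_lit 0) (nat_lit 0) (XT.lf (nat_lit 0) (nat_lit 686624468493) (nat_lit 76) (nat_lit 467511994174) (nat_lit 76) (nat_lit 365672626691) (nat_lit 3) (nat_lit 4) (nat_lit 4) (nat_lit 5) (nat_lit 4) (nat_lit 4) (nat_lit 353) (nat_lit 285) (nat_lit 142)) (XT.lf (nat_lit 0) (nat_lit 843388836368) (nat_lit 76) (nat_lit 447791474340) (nat_lit 76) (nat_lit 345951981545) (nat_lit 3) (nat_lit 4) (nat_lit 4) (nat_lit 5) (nat_lit 4) (nat_lit 4) (nat_lit 354) (nat_lit 285) (nat_lit 141)))) (XT.nd (nat_lit 156) (nat_lit 0) (nat_lit 0) (XT.nd (nat_lit 78) (nat_lit 0) (nat_lit 0) (XT.lf (nat_lit 0) (nat_lit 1012694112355) (nat_lit 76) (nat_lit 426493428974) (nat_lit 76) (nat_lit 324653820150) (nat_lit 3) (nat_lit 4) (nat_lit 4) (nat_lit 5) (nat_lit 4) (nat_lit 4) (nat_lit 355) (nat_lit 285) (nat_lit 140)) (XT.lf (nat_lit 0) (nat_lit 1195543586979)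 (nat_lit 76) (nat_lit 403491647436) (nat_lit 76) (nat_lit 301651931177) (nat_lit 3) (nat_lit 4) (nat_lit 4) (nat_lit 5) (nat_lit 4) (nat_lit 4) (nat_lit 356) (nat_lit 285) (nat_lit 139))) (XT.nd (nat_lit 78) (nat_lit 0) (nat_lit 0) (XT.lf (nat_lit 0) (nat_lit 1393020812682) (nat_lit 76) (nat_lit 378649822874) (nat_lit 76) (nat_lit 276810007138) (nat_lit 3) (nat_lit 4) (nat_lit 4) (nat_lit 5) (nat_lit 4) (nat_lit 4) (nat_lit 357) (nat_lit 285) (nat_lit 138)) (XT.lf (nat_lit 0) (nat_lit 1606296024875) (nat_lit 76) (nat_lit 351820744474) (nat_lit 76) (nat_lit 249980836631) (nat_lit 3) (nat_lit 4) (nat_lit 4) (nat_lit 5) (nat_lit 4) (nat_lit 4) (nat_lit 358) (nat_lit 285) (nat_lit 137)))))) (XT.nd (nat_lit 35022) (nat_lit 0) (nat_lit 2964) (XT.nd (nat_lit 312) (nat_lit 76) (nat_lit 0) (XT.nd (nat_lit 156) (nat_lit 0) (nat_lit 0) (XT.nd (nat_lit 78) (nat_lit 0) (nat_lit 0) (XT.lf (nat_lit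 0) (nat_lit 1836633076667) (nat_lit 76) (nat_lit 322845425106) (nat_lit 76) (nat_lit 221005431978) (nat_lit 3) (nat_lit 4) (nat_lit 4) (nat_lit 5) (nat_lit 4) (nat_lit 4) (nat_lit 359) (nat_lit 285) (nat_lit 136)) (XT.lf (nat_lit 0) (nat_lit 2085396928366) (nat_lit 76) (nat_lit 291552159174) (nat_lit 76) (nat_lit 189712087077) (nat_lit 3) (nat_lit 4) (nat_lit 4) (nat_lit 5) (nat_lit 4) (nat_lit 4) (nat_lit 360) (nat_lit 285) (nat_lit 135))) (XT.nd (nat_lit 78) (nat_lit 0) (nat_lit 0) (XT.lf (nat_lit 0) (nat_lit 2354061736130) (nat_lit 76) (nat_lit 257755505101) (nat_lit 76) (nat_lit 155915359886) (nat_lit 3) (nat_lit 4) (nat_lit 4) (nat_lit 5) (nat_lit 4) (nat_lit 4) (nat_lit 361) (nat_lit 285) (nat_lit 134)) (XT.lf (nat_lit 0) (nat_lit 2644219587709) (nat_lit 76) (nat_lit 221255186418) (nat_lit 76) (nat_lit 119414973502) (nat_lit 3) (nat_lit 4) (nat_lit 4) (nat_lit 5) (nat_lit 4) (nat_lit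 4) (nat_lit 362) (nat_lit 285) (nat_lit 133)))) (XT.nd (nat_lit 156) (nat_lit 76) (nat_lit 0) (XT.nd (nat_lit 78) (nat_lit 0) (nat_lit 0) (XT.lf (nat_lit 0) (nat_lit 2957589937037) (nat_lit 76) (nat_lit 181834904942) (nat_lit 76) (nat_lit 79994629338) (nat_lit 3) (nat_lit 4) (nat_lit 4) (nat_lit 5) (nat_lit 4) (nat_lit 4) (nat_lit 363) (nat_lit 285) (nat_lit 132)) (XT.lf (nat_lit 0) (nat_lit 3296029793592) (nat_lit 76) (nat_lit 139261059004) (nat_lit 76) (nat_lit 37420725356) (nat_lit 3) (nat_lit 4) (nat_lit 4) (nat_lit 5) (nat_lit 4) (nat_lit 4) (nat_lit 364) (nat_lit 285) (nat_lit 131))) (XT.nd (nat_lit 34476) (nat_lit 0) (nat_lit 3192) (XT.lf (nat_lit 0) (nat_lit 8130870987) (nat_lit 152) (nat_lit 84928175737) (nat_lit 76) (nat_lit 3653191543485) (nat_lit 2) (nat_lit 5) (nat_lit 4) (nat_lit 5) (nat_lit 3) (nat_lit 4) (nat_lit 365) (nat_lit 285) (nat_lit 130)) (XT.lf (nat_lit 0) (nat_lit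 8752498124) (nat_lit 532) (nat_lit 3192498917) (nat_lit 532) (nat_lit 3192498917) (nat_lit 44) (nat_lit 3) (nat_lit 51) (nat_lit 3) (nat_lit 51) (nat_lit 5) (nat_lit 286) (nat_lit 286) (nat_lit 208))))) (XT.nd (nat_lit 312) (nat_lit 228) (nat_lit 0) (XT.nd (nat_lit 156) (nat_lit 0) (nat_lit 76) (XT.nd (nat_lit 78) (nat_lit 0) (nat_lit 76) (XT.lf (nat_lit 76) (nat_lit 7738115512) (nat_lit 0) (nat_lit 10718459515) (nat_lit 532) (nat_lit 13009092918) (nat_lit 45) (nat_lit 5) (nat_lit 44) (nat_lit 3) (nat_lit 51) (nat_lit 5) (nat_lit 287) (nat_lit 286) (nat_lit 207)) (XT.lf (nat_lit 0) (nat_lit 19741179578) (nat_lit 456) (nat_lit 9476650757) (nat_lit 532) (nat_lit 3513237107) (nat_lit 45) (nat_lit 5) (nat_lit 51) (nat_lit 5) (nat_lit 52) (nat_lit 5) (nat_lit 288) (nat_lit 286) (nat_lit 206))) (XT.nd (nat_lit 78) (nat_lit 0) (nat_lit 0) (XT.lf (nat_lit 76) (nat_lit 5928464885) (nat_lit 0)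 (nat_lit 15615003384) (nat_lit 532) (nat_lit 12521057129) (nat_lit 46) (nat_lit 5) (nat_lit 45) (nat_lit 5) (nat_lit 52) (nat_lit 5) (nat_lit 289) (nat_lit 286) (nat_lit 205)) (XT.lf (nat_lit 76) (nat_lit 23101014692) (nat_lit 0) (nat_lit 642323303) (nat_lit 532) (nat_lit 11741068459) (nat_lit 46) (nat_lit 5) (nat_lit 45) (nat_lit 5) (nat_lit 52) (nat_lit 5) (nat_lit 290) (nat_lit 286) (nat_lit 204)))) (XT.nd (nat_lit 156) (nat_lit 380) (nat_lit 0) (XT.nd (nat_lit 78) (nat_lit 0) (nat_lit 0) (XT.lf (nat_lit 76) (nat_lit 4475826571) (nat_lit 0) (nat_lit 22119219726) (nat_lit 532) (nat_lit 10384780723) (nat_lit 47) (nat_lit 5) (nat_lit 46) (nat_lit 5) (nat_lit 53) (nat_lit 5) (nat_lit 291) (nat_lit 286) (nat_lit 203)) (XT.lf (nat_lit 76) (nat_lit 23366468632) (nat_lit 0) (nat_lit 6658312597) (nat_lit 532) (nat_lit 8542124492) (nat_lit 47) (nat_lit 5) (nat_lit 46) (nat_lit 5) (nat_lit 53)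 (nat_lit 5) (nat_lit 292) (nat_lit 286) (nat_lit 202))) (XT.nd (nat_lit 78) (nat_lit 0) (nat_lit 0) (XT.lf (nat_lit 0) (nat_lit 3412560056) (nat_lit 456) (nat_lit 30635289413) (nat_lit 532) (nat_lit 6207599415) (nat_lit 41) (nat_lit 5) (nat_lit 47) (nat_lit 5) (nat_lit 48) (nat_lit 5) (nat_lit 293) (nat_lit 286) (nat_lit 201)) (XT.lf (nat_lit 0) (nat_lit 24193001403) (nat_lit 456) (nat_lit 14779608378) (nat_lit 532) (nat_lit 3060091440) (nat_lit 41) (nat_lit 5) (nat_lit 47) (nat_lit 5) (nat_lit 48) (nat_lit 5) (nat_lit 294) (nat_lit 286) (nat_lit 200))))))))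
noncomputable def xc90 : XT := (XT.nd (nat_lit 2340) (nat_lit 532) (nat_lit 0) (XT.nd (nat_lit 1170) (nat_lit 912) (nat_lit 0) (XT.nd (nat_lit 546) (nat_lit 532) (nat_lit 0) (XT.nd (nat_lit 234) (nat_lit 380) (nat_lit 0) (XT.nd (nat_lit 78) (nat_lit 228) (nat_lit 0) (XT.lf (nat_lit 0) (nat_lit 444123146) (nat_lit 304) (nat_lit 41192439490) (nat_lit 76) (nat_lit 2305179985) (nat_lit 37) (nat_lit 5) (nat_lit 41) (nat_lit 5) (nat_lit 38) (nat_lit 5) (nat_lit 295) (nat_lit 286) (nat_lit 199)) (XT.nd (nat_lit 78) (nat_lit 228) (nat_lit 0) (XT.lf (nat_lit 0) (nat_lit 4943768644) (nat_lit 304) (nat_lit 20444702781) (nat_lit 76) (nat_lit 20538254502) (nat_lit 37) (nat_lit 5) (nat_lit 41) (nat_lit 5) (nat_lit 38) (nat_lit 5) (nat_lit 296) (nat_lit 286) (nat_lit 198)) (XT.lf (nat_lit 0) (nat_lit 2062153983) (nat_lit 228) (nat_lit 7787209893) (nat_lit 304) (nat_lit 38217475659) (nat_lit 34) (nat_lit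 5) (nat_lit 37) (nat_lit 5) (nat_lit 38) (nat_lit 5) (nat_lit 297) (nat_lit 286) (nat_lit 197)))) (XT.nd (nat_lit 156) (nat_lit 152) (nat_lit 0) (XT.nd (nat_lit 78) (nat_lit 228) (nat_lit 0) (XT.lf (nat_lit 0) (nat_lit 15987366583) (nat_lit 304) (nat_lit 23089622568) (nat_lit 76) (nat_lit 11233985447) (nat_lit 34) (nat_lit 5) (nat_lit 38) (nat_lit 5) (nat_lit 35) (nat_lit 5) (nat_lit 298) (nat_lit 286) (nat_lit 196)) (XT.lf (nat_lit 0) (nat_lit 1529137658) (nat_lit 228) (nat_lit 21323121242) (nat_lit 304) (nat_lit 29863522091) (nat_lit 31) (nat_lit 5) (nat_lit 34) (nat_lit 5) (nat_lit 35) (nat_lit 5) (nat_lit 299) (nat_lit 286) (nat_lit 195))) (XT.nd (nat_lit 78) (nat_lit 152) (nat_lit 0) (XT.lf (nat_lit 0) (nat_lit 29426884322) (nat_lit 228) (nat_lit 1467726715) (nat_lit 304) (nat_lit 24368107229) (nat_lit 31) (nat_lit 5) (nat_lit 34) (nat_lit 5) (nat_lit 35) (nat_lit 5) (nat_lit 300)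 (nat_lit 286) (nat_lit 194)) (XT.lf (nat_lit 0) (nat_lit 1114789571) (nat_lit 152) (nat_lit 38969967452) (nat_lit 228) (nat_lit 17888308316) (nat_lit 29) (nat_lit 5) (nat_lit 31) (nat_lit 5) (nat_lit 32) (nat_lit 5) (nat_lit 301) (nat_lit 286) (nat_lit 193))))) (XT.nd (nat_lit 312) (nat_lit 304) (nat_lit 0) (XT.nd (nat_lit 156) (nat_lit 76) (nat_lit 0) (XT.nd (nat_lit 78) (nat_lit 152) (nat_lit 0) (XT.lf (nat_lit 0) (nat_lit 31647139165) (nat_lit 152) (nat_lit 19103825433) (nat_lit 228) (nat_lit 10090014313) (nat_lit 29) (nat_lit 5) (nat_lit 31) (nat_lit 5) (nat_lit 32) (nat_lit 5) (nat_lit 302) (nat_lit 286) (nat_lit 192)) (XT.lf (nat_lit 0) (nat_lit 656611336) (nat_lit 152) (nat_lit 61683682658) (nat_lit 228) (nat_lit 1592451787) (nat_lit 27) (nat_lit 5) (nat_lit 29) (nat_lit 5) (nat_lit 30) (nat_lit 5) (nat_lit 303) (nat_lit 286) (nat_lit 191))) (XT.nd (nat_lit 78) (nat_lit 0) (nat_lit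 0) (XT.lf (nat_lit 0) (nat_lit 8518150555) (nat_lit 228) (nat_lit 33355451759) (nat_lit 76) (nat_lit 25278650596) (nat_lit 26) (nat_lit 5) (nat_lit 29) (nat_lit 5) (nat_lit 27) (nat_lit 5) (nat_lit 304) (nat_lit 286) (nat_lit 190)) (XT.lf (nat_lit 0) (nat_lit 19349267035) (nat_lit 228) (nat_lit 1085698394) (nat_lit 76) (nat_lit 50191235158) (nat_lit 26) (nat_lit 5) (nat_lit 29) (nat_lit 5) (nat_lit 27) (nat_lit 5) (nat_lit 305) (nat_lit 286) (nat_lit 189)))) (XT.nd (nat_lit 156) (nat_lit 152) (nat_lit 0) (XT.nd (nat_lit 78) (nat_lit 0) (nat_lit 0) (XT.lf (nat_lit 0) (nat_lit 31987060730) (nat_lit 228) (nat_lit 38856892337) (nat_lit 76) (nat_lit 3458900558) (nat_lit 24) (nat_lit 5) (nat_lit 27) (nat_lit 5) (nat_lit 25) (nat_lit 5) (nat_lit 306) (nat_lit 286) (nat_lit 188)) (XT.lf (nat_lit 0) (nat_lit 46195049334) (nat_lit 228) (nat_lit 3843969292) (nat_lit 76) (nat_lit 28189890807) (nat_lit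 24) (nat_lit 5) (nat_lit 27) (nat_lit 5) (nat_lit 25) (nat_lit 5) (nat_lit 307) (nat_lit 286) (nat_lit 187))) (XT.nd (nat_lit 78) (nat_lit 0) (nat_lit 0) (XT.lf (nat_lit 0) (nat_lit 35755810069) (nat_lit 152) (nat_lit 26641884990) (nat_lit 228) (nat_lit 20002717131) (nat_lit 22) (nat_lit 5) (nat_lit 24) (nat_lit 5) (nat_lit 25) (nat_lit 5) (nat_lit 308) (nat_lit 286) (nat_lit 186)) (XT.lf (nat_lit 0) (nat_lit 78739425356) (nat_lit 152) (nat_lit 1260393156) (nat_lit 228) (nat_lit 6897559004) (nat_lit 22) (nat_lit 5) (nat_lit 24) (nat_lit 5) (nat_lit 25) (nat_lit 5) (nat_lit 309) (nat_lit 286) (nat_lit 185)))))) (XT.nd (nat_lit 546) (nat_lit 304) (nat_lit 0) (XT.nd (nat_lit 234) (nat_lit 304) (nat_lit 0) (XT.nd (nat_lit 78) (nat_lit 152) (nat_lit 0) (XT.lf (nat_lit 0) (nat_lit 8387877659) (nat_lit 152) (nat_lit 57347956265) (nat_lit 76) (nat_lit 25884721401) (nat_lit 20) (nat_lit 5) (nat_lit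 22) (nat_lit 5) (nat_lit 21) (nat_lit 5) (nat_lit 310) (nat_lit 286) (nat_lit 184)) (XT.nd (nat_lit 78) (nat_lit 152) (nat_lit 0) (XT.lf (nat_lit 0) (nat_lit 24783385198) (nat_lit 152) (nat_lit 16362582994) (nat_lit 76) (nat_lit 55540498801) (nat_lit 20) (nat_lit 5) (nat_lit 22) (nat_lit 5) (nat_lit 21) (nat_lit 5) (nat_lit 311) (nat_lit 286) (nat_lit 183)) (XT.lf (nat_lit 0) (nat_lit 29368242485) (nat_lit 152) (nat_lit 13827023115) (nat_lit 228) (nat_lit 58906010085) (nat_lit 18) (nat_lit 5) (nat_lit 20) (nat_lit 5) (nat_lit 21) (nat_lit 5) (nat_lit 312) (nat_lit 286) (nat_lit 182)))) (XT.nd (nat_lit 156) (nat_lit 228) (nat_lit 0) (XT.nd (nat_lit 78) (nat_lit 76) (nat_lit 0) (XT.lf (nat_lit 0) (nat_lit 63914602931) (nat_lit 228) (nat_lit 28616587628) (nat_lit 76) (nat_lit 15351320467) (nat_lit 18) (nat_lit 5) (nat_lit 21) (nat_lit 5) (nat_lit 19) (nat_lit 4) (nat_lit 313) (nat_lit 286)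 (nat_lit 181)) (XT.lf (nat_lit 0) (nat_lit 19650690350) (nat_lit 76) (nat_lit 67471115318) (nat_lit 152) (nat_lit 26938016345) (nat_lit 17) (nat_lit 5) (nat_lit 18) (nat_lit 5) (nat_lit 19) (nat_lit 4) (nat_lit 314) (nat_lit 286) (nat_lit 180))) (XT.nd (nat_lit 78) (nat_lit 228) (nat_lit 0) (XT.lf (nat_lit 0) (nat_lit 73404513778) (nat_lit 76) (nat_lit 39562124963) (nat_lit 152) (nat_lit 7702196928) (nat_lit 17) (nat_lit 5) (nat_lit 18) (nat_lit 5) (nat_lit 19) (nat_lit 4) (nat_lit 315) (nat_lit 286) (nat_lit 179)) (XT.lf (nat_lit 0) (nat_lit 3511131322) (nat_lit 152) (nat_lit 8990553486) (nat_lit 228) (nat_lit 115273085090) (nat_lit 14) (nat_lit 5) (nat_lit 16) (nat_lit 5) (nat_lit 17) (nat_lit 5) (nat_lit 316) (nat_lit 286) (nat_lit 178))))) (XT.nd (nat_lit 312) (nat_lit 228) (nat_lit 0) (XT.nd (nat_lit 156) (nat_lit 76) (nat_lit 0) (XT.nd (nat_lit 78) (nat_lit 0) (nat_lit 0) (XT.lf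 (nat_lit 0) (nat_lit 35808175798) (nat_lit 228) (nat_lit 75122892736) (nat_lit 76) (nat_lit 24349914061) (nat_lit 14) (nat_lit 5) (nat_lit 17) (nat_lit 5) (nat_lit 15) (nat_lit 4) (nat_lit 317) (nat_lit 286) (nat_lit 177)) (XT.lf (nat_lit 0) (nat_lit 61211519283) (nat_lit 228) (nat_lit 22286458971) (nat_lit 76) (nat_lit 59871128953) (nat_lit 14) (nat_lit 5) (nat_lit 17) (nat_lit 5) (nat_lit 15) (nat_lit 4) (nat_lit 318) (nat_lit 286) (nat_lit 176))) (XT.nd (nat_lit 78) (nat_lit 0) (nat_lit 0) (XT.lf (nat_lit 0) (nat_lit 36606179912) (nat_lit 76) (nat_lit 52920230164) (nat_lit 152) (nat_lit 62507530769) (nat_lit 13) (nat_lit 5) (nat_lit 14) (nat_lit 5) (nat_lit 15) (nat_lit 4) (nat_lit 319) (nat_lit 286) (nat_lit 175)) (XT.lf (nat_lit 0) (nat_lit 101475829694) (nat_lit 76) (nat_lit 19238950990) (nat_lit 152) (nat_lit 40628518744) (nat_lit 13) (nat_lit 5) (nat_lit 14) (nat_lit 5) (nat_lit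 15) (nat_lit 4) (nat_lit 320) (nat_lit 286) (nat_lit 174)))) (XT.nd (nat_lit 156) (nat_lit 76) (nat_lit 0) (XT.nd (nat_lit 78) (nat_lit 152) (nat_lit 0) (XT.lf (nat_lit 0) (nat_lit 154809360562) (nat_lit 152) (nat_lit 276272613) (nat_lit 0) (nat_lit 16278883589) (nat_lit 13) (nat_lit 5) (nat_lit 15) (nat_lit 4) (nat_lit 13) (nat_lit 4) (nat_lit 321) (nat_lit 286) (nat_lit 173)) (XT.lf (nat_lit 0) (nat_lit 11134835442) (nat_lit 152) (nat_lit 115371734787) (nat_lit 76) (nat_lit 55489636621) (nat_lit 11) (nat_lit 5) (nat_lit 13) (nat_lit 5) (nat_lit 12) (nat_lit 4) (nat_lit 322) (nat_lit 286) (nat_lit 172))) (XT.nd (nat_lit 78) (nat_lit 76) (nat_lit 0) (XT.lf (nat_lit 0) (nat_lit 40152446422) (nat_lit 152) (nat_lit 55016692408) (nat_lit 76) (nat_lit 98274347695) (nat_lit 11) (nat_lit 5) (nat_lit 13) (nat_lit 5) (nat_lit 12) (nat_lit 4) (nat_lit 323) (nat_lit 286) (nat_lit 171)) (XT.lf (nat_lit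 0) (nat_lit 10700505919) (nat_lit 76) (nat_lit 61047454505) (nat_lit 152) (nat_lit 134038069530) (nat_lit 10) (nat_lit 5) (nat_lit 11) (nat_lit 5) (nat_lit 12) (nat_lit 4) (nat_lit 324) (nat_lit 286) (nat_lit 170))))))) (XT.nd (nat_lit 1170) (nat_lit 152) (nat_lit 0) (XT.nd (nat_lit 546) (nat_lit 152) (nat_lit 0) (XT.nd (nat_lit 234) (nat_lit 152) (nat_lit 0) (XT.nd (nat_lit 78) (nat_lit 76) (nat_lit 0) (XT.lf (nat_lit 0) (nat_lit 84802436811) (nat_lit 76) (nat_lit 22572106661) (nat_lit 152) (nat_lit 111621159992) (nat_lit 10) (nat_lit 5) (nat_lit 11) (nat_lit 5) (nat_lit 12) (nat_lit 4) (nat_lit 325) (nat_lit 286) (nat_lit 169)) (XT.nd (nat_lit 78) (nat_lit 76) (nat_lit 0) (XT.lf (nat_lit 0) (nat_lit 146306973560) (nat_lit 152) (nat_lit 68887556679) (nat_lit 0) (nat_lit 18031163763) (nat_lit 10) (nat_lit 5) (nat_lit 12) (nat_lit 4) (nat_lit 10) (nat_lit 4) (nat_lit 326) (nat_lit 286)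 (nat_lit 168)) (XT.lf (nat_lit 0) (nat_lit 1110553763) (nat_lit 76) (nat_lit 187855719790) (nat_lit 76) (nat_lit 59578828914) (nat_lit 9) (nat_lit 4) (nat_lit 10) (nat_lit 5) (nat_lit 10) (nat_lit 4) (nat_lit 327) (nat_lit 286) (nat_lit 167)))) (XT.nd (nat_lit 156) (nat_lit 76) (nat_lit 0) (XT.nd (nat_lit 78) (nat_lit 76) (nat_lit 0) (XT.lf (nat_lit 0) (nat_lit 80624920662) (nat_lit 76) (nat_lit 156296205404) (nat_lit 76) (nat_lit 28018313530) (nat_lit 9) (nat_lit 4) (nat_lit 10) (nat_lit 5) (nat_lit 10) (nat_lit 4) (nat_lit 328) (nat_lit 286) (nat_lit 166)) (XT.lf (nat_lit 0) (nat_lit 5762880056) (nat_lit 152) (nat_lit 116292028207) (nat_lit 76) (nat_lit 160578796199) (nat_lit 8) (nat_lit 5) (nat_lit 10) (nat_lit 5) (nat_lit 9) (nat_lit 4) (nat_lit 329) (nat_lit 286) (nat_lit 165))) (XT.nd (nat_lit 78) (nat_lit 76) (nat_lit 0) (XT.lf (nat_lit 0) (nat_lit 40732236745) (nat_lit 152) (nat_lit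 43556624489) (nat_lit 76) (nat_lit 217396479199) (nat_lit 8) (nat_lit 5) (nat_lit 10) (nat_lit 5) (nat_lit 9) (nat_lit 4) (nat_lit 330) (nat_lit 286) (nat_lit 164)) (XT.lf (nat_lit 0) (nat_lit 36839414671) (nat_lit 76) (nat_lit 42545146009) (nat_lit 152) (nat_lit 242805713596) (nat_lit 7) (nat_lit 5) (nat_lit 8) (nat_lit 5) (nat_lit 9) (nat_lit 4) (nat_lit 331) (nat_lit 286) (nat_lit 163))))) (XT.nd (nat_lit 312) (nat_lit 76) (nat_lit 0) (XT.nd (nat_lit 156) (nat_lit 76) (nat_lit 0) (XT.nd (nat_lit 78) (nat_lit 0) (nat_lit 0) (XT.lf (nat_lit 0) (nat_lit 122411395284) (nat_lit 152) (nat_lit 218189122389) (nat_lit 0) (nat_lit 3632499628) (nat_lit 7) (nat_lit 5) (nat_lit 9) (nat_lit 4) (nat_lit 7) (nat_lit 4) (nat_lit 332) (nat_lit 286) (nat_lit 162)) (XT.lf (nat_lit 0) (nat_lit 169984923186) (nat_lit 152) (nat_lit 146760496550) (nat_lit 0) (nat_lit 51205396731) (nat_lit 7) (nat_lit 5)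 (nat_lit 9) (nat_lit 4) (nat_lit 7) (nat_lit 4) (nat_lit 333) (nat_lit 286) (nat_lit 161))) (XT.nd (nat_lit 78) (nat_lit 76) (nat_lit 0) (XT.lf (nat_lit 0) (nat_lit 221363849805) (nat_lit 152) (nat_lit 69618489557) (nat_lit 0) (nat_lit 102583739276) (nat_lit 7) (nat_lit 5) (nat_lit 9) (nat_lit 4) (nat_lit 7) (nat_lit 4) (nat_lit 334) (nat_lit 286) (nat_lit 160)) (XT.lf (nat_lit 0) (nat_lit 14415140097) (nat_lit 76) (nat_lit 262784187221) (nat_lit 76) (nat_lit 144003535884) (nat_lit 6) (nat_lit 4) (nat_lit 7) (nat_lit 5) (nat_lit 7) (nat_lit 4) (nat_lit 335) (nat_lit 286) (nat_lit 159)))) (XT.nd (nat_lit 156) (nat_lit 76) (nat_lit 0) (XT.nd (nat_lit 78) (nat_lit 0) (nat_lit 0) (XT.lf (nat_lit 0) (nat_lit 109129905032) (nat_lit 76) (nat_lit 230274796616) (nat_lit 76) (nat_lit 111493644530) (nat_lit 6) (nat_lit 4) (nat_lit 7) (nat_lit 5) (nat_lit 7) (nat_lit 4) (nat_lit 336) (nat_lit 286)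 (nat_lit 158)) (XT.lf (nat_lit 0) (nat_lit 211421091643) (nat_lit 76) (nat_lit 195165012183) (nat_lit 76) (nat_lit 76383396442) (nat_lit 6) (nat_lit 4) (nat_lit 7) (nat_lit 5) (nat_lit 7) (nat_lit 4) (nat_lit 337) (nat_lit 286) (nat_lit 157))) (XT.nd (nat_lit 78) (nat_lit 76) (nat_lit 0) (XT.lf (nat_lit 0) (nat_lit 321894869925) (nat_lit 76) (nat_lit 157246775943) (nat_lit 76) (nat_lit 38464730890) (nat_lit 6) (nat_lit 4) (nat_lit 7) (nat_lit 5) (nat_lit 7) (nat_lit 4) (nat_lit 338) (nat_lit 286) (nat_lit 156)) (XT.lf (nat_lit 0) (nat_lit 2362642747) (nat_lit 152) (nat_lit 113868145648) (nat_lit 76) (nat_lit 438778657717) (nat_lit 5) (nat_lit 5) (nat_lit 7) (nat_lit 5) (nat_lit 6) (nat_lit 4) (nat_lit 339) (nat_lit 286) (nat_lit 155)))))) (XT.nd (nat_lit 624) (nat_lit 76) (nat_lit 0) (XT.nd (nat_lit 312) (nat_lit 0) (nat_lit 0) (XT.nd (nat_lit 156) (nat_lit 0) (nat_lit 0) (XT.nd (nat_lit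 78) (nat_lit 76) (nat_lit 0) (XT.lf (nat_lit 0) (nat_lit 44377784002) (nat_lit 152) (nat_lit 26477019903) (nat_lit 76) (nat_lit 524470056841) (nat_lit 5) (nat_lit 5) (nat_lit 7) (nat_lit 5) (nat_lit 6) (nat_lit 4) (nat_lit 340) (nat_lit 286) (nat_lit 154)) (XT.lf (nat_lit 0) (nat_lit 71480569002) (nat_lit 76) (nat_lit 19992373513) (nat_lit 152) (nat_lit 547255061771) (nat_lit 4) (nat_lit 5) (nat_lit 5) (nat_lit 5) (nat_lit 6) (nat_lit 4) (nat_lit 341) (nat_lit 286) (nat_lit 153))) (XT.nd (nat_lit 78) (nat_lit 0) (nat_lit 0) (XT.lf (nat_lit 0) (nat_lit 143918429900) (nat_lit 152) (nat_lit 507624614060) (nat_lit 0) (nat_lit 33933738246) (nat_lit 4) (nat_lit 5) (nat_lit 6) (nat_lit 4) (nat_lit 4) (nat_lit 4) (nat_lit 342) (nat_lit 286) (nat_lit 152)) (XT.lf (nat_lit 0) (nat_lit 201078560169) (nat_lit 152) (nat_lit 443751784087) (nat_lit 0) (nat_lit 91093597976) (nat_lit 4) (nat_lit 5) (nat_lit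 6) (nat_lit 4) (nat_lit 4) (nat_lit 4) (nat_lit 343) (nat_lit 286) (nat_lit 151)))) (XT.nd (nat_lit 156) (nat_lit 0) (nat_lit 0) (XT.nd (nat_lit 78) (nat_lit 0) (nat_lit 0) (XT.lf (nat_lit 0) (nat_lit 262811242954) (nat_lit 152) (nat_lit 374769622641) (nat_lit 0) (nat_lit 152826030263) (nat_lit 4) (nat_lit 5) (nat_lit 6) (nat_lit 4) (nat_lit 4) (nat_lit 4) (nat_lit 344) (nat_lit 286) (nat_lit 150)) (XT.lf (nat_lit 0) (nat_lit 329482301563) (nat_lit 152) (nat_lit 300269346543) (nat_lit 0) (nat_lit 219496856928) (nat_lit 4) (nat_lit 5) (nat_lit 6) (nat_lit 4) (nat_lit 4) (nat_lit 4) (nat_lit 345) (nat_lit 286) (nat_lit 149))) (XT.nd (nat_lit 78) (nat_lit 0) (nat_lit 0) (XT.lf (nat_lit 0) (nat_lit 401486823749) (nat_lit 152) (nat_lit 219809472676) (nat_lit 0) (nat_lit 291501164351) (nat_lit 4) (nat_lit 5) (nat_lit 6) (nat_lit 4) (nat_lit 4) (nat_lit 4) (nat_lit 346) (nat_lit 286) (nat_lit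 148)) (XT.lf (nat_lit 0) (nat_lit 479251502976) (nat_lit 152) (nat_lit 132913201787) (nat_lit 0) (nat_lit 369265644725) (nat_lit 4) (nat_lit 5) (nat_lit 6) (nat_lit 4) (nat_lit 4) (nat_lit 4) (nat_lit 347) (nat_lit 286) (nat_lit 147))))) (XT.nd (nat_lit 312) (nat_lit 0) (nat_lit 0) (XT.nd (nat_lit 156) (nat_lit 0) (nat_lit 0) (XT.nd (nat_lit 78) (nat_lit 76) (nat_lit 0) (XT.lf (nat_lit 0) (nat_lit 563237166975) (nat_lit 152) (nat_lit 39065593013) (nat_lit 0) (nat_lit 453251124599) (nat_lit 4) (nat_lit 5) (nat_lit 6) (nat_lit 4) (nat_lit 4) (nat_lit 4) (nat_lit 348) (nat_lit 286) (nat_lit 146)) (XT.lf (nat_lit 0) (nat_lit 65569541657) (nat_lit 76) (nat_lit 589948915964) (nat_lit 76) (nat_lit 479962703103) (nat_lit 3) (nat_lit 4) (nat_lit 4) (nat_lit 5) (nat_lit 4) (nat_lit 4) (nat_lit 349) (nat_lit 286) (nat_lit 145))) (XT.nd (nat_lit 78) (nat_lit 0) (nat_lit 0) (XT.lf (nat_lit 0) (nat_lit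 180796853681) (nat_lit 76) (nat_lit 575453349963) (nat_lit 76) (nat_lit 465466979245) (nat_lit 3) (nat_lit 4) (nat_lit 4) (nat_lit 5) (nat_lit 4) (nat_lit 4) (nat_lit 350) (nat_lit 286) (nat_lit 144)) (XT.lf (nat_lit 0) (nat_lit 305242046677) (nat_lit 76) (nat_lit 559798284876) (nat_lit 76) (nat_lit 449811767995) (nat_lit 3) (nat_lit 4) (nat_lit 4) (nat_lit 5) (nat_lit 4) (nat_lit 4) (nat_lit 351) (nat_lit 286) (nat_lit 143)))) (XT.nd (nat_lit 156) (nat_lit 0) (nat_lit 0) (XT.nd (nat_lit 78) (nat_lit 0) (nat_lit 0) (XT.lf (nat_lit 0) (nat_lit 439642573638) (nat_lit 76) (nat_lit 542890949949) (nat_lit 76) (nat_lit 432904297731) (nat_lit 3) (nat_lit 4) (nat_lit 4) (nat_lit 5) (nat_lit 4) (nat_lit 4) (nat_lit 352) (nat_lit 286) (nat_lit 142)) (XT.lf (nat_lit 0) (nat_lit 584794882133) (nat_lit 76) (nat_lit 524631153567) (nat_lit 76) (nat_lit 414644376036) (nat_lit 3) (nat_lit 4) (nat_lit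 4) (nat_lit 5) (nat_lit 4) (nat_lit 4) (nat_lit 353) (nat_lit 286) (nat_lit 141))) (XT.nd (nat_lit 78) (nat_lit 0) (nat_lit 0) (XT.lf (nat_lit 0) (nat_lit 741559133990) (nat_lit 76) (nat_lit 504910689528) (nat_lit 76) (nat_lit 394923795968) (nat_lit 3) (nat_lit 4) (nat_lit 4) (nat_lit 5) (nat_lit 4) (nat_lit 4) (nat_lit 354) (nat_lit 286) (nat_lit 140)) (XT.lf (nat_lit 0) (nat_lit 910864302553) (nat_lit 76) (nat_lit 483612695825) (nat_lit 76) (nat_lit 373625694830) (nat_lit 3) (nat_lit 4) (nat_lit 4) (nat_lit 5) (nat_lit 4) (nat_lit 4) (nat_lit 355) (nat_lit 286) (nat_lit 139))))))))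
noncomputable def xc91 : XT := (XT.nd (nat_lit 36894) (nat_lit 0) (nat_lit 228) (XT.nd (nat_lit 35646) (nat_lit 0) (nat_lit 1596) (XT.nd (nat_lit 546) (nat_lit 0) (nat_lit 0) (XT.nd (nat_lit 234) (nat_lit 0) (nat_lit 0) (XT.nd (nat_lit 78) (nat_lit 0) (nat_lit 0) (XT.lf (nat_lit 0) (nat_lit 1093713677710) (nat_lit 76) (nat_lit 460610962123) (nat_lit 76) (nat_lit 350623861652) (nat_lit 3) (nat_lit 4) (nat_lit 4) (nat_lit 5) (nat_lit 4) (nat_lit 4) (nat_lit 356) (nat_lit 286) (nat_lit 138)) (XT.nd (nat_lit 78) (nat_lit 0) (nat_lit 0) (XT.lf (nat_lit 0) (nat_lit 1291190811314) (nat_lit 76) (nat_lit 435769181852) (nat_lit 76) (nat_lit 325781989273) (nat_lit 3) (nat_lit 4) (nat_lit 4) (nat_lit 5) (nat_lit 4) (nat_lit 4) (nat_lit 357) (nat_lit 286) (nat_lit 137)) (XT.lf (nat_lit 0) (nat_lit 1504465938230) (nat_lit 76) (nat_lit 408940144464) (nat_lit 76) (nat_lit 298952866600) (nat_lit 3) (nat_lit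 4) (nat_lit 4) (nat_lit 5) (nat_lit 4) (nat_lit 4) (nat_lit 358) (nat_lit 286) (nat_lit 136)))) (XT.nd (nat_lit 156) (nat_lit 0) (nat_lit 0) (XT.nd (nat_lit 78) (nat_lit 0) (nat_lit 0) (XT.lf (nat_lit 0) (nat_lit 1734802911063) (nat_lit 76) (nat_lit 379964863070) (nat_lit 76) (nat_lit 269977506238) (nat_lit 3) (nat_lit 4) (nat_lit 4) (nat_lit 5) (nat_lit 4) (nat_lit 4) (nat_lit 359) (nat_lit 286) (nat_lit 135)) (XT.lf (nat_lit 0) (nat_lit 1983566689651) (nat_lit 76) (nat_lit 348671632298) (nat_lit 76) (nat_lit 238684202348) (nat_lit 3) (nat_lit 4) (nat_lit 4) (nat_lit 5) (nat_lit 4) (nat_lit 4) (nat_lit 360) (nat_lit 286) (nat_lit 134))) (XT.nd (nat_lit 78) (nat_lit 0) (nat_lit 0) (XT.lf (nat_lit 0) (nat_lit 2252231429719) (nat_lit 76) (nat_lit 314875010781) (nat_lit 76) (nat_lit 204887513128) (nat_lit 3) (nat_lit 4) (nat_lit 4) (nat_lit 5) (nat_lit 4) (nat_lit 4) (nat_lit 361) (nat_lit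 286) (nat_lit 133)) (XT.lf (nat_lit 0) (nat_lit 2542389218616) (nat_lit 76) (nat_lit 278374722243) (nat_lit 76) (nat_lit 168387161904) (nat_lit 3) (nat_lit 4) (nat_lit 4) (nat_lit 5) (nat_lit 4) (nat_lit 4) (nat_lit 362) (nat_lit 286) (nat_lit 132))))) (XT.nd (nat_lit 34788) (nat_lit 0) (nat_lit 3116) (XT.nd (nat_lit 156) (nat_lit 0) (nat_lit 0) (XT.nd (nat_lit 78) (nat_lit 0) (nat_lit 0) (XT.lf (nat_lit 0) (nat_lit 2855759509907) (nat_lit 76) (nat_lit 238954468678) (nat_lit 76) (nat_lit 128966850295) (nat_lit 3) (nat_lit 4) (nat_lit 4) (nat_lit 5) (nat_lit 4) (nat_lit 4) (nat_lit 363) (nat_lit 286) (nat_lit 131)) (XT.lf (nat_lit 0) (nat_lit 3194199312723) (nat_lit 76) (nat_lit 196380648584) (nat_lit 76) (nat_lit 86392976457) (nat_lit 3) (nat_lit 4) (nat_lit 4) (nat_lit 5) (nat_lit 4) (nat_lit 4) (nat_lit 364) (nat_lit 286) (nat_lit 130))) (XT.nd (nat_lit 34554) (nat_lit 0) (nat_lit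 3116) (XT.lf (nat_lit 0) (nat_lit 3559714196268) (nat_lit 76) (nat_lit 150400972656) (nat_lit 76) (nat_lit 40413250766) (nat_lit 3) (nat_lit 4) (nat_lit 4) (nat_lit 5) (nat_lit 4) (nat_lit 4) (nat_lit 365) (nat_lit 286) (nat_lit 129)) (XT.lf (nat_lit 0) (nat_lit 9516405124) (nat_lit 532) (nat_lit 3413392867) (nat_lit 532) (nat_lit 3413392867) (nat_lit 44) (nat_lit 3) (nat_lit 51) (nat_lit 3) (nat_lit 51) (nat_lit 5) (nat_lit 287) (nat_lit 287) (nat_lit 206)))) (XT.nd (nat_lit 156) (nat_lit 0) (nat_lit 76) (XT.nd (nat_lit 78) (nat_lit 0) (nat_lit 76) (XT.lf (nat_lit 76) (nat_lit 8424429542) (nat_lit 0) (nat_lit 11628265412) (nat_lit 532) (nat_lit 13920273351) (nat_lit 45) (nat_lit 5) (nat_lit 44) (nat_lit 3) (nat_lit 51) (nat_lit 5) (nat_lit 288) (nat_lit 287) (nat_lit 205)) (XT.lf (nat_lit 0) (nat_lit 21430043766) (nat_lit 456) (nat_lit 10162119501) (nat_lit 532) (nat_lit 3748266983)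 (nat_lit 45) (nat_lit 5) (nat_lit 51) (nat_lit 5) (nat_lit 52) (nat_lit 5) (nat_lit 289) (nat_lit 287) (nat_lit 204))) (XT.nd (nat_lit 78) (nat_lit 0) (nat_lit 0) (XT.lf (nat_lit 76) (nat_lit 6473565815) (nat_lit 0) (nat_lit 16896536767) (nat_lit 532) (nat_lit 13411001742) (nat_lit 46) (nat_lit 5) (nat_lit 45) (nat_lit 5) (nat_lit 52) (nat_lit 5) (nat_lit 290) (nat_lit 287) (nat_lit 203)) (XT.lf (nat_lit 76) (nat_lit 25014673404) (nat_lit 0) (nat_lit 723647234) (nat_lit 532) (nat_lit 12576891013) (nat_lit 46) (nat_lit 5) (nat_lit 45) (nat_lit 5) (nat_lit 52) (nat_lit 5) (nat_lit 291) (nat_lit 287) (nat_lit 202)))))) (XT.nd (nat_lit 624) (nat_lit 760) (nat_lit 0) (XT.nd (nat_lit 312) (nat_lit 532) (nat_lit 0) (XT.nd (nat_lit 156) (nat_lit 380) (nat_lit 0) (XT.nd (nat_lit 78) (nat_lit 0) (nat_lit 0) (XT.lf (nat_lit 76) (nat_lit 4906257948) (nat_lit 0) (nat_lit 23905906136) (nat_lit 532)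 (nat_lit 11118604572) (nat_lit 47) (nat_lit 5) (nat_lit 46) (nat_lit 5) (nat_lit 53) (nat_lit 5) (nat_lit 292) (nat_lit 287) (nat_lit 201)) (XT.lf (nat_lit 76) (nat_lit 25302790985) (nat_lit 0) (nat_lit 7206856153) (nat_lit 532) (nat_lit 9135717962) (nat_lit 47) (nat_lit 5) (nat_lit 46) (nat_lit 5) (nat_lit 53) (nat_lit 5) (nat_lit 293) (nat_lit 287) (nat_lit 200))) (XT.nd (nat_lit 78) (nat_lit 0) (nat_lit 0) (XT.lf (nat_lit 0) (nat_lit 3757964180) (nat_lit 456) (nat_lit 33091844757) (nat_lit 532) (nat_lit 6619582366) (nat_lit 41) (nat_lit 5) (nat_lit 47) (nat_lit 5) (nat_lit 48) (nat_lit 5) (nat_lit 294) (nat_lit 287) (nat_lit 199)) (XT.lf (nat_lit 0) (nat_lit 26195477922) (nat_lit 456) (nat_lit 15967284633) (nat_lit 532) (nat_lit 3226542272) (nat_lit 41) (nat_lit 5) (nat_lit 47) (nat_lit 5) (nat_lit 48) (nat_lit 5) (nat_lit 295) (nat_lit 287) (nat_lit 198)))) (XT.nd (nat_lit 156) (nat_lit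 228) (nat_lit 0) (XT.nd (nat_lit 78) (nat_lit 0) (nat_lit 0) (XT.lf (nat_lit 0) (nat_lit 550214572) (nat_lit 304) (nat_lit 44412602150) (nat_lit 76) (nat_lit 2488427505) (nat_lit 37) (nat_lit 5) (nat_lit 41) (nat_lit 5) (nat_lit 38) (nat_lit 5) (nat_lit 296) (nat_lit 287) (nat_lit 197)) (XT.lf (nat_lit 0) (nat_lit 5404604927) (nat_lit 304) (nat_lit 22010619281) (nat_lit 76) (nat_lit 22180234419) (nat_lit 37) (nat_lit 5) (nat_lit 41) (nat_lit 5) (nat_lit 38) (nat_lit 5) (nat_lit 297) (nat_lit 287) (nat_lit 196))) (XT.nd (nat_lit 78) (nat_lit 0) (nat_lit 0) (XT.lf (nat_lit 0) (nat_lit 2295022486) (nat_lit 228) (nat_lit 8404418582) (nat_lit 304) (nat_lit 41207610022) (nat_lit 34) (nat_lit 5) (nat_lit 37) (nat_lit 5) (nat_lit 38) (nat_lit 5) (nat_lit 298) (nat_lit 287) (nat_lit 195)) (XT.lf (nat_lit 0) (nat_lit 17324010359) (nat_lit 304) (nat_lit 24869298791) (nat_lit 76) (nat_lit 12137777948)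 (nat_lit 34) (nat_lit 5) (nat_lit 38) (nat_lit 5) (nat_lit 35) (nat_lit 5) (nat_lit 299) (nat_lit 287) (nat_lit 194))))) (XT.nd (nat_lit 312) (nat_lit 380) (nat_lit 0) (XT.nd (nat_lit 156) (nat_lit 152) (nat_lit 0) (XT.nd (nat_lit 78) (nat_lit 0) (nat_lit 0) (XT.lf (nat_lit 0) (nat_lit 1717253554) (nat_lit 228) (nat_lit 23018151934) (nat_lit 304) (nat_lit 32193098940) (nat_lit 31) (nat_lit 5) (nat_lit 34) (nat_lit 5) (nat_lit 35) (nat_lit 5) (nat_lit 300) (nat_lit 287) (nat_lit 193)) (XT.lf (nat_lit 0) (nat_lit 31841946998) (nat_lit 228) (nat_lit 1575127253) (nat_lit 304) (nat_lit 26262458662) (nat_lit 31) (nat_lit 5) (nat_lit 34) (nat_lit 5) (nat_lit 35) (nat_lit 5) (nat_lit 301) (nat_lit 287) (nat_lit 192))) (XT.nd (nat_lit 78) (nat_lit 0) (nat_lit 0) (XT.lf (nat_lit 0) (nat_lit 1267204183) (nat_lit 152) (nat_lit 42073201577) (nat_lit 228) (nat_lit 19266473807) (nat_lit 29) (nat_lit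 5) (nat_lit 31) (nat_lit 5) (nat_lit 32) (nat_lit 5) (nat_lit 302) (nat_lit 287) (nat_lit 191)) (XT.lf (nat_lit 0) (nat_lit 34237457934) (nat_lit 152) (nat_lit 20618832143) (nat_lit 228) (nat_lit 10848234741) (nat_lit 29) (nat_lit 5) (nat_lit 31) (nat_lit 5) (nat_lit 32) (nat_lit 5) (nat_lit 303) (nat_lit 287) (nat_lit 190)))) (XT.nd (nat_lit 156) (nat_lit 152) (nat_lit 0) (XT.nd (nat_lit 78) (nat_lit 76) (nat_lit 0) (XT.lf (nat_lit 0) (nat_lit 769531824) (nat_lit 152) (nat_lit 66601630850) (nat_lit 228) (nat_lit 1672606953) (nat_lit 27) (nat_lit 5) (nat_lit 29) (nat_lit 5) (nat_lit 30) (nat_lit 5) (nat_lit 304) (nat_lit 287) (nat_lit 189)) (XT.lf (nat_lit 0) (nat_lit 9241156111) (nat_lit 228) (nat_lit 35965692296) (nat_lit 76) (nat_lit 27314171116) (nat_lit 26) (nat_lit 5) (nat_lit 29) (nat_lit 5) (nat_lit 27) (nat_lit 5) (nat_lit 305) (nat_lit 287) (nat_lit 188))) (XT.nd (nat_lit 78)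 (nat_lit 152) (nat_lit 0) (XT.lf (nat_lit 0) (nat_lit 20935683872) (nat_lit 228) (nat_lit 1118669447) (nat_lit 76) (nat_lit 54218782555) (nat_lit 26) (nat_lit 5) (nat_lit 29) (nat_lit 5) (nat_lit 27) (nat_lit 5) (nat_lit 306) (nat_lit 287) (nat_lit 187)) (XT.lf (nat_lit 0) (nat_lit 34583290102) (nat_lit 228) (nat_lit 41910271351) (nat_lit 76) (nat_lit 3750462707) (nat_lit 24) (nat_lit 5) (nat_lit 27) (nat_lit 5) (nat_lit 25) (nat_lit 5) (nat_lit 307) (nat_lit 287) (nat_lit 186))))))) (XT.nd (nat_lit 1170) (nat_lit 532) (nat_lit 0) (XT.nd (nat_lit 546) (nat_lit 380) (nat_lit 0) (XT.nd (nat_lit 234) (nat_lit 304) (nat_lit 0) (XT.nd (nat_lit 78) (nat_lit 152) (nat_lit 0) (XT.lf (nat_lit 0) (nat_lit 49925157460) (nat_lit 228) (nat_lit 4100401305) (nat_lit 76) (nat_lit 30458832169) (nat_lit 24) (nat_lit 5) (nat_lit 27) (nat_lit 5) (nat_lit 25) (nat_lit 5) (nat_lit 308) (nat_lit 287) (nat_lit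 185)) (XT.nd (nat_lit 78) (nat_lit 0) (nat_lit 0) (XT.lf (nat_lit 0) (nat_lit 38666067101) (nat_lit 152) (nat_lit 28756589381) (nat_lit 228) (nat_lit 21567071350) (nat_lit 22) (nat_lit 5) (nat_lit 24) (nat_lit 5) (nat_lit 25) (nat_lit 5) (nat_lit 309) (nat_lit 287) (nat_lit 184)) (XT.lf (nat_lit 0) (nat_lit 85084683298) (nat_lit 152) (nat_lit 1345811268) (nat_lit 228) (nat_lit 7416157103) (nat_lit 22) (nat_lit 5) (nat_lit 24) (nat_lit 5) (nat_lit 25) (nat_lit 5) (nat_lit 310) (nat_lit 287) (nat_lit 183)))) (XT.nd (nat_lit 156) (nat_lit 152) (nat_lit 0) (XT.nd (nat_lit 78) (nat_lit 0) (nat_lit 0) (XT.lf (nat_lit 0) (nat_lit 9089629204) (nat_lit 152) (nat_lit 61887095136) (nat_lit 76) (nat_lit 27970965576) (nat_lit 20) (nat_lit 5) (nat_lit 22) (nat_lit 5) (nat_lit 21) (nat_lit 5) (nat_lit 311) (nat_lit 287) (nat_lit 182)) (XT.lf (nat_lit 0) (nat_lit 26794501692) (nat_lit 152) (nat_lit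 17626499236) (nat_lit 76) (nat_lit 59998059503) (nat_lit 20) (nat_lit 5) (nat_lit 22) (nat_lit 5) (nat_lit 21) (nat_lit 5) (nat_lit 312) (nat_lit 287) (nat_lit 181))) (XT.nd (nat_lit 78) (nat_lit 0) (nat_lit 0) (XT.lf (nat_lit 0) (nat_lit 31761650752) (nat_lit 152) (nat_lit 14916631658) (nat_lit 228) (nat_lit 63588858992) (nat_lit 18) (nat_lit 5) (nat_lit 20) (nat_lit 5) (nat_lit 21) (nat_lit 5) (nat_lit 313) (nat_lit 287) (nat_lit 180)) (XT.lf (nat_lit 0) (nat_lit 69053506045) (nat_lit 228) (nat_lit 30863519177) (nat_lit 76) (nat_lit 16593986515) (nat_lit 18) (nat_lit 5) (nat_lit 21) (nat_lit 5) (nat_lit 19) (nat_lit 4) (nat_lit 314) (nat_lit 287) (nat_lit 179))))) (XT.nd (nat_lit 312) (nat_lit 76) (nat_lit 0) (XT.nd (nat_lit 156) (nat_lit 228) (nat_lit 0) (XT.nd (nat_lit 78) (nat_lit 0) (nat_lit 0) (XT.lf (nat_lit 0) (nat_lit 21264067736) (nat_lit 76) (nat_lit 72852304775) (nat_lit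 152) (nat_lit 29066211154) (nat_lit 17) (nat_lit 5) (nat_lit 18) (nat_lit 5) (nat_lit 19) (nat_lit 4) (nat_lit 315) (nat_lit 287) (nat_lit 178)) (XT.lf (nat_lit 0) (nat_lit 79315136138) (nat_lit 76) (nat_lit 42711817397) (nat_lit 152) (nat_lit 8293514814) (nat_lit 17) (nat_lit 5) (nat_lit 18) (nat_lit 5) (nat_lit 19) (nat_lit 4) (nat_lit 316) (nat_lit 287) (nat_lit 177))) (XT.nd (nat_lit 78) (nat_lit 0) (nat_lit 0) (XT.lf (nat_lit 0) (nat_lit 3830558475) (nat_lit 152) (nat_lit 9694053089) (nat_lit 228) (nat_lit 124470286152) (nat_lit 14) (nat_lit 5) (nat_lit 16) (nat_lit 5) (nat_lit 17) (nat_lit 5) (nat_lit 317) (nat_lit 287) (nat_lit 176)) (XT.lf (nat_lit 0) (nat_lit 38694284150) (nat_lit 228) (nat_lit 81095676227) (nat_lit 76) (nat_lit 26311756318) (nat_lit 14) (nat_lit 5) (nat_lit 17) (nat_lit 5) (nat_lit 15) (nat_lit 4) (nat_lit 318) (nat_lit 287) (nat_lit 175)))) (XT.nd (nat_lit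 156) (nat_lit 0) (nat_lit 0) (XT.nd (nat_lit 78) (nat_lit 76) (nat_lit 0) (XT.lf (nat_lit 0) (nat_lit 66128305908) (nat_lit 228) (nat_lit 24035072052) (nat_lit 76) (nat_lit 64673642540) (nat_lit 14) (nat_lit 5) (nat_lit 17) (nat_lit 5) (nat_lit 15) (nat_lit 4) (nat_lit 319) (nat_lit 287) (nat_lit 174)) (XT.lf (nat_lit 0) (nat_lit 39568109496) (nat_lit 76) (nat_lit 57139611099) (nat_lit 152) (nat_lit 67487375556) (nat_lit 13) (nat_lit 5) (nat_lit 14) (nat_lit 5) (nat_lit 15) (nat_lit 4) (nat_lit 320) (nat_lit 287) (nat_lit 173))) (XT.nd (nat_lit 78) (nat_lit 0) (nat_lit 0) (XT.lf (nat_lit 0) (nat_lit 109624854579) (nat_lit 76) (nat_lit 20764884218) (nat_lit 152) (nat_lit 43859580175) (nat_lit 13) (nat_lit 5) (nat_lit 14) (nat_lit 5) (nat_lit 15) (nat_lit 4) (nat_lit 321) (nat_lit 287) (nat_lit 172)) (XT.lf (nat_lit 0) (nat_lit 167210861913) (nat_lit 152) (nat_lit 268665283) (nat_lit 0)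 (nat_lit 17592790009) (nat_lit 13) (nat_lit 5) (nat_lit 15) (nat_lit 4) (nat_lit 13) (nat_lit 4) (nat_lit 322) (nat_lit 287) (nat_lit 171)))))) (XT.nd (nat_lit 624) (nat_lit 152) (nat_lit 0) (XT.nd (nat_lit 312) (nat_lit 152) (nat_lit 0) (XT.nd (nat_lit 156) (nat_lit 76) (nat_lit 0) (XT.nd (nat_lit 78) (nat_lit 0) (nat_lit 0) (XT.lf (nat_lit 0) (nat_lit 12042269470) (nat_lit 152) (nat_lit 124571622201) (nat_lit 76) (nat_lit 59940662204) (nat_lit 11) (nat_lit 5) (nat_lit 13) (nat_lit 5) (nat_lit 12) (nat_lit 4) (nat_lit 323) (nat_lit 287) (nat_lit 170)) (XT.lf (nat_lit 0) (nat_lit 43380056203) (nat_lit 152) (nat_lit 59390387644) (nat_lit 76) (nat_lit 106147272043) (nat_lit 11) (nat_lit 5) (nat_lit 13) (nat_lit 5) (nat_lit 12) (nat_lit 4) (nat_lit 324) (nat_lit 287) (nat_lit 169))) (XT.nd (nat_lit 78) (nat_lit 0) (nat_lit 0) (XT.lf (nat_lit 0) (nat_lit 11583486798) (nat_lit 76) (nat_lit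 65919230660) (nat_lit 152) (nat_lit 144744986059) (nat_lit 10) (nat_lit 5) (nat_lit 11) (nat_lit 5) (nat_lit 12) (nat_lit 4) (nat_lit 325) (nat_lit 287) (nat_lit 168)) (XT.lf (nat_lit 0) (nat_lit 91611576576) (nat_lit 76) (nat_lit 24366745374) (nat_lit 152) (nat_lit 120535918501) (nat_lit 10) (nat_lit 5) (nat_lit 11) (nat_lit 5) (nat_lit 12) (nat_lit 4) (nat_lit 326) (nat_lit 287) (nat_lit 167)))) (XT.nd (nat_lit 156) (nat_lit 76) (nat_lit 0) (XT.nd (nat_lit 78) (nat_lit 76) (nat_lit 0) (XT.lf (nat_lit 0) (nat_lit 158024570958) (nat_lit 152) (nat_lit 74374675623) (nat_lit 0) (nat_lit 19483446735) (nat_lit 10) (nat_lit 5) (nat_lit 12) (nat_lit 4) (nat_lit 10) (nat_lit 4) (nat_lit 327) (nat_lit 287) (nat_lit 166)) (XT.lf (nat_lit 0) (nat_lit 1222678955) (nat_lit 76) (nat_lit 202873530011) (nat_lit 76) (nat_lit 64331478937) (nat_lit 9) (nat_lit 4) (nat_lit 10) (nat_lit 5) (nat_lit 10) (nat_lit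 4) (nat_lit 328) (nat_lit 287) (nat_lit 165))) (XT.nd (nat_lit 78) (nat_lit 76) (nat_lit 0) (XT.lf (nat_lit 0) (nat_lit 87096470695) (nat_lit 76) (nat_lit 168790043168) (nat_lit 76) (nat_lit 30247133899) (nat_lit 9) (nat_lit 4) (nat_lit 10) (nat_lit 5) (nat_lit 10) (nat_lit 4) (nat_lit 329) (nat_lit 287) (nat_lit 164)) (XT.lf (nat_lit 0) (nat_lit 6235032843) (nat_lit 152) (nat_lit 125574835579) (nat_lit 76) (nat_lit 173433633018) (nat_lit 8) (nat_lit 5) (nat_lit 10) (nat_lit 5) (nat_lit 9) (nat_lit 4) (nat_lit 330) (nat_lit 287) (nat_lit 163))))) (XT.nd (nat_lit 312) (nat_lit 76) (nat_lit 0) (XT.nd (nat_lit 156) (nat_lit 0) (nat_lit 0) (XT.nd (nat_lit 78) (nat_lit 76) (nat_lit 0) (XT.lf (nat_lit 0) (nat_lit 44001114187) (nat_lit 152) (nat_lit 47022122147) (nat_lit 76) (nat_lit 234796098575) (nat_lit 8) (nat_lit 5) (nat_lit 10) (nat_lit 5) (nat_lit 9) (nat_lit 4) (nat_lit 331) (nat_lit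 287) (nat_lit 162)) (XT.lf (nat_lit 0) (nat_lit 39805118315) (nat_lit 76) (nat_lit 45940189009) (nat_lit 152) (nat_lit 262219382130) (nat_lit 7) (nat_lit 5) (nat_lit 8) (nat_lit 5) (nat_lit 9) (nat_lit 4) (nat_lit 332) (nat_lit 287) (nat_lit 161))) (XT.nd (nat_lit 78) (nat_lit 0) (nat_lit 0) (XT.lf (nat_lit 0) (nat_lit 132213740117) (nat_lit 152) (nat_lit 235626519627) (nat_lit 0) (nat_lit 3930636673) (nat_lit 7) (nat_lit 5) (nat_lit 9) (nat_lit 4) (nat_lit 7) (nat_lit 4) (nat_lit 333) (nat_lit 287) (nat_lit 160)) (XT.lf (nat_lit 0) (nat_lit 183592451495) (nat_lit 152) (nat_lit 158484917243) (nat_lit 0) (nat_lit 55308807243) (nat_lit 7) (nat_lit 5) (nat_lit 9) (nat_lit 4) (nat_lit 7) (nat_lit 4) (nat_lit 334) (nat_lit 287) (nat_lit 159)))) (XT.nd (nat_lit 156) (nat_lit 0) (nat_lit 0) (XT.nd (nat_lit 78) (nat_lit 76) (nat_lit 0) (XT.lf (nat_lit 0) (nat_lit 239081045246) (nat_lit 152)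 (nat_lit 75172765915) (nat_lit 0) (nat_lit 110796900245) (nat_lit 7) (nat_lit 5) (nat_lit 9) (nat_lit 4) (nat_lit 7) (nat_lit 4) (nat_lit 335) (nat_lit 287) (nat_lit 158)) (XT.lf (nat_lit 0) (nat_lit 15583169230) (nat_lit 76) (nat_lit 283799949032) (nat_lit 76) (nat_lit 155515340375) (nat_lit 6) (nat_lit 4) (nat_lit 7) (nat_lit 5) (nat_lit 7) (nat_lit 4) (nat_lit 336) (nat_lit 287) (nat_lit 157))) (XT.nd (nat_lit 78) (nat_lit 0) (nat_lit 0) (XT.lf (nat_lit 0) (nat_lit 117874017736) (nat_lit 76) (nat_lit 248690323708) (nat_lit 76) (nat_lit 120405285740) (nat_lit 6) (nat_lit 4) (nat_lit 7) (nat_lit 5) (nat_lit 7) (nat_lit 4) (nat_lit 337) (nat_lit 287) (nat_lit 156)) (XT.lf (nat_lit 0) (nat_lit 228347482958) (nat_lit 76) (nat_lit 210772234791) (nat_lit 76) (nat_lit 82486799312) (nat_lit 6) (nat_lit 4) (nat_lit 7) (nat_lit 5) (nat_lit 7) (nat_lit 4) (nat_lit 338) (nat_lit 287) (nat_lit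 155))))))))
noncomputable def xc92 : XT := (XT.nd (nat_lit 36972) (nat_lit 0) (nat_lit 760) (XT.nd (nat_lit 1170) (nat_lit 0) (nat_lit 0) (XT.nd (nat_lit 546) (nat_lit 76) (nat_lit 0) (XT.nd (nat_lit 234) (nat_lit 76) (nat_lit 0) (XT.nd (nat_lit 78) (nat_lit 76) (nat_lit 0) (XT.lf (nat_lit 0) (nat_lit 347658222466) (nat_lit 76) (nat_lit 169820982493) (nat_lit 76) (nat_lit 41535178950) (nat_lit 6) (nat_lit 4) (nat_lit 7) (nat_lit 5) (nat_lit 7) (nat_lit 4) (nat_lit 339) (nat_lit 287) (nat_lit 154)) (XT.nd (nat_lit 78) (nat_lit 0) (nat_lit 0) (XT.lf (nat_lit 0) (nat_lit 2557574286) (nat_lit 152) (nat_lit 122966389828) (nat_lit 76) (nat_lit 473885759965) (nat_lit 5) (nat_lit 5) (nat_lit 7) (nat_lit 5) (nat_lit 6) (nat_lit 4) (nat_lit 340) (nat_lit 287) (nat_lit 153)) (XT.lf (nat_lit 0) (nat_lit 47933488314) (nat_lit 152) (nat_lit 28584804206) (nat_lit 76) (nat_lit 566432114751) (nat_lit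 5) (nat_lit 5) (nat_lit 7) (nat_lit 5) (nat_lit 6) (nat_lit 4) (nat_lit 341) (nat_lit 287) (nat_lit 152)))) (XT.nd (nat_lit 156) (nat_lit 0) (nat_lit 0) (XT.nd (nat_lit 78) (nat_lit 0) (nat_lit 0) (XT.lf (nat_lit 0) (nat_lit 77209129095) (nat_lit 76) (nat_lit 21586967624) (nat_lit 152) (nat_lit 591029718878) (nat_lit 4) (nat_lit 5) (nat_lit 5) (nat_lit 5) (nat_lit 6) (nat_lit 4) (nat_lit 342) (nat_lit 287) (nat_lit 151)) (XT.lf (nat_lit 0) (nat_lit 155436935906) (nat_lit 152) (nat_lit 548224927384) (nat_lit 0) (nat_lit 36652655700) (nat_lit 4) (nat_lit 5) (nat_lit 6) (nat_lit 4) (nat_lit 4) (nat_lit 4) (nat_lit 343) (nat_lit 287) (nat_lit 150))) (XT.nd (nat_lit 78) (nat_lit 0) (nat_lit 0) (XT.lf (nat_lit 0) (nat_lit 217169503884) (nat_lit 152) (nat_lit 479242986257) (nat_lit 0) (nat_lit 98384991735) (nat_lit 4) (nat_lit 5) (nat_lit 6) (nat_lit 4) (nat_lit 4) (nat_lit 4) (nat_lit 344)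 (nat_lit 287) (nat_lit 149)) (XT.lf (nat_lit 0) (nat_lit 283840456189) (nat_lit 152) (nat_lit 404742914159) (nat_lit 0) (nat_lit 165055729277) (nat_lit 4) (nat_lit 5) (nat_lit 6) (nat_lit 4) (nat_lit 4) (nat_lit 4) (nat_lit 345) (nat_lit 287) (nat_lit 148))))) (XT.nd (nat_lit 312) (nat_lit 76) (nat_lit 0) (XT.nd (nat_lit 156) (nat_lit 0) (nat_lit 0) (XT.nd (nat_lit 78) (nat_lit 0) (nat_lit 0) (XT.lf (nat_lit 0) (nat_lit 355844879945) (nat_lit 152) (nat_lit 324283229180) (nat_lit 0) (nat_lit 237059954179) (nat_lit 4) (nat_lit 5) (nat_lit 6) (nat_lit 4) (nat_lit 4) (nat_lit 4) (nat_lit 346) (nat_lit 287) (nat_lit 147)) (XT.lf (nat_lit 0) (nat_lit 433609468035) (nat_lit 152) (nat_lit 237387133188) (nat_lit 0) (nat_lit 314824358145) (nat_lit 4) (nat_lit 5) (nat_lit 6) (nat_lit 4) (nat_lit 4) (nat_lit 4) (nat_lit 347) (nat_lit 287) (nat_lit 146))) (XT.nd (nat_lit 78) (nat_lit 0) (nat_lit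 0) (XT.lf (nat_lit 0) (nat_lit 517595047646) (nat_lit 152) (nat_lit 143539686355) (nat_lit 0) (nat_lit 398809767271) (nat_lit 4) (nat_lit 5) (nat_lit 6) (nat_lit 4) (nat_lit 4) (nat_lit 4) (nat_lit 348) (nat_lit 287) (nat_lit 145)) (XT.lf (nat_lit 0) (nat_lit 608299311103) (nat_lit 152) (nat_lit 42184755661) (nat_lit 0) (nat_lit 489513872871) (nat_lit 4) (nat_lit 5) (nat_lit 6) (nat_lit 4) (nat_lit 4) (nat_lit 4) (nat_lit 349) (nat_lit 287) (nat_lit 144)))) (XT.nd (nat_lit 156) (nat_lit 0) (nat_lit 0) (XT.nd (nat_lit 78) (nat_lit 0) (nat_lit 0) (XT.lf (nat_lit 0) (nat_lit 70821035737) (nat_lit 76) (nat_lit 637141977027) (nat_lit 76) (nat_lit 518356392631) (nat_lit 3) (nat_lit 4) (nat_lit 4) (nat_lit 5) (nat_lit 4) (nat_lit 4) (nat_lit 350) (nat_lit 287) (nat_lit 143)) (XT.lf (nat_lit 0) (nat_lit 195266093409) (nat_lit 76) (nat_lit 621486977020) (nat_lit 76) (nat_lit 502701257288) (nat_lit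 3) (nat_lit 4) (nat_lit 4) (nat_lit 5) (nat_lit 4) (nat_lit 4) (nat_lit 351) (nat_lit 287) (nat_lit 142))) (XT.nd (nat_lit 78) (nat_lit 0) (nat_lit 0) (XT.lf (nat_lit 0) (nat_lit 329666495071) (nat_lit 76) (nat_lit 604579702352) (nat_lit 76) (nat_lit 485793857308) (nat_lit 3) (nat_lit 4) (nat_lit 4) (nat_lit 5) (nat_lit 4) (nat_lit 4) (nat_lit 352) (nat_lit 287) (nat_lit 141)) (XT.lf (nat_lit 0) (nat_lit 474818687548) (nat_lit 76) (nat_lit 586319961765) (nat_lit 76) (nat_lit 467534000691) (nat_lit 3) (nat_lit 4) (nat_lit 4) (nat_lit 5) (nat_lit 4) (nat_lit 4) (nat_lit 353) (nat_lit 287) (nat_lit 140)))))) (XT.nd (nat_lit 546) (nat_lit 0) (nat_lit 0) (XT.nd (nat_lit 234) (nat_lit 0) (nat_lit 0) (XT.nd (nat_lit 78) (nat_lit 0) (nat_lit 0) (XT.lf (nat_lit 0) (nat_lit 631582831980) (nat_lit 76) (nat_lit 566599549389) (nat_lit 76) (nat_lit 447813480881) (nat_lit 3) (nat_lit 4) (nat_lit 4)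 (nat_lit 5) (nat_lit 4) (nat_lit 4) (nat_lit 354) (nat_lit 287) (nat_lit 139)) (XT.nd (nat_lit 78) (nat_lit 0) (nat_lit 0) (XT.lf (nat_lit 0) (nat_lit 800887901076) (nat_lit 76) (nat_lit 545301603521) (nat_lit 76) (nat_lit 426515435536) (nat_lit 3) (nat_lit 4) (nat_lit 4) (nat_lit 5) (nat_lit 4) (nat_lit 4) (nat_lit 355) (nat_lit 287) (nat_lit 138)) (XT.lf (nat_lit 0) (nat_lit 983737184134) (nat_lit 76) (nat_lit 522299914112) (nat_lit 76) (nat_lit 403513654018) (nat_lit 3) (nat_lit 4) (nat_lit 4) (nat_lit 5) (nat_lit 4) (nat_lit 4) (nat_lit 356) (nat_lit 287) (nat_lit 137)))) (XT.nd (nat_lit 156) (nat_lit 0) (nat_lit 0) (XT.nd (nat_lit 78) (nat_lit 0) (nat_lit 0) (XT.lf (nat_lit 0) (nat_lit 1181214232461) (nat_lit 76) (nat_lit 497458174853) (nat_lit 76) (nat_lit 378671829474) (nat_lit 3) (nat_lit 4) (nat_lit 4) (nat_lit 5) (nat_lit 4) (nat_lit 4) (nat_lit 357) (nat_lit 287) (nat_lit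 136)) (XT.lf (nat_lit 0) (nat_lit 1394489280417) (nat_lit 76) (nat_lit 470629175438) (nat_lit 76) (nat_lit 351842751092) (nat_lit 3) (nat_lit 4) (nat_lit 4) (nat_lit 5) (nat_lit 4) (nat_lit 4) (nat_lit 358) (nat_lit 287) (nat_lit 135))) (XT.nd (nat_lit 78) (nat_lit 0) (nat_lit 0) (XT.lf (nat_lit 0) (nat_lit 1624826180139) (nat_lit 76) (nat_lit 441653929204) (nat_lit 76) (nat_lit 322867431740) (nat_lit 3) (nat_lit 4) (nat_lit 4) (nat_lit 5) (nat_lit 4) (nat_lit 4) (nat_lit 359) (nat_lit 287) (nat_lit 134)) (XT.lf (nat_lit 0) (nat_lit 1873589891031) (nat_lit 76) (nat_lit 410360730988) (nat_lit 76) (nat_lit 291574165822) (nat_lit 3) (nat_lit 4) (nat_lit 4) (nat_lit 5) (nat_lit 4) (nat_lit 4) (nat_lit 360) (nat_lit 287) (nat_lit 133))))) (XT.nd (nat_lit 34944) (nat_lit 0) (nat_lit 3116) (XT.nd (nat_lit 156) (nat_lit 0) (nat_lit 0) (XT.nd (nat_lit 78) (nat_lit 0) (nat_lit 0) (XT.lf (nat_lit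 0) (nat_lit 2142254568419) (nat_lit 76) (nat_lit 376564139616) (nat_lit 76) (nat_lit 257777511762) (nat_lit 3) (nat_lit 4) (nat_lit 4) (nat_lit 5) (nat_lit 4) (nat_lit 4) (nat_lit 361) (nat_lit 287) (nat_lit 132)) (XT.lf (nat_lit 0) (nat_lit 2432412299278) (nat_lit 76) (nat_lit 340063878990) (nat_lit 76) (nat_lit 221277193092) (nat_lit 3) (nat_lit 4) (nat_lit 4) (nat_lit 5) (nat_lit 4) (nat_lit 4) (nat_lit 362) (nat_lit 287) (nat_lit 131))) (XT.nd (nat_lit 78) (nat_lit 0) (nat_lit 0) (XT.lf (nat_lit 0) (nat_lit 2745782536829) (nat_lit 76) (nat_lit 300643651269) (nat_lit 76) (nat_lit 181856911628) (nat_lit 3) (nat_lit 4) (nat_lit 4) (nat_lit 5) (nat_lit 4) (nat_lit 4) (nat_lit 363) (nat_lit 287) (nat_lit 130)) (XT.lf (nat_lit 0) (nat_lit 3084222289887) (nat_lit 76) (nat_lit 258069855105) (nat_lit 76) (nat_lit 139283065700) (nat_lit 3) (nat_lit 4) (nat_lit 4) (nat_lit 5) (nat_lit 4) (nat_lit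 4) (nat_lit 364) (nat_lit 287) (nat_lit 129)))) (XT.nd (nat_lit 156) (nat_lit 0) (nat_lit 76) (XT.nd (nat_lit 78) (nat_lit 0) (nat_lit 0) (XT.lf (nat_lit 0) (nat_lit 10332336147) (nat_lit 532) (nat_lit 3656880995) (nat_lit 532) (nat_lit 3656880995) (nat_lit 44) (nat_lit 3) (nat_lit 51) (nat_lit 3) (nat_lit 51) (nat_lit 5) (nat_lit 288) (nat_lit 288) (nat_lit 204)) (XT.lf (nat_lit 76) (nat_lit 9156052620) (nat_lit 0) (nat_lit 12603390444) (nat_lit 532) (nat_lit 14922829547) (nat_lit 45) (nat_lit 5) (nat_lit 44) (nat_lit 3) (nat_lit 51) (nat_lit 5) (nat_lit 289) (nat_lit 288) (nat_lit 203))) (XT.nd (nat_lit 78) (nat_lit 0) (nat_lit 0) (XT.lf (nat_lit 0) (nat_lit 23238385729) (nat_lit 456) (nat_lit 10912791978) (nat_lit 532) (nat_lit 4008665813) (nat_lit 45) (nat_lit 5) (nat_lit 51) (nat_lit 5) (nat_lit 52) (nat_lit 5) (nat_lit 290) (nat_lit 288) (nat_lit 202)) (XT.lf (nat_lit 76) (nat_lit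 7052171021) (nat_lit 0) (nat_lit 18275980141) (nat_lit 532) (nat_lit 14388082879) (nat_lit 46) (nat_lit 5) (nat_lit 45) (nat_lit 5) (nat_lit 52) (nat_lit 5) (nat_lit 291) (nat_lit 288) (nat_lit 201))))))) (XT.nd (nat_lit 1170) (nat_lit 988) (nat_lit 0) (XT.nd (nat_lit 546) (nat_lit 836) (nat_lit 0) (XT.nd (nat_lit 234) (nat_lit 608) (nat_lit 0) (XT.nd (nat_lit 78) (nat_lit 0) (nat_lit 76) (XT.lf (nat_lit 76) (nat_lit 27072069444) (nat_lit 0) (nat_lit 807206080) (nat_lit 532) (nat_lit 13494339514) (nat_lit 46) (nat_lit 5) (nat_lit 45) (nat_lit 5) (nat_lit 52) (nat_lit 5) (nat_lit 292) (nat_lit 288) (nat_lit 200)) (XT.nd (nat_lit 78) (nat_lit 0) (nat_lit 0) (XT.lf (nat_lit 76) (nat_lit 5360800122) (nat_lit 0) (nat_lit 25833080986) (nat_lit 532) (nat_lit 11924966559) (nat_lit 47) (nat_lit 5) (nat_lit 46) (nat_lit 5) (nat_lit 53) (nat_lit 5) (nat_lit 293) (nat_lit 288) (nat_lit 199)) (XT.lf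 (nat_lit 76) (nat_lit 27384460133) (nat_lit 0) (nat_lit 7797017940) (nat_lit 532) (nat_lit 9789606530) (nat_lit 47) (nat_lit 5) (nat_lit 46) (nat_lit 5) (nat_lit 53) (nat_lit 5) (nat_lit 294) (nat_lit 288) (nat_lit 198)))) (XT.nd (nat_lit 156) (nat_lit 304) (nat_lit 0) (XT.nd (nat_lit 78) (nat_lit 0) (nat_lit 0) (XT.lf (nat_lit 0) (nat_lit 4120672062) (nat_lit 456) (nat_lit 35744106768) (nat_lit 532) (nat_lit 7076596657) (nat_lit 41) (nat_lit 5) (nat_lit 47) (nat_lit 5) (nat_lit 48) (nat_lit 5) (nat_lit 295) (nat_lit 288) (nat_lit 197)) (XT.lf (nat_lit 0) (nat_lit 28348589069) (nat_lit 456) (nat_lit 17249217802) (nat_lit 532) (nat_lit 3417487600) (nat_lit 41) (nat_lit 5) (nat_lit 47) (nat_lit 5) (nat_lit 48) (nat_lit 5) (nat_lit 296) (nat_lit 288) (nat_lit 196))) (XT.nd (nat_lit 78) (nat_lit 0) (nat_lit 0) (XT.lf (nat_lit 0) (nat_lit 654726915) (nat_lit 304) (nat_lit 47901110580) (nat_lit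 76) (nat_lit 2686501296) (nat_lit 37) (nat_lit 5) (nat_lit 41) (nat_lit 5) (nat_lit 38) (nat_lit 5) (nat_lit 297) (nat_lit 288) (nat_lit 195)) (XT.lf (nat_lit 0) (nat_lit 5892987374) (nat_lit 304) (nat_lit 23711746840) (nat_lit 76) (nat_lit 23953726867) (nat_lit 37) (nat_lit 5) (nat_lit 41) (nat_lit 5) (nat_lit 38) (nat_lit 5) (nat_lit 298) (nat_lit 288) (nat_lit 194))))) (XT.nd (nat_lit 312) (nat_lit 380) (nat_lit 0) (XT.nd (nat_lit 156) (nat_lit 228) (nat_lit 0) (XT.nd (nat_lit 78) (nat_lit 0) (nat_lit 0) (XT.lf (nat_lit 0) (nat_lit 2536834320) (nat_lit 228) (nat_lit 9071826850) (nat_lit 304) (nat_lit 44446551052) (nat_lit 34) (nat_lit 5) (nat_lit 37) (nat_lit 5) (nat_lit 38) (nat_lit 5) (nat_lit 299) (nat_lit 288) (nat_lit 193)) (XT.lf (nat_lit 0) (nat_lit 18759360585) (nat_lit 304) (nat_lit 26800977826) (nat_lit 76) (nat_lit 13113150035) (nat_lit 34) (nat_lit 5) (nat_lit 38) (nat_lit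 5) (nat_lit 35) (nat_lit 5) (nat_lit 300) (nat_lit 288) (nat_lit 192))) (XT.nd (nat_lit 78) (nat_lit 0) (nat_lit 0) (XT.lf (nat_lit 0) (nat_lit 1911033774) (nat_lit 228) (nat_lit 24850328534) (nat_lit 304) (nat_lit 34717530979) (nat_lit 31) (nat_lit 5) (nat_lit 34) (nat_lit 5) (nat_lit 35) (nat_lit 5) (nat_lit 301) (nat_lit 288) (nat_lit 191)) (XT.lf (nat_lit 0) (nat_lit 34441524919) (nat_lit 228) (nat_lit 1692548957) (nat_lit 304) (nat_lit 28316218432) (nat_lit 31) (nat_lit 5) (nat_lit 34) (nat_lit 5) (nat_lit 35) (nat_lit 5) (nat_lit 302) (nat_lit 288) (nat_lit 190)))) (XT.nd (nat_lit 156) (nat_lit 228) (nat_lit 0) (XT.nd (nat_lit 78) (nat_lit 0) (nat_lit 0) (XT.lf (nat_lit 0) (nat_lit 1422791291) (nat_lit 152) (nat_lit 45426743513) (nat_lit 228) (nat_lit 20762439195) (nat_lit 29) (nat_lit 5) (nat_lit 31) (nat_lit 5) (nat_lit 32) (nat_lit 5) (nat_lit 303) (nat_lit 288) (nat_lit 189))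 (XT.lf (nat_lit 0) (nat_lit 37026649729) (nat_lit 152) (nat_lit 22256936687) (nat_lit 228) (nat_lit 11674100449) (nat_lit 29) (nat_lit 5) (nat_lit 31) (nat_lit 5) (nat_lit 32) (nat_lit 5) (nat_lit 304) (nat_lit 288) (nat_lit 188))) (XT.nd (nat_lit 78) (nat_lit 76) (nat_lit 0) (XT.lf (nat_lit 0) (nat_lit 882870417) (nat_lit 152) (nat_lit 71915403960) (nat_lit 228) (nat_lit 1765913985) (nat_lit 27) (nat_lit 5) (nat_lit 29) (nat_lit 5) (nat_lit 30) (nat_lit 5) (nat_lit 305) (nat_lit 288) (nat_lit 187)) (XT.lf (nat_lit 0) (nat_lit 10016074038) (nat_lit 228) (nat_lit 38793054329) (nat_lit 76) (nat_lit 29510646088) (nat_lit 26) (nat_lit 5) (nat_lit 29) (nat_lit 5) (nat_lit 27) (nat_lit 5) (nat_lit 306) (nat_lit 288) (nat_lit 186)))))) (XT.nd (nat_lit 624) (nat_lit 380) (nat_lit 0) (XT.nd (nat_lit 312) (nat_lit 304) (nat_lit 0) (XT.nd (nat_lit 156) (nat_lit 152) (nat_lit 0) (XT.nd (nat_lit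 78) (nat_lit 152) (nat_lit 0) (XT.lf (nat_lit 0) (nat_lit 22643525099) (nat_lit 228) (nat_lit 1161965456) (nat_lit 76) (nat_lit 58566786348) (nat_lit 26) (nat_lit 5) (nat_lit 29) (nat_lit 5) (nat_lit 27) (nat_lit 5) (nat_lit 307) (nat_lit 288) (nat_lit 185)) (XT.lf (nat_lit 0) (nat_lit 37381901624) (nat_lit 228) (nat_lit 45215791642) (nat_lit 76) (nat_lit 4063231295) (nat_lit 24) (nat_lit 5) (nat_lit 27) (nat_lit 5) (nat_lit 25) (nat_lit 5) (nat_lit 308) (nat_lit 288) (nat_lit 184))) (XT.nd (nat_lit 78) (nat_lit 152) (nat_lit 0) (XT.lf (nat_lit 0) (nat_lit 53948751829) (nat_lit 228) (nat_lit 4384635801) (nat_lit 76) (nat_lit 32907327234) (nat_lit 24) (nat_lit 5) (nat_lit 27) (nat_lit 5) (nat_lit 25) (nat_lit 5) (nat_lit 309) (nat_lit 288) (nat_lit 183)) (XT.lf (nat_lit 0) (nat_lit 41802041277) (nat_lit 152) (nat_lit 31042844920) (nat_lit 228) (nat_lit 23261690187) (nat_lit 22) (nat_lit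 5) (nat_lit 24) (nat_lit 5) (nat_lit 25) (nat_lit 5) (nat_lit 310) (nat_lit 288) (nat_lit 182)))) (XT.nd (nat_lit 156) (nat_lit 152) (nat_lit 0) (XT.nd (nat_lit 78) (nat_lit 152) (nat_lit 0) (XT.lf (nat_lit 0) (nat_lit 91930984636) (nat_lit 152) (nat_lit 1440261714) (nat_lit 228) (nat_lit 7980980346) (nat_lit 22) (nat_lit 5) (nat_lit 24) (nat_lit 5) (nat_lit 25) (nat_lit 5) (nat_lit 311) (nat_lit 288) (nat_lit 181)) (XT.lf (nat_lit 0) (nat_lit 9843138132) (nat_lit 152) (nat_lit 66796312379) (nat_lit 76) (nat_lit 30221902820) (nat_lit 20) (nat_lit 5) (nat_lit 22) (nat_lit 5) (nat_lit 21) (nat_lit 5) (nat_lit 312) (nat_lit 288) (nat_lit 180))) (XT.nd (nat_lit 78) (nat_lit 152) (nat_lit 0) (XT.lf (nat_lit 0) (nat_lit 28962449411) (nat_lit 152) (nat_lit 18997961426) (nat_lit 76) (nat_lit 64810182040) (nat_lit 20) (nat_lit 5) (nat_lit 22) (nat_lit 5) (nat_lit 21) (nat_lit 5) (nat_lit 313)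 (nat_lit 288) (nat_lit 179)) (XT.lf (nat_lit 0) (nat_lit 34340261884) (nat_lit 152) (nat_lit 16095770398) (nat_lit 228) (nat_lit 68650563134) (nat_lit 18) (nat_lit 5) (nat_lit 20) (nat_lit 5) (nat_lit 21) (nat_lit 5) (nat_lit 314) (nat_lit 288) (nat_lit 178))))) (XT.nd (nat_lit 312) (nat_lit 76) (nat_lit 0) (XT.nd (nat_lit 156) (nat_lit 228) (nat_lit 0) (XT.nd (nat_lit 78) (nat_lit 76) (nat_lit 0) (XT.lf (nat_lit 0) (nat_lit 74599850040) (nat_lit 228) (nat_lit 33296253436) (nat_lit 76) (nat_lit 17933988641) (nat_lit 18) (nat_lit 5) (nat_lit 21) (nat_lit 5) (nat_lit 19) (nat_lit 4) (nat_lit 315) (nat_lit 288) (nat_lit 177)) (XT.lf (nat_lit 0) (nat_lit 23000620246) (nat_lit 76) (nat_lit 78666343266) (nat_lit 152) (nat_lit 31368491501) (nat_lit 17) (nat_lit 5) (nat_lit 18) (nat_lit 5) (nat_lit 19) (nat_lit 4) (nat_lit 316) (nat_lit 288) (nat_lit 176))) (XT.nd (nat_lit 78) (nat_lit 228)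 (nat_lit 0) (XT.lf (nat_lit 0) (nat_lit 85693149891) (nat_lit 76) (nat_lit 46115664741) (nat_lit 152) (nat_lit 8935684383) (nat_lit 17) (nat_lit 5) (nat_lit 18) (nat_lit 5) (nat_lit 19) (nat_lit 4) (nat_lit 317) (nat_lit 288) (nat_lit 175)) (XT.lf (nat_lit 0) (nat_lit 4170042117) (nat_lit 152) (nat_lit 10456078815) (nat_lit 228) (nat_lit 134406779289) (nat_lit 14) (nat_lit 5) (nat_lit 16) (nat_lit 5) (nat_lit 17) (nat_lit 5) (nat_lit 318) (nat_lit 288) (nat_lit 174)))) (XT.nd (nat_lit 156) (nat_lit 76) (nat_lit 0) (XT.nd (nat_lit 78) (nat_lit 0) (nat_lit 0) (XT.lf (nat_lit 0) (nat_lit 41808220476) (nat_lit 228) (nat_lit 87551567699) (nat_lit 76) (nat_lit 28428570223) (nat_lit 14) (nat_lit 5) (nat_lit 17) (nat_lit 5) (nat_lit 15) (nat_lit 4) (nat_lit 319) (nat_lit 288) (nat_lit 173)) (XT.lf (nat_lit 0) (nat_lit 71435601486) (nat_lit 228) (nat_lit 25928467977) (nat_lit 76) (nat_lit 69858527831)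 (nat_lit 14) (nat_lit 5) (nat_lit 17) (nat_lit 5) (nat_lit 15) (nat_lit 4) (nat_lit 320) (nat_lit 288) (nat_lit 172))) (XT.nd (nat_lit 78) (nat_lit 0) (nat_lit 0) (XT.lf (nat_lit 0) (nat_lit 42762223542) (nat_lit 76) (nat_lit 61698573644) (nat_lit 152) (nat_lit 72868569241) (nat_lit 13) (nat_lit 5) (nat_lit 14) (nat_lit 5) (nat_lit 15) (nat_lit 4) (nat_lit 321) (nat_lit 288) (nat_lit 171)) (XT.lf (nat_lit 0) (nat_lit 118421384877) (nat_lit 76) (nat_lit 22414772786) (nat_lit 152) (nat_lit 47351868478) (nat_lit 13) (nat_lit 5) (nat_lit 14) (nat_lit 5) (nat_lit 15) (nat_lit 4) (nat_lit 322) (nat_lit 288) (nat_lit 170))))))))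
noncomputable def xc93 : XT := (XT.nd (nat_lit 2418) (nat_lit 0) (nat_lit 0) (XT.nd (nat_lit 1170) (nat_lit 228) (nat_lit 0) (XT.nd (nat_lit 546) (nat_lit 228) (nat_lit 0) (XT.nd (nat_lit 234) (nat_lit 152) (nat_lit 0) (XT.nd (nat_lit 78) (nat_lit 152) (nat_lit 0) (XT.lf (nat_lit 0) (nat_lit 180602093440) (nat_lit 152) (nat_lit 264687706) (nat_lit 0) (nat_lit 19010154681) (nat_lit 13) (nat_lit 5) (nat_lit 15) (nat_lit 4) (nat_lit 13) (nat_lit 4) (nat_lit 323) (nat_lit 288) (nat_lit 169)) (XT.nd (nat_lit 78) (nat_lit 0) (nat_lit 0) (XT.lf (nat_lit 0) (nat_lit 13019923312) (nat_lit 152) (nat_lit 134511759239) (nat_lit 76) (nat_lit 64746078636) (nat_lit 11) (nat_lit 5) (nat_lit 13) (nat_lit 5) (nat_lit 12) (nat_lit 4) (nat_lit 324) (nat_lit 288) (nat_lit 168)) (XT.lf (nat_lit 0) (nat_lit 46863675777) (nat_lit 152) (nat_lit 64117921676) (nat_lit 76) (nat_lit 114648464413) (nat_lit 11) (nat_lit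 5) (nat_lit 13) (nat_lit 5) (nat_lit 12) (nat_lit 4) (nat_lit 325) (nat_lit 288) (nat_lit 167)))) (XT.nd (nat_lit 156) (nat_lit 76) (nat_lit 0) (XT.nd (nat_lit 78) (nat_lit 0) (nat_lit 0) (XT.lf (nat_lit 0) (nat_lit 12533262798) (nat_lit 76) (nat_lit 71182463725) (nat_lit 152) (nat_lit 156310756897) (nat_lit 10) (nat_lit 5) (nat_lit 11) (nat_lit 5) (nat_lit 12) (nat_lit 4) (nat_lit 326) (nat_lit 288) (nat_lit 166)) (XT.lf (nat_lit 0) (nat_lit 98961888865) (nat_lit 76) (nat_lit 26306542979) (nat_lit 152) (nat_lit 130165988235) (nat_lit 10) (nat_lit 5) (nat_lit 11) (nat_lit 5) (nat_lit 12) (nat_lit 4) (nat_lit 327) (nat_lit 288) (nat_lit 165))) (XT.nd (nat_lit 78) (nat_lit 76) (nat_lit 0) (XT.lf (nat_lit 0) (nat_lit 170677715915) (nat_lit 152) (nat_lit 80304171630) (nat_lit 0) (nat_lit 21050515710) (nat_lit 10) (nat_lit 5) (nat_lit 12) (nat_lit 4) (nat_lit 10) (nat_lit 4) (nat_lit 328)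 (nat_lit 288) (nat_lit 164)) (XT.lf (nat_lit 0) (nat_lit 1340452884) (nat_lit 76) (nat_lit 219094284015) (nat_lit 76) (nat_lit 69466289184) (nat_lit 9) (nat_lit 4) (nat_lit 10) (nat_lit 5) (nat_lit 10) (nat_lit 4) (nat_lit 329) (nat_lit 288) (nat_lit 163))))) (XT.nd (nat_lit 312) (nat_lit 76) (nat_lit 0) (XT.nd (nat_lit 156) (nat_lit 76) (nat_lit 0) (XT.nd (nat_lit 78) (nat_lit 76) (nat_lit 0) (XT.lf (nat_lit 0) (nat_lit 94082669473) (nat_lit 76) (nat_lit 182284794402) (nat_lit 76) (nat_lit 32656063808) (nat_lit 9) (nat_lit 4) (nat_lit 10) (nat_lit 5) (nat_lit 10) (nat_lit 4) (nat_lit 330) (nat_lit 288) (nat_lit 162)) (XT.lf (nat_lit 0) (nat_lit 6743371121) (nat_lit 152) (nat_lit 135603199924) (nat_lit 76) (nat_lit 187315639437) (nat_lit 8) (nat_lit 5) (nat_lit 10) (nat_lit 5) (nat_lit 9) (nat_lit 4) (nat_lit 331) (nat_lit 288) (nat_lit 161))) (XT.nd (nat_lit 78) (nat_lit 76) (nat_lit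 0) (XT.lf (nat_lit 0) (nat_lit 47530032628) (nat_lit 152) (nat_lit 50767574788) (nat_lit 76) (nat_lit 253586560329) (nat_lit 8) (nat_lit 5) (nat_lit 10) (nat_lit 5) (nat_lit 9) (nat_lit 4) (nat_lit 332) (nat_lit 288) (nat_lit 160)) (XT.lf (nat_lit 0) (nat_lit 43005431819) (nat_lit 76) (nat_lit 49608057867) (nat_lit 152) (nat_lit 283187683255) (nat_lit 7) (nat_lit 5) (nat_lit 8) (nat_lit 5) (nat_lit 9) (nat_lit 4) (nat_lit 333) (nat_lit 288) (nat_lit 159)))) (XT.nd (nat_lit 156) (nat_lit 76) (nat_lit 0) (XT.nd (nat_lit 78) (nat_lit 0) (nat_lit 0) (XT.lf (nat_lit 0) (nat_lit 142798926783) (nat_lit 152) (nat_lit 254461438391) (nat_lit 0) (nat_lit 4251549434) (nat_lit 7) (nat_lit 5) (nat_lit 9) (nat_lit 4) (nat_lit 7) (nat_lit 4) (nat_lit 334) (nat_lit 288) (nat_lit 158)) (XT.lf (nat_lit 0) (nat_lit 198287336001) (nat_lit 152) (nat_lit 171149633950) (nat_lit 0) (nat_lit 59739494995) (nat_lit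 7) (nat_lit 5) (nat_lit 9) (nat_lit 4) (nat_lit 7) (nat_lit 4) (nat_lit 335) (nat_lit 288) (nat_lit 157))) (XT.nd (nat_lit 78) (nat_lit 76) (nat_lit 0) (XT.lf (nat_lit 0) (nat_lit 258214462557) (nat_lit 152) (nat_lit 81173553232) (nat_lit 0) (nat_lit 119666192240) (nat_lit 7) (nat_lit 5) (nat_lit 9) (nat_lit 4) (nat_lit 7) (nat_lit 4) (nat_lit 336) (nat_lit 288) (nat_lit 156)) (XT.lf (nat_lit 0) (nat_lit 16842526751) (nat_lit 76) (nat_lit 306497966587) (nat_lit 76) (nat_lit 167949298760) (nat_lit 6) (nat_lit 4) (nat_lit 7) (nat_lit 5) (nat_lit 7) (nat_lit 4) (nat_lit 337) (nat_lit 288) (nat_lit 155)))))) (XT.nd (nat_lit 624) (nat_lit 76) (nat_lit 0) (XT.nd (nat_lit 312) (nat_lit 76) (nat_lit 0) (XT.nd (nat_lit 156) (nat_lit 76) (nat_lit 0) (XT.nd (nat_lit 78) (nat_lit 0) (nat_lit 0) (XT.lf (nat_lit 0) (nat_lit 127315702102) (nat_lit 76) (nat_lit 268580014080) (nat_lit 76) (nat_lit 130030978187)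 (nat_lit 6) (nat_lit 4) (nat_lit 7) (nat_lit 5) (nat_lit 7) (nat_lit 4) (nat_lit 338) (nat_lit 288) (nat_lit 154)) (XT.lf (nat_lit 0) (nat_lit 246626173212) (nat_lit 76) (nat_lit 227628888088) (nat_lit 76) (nat_lit 89079511394) (nat_lit 6) (nat_lit 4) (nat_lit 7) (nat_lit 5) (nat_lit 7) (nat_lit 4) (nat_lit 339) (nat_lit 288) (nat_lit 153))) (XT.nd (nat_lit 78) (nat_lit 76) (nat_lit 0) (XT.lf (nat_lit 0) (nat_lit 375480965094) (nat_lit 76) (nat_lit 183401915272) (nat_lit 76) (nat_lit 44852223022) (nat_lit 6) (nat_lit 4) (nat_lit 7) (nat_lit 5) (nat_lit 7) (nat_lit 4) (nat_lit 340) (nat_lit 288) (nat_lit 152)) (XT.lf (nat_lit 0) (nat_lit 2767255778) (nat_lit 152) (nat_lit 132794092412) (nat_lit 76) (nat_lit 511800744246) (nat_lit 5) (nat_lit 5) (nat_lit 7) (nat_lit 5) (nat_lit 6) (nat_lit 4) (nat_lit 341) (nat_lit 288) (nat_lit 151)))) (XT.nd (nat_lit 156) (nat_lit 0) (nat_lit 0) (XT.nd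 (nat_lit 78) (nat_lit 76) (nat_lit 0) (XT.lf (nat_lit 0) (nat_lit 51772866962) (nat_lit 152) (nat_lit 30862691689) (nat_lit 76) (nat_lit 611750501971) (nat_lit 5) (nat_lit 5) (nat_lit 7) (nat_lit 5) (nat_lit 6) (nat_lit 4) (nat_lit 342) (nat_lit 288) (nat_lit 150)) (XT.lf (nat_lit 0) (nat_lit 83394531039) (nat_lit 76) (nat_lit 23309813435) (nat_lit 152) (nat_lit 638307168547) (nat_lit 4) (nat_lit 5) (nat_lit 5) (nat_lit 5) (nat_lit 6) (nat_lit 4) (nat_lit 343) (nat_lit 288) (nat_lit 149))) (XT.nd (nat_lit 78) (nat_lit 0) (nat_lit 0) (XT.lf (nat_lit 0) (nat_lit 167876204576) (nat_lit 152) (nat_lit 592074643282) (nat_lit 0) (nat_lit 39588484749) (nat_lit 4) (nat_lit 5) (nat_lit 6) (nat_lit 4) (nat_lit 4) (nat_lit 4) (nat_lit 344) (nat_lit 288) (nat_lit 148)) (XT.lf (nat_lit 0) (nat_lit 234547058452) (nat_lit 152) (nat_lit 517574760072) (nat_lit 0) (nat_lit 106259139770) (nat_lit 4) (nat_lit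 5) (nat_lit 6) (nat_lit 4) (nat_lit 4) (nat_lit 4) (nat_lit 345) (nat_lit 288) (nat_lit 147))))) (XT.nd (nat_lit 312) (nat_lit 76) (nat_lit 0) (XT.nd (nat_lit 156) (nat_lit 0) (nat_lit 0) (XT.nd (nat_lit 78) (nat_lit 0) (nat_lit 0) (XT.lf (nat_lit 0) (nat_lit 306551391070) (nat_lit 152) (nat_lit 437115249989) (nat_lit 0) (nat_lit 178263288264) (nat_lit 4) (nat_lit 5) (nat_lit 6) (nat_lit 4) (nat_lit 4) (nat_lit 4) (nat_lit 346) (nat_lit 288) (nat_lit 146)) (XT.lf (nat_lit 0) (nat_lit 384315894772) (nat_lit 152) (nat_lit 350219315939) (nat_lit 0) (nat_lit 256027621482) (nat_lit 4) (nat_lit 5) (nat_lit 6) (nat_lit 4) (nat_lit 4) (nat_lit 4) (nat_lit 347) (nat_lit 288) (nat_lit 145))) (XT.nd (nat_lit 78) (nat_lit 0) (nat_lit 0) (XT.lf (nat_lit 0) (nat_lit 468301396248) (nat_lit 152) (nat_lit 256372019051) (nat_lit 0) (nat_lit 340012965100) (nat_lit 4) (nat_lit 5) (nat_lit 6) (nat_lit 4)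 (nat_lit 4) (nat_lit 4) (nat_lit 348) (nat_lit 288) (nat_lit 144)) (XT.lf (nat_lit 0) (nat_lit 559005587356) (nat_lit 152) (nat_lit 155017227196) (nat_lit 0) (nat_lit 430717010045) (nat_lit 4) (nat_lit 5) (nat_lit 6) (nat_lit 4) (nat_lit 4) (nat_lit 4) (nat_lit 349) (nat_lit 288) (nat_lit 143)))) (XT.nd (nat_lit 156) (nat_lit 0) (nat_lit 0) (XT.nd (nat_lit 78) (nat_lit 76) (nat_lit 0) (XT.lf (nat_lit 0) (nat_lit 656965974416) (nat_lit 152) (nat_lit 45554319385) (nat_lit 0) (nat_lit 528677261768) (nat_lit 4) (nat_lit 5) (nat_lit 6) (nat_lit 4) (nat_lit 4) (nat_lit 4) (nat_lit 350) (nat_lit 288) (nat_lit 142)) (XT.lf (nat_lit 0) (nat_lit 76491803256) (nat_lit 76) (nat_lit 688110889875) (nat_lit 76) (nat_lit 559822051915) (nat_lit 3) (nat_lit 4) (nat_lit 4) (nat_lit 5) (nat_lit 4) (nat_lit 4) (nat_lit 351) (nat_lit 288) (nat_lit 141))) (XT.nd (nat_lit 78) (nat_lit 0) (nat_lit 0) (XT.lf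 (nat_lit 0) (nat_lit 210892088900) (nat_lit 76) (nat_lit 671203671002) (nat_lit 76) (nat_lit 542914717013) (nat_lit 3) (nat_lit 4) (nat_lit 4) (nat_lit 5) (nat_lit 4) (nat_lit 4) (nat_lit 352) (nat_lit 288) (nat_lit 140)) (XT.lf (nat_lit 0) (nat_lit 356044173952) (nat_lit 76) (nat_lit 652943982078) (nat_lit 76) (nat_lit 524654920654) (nat_lit 3) (nat_lit 4) (nat_lit 4) (nat_lit 5) (nat_lit 4) (nat_lit 4) (nat_lit 353) (nat_lit 288) (nat_lit 139))))))) (XT.nd (nat_lit 35880) (nat_lit 0) (nat_lit 1748) (XT.nd (nat_lit 546) (nat_lit 0) (nat_lit 0) (XT.nd (nat_lit 234) (nat_lit 0) (nat_lit 0) (XT.nd (nat_lit 78) (nat_lit 0) (nat_lit 0) (XT.lf (nat_lit 0) (nat_lit 512808218918) (nat_lit 76) (nat_lit 633223617538) (nat_lit 76) (nat_lit 504934456637) (nat_lit 3) (nat_lit 4) (nat_lit 4) (nat_lit 5) (nat_lit 4) (nat_lit 4) (nat_lit 354) (nat_lit 288) (nat_lit 138)) (XT.nd (nat_lit 78) (nat_lit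 0) (nat_lit 0) (XT.lf (nat_lit 0) (nat_lit 682113195915) (nat_lit 76) (nat_lit 611925715962) (nat_lit 76) (nat_lit 483636462953) (nat_lit 3) (nat_lit 4) (nat_lit 4) (nat_lit 5) (nat_lit 4) (nat_lit 4) (nat_lit 355) (nat_lit 288) (nat_lit 137)) (XT.lf (nat_lit 0) (nat_lit 864962393697) (nat_lit 76) (nat_lit 588924067563) (nat_lit 76) (nat_lit 460634729270) (nat_lit 3) (nat_lit 4) (nat_lit 4) (nat_lit 5) (nat_lit 4) (nat_lit 4) (nat_lit 356) (nat_lit 288) (nat_lit 136)))) (XT.nd (nat_lit 156) (nat_lit 0) (nat_lit 0) (XT.nd (nat_lit 78) (nat_lit 0) (nat_lit 0) (XT.lf (nat_lit 0) (nat_lit 1062439363063) (nat_lit 76) (nat_lit 564082366278) (nat_lit 76) (nat_lit 435792949016) (nat_lit 3) (nat_lit 4) (nat_lit 4) (nat_lit 5) (nat_lit 4) (nat_lit 4) (nat_lit 357) (nat_lit 288) (nat_lit 135)) (XT.lf (nat_lit 0) (nat_lit 1275714337908) (nat_lit 76) (nat_lit 537253402024) (nat_lit 76) (nat_lit 408963911644)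 (nat_lit 3) (nat_lit 4) (nat_lit 4) (nat_lit 5) (nat_lit 4) (nat_lit 4) (nat_lit 358) (nat_lit 288) (nat_lit 134))) (XT.nd (nat_lit 78) (nat_lit 0) (nat_lit 0) (XT.lf (nat_lit 0) (nat_lit 1506051169934) (nat_lit 76) (nat_lit 508278188346) (nat_lit 76) (nat_lit 379988630264) (nat_lit 3) (nat_lit 4) (nat_lit 4) (nat_lit 5) (nat_lit 4) (nat_lit 4) (nat_lit 359) (nat_lit 288) (nat_lit 133)) (XT.lf (nat_lit 0) (nat_lit 1754814818146) (nat_lit 76) (nat_lit 476985020275) (nat_lit 76) (nat_lit 348695399506) (nat_lit 3) (nat_lit 4) (nat_lit 4) (nat_lit 5) (nat_lit 4) (nat_lit 4) (nat_lit 360) (nat_lit 288) (nat_lit 132))))) (XT.nd (nat_lit 35022) (nat_lit 0) (nat_lit 3116) (XT.nd (nat_lit 156) (nat_lit 0) (nat_lit 0) (XT.nd (nat_lit 78) (nat_lit 0) (nat_lit 0) (XT.lf (nat_lit 0) (nat_lit 2023479437495) (nat_lit 76) (nat_lit 443188456814) (nat_lit 76) (nat_lit 314898778001) (nat_lit 3) (nat_lit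 4) (nat_lit 4) (nat_lit 5) (nat_lit 4) (nat_lit 4) (nat_lit 361) (nat_lit 288) (nat_lit 131)) (XT.lf (nat_lit 0) (nat_lit 2313637114616) (nat_lit 76) (nat_lit 406688222032) (nat_lit 76) (nat_lit 278398489475) (nat_lit 3) (nat_lit 4) (nat_lit 4) (nat_lit 5) (nat_lit 4) (nat_lit 4) (nat_lit 362) (nat_lit 288) (nat_lit 130))) (XT.nd (nat_lit 78) (nat_lit 0) (nat_lit 0) (XT.lf (nat_lit 0) (nat_lit 2627007302409) (nat_lit 76) (nat_lit 367268018241) (nat_lit 76) (nat_lit 238978235921) (nat_lit 3) (nat_lit 4) (nat_lit 4) (nat_lit 5) (nat_lit 4) (nat_lit 4) (nat_lit 363) (nat_lit 288) (nat_lit 129)) (XT.lf (nat_lit 0) (nat_lit 2965447009394) (nat_lit 76) (nat_lit 324694244234) (nat_lit 76) (nat_lit 196404415837) (nat_lit 3) (nat_lit 4) (nat_lit 4) (nat_lit 5) (nat_lit 4) (nat_lit 4) (nat_lit 364) (nat_lit 288) (nat_lit 128)))) (XT.nd (nat_lit 156) (nat_lit 0) (nat_lit 76) (XT.nd (nat_lit 78)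 (nat_lit 0) (nat_lit 0) (XT.lf (nat_lit 0) (nat_lit 11205749697) (nat_lit 532) (nat_lit 3924068562) (nat_lit 532) (nat_lit 3924068562) (nat_lit 44) (nat_lit 3) (nat_lit 51) (nat_lit 3) (nat_lit 51) (nat_lit 5) (nat_lit 289) (nat_lit 289) (nat_lit 202)) (XT.lf (nat_lit 76) (nat_lit 9937978458) (nat_lit 0) (nat_lit 13650125156) (nat_lit 532) (nat_lit 16021434997) (nat_lit 45) (nat_lit 5) (nat_lit 44) (nat_lit 3) (nat_lit 51) (nat_lit 5) (nat_lit 290) (nat_lit 289) (nat_lit 201))) (XT.nd (nat_lit 78) (nat_lit 0) (nat_lit 0) (XT.lf (nat_lit 0) (nat_lit 25177993677) (nat_lit 456) (nat_lit 11732405630) (nat_lit 532) (nat_lit 4295526321) (nat_lit 45) (nat_lit 5) (nat_lit 51) (nat_lit 5) (nat_lit 52) (nat_lit 5) (nat_lit 291) (nat_lit 289) (nat_lit 200)) (XT.lf (nat_lit 76) (nat_lit 7668402265) (nat_lit 0) (nat_lit 19761824355) (nat_lit 532) (nat_lit 15456997305) (nat_lit 46) (nat_lit 5) (nat_lit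 45) (nat_lit 5) (nat_lit 52) (nat_lit 5) (nat_lit 292) (nat_lit 289) (nat_lit 199)))))) (XT.nd (nat_lit 624) (nat_lit 608) (nat_lit 0) (XT.nd (nat_lit 312) (nat_lit 532) (nat_lit 0) (XT.nd (nat_lit 156) (nat_lit 304) (nat_lit 0) (XT.nd (nat_lit 78) (nat_lit 0) (nat_lit 76) (XT.lf (nat_lit 76) (nat_lit 29286036446) (nat_lit 0) (nat_lit 893787939) (nat_lit 532) (nat_lit 14497838338) (nat_lit 46) (nat_lit 5) (nat_lit 45) (nat_lit 5) (nat_lit 52) (nat_lit 5) (nat_lit 293) (nat_lit 289) (nat_lit 198)) (XT.lf (nat_lit 76) (nat_lit 5842854751) (nat_lit 0) (nat_lit 27912332368) (nat_lit 532) (nat_lit 12807696412) (nat_lit 47) (nat_lit 5) (nat_lit 46) (nat_lit 5) (nat_lit 53) (nat_lit 5) (nat_lit 294) (nat_lit 289) (nat_lit 197))) (XT.nd (nat_lit 78) (nat_lit 380) (nat_lit 0) (XT.lf (nat_lit 76) (nat_lit 29624467517) (nat_lit 0) (nat_lit 8432450582) (nat_lit 532) (nat_lit 10506786652) (nat_lit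 47) (nat_lit 5) (nat_lit 46) (nat_lit 5) (nat_lit 53) (nat_lit 5) (nat_lit 295) (nat_lit 289) (nat_lit 196)) (XT.lf (nat_lit 0) (nat_lit 4503541488) (nat_lit 456) (nat_lit 38607848642) (nat_lit 532) (nat_lit 7580522487) (nat_lit 41) (nat_lit 5) (nat_lit 47) (nat_lit 5) (nat_lit 48) (nat_lit 5) (nat_lit 296) (nat_lit 289) (nat_lit 195)))) (XT.nd (nat_lit 156) (nat_lit 228) (nat_lit 0) (XT.nd (nat_lit 78) (nat_lit 304) (nat_lit 0) (XT.lf (nat_lit 0) (nat_lit 30665749955) (nat_lit 456) (nat_lit 18633056459) (nat_lit 532) (nat_lit 3633292254) (nat_lit 41) (nat_lit 5) (nat_lit 47) (nat_lit 5) (nat_lit 48) (nat_lit 5) (nat_lit 297) (nat_lit 289) (nat_lit 194)) (XT.lf (nat_lit 0) (nat_lit 758969932) (nat_lit 304) (nat_lit 51677901293) (nat_lit 76) (nat_lit 2900563709) (nat_lit 37) (nat_lit 5) (nat_lit 41) (nat_lit 5) (nat_lit 38) (nat_lit 5) (nat_lit 298) (nat_lit 289) (nat_lit 193))) (XT.nd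 (nat_lit 78) (nat_lit 228) (nat_lit 0) (XT.lf (nat_lit 0) (nat_lit 6412449386) (nat_lit 304) (nat_lit 25557484613) (nat_lit 76) (nat_lit 25869230858) (nat_lit 37) (nat_lit 5) (nat_lit 41) (nat_lit 5) (nat_lit 38) (nat_lit 5) (nat_lit 299) (nat_lit 289) (nat_lit 192)) (XT.lf (nat_lit 0) (nat_lit 2789686788) (nat_lit 228) (nat_lit 9793333271) (nat_lit 304) (nat_lit 47952834316) (nat_lit 34) (nat_lit 5) (nat_lit 37) (nat_lit 5) (nat_lit 38) (nat_lit 5) (nat_lit 300) (nat_lit 289) (nat_lit 191))))) (XT.nd (nat_lit 312) (nat_lit 228) (nat_lit 0) (XT.nd (nat_lit 156) (nat_lit 152) (nat_lit 0) (XT.nd (nat_lit 78) (nat_lit 228) (nat_lit 0) (XT.lf (nat_lit 0) (nat_lit 20302487173) (nat_lit 304) (nat_lit 28895446254) (nat_lit 76) (nat_lit 14165931333) (nat_lit 34) (nat_lit 5) (nat_lit 38) (nat_lit 5) (nat_lit 35) (nat_lit 5) (nat_lit 301) (nat_lit 289) (nat_lit 190)) (XT.lf (nat_lit 0) (nat_lit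 2112270329) (nat_lit 228) (nat_lit 26830402524) (nat_lit 304) (nat_lit 37451195567) (nat_lit 31) (nat_lit 5) (nat_lit 34) (nat_lit 5) (nat_lit 35) (nat_lit 5) (nat_lit 302) (nat_lit 289) (nat_lit 189))) (XT.nd (nat_lit 78) (nat_lit 152) (nat_lit 0) (XT.lf (nat_lit 0) (nat_lit 37241619000) (nat_lit 228) (nat_lit 1820589640) (nat_lit 304) (nat_lit 30541017860) (nat_lit 31) (nat_lit 5) (nat_lit 34) (nat_lit 5) (nat_lit 35) (nat_lit 5) (nat_lit 303) (nat_lit 289) (nat_lit 188)) (XT.lf (nat_lit 0) (nat_lit 1583091595) (nat_lit 152) (nat_lit 49050325561) (nat_lit 228) (nat_lit 22384551858) (nat_lit 29) (nat_lit 5) (nat_lit 31) (nat_lit 5) (nat_lit 32) (nat_lit 5) (nat_lit 304) (nat_lit 289) (nat_lit 187)))) (XT.nd (nat_lit 156) (nat_lit 76) (nat_lit 0) (XT.nd (nat_lit 78) (nat_lit 152) (nat_lit 0) (XT.lf (nat_lit 0) (nat_lit 40031815967) (nat_lit 152) (nat_lit 24027716221) (nat_lit 228) (nat_lit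 12572026196) (nat_lit 29) (nat_lit 5) (nat_lit 31) (nat_lit 5) (nat_lit 32) (nat_lit 5) (nat_lit 305) (nat_lit 289) (nat_lit 186)) (XT.lf (nat_lit 0) (nat_lit 997889665) (nat_lit 152) (nat_lit 77656327158) (nat_lit 228) (nat_lit 1872463575) (nat_lit 27) (nat_lit 5) (nat_lit 29) (nat_lit 5) (nat_lit 30) (nat_lit 5) (nat_lit 306) (nat_lit 289) (nat_lit 185))) (XT.nd (nat_lit 78) (nat_lit 0) (nat_lit 0) (XT.lf (nat_lit 0) (nat_lit 10847903033) (nat_lit 228) (nat_lit 41853723169) (nat_lit 76) (nat_lit 31881221097) (nat_lit 26) (nat_lit 5) (nat_lit 29) (nat_lit 5) (nat_lit 27) (nat_lit 5) (nat_lit 307) (nat_lit 289) (nat_lit 184)) (XT.lf (nat_lit 0) (nat_lit 24483287729) (nat_lit 228) (nat_lit 1215315742) (nat_lit 76) (nat_lit 63261132331) (nat_lit 26) (nat_lit 5) (nat_lit 29) (nat_lit 5) (nat_lit 27) (nat_lit 5) (nat_lit 308) (nat_lit 289) (nat_lit 183))))))))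
noncomputable def xc94 : XT := (XT.nd (nat_lit 2340) (nat_lit 228) (nat_lit 0) (XT.nd (nat_lit 1170) (nat_lit 532) (nat_lit 0) (XT.nd (nat_lit 546) (nat_lit 380) (nat_lit 0) (XT.nd (nat_lit 234) (nat_lit 304) (nat_lit 0) (XT.nd (nat_lit 78) (nat_lit 152) (nat_lit 0) (XT.lf (nat_lit 0) (nat_lit 40399844284) (nat_lit 228) (nat_lit 48792501632) (nat_lit 76) (nat_lit 4399205068) (nat_lit 24) (nat_lit 5) (nat_lit 27) (nat_lit 5) (nat_lit 25) (nat_lit 5) (nat_lit 309) (nat_lit 289) (nat_lit 182)) (XT.nd (nat_lit 78) (nat_lit 152) (nat_lit 0) (XT.lf (nat_lit 0) (nat_lit 58290013577) (nat_lit 228) (nat_lit 4697857275) (nat_lit 76) (nat_lit 35550020144) (nat_lit 24) (nat_lit 5) (nat_lit 27) (nat_lit 5) (nat_lit 25) (nat_lit 5) (nat_lit 310) (nat_lit 289) (nat_lit 181)) (XT.lf (nat_lit 0) (nat_lit 45182803352) (nat_lit 152) (nat_lit 33514036907) (nat_lit 228) (nat_lit 25096264915) (nat_lit 22)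 (nat_lit 5) (nat_lit 24) (nat_lit 5) (nat_lit 25) (nat_lit 5) (nat_lit 311) (nat_lit 289) (nat_lit 180)))) (XT.nd (nat_lit 156) (nat_lit 152) (nat_lit 0) (XT.nd (nat_lit 78) (nat_lit 152) (nat_lit 0) (XT.lf (nat_lit 0) (nat_lit 99319351159) (nat_lit 152) (nat_lit 1544153386) (nat_lit 228) (nat_lit 8595050916) (nat_lit 22) (nat_lit 5) (nat_lit 24) (nat_lit 5) (nat_lit 25) (nat_lit 5) (nat_lit 312) (nat_lit 289) (nat_lit 179)) (XT.lf (nat_lit 0) (nat_lit 10653170279) (nat_lit 152) (nat_lit 72104223158) (nat_lit 76) (nat_lit 32651023357) (nat_lit 20) (nat_lit 5) (nat_lit 22) (nat_lit 5) (nat_lit 21) (nat_lit 5) (nat_lit 313) (nat_lit 289) (nat_lit 178))) (XT.nd (nat_lit 78) (nat_lit 152) (nat_lit 0) (XT.lf (nat_lit 0) (nat_lit 31300353786) (nat_lit 152) (nat_lit 20484655552) (nat_lit 76) (nat_lit 70005522817) (nat_lit 20) (nat_lit 5) (nat_lit 22) (nat_lit 5) (nat_lit 21) (nat_lit 5) (nat_lit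 314) (nat_lit 289) (nat_lit 177)) (XT.lf (nat_lit 0) (nat_lit 37119786565) (nat_lit 152) (nat_lit 17371264856) (nat_lit 228) (nat_lit 74120827855) (nat_lit 18) (nat_lit 5) (nat_lit 20) (nat_lit 5) (nat_lit 21) (nat_lit 5) (nat_lit 315) (nat_lit 289) (nat_lit 176))))) (XT.nd (nat_lit 312) (nat_lit 76) (nat_lit 0) (XT.nd (nat_lit 156) (nat_lit 228) (nat_lit 0) (XT.nd (nat_lit 78) (nat_lit 76) (nat_lit 0) (XT.lf (nat_lit 0) (nat_lit 80586753948) (nat_lit 228) (nat_lit 35928791781) (nat_lit 76) (nat_lit 19379410068) (nat_lit 18) (nat_lit 5) (nat_lit 21) (nat_lit 5) (nat_lit 19) (nat_lit 4) (nat_lit 316) (nat_lit 289) (nat_lit 175)) (XT.lf (nat_lit 0) (nat_lit 24871042886) (nat_lit 76) (nat_lit 84947522905) (nat_lit 152) (nat_lit 33858237844) (nat_lit 17) (nat_lit 5) (nat_lit 18) (nat_lit 5) (nat_lit 19) (nat_lit 4) (nat_lit 317) (nat_lit 289) (nat_lit 174))) (XT.nd (nat_lit 78) (nat_lit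 228) (nat_lit 0) (XT.lf (nat_lit 0) (nat_lit 92576725049) (nat_lit 76) (nat_lit 49793688456) (nat_lit 152) (nat_lit 9632267858) (nat_lit 17) (nat_lit 5) (nat_lit 18) (nat_lit 5) (nat_lit 19) (nat_lit 4) (nat_lit 318) (nat_lit 289) (nat_lit 173)) (XT.lf (nat_lit 0) (nat_lit 4531971073) (nat_lit 152) (nat_lit 11280992314) (nat_lit 228) (nat_lit 145141206273) (nat_lit 14) (nat_lit 5) (nat_lit 16) (nat_lit 5) (nat_lit 17) (nat_lit 5) (nat_lit 319) (nat_lit 289) (nat_lit 172)))) (XT.nd (nat_lit 156) (nat_lit 76) (nat_lit 0) (XT.nd (nat_lit 78) (nat_lit 0) (nat_lit 0) (XT.lf (nat_lit 0) (nat_lit 45168647657) (nat_lit 228) (nat_lit 94528461782) (nat_lit 76) (nat_lit 30713035367) (nat_lit 14) (nat_lit 5) (nat_lit 17) (nat_lit 5) (nat_lit 15) (nat_lit 4) (nat_lit 320) (nat_lit 289) (nat_lit 171)) (XT.lf (nat_lit 0) (nat_lit 77165051033) (nat_lit 228) (nat_lit 27977531218) (nat_lit 76) (nat_lit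 75456635545) (nat_lit 14) (nat_lit 5) (nat_lit 17) (nat_lit 5) (nat_lit 15) (nat_lit 4) (nat_lit 321) (nat_lit 289) (nat_lit 170))) (XT.nd (nat_lit 78) (nat_lit 0) (nat_lit 0) (XT.lf (nat_lit 0) (nat_lit 46207777288) (nat_lit 76) (nat_lit 66623994563) (nat_lit 152) (nat_lit 78682797270) (nat_lit 13) (nat_lit 5) (nat_lit 14) (nat_lit 5) (nat_lit 15) (nat_lit 4) (nat_lit 322) (nat_lit 289) (nat_lit 169)) (XT.lf (nat_lit 0) (nat_lit 127917851096) (nat_lit 76) (nat_lit 24198264821) (nat_lit 152) (nat_lit 51125890633) (nat_lit 13) (nat_lit 5) (nat_lit 14) (nat_lit 5) (nat_lit 15) (nat_lit 4) (nat_lit 323) (nat_lit 289) (nat_lit 168)))))) (XT.nd (nat_lit 546) (nat_lit 228) (nat_lit 0) (XT.nd (nat_lit 234) (nat_lit 152) (nat_lit 0) (XT.nd (nat_lit 78) (nat_lit 152) (nat_lit 0) (XT.lf (nat_lit 0) (nat_lit 195062574507) (nat_lit 152) (nat_lit 264025618) (nat_lit 0) (nat_lit 20539490265) (nat_lit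 13) (nat_lit 5) (nat_lit 15) (nat_lit 4) (nat_lit 13) (nat_lit 4) (nat_lit 324) (nat_lit 289) (nat_lit 167)) (XT.nd (nat_lit 78) (nat_lit 0) (nat_lit 0) (XT.lf (nat_lit 0) (nat_lit 14073753360) (nat_lit 152) (nat_lit 145250758331) (nat_lit 76) (nat_lit 69934478451) (nat_lit 11) (nat_lit 5) (nat_lit 13) (nat_lit 5) (nat_lit 12) (nat_lit 4) (nat_lit 325) (nat_lit 289) (nat_lit 166)) (XT.lf (nat_lit 0) (nat_lit 50624099638) (nat_lit 152) (nat_lit 69227039070) (nat_lit 76) (nat_lit 123828409644) (nat_lit 11) (nat_lit 5) (nat_lit 13) (nat_lit 5) (nat_lit 12) (nat_lit 4) (nat_lit 326) (nat_lit 289) (nat_lit 165)))) (XT.nd (nat_lit 156) (nat_lit 76) (nat_lit 0) (XT.nd (nat_lit 78) (nat_lit 0) (nat_lit 0) (XT.lf (nat_lit 0) (nat_lit 13555725825) (nat_lit 76) (nat_lit 76868225614) (nat_lit 152) (nat_lit 168803762128) (nat_lit 10) (nat_lit 5) (nat_lit 11) (nat_lit 5) (nat_lit 12) (nat_lit 4) (nat_lit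 327) (nat_lit 289) (nat_lit 164)) (XT.lf (nat_lit 0) (nat_lit 106897175162) (nat_lit 76) (nat_lit 28402885668) (nat_lit 152) (nat_lit 140568290144) (nat_lit 10) (nat_lit 5) (nat_lit 11) (nat_lit 5) (nat_lit 12) (nat_lit 4) (nat_lit 328) (nat_lit 289) (nat_lit 163))) (XT.nd (nat_lit 78) (nat_lit 76) (nat_lit 0) (XT.lf (nat_lit 0) (nat_lit 184341517620) (nat_lit 152) (nat_lit 86710948739) (nat_lit 0) (nat_lit 22741752814) (nat_lit 10) (nat_lit 5) (nat_lit 12) (nat_lit 4) (nat_lit 10) (nat_lit 4) (nat_lit 329) (nat_lit 289) (nat_lit 162)) (XT.lf (nat_lit 0) (nat_lit 1464801265) (nat_lit 76) (nat_lit 236614000607) (nat_lit 76) (nat_lit 75013554538) (nat_lit 9) (nat_lit 4) (nat_lit 10) (nat_lit 5) (nat_lit 10) (nat_lit 4) (nat_lit 330) (nat_lit 289) (nat_lit 161))))) (XT.nd (nat_lit 312) (nat_lit 76) (nat_lit 0) (XT.nd (nat_lit 156) (nat_lit 76) (nat_lit 0) (XT.nd (nat_lit 78) (nat_lit 76)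 (nat_lit 0) (XT.lf (nat_lit 0) (nat_lit 101625127614) (nat_lit 76) (nat_lit 196860331538) (nat_lit 76) (nat_lit 35259254671) (nat_lit 9) (nat_lit 4) (nat_lit 10) (nat_lit 5) (nat_lit 10) (nat_lit 4) (nat_lit 331) (nat_lit 289) (nat_lit 160)) (XT.lf (nat_lit 0) (nat_lit 7291016094) (nat_lit 152) (nat_lit 146436347464) (nat_lit 76) (nat_lit 202307162693) (nat_lit 8) (nat_lit 5) (nat_lit 10) (nat_lit 5) (nat_lit 9) (nat_lit 4) (nat_lit 332) (nat_lit 289) (nat_lit 159))) (XT.nd (nat_lit 78) (nat_lit 76) (nat_lit 0) (XT.lf (nat_lit 0) (nat_lit 51340004945) (nat_lit 152) (nat_lit 54814991462) (nat_lit 76) (nat_lit 273879292656) (nat_lit 8) (nat_lit 5) (nat_lit 10) (nat_lit 5) (nat_lit 9) (nat_lit 4) (nat_lit 333) (nat_lit 289) (nat_lit 158)) (XT.lf (nat_lit 0) (nat_lit 46459501515) (nat_lit 76) (nat_lit 53570404260) (nat_lit 152) (nat_lit 305834768006) (nat_lit 7) (nat_lit 5) (nat_lit 8) (nat_lit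 5) (nat_lit 9) (nat_lit 4) (nat_lit 334) (nat_lit 289) (nat_lit 157)))) (XT.nd (nat_lit 156) (nat_lit 76) (nat_lit 0) (XT.nd (nat_lit 78) (nat_lit 0) (nat_lit 0) (XT.lf (nat_lit 0) (nat_lit 154229774617) (nat_lit 152) (nat_lit 274805319506) (nat_lit 0) (nat_lit 4597213363) (nat_lit 7) (nat_lit 5) (nat_lit 9) (nat_lit 4) (nat_lit 7) (nat_lit 4) (nat_lit 335) (nat_lit 289) (nat_lit 156)) (XT.lf (nat_lit 0) (nat_lit 214156742965) (nat_lit 152) (nat_lit 184829536188) (nat_lit 0) (nat_lit 64523784201) (nat_lit 7) (nat_lit 5) (nat_lit 9) (nat_lit 4) (nat_lit 7) (nat_lit 4) (nat_lit 336) (nat_lit 289) (nat_lit 155))) (XT.nd (nat_lit 78) (nat_lit 76) (nat_lit 0) (XT.lf (nat_lit 0) (nat_lit 278877564084) (nat_lit 152) (nat_lit 87656262974) (nat_lit 0) (nat_lit 129244237255) (nat_lit 7) (nat_lit 5) (nat_lit 9) (nat_lit 4) (nat_lit 7) (nat_lit 4) (nat_lit 337) (nat_lit 289) (nat_lit 154)) (XT.lf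 (nat_lit 0) (nat_lit 18200820509) (nat_lit 76) (nat_lit 331012678427) (nat_lit 76) (nat_lit 181379010798) (nat_lit 6) (nat_lit 4) (nat_lit 7) (nat_lit 5) (nat_lit 7) (nat_lit 4) (nat_lit 338) (nat_lit 289) (nat_lit 153))))))) (XT.nd (nat_lit 1170) (nat_lit 0) (nat_lit 0) (XT.nd (nat_lit 546) (nat_lit 76) (nat_lit 0) (XT.nd (nat_lit 234) (nat_lit 152) (nat_lit 0) (XT.nd (nat_lit 78) (nat_lit 0) (nat_lit 0) (XT.lf (nat_lit 0) (nat_lit 137511043101) (nat_lit 76) (nat_lit 290061669385) (nat_lit 76) (nat_lit 140427686199) (nat_lit 6) (nat_lit 4) (nat_lit 7) (nat_lit 5) (nat_lit 7) (nat_lit 4) (nat_lit 339) (nat_lit 289) (nat_lit 152)) (XT.nd (nat_lit 78) (nat_lit 0) (nat_lit 0) (XT.lf (nat_lit 0) (nat_lit 266365604875) (nat_lit 76) (nat_lit 245834804856) (nat_lit 76) (nat_lit 96200529488) (nat_lit 6) (nat_lit 4) (nat_lit 7) (nat_lit 5) (nat_lit 7) (nat_lit 4) (nat_lit 340) (nat_lit 289) (nat_lit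 151)) (XT.lf (nat_lit 0) (nat_lit 405528088419) (nat_lit 76) (nat_lit 198069999718) (nat_lit 76) (nat_lit 48435453810) (nat_lit 6) (nat_lit 4) (nat_lit 7) (nat_lit 5) (nat_lit 7) (nat_lit 4) (nat_lit 341) (nat_lit 289) (nat_lit 150)))) (XT.nd (nat_lit 156) (nat_lit 76) (nat_lit 0) (XT.nd (nat_lit 78) (nat_lit 0) (nat_lit 0) (XT.lf (nat_lit 0) (nat_lit 2992987705) (nat_lit 152) (nat_lit 143409381978) (nat_lit 76) (nat_lit 552748339008) (nat_lit 5) (nat_lit 5) (nat_lit 7) (nat_lit 5) (nat_lit 6) (nat_lit 4) (nat_lit 342) (nat_lit 289) (nat_lit 149)) (XT.lf (nat_lit 0) (nat_lit 55918725453) (nat_lit 152) (nat_lit 33324079406) (nat_lit 76) (nat_lit 660693815482) (nat_lit 5) (nat_lit 5) (nat_lit 7) (nat_lit 5) (nat_lit 6) (nat_lit 4) (nat_lit 343) (nat_lit 289) (nat_lit 148))) (XT.nd (nat_lit 78) (nat_lit 0) (nat_lit 0) (XT.lf (nat_lit 0) (nat_lit 90073528036) (nat_lit 76) (nat_lit 25171073477)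 (nat_lit 152) (nat_lit 689367517201) (nat_lit 4) (nat_lit 5) (nat_lit 5) (nat_lit 5) (nat_lit 6) (nat_lit 4) (nat_lit 344) (nat_lit 289) (nat_lit 147)) (XT.lf (nat_lit 0) (nat_lit 181309999328) (nat_lit 152) (nat_lit 639433517442) (nat_lit 0) (nat_lit 42758664174) (nat_lit 4) (nat_lit 5) (nat_lit 6) (nat_lit 4) (nat_lit 4) (nat_lit 4) (nat_lit 345) (nat_lit 289) (nat_lit 146))))) (XT.nd (nat_lit 312) (nat_lit 76) (nat_lit 0) (XT.nd (nat_lit 156) (nat_lit 0) (nat_lit 0) (XT.nd (nat_lit 78) (nat_lit 0) (nat_lit 0) (XT.lf (nat_lit 0) (nat_lit 253314247559) (nat_lit 152) (nat_lit 558974169301) (nat_lit 0) (nat_lit 114762741920) (nat_lit 4) (nat_lit 5) (nat_lit 6) (nat_lit 4) (nat_lit 4) (nat_lit 4) (nat_lit 346) (nat_lit 289) (nat_lit 145)) (XT.lf (nat_lit 0) (nat_lit 331078673126) (nat_lit 152) (nat_lit 472078385196) (nat_lit 0) (nat_lit 192527009629) (nat_lit 4) (nat_lit 5) (nat_lit 6)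 (nat_lit 4) (nat_lit 4) (nat_lit 4) (nat_lit 347) (nat_lit 289) (nat_lit 144))) (XT.nd (nat_lit 78) (nat_lit 0) (nat_lit 0) (XT.lf (nat_lit 0) (nat_lit 415064102252) (nat_lit 152) (nat_lit 378231227147) (nat_lit 0) (nat_lit 276512292592) (nat_lit 4) (nat_lit 5) (nat_lit 6) (nat_lit 4) (nat_lit 4) (nat_lit 4) (nat_lit 348) (nat_lit 289) (nat_lit 143)) (XT.lf (nat_lit 0) (nat_lit 505768226372) (nat_lit 152) (nat_lit 276876563846) (nat_lit 0) (nat_lit 367216281375) (nat_lit 4) (nat_lit 5) (nat_lit 6) (nat_lit 4) (nat_lit 4) (nat_lit 4) (nat_lit 349) (nat_lit 289) (nat_lit 142)))) (XT.nd (nat_lit 156) (nat_lit 76) (nat_lit 0) (XT.nd (nat_lit 78) (nat_lit 0) (nat_lit 0) (XT.lf (nat_lit 0) (nat_lit 603728551404) (nat_lit 152) (nat_lit 167413775067) (nat_lit 0) (nat_lit 465176481096) (nat_lit 4) (nat_lit 5) (nat_lit 6) (nat_lit 4) (nat_lit 4) (nat_lit 4) (nat_lit 350) (nat_lit 289) (nat_lit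 141)) (XT.lf (nat_lit 0) (nat_lit 709525582980) (nat_lit 152) (nat_lit 49194192432) (nat_lit 0) (nat_lit 570973396642) (nat_lit 4) (nat_lit 5) (nat_lit 6) (nat_lit 4) (nat_lit 4) (nat_lit 4) (nat_lit 351) (nat_lit 289) (nat_lit 140))) (XT.nd (nat_lit 78) (nat_lit 0) (nat_lit 0) (XT.lf (nat_lit 0) (nat_lit 82615506793) (nat_lit 76) (nat_lit 743157664602) (nat_lit 76) (nat_lit 604605370830) (nat_lit 3) (nat_lit 4) (nat_lit 4) (nat_lit 5) (nat_lit 4) (nat_lit 4) (nat_lit 352) (nat_lit 289) (nat_lit 139)) (XT.lf (nat_lit 0) (nat_lit 227767492379) (nat_lit 76) (nat_lit 724898023514) (nat_lit 76) (nat_lit 586345630264) (nat_lit 3) (nat_lit 4) (nat_lit 4) (nat_lit 5) (nat_lit 4) (nat_lit 4) (nat_lit 353) (nat_lit 289) (nat_lit 138)))))) (XT.nd (nat_lit 624) (nat_lit 0) (nat_lit 0) (XT.nd (nat_lit 312) (nat_lit 0) (nat_lit 0) (XT.nd (nat_lit 156) (nat_lit 0) (nat_lit 0) (XT.nd (nat_lit 78) (nat_lit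 0) (nat_lit 0) (XT.lf (nat_lit 0) (nat_lit 384531445245) (nat_lit 76) (nat_lit 705177703265) (nat_lit 76) (nat_lit 566625217908) (nat_lit 3) (nat_lit 4) (nat_lit 4) (nat_lit 5) (nat_lit 4) (nat_lit 4) (nat_lit 354) (nat_lit 289) (nat_lit 137)) (XT.lf (nat_lit 0) (nat_lit 553836336966) (nat_lit 76) (nat_lit 683879842701) (nat_lit 76) (nat_lit 545327272058) (nat_lit 3) (nat_lit 4) (nat_lit 4) (nat_lit 5) (nat_lit 4) (nat_lit 4) (nat_lit 355) (nat_lit 289) (nat_lit 136))) (XT.nd (nat_lit 78) (nat_lit 0) (nat_lit 0) (XT.lf (nat_lit 0) (nat_lit 736685455787) (nat_lit 76) (nat_lit 660878232276) (nat_lit 76) (nat_lit 522325582666) (nat_lit 3) (nat_lit 4) (nat_lit 4) (nat_lit 5) (nat_lit 4) (nat_lit 4) (nat_lit 356) (nat_lit 289) (nat_lit 135)) (XT.lf (nat_lit 0) (nat_lit 934162352043) (nat_lit 76) (nat_lit 636036566151) (nat_lit 76) (nat_lit 497483843423) (nat_lit 3) (nat_lit 4) (nat_lit 4)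 (nat_lit 5) (nat_lit 4) (nat_lit 4) (nat_lit 357) (nat_lit 289) (nat_lit 134)))) (XT.nd (nat_lit 156) (nat_lit 0) (nat_lit 0) (XT.nd (nat_lit 78) (nat_lit 0) (nat_lit 0) (XT.lf (nat_lit 0) (nat_lit 1147437259192) (nat_lit 76) (nat_lit 609207634453) (nat_lit 76) (nat_lit 470654844023) (nat_lit 3) (nat_lit 4) (nat_lit 4) (nat_lit 5) (nat_lit 4) (nat_lit 4) (nat_lit 358) (nat_lit 289) (nat_lit 133)) (XT.lf (nat_lit 0) (nat_lit 1377774028537) (nat_lit 76) (nat_lit 580232450920) (nat_lit 76) (nat_lit 441679597802) (nat_lit 3) (nat_lit 4) (nat_lit 4) (nat_lit 5) (nat_lit 4) (nat_lit 4) (nat_lit 359) (nat_lit 289) (nat_lit 132))) (XT.nd (nat_lit 78) (nat_lit 0) (nat_lit 0) (XT.lf (nat_lit 0) (nat_lit 1626537618710) (nat_lit 76) (nat_lit 548939310760) (nat_lit 76) (nat_lit 410386399599) (nat_lit 3) (nat_lit 4) (nat_lit 4) (nat_lit 5) (nat_lit 4) (nat_lit 4) (nat_lit 360) (nat_lit 289) (nat_lit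 131)) (XT.lf (nat_lit 0) (nat_lit 1895202184321) (nat_lit 76) (nat_lit 515142773143) (nat_lit 76) (nat_lit 376589808238) (nat_lit 3) (nat_lit 4) (nat_lit 4) (nat_lit 5) (nat_lit 4) (nat_lit 4) (nat_lit 361) (nat_lit 289) (nat_lit 130))))) (XT.nd (nat_lit 35100) (nat_lit 0) (nat_lit 3116) (XT.nd (nat_lit 156) (nat_lit 0) (nat_lit 0) (XT.nd (nat_lit 78) (nat_lit 0) (nat_lit 0) (XT.lf (nat_lit 0) (nat_lit 2185359811683) (nat_lit 76) (nat_lit 478642562291) (nat_lit 76) (nat_lit 340089547623) (nat_lit 3) (nat_lit 4) (nat_lit 4) (nat_lit 5) (nat_lit 4) (nat_lit 4) (nat_lit 362) (nat_lit 289) (nat_lit 129)) (XT.lf (nat_lit 0) (nat_lit 2498729953404) (nat_lit 76) (nat_lit 439222380657) (nat_lit 76) (nat_lit 300669319912) (nat_lit 3) (nat_lit 4) (nat_lit 4) (nat_lit 5) (nat_lit 4) (nat_lit 4) (nat_lit 363) (nat_lit 289) (nat_lit 128))) (XT.nd (nat_lit 34866) (nat_lit 0) (nat_lit 3116) (XT.lf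 (nat_lit 0) (nat_lit 2837169617730) (nat_lit 76) (nat_lit 396648627166) (nat_lit 76) (nat_lit 258095523757) (nat_lit 3) (nat_lit 4) (nat_lit 4) (nat_lit 5) (nat_lit 4) (nat_lit 4) (nat_lit 364) (nat_lit 289) (nat_lit 127)) (XT.lf (nat_lit 0) (nat_lit 12142355984) (nat_lit 532) (nat_lit 4216249437) (nat_lit 532) (nat_lit 4216249437) (nat_lit 44) (nat_lit 3) (nat_lit 51) (nat_lit 3) (nat_lit 51) (nat_lit 5) (nat_lit 290) (nat_lit 290) (nat_lit 200)))) (XT.nd (nat_lit 156) (nat_lit 0) (nat_lit 76) (XT.nd (nat_lit 78) (nat_lit 0) (nat_lit 76) (XT.lf (nat_lit 76) (nat_lit 10775404961) (nat_lit 0) (nat_lit 14775111401) (nat_lit 532) (nat_lit 17221513212) (nat_lit 45) (nat_lit 5) (nat_lit 44) (nat_lit 3) (nat_lit 51) (nat_lit 5) (nat_lit 291) (nat_lit 290) (nat_lit 199)) (XT.lf (nat_lit 0) (nat_lit 27261280745) (nat_lit 456) (nat_lit 12625207865) (nat_lit 532) (nat_lit 4610162290) (nat_lit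 45) (nat_lit 5) (nat_lit 51) (nat_lit 5) (nat_lit 52) (nat_lit 5) (nat_lit 292) (nat_lit 290) (nat_lit 198))) (XT.nd (nat_lit 78) (nat_lit 0) (nat_lit 0) (XT.lf (nat_lit 76) (nat_lit 8326505416) (nat_lit 0) (nat_lit 21363145649) (nat_lit 532) (nat_lit 16623141963) (nat_lit 46) (nat_lit 5) (nat_lit 45) (nat_lit 5) (nat_lit 52) (nat_lit 5) (nat_lit 293) (nat_lit 290) (nat_lit 197)) (XT.lf (nat_lit 76) (nat_lit 31670244333) (nat_lit 0) (nat_lit 984157035) (nat_lit 532) (nat_lit 15592466214) (nat_lit 46) (nat_lit 5) (nat_lit 45) (nat_lit 5) (nat_lit 52) (nat_lit 5) (nat_lit 294) (nat_lit 290) (nat_lit 196))))))))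
noncomputable def xc95 : XT := (XT.nd (nat_lit 2418) (nat_lit 760) (nat_lit 0) (XT.nd (nat_lit 1170) (nat_lit 988) (nat_lit 0) (XT.nd (nat_lit 546) (nat_lit 608) (nat_lit 0) (XT.nd (nat_lit 234) (nat_lit 532) (nat_lit 0) (XT.nd (nat_lit 78) (nat_lit 380) (nat_lit 0) (XT.lf (nat_lit 76) (nat_lit 6355885514) (nat_lit 0) (nat_lit 30156125630) (nat_lit 532) (nat_lit 13771211755) (nat_lit 47) (nat_lit 5) (nat_lit 46) (nat_lit 5) (nat_lit 53) (nat_lit 5) (nat_lit 295) (nat_lit 290) (nat_lit 195)) (XT.nd (nat_lit 78) (nat_lit 380) (nat_lit 0) (XT.lf (nat_lit 76) (nat_lit 32036649347) (nat_lit 0) (nat_lit 9117052807) (nat_lit 532) (nat_lit 11290755168) (nat_lit 47) (nat_lit 5) (nat_lit 46) (nat_lit 5) (nat_lit 53) (nat_lit 5) (nat_lit 296) (nat_lit 290) (nat_lit 194)) (XT.lf (nat_lit 0) (nat_lit 4909448659) (nat_lit 456) (nat_lit 41700088786) (nat_lit 532) (nat_lit 8133636181) (nat_lit 41) (nat_lit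 5) (nat_lit 47) (nat_lit 5) (nat_lit 48) (nat_lit 5) (nat_lit 297) (nat_lit 290) (nat_lit 193)))) (XT.nd (nat_lit 156) (nat_lit 228) (nat_lit 0) (XT.nd (nat_lit 78) (nat_lit 304) (nat_lit 0) (XT.lf (nat_lit 0) (nat_lit 33161254259) (nat_lit 456) (nat_lit 20127045655) (nat_lit 532) (nat_lit 3874577759) (nat_lit 41) (nat_lit 5) (nat_lit 47) (nat_lit 5) (nat_lit 48) (nat_lit 5) (nat_lit 298) (nat_lit 290) (nat_lit 192)) (XT.lf (nat_lit 0) (nat_lit 864153288) (nat_lit 304) (nat_lit 55764724161) (nat_lit 76) (nat_lit 3131873475) (nat_lit 37) (nat_lit 5) (nat_lit 41) (nat_lit 5) (nat_lit 38) (nat_lit 5) (nat_lit 299) (nat_lit 290) (nat_lit 191))) (XT.nd (nat_lit 78) (nat_lit 228) (nat_lit 0) (XT.lf (nat_lit 0) (nat_lit 6966617338) (nat_lit 304) (nat_lit 27558185941) (nat_lit 76) (nat_lit 27938088465) (nat_lit 37) (nat_lit 5) (nat_lit 41) (nat_lit 5) (nat_lit 38) (nat_lit 5) (nat_lit 300) (nat_lit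 290) (nat_lit 190)) (XT.lf (nat_lit 0) (nat_lit 3055647844) (nat_lit 228) (nat_lit 10573165050) (nat_lit 304) (nat_lit 51746673528) (nat_lit 34) (nat_lit 5) (nat_lit 37) (nat_lit 5) (nat_lit 38) (nat_lit 5) (nat_lit 301) (nat_lit 290) (nat_lit 189))))) (XT.nd (nat_lit 312) (nat_lit 228) (nat_lit 0) (XT.nd (nat_lit 156) (nat_lit 152) (nat_lit 0) (XT.nd (nat_lit 78) (nat_lit 228) (nat_lit 0) (XT.lf (nat_lit 0) (nat_lit 21963018229) (nat_lit 304) (nat_lit 31164549549) (nat_lit 76) (nat_lit 15302403109) (nat_lit 34) (nat_lit 5) (nat_lit 38) (nat_lit 5) (nat_lit 35) (nat_lit 5) (nat_lit 302) (nat_lit 290) (nat_lit 188)) (XT.lf (nat_lit 0) (nat_lit 2322707592) (nat_lit 228) (nat_lit 28970016916) (nat_lit 304) (nat_lit 40409793020) (nat_lit 31) (nat_lit 5) (nat_lit 34) (nat_lit 5) (nat_lit 35) (nat_lit 5) (nat_lit 303) (nat_lit 290) (nat_lit 187))) (XT.nd (nat_lit 78) (nat_lit 152) (nat_lit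 0) (XT.lf (nat_lit 0) (nat_lit 40259333368) (nat_lit 228) (nat_lit 1959924024) (nat_lit 304) (nat_lit 32949578741) (nat_lit 31) (nat_lit 5) (nat_lit 34) (nat_lit 5) (nat_lit 35) (nat_lit 5) (nat_lit 304) (nat_lit 290) (nat_lit 186)) (XT.lf (nat_lit 0) (nat_lit 1749585460) (nat_lit 152) (nat_lit 52965300309) (nat_lit 228) (nat_lit 24141980554) (nat_lit 29) (nat_lit 5) (nat_lit 31) (nat_lit 5) (nat_lit 32) (nat_lit 5) (nat_lit 305) (nat_lit 290) (nat_lit 185)))) (XT.nd (nat_lit 156) (nat_lit 76) (nat_lit 0) (XT.nd (nat_lit 78) (nat_lit 152) (nat_lit 0) (XT.lf (nat_lit 0) (nat_lit 43271256187) (nat_lit 152) (nat_lit 25941552688) (nat_lit 228) (nat_lit 13546922131) (nat_lit 29) (nat_lit 5) (nat_lit 31) (nat_lit 5) (nat_lit 32) (nat_lit 5) (nat_lit 306) (nat_lit 290) (nat_lit 184)) (XT.lf (nat_lit 0) (nat_lit 1115777778) (nat_lit 152) (nat_lit 83858280244) (nat_lit 228) (nat_lit 1992490832)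 (nat_lit 27) (nat_lit 5) (nat_lit 29) (nat_lit 5) (nat_lit 30) (nat_lit 5) (nat_lit 307) (nat_lit 290) (nat_lit 183))) (XT.nd (nat_lit 78) (nat_lit 0) (nat_lit 0) (XT.lf (nat_lit 0) (nat_lit 11741921037) (nat_lit 228) (nat_lit 45165347920) (nat_lit 76) (nat_lit 34440054966) (nat_lit 26) (nat_lit 5) (nat_lit 29) (nat_lit 5) (nat_lit 27) (nat_lit 5) (nat_lit 308) (nat_lit 290) (nat_lit 182)) (XT.lf (nat_lit 0) (nat_lit 26466196822) (nat_lit 228) (nat_lit 1278584425) (nat_lit 76) (nat_lit 68329741604) (nat_lit 26) (nat_lit 5) (nat_lit 29) (nat_lit 5) (nat_lit 27) (nat_lit 5) (nat_lit 309) (nat_lit 290) (nat_lit 181)))))) (XT.nd (nat_lit 624) (nat_lit 380) (nat_lit 0) (XT.nd (nat_lit 312) (nat_lit 304) (nat_lit 0) (XT.nd (nat_lit 156) (nat_lit 152) (nat_lit 0) (XT.nd (nat_lit 78) (nat_lit 0) (nat_lit 0) (XT.lf (nat_lit 0) (nat_lit 43655314791) (nat_lit 228) (nat_lit 52661133809) (nat_lit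 76) (nat_lit 4760499558) (nat_lit 24) (nat_lit 5) (nat_lit 27) (nat_lit 5) (nat_lit 25) (nat_lit 5) (nat_lit 310) (nat_lit 290) (nat_lit 180)) (XT.lf (nat_lit 0) (nat_lit 62974958149) (nat_lit 228) (nat_lit 5041493307) (nat_lit 76) (nat_lit 38402686649) (nat_lit 24) (nat_lit 5) (nat_lit 27) (nat_lit 5) (nat_lit 25) (nat_lit 5) (nat_lit 311) (nat_lit 290) (nat_lit 179))) (XT.nd (nat_lit 78) (nat_lit 0) (nat_lit 0) (XT.lf (nat_lit 0) (nat_lit 48828805169) (nat_lit 152) (nat_lit 36184669799) (nat_lit 228) (nat_lit 27081366240) (nat_lit 22) (nat_lit 5) (nat_lit 24) (nat_lit 5) (nat_lit 25) (nat_lit 5) (nat_lit 312) (nat_lit 290) (nat_lit 178)) (XT.lf (nat_lit 0) (nat_lit 107293952538) (nat_lit 152) (nat_lit 1657972637) (nat_lit 228) (nat_lit 9261729185) (nat_lit 22) (nat_lit 5) (nat_lit 24) (nat_lit 5) (nat_lit 25) (nat_lit 5) (nat_lit 313) (nat_lit 290) (nat_lit 177)))) (XT.nd (nat_lit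 156) (nat_lit 152) (nat_lit 0) (XT.nd (nat_lit 78) (nat_lit 0) (nat_lit 0) (XT.lf (nat_lit 0) (nat_lit 11524783551) (nat_lit 152) (nat_lit 77841873243) (nat_lit 76) (nat_lit 35272851720) (nat_lit 20) (nat_lit 5) (nat_lit 22) (nat_lit 5) (nat_lit 21) (nat_lit 5) (nat_lit 314) (nat_lit 290) (nat_lit 176)) (XT.lf (nat_lit 0) (nat_lit 33822307692) (nat_lit 152) (nat_lit 22095013397) (nat_lit 76) (nat_lit 75614989175) (nat_lit 20) (nat_lit 5) (nat_lit 22) (nat_lit 5) (nat_lit 21) (nat_lit 5) (nat_lit 315) (nat_lit 290) (nat_lit 175))) (XT.nd (nat_lit 78) (nat_lit 0) (nat_lit 0) (XT.lf (nat_lit 0) (nat_lit 40117064733) (nat_lit 152) (nat_lit 18750534653) (nat_lit 228) (nat_lit 80031820960) (nat_lit 18) (nat_lit 5) (nat_lit 20) (nat_lit 5) (nat_lit 21) (nat_lit 5) (nat_lit 316) (nat_lit 290) (nat_lit 174)) (XT.lf (nat_lit 0) (nat_lit 87049911603) (nat_lit 228) (nat_lit 38776378792) (nat_lit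 76) (nat_lit 20938938402) (nat_lit 18) (nat_lit 5) (nat_lit 21) (nat_lit 5) (nat_lit 19) (nat_lit 4) (nat_lit 317) (nat_lit 290) (nat_lit 173))))) (XT.nd (nat_lit 312) (nat_lit 76) (nat_lit 0) (XT.nd (nat_lit 156) (nat_lit 228) (nat_lit 0) (XT.nd (nat_lit 78) (nat_lit 0) (nat_lit 0) (XT.lf (nat_lit 0) (nat_lit 26886766286) (nat_lit 76) (nat_lit 91732927085) (nat_lit 152) (nat_lit 36549979024) (nat_lit 17) (nat_lit 5) (nat_lit 18) (nat_lit 5) (nat_lit 19) (nat_lit 4) (nat_lit 318) (nat_lit 290) (nat_lit 172)) (XT.lf (nat_lit 0) (nat_lit 100006974135) (nat_lit 76) (nat_lit 53767556076) (nat_lit 152) (nat_lit 10387184613) (nat_lit 17) (nat_lit 5) (nat_lit 18) (nat_lit 5) (nat_lit 19) (nat_lit 4) (nat_lit 319) (nat_lit 290) (nat_lit 171))) (XT.nd (nat_lit 78) (nat_lit 0) (nat_lit 0) (XT.lf (nat_lit 0) (nat_lit 4918813383) (nat_lit 152) (nat_lit 12173549882) (nat_lit 228) (nat_lit 156736971775)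 (nat_lit 14) (nat_lit 5) (nat_lit 16) (nat_lit 5) (nat_lit 17) (nat_lit 5) (nat_lit 320) (nat_lit 290) (nat_lit 170)) (XT.lf (nat_lit 0) (nat_lit 48795659310) (nat_lit 228) (nat_lit 102067392246) (nat_lit 76) (nat_lit 33178805499) (nat_lit 14) (nat_lit 5) (nat_lit 17) (nat_lit 5) (nat_lit 15) (nat_lit 4) (nat_lit 321) (nat_lit 290) (nat_lit 169)))) (XT.nd (nat_lit 156) (nat_lit 0) (nat_lit 0) (XT.nd (nat_lit 78) (nat_lit 76) (nat_lit 0) (XT.lf (nat_lit 0) (nat_lit 83350773487) (nat_lit 228) (nat_lit 30194116605) (nat_lit 76) (nat_lit 81501247224) (nat_lit 14) (nat_lit 5) (nat_lit 17) (nat_lit 5) (nat_lit 15) (nat_lit 4) (nat_lit 322) (nat_lit 290) (nat_lit 168)) (XT.lf (nat_lit 0) (nat_lit 49925469312) (nat_lit 76) (nat_lit 71944942102) (nat_lit 152) (nat_lit 84964340196) (nat_lit 13) (nat_lit 5) (nat_lit 14) (nat_lit 5) (nat_lit 15) (nat_lit 4) (nat_lit 323) (nat_lit 290) (nat_lit 167)))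 (XT.nd (nat_lit 78) (nat_lit 0) (nat_lit 0) (XT.lf (nat_lit 0) (nat_lit 138170788296) (nat_lit 76) (nat_lit 26125818574) (nat_lit 152) (nat_lit 55203849980) (nat_lit 13) (nat_lit 5) (nat_lit 14) (nat_lit 5) (nat_lit 15) (nat_lit 4) (nat_lit 324) (nat_lit 290) (nat_lit 166)) (XT.lf (nat_lit 0) (nat_lit 210678137388) (nat_lit 152) (nat_lit 266425869) (nat_lit 0) (nat_lit 22189956765) (nat_lit 13) (nat_lit 5) (nat_lit 15) (nat_lit 4) (nat_lit 13) (nat_lit 4) (nat_lit 325) (nat_lit 290) (nat_lit 165))))))) (XT.nd (nat_lit 1170) (nat_lit 228) (nat_lit 0) (XT.nd (nat_lit 546) (nat_lit 228) (nat_lit 0) (XT.nd (nat_lit 234) (nat_lit 76) (nat_lit 0) (XT.nd (nat_lit 78) (nat_lit 76) (nat_lit 0) (XT.lf (nat_lit 0) (nat_lit 15210144183) (nat_lit 152) (nat_lit 156852007571) (nat_lit 76) (nat_lit 75536707171) (nat_lit 11) (nat_lit 5) (nat_lit 13) (nat_lit 5) (nat_lit 12) (nat_lit 4) (nat_lit 326)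 (nat_lit 290) (nat_lit 164)) (XT.nd (nat_lit 78) (nat_lit 76) (nat_lit 0) (XT.lf (nat_lit 0) (nat_lit 54683741086) (nat_lit 152) (nat_lit 74747784208) (nat_lit 76) (nat_lit 133741599492) (nat_lit 11) (nat_lit 5) (nat_lit 13) (nat_lit 5) (nat_lit 12) (nat_lit 4) (nat_lit 327) (nat_lit 290) (nat_lit 163)) (XT.lf (nat_lit 0) (nat_lit 14657160916) (nat_lit 76) (nat_lit 83010108896) (nat_lit 152) (nat_lit 182297899071) (nat_lit 10) (nat_lit 5) (nat_lit 11) (nat_lit 5) (nat_lit 12) (nat_lit 4) (nat_lit 328) (nat_lit 290) (nat_lit 162)))) (XT.nd (nat_lit 156) (nat_lit 76) (nat_lit 0) (XT.nd (nat_lit 78) (nat_lit 0) (nat_lit 0) (XT.lf (nat_lit 0) (nat_lit 115464668643) (nat_lit 76) (nat_lit 30668102847) (nat_lit 152) (nat_lit 151804342220) (nat_lit 10) (nat_lit 5) (nat_lit 11) (nat_lit 5) (nat_lit 12) (nat_lit 4) (nat_lit 329) (nat_lit 290) (nat_lit 161)) (XT.lf (nat_lit 0) (nat_lit 199097056134)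 (nat_lit 152) (nat_lit 93632772665) (nat_lit 0) (nat_lit 24567262318) (nat_lit 10) (nat_lit 5) (nat_lit 12) (nat_lit 4) (nat_lit 10) (nat_lit 4) (nat_lit 330) (nat_lit 290) (nat_lit 160))) (XT.nd (nat_lit 78) (nat_lit 0) (nat_lit 0) (XT.lf (nat_lit 0) (nat_lit 1596656276) (nat_lit 76) (nat_lit 255536411011) (nat_lit 76) (nat_lit 81006033122) (nat_lit 9) (nat_lit 4) (nat_lit 10) (nat_lit 5) (nat_lit 10) (nat_lit 4) (nat_lit 331) (nat_lit 290) (nat_lit 159)) (XT.lf (nat_lit 0) (nat_lit 109768722000) (nat_lit 76) (nat_lit 212602945428) (nat_lit 76) (nat_lit 38072026730) (nat_lit 9) (nat_lit 4) (nat_lit 10) (nat_lit 5) (nat_lit 10) (nat_lit 4) (nat_lit 332) (nat_lit 290) (nat_lit 158))))) (XT.nd (nat_lit 312) (nat_lit 76) (nat_lit 0) (XT.nd (nat_lit 156) (nat_lit 76) (nat_lit 0) (XT.nd (nat_lit 78) (nat_lit 0) (nat_lit 0) (XT.lf (nat_lit 0) (nat_lit 7881306369) (nat_lit 152) (nat_lit 158138302196)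 (nat_lit 76) (nat_lit 218497113024) (nat_lit 8) (nat_lit 5) (nat_lit 10) (nat_lit 5) (nat_lit 9) (nat_lit 4) (nat_lit 333) (nat_lit 290) (nat_lit 157)) (XT.lf (nat_lit 0) (nat_lit 55453695144) (nat_lit 152) (nat_lit 59188197201) (nat_lit 76) (nat_lit 295794615064) (nat_lit 8) (nat_lit 5) (nat_lit 10) (nat_lit 5) (nat_lit 9) (nat_lit 4) (nat_lit 334) (nat_lit 290) (nat_lit 156))) (XT.nd (nat_lit 78) (nat_lit 0) (nat_lit 0) (XT.lf (nat_lit 0) (nat_lit 50187951579) (nat_lit 76) (nat_lit 57850636878) (nat_lit 152) (nat_lit 330294750828) (nat_lit 7) (nat_lit 5) (nat_lit 8) (nat_lit 5) (nat_lit 9) (nat_lit 4) (nat_lit 335) (nat_lit 290) (nat_lit 155)) (XT.lf (nat_lit 0) (nat_lit 166574101109) (nat_lit 152) (nat_lit 296778570550) (nat_lit 0) (nat_lit 4969740068) (nat_lit 7) (nat_lit 5) (nat_lit 9) (nat_lit 4) (nat_lit 7) (nat_lit 4) (nat_lit 336) (nat_lit 290) (nat_lit 154)))) (XT.nd (nat_lit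 156) (nat_lit 76) (nat_lit 0) (XT.nd (nat_lit 78) (nat_lit 0) (nat_lit 0) (XT.lf (nat_lit 0) (nat_lit 231294786590) (nat_lit 152) (nat_lit 199605552309) (nat_lit 0) (nat_lit 69690084748) (nat_lit 7) (nat_lit 5) (nat_lit 9) (nat_lit 4) (nat_lit 7) (nat_lit 4) (nat_lit 337) (nat_lit 290) (nat_lit 153)) (XT.lf (nat_lit 0) (nat_lit 301192865681) (nat_lit 152) (nat_lit 94659183666) (nat_lit 0) (nat_lit 139587848283) (nat_lit 7) (nat_lit 5) (nat_lit 9) (nat_lit 4) (nat_lit 7) (nat_lit 4) (nat_lit 338) (nat_lit 290) (nat_lit 152))) (XT.nd (nat_lit 78) (nat_lit 0) (nat_lit 0) (XT.lf (nat_lit 0) (nat_lit 19666223956) (nat_lit 76) (nat_lit 357489298423) (nat_lit 76) (nat_lit 195883988843) (nat_lit 6) (nat_lit 4) (nat_lit 7) (nat_lit 5) (nat_lit 7) (nat_lit 4) (nat_lit 339) (nat_lit 290) (nat_lit 151)) (XT.lf (nat_lit 0) (nat_lit 148520572666) (nat_lit 76) (nat_lit 313262534160) (nat_lit 76) (nat_lit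 151656954041) (nat_lit 6) (nat_lit 4) (nat_lit 7) (nat_lit 5) (nat_lit 7) (nat_lit 4) (nat_lit 340) (nat_lit 290) (nat_lit 150)))))) (XT.nd (nat_lit 624) (nat_lit 76) (nat_lit 0) (XT.nd (nat_lit 312) (nat_lit 76) (nat_lit 0) (XT.nd (nat_lit 156) (nat_lit 76) (nat_lit 0) (XT.nd (nat_lit 78) (nat_lit 0) (nat_lit 0) (XT.lf (nat_lit 0) (nat_lit 287682858929) (nat_lit 76) (nat_lit 265497821860) (nat_lit 76) (nat_lit 103891991242) (nat_lit 6) (nat_lit 4) (nat_lit 7) (nat_lit 5) (nat_lit 7) (nat_lit 4) (nat_lit 341) (nat_lit 290) (nat_lit 149)) (XT.lf (nat_lit 0) (nat_lit 437977748144) (nat_lit 76) (nat_lit 213912111375) (nat_lit 76) (nat_lit 52306048814) (nat_lit 6) (nat_lit 4) (nat_lit 7) (nat_lit 5) (nat_lit 7) (nat_lit 4) (nat_lit 342) (nat_lit 290) (nat_lit 148))) (XT.nd (nat_lit 78) (nat_lit 0) (nat_lit 0) (XT.lf (nat_lit 0) (nat_lit 3236157401) (nat_lit 152) (nat_lit 154875069927) (nat_lit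 76) (nat_lit 596971237012) (nat_lit 5) (nat_lit 5) (nat_lit 7) (nat_lit 5) (nat_lit 6) (nat_lit 4) (nat_lit 343) (nat_lit 290) (nat_lit 147)) (XT.lf (nat_lit 0) (nat_lit 60395677822) (nat_lit 152) (nat_lit 35983466306) (nat_lit 76) (nat_lit 713552127095) (nat_lit 5) (nat_lit 5) (nat_lit 7) (nat_lit 5) (nat_lit 6) (nat_lit 4) (nat_lit 344) (nat_lit 290) (nat_lit 146)))) (XT.nd (nat_lit 156) (nat_lit 0) (nat_lit 0) (XT.nd (nat_lit 78) (nat_lit 0) (nat_lit 0) (XT.lf (nat_lit 0) (nat_lit 97285784176) (nat_lit 76) (nat_lit 27181737207) (nat_lit 152) (nat_lit 744513296466) (nat_lit 4) (nat_lit 5) (nat_lit 5) (nat_lit 5) (nat_lit 6) (nat_lit 4) (nat_lit 345) (nat_lit 290) (nat_lit 145)) (XT.lf (nat_lit 0) (nat_lit 195817970045) (nat_lit 152) (nat_lit 690582114045) (nat_lit 0) (nat_lit 46182015612) (nat_lit 4) (nat_lit 5) (nat_lit 6) (nat_lit 4) (nat_lit 4) (nat_lit 4) (nat_lit 346) (nat_lit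 290) (nat_lit 144))) (XT.nd (nat_lit 78) (nat_lit 0) (nat_lit 0) (XT.lf (nat_lit 0) (nat_lit 273582323262) (nat_lit 152) (nat_lit 603686468778) (nat_lit 0) (nat_lit 123946222666) (nat_lit 4) (nat_lit 5) (nat_lit 6) (nat_lit 4) (nat_lit 4) (nat_lit 4) (nat_lit 347) (nat_lit 290) (nat_lit 143)) (XT.lf (nat_lit 0) (nat_lit 357567685400) (nat_lit 152) (nat_lit 509839439283) (nat_lit 0) (nat_lit 207931449467) (nat_lit 4) (nat_lit 5) (nat_lit 6) (nat_lit 4) (nat_lit 4) (nat_lit 4) (nat_lit 348) (nat_lit 290) (nat_lit 142))))) (XT.nd (nat_lit 312) (nat_lit 76) (nat_lit 0) (XT.nd (nat_lit 156) (nat_lit 0) (nat_lit 0) (XT.nd (nat_lit 78) (nat_lit 0) (nat_lit 0) (XT.lf (nat_lit 0) (nat_lit 448271747492) (nat_lit 152) (nat_lit 408484895014) (nat_lit 0) (nat_lit 298635386247) (nat_lit 4) (nat_lit 5) (nat_lit 6) (nat_lit 4) (nat_lit 4) (nat_lit 4) (nat_lit 349) (nat_lit 290) (nat_lit 141)) (XT.lf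 (nat_lit 0) (nat_lit 546232015092) (nat_lit 152) (nat_lit 299022216449) (nat_lit 0) (nat_lit 396595537817) (nat_lit 4) (nat_lit 5) (nat_lit 6) (nat_lit 4) (nat_lit 4) (nat_lit 4) (nat_lit 350) (nat_lit 290) (nat_lit 140))) (XT.nd (nat_lit 78) (nat_lit 0) (nat_lit 0) (XT.lf (nat_lit 0) (nat_lit 652028993489) (nat_lit 152) (nat_lit 180802735865) (nat_lit 0) (nat_lit 502392408780) (nat_lit 4) (nat_lit 5) (nat_lit 6) (nat_lit 4) (nat_lit 4) (nat_lit 4) (nat_lit 351) (nat_lit 290) (nat_lit 139)) (XT.lf (nat_lit 0) (nat_lit 766289627741) (nat_lit 152) (nat_lit 53125893375) (nat_lit 0) (nat_lit 616652943555) (nat_lit 4) (nat_lit 5) (nat_lit 6) (nat_lit 4) (nat_lit 4) (nat_lit 4) (nat_lit 352) (nat_lit 290) (nat_lit 138)))) (XT.nd (nat_lit 156) (nat_lit 0) (nat_lit 0) (XT.nd (nat_lit 78) (nat_lit 0) (nat_lit 0) (XT.lf (nat_lit 0) (nat_lit 89228484713) (nat_lit 76) (nat_lit 802608480392) (nat_lit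 76) (nat_lit 652971704098) (nat_lit 3) (nat_lit 4) (nat_lit 4) (nat_lit 5) (nat_lit 4) (nat_lit 4) (nat_lit 353) (nat_lit 290) (nat_lit 137)) (XT.lf (nat_lit 0) (nat_lit 245992352303) (nat_lit 76) (nat_lit 782888201155) (nat_lit 76) (nat_lit 633251339576) (nat_lit 3) (nat_lit 4) (nat_lit 4) (nat_lit 5) (nat_lit 4) (nat_lit 4) (nat_lit 354) (nat_lit 290) (nat_lit 136))) (XT.nd (nat_lit 78) (nat_lit 0) (nat_lit 0) (XT.lf (nat_lit 0) (nat_lit 415297165063) (nat_lit 76) (nat_lit 761590378564) (nat_lit 76) (nat_lit 611953438017) (nat_lit 3) (nat_lit 4) (nat_lit 4) (nat_lit 5) (nat_lit 4) (nat_lit 4) (nat_lit 355) (nat_lit 290) (nat_lit 135)) (XT.lf (nat_lit 0) (nat_lit 598146210773) (nat_lit 76) (nat_lit 738588803300) (nat_lit 76) (nat_lit 588951789635) (nat_lit 3) (nat_lit 4) (nat_lit 4) (nat_lit 5) (nat_lit 4) (nat_lit 4) (nat_lit 356) (nat_lit 290) (nat_lit 134))))))))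
noncomputable def xc96 : XT := (XT.nd (nat_lit 37206) (nat_lit 0) (nat_lit 228) (XT.nd (nat_lit 36036) (nat_lit 0) (nat_lit 1596) (XT.nd (nat_lit 546) (nat_lit 0) (nat_lit 0) (XT.nd (nat_lit 234) (nat_lit 0) (nat_lit 0) (XT.nd (nat_lit 78) (nat_lit 0) (nat_lit 0) (XT.lf (nat_lit 0) (nat_lit 795623039333) (nat_lit 76) (nat_lit 713747169731) (nat_lit 76) (nat_lit 564110088364) (nat_lit 3) (nat_lit 4) (nat_lit 4) (nat_lit 5) (nat_lit 4) (nat_lit 4) (nat_lit 357) (nat_lit 290) (nat_lit 133)) (XT.nd (nat_lit 78) (nat_lit 0) (nat_lit 0) (XT.lf (nat_lit 0) (nat_lit 1008897883802) (nat_lit 76) (nat_lit 686918268178) (nat_lit 76) (nat_lit 537281124123) (nat_lit 3) (nat_lit 4) (nat_lit 4) (nat_lit 5) (nat_lit 4) (nat_lit 4) (nat_lit 358) (nat_lit 290) (nat_lit 132)) (XT.lf (nat_lit 0) (nat_lit 1239234595109) (nat_lit 76) (nat_lit 657943112556) (nat_lit 76) (nat_lit 508305910458) (nat_lit 3) (nat_lit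 4) (nat_lit 4) (nat_lit 5) (nat_lit 4) (nat_lit 4) (nat_lit 359) (nat_lit 290) (nat_lit 131)))) (XT.nd (nat_lit 156) (nat_lit 0) (nat_lit 0) (XT.nd (nat_lit 78) (nat_lit 0) (nat_lit 0) (XT.lf (nat_lit 0) (nat_lit 1487998131543) (nat_lit 76) (nat_lit 626649998240) (nat_lit 76) (nat_lit 477012742398) (nat_lit 3) (nat_lit 4) (nat_lit 4) (nat_lit 5) (nat_lit 4) (nat_lit 4) (nat_lit 360) (nat_lit 290) (nat_lit 130)) (XT.lf (nat_lit 0) (nat_lit 1756662647396) (nat_lit 76) (nat_lit 592853484553) (nat_lit 76) (nat_lit 443216178948) (nat_lit 3) (nat_lit 4) (nat_lit 4) (nat_lit 5) (nat_lit 4) (nat_lit 4) (nat_lit 361) (nat_lit 290) (nat_lit 129))) (XT.nd (nat_lit 78) (nat_lit 0) (nat_lit 0) (XT.lf (nat_lit 0) (nat_lit 2046820228685) (nat_lit 76) (nat_lit 556353295858) (nat_lit 76) (nat_lit 406715944176) (nat_lit 3) (nat_lit 4) (nat_lit 4) (nat_lit 5) (nat_lit 4) (nat_lit 4) (nat_lit 362) (nat_lit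 290) (nat_lit 128)) (XT.lf (nat_lit 0) (nat_lit 2360190327746) (nat_lit 76) (nat_lit 516933134740) (nat_lit 76) (nat_lit 367295740395) (nat_lit 3) (nat_lit 4) (nat_lit 4) (nat_lit 5) (nat_lit 4) (nat_lit 4) (nat_lit 363) (nat_lit 290) (nat_lit 127))))) (XT.nd (nat_lit 35178) (nat_lit 0) (nat_lit 3192) (XT.nd (nat_lit 35022) (nat_lit 0) (nat_lit 3116) (XT.nd (nat_lit 34944) (nat_lit 0) (nat_lit 3116) (XT.lf (nat_lit 0) (nat_lit 2698629952573) (nat_lit 76) (nat_lit 474359400245) (nat_lit 76) (nat_lit 324721966396) (nat_lit 3) (nat_lit 4) (nat_lit 4) (nat_lit 5) (nat_lit 4) (nat_lit 4) (nat_lit 364) (nat_lit 290) (nat_lit 126)) (XT.lf (nat_lit 0) (nat_lit 13148163453) (nat_lit 532) (nat_lit 4534906894) (nat_lit 532) (nat_lit 4534906894) (nat_lit 44) (nat_lit 3) (nat_lit 51) (nat_lit 3) (nat_lit 51) (nat_lit 5) (nat_lit 291) (nat_lit 291) (nat_lit 198))) (XT.nd (nat_lit 78) (nat_lit 0) (nat_lit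 76) (XT.lf (nat_lit 76) (nat_lit 11673778430) (nat_lit 0) (nat_lit 15985392116) (nat_lit 532) (nat_lit 18529244056) (nat_lit 45) (nat_lit 5) (nat_lit 44) (nat_lit 3) (nat_lit 51) (nat_lit 5) (nat_lit 292) (nat_lit 291) (nat_lit 197)) (XT.lf (nat_lit 0) (nat_lit 29501380370) (nat_lit 456) (nat_lit 13595966765) (nat_lit 532) (nat_lit 4954107187) (nat_lit 45) (nat_lit 5) (nat_lit 51) (nat_lit 5) (nat_lit 52) (nat_lit 5) (nat_lit 293) (nat_lit 291) (nat_lit 196)))) (XT.nd (nat_lit 156) (nat_lit 0) (nat_lit 76) (XT.nd (nat_lit 78) (nat_lit 0) (nat_lit 0) (XT.lf (nat_lit 76) (nat_lit 9030889712) (nat_lit 0) (nat_lit 23089665875) (nat_lit 532) (nat_lit 17892623698) (nat_lit 46) (nat_lit 5) (nat_lit 45) (nat_lit 5) (nat_lit 52) (nat_lit 5) (nat_lit 294) (nat_lit 291) (nat_lit 195)) (XT.lf (nat_lit 76) (nat_lit 34239293382) (nat_lit 0) (nat_lit 1079064204) (nat_lit 532) (nat_lit 16783965713)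 (nat_lit 46) (nat_lit 5) (nat_lit 45) (nat_lit 5) (nat_lit 52) (nat_lit 5) (nat_lit 295) (nat_lit 291) (nat_lit 194))) (XT.nd (nat_lit 78) (nat_lit 0) (nat_lit 0) (XT.lf (nat_lit 76) (nat_lit 6903453049) (nat_lit 0) (nat_lit 32577880661) (nat_lit 532) (nat_lit 14820524976) (nat_lit 47) (nat_lit 5) (nat_lit 46) (nat_lit 5) (nat_lit 53) (nat_lit 5) (nat_lit 296) (nat_lit 291) (nat_lit 193)) (XT.lf (nat_lit 76) (nat_lit 34635781936) (nat_lit 0) (nat_lit 9854995717) (nat_lit 532) (nat_lit 12145512137) (nat_lit 47) (nat_lit 5) (nat_lit 46) (nat_lit 5) (nat_lit 53) (nat_lit 5) (nat_lit 297) (nat_lit 291) (nat_lit 192)))))) (XT.nd (nat_lit 546) (nat_lit 532) (nat_lit 0) (XT.nd (nat_lit 234) (nat_lit 456) (nat_lit 0) (XT.nd (nat_lit 78) (nat_lit 304) (nat_lit 0) (XT.lf (nat_lit 0) (nat_lit 5341319651) (nat_lit 456) (nat_lit 45039192814) (nat_lit 532) (nat_lit 8738606820) (nat_lit 41) (nat_lit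 5) (nat_lit 47) (nat_lit 5) (nat_lit 48) (nat_lit 5) (nat_lit 298) (nat_lit 291) (nat_lit 191)) (XT.nd (nat_lit 78) (nat_lit 304) (nat_lit 0) (XT.lf (nat_lit 0) (nat_lit 35850372284) (nat_lit 456) (nat_lit 21740076830) (nat_lit 532) (nat_lit 4142210410) (nat_lit 41) (nat_lit 5) (nat_lit 47) (nat_lit 5) (nat_lit 48) (nat_lit 5) (nat_lit 299) (nat_lit 291) (nat_lit 190)) (XT.lf (nat_lit 0) (nat_lit 971407774) (nat_lit 304) (nat_lit 60185256315) (nat_lit 76) (nat_lit 3381792925) (nat_lit 37) (nat_lit 5) (nat_lit 41) (nat_lit 5) (nat_lit 38) (nat_lit 5) (nat_lit 300) (nat_lit 291) (nat_lit 189)))) (XT.nd (nat_lit 156) (nat_lit 228) (nat_lit 0) (XT.nd (nat_lit 78) (nat_lit 228) (nat_lit 0) (XT.lf (nat_lit 0) (nat_lit 7559245080) (nat_lit 304) (nat_lit 29725205836) (nat_lit 76) (nat_lit 30172551812) (nat_lit 37) (nat_lit 5) (nat_lit 41) (nat_lit 5) (nat_lit 38) (nat_lit 5) (nat_lit 301) (nat_lit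 291) (nat_lit 188)) (XT.lf (nat_lit 0) (nat_lit 3336781867) (nat_lit 228) (nat_lit 11415901927) (nat_lit 304) (nat_lit 55850066931) (nat_lit 34) (nat_lit 5) (nat_lit 37) (nat_lit 5) (nat_lit 38) (nat_lit 5) (nat_lit 302) (nat_lit 291) (nat_lit 187))) (XT.nd (nat_lit 78) (nat_lit 228) (nat_lit 0) (XT.lf (nat_lit 0) (nat_lit 23751208592) (nat_lit 304) (nat_lit 33621248830) (nat_lit 76) (nat_lit 16529336502) (nat_lit 34) (nat_lit 5) (nat_lit 38) (nat_lit 5) (nat_lit 35) (nat_lit 5) (nat_lit 303) (nat_lit 291) (nat_lit 186)) (XT.lf (nat_lit 0) (nat_lit 2544065725) (nat_lit 228) (nat_lit 31281773097) (nat_lit 304) (nat_lit 43610427807) (nat_lit 31) (nat_lit 5) (nat_lit 34) (nat_lit 5) (nat_lit 35) (nat_lit 5) (nat_lit 304) (nat_lit 291) (nat_lit 185))))) (XT.nd (nat_lit 312) (nat_lit 228) (nat_lit 0) (XT.nd (nat_lit 156) (nat_lit 152) (nat_lit 0) (XT.nd (nat_lit 78) (nat_lit 152) (nat_lit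 0) (XT.lf (nat_lit 0) (nat_lit 43512988858) (nat_lit 228) (nat_lit 2111305749) (nat_lit 304) (nat_lit 35555777766) (nat_lit 31) (nat_lit 5) (nat_lit 34) (nat_lit 5) (nat_lit 35) (nat_lit 5) (nat_lit 305) (nat_lit 291) (nat_lit 184)) (XT.lf (nat_lit 0) (nat_lit 1923714279) (nat_lit 152) (nat_lit 57194764305) (nat_lit 228) (nat_lit 26044759220) (nat_lit 29) (nat_lit 5) (nat_lit 31) (nat_lit 5) (nat_lit 32) (nat_lit 5) (nat_lit 306) (nat_lit 291) (nat_lit 183))) (XT.nd (nat_lit 78) (nat_lit 152) (nat_lit 0) (XT.lf (nat_lit 0) (nat_lit 46764588147) (nat_lit 152) (nat_lit 28009691691) (nat_lit 228) (nat_lit 14604213144) (nat_lit 29) (nat_lit 5) (nat_lit 31) (nat_lit 5) (nat_lit 32) (nat_lit 5) (nat_lit 307) (nat_lit 291) (nat_lit 182)) (XT.lf (nat_lit 0) (nat_lit 1237667692) (nat_lit 152) (nat_lit 90557895093) (nat_lit 228) (nat_lit 2126367268) (nat_lit 27) (nat_lit 5) (nat_lit 29) (nat_lit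 5) (nat_lit 30) (nat_lit 5) (nat_lit 308) (nat_lit 291) (nat_lit 181)))) (XT.nd (nat_lit 156) (nat_lit 152) (nat_lit 0) (XT.nd (nat_lit 78) (nat_lit 0) (nat_lit 0) (XT.lf (nat_lit 0) (nat_lit 12703724789) (nat_lit 228) (nat_lit 48747134480) (nat_lit 76) (nat_lit 37202406295) (nat_lit 26) (nat_lit 5) (nat_lit 29) (nat_lit 5) (nat_lit 27) (nat_lit 5) (nat_lit 309) (nat_lit 291) (nat_lit 180)) (XT.lf (nat_lit 0) (nat_lit 28604279669) (nat_lit 228) (nat_lit 1351758889) (nat_lit 76) (nat_lit 73802738462) (nat_lit 26) (nat_lit 5) (nat_lit 29) (nat_lit 5) (nat_lit 27) (nat_lit 5) (nat_lit 310) (nat_lit 291) (nat_lit 179))) (XT.nd (nat_lit 78) (nat_lit 0) (nat_lit 0) (XT.lf (nat_lit 0) (nat_lit 47167872831) (nat_lit 228) (nat_lit 56844216598) (nat_lit 76) (nat_lit 5149362572) (nat_lit 24) (nat_lit 5) (nat_lit 27) (nat_lit 5) (nat_lit 25) (nat_lit 5) (nat_lit 311) (nat_lit 291) (nat_lit 178))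 (XT.lf (nat_lit 0) (nat_lit 68031596335) (nat_lit 228) (nat_lit 5417212849) (nat_lit 76) (nat_lit 41482330330) (nat_lit 24) (nat_lit 5) (nat_lit 27) (nat_lit 5) (nat_lit 25) (nat_lit 5) (nat_lit 312) (nat_lit 291) (nat_lit 177))))))) (XT.nd (nat_lit 1170) (nat_lit 380) (nat_lit 0) (XT.nd (nat_lit 546) (nat_lit 456) (nat_lit 0) (XT.nd (nat_lit 234) (nat_lit 228) (nat_lit 0) (XT.nd (nat_lit 78) (nat_lit 152) (nat_lit 0) (XT.lf (nat_lit 0) (nat_lit 52762010773) (nat_lit 152) (nat_lit 39070449847) (nat_lit 228) (nat_lit 29228499795) (nat_lit 22) (nat_lit 5) (nat_lit 24) (nat_lit 5) (nat_lit 25) (nat_lit 5) (nat_lit 313) (nat_lit 291) (nat_lit 176)) (XT.nd (nat_lit 78) (nat_lit 152) (nat_lit 0) (XT.lf (nat_lit 0) (nat_lit 115902377250) (nat_lit 152) (nat_lit 1782283100) (nat_lit 228) (nat_lit 9984727016) (nat_lit 22) (nat_lit 5) (nat_lit 24) (nat_lit 5) (nat_lit 25) (nat_lit 5) (nat_lit 314)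 (nat_lit 291) (nat_lit 175)) (XT.lf (nat_lit 0) (nat_lit 12463364016) (nat_lit 152) (nat_lit 84042913289) (nat_lit 76) (nat_lit 38103035906) (nat_lit 20) (nat_lit 5) (nat_lit 22) (nat_lit 5) (nat_lit 21) (nat_lit 5) (nat_lit 315) (nat_lit 291) (nat_lit 174)))) (XT.nd (nat_lit 156) (nat_lit 76) (nat_lit 0) (XT.nd (nat_lit 78) (nat_lit 152) (nat_lit 0) (XT.lf (nat_lit 0) (nat_lit 36543460622) (nat_lit 152) (nat_lit 23838253530) (nat_lit 76) (nat_lit 81671925391) (nat_lit 20) (nat_lit 5) (nat_lit 22) (nat_lit 5) (nat_lit 21) (nat_lit 5) (nat_lit 316) (nat_lit 291) (nat_lit 173)) (XT.lf (nat_lit 0) (nat_lit 43350174118) (nat_lit 152) (nat_lit 20241634189) (nat_lit 228) (nat_lit 86418357444) (nat_lit 18) (nat_lit 5) (nat_lit 20) (nat_lit 5) (nat_lit 21) (nat_lit 5) (nat_lit 317) (nat_lit 291) (nat_lit 172))) (XT.nd (nat_lit 78) (nat_lit 76) (nat_lit 0) (XT.lf (nat_lit 0) (nat_lit 94027808285)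 (nat_lit 228) (nat_lit 41855584147) (nat_lit 76) (nat_lit 22621920011) (nat_lit 18) (nat_lit 5) (nat_lit 21) (nat_lit 5) (nat_lit 19) (nat_lit 4) (nat_lit 318) (nat_lit 291) (nat_lit 171)) (XT.lf (nat_lit 0) (nat_lit 29060032665) (nat_lit 76) (nat_lit 99062646941) (nat_lit 152) (nat_lit 39459473018) (nat_lit 17) (nat_lit 5) (nat_lit 18) (nat_lit 5) (nat_lit 19) (nat_lit 4) (nat_lit 319) (nat_lit 291) (nat_lit 170))))) (XT.nd (nat_lit 312) (nat_lit 228) (nat_lit 0) (XT.nd (nat_lit 156) (nat_lit 0) (nat_lit 0) (XT.nd (nat_lit 78) (nat_lit 228) (nat_lit 0) (XT.lf (nat_lit 0) (nat_lit 108028203433) (nat_lit 76) (nat_lit 58060706571) (nat_lit 152) (nat_lit 11204729449) (nat_lit 17) (nat_lit 5) (nat_lit 18) (nat_lit 5) (nat_lit 19) (nat_lit 4) (nat_lit 320) (nat_lit 291) (nat_lit 169)) (XT.lf (nat_lit 0) (nat_lit 5333138605) (nat_lit 152) (nat_lit 13138927515) (nat_lit 228) (nat_lit 169262614187)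 (nat_lit 14) (nat_lit 5) (nat_lit 16) (nat_lit 5) (nat_lit 17) (nat_lit 5) (nat_lit 321) (nat_lit 291) (nat_lit 168))) (XT.nd (nat_lit 78) (nat_lit 0) (nat_lit 0) (XT.lf (nat_lit 0) (nat_lit 52710903139) (nat_lit 228) (nat_lit 110212767783) (nat_lit 76) (nat_lit 35840592194) (nat_lit 14) (nat_lit 5) (nat_lit 17) (nat_lit 5) (nat_lit 15) (nat_lit 4) (nat_lit 322) (nat_lit 291) (nat_lit 167)) (XT.lf (nat_lit 0) (nat_lit 90029567852) (nat_lit 228) (nat_lit 32591112746) (nat_lit 76) (nat_lit 88028275016) (nat_lit 14) (nat_lit 5) (nat_lit 17) (nat_lit 5) (nat_lit 15) (nat_lit 4) (nat_lit 323) (nat_lit 291) (nat_lit 166)))) (XT.nd (nat_lit 156) (nat_lit 152) (nat_lit 0) (XT.nd (nat_lit 78) (nat_lit 0) (nat_lit 0) (XT.lf (nat_lit 0) (nat_lit 53937570850) (nat_lit 76) (nat_lit 77692845403) (nat_lit 152) (nat_lit 91750272687) (nat_lit 13) (nat_lit 5) (nat_lit 14) (nat_lit 5) (nat_lit 15) (nat_lit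 4) (nat_lit 324) (nat_lit 291) (nat_lit 165)) (XT.lf (nat_lit 0) (nat_lit 149241177279) (nat_lit 76) (nat_lit 28208761776) (nat_lit 152) (nat_lit 59609773973) (nat_lit 13) (nat_lit 5) (nat_lit 14) (nat_lit 5) (nat_lit 15) (nat_lit 4) (nat_lit 325) (nat_lit 291) (nat_lit 164))) (XT.nd (nat_lit 78) (nat_lit 152) (nat_lit 0) (XT.lf (nat_lit 0) (nat_lit 227541439237) (nat_lit 152) (nat_lit 271689015) (nat_lit 0) (nat_lit 23971418119) (nat_lit 13) (nat_lit 5) (nat_lit 15) (nat_lit 4) (nat_lit 13) (nat_lit 4) (nat_lit 326) (nat_lit 291) (nat_lit 163)) (XT.lf (nat_lit 0) (nat_lit 16435949678) (nat_lit 152) (nat_lit 169384040411) (nat_lit 76) (nat_lit 81586048445) (nat_lit 11) (nat_lit 5) (nat_lit 13) (nat_lit 5) (nat_lit 12) (nat_lit 4) (nat_lit 327) (nat_lit 291) (nat_lit 162)))))) (XT.nd (nat_lit 624) (nat_lit 152) (nat_lit 0) (XT.nd (nat_lit 312) (nat_lit 152) (nat_lit 0) (XT.nd (nat_lit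 156) (nat_lit 0) (nat_lit 0) (XT.nd (nat_lit 78) (nat_lit 76) (nat_lit 0) (XT.lf (nat_lit 0) (nat_lit 59066768114) (nat_lit 152) (nat_lit 80712673828) (nat_lit 76) (nat_lit 144446857730) (nat_lit 11) (nat_lit 5) (nat_lit 13) (nat_lit 5) (nat_lit 12) (nat_lit 4) (nat_lit 328) (nat_lit 291) (nat_lit 161)) (XT.lf (nat_lit 0) (nat_lit 15844288853) (nat_lit 76) (nat_lit 89644423465) (nat_lit 152) (nat_lit 196873016982) (nat_lit 10) (nat_lit 5) (nat_lit 11) (nat_lit 5) (nat_lit 12) (nat_lit 4) (nat_lit 329) (nat_lit 291) (nat_lit 160))) (XT.nd (nat_lit 78) (nat_lit 0) (nat_lit 0) (XT.lf (nat_lit 0) (nat_lit 124715319045) (nat_lit 76) (nat_lit 33115537980) (nat_lit 152) (nat_lit 163940621065) (nat_lit 10) (nat_lit 5) (nat_lit 11) (nat_lit 5) (nat_lit 12) (nat_lit 4) (nat_lit 330) (nat_lit 291) (nat_lit 159)) (XT.lf (nat_lit 0) (nat_lit 215031865468) (nat_lit 152) (nat_lit 101110489837) (nat_lit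 0) (nat_lit 26537932467) (nat_lit 10) (nat_lit 5) (nat_lit 12) (nat_lit 4) (nat_lit 10) (nat_lit 4) (nat_lit 331) (nat_lit 291) (nat_lit 158)))) (XT.nd (nat_lit 156) (nat_lit 76) (nat_lit 0) (XT.nd (nat_lit 78) (nat_lit 0) (nat_lit 0) (XT.lf (nat_lit 0) (nat_lit 1736966720) (nat_lit 76) (nat_lit 275973571453) (nat_lit 76) (nat_lit 87479137703) (nat_lit 9) (nat_lit 4) (nat_lit 10) (nat_lit 5) (nat_lit 10) (nat_lit 4) (nat_lit 332) (nat_lit 291) (nat_lit 157)) (XT.lf (nat_lit 0) (nat_lit 118561866002) (nat_lit 76) (nat_lit 229605854730) (nat_lit 76) (nat_lit 41110957324) (nat_lit 9) (nat_lit 4) (nat_lit 10) (nat_lit 5) (nat_lit 10) (nat_lit 4) (nat_lit 333) (nat_lit 291) (nat_lit 156))) (XT.nd (nat_lit 78) (nat_lit 0) (nat_lit 0) (XT.lf (nat_lit 0) (nat_lit 8517819956) (nat_lit 152) (nat_lit 170778261207) (nat_lit 76) (nat_lit 235981492247) (nat_lit 8) (nat_lit 5) (nat_lit 10) (nat_lit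 5) (nat_lit 9) (nat_lit 4) (nat_lit 334) (nat_lit 291) (nat_lit 155)) (XT.lf (nat_lit 0) (nat_lit 59895554716) (nat_lit 152) (nat_lit 63912970416) (nat_lit 76) (nat_lit 319462452956) (nat_lit 8) (nat_lit 5) (nat_lit 10) (nat_lit 5) (nat_lit 9) (nat_lit 4) (nat_lit 335) (nat_lit 291) (nat_lit 154))))) (XT.nd (nat_lit 312) (nat_lit 76) (nat_lit 0) (XT.nd (nat_lit 156) (nat_lit 0) (nat_lit 0) (XT.nd (nat_lit 78) (nat_lit 0) (nat_lit 0) (XT.lf (nat_lit 0) (nat_lit 54213009948) (nat_lit 76) (nat_lit 62474058436) (nat_lit 152) (nat_lit 356712502174) (nat_lit 7) (nat_lit 5) (nat_lit 8) (nat_lit 5) (nat_lit 9) (nat_lit 4) (nat_lit 336) (nat_lit 291) (nat_lit 153)) (XT.lf (nat_lit 0) (nat_lit 179905125667) (nat_lit 152) (nat_lit 320511275847) (nat_lit 0) (nat_lit 5371391321) (nat_lit 7) (nat_lit 5) (nat_lit 9) (nat_lit 4) (nat_lit 7) (nat_lit 4) (nat_lit 337) (nat_lit 291) (nat_lit 152))) (XT.nd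 (nat_lit 78) (nat_lit 0) (nat_lit 0) (XT.lf (nat_lit 0) (nat_lit 249803088470) (nat_lit 152) (nat_lit 215565125802) (nat_lit 0) (nat_lit 75269061942) (nat_lit 7) (nat_lit 5) (nat_lit 9) (nat_lit 4) (nat_lit 7) (nat_lit 4) (nat_lit 338) (nat_lit 291) (nat_lit 151)) (XT.lf (nat_lit 0) (nat_lit 325292664337) (nat_lit 152) (nat_lit 102223704756) (nat_lit 0) (nat_lit 150758367269) (nat_lit 7) (nat_lit 5) (nat_lit 9) (nat_lit 4) (nat_lit 7) (nat_lit 4) (nat_lit 339) (nat_lit 291) (nat_lit 150)))) (XT.nd (nat_lit 156) (nat_lit 0) (nat_lit 0) (XT.nd (nat_lit 78) (nat_lit 0) (nat_lit 0) (XT.lf (nat_lit 0) (nat_lit 21247527536) (nat_lit 76) (nat_lit 386084674912) (nat_lit 76) (nat_lit 211550127346) (nat_lit 6) (nat_lit 4) (nat_lit 7) (nat_lit 5) (nat_lit 7) (nat_lit 4) (nat_lit 340) (nat_lit 291) (nat_lit 149)) (XT.lf (nat_lit 0) (nat_lit 160409631131) (nat_lit 76) (nat_lit 338320048573) (nat_lit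 76) (nat_lit 163785269063) (nat_lit 6) (nat_lit 4) (nat_lit 7) (nat_lit 5) (nat_lit 7) (nat_lit 4) (nat_lit 341) (nat_lit 291) (nat_lit 148))) (XT.nd (nat_lit 78) (nat_lit 0) (nat_lit 0) (XT.lf (nat_lit 0) (nat_lit 310704351210) (nat_lit 76) (nat_lit 286734417682) (nat_lit 76) (nat_lit 112199423410) (nat_lit 6) (nat_lit 4) (nat_lit 7) (nat_lit 5) (nat_lit 7) (nat_lit 4) (nat_lit 342) (nat_lit 291) (nat_lit 147)) (XT.lf (nat_lit 0) (nat_lit 473022323150) (nat_lit 76) (nat_lit 231022089613) (nat_lit 76) (nat_lit 56486896487) (nat_lit 6) (nat_lit 4) (nat_lit 7) (nat_lit 5) (nat_lit 7) (nat_lit 4) (nat_lit 343) (nat_lit 291) (nat_lit 146))))))))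
noncomputable def xc97 : XT := (XT.nd (nat_lit 37284) (nat_lit 0) (nat_lit 532) (XT.nd (nat_lit 1170) (nat_lit 0) (nat_lit 0) (XT.nd (nat_lit 546) (nat_lit 76) (nat_lit 0) (XT.nd (nat_lit 234) (nat_lit 0) (nat_lit 0) (XT.nd (nat_lit 78) (nat_lit 76) (nat_lit 0) (XT.lf (nat_lit 0) (nat_lit 3498248450) (nat_lit 152) (nat_lit 167259020473) (nat_lit 76) (nat_lit 644731534467) (nat_lit 5) (nat_lit 5) (nat_lit 7) (nat_lit 5) (nat_lit 6) (nat_lit 4) (nat_lit 344) (nat_lit 291) (nat_lit 145)) (XT.nd (nat_lit 78) (nat_lit 76) (nat_lit 0) (XT.lf (nat_lit 0) (nat_lit 65230293582) (nat_lit 152) (nat_lit 38856537084) (nat_lit 76) (nat_lit 770638703275) (nat_lit 5) (nat_lit 5) (nat_lit 7) (nat_lit 5) (nat_lit 6) (nat_lit 4) (nat_lit 345) (nat_lit 291) (nat_lit 144)) (XT.lf (nat_lit 0) (nat_lit 105074111499) (nat_lit 76) (nat_lit 29353685179) (nat_lit 152) (nat_lit 804071254807) (nat_lit 4) (nat_lit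 5) (nat_lit 5) (nat_lit 5) (nat_lit 6) (nat_lit 4) (nat_lit 346) (nat_lit 291) (nat_lit 143)))) (XT.nd (nat_lit 156) (nat_lit 0) (nat_lit 0) (XT.nd (nat_lit 78) (nat_lit 0) (nat_lit 0) (XT.lf (nat_lit 0) (nat_lit 211486126072) (nat_lit 152) (nat_lit 745823466440) (nat_lit 0) (nat_lit 49878855928) (nat_lit 4) (nat_lit 5) (nat_lit 6) (nat_lit 4) (nat_lit 4) (nat_lit 4) (nat_lit 347) (nat_lit 291) (nat_lit 142)) (XT.lf (nat_lit 0) (nat_lit 295471426183) (nat_lit 152) (nat_lit 651976555976) (nat_lit 0) (nat_lit 133864030726) (nat_lit 4) (nat_lit 5) (nat_lit 6) (nat_lit 4) (nat_lit 4) (nat_lit 4) (nat_lit 348) (nat_lit 291) (nat_lit 141))) (XT.nd (nat_lit 78) (nat_lit 0) (nat_lit 0) (XT.lf (nat_lit 0) (nat_lit 386175430843) (nat_lit 152) (nat_lit 550622121922) (nat_lit 0) (nat_lit 224567919357) (nat_lit 4) (nat_lit 5) (nat_lit 6) (nat_lit 4) (nat_lit 4) (nat_lit 4) (nat_lit 349) (nat_lit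 291) (nat_lit 140)) (XT.lf (nat_lit 0) (nat_lit 484135645264) (nat_lit 152) (nat_lit 441159545408) (nat_lit 0) (nat_lit 322528026344) (nat_lit 4) (nat_lit 5) (nat_lit 6) (nat_lit 4) (nat_lit 4) (nat_lit 4) (nat_lit 350) (nat_lit 291) (nat_lit 139))))) (XT.nd (nat_lit 312) (nat_lit 0) (nat_lit 0) (XT.nd (nat_lit 156) (nat_lit 76) (nat_lit 0) (XT.nd (nat_lit 78) (nat_lit 0) (nat_lit 0) (XT.lf (nat_lit 0) (nat_lit 589932574422) (nat_lit 152) (nat_lit 322940159314) (nat_lit 0) (nat_lit 428324856025) (nat_lit 4) (nat_lit 5) (nat_lit 6) (nat_lit 4) (nat_lit 4) (nat_lit 4) (nat_lit 351) (nat_lit 291) (nat_lit 138)) (XT.lf (nat_lit 0) (nat_lit 704193163082) (nat_lit 152) (nat_lit 195263404316) (nat_lit 0) (nat_lit 542585352577) (nat_lit 4) (nat_lit 5) (nat_lit 6) (nat_lit 4) (nat_lit 4) (nat_lit 4) (nat_lit 352) (nat_lit 291) (nat_lit 137))) (XT.nd (nat_lit 78) (nat_lit 76) (nat_lit 0) (XT.lf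 (nat_lit 0) (nat_lit 827594511029) (nat_lit 152) (nat_lit 57372677421) (nat_lit 0) (nat_lit 665986615238) (nat_lit 4) (nat_lit 5) (nat_lit 6) (nat_lit 4) (nat_lit 4) (nat_lit 4) (nat_lit 353) (nat_lit 291) (nat_lit 136)) (XT.lf (nat_lit 0) (nat_lit 96369967688) (nat_lit 76) (nat_lit 866815617861) (nat_lit 76) (nat_lit 705207643102) (nat_lit 3) (nat_lit 4) (nat_lit 4) (nat_lit 5) (nat_lit 4) (nat_lit 4) (nat_lit 354) (nat_lit 291) (nat_lit 135)))) (XT.nd (nat_lit 156) (nat_lit 0) (nat_lit 0) (XT.nd (nat_lit 78) (nat_lit 0) (nat_lit 0) (XT.lf (nat_lit 0) (nat_lit 265674707337) (nat_lit 76) (nat_lit 845517830430) (nat_lit 76) (nat_lit 683909782554) (nat_lit 3) (nat_lit 4) (nat_lit 4) (nat_lit 5) (nat_lit 4) (nat_lit 4) (nat_lit 355) (nat_lit 291) (nat_lit 134)) (XT.lf (nat_lit 0) (nat_lit 448523685352) (nat_lit 76) (nat_lit 822516287722) (nat_lit 76) (nat_lit 660908172144) (nat_lit 3) (nat_lit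 4) (nat_lit 4) (nat_lit 5) (nat_lit 4) (nat_lit 4) (nat_lit 356) (nat_lit 291) (nat_lit 133))) (XT.nd (nat_lit 78) (nat_lit 0) (nat_lit 0) (XT.lf (nat_lit 0) (nat_lit 646000451231) (nat_lit 76) (nat_lit 797674684298) (nat_lit 76) (nat_lit 636066506032) (nat_lit 3) (nat_lit 4) (nat_lit 4) (nat_lit 5) (nat_lit 4) (nat_lit 4) (nat_lit 357) (nat_lit 291) (nat_lit 132)) (XT.lf (nat_lit 0) (nat_lit 859275237661) (nat_lit 76) (nat_lit 770845810656) (nat_lit 76) (nat_lit 609237574347) (nat_lit 3) (nat_lit 4) (nat_lit 4) (nat_lit 5) (nat_lit 4) (nat_lit 4) (nat_lit 358) (nat_lit 291) (nat_lit 131)))))) (XT.nd (nat_lit 35490) (nat_lit 0) (nat_lit 2888) (XT.nd (nat_lit 234) (nat_lit 0) (nat_lit 0) (XT.nd (nat_lit 78) (nat_lit 0) (nat_lit 0) (XT.lf (nat_lit 0) (nat_lit 1089611895229) (nat_lit 76) (nat_lit 741870680878) (nat_lit 76) (nat_lit 580262390825) (nat_lit 3) (nat_lit 4) (nat_lit 4) (nat_lit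 5) (nat_lit 4) (nat_lit 4) (nat_lit 359) (nat_lit 291) (nat_lit 130)) (XT.nd (nat_lit 78) (nat_lit 0) (nat_lit 0) (XT.lf (nat_lit 0) (nat_lit 1338375381906) (nat_lit 76) (nat_lit 710577590493) (nat_lit 76) (nat_lit 548969250676) (nat_lit 3) (nat_lit 4) (nat_lit 4) (nat_lit 5) (nat_lit 4) (nat_lit 4) (nat_lit 360) (nat_lit 291) (nat_lit 129)) (XT.lf (nat_lit 0) (nat_lit 1607039851686) (nat_lit 76) (nat_lit 676781098963) (nat_lit 76) (nat_lit 515172713069) (nat_lit 3) (nat_lit 4) (nat_lit 4) (nat_lit 5) (nat_lit 4) (nat_lit 4) (nat_lit 361) (nat_lit 291) (nat_lit 128)))) (XT.nd (nat_lit 156) (nat_lit 0) (nat_lit 0) (XT.nd (nat_lit 78) (nat_lit 0) (nat_lit 0) (XT.lf (nat_lit 0) (nat_lit 1897197390316) (nat_lit 76) (nat_lit 640280930783) (nat_lit 76) (nat_lit 478672502226) (nat_lit 3) (nat_lit 4) (nat_lit 4) (nat_lit 5) (nat_lit 4) (nat_lit 4) (nat_lit 362) (nat_lit 291) (nat_lit 127)) (XT.lf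 (nat_lit 0) (nat_lit 2210567449877) (nat_lit 76) (nat_lit 600860788662) (nat_lit 76) (nat_lit 439252320601) (nat_lit 3) (nat_lit 4) (nat_lit 4) (nat_lit 5) (nat_lit 4) (nat_lit 4) (nat_lit 363) (nat_lit 291) (nat_lit 126))) (XT.nd (nat_lit 35022) (nat_lit 0) (nat_lit 3116) (XT.lf (nat_lit 0) (nat_lit 2549007038130) (nat_lit 76) (nat_lit 558287071756) (nat_lit 76) (nat_lit 396678567118) (nat_lit 3) (nat_lit 4) (nat_lit 4) (nat_lit 5) (nat_lit 4) (nat_lit 4) (nat_lit 364) (nat_lit 291) (nat_lit 125)) (XT.lf (nat_lit 0) (nat_lit 14229525267) (nat_lit 532) (nat_lit 4881716508) (nat_lit 532) (nat_lit 4881716508) (nat_lit 44) (nat_lit 3) (nat_lit 51) (nat_lit 3) (nat_lit 51) (nat_lit 5) (nat_lit 292) (nat_lit 292) (nat_lit 196))))) (XT.nd (nat_lit 312) (nat_lit 228) (nat_lit 0) (XT.nd (nat_lit 156) (nat_lit 0) (nat_lit 76) (XT.nd (nat_lit 78) (nat_lit 0) (nat_lit 76) (XT.lf (nat_lit 76) (nat_lit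 12638837317) (nat_lit 0) (nat_lit 17288462001) (nat_lit 532) (nat_lit 19951578253) (nat_lit 45) (nat_lit 5) (nat_lit 44) (nat_lit 3) (nat_lit 51) (nat_lit 5) (nat_lit 293) (nat_lit 292) (nat_lit 195)) (XT.lf (nat_lit 0) (nat_lit 31912242828) (nat_lit 456) (nat_lit 14649986931) (nat_lit 532) (nat_lit 5329115386) (nat_lit 45) (nat_lit 5) (nat_lit 51) (nat_lit 5) (nat_lit 52) (nat_lit 5) (nat_lit 294) (nat_lit 292) (nat_lit 194))) (XT.nd (nat_lit 78) (nat_lit 0) (nat_lit 0) (XT.lf (nat_lit 76) (nat_lit 9786165983) (nat_lit 0) (nat_lit 24951815632) (nat_lit 532) (nat_lit 19272276374) (nat_lit 46) (nat_lit 5) (nat_lit 45) (nat_lit 5) (nat_lit 52) (nat_lit 5) (nat_lit 295) (nat_lit 292) (nat_lit 193)) (XT.lf (nat_lit 76) (nat_lit 37008811941) (nat_lit 0) (nat_lit 1179256458) (nat_lit 532) (nat_lit 18078759618) (nat_lit 46) (nat_lit 5) (nat_lit 45) (nat_lit 5) (nat_lit 52) (nat_lit 5) (nat_lit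 296) (nat_lit 292) (nat_lit 192)))) (XT.nd (nat_lit 156) (nat_lit 380) (nat_lit 0) (XT.nd (nat_lit 78) (nat_lit 0) (nat_lit 0) (XT.lf (nat_lit 76) (nat_lit 7489248405) (nat_lit 0) (nat_lit 35192054341) (nat_lit 532) (nat_lit 15961256378) (nat_lit 47) (nat_lit 5) (nat_lit 46) (nat_lit 5) (nat_lit 53) (nat_lit 5) (nat_lit 297) (nat_lit 292) (nat_lit 191)) (XT.lf (nat_lit 76) (nat_lit 37437680707) (nat_lit 0) (nat_lit 10650750214) (nat_lit 532) (nat_lit 13075569223) (nat_lit 47) (nat_lit 5) (nat_lit 46) (nat_lit 5) (nat_lit 53) (nat_lit 5) (nat_lit 298) (nat_lit 292) (nat_lit 190))) (XT.nd (nat_lit 78) (nat_lit 0) (nat_lit 0) (XT.lf (nat_lit 0) (nat_lit 5802160116) (nat_lit 456) (nat_lit 48644983353) (nat_lit 532) (nat_lit 9398497616) (nat_lit 41) (nat_lit 5) (nat_lit 47) (nat_lit 5) (nat_lit 48) (nat_lit 5) (nat_lit 299) (nat_lit 292) (nat_lit 189)) (XT.lf (nat_lit 0) (nat_lit 38749452894)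 (nat_lit 456) (nat_lit 23481741415) (nat_lit 532) (nat_lit 4437293030) (nat_lit 41) (nat_lit 5) (nat_lit 47) (nat_lit 5) (nat_lit 48) (nat_lit 5) (nat_lit 300) (nat_lit 292) (nat_lit 188))))))) (XT.nd (nat_lit 1170) (nat_lit 912) (nat_lit 0) (XT.nd (nat_lit 546) (nat_lit 532) (nat_lit 0) (XT.nd (nat_lit 234) (nat_lit 380) (nat_lit 0) (XT.nd (nat_lit 78) (nat_lit 228) (nat_lit 0) (XT.lf (nat_lit 0) (nat_lit 1081804058) (nat_lit 304) (nat_lit 64965229616) (nat_lit 76) (nat_lit 3651795868) (nat_lit 37) (nat_lit 5) (nat_lit 41) (nat_lit 5) (nat_lit 38) (nat_lit 5) (nat_lit 301) (nat_lit 292) (nat_lit 187)) (XT.nd (nat_lit 78) (nat_lit 228) (nat_lit 0) (XT.lf (nat_lit 0) (nat_lit 8194247336) (nat_lit 304) (nat_lit 32070956374) (nat_lit 76) (nat_lit 32585855503) (nat_lit 37) (nat_lit 5) (nat_lit 41) (nat_lit 5) (nat_lit 38) (nat_lit 5) (nat_lit 302) (nat_lit 292) (nat_lit 186)) (XT.lf (nat_lit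 0) (nat_lit 3635173487) (nat_lit 228) (nat_lit 12326502334) (nat_lit 304) (nat_lit 60286916183) (nat_lit 34) (nat_lit 5) (nat_lit 37) (nat_lit 5) (nat_lit 38) (nat_lit 5) (nat_lit 303) (nat_lit 292) (nat_lit 185)))) (XT.nd (nat_lit 156) (nat_lit 152) (nat_lit 0) (XT.nd (nat_lit 78) (nat_lit 228) (nat_lit 0) (XT.lf (nat_lit 0) (nat_lit 25678010445) (nat_lit 304) (nat_lit 36279686149) (nat_lit 76) (nat_lit 17854033510) (nat_lit 34) (nat_lit 5) (nat_lit 38) (nat_lit 5) (nat_lit 35) (nat_lit 5) (nat_lit 304) (nat_lit 292) (nat_lit 184)) (XT.lf (nat_lit 0) (nat_lit 2778062113) (nat_lit 228) (nat_lit 33779303651) (nat_lit 304) (nat_lit 47071699741) (nat_lit 31) (nat_lit 5) (nat_lit 34) (nat_lit 5) (nat_lit 35) (nat_lit 5) (nat_lit 305) (nat_lit 292) (nat_lit 183))) (XT.nd (nat_lit 78) (nat_lit 152) (nat_lit 0) (XT.lf (nat_lit 0) (nat_lit 47022241975) (nat_lit 228) (nat_lit 2275570122) (nat_lit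 304) (nat_lit 38374719348) (nat_lit 31) (nat_lit 5) (nat_lit 34) (nat_lit 5) (nat_lit 35) (nat_lit 5) (nat_lit 306) (nat_lit 292) (nat_lit 182)) (XT.lf (nat_lit 0) (nat_lit 2106899816) (nat_lit 152) (nat_lit 61763692476) (nat_lit 228) (nat_lit 28103837404) (nat_lit 29) (nat_lit 5) (nat_lit 31) (nat_lit 5) (nat_lit 32) (nat_lit 5) (nat_lit 307) (nat_lit 292) (nat_lit 181))))) (XT.nd (nat_lit 312) (nat_lit 304) (nat_lit 0) (XT.nd (nat_lit 156) (nat_lit 76) (nat_lit 0) (XT.nd (nat_lit 78) (nat_lit 152) (nat_lit 0) (XT.lf (nat_lit 0) (nat_lit 50532874083) (nat_lit 152) (nat_lit 30244306866) (nat_lit 228) (nat_lit 15749862647) (nat_lit 29) (nat_lit 5) (nat_lit 31) (nat_lit 5) (nat_lit 32) (nat_lit 5) (nat_lit 308) (nat_lit 292) (nat_lit 180)) (XT.lf (nat_lit 0) (nat_lit 1364654095) (nat_lit 152) (nat_lit 97794769868) (nat_lit 228) (nat_lit 2274594936) (nat_lit 27) (nat_lit 5) (nat_lit 29)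 (nat_lit 5) (nat_lit 30) (nat_lit 5) (nat_lit 309) (nat_lit 292) (nat_lit 179))) (XT.nd (nat_lit 78) (nat_lit 0) (nat_lit 0) (XT.lf (nat_lit 0) (nat_lit 13739270088) (nat_lit 228) (nat_lit 52619949414) (nat_lit 76) (nat_lit 40184726141) (nat_lit 26) (nat_lit 5) (nat_lit 29) (nat_lit 5) (nat_lit 27) (nat_lit 5) (nat_lit 310) (nat_lit 292) (nat_lit 178)) (XT.lf (nat_lit 0) (nat_lit 30910443632) (nat_lit 228) (nat_lit 1434940503) (nat_lit 76) (nat_lit 79712631004) (nat_lit 26) (nat_lit 5) (nat_lit 29) (nat_lit 5) (nat_lit 27) (nat_lit 5) (nat_lit 311) (nat_lit 292) (nat_lit 177)))) (XT.nd (nat_lit 156) (nat_lit 152) (nat_lit 0) (XT.nd (nat_lit 78) (nat_lit 0) (nat_lit 0) (XT.lf (nat_lit 0) (nat_lit 50958563338) (nat_lit 228) (nat_lit 61366198441) (nat_lit 76) (nat_lit 5568190050) (nat_lit 24) (nat_lit 5) (nat_lit 27) (nat_lit 5) (nat_lit 25) (nat_lit 5) (nat_lit 312) (nat_lit 292) (nat_lit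 176)) (XT.lf (nat_lit 0) (nat_lit 73490106153) (nat_lit 228) (nat_lit 5826927392) (nat_lit 76) (nat_lit 44807285712) (nat_lit 24) (nat_lit 5) (nat_lit 27) (nat_lit 5) (nat_lit 25) (nat_lit 5) (nat_lit 313) (nat_lit 292) (nat_lit 175))) (XT.nd (nat_lit 78) (nat_lit 0) (nat_lit 0) (XT.lf (nat_lit 0) (nat_lit 57006035070) (nat_lit 152) (nat_lit 42188375327) (nat_lit 228) (nat_lit 31550168200) (nat_lit 22) (nat_lit 5) (nat_lit 24) (nat_lit 5) (nat_lit 25) (nat_lit 5) (nat_lit 314) (nat_lit 292) (nat_lit 174)) (XT.lf (nat_lit 0) (nat_lit 125195922463) (nat_lit 152) (nat_lit 1917726389) (nat_lit 228) (nat_lit 10768124086) (nat_lit 22) (nat_lit 5) (nat_lit 24) (nat_lit 5) (nat_lit 25) (nat_lit 5) (nat_lit 315) (nat_lit 292) (nat_lit 173)))))) (XT.nd (nat_lit 624) (nat_lit 304) (nat_lit 0) (XT.nd (nat_lit 312) (nat_lit 304) (nat_lit 0) (XT.nd (nat_lit 156) (nat_lit 152) (nat_lit 0) (XT.nd (nat_lit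 78) (nat_lit 0) (nat_lit 0) (XT.lf (nat_lit 0) (nat_lit 13474663058) (nat_lit 152) (nat_lit 90743789927) (nat_lit 76) (nat_lit 41158442743) (nat_lit 20) (nat_lit 5) (nat_lit 22) (nat_lit 5) (nat_lit 21) (nat_lit 5) (nat_lit 316) (nat_lit 292) (nat_lit 172)) (XT.lf (nat_lit 0) (nat_lit 39480113324) (nat_lit 152) (nat_lit 25724428234) (nat_lit 76) (nat_lit 88212312722) (nat_lit 20) (nat_lit 5) (nat_lit 22) (nat_lit 5) (nat_lit 21) (nat_lit 5) (nat_lit 317) (nat_lit 292) (nat_lit 171))) (XT.nd (nat_lit 78) (nat_lit 0) (nat_lit 0) (XT.lf (nat_lit 0) (nat_lit 46838544877) (nat_lit 152) (nat_lit 21853297540) (nat_lit 228) (nat_lit 93318100737) (nat_lit 18) (nat_lit 5) (nat_lit 20) (nat_lit 5) (nat_lit 21) (nat_lit 5) (nat_lit 318) (nat_lit 292) (nat_lit 170)) (XT.lf (nat_lit 0) (nat_lit 101561953177) (nat_lit 228) (nat_lit 45184393577) (nat_lit 76) (nat_lit 24438417899) (nat_lit 18) (nat_lit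 5) (nat_lit 21) (nat_lit 5) (nat_lit 19) (nat_lit 4) (nat_lit 319) (nat_lit 292) (nat_lit 169)))) (XT.nd (nat_lit 156) (nat_lit 228) (nat_lit 0) (XT.nd (nat_lit 78) (nat_lit 0) (nat_lit 0) (XT.lf (nat_lit 0) (nat_lit 31403975433) (nat_lit 76) (nat_lit 106980016111) (nat_lit 152) (nat_lit 42603795736) (nat_lit 17) (nat_lit 5) (nat_lit 18) (nat_lit 5) (nat_lit 19) (nat_lit 4) (nat_lit 320) (nat_lit 292) (nat_lit 168)) (XT.lf (nat_lit 0) (nat_lit 116688182074) (nat_lit 76) (nat_lit 62698486629) (nat_lit 152) (nat_lit 12089593802) (nat_lit 17) (nat_lit 5) (nat_lit 18) (nat_lit 5) (nat_lit 19) (nat_lit 4) (nat_lit 321) (nat_lit 292) (nat_lit 167))) (XT.nd (nat_lit 78) (nat_lit 0) (nat_lit 0) (XT.lf (nat_lit 0) (nat_lit 5777639618) (nat_lit 152) (nat_lit 14182748885) (nat_lit 228) (nat_lit 182792207573) (nat_lit 14) (nat_lit 5) (nat_lit 16) (nat_lit 5) (nat_lit 17) (nat_lit 5) (nat_lit 322)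 (nat_lit 292) (nat_lit 166)) (XT.lf (nat_lit 0) (nat_lit 56937712877) (nat_lit 228) (nat_lit 119012628847) (nat_lit 76) (nat_lit 38714254398) (nat_lit 14) (nat_lit 5) (nat_lit 17) (nat_lit 5) (nat_lit 15) (nat_lit 4) (nat_lit 323) (nat_lit 292) (nat_lit 165))))) (XT.nd (nat_lit 312) (nat_lit 228) (nat_lit 0) (XT.nd (nat_lit 156) (nat_lit 0) (nat_lit 0) (XT.nd (nat_lit 78) (nat_lit 76) (nat_lit 0) (XT.lf (nat_lit 0) (nat_lit 97241134656) (nat_lit 228) (nat_lit 35182512545) (nat_lit 76) (nat_lit 95076476673) (nat_lit 14) (nat_lit 5) (nat_lit 17) (nat_lit 5) (nat_lit 15) (nat_lit 4) (nat_lit 324) (nat_lit 292) (nat_lit 164)) (XT.lf (nat_lit 0) (nat_lit 58268063480) (nat_lit 76) (nat_lit 83901678328) (nat_lit 152) (nat_lit 99080679682) (nat_lit 13) (nat_lit 5) (nat_lit 14) (nat_lit 5) (nat_lit 15) (nat_lit 4) (nat_lit 325) (nat_lit 292) (nat_lit 163))) (XT.nd (nat_lit 78) (nat_lit 0) (nat_lit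 0) (XT.lf (nat_lit 0) (nat_lit 161194811241) (nat_lit 76) (nat_lit 30459356508) (nat_lit 152) (nat_lit 64369653281) (nat_lit 13) (nat_lit 5) (nat_lit 14) (nat_lit 5) (nat_lit 15) (nat_lit 4) (nat_lit 326) (nat_lit 292) (nat_lit 162)) (XT.lf (nat_lit 0) (nat_lit 245752514028) (nat_lit 152) (nat_lit 279663056) (nat_lit 0) (nat_lit 25894502637) (nat_lit 13) (nat_lit 5) (nat_lit 15) (nat_lit 4) (nat_lit 13) (nat_lit 4) (nat_lit 327) (nat_lit 292) (nat_lit 161)))) (XT.nd (nat_lit 156) (nat_lit 76) (nat_lit 0) (XT.nd (nat_lit 78) (nat_lit 0) (nat_lit 0) (XT.lf (nat_lit 0) (nat_lit 17758536523) (nat_lit 152) (nat_lit 182920936684) (nat_lit 76) (nat_lit 88118423319) (nat_lit 11) (nat_lit 5) (nat_lit 13) (nat_lit 5) (nat_lit 12) (nat_lit 4) (nat_lit 328) (nat_lit 292) (nat_lit 160)) (XT.lf (nat_lit 0) (nat_lit 63799249258) (nat_lit 152) (nat_lit 87156884994) (nat_lit 76) (nat_lit 156007690606)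 (nat_lit 11) (nat_lit 5) (nat_lit 13) (nat_lit 5) (nat_lit 12) (nat_lit 4) (nat_lit 329) (nat_lit 292) (nat_lit 159))) (XT.nd (nat_lit 78) (nat_lit 0) (nat_lit 0) (XT.lf (nat_lit 0) (nat_lit 17124310582) (nat_lit 76) (nat_lit 96810409662) (nat_lit 152) (nat_lit 212615387477) (nat_lit 10) (nat_lit 5) (nat_lit 11) (nat_lit 5) (nat_lit 12) (nat_lit 4) (nat_lit 330) (nat_lit 292) (nat_lit 158)) (XT.lf (nat_lit 0) (nat_lit 134704098847) (nat_lit 76) (nat_lit 35759625759) (nat_lit 152) (nat_lit 177048953284) (nat_lit 10) (nat_lit 5) (nat_lit 11) (nat_lit 5) (nat_lit 12) (nat_lit 4) (nat_lit 331) (nat_lit 292) (nat_lit 157))))))))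
noncomputable def xc98 : XT := (XT.nd (nat_lit 2340) (nat_lit 0) (nat_lit 0) (XT.nd (nat_lit 1170) (nat_lit 152) (nat_lit 0) (XT.nd (nat_lit 546) (nat_lit 152) (nat_lit 0) (XT.nd (nat_lit 234) (nat_lit 152) (nat_lit 0) (XT.nd (nat_lit 78) (nat_lit 76) (nat_lit 0) (XT.lf (nat_lit 0) (nat_lit 232240454523) (nat_lit 152) (nat_lit 109188265374) (nat_lit 0) (nat_lit 28665501668) (nat_lit 10) (nat_lit 5) (nat_lit 12) (nat_lit 4) (nat_lit 10) (nat_lit 4) (nat_lit 332) (nat_lit 292) (nat_lit 156)) (XT.nd (nat_lit 78) (nat_lit 0) (nat_lit 0) (XT.lf (nat_lit 0) (nat_lit 1886707614) (nat_lit 76) (nat_lit 298046525381) (nat_lit 76) (nat_lit 94471143215) (nat_lit 9) (nat_lit 4) (nat_lit 10) (nat_lit 5) (nat_lit 10) (nat_lit 4) (nat_lit 333) (nat_lit 292) (nat_lit 155)) (XT.lf (nat_lit 0) (nat_lit 128056800057) (nat_lit 76) (nat_lit 247969756637) (nat_lit 76) (nat_lit 44393976961) (nat_lit 9) (nat_lit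 4) (nat_lit 10) (nat_lit 5) (nat_lit 10) (nat_lit 4) (nat_lit 334) (nat_lit 292) (nat_lit 154)))) (XT.nd (nat_lit 156) (nat_lit 76) (nat_lit 0) (XT.nd (nat_lit 78) (nat_lit 0) (nat_lit 0) (XT.lf (nat_lit 0) (nat_lit 9204397368) (nat_lit 152) (nat_lit 184431001215) (nat_lit 76) (nat_lit 254863964114) (nat_lit 8) (nat_lit 5) (nat_lit 10) (nat_lit 5) (nat_lit 9) (nat_lit 4) (nat_lit 335) (nat_lit 292) (nat_lit 153)) (XT.lf (nat_lit 0) (nat_lit 64691969293) (nat_lit 152) (nat_lit 69017192412) (nat_lit 76) (nat_lit 345023108902) (nat_lit 8) (nat_lit 5) (nat_lit 10) (nat_lit 5) (nat_lit 9) (nat_lit 4) (nat_lit 336) (nat_lit 292) (nat_lit 152))) (XT.nd (nat_lit 78) (nat_lit 0) (nat_lit 0) (XT.lf (nat_lit 0) (nat_lit 58558643201) (nat_lit 76) (nat_lit 67468014154) (nat_lit 152) (nat_lit 385244505160) (nat_lit 7) (nat_lit 5) (nat_lit 8) (nat_lit 5) (nat_lit 9) (nat_lit 4) (nat_lit 337) (nat_lit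 292) (nat_lit 151)) (XT.lf (nat_lit 0) (nat_lit 194301905122) (nat_lit 152) (nat_lit 346143964312) (nat_lit 0) (nat_lit 5804593751) (nat_lit 7) (nat_lit 5) (nat_lit 9) (nat_lit 4) (nat_lit 7) (nat_lit 4) (nat_lit 338) (nat_lit 292) (nat_lit 150))))) (XT.nd (nat_lit 312) (nat_lit 76) (nat_lit 0) (XT.nd (nat_lit 156) (nat_lit 76) (nat_lit 0) (XT.nd (nat_lit 78) (nat_lit 0) (nat_lit 0) (XT.lf (nat_lit 0) (nat_lit 269791381290) (nat_lit 152) (nat_lit 232802730678) (nat_lit 0) (nat_lit 81293819420) (nat_lit 7) (nat_lit 5) (nat_lit 9) (nat_lit 4) (nat_lit 7) (nat_lit 4) (nat_lit 339) (nat_lit 292) (nat_lit 149)) (XT.lf (nat_lit 0) (nat_lit 351319823541) (nat_lit 152) (nat_lit 110394559295) (nat_lit 0) (nat_lit 162822029727) (nat_lit 7) (nat_lit 5) (nat_lit 9) (nat_lit 4) (nat_lit 7) (nat_lit 4) (nat_lit 340) (nat_lit 292) (nat_lit 148))) (XT.nd (nat_lit 78) (nat_lit 0) (nat_lit 0) (XT.lf (nat_lit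 0) (nat_lit 22954193306) (nat_lit 76) (nat_lit 416968218979) (nat_lit 76) (nat_lit 228470210403) (nat_lit 6) (nat_lit 4) (nat_lit 7) (nat_lit 5) (nat_lit 7) (nat_lit 4) (nat_lit 341) (nat_lit 292) (nat_lit 147)) (XT.lf (nat_lit 0) (nat_lit 173248756776) (nat_lit 76) (nat_lit 365382661787) (nat_lit 76) (nat_lit 176884454356) (nat_lit 6) (nat_lit 4) (nat_lit 7) (nat_lit 5) (nat_lit 7) (nat_lit 4) (nat_lit 342) (nat_lit 292) (nat_lit 146)))) (XT.nd (nat_lit 156) (nat_lit 76) (nat_lit 0) (XT.nd (nat_lit 78) (nat_lit 0) (nat_lit 0) (XT.lf (nat_lit 0) (nat_lit 335566583709) (nat_lit 76) (nat_lit 309670401956) (nat_lit 76) (nat_lit 121172010402) (nat_lit 6) (nat_lit 4) (nat_lit 7) (nat_lit 5) (nat_lit 7) (nat_lit 4) (nat_lit 343) (nat_lit 292) (nat_lit 145)) (XT.lf (nat_lit 0) (nat_lit 510869557522) (nat_lit 76) (nat_lit 249501292763) (nat_lit 76) (nat_lit 61002730723) (nat_lit 6) (nat_lit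 4) (nat_lit 7) (nat_lit 5) (nat_lit 7) (nat_lit 4) (nat_lit 344) (nat_lit 292) (nat_lit 144))) (XT.nd (nat_lit 78) (nat_lit 0) (nat_lit 0) (XT.lf (nat_lit 0) (nat_lit 3780850487) (nat_lit 152) (nat_lit 180634550882) (nat_lit 76) (nat_lit 696312285014) (nat_lit 5) (nat_lit 5) (nat_lit 7) (nat_lit 5) (nat_lit 6) (nat_lit 4) (nat_lit 345) (nat_lit 292) (nat_lit 143)) (XT.lf (nat_lit 0) (nat_lit 70451256106) (nat_lit 152) (nat_lit 41960253358) (nat_lit 76) (nat_lit 832291862305) (nat_lit 5) (nat_lit 5) (nat_lit 7) (nat_lit 5) (nat_lit 6) (nat_lit 4) (nat_lit 346) (nat_lit 292) (nat_lit 142)))))) (XT.nd (nat_lit 546) (nat_lit 76) (nat_lit 0) (XT.nd (nat_lit 234) (nat_lit 0) (nat_lit 0) (XT.nd (nat_lit 78) (nat_lit 0) (nat_lit 0) (XT.lf (nat_lit 0) (nat_lit 113484725424) (nat_lit 76) (nat_lit 31699758624) (nat_lit 152) (nat_lit 868394292833) (nat_lit 4) (nat_lit 5) (nat_lit 5) (nat_lit 5)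 (nat_lit 6) (nat_lit 4) (nat_lit 347) (nat_lit 292) (nat_lit 141)) (XT.nd (nat_lit 78) (nat_lit 0) (nat_lit 0) (XT.lf (nat_lit 0) (nat_lit 228407346769) (nat_lit 152) (nat_lit 805484871251) (nat_lit 0) (nat_lit 53871118335) (nat_lit 4) (nat_lit 5) (nat_lit 6) (nat_lit 4) (nat_lit 4) (nat_lit 4) (nat_lit 348) (nat_lit 292) (nat_lit 140)) (XT.lf (nat_lit 0) (nat_lit 319111298250) (nat_lit 152) (nat_lit 704130539247) (nat_lit 0) (nat_lit 144574962381) (nat_lit 4) (nat_lit 5) (nat_lit 6) (nat_lit 4) (nat_lit 4) (nat_lit 4) (nat_lit 349) (nat_lit 292) (nat_lit 139)))) (XT.nd (nat_lit 156) (nat_lit 0) (nat_lit 0) (XT.nd (nat_lit 78) (nat_lit 0) (nat_lit 0) (XT.lf (nat_lit 0) (nat_lit 417071463433) (nat_lit 152) (nat_lit 594668057224) (nat_lit 0) (nat_lit 242535028087) (nat_lit 4) (nat_lit 5) (nat_lit 6) (nat_lit 4) (nat_lit 4) (nat_lit 4) (nat_lit 350) (nat_lit 292) (nat_lit 138)) (XT.lf (nat_lit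 0) (nat_lit 522868346999) (nat_lit 152) (nat_lit 476448758622) (nat_lit 0) (nat_lit 348331819546) (nat_lit 4) (nat_lit 5) (nat_lit 6) (nat_lit 4) (nat_lit 4) (nat_lit 4) (nat_lit 351) (nat_lit 292) (nat_lit 137))) (XT.nd (nat_lit 78) (nat_lit 0) (nat_lit 0) (XT.lf (nat_lit 0) (nat_lit 637128893445) (nat_lit 152) (nat_lit 348772084635) (nat_lit 0) (nat_lit 462592280706) (nat_lit 4) (nat_lit 5) (nat_lit 6) (nat_lit 4) (nat_lit 4) (nat_lit 4) (nat_lit 352) (nat_lit 292) (nat_lit 136)) (XT.lf (nat_lit 0) (nat_lit 760530202303) (nat_lit 152) (nat_lit 210881432750) (nat_lit 0) (nat_lit 585993510597) (nat_lit 4) (nat_lit 5) (nat_lit 6) (nat_lit 4) (nat_lit 4) (nat_lit 4) (nat_lit 353) (nat_lit 292) (nat_lit 135))))) (XT.nd (nat_lit 312) (nat_lit 0) (nat_lit 0) (XT.nd (nat_lit 156) (nat_lit 0) (nat_lit 0) (XT.nd (nat_lit 78) (nat_lit 76) (nat_lit 0) (XT.lf (nat_lit 0) (nat_lit 893803540591)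 (nat_lit 152) (nat_lit 61959673178) (nat_lit 0) (nat_lit 719266775766) (nat_lit 4) (nat_lit 5) (nat_lit 6) (nat_lit 4) (nat_lit 4) (nat_lit 4) (nat_lit 354) (nat_lit 292) (nat_lit 134)) (XT.lf (nat_lit 0) (nat_lit 104082312187) (nat_lit 76) (nat_lit 936159546162) (nat_lit 76) (nat_lit 761622713636) (nat_lit 3) (nat_lit 4) (nat_lit 4) (nat_lit 5) (nat_lit 4) (nat_lit 4) (nat_lit 355) (nat_lit 292) (nat_lit 133))) (XT.nd (nat_lit 78) (nat_lit 0) (nat_lit 0) (XT.lf (nat_lit 0) (nat_lit 286931227520) (nat_lit 76) (nat_lit 913158033599) (nat_lit 76) (nat_lit 738621138385) (nat_lit 3) (nat_lit 4) (nat_lit 4) (nat_lit 5) (nat_lit 4) (nat_lit 4) (nat_lit 356) (nat_lit 292) (nat_lit 132)) (XT.lf (nat_lit 0) (nat_lit 484407935361) (nat_lit 76) (nat_lit 888316458086) (nat_lit 76) (nat_lit 713779504829) (nat_lit 3) (nat_lit 4) (nat_lit 4) (nat_lit 5) (nat_lit 4) (nat_lit 4) (nat_lit 357) (nat_lit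 292) (nat_lit 131)))) (XT.nd (nat_lit 156) (nat_lit 0) (nat_lit 0) (XT.nd (nat_lit 78) (nat_lit 0) (nat_lit 0) (XT.lf (nat_lit 0) (nat_lit 697682668053) (nat_lit 76) (nat_lit 861487610288) (nat_lit 76) (nat_lit 686950603287) (nat_lit 3) (nat_lit 4) (nat_lit 4) (nat_lit 5) (nat_lit 4) (nat_lit 4) (nat_lit 358) (nat_lit 292) (nat_lit 130)) (XT.lf (nat_lit 0) (nat_lit 928019275863) (nat_lit 76) (nat_lit 832512504441) (nat_lit 76) (nat_lit 657975447676) (nat_lit 3) (nat_lit 4) (nat_lit 4) (nat_lit 5) (nat_lit 4) (nat_lit 4) (nat_lit 359) (nat_lit 292) (nat_lit 129))) (XT.nd (nat_lit 78) (nat_lit 0) (nat_lit 0) (XT.lf (nat_lit 0) (nat_lit 1176782716467) (nat_lit 76) (nat_lit 801219436212) (nat_lit 76) (nat_lit 626682333370) (nat_lit 3) (nat_lit 4) (nat_lit 4) (nat_lit 5) (nat_lit 4) (nat_lit 4) (nat_lit 360) (nat_lit 292) (nat_lit 128)) (XT.lf (nat_lit 0) (nat_lit 1445447143587) (nat_lit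 76) (nat_lit 767422965198) (nat_lit 76) (nat_lit 592885819692) (nat_lit 3) (nat_lit 4) (nat_lit 4) (nat_lit 5) (nat_lit 4) (nat_lit 4) (nat_lit 361) (nat_lit 292) (nat_lit 127))))))) (XT.nd (nat_lit 36192) (nat_lit 0) (nat_lit 1140) (XT.nd (nat_lit 35568) (nat_lit 0) (nat_lit 2356) (XT.nd (nat_lit 35256) (nat_lit 0) (nat_lit 3116) (XT.nd (nat_lit 78) (nat_lit 0) (nat_lit 0) (XT.lf (nat_lit 0) (nat_lit 1735604642717) (nat_lit 76) (nat_lit 730922816015) (nat_lit 76) (nat_lit 556385631006) (nat_lit 3) (nat_lit 4) (nat_lit 4) (nat_lit 5) (nat_lit 4) (nat_lit 4) (nat_lit 362) (nat_lit 292) (nat_lit 126)) (XT.nd (nat_lit 78) (nat_lit 0) (nat_lit 0) (XT.lf (nat_lit 0) (nat_lit 2048974665705) (nat_lit 76) (nat_lit 691502691482) (nat_lit 76) (nat_lit 516965469896) (nat_lit 3) (nat_lit 4) (nat_lit 4) (nat_lit 5) (nat_lit 4) (nat_lit 4) (nat_lit 363) (nat_lit 292) (nat_lit 125)) (XT.lf (nat_lit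 0) (nat_lit 2387414220093) (nat_lit 76) (nat_lit 648928990862) (nat_lit 76) (nat_lit 474391735408) (nat_lit 3) (nat_lit 4) (nat_lit 4) (nat_lit 5) (nat_lit 4) (nat_lit 4) (nat_lit 364) (nat_lit 292) (nat_lit 124)))) (XT.nd (nat_lit 156) (nat_lit 0) (nat_lit 76) (XT.nd (nat_lit 78) (nat_lit 0) (nat_lit 0) (XT.lf (nat_lit 0) (nat_lit 15393186274) (nat_lit 532) (nat_lit 5258551036) (nat_lit 532) (nat_lit 5258551036) (nat_lit 44) (nat_lit 3) (nat_lit 51) (nat_lit 3) (nat_lit 51) (nat_lit 5) (nat_lit 293) (nat_lit 293) (nat_lit 194)) (XT.lf (nat_lit 76) (nat_lit 13676656076) (nat_lit 0) (nat_lit 18692319580) (nat_lit 532) (nat_lit 21496259617) (nat_lit 45) (nat_lit 5) (nat_lit 44) (nat_lit 3) (nat_lit 51) (nat_lit 5) (nat_lit 294) (nat_lit 293) (nat_lit 193))) (XT.nd (nat_lit 78) (nat_lit 0) (nat_lit 0) (XT.lf (nat_lit 0) (nat_lit 34508733937) (nat_lit 456) (nat_lit 15793130283) (nat_lit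 532) (nat_lit 5737165831) (nat_lit 45) (nat_lit 5) (nat_lit 51) (nat_lit 5) (nat_lit 52) (nat_lit 5) (nat_lit 295) (nat_lit 293) (nat_lit 192)) (XT.lf (nat_lit 76) (nat_lit 10597184343) (nat_lit 0) (nat_lit 26960800806) (nat_lit 532) (nat_lit 20769685009) (nat_lit 46) (nat_lit 5) (nat_lit 45) (nat_lit 5) (nat_lit 52) (nat_lit 5) (nat_lit 296) (nat_lit 293) (nat_lit 191))))) (XT.nd (nat_lit 312) (nat_lit 532) (nat_lit 0) (XT.nd (nat_lit 156) (nat_lit 304) (nat_lit 0) (XT.nd (nat_lit 78) (nat_lit 0) (nat_lit 76) (XT.lf (nat_lit 76) (nat_lit 39995558638) (nat_lit 0) (nat_lit 1285485793) (nat_lit 532) (nat_lit 19483973837) (nat_lit 46) (nat_lit 5) (nat_lit 45) (nat_lit 5) (nat_lit 52) (nat_lit 5) (nat_lit 297) (nat_lit 293) (nat_lit 190)) (XT.lf (nat_lit 76) (nat_lit 8117125515) (nat_lit 0) (nat_lit 38014228725) (nat_lit 532) (nat_lit 17199653291) (nat_lit 47) (nat_lit 5) (nat_lit 46) (nat_lit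 5) (nat_lit 53) (nat_lit 5) (nat_lit 298) (nat_lit 293) (nat_lit 189))) (XT.nd (nat_lit 78) (nat_lit 380) (nat_lit 0) (XT.lf (nat_lit 76) (nat_lit 40459303716) (nat_lit 0) (nat_lit 11509115821) (nat_lit 532) (nat_lit 14085963282) (nat_lit 47) (nat_lit 5) (nat_lit 46) (nat_lit 5) (nat_lit 53) (nat_lit 5) (nat_lit 299) (nat_lit 293) (nat_lit 188)) (XT.lf (nat_lit 0) (nat_lit 6295083691) (nat_lit 456) (nat_lit 52538858353) (nat_lit 532) (nat_lit 10116771673) (nat_lit 41) (nat_lit 5) (nat_lit 47) (nat_lit 5) (nat_lit 48) (nat_lit 5) (nat_lit 300) (nat_lit 293) (nat_lit 187)))) (XT.nd (nat_lit 156) (nat_lit 228) (nat_lit 0) (XT.nd (nat_lit 78) (nat_lit 304) (nat_lit 0) (XT.lf (nat_lit 0) (nat_lit 41876030205) (nat_lit 456) (nat_lit 25362388443) (nat_lit 532) (nat_lit 4761160035) (nat_lit 41) (nat_lit 5) (nat_lit 47) (nat_lit 5) (nat_lit 48) (nat_lit 5) (nat_lit 301) (nat_lit 293) (nat_lit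 186)) (XT.lf (nat_lit 0) (nat_lit 1196369355) (nat_lit 304) (nat_lit 70132572125) (nat_lit 76) (nat_lit 3943476154) (nat_lit 37) (nat_lit 5) (nat_lit 41) (nat_lit 5) (nat_lit 38) (nat_lit 5) (nat_lit 302) (nat_lit 293) (nat_lit 185))) (XT.nd (nat_lit 78) (nat_lit 228) (nat_lit 0) (XT.lf (nat_lit 0) (nat_lit 8875732468) (nat_lit 304) (nat_lit 34608970050) (nat_lit 76) (nat_lit 35192294885) (nat_lit 37) (nat_lit 5) (nat_lit 41) (nat_lit 5) (nat_lit 38) (nat_lit 5) (nat_lit 303) (nat_lit 293) (nat_lit 184)) (XT.lf (nat_lit 0) (nat_lit 3952949875) (nat_lit 228) (nat_lit 13310331928) (nat_lit 304) (nat_lit 65083158141) (nat_lit 34) (nat_lit 5) (nat_lit 37) (nat_lit 5) (nat_lit 38) (nat_lit 5) (nat_lit 304) (nat_lit 293) (nat_lit 183)))))) (XT.nd (nat_lit 624) (nat_lit 608) (nat_lit 0) (XT.nd (nat_lit 312) (nat_lit 228) (nat_lit 0) (XT.nd (nat_lit 156) (nat_lit 152) (nat_lit 0) (XT.nd (nat_lit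 78) (nat_lit 228) (nat_lit 0) (XT.lf (nat_lit 0) (nat_lit 27755146656) (nat_lit 304) (nat_lit 39155258410) (nat_lit 76) (nat_lit 19284371014) (nat_lit 34) (nat_lit 5) (nat_lit 38) (nat_lit 5) (nat_lit 35) (nat_lit 5) (nat_lit 305) (nat_lit 293) (nat_lit 182)) (XT.lf (nat_lit 0) (nat_lit 3026431165) (nat_lit 228) (nat_lit 36477351567) (nat_lit 304) (nat_lit 50813805498) (nat_lit 31) (nat_lit 5) (nat_lit 34) (nat_lit 5) (nat_lit 35) (nat_lit 5) (nat_lit 306) (nat_lit 293) (nat_lit 181))) (XT.nd (nat_lit 78) (nat_lit 152) (nat_lit 0) (XT.lf (nat_lit 0) (nat_lit 50808210299) (nat_lit 228) (nat_lit 2453637606) (nat_lit 304) (nat_lit 41422817062) (nat_lit 31) (nat_lit 5) (nat_lit 34) (nat_lit 5) (nat_lit 35) (nat_lit 5) (nat_lit 307) (nat_lit 293) (nat_lit 180)) (XT.lf (nat_lit 0) (nat_lit 2300561879) (nat_lit 152) (nat_lit 66699084022) (nat_lit 228) (nat_lit 30331137407) (nat_lit 29) (nat_lit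 5) (nat_lit 31) (nat_lit 5) (nat_lit 32) (nat_lit 5) (nat_lit 308) (nat_lit 293) (nat_lit 179)))) (XT.nd (nat_lit 156) (nat_lit 76) (nat_lit 0) (XT.nd (nat_lit 78) (nat_lit 152) (nat_lit 0) (XT.lf (nat_lit 0) (nat_lit 54598754081) (nat_lit 152) (nat_lit 32658570070) (nat_lit 228) (nat_lit 16990400742) (nat_lit 29) (nat_lit 5) (nat_lit 31) (nat_lit 5) (nat_lit 32) (nat_lit 5) (nat_lit 309) (nat_lit 293) (nat_lit 178)) (XT.lf (nat_lit 0) (nat_lit 1497808750) (nat_lit 152) (nat_lit 105611701223) (nat_lit 228) (nat_lit 2437802489) (nat_lit 27) (nat_lit 5) (nat_lit 29) (nat_lit 5) (nat_lit 30) (nat_lit 5) (nat_lit 310) (nat_lit 293) (nat_lit 177))) (XT.nd (nat_lit 78) (nat_lit 0) (nat_lit 0) (XT.lf (nat_lit 0) (nat_lit 14854913167) (nat_lit 228) (nat_lit 56806435092) (nat_lit 76) (nat_lit 43404757441) (nat_lit 26) (nat_lit 5) (nat_lit 29) (nat_lit 5) (nat_lit 27) (nat_lit 5) (nat_lit 311)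 (nat_lit 293) (nat_lit 176)) (XT.lf (nat_lit 0) (nat_lit 33398558262) (nat_lit 228) (nat_lit 1528337340) (nat_lit 76) (nat_lit 86094505566) (nat_lit 26) (nat_lit 5) (nat_lit 29) (nat_lit 5) (nat_lit 27) (nat_lit 5) (nat_lit 312) (nat_lit 293) (nat_lit 175))))) (XT.nd (nat_lit 312) (nat_lit 304) (nat_lit 0) (XT.nd (nat_lit 156) (nat_lit 152) (nat_lit 0) (XT.nd (nat_lit 78) (nat_lit 0) (nat_lit 0) (XT.lf (nat_lit 0) (nat_lit 55050046656) (nat_lit 228) (nat_lit 66253584608) (nat_lit 76) (nat_lit 6019542435) (nat_lit 24) (nat_lit 5) (nat_lit 27) (nat_lit 5) (nat_lit 25) (nat_lit 5) (nat_lit 313) (nat_lit 293) (nat_lit 174)) (XT.lf (nat_lit 0) (nat_lit 79383016730) (nat_lit 228) (nat_lit 6272794816) (nat_lit 76) (nat_lit 48397328921) (nat_lit 24) (nat_lit 5) (nat_lit 27) (nat_lit 5) (nat_lit 25) (nat_lit 5) (nat_lit 314) (nat_lit 293) (nat_lit 173))) (XT.nd (nat_lit 78) (nat_lit 0) (nat_lit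 0) (XT.lf (nat_lit 0) (nat_lit 61586291053) (nat_lit 152) (nat_lit 45556834836) (nat_lit 228) (nat_lit 34059939906) (nat_lit 22) (nat_lit 5) (nat_lit 24) (nat_lit 5) (nat_lit 25) (nat_lit 5) (nat_lit 315) (nat_lit 293) (nat_lit 172)) (XT.lf (nat_lit 0) (nat_lit 135229904758) (nat_lit 152) (nat_lit 2065023651) (nat_lit 228) (nat_lit 11616387207) (nat_lit 22) (nat_lit 5) (nat_lit 24) (nat_lit 5) (nat_lit 25) (nat_lit 5) (nat_lit 316) (nat_lit 293) (nat_lit 171)))) (XT.nd (nat_lit 156) (nat_lit 152) (nat_lit 0) (XT.nd (nat_lit 78) (nat_lit 0) (nat_lit 0) (XT.lf (nat_lit 0) (nat_lit 14564835966) (nat_lit 152) (nat_lit 97983954623) (nat_lit 76) (nat_lit 44457260107) (nat_lit 20) (nat_lit 5) (nat_lit 22) (nat_lit 5) (nat_lit 21) (nat_lit 5) (nat_lit 317) (nat_lit 293) (nat_lit 170)) (XT.lf (nat_lit 0) (nat_lit 42649818561) (nat_lit 152) (nat_lit 27764476475) (nat_lit 76) (nat_lit 95274984726)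 (nat_lit 20) (nat_lit 5) (nat_lit 22) (nat_lit 5) (nat_lit 21) (nat_lit 5) (nat_lit 318) (nat_lit 293) (nat_lit 169))) (XT.nd (nat_lit 78) (nat_lit 0) (nat_lit 0) (XT.lf (nat_lit 0) (nat_lit 50603081168) (nat_lit 152) (nat_lit 23594987797) (nat_lit 228) (nat_lit 100771781561) (nat_lit 18) (nat_lit 5) (nat_lit 20) (nat_lit 5) (nat_lit 21) (nat_lit 5) (nat_lit 319) (nat_lit 293) (nat_lit 168)) (XT.lf (nat_lit 0) (nat_lit 109697129106) (nat_lit 228) (nat_lit 48782309242) (nat_lit 76) (nat_lit 26399273471) (nat_lit 18) (nat_lit 5) (nat_lit 21) (nat_lit 5) (nat_lit 19) (nat_lit 4) (nat_lit 320) (nat_lit 293) (nat_lit 167))))))))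
noncomputable def xc99 : XT := (XT.nd (nat_lit 2418) (nat_lit 76) (nat_lit 0) (XT.nd (nat_lit 1170) (nat_lit 380) (nat_lit 0) (XT.nd (nat_lit 546) (nat_lit 304) (nat_lit 0) (XT.nd (nat_lit 234) (nat_lit 76) (nat_lit 0) (XT.nd (nat_lit 78) (nat_lit 228) (nat_lit 0) (XT.lf (nat_lit 0) (nat_lit 33932703066) (nat_lit 76) (nat_lit 115531865116) (nat_lit 152) (nat_lit 46001438282) (nat_lit 17) (nat_lit 5) (nat_lit 18) (nat_lit 5) (nat_lit 19) (nat_lit 4) (nat_lit 321) (nat_lit 293) (nat_lit 166)) (XT.nd (nat_lit 78) (nat_lit 228) (nat_lit 0) (XT.lf (nat_lit 0) (nat_lit 126038430711) (nat_lit 76) (nat_lit 67708298629) (nat_lit 152) (nat_lit 13046889905) (nat_lit 17) (nat_lit 5) (nat_lit 18) (nat_lit 5) (nat_lit 19) (nat_lit 4) (nat_lit 322) (nat_lit 293) (nat_lit 165)) (XT.lf (nat_lit 0) (nat_lit 6255154220) (nat_lit 152) (nat_lit 15311116368) (nat_lit 228) (nat_lit 197405797014) (nat_lit 14)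 (nat_lit 5) (nat_lit 16) (nat_lit 5) (nat_lit 17) (nat_lit 5) (nat_lit 323) (nat_lit 293) (nat_lit 164)))) (XT.nd (nat_lit 156) (nat_lit 76) (nat_lit 0) (XT.nd (nat_lit 78) (nat_lit 0) (nat_lit 0) (XT.lf (nat_lit 0) (nat_lit 61501249701) (nat_lit 228) (nat_lit 128518926913) (nat_lit 76) (nat_lit 41816894431) (nat_lit 14) (nat_lit 5) (nat_lit 17) (nat_lit 5) (nat_lit 15) (nat_lit 4) (nat_lit 324) (nat_lit 293) (nat_lit 163)) (XT.lf (nat_lit 0) (nat_lit 105028314126) (nat_lit 228) (nat_lit 37983491103) (nat_lit 76) (nat_lit 102687687104) (nat_lit 14) (nat_lit 5) (nat_lit 17) (nat_lit 5) (nat_lit 15) (nat_lit 4) (nat_lit 325) (nat_lit 293) (nat_lit 162))) (XT.nd (nat_lit 78) (nat_lit 0) (nat_lit 0) (XT.lf (nat_lit 0) (nat_lit 62942786133) (nat_lit 76) (nat_lit 90608158696) (nat_lit 152) (nat_lit 106998890899) (nat_lit 13) (nat_lit 5) (nat_lit 14) (nat_lit 5) (nat_lit 15) (nat_lit 4) (nat_lit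 326) (nat_lit 293) (nat_lit 161)) (XT.lf (nat_lit 0) (nat_lit 174102690190) (nat_lit 76) (nat_lit 32890869937) (nat_lit 152) (nat_lit 69511592989) (nat_lit 13) (nat_lit 5) (nat_lit 14) (nat_lit 5) (nat_lit 15) (nat_lit 4) (nat_lit 327) (nat_lit 293) (nat_lit 160))))) (XT.nd (nat_lit 312) (nat_lit 76) (nat_lit 0) (XT.nd (nat_lit 156) (nat_lit 76) (nat_lit 0) (XT.nd (nat_lit 78) (nat_lit 152) (nat_lit 0) (XT.lf (nat_lit 0) (nat_lit 265419367801) (nat_lit 152) (nat_lit 290238192) (nat_lit 0) (nat_lit 27970667673) (nat_lit 13) (nat_lit 5) (nat_lit 15) (nat_lit 4) (nat_lit 13) (nat_lit 4) (nat_lit 328) (nat_lit 293) (nat_lit 159)) (XT.lf (nat_lit 0) (nat_lit 19185830274) (nat_lit 152) (nat_lit 197542757229) (nat_lit 76) (nat_lit 95172604831) (nat_lit 11) (nat_lit 5) (nat_lit 13) (nat_lit 5) (nat_lit 12) (nat_lit 4) (nat_lit 329) (nat_lit 293) (nat_lit 158))) (XT.nd (nat_lit 78) (nat_lit 76)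 (nat_lit 0) (XT.lf (nat_lit 0) (nat_lit 68909310337) (nat_lit 152) (nat_lit 94118459507) (nat_lit 76) (nat_lit 168492664787) (nat_lit 11) (nat_lit 5) (nat_lit 13) (nat_lit 5) (nat_lit 12) (nat_lit 4) (nat_lit 330) (nat_lit 293) (nat_lit 157)) (XT.lf (nat_lit 0) (nat_lit 18504953834) (nat_lit 76) (nat_lit 104550469046) (nat_lit 152) (nat_lit 229618213414) (nat_lit 10) (nat_lit 5) (nat_lit 11) (nat_lit 5) (nat_lit 12) (nat_lit 4) (nat_lit 331) (nat_lit 293) (nat_lit 156)))) (XT.nd (nat_lit 156) (nat_lit 76) (nat_lit 0) (XT.nd (nat_lit 78) (nat_lit 0) (nat_lit 0) (XT.lf (nat_lit 0) (nat_lit 145490332686) (nat_lit 76) (nat_lit 38615976015) (nat_lit 152) (nat_lit 191206938935) (nat_lit 10) (nat_lit 5) (nat_lit 11) (nat_lit 5) (nat_lit 12) (nat_lit 4) (nat_lit 332) (nat_lit 293) (nat_lit 155)) (XT.lf (nat_lit 0) (nat_lit 250824869055) (nat_lit 152) (nat_lit 117913841308) (nat_lit 0) (nat_lit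 30962629494) (nat_lit 10) (nat_lit 5) (nat_lit 12) (nat_lit 4) (nat_lit 10) (nat_lit 4) (nat_lit 333) (nat_lit 293) (nat_lit 154))) (XT.nd (nat_lit 78) (nat_lit 0) (nat_lit 0) (XT.lf (nat_lit 0) (nat_lit 2046889386) (nat_lit 76) (nat_lit 321886019197) (nat_lit 76) (nat_lit 102023411571) (nat_lit 9) (nat_lit 4) (nat_lit 10) (nat_lit 5) (nat_lit 10) (nat_lit 4) (nat_lit 334) (nat_lit 293) (nat_lit 153)) (XT.lf (nat_lit 0) (nat_lit 138309904397) (nat_lit 76) (nat_lit 267803422155) (nat_lit 76) (nat_lit 47940473728) (nat_lit 9) (nat_lit 4) (nat_lit 10) (nat_lit 5) (nat_lit 10) (nat_lit 4) (nat_lit 335) (nat_lit 293) (nat_lit 152)))))) (XT.nd (nat_lit 624) (nat_lit 152) (nat_lit 0) (XT.nd (nat_lit 312) (nat_lit 76) (nat_lit 0) (XT.nd (nat_lit 156) (nat_lit 76) (nat_lit 0) (XT.nd (nat_lit 78) (nat_lit 0) (nat_lit 0) (XT.lf (nat_lit 0) (nat_lit 9945166009) (nat_lit 152) (nat_lit 199177318684)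 (nat_lit 76) (nat_lit 275256469863) (nat_lit 8) (nat_lit 5) (nat_lit 10) (nat_lit 5) (nat_lit 9) (nat_lit 4) (nat_lit 336) (nat_lit 293) (nat_lit 151)) (XT.lf (nat_lit 0) (nat_lit 69871416513) (nat_lit 152) (nat_lit 74531009816) (nat_lit 76) (nat_lit 372628095226) (nat_lit 8) (nat_lit 5) (nat_lit 10) (nat_lit 5) (nat_lit 9) (nat_lit 4) (nat_lit 337) (nat_lit 293) (nat_lit 150))) (XT.nd (nat_lit 78) (nat_lit 0) (nat_lit 0) (XT.lf (nat_lit 0) (nat_lit 63250701304) (nat_lit 76) (nat_lit 72862052545) (nat_lit 152) (nat_lit 416059781290) (nat_lit 7) (nat_lit 5) (nat_lit 8) (nat_lit 5) (nat_lit 9) (nat_lit 4) (nat_lit 338) (nat_lit 293) (nat_lit 149)) (XT.lf (nat_lit 0) (nat_lit 209849803589) (nat_lit 152) (nat_lit 373828439616) (nat_lit 0) (nat_lit 6271954327) (nat_lit 7) (nat_lit 5) (nat_lit 9) (nat_lit 4) (nat_lit 7) (nat_lit 4) (nat_lit 339) (nat_lit 293) (nat_lit 148)))) (XT.nd (nat_lit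 156) (nat_lit 76) (nat_lit 0) (XT.nd (nat_lit 78) (nat_lit 0) (nat_lit 0) (XT.lf (nat_lit 0) (nat_lit 291378160365) (nat_lit 152) (nat_lit 251420428909) (nat_lit 0) (nat_lit 87800096340) (nat_lit 7) (nat_lit 5) (nat_lit 9) (nat_lit 4) (nat_lit 7) (nat_lit 4) (nat_lit 340) (nat_lit 293) (nat_lit 147)) (XT.lf (nat_lit 0) (nat_lit 379428621065) (nat_lit 152) (nat_lit 119220086795) (nat_lit 0) (nat_lit 175850358186) (nat_lit 7) (nat_lit 5) (nat_lit 9) (nat_lit 4) (nat_lit 7) (nat_lit 4) (nat_lit 341) (nat_lit 293) (nat_lit 146))) (XT.nd (nat_lit 78) (nat_lit 0) (nat_lit 0) (XT.lf (nat_lit 0) (nat_lit 24796413172) (nat_lit 76) (nat_lit 450322907356) (nat_lit 76) (nat_lit 246744460353) (nat_lit 6) (nat_lit 4) (nat_lit 7) (nat_lit 5) (nat_lit 7) (nat_lit 4) (nat_lit 342) (nat_lit 293) (nat_lit 145)) (XT.lf (nat_lit 0) (nat_lit 187114105839) (nat_lit 76) (nat_lit 394610710710) (nat_lit 76) (nat_lit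 191032093222) (nat_lit 6) (nat_lit 4) (nat_lit 7) (nat_lit 5) (nat_lit 7) (nat_lit 4) (nat_lit 343) (nat_lit 293) (nat_lit 144))))) (XT.nd (nat_lit 312) (nat_lit 76) (nat_lit 0) (XT.nd (nat_lit 156) (nat_lit 76) (nat_lit 0) (XT.nd (nat_lit 78) (nat_lit 0) (nat_lit 0) (XT.lf (nat_lit 0) (nat_lit 362416955332) (nat_lit 76) (nat_lit 334441660021) (nat_lit 76) (nat_lit 130862884676) (nat_lit 6) (nat_lit 4) (nat_lit 7) (nat_lit 5) (nat_lit 7) (nat_lit 4) (nat_lit 344) (nat_lit 293) (nat_lit 143)) (XT.lf (nat_lit 0) (nat_lit 551743793352) (nat_lit 76) (nat_lit 269459197951) (nat_lit 76) (nat_lit 65880276442) (nat_lit 6) (nat_lit 4) (nat_lit 7) (nat_lit 5) (nat_lit 7) (nat_lit 4) (nat_lit 345) (nat_lit 293) (nat_lit 142))) (XT.nd (nat_lit 78) (nat_lit 0) (nat_lit 0) (XT.lf (nat_lit 0) (nat_lit 4085669487) (nat_lit 152) (nat_lit 195080864311) (nat_lit 76) (nat_lit 752019177786) (nat_lit 5) (nat_lit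 5) (nat_lit 7) (nat_lit 5) (nat_lit 6) (nat_lit 4) (nat_lit 346) (nat_lit 293) (nat_lit 141)) (XT.lf (nat_lit 0) (nat_lit 76089533411) (nat_lit 152) (nat_lit 45312952662) (nat_lit 76) (nat_lit 898876979781) (nat_lit 5) (nat_lit 5) (nat_lit 7) (nat_lit 5) (nat_lit 6) (nat_lit 4) (nat_lit 347) (nat_lit 293) (nat_lit 140)))) (XT.nd (nat_lit 156) (nat_lit 0) (nat_lit 0) (XT.nd (nat_lit 78) (nat_lit 0) (nat_lit 0) (XT.lf (nat_lit 0) (nat_lit 122567520094) (nat_lit 76) (nat_lit 34233834848) (nat_lit 152) (nat_lit 937863553715) (nat_lit 4) (nat_lit 5) (nat_lit 5) (nat_lit 5) (nat_lit 6) (nat_lit 4) (nat_lit 348) (nat_lit 293) (nat_lit 139)) (XT.lf (nat_lit 0) (nat_lit 246681932634) (nat_lit 152) (nat_lit 869919826499) (nat_lit 0) (nat_lit 58182482984) (nat_lit 4) (nat_lit 5) (nat_lit 6) (nat_lit 4) (nat_lit 4) (nat_lit 4) (nat_lit 349) (nat_lit 293) (nat_lit 138))) (XT.nd (nat_lit 78) (nat_lit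 0) (nat_lit 0) (XT.lf (nat_lit 0) (nat_lit 344642052224) (nat_lit 152) (nat_lit 760457431968) (nat_lit 0) (nat_lit 156142510467) (nat_lit 4) (nat_lit 5) (nat_lit 6) (nat_lit 4) (nat_lit 4) (nat_lit 4) (nat_lit 350) (nat_lit 293) (nat_lit 137)) (XT.lf (nat_lit 0) (nat_lit 450438893576) (nat_lit 152) (nat_lit 642238214378) (nat_lit 0) (nat_lit 261939266533) (nat_lit 4) (nat_lit 5) (nat_lit 6) (nat_lit 4) (nat_lit 4) (nat_lit 4) (nat_lit 351) (nat_lit 293) (nat_lit 136))))))) (XT.nd (nat_lit 36348) (nat_lit 0) (nat_lit 1748) (XT.nd (nat_lit 546) (nat_lit 0) (nat_lit 0) (XT.nd (nat_lit 234) (nat_lit 76) (nat_lit 0) (XT.nd (nat_lit 78) (nat_lit 0) (nat_lit 0) (XT.lf (nat_lit 0) (nat_lit 564699400934) (nat_lit 152) (nat_lit 514561615401) (nat_lit 0) (nat_lit 376199694923) (nat_lit 4) (nat_lit 5) (nat_lit 6) (nat_lit 4) (nat_lit 4) (nat_lit 4) (nat_lit 352) (nat_lit 293) (nat_lit 135)) (XT.nd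 (nat_lit 78) (nat_lit 0) (nat_lit 0) (XT.lf (nat_lit 0) (nat_lit 688100673600) (nat_lit 152) (nat_lit 376671032970) (nat_lit 0) (nat_lit 499600894471) (nat_lit 4) (nat_lit 5) (nat_lit 6) (nat_lit 4) (nat_lit 4) (nat_lit 4) (nat_lit 353) (nat_lit 293) (nat_lit 134)) (XT.lf (nat_lit 0) (nat_lit 821373978377) (nat_lit 152) (nat_lit 227749337707) (nat_lit 0) (nat_lit 632874131546) (nat_lit 4) (nat_lit 5) (nat_lit 6) (nat_lit 4) (nat_lit 4) (nat_lit 4) (nat_lit 354) (nat_lit 293) (nat_lit 133)))) (XT.nd (nat_lit 156) (nat_lit 0) (nat_lit 0) (XT.nd (nat_lit 78) (nat_lit 76) (nat_lit 0) (XT.lf (nat_lit 0) (nat_lit 965309082995) (nat_lit 152) (nat_lit 66914030678) (nat_lit 0) (nat_lit 776809173477) (nat_lit 4) (nat_lit 5) (nat_lit 6) (nat_lit 4) (nat_lit 4) (nat_lit 4) (nat_lit 355) (nat_lit 293) (nat_lit 132)) (XT.lf (nat_lit 0) (nat_lit 112411252343) (nat_lit 76) (nat_lit 1011051177202) (nat_lit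 76) (nat_lit 822551209640) (nat_lit 3) (nat_lit 4) (nat_lit 4) (nat_lit 5) (nat_lit 4) (nat_lit 4) (nat_lit 356) (nat_lit 293) (nat_lit 131))) (XT.nd (nat_lit 78) (nat_lit 0) (nat_lit 0) (XT.lf (nat_lit 0) (nat_lit 309887906445) (nat_lit 76) (nat_lit 986209627533) (nat_lit 76) (nat_lit 797709606228) (nat_lit 3) (nat_lit 4) (nat_lit 4) (nat_lit 5) (nat_lit 4) (nat_lit 4) (nat_lit 357) (nat_lit 293) (nat_lit 130)) (XT.lf (nat_lit 0) (nat_lit 523162589379) (nat_lit 76) (nat_lit 959380803665) (nat_lit 76) (nat_lit 770880732596) (nat_lit 3) (nat_lit 4) (nat_lit 4) (nat_lit 5) (nat_lit 4) (nat_lit 4) (nat_lit 358) (nat_lit 293) (nat_lit 129))))) (XT.nd (nat_lit 312) (nat_lit 0) (nat_lit 0) (XT.nd (nat_lit 156) (nat_lit 0) (nat_lit 0) (XT.nd (nat_lit 78) (nat_lit 0) (nat_lit 0) (XT.lf (nat_lit 0) (nat_lit 753499151116) (nat_lit 76) (nat_lit 930405719975) (nat_lit 76) (nat_lit 741905602829)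 (nat_lit 3) (nat_lit 4) (nat_lit 4) (nat_lit 5) (nat_lit 4) (nat_lit 4) (nat_lit 359) (nat_lit 293) (nat_lit 128)) (XT.lf (nat_lit 0) (nat_lit 1002262549060) (nat_lit 76) (nat_lit 899112672262) (nat_lit 76) (nat_lit 710612512452) (nat_lit 3) (nat_lit 4) (nat_lit 4) (nat_lit 5) (nat_lit 4) (nat_lit 4) (nat_lit 360) (nat_lit 293) (nat_lit 127))) (XT.nd (nat_lit 78) (nat_lit 0) (nat_lit 0) (XT.lf (nat_lit 0) (nat_lit 1270926936681) (nat_lit 76) (nat_lit 865316220244) (nat_lit 76) (nat_lit 676816020931) (nat_lit 3) (nat_lit 4) (nat_lit 4) (nat_lit 5) (nat_lit 4) (nat_lit 4) (nat_lit 361) (nat_lit 293) (nat_lit 126)) (XT.lf (nat_lit 0) (nat_lit 1561084399238) (nat_lit 76) (nat_lit 828816088650) (nat_lit 76) (nat_lit 640315852759) (nat_lit 3) (nat_lit 4) (nat_lit 4) (nat_lit 5) (nat_lit 4) (nat_lit 4) (nat_lit 362) (nat_lit 293) (nat_lit 125)))) (XT.nd (nat_lit 35334) (nat_lit 0) (nat_lit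 3116) (XT.nd (nat_lit 35256) (nat_lit 0) (nat_lit 3116) (XT.lf (nat_lit 0) (nat_lit 1874454388360) (nat_lit 76) (nat_lit 789395980403) (nat_lit 76) (nat_lit 600895710645) (nat_lit 3) (nat_lit 4) (nat_lit 4) (nat_lit 5) (nat_lit 4) (nat_lit 4) (nat_lit 363) (nat_lit 293) (nat_lit 124)) (XT.lf (nat_lit 0) (nat_lit 16646330979) (nat_lit 532) (nat_lit 5667487183) (nat_lit 532) (nat_lit 5667487183) (nat_lit 44) (nat_lit 3) (nat_lit 51) (nat_lit 3) (nat_lit 51) (nat_lit 5) (nat_lit 294) (nat_lit 294) (nat_lit 192))) (XT.nd (nat_lit 78) (nat_lit 0) (nat_lit 76) (XT.lf (nat_lit 76) (nat_lit 14793689602) (nat_lit 0) (nat_lit 20205521179) (nat_lit 532) (nat_lit 23171854680) (nat_lit 45) (nat_lit 5) (nat_lit 44) (nat_lit 3) (nat_lit 51) (nat_lit 5) (nat_lit 295) (nat_lit 294) (nat_lit 191)) (XT.lf (nat_lit 0) (nat_lit 37306736908) (nat_lit 456) (nat_lit 17031841677) (nat_lit 532) (nat_lit 6180467984)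 (nat_lit 45) (nat_lit 5) (nat_lit 51) (nat_lit 5) (nat_lit 52) (nat_lit 5) (nat_lit 296) (nat_lit 294) (nat_lit 190)))))) (XT.nd (nat_lit 624) (nat_lit 836) (nat_lit 0) (XT.nd (nat_lit 312) (nat_lit 608) (nat_lit 0) (XT.nd (nat_lit 156) (nat_lit 0) (nat_lit 76) (XT.nd (nat_lit 78) (nat_lit 0) (nat_lit 0) (XT.lf (nat_lit 76) (nat_lit 11469071815) (nat_lit 0) (nat_lit 29128673036) (nat_lit 532) (nat_lit 22393216708) (nat_lit 46) (nat_lit 5) (nat_lit 45) (nat_lit 5) (nat_lit 52) (nat_lit 5) (nat_lit 297) (nat_lit 294) (nat_lit 189)) (XT.lf (nat_lit 76) (nat_lit 43217529925) (nat_lit 0) (nat_lit 1398517401) (nat_lit 532) (nat_lit 21007466649) (nat_lit 46) (nat_lit 5) (nat_lit 45) (nat_lit 5) (nat_lit 52) (nat_lit 5) (nat_lit 298) (nat_lit 294) (nat_lit 188))) (XT.nd (nat_lit 78) (nat_lit 0) (nat_lit 0) (XT.lf (nat_lit 76) (nat_lit 8791133104) (nat_lit 0) (nat_lit 41061205532) (nat_lit 532)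 (nat_lit 18542614925) (nat_lit 47) (nat_lit 5) (nat_lit 46) (nat_lit 5) (nat_lit 53) (nat_lit 5) (nat_lit 299) (nat_lit 294) (nat_lit 187)) (XT.lf (nat_lit 76) (nat_lit 43718860558) (nat_lit 0) (nat_lit 12435251114) (nat_lit 532) (nat_lit 15182274948) (nat_lit 47) (nat_lit 5) (nat_lit 46) (nat_lit 5) (nat_lit 53) (nat_lit 5) (nat_lit 300) (nat_lit 294) (nat_lit 186)))) (XT.nd (nat_lit 156) (nat_lit 304) (nat_lit 0) (XT.nd (nat_lit 78) (nat_lit 0) (nat_lit 0) (XT.lf (nat_lit 0) (nat_lit 6823339534) (nat_lit 456) (nat_lit 56743918609) (nat_lit 532) (nat_lit 10897301891) (nat_lit 41) (nat_lit 5) (nat_lit 47) (nat_lit 5) (nat_lit 48) (nat_lit 5) (nat_lit 301) (nat_lit 294) (nat_lit 185)) (XT.lf (nat_lit 0) (nat_lit 45248935907) (nat_lit 456) (nat_lit 27393186545) (nat_lit 532) (nat_lit 5115375508) (nat_lit 41) (nat_lit 5) (nat_lit 47) (nat_lit 5) (nat_lit 48) (nat_lit 5) (nat_lit 302) (nat_lit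 294) (nat_lit 184))) (XT.nd (nat_lit 78) (nat_lit 0) (nat_lit 0) (XT.lf (nat_lit 0) (nat_lit 1316102371) (nat_lit 304) (nat_lit 75717564160) (nat_lit 76) (nat_lit 4258556970) (nat_lit 37) (nat_lit 5) (nat_lit 41) (nat_lit 5) (nat_lit 38) (nat_lit 5) (nat_lit 303) (nat_lit 294) (nat_lit 183)) (XT.lf (nat_lit 0) (nat_lit 9608035016) (nat_lit 304) (nat_lit 37353971232) (nat_lit 76) (nat_lit 38007310627) (nat_lit 37) (nat_lit 5) (nat_lit 41) (nat_lit 5) (nat_lit 38) (nat_lit 5) (nat_lit 304) (nat_lit 294) (nat_lit 182))))) (XT.nd (nat_lit 312) (nat_lit 380) (nat_lit 0) (XT.nd (nat_lit 156) (nat_lit 228) (nat_lit 0) (XT.nd (nat_lit 78) (nat_lit 0) (nat_lit 0) (XT.lf (nat_lit 0) (nat_lit 4292301871) (nat_lit 228) (nat_lit 14373194668) (nat_lit 304) (nat_lit 70266910126) (nat_lit 34) (nat_lit 5) (nat_lit 37) (nat_lit 5) (nat_lit 38) (nat_lit 5) (nat_lit 305) (nat_lit 294) (nat_lit 181)) (XT.lf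 (nat_lit 0) (nat_lit 29995187482) (nat_lit 304) (nat_lit 42264700148) (nat_lit 76) (nat_lit 20828848080) (nat_lit 34) (nat_lit 5) (nat_lit 38) (nat_lit 5) (nat_lit 35) (nat_lit 5) (nat_lit 306) (nat_lit 294) (nat_lit 180))) (XT.nd (nat_lit 78) (nat_lit 0) (nat_lit 0) (XT.lf (nat_lit 0) (nat_lit 3290942848) (nat_lit 228) (nat_lit 39391856242) (nat_lit 304) (nat_lit 54858650832) (nat_lit 31) (nat_lit 5) (nat_lit 34) (nat_lit 5) (nat_lit 35) (nat_lit 5) (nat_lit 307) (nat_lit 294) (nat_lit 179)) (XT.lf (nat_lit 0) (nat_lit 54893605262) (nat_lit 228) (nat_lit 2646518012) (nat_lit 304) (nat_lit 44717883995) (nat_lit 31) (nat_lit 5) (nat_lit 34) (nat_lit 5) (nat_lit 35) (nat_lit 5) (nat_lit 308) (nat_lit 294) (nat_lit 178)))) (XT.nd (nat_lit 156) (nat_lit 228) (nat_lit 0) (XT.nd (nat_lit 78) (nat_lit 0) (nat_lit 0) (XT.lf (nat_lit 0) (nat_lit 2506134673) (nat_lit 152) (nat_lit 72030120609)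 (nat_lit 228) (nat_lit 32739618291) (nat_lit 29) (nat_lit 5) (nat_lit 31) (nat_lit 5) (nat_lit 32) (nat_lit 5) (nat_lit 309) (nat_lit 294) (nat_lit 177)) (XT.lf (nat_lit 0) (nat_lit 58986587596) (nat_lit 152) (nat_lit 35266727774) (nat_lit 228) (nat_lit 18332956775) (nat_lit 29) (nat_lit 5) (nat_lit 31) (nat_lit 5) (nat_lit 32) (nat_lit 5) (nat_lit 310) (nat_lit 294) (nat_lit 176))) (XT.nd (nat_lit 78) (nat_lit 76) (nat_lit 0) (XT.lf (nat_lit 0) (nat_lit 1638194431) (nat_lit 152) (nat_lit 114054935816) (nat_lit 228) (nat_lit 2616742976) (nat_lit 27) (nat_lit 5) (nat_lit 29) (nat_lit 5) (nat_lit 30) (nat_lit 5) (nat_lit 311) (nat_lit 294) (nat_lit 175)) (XT.lf (nat_lit 0) (nat_lit 16057453572) (nat_lit 228) (nat_lit 61331136563) (nat_lit 76) (nat_lit 46881641815) (nat_lit 26) (nat_lit 5) (nat_lit 29) (nat_lit 5) (nat_lit 27) (nat_lit 5) (nat_lit 312) (nat_lit 294) (nat_lit 174))))))))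
noncomputable def xc100 : XT := (XT.nd (nat_lit 2340) (nat_lit 304) (nat_lit 0) (XT.nd (nat_lit 1170) (nat_lit 456) (nat_lit 0) (XT.nd (nat_lit 546) (nat_lit 532) (nat_lit 0) (XT.nd (nat_lit 234) (nat_lit 304) (nat_lit 0) (XT.nd (nat_lit 78) (nat_lit 152) (nat_lit 0) (XT.lf (nat_lit 0) (nat_lit 36083542323) (nat_lit 228) (nat_lit 1632258646) (nat_lit 76) (nat_lit 92986236177) (nat_lit 26) (nat_lit 5) (nat_lit 29) (nat_lit 5) (nat_lit 27) (nat_lit 5) (nat_lit 313) (nat_lit 294) (nat_lit 173)) (XT.nd (nat_lit 78) (nat_lit 0) (nat_lit 0) (XT.lf (nat_lit 0) (nat_lit 59466737504) (nat_lit 228) (nat_lit 71535087334) (nat_lit 76) (nat_lit 6506161711) (nat_lit 24) (nat_lit 5) (nat_lit 27) (nat_lit 5) (nat_lit 25) (nat_lit 5) (nat_lit 314) (nat_lit 294) (nat_lit 172)) (XT.lf (nat_lit 0) (nat_lit 85745405397) (nat_lit 228) (nat_lit 6757225769) (nat_lit 76) (nat_lit 52273796607) (nat_lit 24) (nat_lit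 5) (nat_lit 27) (nat_lit 5) (nat_lit 25) (nat_lit 5) (nat_lit 315) (nat_lit 294) (nat_lit 171)))) (XT.nd (nat_lit 156) (nat_lit 152) (nat_lit 0) (XT.nd (nat_lit 78) (nat_lit 0) (nat_lit 0) (XT.lf (nat_lit 0) (nat_lit 66530146651) (nat_lit 152) (nat_lit 49195714169) (nat_lit 228) (nat_lit 36772525092) (nat_lit 22) (nat_lit 5) (nat_lit 24) (nat_lit 5) (nat_lit 25) (nat_lit 5) (nat_lit 316) (nat_lit 294) (nat_lit 170)) (XT.lf (nat_lit 0) (nat_lit 146063993725) (nat_lit 152) (nat_lit 2224977901) (nat_lit 228) (nat_lit 12534392623) (nat_lit 22) (nat_lit 5) (nat_lit 24) (nat_lit 5) (nat_lit 25) (nat_lit 5) (nat_lit 317) (nat_lit 294) (nat_lit 169))) (XT.nd (nat_lit 78) (nat_lit 0) (nat_lit 0) (XT.lf (nat_lit 0) (nat_lit 15740482260) (nat_lit 152) (nat_lit 105806091347) (nat_lit 76) (nat_lit 48019106644) (nat_lit 20) (nat_lit 5) (nat_lit 22) (nat_lit 5) (nat_lit 21) (nat_lit 5) (nat_lit 318)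 (nat_lit 294) (nat_lit 168)) (XT.lf (nat_lit 0) (nat_lit 46071488691) (nat_lit 152) (nat_lit 29970283069) (nat_lit 76) (nat_lit 102901859178) (nat_lit 20) (nat_lit 5) (nat_lit 22) (nat_lit 5) (nat_lit 21) (nat_lit 5) (nat_lit 319) (nat_lit 294) (nat_lit 167))))) (XT.nd (nat_lit 312) (nat_lit 304) (nat_lit 0) (XT.nd (nat_lit 156) (nat_lit 76) (nat_lit 0) (XT.nd (nat_lit 78) (nat_lit 0) (nat_lit 0) (XT.lf (nat_lit 0) (nat_lit 54666290539) (nat_lit 152) (nat_lit 25476951065) (nat_lit 228) (nat_lit 108823435579) (nat_lit 18) (nat_lit 5) (nat_lit 20) (nat_lit 5) (nat_lit 21) (nat_lit 5) (nat_lit 320) (nat_lit 294) (nat_lit 166)) (XT.lf (nat_lit 0) (nat_lit 118481661158) (nat_lit 228) (nat_lit 52670459978) (nat_lit 76) (nat_lit 28516172601) (nat_lit 18) (nat_lit 5) (nat_lit 21) (nat_lit 5) (nat_lit 19) (nat_lit 4) (nat_lit 321) (nat_lit 294) (nat_lit 165))) (XT.nd (nat_lit 78) (nat_lit 0)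 (nat_lit 0) (XT.lf (nat_lit 0) (nat_lit 36661387896) (nat_lit 76) (nat_lit 124768796797) (nat_lit 152) (nat_lit 49672413157) (nat_lit 17) (nat_lit 5) (nat_lit 18) (nat_lit 5) (nat_lit 19) (nat_lit 4) (nat_lit 322) (nat_lit 294) (nat_lit 164)) (XT.lf (nat_lit 0) (nat_lit 136134531636) (nat_lit 76) (nat_lit 73119761104) (nat_lit 152) (nat_lit 14082177961) (nat_lit 17) (nat_lit 5) (nat_lit 18) (nat_lit 5) (nat_lit 19) (nat_lit 4) (nat_lit 323) (nat_lit 294) (nat_lit 163)))) (XT.nd (nat_lit 156) (nat_lit 76) (nat_lit 0) (XT.nd (nat_lit 78) (nat_lit 0) (nat_lit 0) (XT.lf (nat_lit 0) (nat_lit 6768686785) (nat_lit 152) (nat_lit 16530645229) (nat_lit 228) (nat_lit 213189869859) (nat_lit 14) (nat_lit 5) (nat_lit 16) (nat_lit 5) (nat_lit 17) (nat_lit 5) (nat_lit 324) (nat_lit 294) (nat_lit 162)) (XT.lf (nat_lit 0) (nat_lit 66428654026) (nat_lit 228) (nat_lit 138787827690) (nat_lit 76) (nat_lit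 45166961075) (nat_lit 14) (nat_lit 5) (nat_lit 17) (nat_lit 5) (nat_lit 15) (nat_lit 4) (nat_lit 325) (nat_lit 294) (nat_lit 161))) (XT.nd (nat_lit 78) (nat_lit 76) (nat_lit 0) (XT.lf (nat_lit 0) (nat_lit 113437342543) (nat_lit 228) (nat_lit 41010491339) (nat_lit 76) (nat_lit 110907067897) (nat_lit 14) (nat_lit 5) (nat_lit 17) (nat_lit 5) (nat_lit 15) (nat_lit 4) (nat_lit 326) (nat_lit 294) (nat_lit 160)) (XT.lf (nat_lit 0) (nat_lit 67989592403) (nat_lit 76) (nat_lit 97851964084) (nat_lit 152) (nat_lit 115551734991) (nat_lit 13) (nat_lit 5) (nat_lit 14) (nat_lit 5) (nat_lit 15) (nat_lit 4) (nat_lit 327) (nat_lit 294) (nat_lit 159)))))) (XT.nd (nat_lit 546) (nat_lit 228) (nat_lit 0) (XT.nd (nat_lit 234) (nat_lit 76) (nat_lit 0) (XT.nd (nat_lit 78) (nat_lit 152) (nat_lit 0) (XT.lf (nat_lit 0) (nat_lit 188041445572) (nat_lit 76) (nat_lit 35517651285) (nat_lit 152) (nat_lit 75065976744)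 (nat_lit 13) (nat_lit 5) (nat_lit 14) (nat_lit 5) (nat_lit 15) (nat_lit 4) (nat_lit 328) (nat_lit 294) (nat_lit 158)) (XT.nd (nat_lit 78) (nat_lit 152) (nat_lit 0) (XT.lf (nat_lit 0) (nat_lit 286658620801) (nat_lit 152) (nat_lit 303342443) (nat_lit 0) (nat_lit 30212268982) (nat_lit 13) (nat_lit 5) (nat_lit 15) (nat_lit 4) (nat_lit 13) (nat_lit 4) (nat_lit 329) (nat_lit 294) (nat_lit 157)) (XT.lf (nat_lit 0) (nat_lit 20726364417) (nat_lit 152) (nat_lit 213336014579) (nat_lit 76) (nat_lit 102790449265) (nat_lit 11) (nat_lit 5) (nat_lit 13) (nat_lit 5) (nat_lit 12) (nat_lit 4) (nat_lit 330) (nat_lit 294) (nat_lit 156)))) (XT.nd (nat_lit 156) (nat_lit 0) (nat_lit 0) (XT.nd (nat_lit 78) (nat_lit 76) (nat_lit 0) (XT.lf (nat_lit 0) (nat_lit 74427303053) (nat_lit 152) (nat_lit 101638525871) (nat_lit 76) (nat_lit 181975815051) (nat_lit 11) (nat_lit 5) (nat_lit 13) (nat_lit 5) (nat_lit 12) (nat_lit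 4) (nat_lit 331) (nat_lit 294) (nat_lit 155)) (XT.lf (nat_lit 0) (nat_lit 19994522300) (nat_lit 76) (nat_lit 112910414159) (nat_lit 152) (nat_lit 247982179180) (nat_lit 10) (nat_lit 5) (nat_lit 11) (nat_lit 5) (nat_lit 12) (nat_lit 4) (nat_lit 332) (nat_lit 294) (nat_lit 154))) (XT.nd (nat_lit 78) (nat_lit 0) (nat_lit 0) (XT.lf (nat_lit 0) (nat_lit 157138052040) (nat_lit 76) (nat_lit 41701464827) (nat_lit 152) (nat_lit 206498409505) (nat_lit 10) (nat_lit 5) (nat_lit 11) (nat_lit 5) (nat_lit 12) (nat_lit 4) (nat_lit 333) (nat_lit 294) (nat_lit 153)) (XT.lf (nat_lit 0) (nat_lit 270895298025) (nat_lit 152) (nat_lit 127338816500) (nat_lit 0) (nat_lit 33442972923) (nat_lit 10) (nat_lit 5) (nat_lit 12) (nat_lit 4) (nat_lit 10) (nat_lit 4) (nat_lit 334) (nat_lit 294) (nat_lit 152))))) (XT.nd (nat_lit 312) (nat_lit 76) (nat_lit 0) (XT.nd (nat_lit 156) (nat_lit 76) (nat_lit 0) (XT.nd (nat_lit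 78) (nat_lit 0) (nat_lit 0) (XT.lf (nat_lit 0) (nat_lit 2218566773) (nat_lit 76) (nat_lit 347633275721) (nat_lit 76) (nat_lit 110180635062) (nat_lit 9) (nat_lit 4) (nat_lit 10) (nat_lit 5) (nat_lit 10) (nat_lit 4) (nat_lit 335) (nat_lit 294) (nat_lit 151)) (XT.lf (nat_lit 0) (nat_lit 149382035857) (nat_lit 76) (nat_lit 289224339435) (nat_lit 76) (nat_lit 51771406594) (nat_lit 9) (nat_lit 4) (nat_lit 10) (nat_lit 5) (nat_lit 10) (nat_lit 4) (nat_lit 336) (nat_lit 294) (nat_lit 150))) (XT.nd (nat_lit 78) (nat_lit 0) (nat_lit 0) (XT.lf (nat_lit 0) (nat_lit 10744566027) (nat_lit 152) (nat_lit 215104506041) (nat_lit 76) (nat_lit 297279892649) (nat_lit 8) (nat_lit 5) (nat_lit 10) (nat_lit 5) (nat_lit 9) (nat_lit 4) (nat_lit 337) (nat_lit 294) (nat_lit 149)) (XT.lf (nat_lit 0) (nat_lit 75464636073) (nat_lit 152) (nat_lit 80487010844) (nat_lit 76) (nat_lit 402441032841) (nat_lit 8) (nat_lit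 5) (nat_lit 10) (nat_lit 5) (nat_lit 9) (nat_lit 4) (nat_lit 338) (nat_lit 294) (nat_lit 148)))) (XT.nd (nat_lit 156) (nat_lit 0) (nat_lit 0) (XT.nd (nat_lit 78) (nat_lit 0) (nat_lit 0) (XT.lf (nat_lit 0) (nat_lit 68317073121) (nat_lit 76) (nat_lit 78688099447) (nat_lit 152) (nat_lit 449340890711) (nat_lit 7) (nat_lit 5) (nat_lit 8) (nat_lit 5) (nat_lit 9) (nat_lit 4) (nat_lit 339) (nat_lit 294) (nat_lit 147)) (XT.lf (nat_lit 0) (nat_lit 226640999517) (nat_lit 152) (nat_lit 403728677542) (nat_lit 0) (nat_lit 6776276753) (nat_lit 7) (nat_lit 5) (nat_lit 9) (nat_lit 4) (nat_lit 7) (nat_lit 4) (nat_lit 340) (nat_lit 294) (nat_lit 146))) (XT.nd (nat_lit 78) (nat_lit 0) (nat_lit 0) (XT.lf (nat_lit 0) (nat_lit 314691386936) (nat_lit 152) (nat_lit 271528473181) (nat_lit 0) (nat_lit 94826480048) (nat_lit 7) (nat_lit 5) (nat_lit 9) (nat_lit 4) (nat_lit 7) (nat_lit 4) (nat_lit 341) (nat_lit 294)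 (nat_lit 145)) (XT.lf (nat_lit 0) (nat_lit 409785664214) (nat_lit 152) (nat_lit 128752517776) (nat_lit 0) (nat_lit 189920586841) (nat_lit 7) (nat_lit 5) (nat_lit 9) (nat_lit 4) (nat_lit 7) (nat_lit 4) (nat_lit 342) (nat_lit 294) (nat_lit 144))))))) (XT.nd (nat_lit 1170) (nat_lit 0) (nat_lit 0) (XT.nd (nat_lit 546) (nat_lit 76) (nat_lit 0) (XT.nd (nat_lit 234) (nat_lit 152) (nat_lit 0) (XT.nd (nat_lit 78) (nat_lit 0) (nat_lit 0) (XT.lf (nat_lit 0) (nat_lit 26785171152) (nat_lit 76) (nat_lit 486346365853) (nat_lit 76) (nat_lit 266481130623) (nat_lit 6) (nat_lit 4) (nat_lit 7) (nat_lit 5) (nat_lit 7) (nat_lit 4) (nat_lit 343) (nat_lit 294) (nat_lit 143)) (XT.nd (nat_lit 78) (nat_lit 0) (nat_lit 0) (XT.lf (nat_lit 0) (nat_lit 202087905534) (nat_lit 76) (nat_lit 426177369334) (nat_lit 76) (nat_lit 206311987940) (nat_lit 6) (nat_lit 4) (nat_lit 7) (nat_lit 5) (nat_lit 7) (nat_lit 4) (nat_lit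 344) (nat_lit 294) (nat_lit 142)) (XT.lf (nat_lit 0) (nat_lit 391414636969) (nat_lit 76) (nat_lit 361194957422) (nat_lit 76) (nat_lit 141329440691) (nat_lit 6) (nat_lit 4) (nat_lit 7) (nat_lit 5) (nat_lit 7) (nat_lit 4) (nat_lit 345) (nat_lit 294) (nat_lit 141)))) (XT.nd (nat_lit 156) (nat_lit 76) (nat_lit 0) (XT.nd (nat_lit 78) (nat_lit 76) (nat_lit 0) (XT.lf (nat_lit 0) (nat_lit 595887301645) (nat_lit 76) (nat_lit 291014049156) (nat_lit 76) (nat_lit 71148407114) (nat_lit 6) (nat_lit 4) (nat_lit 7) (nat_lit 5) (nat_lit 7) (nat_lit 4) (nat_lit 346) (nat_lit 294) (nat_lit 140)) (XT.lf (nat_lit 0) (nat_lit 4414538616) (nat_lit 152) (nat_lit 210683517748) (nat_lit 76) (nat_lit 812182349501) (nat_lit 5) (nat_lit 5) (nat_lit 7) (nat_lit 5) (nat_lit 6) (nat_lit 4) (nat_lit 347) (nat_lit 294) (nat_lit 139))) (XT.nd (nat_lit 78) (nat_lit 76) (nat_lit 0) (XT.lf (nat_lit 0) (nat_lit 82178562352)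 (nat_lit 152) (nat_lit 48934455812) (nat_lit 76) (nat_lit 970788654360) (nat_lit 5) (nat_lit 5) (nat_lit 7) (nat_lit 5) (nat_lit 6) (nat_lit 4) (nat_lit 348) (nat_lit 294) (nat_lit 138)) (XT.lf (nat_lit 0) (nat_lit 132376365320) (nat_lit 76) (nat_lit 36970908863) (nat_lit 152) (nat_lit 1012890681099) (nat_lit 4) (nat_lit 5) (nat_lit 5) (nat_lit 5) (nat_lit 6) (nat_lit 4) (nat_lit 349) (nat_lit 294) (nat_lit 137))))) (XT.nd (nat_lit 312) (nat_lit 76) (nat_lit 0) (XT.nd (nat_lit 156) (nat_lit 0) (nat_lit 0) (XT.nd (nat_lit 78) (nat_lit 0) (nat_lit 0) (XT.lf (nat_lit 0) (nat_lit 266418200313) (nat_lit 152) (nat_lit 939510125195) (nat_lit 0) (nat_lit 62838517821) (nat_lit 4) (nat_lit 5) (nat_lit 6) (nat_lit 4) (nat_lit 4) (nat_lit 4) (nat_lit 350) (nat_lit 294) (nat_lit 136)) (XT.lf (nat_lit 0) (nat_lit 372215002577) (nat_lit 152) (nat_lit 821290982615) (nat_lit 0) (nat_lit 168635241118)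 (nat_lit 4) (nat_lit 5) (nat_lit 6) (nat_lit 4) (nat_lit 4) (nat_lit 4) (nat_lit 351) (nat_lit 294) (nat_lit 135))) (XT.nd (nat_lit 78) (nat_lit 0) (nat_lit 0) (XT.lf (nat_lit 0) (nat_lit 486475473742) (nat_lit 152) (nat_lit 693614453092) (nat_lit 0) (nat_lit 282895639165) (nat_lit 4) (nat_lit 5) (nat_lit 6) (nat_lit 4) (nat_lit 4) (nat_lit 4) (nat_lit 352) (nat_lit 294) (nat_lit 134)) (XT.lf (nat_lit 0) (nat_lit 609876712898) (nat_lit 152) (nat_lit 555723934970) (nat_lit 0) (nat_lit 406296810618) (nat_lit 4) (nat_lit 5) (nat_lit 6) (nat_lit 4) (nat_lit 4) (nat_lit 4) (nat_lit 353) (nat_lit 294) (nat_lit 133)))) (XT.nd (nat_lit 156) (nat_lit 76) (nat_lit 0) (XT.nd (nat_lit 78) (nat_lit 0) (nat_lit 0) (XT.lf (nat_lit 0) (nat_lit 743149986645) (nat_lit 152) (nat_lit 406802299252) (nat_lit 0) (nat_lit 539570021678) (nat_lit 4) (nat_lit 5) (nat_lit 6) (nat_lit 4) (nat_lit 4) (nat_lit 4)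 (nat_lit 354) (nat_lit 294) (nat_lit 132)) (XT.lf (nat_lit 0) (nat_lit 887085062532) (nat_lit 152) (nat_lit 245967047358) (nat_lit 0) (nat_lit 683505039522) (nat_lit 4) (nat_lit 5) (nat_lit 6) (nat_lit 4) (nat_lit 4) (nat_lit 4) (nat_lit 355) (nat_lit 294) (nat_lit 131))) (XT.nd (nat_lit 78) (nat_lit 76) (nat_lit 0) (XT.lf (nat_lit 0) (nat_lit 1042534889158) (nat_lit 152) (nat_lit 72265081497) (nat_lit 0) (nat_lit 838954812404) (nat_lit 4) (nat_lit 5) (nat_lit 6) (nat_lit 4) (nat_lit 4) (nat_lit 4) (nat_lit 356) (nat_lit 294) (nat_lit 130)) (XT.lf (nat_lit 0) (nat_lit 121406171719) (nat_lit 76) (nat_lit 1091934300310) (nat_lit 76) (nat_lit 888354173793) (nat_lit 3) (nat_lit 4) (nat_lit 4) (nat_lit 5) (nat_lit 4) (nat_lit 4) (nat_lit 357) (nat_lit 294) (nat_lit 129)))))) (XT.nd (nat_lit 35880) (nat_lit 0) (nat_lit 2584) (XT.nd (nat_lit 312) (nat_lit 0) (nat_lit 0) (XT.nd (nat_lit 156)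 (nat_lit 0) (nat_lit 0) (XT.nd (nat_lit 78) (nat_lit 0) (nat_lit 0) (XT.lf (nat_lit 0) (nat_lit 334680808580) (nat_lit 76) (nat_lit 1065105498599) (nat_lit 76) (nat_lit 861525326005) (nat_lit 3) (nat_lit 4) (nat_lit 4) (nat_lit 5) (nat_lit 4) (nat_lit 4) (nat_lit 358) (nat_lit 294) (nat_lit 128)) (XT.lf (nat_lit 0) (nat_lit 565017327657) (nat_lit 76) (nat_lit 1036130435424) (nat_lit 76) (nat_lit 832550220166) (nat_lit 3) (nat_lit 4) (nat_lit 4) (nat_lit 5) (nat_lit 4) (nat_lit 4) (nat_lit 359) (nat_lit 294) (nat_lit 127))) (XT.nd (nat_lit 78) (nat_lit 0) (nat_lit 0) (XT.lf (nat_lit 0) (nat_lit 813780686102) (nat_lit 76) (nat_lit 1004837406708) (nat_lit 76) (nat_lit 801257151946) (nat_lit 3) (nat_lit 4) (nat_lit 4) (nat_lit 5) (nat_lit 4) (nat_lit 4) (nat_lit 360) (nat_lit 294) (nat_lit 126)) (XT.lf (nat_lit 0) (nat_lit 1082445037149) (nat_lit 76) (nat_lit 971040972279) (nat_lit 76) (nat_lit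 767460680940) (nat_lit 3) (nat_lit 4) (nat_lit 4) (nat_lit 5) (nat_lit 4) (nat_lit 4) (nat_lit 361) (nat_lit 294) (nat_lit 125)))) (XT.nd (nat_lit 35412) (nat_lit 0) (nat_lit 3116) (XT.nd (nat_lit 78) (nat_lit 0) (nat_lit 0) (XT.lf (nat_lit 0) (nat_lit 1372602465841) (nat_lit 76) (nat_lit 934540856971) (nat_lit 76) (nat_lit 730960531764) (nat_lit 3) (nat_lit 4) (nat_lit 4) (nat_lit 5) (nat_lit 4) (nat_lit 4) (nat_lit 362) (nat_lit 294) (nat_lit 124)) (XT.lf (nat_lit 0) (nat_lit 1685972423608) (nat_lit 76) (nat_lit 895120763804) (nat_lit 76) (nat_lit 691540407238) (nat_lit 3) (nat_lit 4) (nat_lit 4) (nat_lit 5) (nat_lit 4) (nat_lit 4) (nat_lit 363) (nat_lit 294) (nat_lit 123))) (XT.nd (nat_lit 78) (nat_lit 0) (nat_lit 0) (XT.lf (nat_lit 0) (nat_lit 17996632967) (nat_lit 532) (nat_lit 6110814196) (nat_lit 532) (nat_lit 6110814196) (nat_lit 44) (nat_lit 3) (nat_lit 51) (nat_lit 3) (nat_lit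 51) (nat_lit 5) (nat_lit 295) (nat_lit 295) (nat_lit 190)) (XT.lf (nat_lit 76) (nat_lit 15996818720) (nat_lit 0) (nat_lit 21837237249) (nat_lit 532) (nat_lit 24987789520) (nat_lit 45) (nat_lit 5) (nat_lit 44) (nat_lit 3) (nat_lit 51) (nat_lit 5) (nat_lit 296) (nat_lit 295) (nat_lit 189))))) (XT.nd (nat_lit 312) (nat_lit 608) (nat_lit 0) (XT.nd (nat_lit 156) (nat_lit 0) (nat_lit 0) (XT.nd (nat_lit 78) (nat_lit 0) (nat_lit 0) (XT.lf (nat_lit 0) (nat_lit 40323258247) (nat_lit 456) (nat_lit 18373179282) (nat_lit 532) (nat_lit 6661469970) (nat_lit 45) (nat_lit 5) (nat_lit 51) (nat_lit 5) (nat_lit 52) (nat_lit 5) (nat_lit 297) (nat_lit 295) (nat_lit 188)) (XT.lf (nat_lit 76) (nat_lit 12407270334) (nat_lit 0) (nat_lit 31468404606) (nat_lit 532) (nat_lit 24152058217) (nat_lit 46) (nat_lit 5) (nat_lit 45) (nat_lit 5) (nat_lit 52) (nat_lit 5) (nat_lit 298) (nat_lit 295) (nat_lit 187))) (XT.nd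 (nat_lit 78) (nat_lit 0) (nat_lit 76) (XT.lf (nat_lit 76) (nat_lit 46694073777) (nat_lit 0) (nat_lit 1519137430) (nat_lit 532) (nat_lit 22657864140) (nat_lit 46) (nat_lit 5) (nat_lit 45) (nat_lit 5) (nat_lit 52) (nat_lit 5) (nat_lit 299) (nat_lit 295) (nat_lit 186)) (XT.lf (nat_lit 76) (nat_lit 9515546480) (nat_lit 0) (nat_lit 44351107555) (nat_lit 532) (nat_lit 19997722826) (nat_lit 47) (nat_lit 5) (nat_lit 46) (nat_lit 5) (nat_lit 53) (nat_lit 5) (nat_lit 300) (nat_lit 295) (nat_lit 185)))) (XT.nd (nat_lit 156) (nat_lit 304) (nat_lit 0) (XT.nd (nat_lit 78) (nat_lit 380) (nat_lit 0) (XT.lf (nat_lit 76) (nat_lit 47235927483) (nat_lit 0) (nat_lit 13434706000) (nat_lit 532) (nat_lit 16370652042) (nat_lit 47) (nat_lit 5) (nat_lit 46) (nat_lit 5) (nat_lit 53) (nat_lit 5) (nat_lit 301) (nat_lit 295) (nat_lit 184)) (XT.lf (nat_lit 0) (nat_lit 7390339368) (nat_lit 456) (nat_lit 61285105270)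 (nat_lit 532) (nat_lit 11744384811) (nat_lit 41) (nat_lit 5) (nat_lit 47) (nat_lit 5) (nat_lit 48) (nat_lit 5) (nat_lit 302) (nat_lit 295) (nat_lit 183))) (XT.nd (nat_lit 78) (nat_lit 304) (nat_lit 0) (XT.lf (nat_lit 0) (nat_lit 48888418067) (nat_lit 456) (nat_lit 29586190702) (nat_lit 532) (nat_lit 5501734039) (nat_lit 41) (nat_lit 5) (nat_lit 47) (nat_lit 5) (nat_lit 48) (nat_lit 5) (nat_lit 303) (nat_lit 295) (nat_lit 182)) (XT.lf (nat_lit 0) (nat_lit 1441986811) (nat_lit 304) (nat_lit 81753009644) (nat_lit 76) (nat_lit 4598900927) (nat_lit 37) (nat_lit 5) (nat_lit 41) (nat_lit 5) (nat_lit 38) (nat_lit 5) (nat_lit 304) (nat_lit 295) (nat_lit 181))))))))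
noncomputable def xc101 : XT := (XT.nd (nat_lit 2340) (nat_lit 532) (nat_lit 0) (XT.nd (nat_lit 1170) (nat_lit 760) (nat_lit 0) (XT.nd (nat_lit 546) (nat_lit 684) (nat_lit 0) (XT.nd (nat_lit 234) (nat_lit 380) (nat_lit 0) (XT.nd (nat_lit 78) (nat_lit 228) (nat_lit 0) (XT.lf (nat_lit 0) (nat_lit 10395748421) (nat_lit 304) (nat_lit 40321955922) (nat_lit 76) (nat_lit 41047580106) (nat_lit 37) (nat_lit 5) (nat_lit 41) (nat_lit 5) (nat_lit 38) (nat_lit 5) (nat_lit 305) (nat_lit 295) (nat_lit 180)) (XT.nd (nat_lit 78) (nat_lit 0) (nat_lit 0) (XT.lf (nat_lit 0) (nat_lit 4655504270) (nat_lit 228) (nat_lit 15521366587) (nat_lit 304) (nat_lit 75868629307) (nat_lit 34) (nat_lit 5) (nat_lit 37) (nat_lit 5) (nat_lit 38) (nat_lit 5) (nat_lit 306) (nat_lit 295) (nat_lit 179)) (XT.lf (nat_lit 0) (nat_lit 32411631265) (nat_lit 304) (nat_lit 45626175426) (nat_lit 76) (nat_lit 22496636881) (nat_lit 34)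 (nat_lit 5) (nat_lit 38) (nat_lit 5) (nat_lit 35) (nat_lit 5) (nat_lit 307) (nat_lit 295) (nat_lit 178)))) (XT.nd (nat_lit 156) (nat_lit 152) (nat_lit 0) (XT.nd (nat_lit 78) (nat_lit 0) (nat_lit 0) (XT.lf (nat_lit 0) (nat_lit 3573420257) (nat_lit 228) (nat_lit 42540046776) (nat_lit 304) (nat_lit 59229973980) (nat_lit 31) (nat_lit 5) (nat_lit 34) (nat_lit 5) (nat_lit 35) (nat_lit 5) (nat_lit 308) (nat_lit 295) (nat_lit 177)) (XT.lf (nat_lit 0) (nat_lit 59302873295) (nat_lit 228) (nat_lit 2855315411) (nat_lit 304) (nat_lit 48279232383) (nat_lit 31) (nat_lit 5) (nat_lit 34) (nat_lit 5) (nat_lit 35) (nat_lit 5) (nat_lit 309) (nat_lit 295) (nat_lit 176))) (XT.nd (nat_lit 78) (nat_lit 0) (nat_lit 0) (XT.lf (nat_lit 0) (nat_lit 2725082104) (nat_lit 152) (nat_lit 77788337756) (nat_lit 228) (nat_lit 35343346989) (nat_lit 29) (nat_lit 5) (nat_lit 31) (nat_lit 5) (nat_lit 32) (nat_lit 5) (nat_lit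 310) (nat_lit 295) (nat_lit 175)) (XT.lf (nat_lit 0) (nat_lit 63722604101) (nat_lit 152) (nat_lit 38084184050) (nat_lit 228) (nat_lit 19785296312) (nat_lit 29) (nat_lit 5) (nat_lit 31) (nat_lit 5) (nat_lit 32) (nat_lit 5) (nat_lit 311) (nat_lit 295) (nat_lit 174))))) (XT.nd (nat_lit 312) (nat_lit 304) (nat_lit 0) (XT.nd (nat_lit 156) (nat_lit 152) (nat_lit 0) (XT.nd (nat_lit 78) (nat_lit 76) (nat_lit 0) (XT.lf (nat_lit 0) (nat_lit 1786877712) (nat_lit 152) (nat_lit 123174442561) (nat_lit 228) (nat_lit 2812293223) (nat_lit 27) (nat_lit 5) (nat_lit 29) (nat_lit 5) (nat_lit 30) (nat_lit 5) (nat_lit 312) (nat_lit 295) (nat_lit 173)) (XT.lf (nat_lit 0) (nat_lit 17354178932) (nat_lit 228) (nat_lit 66220640746) (nat_lit 76) (nat_lit 50636034425) (nat_lit 26) (nat_lit 5) (nat_lit 29) (nat_lit 5) (nat_lit 27) (nat_lit 5) (nat_lit 313) (nat_lit 295) (nat_lit 172))) (XT.nd (nat_lit 78) (nat_lit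 152) (nat_lit 0) (XT.lf (nat_lit 0) (nat_lit 38981456333) (nat_lit 228) (nat_lit 1747110873) (nat_lit 76) (nat_lit 100428710317) (nat_lit 26) (nat_lit 5) (nat_lit 29) (nat_lit 5) (nat_lit 27) (nat_lit 5) (nat_lit 314) (nat_lit 295) (nat_lit 171)) (XT.lf (nat_lit 0) (nat_lit 64234953660) (nat_lit 228) (nat_lit 77241790030) (nat_lit 76) (nat_lit 7030989252) (nat_lit 24) (nat_lit 5) (nat_lit 27) (nat_lit 5) (nat_lit 25) (nat_lit 5) (nat_lit 315) (nat_lit 295) (nat_lit 170)))) (XT.nd (nat_lit 156) (nat_lit 152) (nat_lit 0) (XT.nd (nat_lit 78) (nat_lit 152) (nat_lit 0) (XT.lf (nat_lit 0) (nat_lit 92615109270) (nat_lit 228) (nat_lit 7282892451) (nat_lit 76) (nat_lit 56459713858) (nat_lit 24) (nat_lit 5) (nat_lit 27) (nat_lit 5) (nat_lit 25) (nat_lit 5) (nat_lit 316) (nat_lit 295) (nat_lit 169)) (XT.lf (nat_lit 0) (nat_lit 71867092259) (nat_lit 152) (nat_lit 53126512375) (nat_lit 228) (nat_lit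 39703858988) (nat_lit 22) (nat_lit 5) (nat_lit 24) (nat_lit 5) (nat_lit 25) (nat_lit 5) (nat_lit 317) (nat_lit 295) (nat_lit 168))) (XT.nd (nat_lit 78) (nat_lit 152) (nat_lit 0) (XT.lf (nat_lit 0) (nat_lit 157762570516) (nat_lit 152) (nat_lit 2398477126) (nat_lit 228) (nat_lit 13527451337) (nat_lit 22) (nat_lit 5) (nat_lit 24) (nat_lit 5) (nat_lit 25) (nat_lit 5) (nat_lit 318) (nat_lit 295) (nat_lit 167)) (XT.lf (nat_lit 0) (nat_lit 17008688105) (nat_lit 152) (nat_lit 114256364281) (nat_lit 76) (nat_lit 51865149688) (nat_lit 20) (nat_lit 5) (nat_lit 22) (nat_lit 5) (nat_lit 21) (nat_lit 5) (nat_lit 319) (nat_lit 295) (nat_lit 166)))))) (XT.nd (nat_lit 546) (nat_lit 304) (nat_lit 0) (XT.nd (nat_lit 234) (nat_lit 304) (nat_lit 0) (XT.nd (nat_lit 78) (nat_lit 152) (nat_lit 0) (XT.lf (nat_lit 0) (nat_lit 49765510808) (nat_lit 152) (nat_lit 32354744258) (nat_lit 76) (nat_lit 111138188017)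 (nat_lit 20) (nat_lit 5) (nat_lit 22) (nat_lit 5) (nat_lit 21) (nat_lit 5) (nat_lit 320) (nat_lit 295) (nat_lit 165)) (XT.nd (nat_lit 78) (nat_lit 0) (nat_lit 0) (XT.lf (nat_lit 0) (nat_lit 59052422038) (nat_lit 152) (nat_lit 27510275398) (nat_lit 228) (nat_lit 117520661156) (nat_lit 18) (nat_lit 5) (nat_lit 20) (nat_lit 5) (nat_lit 21) (nat_lit 5) (nat_lit 321) (nat_lit 295) (nat_lit 164)) (XT.lf (nat_lit 0) (nat_lit 127967705816) (nat_lit 228) (nat_lit 56871721946) (nat_lit 76) (nat_lit 30801716454) (nat_lit 18) (nat_lit 5) (nat_lit 21) (nat_lit 5) (nat_lit 19) (nat_lit 4) (nat_lit 322) (nat_lit 295) (nat_lit 163)))) (XT.nd (nat_lit 156) (nat_lit 228) (nat_lit 0) (XT.nd (nat_lit 78) (nat_lit 0) (nat_lit 0) (XT.lf (nat_lit 0) (nat_lit 39606360472) (nat_lit 76) (nat_lit 134745484416) (nat_lit 152) (nat_lit 53638369973) (nat_lit 17) (nat_lit 5) (nat_lit 18) (nat_lit 5) (nat_lit 19) (nat_lit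 4) (nat_lit 323) (nat_lit 295) (nat_lit 162)) (XT.lf (nat_lit 0) (nat_lit 147036462263) (nat_lit 76) (nat_lit 78964882618) (nat_lit 152) (nat_lit 15201496423) (nat_lit 17) (nat_lit 5) (nat_lit 18) (nat_lit 5) (nat_lit 19) (nat_lit 4) (nat_lit 324) (nat_lit 295) (nat_lit 161))) (XT.nd (nat_lit 78) (nat_lit 0) (nat_lit 0) (XT.lf (nat_lit 0) (nat_lit 7321430208) (nat_lit 152) (nat_lit 17848501127) (nat_lit 228) (nat_lit 230237865589) (nat_lit 14) (nat_lit 5) (nat_lit 16) (nat_lit 5) (nat_lit 17) (nat_lit 5) (nat_lit 325) (nat_lit 295) (nat_lit 160)) (XT.lf (nat_lit 0) (nat_lit 71749208650) (nat_lit 228) (nat_lit 149880039968) (nat_lit 76) (nat_lit 48784360391) (nat_lit 14) (nat_lit 5) (nat_lit 17) (nat_lit 5) (nat_lit 15) (nat_lit 4) (nat_lit 326) (nat_lit 295) (nat_lit 159))))) (XT.nd (nat_lit 312) (nat_lit 228) (nat_lit 0) (XT.nd (nat_lit 156) (nat_lit 0) (nat_lit 0) (XT.nd (nat_lit 78)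 (nat_lit 76) (nat_lit 0) (XT.lf (nat_lit 0) (nat_lit 122518128374) (nat_lit 228) (nat_lit 44281317742) (nat_lit 76) (nat_lit 119783376319) (nat_lit 14) (nat_lit 5) (nat_lit 17) (nat_lit 5) (nat_lit 15) (nat_lit 4) (nat_lit 327) (nat_lit 295) (nat_lit 158)) (XT.lf (nat_lit 0) (nat_lit 73438519209) (nat_lit 76) (nat_lit 105675965427) (nat_lit 152) (nat_lit 124789814824) (nat_lit 13) (nat_lit 5) (nat_lit 14) (nat_lit 5) (nat_lit 15) (nat_lit 4) (nat_lit 328) (nat_lit 295) (nat_lit 157))) (XT.nd (nat_lit 78) (nat_lit 0) (nat_lit 0) (XT.lf (nat_lit 0) (nat_lit 203093797711) (nat_lit 76) (nat_lit 38355215439) (nat_lit 152) (nat_lit 81065644729) (nat_lit 13) (nat_lit 5) (nat_lit 14) (nat_lit 5) (nat_lit 15) (nat_lit 4) (nat_lit 329) (nat_lit 295) (nat_lit 156)) (XT.lf (nat_lit 0) (nat_lit 309596200362) (nat_lit 152) (nat_lit 318938024) (nat_lit 0) (nat_lit 32632635184) (nat_lit 13) (nat_lit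 5) (nat_lit 15) (nat_lit 4) (nat_lit 13) (nat_lit 4) (nat_lit 330) (nat_lit 295) (nat_lit 155)))) (XT.nd (nat_lit 156) (nat_lit 76) (nat_lit 0) (XT.nd (nat_lit 78) (nat_lit 0) (nat_lit 0) (XT.lf (nat_lit 0) (nat_lit 22389332727) (nat_lit 152) (nat_lit 230394182416) (nat_lit 76) (nat_lit 111017145467) (nat_lit 11) (nat_lit 5) (nat_lit 13) (nat_lit 5) (nat_lit 12) (nat_lit 4) (nat_lit 331) (nat_lit 295) (nat_lit 154)) (XT.lf (nat_lit 0) (nat_lit 80385986517) (nat_lit 152) (nat_lit 109761540042) (nat_lit 76) (nat_lit 196537084200) (nat_lit 11) (nat_lit 5) (nat_lit 13) (nat_lit 5) (nat_lit 12) (nat_lit 4) (nat_lit 332) (nat_lit 295) (nat_lit 153))) (XT.nd (nat_lit 78) (nat_lit 0) (nat_lit 0) (XT.lf (nat_lit 0) (nat_lit 21601947731) (nat_lit 76) (nat_lit 121939738708) (nat_lit 152) (nat_lit 267816045603) (nat_lit 10) (nat_lit 5) (nat_lit 11) (nat_lit 5) (nat_lit 12) (nat_lit 4) (nat_lit 333)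 (nat_lit 295) (nat_lit 152)) (XT.lf (nat_lit 0) (nat_lit 169716377359) (nat_lit 76) (nat_lit 45034333325) (nat_lit 152) (nat_lit 223013923089) (nat_lit 10) (nat_lit 5) (nat_lit 11) (nat_lit 5) (nat_lit 12) (nat_lit 4) (nat_lit 334) (nat_lit 295) (nat_lit 151))))))) (XT.nd (nat_lit 1170) (nat_lit 152) (nat_lit 0) (XT.nd (nat_lit 546) (nat_lit 152) (nat_lit 0) (XT.nd (nat_lit 234) (nat_lit 152) (nat_lit 0) (XT.nd (nat_lit 78) (nat_lit 76) (nat_lit 0) (XT.lf (nat_lit 0) (nat_lit 292570727977) (nat_lit 152) (nat_lit 137518949844) (nat_lit 0) (nat_lit 36121268327) (nat_lit 10) (nat_lit 5) (nat_lit 12) (nat_lit 4) (nat_lit 10) (nat_lit 4) (nat_lit 335) (nat_lit 295) (nat_lit 150)) (XT.nd (nat_lit 78) (nat_lit 0) (nat_lit 0) (XT.lf (nat_lit 0) (nat_lit 2402847585) (nat_lit 76) (nat_lit 375440829915) (nat_lit 76) (nat_lit 118991099726) (nat_lit 9) (nat_lit 4) (nat_lit 10) (nat_lit 5) (nat_lit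 10) (nat_lit 4) (nat_lit 336) (nat_lit 295) (nat_lit 149)) (XT.lf (nat_lit 0) (nat_lit 161338890827) (nat_lit 76) (nat_lit 312359408938) (nat_lit 76) (nat_lit 55909428251) (nat_lit 9) (nat_lit 4) (nat_lit 10) (nat_lit 5) (nat_lit 10) (nat_lit 4) (nat_lit 337) (nat_lit 295) (nat_lit 148)))) (XT.nd (nat_lit 156) (nat_lit 76) (nat_lit 0) (XT.nd (nat_lit 78) (nat_lit 0) (nat_lit 0) (XT.lf (nat_lit 0) (nat_lit 11607377827) (nat_lit 152) (nat_lit 232306866749) (nat_lit 76) (nat_lit 321064774798) (nat_lit 8) (nat_lit 5) (nat_lit 10) (nat_lit 5) (nat_lit 9) (nat_lit 4) (nat_lit 338) (nat_lit 295) (nat_lit 147)) (XT.lf (nat_lit 0) (nat_lit 81504812994) (nat_lit 152) (nat_lit 86920416365) (nat_lit 76) (nat_lit 434638621707) (nat_lit 8) (nat_lit 5) (nat_lit 10) (nat_lit 5) (nat_lit 9) (nat_lit 4) (nat_lit 339) (nat_lit 295) (nat_lit 146))) (XT.nd (nat_lit 78) (nat_lit 0) (nat_lit 0) (XT.lf (nat_lit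 0) (nat_lit 73787853677) (nat_lit 76) (nat_lit 84980646286) (nat_lit 152) (nat_lit 485285012892) (nat_lit 7) (nat_lit 5) (nat_lit 8) (nat_lit 5) (nat_lit 9) (nat_lit 4) (nat_lit 340) (nat_lit 295) (nat_lit 145)) (XT.lf (nat_lit 0) (nat_lit 244775032942) (nat_lit 152) (nat_lit 436021795782) (nat_lit 0) (nat_lit 7320578894) (nat_lit 7) (nat_lit 5) (nat_lit 9) (nat_lit 4) (nat_lit 7) (nat_lit 4) (nat_lit 341) (nat_lit 295) (nat_lit 144))))) (XT.nd (nat_lit 312) (nat_lit 76) (nat_lit 0) (XT.nd (nat_lit 156) (nat_lit 76) (nat_lit 0) (XT.nd (nat_lit 78) (nat_lit 0) (nat_lit 0) (XT.lf (nat_lit 0) (nat_lit 339869247394) (nat_lit 152) (nat_lit 293245958477) (nat_lit 0) (nat_lit 102414635489) (nat_lit 7) (nat_lit 5) (nat_lit 9) (nat_lit 4) (nat_lit 7) (nat_lit 4) (nat_lit 342) (nat_lit 295) (nat_lit 143)) (XT.lf (nat_lit 0) (nat_lit 442570878003) (nat_lit 152) (nat_lit 139048281643) (nat_lit 0)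 (nat_lit 205116119934) (nat_lit 7) (nat_lit 5) (nat_lit 9) (nat_lit 4) (nat_lit 7) (nat_lit 4) (nat_lit 343) (nat_lit 295) (nat_lit 142))) (XT.nd (nat_lit 78) (nat_lit 0) (nat_lit 0) (XT.lf (nat_lit 0) (nat_lit 28932310056) (nat_lit 76) (nat_lit 525252039720) (nat_lit 76) (nat_lit 287797146315) (nat_lit 6) (nat_lit 4) (nat_lit 7) (nat_lit 5) (nat_lit 7) (nat_lit 4) (nat_lit 344) (nat_lit 295) (nat_lit 141)) (XT.lf (nat_lit 0) (nat_lit 218258942802) (nat_lit 76) (nat_lit 460269674250) (nat_lit 76) (nat_lit 222814655533) (nat_lit 6) (nat_lit 4) (nat_lit 7) (nat_lit 5) (nat_lit 7) (nat_lit 4) (nat_lit 345) (nat_lit 295) (nat_lit 140)))) (XT.nd (nat_lit 156) (nat_lit 76) (nat_lit 0) (XT.nd (nat_lit 78) (nat_lit 0) (nat_lit 0) (XT.lf (nat_lit 0) (nat_lit 422731516098) (nat_lit 76) (nat_lit 390088808987) (nat_lit 76) (nat_lit 152633674240) (nat_lit 6) (nat_lit 4) (nat_lit 7) (nat_lit 5) (nat_lit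 7) (nat_lit 4) (nat_lit 346) (nat_lit 295) (nat_lit 139)) (XT.lf (nat_lit 0) (nat_lit 643561719269) (nat_lit 76) (nat_lit 314293557322) (nat_lit 76) (nat_lit 76838315140) (nat_lit 6) (nat_lit 4) (nat_lit 7) (nat_lit 5) (nat_lit 7) (nat_lit 4) (nat_lit 347) (nat_lit 295) (nat_lit 138))) (XT.nd (nat_lit 78) (nat_lit 0) (nat_lit 0) (XT.lf (nat_lit 0) (nat_lit 4769429732) (nat_lit 152) (nat_lit 227534927814) (nat_lit 76) (nat_lit 877158341346) (nat_lit 5) (nat_lit 5) (nat_lit 7) (nat_lit 5) (nat_lit 6) (nat_lit 4) (nat_lit 348) (nat_lit 295) (nat_lit 137)) (XT.lf (nat_lit 0) (nat_lit 88754447365) (nat_lit 152) (nat_lit 52846183245) (nat_lit 76) (nat_lit 1048453046603) (nat_lit 5) (nat_lit 5) (nat_lit 7) (nat_lit 5) (nat_lit 6) (nat_lit 4) (nat_lit 349) (nat_lit 295) (nat_lit 136)))))) (XT.nd (nat_lit 624) (nat_lit 76) (nat_lit 0) (XT.nd (nat_lit 312) (nat_lit 0) (nat_lit 0) (XT.nd (nat_lit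 156) (nat_lit 0) (nat_lit 0) (XT.nd (nat_lit 78) (nat_lit 0) (nat_lit 0) (XT.lf (nat_lit 0) (nat_lit 142969426893) (nat_lit 76) (nat_lit 39927181733) (nat_lit 152) (nat_lit 1093920257849) (nat_lit 4) (nat_lit 5) (nat_lit 5) (nat_lit 5) (nat_lit 6) (nat_lit 4) (nat_lit 350) (nat_lit 295) (nat_lit 135)) (XT.lf (nat_lit 0) (nat_lit 287733125018) (nat_lit 152) (nat_lit 1014668116775) (nat_lit 0) (nat_lit 67866830556) (nat_lit 4) (nat_lit 5) (nat_lit 6) (nat_lit 4) (nat_lit 4) (nat_lit 4) (nat_lit 351) (nat_lit 295) (nat_lit 134))) (XT.nd (nat_lit 78) (nat_lit 0) (nat_lit 0) (XT.lf (nat_lit 0) (nat_lit 401993562672) (nat_lit 152) (nat_lit 886991651561) (nat_lit 0) (nat_lit 182127200508) (nat_lit 4) (nat_lit 5) (nat_lit 6) (nat_lit 4) (nat_lit 4) (nat_lit 4) (nat_lit 352) (nat_lit 295) (nat_lit 133)) (XT.lf (nat_lit 0) (nat_lit 525394770798) (nat_lit 152) (nat_lit 749101192984) (nat_lit 0)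 (nat_lit 305528345947) (nat_lit 4) (nat_lit 5) (nat_lit 6) (nat_lit 4) (nat_lit 4) (nat_lit 4) (nat_lit 353) (nat_lit 295) (nat_lit 132)))) (XT.nd (nat_lit 156) (nat_lit 0) (nat_lit 0) (XT.nd (nat_lit 78) (nat_lit 0) (nat_lit 0) (XT.lf (nat_lit 0) (nat_lit 658668015815) (nat_lit 152) (nat_lit 600179612402) (nat_lit 0) (nat_lit 438801532920) (nat_lit 4) (nat_lit 5) (nat_lit 6) (nat_lit 4) (nat_lit 4) (nat_lit 4) (nat_lit 354) (nat_lit 295) (nat_lit 131)) (XT.lf (nat_lit 0) (nat_lit 802603065100) (nat_lit 152) (nat_lit 439344411558) (nat_lit 0) (nat_lit 582736528461) (nat_lit 4) (nat_lit 5) (nat_lit 6) (nat_lit 4) (nat_lit 4) (nat_lit 4) (nat_lit 355) (nat_lit 295) (nat_lit 130))) (XT.nd (nat_lit 78) (nat_lit 0) (nat_lit 0) (XT.lf (nat_lit 0) (nat_lit 958052867094) (nat_lit 152) (nat_lit 265642492966) (nat_lit 0) (nat_lit 738186280692) (nat_lit 4) (nat_lit 5) (nat_lit 6) (nat_lit 4) (nat_lit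 4) (nat_lit 4) (nat_lit 356) (nat_lit 295) (nat_lit 129)) (XT.lf (nat_lit 0) (nat_lit 1125938605808) (nat_lit 152) (nat_lit 78044511924) (nat_lit 0) (nat_lit 906071973330) (nat_lit 4) (nat_lit 5) (nat_lit 6) (nat_lit 4) (nat_lit 4) (nat_lit 4) (nat_lit 357) (nat_lit 295) (nat_lit 128))))) (XT.nd (nat_lit 312) (nat_lit 0) (nat_lit 0) (XT.nd (nat_lit 156) (nat_lit 0) (nat_lit 0) (XT.nd (nat_lit 78) (nat_lit 0) (nat_lit 0) (XT.lf (nat_lit 0) (nat_lit 131120396585) (nat_lit 76) (nat_lit 1179288211801) (nat_lit 76) (nat_lit 959421536658) (nat_lit 3) (nat_lit 4) (nat_lit 4) (nat_lit 5) (nat_lit 4) (nat_lit 4) (nat_lit 358) (nat_lit 295) (nat_lit 127)) (XT.lf (nat_lit 0) (nat_lit 361456876163) (nat_lit 76) (nat_lit 1150313167622) (nat_lit 76) (nat_lit 930446452976) (nat_lit 3) (nat_lit 4) (nat_lit 4) (nat_lit 5) (nat_lit 4) (nat_lit 4) (nat_lit 359) (nat_lit 295) (nat_lit 126))) (XT.nd (nat_lit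 78) (nat_lit 0) (nat_lit 0) (XT.lf (nat_lit 0) (nat_lit 610220198034) (nat_lit 76) (nat_lit 1119020156495) (nat_lit 76) (nat_lit 899153405271) (nat_lit 3) (nat_lit 4) (nat_lit 4) (nat_lit 5) (nat_lit 4) (nat_lit 4) (nat_lit 360) (nat_lit 295) (nat_lit 125)) (XT.lf (nat_lit 0) (nat_lit 878884515216) (nat_lit 76) (nat_lit 1085223738352) (nat_lit 76) (nat_lit 865356953260) (nat_lit 3) (nat_lit 4) (nat_lit 4) (nat_lit 5) (nat_lit 4) (nat_lit 4) (nat_lit 361) (nat_lit 295) (nat_lit 124)))) (XT.nd (nat_lit 35490) (nat_lit 0) (nat_lit 3116) (XT.nd (nat_lit 78) (nat_lit 0) (nat_lit 0) (XT.lf (nat_lit 0) (nat_lit 1169041912552) (nat_lit 76) (nat_lit 1048723638124) (nat_lit 76) (nat_lit 828856821673) (nat_lit 3) (nat_lit 4) (nat_lit 4) (nat_lit 5) (nat_lit 4) (nat_lit 4) (nat_lit 362) (nat_lit 295) (nat_lit 123)) (XT.lf (nat_lit 0) (nat_lit 1482411841285) (nat_lit 76) (nat_lit 1009303558920) (nat_lit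 76) (nat_lit 789436713433) (nat_lit 3) (nat_lit 4) (nat_lit 4) (nat_lit 5) (nat_lit 4) (nat_lit 4) (nat_lit 363) (nat_lit 295) (nat_lit 122))) (XT.nd (nat_lit 78) (nat_lit 0) (nat_lit 0) (XT.lf (nat_lit 0) (nat_lit 19452306257) (nat_lit 532) (nat_lit 6591044248) (nat_lit 532) (nat_lit 6591044248) (nat_lit 44) (nat_lit 3) (nat_lit 51) (nat_lit 3) (nat_lit 51) (nat_lit 5) (nat_lit 296) (nat_lit 296) (nat_lit 188)) (XT.lf (nat_lit 76) (nat_lit 17293397166) (nat_lit 0) (nat_lit 23597311544) (nat_lit 532) (nat_lit 26954393670) (nat_lit 45) (nat_lit 5) (nat_lit 44) (nat_lit 3) (nat_lit 51) (nat_lit 5) (nat_lit 297) (nat_lit 296) (nat_lit 187))))))))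
noncomputable def xc102 : XT := (XT.nd (nat_lit 2340) (nat_lit 760) (nat_lit 0) (XT.nd (nat_lit 1170) (nat_lit 1140) (nat_lit 0) (XT.nd (nat_lit 546) (nat_lit 912) (nat_lit 0) (XT.nd (nat_lit 234) (nat_lit 304) (nat_lit 0) (XT.nd (nat_lit 78) (nat_lit 0) (nat_lit 0) (XT.lf (nat_lit 0) (nat_lit 43576538649) (nat_lit 456) (nat_lit 19824849700) (nat_lit 532) (nat_lit 7182868832) (nat_lit 45) (nat_lit 5) (nat_lit 51) (nat_lit 5) (nat_lit 52) (nat_lit 5) (nat_lit 298) (nat_lit 296) (nat_lit 186)) (XT.nd (nat_lit 78) (nat_lit 0) (nat_lit 0) (XT.lf (nat_lit 76) (nat_lit 13417575533) (nat_lit 0) (nat_lit 33993968305) (nat_lit 532) (nat_lit 26056260058) (nat_lit 46) (nat_lit 5) (nat_lit 45) (nat_lit 5) (nat_lit 52) (nat_lit 5) (nat_lit 299) (nat_lit 296) (nat_lit 185)) (XT.lf (nat_lit 76) (nat_lit 50446010394) (nat_lit 0) (nat_lit 1648160397) (nat_lit 532) (nat_lit 24444601775) (nat_lit 46) (nat_lit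 5) (nat_lit 45) (nat_lit 5) (nat_lit 52) (nat_lit 5) (nat_lit 300) (nat_lit 296) (nat_lit 184)))) (XT.nd (nat_lit 156) (nat_lit 380) (nat_lit 0) (XT.nd (nat_lit 78) (nat_lit 0) (nat_lit 0) (XT.lf (nat_lit 76) (nat_lit 10294899532) (nat_lit 0) (nat_lit 47903487638) (nat_lit 532) (nat_lit 21573276854) (nat_lit 47) (nat_lit 5) (nat_lit 46) (nat_lit 5) (nat_lit 53) (nat_lit 5) (nat_lit 301) (nat_lit 296) (nat_lit 183)) (XT.lf (nat_lit 76) (nat_lit 51031569584) (nat_lit 0) (nat_lit 14513456071) (nat_lit 532) (nat_lit 17657837726) (nat_lit 47) (nat_lit 5) (nat_lit 46) (nat_lit 5) (nat_lit 53) (nat_lit 5) (nat_lit 302) (nat_lit 296) (nat_lit 182))) (XT.nd (nat_lit 78) (nat_lit 0) (nat_lit 0) (XT.lf (nat_lit 0) (nat_lit 7999684377) (nat_lit 456) (nat_lit 66189348167) (nat_lit 532) (nat_lit 12662758272) (nat_lit 41) (nat_lit 5) (nat_lit 47) (nat_lit 5) (nat_lit 48) (nat_lit 5) (nat_lit 303) (nat_lit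 296) (nat_lit 181)) (XT.lf (nat_lit 0) (nat_lit 52816267308) (nat_lit 456) (nat_lit 31954414176) (nat_lit 532) (nat_lit 5922264128) (nat_lit 41) (nat_lit 5) (nat_lit 47) (nat_lit 5) (nat_lit 48) (nat_lit 5) (nat_lit 304) (nat_lit 296) (nat_lit 180))))) (XT.nd (nat_lit 312) (nat_lit 380) (nat_lit 0) (XT.nd (nat_lit 156) (nat_lit 228) (nat_lit 0) (XT.nd (nat_lit 78) (nat_lit 0) (nat_lit 0) (XT.lf (nat_lit 0) (nat_lit 1575003722) (nat_lit 304) (nat_lit 88274423555) (nat_lit 76) (nat_lit 4966520991) (nat_lit 37) (nat_lit 5) (nat_lit 41) (nat_lit 5) (nat_lit 38) (nat_lit 5) (nat_lit 305) (nat_lit 296) (nat_lit 179)) (XT.lf (nat_lit 0) (nat_lit 11243758262) (nat_lit 304) (nat_lit 43530280119) (nat_lit 76) (nat_lit 44331116135) (nat_lit 37) (nat_lit 5) (nat_lit 41) (nat_lit 5) (nat_lit 38) (nat_lit 5) (nat_lit 306) (nat_lit 296) (nat_lit 178))) (XT.nd (nat_lit 78) (nat_lit 0) (nat_lit 0) (XT.lf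 (nat_lit 0) (nat_lit 5044935566) (nat_lit 228) (nat_lit 16761632453) (nat_lit 304) (nat_lit 81921286978) (nat_lit 34) (nat_lit 5) (nat_lit 37) (nat_lit 5) (nat_lit 38) (nat_lit 5) (nat_lit 307) (nat_lit 296) (nat_lit 177)) (XT.lf (nat_lit 0) (nat_lit 35018989736) (nat_lit 304) (nat_lit 49259379257) (nat_lit 76) (nat_lit 24297637512) (nat_lit 34) (nat_lit 5) (nat_lit 38) (nat_lit 5) (nat_lit 35) (nat_lit 5) (nat_lit 308) (nat_lit 296) (nat_lit 176)))) (XT.nd (nat_lit 156) (nat_lit 152) (nat_lit 0) (XT.nd (nat_lit 78) (nat_lit 0) (nat_lit 0) (XT.lf (nat_lit 0) (nat_lit 3875756480) (nat_lit 228) (nat_lit 45940543072) (nat_lit 304) (nat_lit 63953480851) (nat_lit 31) (nat_lit 5) (nat_lit 34) (nat_lit 5) (nat_lit 35) (nat_lit 5) (nat_lit 309) (nat_lit 296) (nat_lit 175)) (XT.lf (nat_lit 0) (nat_lit 64062346309) (nat_lit 228) (nat_lit 3081233750) (nat_lit 304) (nat_lit 52127782966) (nat_lit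 31) (nat_lit 5) (nat_lit 34) (nat_lit 5) (nat_lit 35) (nat_lit 5) (nat_lit 310) (nat_lit 296) (nat_lit 174))) (XT.nd (nat_lit 78) (nat_lit 0) (nat_lit 0) (XT.lf (nat_lit 0) (nat_lit 2958912280) (nat_lit 152) (nat_lit 84007810382) (nat_lit 228) (nat_lit 38157576782) (nat_lit 29) (nat_lit 5) (nat_lit 31) (nat_lit 5) (nat_lit 32) (nat_lit 5) (nat_lit 311) (nat_lit 296) (nat_lit 173)) (XT.lf (nat_lit 0) (nat_lit 68835063918) (nat_lit 152) (nat_lit 41127590630) (nat_lit 228) (nat_lit 21355862641) (nat_lit 29) (nat_lit 5) (nat_lit 31) (nat_lit 5) (nat_lit 32) (nat_lit 5) (nat_lit 312) (nat_lit 296) (nat_lit 172)))))) (XT.nd (nat_lit 546) (nat_lit 608) (nat_lit 0) (XT.nd (nat_lit 234) (nat_lit 304) (nat_lit 0) (XT.nd (nat_lit 78) (nat_lit 76) (nat_lit 0) (XT.lf (nat_lit 0) (nat_lit 1944940863) (nat_lit 152) (nat_lit 133024207190) (nat_lit 228) (nat_lit 3025454672) (nat_lit 27) (nat_lit 5) (nat_lit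 29) (nat_lit 5) (nat_lit 30) (nat_lit 5) (nat_lit 313) (nat_lit 296) (nat_lit 171)) (XT.nd (nat_lit 78) (nat_lit 0) (nat_lit 0) (XT.lf (nat_lit 0) (nat_lit 18752911972) (nat_lit 228) (nat_lit 71503728612) (nat_lit 76) (nat_lit 54690227592) (nat_lit 26) (nat_lit 5) (nat_lit 29) (nat_lit 5) (nat_lit 27) (nat_lit 5) (nat_lit 314) (nat_lit 296) (nat_lit 170)) (XT.lf (nat_lit 0) (nat_lit 42109601290) (nat_lit 228) (nat_lit 1873395119) (nat_lit 76) (nat_lit 108466072339) (nat_lit 26) (nat_lit 5) (nat_lit 29) (nat_lit 5) (nat_lit 27) (nat_lit 5) (nat_lit 315) (nat_lit 296) (nat_lit 169)))) (XT.nd (nat_lit 156) (nat_lit 152) (nat_lit 0) (XT.nd (nat_lit 78) (nat_lit 0) (nat_lit 0) (XT.lf (nat_lit 0) (nat_lit 69383075361) (nat_lit 228) (nat_lit 83407326400) (nat_lit 76) (nat_lit 7597184617) (nat_lit 24) (nat_lit 5) (nat_lit 27) (nat_lit 5) (nat_lit 25) (nat_lit 5) (nat_lit 316) (nat_lit 296) (nat_lit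 168)) (XT.lf (nat_lit 0) (nat_lit 100032952649) (nat_lit 228) (nat_lit 7852739742) (nat_lit 76) (nat_lit 60979931915) (nat_lit 24) (nat_lit 5) (nat_lit 27) (nat_lit 5) (nat_lit 25) (nat_lit 5) (nat_lit 317) (nat_lit 296) (nat_lit 167))) (XT.nd (nat_lit 78) (nat_lit 0) (nat_lit 0) (XT.lf (nat_lit 0) (nat_lit 77628920096) (nat_lit 152) (nat_lit 57372467618) (nat_lit 228) (nat_lit 42871192988) (nat_lit 22) (nat_lit 5) (nat_lit 24) (nat_lit 5) (nat_lit 25) (nat_lit 5) (nat_lit 318) (nat_lit 296) (nat_lit 166)) (XT.lf (nat_lit 0) (nat_lit 170395113617) (nat_lit 152) (nat_lit 2586498122) (nat_lit 228) (nat_lit 14601337519) (nat_lit 22) (nat_lit 5) (nat_lit 24) (nat_lit 5) (nat_lit 25) (nat_lit 5) (nat_lit 319) (nat_lit 296) (nat_lit 165))))) (XT.nd (nat_lit 312) (nat_lit 304) (nat_lit 0) (XT.nd (nat_lit 156) (nat_lit 152) (nat_lit 0) (XT.nd (nat_lit 78) (nat_lit 0) (nat_lit 0) (XT.lf (nat_lit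 0) (nat_lit 18377071137) (nat_lit 152) (nat_lit 123384686889) (nat_lit 76) (nat_lit 56018232130) (nat_lit 20) (nat_lit 5) (nat_lit 22) (nat_lit 5) (nat_lit 21) (nat_lit 5) (nat_lit 320) (nat_lit 296) (nat_lit 164)) (XT.lf (nat_lit 0) (nat_lit 53753870176) (nat_lit 152) (nat_lit 34931839970) (nat_lit 76) (nat_lit 120032826824) (nat_lit 20) (nat_lit 5) (nat_lit 22) (nat_lit 5) (nat_lit 21) (nat_lit 5) (nat_lit 321) (nat_lit 296) (nat_lit 163))) (XT.nd (nat_lit 78) (nat_lit 0) (nat_lit 0) (XT.lf (nat_lit 0) (nat_lit 63787613962) (nat_lit 152) (nat_lit 29706954981) (nat_lit 228) (nat_lit 126914898695) (nat_lit 18) (nat_lit 5) (nat_lit 20) (nat_lit 5) (nat_lit 21) (nat_lit 5) (nat_lit 322) (nat_lit 296) (nat_lit 162)) (XT.lf (nat_lit 0) (nat_lit 138211562410) (nat_lit 228) (nat_lit 61410850278) (nat_lit 76) (nat_lit 33269497499) (nat_lit 18) (nat_lit 5) (nat_lit 21) (nat_lit 5) (nat_lit 19)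 (nat_lit 4) (nat_lit 323) (nat_lit 296) (nat_lit 161)))) (XT.nd (nat_lit 156) (nat_lit 228) (nat_lit 0) (XT.nd (nat_lit 78) (nat_lit 0) (nat_lit 0) (XT.lf (nat_lit 0) (nat_lit 42785210140) (nat_lit 76) (nat_lit 145520994118) (nat_lit 152) (nat_lit 57922721261) (nat_lit 17) (nat_lit 5) (nat_lit 18) (nat_lit 5) (nat_lit 19) (nat_lit 4) (nat_lit 324) (nat_lit 296) (nat_lit 160)) (XT.lf (nat_lit 0) (nat_lit 158808954087) (nat_lit 76) (nat_lit 85278250032) (nat_lit 152) (nat_lit 16411395480) (nat_lit 17) (nat_lit 5) (nat_lit 18) (nat_lit 5) (nat_lit 19) (nat_lit 4) (nat_lit 325) (nat_lit 296) (nat_lit 159))) (XT.nd (nat_lit 78) (nat_lit 0) (nat_lit 0) (XT.lf (nat_lit 0) (nat_lit 7916788383) (nat_lit 152) (nat_lit 19272441127) (nat_lit 228) (nat_lit 248650727263) (nat_lit 14) (nat_lit 5) (nat_lit 16) (nat_lit 5) (nat_lit 17) (nat_lit 5) (nat_lit 326) (nat_lit 296) (nat_lit 158)) (XT.lf (nat_lit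 0) (nat_lit 77494514257) (nat_lit 228) (nat_lit 161861171958) (nat_lit 76) (nat_lit 52690574954) (nat_lit 14) (nat_lit 5) (nat_lit 17) (nat_lit 5) (nat_lit 15) (nat_lit 4) (nat_lit 327) (nat_lit 296) (nat_lit 157))))))) (XT.nd (nat_lit 1170) (nat_lit 228) (nat_lit 0) (XT.nd (nat_lit 546) (nat_lit 228) (nat_lit 0) (XT.nd (nat_lit 234) (nat_lit 228) (nat_lit 0) (XT.nd (nat_lit 78) (nat_lit 76) (nat_lit 0) (XT.lf (nat_lit 0) (nat_lit 132324549862) (nat_lit 228) (nat_lit 47815238709) (nat_lit 76) (nat_lit 129369255436) (nat_lit 14) (nat_lit 5) (nat_lit 17) (nat_lit 5) (nat_lit 15) (nat_lit 4) (nat_lit 328) (nat_lit 296) (nat_lit 156)) (XT.nd (nat_lit 78) (nat_lit 0) (nat_lit 0) (XT.lf (nat_lit 0) (nat_lit 79321967869) (nat_lit 76) (nat_lit 114126479746) (nat_lit 152) (nat_lit 134767805422) (nat_lit 13) (nat_lit 5) (nat_lit 14) (nat_lit 5) (nat_lit 15) (nat_lit 4) (nat_lit 329) (nat_lit 296)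 (nat_lit 155)) (XT.lf (nat_lit 0) (nat_lit 219349048865) (nat_lit 76) (nat_lit 41420333679) (nat_lit 152) (nat_lit 87546086504) (nat_lit 13) (nat_lit 5) (nat_lit 14) (nat_lit 5) (nat_lit 15) (nat_lit 4) (nat_lit 330) (nat_lit 296) (nat_lit 154)))) (XT.nd (nat_lit 156) (nat_lit 76) (nat_lit 0) (XT.nd (nat_lit 78) (nat_lit 152) (nat_lit 0) (XT.lf (nat_lit 0) (nat_lit 334368088689) (nat_lit 152) (nat_lit 337018382) (nat_lit 0) (nat_lit 35246147820) (nat_lit 13) (nat_lit 5) (nat_lit 15) (nat_lit 4) (nat_lit 13) (nat_lit 4) (nat_lit 331) (nat_lit 296) (nat_lit 153)) (XT.lf (nat_lit 0) (nat_lit 24184645289) (nat_lit 152) (nat_lit 248818246733) (nat_lit 76) (nat_lit 119901483720) (nat_lit 11) (nat_lit 5) (nat_lit 13) (nat_lit 5) (nat_lit 12) (nat_lit 4) (nat_lit 332) (nat_lit 296) (nat_lit 152))) (XT.nd (nat_lit 78) (nat_lit 76) (nat_lit 0) (XT.lf (nat_lit 0) (nat_lit 86820722794) (nat_lit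 152) (nat_lit 118535546323) (nat_lit 76) (nat_lit 212262797802) (nat_lit 11) (nat_lit 5) (nat_lit 13) (nat_lit 5) (nat_lit 12) (nat_lit 4) (nat_lit 333) (nat_lit 296) (nat_lit 151)) (XT.lf (nat_lit 0) (nat_lit 23336845360) (nat_lit 76) (nat_lit 131691909760) (nat_lit 152) (nat_lit 289237292976) (nat_lit 10) (nat_lit 5) (nat_lit 11) (nat_lit 5) (nat_lit 12) (nat_lit 4) (nat_lit 334) (nat_lit 296) (nat_lit 150))))) (XT.nd (nat_lit 312) (nat_lit 152) (nat_lit 0) (XT.nd (nat_lit 156) (nat_lit 76) (nat_lit 0) (XT.nd (nat_lit 78) (nat_lit 0) (nat_lit 0) (XT.lf (nat_lit 0) (nat_lit 183299929965) (nat_lit 76) (nat_lit 48634294765) (nat_lit 152) (nat_lit 240851299645) (nat_lit 10) (nat_lit 5) (nat_lit 11) (nat_lit 5) (nat_lit 12) (nat_lit 4) (nat_lit 335) (nat_lit 296) (nat_lit 149)) (XT.lf (nat_lit 0) (nat_lit 315979649341) (nat_lit 152) (nat_lit 148514488486) (nat_lit 0) (nat_lit 39013419699)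 (nat_lit 10) (nat_lit 5) (nat_lit 12) (nat_lit 4) (nat_lit 10) (nat_lit 4) (nat_lit 336) (nat_lit 296) (nat_lit 148))) (XT.nd (nat_lit 78) (nat_lit 0) (nat_lit 0) (XT.lf (nat_lit 0) (nat_lit 2600901413) (nat_lit 76) (nat_lit 405473431816) (nat_lit 76) (nat_lit 128506970231) (nat_lit 9) (nat_lit 4) (nat_lit 10) (nat_lit 5) (nat_lit 10) (nat_lit 4) (nat_lit 337) (nat_lit 296) (nat_lit 147)) (XT.lf (nat_lit 0) (nat_lit 174251396557) (nat_lit 76) (nat_lit 337345694531) (nat_lit 76) (nat_lit 60379018184) (nat_lit 9) (nat_lit 4) (nat_lit 10) (nat_lit 5) (nat_lit 10) (nat_lit 4) (nat_lit 338) (nat_lit 296) (nat_lit 146)))) (XT.nd (nat_lit 156) (nat_lit 76) (nat_lit 0) (XT.nd (nat_lit 78) (nat_lit 0) (nat_lit 0) (XT.lf (nat_lit 0) (nat_lit 12538751419) (nat_lit 152) (nat_lit 250886272249) (nat_lit 76) (nat_lit 346752092188) (nat_lit 8) (nat_lit 5) (nat_lit 10) (nat_lit 5) (nat_lit 9) (nat_lit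 4) (nat_lit 339) (nat_lit 296) (nat_lit 145)) (XT.lf (nat_lit 0) (nat_lit 88027775224) (nat_lit 152) (nat_lit 93869286859) (nat_lit 76) (nat_lit 469411688671) (nat_lit 8) (nat_lit 5) (nat_lit 10) (nat_lit 5) (nat_lit 9) (nat_lit 4) (nat_lit 340) (nat_lit 296) (nat_lit 144))) (XT.nd (nat_lit 78) (nat_lit 0) (nat_lit 0) (XT.lf (nat_lit 0) (nat_lit 79695524208) (nat_lit 76) (nat_lit 91776953685) (nat_lit 152) (nat_lit 524105114099) (nat_lit 7) (nat_lit 5) (nat_lit 8) (nat_lit 5) (nat_lit 9) (nat_lit 4) (nat_lit 341) (nat_lit 296) (nat_lit 143)) (XT.lf (nat_lit 0) (nat_lit 264359396229) (nat_lit 152) (nat_lit 470899101890) (nat_lit 0) (nat_lit 7908111351) (nat_lit 7) (nat_lit 5) (nat_lit 9) (nat_lit 4) (nat_lit 7) (nat_lit 4) (nat_lit 342) (nat_lit 296) (nat_lit 142)))))) (XT.nd (nat_lit 624) (nat_lit 76) (nat_lit 0) (XT.nd (nat_lit 312) (nat_lit 76) (nat_lit 0) (XT.nd (nat_lit 156) (nat_lit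 76) (nat_lit 0) (XT.nd (nat_lit 78) (nat_lit 0) (nat_lit 0) (XT.lf (nat_lit 0) (nat_lit 367060972974) (nat_lit 152) (nat_lit 316701526309) (nat_lit 0) (nat_lit 110609552760) (nat_lit 7) (nat_lit 5) (nat_lit 9) (nat_lit 4) (nat_lit 7) (nat_lit 4) (nat_lit 343) (nat_lit 296) (nat_lit 141)) (XT.lf (nat_lit 0) (nat_lit 477978572121) (nat_lit 152) (nat_lit 150168339687) (nat_lit 0) (nat_lit 221527026595) (nat_lit 7) (nat_lit 5) (nat_lit 9) (nat_lit 4) (nat_lit 7) (nat_lit 4) (nat_lit 344) (nat_lit 296) (nat_lit 140))) (XT.nd (nat_lit 78) (nat_lit 0) (nat_lit 0) (XT.lf (nat_lit 0) (nat_lit 31250603032) (nat_lit 76) (nat_lit 567270457869) (nat_lit 76) (nat_lit 310818796313) (nat_lit 6) (nat_lit 4) (nat_lit 7) (nat_lit 5) (nat_lit 7) (nat_lit 4) (nat_lit 345) (nat_lit 296) (nat_lit 139)) (XT.lf (nat_lit 0) (nat_lit 235723091718) (nat_lit 76) (nat_lit 497089632423) (nat_lit 76) (nat_lit 240637863432)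 (nat_lit 6) (nat_lit 4) (nat_lit 7) (nat_lit 5) (nat_lit 7) (nat_lit 4) (nat_lit 346) (nat_lit 296) (nat_lit 138)))) (XT.nd (nat_lit 156) (nat_lit 76) (nat_lit 0) (XT.nd (nat_lit 78) (nat_lit 0) (nat_lit 0) (XT.lf (nat_lit 0) (nat_lit 456553216546) (nat_lit 76) (nat_lit 421294417625) (nat_lit 76) (nat_lit 164842549158) (nat_lit 6) (nat_lit 4) (nat_lit 7) (nat_lit 5) (nat_lit 7) (nat_lit 4) (nat_lit 347) (nat_lit 296) (nat_lit 137)) (XT.lf (nat_lit 0) (nat_lit 695049600477) (nat_lit 76) (nat_lit 339435656648) (nat_lit 76) (nat_lit 82983696072) (nat_lit 6) (nat_lit 4) (nat_lit 7) (nat_lit 5) (nat_lit 7) (nat_lit 4) (nat_lit 348) (nat_lit 296) (nat_lit 136))) (XT.nd (nat_lit 78) (nat_lit 0) (nat_lit 0) (XT.lf (nat_lit 0) (nat_lit 5152465615) (nat_lit 152) (nat_lit 245734917380) (nat_lit 76) (nat_lit 947332212260) (nat_lit 5) (nat_lit 5) (nat_lit 7) (nat_lit 5) (nat_lit 6) (nat_lit 4) (nat_lit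 349) (nat_lit 296) (nat_lit 135)) (XT.lf (nat_lit 0) (nat_lit 95856174918) (nat_lit 152) (nat_lit 57071280998) (nat_lit 76) (nat_lit 1132330404781) (nat_lit 5) (nat_lit 5) (nat_lit 7) (nat_lit 5) (nat_lit 6) (nat_lit 4) (nat_lit 350) (nat_lit 296) (nat_lit 134))))) (XT.nd (nat_lit 312) (nat_lit 0) (nat_lit 0) (XT.nd (nat_lit 156) (nat_lit 0) (nat_lit 0) (XT.nd (nat_lit 78) (nat_lit 0) (nat_lit 0) (XT.lf (nat_lit 0) (nat_lit 154409512207) (nat_lit 76) (nat_lit 43120156135) (nat_lit 152) (nat_lit 1181432440087) (nat_lit 4) (nat_lit 5) (nat_lit 5) (nat_lit 5) (nat_lit 6) (nat_lit 4) (nat_lit 351) (nat_lit 296) (nat_lit 133)) (XT.lf (nat_lit 0) (nat_lit 310753034176) (nat_lit 152) (nat_lit 1095839149762) (nat_lit 0) (nat_lit 73297232649) (nat_lit 4) (nat_lit 5) (nat_lit 6) (nat_lit 4) (nat_lit 4) (nat_lit 4) (nat_lit 352) (nat_lit 296) (nat_lit 132))) (XT.nd (nat_lit 78) (nat_lit 0) (nat_lit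 0) (XT.lf (nat_lit 0) (nat_lit 434154213571) (nat_lit 152) (nat_lit 957948746320) (nat_lit 0) (nat_lit 196698354001) (nat_lit 4) (nat_lit 5) (nat_lit 6) (nat_lit 4) (nat_lit 4) (nat_lit 4) (nat_lit 353) (nat_lit 296) (nat_lit 131)) (XT.lf (nat_lit 0) (nat_lit 567427431986) (nat_lit 152) (nat_lit 809027216788) (nat_lit 0) (nat_lit 329971518672) (nat_lit 4) (nat_lit 5) (nat_lit 6) (nat_lit 4) (nat_lit 4) (nat_lit 4) (nat_lit 354) (nat_lit 296) (nat_lit 130)))) (XT.nd (nat_lit 156) (nat_lit 0) (nat_lit 0) (XT.nd (nat_lit 78) (nat_lit 0) (nat_lit 0) (XT.lf (nat_lit 0) (nat_lit 711362456639) (nat_lit 152) (nat_lit 648192063213) (nat_lit 0) (nat_lit 473906493562) (nat_lit 4) (nat_lit 5) (nat_lit 6) (nat_lit 4) (nat_lit 4) (nat_lit 4) (nat_lit 355) (nat_lit 296) (nat_lit 129)) (XT.lf (nat_lit 0) (nat_lit 866812235826) (nat_lit 152) (nat_lit 474490188390) (nat_lit 0) (nat_lit 629356226672) (nat_lit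 4) (nat_lit 5) (nat_lit 6) (nat_lit 4) (nat_lit 4) (nat_lit 4) (nat_lit 356) (nat_lit 296) (nat_lit 128))) (XT.nd (nat_lit 78) (nat_lit 0) (nat_lit 0) (XT.lf (nat_lit 0) (nat_lit 1034697953422) (nat_lit 152) (nat_lit 286892247873) (nat_lit 0) (nat_lit 797241901604) (nat_lit 4) (nat_lit 5) (nat_lit 6) (nat_lit 4) (nat_lit 4) (nat_lit 4) (nat_lit 357) (nat_lit 296) (nat_lit 127)) (XT.lf (nat_lit 0) (nat_lit 1216014487755) (nat_lit 152) (nat_lit 84286550165) (nat_lit 0) (nat_lit 978558396434) (nat_lit 4) (nat_lit 5) (nat_lit 6) (nat_lit 4) (nat_lit 4) (nat_lit 4) (nat_lit 358) (nat_lit 296) (nat_lit 126))))))))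
noncomputable def xc103 : XT := (XT.nd (nat_lit 37830) (nat_lit 0) (nat_lit 76) (XT.nd (nat_lit 36582) (nat_lit 0) (nat_lit 1292) (XT.nd (nat_lit 35958) (nat_lit 0) (nat_lit 2584) (XT.nd (nat_lit 234) (nat_lit 0) (nat_lit 0) (XT.nd (nat_lit 78) (nat_lit 0) (nat_lit 0) (XT.lf (nat_lit 0) (nat_lit 141611512475) (nat_lit 76) (nat_lit 1273630554981) (nat_lit 76) (nat_lit 1036174427082) (nat_lit 3) (nat_lit 4) (nat_lit 4) (nat_lit 5) (nat_lit 4) (nat_lit 4) (nat_lit 359) (nat_lit 296) (nat_lit 125)) (XT.nd (nat_lit 78) (nat_lit 0) (nat_lit 0) (XT.lf (nat_lit 0) (nat_lit 390374800482) (nat_lit 76) (nat_lit 1242337560140) (nat_lit 76) (nat_lit 1004881398373) (nat_lit 3) (nat_lit 4) (nat_lit 4) (nat_lit 5) (nat_lit 4) (nat_lit 4) (nat_lit 360) (nat_lit 296) (nat_lit 124)) (XT.lf (nat_lit 0) (nat_lit 659039086308) (nat_lit 76) (nat_lit 1208541157077) (nat_lit 76) (nat_lit 971084963951) (nat_lit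 3) (nat_lit 4) (nat_lit 4) (nat_lit 5) (nat_lit 4) (nat_lit 4) (nat_lit 361) (nat_lit 296) (nat_lit 123)))) (XT.nd (nat_lit 35568) (nat_lit 0) (nat_lit 3116) (XT.nd (nat_lit 78) (nat_lit 0) (nat_lit 0) (XT.lf (nat_lit 0) (nat_lit 949196454610) (nat_lit 76) (nat_lit 1172041070811) (nat_lit 76) (nat_lit 934584848649) (nat_lit 3) (nat_lit 4) (nat_lit 4) (nat_lit 5) (nat_lit 4) (nat_lit 4) (nat_lit 362) (nat_lit 296) (nat_lit 122)) (XT.lf (nat_lit 0) (nat_lit 1262566356461) (nat_lit 76) (nat_lit 1132621004536) (nat_lit 76) (nat_lit 895164755488) (nat_lit 3) (nat_lit 4) (nat_lit 4) (nat_lit 5) (nat_lit 4) (nat_lit 4) (nat_lit 363) (nat_lit 296) (nat_lit 121))) (XT.nd (nat_lit 78) (nat_lit 0) (nat_lit 0) (XT.lf (nat_lit 0) (nat_lit 21022159013) (nat_lit 532) (nat_lit 7110924595) (nat_lit 532) (nat_lit 7110924595) (nat_lit 44) (nat_lit 3) (nat_lit 51) (nat_lit 3) (nat_lit 51) (nat_lit 5) (nat_lit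 297) (nat_lit 297) (nat_lit 186)) (XT.lf (nat_lit 76) (nat_lit 18691300479) (nat_lit 0) (nat_lit 25496323590) (nat_lit 532) (nat_lit 29082951087) (nat_lit 45) (nat_lit 5) (nat_lit 44) (nat_lit 3) (nat_lit 51) (nat_lit 5) (nat_lit 298) (nat_lit 297) (nat_lit 185))))) (XT.nd (nat_lit 312) (nat_lit 608) (nat_lit 0) (XT.nd (nat_lit 156) (nat_lit 0) (nat_lit 0) (XT.nd (nat_lit 78) (nat_lit 0) (nat_lit 0) (XT.lf (nat_lit 0) (nat_lit 47086169749) (nat_lit 456) (nat_lit 21395247892) (nat_lit 532) (nat_lit 7747622879) (nat_lit 45) (nat_lit 5) (nat_lit 51) (nat_lit 5) (nat_lit 52) (nat_lit 5) (nat_lit 299) (nat_lit 297) (nat_lit 184)) (XT.lf (nat_lit 76) (nat_lit 14506176682) (nat_lit 0) (nat_lit 36720422780) (nat_lit 532) (nat_lit 28116787256) (nat_lit 46) (nat_lit 5) (nat_lit 45) (nat_lit 5) (nat_lit 52) (nat_lit 5) (nat_lit 300) (nat_lit 297) (nat_lit 183))) (XT.nd (nat_lit 78) (nat_lit 0)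 (nat_lit 76) (XT.lf (nat_lit 76) (nat_lit 54495760768) (nat_lit 0) (nat_lit 1786436387) (nat_lit 532) (nat_lit 26377972133) (nat_lit 46) (nat_lit 5) (nat_lit 45) (nat_lit 5) (nat_lit 52) (nat_lit 5) (nat_lit 301) (nat_lit 297) (nat_lit 182)) (XT.lf (nat_lit 76) (nat_lit 11134017329) (nat_lit 0) (nat_lit 51739445900) (nat_lit 532) (nat_lit 23278336707) (nat_lit 47) (nat_lit 5) (nat_lit 46) (nat_lit 5) (nat_lit 53) (nat_lit 5) (nat_lit 302) (nat_lit 297) (nat_lit 181)))) (XT.nd (nat_lit 156) (nat_lit 304) (nat_lit 0) (XT.nd (nat_lit 78) (nat_lit 380) (nat_lit 0) (XT.lf (nat_lit 76) (nat_lit 55128470923) (nat_lit 0) (nat_lit 15677939270) (nat_lit 532) (nat_lit 19051203359) (nat_lit 47) (nat_lit 5) (nat_lit 46) (nat_lit 5) (nat_lit 53) (nat_lit 5) (nat_lit 303) (nat_lit 297) (nat_lit 180)) (XT.lf (nat_lit 0) (nat_lit 8655192271) (nat_lit 456) (nat_lit 71485725852) (nat_lit 532) (nat_lit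 13657622791) (nat_lit 41) (nat_lit 5) (nat_lit 47) (nat_lit 5) (nat_lit 48) (nat_lit 5) (nat_lit 304) (nat_lit 297) (nat_lit 179))) (XT.nd (nat_lit 78) (nat_lit 304) (nat_lit 0) (XT.lf (nat_lit 0) (nat_lit 57055951234) (nat_lit 456) (nat_lit 34511906043) (nat_lit 532) (nat_lit 6379234015) (nat_lit 41) (nat_lit 5) (nat_lit 47) (nat_lit 5) (nat_lit 48) (nat_lit 5) (nat_lit 305) (nat_lit 297) (nat_lit 178)) (XT.lf (nat_lit 0) (nat_lit 1716142879) (nat_lit 304) (nat_lit 95320236442) (nat_lit 76) (nat_lit 5363592319) (nat_lit 37) (nat_lit 5) (nat_lit 41) (nat_lit 5) (nat_lit 38) (nat_lit 5) (nat_lit 306) (nat_lit 297) (nat_lit 177)))))) (XT.nd (nat_lit 624) (nat_lit 532) (nat_lit 0) (XT.nd (nat_lit 312) (nat_lit 304) (nat_lit 0) (XT.nd (nat_lit 156) (nat_lit 228) (nat_lit 0) (XT.nd (nat_lit 78) (nat_lit 228) (nat_lit 0) (XT.lf (nat_lit 0) (nat_lit 12157276386) (nat_lit 304) (nat_lit 46997757160)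 (nat_lit 76) (nat_lit 47877373619) (nat_lit 37) (nat_lit 5) (nat_lit 41) (nat_lit 5) (nat_lit 38) (nat_lit 5) (nat_lit 307) (nat_lit 297) (nat_lit 176)) (XT.lf (nat_lit 0) (nat_lit 5463097416) (nat_lit 228) (nat_lit 18101325513) (nat_lit 304) (nat_lit 88460558632) (nat_lit 34) (nat_lit 5) (nat_lit 37) (nat_lit 5) (nat_lit 38) (nat_lit 5) (nat_lit 308) (nat_lit 297) (nat_lit 175))) (XT.nd (nat_lit 78) (nat_lit 228) (nat_lit 0) (XT.lf (nat_lit 0) (nat_lit 37832878574) (nat_lit 304) (nat_lit 53185648971) (nat_lit 76) (nat_lit 26242537058) (nat_lit 34) (nat_lit 5) (nat_lit 38) (nat_lit 5) (nat_lit 35) (nat_lit 5) (nat_lit 309) (nat_lit 297) (nat_lit 174)) (XT.lf (nat_lit 0) (nat_lit 4199931028) (nat_lit 228) (nat_lit 49613465319) (nat_lit 304) (nat_lit 69056992646) (nat_lit 31) (nat_lit 5) (nat_lit 34) (nat_lit 5) (nat_lit 35) (nat_lit 5) (nat_lit 310) (nat_lit 297) (nat_lit 173)))) (XT.nd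 (nat_lit 156) (nat_lit 152) (nat_lit 0) (XT.nd (nat_lit 78) (nat_lit 152) (nat_lit 0) (XT.lf (nat_lit 0) (nat_lit 69200402560) (nat_lit 228) (nat_lit 3325583192) (nat_lit 304) (nat_lit 56286184609) (nat_lit 31) (nat_lit 5) (nat_lit 34) (nat_lit 5) (nat_lit 35) (nat_lit 5) (nat_lit 311) (nat_lit 297) (nat_lit 172)) (XT.lf (nat_lit 0) (nat_lit 3209191456) (nat_lit 152) (nat_lit 90725353599) (nat_lit 228) (nat_lit 41198833501) (nat_lit 29) (nat_lit 5) (nat_lit 31) (nat_lit 5) (nat_lit 32) (nat_lit 5) (nat_lit 312) (nat_lit 297) (nat_lit 171))) (XT.nd (nat_lit 78) (nat_lit 152) (nat_lit 0) (XT.lf (nat_lit 0) (nat_lit 74354430322) (nat_lit 152) (nat_lit 44414944535) (nat_lit 228) (nat_lit 23053822927) (nat_lit 29) (nat_lit 5) (nat_lit 31) (nat_lit 5) (nat_lit 32) (nat_lit 5) (nat_lit 313) (nat_lit 297) (nat_lit 170)) (XT.lf (nat_lit 0) (nat_lit 2113493038) (nat_lit 152) (nat_lit 143662550851)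 (nat_lit 228) (nat_lit 3257355578) (nat_lit 27) (nat_lit 5) (nat_lit 29) (nat_lit 5) (nat_lit 30) (nat_lit 5) (nat_lit 314) (nat_lit 297) (nat_lit 169))))) (XT.nd (nat_lit 312) (nat_lit 304) (nat_lit 0) (XT.nd (nat_lit 156) (nat_lit 152) (nat_lit 0) (XT.nd (nat_lit 78) (nat_lit 0) (nat_lit 0) (XT.lf (nat_lit 0) (nat_lit 20262060162) (nat_lit 228) (nat_lit 77211541139) (nat_lit 76) (nat_lit 59068283944) (nat_lit 26) (nat_lit 5) (nat_lit 29) (nat_lit 5) (nat_lit 27) (nat_lit 5) (nat_lit 315) (nat_lit 297) (nat_lit 168)) (XT.lf (nat_lit 0) (nat_lit 45486624237) (nat_lit 228) (nat_lit 2011705837) (nat_lit 76) (nat_lit 117145986038) (nat_lit 26) (nat_lit 5) (nat_lit 29) (nat_lit 5) (nat_lit 27) (nat_lit 5) (nat_lit 316) (nat_lit 297) (nat_lit 167))) (XT.nd (nat_lit 78) (nat_lit 0) (nat_lit 0) (XT.lf (nat_lit 0) (nat_lit 74941716425) (nat_lit 228) (nat_lit 90068075378) (nat_lit 76) (nat_lit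 8208145449) (nat_lit 24) (nat_lit 5) (nat_lit 27) (nat_lit 5) (nat_lit 25) (nat_lit 5) (nat_lit 317) (nat_lit 297) (nat_lit 166)) (XT.lf (nat_lit 0) (nat_lit 108042991670) (nat_lit 228) (nat_lit 8469998613) (nat_lit 76) (nat_lit 65861276527) (nat_lit 24) (nat_lit 5) (nat_lit 27) (nat_lit 5) (nat_lit 25) (nat_lit 5) (nat_lit 318) (nat_lit 297) (nat_lit 165)))) (XT.nd (nat_lit 156) (nat_lit 152) (nat_lit 0) (XT.nd (nat_lit 78) (nat_lit 0) (nat_lit 0) (XT.lf (nat_lit 0) (nat_lit 83849916536) (nat_lit 152) (nat_lit 61958693570) (nat_lit 228) (nat_lit 46293194053) (nat_lit 22) (nat_lit 5) (nat_lit 24) (nat_lit 5) (nat_lit 25) (nat_lit 5) (nat_lit 319) (nat_lit 297) (nat_lit 164)) (XT.lf (nat_lit 0) (nat_lit 184036614218) (nat_lit 152) (nat_lit 2790111068) (nat_lit 228) (nat_lit 15762320100) (nat_lit 22) (nat_lit 5) (nat_lit 24) (nat_lit 5) (nat_lit 25) (nat_lit 5) (nat_lit 320) (nat_lit 297)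 (nat_lit 163))) (XT.nd (nat_lit 78) (nat_lit 0) (nat_lit 0) (XT.lf (nat_lit 0) (nat_lit 19853828035) (nat_lit 152) (nat_lit 133245013851) (nat_lit 76) (nat_lit 60503009002) (nat_lit 20) (nat_lit 5) (nat_lit 22) (nat_lit 5) (nat_lit 21) (nat_lit 5) (nat_lit 321) (nat_lit 297) (nat_lit 162)) (XT.lf (nat_lit 0) (nat_lit 58060282760) (nat_lit 152) (nat_lit 37716713104) (nat_lit 76) (nat_lit 129638525472) (nat_lit 20) (nat_lit 5) (nat_lit 22) (nat_lit 5) (nat_lit 21) (nat_lit 5) (nat_lit 322) (nat_lit 297) (nat_lit 161))))))) (XT.nd (nat_lit 1170) (nat_lit 456) (nat_lit 0) (XT.nd (nat_lit 546) (nat_lit 304) (nat_lit 0) (XT.nd (nat_lit 234) (nat_lit 228) (nat_lit 0) (XT.nd (nat_lit 78) (nat_lit 76) (nat_lit 0) (XT.lf (nat_lit 0) (nat_lit 68900052230) (nat_lit 152) (nat_lit 32079959897) (nat_lit 228) (nat_lit 137061733120) (nat_lit 18) (nat_lit 5) (nat_lit 20) (nat_lit 5) (nat_lit 21) (nat_lit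 5) (nat_lit 323) (nat_lit 297) (nat_lit 160)) (XT.nd (nat_lit 78) (nat_lit 76) (nat_lit 0) (XT.lf (nat_lit 0) (nat_lit 149274008775) (nat_lit 228) (nat_lit 66314622430) (nat_lit 76) (nat_lit 35934181209) (nat_lit 18) (nat_lit 5) (nat_lit 21) (nat_lit 5) (nat_lit 19) (nat_lit 4) (nat_lit 324) (nat_lit 297) (nat_lit 159)) (XT.lf (nat_lit 0) (nat_lit 46216892546) (nat_lit 76) (nat_lit 157159133652) (nat_lit 152) (nat_lit 62550779094) (nat_lit 17) (nat_lit 5) (nat_lit 18) (nat_lit 5) (nat_lit 19) (nat_lit 4) (nat_lit 325) (nat_lit 297) (nat_lit 158)))) (XT.nd (nat_lit 156) (nat_lit 0) (nat_lit 0) (XT.nd (nat_lit 78) (nat_lit 228) (nat_lit 0) (XT.lf (nat_lit 0) (nat_lit 171521879298) (nat_lit 76) (nat_lit 92097232261) (nat_lit 152) (nat_lit 17718973907) (nat_lit 17) (nat_lit 5) (nat_lit 18) (nat_lit 5) (nat_lit 19) (nat_lit 4) (nat_lit 326) (nat_lit 297) (nat_lit 157)) (XT.lf (nat_lit 0)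 (nat_lit 8558399422) (nat_lit 152) (nat_lit 20810858425) (nat_lit 228) (nat_lit 268537497743) (nat_lit 14) (nat_lit 5) (nat_lit 16) (nat_lit 5) (nat_lit 17) (nat_lit 5) (nat_lit 327) (nat_lit 297) (nat_lit 156))) (XT.nd (nat_lit 78) (nat_lit 0) (nat_lit 0) (XT.lf (nat_lit 0) (nat_lit 83698678377) (nat_lit 228) (nat_lit 174802117148) (nat_lit 76) (nat_lit 56908792257) (nat_lit 14) (nat_lit 5) (nat_lit 17) (nat_lit 5) (nat_lit 15) (nat_lit 4) (nat_lit 328) (nat_lit 297) (nat_lit 155)) (XT.lf (nat_lit 0) (nat_lit 142914775868) (nat_lit 228) (nat_lit 51633098022) (nat_lit 76) (nat_lit 139721547081) (nat_lit 14) (nat_lit 5) (nat_lit 17) (nat_lit 5) (nat_lit 15) (nat_lit 4) (nat_lit 329) (nat_lit 297) (nat_lit 154))))) (XT.nd (nat_lit 312) (nat_lit 76) (nat_lit 0) (XT.nd (nat_lit 156) (nat_lit 152) (nat_lit 0) (XT.nd (nat_lit 78) (nat_lit 0) (nat_lit 0) (XT.lf (nat_lit 0) (nat_lit 85674898759)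 (nat_lit 76) (nat_lit 123253543500) (nat_lit 152) (nat_lit 145544776334) (nat_lit 13) (nat_lit 5) (nat_lit 14) (nat_lit 5) (nat_lit 15) (nat_lit 4) (nat_lit 330) (nat_lit 297) (nat_lit 153)) (XT.lf (nat_lit 0) (nat_lit 236903614867) (nat_lit 76) (nat_lit 44731132016) (nat_lit 152) (nat_lit 94545649793) (nat_lit 13) (nat_lit 5) (nat_lit 14) (nat_lit 5) (nat_lit 15) (nat_lit 4) (nat_lit 331) (nat_lit 297) (nat_lit 152))) (XT.nd (nat_lit 78) (nat_lit 152) (nat_lit 0) (XT.lf (nat_lit 0) (nat_lit 361121130004) (nat_lit 152) (nat_lit 357605810) (nat_lit 0) (nat_lit 38068327489) (nat_lit 13) (nat_lit 5) (nat_lit 15) (nat_lit 4) (nat_lit 13) (nat_lit 4) (nat_lit 332) (nat_lit 297) (nat_lit 151)) (XT.lf (nat_lit 0) (nat_lit 26122988537) (nat_lit 152) (nat_lit 268717301914) (nat_lit 76) (nat_lit 129496145812) (nat_lit 11) (nat_lit 5) (nat_lit 13) (nat_lit 5) (nat_lit 12) (nat_lit 4) (nat_lit 333)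 (nat_lit 297) (nat_lit 150)))) (XT.nd (nat_lit 156) (nat_lit 0) (nat_lit 0) (XT.nd (nat_lit 78) (nat_lit 76) (nat_lit 0) (XT.lf (nat_lit 0) (nat_lit 93769687678) (nat_lit 152) (nat_lit 128012459883) (nat_lit 76) (nat_lit 229246176622) (nat_lit 11) (nat_lit 5) (nat_lit 13) (nat_lit 5) (nat_lit 12) (nat_lit 4) (nat_lit 334) (nat_lit 297) (nat_lit 149)) (XT.lf (nat_lit 0) (nat_lit 25209573005) (nat_lit 76) (nat_lit 142224683628) (nat_lit 152) (nat_lit 312372815959) (nat_lit 10) (nat_lit 5) (nat_lit 11) (nat_lit 5) (nat_lit 12) (nat_lit 4) (nat_lit 335) (nat_lit 297) (nat_lit 148))) (XT.nd (nat_lit 78) (nat_lit 0) (nat_lit 0) (XT.lf (nat_lit 0) (nat_lit 197969276228) (nat_lit 76) (nat_lit 52522650463) (nat_lit 152) (nat_lit 260116199491) (nat_lit 10) (nat_lit 5) (nat_lit 11) (nat_lit 5) (nat_lit 12) (nat_lit 4) (nat_lit 336) (nat_lit 297) (nat_lit 147)) (XT.lf (nat_lit 0) (nat_lit 341260818892)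 (nat_lit 152) (nat_lit 160390522955) (nat_lit 0) (nat_lit 42136593674) (nat_lit 10) (nat_lit 5) (nat_lit 12) (nat_lit 4) (nat_lit 10) (nat_lit 4) (nat_lit 337) (nat_lit 297) (nat_lit 146)))))) (XT.nd (nat_lit 624) (nat_lit 228) (nat_lit 0) (XT.nd (nat_lit 312) (nat_lit 76) (nat_lit 0) (XT.nd (nat_lit 156) (nat_lit 76) (nat_lit 0) (XT.nd (nat_lit 78) (nat_lit 0) (nat_lit 0) (XT.lf (nat_lit 0) (nat_lit 2813968399) (nat_lit 76) (nat_lit 437909021989) (nat_lit 76) (nat_lit 138784597917) (nat_lit 9) (nat_lit 4) (nat_lit 10) (nat_lit 5) (nat_lit 10) (nat_lit 4) (nat_lit 338) (nat_lit 297) (nat_lit 145)) (XT.lf (nat_lit 0) (nat_lit 188196133164) (nat_lit 76) (nat_lit 364331234934) (nat_lit 76) (nat_lit 65206626738) (nat_lit 9) (nat_lit 4) (nat_lit 10) (nat_lit 5) (nat_lit 10) (nat_lit 4) (nat_lit 339) (nat_lit 297) (nat_lit 144))) (XT.nd (nat_lit 78) (nat_lit 0) (nat_lit 0) (XT.lf (nat_lit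 0) (nat_lit 13544237820) (nat_lit 152) (nat_lit 270952764015) (nat_lit 76) (nat_lit 374494090329) (nat_lit 8) (nat_lit 5) (nat_lit 10) (nat_lit 5) (nat_lit 9) (nat_lit 4) (nat_lit 340) (nat_lit 297) (nat_lit 143)) (XT.lf (nat_lit 0) (nat_lit 95072206767) (nat_lit 152) (nat_lit 101374746462) (nat_lit 76) (nat_lit 506966318919) (nat_lit 8) (nat_lit 5) (nat_lit 10) (nat_lit 5) (nat_lit 9) (nat_lit 4) (nat_lit 341) (nat_lit 297) (nat_lit 142)))) (XT.nd (nat_lit 156) (nat_lit 0) (nat_lit 0) (XT.nd (nat_lit 78) (nat_lit 0) (nat_lit 0) (XT.lf (nat_lit 0) (nat_lit 86075146115) (nat_lit 76) (nat_lit 99117271585) (nat_lit 152) (nat_lit 566031208562) (nat_lit 7) (nat_lit 5) (nat_lit 8) (nat_lit 5) (nat_lit 9) (nat_lit 4) (nat_lit 342) (nat_lit 297) (nat_lit 141)) (XT.lf (nat_lit 0) (nat_lit 285510171806) (nat_lit 152) (nat_lit 508567225554) (nat_lit 0) (nat_lit 8542377325) (nat_lit 7) (nat_lit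 5) (nat_lit 9) (nat_lit 4) (nat_lit 7) (nat_lit 4) (nat_lit 343) (nat_lit 297) (nat_lit 140))) (XT.nd (nat_lit 78) (nat_lit 0) (nat_lit 0) (XT.lf (nat_lit 0) (nat_lit 396427724774) (nat_lit 152) (nat_lit 342034125740) (nat_lit 0) (nat_lit 119459814264) (nat_lit 7) (nat_lit 5) (nat_lit 9) (nat_lit 4) (nat_lit 7) (nat_lit 4) (nat_lit 344) (nat_lit 297) (nat_lit 139)) (XT.lf (nat_lit 0) (nat_lit 516218593040) (nat_lit 152) (nat_lit 162178545127) (nat_lit 0) (nat_lit 239250575096) (nat_lit 7) (nat_lit 5) (nat_lit 9) (nat_lit 4) (nat_lit 7) (nat_lit 4) (nat_lit 345) (nat_lit 297) (nat_lit 138))))) (XT.nd (nat_lit 312) (nat_lit 152) (nat_lit 0) (XT.nd (nat_lit 156) (nat_lit 0) (nat_lit 0) (XT.nd (nat_lit 78) (nat_lit 0) (nat_lit 0) (XT.lf (nat_lit 0) (nat_lit 33753830433) (nat_lit 76) (nat_lit 612650598418) (nat_lit 76) (nat_lit 335682480997) (nat_lit 6) (nat_lit 4) (nat_lit 7) (nat_lit 5)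 (nat_lit 7) (nat_lit 4) (nat_lit 346) (nat_lit 297) (nat_lit 137)) (XT.lf (nat_lit 0) (nat_lit 254583882721) (nat_lit 76) (nat_lit 536855417757) (nat_lit 76) (nat_lit 259887208228) (nat_lit 6) (nat_lit 4) (nat_lit 7) (nat_lit 5) (nat_lit 7) (nat_lit 4) (nat_lit 347) (nat_lit 297) (nat_lit 136))) (XT.nd (nat_lit 78) (nat_lit 0) (nat_lit 0) (XT.lf (nat_lit 0) (nat_lit 493080199486) (nat_lit 76) (nat_lit 454996688387) (nat_lit 76) (nat_lit 178028393573) (nat_lit 6) (nat_lit 4) (nat_lit 7) (nat_lit 5) (nat_lit 7) (nat_lit 4) (nat_lit 348) (nat_lit 297) (nat_lit 135)) (XT.lf (nat_lit 0) (nat_lit 750656092234) (nat_lit 76) (nat_lit 366589321542) (nat_lit 76) (nat_lit 89620947760) (nat_lit 6) (nat_lit 4) (nat_lit 7) (nat_lit 5) (nat_lit 7) (nat_lit 4) (nat_lit 349) (nat_lit 297) (nat_lit 134)))) (XT.nd (nat_lit 156) (nat_lit 76) (nat_lit 0) (XT.nd (nat_lit 78) (nat_lit 0) (nat_lit 0) (XT.lf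 (nat_lit 0) (nat_lit 5565933015) (nat_lit 152) (nat_lit 265391306227) (nat_lit 76) (nat_lit 1023119821138) (nat_lit 5) (nat_lit 5) (nat_lit 7) (nat_lit 5) (nat_lit 6) (nat_lit 4) (nat_lit 350) (nat_lit 297) (nat_lit 133)) (XT.lf (nat_lit 0) (nat_lit 103525844977) (nat_lit 152) (nat_lit 61634757049) (nat_lit 76) (nat_lit 1222917792624) (nat_lit 5) (nat_lit 5) (nat_lit 7) (nat_lit 5) (nat_lit 6) (nat_lit 4) (nat_lit 351) (nat_lit 297) (nat_lit 132))) (XT.nd (nat_lit 78) (nat_lit 0) (nat_lit 0) (XT.lf (nat_lit 0) (nat_lit 166764443247) (nat_lit 76) (nat_lit 46568739703) (nat_lit 152) (nat_lit 1275945802106) (nat_lit 4) (nat_lit 5) (nat_lit 5) (nat_lit 5) (nat_lit 6) (nat_lit 4) (nat_lit 352) (nat_lit 297) (nat_lit 131)) (XT.lf (nat_lit 0) (nat_lit 335614356433) (nat_lit 152) (nat_lit 1183504210108) (nat_lit 0) (nat_lit 79161916310) (nat_lit 4) (nat_lit 5) (nat_lit 6) (nat_lit 4) (nat_lit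 4) (nat_lit 4) (nat_lit 353) (nat_lit 297) (nat_lit 130))))))))
noncomputable def xc104 : XT := (XT.nd (nat_lit 37830) (nat_lit 0) (nat_lit 228) (XT.nd (nat_lit 36660) (nat_lit 0) (nat_lit 1748) (XT.nd (nat_lit 546) (nat_lit 0) (nat_lit 0) (XT.nd (nat_lit 234) (nat_lit 76) (nat_lit 0) (XT.nd (nat_lit 78) (nat_lit 0) (nat_lit 0) (XT.lf (nat_lit 0) (nat_lit 468887550216) (nat_lit 152) (nat_lit 1034582727845) (nat_lit 0) (nat_lit 212435060330) (nat_lit 4) (nat_lit 5) (nat_lit 6) (nat_lit 4) (nat_lit 4) (nat_lit 4) (nat_lit 354) (nat_lit 297) (nat_lit 129)) (XT.nd (nat_lit 78) (nat_lit 0) (nat_lit 0) (XT.lf (nat_lit 0) (nat_lit 612822552062) (nat_lit 152) (nat_lit 873747618038) (nat_lit 0) (nat_lit 356370016099) (nat_lit 4) (nat_lit 5) (nat_lit 6) (nat_lit 4) (nat_lit 4) (nat_lit 4) (nat_lit 355) (nat_lit 297) (nat_lit 128)) (XT.lf (nat_lit 0) (nat_lit 768272310131) (nat_lit 152) (nat_lit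 700045783740) (nat_lit 0) (nat_lit 511819731504) (nat_lit 4) (nat_lit 5) (nat_lit 6) (nat_lit 4) (nat_lit 4) (nat_lit 4) (nat_lit 356) (nat_lit 297) (nat_lit 127)))) (XT.nd (nat_lit 156) (nat_lit 76) (nat_lit 0) (XT.nd (nat_lit 78) (nat_lit 0) (nat_lit 0) (XT.lf (nat_lit 0) (nat_lit 936158008174) (nat_lit 152) (nat_lit 512447880747) (nat_lit 0) (nat_lit 679705390043) (nat_lit 4) (nat_lit 5) (nat_lit 6) (nat_lit 4) (nat_lit 4) (nat_lit 4) (nat_lit 357) (nat_lit 297) (nat_lit 126)) (XT.lf (nat_lit 0) (nat_lit 1117474524402) (nat_lit 152) (nat_lit 309842217783) (nat_lit 0) (nat_lit 861021869694) (nat_lit 4) (nat_lit 5) (nat_lit 6) (nat_lit 4) (nat_lit 4) (nat_lit 4) (nat_lit 358) (nat_lit 297) (nat_lit 125))) (XT.nd (nat_lit 78) (nat_lit 76) (nat_lit 0) (XT.lf (nat_lit 0) (nat_lit 1313296327059) (nat_lit 152) (nat_lit 91028168697) (nat_lit 0) (nat_lit 1056843638483) (nat_lit 4) (nat_lit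 5) (nat_lit 6) (nat_lit 4) (nat_lit 4) (nat_lit 4) (nat_lit 359) (nat_lit 297) (nat_lit 124)) (XT.lf (nat_lit 0) (nat_lit 152941705905) (nat_lit 76) (nat_lit 1375520387442) (nat_lit 76) (nat_lit 1119067667507) (nat_lit 3) (nat_lit 4) (nat_lit 4) (nat_lit 5) (nat_lit 4) (nat_lit 4) (nat_lit 360) (nat_lit 297) (nat_lit 123))))) (XT.nd (nat_lit 35802) (nat_lit 0) (nat_lit 3116) (XT.nd (nat_lit 156) (nat_lit 0) (nat_lit 0) (XT.nd (nat_lit 78) (nat_lit 0) (nat_lit 0) (XT.lf (nat_lit 0) (nat_lit 421605962697) (nat_lit 76) (nat_lit 1341723998342) (nat_lit 76) (nat_lit 1085271249371) (nat_lit 3) (nat_lit 4) (nat_lit 4) (nat_lit 5) (nat_lit 4) (nat_lit 4) (nat_lit 361) (nat_lit 297) (nat_lit 122)) (XT.lf (nat_lit 0) (nat_lit 711763304117) (nat_lit 76) (nat_lit 1305223925005) (nat_lit 76) (nat_lit 1048771149148) (nat_lit 3) (nat_lit 4) (nat_lit 4) (nat_lit 5) (nat_lit 4) (nat_lit 4) (nat_lit 362)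 (nat_lit 297) (nat_lit 121))) (XT.nd (nat_lit 35568) (nat_lit 0) (nat_lit 3116) (XT.lf (nat_lit 0) (nat_lit 1025133181076) (nat_lit 76) (nat_lit 1265803870701) (nat_lit 76) (nat_lit 1009351069950) (nat_lit 3) (nat_lit 4) (nat_lit 4) (nat_lit 5) (nat_lit 4) (nat_lit 4) (nat_lit 363) (nat_lit 297) (nat_lit 120)) (XT.lf (nat_lit 0) (nat_lit 22715650060) (nat_lit 532) (nat_lit 7673451518) (nat_lit 532) (nat_lit 7673451518) (nat_lit 44) (nat_lit 3) (nat_lit 51) (nat_lit 3) (nat_lit 51) (nat_lit 5) (nat_lit 298) (nat_lit 298) (nat_lit 184)))) (XT.nd (nat_lit 156) (nat_lit 0) (nat_lit 76) (XT.nd (nat_lit 78) (nat_lit 0) (nat_lit 76) (XT.lf (nat_lit 76) (nat_lit 20198977237) (nat_lit 0) (nat_lit 27545654925) (nat_lit 532) (nat_lit 31385758233) (nat_lit 45) (nat_lit 5) (nat_lit 44) (nat_lit 3) (nat_lit 51) (nat_lit 5) (nat_lit 299) (nat_lit 298) (nat_lit 183)) (XT.lf (nat_lit 0) (nat_lit 50873217658)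 (nat_lit 456) (nat_lit 23093501996) (nat_lit 532) (nat_lit 8358966095) (nat_lit 45) (nat_lit 5) (nat_lit 51) (nat_lit 5) (nat_lit 52) (nat_lit 5) (nat_lit 300) (nat_lit 298) (nat_lit 182))) (XT.nd (nat_lit 78) (nat_lit 0) (nat_lit 0) (XT.lf (nat_lit 76) (nat_lit 15679698171) (nat_lit 0) (nat_lit 39664003972) (nat_lit 532) (nat_lit 30345576732) (nat_lit 46) (nat_lit 5) (nat_lit 45) (nat_lit 5) (nat_lit 52) (nat_lit 5) (nat_lit 301) (nat_lit 298) (nat_lit 181)) (XT.lf (nat_lit 76) (nat_lit 58867483995) (nat_lit 0) (nat_lit 1934858121) (nat_lit 532) (nat_lit 28469178881) (nat_lit 46) (nat_lit 5) (nat_lit 45) (nat_lit 5) (nat_lit 52) (nat_lit 5) (nat_lit 302) (nat_lit 298) (nat_lit 180)))))) (XT.nd (nat_lit 546) (nat_lit 608) (nat_lit 0) (XT.nd (nat_lit 234) (nat_lit 532) (nat_lit 0) (XT.nd (nat_lit 78) (nat_lit 380) (nat_lit 0) (XT.lf (nat_lit 76) (nat_lit 12038049616) (nat_lit 0) (nat_lit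 55881755937) (nat_lit 532) (nat_lit 25122769028) (nat_lit 47) (nat_lit 5) (nat_lit 46) (nat_lit 5) (nat_lit 53) (nat_lit 5) (nat_lit 303) (nat_lit 298) (nat_lit 179)) (XT.nd (nat_lit 78) (nat_lit 380) (nat_lit 0) (XT.lf (nat_lit 76) (nat_lit 59551073505) (nat_lit 0) (nat_lit 16935095120) (nat_lit 532) (nat_lit 20558786095) (nat_lit 47) (nat_lit 5) (nat_lit 46) (nat_lit 5) (nat_lit 53) (nat_lit 5) (nat_lit 304) (nat_lit 298) (nat_lit 178)) (XT.lf (nat_lit 0) (nat_lit 9360924821) (nat_lit 456) (nat_lit 77205638302) (nat_lit 532) (nat_lit 14734666649) (nat_lit 41) (nat_lit 5) (nat_lit 47) (nat_lit 5) (nat_lit 48) (nat_lit 5) (nat_lit 305) (nat_lit 298) (nat_lit 177)))) (XT.nd (nat_lit 156) (nat_lit 228) (nat_lit 0) (XT.nd (nat_lit 78) (nat_lit 304) (nat_lit 0) (XT.lf (nat_lit 0) (nat_lit 61632758043) (nat_lit 456) (nat_lit 37273834806) (nat_lit 532) (nat_lit 6875159806) (nat_lit 41) (nat_lit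 5) (nat_lit 47) (nat_lit 5) (nat_lit 48) (nat_lit 5) (nat_lit 306) (nat_lit 298) (nat_lit 176)) (XT.lf (nat_lit 0) (nat_lit 1866413441) (nat_lit 304) (nat_lit 102932017053) (nat_lit 76) (nat_lit 5792465068) (nat_lit 37) (nat_lit 5) (nat_lit 41) (nat_lit 5) (nat_lit 38) (nat_lit 5) (nat_lit 307) (nat_lit 298) (nat_lit 175))) (XT.nd (nat_lit 78) (nat_lit 228) (nat_lit 0) (XT.lf (nat_lit 0) (nat_lit 13141876211) (nat_lit 304) (nat_lit 50744764488) (nat_lit 76) (nat_lit 51707364771) (nat_lit 37) (nat_lit 5) (nat_lit 41) (nat_lit 5) (nat_lit 38) (nat_lit 5) (nat_lit 308) (nat_lit 298) (nat_lit 174)) (XT.lf (nat_lit 0) (nat_lit 5912634067) (nat_lit 228) (nat_lit 19548370566) (nat_lit 304) (nat_lit 95525030806) (nat_lit 34) (nat_lit 5) (nat_lit 37) (nat_lit 5) (nat_lit 38) (nat_lit 5) (nat_lit 309) (nat_lit 298) (nat_lit 173))))) (XT.nd (nat_lit 312) (nat_lit 228) (nat_lit 0) (XT.nd (nat_lit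 156) (nat_lit 152) (nat_lit 0) (XT.nd (nat_lit 78) (nat_lit 228) (nat_lit 0) (XT.lf (nat_lit 0) (nat_lit 40870113848) (nat_lit 304) (nat_lit 57428086085) (nat_lit 76) (nat_lit 28342873276) (nat_lit 34) (nat_lit 5) (nat_lit 38) (nat_lit 5) (nat_lit 35) (nat_lit 5) (nat_lit 310) (nat_lit 298) (nat_lit 172)) (XT.lf (nat_lit 0) (nat_lit 4548026015) (nat_lit 228) (nat_lit 53580552491) (nat_lit 304) (nat_lit 74570606692) (nat_lit 31) (nat_lit 5) (nat_lit 34) (nat_lit 5) (nat_lit 35) (nat_lit 5) (nat_lit 311) (nat_lit 298) (nat_lit 171))) (XT.nd (nat_lit 78) (nat_lit 152) (nat_lit 0) (XT.lf (nat_lit 0) (nat_lit 74747638936) (nat_lit 228) (nat_lit 3589787205) (nat_lit 304) (nat_lit 60778944781) (nat_lit 31) (nat_lit 5) (nat_lit 34) (nat_lit 5) (nat_lit 35) (nat_lit 5) (nat_lit 312) (nat_lit 298) (nat_lit 170)) (XT.lf (nat_lit 0) (nat_lit 3477557597) (nat_lit 152) (nat_lit 97980739899) (nat_lit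 228) (nat_lit 44485009880) (nat_lit 29) (nat_lit 5) (nat_lit 31) (nat_lit 5) (nat_lit 32) (nat_lit 5) (nat_lit 313) (nat_lit 298) (nat_lit 169)))) (XT.nd (nat_lit 156) (nat_lit 76) (nat_lit 0) (XT.nd (nat_lit 78) (nat_lit 152) (nat_lit 0) (XT.lf (nat_lit 0) (nat_lit 80313554029) (nat_lit 152) (nat_lit 47965693813) (nat_lit 228) (nat_lit 24889119223) (nat_lit 29) (nat_lit 5) (nat_lit 31) (nat_lit 5) (nat_lit 32) (nat_lit 5) (nat_lit 314) (nat_lit 298) (nat_lit 168)) (XT.lf (nat_lit 0) (nat_lit 2293680939) (nat_lit 152) (nat_lit 155152474574) (nat_lit 228) (nat_lit 3509254495) (nat_lit 27) (nat_lit 5) (nat_lit 29) (nat_lit 5) (nat_lit 30) (nat_lit 5) (nat_lit 315) (nat_lit 298) (nat_lit 167))) (XT.nd (nat_lit 78) (nat_lit 0) (nat_lit 0) (XT.lf (nat_lit 0) (nat_lit 21890668348) (nat_lit 228) (nat_lit 83377759901) (nat_lit 76) (nat_lit 63796179911) (nat_lit 26) (nat_lit 5) (nat_lit 29) (nat_lit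 5) (nat_lit 27) (nat_lit 5) (nat_lit 316) (nat_lit 298) (nat_lit 166)) (XT.lf (nat_lit 0) (nat_lit 49132631374) (nat_lit 228) (nat_lit 2162730703) (nat_lit 76) (nat_lit 126519917932) (nat_lit 26) (nat_lit 5) (nat_lit 29) (nat_lit 5) (nat_lit 27) (nat_lit 5) (nat_lit 317) (nat_lit 298) (nat_lit 165))))))) (XT.nd (nat_lit 1170) (nat_lit 532) (nat_lit 0) (XT.nd (nat_lit 546) (nat_lit 380) (nat_lit 0) (XT.nd (nat_lit 234) (nat_lit 304) (nat_lit 0) (XT.nd (nat_lit 78) (nat_lit 152) (nat_lit 0) (XT.lf (nat_lit 0) (nat_lit 80943908192) (nat_lit 228) (nat_lit 97263372975) (nat_lit 76) (nat_lit 8867528621) (nat_lit 24) (nat_lit 5) (nat_lit 27) (nat_lit 5) (nat_lit 25) (nat_lit 5) (nat_lit 318) (nat_lit 298) (nat_lit 164)) (XT.nd (nat_lit 78) (nat_lit 152) (nat_lit 0) (XT.lf (nat_lit 0) (nat_lit 116692777720) (nat_lit 228) (nat_lit 9138201803) (nat_lit 76) (nat_lit 71132707849) (nat_lit 24) (nat_lit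 5) (nat_lit 27) (nat_lit 5) (nat_lit 25) (nat_lit 5) (nat_lit 319) (nat_lit 298) (nat_lit 163)) (XT.lf (nat_lit 0) (nat_lit 90567068667) (nat_lit 152) (nat_lit 66912327107) (nat_lit 228) (nat_lit 49990052891) (nat_lit 22) (nat_lit 5) (nat_lit 24) (nat_lit 5) (nat_lit 25) (nat_lit 5) (nat_lit 320) (nat_lit 298) (nat_lit 162)))) (XT.nd (nat_lit 156) (nat_lit 152) (nat_lit 0) (XT.nd (nat_lit 78) (nat_lit 152) (nat_lit 0) (XT.lf (nat_lit 0) (nat_lit 198768023732) (nat_lit 152) (nat_lit 3010484815) (nat_lit 228) (nat_lit 17017197665) (nat_lit 22) (nat_lit 5) (nat_lit 24) (nat_lit 5) (nat_lit 25) (nat_lit 5) (nat_lit 321) (nat_lit 298) (nat_lit 161)) (XT.lf (nat_lit 0) (nat_lit 21447785175) (nat_lit 152) (nat_lit 143895657492) (nat_lit 76) (nat_lit 65346094632) (nat_lit 20) (nat_lit 5) (nat_lit 22) (nat_lit 5) (nat_lit 21) (nat_lit 5) (nat_lit 322) (nat_lit 298) (nat_lit 160))) (XT.nd (nat_lit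 78) (nat_lit 152) (nat_lit 0) (XT.lf (nat_lit 0) (nat_lit 62710337693) (nat_lit 152) (nat_lit 40725756201) (nat_lit 76) (nat_lit 140012241684) (nat_lit 20) (nat_lit 5) (nat_lit 22) (nat_lit 5) (nat_lit 21) (nat_lit 5) (nat_lit 323) (nat_lit 298) (nat_lit 159)) (XT.lf (nat_lit 0) (nat_lit 74420140386) (nat_lit 152) (nat_lit 34643311866) (nat_lit 228) (nat_lit 148021221263) (nat_lit 18) (nat_lit 5) (nat_lit 20) (nat_lit 5) (nat_lit 21) (nat_lit 5) (nat_lit 324) (nat_lit 298) (nat_lit 158))))) (XT.nd (nat_lit 312) (nat_lit 76) (nat_lit 0) (XT.nd (nat_lit 156) (nat_lit 228) (nat_lit 0) (XT.nd (nat_lit 78) (nat_lit 76) (nat_lit 0) (XT.lf (nat_lit 0) (nat_lit 161220663164) (nat_lit 228) (nat_lit 71611993982) (nat_lit 76) (nat_lit 38811593954) (nat_lit 18) (nat_lit 5) (nat_lit 21) (nat_lit 5) (nat_lit 19) (nat_lit 4) (nat_lit 325) (nat_lit 298) (nat_lit 157)) (XT.lf (nat_lit 0) (nat_lit 49921844769)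 (nat_lit 76) (nat_lit 169728829369) (nat_lit 152) (nat_lit 67549903263) (nat_lit 17) (nat_lit 5) (nat_lit 18) (nat_lit 5) (nat_lit 19) (nat_lit 4) (nat_lit 326) (nat_lit 298) (nat_lit 156))) (XT.nd (nat_lit 78) (nat_lit 228) (nat_lit 0) (XT.lf (nat_lit 0) (nat_lit 185250667438) (nat_lit 76) (nat_lit 99462200679) (nat_lit 152) (nat_lit 19131919451) (nat_lit 17) (nat_lit 5) (nat_lit 18) (nat_lit 5) (nat_lit 19) (nat_lit 4) (nat_lit 327) (nat_lit 298) (nat_lit 155)) (XT.lf (nat_lit 0) (nat_lit 9250159826) (nat_lit 152) (nat_lit 22472831016) (nat_lit 228) (nat_lit 290015964212) (nat_lit 14) (nat_lit 5) (nat_lit 16) (nat_lit 5) (nat_lit 17) (nat_lit 5) (nat_lit 328) (nat_lit 298) (nat_lit 154)))) (XT.nd (nat_lit 156) (nat_lit 76) (nat_lit 0) (XT.nd (nat_lit 78) (nat_lit 0) (nat_lit 0) (XT.lf (nat_lit 0) (nat_lit 90398518960) (nat_lit 228) (nat_lit 188779471906) (nat_lit 76) (nat_lit 61464043054)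 (nat_lit 14) (nat_lit 5) (nat_lit 17) (nat_lit 5) (nat_lit 15) (nat_lit 4) (nat_lit 329) (nat_lit 298) (nat_lit 153)) (XT.lf (nat_lit 0) (nat_lit 154351611931) (nat_lit 228) (nat_lit 55757436036) (nat_lit 76) (nat_lit 150901629566) (nat_lit 14) (nat_lit 5) (nat_lit 17) (nat_lit 5) (nat_lit 15) (nat_lit 4) (nat_lit 330) (nat_lit 298) (nat_lit 152))) (XT.nd (nat_lit 78) (nat_lit 0) (nat_lit 0) (XT.lf (nat_lit 0) (nat_lit 92535040746) (nat_lit 76) (nat_lit 133111208131) (nat_lit 152) (nat_lit 157184540263) (nat_lit 13) (nat_lit 5) (nat_lit 14) (nat_lit 5) (nat_lit 15) (nat_lit 4) (nat_lit 331) (nat_lit 298) (nat_lit 151)) (XT.lf (nat_lit 0) (nat_lit 255861598580) (nat_lit 76) (nat_lit 48307197717) (nat_lit 152) (nat_lit 102105766427) (nat_lit 13) (nat_lit 5) (nat_lit 14) (nat_lit 5) (nat_lit 15) (nat_lit 4) (nat_lit 332) (nat_lit 298) (nat_lit 150)))))) (XT.nd (nat_lit 624) (nat_lit 228)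 (nat_lit 0) (XT.nd (nat_lit 312) (nat_lit 76) (nat_lit 0) (XT.nd (nat_lit 156) (nat_lit 76) (nat_lit 0) (XT.nd (nat_lit 78) (nat_lit 152) (nat_lit 0) (XT.lf (nat_lit 0) (nat_lit 390013901869) (nat_lit 152) (nat_lit 380749561) (nat_lit 0) (nat_lit 41115926613) (nat_lit 13) (nat_lit 5) (nat_lit 15) (nat_lit 4) (nat_lit 13) (nat_lit 4) (nat_lit 333) (nat_lit 298) (nat_lit 149)) (XT.lf (nat_lit 0) (nat_lit 28215889713) (nat_lit 152) (nat_lit 290209195191) (nat_lit 76) (nat_lit 139858018029) (nat_lit 11) (nat_lit 5) (nat_lit 13) (nat_lit 5) (nat_lit 12) (nat_lit 4) (nat_lit 334) (nat_lit 298) (nat_lit 148))) (XT.nd (nat_lit 78) (nat_lit 76) (nat_lit 0) (XT.lf (nat_lit 0) (nat_lit 101274097963) (nat_lit 152) (nat_lit 138248372529) (nat_lit 76) (nat_lit 247587889780) (nat_lit 11) (nat_lit 5) (nat_lit 13) (nat_lit 5) (nat_lit 12) (nat_lit 4) (nat_lit 335) (nat_lit 298) (nat_lit 147)) (XT.lf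 (nat_lit 0) (nat_lit 27231294277) (nat_lit 76) (nat_lit 153600447316) (nat_lit 152) (nat_lit 337359674453) (nat_lit 10) (nat_lit 5) (nat_lit 11) (nat_lit 5) (nat_lit 12) (nat_lit 4) (nat_lit 336) (nat_lit 298) (nat_lit 146)))) (XT.nd (nat_lit 156) (nat_lit 76) (nat_lit 0) (XT.nd (nat_lit 78) (nat_lit 0) (nat_lit 0) (XT.lf (nat_lit 0) (nat_lit 213811406690) (nat_lit 76) (nat_lit 56722415276) (nat_lit 152) (nat_lit 280922748429) (nat_lit 10) (nat_lit 5) (nat_lit 11) (nat_lit 5) (nat_lit 12) (nat_lit 4) (nat_lit 337) (nat_lit 298) (nat_lit 145)) (XT.lf (nat_lit 0) (nat_lit 368564082898) (nat_lit 152) (nat_lit 173217371264) (nat_lit 0) (nat_lit 45509321922) (nat_lit 10) (nat_lit 5) (nat_lit 12) (nat_lit 4) (nat_lit 10) (nat_lit 4) (nat_lit 338) (nat_lit 298) (nat_lit 144))) (XT.nd (nat_lit 78) (nat_lit 0) (nat_lit 0) (XT.lf (nat_lit 0) (nat_lit 3043368170) (nat_lit 76) (nat_lit 472939785267)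 (nat_lit 76) (nat_lit 149884853806) (nat_lit 9) (nat_lit 4) (nat_lit 10) (nat_lit 5) (nat_lit 10) (nat_lit 4) (nat_lit 339) (nat_lit 298) (nat_lit 143)) (XT.lf (nat_lit 0) (nat_lit 203255788909) (nat_lit 76) (nat_lit 393475920320) (nat_lit 76) (nat_lit 70420831002) (nat_lit 9) (nat_lit 4) (nat_lit 10) (nat_lit 5) (nat_lit 10) (nat_lit 4) (nat_lit 340) (nat_lit 298) (nat_lit 142))))) (XT.nd (nat_lit 312) (nat_lit 76) (nat_lit 0) (XT.nd (nat_lit 156) (nat_lit 76) (nat_lit 0) (XT.nd (nat_lit 78) (nat_lit 0) (nat_lit 0) (XT.lf (nat_lit 0) (nat_lit 14629822702) (nat_lit 152) (nat_lit 292625204261) (nat_lit 76) (nat_lit 404455187143) (nat_lit 8) (nat_lit 5) (nat_lit 10) (nat_lit 5) (nat_lit 9) (nat_lit 4) (nat_lit 341) (nat_lit 298) (nat_lit 141)) (XT.lf (nat_lit 0) (nat_lit 102679877620) (nat_lit 152) (nat_lit 109481225367) (nat_lit 76) (nat_lit 547525077753) (nat_lit 8) (nat_lit 5) (nat_lit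 10) (nat_lit 5) (nat_lit 9) (nat_lit 4) (nat_lit 342) (nat_lit 298) (nat_lit 140))) (XT.nd (nat_lit 78) (nat_lit 0) (nat_lit 0) (XT.lf (nat_lit 0) (nat_lit 92964569987) (nat_lit 76) (nat_lit 107045077184) (nat_lit 152) (nat_lit 611311720795) (nat_lit 7) (nat_lit 5) (nat_lit 8) (nat_lit 5) (nat_lit 9) (nat_lit 4) (nat_lit 343) (nat_lit 298) (nat_lit 139)) (XT.lf (nat_lit 0) (nat_lit 308352720700) (nat_lit 152) (nat_lit 549249341863) (nat_lit 0) (nat_lit 9227153885) (nat_lit 7) (nat_lit 5) (nat_lit 9) (nat_lit 4) (nat_lit 7) (nat_lit 4) (nat_lit 344) (nat_lit 298) (nat_lit 138)))) (XT.nd (nat_lit 156) (nat_lit 76) (nat_lit 0) (XT.nd (nat_lit 78) (nat_lit 0) (nat_lit 0) (XT.lf (nat_lit 0) (nat_lit 428143549375) (nat_lit 152) (nat_lit 369393835674) (nat_lit 0) (nat_lit 129017883084) (nat_lit 7) (nat_lit 5) (nat_lit 9) (nat_lit 4) (nat_lit 7) (nat_lit 4) (nat_lit 345) (nat_lit 298) (nat_lit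 137)) (XT.lf (nat_lit 0) (nat_lit 557517568095) (nat_lit 152) (nat_lit 175150032326) (nat_lit 0) (nat_lit 258391809695) (nat_lit 7) (nat_lit 5) (nat_lit 9) (nat_lit 4) (nat_lit 7) (nat_lit 4) (nat_lit 346) (nat_lit 298) (nat_lit 136))) (XT.nd (nat_lit 78) (nat_lit 0) (nat_lit 0) (XT.lf (nat_lit 0) (nat_lit 36456862485) (nat_lit 76) (nat_lit 661661363644) (nat_lit 76) (nat_lit 362535519959) (nat_lit 6) (nat_lit 4) (nat_lit 7) (nat_lit 5) (nat_lit 7) (nat_lit 4) (nat_lit 347) (nat_lit 298) (nat_lit 135)) (XT.lf (nat_lit 0) (nat_lit 274953117058) (nat_lit 76) (nat_lit 579802663541) (nat_lit 76) (nat_lit 280676740888) (nat_lit 6) (nat_lit 4) (nat_lit 7) (nat_lit 5) (nat_lit 7) (nat_lit 4) (nat_lit 348) (nat_lit 298) (nat_lit 134))))))))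
noncomputable def xc105 : XT := (XT.nd (nat_lit 37986) (nat_lit 0) (nat_lit 304) (XT.nd (nat_lit 36816) (nat_lit 0) (nat_lit 1976) (XT.nd (nat_lit 546) (nat_lit 76) (nat_lit 0) (XT.nd (nat_lit 234) (nat_lit 76) (nat_lit 0) (XT.nd (nat_lit 78) (nat_lit 76) (nat_lit 0) (XT.lf (nat_lit 0) (nat_lit 532528952222) (nat_lit 76) (nat_lit 491395323794) (nat_lit 76) (nat_lit 192269328024) (nat_lit 6) (nat_lit 4) (nat_lit 7) (nat_lit 5) (nat_lit 7) (nat_lit 4) (nat_lit 349) (nat_lit 298) (nat_lit 133)) (XT.nd (nat_lit 78) (nat_lit 76) (nat_lit 0) (XT.lf (nat_lit 0) (nat_lit 810710743295) (nat_lit 76) (nat_lit 395915449058) (nat_lit 76) (nat_lit 96789385586) (nat_lit 6) (nat_lit 4) (nat_lit 7) (nat_lit 5) (nat_lit 7) (nat_lit 4) (nat_lit 350) (nat_lit 298) (nat_lit 132)) (XT.lf (nat_lit 0) (nat_lit 6012296606) (nat_lit 152) (nat_lit 286620549217) (nat_lit 76) (nat_lit 1104970291515) (nat_lit 5)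 (nat_lit 5) (nat_lit 7) (nat_lit 5) (nat_lit 6) (nat_lit 4) (nat_lit 351) (nat_lit 298) (nat_lit 131)))) (XT.nd (nat_lit 156) (nat_lit 0) (nat_lit 0) (XT.nd (nat_lit 78) (nat_lit 76) (nat_lit 0) (XT.lf (nat_lit 0) (nat_lit 111808920862) (nat_lit 152) (nat_lit 66563628809) (nat_lit 76) (nat_lit 1320752035188) (nat_lit 5) (nat_lit 5) (nat_lit 7) (nat_lit 5) (nat_lit 6) (nat_lit 4) (nat_lit 352) (nat_lit 298) (nat_lit 130)) (XT.lf (nat_lit 0) (nat_lit 180107459186) (nat_lit 76) (nat_lit 50293356743) (nat_lit 152) (nat_lit 1378020409015) (nat_lit 4) (nat_lit 5) (nat_lit 5) (nat_lit 5) (nat_lit 6) (nat_lit 4) (nat_lit 353) (nat_lit 298) (nat_lit 129))) (XT.nd (nat_lit 78) (nat_lit 0) (nat_lit 0) (XT.lf (nat_lit 0) (nat_lit 362464430466) (nat_lit 152) (nat_lit 1278182770824) (nat_lit 0) (nat_lit 85495645548) (nat_lit 4) (nat_lit 5) (nat_lit 6) (nat_lit 4) (nat_lit 4) (nat_lit 4) (nat_lit 354)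 (nat_lit 298) (nat_lit 128)) (XT.lf (nat_lit 0) (nat_lit 506399411194) (nat_lit 152) (nat_lit 1117347701543) (nat_lit 0) (nat_lit 229430583613) (nat_lit 4) (nat_lit 5) (nat_lit 6) (nat_lit 4) (nat_lit 4) (nat_lit 4) (nat_lit 355) (nat_lit 298) (nat_lit 127))))) (XT.nd (nat_lit 312) (nat_lit 76) (nat_lit 0) (XT.nd (nat_lit 156) (nat_lit 0) (nat_lit 0) (XT.nd (nat_lit 78) (nat_lit 0) (nat_lit 0) (XT.lf (nat_lit 0) (nat_lit 661849149709) (nat_lit 152) (nat_lit 943645904768) (nat_lit 0) (nat_lit 384880282625) (nat_lit 4) (nat_lit 5) (nat_lit 6) (nat_lit 4) (nat_lit 4) (nat_lit 4) (nat_lit 356) (nat_lit 298) (nat_lit 126)) (XT.lf (nat_lit 0) (nat_lit 829734829647) (nat_lit 152) (nat_lit 756048036520) (nat_lit 0) (nat_lit 552765925985) (nat_lit 4) (nat_lit 5) (nat_lit 6) (nat_lit 4) (nat_lit 4) (nat_lit 4) (nat_lit 357) (nat_lit 298) (nat_lit 125))) (XT.nd (nat_lit 78) (nat_lit 0) (nat_lit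 0) (XT.lf (nat_lit 0) (nat_lit 1011051329111) (nat_lit 152) (nat_lit 553442405726) (nat_lit 0) (nat_lit 734082391581) (nat_lit 4) (nat_lit 5) (nat_lit 6) (nat_lit 4) (nat_lit 4) (nat_lit 4) (nat_lit 358) (nat_lit 298) (nat_lit 124)) (XT.lf (nat_lit 0) (nat_lit 1206873116246) (nat_lit 152) (nat_lit 334628386427) (nat_lit 0) (nat_lit 929904147357) (nat_lit 4) (nat_lit 5) (nat_lit 6) (nat_lit 4) (nat_lit 4) (nat_lit 4) (nat_lit 359) (nat_lit 298) (nat_lit 123)))) (XT.nd (nat_lit 156) (nat_lit 0) (nat_lit 0) (XT.nd (nat_lit 78) (nat_lit 76) (nat_lit 0) (XT.lf (nat_lit 0) (nat_lit 1418360616456) (nat_lit 152) (nat_lit 98309302953) (nat_lit 0) (nat_lit 1141391618531) (nat_lit 4) (nat_lit 5) (nat_lit 6) (nat_lit 4) (nat_lit 4) (nat_lit 4) (nat_lit 360) (nat_lit 298) (nat_lit 122)) (XT.lf (nat_lit 0) (nat_lit 165178133282) (nat_lit 76) (nat_lit 1485561493800) (nat_lit 76) (nat_lit 1208592468989)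 (nat_lit 3) (nat_lit 4) (nat_lit 4) (nat_lit 5) (nat_lit 4) (nat_lit 4) (nat_lit 361) (nat_lit 298) (nat_lit 121))) (XT.nd (nat_lit 35724) (nat_lit 0) (nat_lit 3116) (XT.lf (nat_lit 0) (nat_lit 455335449810) (nat_lit 76) (nat_lit 1449061432434) (nat_lit 76) (nat_lit 1172092382729) (nat_lit 3) (nat_lit 4) (nat_lit 4) (nat_lit 5) (nat_lit 4) (nat_lit 4) (nat_lit 362) (nat_lit 298) (nat_lit 120)) (XT.lf (nat_lit 0) (nat_lit 24542948640) (nat_lit 532) (nat_lit 8281886072) (nat_lit 532) (nat_lit 8281886072) (nat_lit 44) (nat_lit 3) (nat_lit 51) (nat_lit 3) (nat_lit 51) (nat_lit 5) (nat_lit 299) (nat_lit 299) (nat_lit 182)))))) (XT.nd (nat_lit 546) (nat_lit 912) (nat_lit 0) (XT.nd (nat_lit 234) (nat_lit 228) (nat_lit 0) (XT.nd (nat_lit 78) (nat_lit 0) (nat_lit 76) (XT.lf (nat_lit 76) (nat_lit 21825503029) (nat_lit 0) (nat_lit 29757559589) (nat_lit 532) (nat_lit 33876189415) (nat_lit 45) (nat_lit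 5) (nat_lit 44) (nat_lit 3) (nat_lit 51) (nat_lit 5) (nat_lit 300) (nat_lit 299) (nat_lit 181)) (XT.nd (nat_lit 78) (nat_lit 0) (nat_lit 0) (XT.lf (nat_lit 0) (nat_lit 54960354159) (nat_lit 456) (nat_lit 24929523199) (nat_lit 532) (nat_lit 9020424625) (nat_lit 45) (nat_lit 5) (nat_lit 51) (nat_lit 5) (nat_lit 52) (nat_lit 5) (nat_lit 301) (nat_lit 299) (nat_lit 180)) (XT.lf (nat_lit 76) (nat_lit 16945242881) (nat_lit 0) (nat_lit 42842223200) (nat_lit 532) (nat_lit 32755601553) (nat_lit 46) (nat_lit 5) (nat_lit 45) (nat_lit 5) (nat_lit 52) (nat_lit 5) (nat_lit 302) (nat_lit 299) (nat_lit 179)))) (XT.nd (nat_lit 156) (nat_lit 304) (nat_lit 0) (XT.nd (nat_lit 78) (nat_lit 0) (nat_lit 76) (XT.lf (nat_lit 76) (nat_lit 63587224249) (nat_lit 0) (nat_lit 2094367984) (nat_lit 532) (nat_lit 30730397157) (nat_lit 46) (nat_lit 5) (nat_lit 45) (nat_lit 5) (nat_lit 52) (nat_lit 5) (nat_lit 303) (nat_lit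 299) (nat_lit 178)) (XT.lf (nat_lit 76) (nat_lit 13012505538) (nat_lit 0) (nat_lit 60355000771) (nat_lit 532) (nat_lit 27117300242) (nat_lit 47) (nat_lit 5) (nat_lit 46) (nat_lit 5) (nat_lit 53) (nat_lit 5) (nat_lit 304) (nat_lit 299) (nat_lit 177))) (XT.nd (nat_lit 78) (nat_lit 380) (nat_lit 0) (XT.lf (nat_lit 76) (nat_lit 64325726008) (nat_lit 0) (nat_lit 18292406766) (nat_lit 532) (nat_lit 22189331290) (nat_lit 47) (nat_lit 5) (nat_lit 46) (nat_lit 5) (nat_lit 53) (nat_lit 5) (nat_lit 305) (nat_lit 299) (nat_lit 176)) (XT.lf (nat_lit 0) (nat_lit 10121216131) (nat_lit 456) (nat_lit 83382993329) (nat_lit 532) (nat_lit 15900094674) (nat_lit 41) (nat_lit 5) (nat_lit 47) (nat_lit 5) (nat_lit 48) (nat_lit 5) (nat_lit 306) (nat_lit 299) (nat_lit 175))))) (XT.nd (nat_lit 312) (nat_lit 380) (nat_lit 0) (XT.nd (nat_lit 156) (nat_lit 228) (nat_lit 0) (XT.nd (nat_lit 78) (nat_lit 304) (nat_lit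 0) (XT.lf (nat_lit 0) (nat_lit 66573950284) (nat_lit 456) (nat_lit 40256578593) (nat_lit 532) (nat_lit 7412815825) (nat_lit 41) (nat_lit 5) (nat_lit 47) (nat_lit 5) (nat_lit 48) (nat_lit 5) (nat_lit 307) (nat_lit 299) (nat_lit 174)) (XT.lf (nat_lit 0) (nat_lit 2026854030) (nat_lit 304) (nat_lit 111154714302) (nat_lit 76) (nat_lit 6255678257) (nat_lit 37) (nat_lit 5) (nat_lit 41) (nat_lit 5) (nat_lit 38) (nat_lit 5) (nat_lit 308) (nat_lit 299) (nat_lit 173))) (XT.nd (nat_lit 78) (nat_lit 228) (nat_lit 0) (XT.lf (nat_lit 0) (nat_lit 14203529562) (nat_lit 304) (nat_lit 54793360355) (nat_lit 76) (nat_lit 55843783568) (nat_lit 37) (nat_lit 5) (nat_lit 41) (nat_lit 5) (nat_lit 38) (nat_lit 5) (nat_lit 309) (nat_lit 299) (nat_lit 172)) (XT.lf (nat_lit 0) (nat_lit 6396351976) (nat_lit 228) (nat_lit 21111330586) (nat_lit 304) (nat_lit 103156425831) (nat_lit 34) (nat_lit 5) (nat_lit 37) (nat_lit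 5) (nat_lit 38) (nat_lit 5) (nat_lit 310) (nat_lit 299) (nat_lit 171)))) (XT.nd (nat_lit 156) (nat_lit 152) (nat_lit 0) (XT.nd (nat_lit 78) (nat_lit 228) (nat_lit 0) (XT.lf (nat_lit 0) (nat_lit 44148815024) (nat_lit 304) (nat_lit 62011689278) (nat_lit 76) (nat_lit 30611103251) (nat_lit 34) (nat_lit 5) (nat_lit 38) (nat_lit 5) (nat_lit 35) (nat_lit 5) (nat_lit 311) (nat_lit 299) (nat_lit 170)) (XT.lf (nat_lit 0) (nat_lit 4922242329) (nat_lit 228) (nat_lit 57865290540) (nat_lit 304) (nat_lit 80526871342) (nat_lit 31) (nat_lit 5) (nat_lit 34) (nat_lit 5) (nat_lit 35) (nat_lit 5) (nat_lit 312) (nat_lit 299) (nat_lit 169))) (XT.nd (nat_lit 78) (nat_lit 152) (nat_lit 0) (XT.lf (nat_lit 0) (nat_lit 80737055821) (nat_lit 228) (nat_lit 3875390413) (nat_lit 304) (nat_lit 65632571580) (nat_lit 31) (nat_lit 5) (nat_lit 34) (nat_lit 5) (nat_lit 35) (nat_lit 5) (nat_lit 313) (nat_lit 299) (nat_lit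 168)) (XT.lf (nat_lit 0) (nat_lit 3765733762) (nat_lit 152) (nat_lit 105816934013) (nat_lit 228) (nat_lit 48035468506) (nat_lit 29) (nat_lit 5) (nat_lit 31) (nat_lit 5) (nat_lit 32) (nat_lit 5) (nat_lit 314) (nat_lit 299) (nat_lit 167))))))) (XT.nd (nat_lit 1170) (nat_lit 532) (nat_lit 0) (XT.nd (nat_lit 546) (nat_lit 608) (nat_lit 0) (XT.nd (nat_lit 234) (nat_lit 304) (nat_lit 0) (XT.nd (nat_lit 78) (nat_lit 228) (nat_lit 0) (XT.lf (nat_lit 0) (nat_lit 86747871275) (nat_lit 152) (nat_lit 51800852023) (nat_lit 228) (nat_lit 26872524534) (nat_lit 29) (nat_lit 5) (nat_lit 31) (nat_lit 5) (nat_lit 32) (nat_lit 5) (nat_lit 315) (nat_lit 299) (nat_lit 166)) (XT.nd (nat_lit 78) (nat_lit 76) (nat_lit 0) (XT.lf (nat_lit 0) (nat_lit 2486699126) (nat_lit 152) (nat_lit 167562031640) (nat_lit 228) (nat_lit 3782544984) (nat_lit 27) (nat_lit 5) (nat_lit 29) (nat_lit 5) (nat_lit 30) (nat_lit 5) (nat_lit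 316) (nat_lit 299) (nat_lit 165)) (XT.lf (nat_lit 0) (nat_lit 23648474778) (nat_lit 228) (nat_lit 90038803285) (nat_lit 76) (nat_lit 68901960426) (nat_lit 26) (nat_lit 5) (nat_lit 29) (nat_lit 5) (nat_lit 27) (nat_lit 5) (nat_lit 317) (nat_lit 299) (nat_lit 164)))) (XT.nd (nat_lit 156) (nat_lit 152) (nat_lit 0) (XT.nd (nat_lit 78) (nat_lit 152) (nat_lit 0) (XT.lf (nat_lit 0) (nat_lit 53069309441) (nat_lit 228) (nat_lit 2327251560) (nat_lit 76) (nat_lit 136643442960) (nat_lit 26) (nat_lit 5) (nat_lit 29) (nat_lit 5) (nat_lit 27) (nat_lit 5) (nat_lit 318) (nat_lit 299) (nat_lit 163)) (XT.lf (nat_lit 0) (nat_lit 87425297437) (nat_lit 228) (nat_lit 105035742166) (nat_lit 76) (nat_lit 9579272762) (nat_lit 24) (nat_lit 5) (nat_lit 27) (nat_lit 5) (nat_lit 25) (nat_lit 5) (nat_lit 319) (nat_lit 299) (nat_lit 162))) (XT.nd (nat_lit 78) (nat_lit 152) (nat_lit 0) (XT.lf (nat_lit 0) (nat_lit 126033641224)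 (nat_lit 228) (nat_lit 9861201793) (nat_lit 76) (nat_lit 76825492858) (nat_lit 24) (nat_lit 5) (nat_lit 27) (nat_lit 5) (nat_lit 25) (nat_lit 5) (nat_lit 320) (nat_lit 299) (nat_lit 161)) (XT.lf (nat_lit 0) (nat_lit 97820286361) (nat_lit 152) (nat_lit 72262688149) (nat_lit 228) (nat_lit 53983601527) (nat_lit 22) (nat_lit 5) (nat_lit 24) (nat_lit 5) (nat_lit 25) (nat_lit 5) (nat_lit 321) (nat_lit 299) (nat_lit 160))))) (XT.nd (nat_lit 312) (nat_lit 304) (nat_lit 0) (XT.nd (nat_lit 156) (nat_lit 152) (nat_lit 0) (XT.nd (nat_lit 78) (nat_lit 152) (nat_lit 0) (XT.lf (nat_lit 0) (nat_lit 214676736188) (nat_lit 152) (nat_lit 3248892927) (nat_lit 228) (nat_lit 18373336816) (nat_lit 22) (nat_lit 5) (nat_lit 24) (nat_lit 5) (nat_lit 25) (nat_lit 5) (nat_lit 322) (nat_lit 299) (nat_lit 159)) (XT.lf (nat_lit 0) (nat_lit 23168452723) (nat_lit 152) (nat_lit 155399630508) (nat_lit 76) (nat_lit 70576221253)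 (nat_lit 20) (nat_lit 5) (nat_lit 22) (nat_lit 5) (nat_lit 21) (nat_lit 5) (nat_lit 323) (nat_lit 299) (nat_lit 158))) (XT.nd (nat_lit 78) (nat_lit 152) (nat_lit 0) (XT.lf (nat_lit 0) (nat_lit 67731650573) (nat_lit 152) (nat_lit 43976705972) (nat_lit 76) (nat_lit 151215479400) (nat_lit 20) (nat_lit 5) (nat_lit 22) (nat_lit 5) (nat_lit 21) (nat_lit 5) (nat_lit 324) (nat_lit 299) (nat_lit 157)) (XT.lf (nat_lit 0) (nat_lit 80380682325) (nat_lit 152) (nat_lit 37412166369) (nat_lit 228) (nat_lit 159858246033) (nat_lit 18) (nat_lit 5) (nat_lit 20) (nat_lit 5) (nat_lit 21) (nat_lit 5) (nat_lit 325) (nat_lit 299) (nat_lit 156)))) (XT.nd (nat_lit 156) (nat_lit 228) (nat_lit 0) (XT.nd (nat_lit 78) (nat_lit 76) (nat_lit 0) (XT.lf (nat_lit 0) (nat_lit 174122374591) (nat_lit 228) (nat_lit 77334267765) (nat_lit 76) (nat_lit 41918817638) (nat_lit 18) (nat_lit 5) (nat_lit 21) (nat_lit 5) (nat_lit 19)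 (nat_lit 4) (nat_lit 326) (nat_lit 299) (nat_lit 155)) (XT.lf (nat_lit 0) (nat_lit 53922108827) (nat_lit 76) (nat_lit 183304533716) (nat_lit 152) (nat_lit 72949661849) (nat_lit 17) (nat_lit 5) (nat_lit 18) (nat_lit 5) (nat_lit 19) (nat_lit 4) (nat_lit 327) (nat_lit 299) (nat_lit 154))) (XT.nd (nat_lit 78) (nat_lit 228) (nat_lit 0) (XT.lf (nat_lit 0) (nat_lit 200076754608) (nat_lit 76) (nat_lit 107416767472) (nat_lit 152) (nat_lit 20658552937) (nat_lit 17) (nat_lit 5) (nat_lit 18) (nat_lit 5) (nat_lit 19) (nat_lit 4) (nat_lit 328) (nat_lit 299) (nat_lit 153)) (XT.lf (nat_lit 0) (nat_lit 9996249816) (nat_lit 152) (nat_lit 24268174572) (nat_lit 228) (nat_lit 313213354731) (nat_lit 14) (nat_lit 5) (nat_lit 16) (nat_lit 5) (nat_lit 17) (nat_lit 5) (nat_lit 329) (nat_lit 299) (nat_lit 152)))))) (XT.nd (nat_lit 624) (nat_lit 228) (nat_lit 0) (XT.nd (nat_lit 312) (nat_lit 228) (nat_lit 0) (XT.nd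 (nat_lit 156) (nat_lit 76) (nat_lit 0) (XT.nd (nat_lit 78) (nat_lit 0) (nat_lit 0) (XT.lf (nat_lit 0) (nat_lit 97633783804) (nat_lit 228) (nat_lit 203875987225) (nat_lit 76) (nat_lit 66383350498) (nat_lit 14) (nat_lit 5) (nat_lit 17) (nat_lit 5) (nat_lit 15) (nat_lit 4) (nat_lit 330) (nat_lit 299) (nat_lit 151)) (XT.lf (nat_lit 0) (nat_lit 166702873596) (nat_lit 228) (nat_lit 60212621258) (nat_lit 76) (nat_lit 162975782153) (nat_lit 14) (nat_lit 5) (nat_lit 17) (nat_lit 5) (nat_lit 15) (nat_lit 4) (nat_lit 331) (nat_lit 299) (nat_lit 150))) (XT.nd (nat_lit 78) (nat_lit 0) (nat_lit 0) (XT.lf (nat_lit 0) (nat_lit 99943116713) (nat_lit 76) (nat_lit 143757859541) (nat_lit 152) (nat_lit 169756030013) (nat_lit 13) (nat_lit 5) (nat_lit 14) (nat_lit 5) (nat_lit 15) (nat_lit 4) (nat_lit 332) (nat_lit 299) (nat_lit 149)) (XT.lf (nat_lit 0) (nat_lit 276335408603) (nat_lit 76) (nat_lit 52169694608)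 (nat_lit 152) (nat_lit 110271196749) (nat_lit 13) (nat_lit 5) (nat_lit 14) (nat_lit 5) (nat_lit 15) (nat_lit 4) (nat_lit 333) (nat_lit 299) (nat_lit 148)))) (XT.nd (nat_lit 156) (nat_lit 76) (nat_lit 0) (XT.nd (nat_lit 78) (nat_lit 152) (nat_lit 0) (XT.lf (nat_lit 0) (nat_lit 421217655878) (nat_lit 152) (nat_lit 406524414) (nat_lit 0) (nat_lit 44407029381) (nat_lit 13) (nat_lit 5) (nat_lit 15) (nat_lit 4) (nat_lit 13) (nat_lit 4) (nat_lit 334) (nat_lit 299) (nat_lit 147)) (XT.lf (nat_lit 0) (nat_lit 30475786141) (nat_lit 152) (nat_lit 313421223265) (nat_lit 76) (nat_lit 151048528942) (nat_lit 11) (nat_lit 5) (nat_lit 13) (nat_lit 5) (nat_lit 12) (nat_lit 4) (nat_lit 335) (nat_lit 299) (nat_lit 146))) (XT.nd (nat_lit 78) (nat_lit 76) (nat_lit 0) (XT.lf (nat_lit 0) (nat_lit 109378456588) (nat_lit 152) (nat_lit 149303883497) (nat_lit 76) (nat_lit 267396651955) (nat_lit 11) (nat_lit 5) (nat_lit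 13) (nat_lit 5) (nat_lit 12) (nat_lit 4) (nat_lit 336) (nat_lit 299) (nat_lit 145)) (XT.lf (nat_lit 0) (nat_lit 29414046304) (nat_lit 76) (nat_lit 165886587523) (nat_lit 152) (nat_lit 364345904872) (nat_lit 10) (nat_lit 5) (nat_lit 11) (nat_lit 5) (nat_lit 12) (nat_lit 4) (nat_lit 337) (nat_lit 299) (nat_lit 144))))) (XT.nd (nat_lit 312) (nat_lit 152) (nat_lit 0) (XT.nd (nat_lit 156) (nat_lit 76) (nat_lit 0) (XT.nd (nat_lit 78) (nat_lit 0) (nat_lit 0) (XT.lf (nat_lit 0) (nat_lit 230920253006) (nat_lit 76) (nat_lit 61258453333) (nat_lit 152) (nat_lit 303394213176) (nat_lit 10) (nat_lit 5) (nat_lit 11) (nat_lit 5) (nat_lit 12) (nat_lit 4) (nat_lit 338) (nat_lit 299) (nat_lit 143)) (XT.lf (nat_lit 0) (nat_lit 398051265852) (nat_lit 152) (nat_lit 187070994223) (nat_lit 0) (nat_lit 49151611532) (nat_lit 10) (nat_lit 5) (nat_lit 12) (nat_lit 4) (nat_lit 10) (nat_lit 4) (nat_lit 339) (nat_lit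 299) (nat_lit 142))) (XT.nd (nat_lit 78) (nat_lit 0) (nat_lit 0) (XT.lf (nat_lit 0) (nat_lit 3290509005) (nat_lit 76) (nat_lit 510773289007) (nat_lit 76) (nat_lit 161873488522) (nat_lit 9) (nat_lit 4) (nat_lit 10) (nat_lit 5) (nat_lit 10) (nat_lit 4) (nat_lit 340) (nat_lit 299) (nat_lit 141)) (XT.lf (nat_lit 0) (nat_lit 219519651449) (nat_lit 76) (nat_lit 424952439240) (nat_lit 76) (nat_lit 76052503419) (nat_lit 9) (nat_lit 4) (nat_lit 10) (nat_lit 5) (nat_lit 10) (nat_lit 4) (nat_lit 341) (nat_lit 299) (nat_lit 140)))) (XT.nd (nat_lit 156) (nat_lit 76) (nat_lit 0) (XT.nd (nat_lit 78) (nat_lit 0) (nat_lit 0) (XT.lf (nat_lit 0) (nat_lit 15801962511) (nat_lit 152) (nat_lit 316031979110) (nat_lit 76) (nat_lit 436812947782) (nat_lit 8) (nat_lit 5) (nat_lit 10) (nat_lit 5) (nat_lit 9) (nat_lit 4) (nat_lit 342) (nat_lit 299) (nat_lit 139)) (XT.lf (nat_lit 0) (nat_lit 110895891897) (nat_lit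 152) (nat_lit 118236722016) (nat_lit 76) (nat_lit 591328329963) (nat_lit 8) (nat_lit 5) (nat_lit 10) (nat_lit 5) (nat_lit 9) (nat_lit 4) (nat_lit 343) (nat_lit 299) (nat_lit 138))) (XT.nd (nat_lit 78) (nat_lit 0) (nat_lit 0) (XT.lf (nat_lit 0) (nat_lit 100404660983) (nat_lit 76) (nat_lit 115607332084) (nat_lit 152) (nat_lit 660214957111) (nat_lit 7) (nat_lit 5) (nat_lit 8) (nat_lit 5) (nat_lit 9) (nat_lit 4) (nat_lit 344) (nat_lit 299) (nat_lit 137)) (XT.lf (nat_lit 0) (nat_lit 333022425967) (nat_lit 152) (nat_lit 593186492800) (nat_lit 0) (nat_lit 9966514788) (nat_lit 7) (nat_lit 5) (nat_lit 9) (nat_lit 4) (nat_lit 7) (nat_lit 4) (nat_lit 345) (nat_lit 299) (nat_lit 136))))))))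
noncomputable def xc106 : XT := (XT.nd (nat_lit 38064) (nat_lit 0) (nat_lit 380) (XT.nd (nat_lit 1170) (nat_lit 76) (nat_lit 0) (XT.nd (nat_lit 546) (nat_lit 76) (nat_lit 0) (XT.nd (nat_lit 234) (nat_lit 76) (nat_lit 0) (XT.nd (nat_lit 78) (nat_lit 76) (nat_lit 0) (XT.lf (nat_lit 0) (nat_lit 462396410743) (nat_lit 152) (nat_lit 398942753258) (nat_lit 0) (nat_lit 139340414278) (nat_lit 7) (nat_lit 5) (nat_lit 9) (nat_lit 4) (nat_lit 7) (nat_lit 4) (nat_lit 346) (nat_lit 299) (nat_lit 135)) (XT.nd (nat_lit 78) (nat_lit 76) (nat_lit 0) (XT.lf (nat_lit 0) (nat_lit 602120248929) (nat_lit 152) (nat_lit 189159637439) (nat_lit 0) (nat_lit 279064173497) (nat_lit 7) (nat_lit 5) (nat_lit 9) (nat_lit 4) (nat_lit 7) (nat_lit 4) (nat_lit 347) (nat_lit 299) (nat_lit 134)) (XT.lf (nat_lit 0) (nat_lit 39375748261) (nat_lit 76) (nat_lit 714593173071) (nat_lit 76) (nat_lit 391537024521) (nat_lit 6) (nat_lit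 4) (nat_lit 7) (nat_lit 5) (nat_lit 7) (nat_lit 4) (nat_lit 348) (nat_lit 299) (nat_lit 133)))) (XT.nd (nat_lit 156) (nat_lit 76) (nat_lit 0) (XT.nd (nat_lit 78) (nat_lit 0) (nat_lit 0) (XT.lf (nat_lit 0) (nat_lit 296951530105) (nat_lit 76) (nat_lit 626185858417) (nat_lit 76) (nat_lit 303129642164) (nat_lit 6) (nat_lit 4) (nat_lit 7) (nat_lit 5) (nat_lit 7) (nat_lit 4) (nat_lit 349) (nat_lit 299) (nat_lit 132)) (XT.lf (nat_lit 0) (nat_lit 575133271809) (nat_lit 76) (nat_lit 530706006913) (nat_lit 76) (nat_lit 207649727974) (nat_lit 6) (nat_lit 4) (nat_lit 7) (nat_lit 5) (nat_lit 7) (nat_lit 4) (nat_lit 350) (nat_lit 299) (nat_lit 131))) (XT.nd (nat_lit 78) (nat_lit 76) (nat_lit 0) (XT.lf (nat_lit 0) (nat_lit 875569457768) (nat_lit 76) (nat_lit 427587812035) (nat_lit 76) (nat_lit 104531475051) (nat_lit 6) (nat_lit 4) (nat_lit 7) (nat_lit 5) (nat_lit 7) (nat_lit 4) (nat_lit 351) (nat_lit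 299) (nat_lit 130)) (XT.lf (nat_lit 0) (nat_lit 6494213934) (nat_lit 152) (nat_lit 309548425743) (nat_lit 76) (nat_lit 1193368673312) (nat_lit 5) (nat_lit 5) (nat_lit 7) (nat_lit 5) (nat_lit 6) (nat_lit 4) (nat_lit 352) (nat_lit 299) (nat_lit 129))))) (XT.nd (nat_lit 312) (nat_lit 0) (nat_lit 0) (XT.nd (nat_lit 156) (nat_lit 0) (nat_lit 0) (XT.nd (nat_lit 78) (nat_lit 76) (nat_lit 0) (XT.lf (nat_lit 0) (nat_lit 120754498974) (nat_lit 152) (nat_lit 71887082622) (nat_lit 76) (nat_lit 1426412900295) (nat_lit 5) (nat_lit 5) (nat_lit 7) (nat_lit 5) (nat_lit 6) (nat_lit 4) (nat_lit 353) (nat_lit 299) (nat_lit 128)) (XT.lf (nat_lit 0) (nat_lit 194517650983) (nat_lit 76) (nat_lit 54316068993) (nat_lit 152) (nat_lit 1488261135307) (nat_lit 4) (nat_lit 5) (nat_lit 5) (nat_lit 5) (nat_lit 6) (nat_lit 4) (nat_lit 354) (nat_lit 299) (nat_lit 127))) (XT.nd (nat_lit 78) (nat_lit 0) (nat_lit 0) (XT.lf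 (nat_lit 0) (nat_lit 391462378385) (nat_lit 152) (nat_lit 1380435869776) (nat_lit 0) (nat_lit 92335962430) (nat_lit 4) (nat_lit 5) (nat_lit 6) (nat_lit 4) (nat_lit 4) (nat_lit 4) (nat_lit 355) (nat_lit 299) (nat_lit 126)) (XT.lf (nat_lit 0) (nat_lit 546912098795) (nat_lit 152) (nat_lit 1206734107746) (nat_lit 0) (nat_lit 247785646263) (nat_lit 4) (nat_lit 5) (nat_lit 6) (nat_lit 4) (nat_lit 4) (nat_lit 4) (nat_lit 356) (nat_lit 299) (nat_lit 125)))) (XT.nd (nat_lit 156) (nat_lit 0) (nat_lit 0) (XT.nd (nat_lit 78) (nat_lit 0) (nat_lit 0) (XT.lf (nat_lit 0) (nat_lit 714797761969) (nat_lit 152) (nat_lit 1019136271668) (nat_lit 0) (nat_lit 415671275569) (nat_lit 4) (nat_lit 5) (nat_lit 6) (nat_lit 4) (nat_lit 4) (nat_lit 4) (nat_lit 357) (nat_lit 299) (nat_lit 124)) (XT.lf (nat_lit 0) (nat_lit 896114245911) (nat_lit 152) (nat_lit 816530670662) (nat_lit 0) (nat_lit 596987728151) (nat_lit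 4) (nat_lit 5) (nat_lit 6) (nat_lit 4) (nat_lit 4) (nat_lit 4) (nat_lit 358) (nat_lit 299) (nat_lit 123))) (XT.nd (nat_lit 78) (nat_lit 0) (nat_lit 0) (XT.lf (nat_lit 0) (nat_lit 1091936018673) (nat_lit 152) (nat_lit 597716678944) (nat_lit 0) (nat_lit 792809471877) (nat_lit 4) (nat_lit 5) (nat_lit 6) (nat_lit 4) (nat_lit 4) (nat_lit 4) (nat_lit 359) (nat_lit 299) (nat_lit 122)) (XT.lf (nat_lit 0) (nat_lit 1303423505576) (nat_lit 152) (nat_lit 361397621008) (nat_lit 0) (nat_lit 1004296931895) (nat_lit 4) (nat_lit 5) (nat_lit 6) (nat_lit 4) (nat_lit 4) (nat_lit 4) (nat_lit 360) (nat_lit 299) (nat_lit 121)))))) (XT.nd (nat_lit 36270) (nat_lit 0) (nat_lit 2356) (XT.nd (nat_lit 35958) (nat_lit 0) (nat_lit 3116) (XT.nd (nat_lit 78) (nat_lit 76) (nat_lit 0) (XT.lf (nat_lit 0) (nat_lit 1531829965801) (nat_lit 152) (nat_lit 106173087621) (nat_lit 0) (nat_lit 1232703367227) (nat_lit 4) (nat_lit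 5) (nat_lit 6) (nat_lit 4) (nat_lit 4) (nat_lit 4) (nat_lit 361) (nat_lit 299) (nat_lit 120)) (XT.nd (nat_lit 35802) (nat_lit 0) (nat_lit 3116) (XT.lf (nat_lit 0) (nat_lit 178393319219) (nat_lit 76) (nat_lit 1604405963511) (nat_lit 76) (nat_lit 1305279341887) (nat_lit 3) (nat_lit 4) (nat_lit 4) (nat_lit 5) (nat_lit 4) (nat_lit 4) (nat_lit 362) (nat_lit 299) (nat_lit 119)) (XT.lf (nat_lit 0) (nat_lit 26514997850) (nat_lit 532) (nat_lit 8939771691) (nat_lit 532) (nat_lit 8939771691) (nat_lit 44) (nat_lit 3) (nat_lit 51) (nat_lit 3) (nat_lit 51) (nat_lit 5) (nat_lit 300) (nat_lit 300) (nat_lit 180)))) (XT.nd (nat_lit 156) (nat_lit 0) (nat_lit 76) (XT.nd (nat_lit 78) (nat_lit 0) (nat_lit 76) (XT.lf (nat_lit 76) (nat_lit 23580637589) (nat_lit 0) (nat_lit 32145239348) (nat_lit 532) (nat_lit 36568769586) (nat_lit 45) (nat_lit 5) (nat_lit 44) (nat_lit 3) (nat_lit 51) (nat_lit 5) (nat_lit 301)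 (nat_lit 300) (nat_lit 179)) (XT.lf (nat_lit 0) (nat_lit 59371996525) (nat_lit 456) (nat_lit 26914060846) (nat_lit 532) (nat_lit 9735835380) (nat_lit 45) (nat_lit 5) (nat_lit 51) (nat_lit 5) (nat_lit 52) (nat_lit 5) (nat_lit 302) (nat_lit 300) (nat_lit 178))) (XT.nd (nat_lit 78) (nat_lit 0) (nat_lit 0) (XT.lf (nat_lit 76) (nat_lit 18310437806) (nat_lit 0) (nat_lit 46273972550) (nat_lit 532) (nat_lit 35360942238) (nat_lit 46) (nat_lit 5) (nat_lit 45) (nat_lit 5) (nat_lit 52) (nat_lit 5) (nat_lit 303) (nat_lit 300) (nat_lit 177)) (XT.lf (nat_lit 76) (nat_lit 68683068387) (nat_lit 0) (nat_lit 2265965102) (nat_lit 532) (nat_lit 33174840560) (nat_lit 46) (nat_lit 5) (nat_lit 45) (nat_lit 5) (nat_lit 52) (nat_lit 5) (nat_lit 304) (nat_lit 300) (nat_lit 176))))) (XT.nd (nat_lit 312) (nat_lit 532) (nat_lit 0) (XT.nd (nat_lit 156) (nat_lit 380) (nat_lit 0) (XT.nd (nat_lit 78) (nat_lit 0) (nat_lit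 0) (XT.lf (nat_lit 76) (nat_lit 14063289890) (nat_lit 0) (nat_lit 65185719385) (nat_lit 532) (nat_lit 29273575287) (nat_lit 47) (nat_lit 5) (nat_lit 46) (nat_lit 5) (nat_lit 53) (nat_lit 5) (nat_lit 305) (nat_lit 300) (nat_lit 175)) (XT.lf (nat_lit 76) (nat_lit 69480843264) (nat_lit 0) (nat_lit 19757946115) (nat_lit 532) (nat_lit 23952339853) (nat_lit 47) (nat_lit 5) (nat_lit 46) (nat_lit 5) (nat_lit 53) (nat_lit 5) (nat_lit 306) (nat_lit 300) (nat_lit 174))) (XT.nd (nat_lit 78) (nat_lit 0) (nat_lit 0) (XT.lf (nat_lit 0) (nat_lit 10940701937) (nat_lit 456) (nat_lit 90054407798) (nat_lit 532) (nat_lit 17160660799) (nat_lit 41) (nat_lit 5) (nat_lit 47) (nat_lit 5) (nat_lit 48) (nat_lit 5) (nat_lit 307) (nat_lit 300) (nat_lit 173)) (XT.lf (nat_lit 0) (nat_lit 71908929747) (nat_lit 456) (nat_lit 43477822475) (nat_lit 532) (nat_lit 7995247156) (nat_lit 41) (nat_lit 5) (nat_lit 47) (nat_lit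 5) (nat_lit 48) (nat_lit 5) (nat_lit 308) (nat_lit 300) (nat_lit 172)))) (XT.nd (nat_lit 156) (nat_lit 228) (nat_lit 0) (XT.nd (nat_lit 78) (nat_lit 0) (nat_lit 0) (XT.lf (nat_lit 0) (nat_lit 2198542402) (nat_lit 304) (nat_lit 120036919880) (nat_lit 76) (nat_lit 6755974754) (nat_lit 37) (nat_lit 5) (nat_lit 41) (nat_lit 5) (nat_lit 38) (nat_lit 5) (nat_lit 309) (nat_lit 300) (nat_lit 171)) (XT.lf (nat_lit 0) (nat_lit 15348645306) (nat_lit 304) (nat_lit 59167411066) (nat_lit 76) (nat_lit 60311140175) (nat_lit 37) (nat_lit 5) (nat_lit 41) (nat_lit 5) (nat_lit 38) (nat_lit 5) (nat_lit 310) (nat_lit 300) (nat_lit 170))) (XT.nd (nat_lit 78) (nat_lit 0) (nat_lit 0) (XT.lf (nat_lit 0) (nat_lit 6917239818) (nat_lit 228) (nat_lit 22799457175) (nat_lit 304) (nat_lit 111399845728) (nat_lit 34) (nat_lit 5) (nat_lit 37) (nat_lit 5) (nat_lit 38) (nat_lit 5) (nat_lit 311) (nat_lit 300) (nat_lit 169))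 (XT.lf (nat_lit 0) (nat_lit 47688515210) (nat_lit 304) (nat_lit 66963499169) (nat_lit 76) (nat_lit 33060677480) (nat_lit 34) (nat_lit 5) (nat_lit 38) (nat_lit 5) (nat_lit 35) (nat_lit 5) (nat_lit 312) (nat_lit 300) (nat_lit 168))))))) (XT.nd (nat_lit 1170) (nat_lit 760) (nat_lit 0) (XT.nd (nat_lit 546) (nat_lit 608) (nat_lit 0) (XT.nd (nat_lit 234) (nat_lit 228) (nat_lit 0) (XT.nd (nat_lit 78) (nat_lit 152) (nat_lit 0) (XT.lf (nat_lit 0) (nat_lit 5324915948) (nat_lit 228) (nat_lit 62493051035) (nat_lit 304) (nat_lit 86960975879) (nat_lit 31) (nat_lit 5) (nat_lit 34) (nat_lit 5) (nat_lit 35) (nat_lit 5) (nat_lit 313) (nat_lit 300) (nat_lit 167)) (XT.nd (nat_lit 78) (nat_lit 152) (nat_lit 0) (XT.lf (nat_lit 0) (nat_lit 87204255687) (nat_lit 228) (nat_lit 4184067249) (nat_lit 304) (nat_lit 70875728075) (nat_lit 31) (nat_lit 5) (nat_lit 34) (nat_lit 5) (nat_lit 35) (nat_lit 5) (nat_lit 314)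 (nat_lit 300) (nat_lit 166)) (XT.lf (nat_lit 0) (nat_lit 4075541466) (nat_lit 152) (nat_lit 114280346794) (nat_lit 228) (nat_lit 51871153924) (nat_lit 29) (nat_lit 5) (nat_lit 31) (nat_lit 5) (nat_lit 32) (nat_lit 5) (nat_lit 315) (nat_lit 300) (nat_lit 165)))) (XT.nd (nat_lit 156) (nat_lit 76) (nat_lit 0) (XT.nd (nat_lit 78) (nat_lit 152) (nat_lit 0) (XT.lf (nat_lit 0) (nat_lit 93695616721) (nat_lit 152) (nat_lit 55943122093) (nat_lit 228) (nat_lit 29015704217) (nat_lit 29) (nat_lit 5) (nat_lit 31) (nat_lit 5) (nat_lit 32) (nat_lit 5) (nat_lit 316) (nat_lit 300) (nat_lit 164)) (XT.lf (nat_lit 0) (nat_lit 2693800105) (nat_lit 152) (nat_lit 180964730025) (nat_lit 228) (nat_lit 4078761519) (nat_lit 27) (nat_lit 5) (nat_lit 29) (nat_lit 5) (nat_lit 30) (nat_lit 5) (nat_lit 317) (nat_lit 300) (nat_lit 163))) (XT.nd (nat_lit 78) (nat_lit 0) (nat_lit 0) (XT.lf (nat_lit 0) (nat_lit 25545970868)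 (nat_lit 228) (nat_lit 97234039399) (nat_lit 76) (nat_lit 74415905773) (nat_lit 26) (nat_lit 5) (nat_lit 29) (nat_lit 5) (nat_lit 27) (nat_lit 5) (nat_lit 318) (nat_lit 300) (nat_lit 162)) (XT.lf (nat_lit 0) (nat_lit 57320056148) (nat_lit 228) (nat_lit 2506146362) (nat_lit 76) (nat_lit 147576574427) (nat_lit 26) (nat_lit 5) (nat_lit 29) (nat_lit 5) (nat_lit 27) (nat_lit 5) (nat_lit 319) (nat_lit 300) (nat_lit 161))))) (XT.nd (nat_lit 312) (nat_lit 304) (nat_lit 0) (XT.nd (nat_lit 156) (nat_lit 152) (nat_lit 0) (XT.nd (nat_lit 78) (nat_lit 0) (nat_lit 0) (XT.lf (nat_lit 0) (nat_lit 94424359460) (nat_lit 228) (nat_lit 113431142137) (nat_lit 76) (nat_lit 10347622344) (nat_lit 24) (nat_lit 5) (nat_lit 27) (nat_lit 5) (nat_lit 25) (nat_lit 5) (nat_lit 320) (nat_lit 300) (nat_lit 160)) (XT.lf (nat_lit 0) (nat_lit 136120997548) (nat_lit 228) (nat_lit 10643191083) (nat_lit 76) (nat_lit 82973391324)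 (nat_lit 24) (nat_lit 5) (nat_lit 27) (nat_lit 5) (nat_lit 25) (nat_lit 5) (nat_lit 321) (nat_lit 300) (nat_lit 159))) (XT.nd (nat_lit 78) (nat_lit 0) (nat_lit 0) (XT.lf (nat_lit 0) (nat_lit 105652641267) (nat_lit 152) (nat_lit 78041452577) (nat_lit 228) (nat_lit 58297440888) (nat_lit 22) (nat_lit 5) (nat_lit 24) (nat_lit 5) (nat_lit 25) (nat_lit 5) (nat_lit 322) (nat_lit 300) (nat_lit 158)) (XT.lf (nat_lit 0) (nat_lit 231857108413) (nat_lit 152) (nat_lit 3506720451) (nat_lit 228) (nat_lit 19838714167) (nat_lit 22) (nat_lit 5) (nat_lit 24) (nat_lit 5) (nat_lit 25) (nat_lit 5) (nat_lit 323) (nat_lit 300) (nat_lit 157)))) (XT.nd (nat_lit 156) (nat_lit 152) (nat_lit 0) (XT.nd (nat_lit 78) (nat_lit 0) (nat_lit 0) (XT.lf (nat_lit 0) (nat_lit 25026082520) (nat_lit 152) (nat_lit 167825016943) (nat_lit 76) (nat_lit 76224410046) (nat_lit 20) (nat_lit 5) (nat_lit 22) (nat_lit 5) (nat_lit 21) (nat_lit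 5) (nat_lit 324) (nat_lit 300) (nat_lit 156)) (XT.lf (nat_lit 0) (nat_lit 73154028525) (nat_lit 152) (nat_lit 47488746148) (nat_lit 76) (nat_lit 163314653949) (nat_lit 20) (nat_lit 5) (nat_lit 22) (nat_lit 5) (nat_lit 21) (nat_lit 5) (nat_lit 325) (nat_lit 300) (nat_lit 155))) (XT.nd (nat_lit 78) (nat_lit 0) (nat_lit 0) (XT.lf (nat_lit 0) (nat_lit 86817078875) (nat_lit 152) (nat_lit 40402901643) (nat_lit 228) (nat_lit 172642899431) (nat_lit 18) (nat_lit 5) (nat_lit 20) (nat_lit 5) (nat_lit 21) (nat_lit 5) (nat_lit 326) (nat_lit 300) (nat_lit 154)) (XT.lf (nat_lit 0) (nat_lit 188055643959) (nat_lit 228) (nat_lit 83515277245) (nat_lit 76) (nat_lit 45274291642) (nat_lit 18) (nat_lit 5) (nat_lit 21) (nat_lit 5) (nat_lit 19) (nat_lit 4) (nat_lit 327) (nat_lit 300) (nat_lit 153)))))) (XT.nd (nat_lit 624) (nat_lit 380) (nat_lit 0) (XT.nd (nat_lit 312) (nat_lit 76) (nat_lit 0) (XT.nd (nat_lit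 156) (nat_lit 228) (nat_lit 0) (XT.nd (nat_lit 78) (nat_lit 0) (nat_lit 0) (XT.lf (nat_lit 0) (nat_lit 58241464362) (nat_lit 76) (nat_lit 197966665615) (nat_lit 152) (nat_lit 78782005103) (nat_lit 17) (nat_lit 5) (nat_lit 18) (nat_lit 5) (nat_lit 19) (nat_lit 4) (nat_lit 328) (nat_lit 300) (nat_lit 152)) (XT.lf (nat_lit 0) (nat_lit 216088067966) (nat_lit 76) (nat_lit 116008043316) (nat_lit 152) (nat_lit 22307876345) (nat_lit 17) (nat_lit 5) (nat_lit 18) (nat_lit 5) (nat_lit 19) (nat_lit 4) (nat_lit 329) (nat_lit 300) (nat_lit 151))) (XT.nd (nat_lit 78) (nat_lit 0) (nat_lit 0) (XT.lf (nat_lit 0) (nat_lit 10801160024) (nat_lit 152) (nat_lit 26207499830) (nat_lit 228) (nat_lit 338267090961) (nat_lit 14) (nat_lit 5) (nat_lit 16) (nat_lit 5) (nat_lit 17) (nat_lit 5) (nat_lit 330) (nat_lit 300) (nat_lit 150)) (XT.lf (nat_lit 0) (nat_lit 105447387166) (nat_lit 228) (nat_lit 220181057257) (nat_lit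 76) (nat_lit 71695890965) (nat_lit 14) (nat_lit 5) (nat_lit 17) (nat_lit 5) (nat_lit 15) (nat_lit 4) (nat_lit 331) (nat_lit 300) (nat_lit 149)))) (XT.nd (nat_lit 156) (nat_lit 0) (nat_lit 0) (XT.nd (nat_lit 78) (nat_lit 76) (nat_lit 0) (XT.lf (nat_lit 0) (nat_lit 180041789278) (nat_lit 228) (nat_lit 65024993046) (nat_lit 76) (nat_lit 176015578454) (nat_lit 14) (nat_lit 5) (nat_lit 17) (nat_lit 5) (nat_lit 15) (nat_lit 4) (nat_lit 332) (nat_lit 300) (nat_lit 148)) (XT.lf (nat_lit 0) (nat_lit 107943086546) (nat_lit 76) (nat_lit 155256563372) (nat_lit 152) (nat_lit 183333705940) (nat_lit 13) (nat_lit 5) (nat_lit 14) (nat_lit 5) (nat_lit 15) (nat_lit 4) (nat_lit 333) (nat_lit 300) (nat_lit 147))) (XT.nd (nat_lit 78) (nat_lit 0) (nat_lit 0) (XT.lf (nat_lit 0) (nat_lit 298446426937) (nat_lit 76) (nat_lit 56341487832) (nat_lit 152) (nat_lit 119090293902) (nat_lit 13) (nat_lit 5) (nat_lit 14)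 (nat_lit 5) (nat_lit 15) (nat_lit 4) (nat_lit 334) (nat_lit 300) (nat_lit 146)) (XT.lf (nat_lit 0) (nat_lit 454917333317) (nat_lit 152) (nat_lit 435029639) (nat_lit 0) (nat_lit 47961159495) (nat_lit 13) (nat_lit 5) (nat_lit 15) (nat_lit 4) (nat_lit 13) (nat_lit 4) (nat_lit 335) (nat_lit 300) (nat_lit 145))))) (XT.nd (nat_lit 312) (nat_lit 152) (nat_lit 0) (XT.nd (nat_lit 156) (nat_lit 76) (nat_lit 0) (XT.nd (nat_lit 78) (nat_lit 0) (nat_lit 0) (XT.lf (nat_lit 0) (nat_lit 32916099762) (nat_lit 152) (nat_lit 338490885168) (nat_lit 76) (nat_lit 163134014028) (nat_lit 11) (nat_lit 5) (nat_lit 13) (nat_lit 5) (nat_lit 12) (nat_lit 4) (nat_lit 336) (nat_lit 300) (nat_lit 144)) (XT.lf (nat_lit 0) (nat_lit 118130817124) (nat_lit 152) (nat_lit 161244457179) (nat_lit 76) (nat_lit 288789868157) (nat_lit 11) (nat_lit 5) (nat_lit 13) (nat_lit 5) (nat_lit 12) (nat_lit 4) (nat_lit 337) (nat_lit 300)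 (nat_lit 143))) (XT.nd (nat_lit 78) (nat_lit 0) (nat_lit 0) (XT.lf (nat_lit 0) (nat_lit 31770812399) (nat_lit 76) (nat_lit 179155889372) (nat_lit 152) (nat_lit 393491396588) (nat_lit 10) (nat_lit 5) (nat_lit 11) (nat_lit 5) (nat_lit 12) (nat_lit 4) (nat_lit 338) (nat_lit 300) (nat_lit 142)) (XT.lf (nat_lit 0) (nat_lit 249397245831) (nat_lit 76) (nat_lit 66157624828) (nat_lit 152) (nat_lit 327663731088) (nat_lit 10) (nat_lit 5) (nat_lit 11) (nat_lit 5) (nat_lit 12) (nat_lit 4) (nat_lit 339) (nat_lit 300) (nat_lit 141)))) (XT.nd (nat_lit 156) (nat_lit 76) (nat_lit 0) (XT.nd (nat_lit 78) (nat_lit 76) (nat_lit 0) (XT.lf (nat_lit 0) (nat_lit 429897130086) (nat_lit 152) (nat_lit 202033444387) (nat_lit 0) (nat_lit 53085064062) (nat_lit 10) (nat_lit 5) (nat_lit 12) (nat_lit 4) (nat_lit 10) (nat_lit 4) (nat_lit 340) (nat_lit 300) (nat_lit 140)) (XT.lf (nat_lit 0) (nat_lit 3556897343) (nat_lit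 76) (nat_lit 551633712585) (nat_lit 76) (nat_lit 174821521249) (nat_lit 9) (nat_lit 4) (nat_lit 10) (nat_lit 5) (nat_lit 10) (nat_lit 4) (nat_lit 341) (nat_lit 300) (nat_lit 139))) (XT.nd (nat_lit 78) (nat_lit 76) (nat_lit 0) (XT.lf (nat_lit 0) (nat_lit 237084138025) (nat_lit 76) (nat_lit 458947301470) (nat_lit 76) (nat_lit 82134994105) (nat_lit 9) (nat_lit 4) (nat_lit 10) (nat_lit 5) (nat_lit 10) (nat_lit 4) (nat_lit 342) (nat_lit 300) (nat_lit 138)) (XT.lf (nat_lit 0) (nat_lit 17067623277) (nat_lit 152) (nat_lit 341311758382) (nat_lit 76) (nat_lit 471759137298) (nat_lit 8) (nat_lit 5) (nat_lit 10) (nat_lit 5) (nat_lit 9) (nat_lit 4) (nat_lit 343) (nat_lit 300) (nat_lit 137))))))))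
noncomputable def xc107 : XT := (XT.nd (nat_lit 38220) (nat_lit 0) (nat_lit 380) (XT.nd (nat_lit 1170) (nat_lit 0) (nat_lit 0) (XT.nd (nat_lit 546) (nat_lit 152) (nat_lit 0) (XT.nd (nat_lit 234) (nat_lit 76) (nat_lit 0) (XT.nd (nat_lit 78) (nat_lit 76) (nat_lit 0) (XT.lf (nat_lit 0) (nat_lit 119768955624) (nat_lit 152) (nat_lit 127693086576) (nat_lit 76) (nat_lit 638635664594) (nat_lit 8) (nat_lit 5) (nat_lit 10) (nat_lit 5) (nat_lit 9) (nat_lit 4) (nat_lit 344) (nat_lit 300) (nat_lit 136)) (XT.nd (nat_lit 78) (nat_lit 0) (nat_lit 0) (XT.lf (nat_lit 0) (nat_lit 108439541918) (nat_lit 76) (nat_lit 124854760149) (nat_lit 152) (nat_lit 713030695048) (nat_lit 7) (nat_lit 5) (nat_lit 8) (nat_lit 5) (nat_lit 9) (nat_lit 4) (nat_lit 345) (nat_lit 300) (nat_lit 135)) (XT.lf (nat_lit 0) (nat_lit 359665495431) (nat_lit 152) (nat_lit 640639014752) (nat_lit 0) (nat_lit 10764854996) (nat_lit 7) (nat_lit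 5) (nat_lit 9) (nat_lit 4) (nat_lit 7) (nat_lit 4) (nat_lit 346) (nat_lit 300) (nat_lit 134)))) (XT.nd (nat_lit 156) (nat_lit 76) (nat_lit 0) (XT.nd (nat_lit 78) (nat_lit 0) (nat_lit 0) (XT.lf (nat_lit 0) (nat_lit 499389304516) (nat_lit 152) (nat_lit 430855953637) (nat_lit 0) (nat_lit 150488590963) (nat_lit 7) (nat_lit 5) (nat_lit 9) (nat_lit 4) (nat_lit 7) (nat_lit 4) (nat_lit 347) (nat_lit 300) (nat_lit 133)) (XT.lf (nat_lit 0) (nat_lit 650290962282) (nat_lit 152) (nat_lit 204290352988) (nat_lit 0) (nat_lit 301390181027) (nat_lit 7) (nat_lit 5) (nat_lit 9) (nat_lit 4) (nat_lit 7) (nat_lit 4) (nat_lit 348) (nat_lit 300) (nat_lit 132))) (XT.nd (nat_lit 78) (nat_lit 0) (nat_lit 0) (XT.lf (nat_lit 0) (nat_lit 42527811531) (nat_lit 76) (nat_lit 771759684133) (nat_lit 76) (nat_lit 422858840191) (nat_lit 6) (nat_lit 4) (nat_lit 7) (nat_lit 5) (nat_lit 7) (nat_lit 4) (nat_lit 349) (nat_lit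 300) (nat_lit 131)) (XT.lf (nat_lit 0) (nat_lit 320709507523) (nat_lit 76) (nat_lit 676279854141) (nat_lit 76) (nat_lit 327378952156) (nat_lit 6) (nat_lit 4) (nat_lit 7) (nat_lit 5) (nat_lit 7) (nat_lit 4) (nat_lit 350) (nat_lit 300) (nat_lit 130))))) (XT.nd (nat_lit 312) (nat_lit 76) (nat_lit 0) (XT.nd (nat_lit 156) (nat_lit 76) (nat_lit 0) (XT.nd (nat_lit 78) (nat_lit 0) (nat_lit 0) (XT.lf (nat_lit 0) (nat_lit 621145651155) (nat_lit 76) (nat_lit 573161679181) (nat_lit 76) (nat_lit 224260723451) (nat_lit 6) (nat_lit 4) (nat_lit 7) (nat_lit 5) (nat_lit 7) (nat_lit 4) (nat_lit 351) (nat_lit 300) (nat_lit 129)) (XT.lf (nat_lit 0) (nat_lit 945616604760) (nat_lit 76) (nat_lit 461794088585) (nat_lit 76) (nat_lit 112893083092) (nat_lit 6) (nat_lit 4) (nat_lit 7) (nat_lit 5) (nat_lit 7) (nat_lit 4) (nat_lit 352) (nat_lit 300) (nat_lit 128))) (XT.nd (nat_lit 78) (nat_lit 0) (nat_lit 0) (XT.lf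 (nat_lit 0) (nat_lit 7014551459) (nat_lit 152) (nat_lit 334310784533) (nat_lit 76) (nat_lit 1288838817447) (nat_lit 5) (nat_lit 5) (nat_lit 7) (nat_lit 5) (nat_lit 6) (nat_lit 4) (nat_lit 353) (nat_lit 300) (nat_lit 127)) (XT.lf (nat_lit 0) (nat_lit 130415600013) (nat_lit 152) (nat_lit 77636646204) (nat_lit 76) (nat_lit 1540526534421) (nat_lit 5) (nat_lit 5) (nat_lit 7) (nat_lit 5) (nat_lit 6) (nat_lit 4) (nat_lit 354) (nat_lit 300) (nat_lit 126)))) (XT.nd (nat_lit 156) (nat_lit 0) (nat_lit 0) (XT.nd (nat_lit 78) (nat_lit 0) (nat_lit 0) (XT.lf (nat_lit 0) (nat_lit 210080430570) (nat_lit 76) (nat_lit 58660706116) (nat_lit 152) (nat_lit 1607321249014) (nat_lit 4) (nat_lit 5) (nat_lit 5) (nat_lit 5) (nat_lit 6) (nat_lit 4) (nat_lit 355) (nat_lit 300) (nat_lit 125)) (XT.lf (nat_lit 0) (nat_lit 422780048939) (nat_lit 152) (nat_lit 1490869433877) (nat_lit 0) (nat_lit 99723409759) (nat_lit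 4) (nat_lit 5) (nat_lit 6) (nat_lit 4) (nat_lit 4) (nat_lit 4) (nat_lit 356) (nat_lit 300) (nat_lit 124))) (XT.nd (nat_lit 78) (nat_lit 0) (nat_lit 0) (XT.lf (nat_lit 0) (nat_lit 590665696591) (nat_lit 152) (nat_lit 1303271627587) (nat_lit 0) (nat_lit 267609026051) (nat_lit 4) (nat_lit 5) (nat_lit 6) (nat_lit 4) (nat_lit 4) (nat_lit 4) (nat_lit 357) (nat_lit 300) (nat_lit 123)) (XT.lf (nat_lit 0) (nat_lit 771982166160) (nat_lit 152) (nat_lit 1100666054162) (nat_lit 0) (nat_lit 448925466584) (nat_lit 4) (nat_lit 5) (nat_lit 6) (nat_lit 4) (nat_lit 4) (nat_lit 4) (nat_lit 358) (nat_lit 300) (nat_lit 122)))))) (XT.nd (nat_lit 36426) (nat_lit 0) (nat_lit 2280) (XT.nd (nat_lit 36114) (nat_lit 0) (nat_lit 3040) (XT.nd (nat_lit 156) (nat_lit 0) (nat_lit 0) (XT.nd (nat_lit 78) (nat_lit 0) (nat_lit 0) (XT.lf (nat_lit 0) (nat_lit 967803925614) (nat_lit 152) (nat_lit 881852087982) (nat_lit 0) (nat_lit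 644747199153) (nat_lit 4) (nat_lit 5) (nat_lit 6) (nat_lit 4) (nat_lit 4) (nat_lit 4) (nat_lit 359) (nat_lit 300) (nat_lit 121)) (XT.lf (nat_lit 0) (nat_lit 1179291400195) (nat_lit 152) (nat_lit 645533053692) (nat_lit 0) (nat_lit 856234648840) (nat_lit 4) (nat_lit 5) (nat_lit 6) (nat_lit 4) (nat_lit 4) (nat_lit 4) (nat_lit 360) (nat_lit 300) (nat_lit 120))) (XT.nd (nat_lit 78) (nat_lit 0) (nat_lit 0) (XT.lf (nat_lit 0) (nat_lit 1407697849011) (nat_lit 152) (nat_lit 390308542200) (nat_lit 0) (nat_lit 1084641074607) (nat_lit 4) (nat_lit 5) (nat_lit 6) (nat_lit 4) (nat_lit 4) (nat_lit 4) (nat_lit 361) (nat_lit 300) (nat_lit 119)) (XT.lf (nat_lit 0) (nat_lit 1654376791759) (nat_lit 152) (nat_lit 114666111956) (nat_lit 0) (nat_lit 1331319996012) (nat_lit 4) (nat_lit 5) (nat_lit 6) (nat_lit 4) (nat_lit 4) (nat_lit 4) (nat_lit 362) (nat_lit 300) (nat_lit 118)))) (XT.nd (nat_lit 156) (nat_lit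 0) (nat_lit 76) (XT.nd (nat_lit 78) (nat_lit 0) (nat_lit 0) (XT.lf (nat_lit 0) (nat_lit 28643582211) (nat_lit 532) (nat_lit 9650953712) (nat_lit 532) (nat_lit 9650953712) (nat_lit 44) (nat_lit 3) (nat_lit 51) (nat_lit 3) (nat_lit 51) (nat_lit 5) (nat_lit 301) (nat_lit 301) (nat_lit 178)) (XT.lf (nat_lit 76) (nat_lit 25474885508) (nat_lit 0) (nat_lit 34722924161) (nat_lit 532) (nat_lit 39479254878) (nat_lit 45) (nat_lit 5) (nat_lit 44) (nat_lit 3) (nat_lit 51) (nat_lit 5) (nat_lit 302) (nat_lit 301) (nat_lit 177))) (XT.nd (nat_lit 78) (nat_lit 0) (nat_lit 0) (XT.lf (nat_lit 0) (nat_lit 64134456892) (nat_lit 456) (nat_lit 29058763039) (nat_lit 532) (nat_lit 10509366807) (nat_lit 45) (nat_lit 5) (nat_lit 51) (nat_lit 5) (nat_lit 52) (nat_lit 5) (nat_lit 303) (nat_lit 301) (nat_lit 176)) (XT.lf (nat_lit 76) (nat_lit 19783482274) (nat_lit 0) (nat_lit 49979638205) (nat_lit 532) (nat_lit 38176865423)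 (nat_lit 46) (nat_lit 5) (nat_lit 45) (nat_lit 5) (nat_lit 52) (nat_lit 5) (nat_lit 304) (nat_lit 301) (nat_lit 175))))) (XT.nd (nat_lit 312) (nat_lit 532) (nat_lit 0) (XT.nd (nat_lit 156) (nat_lit 304) (nat_lit 0) (XT.nd (nat_lit 78) (nat_lit 0) (nat_lit 76) (XT.lf (nat_lit 76) (nat_lit 74185315195) (nat_lit 0) (nat_lit 2450712543) (nat_lit 532) (nat_lit 35816835033) (nat_lit 46) (nat_lit 5) (nat_lit 45) (nat_lit 5) (nat_lit 52) (nat_lit 5) (nat_lit 305) (nat_lit 301) (nat_lit 174)) (XT.lf (nat_lit 76) (nat_lit 15196741207) (nat_lit 0) (nat_lit 70402564721) (nat_lit 532) (nat_lit 31604222477) (nat_lit 47) (nat_lit 5) (nat_lit 46) (nat_lit 5) (nat_lit 53) (nat_lit 5) (nat_lit 306) (nat_lit 301) (nat_lit 173))) (XT.nd (nat_lit 78) (nat_lit 380) (nat_lit 0) (XT.lf (nat_lit 76) (nat_lit 75047077508) (nat_lit 0) (nat_lit 21340422346) (nat_lit 532) (nat_lit 25858120715) (nat_lit 47) (nat_lit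 5) (nat_lit 46) (nat_lit 5) (nat_lit 53) (nat_lit 5) (nat_lit 307) (nat_lit 301) (nat_lit 172)) (XT.lf (nat_lit 0) (nat_lit 11824350167) (nat_lit 456) (nat_lit 97259424862) (nat_lit 532) (nat_lit 18523704464) (nat_lit 41) (nat_lit 5) (nat_lit 47) (nat_lit 5) (nat_lit 48) (nat_lit 5) (nat_lit 308) (nat_lit 301) (nat_lit 171)))) (XT.nd (nat_lit 156) (nat_lit 228) (nat_lit 0) (XT.nd (nat_lit 78) (nat_lit 304) (nat_lit 0) (XT.lf (nat_lit 0) (nat_lit 77669414566) (nat_lit 456) (nat_lit 46956663495) (nat_lit 532) (nat_lit 8625784337) (nat_lit 41) (nat_lit 5) (nat_lit 47) (nat_lit 5) (nat_lit 48) (nat_lit 5) (nat_lit 309) (nat_lit 301) (nat_lit 170)) (XT.lf (nat_lit 0) (nat_lit 2382604849) (nat_lit 304) (nat_lit 129631152991) (nat_lit 76) (nat_lit 7296317477) (nat_lit 37) (nat_lit 5) (nat_lit 41) (nat_lit 5) (nat_lit 38) (nat_lit 5) (nat_lit 310) (nat_lit 301) (nat_lit 169))) (XT.nd (nat_lit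 78) (nat_lit 228) (nat_lit 0) (XT.lf (nat_lit 0) (nat_lit 16584110129) (nat_lit 304) (nat_lit 63892729434) (nat_lit 76) (nat_lit 65135906151) (nat_lit 37) (nat_lit 5) (nat_lit 41) (nat_lit 5) (nat_lit 38) (nat_lit 5) (nat_lit 311) (nat_lit 301) (nat_lit 168)) (XT.lf (nat_lit 0) (nat_lit 7478489103) (nat_lit 228) (nat_lit 24622745147) (nat_lit 304) (nat_lit 120304036602) (nat_lit 34) (nat_lit 5) (nat_lit 37) (nat_lit 5) (nat_lit 38) (nat_lit 5) (nat_lit 312) (nat_lit 301) (nat_lit 167))))))) (XT.nd (nat_lit 1170) (nat_lit 684) (nat_lit 0) (XT.nd (nat_lit 546) (nat_lit 608) (nat_lit 0) (XT.nd (nat_lit 234) (nat_lit 380) (nat_lit 0) (XT.nd (nat_lit 78) (nat_lit 228) (nat_lit 0) (XT.lf (nat_lit 0) (nat_lit 51510279368) (nat_lit 304) (nat_lit 72312755670) (nat_lit 76) (nat_lit 35706119786) (nat_lit 34) (nat_lit 5) (nat_lit 38) (nat_lit 5) (nat_lit 35) (nat_lit 5) (nat_lit 313) (nat_lit 301)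 (nat_lit 166)) (XT.nd (nat_lit 78) (nat_lit 0) (nat_lit 0) (XT.lf (nat_lit 0) (nat_lit 5758534594) (nat_lit 228) (nat_lit 67491241046) (nat_lit 304) (nat_lit 93910956513) (nat_lit 31) (nat_lit 5) (nat_lit 34) (nat_lit 5) (nat_lit 35) (nat_lit 5) (nat_lit 314) (nat_lit 301) (nat_lit 165)) (XT.lf (nat_lit 0) (nat_lit 94187656671) (nat_lit 228) (nat_lit 4517631452) (nat_lit 304) (nat_lit 76539399806) (nat_lit 31) (nat_lit 5) (nat_lit 34) (nat_lit 5) (nat_lit 35) (nat_lit 5) (nat_lit 315) (nat_lit 301) (nat_lit 164)))) (XT.nd (nat_lit 156) (nat_lit 228) (nat_lit 0) (XT.nd (nat_lit 78) (nat_lit 0) (nat_lit 0) (XT.lf (nat_lit 0) (nat_lit 4408914175) (nat_lit 152) (nat_lit 123421109638) (nat_lit 228) (nat_lit 56014714498) (nat_lit 29) (nat_lit 5) (nat_lit 31) (nat_lit 5) (nat_lit 32) (nat_lit 5) (nat_lit 316) (nat_lit 301) (nat_lit 163)) (XT.lf (nat_lit 0) (nat_lit 101198052533) (nat_lit 152)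 (nat_lit 60417030286) (nat_lit 228) (nat_lit 31331283018) (nat_lit 29) (nat_lit 5) (nat_lit 31) (nat_lit 5) (nat_lit 32) (nat_lit 5) (nat_lit 317) (nat_lit 301) (nat_lit 162))) (XT.nd (nat_lit 78) (nat_lit 76) (nat_lit 0) (XT.lf (nat_lit 0) (nat_lit 2916304326) (nat_lit 152) (nat_lit 195439967287) (nat_lit 228) (nat_lit 4399586563) (nat_lit 27) (nat_lit 5) (nat_lit 29) (nat_lit 5) (nat_lit 30) (nat_lit 5) (nat_lit 318) (nat_lit 301) (nat_lit 161)) (XT.lf (nat_lit 0) (nat_lit 27594465160) (nat_lit 228) (nat_lit 105006016882) (nat_lit 76) (nat_lit 80370711596) (nat_lit 26) (nat_lit 5) (nat_lit 29) (nat_lit 5) (nat_lit 27) (nat_lit 5) (nat_lit 319) (nat_lit 301) (nat_lit 160))))) (XT.nd (nat_lit 312) (nat_lit 304) (nat_lit 0) (XT.nd (nat_lit 156) (nat_lit 152) (nat_lit 0) (XT.nd (nat_lit 78) (nat_lit 152) (nat_lit 0) (XT.lf (nat_lit 0) (nat_lit 61910120475) (nat_lit 228) (nat_lit 2700392081)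 (nat_lit 76) (nat_lit 159384120161) (nat_lit 26) (nat_lit 5) (nat_lit 29) (nat_lit 5) (nat_lit 27) (nat_lit 5) (nat_lit 320) (nat_lit 301) (nat_lit 159)) (XT.lf (nat_lit 0) (nat_lit 101982627685) (nat_lit 228) (nat_lit 122499238273) (nat_lit 76) (nat_lit 11177153462) (nat_lit 24) (nat_lit 5) (nat_lit 27) (nat_lit 5) (nat_lit 25) (nat_lit 5) (nat_lit 321) (nat_lit 301) (nat_lit 158))) (XT.nd (nat_lit 78) (nat_lit 152) (nat_lit 0) (XT.lf (nat_lit 0) (nat_lit 147014676859) (nat_lit 228) (nat_lit 11488724856) (nat_lit 76) (nat_lit 89612856454) (nat_lit 24) (nat_lit 5) (nat_lit 27) (nat_lit 5) (nat_lit 25) (nat_lit 5) (nat_lit 322) (nat_lit 301) (nat_lit 157)) (XT.lf (nat_lit 0) (nat_lit 114110624170) (nat_lit 152) (nat_lit 84282839236) (nat_lit 228) (nat_lit 62957079128) (nat_lit 22) (nat_lit 5) (nat_lit 24) (nat_lit 5) (nat_lit 25) (nat_lit 5) (nat_lit 323) (nat_lit 301) (nat_lit 156))))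 (XT.nd (nat_lit 156) (nat_lit 152) (nat_lit 0) (XT.nd (nat_lit 78) (nat_lit 152) (nat_lit 0) (XT.lf (nat_lit 0) (nat_lit 250411021162) (nat_lit 152) (nat_lit 3785471469) (nat_lit 228) (nat_lit 21421962198) (nat_lit 22) (nat_lit 5) (nat_lit 24) (nat_lit 5) (nat_lit 25) (nat_lit 5) (nat_lit 324) (nat_lit 301) (nat_lit 155)) (XT.lf (nat_lit 0) (nat_lit 27031730145) (nat_lit 152) (nat_lit 181245373575) (nat_lit 76) (nat_lit 82324155625) (nat_lit 20) (nat_lit 5) (nat_lit 22) (nat_lit 5) (nat_lit 21) (nat_lit 5) (nat_lit 325) (nat_lit 301) (nat_lit 154))) (XT.nd (nat_lit 78) (nat_lit 152) (nat_lit 0) (XT.lf (nat_lit 0) (nat_lit 79009648051) (nat_lit 152) (nat_lit 51282619244) (nat_lit 76) (nat_lit 176381486242) (nat_lit 20) (nat_lit 5) (nat_lit 22) (nat_lit 5) (nat_lit 21) (nat_lit 5) (nat_lit 326) (nat_lit 301) (nat_lit 153)) (XT.lf (nat_lit 0) (nat_lit 93767539462) (nat_lit 152) (nat_lit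 43633215019) (nat_lit 228) (nat_lit 186450896642) (nat_lit 18) (nat_lit 5) (nat_lit 20) (nat_lit 5) (nat_lit 21) (nat_lit 5) (nat_lit 327) (nat_lit 301) (nat_lit 152)))))) (XT.nd (nat_lit 624) (nat_lit 304) (nat_lit 0) (XT.nd (nat_lit 312) (nat_lit 76) (nat_lit 0) (XT.nd (nat_lit 156) (nat_lit 228) (nat_lit 0) (XT.nd (nat_lit 78) (nat_lit 76) (nat_lit 0) (XT.lf (nat_lit 0) (nat_lit 203103078501) (nat_lit 228) (nat_lit 90191585209) (nat_lit 76) (nat_lit 48897922725) (nat_lit 18) (nat_lit 5) (nat_lit 21) (nat_lit 5) (nat_lit 19) (nat_lit 4) (nat_lit 328) (nat_lit 301) (nat_lit 151)) (XT.lf (nat_lit 0) (nat_lit 62905571316) (nat_lit 76) (nat_lit 213802086315) (nat_lit 152) (nat_lit 85081453634) (nat_lit 17) (nat_lit 5) (nat_lit 18) (nat_lit 5) (nat_lit 19) (nat_lit 4) (nat_lit 329) (nat_lit 301) (nat_lit 150))) (XT.nd (nat_lit 78) (nat_lit 228) (nat_lit 0) (XT.lf (nat_lit 0) (nat_lit 233379548408)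 (nat_lit 76) (nat_lit 125286915903) (nat_lit 152) (nat_lit 24089625084) (nat_lit 17) (nat_lit 5) (nat_lit 18) (nat_lit 5) (nat_lit 19) (nat_lit 4) (nat_lit 330) (nat_lit 301) (nat_lit 149)) (XT.lf (nat_lit 0) (nat_lit 11669719752) (nat_lit 152) (nat_lit 28302274793) (nat_lit 228) (nat_lit 365325601458) (nat_lit 14) (nat_lit 5) (nat_lit 16) (nat_lit 5) (nat_lit 17) (nat_lit 5) (nat_lit 331) (nat_lit 301) (nat_lit 148)))) (XT.nd (nat_lit 156) (nat_lit 76) (nat_lit 0) (XT.nd (nat_lit 78) (nat_lit 0) (nat_lit 0) (XT.lf (nat_lit 0) (nat_lit 113885664985) (nat_lit 228) (nat_lit 237791247475) (nat_lit 76) (nat_lit 77433167547) (nat_lit 14) (nat_lit 5) (nat_lit 17) (nat_lit 5) (nat_lit 15) (nat_lit 4) (nat_lit 332) (nat_lit 301) (nat_lit 147)) (XT.lf (nat_lit 0) (nat_lit 194447435056) (nat_lit 228) (nat_lit 70223016228) (nat_lit 76) (nat_lit 190098311123) (nat_lit 14) (nat_lit 5) (nat_lit 17)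 (nat_lit 5) (nat_lit 15) (nat_lit 4) (nat_lit 333) (nat_lit 301) (nat_lit 146))) (XT.nd (nat_lit 78) (nat_lit 0) (nat_lit 0) (XT.lf (nat_lit 0) (nat_lit 116582409067) (nat_lit 76) (nat_lit 167675438122) (nat_lit 152) (nat_lit 197997996316) (nat_lit 13) (nat_lit 5) (nat_lit 14) (nat_lit 5) (nat_lit 15) (nat_lit 4) (nat_lit 334) (nat_lit 301) (nat_lit 145)) (XT.lf (nat_lit 0) (nat_lit 322325729608) (nat_lit 76) (nat_lit 60847278785) (nat_lit 152) (nat_lit 128615289545) (nat_lit 13) (nat_lit 5) (nat_lit 14) (nat_lit 5) (nat_lit 15) (nat_lit 4) (nat_lit 335) (nat_lit 301) (nat_lit 144))))) (XT.nd (nat_lit 312) (nat_lit 76) (nat_lit 0) (XT.nd (nat_lit 156) (nat_lit 76) (nat_lit 0) (XT.nd (nat_lit 78) (nat_lit 152) (nat_lit 0) (XT.lf (nat_lit 0) (nat_lit 491312661827) (nat_lit 152) (nat_lit 466388313) (nat_lit 0) (nat_lit 51799396360) (nat_lit 13) (nat_lit 5) (nat_lit 15) (nat_lit 4) (nat_lit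 13) (nat_lit 4) (nat_lit 336) (nat_lit 301) (nat_lit 143)) (XT.lf (nat_lit 0) (nat_lit 35551317381) (nat_lit 152) (nat_lit 365566695798) (nat_lit 76) (nat_lit 176186109267) (nat_lit 11) (nat_lit 5) (nat_lit 13) (nat_lit 5) (nat_lit 12) (nat_lit 4) (nat_lit 337) (nat_lit 301) (nat_lit 142))) (XT.nd (nat_lit 78) (nat_lit 76) (nat_lit 0) (XT.lf (nat_lit 0) (nat_lit 127583069196) (nat_lit 152) (nat_lit 174140809880) (nat_lit 76) (nat_lit 311894329941) (nat_lit 11) (nat_lit 5) (nat_lit 13) (nat_lit 5) (nat_lit 12) (nat_lit 4) (nat_lit 338) (nat_lit 301) (nat_lit 141)) (XT.lf (nat_lit 0) (nat_lit 34315600153) (nat_lit 76) (nat_lit 193486967215) (nat_lit 152) (nat_lit 424968838739) (nat_lit 10) (nat_lit 5) (nat_lit 11) (nat_lit 5) (nat_lit 12) (nat_lit 4) (nat_lit 339) (nat_lit 301) (nat_lit 140)))) (XT.nd (nat_lit 156) (nat_lit 76) (nat_lit 0) (XT.nd (nat_lit 78) (nat_lit 0) (nat_lit 0) (XT.lf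 (nat_lit 0) (nat_lit 269351916944) (nat_lit 76) (nat_lit 71448944716) (nat_lit 152) (nat_lit 353875098486) (nat_lit 10) (nat_lit 5) (nat_lit 11) (nat_lit 5) (nat_lit 12) (nat_lit 4) (nat_lit 340) (nat_lit 301) (nat_lit 139)) (XT.lf (nat_lit 0) (nat_lit 464290411951) (nat_lit 152) (nat_lit 218193351271) (nat_lit 0) (nat_lit 57333003967) (nat_lit 10) (nat_lit 5) (nat_lit 12) (nat_lit 4) (nat_lit 10) (nat_lit 4) (nat_lit 341) (nat_lit 301) (nat_lit 138))) (XT.nd (nat_lit 78) (nat_lit 0) (nat_lit 0) (XT.lf (nat_lit 0) (nat_lit 3844147705) (nat_lit 76) (nat_lit 595763175416) (nat_lit 76) (nat_lit 188805659998) (nat_lit 9) (nat_lit 4) (nat_lit 10) (nat_lit 5) (nat_lit 10) (nat_lit 4) (nat_lit 342) (nat_lit 301) (nat_lit 137)) (XT.lf (nat_lit 0) (nat_lit 256053367748) (nat_lit 76) (nat_lit 495661942833) (nat_lit 76) (nat_lit 88704327938) (nat_lit 9) (nat_lit 4) (nat_lit 10) (nat_lit 5) (nat_lit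 10) (nat_lit 4) (nat_lit 343) (nat_lit 301) (nat_lit 136))))))))
noncomputable def xc108 : XT := (XT.nd (nat_lit 38298) (nat_lit 0) (nat_lit 380) (XT.nd (nat_lit 1170) (nat_lit 0) (nat_lit 0) (XT.nd (nat_lit 546) (nat_lit 152) (nat_lit 0) (XT.nd (nat_lit 234) (nat_lit 76) (nat_lit 0) (XT.nd (nat_lit 78) (nat_lit 76) (nat_lit 0) (XT.lf (nat_lit 0) (nat_lit 18434322376) (nat_lit 152) (nat_lit 368614316459) (nat_lit 76) (nat_lit 509500857388) (nat_lit 8) (nat_lit 5) (nat_lit 10) (nat_lit 5) (nat_lit 9) (nat_lit 4) (nat_lit 344) (nat_lit 301) (nat_lit 135)) (XT.nd (nat_lit 78) (nat_lit 76) (nat_lit 0) (XT.lf (nat_lit 0) (nat_lit 129351665812) (nat_lit 152) (nat_lit 137906327397) (nat_lit 76) (nat_lit 689727433601) (nat_lit 8) (nat_lit 5) (nat_lit 10) (nat_lit 5) (nat_lit 9) (nat_lit 4) (nat_lit 345) (nat_lit 301) (nat_lit 134)) (XT.lf (nat_lit 0) (nat_lit 117116855526) (nat_lit 76) (nat_lit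 134842147734) (nat_lit 152) (nat_lit 770071900110) (nat_lit 7) (nat_lit 5) (nat_lit 8) (nat_lit 5) (nat_lit 9) (nat_lit 4) (nat_lit 346) (nat_lit 301) (nat_lit 133)))) (XT.nd (nat_lit 156) (nat_lit 76) (nat_lit 0) (XT.nd (nat_lit 78) (nat_lit 0) (nat_lit 0) (XT.lf (nat_lit 0) (nat_lit 388439828504) (nat_lit 152) (nat_lit 691888080486) (nat_lit 0) (nat_lit 11626917047) (nat_lit 7) (nat_lit 5) (nat_lit 9) (nat_lit 4) (nat_lit 7) (nat_lit 4) (nat_lit 347) (nat_lit 301) (nat_lit 132)) (XT.lf (nat_lit 0) (nat_lit 539341461320) (nat_lit 152) (nat_lit 465322526737) (nat_lit 0) (nat_lit 162528487176) (nat_lit 7) (nat_lit 5) (nat_lit 9) (nat_lit 4) (nat_lit 7) (nat_lit 4) (nat_lit 348) (nat_lit 301) (nat_lit 131))) (XT.nd (nat_lit 78) (nat_lit 76) (nat_lit 0) (XT.lf (nat_lit 0) (nat_lit 702315176712) (nat_lit 152) (nat_lit 220631819014) (nat_lit 0) (nat_lit 325502144523) (nat_lit 7) (nat_lit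 5) (nat_lit 9) (nat_lit 4) (nat_lit 7) (nat_lit 4) (nat_lit 349) (nat_lit 301) (nat_lit 130)) (XT.lf (nat_lit 0) (nat_lit 45931754054) (nat_lit 76) (nat_lit 833499650578) (nat_lit 76) (nat_lit 456686564645) (nat_lit 6) (nat_lit 4) (nat_lit 7) (nat_lit 5) (nat_lit 7) (nat_lit 4) (nat_lit 350) (nat_lit 301) (nat_lit 129))))) (XT.nd (nat_lit 312) (nat_lit 76) (nat_lit 0) (XT.nd (nat_lit 156) (nat_lit 76) (nat_lit 0) (XT.nd (nat_lit 78) (nat_lit 0) (nat_lit 0) (XT.lf (nat_lit 0) (nat_lit 346367858496) (nat_lit 76) (nat_lit 730381494060) (nat_lit 76) (nat_lit 353568358365) (nat_lit 6) (nat_lit 4) (nat_lit 7) (nat_lit 5) (nat_lit 7) (nat_lit 4) (nat_lit 351) (nat_lit 301) (nat_lit 128)) (XT.lf (nat_lit 0) (nat_lit 670838775813) (nat_lit 76) (nat_lit 619013920540) (nat_lit 76) (nat_lit 242200738768) (nat_lit 6) (nat_lit 4) (nat_lit 7) (nat_lit 5) (nat_lit 7) (nat_lit 4) (nat_lit 352) (nat_lit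 301) (nat_lit 127))) (XT.nd (nat_lit 78) (nat_lit 76) (nat_lit 0) (XT.lf (nat_lit 0) (nat_lit 1021267296628) (nat_lit 76) (nat_lit 498736974028) (nat_lit 76) (nat_lit 121923749592) (nat_lit 6) (nat_lit 4) (nat_lit 7) (nat_lit 5) (nat_lit 7) (nat_lit 4) (nat_lit 353) (nat_lit 301) (nat_lit 126)) (XT.lf (nat_lit 0) (nat_lit 7576401799) (nat_lit 152) (nat_lit 361054348195) (nat_lit 76) (nat_lit 1391946480346) (nat_lit 5) (nat_lit 5) (nat_lit 7) (nat_lit 5) (nat_lit 6) (nat_lit 4) (nat_lit 354) (nat_lit 301) (nat_lit 125)))) (XT.nd (nat_lit 156) (nat_lit 0) (nat_lit 0) (XT.nd (nat_lit 78) (nat_lit 76) (nat_lit 0) (XT.lf (nat_lit 0) (nat_lit 140849483406) (nat_lit 152) (nat_lit 83846375030) (nat_lit 76) (nat_lit 1663769173380) (nat_lit 5) (nat_lit 5) (nat_lit 7) (nat_lit 5) (nat_lit 6) (nat_lit 4) (nat_lit 355) (nat_lit 301) (nat_lit 124)) (XT.lf (nat_lit 0) (nat_lit 226888037433) (nat_lit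 76) (nat_lit 63353006709) (nat_lit 152) (nat_lit 1735906282682) (nat_lit 4) (nat_lit 5) (nat_lit 5) (nat_lit 5) (nat_lit 6) (nat_lit 4) (nat_lit 356) (nat_lit 301) (nat_lit 123))) (XT.nd (nat_lit 78) (nat_lit 0) (nat_lit 0) (XT.lf (nat_lit 0) (nat_lit 456603036087) (nat_lit 152) (nat_lit 1610137869348) (nat_lit 0) (nat_lit 107701771509) (nat_lit 4) (nat_lit 5) (nat_lit 6) (nat_lit 4) (nat_lit 4) (nat_lit 4) (nat_lit 357) (nat_lit 301) (nat_lit 122)) (XT.lf (nat_lit 0) (nat_lit 637919492349) (nat_lit 152) (nat_lit 1407532321461) (nat_lit 0) (nat_lit 289018200885) (nat_lit 4) (nat_lit 5) (nat_lit 6) (nat_lit 4) (nat_lit 4) (nat_lit 4) (nat_lit 358) (nat_lit 301) (nat_lit 121)))))) (XT.nd (nat_lit 36504) (nat_lit 0) (nat_lit 2280) (XT.nd (nat_lit 36192) (nat_lit 0) (nat_lit 3040) (XT.nd (nat_lit 78) (nat_lit 0) (nat_lit 0) (XT.lf (nat_lit 0) (nat_lit 833741239481) (nat_lit 152) (nat_lit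 1188718378927) (nat_lit 0) (nat_lit 484839923124) (nat_lit 4) (nat_lit 5) (nat_lit 6) (nat_lit 4) (nat_lit 4) (nat_lit 4) (nat_lit 359) (nat_lit 301) (nat_lit 120)) (XT.nd (nat_lit 78) (nat_lit 0) (nat_lit 0) (XT.lf (nat_lit 0) (nat_lit 1045228702653) (nat_lit 152) (nat_lit 952399366532) (nat_lit 0) (nat_lit 696327363246) (nat_lit 4) (nat_lit 5) (nat_lit 6) (nat_lit 4) (nat_lit 4) (nat_lit 4) (nat_lit 360) (nat_lit 301) (nat_lit 119)) (XT.lf (nat_lit 0) (nat_lit 1273635140905) (nat_lit 152) (nat_lit 697174875313) (nat_lit 0) (nat_lit 924733780155) (nat_lit 4) (nat_lit 5) (nat_lit 6) (nat_lit 4) (nat_lit 4) (nat_lit 4) (nat_lit 361) (nat_lit 301) (nat_lit 118)))) (XT.nd (nat_lit 156) (nat_lit 0) (nat_lit 76) (XT.nd (nat_lit 78) (nat_lit 0) (nat_lit 0) (XT.lf (nat_lit 0) (nat_lit 30941399835) (nat_lit 532) (nat_lit 10419600898) (nat_lit 532) (nat_lit 10419600898) (nat_lit 44) (nat_lit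 3) (nat_lit 51) (nat_lit 3) (nat_lit 51) (nat_lit 5) (nat_lit 302) (nat_lit 302) (nat_lit 176)) (XT.lf (nat_lit 76) (nat_lit 27519560944) (nat_lit 0) (nat_lit 37505958423) (nat_lit 532) (nat_lit 42624721233) (nat_lit 45) (nat_lit 5) (nat_lit 44) (nat_lit 3) (nat_lit 51) (nat_lit 5) (nat_lit 303) (nat_lit 302) (nat_lit 175))) (XT.nd (nat_lit 78) (nat_lit 0) (nat_lit 0) (XT.lf (nat_lit 0) (nat_lit 69276102200) (nat_lit 456) (nat_lit 31376242995) (nat_lit 532) (nat_lit 11345541903) (nat_lit 45) (nat_lit 5) (nat_lit 51) (nat_lit 5) (nat_lit 52) (nat_lit 5) (nat_lit 304) (nat_lit 302) (nat_lit 174)) (XT.lf (nat_lit 76) (nat_lit 21373199130) (nat_lit 0) (nat_lit 53981222440) (nat_lit 532) (nat_lit 41219910238) (nat_lit 46) (nat_lit 5) (nat_lit 45) (nat_lit 5) (nat_lit 52) (nat_lit 5) (nat_lit 305) (nat_lit 302) (nat_lit 173))))) (XT.nd (nat_lit 312) (nat_lit 532) (nat_lit 0) (XT.nd (nat_lit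 156) (nat_lit 304) (nat_lit 0) (XT.nd (nat_lit 78) (nat_lit 0) (nat_lit 76) (XT.lf (nat_lit 76) (nat_lit 80126657331) (nat_lit 0) (nat_lit 2649744712) (nat_lit 532) (nat_lit 38671899966) (nat_lit 46) (nat_lit 5) (nat_lit 45) (nat_lit 5) (nat_lit 52) (nat_lit 5) (nat_lit 306) (nat_lit 302) (nat_lit 172)) (XT.lf (nat_lit 76) (nat_lit 16419671969) (nat_lit 0) (nat_lit 76036474104) (nat_lit 532) (nat_lit 34122924787) (nat_lit 47) (nat_lit 5) (nat_lit 46) (nat_lit 5) (nat_lit 53) (nat_lit 5) (nat_lit 307) (nat_lit 302) (nat_lit 171))) (XT.nd (nat_lit 78) (nat_lit 380) (nat_lit 0) (XT.lf (nat_lit 76) (nat_lit 81057502473) (nat_lit 0) (nat_lit 23049234102) (nat_lit 532) (nat_lit 27917848624) (nat_lit 47) (nat_lit 5) (nat_lit 46) (nat_lit 5) (nat_lit 53) (nat_lit 5) (nat_lit 308) (nat_lit 302) (nat_lit 170)) (XT.lf (nat_lit 0) (nat_lit 12777493031) (nat_lit 456) (nat_lit 105040748501) (nat_lit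 532) (nat_lit 19997191014) (nat_lit 41) (nat_lit 5) (nat_lit 47) (nat_lit 5) (nat_lit 48) (nat_lit 5) (nat_lit 309) (nat_lit 302) (nat_lit 169)))) (XT.nd (nat_lit 156) (nat_lit 228) (nat_lit 0) (XT.nd (nat_lit 78) (nat_lit 304) (nat_lit 0) (XT.lf (nat_lit 0) (nat_lit 83889629631) (nat_lit 456) (nat_lit 50713724028) (nat_lit 532) (nat_lit 9308060226) (nat_lit 41) (nat_lit 5) (nat_lit 47) (nat_lit 5) (nat_lit 48) (nat_lit 5) (nat_lit 310) (nat_lit 302) (nat_lit 168)) (XT.lf (nat_lit 0) (nat_lit 2580225458) (nat_lit 304) (nat_lit 139994168825) (nat_lit 76) (nat_lit 7879906914) (nat_lit 37) (nat_lit 5) (nat_lit 41) (nat_lit 5) (nat_lit 38) (nat_lit 5) (nat_lit 311) (nat_lit 302) (nat_lit 167))) (XT.nd (nat_lit 78) (nat_lit 228) (nat_lit 0) (XT.lf (nat_lit 0) (nat_lit 17917331736) (nat_lit 304) (nat_lit 68997225192) (nat_lit 76) (nat_lit 70346671272) (nat_lit 37) (nat_lit 5) (nat_lit 41)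 (nat_lit 5) (nat_lit 38) (nat_lit 5) (nat_lit 312) (nat_lit 302) (nat_lit 166)) (XT.lf (nat_lit 0) (nat_lit 8083515573) (nat_lit 228) (nat_lit 26591991540) (nat_lit 304) (nat_lit 129921675044) (nat_lit 34) (nat_lit 5) (nat_lit 37) (nat_lit 5) (nat_lit 38) (nat_lit 5) (nat_lit 313) (nat_lit 302) (nat_lit 165))))))) (XT.nd (nat_lit 1170) (nat_lit 684) (nat_lit 0) (XT.nd (nat_lit 546) (nat_lit 608) (nat_lit 0) (XT.nd (nat_lit 234) (nat_lit 380) (nat_lit 0) (XT.nd (nat_lit 78) (nat_lit 228) (nat_lit 0) (XT.lf (nat_lit 0) (nat_lit 55636831263) (nat_lit 304) (nat_lit 78091068792) (nat_lit 76) (nat_lit 38563113576) (nat_lit 34) (nat_lit 5) (nat_lit 38) (nat_lit 5) (nat_lit 35) (nat_lit 5) (nat_lit 314) (nat_lit 302) (nat_lit 164)) (XT.nd (nat_lit 78) (nat_lit 0) (nat_lit 0) (XT.lf (nat_lit 0) (nat_lit 6225754888) (nat_lit 228) (nat_lit 72889465166) (nat_lit 304) (nat_lit 101417919594) (nat_lit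 31) (nat_lit 5) (nat_lit 34) (nat_lit 5) (nat_lit 35) (nat_lit 5) (nat_lit 315) (nat_lit 302) (nat_lit 163)) (XT.lf (nat_lit 0) (nat_lit 101728722470) (nat_lit 228) (nat_lit 4878046446) (nat_lit 304) (nat_lit 82657076383) (nat_lit 31) (nat_lit 5) (nat_lit 34) (nat_lit 5) (nat_lit 35) (nat_lit 5) (nat_lit 316) (nat_lit 302) (nat_lit 162)))) (XT.nd (nat_lit 156) (nat_lit 228) (nat_lit 0) (XT.nd (nat_lit 78) (nat_lit 0) (nat_lit 0) (XT.lf (nat_lit 0) (nat_lit 4767911082) (nat_lit 152) (nat_lit 133293371025) (nat_lit 228) (nat_lit 60490634679) (nat_lit 29) (nat_lit 5) (nat_lit 31) (nat_lit 5) (nat_lit 32) (nat_lit 5) (nat_lit 317) (nat_lit 302) (nat_lit 161)) (XT.lf (nat_lit 0) (nat_lit 109299715043) (nat_lit 152) (nat_lit 65249071057) (nat_lit 228) (nat_lit 33832918086) (nat_lit 29) (nat_lit 5) (nat_lit 31) (nat_lit 5) (nat_lit 32) (nat_lit 5) (nat_lit 318) (nat_lit 302) (nat_lit 160)))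 (XT.nd (nat_lit 78) (nat_lit 76) (nat_lit 0) (XT.lf (nat_lit 0) (nat_lit 3155610226) (nat_lit 152) (nat_lit 211073500456) (nat_lit 228) (nat_lit 4746858806) (nat_lit 27) (nat_lit 5) (nat_lit 29) (nat_lit 5) (nat_lit 30) (nat_lit 5) (nat_lit 319) (nat_lit 302) (nat_lit 159)) (XT.lf (nat_lit 0) (nat_lit 29806151850) (nat_lit 228) (nat_lit 113400714909) (nat_lit 76) (nat_lit 86801683134) (nat_lit 26) (nat_lit 5) (nat_lit 29) (nat_lit 5) (nat_lit 27) (nat_lit 5) (nat_lit 320) (nat_lit 302) (nat_lit 158))))) (XT.nd (nat_lit 312) (nat_lit 304) (nat_lit 0) (XT.nd (nat_lit 156) (nat_lit 152) (nat_lit 0) (XT.nd (nat_lit 78) (nat_lit 152) (nat_lit 0) (XT.lf (nat_lit 0) (nat_lit 66866753703) (nat_lit 228) (nat_lit 2911068518) (nat_lit 76) (nat_lit 172136067005) (nat_lit 26) (nat_lit 5) (nat_lit 29) (nat_lit 5) (nat_lit 27) (nat_lit 5) (nat_lit 321) (nat_lit 302) (nat_lit 157)) (XT.lf (nat_lit 0)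 (nat_lit 110144941148) (nat_lit 228) (nat_lit 132293694452) (nat_lit 76) (nat_lit 12072801503) (nat_lit 24) (nat_lit 5) (nat_lit 27) (nat_lit 5) (nat_lit 25) (nat_lit 5) (nat_lit 322) (nat_lit 302) (nat_lit 156))) (XT.nd (nat_lit 78) (nat_lit 152) (nat_lit 0) (XT.lf (nat_lit 0) (nat_lit 158779279941) (nat_lit 228) (nat_lit 12402746101) (nat_lit 76) (nat_lit 96783251419) (nat_lit 24) (nat_lit 5) (nat_lit 27) (nat_lit 5) (nat_lit 25) (nat_lit 5) (nat_lit 323) (nat_lit 302) (nat_lit 155)) (XT.lf (nat_lit 0) (nat_lit 123244422323) (nat_lit 152) (nat_lit 91023812099) (nat_lit 228) (nat_lit 67990081474) (nat_lit 22) (nat_lit 5) (nat_lit 24) (nat_lit 5) (nat_lit 25) (nat_lit 5) (nat_lit 324) (nat_lit 302) (nat_lit 154)))) (XT.nd (nat_lit 156) (nat_lit 152) (nat_lit 0) (XT.nd (nat_lit 78) (nat_lit 152) (nat_lit 0) (XT.lf (nat_lit 0) (nat_lit 270448484539) (nat_lit 152) (nat_lit 4086777450) (nat_lit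 228) (nat_lit 23132419188) (nat_lit 22) (nat_lit 5) (nat_lit 24) (nat_lit 5) (nat_lit 25) (nat_lit 5) (nat_lit 325) (nat_lit 302) (nat_lit 153)) (XT.lf (nat_lit 0) (nat_lit 29197321561) (nat_lit 152) (nat_lit 195740164020) (nat_lit 76) (nat_lit 88911625091) (nat_lit 20) (nat_lit 5) (nat_lit 22) (nat_lit 5) (nat_lit 21) (nat_lit 5) (nat_lit 326) (nat_lit 302) (nat_lit 152))) (XT.nd (nat_lit 78) (nat_lit 152) (nat_lit 0) (XT.lf (nat_lit 0) (nat_lit 85333246751) (nat_lit 152) (nat_lit 55380747821) (nat_lit 76) (nat_lit 190493428304) (nat_lit 20) (nat_lit 5) (nat_lit 22) (nat_lit 5) (nat_lit 21) (nat_lit 5) (nat_lit 327) (nat_lit 302) (nat_lit 151)) (XT.lf (nat_lit 0) (nat_lit 101273310140) (nat_lit 152) (nat_lit 47122227197) (nat_lit 228) (nat_lit 201364023634) (nat_lit 18) (nat_lit 5) (nat_lit 20) (nat_lit 5) (nat_lit 21) (nat_lit 5) (nat_lit 328) (nat_lit 302) (nat_lit 150)))))) (XT.nd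 (nat_lit 624) (nat_lit 304) (nat_lit 0) (XT.nd (nat_lit 312) (nat_lit 76) (nat_lit 0) (XT.nd (nat_lit 156) (nat_lit 228) (nat_lit 0) (XT.nd (nat_lit 78) (nat_lit 76) (nat_lit 0) (XT.lf (nat_lit 0) (nat_lit 219353882245) (nat_lit 228) (nat_lit 97402698878) (nat_lit 76) (nat_lit 52811203518) (nat_lit 18) (nat_lit 5) (nat_lit 21) (nat_lit 5) (nat_lit 19) (nat_lit 4) (nat_lit 329) (nat_lit 302) (nat_lit 149)) (XT.lf (nat_lit 0) (nat_lit 67942123508) (nat_lit 76) (nat_lit 230904613517) (nat_lit 152) (nat_lit 91885301991) (nat_lit 17) (nat_lit 5) (nat_lit 18) (nat_lit 5) (nat_lit 19) (nat_lit 4) (nat_lit 330) (nat_lit 302) (nat_lit 148))) (XT.nd (nat_lit 78) (nat_lit 228) (nat_lit 0) (XT.lf (nat_lit 0) (nat_lit 252053714582) (nat_lit 76) (nat_lit 135308350931) (nat_lit 152) (nat_lit 26014324782) (nat_lit 17) (nat_lit 5) (nat_lit 18) (nat_lit 5) (nat_lit 19) (nat_lit 4) (nat_lit 331) (nat_lit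 302) (nat_lit 147)) (XT.lf (nat_lit 0) (nat_lit 12607127002) (nat_lit 152) (nat_lit 30564892112) (nat_lit 228) (nat_lit 394549200346) (nat_lit 14) (nat_lit 5) (nat_lit 16) (nat_lit 5) (nat_lit 17) (nat_lit 5) (nat_lit 332) (nat_lit 302) (nat_lit 146)))) (XT.nd (nat_lit 156) (nat_lit 76) (nat_lit 0) (XT.nd (nat_lit 78) (nat_lit 0) (nat_lit 0) (XT.lf (nat_lit 0) (nat_lit 122998650254) (nat_lit 228) (nat_lit 256810865549) (nat_lit 76) (nat_lit 83629197240) (nat_lit 14) (nat_lit 5) (nat_lit 17) (nat_lit 5) (nat_lit 15) (nat_lit 4) (nat_lit 333) (nat_lit 302) (nat_lit 145)) (XT.lf (nat_lit 0) (nat_lit 210005203999) (nat_lit 228) (nat_lit 75837448522) (nat_lit 76) (nat_lit 205307450356) (nat_lit 14) (nat_lit 5) (nat_lit 17) (nat_lit 5) (nat_lit 15) (nat_lit 4) (nat_lit 334) (nat_lit 302) (nat_lit 144))) (XT.nd (nat_lit 78) (nat_lit 0) (nat_lit 0) (XT.lf (nat_lit 0) (nat_lit 125912324493) (nat_lit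 76) (nat_lit 181088058289) (nat_lit 152) (nat_lit 213835773179) (nat_lit 13) (nat_lit 5) (nat_lit 14) (nat_lit 5) (nat_lit 15) (nat_lit 4) (nat_lit 335) (nat_lit 302) (nat_lit 143)) (XT.lf (nat_lit 0) (nat_lit 348114864550) (nat_lit 76) (nat_lit 65713751012) (nat_lit 152) (nat_lit 138902602669) (nat_lit 13) (nat_lit 5) (nat_lit 14) (nat_lit 5) (nat_lit 15) (nat_lit 4) (nat_lit 336) (nat_lit 302) (nat_lit 142))))) (XT.nd (nat_lit 312) (nat_lit 76) (nat_lit 0) (XT.nd (nat_lit 156) (nat_lit 76) (nat_lit 0) (XT.nd (nat_lit 78) (nat_lit 152) (nat_lit 0) (XT.lf (nat_lit 0) (nat_lit 530619339593) (nat_lit 152) (nat_lit 500746963) (nat_lit 0) (nat_lit 55944500421) (nat_lit 13) (nat_lit 5) (nat_lit 15) (nat_lit 4) (nat_lit 13) (nat_lit 4) (nat_lit 337) (nat_lit 302) (nat_lit 141)) (XT.lf (nat_lit 0) (nat_lit 38397077126) (nat_lit 152) (nat_lit 394809064913) (nat_lit 76) (nat_lit 190282176092)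 (nat_lit 11) (nat_lit 5) (nat_lit 13) (nat_lit 5) (nat_lit 12) (nat_lit 4) (nat_lit 338) (nat_lit 302) (nat_lit 140))) (XT.nd (nat_lit 78) (nat_lit 76) (nat_lit 0) (XT.lf (nat_lit 0) (nat_lit 137791246541) (nat_lit 152) (nat_lit 188069327866) (nat_lit 76) (nat_lit 336846967154) (nat_lit 11) (nat_lit 5) (nat_lit 13) (nat_lit 5) (nat_lit 12) (nat_lit 4) (nat_lit 339) (nat_lit 302) (nat_lit 139)) (XT.lf (nat_lit 0) (nat_lit 37063525431) (nat_lit 76) (nat_lit 208964730056) (nat_lit 152) (nat_lit 458964742977) (nat_lit 10) (nat_lit 5) (nat_lit 11) (nat_lit 5) (nat_lit 12) (nat_lit 4) (nat_lit 340) (nat_lit 302) (nat_lit 138)))) (XT.nd (nat_lit 156) (nat_lit 76) (nat_lit 0) (XT.nd (nat_lit 78) (nat_lit 0) (nat_lit 0) (XT.lf (nat_lit 0) (nat_lit 290902549250) (nat_lit 76) (nat_lit 77163754242) (nat_lit 152) (nat_lit 382183622235) (nat_lit 10) (nat_lit 5) (nat_lit 11) (nat_lit 5) (nat_lit 12)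 (nat_lit 4) (nat_lit 341) (nat_lit 302) (nat_lit 137)) (XT.lf (nat_lit 0) (nat_lit 501434940739) (nat_lit 152) (nat_lit 235646445686) (nat_lit 0) (nat_lit 61920617176) (nat_lit 10) (nat_lit 5) (nat_lit 12) (nat_lit 4) (nat_lit 10) (nat_lit 4) (nat_lit 342) (nat_lit 302) (nat_lit 136))) (XT.nd (nat_lit 78) (nat_lit 0) (nat_lit 0) (XT.lf (nat_lit 0) (nat_lit 4153993114) (nat_lit 76) (nat_lit 643423171343) (nat_lit 76) (nat_lit 203908755672) (nat_lit 9) (nat_lit 4) (nat_lit 10) (nat_lit 5) (nat_lit 10) (nat_lit 4) (nat_lit 343) (nat_lit 302) (nat_lit 135)) (XT.lf (nat_lit 0) (nat_lit 276539779383) (nat_lit 76) (nat_lit 535313918531) (nat_lit 76) (nat_lit 95799417575) (nat_lit 9) (nat_lit 4) (nat_lit 10) (nat_lit 5) (nat_lit 10) (nat_lit 4) (nat_lit 344) (nat_lit 302) (nat_lit 134))))))))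
noncomputable def xc109 : XT := (XT.nd (nat_lit 38454) (nat_lit 0) (nat_lit 304) (XT.nd (nat_lit 1170) (nat_lit 0) (nat_lit 0) (XT.nd (nat_lit 546) (nat_lit 152) (nat_lit 0) (XT.nd (nat_lit 234) (nat_lit 76) (nat_lit 0) (XT.nd (nat_lit 78) (nat_lit 76) (nat_lit 0) (XT.lf (nat_lit 0) (nat_lit 19910173479) (nat_lit 152) (nat_lit 398101419086) (nat_lit 76) (nat_lit 550261773978) (nat_lit 8) (nat_lit 5) (nat_lit 10) (nat_lit 5) (nat_lit 9) (nat_lit 4) (nat_lit 345) (nat_lit 302) (nat_lit 133)) (XT.nd (nat_lit 78) (nat_lit 76) (nat_lit 0) (XT.lf (nat_lit 0) (nat_lit 139700822515) (nat_lit 152) (nat_lit 148936942210) (nat_lit 76) (nat_lit 744906413473) (nat_lit 8) (nat_lit 5) (nat_lit 10) (nat_lit 5) (nat_lit 9) (nat_lit 4) (nat_lit 346) (nat_lit 302) (nat_lit 132)) (XT.lf (nat_lit 0) (nat_lit 126488047464) (nat_lit 76) (nat_lit 145628668020) (nat_lit 152) (nat_lit 831676579982) (nat_lit 7)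 (nat_lit 5) (nat_lit 8) (nat_lit 5) (nat_lit 9) (nat_lit 4) (nat_lit 347) (nat_lit 302) (nat_lit 131)))) (XT.nd (nat_lit 156) (nat_lit 76) (nat_lit 0) (XT.nd (nat_lit 78) (nat_lit 0) (nat_lit 0) (XT.lf (nat_lit 0) (nat_lit 419515952232) (nat_lit 152) (nat_lit 747237364711) (nat_lit 0) (nat_lit 12557819425) (nat_lit 7) (nat_lit 5) (nat_lit 9) (nat_lit 4) (nat_lit 7) (nat_lit 4) (nat_lit 348) (nat_lit 302) (nat_lit 130)) (XT.lf (nat_lit 0) (nat_lit 582489646233) (nat_lit 152) (nat_lit 502546697196) (nat_lit 0) (nat_lit 175531459682) (nat_lit 7) (nat_lit 5) (nat_lit 9) (nat_lit 4) (nat_lit 7) (nat_lit 4) (nat_lit 349) (nat_lit 302) (nat_lit 129))) (XT.nd (nat_lit 78) (nat_lit 76) (nat_lit 0) (XT.lf (nat_lit 0) (nat_lit 758501194558) (nat_lit 152) (nat_lit 238280853720) (nat_lit 0) (nat_lit 351542958244) (nat_lit 7) (nat_lit 5) (nat_lit 9) (nat_lit 4) (nat_lit 7) (nat_lit 4) (nat_lit 350)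 (nat_lit 302) (nat_lit 128)) (XT.lf (nat_lit 0) (nat_lit 49607766945) (nat_lit 76) (nat_lit 900178929649) (nat_lit 76) (nat_lit 493220647258) (nat_lit 6) (nat_lit 4) (nat_lit 7) (nat_lit 5) (nat_lit 7) (nat_lit 4) (nat_lit 351) (nat_lit 302) (nat_lit 127))))) (XT.nd (nat_lit 312) (nat_lit 76) (nat_lit 0) (XT.nd (nat_lit 156) (nat_lit 76) (nat_lit 0) (XT.nd (nat_lit 78) (nat_lit 0) (nat_lit 0) (XT.lf (nat_lit 0) (nat_lit 374078650662) (nat_lit 76) (nat_lit 788811371941) (nat_lit 76) (nat_lit 381853046887) (nat_lit 6) (nat_lit 4) (nat_lit 7) (nat_lit 5) (nat_lit 7) (nat_lit 4) (nat_lit 352) (nat_lit 302) (nat_lit 126)) (XT.lf (nat_lit 0) (nat_lit 724507140366) (nat_lit 76) (nat_lit 668534440070) (nat_lit 76) (nat_lit 261576075511) (nat_lit 6) (nat_lit 4) (nat_lit 7) (nat_lit 5) (nat_lit 7) (nat_lit 4) (nat_lit 353) (nat_lit 302) (nat_lit 125))) (XT.nd (nat_lit 78) (nat_lit 76) (nat_lit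 0) (XT.lf (nat_lit 0) (nat_lit 1102969849329) (nat_lit 76) (nat_lit 538635381845) (nat_lit 76) (nat_lit 131676980709) (nat_lit 6) (nat_lit 4) (nat_lit 7) (nat_lit 5) (nat_lit 7) (nat_lit 4) (nat_lit 354) (nat_lit 302) (nat_lit 124)) (XT.lf (nat_lit 0) (nat_lit 8183102269) (nat_lit 152) (nat_lit 389937582282) (nat_lit 76) (nat_lit 1503302676742) (nat_lit 5) (nat_lit 5) (nat_lit 7) (nat_lit 5) (nat_lit 6) (nat_lit 4) (nat_lit 355) (nat_lit 302) (nat_lit 123)))) (XT.nd (nat_lit 156) (nat_lit 0) (nat_lit 0) (XT.nd (nat_lit 78) (nat_lit 76) (nat_lit 0) (XT.lf (nat_lit 0) (nat_lit 152117986825) (nat_lit 152) (nat_lit 90553053766) (nat_lit 76) (nat_lit 1796871149814) (nat_lit 5) (nat_lit 5) (nat_lit 7) (nat_lit 5) (nat_lit 6) (nat_lit 4) (nat_lit 356) (nat_lit 302) (nat_lit 122)) (XT.lf (nat_lit 0) (nat_lit 245040085587) (nat_lit 76) (nat_lit 68420770655) (nat_lit 152) (nat_lit 1874778214092)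 (nat_lit 4) (nat_lit 5) (nat_lit 5) (nat_lit 5) (nat_lit 6) (nat_lit 4) (nat_lit 357) (nat_lit 302) (nat_lit 121))) (XT.nd (nat_lit 78) (nat_lit 0) (nat_lit 0) (XT.lf (nat_lit 0) (nat_lit 493131779003) (nat_lit 152) (nat_lit 1738947939328) (nat_lit 0) (nat_lit 116318332443) (nat_lit 4) (nat_lit 5) (nat_lit 6) (nat_lit 4) (nat_lit 4) (nat_lit 4) (nat_lit 358) (nat_lit 302) (nat_lit 120)) (XT.lf (nat_lit 0) (nat_lit 688953514726) (nat_lit 152) (nat_lit 1520134018689) (nat_lit 0) (nat_lit 312140045116) (nat_lit 4) (nat_lit 5) (nat_lit 6) (nat_lit 4) (nat_lit 4) (nat_lit 4) (nat_lit 359) (nat_lit 302) (nat_lit 119)))))) (XT.nd (nat_lit 36660) (nat_lit 0) (nat_lit 2052) (XT.nd (nat_lit 36348) (nat_lit 0) (nat_lit 3116) (XT.nd (nat_lit 36192) (nat_lit 0) (nat_lit 3040) (XT.nd (nat_lit 78) (nat_lit 0) (nat_lit 0) (XT.lf (nat_lit 0) (nat_lit 900440967333) (nat_lit 152) (nat_lit 1283815026567)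 (nat_lit 0) (nat_lit 523627476381) (nat_lit 4) (nat_lit 5) (nat_lit 6) (nat_lit 4) (nat_lit 4) (nat_lit 4) (nat_lit 360) (nat_lit 302) (nat_lit 118)) (XT.lf (nat_lit 0) (nat_lit 1128847395803) (nat_lit 152) (nat_lit 1028590554119) (nat_lit 0) (nat_lit 752033885090) (nat_lit 4) (nat_lit 5) (nat_lit 6) (nat_lit 4) (nat_lit 4) (nat_lit 4) (nat_lit 361) (nat_lit 302) (nat_lit 117))) (XT.nd (nat_lit 78) (nat_lit 0) (nat_lit 0) (XT.lf (nat_lit 0) (nat_lit 33422139674) (nat_lit 532) (nat_lit 11250229060) (nat_lit 532) (nat_lit 11250229060) (nat_lit 44) (nat_lit 3) (nat_lit 51) (nat_lit 3) (nat_lit 51) (nat_lit 5) (nat_lit 303) (nat_lit 303) (nat_lit 174)) (XT.lf (nat_lit 76) (nat_lit 29726856783) (nat_lit 0) (nat_lit 40510893542) (nat_lit 532) (nat_lit 46023661521) (nat_lit 45) (nat_lit 5) (nat_lit 44) (nat_lit 3) (nat_lit 51) (nat_lit 5) (nat_lit 304) (nat_lit 303) (nat_lit 173)))) (XT.nd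 (nat_lit 156) (nat_lit 0) (nat_lit 0) (XT.nd (nat_lit 78) (nat_lit 0) (nat_lit 0) (XT.lf (nat_lit 0) (nat_lit 74827525730) (nat_lit 456) (nat_lit 33880151517) (nat_lit 532) (nat_lit 12249263575) (nat_lit 45) (nat_lit 5) (nat_lit 51) (nat_lit 5) (nat_lit 52) (nat_lit 5) (nat_lit 305) (nat_lit 303) (nat_lit 172)) (XT.lf (nat_lit 76) (nat_lit 23089089246) (nat_lit 0) (nat_lit 58302475018) (nat_lit 532) (nat_lit 44507982808) (nat_lit 46) (nat_lit 5) (nat_lit 45) (nat_lit 5) (nat_lit 52) (nat_lit 5) (nat_lit 306) (nat_lit 303) (nat_lit 171))) (XT.nd (nat_lit 78) (nat_lit 0) (nat_lit 76) (XT.lf (nat_lit 76) (nat_lit 86542377126) (nat_lit 0) (nat_lit 2864275014) (nat_lit 532) (nat_lit 41756836918) (nat_lit 46) (nat_lit 5) (nat_lit 45) (nat_lit 5) (nat_lit 52) (nat_lit 5) (nat_lit 307) (nat_lit 303) (nat_lit 170)) (XT.lf (nat_lit 76) (nat_lit 17739411249) (nat_lit 0) (nat_lit 82120853113) (nat_lit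 532) (nat_lit 36844497892) (nat_lit 47) (nat_lit 5) (nat_lit 46) (nat_lit 5) (nat_lit 53) (nat_lit 5) (nat_lit 308) (nat_lit 303) (nat_lit 169))))) (XT.nd (nat_lit 312) (nat_lit 456) (nat_lit 0) (XT.nd (nat_lit 156) (nat_lit 304) (nat_lit 0) (XT.nd (nat_lit 78) (nat_lit 380) (nat_lit 0) (XT.lf (nat_lit 76) (nat_lit 87547811489) (nat_lit 0) (nat_lit 24894525683) (nat_lit 532) (nat_lit 30143627553) (nat_lit 47) (nat_lit 5) (nat_lit 46) (nat_lit 5) (nat_lit 53) (nat_lit 5) (nat_lit 309) (nat_lit 303) (nat_lit 168)) (XT.lf (nat_lit 0) (nat_lit 13805860899) (nat_lit 456) (nat_lit 113444496764) (nat_lit 532) (nat_lit 21589756242) (nat_lit 41) (nat_lit 5) (nat_lit 47) (nat_lit 5) (nat_lit 48) (nat_lit 5) (nat_lit 310) (nat_lit 303) (nat_lit 167))) (XT.nd (nat_lit 78) (nat_lit 304) (nat_lit 0) (XT.lf (nat_lit 0) (nat_lit 90606511506) (nat_lit 456) (nat_lit 54771274157) (nat_lit 532) (nat_lit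 10046029068) (nat_lit 41) (nat_lit 5) (nat_lit 47) (nat_lit 5) (nat_lit 48) (nat_lit 5) (nat_lit 311) (nat_lit 303) (nat_lit 166)) (XT.lf (nat_lit 0) (nat_lit 2792655344) (nat_lit 304) (nat_lit 151187292519) (nat_lit 76) (nat_lit 8510200049) (nat_lit 37) (nat_lit 5) (nat_lit 41) (nat_lit 5) (nat_lit 38) (nat_lit 5) (nat_lit 312) (nat_lit 303) (nat_lit 165)))) (XT.nd (nat_lit 156) (nat_lit 228) (nat_lit 0) (XT.nd (nat_lit 78) (nat_lit 228) (nat_lit 0) (XT.lf (nat_lit 0) (nat_lit 19356284802) (nat_lit 304) (nat_lit 74511068196) (nat_lit 76) (nat_lit 75974312920) (nat_lit 37) (nat_lit 5) (nat_lit 41) (nat_lit 5) (nat_lit 38) (nat_lit 5) (nat_lit 313) (nat_lit 303) (nat_lit 164)) (XT.lf (nat_lit 0) (nat_lit 8735981577) (nat_lit 228) (nat_lit 28718859420) (nat_lit 304) (nat_lit 140309678178) (nat_lit 34) (nat_lit 5) (nat_lit 37) (nat_lit 5) (nat_lit 38) (nat_lit 5) (nat_lit 314) (nat_lit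 303) (nat_lit 163))) (XT.nd (nat_lit 78) (nat_lit 228) (nat_lit 0) (XT.lf (nat_lit 0) (nat_lit 60092689926) (nat_lit 304) (nat_lit 84332603839) (nat_lit 76) (nat_lit 41648594939) (nat_lit 34) (nat_lit 5) (nat_lit 38) (nat_lit 5) (nat_lit 35) (nat_lit 5) (nat_lit 315) (nat_lit 303) (nat_lit 162)) (XT.lf (nat_lit 0) (nat_lit 6729420154) (nat_lit 228) (nat_lit 78719700599) (nat_lit 304) (nat_lit 109526283340) (nat_lit 31) (nat_lit 5) (nat_lit 34) (nat_lit 5) (nat_lit 35) (nat_lit 5) (nat_lit 316) (nat_lit 303) (nat_lit 161))))))) (XT.nd (nat_lit 1170) (nat_lit 684) (nat_lit 0) (XT.nd (nat_lit 546) (nat_lit 532) (nat_lit 0) (XT.nd (nat_lit 234) (nat_lit 380) (nat_lit 0) (XT.nd (nat_lit 78) (nat_lit 152) (nat_lit 0) (XT.lf (nat_lit 0) (nat_lit 109872209967) (nat_lit 228) (nat_lit 5267436661) (nat_lit 304) (nat_lit 89264948215) (nat_lit 31) (nat_lit 5) (nat_lit 34) (nat_lit 5) (nat_lit 35)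 (nat_lit 5) (nat_lit 317) (nat_lit 303) (nat_lit 160)) (XT.nd (nat_lit 78) (nat_lit 0) (nat_lit 0) (XT.lf (nat_lit 0) (nat_lit 5154731291) (nat_lit 152) (nat_lit 143955616956) (nat_lit 228) (nat_lit 65325378442) (nat_lit 29) (nat_lit 5) (nat_lit 31) (nat_lit 5) (nat_lit 32) (nat_lit 5) (nat_lit 318) (nat_lit 303) (nat_lit 159)) (XT.lf (nat_lit 0) (nat_lit 118048680508) (nat_lit 152) (nat_lit 70467863639) (nat_lit 228) (nat_lit 36535378374) (nat_lit 29) (nat_lit 5) (nat_lit 31) (nat_lit 5) (nat_lit 32) (nat_lit 5) (nat_lit 319) (nat_lit 303) (nat_lit 158)))) (XT.nd (nat_lit 156) (nat_lit 152) (nat_lit 0) (XT.nd (nat_lit 78) (nat_lit 76) (nat_lit 0) (XT.lf (nat_lit 0) (nat_lit 3413204410) (nat_lit 152) (nat_lit 227957953696) (nat_lit 228) (nat_lit 5122582577) (nat_lit 27) (nat_lit 5) (nat_lit 29) (nat_lit 5) (nat_lit 30) (nat_lit 5) (nat_lit 320) (nat_lit 303) (nat_lit 157)) (XT.lf (nat_lit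 0) (nat_lit 32194184359) (nat_lit 228) (nat_lit 122467813834) (nat_lit 76) (nat_lit 93746944851) (nat_lit 26) (nat_lit 5) (nat_lit 29) (nat_lit 5) (nat_lit 27) (nat_lit 5) (nat_lit 321) (nat_lit 303) (nat_lit 156))) (XT.nd (nat_lit 78) (nat_lit 152) (nat_lit 0) (XT.lf (nat_lit 0) (nat_lit 72219372112) (nat_lit 228) (nat_lit 3139363010) (nat_lit 76) (nat_lit 185907995946) (nat_lit 26) (nat_lit 5) (nat_lit 29) (nat_lit 5) (nat_lit 27) (nat_lit 5) (nat_lit 322) (nat_lit 303) (nat_lit 155)) (XT.lf (nat_lit 0) (nat_lit 118959711378) (nat_lit 228) (nat_lit 142872489319) (nat_lit 76) (nat_lit 13039890853) (nat_lit 24) (nat_lit 5) (nat_lit 27) (nat_lit 5) (nat_lit 25) (nat_lit 5) (nat_lit 323) (nat_lit 303) (nat_lit 154))))) (XT.nd (nat_lit 312) (nat_lit 228) (nat_lit 0) (XT.nd (nat_lit 156) (nat_lit 152) (nat_lit 0) (XT.nd (nat_lit 78) (nat_lit 152) (nat_lit 0) (XT.lf (nat_lit 0) (nat_lit 171484562094)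 (nat_lit 228) (nat_lit 13390613299) (nat_lit 76) (nat_lit 104527083041) (nat_lit 24) (nat_lit 5) (nat_lit 27) (nat_lit 5) (nat_lit 25) (nat_lit 5) (nat_lit 324) (nat_lit 303) (nat_lit 153)) (XT.lf (nat_lit 0) (nat_lit 133108218408) (nat_lit 152) (nat_lit 98304298793) (nat_lit 228) (nat_lit 73426232450) (nat_lit 22) (nat_lit 5) (nat_lit 24) (nat_lit 5) (nat_lit 25) (nat_lit 5) (nat_lit 325) (nat_lit 303) (nat_lit 152))) (XT.nd (nat_lit 78) (nat_lit 152) (nat_lit 0) (XT.lf (nat_lit 0) (nat_lit 292088291358) (nat_lit 152) (nat_lit 4412406429) (nat_lit 228) (nat_lit 24980183518) (nat_lit 22) (nat_lit 5) (nat_lit 24) (nat_lit 5) (nat_lit 25) (nat_lit 5) (nat_lit 326) (nat_lit 303) (nat_lit 151)) (XT.lf (nat_lit 0) (nat_lit 31535724745) (nat_lit 152) (nat_lit 211395228102) (nat_lit 76) (nat_lit 96025872841) (nat_lit 20) (nat_lit 5) (nat_lit 22) (nat_lit 5) (nat_lit 21) (nat_lit 5) (nat_lit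 327) (nat_lit 303) (nat_lit 150)))) (XT.nd (nat_lit 156) (nat_lit 76) (nat_lit 0) (XT.nd (nat_lit 78) (nat_lit 152) (nat_lit 0) (XT.lf (nat_lit 0) (nat_lit 92162330064) (nat_lit 152) (nat_lit 59807365942) (nat_lit 76) (nat_lit 205734122701) (nat_lit 20) (nat_lit 5) (nat_lit 22) (nat_lit 5) (nat_lit 21) (nat_lit 5) (nat_lit 328) (nat_lit 303) (nat_lit 149)) (XT.lf (nat_lit 0) (nat_lit 109378919397) (nat_lit 152) (nat_lit 50890595030) (nat_lit 228) (nat_lit 217470620886) (nat_lit 18) (nat_lit 5) (nat_lit 20) (nat_lit 5) (nat_lit 21) (nat_lit 5) (nat_lit 329) (nat_lit 303) (nat_lit 148))) (XT.nd (nat_lit 78) (nat_lit 76) (nat_lit 0) (XT.lf (nat_lit 0) (nat_lit 236904385438) (nat_lit 228) (nat_lit 105191302693) (nat_lit 76) (nat_lit 57037340347) (nat_lit 18) (nat_lit 5) (nat_lit 21) (nat_lit 5) (nat_lit 19) (nat_lit 4) (nat_lit 330) (nat_lit 303) (nat_lit 147)) (XT.lf (nat_lit 0) (nat_lit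 73381014038) (nat_lit 76) (nat_lit 249375576818) (nat_lit 152) (nat_lit 99233838828) (nat_lit 17) (nat_lit 5) (nat_lit 18) (nat_lit 5) (nat_lit 19) (nat_lit 4) (nat_lit 331) (nat_lit 303) (nat_lit 146)))))) (XT.nd (nat_lit 624) (nat_lit 228) (nat_lit 0) (XT.nd (nat_lit 312) (nat_lit 228) (nat_lit 0) (XT.nd (nat_lit 156) (nat_lit 0) (nat_lit 0) (XT.nd (nat_lit 78) (nat_lit 228) (nat_lit 0) (XT.lf (nat_lit 0) (nat_lit 272221271610) (nat_lit 76) (nat_lit 146131717357) (nat_lit 152) (nat_lit 28093352873) (nat_lit 17) (nat_lit 5) (nat_lit 18) (nat_lit 5) (nat_lit 19) (nat_lit 4) (nat_lit 332) (nat_lit 303) (nat_lit 145)) (XT.lf (nat_lit 0) (nat_lit 13618980486) (nat_lit 152) (nat_lit 33008742034) (nat_lit 228) (nat_lit 426111036555) (nat_lit 14) (nat_lit 5) (nat_lit 16) (nat_lit 5) (nat_lit 17) (nat_lit 5) (nat_lit 333) (nat_lit 303) (nat_lit 144))) (XT.nd (nat_lit 78) (nat_lit 0) (nat_lit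 0) (XT.lf (nat_lit 0) (nat_lit 132840370181) (nat_lit 228) (nat_lit 277352578308) (nat_lit 76) (nat_lit 90320712966) (nat_lit 14) (nat_lit 5) (nat_lit 17) (nat_lit 5) (nat_lit 15) (nat_lit 4) (nat_lit 334) (nat_lit 303) (nat_lit 143)) (XT.lf (nat_lit 0) (nat_lit 226807312825) (nat_lit 228) (nat_lit 81901521733) (nat_lit 76) (nat_lit 221733138928) (nat_lit 14) (nat_lit 5) (nat_lit 17) (nat_lit 5) (nat_lit 15) (nat_lit 4) (nat_lit 335) (nat_lit 303) (nat_lit 142)))) (XT.nd (nat_lit 156) (nat_lit 152) (nat_lit 0) (XT.nd (nat_lit 78) (nat_lit 0) (nat_lit 0) (XT.lf (nat_lit 0) (nat_lit 135988159132) (nat_lit 76) (nat_lit 195573889919) (nat_lit 152) (nat_lit 230940866479) (nat_lit 13) (nat_lit 5) (nat_lit 14) (nat_lit 5) (nat_lit 15) (nat_lit 4) (nat_lit 336) (nat_lit 303) (nat_lit 141)) (XT.lf (nat_lit 0) (nat_lit 375966691381) (nat_lit 76) (nat_lit 70969727913) (nat_lit 152) (nat_lit 150013173332)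 (nat_lit 13) (nat_lit 5) (nat_lit 14) (nat_lit 5) (nat_lit 15) (nat_lit 4) (nat_lit 337) (nat_lit 303) (nat_lit 140))) (XT.nd (nat_lit 78) (nat_lit 152) (nat_lit 0) (XT.lf (nat_lit 0) (nat_lit 573070314075) (nat_lit 152) (nat_lit 538275500) (nat_lit 0) (nat_lit 60421048412) (nat_lit 13) (nat_lit 5) (nat_lit 15) (nat_lit 4) (nat_lit 13) (nat_lit 4) (nat_lit 338) (nat_lit 303) (nat_lit 139)) (XT.lf (nat_lit 0) (nat_lit 41470261637) (nat_lit 152) (nat_lit 426391246768) (nat_lit 76) (nat_lit 205505760197) (nat_lit 11) (nat_lit 5) (nat_lit 13) (nat_lit 5) (nat_lit 12) (nat_lit 4) (nat_lit 339) (nat_lit 303) (nat_lit 138))))) (XT.nd (nat_lit 312) (nat_lit 152) (nat_lit 0) (XT.nd (nat_lit 156) (nat_lit 0) (nat_lit 0) (XT.nd (nat_lit 78) (nat_lit 76) (nat_lit 0) (XT.lf (nat_lit 0) (nat_lit 148815859543) (nat_lit 152) (nat_lit 203112519152) (nat_lit 76) (nat_lit 363795659728) (nat_lit 11) (nat_lit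 5) (nat_lit 13) (nat_lit 5) (nat_lit 12) (nat_lit 4) (nat_lit 340) (nat_lit 303) (nat_lit 137)) (XT.lf (nat_lit 0) (nat_lit 40030902790) (nat_lit 76) (nat_lit 225680884339) (nat_lit 152) (nat_lit 495680548221) (nat_lit 10) (nat_lit 5) (nat_lit 11) (nat_lit 5) (nat_lit 12) (nat_lit 4) (nat_lit 341) (nat_lit 303) (nat_lit 136))) (XT.nd (nat_lit 78) (nat_lit 0) (nat_lit 0) (XT.lf (nat_lit 0) (nat_lit 314176878489) (nat_lit 76) (nat_lit 83335906320) (nat_lit 152) (nat_lit 412757039611) (nat_lit 10) (nat_lit 5) (nat_lit 11) (nat_lit 5) (nat_lit 12) (nat_lit 4) (nat_lit 342) (nat_lit 303) (nat_lit 135)) (XT.lf (nat_lit 0) (nat_lit 541550846966) (nat_lit 152) (nat_lit 254496126288) (nat_lit 0) (nat_lit 66875100648) (nat_lit 10) (nat_lit 5) (nat_lit 12) (nat_lit 4) (nat_lit 10) (nat_lit 4) (nat_lit 343) (nat_lit 303) (nat_lit 134)))) (XT.nd (nat_lit 156) (nat_lit 76) (nat_lit 0) (XT.nd (nat_lit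 78) (nat_lit 0) (nat_lit 0) (XT.lf (nat_lit 0) (nat_lit 4488296096) (nat_lit 76) (nat_lit 694896117895) (nat_lit 76) (nat_lit 220220292609) (nat_lit 9) (nat_lit 4) (nat_lit 10) (nat_lit 5) (nat_lit 10) (nat_lit 4) (nat_lit 344) (nat_lit 303) (nat_lit 133)) (XT.lf (nat_lit 0) (nat_lit 298664798339) (nat_lit 76) (nat_lit 578138192055) (nat_lit 76) (nat_lit 103462293651) (nat_lit 9) (nat_lit 4) (nat_lit 10) (nat_lit 5) (nat_lit 10) (nat_lit 4) (nat_lit 345) (nat_lit 303) (nat_lit 132))) (XT.nd (nat_lit 78) (nat_lit 0) (nat_lit 0) (XT.lf (nat_lit 0) (nat_lit 21503934985) (nat_lit 152) (nat_lit 429947781336) (nat_lit 76) (nat_lit 594283442919) (nat_lit 8) (nat_lit 5) (nat_lit 10) (nat_lit 5) (nat_lit 9) (nat_lit 4) (nat_lit 346) (nat_lit 303) (nat_lit 131)) (XT.lf (nat_lit 0) (nat_lit 150877765749) (nat_lit 152) (nat_lit 160850276034) (nat_lit 76) (nat_lit 804499599720) (nat_lit 8) (nat_lit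 5) (nat_lit 10) (nat_lit 5) (nat_lit 9) (nat_lit 4) (nat_lit 347) (nat_lit 303) (nat_lit 130))))))))
noncomputable def xc110 : XT := (XT.nd (nat_lit 38454) (nat_lit 0) (nat_lit 228) (XT.nd (nat_lit 37284) (nat_lit 0) (nat_lit 1900) (XT.nd (nat_lit 546) (nat_lit 152) (nat_lit 0) (XT.nd (nat_lit 234) (nat_lit 76) (nat_lit 0) (XT.nd (nat_lit 78) (nat_lit 0) (nat_lit 0) (XT.lf (nat_lit 0) (nat_lit 136608671762) (nat_lit 76) (nat_lit 157278231409) (nat_lit 152) (nat_lit 898209787195) (nat_lit 7) (nat_lit 5) (nat_lit 8) (nat_lit 5) (nat_lit 9) (nat_lit 4) (nat_lit 348) (nat_lit 303) (nat_lit 129)) (XT.nd (nat_lit 78) (nat_lit 0) (nat_lit 0) (XT.lf (nat_lit 0) (nat_lit 453078032120) (nat_lit 152) (nat_lit 807014843073) (nat_lit 0) (nat_lit 13563087138) (nat_lit 7) (nat_lit 5) (nat_lit 9) (nat_lit 4) (nat_lit 7) (nat_lit 4) (nat_lit 349) (nat_lit 303) (nat_lit 128)) (XT.lf (nat_lit 0) (nat_lit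 629089562107) (nat_lit 152) (nat_lit 542749034070) (nat_lit 0) (nat_lit 189574571048) (nat_lit 7) (nat_lit 5) (nat_lit 9) (nat_lit 4) (nat_lit 7) (nat_lit 4) (nat_lit 350) (nat_lit 303) (nat_lit 127)))) (XT.nd (nat_lit 156) (nat_lit 0) (nat_lit 0) (XT.nd (nat_lit 78) (nat_lit 76) (nat_lit 0) (XT.lf (nat_lit 0) (nat_lit 819181979175) (nat_lit 152) (nat_lit 257342026738) (nat_lit 0) (nat_lit 379666945452) (nat_lit 7) (nat_lit 5) (nat_lit 9) (nat_lit 4) (nat_lit 7) (nat_lit 4) (nat_lit 351) (nat_lit 303) (nat_lit 126)) (XT.lf (nat_lit 0) (nat_lit 53577650788) (nat_lit 76) (nat_lit 972192649907) (nat_lit 76) (nat_lit 532677576680) (nat_lit 6) (nat_lit 4) (nat_lit 7) (nat_lit 5) (nat_lit 7) (nat_lit 4) (nat_lit 352) (nat_lit 303) (nat_lit 125))) (XT.nd (nat_lit 78) (nat_lit 0) (nat_lit 0) (XT.lf (nat_lit 0) (nat_lit 404006111686) (nat_lit 76) (nat_lit 851915731591) (nat_lit 76) (nat_lit 412400621787)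 (nat_lit 6) (nat_lit 4) (nat_lit 7) (nat_lit 5) (nat_lit 7) (nat_lit 4) (nat_lit 353) (nat_lit 303) (nat_lit 124)) (XT.lf (nat_lit 0) (nat_lit 782468793975) (nat_lit 76) (nat_lit 722016685918) (nat_lit 76) (nat_lit 282501542246) (nat_lit 6) (nat_lit 4) (nat_lit 7) (nat_lit 5) (nat_lit 7) (nat_lit 4) (nat_lit 354) (nat_lit 303) (nat_lit 123))))) (XT.nd (nat_lit 312) (nat_lit 0) (nat_lit 0) (XT.nd (nat_lit 156) (nat_lit 76) (nat_lit 0) (XT.nd (nat_lit 78) (nat_lit 76) (nat_lit 0) (XT.lf (nat_lit 0) (nat_lit 1191208439479) (nat_lit 76) (nat_lit 581725740765) (nat_lit 76) (nat_lit 142210565734) (nat_lit 6) (nat_lit 4) (nat_lit 7) (nat_lit 5) (nat_lit 7) (nat_lit 4) (nat_lit 355) (nat_lit 303) (nat_lit 122)) (XT.lf (nat_lit 0) (nat_lit 8838254845) (nat_lit 152) (nat_lit 421131633988) (nat_lit 76) (nat_lit 1623567300662) (nat_lit 5) (nat_lit 5) (nat_lit 7) (nat_lit 5) (nat_lit 6) (nat_lit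 4) (nat_lit 356) (nat_lit 303) (nat_lit 121))) (XT.nd (nat_lit 78) (nat_lit 76) (nat_lit 0) (XT.lf (nat_lit 0) (nat_lit 164287892803) (nat_lit 152) (nat_lit 97796413921) (nat_lit 76) (nat_lit 1940621221226) (nat_lit 5) (nat_lit 5) (nat_lit 7) (nat_lit 5) (nat_lit 6) (nat_lit 4) (nat_lit 357) (nat_lit 303) (nat_lit 120)) (XT.lf (nat_lit 0) (nat_lit 264644154196) (nat_lit 76) (nat_lit 73894023708) (nat_lit 152) (nat_lit 2024759981504) (nat_lit 4) (nat_lit 5) (nat_lit 5) (nat_lit 5) (nat_lit 6) (nat_lit 4) (nat_lit 358) (nat_lit 303) (nat_lit 119)))) (XT.nd (nat_lit 156) (nat_lit 0) (nat_lit 0) (XT.nd (nat_lit 78) (nat_lit 0) (nat_lit 0) (XT.lf (nat_lit 0) (nat_lit 532582750016) (nat_lit 152) (nat_lit 1878062951799) (nat_lit 0) (nat_lit 125624158446) (nat_lit 4) (nat_lit 5) (nat_lit 6) (nat_lit 4) (nat_lit 4) (nat_lit 4) (nat_lit 359) (nat_lit 303) (nat_lit 118)) (XT.lf (nat_lit 0) (nat_lit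 744070192842) (nat_lit 152) (nat_lit 1641743978448) (nat_lit 0) (nat_lit 337111581510) (nat_lit 4) (nat_lit 5) (nat_lit 6) (nat_lit 4) (nat_lit 4) (nat_lit 4) (nat_lit 360) (nat_lit 303) (nat_lit 117))) (XT.nd (nat_lit 36192) (nat_lit 0) (nat_lit 3040) (XT.lf (nat_lit 0) (nat_lit 972476612256) (nat_lit 152) (nat_lit 1386519523381) (nat_lit 0) (nat_lit 565517982626) (nat_lit 4) (nat_lit 5) (nat_lit 6) (nat_lit 4) (nat_lit 4) (nat_lit 4) (nat_lit 361) (nat_lit 303) (nat_lit 116)) (XT.lf (nat_lit 0) (nat_lit 36100564356) (nat_lit 532) (nat_lit 12147726886) (nat_lit 532) (nat_lit 12147726886) (nat_lit 44) (nat_lit 3) (nat_lit 51) (nat_lit 3) (nat_lit 51) (nat_lit 5) (nat_lit 304) (nat_lit 304) (nat_lit 172)))))) (XT.nd (nat_lit 546) (nat_lit 912) (nat_lit 0) (XT.nd (nat_lit 234) (nat_lit 228) (nat_lit 0) (XT.nd (nat_lit 78) (nat_lit 0) (nat_lit 76) (XT.lf (nat_lit 76) (nat_lit 32109918703)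 (nat_lit 0) (nat_lit 43755587423) (nat_lit 532) (nat_lit 49696091643) (nat_lit 45) (nat_lit 5) (nat_lit 44) (nat_lit 3) (nat_lit 51) (nat_lit 5) (nat_lit 305) (nat_lit 304) (nat_lit 171)) (XT.nd (nat_lit 78) (nat_lit 0) (nat_lit 0) (XT.lf (nat_lit 0) (nat_lit 80821731350) (nat_lit 456) (nat_lit 36585255924) (nat_lit 532) (nat_lit 13225842452) (nat_lit 45) (nat_lit 5) (nat_lit 51) (nat_lit 5) (nat_lit 52) (nat_lit 5) (nat_lit 306) (nat_lit 304) (nat_lit 170)) (XT.lf (nat_lit 76) (nat_lit 24941389728) (nat_lit 0) (nat_lit 62969034801) (nat_lit 532) (nat_lit 48060459353) (nat_lit 46) (nat_lit 5) (nat_lit 45) (nat_lit 5) (nat_lit 52) (nat_lit 5) (nat_lit 307) (nat_lit 304) (nat_lit 169)))) (XT.nd (nat_lit 156) (nat_lit 304) (nat_lit 0) (XT.nd (nat_lit 78) (nat_lit 0) (nat_lit 76) (XT.lf (nat_lit 76) (nat_lit 93470557428) (nat_lit 0) (nat_lit 3095603850) (nat_lit 532) (nat_lit 45089826390)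 (nat_lit 46) (nat_lit 5) (nat_lit 45) (nat_lit 5) (nat_lit 52) (nat_lit 5) (nat_lit 308) (nat_lit 304) (nat_lit 168)) (XT.lf (nat_lit 76) (nat_lit 19163850091) (nat_lit 0) (nat_lit 88691774004) (nat_lit 532) (nat_lit 39784975352) (nat_lit 47) (nat_lit 5) (nat_lit 46) (nat_lit 5) (nat_lit 53) (nat_lit 5) (nat_lit 309) (nat_lit 304) (nat_lit 167))) (XT.nd (nat_lit 78) (nat_lit 380) (nat_lit 0) (XT.lf (nat_lit 76) (nat_lit 94556530798) (nat_lit 0) (nat_lit 26887247591) (nat_lit 532) (nat_lit 32548560006) (nat_lit 47) (nat_lit 5) (nat_lit 46) (nat_lit 5) (nat_lit 53) (nat_lit 5) (nat_lit 310) (nat_lit 304) (nat_lit 166)) (XT.lf (nat_lit 0) (nat_lit 14915618201) (nat_lit 456) (nat_lit 122520475215) (nat_lit 532) (nat_lit 23310755282) (nat_lit 41) (nat_lit 5) (nat_lit 47) (nat_lit 5) (nat_lit 48) (nat_lit 5) (nat_lit 311) (nat_lit 304) (nat_lit 165))))) (XT.nd (nat_lit 312) (nat_lit 380) (nat_lit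 0) (XT.nd (nat_lit 156) (nat_lit 228) (nat_lit 0) (XT.nd (nat_lit 78) (nat_lit 304) (nat_lit 0) (XT.lf (nat_lit 0) (nat_lit 97859929122) (nat_lit 456) (nat_lit 59153363784) (nat_lit 532) (nat_lit 10843987820) (nat_lit 41) (nat_lit 5) (nat_lit 47) (nat_lit 5) (nat_lit 48) (nat_lit 5) (nat_lit 312) (nat_lit 304) (nat_lit 164)) (XT.lf (nat_lit 0) (nat_lit 3021221963) (nat_lit 304) (nat_lit 163276780540) (nat_lit 76) (nat_lit 9190930818) (nat_lit 37) (nat_lit 5) (nat_lit 41) (nat_lit 5) (nat_lit 38) (nat_lit 5) (nat_lit 313) (nat_lit 304) (nat_lit 163))) (XT.nd (nat_lit 78) (nat_lit 228) (nat_lit 0) (XT.lf (nat_lit 0) (nat_lit 20909559987) (nat_lit 304) (nat_lit 80466865336) (nat_lit 76) (nat_lit 82052179032) (nat_lit 37) (nat_lit 5) (nat_lit 41) (nat_lit 5) (nat_lit 38) (nat_lit 5) (nat_lit 314) (nat_lit 304) (nat_lit 162)) (XT.lf (nat_lit 0) (nat_lit 9439819601) (nat_lit 228) (nat_lit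 31015946841) (nat_lit 304) (nat_lit 151529539136) (nat_lit 34) (nat_lit 5) (nat_lit 37) (nat_lit 5) (nat_lit 38) (nat_lit 5) (nat_lit 315) (nat_lit 304) (nat_lit 161)))) (XT.nd (nat_lit 156) (nat_lit 152) (nat_lit 0) (XT.nd (nat_lit 78) (nat_lit 228) (nat_lit 0) (XT.lf (nat_lit 0) (nat_lit 64904316507) (nat_lit 304) (nat_lit 91074282057) (nat_lit 76) (nat_lit 44980853141) (nat_lit 34) (nat_lit 5) (nat_lit 38) (nat_lit 5) (nat_lit 35) (nat_lit 5) (nat_lit 316) (nat_lit 304) (nat_lit 160)) (XT.lf (nat_lit 0) (nat_lit 7272579044) (nat_lit 228) (nat_lit 85016486370) (nat_lit 304) (nat_lit 118284039453) (nat_lit 31) (nat_lit 5) (nat_lit 34) (nat_lit 5) (nat_lit 35) (nat_lit 5) (nat_lit 317) (nat_lit 304) (nat_lit 159))) (XT.nd (nat_lit 78) (nat_lit 152) (nat_lit 0) (XT.lf (nat_lit 0) (nat_lit 118666436094) (nat_lit 228) (nat_lit 5688099856) (nat_lit 304) (nat_lit 96402119484) (nat_lit 31)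 (nat_lit 5) (nat_lit 34) (nat_lit 5) (nat_lit 35) (nat_lit 5) (nat_lit 318) (nat_lit 304) (nat_lit 158)) (XT.lf (nat_lit 0) (nat_lit 5571728554) (nat_lit 152) (nat_lit 155471017143) (nat_lit 228) (nat_lit 70547544681) (nat_lit 29) (nat_lit 5) (nat_lit 31) (nat_lit 5) (nat_lit 32) (nat_lit 5) (nat_lit 319) (nat_lit 304) (nat_lit 157))))))) (XT.nd (nat_lit 1170) (nat_lit 532) (nat_lit 0) (XT.nd (nat_lit 546) (nat_lit 608) (nat_lit 0) (XT.nd (nat_lit 234) (nat_lit 304) (nat_lit 0) (XT.nd (nat_lit 78) (nat_lit 228) (nat_lit 0) (XT.lf (nat_lit 0) (nat_lit 127496851578) (nat_lit 152) (nat_lit 76104321277) (nat_lit 228) (nat_lit 39454630832) (nat_lit 29) (nat_lit 5) (nat_lit 31) (nat_lit 5) (nat_lit 32) (nat_lit 5) (nat_lit 320) (nat_lit 304) (nat_lit 156)) (XT.nd (nat_lit 78) (nat_lit 76) (nat_lit 0) (XT.lf (nat_lit 0) (nat_lit 3690672084) (nat_lit 152) (nat_lit 246193366745) (nat_lit 228)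 (nat_lit 5528938452) (nat_lit 27) (nat_lit 5) (nat_lit 29) (nat_lit 5) (nat_lit 30) (nat_lit 5) (nat_lit 321) (nat_lit 304) (nat_lit 155)) (XT.lf (nat_lit 0) (nat_lit 34772754396) (nat_lit 228) (nat_lit 132260988025) (nat_lit 76) (nat_lit 101247666717) (nat_lit 26) (nat_lit 5) (nat_lit 29) (nat_lit 5) (nat_lit 27) (nat_lit 5) (nat_lit 322) (nat_lit 304) (nat_lit 154)))) (XT.nd (nat_lit 156) (nat_lit 152) (nat_lit 0) (XT.nd (nat_lit 78) (nat_lit 152) (nat_lit 0) (XT.lf (nat_lit 0) (nat_lit 77999732333) (nat_lit 228) (nat_lit 3386576018) (nat_lit 76) (nat_lit 200781530323) (nat_lit 26) (nat_lit 5) (nat_lit 29) (nat_lit 5) (nat_lit 27) (nat_lit 5) (nat_lit 323) (nat_lit 304) (nat_lit 153)) (XT.lf (nat_lit 0) (nat_lit 128479210286) (nat_lit 228) (nat_lit 154298258382) (nat_lit 76) (nat_lit 14084166851) (nat_lit 24) (nat_lit 5) (nat_lit 27) (nat_lit 5) (nat_lit 25) (nat_lit 5) (nat_lit 324)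 (nat_lit 304) (nat_lit 152))) (XT.nd (nat_lit 78) (nat_lit 152) (nat_lit 0) (XT.lf (nat_lit 0) (nat_lit 185205847430) (nat_lit 228) (nat_lit 14458130805) (nat_lit 76) (nat_lit 112890254064) (nat_lit 24) (nat_lit 5) (nat_lit 27) (nat_lit 5) (nat_lit 25) (nat_lit 5) (nat_lit 325) (nat_lit 304) (nat_lit 151)) (XT.lf (nat_lit 0) (nat_lit 143760512969) (nat_lit 152) (nat_lit 106167426754) (nat_lit 228) (nat_lit 79297711411) (nat_lit 22) (nat_lit 5) (nat_lit 24) (nat_lit 5) (nat_lit 25) (nat_lit 5) (nat_lit 326) (nat_lit 304) (nat_lit 150))))) (XT.nd (nat_lit 312) (nat_lit 304) (nat_lit 0) (XT.nd (nat_lit 156) (nat_lit 152) (nat_lit 0) (XT.nd (nat_lit 78) (nat_lit 152) (nat_lit 0) (XT.lf (nat_lit 0) (nat_lit 315458722341) (nat_lit 152) (nat_lit 4764273071) (nat_lit 228) (nat_lit 26976172611) (nat_lit 22) (nat_lit 5) (nat_lit 24) (nat_lit 5) (nat_lit 25) (nat_lit 5) (nat_lit 327) (nat_lit 304)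 (nat_lit 149)) (XT.lf (nat_lit 0) (nat_lit 34060826773) (nat_lit 152) (nat_lit 228303289217) (nat_lit 76) (nat_lit 103709072421) (nat_lit 20) (nat_lit 5) (nat_lit 22) (nat_lit 5) (nat_lit 21) (nat_lit 5) (nat_lit 328) (nat_lit 304) (nat_lit 148))) (XT.nd (nat_lit 78) (nat_lit 152) (nat_lit 0) (XT.lf (nat_lit 0) (nat_lit 99537394292) (nat_lit 152) (nat_lit 64588661576) (nat_lit 76) (nat_lit 222193898584) (nat_lit 20) (nat_lit 5) (nat_lit 22) (nat_lit 5) (nat_lit 21) (nat_lit 5) (nat_lit 329) (nat_lit 304) (nat_lit 147)) (XT.lf (nat_lit 0) (nat_lit 118132443208) (nat_lit 152) (nat_lit 54960633492) (nat_lit 228) (nat_lit 234866106085) (nat_lit 18) (nat_lit 5) (nat_lit 20) (nat_lit 5) (nat_lit 21) (nat_lit 5) (nat_lit 330) (nat_lit 304) (nat_lit 146)))) (XT.nd (nat_lit 156) (nat_lit 228) (nat_lit 0) (XT.nd (nat_lit 78) (nat_lit 76) (nat_lit 0) (XT.lf (nat_lit 0) (nat_lit 255858616085) (nat_lit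 228) (nat_lit 113603510119) (nat_lit 76) (nat_lit 61601391144) (nat_lit 18) (nat_lit 5) (nat_lit 21) (nat_lit 5) (nat_lit 19) (nat_lit 4) (nat_lit 331) (nat_lit 304) (nat_lit 145)) (XT.lf (nat_lit 0) (nat_lit 79254513551) (nat_lit 76) (nat_lit 269324417733) (nat_lit 152) (nat_lit 107170584923) (nat_lit 17) (nat_lit 5) (nat_lit 18) (nat_lit 5) (nat_lit 19) (nat_lit 4) (nat_lit 332) (nat_lit 304) (nat_lit 144))) (XT.nd (nat_lit 78) (nat_lit 228) (nat_lit 0) (XT.lf (nat_lit 0) (nat_lit 294001768144) (nat_lit 76) (nat_lit 157821138791) (nat_lit 152) (nat_lit 30339005353) (nat_lit 17) (nat_lit 5) (nat_lit 18) (nat_lit 5) (nat_lit 19) (nat_lit 4) (nat_lit 333) (nat_lit 304) (nat_lit 143)) (XT.lf (nat_lit 0) (nat_lit 14711313846) (nat_lit 152) (nat_lit 35648291322) (nat_lit 228) (nat_lit 460198119223) (nat_lit 14) (nat_lit 5) (nat_lit 16) (nat_lit 5) (nat_lit 17) (nat_lit 5) (nat_lit 334) (nat_lit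 304) (nat_lit 142)))))) (XT.nd (nat_lit 624) (nat_lit 228) (nat_lit 0) (XT.nd (nat_lit 312) (nat_lit 228) (nat_lit 0) (XT.nd (nat_lit 156) (nat_lit 76) (nat_lit 0) (XT.nd (nat_lit 78) (nat_lit 0) (nat_lit 0) (XT.lf (nat_lit 0) (nat_lit 143469166931) (nat_lit 228) (nat_lit 299538078395) (nat_lit 76) (nat_lit 97547381618) (nat_lit 14) (nat_lit 5) (nat_lit 17) (nat_lit 5) (nat_lit 15) (nat_lit 4) (nat_lit 335) (nat_lit 304) (nat_lit 141)) (XT.lf (nat_lit 0) (nat_lit 244953348902) (nat_lit 228) (nat_lit 88451137752) (nat_lit 76) (nat_lit 239472726722) (nat_lit 14) (nat_lit 5) (nat_lit 17) (nat_lit 5) (nat_lit 15) (nat_lit 4) (nat_lit 336) (nat_lit 304) (nat_lit 140))) (XT.nd (nat_lit 78) (nat_lit 0) (nat_lit 0) (XT.lf (nat_lit 0) (nat_lit 146869654146) (nat_lit 76) (nat_lit 211218761131) (nat_lit 152) (nat_lit 249414619547) (nat_lit 13) (nat_lit 5) (nat_lit 14) (nat_lit 5) (nat_lit 15) (nat_lit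 4) (nat_lit 337) (nat_lit 304) (nat_lit 139)) (XT.lf (nat_lit 0) (nat_lit 406046288065) (nat_lit 76) (nat_lit 76646343201) (nat_lit 152) (nat_lit 162012823263) (nat_lit 13) (nat_lit 5) (nat_lit 14) (nat_lit 5) (nat_lit 15) (nat_lit 4) (nat_lit 338) (nat_lit 304) (nat_lit 138)))) (XT.nd (nat_lit 156) (nat_lit 76) (nat_lit 0) (XT.nd (nat_lit 78) (nat_lit 152) (nat_lit 0) (XT.lf (nat_lit 0) (nat_lit 618917162893) (nat_lit 152) (nat_lit 579167427) (nat_lit 0) (nat_lit 65255579299) (nat_lit 13) (nat_lit 5) (nat_lit 15) (nat_lit 4) (nat_lit 13) (nat_lit 4) (nat_lit 339) (nat_lit 304) (nat_lit 137)) (XT.lf (nat_lit 0) (nat_lit 44789098567) (nat_lit 152) (nat_lit 460500366007) (nat_lit 76) (nat_lit 221947086939) (nat_lit 11) (nat_lit 5) (nat_lit 13) (nat_lit 5) (nat_lit 12) (nat_lit 4) (nat_lit 340) (nat_lit 304) (nat_lit 136))) (XT.nd (nat_lit 78) (nat_lit 76) (nat_lit 0) (XT.lf (nat_lit 0)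 (nat_lit 160722254232) (nat_lit 152) (nat_lit 219359501701) (nat_lit 76) (nat_lit 392900114290) (nat_lit 11) (nat_lit 5) (nat_lit 13) (nat_lit 5) (nat_lit 12) (nat_lit 4) (nat_lit 341) (nat_lit 304) (nat_lit 135)) (XT.lf (nat_lit 0) (nat_lit 43235342883) (nat_lit 76) (nat_lit 243734477066) (nat_lit 152) (nat_lit 535333813929) (nat_lit 10) (nat_lit 5) (nat_lit 11) (nat_lit 5) (nat_lit 12) (nat_lit 4) (nat_lit 342) (nat_lit 304) (nat_lit 134))))) (XT.nd (nat_lit 312) (nat_lit 152) (nat_lit 0) (XT.nd (nat_lit 156) (nat_lit 76) (nat_lit 0) (XT.nd (nat_lit 78) (nat_lit 0) (nat_lit 0) (XT.lf (nat_lit 0) (nat_lit 339312850871) (nat_lit 76) (nat_lit 90001965844) (nat_lit 152) (nat_lit 445776511900) (nat_lit 10) (nat_lit 5) (nat_lit 11) (nat_lit 5) (nat_lit 12) (nat_lit 4) (nat_lit 343) (nat_lit 304) (nat_lit 133)) (XT.lf (nat_lit 0) (nat_lit 584875867198) (nat_lit 152) (nat_lit 274854071660)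 (nat_lit 0) (nat_lit 72225823804) (nat_lit 10) (nat_lit 5) (nat_lit 12) (nat_lit 4) (nat_lit 10) (nat_lit 4) (nat_lit 344) (nat_lit 304) (nat_lit 132))) (XT.nd (nat_lit 78) (nat_lit 0) (nat_lit 0) (XT.lf (nat_lit 0) (nat_lit 4849060344) (nat_lit 76) (nat_lit 750487029587) (nat_lit 76) (nat_lit 237836918490) (nat_lit 9) (nat_lit 4) (nat_lit 10) (nat_lit 5) (nat_lit 10) (nat_lit 4) (nat_lit 345) (nat_lit 304) (nat_lit 131)) (XT.lf (nat_lit 0) (nat_lit 322559556798) (nat_lit 76) (nat_lit 624388527290) (nat_lit 76) (nat_lit 111738353506) (nat_lit 9) (nat_lit 4) (nat_lit 10) (nat_lit 5) (nat_lit 10) (nat_lit 4) (nat_lit 346) (nat_lit 304) (nat_lit 130)))) (XT.nd (nat_lit 156) (nat_lit 76) (nat_lit 0) (XT.nd (nat_lit 78) (nat_lit 0) (nat_lit 0) (XT.lf (nat_lit 0) (nat_lit 23225062222) (nat_lit 152) (nat_lit 464342102405) (nat_lit 76) (nat_lit 641826741657) (nat_lit 8) (nat_lit 5) (nat_lit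 10) (nat_lit 5) (nat_lit 9) (nat_lit 4) (nat_lit 347) (nat_lit 304) (nat_lit 129)) (XT.lf (nat_lit 0) (nat_lit 162948739266) (nat_lit 152) (nat_lit 173716907896) (nat_lit 76) (nat_lit 868860144831) (nat_lit 8) (nat_lit 5) (nat_lit 10) (nat_lit 5) (nat_lit 9) (nat_lit 4) (nat_lit 348) (nat_lit 304) (nat_lit 128))) (XT.nd (nat_lit 78) (nat_lit 0) (nat_lit 0) (XT.lf (nat_lit 0) (nat_lit 147538720528) (nat_lit 76) (nat_lit 169859864020) (nat_lit 152) (nat_lit 970065782117) (nat_lit 7) (nat_lit 5) (nat_lit 8) (nat_lit 5) (nat_lit 9) (nat_lit 4) (nat_lit 349) (nat_lit 304) (nat_lit 127)) (XT.lf (nat_lit 0) (nat_lit 489324963741) (nat_lit 152) (nat_lit 871574735239) (nat_lit 0) (nat_lit 14648684657) (nat_lit 7) (nat_lit 5) (nat_lit 9) (nat_lit 4) (nat_lit 7) (nat_lit 4) (nat_lit 350) (nat_lit 304) (nat_lit 126))))))))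
noncomputable def xc111 : XT := (XT.nd (nat_lit 38610) (nat_lit 0) (nat_lit 152) (XT.nd (nat_lit 37362) (nat_lit 0) (nat_lit 1672) (XT.nd (nat_lit 546) (nat_lit 76) (nat_lit 0) (XT.nd (nat_lit 234) (nat_lit 76) (nat_lit 0) (XT.nd (nat_lit 78) (nat_lit 76) (nat_lit 0) (XT.lf (nat_lit 0) (nat_lit 679417365087) (nat_lit 152) (nat_lit 586167757462) (nat_lit 0) (nat_lit 204741046499) (nat_lit 7) (nat_lit 5) (nat_lit 9) (nat_lit 4) (nat_lit 7) (nat_lit 4) (nat_lit 351) (nat_lit 304) (nat_lit 125)) (XT.nd (nat_lit 78) (nat_lit 76) (nat_lit 0) (XT.lf (nat_lit 0) (nat_lit 884717128260) (nat_lit 152) (nat_lit 277928278384) (nat_lit 0) (nat_lit 410040773094) (nat_lit 7) (nat_lit 5) (nat_lit 9) (nat_lit 4) (nat_lit 7) (nat_lit 4) (nat_lit 352) (nat_lit 304) (nat_lit 124)) (XT.lf (nat_lit 0) (nat_lit 57864945231) (nat_lit 76) (nat_lit 1049967552542) (nat_lit 76) (nat_lit 575291163509) (nat_lit 6)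 (nat_lit 4) (nat_lit 7) (nat_lit 5) (nat_lit 7) (nat_lit 4) (nat_lit 353) (nat_lit 304) (nat_lit 123)))) (XT.nd (nat_lit 156) (nat_lit 76) (nat_lit 0) (XT.nd (nat_lit 78) (nat_lit 0) (nat_lit 0) (XT.lf (nat_lit 0) (nat_lit 436327602824) (nat_lit 76) (nat_lit 920068518491) (nat_lit 76) (nat_lit 445392098099) (nat_lit 6) (nat_lit 4) (nat_lit 7) (nat_lit 5) (nat_lit 7) (nat_lit 4) (nat_lit 354) (nat_lit 304) (nat_lit 122)) (XT.lf (nat_lit 0) (nat_lit 845067225460) (nat_lit 76) (nat_lit 779777584100) (nat_lit 76) (nat_lit 305101134671) (nat_lit 6) (nat_lit 4) (nat_lit 7) (nat_lit 5) (nat_lit 7) (nat_lit 4) (nat_lit 355) (nat_lit 304) (nat_lit 121))) (XT.nd (nat_lit 78) (nat_lit 76) (nat_lit 0) (XT.lf (nat_lit 0) (nat_lit 1286505973865) (nat_lit 76) (nat_lit 628263395682) (nat_lit 76) (nat_lit 153586919368) (nat_lit 6) (nat_lit 4) (nat_lit 7) (nat_lit 5) (nat_lit 7) (nat_lit 4) (nat_lit 356)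 (nat_lit 304) (nat_lit 120)) (XT.lf (nat_lit 0) (nat_lit 9545747670) (nat_lit 152) (nat_lit 454821346054) (nat_lit 76) (nat_lit 1753453036036) (nat_lit 5) (nat_lit 5) (nat_lit 7) (nat_lit 5) (nat_lit 6) (nat_lit 4) (nat_lit 357) (nat_lit 304) (nat_lit 119))))) (XT.nd (nat_lit 36504) (nat_lit 0) (nat_lit 3040) (XT.nd (nat_lit 156) (nat_lit 0) (nat_lit 0) (XT.nd (nat_lit 78) (nat_lit 76) (nat_lit 0) (XT.lf (nat_lit 0) (nat_lit 177431324632) (nat_lit 152) (nat_lit 105619369023) (nat_lit 76) (nat_lit 2095871244221) (nat_lit 5) (nat_lit 5) (nat_lit 7) (nat_lit 5) (nat_lit 6) (nat_lit 4) (nat_lit 358) (nat_lit 304) (nat_lit 118)) (XT.lf (nat_lit 0) (nat_lit 285816425354) (nat_lit 76) (nat_lit 79805195296) (nat_lit 152) (nat_lit 2186740360172) (nat_lit 4) (nat_lit 5) (nat_lit 5) (nat_lit 5) (nat_lit 6) (nat_lit 4) (nat_lit 359) (nat_lit 304) (nat_lit 117))) (XT.nd (nat_lit 78) (nat_lit 0) (nat_lit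 0) (XT.lf (nat_lit 0) (nat_lit 575189737554) (nat_lit 152) (nat_lit 2028307282632) (nat_lit 0) (nat_lit 135674399255) (nat_lit 4) (nat_lit 5) (nat_lit 6) (nat_lit 4) (nat_lit 4) (nat_lit 4) (nat_lit 360) (nat_lit 304) (nat_lit 116)) (XT.lf (nat_lit 0) (nat_lit 803596148581) (nat_lit 152) (nat_lit 1773082843658) (nat_lit 0) (nat_lit 364080793340) (nat_lit 4) (nat_lit 5) (nat_lit 6) (nat_lit 4) (nat_lit 4) (nat_lit 4) (nat_lit 361) (nat_lit 304) (nat_lit 115)))) (XT.nd (nat_lit 156) (nat_lit 0) (nat_lit 76) (XT.nd (nat_lit 78) (nat_lit 0) (nat_lit 0) (XT.lf (nat_lit 0) (nat_lit 38992599138) (nat_lit 532) (nat_lit 13117384116) (nat_lit 532) (nat_lit 13117384116) (nat_lit 44) (nat_lit 3) (nat_lit 51) (nat_lit 3) (nat_lit 51) (nat_lit 5) (nat_lit 305) (nat_lit 305) (nat_lit 170)) (XT.lf (nat_lit 76) (nat_lit 34682924628) (nat_lit 0) (nat_lit 47259311507) (nat_lit 532) (nat_lit 53663666148)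 (nat_lit 45) (nat_lit 5) (nat_lit 44) (nat_lit 3) (nat_lit 51) (nat_lit 5) (nat_lit 306) (nat_lit 305) (nat_lit 169))) (XT.nd (nat_lit 78) (nat_lit 0) (nat_lit 0) (XT.lf (nat_lit 0) (nat_lit 87294331622) (nat_lit 456) (nat_lit 39507525889) (nat_lit 532) (nat_lit 14281027296) (nat_lit 45) (nat_lit 5) (nat_lit 51) (nat_lit 5) (nat_lit 52) (nat_lit 5) (nat_lit 307) (nat_lit 305) (nat_lit 168)) (XT.lf (nat_lit 76) (nat_lit 26941136213) (nat_lit 0) (nat_lit 68008582433) (nat_lit 532) (nat_lit 51898298434) (nat_lit 46) (nat_lit 5) (nat_lit 45) (nat_lit 5) (nat_lit 52) (nat_lit 5) (nat_lit 308) (nat_lit 305) (nat_lit 167)))))) (XT.nd (nat_lit 624) (nat_lit 608) (nat_lit 0) (XT.nd (nat_lit 312) (nat_lit 532) (nat_lit 0) (XT.nd (nat_lit 156) (nat_lit 304) (nat_lit 0) (XT.nd (nat_lit 78) (nat_lit 0) (nat_lit 76) (XT.lf (nat_lit 76) (nat_lit 100952308788) (nat_lit 0) (nat_lit 3345127017) (nat_lit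 532) (nat_lit 48690533180) (nat_lit 46) (nat_lit 5) (nat_lit 45) (nat_lit 5) (nat_lit 52) (nat_lit 5) (nat_lit 309) (nat_lit 305) (nat_lit 166)) (XT.lf (nat_lit 76) (nat_lit 20701489942) (nat_lit 0) (nat_lit 95788189863) (nat_lit 532) (nat_lit 42961701389) (nat_lit 47) (nat_lit 5) (nat_lit 46) (nat_lit 5) (nat_lit 53) (nat_lit 5) (nat_lit 310) (nat_lit 305) (nat_lit 165))) (XT.nd (nat_lit 78) (nat_lit 380) (nat_lit 0) (XT.lf (nat_lit 76) (nat_lit 102125249413) (nat_lit 0) (nat_lit 29039221785) (nat_lit 532) (nat_lit 35146822592) (nat_lit 47) (nat_lit 5) (nat_lit 46) (nat_lit 5) (nat_lit 53) (nat_lit 5) (nat_lit 311) (nat_lit 305) (nat_lit 164)) (XT.lf (nat_lit 0) (nat_lit 16113401634) (nat_lit 456) (nat_lit 132322472208) (nat_lit 532) (nat_lit 25170316100) (nat_lit 41) (nat_lit 5) (nat_lit 47) (nat_lit 5) (nat_lit 48) (nat_lit 5) (nat_lit 312) (nat_lit 305) (nat_lit 163)))) (XT.nd (nat_lit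 156) (nat_lit 228) (nat_lit 0) (XT.nd (nat_lit 78) (nat_lit 304) (nat_lit 0) (XT.lf (nat_lit 0) (nat_lit 105692921578) (nat_lit 456) (nat_lit 63885965272) (nat_lit 532) (nat_lit 11706599804) (nat_lit 41) (nat_lit 5) (nat_lit 47) (nat_lit 5) (nat_lit 48) (nat_lit 5) (nat_lit 313) (nat_lit 305) (nat_lit 162)) (XT.lf (nat_lit 0) (nat_lit 3267338609) (nat_lit 304) (nat_lit 176334211580) (nat_lit 76) (nat_lit 9926132209) (nat_lit 37) (nat_lit 5) (nat_lit 41) (nat_lit 5) (nat_lit 38) (nat_lit 5) (nat_lit 314) (nat_lit 305) (nat_lit 161))) (XT.nd (nat_lit 78) (nat_lit 228) (nat_lit 0) (XT.lf (nat_lit 0) (nat_lit 22586416349) (nat_lit 304) (nat_lit 86899852152) (nat_lit 76) (nat_lit 88616285692) (nat_lit 37) (nat_lit 5) (nat_lit 41) (nat_lit 5) (nat_lit 38) (nat_lit 5) (nat_lit 315) (nat_lit 305) (nat_lit 160)) (XT.lf (nat_lit 0) (nat_lit 10199257138) (nat_lit 228) (nat_lit 33496861364) (nat_lit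 304) (nat_lit 163647689907) (nat_lit 34) (nat_lit 5) (nat_lit 37) (nat_lit 5) (nat_lit 38) (nat_lit 5) (nat_lit 316) (nat_lit 305) (nat_lit 159))))) (XT.nd (nat_lit 312) (nat_lit 228) (nat_lit 0) (XT.nd (nat_lit 156) (nat_lit 152) (nat_lit 0) (XT.nd (nat_lit 78) (nat_lit 228) (nat_lit 0) (XT.lf (nat_lit 0) (nat_lit 70100272413) (nat_lit 304) (nat_lit 98355997864) (nat_lit 76) (nat_lit 48579639129) (nat_lit 34) (nat_lit 5) (nat_lit 38) (nat_lit 5) (nat_lit 35) (nat_lit 5) (nat_lit 317) (nat_lit 305) (nat_lit 158)) (XT.lf (nat_lit 0) (nat_lit 7858505118) (nat_lit 228) (nat_lit 91817127744) (nat_lit 304) (nat_lit 127743036139) (nat_lit 31) (nat_lit 5) (nat_lit 34) (nat_lit 5) (nat_lit 35) (nat_lit 5) (nat_lit 318) (nat_lit 305) (nat_lit 157))) (XT.nd (nat_lit 78) (nat_lit 152) (nat_lit 0) (XT.lf (nat_lit 0) (nat_lit 128163565566) (nat_lit 228) (nat_lit 6142520496) (nat_lit 304) (nat_lit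 104110838607) (nat_lit 31) (nat_lit 5) (nat_lit 34) (nat_lit 5) (nat_lit 35) (nat_lit 5) (nat_lit 319) (nat_lit 305) (nat_lit 156)) (XT.lf (nat_lit 0) (nat_lit 6021426681) (nat_lit 152) (nat_lit 167907799021) (nat_lit 228) (nat_lit 76188035467) (nat_lit 29) (nat_lit 5) (nat_lit 31) (nat_lit 5) (nat_lit 32) (nat_lit 5) (nat_lit 320) (nat_lit 305) (nat_lit 155)))) (XT.nd (nat_lit 156) (nat_lit 76) (nat_lit 0) (XT.nd (nat_lit 78) (nat_lit 152) (nat_lit 0) (XT.lf (nat_lit 0) (nat_lit 137700266226) (nat_lit 152) (nat_lit 82191834114) (nat_lit 228) (nat_lit 42607933902) (nat_lit 29) (nat_lit 5) (nat_lit 31) (nat_lit 5) (nat_lit 32) (nat_lit 5) (nat_lit 321) (nat_lit 305) (nat_lit 154)) (XT.lf (nat_lit 0) (nat_lit 3989707848) (nat_lit 152) (nat_lit 265887787347) (nat_lit 228) (nat_lit 5968295082) (nat_lit 27) (nat_lit 5) (nat_lit 29) (nat_lit 5) (nat_lit 30) (nat_lit 5) (nat_lit 322) (nat_lit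 305) (nat_lit 153))) (XT.nd (nat_lit 78) (nat_lit 0) (nat_lit 0) (XT.lf (nat_lit 0) (nat_lit 37557177019) (nat_lit 228) (nat_lit 142838222592) (nat_lit 76) (nat_lit 109348308482) (nat_lit 26) (nat_lit 5) (nat_lit 29) (nat_lit 5) (nat_lit 27) (nat_lit 5) (nat_lit 323) (nat_lit 305) (nat_lit 152)) (XT.lf (nat_lit 0) (nat_lit 84242120430) (nat_lit 228) (nat_lit 3654127586) (nat_lit 76) (nat_lit 216844819812) (nat_lit 26) (nat_lit 5) (nat_lit 29) (nat_lit 5) (nat_lit 27) (nat_lit 5) (nat_lit 324) (nat_lit 305) (nat_lit 151))))))) (XT.nd (nat_lit 1170) (nat_lit 532) (nat_lit 0) (XT.nd (nat_lit 546) (nat_lit 380) (nat_lit 0) (XT.nd (nat_lit 234) (nat_lit 304) (nat_lit 0) (XT.nd (nat_lit 78) (nat_lit 152) (nat_lit 0) (XT.lf (nat_lit 0) (nat_lit 138759880783) (nat_lit 228) (nat_lit 166638663906) (nat_lit 76) (nat_lit 15211830181) (nat_lit 24) (nat_lit 5) (nat_lit 27) (nat_lit 5) (nat_lit 25)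 (nat_lit 5) (nat_lit 325) (nat_lit 305) (nat_lit 150)) (XT.nd (nat_lit 78) (nat_lit 152) (nat_lit 0) (XT.lf (nat_lit 0) (nat_lit 200024476034) (nat_lit 228) (nat_lit 15611582060) (nat_lit 76) (nat_lit 121922335483) (nat_lit 24) (nat_lit 5) (nat_lit 27) (nat_lit 5) (nat_lit 25) (nat_lit 5) (nat_lit 326) (nat_lit 305) (nat_lit 149)) (XT.lf (nat_lit 0) (nat_lit 155264472224) (nat_lit 152) (nat_lit 114659778420) (nat_lit 228) (nat_lit 85639282409) (nat_lit 22) (nat_lit 5) (nat_lit 24) (nat_lit 5) (nat_lit 25) (nat_lit 5) (nat_lit 327) (nat_lit 305) (nat_lit 148)))) (XT.nd (nat_lit 156) (nat_lit 152) (nat_lit 0) (XT.nd (nat_lit 78) (nat_lit 152) (nat_lit 0) (XT.lf (nat_lit 0) (nat_lit 340698307366) (nat_lit 152) (nat_lit 5144449662) (nat_lit 228) (nat_lit 29132186870) (nat_lit 22) (nat_lit 5) (nat_lit 24) (nat_lit 5) (nat_lit 25) (nat_lit 5) (nat_lit 328) (nat_lit 305) (nat_lit 147)) (XT.lf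 (nat_lit 0) (nat_lit 36787616826) (nat_lit 152) (nat_lit 246564502686) (nat_lit 76) (nat_lit 112006766796) (nat_lit 20) (nat_lit 5) (nat_lit 22) (nat_lit 5) (nat_lit 21) (nat_lit 5) (nat_lit 329) (nat_lit 305) (nat_lit 146))) (XT.nd (nat_lit 78) (nat_lit 152) (nat_lit 0) (XT.lf (nat_lit 0) (nat_lit 107502167234) (nat_lit 152) (nat_lit 69752930735) (nat_lit 76) (nat_lit 239970307305) (nat_lit 20) (nat_lit 5) (nat_lit 22) (nat_lit 5) (nat_lit 21) (nat_lit 5) (nat_lit 330) (nat_lit 305) (nat_lit 145)) (XT.lf (nat_lit 0) (nat_lit 127585790944) (nat_lit 152) (nat_lit 59356447527) (nat_lit 228) (nat_lit 253653538887) (nat_lit 18) (nat_lit 5) (nat_lit 20) (nat_lit 5) (nat_lit 21) (nat_lit 5) (nat_lit 331) (nat_lit 305) (nat_lit 144))))) (XT.nd (nat_lit 312) (nat_lit 76) (nat_lit 0) (XT.nd (nat_lit 156) (nat_lit 228) (nat_lit 0) (XT.nd (nat_lit 78) (nat_lit 76) (nat_lit 0) (XT.lf (nat_lit 0)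 (nat_lit 276328917008) (nat_lit 228) (nat_lit 122689135930) (nat_lit 76) (nat_lit 66530414275) (nat_lit 18) (nat_lit 5) (nat_lit 21) (nat_lit 5) (nat_lit 19) (nat_lit 4) (nat_lit 332) (nat_lit 305) (nat_lit 143)) (XT.lf (nat_lit 0) (nat_lit 85597462418) (nat_lit 76) (nat_lit 290869337860) (nat_lit 152) (nat_lit 115742550466) (nat_lit 17) (nat_lit 5) (nat_lit 18) (nat_lit 5) (nat_lit 19) (nat_lit 4) (nat_lit 333) (nat_lit 305) (nat_lit 142))) (XT.nd (nat_lit 78) (nat_lit 228) (nat_lit 0) (XT.lf (nat_lit 0) (nat_lit 317524305691) (nat_lit 76) (nat_lit 170445873144) (nat_lit 152) (nat_lit 32764569067) (nat_lit 17) (nat_lit 5) (nat_lit 18) (nat_lit 5) (nat_lit 19) (nat_lit 4) (nat_lit 334) (nat_lit 305) (nat_lit 141)) (XT.lf (nat_lit 0) (nat_lit 15890632295) (nat_lit 152) (nat_lit 38499168624) (nat_lit 228) (nat_lit 497012425332) (nat_lit 14) (nat_lit 5) (nat_lit 16) (nat_lit 5) (nat_lit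 17) (nat_lit 5) (nat_lit 335) (nat_lit 305) (nat_lit 140)))) (XT.nd (nat_lit 156) (nat_lit 76) (nat_lit 0) (XT.nd (nat_lit 78) (nat_lit 0) (nat_lit 0) (XT.lf (nat_lit 0) (nat_lit 154948043851) (nat_lit 228) (nat_lit 323498804556) (nat_lit 76) (nat_lit 105352039443) (nat_lit 14) (nat_lit 5) (nat_lit 17) (nat_lit 5) (nat_lit 15) (nat_lit 4) (nat_lit 336) (nat_lit 305) (nat_lit 139)) (XT.lf (nat_lit 0) (nat_lit 264550860856) (nat_lit 228) (nat_lit 95525080521) (nat_lit 76) (nat_lit 258631347911) (nat_lit 14) (nat_lit 5) (nat_lit 17) (nat_lit 5) (nat_lit 15) (nat_lit 4) (nat_lit 337) (nat_lit 305) (nat_lit 138))) (XT.nd (nat_lit 78) (nat_lit 0) (nat_lit 0) (XT.lf (nat_lit 0) (nat_lit 158621320343) (nat_lit 76) (nat_lit 228115370406) (nat_lit 152) (nat_lit 269366489170) (nat_lit 13) (nat_lit 5) (nat_lit 14) (nat_lit 5) (nat_lit 15) (nat_lit 4) (nat_lit 338) (nat_lit 305) (nat_lit 137)) (XT.lf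 (nat_lit 0) (nat_lit 438531929874) (nat_lit 76) (nat_lit 82777225086) (nat_lit 152) (nat_lit 174972645475) (nat_lit 13) (nat_lit 5) (nat_lit 14) (nat_lit 5) (nat_lit 15) (nat_lit 4) (nat_lit 339) (nat_lit 305) (nat_lit 136)))))) (XT.nd (nat_lit 624) (nat_lit 228) (nat_lit 0) (XT.nd (nat_lit 312) (nat_lit 76) (nat_lit 0) (XT.nd (nat_lit 156) (nat_lit 76) (nat_lit 0) (XT.nd (nat_lit 78) (nat_lit 152) (nat_lit 0) (XT.lf (nat_lit 0) (nat_lit 668431585043) (nat_lit 152) (nat_lit 623640299) (nat_lit 0) (nat_lit 70476751821) (nat_lit 13) (nat_lit 5) (nat_lit 15) (nat_lit 4) (nat_lit 13) (nat_lit 4) (nat_lit 340) (nat_lit 305) (nat_lit 135)) (XT.lf (nat_lit 0) (nat_lit 48373268976) (nat_lit 152) (nat_lit 497338525858) (nat_lit 76) (nat_lit 239703596287) (nat_lit 11) (nat_lit 5) (nat_lit 13) (nat_lit 5) (nat_lit 12) (nat_lit 4) (nat_lit 341) (nat_lit 305) (nat_lit 134))) (XT.nd (nat_lit 78) (nat_lit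 76) (nat_lit 0) (XT.lf (nat_lit 0) (nat_lit 173580999870) (nat_lit 152) (nat_lit 236906530884) (nat_lit 76) (nat_lit 424332810834) (nat_lit 11) (nat_lit 5) (nat_lit 13) (nat_lit 5) (nat_lit 12) (nat_lit 4) (nat_lit 342) (nat_lit 305) (nat_lit 133)) (XT.lf (nat_lit 0) (nat_lit 46695857445) (nat_lit 76) (nat_lit 263232482471) (nat_lit 152) (nat_lit 578159508969) (nat_lit 10) (nat_lit 5) (nat_lit 11) (nat_lit 5) (nat_lit 12) (nat_lit 4) (nat_lit 343) (nat_lit 305) (nat_lit 132)))) (XT.nd (nat_lit 156) (nat_lit 76) (nat_lit 0) (XT.nd (nat_lit 78) (nat_lit 0) (nat_lit 0) (XT.lf (nat_lit 0) (nat_lit 366459441099) (nat_lit 76) (nat_lit 97201426112) (nat_lit 152) (nat_lit 481437697599) (nat_lit 10) (nat_lit 5) (nat_lit 11) (nat_lit 5) (nat_lit 12) (nat_lit 4) (nat_lit 344) (nat_lit 305) (nat_lit 131)) (XT.lf (nat_lit 0) (nat_lit 631666753168) (nat_lit 152) (nat_lit 296840901568) (nat_lit 0)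 (nat_lit 78004502794) (nat_lit 10) (nat_lit 5) (nat_lit 12) (nat_lit 4) (nat_lit 10) (nat_lit 4) (nat_lit 345) (nat_lit 305) (nat_lit 130))) (XT.nd (nat_lit 78) (nat_lit 0) (nat_lit 0) (XT.lf (nat_lit 0) (nat_lit 5238443127) (nat_lit 76) (nat_lit 810525325167) (nat_lit 76) (nat_lit 256863016750) (nat_lit 9) (nat_lit 4) (nat_lit 10) (nat_lit 5) (nat_lit 10) (nat_lit 4) (nat_lit 346) (nat_lit 305) (nat_lit 129)) (XT.lf (nat_lit 0) (nat_lit 348365671301) (nat_lit 76) (nat_lit 674338992078) (nat_lit 76) (nat_lit 120676629917) (nat_lit 9) (nat_lit 4) (nat_lit 10) (nat_lit 5) (nat_lit 10) (nat_lit 4) (nat_lit 347) (nat_lit 305) (nat_lit 128))))) (XT.nd (nat_lit 312) (nat_lit 76) (nat_lit 0) (XT.nd (nat_lit 156) (nat_lit 76) (nat_lit 0) (XT.nd (nat_lit 78) (nat_lit 0) (nat_lit 0) (XT.lf (nat_lit 0) (nat_lit 25083763734) (nat_lit 152) (nat_lit 501488183356) (nat_lit 76) (nat_lit 693173415373)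 (nat_lit 8) (nat_lit 5) (nat_lit 10) (nat_lit 5) (nat_lit 9) (nat_lit 4) (nat_lit 348) (nat_lit 305) (nat_lit 127)) (XT.lf (nat_lit 0) (nat_lit 175985283347) (nat_lit 152) (nat_lit 187613068638) (nat_lit 76) (nat_lit 938369451217) (nat_lit 8) (nat_lit 5) (nat_lit 10) (nat_lit 5) (nat_lit 9) (nat_lit 4) (nat_lit 349) (nat_lit 305) (nat_lit 126))) (XT.nd (nat_lit 78) (nat_lit 0) (nat_lit 0) (XT.lf (nat_lit 0) (nat_lit 159342979886) (nat_lit 76) (nat_lit 183448116532) (nat_lit 152) (nat_lit 1047670369058) (nat_lit 7) (nat_lit 5) (nat_lit 8) (nat_lit 5) (nat_lit 9) (nat_lit 4) (nat_lit 350) (nat_lit 305) (nat_lit 125)) (XT.lf (nat_lit 0) (nat_lit 528471551592) (nat_lit 152) (nat_lit 941299603565) (nat_lit 0) (nat_lit 15821051436) (nat_lit 7) (nat_lit 5) (nat_lit 9) (nat_lit 4) (nat_lit 7) (nat_lit 4) (nat_lit 351) (nat_lit 305) (nat_lit 124)))) (XT.nd (nat_lit 156) (nat_lit 76) (nat_lit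 0) (XT.nd (nat_lit 78) (nat_lit 0) (nat_lit 0) (XT.lf (nat_lit 0) (nat_lit 733771301285) (nat_lit 152) (nat_lit 633060149825) (nat_lit 0) (nat_lit 221120767261) (nat_lit 7) (nat_lit 5) (nat_lit 9) (nat_lit 4) (nat_lit 7) (nat_lit 4) (nat_lit 352) (nat_lit 305) (nat_lit 123)) (XT.lf (nat_lit 0) (nat_lit 955495004994) (nat_lit 152) (nat_lit 300161588585) (nat_lit 0) (nat_lit 442844439611) (nat_lit 7) (nat_lit 5) (nat_lit 9) (nat_lit 4) (nat_lit 7) (nat_lit 4) (nat_lit 353) (nat_lit 305) (nat_lit 122))) (XT.nd (nat_lit 78) (nat_lit 0) (nat_lit 0) (XT.lf (nat_lit 0) (nat_lit 62495068816) (nat_lit 76) (nat_lit 1133964520054) (nat_lit 76) (nat_lit 621313925635) (nat_lit 6) (nat_lit 4) (nat_lit 7) (nat_lit 5) (nat_lit 7) (nat_lit 4) (nat_lit 354) (nat_lit 305) (nat_lit 121)) (XT.lf (nat_lit 0) (nat_lit 471234670278) (nat_lit 76) (nat_lit 993673595626) (nat_lit 76) (nat_lit 481022974322) (nat_lit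 6) (nat_lit 4) (nat_lit 7) (nat_lit 5) (nat_lit 7) (nat_lit 4) (nat_lit 355) (nat_lit 305) (nat_lit 120))))))))
noncomputable def xc112 : XT := (XT.nd (nat_lit 38688) (nat_lit 0) (nat_lit 76) (XT.nd (nat_lit 37518) (nat_lit 0) (nat_lit 1216) (XT.nd (nat_lit 36894) (nat_lit 0) (nat_lit 2508) (XT.nd (nat_lit 234) (nat_lit 76) (nat_lit 0) (XT.nd (nat_lit 78) (nat_lit 76) (nat_lit 0) (XT.lf (nat_lit 0) (nat_lit 912673399078) (nat_lit 76) (nat_lit 842159416435) (nat_lit 76) (nat_lit 329508770236) (nat_lit 6) (nat_lit 4) (nat_lit 7) (nat_lit 5) (nat_lit 7) (nat_lit 4) (nat_lit 356) (nat_lit 305) (nat_lit 119)) (XT.nd (nat_lit 78) (nat_lit 76) (nat_lit 0) (XT.lf (nat_lit 0) (nat_lit 1389427188424) (nat_lit 76) (nat_lit 678524120677) (nat_lit 76) (nat_lit 165873451428) (nat_lit 6) (nat_lit 4) (nat_lit 7) (nat_lit 5) (nat_lit 7) (nat_lit 4) (nat_lit 357) (nat_lit 305) (nat_lit 118)) (XT.lf (nat_lit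 0) (nat_lit 10309778228) (nat_lit 152) (nat_lit 491206351875) (nat_lit 76) (nat_lit 1893729580120) (nat_lit 5) (nat_lit 5) (nat_lit 7) (nat_lit 5) (nat_lit 6) (nat_lit 4) (nat_lit 358) (nat_lit 305) (nat_lit 117)))) (XT.nd (nat_lit 36504) (nat_lit 0) (nat_lit 3040) (XT.nd (nat_lit 78) (nat_lit 76) (nat_lit 0) (XT.lf (nat_lit 0) (nat_lit 191626173885) (nat_lit 152) (nat_lit 114068268671) (nat_lit 76) (nat_lit 2263541222649) (nat_lit 5) (nat_lit 5) (nat_lit 7) (nat_lit 5) (nat_lit 6) (nat_lit 4) (nat_lit 359) (nat_lit 305) (nat_lit 116)) (XT.lf (nat_lit 0) (nat_lit 308682372803) (nat_lit 76) (nat_lit 86189310587) (nat_lit 152) (nat_lit 2361679229030) (nat_lit 4) (nat_lit 5) (nat_lit 5) (nat_lit 5) (nat_lit 6) (nat_lit 4) (nat_lit 360) (nat_lit 305) (nat_lit 115))) (XT.nd (nat_lit 78) (nat_lit 0) (nat_lit 0) (XT.lf (nat_lit 0) (nat_lit 42115427536) (nat_lit 532) (nat_lit 14164922204) (nat_lit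 532) (nat_lit 14164922204) (nat_lit 44) (nat_lit 3) (nat_lit 51) (nat_lit 3) (nat_lit 51) (nat_lit 5) (nat_lit 306) (nat_lit 306) (nat_lit 168)) (XT.lf (nat_lit 76) (nat_lit 37461170077) (nat_lit 0) (nat_lit 51042866004) (nat_lit 532) (nat_lit 57949803999) (nat_lit 45) (nat_lit 5) (nat_lit 44) (nat_lit 3) (nat_lit 51) (nat_lit 5) (nat_lit 307) (nat_lit 306) (nat_lit 167))))) (XT.nd (nat_lit 312) (nat_lit 608) (nat_lit 0) (XT.nd (nat_lit 156) (nat_lit 0) (nat_lit 0) (XT.nd (nat_lit 78) (nat_lit 0) (nat_lit 0) (XT.lf (nat_lit 0) (nat_lit 94283761008) (nat_lit 456) (nat_lit 42664226631) (nat_lit 532) (nat_lit 15421038155) (nat_lit 45) (nat_lit 5) (nat_lit 51) (nat_lit 5) (nat_lit 52) (nat_lit 5) (nat_lit 308) (nat_lit 306) (nat_lit 166)) (XT.lf (nat_lit 76) (nat_lit 29100229670) (nat_lit 0) (nat_lit 73451005008) (nat_lit 532) (nat_lit 56044162937) (nat_lit 46) (nat_lit 5) (nat_lit 45) (nat_lit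 5) (nat_lit 52) (nat_lit 5) (nat_lit 309) (nat_lit 306) (nat_lit 165))) (XT.nd (nat_lit 78) (nat_lit 0) (nat_lit 76) (XT.lf (nat_lit 76) (nat_lit 109032014380) (nat_lit 0) (nat_lit 3614344567) (nat_lit 532) (nat_lit 52580220860) (nat_lit 46) (nat_lit 5) (nat_lit 45) (nat_lit 5) (nat_lit 52) (nat_lit 5) (nat_lit 310) (nat_lit 306) (nat_lit 164)) (XT.lf (nat_lit 76) (nat_lit 22361494462) (nat_lit 0) (nat_lit 103452165781) (nat_lit 532) (nat_lit 46393431745) (nat_lit 47) (nat_lit 5) (nat_lit 46) (nat_lit 5) (nat_lit 53) (nat_lit 5) (nat_lit 311) (nat_lit 306) (nat_lit 163)))) (XT.nd (nat_lit 156) (nat_lit 304) (nat_lit 0) (XT.nd (nat_lit 78) (nat_lit 380) (nat_lit 0) (XT.lf (nat_lit 76) (nat_lit 110298866890) (nat_lit 0) (nat_lit 31363212055) (nat_lit 532) (nat_lit 37953748257) (nat_lit 47) (nat_lit 5) (nat_lit 46) (nat_lit 5) (nat_lit 53) (nat_lit 5) (nat_lit 312) (nat_lit 306) (nat_lit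 162)) (XT.lf (nat_lit 0) (nat_lit 17406360919) (nat_lit 456) (nat_lit 142908577749) (nat_lit 532) (nat_lit 27179397831) (nat_lit 41) (nat_lit 5) (nat_lit 47) (nat_lit 5) (nat_lit 48) (nat_lit 5) (nat_lit 313) (nat_lit 306) (nat_lit 161))) (XT.nd (nat_lit 78) (nat_lit 304) (nat_lit 0) (XT.lf (nat_lit 0) (nat_lit 114151954521) (nat_lit 456) (nat_lit 68997127461) (nat_lit 532) (nat_lit 12638920792) (nat_lit 41) (nat_lit 5) (nat_lit 47) (nat_lit 5) (nat_lit 48) (nat_lit 5) (nat_lit 314) (nat_lit 306) (nat_lit 160)) (XT.lf (nat_lit 0) (nat_lit 3532514183) (nat_lit 304) (nat_lit 190436909237) (nat_lit 76) (nat_lit 10720160135) (nat_lit 37) (nat_lit 5) (nat_lit 41) (nat_lit 5) (nat_lit 38) (nat_lit 5) (nat_lit 315) (nat_lit 306) (nat_lit 159)))))) (XT.nd (nat_lit 546) (nat_lit 684) (nat_lit 0) (XT.nd (nat_lit 234) (nat_lit 380) (nat_lit 0) (XT.nd (nat_lit 78) (nat_lit 228) (nat_lit 0) (XT.lf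 (nat_lit 0) (nat_lit 24396837513) (nat_lit 304) (nat_lit 93848100260) (nat_lit 76) (nat_lit 95705530538) (nat_lit 37) (nat_lit 5) (nat_lit 41) (nat_lit 5) (nat_lit 38) (nat_lit 5) (nat_lit 316) (nat_lit 306) (nat_lit 158)) (XT.nd (nat_lit 78) (nat_lit 0) (nat_lit 0) (XT.lf (nat_lit 0) (nat_lit 11018843088) (nat_lit 228) (nat_lit 36176300581) (nat_lit 304) (nat_lit 176735893679) (nat_lit 34) (nat_lit 5) (nat_lit 37) (nat_lit 5) (nat_lit 38) (nat_lit 5) (nat_lit 317) (nat_lit 306) (nat_lit 157)) (XT.lf (nat_lit 0) (nat_lit 75711389701) (nat_lit 304) (nat_lit 106220853931) (nat_lit 76) (nat_lit 52466282667) (nat_lit 34) (nat_lit 5) (nat_lit 38) (nat_lit 5) (nat_lit 35) (nat_lit 5) (nat_lit 318) (nat_lit 306) (nat_lit 156)))) (XT.nd (nat_lit 156) (nat_lit 152) (nat_lit 0) (XT.nd (nat_lit 78) (nat_lit 0) (nat_lit 0) (XT.lf (nat_lit 0) (nat_lit 8490717549) (nat_lit 228) (nat_lit 99161917085)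 (nat_lit 304) (nat_lit 137959284182) (nat_lit 31) (nat_lit 5) (nat_lit 34) (nat_lit 5) (nat_lit 35) (nat_lit 5) (nat_lit 319) (nat_lit 306) (nat_lit 155)) (XT.lf (nat_lit 0) (nat_lit 138419921202) (nat_lit 228) (nat_lit 6633384286) (nat_lit 304) (nat_lit 112436747504) (nat_lit 31) (nat_lit 5) (nat_lit 34) (nat_lit 5) (nat_lit 35) (nat_lit 5) (nat_lit 320) (nat_lit 306) (nat_lit 154))) (XT.nd (nat_lit 78) (nat_lit 0) (nat_lit 0) (XT.lf (nat_lit 0) (nat_lit 6506535742) (nat_lit 152) (nat_lit 181339651772) (nat_lit 228) (nat_lit 82280238122) (nat_lit 29) (nat_lit 5) (nat_lit 31) (nat_lit 5) (nat_lit 32) (nat_lit 5) (nat_lit 321) (nat_lit 306) (nat_lit 153)) (XT.lf (nat_lit 0) (nat_lit 148719430974) (nat_lit 152) (nat_lit 88766466796) (nat_lit 228) (nat_lit 46013938816) (nat_lit 29) (nat_lit 5) (nat_lit 31) (nat_lit 5) (nat_lit 32) (nat_lit 5) (nat_lit 322) (nat_lit 306) (nat_lit 152)))))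 (XT.nd (nat_lit 312) (nat_lit 304) (nat_lit 0) (XT.nd (nat_lit 156) (nat_lit 152) (nat_lit 0) (XT.nd (nat_lit 78) (nat_lit 76) (nat_lit 0) (XT.lf (nat_lit 0) (nat_lit 4312126929) (nat_lit 152) (nat_lit 287157911211) (nat_lit 228) (nat_lit 6443222298) (nat_lit 27) (nat_lit 5) (nat_lit 29) (nat_lit 5) (nat_lit 30) (nat_lit 5) (nat_lit 323) (nat_lit 306) (nat_lit 151)) (XT.lf (nat_lit 0) (nat_lit 40563982209) (nat_lit 228) (nat_lit 154262155849) (nat_lit 76) (nat_lit 118096883403) (nat_lit 26) (nat_lit 5) (nat_lit 29) (nat_lit 5) (nat_lit 27) (nat_lit 5) (nat_lit 324) (nat_lit 306) (nat_lit 150))) (XT.nd (nat_lit 78) (nat_lit 152) (nat_lit 0) (XT.lf (nat_lit 0) (nat_lit 90983555832) (nat_lit 228) (nat_lit 3943564691) (nat_lit 76) (nat_lit 234193063029) (nat_lit 26) (nat_lit 5) (nat_lit 29) (nat_lit 5) (nat_lit 27) (nat_lit 5) (nat_lit 325) (nat_lit 306) (nat_lit 149)) (XT.lf (nat_lit 0)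 (nat_lit 149862671996) (nat_lit 228) (nat_lit 179966794787) (nat_lit 76) (nat_lit 16429573905) (nat_lit 24) (nat_lit 5) (nat_lit 27) (nat_lit 5) (nat_lit 25) (nat_lit 5) (nat_lit 326) (nat_lit 306) (nat_lit 148)))) (XT.nd (nat_lit 156) (nat_lit 152) (nat_lit 0) (XT.nd (nat_lit 78) (nat_lit 152) (nat_lit 0) (XT.lf (nat_lit 0) (nat_lit 216028286663) (nat_lit 228) (nat_lit 16857765818) (nat_lit 76) (nat_lit 131676860571) (nat_lit 24) (nat_lit 5) (nat_lit 27) (nat_lit 5) (nat_lit 25) (nat_lit 5) (nat_lit 327) (nat_lit 306) (nat_lit 147)) (XT.lf (nat_lit 0) (nat_lit 167688303371) (nat_lit 152) (nat_lit 123831666940) (nat_lit 228) (nat_lit 92488499492) (nat_lit 22) (nat_lit 5) (nat_lit 24) (nat_lit 5) (nat_lit 25) (nat_lit 5) (nat_lit 328) (nat_lit 306) (nat_lit 146))) (XT.nd (nat_lit 78) (nat_lit 152) (nat_lit 0) (XT.lf (nat_lit 0) (nat_lit 367956647297) (nat_lit 152) (nat_lit 5555178086)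 (nat_lit 228) (nat_lit 31460978940) (nat_lit 22) (nat_lit 5) (nat_lit 24) (nat_lit 5) (nat_lit 25) (nat_lit 5) (nat_lit 329) (nat_lit 306) (nat_lit 145)) (XT.lf (nat_lit 0) (nat_lit 39732275615) (nat_lit 152) (nat_lit 266287048301) (nat_lit 76) (nat_lit 120968138541) (nat_lit 20) (nat_lit 5) (nat_lit 22) (nat_lit 5) (nat_lit 21) (nat_lit 5) (nat_lit 330) (nat_lit 306) (nat_lit 144))))))) (XT.nd (nat_lit 1170) (nat_lit 380) (nat_lit 0) (XT.nd (nat_lit 546) (nat_lit 304) (nat_lit 0) (XT.nd (nat_lit 234) (nat_lit 304) (nat_lit 0) (XT.nd (nat_lit 78) (nat_lit 152) (nat_lit 0) (XT.lf (nat_lit 0) (nat_lit 116103867875) (nat_lit 152) (nat_lit 75330744269) (nat_lit 76) (nat_lit 259168700780) (nat_lit 20) (nat_lit 5) (nat_lit 22) (nat_lit 5) (nat_lit 21) (nat_lit 5) (nat_lit 331) (nat_lit 306) (nat_lit 143)) (XT.nd (nat_lit 78) (nat_lit 0) (nat_lit 0) (XT.lf (nat_lit 0) (nat_lit 137795013855)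 (nat_lit 152) (nat_lit 64104074574) (nat_lit 228) (nat_lit 273944231047) (nat_lit 18) (nat_lit 5) (nat_lit 20) (nat_lit 5) (nat_lit 21) (nat_lit 5) (nat_lit 332) (nat_lit 306) (nat_lit 142)) (XT.lf (nat_lit 0) (nat_lit 298436612086) (nat_lit 228) (nat_lit 132501990572) (nat_lit 76) (nat_lit 71853629173) (nat_lit 18) (nat_lit 5) (nat_lit 21) (nat_lit 5) (nat_lit 19) (nat_lit 4) (nat_lit 333) (nat_lit 306) (nat_lit 141)))) (XT.nd (nat_lit 156) (nat_lit 228) (nat_lit 0) (XT.nd (nat_lit 78) (nat_lit 0) (nat_lit 0) (XT.lf (nat_lit 0) (nat_lit 92447478018) (nat_lit 76) (nat_lit 314137999009) (nat_lit 152) (nat_lit 125000513102) (nat_lit 17) (nat_lit 5) (nat_lit 18) (nat_lit 5) (nat_lit 19) (nat_lit 4) (nat_lit 334) (nat_lit 306) (nat_lit 140)) (XT.lf (nat_lit 0) (nat_lit 342928304411) (nat_lit 76) (nat_lit 184080722736) (nat_lit 152) (nat_lit 35384399962) (nat_lit 17) (nat_lit 5) (nat_lit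 18) (nat_lit 5) (nat_lit 19) (nat_lit 4) (nat_lit 335) (nat_lit 306) (nat_lit 139))) (XT.nd (nat_lit 78) (nat_lit 0) (nat_lit 0) (XT.lf (nat_lit 0) (nat_lit 17163951930) (nat_lit 152) (nat_lit 41578256775) (nat_lit 228) (nat_lit 536772096116) (nat_lit 14) (nat_lit 5) (nat_lit 16) (nat_lit 5) (nat_lit 17) (nat_lit 5) (nat_lit 336) (nat_lit 306) (nat_lit 138)) (XT.lf (nat_lit 0) (nat_lit 167345039250) (nat_lit 228) (nat_lit 349376719799) (nat_lit 76) (nat_lit 113780946165) (nat_lit 14) (nat_lit 5) (nat_lit 17) (nat_lit 5) (nat_lit 15) (nat_lit 4) (nat_lit 337) (nat_lit 306) (nat_lit 137))))) (XT.nd (nat_lit 312) (nat_lit 228) (nat_lit 0) (XT.nd (nat_lit 156) (nat_lit 0) (nat_lit 0) (XT.nd (nat_lit 78) (nat_lit 76) (nat_lit 0) (XT.lf (nat_lit 0) (nat_lit 285715996291) (nat_lit 228) (nat_lit 103165245184) (nat_lit 76) (nat_lit 279322544232) (nat_lit 14) (nat_lit 5) (nat_lit 17) (nat_lit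 5) (nat_lit 15) (nat_lit 4) (nat_lit 338) (nat_lit 306) (nat_lit 136)) (XT.lf (nat_lit 0) (nat_lit 171312821122) (nat_lit 76) (nat_lit 246363835621) (nat_lit 152) (nat_lit 290914693814) (nat_lit 13) (nat_lit 5) (nat_lit 14) (nat_lit 5) (nat_lit 15) (nat_lit 4) (nat_lit 339) (nat_lit 306) (nat_lit 135))) (XT.nd (nat_lit 78) (nat_lit 0) (nat_lit 0) (XT.lf (nat_lit 0) (nat_lit 473616146441) (nat_lit 76) (nat_lit 89398695300) (nat_lit 152) (nat_lit 188969425179) (nat_lit 13) (nat_lit 5) (nat_lit 14) (nat_lit 5) (nat_lit 15) (nat_lit 4) (nat_lit 340) (nat_lit 306) (nat_lit 134)) (XT.lf (nat_lit 0) (nat_lit 721907011296) (nat_lit 152) (nat_lit 671936425) (nat_lit 0) (nat_lit 76115514547) (nat_lit 13) (nat_lit 5) (nat_lit 15) (nat_lit 4) (nat_lit 13) (nat_lit 4) (nat_lit 341) (nat_lit 306) (nat_lit 133)))) (XT.nd (nat_lit 156) (nat_lit 76) (nat_lit 0) (XT.nd (nat_lit 78) (nat_lit 0) (nat_lit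 0) (XT.lf (nat_lit 0) (nat_lit 52244024290) (nat_lit 152) (nat_lit 537124005192) (nat_lit 76) (nat_lit 258880520472) (nat_lit 11) (nat_lit 5) (nat_lit 13) (nat_lit 5) (nat_lit 12) (nat_lit 4) (nat_lit 342) (nat_lit 306) (nat_lit 132)) (XT.lf (nat_lit 0) (nat_lit 187468307448) (nat_lit 152) (nat_lit 255857569341) (nat_lit 76) (nat_lit 458280025036) (nat_lit 11) (nat_lit 5) (nat_lit 13) (nat_lit 5) (nat_lit 12) (nat_lit 4) (nat_lit 343) (nat_lit 306) (nat_lit 131))) (XT.nd (nat_lit 78) (nat_lit 0) (nat_lit 0) (XT.lf (nat_lit 0) (nat_lit 50432972484) (nat_lit 76) (nat_lit 284290435699) (nat_lit 152) (nat_lit 624411403711) (nat_lit 10) (nat_lit 5) (nat_lit 11) (nat_lit 5) (nat_lit 12) (nat_lit 4) (nat_lit 344) (nat_lit 306) (nat_lit 130)) (XT.lf (nat_lit 0) (nat_lit 395777535686) (nat_lit 76) (nat_lit 104976942636) (nat_lit 152) (nat_lit 519951911577) (nat_lit 10) (nat_lit 5) (nat_lit 11)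 (nat_lit 5) (nat_lit 12) (nat_lit 4) (nat_lit 345) (nat_lit 306) (nat_lit 129)))))) (XT.nd (nat_lit 624) (nat_lit 152) (nat_lit 0) (XT.nd (nat_lit 312) (nat_lit 76) (nat_lit 0) (XT.nd (nat_lit 156) (nat_lit 76) (nat_lit 0) (XT.nd (nat_lit 78) (nat_lit 76) (nat_lit 0) (XT.lf (nat_lit 0) (nat_lit 682200793519) (nat_lit 152) (nat_lit 320586891265) (nat_lit 0) (nat_lit 84245388641) (nat_lit 10) (nat_lit 5) (nat_lit 12) (nat_lit 4) (nat_lit 10) (nat_lit 4) (nat_lit 346) (nat_lit 306) (nat_lit 128)) (XT.lf (nat_lit 0) (nat_lit 5658768540) (nat_lit 76) (nat_lit 875366779519) (nat_lit 76) (nat_lit 277411324878) (nat_lit 9) (nat_lit 4) (nat_lit 10) (nat_lit 5) (nat_lit 10) (nat_lit 4) (nat_lit 347) (nat_lit 306) (nat_lit 127))) (XT.nd (nat_lit 78) (nat_lit 76) (nat_lit 0) (XT.lf (nat_lit 0) (nat_lit 376236082378) (nat_lit 76) (nat_lit 728285582128) (nat_lit 76) (nat_lit 130330081410) (nat_lit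 9) (nat_lit 4) (nat_lit 10) (nat_lit 5) (nat_lit 10) (nat_lit 4) (nat_lit 348) (nat_lit 306) (nat_lit 126)) (XT.lf (nat_lit 0) (nat_lit 27091061999) (nat_lit 152) (nat_lit 541606134423) (nat_lit 76) (nat_lit 748627746750) (nat_lit 8) (nat_lit 5) (nat_lit 10) (nat_lit 5) (nat_lit 9) (nat_lit 4) (nat_lit 349) (nat_lit 306) (nat_lit 125)))) (XT.nd (nat_lit 156) (nat_lit 0) (nat_lit 0) (XT.nd (nat_lit 78) (nat_lit 76) (nat_lit 0) (XT.lf (nat_lit 0) (nat_lit 190064658946) (nat_lit 152) (nat_lit 202621092276) (nat_lit 76) (nat_lit 1013439431525) (nat_lit 8) (nat_lit 5) (nat_lit 10) (nat_lit 5) (nat_lit 9) (nat_lit 4) (nat_lit 350) (nat_lit 306) (nat_lit 124)) (XT.lf (nat_lit 0) (nat_lit 172091414261) (nat_lit 76) (nat_lit 198123505798) (nat_lit 152) (nat_lit 1131483419340) (nat_lit 7) (nat_lit 5) (nat_lit 8) (nat_lit 5) (nat_lit 9) (nat_lit 4) (nat_lit 351) (nat_lit 306) (nat_lit 123))) (XT.nd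 (nat_lit 78) (nat_lit 0) (nat_lit 0) (XT.lf (nat_lit 0) (nat_lit 570749782192) (nat_lit 152) (nat_lit 1016602619781) (nat_lit 0) (nat_lit 17087140220) (nat_lit 7) (nat_lit 5) (nat_lit 9) (nat_lit 4) (nat_lit 7) (nat_lit 4) (nat_lit 352) (nat_lit 306) (nat_lit 122)) (XT.lf (nat_lit 0) (nat_lit 792473474345) (nat_lit 152) (nat_lit 683704080265) (nat_lit 0) (nat_lit 238810803336) (nat_lit 7) (nat_lit 5) (nat_lit 9) (nat_lit 4) (nat_lit 7) (nat_lit 4) (nat_lit 353) (nat_lit 306) (nat_lit 121))))) (XT.nd (nat_lit 312) (nat_lit 76) (nat_lit 0) (XT.nd (nat_lit 156) (nat_lit 0) (nat_lit 0) (XT.nd (nat_lit 78) (nat_lit 76) (nat_lit 0) (XT.lf (nat_lit 0) (nat_lit 1031935039613) (nat_lit 152) (nat_lit 324173699426) (nat_lit 0) (nat_lit 478272341719) (nat_lit 7) (nat_lit 5) (nat_lit 9) (nat_lit 4) (nat_lit 7) (nat_lit 4) (nat_lit 354) (nat_lit 306) (nat_lit 120)) (XT.lf (nat_lit 0) (nat_lit 67495469903)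 (nat_lit 76) (nat_lit 1224681307266) (nat_lit 76) (nat_lit 671018584477) (nat_lit 6) (nat_lit 4) (nat_lit 7) (nat_lit 5) (nat_lit 7) (nat_lit 4) (nat_lit 355) (nat_lit 306) (nat_lit 119))) (XT.nd (nat_lit 78) (nat_lit 0) (nat_lit 0) (XT.lf (nat_lit 0) (nat_lit 508934180550) (nat_lit 76) (nat_lit 1073167136617) (nat_lit 76) (nat_lit 519504390778) (nat_lit 6) (nat_lit 4) (nat_lit 7) (nat_lit 5) (nat_lit 7) (nat_lit 4) (nat_lit 356) (nat_lit 306) (nat_lit 118)) (XT.lf (nat_lit 0) (nat_lit 985687953087) (nat_lit 76) (nat_lit 909531848768) (nat_lit 76) (nat_lit 355869081588) (nat_lit 6) (nat_lit 4) (nat_lit 7) (nat_lit 5) (nat_lit 7) (nat_lit 4) (nat_lit 357) (nat_lit 306) (nat_lit 117)))) (XT.nd (nat_lit 156) (nat_lit 0) (nat_lit 0) (XT.nd (nat_lit 78) (nat_lit 76) (nat_lit 0) (XT.lf (nat_lit 0) (nat_lit 1500581995056) (nat_lit 76) (nat_lit 732805753126) (nat_lit 76) (nat_lit 179142966184)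 (nat_lit 6) (nat_lit 4) (nat_lit 7) (nat_lit 5) (nat_lit 7) (nat_lit 4) (nat_lit 358) (nat_lit 306) (nat_lit 116)) (XT.lf (nat_lit 0) (nat_lit 11134878341) (nat_lit 152) (nat_lit 530502258290) (nat_lit 76) (nat_lit 2045228204761) (nat_lit 5) (nat_lit 5) (nat_lit 7) (nat_lit 5) (nat_lit 6) (nat_lit 4) (nat_lit 359) (nat_lit 306) (nat_lit 115))) (XT.nd (nat_lit 36504) (nat_lit 0) (nat_lit 2964) (XT.lf (nat_lit 0) (nat_lit 206956562105) (nat_lit 152) (nat_lit 123193173003) (nat_lit 76) (nat_lit 2444624759564) (nat_lit 5) (nat_lit 5) (nat_lit 7) (nat_lit 5) (nat_lit 6) (nat_lit 4) (nat_lit 360) (nat_lit 306) (nat_lit 114)) (XT.lf (nat_lit 0) (nat_lit 45487594239) (nat_lit 532) (nat_lit 15296527638) (nat_lit 532) (nat_lit 15296527638) (nat_lit 44) (nat_lit 3) (nat_lit 51) (nat_lit 3) (nat_lit 51) (nat_lit 5) (nat_lit 307) (nat_lit 307) (nat_lit 166))))))))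
noncomputable def xc113 : XT := (XT.nd (nat_lit 2340) (nat_lit 684) (nat_lit 0) (XT.nd (nat_lit 1170) (nat_lit 1140) (nat_lit 0) (XT.nd (nat_lit 546) (nat_lit 912) (nat_lit 0) (XT.nd (nat_lit 234) (nat_lit 228) (nat_lit 0) (XT.nd (nat_lit 78) (nat_lit 0) (nat_lit 76) (XT.lf (nat_lit 76) (nat_lit 40461159944) (nat_lit 0) (nat_lit 55128704043) (nat_lit 532) (nat_lit 62579825150) (nat_lit 45) (nat_lit 5) (nat_lit 44) (nat_lit 3) (nat_lit 51) (nat_lit 5) (nat_lit 308) (nat_lit 307) (nat_lit 165)) (XT.nd (nat_lit 78) (nat_lit 0) (nat_lit 0) (XT.lf (nat_lit 0) (nat_lit 101831505490) (nat_lit 456) (nat_lit 46074020002) (nat_lit 532) (nat_lit 16652602445) (nat_lit 45) (nat_lit 5) (nat_lit 51) (nat_lit 5) (nat_lit 52) (nat_lit 5) (nat_lit 309) (nat_lit 307) (nat_lit 164)) (XT.lf (nat_lit 76) (nat_lit 31431508127) (nat_lit 0) (nat_lit 79328573732) (nat_lit 532) (nat_lit 60522552477) (nat_lit 46)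 (nat_lit 5) (nat_lit 45) (nat_lit 5) (nat_lit 52) (nat_lit 5) (nat_lit 310) (nat_lit 307) (nat_lit 163)))) (XT.nd (nat_lit 156) (nat_lit 304) (nat_lit 0) (XT.nd (nat_lit 78) (nat_lit 0) (nat_lit 76) (XT.lf (nat_lit 76) (nat_lit 117757594126) (nat_lit 0) (nat_lit 3904870210) (nat_lit 532) (nat_lit 56781876034) (nat_lit 46) (nat_lit 5) (nat_lit 45) (nat_lit 5) (nat_lit 52) (nat_lit 5) (nat_lit 311) (nat_lit 307) (nat_lit 162)) (XT.lf (nat_lit 76) (nat_lit 24153745059) (nat_lit 0) (nat_lit 111729128420) (nat_lit 532) (nat_lit 50100443190) (nat_lit 47) (nat_lit 5) (nat_lit 46) (nat_lit 5) (nat_lit 53) (nat_lit 5) (nat_lit 312) (nat_lit 307) (nat_lit 161))) (XT.nd (nat_lit 78) (nat_lit 380) (nat_lit 0) (XT.lf (nat_lit 76) (nat_lit 119125860537) (nat_lit 0) (nat_lit 33872999924) (nat_lit 532) (nat_lit 40985915622) (nat_lit 47) (nat_lit 5) (nat_lit 46) (nat_lit 5) (nat_lit 53) (nat_lit 5) (nat_lit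 313) (nat_lit 307) (nat_lit 160)) (XT.lf (nat_lit 0) (nat_lit 18802202401) (nat_lit 456) (nat_lit 154341527827) (nat_lit 532) (nat_lit 29349854289) (nat_lit 41) (nat_lit 5) (nat_lit 47) (nat_lit 5) (nat_lit 48) (nat_lit 5) (nat_lit 314) (nat_lit 307) (nat_lit 159))))) (XT.nd (nat_lit 312) (nat_lit 380) (nat_lit 0) (XT.nd (nat_lit 156) (nat_lit 228) (nat_lit 0) (XT.nd (nat_lit 78) (nat_lit 304) (nat_lit 0) (XT.lf (nat_lit 0) (nat_lit 123287196631) (nat_lit 456) (nat_lit 74517141971) (nat_lit 532) (nat_lit 13646427633) (nat_lit 41) (nat_lit 5) (nat_lit 47) (nat_lit 5) (nat_lit 48) (nat_lit 5) (nat_lit 315) (nat_lit 307) (nat_lit 158)) (XT.lf (nat_lit 0) (nat_lit 3818363332) (nat_lit 304) (nat_lit 205668398954) (nat_lit 76) (nat_lit 11577719233) (nat_lit 37) (nat_lit 5) (nat_lit 41) (nat_lit 5) (nat_lit 38) (nat_lit 5) (nat_lit 316) (nat_lit 307) (nat_lit 157))) (XT.nd (nat_lit 78) (nat_lit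 228) (nat_lit 0) (XT.lf (nat_lit 0) (nat_lit 26351591936) (nat_lit 304) (nat_lit 101352741779) (nat_lit 76) (nat_lit 103361923248) (nat_lit 37) (nat_lit 5) (nat_lit 41) (nat_lit 5) (nat_lit 38) (nat_lit 5) (nat_lit 317) (nat_lit 307) (nat_lit 156)) (XT.lf (nat_lit 0) (nat_lit 11903475860) (nat_lit 228) (nat_lit 39070139116) (nat_lit 304) (nat_lit 190871668963) (nat_lit 34) (nat_lit 5) (nat_lit 37) (nat_lit 5) (nat_lit 38) (nat_lit 5) (nat_lit 318) (nat_lit 307) (nat_lit 155)))) (XT.nd (nat_lit 156) (nat_lit 152) (nat_lit 0) (XT.nd (nat_lit 78) (nat_lit 228) (nat_lit 0) (XT.lf (nat_lit 0) (nat_lit 81770954765) (nat_lit 304) (nat_lit 114715415453) (nat_lit 76) (nat_lit 56663818826) (nat_lit 34) (nat_lit 5) (nat_lit 38) (nat_lit 5) (nat_lit 35) (nat_lit 5) (nat_lit 319) (nat_lit 307) (nat_lit 154)) (XT.lf (nat_lit 0) (nat_lit 9173003093) (nat_lit 228) (nat_lit 107094372443) (nat_lit 304)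 (nat_lit 148993287850) (nat_lit 31) (nat_lit 5) (nat_lit 34) (nat_lit 5) (nat_lit 35) (nat_lit 5) (nat_lit 320) (nat_lit 307) (nat_lit 153))) (XT.nd (nat_lit 78) (nat_lit 152) (nat_lit 0) (XT.lf (nat_lit 0) (nat_lit 149496318731) (nat_lit 228) (nat_lit 7163593910) (nat_lit 304) (nat_lit 121429151131) (nat_lit 31) (nat_lit 5) (nat_lit 34) (nat_lit 5) (nat_lit 35) (nat_lit 5) (nat_lit 321) (nat_lit 307) (nat_lit 152)) (XT.lf (nat_lit 0) (nat_lit 7029969204) (nat_lit 152) (nat_lit 195846162759) (nat_lit 228) (nat_lit 88860222173) (nat_lit 29) (nat_lit 5) (nat_lit 31) (nat_lit 5) (nat_lit 32) (nat_lit 5) (nat_lit 322) (nat_lit 307) (nat_lit 151)))))) (XT.nd (nat_lit 546) (nat_lit 608) (nat_lit 0) (XT.nd (nat_lit 234) (nat_lit 304) (nat_lit 0) (XT.nd (nat_lit 78) (nat_lit 228) (nat_lit 0) (XT.lf (nat_lit 0) (nat_lit 160619680455) (nat_lit 152) (nat_lit 95867171960) (nat_lit 228) (nat_lit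 49692799293) (nat_lit 29) (nat_lit 5) (nat_lit 31) (nat_lit 5) (nat_lit 32) (nat_lit 5) (nat_lit 323) (nat_lit 307) (nat_lit 150)) (XT.nd (nat_lit 78) (nat_lit 76) (nat_lit 0) (XT.lf (nat_lit 0) (nat_lit 4659876964) (nat_lit 152) (nat_lit 310129773255) (nat_lit 228) (nat_lit 6956505535) (nat_lit 27) (nat_lit 5) (nat_lit 29) (nat_lit 5) (nat_lit 30) (nat_lit 5) (nat_lit 324) (nat_lit 307) (nat_lit 149)) (XT.lf (nat_lit 0) (nat_lit 43811013532) (nat_lit 228) (nat_lit 166600449519) (nat_lit 76) (nat_lit 127545242995) (nat_lit 26) (nat_lit 5) (nat_lit 29) (nat_lit 5) (nat_lit 27) (nat_lit 5) (nat_lit 325) (nat_lit 307) (nat_lit 148)))) (XT.nd (nat_lit 156) (nat_lit 152) (nat_lit 0) (XT.nd (nat_lit 78) (nat_lit 152) (nat_lit 0) (XT.lf (nat_lit 0) (nat_lit 98264011360) (nat_lit 228) (nat_lit 4256569498) (nat_lit 76) (nat_lit 252929071885) (nat_lit 26) (nat_lit 5) (nat_lit 29) (nat_lit 5) (nat_lit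 27) (nat_lit 5) (nat_lit 326) (nat_lit 307) (nat_lit 147)) (XT.lf (nat_lit 0) (nat_lit 161853401076) (nat_lit 228) (nat_lit 194361598734) (nat_lit 76) (nat_lit 17744623381) (nat_lit 24) (nat_lit 5) (nat_lit 27) (nat_lit 5) (nat_lit 25) (nat_lit 5) (nat_lit 327) (nat_lit 307) (nat_lit 146))) (XT.nd (nat_lit 78) (nat_lit 152) (nat_lit 0) (XT.lf (nat_lit 0) (nat_lit 233312137856) (nat_lit 228) (nat_lit 18204035569) (nat_lit 76) (nat_lit 142211642347) (nat_lit 24) (nat_lit 5) (nat_lit 27) (nat_lit 5) (nat_lit 25) (nat_lit 5) (nat_lit 328) (nat_lit 307) (nat_lit 145)) (XT.lf (nat_lit 0) (nat_lit 181105659623) (nat_lit 152) (nat_lit 133737434046) (nat_lit 228) (nat_lit 99885928637) (nat_lit 22) (nat_lit 5) (nat_lit 24) (nat_lit 5) (nat_lit 25) (nat_lit 5) (nat_lit 329) (nat_lit 307) (nat_lit 144))))) (XT.nd (nat_lit 312) (nat_lit 304) (nat_lit 0) (XT.nd (nat_lit 156) (nat_lit 152) (nat_lit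 0) (XT.nd (nat_lit 78) (nat_lit 152) (nat_lit 0) (XT.lf (nat_lit 0) (nat_lit 397395301287) (nat_lit 152) (nat_lit 5998882842) (nat_lit 228) (nat_lit 33976328723) (nat_lit 22) (nat_lit 5) (nat_lit 24) (nat_lit 5) (nat_lit 25) (nat_lit 5) (nat_lit 330) (nat_lit 307) (nat_lit 143)) (XT.lf (nat_lit 0) (nat_lit 42912271796) (nat_lit 152) (nat_lit 287587770568) (nat_lit 76) (nat_lit 130646301560) (nat_lit 20) (nat_lit 5) (nat_lit 22) (nat_lit 5) (nat_lit 21) (nat_lit 5) (nat_lit 331) (nat_lit 307) (nat_lit 142))) (XT.nd (nat_lit 78) (nat_lit 152) (nat_lit 0) (XT.lf (nat_lit 0) (nat_lit 125393486686) (nat_lit 152) (nat_lit 81355128257) (nat_lit 76) (nat_lit 279902856042) (nat_lit 20) (nat_lit 5) (nat_lit 22) (nat_lit 5) (nat_lit 21) (nat_lit 5) (nat_lit 332) (nat_lit 307) (nat_lit 141)) (XT.lf (nat_lit 0) (nat_lit 148820637971) (nat_lit 152) (nat_lit 69231638576) (nat_lit 228) (nat_lit 295858405547)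 (nat_lit 18) (nat_lit 5) (nat_lit 20) (nat_lit 5) (nat_lit 21) (nat_lit 5) (nat_lit 333) (nat_lit 307) (nat_lit 140)))) (XT.nd (nat_lit 156) (nat_lit 228) (nat_lit 0) (XT.nd (nat_lit 78) (nat_lit 76) (nat_lit 0) (XT.lf (nat_lit 0) (nat_lit 322312725654) (nat_lit 228) (nat_lit 143100198315) (nat_lit 76) (nat_lit 77602589736) (nat_lit 18) (nat_lit 5) (nat_lit 21) (nat_lit 5) (nat_lit 19) (nat_lit 4) (nat_lit 334) (nat_lit 307) (nat_lit 139)) (XT.lf (nat_lit 0) (nat_lit 99845178357) (nat_lit 76) (nat_lit 339268279430) (nat_lit 152) (nat_lit 134999318381) (nat_lit 17) (nat_lit 5) (nat_lit 18) (nat_lit 5) (nat_lit 19) (nat_lit 4) (nat_lit 335) (nat_lit 307) (nat_lit 138))) (XT.nd (nat_lit 78) (nat_lit 228) (nat_lit 0) (XT.lf (nat_lit 0) (nat_lit 370364329966) (nat_lit 76) (nat_lit 198806477314) (nat_lit 152) (nat_lit 38214007728) (nat_lit 17) (nat_lit 5) (nat_lit 18) (nat_lit 5) (nat_lit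 19) (nat_lit 4) (nat_lit 336) (nat_lit 307) (nat_lit 137)) (XT.lf (nat_lit 0) (nat_lit 18538841962) (nat_lit 152) (nat_lit 44903792575) (nat_lit 228) (nat_lit 579712729339) (nat_lit 14) (nat_lit 5) (nat_lit 16) (nat_lit 5) (nat_lit 17) (nat_lit 5) (nat_lit 337) (nat_lit 307) (nat_lit 136))))))) (XT.nd (nat_lit 1170) (nat_lit 152) (nat_lit 0) (XT.nd (nat_lit 546) (nat_lit 304) (nat_lit 0) (XT.nd (nat_lit 234) (nat_lit 152) (nat_lit 0) (XT.nd (nat_lit 78) (nat_lit 76) (nat_lit 0) (XT.lf (nat_lit 0) (nat_lit 180733629951) (nat_lit 228) (nat_lit 377325152033) (nat_lit 76) (nat_lit 122884059347) (nat_lit 14) (nat_lit 5) (nat_lit 17) (nat_lit 5) (nat_lit 15) (nat_lit 4) (nat_lit 338) (nat_lit 307) (nat_lit 135)) (XT.nd (nat_lit 78) (nat_lit 76) (nat_lit 0) (XT.lf (nat_lit 0) (nat_lit 308574190402) (nat_lit 228) (nat_lit 111416885771) (nat_lit 76) (nat_lit 301668938037) (nat_lit 14) (nat_lit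 5) (nat_lit 17) (nat_lit 5) (nat_lit 15) (nat_lit 4) (nat_lit 339) (nat_lit 307) (nat_lit 134)) (XT.lf (nat_lit 0) (nat_lit 185019385864) (nat_lit 76) (nat_lit 266072287107) (nat_lit 152) (nat_lit 314186913824) (nat_lit 13) (nat_lit 5) (nat_lit 14) (nat_lit 5) (nat_lit 15) (nat_lit 4) (nat_lit 340) (nat_lit 307) (nat_lit 133)))) (XT.nd (nat_lit 156) (nat_lit 152) (nat_lit 0) (XT.nd (nat_lit 78) (nat_lit 0) (nat_lit 0) (XT.lf (nat_lit 0) (nat_lit 511506863206) (nat_lit 76) (nat_lit 96549984105) (nat_lit 152) (nat_lit 204086094475) (nat_lit 13) (nat_lit 5) (nat_lit 14) (nat_lit 5) (nat_lit 15) (nat_lit 4) (nat_lit 341) (nat_lit 307) (nat_lit 132)) (XT.lf (nat_lit 0) (nat_lit 779660343334) (nat_lit 152) (nat_lit 724323799) (nat_lit 0) (nat_lit 82205289473) (nat_lit 13) (nat_lit 5) (nat_lit 15) (nat_lit 4) (nat_lit 13) (nat_lit 4) (nat_lit 342) (nat_lit 307) (nat_lit 131))) (XT.nd (nat_lit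 78) (nat_lit 0) (nat_lit 0) (XT.lf (nat_lit 0) (nat_lit 56424312519) (nat_lit 152) (nat_lit 580092551522) (nat_lit 76) (nat_lit 279591507791) (nat_lit 11) (nat_lit 5) (nat_lit 13) (nat_lit 5) (nat_lit 12) (nat_lit 4) (nat_lit 343) (nat_lit 307) (nat_lit 130)) (XT.lf (nat_lit 0) (nat_lit 202466481568) (nat_lit 152) (nat_lit 276324902586) (nat_lit 76) (nat_lit 494942932299) (nat_lit 11) (nat_lit 5) (nat_lit 13) (nat_lit 5) (nat_lit 12) (nat_lit 4) (nat_lit 344) (nat_lit 307) (nat_lit 129))))) (XT.nd (nat_lit 312) (nat_lit 152) (nat_lit 0) (XT.nd (nat_lit 156) (nat_lit 76) (nat_lit 0) (XT.nd (nat_lit 78) (nat_lit 0) (nat_lit 0) (XT.lf (nat_lit 0) (nat_lit 54468850375) (nat_lit 76) (nat_lit 307033117253) (nat_lit 152) (nat_lit 674363573574) (nat_lit 10) (nat_lit 5) (nat_lit 11) (nat_lit 5) (nat_lit 12) (nat_lit 4) (nat_lit 345) (nat_lit 307) (nat_lit 128)) (XT.lf (nat_lit 0) (nat_lit 427440886775)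 (nat_lit 76) (nat_lit 113374585730) (nat_lit 152) (nat_lit 561547377064) (nat_lit 10) (nat_lit 5) (nat_lit 11) (nat_lit 5) (nat_lit 12) (nat_lit 4) (nat_lit 346) (nat_lit 307) (nat_lit 127))) (XT.nd (nat_lit 78) (nat_lit 76) (nat_lit 0) (XT.lf (nat_lit 0) (nat_lit 736777457222) (nat_lit 152) (nat_lit 346232743090) (nat_lit 0) (nat_lit 90985470369) (nat_lit 10) (nat_lit 5) (nat_lit 12) (nat_lit 4) (nat_lit 10) (nat_lit 4) (nat_lit 347) (nat_lit 307) (nat_lit 126)) (XT.lf (nat_lit 0) (nat_lit 6112541664) (nat_lit 76) (nat_lit 945395631772) (nat_lit 76) (nat_lit 299603602256) (nat_lit 9) (nat_lit 4) (nat_lit 10) (nat_lit 5) (nat_lit 10) (nat_lit 4) (nat_lit 348) (nat_lit 307) (nat_lit 125)))) (XT.nd (nat_lit 156) (nat_lit 76) (nat_lit 0) (XT.nd (nat_lit 78) (nat_lit 76) (nat_lit 0) (XT.lf (nat_lit 0) (nat_lit 406335961228) (nat_lit 76) (nat_lit 786547974894) (nat_lit 76) (nat_lit 140755905875)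 (nat_lit 9) (nat_lit 4) (nat_lit 10) (nat_lit 5) (nat_lit 10) (nat_lit 4) (nat_lit 349) (nat_lit 307) (nat_lit 124)) (XT.lf (nat_lit 0) (nat_lit 29258858932) (nat_lit 152) (nat_lit 584933679017) (nat_lit 76) (nat_lit 808518359278) (nat_lit 8) (nat_lit 5) (nat_lit 10) (nat_lit 5) (nat_lit 9) (nat_lit 4) (nat_lit 350) (nat_lit 307) (nat_lit 123))) (XT.nd (nat_lit 78) (nat_lit 76) (nat_lit 0) (XT.lf (nat_lit 0) (nat_lit 205270305712) (nat_lit 152) (nat_lit 218829903584) (nat_lit 76) (nat_lit 1094514949740) (nat_lit 8) (nat_lit 5) (nat_lit 10) (nat_lit 5) (nat_lit 9) (nat_lit 4) (nat_lit 351) (nat_lit 307) (nat_lit 122)) (XT.lf (nat_lit 0) (nat_lit 185859581297) (nat_lit 76) (nat_lit 213972991837) (nat_lit 152) (nat_lit 1222001596280) (nat_lit 7) (nat_lit 5) (nat_lit 8) (nat_lit 5) (nat_lit 9) (nat_lit 4) (nat_lit 352) (nat_lit 307) (nat_lit 121)))))) (XT.nd (nat_lit 37128) (nat_lit 0) (nat_lit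 2736) (XT.nd (nat_lit 312) (nat_lit 76) (nat_lit 0) (XT.nd (nat_lit 156) (nat_lit 76) (nat_lit 0) (XT.nd (nat_lit 78) (nat_lit 0) (nat_lit 0) (XT.lf (nat_lit 0) (nat_lit 616410198987) (nat_lit 152) (nat_lit 1097930013117) (nat_lit 0) (nat_lit 18454458376) (nat_lit 7) (nat_lit 5) (nat_lit 9) (nat_lit 4) (nat_lit 7) (nat_lit 4) (nat_lit 353) (nat_lit 307) (nat_lit 120)) (XT.lf (nat_lit 0) (nat_lit 855871754348) (nat_lit 152) (nat_lit 738399650903) (nat_lit 0) (nat_lit 257915988842) (nat_lit 7) (nat_lit 5) (nat_lit 9) (nat_lit 4) (nat_lit 7) (nat_lit 4) (nat_lit 354) (nat_lit 307) (nat_lit 119))) (XT.nd (nat_lit 78) (nat_lit 76) (nat_lit 0) (XT.lf (nat_lit 0) (nat_lit 1114490215055) (nat_lit 152) (nat_lit 350106895581) (nat_lit 0) (nat_lit 516534426500) (nat_lit 7) (nat_lit 5) (nat_lit 9) (nat_lit 4) (nat_lit 7) (nat_lit 4) (nat_lit 355) (nat_lit 307) (nat_lit 118)) (XT.lf (nat_lit 0) (nat_lit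 72895789578) (nat_lit 76) (nat_lit 1322655490865) (nat_lit 76) (nat_lit 724699680968) (nat_lit 6) (nat_lit 4) (nat_lit 7) (nat_lit 5) (nat_lit 7) (nat_lit 4) (nat_lit 356) (nat_lit 307) (nat_lit 117)))) (XT.nd (nat_lit 156) (nat_lit 76) (nat_lit 0) (XT.nd (nat_lit 78) (nat_lit 0) (nat_lit 0) (XT.lf (nat_lit 0) (nat_lit 549649546552) (nat_lit 76) (nat_lit 1159020210341) (nat_lit 76) (nat_lit 561064380682) (nat_lit 6) (nat_lit 4) (nat_lit 7) (nat_lit 5) (nat_lit 7) (nat_lit 4) (nat_lit 357) (nat_lit 307) (nat_lit 116)) (XT.lf (nat_lit 0) (nat_lit 1064543574110) (nat_lit 76) (nat_lit 982294121480) (nat_lit 76) (nat_lit 384338273523) (nat_lit 6) (nat_lit 4) (nat_lit 7) (nat_lit 5) (nat_lit 7) (nat_lit 4) (nat_lit 358) (nat_lit 307) (nat_lit 115))) (XT.nd (nat_lit 78) (nat_lit 76) (nat_lit 0) (XT.lf (nat_lit 0) (nat_lit 1620629096120) (nat_lit 76) (nat_lit 791429958571) (nat_lit 76) (nat_lit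 193474093671) (nat_lit 6) (nat_lit 4) (nat_lit 7) (nat_lit 5) (nat_lit 7) (nat_lit 4) (nat_lit 359) (nat_lit 307) (nat_lit 114)) (XT.lf (nat_lit 0) (nat_lit 12025941117) (nat_lit 152) (nat_lit 572941923063) (nat_lit 76) (nat_lit 2208846682533) (nat_lit 5) (nat_lit 5) (nat_lit 7) (nat_lit 5) (nat_lit 6) (nat_lit 4) (nat_lit 360) (nat_lit 307) (nat_lit 113))))) (XT.nd (nat_lit 312) (nat_lit 228) (nat_lit 0) (XT.nd (nat_lit 156) (nat_lit 0) (nat_lit 76) (XT.nd (nat_lit 78) (nat_lit 0) (nat_lit 0) (XT.lf (nat_lit 0) (nat_lit 49129115924) (nat_lit 532) (nat_lit 16518888102) (nat_lit 532) (nat_lit 16518888102) (nat_lit 44) (nat_lit 3) (nat_lit 51) (nat_lit 3) (nat_lit 51) (nat_lit 5) (nat_lit 308) (nat_lit 308) (nat_lit 164)) (XT.lf (nat_lit 76) (nat_lit 43700707285) (nat_lit 0) (nat_lit 59541065489) (nat_lit 532) (nat_lit 67581098705) (nat_lit 45) (nat_lit 5) (nat_lit 44) (nat_lit 3) (nat_lit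 51) (nat_lit 5) (nat_lit 309) (nat_lit 308) (nat_lit 163))) (XT.nd (nat_lit 78) (nat_lit 0) (nat_lit 0) (XT.lf (nat_lit 0) (nat_lit 109982350004) (nat_lit 456) (nat_lit 49757074009) (nat_lit 532) (nat_lit 17982994144) (nat_lit 45) (nat_lit 5) (nat_lit 51) (nat_lit 5) (nat_lit 52) (nat_lit 5) (nat_lit 310) (nat_lit 308) (nat_lit 162)) (XT.lf (nat_lit 76) (nat_lit 33948823773) (nat_lit 0) (nat_lit 85676135628) (nat_lit 532) (nat_lit 65359946958) (nat_lit 46) (nat_lit 5) (nat_lit 45) (nat_lit 5) (nat_lit 52) (nat_lit 5) (nat_lit 311) (nat_lit 308) (nat_lit 161)))) (XT.nd (nat_lit 156) (nat_lit 304) (nat_lit 0) (XT.nd (nat_lit 78) (nat_lit 0) (nat_lit 76) (XT.lf (nat_lit 76) (nat_lit 127180789615) (nat_lit 0) (nat_lit 4218441306) (nat_lit 532) (nat_lit 61320343045) (nat_lit 46) (nat_lit 5) (nat_lit 45) (nat_lit 5) (nat_lit 52) (nat_lit 5) (nat_lit 312) (nat_lit 308) (nat_lit 160)) (XT.lf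 (nat_lit 76) (nat_lit 26088900494) (nat_lit 0) (nat_lit 120668135457) (nat_lit 532) (nat_lit 54104652260) (nat_lit 47) (nat_lit 5) (nat_lit 46) (nat_lit 5) (nat_lit 53) (nat_lit 5) (nat_lit 313) (nat_lit 308) (nat_lit 159))) (XT.nd (nat_lit 78) (nat_lit 380) (nat_lit 0) (XT.lf (nat_lit 76) (nat_lit 128658573667) (nat_lit 0) (nat_lit 36583466551) (nat_lit 532) (nat_lit 44261245922) (nat_lit 47) (nat_lit 5) (nat_lit 46) (nat_lit 5) (nat_lit 53) (nat_lit 5) (nat_lit 314) (nat_lit 308) (nat_lit 158)) (XT.lf (nat_lit 0) (nat_lit 20309235768) (nat_lit 456) (nat_lit 166689076269) (nat_lit 532) (nat_lit 31694502982) (nat_lit 41) (nat_lit 5) (nat_lit 47) (nat_lit 5) (nat_lit 48) (nat_lit 5) (nat_lit 315) (nat_lit 308) (nat_lit 157))))))))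
noncomputable def xc114 : XT := (XT.nd (nat_lit 2340) (nat_lit 380) (nat_lit 0) (XT.nd (nat_lit 1170) (nat_lit 836) (nat_lit 0) (XT.nd (nat_lit 546) (nat_lit 684) (nat_lit 0) (XT.nd (nat_lit 234) (nat_lit 456) (nat_lit 0) (XT.nd (nat_lit 78) (nat_lit 304) (nat_lit 0) (XT.lf (nat_lit 0) (nat_lit 133152817894) (nat_lit 456) (nat_lit 80478722787) (nat_lit 532) (nat_lit 14735049575) (nat_lit 41) (nat_lit 5) (nat_lit 47) (nat_lit 5) (nat_lit 48) (nat_lit 5) (nat_lit 316) (nat_lit 308) (nat_lit 156)) (XT.nd (nat_lit 78) (nat_lit 0) (nat_lit 0) (XT.lf (nat_lit 0) (nat_lit 4126617048) (nat_lit 304) (nat_lit 222118901887) (nat_lit 76) (nat_lit 12503890722) (nat_lit 37) (nat_lit 5) (nat_lit 41) (nat_lit 5) (nat_lit 38) (nat_lit 5) (nat_lit 317) (nat_lit 308) (nat_lit 155)) (XT.lf (nat_lit 0) (nat_lit 28462297670) (nat_lit 304) (nat_lit 109458212063) (nat_lit 76) (nat_lit 111630834469) (nat_lit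 37) (nat_lit 5) (nat_lit 41) (nat_lit 5) (nat_lit 38) (nat_lit 5) (nat_lit 318) (nat_lit 308) (nat_lit 154)))) (XT.nd (nat_lit 156) (nat_lit 228) (nat_lit 0) (XT.nd (nat_lit 78) (nat_lit 0) (nat_lit 0) (XT.lf (nat_lit 0) (nat_lit 12858433391) (nat_lit 228) (nat_lit 42195522612) (nat_lit 304) (nat_lit 206138747979) (nat_lit 34) (nat_lit 5) (nat_lit 37) (nat_lit 5) (nat_lit 38) (nat_lit 5) (nat_lit 319) (nat_lit 308) (nat_lit 153)) (XT.lf (nat_lit 0) (nat_lit 88314906428) (nat_lit 304) (nat_lit 123889985115) (nat_lit 76) (nat_lit 61197124559) (nat_lit 34) (nat_lit 5) (nat_lit 38) (nat_lit 5) (nat_lit 35) (nat_lit 5) (nat_lit 320) (nat_lit 308) (nat_lit 152))) (XT.nd (nat_lit 78) (nat_lit 0) (nat_lit 0) (XT.lf (nat_lit 0) (nat_lit 9909439482) (nat_lit 228) (nat_lit 115661495276) (nat_lit 304) (nat_lit 160910402570) (nat_lit 31) (nat_lit 5) (nat_lit 34) (nat_lit 5) (nat_lit 35) (nat_lit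 5) (nat_lit 321) (nat_lit 308) (nat_lit 151)) (XT.lf (nat_lit 0) (nat_lit 161458428064) (nat_lit 228) (nat_lit 7736286087) (nat_lit 304) (nat_lit 131141308862) (nat_lit 31) (nat_lit 5) (nat_lit 34) (nat_lit 5) (nat_lit 35) (nat_lit 5) (nat_lit 322) (nat_lit 308) (nat_lit 150))))) (XT.nd (nat_lit 312) (nat_lit 304) (nat_lit 0) (XT.nd (nat_lit 156) (nat_lit 228) (nat_lit 0) (XT.nd (nat_lit 78) (nat_lit 0) (nat_lit 0) (XT.lf (nat_lit 0) (nat_lit 7594862113) (nat_lit 152) (nat_lit 211513288946) (nat_lit 228) (nat_lit 95966952329) (nat_lit 29) (nat_lit 5) (nat_lit 31) (nat_lit 5) (nat_lit 32) (nat_lit 5) (nat_lit 323) (nat_lit 308) (nat_lit 149)) (XT.lf (nat_lit 0) (nat_lit 173471565421) (nat_lit 152) (nat_lit 103536020871) (nat_lit 228) (nat_lit 53666290257) (nat_lit 29) (nat_lit 5) (nat_lit 31) (nat_lit 5) (nat_lit 32) (nat_lit 5) (nat_lit 324) (nat_lit 308) (nat_lit 148))) (XT.nd (nat_lit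 78) (nat_lit 76) (nat_lit 0) (XT.lf (nat_lit 0) (nat_lit 5035050421) (nat_lit 152) (nat_lit 334939494233) (nat_lit 228) (nat_lit 7511161655) (nat_lit 27) (nat_lit 5) (nat_lit 29) (nat_lit 5) (nat_lit 30) (nat_lit 5) (nat_lit 325) (nat_lit 308) (nat_lit 147)) (XT.lf (nat_lit 0) (nat_lit 47317534487) (nat_lit 228) (nat_lit 179926188843) (nat_lit 76) (nat_lit 137749384484) (nat_lit 26) (nat_lit 5) (nat_lit 29) (nat_lit 5) (nat_lit 27) (nat_lit 5) (nat_lit 326) (nat_lit 308) (nat_lit 146)))) (XT.nd (nat_lit 156) (nat_lit 152) (nat_lit 0) (XT.nd (nat_lit 78) (nat_lit 152) (nat_lit 0) (XT.lf (nat_lit 0) (nat_lit 106126650669) (nat_lit 228) (nat_lit 4594968541) (nat_lit 76) (nat_lit 273163881015) (nat_lit 26) (nat_lit 5) (nat_lit 29) (nat_lit 5) (nat_lit 27) (nat_lit 5) (nat_lit 327) (nat_lit 308) (nat_lit 145)) (XT.lf (nat_lit 0) (nat_lit 174803143772) (nat_lit 228) (nat_lit 209908349305)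 (nat_lit 76) (nat_lit 19164779298) (nat_lit 24) (nat_lit 5) (nat_lit 27) (nat_lit 5) (nat_lit 25) (nat_lit 5) (nat_lit 328) (nat_lit 308) (nat_lit 144))) (XT.nd (nat_lit 78) (nat_lit 152) (nat_lit 0) (XT.lf (nat_lit 0) (nat_lit 251978470561) (nat_lit 228) (nat_lit 19658342369) (nat_lit 76) (nat_lit 153589116370) (nat_lit 24) (nat_lit 5) (nat_lit 27) (nat_lit 5) (nat_lit 25) (nat_lit 5) (nat_lit 329) (nat_lit 308) (nat_lit 143)) (XT.lf (nat_lit 0) (nat_lit 195596077399) (nat_lit 152) (nat_lit 144435771834) (nat_lit 228) (nat_lit 107875387621) (nat_lit 22) (nat_lit 5) (nat_lit 24) (nat_lit 5) (nat_lit 25) (nat_lit 5) (nat_lit 330) (nat_lit 308) (nat_lit 142)))))) (XT.nd (nat_lit 546) (nat_lit 456) (nat_lit 0) (XT.nd (nat_lit 234) (nat_lit 228) (nat_lit 0) (XT.nd (nat_lit 78) (nat_lit 152) (nat_lit 0) (XT.lf (nat_lit 0) (nat_lit 429188744839) (nat_lit 152) (nat_lit 6478185196) (nat_lit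 228) (nat_lit 36693124552) (nat_lit 22) (nat_lit 5) (nat_lit 24) (nat_lit 5) (nat_lit 25) (nat_lit 5) (nat_lit 331) (nat_lit 308) (nat_lit 141)) (XT.nd (nat_lit 78) (nat_lit 0) (nat_lit 0) (XT.lf (nat_lit 0) (nat_lit 46346465929) (nat_lit 152) (nat_lit 310592870405) (nat_lit 76) (nat_lit 141098616055) (nat_lit 20) (nat_lit 5) (nat_lit 22) (nat_lit 5) (nat_lit 21) (nat_lit 5) (nat_lit 332) (nat_lit 308) (nat_lit 140)) (XT.lf (nat_lit 0) (nat_lit 135426088205) (nat_lit 152) (nat_lit 87861759065) (nat_lit 76) (nat_lit 302295649683) (nat_lit 20) (nat_lit 5) (nat_lit 22) (nat_lit 5) (nat_lit 21) (nat_lit 5) (nat_lit 333) (nat_lit 308) (nat_lit 139)))) (XT.nd (nat_lit 156) (nat_lit 76) (nat_lit 0) (XT.nd (nat_lit 78) (nat_lit 0) (nat_lit 0) (XT.lf (nat_lit 0) (nat_lit 160728023412) (nat_lit 152) (nat_lit 74769516401) (nat_lit 228) (nat_lit 319525908594) (nat_lit 18) (nat_lit 5) (nat_lit 20)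 (nat_lit 5) (nat_lit 21) (nat_lit 5) (nat_lit 334) (nat_lit 308) (nat_lit 138)) (XT.lf (nat_lit 0) (nat_lit 348098759310) (nat_lit 228) (nat_lit 154546541082) (nat_lit 76) (nat_lit 83811371528) (nat_lit 18) (nat_lit 5) (nat_lit 21) (nat_lit 5) (nat_lit 19) (nat_lit 4) (nat_lit 335) (nat_lit 308) (nat_lit 137))) (XT.nd (nat_lit 78) (nat_lit 0) (nat_lit 0) (XT.lf (nat_lit 0) (nat_lit 107834423367) (nat_lit 76) (nat_lit 366409090636) (nat_lit 152) (nat_lit 145798204379) (nat_lit 17) (nat_lit 5) (nat_lit 18) (nat_lit 5) (nat_lit 19) (nat_lit 4) (nat_lit 336) (nat_lit 308) (nat_lit 136)) (XT.lf (nat_lit 0) (nat_lit 399994986309) (nat_lit 76) (nat_lit 214710392584) (nat_lit 152) (nat_lit 41270147353) (nat_lit 17) (nat_lit 5) (nat_lit 18) (nat_lit 5) (nat_lit 19) (nat_lit 4) (nat_lit 337) (nat_lit 308) (nat_lit 135))))) (XT.nd (nat_lit 312) (nat_lit 152) (nat_lit 0) (XT.nd (nat_lit 156) (nat_lit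 76) (nat_lit 0) (XT.nd (nat_lit 78) (nat_lit 0) (nat_lit 0) (XT.lf (nat_lit 0) (nat_lit 20023470133) (nat_lit 152) (nat_lit 48495474632) (nat_lit 228) (nat_lit 626088775064) (nat_lit 14) (nat_lit 5) (nat_lit 16) (nat_lit 5) (nat_lit 17) (nat_lit 5) (nat_lit 338) (nat_lit 308) (nat_lit 134)) (XT.lf (nat_lit 0) (nat_lit 195193167021) (nat_lit 228) (nat_lit 407509702132) (nat_lit 76) (nat_lit 132715330638) (nat_lit 14) (nat_lit 5) (nat_lit 17) (nat_lit 5) (nat_lit 15) (nat_lit 4) (nat_lit 339) (nat_lit 308) (nat_lit 133))) (XT.nd (nat_lit 78) (nat_lit 76) (nat_lit 0) (XT.lf (nat_lit 0) (nat_lit 333260909592) (nat_lit 228) (nat_lit 120328882870) (nat_lit 76) (nat_lit 325802959139) (nat_lit 14) (nat_lit 5) (nat_lit 17) (nat_lit 5) (nat_lit 15) (nat_lit 4) (nat_lit 340) (nat_lit 308) (nat_lit 132)) (XT.lf (nat_lit 0) (nat_lit 199822256223) (nat_lit 76) (nat_lit 287357508206) (nat_lit 152)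 (nat_lit 339321047747) (nat_lit 13) (nat_lit 5) (nat_lit 14) (nat_lit 5) (nat_lit 15) (nat_lit 4) (nat_lit 341) (nat_lit 308) (nat_lit 131)))) (XT.nd (nat_lit 156) (nat_lit 152) (nat_lit 0) (XT.nd (nat_lit 78) (nat_lit 0) (nat_lit 0) (XT.lf (nat_lit 0) (nat_lit 552428634012) (nat_lit 76) (nat_lit 104273462584) (nat_lit 152) (nat_lit 220412223530) (nat_lit 13) (nat_lit 5) (nat_lit 14) (nat_lit 5) (nat_lit 15) (nat_lit 4) (nat_lit 342) (nat_lit 308) (nat_lit 130)) (XT.lf (nat_lit 0) (nat_lit 842033831923) (nat_lit 152) (nat_lit 781097259) (nat_lit 0) (nat_lit 88782170246) (nat_lit 13) (nat_lit 5) (nat_lit 15) (nat_lit 4) (nat_lit 13) (nat_lit 4) (nat_lit 343) (nat_lit 308) (nat_lit 129))) (XT.nd (nat_lit 78) (nat_lit 0) (nat_lit 0) (XT.lf (nat_lit 0) (nat_lit 60938914487) (nat_lit 152) (nat_lit 626498777586) (nat_lit 76) (nat_lit 301959296247) (nat_lit 11) (nat_lit 5) (nat_lit 13) (nat_lit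 5) (nat_lit 12) (nat_lit 4) (nat_lit 344) (nat_lit 308) (nat_lit 128)) (XT.lf (nat_lit 0) (nat_lit 218664408396) (nat_lit 152) (nat_lit 298429803999) (nat_lit 76) (nat_lit 534538800062) (nat_lit 11) (nat_lit 5) (nat_lit 13) (nat_lit 5) (nat_lit 12) (nat_lit 4) (nat_lit 345) (nat_lit 308) (nat_lit 127))))))) (XT.nd (nat_lit 37830) (nat_lit 0) (nat_lit 1748) (XT.nd (nat_lit 546) (nat_lit 152) (nat_lit 0) (XT.nd (nat_lit 234) (nat_lit 152) (nat_lit 0) (XT.nd (nat_lit 78) (nat_lit 0) (nat_lit 0) (XT.lf (nat_lit 0) (nat_lit 58827421584) (nat_lit 76) (nat_lit 331595292267) (nat_lit 152) (nat_lit 728312022942) (nat_lit 10) (nat_lit 5) (nat_lit 11) (nat_lit 5) (nat_lit 12) (nat_lit 4) (nat_lit 346) (nat_lit 308) (nat_lit 126)) (XT.nd (nat_lit 78) (nat_lit 0) (nat_lit 0) (XT.lf (nat_lit 0) (nat_lit 461637142142) (nat_lit 76) (nat_lit 122444113361) (nat_lit 152) (nat_lit 606470577861) (nat_lit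 10) (nat_lit 5) (nat_lit 11) (nat_lit 5) (nat_lit 12) (nat_lit 4) (nat_lit 347) (nat_lit 308) (nat_lit 125)) (XT.lf (nat_lit 0) (nat_lit 795720168392) (nat_lit 152) (nat_lit 373930419914) (nat_lit 0) (nat_lit 98264694347) (nat_lit 10) (nat_lit 5) (nat_lit 12) (nat_lit 4) (nat_lit 10) (nat_lit 4) (nat_lit 348) (nat_lit 308) (nat_lit 124)))) (XT.nd (nat_lit 156) (nat_lit 76) (nat_lit 0) (XT.nd (nat_lit 78) (nat_lit 0) (nat_lit 0) (XT.lf (nat_lit 0) (nat_lit 6602463757) (nat_lit 76) (nat_lit 1021026862125) (nat_lit 76) (nat_lit 323571351503) (nat_lit 9) (nat_lit 4) (nat_lit 10) (nat_lit 5) (nat_lit 10) (nat_lit 4) (nat_lit 349) (nat_lit 308) (nat_lit 123)) (XT.lf (nat_lit 0) (nat_lit 438843688830) (nat_lit 76) (nat_lit 849471423822) (nat_lit 76) (nat_lit 152015879332) (nat_lit 9) (nat_lit 4) (nat_lit 10) (nat_lit 5) (nat_lit 10) (nat_lit 4) (nat_lit 350) (nat_lit 308) (nat_lit 122))) (XT.nd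 (nat_lit 78) (nat_lit 0) (nat_lit 0) (XT.lf (nat_lit 0) (nat_lit 31600006582) (nat_lit 152) (nat_lit 631727562158) (nat_lit 76) (nat_lit 873200164772) (nat_lit 8) (nat_lit 5) (nat_lit 10) (nat_lit 5) (nat_lit 9) (nat_lit 4) (nat_lit 351) (nat_lit 308) (nat_lit 121)) (XT.lf (nat_lit 0) (nat_lit 221692336590) (nat_lit 152) (nat_lit 236335544777) (nat_lit 76) (nat_lit 1182076457526) (nat_lit 8) (nat_lit 5) (nat_lit 10) (nat_lit 5) (nat_lit 9) (nat_lit 4) (nat_lit 352) (nat_lit 308) (nat_lit 120))))) (XT.nd (nat_lit 312) (nat_lit 76) (nat_lit 0) (XT.nd (nat_lit 156) (nat_lit 0) (nat_lit 0) (XT.nd (nat_lit 78) (nat_lit 0) (nat_lit 0) (XT.lf (nat_lit 0) (nat_lit 200729079879) (nat_lit 76) (nat_lit 231090493029) (nat_lit 152) (nat_lit 1319761298222) (nat_lit 7) (nat_lit 5) (nat_lit 8) (nat_lit 5) (nat_lit 9) (nat_lit 4) (nat_lit 353) (nat_lit 308) (nat_lit 119)) (XT.lf (nat_lit 0) (nat_lit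 665723387180) (nat_lit 152) (nat_lit 1185763714367) (nat_lit 0) (nat_lit 19931112490) (nat_lit 7) (nat_lit 5) (nat_lit 9) (nat_lit 4) (nat_lit 7) (nat_lit 4) (nat_lit 354) (nat_lit 308) (nat_lit 118))) (XT.nd (nat_lit 78) (nat_lit 0) (nat_lit 0) (XT.lf (nat_lit 0) (nat_lit 924341839393) (nat_lit 152) (nat_lit 797470975013) (nat_lit 0) (nat_lit 278549543361) (nat_lit 7) (nat_lit 5) (nat_lit 9) (nat_lit 4) (nat_lit 7) (nat_lit 4) (nat_lit 355) (nat_lit 308) (nat_lit 117)) (XT.lf (nat_lit 0) (nat_lit 1203649751424) (nat_lit 152) (nat_lit 378114847262) (nat_lit 0) (nat_lit 557857435630) (nat_lit 7) (nat_lit 5) (nat_lit 9) (nat_lit 4) (nat_lit 7) (nat_lit 4) (nat_lit 356) (nat_lit 308) (nat_lit 116)))) (XT.nd (nat_lit 156) (nat_lit 0) (nat_lit 0) (XT.nd (nat_lit 78) (nat_lit 0) (nat_lit 0) (XT.lf (nat_lit 0) (nat_lit 78728037521) (nat_lit 76) (nat_lit 1428467654945) (nat_lit 76) (nat_lit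 782675320853) (nat_lit 6) (nat_lit 4) (nat_lit 7) (nat_lit 5) (nat_lit 7) (nat_lit 4) (nat_lit 357) (nat_lit 308) (nat_lit 115)) (XT.lf (nat_lit 0) (nat_lit 593622051736) (nat_lit 76) (nat_lit 1251741572363) (nat_lit 76) (nat_lit 605949221329) (nat_lit 6) (nat_lit 4) (nat_lit 7) (nat_lit 5) (nat_lit 7) (nat_lit 4) (nat_lit 358) (nat_lit 308) (nat_lit 114))) (XT.nd (nat_lit 36738) (nat_lit 0) (nat_lit 2888) (XT.lf (nat_lit 0) (nat_lit 1149707561391) (nat_lit 76) (nat_lit 1060877415268) (nat_lit 76) (nat_lit 415085048546) (nat_lit 6) (nat_lit 4) (nat_lit 7) (nat_lit 5) (nat_lit 7) (nat_lit 4) (nat_lit 359) (nat_lit 308) (nat_lit 113)) (XT.lf (nat_lit 0) (nat_lit 53061600672) (nat_lit 532) (nat_lit 17839231672) (nat_lit 532) (nat_lit 17839231672) (nat_lit 44) (nat_lit 3) (nat_lit 51) (nat_lit 3) (nat_lit 51) (nat_lit 5) (nat_lit 309) (nat_lit 309) (nat_lit 162)))))) (XT.nd (nat_lit 624)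 (nat_lit 912) (nat_lit 0) (XT.nd (nat_lit 312) (nat_lit 228) (nat_lit 0) (XT.nd (nat_lit 156) (nat_lit 0) (nat_lit 76) (XT.nd (nat_lit 78) (nat_lit 0) (nat_lit 76) (XT.lf (nat_lit 76) (nat_lit 47199039712) (nat_lit 0) (nat_lit 64306121238) (nat_lit 532) (nat_lit 72983203494) (nat_lit 45) (nat_lit 5) (nat_lit 44) (nat_lit 3) (nat_lit 51) (nat_lit 5) (nat_lit 310) (nat_lit 309) (nat_lit 161)) (XT.lf (nat_lit 0) (nat_lit 118784645202) (nat_lit 456) (nat_lit 53735181431) (nat_lit 532) (nat_lit 19420076322) (nat_lit 45) (nat_lit 5) (nat_lit 51) (nat_lit 5) (nat_lit 52) (nat_lit 5) (nat_lit 311) (nat_lit 309) (nat_lit 160))) (XT.nd (nat_lit 78) (nat_lit 0) (nat_lit 0) (XT.lf (nat_lit 76) (nat_lit 36667125933) (nat_lit 0) (nat_lit 92531320440) (nat_lit 532) (nat_lit 70584962093) (nat_lit 46) (nat_lit 5) (nat_lit 45) (nat_lit 5) (nat_lit 52) (nat_lit 5) (nat_lit 312) (nat_lit 309) (nat_lit 159))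 (XT.lf (nat_lit 76) (nat_lit 137357471541) (nat_lit 0) (nat_lit 4556929538) (nat_lit 532) (nat_lit 66222469913) (nat_lit 46) (nat_lit 5) (nat_lit 45) (nat_lit 5) (nat_lit 52) (nat_lit 5) (nat_lit 313) (nat_lit 309) (nat_lit 158)))) (XT.nd (nat_lit 156) (nat_lit 380) (nat_lit 0) (XT.nd (nat_lit 78) (nat_lit 0) (nat_lit 0) (XT.lf (nat_lit 76) (nat_lit 28178460947) (nat_lit 0) (nat_lit 130322166509) (nat_lit 532) (nat_lit 58429743933) (nat_lit 47) (nat_lit 5) (nat_lit 46) (nat_lit 5) (nat_lit 53) (nat_lit 5) (nat_lit 314) (nat_lit 309) (nat_lit 157)) (XT.lf (nat_lit 76) (nat_lit 138953526610) (nat_lit 0) (nat_lit 39510681111) (nat_lit 532) (nat_lit 47799108089) (nat_lit 47) (nat_lit 5) (nat_lit 46) (nat_lit 5) (nat_lit 53) (nat_lit 5) (nat_lit 315) (nat_lit 309) (nat_lit 156))) (XT.nd (nat_lit 78) (nat_lit 0) (nat_lit 0) (XT.lf (nat_lit 0) (nat_lit 21936424196) (nat_lit 456) (nat_lit 180024396314)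 (nat_lit 532) (nat_lit 34227200009) (nat_lit 41) (nat_lit 5) (nat_lit 47) (nat_lit 5) (nat_lit 48) (nat_lit 5) (nat_lit 316) (nat_lit 309) (nat_lit 155)) (XT.lf (nat_lit 0) (nat_lit 143807311442) (nat_lit 456) (nat_lit 86917200188) (nat_lit 532) (nat_lit 15911202419) (nat_lit 41) (nat_lit 5) (nat_lit 47) (nat_lit 5) (nat_lit 48) (nat_lit 5) (nat_lit 317) (nat_lit 309) (nat_lit 154))))) (XT.nd (nat_lit 312) (nat_lit 380) (nat_lit 0) (XT.nd (nat_lit 156) (nat_lit 228) (nat_lit 0) (XT.nd (nat_lit 78) (nat_lit 0) (nat_lit 0) (XT.lf (nat_lit 0) (nat_lit 4459133800) (nat_lit 304) (nat_lit 239885868613) (nat_lit 76) (nat_lit 13504162500) (nat_lit 37) (nat_lit 5) (nat_lit 41) (nat_lit 5) (nat_lit 38) (nat_lit 5) (nat_lit 318) (nat_lit 309) (nat_lit 153)) (XT.lf (nat_lit 0) (nat_lit 30741492028) (nat_lit 304) (nat_lit 118212512153) (nat_lit 76) (nat_lit 120561264670) (nat_lit 37) (nat_lit 5)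 (nat_lit 41) (nat_lit 5) (nat_lit 38) (nat_lit 5) (nat_lit 319) (nat_lit 309) (nat_lit 152))) (XT.nd (nat_lit 78) (nat_lit 0) (nat_lit 0) (XT.lf (nat_lit 0) (nat_lit 13889405270) (nat_lit 228) (nat_lit 45570969263) (nat_lit 304) (nat_lit 222627572010) (nat_lit 34) (nat_lit 5) (nat_lit 37) (nat_lit 5) (nat_lit 38) (nat_lit 5) (nat_lit 320) (nat_lit 309) (nat_lit 151)) (XT.lf (nat_lit 0) (nat_lit 95382049629) (nat_lit 304) (nat_lit 133798900339) (nat_lit 76) (nat_lit 66093066187) (nat_lit 34) (nat_lit 5) (nat_lit 38) (nat_lit 5) (nat_lit 35) (nat_lit 5) (nat_lit 321) (nat_lit 309) (nat_lit 150)))) (XT.nd (nat_lit 156) (nat_lit 152) (nat_lit 0) (XT.nd (nat_lit 78) (nat_lit 0) (nat_lit 0) (XT.lf (nat_lit 0) (nat_lit 10704420414) (nat_lit 228) (nat_lit 124914048847) (nat_lit 304) (nat_lit 173781221479) (nat_lit 31) (nat_lit 5) (nat_lit 34) (nat_lit 5) (nat_lit 35) (nat_lit 5) (nat_lit 322)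 (nat_lit 309) (nat_lit 149)) (XT.lf (nat_lit 0) (nat_lit 174377163211) (nat_lit 228) (nat_lit 8354850038) (nat_lit 304) (nat_lit 141630749408) (nat_lit 31) (nat_lit 5) (nat_lit 34) (nat_lit 5) (nat_lit 35) (nat_lit 5) (nat_lit 323) (nat_lit 309) (nat_lit 148))) (XT.nd (nat_lit 78) (nat_lit 0) (nat_lit 0) (XT.lf (nat_lit 0) (nat_lit 8204590462) (nat_lit 152) (nat_lit 228433866093) (nat_lit 228) (nat_lit 103642518718) (nat_lit 29) (nat_lit 5) (nat_lit 31) (nat_lit 5) (nat_lit 32) (nat_lit 5) (nat_lit 324) (nat_lit 309) (nat_lit 147)) (XT.lf (nat_lit 0) (nat_lit 187351271562) (nat_lit 152) (nat_lit 111818452570) (nat_lit 228) (nat_lit 57957936258) (nat_lit 29) (nat_lit 5) (nat_lit 31) (nat_lit 5) (nat_lit 32) (nat_lit 5) (nat_lit 325) (nat_lit 309) (nat_lit 146))))))))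
noncomputable def xc115 : XT := (XT.nd (nat_lit 2418) (nat_lit 76) (nat_lit 0) (XT.nd (nat_lit 1170) (nat_lit 532) (nat_lit 0) (XT.nd (nat_lit 546) (nat_lit 608) (nat_lit 0) (XT.nd (nat_lit 234) (nat_lit 304) (nat_lit 0) (XT.nd (nat_lit 78) (nat_lit 76) (nat_lit 0) (XT.lf (nat_lit 0) (nat_lit 5439897750) (nat_lit 152) (nat_lit 361734087171) (nat_lit 228) (nat_lit 8110456231) (nat_lit 27) (nat_lit 5) (nat_lit 29) (nat_lit 5) (nat_lit 30) (nat_lit 5) (nat_lit 326) (nat_lit 309) (nat_lit 145)) (XT.nd (nat_lit 78) (nat_lit 0) (nat_lit 0) (XT.lf (nat_lit 0) (nat_lit 51104343172) (nat_lit 228) (nat_lit 194318314954) (nat_lit 76) (nat_lit 148769782816) (nat_lit 26) (nat_lit 5) (nat_lit 29) (nat_lit 5) (nat_lit 27) (nat_lit 5) (nat_lit 327) (nat_lit 309) (nat_lit 144)) (XT.lf (nat_lit 0) (nat_lit 114618084506) (nat_lit 228) (nat_lit 4960742880) (nat_lit 76) (nat_lit 295017405917) (nat_lit 26)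 (nat_lit 5) (nat_lit 29) (nat_lit 5) (nat_lit 27) (nat_lit 5) (nat_lit 328) (nat_lit 309) (nat_lit 143)))) (XT.nd (nat_lit 156) (nat_lit 152) (nat_lit 0) (XT.nd (nat_lit 78) (nat_lit 0) (nat_lit 0) (XT.lf (nat_lit 0) (nat_lit 188788656086) (nat_lit 228) (nat_lit 226699150541) (nat_lit 76) (nat_lit 20698464082) (nat_lit 24) (nat_lit 5) (nat_lit 27) (nat_lit 5) (nat_lit 25) (nat_lit 5) (nat_lit 329) (nat_lit 309) (nat_lit 142)) (XT.lf (nat_lit 0) (nat_lit 272137915624) (nat_lit 228) (nat_lit 21229281326) (nat_lit 76) (nat_lit 165876710902) (nat_lit 24) (nat_lit 5) (nat_lit 27) (nat_lit 5) (nat_lit 25) (nat_lit 5) (nat_lit 330) (nat_lit 309) (nat_lit 141))) (XT.nd (nat_lit 78) (nat_lit 0) (nat_lit 0) (XT.lf (nat_lit 0) (nat_lit 211245448266) (nat_lit 152) (nat_lit 155990070364) (nat_lit 228) (nat_lit 116504205233) (nat_lit 22) (nat_lit 5) (nat_lit 24) (nat_lit 5) (nat_lit 25) (nat_lit 5)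 (nat_lit 331) (nat_lit 309) (nat_lit 140)) (XT.lf (nat_lit 0) (nat_lit 463525404311) (nat_lit 152) (nat_lit 6995918515) (nat_lit 228) (nat_lit 39627450999) (nat_lit 22) (nat_lit 5) (nat_lit 24) (nat_lit 5) (nat_lit 25) (nat_lit 5) (nat_lit 332) (nat_lit 309) (nat_lit 139))))) (XT.nd (nat_lit 312) (nat_lit 304) (nat_lit 0) (XT.nd (nat_lit 156) (nat_lit 152) (nat_lit 0) (XT.nd (nat_lit 78) (nat_lit 0) (nat_lit 0) (XT.lf (nat_lit 0) (nat_lit 50055222633) (nat_lit 152) (nat_lit 335438652397) (nat_lit 76) (nat_lit 152387028633) (nat_lit 20) (nat_lit 5) (nat_lit 22) (nat_lit 5) (nat_lit 21) (nat_lit 5) (nat_lit 333) (nat_lit 309) (nat_lit 138)) (XT.lf (nat_lit 0) (nat_lit 146261137695) (nat_lit 152) (nat_lit 94889174197) (nat_lit 76) (nat_lit 326479786189) (nat_lit 20) (nat_lit 5) (nat_lit 22) (nat_lit 5) (nat_lit 21) (nat_lit 5) (nat_lit 334) (nat_lit 309) (nat_lit 137))) (XT.nd (nat_lit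 78) (nat_lit 0) (nat_lit 0) (XT.lf (nat_lit 0) (nat_lit 173587752255) (nat_lit 152) (nat_lit 80750517647) (nat_lit 228) (nat_lit 345086978713) (nat_lit 18) (nat_lit 5) (nat_lit 20) (nat_lit 5) (nat_lit 21) (nat_lit 5) (nat_lit 335) (nat_lit 309) (nat_lit 136)) (XT.lf (nat_lit 0) (nat_lit 375947530772) (nat_lit 228) (nat_lit 166908829955) (nat_lit 76) (nat_lit 90516773889) (nat_lit 18) (nat_lit 5) (nat_lit 21) (nat_lit 5) (nat_lit 19) (nat_lit 4) (nat_lit 336) (nat_lit 309) (nat_lit 135)))) (XT.nd (nat_lit 156) (nat_lit 228) (nat_lit 0) (XT.nd (nat_lit 78) (nat_lit 0) (nat_lit 0) (XT.lf (nat_lit 0) (nat_lit 116462575335) (nat_lit 76) (nat_lit 395721259632) (nat_lit 152) (nat_lit 157461152402) (nat_lit 17) (nat_lit 5) (nat_lit 18) (nat_lit 5) (nat_lit 19) (nat_lit 4) (nat_lit 337) (nat_lit 309) (nat_lit 134)) (XT.lf (nat_lit 0) (nat_lit 431995879750) (nat_lit 76) (nat_lit 231886707088)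 (nat_lit 152) (nat_lit 44570918097) (nat_lit 17) (nat_lit 5) (nat_lit 18) (nat_lit 5) (nat_lit 19) (nat_lit 4) (nat_lit 338) (nat_lit 309) (nat_lit 133))) (XT.nd (nat_lit 78) (nat_lit 0) (nat_lit 0) (XT.lf (nat_lit 0) (nat_lit 21626651597) (nat_lit 152) (nat_lit 52374579895) (nat_lit 228) (nat_lit 676175043202) (nat_lit 14) (nat_lit 5) (nat_lit 16) (nat_lit 5) (nat_lit 17) (nat_lit 5) (nat_lit 339) (nat_lit 309) (nat_lit 132)) (XT.lf (nat_lit 0) (nat_lit 210809346270) (nat_lit 228) (nat_lit 440109224819) (nat_lit 76) (nat_lit 143333025663) (nat_lit 14) (nat_lit 5) (nat_lit 17) (nat_lit 5) (nat_lit 15) (nat_lit 4) (nat_lit 340) (nat_lit 309) (nat_lit 131)))))) (XT.nd (nat_lit 624) (nat_lit 228) (nat_lit 0) (XT.nd (nat_lit 312) (nat_lit 228) (nat_lit 0) (XT.nd (nat_lit 156) (nat_lit 0) (nat_lit 0) (XT.nd (nat_lit 78) (nat_lit 76) (nat_lit 0) (XT.lf (nat_lit 0) (nat_lit 359922454477) (nat_lit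 228) (nat_lit 129954032867) (nat_lit 76) (nat_lit 351867629735) (nat_lit 14) (nat_lit 5) (nat_lit 17) (nat_lit 5) (nat_lit 15) (nat_lit 4) (nat_lit 341) (nat_lit 309) (nat_lit 130)) (XT.lf (nat_lit 0) (nat_lit 215809167971) (nat_lit 76) (nat_lit 310345627150) (nat_lit 152) (nat_lit 366466029249) (nat_lit 13) (nat_lit 5) (nat_lit 14) (nat_lit 5) (nat_lit 15) (nat_lit 4) (nat_lit 342) (nat_lit 309) (nat_lit 129))) (XT.nd (nat_lit 78) (nat_lit 0) (nat_lit 0) (XT.lf (nat_lit 0) (nat_lit 596623972187) (nat_lit 76) (nat_lit 112614893561) (nat_lit 152) (nat_lit 238044551119) (nat_lit 13) (nat_lit 5) (nat_lit 14) (nat_lit 5) (nat_lit 15) (nat_lit 4) (nat_lit 343) (nat_lit 309) (nat_lit 128)) (XT.lf (nat_lit 0) (nat_lit 909397105283) (nat_lit 152) (nat_lit 842579857) (nat_lit 0) (nat_lit 95885136197) (nat_lit 13) (nat_lit 5) (nat_lit 15) (nat_lit 4) (nat_lit 13) (nat_lit 4) (nat_lit 344) (nat_lit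 309) (nat_lit 127)))) (XT.nd (nat_lit 156) (nat_lit 76) (nat_lit 0) (XT.nd (nat_lit 78) (nat_lit 0) (nat_lit 0) (XT.lf (nat_lit 0) (nat_lit 65814590889) (nat_lit 152) (nat_lit 676617669798) (nat_lit 76) (nat_lit 326116441039) (nat_lit 11) (nat_lit 5) (nat_lit 13) (nat_lit 5) (nat_lit 12) (nat_lit 4) (nat_lit 345) (nat_lit 309) (nat_lit 126)) (XT.lf (nat_lit 0) (nat_lit 236158082589) (nat_lit 152) (nat_lit 322303253139) (nat_lit 76) (nat_lit 577302275448) (nat_lit 11) (nat_lit 5) (nat_lit 13) (nat_lit 5) (nat_lit 12) (nat_lit 4) (nat_lit 346) (nat_lit 309) (nat_lit 125))) (XT.nd (nat_lit 78) (nat_lit 0) (nat_lit 0) (XT.lf (nat_lit 0) (nat_lit 63534526816) (nat_lit 76) (nat_lit 358122508955) (nat_lit 152) (nat_lit 786576439066) (nat_lit 10) (nat_lit 5) (nat_lit 11) (nat_lit 5) (nat_lit 12) (nat_lit 4) (nat_lit 347) (nat_lit 309) (nat_lit 124)) (XT.lf (nat_lit 0) (nat_lit 498568957499)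 (nat_lit 76) (nat_lit 132239265862) (nat_lit 152) (nat_lit 654987718802) (nat_lit 10) (nat_lit 5) (nat_lit 11) (nat_lit 5) (nat_lit 12) (nat_lit 4) (nat_lit 348) (nat_lit 309) (nat_lit 123))))) (XT.nd (nat_lit 312) (nat_lit 76) (nat_lit 0) (XT.nd (nat_lit 156) (nat_lit 76) (nat_lit 0) (XT.nd (nat_lit 78) (nat_lit 76) (nat_lit 0) (XT.lf (nat_lit 0) (nat_lit 859378223044) (nat_lit 152) (nat_lit 403844045360) (nat_lit 0) (nat_lit 106126201127) (nat_lit 10) (nat_lit 5) (nat_lit 12) (nat_lit 4) (nat_lit 10) (nat_lit 4) (nat_lit 349) (nat_lit 309) (nat_lit 122)) (XT.lf (nat_lit 0) (nat_lit 7131448546) (nat_lit 76) (nat_lit 1102708650851) (nat_lit 76) (nat_lit 349456597575) (nat_lit 9) (nat_lit 4) (nat_lit 10) (nat_lit 5) (nat_lit 10) (nat_lit 4) (nat_lit 350) (nat_lit 309) (nat_lit 121))) (XT.nd (nat_lit 78) (nat_lit 76) (nat_lit 0) (XT.lf (nat_lit 0) (nat_lit 473951913277) (nat_lit 76) (nat_lit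 917428804169) (nat_lit 76) (nat_lit 164176721856) (nat_lit 9) (nat_lit 4) (nat_lit 10) (nat_lit 5) (nat_lit 10) (nat_lit 4) (nat_lit 351) (nat_lit 309) (nat_lit 120)) (XT.lf (nat_lit 0) (nat_lit 34128383424) (nat_lit 152) (nat_lit 682265071674) (nat_lit 76) (nat_lit 943056466665) (nat_lit 8) (nat_lit 5) (nat_lit 10) (nat_lit 5) (nat_lit 9) (nat_lit 4) (nat_lit 352) (nat_lit 309) (nat_lit 119)))) (XT.nd (nat_lit 156) (nat_lit 0) (nat_lit 0) (XT.nd (nat_lit 78) (nat_lit 76) (nat_lit 0) (XT.lf (nat_lit 0) (nat_lit 239428071958) (nat_lit 152) (nat_lit 255241744419) (nat_lit 76) (nat_lit 1276642841453) (nat_lit 8) (nat_lit 5) (nat_lit 10) (nat_lit 5) (nat_lit 9) (nat_lit 4) (nat_lit 353) (nat_lit 309) (nat_lit 118)) (XT.lf (nat_lit 0) (nat_lit 216788033908) (nat_lit 76) (nat_lit 249577442558) (nat_lit 152) (nat_lit 1425341837059) (nat_lit 7) (nat_lit 5) (nat_lit 8) (nat_lit 5) (nat_lit 9)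 (nat_lit 4) (nat_lit 354) (nat_lit 309) (nat_lit 117))) (XT.nd (nat_lit 78) (nat_lit 0) (nat_lit 0) (XT.lf (nat_lit 0) (nat_lit 718981577318) (nat_lit 152) (nat_lit 1280624211552) (nat_lit 0) (nat_lit 21525856499) (nat_lit 7) (nat_lit 5) (nat_lit 9) (nat_lit 4) (nat_lit 7) (nat_lit 4) (nat_lit 355) (nat_lit 309) (nat_lit 116)) (XT.lf (nat_lit 0) (nat_lit 998289482067) (nat_lit 152) (nat_lit 861268097490) (nat_lit 0) (nat_lit 300833742950) (nat_lit 7) (nat_lit 5) (nat_lit 9) (nat_lit 4) (nat_lit 7) (nat_lit 4) (nat_lit 356) (nat_lit 309) (nat_lit 115))))))) (XT.nd (nat_lit 37908) (nat_lit 0) (nat_lit 912) (XT.nd (nat_lit 37284) (nat_lit 0) (nat_lit 2128) (XT.nd (nat_lit 36972) (nat_lit 0) (nat_lit 2888) (XT.nd (nat_lit 78) (nat_lit 76) (nat_lit 0) (XT.lf (nat_lit 0) (nat_lit 1299942005170) (nat_lit 152) (nat_lit 408363520670) (nat_lit 0) (nat_lit 602486249111) (nat_lit 7) (nat_lit 5)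 (nat_lit 9) (nat_lit 4) (nat_lit 7) (nat_lit 4) (nat_lit 357) (nat_lit 309) (nat_lit 114)) (XT.nd (nat_lit 78) (nat_lit 0) (nat_lit 0) (XT.lf (nat_lit 0) (nat_lit 85026781874) (nat_lit 76) (nat_lit 1542744831410) (nat_lit 76) (nat_lit 845289059663) (nat_lit 6) (nat_lit 4) (nat_lit 7) (nat_lit 5) (nat_lit 7) (nat_lit 4) (nat_lit 358) (nat_lit 309) (nat_lit 113)) (XT.lf (nat_lit 0) (nat_lit 641112280089) (nat_lit 76) (nat_lit 1351880679698) (nat_lit 76) (nat_lit 654424893426) (nat_lit 6) (nat_lit 4) (nat_lit 7) (nat_lit 5) (nat_lit 7) (nat_lit 4) (nat_lit 359) (nat_lit 309) (nat_lit 112)))) (XT.nd (nat_lit 156) (nat_lit 0) (nat_lit 76) (XT.nd (nat_lit 78) (nat_lit 0) (nat_lit 0) (XT.lf (nat_lit 0) (nat_lit 57308376698) (nat_lit 532) (nat_lit 19265369281) (nat_lit 532) (nat_lit 19265369281) (nat_lit 44) (nat_lit 3) (nat_lit 51) (nat_lit 3) (nat_lit 51) (nat_lit 5) (nat_lit 310) (nat_lit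 310) (nat_lit 160)) (XT.lf (nat_lit 76) (nat_lit 50976914058) (nat_lit 0) (nat_lit 69452128864) (nat_lit 532) (nat_lit 78818101965) (nat_lit 45) (nat_lit 5) (nat_lit 44) (nat_lit 3) (nat_lit 51) (nat_lit 5) (nat_lit 311) (nat_lit 310) (nat_lit 159))) (XT.nd (nat_lit 78) (nat_lit 0) (nat_lit 0) (XT.lf (nat_lit 0) (nat_lit 128290595142) (nat_lit 456) (nat_lit 58031888179) (nat_lit 532) (nat_lit 20972347249) (nat_lit 45) (nat_lit 5) (nat_lit 51) (nat_lit 5) (nat_lit 52) (nat_lit 5) (nat_lit 312) (nat_lit 310) (nat_lit 158)) (XT.lf (nat_lit 76) (nat_lit 39602550412) (nat_lit 0) (nat_lit 99934763972) (nat_lit 532) (nat_lit 76228517786) (nat_lit 46) (nat_lit 5) (nat_lit 45) (nat_lit 5) (nat_lit 52) (nat_lit 5) (nat_lit 313) (nat_lit 310) (nat_lit 157))))) (XT.nd (nat_lit 312) (nat_lit 532) (nat_lit 0) (XT.nd (nat_lit 156) (nat_lit 304) (nat_lit 0) (XT.nd (nat_lit 78) (nat_lit 0) (nat_lit 76)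 (XT.lf (nat_lit 76) (nat_lit 148347971492) (nat_lit 0) (nat_lit 4922352324) (nat_lit 532) (nat_lit 71517266326) (nat_lit 46) (nat_lit 5) (nat_lit 45) (nat_lit 5) (nat_lit 52) (nat_lit 5) (nat_lit 314) (nat_lit 310) (nat_lit 156)) (XT.lf (nat_lit 76) (nat_lit 30434836943) (nat_lit 0) (nat_lit 140748437271) (nat_lit 532) (nat_lit 63101310941) (nat_lit 47) (nat_lit 5) (nat_lit 46) (nat_lit 5) (nat_lit 53) (nat_lit 5) (nat_lit 315) (nat_lit 310) (nat_lit 155))) (XT.nd (nat_lit 78) (nat_lit 380) (nat_lit 0) (XT.lf (nat_lit 76) (nat_lit 150071752369) (nat_lit 0) (nat_lit 42671996194) (nat_lit 532) (nat_lit 51620432563) (nat_lit 47) (nat_lit 5) (nat_lit 46) (nat_lit 5) (nat_lit 53) (nat_lit 5) (nat_lit 316) (nat_lit 310) (nat_lit 154)) (XT.lf (nat_lit 0) (nat_lit 23693438240) (nat_lit 456) (nat_lit 194426514294) (nat_lit 532) (nat_lit 36962921268) (nat_lit 41) (nat_lit 5) (nat_lit 47) (nat_lit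 5) (nat_lit 48) (nat_lit 5) (nat_lit 317) (nat_lit 310) (nat_lit 153)))) (XT.nd (nat_lit 156) (nat_lit 228) (nat_lit 0) (XT.nd (nat_lit 78) (nat_lit 304) (nat_lit 0) (XT.lf (nat_lit 0) (nat_lit 155313840903) (nat_lit 456) (nat_lit 93870730161) (nat_lit 532) (nat_lit 17181825703) (nat_lit 41) (nat_lit 5) (nat_lit 47) (nat_lit 5) (nat_lit 48) (nat_lit 5) (nat_lit 318) (nat_lit 310) (nat_lit 152)) (XT.lf (nat_lit 0) (nat_lit 4817911305) (nat_lit 304) (nat_lit 259074555811) (nat_lit 76) (nat_lit 14584461652) (nat_lit 37) (nat_lit 5) (nat_lit 41) (nat_lit 5) (nat_lit 38) (nat_lit 5) (nat_lit 319) (nat_lit 310) (nat_lit 151))) (XT.nd (nat_lit 78) (nat_lit 228) (nat_lit 0) (XT.lf (nat_lit 0) (nat_lit 33202706576) (nat_lit 304) (nat_lit 127667492485) (nat_lit 76) (nat_lit 130206134503) (nat_lit 37) (nat_lit 5) (nat_lit 41) (nat_lit 5) (nat_lit 38) (nat_lit 5) (nat_lit 320) (nat_lit 310) (nat_lit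 150)) (XT.lf (nat_lit 0) (nat_lit 15002527176) (nat_lit 228) (nat_lit 49216479487) (nat_lit 304) (nat_lit 240435826634) (nat_lit 34) (nat_lit 5) (nat_lit 37) (nat_lit 5) (nat_lit 38) (nat_lit 5) (nat_lit 321) (nat_lit 310) (nat_lit 149)))))) (XT.nd (nat_lit 624) (nat_lit 608) (nat_lit 0) (XT.nd (nat_lit 312) (nat_lit 228) (nat_lit 0) (XT.nd (nat_lit 156) (nat_lit 152) (nat_lit 0) (XT.nd (nat_lit 78) (nat_lit 228) (nat_lit 0) (XT.lf (nat_lit 0) (nat_lit 103014285999) (nat_lit 304) (nat_lit 144500854560) (nat_lit 76) (nat_lit 71380658655) (nat_lit 34) (nat_lit 5) (nat_lit 38) (nat_lit 5) (nat_lit 35) (nat_lit 5) (nat_lit 322) (nat_lit 310) (nat_lit 148)) (XT.lf (nat_lit 0) (nat_lit 11562682288) (nat_lit 228) (nat_lit 134906858925) (nat_lit 304) (nat_lit 187681993121) (nat_lit 31) (nat_lit 5) (nat_lit 34) (nat_lit 5) (nat_lit 35) (nat_lit 5) (nat_lit 323) (nat_lit 310) (nat_lit 147))) (XT.nd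 (nat_lit 78) (nat_lit 152) (nat_lit 0) (XT.lf (nat_lit 0) (nat_lit 188329103158) (nat_lit 228) (nat_lit 9022947457) (nat_lit 304) (nat_lit 152959611142) (nat_lit 31) (nat_lit 5) (nat_lit 34) (nat_lit 5) (nat_lit 35) (nat_lit 5) (nat_lit 324) (nat_lit 310) (nat_lit 146)) (XT.lf (nat_lit 0) (nat_lit 8862791872) (nat_lit 152) (nat_lit 246708158741) (nat_lit 228) (nat_lit 111932385754) (nat_lit 29) (nat_lit 5) (nat_lit 31) (nat_lit 5) (nat_lit 32) (nat_lit 5) (nat_lit 325) (nat_lit 310) (nat_lit 145)))) (XT.nd (nat_lit 156) (nat_lit 76) (nat_lit 0) (XT.nd (nat_lit 78) (nat_lit 152) (nat_lit 0) (XT.lf (nat_lit 0) (nat_lit 202341071596) (nat_lit 152) (nat_lit 120763542998) (nat_lit 228) (nat_lit 62593150361) (nat_lit 29) (nat_lit 5) (nat_lit 31) (nat_lit 5) (nat_lit 32) (nat_lit 5) (nat_lit 326) (nat_lit 310) (nat_lit 144)) (XT.lf (nat_lit 0) (nat_lit 5876841367) (nat_lit 152) (nat_lit 390672328376)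 (nat_lit 228) (nat_lit 8757922396) (nat_lit 27) (nat_lit 5) (nat_lit 29) (nat_lit 5) (nat_lit 30) (nat_lit 5) (nat_lit 327) (nat_lit 310) (nat_lit 143))) (XT.nd (nat_lit 78) (nat_lit 0) (nat_lit 0) (XT.lf (nat_lit 0) (nat_lit 55193895981) (nat_lit 228) (nat_lit 209862092054) (nat_lit 76) (nat_lit 160671749164) (nat_lit 26) (nat_lit 5) (nat_lit 29) (nat_lit 5) (nat_lit 27) (nat_lit 5) (nat_lit 328) (nat_lit 310) (nat_lit 142)) (XT.lf (nat_lit 0) (nat_lit 123788647336) (nat_lit 228) (nat_lit 5356039257) (nat_lit 76) (nat_lit 318619153688) (nat_lit 26) (nat_lit 5) (nat_lit 29) (nat_lit 5) (nat_lit 27) (nat_lit 5) (nat_lit 329) (nat_lit 310) (nat_lit 141))))) (XT.nd (nat_lit 312) (nat_lit 304) (nat_lit 0) (XT.nd (nat_lit 156) (nat_lit 152) (nat_lit 0) (XT.nd (nat_lit 78) (nat_lit 0) (nat_lit 0) (XT.lf (nat_lit 0) (nat_lit 203892829516) (nat_lit 228) (nat_lit 244833482183) (nat_lit 76) (nat_lit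 22354771970) (nat_lit 24) (nat_lit 5) (nat_lit 27) (nat_lit 5) (nat_lit 25) (nat_lit 5) (nat_lit 330) (nat_lit 310) (nat_lit 140)) (XT.lf (nat_lit 0) (nat_lit 293909949747) (nat_lit 228) (nat_lit 22926141978) (nat_lit 76) (nat_lit 179147246627) (nat_lit 24) (nat_lit 5) (nat_lit 27) (nat_lit 5) (nat_lit 25) (nat_lit 5) (nat_lit 331) (nat_lit 310) (nat_lit 139))) (XT.nd (nat_lit 78) (nat_lit 0) (nat_lit 0) (XT.lf (nat_lit 0) (nat_lit 228146528465) (nat_lit 152) (nat_lit 168468793126) (nat_lit 228) (nat_lit 125823501359) (nat_lit 22) (nat_lit 5) (nat_lit 24) (nat_lit 5) (nat_lit 25) (nat_lit 5) (nat_lit 332) (nat_lit 310) (nat_lit 138)) (XT.lf (nat_lit 0) (nat_lit 500608774006) (nat_lit 152) (nat_lit 7555144897) (nat_lit 228) (nat_lit 42796683845) (nat_lit 22) (nat_lit 5) (nat_lit 24) (nat_lit 5) (nat_lit 25) (nat_lit 5) (nat_lit 333) (nat_lit 310) (nat_lit 137)))) (XT.nd (nat_lit 156)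 (nat_lit 152) (nat_lit 0) (XT.nd (nat_lit 78) (nat_lit 0) (nat_lit 0) (XT.lf (nat_lit 0) (nat_lit 54060531586) (nat_lit 152) (nat_lit 362272332002) (nat_lit 76) (nat_lit 164578439564) (nat_lit 20) (nat_lit 5) (nat_lit 22) (nat_lit 5) (nat_lit 21) (nat_lit 5) (nat_lit 334) (nat_lit 310) (nat_lit 136)) (XT.lf (nat_lit 0) (nat_lit 157962853843) (nat_lit 152) (nat_lit 102479000182) (nat_lit 76) (nat_lit 352598584491) (nat_lit 20) (nat_lit 5) (nat_lit 22) (nat_lit 5) (nat_lit 21) (nat_lit 5) (nat_lit 335) (nat_lit 310) (nat_lit 135))) (XT.nd (nat_lit 78) (nat_lit 0) (nat_lit 0) (XT.lf (nat_lit 0) (nat_lit 187476047274) (nat_lit 152) (nat_lit 87210078892) (nat_lit 228) (nat_lit 372693077469) (nat_lit 18) (nat_lit 5) (nat_lit 20) (nat_lit 5) (nat_lit 21) (nat_lit 5) (nat_lit 336) (nat_lit 310) (nat_lit 134)) (XT.lf (nat_lit 0) (nat_lit 406024079733) (nat_lit 228) (nat_lit 180260306574) (nat_lit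 76) (nat_lit 97758538159) (nat_lit 18) (nat_lit 5) (nat_lit 21) (nat_lit 5) (nat_lit 19) (nat_lit 4) (nat_lit 337) (nat_lit 310) (nat_lit 133))))))))
noncomputable def xc116 : XT := (XT.nd (nat_lit 39234) (nat_lit 0) (nat_lit 228) (XT.nd (nat_lit 1170) (nat_lit 152) (nat_lit 0) (XT.nd (nat_lit 546) (nat_lit 304) (nat_lit 0) (XT.nd (nat_lit 234) (nat_lit 76) (nat_lit 0) (XT.nd (nat_lit 78) (nat_lit 228) (nat_lit 0) (XT.lf (nat_lit 0) (nat_lit 125780780006) (nat_lit 76) (nat_lit 427378481788) (nat_lit 152) (nat_lit 170057265850) (nat_lit 17) (nat_lit 5) (nat_lit 18) (nat_lit 5) (nat_lit 19) (nat_lit 4) (nat_lit 338) (nat_lit 310) (nat_lit 132)) (XT.nd (nat_lit 78) (nat_lit 228) (nat_lit 0) (XT.lf (nat_lit 0) (nat_lit 466556659985) (nat_lit 76) (nat_lit 250437200494) (nat_lit 152) (nat_lit 48135870485) (nat_lit 17) (nat_lit 5) (nat_lit 18) (nat_lit 5) (nat_lit 19) (nat_lit 4) (nat_lit 339)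 (nat_lit 310) (nat_lit 131)) (XT.lf (nat_lit 0) (nat_lit 23357901569) (nat_lit 152) (nat_lit 56564089576) (nat_lit 228) (nat_lit 730268331752) (nat_lit 14) (nat_lit 5) (nat_lit 16) (nat_lit 5) (nat_lit 17) (nat_lit 5) (nat_lit 340) (nat_lit 310) (nat_lit 130)))) (XT.nd (nat_lit 156) (nat_lit 76) (nat_lit 0) (XT.nd (nat_lit 78) (nat_lit 0) (nat_lit 0) (XT.lf (nat_lit 0) (nat_lit 227674716302) (nat_lit 228) (nat_lit 475316888144) (nat_lit 76) (nat_lit 154800069442) (nat_lit 14) (nat_lit 5) (nat_lit 17) (nat_lit 5) (nat_lit 15) (nat_lit 4) (nat_lit 341) (nat_lit 310) (nat_lit 129)) (XT.lf (nat_lit 0) (nat_lit 388716827067) (nat_lit 228) (nat_lit 140349360440) (nat_lit 76) (nat_lit 380017412082) (nat_lit 14) (nat_lit 5) (nat_lit 17) (nat_lit 5) (nat_lit 15) (nat_lit 4) (nat_lit 342) (nat_lit 310) (nat_lit 128))) (XT.nd (nat_lit 78) (nat_lit 0) (nat_lit 0) (XT.lf (nat_lit 0) (nat_lit 233074871273)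 (nat_lit 76) (nat_lit 335172864331) (nat_lit 152) (nat_lit 395782709465) (nat_lit 13) (nat_lit 5) (nat_lit 14) (nat_lit 5) (nat_lit 15) (nat_lit 4) (nat_lit 343) (nat_lit 310) (nat_lit 127)) (XT.lf (nat_lit 0) (nat_lit 644354787984) (nat_lit 76) (nat_lit 121623702647) (nat_lit 152) (nat_lit 257087557686) (nat_lit 13) (nat_lit 5) (nat_lit 14) (nat_lit 5) (nat_lit 15) (nat_lit 4) (nat_lit 344) (nat_lit 310) (nat_lit 126))))) (XT.nd (nat_lit 312) (nat_lit 76) (nat_lit 0) (XT.nd (nat_lit 156) (nat_lit 76) (nat_lit 0) (XT.nd (nat_lit 78) (nat_lit 152) (nat_lit 0) (XT.lf (nat_lit 0) (nat_lit 982149359651) (nat_lit 152) (nat_lit 909124464) (nat_lit 0) (nat_lit 103556283454) (nat_lit 13) (nat_lit 5) (nat_lit 15) (nat_lit 4) (nat_lit 13) (nat_lit 4) (nat_lit 345) (nat_lit 310) (nat_lit 125)) (XT.lf (nat_lit 0) (nat_lit 71080241050) (nat_lit 152) (nat_lit 730746217474) (nat_lit 76) (nat_lit 352206100193)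 (nat_lit 11) (nat_lit 5) (nat_lit 13) (nat_lit 5) (nat_lit 12) (nat_lit 4) (nat_lit 346) (nat_lit 310) (nat_lit 124))) (XT.nd (nat_lit 78) (nat_lit 76) (nat_lit 0) (XT.lf (nat_lit 0) (nat_lit 255051176317) (nat_lit 152) (nat_lit 348086711624) (nat_lit 76) (nat_lit 623486775883) (nat_lit 11) (nat_lit 5) (nat_lit 13) (nat_lit 5) (nat_lit 12) (nat_lit 4) (nat_lit 347) (nat_lit 310) (nat_lit 123)) (XT.lf (nat_lit 0) (nat_lit 68618070429) (nat_lit 76) (nat_lit 386771960998) (nat_lit 152) (nat_lit 849502086331) (nat_lit 10) (nat_lit 5) (nat_lit 11) (nat_lit 5) (nat_lit 12) (nat_lit 4) (nat_lit 348) (nat_lit 310) (nat_lit 122)))) (XT.nd (nat_lit 156) (nat_lit 76) (nat_lit 0) (XT.nd (nat_lit 78) (nat_lit 0) (nat_lit 0) (XT.lf (nat_lit 0) (nat_lit 538455197681) (nat_lit 76) (nat_lit 142818084285) (nat_lit 152) (nat_lit 707386303102) (nat_lit 10) (nat_lit 5) (nat_lit 11) (nat_lit 5) (nat_lit 12)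 (nat_lit 4) (nat_lit 349) (nat_lit 310) (nat_lit 121)) (XT.lf (nat_lit 0) (nat_lit 928128859128) (nat_lit 152) (nat_lit 436150876132) (nat_lit 0) (nat_lit 114616581194) (nat_lit 10) (nat_lit 5) (nat_lit 12) (nat_lit 4) (nat_lit 10) (nat_lit 4) (nat_lit 350) (nat_lit 310) (nat_lit 120))) (XT.nd (nat_lit 78) (nat_lit 0) (nat_lit 0) (XT.lf (nat_lit 0) (nat_lit 7702639745) (nat_lit 76) (nat_lit 1190925034068) (nat_lit 76) (nat_lit 377412729249) (nat_lit 9) (nat_lit 4) (nat_lit 10) (nat_lit 5) (nat_lit 10) (nat_lit 4) (nat_lit 351) (nat_lit 310) (nat_lit 119)) (XT.lf (nat_lit 0) (nat_lit 511868691632) (nat_lit 76) (nat_lit 990822822529) (nat_lit 76) (nat_lit 177310492816) (nat_lit 9) (nat_lit 4) (nat_lit 10) (nat_lit 5) (nat_lit 10) (nat_lit 4) (nat_lit 352) (nat_lit 310) (nat_lit 118)))))) (XT.nd (nat_lit 37440) (nat_lit 0) (nat_lit 2584) (XT.nd (nat_lit 234) (nat_lit 0) (nat_lit 0) (XT.nd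 (nat_lit 78) (nat_lit 76) (nat_lit 0) (XT.lf (nat_lit 0) (nat_lit 36858976728) (nat_lit 152) (nat_lit 736845681166) (nat_lit 76) (nat_lit 1018501231521) (nat_lit 8) (nat_lit 5) (nat_lit 10) (nat_lit 5) (nat_lit 9) (nat_lit 4) (nat_lit 353) (nat_lit 310) (nat_lit 117)) (XT.nd (nat_lit 78) (nat_lit 76) (nat_lit 0) (XT.lf (nat_lit 0) (nat_lit 258582616446) (nat_lit 152) (nat_lit 275660531897) (nat_lit 76) (nat_lit 1378774497957) (nat_lit 8) (nat_lit 5) (nat_lit 10) (nat_lit 5) (nat_lit 9) (nat_lit 4) (nat_lit 354) (nat_lit 310) (nat_lit 116)) (XT.lf (nat_lit 0) (nat_lit 234131614719) (nat_lit 76) (nat_lit 269543389408) (nat_lit 152) (nat_lit 1539368871077) (nat_lit 7) (nat_lit 5) (nat_lit 8) (nat_lit 5) (nat_lit 9) (nat_lit 4) (nat_lit 355) (nat_lit 310) (nat_lit 115)))) (XT.nd (nat_lit 156) (nat_lit 0) (nat_lit 0) (XT.nd (nat_lit 78) (nat_lit 0) (nat_lit 0) (XT.lf (nat_lit 0) (nat_lit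 776500377136) (nat_lit 152) (nat_lit 1383073634102) (nat_lit 0) (nat_lit 23248143650) (nat_lit 7) (nat_lit 5) (nat_lit 9) (nat_lit 4) (nat_lit 7) (nat_lit 4) (nat_lit 356) (nat_lit 310) (nat_lit 114)) (XT.lf (nat_lit 0) (nat_lit 1078152893995) (nat_lit 152) (nat_lit 930169069018) (nat_lit 0) (nat_lit 324900644822) (nat_lit 7) (nat_lit 5) (nat_lit 9) (nat_lit 4) (nat_lit 7) (nat_lit 4) (nat_lit 357) (nat_lit 310) (nat_lit 113))) (XT.nd (nat_lit 36972) (nat_lit 0) (nat_lit 2812) (XT.lf (nat_lit 0) (nat_lit 1403937600179) (nat_lit 152) (nat_lit 441032161331) (nat_lit 0) (nat_lit 650685336480) (nat_lit 7) (nat_lit 5) (nat_lit 9) (nat_lit 4) (nat_lit 7) (nat_lit 4) (nat_lit 358) (nat_lit 310) (nat_lit 112)) (XT.lf (nat_lit 0) (nat_lit 61894631173) (nat_lit 532) (nat_lit 20805740692) (nat_lit 532) (nat_lit 20805740692) (nat_lit 44) (nat_lit 3) (nat_lit 51) (nat_lit 3) (nat_lit 51) (nat_lit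 5) (nat_lit 311) (nat_lit 311) (nat_lit 158))))) (XT.nd (nat_lit 312) (nat_lit 228) (nat_lit 0) (XT.nd (nat_lit 156) (nat_lit 0) (nat_lit 76) (XT.nd (nat_lit 78) (nat_lit 0) (nat_lit 76) (XT.lf (nat_lit 76) (nat_lit 55056739996) (nat_lit 0) (nat_lit 75009600551) (nat_lit 532) (nat_lit 85120328408) (nat_lit 45) (nat_lit 5) (nat_lit 44) (nat_lit 3) (nat_lit 51) (nat_lit 5) (nat_lit 312) (nat_lit 311) (nat_lit 157)) (XT.lf (nat_lit 0) (nat_lit 138556567654) (nat_lit 456) (nat_lit 62672632164) (nat_lit 532) (nat_lit 22648990327) (nat_lit 45) (nat_lit 5) (nat_lit 51) (nat_lit 5) (nat_lit 52) (nat_lit 5) (nat_lit 313) (nat_lit 311) (nat_lit 156))) (XT.nd (nat_lit 78) (nat_lit 0) (nat_lit 0) (XT.lf (nat_lit 76) (nat_lit 42772515767) (nat_lit 0) (nat_lit 107930349184) (nat_lit 532) (nat_lit 82324020339) (nat_lit 46) (nat_lit 5) (nat_lit 45) (nat_lit 5) (nat_lit 52) (nat_lit 5) (nat_lit 314)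 (nat_lit 311) (nat_lit 155)) (XT.lf (nat_lit 76) (nat_lit 160217440064) (nat_lit 0) (nat_lit 5316885042) (nat_lit 532) (nat_lit 77236074604) (nat_lit 46) (nat_lit 5) (nat_lit 45) (nat_lit 5) (nat_lit 52) (nat_lit 5) (nat_lit 315) (nat_lit 311) (nat_lit 154)))) (XT.nd (nat_lit 156) (nat_lit 380) (nat_lit 0) (XT.nd (nat_lit 78) (nat_lit 0) (nat_lit 0) (XT.lf (nat_lit 76) (nat_lit 32871423556) (nat_lit 0) (nat_lit 152008738728) (nat_lit 532) (nat_lit 68147004544) (nat_lit 47) (nat_lit 5) (nat_lit 46) (nat_lit 5) (nat_lit 53) (nat_lit 5) (nat_lit 316) (nat_lit 311) (nat_lit 153)) (XT.lf (nat_lit 76) (nat_lit 162079158908) (nat_lit 0) (nat_lit 46086150774) (nat_lit 532) (nat_lit 55747834509) (nat_lit 47) (nat_lit 5) (nat_lit 46) (nat_lit 5) (nat_lit 53) (nat_lit 5) (nat_lit 317) (nat_lit 311) (nat_lit 152))) (XT.nd (nat_lit 78) (nat_lit 0) (nat_lit 0) (XT.lf (nat_lit 0) (nat_lit 25590713803)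 (nat_lit 456) (nat_lit 209980777992) (nat_lit 532) (nat_lit 39917850423) (nat_lit 41) (nat_lit 5) (nat_lit 47) (nat_lit 5) (nat_lit 48) (nat_lit 5) (nat_lit 318) (nat_lit 311) (nat_lit 151)) (XT.lf (nat_lit 0) (nat_lit 167740615309) (nat_lit 456) (nat_lit 101380520569) (nat_lit 532) (nat_lit 18554423106) (nat_lit 41) (nat_lit 5) (nat_lit 47) (nat_lit 5) (nat_lit 48) (nat_lit 5) (nat_lit 319) (nat_lit 311) (nat_lit 150))))))) (XT.nd (nat_lit 1170) (nat_lit 912) (nat_lit 0) (XT.nd (nat_lit 546) (nat_lit 532) (nat_lit 0) (XT.nd (nat_lit 234) (nat_lit 380) (nat_lit 0) (XT.nd (nat_lit 78) (nat_lit 228) (nat_lit 0) (XT.lf (nat_lit 0) (nat_lit 5205099011) (nat_lit 304) (nat_lit 279798649313) (nat_lit 76) (nat_lit 15751189565) (nat_lit 37) (nat_lit 5) (nat_lit 41) (nat_lit 5) (nat_lit 38) (nat_lit 5) (nat_lit 320) (nat_lit 311) (nat_lit 149)) (XT.nd (nat_lit 78) (nat_lit 228) (nat_lit 0) (XT.lf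 (nat_lit 0) (nat_lit 35860547918) (nat_lit 304) (nat_lit 137879159511) (nat_lit 76) (nat_lit 140622598394) (nat_lit 37) (nat_lit 5) (nat_lit 41) (nat_lit 5) (nat_lit 38) (nat_lit 5) (nat_lit 321) (nat_lit 311) (nat_lit 148)) (XT.lf (nat_lit 0) (nat_lit 16204417866) (nat_lit 228) (nat_lit 53153654398) (nat_lit 304) (nat_lit 259669019978) (nat_lit 34) (nat_lit 5) (nat_lit 37) (nat_lit 5) (nat_lit 38) (nat_lit 5) (nat_lit 322) (nat_lit 311) (nat_lit 147)))) (XT.nd (nat_lit 156) (nat_lit 152) (nat_lit 0) (XT.nd (nat_lit 78) (nat_lit 228) (nat_lit 0) (XT.lf (nat_lit 0) (nat_lit 111256862692) (nat_lit 304) (nat_lit 156059244421) (nat_lit 76) (nat_lit 77091237525) (nat_lit 34) (nat_lit 5) (nat_lit 38) (nat_lit 5) (nat_lit 35) (nat_lit 5) (nat_lit 323) (nat_lit 311) (nat_lit 146)) (XT.lf (nat_lit 0) (nat_lit 12489332881) (nat_lit 228) (nat_lit 145699138580) (nat_lit 304) (nat_lit 202695072738)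 (nat_lit 31) (nat_lit 5) (nat_lit 34) (nat_lit 5) (nat_lit 35) (nat_lit 5) (nat_lit 324) (nat_lit 311) (nat_lit 145))) (XT.nd (nat_lit 78) (nat_lit 152) (nat_lit 0) (XT.lf (nat_lit 0) (nat_lit 203396946234) (nat_lit 228) (nat_lit 9744534125) (nat_lit 304) (nat_lit 165195009818) (nat_lit 31) (nat_lit 5) (nat_lit 34) (nat_lit 5) (nat_lit 35) (nat_lit 5) (nat_lit 325) (nat_lit 311) (nat_lit 144)) (XT.lf (nat_lit 0) (nat_lit 9573387730) (nat_lit 152) (nat_lit 266444454239) (nat_lit 228) (nat_lit 120885661060) (nat_lit 29) (nat_lit 5) (nat_lit 31) (nat_lit 5) (nat_lit 32) (nat_lit 5) (nat_lit 326) (nat_lit 311) (nat_lit 143))))) (XT.nd (nat_lit 312) (nat_lit 304) (nat_lit 0) (XT.nd (nat_lit 156) (nat_lit 76) (nat_lit 0) (XT.nd (nat_lit 78) (nat_lit 152) (nat_lit 0) (XT.lf (nat_lit 0) (nat_lit 218529813349) (nat_lit 152) (nat_lit 130424295696) (nat_lit 228) (nat_lit 67599384284) (nat_lit 29)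 (nat_lit 5) (nat_lit 31) (nat_lit 5) (nat_lit 32) (nat_lit 5) (nat_lit 327) (nat_lit 311) (nat_lit 142)) (XT.lf (nat_lit 0) (nat_lit 6348490559) (nat_lit 152) (nat_lit 421925698178) (nat_lit 228) (nat_lit 9457381349) (nat_lit 27) (nat_lit 5) (nat_lit 29) (nat_lit 5) (nat_lit 30) (nat_lit 5) (nat_lit 328) (nat_lit 311) (nat_lit 141))) (XT.nd (nat_lit 78) (nat_lit 0) (nat_lit 0) (XT.lf (nat_lit 0) (nat_lit 59610441057) (nat_lit 228) (nat_lit 226649612147) (nat_lit 76) (nat_lit 173525818077) (nat_lit 26) (nat_lit 5) (nat_lit 29) (nat_lit 5) (nat_lit 27) (nat_lit 5) (nat_lit 329) (nat_lit 311) (nat_lit 140)) (XT.lf (nat_lit 0) (nat_lit 133692695973) (nat_lit 228) (nat_lit 5783182332) (nat_lit 76) (nat_lit 344108990595) (nat_lit 26) (nat_lit 5) (nat_lit 29) (nat_lit 5) (nat_lit 27) (nat_lit 5) (nat_lit 330) (nat_lit 311) (nat_lit 139)))) (XT.nd (nat_lit 156) (nat_lit 152) (nat_lit 0) (XT.nd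 (nat_lit 78) (nat_lit 0) (nat_lit 0) (XT.lf (nat_lit 0) (nat_lit 220205182611) (nat_lit 228) (nat_lit 264418788671) (nat_lit 76) (nat_lit 24143523036) (nat_lit 24) (nat_lit 5) (nat_lit 27) (nat_lit 5) (nat_lit 25) (nat_lit 5) (nat_lit 331) (nat_lit 311) (nat_lit 138)) (XT.lf (nat_lit 0) (nat_lit 317423603814) (nat_lit 228) (nat_lit 24758962887) (nat_lit 76) (nat_lit 193479368310) (nat_lit 24) (nat_lit 5) (nat_lit 27) (nat_lit 5) (nat_lit 25) (nat_lit 5) (nat_lit 332) (nat_lit 311) (nat_lit 137))) (XT.nd (nat_lit 78) (nat_lit 0) (nat_lit 0) (XT.lf (nat_lit 0) (nat_lit 246399489030) (nat_lit 152) (nat_lit 181945882596) (nat_lit 228) (nat_lit 135888489584) (nat_lit 22) (nat_lit 5) (nat_lit 24) (nat_lit 5) (nat_lit 25) (nat_lit 5) (nat_lit 333) (nat_lit 311) (nat_lit 136)) (XT.lf (nat_lit 0) (nat_lit 540658622489) (nat_lit 152) (nat_lit 8159173173) (nat_lit 228) (nat_lit 46219592735) (nat_lit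 22) (nat_lit 5) (nat_lit 24) (nat_lit 5) (nat_lit 25) (nat_lit 5) (nat_lit 334) (nat_lit 311) (nat_lit 135)))))) (XT.nd (nat_lit 624) (nat_lit 304) (nat_lit 0) (XT.nd (nat_lit 312) (nat_lit 304) (nat_lit 0) (XT.nd (nat_lit 156) (nat_lit 152) (nat_lit 0) (XT.nd (nat_lit 78) (nat_lit 0) (nat_lit 0) (XT.lf (nat_lit 0) (nat_lit 58386138124) (nat_lit 152) (nat_lit 391252907497) (nat_lit 76) (nat_lit 177745099366) (nat_lit 20) (nat_lit 5) (nat_lit 22) (nat_lit 5) (nat_lit 21) (nat_lit 5) (nat_lit 335) (nat_lit 311) (nat_lit 134)) (XT.lf (nat_lit 0) (nat_lit 170600589568) (nat_lit 152) (nat_lit 110676198840) (nat_lit 76) (nat_lit 380806827396) (nat_lit 20) (nat_lit 5) (nat_lit 22) (nat_lit 5) (nat_lit 21) (nat_lit 5) (nat_lit 336) (nat_lit 311) (nat_lit 133))) (XT.nd (nat_lit 78) (nat_lit 0) (nat_lit 0) (XT.lf (nat_lit 0) (nat_lit 202475224024) (nat_lit 152) (nat_lit 94186473537) (nat_lit 228)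 (nat_lit 402507786748) (nat_lit 18) (nat_lit 5) (nat_lit 20) (nat_lit 5) (nat_lit 21) (nat_lit 5) (nat_lit 337) (nat_lit 311) (nat_lit 132)) (XT.lf (nat_lit 0) (nat_lit 438506646114) (nat_lit 228) (nat_lit 194680076764) (nat_lit 76) (nat_lit 105579583315) (nat_lit 18) (nat_lit 5) (nat_lit 21) (nat_lit 5) (nat_lit 19) (nat_lit 4) (nat_lit 338) (nat_lit 311) (nat_lit 131)))) (XT.nd (nat_lit 156) (nat_lit 228) (nat_lit 0) (XT.nd (nat_lit 78) (nat_lit 0) (nat_lit 0) (XT.lf (nat_lit 0) (nat_lit 135844270051) (nat_lit 76) (nat_lit 461568349998) (nat_lit 152) (nat_lit 183661179470) (nat_lit 17) (nat_lit 5) (nat_lit 18) (nat_lit 5) (nat_lit 19) (nat_lit 4) (nat_lit 339) (nat_lit 311) (nat_lit 130)) (XT.lf (nat_lit 0) (nat_lit 503882144306) (nat_lit 76) (nat_lit 270471796595) (nat_lit 152) (nat_lit 51986121932) (nat_lit 17) (nat_lit 5) (nat_lit 18) (nat_lit 5) (nat_lit 19) (nat_lit 4) (nat_lit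 340) (nat_lit 311) (nat_lit 129))) (XT.nd (nat_lit 78) (nat_lit 0) (nat_lit 0) (XT.lf (nat_lit 0) (nat_lit 25227492066) (nat_lit 152) (nat_lit 61088825187) (nat_lit 228) (nat_lit 788689185375) (nat_lit 14) (nat_lit 5) (nat_lit 16) (nat_lit 5) (nat_lit 17) (nat_lit 5) (nat_lit 341) (nat_lit 311) (nat_lit 128)) (XT.lf (nat_lit 0) (nat_lit 245889227155) (nat_lit 228) (nat_lit 513341317848) (nat_lit 76) (nat_lit 167184419412) (nat_lit 14) (nat_lit 5) (nat_lit 17) (nat_lit 5) (nat_lit 15) (nat_lit 4) (nat_lit 342) (nat_lit 311) (nat_lit 127))))) (XT.nd (nat_lit 312) (nat_lit 228) (nat_lit 0) (XT.nd (nat_lit 156) (nat_lit 0) (nat_lit 0) (XT.nd (nat_lit 78) (nat_lit 76) (nat_lit 0) (XT.lf (nat_lit 0) (nat_lit 419814667259) (nat_lit 228) (nat_lit 151576456176) (nat_lit 76) (nat_lit 410419123951) (nat_lit 14) (nat_lit 5) (nat_lit 17) (nat_lit 5) (nat_lit 15) (nat_lit 4) (nat_lit 343) (nat_lit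 311) (nat_lit 126)) (XT.lf (nat_lit 0) (nat_lit 251721692478) (nat_lit 76) (nat_lit 361986339405) (nat_lit 152) (nat_lit 427444809998) (nat_lit 13) (nat_lit 5) (nat_lit 14) (nat_lit 5) (nat_lit 15) (nat_lit 4) (nat_lit 344) (nat_lit 311) (nat_lit 125))) (XT.nd (nat_lit 78) (nat_lit 0) (nat_lit 0) (XT.lf (nat_lit 0) (nat_lit 695903940933) (nat_lit 76) (nat_lit 131353271013) (nat_lit 152) (nat_lit 277654084316) (nat_lit 13) (nat_lit 5) (nat_lit 14) (nat_lit 5) (nat_lit 15) (nat_lit 4) (nat_lit 345) (nat_lit 311) (nat_lit 124)) (XT.lf (nat_lit 0) (nat_lit 1060721725042) (nat_lit 152) (nat_lit 981115582) (nat_lit 0) (nat_lit 111841074505) (nat_lit 13) (nat_lit 5) (nat_lit 15) (nat_lit 4) (nat_lit 13) (nat_lit 4) (nat_lit 346) (nat_lit 311) (nat_lit 123)))) (XT.nd (nat_lit 156) (nat_lit 76) (nat_lit 0) (XT.nd (nat_lit 78) (nat_lit 0) (nat_lit 0) (XT.lf (nat_lit 0) (nat_lit 76767074335) (nat_lit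 152) (nat_lit 789205172496) (nat_lit 76) (nat_lit 380382883023) (nat_lit 11) (nat_lit 5) (nat_lit 13) (nat_lit 5) (nat_lit 12) (nat_lit 4) (nat_lit 347) (nat_lit 311) (nat_lit 122)) (XT.lf (nat_lit 0) (nat_lit 275455653756) (nat_lit 152) (nat_lit 375932961169) (nat_lit 76) (nat_lit 673365990930) (nat_lit 11) (nat_lit 5) (nat_lit 13) (nat_lit 5) (nat_lit 12) (nat_lit 4) (nat_lit 348) (nat_lit 311) (nat_lit 121))) (XT.nd (nat_lit 78) (nat_lit 0) (nat_lit 0) (XT.lf (nat_lit 0) (nat_lit 74108186047) (nat_lit 76) (nat_lit 417713418947) (nat_lit 152) (nat_lit 917461852124) (nat_lit 10) (nat_lit 5) (nat_lit 11) (nat_lit 5) (nat_lit 12) (nat_lit 4) (nat_lit 349) (nat_lit 311) (nat_lit 120)) (XT.lf (nat_lit 0) (nat_lit 581532233850) (nat_lit 76) (nat_lit 154243254239) (nat_lit 152) (nat_lit 763976835949) (nat_lit 10) (nat_lit 5) (nat_lit 11) (nat_lit 5) (nat_lit 12) (nat_lit 4) (nat_lit 350)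 (nat_lit 311) (nat_lit 119))))))))
noncomputable def xc117 : XT := (XT.nd (nat_lit 39312) (nat_lit 0) (nat_lit 0) (XT.nd (nat_lit 38142) (nat_lit 0) (nat_lit 1292) (XT.nd (nat_lit 546) (nat_lit 0) (nat_lit 0) (XT.nd (nat_lit 234) (nat_lit 152) (nat_lit 0) (XT.nd (nat_lit 78) (nat_lit 76) (nat_lit 0) (XT.lf (nat_lit 0) (nat_lit 1002379492139) (nat_lit 152) (nat_lit 471042352210) (nat_lit 0) (nat_lit 123786151155) (nat_lit 10) (nat_lit 5) (nat_lit 12) (nat_lit 4) (nat_lit 10) (nat_lit 4) (nat_lit 351) (nat_lit 311) (nat_lit 118)) (XT.nd (nat_lit 78) (nat_lit 0) (nat_lit 0) (XT.lf (nat_lit 0) (nat_lit 8319429899) (nat_lit 76) (nat_lit 1286198772004) (nat_lit 76) (nat_lit 407605407970) (nat_lit 9) (nat_lit 4) (nat_lit 10) (nat_lit 5) (nat_lit 10) (nat_lit 4) (nat_lit 352) (nat_lit 311) (nat_lit 117)) (XT.lf (nat_lit 0) (nat_lit 552818723050) (nat_lit 76) (nat_lit 1070088403155) (nat_lit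 76) (nat_lit 191495017779) (nat_lit 9) (nat_lit 4) (nat_lit 10) (nat_lit 5) (nat_lit 10) (nat_lit 4) (nat_lit 353) (nat_lit 311) (nat_lit 116)))) (XT.nd (nat_lit 156) (nat_lit 76) (nat_lit 0) (XT.nd (nat_lit 78) (nat_lit 0) (nat_lit 0) (XT.lf (nat_lit 0) (nat_lit 39807971470) (nat_lit 152) (nat_lit 795792824479) (nat_lit 76) (nat_lit 1099981542253) (nat_lit 8) (nat_lit 5) (nat_lit 10) (nat_lit 5) (nat_lit 9) (nat_lit 4) (nat_lit 354) (nat_lit 311) (nat_lit 115)) (XT.lf (nat_lit 0) (nat_lit 279269481876) (nat_lit 152) (nat_lit 297712901133) (nat_lit 76) (nat_lit 1489076654286) (nat_lit 8) (nat_lit 5) (nat_lit 10) (nat_lit 5) (nat_lit 9) (nat_lit 4) (nat_lit 355) (nat_lit 311) (nat_lit 114))) (XT.nd (nat_lit 78) (nat_lit 0) (nat_lit 0) (XT.lf (nat_lit 0) (nat_lit 252862605230) (nat_lit 76) (nat_lit 291106647466) (nat_lit 152) (nat_lit 1662518112462) (nat_lit 7) (nat_lit 5) (nat_lit 8)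 (nat_lit 5) (nat_lit 9) (nat_lit 4) (nat_lit 356) (nat_lit 311) (nat_lit 113)) (XT.lf (nat_lit 0) (nat_lit 838620641902) (nat_lit 152) (nat_lit 1493719083838) (nat_lit 0) (nat_lit 25108182582) (nat_lit 7) (nat_lit 5) (nat_lit 9) (nat_lit 4) (nat_lit 7) (nat_lit 4) (nat_lit 357) (nat_lit 311) (nat_lit 112))))) (XT.nd (nat_lit 37284) (nat_lit 0) (nat_lit 2888) (XT.nd (nat_lit 37128) (nat_lit 0) (nat_lit 2812) (XT.nd (nat_lit 37050) (nat_lit 0) (nat_lit 2812) (XT.lf (nat_lit 0) (nat_lit 1164405342733) (nat_lit 152) (nat_lit 1004582186213) (nat_lit 0) (nat_lit 350892869963) (nat_lit 7) (nat_lit 5) (nat_lit 9) (nat_lit 4) (nat_lit 7) (nat_lit 4) (nat_lit 358) (nat_lit 311) (nat_lit 111)) (XT.lf (nat_lit 0) (nat_lit 66847559981) (nat_lit 532) (nat_lit 22469464238) (nat_lit 532) (nat_lit 22469464238) (nat_lit 44) (nat_lit 3) (nat_lit 51) (nat_lit 3) (nat_lit 51) (nat_lit 5) (nat_lit 312) (nat_lit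 312) (nat_lit 156))) (XT.nd (nat_lit 78) (nat_lit 0) (nat_lit 76) (XT.lf (nat_lit 76) (nat_lit 59462713364) (nat_lit 0) (nat_lit 81011484317) (nat_lit 532) (nat_lit 91927192579) (nat_lit 45) (nat_lit 5) (nat_lit 44) (nat_lit 3) (nat_lit 51) (nat_lit 5) (nat_lit 313) (nat_lit 312) (nat_lit 155)) (XT.lf (nat_lit 0) (nat_lit 149643429230) (nat_lit 456) (nat_lit 67684893466) (nat_lit 532) (nat_lit 24459928157) (nat_lit 45) (nat_lit 5) (nat_lit 51) (nat_lit 5) (nat_lit 52) (nat_lit 5) (nat_lit 314) (nat_lit 312) (nat_lit 154)))) (XT.nd (nat_lit 156) (nat_lit 0) (nat_lit 76) (XT.nd (nat_lit 78) (nat_lit 0) (nat_lit 0) (XT.lf (nat_lit 76) (nat_lit 46195827077) (nat_lit 0) (nat_lit 116565466501) (nat_lit 532) (nat_lit 88907559533) (nat_lit 46) (nat_lit 5) (nat_lit 45) (nat_lit 5) (nat_lit 52) (nat_lit 5) (nat_lit 315) (nat_lit 312) (nat_lit 153)) (XT.lf (nat_lit 76) (nat_lit 173036233463) (nat_lit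 0) (nat_lit 5742874161) (nat_lit 532) (nat_lit 83412754616) (nat_lit 46) (nat_lit 5) (nat_lit 45) (nat_lit 5) (nat_lit 52) (nat_lit 5) (nat_lit 316) (nat_lit 312) (nat_lit 152))) (XT.nd (nat_lit 78) (nat_lit 0) (nat_lit 0) (XT.lf (nat_lit 76) (nat_lit 35502680357) (nat_lit 0) (nat_lit 164169803461) (nat_lit 532) (nat_lit 73596697631) (nat_lit 47) (nat_lit 5) (nat_lit 46) (nat_lit 5) (nat_lit 53) (nat_lit 5) (nat_lit 317) (nat_lit 312) (nat_lit 151)) (XT.lf (nat_lit 76) (nat_lit 175046920247) (nat_lit 0) (nat_lit 49773381387) (nat_lit 532) (nat_lit 60205747125) (nat_lit 47) (nat_lit 5) (nat_lit 46) (nat_lit 5) (nat_lit 53) (nat_lit 5) (nat_lit 318) (nat_lit 312) (nat_lit 150)))))) (XT.nd (nat_lit 546) (nat_lit 532) (nat_lit 0) (XT.nd (nat_lit 234) (nat_lit 456) (nat_lit 0) (XT.nd (nat_lit 78) (nat_lit 304) (nat_lit 0) (XT.lf (nat_lit 0) (nat_lit 27639514550) (nat_lit 456) (nat_lit 226779362449)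 (nat_lit 532) (nat_lit 43109474148) (nat_lit 41) (nat_lit 5) (nat_lit 47) (nat_lit 5) (nat_lit 48) (nat_lit 5) (nat_lit 319) (nat_lit 312) (nat_lit 149)) (XT.nd (nat_lit 78) (nat_lit 304) (nat_lit 0) (XT.lf (nat_lit 0) (nat_lit 181161293832) (nat_lit 456) (nat_lit 109491075379) (nat_lit 532) (nat_lit 20037106298) (nat_lit 41) (nat_lit 5) (nat_lit 47) (nat_lit 5) (nat_lit 48) (nat_lit 5) (nat_lit 320) (nat_lit 312) (nat_lit 148)) (XT.lf (nat_lit 0) (nat_lit 5623011391) (nat_lit 304) (nat_lit 302180937208) (nat_lit 76) (nat_lit 17011259851) (nat_lit 37) (nat_lit 5) (nat_lit 41) (nat_lit 5) (nat_lit 38) (nat_lit 5) (nat_lit 321) (nat_lit 312) (nat_lit 147)))) (XT.nd (nat_lit 156) (nat_lit 228) (nat_lit 0) (XT.nd (nat_lit 78) (nat_lit 228) (nat_lit 0) (XT.lf (nat_lit 0) (nat_lit 38730784770) (nat_lit 304) (nat_lit 148908007041) (nat_lit 76) (nat_lit 151872383229) (nat_lit 37) (nat_lit 5)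 (nat_lit 41) (nat_lit 5) (nat_lit 38) (nat_lit 5) (nat_lit 322) (nat_lit 312) (nat_lit 146)) (XT.lf (nat_lit 0) (nat_lit 17502218925) (nat_lit 228) (nat_lit 57405823767) (nat_lit 304) (nat_lit 280441107432) (nat_lit 34) (nat_lit 5) (nat_lit 37) (nat_lit 5) (nat_lit 38) (nat_lit 5) (nat_lit 323) (nat_lit 312) (nat_lit 145))) (XT.nd (nat_lit 78) (nat_lit 228) (nat_lit 0) (XT.lf (nat_lit 0) (nat_lit 120158640971) (nat_lit 304) (nat_lit 168542544929) (nat_lit 76) (nat_lit 83258644704) (nat_lit 34) (nat_lit 5) (nat_lit 38) (nat_lit 5) (nat_lit 35) (nat_lit 5) (nat_lit 324) (nat_lit 312) (nat_lit 144)) (XT.lf (nat_lit 0) (nat_lit 13489882126) (nat_lit 228) (nat_lit 157354838992) (nat_lit 304) (nat_lit 218909409839) (nat_lit 31) (nat_lit 5) (nat_lit 34) (nat_lit 5) (nat_lit 35) (nat_lit 5) (nat_lit 325) (nat_lit 312) (nat_lit 143))))) (XT.nd (nat_lit 312) (nat_lit 228) (nat_lit 0) (XT.nd (nat_lit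 156) (nat_lit 152) (nat_lit 0) (XT.nd (nat_lit 78) (nat_lit 152) (nat_lit 0) (XT.lf (nat_lit 0) (nat_lit 219670000650) (nat_lit 228) (nat_lit 10523883268) (nat_lit 304) (nat_lit 178409435864) (nat_lit 31) (nat_lit 5) (nat_lit 34) (nat_lit 5) (nat_lit 35) (nat_lit 5) (nat_lit 326) (nat_lit 312) (nat_lit 142)) (XT.lf (nat_lit 0) (nat_lit 10340606921) (nat_lit 152) (nat_lit 287759704335) (nat_lit 228) (nat_lit 130555386070) (nat_lit 29) (nat_lit 5) (nat_lit 31) (nat_lit 5) (nat_lit 32) (nat_lit 5) (nat_lit 327) (nat_lit 312) (nat_lit 141))) (XT.nd (nat_lit 78) (nat_lit 152) (nat_lit 0) (XT.lf (nat_lit 0) (nat_lit 236013446725) (nat_lit 152) (nat_lit 140857955793) (nat_lit 228) (nat_lit 73006290698) (nat_lit 29) (nat_lit 5) (nat_lit 31) (nat_lit 5) (nat_lit 32) (nat_lit 5) (nat_lit 328) (nat_lit 312) (nat_lit 140)) (XT.lf (nat_lit 0) (nat_lit 6857657427) (nat_lit 152) (nat_lit 455679396978)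 (nat_lit 228) (nat_lit 10212964621) (nat_lit 27) (nat_lit 5) (nat_lit 29) (nat_lit 5) (nat_lit 30) (nat_lit 5) (nat_lit 329) (nat_lit 312) (nat_lit 139)))) (XT.nd (nat_lit 156) (nat_lit 152) (nat_lit 0) (XT.nd (nat_lit 78) (nat_lit 0) (nat_lit 0) (XT.lf (nat_lit 0) (nat_lit 64380162314) (nat_lit 228) (nat_lit 244780340317) (nat_lit 76) (nat_lit 187408165570) (nat_lit 26) (nat_lit 5) (nat_lit 29) (nat_lit 5) (nat_lit 27) (nat_lit 5) (nat_lit 330) (nat_lit 312) (nat_lit 138)) (XT.lf (nat_lit 0) (nat_lit 144388931995) (nat_lit 228) (nat_lit 6244688028) (nat_lit 76) (nat_lit 371637970997) (nat_lit 26) (nat_lit 5) (nat_lit 29) (nat_lit 5) (nat_lit 27) (nat_lit 5) (nat_lit 331) (nat_lit 312) (nat_lit 137))) (XT.nd (nat_lit 78) (nat_lit 0) (nat_lit 0) (XT.lf (nat_lit 0) (nat_lit 237822391745) (nat_lit 228) (nat_lit 285571115422) (nat_lit 76) (nat_lit 26075321501) (nat_lit 24) (nat_lit 5) (nat_lit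 27) (nat_lit 5) (nat_lit 25) (nat_lit 5) (nat_lit 332) (nat_lit 312) (nat_lit 136)) (XT.lf (nat_lit 0) (nat_lit 342818227791) (nat_lit 228) (nat_lit 26738590711) (nat_lit 76) (nat_lit 208958010944) (nat_lit 24) (nat_lit 5) (nat_lit 27) (nat_lit 5) (nat_lit 25) (nat_lit 5) (nat_lit 333) (nat_lit 312) (nat_lit 135))))))) (XT.nd (nat_lit 1170) (nat_lit 304) (nat_lit 0) (XT.nd (nat_lit 546) (nat_lit 456) (nat_lit 0) (XT.nd (nat_lit 234) (nat_lit 228) (nat_lit 0) (XT.nd (nat_lit 78) (nat_lit 152) (nat_lit 0) (XT.lf (nat_lit 0) (nat_lit 266112509783) (nat_lit 152) (nat_lit 196501198281) (nat_lit 228) (nat_lit 146758804104) (nat_lit 22) (nat_lit 5) (nat_lit 24) (nat_lit 5) (nat_lit 25) (nat_lit 5) (nat_lit 334) (nat_lit 312) (nat_lit 134)) (XT.nd (nat_lit 78) (nat_lit 152) (nat_lit 0) (XT.lf (nat_lit 0) (nat_lit 583912295280) (nat_lit 152) (nat_lit 8811578396) (nat_lit 228) (nat_lit 49916452147)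 (nat_lit 22) (nat_lit 5) (nat_lit 24) (nat_lit 5) (nat_lit 25) (nat_lit 5) (nat_lit 335) (nat_lit 312) (nat_lit 133)) (XT.lf (nat_lit 0) (nat_lit 63057684191) (nat_lit 152) (nat_lit 422552101803) (nat_lit 76) (nat_lit 191965037080) (nat_lit 20) (nat_lit 5) (nat_lit 22) (nat_lit 5) (nat_lit 21) (nat_lit 5) (nat_lit 336) (nat_lit 312) (nat_lit 132)))) (XT.nd (nat_lit 156) (nat_lit 76) (nat_lit 0) (XT.nd (nat_lit 78) (nat_lit 152) (nat_lit 0) (XT.lf (nat_lit 0) (nat_lit 184249243231) (nat_lit 152) (nat_lit 119529333365) (nat_lit 76) (nat_lit 411271678925) (nat_lit 20) (nat_lit 5) (nat_lit 22) (nat_lit 5) (nat_lit 21) (nat_lit 5) (nat_lit 337) (nat_lit 312) (nat_lit 131)) (XT.lf (nat_lit 0) (nat_lit 218674178989) (nat_lit 152) (nat_lit 101721038484) (nat_lit 228) (nat_lit 434707777900) (nat_lit 18) (nat_lit 5) (nat_lit 20) (nat_lit 5) (nat_lit 21) (nat_lit 5) (nat_lit 338) (nat_lit 312)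 (nat_lit 130))) (XT.nd (nat_lit 78) (nat_lit 76) (nat_lit 0) (XT.lf (nat_lit 0) (nat_lit 473587726503) (nat_lit 228) (nat_lit 210253578982) (nat_lit 76) (nat_lit 114026260426) (nat_lit 18) (nat_lit 5) (nat_lit 21) (nat_lit 5) (nat_lit 19) (nat_lit 4) (nat_lit 339) (nat_lit 312) (nat_lit 129)) (XT.lf (nat_lit 0) (nat_lit 146712692694) (nat_lit 76) (nat_lit 498493466202) (nat_lit 152) (nat_lit 198353501427) (nat_lit 17) (nat_lit 5) (nat_lit 18) (nat_lit 5) (nat_lit 19) (nat_lit 4) (nat_lit 340) (nat_lit 312) (nat_lit 128))))) (XT.nd (nat_lit 312) (nat_lit 228) (nat_lit 0) (XT.nd (nat_lit 156) (nat_lit 0) (nat_lit 0) (XT.nd (nat_lit 78) (nat_lit 228) (nat_lit 0) (XT.lf (nat_lit 0) (nat_lit 544193531628) (nat_lit 76) (nat_lit 292109214586) (nat_lit 152) (nat_lit 56144481686) (nat_lit 17) (nat_lit 5) (nat_lit 18) (nat_lit 5) (nat_lit 19) (nat_lit 4) (nat_lit 341) (nat_lit 312) (nat_lit 127))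 (XT.lf (nat_lit 0) (nat_lit 27246513080) (nat_lit 152) (nat_lit 65975595506) (nat_lit 228) (nat_lit 851783794728) (nat_lit 14) (nat_lit 5) (nat_lit 16) (nat_lit 5) (nat_lit 17) (nat_lit 5) (nat_lit 342) (nat_lit 312) (nat_lit 126))) (XT.nd (nat_lit 78) (nat_lit 0) (nat_lit 0) (XT.lf (nat_lit 0) (nat_lit 265560822759) (nat_lit 228) (nat_lit 554407833369) (nat_lit 76) (nat_lit 180559468246) (nat_lit 14) (nat_lit 5) (nat_lit 17) (nat_lit 5) (nat_lit 15) (nat_lit 4) (nat_lit 343) (nat_lit 312) (nat_lit 125)) (XT.lf (nat_lit 0) (nat_lit 453400264188) (nat_lit 228) (nat_lit 163701841274) (nat_lit 76) (nat_lit 443252927275) (nat_lit 14) (nat_lit 5) (nat_lit 17) (nat_lit 5) (nat_lit 15) (nat_lit 4) (nat_lit 344) (nat_lit 312) (nat_lit 124)))) (XT.nd (nat_lit 156) (nat_lit 152) (nat_lit 0) (XT.nd (nat_lit 78) (nat_lit 0) (nat_lit 0) (XT.lf (nat_lit 0) (nat_lit 271860140755) (nat_lit 76) (nat_lit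 390944942996) (nat_lit 152) (nat_lit 461639952219) (nat_lit 13) (nat_lit 5) (nat_lit 14) (nat_lit 5) (nat_lit 15) (nat_lit 4) (nat_lit 345) (nat_lit 312) (nat_lit 123)) (XT.lf (nat_lit 0) (nat_lit 751576916281) (nat_lit 76) (nat_lit 141861251620) (nat_lit 152) (nat_lit 299866001266) (nat_lit 13) (nat_lit 5) (nat_lit 14) (nat_lit 5) (nat_lit 15) (nat_lit 4) (nat_lit 346) (nat_lit 312) (nat_lit 122))) (XT.nd (nat_lit 78) (nat_lit 152) (nat_lit 0) (XT.lf (nat_lit 0) (nat_lit 1145579820229) (nat_lit 152) (nat_lit 1058971393) (nat_lit 0) (nat_lit 120788607701) (nat_lit 13) (nat_lit 5) (nat_lit 15) (nat_lit 4) (nat_lit 13) (nat_lit 4) (nat_lit 347) (nat_lit 312) (nat_lit 121)) (XT.lf (nat_lit 0) (nat_lit 82908795220) (nat_lit 152) (nat_lit 852340949828) (nat_lit 76) (nat_lit 410813766421) (nat_lit 11) (nat_lit 5) (nat_lit 13) (nat_lit 5) (nat_lit 12) (nat_lit 4) (nat_lit 348) (nat_lit 312)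 (nat_lit 120)))))) (XT.nd (nat_lit 624) (nat_lit 76) (nat_lit 0) (XT.nd (nat_lit 312) (nat_lit 152) (nat_lit 0) (XT.nd (nat_lit 156) (nat_lit 0) (nat_lit 0) (XT.nd (nat_lit 78) (nat_lit 76) (nat_lit 0) (XT.lf (nat_lit 0) (nat_lit 297492434703) (nat_lit 152) (nat_lit 406007008740) (nat_lit 76) (nat_lit 727235504238) (nat_lit 11) (nat_lit 5) (nat_lit 13) (nat_lit 5) (nat_lit 12) (nat_lit 4) (nat_lit 349) (nat_lit 312) (nat_lit 119)) (XT.lf (nat_lit 0) (nat_lit 80037415333) (nat_lit 76) (nat_lit 451130236177) (nat_lit 152) (nat_lit 990858456403) (nat_lit 10) (nat_lit 5) (nat_lit 11) (nat_lit 5) (nat_lit 12) (nat_lit 4) (nat_lit 350) (nat_lit 312) (nat_lit 118))) (XT.nd (nat_lit 78) (nat_lit 0) (nat_lit 0) (XT.lf (nat_lit 0) (nat_lit 628055344412) (nat_lit 76) (nat_lit 166582477277) (nat_lit 152) (nat_lit 825094664407) (nat_lit 10) (nat_lit 5) (nat_lit 11) (nat_lit 5) (nat_lit 12) (nat_lit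 4) (nat_lit 351) (nat_lit 312) (nat_lit 117)) (XT.lf (nat_lit 0) (nat_lit 1082570129529) (nat_lit 152) (nat_lit 508725231117) (nat_lit 0) (nat_lit 133689251980) (nat_lit 10) (nat_lit 5) (nat_lit 12) (nat_lit 4) (nat_lit 10) (nat_lit 4) (nat_lit 352) (nat_lit 312) (nat_lit 116)))) (XT.nd (nat_lit 156) (nat_lit 76) (nat_lit 0) (XT.nd (nat_lit 78) (nat_lit 0) (nat_lit 0) (XT.lf (nat_lit 0) (nat_lit 8985480668) (nat_lit 76) (nat_lit 1389094446749) (nat_lit 76) (nat_lit 440213549438) (nat_lit 9) (nat_lit 4) (nat_lit 10) (nat_lit 5) (nat_lit 10) (nat_lit 4) (nat_lit 353) (nat_lit 312) (nat_lit 115)) (XT.lf (nat_lit 0) (nat_lit 597044680502) (nat_lit 76) (nat_lit 1155695265209) (nat_lit 76) (nat_lit 206814349600) (nat_lit 9) (nat_lit 4) (nat_lit 10) (nat_lit 5) (nat_lit 10) (nat_lit 4) (nat_lit 354) (nat_lit 312) (nat_lit 114))) (XT.nd (nat_lit 78) (nat_lit 0) (nat_lit 0) (XT.lf (nat_lit 0)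 (nat_lit 42992846331) (nat_lit 152) (nat_lit 859455812182) (nat_lit 76) (nat_lit 1187980247570) (nat_lit 8) (nat_lit 5) (nat_lit 10) (nat_lit 5) (nat_lit 9) (nat_lit 4) (nat_lit 355) (nat_lit 312) (nat_lit 113)) (XT.lf (nat_lit 0) (nat_lit 301611260003) (nat_lit 152) (nat_lit 321529527431) (nat_lit 76) (nat_lit 1608202955088) (nat_lit 8) (nat_lit 5) (nat_lit 10) (nat_lit 5) (nat_lit 9) (nat_lit 4) (nat_lit 356) (nat_lit 312) (nat_lit 112))))) (XT.nd (nat_lit 37362) (nat_lit 0) (nat_lit 2888) (XT.nd (nat_lit 37206) (nat_lit 0) (nat_lit 2812) (XT.nd (nat_lit 78) (nat_lit 0) (nat_lit 0) (XT.lf (nat_lit 0) (nat_lit 273092009167) (nat_lit 76) (nat_lit 314394996568) (nat_lit 152) (nat_lit 1795519331434) (nat_lit 7) (nat_lit 5) (nat_lit 8) (nat_lit 5) (nat_lit 9) (nat_lit 4) (nat_lit 357) (nat_lit 312) (nat_lit 111)) (XT.lf (nat_lit 0) (nat_lit 905710494382) (nat_lit 152) (nat_lit 1613216232466)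 (nat_lit 0) (nat_lit 27116997888) (nat_lit 7) (nat_lit 5) (nat_lit 9) (nat_lit 4) (nat_lit 7) (nat_lit 4) (nat_lit 358) (nat_lit 312) (nat_lit 110))) (XT.nd (nat_lit 78) (nat_lit 0) (nat_lit 0) (XT.lf (nat_lit 0) (nat_lit 72196529316) (nat_lit 532) (nat_lit 24266390625) (nat_lit 532) (nat_lit 24266390625) (nat_lit 44) (nat_lit 3) (nat_lit 51) (nat_lit 3) (nat_lit 51) (nat_lit 5) (nat_lit 313) (nat_lit 313) (nat_lit 154)) (XT.lf (nat_lit 76) (nat_lit 64220960001) (nat_lit 0) (nat_lit 87493359613) (nat_lit 532) (nat_lit 99278999929) (nat_lit 45) (nat_lit 5) (nat_lit 44) (nat_lit 3) (nat_lit 51) (nat_lit 5) (nat_lit 314) (nat_lit 313) (nat_lit 153)))) (XT.nd (nat_lit 156) (nat_lit 0) (nat_lit 0) (XT.nd (nat_lit 78) (nat_lit 0) (nat_lit 0) (XT.lf (nat_lit 0) (nat_lit 161616906452) (nat_lit 456) (nat_lit 73098356692) (nat_lit 532) (nat_lit 26415881020) (nat_lit 45) (nat_lit 5) (nat_lit 51)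 (nat_lit 5) (nat_lit 52) (nat_lit 5) (nat_lit 315) (nat_lit 313) (nat_lit 152)) (XT.lf (nat_lit 76) (nat_lit 49892787867) (nat_lit 0) (nat_lit 125891294854) (nat_lit 532) (nat_lit 96018121743) (nat_lit 46) (nat_lit 5) (nat_lit 45) (nat_lit 5) (nat_lit 52) (nat_lit 5) (nat_lit 316) (nat_lit 313) (nat_lit 151))) (XT.nd (nat_lit 78) (nat_lit 0) (nat_lit 76) (XT.lf (nat_lit 76) (nat_lit 186880330866) (nat_lit 0) (nat_lit 6202851348) (nat_lit 532) (nat_lit 90083883733) (nat_lit 46) (nat_lit 5) (nat_lit 45) (nat_lit 5) (nat_lit 52) (nat_lit 5) (nat_lit 317) (nat_lit 313) (nat_lit 150)) (XT.lf (nat_lit 76) (nat_lit 38344217587) (nat_lit 0) (nat_lit 177303701210) (nat_lit 532) (nat_lit 79482661085) (nat_lit 47) (nat_lit 5) (nat_lit 46) (nat_lit 5) (nat_lit 53) (nat_lit 5) (nat_lit 318) (nat_lit 313) (nat_lit 149))))))))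
noncomputable def xc118 : XT := (XT.nd (nat_lit 2340) (nat_lit 380) (nat_lit 0) (XT.nd (nat_lit 1170) (nat_lit 836) (nat_lit 0) (XT.nd (nat_lit 546) (nat_lit 760) (nat_lit 0) (XT.nd (nat_lit 234) (nat_lit 532) (nat_lit 0) (XT.nd (nat_lit 78) (nat_lit 380) (nat_lit 0) (XT.lf (nat_lit 76) (nat_lit 189051898683) (nat_lit 0) (nat_lit 53755542150) (nat_lit 532) (nat_lit 65020565824) (nat_lit 47) (nat_lit 5) (nat_lit 46) (nat_lit 5) (nat_lit 53) (nat_lit 5) (nat_lit 319) (nat_lit 313) (nat_lit 148)) (XT.nd (nat_lit 78) (nat_lit 0) (nat_lit 0) (XT.lf (nat_lit 0) (nat_lit 29851999139) (nat_lit 456) (nat_lit 244921816227) (nat_lit 532) (nat_lit 46556685176) (nat_lit 41) (nat_lit 5) (nat_lit 47) (nat_lit 5) (nat_lit 48) (nat_lit 5) (nat_lit 320) (nat_lit 313) (nat_lit 147)) (XT.lf (nat_lit 0) (nat_lit 195655422732) (nat_lit 456) (nat_lit 118250458429) (nat_lit 532) (nat_lit 21638642483) (nat_lit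 41) (nat_lit 5) (nat_lit 47) (nat_lit 5) (nat_lit 48) (nat_lit 5) (nat_lit 321) (nat_lit 313) (nat_lit 146)))) (XT.nd (nat_lit 156) (nat_lit 228) (nat_lit 0) (XT.nd (nat_lit 78) (nat_lit 0) (nat_lit 0) (XT.lf (nat_lit 0) (nat_lit 6074142134) (nat_lit 304) (nat_lit 326354036971) (nat_lit 76) (nat_lit 18372139309) (nat_lit 37) (nat_lit 5) (nat_lit 41) (nat_lit 5) (nat_lit 38) (nat_lit 5) (nat_lit 322) (nat_lit 313) (nat_lit 145)) (XT.lf (nat_lit 0) (nat_lit 41830441840) (nat_lit 304) (nat_lit 160819374258) (nat_lit 76) (nat_lit 164022154138) (nat_lit 37) (nat_lit 5) (nat_lit 41) (nat_lit 5) (nat_lit 38) (nat_lit 5) (nat_lit 323) (nat_lit 313) (nat_lit 144))) (XT.nd (nat_lit 78) (nat_lit 0) (nat_lit 0) (XT.lf (nat_lit 0) (nat_lit 18903637549) (nat_lit 228) (nat_lit 61998184230) (nat_lit 304) (nat_lit 302875166479) (nat_lit 34) (nat_lit 5) (nat_lit 37) (nat_lit 5) (nat_lit 38) (nat_lit 5)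 (nat_lit 324) (nat_lit 313) (nat_lit 143)) (XT.lf (nat_lit 0) (nat_lit 129772386144) (nat_lit 304) (nat_lit 182024714773) (nat_lit 76) (nat_lit 89919429025) (nat_lit 34) (nat_lit 5) (nat_lit 38) (nat_lit 5) (nat_lit 35) (nat_lit 5) (nat_lit 325) (nat_lit 313) (nat_lit 142))))) (XT.nd (nat_lit 312) (nat_lit 380) (nat_lit 0) (XT.nd (nat_lit 156) (nat_lit 152) (nat_lit 0) (XT.nd (nat_lit 78) (nat_lit 0) (nat_lit 0) (XT.lf (nat_lit 0) (nat_lit 14570275212) (nat_lit 228) (nat_lit 169943028345) (nat_lit 304) (nat_lit 236421074905) (nat_lit 31) (nat_lit 5) (nat_lit 34) (nat_lit 5) (nat_lit 35) (nat_lit 5) (nat_lit 326) (nat_lit 313) (nat_lit 141)) (XT.lf (nat_lit 0) (nat_lit 237244714143) (nat_lit 228) (nat_lit 11365610813) (nat_lit 304) (nat_lit 192681183584) (nat_lit 31) (nat_lit 5) (nat_lit 34) (nat_lit 5) (nat_lit 35) (nat_lit 5) (nat_lit 327) (nat_lit 313) (nat_lit 140))) (XT.nd (nat_lit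 78) (nat_lit 0) (nat_lit 0) (XT.lf (nat_lit 0) (nat_lit 11169011315) (nat_lit 152) (nat_lit 310780218128) (nat_lit 228) (nat_lit 140998849984) (nat_lit 29) (nat_lit 5) (nat_lit 31) (nat_lit 5) (nat_lit 32) (nat_lit 5) (nat_lit 328) (nat_lit 313) (nat_lit 139)) (XT.lf (nat_lit 0) (nat_lit 254895592685) (nat_lit 152) (nat_lit 152126349152) (nat_lit 228) (nat_lit 78845898610) (nat_lit 29) (nat_lit 5) (nat_lit 31) (nat_lit 5) (nat_lit 32) (nat_lit 5) (nat_lit 329) (nat_lit 313) (nat_lit 138)))) (XT.nd (nat_lit 156) (nat_lit 152) (nat_lit 0) (XT.nd (nat_lit 78) (nat_lit 76) (nat_lit 0) (XT.lf (nat_lit 0) (nat_lit 7407373950) (nat_lit 152) (nat_lit 492133442620) (nat_lit 228) (nat_lit 11029138248) (nat_lit 27) (nat_lit 5) (nat_lit 29) (nat_lit 5) (nat_lit 30) (nat_lit 5) (nat_lit 330) (nat_lit 313) (nat_lit 137)) (XT.lf (nat_lit 0) (nat_lit 69531334877) (nat_lit 228) (nat_lit 264361703755)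 (nat_lit 76) (nat_lit 202401060626) (nat_lit 26) (nat_lit 5) (nat_lit 29) (nat_lit 5) (nat_lit 27) (nat_lit 5) (nat_lit 331) (nat_lit 313) (nat_lit 136))) (XT.nd (nat_lit 78) (nat_lit 152) (nat_lit 0) (XT.lf (nat_lit 0) (nat_lit 155940749868) (nat_lit 228) (nat_lit 6743278082) (nat_lit 76) (nat_lit 401369232575) (nat_lit 26) (nat_lit 5) (nat_lit 29) (nat_lit 5) (nat_lit 27) (nat_lit 5) (nat_lit 332) (nat_lit 313) (nat_lit 135)) (XT.lf (nat_lit 0) (nat_lit 256848864262) (nat_lit 228) (nat_lit 308415796132) (nat_lit 76) (nat_lit 28161618674) (nat_lit 24) (nat_lit 5) (nat_lit 27) (nat_lit 5) (nat_lit 25) (nat_lit 5) (nat_lit 333) (nat_lit 313) (nat_lit 134)))))) (XT.nd (nat_lit 546) (nat_lit 380) (nat_lit 0) (XT.nd (nat_lit 234) (nat_lit 304) (nat_lit 0) (XT.nd (nat_lit 78) (nat_lit 152) (nat_lit 0) (XT.lf (nat_lit 0) (nat_lit 370244316734) (nat_lit 228) (nat_lit 28876744149) (nat_lit 76)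 (nat_lit 225674903164) (nat_lit 24) (nat_lit 5) (nat_lit 27) (nat_lit 5) (nat_lit 25) (nat_lit 5) (nat_lit 334) (nat_lit 313) (nat_lit 133)) (XT.nd (nat_lit 78) (nat_lit 0) (nat_lit 0) (XT.lf (nat_lit 0) (nat_lit 287402420744) (nat_lit 152) (nat_lit 212220989856) (nat_lit 228) (nat_lit 158498852871) (nat_lit 22) (nat_lit 5) (nat_lit 24) (nat_lit 5) (nat_lit 25) (nat_lit 5) (nat_lit 335) (nat_lit 313) (nat_lit 132)) (XT.lf (nat_lit 0) (nat_lit 630626121660) (nat_lit 152) (nat_lit 9516222919) (nat_lit 228) (nat_lit 53909161318) (nat_lit 22) (nat_lit 5) (nat_lit 24) (nat_lit 5) (nat_lit 25) (nat_lit 5) (nat_lit 336) (nat_lit 313) (nat_lit 131)))) (XT.nd (nat_lit 156) (nat_lit 152) (nat_lit 0) (XT.nd (nat_lit 78) (nat_lit 0) (nat_lit 0) (XT.lf (nat_lit 0) (nat_lit 68102860497) (nat_lit 152) (nat_lit 456355379779) (nat_lit 76) (nat_lit 207322522765) (nat_lit 20) (nat_lit 5) (nat_lit 22) (nat_lit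 5) (nat_lit 21) (nat_lit 5) (nat_lit 337) (nat_lit 313) (nat_lit 130)) (XT.lf (nat_lit 0) (nat_lit 198989702663) (nat_lit 152) (nat_lit 129090855803) (nat_lit 76) (nat_lit 444173675016) (nat_lit 20) (nat_lit 5) (nat_lit 22) (nat_lit 5) (nat_lit 21) (nat_lit 5) (nat_lit 338) (nat_lit 313) (nat_lit 129))) (XT.nd (nat_lit 78) (nat_lit 0) (nat_lit 0) (XT.lf (nat_lit 0) (nat_lit 236168916673) (nat_lit 152) (nat_lit 109858418976) (nat_lit 228) (nat_lit 469483858475) (nat_lit 18) (nat_lit 5) (nat_lit 20) (nat_lit 5) (nat_lit 21) (nat_lit 5) (nat_lit 339) (nat_lit 313) (nat_lit 128)) (XT.lf (nat_lit 0) (nat_lit 511475215044) (nat_lit 228) (nat_lit 227073090332) (nat_lit 76) (nat_lit 123148627418) (nat_lit 18) (nat_lit 5) (nat_lit 21) (nat_lit 5) (nat_lit 19) (nat_lit 4) (nat_lit 340) (nat_lit 313) (nat_lit 127))))) (XT.nd (nat_lit 312) (nat_lit 76) (nat_lit 0) (XT.nd (nat_lit 156) (nat_lit 228)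 (nat_lit 0) (XT.nd (nat_lit 78) (nat_lit 0) (nat_lit 0) (XT.lf (nat_lit 0) (nat_lit 158450463458) (nat_lit 76) (nat_lit 538372641891) (nat_lit 152) (nat_lit 214221290800) (nat_lit 17) (nat_lit 5) (nat_lit 18) (nat_lit 5) (nat_lit 19) (nat_lit 4) (nat_lit 341) (nat_lit 313) (nat_lit 126)) (XT.lf (nat_lit 0) (nat_lit 587729713556) (nat_lit 76) (nat_lit 315477672486) (nat_lit 152) (nat_lit 60635585831) (nat_lit 17) (nat_lit 5) (nat_lit 18) (nat_lit 5) (nat_lit 19) (nat_lit 4) (nat_lit 342) (nat_lit 313) (nat_lit 125))) (XT.nd (nat_lit 78) (nat_lit 0) (nat_lit 0) (XT.lf (nat_lit 0) (nat_lit 29426938557) (nat_lit 152) (nat_lit 71253355341) (nat_lit 228) (nat_lit 919926047794) (nat_lit 14) (nat_lit 5) (nat_lit 16) (nat_lit 5) (nat_lit 17) (nat_lit 5) (nat_lit 343) (nat_lit 313) (nat_lit 124)) (XT.lf (nat_lit 0) (nat_lit 286806080754) (nat_lit 228) (nat_lit 598759782820) (nat_lit 76) (nat_lit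 195004478861) (nat_lit 14) (nat_lit 5) (nat_lit 17) (nat_lit 5) (nat_lit 15) (nat_lit 4) (nat_lit 344) (nat_lit 313) (nat_lit 123)))) (XT.nd (nat_lit 156) (nat_lit 0) (nat_lit 0) (XT.nd (nat_lit 78) (nat_lit 76) (nat_lit 0) (XT.lf (nat_lit 0) (nat_lit 489672648447) (nat_lit 228) (nat_lit 176797361522) (nat_lit 76) (nat_lit 478713395861) (nat_lit 14) (nat_lit 5) (nat_lit 17) (nat_lit 5) (nat_lit 15) (nat_lit 4) (nat_lit 345) (nat_lit 313) (nat_lit 122)) (XT.lf (nat_lit 0) (nat_lit 293609563195) (nat_lit 76) (nat_lit 422220278182) (nat_lit 152) (nat_lit 498570768956) (nat_lit 13) (nat_lit 5) (nat_lit 14) (nat_lit 5) (nat_lit 15) (nat_lit 4) (nat_lit 346) (nat_lit 313) (nat_lit 121))) (XT.nd (nat_lit 78) (nat_lit 0) (nat_lit 0) (XT.lf (nat_lit 0) (nat_lit 811703635490) (nat_lit 76) (nat_lit 153209910773) (nat_lit 152) (nat_lit 323854930033) (nat_lit 13) (nat_lit 5) (nat_lit 14) (nat_lit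 5) (nat_lit 15) (nat_lit 4) (nat_lit 347) (nat_lit 313) (nat_lit 120)) (XT.lf (nat_lit 0) (nat_lit 1237226512076) (nat_lit 152) (nat_lit 1143146036) (nat_lit 0) (nat_lit 130451908281) (nat_lit 13) (nat_lit 5) (nat_lit 15) (nat_lit 4) (nat_lit 13) (nat_lit 4) (nat_lit 348) (nat_lit 313) (nat_lit 119))))))) (XT.nd (nat_lit 38376) (nat_lit 0) (nat_lit 1216) (XT.nd (nat_lit 546) (nat_lit 76) (nat_lit 0) (XT.nd (nat_lit 234) (nat_lit 76) (nat_lit 0) (XT.nd (nat_lit 78) (nat_lit 76) (nat_lit 0) (XT.lf (nat_lit 0) (nat_lit 89541803140) (nat_lit 152) (nat_lit 920527680146) (nat_lit 76) (nat_lit 443679084432) (nat_lit 11) (nat_lit 5) (nat_lit 13) (nat_lit 5) (nat_lit 12) (nat_lit 4) (nat_lit 349) (nat_lit 313) (nat_lit 118)) (XT.nd (nat_lit 78) (nat_lit 76) (nat_lit 0) (XT.lf (nat_lit 0) (nat_lit 321292111241) (nat_lit 152) (nat_lit 438487064191) (nat_lit 76) (nat_lit 785414545223) (nat_lit 11)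 (nat_lit 5) (nat_lit 13) (nat_lit 5) (nat_lit 12) (nat_lit 4) (nat_lit 350) (nat_lit 313) (nat_lit 117)) (XT.lf (nat_lit 0) (nat_lit 86440901017) (nat_lit 76) (nat_lit 487220435348) (nat_lit 152) (nat_lit 1070126838084) (nat_lit 10) (nat_lit 5) (nat_lit 11) (nat_lit 5) (nat_lit 12) (nat_lit 4) (nat_lit 351) (nat_lit 313) (nat_lit 116)))) (XT.nd (nat_lit 156) (nat_lit 76) (nat_lit 0) (XT.nd (nat_lit 78) (nat_lit 0) (nat_lit 0) (XT.lf (nat_lit 0) (nat_lit 678300227945) (nat_lit 76) (nat_lit 179908872012) (nat_lit 152) (nat_lit 891101964568) (nat_lit 10) (nat_lit 5) (nat_lit 11) (nat_lit 5) (nat_lit 12) (nat_lit 4) (nat_lit 352) (nat_lit 313) (nat_lit 115)) (XT.lf (nat_lit 0) (nat_lit 1169175978247) (nat_lit 152) (nat_lit 549422812989) (nat_lit 0) (nat_lit 144384571092) (nat_lit 10) (nat_lit 5) (nat_lit 12) (nat_lit 4) (nat_lit 10) (nat_lit 4) (nat_lit 353) (nat_lit 313) (nat_lit 114)))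 (XT.nd (nat_lit 78) (nat_lit 0) (nat_lit 0) (XT.lf (nat_lit 0) (nat_lit 9704744685) (nat_lit 76) (nat_lit 1500221807861) (nat_lit 76) (nat_lit 475430383763) (nat_lit 9) (nat_lit 4) (nat_lit 10) (nat_lit 5) (nat_lit 10) (nat_lit 4) (nat_lit 354) (nat_lit 313) (nat_lit 113)) (XT.lf (nat_lit 0) (nat_lit 644808648983) (nat_lit 76) (nat_lit 1248150706214) (nat_lit 76) (nat_lit 223359266429) (nat_lit 9) (nat_lit 4) (nat_lit 10) (nat_lit 5) (nat_lit 10) (nat_lit 4) (nat_lit 355) (nat_lit 313) (nat_lit 112))))) (XT.nd (nat_lit 37518) (nat_lit 0) (nat_lit 2812) (XT.nd (nat_lit 37362) (nat_lit 0) (nat_lit 2736) (XT.nd (nat_lit 78) (nat_lit 0) (nat_lit 0) (XT.lf (nat_lit 0) (nat_lit 46432477349) (nat_lit 152) (nat_lit 928211901423) (nat_lit 76) (nat_lit 1283018823357) (nat_lit 8) (nat_lit 5) (nat_lit 10) (nat_lit 5) (nat_lit 9) (nat_lit 4) (nat_lit 356) (nat_lit 313) (nat_lit 111)) (XT.lf (nat_lit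 0) (nat_lit 325740349055) (nat_lit 152) (nat_lit 347251541724) (nat_lit 76) (nat_lit 1736859335923) (nat_lit 8) (nat_lit 5) (nat_lit 10) (nat_lit 5) (nat_lit 9) (nat_lit 4) (nat_lit 357) (nat_lit 313) (nat_lit 110))) (XT.nd (nat_lit 78) (nat_lit 0) (nat_lit 0) (XT.lf (nat_lit 0) (nat_lit 77973250063) (nat_lit 532) (nat_lit 26207161106) (nat_lit 532) (nat_lit 26207161106) (nat_lit 44) (nat_lit 3) (nat_lit 51) (nat_lit 3) (nat_lit 51) (nat_lit 5) (nat_lit 314) (nat_lit 314) (nat_lit 152)) (XT.lf (nat_lit 76) (nat_lit 69359690957) (nat_lit 0) (nat_lit 94493648471) (nat_lit 532) (nat_lit 107219289697) (nat_lit 45) (nat_lit 5) (nat_lit 44) (nat_lit 3) (nat_lit 51) (nat_lit 5) (nat_lit 315) (nat_lit 314) (nat_lit 151)))) (XT.nd (nat_lit 156) (nat_lit 0) (nat_lit 0) (XT.nd (nat_lit 78) (nat_lit 0) (nat_lit 0) (XT.lf (nat_lit 0) (nat_lit 174547976118) (nat_lit 456) (nat_lit 78945086467) (nat_lit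 532) (nat_lit 28528430145) (nat_lit 45) (nat_lit 5) (nat_lit 51) (nat_lit 5) (nat_lit 52) (nat_lit 5) (nat_lit 316) (nat_lit 314) (nat_lit 150)) (XT.lf (nat_lit 76) (nat_lit 53885320828) (nat_lit 0) (nat_lit 135963105159) (nat_lit 532) (nat_lit 103697820323) (nat_lit 46) (nat_lit 5) (nat_lit 45) (nat_lit 5) (nat_lit 52) (nat_lit 5) (nat_lit 317) (nat_lit 314) (nat_lit 149))) (XT.nd (nat_lit 78) (nat_lit 0) (nat_lit 76) (XT.lf (nat_lit 76) (nat_lit 201831785049) (nat_lit 0) (nat_lit 6699548637) (nat_lit 532) (nat_lit 97288972988) (nat_lit 46) (nat_lit 5) (nat_lit 45) (nat_lit 5) (nat_lit 52) (nat_lit 5) (nat_lit 318) (nat_lit 314) (nat_lit 148)) (XT.lf (nat_lit 76) (nat_lit 41412889083) (nat_lit 0) (nat_lit 191488266059) (nat_lit 532) (nat_lit 85839754462) (nat_lit 47) (nat_lit 5) (nat_lit 46) (nat_lit 5) (nat_lit 53) (nat_lit 5) (nat_lit 319) (nat_lit 314) (nat_lit 147)))))) (XT.nd (nat_lit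 624) (nat_lit 532) (nat_lit 0) (XT.nd (nat_lit 312) (nat_lit 456) (nat_lit 0) (XT.nd (nat_lit 156) (nat_lit 304) (nat_lit 0) (XT.nd (nat_lit 78) (nat_lit 380) (nat_lit 0) (XT.lf (nat_lit 76) (nat_lit 204177100660) (nat_lit 0) (nat_lit 58056234366) (nat_lit 532) (nat_lit 70220804136) (nat_lit 47) (nat_lit 5) (nat_lit 46) (nat_lit 5) (nat_lit 53) (nat_lit 5) (nat_lit 320) (nat_lit 314) (nat_lit 146)) (XT.lf (nat_lit 0) (nat_lit 32241293693) (nat_lit 456) (nat_lit 264515651358) (nat_lit 532) (nat_lit 50279893769) (nat_lit 41) (nat_lit 5) (nat_lit 47) (nat_lit 5) (nat_lit 48) (nat_lit 5) (nat_lit 321) (nat_lit 314) (nat_lit 145))) (XT.nd (nat_lit 78) (nat_lit 304) (nat_lit 0) (XT.lf (nat_lit 0) (nat_lit 211308907127) (nat_lit 456) (nat_lit 127710578283) (nat_lit 532) (nat_lit 23368505899) (nat_lit 41) (nat_lit 5) (nat_lit 47) (nat_lit 5) (nat_lit 48) (nat_lit 5) (nat_lit 322) (nat_lit 314)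 (nat_lit 144)) (XT.lf (nat_lit 0) (nat_lit 6561179328) (nat_lit 304) (nat_lit 352461180905) (nat_lit 76) (nat_lit 19841892167) (nat_lit 37) (nat_lit 5) (nat_lit 41) (nat_lit 5) (nat_lit 38) (nat_lit 5) (nat_lit 323) (nat_lit 314) (nat_lit 143)))) (XT.nd (nat_lit 156) (nat_lit 228) (nat_lit 0) (XT.nd (nat_lit 78) (nat_lit 228) (nat_lit 0) (XT.lf (nat_lit 0) (nat_lit 45177901097) (nat_lit 304) (nat_lit 173683832510) (nat_lit 76) (nat_lit 177143909536) (nat_lit 37) (nat_lit 5) (nat_lit 41) (nat_lit 5) (nat_lit 38) (nat_lit 5) (nat_lit 324) (nat_lit 314) (nat_lit 142)) (XT.lf (nat_lit 0) (nat_lit 20416992604) (nat_lit 228) (nat_lit 66957948573) (nat_lit 304) (nat_lit 327104125658) (nat_lit 34) (nat_lit 5) (nat_lit 37) (nat_lit 5) (nat_lit 38) (nat_lit 5) (nat_lit 325) (nat_lit 314) (nat_lit 141))) (XT.nd (nat_lit 78) (nat_lit 228) (nat_lit 0) (XT.lf (nat_lit 0) (nat_lit 140155080582) (nat_lit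 304) (nat_lit 196585634213) (nat_lit 76) (nat_lit 97113062860) (nat_lit 34) (nat_lit 5) (nat_lit 38) (nat_lit 5) (nat_lit 35) (nat_lit 5) (nat_lit 326) (nat_lit 314) (nat_lit 140)) (XT.lf (nat_lit 0) (nat_lit 15736928193) (nat_lit 228) (nat_lit 183538301060) (nat_lit 304) (nat_lit 255333828352) (nat_lit 31) (nat_lit 5) (nat_lit 34) (nat_lit 5) (nat_lit 35) (nat_lit 5) (nat_lit 327) (nat_lit 314) (nat_lit 139))))) (XT.nd (nat_lit 312) (nat_lit 228) (nat_lit 0) (XT.nd (nat_lit 156) (nat_lit 152) (nat_lit 0) (XT.nd (nat_lit 78) (nat_lit 152) (nat_lit 0) (XT.lf (nat_lit 0) (nat_lit 256225245870) (nat_lit 228) (nat_lit 12274702685) (nat_lit 304) (nat_lit 208094814803) (nat_lit 31) (nat_lit 5) (nat_lit 34) (nat_lit 5) (nat_lit 35) (nat_lit 5) (nat_lit 328) (nat_lit 314) (nat_lit 138)) (XT.lf (nat_lit 0) (nat_lit 12063523167) (nat_lit 152) (nat_lit 335642410481) (nat_lit 228) (nat_lit 152277928961)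 (nat_lit 29) (nat_lit 5) (nat_lit 31) (nat_lit 5) (nat_lit 32) (nat_lit 5) (nat_lit 329) (nat_lit 314) (nat_lit 137))) (XT.nd (nat_lit 78) (nat_lit 152) (nat_lit 0) (XT.lf (nat_lit 0) (nat_lit 275288157644) (nat_lit 152) (nat_lit 164296248660) (nat_lit 228) (nat_lit 85152802886) (nat_lit 29) (nat_lit 5) (nat_lit 31) (nat_lit 5) (nat_lit 32) (nat_lit 5) (nat_lit 330) (nat_lit 314) (nat_lit 136)) (XT.lf (nat_lit 0) (nat_lit 8000910307) (nat_lit 152) (nat_lit 531503855584) (nat_lit 228) (nat_lit 11910728960) (nat_lit 27) (nat_lit 5) (nat_lit 29) (nat_lit 5) (nat_lit 30) (nat_lit 5) (nat_lit 331) (nat_lit 314) (nat_lit 135)))) (XT.nd (nat_lit 156) (nat_lit 152) (nat_lit 0) (XT.nd (nat_lit 78) (nat_lit 0) (nat_lit 0) (XT.lf (nat_lit 0) (nat_lit 75094492883) (nat_lit 228) (nat_lit 285509728029) (nat_lit 76) (nat_lit 218593352789) (nat_lit 26) (nat_lit 5) (nat_lit 29) (nat_lit 5) (nat_lit 27)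 (nat_lit 5) (nat_lit 332) (nat_lit 314) (nat_lit 134)) (XT.lf (nat_lit 0) (nat_lit 168416612835) (nat_lit 228) (nat_lit 7281895860) (nat_lit 76) (nat_lit 433478963138) (nat_lit 26) (nat_lit 5) (nat_lit 29) (nat_lit 5) (nat_lit 27) (nat_lit 5) (nat_lit 333) (nat_lit 314) (nat_lit 133))) (XT.nd (nat_lit 78) (nat_lit 0) (nat_lit 0) (XT.lf (nat_lit 0) (nat_lit 277397357403) (nat_lit 228) (nat_lit 333088195175) (nat_lit 76) (nat_lit 30414780895) (nat_lit 24) (nat_lit 5) (nat_lit 27) (nat_lit 5) (nat_lit 25) (nat_lit 5) (nat_lit 334) (nat_lit 314) (nat_lit 132)) (XT.lf (nat_lit 0) (nat_lit 399864402813) (nat_lit 228) (nat_lit 31186083082) (nat_lit 76) (nat_lit 243729110905) (nat_lit 24) (nat_lit 5) (nat_lit 27) (nat_lit 5) (nat_lit 25) (nat_lit 5) (nat_lit 335) (nat_lit 314) (nat_lit 131))))))))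
noncomputable def xc119 : XT := (XT.nd (nat_lit 39702) (nat_lit 0) (nat_lit 152) (XT.nd (nat_lit 1170) (nat_lit 228) (nat_lit 0) (XT.nd (nat_lit 546) (nat_lit 456) (nat_lit 0) (XT.nd (nat_lit 234) (nat_lit 228) (nat_lit 0) (XT.nd (nat_lit 78) (nat_lit 152) (nat_lit 0) (XT.lf (nat_lit 0) (nat_lit 310395394734) (nat_lit 152) (nat_lit 229198408166) (nat_lit 228) (nat_lit 171178199063) (nat_lit 22) (nat_lit 5) (nat_lit 24) (nat_lit 5) (nat_lit 25) (nat_lit 5) (nat_lit 336) (nat_lit 314) (nat_lit 130)) (XT.nd (nat_lit 78) (nat_lit 152) (nat_lit 0) (XT.lf (nat_lit 0) (nat_lit 681076933921) (nat_lit 152) (nat_lit 10277279199) (nat_lit 228) (nat_lit 58221373818) (nat_lit 22) (nat_lit 5) (nat_lit 24) (nat_lit 5) (nat_lit 25) (nat_lit 5) (nat_lit 337) (nat_lit 314) (nat_lit 129)) (XT.lf (nat_lit 0) (nat_lit 73551570794) (nat_lit 152) (nat_lit 492863046984) (nat_lit 76) (nat_lit 223908566973) (nat_lit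 20) (nat_lit 5) (nat_lit 22) (nat_lit 5) (nat_lit 21) (nat_lit 5) (nat_lit 338) (nat_lit 314) (nat_lit 128)))) (XT.nd (nat_lit 156) (nat_lit 76) (nat_lit 0) (XT.nd (nat_lit 78) (nat_lit 152) (nat_lit 0) (XT.lf (nat_lit 0) (nat_lit 214909324669) (nat_lit 152) (nat_lit 139417417623) (nat_lit 76) (nat_lit 479707793449) (nat_lit 20) (nat_lit 5) (nat_lit 22) (nat_lit 5) (nat_lit 21) (nat_lit 5) (nat_lit 339) (nat_lit 314) (nat_lit 127)) (XT.lf (nat_lit 0) (nat_lit 255063118762) (nat_lit 152) (nat_lit 118646833075) (nat_lit 228) (nat_lit 507042102770) (nat_lit 18) (nat_lit 5) (nat_lit 20) (nat_lit 5) (nat_lit 21) (nat_lit 5) (nat_lit 340) (nat_lit 314) (nat_lit 126))) (XT.nd (nat_lit 78) (nat_lit 76) (nat_lit 0) (XT.lf (nat_lit 0) (nat_lit 552393635558) (nat_lit 228) (nat_lit 245238273148) (nat_lit 76) (nat_lit 133000745798) (nat_lit 18) (nat_lit 5) (nat_lit 21) (nat_lit 5) (nat_lit 19) (nat_lit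 4) (nat_lit 341) (nat_lit 314) (nat_lit 125)) (XT.lf (nat_lit 0) (nat_lit 171127148125) (nat_lit 76) (nat_lit 581442194662) (nat_lit 152) (nat_lit 231358573333) (nat_lit 17) (nat_lit 5) (nat_lit 18) (nat_lit 5) (nat_lit 19) (nat_lit 4) (nat_lit 342) (nat_lit 314) (nat_lit 124))))) (XT.nd (nat_lit 312) (nat_lit 228) (nat_lit 0) (XT.nd (nat_lit 156) (nat_lit 0) (nat_lit 0) (XT.nd (nat_lit 78) (nat_lit 228) (nat_lit 0) (XT.lf (nat_lit 0) (nat_lit 634748690260) (nat_lit 76) (nat_lit 340715646859) (nat_lit 152) (nat_lit 65486043132) (nat_lit 17) (nat_lit 5) (nat_lit 18) (nat_lit 5) (nat_lit 19) (nat_lit 4) (nat_lit 343) (nat_lit 314) (nat_lit 123)) (XT.lf (nat_lit 0) (nat_lit 31781697578) (nat_lit 152) (nat_lit 76953377022) (nat_lit 228) (nat_lit 993519745375) (nat_lit 14) (nat_lit 5) (nat_lit 16) (nat_lit 5) (nat_lit 17) (nat_lit 5) (nat_lit 344) (nat_lit 314) (nat_lit 122))) (XT.nd (nat_lit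 78) (nat_lit 0) (nat_lit 0) (XT.lf (nat_lit 0) (nat_lit 309750903440) (nat_lit 228) (nat_lit 646659984840) (nat_lit 76) (nat_lit 210605054210) (nat_lit 14) (nat_lit 5) (nat_lit 17) (nat_lit 5) (nat_lit 15) (nat_lit 4) (nat_lit 345) (nat_lit 314) (nat_lit 121)) (XT.lf (nat_lit 0) (nat_lit 528846771643) (nat_lit 228) (nat_lit 190940612846) (nat_lit 76) (nat_lit 517010668492) (nat_lit 14) (nat_lit 5) (nat_lit 17) (nat_lit 5) (nat_lit 15) (nat_lit 4) (nat_lit 346) (nat_lit 314) (nat_lit 120)))) (XT.nd (nat_lit 156) (nat_lit 152) (nat_lit 0) (XT.nd (nat_lit 78) (nat_lit 0) (nat_lit 0) (XT.lf (nat_lit 0) (nat_lit 317098852238) (nat_lit 76) (nat_lit 455997677311) (nat_lit 152) (nat_lit 538456105164) (nat_lit 13) (nat_lit 5) (nat_lit 14) (nat_lit 5) (nat_lit 15) (nat_lit 4) (nat_lit 347) (nat_lit 314) (nat_lit 119)) (XT.lf (nat_lit 0) (nat_lit 876640411503) (nat_lit 76) (nat_lit 165466497037)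 (nat_lit 152) (nat_lit 349763023224) (nat_lit 13) (nat_lit 5) (nat_lit 14) (nat_lit 5) (nat_lit 15) (nat_lit 4) (nat_lit 348) (nat_lit 314) (nat_lit 118))) (XT.nd (nat_lit 78) (nat_lit 152) (nat_lit 0) (XT.lf (nat_lit 0) (nat_lit 1336204895583) (nat_lit 152) (nat_lit 1234132125) (nat_lit 0) (nat_lit 140888242669) (nat_lit 13) (nat_lit 5) (nat_lit 15) (nat_lit 4) (nat_lit 13) (nat_lit 4) (nat_lit 349) (nat_lit 314) (nat_lit 117)) (XT.lf (nat_lit 0) (nat_lit 96705408282) (nat_lit 152) (nat_lit 994169426735) (nat_lit 76) (nat_lit 479173596970) (nat_lit 11) (nat_lit 5) (nat_lit 13) (nat_lit 5) (nat_lit 12) (nat_lit 4) (nat_lit 350) (nat_lit 314) (nat_lit 116)))))) (XT.nd (nat_lit 37908) (nat_lit 0) (nat_lit 2508) (XT.nd (nat_lit 312) (nat_lit 152) (nat_lit 0) (XT.nd (nat_lit 156) (nat_lit 0) (nat_lit 0) (XT.nd (nat_lit 78) (nat_lit 76) (nat_lit 0) (XT.lf (nat_lit 0) (nat_lit 346995721706)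 (nat_lit 152) (nat_lit 473565596157) (nat_lit 76) (nat_lit 848247880862) (nat_lit 11) (nat_lit 5) (nat_lit 13) (nat_lit 5) (nat_lit 12) (nat_lit 4) (nat_lit 351) (nat_lit 314) (nat_lit 115)) (XT.lf (nat_lit 0) (nat_lit 93356595302) (nat_lit 76) (nat_lit 526197881798) (nat_lit 152) (nat_lit 1155736732361) (nat_lit 10) (nat_lit 5) (nat_lit 11) (nat_lit 5) (nat_lit 12) (nat_lit 4) (nat_lit 352) (nat_lit 314) (nat_lit 114))) (XT.nd (nat_lit 78) (nat_lit 0) (nat_lit 0) (XT.lf (nat_lit 0) (nat_lit 732564637109) (nat_lit 76) (nat_lit 194301407349) (nat_lit 152) (nat_lit 962389887687) (nat_lit 10) (nat_lit 5) (nat_lit 11) (nat_lit 5) (nat_lit 12) (nat_lit 4) (nat_lit 353) (nat_lit 314) (nat_lit 113)) (XT.lf (nat_lit 0) (nat_lit 1262710260859) (nat_lit 152) (nat_lit 593376263700) (nat_lit 0) (nat_lit 155935490204) (nat_lit 10) (nat_lit 5) (nat_lit 12) (nat_lit 4) (nat_lit 10) (nat_lit 4) (nat_lit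 354) (nat_lit 314) (nat_lit 112)))) (XT.nd (nat_lit 156) (nat_lit 76) (nat_lit 0) (XT.nd (nat_lit 78) (nat_lit 0) (nat_lit 0) (XT.lf (nat_lit 0) (nat_lit 10481489112) (nat_lit 76) (nat_lit 1620239385627) (nat_lit 76) (nat_lit 513464600446) (nat_lit 9) (nat_lit 4) (nat_lit 10) (nat_lit 5) (nat_lit 10) (nat_lit 4) (nat_lit 355) (nat_lit 314) (nat_lit 111)) (XT.lf (nat_lit 0) (nat_lit 696393678727) (nat_lit 76) (nat_lit 1348002608209) (nat_lit 76) (nat_lit 241227809579) (nat_lit 9) (nat_lit 4) (nat_lit 10) (nat_lit 5) (nat_lit 10) (nat_lit 4) (nat_lit 356) (nat_lit 314) (nat_lit 110))) (XT.nd (nat_lit 37362) (nat_lit 0) (nat_lit 2736) (XT.lf (nat_lit 0) (nat_lit 50147249844) (nat_lit 152) (nat_lit 1002468531406) (nat_lit 76) (nat_lit 1385660462955) (nat_lit 8) (nat_lit 5) (nat_lit 10) (nat_lit 5) (nat_lit 9) (nat_lit 4) (nat_lit 357) (nat_lit 314) (nat_lit 109)) (XT.lf (nat_lit 0) (nat_lit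 84211966037) (nat_lit 532) (nat_lit 28303270373) (nat_lit 532) (nat_lit 28303270373) (nat_lit 44) (nat_lit 3) (nat_lit 51) (nat_lit 3) (nat_lit 51) (nat_lit 5) (nat_lit 315) (nat_lit 315) (nat_lit 150))))) (XT.nd (nat_lit 312) (nat_lit 228) (nat_lit 0) (XT.nd (nat_lit 156) (nat_lit 0) (nat_lit 76) (XT.nd (nat_lit 78) (nat_lit 0) (nat_lit 76) (XT.lf (nat_lit 76) (nat_lit 74909370003) (nat_lit 0) (nat_lit 102053843442) (nat_lit 532) (nat_lit 115795092280) (nat_lit 45) (nat_lit 5) (nat_lit 44) (nat_lit 3) (nat_lit 51) (nat_lit 5) (nat_lit 316) (nat_lit 315) (nat_lit 149)) (XT.lf (nat_lit 0) (nat_lit 188513286386) (nat_lit 456) (nat_lit 85259717081) (nat_lit 532) (nat_lit 30810086111) (nat_lit 45) (nat_lit 5) (nat_lit 51) (nat_lit 5) (nat_lit 52) (nat_lit 5) (nat_lit 317) (nat_lit 315) (nat_lit 148))) (XT.nd (nat_lit 78) (nat_lit 0) (nat_lit 0) (XT.lf (nat_lit 76) (nat_lit 58197098081) (nat_lit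 0) (nat_lit 146840587999) (nat_lit 532) (nat_lit 111992144612) (nat_lit 46) (nat_lit 5) (nat_lit 45) (nat_lit 5) (nat_lit 52) (nat_lit 5) (nat_lit 318) (nat_lit 315) (nat_lit 147)) (XT.lf (nat_lit 76) (nat_lit 217979208952) (nat_lit 0) (nat_lit 7235914776) (nat_lit 532) (nat_lit 105070700700) (nat_lit 46) (nat_lit 5) (nat_lit 45) (nat_lit 5) (nat_lit 52) (nat_lit 5) (nat_lit 319) (nat_lit 315) (nat_lit 146)))) (XT.nd (nat_lit 156) (nat_lit 380) (nat_lit 0) (XT.nd (nat_lit 78) (nat_lit 0) (nat_lit 0) (XT.lf (nat_lit 76) (nat_lit 44726892509) (nat_lit 0) (nat_lit 206807557755) (nat_lit 532) (nat_lit 92705632084) (nat_lit 47) (nat_lit 5) (nat_lit 46) (nat_lit 5) (nat_lit 53) (nat_lit 5) (nat_lit 320) (nat_lit 315) (nat_lit 145)) (XT.lf (nat_lit 76) (nat_lit 220512168990) (nat_lit 0) (nat_lit 62700946460) (nat_lit 532) (nat_lit 75837262231) (nat_lit 47) (nat_lit 5) (nat_lit 46) (nat_lit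 5) (nat_lit 53) (nat_lit 5) (nat_lit 321) (nat_lit 315) (nat_lit 144))) (XT.nd (nat_lit 78) (nat_lit 0) (nat_lit 0) (XT.lf (nat_lit 0) (nat_lit 34821569945) (nat_lit 456) (nat_lit 285676980485) (nat_lit 532) (nat_lit 54301148250) (nat_lit 41) (nat_lit 5) (nat_lit 47) (nat_lit 5) (nat_lit 48) (nat_lit 5) (nat_lit 322) (nat_lit 315) (nat_lit 143)) (XT.lf (nat_lit 0) (nat_lit 228214520398) (nat_lit 456) (nat_lit 137927495858) (nat_lit 532) (nat_lit 25236933574) (nat_lit 41) (nat_lit 5) (nat_lit 47) (nat_lit 5) (nat_lit 48) (nat_lit 5) (nat_lit 323) (nat_lit 315) (nat_lit 142))))))) (XT.nd (nat_lit 1170) (nat_lit 912) (nat_lit 0) (XT.nd (nat_lit 546) (nat_lit 532) (nat_lit 0) (XT.nd (nat_lit 234) (nat_lit 380) (nat_lit 0) (XT.nd (nat_lit 78) (nat_lit 228) (nat_lit 0) (XT.lf (nat_lit 0) (nat_lit 7087021738) (nat_lit 304) (nat_lit 380657064554) (nat_lit 76) (nat_lit 21429227862) (nat_lit 37)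 (nat_lit 5) (nat_lit 41) (nat_lit 5) (nat_lit 38) (nat_lit 5) (nat_lit 324) (nat_lit 315) (nat_lit 141)) (XT.nd (nat_lit 78) (nat_lit 228) (nat_lit 0) (XT.lf (nat_lit 0) (nat_lit 48793011023) (nat_lit 304) (nat_lit 187577603163) (nat_lit 76) (nat_lit 191315407782) (nat_lit 37) (nat_lit 5) (nat_lit 41) (nat_lit 5) (nat_lit 38) (nat_lit 5) (nat_lit 325) (nat_lit 315) (nat_lit 140)) (XT.lf (nat_lit 0) (nat_lit 22051264265) (nat_lit 228) (nat_lit 72314506958) (nat_lit 304) (nat_lit 353271551956) (nat_lit 34) (nat_lit 5) (nat_lit 37) (nat_lit 5) (nat_lit 38) (nat_lit 5) (nat_lit 326) (nat_lit 315) (nat_lit 139)))) (XT.nd (nat_lit 156) (nat_lit 152) (nat_lit 0) (XT.nd (nat_lit 78) (nat_lit 228) (nat_lit 0) (XT.lf (nat_lit 0) (nat_lit 151368261673) (nat_lit 304) (nat_lit 212311578107) (nat_lit 76) (nat_lit 104882176058) (nat_lit 34) (nat_lit 5) (nat_lit 38) (nat_lit 5) (nat_lit 35) (nat_lit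 5) (nat_lit 327) (nat_lit 315) (nat_lit 138)) (XT.lf (nat_lit 0) (nat_lit 16996766333) (nat_lit 228) (nat_lit 198221219781) (nat_lit 304) (nat_lit 275759735113) (nat_lit 31) (nat_lit 5) (nat_lit 34) (nat_lit 5) (nat_lit 35) (nat_lit 5) (nat_lit 328) (nat_lit 315) (nat_lit 137))) (XT.nd (nat_lit 78) (nat_lit 152) (nat_lit 0) (XT.lf (nat_lit 0) (nat_lit 276724083952) (nat_lit 228) (nat_lit 13256544303) (nat_lit 304) (nat_lit 224741659702) (nat_lit 31) (nat_lit 5) (nat_lit 34) (nat_lit 5) (nat_lit 35) (nat_lit 5) (nat_lit 329) (nat_lit 315) (nat_lit 136)) (XT.lf (nat_lit 0) (nat_lit 13029454597) (nat_lit 152) (nat_lit 362493610335) (nat_lit 228) (nat_lit 164459452525) (nat_lit 29) (nat_lit 5) (nat_lit 31) (nat_lit 5) (nat_lit 32) (nat_lit 5) (nat_lit 330) (nat_lit 315) (nat_lit 135))))) (XT.nd (nat_lit 312) (nat_lit 304) (nat_lit 0) (XT.nd (nat_lit 156) (nat_lit 76) (nat_lit 0) (XT.nd (nat_lit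 78) (nat_lit 152) (nat_lit 0) (XT.lf (nat_lit 0) (nat_lit 297311996901) (nat_lit 152) (nat_lit 177439769864) (nat_lit 228) (nat_lit 91964369012) (nat_lit 29) (nat_lit 5) (nat_lit 31) (nat_lit 5) (nat_lit 32) (nat_lit 5) (nat_lit 331) (nat_lit 315) (nat_lit 134)) (XT.lf (nat_lit 0) (nat_lit 8641794552) (nat_lit 152) (nat_lit 574023939026) (nat_lit 228) (nat_lit 12862952547) (nat_lit 27) (nat_lit 5) (nat_lit 29) (nat_lit 5) (nat_lit 30) (nat_lit 5) (nat_lit 332) (nat_lit 315) (nat_lit 133))) (XT.nd (nat_lit 78) (nat_lit 0) (nat_lit 0) (XT.lf (nat_lit 0) (nat_lit 81102610627) (nat_lit 228) (nat_lit 308349724356) (nat_lit 76) (nat_lit 236080998750) (nat_lit 26) (nat_lit 5) (nat_lit 29) (nat_lit 5) (nat_lit 27) (nat_lit 5) (nat_lit 333) (nat_lit 315) (nat_lit 132)) (XT.lf (nat_lit 0) (nat_lit 181890458818) (nat_lit 228) (nat_lit 7863723533) (nat_lit 76) (nat_lit 468157444761) (nat_lit 26)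 (nat_lit 5) (nat_lit 29) (nat_lit 5) (nat_lit 27) (nat_lit 5) (nat_lit 334) (nat_lit 315) (nat_lit 131)))) (XT.nd (nat_lit 156) (nat_lit 152) (nat_lit 0) (XT.nd (nat_lit 78) (nat_lit 0) (nat_lit 0) (XT.lf (nat_lit 0) (nat_lit 299589646681) (nat_lit 228) (nat_lit 359734509494) (nat_lit 76) (nat_lit 32848162893) (nat_lit 24) (nat_lit 5) (nat_lit 27) (nat_lit 5) (nat_lit 25) (nat_lit 5) (nat_lit 335) (nat_lit 315) (nat_lit 130)) (XT.lf (nat_lit 0) (nat_lit 431854018636) (nat_lit 228) (nat_lit 33680283344) (nat_lit 76) (nat_lit 263227624524) (nat_lit 24) (nat_lit 5) (nat_lit 27) (nat_lit 5) (nat_lit 25) (nat_lit 5) (nat_lit 336) (nat_lit 315) (nat_lit 129))) (XT.nd (nat_lit 78) (nat_lit 0) (nat_lit 0) (XT.lf (nat_lit 0) (nat_lit 335227695321) (nat_lit 152) (nat_lit 247534057158) (nat_lit 228) (nat_lit 184871973131) (nat_lit 22) (nat_lit 5) (nat_lit 24) (nat_lit 5) (nat_lit 25) (nat_lit 5)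 (nat_lit 337) (nat_lit 315) (nat_lit 128)) (XT.lf (nat_lit 0) (nat_lit 735563708086) (nat_lit 152) (nat_lit 11099254441) (nat_lit 228) (nat_lit 62878637560) (nat_lit 22) (nat_lit 5) (nat_lit 24) (nat_lit 5) (nat_lit 25) (nat_lit 5) (nat_lit 338) (nat_lit 315) (nat_lit 127)))))) (XT.nd (nat_lit 624) (nat_lit 304) (nat_lit 0) (XT.nd (nat_lit 312) (nat_lit 304) (nat_lit 0) (XT.nd (nat_lit 156) (nat_lit 152) (nat_lit 0) (XT.nd (nat_lit 78) (nat_lit 0) (nat_lit 0) (XT.lf (nat_lit 0) (nat_lit 79436109229) (nat_lit 152) (nat_lit 532291436442) (nat_lit 76) (nat_lit 241821460138) (nat_lit 20) (nat_lit 5) (nat_lit 22) (nat_lit 5) (nat_lit 21) (nat_lit 5) (nat_lit 339) (nat_lit 315) (nat_lit 126)) (XT.lf (nat_lit 0) (nat_lit 232102452838) (nat_lit 152) (nat_lit 150570205198) (nat_lit 76) (nat_lit 518084609339) (nat_lit 20) (nat_lit 5) (nat_lit 22) (nat_lit 5) (nat_lit 21) (nat_lit 5) (nat_lit 340)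 (nat_lit 315) (nat_lit 125))) (XT.nd (nat_lit 78) (nat_lit 0) (nat_lit 0) (XT.lf (nat_lit 0) (nat_lit 275468758759) (nat_lit 152) (nat_lit 128138357311) (nat_lit 228) (nat_lit 547605072857) (nat_lit 18) (nat_lit 5) (nat_lit 20) (nat_lit 5) (nat_lit 21) (nat_lit 5) (nat_lit 341) (nat_lit 315) (nat_lit 124)) (XT.lf (nat_lit 0) (nat_lit 596585472176) (nat_lit 228) (nat_lit 264856765375) (nat_lit 76) (nat_lit 143641001096) (nat_lit 18) (nat_lit 5) (nat_lit 21) (nat_lit 5) (nat_lit 19) (nat_lit 4) (nat_lit 342) (nat_lit 315) (nat_lit 123)))) (XT.nd (nat_lit 156) (nat_lit 228) (nat_lit 0) (XT.nd (nat_lit 78) (nat_lit 0) (nat_lit 0) (XT.lf (nat_lit 0) (nat_lit 184817875179) (nat_lit 76) (nat_lit 627957348544) (nat_lit 152) (nat_lit 249866898490) (nat_lit 17) (nat_lit 5) (nat_lit 18) (nat_lit 5) (nat_lit 19) (nat_lit 4) (nat_lit 343) (nat_lit 315) (nat_lit 122)) (XT.lf (nat_lit 0) (nat_lit 685529099559)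 (nat_lit 76) (nat_lit 367972693339) (nat_lit 152) (nat_lit 70724592592) (nat_lit 17) (nat_lit 5) (nat_lit 18) (nat_lit 5) (nat_lit 19) (nat_lit 4) (nat_lit 344) (nat_lit 315) (nat_lit 121))) (XT.nd (nat_lit 78) (nat_lit 0) (nat_lit 0) (XT.lf (nat_lit 0) (nat_lit 34324751163) (nat_lit 152) (nat_lit 83109435639) (nat_lit 228) (nat_lit 1073000993865) (nat_lit 14) (nat_lit 5) (nat_lit 16) (nat_lit 5) (nat_lit 17) (nat_lit 5) (nat_lit 345) (nat_lit 315) (nat_lit 120)) (XT.lf (nat_lit 0) (nat_lit 334531263975) (nat_lit 228) (nat_lit 698392285852) (nat_lit 76) (nat_lit 227453644623) (nat_lit 14) (nat_lit 5) (nat_lit 17) (nat_lit 5) (nat_lit 15) (nat_lit 4) (nat_lit 346) (nat_lit 315) (nat_lit 119))))) (XT.nd (nat_lit 312) (nat_lit 228) (nat_lit 0) (XT.nd (nat_lit 156) (nat_lit 0) (nat_lit 0) (XT.nd (nat_lit 78) (nat_lit 76) (nat_lit 0) (XT.lf (nat_lit 0) (nat_lit 571154780282) (nat_lit 228)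 (nat_lit 206215400971) (nat_lit 76) (nat_lit 558371694265) (nat_lit 14) (nat_lit 5) (nat_lit 17) (nat_lit 5) (nat_lit 15) (nat_lit 4) (nat_lit 347) (nat_lit 315) (nat_lit 118)) (XT.lf (nat_lit 0) (nat_lit 342467209652) (nat_lit 76) (nat_lit 492477300201) (nat_lit 152) (nat_lit 581532314677) (nat_lit 13) (nat_lit 5) (nat_lit 14) (nat_lit 5) (nat_lit 15) (nat_lit 4) (nat_lit 348) (nat_lit 315) (nat_lit 117))) (XT.nd (nat_lit 78) (nat_lit 0) (nat_lit 0) (XT.lf (nat_lit 0) (nat_lit 946772060381) (nat_lit 76) (nat_lit 178703639675) (nat_lit 152) (nat_lit 377743806841) (nat_lit 13) (nat_lit 5) (nat_lit 14) (nat_lit 5) (nat_lit 15) (nat_lit 4) (nat_lit 349) (nat_lit 315) (nat_lit 116)) (XT.lf (nat_lit 0) (nat_lit 1443101512316) (nat_lit 152) (nat_lit 1332463523) (nat_lit 0) (nat_lit 152159457883) (nat_lit 13) (nat_lit 5) (nat_lit 15) (nat_lit 4) (nat_lit 13) (nat_lit 4) (nat_lit 350) (nat_lit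 315) (nat_lit 115)))) (XT.nd (nat_lit 156) (nat_lit 76) (nat_lit 0) (XT.nd (nat_lit 78) (nat_lit 0) (nat_lit 0) (XT.lf (nat_lit 0) (nat_lit 104442064616) (nat_lit 152) (nat_lit 1073702579791) (nat_lit 76) (nat_lit 517507644006) (nat_lit 11) (nat_lit 5) (nat_lit 13) (nat_lit 5) (nat_lit 12) (nat_lit 4) (nat_lit 351) (nat_lit 315) (nat_lit 114)) (XT.lf (nat_lit 0) (nat_lit 374755586545) (nat_lit 152) (nat_lit 511450472476) (nat_lit 76) (nat_lit 916107858811) (nat_lit 11) (nat_lit 5) (nat_lit 13) (nat_lit 5) (nat_lit 12) (nat_lit 4) (nat_lit 352) (nat_lit 315) (nat_lit 113))) (XT.nd (nat_lit 78) (nat_lit 0) (nat_lit 0) (XT.lf (nat_lit 0) (nat_lit 100825484897) (nat_lit 76) (nat_lit 568293550839) (nat_lit 152) (nat_lit 1248195454240) (nat_lit 10) (nat_lit 5) (nat_lit 11) (nat_lit 5) (nat_lit 12) (nat_lit 4) (nat_lit 353) (nat_lit 315) (nat_lit 112)) (XT.lf (nat_lit 0) (nat_lit 791170143236)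 (nat_lit 76) (nat_lit 209845370397) (nat_lit 152) (nat_lit 1039380878045) (nat_lit 10) (nat_lit 5) (nat_lit 11) (nat_lit 5) (nat_lit 12) (nat_lit 4) (nat_lit 354) (nat_lit 315) (nat_lit 111))))))))
noncomputable def xc120 : XT := (XT.nd (nat_lit 39780) (nat_lit 0) (nat_lit 76) (XT.nd (nat_lit 38610) (nat_lit 0) (nat_lit 684) (XT.nd (nat_lit 37986) (nat_lit 0) (nat_lit 1900) (XT.nd (nat_lit 37674) (nat_lit 0) (nat_lit 2660) (XT.nd (nat_lit 78) (nat_lit 76) (nat_lit 0) (XT.lf (nat_lit 0) (nat_lit 1363727256927) (nat_lit 152) (nat_lit 640846043869) (nat_lit 0) (nat_lit 168410460957) (nat_lit 10) (nat_lit 5) (nat_lit 12) (nat_lit 4) (nat_lit 10) (nat_lit 4) (nat_lit 355) (nat_lit 315) (nat_lit 110)) (XT.nd (nat_lit 37518) (nat_lit 0) (nat_lit 2660) (XT.lf (nat_lit 0) (nat_lit 11320321043) (nat_lit 76) (nat_lit 1749858393419) (nat_lit 76) (nat_lit 554541584996) (nat_lit 9) (nat_lit 4) (nat_lit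 10) (nat_lit 5) (nat_lit 10) (nat_lit 4) (nat_lit 356) (nat_lit 315) (nat_lit 109)) (XT.lf (nat_lit 0) (nat_lit 90949657175) (nat_lit 532) (nat_lit 30567134522) (nat_lit 532) (nat_lit 30567134522) (nat_lit 44) (nat_lit 3) (nat_lit 51) (nat_lit 3) (nat_lit 51) (nat_lit 5) (nat_lit 316) (nat_lit 316) (nat_lit 148)))) (XT.nd (nat_lit 156) (nat_lit 0) (nat_lit 76) (XT.nd (nat_lit 78) (nat_lit 0) (nat_lit 76) (XT.lf (nat_lit 76) (nat_lit 80902894440) (nat_lit 0) (nat_lit 110218753707) (nat_lit 532) (nat_lit 125057207385) (nat_lit 45) (nat_lit 5) (nat_lit 44) (nat_lit 3) (nat_lit 51) (nat_lit 5) (nat_lit 317) (nat_lit 316) (nat_lit 147)) (XT.lf (nat_lit 0) (nat_lit 203595611453) (nat_lit 456) (nat_lit 92079657425) (nat_lit 532) (nat_lit 33274362781) (nat_lit 45) (nat_lit 5) (nat_lit 51) (nat_lit 5) (nat_lit 52) (nat_lit 5) (nat_lit 318) (nat_lit 316) (nat_lit 146))) (XT.nd (nat_lit 78) (nat_lit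 0) (nat_lit 0) (XT.lf (nat_lit 76) (nat_lit 62853681760) (nat_lit 0) (nat_lit 158588207490) (nat_lit 532) (nat_lit 120950229027) (nat_lit 46) (nat_lit 5) (nat_lit 45) (nat_lit 5) (nat_lit 52) (nat_lit 5) (nat_lit 319) (nat_lit 316) (nat_lit 145)) (XT.lf (nat_lit 76) (nat_lit 235418301069) (nat_lit 0) (nat_lit 7815132820) (nat_lit 532) (nat_lit 113475164946) (nat_lit 46) (nat_lit 5) (nat_lit 45) (nat_lit 5) (nat_lit 52) (nat_lit 5) (nat_lit 320) (nat_lit 316) (nat_lit 144))))) (XT.nd (nat_lit 312) (nat_lit 532) (nat_lit 0) (XT.nd (nat_lit 156) (nat_lit 380) (nat_lit 0) (XT.nd (nat_lit 78) (nat_lit 0) (nat_lit 0) (XT.lf (nat_lit 76) (nat_lit 48305877499) (nat_lit 0) (nat_lit 223352359916) (nat_lit 532) (nat_lit 100120965766) (nat_lit 47) (nat_lit 5) (nat_lit 46) (nat_lit 5) (nat_lit 53) (nat_lit 5) (nat_lit 321) (nat_lit 316) (nat_lit 143)) (XT.lf (nat_lit 76) (nat_lit 238153914351) (nat_lit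 0) (nat_lit 67717205084) (nat_lit 532) (nat_lit 81903209056) (nat_lit 47) (nat_lit 5) (nat_lit 46) (nat_lit 5) (nat_lit 53) (nat_lit 5) (nat_lit 322) (nat_lit 316) (nat_lit 142))) (XT.nd (nat_lit 78) (nat_lit 0) (nat_lit 0) (XT.lf (nat_lit 0) (nat_lit 37608129523) (nat_lit 456) (nat_lit 308531204954) (nat_lit 532) (nat_lit 58644265298) (nat_lit 41) (nat_lit 5) (nat_lit 47) (nat_lit 5) (nat_lit 48) (nat_lit 5) (nat_lit 323) (nat_lit 316) (nat_lit 141)) (XT.lf (nat_lit 0) (nat_lit 246472454236) (nat_lit 456) (nat_lit 148961756666) (nat_lit 532) (nat_lit 27254985656) (nat_lit 41) (nat_lit 5) (nat_lit 47) (nat_lit 5) (nat_lit 48) (nat_lit 5) (nat_lit 324) (nat_lit 316) (nat_lit 140)))) (XT.nd (nat_lit 156) (nat_lit 228) (nat_lit 0) (XT.nd (nat_lit 78) (nat_lit 0) (nat_lit 0) (XT.lf (nat_lit 0) (nat_lit 7654796290) (nat_lit 304) (nat_lit 411108763100) (nat_lit 76) (nat_lit 23143552649) (nat_lit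 37) (nat_lit 5) (nat_lit 41) (nat_lit 5) (nat_lit 38) (nat_lit 5) (nat_lit 325) (nat_lit 316) (nat_lit 139)) (XT.lf (nat_lit 0) (nat_lit 52697204509) (nat_lit 304) (nat_lit 202583008992) (nat_lit 76) (nat_lit 206620627959) (nat_lit 37) (nat_lit 5) (nat_lit 41) (nat_lit 5) (nat_lit 38) (nat_lit 5) (nat_lit 326) (nat_lit 316) (nat_lit 138))) (XT.nd (nat_lit 78) (nat_lit 0) (nat_lit 0) (XT.lf (nat_lit 0) (nat_lit 23816147515) (nat_lit 228) (nat_lit 78099601071) (nat_lit 304) (nat_lit 381532501289) (nat_lit 34) (nat_lit 5) (nat_lit 37) (nat_lit 5) (nat_lit 38) (nat_lit 5) (nat_lit 327) (nat_lit 316) (nat_lit 137)) (XT.lf (nat_lit 0) (nat_lit 163478386739) (nat_lit 304) (nat_lit 229295726884) (nat_lit 76) (nat_lit 113272808588) (nat_lit 34) (nat_lit 5) (nat_lit 38) (nat_lit 5) (nat_lit 35) (nat_lit 5) (nat_lit 328) (nat_lit 316) (nat_lit 136)))))) (XT.nd (nat_lit 546) (nat_lit 608) (nat_lit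 0) (XT.nd (nat_lit 234) (nat_lit 228) (nat_lit 0) (XT.nd (nat_lit 78) (nat_lit 152) (nat_lit 0) (XT.lf (nat_lit 0) (nat_lit 18357265429) (nat_lit 228) (nat_lit 214078792737) (nat_lit 304) (nat_lit 297819828473) (nat_lit 31) (nat_lit 5) (nat_lit 34) (nat_lit 5) (nat_lit 35) (nat_lit 5) (nat_lit 329) (nat_lit 316) (nat_lit 135)) (XT.nd (nat_lit 78) (nat_lit 152) (nat_lit 0) (XT.lf (nat_lit 0) (nat_lit 298862712325) (nat_lit 228) (nat_lit 14316952453) (nat_lit 304) (nat_lit 242720357804) (nat_lit 31) (nat_lit 5) (nat_lit 34) (nat_lit 5) (nat_lit 35) (nat_lit 5) (nat_lit 330) (nat_lit 316) (nat_lit 134)) (XT.lf (nat_lit 0) (nat_lit 14072539340) (nat_lit 152) (nat_lit 391492933708) (nat_lit 228) (nat_lit 177615599371) (nat_lit 29) (nat_lit 5) (nat_lit 31) (nat_lit 5) (nat_lit 32) (nat_lit 5) (nat_lit 331) (nat_lit 316) (nat_lit 133)))) (XT.nd (nat_lit 156) (nat_lit 76) (nat_lit 0) (XT.nd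 (nat_lit 78) (nat_lit 152) (nat_lit 0) (XT.lf (nat_lit 0) (nat_lit 321097631074) (nat_lit 152) (nat_lit 191634798255) (nat_lit 228) (nat_lit 99320954314) (nat_lit 29) (nat_lit 5) (nat_lit 31) (nat_lit 5) (nat_lit 32) (nat_lit 5) (nat_lit 332) (nat_lit 316) (nat_lit 132)) (XT.lf (nat_lit 0) (nat_lit 9333833779) (nat_lit 152) (nat_lit 619945661243) (nat_lit 228) (nat_lit 13891444573) (nat_lit 27) (nat_lit 5) (nat_lit 29) (nat_lit 5) (nat_lit 30) (nat_lit 5) (nat_lit 333) (nat_lit 316) (nat_lit 131))) (XT.nd (nat_lit 78) (nat_lit 0) (nat_lit 0) (XT.lf (nat_lit 0) (nat_lit 87591298140) (nat_lit 228) (nat_lit 333017031937) (nat_lit 76) (nat_lit 254967631032) (nat_lit 26) (nat_lit 5) (nat_lit 29) (nat_lit 5) (nat_lit 27) (nat_lit 5) (nat_lit 334) (nat_lit 316) (nat_lit 130)) (XT.lf (nat_lit 0) (nat_lit 196442138730) (nat_lit 228) (nat_lit 8492200706) (nat_lit 76) (nat_lit 505610181435) (nat_lit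 26) (nat_lit 5) (nat_lit 29) (nat_lit 5) (nat_lit 27) (nat_lit 5) (nat_lit 335) (nat_lit 316) (nat_lit 129))))) (XT.nd (nat_lit 312) (nat_lit 304) (nat_lit 0) (XT.nd (nat_lit 156) (nat_lit 152) (nat_lit 0) (XT.nd (nat_lit 78) (nat_lit 0) (nat_lit 0) (XT.lf (nat_lit 0) (nat_lit 323557247673) (nat_lit 228) (nat_lit 388512634712) (nat_lit 76) (nat_lit 35476186985) (nat_lit 24) (nat_lit 5) (nat_lit 27) (nat_lit 5) (nat_lit 25) (nat_lit 5) (nat_lit 336) (nat_lit 316) (nat_lit 128)) (XT.lf (nat_lit 0) (nat_lit 466402737587) (nat_lit 228) (nat_lit 36374117548) (nat_lit 76) (nat_lit 284285992876) (nat_lit 24) (nat_lit 5) (nat_lit 27) (nat_lit 5) (nat_lit 25) (nat_lit 5) (nat_lit 337) (nat_lit 316) (nat_lit 127))) (XT.nd (nat_lit 78) (nat_lit 0) (nat_lit 0) (XT.lf (nat_lit 0) (nat_lit 362046484513) (nat_lit 152) (nat_lit 267336589978) (nat_lit 228) (nat_lit 199661317867) (nat_lit 22) (nat_lit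 5) (nat_lit 24) (nat_lit 5) (nat_lit 25) (nat_lit 5) (nat_lit 338) (nat_lit 316) (nat_lit 126)) (XT.lf (nat_lit 0) (nat_lit 794409335813) (nat_lit 152) (nat_lit 11987017247) (nat_lit 228) (nat_lit 67908546051) (nat_lit 22) (nat_lit 5) (nat_lit 24) (nat_lit 5) (nat_lit 25) (nat_lit 5) (nat_lit 339) (nat_lit 316) (nat_lit 125)))) (XT.nd (nat_lit 156) (nat_lit 152) (nat_lit 0) (XT.nd (nat_lit 78) (nat_lit 0) (nat_lit 0) (XT.lf (nat_lit 0) (nat_lit 85791351852) (nat_lit 152) (nat_lit 574874190400) (nat_lit 76) (nat_lit 261167355111) (nat_lit 20) (nat_lit 5) (nat_lit 22) (nat_lit 5) (nat_lit 21) (nat_lit 5) (nat_lit 340) (nat_lit 316) (nat_lit 124)) (XT.lf (nat_lit 0) (nat_lit 250670976737) (nat_lit 152) (nat_lit 162615302209) (nat_lit 76) (nat_lit 559531543050) (nat_lit 20) (nat_lit 5) (nat_lit 22) (nat_lit 5) (nat_lit 21) (nat_lit 5) (nat_lit 341) (nat_lit 316) (nat_lit 123))) (XT.nd (nat_lit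 78) (nat_lit 0) (nat_lit 0) (XT.lf (nat_lit 0) (nat_lit 297506765716) (nat_lit 152) (nat_lit 138389235215) (nat_lit 228) (nat_lit 591413137350) (nat_lit 18) (nat_lit 5) (nat_lit 20) (nat_lit 5) (nat_lit 21) (nat_lit 5) (nat_lit 342) (nat_lit 316) (nat_lit 122)) (XT.lf (nat_lit 0) (nat_lit 644312606396) (nat_lit 228) (nat_lit 286044818243) (nat_lit 76) (nat_lit 155132448908) (nat_lit 18) (nat_lit 5) (nat_lit 21) (nat_lit 5) (nat_lit 19) (nat_lit 4) (nat_lit 343) (nat_lit 316) (nat_lit 121))))))) (XT.nd (nat_lit 38688) (nat_lit 0) (nat_lit 1292) (XT.nd (nat_lit 546) (nat_lit 228) (nat_lit 0) (XT.nd (nat_lit 234) (nat_lit 76) (nat_lit 0) (XT.nd (nat_lit 78) (nat_lit 228) (nat_lit 0) (XT.lf (nat_lit 0) (nat_lit 199603781192) (nat_lit 76) (nat_lit 678193746363) (nat_lit 152) (nat_lit 269855941120) (nat_lit 17) (nat_lit 5) (nat_lit 18) (nat_lit 5) (nat_lit 19) (nat_lit 4) (nat_lit 344) (nat_lit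 316) (nat_lit 120)) (XT.nd (nat_lit 78) (nat_lit 228) (nat_lit 0) (XT.lf (nat_lit 0) (nat_lit 740371868263) (nat_lit 76) (nat_lit 397410332821) (nat_lit 152) (nat_lit 76382273657) (nat_lit 17) (nat_lit 5) (nat_lit 18) (nat_lit 5) (nat_lit 19) (nat_lit 4) (nat_lit 345) (nat_lit 316) (nat_lit 119)) (XT.lf (nat_lit 0) (nat_lit 37071175167) (nat_lit 152) (nat_lit 89758009124) (nat_lit 228) (nat_lit 1158840789475) (nat_lit 14) (nat_lit 5) (nat_lit 16) (nat_lit 5) (nat_lit 17) (nat_lit 5) (nat_lit 346) (nat_lit 316) (nat_lit 118)))) (XT.nd (nat_lit 156) (nat_lit 76) (nat_lit 0) (XT.nd (nat_lit 78) (nat_lit 0) (nat_lit 0) (XT.lf (nat_lit 0) (nat_lit 361294012229) (nat_lit 228) (nat_lit 754263241958) (nat_lit 76) (nat_lit 245650095724) (nat_lit 14) (nat_lit 5) (nat_lit 17) (nat_lit 5) (nat_lit 15) (nat_lit 4) (nat_lit 347) (nat_lit 316) (nat_lit 117)) (XT.lf (nat_lit 0) (nat_lit 616847391534)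 (nat_lit 228) (nat_lit 222712237898) (nat_lit 76) (nat_lit 603041577520) (nat_lit 14) (nat_lit 5) (nat_lit 17) (nat_lit 5) (nat_lit 15) (nat_lit 4) (nat_lit 348) (nat_lit 316) (nat_lit 116))) (XT.nd (nat_lit 78) (nat_lit 0) (nat_lit 0) (XT.lf (nat_lit 0) (nat_lit 369864971571) (nat_lit 76) (nat_lit 531875320213) (nat_lit 152) (nat_lit 628054660740) (nat_lit 13) (nat_lit 5) (nat_lit 14) (nat_lit 5) (nat_lit 15) (nat_lit 4) (nat_lit 349) (nat_lit 316) (nat_lit 115)) (XT.lf (nat_lit 0) (nat_lit 1022514181829) (nat_lit 76) (nat_lit 192999778993) (nat_lit 152) (nat_lit 407963089989) (nat_lit 13) (nat_lit 5) (nat_lit 14) (nat_lit 5) (nat_lit 15) (nat_lit 4) (nat_lit 350) (nat_lit 316) (nat_lit 114))))) (XT.nd (nat_lit 312) (nat_lit 0) (nat_lit 0) (XT.nd (nat_lit 156) (nat_lit 76) (nat_lit 0) (XT.nd (nat_lit 78) (nat_lit 152) (nat_lit 0) (XT.lf (nat_lit 0) (nat_lit 1558549826276) (nat_lit 152)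 (nat_lit 1438718380) (nat_lit 0) (nat_lit 164332348087) (nat_lit 13) (nat_lit 5) (nat_lit 15) (nat_lit 4) (nat_lit 13) (nat_lit 4) (nat_lit 351) (nat_lit 316) (nat_lit 113)) (XT.lf (nat_lit 0) (nat_lit 112797621548) (nat_lit 152) (nat_lit 1159598442310) (nat_lit 76) (nat_lit 558908392083) (nat_lit 11) (nat_lit 5) (nat_lit 13) (nat_lit 5) (nat_lit 12) (nat_lit 4) (nat_lit 352) (nat_lit 316) (nat_lit 112))) (XT.nd (nat_lit 78) (nat_lit 76) (nat_lit 0) (XT.lf (nat_lit 0) (nat_lit 404736211027) (nat_lit 152) (nat_lit 552366191882) (nat_lit 76) (nat_lit 989396613957) (nat_lit 11) (nat_lit 5) (nat_lit 13) (nat_lit 5) (nat_lit 12) (nat_lit 4) (nat_lit 353) (nat_lit 316) (nat_lit 111)) (XT.lf (nat_lit 0) (nat_lit 108891834021) (nat_lit 76) (nat_lit 613756896443) (nat_lit 152) (nat_lit 1348050904786) (nat_lit 10) (nat_lit 5) (nat_lit 11) (nat_lit 5) (nat_lit 12) (nat_lit 4) (nat_lit 354) (nat_lit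 316) (nat_lit 110)))) (XT.nd (nat_lit 37674) (nat_lit 0) (nat_lit 2584) (XT.nd (nat_lit 78) (nat_lit 0) (nat_lit 0) (XT.lf (nat_lit 0) (nat_lit 854464042039) (nat_lit 76) (nat_lit 226632871822) (nat_lit 152) (nat_lit 1122531176258) (nat_lit 10) (nat_lit 5) (nat_lit 11) (nat_lit 5) (nat_lit 12) (nat_lit 4) (nat_lit 355) (nat_lit 316) (nat_lit 109)) (XT.lf (nat_lit 0) (nat_lit 1472825587685) (nat_lit 152) (nat_lit 692113452236) (nat_lit 0) (nat_lit 181883410605) (nat_lit 10) (nat_lit 5) (nat_lit 12) (nat_lit 4) (nat_lit 10) (nat_lit 4) (nat_lit 356) (nat_lit 316) (nat_lit 108))) (XT.nd (nat_lit 78) (nat_lit 0) (nat_lit 0) (XT.lf (nat_lit 0) (nat_lit 98226258911) (nat_lit 532) (nat_lit 33012164508) (nat_lit 532) (nat_lit 33012164508) (nat_lit 44) (nat_lit 3) (nat_lit 51) (nat_lit 3) (nat_lit 51) (nat_lit 5) (nat_lit 317) (nat_lit 317) (nat_lit 146)) (XT.lf (nat_lit 76) (nat_lit 87375790292)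 (nat_lit 0) (nat_lit 119036770799) (nat_lit 532) (nat_lit 135060504589) (nat_lit 45) (nat_lit 5) (nat_lit 44) (nat_lit 3) (nat_lit 51) (nat_lit 5) (nat_lit 318) (nat_lit 317) (nat_lit 145)))))) (XT.nd (nat_lit 624) (nat_lit 760) (nat_lit 0) (XT.nd (nat_lit 312) (nat_lit 608) (nat_lit 0) (XT.nd (nat_lit 156) (nat_lit 0) (nat_lit 0) (XT.nd (nat_lit 78) (nat_lit 0) (nat_lit 0) (XT.lf (nat_lit 0) (nat_lit 219884342465) (nat_lit 456) (nat_lit 99445312406) (nat_lit 532) (nat_lit 35935857227) (nat_lit 45) (nat_lit 5) (nat_lit 51) (nat_lit 5) (nat_lit 52) (nat_lit 5) (nat_lit 319) (nat_lit 317) (nat_lit 144)) (XT.lf (nat_lit 76) (nat_lit 67882675746) (nat_lit 0) (nat_lit 171275583407) (nat_lit 532) (nat_lit 130625143821) (nat_lit 46) (nat_lit 5) (nat_lit 45) (nat_lit 5) (nat_lit 52) (nat_lit 5) (nat_lit 320) (nat_lit 317) (nat_lit 143))) (XT.nd (nat_lit 78) (nat_lit 0) (nat_lit 76) (XT.lf (nat_lit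 76) (nat_lit 254252412789) (nat_lit 0) (nat_lit 8440639110) (nat_lit 532) (nat_lit 122552156357) (nat_lit 46) (nat_lit 5) (nat_lit 45) (nat_lit 5) (nat_lit 52) (nat_lit 5) (nat_lit 321) (nat_lit 317) (nat_lit 142)) (XT.lf (nat_lit 76) (nat_lit 52171062368) (nat_lit 0) (nat_lit 241220718069) (nat_lit 532) (nat_lit 108129685478) (nat_lit 47) (nat_lit 5) (nat_lit 46) (nat_lit 5) (nat_lit 53) (nat_lit 5) (nat_lit 322) (nat_lit 317) (nat_lit 141)))) (XT.nd (nat_lit 156) (nat_lit 304) (nat_lit 0) (XT.nd (nat_lit 78) (nat_lit 380) (nat_lit 0) (XT.lf (nat_lit 76) (nat_lit 257206889230) (nat_lit 0) (nat_lit 73134738305) (nat_lit 532) (nat_lit 88454579161) (nat_lit 47) (nat_lit 5) (nat_lit 46) (nat_lit 5) (nat_lit 53) (nat_lit 5) (nat_lit 323) (nat_lit 317) (nat_lit 140)) (XT.lf (nat_lit 0) (nat_lit 40617494890) (nat_lit 456) (nat_lit 333213757961) (nat_lit 532) (nat_lit 63334970777) (nat_lit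 41) (nat_lit 5) (nat_lit 47) (nat_lit 5) (nat_lit 48) (nat_lit 5) (nat_lit 324) (nat_lit 317) (nat_lit 139))) (XT.nd (nat_lit 78) (nat_lit 304) (nat_lit 0) (XT.lf (nat_lit 0) (nat_lit 266190912616) (nat_lit 456) (nat_lit 160878749616) (nat_lit 532) (nat_lit 29434610672) (nat_lit 41) (nat_lit 5) (nat_lit 47) (nat_lit 5) (nat_lit 48) (nat_lit 5) (nat_lit 325) (nat_lit 317) (nat_lit 138)) (XT.lf (nat_lit 0) (nat_lit 8267876849) (nat_lit 304) (nat_lit 443996721163) (nat_lit 76) (nat_lit 24995025337) (nat_lit 37) (nat_lit 5) (nat_lit 41) (nat_lit 5) (nat_lit 38) (nat_lit 5) (nat_lit 326) (nat_lit 317) (nat_lit 137))))) (XT.nd (nat_lit 312) (nat_lit 304) (nat_lit 0) (XT.nd (nat_lit 156) (nat_lit 228) (nat_lit 0) (XT.nd (nat_lit 78) (nat_lit 228) (nat_lit 0) (XT.lf (nat_lit 0) (nat_lit 56913626106) (nat_lit 304) (nat_lit 218788961762) (nat_lit 76) (nat_lit 223150267526) (nat_lit 37) (nat_lit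 5) (nat_lit 41) (nat_lit 5) (nat_lit 38) (nat_lit 5) (nat_lit 327) (nat_lit 317) (nat_lit 136)) (XT.lf (nat_lit 0) (nat_lit 25722109849) (nat_lit 228) (nat_lit 84347512192) (nat_lit 304) (nat_lit 412054437106) (nat_lit 34) (nat_lit 5) (nat_lit 37) (nat_lit 5) (nat_lit 38) (nat_lit 5) (nat_lit 328) (nat_lit 317) (nat_lit 135))) (XT.nd (nat_lit 78) (nat_lit 228) (nat_lit 0) (XT.lf (nat_lit 0) (nat_lit 176557227066) (nat_lit 304) (nat_lit 247638718478) (nat_lit 76) (nat_lit 122334683381) (nat_lit 34) (nat_lit 5) (nat_lit 38) (nat_lit 5) (nat_lit 35) (nat_lit 5) (nat_lit 329) (nat_lit 317) (nat_lit 134)) (XT.lf (nat_lit 0) (nat_lit 19826496345) (nat_lit 228) (nat_lit 231204989309) (nat_lit 304) (nat_lit 321644827089) (nat_lit 31) (nat_lit 5) (nat_lit 34) (nat_lit 5) (nat_lit 35) (nat_lit 5) (nat_lit 330) (nat_lit 317) (nat_lit 133)))) (XT.nd (nat_lit 156) (nat_lit 152) (nat_lit 0) (XT.nd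 (nat_lit 78) (nat_lit 152) (nat_lit 0) (XT.lf (nat_lit 0) (nat_lit 322772330868) (nat_lit 228) (nat_lit 15462209716) (nat_lit 304) (nat_lit 262137442297) (nat_lit 31) (nat_lit 5) (nat_lit 34) (nat_lit 5) (nat_lit 35) (nat_lit 5) (nat_lit 331) (nat_lit 317) (nat_lit 132)) (XT.lf (nat_lit 0) (nat_lit 15198966952) (nat_lit 152) (nat_lit 422812226555) (nat_lit 228) (nat_lit 191824324896) (nat_lit 29) (nat_lit 5) (nat_lit 31) (nat_lit 5) (nat_lit 32) (nat_lit 5) (nat_lit 332) (nat_lit 317) (nat_lit 131))) (XT.nd (nat_lit 78) (nat_lit 152) (nat_lit 0) (XT.lf (nat_lit 0) (nat_lit 346786019768) (nat_lit 152) (nat_lit 206965450773) (nat_lit 228) (nat_lit 107266146933) (nat_lit 29) (nat_lit 5) (nat_lit 31) (nat_lit 5) (nat_lit 32) (nat_lit 5) (nat_lit 333) (nat_lit 317) (nat_lit 130)) (XT.lf (nat_lit 0) (nat_lit 10081136900) (nat_lit 152) (nat_lit 669541148757) (nat_lit 228) (nat_lit 15002293594)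 (nat_lit 27) (nat_lit 5) (nat_lit 29) (nat_lit 5) (nat_lit 30) (nat_lit 5) (nat_lit 334) (nat_lit 317) (nat_lit 129))))))))
noncomputable def xc121 : XT := (XT.nd (nat_lit 40014) (nat_lit 0) (nat_lit 76) (XT.nd (nat_lit 1170) (nat_lit 304) (nat_lit 0) (XT.nd (nat_lit 546) (nat_lit 456) (nat_lit 0) (XT.nd (nat_lit 234) (nat_lit 304) (nat_lit 0) (XT.nd (nat_lit 78) (nat_lit 152) (nat_lit 0) (XT.lf (nat_lit 0) (nat_lit 94599012367) (nat_lit 228) (nat_lit 359657819761) (nat_lit 76) (nat_lit 275365172157) (nat_lit 26) (nat_lit 5) (nat_lit 29) (nat_lit 5) (nat_lit 27) (nat_lit 5) (nat_lit 335) (nat_lit 317) (nat_lit 128)) (XT.nd (nat_lit 78) (nat_lit 152) (nat_lit 0) (XT.lf (nat_lit 0) (nat_lit 212157889806) (nat_lit 228) (nat_lit 9171044603) (nat_lit 76) (nat_lit 546059116916) (nat_lit 26) (nat_lit 5) (nat_lit 29) (nat_lit 5) (nat_lit 27) (nat_lit 5) (nat_lit 336) (nat_lit 317) (nat_lit 127))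 (XT.lf (nat_lit 0) (nat_lit 349442195506) (nat_lit 228) (nat_lit 419593100615) (nat_lit 76) (nat_lit 38314428602) (nat_lit 24) (nat_lit 5) (nat_lit 27) (nat_lit 5) (nat_lit 25) (nat_lit 5) (nat_lit 337) (nat_lit 317) (nat_lit 126)))) (XT.nd (nat_lit 156) (nat_lit 152) (nat_lit 0) (XT.nd (nat_lit 78) (nat_lit 152) (nat_lit 0) (XT.lf (nat_lit 0) (nat_lit 503715297353) (nat_lit 228) (nat_lit 39283542438) (nat_lit 76) (nat_lit 307029008100) (nat_lit 24) (nat_lit 5) (nat_lit 27) (nat_lit 5) (nat_lit 25) (nat_lit 5) (nat_lit 338) (nat_lit 317) (nat_lit 125)) (XT.lf (nat_lit 0) (nat_lit 391010695015) (nat_lit 152) (nat_lit 288723352778) (nat_lit 228) (nat_lit 215633869117) (nat_lit 22) (nat_lit 5) (nat_lit 24) (nat_lit 5) (nat_lit 25) (nat_lit 5) (nat_lit 339) (nat_lit 317) (nat_lit 124))) (XT.nd (nat_lit 78) (nat_lit 152) (nat_lit 0) (XT.lf (nat_lit 0) (nat_lit 857962537994) (nat_lit 152)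 (nat_lit 12945826407) (nat_lit 228) (nat_lit 73340901791) (nat_lit 22) (nat_lit 5) (nat_lit 24) (nat_lit 5) (nat_lit 25) (nat_lit 5) (nat_lit 340) (nat_lit 317) (nat_lit 123)) (XT.lf (nat_lit 0) (nat_lit 92654963400) (nat_lit 152) (nat_lit 620863644702) (nat_lit 76) (nat_lit 282060896264) (nat_lit 20) (nat_lit 5) (nat_lit 22) (nat_lit 5) (nat_lit 21) (nat_lit 5) (nat_lit 341) (nat_lit 317) (nat_lit 122))))) (XT.nd (nat_lit 312) (nat_lit 228) (nat_lit 0) (XT.nd (nat_lit 156) (nat_lit 76) (nat_lit 0) (XT.nd (nat_lit 78) (nat_lit 152) (nat_lit 0) (XT.lf (nat_lit 0) (nat_lit 270724935801) (nat_lit 152) (nat_lit 175624081080) (nat_lit 76) (nat_lit 604294207924) (nat_lit 20) (nat_lit 5) (nat_lit 22) (nat_lit 5) (nat_lit 21) (nat_lit 5) (nat_lit 342) (nat_lit 317) (nat_lit 121)) (XT.lf (nat_lit 0) (nat_lit 321307741006) (nat_lit 152) (nat_lit 149460210554) (nat_lit 228) (nat_lit 638725895698)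 (nat_lit 18) (nat_lit 5) (nat_lit 20) (nat_lit 5) (nat_lit 21) (nat_lit 5) (nat_lit 343) (nat_lit 317) (nat_lit 120))) (XT.nd (nat_lit 78) (nat_lit 76) (nat_lit 0) (XT.lf (nat_lit 0) (nat_lit 695857869061) (nat_lit 228) (nat_lit 308927985011) (nat_lit 76) (nat_lit 167543188617) (nat_lit 18) (nat_lit 5) (nat_lit 21) (nat_lit 5) (nat_lit 19) (nat_lit 4) (nat_lit 344) (nat_lit 317) (nat_lit 119)) (XT.lf (nat_lit 0) (nat_lit 215572491779) (nat_lit 76) (nat_lit 732449083123) (nat_lit 152) (nat_lit 291444151277) (nat_lit 17) (nat_lit 5) (nat_lit 18) (nat_lit 5) (nat_lit 19) (nat_lit 4) (nat_lit 345) (nat_lit 317) (nat_lit 118)))) (XT.nd (nat_lit 156) (nat_lit 0) (nat_lit 0) (XT.nd (nat_lit 78) (nat_lit 228) (nat_lit 0) (XT.lf (nat_lit 0) (nat_lit 799601995587) (nat_lit 76) (nat_lit 429203008567) (nat_lit 152) (nat_lit 82492610057) (nat_lit 17) (nat_lit 5) (nat_lit 18) (nat_lit 5) (nat_lit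 19) (nat_lit 4) (nat_lit 346) (nat_lit 317) (nat_lit 117)) (XT.lf (nat_lit 0) (nat_lit 40037249763) (nat_lit 152) (nat_lit 96938494362) (nat_lit 228) (nat_lit 1251547809236) (nat_lit 14) (nat_lit 5) (nat_lit 16) (nat_lit 5) (nat_lit 17) (nat_lit 5) (nat_lit 347) (nat_lit 317) (nat_lit 116))) (XT.nd (nat_lit 78) (nat_lit 0) (nat_lit 0) (XT.lf (nat_lit 0) (nat_lit 390197745087) (nat_lit 228) (nat_lit 814603935434) (nat_lit 76) (nat_lit 265302240154) (nat_lit 14) (nat_lit 5) (nat_lit 17) (nat_lit 5) (nat_lit 15) (nat_lit 4) (nat_lit 348) (nat_lit 317) (nat_lit 115)) (XT.lf (nat_lit 0) (nat_lit 666195379041) (nat_lit 228) (nat_lit 240528878152) (nat_lit 76) (nat_lit 651285030363) (nat_lit 14) (nat_lit 5) (nat_lit 17) (nat_lit 5) (nat_lit 15) (nat_lit 4) (nat_lit 349) (nat_lit 317) (nat_lit 114)))))) (XT.nd (nat_lit 38220) (nat_lit 0) (nat_lit 2356) (XT.nd (nat_lit 234) (nat_lit 228) (nat_lit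 0) (XT.nd (nat_lit 78) (nat_lit 0) (nat_lit 0) (XT.lf (nat_lit 0) (nat_lit 399454499498) (nat_lit 76) (nat_lit 574425205222) (nat_lit 152) (nat_lit 678298828599) (nat_lit 13) (nat_lit 5) (nat_lit 14) (nat_lit 5) (nat_lit 15) (nat_lit 4) (nat_lit 350) (nat_lit 317) (nat_lit 113)) (XT.nd (nat_lit 78) (nat_lit 0) (nat_lit 0) (XT.lf (nat_lit 0) (nat_lit 1104315622117) (nat_lit 76) (nat_lit 208439631121) (nat_lit 152) (nat_lit 440599947374) (nat_lit 13) (nat_lit 5) (nat_lit 14) (nat_lit 5) (nat_lit 15) (nat_lit 4) (nat_lit 351) (nat_lit 317) (nat_lit 112)) (XT.lf (nat_lit 0) (nat_lit 1683233977824) (nat_lit 152) (nat_lit 1553522447) (nat_lit 0) (nat_lit 177479050452) (nat_lit 13) (nat_lit 5) (nat_lit 15) (nat_lit 4) (nat_lit 13) (nat_lit 4) (nat_lit 352) (nat_lit 317) (nat_lit 111)))) (XT.nd (nat_lit 156) (nat_lit 76) (nat_lit 0) (XT.nd (nat_lit 78) (nat_lit 0) (nat_lit 0) (XT.lf (nat_lit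 0) (nat_lit 121821595677) (nat_lit 152) (nat_lit 1252366022887) (nat_lit 76) (nat_lit 603621180525) (nat_lit 11) (nat_lit 5) (nat_lit 13) (nat_lit 5) (nat_lit 12) (nat_lit 4) (nat_lit 353) (nat_lit 317) (nat_lit 110)) (XT.lf (nat_lit 0) (nat_lit 437115260136) (nat_lit 152) (nat_lit 596555214263) (nat_lit 76) (nat_lit 1068548451476) (nat_lit 11) (nat_lit 5) (nat_lit 13) (nat_lit 5) (nat_lit 12) (nat_lit 4) (nat_lit 354) (nat_lit 317) (nat_lit 109))) (XT.nd (nat_lit 37752) (nat_lit 0) (nat_lit 2584) (XT.lf (nat_lit 0) (nat_lit 117603446802) (nat_lit 76) (nat_lit 662857329448) (nat_lit 152) (nat_lit 1455894817881) (nat_lit 10) (nat_lit 5) (nat_lit 11) (nat_lit 5) (nat_lit 12) (nat_lit 4) (nat_lit 355) (nat_lit 317) (nat_lit 108)) (XT.lf (nat_lit 0) (nat_lit 106084899030) (nat_lit 532) (nat_lit 35652845508) (nat_lit 532) (nat_lit 35652845508) (nat_lit 44) (nat_lit 3) (nat_lit 51) (nat_lit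 3) (nat_lit 51) (nat_lit 5) (nat_lit 318) (nat_lit 318) (nat_lit 144))))) (XT.nd (nat_lit 312) (nat_lit 228) (nat_lit 0) (XT.nd (nat_lit 156) (nat_lit 0) (nat_lit 76) (XT.nd (nat_lit 78) (nat_lit 0) (nat_lit 76) (XT.lf (nat_lit 76) (nat_lit 94366423043) (nat_lit 0) (nat_lit 128560155531) (nat_lit 532) (nat_lit 145864248088) (nat_lit 45) (nat_lit 5) (nat_lit 44) (nat_lit 3) (nat_lit 51) (nat_lit 5) (nat_lit 319) (nat_lit 318) (nat_lit 143)) (XT.lf (nat_lit 0) (nat_lit 237476017585) (nat_lit 456) (nat_lit 107400322162) (nat_lit 532) (nat_lit 38810336079) (nat_lit 45) (nat_lit 5) (nat_lit 51) (nat_lit 5) (nat_lit 52) (nat_lit 5) (nat_lit 320) (nat_lit 318) (nat_lit 142))) (XT.nd (nat_lit 78) (nat_lit 0) (nat_lit 0) (XT.lf (nat_lit 76) (nat_lit 73313889467) (nat_lit 0) (nat_lit 184977903842) (nat_lit 532) (nat_lit 141074209230) (nat_lit 46) (nat_lit 5) (nat_lit 45) (nat_lit 5) (nat_lit 52)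 (nat_lit 5) (nat_lit 321) (nat_lit 318) (nat_lit 141)) (XT.lf (nat_lit 76) (nat_lit 274593161054) (nat_lit 0) (nat_lit 9116143723) (nat_lit 532) (nat_lit 132355452850) (nat_lit 46) (nat_lit 5) (nat_lit 45) (nat_lit 5) (nat_lit 52) (nat_lit 5) (nat_lit 322) (nat_lit 318) (nat_lit 140)))) (XT.nd (nat_lit 156) (nat_lit 380) (nat_lit 0) (XT.nd (nat_lit 78) (nat_lit 0) (nat_lit 0) (XT.lf (nat_lit 76) (nat_lit 56345360070) (nat_lit 0) (nat_lit 260518520713) (nat_lit 532) (nat_lit 116779239372) (nat_lit 47) (nat_lit 5) (nat_lit 46) (nat_lit 5) (nat_lit 53) (nat_lit 5) (nat_lit 323) (nat_lit 318) (nat_lit 139)) (XT.lf (nat_lit 76) (nat_lit 277784007695) (nat_lit 0) (nat_lit 78985651813) (nat_lit 532) (nat_lit 95530185361) (nat_lit 47) (nat_lit 5) (nat_lit 46) (nat_lit 5) (nat_lit 53) (nat_lit 5) (nat_lit 324) (nat_lit 318) (nat_lit 138))) (XT.nd (nat_lit 78) (nat_lit 0) (nat_lit 0) (XT.lf (nat_lit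 0) (nat_lit 43867507483) (nat_lit 456) (nat_lit 359870907132) (nat_lit 532) (nat_lit 68401051924) (nat_lit 41) (nat_lit 5) (nat_lit 47) (nat_lit 5) (nat_lit 48) (nat_lit 5) (nat_lit 325) (nat_lit 318) (nat_lit 137)) (XT.lf (nat_lit 0) (nat_lit 287486753220) (nat_lit 456) (nat_lit 173749094525) (nat_lit 532) (nat_lit 31788716085) (nat_lit 41) (nat_lit 5) (nat_lit 47) (nat_lit 5) (nat_lit 48) (nat_lit 5) (nat_lit 326) (nat_lit 318) (nat_lit 136))))))) (XT.nd (nat_lit 1170) (nat_lit 836) (nat_lit 0) (XT.nd (nat_lit 546) (nat_lit 532) (nat_lit 0) (XT.nd (nat_lit 234) (nat_lit 380) (nat_lit 0) (XT.nd (nat_lit 78) (nat_lit 228) (nat_lit 0) (XT.lf (nat_lit 0) (nat_lit 8929904439) (nat_lit 304) (nat_lit 479515821866) (nat_lit 76) (nat_lit 26994617484) (nat_lit 37) (nat_lit 5) (nat_lit 41) (nat_lit 5) (nat_lit 38) (nat_lit 5) (nat_lit 327) (nat_lit 318) (nat_lit 135)) (XT.nd (nat_lit 78) (nat_lit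 228) (nat_lit 0) (XT.lf (nat_lit 0) (nat_lit 61467269382) (nat_lit 304) (nat_lit 236291488898) (nat_lit 76) (nat_lit 241002279780) (nat_lit 37) (nat_lit 5) (nat_lit 41) (nat_lit 5) (nat_lit 38) (nat_lit 5) (nat_lit 328) (nat_lit 318) (nat_lit 134)) (XT.lf (nat_lit 0) (nat_lit 27780453511) (nat_lit 228) (nat_lit 91095264329) (nat_lit 304) (nat_lit 445018222556) (nat_lit 34) (nat_lit 5) (nat_lit 37) (nat_lit 5) (nat_lit 38) (nat_lit 5) (nat_lit 329) (nat_lit 318) (nat_lit 133)))) (XT.nd (nat_lit 156) (nat_lit 152) (nat_lit 0) (XT.nd (nat_lit 78) (nat_lit 228) (nat_lit 0) (XT.lf (nat_lit 0) (nat_lit 190682293388) (nat_lit 304) (nat_lit 267449244491) (nat_lit 76) (nat_lit 132121501010) (nat_lit 34) (nat_lit 5) (nat_lit 38) (nat_lit 5) (nat_lit 35) (nat_lit 5) (nat_lit 330) (nat_lit 318) (nat_lit 132)) (XT.lf (nat_lit 0) (nat_lit 21413173051) (nat_lit 228) (nat_lit 249701296850) (nat_lit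 304) (nat_lit 347375909430) (nat_lit 31) (nat_lit 5) (nat_lit 34) (nat_lit 5) (nat_lit 35) (nat_lit 5) (nat_lit 331) (nat_lit 318) (nat_lit 131))) (XT.nd (nat_lit 78) (nat_lit 152) (nat_lit 0) (XT.lf (nat_lit 0) (nat_lit 348594633076) (nat_lit 228) (nat_lit 16699101675) (nat_lit 304) (nat_lit 283107971175) (nat_lit 31) (nat_lit 5) (nat_lit 34) (nat_lit 5) (nat_lit 35) (nat_lit 5) (nat_lit 332) (nat_lit 318) (nat_lit 130)) (XT.lf (nat_lit 0) (nat_lit 16415419686) (nat_lit 152) (nat_lit 456637083067) (nat_lit 228) (nat_lit 207169822993) (nat_lit 29) (nat_lit 5) (nat_lit 31) (nat_lit 5) (nat_lit 32) (nat_lit 5) (nat_lit 333) (nat_lit 318) (nat_lit 129))))) (XT.nd (nat_lit 312) (nat_lit 304) (nat_lit 0) (XT.nd (nat_lit 156) (nat_lit 76) (nat_lit 0) (XT.nd (nat_lit 78) (nat_lit 152) (nat_lit 0) (XT.lf (nat_lit 0) (nat_lit 374529397070) (nat_lit 152) (nat_lit 223522574231) (nat_lit 228) (nat_lit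 115847023971) (nat_lit 29) (nat_lit 5) (nat_lit 31) (nat_lit 5) (nat_lit 32) (nat_lit 5) (nat_lit 334) (nat_lit 318) (nat_lit 128)) (XT.lf (nat_lit 0) (nat_lit 10888139184) (nat_lit 152) (nat_lit 723104298867) (nat_lit 228) (nat_lit 16202077094) (nat_lit 27) (nat_lit 5) (nat_lit 29) (nat_lit 5) (nat_lit 30) (nat_lit 5) (nat_lit 335) (nat_lit 318) (nat_lit 127))) (XT.nd (nat_lit 78) (nat_lit 0) (nat_lit 0) (XT.lf (nat_lit 0) (nat_lit 102167285188) (nat_lit 228) (nat_lit 388429952603) (nat_lit 76) (nat_lit 297394497934) (nat_lit 26) (nat_lit 5) (nat_lit 29) (nat_lit 5) (nat_lit 27) (nat_lit 5) (nat_lit 336) (nat_lit 318) (nat_lit 126)) (XT.lf (nat_lit 0) (nat_lit 229130846761) (nat_lit 228) (nat_lit 9904271931) (nat_lit 76) (nat_lit 589743949977) (nat_lit 26) (nat_lit 5) (nat_lit 29) (nat_lit 5) (nat_lit 27) (nat_lit 5) (nat_lit 337) (nat_lit 318) (nat_lit 125)))) (XT.nd (nat_lit 156)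 (nat_lit 152) (nat_lit 0) (XT.nd (nat_lit 78) (nat_lit 0) (nat_lit 0) (XT.lf (nat_lit 0) (nat_lit 377397886663) (nat_lit 228) (nat_lit 453160081522) (nat_lit 76) (nat_lit 41379708625) (nat_lit 24) (nat_lit 5) (nat_lit 27) (nat_lit 5) (nat_lit 25) (nat_lit 5) (nat_lit 338) (nat_lit 318) (nat_lit 124)) (XT.lf (nat_lit 0) (nat_lit 544012813286) (nat_lit 228) (nat_lit 42425793294) (nat_lit 76) (nat_lit 331591445170) (nat_lit 24) (nat_lit 5) (nat_lit 27) (nat_lit 5) (nat_lit 25) (nat_lit 5) (nat_lit 339) (nat_lit 318) (nat_lit 123))) (XT.nd (nat_lit 78) (nat_lit 0) (nat_lit 0) (XT.lf (nat_lit 0) (nat_lit 422291972205) (nat_lit 152) (nat_lit 311821080056) (nat_lit 228) (nat_lit 232884274995) (nat_lit 22) (nat_lit 5) (nat_lit 24) (nat_lit 5) (nat_lit 25) (nat_lit 5) (nat_lit 340) (nat_lit 318) (nat_lit 122)) (XT.lf (nat_lit 0) (nat_lit 926599931393) (nat_lit 152) (nat_lit 13981362016) (nat_lit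 228) (nat_lit 79207892776) (nat_lit 22) (nat_lit 5) (nat_lit 24) (nat_lit 5) (nat_lit 25) (nat_lit 5) (nat_lit 341) (nat_lit 318) (nat_lit 121)))))) (XT.nd (nat_lit 624) (nat_lit 228) (nat_lit 0) (XT.nd (nat_lit 312) (nat_lit 304) (nat_lit 0) (XT.nd (nat_lit 156) (nat_lit 152) (nat_lit 0) (XT.nd (nat_lit 78) (nat_lit 0) (nat_lit 0) (XT.lf (nat_lit 0) (nat_lit 100067620588) (nat_lit 152) (nat_lit 670532323957) (nat_lit 76) (nat_lit 304625898919) (nat_lit 20) (nat_lit 5) (nat_lit 22) (nat_lit 5) (nat_lit 21) (nat_lit 5) (nat_lit 342) (nat_lit 318) (nat_lit 120)) (XT.lf (nat_lit 0) (nat_lit 292383171513) (nat_lit 152) (nat_lit 189673625788) (nat_lit 76) (nat_lit 652637865812) (nat_lit 20) (nat_lit 5) (nat_lit 22) (nat_lit 5) (nat_lit 21) (nat_lit 5) (nat_lit 343) (nat_lit 318) (nat_lit 119))) (XT.nd (nat_lit 78) (nat_lit 0) (nat_lit 0) (XT.lf (nat_lit 0) (nat_lit 347012732399) (nat_lit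 152) (nat_lit 161416887243) (nat_lit 228) (nat_lit 689823716462) (nat_lit 18) (nat_lit 5) (nat_lit 20) (nat_lit 5) (nat_lit 21) (nat_lit 5) (nat_lit 344) (nat_lit 318) (nat_lit 118)) (XT.lf (nat_lit 0) (nat_lit 751526716482) (nat_lit 228) (nat_lit 333641864852) (nat_lit 76) (nat_lit 180946766988) (nat_lit 18) (nat_lit 5) (nat_lit 21) (nat_lit 5) (nat_lit 19) (nat_lit 4) (nat_lit 345) (nat_lit 318) (nat_lit 117)))) (XT.nd (nat_lit 156) (nat_lit 228) (nat_lit 0) (XT.nd (nat_lit 78) (nat_lit 0) (nat_lit 0) (XT.lf (nat_lit 0) (nat_lit 232818640994) (nat_lit 76) (nat_lit 791044870070) (nat_lit 152) (nat_lit 314759456071) (nat_lit 17) (nat_lit 5) (nat_lit 18) (nat_lit 5) (nat_lit 19) (nat_lit 4) (nat_lit 346) (nat_lit 318) (nat_lit 116)) (XT.lf (nat_lit 0) (nat_lit 863570479190) (nat_lit 76) (nat_lit 463539119899) (nat_lit 152) (nat_lit 89091808391) (nat_lit 17) (nat_lit 5) (nat_lit 18) (nat_lit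 5) (nat_lit 19) (nat_lit 4) (nat_lit 347) (nat_lit 318) (nat_lit 115))) (XT.nd (nat_lit 78) (nat_lit 0) (nat_lit 0) (XT.lf (nat_lit 0) (nat_lit 43240556032) (nat_lit 152) (nat_lit 104693440601) (nat_lit 228) (nat_lit 1351671425300) (nat_lit 14) (nat_lit 5) (nat_lit 16) (nat_lit 5) (nat_lit 17) (nat_lit 5) (nat_lit 348) (nat_lit 318) (nat_lit 114)) (XT.lf (nat_lit 0) (nat_lit 421413746347) (nat_lit 228) (nat_lit 879771936586) (nat_lit 76) (nat_lit 286526536626) (nat_lit 14) (nat_lit 5) (nat_lit 17) (nat_lit 5) (nat_lit 15) (nat_lit 4) (nat_lit 349) (nat_lit 318) (nat_lit 113))))) (XT.nd (nat_lit 312) (nat_lit 152) (nat_lit 0) (XT.nd (nat_lit 156) (nat_lit 0) (nat_lit 0) (XT.nd (nat_lit 78) (nat_lit 76) (nat_lit 0) (XT.lf (nat_lit 0) (nat_lit 719491177561) (nat_lit 228) (nat_lit 259770897957) (nat_lit 76) (nat_lit 703387941366) (nat_lit 14) (nat_lit 5) (nat_lit 17) (nat_lit 5) (nat_lit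 15) (nat_lit 4) (nat_lit 350) (nat_lit 318) (nat_lit 112)) (XT.lf (nat_lit 0) (nat_lit 431411142552) (nat_lit 76) (nat_lit 620379101092) (nat_lit 152) (nat_lit 732562559133) (nat_lit 13) (nat_lit 5) (nat_lit 14) (nat_lit 5) (nat_lit 15) (nat_lit 4) (nat_lit 351) (nat_lit 318) (nat_lit 111))) (XT.nd (nat_lit 78) (nat_lit 0) (nat_lit 0) (XT.lf (nat_lit 0) (nat_lit 1192661134011) (nat_lit 76) (nat_lit 225114689992) (nat_lit 152) (nat_lit 475847780428) (nat_lit 13) (nat_lit 5) (nat_lit 14) (nat_lit 5) (nat_lit 15) (nat_lit 4) (nat_lit 352) (nat_lit 318) (nat_lit 110)) (XT.lf (nat_lit 0) (nat_lit 1817892837893) (nat_lit 152) (nat_lit 1677552697) (nat_lit 0) (nat_lit 191677472669) (nat_lit 13) (nat_lit 5) (nat_lit 15) (nat_lit 4) (nat_lit 13) (nat_lit 4) (nat_lit 353) (nat_lit 318) (nat_lit 109)))) (XT.nd (nat_lit 37908) (nat_lit 0) (nat_lit 2508) (XT.nd (nat_lit 78) (nat_lit 0) (nat_lit 0)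 (XT.lf (nat_lit 0) (nat_lit 131567464282) (nat_lit 152) (nat_lit 1352555051968) (nat_lit 76) (nat_lit 651910975339) (nat_lit 11) (nat_lit 5) (nat_lit 13) (nat_lit 5) (nat_lit 12) (nat_lit 4) (nat_lit 354) (nat_lit 318) (nat_lit 108)) (XT.lf (nat_lit 0) (nat_lit 472084611457) (nat_lit 152) (nat_lit 644279397376) (nat_lit 76) (nat_lit 1154032420532) (nat_lit 11) (nat_lit 5) (nat_lit 13) (nat_lit 5) (nat_lit 12) (nat_lit 4) (nat_lit 355) (nat_lit 318) (nat_lit 107))) (XT.nd (nat_lit 78) (nat_lit 0) (nat_lit 0) (XT.lf (nat_lit 0) (nat_lit 114572153405) (nat_lit 532) (nat_lit 38504822669) (nat_lit 532) (nat_lit 38504822669) (nat_lit 44) (nat_lit 3) (nat_lit 51) (nat_lit 3) (nat_lit 51) (nat_lit 5) (nat_lit 319) (nat_lit 319) (nat_lit 142)) (XT.lf (nat_lit 76) (nat_lit 101916225165) (nat_lit 0) (nat_lit 138845347833) (nat_lit 532) (nat_lit 157532447547) (nat_lit 45) (nat_lit 5) (nat_lit 44)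 (nat_lit 3) (nat_lit 51) (nat_lit 5) (nat_lit 320) (nat_lit 319) (nat_lit 141))))))))
noncomputable def xc122 : XT := (XT.nd (nat_lit 2340) (nat_lit 76) (nat_lit 0) (XT.nd (nat_lit 1170) (nat_lit 1140) (nat_lit 0) (XT.nd (nat_lit 546) (nat_lit 912) (nat_lit 0) (XT.nd (nat_lit 234) (nat_lit 304) (nat_lit 0) (XT.nd (nat_lit 78) (nat_lit 0) (nat_lit 0) (XT.lf (nat_lit 0) (nat_lit 256474894364) (nat_lit 456) (nat_lit 115991820468) (nat_lit 532) (nat_lit 41914828838) (nat_lit 45) (nat_lit 5) (nat_lit 51) (nat_lit 5) (nat_lit 52) (nat_lit 5) (nat_lit 321) (nat_lit 319) (nat_lit 140)) (XT.nd (nat_lit 78) (nat_lit 0) (nat_lit 0) (XT.lf (nat_lit 76) (nat_lit 79179514737) (nat_lit 0) (nat_lit 199776370857) (nat_lit 532) (nat_lit 152359334843) (nat_lit 46) (nat_lit 5) (nat_lit 45) (nat_lit 5) (nat_lit 52) (nat_lit 5) (nat_lit 322) (nat_lit 319) (nat_lit 139)) (XT.lf (nat_lit 76) (nat_lit 296561089969)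 (nat_lit 0) (nat_lit 9845652543) (nat_lit 532) (nat_lit 142943138036) (nat_lit 46) (nat_lit 5) (nat_lit 45) (nat_lit 5) (nat_lit 52) (nat_lit 5) (nat_lit 323) (nat_lit 319) (nat_lit 138)))) (XT.nd (nat_lit 156) (nat_lit 380) (nat_lit 0) (XT.nd (nat_lit 78) (nat_lit 0) (nat_lit 0) (XT.lf (nat_lit 76) (nat_lit 60853514179) (nat_lit 0) (nat_lit 281360126854) (nat_lit 532) (nat_lit 126120874695) (nat_lit 47) (nat_lit 5) (nat_lit 46) (nat_lit 5) (nat_lit 53) (nat_lit 5) (nat_lit 324) (nat_lit 319) (nat_lit 137)) (XT.lf (nat_lit 76) (nat_lit 300007214702) (nat_lit 0) (nat_lit 85304619221) (nat_lit 532) (nat_lit 103171948498) (nat_lit 47) (nat_lit 5) (nat_lit 46) (nat_lit 5) (nat_lit 53) (nat_lit 5) (nat_lit 325) (nat_lit 319) (nat_lit 136))) (XT.nd (nat_lit 78) (nat_lit 0) (nat_lit 0) (XT.lf (nat_lit 0) (nat_lit 47377433632) (nat_lit 456) (nat_lit 388660621312) (nat_lit 532) (nat_lit 73872521781)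 (nat_lit 41) (nat_lit 5) (nat_lit 47) (nat_lit 5) (nat_lit 48) (nat_lit 5) (nat_lit 326) (nat_lit 319) (nat_lit 135)) (XT.lf (nat_lit 0) (nat_lit 310486180098) (nat_lit 456) (nat_lit 187649060615) (nat_lit 532) (nat_lit 34331244578) (nat_lit 41) (nat_lit 5) (nat_lit 47) (nat_lit 5) (nat_lit 48) (nat_lit 5) (nat_lit 327) (nat_lit 319) (nat_lit 134))))) (XT.nd (nat_lit 312) (nat_lit 380) (nat_lit 0) (XT.nd (nat_lit 156) (nat_lit 228) (nat_lit 0) (XT.nd (nat_lit 78) (nat_lit 0) (nat_lit 0) (XT.lf (nat_lit 0) (nat_lit 9644809004) (nat_lit 304) (nat_lit 517876541499) (nat_lit 76) (nat_lit 29154178413) (nat_lit 37) (nat_lit 5) (nat_lit 41) (nat_lit 5) (nat_lit 38) (nat_lit 5) (nat_lit 328) (nat_lit 319) (nat_lit 133)) (XT.lf (nat_lit 0) (nat_lit 66385125200) (nat_lit 304) (nat_lit 255194302346) (nat_lit 76) (nat_lit 260282454319) (nat_lit 37) (nat_lit 5) (nat_lit 41) (nat_lit 5) (nat_lit 38)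 (nat_lit 5) (nat_lit 329) (nat_lit 319) (nat_lit 132))) (XT.nd (nat_lit 78) (nat_lit 0) (nat_lit 0) (XT.lf (nat_lit 0) (nat_lit 30003382654) (nat_lit 228) (nat_lit 98382843604) (nat_lit 304) (nat_lit 480619192090) (nat_lit 34) (nat_lit 5) (nat_lit 37) (nat_lit 5) (nat_lit 38) (nat_lit 5) (nat_lit 330) (nat_lit 319) (nat_lit 131)) (XT.lf (nat_lit 0) (nat_lit 205937295376) (nat_lit 304) (nat_lit 288844694111) (nat_lit 76) (nat_lit 142691257921) (nat_lit 34) (nat_lit 5) (nat_lit 38) (nat_lit 5) (nat_lit 35) (nat_lit 5) (nat_lit 331) (nat_lit 319) (nat_lit 130)))) (XT.nd (nat_lit 156) (nat_lit 152) (nat_lit 0) (XT.nd (nat_lit 78) (nat_lit 0) (nat_lit 0) (XT.lf (nat_lit 0) (nat_lit 23126704430) (nat_lit 228) (nat_lit 269677322062) (nat_lit 304) (nat_lit 375165550236) (nat_lit 31) (nat_lit 5) (nat_lit 34) (nat_lit 5) (nat_lit 35) (nat_lit 5) (nat_lit 332) (nat_lit 319) (nat_lit 129)) (XT.lf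 (nat_lit 0) (nat_lit 376482645885) (nat_lit 228) (nat_lit 18034957091) (nat_lit 304) (nat_lit 305756208917) (nat_lit 31) (nat_lit 5) (nat_lit 34) (nat_lit 5) (nat_lit 35) (nat_lit 5) (nat_lit 333) (nat_lit 319) (nat_lit 128))) (XT.nd (nat_lit 78) (nat_lit 0) (nat_lit 0) (XT.lf (nat_lit 0) (nat_lit 17729112261) (nat_lit 152) (nat_lit 493167945449) (nat_lit 228) (nat_lit 223743024835) (nat_lit 29) (nat_lit 5) (nat_lit 31) (nat_lit 5) (nat_lit 32) (nat_lit 5) (nat_lit 334) (nat_lit 319) (nat_lit 127)) (XT.lf (nat_lit 0) (nat_lit 404492173836) (nat_lit 152) (nat_lit 241404283629) (nat_lit 228) (nat_lit 125114430335) (nat_lit 29) (nat_lit 5) (nat_lit 31) (nat_lit 5) (nat_lit 32) (nat_lit 5) (nat_lit 335) (nat_lit 319) (nat_lit 126)))))) (XT.nd (nat_lit 546) (nat_lit 608) (nat_lit 0) (XT.nd (nat_lit 234) (nat_lit 304) (nat_lit 0) (XT.nd (nat_lit 78) (nat_lit 76) (nat_lit 0) (XT.lf (nat_lit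 0) (nat_lit 11759628705) (nat_lit 152) (nat_lit 780952521213) (nat_lit 228) (nat_lit 17497900337) (nat_lit 27) (nat_lit 5) (nat_lit 29) (nat_lit 5) (nat_lit 30) (nat_lit 5) (nat_lit 336) (nat_lit 319) (nat_lit 125)) (XT.nd (nat_lit 78) (nat_lit 0) (nat_lit 0) (XT.lf (nat_lit 0) (nat_lit 110340969643) (nat_lit 228) (nat_lit 419503926366) (nat_lit 76) (nat_lit 321186153795) (nat_lit 26) (nat_lit 5) (nat_lit 29) (nat_lit 5) (nat_lit 27) (nat_lit 5) (nat_lit 337) (nat_lit 319) (nat_lit 124)) (XT.lf (nat_lit 0) (nat_lit 247461593797) (nat_lit 228) (nat_lit 10696222534) (nat_lit 76) (nat_lit 636923554888) (nat_lit 26) (nat_lit 5) (nat_lit 29) (nat_lit 5) (nat_lit 27) (nat_lit 5) (nat_lit 338) (nat_lit 319) (nat_lit 123)))) (XT.nd (nat_lit 156) (nat_lit 152) (nat_lit 0) (XT.nd (nat_lit 78) (nat_lit 0) (nat_lit 0) (XT.lf (nat_lit 0) (nat_lit 407589988101) (nat_lit 228) (nat_lit 489412487545)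 (nat_lit 76) (nat_lit 44690193113) (nat_lit 24) (nat_lit 5) (nat_lit 27) (nat_lit 5) (nat_lit 25) (nat_lit 5) (nat_lit 339) (nat_lit 319) (nat_lit 122)) (XT.lf (nat_lit 0) (nat_lit 587534088816) (nat_lit 228) (nat_lit 45819485926) (nat_lit 76) (nat_lit 358118860596) (nat_lit 24) (nat_lit 5) (nat_lit 27) (nat_lit 5) (nat_lit 25) (nat_lit 5) (nat_lit 340) (nat_lit 319) (nat_lit 121))) (XT.nd (nat_lit 78) (nat_lit 0) (nat_lit 0) (XT.lf (nat_lit 0) (nat_lit 456075691425) (nat_lit 152) (nat_lit 336766645624) (nat_lit 228) (nat_lit 251514756662) (nat_lit 22) (nat_lit 5) (nat_lit 24) (nat_lit 5) (nat_lit 25) (nat_lit 5) (nat_lit 341) (nat_lit 319) (nat_lit 120)) (XT.lf (nat_lit 0) (nat_lit 1000728260575) (nat_lit 152) (nat_lit 15099759091) (nat_lit 228) (nat_lit 85544283150) (nat_lit 22) (nat_lit 5) (nat_lit 24) (nat_lit 5) (nat_lit 25) (nat_lit 5) (nat_lit 342) (nat_lit 319) (nat_lit 119)))))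 (XT.nd (nat_lit 312) (nat_lit 304) (nat_lit 0) (XT.nd (nat_lit 156) (nat_lit 152) (nat_lit 0) (XT.nd (nat_lit 78) (nat_lit 0) (nat_lit 0) (XT.lf (nat_lit 0) (nat_lit 108073253242) (nat_lit 152) (nat_lit 724174556375) (nat_lit 76) (nat_lit 328996083104) (nat_lit 20) (nat_lit 5) (nat_lit 22) (nat_lit 5) (nat_lit 21) (nat_lit 5) (nat_lit 343) (nat_lit 319) (nat_lit 118)) (XT.lf (nat_lit 0) (nat_lit 315774031723) (nat_lit 152) (nat_lit 204847188538) (nat_lit 76) (nat_lit 704848999032) (nat_lit 20) (nat_lit 5) (nat_lit 22) (nat_lit 5) (nat_lit 21) (nat_lit 5) (nat_lit 344) (nat_lit 319) (nat_lit 117))) (XT.nd (nat_lit 78) (nat_lit 0) (nat_lit 0) (XT.lf (nat_lit 0) (nat_lit 374774070018) (nat_lit 152) (nat_lit 174330118061) (nat_lit 228) (nat_lit 745009398680) (nat_lit 18) (nat_lit 5) (nat_lit 20) (nat_lit 5) (nat_lit 21) (nat_lit 5) (nat_lit 345) (nat_lit 319) (nat_lit 116)) (XT.lf (nat_lit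 0) (nat_lit 811649040611) (nat_lit 228) (nat_lit 360332906289) (nat_lit 76) (nat_lit 195422614042) (nat_lit 18) (nat_lit 5) (nat_lit 21) (nat_lit 5) (nat_lit 19) (nat_lit 4) (nat_lit 346) (nat_lit 319) (nat_lit 115)))) (XT.nd (nat_lit 156) (nat_lit 228) (nat_lit 0) (XT.nd (nat_lit 78) (nat_lit 0) (nat_lit 0) (XT.lf (nat_lit 0) (nat_lit 251444432233) (nat_lit 76) (nat_lit 854328339904) (nat_lit 152) (nat_lit 339940017677) (nat_lit 17) (nat_lit 5) (nat_lit 18) (nat_lit 5) (nat_lit 19) (nat_lit 4) (nat_lit 347) (nat_lit 319) (nat_lit 114)) (XT.lf (nat_lit 0) (nat_lit 932656395265) (nat_lit 76) (nat_lit 500622138590) (nat_lit 152) (nat_lit 96218972618) (nat_lit 17) (nat_lit 5) (nat_lit 18) (nat_lit 5) (nat_lit 19) (nat_lit 4) (nat_lit 348) (nat_lit 319) (nat_lit 113))) (XT.nd (nat_lit 78) (nat_lit 0) (nat_lit 0) (XT.lf (nat_lit 0) (nat_lit 46700080254) (nat_lit 152) (nat_lit 113068801558)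 (nat_lit 228) (nat_lit 1459804960420) (nat_lit 14) (nat_lit 5) (nat_lit 16) (nat_lit 5) (nat_lit 17) (nat_lit 5) (nat_lit 349) (nat_lit 319) (nat_lit 112)) (XT.lf (nat_lit 0) (nat_lit 455127001792) (nat_lit 228) (nat_lit 950153422580) (nat_lit 76) (nat_lit 309448760088) (nat_lit 14) (nat_lit 5) (nat_lit 17) (nat_lit 5) (nat_lit 15) (nat_lit 4) (nat_lit 350) (nat_lit 319) (nat_lit 111))))))) (XT.nd (nat_lit 39078) (nat_lit 0) (nat_lit 380) (XT.nd (nat_lit 38454) (nat_lit 0) (nat_lit 1824) (XT.nd (nat_lit 234) (nat_lit 0) (nat_lit 0) (XT.nd (nat_lit 78) (nat_lit 76) (nat_lit 0) (XT.lf (nat_lit 0) (nat_lit 777050615968) (nat_lit 228) (nat_lit 280552320782) (nat_lit 76) (nat_lit 759659069760) (nat_lit 14) (nat_lit 5) (nat_lit 17) (nat_lit 5) (nat_lit 15) (nat_lit 4) (nat_lit 351) (nat_lit 319) (nat_lit 110)) (XT.nd (nat_lit 78) (nat_lit 0) (nat_lit 0) (XT.lf (nat_lit 0) (nat_lit 465924276664)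 (nat_lit 76) (nat_lit 670009325829) (nat_lit 152) (nat_lit 791167413183) (nat_lit 13) (nat_lit 5) (nat_lit 14) (nat_lit 5) (nat_lit 15) (nat_lit 4) (nat_lit 352) (nat_lit 319) (nat_lit 109)) (XT.lf (nat_lit 0) (nat_lit 1288074249461) (nat_lit 76) (nat_lit 243123769496) (nat_lit 152) (nat_lit 513915463343) (nat_lit 13) (nat_lit 5) (nat_lit 14) (nat_lit 5) (nat_lit 15) (nat_lit 4) (nat_lit 353) (nat_lit 319) (nat_lit 108)))) (XT.nd (nat_lit 38064) (nat_lit 0) (nat_lit 2356) (XT.nd (nat_lit 37986) (nat_lit 0) (nat_lit 2356) (XT.lf (nat_lit 0) (nat_lit 1963324386531) (nat_lit 152) (nat_lit 1811541253) (nat_lit 0) (nat_lit 207011754656) (nat_lit 13) (nat_lit 5) (nat_lit 15) (nat_lit 4) (nat_lit 13) (nat_lit 4) (nat_lit 354) (nat_lit 319) (nat_lit 107)) (XT.lf (nat_lit 0) (nat_lit 123738322157) (nat_lit 532) (nat_lit 41584993736) (nat_lit 532) (nat_lit 41584993736) (nat_lit 44) (nat_lit 3)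 (nat_lit 51) (nat_lit 3) (nat_lit 51) (nat_lit 5) (nat_lit 320) (nat_lit 320) (nat_lit 140))) (XT.nd (nat_lit 78) (nat_lit 0) (nat_lit 76) (XT.lf (nat_lit 76) (nat_lit 110069941799) (nat_lit 0) (nat_lit 149953301329) (nat_lit 532) (nat_lit 170134237120) (nat_lit 45) (nat_lit 5) (nat_lit 44) (nat_lit 3) (nat_lit 51) (nat_lit 5) (nat_lit 321) (nat_lit 320) (nat_lit 139)) (XT.lf (nat_lit 0) (nat_lit 276993567817) (nat_lit 456) (nat_lit 125270713888) (nat_lit 532) (nat_lit 45267728685) (nat_lit 45) (nat_lit 5) (nat_lit 51) (nat_lit 5) (nat_lit 52) (nat_lit 5) (nat_lit 322) (nat_lit 320) (nat_lit 138))))) (XT.nd (nat_lit 312) (nat_lit 608) (nat_lit 0) (XT.nd (nat_lit 156) (nat_lit 0) (nat_lit 76) (XT.nd (nat_lit 78) (nat_lit 0) (nat_lit 0) (XT.lf (nat_lit 76) (nat_lit 85514316685) (nat_lit 0) (nat_lit 215758681750) (nat_lit 532) (nat_lit 164547386221) (nat_lit 46) (nat_lit 5) (nat_lit 45)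 (nat_lit 5) (nat_lit 52) (nat_lit 5) (nat_lit 323) (nat_lit 320) (nat_lit 137)) (XT.lf (nat_lit 76) (nat_lit 320286385285) (nat_lit 0) (nat_lit 10633491065) (nat_lit 532) (nat_lit 154377945181) (nat_lit 46) (nat_lit 5) (nat_lit 45) (nat_lit 5) (nat_lit 52) (nat_lit 5) (nat_lit 324) (nat_lit 320) (nat_lit 136))) (XT.nd (nat_lit 78) (nat_lit 0) (nat_lit 0) (XT.lf (nat_lit 76) (nat_lit 65722245676) (nat_lit 0) (nat_lit 303869043728) (nat_lit 532) (nat_lit 136209941252) (nat_lit 47) (nat_lit 5) (nat_lit 46) (nat_lit 5) (nat_lit 53) (nat_lit 5) (nat_lit 325) (nat_lit 320) (nat_lit 135)) (XT.lf (nat_lit 76) (nat_lit 324008208881) (nat_lit 0) (nat_lit 92129087578) (nat_lit 532) (nat_lit 111425145657) (nat_lit 47) (nat_lit 5) (nat_lit 46) (nat_lit 5) (nat_lit 53) (nat_lit 5) (nat_lit 326) (nat_lit 320) (nat_lit 134)))) (XT.nd (nat_lit 156) (nat_lit 304) (nat_lit 0) (XT.nd (nat_lit 78) (nat_lit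 0) (nat_lit 0) (XT.lf (nat_lit 0) (nat_lit 51168078897) (nat_lit 456) (nat_lit 419753506692) (nat_lit 532) (nat_lit 79781796863) (nat_lit 41) (nat_lit 5) (nat_lit 47) (nat_lit 5) (nat_lit 48) (nat_lit 5) (nat_lit 327) (nat_lit 320) (nat_lit 133)) (XT.lf (nat_lit 0) (nat_lit 335325491704) (nat_lit 456) (nat_lit 202661018496) (nat_lit 532) (nat_lit 37077256496) (nat_lit 41) (nat_lit 5) (nat_lit 47) (nat_lit 5) (nat_lit 48) (nat_lit 5) (nat_lit 328) (nat_lit 320) (nat_lit 132))) (XT.nd (nat_lit 78) (nat_lit 0) (nat_lit 0) (XT.lf (nat_lit 0) (nat_lit 10416832862) (nat_lit 304) (nat_lit 559306196613) (nat_lit 76) (nat_lit 31486505424) (nat_lit 37) (nat_lit 5) (nat_lit 41) (nat_lit 5) (nat_lit 38) (nat_lit 5) (nat_lit 329) (nat_lit 320) (nat_lit 131)) (XT.lf (nat_lit 0) (nat_lit 71696341825) (nat_lit 304) (nat_lit 275609413010) (nat_lit 76) (nat_lit 281105043941) (nat_lit 37) (nat_lit 5) (nat_lit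 41) (nat_lit 5) (nat_lit 38) (nat_lit 5) (nat_lit 330) (nat_lit 320) (nat_lit 130)))))) (XT.nd (nat_lit 624) (nat_lit 608) (nat_lit 0) (XT.nd (nat_lit 312) (nat_lit 380) (nat_lit 0) (XT.nd (nat_lit 156) (nat_lit 228) (nat_lit 0) (XT.nd (nat_lit 78) (nat_lit 0) (nat_lit 0) (XT.lf (nat_lit 0) (nat_lit 32404075816) (nat_lit 228) (nat_lit 106253435195) (nat_lit 304) (nat_lit 519068308845) (nat_lit 34) (nat_lit 5) (nat_lit 37) (nat_lit 5) (nat_lit 38) (nat_lit 5) (nat_lit 331) (nat_lit 320) (nat_lit 129)) (XT.lf (nat_lit 0) (nat_lit 222412637816) (nat_lit 304) (nat_lit 311951849596) (nat_lit 76) (nat_lit 154106590131) (nat_lit 34) (nat_lit 5) (nat_lit 38) (nat_lit 5) (nat_lit 35) (nat_lit 5) (nat_lit 332) (nat_lit 320) (nat_lit 128))) (XT.nd (nat_lit 78) (nat_lit 0) (nat_lit 0) (XT.lf (nat_lit 0) (nat_lit 24977250195) (nat_lit 228) (nat_lit 291251440495) (nat_lit 304) (nat_lit 405178423928)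 (nat_lit 31) (nat_lit 5) (nat_lit 34) (nat_lit 5) (nat_lit 35) (nat_lit 5) (nat_lit 333) (nat_lit 320) (nat_lit 127)) (XT.lf (nat_lit 0) (nat_lit 406601636639) (nat_lit 228) (nat_lit 19477691314) (nat_lit 304) (nat_lit 330216362735) (nat_lit 31) (nat_lit 5) (nat_lit 34) (nat_lit 5) (nat_lit 35) (nat_lit 5) (nat_lit 334) (nat_lit 320) (nat_lit 126)))) (XT.nd (nat_lit 156) (nat_lit 228) (nat_lit 0) (XT.nd (nat_lit 78) (nat_lit 0) (nat_lit 0) (XT.lf (nat_lit 0) (nat_lit 19147834761) (nat_lit 152) (nat_lit 532621291695) (nat_lit 228) (nat_lit 241642137606) (nat_lit 29) (nat_lit 5) (nat_lit 31) (nat_lit 5) (nat_lit 32) (nat_lit 5) (nat_lit 335) (nat_lit 320) (nat_lit 125)) (XT.lf (nat_lit 0) (nat_lit 436851912111) (nat_lit 152) (nat_lit 260716543551) (nat_lit 228) (nat_lit 135123279932) (nat_lit 29) (nat_lit 5) (nat_lit 31) (nat_lit 5) (nat_lit 32) (nat_lit 5) (nat_lit 336) (nat_lit 320)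 (nat_lit 124))) (XT.nd (nat_lit 78) (nat_lit 76) (nat_lit 0) (XT.lf (nat_lit 0) (nat_lit 12700774846) (nat_lit 152) (nat_lit 843428618690) (nat_lit 228) (nat_lit 18897438362) (nat_lit 27) (nat_lit 5) (nat_lit 29) (nat_lit 5) (nat_lit 30) (nat_lit 5) (nat_lit 337) (nat_lit 320) (nat_lit 123)) (XT.lf (nat_lit 0) (nat_lit 119168505821) (nat_lit 228) (nat_lit 453063878297) (nat_lit 76) (nat_lit 346881128426) (nat_lit 26) (nat_lit 5) (nat_lit 29) (nat_lit 5) (nat_lit 27) (nat_lit 5) (nat_lit 338) (nat_lit 320) (nat_lit 122))))) (XT.nd (nat_lit 312) (nat_lit 304) (nat_lit 0) (XT.nd (nat_lit 156) (nat_lit 152) (nat_lit 0) (XT.nd (nat_lit 78) (nat_lit 152) (nat_lit 0) (XT.lf (nat_lit 0) (nat_lit 267258760752) (nat_lit 228) (nat_lit 11551584986) (nat_lit 76) (nat_lit 687877515508) (nat_lit 26) (nat_lit 5) (nat_lit 29) (nat_lit 5) (nat_lit 27) (nat_lit 5) (nat_lit 339) (nat_lit 320) (nat_lit 121))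 (XT.lf (nat_lit 0) (nat_lit 440197419063) (nat_lit 228) (nat_lit 528565143185) (nat_lit 76) (nat_lit 48265500981) (nat_lit 24) (nat_lit 5) (nat_lit 27) (nat_lit 5) (nat_lit 25) (nat_lit 5) (nat_lit 340) (nat_lit 320) (nat_lit 120))) (XT.nd (nat_lit 78) (nat_lit 152) (nat_lit 0) (XT.lf (nat_lit 0) (nat_lit 634537030657) (nat_lit 228) (nat_lit 49484726871) (nat_lit 76) (nat_lit 386768455017) (nat_lit 24) (nat_lit 5) (nat_lit 27) (nat_lit 5) (nat_lit 25) (nat_lit 5) (nat_lit 341) (nat_lit 320) (nat_lit 119)) (XT.lf (nat_lit 0) (nat_lit 492562056619) (nat_lit 152) (nat_lit 363707873676) (nat_lit 228) (nat_lit 271635714002) (nat_lit 22) (nat_lit 5) (nat_lit 24) (nat_lit 5) (nat_lit 25) (nat_lit 5) (nat_lit 342) (nat_lit 320) (nat_lit 118)))) (XT.nd (nat_lit 156) (nat_lit 152) (nat_lit 0) (XT.nd (nat_lit 78) (nat_lit 152) (nat_lit 0) (XT.lf (nat_lit 0) (nat_lit 1080786808347) (nat_lit 152)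 (nat_lit 16307643894) (nat_lit 228) (nat_lit 92387619141) (nat_lit 22) (nat_lit 5) (nat_lit 24) (nat_lit 5) (nat_lit 25) (nat_lit 5) (nat_lit 343) (nat_lit 320) (nat_lit 117)) (XT.lf (nat_lit 0) (nat_lit 116719304695) (nat_lit 152) (nat_lit 782108217817) (nat_lit 76) (nat_lit 355315866008) (nat_lit 20) (nat_lit 5) (nat_lit 22) (nat_lit 5) (nat_lit 21) (nat_lit 5) (nat_lit 344) (nat_lit 320) (nat_lit 116))) (XT.nd (nat_lit 78) (nat_lit 152) (nat_lit 0) (XT.lf (nat_lit 0) (nat_lit 341036131292) (nat_lit 152) (nat_lit 221234683002) (nat_lit 76) (nat_lit 761237008080) (nat_lit 20) (nat_lit 5) (nat_lit 22) (nat_lit 5) (nat_lit 21) (nat_lit 5) (nat_lit 345) (nat_lit 320) (nat_lit 115)) (XT.lf (nat_lit 0) (nat_lit 404756269134) (nat_lit 152) (nat_lit 188276424487) (nat_lit 228) (nat_lit 804609966161) (nat_lit 18) (nat_lit 5) (nat_lit 20) (nat_lit 5) (nat_lit 21) (nat_lit 5) (nat_lit 346) (nat_lit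 320) (nat_lit 114))))))))
noncomputable def xc123 : XT := (XT.nd (nat_lit 40404) (nat_lit 0) (nat_lit 76) (XT.nd (nat_lit 39156) (nat_lit 0) (nat_lit 684) (XT.nd (nat_lit 546) (nat_lit 0) (nat_lit 0) (XT.nd (nat_lit 234) (nat_lit 304) (nat_lit 0) (XT.nd (nat_lit 78) (nat_lit 76) (nat_lit 0) (XT.lf (nat_lit 0) (nat_lit 876581124020) (nat_lit 228) (nat_lit 389159274946) (nat_lit 76) (nat_lit 211056513782) (nat_lit 18) (nat_lit 5) (nat_lit 21) (nat_lit 5) (nat_lit 19) (nat_lit 4) (nat_lit 347) (nat_lit 320) (nat_lit 113)) (XT.nd (nat_lit 78) (nat_lit 0) (nat_lit 0) (XT.lf (nat_lit 0) (nat_lit 271560243979) (nat_lit 76) (nat_lit 922674504410) (nat_lit 152) (nat_lit 367135052013) (nat_lit 17) (nat_lit 5) (nat_lit 18) (nat_lit 5) (nat_lit 19) (nat_lit 4) (nat_lit 348) (nat_lit 320) (nat_lit 112)) (XT.lf (nat_lit 0) (nat_lit 1007269145004) (nat_lit 76) (nat_lit 540671814598) (nat_lit 152) (nat_lit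 103916335725) (nat_lit 17) (nat_lit 5) (nat_lit 18) (nat_lit 5) (nat_lit 19) (nat_lit 4) (nat_lit 349) (nat_lit 320) (nat_lit 111)))) (XT.nd (nat_lit 156) (nat_lit 76) (nat_lit 0) (XT.nd (nat_lit 78) (nat_lit 0) (nat_lit 0) (XT.lf (nat_lit 0) (nat_lit 50436326505) (nat_lit 152) (nat_lit 122114207697) (nat_lit 228) (nat_lit 1576589203871) (nat_lit 14) (nat_lit 5) (nat_lit 16) (nat_lit 5) (nat_lit 17) (nat_lit 5) (nat_lit 350) (nat_lit 320) (nat_lit 110)) (XT.lf (nat_lit 0) (nat_lit 491537295456) (nat_lit 228) (nat_lit 1026165465820) (nat_lit 76) (nat_lit 334204747085) (nat_lit 14) (nat_lit 5) (nat_lit 17) (nat_lit 5) (nat_lit 15) (nat_lit 4) (nat_lit 351) (nat_lit 320) (nat_lit 109))) (XT.nd (nat_lit 78) (nat_lit 76) (nat_lit 0) (XT.lf (nat_lit 0) (nat_lit 839214788875) (nat_lit 228) (nat_lit 302996292958) (nat_lit 76) (nat_lit 820431875146) (nat_lit 14) (nat_lit 5) (nat_lit 17) (nat_lit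 5) (nat_lit 15) (nat_lit 4) (nat_lit 352) (nat_lit 320) (nat_lit 108)) (XT.lf (nat_lit 0) (nat_lit 503198426879) (nat_lit 76) (nat_lit 723609983289) (nat_lit 152) (nat_lit 854460677053) (nat_lit 13) (nat_lit 5) (nat_lit 14) (nat_lit 5) (nat_lit 15) (nat_lit 4) (nat_lit 353) (nat_lit 320) (nat_lit 107))))) (XT.nd (nat_lit 38298) (nat_lit 0) (nat_lit 2432) (XT.nd (nat_lit 38142) (nat_lit 0) (nat_lit 2356) (XT.nd (nat_lit 38064) (nat_lit 0) (nat_lit 2356) (XT.lf (nat_lit 0) (nat_lit 1391120382087) (nat_lit 76) (nat_lit 262573589013) (nat_lit 152) (nat_lit 555028580795) (nat_lit 13) (nat_lit 5) (nat_lit 14) (nat_lit 5) (nat_lit 15) (nat_lit 4) (nat_lit 354) (nat_lit 320) (nat_lit 106)) (XT.lf (nat_lit 0) (nat_lit 133637727846) (nat_lit 532) (nat_lit 44911609124) (nat_lit 532) (nat_lit 44911609124) (nat_lit 44) (nat_lit 3) (nat_lit 51) (nat_lit 3) (nat_lit 51) (nat_lit 5) (nat_lit 321) (nat_lit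 321) (nat_lit 138))) (XT.nd (nat_lit 78) (nat_lit 0) (nat_lit 76) (XT.lf (nat_lit 76) (nat_lit 118875896042) (nat_lit 0) (nat_lit 161949844643) (nat_lit 532) (nat_lit 183744284876) (nat_lit 45) (nat_lit 5) (nat_lit 44) (nat_lit 3) (nat_lit 51) (nat_lit 5) (nat_lit 322) (nat_lit 321) (nat_lit 137)) (XT.lf (nat_lit 0) (nat_lit 299153637865) (nat_lit 456) (nat_lit 135291983296) (nat_lit 532) (nat_lit 48888901386) (nat_lit 45) (nat_lit 5) (nat_lit 51) (nat_lit 5) (nat_lit 52) (nat_lit 5) (nat_lit 323) (nat_lit 321) (nat_lit 136)))) (XT.nd (nat_lit 156) (nat_lit 0) (nat_lit 76) (XT.nd (nat_lit 78) (nat_lit 0) (nat_lit 0) (XT.lf (nat_lit 76) (nat_lit 92355839908) (nat_lit 0) (nat_lit 233019548807) (nat_lit 532) (nat_lit 177710580917) (nat_lit 46) (nat_lit 5) (nat_lit 45) (nat_lit 5) (nat_lit 52) (nat_lit 5) (nat_lit 324) (nat_lit 321) (nat_lit 135)) (XT.lf (nat_lit 76) (nat_lit 345909646005)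 (nat_lit 0) (nat_lit 11484330088) (nat_lit 532) (nat_lit 166727628757) (nat_lit 46) (nat_lit 5) (nat_lit 45) (nat_lit 5) (nat_lit 52) (nat_lit 5) (nat_lit 325) (nat_lit 321) (nat_lit 134))) (XT.nd (nat_lit 78) (nat_lit 0) (nat_lit 0) (XT.lf (nat_lit 76) (nat_lit 70980411443) (nat_lit 0) (nat_lit 328178658726) (nat_lit 532) (nat_lit 147106219218) (nat_lit 47) (nat_lit 5) (nat_lit 46) (nat_lit 5) (nat_lit 53) (nat_lit 5) (nat_lit 326) (nat_lit 321) (nat_lit 133)) (XT.lf (nat_lit 76) (nat_lit 349929223104) (nat_lit 0) (nat_lit 99499499306) (nat_lit 532) (nat_lit 120338678297) (nat_lit 47) (nat_lit 5) (nat_lit 46) (nat_lit 5) (nat_lit 53) (nat_lit 5) (nat_lit 327) (nat_lit 321) (nat_lit 132)))))) (XT.nd (nat_lit 624) (nat_lit 684) (nat_lit 0) (XT.nd (nat_lit 312) (nat_lit 456) (nat_lit 0) (XT.nd (nat_lit 156) (nat_lit 304) (nat_lit 0) (XT.nd (nat_lit 78) (nat_lit 0) (nat_lit 0) (XT.lf (nat_lit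 0) (nat_lit 55261911503) (nat_lit 456) (nat_lit 453333817812) (nat_lit 532) (nat_lit 86163889085) (nat_lit 41) (nat_lit 5) (nat_lit 47) (nat_lit 5) (nat_lit 48) (nat_lit 5) (nat_lit 328) (nat_lit 321) (nat_lit 131)) (XT.lf (nat_lit 0) (nat_lit 362151888721) (nat_lit 456) (nat_lit 218873928295) (nat_lit 532) (nat_lit 40043018935) (nat_lit 41) (nat_lit 5) (nat_lit 47) (nat_lit 5) (nat_lit 48) (nat_lit 5) (nat_lit 329) (nat_lit 321) (nat_lit 130))) (XT.nd (nat_lit 78) (nat_lit 0) (nat_lit 0) (XT.lf (nat_lit 0) (nat_lit 11250555980) (nat_lit 304) (nat_lit 604050290930) (nat_lit 76) (nat_lit 34005419632) (nat_lit 37) (nat_lit 5) (nat_lit 41) (nat_lit 5) (nat_lit 38) (nat_lit 5) (nat_lit 330) (nat_lit 321) (nat_lit 129)) (XT.lf (nat_lit 0) (nat_lit 77432397773) (nat_lit 304) (nat_lit 297657794373) (nat_lit 76) (nat_lit 303593441691) (nat_lit 37) (nat_lit 5) (nat_lit 41) (nat_lit 5) (nat_lit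 38) (nat_lit 5) (nat_lit 331) (nat_lit 321) (nat_lit 128)))) (XT.nd (nat_lit 156) (nat_lit 228) (nat_lit 0) (XT.nd (nat_lit 78) (nat_lit 0) (nat_lit 0) (XT.lf (nat_lit 0) (nat_lit 34996764149) (nat_lit 228) (nat_lit 114753679234) (nat_lit 304) (nat_lit 560593414659) (nat_lit 34) (nat_lit 5) (nat_lit 37) (nat_lit 5) (nat_lit 38) (nat_lit 5) (nat_lit 332) (nat_lit 321) (nat_lit 127)) (XT.lf (nat_lit 0) (nat_lit 240205956464) (nat_lit 304) (nat_lit 336907637444) (nat_lit 76) (nat_lit 166435144413) (nat_lit 34) (nat_lit 5) (nat_lit 38) (nat_lit 5) (nat_lit 35) (nat_lit 5) (nat_lit 333) (nat_lit 321) (nat_lit 126))) (XT.nd (nat_lit 78) (nat_lit 0) (nat_lit 0) (XT.lf (nat_lit 0) (nat_lit 26975781213) (nat_lit 228) (nat_lit 314551498009) (nat_lit 304) (nat_lit 437592380347) (nat_lit 31) (nat_lit 5) (nat_lit 34) (nat_lit 5) (nat_lit 35) (nat_lit 5) (nat_lit 334) (nat_lit 321) (nat_lit 125))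 (XT.lf (nat_lit 0) (nat_lit 439130092573) (nat_lit 228) (nat_lit 21035853169) (nat_lit 304) (nat_lit 356633377776) (nat_lit 31) (nat_lit 5) (nat_lit 34) (nat_lit 5) (nat_lit 35) (nat_lit 5) (nat_lit 335) (nat_lit 321) (nat_lit 124))))) (XT.nd (nat_lit 312) (nat_lit 304) (nat_lit 0) (XT.nd (nat_lit 156) (nat_lit 228) (nat_lit 0) (XT.nd (nat_lit 78) (nat_lit 0) (nat_lit 0) (XT.lf (nat_lit 0) (nat_lit 20679998920) (nat_lit 152) (nat_lit 575230918394) (nat_lit 228) (nat_lit 260973226364) (nat_lit 29) (nat_lit 5) (nat_lit 31) (nat_lit 5) (nat_lit 32) (nat_lit 5) (nat_lit 336) (nat_lit 321) (nat_lit 123)) (XT.lf (nat_lit 0) (nat_lit 471800377468) (nat_lit 152) (nat_lit 281573796075) (nat_lit 228) (nat_lit 145932880984) (nat_lit 29) (nat_lit 5) (nat_lit 31) (nat_lit 5) (nat_lit 32) (nat_lit 5) (nat_lit 337) (nat_lit 321) (nat_lit 122))) (XT.nd (nat_lit 78) (nat_lit 76) (nat_lit 0) (XT.lf (nat_lit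 0) (nat_lit 13717159060) (nat_lit 152) (nat_lit 910902818832) (nat_lit 228) (nat_lit 20408981371) (nat_lit 27) (nat_lit 5) (nat_lit 29) (nat_lit 5) (nat_lit 30) (nat_lit 5) (nat_lit 338) (nat_lit 321) (nat_lit 121)) (XT.lf (nat_lit 0) (nat_lit 128702208000) (nat_lit 228) (nat_lit 489308678052) (nat_lit 76) (nat_lit 374631689282) (nat_lit 26) (nat_lit 5) (nat_lit 29) (nat_lit 5) (nat_lit 27) (nat_lit 5) (nat_lit 339) (nat_lit 321) (nat_lit 120)))) (XT.nd (nat_lit 156) (nat_lit 152) (nat_lit 0) (XT.nd (nat_lit 78) (nat_lit 152) (nat_lit 0) (XT.lf (nat_lit 0) (nat_lit 288639666902) (nat_lit 228) (nat_lit 12475424276) (nat_lit 76) (nat_lit 742907782102) (nat_lit 26) (nat_lit 5) (nat_lit 29) (nat_lit 5) (nat_lit 27) (nat_lit 5) (nat_lit 340) (nat_lit 321) (nat_lit 119)) (XT.lf (nat_lit 0) (nat_lit 475413411418) (nat_lit 228) (nat_lit 570850060262) (nat_lit 76) (nat_lit 52126820294) (nat_lit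 24) (nat_lit 5) (nat_lit 27) (nat_lit 5) (nat_lit 25) (nat_lit 5) (nat_lit 341) (nat_lit 321) (nat_lit 118))) (XT.nd (nat_lit 78) (nat_lit 152) (nat_lit 0) (XT.lf (nat_lit 0) (nat_lit 685300177211) (nat_lit 228) (nat_lit 53443232448) (nat_lit 76) (nat_lit 417710004783) (nat_lit 24) (nat_lit 5) (nat_lit 27) (nat_lit 5) (nat_lit 25) (nat_lit 5) (nat_lit 342) (nat_lit 321) (nat_lit 117)) (XT.lf (nat_lit 0) (nat_lit 531967286821) (nat_lit 152) (nat_lit 392804414751) (nat_lit 228) (nat_lit 293366379771) (nat_lit 22) (nat_lit 5) (nat_lit 24) (nat_lit 5) (nat_lit 25) (nat_lit 5) (nat_lit 343) (nat_lit 321) (nat_lit 116))))))) (XT.nd (nat_lit 39312) (nat_lit 0) (nat_lit 760) (XT.nd (nat_lit 546) (nat_lit 228) (nat_lit 0) (XT.nd (nat_lit 234) (nat_lit 228) (nat_lit 0) (XT.nd (nat_lit 78) (nat_lit 152) (nat_lit 0) (XT.lf (nat_lit 0) (nat_lit 1167249999008) (nat_lit 152) (nat_lit 17612173166) (nat_lit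 228) (nat_lit 99778451495) (nat_lit 22) (nat_lit 5) (nat_lit 24) (nat_lit 5) (nat_lit 25) (nat_lit 5) (nat_lit 344) (nat_lit 321) (nat_lit 115)) (XT.nd (nat_lit 78) (nat_lit 0) (nat_lit 0) (XT.lf (nat_lit 0) (nat_lit 126057012988) (nat_lit 152) (nat_lit 844676615411) (nat_lit 76) (nat_lit 383741217811) (nat_lit 20) (nat_lit 5) (nat_lit 22) (nat_lit 5) (nat_lit 21) (nat_lit 5) (nat_lit 345) (nat_lit 321) (nat_lit 114)) (XT.lf (nat_lit 0) (nat_lit 368319173570) (nat_lit 152) (nat_lit 238933217057) (nat_lit 76) (nat_lit 822136045137) (nat_lit 20) (nat_lit 5) (nat_lit 22) (nat_lit 5) (nat_lit 21) (nat_lit 5) (nat_lit 346) (nat_lit 321) (nat_lit 113)))) (XT.nd (nat_lit 156) (nat_lit 76) (nat_lit 0) (XT.nd (nat_lit 78) (nat_lit 0) (nat_lit 0) (XT.lf (nat_lit 0) (nat_lit 437137005159) (nat_lit 152) (nat_lit 203338450124) (nat_lit 228) (nat_lit 868978605349) (nat_lit 18) (nat_lit 5) (nat_lit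 20) (nat_lit 5) (nat_lit 21) (nat_lit 5) (nat_lit 347) (nat_lit 321) (nat_lit 112)) (XT.lf (nat_lit 0) (nat_lit 946707751254) (nat_lit 228) (nat_lit 420291790736) (nat_lit 76) (nat_lit 227941112573) (nat_lit 18) (nat_lit 5) (nat_lit 21) (nat_lit 5) (nat_lit 19) (nat_lit 4) (nat_lit 348) (nat_lit 321) (nat_lit 111))) (XT.nd (nat_lit 78) (nat_lit 0) (nat_lit 0) (XT.lf (nat_lit 0) (nat_lit 293285283976) (nat_lit 76) (nat_lit 996488376727) (nat_lit 152) (nat_lit 396505712931) (nat_lit 17) (nat_lit 5) (nat_lit 18) (nat_lit 5) (nat_lit 19) (nat_lit 4) (nat_lit 349) (nat_lit 321) (nat_lit 110)) (XT.lf (nat_lit 0) (nat_lit 1087850880752) (nat_lit 76) (nat_lit 583925478250) (nat_lit 152) (nat_lit 112229509951) (nat_lit 17) (nat_lit 5) (nat_lit 18) (nat_lit 5) (nat_lit 19) (nat_lit 4) (nat_lit 350) (nat_lit 321) (nat_lit 109))))) (XT.nd (nat_lit 38454) (nat_lit 0) (nat_lit 2280) (XT.nd (nat_lit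 156) (nat_lit 0) (nat_lit 0) (XT.nd (nat_lit 78) (nat_lit 0) (nat_lit 0) (XT.lf (nat_lit 0) (nat_lit 54471438243) (nat_lit 152) (nat_lit 131883260305) (nat_lit 228) (nat_lit 1702716208681) (nat_lit 14) (nat_lit 5) (nat_lit 16) (nat_lit 5) (nat_lit 17) (nat_lit 5) (nat_lit 351) (nat_lit 321) (nat_lit 108)) (XT.lf (nat_lit 0) (nat_lit 530860393564) (nat_lit 228) (nat_lit 1108258505412) (nat_lit 76) (nat_lit 360941200745) (nat_lit 14) (nat_lit 5) (nat_lit 17) (nat_lit 5) (nat_lit 15) (nat_lit 4) (nat_lit 352) (nat_lit 321) (nat_lit 107))) (XT.nd (nat_lit 38220) (nat_lit 0) (nat_lit 2280) (XT.lf (nat_lit 0) (nat_lit 906352077978) (nat_lit 228) (nat_lit 327235813363) (nat_lit 76) (nat_lit 886066493578) (nat_lit 14) (nat_lit 5) (nat_lit 17) (nat_lit 5) (nat_lit 15) (nat_lit 4) (nat_lit 353) (nat_lit 321) (nat_lit 106)) (XT.lf (nat_lit 0) (nat_lit 144329037498) (nat_lit 532) (nat_lit 48504380009)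 (nat_lit 532) (nat_lit 48504380009) (nat_lit 44) (nat_lit 3) (nat_lit 51) (nat_lit 3) (nat_lit 51) (nat_lit 5) (nat_lit 322) (nat_lit 322) (nat_lit 136)))) (XT.nd (nat_lit 156) (nat_lit 0) (nat_lit 76) (XT.nd (nat_lit 78) (nat_lit 0) (nat_lit 76) (XT.lf (nat_lit 76) (nat_lit 128386275423) (nat_lit 0) (nat_lit 174906071591) (nat_lit 532) (nat_lit 198443235062) (nat_lit 45) (nat_lit 5) (nat_lit 44) (nat_lit 3) (nat_lit 51) (nat_lit 5) (nat_lit 323) (nat_lit 322) (nat_lit 135)) (XT.lf (nat_lit 0) (nat_lit 323086430114) (nat_lit 456) (nat_lit 146115009566) (nat_lit 532) (nat_lit 52799802940) (nat_lit 45) (nat_lit 5) (nat_lit 51) (nat_lit 5) (nat_lit 52) (nat_lit 5) (nat_lit 324) (nat_lit 322) (nat_lit 134))) (XT.nd (nat_lit 78) (nat_lit 0) (nat_lit 0) (XT.lf (nat_lit 76) (nat_lit 99744631080) (nat_lit 0) (nat_lit 251661260617) (nat_lit 532) (nat_lit 191926916243) (nat_lit 46) (nat_lit 5)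 (nat_lit 45) (nat_lit 5) (nat_lit 52) (nat_lit 5) (nat_lit 325) (nat_lit 322) (nat_lit 133)) (XT.lf (nat_lit 76) (nat_lit 373582717665) (nat_lit 0) (nat_lit 12403213445) (nat_lit 532) (nat_lit 180065365774) (nat_lit 46) (nat_lit 5) (nat_lit 45) (nat_lit 5) (nat_lit 52) (nat_lit 5) (nat_lit 326) (nat_lit 322) (nat_lit 132)))))) (XT.nd (nat_lit 624) (nat_lit 760) (nat_lit 0) (XT.nd (nat_lit 312) (nat_lit 532) (nat_lit 0) (XT.nd (nat_lit 156) (nat_lit 380) (nat_lit 0) (XT.nd (nat_lit 78) (nat_lit 0) (nat_lit 0) (XT.lf (nat_lit 76) (nat_lit 76659175388) (nat_lit 0) (nat_lit 354433029870) (nat_lit 532) (nat_lit 158874273225) (nat_lit 47) (nat_lit 5) (nat_lit 46) (nat_lit 5) (nat_lit 53) (nat_lit 5) (nat_lit 327) (nat_lit 322) (nat_lit 131)) (XT.lf (nat_lit 76) (nat_lit 377923867461) (nat_lit 0) (nat_lit 107459531886) (nat_lit 532) (nat_lit 129965361884) (nat_lit 47) (nat_lit 5) (nat_lit 46)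 (nat_lit 5) (nat_lit 53) (nat_lit 5) (nat_lit 328) (nat_lit 322) (nat_lit 130))) (XT.nd (nat_lit 78) (nat_lit 0) (nat_lit 0) (XT.lf (nat_lit 0) (nat_lit 59683195610) (nat_lit 456) (nat_lit 489600549458) (nat_lit 532) (nat_lit 93056613101) (nat_lit 41) (nat_lit 5) (nat_lit 47) (nat_lit 5) (nat_lit 48) (nat_lit 5) (nat_lit 329) (nat_lit 322) (nat_lit 129)) (XT.lf (nat_lit 0) (nat_lit 391124346473) (nat_lit 456) (nat_lit 236383866837) (nat_lit 532) (nat_lit 43246102014) (nat_lit 41) (nat_lit 5) (nat_lit 47) (nat_lit 5) (nat_lit 48) (nat_lit 5) (nat_lit 330) (nat_lit 322) (nat_lit 128)))) (XT.nd (nat_lit 156) (nat_lit 228) (nat_lit 0) (XT.nd (nat_lit 78) (nat_lit 0) (nat_lit 0) (XT.lf (nat_lit 0) (nat_lit 12150923238) (nat_lit 304) (nat_lit 652373970059) (nat_lit 76) (nat_lit 36725847865) (nat_lit 37) (nat_lit 5) (nat_lit 41) (nat_lit 5) (nat_lit 38) (nat_lit 5) (nat_lit 331) (nat_lit 322)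 (nat_lit 127)) (XT.lf (nat_lit 0) (nat_lit 83627288464) (nat_lit 304) (nat_lit 321470099269) (nat_lit 76) (nat_lit 327880912084) (nat_lit 37) (nat_lit 5) (nat_lit 41) (nat_lit 5) (nat_lit 38) (nat_lit 5) (nat_lit 332) (nat_lit 322) (nat_lit 126))) (XT.nd (nat_lit 78) (nat_lit 0) (nat_lit 0) (XT.lf (nat_lit 0) (nat_lit 37796815867) (nat_lit 228) (nat_lit 123933947187) (nat_lit 304) (nat_lit 605440580139) (nat_lit 34) (nat_lit 5) (nat_lit 37) (nat_lit 5) (nat_lit 38) (nat_lit 5) (nat_lit 333) (nat_lit 322) (nat_lit 125)) (XT.lf (nat_lit 0) (nat_lit 259422696717) (nat_lit 304) (nat_lit 363859939695) (nat_lit 76) (nat_lit 179749979175) (nat_lit 34) (nat_lit 5) (nat_lit 38) (nat_lit 5) (nat_lit 35) (nat_lit 5) (nat_lit 334) (nat_lit 322) (nat_lit 124))))) (XT.nd (nat_lit 312) (nat_lit 380) (nat_lit 0) (XT.nd (nat_lit 156) (nat_lit 152) (nat_lit 0) (XT.nd (nat_lit 78) (nat_lit 0) (nat_lit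 0) (XT.lf (nat_lit 0) (nat_lit 29134144639) (nat_lit 228) (nat_lit 339715568359) (nat_lit 304) (nat_lit 472599498574) (nat_lit 31) (nat_lit 5) (nat_lit 34) (nat_lit 5) (nat_lit 35) (nat_lit 5) (nat_lit 335) (nat_lit 322) (nat_lit 123)) (XT.lf (nat_lit 0) (nat_lit 474260778616) (nat_lit 228) (nat_lit 22718675598) (nat_lit 304) (nat_lit 385163795961) (nat_lit 31) (nat_lit 5) (nat_lit 34) (nat_lit 5) (nat_lit 35) (nat_lit 5) (nat_lit 336) (nat_lit 322) (nat_lit 122))) (XT.nd (nat_lit 78) (nat_lit 0) (nat_lit 0) (XT.lf (nat_lit 0) (nat_lit 22334688082) (nat_lit 152) (nat_lit 621249326162) (nat_lit 228) (nat_lit 281850842490) (nat_lit 29) (nat_lit 5) (nat_lit 31) (nat_lit 5) (nat_lit 32) (nat_lit 5) (nat_lit 337) (nat_lit 322) (nat_lit 121)) (XT.lf (nat_lit 0) (nat_lit 509544675488) (nat_lit 152) (nat_lit 304099638924) (nat_lit 228) (nat_lit 157607287404) (nat_lit 29) (nat_lit 5) (nat_lit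 31) (nat_lit 5) (nat_lit 32) (nat_lit 5) (nat_lit 338) (nat_lit 322) (nat_lit 120)))) (XT.nd (nat_lit 156) (nat_lit 152) (nat_lit 0) (XT.nd (nat_lit 78) (nat_lit 76) (nat_lit 0) (XT.lf (nat_lit 0) (nat_lit 14814808042) (nat_lit 152) (nat_lit 983774967733) (nat_lit 228) (nat_lit 22041483780) (nat_lit 27) (nat_lit 5) (nat_lit 29) (nat_lit 5) (nat_lit 30) (nat_lit 5) (nat_lit 339) (nat_lit 322) (nat_lit 119)) (XT.lf (nat_lit 0) (nat_lit 138998574724) (nat_lit 228) (nat_lit 528453106084) (nat_lit 76) (nat_lit 404602284937) (nat_lit 26) (nat_lit 5) (nat_lit 29) (nat_lit 5) (nat_lit 27) (nat_lit 5) (nat_lit 340) (nat_lit 322) (nat_lit 118))) (XT.nd (nat_lit 78) (nat_lit 152) (nat_lit 0) (XT.lf (nat_lit 0) (nat_lit 311731016258) (nat_lit 228) (nat_lit 13473211726) (nat_lit 76) (nat_lit 802340460701) (nat_lit 26) (nat_lit 5) (nat_lit 29) (nat_lit 5) (nat_lit 27) (nat_lit 5) (nat_lit 341) (nat_lit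 322) (nat_lit 117)) (XT.lf (nat_lit 0) (nat_lit 513446654795) (nat_lit 228) (nat_lit 616517812700) (nat_lit 76) (nat_lit 56297033848) (nat_lit 24) (nat_lit 5) (nat_lit 27) (nat_lit 5) (nat_lit 25) (nat_lit 5) (nat_lit 342) (nat_lit 322) (nat_lit 116))))))))
noncomputable def xc124 : XT := (XT.nd (nat_lit 40638) (nat_lit 0) (nat_lit 304) (XT.nd (nat_lit 39468) (nat_lit 0) (nat_lit 912) (XT.nd (nat_lit 546) (nat_lit 304) (nat_lit 0) (XT.nd (nat_lit 234) (nat_lit 304) (nat_lit 0) (XT.nd (nat_lit 78) (nat_lit 152) (nat_lit 0) (XT.lf (nat_lit 0) (nat_lit 740124349225) (nat_lit 228) (nat_lit 57718457356) (nat_lit 76) (nat_lit 451126868065) (nat_lit 24) (nat_lit 5) (nat_lit 27) (nat_lit 5) (nat_lit 25) (nat_lit 5) (nat_lit 343) (nat_lit 322) (nat_lit 115)) (XT.nd (nat_lit 78) (nat_lit 0) (nat_lit 0) (XT.lf (nat_lit 0) (nat_lit 574524897538) (nat_lit 152) (nat_lit 424228691783) (nat_lit 228)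 (nat_lit 316835526099) (nat_lit 22) (nat_lit 5) (nat_lit 24) (nat_lit 5) (nat_lit 25) (nat_lit 5) (nat_lit 344) (nat_lit 322) (nat_lit 114)) (XT.lf (nat_lit 0) (nat_lit 1260630209828) (nat_lit 152) (nat_lit 19021076512) (nat_lit 228) (nat_lit 107760575713) (nat_lit 22) (nat_lit 5) (nat_lit 24) (nat_lit 5) (nat_lit 25) (nat_lit 5) (nat_lit 345) (nat_lit 322) (nat_lit 113)))) (XT.nd (nat_lit 156) (nat_lit 152) (nat_lit 0) (XT.nd (nat_lit 78) (nat_lit 0) (nat_lit 0) (XT.lf (nat_lit 0) (nat_lit 136141714560) (nat_lit 152) (nat_lit 912250521880) (nat_lit 76) (nat_lit 414440585987) (nat_lit 20) (nat_lit 5) (nat_lit 22) (nat_lit 5) (nat_lit 21) (nat_lit 5) (nat_lit 346) (nat_lit 322) (nat_lit 112)) (XT.lf (nat_lit 0) (nat_lit 397784837579) (nat_lit 152) (nat_lit 258047668159) (nat_lit 76) (nat_lit 887906994257) (nat_lit 20) (nat_lit 5) (nat_lit 22) (nat_lit 5) (nat_lit 21) (nat_lit 5) (nat_lit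 347) (nat_lit 322) (nat_lit 111))) (XT.nd (nat_lit 78) (nat_lit 0) (nat_lit 0) (XT.lf (nat_lit 0) (nat_lit 472108166613) (nat_lit 152) (nat_lit 219605450412) (nat_lit 228) (nat_lit 938496758228) (nat_lit 18) (nat_lit 5) (nat_lit 20) (nat_lit 5) (nat_lit 21) (nat_lit 5) (nat_lit 348) (nat_lit 322) (nat_lit 110)) (XT.lf (nat_lit 0) (nat_lit 1022444489076) (nat_lit 228) (nat_lit 453914940059) (nat_lit 76) (nat_lit 246176468185) (nat_lit 18) (nat_lit 5) (nat_lit 21) (nat_lit 5) (nat_lit 19) (nat_lit 4) (nat_lit 349) (nat_lit 322) (nat_lit 109))))) (XT.nd (nat_lit 38610) (nat_lit 0) (nat_lit 2280) (XT.nd (nat_lit 156) (nat_lit 228) (nat_lit 0) (XT.nd (nat_lit 78) (nat_lit 0) (nat_lit 0) (XT.lf (nat_lit 0) (nat_lit 316748295720) (nat_lit 76) (nat_lit 1076207371388) (nat_lit 152) (nat_lit 428226047158) (nat_lit 17) (nat_lit 5) (nat_lit 18) (nat_lit 5) (nat_lit 19) (nat_lit 4) (nat_lit 350)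 (nat_lit 322) (nat_lit 108)) (XT.lf (nat_lit 0) (nat_lit 1174879126236) (nat_lit 76) (nat_lit 630639446624) (nat_lit 152) (nat_lit 121207757037) (nat_lit 17) (nat_lit 5) (nat_lit 18) (nat_lit 5) (nat_lit 19) (nat_lit 4) (nat_lit 351) (nat_lit 322) (nat_lit 107))) (XT.nd (nat_lit 38376) (nat_lit 0) (nat_lit 2280) (XT.lf (nat_lit 0) (nat_lit 58829329585) (nat_lit 152) (nat_lit 142433849106) (nat_lit 228) (nat_lit 1838933392635) (nat_lit 14) (nat_lit 5) (nat_lit 16) (nat_lit 5) (nat_lit 17) (nat_lit 5) (nat_lit 352) (nat_lit 322) (nat_lit 106)) (XT.lf (nat_lit 0) (nat_lit 155875610347) (nat_lit 532) (nat_lit 52384595083) (nat_lit 532) (nat_lit 52384595083) (nat_lit 44) (nat_lit 3) (nat_lit 51) (nat_lit 3) (nat_lit 51) (nat_lit 5) (nat_lit 323) (nat_lit 323) (nat_lit 134)))) (XT.nd (nat_lit 156) (nat_lit 0) (nat_lit 76) (XT.nd (nat_lit 78) (nat_lit 0) (nat_lit 76) (XT.lf (nat_lit 76) (nat_lit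 138657441259) (nat_lit 0) (nat_lit 188898762544) (nat_lit 532) (nat_lit 214318185805) (nat_lit 45) (nat_lit 5) (nat_lit 44) (nat_lit 3) (nat_lit 51) (nat_lit 5) (nat_lit 324) (nat_lit 323) (nat_lit 133)) (XT.lf (nat_lit 0) (nat_lit 348933774238) (nat_lit 456) (nat_lit 157803925358) (nat_lit 532) (nat_lit 57023606657) (nat_lit 45) (nat_lit 5) (nat_lit 51) (nat_lit 5) (nat_lit 52) (nat_lit 5) (nat_lit 325) (nat_lit 323) (nat_lit 132))) (XT.nd (nat_lit 78) (nat_lit 0) (nat_lit 0) (XT.lf (nat_lit 76) (nat_lit 107724479325) (nat_lit 0) (nat_lit 271794288272) (nat_lit 532) (nat_lit 207280631317) (nat_lit 46) (nat_lit 5) (nat_lit 45) (nat_lit 5) (nat_lit 52) (nat_lit 5) (nat_lit 326) (nat_lit 323) (nat_lit 131)) (XT.lf (nat_lit 76) (nat_lit 403469592263) (nat_lit 0) (nat_lit 13395587933) (nat_lit 532) (nat_lit 194470189271) (nat_lit 46) (nat_lit 5) (nat_lit 45) (nat_lit 5) (nat_lit 52) (nat_lit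 5) (nat_lit 327) (nat_lit 323) (nat_lit 130)))))) (XT.nd (nat_lit 546) (nat_lit 608) (nat_lit 0) (XT.nd (nat_lit 234) (nat_lit 532) (nat_lit 0) (XT.nd (nat_lit 78) (nat_lit 380) (nat_lit 0) (XT.lf (nat_lit 76) (nat_lit 82792193224) (nat_lit 0) (nat_lit 382787739514) (nat_lit 532) (nat_lit 171583834827) (nat_lit 47) (nat_lit 5) (nat_lit 46) (nat_lit 5) (nat_lit 53) (nat_lit 5) (nat_lit 328) (nat_lit 323) (nat_lit 129)) (XT.nd (nat_lit 78) (nat_lit 380) (nat_lit 0) (XT.lf (nat_lit 76) (nat_lit 408158039640) (nat_lit 0) (nat_lit 116056356710) (nat_lit 532) (nat_lit 140362238746) (nat_lit 47) (nat_lit 5) (nat_lit 46) (nat_lit 5) (nat_lit 53) (nat_lit 5) (nat_lit 329) (nat_lit 323) (nat_lit 128)) (XT.lf (nat_lit 0) (nat_lit 64458135197) (nat_lit 456) (nat_lit 528768615896) (nat_lit 532) (nat_lit 100500810263) (nat_lit 41) (nat_lit 5) (nat_lit 47) (nat_lit 5) (nat_lit 48) (nat_lit 5) (nat_lit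 330) (nat_lit 323) (nat_lit 127)))) (XT.nd (nat_lit 156) (nat_lit 228) (nat_lit 0) (XT.nd (nat_lit 78) (nat_lit 304) (nat_lit 0) (XT.lf (nat_lit 0) (nat_lit 422414557096) (nat_lit 456) (nat_lit 255294597000) (nat_lit 532) (nat_lit 46705482874) (nat_lit 41) (nat_lit 5) (nat_lit 47) (nat_lit 5) (nat_lit 48) (nat_lit 5) (nat_lit 331) (nat_lit 323) (nat_lit 126)) (XT.lf (nat_lit 0) (nat_lit 13123273828) (nat_lit 304) (nat_lit 704563592614) (nat_lit 76) (nat_lit 39663911117) (nat_lit 37) (nat_lit 5) (nat_lit 41) (nat_lit 5) (nat_lit 38) (nat_lit 5) (nat_lit 332) (nat_lit 323) (nat_lit 125))) (XT.nd (nat_lit 78) (nat_lit 228) (nat_lit 0) (XT.lf (nat_lit 0) (nat_lit 90317727774) (nat_lit 304) (nat_lit 347187434016) (nat_lit 76) (nat_lit 354111380813) (nat_lit 37) (nat_lit 5) (nat_lit 41) (nat_lit 5) (nat_lit 38) (nat_lit 5) (nat_lit 333) (nat_lit 323) (nat_lit 124)) (XT.lf (nat_lit 0) (nat_lit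 40820827414) (nat_lit 228) (nat_lit 133848640341) (nat_lit 304) (nat_lit 653875562752) (nat_lit 34) (nat_lit 5) (nat_lit 37) (nat_lit 5) (nat_lit 38) (nat_lit 5) (nat_lit 334) (nat_lit 323) (nat_lit 123))))) (XT.nd (nat_lit 312) (nat_lit 228) (nat_lit 0) (XT.nd (nat_lit 156) (nat_lit 152) (nat_lit 0) (XT.nd (nat_lit 78) (nat_lit 228) (nat_lit 0) (XT.lf (nat_lit 0) (nat_lit 280176738566) (nat_lit 304) (nat_lit 392968470172) (nat_lit 76) (nat_lit 194129997407) (nat_lit 34) (nat_lit 5) (nat_lit 38) (nat_lit 5) (nat_lit 35) (nat_lit 5) (nat_lit 335) (nat_lit 323) (nat_lit 122)) (XT.lf (nat_lit 0) (nat_lit 31465134207) (nat_lit 228) (nat_lit 366892771397) (nat_lit 304) (nat_lit 510407225091) (nat_lit 31) (nat_lit 5) (nat_lit 34) (nat_lit 5) (nat_lit 35) (nat_lit 5) (nat_lit 336) (nat_lit 323) (nat_lit 121))) (XT.nd (nat_lit 78) (nat_lit 152) (nat_lit 0) (XT.lf (nat_lit 0) (nat_lit 512201879792)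 (nat_lit 228) (nat_lit 24536130359) (nat_lit 304) (nat_lit 415976683555) (nat_lit 31) (nat_lit 5) (nat_lit 34) (nat_lit 5) (nat_lit 35) (nat_lit 5) (nat_lit 337) (nat_lit 323) (nat_lit 120)) (XT.lf (nat_lit 0) (nat_lit 24121711112) (nat_lit 152) (nat_lit 670949215924) (nat_lit 228) (nat_lit 304398702427) (nat_lit 29) (nat_lit 5) (nat_lit 31) (nat_lit 5) (nat_lit 32) (nat_lit 5) (nat_lit 338) (nat_lit 323) (nat_lit 119)))) (XT.nd (nat_lit 156) (nat_lit 76) (nat_lit 0) (XT.nd (nat_lit 78) (nat_lit 152) (nat_lit 0) (XT.lf (nat_lit 0) (nat_lit 550308479141) (nat_lit 152) (nat_lit 328427557881) (nat_lit 228) (nat_lit 170215678302) (nat_lit 29) (nat_lit 5) (nat_lit 31) (nat_lit 5) (nat_lit 32) (nat_lit 5) (nat_lit 339) (nat_lit 323) (nat_lit 118)) (XT.lf (nat_lit 0) (nat_lit 16000229531) (nat_lit 152) (nat_lit 1062476899475) (nat_lit 228) (nat_lit 23804617211) (nat_lit 27) (nat_lit 5) (nat_lit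 29) (nat_lit 5) (nat_lit 30) (nat_lit 5) (nat_lit 340) (nat_lit 323) (nat_lit 117))) (XT.nd (nat_lit 78) (nat_lit 0) (nat_lit 0) (XT.lf (nat_lit 0) (nat_lit 150118623668) (nat_lit 228) (nat_lit 570729126337) (nat_lit 76) (nat_lit 436970519612) (nat_lit 26) (nat_lit 5) (nat_lit 29) (nat_lit 5) (nat_lit 27) (nat_lit 5) (nat_lit 341) (nat_lit 323) (nat_lit 116)) (XT.lf (nat_lit 0) (nat_lit 336669648453) (nat_lit 228) (nat_lit 14550857337) (nat_lit 76) (nat_lit 866527745594) (nat_lit 26) (nat_lit 5) (nat_lit 29) (nat_lit 5) (nat_lit 27) (nat_lit 5) (nat_lit 342) (nat_lit 323) (nat_lit 115))))))) (XT.nd (nat_lit 39702) (nat_lit 0) (nat_lit 304) (XT.nd (nat_lit 546) (nat_lit 0) (nat_lit 0) (XT.nd (nat_lit 234) (nat_lit 304) (nat_lit 0) (XT.nd (nat_lit 78) (nat_lit 152) (nat_lit 0) (XT.lf (nat_lit 0) (nat_lit 554522533324) (nat_lit 228) (nat_lit 665839021339) (nat_lit 76) (nat_lit 60800854795)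 (nat_lit 24) (nat_lit 5) (nat_lit 27) (nat_lit 5) (nat_lit 25) (nat_lit 5) (nat_lit 343) (nat_lit 323) (nat_lit 114)) (XT.nd (nat_lit 78) (nat_lit 152) (nat_lit 0) (XT.lf (nat_lit 0) (nat_lit 799334432483) (nat_lit 228) (nat_lit 62335733596) (nat_lit 76) (nat_lit 487217071436) (nat_lit 24) (nat_lit 5) (nat_lit 27) (nat_lit 5) (nat_lit 25) (nat_lit 5) (nat_lit 344) (nat_lit 323) (nat_lit 113)) (XT.lf (nat_lit 0) (nat_lit 620487084618) (nat_lit 152) (nat_lit 458166921841) (nat_lit 228) (nat_lit 342182227537) (nat_lit 22) (nat_lit 5) (nat_lit 24) (nat_lit 5) (nat_lit 25) (nat_lit 5) (nat_lit 345) (nat_lit 323) (nat_lit 112)))) (XT.nd (nat_lit 156) (nat_lit 152) (nat_lit 0) (XT.nd (nat_lit 78) (nat_lit 152) (nat_lit 0) (XT.lf (nat_lit 0) (nat_lit 1361480807426) (nat_lit 152) (nat_lit 20542702184) (nat_lit 228) (nat_lit 116381291539) (nat_lit 22) (nat_lit 5) (nat_lit 24) (nat_lit 5) (nat_lit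 25) (nat_lit 5) (nat_lit 346) (nat_lit 323) (nat_lit 111)) (XT.lf (nat_lit 0) (nat_lit 147033172208) (nat_lit 152) (nat_lit 985230372646) (nat_lit 76) (nat_lit 447595893523) (nat_lit 20) (nat_lit 5) (nat_lit 22) (nat_lit 5) (nat_lit 21) (nat_lit 5) (nat_lit 347) (nat_lit 323) (nat_lit 110))) (XT.nd (nat_lit 78) (nat_lit 152) (nat_lit 0) (XT.lf (nat_lit 0) (nat_lit 429607736144) (nat_lit 152) (nat_lit 278691304775) (nat_lit 76) (nat_lit 958939609962) (nat_lit 20) (nat_lit 5) (nat_lit 22) (nat_lit 5) (nat_lit 21) (nat_lit 5) (nat_lit 348) (nat_lit 323) (nat_lit 109)) (XT.lf (nat_lit 0) (nat_lit 509876992302) (nat_lit 152) (nat_lit 237173821525) (nat_lit 228) (nat_lit 1013576382675) (nat_lit 18) (nat_lit 5) (nat_lit 20) (nat_lit 5) (nat_lit 21) (nat_lit 5) (nat_lit 349) (nat_lit 323) (nat_lit 108))))) (XT.nd (nat_lit 38844) (nat_lit 0) (nat_lit 2052) (XT.nd (nat_lit 38688) (nat_lit 0) (nat_lit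 1976) (XT.nd (nat_lit 38610) (nat_lit 0) (nat_lit 1976) (XT.lf (nat_lit 0) (nat_lit 1104240149131) (nat_lit 228) (nat_lit 490227968996) (nat_lit 76) (nat_lit 265870642743) (nat_lit 18) (nat_lit 5) (nat_lit 21) (nat_lit 5) (nat_lit 19) (nat_lit 4) (nat_lit 350) (nat_lit 323) (nat_lit 107)) (XT.lf (nat_lit 0) (nat_lit 168345873380) (nat_lit 532) (nat_lit 56575246668) (nat_lit 532) (nat_lit 56575246668) (nat_lit 44) (nat_lit 3) (nat_lit 51) (nat_lit 3) (nat_lit 51) (nat_lit 5) (nat_lit 324) (nat_lit 324) (nat_lit 132))) (XT.nd (nat_lit 78) (nat_lit 0) (nat_lit 76) (XT.lf (nat_lit 76) (nat_lit 149750262727) (nat_lit 0) (nat_lit 204010839496) (nat_lit 532) (nat_lit 231463205088) (nat_lit 45) (nat_lit 5) (nat_lit 44) (nat_lit 3) (nat_lit 51) (nat_lit 5) (nat_lit 325) (nat_lit 324) (nat_lit 131)) (XT.lf (nat_lit 0) (nat_lit 376848844589) (nat_lit 456) (nat_lit 170427995068) (nat_lit 532) (nat_lit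 61585340424) (nat_lit 45) (nat_lit 5) (nat_lit 51) (nat_lit 5) (nat_lit 52) (nat_lit 5) (nat_lit 326) (nat_lit 324) (nat_lit 130)))) (XT.nd (nat_lit 156) (nat_lit 0) (nat_lit 76) (XT.nd (nat_lit 78) (nat_lit 0) (nat_lit 0) (XT.lf (nat_lit 76) (nat_lit 116342675805) (nat_lit 0) (nat_lit 293537940049) (nat_lit 532) (nat_lit 223862706114) (nat_lit 46) (nat_lit 5) (nat_lit 45) (nat_lit 5) (nat_lit 52) (nat_lit 5) (nat_lit 327) (nat_lit 324) (nat_lit 129)) (XT.lf (nat_lit 76) (nat_lit 435747380138) (nat_lit 0) (nat_lit 14467335629) (nat_lit 532) (nat_lit 210027456535) (nat_lit 46) (nat_lit 5) (nat_lit 45) (nat_lit 5) (nat_lit 52) (nat_lit 5) (nat_lit 328) (nat_lit 324) (nat_lit 128))) (XT.nd (nat_lit 78) (nat_lit 0) (nat_lit 0) (XT.lf (nat_lit 76) (nat_lit 89415811999) (nat_lit 0) (nat_lit 413410816336) (nat_lit 532) (nat_lit 185310215606) (nat_lit 47) (nat_lit 5) (nat_lit 46) (nat_lit 5)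 (nat_lit 53) (nat_lit 5) (nat_lit 329) (nat_lit 324) (nat_lit 127)) (XT.lf (nat_lit 76) (nat_lit 440810908105) (nat_lit 0) (nat_lit 125340918636) (nat_lit 532) (nat_lit 151590915987) (nat_lit 47) (nat_lit 5) (nat_lit 46) (nat_lit 5) (nat_lit 53) (nat_lit 5) (nat_lit 330) (nat_lit 324) (nat_lit 126)))))) (XT.nd (nat_lit 624) (nat_lit 684) (nat_lit 0) (XT.nd (nat_lit 312) (nat_lit 456) (nat_lit 0) (XT.nd (nat_lit 156) (nat_lit 304) (nat_lit 0) (XT.nd (nat_lit 78) (nat_lit 0) (nat_lit 0) (XT.lf (nat_lit 0) (nat_lit 69615029444) (nat_lit 456) (nat_lit 571070124441) (nat_lit 532) (nat_lit 108540590546) (nat_lit 41) (nat_lit 5) (nat_lit 47) (nat_lit 5) (nat_lit 48) (nat_lit 5) (nat_lit 331) (nat_lit 324) (nat_lit 125)) (XT.lf (nat_lit 0) (nat_lit 456207947063) (nat_lit 456) (nat_lit 275718182606) (nat_lit 532) (nat_lit 50441658042) (nat_lit 41) (nat_lit 5) (nat_lit 47) (nat_lit 5) (nat_lit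 48) (nat_lit 5) (nat_lit 332) (nat_lit 324) (nat_lit 124))) (XT.nd (nat_lit 78) (nat_lit 0) (nat_lit 0) (XT.lf (nat_lit 0) (nat_lit 14173372986) (nat_lit 304) (nat_lit 760928427065) (nat_lit 76) (nat_lit 42837020083) (nat_lit 37) (nat_lit 5) (nat_lit 41) (nat_lit 5) (nat_lit 38) (nat_lit 5) (nat_lit 333) (nat_lit 324) (nat_lit 123)) (XT.lf (nat_lit 0) (nat_lit 97543365674) (nat_lit 304) (nat_lit 374962194518) (nat_lit 76) (nat_lit 382440287646) (nat_lit 37) (nat_lit 5) (nat_lit 41) (nat_lit 5) (nat_lit 38) (nat_lit 5) (nat_lit 334) (nat_lit 324) (nat_lit 122)))) (XT.nd (nat_lit 156) (nat_lit 228) (nat_lit 0) (XT.nd (nat_lit 78) (nat_lit 0) (nat_lit 0) (XT.lf (nat_lit 0) (nat_lit 44086721898) (nat_lit 228) (nat_lit 144556512174) (nat_lit 304) (nat_lit 706185381609) (nat_lit 34) (nat_lit 5) (nat_lit 37) (nat_lit 5) (nat_lit 38) (nat_lit 5) (nat_lit 335) (nat_lit 324) (nat_lit 121)) (XT.lf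 (nat_lit 0) (nat_lit 302591071505) (nat_lit 304) (nat_lit 424405720849) (nat_lit 76) (nat_lit 209660414259) (nat_lit 34) (nat_lit 5) (nat_lit 38) (nat_lit 5) (nat_lit 35) (nat_lit 5) (nat_lit 336) (nat_lit 324) (nat_lit 120))) (XT.nd (nat_lit 78) (nat_lit 0) (nat_lit 0) (XT.lf (nat_lit 0) (nat_lit 33982566135) (nat_lit 228) (nat_lit 396244156732) (nat_lit 304) (nat_lit 551239603022) (nat_lit 31) (nat_lit 5) (nat_lit 34) (nat_lit 5) (nat_lit 35) (nat_lit 5) (nat_lit 337) (nat_lit 324) (nat_lit 119)) (XT.lf (nat_lit 0) (nat_lit 553178234982) (nat_lit 228) (nat_lit 26498987105) (nat_lit 304) (nat_lit 449254632984) (nat_lit 31) (nat_lit 5) (nat_lit 34) (nat_lit 5) (nat_lit 35) (nat_lit 5) (nat_lit 338) (nat_lit 324) (nat_lit 118))))) (XT.nd (nat_lit 312) (nat_lit 304) (nat_lit 0) (XT.nd (nat_lit 156) (nat_lit 228) (nat_lit 0) (XT.nd (nat_lit 78) (nat_lit 0) (nat_lit 0) (XT.lf (nat_lit 0)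 (nat_lit 26051660607) (nat_lit 152) (nat_lit 724625104904) (nat_lit 228) (nat_lit 328750420756) (nat_lit 29) (nat_lit 5) (nat_lit 31) (nat_lit 5) (nat_lit 32) (nat_lit 5) (nat_lit 339) (nat_lit 324) (nat_lit 117)) (XT.lf (nat_lit 0) (nat_lit 594333354330) (nat_lit 152) (nat_lit 354701717794) (nat_lit 228) (nat_lit 183832767876) (nat_lit 29) (nat_lit 5) (nat_lit 31) (nat_lit 5) (nat_lit 32) (nat_lit 5) (nat_lit 340) (nat_lit 324) (nat_lit 116))) (XT.nd (nat_lit 78) (nat_lit 76) (nat_lit 0) (XT.lf (nat_lit 0) (nat_lit 17280450951) (nat_lit 152) (nat_lit 1147474995126) (nat_lit 228) (nat_lit 25708827748) (nat_lit 27) (nat_lit 5) (nat_lit 29) (nat_lit 5) (nat_lit 30) (nat_lit 5) (nat_lit 341) (nat_lit 324) (nat_lit 115)) (XT.lf (nat_lit 0) (nat_lit 162128253278) (nat_lit 228) (nat_lit 616387260771) (nat_lit 76) (nat_lit 471928205660) (nat_lit 26) (nat_lit 5) (nat_lit 29) (nat_lit 5) (nat_lit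 27) (nat_lit 5) (nat_lit 342) (nat_lit 324) (nat_lit 114)))) (XT.nd (nat_lit 156) (nat_lit 152) (nat_lit 0) (XT.nd (nat_lit 78) (nat_lit 152) (nat_lit 0) (XT.lf (nat_lit 0) (nat_lit 363603349697) (nat_lit 228) (nat_lit 15714744744) (nat_lit 76) (nat_lit 935850006426) (nat_lit 26) (nat_lit 5) (nat_lit 29) (nat_lit 5) (nat_lit 27) (nat_lit 5) (nat_lit 343) (nat_lit 324) (nat_lit 113)) (XT.lf (nat_lit 0) (nat_lit 598884461286) (nat_lit 228) (nat_lit 719105957538) (nat_lit 76) (nat_lit 65664973110) (nat_lit 24) (nat_lit 5) (nat_lit 27) (nat_lit 5) (nat_lit 25) (nat_lit 5) (nat_lit 344) (nat_lit 324) (nat_lit 112))) (XT.nd (nat_lit 78) (nat_lit 152) (nat_lit 0) (XT.lf (nat_lit 0) (nat_lit 863281303096) (nat_lit 228) (nat_lit 67322420516) (nat_lit 76) (nat_lit 526194483383) (nat_lit 24) (nat_lit 5) (nat_lit 27) (nat_lit 5) (nat_lit 25) (nat_lit 5) (nat_lit 345) (nat_lit 324) (nat_lit 111))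 (XT.lf (nat_lit 0) (nat_lit 670126218806) (nat_lit 152) (nat_lit 494820219618) (nat_lit 228) (nat_lit 369556685156) (nat_lit 22) (nat_lit 5) (nat_lit 24) (nat_lit 5) (nat_lit 25) (nat_lit 5) (nat_lit 346) (nat_lit 324) (nat_lit 110))))))))
noncomputable def xc125 : XT := (XT.nd (nat_lit 79872) (nat_lit 0) (nat_lit 152) (XT.nd (nat_lit 39858) (nat_lit 0) (nat_lit 0) (XT.nd (nat_lit 39234) (nat_lit 0) (nat_lit 1064) (XT.nd (nat_lit 38922) (nat_lit 0) (nat_lit 1824) (XT.nd (nat_lit 78) (nat_lit 152) (nat_lit 0) (XT.lf (nat_lit 0) (nat_lit 1470399427037) (nat_lit 152) (nat_lit 22186066534) (nat_lit 228) (nat_lit 125691683210) (nat_lit 22) (nat_lit 5) (nat_lit 24) (nat_lit 5) (nat_lit 25) (nat_lit 5) (nat_lit 347) (nat_lit 324) (nat_lit 109)) (XT.nd (nat_lit 78) (nat_lit 0) (nat_lit 0) (XT.lf (nat_lit 0) (nat_lit 158795929281) (nat_lit 152) (nat_lit 1064048638720) (nat_lit 76) (nat_lit 483403617008)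 (nat_lit 20) (nat_lit 5) (nat_lit 22) (nat_lit 5) (nat_lit 21) (nat_lit 5) (nat_lit 348) (nat_lit 324) (nat_lit 108)) (XT.lf (nat_lit 0) (nat_lit 463976450680) (nat_lit 152) (nat_lit 300986457547) (nat_lit 76) (nat_lit 1035654826910) (nat_lit 20) (nat_lit 5) (nat_lit 22) (nat_lit 5) (nat_lit 21) (nat_lit 5) (nat_lit 349) (nat_lit 324) (nat_lit 107)))) (XT.nd (nat_lit 156) (nat_lit 0) (nat_lit 76) (XT.nd (nat_lit 78) (nat_lit 0) (nat_lit 0) (XT.lf (nat_lit 0) (nat_lit 181813726897) (nat_lit 532) (nat_lit 61101166933) (nat_lit 532) (nat_lit 61101166933) (nat_lit 44) (nat_lit 3) (nat_lit 51) (nat_lit 3) (nat_lit 51) (nat_lit 5) (nat_lit 325) (nat_lit 325) (nat_lit 130)) (XT.lf (nat_lit 76) (nat_lit 161730477647) (nat_lit 0) (nat_lit 220331857504) (nat_lit 532) (nat_lit 249979888054) (nat_lit 45) (nat_lit 5) (nat_lit 44) (nat_lit 3) (nat_lit 51) (nat_lit 5) (nat_lit 326) (nat_lit 325) (nat_lit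 129))) (XT.nd (nat_lit 78) (nat_lit 0) (nat_lit 0) (XT.lf (nat_lit 0) (nat_lit 406997068010) (nat_lit 456) (nat_lit 184062025209) (nat_lit 532) (nat_lit 66512034971) (nat_lit 45) (nat_lit 5) (nat_lit 51) (nat_lit 5) (nat_lit 52) (nat_lit 5) (nat_lit 327) (nat_lit 325) (nat_lit 128)) (XT.lf (nat_lit 76) (nat_lit 125650294031) (nat_lit 0) (nat_lit 317021068458) (nat_lit 532) (nat_lit 241771400494) (nat_lit 46) (nat_lit 5) (nat_lit 45) (nat_lit 5) (nat_lit 52) (nat_lit 5) (nat_lit 328) (nat_lit 325) (nat_lit 127))))) (XT.nd (nat_lit 312) (nat_lit 532) (nat_lit 0) (XT.nd (nat_lit 156) (nat_lit 304) (nat_lit 0) (XT.nd (nat_lit 78) (nat_lit 0) (nat_lit 76) (XT.lf (nat_lit 76) (nat_lit 470607359588) (nat_lit 0) (nat_lit 15624808781) (nat_lit 532) (nat_lit 226829354808) (nat_lit 46) (nat_lit 5) (nat_lit 45) (nat_lit 5) (nat_lit 52) (nat_lit 5) (nat_lit 329) (nat_lit 325) (nat_lit 126)) (XT.lf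 (nat_lit 76) (nat_lit 96569285564) (nat_lit 0) (nat_lit 446483731077) (nat_lit 532) (nat_lit 200134753355) (nat_lit 47) (nat_lit 5) (nat_lit 46) (nat_lit 5) (nat_lit 53) (nat_lit 5) (nat_lit 330) (nat_lit 325) (nat_lit 125))) (XT.nd (nat_lit 78) (nat_lit 380) (nat_lit 0) (XT.lf (nat_lit 76) (nat_lit 476075973906) (nat_lit 0) (nat_lit 135368237900) (nat_lit 532) (nat_lit 163717930470) (nat_lit 47) (nat_lit 5) (nat_lit 46) (nat_lit 5) (nat_lit 53) (nat_lit 5) (nat_lit 331) (nat_lit 325) (nat_lit 124)) (XT.lf (nat_lit 0) (nat_lit 75184440503) (nat_lit 456) (nat_lit 616755750920) (nat_lit 532) (nat_lit 117223593844) (nat_lit 41) (nat_lit 5) (nat_lit 47) (nat_lit 5) (nat_lit 48) (nat_lit 5) (nat_lit 332) (nat_lit 325) (nat_lit 123)))) (XT.nd (nat_lit 156) (nat_lit 228) (nat_lit 0) (XT.nd (nat_lit 78) (nat_lit 304) (nat_lit 0) (XT.lf (nat_lit 0) (nat_lit 492704776072) (nat_lit 456) (nat_lit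 297775652514) (nat_lit 532) (nat_lit 54476764810) (nat_lit 41) (nat_lit 5) (nat_lit 47) (nat_lit 5) (nat_lit 48) (nat_lit 5) (nat_lit 333) (nat_lit 325) (nat_lit 122)) (XT.lf (nat_lit 0) (nat_lit 15307446231) (nat_lit 304) (nat_lit 821802484360) (nat_lit 76) (nat_lit 46263978326) (nat_lit 37) (nat_lit 5) (nat_lit 41) (nat_lit 5) (nat_lit 38) (nat_lit 5) (nat_lit 334) (nat_lit 325) (nat_lit 121))) (XT.nd (nat_lit 78) (nat_lit 228) (nat_lit 0) (XT.lf (nat_lit 0) (nat_lit 105347023266) (nat_lit 304) (nat_lit 404958969273) (nat_lit 76) (nat_lit 413035507543) (nat_lit 37) (nat_lit 5) (nat_lit 41) (nat_lit 5) (nat_lit 38) (nat_lit 5) (nat_lit 335) (nat_lit 325) (nat_lit 120)) (XT.lf (nat_lit 0) (nat_lit 47613855372) (nat_lit 228) (nat_lit 156121016520) (nat_lit 304) (nat_lit 762680018239) (nat_lit 34) (nat_lit 5) (nat_lit 37) (nat_lit 5) (nat_lit 38) (nat_lit 5) (nat_lit 336) (nat_lit 325)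 (nat_lit 119)))))) (XT.nd (nat_lit 624) (nat_lit 456) (nat_lit 0) (XT.nd (nat_lit 312) (nat_lit 228) (nat_lit 0) (XT.nd (nat_lit 156) (nat_lit 152) (nat_lit 0) (XT.nd (nat_lit 78) (nat_lit 228) (nat_lit 0) (XT.lf (nat_lit 0) (nat_lit 326798523425) (nat_lit 304) (nat_lit 458357983955) (nat_lit 76) (nat_lit 226433262025) (nat_lit 34) (nat_lit 5) (nat_lit 38) (nat_lit 5) (nat_lit 35) (nat_lit 5) (nat_lit 337) (nat_lit 325) (nat_lit 118)) (XT.lf (nat_lit 0) (nat_lit 36701361062) (nat_lit 228) (nat_lit 427943658083) (nat_lit 304) (nat_lit 595338599731) (nat_lit 31) (nat_lit 5) (nat_lit 34) (nat_lit 5) (nat_lit 35) (nat_lit 5) (nat_lit 338) (nat_lit 325) (nat_lit 117))) (XT.nd (nat_lit 78) (nat_lit 152) (nat_lit 0) (XT.lf (nat_lit 0) (nat_lit 597432669370) (nat_lit 228) (nat_lit 28618877196) (nat_lit 304) (nat_lit 485194844796) (nat_lit 31) (nat_lit 5) (nat_lit 34) (nat_lit 5) (nat_lit 35)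 (nat_lit 5) (nat_lit 339) (nat_lit 325) (nat_lit 116)) (XT.lf (nat_lit 0) (nat_lit 28135975730) (nat_lit 152) (nat_lit 782595071892) (nat_lit 228) (nat_lit 355050301926) (nat_lit 29) (nat_lit 5) (nat_lit 31) (nat_lit 5) (nat_lit 32) (nat_lit 5) (nat_lit 340) (nat_lit 325) (nat_lit 115)))) (XT.nd (nat_lit 156) (nat_lit 76) (nat_lit 0) (XT.nd (nat_lit 78) (nat_lit 152) (nat_lit 0) (XT.lf (nat_lit 0) (nat_lit 641880191450) (nat_lit 152) (nat_lit 383077816880) (nat_lit 228) (nat_lit 198539248111) (nat_lit 29) (nat_lit 5) (nat_lit 31) (nat_lit 5) (nat_lit 32) (nat_lit 5) (nat_lit 341) (nat_lit 325) (nat_lit 114)) (XT.lf (nat_lit 0) (nat_lit 18663061116) (nat_lit 152) (nat_lit 1239272946462) (nat_lit 228) (nat_lit 27765397788) (nat_lit 27) (nat_lit 5) (nat_lit 29) (nat_lit 5) (nat_lit 30) (nat_lit 5) (nat_lit 342) (nat_lit 325) (nat_lit 113))) (XT.nd (nat_lit 78) (nat_lit 0) (nat_lit 0) (XT.lf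 (nat_lit 0) (nat_lit 175098633326) (nat_lit 228) (nat_lit 665698073874) (nat_lit 76) (nat_lit 509682500246) (nat_lit 26) (nat_lit 5) (nat_lit 29) (nat_lit 5) (nat_lit 27) (nat_lit 5) (nat_lit 343) (nat_lit 325) (nat_lit 112)) (XT.lf (nat_lit 0) (nat_lit 392691728585) (nat_lit 228) (nat_lit 16971768992) (nat_lit 76) (nat_lit 1010718042248) (nat_lit 26) (nat_lit 5) (nat_lit 29) (nat_lit 5) (nat_lit 27) (nat_lit 5) (nat_lit 344) (nat_lit 325) (nat_lit 111))))) (XT.nd (nat_lit 312) (nat_lit 152) (nat_lit 0) (XT.nd (nat_lit 156) (nat_lit 152) (nat_lit 0) (XT.nd (nat_lit 78) (nat_lit 0) (nat_lit 0) (XT.lf (nat_lit 0) (nat_lit 646795325610) (nat_lit 228) (nat_lit 776634275097) (nat_lit 76) (nat_lit 70918213767) (nat_lit 24) (nat_lit 5) (nat_lit 27) (nat_lit 5) (nat_lit 25) (nat_lit 5) (nat_lit 345) (nat_lit 325) (nat_lit 110)) (XT.lf (nat_lit 0) (nat_lit 932343906808) (nat_lit 228) (nat_lit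 72708066895) (nat_lit 76) (nat_lit 568290081691) (nat_lit 24) (nat_lit 5) (nat_lit 27) (nat_lit 5) (nat_lit 25) (nat_lit 5) (nat_lit 346) (nat_lit 325) (nat_lit 109))) (XT.nd (nat_lit 78) (nat_lit 0) (nat_lit 0) (XT.lf (nat_lit 0) (nat_lit 723736459845) (nat_lit 152) (nat_lit 534405789201) (nat_lit 228) (nat_lit 399121116587) (nat_lit 22) (nat_lit 5) (nat_lit 24) (nat_lit 5) (nat_lit 25) (nat_lit 5) (nat_lit 347) (nat_lit 325) (nat_lit 108)) (XT.lf (nat_lit 0) (nat_lit 1588031514103) (nat_lit 152) (nat_lit 23960907425) (nat_lit 228) (nat_lit 135746922144) (nat_lit 22) (nat_lit 5) (nat_lit 24) (nat_lit 5) (nat_lit 25) (nat_lit 5) (nat_lit 348) (nat_lit 325) (nat_lit 107)))) (XT.nd (nat_lit 38922) (nat_lit 0) (nat_lit 1824) (XT.nd (nat_lit 38844) (nat_lit 0) (nat_lit 1824) (XT.lf (nat_lit 0) (nat_lit 171499692183) (nat_lit 152) (nat_lit 1149172389438) (nat_lit 76) (nat_lit 522075950953)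 (nat_lit 20) (nat_lit 5) (nat_lit 22) (nat_lit 5) (nat_lit 21) (nat_lit 5) (nat_lit 349) (nat_lit 325) (nat_lit 106)) (XT.lf (nat_lit 0) (nat_lit 196358982496) (nat_lit 532) (nat_lit 65989175009) (nat_lit 532) (nat_lit 65989175009) (nat_lit 44) (nat_lit 3) (nat_lit 51) (nat_lit 3) (nat_lit 51) (nat_lit 5) (nat_lit 326) (nat_lit 326) (nat_lit 128))) (XT.nd (nat_lit 78) (nat_lit 0) (nat_lit 76) (XT.lf (nat_lit 76) (nat_lit 174669082098) (nat_lit 0) (nat_lit 237958535432) (nat_lit 532) (nat_lit 269977958933) (nat_lit 45) (nat_lit 5) (nat_lit 44) (nat_lit 3) (nat_lit 51) (nat_lit 5) (nat_lit 327) (nat_lit 326) (nat_lit 127)) (XT.lf (nat_lit 0) (nat_lit 439557104244) (nat_lit 456) (nat_lit 198786807644) (nat_lit 532) (nat_lit 71832884012) (nat_lit 45) (nat_lit 5) (nat_lit 51) (nat_lit 5) (nat_lit 52) (nat_lit 5) (nat_lit 328) (nat_lit 326) (nat_lit 126))))))) (XT.nd (nat_lit 1170) (nat_lit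 380) (nat_lit 0) (XT.nd (nat_lit 546) (nat_lit 760) (nat_lit 0) (XT.nd (nat_lit 234) (nat_lit 608) (nat_lit 0) (XT.nd (nat_lit 78) (nat_lit 0) (nat_lit 0) (XT.lf (nat_lit 76) (nat_lit 135702492589) (nat_lit 0) (nat_lit 342382833844) (nat_lit 532) (nat_lit 261112836377) (nat_lit 46) (nat_lit 5) (nat_lit 45) (nat_lit 5) (nat_lit 52) (nat_lit 5) (nat_lit 329) (nat_lit 326) (nat_lit 125)) (XT.nd (nat_lit 78) (nat_lit 0) (nat_lit 76) (XT.lf (nat_lit 76) (nat_lit 508256110424) (nat_lit 0) (nat_lit 16874867474) (nat_lit 532) (nat_lit 244975447492) (nat_lit 46) (nat_lit 5) (nat_lit 45) (nat_lit 5) (nat_lit 52) (nat_lit 5) (nat_lit 330) (nat_lit 326) (nat_lit 124)) (XT.lf (nat_lit 76) (nat_lit 104295007254) (nat_lit 0) (nat_lit 482202471945) (nat_lit 532) (nat_lit 216145293997) (nat_lit 47) (nat_lit 5) (nat_lit 46) (nat_lit 5) (nat_lit 53) (nat_lit 5) (nat_lit 331) (nat_lit 326) (nat_lit 123))))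 (XT.nd (nat_lit 156) (nat_lit 304) (nat_lit 0) (XT.nd (nat_lit 78) (nat_lit 380) (nat_lit 0) (XT.lf (nat_lit 76) (nat_lit 514162217416) (nat_lit 0) (nat_lit 146197736175) (nat_lit 532) (nat_lit 176815143032) (nat_lit 47) (nat_lit 5) (nat_lit 46) (nat_lit 5) (nat_lit 53) (nat_lit 5) (nat_lit 332) (nat_lit 326) (nat_lit 122)) (XT.lf (nat_lit 0) (nat_lit 81199374672) (nat_lit 456) (nat_lit 666096225161) (nat_lit 532) (nat_lit 126601272208) (nat_lit 41) (nat_lit 5) (nat_lit 47) (nat_lit 5) (nat_lit 48) (nat_lit 5) (nat_lit 333) (nat_lit 326) (nat_lit 121))) (XT.nd (nat_lit 78) (nat_lit 304) (nat_lit 0) (XT.lf (nat_lit 0) (nat_lit 532121323833) (nat_lit 456) (nat_lit 321597717833) (nat_lit 532) (nat_lit 58834712343) (nat_lit 41) (nat_lit 5) (nat_lit 47) (nat_lit 5) (nat_lit 48) (nat_lit 5) (nat_lit 334) (nat_lit 326) (nat_lit 120)) (XT.lf (nat_lit 0) (nat_lit 16532216317) (nat_lit 304) (nat_lit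 887546497178) (nat_lit 76) (nat_lit 49965093709) (nat_lit 37) (nat_lit 5) (nat_lit 41) (nat_lit 5) (nat_lit 38) (nat_lit 5) (nat_lit 335) (nat_lit 326) (nat_lit 119))))) (XT.nd (nat_lit 312) (nat_lit 304) (nat_lit 0) (XT.nd (nat_lit 156) (nat_lit 228) (nat_lit 0) (XT.nd (nat_lit 78) (nat_lit 228) (nat_lit 0) (XT.lf (nat_lit 0) (nat_lit 113774946597) (nat_lit 304) (nat_lit 437355514657) (nat_lit 76) (nat_lit 446078345476) (nat_lit 37) (nat_lit 5) (nat_lit 41) (nat_lit 5) (nat_lit 38) (nat_lit 5) (nat_lit 336) (nat_lit 326) (nat_lit 118)) (XT.lf (nat_lit 0) (nat_lit 51423131602) (nat_lit 228) (nat_lit 168610683586) (nat_lit 304) (nat_lit 823694253461) (nat_lit 34) (nat_lit 5) (nat_lit 37) (nat_lit 5) (nat_lit 38) (nat_lit 5) (nat_lit 337) (nat_lit 326) (nat_lit 117))) (XT.nd (nat_lit 78) (nat_lit 228) (nat_lit 0) (XT.lf (nat_lit 0) (nat_lit 352942547787) (nat_lit 304) (nat_lit 495026455866)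 (nat_lit 76) (nat_lit 244547935526) (nat_lit 34) (nat_lit 5) (nat_lit 38) (nat_lit 5) (nat_lit 35) (nat_lit 5) (nat_lit 338) (nat_lit 326) (nat_lit 116)) (XT.lf (nat_lit 0) (nat_lit 39637632530) (nat_lit 228) (nat_lit 462179123991) (nat_lit 304) (nat_lit 642965540648) (nat_lit 31) (nat_lit 5) (nat_lit 34) (nat_lit 5) (nat_lit 35) (nat_lit 5) (nat_lit 339) (nat_lit 326) (nat_lit 115)))) (XT.nd (nat_lit 156) (nat_lit 152) (nat_lit 0) (XT.nd (nat_lit 78) (nat_lit 152) (nat_lit 0) (XT.lf (nat_lit 0) (nat_lit 645227433458) (nat_lit 228) (nat_lit 30908362614) (nat_lit 304) (nat_lit 524010296212) (nat_lit 31) (nat_lit 5) (nat_lit 34) (nat_lit 5) (nat_lit 35) (nat_lit 5) (nat_lit 340) (nat_lit 326) (nat_lit 114)) (XT.lf (nat_lit 0) (nat_lit 30387010061) (nat_lit 152) (nat_lit 845202642145) (nat_lit 228) (nat_lit 383454195344) (nat_lit 29) (nat_lit 5) (nat_lit 31) (nat_lit 5) (nat_lit 32) (nat_lit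 5) (nat_lit 341) (nat_lit 326) (nat_lit 113))) (XT.nd (nat_lit 78) (nat_lit 152) (nat_lit 0) (XT.lf (nat_lit 0) (nat_lit 693230751462) (nat_lit 152) (nat_lit 413724009362) (nat_lit 228) (nat_lit 214422266908) (nat_lit 29) (nat_lit 5) (nat_lit 31) (nat_lit 5) (nat_lit 32) (nat_lit 5) (nat_lit 342) (nat_lit 326) (nat_lit 112)) (XT.lf (nat_lit 0) (nat_lit 20156255258) (nat_lit 152) (nat_lit 1338414740792) (nat_lit 228) (nat_lit 29986512858) (nat_lit 27) (nat_lit 5) (nat_lit 29) (nat_lit 5) (nat_lit 30) (nat_lit 5) (nat_lit 343) (nat_lit 326) (nat_lit 111)))))) (XT.nd (nat_lit 39546) (nat_lit 0) (nat_lit 1140) (XT.nd (nat_lit 312) (nat_lit 152) (nat_lit 0) (XT.nd (nat_lit 156) (nat_lit 152) (nat_lit 0) (XT.nd (nat_lit 78) (nat_lit 0) (nat_lit 0) (XT.lf (nat_lit 0) (nat_lit 189106626688) (nat_lit 228) (nat_lit 718953775958) (nat_lit 76) (nat_lit 550457132959) (nat_lit 26) (nat_lit 5) (nat_lit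 29) (nat_lit 5) (nat_lit 27) (nat_lit 5) (nat_lit 344) (nat_lit 326) (nat_lit 110)) (XT.lf (nat_lit 0) (nat_lit 424107161961) (nat_lit 228) (nat_lit 18329377339) (nat_lit 76) (nat_lit 1091575515900) (nat_lit 26) (nat_lit 5) (nat_lit 29) (nat_lit 5) (nat_lit 27) (nat_lit 5) (nat_lit 345) (nat_lit 326) (nat_lit 109))) (XT.nd (nat_lit 78) (nat_lit 0) (nat_lit 0) (XT.lf (nat_lit 0) (nat_lit 698539043755) (nat_lit 228) (nat_lit 838764880751) (nat_lit 76) (nat_lit 76591707569) (nat_lit 24) (nat_lit 5) (nat_lit 27) (nat_lit 5) (nat_lit 25) (nat_lit 5) (nat_lit 346) (nat_lit 326) (nat_lit 108)) (XT.lf (nat_lit 0) (nat_lit 1006931504627) (nat_lit 228) (nat_lit 78524585993) (nat_lit 76) (nat_lit 613753322208) (nat_lit 24) (nat_lit 5) (nat_lit 27) (nat_lit 5) (nat_lit 25) (nat_lit 5) (nat_lit 347) (nat_lit 326) (nat_lit 107)))) (XT.nd (nat_lit 39078) (nat_lit 0) (nat_lit 1672) (XT.nd (nat_lit 39000)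 (nat_lit 0) (nat_lit 1672) (XT.lf (nat_lit 0) (nat_lit 781635499690) (nat_lit 152) (nat_lit 577158211197) (nat_lit 228) (nat_lit 431050717281) (nat_lit 22) (nat_lit 5) (nat_lit 24) (nat_lit 5) (nat_lit 25) (nat_lit 5) (nat_lit 348) (nat_lit 326) (nat_lit 106)) (XT.lf (nat_lit 0) (nat_lit 212067836082) (nat_lit 532) (nat_lit 71268235896) (nat_lit 532) (nat_lit 71268235896) (nat_lit 44) (nat_lit 3) (nat_lit 51) (nat_lit 3) (nat_lit 51) (nat_lit 5) (nat_lit 327) (nat_lit 327) (nat_lit 126))) (XT.nd (nat_lit 78) (nat_lit 0) (nat_lit 76) (XT.lf (nat_lit 76) (nat_lit 188642751190) (nat_lit 0) (nat_lit 256995329144) (nat_lit 532) (nat_lit 291575921157) (nat_lit 45) (nat_lit 5) (nat_lit 44) (nat_lit 3) (nat_lit 51) (nat_lit 5) (nat_lit 328) (nat_lit 327) (nat_lit 125)) (XT.lf (nat_lit 0) (nat_lit 474721904745) (nat_lit 456) (nat_lit 214689598293) (nat_lit 532) (nat_lit 77579417204) (nat_lit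 45) (nat_lit 5) (nat_lit 51) (nat_lit 5) (nat_lit 52) (nat_lit 5) (nat_lit 329) (nat_lit 327) (nat_lit 124))))) (XT.nd (nat_lit 312) (nat_lit 608) (nat_lit 0) (XT.nd (nat_lit 156) (nat_lit 0) (nat_lit 76) (XT.nd (nat_lit 78) (nat_lit 0) (nat_lit 0) (XT.lf (nat_lit 76) (nat_lit 146558842060) (nat_lit 0) (nat_lit 369773529060) (nat_lit 532) (nat_lit 282001626527) (nat_lit 46) (nat_lit 5) (nat_lit 45) (nat_lit 5) (nat_lit 52) (nat_lit 5) (nat_lit 330) (nat_lit 327) (nat_lit 123)) (XT.lf (nat_lit 76) (nat_lit 548916738207) (nat_lit 0) (nat_lit 18224920306) (nat_lit 532) (nat_lit 264573264070) (nat_lit 46) (nat_lit 5) (nat_lit 45) (nat_lit 5) (nat_lit 52) (nat_lit 5) (nat_lit 331) (nat_lit 327) (nat_lit 122))) (XT.nd (nat_lit 78) (nat_lit 0) (nat_lit 0) (XT.lf (nat_lit 76) (nat_lit 112638761166) (nat_lit 0) (nat_lit 520778706037) (nat_lit 532) (nat_lit 233436712077) (nat_lit 47) (nat_lit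 5) (nat_lit 46) (nat_lit 5) (nat_lit 53) (nat_lit 5) (nat_lit 332) (nat_lit 327) (nat_lit 121)) (XT.lf (nat_lit 76) (nat_lit 555295336782) (nat_lit 0) (nat_lit 157893588713) (nat_lit 532) (nat_lit 190960164252) (nat_lit 47) (nat_lit 5) (nat_lit 46) (nat_lit 5) (nat_lit 53) (nat_lit 5) (nat_lit 333) (nat_lit 327) (nat_lit 120)))) (XT.nd (nat_lit 156) (nat_lit 304) (nat_lit 0) (XT.nd (nat_lit 78) (nat_lit 0) (nat_lit 0) (XT.lf (nat_lit 0) (nat_lit 87695478049) (nat_lit 456) (nat_lit 719383935319) (nat_lit 532) (nat_lit 136729194677) (nat_lit 41) (nat_lit 5) (nat_lit 47) (nat_lit 5) (nat_lit 48) (nat_lit 5) (nat_lit 334) (nat_lit 327) (nat_lit 119)) (XT.lf (nat_lit 0) (nat_lit 574691171780) (nat_lit 456) (nat_lit 347325546505) (nat_lit 532) (nat_lit 63541323305) (nat_lit 41) (nat_lit 5) (nat_lit 47) (nat_lit 5) (nat_lit 48) (nat_lit 5) (nat_lit 335) (nat_lit 327) (nat_lit 118))) (XT.nd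 (nat_lit 78) (nat_lit 0) (nat_lit 0) (XT.lf (nat_lit 0) (nat_lit 17854943131) (nat_lit 304) (nat_lit 958550057546) (nat_lit 76) (nat_lit 53962298733) (nat_lit 37) (nat_lit 5) (nat_lit 41) (nat_lit 5) (nat_lit 38) (nat_lit 5) (nat_lit 336) (nat_lit 327) (nat_lit 117)) (XT.lf (nat_lit 0) (nat_lit 122877080760) (nat_lit 304) (nat_lit 472343808231) (nat_lit 76) (nat_lit 481764610825) (nat_lit 37) (nat_lit 5) (nat_lit 41) (nat_lit 5) (nat_lit 38) (nat_lit 5) (nat_lit 337) (nat_lit 327) (nat_lit 116))))))))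
noncomputable def xc126 : XT := (XT.nd (nat_lit 80652) (nat_lit 0) (nat_lit 228) (XT.nd (nat_lit 40248) (nat_lit 0) (nat_lit 152) (XT.nd (nat_lit 546) (nat_lit 228) (nat_lit 0) (XT.nd (nat_lit 234) (nat_lit 304) (nat_lit 0) (XT.nd (nat_lit 78) (nat_lit 228) (nat_lit 0) (XT.lf (nat_lit 0) (nat_lit 55537125992) (nat_lit 228) (nat_lit 182099526052) (nat_lit 304) (nat_lit 889589651216) (nat_lit 34) (nat_lit 5) (nat_lit 37) (nat_lit 5) (nat_lit 38) (nat_lit 5) (nat_lit 338) (nat_lit 327) (nat_lit 115)) (XT.nd (nat_lit 78) (nat_lit 228) (nat_lit 0) (XT.lf (nat_lit 0) (nat_lit 381178073771) (nat_lit 304) (nat_lit 534628429327) (nat_lit 76) (nat_lit 264111781119) (nat_lit 34) (nat_lit 5) (nat_lit 38) (nat_lit 5) (nat_lit 35) (nat_lit 5) (nat_lit 339) (nat_lit 327) (nat_lit 114)) (XT.lf (nat_lit 0) (nat_lit 42808782520) (nat_lit 228) (nat_lit 499153430987) (nat_lit 304) (nat_lit 694402657818)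 (nat_lit 31) (nat_lit 5) (nat_lit 34) (nat_lit 5) (nat_lit 35) (nat_lit 5) (nat_lit 340) (nat_lit 327) (nat_lit 113)))) (XT.nd (nat_lit 156) (nat_lit 152) (nat_lit 0) (XT.nd (nat_lit 78) (nat_lit 152) (nat_lit 0) (XT.lf (nat_lit 0) (nat_lit 696845757198) (nat_lit 228) (nat_lit 33381010397) (nat_lit 304) (nat_lit 565931003166) (nat_lit 31) (nat_lit 5) (nat_lit 34) (nat_lit 5) (nat_lit 35) (nat_lit 5) (nat_lit 341) (nat_lit 327) (nat_lit 112)) (XT.lf (nat_lit 0) (nat_lit 32818104843) (nat_lit 152) (nat_lit 912818823084) (nat_lit 228) (nat_lit 414130418886) (nat_lit 29) (nat_lit 5) (nat_lit 31) (nat_lit 5) (nat_lit 32) (nat_lit 5) (nat_lit 342) (nat_lit 327) (nat_lit 111))) (XT.nd (nat_lit 78) (nat_lit 152) (nat_lit 0) (XT.lf (nat_lit 0) (nat_lit 748689335632) (nat_lit 152) (nat_lit 446821901932) (nat_lit 228) (nat_lit 231575944478) (nat_lit 29) (nat_lit 5) (nat_lit 31) (nat_lit 5) (nat_lit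 32) (nat_lit 5) (nat_lit 343) (nat_lit 327) (nat_lit 110)) (XT.lf (nat_lit 0) (nat_lit 21768883640) (nat_lit 152) (nat_lit 1445487884572) (nat_lit 228) (nat_lit 32385333791) (nat_lit 27) (nat_lit 5) (nat_lit 29) (nat_lit 5) (nat_lit 30) (nat_lit 5) (nat_lit 344) (nat_lit 327) (nat_lit 109))))) (XT.nd (nat_lit 39390) (nat_lit 0) (nat_lit 1520) (XT.nd (nat_lit 156) (nat_lit 152) (nat_lit 0) (XT.nd (nat_lit 78) (nat_lit 0) (nat_lit 0) (XT.lf (nat_lit 0) (nat_lit 204235244869) (nat_lit 228) (nat_lit 776469954727) (nat_lit 76) (nat_lit 594493731625) (nat_lit 26) (nat_lit 5) (nat_lit 29) (nat_lit 5) (nat_lit 27) (nat_lit 5) (nat_lit 345) (nat_lit 327) (nat_lit 108)) (XT.lf (nat_lit 0) (nat_lit 458035816441) (nat_lit 228) (nat_lit 19795613353) (nat_lit 76) (nat_lit 1178901583124) (nat_lit 26) (nat_lit 5) (nat_lit 29) (nat_lit 5) (nat_lit 27) (nat_lit 5) (nat_lit 346) (nat_lit 327) (nat_lit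 107))) (XT.nd (nat_lit 39156) (nat_lit 0) (nat_lit 1520) (XT.lf (nat_lit 0) (nat_lit 754422246214) (nat_lit 228) (nat_lit 905865954309) (nat_lit 76) (nat_lit 82719075640) (nat_lit 24) (nat_lit 5) (nat_lit 27) (nat_lit 5) (nat_lit 25) (nat_lit 5) (nat_lit 347) (nat_lit 327) (nat_lit 106)) (XT.lf (nat_lit 0) (nat_lit 229033378697) (nat_lit 532) (nat_lit 76969632086) (nat_lit 532) (nat_lit 76969632086) (nat_lit 44) (nat_lit 3) (nat_lit 51) (nat_lit 3) (nat_lit 51) (nat_lit 5) (nat_lit 328) (nat_lit 328) (nat_lit 124)))) (XT.nd (nat_lit 156) (nat_lit 0) (nat_lit 76) (XT.nd (nat_lit 78) (nat_lit 0) (nat_lit 76) (XT.lf (nat_lit 76) (nat_lit 203734293476) (nat_lit 0) (nat_lit 277555050535) (nat_lit 532) (nat_lit 314901759519) (nat_lit 45) (nat_lit 5) (nat_lit 44) (nat_lit 3) (nat_lit 51) (nat_lit 5) (nat_lit 329) (nat_lit 328) (nat_lit 123)) (XT.lf (nat_lit 0) (nat_lit 512699856166) (nat_lit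 456) (nat_lit 231864634158) (nat_lit 532) (nat_lit 83785686965) (nat_lit 45) (nat_lit 5) (nat_lit 51) (nat_lit 5) (nat_lit 52) (nat_lit 5) (nat_lit 330) (nat_lit 328) (nat_lit 122))) (XT.nd (nat_lit 78) (nat_lit 0) (nat_lit 0) (XT.lf (nat_lit 76) (nat_lit 158283678082) (nat_lit 0) (nat_lit 399355470120) (nat_lit 532) (nat_lit 304561553666) (nat_lit 46) (nat_lit 5) (nat_lit 45) (nat_lit 5) (nat_lit 52) (nat_lit 5) (nat_lit 331) (nat_lit 328) (nat_lit 121)) (XT.lf (nat_lit 76) (nat_lit 592830196390) (nat_lit 0) (nat_lit 19682968315) (nat_lit 532) (nat_lit 285738937248) (nat_lit 46) (nat_lit 5) (nat_lit 45) (nat_lit 5) (nat_lit 52) (nat_lit 5) (nat_lit 332) (nat_lit 328) (nat_lit 120)))))) (XT.nd (nat_lit 546) (nat_lit 608) (nat_lit 0) (XT.nd (nat_lit 234) (nat_lit 532) (nat_lit 0) (XT.nd (nat_lit 78) (nat_lit 380) (nat_lit 0) (XT.lf (nat_lit 76) (nat_lit 121649993515) (nat_lit 0) (nat_lit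 562441033672) (nat_lit 532) (nat_lit 252111472911) (nat_lit 47) (nat_lit 5) (nat_lit 46) (nat_lit 5) (nat_lit 53) (nat_lit 5) (nat_lit 333) (nat_lit 328) (nat_lit 119)) (XT.nd (nat_lit 78) (nat_lit 380) (nat_lit 0) (XT.lf (nat_lit 76) (nat_lit 599719085444) (nat_lit 0) (nat_lit 170525104654) (nat_lit 532) (nat_lit 206236814307) (nat_lit 47) (nat_lit 5) (nat_lit 46) (nat_lit 5) (nat_lit 53) (nat_lit 5) (nat_lit 334) (nat_lit 328) (nat_lit 118)) (XT.lf (nat_lit 0) (nat_lit 94711247811) (nat_lit 456) (nat_lit 776934660558) (nat_lit 532) (nat_lit 147667376524) (nat_lit 41) (nat_lit 5) (nat_lit 47) (nat_lit 5) (nat_lit 48) (nat_lit 5) (nat_lit 335) (nat_lit 328) (nat_lit 117)))) (XT.nd (nat_lit 156) (nat_lit 228) (nat_lit 0) (XT.nd (nat_lit 78) (nat_lit 304) (nat_lit 0) (XT.lf (nat_lit 0) (nat_lit 620666587299) (nat_lit 456) (nat_lit 375111599867) (nat_lit 532) (nat_lit 68624486829) (nat_lit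 41) (nat_lit 5) (nat_lit 47) (nat_lit 5) (nat_lit 48) (nat_lit 5) (nat_lit 336) (nat_lit 328) (nat_lit 116)) (XT.lf (nat_lit 0) (nat_lit 19283466762) (nat_lit 304) (nat_lit 1035233925485) (nat_lit 76) (nat_lit 58279280512) (nat_lit 37) (nat_lit 5) (nat_lit 41) (nat_lit 5) (nat_lit 38) (nat_lit 5) (nat_lit 337) (nat_lit 328) (nat_lit 115))) (XT.nd (nat_lit 78) (nat_lit 228) (nat_lit 0) (XT.lf (nat_lit 0) (nat_lit 132707365906) (nat_lit 304) (nat_lit 510131186348) (nat_lit 76) (nat_lit 520305777728) (nat_lit 37) (nat_lit 5) (nat_lit 41) (nat_lit 5) (nat_lit 38) (nat_lit 5) (nat_lit 338) (nat_lit 328) (nat_lit 114)) (XT.lf (nat_lit 0) (nat_lit 59980219409) (nat_lit 228) (nat_lit 196667477658) (nat_lit 304) (nat_lit 960756701125) (nat_lit 34) (nat_lit 5) (nat_lit 37) (nat_lit 5) (nat_lit 38) (nat_lit 5) (nat_lit 339) (nat_lit 328) (nat_lit 113))))) (XT.nd (nat_lit 312) (nat_lit 228) (nat_lit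 0) (XT.nd (nat_lit 156) (nat_lit 152) (nat_lit 0) (XT.nd (nat_lit 78) (nat_lit 228) (nat_lit 0) (XT.lf (nat_lit 0) (nat_lit 411672424406) (nat_lit 304) (nat_lit 577398581067) (nat_lit 76) (nat_lit 285240732825) (nat_lit 34) (nat_lit 5) (nat_lit 38) (nat_lit 5) (nat_lit 35) (nat_lit 5) (nat_lit 340) (nat_lit 328) (nat_lit 112)) (XT.lf (nat_lit 0) (nat_lit 46233604625) (nat_lit 228) (nat_lit 539085685812) (nat_lit 304) (nat_lit 749954762349) (nat_lit 31) (nat_lit 5) (nat_lit 34) (nat_lit 5) (nat_lit 35) (nat_lit 5) (nat_lit 341) (nat_lit 328) (nat_lit 111))) (XT.nd (nat_lit 78) (nat_lit 152) (nat_lit 0) (XT.lf (nat_lit 0) (nat_lit 752593528425) (nat_lit 228) (nat_lit 36051473031) (nat_lit 304) (nat_lit 611205383332) (nat_lit 31) (nat_lit 5) (nat_lit 34) (nat_lit 5) (nat_lit 35) (nat_lit 5) (nat_lit 342) (nat_lit 328) (nat_lit 110)) (XT.lf (nat_lit 0) (nat_lit 35443668095) (nat_lit 152)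 (nat_lit 985844302838) (nat_lit 228) (nat_lit 447260756302) (nat_lit 29) (nat_lit 5) (nat_lit 31) (nat_lit 5) (nat_lit 32) (nat_lit 5) (nat_lit 343) (nat_lit 328) (nat_lit 109)))) (XT.nd (nat_lit 156) (nat_lit 76) (nat_lit 0) (XT.nd (nat_lit 78) (nat_lit 152) (nat_lit 0) (XT.lf (nat_lit 0) (nat_lit 808584588838) (nat_lit 152) (nat_lit 482567629928) (nat_lit 228) (nat_lit 250101931060) (nat_lit 29) (nat_lit 5) (nat_lit 31) (nat_lit 5) (nat_lit 32) (nat_lit 5) (nat_lit 344) (nat_lit 328) (nat_lit 108)) (XT.lf (nat_lit 0) (nat_lit 23510504036) (nat_lit 152) (nat_lit 1561126884917) (nat_lit 228) (nat_lit 34976074678) (nat_lit 27) (nat_lit 5) (nat_lit 29) (nat_lit 5) (nat_lit 30) (nat_lit 5) (nat_lit 345) (nat_lit 328) (nat_lit 107))) (XT.nd (nat_lit 39312) (nat_lit 0) (nat_lit 1368) (XT.lf (nat_lit 0) (nat_lit 220574139943) (nat_lit 228) (nat_lit 838587445389) (nat_lit 76) (nat_lit 642053254185)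 (nat_lit 26) (nat_lit 5) (nat_lit 29) (nat_lit 5) (nat_lit 27) (nat_lit 5) (nat_lit 346) (nat_lit 328) (nat_lit 106)) (XT.lf (nat_lit 0) (nat_lit 247356148211) (nat_lit 532) (nat_lit 83127148913) (nat_lit 532) (nat_lit 83127148913) (nat_lit 44) (nat_lit 3) (nat_lit 51) (nat_lit 3) (nat_lit 51) (nat_lit 5) (nat_lit 329) (nat_lit 329) (nat_lit 122))))))) (XT.nd (nat_lit 1170) (nat_lit 152) (nat_lit 0) (XT.nd (nat_lit 546) (nat_lit 912) (nat_lit 0) (XT.nd (nat_lit 234) (nat_lit 228) (nat_lit 0) (XT.nd (nat_lit 78) (nat_lit 0) (nat_lit 76) (XT.lf (nat_lit 76) (nat_lit 220033141714) (nat_lit 0) (nat_lit 299759536076) (nat_lit 532) (nat_lit 340093698522) (nat_lit 45) (nat_lit 5) (nat_lit 44) (nat_lit 3) (nat_lit 51) (nat_lit 5) (nat_lit 330) (nat_lit 329) (nat_lit 121)) (XT.nd (nat_lit 78) (nat_lit 0) (nat_lit 0) (XT.lf (nat_lit 0) (nat_lit 553716015305) (nat_lit 456) (nat_lit 250413691724)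 (nat_lit 532) (nat_lit 90488470236) (nat_lit 45) (nat_lit 5) (nat_lit 51) (nat_lit 5) (nat_lit 52) (nat_lit 5) (nat_lit 331) (nat_lit 329) (nat_lit 120)) (XT.lf (nat_lit 76) (nat_lit 170946482630) (nat_lit 0) (nat_lit 431303958086) (nat_lit 532) (nat_lit 328926303934) (nat_lit 46) (nat_lit 5) (nat_lit 45) (nat_lit 5) (nat_lit 52) (nat_lit 5) (nat_lit 332) (nat_lit 329) (nat_lit 119)))) (XT.nd (nat_lit 156) (nat_lit 304) (nat_lit 0) (XT.nd (nat_lit 78) (nat_lit 0) (nat_lit 76) (XT.lf (nat_lit 76) (nat_lit 640256714233) (nat_lit 0) (nat_lit 21257652406) (nat_lit 532) (nat_lit 308597891093) (nat_lit 46) (nat_lit 5) (nat_lit 45) (nat_lit 5) (nat_lit 52) (nat_lit 5) (nat_lit 333) (nat_lit 329) (nat_lit 118)) (XT.lf (nat_lit 76) (nat_lit 131382105700) (nat_lit 0) (nat_lit 607436343073) (nat_lit 532) (nat_lit 272280239739) (nat_lit 47) (nat_lit 5) (nat_lit 46) (nat_lit 5) (nat_lit 53) (nat_lit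 5) (nat_lit 334) (nat_lit 329) (nat_lit 117))) (XT.nd (nat_lit 78) (nat_lit 380) (nat_lit 0) (XT.lf (nat_lit 76) (nat_lit 647696716634) (nat_lit 0) (nat_lit 184167137756) (nat_lit 532) (nat_lit 222735619632) (nat_lit 47) (nat_lit 5) (nat_lit 46) (nat_lit 5) (nat_lit 53) (nat_lit 5) (nat_lit 335) (nat_lit 329) (nat_lit 116)) (XT.lf (nat_lit 0) (nat_lit 102288260392) (nat_lit 456) (nat_lit 839089442330) (nat_lit 532) (nat_lit 159480634849) (nat_lit 41) (nat_lit 5) (nat_lit 47) (nat_lit 5) (nat_lit 48) (nat_lit 5) (nat_lit 336) (nat_lit 329) (nat_lit 115))))) (XT.nd (nat_lit 312) (nat_lit 380) (nat_lit 0) (XT.nd (nat_lit 156) (nat_lit 228) (nat_lit 0) (XT.nd (nat_lit 78) (nat_lit 304) (nat_lit 0) (XT.lf (nat_lit 0) (nat_lit 670320018686) (nat_lit 456) (nat_lit 405120536123) (nat_lit 532) (nat_lit 74114323742) (nat_lit 41) (nat_lit 5) (nat_lit 47) (nat_lit 5) (nat_lit 48) (nat_lit 5) (nat_lit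 337) (nat_lit 329) (nat_lit 114)) (XT.lf (nat_lit 0) (nat_lit 20826253996) (nat_lit 304) (nat_lit 1118052522355) (nat_lit 76) (nat_lit 62941621136) (nat_lit 37) (nat_lit 5) (nat_lit 41) (nat_lit 5) (nat_lit 38) (nat_lit 5) (nat_lit 338) (nat_lit 329) (nat_lit 113))) (XT.nd (nat_lit 78) (nat_lit 228) (nat_lit 0) (XT.lf (nat_lit 0) (nat_lit 143324056931) (nat_lit 304) (nat_lit 550941572767) (nat_lit 76) (nat_lit 561930238264) (nat_lit 37) (nat_lit 5) (nat_lit 41) (nat_lit 5) (nat_lit 38) (nat_lit 5) (nat_lit 339) (nat_lit 329) (nat_lit 112)) (XT.lf (nat_lit 0) (nat_lit 64778742705) (nat_lit 228) (nat_lit 212400866887) (nat_lit 304) (nat_lit 1037617132457) (nat_lit 34) (nat_lit 5) (nat_lit 37) (nat_lit 5) (nat_lit 38) (nat_lit 5) (nat_lit 340) (nat_lit 329) (nat_lit 111)))) (XT.nd (nat_lit 156) (nat_lit 152) (nat_lit 0) (XT.nd (nat_lit 78) (nat_lit 228) (nat_lit 0) (XT.lf (nat_lit 0) (nat_lit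 444606308151) (nat_lit 304) (nat_lit 623590362436) (nat_lit 76) (nat_lit 308059999353) (nat_lit 34) (nat_lit 5) (nat_lit 38) (nat_lit 5) (nat_lit 35) (nat_lit 5) (nat_lit 341) (nat_lit 329) (nat_lit 110)) (XT.lf (nat_lit 0) (nat_lit 49932395449) (nat_lit 228) (nat_lit 582212523828) (nat_lit 304) (nat_lit 809951050663) (nat_lit 31) (nat_lit 5) (nat_lit 34) (nat_lit 5) (nat_lit 35) (nat_lit 5) (nat_lit 342) (nat_lit 329) (nat_lit 109))) (XT.nd (nat_lit 78) (nat_lit 152) (nat_lit 0) (XT.lf (nat_lit 0) (nat_lit 812801105564) (nat_lit 228) (nat_lit 38935575272) (nat_lit 304) (nat_lit 660101728189) (nat_lit 31) (nat_lit 5) (nat_lit 34) (nat_lit 5) (nat_lit 35) (nat_lit 5) (nat_lit 343) (nat_lit 329) (nat_lit 108)) (XT.lf (nat_lit 0) (nat_lit 38279260020) (nat_lit 152) (nat_lit 1064711824696) (nat_lit 228) (nat_lit 483041534420) (nat_lit 29) (nat_lit 5) (nat_lit 31) (nat_lit 5) (nat_lit 32)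 (nat_lit 5) (nat_lit 344) (nat_lit 329) (nat_lit 107)))))) (XT.nd (nat_lit 39936) (nat_lit 0) (nat_lit 304) (XT.nd (nat_lit 39624) (nat_lit 0) (nat_lit 1368) (XT.nd (nat_lit 39468) (nat_lit 0) (nat_lit 1292) (XT.nd (nat_lit 78) (nat_lit 152) (nat_lit 0) (XT.lf (nat_lit 0) (nat_lit 873271447129) (nat_lit 152) (nat_lit 521173019609) (nat_lit 228) (nat_lit 270110009261) (nat_lit 29) (nat_lit 5) (nat_lit 31) (nat_lit 5) (nat_lit 32) (nat_lit 5) (nat_lit 345) (nat_lit 329) (nat_lit 106)) (XT.lf (nat_lit 0) (nat_lit 25391438414) (nat_lit 152) (nat_lit 1686017009629) (nat_lit 228) (nat_lit 37774087078) (nat_lit 27) (nat_lit 5) (nat_lit 29) (nat_lit 5) (nat_lit 30) (nat_lit 5) (nat_lit 346) (nat_lit 329) (nat_lit 105))) (XT.nd (nat_lit 78) (nat_lit 0) (nat_lit 0) (XT.lf (nat_lit 0) (nat_lit 267144725132) (nat_lit 532) (nat_lit 89777274752) (nat_lit 532) (nat_lit 89777274752) (nat_lit 44) (nat_lit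 3) (nat_lit 51) (nat_lit 3) (nat_lit 51) (nat_lit 5) (nat_lit 330) (nat_lit 330) (nat_lit 120)) (XT.lf (nat_lit 76) (nat_lit 237635882865) (nat_lit 0) (nat_lit 323740368833) (nat_lit 532) (nat_lit 367301021428) (nat_lit 45) (nat_lit 5) (nat_lit 44) (nat_lit 3) (nat_lit 51) (nat_lit 5) (nat_lit 331) (nat_lit 330) (nat_lit 119)))) (XT.nd (nat_lit 156) (nat_lit 0) (nat_lit 0) (XT.nd (nat_lit 78) (nat_lit 0) (nat_lit 0) (XT.lf (nat_lit 0) (nat_lit 598013442830) (nat_lit 456) (nat_lit 270446690040) (nat_lit 532) (nat_lit 97727486395) (nat_lit 45) (nat_lit 5) (nat_lit 51) (nat_lit 5) (nat_lit 52) (nat_lit 5) (nat_lit 332) (nat_lit 330) (nat_lit 118)) (XT.lf (nat_lit 76) (nat_lit 184622295807) (nat_lit 0) (nat_lit 465808317905) (nat_lit 532) (nat_lit 355240259050) (nat_lit 46) (nat_lit 5) (nat_lit 45) (nat_lit 5) (nat_lit 52) (nat_lit 5) (nat_lit 333) (nat_lit 330) (nat_lit 117))) (XT.nd (nat_lit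 78) (nat_lit 0) (nat_lit 76) (XT.lf (nat_lit 76) (nat_lit 691477338933) (nat_lit 0) (nat_lit 22958304573) (nat_lit 532) (nat_lit 333285584233) (nat_lit 46) (nat_lit 5) (nat_lit 45) (nat_lit 5) (nat_lit 52) (nat_lit 5) (nat_lit 334) (nat_lit 330) (nat_lit 116)) (XT.lf (nat_lit 76) (nat_lit 141892770780) (nat_lit 0) (nat_lit 656031273417) (nat_lit 532) (nat_lit 294062529456) (nat_lit 47) (nat_lit 5) (nat_lit 46) (nat_lit 5) (nat_lit 53) (nat_lit 5) (nat_lit 335) (nat_lit 330) (nat_lit 115))))) (XT.nd (nat_lit 312) (nat_lit 456) (nat_lit 0) (XT.nd (nat_lit 156) (nat_lit 304) (nat_lit 0) (XT.nd (nat_lit 78) (nat_lit 380) (nat_lit 0) (XT.lf (nat_lit 76) (nat_lit 699512543432) (nat_lit 0) (nat_lit 198900529978) (nat_lit 532) (nat_lit 240554349330) (nat_lit 47) (nat_lit 5) (nat_lit 46) (nat_lit 5) (nat_lit 53) (nat_lit 5) (nat_lit 336) (nat_lit 330) (nat_lit 114)) (XT.lf (nat_lit 0) (nat_lit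 110471417894) (nat_lit 456) (nat_lit 906216605370) (nat_lit 532) (nat_lit 172238972643) (nat_lit 41) (nat_lit 5) (nat_lit 47) (nat_lit 5) (nat_lit 48) (nat_lit 5) (nat_lit 337) (nat_lit 330) (nat_lit 113))) (XT.nd (nat_lit 78) (nat_lit 304) (nat_lit 0) (XT.lf (nat_lit 0) (nat_lit 723945709690) (nat_lit 456) (nat_lit 437530186100) (nat_lit 532) (nat_lit 80043365017) (nat_lit 41) (nat_lit 5) (nat_lit 47) (nat_lit 5) (nat_lit 48) (nat_lit 5) (nat_lit 338) (nat_lit 330) (nat_lit 112)) (XT.lf (nat_lit 0) (nat_lit 22492448532) (nat_lit 304) (nat_lit 1207496623691) (nat_lit 76) (nat_lit 67976949269) (nat_lit 37) (nat_lit 5) (nat_lit 41) (nat_lit 5) (nat_lit 38) (nat_lit 5) (nat_lit 339) (nat_lit 330) (nat_lit 111)))) (XT.nd (nat_lit 156) (nat_lit 228) (nat_lit 0) (XT.nd (nat_lit 78) (nat_lit 228) (nat_lit 0) (XT.lf (nat_lit 0) (nat_lit 154790068723) (nat_lit 304) (nat_lit 595016805576) (nat_lit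 76) (nat_lit 606884655882) (nat_lit 37) (nat_lit 5) (nat_lit 41) (nat_lit 5) (nat_lit 38) (nat_lit 5) (nat_lit 340) (nat_lit 330) (nat_lit 110)) (XT.lf (nat_lit 0) (nat_lit 69961132778) (nat_lit 228) (nat_lit 229392928536) (nat_lit 304) (nat_lit 1120626413241) (nat_lit 34) (nat_lit 5) (nat_lit 37) (nat_lit 5) (nat_lit 38) (nat_lit 5) (nat_lit 341) (nat_lit 330) (nat_lit 109))) (XT.nd (nat_lit 78) (nat_lit 228) (nat_lit 0) (XT.lf (nat_lit 0) (nat_lit 480174889785) (nat_lit 304) (nat_lit 673477501312) (nat_lit 76) (nat_lit 332704806076) (nat_lit 34) (nat_lit 5) (nat_lit 38) (nat_lit 5) (nat_lit 35) (nat_lit 5) (nat_lit 342) (nat_lit 330) (nat_lit 108)) (XT.lf (nat_lit 0) (nat_lit 53927074923) (nat_lit 228) (nat_lit 628789511288) (nat_lit 304) (nat_lit 874747055263) (nat_lit 31) (nat_lit 5) (nat_lit 34) (nat_lit 5) (nat_lit 35) (nat_lit 5) (nat_lit 343) (nat_lit 330) (nat_lit 107))))))))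
noncomputable def xc127 : XT := (XT.nd (nat_lit 121290) (nat_lit 0) (nat_lit 608) (XT.nd (nat_lit 40638) (nat_lit 0) (nat_lit 152) (XT.nd (nat_lit 40014) (nat_lit 0) (nat_lit 380) (XT.nd (nat_lit 39702) (nat_lit 0) (nat_lit 1140) (XT.nd (nat_lit 78) (nat_lit 152) (nat_lit 0) (XT.lf (nat_lit 0) (nat_lit 877825275341) (nat_lit 228) (nat_lit 42050407918) (nat_lit 304) (nat_lit 712909792877) (nat_lit 31) (nat_lit 5) (nat_lit 34) (nat_lit 5) (nat_lit 35) (nat_lit 5) (nat_lit 344) (nat_lit 330) (nat_lit 106)) (XT.nd (nat_lit 39546) (nat_lit 0) (nat_lit 1140) (XT.lf (nat_lit 0) (nat_lit 41341685251) (nat_lit 152) (nat_lit 1149888751493) (nat_lit 228) (nat_lit 521684786541) (nat_lit 29) (nat_lit 5) (nat_lit 31) (nat_lit 5) (nat_lit 32) (nat_lit 5) (nat_lit 345) (nat_lit 330) (nat_lit 105)) (XT.lf (nat_lit 0) (nat_lit 288516376071) (nat_lit 532) (nat_lit 96959417232) (nat_lit 532) (nat_lit 96959417232)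 (nat_lit 44) (nat_lit 3) (nat_lit 51) (nat_lit 3) (nat_lit 51) (nat_lit 5) (nat_lit 331) (nat_lit 331) (nat_lit 118)))) (XT.nd (nat_lit 156) (nat_lit 0) (nat_lit 76) (XT.nd (nat_lit 78) (nat_lit 0) (nat_lit 76) (XT.lf (nat_lit 76) (nat_lit 256646830496) (nat_lit 0) (nat_lit 349639658244) (nat_lit 532) (nat_lit 396684954844) (nat_lit 45) (nat_lit 5) (nat_lit 44) (nat_lit 3) (nat_lit 51) (nat_lit 5) (nat_lit 332) (nat_lit 331) (nat_lit 117)) (XT.lf (nat_lit 0) (nat_lit 645854643687) (nat_lit 456) (nat_lit 292082342062) (nat_lit 532) (nat_lit 105545632615) (nat_lit 45) (nat_lit 5) (nat_lit 51) (nat_lit 5) (nat_lit 52) (nat_lit 5) (nat_lit 333) (nat_lit 331) (nat_lit 116))) (XT.nd (nat_lit 78) (nat_lit 0) (nat_lit 0) (XT.lf (nat_lit 76) (nat_lit 199392160547) (nat_lit 0) (nat_lit 503073020351) (nat_lit 532) (nat_lit 383659351860) (nat_lit 46) (nat_lit 5) (nat_lit 45) (nat_lit 5) (nat_lit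 52) (nat_lit 5) (nat_lit 334) (nat_lit 331) (nat_lit 115)) (XT.lf (nat_lit 76) (nat_lit 746795601117) (nat_lit 0) (nat_lit 24795003210) (nat_lit 532) (nat_lit 359948312533) (nat_lit 46) (nat_lit 5) (nat_lit 45) (nat_lit 5) (nat_lit 52) (nat_lit 5) (nat_lit 335) (nat_lit 331) (nat_lit 114))))) (XT.nd (nat_lit 312) (nat_lit 532) (nat_lit 0) (XT.nd (nat_lit 156) (nat_lit 380) (nat_lit 0) (XT.nd (nat_lit 78) (nat_lit 0) (nat_lit 0) (XT.lf (nat_lit 76) (nat_lit 153244275282) (nat_lit 0) (nat_lit 708513794921) (nat_lit 532) (nat_lit 317587420819) (nat_lit 47) (nat_lit 5) (nat_lit 46) (nat_lit 5) (nat_lit 53) (nat_lit 5) (nat_lit 336) (nat_lit 331) (nat_lit 113)) (XT.lf (nat_lit 76) (nat_lit 755473623610) (nat_lit 0) (nat_lit 214812590554) (nat_lit 532) (nat_lit 259798594505) (nat_lit 47) (nat_lit 5) (nat_lit 46) (nat_lit 5) (nat_lit 53) (nat_lit 5) (nat_lit 337) (nat_lit 331) (nat_lit 112)))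 (XT.nd (nat_lit 78) (nat_lit 0) (nat_lit 0) (XT.lf (nat_lit 0) (nat_lit 119309214204) (nat_lit 456) (nat_lit 978713940361) (nat_lit 532) (nat_lit 186017993581) (nat_lit 41) (nat_lit 5) (nat_lit 47) (nat_lit 5) (nat_lit 48) (nat_lit 5) (nat_lit 338) (nat_lit 331) (nat_lit 111)) (XT.lf (nat_lit 0) (nat_lit 781861443205) (nat_lit 456) (nat_lit 472532607064) (nat_lit 532) (nat_lit 86446744520) (nat_lit 41) (nat_lit 5) (nat_lit 47) (nat_lit 5) (nat_lit 48) (nat_lit 5) (nat_lit 339) (nat_lit 331) (nat_lit 110)))) (XT.nd (nat_lit 156) (nat_lit 228) (nat_lit 0) (XT.nd (nat_lit 78) (nat_lit 0) (nat_lit 0) (XT.lf (nat_lit 0) (nat_lit 24291925190) (nat_lit 304) (nat_lit 1304096267464) (nat_lit 76) (nat_lit 73415103874) (nat_lit 37) (nat_lit 5) (nat_lit 41) (nat_lit 5) (nat_lit 38) (nat_lit 5) (nat_lit 340) (nat_lit 331) (nat_lit 109)) (XT.lf (nat_lit 0) (nat_lit 167173349013) (nat_lit 304) (nat_lit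 642618070279) (nat_lit 76) (nat_lit 655435427116) (nat_lit 37) (nat_lit 5) (nat_lit 41) (nat_lit 5) (nat_lit 38) (nat_lit 5) (nat_lit 341) (nat_lit 331) (nat_lit 108))) (XT.nd (nat_lit 78) (nat_lit 0) (nat_lit 0) (XT.lf (nat_lit 0) (nat_lit 75558101125) (nat_lit 228) (nat_lit 247744356216) (nat_lit 304) (nat_lit 1210276449300) (nat_lit 34) (nat_lit 5) (nat_lit 37) (nat_lit 5) (nat_lit 38) (nat_lit 5) (nat_lit 342) (nat_lit 331) (nat_lit 107)) (XT.lf (nat_lit 0) (nat_lit 518588946967) (nat_lit 304) (nat_lit 727355624154) (nat_lit 76) (nat_lit 359321196370) (nat_lit 34) (nat_lit 5) (nat_lit 38) (nat_lit 5) (nat_lit 35) (nat_lit 5) (nat_lit 343) (nat_lit 331) (nat_lit 106)))))) (XT.nd (nat_lit 40248) (nat_lit 0) (nat_lit 228) (XT.nd (nat_lit 39936) (nat_lit 0) (nat_lit 1064) (XT.nd (nat_lit 39780) (nat_lit 0) (nat_lit 988) (XT.nd (nat_lit 39702) (nat_lit 0) (nat_lit 988) (XT.lf (nat_lit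 0) (nat_lit 58241316224) (nat_lit 228) (nat_lit 679092659806) (nat_lit 304) (nat_lit 944726751566) (nat_lit 31) (nat_lit 5) (nat_lit 34) (nat_lit 5) (nat_lit 35) (nat_lit 5) (nat_lit 344) (nat_lit 331) (nat_lit 105)) (XT.lf (nat_lit 0) (nat_lit 311597748681) (nat_lit 532) (nat_lit 104716136745) (nat_lit 532) (nat_lit 104716136745) (nat_lit 44) (nat_lit 3) (nat_lit 51) (nat_lit 3) (nat_lit 51) (nat_lit 5) (nat_lit 332) (nat_lit 332) (nat_lit 116))) (XT.nd (nat_lit 78) (nat_lit 0) (nat_lit 76) (XT.lf (nat_lit 76) (nat_lit 277178642951) (nat_lit 0) (nat_lit 377610882261) (nat_lit 532) (nat_lit 428419624089) (nat_lit 45) (nat_lit 5) (nat_lit 44) (nat_lit 3) (nat_lit 51) (nat_lit 5) (nat_lit 333) (nat_lit 332) (nat_lit 115)) (XT.lf (nat_lit 0) (nat_lit 697523122717) (nat_lit 456) (nat_lit 315448858112) (nat_lit 532) (nat_lit 113989238050) (nat_lit 45) (nat_lit 5) (nat_lit 51) (nat_lit 5)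 (nat_lit 52) (nat_lit 5) (nat_lit 334) (nat_lit 332) (nat_lit 114)))) (XT.nd (nat_lit 156) (nat_lit 0) (nat_lit 76) (XT.nd (nat_lit 78) (nat_lit 0) (nat_lit 0) (XT.lf (nat_lit 76) (nat_lit 215343602899) (nat_lit 0) (nat_lit 543318893712) (nat_lit 532) (nat_lit 414351990343) (nat_lit 46) (nat_lit 5) (nat_lit 45) (nat_lit 5) (nat_lit 52) (nat_lit 5) (nat_lit 335) (nat_lit 332) (nat_lit 113)) (XT.lf (nat_lit 76) (nat_lit 806539313567) (nat_lit 0) (nat_lit 26778632849) (nat_lit 532) (nat_lit 388744075994) (nat_lit 46) (nat_lit 5) (nat_lit 45) (nat_lit 5) (nat_lit 52) (nat_lit 5) (nat_lit 336) (nat_lit 332) (nat_lit 112))) (XT.nd (nat_lit 78) (nat_lit 0) (nat_lit 0) (XT.lf (nat_lit 76) (nat_lit 165503888327) (nat_lit 0) (nat_lit 765194915346) (nat_lit 532) (nat_lit 342994319326) (nat_lit 47) (nat_lit 5) (nat_lit 46) (nat_lit 5) (nat_lit 53) (nat_lit 5) (nat_lit 337) (nat_lit 332) (nat_lit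 111)) (XT.lf (nat_lit 76) (nat_lit 815911579260) (nat_lit 0) (nat_lit 231997613382) (nat_lit 532) (nat_lit 280582393955) (nat_lit 47) (nat_lit 5) (nat_lit 46) (nat_lit 5) (nat_lit 53) (nat_lit 5) (nat_lit 338) (nat_lit 332) (nat_lit 110))))) (XT.nd (nat_lit 312) (nat_lit 228) (nat_lit 0) (XT.nd (nat_lit 156) (nat_lit 304) (nat_lit 0) (XT.nd (nat_lit 78) (nat_lit 0) (nat_lit 0) (XT.lf (nat_lit 0) (nat_lit 128854022396) (nat_lit 456) (nat_lit 1057011061216) (nat_lit 532) (nat_lit 200899350013) (nat_lit 41) (nat_lit 5) (nat_lit 47) (nat_lit 5) (nat_lit 48) (nat_lit 5) (nat_lit 339) (nat_lit 332) (nat_lit 109)) (XT.lf (nat_lit 0) (nat_lit 844410424454) (nat_lit 456) (nat_lit 510335220838) (nat_lit 532) (nat_lit 93362407180) (nat_lit 41) (nat_lit 5) (nat_lit 47) (nat_lit 5) (nat_lit 48) (nat_lit 5) (nat_lit 340) (nat_lit 332) (nat_lit 108))) (XT.nd (nat_lit 78) (nat_lit 0) (nat_lit 0) (XT.lf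 (nat_lit 0) (nat_lit 26235348457) (nat_lit 304) (nat_lit 1408423895025) (nat_lit 76) (nat_lit 79288311039) (nat_lit 37) (nat_lit 5) (nat_lit 41) (nat_lit 5) (nat_lit 38) (nat_lit 5) (nat_lit 341) (nat_lit 332) (nat_lit 107)) (XT.lf (nat_lit 0) (nat_lit 180547281056) (nat_lit 304) (nat_lit 694027447535) (nat_lit 76) (nat_lit 707870260225) (nat_lit 37) (nat_lit 5) (nat_lit 41) (nat_lit 5) (nat_lit 38) (nat_lit 5) (nat_lit 342) (nat_lit 332) (nat_lit 106)))) (XT.nd (nat_lit 39936) (nat_lit 0) (nat_lit 760) (XT.nd (nat_lit 39858) (nat_lit 0) (nat_lit 760) (XT.lf (nat_lit 0) (nat_lit 81602815850) (nat_lit 228) (nat_lit 267563899052) (nat_lit 304) (nat_lit 1307098499230) (nat_lit 34) (nat_lit 5) (nat_lit 37) (nat_lit 5) (nat_lit 38) (nat_lit 5) (nat_lit 343) (nat_lit 332) (nat_lit 105)) (XT.lf (nat_lit 0) (nat_lit 336525622181) (nat_lit 532) (nat_lit 113093398650) (nat_lit 532) (nat_lit 113093398650)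 (nat_lit 44) (nat_lit 3) (nat_lit 51) (nat_lit 3) (nat_lit 51) (nat_lit 5) (nat_lit 333) (nat_lit 333) (nat_lit 114))) (XT.nd (nat_lit 78) (nat_lit 0) (nat_lit 76) (XT.lf (nat_lit 76) (nat_lit 299352990986) (nat_lit 0) (nat_lit 407819796873) (nat_lit 532) (nat_lit 462693085013) (nat_lit 45) (nat_lit 5) (nat_lit 44) (nat_lit 3) (nat_lit 51) (nat_lit 5) (nat_lit 334) (nat_lit 333) (nat_lit 113)) (XT.lf (nat_lit 0) (nat_lit 753325064729) (nat_lit 456) (nat_lit 340684705621) (nat_lit 532) (nat_lit 123108338364) (nat_lit 45) (nat_lit 5) (nat_lit 51) (nat_lit 5) (nat_lit 52) (nat_lit 5) (nat_lit 335) (nat_lit 333) (nat_lit 112))))))) (XT.nd (nat_lit 41106) (nat_lit 0) (nat_lit 304) (XT.nd (nat_lit 40482) (nat_lit 0) (nat_lit 304) (XT.nd (nat_lit 234) (nat_lit 608) (nat_lit 0) (XT.nd (nat_lit 78) (nat_lit 0) (nat_lit 0) (XT.lf (nat_lit 76) (nat_lit 232571150724) (nat_lit 0) (nat_lit 586784432415)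 (nat_lit 532) (nat_lit 447500055550) (nat_lit 46) (nat_lit 5) (nat_lit 45) (nat_lit 5) (nat_lit 52) (nat_lit 5) (nat_lit 336) (nat_lit 333) (nat_lit 111)) (XT.nd (nat_lit 78) (nat_lit 0) (nat_lit 76) (XT.lf (nat_lit 76) (nat_lit 871062513830) (nat_lit 0) (nat_lit 28920948668) (nat_lit 532) (nat_lit 419843515017) (nat_lit 46) (nat_lit 5) (nat_lit 45) (nat_lit 5) (nat_lit 52) (nat_lit 5) (nat_lit 337) (nat_lit 333) (nat_lit 110)) (XT.lf (nat_lit 76) (nat_lit 178744260283) (nat_lit 0) (nat_lit 826410523003) (nat_lit 532) (nat_lit 370433783289) (nat_lit 47) (nat_lit 5) (nat_lit 46) (nat_lit 5) (nat_lit 53) (nat_lit 5) (nat_lit 338) (nat_lit 333) (nat_lit 109)))) (XT.nd (nat_lit 156) (nat_lit 304) (nat_lit 0) (XT.nd (nat_lit 78) (nat_lit 380) (nat_lit 0) (XT.lf (nat_lit 76) (nat_lit 881184561980) (nat_lit 0) (nat_lit 250557435813) (nat_lit 532) (nat_lit 303028909932) (nat_lit 47) (nat_lit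 5) (nat_lit 46) (nat_lit 5) (nat_lit 53) (nat_lit 5) (nat_lit 339) (nat_lit 333) (nat_lit 108)) (XT.lf (nat_lit 0) (nat_lit 139162405106) (nat_lit 456) (nat_lit 1141571950937) (nat_lit 532) (nat_lit 216971226809) (nat_lit 41) (nat_lit 5) (nat_lit 47) (nat_lit 5) (nat_lit 48) (nat_lit 5) (nat_lit 340) (nat_lit 333) (nat_lit 107))) (XT.nd (nat_lit 78) (nat_lit 304) (nat_lit 0) (XT.lf (nat_lit 0) (nat_lit 911963314816) (nat_lit 456) (nat_lit 551162042971) (nat_lit 532) (nat_lit 100831333824) (nat_lit 41) (nat_lit 5) (nat_lit 47) (nat_lit 5) (nat_lit 48) (nat_lit 5) (nat_lit 341) (nat_lit 333) (nat_lit 106)) (XT.lf (nat_lit 0) (nat_lit 28334235706) (nat_lit 304) (nat_lit 1521097743325) (nat_lit 76) (nat_lit 85631374940) (nat_lit 37) (nat_lit 5) (nat_lit 41) (nat_lit 5) (nat_lit 38) (nat_lit 5) (nat_lit 342) (nat_lit 333) (nat_lit 105))))) (XT.nd (nat_lit 312) (nat_lit 228) (nat_lit 0) (XT.nd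 (nat_lit 156) (nat_lit 0) (nat_lit 76) (XT.nd (nat_lit 78) (nat_lit 0) (nat_lit 0) (XT.lf (nat_lit 0) (nat_lit 363447717913) (nat_lit 532) (nat_lit 122140845650) (nat_lit 532) (nat_lit 122140845650) (nat_lit 44) (nat_lit 3) (nat_lit 51) (nat_lit 3) (nat_lit 51) (nat_lit 5) (nat_lit 334) (nat_lit 334) (nat_lit 112)) (XT.lf (nat_lit 76) (nat_lit 323301278788) (nat_lit 0) (nat_lit 440445418372) (nat_lit 532) (nat_lit 499708438361) (nat_lit 45) (nat_lit 5) (nat_lit 44) (nat_lit 3) (nat_lit 51) (nat_lit 5) (nat_lit 335) (nat_lit 334) (nat_lit 111))) (XT.nd (nat_lit 78) (nat_lit 0) (nat_lit 0) (XT.lf (nat_lit 0) (nat_lit 813591148950) (nat_lit 456) (nat_lit 367939429652) (nat_lit 532) (nat_lit 132956972229) (nat_lit 45) (nat_lit 5) (nat_lit 51) (nat_lit 5) (nat_lit 52) (nat_lit 5) (nat_lit 336) (nat_lit 334) (nat_lit 110)) (XT.lf (nat_lit 76) (nat_lit 251176893873) (nat_lit 0) (nat_lit 633727210332)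 (nat_lit 532) (nat_lit 483299979386) (nat_lit 46) (nat_lit 5) (nat_lit 45) (nat_lit 5) (nat_lit 52) (nat_lit 5) (nat_lit 337) (nat_lit 334) (nat_lit 109)))) (XT.nd (nat_lit 156) (nat_lit 304) (nat_lit 0) (XT.nd (nat_lit 78) (nat_lit 0) (nat_lit 76) (XT.lf (nat_lit 76) (nat_lit 940747562244) (nat_lit 0) (nat_lit 31234646158) (nat_lit 532) (nat_lit 453430921582) (nat_lit 46) (nat_lit 5) (nat_lit 45) (nat_lit 5) (nat_lit 52) (nat_lit 5) (nat_lit 338) (nat_lit 334) (nat_lit 108)) (XT.lf (nat_lit 76) (nat_lit 193043853309) (nat_lit 0) (nat_lit 892523377214) (nat_lit 532) (nat_lit 400068416007) (nat_lit 47) (nat_lit 5) (nat_lit 46) (nat_lit 5) (nat_lit 53) (nat_lit 5) (nat_lit 339) (nat_lit 334) (nat_lit 107))) (XT.nd (nat_lit 78) (nat_lit 380) (nat_lit 0) (XT.lf (nat_lit 76) (nat_lit 951679375275) (nat_lit 0) (nat_lit 270602042132) (nat_lit 532) (nat_lit 327271157963) (nat_lit 47) (nat_lit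 5) (nat_lit 46) (nat_lit 5) (nat_lit 53) (nat_lit 5) (nat_lit 340) (nat_lit 334) (nat_lit 106)) (XT.lf (nat_lit 0) (nat_lit 150295449742) (nat_lit 456) (nat_lit 1232897711147) (nat_lit 532) (nat_lit 234328863906) (nat_lit 41) (nat_lit 5) (nat_lit 47) (nat_lit 5) (nat_lit 48) (nat_lit 5) (nat_lit 341) (nat_lit 334) (nat_lit 105)))))) (XT.nd (nat_lit 80808) (nat_lit 0) (nat_lit 228) (XT.nd (nat_lit 40326) (nat_lit 0) (nat_lit 304) (XT.nd (nat_lit 40170) (nat_lit 0) (nat_lit 228) (XT.nd (nat_lit 40092) (nat_lit 0) (nat_lit 228) (XT.lf (nat_lit 0) (nat_lit 984920428360) (nat_lit 456) (nat_lit 595255010237) (nat_lit 532) (nat_lit 108897784005) (nat_lit 41) (nat_lit 5) (nat_lit 47) (nat_lit 5) (nat_lit 48) (nat_lit 5) (nat_lit 342) (nat_lit 334) (nat_lit 104)) (XT.lf (nat_lit 0) (nat_lit 392523574747) (nat_lit 532) (nat_lit 131912091961) (nat_lit 532) (nat_lit 131912091961) (nat_lit 44) (nat_lit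 3) (nat_lit 51) (nat_lit 3) (nat_lit 51) (nat_lit 5) (nat_lit 335) (nat_lit 335) (nat_lit 110))) (XT.nd (nat_lit 78) (nat_lit 0) (nat_lit 76) (XT.lf (nat_lit 76) (nat_lit 349165422693) (nat_lit 0) (nat_lit 475681084206) (nat_lit 532) (nat_lit 539685033308) (nat_lit 45) (nat_lit 5) (nat_lit 44) (nat_lit 3) (nat_lit 51) (nat_lit 5) (nat_lit 336) (nat_lit 335) (nat_lit 109)) (XT.lf (nat_lit 0) (nat_lit 878678508632) (nat_lit 456) (nat_lit 397374539084) (nat_lit 532) (nat_lit 143593501539) (nat_lit 45) (nat_lit 5) (nat_lit 51) (nat_lit 5) (nat_lit 52) (nat_lit 5) (nat_lit 337) (nat_lit 335) (nat_lit 108)))) (XT.nd (nat_lit 156) (nat_lit 0) (nat_lit 76) (XT.nd (nat_lit 78) (nat_lit 0) (nat_lit 0) (XT.lf (nat_lit 76) (nat_lit 271271089185) (nat_lit 0) (nat_lit 684425407156) (nat_lit 532) (nat_lit 521963908629) (nat_lit 46) (nat_lit 5) (nat_lit 45) (nat_lit 5) (nat_lit 52) (nat_lit 5) (nat_lit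 338) (nat_lit 335) (nat_lit 107)) (XT.lf (nat_lit 76) (nat_lit 1016007407781) (nat_lit 0) (nat_lit 33733436367) (nat_lit 532) (nat_lit 489705331320) (nat_lit 46) (nat_lit 5) (nat_lit 45) (nat_lit 5) (nat_lit 52) (nat_lit 5) (nat_lit 339) (nat_lit 335) (nat_lit 106))) (XT.nd (nat_lit 78) (nat_lit 0) (nat_lit 0) (XT.lf (nat_lit 76) (nat_lit 208487406329) (nat_lit 0) (nat_lit 963925257997) (nat_lit 532) (nat_lit 432073829322) (nat_lit 47) (nat_lit 5) (nat_lit 46) (nat_lit 5) (nat_lit 53) (nat_lit 5) (nat_lit 340) (nat_lit 335) (nat_lit 105)) (XT.lf (nat_lit 76) (nat_lit 1027813766737) (nat_lit 0) (nat_lit 292250215323) (nat_lit 532) (nat_lit 353452795076) (nat_lit 47) (nat_lit 5) (nat_lit 46) (nat_lit 5) (nat_lit 53) (nat_lit 5) (nat_lit 341) (nat_lit 335) (nat_lit 104))))) (XT.nd (nat_lit 312) (nat_lit 0) (nat_lit 0) (XT.nd (nat_lit 156) (nat_lit 0) (nat_lit 76) (XT.nd (nat_lit 78) (nat_lit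 0) (nat_lit 0) (XT.lf (nat_lit 0) (nat_lit 423925494506) (nat_lit 532) (nat_lit 142465041022) (nat_lit 532) (nat_lit 142465041022) (nat_lit 44) (nat_lit 3) (nat_lit 51) (nat_lit 3) (nat_lit 51) (nat_lit 5) (nat_lit 336) (nat_lit 336) (nat_lit 108)) (XT.lf (nat_lit 76) (nat_lit 377098692175) (nat_lit 0) (nat_lit 513735598689) (nat_lit 532) (nat_lit 582859767282) (nat_lit 45) (nat_lit 5) (nat_lit 44) (nat_lit 3) (nat_lit 51) (nat_lit 5) (nat_lit 337) (nat_lit 336) (nat_lit 107))) (XT.nd (nat_lit 78) (nat_lit 0) (nat_lit 0) (XT.lf (nat_lit 0) (nat_lit 948972847420) (nat_lit 456) (nat_lit 429164463682) (nat_lit 532) (nat_lit 155080957256) (nat_lit 45) (nat_lit 5) (nat_lit 51) (nat_lit 5) (nat_lit 52) (nat_lit 5) (nat_lit 338) (nat_lit 336) (nat_lit 106)) (XT.lf (nat_lit 76) (nat_lit 292972813874) (nat_lit 0) (nat_lit 739179456873) (nat_lit 532) (nat_lit 563720962071) (nat_lit 46) (nat_lit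 5) (nat_lit 45) (nat_lit 5) (nat_lit 52) (nat_lit 5) (nat_lit 339) (nat_lit 336) (nat_lit 105)))) (XT.nd (nat_lit 40482) (nat_lit 0) (nat_lit 0) (XT.nd (nat_lit 40404) (nat_lit 76) (nat_lit 0) (XT.lf (nat_lit 76) (nat_lit 1097288035175) (nat_lit 0) (nat_lit 36432127150) (nat_lit 532) (nat_lit 528881702965) (nat_lit 46) (nat_lit 5) (nat_lit 45) (nat_lit 5) (nat_lit 52) (nat_lit 5) (nat_lit 340) (nat_lit 336) (nat_lit 104)) (XT.lf (nat_lit 0) (nat_lit 457839563028) (nat_lit 532) (nat_lit 153862228618) (nat_lit 532) (nat_lit 153862228618) (nat_lit 44) (nat_lit 3) (nat_lit 51) (nat_lit 3) (nat_lit 51) (nat_lit 5) (nat_lit 337) (nat_lit 337) (nat_lit 106))) (XT.nd (nat_lit 78) (nat_lit 0) (nat_lit 76) (XT.lf (nat_lit 76) (nat_lit 407266618127) (nat_lit 0) (nat_lit 554834470373) (nat_lit 532) (nat_lit 629488489773) (nat_lit 45) (nat_lit 5) (nat_lit 44) (nat_lit 3) (nat_lit 51) (nat_lit 5)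 (nat_lit 338) (nat_lit 337) (nat_lit 105)) (XT.lf (nat_lit 0) (nat_lit 1024890725024) (nat_lit 456) (nat_lit 463497587744) (nat_lit 532) (nat_lit 167487412912) (nat_lit 45) (nat_lit 5) (nat_lit 51) (nat_lit 5) (nat_lit 52) (nat_lit 5) (nat_lit 339) (nat_lit 337) (nat_lit 104))))))))

set_option maxRecDepth 10000000 in
noncomputable def Tp : PT := (PT.nd (nat_lit 5374824) (PT.nd (nat_lit 5090202) (PT.nd (nat_lit 4805814) pc0 pc1) (PT.nd (nat_lit 162708) pc2 pc3)) (PT.nd (nat_lit 201474) (PT.nd (nat_lit 120666) pc4 pc5) (PT.nd (nat_lit 83382) pc6 pc7)))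

set_option maxRecDepth 10000000 in
noncomputable def Tx : XT := (XT.nd (nat_lit 8359650) (nat_lit 0) (nat_lit 76) XT.nil (XT.nd (nat_lit 5361876) (nat_lit 0) (nat_lit 0) (XT.nd (nat_lit 2555826) (nat_lit 0) (nat_lit 0) (XT.nd (nat_lit 1781676) (nat_lit 0) (nat_lit 0) (XT.nd (nat_lit 1218984) (nat_lit 0) (nat_lit 0) (XT.nd (nat_lit 852306) (nat_lit 0) (nat_lit 0) (XT.nd (nat_lit 607620) (nat_lit 0) (nat_lit 0) (XT.nd (nat_lit 405756) (nat_lit 0) (nat_lit 0) (XT.nd (nat_lit 283764) (nat_lit 0) (nat_lit 0) xc0 xc1) (XT.nd (nat_lit 120588) (nat_lit 0) (nat_lit 0) xc2 xc3)) (XT.nd (nat_lit 123006) (nat_lit 0) (nat_lit 0) (XT.nd (nat_lit 80574) (nat_lit 0) (nat_lit 0) xc4 xc5) (XT.nd (nat_lit 79638) (nat_lit 0) (nat_lit 0) xc6 xc7))) (XT.nd (nat_lit 203112) (nat_lit 0) (nat_lit 0) (XT.nd (nat_lit 120354) (nat_lit 0) (nat_lit 0) (XT.nd (nat_lit 78780) (nat_lit 0) (nat_lit 0) xc8 xc9) (XT.nd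 (nat_lit 41418) (nat_lit 0) (nat_lit 0) xc10 xc11)) (XT.nd (nat_lit 82056) (nat_lit 0) (nat_lit 0) (XT.nd (nat_lit 41106) (nat_lit 0) (nat_lit 0) xc12 xc13) (XT.nd (nat_lit 40794) (nat_lit 0) (nat_lit 0) xc14 xc15)))) (XT.nd (nat_lit 319644) (nat_lit 0) (nat_lit 0) (XT.nd (nat_lit 161070) (nat_lit 0) (nat_lit 0) (XT.nd (nat_lit 80808) (nat_lit 0) (nat_lit 0) (XT.nd (nat_lit 40482) (nat_lit 0) (nat_lit 0) xc16 xc17) (XT.nd (nat_lit 40170) (nat_lit 0) (nat_lit 0) xc18 xc19)) (XT.nd (nat_lit 79560) (nat_lit 0) (nat_lit 0) (XT.nd (nat_lit 39858) (nat_lit 0) (nat_lit 0) xc20 xc21) (XT.nd (nat_lit 39546) (nat_lit 0) (nat_lit 0) xc22 xc23))) (XT.nd (nat_lit 122070) (nat_lit 0) (nat_lit 0) (XT.nd (nat_lit 43992) (nat_lit 0) (nat_lit 0) (XT.nd (nat_lit 4758) (nat_lit 0) (nat_lit 0) xc24 xc25) (XT.nd (nat_lit 39078) (nat_lit 0) (nat_lit 0) xc26 xc27)) (XT.nd (nat_lit 43680) (nat_lit 0) (nat_lit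 0) (XT.nd (nat_lit 4758) (nat_lit 0) (nat_lit 0) xc28 xc29) (XT.nd (nat_lit 38688) (nat_lit 0) (nat_lit 0) xc30 xc31))))) (XT.nd (nat_lit 405600) (nat_lit 0) (nat_lit 0) (XT.nd (nat_lit 204750) (nat_lit 0) (nat_lit 0) (XT.nd (nat_lit 86190) (nat_lit 0) (nat_lit 0) (XT.nd (nat_lit 43134) (nat_lit 0) (nat_lit 0) (XT.nd (nat_lit 4758) (nat_lit 0) (nat_lit 0) xc32 xc33) (XT.nd (nat_lit 38220) (nat_lit 0) (nat_lit 0) xc34 xc35)) (XT.nd (nat_lit 75972) (nat_lit 0) (nat_lit 0) (XT.nd (nat_lit 38064) (nat_lit 0) (nat_lit 0) xc36 xc37) (XT.nd (nat_lit 4758) (nat_lit 0) (nat_lit 0) xc38 xc39))) (XT.nd (nat_lit 84630) (nat_lit 0) (nat_lit 0) (XT.nd (nat_lit 42354) (nat_lit 0) (nat_lit 0) (XT.nd (nat_lit 4758) (nat_lit 0) (nat_lit 0) xc40 xc41) (XT.nd (nat_lit 37440) (nat_lit 0) (nat_lit 0) xc42 xc43)) (XT.nd (nat_lit 42042) (nat_lit 0) (nat_lit 0) (XT.nd (nat_lit 37284) (nat_lit 0) (nat_lit 0)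 xc44 xc45) (XT.nd (nat_lit 37128) (nat_lit 0) (nat_lit 0) xc46 xc47)))) (XT.nd (nat_lit 167232) (nat_lit 0) (nat_lit 0) (XT.nd (nat_lit 83460) (nat_lit 0) (nat_lit 0) (XT.nd (nat_lit 41652) (nat_lit 0) (nat_lit 0) (XT.nd (nat_lit 4758) (nat_lit 152) (nat_lit 0) xc48 xc49) (XT.nd (nat_lit 4758) (nat_lit 0) (nat_lit 0) xc50 xc51)) (XT.nd (nat_lit 41808) (nat_lit 0) (nat_lit 0) (XT.nd (nat_lit 4758) (nat_lit 0) (nat_lit 0) xc52 xc53) (XT.nd (nat_lit 37128) (nat_lit 0) (nat_lit 152) xc54 xc55))) (XT.nd (nat_lit 116688) (nat_lit 0) (nat_lit 0) (XT.nd (nat_lit 41964) (nat_lit 0) (nat_lit 0) (XT.nd (nat_lit 37206) (nat_lit 0) (nat_lit 0) xc56 xc57) (XT.nd (nat_lit 37284) (nat_lit 0) (nat_lit 0) xc58 xc59)) (XT.nd (nat_lit 42276) (nat_lit 0) (nat_lit 0) (XT.nd (nat_lit 4758) (nat_lit 152) (nat_lit 0) xc60 xc61) (XT.nd (nat_lit 4758) (nat_lit 0) (nat_lit 0) xc62 xc63)))))) (XT.nd (nat_lit 897390)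 (nat_lit 0) (nat_lit 152) (XT.nd (nat_lit 409422) (nat_lit 0) (nat_lit 0) (XT.nd (nat_lit 203580) (nat_lit 0) (nat_lit 0) (XT.nd (nat_lit 85020) (nat_lit 0) (nat_lit 0) (XT.nd (nat_lit 42432) (nat_lit 0) (nat_lit 0) (XT.nd (nat_lit 37674) (nat_lit 0) (nat_lit 152) xc64 xc65) (XT.nd (nat_lit 37752) (nat_lit 0) (nat_lit 0) xc66 xc67)) (XT.nd (nat_lit 75738) (nat_lit 0) (nat_lit 0) (XT.nd (nat_lit 37830) (nat_lit 0) (nat_lit 0) xc68 xc69) (XT.nd (nat_lit 4758) (nat_lit 152) (nat_lit 0) xc70 xc71))) (XT.nd (nat_lit 119418) (nat_lit 0) (nat_lit 0) (XT.nd (nat_lit 42822) (nat_lit 0) (nat_lit 0) (XT.nd (nat_lit 38064) (nat_lit 0) (nat_lit 152) xc72 xc73) (XT.nd (nat_lit 38220) (nat_lit 0) (nat_lit 0) xc74 xc75)) (XT.nd (nat_lit 43134) (nat_lit 0) (nat_lit 0) (XT.nd (nat_lit 4758) (nat_lit 152) (nat_lit 0) xc76 xc77) (XT.nd (nat_lit 38454) (nat_lit 0) (nat_lit 152) xc78 xc79)))) (XT.nd (nat_lit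 242346) (nat_lit 0) (nat_lit 0) (XT.nd (nat_lit 120744) (nat_lit 0) (nat_lit 0) (XT.nd (nat_lit 77142) (nat_lit 0) (nat_lit 0) (XT.nd (nat_lit 38532) (nat_lit 0) (nat_lit 0) xc80 xc81) (XT.nd (nat_lit 4758) (nat_lit 76) (nat_lit 0) xc82 xc83)) (XT.nd (nat_lit 77766) (nat_lit 0) (nat_lit 0) (XT.nd (nat_lit 38844) (nat_lit 0) (nat_lit 0) xc84 xc85) (XT.nd (nat_lit 4758) (nat_lit 152) (nat_lit 0) xc86 xc87))) (XT.nd (nat_lit 122304) (nat_lit 0) (nat_lit 152) (XT.nd (nat_lit 78234) (nat_lit 0) (nat_lit 152) (XT.nd (nat_lit 39078) (nat_lit 0) (nat_lit 76) xc88 xc89) (XT.nd (nat_lit 4758) (nat_lit 0) (nat_lit 0) xc90 xc91)) (XT.nd (nat_lit 78936) (nat_lit 0) (nat_lit 0) (XT.nd (nat_lit 39390) (nat_lit 0) (nat_lit 0) xc92 xc93) (XT.nd (nat_lit 39546) (nat_lit 0) (nat_lit 0) xc94 xc95))))) (XT.nd (nat_lit 609492) (nat_lit 0) (nat_lit 76) (XT.nd (nat_lit 284232) (nat_lit 0) (nat_lit 0) (XT.nd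 (nat_lit 159120) (nat_lit 0) (nat_lit 0) (XT.nd (nat_lit 79326) (nat_lit 0) (nat_lit 0) (XT.nd (nat_lit 39624) (nat_lit 0) (nat_lit 0) xc96 xc97) (XT.nd (nat_lit 39780) (nat_lit 0) (nat_lit 0) xc98 xc99)) (XT.nd (nat_lit 80106) (nat_lit 0) (nat_lit 0) (XT.nd (nat_lit 40014) (nat_lit 0) (nat_lit 0) xc100 xc101) (XT.nd (nat_lit 4758) (nat_lit 76) (nat_lit 0) xc102 xc103))) (XT.nd (nat_lit 161772) (nat_lit 0) (nat_lit 76) (XT.nd (nat_lit 80652) (nat_lit 0) (nat_lit 0) (XT.nd (nat_lit 40248) (nat_lit 0) (nat_lit 0) xc104 xc105) (XT.nd (nat_lit 40482) (nat_lit 0) (nat_lit 76) xc106 xc107)) (XT.nd (nat_lit 81588) (nat_lit 0) (nat_lit 0) (XT.nd (nat_lit 40716) (nat_lit 0) (nat_lit 0) xc108 xc109) (XT.nd (nat_lit 40872) (nat_lit 0) (nat_lit 0) xc110 xc111)))) (XT.nd (nat_lit 406302) (nat_lit 0) (nat_lit 380) (XT.nd (nat_lit 201786) (nat_lit 0) (nat_lit 228) (XT.nd (nat_lit 118794) (nat_lit 0)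 (nat_lit 152) (XT.nd (nat_lit 77532) (nat_lit 0) (nat_lit 76) xc112 xc113) (XT.nd (nat_lit 41418) (nat_lit 0) (nat_lit 0) xc114 xc115)) (XT.nd (nat_lit 120432) (nat_lit 0) (nat_lit 76) (XT.nd (nat_lit 41652) (nat_lit 0) (nat_lit 0) xc116 xc117) (XT.nd (nat_lit 41964) (nat_lit 0) (nat_lit 0) xc118 xc119))) (XT.nd (nat_lit 283530) (nat_lit 0) (nat_lit 380) (XT.nd (nat_lit 159900) (nat_lit 0) (nat_lit 304) (XT.nd (nat_lit 79716) (nat_lit 0) (nat_lit 76) xc120 xc121) (XT.nd (nat_lit 42666) (nat_lit 0) (nat_lit 0) xc122 xc123)) (XT.nd (nat_lit 202800) (nat_lit 0) (nat_lit 760) (XT.nd (nat_lit 81588) (nat_lit 0) (nat_lit 456) xc124 xc125) (XT.nd (nat_lit 122382) (nat_lit 0) (nat_lit 380) xc126 xc127))))))) XT.nil))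

set_option maxRecDepth 10000000 in
noncomputable def Te : XT := XT.nil

set_option maxRecDepth 10000000 in
noncomputable def Tz : ZL := (ZL.cons (nat_lit 76) (nat_lit 6) (nat_lit 213318302268590324664) (ZL.cons (nat_lit 152) (nat_lit 6) (nat_lit 206255462191840718698) (ZL.cons (nat_lit 228) (nat_lit 3) (nat_lit 102830438041974612283) (ZL.cons (nat_lit 304) (nat_lit 6) (nat_lit 198627594908951144256) (ZL.cons (nat_lit 380) (nat_lit 6) (nat_lit 192176780040336835856) (ZL.cons (nat_lit 456) (nat_lit 3) (nat_lit 95813118673922355828) (ZL.cons (nat_lit 532) (nat_lit 6) (nat_lit 185209899982233382782) (ZL.cons (nat_lit 608) (nat_lit 6) (nat_lit 179340560072172794198) (ZL.cons (nat_lit 684) (nat_lit 3) (nat_lit 89415399159932635897) (ZL.cons (nat_lit 760) (nat_lit 6) (nat_lit 173001672969307358530) (ZL.cons (nat_lit 836) (nat_lit 6) (nat_lit 167687980965519299798) (ZL.cons (nat_lit 912) (nat_lit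 3) (nat_lit 83607989671506167304) (ZL.cons (nat_lit 988) (nat_lit 6) (nat_lit 161949193601428196370) (ZL.cons (nat_lit 1064) (nat_lit 6) (nat_lit 157170105162382593364) (ZL.cons (nat_lit 1140) (nat_lit 3) (nat_lit 78366533311512146131) (ZL.cons (nat_lit 1216) (nat_lit 6) (nat_lit 152850393501792292390) (ZL.cons (nat_lit 1292) (nat_lit 6) (nat_lit 152008689648213342118) (ZL.cons (nat_lit 1368) (nat_lit 6) (nat_lit 147748066368996466234) (ZL.cons (nat_lit 1444) (nat_lit 3) (nat_lit 73671700527387908532) (ZL.cons (nat_lit 1520) (nat_lit 6) (nat_lit 143925948647422749786) (ZL.cons (nat_lit 1596) (nat_lit 6) (nat_lit 143146593227442240276) (ZL.cons (nat_lit 1672) (nat_lit 6) (nat_lit 139393396193902486856) (ZL.cons (nat_lit 1748) (nat_lit 3) (nat_lit 69509353044071313258) (ZL.cons (nat_lit 1824) (nat_lit 6) (nat_lit 136061568786550395298) (ZL.cons (nat_lit 1900) (nat_lit 6) (nat_lit 135339943397679553162)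 (ZL.cons (nat_lit 1976) (nat_lit 6) (nat_lit 133131366842972027286) (ZL.cons (nat_lit 2052) (nat_lit 6) (nat_lit 132088505080850276076) (ZL.cons (nat_lit 2128) (nat_lit 3) (nat_lit 65870784898869647140) (ZL.cons (nat_lit 2204) (nat_lit 6) (nat_lit 129245123355036547696) (ZL.cons (nat_lit 2280) (nat_lit 6) (nat_lit 128576951698674656826) (ZL.cons (nat_lit 2356) (nat_lit 6) (nat_lit 126792948550752064442) (ZL.cons (nat_lit 2432) (nat_lit 6) (nat_lit 125827335808046739248) (ZL.cons (nat_lit 2508) (nat_lit 3) (nat_lit 62753049717397915087) (ZL.cons (nat_lit 2584) (nat_lit 6) (nat_lit 124717449261749214560) (ZL.cons (nat_lit 2660) (nat_lit 6) (nat_lit 123476428105762931658) (ZL.cons (nat_lit 2736) (nat_lit 6) (nat_lit 122857750646168588260) (ZL.cons (nat_lit 2812) (nat_lit 6) (nat_lit 123006326232982055240) (ZL.cons (nat_lit 2888) (nat_lit 6) (nat_lit 121510297286920811494) (ZL.cons (nat_lit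 2964) (nat_lit 6) (nat_lit 120616211414045510388) (ZL.cons (nat_lit 3040) (nat_lit 3) (nat_lit 60159385163851038032) (ZL.cons (nat_lit 3116) (nat_lit 6) (nat_lit 119917292205927240270) (ZL.cons (nat_lit 3192) (nat_lit 6) (nat_lit 118768198542976978320) (ZL.cons (nat_lit 3268) (nat_lit 6) (nat_lit 118195349043352586288) (ZL.cons (nat_lit 3344) (nat_lit 3) (nat_lit 58559904887605864442) (ZL.cons (nat_lit 3420) (nat_lit 6) (nat_lit 117293363792249457920) (ZL.cons (nat_lit 3496) (nat_lit 6) (nat_lit 117815054311611757506) (ZL.cons (nat_lit 3572) (nat_lit 6) (nat_lit 118687972832672626450) (ZL.cons (nat_lit 3648) (nat_lit 6) (nat_lit 117302760845578882240) (ZL.cons (nat_lit 3724) (nat_lit 6) (nat_lit 116474903555879529364) (ZL.cons (nat_lit 3800) (nat_lit 3) (nat_lit 58099747571299285828) (ZL.cons (nat_lit 3876) (nat_lit 6) (nat_lit 115126097966333798438) (ZL.cons (nat_lit 3952) (nat_lit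 6) (nat_lit 115487090321772274838) (ZL.cons (nat_lit 4028) (nat_lit 6) (nat_lit 116211214246607381574) (ZL.cons (nat_lit 4104) (nat_lit 6) (nat_lit 115147238632764546438) (ZL.cons (nat_lit 4180) (nat_lit 6) (nat_lit 114616822429408627886) (ZL.cons (nat_lit 4256) (nat_lit 3) (nat_lit 56726811265353388533) (ZL.cons (nat_lit 4332) (nat_lit 6) (nat_lit 113641060869107524430) (ZL.cons (nat_lit 4408) (nat_lit 6) (nat_lit 114204486630018807980) (ZL.cons (nat_lit 4484) (nat_lit 6) (nat_lit 113437952102519407168) (ZL.cons (nat_lit 4560) (nat_lit 3) (nat_lit 56591472156222223162) (ZL.cons (nat_lit 4636) (nat_lit 6) (nat_lit 112266026519823937382) (ZL.cons (nat_lit 4712) (nat_lit 6) (nat_lit 112655898263697491896) (ZL.cons (nat_lit 4788) (nat_lit 6) (nat_lit 112164772149479048792) (ZL.cons (nat_lit 4864) (nat_lit 3) (nat_lit 55676919461111027703) (ZL.cons (nat_lit 4940) (nat_lit 6) (nat_lit 111556272327694862556)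 (ZL.cons (nat_lit 5016) (nat_lit 3) (nat_lit 55660077001775690148) (ZL.cons (nat_lit 5092) (nat_lit 6) (nat_lit 110899092520167941424) (ZL.cons (nat_lit 5168) (nat_lit 1) (nat_lit 18446744073709551617) ZL.nil))))))))))))))))))))))))))))))))))))))))))))))))))))))))))))))))))))

noncomputable def vl : XL := ⟨(nat_lit 0), (nat_lit 76), (nat_lit 98516481), (nat_lit 228), (nat_lit 373486236), (nat_lit 76), (nat_lit 98516481), (nat_lit 1), (nat_lit 5), (nat_lit 3), (nat_lit 4), (nat_lit 1), (nat_lit 4), (nat_lit 0), (nat_lit 0), (nat_lit 0)⟩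

noncomputable def cp0 : Nat := (nat_lit 16765709577686113860160448323043083926318287261609364030313396637305979047458779000254845864303815662491200350349973134294831506144276908865966855781144479156431470680278708900122583412811638418978377459560719909083442191000354537349827108717211983399880641860457620407688225439529738114452887667830220207819210138642028208525749950534018016847461251502757700867952720773525750864428255262738783489772893067300617546600131039837768278944606190650045208214931725871258603781590575741293640171943942572569085257991423098241020887607985429672542780084355572728707879799935440393611189307465737352199684747846536441132285565384521885209844910330732973635500118465601725443100506312658450759105786296535395542683303329569601098701383134002054488745918648514583343791719950128680399306502675818016607935299329002802476922860735103814250745637966026709189757710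8985541523883094490773784254823600087260301517434166381673773531626413923635322801413704894453812063606284252024254351664089828323952094456246177773307136412285214929012873921476549921332126097262640210914555766648795300430470076016785774415622121545790679028976304837906389624559964950619827620728711749158766447677108429883524357373386217720161510442790908712020696146350072737827098108805959160625998703294243727464492281933837227277771037034070869541329144240801575257440759304059002036006604761425969762293592905055406014827832635109192929045831486343533746359379142604648234117683167016212987874216744513645851451538509426774572281060259917962688415021507928975075643017834934071277776292920815475179651341374980096)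

noncomputable def cp1 : Nat := (nat_lit 19793176298103356038977207676024601243340566494904310348470762825664111322151999674362839010777615765902970377353193341272119308579806058454603234791584594879560555912784194771504164760905591273802184329266098492019735681153763218918106949839491089789975170110233449789528262004201002933184479069782087600687812321370493093738765811425317968683592250077583735685160126755396766025790292482306619607894043918798453040258767273559921766666415079003836341376297213473385175806300673243619357278175486243666054665997426951439941813526952554796333621608033392649929422878246479602955182272993199118360078988135950186795165830058123909399224031044078249237031976080837725941834761559611466343062116962410307811966349913260504569971041860730774809897252580081405325113744203097483072220551143056035475528004882936765627062565656398220141304046195104947485902776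6586926820304962897435977719213976563759713687153408541046931999835808649282739040957578986693237028707622511315007186818483529073702103128653156910869613216890404984283806202859336368180219689323010651762608826576498561803176046803159337260506319966565373059287938739038397396969175487307609047832113488112413478640073204098665777238681681066709056003817304976188990240573591581321618063226275378205378513882036973097346654920405540714664068316980081417001571224110488457549966732955656194773419054839361714274353353740773458382214256232596583778407461669946187418091276336641983238454739515871117457208187256351204514487334820810876455954527416230725905194788756638684669192454528884475229252072014635075346691640000512)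

noncomputable def rc0 : Nat := (nat_lit 19040965984790865116080857012915125761051307471384025527134776475693560412564804208176252566509594814031470097027184297805519917487885331561375751230380280552964633594349159600963799222906815091578192419630478780452985397754839895305794263487299067516730965826434861872873502754560377154657179584062102042364445936481324896993302455237792338841124331891714119050144606035348923165550964458453993580152325887710581464013467987964547234377791332472915112617735849058809457935277229249296058879800779014766421266427514631960550296966282542452979881307726769141856512676151588164889449186240457134251393792704657243792931585993706105986247753684304091291296497934303682156992112259911737718338261234034845951809355081764867671234073181028116814301124673720344451951992164763738260442057812126447874717148246134579097753778320160019957031622656740807986012868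2992479105960423935131853274831130981987763954686353424368540563953967711550874259074149002843089800984974515350961424514985736814186551615770062741571908756337123706893757514916645732323435285477645960239805138110827639568918766313422898896381050043442457477702532498190154398236118758728650251631893634925218988448641648586489597672976559726495188302694293377692439835819076962992085014039731753047099275473998627717598680539620280164034459997128913496397726297229702647972955407468684657349290361311976775626451545769425309123452993060535066628709735237766633070905013646020316711801823674271650768455171723816572805422441771243473062561887091650386884762853643539268039720182399668162890898941596928532362647165730816)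

noncomputable def rc1 : Nat := (nat_lit 19793176298103356038977207676024601243340566494904310348470762825664111322151999674362839010777615765902970377353193341272119308579806058454603234791584594879560555912784194771504164760905591273802184329266098492019735681153763218918106949839491089789975170110233449789528262004201002933184479069782087600687812321370493093738765811425317968683592250077583735685160126755396766025790292482306619607894043918798453040258767273559921766666415079003836341376297213473385175806300673243619357278175486243666054665997426951439941813526952554796333621608033392649929422878246479602955182272993199118360078988135950186795165830058123909399224031044078249237031976080837725941834761559611466343062116962410307811966349913260504569971041860730774809897252580081405325113744203097483072220551143056035475528004882936765627062565656398220141304046195104947485902776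6586926820304962897435977719213976563759713687153408541046931999835808649282739040957578986693237028707622511315007186818483529073702103128653156910869613216890404984283806202859336368180219689323010651762608826576498561803176046803159337260506319966565373059287938739038397396969175487307609047832113488112413478640073204098665777238681681066709056003817304976188990240573591581321618063226275378205378513882036973097346654920405540714664068316980081417001571224110488457549966732955656194773419054839361714274353353740773458382214256232596583778407461669946187418091276336641983238454739515871117457208187256351204514487334820810876455954527416230725905194788756638684669192454528884475229252072014635075346691640000512)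

end Vale.Agent.Lib.P154.PChain.BN.S2
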