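import Vale.Agent.Lib.P154.PChain.BN.R2_0

set_option linter.all false

namespace Vale.Agent.Lib.P154.PChain.BN.S3

open Vale.Agent.Lib.P154.Chain

noncomputable def pc0 : PT := (PT.nd (nat_lit 4562220) (PT.nd (nat_lit 4359342) (PT.nd (nat_lit 4278066) (PT.nd (nat_lit 4237428) (PT.nd (nat_lit 4196946) (PT.nd (nat_lit 4196868) PT.nil (PT.lf (nat_lit 76) (nat_lit 6) (nat_lit 1) (nat_lit 3) (nat_lit 143) (nat_lit 103) (nat_lit 144))) (PT.lf (nat_lit 76) (nat_lit 6) (nat_lit 1) (nat_lit 1) (nat_lit 144) (nat_lit 103) (nat_lit 143))) (PT.nd (nat_lit 78) (PT.lf (nat_lit 152) (nat_lit 6) (nat_lit 2) (nat_lit 3) (nat_lit 142) (nat_lit 104) (nat_lit 144)) (PT.nd (nat_lit 78) (PT.lf (nat_lit 228) (nat_lit 3) (nat_lit 3) (nat_lit 1) (nat_lit 143) (nat_lit 104) (nat_lit 143)) (PT.lf (nat_lit 152) (nat_lit 6) (nat_lit 2) (nat_lit 1) (nat_lit 144) (nat_lit 104) (nat_lit 142))))) (PT.nd (nat_lit 40638)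 (PT.nd (nat_lit 78) (PT.lf (nat_lit 304) (nat_lit 6) (nat_lit 4) (nat_lit 3) (nat_lit 142) (nat_lit 105) (nat_lit 143)) (PT.nd (nat_lit 40482) (PT.lf (nat_lit 304) (nat_lit 6) (nat_lit 4) (nat_lit 1) (nat_lit 143) (nat_lit 105) (nat_lit 142)) (PT.lf (nat_lit 380) (nat_lit 6) (nat_lit 5) (nat_lit 3) (nat_lit 141) (nat_lit 106) (nat_lit 143)))) (PT.nd (nat_lit 78) (PT.lf (nat_lit 456) (nat_lit 3) (nat_lit 6) (nat_lit 1) (nat_lit 142) (nat_lit 106) (nat_lit 142)) (PT.nd (nat_lit 40482) (PT.lf (nat_lit 380) (nat_lit 6) (nat_lit 5) (nat_lit 1) (nat_lit 143) (nat_lit 106) (nat_lit 141)) (PT.lf (nat_lit 532) (nat_lit 6) (nat_lit 7) (nat_lit 3) (nat_lit 141) (nat_lit 107) (nat_lit 142)))))) (PT.nd (nat_lit 81198) (PT.nd (nat_lit 40560) (PT.nd (nat_lit 40482) (PT.lf (nat_lit 532) (nat_lit 6) (nat_lit 7) (nat_lit 1) (nat_lit 142) (nat_lit 107) (nat_lit 141)) (PT.lf (nat_lit 608) (nat_lit 6) (nat_lit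 8) (nat_lit 3) (nat_lit 140) (nat_lit 108) (nat_lit 142))) (PT.nd (nat_lit 78) (PT.lf (nat_lit 684) (nat_lit 3) (nat_lit 9) (nat_lit 1) (nat_lit 141) (nat_lit 108) (nat_lit 141)) (PT.nd (nat_lit 40482) (PT.lf (nat_lit 608) (nat_lit 6) (nat_lit 8) (nat_lit 1) (nat_lit 142) (nat_lit 108) (nat_lit 140)) (PT.lf (nat_lit 760) (nat_lit 6) (nat_lit 10) (nat_lit 3) (nat_lit 140) (nat_lit 109) (nat_lit 141))))) (PT.nd (nat_lit 40638) (PT.nd (nat_lit 40482) (PT.lf (nat_lit 760) (nat_lit 6) (nat_lit 10) (nat_lit 1) (nat_lit 141) (nat_lit 109) (nat_lit 140)) (PT.nd (nat_lit 78) (PT.lf (nat_lit 836) (nat_lit 6) (nat_lit 11) (nat_lit 3) (nat_lit 139) (nat_lit 110) (nat_lit 141)) (PT.lf (nat_lit 912) (nat_lit 3) (nat_lit 12) (nat_lit 1) (nat_lit 140) (nat_lit 110) (nat_lit 140)))) (PT.nd (nat_lit 40482) (PT.lf (nat_lit 836) (nat_lit 6) (nat_lit 11) (nat_lit 1) (nat_lit 141) (nat_lit 110) (nat_lit 139))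 (PT.nd (nat_lit 78) (PT.lf (nat_lit 988) (nat_lit 6) (nat_lit 13) (nat_lit 3) (nat_lit 139) (nat_lit 111) (nat_lit 140)) (PT.lf (nat_lit 988) (nat_lit 6) (nat_lit 13) (nat_lit 1) (nat_lit 140) (nat_lit 111) (nat_lit 139))))))) (PT.nd (nat_lit 121836) (PT.nd (nat_lit 40716) (PT.nd (nat_lit 156) (PT.nd (nat_lit 78) (PT.lf (nat_lit 1064) (nat_lit 6) (nat_lit 14) (nat_lit 3) (nat_lit 138) (nat_lit 112) (nat_lit 140)) (PT.lf (nat_lit 1140) (nat_lit 3) (nat_lit 15) (nat_lit 1) (nat_lit 139) (nat_lit 112) (nat_lit 139))) (PT.nd (nat_lit 40404) (PT.lf (nat_lit 1064) (nat_lit 6) (nat_lit 14) (nat_lit 1) (nat_lit 140) (nat_lit 112) (nat_lit 138)) (PT.nd (nat_lit 78) (PT.lf (nat_lit 1216) (nat_lit 6) (nat_lit 16) (nat_lit 3) (nat_lit 137) (nat_lit 113) (nat_lit 140)) (PT.lf (nat_lit 1292) (nat_lit 6) (nat_lit 17) (nat_lit 3) (nat_lit 138) (nat_lit 113) (nat_lit 139))))) (PT.nd (nat_lit 40560) (PT.nd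 (nat_lit 78) (PT.lf (nat_lit 1292) (nat_lit 6) (nat_lit 17) (nat_lit 1) (nat_lit 139) (nat_lit 113) (nat_lit 138)) (PT.nd (nat_lit 40404) (PT.lf (nat_lit 1216) (nat_lit 6) (nat_lit 16) (nat_lit 1) (nat_lit 140) (nat_lit 113) (nat_lit 137)) (PT.lf (nat_lit 1368) (nat_lit 6) (nat_lit 18) (nat_lit 3) (nat_lit 137) (nat_lit 114) (nat_lit 139)))) (PT.nd (nat_lit 78) (PT.lf (nat_lit 1444) (nat_lit 3) (nat_lit 19) (nat_lit 1) (nat_lit 138) (nat_lit 114) (nat_lit 138)) (PT.nd (nat_lit 40404) (PT.lf (nat_lit 1368) (nat_lit 6) (nat_lit 18) (nat_lit 1) (nat_lit 139) (nat_lit 114) (nat_lit 137)) (PT.lf (nat_lit 1520) (nat_lit 6) (nat_lit 20) (nat_lit 3) (nat_lit 136) (nat_lit 115) (nat_lit 139)))))) (PT.nd (nat_lit 40716) (PT.nd (nat_lit 156) (PT.nd (nat_lit 78) (PT.lf (nat_lit 1596) (nat_lit 6) (nat_lit 21) (nat_lit 3) (nat_lit 137) (nat_lit 115) (nat_lit 138)) (PT.lf (nat_lit 1596) (nat_lit 6) (nat_lit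 21) (nat_lit 1) (nat_lit 138) (nat_lit 115) (nat_lit 137))) (PT.nd (nat_lit 40404) (PT.lf (nat_lit 1520) (nat_lit 6) (nat_lit 20) (nat_lit 1) (nat_lit 139) (nat_lit 115) (nat_lit 136)) (PT.nd (nat_lit 78) (PT.lf (nat_lit 1672) (nat_lit 6) (nat_lit 22) (nat_lit 3) (nat_lit 136) (nat_lit 116) (nat_lit 138)) (PT.lf (nat_lit 1748) (nat_lit 3) (nat_lit 23) (nat_lit 1) (nat_lit 137) (nat_lit 116) (nat_lit 137))))) (PT.nd (nat_lit 40560) (PT.nd (nat_lit 40404) (PT.lf (nat_lit 1672) (nat_lit 6) (nat_lit 22) (nat_lit 1) (nat_lit 138) (nat_lit 116) (nat_lit 136)) (PT.nd (nat_lit 78) (PT.lf (nat_lit 1824) (nat_lit 6) (nat_lit 24) (nat_lit 3) (nat_lit 135) (nat_lit 117) (nat_lit 138)) (PT.lf (nat_lit 1900) (nat_lit 6) (nat_lit 25) (nat_lit 3) (nat_lit 136) (nat_lit 117) (nat_lit 137)))) (PT.nd (nat_lit 78) (PT.lf (nat_lit 1900) (nat_lit 6) (nat_lit 25) (nat_lit 1) (nat_lit 137) (nat_lit 117) (nat_lit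 136)) (PT.nd (nat_lit 40326) (PT.lf (nat_lit 1824) (nat_lit 6) (nat_lit 24) (nat_lit 1) (nat_lit 138) (nat_lit 117) (nat_lit 135)) (PT.lf (nat_lit 1976) (nat_lit 6) (nat_lit 26) (nat_lit 3) (nat_lit 134) (nat_lit 118) (nat_lit 138))))))))
noncomputable def pc1 : PT := (PT.nd (nat_lit 162474) (PT.nd (nat_lit 81354) (PT.nd (nat_lit 40638) (PT.nd (nat_lit 156) (PT.nd (nat_lit 78) (PT.lf (nat_lit 2052) (nat_lit 6) (nat_lit 27) (nat_lit 3) (nat_lit 135) (nat_lit 118) (nat_lit 137)) (PT.lf (nat_lit 2128) (nat_lit 3) (nat_lit 28) (nat_lit 1) (nat_lit 136) (nat_lit 118) (nat_lit 136))) (PT.nd (nat_lit 78) (PT.lf (nat_lit 2052) (nat_lit 6) (nat_lit 27) (nat_lit 1) (nat_lit 137) (nat_lit 118) (nat_lit 135)) (PT.nd (nat_lit 40326) (PT.lf (nat_lit 1976) (nat_lit 6) (nat_lit 26) (nat_lit 1) (nat_lit 138) (nat_lit 118) (nat_lit 134)) (PT.lf (nat_lit 2204) (nat_lit 6) (nat_lit 29) (nat_lit 3) (nat_lit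 134) (nat_lit 119) (nat_lit 137))))) (PT.nd (nat_lit 40482) (PT.nd (nat_lit 78) (PT.lf (nat_lit 2280) (nat_lit 6) (nat_lit 30) (nat_lit 3) (nat_lit 135) (nat_lit 119) (nat_lit 136)) (PT.nd (nat_lit 78) (PT.lf (nat_lit 2280) (nat_lit 6) (nat_lit 30) (nat_lit 1) (nat_lit 136) (nat_lit 119) (nat_lit 135)) (PT.lf (nat_lit 2204) (nat_lit 6) (nat_lit 29) (nat_lit 1) (nat_lit 137) (nat_lit 119) (nat_lit 134)))) (PT.nd (nat_lit 78) (PT.lf (nat_lit 2356) (nat_lit 6) (nat_lit 31) (nat_lit 3) (nat_lit 133) (nat_lit 120) (nat_lit 137)) (PT.nd (nat_lit 78) (PT.lf (nat_lit 2432) (nat_lit 6) (nat_lit 32) (nat_lit 3) (nat_lit 134) (nat_lit 120) (nat_lit 136)) (PT.lf (nat_lit 2508) (nat_lit 3) (nat_lit 33) (nat_lit 1) (nat_lit 135) (nat_lit 120) (nat_lit 135)))))) (PT.nd (nat_lit 40560) (PT.nd (nat_lit 40326) (PT.nd (nat_lit 78) (PT.lf (nat_lit 2432) (nat_lit 6) (nat_lit 32) (nat_lit 1) (nat_lit 136) (nat_lit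 120) (nat_lit 134)) (PT.lf (nat_lit 2356) (nat_lit 6) (nat_lit 31) (nat_lit 1) (nat_lit 137) (nat_lit 120) (nat_lit 133))) (PT.nd (nat_lit 78) (PT.lf (nat_lit 2584) (nat_lit 6) (nat_lit 34) (nat_lit 3) (nat_lit 132) (nat_lit 121) (nat_lit 137)) (PT.nd (nat_lit 78) (PT.lf (nat_lit 2660) (nat_lit 6) (nat_lit 35) (nat_lit 3) (nat_lit 133) (nat_lit 121) (nat_lit 136)) (PT.lf (nat_lit 2736) (nat_lit 6) (nat_lit 36) (nat_lit 3) (nat_lit 134) (nat_lit 121) (nat_lit 135))))) (PT.nd (nat_lit 40326) (PT.nd (nat_lit 78) (PT.lf (nat_lit 2736) (nat_lit 6) (nat_lit 36) (nat_lit 1) (nat_lit 135) (nat_lit 121) (nat_lit 134)) (PT.nd (nat_lit 78) (PT.lf (nat_lit 2660) (nat_lit 6) (nat_lit 35) (nat_lit 1) (nat_lit 136) (nat_lit 121) (nat_lit 133)) (PT.lf (nat_lit 2584) (nat_lit 6) (nat_lit 34) (nat_lit 1) (nat_lit 137) (nat_lit 121) (nat_lit 132)))) (PT.nd (nat_lit 78) (PT.lf (nat_lit 2812) (nat_lit 6) (nat_lit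 37) (nat_lit 3) (nat_lit 131) (nat_lit 122) (nat_lit 137)) (PT.nd (nat_lit 78) (PT.lf (nat_lit 2888) (nat_lit 6) (nat_lit 38) (nat_lit 3) (nat_lit 132) (nat_lit 122) (nat_lit 136)) (PT.lf (nat_lit 2964) (nat_lit 6) (nat_lit 39) (nat_lit 3) (nat_lit 133) (nat_lit 122) (nat_lit 135))))))) (PT.nd (nat_lit 81042) (PT.nd (nat_lit 40482) (PT.nd (nat_lit 156) (PT.nd (nat_lit 78) (PT.lf (nat_lit 3040) (nat_lit 3) (nat_lit 40) (nat_lit 1) (nat_lit 134) (nat_lit 122) (nat_lit 134)) (PT.lf (nat_lit 2964) (nat_lit 6) (nat_lit 39) (nat_lit 1) (nat_lit 135) (nat_lit 122) (nat_lit 133))) (PT.nd (nat_lit 78) (PT.lf (nat_lit 2888) (nat_lit 6) (nat_lit 38) (nat_lit 1) (nat_lit 136) (nat_lit 122) (nat_lit 132)) (PT.nd (nat_lit 40170) (PT.lf (nat_lit 2812) (nat_lit 6) (nat_lit 37) (nat_lit 1) (nat_lit 137) (nat_lit 122) (nat_lit 131)) (PT.lf (nat_lit 3116) (nat_lit 6) (nat_lit 41) (nat_lit 3) (nat_lit 131)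 (nat_lit 123) (nat_lit 136))))) (PT.nd (nat_lit 234) (PT.nd (nat_lit 78) (PT.lf (nat_lit 3192) (nat_lit 6) (nat_lit 42) (nat_lit 3) (nat_lit 132) (nat_lit 123) (nat_lit 135)) (PT.nd (nat_lit 78) (PT.lf (nat_lit 3268) (nat_lit 6) (nat_lit 43) (nat_lit 3) (nat_lit 133) (nat_lit 123) (nat_lit 134)) (PT.lf (nat_lit 3268) (nat_lit 6) (nat_lit 43) (nat_lit 1) (nat_lit 134) (nat_lit 123) (nat_lit 133)))) (PT.nd (nat_lit 78) (PT.lf (nat_lit 3192) (nat_lit 6) (nat_lit 42) (nat_lit 1) (nat_lit 135) (nat_lit 123) (nat_lit 132)) (PT.nd (nat_lit 40170) (PT.lf (nat_lit 3116) (nat_lit 6) (nat_lit 41) (nat_lit 1) (nat_lit 136) (nat_lit 123) (nat_lit 131)) (PT.lf (nat_lit 3572) (nat_lit 6) (nat_lit 47) (nat_lit 3) (nat_lit 130) (nat_lit 124) (nat_lit 136)))))) (PT.nd (nat_lit 390) (PT.nd (nat_lit 156) (PT.nd (nat_lit 78) (PT.lf (nat_lit 3648) (nat_lit 6) (nat_lit 48) (nat_lit 3) (nat_lit 131) (nat_lit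 124) (nat_lit 135)) (PT.lf (nat_lit 3724) (nat_lit 6) (nat_lit 49) (nat_lit 3) (nat_lit 132) (nat_lit 124) (nat_lit 134))) (PT.nd (nat_lit 78) (PT.lf (nat_lit 3800) (nat_lit 3) (nat_lit 50) (nat_lit 1) (nat_lit 133) (nat_lit 124) (nat_lit 133)) (PT.nd (nat_lit 78) (PT.lf (nat_lit 3724) (nat_lit 6) (nat_lit 49) (nat_lit 1) (nat_lit 134) (nat_lit 124) (nat_lit 132)) (PT.lf (nat_lit 3648) (nat_lit 6) (nat_lit 48) (nat_lit 1) (nat_lit 135) (nat_lit 124) (nat_lit 131))))) (PT.nd (nat_lit 40248) (PT.nd (nat_lit 40092) (PT.lf (nat_lit 3572) (nat_lit 6) (nat_lit 47) (nat_lit 1) (nat_lit 136) (nat_lit 124) (nat_lit 130)) (PT.nd (nat_lit 78) (PT.lf (nat_lit 3496) (nat_lit 6) (nat_lit 46) (nat_lit 3) (nat_lit 129) (nat_lit 125) (nat_lit 136)) (PT.lf (nat_lit 4028) (nat_lit 6) (nat_lit 53) (nat_lit 3) (nat_lit 130) (nat_lit 125) (nat_lit 135)))) (PT.nd (nat_lit 78) (PT.lf (nat_lit 4104) (nat_lit 6)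 (nat_lit 54) (nat_lit 3) (nat_lit 131) (nat_lit 125) (nat_lit 134)) (PT.nd (nat_lit 78) (PT.lf (nat_lit 4180) (nat_lit 6) (nat_lit 55) (nat_lit 3) (nat_lit 132) (nat_lit 125) (nat_lit 133)) (PT.lf (nat_lit 4180) (nat_lit 6) (nat_lit 55) (nat_lit 1) (nat_lit 133) (nat_lit 125) (nat_lit 132))))))))
noncomputable def pc2 : PT := (PT.nd (nat_lit 121290) (PT.nd (nat_lit 40794) (PT.nd (nat_lit 40326) (PT.nd (nat_lit 156) (PT.nd (nat_lit 78) (PT.lf (nat_lit 4104) (nat_lit 6) (nat_lit 54) (nat_lit 1) (nat_lit 134) (nat_lit 125) (nat_lit 131)) (PT.lf (nat_lit 4028) (nat_lit 6) (nat_lit 53) (nat_lit 1) (nat_lit 135) (nat_lit 125) (nat_lit 130))) (PT.nd (nat_lit 40014) (PT.lf (nat_lit 3496) (nat_lit 6) (nat_lit 46) (nat_lit 1) (nat_lit 136) (nat_lit 125) (nat_lit 129)) (PT.nd (nat_lit 78) (PT.lf (nat_lit 3420) (nat_lit 6) (nat_lit 45) (nat_lit 3) (nat_lit 128) (nat_lit 126) (nat_lit 136)) (PT.lf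 (nat_lit 3952) (nat_lit 6) (nat_lit 52) (nat_lit 3) (nat_lit 129) (nat_lit 126) (nat_lit 135))))) (PT.nd (nat_lit 234) (PT.nd (nat_lit 78) (PT.lf (nat_lit 4408) (nat_lit 6) (nat_lit 58) (nat_lit 3) (nat_lit 130) (nat_lit 126) (nat_lit 134)) (PT.nd (nat_lit 78) (PT.lf (nat_lit 4484) (nat_lit 6) (nat_lit 59) (nat_lit 3) (nat_lit 131) (nat_lit 126) (nat_lit 133)) (PT.lf (nat_lit 4560) (nat_lit 3) (nat_lit 60) (nat_lit 1) (nat_lit 132) (nat_lit 126) (nat_lit 132)))) (PT.nd (nat_lit 78) (PT.lf (nat_lit 4484) (nat_lit 6) (nat_lit 59) (nat_lit 1) (nat_lit 133) (nat_lit 126) (nat_lit 131)) (PT.nd (nat_lit 78) (PT.lf (nat_lit 4408) (nat_lit 6) (nat_lit 58) (nat_lit 1) (nat_lit 134) (nat_lit 126) (nat_lit 130)) (PT.lf (nat_lit 3952) (nat_lit 6) (nat_lit 52) (nat_lit 1) (nat_lit 135) (nat_lit 126) (nat_lit 129)))))) (PT.nd (nat_lit 40248) (PT.nd (nat_lit 40014) (PT.nd (nat_lit 39936) (PT.lf (nat_lit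 3420) (nat_lit 6) (nat_lit 45) (nat_lit 1) (nat_lit 136) (nat_lit 126) (nat_lit 128)) (PT.lf (nat_lit 3344) (nat_lit 3) (nat_lit 44) (nat_lit 3) (nat_lit 127) (nat_lit 127) (nat_lit 136))) (PT.nd (nat_lit 78) (PT.lf (nat_lit 3876) (nat_lit 6) (nat_lit 51) (nat_lit 3) (nat_lit 128) (nat_lit 127) (nat_lit 135)) (PT.nd (nat_lit 78) (PT.lf (nat_lit 4332) (nat_lit 6) (nat_lit 57) (nat_lit 3) (nat_lit 129) (nat_lit 127) (nat_lit 134)) (PT.lf (nat_lit 4712) (nat_lit 6) (nat_lit 62) (nat_lit 3) (nat_lit 130) (nat_lit 127) (nat_lit 133))))) (PT.nd (nat_lit 234) (PT.nd (nat_lit 78) (PT.lf (nat_lit 4788) (nat_lit 6) (nat_lit 63) (nat_lit 3) (nat_lit 131) (nat_lit 127) (nat_lit 132)) (PT.nd (nat_lit 78) (PT.lf (nat_lit 4788) (nat_lit 6) (nat_lit 63) (nat_lit 1) (nat_lit 132) (nat_lit 127) (nat_lit 131)) (PT.lf (nat_lit 4712) (nat_lit 6) (nat_lit 62) (nat_lit 1) (nat_lit 133) (nat_lit 127) (nat_lit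 130)))) (PT.nd (nat_lit 78) (PT.lf (nat_lit 4332) (nat_lit 6) (nat_lit 57) (nat_lit 1) (nat_lit 134) (nat_lit 127) (nat_lit 129)) (PT.nd (nat_lit 78) (PT.lf (nat_lit 3876) (nat_lit 6) (nat_lit 51) (nat_lit 1) (nat_lit 135) (nat_lit 127) (nat_lit 128)) (PT.lf (nat_lit 3344) (nat_lit 3) (nat_lit 44) (nat_lit 0) (nat_lit 136) (nat_lit 127) (nat_lit 127))))))) (PT.nd (nat_lit 40560) (PT.nd (nat_lit 390) (PT.nd (nat_lit 156) (PT.nd (nat_lit 78) (PT.lf (nat_lit 3420) (nat_lit 6) (nat_lit 45) (nat_lit 5) (nat_lit 126) (nat_lit 128) (nat_lit 136)) (PT.lf (nat_lit 3876) (nat_lit 6) (nat_lit 51) (nat_lit 5) (nat_lit 127) (nat_lit 128) (nat_lit 135))) (PT.nd (nat_lit 78) (PT.lf (nat_lit 4256) (nat_lit 3) (nat_lit 56) (nat_lit 3) (nat_lit 128) (nat_lit 128) (nat_lit 134)) (PT.nd (nat_lit 78) (PT.lf (nat_lit 4636) (nat_lit 6) (nat_lit 61) (nat_lit 3) (nat_lit 129) (nat_lit 128) (nat_lit 133)) (PT.lf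 (nat_lit 4940) (nat_lit 6) (nat_lit 65) (nat_lit 3) (nat_lit 130) (nat_lit 128) (nat_lit 132))))) (PT.nd (nat_lit 234) (PT.nd (nat_lit 78) (PT.lf (nat_lit 5016) (nat_lit 3) (nat_lit 66) (nat_lit 1) (nat_lit 131) (nat_lit 128) (nat_lit 131)) (PT.nd (nat_lit 78) (PT.lf (nat_lit 4940) (nat_lit 6) (nat_lit 65) (nat_lit 1) (nat_lit 132) (nat_lit 128) (nat_lit 130)) (PT.lf (nat_lit 4636) (nat_lit 6) (nat_lit 61) (nat_lit 1) (nat_lit 133) (nat_lit 128) (nat_lit 129)))) (PT.nd (nat_lit 78) (PT.lf (nat_lit 4256) (nat_lit 3) (nat_lit 56) (nat_lit 0) (nat_lit 134) (nat_lit 128) (nat_lit 128)) (PT.nd (nat_lit 78) (PT.lf (nat_lit 3876) (nat_lit 6) (nat_lit 51) (nat_lit 0) (nat_lit 135) (nat_lit 128) (nat_lit 127)) (PT.lf (nat_lit 3420) (nat_lit 6) (nat_lit 45) (nat_lit 0) (nat_lit 136) (nat_lit 128) (nat_lit 126)))))) (PT.nd (nat_lit 390) (PT.nd (nat_lit 156) (PT.nd (nat_lit 78) (PT.lf (nat_lit 3496)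 (nat_lit 6) (nat_lit 46) (nat_lit 5) (nat_lit 125) (nat_lit 129) (nat_lit 136)) (PT.lf (nat_lit 3952) (nat_lit 6) (nat_lit 52) (nat_lit 5) (nat_lit 126) (nat_lit 129) (nat_lit 135))) (PT.nd (nat_lit 78) (PT.lf (nat_lit 4332) (nat_lit 6) (nat_lit 57) (nat_lit 5) (nat_lit 127) (nat_lit 129) (nat_lit 134)) (PT.nd (nat_lit 78) (PT.lf (nat_lit 4636) (nat_lit 6) (nat_lit 61) (nat_lit 5) (nat_lit 128) (nat_lit 129) (nat_lit 133)) (PT.lf (nat_lit 4864) (nat_lit 3) (nat_lit 64) (nat_lit 3) (nat_lit 129) (nat_lit 129) (nat_lit 132))))) (PT.nd (nat_lit 234) (PT.nd (nat_lit 78) (PT.lf (nat_lit 5092) (nat_lit 6) (nat_lit 67) (nat_lit 3) (nat_lit 130) (nat_lit 129) (nat_lit 131)) (PT.nd (nat_lit 78) (PT.lf (nat_lit 5092) (nat_lit 6) (nat_lit 67) (nat_lit 1) (nat_lit 131) (nat_lit 129) (nat_lit 130)) (PT.lf (nat_lit 4864) (nat_lit 3) (nat_lit 64) (nat_lit 0) (nat_lit 132) (nat_lit 129) (nat_lit 129))))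 (PT.nd (nat_lit 78) (PT.lf (nat_lit 4636) (nat_lit 6) (nat_lit 61) (nat_lit 0) (nat_lit 133) (nat_lit 129) (nat_lit 128)) (PT.nd (nat_lit 78) (PT.lf (nat_lit 4332) (nat_lit 6) (nat_lit 57) (nat_lit 0) (nat_lit 134) (nat_lit 129) (nat_lit 127)) (PT.lf (nat_lit 3952) (nat_lit 6) (nat_lit 52) (nat_lit 0) (nat_lit 135) (nat_lit 129) (nat_lit 126))))))))
noncomputable def pc3 : PT := (PT.nd (nat_lit 80808) (PT.nd (nat_lit 40482) (PT.nd (nat_lit 40014) (PT.nd (nat_lit 39780) (PT.nd (nat_lit 39702) (PT.lf (nat_lit 3496) (nat_lit 6) (nat_lit 46) (nat_lit 0) (nat_lit 136) (nat_lit 129) (nat_lit 125)) (PT.lf (nat_lit 3572) (nat_lit 6) (nat_lit 47) (nat_lit 5) (nat_lit 124) (nat_lit 130) (nat_lit 136))) (PT.nd (nat_lit 78) (PT.lf (nat_lit 4028) (nat_lit 6) (nat_lit 53) (nat_lit 5) (nat_lit 125) (nat_lit 130) (nat_lit 135)) (PT.nd (nat_lit 78) (PT.lf (nat_lit 4408) (nat_lit 6) (nat_lit 58) (nat_lit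 5) (nat_lit 126) (nat_lit 130) (nat_lit 134)) (PT.lf (nat_lit 4712) (nat_lit 6) (nat_lit 62) (nat_lit 5) (nat_lit 127) (nat_lit 130) (nat_lit 133))))) (PT.nd (nat_lit 234) (PT.nd (nat_lit 78) (PT.lf (nat_lit 4940) (nat_lit 6) (nat_lit 65) (nat_lit 5) (nat_lit 128) (nat_lit 130) (nat_lit 132)) (PT.nd (nat_lit 78) (PT.lf (nat_lit 5092) (nat_lit 6) (nat_lit 67) (nat_lit 5) (nat_lit 129) (nat_lit 130) (nat_lit 131)) (PT.lf (nat_lit 5168) (nat_lit 1) (nat_lit 68) (nat_lit 0) (nat_lit 130) (nat_lit 130) (nat_lit 130)))) (PT.nd (nat_lit 78) (PT.lf (nat_lit 5092) (nat_lit 6) (nat_lit 67) (nat_lit 0) (nat_lit 131) (nat_lit 130) (nat_lit 129)) (PT.nd (nat_lit 78) (PT.lf (nat_lit 4940) (nat_lit 6) (nat_lit 65) (nat_lit 0) (nat_lit 132) (nat_lit 130) (nat_lit 128)) (PT.lf (nat_lit 4712) (nat_lit 6) (nat_lit 62) (nat_lit 0) (nat_lit 133) (nat_lit 130) (nat_lit 127)))))) (PT.nd (nat_lit 39858) (PT.nd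 (nat_lit 156) (PT.nd (nat_lit 78) (PT.lf (nat_lit 4408) (nat_lit 6) (nat_lit 58) (nat_lit 0) (nat_lit 134) (nat_lit 130) (nat_lit 126)) (PT.lf (nat_lit 4028) (nat_lit 6) (nat_lit 53) (nat_lit 0) (nat_lit 135) (nat_lit 130) (nat_lit 125))) (PT.nd (nat_lit 39546) (PT.lf (nat_lit 3572) (nat_lit 6) (nat_lit 47) (nat_lit 0) (nat_lit 136) (nat_lit 130) (nat_lit 124)) (PT.nd (nat_lit 78) (PT.lf (nat_lit 2812) (nat_lit 6) (nat_lit 37) (nat_lit 5) (nat_lit 122) (nat_lit 131) (nat_lit 137)) (PT.lf (nat_lit 3116) (nat_lit 6) (nat_lit 41) (nat_lit 5) (nat_lit 123) (nat_lit 131) (nat_lit 136))))) (PT.nd (nat_lit 234) (PT.nd (nat_lit 78) (PT.lf (nat_lit 3648) (nat_lit 6) (nat_lit 48) (nat_lit 5) (nat_lit 124) (nat_lit 131) (nat_lit 135)) (PT.nd (nat_lit 78) (PT.lf (nat_lit 4104) (nat_lit 6) (nat_lit 54) (nat_lit 5) (nat_lit 125) (nat_lit 131) (nat_lit 134)) (PT.lf (nat_lit 4484) (nat_lit 6) (nat_lit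 59) (nat_lit 5) (nat_lit 126) (nat_lit 131) (nat_lit 133)))) (PT.nd (nat_lit 78) (PT.lf (nat_lit 4788) (nat_lit 6) (nat_lit 63) (nat_lit 5) (nat_lit 127) (nat_lit 131) (nat_lit 132)) (PT.nd (nat_lit 78) (PT.lf (nat_lit 5016) (nat_lit 3) (nat_lit 66) (nat_lit 4) (nat_lit 128) (nat_lit 131) (nat_lit 131)) (PT.lf (nat_lit 5092) (nat_lit 6) (nat_lit 67) (nat_lit 4) (nat_lit 129) (nat_lit 131) (nat_lit 130))))))) (PT.nd (nat_lit 40170) (PT.nd (nat_lit 390) (PT.nd (nat_lit 156) (PT.nd (nat_lit 78) (PT.lf (nat_lit 5092) (nat_lit 6) (nat_lit 67) (nat_lit 2) (nat_lit 130) (nat_lit 131) (nat_lit 129)) (PT.lf (nat_lit 5016) (nat_lit 3) (nat_lit 66) (nat_lit 0) (nat_lit 131) (nat_lit 131) (nat_lit 128))) (PT.nd (nat_lit 78) (PT.lf (nat_lit 4788) (nat_lit 6) (nat_lit 63) (nat_lit 0) (nat_lit 132) (nat_lit 131) (nat_lit 127)) (PT.nd (nat_lit 78) (PT.lf (nat_lit 4484) (nat_lit 6) (nat_lit 59) (nat_lit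 0) (nat_lit 133) (nat_lit 131) (nat_lit 126)) (PT.lf (nat_lit 4104) (nat_lit 6) (nat_lit 54) (nat_lit 0) (nat_lit 134) (nat_lit 131) (nat_lit 125))))) (PT.nd (nat_lit 39546) (PT.nd (nat_lit 78) (PT.lf (nat_lit 3648) (nat_lit 6) (nat_lit 48) (nat_lit 0) (nat_lit 135) (nat_lit 131) (nat_lit 124)) (PT.nd (nat_lit 78) (PT.lf (nat_lit 3116) (nat_lit 6) (nat_lit 41) (nat_lit 0) (nat_lit 136) (nat_lit 131) (nat_lit 123)) (PT.lf (nat_lit 2812) (nat_lit 6) (nat_lit 37) (nat_lit 0) (nat_lit 137) (nat_lit 131) (nat_lit 122)))) (PT.nd (nat_lit 78) (PT.lf (nat_lit 2584) (nat_lit 6) (nat_lit 34) (nat_lit 5) (nat_lit 121) (nat_lit 132) (nat_lit 137)) (PT.nd (nat_lit 78) (PT.lf (nat_lit 2888) (nat_lit 6) (nat_lit 38) (nat_lit 5) (nat_lit 122) (nat_lit 132) (nat_lit 136)) (PT.lf (nat_lit 3192) (nat_lit 6) (nat_lit 42) (nat_lit 5) (nat_lit 123) (nat_lit 132) (nat_lit 135)))))) (PT.nd (nat_lit 468) (PT.nd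 (nat_lit 234) (PT.nd (nat_lit 78) (PT.lf (nat_lit 3724) (nat_lit 6) (nat_lit 49) (nat_lit 5) (nat_lit 124) (nat_lit 132) (nat_lit 134)) (PT.nd (nat_lit 78) (PT.lf (nat_lit 4180) (nat_lit 6) (nat_lit 55) (nat_lit 5) (nat_lit 125) (nat_lit 132) (nat_lit 133)) (PT.lf (nat_lit 4560) (nat_lit 3) (nat_lit 60) (nat_lit 4) (nat_lit 126) (nat_lit 132) (nat_lit 132)))) (PT.nd (nat_lit 78) (PT.lf (nat_lit 4788) (nat_lit 6) (nat_lit 63) (nat_lit 4) (nat_lit 127) (nat_lit 132) (nat_lit 131)) (PT.nd (nat_lit 78) (PT.lf (nat_lit 4940) (nat_lit 6) (nat_lit 65) (nat_lit 4) (nat_lit 128) (nat_lit 132) (nat_lit 130)) (PT.lf (nat_lit 4864) (nat_lit 3) (nat_lit 64) (nat_lit 2) (nat_lit 129) (nat_lit 132) (nat_lit 129))))) (PT.nd (nat_lit 234) (PT.nd (nat_lit 78) (PT.lf (nat_lit 4940) (nat_lit 6) (nat_lit 65) (nat_lit 2) (nat_lit 130) (nat_lit 132) (nat_lit 128)) (PT.nd (nat_lit 78) (PT.lf (nat_lit 4788) (nat_lit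 6) (nat_lit 63) (nat_lit 2) (nat_lit 131) (nat_lit 132) (nat_lit 127)) (PT.lf (nat_lit 4560) (nat_lit 3) (nat_lit 60) (nat_lit 0) (nat_lit 132) (nat_lit 132) (nat_lit 126)))) (PT.nd (nat_lit 78) (PT.lf (nat_lit 4180) (nat_lit 6) (nat_lit 55) (nat_lit 0) (nat_lit 133) (nat_lit 132) (nat_lit 125)) (PT.nd (nat_lit 78) (PT.lf (nat_lit 3724) (nat_lit 6) (nat_lit 49) (nat_lit 0) (nat_lit 134) (nat_lit 132) (nat_lit 124)) (PT.lf (nat_lit 3192) (nat_lit 6) (nat_lit 42) (nat_lit 0) (nat_lit 135) (nat_lit 132) (nat_lit 123))))))))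
noncomputable def pc4 : PT := (PT.nd (nat_lit 80028) (PT.nd (nat_lit 40092) (PT.nd (nat_lit 39624) (PT.nd (nat_lit 39390) (PT.nd (nat_lit 78) (PT.lf (nat_lit 2888) (nat_lit 6) (nat_lit 38) (nat_lit 0) (nat_lit 136) (nat_lit 132) (nat_lit 122)) (PT.lf (nat_lit 2584) (nat_lit 6) (nat_lit 34) (nat_lit 0) (nat_lit 137) (nat_lit 132) (nat_lit 121))) (PT.nd (nat_lit 78) (PT.lf (nat_lit 2356) (nat_lit 6) (nat_lit 31) (nat_lit 5) (nat_lit 120) (nat_lit 133) (nat_lit 137)) (PT.nd (nat_lit 78) (PT.lf (nat_lit 2660) (nat_lit 6) (nat_lit 35) (nat_lit 5) (nat_lit 121) (nat_lit 133) (nat_lit 136)) (PT.lf (nat_lit 2964) (nat_lit 6) (nat_lit 39) (nat_lit 5) (nat_lit 122) (nat_lit 133) (nat_lit 135))))) (PT.nd (nat_lit 234) (PT.nd (nat_lit 78) (PT.lf (nat_lit 3268) (nat_lit 6) (nat_lit 43) (nat_lit 5) (nat_lit 123) (nat_lit 133) (nat_lit 134)) (PT.nd (nat_lit 78) (PT.lf (nat_lit 3800) (nat_lit 3) (nat_lit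 50) (nat_lit 4) (nat_lit 124) (nat_lit 133) (nat_lit 133)) (PT.lf (nat_lit 4180) (nat_lit 6) (nat_lit 55) (nat_lit 4) (nat_lit 125) (nat_lit 133) (nat_lit 132)))) (PT.nd (nat_lit 78) (PT.lf (nat_lit 4484) (nat_lit 6) (nat_lit 59) (nat_lit 4) (nat_lit 126) (nat_lit 133) (nat_lit 131)) (PT.nd (nat_lit 78) (PT.lf (nat_lit 4712) (nat_lit 6) (nat_lit 62) (nat_lit 4) (nat_lit 127) (nat_lit 133) (nat_lit 130)) (PT.lf (nat_lit 4636) (nat_lit 6) (nat_lit 61) (nat_lit 4) (nat_lit 128) (nat_lit 133) (nat_lit 129)))))) (PT.nd (nat_lit 390) (PT.nd (nat_lit 156) (PT.nd (nat_lit 78) (PT.lf (nat_lit 4636) (nat_lit 6) (nat_lit 61) (nat_lit 2) (nat_lit 129) (nat_lit 133) (nat_lit 128)) (PT.lf (nat_lit 4712) (nat_lit 6) (nat_lit 62) (nat_lit 2) (nat_lit 130) (nat_lit 133) (nat_lit 127))) (PT.nd (nat_lit 78) (PT.lf (nat_lit 4484) (nat_lit 6) (nat_lit 59) (nat_lit 2) (nat_lit 131) (nat_lit 133) (nat_lit 126))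 (PT.nd (nat_lit 78) (PT.lf (nat_lit 4180) (nat_lit 6) (nat_lit 55) (nat_lit 2) (nat_lit 132) (nat_lit 133) (nat_lit 125)) (PT.lf (nat_lit 3800) (nat_lit 3) (nat_lit 50) (nat_lit 0) (nat_lit 133) (nat_lit 133) (nat_lit 124))))) (PT.nd (nat_lit 234) (PT.nd (nat_lit 78) (PT.lf (nat_lit 3268) (nat_lit 6) (nat_lit 43) (nat_lit 0) (nat_lit 134) (nat_lit 133) (nat_lit 123)) (PT.nd (nat_lit 78) (PT.lf (nat_lit 2964) (nat_lit 6) (nat_lit 39) (nat_lit 0) (nat_lit 135) (nat_lit 133) (nat_lit 122)) (PT.lf (nat_lit 2660) (nat_lit 6) (nat_lit 35) (nat_lit 0) (nat_lit 136) (nat_lit 133) (nat_lit 121)))) (PT.nd (nat_lit 39156) (PT.lf (nat_lit 2356) (nat_lit 6) (nat_lit 31) (nat_lit 0) (nat_lit 137) (nat_lit 133) (nat_lit 120)) (PT.nd (nat_lit 78) (PT.lf (nat_lit 1976) (nat_lit 6) (nat_lit 26) (nat_lit 5) (nat_lit 118) (nat_lit 134) (nat_lit 138)) (PT.lf (nat_lit 2204) (nat_lit 6) (nat_lit 29) (nat_lit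 5) (nat_lit 119) (nat_lit 134) (nat_lit 137))))))) (PT.nd (nat_lit 858) (PT.nd (nat_lit 390) (PT.nd (nat_lit 156) (PT.nd (nat_lit 78) (PT.lf (nat_lit 2432) (nat_lit 6) (nat_lit 32) (nat_lit 5) (nat_lit 120) (nat_lit 134) (nat_lit 136)) (PT.lf (nat_lit 2736) (nat_lit 6) (nat_lit 36) (nat_lit 5) (nat_lit 121) (nat_lit 134) (nat_lit 135))) (PT.nd (nat_lit 78) (PT.lf (nat_lit 3040) (nat_lit 3) (nat_lit 40) (nat_lit 4) (nat_lit 122) (nat_lit 134) (nat_lit 134)) (PT.nd (nat_lit 78) (PT.lf (nat_lit 3268) (nat_lit 6) (nat_lit 43) (nat_lit 4) (nat_lit 123) (nat_lit 134) (nat_lit 133)) (PT.lf (nat_lit 3724) (nat_lit 6) (nat_lit 49) (nat_lit 4) (nat_lit 124) (nat_lit 134) (nat_lit 132))))) (PT.nd (nat_lit 234) (PT.nd (nat_lit 78) (PT.lf (nat_lit 4104) (nat_lit 6) (nat_lit 54) (nat_lit 4) (nat_lit 125) (nat_lit 134) (nat_lit 131)) (PT.nd (nat_lit 78) (PT.lf (nat_lit 4408) (nat_lit 6) (nat_lit 58)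 (nat_lit 4) (nat_lit 126) (nat_lit 134) (nat_lit 130)) (PT.lf (nat_lit 4332) (nat_lit 6) (nat_lit 57) (nat_lit 4) (nat_lit 127) (nat_lit 134) (nat_lit 129)))) (PT.nd (nat_lit 78) (PT.lf (nat_lit 4256) (nat_lit 3) (nat_lit 56) (nat_lit 2) (nat_lit 128) (nat_lit 134) (nat_lit 128)) (PT.nd (nat_lit 78) (PT.lf (nat_lit 4332) (nat_lit 6) (nat_lit 57) (nat_lit 2) (nat_lit 129) (nat_lit 134) (nat_lit 127)) (PT.lf (nat_lit 4408) (nat_lit 6) (nat_lit 58) (nat_lit 2) (nat_lit 130) (nat_lit 134) (nat_lit 126)))))) (PT.nd (nat_lit 390) (PT.nd (nat_lit 156) (PT.nd (nat_lit 78) (PT.lf (nat_lit 4104) (nat_lit 6) (nat_lit 54) (nat_lit 2) (nat_lit 131) (nat_lit 134) (nat_lit 125)) (PT.lf (nat_lit 3724) (nat_lit 6) (nat_lit 49) (nat_lit 2) (nat_lit 132) (nat_lit 134) (nat_lit 124))) (PT.nd (nat_lit 78) (PT.lf (nat_lit 3268) (nat_lit 6) (nat_lit 43) (nat_lit 2) (nat_lit 133) (nat_lit 134) (nat_lit 123))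 (PT.nd (nat_lit 78) (PT.lf (nat_lit 3040) (nat_lit 3) (nat_lit 40) (nat_lit 0) (nat_lit 134) (nat_lit 134) (nat_lit 122)) (PT.lf (nat_lit 2736) (nat_lit 6) (nat_lit 36) (nat_lit 0) (nat_lit 135) (nat_lit 134) (nat_lit 121))))) (PT.nd (nat_lit 39156) (PT.nd (nat_lit 78) (PT.lf (nat_lit 2432) (nat_lit 6) (nat_lit 32) (nat_lit 0) (nat_lit 136) (nat_lit 134) (nat_lit 120)) (PT.nd (nat_lit 78) (PT.lf (nat_lit 2204) (nat_lit 6) (nat_lit 29) (nat_lit 0) (nat_lit 137) (nat_lit 134) (nat_lit 119)) (PT.lf (nat_lit 1976) (nat_lit 6) (nat_lit 26) (nat_lit 0) (nat_lit 138) (nat_lit 134) (nat_lit 118)))) (PT.nd (nat_lit 78) (PT.lf (nat_lit 1824) (nat_lit 6) (nat_lit 24) (nat_lit 5) (nat_lit 117) (nat_lit 135) (nat_lit 138)) (PT.nd (nat_lit 78) (PT.lf (nat_lit 2052) (nat_lit 6) (nat_lit 27) (nat_lit 5) (nat_lit 118) (nat_lit 135) (nat_lit 137)) (PT.lf (nat_lit 2280) (nat_lit 6) (nat_lit 30) (nat_lit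 5) (nat_lit 119) (nat_lit 135) (nat_lit 136))))))))
noncomputable def pc5 : PT := (PT.nd (nat_lit 40482) (PT.nd (nat_lit 858) (PT.nd (nat_lit 390) (PT.nd (nat_lit 156) (PT.nd (nat_lit 78) (PT.lf (nat_lit 2508) (nat_lit 3) (nat_lit 33) (nat_lit 4) (nat_lit 120) (nat_lit 135) (nat_lit 135)) (PT.lf (nat_lit 2736) (nat_lit 6) (nat_lit 36) (nat_lit 4) (nat_lit 121) (nat_lit 135) (nat_lit 134))) (PT.nd (nat_lit 78) (PT.lf (nat_lit 2964) (nat_lit 6) (nat_lit 39) (nat_lit 4) (nat_lit 122) (nat_lit 135) (nat_lit 133)) (PT.nd (nat_lit 78) (PT.lf (nat_lit 3192) (nat_lit 6) (nat_lit 42) (nat_lit 4) (nat_lit 123) (nat_lit 135) (nat_lit 132)) (PT.lf (nat_lit 3648) (nat_lit 6) (nat_lit 48) (nat_lit 4) (nat_lit 124) (nat_lit 135) (nat_lit 131))))) (PT.nd (nat_lit 234) (PT.nd (nat_lit 78) (PT.lf (nat_lit 4028) (nat_lit 6) (nat_lit 53) (nat_lit 4) (nat_lit 125) (nat_lit 135) (nat_lit 130)) (PT.nd (nat_lit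 78) (PT.lf (nat_lit 3952) (nat_lit 6) (nat_lit 52) (nat_lit 4) (nat_lit 126) (nat_lit 135) (nat_lit 129)) (PT.lf (nat_lit 3876) (nat_lit 6) (nat_lit 51) (nat_lit 4) (nat_lit 127) (nat_lit 135) (nat_lit 128)))) (PT.nd (nat_lit 78) (PT.lf (nat_lit 3876) (nat_lit 6) (nat_lit 51) (nat_lit 2) (nat_lit 128) (nat_lit 135) (nat_lit 127)) (PT.nd (nat_lit 78) (PT.lf (nat_lit 3952) (nat_lit 6) (nat_lit 52) (nat_lit 2) (nat_lit 129) (nat_lit 135) (nat_lit 126)) (PT.lf (nat_lit 4028) (nat_lit 6) (nat_lit 53) (nat_lit 2) (nat_lit 130) (nat_lit 135) (nat_lit 125)))))) (PT.nd (nat_lit 390) (PT.nd (nat_lit 156) (PT.nd (nat_lit 78) (PT.lf (nat_lit 3648) (nat_lit 6) (nat_lit 48) (nat_lit 2) (nat_lit 131) (nat_lit 135) (nat_lit 124)) (PT.lf (nat_lit 3192) (nat_lit 6) (nat_lit 42) (nat_lit 2) (nat_lit 132) (nat_lit 135) (nat_lit 123))) (PT.nd (nat_lit 78) (PT.lf (nat_lit 2964) (nat_lit 6) (nat_lit 39) (nat_lit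 2) (nat_lit 133) (nat_lit 135) (nat_lit 122)) (PT.nd (nat_lit 78) (PT.lf (nat_lit 2736) (nat_lit 6) (nat_lit 36) (nat_lit 2) (nat_lit 134) (nat_lit 135) (nat_lit 121)) (PT.lf (nat_lit 2508) (nat_lit 3) (nat_lit 33) (nat_lit 0) (nat_lit 135) (nat_lit 135) (nat_lit 120))))) (PT.nd (nat_lit 39000) (PT.nd (nat_lit 78) (PT.lf (nat_lit 2280) (nat_lit 6) (nat_lit 30) (nat_lit 0) (nat_lit 136) (nat_lit 135) (nat_lit 119)) (PT.nd (nat_lit 78) (PT.lf (nat_lit 2052) (nat_lit 6) (nat_lit 27) (nat_lit 0) (nat_lit 137) (nat_lit 135) (nat_lit 118)) (PT.lf (nat_lit 1824) (nat_lit 6) (nat_lit 24) (nat_lit 0) (nat_lit 138) (nat_lit 135) (nat_lit 117)))) (PT.nd (nat_lit 78) (PT.lf (nat_lit 1520) (nat_lit 6) (nat_lit 20) (nat_lit 5) (nat_lit 115) (nat_lit 136) (nat_lit 139)) (PT.nd (nat_lit 78) (PT.lf (nat_lit 1672) (nat_lit 6) (nat_lit 22) (nat_lit 5) (nat_lit 116) (nat_lit 136) (nat_lit 138)) (PT.lf (nat_lit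 1900) (nat_lit 6) (nat_lit 25) (nat_lit 5) (nat_lit 117) (nat_lit 136) (nat_lit 137))))))) (PT.nd (nat_lit 858) (PT.nd (nat_lit 390) (PT.nd (nat_lit 156) (PT.nd (nat_lit 78) (PT.lf (nat_lit 2128) (nat_lit 3) (nat_lit 28) (nat_lit 4) (nat_lit 118) (nat_lit 136) (nat_lit 136)) (PT.lf (nat_lit 2280) (nat_lit 6) (nat_lit 30) (nat_lit 4) (nat_lit 119) (nat_lit 136) (nat_lit 135))) (PT.nd (nat_lit 78) (PT.lf (nat_lit 2432) (nat_lit 6) (nat_lit 32) (nat_lit 4) (nat_lit 120) (nat_lit 136) (nat_lit 134)) (PT.nd (nat_lit 78) (PT.lf (nat_lit 2660) (nat_lit 6) (nat_lit 35) (nat_lit 4) (nat_lit 121) (nat_lit 136) (nat_lit 133)) (PT.lf (nat_lit 2888) (nat_lit 6) (nat_lit 38) (nat_lit 4) (nat_lit 122) (nat_lit 136) (nat_lit 132))))) (PT.nd (nat_lit 234) (PT.nd (nat_lit 78) (PT.lf (nat_lit 3116) (nat_lit 6) (nat_lit 41) (nat_lit 4) (nat_lit 123) (nat_lit 136) (nat_lit 131)) (PT.nd (nat_lit 78) (PT.lf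 (nat_lit 3572) (nat_lit 6) (nat_lit 47) (nat_lit 4) (nat_lit 124) (nat_lit 136) (nat_lit 130)) (PT.lf (nat_lit 3496) (nat_lit 6) (nat_lit 46) (nat_lit 4) (nat_lit 125) (nat_lit 136) (nat_lit 129)))) (PT.nd (nat_lit 78) (PT.lf (nat_lit 3420) (nat_lit 6) (nat_lit 45) (nat_lit 4) (nat_lit 126) (nat_lit 136) (nat_lit 128)) (PT.nd (nat_lit 78) (PT.lf (nat_lit 3344) (nat_lit 3) (nat_lit 44) (nat_lit 2) (nat_lit 127) (nat_lit 136) (nat_lit 127)) (PT.lf (nat_lit 3420) (nat_lit 6) (nat_lit 45) (nat_lit 2) (nat_lit 128) (nat_lit 136) (nat_lit 126)))))) (PT.nd (nat_lit 468) (PT.nd (nat_lit 234) (PT.nd (nat_lit 78) (PT.lf (nat_lit 3496) (nat_lit 6) (nat_lit 46) (nat_lit 2) (nat_lit 129) (nat_lit 136) (nat_lit 125)) (PT.nd (nat_lit 78) (PT.lf (nat_lit 3572) (nat_lit 6) (nat_lit 47) (nat_lit 2) (nat_lit 130) (nat_lit 136) (nat_lit 124)) (PT.lf (nat_lit 3116) (nat_lit 6) (nat_lit 41) (nat_lit 2) (nat_lit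 131) (nat_lit 136) (nat_lit 123)))) (PT.nd (nat_lit 78) (PT.lf (nat_lit 2888) (nat_lit 6) (nat_lit 38) (nat_lit 2) (nat_lit 132) (nat_lit 136) (nat_lit 122)) (PT.nd (nat_lit 78) (PT.lf (nat_lit 2660) (nat_lit 6) (nat_lit 35) (nat_lit 2) (nat_lit 133) (nat_lit 136) (nat_lit 121)) (PT.lf (nat_lit 2432) (nat_lit 6) (nat_lit 32) (nat_lit 2) (nat_lit 134) (nat_lit 136) (nat_lit 120))))) (PT.nd (nat_lit 234) (PT.nd (nat_lit 78) (PT.lf (nat_lit 2280) (nat_lit 6) (nat_lit 30) (nat_lit 2) (nat_lit 135) (nat_lit 136) (nat_lit 119)) (PT.nd (nat_lit 78) (PT.lf (nat_lit 2128) (nat_lit 3) (nat_lit 28) (nat_lit 0) (nat_lit 136) (nat_lit 136) (nat_lit 118)) (PT.lf (nat_lit 1900) (nat_lit 6) (nat_lit 25) (nat_lit 0) (nat_lit 137) (nat_lit 136) (nat_lit 117)))) (PT.nd (nat_lit 78) (PT.lf (nat_lit 1672) (nat_lit 6) (nat_lit 22) (nat_lit 0) (nat_lit 138) (nat_lit 136) (nat_lit 116)) (PT.nd (nat_lit 38610)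 (PT.lf (nat_lit 1520) (nat_lit 6) (nat_lit 20) (nat_lit 0) (nat_lit 139) (nat_lit 136) (nat_lit 115)) (PT.lf (nat_lit 1216) (nat_lit 6) (nat_lit 16) (nat_lit 5) (nat_lit 113) (nat_lit 137) (nat_lit 140))))))))
noncomputable def pc6 : PT := (PT.nd (nat_lit 40716) (PT.nd (nat_lit 1482) (PT.nd (nat_lit 390) (PT.nd (nat_lit 156) (PT.nd (nat_lit 78) (PT.lf (nat_lit 1368) (nat_lit 6) (nat_lit 18) (nat_lit 5) (nat_lit 114) (nat_lit 137) (nat_lit 139)) (PT.lf (nat_lit 1596) (nat_lit 6) (nat_lit 21) (nat_lit 5) (nat_lit 115) (nat_lit 137) (nat_lit 138))) (PT.nd (nat_lit 78) (PT.lf (nat_lit 1748) (nat_lit 3) (nat_lit 23) (nat_lit 4) (nat_lit 116) (nat_lit 137) (nat_lit 137)) (PT.nd (nat_lit 78) (PT.lf (nat_lit 1900) (nat_lit 6) (nat_lit 25) (nat_lit 4) (nat_lit 117) (nat_lit 137) (nat_lit 136)) (PT.lf (nat_lit 2052) (nat_lit 6) (nat_lit 27) (nat_lit 4) (nat_lit 118) (nat_lit 137) (nat_lit 135)))))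 (PT.nd (nat_lit 234) (PT.nd (nat_lit 78) (PT.lf (nat_lit 2204) (nat_lit 6) (nat_lit 29) (nat_lit 4) (nat_lit 119) (nat_lit 137) (nat_lit 134)) (PT.nd (nat_lit 78) (PT.lf (nat_lit 2356) (nat_lit 6) (nat_lit 31) (nat_lit 4) (nat_lit 120) (nat_lit 137) (nat_lit 133)) (PT.lf (nat_lit 2584) (nat_lit 6) (nat_lit 34) (nat_lit 4) (nat_lit 121) (nat_lit 137) (nat_lit 132)))) (PT.nd (nat_lit 702) (PT.lf (nat_lit 2812) (nat_lit 6) (nat_lit 37) (nat_lit 4) (nat_lit 122) (nat_lit 137) (nat_lit 131)) (PT.nd (nat_lit 78) (PT.lf (nat_lit 2812) (nat_lit 6) (nat_lit 37) (nat_lit 2) (nat_lit 131) (nat_lit 137) (nat_lit 122)) (PT.lf (nat_lit 2584) (nat_lit 6) (nat_lit 34) (nat_lit 2) (nat_lit 132) (nat_lit 137) (nat_lit 121)))))) (PT.nd (nat_lit 390) (PT.nd (nat_lit 156) (PT.nd (nat_lit 78) (PT.lf (nat_lit 2356) (nat_lit 6) (nat_lit 31) (nat_lit 2) (nat_lit 133) (nat_lit 137) (nat_lit 120)) (PT.lf (nat_lit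 2204) (nat_lit 6) (nat_lit 29) (nat_lit 2) (nat_lit 134) (nat_lit 137) (nat_lit 119))) (PT.nd (nat_lit 78) (PT.lf (nat_lit 2052) (nat_lit 6) (nat_lit 27) (nat_lit 2) (nat_lit 135) (nat_lit 137) (nat_lit 118)) (PT.nd (nat_lit 78) (PT.lf (nat_lit 1900) (nat_lit 6) (nat_lit 25) (nat_lit 2) (nat_lit 136) (nat_lit 137) (nat_lit 117)) (PT.lf (nat_lit 1748) (nat_lit 3) (nat_lit 23) (nat_lit 0) (nat_lit 137) (nat_lit 137) (nat_lit 116))))) (PT.nd (nat_lit 38610) (PT.nd (nat_lit 78) (PT.lf (nat_lit 1596) (nat_lit 6) (nat_lit 21) (nat_lit 0) (nat_lit 138) (nat_lit 137) (nat_lit 115)) (PT.nd (nat_lit 78) (PT.lf (nat_lit 1368) (nat_lit 6) (nat_lit 18) (nat_lit 0) (nat_lit 139) (nat_lit 137) (nat_lit 114)) (PT.lf (nat_lit 1216) (nat_lit 6) (nat_lit 16) (nat_lit 0) (nat_lit 140) (nat_lit 137) (nat_lit 113)))) (PT.nd (nat_lit 78) (PT.lf (nat_lit 1064) (nat_lit 6) (nat_lit 14) (nat_lit 5) (nat_lit 112)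 (nat_lit 138) (nat_lit 140)) (PT.nd (nat_lit 78) (PT.lf (nat_lit 1292) (nat_lit 6) (nat_lit 17) (nat_lit 5) (nat_lit 113) (nat_lit 138) (nat_lit 139)) (PT.lf (nat_lit 1444) (nat_lit 3) (nat_lit 19) (nat_lit 4) (nat_lit 114) (nat_lit 138) (nat_lit 138))))))) (PT.nd (nat_lit 40248) (PT.nd (nat_lit 1560) (PT.nd (nat_lit 156) (PT.nd (nat_lit 78) (PT.lf (nat_lit 1596) (nat_lit 6) (nat_lit 21) (nat_lit 4) (nat_lit 115) (nat_lit 138) (nat_lit 137)) (PT.lf (nat_lit 1672) (nat_lit 6) (nat_lit 22) (nat_lit 4) (nat_lit 116) (nat_lit 138) (nat_lit 136))) (PT.nd (nat_lit 78) (PT.lf (nat_lit 1824) (nat_lit 6) (nat_lit 24) (nat_lit 4) (nat_lit 117) (nat_lit 138) (nat_lit 135)) (PT.nd (nat_lit 1248) (PT.lf (nat_lit 1976) (nat_lit 6) (nat_lit 26) (nat_lit 4) (nat_lit 118) (nat_lit 138) (nat_lit 134)) (PT.lf (nat_lit 1976) (nat_lit 6) (nat_lit 26) (nat_lit 2) (nat_lit 134) (nat_lit 138) (nat_lit 118)))))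 (PT.nd (nat_lit 234) (PT.nd (nat_lit 78) (PT.lf (nat_lit 1824) (nat_lit 6) (nat_lit 24) (nat_lit 2) (nat_lit 135) (nat_lit 138) (nat_lit 117)) (PT.nd (nat_lit 78) (PT.lf (nat_lit 1672) (nat_lit 6) (nat_lit 22) (nat_lit 2) (nat_lit 136) (nat_lit 138) (nat_lit 116)) (PT.lf (nat_lit 1596) (nat_lit 6) (nat_lit 21) (nat_lit 2) (nat_lit 137) (nat_lit 138) (nat_lit 115)))) (PT.nd (nat_lit 78) (PT.lf (nat_lit 1444) (nat_lit 3) (nat_lit 19) (nat_lit 0) (nat_lit 138) (nat_lit 138) (nat_lit 114)) (PT.nd (nat_lit 78) (PT.lf (nat_lit 1292) (nat_lit 6) (nat_lit 17) (nat_lit 0) (nat_lit 139) (nat_lit 138) (nat_lit 113)) (PT.lf (nat_lit 1064) (nat_lit 6) (nat_lit 14) (nat_lit 0) (nat_lit 140) (nat_lit 138) (nat_lit 112)))))) (PT.nd (nat_lit 390) (PT.nd (nat_lit 156) (PT.nd (nat_lit 78) (PT.lf (nat_lit 836) (nat_lit 6) (nat_lit 11) (nat_lit 5) (nat_lit 110) (nat_lit 139) (nat_lit 141)) (PT.lf (nat_lit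 988) (nat_lit 6) (nat_lit 13) (nat_lit 5) (nat_lit 111) (nat_lit 139) (nat_lit 140))) (PT.nd (nat_lit 78) (PT.lf (nat_lit 1140) (nat_lit 3) (nat_lit 15) (nat_lit 4) (nat_lit 112) (nat_lit 139) (nat_lit 139)) (PT.nd (nat_lit 78) (PT.lf (nat_lit 1292) (nat_lit 6) (nat_lit 17) (nat_lit 4) (nat_lit 113) (nat_lit 139) (nat_lit 138)) (PT.lf (nat_lit 1368) (nat_lit 6) (nat_lit 18) (nat_lit 4) (nat_lit 114) (nat_lit 139) (nat_lit 137))))) (PT.nd (nat_lit 1794) (PT.nd (nat_lit 1638) (PT.lf (nat_lit 1520) (nat_lit 6) (nat_lit 20) (nat_lit 4) (nat_lit 115) (nat_lit 139) (nat_lit 136)) (PT.nd (nat_lit 78) (PT.lf (nat_lit 1520) (nat_lit 6) (nat_lit 20) (nat_lit 2) (nat_lit 136) (nat_lit 139) (nat_lit 115)) (PT.lf (nat_lit 1368) (nat_lit 6) (nat_lit 18) (nat_lit 2) (nat_lit 137) (nat_lit 139) (nat_lit 114)))) (PT.nd (nat_lit 78) (PT.lf (nat_lit 1292) (nat_lit 6) (nat_lit 17) (nat_lit 2) (nat_lit 138)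 (nat_lit 139) (nat_lit 113)) (PT.nd (nat_lit 78) (PT.lf (nat_lit 1140) (nat_lit 3) (nat_lit 15) (nat_lit 0) (nat_lit 139) (nat_lit 139) (nat_lit 112)) (PT.lf (nat_lit 988) (nat_lit 6) (nat_lit 13) (nat_lit 0) (nat_lit 140) (nat_lit 139) (nat_lit 111))))))))
noncomputable def pc7 : PT := (PT.nd (nat_lit 81432) (PT.nd (nat_lit 40638) (PT.nd (nat_lit 38376) (PT.nd (nat_lit 38142) (PT.nd (nat_lit 38064) (PT.lf (nat_lit 836) (nat_lit 6) (nat_lit 11) (nat_lit 0) (nat_lit 141) (nat_lit 139) (nat_lit 110)) (PT.lf (nat_lit 608) (nat_lit 6) (nat_lit 8) (nat_lit 5) (nat_lit 108) (nat_lit 140) (nat_lit 142))) (PT.nd (nat_lit 78) (PT.lf (nat_lit 760) (nat_lit 6) (nat_lit 10) (nat_lit 5) (nat_lit 109) (nat_lit 140) (nat_lit 141)) (PT.nd (nat_lit 78) (PT.lf (nat_lit 912) (nat_lit 3) (nat_lit 12) (nat_lit 4) (nat_lit 110) (nat_lit 140) (nat_lit 140)) (PT.lf (nat_lit 988) (nat_lit 6) (nat_lit 13) (nat_lit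 4) (nat_lit 111) (nat_lit 140) (nat_lit 139))))) (PT.nd (nat_lit 2028) (PT.nd (nat_lit 78) (PT.lf (nat_lit 1064) (nat_lit 6) (nat_lit 14) (nat_lit 4) (nat_lit 112) (nat_lit 140) (nat_lit 138)) (PT.nd (nat_lit 1872) (PT.lf (nat_lit 1216) (nat_lit 6) (nat_lit 16) (nat_lit 4) (nat_lit 113) (nat_lit 140) (nat_lit 137)) (PT.lf (nat_lit 1216) (nat_lit 6) (nat_lit 16) (nat_lit 2) (nat_lit 137) (nat_lit 140) (nat_lit 113)))) (PT.nd (nat_lit 78) (PT.lf (nat_lit 1064) (nat_lit 6) (nat_lit 14) (nat_lit 2) (nat_lit 138) (nat_lit 140) (nat_lit 112)) (PT.nd (nat_lit 78) (PT.lf (nat_lit 988) (nat_lit 6) (nat_lit 13) (nat_lit 2) (nat_lit 139) (nat_lit 140) (nat_lit 111)) (PT.lf (nat_lit 912) (nat_lit 3) (nat_lit 12) (nat_lit 0) (nat_lit 140) (nat_lit 140) (nat_lit 110)))))) (PT.nd (nat_lit 38142) (PT.nd (nat_lit 37908) (PT.nd (nat_lit 78) (PT.lf (nat_lit 760) (nat_lit 6) (nat_lit 10) (nat_lit 0) (nat_lit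 141) (nat_lit 140) (nat_lit 109)) (PT.lf (nat_lit 608) (nat_lit 6) (nat_lit 8) (nat_lit 0) (nat_lit 142) (nat_lit 140) (nat_lit 108))) (PT.nd (nat_lit 78) (PT.lf (nat_lit 380) (nat_lit 6) (nat_lit 5) (nat_lit 5) (nat_lit 106) (nat_lit 141) (nat_lit 143)) (PT.nd (nat_lit 78) (PT.lf (nat_lit 532) (nat_lit 6) (nat_lit 7) (nat_lit 5) (nat_lit 107) (nat_lit 141) (nat_lit 142)) (PT.lf (nat_lit 684) (nat_lit 3) (nat_lit 9) (nat_lit 4) (nat_lit 108) (nat_lit 141) (nat_lit 141))))) (PT.nd (nat_lit 2418) (PT.nd (nat_lit 78) (PT.lf (nat_lit 760) (nat_lit 6) (nat_lit 10) (nat_lit 4) (nat_lit 109) (nat_lit 141) (nat_lit 140)) (PT.nd (nat_lit 2262) (PT.lf (nat_lit 836) (nat_lit 6) (nat_lit 11) (nat_lit 4) (nat_lit 110) (nat_lit 141) (nat_lit 139)) (PT.lf (nat_lit 836) (nat_lit 6) (nat_lit 11) (nat_lit 2) (nat_lit 139) (nat_lit 141) (nat_lit 110)))) (PT.nd (nat_lit 78) (PT.lf (nat_lit 760) (nat_lit 6)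 (nat_lit 10) (nat_lit 2) (nat_lit 140) (nat_lit 141) (nat_lit 109)) (PT.nd (nat_lit 78) (PT.lf (nat_lit 684) (nat_lit 3) (nat_lit 9) (nat_lit 0) (nat_lit 141) (nat_lit 141) (nat_lit 108)) (PT.lf (nat_lit 532) (nat_lit 6) (nat_lit 7) (nat_lit 0) (nat_lit 142) (nat_lit 141) (nat_lit 107))))))) (PT.nd (nat_lit 78156) (PT.nd (nat_lit 37908) (PT.nd (nat_lit 37674) (PT.nd (nat_lit 37596) (PT.lf (nat_lit 380) (nat_lit 6) (nat_lit 5) (nat_lit 0) (nat_lit 143) (nat_lit 141) (nat_lit 106)) (PT.lf (nat_lit 152) (nat_lit 6) (nat_lit 2) (nat_lit 5) (nat_lit 104) (nat_lit 142) (nat_lit 144))) (PT.nd (nat_lit 78) (PT.lf (nat_lit 304) (nat_lit 6) (nat_lit 4) (nat_lit 5) (nat_lit 105) (nat_lit 142) (nat_lit 143)) (PT.nd (nat_lit 78) (PT.lf (nat_lit 456) (nat_lit 3) (nat_lit 6) (nat_lit 4) (nat_lit 106) (nat_lit 142) (nat_lit 142)) (PT.lf (nat_lit 532) (nat_lit 6) (nat_lit 7) (nat_lit 4) (nat_lit 107) (nat_lit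 142) (nat_lit 141))))) (PT.nd (nat_lit 2652) (PT.nd (nat_lit 2496) (PT.lf (nat_lit 608) (nat_lit 6) (nat_lit 8) (nat_lit 4) (nat_lit 108) (nat_lit 142) (nat_lit 140)) (PT.nd (nat_lit 78) (PT.lf (nat_lit 608) (nat_lit 6) (nat_lit 8) (nat_lit 2) (nat_lit 140) (nat_lit 142) (nat_lit 108)) (PT.lf (nat_lit 532) (nat_lit 6) (nat_lit 7) (nat_lit 2) (nat_lit 141) (nat_lit 142) (nat_lit 107)))) (PT.nd (nat_lit 78) (PT.lf (nat_lit 456) (nat_lit 3) (nat_lit 6) (nat_lit 0) (nat_lit 142) (nat_lit 142) (nat_lit 106)) (PT.nd (nat_lit 78) (PT.lf (nat_lit 304) (nat_lit 6) (nat_lit 4) (nat_lit 0) (nat_lit 143) (nat_lit 142) (nat_lit 105)) (PT.lf (nat_lit 152) (nat_lit 6) (nat_lit 2) (nat_lit 0) (nat_lit 144) (nat_lit 142) (nat_lit 104)))))) (PT.nd (nat_lit 3120) (PT.nd (nat_lit 234) (PT.nd (nat_lit 78) (PT.lf (nat_lit 76) (nat_lit 6) (nat_lit 1) (nat_lit 5) (nat_lit 103) (nat_lit 143) (nat_lit 144)) (PT.nd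 (nat_lit 78) (PT.lf (nat_lit 228) (nat_lit 3) (nat_lit 3) (nat_lit 4) (nat_lit 104) (nat_lit 143) (nat_lit 143)) (PT.lf (nat_lit 304) (nat_lit 6) (nat_lit 4) (nat_lit 4) (nat_lit 105) (nat_lit 143) (nat_lit 142)))) (PT.nd (nat_lit 2730) (PT.lf (nat_lit 380) (nat_lit 6) (nat_lit 5) (nat_lit 4) (nat_lit 106) (nat_lit 143) (nat_lit 141)) (PT.nd (nat_lit 78) (PT.lf (nat_lit 380) (nat_lit 6) (nat_lit 5) (nat_lit 2) (nat_lit 141) (nat_lit 143) (nat_lit 106)) (PT.lf (nat_lit 304) (nat_lit 6) (nat_lit 4) (nat_lit 2) (nat_lit 142) (nat_lit 143) (nat_lit 105))))) (PT.nd (nat_lit 37596) (PT.nd (nat_lit 78) (PT.lf (nat_lit 228) (nat_lit 3) (nat_lit 3) (nat_lit 0) (nat_lit 143) (nat_lit 143) (nat_lit 104)) (PT.nd (nat_lit 37440) (PT.lf (nat_lit 76) (nat_lit 6) (nat_lit 1) (nat_lit 0) (nat_lit 144) (nat_lit 143) (nat_lit 103)) (PT.lf (nat_lit 76) (nat_lit 6) (nat_lit 1) (nat_lit 4) (nat_lit 103) (nat_lit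 144) (nat_lit 143)))) (PT.nd (nat_lit 2964) (PT.lf (nat_lit 152) (nat_lit 6) (nat_lit 2) (nat_lit 4) (nat_lit 104) (nat_lit 144) (nat_lit 142)) (PT.nd (nat_lit 78) (PT.lf (nat_lit 152) (nat_lit 6) (nat_lit 2) (nat_lit 2) (nat_lit 142) (nat_lit 144) (nat_lit 104)) (PT.lf (nat_lit 76) (nat_lit 6) (nat_lit 1) (nat_lit 2) (nat_lit 143) (nat_lit 144) (nat_lit 103))))))))
noncomputable def xc0 : XT := (XT.nd (nat_lit 161928) (nat_lit 0) (nat_lit 0) (XT.nd (nat_lit 81276) (nat_lit 0) (nat_lit 0) (XT.nd (nat_lit 40716) (nat_lit 0) (nat_lit 0) (XT.nd (nat_lit 40482) (nat_lit 0) (nat_lit 0) (XT.nd (nat_lit 78) (nat_lit 0) (nat_lit 0) (XT.lf (nat_lit 0) (nat_lit 265985391391) (nat_lit 76) (nat_lit 116405701336) (nat_lit 76) (nat_lit 116405701336) (nat_lit 1) (nat_lit 4) (nat_lit 2) (nat_lit 5) (nat_lit 2) (nat_lit 4) (nat_lit 348) (nat_lit 216) (nat_lit 216)) (XT.lf (nat_lit 0) (nat_lit 577019484922)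 (nat_lit 76) (nat_lit 250186313705) (nat_lit 76) (nat_lit 250129719876) (nat_lit 1) (nat_lit 4) (nat_lit 2) (nat_lit 5) (nat_lit 2) (nat_lit 4) (nat_lit 349) (nat_lit 216) (nat_lit 215))) (XT.nd (nat_lit 78) (nat_lit 0) (nat_lit 0) (XT.lf (nat_lit 0) (nat_lit 225670019311) (nat_lit 76) (nat_lit 101015097986) (nat_lit 76) (nat_lit 101015097986) (nat_lit 1) (nat_lit 4) (nat_lit 2) (nat_lit 5) (nat_lit 2) (nat_lit 4) (nat_lit 346) (nat_lit 217) (nat_lit 217)) (XT.nd (nat_lit 78) (nat_lit 0) (nat_lit 0) (XT.lf (nat_lit 0) (nat_lit 490137564389) (nat_lit 76) (nat_lit 216842610373) (nat_lit 76) (nat_lit 216781489038) (nat_lit 1) (nat_lit 4) (nat_lit 2) (nat_lit 5) (nat_lit 2) (nat_lit 4) (nat_lit 347) (nat_lit 217) (nat_lit 216)) (XT.lf (nat_lit 0) (nat_lit 531907718492) (nat_lit 76) (nat_lit 232902622232) (nat_lit 76) (nat_lit 232784907068) (nat_lit 1) (nat_lit 4) (nat_lit 2) (nat_lit 5) (nat_lit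 2) (nat_lit 4) (nat_lit 348) (nat_lit 217) (nat_lit 215))))) (XT.nd (nat_lit 40326) (nat_lit 0) (nat_lit 0) (XT.nd (nat_lit 40248) (nat_lit 0) (nat_lit 0) (XT.lf (nat_lit 0) (nat_lit 576898027768) (nat_lit 76) (nat_lit 250305401990) (nat_lit 76) (nat_lit 250135285132) (nat_lit 1) (nat_lit 4) (nat_lit 2) (nat_lit 5) (nat_lit 2) (nat_lit 4) (nat_lit 349) (nat_lit 217) (nat_lit 214)) (XT.lf (nat_lit 0) (nat_lit 190916519182) (nat_lit 76) (nat_lit 87917413972) (nat_lit 76) (nat_lit 87917413972) (nat_lit 1) (nat_lit 4) (nat_lit 2) (nat_lit 5) (nat_lit 2) (nat_lit 4) (nat_lit 344) (nat_lit 218) (nat_lit 218))) (XT.nd (nat_lit 78) (nat_lit 0) (nat_lit 0) (XT.lf (nat_lit 0) (nat_lit 415285229926) (nat_lit 76) (nat_lit 188443612801) (nat_lit 76) (nat_lit 188377601759) (nat_lit 1) (nat_lit 4) (nat_lit 2) (nat_lit 5) (nat_lit 2) (nat_lit 4) (nat_lit 345) (nat_lit 218) (nat_lit 217)) (XT.nd (nat_lit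 78) (nat_lit 0) (nat_lit 0) (XT.lf (nat_lit 0) (nat_lit 451271929187) (nat_lit 76) (nat_lit 202128713096) (nat_lit 76) (nat_lit 202001580719) (nat_lit 1) (nat_lit 4) (nat_lit 2) (nat_lit 5) (nat_lit 2) (nat_lit 4) (nat_lit 346) (nat_lit 218) (nat_lit 216)) (XT.lf (nat_lit 0) (nat_lit 490006390663) (nat_lit 76) (nat_lit 216971225721) (nat_lit 76) (nat_lit 216787499515) (nat_lit 1) (nat_lit 4) (nat_lit 2) (nat_lit 5) (nat_lit 2) (nat_lit 4) (nat_lit 347) (nat_lit 218) (nat_lit 215)))))) (XT.nd (nat_lit 40404) (nat_lit 0) (nat_lit 0) (XT.nd (nat_lit 40170) (nat_lit 0) (nat_lit 0) (XT.nd (nat_lit 78) (nat_lit 0) (nat_lit 0) (XT.lf (nat_lit 0) (nat_lit 531718151903) (nat_lit 76) (nat_lit 233059106306) (nat_lit 76) (nat_lit 232822978407) (nat_lit 1) (nat_lit 4) (nat_lit 2) (nat_lit 5) (nat_lit 2) (nat_lit 4) (nat_lit 348) (nat_lit 218) (nat_lit 214)) (XT.lf (nat_lit 0) (nat_lit 576654393714)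 (nat_lit 76) (nat_lit 250487690440) (nat_lit 76) (nat_lit 250203042453) (nat_lit 1) (nat_lit 4) (nat_lit 2) (nat_lit 5) (nat_lit 2) (nat_lit 4) (nat_lit 349) (nat_lit 218) (nat_lit 213))) (XT.nd (nat_lit 78) (nat_lit 0) (nat_lit 0) (XT.lf (nat_lit 0) (nat_lit 160916262464) (nat_lit 76) (nat_lit 76793320933) (nat_lit 76) (nat_lit 76793320933) (nat_lit 1) (nat_lit 4) (nat_lit 2) (nat_lit 5) (nat_lit 2) (nat_lit 4) (nat_lit 342) (nat_lit 219) (nat_lit 219)) (XT.nd (nat_lit 78) (nat_lit 0) (nat_lit 0) (XT.lf (nat_lit 0) (nat_lit 350717119295) (nat_lit 76) (nat_lit 164298931727) (nat_lit 76) (nat_lit 164227639802) (nat_lit 1) (nat_lit 4) (nat_lit 2) (nat_lit 5) (nat_lit 2) (nat_lit 4) (nat_lit 343) (nat_lit 219) (nat_lit 218)) (XT.lf (nat_lit 0) (nat_lit 381759480175) (nat_lit 76) (nat_lit 175941226438) (nat_lit 76) (nat_lit 175803923471) (nat_lit 1) (nat_lit 4) (nat_lit 2) (nat_lit 5) (nat_lit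 2) (nat_lit 4) (nat_lit 344) (nat_lit 219) (nat_lit 217))))) (XT.nd (nat_lit 156) (nat_lit 0) (nat_lit 0) (XT.nd (nat_lit 78) (nat_lit 0) (nat_lit 0) (XT.lf (nat_lit 0) (nat_lit 415143562301) (nat_lit 76) (nat_lit 188582517377) (nat_lit 76) (nat_lit 188384093074) (nat_lit 1) (nat_lit 4) (nat_lit 2) (nat_lit 5) (nat_lit 2) (nat_lit 4) (nat_lit 345) (nat_lit 219) (nat_lit 216)) (XT.lf (nat_lit 0) (nat_lit 451067197271) (nat_lit 76) (nat_lit 202297715896) (nat_lit 76) (nat_lit 202042697765) (nat_lit 1) (nat_lit 4) (nat_lit 2) (nat_lit 5) (nat_lit 2) (nat_lit 4) (nat_lit 346) (nat_lit 219) (nat_lit 215))) (XT.nd (nat_lit 78) (nat_lit 0) (nat_lit 0) (XT.lf (nat_lit 0) (nat_lit 489743265884) (nat_lit 76) (nat_lit 217168097247) (nat_lit 76) (nat_lit 216860677422) (nat_lit 1) (nat_lit 4) (nat_lit 2) (nat_lit 5) (nat_lit 2) (nat_lit 4) (nat_lit 347) (nat_lit 219) (nat_lit 214)) (XT.nd (nat_lit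 78) (nat_lit 0) (nat_lit 0) (XT.lf (nat_lit 0) (nat_lit 531400959659) (nat_lit 76) (nat_lit 233281782208) (nat_lit 76) (nat_lit 232925842296) (nat_lit 1) (nat_lit 4) (nat_lit 2) (nat_lit 5) (nat_lit 2) (nat_lit 4) (nat_lit 348) (nat_lit 219) (nat_lit 213)) (XT.lf (nat_lit 0) (nat_lit 576287139002) (nat_lit 76) (nat_lit 250734259282) (nat_lit 76) (nat_lit 250333393364) (nat_lit 1) (nat_lit 4) (nat_lit 2) (nat_lit 5) (nat_lit 2) (nat_lit 4) (nat_lit 349) (nat_lit 219) (nat_lit 212))))))) (XT.nd (nat_lit 40482) (nat_lit 0) (nat_lit 0) (XT.nd (nat_lit 390) (nat_lit 0) (nat_lit 0) (XT.nd (nat_lit 156) (nat_lit 0) (nat_lit 0) (XT.nd (nat_lit 78) (nat_lit 0) (nat_lit 0) (XT.lf (nat_lit 0) (nat_lit 134974767292) (nat_lit 76) (nat_lit 67369668847) (nat_lit 76) (nat_lit 67369668847) (nat_lit 1) (nat_lit 4) (nat_lit 2) (nat_lit 5) (nat_lit 2) (nat_lit 4) (nat_lit 340) (nat_lit 220) (nat_lit 220))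 (XT.lf (nat_lit 0) (nat_lit 294934529112) (nat_lit 76) (nat_lit 143817871901) (nat_lit 76) (nat_lit 143740876622) (nat_lit 1) (nat_lit 4) (nat_lit 2) (nat_lit 5) (nat_lit 2) (nat_lit 4) (nat_lit 341) (nat_lit 220) (nat_lit 219))) (XT.nd (nat_lit 78) (nat_lit 0) (nat_lit 0) (XT.lf (nat_lit 0) (nat_lit 321753082084) (nat_lit 76) (nat_lit 153701552240) (nat_lit 76) (nat_lit 153553265036) (nat_lit 1) (nat_lit 4) (nat_lit 2) (nat_lit 5) (nat_lit 2) (nat_lit 4) (nat_lit 342) (nat_lit 220) (nat_lit 218)) (XT.nd (nat_lit 78) (nat_lit 0) (nat_lit 0) (XT.lf (nat_lit 0) (nat_lit 350564118260) (nat_lit 76) (nat_lit 164448948669) (nat_lit 76) (nat_lit 164234650422) (nat_lit 1) (nat_lit 4) (nat_lit 2) (nat_lit 5) (nat_lit 2) (nat_lit 4) (nat_lit 343) (nat_lit 220) (nat_lit 217)) (XT.lf (nat_lit 0) (nat_lit 381538369705) (nat_lit 76) (nat_lit 176123749462) (nat_lit 76) (nat_lit 175848329880) (nat_lit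 1) (nat_lit 4) (nat_lit 2) (nat_lit 5) (nat_lit 2) (nat_lit 4) (nat_lit 344) (nat_lit 220) (nat_lit 216))))) (XT.nd (nat_lit 156) (nat_lit 0) (nat_lit 0) (XT.nd (nat_lit 78) (nat_lit 0) (nat_lit 0) (XT.lf (nat_lit 0) (nat_lit 414859387540) (nat_lit 76) (nat_lit 188795138624) (nat_lit 76) (nat_lit 188463125213) (nat_lit 1) (nat_lit 4) (nat_lit 2) (nat_lit 5) (nat_lit 2) (nat_lit 4) (nat_lit 345) (nat_lit 220) (nat_lit 215)) (XT.lf (nat_lit 0) (nat_lit 450724629647) (nat_lit 76) (nat_lit 202538205870) (nat_lit 76) (nat_lit 202153790765) (nat_lit 1) (nat_lit 4) (nat_lit 2) (nat_lit 5) (nat_lit 2) (nat_lit 4) (nat_lit 346) (nat_lit 220) (nat_lit 214))) (XT.nd (nat_lit 78) (nat_lit 0) (nat_lit 0) (XT.lf (nat_lit 0) (nat_lit 489346630795) (nat_lit 76) (nat_lit 217434391596) (nat_lit 76) (nat_lit 217001456405) (nat_lit 1) (nat_lit 4) (nat_lit 2) (nat_lit 5) (nat_lit 2) (nat_lit 4) (nat_lit 347)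 (nat_lit 220) (nat_lit 213)) (XT.nd (nat_lit 78) (nat_lit 0) (nat_lit 0) (XT.lf (nat_lit 0) (nat_lit 530954262102) (nat_lit 76) (nat_lit 233571969498) (nat_lit 76) (nat_lit 233094108301) (nat_lit 1) (nat_lit 4) (nat_lit 2) (nat_lit 5) (nat_lit 2) (nat_lit 4) (nat_lit 348) (nat_lit 220) (nat_lit 212)) (XT.lf (nat_lit 0) (nat_lit 575794087308) (nat_lit 76) (nat_lit 251046569665) (nat_lit 76) (nat_lit 250527110314) (nat_lit 1) (nat_lit 4) (nat_lit 2) (nat_lit 5) (nat_lit 2) (nat_lit 4) (nat_lit 349) (nat_lit 220) (nat_lit 211)))))) (XT.nd (nat_lit 390) (nat_lit 0) (nat_lit 0) (XT.nd (nat_lit 156) (nat_lit 0) (nat_lit 0) (XT.nd (nat_lit 78) (nat_lit 0) (nat_lit 0) (XT.lf (nat_lit 0) (nat_lit 112495317117) (nat_lit 76) (nat_lit 59412947978) (nat_lit 76) (nat_lit 59412947978) (nat_lit 1) (nat_lit 4) (nat_lit 2) (nat_lit 5) (nat_lit 2) (nat_lit 4) (nat_lit 338) (nat_lit 221) (nat_lit 221)) (XT.lf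 (nat_lit 0) (nat_lit 246650039275) (nat_lit 76) (nat_lit 126495305800) (nat_lit 76) (nat_lit 126412150898) (nat_lit 1) (nat_lit 4) (nat_lit 2) (nat_lit 5) (nat_lit 2) (nat_lit 4) (nat_lit 339) (nat_lit 221) (nat_lit 220))) (XT.nd (nat_lit 78) (nat_lit 0) (nat_lit 0) (XT.lf (nat_lit 0) (nat_lit 269863736312) (nat_lit 76) (nat_lit 134863440897) (nat_lit 76) (nat_lit 134703290716) (nat_lit 1) (nat_lit 4) (nat_lit 2) (nat_lit 5) (nat_lit 2) (nat_lit 4) (nat_lit 340) (nat_lit 221) (nat_lit 219)) (XT.nd (nat_lit 78) (nat_lit 0) (nat_lit 0) (XT.lf (nat_lit 0) (nat_lit 294769287994) (nat_lit 76) (nat_lit 143979890198) (nat_lit 76) (nat_lit 143748448092) (nat_lit 1) (nat_lit 4) (nat_lit 2) (nat_lit 5) (nat_lit 2) (nat_lit 4) (nat_lit 341) (nat_lit 221) (nat_lit 218)) (XT.lf (nat_lit 0) (nat_lit 321514282777) (nat_lit 76) (nat_lit 153898677106) (nat_lit 76) (nat_lit 153601223957) (nat_lit 1) (nat_lit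 4) (nat_lit 2) (nat_lit 5) (nat_lit 2) (nat_lit 4) (nat_lit 342) (nat_lit 221) (nat_lit 217))))) (XT.nd (nat_lit 234) (nat_lit 0) (nat_lit 0) (XT.nd (nat_lit 78) (nat_lit 0) (nat_lit 0) (XT.lf (nat_lit 0) (nat_lit 350257209518) (nat_lit 76) (nat_lit 164678579616) (nat_lit 76) (nat_lit 164320005132) (nat_lit 1) (nat_lit 4) (nat_lit 2) (nat_lit 5) (nat_lit 2) (nat_lit 4) (nat_lit 343) (nat_lit 221) (nat_lit 216)) (XT.nd (nat_lit 78) (nat_lit 0) (nat_lit 0) (XT.lf (nat_lit 0) (nat_lit 381168396672) (nat_lit 76) (nat_lit 176383478633) (nat_lit 76) (nat_lit 175968310321) (nat_lit 1) (nat_lit 4) (nat_lit 2) (nat_lit 5) (nat_lit 2) (nat_lit 4) (nat_lit 344) (nat_lit 221) (nat_lit 215)) (XT.lf (nat_lit 0) (nat_lit 414431021644) (nat_lit 76) (nat_lit 189082736522) (nat_lit 76) (nat_lit 188615166516) (nat_lit 1) (nat_lit 4) (nat_lit 2) (nat_lit 5) (nat_lit 2) (nat_lit 4) (nat_lit 345) (nat_lit 221)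 (nat_lit 214)))) (XT.nd (nat_lit 78) (nat_lit 0) (nat_lit 0) (XT.lf (nat_lit 0) (nat_lit 450242196286) (nat_lit 76) (nat_lit 202851608143) (nat_lit 76) (nat_lit 202335518050) (nat_lit 1) (nat_lit 4) (nat_lit 2) (nat_lit 5) (nat_lit 2) (nat_lit 4) (nat_lit 346) (nat_lit 221) (nat_lit 213)) (XT.nd (nat_lit 78) (nat_lit 0) (nat_lit 0) (XT.lf (nat_lit 0) (nat_lit 488814134966) (nat_lit 76) (nat_lit 217771686810) (nat_lit 76) (nat_lit 217210670711) (nat_lit 1) (nat_lit 4) (nat_lit 2) (nat_lit 5) (nat_lit 2) (nat_lit 4) (nat_lit 347) (nat_lit 221) (nat_lit 212)) (XT.lf (nat_lit 0) (nat_lit 530375412136) (nat_lit 76) (nat_lit 233931387805) (nat_lit 76) (nat_lit 233328773552) (nat_lit 1) (nat_lit 4) (nat_lit 2) (nat_lit 5) (nat_lit 2) (nat_lit 4) (nat_lit 348) (nat_lit 221) (nat_lit 211))))))))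
noncomputable def xc1 : XT := (XT.nd (nat_lit 80574) (nat_lit 0) (nat_lit 0) (XT.nd (nat_lit 40326) (nat_lit 0) (nat_lit 0) (XT.nd (nat_lit 39936) (nat_lit 0) (nat_lit 0) (XT.nd (nat_lit 39702) (nat_lit 0) (nat_lit 0) (XT.nd (nat_lit 39624) (nat_lit 0) (nat_lit 0) (XT.lf (nat_lit 0) (nat_lit 575172316845) (nat_lit 76) (nat_lit 251426472317) (nat_lit 76) (nat_lit 250785341256) (nat_lit 1) (nat_lit 4) (nat_lit 2) (nat_lit 5) (nat_lit 2) (nat_lit 4) (nat_lit 349) (nat_lit 221) (nat_lit 210)) (XT.lf (nat_lit 0) (nat_lit 92964908571) (nat_lit 76) (nat_lit 52723687540) (nat_lit 76) (nat_lit 52723687540) (nat_lit 1) (nat_lit 4) (nat_lit 2) (nat_lit 5) (nat_lit 2) (nat_lit 4) (nat_lit 336) (nat_lit 222) (nat_lit 222))) (XT.nd (nat_lit 78) (nat_lit 0) (nat_lit 0) (XT.lf (nat_lit 0) (nat_lit 204757169160) (nat_lit 76) (nat_lit 111899570307) (nat_lit 76) (nat_lit 111809763013) (nat_lit 1) (nat_lit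 4) (nat_lit 2) (nat_lit 5) (nat_lit 2) (nat_lit 4) (nat_lit 337) (nat_lit 222) (nat_lit 221)) (XT.nd (nat_lit 78) (nat_lit 0) (nat_lit 0) (XT.lf (nat_lit 0) (nat_lit 224897972100) (nat_lit 76) (nat_lit 118959927416) (nat_lit 76) (nat_lit 118786965220) (nat_lit 1) (nat_lit 4) (nat_lit 2) (nat_lit 5) (nat_lit 2) (nat_lit 4) (nat_lit 338) (nat_lit 222) (nat_lit 220)) (XT.lf (nat_lit 0) (nat_lit 246471578868) (nat_lit 76) (nat_lit 126670285561) (nat_lit 76) (nat_lit 126420328085) (nat_lit 1) (nat_lit 4) (nat_lit 2) (nat_lit 5) (nat_lit 2) (nat_lit 4) (nat_lit 339) (nat_lit 222) (nat_lit 219))))) (XT.nd (nat_lit 156) (nat_lit 0) (nat_lit 0) (XT.nd (nat_lit 78) (nat_lit 0) (nat_lit 0) (XT.lf (nat_lit 0) (nat_lit 269605833060) (nat_lit 76) (nat_lit 135076335752) (nat_lit 76) (nat_lit 134755086352) (nat_lit 1) (nat_lit 4) (nat_lit 2) (nat_lit 5) (nat_lit 2) (nat_lit 4) (nat_lit 340) (nat_lit 222)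 (nat_lit 218)) (XT.lf (nat_lit 0) (nat_lit 294437826553) (nat_lit 76) (nat_lit 144227891622) (nat_lit 76) (nat_lit 143840631179) (nat_lit 1) (nat_lit 4) (nat_lit 2) (nat_lit 5) (nat_lit 2) (nat_lit 4) (nat_lit 341) (nat_lit 222) (nat_lit 217))) (XT.nd (nat_lit 78) (nat_lit 0) (nat_lit 0) (XT.lf (nat_lit 0) (nat_lit 321114711901) (nat_lit 76) (nat_lit 154179184611) (nat_lit 76) (nat_lit 153730802833) (nat_lit 1) (nat_lit 4) (nat_lit 2) (nat_lit 5) (nat_lit 2) (nat_lit 4) (nat_lit 342) (nat_lit 222) (nat_lit 216)) (XT.nd (nat_lit 78) (nat_lit 0) (nat_lit 0) (XT.lf (nat_lit 0) (nat_lit 349794574351) (nat_lit 76) (nat_lit 164989185345) (nat_lit 76) (nat_lit 164484209739) (nat_lit 1) (nat_lit 4) (nat_lit 2) (nat_lit 5) (nat_lit 2) (nat_lit 4) (nat_lit 343) (nat_lit 222) (nat_lit 215)) (XT.lf (nat_lit 0) (nat_lit 380647368642) (nat_lit 76) (nat_lit 176721953088) (nat_lit 76) (nat_lit 176164575788)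 (nat_lit 1) (nat_lit 4) (nat_lit 2) (nat_lit 5) (nat_lit 2) (nat_lit 4) (nat_lit 344) (nat_lit 222) (nat_lit 214)))))) (XT.nd (nat_lit 39780) (nat_lit 0) (nat_lit 0) (XT.nd (nat_lit 156) (nat_lit 0) (nat_lit 0) (XT.nd (nat_lit 78) (nat_lit 0) (nat_lit 0) (XT.lf (nat_lit 0) (nat_lit 413855926149) (nat_lit 76) (nat_lit 189447015353) (nat_lit 76) (nat_lit 188841117966) (nat_lit 1) (nat_lit 4) (nat_lit 2) (nat_lit 5) (nat_lit 2) (nat_lit 4) (nat_lit 345) (nat_lit 222) (nat_lit 213)) (XT.lf (nat_lit 0) (nat_lit 449617038323) (nat_lit 76) (nat_lit 203239779914) (nat_lit 76) (nat_lit 202588956522) (nat_lit 1) (nat_lit 4) (nat_lit 2) (nat_lit 5) (nat_lit 2) (nat_lit 4) (nat_lit 346) (nat_lit 222) (nat_lit 212))) (XT.nd (nat_lit 78) (nat_lit 0) (nat_lit 0) (XT.lf (nat_lit 0) (nat_lit 488142622866) (nat_lit 76) (nat_lit 218181981675) (nat_lit 76) (nat_lit 217489560128) (nat_lit 1) (nat_lit 4) (nat_lit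 2) (nat_lit 5) (nat_lit 2) (nat_lit 4) (nat_lit 347) (nat_lit 222) (nat_lit 211)) (XT.nd (nat_lit 78) (nat_lit 0) (nat_lit 0) (XT.lf (nat_lit 0) (nat_lit 529660979538) (nat_lit 76) (nat_lit 234362167015) (nat_lit 76) (nat_lit 233631228659) (nat_lit 1) (nat_lit 4) (nat_lit 2) (nat_lit 5) (nat_lit 2) (nat_lit 4) (nat_lit 348) (nat_lit 222) (nat_lit 210)) (XT.lf (nat_lit 0) (nat_lit 574418143046) (nat_lit 76) (nat_lit 251876218514) (nat_lit 76) (nat_lit 251109616446) (nat_lit 1) (nat_lit 4) (nat_lit 2) (nat_lit 5) (nat_lit 2) (nat_lit 4) (nat_lit 349) (nat_lit 222) (nat_lit 209))))) (XT.nd (nat_lit 234) (nat_lit 0) (nat_lit 0) (XT.nd (nat_lit 78) (nat_lit 0) (nat_lit 0) (XT.lf (nat_lit 0) (nat_lit 75942195637) (nat_lit 76) (nat_lit 47131657752) (nat_lit 76) (nat_lit 47131657752) (nat_lit 1) (nat_lit 4) (nat_lit 2) (nat_lit 5) (nat_lit 2) (nat_lit 4) (nat_lit 334) (nat_lit 223) (nat_lit 223))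 (XT.nd (nat_lit 78) (nat_lit 0) (nat_lit 0) (XT.lf (nat_lit 0) (nat_lit 168304346554) (nat_lit 76) (nat_lit 99662098382) (nat_lit 76) (nat_lit 99565106505) (nat_lit 1) (nat_lit 4) (nat_lit 2) (nat_lit 5) (nat_lit 2) (nat_lit 4) (nat_lit 335) (nat_lit 223) (nat_lit 222)) (XT.lf (nat_lit 0) (nat_lit 185829742038) (nat_lit 76) (nat_lit 105592129056) (nat_lit 76) (nat_lit 105405329885) (nat_lit 1) (nat_lit 4) (nat_lit 2) (nat_lit 5) (nat_lit 2) (nat_lit 4) (nat_lit 336) (nat_lit 223) (nat_lit 221)))) (XT.nd (nat_lit 78) (nat_lit 0) (nat_lit 0) (XT.lf (nat_lit 0) (nat_lit 204564431921) (nat_lit 76) (nat_lit 112088548448) (nat_lit 76) (nat_lit 111818594375) (nat_lit 1) (nat_lit 4) (nat_lit 2) (nat_lit 5) (nat_lit 2) (nat_lit 4) (nat_lit 337) (nat_lit 223) (nat_lit 220)) (XT.nd (nat_lit 78) (nat_lit 0) (nat_lit 0) (XT.lf (nat_lit 0) (nat_lit 224619436588) (nat_lit 76) (nat_lit 119189853859) (nat_lit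 76) (nat_lit 118842904506) (nat_lit 1) (nat_lit 4) (nat_lit 2) (nat_lit 5) (nat_lit 2) (nat_lit 4) (nat_lit 338) (nat_lit 223) (nat_lit 219)) (XT.lf (nat_lit 0) (nat_lit 246113600511) (nat_lit 76) (nat_lit 126938127098) (nat_lit 76) (nat_lit 126519885820) (nat_lit 1) (nat_lit 4) (nat_lit 2) (nat_lit 5) (nat_lit 2) (nat_lit 4) (nat_lit 339) (nat_lit 223) (nat_lit 218))))))) (XT.nd (nat_lit 40014) (nat_lit 0) (nat_lit 0) (XT.nd (nat_lit 390) (nat_lit 0) (nat_lit 0) (XT.nd (nat_lit 156) (nat_lit 0) (nat_lit 0) (XT.nd (nat_lit 78) (nat_lit 0) (nat_lit 0) (XT.lf (nat_lit 0) (nat_lit 269174296514) (nat_lit 76) (nat_lit 135379283858) (nat_lit 76) (nat_lit 134895031538) (nat_lit 1) (nat_lit 4) (nat_lit 2) (nat_lit 5) (nat_lit 2) (nat_lit 4) (nat_lit 340) (nat_lit 223) (nat_lit 217)) (XT.lf (nat_lit 0) (nat_lit 293938180572) (nat_lit 76) (nat_lit 144563345809) (nat_lit 76) (nat_lit 144017972154)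 (nat_lit 1) (nat_lit 4) (nat_lit 2) (nat_lit 5) (nat_lit 2) (nat_lit 4) (nat_lit 341) (nat_lit 223) (nat_lit 216))) (XT.nd (nat_lit 78) (nat_lit 0) (nat_lit 0) (XT.lf (nat_lit 0) (nat_lit 320552001629) (nat_lit 76) (nat_lit 154544737023) (nat_lit 76) (nat_lit 153942769538) (nat_lit 1) (nat_lit 4) (nat_lit 2) (nat_lit 5) (nat_lit 2) (nat_lit 4) (nat_lit 342) (nat_lit 223) (nat_lit 215)) (XT.nd (nat_lit 78) (nat_lit 0) (nat_lit 0) (XT.lf (nat_lit 0) (nat_lit 349173471216) (nat_lit 76) (nat_lit 165382606483) (nat_lit 76) (nat_lit 164728237305) (nat_lit 1) (nat_lit 4) (nat_lit 2) (nat_lit 5) (nat_lit 2) (nat_lit 4) (nat_lit 343) (nat_lit 223) (nat_lit 214)) (XT.lf (nat_lit 0) (nat_lit 379972198042) (nat_lit 76) (nat_lit 177141178602) (nat_lit 76) (nat_lit 176438289338) (nat_lit 1) (nat_lit 4) (nat_lit 2) (nat_lit 5) (nat_lit 2) (nat_lit 4) (nat_lit 344) (nat_lit 223) (nat_lit 213))))) (XT.nd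 (nat_lit 156) (nat_lit 0) (nat_lit 0) (XT.nd (nat_lit 78) (nat_lit 0) (nat_lit 0) (XT.lf (nat_lit 0) (nat_lit 413130693080) (nat_lit 76) (nat_lit 189890133806) (nat_lit 76) (nat_lit 189142318536) (nat_lit 1) (nat_lit 4) (nat_lit 2) (nat_lit 5) (nat_lit 2) (nat_lit 4) (nat_lit 345) (nat_lit 223) (nat_lit 212)) (XT.lf (nat_lit 0) (nat_lit 448845451118) (nat_lit 76) (nat_lit 203705021461) (nat_lit 76) (nat_lit 202915608037) (nat_lit 1) (nat_lit 4) (nat_lit 2) (nat_lit 5) (nat_lit 2) (nat_lit 4) (nat_lit 346) (nat_lit 223) (nat_lit 211))) (XT.nd (nat_lit 78) (nat_lit 0) (nat_lit 0) (XT.lf (nat_lit 0) (nat_lit 487328115164) (nat_lit 76) (nat_lit 218667707567) (nat_lit 76) (nat_lit 217839777334) (nat_lit 1) (nat_lit 4) (nat_lit 2) (nat_lit 5) (nat_lit 2) (nat_lit 4) (nat_lit 347) (nat_lit 223) (nat_lit 210)) (XT.nd (nat_lit 78) (nat_lit 0) (nat_lit 0) (XT.lf (nat_lit 0) (nat_lit 528806730635)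 (nat_lit 76) (nat_lit 234866859894) (nat_lit 76) (nat_lit 234003265949) (nat_lit 1) (nat_lit 4) (nat_lit 2) (nat_lit 5) (nat_lit 2) (nat_lit 4) (nat_lit 348) (nat_lit 223) (nat_lit 209)) (XT.lf (nat_lit 0) (nat_lit 573527096735) (nat_lit 76) (nat_lit 252398473417) (nat_lit 76) (nat_lit 251501857517) (nat_lit 1) (nat_lit 4) (nat_lit 2) (nat_lit 5) (nat_lit 2) (nat_lit 4) (nat_lit 349) (nat_lit 223) (nat_lit 208)))))) (XT.nd (nat_lit 390) (nat_lit 0) (nat_lit 0) (XT.nd (nat_lit 156) (nat_lit 0) (nat_lit 0) (XT.nd (nat_lit 78) (nat_lit 0) (nat_lit 0) (XT.lf (nat_lit 0) (nat_lit 61047144659) (nat_lit 76) (nat_lit 42491761024) (nat_lit 76) (nat_lit 42491761024) (nat_lit 1) (nat_lit 4) (nat_lit 2) (nat_lit 5) (nat_lit 2) (nat_lit 4) (nat_lit 332) (nat_lit 224) (nat_lit 224)) (XT.lf (nat_lit 0) (nat_lit 136472572761) (nat_lit 76) (nat_lit 89468538862) (nat_lit 76) (nat_lit 89363787634) (nat_lit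 1) (nat_lit 4) (nat_lit 2) (nat_lit 5) (nat_lit 2) (nat_lit 4) (nat_lit 333) (nat_lit 224) (nat_lit 223))) (XT.nd (nat_lit 78) (nat_lit 0) (nat_lit 0) (XT.lf (nat_lit 0) (nat_lit 151776310161) (nat_lit 76) (nat_lit 94419649799) (nat_lit 76) (nat_lit 94217906694) (nat_lit 1) (nat_lit 4) (nat_lit 2) (nat_lit 5) (nat_lit 2) (nat_lit 4) (nat_lit 334) (nat_lit 224) (nat_lit 222)) (XT.nd (nat_lit 78) (nat_lit 0) (nat_lit 0) (XT.lf (nat_lit 0) (nat_lit 168096190336) (nat_lit 76) (nat_lit 99866194776) (nat_lit 76) (nat_lit 99574644377) (nat_lit 1) (nat_lit 4) (nat_lit 2) (nat_lit 5) (nat_lit 2) (nat_lit 4) (nat_lit 335) (nat_lit 224) (nat_lit 221)) (XT.lf (nat_lit 0) (nat_lit 185528923685) (nat_lit 76) (nat_lit 105840449615) (nat_lit 76) (nat_lit 105465744314) (nat_lit 1) (nat_lit 4) (nat_lit 2) (nat_lit 5) (nat_lit 2) (nat_lit 4) (nat_lit 336) (nat_lit 224) (nat_lit 220))))) (XT.nd (nat_lit 234)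 (nat_lit 0) (nat_lit 0) (XT.nd (nat_lit 78) (nat_lit 0) (nat_lit 0) (XT.lf (nat_lit 0) (nat_lit 204177815296) (nat_lit 76) (nat_lit 112377817309) (nat_lit 76) (nat_lit 111926116728) (nat_lit 1) (nat_lit 4) (nat_lit 2) (nat_lit 5) (nat_lit 2) (nat_lit 4) (nat_lit 337) (nat_lit 224) (nat_lit 219)) (XT.nd (nat_lit 78) (nat_lit 0) (nat_lit 0) (XT.lf (nat_lit 0) (nat_lit 224153377118) (nat_lit 76) (nat_lit 119517037813) (nat_lit 76) (nat_lit 118994045307) (nat_lit 1) (nat_lit 4) (nat_lit 2) (nat_lit 5) (nat_lit 2) (nat_lit 4) (nat_lit 338) (nat_lit 224) (nat_lit 218)) (XT.lf (nat_lit 0) (nat_lit 245573982852) (nat_lit 76) (nat_lit 127300417620) (nat_lit 76) (nat_lit 126711414073) (nat_lit 1) (nat_lit 4) (nat_lit 2) (nat_lit 5) (nat_lit 2) (nat_lit 4) (nat_lit 339) (nat_lit 224) (nat_lit 217)))) (XT.nd (nat_lit 78) (nat_lit 0) (nat_lit 0) (XT.lf (nat_lit 0) (nat_lit 268566569420) (nat_lit 76)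 (nat_lit 135774080462) (nat_lit 76) (nat_lit 135123955579) (nat_lit 1) (nat_lit 4) (nat_lit 2) (nat_lit 5) (nat_lit 2) (nat_lit 4) (nat_lit 340) (nat_lit 224) (nat_lit 216)) (XT.nd (nat_lit 78) (nat_lit 0) (nat_lit 0) (XT.lf (nat_lit 0) (nat_lit 293267389186) (nat_lit 76) (nat_lit 144988240638) (nat_lit 76) (nat_lit 144281521926) (nat_lit 1) (nat_lit 4) (nat_lit 2) (nat_lit 5) (nat_lit 2) (nat_lit 4) (nat_lit 341) (nat_lit 224) (nat_lit 215)) (XT.lf (nat_lit 0) (nat_lit 319822817380) (nat_lit 76) (nat_lit 154997500577) (nat_lit 76) (nat_lit 154238380172) (nat_lit 1) (nat_lit 4) (nat_lit 2) (nat_lit 5) (nat_lit 2) (nat_lit 4) (nat_lit 342) (nat_lit 224) (nat_lit 214))))))))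
noncomputable def xc2 : XT := (XT.nd (nat_lit 40638) (nat_lit 0) (nat_lit 0) (XT.nd (nat_lit 39858) (nat_lit 0) (nat_lit 0) (XT.nd (nat_lit 390) (nat_lit 0) (nat_lit 0) (XT.nd (nat_lit 156) (nat_lit 0) (nat_lit 0) (XT.nd (nat_lit 78) (nat_lit 0) (nat_lit 0) (XT.lf (nat_lit 0) (nat_lit 348390219502) (nat_lit 76) (nat_lit 165861174413) (nat_lit 76) (nat_lit 165053533921) (nat_lit 1) (nat_lit 4) (nat_lit 2) (nat_lit 5) (nat_lit 2) (nat_lit 4) (nat_lit 343) (nat_lit 224) (nat_lit 213)) (XT.lf (nat_lit 0) (nat_lit 379138883860) (nat_lit 76) (nat_lit 177643639472) (nat_lit 76) (nat_lit 176791072975) (nat_lit 1) (nat_lit 4) (nat_lit 2) (nat_lit 5) (nat_lit 2) (nat_lit 4) (nat_lit 344) (nat_lit 224) (nat_lit 212))) (XT.nd (nat_lit 78) (nat_lit 0) (nat_lit 0) (XT.lf (nat_lit 0) (nat_lit 412251024762) (nat_lit 76) (nat_lit 190414717770) (nat_lit 76) (nat_lit 189520553119) (nat_lit 1) (nat_lit 4)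 (nat_lit 2) (nat_lit 5) (nat_lit 2) (nat_lit 4) (nat_lit 345) (nat_lit 224) (nat_lit 211)) (XT.nd (nat_lit 78) (nat_lit 0) (nat_lit 0) (XT.lf (nat_lit 0) (nat_lit 447922862302) (nat_lit 76) (nat_lit 204250089771) (nat_lit 76) (nat_lit 203317408310) (nat_lit 1) (nat_lit 4) (nat_lit 2) (nat_lit 5) (nat_lit 2) (nat_lit 4) (nat_lit 346) (nat_lit 224) (nat_lit 210)) (XT.lf (nat_lit 0) (nat_lit 486365785147) (nat_lit 76) (nat_lit 219231742863) (nat_lit 76) (nat_lit 218263397691) (nat_lit 1) (nat_lit 4) (nat_lit 2) (nat_lit 5) (nat_lit 2) (nat_lit 4) (nat_lit 347) (nat_lit 224) (nat_lit 209))))) (XT.nd (nat_lit 39234) (nat_lit 0) (nat_lit 0) (XT.nd (nat_lit 78) (nat_lit 0) (nat_lit 0) (XT.lf (nat_lit 0) (nat_lit 527807603210) (nat_lit 76) (nat_lit 235448457214) (nat_lit 76) (nat_lit 234447090086) (nat_lit 1) (nat_lit 4) (nat_lit 2) (nat_lit 5) (nat_lit 2) (nat_lit 4) (nat_lit 348) (nat_lit 224)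 (nat_lit 208)) (XT.lf (nat_lit 0) (nat_lit 572493897635) (nat_lit 76) (nat_lit 252996331872) (nat_lit 76) (nat_lit 251964388859) (nat_lit 1) (nat_lit 4) (nat_lit 2) (nat_lit 5) (nat_lit 2) (nat_lit 4) (nat_lit 349) (nat_lit 224) (nat_lit 207))) (XT.nd (nat_lit 78) (nat_lit 0) (nat_lit 0) (XT.lf (nat_lit 0) (nat_lit 47952155405) (nat_lit 76) (nat_lit 38680514331) (nat_lit 76) (nat_lit 38680514331) (nat_lit 1) (nat_lit 4) (nat_lit 2) (nat_lit 5) (nat_lit 2) (nat_lit 4) (nat_lit 330) (nat_lit 225) (nat_lit 225)) (XT.nd (nat_lit 78) (nat_lit 0) (nat_lit 0) (XT.lf (nat_lit 0) (nat_lit 108556255195) (nat_lit 76) (nat_lit 81051152809) (nat_lit 76) (nat_lit 80938021483) (nat_lit 1) (nat_lit 4) (nat_lit 2) (nat_lit 5) (nat_lit 2) (nat_lit 4) (nat_lit 331) (nat_lit 225) (nat_lit 224)) (XT.lf (nat_lit 0) (nat_lit 121977561717) (nat_lit 76) (nat_lit 85152363087) (nat_lit 76) (nat_lit 84934480534)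 (nat_lit 1) (nat_lit 4) (nat_lit 2) (nat_lit 5) (nat_lit 2) (nat_lit 4) (nat_lit 332) (nat_lit 225) (nat_lit 223)))))) (XT.nd (nat_lit 390) (nat_lit 0) (nat_lit 0) (XT.nd (nat_lit 156) (nat_lit 0) (nat_lit 0) (XT.nd (nat_lit 78) (nat_lit 0) (nat_lit 0) (XT.lf (nat_lit 0) (nat_lit 136247764045) (nat_lit 76) (nat_lit 89688962967) (nat_lit 76) (nat_lit 89374088536) (nat_lit 1) (nat_lit 4) (nat_lit 2) (nat_lit 5) (nat_lit 2) (nat_lit 4) (nat_lit 333) (nat_lit 225) (nat_lit 222)) (XT.lf (nat_lit 0) (nat_lit 151451426341) (nat_lit 76) (nat_lit 94687836002) (nat_lit 76) (nat_lit 94283154277) (nat_lit 1) (nat_lit 4) (nat_lit 2) (nat_lit 5) (nat_lit 2) (nat_lit 4) (nat_lit 334) (nat_lit 225) (nat_lit 221))) (XT.nd (nat_lit 78) (nat_lit 0) (nat_lit 0) (XT.lf (nat_lit 0) (nat_lit 167678644381) (nat_lit 76) (nat_lit 100178605144) (nat_lit 76) (nat_lit 99690768518) (nat_lit 1) (nat_lit 4) (nat_lit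 2) (nat_lit 5) (nat_lit 2) (nat_lit 4) (nat_lit 335) (nat_lit 225) (nat_lit 220)) (XT.nd (nat_lit 78) (nat_lit 0) (nat_lit 0) (XT.lf (nat_lit 0) (nat_lit 185025579458) (nat_lit 76) (nat_lit 106193808285) (nat_lit 76) (nat_lit 105628976379) (nat_lit 1) (nat_lit 4) (nat_lit 2) (nat_lit 5) (nat_lit 2) (nat_lit 4) (nat_lit 336) (nat_lit 225) (nat_lit 219)) (XT.lf (nat_lit 0) (nat_lit 203595028224) (nat_lit 76) (nat_lit 112769091073) (nat_lit 76) (nat_lit 112132967241) (nat_lit 1) (nat_lit 4) (nat_lit 2) (nat_lit 5) (nat_lit 2) (nat_lit 4) (nat_lit 337) (nat_lit 225) (nat_lit 218))))) (XT.nd (nat_lit 156) (nat_lit 0) (nat_lit 0) (XT.nd (nat_lit 78) (nat_lit 0) (nat_lit 0) (XT.lf (nat_lit 0) (nat_lit 223497031856) (nat_lit 76) (nat_lit 119943418146) (nat_lit 76) (nat_lit 119241283272) (nat_lit 1) (nat_lit 4) (nat_lit 2) (nat_lit 5) (nat_lit 2) (nat_lit 4) (nat_lit 338) (nat_lit 225) (nat_lit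 217)) (XT.lf (nat_lit 0) (nat_lit 244849528155) (nat_lit 76) (nat_lit 127759304035) (nat_lit 76) (nat_lit 126996047826) (nat_lit 1) (nat_lit 4) (nat_lit 2) (nat_lit 5) (nat_lit 2) (nat_lit 4) (nat_lit 339) (nat_lit 225) (nat_lit 216))) (XT.nd (nat_lit 78) (nat_lit 0) (nat_lit 0) (XT.lf (nat_lit 0) (nat_lit 267779050431) (nat_lit 76) (nat_lit 136263065101) (nat_lit 76) (nat_lit 135443215063) (nat_lit 1) (nat_lit 4) (nat_lit 2) (nat_lit 5) (nat_lit 2) (nat_lit 4) (nat_lit 340) (nat_lit 225) (nat_lit 215)) (XT.nd (nat_lit 78) (nat_lit 0) (nat_lit 0) (XT.lf (nat_lit 0) (nat_lit 292421477335) (nat_lit 76) (nat_lit 145505094002) (nat_lit 76) (nat_lit 144632842271) (nat_lit 1) (nat_lit 4) (nat_lit 2) (nat_lit 5) (nat_lit 2) (nat_lit 4) (nat_lit 341) (nat_lit 225) (nat_lit 214)) (XT.lf (nat_lit 0) (nat_lit 318922838064) (nat_lit 76) (nat_lit 155540158317) (nat_lit 76) (nat_lit 154619386500) (nat_lit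 1) (nat_lit 4) (nat_lit 2) (nat_lit 5) (nat_lit 2) (nat_lit 4) (nat_lit 342) (nat_lit 225) (nat_lit 213))))))) (XT.nd (nat_lit 39702) (nat_lit 0) (nat_lit 0) (XT.nd (nat_lit 390) (nat_lit 0) (nat_lit 0) (XT.nd (nat_lit 156) (nat_lit 0) (nat_lit 0) (XT.nd (nat_lit 78) (nat_lit 0) (nat_lit 0) (XT.lf (nat_lit 0) (nat_lit 347440177718) (nat_lit 76) (nat_lit 166427725094) (nat_lit 76) (nat_lit 165462027270) (nat_lit 1) (nat_lit 4) (nat_lit 2) (nat_lit 5) (nat_lit 2) (nat_lit 4) (nat_lit 343) (nat_lit 225) (nat_lit 212)) (XT.lf (nat_lit 0) (nat_lit 378142487939) (nat_lit 76) (nat_lit 178232313246) (nat_lit 76) (nat_lit 177225017269) (nat_lit 1) (nat_lit 4) (nat_lit 2) (nat_lit 5) (nat_lit 2) (nat_lit 4) (nat_lit 344) (nat_lit 225) (nat_lit 211))) (XT.nd (nat_lit 78) (nat_lit 0) (nat_lit 0) (XT.lf (nat_lit 0) (nat_lit 411211708344) (nat_lit 76) (nat_lit 191023875890) (nat_lit 76) (nat_lit 189978063103)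 (nat_lit 1) (nat_lit 4) (nat_lit 2) (nat_lit 5) (nat_lit 2) (nat_lit 4) (nat_lit 345) (nat_lit 225) (nat_lit 210)) (XT.nd (nat_lit 78) (nat_lit 0) (nat_lit 0) (XT.lf (nat_lit 0) (nat_lit 446843804683) (nat_lit 76) (nat_lit 204878214877) (nat_lit 76) (nat_lit 203796738378) (nat_lit 1) (nat_lit 4) (nat_lit 2) (nat_lit 5) (nat_lit 2) (nat_lit 4) (nat_lit 346) (nat_lit 225) (nat_lit 209)) (XT.lf (nat_lit 0) (nat_lit 485249930119) (nat_lit 76) (nat_lit 219877429994) (nat_lit 76) (nat_lit 218762931540) (nat_lit 1) (nat_lit 4) (nat_lit 2) (nat_lit 5) (nat_lit 2) (nat_lit 4) (nat_lit 347) (nat_lit 225) (nat_lit 208))))) (XT.nd (nat_lit 39078) (nat_lit 0) (nat_lit 0) (XT.nd (nat_lit 78) (nat_lit 0) (nat_lit 0) (XT.lf (nat_lit 0) (nat_lit 526657676508) (nat_lit 76) (nat_lit 236110405479) (nat_lit 76) (nat_lit 234965331140) (nat_lit 1) (nat_lit 4) (nat_lit 2) (nat_lit 5) (nat_lit 2) (nat_lit 4) (nat_lit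 348) (nat_lit 225) (nat_lit 207)) (XT.lf (nat_lit 0) (nat_lit 571312423086) (nat_lit 76) (nat_lit 253673336742) (nat_lit 76) (nat_lit 252499951399) (nat_lit 1) (nat_lit 4) (nat_lit 2) (nat_lit 5) (nat_lit 2) (nat_lit 4) (nat_lit 349) (nat_lit 225) (nat_lit 206))) (XT.nd (nat_lit 78) (nat_lit 0) (nat_lit 0) (XT.lf (nat_lit 0) (nat_lit 36374438239) (nat_lit 76) (nat_lit 35593038832) (nat_lit 76) (nat_lit 35593038832) (nat_lit 1) (nat_lit 4) (nat_lit 2) (nat_lit 5) (nat_lit 2) (nat_lit 4) (nat_lit 328) (nat_lit 226) (nat_lit 226)) (XT.nd (nat_lit 78) (nat_lit 0) (nat_lit 0) (XT.lf (nat_lit 0) (nat_lit 83946754079) (nat_lit 76) (nat_lit 74182305079) (nat_lit 76) (nat_lit 74060123247) (nat_lit 1) (nat_lit 4) (nat_lit 2) (nat_lit 5) (nat_lit 2) (nat_lit 4) (nat_lit 329) (nat_lit 226) (nat_lit 225)) (XT.lf (nat_lit 0) (nat_lit 95778245000) (nat_lit 76) (nat_lit 77543376984) (nat_lit 76) (nat_lit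 77308063826) (nat_lit 1) (nat_lit 4) (nat_lit 2) (nat_lit 5) (nat_lit 2) (nat_lit 4) (nat_lit 330) (nat_lit 226) (nat_lit 224)))))) (XT.nd (nat_lit 390) (nat_lit 0) (nat_lit 0) (XT.nd (nat_lit 156) (nat_lit 0) (nat_lit 0) (XT.nd (nat_lit 78) (nat_lit 0) (nat_lit 0) (XT.lf (nat_lit 0) (nat_lit 108313461782) (nat_lit 76) (nat_lit 81289210842) (nat_lit 76) (nat_lit 80949146456) (nat_lit 1) (nat_lit 4) (nat_lit 2) (nat_lit 5) (nat_lit 2) (nat_lit 4) (nat_lit 331) (nat_lit 226) (nat_lit 223)) (XT.lf (nat_lit 0) (nat_lit 121626687190) (nat_lit 76) (nat_lit 85442004187) (nat_lit 76) (nat_lit 85004947924) (nat_lit 1) (nat_lit 4) (nat_lit 2) (nat_lit 5) (nat_lit 2) (nat_lit 4) (nat_lit 332) (nat_lit 226) (nat_lit 222))) (XT.nd (nat_lit 78) (nat_lit 0) (nat_lit 0) (XT.lf (nat_lit 0) (nat_lit 135796814413) (nat_lit 76) (nat_lit 90026366165) (nat_lit 76) (nat_lit 89499502608) (nat_lit 1) (nat_lit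 4) (nat_lit 2) (nat_lit 5) (nat_lit 2) (nat_lit 4) (nat_lit 333) (nat_lit 226) (nat_lit 221)) (XT.nd (nat_lit 78) (nat_lit 0) (nat_lit 0) (XT.lf (nat_lit 0) (nat_lit 150907814575) (nat_lit 76) (nat_lit 95069463366) (nat_lit 76) (nat_lit 94459444907) (nat_lit 1) (nat_lit 4) (nat_lit 2) (nat_lit 5) (nat_lit 2) (nat_lit 4) (nat_lit 334) (nat_lit 226) (nat_lit 220)) (XT.lf (nat_lit 0) (nat_lit 167049234343) (nat_lit 76) (nat_lit 100601180810) (nat_lit 76) (nat_lit 99914167072) (nat_lit 1) (nat_lit 4) (nat_lit 2) (nat_lit 5) (nat_lit 2) (nat_lit 4) (nat_lit 335) (nat_lit 226) (nat_lit 219))))) (XT.nd (nat_lit 234) (nat_lit 0) (nat_lit 0) (XT.nd (nat_lit 78) (nat_lit 0) (nat_lit 0) (XT.lf (nat_lit 0) (nat_lit 184316726575) (nat_lit 76) (nat_lit 106654299045) (nat_lit 76) (nat_lit 105895993381) (nat_lit 1) (nat_lit 4) (nat_lit 2) (nat_lit 5) (nat_lit 2) (nat_lit 4) (nat_lit 336) (nat_lit 226)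 (nat_lit 218)) (XT.nd (nat_lit 78) (nat_lit 0) (nat_lit 0) (XT.lf (nat_lit 0) (nat_lit 202812617151) (nat_lit 76) (nat_lit 113264688401) (nat_lit 76) (nat_lit 112440371695) (nat_lit 1) (nat_lit 4) (nat_lit 2) (nat_lit 5) (nat_lit 2) (nat_lit 4) (nat_lit 337) (nat_lit 226) (nat_lit 217)) (XT.lf (nat_lit 0) (nat_lit 222646511349) (nat_lit 76) (nat_lit 120471521555) (nat_lit 76) (nat_lit 119586083515) (nat_lit 1) (nat_lit 4) (nat_lit 2) (nat_lit 5) (nat_lit 2) (nat_lit 4) (nat_lit 338) (nat_lit 226) (nat_lit 216)))) (XT.nd (nat_lit 78) (nat_lit 0) (nat_lit 0) (XT.lf (nat_lit 0) (nat_lit 243935943356) (nat_lit 76) (nat_lit 128317505669) (nat_lit 76) (nat_lit 127375473799) (nat_lit 1) (nat_lit 4) (nat_lit 2) (nat_lit 5) (nat_lit 2) (nat_lit 4) (nat_lit 339) (nat_lit 226) (nat_lit 215)) (XT.nd (nat_lit 78) (nat_lit 0) (nat_lit 0) (XT.lf (nat_lit 0) (nat_lit 266807072770) (nat_lit 76) (nat_lit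 136849135460) (nat_lit 76) (nat_lit 135854701897) (nat_lit 1) (nat_lit 4) (nat_lit 2) (nat_lit 5) (nat_lit 2) (nat_lit 4) (nat_lit 340) (nat_lit 226) (nat_lit 214)) (XT.lf (nat_lit 0) (nat_lit 291395432209) (nat_lit 76) (nat_lit 146116968738) (nat_lit 76) (nat_lit 145074015088) (nat_lit 1) (nat_lit 4) (nat_lit 2) (nat_lit 5) (nat_lit 2) (nat_lit 4) (nat_lit 341) (nat_lit 226) (nat_lit 213))))))))
noncomputable def xc3 : XT := (XT.nd (nat_lit 40404) (nat_lit 0) (nat_lit 0) (XT.nd (nat_lit 39546) (nat_lit 0) (nat_lit 0) (XT.nd (nat_lit 390) (nat_lit 0) (nat_lit 0) (XT.nd (nat_lit 156) (nat_lit 0) (nat_lit 0) (XT.nd (nat_lit 78) (nat_lit 0) (nat_lit 0) (XT.lf (nat_lit 0) (nat_lit 317846730469) (nat_lit 76) (nat_lit 156175925993) (nat_lit 76) (nat_lit 155088046338) (nat_lit 1) (nat_lit 4) (nat_lit 2) (nat_lit 5) (nat_lit 2) (nat_lit 4) (nat_lit 342) (nat_lit 226) (nat_lit 212)) (XT.lf (nat_lit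 0) (nat_lit 346317715986) (nat_lit 76) (nat_lit 167085615863) (nat_lit 76) (nat_lit 165956138054) (nat_lit 1) (nat_lit 4) (nat_lit 2) (nat_lit 5) (nat_lit 2) (nat_lit 4) (nat_lit 343) (nat_lit 226) (nat_lit 211))) (XT.nd (nat_lit 78) (nat_lit 0) (nat_lit 0) (XT.lf (nat_lit 0) (nat_lit 376977105710) (nat_lit 76) (nat_lit 178910688361) (nat_lit 76) (nat_lit 177742693743) (nat_lit 1) (nat_lit 4) (nat_lit 2) (nat_lit 5) (nat_lit 2) (nat_lit 4) (nat_lit 344) (nat_lit 226) (nat_lit 210)) (XT.nd (nat_lit 78) (nat_lit 0) (nat_lit 0) (XT.lf (nat_lit 0) (nat_lit 410006584914) (nat_lit 76) (nat_lit 191721217991) (nat_lit 76) (nat_lit 190517559661) (nat_lit 1) (nat_lit 4) (nat_lit 2) (nat_lit 5) (nat_lit 2) (nat_lit 4) (nat_lit 345) (nat_lit 226) (nat_lit 209)) (XT.lf (nat_lit 0) (nat_lit 445601883844) (nat_lit 76) (nat_lit 205593119003) (nat_lit 76) (nat_lit 204356438717) (nat_lit 1) (nat_lit 4)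 (nat_lit 2) (nat_lit 5) (nat_lit 2) (nat_lit 4) (nat_lit 346) (nat_lit 226) (nat_lit 208))))) (XT.nd (nat_lit 156) (nat_lit 0) (nat_lit 0) (XT.nd (nat_lit 78) (nat_lit 0) (nat_lit 0) (XT.lf (nat_lit 0) (nat_lit 483973937606) (nat_lit 76) (nat_lit 220608595254) (nat_lit 76) (nat_lit 219341339083) (nat_lit 1) (nat_lit 4) (nat_lit 2) (nat_lit 5) (nat_lit 2) (nat_lit 4) (nat_lit 347) (nat_lit 226) (nat_lit 207)) (XT.lf (nat_lit 0) (nat_lit 525350136148) (nat_lit 76) (nat_lit 236856627344) (nat_lit 76) (nat_lit 235561060169) (nat_lit 1) (nat_lit 4) (nat_lit 2) (nat_lit 5) (nat_lit 2) (nat_lit 4) (nat_lit 348) (nat_lit 226) (nat_lit 206))) (XT.nd (nat_lit 38844) (nat_lit 0) (nat_lit 0) (XT.lf (nat_lit 0) (nat_lit 569975671757) (nat_lit 76) (nat_lit 254433499908) (nat_lit 76) (nat_lit 253111718840) (nat_lit 1) (nat_lit 4) (nat_lit 2) (nat_lit 5) (nat_lit 2) (nat_lit 4) (nat_lit 349) (nat_lit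 226) (nat_lit 205)) (XT.nd (nat_lit 78) (nat_lit 0) (nat_lit 0) (XT.lf (nat_lit 0) (nat_lit 26069467374) (nat_lit 76) (nat_lit 33140484815) (nat_lit 76) (nat_lit 33140484815) (nat_lit 1) (nat_lit 4) (nat_lit 2) (nat_lit 5) (nat_lit 2) (nat_lit 4) (nat_lit 326) (nat_lit 227) (nat_lit 227)) (XT.lf (nat_lit 0) (nat_lit 62118254409) (nat_lit 76) (nat_lit 68668895698) (nat_lit 76) (nat_lit 68536939320) (nat_lit 1) (nat_lit 4) (nat_lit 2) (nat_lit 5) (nat_lit 2) (nat_lit 4) (nat_lit 327) (nat_lit 227) (nat_lit 226)))))) (XT.nd (nat_lit 390) (nat_lit 0) (nat_lit 0) (XT.nd (nat_lit 156) (nat_lit 0) (nat_lit 0) (XT.nd (nat_lit 78) (nat_lit 0) (nat_lit 0) (XT.lf (nat_lit 0) (nat_lit 72612725404) (nat_lit 76) (nat_lit 71383013852) (nat_lit 76) (nat_lit 71128875641) (nat_lit 1) (nat_lit 4) (nat_lit 2) (nat_lit 5) (nat_lit 2) (nat_lit 4) (nat_lit 328) (nat_lit 227) (nat_lit 225)) (XT.lf (nat_lit 0)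 (nat_lit 83684537193) (nat_lit 76) (nat_lit 74439407755) (nat_lit 76) (nat_lit 74072138219) (nat_lit 1) (nat_lit 4) (nat_lit 2) (nat_lit 5) (nat_lit 2) (nat_lit 4) (nat_lit 329) (nat_lit 227) (nat_lit 224))) (XT.nd (nat_lit 78) (nat_lit 0) (nat_lit 0) (XT.lf (nat_lit 0) (nat_lit 95399300511) (nat_lit 76) (nat_lit 77856189371) (nat_lit 76) (nat_lit 77384168608) (nat_lit 1) (nat_lit 4) (nat_lit 2) (nat_lit 5) (nat_lit 2) (nat_lit 4) (nat_lit 330) (nat_lit 227) (nat_lit 223)) (XT.nd (nat_lit 78) (nat_lit 0) (nat_lit 0) (XT.lf (nat_lit 0) (nat_lit 107826436180) (nat_lit 76) (nat_lit 81653606296) (nat_lit 76) (nat_lit 81084593655) (nat_lit 1) (nat_lit 4) (nat_lit 2) (nat_lit 5) (nat_lit 2) (nat_lit 4) (nat_lit 331) (nat_lit 227) (nat_lit 222)) (XT.lf (nat_lit 0) (nat_lit 121039586484) (nat_lit 76) (nat_lit 85854161740) (nat_lit 76) (nat_lit 85195341805) (nat_lit 1) (nat_lit 4) (nat_lit 2) (nat_lit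 5) (nat_lit 2) (nat_lit 4) (nat_lit 332) (nat_lit 227) (nat_lit 221))))) (XT.nd (nat_lit 234) (nat_lit 0) (nat_lit 0) (XT.nd (nat_lit 78) (nat_lit 0) (nat_lit 0) (XT.lf (nat_lit 0) (nat_lit 135117051572) (nat_lit 76) (nat_lit 90482747884) (nat_lit 76) (nat_lit 89740773047) (nat_lit 1) (nat_lit 4) (nat_lit 2) (nat_lit 5) (nat_lit 2) (nat_lit 4) (nat_lit 333) (nat_lit 227) (nat_lit 220)) (XT.nd (nat_lit 78) (nat_lit 0) (nat_lit 0) (XT.lf (nat_lit 0) (nat_lit 150142253462) (nat_lit 76) (nat_lit 95566793386) (nat_lit 76) (nat_lit 94747823270) (nat_lit 1) (nat_lit 4) (nat_lit 2) (nat_lit 5) (nat_lit 2) (nat_lit 4) (nat_lit 334) (nat_lit 227) (nat_lit 219)) (XT.lf (nat_lit 0) (nat_lit 166204230385) (nat_lit 76) (nat_lit 101136425924) (nat_lit 76) (nat_lit 100246163882) (nat_lit 1) (nat_lit 4) (nat_lit 2) (nat_lit 5) (nat_lit 2) (nat_lit 4) (nat_lit 335) (nat_lit 227) (nat_lit 218)))) (XT.nd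 (nat_lit 78) (nat_lit 0) (nat_lit 0) (XT.lf (nat_lit 0) (nat_lit 183398164427) (nat_lit 76) (nat_lit 107224650727) (nat_lit 76) (nat_lit 106268377643) (nat_lit 1) (nat_lit 4) (nat_lit 2) (nat_lit 5) (nat_lit 2) (nat_lit 4) (nat_lit 336) (nat_lit 227) (nat_lit 217)) (XT.nd (nat_lit 78) (nat_lit 0) (nat_lit 0) (XT.lf (nat_lit 0) (nat_lit 201825945569) (nat_lit 76) (nat_lit 113867546165) (nat_lit 76) (nat_lit 112850151746) (nat_lit 1) (nat_lit 4) (nat_lit 2) (nat_lit 5) (nat_lit 2) (nat_lit 4) (nat_lit 337) (nat_lit 227) (nat_lit 216)) (XT.lf (nat_lit 0) (nat_lit 221596775475) (nat_lit 76) (nat_lit 121104477544) (nat_lit 76) (nat_lit 120030489296) (nat_lit 1) (nat_lit 4) (nat_lit 2) (nat_lit 5) (nat_lit 2) (nat_lit 4) (nat_lit 338) (nat_lit 227) (nat_lit 215))))))) (XT.nd (nat_lit 780) (nat_lit 0) (nat_lit 0) (XT.nd (nat_lit 390) (nat_lit 0) (nat_lit 0) (XT.nd (nat_lit 156) (nat_lit 0) (nat_lit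 0) (XT.nd (nat_lit 78) (nat_lit 0) (nat_lit 0) (XT.lf (nat_lit 0) (nat_lit 242827814619) (nat_lit 76) (nat_lit 128978330383) (nat_lit 76) (nat_lit 127851940441) (nat_lit 1) (nat_lit 4) (nat_lit 2) (nat_lit 5) (nat_lit 2) (nat_lit 4) (nat_lit 339) (nat_lit 227) (nat_lit 214)) (XT.lf (nat_lit 0) (nat_lit 265644876568) (nat_lit 76) (nat_lit 137535764551) (nat_lit 76) (nat_lit 136360854523) (nat_lit 1) (nat_lit 4) (nat_lit 2) (nat_lit 5) (nat_lit 2) (nat_lit 4) (nat_lit 340) (nat_lit 227) (nat_lit 213))) (XT.nd (nat_lit 78) (nat_lit 0) (nat_lit 0) (XT.lf (nat_lit 0) (nat_lit 290183173538) (nat_lit 76) (nat_lit 146827490768) (nat_lit 76) (nat_lit 145607654734) (nat_lit 1) (nat_lit 4) (nat_lit 2) (nat_lit 5) (nat_lit 2) (nat_lit 4) (nat_lit 341) (nat_lit 227) (nat_lit 212)) (XT.nd (nat_lit 78) (nat_lit 0) (nat_lit 0) (XT.lf (nat_lit 0) (nat_lit 316588117662) (nat_lit 76) (nat_lit 156908571117)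 (nat_lit 76) (nat_lit 155647136929) (nat_lit 1) (nat_lit 4) (nat_lit 2) (nat_lit 5) (nat_lit 2) (nat_lit 4) (nat_lit 342) (nat_lit 227) (nat_lit 211)) (XT.lf (nat_lit 0) (nat_lit 345016182682) (nat_lit 76) (nat_lit 167838745332) (nat_lit 76) (nat_lit 166538794336) (nat_lit 1) (nat_lit 4) (nat_lit 2) (nat_lit 5) (nat_lit 2) (nat_lit 4) (nat_lit 343) (nat_lit 227) (nat_lit 210))))) (XT.nd (nat_lit 156) (nat_lit 0) (nat_lit 0) (XT.nd (nat_lit 78) (nat_lit 0) (nat_lit 0) (XT.lf (nat_lit 0) (nat_lit 375635831205) (nat_lit 76) (nat_lit 179682784817) (nat_lit 76) (nat_lit 178347170108) (nat_lit 1) (nat_lit 4) (nat_lit 2) (nat_lit 5) (nat_lit 2) (nat_lit 4) (nat_lit 344) (nat_lit 227) (nat_lit 209)) (XT.lf (nat_lit 0) (nat_lit 408628513000) (nat_lit 76) (nat_lit 192510876472) (nat_lit 76) (nat_lit 191142239807) (nat_lit 1) (nat_lit 4) (nat_lit 2) (nat_lit 5) (nat_lit 2) (nat_lit 4) (nat_lit 345)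 (nat_lit 227) (nat_lit 208))) (XT.nd (nat_lit 78) (nat_lit 0) (nat_lit 0) (XT.lf (nat_lit 0) (nat_lit 444189740256) (nat_lit 76) (nat_lit 206399038617) (nat_lit 76) (nat_lit 204999826068) (nat_lit 1) (nat_lit 4) (nat_lit 2) (nat_lit 5) (nat_lit 2) (nat_lit 4) (nat_lit 346) (nat_lit 227) (nat_lit 207)) (XT.nd (nat_lit 78) (nat_lit 0) (nat_lit 0) (XT.lf (nat_lit 0) (nat_lit 482530246171) (nat_lit 76) (nat_lit 221429571473) (nat_lit 76) (nat_lit 220002047920) (nat_lit 1) (nat_lit 4) (nat_lit 2) (nat_lit 5) (nat_lit 2) (nat_lit 4) (nat_lit 347) (nat_lit 227) (nat_lit 206)) (XT.lf (nat_lit 0) (nat_lit 523877233744) (nat_lit 76) (nat_lit 237691544865) (nat_lit 76) (nat_lit 236237807418) (nat_lit 1) (nat_lit 4) (nat_lit 2) (nat_lit 5) (nat_lit 2) (nat_lit 4) (nat_lit 348) (nat_lit 227) (nat_lit 205)))))) (XT.nd (nat_lit 39000) (nat_lit 0) (nat_lit 0) (XT.nd (nat_lit 38766) (nat_lit 0) (nat_lit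 0) (XT.nd (nat_lit 38688) (nat_lit 0) (nat_lit 0) (XT.lf (nat_lit 0) (nat_lit 568475722160) (nat_lit 76) (nat_lit 255281326042) (nat_lit 76) (nat_lit 253803316472) (nat_lit 1) (nat_lit 4) (nat_lit 2) (nat_lit 5) (nat_lit 2) (nat_lit 4) (nat_lit 349) (nat_lit 227) (nat_lit 204)) (XT.lf (nat_lit 0) (nat_lit 16825355762) (nat_lit 76) (nat_lit 31247830318) (nat_lit 76) (nat_lit 31247830318) (nat_lit 1) (nat_lit 4) (nat_lit 2) (nat_lit 5) (nat_lit 2) (nat_lit 4) (nat_lit 324) (nat_lit 228) (nat_lit 228))) (XT.nd (nat_lit 78) (nat_lit 0) (nat_lit 0) (XT.lf (nat_lit 0) (nat_lit 42615629717) (nat_lit 76) (nat_lit 64347597865) (nat_lit 76) (nat_lit 64205084976) (nat_lit 1) (nat_lit 4) (nat_lit 2) (nat_lit 5) (nat_lit 2) (nat_lit 4) (nat_lit 325) (nat_lit 228) (nat_lit 227)) (XT.nd (nat_lit 78) (nat_lit 0) (nat_lit 0) (XT.lf (nat_lit 0) (nat_lit 51991891588) (nat_lit 76) (nat_lit 66493660712) (nat_lit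 76) (nat_lit 66219191445) (nat_lit 1) (nat_lit 4) (nat_lit 2) (nat_lit 5) (nat_lit 2) (nat_lit 4) (nat_lit 326) (nat_lit 228) (nat_lit 226)) (XT.lf (nat_lit 0) (nat_lit 61835060172) (nat_lit 76) (nat_lit 68946566588) (nat_lit 76) (nat_lit 68549915489) (nat_lit 1) (nat_lit 4) (nat_lit 2) (nat_lit 5) (nat_lit 2) (nat_lit 4) (nat_lit 327) (nat_lit 228) (nat_lit 225))))) (XT.nd (nat_lit 234) (nat_lit 0) (nat_lit 0) (XT.nd (nat_lit 78) (nat_lit 0) (nat_lit 0) (XT.lf (nat_lit 0) (nat_lit 72203465356) (nat_lit 76) (nat_lit 71720851230) (nat_lit 76) (nat_lit 71211068805) (nat_lit 1) (nat_lit 4) (nat_lit 2) (nat_lit 5) (nat_lit 2) (nat_lit 4) (nat_lit 328) (nat_lit 228) (nat_lit 224)) (XT.nd (nat_lit 78) (nat_lit 0) (nat_lit 0) (XT.lf (nat_lit 0) (nat_lit 83158549543) (nat_lit 76) (nat_lit 74832954846) (nat_lit 76) (nat_lit 74218421193) (nat_lit 1) (nat_lit 4) (nat_lit 2) (nat_lit 5) (nat_lit 2)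 (nat_lit 4) (nat_lit 329) (nat_lit 228) (nat_lit 223)) (XT.lf (nat_lit 0) (nat_lit 94765231748) (nat_lit 76) (nat_lit 78301319529) (nat_lit 76) (nat_lit 77589793999) (nat_lit 1) (nat_lit 4) (nat_lit 2) (nat_lit 5) (nat_lit 2) (nat_lit 4) (nat_lit 330) (nat_lit 228) (nat_lit 222)))) (XT.nd (nat_lit 78) (nat_lit 0) (nat_lit 0) (XT.lf (nat_lit 0) (nat_lit 107092292312) (nat_lit 76) (nat_lit 82146498552) (nat_lit 76) (nat_lit 81345165728) (nat_lit 1) (nat_lit 4) (nat_lit 2) (nat_lit 5) (nat_lit 2) (nat_lit 4) (nat_lit 331) (nat_lit 228) (nat_lit 221)) (XT.nd (nat_lit 78) (nat_lit 0) (nat_lit 0) (XT.lf (nat_lit 0) (nat_lit 120212780481) (nat_lit 76) (nat_lit 86391278162) (nat_lit 76) (nat_lit 85506790436) (nat_lit 1) (nat_lit 4) (nat_lit 2) (nat_lit 5) (nat_lit 2) (nat_lit 4) (nat_lit 332) (nat_lit 228) (nat_lit 220)) (XT.lf (nat_lit 0) (nat_lit 134204447297) (nat_lit 76) (nat_lit 91060812607)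 (nat_lit 76) (nat_lit 90099329602) (nat_lit 1) (nat_lit 4) (nat_lit 2) (nat_lit 5) (nat_lit 2) (nat_lit 4) (nat_lit 333) (nat_lit 228) (nat_lit 219))))))))
noncomputable def xc4 : XT := (XT.nd (nat_lit 40014) (nat_lit 0) (nat_lit 0) (XT.nd (nat_lit 780) (nat_lit 0) (nat_lit 0) (XT.nd (nat_lit 390) (nat_lit 0) (nat_lit 0) (XT.nd (nat_lit 156) (nat_lit 0) (nat_lit 0) (XT.nd (nat_lit 78) (nat_lit 0) (nat_lit 0) (XT.lf (nat_lit 0) (nat_lit 149150206342) (nat_lit 76) (nat_lit 96182773203) (nat_lit 76) (nat_lit 95149998272) (nat_lit 1) (nat_lit 4) (nat_lit 2) (nat_lit 5) (nat_lit 2) (nat_lit 4) (nat_lit 334) (nat_lit 228) (nat_lit 218)) (XT.lf (nat_lit 0) (nat_lit 165138625075) (nat_lit 76) (nat_lit 101787512309) (nat_lit 76) (nat_lit 100688726337) (nat_lit 1) (nat_lit 4) (nat_lit 2) (nat_lit 5) (nat_lit 2) (nat_lit 4) (nat_lit 335) (nat_lit 228) (nat_lit 217))) (XT.nd (nat_lit 78) (nat_lit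 0) (nat_lit 0) (XT.lf (nat_lit 0) (nat_lit 182264449683) (nat_lit 76) (nat_lit 107908243195) (nat_lit 76) (nat_lit 106748335887) (nat_lit 1) (nat_lit 4) (nat_lit 2) (nat_lit 5) (nat_lit 2) (nat_lit 4) (nat_lit 336) (nat_lit 228) (nat_lit 216)) (XT.nd (nat_lit 78) (nat_lit 0) (nat_lit 0) (XT.lf (nat_lit 0) (nat_lit 200629166533) (nat_lit 76) (nat_lit 114581236856) (nat_lit 76) (nat_lit 113364735720) (nat_lit 1) (nat_lit 4) (nat_lit 2) (nat_lit 5) (nat_lit 2) (nat_lit 4) (nat_lit 337) (nat_lit 228) (nat_lit 215)) (XT.lf (nat_lit 0) (nat_lit 220341603576) (nat_lit 76) (nat_lit 121846036961) (nat_lit 76) (nat_lit 120577134131) (nat_lit 1) (nat_lit 4) (nat_lit 2) (nat_lit 5) (nat_lit 2) (nat_lit 4) (nat_lit 338) (nat_lit 228) (nat_lit 214))))) (XT.nd (nat_lit 156) (nat_lit 0) (nat_lit 0) (XT.nd (nat_lit 78) (nat_lit 0) (nat_lit 0) (XT.lf (nat_lit 0) (nat_lit 241518575256) (nat_lit 76) (nat_lit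 129745694176) (nat_lit 76) (nat_lit 128428271259) (nat_lit 1) (nat_lit 4) (nat_lit 2) (nat_lit 5) (nat_lit 2) (nat_lit 4) (nat_lit 339) (nat_lit 228) (nat_lit 213)) (XT.lf (nat_lit 0) (nat_lit 264285574736) (nat_lit 76) (nat_lit 138327021284) (nat_lit 76) (nat_lit 136964672361) (nat_lit 1) (nat_lit 4) (nat_lit 2) (nat_lit 5) (nat_lit 2) (nat_lit 4) (nat_lit 340) (nat_lit 228) (nat_lit 212))) (XT.nd (nat_lit 78) (nat_lit 0) (nat_lit 0) (XT.lf (nat_lit 0) (nat_lit 288777517570) (nat_lit 76) (nat_lit 147640870595) (nat_lit 76) (nat_lit 146236923519) (nat_lit 1) (nat_lit 4) (nat_lit 2) (nat_lit 5) (nat_lit 2) (nat_lit 4) (nat_lit 341) (nat_lit 228) (nat_lit 211)) (XT.nd (nat_lit 78) (nat_lit 0) (nat_lit 0) (XT.lf (nat_lit 0) (nat_lit 315139541196) (nat_lit 76) (nat_lit 157742435289) (nat_lit 76) (nat_lit 156299971404) (nat_lit 1) (nat_lit 4) (nat_lit 2) (nat_lit 5) (nat_lit 2) (nat_lit 4)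 (nat_lit 342) (nat_lit 228) (nat_lit 210)) (XT.lf (nat_lit 0) (nat_lit 343527865015) (nat_lit 76) (nat_lit 168691576491) (nat_lit 76) (nat_lit 167213448894) (nat_lit 1) (nat_lit 4) (nat_lit 2) (nat_lit 5) (nat_lit 2) (nat_lit 4) (nat_lit 343) (nat_lit 228) (nat_lit 209)))))) (XT.nd (nat_lit 390) (nat_lit 0) (nat_lit 0) (XT.nd (nat_lit 156) (nat_lit 0) (nat_lit 0) (XT.nd (nat_lit 78) (nat_lit 0) (nat_lit 0) (XT.lf (nat_lit 0) (nat_lit 374110716129) (nat_lit 76) (nat_lit 180553178001) (nat_lit 76) (nat_lit 179042028447) (nat_lit 1) (nat_lit 4) (nat_lit 2) (nat_lit 5) (nat_lit 2) (nat_lit 4) (nat_lit 344) (nat_lit 228) (nat_lit 208)) (XT.lf (nat_lit 0) (nat_lit 407069326250) (nat_lit 76) (nat_lit 193397530789) (nat_lit 76) (nat_lit 191855805351) (nat_lit 1) (nat_lit 4) (nat_lit 2) (nat_lit 5) (nat_lit 2) (nat_lit 4) (nat_lit 345) (nat_lit 228) (nat_lit 207))) (XT.nd (nat_lit 78) (nat_lit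 0) (nat_lit 0) (XT.lf (nat_lit 0) (nat_lit 442599005660) (nat_lit 76) (nat_lit 207300749540) (nat_lit 76) (nat_lit 205730713097) (nat_lit 1) (nat_lit 4) (nat_lit 2) (nat_lit 5) (nat_lit 2) (nat_lit 4) (nat_lit 346) (nat_lit 228) (nat_lit 206)) (XT.nd (nat_lit 78) (nat_lit 0) (nat_lit 0) (XT.lf (nat_lit 0) (nat_lit 480910300606) (nat_lit 76) (nat_lit 222345223698) (nat_lit 76) (nat_lit 220748973362) (nat_lit 1) (nat_lit 4) (nat_lit 2) (nat_lit 5) (nat_lit 2) (nat_lit 4) (nat_lit 347) (nat_lit 228) (nat_lit 205)) (XT.lf (nat_lit 0) (nat_lit 522230240985) (nat_lit 76) (nat_lit 238620105702) (nat_lit 76) (nat_lit 236999583243) (nat_lit 1) (nat_lit 4) (nat_lit 2) (nat_lit 5) (nat_lit 2) (nat_lit 4) (nat_lit 348) (nat_lit 228) (nat_lit 204))))) (XT.nd (nat_lit 38610) (nat_lit 0) (nat_lit 0) (XT.nd (nat_lit 38532) (nat_lit 0) (nat_lit 0) (XT.lf (nat_lit 0) (nat_lit 566803685703) (nat_lit 76)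 (nat_lit 256221839297) (nat_lit 76) (nat_lit 254578842651) (nat_lit 1) (nat_lit 4) (nat_lit 2) (nat_lit 5) (nat_lit 2) (nat_lit 4) (nat_lit 349) (nat_lit 228) (nat_lit 203)) (XT.lf (nat_lit 0) (nat_lit 8458019166) (nat_lit 76) (nat_lit 29852000638) (nat_lit 76) (nat_lit 29852000638) (nat_lit 1) (nat_lit 4) (nat_lit 2) (nat_lit 5) (nat_lit 2) (nat_lit 4) (nat_lit 322) (nat_lit 229) (nat_lit 229))) (XT.nd (nat_lit 78) (nat_lit 0) (nat_lit 0) (XT.lf (nat_lit 0) (nat_lit 25044011571) (nat_lit 76) (nat_lit 61080788506) (nat_lit 76) (nat_lit 60926874586) (nat_lit 1) (nat_lit 4) (nat_lit 2) (nat_lit 5) (nat_lit 2) (nat_lit 4) (nat_lit 323) (nat_lit 229) (nat_lit 228)) (XT.nd (nat_lit 78) (nat_lit 0) (nat_lit 0) (XT.lf (nat_lit 0) (nat_lit 33491904910) (nat_lit 76) (nat_lit 62725367005) (nat_lit 76) (nat_lit 62428940197) (nat_lit 1) (nat_lit 4) (nat_lit 2) (nat_lit 5) (nat_lit 2) (nat_lit 4) (nat_lit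 324) (nat_lit 229) (nat_lit 227)) (XT.lf (nat_lit 0) (nat_lit 42309779941) (nat_lit 76) (nat_lit 64647482426) (nat_lit 76) (nat_lit 64219099239) (nat_lit 1) (nat_lit 4) (nat_lit 2) (nat_lit 5) (nat_lit 2) (nat_lit 4) (nat_lit 325) (nat_lit 229) (nat_lit 226))))))) (XT.nd (nat_lit 780) (nat_lit 0) (nat_lit 0) (XT.nd (nat_lit 390) (nat_lit 0) (nat_lit 0) (XT.nd (nat_lit 156) (nat_lit 0) (nat_lit 0) (XT.nd (nat_lit 78) (nat_lit 0) (nat_lit 0) (XT.lf (nat_lit 0) (nat_lit 51549890736) (nat_lit 76) (nat_lit 66858525081) (nat_lit 76) (nat_lit 66307960062) (nat_lit 1) (nat_lit 4) (nat_lit 2) (nat_lit 5) (nat_lit 2) (nat_lit 4) (nat_lit 326) (nat_lit 229) (nat_lit 225)) (XT.lf (nat_lit 0) (nat_lit 61266993510) (nat_lit 76) (nat_lit 69371597446) (nat_lit 76) (nat_lit 68707901101) (nat_lit 1) (nat_lit 4) (nat_lit 2) (nat_lit 5) (nat_lit 2) (nat_lit 4) (nat_lit 327) (nat_lit 229) (nat_lit 224))) (XT.nd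 (nat_lit 78) (nat_lit 0) (nat_lit 0) (XT.lf (nat_lit 0) (nat_lit 71518671092) (nat_lit 76) (nat_lit 72201591800) (nat_lit 76) (nat_lit 71433144228) (nat_lit 1) (nat_lit 4) (nat_lit 2) (nat_lit 5) (nat_lit 2) (nat_lit 4) (nat_lit 328) (nat_lit 229) (nat_lit 223)) (XT.nd (nat_lit 78) (nat_lit 0) (nat_lit 0) (XT.lf (nat_lit 0) (nat_lit 82365674165) (nat_lit 76) (nat_lit 75365278482) (nat_lit 76) (nat_lit 74499839032) (nat_lit 1) (nat_lit 4) (nat_lit 2) (nat_lit 5) (nat_lit 2) (nat_lit 4) (nat_lit 329) (nat_lit 229) (nat_lit 222)) (XT.lf (nat_lit 0) (nat_lit 93872281265) (nat_lit 76) (nat_lit 78881405264) (nat_lit 76) (nat_lit 77926158520) (nat_lit 1) (nat_lit 4) (nat_lit 2) (nat_lit 5) (nat_lit 2) (nat_lit 4) (nat_lit 330) (nat_lit 229) (nat_lit 221))))) (XT.nd (nat_lit 156) (nat_lit 0) (nat_lit 0) (XT.nd (nat_lit 78) (nat_lit 0) (nat_lit 0) (XT.lf (nat_lit 0) (nat_lit 106106679695) (nat_lit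 76) (nat_lit 82770808453) (nat_lit 76) (nat_lit 81732406807) (nat_lit 1) (nat_lit 4) (nat_lit 2) (nat_lit 5) (nat_lit 2) (nat_lit 4) (nat_lit 331) (nat_lit 229) (nat_lit 220)) (XT.lf (nat_lit 0) (nat_lit 119141369592) (nat_lit 76) (nat_lit 87056536364) (nat_lit 76) (nat_lit 85941139439) (nat_lit 1) (nat_lit 4) (nat_lit 2) (nat_lit 5) (nat_lit 2) (nat_lit 4) (nat_lit 332) (nat_lit 229) (nat_lit 219))) (XT.nd (nat_lit 78) (nat_lit 0) (nat_lit 0) (XT.lf (nat_lit 0) (nat_lit 133053593563) (nat_lit 76) (nat_lit 91763985903) (nat_lit 76) (nat_lit 90577297053) (nat_lit 1) (nat_lit 4) (nat_lit 2) (nat_lit 5) (nat_lit 2) (nat_lit 4) (nat_lit 333) (nat_lit 229) (nat_lit 218)) (XT.nd (nat_lit 78) (nat_lit 0) (nat_lit 0) (XT.lf (nat_lit 0) (nat_lit 147925794418) (nat_lit 76) (nat_lit 96921053068) (nat_lit 76) (nat_lit 95668353175) (nat_lit 1) (nat_lit 4) (nat_lit 2) (nat_lit 5) (nat_lit 2) (nat_lit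 4) (nat_lit 334) (nat_lit 229) (nat_lit 217)) (XT.lf (nat_lit 0) (nat_lit 163846103716) (nat_lit 76) (nat_lit 102558298256) (nat_lit 76) (nat_lit 101244477028) (nat_lit 1) (nat_lit 4) (nat_lit 2) (nat_lit 5) (nat_lit 2) (nat_lit 4) (nat_lit 335) (nat_lit 229) (nat_lit 216)))))) (XT.nd (nat_lit 390) (nat_lit 0) (nat_lit 0) (XT.nd (nat_lit 156) (nat_lit 0) (nat_lit 0) (XT.nd (nat_lit 78) (nat_lit 0) (nat_lit 0) (XT.lf (nat_lit 0) (nat_lit 180908864033) (nat_lit 76) (nat_lit 108709127365) (nat_lit 76) (nat_lit 107338712309) (nat_lit 1) (nat_lit 4) (nat_lit 2) (nat_lit 5) (nat_lit 2) (nat_lit 4) (nat_lit 336) (nat_lit 229) (nat_lit 215)) (XT.lf (nat_lit 0) (nat_lit 199215188020) (nat_lit 76) (nat_lit 115409989753) (nat_lit 76) (nat_lit 113987173003) (nat_lit 1) (nat_lit 4) (nat_lit 2) (nat_lit 5) (nat_lit 2) (nat_lit 4) (nat_lit 337) (nat_lit 229) (nat_lit 214))) (XT.nd (nat_lit 78) (nat_lit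 0) (nat_lit 0) (XT.lf (nat_lit 0) (nat_lit 218873557598) (nat_lit 76) (nat_lit 122700594234) (nat_lit 76) (nat_lit 121229257397) (nat_lit 1) (nat_lit 4) (nat_lit 2) (nat_lit 5) (nat_lit 2) (nat_lit 4) (nat_lit 338) (nat_lit 229) (nat_lit 213)) (XT.nd (nat_lit 78) (nat_lit 0) (nat_lit 0) (XT.lf (nat_lit 0) (nat_lit 240000466809) (nat_lit 76) (nat_lit 130624144389) (nat_lit 76) (nat_lit 129107881546) (nat_lit 1) (nat_lit 4) (nat_lit 2) (nat_lit 5) (nat_lit 2) (nat_lit 4) (nat_lit 339) (nat_lit 229) (nat_lit 212)) (XT.lf (nat_lit 0) (nat_lit 262721112153) (nat_lit 76) (nat_lit 139227594590) (nat_lit 76) (nat_lit 137669733594) (nat_lit 1) (nat_lit 4) (nat_lit 2) (nat_lit 5) (nat_lit 2) (nat_lit 4) (nat_lit 340) (nat_lit 229) (nat_lit 211))))) (XT.nd (nat_lit 234) (nat_lit 0) (nat_lit 0) (XT.nd (nat_lit 78) (nat_lit 0) (nat_lit 0) (XT.lf (nat_lit 0) (nat_lit 287170134490) (nat_lit 76) (nat_lit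 148561928247) (nat_lit 76) (nat_lit 146965550441) (nat_lit 1) (nat_lit 4) (nat_lit 2) (nat_lit 5) (nat_lit 2) (nat_lit 4) (nat_lit 341) (nat_lit 229) (nat_lit 210)) (XT.nd (nat_lit 78) (nat_lit 0) (nat_lit 0) (XT.lf (nat_lit 0) (nat_lit 313492416915) (nat_lit 76) (nat_lit 158682459928) (nat_lit 76) (nat_lit 157050418410) (nat_lit 1) (nat_lit 4) (nat_lit 2) (nat_lit 5) (nat_lit 2) (nat_lit 4) (nat_lit 342) (nat_lit 229) (nat_lit 209)) (XT.lf (nat_lit 0) (nat_lit 341843943325) (nat_lit 76) (nat_lit 169649163154) (nat_lit 76) (nat_lit 167984099681) (nat_lit 1) (nat_lit 4) (nat_lit 2) (nat_lit 5) (nat_lit 2) (nat_lit 4) (nat_lit 343) (nat_lit 229) (nat_lit 208)))) (XT.nd (nat_lit 78) (nat_lit 0) (nat_lit 0) (XT.lf (nat_lit 0) (nat_lit 372392722765) (nat_lit 76) (nat_lit 181527025797) (nat_lit 76) (nat_lit 179831386439) (nat_lit 1) (nat_lit 4) (nat_lit 2) (nat_lit 5) (nat_lit 2) (nat_lit 4)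 (nat_lit 344) (nat_lit 229) (nat_lit 207)) (XT.nd (nat_lit 78) (nat_lit 0) (nat_lit 0) (XT.lf (nat_lit 0) (nat_lit 405319785039) (nat_lit 76) (nat_lit 194386435191) (nat_lit 76) (nat_lit 192662484829) (nat_lit 1) (nat_lit 4) (nat_lit 2) (nat_lit 5) (nat_lit 2) (nat_lit 4) (nat_lit 345) (nat_lit 229) (nat_lit 206)) (XT.lf (nat_lit 0) (nat_lit 440820253480) (nat_lit 76) (nat_lit 208303595243) (nat_lit 76) (nat_lit 206553430988) (nat_lit 1) (nat_lit 4) (nat_lit 2) (nat_lit 5) (nat_lit 2) (nat_lit 4) (nat_lit 346) (nat_lit 229) (nat_lit 205))))))))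
noncomputable def xc5 : XT := (XT.nd (nat_lit 39936) (nat_lit 0) (nat_lit 0) (XT.nd (nat_lit 39078) (nat_lit 0) (nat_lit 0) (XT.nd (nat_lit 38688) (nat_lit 0) (nat_lit 0) (XT.nd (nat_lit 156) (nat_lit 0) (nat_lit 0) (XT.nd (nat_lit 78) (nat_lit 0) (nat_lit 0) (XT.lf (nat_lit 0) (nat_lit 479104501232) (nat_lit 76) (nat_lit 223360978014) (nat_lit 76) (nat_lit 221586541635) (nat_lit 1) (nat_lit 4) (nat_lit 2) (nat_lit 5) (nat_lit 2) (nat_lit 4) (nat_lit 347) (nat_lit 229) (nat_lit 204)) (XT.lf (nat_lit 0) (nat_lit 520399397913) (nat_lit 76) (nat_lit 239647812437) (nat_lit 76) (nat_lit 237850901870) (nat_lit 1) (nat_lit 4) (nat_lit 2) (nat_lit 5) (nat_lit 2) (nat_lit 4) (nat_lit 348) (nat_lit 229) (nat_lit 203))) (XT.nd (nat_lit 38376) (nat_lit 0) (nat_lit 0) (XT.lf (nat_lit 0) (nat_lit 564949654022) (nat_lit 76) (nat_lit 257260613087) (nat_lit 76) (nat_lit 255442893087) (nat_lit 1) (nat_lit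 4) (nat_lit 2) (nat_lit 5) (nat_lit 2) (nat_lit 4) (nat_lit 349) (nat_lit 229) (nat_lit 202)) (XT.nd (nat_lit 78) (nat_lit 0) (nat_lit 0) (XT.lf (nat_lit 0) (nat_lit 807015761) (nat_lit 76) (nat_lit 28900263479) (nat_lit 76) (nat_lit 28900263479) (nat_lit 1) (nat_lit 4) (nat_lit 2) (nat_lit 5) (nat_lit 2) (nat_lit 4) (nat_lit 320) (nat_lit 230) (nat_lit 230)) (XT.lf (nat_lit 0) (nat_lit 9059819429) (nat_lit 76) (nat_lit 58753073612) (nat_lit 76) (nat_lit 58586846579) (nat_lit 1) (nat_lit 4) (nat_lit 2) (nat_lit 5) (nat_lit 2) (nat_lit 4) (nat_lit 321) (nat_lit 230) (nat_lit 229))))) (XT.nd (nat_lit 156) (nat_lit 0) (nat_lit 0) (XT.nd (nat_lit 78) (nat_lit 0) (nat_lit 0) (XT.lf (nat_lit 0) (nat_lit 16744527190) (nat_lit 76) (nat_lit 59952084154) (nat_lit 76) (nat_lit 59631943201) (nat_lit 1) (nat_lit 4) (nat_lit 2) (nat_lit 5) (nat_lit 2) (nat_lit 4) (nat_lit 322) (nat_lit 230) (nat_lit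 228)) (XT.lf (nat_lit 0) (nat_lit 24713693813) (nat_lit 76) (nat_lit 61404663831) (nat_lit 76) (nat_lit 60942009989) (nat_lit 1) (nat_lit 4) (nat_lit 2) (nat_lit 5) (nat_lit 2) (nat_lit 4) (nat_lit 323) (nat_lit 230) (nat_lit 227))) (XT.nd (nat_lit 78) (nat_lit 0) (nat_lit 0) (XT.lf (nat_lit 0) (nat_lit 33014543991) (nat_lit 76) (nat_lit 63119420524) (nat_lit 76) (nat_lit 62524810303) (nat_lit 1) (nat_lit 4) (nat_lit 2) (nat_lit 5) (nat_lit 2) (nat_lit 4) (nat_lit 324) (nat_lit 230) (nat_lit 226)) (XT.nd (nat_lit 78) (nat_lit 0) (nat_lit 0) (XT.lf (nat_lit 0) (nat_lit 41696267946) (nat_lit 76) (nat_lit 65106515752) (nat_lit 76) (nat_lit 64389723700) (nat_lit 1) (nat_lit 4) (nat_lit 2) (nat_lit 5) (nat_lit 2) (nat_lit 4) (nat_lit 325) (nat_lit 230) (nat_lit 225)) (XT.lf (nat_lit 0) (nat_lit 50810312931) (nat_lit 76) (nat_lit 67377724897) (nat_lit 76) (nat_lit 66547801518) (nat_lit 1) (nat_lit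 4) (nat_lit 2) (nat_lit 5) (nat_lit 2) (nat_lit 4) (nat_lit 326) (nat_lit 230) (nat_lit 224)))))) (XT.nd (nat_lit 390) (nat_lit 0) (nat_lit 0) (XT.nd (nat_lit 156) (nat_lit 0) (nat_lit 0) (XT.nd (nat_lit 78) (nat_lit 0) (nat_lit 0) (XT.lf (nat_lit 0) (nat_lit 60410688102) (nat_lit 76) (nat_lit 69946506973) (nat_lit 76) (nat_lit 69011832367) (nat_lit 1) (nat_lit 4) (nat_lit 2) (nat_lit 5) (nat_lit 2) (nat_lit 4) (nat_lit 327) (nat_lit 230) (nat_lit 223)) (XT.lf (nat_lit 0) (nat_lit 70554284571) (nat_lit 76) (nat_lit 72828084395) (nat_lit 76) (nat_lit 71796417911) (nat_lit 1) (nat_lit 4) (nat_lit 2) (nat_lit 5) (nat_lit 2) (nat_lit 4) (nat_lit 328) (nat_lit 230) (nat_lit 222))) (XT.nd (nat_lit 78) (nat_lit 0) (nat_lit 0) (XT.lf (nat_lit 0) (nat_lit 81301212538) (nat_lit 76) (nat_lit 76039533175) (nat_lit 76) (nat_lit 74918059398) (nat_lit 1) (nat_lit 4) (nat_lit 2) (nat_lit 5) (nat_lit 2)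 (nat_lit 4) (nat_lit 329) (nat_lit 230) (nat_lit 221)) (XT.nd (nat_lit 78) (nat_lit 0) (nat_lit 0) (XT.lf (nat_lit 0) (nat_lit 92715157505) (nat_lit 76) (nat_lit 79599884123) (nat_lit 76) (nat_lit 78395255444) (nat_lit 1) (nat_lit 4) (nat_lit 2) (nat_lit 5) (nat_lit 2) (nat_lit 4) (nat_lit 330) (nat_lit 230) (nat_lit 220)) (XT.lf (nat_lit 0) (nat_lit 104863757662) (nat_lit 76) (nat_lit 83530235613) (nat_lit 76) (nat_lit 82248611655) (nat_lit 1) (nat_lit 4) (nat_lit 2) (nat_lit 5) (nat_lit 2) (nat_lit 4) (nat_lit 331) (nat_lit 230) (nat_lit 219))))) (XT.nd (nat_lit 234) (nat_lit 0) (nat_lit 0) (XT.nd (nat_lit 78) (nat_lit 0) (nat_lit 0) (XT.lf (nat_lit 0) (nat_lit 117819004714) (nat_lit 76) (nat_lit 87853878618) (nat_lit 76) (nat_lit 86500962734) (nat_lit 1) (nat_lit 4) (nat_lit 2) (nat_lit 5) (nat_lit 2) (nat_lit 4) (nat_lit 332) (nat_lit 230) (nat_lit 218)) (XT.nd (nat_lit 78) (nat_lit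 0) (nat_lit 0) (XT.lf (nat_lit 0) (nat_lit 131657670496) (nat_lit 76) (nat_lit 92596434726) (nat_lit 76) (nat_lit 91177507800) (nat_lit 1) (nat_lit 4) (nat_lit 2) (nat_lit 5) (nat_lit 2) (nat_lit 4) (nat_lit 333) (nat_lit 230) (nat_lit 217)) (XT.lf (nat_lit 0) (nat_lit 146461761916) (nat_lit 76) (nat_lit 97786007972) (nat_lit 76) (nat_lit 96305959711) (nat_lit 1) (nat_lit 4) (nat_lit 2) (nat_lit 5) (nat_lit 2) (nat_lit 4) (nat_lit 334) (nat_lit 230) (nat_lit 216)))) (XT.nd (nat_lit 78) (nat_lit 0) (nat_lit 0) (XT.lf (nat_lit 0) (nat_lit 162319006923) (nat_lit 76) (nat_lit 103453351384) (nat_lit 76) (nat_lit 101916709294) (nat_lit 1) (nat_lit 4) (nat_lit 2) (nat_lit 5) (nat_lit 2) (nat_lit 4) (nat_lit 335) (nat_lit 230) (nat_lit 215)) (XT.nd (nat_lit 78) (nat_lit 0) (nat_lit 0) (XT.lf (nat_lit 0) (nat_lit 179323374376) (nat_lit 76) (nat_lit 109632049219) (nat_lit 76) (nat_lit 108043005436)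 (nat_lit 1) (nat_lit 4) (nat_lit 2) (nat_lit 5) (nat_lit 2) (nat_lit 4) (nat_lit 336) (nat_lit 230) (nat_lit 214)) (XT.lf (nat_lit 0) (nat_lit 197575630898) (nat_lit 76) (nat_lit 116358715983) (nat_lit 76) (nat_lit 114721152113) (nat_lit 1) (nat_lit 4) (nat_lit 2) (nat_lit 5) (nat_lit 2) (nat_lit 4) (nat_lit 337) (nat_lit 230) (nat_lit 213))))))) (XT.nd (nat_lit 780) (nat_lit 0) (nat_lit 0) (XT.nd (nat_lit 390) (nat_lit 0) (nat_lit 0) (XT.nd (nat_lit 156) (nat_lit 0) (nat_lit 0) (XT.nd (nat_lit 78) (nat_lit 0) (nat_lit 0) (XT.lf (nat_lit 0) (nat_lit 217183938008) (nat_lit 76) (nat_lit 123673213404) (nat_lit 76) (nat_lit 121990723528) (nat_lit 1) (nat_lit 4) (nat_lit 2) (nat_lit 5) (nat_lit 2) (nat_lit 4) (nat_lit 338) (nat_lit 230) (nat_lit 212)) (XT.lf (nat_lit 0) (nat_lit 238264493083) (nat_lit 76) (nat_lit 131618886653) (nat_lit 76) (nat_lit 129894798623) (nat_lit 1) (nat_lit 4) (nat_lit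 2) (nat_lit 5) (nat_lit 2) (nat_lit 4) (nat_lit 339) (nat_lit 230) (nat_lit 211))) (XT.nd (nat_lit 78) (nat_lit 0) (nat_lit 0) (XT.lf (nat_lit 0) (nat_lit 260942217929) (nat_lit 76) (nat_lit 140242821200) (nat_lit 76) (nat_lit 138480216361) (nat_lit 1) (nat_lit 4) (nat_lit 2) (nat_lit 5) (nat_lit 2) (nat_lit 4) (nat_lit 340) (nat_lit 230) (nat_lit 210)) (XT.nd (nat_lit 78) (nat_lit 0) (nat_lit 0) (XT.lf (nat_lit 0) (nat_lit 285351499065) (nat_lit 76) (nat_lit 149596121843) (nat_lit 76) (nat_lit 147797853292) (nat_lit 1) (nat_lit 4) (nat_lit 2) (nat_lit 5) (nat_lit 2) (nat_lit 4) (nat_lit 341) (nat_lit 230) (nat_lit 209)) (XT.lf (nat_lit 0) (nat_lit 311636984082) (nat_lit 76) (nat_lit 159734215548) (nat_lit 76) (nat_lit 157902925042) (nat_lit 1) (nat_lit 4) (nat_lit 2) (nat_lit 5) (nat_lit 2) (nat_lit 4) (nat_lit 342) (nat_lit 230) (nat_lit 208))))) (XT.nd (nat_lit 156) (nat_lit 0) (nat_lit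 0) (XT.nd (nat_lit 78) (nat_lit 0) (nat_lit 0) (XT.lf (nat_lit 0) (nat_lit 339954438818) (nat_lit 76) (nat_lit 170717179908) (nat_lit 76) (nat_lit 168855313517) (nat_lit 1) (nat_lit 4) (nat_lit 2) (nat_lit 5) (nat_lit 2) (nat_lit 4) (nat_lit 343) (nat_lit 230) (nat_lit 207)) (XT.lf (nat_lit 0) (nat_lit 370471670411) (nat_lit 76) (nat_lit 182610099157) (nat_lit 76) (nat_lit 180719921761) (nat_lit 1) (nat_lit 4) (nat_lit 2) (nat_lit 5) (nat_lit 2) (nat_lit 4) (nat_lit 344) (nat_lit 230) (nat_lit 206))) (XT.nd (nat_lit 78) (nat_lit 0) (nat_lit 0) (XT.lf (nat_lit 0) (nat_lit 403369521716) (nat_lit 76) (nat_lit 195483449852) (nat_lit 76) (nat_lit 193567058564) (nat_lit 1) (nat_lit 4) (nat_lit 2) (nat_lit 5) (nat_lit 2) (nat_lit 4) (nat_lit 345) (nat_lit 230) (nat_lit 205)) (XT.nd (nat_lit 78) (nat_lit 0) (nat_lit 0) (XT.lf (nat_lit 0) (nat_lit 438842942962) (nat_lit 76) (nat_lit 209413518517)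 (nat_lit 76) (nat_lit 207472855105) (nat_lit 1) (nat_lit 4) (nat_lit 2) (nat_lit 5) (nat_lit 2) (nat_lit 4) (nat_lit 346) (nat_lit 230) (nat_lit 204)) (XT.lf (nat_lit 0) (nat_lit 477102147017) (nat_lit 76) (nat_lit 224482853706) (nat_lit 76) (nat_lit 222519716106) (nat_lit 1) (nat_lit 4) (nat_lit 2) (nat_lit 5) (nat_lit 2) (nat_lit 4) (nat_lit 347) (nat_lit 230) (nat_lit 203)))))) (XT.nd (nat_lit 38532) (nat_lit 0) (nat_lit 0) (XT.nd (nat_lit 38298) (nat_lit 0) (nat_lit 0) (XT.nd (nat_lit 78) (nat_lit 0) (nat_lit 0) (XT.lf (nat_lit 0) (nat_lit 518373855089) (nat_lit 76) (nat_lit 240780755183) (nat_lit 76) (nat_lit 238796808150) (nat_lit 1) (nat_lit 4) (nat_lit 2) (nat_lit 5) (nat_lit 2) (nat_lit 4) (nat_lit 348) (nat_lit 230) (nat_lit 202)) (XT.lf (nat_lit 0) (nat_lit 562902640263) (nat_lit 76) (nat_lit 258403803106) (nat_lit 76) (nat_lit 256400588079) (nat_lit 1) (nat_lit 4) (nat_lit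 2) (nat_lit 5) (nat_lit 2) (nat_lit 4) (nat_lit 349) (nat_lit 230) (nat_lit 201))) (XT.nd (nat_lit 78) (nat_lit 76) (nat_lit 0) (XT.lf (nat_lit 0) (nat_lit 22178686370) (nat_lit 152) (nat_lit 6067419960) (nat_lit 0) (nat_lit 22178686370) (nat_lit 2) (nat_lit 5) (nat_lit 4) (nat_lit 4) (nat_lit 2) (nat_lit 4) (nat_lit 318) (nat_lit 231) (nat_lit 231)) (XT.nd (nat_lit 78) (nat_lit 76) (nat_lit 0) (XT.lf (nat_lit 0) (nat_lit 51719373689) (nat_lit 152) (nat_lit 5456541803) (nat_lit 0) (nat_lit 51539848493) (nat_lit 2) (nat_lit 5) (nat_lit 4) (nat_lit 4) (nat_lit 2) (nat_lit 4) (nat_lit 319) (nat_lit 231) (nat_lit 230)) (XT.lf (nat_lit 0) (nat_lit 1428799487) (nat_lit 76) (nat_lit 58068456466) (nat_lit 76) (nat_lit 57722704237) (nat_lit 1) (nat_lit 4) (nat_lit 2) (nat_lit 5) (nat_lit 2) (nat_lit 4) (nat_lit 320) (nat_lit 231) (nat_lit 229))))) (XT.nd (nat_lit 234) (nat_lit 0) (nat_lit 0) (XT.nd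 (nat_lit 78) (nat_lit 0) (nat_lit 0) (XT.lf (nat_lit 0) (nat_lit 8703076250) (nat_lit 76) (nat_lit 59102858964) (nat_lit 76) (nat_lit 58603192815) (nat_lit 1) (nat_lit 4) (nat_lit 2) (nat_lit 5) (nat_lit 2) (nat_lit 4) (nat_lit 321) (nat_lit 231) (nat_lit 228)) (XT.nd (nat_lit 78) (nat_lit 0) (nat_lit 0) (XT.lf (nat_lit 0) (nat_lit 16228977397) (nat_lit 76) (nat_lit 60377661954) (nat_lit 76) (nat_lit 59735482916) (nat_lit 1) (nat_lit 4) (nat_lit 2) (nat_lit 5) (nat_lit 2) (nat_lit 4) (nat_lit 322) (nat_lit 231) (nat_lit 227)) (XT.lf (nat_lit 0) (nat_lit 24051100859) (nat_lit 76) (nat_lit 61900419824) (nat_lit 76) (nat_lit 61126284407) (nat_lit 1) (nat_lit 4) (nat_lit 2) (nat_lit 5) (nat_lit 2) (nat_lit 4) (nat_lit 323) (nat_lit 231) (nat_lit 226)))) (XT.nd (nat_lit 78) (nat_lit 0) (nat_lit 0) (XT.lf (nat_lit 0) (nat_lit 32215799961) (nat_lit 76) (nat_lit 63680156325) (nat_lit 76) (nat_lit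 62783839076) (nat_lit 1) (nat_lit 4) (nat_lit 2) (nat_lit 5) (nat_lit 2) (nat_lit 4) (nat_lit 324) (nat_lit 231) (nat_lit 225)) (XT.nd (nat_lit 78) (nat_lit 0) (nat_lit 0) (XT.lf (nat_lit 0) (nat_lit 40771458105) (nat_lit 76) (nat_lit 65727418042) (nat_lit 76) (nat_lit 64717969468) (nat_lit 1) (nat_lit 4) (nat_lit 2) (nat_lit 5) (nat_lit 2) (nat_lit 4) (nat_lit 325) (nat_lit 231) (nat_lit 224)) (XT.lf (nat_lit 0) (nat_lit 49768775488) (nat_lit 76) (nat_lit 68054336898) (nat_lit 76) (nat_lit 66940137096) (nat_lit 1) (nat_lit 4) (nat_lit 2) (nat_lit 5) (nat_lit 2) (nat_lit 4) (nat_lit 326) (nat_lit 231) (nat_lit 223))))))))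
noncomputable def xc6 : XT := (XT.nd (nat_lit 1560) (nat_lit 0) (nat_lit 0) (XT.nd (nat_lit 780) (nat_lit 0) (nat_lit 0) (XT.nd (nat_lit 390) (nat_lit 0) (nat_lit 0) (XT.nd (nat_lit 156) (nat_lit 0) (nat_lit 0) (XT.nd (nat_lit 78) (nat_lit 0) (nat_lit 0) (XT.lf (nat_lit 0) (nat_lit 59261069545) (nat_lit 76) (nat_lit 70674702042) (nat_lit 76) (nat_lit 69463510362) (nat_lit 1) (nat_lit 4) (nat_lit 2) (nat_lit 5) (nat_lit 2) (nat_lit 4) (nat_lit 327) (nat_lit 231) (nat_lit 222)) (XT.lf (nat_lit 0) (nat_lit 69304590909) (nat_lit 76) (nat_lit 73604041562) (nat_lit 76) (nat_lit 72303042589) (nat_lit 1) (nat_lit 4) (nat_lit 2) (nat_lit 5) (nat_lit 2) (nat_lit 4) (nat_lit 328) (nat_lit 231) (nat_lit 221))) (XT.nd (nat_lit 78) (nat_lit 0) (nat_lit 0) (XT.lf (nat_lit 0) (nat_lit 79958856743) (nat_lit 76) (nat_lit 76859714508) (nat_lit 76) (nat_lit 75475560633) (nat_lit 1) (nat_lit 4) (nat_lit 2)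 (nat_lit 5) (nat_lit 2) (nat_lit 4) (nat_lit 329) (nat_lit 231) (nat_lit 220)) (XT.nd (nat_lit 78) (nat_lit 0) (nat_lit 0) (XT.lf (nat_lit 0) (nat_lit 91287003437) (nat_lit 76) (nat_lit 80461013757) (nat_lit 76) (nat_lit 78999864603) (nat_lit 1) (nat_lit 4) (nat_lit 2) (nat_lit 5) (nat_lit 2) (nat_lit 4) (nat_lit 330) (nat_lit 231) (nat_lit 219)) (XT.lf (nat_lit 0) (nat_lit 103356160749) (nat_lit 76) (nat_lit 84429280341) (nat_lit 76) (nat_lit 82896839261) (nat_lit 1) (nat_lit 4) (nat_lit 2) (nat_lit 5) (nat_lit 2) (nat_lit 4) (nat_lit 331) (nat_lit 231) (nat_lit 218))))) (XT.nd (nat_lit 156) (nat_lit 0) (nat_lit 0) (XT.nd (nat_lit 78) (nat_lit 0) (nat_lit 0) (XT.lf (nat_lit 0) (nat_lit 116237849611) (nat_lit 76) (nat_lit 88788029915) (nat_lit 76) (nat_lit 87189577793) (nat_lit 1) (nat_lit 4) (nat_lit 2) (nat_lit 5) (nat_lit 2) (nat_lit 4) (nat_lit 332) (nat_lit 231) (nat_lit 217)) (XT.lf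 (nat_lit 0) (nat_lit 130008405958) (nat_lit 76) (nat_lit 93563092104) (nat_lit 76) (nat_lit 91903518647) (nat_lit 1) (nat_lit 4) (nat_lit 2) (nat_lit 5) (nat_lit 2) (nat_lit 4) (nat_lit 333) (nat_lit 231) (nat_lit 216))) (XT.nd (nat_lit 78) (nat_lit 0) (nat_lit 0) (XT.lf (nat_lit 0) (nat_lit 144749433087) (nat_lit 76) (nat_lit 98782763575) (nat_lit 76) (nat_lit 97066596289) (nat_lit 1) (nat_lit 4) (nat_lit 2) (nat_lit 5) (nat_lit 2) (nat_lit 4) (nat_lit 334) (nat_lit 231) (nat_lit 215)) (XT.nd (nat_lit 78) (nat_lit 0) (nat_lit 0) (XT.lf (nat_lit 0) (nat_lit 160548285231) (nat_lit 76) (nat_lit 104477975713) (nat_lit 76) (nat_lit 102709406733) (nat_lit 1) (nat_lit 4) (nat_lit 2) (nat_lit 5) (nat_lit 2) (nat_lit 4) (nat_lit 335) (nat_lit 231) (nat_lit 214)) (XT.lf (nat_lit 0) (nat_lit 177498585219) (nat_lit 76) (nat_lit 110682477924) (nat_lit 76) (nat_lit 108865388858) (nat_lit 1) (nat_lit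 4) (nat_lit 2) (nat_lit 5) (nat_lit 2) (nat_lit 4) (nat_lit 336) (nat_lit 231) (nat_lit 213)))))) (XT.nd (nat_lit 390) (nat_lit 0) (nat_lit 0) (XT.nd (nat_lit 156) (nat_lit 0) (nat_lit 0) (XT.nd (nat_lit 78) (nat_lit 0) (nat_lit 0) (XT.lf (nat_lit 0) (nat_lit 195700779273) (nat_lit 76) (nat_lit 117433037628) (nat_lit 76) (nat_lit 115571022556) (nat_lit 1) (nat_lit 4) (nat_lit 2) (nat_lit 5) (nat_lit 2) (nat_lit 4) (nat_lit 337) (nat_lit 231) (nat_lit 212)) (XT.lf (nat_lit 0) (nat_lit 215262732247) (nat_lit 76) (nat_lit 124769658142) (nat_lit 76) (nat_lit 122866044916) (nat_lit 1) (nat_lit 4) (nat_lit 2) (nat_lit 5) (nat_lit 2) (nat_lit 4) (nat_lit 338) (nat_lit 231) (nat_lit 211))) (XT.nd (nat_lit 78) (nat_lit 0) (nat_lit 0) (XT.lf (nat_lit 0) (nat_lit 236300366824) (nat_lit 76) (nat_lit 132735815736) (nat_lit 76) (nat_lit 130793685701) (nat_lit 1) (nat_lit 4) (nat_lit 2) (nat_lit 5) (nat_lit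 2) (nat_lit 4) (nat_lit 339) (nat_lit 231) (nat_lit 210)) (XT.nd (nat_lit 78) (nat_lit 0) (nat_lit 0) (XT.lf (nat_lit 0) (nat_lit 258938350469) (nat_lit 76) (nat_lit 141378717270) (nat_lit 76) (nat_lit 139400923523) (nat_lit 1) (nat_lit 4) (nat_lit 2) (nat_lit 5) (nat_lit 2) (nat_lit 4) (nat_lit 340) (nat_lit 231) (nat_lit 209)) (XT.lf (nat_lit 0) (nat_lit 283310834197) (nat_lit 76) (nat_lit 150749579937) (nat_lit 76) (nat_lit 148738764235) (nat_lit 1) (nat_lit 4) (nat_lit 2) (nat_lit 5) (nat_lit 2) (nat_lit 4) (nat_lit 341) (nat_lit 231) (nat_lit 208))))) (XT.nd (nat_lit 156) (nat_lit 0) (nat_lit 0) (XT.nd (nat_lit 78) (nat_lit 0) (nat_lit 0) (XT.lf (nat_lit 0) (nat_lit 309562247539) (nat_lit 76) (nat_lit 160903934777) (nat_lit 76) (nat_lit 158862543189) (nat_lit 1) (nat_lit 4) (nat_lit 2) (nat_lit 5) (nat_lit 2) (nat_lit 4) (nat_lit 342) (nat_lit 231) (nat_lit 207)) (XT.lf (nat_lit 0)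 (nat_lit 337848154428) (nat_lit 76) (nat_lit 171901955743) (nat_lit 76) (nat_lit 169832253151) (nat_lit 1) (nat_lit 4) (nat_lit 2) (nat_lit 5) (nat_lit 2) (nat_lit 4) (nat_lit 343) (nat_lit 231) (nat_lit 206))) (XT.nd (nat_lit 78) (nat_lit 0) (nat_lit 0) (XT.lf (nat_lit 0) (nat_lit 368336175052) (nat_lit 76) (nat_lit 183808816292) (nat_lit 76) (nat_lit 181712899808) (nat_lit 1) (nat_lit 4) (nat_lit 2) (nat_lit 5) (nat_lit 2) (nat_lit 4) (nat_lit 344) (nat_lit 231) (nat_lit 205)) (XT.nd (nat_lit 78) (nat_lit 0) (nat_lit 0) (XT.lf (nat_lit 0) (nat_lit 401206979164) (nat_lit 76) (nat_lit 196695075600) (nat_lit 76) (nat_lit 194574886992) (nat_lit 1) (nat_lit 4) (nat_lit 2) (nat_lit 5) (nat_lit 2) (nat_lit 4) (nat_lit 345) (nat_lit 231) (nat_lit 204)) (XT.lf (nat_lit 0) (nat_lit 436655356712) (nat_lit 76) (nat_lit 210637096684) (nat_lit 76) (nat_lit 208494433887) (nat_lit 1) (nat_lit 4) (nat_lit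 2) (nat_lit 5) (nat_lit 2) (nat_lit 4) (nat_lit 346) (nat_lit 231) (nat_lit 203))))))) (XT.nd (nat_lit 38766) (nat_lit 0) (nat_lit 0) (XT.nd (nat_lit 38376) (nat_lit 0) (nat_lit 0) (XT.nd (nat_lit 156) (nat_lit 0) (nat_lit 0) (XT.nd (nat_lit 78) (nat_lit 0) (nat_lit 0) (XT.lf (nat_lit 0) (nat_lit 474891372158) (nat_lit 76) (nat_lit 225717498927) (nat_lit 76) (nat_lit 223554026697) (nat_lit 1) (nat_lit 4) (nat_lit 2) (nat_lit 5) (nat_lit 2) (nat_lit 4) (nat_lit 347) (nat_lit 231) (nat_lit 202)) (XT.lf (nat_lit 0) (nat_lit 516141609295) (nat_lit 76) (nat_lit 242025647677) (nat_lit 76) (nat_lit 239842907454) (nat_lit 1) (nat_lit 4) (nat_lit 2) (nat_lit 5) (nat_lit 2) (nat_lit 4) (nat_lit 348) (nat_lit 231) (nat_lit 201))) (XT.nd (nat_lit 38064) (nat_lit 0) (nat_lit 76) (XT.lf (nat_lit 0) (nat_lit 560650513975) (nat_lit 76) (nat_lit 259658183815) (nat_lit 76) (nat_lit 257457602857) (nat_lit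 1) (nat_lit 4) (nat_lit 2) (nat_lit 5) (nat_lit 2) (nat_lit 4) (nat_lit 349) (nat_lit 231) (nat_lit 200)) (XT.nd (nat_lit 78) (nat_lit 0) (nat_lit 0) (XT.lf (nat_lit 0) (nat_lit 15472556511) (nat_lit 152) (nat_lit 12477968799) (nat_lit 0) (nat_lit 15472556511) (nat_lit 2) (nat_lit 5) (nat_lit 4) (nat_lit 4) (nat_lit 2) (nat_lit 4) (nat_lit 316) (nat_lit 232) (nat_lit 232)) (XT.lf (nat_lit 0) (nat_lit 37539206084) (nat_lit 152) (nat_lit 18691400471) (nat_lit 0) (nat_lit 37345318873) (nat_lit 2) (nat_lit 5) (nat_lit 4) (nat_lit 4) (nat_lit 2) (nat_lit 4) (nat_lit 317) (nat_lit 232) (nat_lit 231))))) (XT.nd (nat_lit 156) (nat_lit 76) (nat_lit 0) (XT.nd (nat_lit 78) (nat_lit 0) (nat_lit 0) (XT.lf (nat_lit 0) (nat_lit 44449809361) (nat_lit 152) (nat_lit 12328487650) (nat_lit 0) (nat_lit 44076396953) (nat_lit 2) (nat_lit 5) (nat_lit 4) (nat_lit 4) (nat_lit 2) (nat_lit 4) (nat_lit 318) (nat_lit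 232) (nat_lit 230)) (XT.lf (nat_lit 0) (nat_lit 51717874577) (nat_lit 152) (nat_lit 5829492986) (nat_lit 0) (nat_lit 51178235136) (nat_lit 2) (nat_lit 5) (nat_lit 4) (nat_lit 4) (nat_lit 2) (nat_lit 4) (nat_lit 319) (nat_lit 232) (nat_lit 229))) (XT.nd (nat_lit 78) (nat_lit 0) (nat_lit 0) (XT.lf (nat_lit 0) (nat_lit 872005710) (nat_lit 76) (nat_lit 58528080490) (nat_lit 76) (nat_lit 57834527129) (nat_lit 1) (nat_lit 4) (nat_lit 2) (nat_lit 5) (nat_lit 2) (nat_lit 4) (nat_lit 320) (nat_lit 232) (nat_lit 228)) (XT.nd (nat_lit 78) (nat_lit 0) (nat_lit 0) (XT.lf (nat_lit 0) (nat_lit 7987475859) (nat_lit 76) (nat_lit 59638275436) (nat_lit 76) (nat_lit 58802209186) (nat_lit 1) (nat_lit 4) (nat_lit 2) (nat_lit 5) (nat_lit 2) (nat_lit 4) (nat_lit 321) (nat_lit 232) (nat_lit 227)) (XT.lf (nat_lit 0) (nat_lit 15366333844) (nat_lit 76) (nat_lit 60983256619) (nat_lit 76) (nat_lit 60015233990) (nat_lit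 1) (nat_lit 4) (nat_lit 2) (nat_lit 5) (nat_lit 2) (nat_lit 4) (nat_lit 322) (nat_lit 232) (nat_lit 226)))))) (XT.nd (nat_lit 390) (nat_lit 0) (nat_lit 0) (XT.nd (nat_lit 156) (nat_lit 0) (nat_lit 0) (XT.nd (nat_lit 78) (nat_lit 0) (nat_lit 0) (XT.lf (nat_lit 0) (nat_lit 23052306231) (nat_lit 76) (nat_lit 62570994297) (nat_lit 76) (nat_lit 61480789837) (nat_lit 1) (nat_lit 4) (nat_lit 2) (nat_lit 5) (nat_lit 2) (nat_lit 4) (nat_lit 323) (nat_lit 232) (nat_lit 225)) (XT.lf (nat_lit 0) (nat_lit 31090939522) (nat_lit 76) (nat_lit 64410897287) (nat_lit 76) (nat_lit 63207561500) (nat_lit 1) (nat_lit 4) (nat_lit 2) (nat_lit 5) (nat_lit 2) (nat_lit 4) (nat_lit 324) (nat_lit 232) (nat_lit 224))) (XT.nd (nat_lit 78) (nat_lit 0) (nat_lit 0) (XT.lf (nat_lit 0) (nat_lit 39529870064) (nat_lit 76) (nat_lit 66513868716) (nat_lit 76) (nat_lit 65205781702) (nat_lit 1) (nat_lit 4) (nat_lit 2) (nat_lit 5)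 (nat_lit 2) (nat_lit 4) (nat_lit 325) (nat_lit 232) (nat_lit 223)) (XT.nd (nat_lit 78) (nat_lit 0) (nat_lit 0) (XT.lf (nat_lit 0) (nat_lit 48419106333) (nat_lit 76) (nat_lit 68892370639) (nat_lit 76) (nat_lit 67487291748) (nat_lit 1) (nat_lit 4) (nat_lit 2) (nat_lit 5) (nat_lit 2) (nat_lit 4) (nat_lit 326) (nat_lit 232) (nat_lit 222)) (XT.lf (nat_lit 0) (nat_lit 57811325286) (nat_lit 76) (nat_lit 71560497881) (nat_lit 76) (nat_lit 70065611696) (nat_lit 1) (nat_lit 4) (nat_lit 2) (nat_lit 5) (nat_lit 2) (nat_lit 4) (nat_lit 327) (nat_lit 232) (nat_lit 221))))) (XT.nd (nat_lit 234) (nat_lit 0) (nat_lit 0) (XT.nd (nat_lit 78) (nat_lit 0) (nat_lit 0) (XT.lf (nat_lit 0) (nat_lit 67762184516) (nat_lit 76) (nat_lit 74534061567) (nat_lit 76) (nat_lit 72956020480) (nat_lit 1) (nat_lit 4) (nat_lit 2) (nat_lit 5) (nat_lit 2) (nat_lit 4) (nat_lit 328) (nat_lit 232) (nat_lit 220)) (XT.nd (nat_lit 78)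 (nat_lit 0) (nat_lit 0) (XT.lf (nat_lit 0) (nat_lit 78330652077) (nat_lit 76) (nat_lit 77830682815) (nat_lit 76) (nat_lit 76175646448) (nat_lit 1) (nat_lit 4) (nat_lit 2) (nat_lit 5) (nat_lit 2) (nat_lit 4) (nat_lit 329) (nat_lit 232) (nat_lit 219)) (XT.lf (nat_lit 0) (nat_lit 89579355926) (nat_lit 76) (nat_lit 81469897158) (nat_lit 76) (nat_lit 79743568866) (nat_lit 1) (nat_lit 4) (nat_lit 2) (nat_lit 5) (nat_lit 2) (nat_lit 4) (nat_lit 330) (nat_lit 232) (nat_lit 218)))) (XT.nd (nat_lit 78) (nat_lit 0) (nat_lit 0) (XT.lf (nat_lit 0) (nat_lit 101574955048) (nat_lit 76) (nat_lit 85473270310) (nat_lit 76) (nat_lit 83680930976) (nat_lit 1) (nat_lit 4) (nat_lit 2) (nat_lit 5) (nat_lit 2) (nat_lit 4) (nat_lit 331) (nat_lit 232) (nat_lit 217)) (XT.nd (nat_lit 78) (nat_lit 0) (nat_lit 0) (XT.lf (nat_lit 0) (nat_lit 114388534476) (nat_lit 76) (nat_lit 89864525965) (nat_lit 76) (nat_lit 88011065296)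 (nat_lit 1) (nat_lit 4) (nat_lit 2) (nat_lit 5) (nat_lit 2) (nat_lit 4) (nat_lit 332) (nat_lit 232) (nat_lit 216)) (XT.lf (nat_lit 0) (nat_lit 128096026531) (nat_lit 76) (nat_lit 94669686379) (nat_lit 76) (nat_lit 92759631881) (nat_lit 1) (nat_lit 4) (nat_lit 2) (nat_lit 5) (nat_lit 2) (nat_lit 4) (nat_lit 333) (nat_lit 232) (nat_lit 215))))))))
noncomputable def xc7 : XT := (XT.nd (nat_lit 39468) (nat_lit 0) (nat_lit 0) (XT.nd (nat_lit 780) (nat_lit 0) (nat_lit 0) (XT.nd (nat_lit 390) (nat_lit 0) (nat_lit 0) (XT.nd (nat_lit 156) (nat_lit 0) (nat_lit 0) (XT.nd (nat_lit 78) (nat_lit 0) (nat_lit 0) (XT.lf (nat_lit 0) (nat_lit 142778660797) (nat_lit 76) (nat_lit 99917226575) (nat_lit 76) (nat_lit 97954770384) (nat_lit 1) (nat_lit 4) (nat_lit 2) (nat_lit 5) (nat_lit 2) (nat_lit 4) (nat_lit 334) (nat_lit 232) (nat_lit 214)) (XT.lf (nat_lit 0) (nat_lit 158523445476) (nat_lit 76) (nat_lit 105638243089)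 (nat_lit 76) (nat_lit 103627266811) (nat_lit 1) (nat_lit 4) (nat_lit 2) (nat_lit 5) (nat_lit 2) (nat_lit 4) (nat_lit 335) (nat_lit 232) (nat_lit 213))) (XT.nd (nat_lit 78) (nat_lit 0) (nat_lit 0) (XT.lf (nat_lit 0) (nat_lit 175423682997) (nat_lit 76) (nat_lit 111866638241) (nat_lit 76) (nat_lit 109810735957) (nat_lit 1) (nat_lit 4) (nat_lit 2) (nat_lit 5) (nat_lit 2) (nat_lit 4) (nat_lit 336) (nat_lit 232) (nat_lit 212)) (XT.nd (nat_lit 78) (nat_lit 0) (nat_lit 0) (XT.lf (nat_lit 0) (nat_lit 193579522914) (nat_lit 76) (nat_lit 118639321038) (nat_lit 76) (nat_lit 116541820600) (nat_lit 1) (nat_lit 4) (nat_lit 2) (nat_lit 5) (nat_lit 2) (nat_lit 4) (nat_lit 337) (nat_lit 232) (nat_lit 211)) (XT.lf (nat_lit 0) (nat_lit 213098555390) (nat_lit 76) (nat_lit 125996425898) (nat_lit 76) (nat_lit 123860408651) (nat_lit 1) (nat_lit 4) (nat_lit 2) (nat_lit 5) (nat_lit 2) (nat_lit 4) (nat_lit 338)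 (nat_lit 232) (nat_lit 210))))) (XT.nd (nat_lit 156) (nat_lit 0) (nat_lit 0) (XT.nd (nat_lit 78) (nat_lit 0) (nat_lit 0) (XT.lf (nat_lit 0) (nat_lit 234096448766) (nat_lit 76) (nat_lit 133981550478) (nat_lit 76) (nat_lit 131809869520) (nat_lit 1) (nat_lit 4) (nat_lit 2) (nat_lit 5) (nat_lit 2) (nat_lit 4) (nat_lit 339) (nat_lit 232) (nat_lit 209)) (XT.lf (nat_lit 0) (nat_lit 256697635003) (nat_lit 76) (nat_lit 142642014037) (nat_lit 76) (nat_lit 140437311122) (nat_lit 1) (nat_lit 4) (nat_lit 2) (nat_lit 5) (nat_lit 2) (nat_lit 4) (nat_lit 340) (nat_lit 232) (nat_lit 208))) (XT.nd (nat_lit 78) (nat_lit 0) (nat_lit 0) (XT.lf (nat_lit 0) (nat_lit 281036047056) (nat_lit 76) (nat_lit 152029137838) (nat_lit 76) (nat_lit 149793859039) (nat_lit 1) (nat_lit 4) (nat_lit 2) (nat_lit 5) (nat_lit 2) (nat_lit 4) (nat_lit 341) (nat_lit 232) (nat_lit 207)) (XT.nd (nat_lit 78) (nat_lit 0) (nat_lit 0) (XT.lf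 (nat_lit 0) (nat_lit 307255912552) (nat_lit 76) (nat_lit 162198549283) (nat_lit 76) (nat_lit 159934959479) (nat_lit 1) (nat_lit 4) (nat_lit 2) (nat_lit 5) (nat_lit 2) (nat_lit 4) (nat_lit 342) (nat_lit 232) (nat_lit 206)) (XT.lf (nat_lit 0) (nat_lit 335512608472) (nat_lit 76) (nat_lit 173210511550) (nat_lit 76) (nat_lit 170920707853) (nat_lit 1) (nat_lit 4) (nat_lit 2) (nat_lit 5) (nat_lit 2) (nat_lit 4) (nat_lit 343) (nat_lit 232) (nat_lit 205)))))) (XT.nd (nat_lit 390) (nat_lit 0) (nat_lit 0) (XT.nd (nat_lit 156) (nat_lit 0) (nat_lit 0) (XT.nd (nat_lit 78) (nat_lit 0) (nat_lit 0) (XT.lf (nat_lit 0) (nat_lit 365973581902) (nat_lit 76) (nat_lit 185130280712) (nat_lit 76) (nat_lit 182816204892) (nat_lit 1) (nat_lit 4) (nat_lit 2) (nat_lit 5) (nat_lit 2) (nat_lit 4) (nat_lit 344) (nat_lit 232) (nat_lit 204)) (XT.lf (nat_lit 0) (nat_lit 398819342315) (nat_lit 76) (nat_lit 198028492439) (nat_lit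 76) (nat_lit 195691942431) (nat_lit 1) (nat_lit 4) (nat_lit 2) (nat_lit 5) (nat_lit 2) (nat_lit 4) (nat_lit 345) (nat_lit 232) (nat_lit 203))) (XT.nd (nat_lit 78) (nat_lit 0) (nat_lit 0) (XT.lf (nat_lit 0) (nat_lit 434244531255) (nat_lit 76) (nat_lit 211981580577) (nat_lit 76) (nat_lit 209624221135) (nat_lit 1) (nat_lit 4) (nat_lit 2) (nat_lit 5) (nat_lit 2) (nat_lit 4) (nat_lit 346) (nat_lit 232) (nat_lit 202)) (XT.nd (nat_lit 78) (nat_lit 0) (nat_lit 0) (XT.lf (nat_lit 0) (nat_lit 472459075766) (nat_lit 76) (nat_lit 227072230093) (nat_lit 76) (nat_lit 224695602658) (nat_lit 1) (nat_lit 4) (nat_lit 2) (nat_lit 5) (nat_lit 2) (nat_lit 4) (nat_lit 347) (nat_lit 232) (nat_lit 201)) (XT.lf (nat_lit 0) (nat_lit 513689432409) (nat_lit 76) (nat_lit 243389867059) (nat_lit 76) (nat_lit 240995398888) (nat_lit 1) (nat_lit 4) (nat_lit 2) (nat_lit 5) (nat_lit 2) (nat_lit 4) (nat_lit 348) (nat_lit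 232) (nat_lit 200))))) (XT.nd (nat_lit 38064) (nat_lit 0) (nat_lit 76) (XT.nd (nat_lit 37908) (nat_lit 0) (nat_lit 76) (XT.lf (nat_lit 0) (nat_lit 558179929223) (nat_lit 76) (nat_lit 261031188582) (nat_lit 76) (nat_lit 258620201212) (nat_lit 1) (nat_lit 4) (nat_lit 2) (nat_lit 5) (nat_lit 2) (nat_lit 4) (nat_lit 349) (nat_lit 232) (nat_lit 199)) (XT.nd (nat_lit 78) (nat_lit 0) (nat_lit 0) (XT.lf (nat_lit 0) (nat_lit 9439763666) (nat_lit 152) (nat_lit 18556071909) (nat_lit 0) (nat_lit 9439763666) (nat_lit 2) (nat_lit 5) (nat_lit 4) (nat_lit 4) (nat_lit 2) (nat_lit 4) (nat_lit 314) (nat_lit 233) (nat_lit 233)) (XT.lf (nat_lit 0) (nat_lit 24837852260) (nat_lit 152) (nat_lit 31159222217) (nat_lit 0) (nat_lit 24628454071) (nat_lit 2) (nat_lit 5) (nat_lit 4) (nat_lit 4) (nat_lit 2) (nat_lit 4) (nat_lit 315) (nat_lit 233) (nat_lit 232)))) (XT.nd (nat_lit 78) (nat_lit 0) (nat_lit 0) (XT.lf (nat_lit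 0) (nat_lit 31044944574) (nat_lit 152) (nat_lit 25165077147) (nat_lit 0) (nat_lit 30641659173) (nat_lit 2) (nat_lit 5) (nat_lit 4) (nat_lit 4) (nat_lit 2) (nat_lit 4) (nat_lit 316) (nat_lit 233) (nat_lit 231)) (XT.nd (nat_lit 78) (nat_lit 0) (nat_lit 0) (XT.lf (nat_lit 0) (nat_lit 37537587044) (nat_lit 152) (nat_lit 19094187748) (nat_lit 0) (nat_lit 36954776447) (nat_lit 2) (nat_lit 5) (nat_lit 4) (nat_lit 4) (nat_lit 2) (nat_lit 4) (nat_lit 317) (nat_lit 233) (nat_lit 230)) (XT.lf (nat_lit 0) (nat_lit 44354254589) (nat_lit 152) (nat_lit 12910578380) (nat_lit 0) (nat_lit 43605216959) (nat_lit 2) (nat_lit 5) (nat_lit 4) (nat_lit 4) (nat_lit 2) (nat_lit 4) (nat_lit 318) (nat_lit 233) (nat_lit 229))))))) (XT.nd (nat_lit 780) (nat_lit 0) (nat_lit 0) (XT.nd (nat_lit 390) (nat_lit 0) (nat_lit 0) (XT.nd (nat_lit 156) (nat_lit 76) (nat_lit 0) (XT.nd (nat_lit 78) (nat_lit 0) (nat_lit 0) (XT.lf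 (nat_lit 0) (nat_lit 51535342275) (nat_lit 152) (nat_lit 6577605432) (nat_lit 0) (nat_lit 50632390725) (nat_lit 2) (nat_lit 5) (nat_lit 4) (nat_lit 4) (nat_lit 2) (nat_lit 4) (nat_lit 319) (nat_lit 233) (nat_lit 228)) (XT.lf (nat_lit 0) (nat_lit 59123404696) (nat_lit 152) (nat_lit 57740174) (nat_lit 0) (nat_lit 58077940257) (nat_lit 2) (nat_lit 5) (nat_lit 4) (nat_lit 4) (nat_lit 2) (nat_lit 4) (nat_lit 320) (nat_lit 233) (nat_lit 227))) (XT.nd (nat_lit 78) (nat_lit 0) (nat_lit 0) (XT.lf (nat_lit 0) (nat_lit 6908777661) (nat_lit 76) (nat_lit 60362495867) (nat_lit 76) (nat_lit 59185075050) (nat_lit 1) (nat_lit 4) (nat_lit 2) (nat_lit 5) (nat_lit 2) (nat_lit 4) (nat_lit 321) (nat_lit 233) (nat_lit 226)) (XT.nd (nat_lit 78) (nat_lit 0) (nat_lit 0) (XT.lf (nat_lit 0) (nat_lit 14151484570) (nat_lit 76) (nat_lit 61772456858) (nat_lit 76) (nat_lit 60472854209) (nat_lit 1) (nat_lit 4) (nat_lit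 2) (nat_lit 5) (nat_lit 2) (nat_lit 4) (nat_lit 322) (nat_lit 233) (nat_lit 225)) (XT.lf (nat_lit 0) (nat_lit 21711391147) (nat_lit 76) (nat_lit 63420361025) (nat_lit 76) (nat_lit 62007627050) (nat_lit 1) (nat_lit 4) (nat_lit 2) (nat_lit 5) (nat_lit 2) (nat_lit 4) (nat_lit 323) (nat_lit 233) (nat_lit 224))))) (XT.nd (nat_lit 156) (nat_lit 0) (nat_lit 0) (XT.nd (nat_lit 78) (nat_lit 0) (nat_lit 0) (XT.lf (nat_lit 0) (nat_lit 29633296836) (nat_lit 76) (nat_lit 65315973727) (nat_lit 76) (nat_lit 63798488524) (nat_lit 1) (nat_lit 4) (nat_lit 2) (nat_lit 5) (nat_lit 2) (nat_lit 4) (nat_lit 324) (nat_lit 233) (nat_lit 223)) (XT.lf (nat_lit 0) (nat_lit 37964146264) (nat_lit 76) (nat_lit 67470528223) (nat_lit 76) (nat_lit 65856051143) (nat_lit 1) (nat_lit 4) (nat_lit 2) (nat_lit 5) (nat_lit 2) (nat_lit 4) (nat_lit 325) (nat_lit 233) (nat_lit 222))) (XT.nd (nat_lit 78) (nat_lit 0) (nat_lit 0) (XT.lf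 (nat_lit 0) (nat_lit 46753307428) (nat_lit 76) (nat_lit 69896792245) (nat_lit 76) (nat_lit 68192507871) (nat_lit 1) (nat_lit 4) (nat_lit 2) (nat_lit 5) (nat_lit 2) (nat_lit 4) (nat_lit 326) (nat_lit 233) (nat_lit 221)) (XT.nd (nat_lit 78) (nat_lit 0) (nat_lit 0) (XT.lf (nat_lit 0) (nat_lit 56052864247) (nat_lit 76) (nat_lit 72609143652) (nat_lit 76) (nat_lit 70821704376) (nat_lit 1) (nat_lit 4) (nat_lit 2) (nat_lit 5) (nat_lit 2) (nat_lit 4) (nat_lit 327) (nat_lit 233) (nat_lit 220)) (XT.lf (nat_lit 0) (nat_lit 65917925204) (nat_lit 76) (nat_lit 75623655639) (nat_lit 76) (nat_lit 73759221084) (nat_lit 1) (nat_lit 4) (nat_lit 2) (nat_lit 5) (nat_lit 2) (nat_lit 4) (nat_lit 328) (nat_lit 233) (nat_lit 219)))))) (XT.nd (nat_lit 390) (nat_lit 0) (nat_lit 0) (XT.nd (nat_lit 156) (nat_lit 0) (nat_lit 0) (XT.nd (nat_lit 78) (nat_lit 0) (nat_lit 0) (XT.lf (nat_lit 0) (nat_lit 76406949921) (nat_lit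 76) (nat_lit 78958191981) (nat_lit 76) (nat_lit 77022465500) (nat_lit 1) (nat_lit 4) (nat_lit 2) (nat_lit 5) (nat_lit 2) (nat_lit 4) (nat_lit 329) (nat_lit 233) (nat_lit 218)) (XT.lf (nat_lit 0) (nat_lit 87582095580) (nat_lit 76) (nat_lit 82632512892) (nat_lit 76) (nat_lit 80630775370) (nat_lit 1) (nat_lit 4) (nat_lit 2) (nat_lit 5) (nat_lit 2) (nat_lit 4) (nat_lit 330) (nat_lit 233) (nat_lit 217))) (XT.nd (nat_lit 78) (nat_lit 0) (nat_lit 0) (XT.lf (nat_lit 0) (nat_lit 99509585267) (nat_lit 76) (nat_lit 86668392127) (nat_lit 76) (nat_lit 84605533269) (nat_lit 1) (nat_lit 4) (nat_lit 2) (nat_lit 5) (nat_lit 2) (nat_lit 4) (nat_lit 331) (nat_lit 233) (nat_lit 216)) (XT.nd (nat_lit 78) (nat_lit 0) (nat_lit 0) (XT.lf (nat_lit 0) (nat_lit 112260100403) (nat_lit 76) (nat_lit 91089746006) (nat_lit 76) (nat_lit 88970293319) (nat_lit 1) (nat_lit 4) (nat_lit 2) (nat_lit 5) (nat_lit 2) (nat_lit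 4) (nat_lit 332) (nat_lit 233) (nat_lit 215)) (XT.lf (nat_lit 0) (nat_lit 125909199596) (nat_lit 76) (nat_lit 95922775146) (nat_lit 76) (nat_lit 93750920765) (nat_lit 1) (nat_lit 4) (nat_lit 2) (nat_lit 5) (nat_lit 2) (nat_lit 4) (nat_lit 333) (nat_lit 233) (nat_lit 214))))) (XT.nd (nat_lit 234) (nat_lit 0) (nat_lit 0) (XT.nd (nat_lit 78) (nat_lit 0) (nat_lit 0) (XT.lf (nat_lit 0) (nat_lit 140537766397) (nat_lit 76) (nat_lit 101196119718) (nat_lit 76) (nat_lit 98975745251) (nat_lit 1) (nat_lit 4) (nat_lit 2) (nat_lit 5) (nat_lit 2) (nat_lit 4) (nat_lit 334) (nat_lit 233) (nat_lit 213)) (XT.nd (nat_lit 78) (nat_lit 0) (nat_lit 0) (XT.lf (nat_lit 0) (nat_lit 156232488608) (nat_lit 76) (nat_lit 106941029172) (nat_lit 76) (nat_lit 104675728700) (nat_lit 1) (nat_lit 4) (nat_lit 2) (nat_lit 5) (nat_lit 2) (nat_lit 4) (nat_lit 335) (nat_lit 233) (nat_lit 212)) (XT.lf (nat_lit 0) (nat_lit 173086371991)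 (nat_lit 76) (nat_lit 113191547417) (nat_lit 76) (nat_lit 110884648790) (nat_lit 1) (nat_lit 4) (nat_lit 2) (nat_lit 5) (nat_lit 2) (nat_lit 4) (nat_lit 336) (nat_lit 233) (nat_lit 211)))) (XT.nd (nat_lit 78) (nat_lit 0) (nat_lit 0) (XT.lf (nat_lit 0) (nat_lit 191199291411) (nat_lit 76) (nat_lit 119984714560) (nat_lit 76) (nat_lit 117639299124) (nat_lit 1) (nat_lit 4) (nat_lit 2) (nat_lit 5) (nat_lit 2) (nat_lit 4) (nat_lit 337) (nat_lit 233) (nat_lit 210)) (XT.nd (nat_lit 78) (nat_lit 0) (nat_lit 0) (XT.lf (nat_lit 0) (nat_lit 210678582686) (nat_lit 76) (nat_lit 127360786406) (nat_lit 76) (nat_lit 124979707259) (nat_lit 1) (nat_lit 4) (nat_lit 2) (nat_lit 5) (nat_lit 2) (nat_lit 4) (nat_lit 338) (nat_lit 233) (nat_lit 209)) (XT.lf (nat_lit 0) (nat_lit 231639678654) (nat_lit 76) (nat_lit 135363473011) (nat_lit 76) (nat_lit 132949371908) (nat_lit 1) (nat_lit 4) (nat_lit 2) (nat_lit 5) (nat_lit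 2) (nat_lit 4) (nat_lit 339) (nat_lit 233) (nat_lit 208))))))))
noncomputable def xc8 : XT := (XT.nd (nat_lit 39234) (nat_lit 0) (nat_lit 0) (XT.nd (nat_lit 38454) (nat_lit 0) (nat_lit 0) (XT.nd (nat_lit 390) (nat_lit 0) (nat_lit 0) (XT.nd (nat_lit 156) (nat_lit 0) (nat_lit 0) (XT.nd (nat_lit 78) (nat_lit 0) (nat_lit 0) (XT.lf (nat_lit 0) (nat_lit 254206793217) (nat_lit 76) (nat_lit 144040197703) (nat_lit 76) (nat_lit 141595520715) (nat_lit 1) (nat_lit 4) (nat_lit 2) (nat_lit 5) (nat_lit 2) (nat_lit 4) (nat_lit 340) (nat_lit 233) (nat_lit 207)) (XT.lf (nat_lit 0) (nat_lit 278513657423) (nat_lit 76) (nat_lit 153442378110) (nat_lit 76) (nat_lit 150969390118) (nat_lit 1) (nat_lit 4) (nat_lit 2) (nat_lit 5) (nat_lit 2) (nat_lit 4) (nat_lit 341) (nat_lit 233) (nat_lit 206))) (XT.nd (nat_lit 78) (nat_lit 0) (nat_lit 0) (XT.lf (nat_lit 0) (nat_lit 304704311950) (nat_lit 76) (nat_lit 163625730856)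 (nat_lit 76) (nat_lit 161126528971) (nat_lit 1) (nat_lit 4) (nat_lit 2) (nat_lit 5) (nat_lit 2) (nat_lit 4) (nat_lit 342) (nat_lit 233) (nat_lit 205)) (XT.nd (nat_lit 78) (nat_lit 0) (nat_lit 0) (XT.lf (nat_lit 0) (nat_lit 332933960676) (nat_lit 76) (nat_lit 174650601736) (nat_lit 76) (nat_lit 172127127727) (nat_lit 1) (nat_lit 4) (nat_lit 2) (nat_lit 5) (nat_lit 2) (nat_lit 4) (nat_lit 343) (nat_lit 233) (nat_lit 204)) (XT.lf (nat_lit 0) (nat_lit 363369890408) (nat_lit 76) (nat_lit 186582323317) (nat_lit 76) (nat_lit 184036375120) (nat_lit 1) (nat_lit 4) (nat_lit 2) (nat_lit 5) (nat_lit 2) (nat_lit 4) (nat_lit 344) (nat_lit 233) (nat_lit 203))))) (XT.nd (nat_lit 156) (nat_lit 0) (nat_lit 0) (XT.nd (nat_lit 78) (nat_lit 0) (nat_lit 0) (XT.lf (nat_lit 0) (nat_lit 396192462213) (nat_lit 76) (nat_lit 199491602098) (nat_lit 76) (nat_lit 196924844468) (nat_lit 1) (nat_lit 4) (nat_lit 2) (nat_lit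 5) (nat_lit 2) (nat_lit 4) (nat_lit 345) (nat_lit 233) (nat_lit 202)) (XT.lf (nat_lit 0) (nat_lit 431596180218) (nat_lit 76) (nat_lit 213454937509) (nat_lit 76) (nat_lit 210868911885) (nat_lit 1) (nat_lit 4) (nat_lit 2) (nat_lit 5) (nat_lit 2) (nat_lit 4) (nat_lit 346) (nat_lit 233) (nat_lit 201))) (XT.nd (nat_lit 78) (nat_lit 0) (nat_lit 0) (XT.lf (nat_lit 0) (nat_lit 469790844234) (nat_lit 76) (nat_lit 228555075240) (nat_lit 76) (nat_lit 225951208881) (nat_lit 1) (nat_lit 4) (nat_lit 2) (nat_lit 5) (nat_lit 2) (nat_lit 4) (nat_lit 347) (nat_lit 233) (nat_lit 200)) (XT.nd (nat_lit 78) (nat_lit 0) (nat_lit 0) (XT.lf (nat_lit 0) (nat_lit 511002793011) (nat_lit 76) (nat_lit 244881497591) (nat_lit 76) (nat_lit 242261112032) (nat_lit 1) (nat_lit 4) (nat_lit 2) (nat_lit 5) (nat_lit 2) (nat_lit 4) (nat_lit 348) (nat_lit 233) (nat_lit 199)) (XT.lf (nat_lit 0) (nat_lit 555476245505) (nat_lit 76)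 (nat_lit 262530953729) (nat_lit 76) (nat_lit 259895272616) (nat_lit 1) (nat_lit 4) (nat_lit 2) (nat_lit 5) (nat_lit 2) (nat_lit 4) (nat_lit 349) (nat_lit 233) (nat_lit 198)))))) (XT.nd (nat_lit 390) (nat_lit 76) (nat_lit 0) (XT.nd (nat_lit 156) (nat_lit 0) (nat_lit 0) (XT.nd (nat_lit 78) (nat_lit 0) (nat_lit 0) (XT.lf (nat_lit 0) (nat_lit 3961579390) (nat_lit 152) (nat_lit 24395723648) (nat_lit 0) (nat_lit 3961579390) (nat_lit 2) (nat_lit 5) (nat_lit 4) (nat_lit 4) (nat_lit 2) (nat_lit 4) (nat_lit 312) (nat_lit 234) (nat_lit 234)) (XT.lf (nat_lit 0) (nat_lit 13360811243) (nat_lit 152) (nat_lit 43059118524) (nat_lit 0) (nat_lit 13134661199) (nat_lit 2) (nat_lit 5) (nat_lit 4) (nat_lit 4) (nat_lit 2) (nat_lit 4) (nat_lit 313) (nat_lit 234) (nat_lit 233))) (XT.nd (nat_lit 78) (nat_lit 0) (nat_lit 0) (XT.lf (nat_lit 0) (nat_lit 18987345407) (nat_lit 152) (nat_lit 37338014531) (nat_lit 0) (nat_lit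 18551797174) (nat_lit 2) (nat_lit 5) (nat_lit 4) (nat_lit 4) (nat_lit 2) (nat_lit 4) (nat_lit 314) (nat_lit 234) (nat_lit 232)) (XT.nd (nat_lit 78) (nat_lit 0) (nat_lit 0) (XT.lf (nat_lit 0) (nat_lit 24836103696) (nat_lit 152) (nat_lit 31594232477) (nat_lit 0) (nat_lit 24206668252) (nat_lit 2) (nat_lit 5) (nat_lit 4) (nat_lit 4) (nat_lit 2) (nat_lit 4) (nat_lit 315) (nat_lit 234) (nat_lit 231)) (XT.lf (nat_lit 0) (nat_lit 30941745419) (nat_lit 152) (nat_lit 25793735136) (nat_lit 0) (nat_lit 30132784779) (nat_lit 2) (nat_lit 5) (nat_lit 4) (nat_lit 4) (nat_lit 2) (nat_lit 4) (nat_lit 316) (nat_lit 234) (nat_lit 230))))) (XT.nd (nat_lit 156) (nat_lit 76) (nat_lit 0) (XT.nd (nat_lit 78) (nat_lit 0) (nat_lit 0) (XT.lf (nat_lit 0) (nat_lit 37340452157) (nat_lit 152) (nat_lit 19902149190) (nat_lit 0) (nat_lit 36365264483) (nat_lit 2) (nat_lit 5) (nat_lit 4) (nat_lit 4) (nat_lit 2) (nat_lit 4)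 (nat_lit 317) (nat_lit 234) (nat_lit 229)) (XT.lf (nat_lit 0) (nat_lit 44070142172) (nat_lit 152) (nat_lit 13884561538) (nat_lit 0) (nat_lit 42941040578) (nat_lit 2) (nat_lit 5) (nat_lit 4) (nat_lit 4) (nat_lit 2) (nat_lit 4) (nat_lit 318) (nat_lit 234) (nat_lit 228))) (XT.nd (nat_lit 78) (nat_lit 76) (nat_lit 0) (XT.lf (nat_lit 0) (nat_lit 51170695108) (nat_lit 152) (nat_lit 7705312401) (nat_lit 0) (nat_lit 49899080625) (nat_lit 2) (nat_lit 5) (nat_lit 4) (nat_lit 4) (nat_lit 2) (nat_lit 4) (nat_lit 319) (nat_lit 234) (nat_lit 227)) (XT.nd (nat_lit 78) (nat_lit 76) (nat_lit 0) (XT.lf (nat_lit 0) (nat_lit 58684188316) (nat_lit 152) (nat_lit 1327784005) (nat_lit 0) (nat_lit 57280617455) (nat_lit 2) (nat_lit 5) (nat_lit 4) (nat_lit 4) (nat_lit 2) (nat_lit 4) (nat_lit 320) (nat_lit 234) (nat_lit 226)) (XT.lf (nat_lit 0) (nat_lit 5460589370) (nat_lit 76) (nat_lit 61279811933) (nat_lit 76)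 (nat_lit 59754059240) (nat_lit 1) (nat_lit 4) (nat_lit 2) (nat_lit 5) (nat_lit 2) (nat_lit 4) (nat_lit 321) (nat_lit 234) (nat_lit 225))))))) (XT.nd (nat_lit 780) (nat_lit 0) (nat_lit 0) (XT.nd (nat_lit 390) (nat_lit 0) (nat_lit 0) (XT.nd (nat_lit 156) (nat_lit 0) (nat_lit 0) (XT.nd (nat_lit 78) (nat_lit 0) (nat_lit 0) (XT.lf (nat_lit 0) (nat_lit 12577230469) (nat_lit 76) (nat_lit 62749939413) (nat_lit 76) (nat_lit 61111055394) (nat_lit 1) (nat_lit 4) (nat_lit 2) (nat_lit 5) (nat_lit 2) (nat_lit 4) (nat_lit 322) (nat_lit 234) (nat_lit 224)) (XT.lf (nat_lit 0) (nat_lit 20020409443) (nat_lit 76) (nat_lit 64453553292) (nat_lit 76) (nat_lit 62709918046) (nat_lit 1) (nat_lit 4) (nat_lit 2) (nat_lit 5) (nat_lit 2) (nat_lit 4) (nat_lit 323) (nat_lit 234) (nat_lit 223))) (XT.nd (nat_lit 78) (nat_lit 0) (nat_lit 0) (XT.lf (nat_lit 0) (nat_lit 27834234018) (nat_lit 76) (nat_lit 66400749060) (nat_lit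 76) (nat_lit 64560121937) (nat_lit 1) (nat_lit 4) (nat_lit 2) (nat_lit 5) (nat_lit 2) (nat_lit 4) (nat_lit 324) (nat_lit 234) (nat_lit 222)) (XT.nd (nat_lit 78) (nat_lit 0) (nat_lit 0) (XT.lf (nat_lit 0) (nat_lit 36065008342) (nat_lit 76) (nat_lit 68603065656) (nat_lit 76) (nat_lit 66672631238) (nat_lit 1) (nat_lit 4) (nat_lit 2) (nat_lit 5) (nat_lit 2) (nat_lit 4) (nat_lit 325) (nat_lit 234) (nat_lit 221)) (XT.lf (nat_lit 0) (nat_lit 44761507372) (nat_lit 76) (nat_lit 71073553843) (nat_lit 76) (nat_lit 69059964523) (nat_lit 1) (nat_lit 4) (nat_lit 2) (nat_lit 5) (nat_lit 2) (nat_lit 4) (nat_lit 326) (nat_lit 234) (nat_lit 220))))) (XT.nd (nat_lit 156) (nat_lit 0) (nat_lit 0) (XT.nd (nat_lit 78) (nat_lit 0) (nat_lit 0) (XT.lf (nat_lit 0) (nat_lit 53975265918) (nat_lit 76) (nat_lit 73826853552) (nat_lit 76) (nat_lit 71736268953) (nat_lit 1) (nat_lit 4) (nat_lit 2) (nat_lit 5) (nat_lit 2)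 (nat_lit 4) (nat_lit 327) (nat_lit 234) (nat_lit 219)) (XT.lf (nat_lit 0) (nat_lit 63760884030) (nat_lit 76) (nat_lit 76879280633) (nat_lit 76) (nat_lit 74717404109) (nat_lit 1) (nat_lit 4) (nat_lit 2) (nat_lit 5) (nat_lit 2) (nat_lit 4) (nat_lit 328) (nat_lit 234) (nat_lit 218))) (XT.nd (nat_lit 78) (nat_lit 0) (nat_lit 0) (XT.lf (nat_lit 0) (nat_lit 74176350557) (nat_lit 76) (nat_lit 80248923543) (nat_lit 76) (nat_lit 78021035977) (nat_lit 1) (nat_lit 4) (nat_lit 2) (nat_lit 5) (nat_lit 2) (nat_lit 4) (nat_lit 329) (nat_lit 234) (nat_lit 217)) (XT.nd (nat_lit 78) (nat_lit 0) (nat_lit 0) (XT.lf (nat_lit 0) (nat_lit 85283386781) (nat_lit 76) (nat_lit 83955750536) (nat_lit 76) (nat_lit 81666741635) (nat_lit 1) (nat_lit 4) (nat_lit 2) (nat_lit 5) (nat_lit 2) (nat_lit 4) (nat_lit 330) (nat_lit 234) (nat_lit 216)) (XT.lf (nat_lit 0) (nat_lit 97147812177) (nat_lit 76) (nat_lit 88021727995)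 (nat_lit 76) (nat_lit 85676125264) (nat_lit 1) (nat_lit 4) (nat_lit 2) (nat_lit 5) (nat_lit 2) (nat_lit 4) (nat_lit 331) (nat_lit 234) (nat_lit 215)))))) (XT.nd (nat_lit 390) (nat_lit 0) (nat_lit 0) (XT.nd (nat_lit 156) (nat_lit 0) (nat_lit 0) (XT.nd (nat_lit 78) (nat_lit 0) (nat_lit 0) (XT.lf (nat_lit 0) (nat_lit 109839934451) (nat_lit 76) (nat_lit 92470950600) (nat_lit 76) (nat_lit 90072946176) (nat_lit 1) (nat_lit 4) (nat_lit 2) (nat_lit 5) (nat_lit 2) (nat_lit 4) (nat_lit 332) (nat_lit 234) (nat_lit 214)) (XT.lf (nat_lit 0) (nat_lit 123434966179) (nat_lit 76) (nat_lit 97329784115) (nat_lit 76) (nat_lit 94883259605) (nat_lit 1) (nat_lit 4) (nat_lit 2) (nat_lit 5) (nat_lit 2) (nat_lit 4) (nat_lit 333) (nat_lit 234) (nat_lit 213))) (XT.nd (nat_lit 78) (nat_lit 0) (nat_lit 0) (XT.lf (nat_lit 0) (nat_lit 138013470511) (nat_lit 76) (nat_lit 102627021628) (nat_lit 76) (nat_lit 100135571111)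 (nat_lit 1) (nat_lit 4) (nat_lit 2) (nat_lit 5) (nat_lit 2) (nat_lit 4) (nat_lit 334) (nat_lit 234) (nat_lit 212)) (XT.nd (nat_lit 78) (nat_lit 0) (nat_lit 0) (XT.lf (nat_lit 0) (nat_lit 153661838585) (nat_lit 76) (nat_lit 108394054176) (nat_lit 76) (nat_lit 105861005505) (nat_lit 1) (nat_lit 4) (nat_lit 2) (nat_lit 5) (nat_lit 2) (nat_lit 4) (nat_lit 335) (nat_lit 234) (nat_lit 211)) (XT.lf (nat_lit 0) (nat_lit 170472801472) (nat_lit 76) (nat_lit 114665056766) (nat_lit 76) (nat_lit 112093491286) (nat_lit 1) (nat_lit 4) (nat_lit 2) (nat_lit 5) (nat_lit 2) (nat_lit 4) (nat_lit 336) (nat_lit 234) (nat_lit 210))))) (XT.nd (nat_lit 234) (nat_lit 0) (nat_lit 0) (XT.nd (nat_lit 78) (nat_lit 0) (nat_lit 0) (XT.lf (nat_lit 0) (nat_lit 188545979690) (nat_lit 76) (nat_lit 121477190895) (nat_lit 76) (nat_lit 118869961704) (nat_lit 1) (nat_lit 4) (nat_lit 2) (nat_lit 5) (nat_lit 2) (nat_lit 4) (nat_lit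 337) (nat_lit 234) (nat_lit 209)) (XT.nd (nat_lit 78) (nat_lit 0) (nat_lit 0) (XT.lf (nat_lit 0) (nat_lit 207988473557) (nat_lit 76) (nat_lit 128870824766) (nat_lit 76) (nat_lit 126230573619) (nat_lit 1) (nat_lit 4) (nat_lit 2) (nat_lit 5) (nat_lit 2) (nat_lit 4) (nat_lit 338) (nat_lit 234) (nat_lit 208)) (XT.lf (nat_lit 0) (nat_lit 228915497851) (nat_lit 76) (nat_lit 136889772505) (nat_lit 76) (nat_lit 134218945473) (nat_lit 1) (nat_lit 4) (nat_lit 2) (nat_lit 5) (nat_lit 2) (nat_lit 4) (nat_lit 339) (nat_lit 234) (nat_lit 207)))) (XT.nd (nat_lit 78) (nat_lit 0) (nat_lit 0) (XT.lf (nat_lit 0) (nat_lit 251451064566) (nat_lit 76) (nat_lit 145581553803) (nat_lit 76) (nat_lit 142882415766) (nat_lit 1) (nat_lit 4) (nat_lit 2) (nat_lit 5) (nat_lit 2) (nat_lit 4) (nat_lit 340) (nat_lit 234) (nat_lit 206)) (XT.nd (nat_lit 78) (nat_lit 0) (nat_lit 0) (XT.lf (nat_lit 0) (nat_lit 275728717803) (nat_lit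 76) (nat_lit 154997675511) (nat_lit 76) (nat_lit 152272323582) (nat_lit 1) (nat_lit 4) (nat_lit 2) (nat_lit 5) (nat_lit 2) (nat_lit 4) (nat_lit 341) (nat_lit 234) (nat_lit 205)) (XT.lf (nat_lit 0) (nat_lit 301892325136) (nat_lit 76) (nat_lit 165193936869) (nat_lit 76) (nat_lit 162444312817) (nat_lit 1) (nat_lit 4) (nat_lit 2) (nat_lit 5) (nat_lit 2) (nat_lit 4) (nat_lit 342) (nat_lit 234) (nat_lit 204))))))))
noncomputable def xc9 : XT := (XT.nd (nat_lit 39156) (nat_lit 0) (nat_lit 0) (XT.nd (nat_lit 38298) (nat_lit 0) (nat_lit 0) (XT.nd (nat_lit 390) (nat_lit 0) (nat_lit 0) (XT.nd (nat_lit 156) (nat_lit 0) (nat_lit 0) (XT.nd (nat_lit 78) (nat_lit 0) (nat_lit 0) (XT.lf (nat_lit 0) (nat_lit 330096930165) (nat_lit 76) (nat_lit 176230760168) (nat_lit 76) (nat_lit 173458661927) (nat_lit 1) (nat_lit 4) (nat_lit 2) (nat_lit 5) (nat_lit 2) (nat_lit 4) (nat_lit 343) (nat_lit 234) (nat_lit 203))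 (XT.lf (nat_lit 0) (nat_lit 360509671288) (nat_lit 76) (nat_lit 188173548804) (nat_lit 76) (nat_lit 185380641130) (nat_lit 1) (nat_lit 4) (nat_lit 2) (nat_lit 5) (nat_lit 2) (nat_lit 4) (nat_lit 344) (nat_lit 234) (nat_lit 202))) (XT.nd (nat_lit 78) (nat_lit 0) (nat_lit 0) (XT.lf (nat_lit 0) (nat_lit 393310772158) (nat_lit 76) (nat_lit 201093074857) (nat_lit 76) (nat_lit 198280899189) (nat_lit 1) (nat_lit 4) (nat_lit 2) (nat_lit 5) (nat_lit 2) (nat_lit 4) (nat_lit 345) (nat_lit 234) (nat_lit 201)) (XT.nd (nat_lit 78) (nat_lit 0) (nat_lit 0) (XT.lf (nat_lit 0) (nat_lit 428694609668) (nat_lit 76) (nat_lit 215065898483) (nat_lit 76) (nat_lit 212235882080) (nat_lit 1) (nat_lit 4) (nat_lit 2) (nat_lit 5) (nat_lit 2) (nat_lit 4) (nat_lit 346) (nat_lit 234) (nat_lit 200)) (XT.lf (nat_lit 0) (nat_lit 466870865819) (nat_lit 76) (nat_lit 230174821600) (nat_lit 76) (nat_lit 227328285997) (nat_lit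 1) (nat_lit 4) (nat_lit 2) (nat_lit 5) (nat_lit 2) (nat_lit 4) (nat_lit 347) (nat_lit 234) (nat_lit 199))))) (XT.nd (nat_lit 37674) (nat_lit 0) (nat_lit 76) (XT.nd (nat_lit 78) (nat_lit 0) (nat_lit 0) (XT.lf (nat_lit 0) (nat_lit 508065770276) (nat_lit 76) (nat_lit 246509378565) (nat_lit 76) (nat_lit 243647547408) (nat_lit 1) (nat_lit 4) (nat_lit 2) (nat_lit 5) (nat_lit 2) (nat_lit 4) (nat_lit 348) (nat_lit 234) (nat_lit 198)) (XT.lf (nat_lit 0) (nat_lit 552523440993) (nat_lit 76) (nat_lit 264166366755) (nat_lit 76) (nat_lit 261290373047) (nat_lit 1) (nat_lit 4) (nat_lit 2) (nat_lit 5) (nat_lit 2) (nat_lit 4) (nat_lit 349) (nat_lit 234) (nat_lit 197))) (XT.nd (nat_lit 78) (nat_lit 152) (nat_lit 0) (XT.lf (nat_lit 0) (nat_lit 25849851555) (nat_lit 76) (nat_lit 1048413267) (nat_lit 76) (nat_lit 1048413267) (nat_lit 4) (nat_lit 4) (nat_lit 5) (nat_lit 5) (nat_lit 5) (nat_lit 4) (nat_lit 310)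 (nat_lit 235) (nat_lit 235)) (XT.nd (nat_lit 78) (nat_lit 0) (nat_lit 0) (XT.lf (nat_lit 0) (nat_lit 2886406941) (nat_lit 152) (nat_lit 54568970202) (nat_lit 0) (nat_lit 2642164893) (nat_lit 2) (nat_lit 5) (nat_lit 4) (nat_lit 4) (nat_lit 2) (nat_lit 4) (nat_lit 311) (nat_lit 235) (nat_lit 234)) (XT.lf (nat_lit 0) (nat_lit 8039602301) (nat_lit 152) (nat_lit 49035387664) (nat_lit 0) (nat_lit 7569210210) (nat_lit 2) (nat_lit 5) (nat_lit 4) (nat_lit 4) (nat_lit 2) (nat_lit 4) (nat_lit 312) (nat_lit 235) (nat_lit 233)))))) (XT.nd (nat_lit 390) (nat_lit 76) (nat_lit 0) (XT.nd (nat_lit 156) (nat_lit 0) (nat_lit 0) (XT.nd (nat_lit 78) (nat_lit 0) (nat_lit 0) (XT.lf (nat_lit 0) (nat_lit 13358922794) (nat_lit 152) (nat_lit 43528929604) (nat_lit 0) (nat_lit 12679132514) (nat_lit 2) (nat_lit 5) (nat_lit 4) (nat_lit 4) (nat_lit 2) (nat_lit 4) (nat_lit 313) (nat_lit 235) (nat_lit 232)) (XT.lf (nat_lit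 0) (nat_lit 18875890320) (nat_lit 152) (nat_lit 38016965158) (nat_lit 0) (nat_lit 18002212828) (nat_lit 2) (nat_lit 5) (nat_lit 4) (nat_lit 4) (nat_lit 2) (nat_lit 4) (nat_lit 314) (nat_lit 235) (nat_lit 231))) (XT.nd (nat_lit 78) (nat_lit 0) (nat_lit 0) (XT.lf (nat_lit 0) (nat_lit 24623198018) (nat_lit 152) (nat_lit 32466830834) (nat_lit 0) (nat_lit 23569995330) (nat_lit 2) (nat_lit 5) (nat_lit 4) (nat_lit 4) (nat_lit 2) (nat_lit 4) (nat_lit 315) (nat_lit 235) (nat_lit 230)) (XT.nd (nat_lit 78) (nat_lit 0) (nat_lit 0) (XT.lf (nat_lit 0) (nat_lit 30634904009) (nat_lit 152) (nat_lit 26845636946) (nat_lit 0) (nat_lit 29415474288) (nat_lit 2) (nat_lit 5) (nat_lit 4) (nat_lit 4) (nat_lit 2) (nat_lit 4) (nat_lit 316) (nat_lit 235) (nat_lit 229)) (XT.lf (nat_lit 0) (nat_lit 36946633217) (nat_lit 152) (nat_lit 21120072717) (nat_lit 0) (nat_lit 35573289576) (nat_lit 2) (nat_lit 5) (nat_lit 4)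 (nat_lit 4) (nat_lit 2) (nat_lit 4) (nat_lit 317) (nat_lit 235) (nat_lit 228))))) (XT.nd (nat_lit 234) (nat_lit 76) (nat_lit 0) (XT.nd (nat_lit 78) (nat_lit 0) (nat_lit 0) (XT.lf (nat_lit 0) (nat_lit 43595788482) (nat_lit 152) (nat_lit 15256208875) (nat_lit 0) (nat_lit 42079931952) (nat_lit 2) (nat_lit 5) (nat_lit 4) (nat_lit 4) (nat_lit 2) (nat_lit 4) (nat_lit 318) (nat_lit 235) (nat_lit 227)) (XT.nd (nat_lit 78) (nat_lit 0) (nat_lit 0) (XT.lf (nat_lit 0) (nat_lit 50621772205) (nat_lit 152) (nat_lit 9219296600) (nat_lit 0) (nat_lit 48973959297) (nat_lit 2) (nat_lit 5) (nat_lit 4) (nat_lit 4) (nat_lit 2) (nat_lit 4) (nat_lit 319) (nat_lit 235) (nat_lit 226)) (XT.lf (nat_lit 0) (nat_lit 58066219846) (nat_lit 152) (nat_lit 2973561595) (nat_lit 0) (nat_lit 56296225105) (nat_lit 2) (nat_lit 5) (nat_lit 4) (nat_lit 4) (nat_lit 2) (nat_lit 4) (nat_lit 320) (nat_lit 235) (nat_lit 225)))) (XT.nd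 (nat_lit 78) (nat_lit 0) (nat_lit 0) (XT.lf (nat_lit 0) (nat_lit 3634329130) (nat_lit 76) (nat_lit 62395659582) (nat_lit 76) (nat_lit 60512533516) (nat_lit 1) (nat_lit 4) (nat_lit 2) (nat_lit 5) (nat_lit 2) (nat_lit 4) (nat_lit 321) (nat_lit 235) (nat_lit 224)) (XT.nd (nat_lit 78) (nat_lit 0) (nat_lit 0) (XT.lf (nat_lit 0) (nat_lit 10634242626) (nat_lit 76) (nat_lit 63921496774) (nat_lit 76) (nat_lit 61933619480) (nat_lit 1) (nat_lit 4) (nat_lit 2) (nat_lit 5) (nat_lit 2) (nat_lit 4) (nat_lit 322) (nat_lit 235) (nat_lit 223)) (XT.lf (nat_lit 0) (nat_lit 17969340486) (nat_lit 76) (nat_lit 65676693719) (nat_lit 76) (nat_lit 63591824548) (nat_lit 1) (nat_lit 4) (nat_lit 2) (nat_lit 5) (nat_lit 2) (nat_lit 4) (nat_lit 323) (nat_lit 235) (nat_lit 222))))))) (XT.nd (nat_lit 780) (nat_lit 0) (nat_lit 0) (XT.nd (nat_lit 390) (nat_lit 0) (nat_lit 0) (XT.nd (nat_lit 156) (nat_lit 0) (nat_lit 0)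 (XT.nd (nat_lit 78) (nat_lit 0) (nat_lit 0) (XT.lf (nat_lit 0) (nat_lit 25683089957) (nat_lit 76) (nat_lit 67671651587) (nat_lit 76) (nat_lit 65496975121) (nat_lit 1) (nat_lit 4) (nat_lit 2) (nat_lit 5) (nat_lit 2) (nat_lit 4) (nat_lit 324) (nat_lit 235) (nat_lit 221)) (XT.lf (nat_lit 0) (nat_lit 33821202146) (nat_lit 76) (nat_lit 69918192347) (nat_lit 76) (nat_lit 67660360980) (nat_lit 1) (nat_lit 4) (nat_lit 2) (nat_lit 5) (nat_lit 2) (nat_lit 4) (nat_lit 325) (nat_lit 235) (nat_lit 220))) (XT.nd (nat_lit 78) (nat_lit 0) (nat_lit 0) (XT.lf (nat_lit 0) (nat_lit 42431902904) (nat_lit 76) (nat_lit 72429628836) (nat_lit 76) (nat_lit 70094802189) (nat_lit 1) (nat_lit 4) (nat_lit 2) (nat_lit 5) (nat_lit 2) (nat_lit 4) (nat_lit 326) (nat_lit 235) (nat_lit 219)) (XT.nd (nat_lit 78) (nat_lit 0) (nat_lit 0) (XT.lf (nat_lit 0) (nat_lit 51566218605) (nat_lit 76) (nat_lit 75220843639) (nat_lit 76)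 (nat_lit 72814725067) (nat_lit 1) (nat_lit 4) (nat_lit 2) (nat_lit 5) (nat_lit 2) (nat_lit 4) (nat_lit 327) (nat_lit 235) (nat_lit 218)) (XT.lf (nat_lit 0) (nat_lit 61278278528) (nat_lit 76) (nat_lit 78308377289) (nat_lit 76) (nat_lit 75836247675) (nat_lit 1) (nat_lit 4) (nat_lit 2) (nat_lit 5) (nat_lit 2) (nat_lit 4) (nat_lit 328) (nat_lit 235) (nat_lit 217))))) (XT.nd (nat_lit 156) (nat_lit 0) (nat_lit 0) (XT.nd (nat_lit 78) (nat_lit 0) (nat_lit 0) (XT.lf (nat_lit 0) (nat_lit 71625635620) (nat_lit 76) (nat_lit 81710526280) (nat_lit 76) (nat_lit 79177275331) (nat_lit 1) (nat_lit 4) (nat_lit 2) (nat_lit 5) (nat_lit 2) (nat_lit 4) (nat_lit 329) (nat_lit 235) (nat_lit 216)) (XT.lf (nat_lit 0) (nat_lit 82669607553) (nat_lit 76) (nat_lit 85447451498) (nat_lit 76) (nat_lit 82857606720) (nat_lit 1) (nat_lit 4) (nat_lit 2) (nat_lit 5) (nat_lit 2) (nat_lit 4) (nat_lit 330) (nat_lit 235) (nat_lit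 215))) (XT.nd (nat_lit 78) (nat_lit 0) (nat_lit 0) (XT.lf (nat_lit 0) (nat_lit 94475640086) (nat_lit 76) (nat_lit 89541297682) (nat_lit 76) (nat_lit 86899051211) (nat_lit 1) (nat_lit 4) (nat_lit 2) (nat_lit 5) (nat_lit 2) (nat_lit 4) (nat_lit 331) (nat_lit 235) (nat_lit 214)) (XT.nd (nat_lit 78) (nat_lit 0) (nat_lit 0) (XT.lf (nat_lit 0) (nat_lit 107113694894) (nat_lit 76) (nat_lit 94016324663) (nat_lit 76) (nat_lit 91325558105) (nat_lit 1) (nat_lit 4) (nat_lit 2) (nat_lit 5) (nat_lit 2) (nat_lit 4) (nat_lit 332) (nat_lit 235) (nat_lit 213)) (XT.lf (nat_lit 0) (nat_lit 120658664154) (nat_lit 76) (nat_lit 98899051119) (nat_lit 76) (nat_lit 96163358555) (nat_lit 1) (nat_lit 4) (nat_lit 2) (nat_lit 5) (nat_lit 2) (nat_lit 4) (nat_lit 333) (nat_lit 235) (nat_lit 212)))))) (XT.nd (nat_lit 390) (nat_lit 0) (nat_lit 0) (XT.nd (nat_lit 156) (nat_lit 0) (nat_lit 0) (XT.nd (nat_lit 78) (nat_lit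 0) (nat_lit 0) (XT.lf (nat_lit 0) (nat_lit 135190814350) (nat_lit 76) (nat_lit 104218411725) (nat_lit 76) (nat_lit 101441121007) (nat_lit 1) (nat_lit 4) (nat_lit 2) (nat_lit 5) (nat_lit 2) (nat_lit 4) (nat_lit 334) (nat_lit 235) (nat_lit 211)) (XT.lf (nat_lit 0) (nat_lit 150796261927) (nat_lit 76) (nat_lit 110005928618) (nat_lit 76) (nat_lit 107190121091) (nat_lit 1) (nat_lit 4) (nat_lit 2) (nat_lit 5) (nat_lit 2) (nat_lit 4) (nat_lit 335) (nat_lit 235) (nat_lit 210))) (XT.nd (nat_lit 78) (nat_lit 0) (nat_lit 0) (XT.lf (nat_lit 0) (nat_lit 167567483612) (nat_lit 76) (nat_lit 116295898195) (nat_lit 76) (nat_lit 113444426956) (nat_lit 1) (nat_lit 4) (nat_lit 2) (nat_lit 5) (nat_lit 2) (nat_lit 4) (nat_lit 336) (nat_lit 235) (nat_lit 209)) (XT.nd (nat_lit 78) (nat_lit 0) (nat_lit 0) (XT.lf (nat_lit 0) (nat_lit 185603864422) (nat_lit 76) (nat_lit 123125594349) (nat_lit 76) (nat_lit 120241101154)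 (nat_lit 1) (nat_lit 4) (nat_lit 2) (nat_lit 5) (nat_lit 2) (nat_lit 4) (nat_lit 337) (nat_lit 235) (nat_lit 208)) (XT.lf (nat_lit 0) (nat_lit 205012286615) (nat_lit 76) (nat_lit 130535489354) (nat_lit 76) (nat_lit 127620420274) (nat_lit 1) (nat_lit 4) (nat_lit 2) (nat_lit 5) (nat_lit 2) (nat_lit 4) (nat_lit 338) (nat_lit 235) (nat_lit 207))))) (XT.nd (nat_lit 234) (nat_lit 0) (nat_lit 0) (XT.nd (nat_lit 78) (nat_lit 0) (nat_lit 0) (XT.lf (nat_lit 0) (nat_lit 225907763061) (nat_lit 76) (nat_lit 138569493698) (nat_lit 76) (nat_lit 135626113614) (nat_lit 1) (nat_lit 4) (nat_lit 2) (nat_lit 5) (nat_lit 2) (nat_lit 4) (nat_lit 339) (nat_lit 235) (nat_lit 206)) (XT.nd (nat_lit 78) (nat_lit 0) (nat_lit 0) (XT.lf (nat_lit 0) (nat_lit 248414118808) (nat_lit 76) (nat_lit 147275216297) (nat_lit 76) (nat_lit 144305622320) (nat_lit 1) (nat_lit 4) (nat_lit 2) (nat_lit 5) (nat_lit 2) (nat_lit 4) (nat_lit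 340) (nat_lit 235) (nat_lit 205)) (XT.lf (nat_lit 0) (nat_lit 272664724851) (nat_lit 76) (nat_lit 156704246617) (nat_lit 76) (nat_lit 153710380518) (nat_lit 1) (nat_lit 4) (nat_lit 2) (nat_lit 5) (nat_lit 2) (nat_lit 4) (nat_lit 341) (nat_lit 235) (nat_lit 204)))) (XT.nd (nat_lit 78) (nat_lit 0) (nat_lit 0) (XT.lf (nat_lit 0) (nat_lit 298803288486) (nat_lit 76) (nat_lit 166912460395) (nat_lit 76) (nat_lit 163896120107) (nat_lit 1) (nat_lit 4) (nat_lit 2) (nat_lit 5) (nat_lit 2) (nat_lit 4) (nat_lit 342) (nat_lit 235) (nat_lit 203)) (XT.nd (nat_lit 78) (nat_lit 0) (nat_lit 0) (XT.lf (nat_lit 0) (nat_lit 326984704906) (nat_lit 76) (nat_lit 177960350748) (nat_lit 76) (nat_lit 174923201026) (nat_lit 1) (nat_lit 4) (nat_lit 2) (nat_lit 5) (nat_lit 2) (nat_lit 4) (nat_lit 343) (nat_lit 235) (nat_lit 202)) (XT.lf (nat_lit 0) (nat_lit 357375975095) (nat_lit 76) (nat_lit 189913386656) (nat_lit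 76) (nat_lit 186856968941) (nat_lit 1) (nat_lit 4) (nat_lit 2) (nat_lit 5) (nat_lit 2) (nat_lit 4) (nat_lit 344) (nat_lit 235) (nat_lit 201))))))))
noncomputable def xc10 : XT := (XT.nd (nat_lit 38922) (nat_lit 0) (nat_lit 0) (XT.nd (nat_lit 38142) (nat_lit 0) (nat_lit 0) (XT.nd (nat_lit 37752) (nat_lit 0) (nat_lit 76) (XT.nd (nat_lit 156) (nat_lit 0) (nat_lit 0) (XT.nd (nat_lit 78) (nat_lit 0) (nat_lit 0) (XT.lf (nat_lit 0) (nat_lit 390157195470) (nat_lit 76) (nat_lit 202842400925) (nat_lit 76) (nat_lit 199768142475) (nat_lit 1) (nat_lit 4) (nat_lit 2) (nat_lit 5) (nat_lit 2) (nat_lit 4) (nat_lit 345) (nat_lit 235) (nat_lit 200)) (XT.lf (nat_lit 0) (nat_lit 425522625115) (nat_lit 76) (nat_lit 216824009936) (nat_lit 76) (nat_lit 213733232286) (nat_lit 1) (nat_lit 4) (nat_lit 2) (nat_lit 5) (nat_lit 2) (nat_lit 4) (nat_lit 346) (nat_lit 235) (nat_lit 199))) (XT.nd (nat_lit 78) (nat_lit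 0) (nat_lit 0) (XT.lf (nat_lit 0) (nat_lit 463681836945) (nat_lit 76) (nat_lit 231941067668) (nat_lit 76) (nat_lit 228834994463) (nat_lit 1) (nat_lit 4) (nat_lit 2) (nat_lit 5) (nat_lit 2) (nat_lit 4) (nat_lit 347) (nat_lit 235) (nat_lit 198)) (XT.nd (nat_lit 78) (nat_lit 0) (nat_lit 0) (XT.lf (nat_lit 0) (nat_lit 504860959625) (nat_lit 76) (nat_lit 248283156685) (nat_lit 76) (nat_lit 245162920930) (nat_lit 1) (nat_lit 4) (nat_lit 2) (nat_lit 5) (nat_lit 2) (nat_lit 4) (nat_lit 348) (nat_lit 235) (nat_lit 197)) (XT.lf (nat_lit 0) (nat_lit 549304017584) (nat_lit 76) (nat_lit 265947118996) (nat_lit 76) (nat_lit 262813769768) (nat_lit 1) (nat_lit 4) (nat_lit 2) (nat_lit 5) (nat_lit 2) (nat_lit 4) (nat_lit 349) (nat_lit 235) (nat_lit 196))))) (XT.nd (nat_lit 156) (nat_lit 152) (nat_lit 0) (XT.nd (nat_lit 78) (nat_lit 0) (nat_lit 0) (XT.lf (nat_lit 0) (nat_lit 12925547449) (nat_lit 76) (nat_lit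 5640097416) (nat_lit 76) (nat_lit 5640097416) (nat_lit 4) (nat_lit 4) (nat_lit 5) (nat_lit 5) (nat_lit 5) (nat_lit 4) (nat_lit 308) (nat_lit 236) (nat_lit 236)) (XT.lf (nat_lit 0) (nat_lit 38405948728) (nat_lit 76) (nat_lit 6938080475) (nat_lit 76) (nat_lit 6661109994) (nat_lit 4) (nat_lit 4) (nat_lit 5) (nat_lit 5) (nat_lit 5) (nat_lit 4) (nat_lit 309) (nat_lit 236) (nat_lit 235))) (XT.nd (nat_lit 78) (nat_lit 152) (nat_lit 0) (XT.lf (nat_lit 0) (nat_lit 51453881117) (nat_lit 76) (nat_lit 2489722985) (nat_lit 76) (nat_lit 1956298353) (nat_lit 4) (nat_lit 4) (nat_lit 5) (nat_lit 5) (nat_lit 5) (nat_lit 4) (nat_lit 310) (nat_lit 236) (nat_lit 234)) (XT.nd (nat_lit 78) (nat_lit 0) (nat_lit 0) (XT.lf (nat_lit 0) (nat_lit 2884367416) (nat_lit 152) (nat_lit 55076366168) (nat_lit 0) (nat_lit 2150193914) (nat_lit 2) (nat_lit 5) (nat_lit 4) (nat_lit 4) (nat_lit 2) (nat_lit 4) (nat_lit 311) (nat_lit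 236) (nat_lit 233)) (XT.lf (nat_lit 0) (nat_lit 7919230807) (nat_lit 152) (nat_lit 49768654343) (nat_lit 0) (nat_lit 6975659116) (nat_lit 2) (nat_lit 5) (nat_lit 4) (nat_lit 4) (nat_lit 2) (nat_lit 4) (nat_lit 312) (nat_lit 236) (nat_lit 232)))))) (XT.nd (nat_lit 390) (nat_lit 76) (nat_lit 0) (XT.nd (nat_lit 156) (nat_lit 0) (nat_lit 0) (XT.nd (nat_lit 78) (nat_lit 0) (nat_lit 0) (XT.lf (nat_lit 0) (nat_lit 13128984663) (nat_lit 152) (nat_lit 44471335830) (nat_lit 0) (nat_lit 11991525760) (nat_lit 2) (nat_lit 5) (nat_lit 4) (nat_lit 4) (nat_lit 2) (nat_lit 4) (nat_lit 313) (nat_lit 236) (nat_lit 231)) (XT.lf (nat_lit 0) (nat_lit 18544501597) (nat_lit 152) (nat_lit 39153019114) (nat_lit 0) (nat_lit 17227517498) (nat_lit 2) (nat_lit 5) (nat_lit 4) (nat_lit 4) (nat_lit 2) (nat_lit 4) (nat_lit 314) (nat_lit 236) (nat_lit 230))) (XT.nd (nat_lit 78) (nat_lit 0) (nat_lit 0) (XT.lf (nat_lit 0)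 (nat_lit 24197873563) (nat_lit 152) (nat_lit 33782188242) (nat_lit 0) (nat_lit 22714662431) (nat_lit 2) (nat_lit 5) (nat_lit 4) (nat_lit 4) (nat_lit 2) (nat_lit 4) (nat_lit 315) (nat_lit 236) (nat_lit 229)) (XT.nd (nat_lit 78) (nat_lit 0) (nat_lit 0) (XT.lf (nat_lit 0) (nat_lit 30122602024) (nat_lit 152) (nat_lit 28327016071) (nat_lit 0) (nat_lit 28485476972) (nat_lit 2) (nat_lit 5) (nat_lit 4) (nat_lit 4) (nat_lit 2) (nat_lit 4) (nat_lit 316) (nat_lit 236) (nat_lit 228)) (XT.lf (nat_lit 0) (nat_lit 36353796482) (nat_lit 152) (nat_lit 22755175652) (nat_lit 0) (nat_lit 34574158541) (nat_lit 2) (nat_lit 5) (nat_lit 4) (nat_lit 4) (nat_lit 2) (nat_lit 4) (nat_lit 317) (nat_lit 236) (nat_lit 227))))) (XT.nd (nat_lit 156) (nat_lit 76) (nat_lit 0) (XT.nd (nat_lit 78) (nat_lit 0) (nat_lit 0) (XT.lf (nat_lit 0) (nat_lit 42928382534) (nat_lit 152) (nat_lit 17033648673) (nat_lit 0) (nat_lit 41016788215)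 (nat_lit 2) (nat_lit 5) (nat_lit 4) (nat_lit 4) (nat_lit 2) (nat_lit 4) (nat_lit 318) (nat_lit 236) (nat_lit 226)) (XT.lf (nat_lit 0) (nat_lit 49885320690) (nat_lit 152) (nat_lit 11128529788) (nat_lit 0) (nat_lit 47851544538) (nat_lit 2) (nat_lit 5) (nat_lit 4) (nat_lit 4) (nat_lit 2) (nat_lit 4) (nat_lit 319) (nat_lit 236) (nat_lit 225))) (XT.nd (nat_lit 78) (nat_lit 76) (nat_lit 0) (XT.lf (nat_lit 0) (nat_lit 57265837249) (nat_lit 152) (nat_lit 5004825701) (nat_lit 0) (nat_lit 55118929772) (nat_lit 2) (nat_lit 5) (nat_lit 4) (nat_lit 4) (nat_lit 2) (nat_lit 4) (nat_lit 320) (nat_lit 236) (nat_lit 224)) (XT.nd (nat_lit 78) (nat_lit 0) (nat_lit 0) (XT.lf (nat_lit 0) (nat_lit 1419174657) (nat_lit 76) (nat_lit 63716651243) (nat_lit 76) (nat_lit 61464992538) (nat_lit 1) (nat_lit 4) (nat_lit 2) (nat_lit 5) (nat_lit 2) (nat_lit 4) (nat_lit 321) (nat_lit 236) (nat_lit 223)) (XT.lf (nat_lit 0)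 (nat_lit 8311007040) (nat_lit 76) (nat_lit 65294071502) (nat_lit 76) (nat_lit 62945420919) (nat_lit 1) (nat_lit 4) (nat_lit 2) (nat_lit 5) (nat_lit 2) (nat_lit 4) (nat_lit 322) (nat_lit 236) (nat_lit 222))))))) (XT.nd (nat_lit 780) (nat_lit 0) (nat_lit 0) (XT.nd (nat_lit 390) (nat_lit 0) (nat_lit 0) (XT.nd (nat_lit 156) (nat_lit 0) (nat_lit 0) (XT.nd (nat_lit 78) (nat_lit 0) (nat_lit 0) (XT.lf (nat_lit 0) (nat_lit 15546029795) (nat_lit 76) (nat_lit 67097030546) (nat_lit 76) (nat_lit 64658572670) (nat_lit 1) (nat_lit 4) (nat_lit 2) (nat_lit 5) (nat_lit 2) (nat_lit 4) (nat_lit 323) (nat_lit 236) (nat_lit 221)) (XT.lf (nat_lit 0) (nat_lit 23167117132) (nat_lit 76) (nat_lit 69136212579) (nat_lit 76) (nat_lit 66614599801) (nat_lit 1) (nat_lit 4) (nat_lit 2) (nat_lit 5) (nat_lit 2) (nat_lit 4) (nat_lit 324) (nat_lit 236) (nat_lit 220))) (XT.nd (nat_lit 78) (nat_lit 0) (nat_lit 0) (XT.lf (nat_lit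 0) (nat_lit 31219431049) (nat_lit 76) (nat_lit 71423701641) (nat_lit 76) (nat_lit 68825093584) (nat_lit 1) (nat_lit 4) (nat_lit 2) (nat_lit 5) (nat_lit 2) (nat_lit 4) (nat_lit 325) (nat_lit 236) (nat_lit 219)) (XT.nd (nat_lit 78) (nat_lit 0) (nat_lit 0) (XT.lf (nat_lit 0) (nat_lit 39750688962) (nat_lit 76) (nat_lit 73973053224) (nat_lit 76) (nat_lit 71303153241) (nat_lit 1) (nat_lit 4) (nat_lit 2) (nat_lit 5) (nat_lit 2) (nat_lit 4) (nat_lit 326) (nat_lit 236) (nat_lit 218)) (XT.lf (nat_lit 0) (nat_lit 48811446473) (nat_lit 76) (nat_lit 76799374595) (nat_lit 76) (nat_lit 74063463570) (nat_lit 1) (nat_lit 4) (nat_lit 2) (nat_lit 5) (nat_lit 2) (nat_lit 4) (nat_lit 327) (nat_lit 236) (nat_lit 217))))) (XT.nd (nat_lit 156) (nat_lit 0) (nat_lit 0) (XT.nd (nat_lit 78) (nat_lit 0) (nat_lit 0) (XT.lf (nat_lit 0) (nat_lit 58455396961) (nat_lit 76) (nat_lit 79919414327) (nat_lit 76) (nat_lit 77122381966)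 (nat_lit 1) (nat_lit 4) (nat_lit 2) (nat_lit 5) (nat_lit 2) (nat_lit 4) (nat_lit 328) (nat_lit 236) (nat_lit 216)) (XT.lf (nat_lit 0) (nat_lit 68739689761) (nat_lit 76) (nat_lit 83351661543) (nat_lit 76) (nat_lit 80498035354) (nat_lit 1) (nat_lit 4) (nat_lit 2) (nat_lit 5) (nat_lit 2) (nat_lit 4) (nat_lit 329) (nat_lit 236) (nat_lit 215))) (XT.nd (nat_lit 78) (nat_lit 0) (nat_lit 0) (XT.lf (nat_lit 0) (nat_lit 79725268832) (nat_lit 76) (nat_lit 87116455486) (nat_lit 76) (nat_lit 84210427603) (nat_lit 1) (nat_lit 4) (nat_lit 2) (nat_lit 5) (nat_lit 2) (nat_lit 4) (nat_lit 330) (nat_lit 236) (nat_lit 214)) (XT.nd (nat_lit 78) (nat_lit 0) (nat_lit 0) (XT.lf (nat_lit 0) (nat_lit 91477233900) (nat_lit 76) (nat_lit 91236106046) (nat_lit 76) (nat_lit 88281558077) (nat_lit 1) (nat_lit 4) (nat_lit 2) (nat_lit 5) (nat_lit 2) (nat_lit 4) (nat_lit 331) (nat_lit 236) (nat_lit 213)) (XT.lf (nat_lit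 0) (nat_lit 104065226240) (nat_lit 76) (nat_lit 95735025968) (nat_lit 76) (nat_lit 92735551992) (nat_lit 1) (nat_lit 4) (nat_lit 2) (nat_lit 5) (nat_lit 2) (nat_lit 4) (nat_lit 332) (nat_lit 236) (nat_lit 212)))))) (XT.nd (nat_lit 390) (nat_lit 0) (nat_lit 0) (XT.nd (nat_lit 156) (nat_lit 0) (nat_lit 0) (XT.nd (nat_lit 78) (nat_lit 0) (nat_lit 0) (XT.lf (nat_lit 0) (nat_lit 117563841363) (nat_lit 76) (nat_lit 100639875517) (nat_lit 76) (nat_lit 97598803388) (nat_lit 1) (nat_lit 4) (nat_lit 2) (nat_lit 5) (nat_lit 2) (nat_lit 4) (nat_lit 333) (nat_lit 236) (nat_lit 211)) (XT.lf (nat_lit 0) (nat_lit 132053071061) (nat_lit 76) (nat_lit 105979720468) (nat_lit 76) (nat_lit 102900131530) (nat_lit 1) (nat_lit 4) (nat_lit 2) (nat_lit 5) (nat_lit 2) (nat_lit 4) (nat_lit 334) (nat_lit 236) (nat_lit 210))) (XT.nd (nat_lit 78) (nat_lit 0) (nat_lit 0) (XT.lf (nat_lit 0) (nat_lit 147618777437) (nat_lit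 76) (nat_lit 111786204348) (nat_lit 76) (nat_lit 108670951698) (nat_lit 1) (nat_lit 4) (nat_lit 2) (nat_lit 5) (nat_lit 2) (nat_lit 4) (nat_lit 335) (nat_lit 236) (nat_lit 209)) (XT.nd (nat_lit 78) (nat_lit 0) (nat_lit 0) (XT.lf (nat_lit 0) (nat_lit 164353201714) (nat_lit 76) (nat_lit 118093735949) (nat_lit 76) (nat_lit 114945461344) (nat_lit 1) (nat_lit 4) (nat_lit 2) (nat_lit 5) (nat_lit 2) (nat_lit 4) (nat_lit 336) (nat_lit 236) (nat_lit 208)) (XT.lf (nat_lit 0) (nat_lit 182355510850) (nat_lit 76) (nat_lit 124939693237) (nat_lit 76) (nat_lit 121760842747) (nat_lit 1) (nat_lit 4) (nat_lit 2) (nat_lit 5) (nat_lit 2) (nat_lit 4) (nat_lit 337) (nat_lit 236) (nat_lit 207))))) (XT.nd (nat_lit 234) (nat_lit 0) (nat_lit 0) (XT.nd (nat_lit 78) (nat_lit 0) (nat_lit 0) (XT.lf (nat_lit 0) (nat_lit 201732385196) (nat_lit 76) (nat_lit 132364644847) (nat_lit 76) (nat_lit 129157483352) (nat_lit 1)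 (nat_lit 4) (nat_lit 2) (nat_lit 5) (nat_lit 2) (nat_lit 4) (nat_lit 338) (nat_lit 236) (nat_lit 206)) (XT.nd (nat_lit 78) (nat_lit 0) (nat_lit 0) (XT.lf (nat_lit 0) (nat_lit 222598650673) (nat_lit 76) (nat_lit 140412590493) (nat_lit 76) (nat_lit 137179215105) (nat_lit 1) (nat_lit 4) (nat_lit 2) (nat_lit 5) (nat_lit 2) (nat_lit 4) (nat_lit 339) (nat_lit 236) (nat_lit 205)) (XT.lf (nat_lit 0) (nat_lit 245077959226) (nat_lit 76) (nat_lit 149131221704) (nat_lit 76) (nat_lit 145873574193) (nat_lit 1) (nat_lit 4) (nat_lit 2) (nat_lit 5) (nat_lit 2) (nat_lit 4) (nat_lit 340) (nat_lit 236) (nat_lit 204)))) (XT.nd (nat_lit 78) (nat_lit 0) (nat_lit 0) (XT.lf (nat_lit 0) (nat_lit 269303521571) (nat_lit 76) (nat_lit 158572204444) (nat_lit 76) (nat_lit 155292082745) (nat_lit 1) (nat_lit 4) (nat_lit 2) (nat_lit 5) (nat_lit 2) (nat_lit 4) (nat_lit 341) (nat_lit 236) (nat_lit 203)) (XT.nd (nat_lit 78)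 (nat_lit 0) (nat_lit 0) (XT.lf (nat_lit 0) (nat_lit 295418896598) (nat_lit 76) (nat_lit 168791485276) (nat_lit 76) (nat_lit 165490554143) (nat_lit 1) (nat_lit 4) (nat_lit 2) (nat_lit 5) (nat_lit 2) (nat_lit 4) (nat_lit 342) (nat_lit 236) (nat_lit 202)) (XT.lf (nat_lit 0) (nat_lit 323578842082) (nat_lit 76) (nat_lit 179849622901) (nat_lit 76) (nat_lit 176529423775) (nat_lit 1) (nat_lit 4) (nat_lit 2) (nat_lit 5) (nat_lit 2) (nat_lit 4) (nat_lit 343) (nat_lit 236) (nat_lit 201))))))))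
noncomputable def xc11 : XT := (XT.nd (nat_lit 38844) (nat_lit 0) (nat_lit 0) (XT.nd (nat_lit 37986) (nat_lit 0) (nat_lit 76) (XT.nd (nat_lit 390) (nat_lit 0) (nat_lit 0) (XT.nd (nat_lit 156) (nat_lit 0) (nat_lit 0) (XT.nd (nat_lit 78) (nat_lit 0) (nat_lit 0) (XT.lf (nat_lit 0) (nat_lit 353950231777) (nat_lit 76) (nat_lit 191812147025) (nat_lit 76) (nat_lit 188474107163) (nat_lit 1) (nat_lit 4) (nat_lit 2) (nat_lit 5) (nat_lit 2) (nat_lit 4) (nat_lit 344) (nat_lit 236) (nat_lit 200)) (XT.lf (nat_lit 0) (nat_lit 386713044286) (nat_lit 76) (nat_lit 204749946679) (nat_lit 76) (nat_lit 201395387618) (nat_lit 1) (nat_lit 4) (nat_lit 2) (nat_lit 5) (nat_lit 2) (nat_lit 4) (nat_lit 345) (nat_lit 236) (nat_lit 199))) (XT.nd (nat_lit 78) (nat_lit 0) (nat_lit 0) (XT.lf (nat_lit 0) (nat_lit 422061429611) (nat_lit 76) (nat_lit 218739690305) (nat_lit 76) (nat_lit 215369835689) (nat_lit 1) (nat_lit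 4) (nat_lit 2) (nat_lit 5) (nat_lit 2) (nat_lit 4) (nat_lit 346) (nat_lit 236) (nat_lit 198)) (XT.nd (nat_lit 78) (nat_lit 0) (nat_lit 0) (XT.lf (nat_lit 0) (nat_lit 460204859664) (nat_lit 76) (nat_lit 233864280088) (nat_lit 76) (nat_lit 230480262922) (nat_lit 1) (nat_lit 4) (nat_lit 2) (nat_lit 5) (nat_lit 2) (nat_lit 4) (nat_lit 347) (nat_lit 236) (nat_lit 197)) (XT.lf (nat_lit 0) (nat_lit 501369369587) (nat_lit 76) (nat_lit 250213343227) (nat_lit 76) (nat_lit 246816212587) (nat_lit 1) (nat_lit 4) (nat_lit 2) (nat_lit 5) (nat_lit 2) (nat_lit 4) (nat_lit 348) (nat_lit 236) (nat_lit 196))))) (XT.nd (nat_lit 37362) (nat_lit 0) (nat_lit 228) (XT.nd (nat_lit 37284) (nat_lit 0) (nat_lit 228) (XT.lf (nat_lit 0) (nat_lit 545798897215) (nat_lit 76) (nat_lit 267883763058) (nat_lit 76) (nat_lit 264474490314) (nat_lit 1) (nat_lit 4) (nat_lit 2) (nat_lit 5) (nat_lit 2) (nat_lit 4) (nat_lit 349) (nat_lit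 236) (nat_lit 195)) (XT.lf (nat_lit 0) (nat_lit 1106117110) (nat_lit 76) (nat_lit 9956026649) (nat_lit 76) (nat_lit 9956026649) (nat_lit 4) (nat_lit 4) (nat_lit 5) (nat_lit 5) (nat_lit 5) (nat_lit 4) (nat_lit 306) (nat_lit 237) (nat_lit 237))) (XT.nd (nat_lit 78) (nat_lit 0) (nat_lit 0) (XT.lf (nat_lit 0) (nat_lit 13714920494) (nat_lit 76) (nat_lit 15840925223) (nat_lit 76) (nat_lit 15541797103) (nat_lit 4) (nat_lit 4) (nat_lit 5) (nat_lit 5) (nat_lit 5) (nat_lit 4) (nat_lit 307) (nat_lit 237) (nat_lit 236)) (XT.nd (nat_lit 78) (nat_lit 0) (nat_lit 0) (XT.lf (nat_lit 0) (nat_lit 25585607145) (nat_lit 76) (nat_lit 11704522998) (nat_lit 76) (nat_lit 11128424396) (nat_lit 4) (nat_lit 4) (nat_lit 5) (nat_lit 5) (nat_lit 5) (nat_lit 4) (nat_lit 308) (nat_lit 237) (nat_lit 235)) (XT.lf (nat_lit 0) (nat_lit 37894638981) (nat_lit 76) (nat_lit 7478334610) (nat_lit 76) (nat_lit 6645781859) (nat_lit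 4) (nat_lit 4) (nat_lit 5) (nat_lit 5) (nat_lit 5) (nat_lit 4) (nat_lit 309) (nat_lit 237) (nat_lit 234)))))) (XT.nd (nat_lit 390) (nat_lit 0) (nat_lit 0) (XT.nd (nat_lit 156) (nat_lit 0) (nat_lit 0) (XT.nd (nat_lit 78) (nat_lit 152) (nat_lit 0) (XT.lf (nat_lit 0) (nat_lit 50714958414) (nat_lit 76) (nat_lit 3137315980) (nat_lit 76) (nat_lit 2067305682) (nat_lit 4) (nat_lit 4) (nat_lit 5) (nat_lit 5) (nat_lit 5) (nat_lit 4) (nat_lit 310) (nat_lit 237) (nat_lit 233)) (XT.lf (nat_lit 0) (nat_lit 2636034234) (nat_lit 152) (nat_lit 56094164892) (nat_lit 0) (nat_lit 1407578618) (nat_lit 2) (nat_lit 5) (nat_lit 4) (nat_lit 4) (nat_lit 2) (nat_lit 4) (nat_lit 311) (nat_lit 237) (nat_lit 232))) (XT.nd (nat_lit 78) (nat_lit 0) (nat_lit 0) (XT.lf (nat_lit 0) (nat_lit 7561330987) (nat_lit 152) (nat_lit 50995592614) (nat_lit 0) (nat_lit 6138988160) (nat_lit 2) (nat_lit 5) (nat_lit 4) (nat_lit 4) (nat_lit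 2) (nat_lit 4) (nat_lit 312) (nat_lit 237) (nat_lit 231)) (XT.nd (nat_lit 78) (nat_lit 0) (nat_lit 0) (XT.lf (nat_lit 0) (nat_lit 12669634251) (nat_lit 152) (nat_lit 45891921831) (nat_lit 0) (nat_lit 11067766228) (nat_lit 2) (nat_lit 5) (nat_lit 4) (nat_lit 4) (nat_lit 2) (nat_lit 4) (nat_lit 313) (nat_lit 237) (nat_lit 230)) (XT.lf (nat_lit 0) (nat_lit 17991215453) (nat_lit 152) (nat_lit 40752908568) (nat_lit 0) (nat_lit 16223120397) (nat_lit 2) (nat_lit 5) (nat_lit 4) (nat_lit 4) (nat_lit 2) (nat_lit 4) (nat_lit 314) (nat_lit 237) (nat_lit 229))))) (XT.nd (nat_lit 234) (nat_lit 0) (nat_lit 0) (XT.nd (nat_lit 78) (nat_lit 0) (nat_lit 0) (XT.lf (nat_lit 0) (nat_lit 23557609889) (nat_lit 152) (nat_lit 35548099412) (nat_lit 0) (nat_lit 21635600913) (nat_lit 2) (nat_lit 5) (nat_lit 4) (nat_lit 4) (nat_lit 2) (nat_lit 4) (nat_lit 315) (nat_lit 237) (nat_lit 228)) (XT.nd (nat_lit 78) (nat_lit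 0) (nat_lit 0) (XT.lf (nat_lit 0) (nat_lit 29401803600) (nat_lit 152) (nat_lit 30246651052) (nat_lit 0) (nat_lit 27337281735) (nat_lit 2) (nat_lit 5) (nat_lit 4) (nat_lit 4) (nat_lit 2) (nat_lit 4) (nat_lit 316) (nat_lit 237) (nat_lit 227)) (XT.lf (nat_lit 0) (nat_lit 35558428846) (nat_lit 152) (nat_lit 24817147495) (nat_lit 0) (nat_lit 33361950602) (nat_lit 2) (nat_lit 5) (nat_lit 4) (nat_lit 4) (nat_lit 2) (nat_lit 4) (nat_lit 317) (nat_lit 237) (nat_lit 226)))) (XT.nd (nat_lit 78) (nat_lit 0) (nat_lit 0) (XT.lf (nat_lit 0) (nat_lit 42063969330) (nat_lit 152) (nat_lit 19227413906) (nat_lit 0) (nat_lit 39745309254) (nat_lit 2) (nat_lit 5) (nat_lit 4) (nat_lit 4) (nat_lit 2) (nat_lit 4) (nat_lit 318) (nat_lit 237) (nat_lit 225)) (XT.nd (nat_lit 78) (nat_lit 0) (nat_lit 0) (XT.lf (nat_lit 0) (nat_lit 48956976405) (nat_lit 152) (nat_lit 13444325939) (nat_lit 0) (nat_lit 46525185003) (nat_lit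 2) (nat_lit 5) (nat_lit 4) (nat_lit 4) (nat_lit 2) (nat_lit 4) (nat_lit 319) (nat_lit 237) (nat_lit 224)) (XT.lf (nat_lit 0) (nat_lit 56278297519) (nat_lit 152) (nat_lit 7433613442) (nat_lit 0) (nat_lit 53741754890) (nat_lit 2) (nat_lit 5) (nat_lit 4) (nat_lit 4) (nat_lit 2) (nat_lit 4) (nat_lit 320) (nat_lit 237) (nat_lit 223))))))) (XT.nd (nat_lit 780) (nat_lit 0) (nat_lit 0) (XT.nd (nat_lit 390) (nat_lit 0) (nat_lit 0) (XT.nd (nat_lit 156) (nat_lit 0) (nat_lit 0) (XT.nd (nat_lit 78) (nat_lit 76) (nat_lit 0) (XT.lf (nat_lit 0) (nat_lit 64071318279) (nat_lit 152) (nat_lit 1159657378) (nat_lit 0) (nat_lit 61437783773) (nat_lit 2) (nat_lit 5) (nat_lit 4) (nat_lit 4) (nat_lit 2) (nat_lit 4) (nat_lit 321) (nat_lit 237) (nat_lit 222)) (XT.lf (nat_lit 0) (nat_lit 5593756389) (nat_lit 76) (nat_lit 66875797374) (nat_lit 76) (nat_lit 64152455573) (nat_lit 1) (nat_lit 4) (nat_lit 2) (nat_lit 5)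 (nat_lit 2) (nat_lit 4) (nat_lit 322) (nat_lit 237) (nat_lit 221))) (XT.nd (nat_lit 78) (nat_lit 0) (nat_lit 0) (XT.lf (nat_lit 0) (nat_lit 12736117010) (nat_lit 76) (nat_lit 68722980584) (nat_lit 76) (nat_lit 65916483882) (nat_lit 1) (nat_lit 4) (nat_lit 2) (nat_lit 5) (nat_lit 2) (nat_lit 4) (nat_lit 323) (nat_lit 237) (nat_lit 220)) (XT.nd (nat_lit 78) (nat_lit 0) (nat_lit 0) (XT.lf (nat_lit 0) (nat_lit 20271406074) (nat_lit 76) (nat_lit 70803110918) (nat_lit 76) (nat_lit 67919618936) (nat_lit 1) (nat_lit 4) (nat_lit 2) (nat_lit 5) (nat_lit 2) (nat_lit 4) (nat_lit 324) (nat_lit 237) (nat_lit 219)) (XT.lf (nat_lit 0) (nat_lit 28244277146) (nat_lit 76) (nat_lit 73128515074) (nat_lit 76) (nat_lit 70173731167) (nat_lit 1) (nat_lit 4) (nat_lit 2) (nat_lit 5) (nat_lit 2) (nat_lit 4) (nat_lit 325) (nat_lit 237) (nat_lit 218))))) (XT.nd (nat_lit 156) (nat_lit 0) (nat_lit 0) (XT.nd (nat_lit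 78) (nat_lit 0) (nat_lit 0) (XT.lf (nat_lit 0) (nat_lit 36701976869) (nat_lit 76) (nat_lit 75712973225) (nat_lit 76) (nat_lit 72692178276) (nat_lit 1) (nat_lit 4) (nat_lit 2) (nat_lit 5) (nat_lit 2) (nat_lit 4) (nat_lit 326) (nat_lit 237) (nat_lit 217)) (XT.lf (nat_lit 0) (nat_lit 45694624946) (nat_lit 76) (nat_lit 78571800678) (nat_lit 76) (nat_lit 75489884394) (nat_lit 1) (nat_lit 4) (nat_lit 2) (nat_lit 5) (nat_lit 2) (nat_lit 4) (nat_lit 327) (nat_lit 237) (nat_lit 216))) (XT.nd (nat_lit 78) (nat_lit 0) (nat_lit 0) (XT.lf (nat_lit 0) (nat_lit 55275511142) (nat_lit 76) (nat_lit 81721938634) (nat_lit 76) (nat_lit 78583428521) (nat_lit 1) (nat_lit 4) (nat_lit 2) (nat_lit 5) (nat_lit 2) (nat_lit 4) (nat_lit 328) (nat_lit 237) (nat_lit 215)) (XT.nd (nat_lit 78) (nat_lit 0) (nat_lit 0) (XT.lf (nat_lit 0) (nat_lit 65501411080) (nat_lit 76) (nat_lit 85182054576) (nat_lit 76) (nat_lit 81991142769)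 (nat_lit 1) (nat_lit 4) (nat_lit 2) (nat_lit 5) (nat_lit 2) (nat_lit 4) (nat_lit 329) (nat_lit 237) (nat_lit 214)) (XT.lf (nat_lit 0) (nat_lit 76432922685) (nat_lit 76) (nat_lit 88972652895) (nat_lit 76) (nat_lit 85733221002) (nat_lit 1) (nat_lit 4) (nat_lit 2) (nat_lit 5) (nat_lit 2) (nat_lit 4) (nat_lit 330) (nat_lit 237) (nat_lit 213)))))) (XT.nd (nat_lit 390) (nat_lit 0) (nat_lit 0) (XT.nd (nat_lit 156) (nat_lit 0) (nat_lit 0) (XT.nd (nat_lit 78) (nat_lit 0) (nat_lit 0) (XT.lf (nat_lit 0) (nat_lit 88134825285) (nat_lit 76) (nat_lit 93116196396) (nat_lit 76) (nat_lit 89831838496) (nat_lit 1) (nat_lit 4) (nat_lit 2) (nat_lit 5) (nat_lit 2) (nat_lit 4) (nat_lit 331) (nat_lit 237) (nat_lit 212)) (XT.lf (nat_lit 0) (nat_lit 100676463489) (nat_lit 76) (nat_lit 97637239410) (nat_lit 76) (nat_lit 94311283357) (nat_lit 1) (nat_lit 4) (nat_lit 2) (nat_lit 5) (nat_lit 2) (nat_lit 4) (nat_lit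 332) (nat_lit 237) (nat_lit 211))) (XT.nd (nat_lit 78) (nat_lit 0) (nat_lit 0) (XT.lf (nat_lit 0) (nat_lit 114132158114) (nat_lit 76) (nat_lit 102562573305) (nat_lit 76) (nat_lit 99198100443) (nat_lit 1) (nat_lit 4) (nat_lit 2) (nat_lit 5) (nat_lit 2) (nat_lit 4) (nat_lit 333) (nat_lit 237) (nat_lit 210)) (XT.nd (nat_lit 78) (nat_lit 0) (nat_lit 0) (XT.lf (nat_lit 0) (nat_lit 128581646612) (nat_lit 76) (nat_lit 107921385243) (nat_lit 76) (nat_lit 104521248669) (nat_lit 1) (nat_lit 4) (nat_lit 2) (nat_lit 5) (nat_lit 2) (nat_lit 4) (nat_lit 334) (nat_lit 237) (nat_lit 209)) (XT.lf (nat_lit 0) (nat_lit 144110555579) (nat_lit 76) (nat_lit 113745431147) (nat_lit 76) (nat_lit 110312272618) (nat_lit 1) (nat_lit 4) (nat_lit 2) (nat_lit 5) (nat_lit 2) (nat_lit 4) (nat_lit 335) (nat_lit 237) (nat_lit 208))))) (XT.nd (nat_lit 234) (nat_lit 0) (nat_lit 0) (XT.nd (nat_lit 78) (nat_lit 0) (nat_lit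 0) (XT.lf (nat_lit 0) (nat_lit 160810908182) (nat_lit 76) (nat_lit 120069223882) (nat_lit 76) (nat_lit 116605489468) (nat_lit 1) (nat_lit 4) (nat_lit 2) (nat_lit 5) (nat_lit 2) (nat_lit 4) (nat_lit 336) (nat_lit 237) (nat_lit 207)) (XT.nd (nat_lit 78) (nat_lit 0) (nat_lit 0) (XT.lf (nat_lit 0) (nat_lit 178781669471) (nat_lit 76) (nat_lit 126930237776) (nat_lit 76) (nat_lit 123438192357) (nat_lit 1) (nat_lit 4) (nat_lit 2) (nat_lit 5) (nat_lit 2) (nat_lit 4) (nat_lit 337) (nat_lit 237) (nat_lit 206)) (XT.lf (nat_lit 0) (nat_lit 198129332847) (nat_lit 76) (nat_lit 134369130687) (nat_lit 76) (nat_lit 130850871375) (nat_lit 1) (nat_lit 4) (nat_lit 2) (nat_lit 5) (nat_lit 2) (nat_lit 4) (nat_lit 338) (nat_lit 237) (nat_lit 205)))) (XT.nd (nat_lit 78) (nat_lit 0) (nat_lit 0) (XT.lf (nat_lit 0) (nat_lit 218968551131) (nat_lit 76) (nat_lit 142429984945) (nat_lit 76) (nat_lit 138887453510) (nat_lit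 1) (nat_lit 4) (nat_lit 2) (nat_lit 5) (nat_lit 2) (nat_lit 4) (nat_lit 339) (nat_lit 237) (nat_lit 204)) (XT.nd (nat_lit 78) (nat_lit 0) (nat_lit 0) (XT.lf (nat_lit 0) (nat_lit 241422815986) (nat_lit 76) (nat_lit 151160568576) (nat_lit 76) (nat_lit 147595562952) (nat_lit 1) (nat_lit 4) (nat_lit 2) (nat_lit 5) (nat_lit 2) (nat_lit 4) (nat_lit 340) (nat_lit 237) (nat_lit 203)) (XT.lf (nat_lit 0) (nat_lit 265625189722) (nat_lit 76) (nat_lit 160612618369) (nat_lit 76) (nat_lit 157026803313) (nat_lit 1) (nat_lit 4) (nat_lit 2) (nat_lit 5) (nat_lit 2) (nat_lit 4) (nat_lit 341) (nat_lit 237) (nat_lit 202))))))))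
noncomputable def xc12 : XT := (XT.nd (nat_lit 38610) (nat_lit 0) (nat_lit 0) (XT.nd (nat_lit 37830) (nat_lit 0) (nat_lit 76) (XT.nd (nat_lit 390) (nat_lit 0) (nat_lit 0) (XT.nd (nat_lit 156) (nat_lit 0) (nat_lit 0) (XT.nd (nat_lit 78) (nat_lit 0) (nat_lit 0) (XT.lf (nat_lit 0) (nat_lit 291719093814) (nat_lit 76) (nat_lit 170842146474) (nat_lit 76) (nat_lit 167237063423) (nat_lit 1) (nat_lit 4) (nat_lit 2) (nat_lit 5) (nat_lit 2) (nat_lit 4) (nat_lit 342) (nat_lit 237) (nat_lit 201)) (XT.lf (nat_lit 0) (nat_lit 319859158804) (nat_lit 76) (nat_lit 181909772315) (nat_lit 76) (nat_lit 178286848529) (nat_lit 1) (nat_lit 4) (nat_lit 2) (nat_lit 5) (nat_lit 2) (nat_lit 4) (nat_lit 343) (nat_lit 237) (nat_lit 200))) (XT.nd (nat_lit 78) (nat_lit 0) (nat_lit 0) (XT.lf (nat_lit 0) (nat_lit 350212140633) (nat_lit 76) (nat_lit 193881081823) (nat_lit 76) (nat_lit 190241638839) (nat_lit 1) (nat_lit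 4) (nat_lit 2) (nat_lit 5) (nat_lit 2) (nat_lit 4) (nat_lit 344) (nat_lit 237) (nat_lit 199)) (XT.nd (nat_lit 78) (nat_lit 0) (nat_lit 0) (XT.lf (nat_lit 0) (nat_lit 382957908822) (nat_lit 76) (nat_lit 206827016093) (nat_lit 76) (nat_lit 203172277553) (nat_lit 1) (nat_lit 4) (nat_lit 2) (nat_lit 5) (nat_lit 2) (nat_lit 4) (nat_lit 345) (nat_lit 237) (nat_lit 198)) (XT.lf (nat_lit 0) (nat_lit 418290512370) (nat_lit 76) (nat_lit 220824291770) (nat_lit 76) (nat_lit 217155390680) (nat_lit 1) (nat_lit 4) (nat_lit 2) (nat_lit 5) (nat_lit 2) (nat_lit 4) (nat_lit 346) (nat_lit 237) (nat_lit 197))))) (XT.nd (nat_lit 156) (nat_lit 0) (nat_lit 0) (XT.nd (nat_lit 78) (nat_lit 0) (nat_lit 0) (XT.lf (nat_lit 0) (nat_lit 456419329666) (nat_lit 76) (nat_lit 235955855675) (nat_lit 76) (nat_lit 232273841112) (nat_lit 1) (nat_lit 4) (nat_lit 2) (nat_lit 5) (nat_lit 2) (nat_lit 4) (nat_lit 347) (nat_lit 237)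 (nat_lit 196)) (XT.lf (nat_lit 0) (nat_lit 497570309257) (nat_lit 76) (nat_lit 252311376333) (nat_lit 76) (nat_lit 248617219666) (nat_lit 1) (nat_lit 4) (nat_lit 2) (nat_lit 5) (nat_lit 2) (nat_lit 4) (nat_lit 348) (nat_lit 237) (nat_lit 195))) (XT.nd (nat_lit 37128) (nat_lit 0) (nat_lit 304) (XT.lf (nat_lit 0) (nat_lit 541987308802) (nat_lit 76) (nat_lit 269987775350) (nat_lit 76) (nat_lit 266282375993) (nat_lit 1) (nat_lit 4) (nat_lit 2) (nat_lit 5) (nat_lit 2) (nat_lit 4) (nat_lit 349) (nat_lit 237) (nat_lit 194)) (XT.nd (nat_lit 78) (nat_lit 0) (nat_lit 0) (XT.lf (nat_lit 0) (nat_lit 4394107158) (nat_lit 152) (nat_lit 9510708885) (nat_lit 0) (nat_lit 4394107158) (nat_lit 5) (nat_lit 5) (nat_lit 7) (nat_lit 4) (nat_lit 5) (nat_lit 4) (nat_lit 304) (nat_lit 238) (nat_lit 238)) (XT.lf (nat_lit 0) (nat_lit 15414843758) (nat_lit 152) (nat_lit 8702859894) (nat_lit 0) (nat_lit 15091785389)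 (nat_lit 5) (nat_lit 5) (nat_lit 7) (nat_lit 4) (nat_lit 5) (nat_lit 4) (nat_lit 305) (nat_lit 238) (nat_lit 237)))))) (XT.nd (nat_lit 390) (nat_lit 152) (nat_lit 0) (XT.nd (nat_lit 156) (nat_lit 0) (nat_lit 0) (XT.nd (nat_lit 78) (nat_lit 0) (nat_lit 0) (XT.lf (nat_lit 0) (nat_lit 1925507446) (nat_lit 76) (nat_lit 20370327718) (nat_lit 76) (nat_lit 19748141227) (nat_lit 4) (nat_lit 4) (nat_lit 5) (nat_lit 5) (nat_lit 5) (nat_lit 4) (nat_lit 306) (nat_lit 238) (nat_lit 236)) (XT.lf (nat_lit 0) (nat_lit 13162705968) (nat_lit 76) (nat_lit 16424399689) (nat_lit 76) (nat_lit 15525242717) (nat_lit 4) (nat_lit 4) (nat_lit 5) (nat_lit 5) (nat_lit 5) (nat_lit 4) (nat_lit 307) (nat_lit 238) (nat_lit 235))) (XT.nd (nat_lit 78) (nat_lit 0) (nat_lit 0) (XT.lf (nat_lit 0) (nat_lit 24787570625) (nat_lit 76) (nat_lit 12403923433) (nat_lit 76) (nat_lit 11248312311) (nat_lit 4) (nat_lit 4) (nat_lit 5)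 (nat_lit 5) (nat_lit 5) (nat_lit 4) (nat_lit 308) (nat_lit 238) (nat_lit 234)) (XT.nd (nat_lit 78) (nat_lit 0) (nat_lit 0) (XT.lf (nat_lit 0) (nat_lit 36868989505) (nat_lit 76) (nat_lit 8285073905) (nat_lit 76) (nat_lit 6892005237) (nat_lit 4) (nat_lit 4) (nat_lit 5) (nat_lit 5) (nat_lit 5) (nat_lit 4) (nat_lit 309) (nat_lit 238) (nat_lit 233)) (XT.lf (nat_lit 0) (nat_lit 49478556200) (nat_lit 76) (nat_lit 4043443107) (nat_lit 76) (nat_lit 2430506342) (nat_lit 4) (nat_lit 4) (nat_lit 5) (nat_lit 5) (nat_lit 5) (nat_lit 4) (nat_lit 310) (nat_lit 238) (nat_lit 232))))) (XT.nd (nat_lit 156) (nat_lit 0) (nat_lit 0) (XT.nd (nat_lit 78) (nat_lit 0) (nat_lit 0) (XT.lf (nat_lit 0) (nat_lit 2139935789) (nat_lit 152) (nat_lit 57628397773) (nat_lit 0) (nat_lit 409918324) (nat_lit 2) (nat_lit 5) (nat_lit 4) (nat_lit 4) (nat_lit 2) (nat_lit 4) (nat_lit 311) (nat_lit 238) (nat_lit 231)) (XT.lf (nat_lit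 0) (nat_lit 6963781951) (nat_lit 152) (nat_lit 52723473225) (nat_lit 0) (nat_lit 5054239290) (nat_lit 2) (nat_lit 5) (nat_lit 4) (nat_lit 4) (nat_lit 2) (nat_lit 4) (nat_lit 312) (nat_lit 238) (nat_lit 230))) (XT.nd (nat_lit 78) (nat_lit 0) (nat_lit 0) (XT.lf (nat_lit 0) (nat_lit 11978149483) (nat_lit 152) (nat_lit 47799105895) (nat_lit 0) (nat_lit 9902379789) (nat_lit 2) (nat_lit 5) (nat_lit 4) (nat_lit 4) (nat_lit 2) (nat_lit 4) (nat_lit 313) (nat_lit 238) (nat_lit 229)) (XT.nd (nat_lit 78) (nat_lit 0) (nat_lit 0) (XT.lf (nat_lit 0) (nat_lit 17212753155) (nat_lit 152) (nat_lit 42826114347) (nat_lit 0) (nat_lit 14983069541) (nat_lit 2) (nat_lit 5) (nat_lit 4) (nat_lit 4) (nat_lit 2) (nat_lit 4) (nat_lit 314) (nat_lit 238) (nat_lit 228)) (XT.lf (nat_lit 0) (nat_lit 22698612842) (nat_lit 152) (nat_lit 37775029003) (nat_lit 0) (nat_lit 20326416339) (nat_lit 2) (nat_lit 5) (nat_lit 4) (nat_lit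 4) (nat_lit 2) (nat_lit 4) (nat_lit 315) (nat_lit 238) (nat_lit 227))))))) (XT.nd (nat_lit 780) (nat_lit 0) (nat_lit 0) (XT.nd (nat_lit 390) (nat_lit 76) (nat_lit 0) (XT.nd (nat_lit 156) (nat_lit 0) (nat_lit 0) (XT.nd (nat_lit 78) (nat_lit 0) (nat_lit 0) (XT.lf (nat_lit 0) (nat_lit 28468237340) (nat_lit 152) (nat_lit 32615917504) (nat_lit 0) (nat_lit 25964084458) (nat_lit 2) (nat_lit 5) (nat_lit 4) (nat_lit 4) (nat_lit 2) (nat_lit 4) (nat_lit 316) (nat_lit 238) (nat_lit 226)) (XT.lf (nat_lit 0) (nat_lit 34555817018) (nat_lit 152) (nat_lit 27318207338) (nat_lit 0) (nat_lit 31929482304) (nat_lit 2) (nat_lit 5) (nat_lit 4) (nat_lit 4) (nat_lit 2) (nat_lit 4) (nat_lit 317) (nat_lit 238) (nat_lit 225))) (XT.nd (nat_lit 78) (nat_lit 0) (nat_lit 0) (XT.lf (nat_lit 0) (nat_lit 40997426421) (nat_lit 152) (nat_lit 21850504667) (nat_lit 0) (nat_lit 38257960382) (nat_lit 2) (nat_lit 5) (nat_lit 4)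 (nat_lit 4) (nat_lit 2) (nat_lit 4) (nat_lit 318) (nat_lit 238) (nat_lit 224)) (XT.nd (nat_lit 78) (nat_lit 0) (nat_lit 0) (XT.lf (nat_lit 0) (nat_lit 47831238050) (nat_lit 152) (nat_lit 16180408290) (nat_lit 0) (nat_lit 44987020783) (nat_lit 2) (nat_lit 5) (nat_lit 4) (nat_lit 4) (nat_lit 2) (nat_lit 4) (nat_lit 319) (nat_lit 238) (nat_lit 223)) (XT.lf (nat_lit 0) (nat_lit 55097748567) (nat_lit 152) (nat_lit 10274317636) (nat_lit 0) (nat_lit 52156539422) (nat_lit 2) (nat_lit 5) (nat_lit 4) (nat_lit 4) (nat_lit 2) (nat_lit 4) (nat_lit 320) (nat_lit 238) (nat_lit 222))))) (XT.nd (nat_lit 156) (nat_lit 0) (nat_lit 0) (XT.nd (nat_lit 78) (nat_lit 76) (nat_lit 0) (XT.lf (nat_lit 0) (nat_lit 62840018774) (nat_lit 152) (nat_lit 4097233648) (nat_lit 0) (nat_lit 59809002336) (nat_lit 2) (nat_lit 5) (nat_lit 4) (nat_lit 4) (nat_lit 2) (nat_lit 4) (nat_lit 321) (nat_lit 238) (nat_lit 221)) (XT.lf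 (nat_lit 0) (nat_lit 2466388447) (nat_lit 76) (nat_lit 68676047580) (nat_lit 76) (nat_lit 65561876240) (nat_lit 1) (nat_lit 4) (nat_lit 2) (nat_lit 5) (nat_lit 2) (nat_lit 4) (nat_lit 322) (nat_lit 238) (nat_lit 220))) (XT.nd (nat_lit 78) (nat_lit 0) (nat_lit 0) (XT.lf (nat_lit 0) (nat_lit 9522950795) (nat_lit 76) (nat_lit 70564179091) (nat_lit 76) (nat_lit 67373012472) (nat_lit 1) (nat_lit 4) (nat_lit 2) (nat_lit 5) (nat_lit 2) (nat_lit 4) (nat_lit 323) (nat_lit 238) (nat_lit 219)) (XT.nd (nat_lit 78) (nat_lit 0) (nat_lit 0) (XT.lf (nat_lit 0) (nat_lit 16978797015) (nat_lit 76) (nat_lit 72682224519) (nat_lit 76) (nat_lit 69419765974) (nat_lit 1) (nat_lit 4) (nat_lit 2) (nat_lit 5) (nat_lit 2) (nat_lit 4) (nat_lit 324) (nat_lit 238) (nat_lit 218)) (XT.lf (nat_lit 0) (nat_lit 24878109897) (nat_lit 76) (nat_lit 75042735244) (nat_lit 76) (nat_lit 71714265657) (nat_lit 1) (nat_lit 4) (nat_lit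 2) (nat_lit 5) (nat_lit 2) (nat_lit 4) (nat_lit 325) (nat_lit 238) (nat_lit 217)))))) (XT.nd (nat_lit 390) (nat_lit 0) (nat_lit 0) (XT.nd (nat_lit 156) (nat_lit 0) (nat_lit 0) (XT.nd (nat_lit 78) (nat_lit 0) (nat_lit 0) (XT.lf (nat_lit 0) (nat_lit 33267700185) (nat_lit 76) (nat_lit 77659699477) (nat_lit 76) (nat_lit 74270108554) (nat_lit 1) (nat_lit 4) (nat_lit 2) (nat_lit 5) (nat_lit 2) (nat_lit 4) (nat_lit 326) (nat_lit 238) (nat_lit 216)) (XT.lf (nat_lit 0) (nat_lit 42197283970) (nat_lit 76) (nat_lit 80548625154) (nat_lit 76) (nat_lit 77102440403) (nat_lit 1) (nat_lit 4) (nat_lit 2) (nat_lit 5) (nat_lit 2) (nat_lit 4) (nat_lit 327) (nat_lit 238) (nat_lit 215))) (XT.nd (nat_lit 78) (nat_lit 0) (nat_lit 0) (XT.lf (nat_lit 0) (nat_lit 51719777304) (nat_lit 76) (nat_lit 83726631836) (nat_lit 76) (nat_lit 80228045391) (nat_lit 1) (nat_lit 4) (nat_lit 2) (nat_lit 5) (nat_lit 2) (nat_lit 4)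 (nat_lit 328) (nat_lit 238) (nat_lit 214)) (XT.nd (nat_lit 78) (nat_lit 0) (nat_lit 0) (XT.lf (nat_lit 0) (nat_lit 61891609777) (nat_lit 76) (nat_lit 87212552153) (nat_lit 76) (nat_lit 83665445622) (nat_lit 1) (nat_lit 4) (nat_lit 2) (nat_lit 5) (nat_lit 2) (nat_lit 4) (nat_lit 329) (nat_lit 238) (nat_lit 213)) (XT.lf (nat_lit 0) (nat_lit 72773058914) (nat_lit 76) (nat_lit 91027043413) (nat_lit 76) (nat_lit 87435010876) (nat_lit 1) (nat_lit 4) (nat_lit 2) (nat_lit 5) (nat_lit 2) (nat_lit 4) (nat_lit 330) (nat_lit 238) (nat_lit 212))))) (XT.nd (nat_lit 234) (nat_lit 0) (nat_lit 0) (XT.nd (nat_lit 78) (nat_lit 0) (nat_lit 0) (XT.lf (nat_lit 0) (nat_lit 84428607377) (nat_lit 76) (nat_lit 95192710007) (nat_lit 76) (nat_lit 91559079316) (nat_lit 1) (nat_lit 4) (nat_lit 2) (nat_lit 5) (nat_lit 2) (nat_lit 4) (nat_lit 331) (nat_lit 238) (nat_lit 211)) (XT.nd (nat_lit 78) (nat_lit 0) (nat_lit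 0) (XT.lf (nat_lit 0) (nat_lit 96927325083) (nat_lit 76) (nat_lit 99734237367) (nat_lit 76) (nat_lit 96062089867) (nat_lit 1) (nat_lit 4) (nat_lit 2) (nat_lit 5) (nat_lit 2) (nat_lit 4) (nat_lit 332) (nat_lit 238) (nat_lit 210)) (XT.lf (nat_lit 0) (nat_lit 110343278508) (nat_lit 76) (nat_lit 104678538248) (nat_lit 76) (nat_lit 100970727036) (nat_lit 1) (nat_lit 4) (nat_lit 2) (nat_lit 5) (nat_lit 2) (nat_lit 4) (nat_lit 333) (nat_lit 238) (nat_lit 209)))) (XT.nd (nat_lit 78) (nat_lit 0) (nat_lit 0) (XT.lf (nat_lit 0) (nat_lit 124755969597) (nat_lit 76) (nat_lit 110054912211) (nat_lit 76) (nat_lit 106314079043) (nat_lit 1) (nat_lit 4) (nat_lit 2) (nat_lit 5) (nat_lit 2) (nat_lit 4) (nat_lit 334) (nat_lit 238) (nat_lit 208)) (XT.nd (nat_lit 78) (nat_lit 0) (nat_lit 0) (XT.lf (nat_lit 0) (nat_lit 140250806890) (nat_lit 76) (nat_lit 115895219249) (nat_lit 76) (nat_lit 112123810196) (nat_lit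 1) (nat_lit 4) (nat_lit 2) (nat_lit 5) (nat_lit 2) (nat_lit 4) (nat_lit 335) (nat_lit 238) (nat_lit 207)) (XT.lf (nat_lit 0) (nat_lit 156919611645) (nat_lit 76) (nat_lit 122234068589) (nat_lit 76) (nat_lit 118434348533) (nat_lit 1) (nat_lit 4) (nat_lit 2) (nat_lit 5) (nat_lit 2) (nat_lit 4) (nat_lit 336) (nat_lit 238) (nat_lit 206))))))))
noncomputable def xc13 : XT := (XT.nd (nat_lit 38532) (nat_lit 0) (nat_lit 0) (XT.nd (nat_lit 780) (nat_lit 0) (nat_lit 0) (XT.nd (nat_lit 390) (nat_lit 0) (nat_lit 0) (XT.nd (nat_lit 156) (nat_lit 0) (nat_lit 0) (XT.nd (nat_lit 78) (nat_lit 0) (nat_lit 0) (XT.lf (nat_lit 0) (nat_lit 174861161965) (nat_lit 76) (nat_lit 129109023784) (nat_lit 76) (nat_lit 125283089834) (nat_lit 1) (nat_lit 4) (nat_lit 2) (nat_lit 5) (nat_lit 2) (nat_lit 4) (nat_lit 337) (nat_lit 238) (nat_lit 205)) (XT.lf (nat_lit 0) (nat_lit 194181778148) (nat_lit 76) (nat_lit 136560825308)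 (nat_lit 76) (nat_lit 132710619235) (nat_lit 1) (nat_lit 4) (nat_lit 2) (nat_lit 5) (nat_lit 2) (nat_lit 4) (nat_lit 338) (nat_lit 238) (nat_lit 204))) (XT.nd (nat_lit 78) (nat_lit 0) (nat_lit 0) (XT.lf (nat_lit 0) (nat_lit 214995952734) (nat_lit 76) (nat_lit 144633631985) (nat_lit 76) (nat_lit 140760951724) (nat_lit 1) (nat_lit 4) (nat_lit 2) (nat_lit 5) (nat_lit 2) (nat_lit 4) (nat_lit 339) (nat_lit 238) (nat_lit 203)) (XT.nd (nat_lit 78) (nat_lit 0) (nat_lit 0) (XT.lf (nat_lit 0) (nat_lit 237427028980) (nat_lit 76) (nat_lit 153375282670) (nat_lit 76) (nat_lit 149481792975) (nat_lit 1) (nat_lit 4) (nat_lit 2) (nat_lit 5) (nat_lit 2) (nat_lit 4) (nat_lit 340) (nat_lit 238) (nat_lit 202)) (XT.lf (nat_lit 0) (nat_lit 261607931782) (nat_lit 76) (nat_lit 162837579736) (nat_lit 76) (nat_lit 158924822048) (nat_lit 1) (nat_lit 4) (nat_lit 2) (nat_lit 5) (nat_lit 2) (nat_lit 4) (nat_lit 341)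 (nat_lit 238) (nat_lit 201))))) (XT.nd (nat_lit 156) (nat_lit 0) (nat_lit 0) (XT.nd (nat_lit 78) (nat_lit 0) (nat_lit 0) (XT.lf (nat_lit 0) (nat_lit 287681955379) (nat_lit 76) (nat_lit 173076596056) (nat_lit 76) (nat_lit 169145997633) (nat_lit 1) (nat_lit 4) (nat_lit 2) (nat_lit 5) (nat_lit 2) (nat_lit 4) (nat_lit 342) (nat_lit 238) (nat_lit 200)) (XT.lf (nat_lit 0) (nat_lit 315803612503) (nat_lit 76) (nat_lit 184153007282) (nat_lit 76) (nat_lit 180205889659) (nat_lit 1) (nat_lit 4) (nat_lit 2) (nat_lit 5) (nat_lit 2) (nat_lit 4) (nat_lit 343) (nat_lit 238) (nat_lit 199))) (XT.nd (nat_lit 78) (nat_lit 0) (nat_lit 0) (XT.lf (nat_lit 0) (nat_lit 346139550012) (nat_lit 76) (nat_lit 196132451406) (nat_lit 76) (nat_lit 192170038228) (nat_lit 1) (nat_lit 4) (nat_lit 2) (nat_lit 5) (nat_lit 2) (nat_lit 4) (nat_lit 344) (nat_lit 238) (nat_lit 198)) (XT.nd (nat_lit 78) (nat_lit 0) (nat_lit 0) (XT.lf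 (nat_lit 0) (nat_lit 378869536424) (nat_lit 76) (nat_lit 209085917727) (nat_lit 76) (nat_lit 205109341998) (nat_lit 1) (nat_lit 4) (nat_lit 2) (nat_lit 5) (nat_lit 2) (nat_lit 4) (nat_lit 345) (nat_lit 238) (nat_lit 197)) (XT.lf (nat_lit 0) (nat_lit 414187527214) (nat_lit 76) (nat_lit 223090167526) (nat_lit 76) (nat_lit 219100478324) (nat_lit 1) (nat_lit 4) (nat_lit 2) (nat_lit 5) (nat_lit 2) (nat_lit 4) (nat_lit 346) (nat_lit 238) (nat_lit 196)))))) (XT.nd (nat_lit 37284) (nat_lit 0) (nat_lit 228) (XT.nd (nat_lit 156) (nat_lit 0) (nat_lit 0) (XT.nd (nat_lit 78) (nat_lit 0) (nat_lit 0) (XT.lf (nat_lit 0) (nat_lit 452302814179) (nat_lit 76) (nat_lit 238228188950) (nat_lit 76) (nat_lit 234226357644) (nat_lit 1) (nat_lit 4) (nat_lit 2) (nat_lit 5) (nat_lit 2) (nat_lit 4) (nat_lit 347) (nat_lit 238) (nat_lit 195)) (XT.lf (nat_lit 0) (nat_lit 493441265687) (nat_lit 76) (nat_lit 254589688794)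 (nat_lit 76) (nat_lit 250576614799) (nat_lit 1) (nat_lit 4) (nat_lit 2) (nat_lit 5) (nat_lit 2) (nat_lit 4) (nat_lit 348) (nat_lit 238) (nat_lit 194))) (XT.nd (nat_lit 36972) (nat_lit 0) (nat_lit 304) (XT.lf (nat_lit 0) (nat_lit 537846665154) (nat_lit 76) (nat_lit 272271624093) (nat_lit 76) (nat_lit 268248140200) (nat_lit 1) (nat_lit 4) (nat_lit 2) (nat_lit 5) (nat_lit 2) (nat_lit 4) (nat_lit 349) (nat_lit 238) (nat_lit 193)) (XT.nd (nat_lit 78) (nat_lit 152) (nat_lit 0) (XT.lf (nat_lit 0) (nat_lit 12611312832) (nat_lit 76) (nat_lit 1686218046) (nat_lit 76) (nat_lit 1686218046) (nat_lit 7) (nat_lit 4) (nat_lit 8) (nat_lit 5) (nat_lit 8) (nat_lit 4) (nat_lit 302) (nat_lit 239) (nat_lit 239)) (XT.lf (nat_lit 0) (nat_lit 2695518395) (nat_lit 152) (nat_lit 29152941457) (nat_lit 0) (nat_lit 2346615356) (nat_lit 5) (nat_lit 5) (nat_lit 7) (nat_lit 4) (nat_lit 5) (nat_lit 4) (nat_lit 303) (nat_lit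 239) (nat_lit 238))))) (XT.nd (nat_lit 234) (nat_lit 0) (nat_lit 0) (XT.nd (nat_lit 78) (nat_lit 76) (nat_lit 0) (XT.lf (nat_lit 0) (nat_lit 8978320512) (nat_lit 152) (nat_lit 19321171474) (nat_lit 0) (nat_lit 8306359103) (nat_lit 5) (nat_lit 5) (nat_lit 7) (nat_lit 4) (nat_lit 5) (nat_lit 4) (nat_lit 304) (nat_lit 239) (nat_lit 237)) (XT.nd (nat_lit 78) (nat_lit 76) (nat_lit 0) (XT.lf (nat_lit 0) (nat_lit 15457915839) (nat_lit 152) (nat_lit 9280163323) (nat_lit 0) (nat_lit 14486826310) (nat_lit 5) (nat_lit 5) (nat_lit 7) (nat_lit 4) (nat_lit 5) (nat_lit 4) (nat_lit 305) (nat_lit 239) (nat_lit 236)) (XT.lf (nat_lit 0) (nat_lit 1063628006) (nat_lit 76) (nat_lit 21125680187) (nat_lit 76) (nat_lit 19877620176) (nat_lit 4) (nat_lit 4) (nat_lit 5) (nat_lit 5) (nat_lit 5) (nat_lit 4) (nat_lit 306) (nat_lit 239) (nat_lit 235)))) (XT.nd (nat_lit 78) (nat_lit 0) (nat_lit 0) (XT.lf (nat_lit 0) (nat_lit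 12055004534) (nat_lit 76) (nat_lit 17295678127) (nat_lit 76) (nat_lit 15791163966) (nat_lit 4) (nat_lit 4) (nat_lit 5) (nat_lit 5) (nat_lit 5) (nat_lit 4) (nat_lit 307) (nat_lit 239) (nat_lit 234)) (XT.nd (nat_lit 78) (nat_lit 0) (nat_lit 0) (XT.lf (nat_lit 0) (nat_lit 23452256234) (nat_lit 76) (nat_lit 13382540731) (nat_lit 76) (nat_lit 11640569024) (nat_lit 4) (nat_lit 4) (nat_lit 5) (nat_lit 5) (nat_lit 5) (nat_lit 4) (nat_lit 308) (nat_lit 239) (nat_lit 233)) (XT.lf (nat_lit 0) (nat_lit 35322922376) (nat_lit 76) (nat_lit 9363079036) (nat_lit 76) (nat_lit 7401239230) (nat_lit 4) (nat_lit 4) (nat_lit 5) (nat_lit 5) (nat_lit 5) (nat_lit 4) (nat_lit 309) (nat_lit 239) (nat_lit 232))))))) (XT.nd (nat_lit 780) (nat_lit 76) (nat_lit 0) (XT.nd (nat_lit 390) (nat_lit 0) (nat_lit 0) (XT.nd (nat_lit 156) (nat_lit 0) (nat_lit 0) (XT.nd (nat_lit 78) (nat_lit 152) (nat_lit 0) (XT.lf (nat_lit 0)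 (nat_lit 47737347648) (nat_lit 76) (nat_lit 5213474010) (nat_lit 76) (nat_lit 3048052632) (nat_lit 4) (nat_lit 4) (nat_lit 5) (nat_lit 5) (nat_lit 5) (nat_lit 4) (nat_lit 310) (nat_lit 239) (nat_lit 231)) (XT.lf (nat_lit 0) (nat_lit 530060082) (nat_lit 76) (nat_lit 876760852) (nat_lit 152) (nat_lit 58825084404) (nat_lit 2) (nat_lit 5) (nat_lit 3) (nat_lit 5) (nat_lit 4) (nat_lit 4) (nat_lit 311) (nat_lit 239) (nat_lit 230))) (XT.nd (nat_lit 78) (nat_lit 0) (nat_lit 0) (XT.lf (nat_lit 0) (nat_lit 6123042670) (nat_lit 152) (nat_lit 54962535466) (nat_lit 0) (nat_lit 3714984366) (nat_lit 2) (nat_lit 5) (nat_lit 4) (nat_lit 4) (nat_lit 2) (nat_lit 4) (nat_lit 312) (nat_lit 239) (nat_lit 229)) (XT.nd (nat_lit 78) (nat_lit 0) (nat_lit 0) (XT.lf (nat_lit 0) (nat_lit 11050432672) (nat_lit 152) (nat_lit 50204189852) (nat_lit 0) (nat_lit 8488460448) (nat_lit 2) (nat_lit 5) (nat_lit 4) (nat_lit 4)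 (nat_lit 2) (nat_lit 4) (nat_lit 313) (nat_lit 239) (nat_lit 228)) (XT.lf (nat_lit 0) (nat_lit 16204501594) (nat_lit 152) (nat_lit 45384922116) (nat_lit 0) (nat_lit 13500016482) (nat_lit 2) (nat_lit 5) (nat_lit 4) (nat_lit 4) (nat_lit 2) (nat_lit 4) (nat_lit 314) (nat_lit 239) (nat_lit 227))))) (XT.nd (nat_lit 156) (nat_lit 0) (nat_lit 0) (XT.nd (nat_lit 78) (nat_lit 0) (nat_lit 0) (XT.lf (nat_lit 0) (nat_lit 21615792067) (nat_lit 152) (nat_lit 40476173634) (nat_lit 0) (nat_lit 18779350577) (nat_lit 2) (nat_lit 5) (nat_lit 4) (nat_lit 4) (nat_lit 2) (nat_lit 4) (nat_lit 315) (nat_lit 239) (nat_lit 226)) (XT.lf (nat_lit 0) (nat_lit 27316370998) (nat_lit 152) (nat_lit 35448855526) (nat_lit 0) (nat_lit 24357747676) (nat_lit 2) (nat_lit 5) (nat_lit 4) (nat_lit 4) (nat_lit 2) (nat_lit 4) (nat_lit 316) (nat_lit 239) (nat_lit 225))) (XT.nd (nat_lit 78) (nat_lit 0) (nat_lit 0) (XT.lf (nat_lit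 0) (nat_lit 33340019595) (nat_lit 152) (nat_lit 30273176277) (nat_lit 0) (nat_lit 30268264946) (nat_lit 2) (nat_lit 5) (nat_lit 4) (nat_lit 4) (nat_lit 2) (nat_lit 4) (nat_lit 317) (nat_lit 239) (nat_lit 224)) (XT.nd (nat_lit 78) (nat_lit 0) (nat_lit 0) (XT.lf (nat_lit 0) (nat_lit 39722433553) (nat_lit 152) (nat_lit 24918465196) (nat_lit 0) (nat_lit 36545927677) (nat_lit 2) (nat_lit 5) (nat_lit 4) (nat_lit 4) (nat_lit 2) (nat_lit 4) (nat_lit 318) (nat_lit 239) (nat_lit 223)) (XT.lf (nat_lit 0) (nat_lit 46501434584) (nat_lit 152) (nat_lit 19352990662) (nat_lit 0) (nat_lit 43227936831) (nat_lit 2) (nat_lit 5) (nat_lit 4) (nat_lit 4) (nat_lit 2) (nat_lit 4) (nat_lit 319) (nat_lit 239) (nat_lit 222)))))) (XT.nd (nat_lit 390) (nat_lit 0) (nat_lit 0) (XT.nd (nat_lit 156) (nat_lit 76) (nat_lit 0) (XT.nd (nat_lit 78) (nat_lit 0) (nat_lit 0) (XT.lf (nat_lit 0) (nat_lit 53717194548) (nat_lit 152)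 (nat_lit 13543772084) (nat_lit 0) (nat_lit 50353889500) (nat_lit 2) (nat_lit 5) (nat_lit 4) (nat_lit 4) (nat_lit 2) (nat_lit 4) (nat_lit 320) (nat_lit 239) (nat_lit 221)) (XT.lf (nat_lit 0) (nat_lit 61412473502) (nat_lit 152) (nat_lit 7456384464) (nat_lit 0) (nat_lit 57966013553) (nat_lit 2) (nat_lit 5) (nat_lit 4) (nat_lit 4) (nat_lit 2) (nat_lit 4) (nat_lit 321) (nat_lit 239) (nat_lit 220))) (XT.nd (nat_lit 78) (nat_lit 76) (nat_lit 0) (XT.lf (nat_lit 0) (nat_lit 69632873100) (nat_lit 152) (nat_lit 1054754393) (nat_lit 0) (nat_lit 66109417871) (nat_lit 2) (nat_lit 5) (nat_lit 4) (nat_lit 4) (nat_lit 2) (nat_lit 4) (nat_lit 322) (nat_lit 239) (nat_lit 219)) (XT.nd (nat_lit 78) (nat_lit 0) (nat_lit 0) (XT.lf (nat_lit 0) (nat_lit 5887490166) (nat_lit 76) (nat_lit 72631536875) (nat_lit 76) (nat_lit 69036789721) (nat_lit 1) (nat_lit 4) (nat_lit 2) (nat_lit 5) (nat_lit 2) (nat_lit 4) (nat_lit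 323) (nat_lit 239) (nat_lit 218)) (XT.lf (nat_lit 0) (nat_lit 13269778196) (nat_lit 76) (nat_lit 74784688871) (nat_lit 76) (nat_lit 71123930675) (nat_lit 1) (nat_lit 4) (nat_lit 2) (nat_lit 5) (nat_lit 2) (nat_lit 4) (nat_lit 324) (nat_lit 239) (nat_lit 217))))) (XT.nd (nat_lit 234) (nat_lit 0) (nat_lit 0) (XT.nd (nat_lit 78) (nat_lit 0) (nat_lit 0) (XT.lf (nat_lit 0) (nat_lit 21100981643) (nat_lit 76) (nat_lit 77177705678) (nat_lit 76) (nat_lit 73455826146) (nat_lit 1) (nat_lit 4) (nat_lit 2) (nat_lit 5) (nat_lit 2) (nat_lit 4) (nat_lit 325) (nat_lit 239) (nat_lit 216)) (XT.nd (nat_lit 78) (nat_lit 0) (nat_lit 0) (XT.lf (nat_lit 0) (nat_lit 29427507640) (nat_lit 76) (nat_lit 79824768134) (nat_lit 76) (nat_lit 76046294774) (nat_lit 1) (nat_lit 4) (nat_lit 2) (nat_lit 5) (nat_lit 2) (nat_lit 4) (nat_lit 326) (nat_lit 239) (nat_lit 215)) (XT.lf (nat_lit 0) (nat_lit 38298698562) (nat_lit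 76) (nat_lit 82741562538) (nat_lit 76) (nat_lit 78910687484) (nat_lit 1) (nat_lit 4) (nat_lit 2) (nat_lit 5) (nat_lit 2) (nat_lit 4) (nat_lit 327) (nat_lit 239) (nat_lit 214)))) (XT.nd (nat_lit 78) (nat_lit 0) (nat_lit 0) (XT.lf (nat_lit 0) (nat_lit 47767124431) (nat_lit 76) (nat_lit 85945373595) (nat_lit 76) (nat_lit 82065978455) (nat_lit 1) (nat_lit 4) (nat_lit 2) (nat_lit 5) (nat_lit 2) (nat_lit 4) (nat_lit 328) (nat_lit 239) (nat_lit 213)) (XT.nd (nat_lit 78) (nat_lit 0) (nat_lit 0) (XT.lf (nat_lit 0) (nat_lit 57888894435) (nat_lit 76) (nat_lit 89455186853) (nat_lit 76) (nat_lit 85530865707) (nat_lit 1) (nat_lit 4) (nat_lit 2) (nat_lit 5) (nat_lit 2) (nat_lit 4) (nat_lit 329) (nat_lit 239) (nat_lit 212)) (XT.lf (nat_lit 0) (nat_lit 68723989436) (nat_lit 76) (nat_lit 93291801206) (nat_lit 76) (nat_lit 89325881906) (nat_lit 1) (nat_lit 4) (nat_lit 2) (nat_lit 5) (nat_lit 2) (nat_lit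 4) (nat_lit 330) (nat_lit 239) (nat_lit 211))))))))
noncomputable def xc14 : XT := (XT.nd (nat_lit 38298) (nat_lit 0) (nat_lit 76) (XT.nd (nat_lit 780) (nat_lit 0) (nat_lit 0) (XT.nd (nat_lit 390) (nat_lit 0) (nat_lit 0) (XT.nd (nat_lit 156) (nat_lit 0) (nat_lit 0) (XT.nd (nat_lit 78) (nat_lit 0) (nat_lit 0) (XT.lf (nat_lit 0) (nat_lit 80336617402) (nat_lit 76) (nat_lit 97477952145) (nat_lit 76) (nat_lit 93473516036) (nat_lit 1) (nat_lit 4) (nat_lit 2) (nat_lit 5) (nat_lit 2) (nat_lit 4) (nat_lit 331) (nat_lit 239) (nat_lit 210)) (XT.lf (nat_lit 0) (nat_lit 92795593907) (nat_lit 76) (nat_lit 102038446492) (nat_lit 76) (nat_lit 97998346671) (nat_lit 1) (nat_lit 4) (nat_lit 2) (nat_lit 5) (nat_lit 2) (nat_lit 4) (nat_lit 332) (nat_lit 239) (nat_lit 209))) (XT.nd (nat_lit 78) (nat_lit 0) (nat_lit 0) (XT.lf (nat_lit 0) (nat_lit 106174749923) (nat_lit 76) (nat_lit 107000309398) (nat_lit 76)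 (nat_lit 102927187621) (nat_lit 1) (nat_lit 4) (nat_lit 2) (nat_lit 5) (nat_lit 2) (nat_lit 4) (nat_lit 333) (nat_lit 239) (nat_lit 208)) (XT.nd (nat_lit 78) (nat_lit 0) (nat_lit 0) (XT.lf (nat_lit 0) (nat_lit 120553369337) (nat_lit 76) (nat_lit 112392944494) (nat_lit 76) (nat_lit 108289246833) (nat_lit 1) (nat_lit 4) (nat_lit 2) (nat_lit 5) (nat_lit 2) (nat_lit 4) (nat_lit 334) (nat_lit 239) (nat_lit 207)) (XT.lf (nat_lit 0) (nat_lit 136016658784) (nat_lit 76) (nat_lit 118248308138) (nat_lit 76) (nat_lit 114116299472) (nat_lit 1) (nat_lit 4) (nat_lit 2) (nat_lit 5) (nat_lit 2) (nat_lit 4) (nat_lit 335) (nat_lit 239) (nat_lit 206))))) (XT.nd (nat_lit 156) (nat_lit 0) (nat_lit 0) (XT.nd (nat_lit 78) (nat_lit 0) (nat_lit 0) (XT.lf (nat_lit 0) (nat_lit 152656252570) (nat_lit 76) (nat_lit 124601098780) (nat_lit 76) (nat_lit 120442876221) (nat_lit 1) (nat_lit 4) (nat_lit 2) (nat_lit 5) (nat_lit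 2) (nat_lit 4) (nat_lit 336) (nat_lit 239) (nat_lit 205)) (XT.lf (nat_lit 0) (nat_lit 170570755697) (nat_lit 76) (nat_lit 131488962587) (nat_lit 76) (nat_lit 127306467905) (nat_lit 1) (nat_lit 4) (nat_lit 2) (nat_lit 5) (nat_lit 2) (nat_lit 4) (nat_lit 337) (nat_lit 239) (nat_lit 204))) (XT.nd (nat_lit 78) (nat_lit 0) (nat_lit 0) (XT.lf (nat_lit 0) (nat_lit 189866328182) (nat_lit 76) (nat_lit 138952716530) (nat_lit 76) (nat_lit 134747747660) (nat_lit 1) (nat_lit 4) (nat_lit 2) (nat_lit 5) (nat_lit 2) (nat_lit 4) (nat_lit 338) (nat_lit 239) (nat_lit 203)) (XT.nd (nat_lit 78) (nat_lit 0) (nat_lit 0) (XT.lf (nat_lit 0) (nat_lit 210657314158) (nat_lit 76) (nat_lit 147036590262) (nat_lit 76) (nat_lit 142810811958) (nat_lit 1) (nat_lit 4) (nat_lit 2) (nat_lit 5) (nat_lit 2) (nat_lit 4) (nat_lit 339) (nat_lit 239) (nat_lit 202)) (XT.lf (nat_lit 0) (nat_lit 233066919470) (nat_lit 76) (nat_lit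 155788488219) (nat_lit 76) (nat_lit 151543441921) (nat_lit 1) (nat_lit 4) (nat_lit 2) (nat_lit 5) (nat_lit 2) (nat_lit 4) (nat_lit 340) (nat_lit 239) (nat_lit 201)))))) (XT.nd (nat_lit 390) (nat_lit 0) (nat_lit 0) (XT.nd (nat_lit 156) (nat_lit 0) (nat_lit 0) (XT.nd (nat_lit 78) (nat_lit 0) (nat_lit 0) (XT.lf (nat_lit 0) (nat_lit 257227941777) (nat_lit 76) (nat_lit 165260273501) (nat_lit 76) (nat_lit 160997386468) (nat_lit 1) (nat_lit 4) (nat_lit 2) (nat_lit 5) (nat_lit 2) (nat_lit 4) (nat_lit 341) (nat_lit 239) (nat_lit 200)) (XT.lf (nat_lit 0) (nat_lit 283283557508) (nat_lit 76) (nat_lit 175508075205) (nat_lit 76) (nat_lit 171228668974) (nat_lit 1) (nat_lit 4) (nat_lit 2) (nat_lit 5) (nat_lit 2) (nat_lit 4) (nat_lit 342) (nat_lit 239) (nat_lit 199))) (XT.nd (nat_lit 78) (nat_lit 0) (nat_lit 0) (XT.lf (nat_lit 0) (nat_lit 311388170313) (nat_lit 76) (nat_lit 186592621047) (nat_lit 76) (nat_lit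 182297919260) (nat_lit 1) (nat_lit 4) (nat_lit 2) (nat_lit 5) (nat_lit 2) (nat_lit 4) (nat_lit 343) (nat_lit 239) (nat_lit 198)) (XT.nd (nat_lit 78) (nat_lit 0) (nat_lit 0) (XT.lf (nat_lit 0) (nat_lit 341708326044) (nat_lit 76) (nat_lit 198579597222) (nat_lit 76) (nat_lit 194270732884) (nat_lit 1) (nat_lit 4) (nat_lit 2) (nat_lit 5) (nat_lit 2) (nat_lit 4) (nat_lit 344) (nat_lit 239) (nat_lit 197)) (XT.lf (nat_lit 0) (nat_lit 374423699699) (nat_lit 76) (nat_lit 211540037664) (nat_lit 76) (nat_lit 207218059854) (nat_lit 1) (nat_lit 4) (nat_lit 2) (nat_lit 5) (nat_lit 2) (nat_lit 4) (nat_lit 345) (nat_lit 239) (nat_lit 196))))) (XT.nd (nat_lit 156) (nat_lit 0) (nat_lit 0) (XT.nd (nat_lit 78) (nat_lit 0) (nat_lit 0) (XT.lf (nat_lit 0) (nat_lit 409728160158) (nat_lit 76) (nat_lit 225550744983) (nat_lit 76) (nat_lit 221216625068) (nat_lit 1) (nat_lit 4) (nat_lit 2) (nat_lit 5) (nat_lit 2) (nat_lit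 4) (nat_lit 346) (nat_lit 239) (nat_lit 195)) (XT.lf (nat_lit 0) (nat_lit 447830919039) (nat_lit 76) (nat_lit 240694745593) (nat_lit 76) (nat_lit 236349382989) (nat_lit 1) (nat_lit 4) (nat_lit 2) (nat_lit 5) (nat_lit 2) (nat_lit 4) (nat_lit 347) (nat_lit 239) (nat_lit 194))) (XT.nd (nat_lit 78) (nat_lit 0) (nat_lit 0) (XT.lf (nat_lit 0) (nat_lit 488957770469) (nat_lit 76) (nat_lit 257061781719) (nat_lit 76) (nat_lit 252706009218) (nat_lit 1) (nat_lit 4) (nat_lit 2) (nat_lit 5) (nat_lit 2) (nat_lit 4) (nat_lit 348) (nat_lit 239) (nat_lit 193)) (XT.nd (nat_lit 36816) (nat_lit 0) (nat_lit 532) (XT.lf (nat_lit 0) (nat_lit 533352429123) (nat_lit 76) (nat_lit 274748843206) (nat_lit 76) (nat_lit 270383431910) (nat_lit 1) (nat_lit 4) (nat_lit 2) (nat_lit 5) (nat_lit 2) (nat_lit 4) (nat_lit 349) (nat_lit 239) (nat_lit 192)) (XT.lf (nat_lit 0) (nat_lit 6748179890) (nat_lit 152) (nat_lit 512904378)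 (nat_lit 0) (nat_lit 6748179890) (nat_lit 8) (nat_lit 5) (nat_lit 10) (nat_lit 4) (nat_lit 8) (nat_lit 4) (nat_lit 300) (nat_lit 240) (nat_lit 240))))))) (XT.nd (nat_lit 780) (nat_lit 152) (nat_lit 0) (XT.nd (nat_lit 390) (nat_lit 76) (nat_lit 0) (XT.nd (nat_lit 156) (nat_lit 152) (nat_lit 0) (XT.nd (nat_lit 78) (nat_lit 0) (nat_lit 0) (XT.lf (nat_lit 0) (nat_lit 11732753580) (nat_lit 76) (nat_lit 9288086091) (nat_lit 76) (nat_lit 8892430044) (nat_lit 7) (nat_lit 4) (nat_lit 8) (nat_lit 5) (nat_lit 8) (nat_lit 4) (nat_lit 301) (nat_lit 240) (nat_lit 239)) (XT.lf (nat_lit 0) (nat_lit 24920767757) (nat_lit 76) (nat_lit 3908441641) (nat_lit 76) (nat_lit 3146437403) (nat_lit 7) (nat_lit 4) (nat_lit 8) (nat_lit 5) (nat_lit 8) (nat_lit 4) (nat_lit 302) (nat_lit 240) (nat_lit 238))) (XT.nd (nat_lit 78) (nat_lit 0) (nat_lit 0) (XT.lf (nat_lit 0) (nat_lit 2742036243) (nat_lit 152) (nat_lit 29776429160)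 (nat_lit 0) (nat_lit 1693259551) (nat_lit 5) (nat_lit 5) (nat_lit 7) (nat_lit 4) (nat_lit 5) (nat_lit 4) (nat_lit 303) (nat_lit 240) (nat_lit 237)) (XT.nd (nat_lit 78) (nat_lit 0) (nat_lit 0) (XT.lf (nat_lit 0) (nat_lit 8877804244) (nat_lit 152) (nat_lit 20222208904) (nat_lit 0) (nat_lit 7529899432) (nat_lit 5) (nat_lit 5) (nat_lit 7) (nat_lit 4) (nat_lit 5) (nat_lit 4) (nat_lit 304) (nat_lit 240) (nat_lit 236)) (XT.lf (nat_lit 0) (nat_lit 15221256873) (nat_lit 152) (nat_lit 10438191239) (nat_lit 0) (nat_lit 13596381579) (nat_lit 5) (nat_lit 5) (nat_lit 7) (nat_lit 4) (nat_lit 5) (nat_lit 4) (nat_lit 305) (nat_lit 240) (nat_lit 235))))) (XT.nd (nat_lit 156) (nat_lit 0) (nat_lit 0) (XT.nd (nat_lit 78) (nat_lit 76) (nat_lit 0) (XT.lf (nat_lit 0) (nat_lit 21809984958) (nat_lit 152) (nat_lit 366396803) (nat_lit 0) (nat_lit 19928655514) (nat_lit 5) (nat_lit 5) (nat_lit 7) (nat_lit 4) (nat_lit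 5) (nat_lit 4) (nat_lit 306) (nat_lit 240) (nat_lit 234)) (XT.lf (nat_lit 0) (nat_lit 10385252035) (nat_lit 76) (nat_lit 18459923668) (nat_lit 76) (nat_lit 16341136679) (nat_lit 4) (nat_lit 4) (nat_lit 5) (nat_lit 5) (nat_lit 5) (nat_lit 4) (nat_lit 307) (nat_lit 240) (nat_lit 233))) (XT.nd (nat_lit 78) (nat_lit 0) (nat_lit 0) (XT.lf (nat_lit 0) (nat_lit 21571750997) (nat_lit 76) (nat_lit 14646174105) (nat_lit 76) (nat_lit 12307519017) (nat_lit 4) (nat_lit 4) (nat_lit 5) (nat_lit 5) (nat_lit 5) (nat_lit 4) (nat_lit 308) (nat_lit 240) (nat_lit 232)) (XT.nd (nat_lit 78) (nat_lit 0) (nat_lit 0) (XT.lf (nat_lit 0) (nat_lit 33247275715) (nat_lit 76) (nat_lit 10718738182) (nat_lit 76) (nat_lit 8176501522) (nat_lit 4) (nat_lit 4) (nat_lit 5) (nat_lit 5) (nat_lit 5) (nat_lit 4) (nat_lit 309) (nat_lit 240) (nat_lit 231)) (XT.lf (nat_lit 0) (nat_lit 45481014483) (nat_lit 76) (nat_lit 6654342204)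 (nat_lit 76) (nat_lit 3923604088) (nat_lit 4) (nat_lit 4) (nat_lit 5) (nat_lit 5) (nat_lit 5) (nat_lit 4) (nat_lit 310) (nat_lit 240) (nat_lit 230)))))) (XT.nd (nat_lit 390) (nat_lit 0) (nat_lit 0) (XT.nd (nat_lit 156) (nat_lit 0) (nat_lit 0) (XT.nd (nat_lit 78) (nat_lit 76) (nat_lit 0) (XT.lf (nat_lit 0) (nat_lit 461128643) (nat_lit 152) (nat_lit 1959962781) (nat_lit 76) (nat_lit 57876525450) (nat_lit 3) (nat_lit 5) (nat_lit 5) (nat_lit 5) (nat_lit 4) (nat_lit 4) (nat_lit 311) (nat_lit 240) (nat_lit 229)) (XT.lf (nat_lit 0) (nat_lit 5034130984) (nat_lit 152) (nat_lit 57726047857) (nat_lit 0) (nat_lit 2113287062) (nat_lit 2) (nat_lit 5) (nat_lit 4) (nat_lit 4) (nat_lit 2) (nat_lit 4) (nat_lit 312) (nat_lit 240) (nat_lit 228))) (XT.nd (nat_lit 78) (nat_lit 0) (nat_lit 0) (XT.lf (nat_lit 0) (nat_lit 9880986236) (nat_lit 152) (nat_lit 53121426054) (nat_lit 0) (nat_lit 6817629426) (nat_lit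 2) (nat_lit 5) (nat_lit 4) (nat_lit 4) (nat_lit 2) (nat_lit 4) (nat_lit 313) (nat_lit 240) (nat_lit 227)) (XT.nd (nat_lit 78) (nat_lit 0) (nat_lit 0) (XT.lf (nat_lit 0) (nat_lit 14960485945) (nat_lit 152) (nat_lit 48444495179) (nat_lit 0) (nat_lit 11765172757) (nat_lit 2) (nat_lit 5) (nat_lit 4) (nat_lit 4) (nat_lit 2) (nat_lit 4) (nat_lit 314) (nat_lit 240) (nat_lit 226)) (XT.lf (nat_lit 0) (nat_lit 20302730851) (nat_lit 152) (nat_lit 43667540088) (nat_lit 0) (nat_lit 16985235831) (nat_lit 2) (nat_lit 5) (nat_lit 4) (nat_lit 4) (nat_lit 2) (nat_lit 4) (nat_lit 315) (nat_lit 240) (nat_lit 225))))) (XT.nd (nat_lit 234) (nat_lit 0) (nat_lit 0) (XT.nd (nat_lit 78) (nat_lit 0) (nat_lit 0) (XT.lf (nat_lit 0) (nat_lit 25939378701) (nat_lit 152) (nat_lit 38762252897) (nat_lit 0) (nat_lit 22508752354) (nat_lit 2) (nat_lit 5) (nat_lit 4) (nat_lit 4) (nat_lit 2) (nat_lit 4) (nat_lit 316) (nat_lit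 240) (nat_lit 224)) (XT.nd (nat_lit 78) (nat_lit 0) (nat_lit 0) (XT.lf (nat_lit 0) (nat_lit 31903831852) (nat_lit 152) (nat_lit 33699565239) (nat_lit 0) (nat_lit 28368454278) (nat_lit 2) (nat_lit 5) (nat_lit 4) (nat_lit 4) (nat_lit 2) (nat_lit 4) (nat_lit 317) (nat_lit 240) (nat_lit 223)) (XT.lf (nat_lit 0) (nat_lit 38231435212) (nat_lit 152) (nat_lit 28449476001) (nat_lit 0) (nat_lit 34599065761) (nat_lit 2) (nat_lit 5) (nat_lit 4) (nat_lit 4) (nat_lit 2) (nat_lit 4) (nat_lit 318) (nat_lit 240) (nat_lit 222)))) (XT.nd (nat_lit 78) (nat_lit 0) (nat_lit 0) (XT.lf (nat_lit 0) (nat_lit 44959685691) (nat_lit 152) (nat_lit 22980873543) (nat_lit 0) (nat_lit 41237508946) (nat_lit 2) (nat_lit 5) (nat_lit 4) (nat_lit 4) (nat_lit 2) (nat_lit 4) (nat_lit 319) (nat_lit 240) (nat_lit 221)) (XT.nd (nat_lit 78) (nat_lit 0) (nat_lit 0) (XT.lf (nat_lit 0) (nat_lit 52128454401) (nat_lit 152) (nat_lit 17261351332)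 (nat_lit 0) (nat_lit 48323122754) (nat_lit 2) (nat_lit 5) (nat_lit 4) (nat_lit 4) (nat_lit 2) (nat_lit 4) (nat_lit 320) (nat_lit 240) (nat_lit 220)) (XT.lf (nat_lit 0) (nat_lit 59780222935) (nat_lit 152) (nat_lit 11257015904) (nat_lit 0) (nat_lit 55897896009) (nat_lit 2) (nat_lit 5) (nat_lit 4) (nat_lit 4) (nat_lit 2) (nat_lit 4) (nat_lit 321) (nat_lit 240) (nat_lit 219))))))))
noncomputable def xc15 : XT := (XT.nd (nat_lit 1638) (nat_lit 0) (nat_lit 0) (XT.nd (nat_lit 780) (nat_lit 0) (nat_lit 0) (XT.nd (nat_lit 390) (nat_lit 0) (nat_lit 0) (XT.nd (nat_lit 156) (nat_lit 0) (nat_lit 0) (XT.nd (nat_lit 78) (nat_lit 76) (nat_lit 0) (XT.lf (nat_lit 0) (nat_lit 67960335108) (nat_lit 152) (nat_lit 4932286011) (nat_lit 0) (nat_lit 64006716256) (nat_lit 2) (nat_lit 5) (nat_lit 4) (nat_lit 4) (nat_lit 2) (nat_lit 4) (nat_lit 322) (nat_lit 240) (nat_lit 218)) (XT.lf (nat_lit 0) (nat_lit 1808191652)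 (nat_lit 76) (nat_lit 74937304943) (nat_lit 76) (nat_lit 70917675050) (nat_lit 1) (nat_lit 4) (nat_lit 2) (nat_lit 5) (nat_lit 2) (nat_lit 4) (nat_lit 323) (nat_lit 240) (nat_lit 217))) (XT.nd (nat_lit 78) (nat_lit 0) (nat_lit 0) (XT.lf (nat_lit 0) (nat_lit 9122370247) (nat_lit 76) (nat_lit 77122963022) (nat_lit 76) (nat_lit 73042211793) (nat_lit 1) (nat_lit 4) (nat_lit 2) (nat_lit 5) (nat_lit 2) (nat_lit 4) (nat_lit 324) (nat_lit 240) (nat_lit 216)) (XT.nd (nat_lit 78) (nat_lit 0) (nat_lit 0) (XT.lf (nat_lit 0) (nat_lit 16890509402) (nat_lit 76) (nat_lit 79546078052) (nat_lit 76) (nat_lit 75408732994) (nat_lit 1) (nat_lit 4) (nat_lit 2) (nat_lit 5) (nat_lit 2) (nat_lit 4) (nat_lit 325) (nat_lit 240) (nat_lit 215)) (XT.lf (nat_lit 0) (nat_lit 25158642537) (nat_lit 76) (nat_lit 82221009235) (nat_lit 76) (nat_lit 78031262483) (nat_lit 1) (nat_lit 4) (nat_lit 2) (nat_lit 5) (nat_lit 2) (nat_lit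 4) (nat_lit 326) (nat_lit 240) (nat_lit 214))))) (XT.nd (nat_lit 156) (nat_lit 0) (nat_lit 0) (XT.nd (nat_lit 78) (nat_lit 0) (nat_lit 0) (XT.lf (nat_lit 0) (nat_lit 33975765994) (nat_lit 76) (nat_lit 85163608014) (nat_lit 76) (nat_lit 80925341176) (nat_lit 1) (nat_lit 4) (nat_lit 2) (nat_lit 5) (nat_lit 2) (nat_lit 4) (nat_lit 327) (nat_lit 240) (nat_lit 213)) (XT.lf (nat_lit 0) (nat_lit 43394129394) (nat_lit 76) (nat_lit 88391312012) (nat_lit 76) (nat_lit 84108119168) (nat_lit 1) (nat_lit 4) (nat_lit 2) (nat_lit 5) (nat_lit 2) (nat_lit 4) (nat_lit 328) (nat_lit 240) (nat_lit 212))) (XT.nd (nat_lit 78) (nat_lit 0) (nat_lit 0) (XT.lf (nat_lit 0) (nat_lit 53469545262) (nat_lit 76) (nat_lit 91923248363) (nat_lit 76) (nat_lit 87598457365) (nat_lit 1) (nat_lit 4) (nat_lit 2) (nat_lit 5) (nat_lit 2) (nat_lit 4) (nat_lit 329) (nat_lit 240) (nat_lit 211)) (XT.nd (nat_lit 78) (nat_lit 0) (nat_lit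 0) (XT.lf (nat_lit 0) (nat_lit 64261719765) (nat_lit 76) (nat_lit 95780347061) (nat_lit 76) (nat_lit 91417039255) (nat_lit 1) (nat_lit 4) (nat_lit 2) (nat_lit 5) (nat_lit 2) (nat_lit 4) (nat_lit 330) (nat_lit 240) (nat_lit 210)) (XT.lf (nat_lit 0) (nat_lit 75834606530) (nat_lit 76) (nat_lit 99985464987) (nat_lit 76) (nat_lit 95586493469) (nat_lit 1) (nat_lit 4) (nat_lit 2) (nat_lit 5) (nat_lit 2) (nat_lit 4) (nat_lit 331) (nat_lit 240) (nat_lit 209)))))) (XT.nd (nat_lit 390) (nat_lit 0) (nat_lit 0) (XT.nd (nat_lit 156) (nat_lit 0) (nat_lit 0) (XT.nd (nat_lit 78) (nat_lit 0) (nat_lit 0) (XT.lf (nat_lit 0) (nat_lit 88256785627) (nat_lit 76) (nat_lit 104563521359) (nat_lit 76) (nat_lit 100131527884) (nat_lit 1) (nat_lit 4) (nat_lit 2) (nat_lit 5) (nat_lit 2) (nat_lit 4) (nat_lit 332) (nat_lit 240) (nat_lit 208)) (XT.lf (nat_lit 0) (nat_lit 101601869969) (nat_lit 76) (nat_lit 109541645398)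 (nat_lit 76) (nat_lit 105079076039) (nat_lit 1) (nat_lit 4) (nat_lit 2) (nat_lit 5) (nat_lit 2) (nat_lit 4) (nat_lit 333) (nat_lit 240) (nat_lit 207))) (XT.nd (nat_lit 78) (nat_lit 0) (nat_lit 0) (XT.lf (nat_lit 0) (nat_lit 115948941536) (nat_lit 76) (nat_lit 114949337100) (nat_lit 76) (nat_lit 110458456737) (nat_lit 1) (nat_lit 4) (nat_lit 2) (nat_lit 5) (nat_lit 2) (nat_lit 4) (nat_lit 334) (nat_lit 240) (nat_lit 206)) (XT.nd (nat_lit 78) (nat_lit 0) (nat_lit 0) (XT.lf (nat_lit 0) (nat_lit 131383020014) (nat_lit 76) (nat_lit 120818642045) (nat_lit 76) (nat_lit 116301547789) (nat_lit 1) (nat_lit 4) (nat_lit 2) (nat_lit 5) (nat_lit 2) (nat_lit 4) (nat_lit 335) (nat_lit 240) (nat_lit 205)) (XT.lf (nat_lit 0) (nat_lit 147995566606) (nat_lit 76) (nat_lit 127184341300) (nat_lit 76) (nat_lit 122642974920) (nat_lit 1) (nat_lit 4) (nat_lit 2) (nat_lit 5) (nat_lit 2) (nat_lit 4) (nat_lit 336)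 (nat_lit 240) (nat_lit 204))))) (XT.nd (nat_lit 234) (nat_lit 0) (nat_lit 0) (XT.nd (nat_lit 78) (nat_lit 0) (nat_lit 0) (XT.lf (nat_lit 0) (nat_lit 165885026035) (nat_lit 76) (nat_lit 134084157525) (nat_lit 76) (nat_lit 129520316958) (nat_lit 1) (nat_lit 4) (nat_lit 2) (nat_lit 5) (nat_lit 2) (nat_lit 4) (nat_lit 337) (nat_lit 240) (nat_lit 203)) (XT.nd (nat_lit 78) (nat_lit 0) (nat_lit 0) (XT.lf (nat_lit 0) (nat_lit 185157409911) (nat_lit 76) (nat_lit 141558978523) (nat_lit 76) (nat_lit 136974328522) (nat_lit 1) (nat_lit 4) (nat_lit 2) (nat_lit 5) (nat_lit 2) (nat_lit 4) (nat_lit 338) (nat_lit 240) (nat_lit 202)) (XT.lf (nat_lit 0) (nat_lit 205926924953) (nat_lit 76) (nat_lit 149653099527) (nat_lit 76) (nat_lit 145049181532) (nat_lit 1) (nat_lit 4) (nat_lit 2) (nat_lit 5) (nat_lit 2) (nat_lit 4) (nat_lit 339) (nat_lit 240) (nat_lit 201)))) (XT.nd (nat_lit 78) (nat_lit 0) (nat_lit 0)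 (XT.lf (nat_lit 0) (nat_lit 228316649770) (nat_lit 76) (nat_lit 158414485700) (nat_lit 76) (nat_lit 153792726969) (nat_lit 1) (nat_lit 4) (nat_lit 2) (nat_lit 5) (nat_lit 2) (nat_lit 4) (nat_lit 340) (nat_lit 240) (nat_lit 200)) (XT.nd (nat_lit 78) (nat_lit 0) (nat_lit 0) (XT.lf (nat_lit 0) (nat_lit 252459264211) (nat_lit 76) (nat_lit 167895056366) (nat_lit 76) (nat_lit 163256778437) (nat_lit 1) (nat_lit 4) (nat_lit 2) (nat_lit 5) (nat_lit 2) (nat_lit 4) (nat_lit 341) (nat_lit 240) (nat_lit 199)) (XT.lf (nat_lit 0) (nat_lit 278497835623) (nat_lit 76) (nat_lit 178150992687) (nat_lit 76) (nat_lit 173497419202) (nat_lit 1) (nat_lit 4) (nat_lit 2) (nat_lit 5) (nat_lit 2) (nat_lit 4) (nat_lit 342) (nat_lit 240) (nat_lit 198))))))) (XT.nd (nat_lit 37362) (nat_lit 0) (nat_lit 228) (XT.nd (nat_lit 390) (nat_lit 0) (nat_lit 0) (XT.nd (nat_lit 156) (nat_lit 0) (nat_lit 0) (XT.nd (nat_lit 78) (nat_lit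 0) (nat_lit 0) (XT.lf (nat_lit 0) (nat_lit 306586666650) (nat_lit 76) (nat_lit 189243070579) (nat_lit 76) (nat_lit 184575334544) (nat_lit 1) (nat_lit 4) (nat_lit 2) (nat_lit 5) (nat_lit 2) (nat_lit 4) (nat_lit 343) (nat_lit 240) (nat_lit 197)) (XT.lf (nat_lit 0) (nat_lit 336892209624) (nat_lit 76) (nat_lit 201237020876) (nat_lit 76) (nat_lit 196556171368) (nat_lit 1) (nat_lit 4) (nat_lit 2) (nat_lit 5) (nat_lit 2) (nat_lit 4) (nat_lit 344) (nat_lit 240) (nat_lit 196))) (XT.nd (nat_lit 78) (nat_lit 0) (nat_lit 0) (XT.lf (nat_lit 0) (nat_lit 369594052947) (nat_lit 76) (nat_lit 214203918838) (nat_lit 76) (nat_lit 209510927225) (nat_lit 1) (nat_lit 4) (nat_lit 2) (nat_lit 5) (nat_lit 2) (nat_lit 4) (nat_lit 345) (nat_lit 240) (nat_lit 195)) (XT.nd (nat_lit 78) (nat_lit 0) (nat_lit 0) (XT.lf (nat_lit 0) (nat_lit 404885985323) (nat_lit 76) (nat_lit 228220605342) (nat_lit 76) (nat_lit 223516371040)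 (nat_lit 1) (nat_lit 4) (nat_lit 2) (nat_lit 5) (nat_lit 2) (nat_lit 4) (nat_lit 346) (nat_lit 240) (nat_lit 194)) (XT.lf (nat_lit 0) (nat_lit 442977144126) (nat_lit 76) (nat_lit 243370142235) (nat_lit 76) (nat_lit 238655498035) (nat_lit 1) (nat_lit 4) (nat_lit 2) (nat_lit 5) (nat_lit 2) (nat_lit 4) (nat_lit 347) (nat_lit 240) (nat_lit 193))))) (XT.nd (nat_lit 36738) (nat_lit 0) (nat_lit 532) (XT.nd (nat_lit 78) (nat_lit 0) (nat_lit 0) (XT.lf (nat_lit 0) (nat_lit 484093254743) (nat_lit 76) (nat_lit 259742304549) (nat_lit 76) (nat_lit 255018021555) (nat_lit 1) (nat_lit 4) (nat_lit 2) (nat_lit 5) (nat_lit 2) (nat_lit 4) (nat_lit 348) (nat_lit 240) (nat_lit 192)) (XT.lf (nat_lit 0) (nat_lit 528477968200) (nat_lit 76) (nat_lit 277434112505) (nat_lit 76) (nat_lit 272700904702) (nat_lit 1) (nat_lit 4) (nat_lit 2) (nat_lit 5) (nat_lit 2) (nat_lit 4) (nat_lit 349) (nat_lit 240) (nat_lit 191)))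 (XT.nd (nat_lit 78) (nat_lit 0) (nat_lit 0) (XT.lf (nat_lit 0) (nat_lit 17369255) (nat_lit 152) (nat_lit 12297069621) (nat_lit 0) (nat_lit 17369255) (nat_lit 8) (nat_lit 5) (nat_lit 10) (nat_lit 4) (nat_lit 8) (nat_lit 4) (nat_lit 298) (nat_lit 241) (nat_lit 241)) (XT.nd (nat_lit 78) (nat_lit 0) (nat_lit 0) (XT.lf (nat_lit 0) (nat_lit 6800034732) (nat_lit 152) (nat_lit 13099356278) (nat_lit 0) (nat_lit 6372726201) (nat_lit 8) (nat_lit 5) (nat_lit 10) (nat_lit 4) (nat_lit 8) (nat_lit 4) (nat_lit 299) (nat_lit 241) (nat_lit 240)) (XT.lf (nat_lit 0) (nat_lit 13754329110) (nat_lit 152) (nat_lit 1341381051) (nat_lit 0) (nat_lit 12931364532) (nat_lit 8) (nat_lit 5) (nat_lit 10) (nat_lit 4) (nat_lit 8) (nat_lit 4) (nat_lit 300) (nat_lit 241) (nat_lit 239)))))) (XT.nd (nat_lit 390) (nat_lit 76) (nat_lit 0) (XT.nd (nat_lit 156) (nat_lit 152) (nat_lit 0) (XT.nd (nat_lit 78) (nat_lit 0) (nat_lit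 0) (XT.lf (nat_lit 0) (nat_lit 11104889132) (nat_lit 76) (nat_lit 10007321587) (nat_lit 76) (nat_lit 8818008818) (nat_lit 7) (nat_lit 4) (nat_lit 8) (nat_lit 5) (nat_lit 8) (nat_lit 4) (nat_lit 301) (nat_lit 241) (nat_lit 238)) (XT.lf (nat_lit 0) (nat_lit 24013405246) (nat_lit 76) (nat_lit 4757630379) (nat_lit 76) (nat_lit 3229106322) (nat_lit 7) (nat_lit 4) (nat_lit 8) (nat_lit 5) (nat_lit 8) (nat_lit 4) (nat_lit 302) (nat_lit 241) (nat_lit 237))) (XT.nd (nat_lit 78) (nat_lit 0) (nat_lit 0) (XT.lf (nat_lit 0) (nat_lit 2486444559) (nat_lit 152) (nat_lit 31027099310) (nat_lit 0) (nat_lit 731579242) (nat_lit 5) (nat_lit 5) (nat_lit 7) (nat_lit 4) (nat_lit 5) (nat_lit 4) (nat_lit 303) (nat_lit 241) (nat_lit 236)) (XT.nd (nat_lit 78) (nat_lit 0) (nat_lit 0) (XT.lf (nat_lit 0) (nat_lit 8486069862) (nat_lit 152) (nat_lit 21729869540) (nat_lit 0) (nat_lit 6454234063) (nat_lit 5) (nat_lit 5) (nat_lit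 7) (nat_lit 4) (nat_lit 5) (nat_lit 4) (nat_lit 304) (nat_lit 241) (nat_lit 235)) (XT.lf (nat_lit 0) (nat_lit 14703464436) (nat_lit 152) (nat_lit 12183806030) (nat_lit 0) (nat_lit 12415174487) (nat_lit 5) (nat_lit 5) (nat_lit 7) (nat_lit 4) (nat_lit 5) (nat_lit 4) (nat_lit 305) (nat_lit 241) (nat_lit 234))))) (XT.nd (nat_lit 234) (nat_lit 0) (nat_lit 0) (XT.nd (nat_lit 78) (nat_lit 76) (nat_lit 0) (XT.lf (nat_lit 0) (nat_lit 21175472100) (nat_lit 152) (nat_lit 2332339514) (nat_lit 0) (nat_lit 18649724605) (nat_lit 5) (nat_lit 5) (nat_lit 7) (nat_lit 4) (nat_lit 5) (nat_lit 4) (nat_lit 306) (nat_lit 241) (nat_lit 233)) (XT.nd (nat_lit 78) (nat_lit 0) (nat_lit 0) (XT.lf (nat_lit 0) (nat_lit 8143553641) (nat_lit 76) (nat_lit 19924035546) (nat_lit 76) (nat_lit 17178419953) (nat_lit 4) (nat_lit 4) (nat_lit 5) (nat_lit 5) (nat_lit 5) (nat_lit 4) (nat_lit 307) (nat_lit 241) (nat_lit 232)) (XT.lf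 (nat_lit 0) (nat_lit 19134911180) (nat_lit 76) (nat_lit 16202311755) (nat_lit 76) (nat_lit 13253114589) (nat_lit 4) (nat_lit 4) (nat_lit 5) (nat_lit 5) (nat_lit 5) (nat_lit 4) (nat_lit 308) (nat_lit 241) (nat_lit 231)))) (XT.nd (nat_lit 78) (nat_lit 0) (nat_lit 0) (XT.lf (nat_lit 0) (nat_lit 30629749394) (nat_lit 76) (nat_lit 12360084879) (nat_lit 76) (nat_lit 9222386258) (nat_lit 4) (nat_lit 4) (nat_lit 5) (nat_lit 5) (nat_lit 5) (nat_lit 4) (nat_lit 309) (nat_lit 241) (nat_lit 230)) (XT.nd (nat_lit 78) (nat_lit 0) (nat_lit 0) (XT.lf (nat_lit 0) (nat_lit 42696185843) (nat_lit 76) (nat_lit 8374586167) (nat_lit 76) (nat_lit 5062349161) (nat_lit 4) (nat_lit 4) (nat_lit 5) (nat_lit 5) (nat_lit 5) (nat_lit 4) (nat_lit 310) (nat_lit 241) (nat_lit 229)) (XT.lf (nat_lit 0) (nat_lit 55405725337) (nat_lit 76) (nat_lit 4222197849) (nat_lit 76) (nat_lit 748351227) (nat_lit 4) (nat_lit 4) (nat_lit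 5) (nat_lit 5) (nat_lit 5) (nat_lit 4) (nat_lit 311) (nat_lit 241) (nat_lit 228))))))))
noncomputable def xc16 : XT := (XT.nd (nat_lit 1560) (nat_lit 0) (nat_lit 0) (XT.nd (nat_lit 780) (nat_lit 76) (nat_lit 0) (XT.nd (nat_lit 390) (nat_lit 0) (nat_lit 0) (XT.nd (nat_lit 156) (nat_lit 0) (nat_lit 0) (XT.nd (nat_lit 78) (nat_lit 0) (nat_lit 0) (XT.lf (nat_lit 0) (nat_lit 3690594083) (nat_lit 152) (nat_lit 61030386765) (nat_lit 0) (nat_lit 239655839) (nat_lit 2) (nat_lit 5) (nat_lit 4) (nat_lit 4) (nat_lit 2) (nat_lit 4) (nat_lit 312) (nat_lit 241) (nat_lit 227)) (XT.lf (nat_lit 0) (nat_lit 8462880122) (nat_lit 152) (nat_lit 56568101824) (nat_lit 0) (nat_lit 4879985500) (nat_lit 2) (nat_lit 5) (nat_lit 4) (nat_lit 4) (nat_lit 2) (nat_lit 4) (nat_lit 313) (nat_lit 241) (nat_lit 226))) (XT.nd (nat_lit 78) (nat_lit 0) (nat_lit 0) (XT.lf (nat_lit 0) (nat_lit 13473334264) (nat_lit 152) (nat_lit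 52022964340) (nat_lit 0) (nat_lit 9768257810) (nat_lit 2) (nat_lit 5) (nat_lit 4) (nat_lit 4) (nat_lit 2) (nat_lit 4) (nat_lit 314) (nat_lit 241) (nat_lit 225)) (XT.nd (nat_lit 78) (nat_lit 0) (nat_lit 0) (XT.lf (nat_lit 0) (nat_lit 18751648088) (nat_lit 152) (nat_lit 47368040166) (nat_lit 0) (nat_lit 14933440309) (nat_lit 2) (nat_lit 5) (nat_lit 4) (nat_lit 4) (nat_lit 2) (nat_lit 4) (nat_lit 315) (nat_lit 241) (nat_lit 224)) (XT.lf (nat_lit 0) (nat_lit 24329100493) (nat_lit 152) (nat_lit 42575744566) (nat_lit 0) (nat_lit 20406141485) (nat_lit 2) (nat_lit 5) (nat_lit 4) (nat_lit 4) (nat_lit 2) (nat_lit 4) (nat_lit 316) (nat_lit 241) (nat_lit 223))))) (XT.nd (nat_lit 156) (nat_lit 0) (nat_lit 0) (XT.nd (nat_lit 78) (nat_lit 0) (nat_lit 0) (XT.lf (nat_lit 0) (nat_lit 30238743046) (nat_lit 152) (nat_lit 37617678750) (nat_lit 0) (nat_lit 26218792162) (nat_lit 2) (nat_lit 5) (nat_lit 4) (nat_lit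 4) (nat_lit 2) (nat_lit 4) (nat_lit 317) (nat_lit 241) (nat_lit 222)) (XT.lf (nat_lit 0) (nat_lit 36515595854) (nat_lit 152) (nat_lit 32464461589) (nat_lit 0) (nat_lit 32405837675) (nat_lit 2) (nat_lit 5) (nat_lit 4) (nat_lit 4) (nat_lit 2) (nat_lit 4) (nat_lit 318) (nat_lit 241) (nat_lit 221))) (XT.nd (nat_lit 78) (nat_lit 0) (nat_lit 0) (XT.lf (nat_lit 0) (nat_lit 43196855079) (nat_lit 152) (nat_lit 27085555498) (nat_lit 0) (nat_lit 39003941998) (nat_lit 2) (nat_lit 5) (nat_lit 4) (nat_lit 4) (nat_lit 2) (nat_lit 4) (nat_lit 319) (nat_lit 241) (nat_lit 220)) (XT.nd (nat_lit 78) (nat_lit 0) (nat_lit 0) (XT.lf (nat_lit 0) (nat_lit 50322113370) (nat_lit 152) (nat_lit 21449085479) (nat_lit 0) (nat_lit 46052205010) (nat_lit 2) (nat_lit 5) (nat_lit 4) (nat_lit 4) (nat_lit 2) (nat_lit 4) (nat_lit 320) (nat_lit 241) (nat_lit 219)) (XT.lf (nat_lit 0) (nat_lit 57933594479) (nat_lit 152) (nat_lit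 15521650229) (nat_lit 0) (nat_lit 53592394193) (nat_lit 2) (nat_lit 5) (nat_lit 4) (nat_lit 4) (nat_lit 2) (nat_lit 4) (nat_lit 321) (nat_lit 241) (nat_lit 218)))))) (XT.nd (nat_lit 390) (nat_lit 0) (nat_lit 0) (XT.nd (nat_lit 156) (nat_lit 76) (nat_lit 0) (XT.nd (nat_lit 78) (nat_lit 0) (nat_lit 0) (XT.lf (nat_lit 0) (nat_lit 66076403479) (nat_lit 152) (nat_lit 9268124204) (nat_lit 0) (nat_lit 61669192152) (nat_lit 2) (nat_lit 5) (nat_lit 4) (nat_lit 4) (nat_lit 2) (nat_lit 4) (nat_lit 322) (nat_lit 241) (nat_lit 217)) (XT.lf (nat_lit 0) (nat_lit 74798794054) (nat_lit 152) (nat_lit 2651449473) (nat_lit 0) (nat_lit 70330461392) (nat_lit 2) (nat_lit 5) (nat_lit 4) (nat_lit 4) (nat_lit 2) (nat_lit 4) (nat_lit 323) (nat_lit 241) (nat_lit 216))) (XT.nd (nat_lit 78) (nat_lit 0) (nat_lit 0) (XT.lf (nat_lit 0) (nat_lit 4511995935) (nat_lit 76) (nat_lit 79710903410) (nat_lit 76) (nat_lit 75185976918)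 (nat_lit 1) (nat_lit 4) (nat_lit 2) (nat_lit 5) (nat_lit 2) (nat_lit 4) (nat_lit 324) (nat_lit 241) (nat_lit 215)) (XT.nd (nat_lit 78) (nat_lit 0) (nat_lit 0) (XT.lf (nat_lit 0) (nat_lit 12221742229) (nat_lit 76) (nat_lit 82161887166) (nat_lit 76) (nat_lit 77584558981) (nat_lit 1) (nat_lit 4) (nat_lit 2) (nat_lit 5) (nat_lit 2) (nat_lit 4) (nat_lit 325) (nat_lit 241) (nat_lit 214)) (XT.lf (nat_lit 0) (nat_lit 20435807897) (nat_lit 76) (nat_lit 84862622725) (nat_lit 76) (nat_lit 80236774453) (nat_lit 1) (nat_lit 4) (nat_lit 2) (nat_lit 5) (nat_lit 2) (nat_lit 4) (nat_lit 326) (nat_lit 241) (nat_lit 213))))) (XT.nd (nat_lit 156) (nat_lit 0) (nat_lit 0) (XT.nd (nat_lit 78) (nat_lit 0) (nat_lit 0) (XT.lf (nat_lit 0) (nat_lit 29202868887) (nat_lit 76) (nat_lit 87829114444) (nat_lit 76) (nat_lit 83158340167) (nat_lit 1) (nat_lit 4) (nat_lit 2) (nat_lit 5) (nat_lit 2) (nat_lit 4) (nat_lit 327)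 (nat_lit 241) (nat_lit 212)) (XT.lf (nat_lit 0) (nat_lit 38574878150) (nat_lit 76) (nat_lit 91078941535) (nat_lit 76) (nat_lit 86366569104) (nat_lit 1) (nat_lit 4) (nat_lit 2) (nat_lit 5) (nat_lit 2) (nat_lit 4) (nat_lit 328) (nat_lit 241) (nat_lit 211))) (XT.nd (nat_lit 78) (nat_lit 0) (nat_lit 0) (XT.lf (nat_lit 0) (nat_lit 48607373521) (nat_lit 76) (nat_lit 94631362232) (nat_lit 76) (nat_lit 89880472992) (nat_lit 1) (nat_lit 4) (nat_lit 2) (nat_lit 5) (nat_lit 2) (nat_lit 4) (nat_lit 329) (nat_lit 241) (nat_lit 210)) (XT.nd (nat_lit 78) (nat_lit 0) (nat_lit 0) (XT.lf (nat_lit 0) (nat_lit 59359806823) (nat_lit 76) (nat_lit 98507427917) (nat_lit 76) (nat_lit 93720874965) (nat_lit 1) (nat_lit 4) (nat_lit 2) (nat_lit 5) (nat_lit 2) (nat_lit 4) (nat_lit 330) (nat_lit 241) (nat_lit 209)) (XT.lf (nat_lit 0) (nat_lit 70895896179) (nat_lit 76) (nat_lit 102730107868) (nat_lit 76) (nat_lit 97910532960)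 (nat_lit 1) (nat_lit 4) (nat_lit 2) (nat_lit 5) (nat_lit 2) (nat_lit 4) (nat_lit 331) (nat_lit 241) (nat_lit 208))))))) (XT.nd (nat_lit 780) (nat_lit 0) (nat_lit 0) (XT.nd (nat_lit 390) (nat_lit 0) (nat_lit 0) (XT.nd (nat_lit 156) (nat_lit 0) (nat_lit 0) (XT.nd (nat_lit 78) (nat_lit 0) (nat_lit 0) (XT.lf (nat_lit 0) (nat_lit 83284003602) (nat_lit 76) (nat_lit 107324425373) (nat_lit 76) (nat_lit 102474274580) (nat_lit 1) (nat_lit 4) (nat_lit 2) (nat_lit 5) (nat_lit 2) (nat_lit 4) (nat_lit 332) (nat_lit 241) (nat_lit 207)) (XT.lf (nat_lit 0) (nat_lit 96597540097) (nat_lit 76) (nat_lit 112317606018) (nat_lit 76) (nat_lit 107439144221) (nat_lit 1) (nat_lit 4) (nat_lit 2) (nat_lit 5) (nat_lit 2) (nat_lit 4) (nat_lit 333) (nat_lit 241) (nat_lit 206))) (XT.nd (nat_lit 78) (nat_lit 0) (nat_lit 0) (XT.lf (nat_lit 0) (nat_lit 110915400695) (nat_lit 76) (nat_lit 117739239021) (nat_lit 76) (nat_lit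 112834563331) (nat_lit 1) (nat_lit 4) (nat_lit 2) (nat_lit 5) (nat_lit 2) (nat_lit 4) (nat_lit 334) (nat_lit 241) (nat_lit 205)) (XT.nd (nat_lit 78) (nat_lit 0) (nat_lit 0) (XT.lf (nat_lit 0) (nat_lit 126322431979) (nat_lit 76) (nat_lit 123621452579) (nat_lit 76) (nat_lit 118692504765) (nat_lit 1) (nat_lit 4) (nat_lit 2) (nat_lit 5) (nat_lit 2) (nat_lit 4) (nat_lit 335) (nat_lit 241) (nat_lit 204)) (XT.lf (nat_lit 0) (nat_lit 142909934874) (nat_lit 76) (nat_lit 129999104252) (nat_lit 76) (nat_lit 125047682251) (nat_lit 1) (nat_lit 4) (nat_lit 2) (nat_lit 5) (nat_lit 2) (nat_lit 4) (nat_lit 336) (nat_lit 241) (nat_lit 203))))) (XT.nd (nat_lit 156) (nat_lit 0) (nat_lit 0) (XT.nd (nat_lit 78) (nat_lit 0) (nat_lit 0) (XT.lf (nat_lit 0) (nat_lit 160776205693) (nat_lit 76) (nat_lit 136909987532) (nat_lit 76) (nat_lit 131937756097) (nat_lit 1) (nat_lit 4) (nat_lit 2) (nat_lit 5) (nat_lit 2) (nat_lit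 4) (nat_lit 337) (nat_lit 241) (nat_lit 202)) (XT.lf (nat_lit 0) (nat_lit 180027118635) (nat_lit 76) (nat_lit 144395055802) (nat_lit 76) (nat_lit 139403556374) (nat_lit 1) (nat_lit 4) (nat_lit 2) (nat_lit 5) (nat_lit 2) (nat_lit 4) (nat_lit 338) (nat_lit 241) (nat_lit 201))) (XT.nd (nat_lit 78) (nat_lit 0) (nat_lit 0) (XT.lf (nat_lit 0) (nat_lit 200776753182) (nat_lit 76) (nat_lit 152498665022) (nat_lit 76) (nat_lit 147489324858) (nat_lit 1) (nat_lit 4) (nat_lit 2) (nat_lit 5) (nat_lit 2) (nat_lit 4) (nat_lit 339) (nat_lit 241) (nat_lit 200)) (XT.nd (nat_lit 78) (nat_lit 0) (nat_lit 0) (XT.lf (nat_lit 0) (nat_lit 223148070133) (nat_lit 76) (nat_lit 161268836579) (nat_lit 76) (nat_lit 156242977216) (nat_lit 1) (nat_lit 4) (nat_lit 2) (nat_lit 5) (nat_lit 2) (nat_lit 4) (nat_lit 340) (nat_lit 241) (nat_lit 199)) (XT.lf (nat_lit 0) (nat_lit 247273640255) (nat_lit 76) (nat_lit 170757541861)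 (nat_lit 76) (nat_lit 165716386944) (nat_lit 1) (nat_lit 4) (nat_lit 2) (nat_lit 5) (nat_lit 2) (nat_lit 4) (nat_lit 341) (nat_lit 241) (nat_lit 198)))))) (XT.nd (nat_lit 390) (nat_lit 0) (nat_lit 0) (XT.nd (nat_lit 156) (nat_lit 0) (nat_lit 0) (XT.nd (nat_lit 78) (nat_lit 0) (nat_lit 0) (XT.lf (nat_lit 0) (nat_lit 273296429889) (nat_lit 76) (nat_lit 181021010233) (nat_lit 76) (nat_lit 175965692764) (nat_lit 1) (nat_lit 4) (nat_lit 2) (nat_lit 5) (nat_lit 2) (nat_lit 4) (nat_lit 342) (nat_lit 241) (nat_lit 197)) (XT.lf (nat_lit 0) (nat_lit 301370648158) (nat_lit 76) (nat_lit 192120062247) (nat_lit 76) (nat_lit 187051631305) (nat_lit 1) (nat_lit 4) (nat_lit 2) (nat_lit 5) (nat_lit 2) (nat_lit 4) (nat_lit 343) (nat_lit 241) (nat_lit 196))) (XT.nd (nat_lit 78) (nat_lit 0) (nat_lit 0) (XT.lf (nat_lit 0) (nat_lit 331662660802) (nat_lit 76) (nat_lit 204120470064) (nat_lit 76) (nat_lit 199039897018)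 (nat_lit 1) (nat_lit 4) (nat_lit 2) (nat_lit 5) (nat_lit 2) (nat_lit 4) (nat_lit 344) (nat_lit 241) (nat_lit 195)) (XT.nd (nat_lit 78) (nat_lit 0) (nat_lit 0) (XT.lf (nat_lit 0) (nat_lit 364351976042) (nat_lit 76) (nat_lit 217093347211) (nat_lit 76) (nat_lit 212001531476) (nat_lit 1) (nat_lit 4) (nat_lit 2) (nat_lit 5) (nat_lit 2) (nat_lit 4) (nat_lit 345) (nat_lit 241) (nat_lit 194)) (XT.lf (nat_lit 0) (nat_lit 399632308339) (nat_lit 76) (nat_lit 231115569998) (nat_lit 76) (nat_lit 226013344365) (nat_lit 1) (nat_lit 4) (nat_lit 2) (nat_lit 5) (nat_lit 2) (nat_lit 4) (nat_lit 346) (nat_lit 241) (nat_lit 193))))) (XT.nd (nat_lit 36660) (nat_lit 0) (nat_lit 608) (XT.nd (nat_lit 78) (nat_lit 0) (nat_lit 0) (XT.lf (nat_lit 0) (nat_lit 437712726330) (nat_lit 76) (nat_lit 246270233078) (nat_lit 76) (nat_lit 241158368651) (nat_lit 1) (nat_lit 4) (nat_lit 2) (nat_lit 5) (nat_lit 2) (nat_lit 4)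 (nat_lit 347) (nat_lit 241) (nat_lit 192)) (XT.nd (nat_lit 78) (nat_lit 0) (nat_lit 0) (XT.lf (nat_lit 0) (nat_lit 478818891750) (nat_lit 76) (nat_lit 262647141862) (nat_lit 76) (nat_lit 257526352626) (nat_lit 1) (nat_lit 4) (nat_lit 2) (nat_lit 5) (nat_lit 2) (nat_lit 4) (nat_lit 348) (nat_lit 241) (nat_lit 191)) (XT.lf (nat_lit 0) (nat_lit 523194396691) (nat_lit 76) (nat_lit 280343344698) (nat_lit 76) (nat_lit 275214291749) (nat_lit 1) (nat_lit 4) (nat_lit 2) (nat_lit 5) (nat_lit 2) (nat_lit 4) (nat_lit 349) (nat_lit 241) (nat_lit 190)))) (XT.nd (nat_lit 78) (nat_lit 152) (nat_lit 0) (XT.lf (nat_lit 0) (nat_lit 4806102295) (nat_lit 152) (nat_lit 1286537622) (nat_lit 0) (nat_lit 4806102295) (nat_lit 11) (nat_lit 5) (nat_lit 13) (nat_lit 4) (nat_lit 11) (nat_lit 4) (nat_lit 296) (nat_lit 242) (nat_lit 242)) (XT.nd (nat_lit 78) (nat_lit 76) (nat_lit 0) (XT.lf (nat_lit 0) (nat_lit 10675101671)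 (nat_lit 76) (nat_lit 6490753596) (nat_lit 76) (nat_lit 6006185723) (nat_lit 10) (nat_lit 4) (nat_lit 11) (nat_lit 5) (nat_lit 11) (nat_lit 4) (nat_lit 297) (nat_lit 242) (nat_lit 241)) (XT.lf (nat_lit 0) (nat_lit 326871384) (nat_lit 152) (nat_lit 263155493) (nat_lit 76) (nat_lit 24082143173) (nat_lit 9) (nat_lit 5) (nat_lit 11) (nat_lit 5) (nat_lit 10) (nat_lit 4) (nat_lit 298) (nat_lit 242) (nat_lit 240))))))))
noncomputable def xc17 : XT := (XT.nd (nat_lit 1638) (nat_lit 76) (nat_lit 0) (XT.nd (nat_lit 780) (nat_lit 152) (nat_lit 0) (XT.nd (nat_lit 390) (nat_lit 76) (nat_lit 0) (XT.nd (nat_lit 156) (nat_lit 228) (nat_lit 0) (XT.nd (nat_lit 78) (nat_lit 0) (nat_lit 0) (XT.lf (nat_lit 0) (nat_lit 6909302405) (nat_lit 152) (nat_lit 13755746652) (nat_lit 0) (nat_lit 5624844614) (nat_lit 8) (nat_lit 5) (nat_lit 10) (nat_lit 4) (nat_lit 8) (nat_lit 4) (nat_lit 299) (nat_lit 242) (nat_lit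 239)) (XT.lf (nat_lit 0) (nat_lit 13706801225) (nat_lit 152) (nat_lit 2289967994) (nat_lit 0) (nat_lit 12055995244) (nat_lit 8) (nat_lit 5) (nat_lit 10) (nat_lit 4) (nat_lit 8) (nat_lit 4) (nat_lit 300) (nat_lit 242) (nat_lit 238))) (XT.nd (nat_lit 78) (nat_lit 152) (nat_lit 0) (XT.lf (nat_lit 0) (nat_lit 9845439559) (nat_lit 76) (nat_lit 11054398667) (nat_lit 76) (nat_lit 9064381397) (nat_lit 7) (nat_lit 4) (nat_lit 8) (nat_lit 5) (nat_lit 8) (nat_lit 4) (nat_lit 301) (nat_lit 242) (nat_lit 237)) (XT.nd (nat_lit 78) (nat_lit 152) (nat_lit 0) (XT.lf (nat_lit 0) (nat_lit 22495161170) (nat_lit 76) (nat_lit 5925034537) (nat_lit 76) (nat_lit 3620932740) (nat_lit 7) (nat_lit 4) (nat_lit 8) (nat_lit 5) (nat_lit 8) (nat_lit 4) (nat_lit 302) (nat_lit 242) (nat_lit 236)) (XT.lf (nat_lit 0) (nat_lit 1373889299) (nat_lit 76) (nat_lit 562115627) (nat_lit 152) (nat_lit 32359023856) (nat_lit 5) (nat_lit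 5) (nat_lit 6) (nat_lit 5) (nat_lit 7) (nat_lit 4) (nat_lit 303) (nat_lit 242) (nat_lit 235))))) (XT.nd (nat_lit 156) (nat_lit 76) (nat_lit 0) (XT.nd (nat_lit 78) (nat_lit 0) (nat_lit 0) (XT.lf (nat_lit 0) (nat_lit 7800795975) (nat_lit 152) (nat_lit 23853087669) (nat_lit 0) (nat_lit 5072988681) (nat_lit 5) (nat_lit 5) (nat_lit 7) (nat_lit 4) (nat_lit 5) (nat_lit 4) (nat_lit 304) (nat_lit 242) (nat_lit 234)) (XT.lf (nat_lit 0) (nat_lit 13901470128) (nat_lit 152) (nat_lit 14527352079) (nat_lit 0) (nat_lit 10936205288) (nat_lit 5) (nat_lit 5) (nat_lit 7) (nat_lit 4) (nat_lit 5) (nat_lit 4) (nat_lit 305) (nat_lit 242) (nat_lit 233))) (XT.nd (nat_lit 78) (nat_lit 76) (nat_lit 0) (XT.lf (nat_lit 0) (nat_lit 20265403329) (nat_lit 152) (nat_lit 4879892898) (nat_lit 0) (nat_lit 17080270390) (nat_lit 5) (nat_lit 5) (nat_lit 7) (nat_lit 4) (nat_lit 5) (nat_lit 4) (nat_lit 306) (nat_lit 242) (nat_lit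 232)) (XT.nd (nat_lit 78) (nat_lit 0) (nat_lit 0) (XT.lf (nat_lit 0) (nat_lit 5316625214) (nat_lit 76) (nat_lit 21696689979) (nat_lit 76) (nat_lit 18307975468) (nat_lit 4) (nat_lit 4) (nat_lit 5) (nat_lit 5) (nat_lit 5) (nat_lit 4) (nat_lit 307) (nat_lit 242) (nat_lit 231)) (XT.lf (nat_lit 0) (nat_lit 16127296249) (nat_lit 76) (nat_lit 18060175235) (nat_lit 76) (nat_lit 14482959268) (nat_lit 4) (nat_lit 4) (nat_lit 5) (nat_lit 5) (nat_lit 5) (nat_lit 4) (nat_lit 308) (nat_lit 242) (nat_lit 230)))))) (XT.nd (nat_lit 390) (nat_lit 0) (nat_lit 0) (XT.nd (nat_lit 156) (nat_lit 152) (nat_lit 0) (XT.nd (nat_lit 78) (nat_lit 0) (nat_lit 0) (XT.lf (nat_lit 0) (nat_lit 27454832145) (nat_lit 76) (nat_lit 14296845626) (nat_lit 76) (nat_lit 10545091274) (nat_lit 4) (nat_lit 4) (nat_lit 5) (nat_lit 5) (nat_lit 5) (nat_lit 4) (nat_lit 309) (nat_lit 242) (nat_lit 229)) (XT.lf (nat_lit 0) (nat_lit 39366359041)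 (nat_lit 76) (nat_lit 10384399939) (nat_lit 76) (nat_lit 6471035971) (nat_lit 4) (nat_lit 4) (nat_lit 5) (nat_lit 5) (nat_lit 5) (nat_lit 4) (nat_lit 310) (nat_lit 242) (nat_lit 228))) (XT.nd (nat_lit 78) (nat_lit 152) (nat_lit 0) (XT.lf (nat_lit 0) (nat_lit 51932463762) (nat_lit 76) (nat_lit 6299653310) (nat_lit 76) (nat_lit 2236650809) (nat_lit 4) (nat_lit 4) (nat_lit 5) (nat_lit 5) (nat_lit 5) (nat_lit 4) (nat_lit 311) (nat_lit 242) (nat_lit 227)) (XT.nd (nat_lit 78) (nat_lit 0) (nat_lit 0) (XT.lf (nat_lit 0) (nat_lit 134992433) (nat_lit 76) (nat_lit 1980397387) (nat_lit 152) (nat_lit 62945655625) (nat_lit 2) (nat_lit 5) (nat_lit 3) (nat_lit 5) (nat_lit 4) (nat_lit 4) (nat_lit 312) (nat_lit 242) (nat_lit 226)) (XT.lf (nat_lit 0) (nat_lit 6787710738) (nat_lit 152) (nat_lit 60564641909) (nat_lit 0) (nat_lit 2664046336) (nat_lit 2) (nat_lit 5) (nat_lit 4) (nat_lit 4) (nat_lit 2) (nat_lit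 4) (nat_lit 313) (nat_lit 242) (nat_lit 225))))) (XT.nd (nat_lit 234) (nat_lit 0) (nat_lit 0) (XT.nd (nat_lit 78) (nat_lit 0) (nat_lit 0) (XT.lf (nat_lit 0) (nat_lit 11734233799) (nat_lit 152) (nat_lit 56141535343) (nat_lit 0) (nat_lit 7497438071) (nat_lit 2) (nat_lit 5) (nat_lit 4) (nat_lit 4) (nat_lit 2) (nat_lit 4) (nat_lit 314) (nat_lit 242) (nat_lit 224)) (XT.nd (nat_lit 78) (nat_lit 0) (nat_lit 0) (XT.lf (nat_lit 0) (nat_lit 16953352179) (nat_lit 152) (nat_lit 51599602759) (nat_lit 0) (nat_lit 12611805223) (nat_lit 2) (nat_lit 5) (nat_lit 4) (nat_lit 4) (nat_lit 2) (nat_lit 4) (nat_lit 315) (nat_lit 242) (nat_lit 223)) (XT.lf (nat_lit 0) (nat_lit 22475993985) (nat_lit 152) (nat_lit 46911929001) (nat_lit 0) (nat_lit 18037455152) (nat_lit 2) (nat_lit 5) (nat_lit 4) (nat_lit 4) (nat_lit 2) (nat_lit 4) (nat_lit 316) (nat_lit 242) (nat_lit 222)))) (XT.nd (nat_lit 78) (nat_lit 0) (nat_lit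 0) (XT.lf (nat_lit 0) (nat_lit 28334885986) (nat_lit 152) (nat_lit 42050735262) (nat_lit 0) (nat_lit 23806539859) (nat_lit 2) (nat_lit 5) (nat_lit 4) (nat_lit 4) (nat_lit 2) (nat_lit 4) (nat_lit 317) (nat_lit 242) (nat_lit 221)) (XT.nd (nat_lit 78) (nat_lit 0) (nat_lit 0) (XT.lf (nat_lit 0) (nat_lit 34564747540) (nat_lit 152) (nat_lit 36987214468) (nat_lit 0) (nat_lit 29953246511) (nat_lit 2) (nat_lit 5) (nat_lit 4) (nat_lit 4) (nat_lit 2) (nat_lit 4) (nat_lit 318) (nat_lit 242) (nat_lit 220)) (XT.lf (nat_lit 0) (nat_lit 41202496346) (nat_lit 152) (nat_lit 31691360569) (nat_lit 0) (nat_lit 36514000037) (nat_lit 2) (nat_lit 5) (nat_lit 4) (nat_lit 4) (nat_lit 2) (nat_lit 4) (nat_lit 319) (nat_lit 242) (nat_lit 219))))))) (XT.nd (nat_lit 780) (nat_lit 0) (nat_lit 0) (XT.nd (nat_lit 390) (nat_lit 76) (nat_lit 0) (XT.nd (nat_lit 156) (nat_lit 0) (nat_lit 0) (XT.nd (nat_lit 78) (nat_lit 0)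 (nat_lit 0) (XT.lf (nat_lit 0) (nat_lit 48287467211) (nat_lit 152) (nat_lit 26131790728) (nat_lit 0) (nat_lit 43527678977) (nat_lit 2) (nat_lit 5) (nat_lit 4) (nat_lit 4) (nat_lit 2) (nat_lit 4) (nat_lit 320) (nat_lit 242) (nat_lit 218)) (XT.lf (nat_lit 0) (nat_lit 55861645148) (nat_lit 152) (nat_lit 20275559346) (nat_lit 0) (nat_lit 51035845873) (nat_lit 2) (nat_lit 5) (nat_lit 4) (nat_lit 4) (nat_lit 2) (nat_lit 4) (nat_lit 321) (nat_lit 242) (nat_lit 217))) (XT.nd (nat_lit 78) (nat_lit 0) (nat_lit 0) (XT.lf (nat_lit 0) (nat_lit 63969914175) (nat_lit 152) (nat_lit 14087962828) (nat_lit 0) (nat_lit 59082993564) (nat_lit 2) (nat_lit 5) (nat_lit 4) (nat_lit 4) (nat_lit 2) (nat_lit 4) (nat_lit 322) (nat_lit 242) (nat_lit 216)) (XT.nd (nat_lit 78) (nat_lit 0) (nat_lit 0) (XT.lf (nat_lit 0) (nat_lit 72660323293) (nat_lit 152) (nat_lit 7532333938) (nat_lit 0) (nat_lit 67716808853) (nat_lit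 2) (nat_lit 5) (nat_lit 4) (nat_lit 4) (nat_lit 2) (nat_lit 4) (nat_lit 323) (nat_lit 242) (nat_lit 215)) (XT.lf (nat_lit 0) (nat_lit 81984371222) (nat_lit 152) (nat_lit 569824503) (nat_lit 0) (nat_lit 76988455089) (nat_lit 2) (nat_lit 5) (nat_lit 4) (nat_lit 4) (nat_lit 2) (nat_lit 4) (nat_lit 324) (nat_lit 242) (nat_lit 214))))) (XT.nd (nat_lit 156) (nat_lit 0) (nat_lit 0) (XT.nd (nat_lit 78) (nat_lit 0) (nat_lit 0) (XT.lf (nat_lit 0) (nat_lit 7067013353) (nat_lit 76) (nat_lit 85040634111) (nat_lit 76) (nat_lit 79996197892) (nat_lit 1) (nat_lit 4) (nat_lit 2) (nat_lit 5) (nat_lit 2) (nat_lit 4) (nat_lit 325) (nat_lit 242) (nat_lit 213)) (XT.lf (nat_lit 0) (nat_lit 15231016554) (nat_lit 76) (nat_lit 87765262610) (nat_lit 76) (nat_lit 82675900385) (nat_lit 1) (nat_lit 4) (nat_lit 2) (nat_lit 5) (nat_lit 2) (nat_lit 4) (nat_lit 326) (nat_lit 242) (nat_lit 212))) (XT.nd (nat_lit 78) (nat_lit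 0) (nat_lit 0) (XT.lf (nat_lit 0) (nat_lit 23951723406) (nat_lit 76) (nat_lit 90753877423) (nat_lit 76) (nat_lit 85622917044) (nat_lit 1) (nat_lit 4) (nat_lit 2) (nat_lit 5) (nat_lit 2) (nat_lit 4) (nat_lit 327) (nat_lit 242) (nat_lit 211)) (XT.nd (nat_lit 78) (nat_lit 0) (nat_lit 0) (XT.lf (nat_lit 0) (nat_lit 33280812173) (nat_lit 76) (nat_lit 94024188860) (nat_lit 76) (nat_lit 88854711671) (nat_lit 1) (nat_lit 4) (nat_lit 2) (nat_lit 5) (nat_lit 2) (nat_lit 4) (nat_lit 328) (nat_lit 242) (nat_lit 210)) (XT.lf (nat_lit 0) (nat_lit 43273566342) (nat_lit 76) (nat_lit 97595576543) (nat_lit 76) (nat_lit 92390435643) (nat_lit 1) (nat_lit 4) (nat_lit 2) (nat_lit 5) (nat_lit 2) (nat_lit 4) (nat_lit 329) (nat_lit 242) (nat_lit 209)))))) (XT.nd (nat_lit 390) (nat_lit 0) (nat_lit 0) (XT.nd (nat_lit 156) (nat_lit 0) (nat_lit 0) (XT.nd (nat_lit 78) (nat_lit 0) (nat_lit 0) (XT.lf (nat_lit 0) (nat_lit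 53989202236) (nat_lit 76) (nat_lit 101489204252) (nat_lit 76) (nat_lit 96251041396) (nat_lit 1) (nat_lit 4) (nat_lit 2) (nat_lit 5) (nat_lit 2) (nat_lit 4) (nat_lit 330) (nat_lit 242) (nat_lit 208)) (XT.lf (nat_lit 0) (nat_lit 65491219918) (nat_lit 76) (nat_lit 105728145337) (nat_lit 76) (nat_lit 100459406596) (nat_lit 1) (nat_lit 4) (nat_lit 2) (nat_lit 5) (nat_lit 2) (nat_lit 4) (nat_lit 331) (nat_lit 242) (nat_lit 207))) (XT.nd (nat_lit 78) (nat_lit 0) (nat_lit 0) (XT.lf (nat_lit 0) (nat_lit 77847779493) (nat_lit 76) (nat_lit 110337519448) (nat_lit 76) (nat_lit 105040469702) (nat_lit 1) (nat_lit 4) (nat_lit 2) (nat_lit 5) (nat_lit 2) (nat_lit 4) (nat_lit 332) (nat_lit 242) (nat_lit 206)) (XT.nd (nat_lit 78) (nat_lit 0) (nat_lit 0) (XT.lf (nat_lit 0) (nat_lit 91132105019) (nat_lit 76) (nat_lit 115344641394) (nat_lit 76) (nat_lit 110021377756) (nat_lit 1) (nat_lit 4) (nat_lit 2) (nat_lit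 5) (nat_lit 2) (nat_lit 4) (nat_lit 333) (nat_lit 242) (nat_lit 205)) (XT.lf (nat_lit 0) (nat_lit 105422918424) (nat_lit 76) (nat_lit 120779183010) (nat_lit 76) (nat_lit 115431647248) (nat_lit 1) (nat_lit 4) (nat_lit 2) (nat_lit 5) (nat_lit 2) (nat_lit 4) (nat_lit 334) (nat_lit 242) (nat_lit 204))))) (XT.nd (nat_lit 234) (nat_lit 0) (nat_lit 0) (XT.nd (nat_lit 78) (nat_lit 0) (nat_lit 0) (XT.lf (nat_lit 0) (nat_lit 120804906010) (nat_lit 76) (nat_lit 126673348986) (nat_lit 76) (nat_lit 121303339036) (nat_lit 1) (nat_lit 4) (nat_lit 2) (nat_lit 5) (nat_lit 2) (nat_lit 4) (nat_lit 335) (nat_lit 242) (nat_lit 203)) (XT.nd (nat_lit 78) (nat_lit 0) (nat_lit 0) (XT.lf (nat_lit 0) (nat_lit 137369220296) (nat_lit 76) (nat_lit 133062067714) (nat_lit 76) (nat_lit 127671248331) (nat_lit 1) (nat_lit 4) (nat_lit 2) (nat_lit 5) (nat_lit 2) (nat_lit 4) (nat_lit 336) (nat_lit 242) (nat_lit 202)) (XT.lf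 (nat_lit 0) (nat_lit 155214020181) (nat_lit 76) (nat_lit 139983198267) (nat_lit 76) (nat_lit 134573110890) (nat_lit 1) (nat_lit 4) (nat_lit 2) (nat_lit 5) (nat_lit 2) (nat_lit 4) (nat_lit 337) (nat_lit 242) (nat_lit 201)))) (XT.nd (nat_lit 78) (nat_lit 0) (nat_lit 0) (XT.lf (nat_lit 0) (nat_lit 174445052627) (nat_lit 76) (nat_lit 147477754752) (nat_lit 76) (nat_lit 142049826640) (nat_lit 1) (nat_lit 4) (nat_lit 2) (nat_lit 5) (nat_lit 2) (nat_lit 4) (nat_lit 338) (nat_lit 242) (nat_lit 200)) (XT.nd (nat_lit 78) (nat_lit 0) (nat_lit 0) (XT.lf (nat_lit 0) (nat_lit 195176279309) (nat_lit 76) (nat_lit 155590149357) (nat_lit 76) (nat_lit 150145702045) (nat_lit 1) (nat_lit 4) (nat_lit 2) (nat_lit 5) (nat_lit 2) (nat_lit 4) (nat_lit 339) (nat_lit 242) (nat_lit 199)) (XT.lf (nat_lit 0) (nat_lit 217530551940) (nat_lit 76) (nat_lit 164368455529) (nat_lit 76) (nat_lit 158908712663) (nat_lit 1) (nat_lit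 4) (nat_lit 2) (nat_lit 5) (nat_lit 2) (nat_lit 4) (nat_lit 340) (nat_lit 242) (nat_lit 198))))))))
noncomputable def xc18 : XT := (XT.nd (nat_lit 37830) (nat_lit 0) (nat_lit 0) (XT.nd (nat_lit 37050) (nat_lit 0) (nat_lit 304) (XT.nd (nat_lit 390) (nat_lit 0) (nat_lit 0) (XT.nd (nat_lit 156) (nat_lit 0) (nat_lit 0) (XT.nd (nat_lit 78) (nat_lit 0) (nat_lit 0) (XT.lf (nat_lit 0) (nat_lit 241640340284) (nat_lit 76) (nat_lit 173864692863) (nat_lit 76) (nat_lit 168390787446) (nat_lit 1) (nat_lit 4) (nat_lit 2) (nat_lit 5) (nat_lit 2) (nat_lit 4) (nat_lit 341) (nat_lit 242) (nat_lit 197)) (XT.lf (nat_lit 0) (nat_lit 267648517161) (nat_lit 76) (nat_lit 184135135356) (nat_lit 76) (nat_lit 178648116466) (nat_lit 1) (nat_lit 4) (nat_lit 2) (nat_lit 5) (nat_lit 2) (nat_lit 4) (nat_lit 342) (nat_lit 242) (nat_lit 196))) (XT.nd (nat_lit 78) (nat_lit 0) (nat_lit 0) (XT.lf (nat_lit 0) (nat_lit 295709205100)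 (nat_lit 76) (nat_lit 195240644890) (nat_lit 76) (nat_lit 189741483896) (nat_lit 1) (nat_lit 4) (nat_lit 2) (nat_lit 5) (nat_lit 2) (nat_lit 4) (nat_lit 343) (nat_lit 242) (nat_lit 195)) (XT.nd (nat_lit 78) (nat_lit 0) (nat_lit 0) (XT.lf (nat_lit 0) (nat_lit 325988689659) (nat_lit 76) (nat_lit 207247031892) (nat_lit 76) (nat_lit 201736628208) (nat_lit 1) (nat_lit 4) (nat_lit 2) (nat_lit 5) (nat_lit 2) (nat_lit 4) (nat_lit 344) (nat_lit 242) (nat_lit 194)) (XT.lf (nat_lit 0) (nat_lit 358666404821) (nat_lit 76) (nat_lit 220225445322) (nat_lit 76) (nat_lit 214704631741) (nat_lit 1) (nat_lit 4) (nat_lit 2) (nat_lit 5) (nat_lit 2) (nat_lit 4) (nat_lit 345) (nat_lit 242) (nat_lit 193))))) (XT.nd (nat_lit 156) (nat_lit 0) (nat_lit 0) (XT.nd (nat_lit 78) (nat_lit 0) (nat_lit 0) (XT.lf (nat_lit 0) (nat_lit 393935996306) (nat_lit 76) (nat_lit 234252794296) (nat_lit 76) (nat_lit 228722341921) (nat_lit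 1) (nat_lit 4) (nat_lit 2) (nat_lit 5) (nat_lit 2) (nat_lit 4) (nat_lit 346) (nat_lit 242) (nat_lit 192)) (XT.lf (nat_lit 0) (nat_lit 432006469100) (nat_lit 76) (nat_lit 249412203846) (nat_lit 76) (nat_lit 243872826662) (nat_lit 1) (nat_lit 4) (nat_lit 2) (nat_lit 5) (nat_lit 2) (nat_lit 4) (nat_lit 347) (nat_lit 242) (nat_lit 191))) (XT.nd (nat_lit 78) (nat_lit 0) (nat_lit 0) (XT.lf (nat_lit 0) (nat_lit 473103426004) (nat_lit 76) (nat_lit 265793507510) (nat_lit 76) (nat_lit 260245866613) (nat_lit 1) (nat_lit 4) (nat_lit 2) (nat_lit 5) (nat_lit 2) (nat_lit 4) (nat_lit 348) (nat_lit 242) (nat_lit 190)) (XT.nd (nat_lit 36348) (nat_lit 0) (nat_lit 912) (XT.lf (nat_lit 0) (nat_lit 517470404542) (nat_lit 76) (nat_lit 283493779679) (nat_lit 76) (nat_lit 277938487197) (nat_lit 1) (nat_lit 4) (nat_lit 2) (nat_lit 5) (nat_lit 2) (nat_lit 4) (nat_lit 349) (nat_lit 242) (nat_lit 189)) (XT.lf (nat_lit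 0) (nat_lit 5855028103) (nat_lit 76) (nat_lit 1913037747) (nat_lit 76) (nat_lit 1913037747) (nat_lit 13) (nat_lit 4) (nat_lit 14) (nat_lit 5) (nat_lit 14) (nat_lit 4) (nat_lit 294) (nat_lit 243) (nat_lit 243)))))) (XT.nd (nat_lit 390) (nat_lit 228) (nat_lit 0) (XT.nd (nat_lit 156) (nat_lit 228) (nat_lit 0) (XT.nd (nat_lit 78) (nat_lit 0) (nat_lit 0) (XT.lf (nat_lit 0) (nat_lit 2947544653) (nat_lit 152) (nat_lit 15162871789) (nat_lit 0) (nat_lit 2424211350) (nat_lit 11) (nat_lit 5) (nat_lit 13) (nat_lit 4) (nat_lit 11) (nat_lit 4) (nat_lit 295) (nat_lit 243) (nat_lit 242)) (XT.lf (nat_lit 0) (nat_lit 9954744492) (nat_lit 152) (nat_lit 2905033548) (nat_lit 0) (nat_lit 8946843315) (nat_lit 11) (nat_lit 5) (nat_lit 13) (nat_lit 4) (nat_lit 11) (nat_lit 4) (nat_lit 296) (nat_lit 243) (nat_lit 241))) (XT.nd (nat_lit 78) (nat_lit 152) (nat_lit 0) (XT.lf (nat_lit 0) (nat_lit 10014635525) (nat_lit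 76) (nat_lit 7316046619) (nat_lit 76) (nat_lit 5859471485) (nat_lit 10) (nat_lit 4) (nat_lit 11) (nat_lit 5) (nat_lit 11) (nat_lit 4) (nat_lit 297) (nat_lit 243) (nat_lit 240)) (XT.nd (nat_lit 78) (nat_lit 76) (nat_lit 0) (XT.lf (nat_lit 0) (nat_lit 306601342) (nat_lit 152) (nat_lit 1243481230) (nat_lit 76) (nat_lit 23148279425) (nat_lit 9) (nat_lit 5) (nat_lit 11) (nat_lit 5) (nat_lit 10) (nat_lit 4) (nat_lit 298) (nat_lit 243) (nat_lit 239)) (XT.lf (nat_lit 0) (nat_lit 6701176732) (nat_lit 152) (nat_lit 15072417119) (nat_lit 0) (nat_lit 4551958081) (nat_lit 8) (nat_lit 5) (nat_lit 10) (nat_lit 4) (nat_lit 8) (nat_lit 4) (nat_lit 299) (nat_lit 243) (nat_lit 238))))) (XT.nd (nat_lit 156) (nat_lit 152) (nat_lit 0) (XT.nd (nat_lit 78) (nat_lit 76) (nat_lit 0) (XT.lf (nat_lit 0) (nat_lit 13353494481) (nat_lit 152) (nat_lit 3877190841) (nat_lit 0) (nat_lit 10865064542) (nat_lit 8) (nat_lit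 5) (nat_lit 10) (nat_lit 4) (nat_lit 8) (nat_lit 4) (nat_lit 300) (nat_lit 243) (nat_lit 237)) (XT.lf (nat_lit 0) (nat_lit 7946941454) (nat_lit 76) (nat_lit 12435522234) (nat_lit 76) (nat_lit 9633007768) (nat_lit 7) (nat_lit 4) (nat_lit 8) (nat_lit 5) (nat_lit 8) (nat_lit 4) (nat_lit 301) (nat_lit 243) (nat_lit 236))) (XT.nd (nat_lit 78) (nat_lit 152) (nat_lit 0) (XT.lf (nat_lit 0) (nat_lit 20357038526) (nat_lit 76) (nat_lit 7417572063) (nat_lit 76) (nat_lit 4324238591) (nat_lit 7) (nat_lit 4) (nat_lit 8) (nat_lit 5) (nat_lit 8) (nat_lit 4) (nat_lit 302) (nat_lit 243) (nat_lit 235)) (XT.nd (nat_lit 78) (nat_lit 76) (nat_lit 0) (XT.lf (nat_lit 0) (nat_lit 1113047053) (nat_lit 152) (nat_lit 1080863870) (nat_lit 76) (nat_lit 32166547208) (nat_lit 6) (nat_lit 5) (nat_lit 8) (nat_lit 5) (nat_lit 7) (nat_lit 4) (nat_lit 303) (nat_lit 243) (nat_lit 234)) (XT.lf (nat_lit 0) (nat_lit 6817921702)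 (nat_lit 152) (nat_lit 26604445323) (nat_lit 0) (nat_lit 3377978129) (nat_lit 5) (nat_lit 5) (nat_lit 7) (nat_lit 4) (nat_lit 5) (nat_lit 4) (nat_lit 304) (nat_lit 243) (nat_lit 233))))))) (XT.nd (nat_lit 780) (nat_lit 76) (nat_lit 0) (XT.nd (nat_lit 390) (nat_lit 152) (nat_lit 0) (XT.nd (nat_lit 156) (nat_lit 76) (nat_lit 0) (XT.nd (nat_lit 78) (nat_lit 0) (nat_lit 0) (XT.lf (nat_lit 0) (nat_lit 12810521392) (nat_lit 152) (nat_lit 17482717067) (nat_lit 0) (nat_lit 9150709720) (nat_lit 5) (nat_lit 5) (nat_lit 7) (nat_lit 4) (nat_lit 5) (nat_lit 4) (nat_lit 305) (nat_lit 243) (nat_lit 232)) (XT.lf (nat_lit 0) (nat_lit 19074385644) (nat_lit 152) (nat_lit 8024153565) (nat_lit 0) (nat_lit 15210992400) (nat_lit 5) (nat_lit 5) (nat_lit 7) (nat_lit 4) (nat_lit 5) (nat_lit 4) (nat_lit 306) (nat_lit 243) (nat_lit 231))) (XT.nd (nat_lit 78) (nat_lit 0) (nat_lit 0) (XT.lf (nat_lit 0) (nat_lit 1887714585)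 (nat_lit 76) (nat_lit 23788391586) (nat_lit 76) (nat_lit 19736496885) (nat_lit 4) (nat_lit 4) (nat_lit 5) (nat_lit 5) (nat_lit 5) (nat_lit 4) (nat_lit 307) (nat_lit 243) (nat_lit 230)) (XT.nd (nat_lit 78) (nat_lit 0) (nat_lit 0) (XT.lf (nat_lit 0) (nat_lit 12531083302) (nat_lit 76) (nat_lit 20230774108) (nat_lit 76) (nat_lit 16004341023) (nat_lit 4) (nat_lit 4) (nat_lit 5) (nat_lit 5) (nat_lit 5) (nat_lit 4) (nat_lit 308) (nat_lit 243) (nat_lit 229)) (XT.lf (nat_lit 0) (nat_lit 23703709644) (nat_lit 76) (nat_lit 16540497523) (nat_lit 76) (nat_lit 12152454822) (nat_lit 4) (nat_lit 4) (nat_lit 5) (nat_lit 5) (nat_lit 5) (nat_lit 4) (nat_lit 309) (nat_lit 243) (nat_lit 228))))) (XT.nd (nat_lit 156) (nat_lit 152) (nat_lit 0) (XT.nd (nat_lit 78) (nat_lit 0) (nat_lit 0) (XT.lf (nat_lit 0) (nat_lit 35471801768) (nat_lit 76) (nat_lit 12695693525) (nat_lit 76) (nat_lit 8158012291) (nat_lit 4) (nat_lit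 4) (nat_lit 5) (nat_lit 5) (nat_lit 5) (nat_lit 4) (nat_lit 310) (nat_lit 243) (nat_lit 227)) (XT.lf (nat_lit 0) (nat_lit 47905096515) (nat_lit 76) (nat_lit 8673578090) (nat_lit 76) (nat_lit 3997342659) (nat_lit 4) (nat_lit 4) (nat_lit 5) (nat_lit 5) (nat_lit 5) (nat_lit 4) (nat_lit 311) (nat_lit 243) (nat_lit 226))) (XT.nd (nat_lit 78) (nat_lit 76) (nat_lit 0) (XT.lf (nat_lit 0) (nat_lit 342872965) (nat_lit 152) (nat_lit 4101636776) (nat_lit 76) (nat_lit 60728592985) (nat_lit 3) (nat_lit 5) (nat_lit 5) (nat_lit 5) (nat_lit 4) (nat_lit 4) (nat_lit 312) (nat_lit 243) (nat_lit 225)) (XT.nd (nat_lit 78) (nat_lit 0) (nat_lit 0) (XT.lf (nat_lit 0) (nat_lit 4845551156) (nat_lit 152) (nat_lit 65134729508) (nat_lit 0) (nat_lit 156680444) (nat_lit 2) (nat_lit 5) (nat_lit 4) (nat_lit 4) (nat_lit 2) (nat_lit 4) (nat_lit 313) (nat_lit 243) (nat_lit 224)) (XT.lf (nat_lit 0) (nat_lit 9732878771) (nat_lit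 152) (nat_lit 60824614532) (nat_lit 0) (nat_lit 4939256832) (nat_lit 2) (nat_lit 5) (nat_lit 4) (nat_lit 4) (nat_lit 2) (nat_lit 4) (nat_lit 314) (nat_lit 243) (nat_lit 223)))))) (XT.nd (nat_lit 390) (nat_lit 76) (nat_lit 0) (XT.nd (nat_lit 156) (nat_lit 0) (nat_lit 0) (XT.nd (nat_lit 78) (nat_lit 0) (nat_lit 0) (XT.lf (nat_lit 0) (nat_lit 14897186553) (nat_lit 152) (nat_lit 56387303791) (nat_lit 0) (nat_lit 10006572736) (nat_lit 2) (nat_lit 5) (nat_lit 4) (nat_lit 4) (nat_lit 2) (nat_lit 4) (nat_lit 315) (nat_lit 243) (nat_lit 222)) (XT.lf (nat_lit 0) (nat_lit 20369077806) (nat_lit 152) (nat_lit 51796502110) (nat_lit 0) (nat_lit 15388656695) (nat_lit 2) (nat_lit 5) (nat_lit 4) (nat_lit 4) (nat_lit 2) (nat_lit 4) (nat_lit 316) (nat_lit 243) (nat_lit 221))) (XT.nd (nat_lit 78) (nat_lit 0) (nat_lit 0) (XT.lf (nat_lit 0) (nat_lit 26180978554) (nat_lit 152) (nat_lit 47025004738) (nat_lit 0)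 (nat_lit 21117402541) (nat_lit 2) (nat_lit 5) (nat_lit 4) (nat_lit 4) (nat_lit 2) (nat_lit 4) (nat_lit 317) (nat_lit 243) (nat_lit 220)) (XT.nd (nat_lit 78) (nat_lit 0) (nat_lit 0) (XT.lf (nat_lit 0) (nat_lit 32367329688) (nat_lit 152) (nat_lit 42044536136) (nat_lit 0) (nat_lit 27226758396) (nat_lit 2) (nat_lit 5) (nat_lit 4) (nat_lit 4) (nat_lit 2) (nat_lit 4) (nat_lit 318) (nat_lit 243) (nat_lit 219)) (XT.lf (nat_lit 0) (nat_lit 38964791069) (nat_lit 152) (nat_lit 36825582415) (nat_lit 0) (nat_lit 33752927851) (nat_lit 2) (nat_lit 5) (nat_lit 4) (nat_lit 4) (nat_lit 2) (nat_lit 4) (nat_lit 319) (nat_lit 243) (nat_lit 218))))) (XT.nd (nat_lit 234) (nat_lit 76) (nat_lit 0) (XT.nd (nat_lit 78) (nat_lit 0) (nat_lit 0) (XT.lf (nat_lit 0) (nat_lit 46012458762) (nat_lit 152) (nat_lit 31337216442) (nat_lit 0) (nat_lit 40734584503) (nat_lit 2) (nat_lit 5) (nat_lit 4) (nat_lit 4) (nat_lit 2) (nat_lit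 4) (nat_lit 320) (nat_lit 243) (nat_lit 217)) (XT.nd (nat_lit 78) (nat_lit 0) (nat_lit 0) (XT.lf (nat_lit 0) (nat_lit 53552096726) (nat_lit 152) (nat_lit 25546914567) (nat_lit 0) (nat_lit 48213101131) (nat_lit 2) (nat_lit 5) (nat_lit 4) (nat_lit 4) (nat_lit 2) (nat_lit 4) (nat_lit 321) (nat_lit 243) (nat_lit 216)) (XT.lf (nat_lit 0) (nat_lit 61628384295) (nat_lit 152) (nat_lit 19420363891) (nat_lit 0) (nat_lit 56232794871) (nat_lit 2) (nat_lit 5) (nat_lit 4) (nat_lit 4) (nat_lit 2) (nat_lit 4) (nat_lit 322) (nat_lit 243) (nat_lit 215)))) (XT.nd (nat_lit 78) (nat_lit 76) (nat_lit 0) (XT.lf (nat_lit 0) (nat_lit 70289180952) (nat_lit 152) (nat_lit 12921258926) (nat_lit 0) (nat_lit 64841189835) (nat_lit 2) (nat_lit 5) (nat_lit 4) (nat_lit 4) (nat_lit 2) (nat_lit 4) (nat_lit 323) (nat_lit 243) (nat_lit 214)) (XT.nd (nat_lit 78) (nat_lit 76) (nat_lit 0) (XT.lf (nat_lit 0) (nat_lit 79585809937)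 (nat_lit 152) (nat_lit 6011086460) (nat_lit 0) (nat_lit 74089298733) (nat_lit 2) (nat_lit 5) (nat_lit 4) (nat_lit 4) (nat_lit 2) (nat_lit 4) (nat_lit 324) (nat_lit 243) (nat_lit 213)) (XT.lf (nat_lit 0) (nat_lit 1395776234) (nat_lit 76) (nat_lit 88199378128) (nat_lit 76) (nat_lit 82657940918) (nat_lit 1) (nat_lit 4) (nat_lit 2) (nat_lit 5) (nat_lit 2) (nat_lit 4) (nat_lit 325) (nat_lit 243) (nat_lit 212))))))))
noncomputable def xc19 : XT := (XT.nd (nat_lit 1638) (nat_lit 0) (nat_lit 0) (XT.nd (nat_lit 780) (nat_lit 0) (nat_lit 0) (XT.nd (nat_lit 390) (nat_lit 0) (nat_lit 0) (XT.nd (nat_lit 156) (nat_lit 0) (nat_lit 0) (XT.nd (nat_lit 78) (nat_lit 0) (nat_lit 0) (XT.lf (nat_lit 0) (nat_lit 9513425298) (nat_lit 76) (nat_lit 90946129721) (nat_lit 76) (nat_lit 85363094357) (nat_lit 1) (nat_lit 4) (nat_lit 2) (nat_lit 5) (nat_lit 2) (nat_lit 4) (nat_lit 326) (nat_lit 243) (nat_lit 211)) (XT.lf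 (nat_lit 0) (nat_lit 18191211653) (nat_lit 76) (nat_lit 93955228879) (nat_lit 76) (nat_lit 88333676706) (nat_lit 1) (nat_lit 4) (nat_lit 2) (nat_lit 5) (nat_lit 2) (nat_lit 4) (nat_lit 327) (nat_lit 243) (nat_lit 210))) (XT.nd (nat_lit 78) (nat_lit 0) (nat_lit 0) (XT.lf (nat_lit 0) (nat_lit 27480559218) (nat_lit 76) (nat_lit 97244507302) (nat_lit 76) (nat_lit 91587291417) (nat_lit 1) (nat_lit 4) (nat_lit 2) (nat_lit 5) (nat_lit 2) (nat_lit 4) (nat_lit 328) (nat_lit 243) (nat_lit 209)) (XT.nd (nat_lit 78) (nat_lit 0) (nat_lit 0) (XT.lf (nat_lit 0) (nat_lit 37436515980) (nat_lit 76) (nat_lit 100833457010) (nat_lit 76) (nat_lit 95143219170) (nat_lit 1) (nat_lit 4) (nat_lit 2) (nat_lit 5) (nat_lit 2) (nat_lit 4) (nat_lit 329) (nat_lit 243) (nat_lit 208)) (XT.lf (nat_lit 0) (nat_lit 48118080199) (nat_lit 76) (nat_lit 104743345853) (nat_lit 76) (nat_lit 99022532128) (nat_lit 1) (nat_lit 4) (nat_lit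 2) (nat_lit 5) (nat_lit 2) (nat_lit 4) (nat_lit 330) (nat_lit 243) (nat_lit 207))))) (XT.nd (nat_lit 156) (nat_lit 0) (nat_lit 0) (XT.nd (nat_lit 78) (nat_lit 0) (nat_lit 0) (XT.lf (nat_lit 0) (nat_lit 59588550034) (nat_lit 76) (nat_lit 108997343543) (nat_lit 76) (nat_lit 103248218814) (nat_lit 1) (nat_lit 4) (nat_lit 2) (nat_lit 5) (nat_lit 2) (nat_lit 4) (nat_lit 331) (nat_lit 243) (nat_lit 206)) (XT.lf (nat_lit 0) (nat_lit 71915898640) (nat_lit 76) (nat_lit 113620658955) (nat_lit 76) (nat_lit 107845320333) (nat_lit 1) (nat_lit 4) (nat_lit 2) (nat_lit 5) (nat_lit 2) (nat_lit 4) (nat_lit 332) (nat_lit 243) (nat_lit 205))) (XT.nd (nat_lit 78) (nat_lit 0) (nat_lit 0) (XT.lf (nat_lit 0) (nat_lit 85173176973) (nat_lit 76) (nat_lit 118640689514) (nat_lit 76) (nat_lit 112841078768) (nat_lit 1) (nat_lit 4) (nat_lit 2) (nat_lit 5) (nat_lit 2) (nat_lit 4) (nat_lit 333) (nat_lit 243) (nat_lit 204))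 (XT.nd (nat_lit 78) (nat_lit 0) (nat_lit 0) (XT.lf (nat_lit 0) (nat_lit 99438946680) (nat_lit 76) (nat_lit 124087183549) (nat_lit 76) (nat_lit 118265098615) (nat_lit 1) (nat_lit 4) (nat_lit 2) (nat_lit 5) (nat_lit 2) (nat_lit 4) (nat_lit 334) (nat_lit 243) (nat_lit 203)) (XT.lf (nat_lit 0) (nat_lit 114797745656) (nat_lit 76) (nat_lit 129992416579) (nat_lit 76) (nat_lit 124149522212) (nat_lit 1) (nat_lit 4) (nat_lit 2) (nat_lit 5) (nat_lit 2) (nat_lit 4) (nat_lit 335) (nat_lit 243) (nat_lit 202)))))) (XT.nd (nat_lit 390) (nat_lit 0) (nat_lit 0) (XT.nd (nat_lit 156) (nat_lit 0) (nat_lit 0) (XT.nd (nat_lit 78) (nat_lit 0) (nat_lit 0) (XT.lf (nat_lit 0) (nat_lit 131340589008) (nat_lit 76) (nat_lit 136391382580) (nat_lit 76) (nat_lit 130529220219) (nat_lit 1) (nat_lit 4) (nat_lit 2) (nat_lit 5) (nat_lit 2) (nat_lit 4) (nat_lit 336) (nat_lit 243) (nat_lit 201)) (XT.lf (nat_lit 0) (nat_lit 149165508398)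 (nat_lit 76) (nat_lit 143322001348) (nat_lit 76) (nat_lit 137441998252) (nat_lit 1) (nat_lit 4) (nat_lit 2) (nat_lit 5) (nat_lit 2) (nat_lit 4) (nat_lit 337) (nat_lit 243) (nat_lit 200))) (XT.nd (nat_lit 78) (nat_lit 0) (nat_lit 0) (XT.lf (nat_lit 0) (nat_lit 168378132979) (nat_lit 76) (nat_lit 150825343218) (nat_lit 76) (nat_lit 144928820923) (nat_lit 1) (nat_lit 4) (nat_lit 2) (nat_lit 5) (nat_lit 2) (nat_lit 4) (nat_lit 338) (nat_lit 243) (nat_lit 199)) (XT.nd (nat_lit 78) (nat_lit 0) (nat_lit 0) (XT.lf (nat_lit 0) (nat_lit 189092315341) (nat_lit 76) (nat_lit 158945872438) (nat_lit 76) (nat_lit 153034054588) (nat_lit 1) (nat_lit 4) (nat_lit 2) (nat_lit 5) (nat_lit 2) (nat_lit 4) (nat_lit 339) (nat_lit 243) (nat_lit 198)) (XT.lf (nat_lit 0) (nat_lit 211430806195) (nat_lit 76) (nat_lit 167731710662) (nat_lit 76) (nat_lit 161805730261) (nat_lit 1) (nat_lit 4) (nat_lit 2) (nat_lit 5) (nat_lit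 2) (nat_lit 4) (nat_lit 340) (nat_lit 243) (nat_lit 197))))) (XT.nd (nat_lit 234) (nat_lit 0) (nat_lit 0) (XT.nd (nat_lit 78) (nat_lit 0) (nat_lit 0) (XT.lf (nat_lit 0) (nat_lit 235525981781) (nat_lit 76) (nat_lit 177234922117) (nat_lit 76) (nat_lit 171295828244) (nat_lit 1) (nat_lit 4) (nat_lit 2) (nat_lit 5) (nat_lit 2) (nat_lit 4) (nat_lit 341) (nat_lit 243) (nat_lit 196)) (XT.nd (nat_lit 78) (nat_lit 0) (nat_lit 0) (XT.lf (nat_lit 0) (nat_lit 261520628327) (nat_lit 76) (nat_lit 187511822130) (nat_lit 76) (nat_lit 181560586152) (nat_lit 1) (nat_lit 4) (nat_lit 2) (nat_lit 5) (nat_lit 2) (nat_lit 4) (nat_lit 342) (nat_lit 243) (nat_lit 195)) (XT.lf (nat_lit 0) (nat_lit 289568788182) (nat_lit 76) (nat_lit 198623310850) (nat_lit 76) (nat_lit 192660832182) (nat_lit 1) (nat_lit 4) (nat_lit 2) (nat_lit 5) (nat_lit 2) (nat_lit 4) (nat_lit 343) (nat_lit 243) (nat_lit 194)))) (XT.nd (nat_lit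 78) (nat_lit 0) (nat_lit 0) (XT.lf (nat_lit 0) (nat_lit 319836672664) (nat_lit 76) (nat_lit 210635234134) (nat_lit 76) (nat_lit 204662345569) (nat_lit 1) (nat_lit 4) (nat_lit 2) (nat_lit 5) (nat_lit 2) (nat_lit 4) (nat_lit 344) (nat_lit 243) (nat_lit 193)) (XT.nd (nat_lit 78) (nat_lit 0) (nat_lit 0) (XT.lf (nat_lit 0) (nat_lit 352503647013) (nat_lit 76) (nat_lit 223618773752) (nat_lit 76) (nat_lit 217636246392) (nat_lit 1) (nat_lit 4) (nat_lit 2) (nat_lit 5) (nat_lit 2) (nat_lit 4) (nat_lit 345) (nat_lit 243) (nat_lit 192)) (XT.lf (nat_lit 0) (nat_lit 387763293301) (nat_lit 76) (nat_lit 237650869196) (nat_lit 76) (nat_lit 231659417027) (nat_lit 1) (nat_lit 4) (nat_lit 2) (nat_lit 5) (nat_lit 2) (nat_lit 4) (nat_lit 346) (nat_lit 243) (nat_lit 191))))))) (XT.nd (nat_lit 36894) (nat_lit 0) (nat_lit 228) (XT.nd (nat_lit 36504) (nat_lit 0) (nat_lit 684) (XT.nd (nat_lit 156) (nat_lit 0) (nat_lit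 0) (XT.nd (nat_lit 78) (nat_lit 0) (nat_lit 0) (XT.lf (nat_lit 0) (nat_lit 425824557579) (nat_lit 76) (nat_lit 252814673626) (nat_lit 76) (nat_lit 246814957745) (nat_lit 1) (nat_lit 4) (nat_lit 2) (nat_lit 5) (nat_lit 2) (nat_lit 4) (nat_lit 347) (nat_lit 243) (nat_lit 190)) (XT.lf (nat_lit 0) (nat_lit 466912988080) (nat_lit 76) (nat_lit 269200046622) (nat_lit 76) (nat_lit 263192679156) (nat_lit 1) (nat_lit 4) (nat_lit 2) (nat_lit 5) (nat_lit 2) (nat_lit 4) (nat_lit 348) (nat_lit 243) (nat_lit 189))) (XT.nd (nat_lit 36192) (nat_lit 0) (nat_lit 988) (XT.lf (nat_lit 0) (nat_lit 511272071800) (nat_lit 76) (nat_lit 286904086692) (nat_lit 76) (nat_lit 280889634424) (nat_lit 1) (nat_lit 4) (nat_lit 2) (nat_lit 5) (nat_lit 2) (nat_lit 4) (nat_lit 349) (nat_lit 243) (nat_lit 188)) (XT.nd (nat_lit 78) (nat_lit 0) (nat_lit 0) (XT.lf (nat_lit 0) (nat_lit 683006401) (nat_lit 152) (nat_lit 7278254132)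 (nat_lit 0) (nat_lit 683006401) (nat_lit 14) (nat_lit 5) (nat_lit 16) (nat_lit 4) (nat_lit 14) (nat_lit 4) (nat_lit 292) (nat_lit 244) (nat_lit 244)) (XT.lf (nat_lit 0) (nat_lit 8468912784) (nat_lit 152) (nat_lit 1940818053) (nat_lit 0) (nat_lit 7875452818) (nat_lit 14) (nat_lit 5) (nat_lit 16) (nat_lit 4) (nat_lit 14) (nat_lit 4) (nat_lit 293) (nat_lit 244) (nat_lit 243))))) (XT.nd (nat_lit 156) (nat_lit 76) (nat_lit 0) (XT.nd (nat_lit 78) (nat_lit 152) (nat_lit 0) (XT.lf (nat_lit 0) (nat_lit 11376351404) (nat_lit 76) (nat_lit 4569067333) (nat_lit 76) (nat_lit 3426107399) (nat_lit 13) (nat_lit 4) (nat_lit 14) (nat_lit 5) (nat_lit 14) (nat_lit 4) (nat_lit 294) (nat_lit 244) (nat_lit 242)) (XT.lf (nat_lit 0) (nat_lit 3136694346) (nat_lit 152) (nat_lit 15853345061) (nat_lit 0) (nat_lit 1563593201) (nat_lit 11) (nat_lit 5) (nat_lit 13) (nat_lit 4) (nat_lit 11) (nat_lit 4) (nat_lit 295) (nat_lit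 244) (nat_lit 241))) (XT.nd (nat_lit 78) (nat_lit 76) (nat_lit 0) (XT.lf (nat_lit 0) (nat_lit 9976492887) (nat_lit 152) (nat_lit 3902875621) (nat_lit 0) (nat_lit 7954717785) (nat_lit 11) (nat_lit 5) (nat_lit 13) (nat_lit 4) (nat_lit 11) (nat_lit 4) (nat_lit 296) (nat_lit 244) (nat_lit 240)) (XT.nd (nat_lit 78) (nat_lit 0) (nat_lit 0) (XT.lf (nat_lit 0) (nat_lit 8689789361) (nat_lit 76) (nat_lit 8486955415) (nat_lit 76) (nat_lit 6049741464) (nat_lit 10) (nat_lit 4) (nat_lit 11) (nat_lit 5) (nat_lit 11) (nat_lit 4) (nat_lit 297) (nat_lit 244) (nat_lit 239)) (XT.lf (nat_lit 0) (nat_lit 21862994705) (nat_lit 76) (nat_lit 2850646210) (nat_lit 76) (nat_lit 28766658) (nat_lit 10) (nat_lit 4) (nat_lit 11) (nat_lit 5) (nat_lit 11) (nat_lit 4) (nat_lit 298) (nat_lit 244) (nat_lit 238)))))) (XT.nd (nat_lit 390) (nat_lit 152) (nat_lit 0) (XT.nd (nat_lit 156) (nat_lit 152) (nat_lit 0) (XT.nd (nat_lit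 78) (nat_lit 0) (nat_lit 0) (XT.lf (nat_lit 0) (nat_lit 6174424377) (nat_lit 152) (nat_lit 17057170173) (nat_lit 0) (nat_lit 3147708754) (nat_lit 8) (nat_lit 5) (nat_lit 10) (nat_lit 4) (nat_lit 8) (nat_lit 4) (nat_lit 299) (nat_lit 244) (nat_lit 237)) (XT.lf (nat_lit 0) (nat_lit 12692315208) (nat_lit 152) (nat_lit 6112455357) (nat_lit 0) (nat_lit 9351515059) (nat_lit 8) (nat_lit 5) (nat_lit 10) (nat_lit 4) (nat_lit 8) (nat_lit 4) (nat_lit 300) (nat_lit 244) (nat_lit 236))) (XT.nd (nat_lit 78) (nat_lit 76) (nat_lit 0) (XT.lf (nat_lit 0) (nat_lit 5398144459) (nat_lit 76) (nat_lit 14158876723) (nat_lit 76) (nat_lit 10527257567) (nat_lit 7) (nat_lit 4) (nat_lit 8) (nat_lit 5) (nat_lit 8) (nat_lit 4) (nat_lit 301) (nat_lit 244) (nat_lit 235)) (XT.nd (nat_lit 78) (nat_lit 76) (nat_lit 0) (XT.lf (nat_lit 0) (nat_lit 17586366958) (nat_lit 76) (nat_lit 9244087626) (nat_lit 76) (nat_lit 5343191613)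 (nat_lit 7) (nat_lit 4) (nat_lit 8) (nat_lit 5) (nat_lit 8) (nat_lit 4) (nat_lit 302) (nat_lit 244) (nat_lit 234)) (XT.lf (nat_lit 0) (nat_lit 14936575) (nat_lit 152) (nat_lit 4119606455) (nat_lit 76) (nat_lit 30307143730) (nat_lit 6) (nat_lit 5) (nat_lit 8) (nat_lit 5) (nat_lit 7) (nat_lit 4) (nat_lit 303) (nat_lit 244) (nat_lit 233))))) (XT.nd (nat_lit 234) (nat_lit 76) (nat_lit 0) (XT.nd (nat_lit 78) (nat_lit 0) (nat_lit 0) (XT.lf (nat_lit 0) (nat_lit 5531622603) (nat_lit 152) (nat_lit 30000246844) (nat_lit 0) (nat_lit 1359157899) (nat_lit 5) (nat_lit 5) (nat_lit 7) (nat_lit 4) (nat_lit 5) (nat_lit 4) (nat_lit 304) (nat_lit 244) (nat_lit 232)) (XT.nd (nat_lit 78) (nat_lit 0) (nat_lit 0) (XT.lf (nat_lit 0) (nat_lit 11424153345) (nat_lit 152) (nat_lit 21067414268) (nat_lit 0) (nat_lit 7048107068) (nat_lit 5) (nat_lit 5) (nat_lit 7) (nat_lit 4) (nat_lit 5) (nat_lit 4) (nat_lit 305) (nat_lit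 244) (nat_lit 231)) (XT.lf (nat_lit 0) (nat_lit 17595361164) (nat_lit 152) (nat_lit 11783754173) (nat_lit 0) (nat_lit 13030813432) (nat_lit 5) (nat_lit 5) (nat_lit 7) (nat_lit 4) (nat_lit 5) (nat_lit 4) (nat_lit 306) (nat_lit 244) (nat_lit 230)))) (XT.nd (nat_lit 78) (nat_lit 76) (nat_lit 0) (XT.lf (nat_lit 0) (nat_lit 24081816182) (nat_lit 152) (nat_lit 2094252277) (nat_lit 0) (nat_lit 19342730065) (nat_lit 5) (nat_lit 5) (nat_lit 7) (nat_lit 4) (nat_lit 5) (nat_lit 4) (nat_lit 307) (nat_lit 244) (nat_lit 229)) (XT.nd (nat_lit 78) (nat_lit 0) (nat_lit 0) (XT.lf (nat_lit 0) (nat_lit 8324961447) (nat_lit 76) (nat_lit 22726971182) (nat_lit 76) (nat_lit 17826275449) (nat_lit 4) (nat_lit 4) (nat_lit 5) (nat_lit 5) (nat_lit 5) (nat_lit 4) (nat_lit 308) (nat_lit 244) (nat_lit 228)) (XT.lf (nat_lit 0) (nat_lit 19354153017) (nat_lit 76) (nat_lit 19104336286) (nat_lit 76) (nat_lit 14054002020)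 (nat_lit 4) (nat_lit 4) (nat_lit 5) (nat_lit 5) (nat_lit 5) (nat_lit 4) (nat_lit 309) (nat_lit 244) (nat_lit 227))))))))
noncomputable def xc20 : XT := (XT.nd (nat_lit 1560) (nat_lit 0) (nat_lit 0) (XT.nd (nat_lit 780) (nat_lit 76) (nat_lit 0) (XT.nd (nat_lit 390) (nat_lit 0) (nat_lit 0) (XT.nd (nat_lit 156) (nat_lit 152) (nat_lit 0) (XT.nd (nat_lit 78) (nat_lit 0) (nat_lit 0) (XT.lf (nat_lit 0) (nat_lit 30989435167) (nat_lit 76) (nat_lit 15322163482) (nat_lit 76) (nat_lit 10133275018) (nat_lit 4) (nat_lit 4) (nat_lit 5) (nat_lit 5) (nat_lit 5) (nat_lit 4) (nat_lit 310) (nat_lit 244) (nat_lit 226)) (XT.lf (nat_lit 0) (nat_lit 43299757716) (nat_lit 76) (nat_lit 11358039893) (nat_lit 76) (nat_lit 6040860506) (nat_lit 4) (nat_lit 4) (nat_lit 5) (nat_lit 5) (nat_lit 5) (nat_lit 4) (nat_lit 311) (nat_lit 244) (nat_lit 225))) (XT.nd (nat_lit 78) (nat_lit 152) (nat_lit 0) (XT.lf (nat_lit 0) (nat_lit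 56358070724) (nat_lit 76) (nat_lit 7188474417) (nat_lit 76) (nat_lit 1752507138) (nat_lit 4) (nat_lit 4) (nat_lit 5) (nat_lit 5) (nat_lit 5) (nat_lit 4) (nat_lit 312) (nat_lit 244) (nat_lit 224)) (XT.nd (nat_lit 78) (nat_lit 76) (nat_lit 0) (XT.lf (nat_lit 0) (nat_lit 2668950009) (nat_lit 152) (nat_lit 74608549) (nat_lit 76) (nat_lit 67527606818) (nat_lit 3) (nat_lit 5) (nat_lit 5) (nat_lit 5) (nat_lit 4) (nat_lit 4) (nat_lit 313) (nat_lit 244) (nat_lit 223)) (XT.lf (nat_lit 0) (nat_lit 7457409298) (nat_lit 152) (nat_lit 66099953490) (nat_lit 0) (nat_lit 2078554498) (nat_lit 2) (nat_lit 5) (nat_lit 4) (nat_lit 4) (nat_lit 2) (nat_lit 4) (nat_lit 314) (nat_lit 244) (nat_lit 222))))) (XT.nd (nat_lit 156) (nat_lit 0) (nat_lit 0) (XT.nd (nat_lit 78) (nat_lit 0) (nat_lit 0) (XT.lf (nat_lit 0) (nat_lit 12570966527) (nat_lit 152) (nat_lit 61759514826) (nat_lit 0) (nat_lit 7102304433) (nat_lit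 2) (nat_lit 5) (nat_lit 4) (nat_lit 4) (nat_lit 2) (nat_lit 4) (nat_lit 315) (nat_lit 244) (nat_lit 221)) (XT.lf (nat_lit 0) (nat_lit 17995866527) (nat_lit 152) (nat_lit 57258409512) (nat_lit 0) (nat_lit 12444049531) (nat_lit 2) (nat_lit 5) (nat_lit 4) (nat_lit 4) (nat_lit 2) (nat_lit 4) (nat_lit 316) (nat_lit 244) (nat_lit 220))) (XT.nd (nat_lit 78) (nat_lit 0) (nat_lit 0) (XT.lf (nat_lit 0) (nat_lit 23764256855) (nat_lit 152) (nat_lit 52569964332) (nat_lit 0) (nat_lit 18135444580) (nat_lit 2) (nat_lit 5) (nat_lit 4) (nat_lit 4) (nat_lit 2) (nat_lit 4) (nat_lit 317) (nat_lit 244) (nat_lit 219)) (XT.nd (nat_lit 78) (nat_lit 0) (nat_lit 0) (XT.lf (nat_lit 0) (nat_lit 29910320564) (nat_lit 152) (nat_lit 47666395907) (nat_lit 0) (nat_lit 24210216363) (nat_lit 2) (nat_lit 5) (nat_lit 4) (nat_lit 4) (nat_lit 2) (nat_lit 4) (nat_lit 318) (nat_lit 244) (nat_lit 218)) (XT.lf (nat_lit 0) (nat_lit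 36470478772) (nat_lit 152) (nat_lit 42518646055) (nat_lit 0) (nat_lit 30704363530) (nat_lit 2) (nat_lit 5) (nat_lit 4) (nat_lit 4) (nat_lit 2) (nat_lit 4) (nat_lit 319) (nat_lit 244) (nat_lit 217)))))) (XT.nd (nat_lit 390) (nat_lit 76) (nat_lit 0) (XT.nd (nat_lit 156) (nat_lit 0) (nat_lit 0) (XT.nd (nat_lit 78) (nat_lit 0) (nat_lit 0) (XT.lf (nat_lit 0) (nat_lit 43483606492) (nat_lit 152) (nat_lit 37096209589) (nat_lit 0) (nat_lit 37656369914) (nat_lit 2) (nat_lit 5) (nat_lit 4) (nat_lit 4) (nat_lit 2) (nat_lit 4) (nat_lit 320) (nat_lit 244) (nat_lit 216)) (XT.lf (nat_lit 0) (nat_lit 50991262998) (nat_lit 152) (nat_lit 31366953555) (nat_lit 0) (nat_lit 45107432592) (nat_lit 2) (nat_lit 5) (nat_lit 4) (nat_lit 4) (nat_lit 2) (nat_lit 4) (nat_lit 321) (nat_lit 244) (nat_lit 215))) (XT.nd (nat_lit 78) (nat_lit 0) (nat_lit 0) (XT.lf (nat_lit 0) (nat_lit 59037938107) (nat_lit 152) (nat_lit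 25296926805) (nat_lit 0) (nat_lit 53101706007) (nat_lit 2) (nat_lit 5) (nat_lit 4) (nat_lit 4) (nat_lit 2) (nat_lit 4) (nat_lit 322) (nat_lit 244) (nat_lit 214)) (XT.nd (nat_lit 78) (nat_lit 0) (nat_lit 0) (XT.lf (nat_lit 0) (nat_lit 67671315820) (nat_lit 152) (nat_lit 18850158809) (nat_lit 0) (nat_lit 61686563633) (nat_lit 2) (nat_lit 5) (nat_lit 4) (nat_lit 4) (nat_lit 2) (nat_lit 4) (nat_lit 323) (nat_lit 244) (nat_lit 213)) (XT.lf (nat_lit 0) (nat_lit 76942556893) (nat_lit 152) (nat_lit 11988446499) (nat_lit 0) (nat_lit 70912878700) (nat_lit 2) (nat_lit 5) (nat_lit 4) (nat_lit 4) (nat_lit 2) (nat_lit 4) (nat_lit 324) (nat_lit 244) (nat_lit 212))))) (XT.nd (nat_lit 156) (nat_lit 0) (nat_lit 0) (XT.nd (nat_lit 78) (nat_lit 76) (nat_lit 0) (XT.lf (nat_lit 0) (nat_lit 86906602014) (nat_lit 152) (nat_lit 4671127875) (nat_lit 0) (nat_lit 80835325667) (nat_lit 2) (nat_lit 5) (nat_lit 4) (nat_lit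 4) (nat_lit 2) (nat_lit 4) (nat_lit 325) (nat_lit 244) (nat_lit 211)) (XT.lf (nat_lit 0) (nat_lit 3249152107) (nat_lit 76) (nat_lit 94424073638) (nat_lit 76) (nat_lit 88314280483) (nat_lit 1) (nat_lit 4) (nat_lit 2) (nat_lit 5) (nat_lit 2) (nat_lit 4) (nat_lit 326) (nat_lit 244) (nat_lit 210))) (XT.nd (nat_lit 78) (nat_lit 0) (nat_lit 0) (XT.lf (nat_lit 0) (nat_lit 11887197262) (nat_lit 76) (nat_lit 97452139783) (nat_lit 76) (nat_lit 91306682916) (nat_lit 1) (nat_lit 4) (nat_lit 2) (nat_lit 5) (nat_lit 2) (nat_lit 4) (nat_lit 327) (nat_lit 244) (nat_lit 209)) (XT.nd (nat_lit 78) (nat_lit 0) (nat_lit 0) (XT.lf (nat_lit 0) (nat_lit 21139747418) (nat_lit 76) (nat_lit 100758980231) (nat_lit 76) (nat_lit 94580501408) (nat_lit 1) (nat_lit 4) (nat_lit 2) (nat_lit 5) (nat_lit 2) (nat_lit 4) (nat_lit 328) (nat_lit 244) (nat_lit 208)) (XT.lf (nat_lit 0) (nat_lit 31061632505) (nat_lit 76) (nat_lit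 104364191073) (nat_lit 76) (nat_lit 98155136365) (nat_lit 1) (nat_lit 4) (nat_lit 2) (nat_lit 5) (nat_lit 2) (nat_lit 4) (nat_lit 329) (nat_lit 244) (nat_lit 207))))))) (XT.nd (nat_lit 780) (nat_lit 0) (nat_lit 0) (XT.nd (nat_lit 390) (nat_lit 0) (nat_lit 0) (XT.nd (nat_lit 156) (nat_lit 0) (nat_lit 0) (XT.nd (nat_lit 78) (nat_lit 0) (nat_lit 0) (XT.lf (nat_lit 0) (nat_lit 41711648877) (nat_lit 76) (nat_lit 108289136521) (nat_lit 76) (nat_lit 102051770809) (nat_lit 1) (nat_lit 4) (nat_lit 2) (nat_lit 5) (nat_lit 2) (nat_lit 4) (nat_lit 330) (nat_lit 244) (nat_lit 206)) (XT.lf (nat_lit 0) (nat_lit 53152907744) (nat_lit 76) (nat_lit 112557075513) (nat_lit 76) (nat_lit 106293495908) (nat_lit 1) (nat_lit 4) (nat_lit 2) (nat_lit 5) (nat_lit 2) (nat_lit 4) (nat_lit 331) (nat_lit 244) (nat_lit 205))) (XT.nd (nat_lit 78) (nat_lit 0) (nat_lit 0) (XT.lf (nat_lit 0) (nat_lit 65453209156) (nat_lit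 76) (nat_lit 117193299537) (nat_lit 76) (nat_lit 110905447809) (nat_lit 1) (nat_lit 4) (nat_lit 2) (nat_lit 5) (nat_lit 2) (nat_lit 4) (nat_lit 332) (nat_lit 244) (nat_lit 204)) (XT.nd (nat_lit 78) (nat_lit 0) (nat_lit 0) (XT.lf (nat_lit 0) (nat_lit 78685443791) (nat_lit 76) (nat_lit 122225282515) (nat_lit 76) (nat_lit 115914956598) (nat_lit 1) (nat_lit 4) (nat_lit 2) (nat_lit 5) (nat_lit 2) (nat_lit 4) (nat_lit 333) (nat_lit 244) (nat_lit 203)) (XT.lf (nat_lit 0) (nat_lit 92928024889) (nat_lit 76) (nat_lit 127682843604) (nat_lit 76) (nat_lit 121351708254) (nat_lit 1) (nat_lit 4) (nat_lit 2) (nat_lit 5) (nat_lit 2) (nat_lit 4) (nat_lit 334) (nat_lit 244) (nat_lit 202))))) (XT.nd (nat_lit 156) (nat_lit 0) (nat_lit 0) (XT.nd (nat_lit 78) (nat_lit 0) (nat_lit 0) (XT.lf (nat_lit 0) (nat_lit 108265352931) (nat_lit 76) (nat_lit 133598323907) (nat_lit 76) (nat_lit 127247920563) (nat_lit 1) (nat_lit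 4) (nat_lit 2) (nat_lit 5) (nat_lit 2) (nat_lit 4) (nat_lit 335) (nat_lit 244) (nat_lit 201)) (XT.lf (nat_lit 0) (nat_lit 124788315787) (nat_lit 76) (nat_lit 140006778123) (nat_lit 76) (nat_lit 133638534044) (nat_lit 1) (nat_lit 4) (nat_lit 2) (nat_lit 5) (nat_lit 2) (nat_lit 4) (nat_lit 336) (nat_lit 244) (nat_lit 200))) (XT.nd (nat_lit 78) (nat_lit 0) (nat_lit 0) (XT.lf (nat_lit 0) (nat_lit 142594827312) (nat_lit 76) (nat_lit 146946182276) (nat_lit 76) (nat_lit 140561418998) (nat_lit 1) (nat_lit 4) (nat_lit 2) (nat_lit 5) (nat_lit 2) (nat_lit 4) (nat_lit 337) (nat_lit 244) (nat_lit 199)) (XT.nd (nat_lit 78) (nat_lit 0) (nat_lit 0) (XT.lf (nat_lit 0) (nat_lit 161790407573) (nat_lit 76) (nat_lit 154457658762) (nat_lit 76) (nat_lit 148057599929) (nat_lit 1) (nat_lit 4) (nat_lit 2) (nat_lit 5) (nat_lit 2) (nat_lit 4) (nat_lit 338) (nat_lit 244) (nat_lit 198)) (XT.lf (nat_lit 0) (nat_lit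 182488808158) (nat_lit 76) (nat_lit 162585720033) (nat_lit 76) (nat_lit 156171498649) (nat_lit 1) (nat_lit 4) (nat_lit 2) (nat_lit 5) (nat_lit 2) (nat_lit 4) (nat_lit 339) (nat_lit 244) (nat_lit 197)))))) (XT.nd (nat_lit 390) (nat_lit 0) (nat_lit 0) (XT.nd (nat_lit 156) (nat_lit 0) (nat_lit 0) (XT.nd (nat_lit 78) (nat_lit 0) (nat_lit 0) (XT.lf (nat_lit 0) (nat_lit 204812686254) (nat_lit 76) (nat_lit 171378532379) (nat_lit 76) (nat_lit 164951197522) (nat_lit 1) (nat_lit 4) (nat_lit 2) (nat_lit 5) (nat_lit 2) (nat_lit 4) (nat_lit 340) (nat_lit 244) (nat_lit 196)) (XT.lf (nat_lit 0) (nat_lit 228894331510) (nat_lit 76) (nat_lit 180888201354) (nat_lit 76) (nat_lit 174448724393) (nat_lit 1) (nat_lit 4) (nat_lit 2) (nat_lit 5) (nat_lit 2) (nat_lit 4) (nat_lit 341) (nat_lit 244) (nat_lit 195))) (XT.nd (nat_lit 78) (nat_lit 0) (nat_lit 0) (XT.lf (nat_lit 0) (nat_lit 254876449972) (nat_lit 76) (nat_lit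 191171080552) (nat_lit 76) (nat_lit 184720360901) (nat_lit 1) (nat_lit 4) (nat_lit 2) (nat_lit 5) (nat_lit 2) (nat_lit 4) (nat_lit 342) (nat_lit 244) (nat_lit 194)) (XT.nd (nat_lit 78) (nat_lit 0) (nat_lit 0) (XT.lf (nat_lit 0) (nat_lit 282913009749) (nat_lit 76) (nat_lit 202288105554) (nat_lit 76) (nat_lit 195826976006) (nat_lit 1) (nat_lit 4) (nat_lit 2) (nat_lit 5) (nat_lit 2) (nat_lit 4) (nat_lit 343) (nat_lit 244) (nat_lit 193)) (XT.lf (nat_lit 0) (nat_lit 313170153418) (nat_lit 76) (nat_lit 214305155026) (nat_lit 76) (nat_lit 207834386684) (nat_lit 1) (nat_lit 4) (nat_lit 2) (nat_lit 5) (nat_lit 2) (nat_lit 4) (nat_lit 344) (nat_lit 244) (nat_lit 192))))) (XT.nd (nat_lit 234) (nat_lit 0) (nat_lit 0) (XT.nd (nat_lit 78) (nat_lit 0) (nat_lit 0) (XT.lf (nat_lit 0) (nat_lit 345827182570) (nat_lit 76) (nat_lit 227293441113) (nat_lit 76) (nat_lit 220813747962) (nat_lit 1) (nat_lit 4) (nat_lit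 2) (nat_lit 5) (nat_lit 2) (nat_lit 4) (nat_lit 345) (nat_lit 244) (nat_lit 191)) (XT.nd (nat_lit 78) (nat_lit 0) (nat_lit 0) (XT.lf (nat_lit 0) (nat_lit 381077620342) (nat_lit 76) (nat_lit 241329931437) (nat_lit 76) (nat_lit 234841974574) (nat_lit 1) (nat_lit 4) (nat_lit 2) (nat_lit 5) (nat_lit 2) (nat_lit 4) (nat_lit 346) (nat_lit 244) (nat_lit 190)) (XT.lf (nat_lit 0) (nat_lit 419130358217) (nat_lit 76) (nat_lit 256497805200) (nat_lit 76) (nat_lit 250002196751) (nat_lit 1) (nat_lit 4) (nat_lit 2) (nat_lit 5) (nat_lit 2) (nat_lit 4) (nat_lit 347) (nat_lit 244) (nat_lit 189)))) (XT.nd (nat_lit 78) (nat_lit 0) (nat_lit 0) (XT.lf (nat_lit 0) (nat_lit 460210893900) (nat_lit 76) (nat_lit 272886946097) (nat_lit 76) (nat_lit 266384252847) (nat_lit 1) (nat_lit 4) (nat_lit 2) (nat_lit 5) (nat_lit 2) (nat_lit 4) (nat_lit 348) (nat_lit 244) (nat_lit 188)) (XT.nd (nat_lit 36036) (nat_lit 0) (nat_lit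 1292) (XT.lf (nat_lit 0) (nat_lit 504562667603) (nat_lit 76) (nat_lit 290594474965) (nat_lit 76) (nat_lit 284085221713) (nat_lit 1) (nat_lit 4) (nat_lit 2) (nat_lit 5) (nat_lit 2) (nat_lit 4) (nat_lit 349) (nat_lit 244) (nat_lit 187)) (XT.lf (nat_lit 0) (nat_lit 2125505216) (nat_lit 152) (nat_lit 3506602318) (nat_lit 0) (nat_lit 2125505216) (nat_lit 18) (nat_lit 5) (nat_lit 20) (nat_lit 4) (nat_lit 18) (nat_lit 4) (nat_lit 290) (nat_lit 245) (nat_lit 245))))))))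
noncomputable def xc21 : XT := (XT.nd (nat_lit 1638) (nat_lit 228) (nat_lit 0) (XT.nd (nat_lit 780) (nat_lit 304) (nat_lit 0) (XT.nd (nat_lit 390) (nat_lit 228) (nat_lit 0) (XT.nd (nat_lit 156) (nat_lit 228) (nat_lit 0) (XT.nd (nat_lit 78) (nat_lit 152) (nat_lit 0) (XT.lf (nat_lit 0) (nat_lit 6012696967) (nat_lit 152) (nat_lit 5514133245) (nat_lit 152) (nat_lit 4841149644) (nat_lit 16) (nat_lit 4) (nat_lit 18) (nat_lit 5) (nat_lit 18) (nat_lit 4) (nat_lit 291) (nat_lit 245) (nat_lit 244)) (XT.lf (nat_lit 0) (nat_lit 1813669674) (nat_lit 152) (nat_lit 14905374363) (nat_lit 0) (nat_lit 579272944) (nat_lit 14) (nat_lit 5) (nat_lit 16) (nat_lit 4) (nat_lit 14) (nat_lit 4) (nat_lit 292) (nat_lit 245) (nat_lit 243))) (XT.nd (nat_lit 78) (nat_lit 228) (nat_lit 0) (XT.lf (nat_lit 0) (nat_lit 8737606793) (nat_lit 152) (nat_lit 2612708316) (nat_lit 0) (nat_lit 6953710095) (nat_lit 14) (nat_lit 5)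 (nat_lit 16) (nat_lit 4) (nat_lit 14) (nat_lit 4) (nat_lit 293) (nat_lit 245) (nat_lit 242)) (XT.nd (nat_lit 78) (nat_lit 152) (nat_lit 0) (XT.lf (nat_lit 0) (nat_lit 10373259486) (nat_lit 76) (nat_lit 5659485830) (nat_lit 76) (nat_lit 3366792864) (nat_lit 13) (nat_lit 4) (nat_lit 14) (nat_lit 5) (nat_lit 14) (nat_lit 4) (nat_lit 294) (nat_lit 245) (nat_lit 241)) (XT.lf (nat_lit 0) (nat_lit 2992781315) (nat_lit 152) (nat_lit 17238383300) (nat_lit 0) (nat_lit 360590248) (nat_lit 11) (nat_lit 5) (nat_lit 13) (nat_lit 4) (nat_lit 11) (nat_lit 4) (nat_lit 295) (nat_lit 245) (nat_lit 240))))) (XT.nd (nat_lit 156) (nat_lit 152) (nat_lit 0) (XT.nd (nat_lit 78) (nat_lit 76) (nat_lit 0) (XT.lf (nat_lit 0) (nat_lit 9677578654) (nat_lit 152) (nat_lit 5572514601) (nat_lit 0) (nat_lit 6629948738) (nat_lit 11) (nat_lit 5) (nat_lit 13) (nat_lit 4) (nat_lit 11) (nat_lit 4) (nat_lit 296) (nat_lit 245)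 (nat_lit 239)) (XT.lf (nat_lit 0) (nat_lit 6692712236) (nat_lit 76) (nat_lit 10010418705) (nat_lit 76) (nat_lit 6578123188) (nat_lit 10) (nat_lit 4) (nat_lit 11) (nat_lit 5) (nat_lit 11) (nat_lit 4) (nat_lit 297) (nat_lit 245) (nat_lit 238))) (XT.nd (nat_lit 78) (nat_lit 152) (nat_lit 0) (XT.lf (nat_lit 0) (nat_lit 19613850600) (nat_lit 76) (nat_lit 4489352461) (nat_lit 76) (nat_lit 700885092) (nat_lit 10) (nat_lit 4) (nat_lit 11) (nat_lit 5) (nat_lit 11) (nat_lit 4) (nat_lit 298) (nat_lit 245) (nat_lit 237)) (XT.nd (nat_lit 78) (nat_lit 0) (nat_lit 0) (XT.lf (nat_lit 0) (nat_lit 5325923844) (nat_lit 152) (nat_lit 19721767312) (nat_lit 0) (nat_lit 1403775156) (nat_lit 8) (nat_lit 5) (nat_lit 10) (nat_lit 4) (nat_lit 8) (nat_lit 4) (nat_lit 299) (nat_lit 245) (nat_lit 236)) (XT.lf (nat_lit 0) (nat_lit 11719345307) (nat_lit 152) (nat_lit 9009007553) (nat_lit 0) (nat_lit 7506377613) (nat_lit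 8) (nat_lit 5) (nat_lit 10) (nat_lit 4) (nat_lit 8) (nat_lit 4) (nat_lit 300) (nat_lit 245) (nat_lit 235)))))) (XT.nd (nat_lit 390) (nat_lit 76) (nat_lit 0) (XT.nd (nat_lit 156) (nat_lit 152) (nat_lit 0) (XT.nd (nat_lit 78) (nat_lit 0) (nat_lit 0) (XT.lf (nat_lit 0) (nat_lit 2183944593) (nat_lit 76) (nat_lit 16234674605) (nat_lit 76) (nat_lit 11752430054) (nat_lit 7) (nat_lit 4) (nat_lit 8) (nat_lit 5) (nat_lit 8) (nat_lit 4) (nat_lit 301) (nat_lit 245) (nat_lit 234)) (XT.lf (nat_lit 0) (nat_lit 14166727671) (nat_lit 76) (nat_lit 11415405021) (nat_lit 76) (nat_lit 6683830047) (nat_lit 7) (nat_lit 4) (nat_lit 8) (nat_lit 5) (nat_lit 8) (nat_lit 4) (nat_lit 302) (nat_lit 245) (nat_lit 233))) (XT.nd (nat_lit 78) (nat_lit 152) (nat_lit 0) (XT.lf (nat_lit 0) (nat_lit 26712472292) (nat_lit 76) (nat_lit 6394557378) (nat_lit 76) (nat_lit 1432120900) (nat_lit 7) (nat_lit 4) (nat_lit 8) (nat_lit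 5) (nat_lit 8) (nat_lit 4) (nat_lit 303) (nat_lit 245) (nat_lit 232)) (XT.nd (nat_lit 78) (nat_lit 0) (nat_lit 0) (XT.lf (nat_lit 0) (nat_lit 2921982599) (nat_lit 76) (nat_lit 1028348975) (nat_lit 152) (nat_lit 33048321934) (nat_lit 5) (nat_lit 5) (nat_lit 6) (nat_lit 5) (nat_lit 7) (nat_lit 4) (nat_lit 304) (nat_lit 245) (nat_lit 231)) (XT.lf (nat_lit 0) (nat_lit 9734150472) (nat_lit 152) (nat_lit 25302686331) (nat_lit 0) (nat_lit 4615937466) (nat_lit 5) (nat_lit 5) (nat_lit 7) (nat_lit 4) (nat_lit 5) (nat_lit 4) (nat_lit 305) (nat_lit 245) (nat_lit 230))))) (XT.nd (nat_lit 234) (nat_lit 0) (nat_lit 0) (XT.nd (nat_lit 78) (nat_lit 76) (nat_lit 0) (XT.lf (nat_lit 0) (nat_lit 15819565298) (nat_lit 152) (nat_lit 16180973836) (nat_lit 0) (nat_lit 10526813906) (nat_lit 5) (nat_lit 5) (nat_lit 7) (nat_lit 4) (nat_lit 5) (nat_lit 4) (nat_lit 306) (nat_lit 245) (nat_lit 229)) (XT.nd (nat_lit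 78) (nat_lit 76) (nat_lit 0) (XT.lf (nat_lit 0) (nat_lit 22226582359) (nat_lit 152) (nat_lit 6641423420) (nat_lit 0) (nat_lit 16772221351) (nat_lit 5) (nat_lit 5) (nat_lit 7) (nat_lit 4) (nat_lit 5) (nat_lit 4) (nat_lit 307) (nat_lit 245) (nat_lit 228)) (XT.lf (nat_lit 0) (nat_lit 3484005518) (nat_lit 76) (nat_lit 25563558735) (nat_lit 76) (nat_lit 19959559194) (nat_lit 4) (nat_lit 4) (nat_lit 5) (nat_lit 5) (nat_lit 5) (nat_lit 4) (nat_lit 308) (nat_lit 245) (nat_lit 227)))) (XT.nd (nat_lit 78) (nat_lit 0) (nat_lit 0) (XT.lf (nat_lit 0) (nat_lit 14380387114) (nat_lit 76) (nat_lit 22003555033) (nat_lit 76) (nat_lit 16261001295) (nat_lit 4) (nat_lit 4) (nat_lit 5) (nat_lit 5) (nat_lit 5) (nat_lit 4) (nat_lit 309) (nat_lit 245) (nat_lit 226)) (XT.nd (nat_lit 78) (nat_lit 0) (nat_lit 0) (XT.lf (nat_lit 0) (nat_lit 25892697065) (nat_lit 76) (nat_lit 18279374075) (nat_lit 76) (nat_lit 12408529413)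 (nat_lit 4) (nat_lit 4) (nat_lit 5) (nat_lit 5) (nat_lit 5) (nat_lit 4) (nat_lit 310) (nat_lit 245) (nat_lit 225)) (XT.lf (nat_lit 0) (nat_lit 38089156468) (nat_lit 76) (nat_lit 14368946640) (nat_lit 76) (nat_lit 8379314086) (nat_lit 4) (nat_lit 4) (nat_lit 5) (nat_lit 5) (nat_lit 5) (nat_lit 4) (nat_lit 311) (nat_lit 245) (nat_lit 224))))))) (XT.nd (nat_lit 780) (nat_lit 76) (nat_lit 0) (XT.nd (nat_lit 390) (nat_lit 0) (nat_lit 0) (XT.nd (nat_lit 156) (nat_lit 76) (nat_lit 0) (XT.nd (nat_lit 78) (nat_lit 76) (nat_lit 0) (XT.lf (nat_lit 0) (nat_lit 51042040637) (nat_lit 76) (nat_lit 10249099825) (nat_lit 76) (nat_lit 4149478482) (nat_lit 4) (nat_lit 4) (nat_lit 5) (nat_lit 5) (nat_lit 5) (nat_lit 4) (nat_lit 312) (nat_lit 245) (nat_lit 223)) (XT.lf (nat_lit 0) (nat_lit 296247800) (nat_lit 152) (nat_lit 5594154822) (nat_lit 76) (nat_lit 64526842503) (nat_lit 3) (nat_lit 5) (nat_lit 5) (nat_lit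 5) (nat_lit 4) (nat_lit 4) (nat_lit 313) (nat_lit 245) (nat_lit 222))) (XT.nd (nat_lit 78) (nat_lit 0) (nat_lit 0) (XT.lf (nat_lit 0) (nat_lit 3774063389) (nat_lit 76) (nat_lit 1138045811) (nat_lit 152) (nat_lit 70878535757) (nat_lit 2) (nat_lit 5) (nat_lit 3) (nat_lit 5) (nat_lit 4) (nat_lit 4) (nat_lit 314) (nat_lit 245) (nat_lit 221)) (XT.nd (nat_lit 78) (nat_lit 0) (nat_lit 0) (XT.lf (nat_lit 0) (nat_lit 9960907092) (nat_lit 152) (nat_lit 67748071187) (nat_lit 0) (nat_lit 3881789835) (nat_lit 2) (nat_lit 5) (nat_lit 4) (nat_lit 4) (nat_lit 2) (nat_lit 4) (nat_lit 315) (nat_lit 245) (nat_lit 220)) (XT.lf (nat_lit 0) (nat_lit 15342296672) (nat_lit 152) (nat_lit 63330018065) (nat_lit 0) (nat_lit 9186184136) (nat_lit 2) (nat_lit 5) (nat_lit 4) (nat_lit 4) (nat_lit 2) (nat_lit 4) (nat_lit 316) (nat_lit 245) (nat_lit 219))))) (XT.nd (nat_lit 156) (nat_lit 0) (nat_lit 0) (XT.nd (nat_lit 78)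 (nat_lit 0) (nat_lit 0) (XT.lf (nat_lit 0) (nat_lit 21070399575) (nat_lit 152) (nat_lit 58718473063) (nat_lit 0) (nat_lit 14842995113) (nat_lit 2) (nat_lit 5) (nat_lit 4) (nat_lit 4) (nat_lit 2) (nat_lit 4) (nat_lit 317) (nat_lit 245) (nat_lit 218)) (XT.lf (nat_lit 0) (nat_lit 27179160112) (nat_lit 152) (nat_lit 53886108506) (nat_lit 0) (nat_lit 20885744608) (nat_lit 2) (nat_lit 5) (nat_lit 4) (nat_lit 4) (nat_lit 2) (nat_lit 4) (nat_lit 318) (nat_lit 245) (nat_lit 217))) (XT.nd (nat_lit 78) (nat_lit 0) (nat_lit 0) (XT.lf (nat_lit 0) (nat_lit 33704778347) (nat_lit 152) (nat_lit 48804288161) (nat_lit 0) (nat_lit 27350241508) (nat_lit 2) (nat_lit 5) (nat_lit 4) (nat_lit 4) (nat_lit 2) (nat_lit 4) (nat_lit 319) (nat_lit 245) (nat_lit 216)) (XT.nd (nat_lit 78) (nat_lit 0) (nat_lit 0) (XT.lf (nat_lit 0) (nat_lit 40685924609) (nat_lit 152) (nat_lit 43442897537) (nat_lit 0) (nat_lit 34274793941)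 (nat_lit 2) (nat_lit 5) (nat_lit 4) (nat_lit 4) (nat_lit 2) (nat_lit 4) (nat_lit 320) (nat_lit 245) (nat_lit 215)) (XT.lf (nat_lit 0) (nat_lit 48163968655) (nat_lit 152) (nat_lit 37770165428) (nat_lit 0) (nat_lit 41700436294) (nat_lit 2) (nat_lit 5) (nat_lit 4) (nat_lit 4) (nat_lit 2) (nat_lit 4) (nat_lit 321) (nat_lit 245) (nat_lit 214)))))) (XT.nd (nat_lit 390) (nat_lit 76) (nat_lit 0) (XT.nd (nat_lit 156) (nat_lit 0) (nat_lit 0) (XT.nd (nat_lit 78) (nat_lit 0) (nat_lit 0) (XT.lf (nat_lit 0) (nat_lit 56183224819) (nat_lit 152) (nat_lit 31752475647) (nat_lit 0) (nat_lit 49671172371) (nat_lit 2) (nat_lit 5) (nat_lit 4) (nat_lit 4) (nat_lit 2) (nat_lit 4) (nat_lit 322) (nat_lit 245) (nat_lit 213)) (XT.lf (nat_lit 0) (nat_lit 64791214620) (nat_lit 152) (nat_lit 25354167807) (nat_lit 0) (nat_lit 58234236166) (nat_lit 2) (nat_lit 5) (nat_lit 4) (nat_lit 4) (nat_lit 2) (nat_lit 4) (nat_lit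 323) (nat_lit 245) (nat_lit 212))) (XT.nd (nat_lit 78) (nat_lit 0) (nat_lit 0) (XT.lf (nat_lit 0) (nat_lit 74038948367) (nat_lit 152) (nat_lit 18537326012) (nat_lit 0) (nat_lit 67440371759) (nat_lit 2) (nat_lit 5) (nat_lit 4) (nat_lit 4) (nat_lit 2) (nat_lit 4) (nat_lit 324) (nat_lit 245) (nat_lit 211)) (XT.nd (nat_lit 78) (nat_lit 0) (nat_lit 0) (XT.lf (nat_lit 0) (nat_lit 83981227445) (nat_lit 152) (nat_lit 11261554162) (nat_lit 0) (nat_lit 77344134029) (nat_lit 2) (nat_lit 5) (nat_lit 4) (nat_lit 4) (nat_lit 2) (nat_lit 4) (nat_lit 325) (nat_lit 245) (nat_lit 210)) (XT.lf (nat_lit 0) (nat_lit 94676969065) (nat_lit 152) (nat_lit 3483736571) (nat_lit 0) (nat_lit 88004211936) (nat_lit 2) (nat_lit 5) (nat_lit 4) (nat_lit 4) (nat_lit 2) (nat_lit 4) (nat_lit 326) (nat_lit 245) (nat_lit 209))))) (XT.nd (nat_lit 234) (nat_lit 0) (nat_lit 0) (XT.nd (nat_lit 78) (nat_lit 0) (nat_lit 0) (XT.lf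 (nat_lit 0) (nat_lit 5002323109) (nat_lit 76) (nat_lit 101265332571) (nat_lit 76) (nat_lit 94559553486) (nat_lit 1) (nat_lit 4) (nat_lit 2) (nat_lit 5) (nat_lit 2) (nat_lit 4) (nat_lit 327) (nat_lit 245) (nat_lit 208)) (XT.nd (nat_lit 78) (nat_lit 0) (nat_lit 0) (XT.lf (nat_lit 0) (nat_lit 14220801592) (nat_lit 76) (nat_lit 104588434152) (nat_lit 76) (nat_lit 97852079183) (nat_lit 1) (nat_lit 4) (nat_lit 2) (nat_lit 5) (nat_lit 2) (nat_lit 4) (nat_lit 328) (nat_lit 245) (nat_lit 207)) (XT.lf (nat_lit 0) (nat_lit 24111138832) (nat_lit 76) (nat_lit 108208701600) (nat_lit 76) (nat_lit 101444035626) (nat_lit 1) (nat_lit 4) (nat_lit 2) (nat_lit 5) (nat_lit 2) (nat_lit 4) (nat_lit 329) (nat_lit 245) (nat_lit 206)))) (XT.nd (nat_lit 78) (nat_lit 0) (nat_lit 0) (XT.lf (nat_lit 0) (nat_lit 34731944235) (nat_lit 76) (nat_lit 112147588350) (nat_lit 76) (nat_lit 105356708483) (nat_lit 1) (nat_lit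 4) (nat_lit 2) (nat_lit 5) (nat_lit 2) (nat_lit 4) (nat_lit 330) (nat_lit 245) (nat_lit 205)) (XT.nd (nat_lit 78) (nat_lit 0) (nat_lit 0) (XT.lf (nat_lit 0) (nat_lit 46146155907) (nat_lit 76) (nat_lit 116428435954) (nat_lit 76) (nat_lit 109613283964) (nat_lit 1) (nat_lit 4) (nat_lit 2) (nat_lit 5) (nat_lit 2) (nat_lit 4) (nat_lit 331) (nat_lit 245) (nat_lit 204)) (XT.lf (nat_lit 0) (nat_lit 58421413622) (nat_lit 76) (nat_lit 121076612397) (nat_lit 76) (nat_lit 114238986219) (nat_lit 1) (nat_lit 4) (nat_lit 2) (nat_lit 5) (nat_lit 2) (nat_lit 4) (nat_lit 332) (nat_lit 245) (nat_lit 203))))))))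
noncomputable def xc22 : XT := (XT.nd (nat_lit 37440) (nat_lit 0) (nat_lit 228) (XT.nd (nat_lit 780) (nat_lit 0) (nat_lit 0) (XT.nd (nat_lit 390) (nat_lit 0) (nat_lit 0) (XT.nd (nat_lit 156) (nat_lit 0) (nat_lit 0) (XT.nd (nat_lit 78) (nat_lit 0) (nat_lit 0) (XT.lf (nat_lit 0) (nat_lit 71630459647) (nat_lit 76) (nat_lit 126119662429) (nat_lit 76) (nat_lit 119261226817) (nat_lit 1) (nat_lit 4) (nat_lit 2) (nat_lit 5) (nat_lit 2) (nat_lit 4) (nat_lit 333) (nat_lit 245) (nat_lit 202)) (XT.lf (nat_lit 0) (nat_lit 85851569811) (nat_lit 76) (nat_lit 131587470791) (nat_lit 76) (nat_lit 124709767185) (nat_lit 1) (nat_lit 4) (nat_lit 2) (nat_lit 5) (nat_lit 2) (nat_lit 4) (nat_lit 334) (nat_lit 245) (nat_lit 201))) (XT.nd (nat_lit 78) (nat_lit 0) (nat_lit 0) (XT.lf (nat_lit 0) (nat_lit 101169017358) (nat_lit 76) (nat_lit 137512439310) (nat_lit 76) (nat_lit 130616894969) (nat_lit 1) (nat_lit 4)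 (nat_lit 2) (nat_lit 5) (nat_lit 2) (nat_lit 4) (nat_lit 335) (nat_lit 245) (nat_lit 200)) (XT.nd (nat_lit 78) (nat_lit 0) (nat_lit 0) (XT.lf (nat_lit 0) (nat_lit 117673572349) (nat_lit 76) (nat_lit 143929678910) (nat_lit 76) (nat_lit 137017615370) (nat_lit 1) (nat_lit 4) (nat_lit 2) (nat_lit 5) (nat_lit 2) (nat_lit 4) (nat_lit 336) (nat_lit 245) (nat_lit 199)) (XT.lf (nat_lit 0) (nat_lit 135463039554) (nat_lit 76) (nat_lit 150877217679) (nat_lit 76) (nat_lit 143949858584) (nat_lit 1) (nat_lit 4) (nat_lit 2) (nat_lit 5) (nat_lit 2) (nat_lit 4) (nat_lit 337) (nat_lit 245) (nat_lit 198))))) (XT.nd (nat_lit 156) (nat_lit 0) (nat_lit 0) (XT.nd (nat_lit 78) (nat_lit 0) (nat_lit 0) (XT.lf (nat_lit 0) (nat_lit 154642838038) (nat_lit 76) (nat_lit 158396226215) (nat_lit 76) (nat_lit 151454704570) (nat_lit 1) (nat_lit 4) (nat_lit 2) (nat_lit 5) (nat_lit 2) (nat_lit 4) (nat_lit 338) (nat_lit 245)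 (nat_lit 197)) (XT.lf (nat_lit 0) (nat_lit 175326625865) (nat_lit 76) (nat_lit 166531261608) (nat_lit 76) (nat_lit 159576626490) (nat_lit 1) (nat_lit 4) (nat_lit 2) (nat_lit 5) (nat_lit 2) (nat_lit 4) (nat_lit 339) (nat_lit 245) (nat_lit 196))) (XT.nd (nat_lit 78) (nat_lit 0) (nat_lit 0) (XT.lf (nat_lit 0) (nat_lit 197636973630) (nat_lit 76) (nat_lit 175330531474) (nat_lit 76) (nat_lit 168363754251) (nat_lit 1) (nat_lit 4) (nat_lit 2) (nat_lit 5) (nat_lit 2) (nat_lit 4) (nat_lit 340) (nat_lit 245) (nat_lit 195)) (XT.nd (nat_lit 78) (nat_lit 0) (nat_lit 0) (XT.lf (nat_lit 0) (nat_lit 221706090802) (nat_lit 76) (nat_lit 184846179634) (nat_lit 76) (nat_lit 177868159722) (nat_lit 1) (nat_lit 4) (nat_lit 2) (nat_lit 5) (nat_lit 2) (nat_lit 4) (nat_lit 341) (nat_lit 245) (nat_lit 194)) (XT.lf (nat_lit 0) (nat_lit 247676609187) (nat_lit 76) (nat_lit 195134595115) (nat_lit 76) (nat_lit 188146165305)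 (nat_lit 1) (nat_lit 4) (nat_lit 2) (nat_lit 5) (nat_lit 2) (nat_lit 4) (nat_lit 342) (nat_lit 245) (nat_lit 193)))))) (XT.nd (nat_lit 390) (nat_lit 0) (nat_lit 0) (XT.nd (nat_lit 156) (nat_lit 0) (nat_lit 0) (XT.nd (nat_lit 78) (nat_lit 0) (nat_lit 0) (XT.lf (nat_lit 0) (nat_lit 275702428151) (nat_lit 76) (nat_lit 206256746304) (nat_lit 76) (nat_lit 199258677701) (nat_lit 1) (nat_lit 4) (nat_lit 2) (nat_lit 5) (nat_lit 2) (nat_lit 4) (nat_lit 343) (nat_lit 245) (nat_lit 192)) (XT.lf (nat_lit 0) (nat_lit 305949626623) (nat_lit 76) (nat_lit 218278542247) (nat_lit 76) (nat_lit 211271548834) (nat_lit 1) (nat_lit 4) (nat_lit 2) (nat_lit 5) (nat_lit 2) (nat_lit 4) (nat_lit 344) (nat_lit 245) (nat_lit 191))) (XT.nd (nat_lit 78) (nat_lit 0) (nat_lit 0) (XT.lf (nat_lit 0) (nat_lit 338597447259) (nat_lit 76) (nat_lit 231271223214) (nat_lit 76) (nat_lit 224255966088) (nat_lit 1) (nat_lit 4) (nat_lit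 2) (nat_lit 5) (nat_lit 2) (nat_lit 4) (nat_lit 345) (nat_lit 245) (nat_lit 190)) (XT.nd (nat_lit 78) (nat_lit 0) (nat_lit 0) (XT.lf (nat_lit 0) (nat_lit 373839358628) (nat_lit 76) (nat_lit 245311782871) (nat_lit 76) (nat_lit 238288874160) (nat_lit 1) (nat_lit 4) (nat_lit 2) (nat_lit 5) (nat_lit 2) (nat_lit 4) (nat_lit 346) (nat_lit 245) (nat_lit 189)) (XT.lf (nat_lit 0) (nat_lit 411884201685) (nat_lit 76) (nat_lit 260483424534) (nat_lit 76) (nat_lit 253453431022) (nat_lit 1) (nat_lit 4) (nat_lit 2) (nat_lit 5) (nat_lit 2) (nat_lit 4) (nat_lit 347) (nat_lit 245) (nat_lit 188))))) (XT.nd (nat_lit 36036) (nat_lit 0) (nat_lit 1140) (XT.nd (nat_lit 35958) (nat_lit 0) (nat_lit 1596) (XT.lf (nat_lit 0) (nat_lit 452957427351) (nat_lit 76) (nat_lit 276876054229) (nat_lit 76) (nat_lit 269839500715) (nat_lit 1) (nat_lit 4) (nat_lit 2) (nat_lit 5) (nat_lit 2) (nat_lit 4) (nat_lit 348) (nat_lit 245)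 (nat_lit 187)) (XT.lf (nat_lit 0) (nat_lit 2731527999) (nat_lit 152) (nat_lit 1537916289) (nat_lit 0) (nat_lit 2731527999) (nat_lit 22) (nat_lit 5) (nat_lit 24) (nat_lit 4) (nat_lit 22) (nat_lit 4) (nat_lit 288) (nat_lit 246) (nat_lit 246))) (XT.nd (nat_lit 78) (nat_lit 304) (nat_lit 0) (XT.lf (nat_lit 0) (nat_lit 10000881508) (nat_lit 152) (nat_lit 2747356860) (nat_lit 152) (nat_lit 1984193456) (nat_lit 20) (nat_lit 4) (nat_lit 22) (nat_lit 5) (nat_lit 22) (nat_lit 4) (nat_lit 289) (nat_lit 246) (nat_lit 245)) (XT.nd (nat_lit 78) (nat_lit 152) (nat_lit 0) (XT.lf (nat_lit 0) (nat_lit 4786220414) (nat_lit 152) (nat_lit 7352306260) (nat_lit 0) (nat_lit 3386414523) (nat_lit 18) (nat_lit 5) (nat_lit 20) (nat_lit 4) (nat_lit 18) (nat_lit 4) (nat_lit 290) (nat_lit 246) (nat_lit 244)) (XT.lf (nat_lit 0) (nat_lit 5338018433) (nat_lit 152) (nat_lit 6536069334) (nat_lit 152) (nat_lit 4513130478)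 (nat_lit 16) (nat_lit 4) (nat_lit 18) (nat_lit 5) (nat_lit 18) (nat_lit 4) (nat_lit 291) (nat_lit 246) (nat_lit 243))))))) (XT.nd (nat_lit 780) (nat_lit 304) (nat_lit 0) (XT.nd (nat_lit 390) (nat_lit 228) (nat_lit 0) (XT.nd (nat_lit 156) (nat_lit 228) (nat_lit 0) (XT.nd (nat_lit 78) (nat_lit 0) (nat_lit 0) (XT.lf (nat_lit 0) (nat_lit 1364349236) (nat_lit 76) (nat_lit 569437621) (nat_lit 152) (nat_lit 15393492908) (nat_lit 14) (nat_lit 5) (nat_lit 15) (nat_lit 5) (nat_lit 16) (nat_lit 4) (nat_lit 292) (nat_lit 246) (nat_lit 242)) (XT.lf (nat_lit 0) (nat_lit 8683127106) (nat_lit 152) (nat_lit 3960470414) (nat_lit 0) (nat_lit 5698222436) (nat_lit 14) (nat_lit 5) (nat_lit 16) (nat_lit 4) (nat_lit 14) (nat_lit 4) (nat_lit 293) (nat_lit 246) (nat_lit 241))) (XT.nd (nat_lit 78) (nat_lit 152) (nat_lit 0) (XT.lf (nat_lit 0) (nat_lit 8694836205) (nat_lit 76) (nat_lit 7103792723) (nat_lit 76) (nat_lit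 3647780398) (nat_lit 13) (nat_lit 4) (nat_lit 14) (nat_lit 5) (nat_lit 14) (nat_lit 4) (nat_lit 294) (nat_lit 246) (nat_lit 240)) (XT.nd (nat_lit 78) (nat_lit 0) (nat_lit 0) (XT.lf (nat_lit 0) (nat_lit 1302840474) (nat_lit 76) (nat_lit 1231336886) (nat_lit 152) (nat_lit 18114081872) (nat_lit 11) (nat_lit 5) (nat_lit 12) (nat_lit 5) (nat_lit 13) (nat_lit 4) (nat_lit 295) (nat_lit 246) (nat_lit 239)) (XT.lf (nat_lit 0) (nat_lit 9056230450) (nat_lit 152) (nat_lit 7923844644) (nat_lit 0) (nat_lit 4964685690) (nat_lit 11) (nat_lit 5) (nat_lit 13) (nat_lit 4) (nat_lit 11) (nat_lit 4) (nat_lit 296) (nat_lit 246) (nat_lit 238))))) (XT.nd (nat_lit 156) (nat_lit 152) (nat_lit 0) (XT.nd (nat_lit 78) (nat_lit 0) (nat_lit 0) (XT.lf (nat_lit 0) (nat_lit 4011569622) (nat_lit 76) (nat_lit 11895464418) (nat_lit 76) (nat_lit 7447747806) (nat_lit 10) (nat_lit 4) (nat_lit 11) (nat_lit 5) (nat_lit 11) (nat_lit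 4) (nat_lit 297) (nat_lit 246) (nat_lit 237)) (XT.lf (nat_lit 0) (nat_lit 16699312632) (nat_lit 76) (nat_lit 6481104621) (nat_lit 76) (nat_lit 1703599256) (nat_lit 10) (nat_lit 4) (nat_lit 11) (nat_lit 5) (nat_lit 11) (nat_lit 4) (nat_lit 298) (nat_lit 246) (nat_lit 236))) (XT.nd (nat_lit 78) (nat_lit 0) (nat_lit 0) (XT.lf (nat_lit 0) (nat_lit 3448781365) (nat_lit 76) (nat_lit 712997505) (nat_lit 152) (nat_lit 22380133125) (nat_lit 8) (nat_lit 5) (nat_lit 9) (nat_lit 5) (nat_lit 10) (nat_lit 4) (nat_lit 299) (nat_lit 246) (nat_lit 235)) (XT.nd (nat_lit 78) (nat_lit 0) (nat_lit 0) (XT.lf (nat_lit 0) (nat_lit 10428819029) (nat_lit 152) (nat_lit 12584012185) (nat_lit 0) (nat_lit 5318718056) (nat_lit 8) (nat_lit 5) (nat_lit 10) (nat_lit 4) (nat_lit 8) (nat_lit 4) (nat_lit 300) (nat_lit 246) (nat_lit 234)) (XT.lf (nat_lit 0) (nat_lit 16987283002) (nat_lit 152) (nat_lit 1659823979) (nat_lit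 0) (nat_lit 11627851607) (nat_lit 8) (nat_lit 5) (nat_lit 10) (nat_lit 4) (nat_lit 8) (nat_lit 4) (nat_lit 301) (nat_lit 246) (nat_lit 233)))))) (XT.nd (nat_lit 390) (nat_lit 76) (nat_lit 0) (XT.nd (nat_lit 156) (nat_lit 152) (nat_lit 0) (XT.nd (nat_lit 78) (nat_lit 0) (nat_lit 0) (XT.lf (nat_lit 0) (nat_lit 10077856137) (nat_lit 76) (nat_lit 13944391314) (nat_lit 76) (nat_lit 8354098416) (nat_lit 7) (nat_lit 4) (nat_lit 8) (nat_lit 5) (nat_lit 8) (nat_lit 4) (nat_lit 302) (nat_lit 246) (nat_lit 232)) (XT.lf (nat_lit 0) (nat_lit 22447469568) (nat_lit 76) (nat_lit 9005436258) (nat_lit 76) (nat_lit 3201382708) (nat_lit 7) (nat_lit 4) (nat_lit 8) (nat_lit 5) (nat_lit 8) (nat_lit 4) (nat_lit 303) (nat_lit 246) (nat_lit 231))) (XT.nd (nat_lit 78) (nat_lit 76) (nat_lit 0) (XT.lf (nat_lit 0) (nat_lit 2103349976) (nat_lit 152) (nat_lit 1690112626) (nat_lit 76) (nat_lit 33328465222) (nat_lit 6)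 (nat_lit 5) (nat_lit 8) (nat_lit 5) (nat_lit 7) (nat_lit 4) (nat_lit 304) (nat_lit 246) (nat_lit 230)) (XT.nd (nat_lit 78) (nat_lit 0) (nat_lit 0) (XT.lf (nat_lit 0) (nat_lit 7730497944) (nat_lit 152) (nat_lit 30213631166) (nat_lit 0) (nat_lit 1839788055) (nat_lit 5) (nat_lit 5) (nat_lit 7) (nat_lit 4) (nat_lit 5) (nat_lit 4) (nat_lit 305) (nat_lit 246) (nat_lit 229)) (XT.lf (nat_lit 0) (nat_lit 13736474812) (nat_lit 152) (nat_lit 21241870151) (nat_lit 0) (nat_lit 7684155308) (nat_lit 5) (nat_lit 5) (nat_lit 7) (nat_lit 4) (nat_lit 5) (nat_lit 4) (nat_lit 306) (nat_lit 246) (nat_lit 228))))) (XT.nd (nat_lit 234) (nat_lit 0) (nat_lit 0) (XT.nd (nat_lit 78) (nat_lit 76) (nat_lit 0) (XT.lf (nat_lit 0) (nat_lit 20069938209) (nat_lit 152) (nat_lit 11841163699) (nat_lit 0) (nat_lit 13867980172) (nat_lit 5) (nat_lit 5) (nat_lit 7) (nat_lit 4) (nat_lit 5) (nat_lit 4) (nat_lit 307) (nat_lit 246)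 (nat_lit 227)) (XT.nd (nat_lit 78) (nat_lit 76) (nat_lit 0) (XT.lf (nat_lit 0) (nat_lit 26768419769) (nat_lit 152) (nat_lit 1955803920) (nat_lit 0) (nat_lit 20427907534) (nat_lit 5) (nat_lit 5) (nat_lit 7) (nat_lit 4) (nat_lit 5) (nat_lit 4) (nat_lit 308) (nat_lit 246) (nat_lit 226)) (XT.lf (nat_lit 0) (nat_lit 8752937766) (nat_lit 76) (nat_lit 25255334320) (nat_lit 76) (nat_lit 18786531161) (nat_lit 4) (nat_lit 4) (nat_lit 5) (nat_lit 5) (nat_lit 5) (nat_lit 4) (nat_lit 309) (nat_lit 246) (nat_lit 225)))) (XT.nd (nat_lit 78) (nat_lit 0) (nat_lit 0) (XT.lf (nat_lit 0) (nat_lit 20151384571) (nat_lit 76) (nat_lit 21584849515) (nat_lit 76) (nat_lit 14997258465) (nat_lit 4) (nat_lit 4) (nat_lit 5) (nat_lit 5) (nat_lit 5) (nat_lit 4) (nat_lit 310) (nat_lit 246) (nat_lit 224)) (XT.nd (nat_lit 78) (nat_lit 0) (nat_lit 0) (XT.lf (nat_lit 0) (nat_lit 32242415134) (nat_lit 76) (nat_lit 17724140741)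 (nat_lit 76) (nat_lit 11026560902) (nat_lit 4) (nat_lit 4) (nat_lit 5) (nat_lit 5) (nat_lit 5) (nat_lit 4) (nat_lit 311) (nat_lit 246) (nat_lit 223)) (XT.lf (nat_lit 0) (nat_lit 45097680007) (nat_lit 76) (nat_lit 13650329723) (nat_lit 76) (nat_lit 6850908413) (nat_lit 4) (nat_lit 4) (nat_lit 5) (nat_lit 5) (nat_lit 5) (nat_lit 4) (nat_lit 312) (nat_lit 246) (nat_lit 222))))))))
noncomputable def xc23 : XT := (XT.nd (nat_lit 1638) (nat_lit 0) (nat_lit 0) (XT.nd (nat_lit 780) (nat_lit 76) (nat_lit 0) (XT.nd (nat_lit 390) (nat_lit 0) (nat_lit 0) (XT.nd (nat_lit 156) (nat_lit 76) (nat_lit 0) (XT.nd (nat_lit 78) (nat_lit 76) (nat_lit 0) (XT.lf (nat_lit 0) (nat_lit 58793358537) (nat_lit 76) (nat_lit 9339275359) (nat_lit 76) (nat_lit 2445556390) (nat_lit 4) (nat_lit 4) (nat_lit 5) (nat_lit 5) (nat_lit 5) (nat_lit 4) (nat_lit 313) (nat_lit 246) (nat_lit 221)) (XT.lf (nat_lit 0) (nat_lit 2144687888)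 (nat_lit 152) (nat_lit 2584421445) (nat_lit 76) (nat_lit 71229601086) (nat_lit 3) (nat_lit 5) (nat_lit 5) (nat_lit 5) (nat_lit 4) (nat_lit 4) (nat_lit 314) (nat_lit 246) (nat_lit 220))) (XT.nd (nat_lit 78) (nat_lit 0) (nat_lit 0) (XT.lf (nat_lit 0) (nat_lit 7051541229) (nat_lit 152) (nat_lit 74388460616) (nat_lit 0) (nat_lit 325944410) (nat_lit 2) (nat_lit 5) (nat_lit 4) (nat_lit 4) (nat_lit 2) (nat_lit 4) (nat_lit 315) (nat_lit 246) (nat_lit 219)) (XT.nd (nat_lit 78) (nat_lit 0) (nat_lit 0) (XT.lf (nat_lit 0) (nat_lit 12392643385) (nat_lit 152) (nat_lit 70047307672) (nat_lit 0) (nat_lit 5595754640) (nat_lit 2) (nat_lit 5) (nat_lit 4) (nat_lit 4) (nat_lit 2) (nat_lit 4) (nat_lit 316) (nat_lit 246) (nat_lit 218)) (XT.lf (nat_lit 0) (nat_lit 18083443115) (nat_lit 152) (nat_lit 65506966538) (nat_lit 0) (nat_lit 11220543329) (nat_lit 2) (nat_lit 5) (nat_lit 4) (nat_lit 4) (nat_lit 2) (nat_lit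 4) (nat_lit 317) (nat_lit 246) (nat_lit 217))))) (XT.nd (nat_lit 156) (nat_lit 0) (nat_lit 0) (XT.nd (nat_lit 78) (nat_lit 0) (nat_lit 0) (XT.lf (nat_lit 0) (nat_lit 24157663679) (nat_lit 152) (nat_lit 60740531489) (nat_lit 0) (nat_lit 17233642557) (nat_lit 2) (nat_lit 5) (nat_lit 4) (nat_lit 4) (nat_lit 2) (nat_lit 4) (nat_lit 318) (nat_lit 246) (nat_lit 216)) (XT.lf (nat_lit 0) (nat_lit 30651300456) (nat_lit 152) (nat_lit 55719756984) (nat_lit 0) (nat_lit 23670685506) (nat_lit 2) (nat_lit 5) (nat_lit 4) (nat_lit 4) (nat_lit 2) (nat_lit 4) (nat_lit 319) (nat_lit 246) (nat_lit 215))) (XT.nd (nat_lit 78) (nat_lit 0) (nat_lit 0) (XT.lf (nat_lit 0) (nat_lit 37602834258) (nat_lit 152) (nat_lit 50414890286) (nat_lit 0) (nat_lit 30569817614) (nat_lit 2) (nat_lit 5) (nat_lit 4) (nat_lit 4) (nat_lit 2) (nat_lit 4) (nat_lit 320) (nat_lit 246) (nat_lit 214)) (XT.nd (nat_lit 78) (nat_lit 0) (nat_lit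 0) (XT.lf (nat_lit 0) (nat_lit 45053459359) (nat_lit 152) (nat_lit 44794495147) (nat_lit 0) (nat_lit 37971922629) (nat_lit 2) (nat_lit 5) (nat_lit 4) (nat_lit 4) (nat_lit 2) (nat_lit 4) (nat_lit 321) (nat_lit 246) (nat_lit 213)) (XT.lf (nat_lit 0) (nat_lit 53047327611) (nat_lit 152) (nat_lit 38825265521) (nat_lit 0) (nat_lit 45920864875) (nat_lit 2) (nat_lit 5) (nat_lit 4) (nat_lit 4) (nat_lit 2) (nat_lit 4) (nat_lit 322) (nat_lit 246) (nat_lit 212)))))) (XT.nd (nat_lit 390) (nat_lit 76) (nat_lit 0) (XT.nd (nat_lit 156) (nat_lit 0) (nat_lit 0) (XT.nd (nat_lit 78) (nat_lit 0) (nat_lit 0) (XT.lf (nat_lit 0) (nat_lit 61631810086) (nat_lit 152) (nat_lit 32471828197) (nat_lit 0) (nat_lit 54463749196) (nat_lit 2) (nat_lit 5) (nat_lit 4) (nat_lit 4) (nat_lit 2) (nat_lit 4) (nat_lit 323) (nat_lit 246) (nat_lit 211)) (XT.lf (nat_lit 0) (nat_lit 70857777791) (nat_lit 152) (nat_lit 25696533175) (nat_lit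 0) (nat_lit 63651200092) (nat_lit 2) (nat_lit 5) (nat_lit 4) (nat_lit 4) (nat_lit 2) (nat_lit 4) (nat_lit 324) (nat_lit 246) (nat_lit 210))) (XT.nd (nat_lit 78) (nat_lit 0) (nat_lit 0) (XT.lf (nat_lit 0) (nat_lit 80779903126) (nat_lit 152) (nat_lit 18459230559) (nat_lit 0) (nat_lit 73537661715) (nat_lit 2) (nat_lit 5) (nat_lit 4) (nat_lit 4) (nat_lit 2) (nat_lit 4) (nat_lit 325) (nat_lit 246) (nat_lit 209)) (XT.nd (nat_lit 78) (nat_lit 0) (nat_lit 0) (XT.lf (nat_lit 0) (nat_lit 91456983873) (nat_lit 152) (nat_lit 10717032630) (nat_lit 0) (nat_lit 84181720506) (nat_lit 2) (nat_lit 5) (nat_lit 4) (nat_lit 4) (nat_lit 2) (nat_lit 4) (nat_lit 326) (nat_lit 246) (nat_lit 208)) (XT.lf (nat_lit 0) (nat_lit 102952291619) (nat_lit 152) (nat_lit 2424059696) (nat_lit 0) (nat_lit 95646452368) (nat_lit 2) (nat_lit 5) (nat_lit 4) (nat_lit 4) (nat_lit 2) (nat_lit 4) (nat_lit 327) (nat_lit 246) (nat_lit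 207))))) (XT.nd (nat_lit 234) (nat_lit 0) (nat_lit 0) (XT.nd (nat_lit 78) (nat_lit 0) (nat_lit 0) (XT.lf (nat_lit 0) (nat_lit 6682720578) (nat_lit 76) (nat_lit 108755562127) (nat_lit 76) (nat_lit 101421411871) (nat_lit 1) (nat_lit 4) (nat_lit 2) (nat_lit 5) (nat_lit 2) (nat_lit 4) (nat_lit 328) (nat_lit 246) (nat_lit 206)) (XT.nd (nat_lit 78) (nat_lit 0) (nat_lit 0) (XT.lf (nat_lit 0) (nat_lit 16543846848) (nat_lit 76) (nat_lit 112389770876) (nat_lit 76) (nat_lit 105029406727) (nat_lit 1) (nat_lit 4) (nat_lit 2) (nat_lit 5) (nat_lit 2) (nat_lit 4) (nat_lit 329) (nat_lit 246) (nat_lit 205)) (XT.lf (nat_lit 0) (nat_lit 27137605058) (nat_lit 76) (nat_lit 116341566238) (nat_lit 76) (nat_lit 108956929966) (nat_lit 1) (nat_lit 4) (nat_lit 2) (nat_lit 5) (nat_lit 2) (nat_lit 4) (nat_lit 330) (nat_lit 246) (nat_lit 204)))) (XT.nd (nat_lit 78) (nat_lit 0) (nat_lit 0) (XT.lf (nat_lit 0) (nat_lit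 38526773033) (nat_lit 76) (nat_lit 120634366261) (nat_lit 76) (nat_lit 113227255801) (nat_lit 1) (nat_lit 4) (nat_lit 2) (nat_lit 5) (nat_lit 2) (nat_lit 4) (nat_lit 331) (nat_lit 246) (nat_lit 203)) (XT.nd (nat_lit 78) (nat_lit 0) (nat_lit 0) (XT.lf (nat_lit 0) (nat_lit 50778842138) (nat_lit 76) (nat_lit 125293609759) (nat_lit 76) (nat_lit 117865689865) (nat_lit 1) (nat_lit 4) (nat_lit 2) (nat_lit 5) (nat_lit 2) (nat_lit 4) (nat_lit 332) (nat_lit 246) (nat_lit 202)) (XT.lf (nat_lit 0) (nat_lit 63966417229) (nat_lit 76) (nat_lit 130346907063) (nat_lit 76) (nat_lit 122899719176) (nat_lit 1) (nat_lit 4) (nat_lit 2) (nat_lit 5) (nat_lit 2) (nat_lit 4) (nat_lit 333) (nat_lit 246) (nat_lit 201))))))) (XT.nd (nat_lit 780) (nat_lit 0) (nat_lit 0) (XT.nd (nat_lit 390) (nat_lit 0) (nat_lit 0) (XT.nd (nat_lit 156) (nat_lit 0) (nat_lit 0) (XT.nd (nat_lit 78) (nat_lit 0) (nat_lit 0) (XT.lf (nat_lit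 0) (nat_lit 78167646898) (nat_lit 76) (nat_lit 135824203641) (nat_lit 76) (nat_lit 128359175018) (nat_lit 1) (nat_lit 4) (nat_lit 2) (nat_lit 5) (nat_lit 2) (nat_lit 4) (nat_lit 334) (nat_lit 246) (nat_lit 200)) (XT.lf (nat_lit 0) (nat_lit 93466686580) (nat_lit 76) (nat_lit 141757957544) (nat_lit 76) (nat_lit 134276409722) (nat_lit 1) (nat_lit 4) (nat_lit 2) (nat_lit 5) (nat_lit 2) (nat_lit 4) (nat_lit 335) (nat_lit 246) (nat_lit 199))) (XT.nd (nat_lit 78) (nat_lit 0) (nat_lit 0) (XT.lf (nat_lit 0) (nat_lit 109954197251) (nat_lit 76) (nat_lit 148183331760) (nat_lit 76) (nat_lit 140686488383) (nat_lit 1) (nat_lit 4) (nat_lit 2) (nat_lit 5) (nat_lit 2) (nat_lit 4) (nat_lit 336) (nat_lit 246) (nat_lit 198)) (XT.nd (nat_lit 78) (nat_lit 0) (nat_lit 0) (XT.lf (nat_lit 0) (nat_lit 127727882678) (nat_lit 76) (nat_lit 155138402580) (nat_lit 76) (nat_lit 147627396652) (nat_lit 1) (nat_lit 4) (nat_lit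 2) (nat_lit 5) (nat_lit 2) (nat_lit 4) (nat_lit 337) (nat_lit 246) (nat_lit 197)) (XT.lf (nat_lit 0) (nat_lit 146893068404) (nat_lit 76) (nat_lit 162664385238) (nat_lit 76) (nat_lit 155140265838) (nat_lit 1) (nat_lit 4) (nat_lit 2) (nat_lit 5) (nat_lit 2) (nat_lit 4) (nat_lit 338) (nat_lit 246) (nat_lit 196))))) (XT.nd (nat_lit 156) (nat_lit 0) (nat_lit 0) (XT.nd (nat_lit 78) (nat_lit 0) (nat_lit 0) (XT.lf (nat_lit 0) (nat_lit 167563325901) (nat_lit 76) (nat_lit 170805878151) (nat_lit 76) (nat_lit 163269616646) (nat_lit 1) (nat_lit 4) (nat_lit 2) (nat_lit 5) (nat_lit 2) (nat_lit 4) (nat_lit 339) (nat_lit 246) (nat_lit 195)) (XT.lf (nat_lit 0) (nat_lit 189861145582) (nat_lit 76) (nat_lit 179611127202) (nat_lit 76) (nat_lit 172063623008) (nat_lit 1) (nat_lit 4) (nat_lit 2) (nat_lit 5) (nat_lit 2) (nat_lit 4) (nat_lit 340) (nat_lit 246) (nat_lit 194))) (XT.nd (nat_lit 78) (nat_lit 0) (nat_lit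 0) (XT.lf (nat_lit 0) (nat_lit 213918662677) (nat_lit 76) (nat_lit 189132311645) (nat_lit 76) (nat_lit 181574397553) (nat_lit 1) (nat_lit 4) (nat_lit 2) (nat_lit 5) (nat_lit 2) (nat_lit 4) (nat_lit 341) (nat_lit 246) (nat_lit 193)) (XT.nd (nat_lit 78) (nat_lit 0) (nat_lit 0) (XT.lf (nat_lit 0) (nat_lit 239878440248) (nat_lit 76) (nat_lit 199425853313) (nat_lit 76) (nat_lit 191858300427) (nat_lit 1) (nat_lit 4) (nat_lit 2) (nat_lit 5) (nat_lit 2) (nat_lit 4) (nat_lit 342) (nat_lit 246) (nat_lit 192)) (XT.lf (nat_lit 0) (nat_lit 267894314015) (nat_lit 76) (nat_lit 210552750973) (nat_lit 76) (nat_lit 202976273277) (nat_lit 1) (nat_lit 4) (nat_lit 2) (nat_lit 5) (nat_lit 2) (nat_lit 4) (nat_lit 343) (nat_lit 246) (nat_lit 191)))))) (XT.nd (nat_lit 36114) (nat_lit 0) (nat_lit 1140) (XT.nd (nat_lit 156) (nat_lit 0) (nat_lit 0) (XT.nd (nat_lit 78) (nat_lit 0) (nat_lit 0) (XT.lf (nat_lit 0) (nat_lit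 298132303971) (nat_lit 76) (nat_lit 222578941794) (nat_lit 76) (nat_lit 214994200387) (nat_lit 1) (nat_lit 4) (nat_lit 2) (nat_lit 5) (nat_lit 2) (nat_lit 4) (nat_lit 344) (nat_lit 246) (nat_lit 190)) (XT.lf (nat_lit 0) (nat_lit 330771598205) (nat_lit 76) (nat_lit 235575692094) (nat_lit 76) (nat_lit 227983299101) (nat_lit 1) (nat_lit 4) (nat_lit 2) (nat_lit 5) (nat_lit 2) (nat_lit 4) (nat_lit 345) (nat_lit 246) (nat_lit 189))) (XT.nd (nat_lit 78) (nat_lit 0) (nat_lit 0) (XT.lf (nat_lit 0) (nat_lit 366005614755) (nat_lit 76) (nat_lit 249620019652) (nat_lit 76) (nat_lit 242020541858) (nat_lit 1) (nat_lit 4) (nat_lit 2) (nat_lit 5) (nat_lit 2) (nat_lit 4) (nat_lit 346) (nat_lit 246) (nat_lit 188)) (XT.nd (nat_lit 78) (nat_lit 0) (nat_lit 0) (XT.lf (nat_lit 0) (nat_lit 404043147795) (nat_lit 76) (nat_lit 264795150113) (nat_lit 76) (nat_lit 257189112317) (nat_lit 1) (nat_lit 4) (nat_lit 2)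 (nat_lit 5) (nat_lit 2) (nat_lit 4) (nat_lit 347) (nat_lit 246) (nat_lit 187)) (XT.lf (nat_lit 0) (nat_lit 445109604927) (nat_lit 76) (nat_lit 281191010175) (nat_lit 76) (nat_lit 273578898304) (nat_lit 1) (nat_lit 4) (nat_lit 2) (nat_lit 5) (nat_lit 2) (nat_lit 4) (nat_lit 348) (nat_lit 246) (nat_lit 186))))) (XT.nd (nat_lit 234) (nat_lit 456) (nat_lit 0) (XT.nd (nat_lit 78) (nat_lit 304) (nat_lit 0) (XT.lf (nat_lit 0) (nat_lit 2765344926) (nat_lit 152) (nat_lit 822566550) (nat_lit 0) (nat_lit 2765344926) (nat_lit 26) (nat_lit 5) (nat_lit 28) (nat_lit 4) (nat_lit 26) (nat_lit 4) (nat_lit 286) (nat_lit 247) (nat_lit 247)) (XT.nd (nat_lit 78) (nat_lit 152) (nat_lit 0) (XT.lf (nat_lit 0) (nat_lit 11184208585) (nat_lit 152) (nat_lit 1507368251) (nat_lit 152) (nat_lit 641940951) (nat_lit 24) (nat_lit 4) (nat_lit 26) (nat_lit 5) (nat_lit 26) (nat_lit 4) (nat_lit 287) (nat_lit 247) (nat_lit 246))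 (XT.lf (nat_lit 0) (nat_lit 6096988612) (nat_lit 152) (nat_lit 3405014605) (nat_lit 0) (nat_lit 4509608731) (nat_lit 22) (nat_lit 5) (nat_lit 24) (nat_lit 4) (nat_lit 22) (nat_lit 4) (nat_lit 288) (nat_lit 247) (nat_lit 245)))) (XT.nd (nat_lit 78) (nat_lit 304) (nat_lit 0) (XT.lf (nat_lit 0) (nat_lit 9345939061) (nat_lit 152) (nat_lit 3849817672) (nat_lit 152) (nat_lit 1555805009) (nat_lit 20) (nat_lit 4) (nat_lit 22) (nat_lit 5) (nat_lit 22) (nat_lit 4) (nat_lit 289) (nat_lit 247) (nat_lit 244)) (XT.nd (nat_lit 78) (nat_lit 152) (nat_lit 0) (XT.lf (nat_lit 0) (nat_lit 4995216082) (nat_lit 152) (nat_lit 8371620622) (nat_lit 0) (nat_lit 2187309153) (nat_lit 18) (nat_lit 5) (nat_lit 20) (nat_lit 4) (nat_lit 18) (nat_lit 4) (nat_lit 290) (nat_lit 247) (nat_lit 243)) (XT.lf (nat_lit 0) (nat_lit 3984663269) (nat_lit 152) (nat_lit 7913013828) (nat_lit 152) (nat_lit 4528131932) (nat_lit 16) (nat_lit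 4) (nat_lit 18) (nat_lit 5) (nat_lit 18) (nat_lit 4) (nat_lit 291) (nat_lit 247) (nat_lit 242))))))))
noncomputable def xc24 : XT := (XT.nd (nat_lit 1560) (nat_lit 228) (nat_lit 0) (XT.nd (nat_lit 780) (nat_lit 304) (nat_lit 0) (XT.nd (nat_lit 390) (nat_lit 228) (nat_lit 0) (XT.nd (nat_lit 156) (nat_lit 228) (nat_lit 0) (XT.nd (nat_lit 78) (nat_lit 76) (nat_lit 0) (XT.lf (nat_lit 0) (nat_lit 1738845881) (nat_lit 228) (nat_lit 354483919) (nat_lit 76) (nat_lit 15281675567) (nat_lit 15) (nat_lit 5) (nat_lit 18) (nat_lit 5) (nat_lit 16) (nat_lit 4) (nat_lit 292) (nat_lit 247) (nat_lit 241)) (XT.lf (nat_lit 0) (nat_lit 8305150880) (nat_lit 152) (nat_lit 5992091085) (nat_lit 0) (nat_lit 4101549914) (nat_lit 14) (nat_lit 5) (nat_lit 16) (nat_lit 4) (nat_lit 14) (nat_lit 4) (nat_lit 293) (nat_lit 247) (nat_lit 240))) (XT.nd (nat_lit 78) (nat_lit 152) (nat_lit 0) (XT.lf (nat_lit 0) (nat_lit 6331135348)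 (nat_lit 76) (nat_lit 8910546869) (nat_lit 76) (nat_lit 4270735112) (nat_lit 13) (nat_lit 4) (nat_lit 14) (nat_lit 5) (nat_lit 14) (nat_lit 4) (nat_lit 294) (nat_lit 247) (nat_lit 239)) (XT.nd (nat_lit 78) (nat_lit 76) (nat_lit 0) (XT.lf (nat_lit 0) (nat_lit 1773149799) (nat_lit 152) (nat_lit 1408753549) (nat_lit 76) (nat_lit 17540827964) (nat_lit 12) (nat_lit 5) (nat_lit 14) (nat_lit 5) (nat_lit 13) (nat_lit 4) (nat_lit 295) (nat_lit 247) (nat_lit 238)) (XT.lf (nat_lit 0) (nat_lit 8108766211) (nat_lit 152) (nat_lit 10970799559) (nat_lit 0) (nat_lit 2949060417) (nat_lit 11) (nat_lit 5) (nat_lit 13) (nat_lit 4) (nat_lit 11) (nat_lit 4) (nat_lit 296) (nat_lit 247) (nat_lit 237))))) (XT.nd (nat_lit 156) (nat_lit 152) (nat_lit 0) (XT.nd (nat_lit 78) (nat_lit 0) (nat_lit 0) (XT.lf (nat_lit 0) (nat_lit 630473264) (nat_lit 76) (nat_lit 14153263196) (nat_lit 76) (nat_lit 8663768650) (nat_lit 10)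 (nat_lit 4) (nat_lit 11) (nat_lit 5) (nat_lit 11) (nat_lit 4) (nat_lit 297) (nat_lit 247) (nat_lit 236)) (XT.lf (nat_lit 0) (nat_lit 13102109466) (nat_lit 76) (nat_lit 8837705663) (nat_lit 76) (nat_lit 3042851161) (nat_lit 10) (nat_lit 4) (nat_lit 11) (nat_lit 5) (nat_lit 11) (nat_lit 4) (nat_lit 298) (nat_lit 247) (nat_lit 235))) (XT.nd (nat_lit 78) (nat_lit 76) (nat_lit 0) (XT.lf (nat_lit 0) (nat_lit 2701095417) (nat_lit 152) (nat_lit 540349596) (nat_lit 76) (nat_lit 23408431085) (nat_lit 9) (nat_lit 5) (nat_lit 11) (nat_lit 5) (nat_lit 10) (nat_lit 4) (nat_lit 299) (nat_lit 247) (nat_lit 234)) (XT.nd (nat_lit 78) (nat_lit 0) (nat_lit 0) (XT.lf (nat_lit 0) (nat_lit 8813088811) (nat_lit 152) (nat_lit 16858654463) (nat_lit 0) (nat_lit 2775572481) (nat_lit 8) (nat_lit 5) (nat_lit 10) (nat_lit 4) (nat_lit 8) (nat_lit 4) (nat_lit 300) (nat_lit 247) (nat_lit 233)) (XT.lf (nat_lit 0) (nat_lit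 15272744987) (nat_lit 152) (nat_lit 6118599661) (nat_lit 0) (nat_lit 9004367154) (nat_lit 8) (nat_lit 5) (nat_lit 10) (nat_lit 4) (nat_lit 8) (nat_lit 4) (nat_lit 301) (nat_lit 247) (nat_lit 232)))))) (XT.nd (nat_lit 390) (nat_lit 76) (nat_lit 0) (XT.nd (nat_lit 156) (nat_lit 152) (nat_lit 0) (XT.nd (nat_lit 78) (nat_lit 0) (nat_lit 0) (XT.lf (nat_lit 0) (nat_lit 5295522005) (nat_lit 76) (nat_lit 16846033091) (nat_lit 76) (nat_lit 10363894607) (nat_lit 7) (nat_lit 4) (nat_lit 8) (nat_lit 5) (nat_lit 8) (nat_lit 4) (nat_lit 302) (nat_lit 247) (nat_lit 231)) (XT.lf (nat_lit 0) (nat_lit 17502051001) (nat_lit 76) (nat_lit 11982904504) (nat_lit 76) (nat_lit 5302839490) (nat_lit 7) (nat_lit 4) (nat_lit 8) (nat_lit 5) (nat_lit 8) (nat_lit 4) (nat_lit 303) (nat_lit 247) (nat_lit 230))) (XT.nd (nat_lit 78) (nat_lit 152) (nat_lit 0) (XT.lf (nat_lit 0) (nat_lit 30371013775) (nat_lit 76) (nat_lit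 6876761792) (nat_lit 76) (nat_lit 13431474) (nat_lit 7) (nat_lit 4) (nat_lit 8) (nat_lit 5) (nat_lit 8) (nat_lit 4) (nat_lit 304) (nat_lit 247) (nat_lit 229)) (XT.nd (nat_lit 78) (nat_lit 0) (nat_lit 0) (XT.lf (nat_lit 0) (nat_lit 4082568036) (nat_lit 76) (nat_lit 1339670232) (nat_lit 152) (nat_lit 34510596442) (nat_lit 5) (nat_lit 5) (nat_lit 6) (nat_lit 5) (nat_lit 7) (nat_lit 4) (nat_lit 305) (nat_lit 247) (nat_lit 228)) (XT.lf (nat_lit 0) (nat_lit 11333745466) (nat_lit 152) (nat_lit 26996433616) (nat_lit 0) (nat_lit 4485992253) (nat_lit 5) (nat_lit 5) (nat_lit 7) (nat_lit 4) (nat_lit 5) (nat_lit 4) (nat_lit 306) (nat_lit 247) (nat_lit 227))))) (XT.nd (nat_lit 156) (nat_lit 76) (nat_lit 0) (XT.nd (nat_lit 78) (nat_lit 0) (nat_lit 0) (XT.lf (nat_lit 0) (nat_lit 17599103619) (nat_lit 152) (nat_lit 17724286390) (nat_lit 0) (nat_lit 10612796208) (nat_lit 5) (nat_lit 5) (nat_lit 7) (nat_lit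 4) (nat_lit 5) (nat_lit 4) (nat_lit 307) (nat_lit 247) (nat_lit 226)) (XT.lf (nat_lit 0) (nat_lit 24234524767) (nat_lit 152) (nat_lit 7957962931) (nat_lit 0) (nat_lit 17119926433) (nat_lit 5) (nat_lit 5) (nat_lit 7) (nat_lit 4) (nat_lit 5) (nat_lit 4) (nat_lit 308) (nat_lit 247) (nat_lit 225))) (XT.nd (nat_lit 78) (nat_lit 0) (nat_lit 0) (XT.lf (nat_lit 0) (nat_lit 2438457126) (nat_lit 76) (nat_lit 28878943949) (nat_lit 76) (nat_lit 21645557722) (nat_lit 4) (nat_lit 4) (nat_lit 5) (nat_lit 5) (nat_lit 5) (nat_lit 4) (nat_lit 309) (nat_lit 247) (nat_lit 224)) (XT.nd (nat_lit 78) (nat_lit 0) (nat_lit 0) (XT.lf (nat_lit 0) (nat_lit 13731475091) (nat_lit 76) (nat_lit 25258177806) (nat_lit 76) (nat_lit 17914802790) (nat_lit 4) (nat_lit 4) (nat_lit 5) (nat_lit 5) (nat_lit 5) (nat_lit 4) (nat_lit 310) (nat_lit 247) (nat_lit 223)) (XT.lf (nat_lit 0) (nat_lit 25724886358) (nat_lit 76) (nat_lit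 21443504829) (nat_lit 76) (nat_lit 13998288342) (nat_lit 4) (nat_lit 4) (nat_lit 5) (nat_lit 5) (nat_lit 5) (nat_lit 4) (nat_lit 311) (nat_lit 247) (nat_lit 222))))))) (XT.nd (nat_lit 780) (nat_lit 76) (nat_lit 0) (XT.nd (nat_lit 390) (nat_lit 0) (nat_lit 0) (XT.nd (nat_lit 156) (nat_lit 152) (nat_lit 0) (XT.nd (nat_lit 78) (nat_lit 0) (nat_lit 0) (XT.lf (nat_lit 0) (nat_lit 38489762995) (nat_lit 76) (nat_lit 17412319549) (nat_lit 76) (nat_lit 9872805403) (nat_lit 4) (nat_lit 4) (nat_lit 5) (nat_lit 5) (nat_lit 5) (nat_lit 4) (nat_lit 312) (nat_lit 247) (nat_lit 221)) (XT.lf (nat_lit 0) (nat_lit 52101748713) (nat_lit 76) (nat_lit 13140733461) (nat_lit 76) (nat_lit 5513906668) (nat_lit 4) (nat_lit 4) (nat_lit 5) (nat_lit 5) (nat_lit 5) (nat_lit 4) (nat_lit 313) (nat_lit 247) (nat_lit 220))) (XT.nd (nat_lit 78) (nat_lit 152) (nat_lit 0) (XT.lf (nat_lit 0) (nat_lit 66641507133) (nat_lit 76)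 (nat_lit 8603433462) (nat_lit 76) (nat_lit 895761626) (nat_lit 4) (nat_lit 4) (nat_lit 5) (nat_lit 5) (nat_lit 5) (nat_lit 4) (nat_lit 314) (nat_lit 247) (nat_lit 219)) (XT.nd (nat_lit 78) (nat_lit 0) (nat_lit 0) (XT.lf (nat_lit 0) (nat_lit 178588952) (nat_lit 76) (nat_lit 3704882906) (nat_lit 152) (nat_lit 78072994268) (nat_lit 2) (nat_lit 5) (nat_lit 3) (nat_lit 5) (nat_lit 4) (nat_lit 4) (nat_lit 315) (nat_lit 247) (nat_lit 218)) (XT.lf (nat_lit 0) (nat_lit 9129427236) (nat_lit 152) (nat_lit 77450084494) (nat_lit 0) (nat_lit 1651484425) (nat_lit 2) (nat_lit 5) (nat_lit 4) (nat_lit 4) (nat_lit 2) (nat_lit 4) (nat_lit 316) (nat_lit 247) (nat_lit 217))))) (XT.nd (nat_lit 156) (nat_lit 0) (nat_lit 0) (XT.nd (nat_lit 78) (nat_lit 0) (nat_lit 0) (XT.lf (nat_lit 0) (nat_lit 14785686993) (nat_lit 152) (nat_lit 72975672867) (nat_lit 0) (nat_lit 7246622847) (nat_lit 2) (nat_lit 5) (nat_lit 4)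 (nat_lit 4) (nat_lit 2) (nat_lit 4) (nat_lit 317) (nat_lit 247) (nat_lit 216)) (XT.lf (nat_lit 0) (nat_lit 20827926099) (nat_lit 152) (nat_lit 68270283659) (nat_lit 0) (nat_lit 13232268124) (nat_lit 2) (nat_lit 5) (nat_lit 4) (nat_lit 4) (nat_lit 2) (nat_lit 4) (nat_lit 318) (nat_lit 247) (nat_lit 215))) (XT.nd (nat_lit 78) (nat_lit 0) (nat_lit 0) (XT.lf (nat_lit 0) (nat_lit 27291950417) (nat_lit 152) (nat_lit 63306033080) (nat_lit 0) (nat_lit 19643890748) (nat_lit 2) (nat_lit 5) (nat_lit 4) (nat_lit 4) (nat_lit 2) (nat_lit 4) (nat_lit 319) (nat_lit 247) (nat_lit 214)) (XT.nd (nat_lit 78) (nat_lit 0) (nat_lit 0) (XT.lf (nat_lit 0) (nat_lit 34216065274) (nat_lit 152) (nat_lit 58053503350) (nat_lit 0) (nat_lit 26519485519) (nat_lit 2) (nat_lit 5) (nat_lit 4) (nat_lit 4) (nat_lit 2) (nat_lit 4) (nat_lit 320) (nat_lit 247) (nat_lit 213)) (XT.lf (nat_lit 0) (nat_lit 41641302463) (nat_lit 152)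 (nat_lit 52481568367) (nat_lit 0) (nat_lit 33899796702) (nat_lit 2) (nat_lit 5) (nat_lit 4) (nat_lit 4) (nat_lit 2) (nat_lit 4) (nat_lit 321) (nat_lit 247) (nat_lit 212)))))) (XT.nd (nat_lit 390) (nat_lit 76) (nat_lit 0) (XT.nd (nat_lit 156) (nat_lit 0) (nat_lit 0) (XT.nd (nat_lit 78) (nat_lit 0) (nat_lit 0) (XT.lf (nat_lit 0) (nat_lit 49611663389) (nat_lit 152) (nat_lit 46557209257) (nat_lit 0) (nat_lit 41828559474) (nat_lit 2) (nat_lit 5) (nat_lit 4) (nat_lit 4) (nat_lit 2) (nat_lit 4) (nat_lit 322) (nat_lit 247) (nat_lit 211)) (XT.lf (nat_lit 0) (nat_lit 58174379822) (nat_lit 152) (nat_lit 40245318706) (nat_lit 0) (nat_lit 50352759098) (nat_lit 2) (nat_lit 5) (nat_lit 4) (nat_lit 4) (nat_lit 2) (nat_lit 4) (nat_lit 323) (nat_lit 247) (nat_lit 210))) (XT.nd (nat_lit 78) (nat_lit 0) (nat_lit 0) (XT.lf (nat_lit 0) (nat_lit 67380193783) (nat_lit 152) (nat_lit 33508492919) (nat_lit 0) (nat_lit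 59522909347) (nat_lit 2) (nat_lit 5) (nat_lit 4) (nat_lit 4) (nat_lit 2) (nat_lit 4) (nat_lit 324) (nat_lit 247) (nat_lit 209)) (XT.nd (nat_lit 78) (nat_lit 0) (nat_lit 0) (XT.lf (nat_lit 0) (nat_lit 77283658246) (nat_lit 152) (nat_lit 26306809964) (nat_lit 0) (nat_lit 69393351854) (nat_lit 2) (nat_lit 5) (nat_lit 4) (nat_lit 4) (nat_lit 2) (nat_lit 4) (nat_lit 325) (nat_lit 247) (nat_lit 208)) (XT.lf (nat_lit 0) (nat_lit 87943460406) (nat_lit 152) (nat_lit 18597593203) (nat_lit 0) (nat_lit 80022578129) (nat_lit 2) (nat_lit 5) (nat_lit 4) (nat_lit 4) (nat_lit 2) (nat_lit 4) (nat_lit 326) (nat_lit 247) (nat_lit 207))))) (XT.nd (nat_lit 234) (nat_lit 0) (nat_lit 0) (XT.nd (nat_lit 78) (nat_lit 76) (nat_lit 0) (XT.lf (nat_lit 0) (nat_lit 99422769462) (nat_lit 152) (nat_lit 10335158388) (nat_lit 0) (nat_lit 91473576181) (nat_lit 2) (nat_lit 5) (nat_lit 4) (nat_lit 4) (nat_lit 2) (nat_lit 4)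 (nat_lit 327) (nat_lit 247) (nat_lit 206)) (XT.nd (nat_lit 78) (nat_lit 76) (nat_lit 0) (XT.lf (nat_lit 0) (nat_lit 111789610948) (nat_lit 152) (nat_lit 1470542942) (nat_lit 0) (nat_lit 103814203774) (nat_lit 2) (nat_lit 5) (nat_lit 4) (nat_lit 4) (nat_lit 2) (nat_lit 4) (nat_lit 328) (nat_lit 247) (nat_lit 205)) (XT.lf (nat_lit 0) (nat_lit 8314913343) (nat_lit 76) (nat_lit 116932175608) (nat_lit 76) (nat_lit 108932496311) (nat_lit 1) (nat_lit 4) (nat_lit 2) (nat_lit 5) (nat_lit 2) (nat_lit 4) (nat_lit 329) (nat_lit 247) (nat_lit 204)))) (XT.nd (nat_lit 78) (nat_lit 0) (nat_lit 0) (XT.lf (nat_lit 0) (nat_lit 18883627855) (nat_lit 76) (nat_lit 120895923389) (nat_lit 76) (nat_lit 112873769904) (nat_lit 1) (nat_lit 4) (nat_lit 2) (nat_lit 5) (nat_lit 2) (nat_lit 4) (nat_lit 330) (nat_lit 247) (nat_lit 203)) (XT.nd (nat_lit 78) (nat_lit 0) (nat_lit 0) (XT.lf (nat_lit 0) (nat_lit 30249607221)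 (nat_lit 76) (nat_lit 125199790466) (nat_lit 76) (nat_lit 117156827547) (nat_lit 1) (nat_lit 4) (nat_lit 2) (nat_lit 5) (nat_lit 2) (nat_lit 4) (nat_lit 331) (nat_lit 247) (nat_lit 202)) (XT.lf (nat_lit 0) (nat_lit 42480205392) (nat_lit 76) (nat_lit 129869281236) (nat_lit 76) (nat_lit 121807050324) (nat_lit 1) (nat_lit 4) (nat_lit 2) (nat_lit 5) (nat_lit 2) (nat_lit 4) (nat_lit 332) (nat_lit 247) (nat_lit 201))))))))
noncomputable def xc25 : XT := (XT.nd (nat_lit 37206) (nat_lit 0) (nat_lit 304) (XT.nd (nat_lit 780) (nat_lit 0) (nat_lit 0) (XT.nd (nat_lit 390) (nat_lit 0) (nat_lit 0) (XT.nd (nat_lit 156) (nat_lit 0) (nat_lit 0) (XT.nd (nat_lit 78) (nat_lit 0) (nat_lit 0) (XT.lf (nat_lit 0) (nat_lit 55647899988) (nat_lit 76) (nat_lit 134932066757) (nat_lit 76) (nat_lit 126851995109) (nat_lit 1) (nat_lit 4) (nat_lit 2) (nat_lit 5) (nat_lit 2) (nat_lit 4) (nat_lit 333) (nat_lit 247) (nat_lit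 200)) (XT.lf (nat_lit 0) (nat_lit 69830721791) (nat_lit 76) (nat_lit 140418148719) (nat_lit 76) (nat_lit 132321557872) (nat_lit 1) (nat_lit 4) (nat_lit 2) (nat_lit 5) (nat_lit 2) (nat_lit 4) (nat_lit 334) (nat_lit 247) (nat_lit 199))) (XT.nd (nat_lit 78) (nat_lit 0) (nat_lit 0) (XT.lf (nat_lit 0) (nat_lit 85112717153) (nat_lit 76) (nat_lit 146360037238) (nat_lit 76) (nat_lit 138248150836) (nat_lit 1) (nat_lit 4) (nat_lit 2) (nat_lit 5) (nat_lit 2) (nat_lit 4) (nat_lit 335) (nat_lit 247) (nat_lit 198)) (XT.nd (nat_lit 78) (nat_lit 0) (nat_lit 0) (XT.lf (nat_lit 0) (nat_lit 101584446047) (nat_lit 76) (nat_lit 152792943505) (nat_lit 76) (nat_lit 144666894552) (nat_lit 1) (nat_lit 4) (nat_lit 2) (nat_lit 5) (nat_lit 2) (nat_lit 4) (nat_lit 336) (nat_lit 247) (nat_lit 197)) (XT.lf (nat_lit 0) (nat_lit 119343518716) (nat_lit 76) (nat_lit 159754988446) (nat_lit 76) (nat_lit 151615826021) (nat_lit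 1) (nat_lit 4) (nat_lit 2) (nat_lit 5) (nat_lit 2) (nat_lit 4) (nat_lit 337) (nat_lit 247) (nat_lit 196))))) (XT.nd (nat_lit 156) (nat_lit 0) (nat_lit 0) (XT.nd (nat_lit 78) (nat_lit 0) (nat_lit 0) (XT.lf (nat_lit 0) (nat_lit 138495174112) (nat_lit 76) (nat_lit 167287428625) (nat_lit 76) (nat_lit 159136124095) (nat_lit 1) (nat_lit 4) (nat_lit 2) (nat_lit 5) (nat_lit 2) (nat_lit 4) (nat_lit 338) (nat_lit 247) (nat_lit 195)) (XT.lf (nat_lit 0) (nat_lit 159152903525) (nat_lit 76) (nat_lit 175434900723) (nat_lit 76) (nat_lit 167272353503) (nat_lit 1) (nat_lit 4) (nat_lit 2) (nat_lit 5) (nat_lit 2) (nat_lit 4) (nat_lit 339) (nat_lit 247) (nat_lit 194))) (XT.nd (nat_lit 78) (nat_lit 0) (nat_lit 0) (XT.lf (nat_lit 0) (nat_lit 181439123128) (nat_lit 76) (nat_lit 184245686056) (nat_lit 76) (nat_lit 176072728939) (nat_lit 1) (nat_lit 4) (nat_lit 2) (nat_lit 5) (nat_lit 2) (nat_lit 4) (nat_lit 340)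 (nat_lit 247) (nat_lit 193)) (XT.nd (nat_lit 78) (nat_lit 0) (nat_lit 0) (XT.lf (nat_lit 0) (nat_lit 205485899410) (nat_lit 76) (nat_lit 193771996687) (nat_lit 76) (nat_lit 185589400776) (nat_lit 1) (nat_lit 4) (nat_lit 2) (nat_lit 5) (nat_lit 2) (nat_lit 4) (nat_lit 341) (nat_lit 247) (nat_lit 192)) (XT.lf (nat_lit 0) (nat_lit 231435731784) (nat_lit 76) (nat_lit 204070284825) (nat_lit 76) (nat_lit 195878764105) (nat_lit 1) (nat_lit 4) (nat_lit 2) (nat_lit 5) (nat_lit 2) (nat_lit 4) (nat_lit 342) (nat_lit 247) (nat_lit 191)))))) (XT.nd (nat_lit 390) (nat_lit 0) (nat_lit 0) (XT.nd (nat_lit 156) (nat_lit 0) (nat_lit 0) (XT.nd (nat_lit 78) (nat_lit 0) (nat_lit 0) (XT.lf (nat_lit 0) (nat_lit 259442397036) (nat_lit 76) (nat_lit 215201577364) (nat_lit 76) (nat_lit 207001792931) (nat_lit 1) (nat_lit 4) (nat_lit 2) (nat_lit 5) (nat_lit 2) (nat_lit 4) (nat_lit 343) (nat_lit 247) (nat_lit 190))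 (XT.lf (nat_lit 0) (nat_lit 289671860589) (nat_lit 76) (nat_lit 227231837519) (nat_lit 76) (nat_lit 219024401501) (nat_lit 1) (nat_lit 4) (nat_lit 2) (nat_lit 5) (nat_lit 2) (nat_lit 4) (nat_lit 344) (nat_lit 247) (nat_lit 189))) (XT.nd (nat_lit 78) (nat_lit 0) (nat_lit 0) (XT.lf (nat_lit 0) (nat_lit 322303260004) (nat_lit 76) (nat_lit 240232355720) (nat_lit 76) (nat_lit 232017834900) (nat_lit 1) (nat_lit 4) (nat_lit 2) (nat_lit 5) (nat_lit 2) (nat_lit 4) (nat_lit 345) (nat_lit 247) (nat_lit 188)) (XT.nd (nat_lit 78) (nat_lit 0) (nat_lit 0) (XT.lf (nat_lit 0) (nat_lit 357529966538) (nat_lit 76) (nat_lit 254280172075) (nat_lit 76) (nat_lit 246059091254) (nat_lit 1) (nat_lit 4) (nat_lit 2) (nat_lit 5) (nat_lit 2) (nat_lit 4) (nat_lit 346) (nat_lit 247) (nat_lit 187)) (XT.lf (nat_lit 0) (nat_lit 395560731044) (nat_lit 76) (nat_lit 269458532903) (nat_lit 76) (nat_lit 261231378007) (nat_lit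 1) (nat_lit 4) (nat_lit 2) (nat_lit 5) (nat_lit 2) (nat_lit 4) (nat_lit 347) (nat_lit 247) (nat_lit 186))))) (XT.nd (nat_lit 35802) (nat_lit 0) (nat_lit 1596) (XT.nd (nat_lit 35646) (nat_lit 0) (nat_lit 2052) (XT.lf (nat_lit 0) (nat_lit 436620921015) (nat_lit 76) (nat_lit 285857384046) (nat_lit 76) (nat_lit 277624605007) (nat_lit 1) (nat_lit 4) (nat_lit 2) (nat_lit 5) (nat_lit 2) (nat_lit 4) (nat_lit 348) (nat_lit 247) (nat_lit 185)) (XT.nd (nat_lit 78) (nat_lit 152) (nat_lit 0) (XT.lf (nat_lit 0) (nat_lit 2426719514) (nat_lit 228) (nat_lit 944072185) (nat_lit 0) (nat_lit 2426719514) (nat_lit 30) (nat_lit 5) (nat_lit 33) (nat_lit 4) (nat_lit 30) (nat_lit 4) (nat_lit 284) (nat_lit 248) (nat_lit 248)) (XT.lf (nat_lit 0) (nat_lit 10489990345) (nat_lit 152) (nat_lit 1312604152) (nat_lit 152) (nat_lit 331209593) (nat_lit 28) (nat_lit 4) (nat_lit 30) (nat_lit 5) (nat_lit 30) (nat_lit 4) (nat_lit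 285) (nat_lit 248) (nat_lit 247)))) (XT.nd (nat_lit 78) (nat_lit 304) (nat_lit 0) (XT.lf (nat_lit 0) (nat_lit 6276022820) (nat_lit 152) (nat_lit 1964196083) (nat_lit 0) (nat_lit 4475934035) (nat_lit 26) (nat_lit 5) (nat_lit 28) (nat_lit 4) (nat_lit 26) (nat_lit 4) (nat_lit 286) (nat_lit 248) (nat_lit 246)) (XT.nd (nat_lit 78) (nat_lit 152) (nat_lit 0) (XT.lf (nat_lit 0) (nat_lit 10549399045) (nat_lit 152) (nat_lit 2702295419) (nat_lit 152) (nat_lit 100885060) (nat_lit 24) (nat_lit 4) (nat_lit 26) (nat_lit 5) (nat_lit 26) (nat_lit 4) (nat_lit 287) (nat_lit 248) (nat_lit 245)) (XT.lf (nat_lit 0) (nat_lit 6415163210) (nat_lit 152) (nat_lit 4394511392) (nat_lit 0) (nat_lit 3230996753) (nat_lit 22) (nat_lit 5) (nat_lit 24) (nat_lit 4) (nat_lit 22) (nat_lit 4) (nat_lit 288) (nat_lit 248) (nat_lit 244))))))) (XT.nd (nat_lit 780) (nat_lit 380) (nat_lit 0) (XT.nd (nat_lit 390) (nat_lit 304) (nat_lit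 0) (XT.nd (nat_lit 156) (nat_lit 304) (nat_lit 0) (XT.nd (nat_lit 78) (nat_lit 152) (nat_lit 0) (XT.lf (nat_lit 0) (nat_lit 8032173027) (nat_lit 152) (nat_lit 5298108992) (nat_lit 152) (nat_lit 1459652922) (nat_lit 20) (nat_lit 4) (nat_lit 22) (nat_lit 5) (nat_lit 22) (nat_lit 4) (nat_lit 289) (nat_lit 248) (nat_lit 243)) (XT.lf (nat_lit 0) (nat_lit 4879235927) (nat_lit 152) (nat_lit 10077188102) (nat_lit 0) (nat_lit 646588513) (nat_lit 18) (nat_lit 5) (nat_lit 20) (nat_lit 4) (nat_lit 18) (nat_lit 4) (nat_lit 290) (nat_lit 248) (nat_lit 242))) (XT.nd (nat_lit 78) (nat_lit 152) (nat_lit 0) (XT.lf (nat_lit 0) (nat_lit 1944611593) (nat_lit 152) (nat_lit 9653126398) (nat_lit 152) (nat_lit 4886242903) (nat_lit 16) (nat_lit 4) (nat_lit 18) (nat_lit 5) (nat_lit 18) (nat_lit 4) (nat_lit 291) (nat_lit 248) (nat_lit 241)) (XT.nd (nat_lit 78) (nat_lit 76) (nat_lit 0) (XT.lf (nat_lit 0) (nat_lit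 1244864894) (nat_lit 228) (nat_lit 2709573498) (nat_lit 76) (nat_lit 13486479544) (nat_lit 15) (nat_lit 5) (nat_lit 18) (nat_lit 5) (nat_lit 16) (nat_lit 4) (nat_lit 292) (nat_lit 248) (nat_lit 240)) (XT.lf (nat_lit 0) (nat_lit 7601438256) (nat_lit 152) (nat_lit 8719609562) (nat_lit 0) (nat_lit 2154230767) (nat_lit 14) (nat_lit 5) (nat_lit 16) (nat_lit 4) (nat_lit 14) (nat_lit 4) (nat_lit 293) (nat_lit 248) (nat_lit 239))))) (XT.nd (nat_lit 156) (nat_lit 152) (nat_lit 0) (XT.nd (nat_lit 78) (nat_lit 76) (nat_lit 0) (XT.lf (nat_lit 0) (nat_lit 3268149800) (nat_lit 76) (nat_lit 11090454958) (nat_lit 76) (nat_lit 5239348588) (nat_lit 13) (nat_lit 4) (nat_lit 14) (nat_lit 5) (nat_lit 14) (nat_lit 4) (nat_lit 294) (nat_lit 248) (nat_lit 238)) (XT.lf (nat_lit 0) (nat_lit 708065504) (nat_lit 152) (nat_lit 4773552531) (nat_lit 76) (nat_lit 15333850547) (nat_lit 12) (nat_lit 5) (nat_lit 14) (nat_lit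 5) (nat_lit 13) (nat_lit 4) (nat_lit 295) (nat_lit 248) (nat_lit 237))) (XT.nd (nat_lit 78) (nat_lit 76) (nat_lit 0) (XT.lf (nat_lit 0) (nat_lit 6829571334) (nat_lit 152) (nat_lit 14731435375) (nat_lit 0) (nat_lit 571128471) (nat_lit 11) (nat_lit 5) (nat_lit 13) (nat_lit 4) (nat_lit 11) (nat_lit 4) (nat_lit 296) (nat_lit 248) (nat_lit 236)) (XT.nd (nat_lit 78) (nat_lit 76) (nat_lit 0) (XT.lf (nat_lit 0) (nat_lit 13380767619) (nat_lit 152) (nat_lit 3359531673) (nat_lit 0) (nat_lit 6816964800) (nat_lit 11) (nat_lit 5) (nat_lit 13) (nat_lit 4) (nat_lit 11) (nat_lit 4) (nat_lit 297) (nat_lit 248) (nat_lit 235)) (XT.lf (nat_lit 0) (nat_lit 8800924343) (nat_lit 76) (nat_lit 11573120633) (nat_lit 76) (nat_lit 4726577114) (nat_lit 10) (nat_lit 4) (nat_lit 11) (nat_lit 5) (nat_lit 11) (nat_lit 4) (nat_lit 298) (nat_lit 248) (nat_lit 234)))))) (XT.nd (nat_lit 390) (nat_lit 152) (nat_lit 0) (XT.nd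 (nat_lit 156) (nat_lit 76) (nat_lit 0) (XT.nd (nat_lit 78) (nat_lit 76) (nat_lit 0) (XT.lf (nat_lit 0) (nat_lit 968989921) (nat_lit 152) (nat_lit 5121911124) (nat_lit 76) (nat_lit 20683408746) (nat_lit 9) (nat_lit 5) (nat_lit 11) (nat_lit 5) (nat_lit 10) (nat_lit 4) (nat_lit 299) (nat_lit 248) (nat_lit 233)) (XT.lf (nat_lit 0) (nat_lit 6722111060) (nat_lit 76) (nat_lit 142696794) (nat_lit 152) (nat_lit 21717796705) (nat_lit 8) (nat_lit 5) (nat_lit 9) (nat_lit 5) (nat_lit 10) (nat_lit 4) (nat_lit 300) (nat_lit 248) (nat_lit 232))) (XT.nd (nat_lit 78) (nat_lit 76) (nat_lit 0) (XT.lf (nat_lit 0) (nat_lit 13230747432) (nat_lit 152) (nat_lit 11288704692) (nat_lit 0) (nat_lit 6016277217) (nat_lit 8) (nat_lit 5) (nat_lit 10) (nat_lit 4) (nat_lit 8) (nat_lit 4) (nat_lit 301) (nat_lit 248) (nat_lit 231)) (XT.nd (nat_lit 78) (nat_lit 76) (nat_lit 0) (XT.lf (nat_lit 0) (nat_lit 19932167841) (nat_lit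 152) (nat_lit 201937515) (nat_lit 0) (nat_lit 12519771098) (nat_lit 8) (nat_lit 5) (nat_lit 10) (nat_lit 4) (nat_lit 8) (nat_lit 4) (nat_lit 302) (nat_lit 248) (nat_lit 230)) (XT.lf (nat_lit 0) (nat_lit 11846910407) (nat_lit 76) (nat_lit 15344606372) (nat_lit 76) (nat_lit 7748944324) (nat_lit 7) (nat_lit 4) (nat_lit 8) (nat_lit 5) (nat_lit 8) (nat_lit 4) (nat_lit 303) (nat_lit 248) (nat_lit 229))))) (XT.nd (nat_lit 234) (nat_lit 0) (nat_lit 0) (XT.nd (nat_lit 78) (nat_lit 152) (nat_lit 0) (XT.lf (nat_lit 0) (nat_lit 24576054564) (nat_lit 76) (nat_lit 10303472636) (nat_lit 76) (nat_lit 2538120491) (nat_lit 7) (nat_lit 4) (nat_lit 8) (nat_lit 5) (nat_lit 8) (nat_lit 4) (nat_lit 304) (nat_lit 248) (nat_lit 228)) (XT.nd (nat_lit 78) (nat_lit 76) (nat_lit 0) (XT.lf (nat_lit 0) (nat_lit 2844180480) (nat_lit 152) (nat_lit 2091902618) (nat_lit 76) (nat_lit 35161901900) (nat_lit 6) (nat_lit 5)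 (nat_lit 8) (nat_lit 5) (nat_lit 7) (nat_lit 4) (nat_lit 305) (nat_lit 248) (nat_lit 227)) (XT.lf (nat_lit 0) (nat_lit 8597138864) (nat_lit 152) (nat_lit 33478765348) (nat_lit 0) (nat_lit 913372663) (nat_lit 5) (nat_lit 5) (nat_lit 7) (nat_lit 4) (nat_lit 5) (nat_lit 4) (nat_lit 306) (nat_lit 248) (nat_lit 226)))) (XT.nd (nat_lit 78) (nat_lit 0) (nat_lit 0) (XT.lf (nat_lit 0) (nat_lit 14799436605) (nat_lit 152) (nat_lit 24325654441) (nat_lit 0) (nat_lit 6987379480) (nat_lit 5) (nat_lit 5) (nat_lit 7) (nat_lit 4) (nat_lit 5) (nat_lit 4) (nat_lit 307) (nat_lit 248) (nat_lit 225)) (XT.nd (nat_lit 78) (nat_lit 0) (nat_lit 0) (XT.lf (nat_lit 0) (nat_lit 21376468483) (nat_lit 152) (nat_lit 14669549797) (nat_lit 0) (nat_lit 13445623466) (nat_lit 5) (nat_lit 5) (nat_lit 7) (nat_lit 4) (nat_lit 5) (nat_lit 4) (nat_lit 308) (nat_lit 248) (nat_lit 224)) (XT.lf (nat_lit 0) (nat_lit 28367209503) (nat_lit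 152) (nat_lit 4453230054) (nat_lit 0) (nat_lit 20326375697) (nat_lit 5) (nat_lit 5) (nat_lit 7) (nat_lit 4) (nat_lit 5) (nat_lit 4) (nat_lit 309) (nat_lit 248) (nat_lit 223))))))))
noncomputable def xc26 : XT := (XT.nd (nat_lit 1560) (nat_lit 76) (nat_lit 0) (XT.nd (nat_lit 780) (nat_lit 0) (nat_lit 0) (XT.nd (nat_lit 390) (nat_lit 152) (nat_lit 0) (XT.nd (nat_lit 156) (nat_lit 0) (nat_lit 0) (XT.nd (nat_lit 78) (nat_lit 0) (nat_lit 0) (XT.lf (nat_lit 0) (nat_lit 6594924718) (nat_lit 76) (nat_lit 29321126817) (nat_lit 76) (nat_lit 21178451540) (nat_lit 4) (nat_lit 4) (nat_lit 5) (nat_lit 5) (nat_lit 5) (nat_lit 4) (nat_lit 310) (nat_lit 248) (nat_lit 222)) (XT.lf (nat_lit 0) (nat_lit 18497947748) (nat_lit 76) (nat_lit 25549079578) (nat_lit 76) (nat_lit 17312106642) (nat_lit 4) (nat_lit 4) (nat_lit 5) (nat_lit 5) (nat_lit 5) (nat_lit 4) (nat_lit 311) (nat_lit 248) (nat_lit 221))) (XT.nd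 (nat_lit 78) (nat_lit 0) (nat_lit 0) (XT.lf (nat_lit 0) (nat_lit 31179131572) (nat_lit 76) (nat_lit 21557362575) (nat_lit 76) (nat_lit 13233076992) (nat_lit 4) (nat_lit 4) (nat_lit 5) (nat_lit 5) (nat_lit 5) (nat_lit 4) (nat_lit 312) (nat_lit 248) (nat_lit 220)) (XT.nd (nat_lit 78) (nat_lit 0) (nat_lit 0) (XT.lf (nat_lit 0) (nat_lit 44713623946) (nat_lit 76) (nat_lit 17322321186) (nat_lit 76) (nat_lit 8917190560) (nat_lit 4) (nat_lit 4) (nat_lit 5) (nat_lit 5) (nat_lit 5) (nat_lit 4) (nat_lit 313) (nat_lit 248) (nat_lit 219)) (XT.lf (nat_lit 0) (nat_lit 59181629270) (nat_lit 76) (nat_lit 12818858873) (nat_lit 76) (nat_lit 4338871725) (nat_lit 4) (nat_lit 4) (nat_lit 5) (nat_lit 5) (nat_lit 5) (nat_lit 4) (nat_lit 314) (nat_lit 248) (nat_lit 218))))) (XT.nd (nat_lit 156) (nat_lit 0) (nat_lit 0) (XT.nd (nat_lit 78) (nat_lit 76) (nat_lit 0) (XT.lf (nat_lit 0) (nat_lit 512078659) (nat_lit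 152) (nat_lit 7499537489) (nat_lit 76) (nat_lit 74148132910) (nat_lit 3) (nat_lit 5) (nat_lit 5) (nat_lit 5) (nat_lit 4) (nat_lit 4) (nat_lit 315) (nat_lit 248) (nat_lit 217)) (XT.lf (nat_lit 0) (nat_lit 2818092948) (nat_lit 76) (nat_lit 2758282218) (nat_lit 152) (nat_lit 82866999133) (nat_lit 2) (nat_lit 5) (nat_lit 3) (nat_lit 5) (nat_lit 4) (nat_lit 4) (nat_lit 316) (nat_lit 248) (nat_lit 216))) (XT.nd (nat_lit 78) (nat_lit 0) (nat_lit 0) (XT.lf (nat_lit 0) (nat_lit 11157588950) (nat_lit 152) (nat_lit 81168851051) (nat_lit 0) (nat_lit 2897684508) (nat_lit 2) (nat_lit 5) (nat_lit 4) (nat_lit 4) (nat_lit 2) (nat_lit 4) (nat_lit 317) (nat_lit 248) (nat_lit 215)) (XT.nd (nat_lit 78) (nat_lit 0) (nat_lit 0) (XT.lf (nat_lit 0) (nat_lit 17170215596) (nat_lit 152) (nat_lit 76519985768) (nat_lit 0) (nat_lit 8857909461) (nat_lit 2) (nat_lit 5) (nat_lit 4) (nat_lit 4) (nat_lit 2) (nat_lit 4) (nat_lit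 318) (nat_lit 248) (nat_lit 214)) (XT.lf (nat_lit 0) (nat_lit 23606820969) (nat_lit 152) (nat_lit 71608072159) (nat_lit 0) (nat_lit 15245994746) (nat_lit 2) (nat_lit 5) (nat_lit 4) (nat_lit 4) (nat_lit 2) (nat_lit 4) (nat_lit 319) (nat_lit 248) (nat_lit 213)))))) (XT.nd (nat_lit 390) (nat_lit 0) (nat_lit 0) (XT.nd (nat_lit 156) (nat_lit 0) (nat_lit 0) (XT.nd (nat_lit 78) (nat_lit 0) (nat_lit 0) (XT.lf (nat_lit 0) (nat_lit 30505547914) (nat_lit 152) (nat_lit 66404002585) (nat_lit 0) (nat_lit 22099795686) (nat_lit 2) (nat_lit 5) (nat_lit 4) (nat_lit 4) (nat_lit 2) (nat_lit 4) (nat_lit 320) (nat_lit 248) (nat_lit 212)) (XT.lf (nat_lit 0) (nat_lit 37907277777) (nat_lit 152) (nat_lit 60876938117) (nat_lit 0) (nat_lit 29459927395) (nat_lit 2) (nat_lit 5) (nat_lit 4) (nat_lit 4) (nat_lit 2) (nat_lit 4) (nat_lit 321) (nat_lit 248) (nat_lit 211))) (XT.nd (nat_lit 78) (nat_lit 0) (nat_lit 0) (XT.lf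 (nat_lit 0) (nat_lit 45855872661) (nat_lit 152) (nat_lit 54994125780) (nat_lit 0) (nat_lit 37370005470) (nat_lit 2) (nat_lit 5) (nat_lit 4) (nat_lit 4) (nat_lit 2) (nat_lit 4) (nat_lit 322) (nat_lit 248) (nat_lit 210)) (XT.nd (nat_lit 78) (nat_lit 0) (nat_lit 0) (XT.lf (nat_lit 0) (nat_lit 54398435351) (nat_lit 152) (nat_lit 48720704463) (nat_lit 0) (nat_lit 45876904448) (nat_lit 2) (nat_lit 5) (nat_lit 4) (nat_lit 4) (nat_lit 2) (nat_lit 4) (nat_lit 323) (nat_lit 248) (nat_lit 209)) (XT.lf (nat_lit 0) (nat_lit 63585588439) (nat_lit 152) (nat_lit 42019498338) (nat_lit 0) (nat_lit 55031035581) (nat_lit 2) (nat_lit 5) (nat_lit 4) (nat_lit 4) (nat_lit 2) (nat_lit 4) (nat_lit 324) (nat_lit 248) (nat_lit 208))))) (XT.nd (nat_lit 156) (nat_lit 0) (nat_lit 0) (XT.nd (nat_lit 78) (nat_lit 0) (nat_lit 0) (XT.lf (nat_lit 0) (nat_lit 73471774315) (nat_lit 152) (nat_lit 34850796551) (nat_lit 0) (nat_lit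 64886645572) (nat_lit 2) (nat_lit 5) (nat_lit 4) (nat_lit 4) (nat_lit 2) (nat_lit 4) (nat_lit 325) (nat_lit 248) (nat_lit 207)) (XT.lf (nat_lit 0) (nat_lit 84115577785) (nat_lit 152) (nat_lit 27172117909) (nat_lit 0) (nat_lit 75502138037) (nat_lit 2) (nat_lit 5) (nat_lit 4) (nat_lit 4) (nat_lit 2) (nat_lit 4) (nat_lit 326) (nat_lit 248) (nat_lit 206))) (XT.nd (nat_lit 78) (nat_lit 0) (nat_lit 0) (XT.lf (nat_lit 0) (nat_lit 95580073237) (nat_lit 152) (nat_lit 18937959129) (nat_lit 0) (nat_lit 86940419597) (nat_lit 2) (nat_lit 5) (nat_lit 4) (nat_lit 4) (nat_lit 2) (nat_lit 4) (nat_lit 327) (nat_lit 248) (nat_lit 205)) (XT.nd (nat_lit 78) (nat_lit 0) (nat_lit 0) (XT.lf (nat_lit 0) (nat_lit 107933198425) (nat_lit 152) (nat_lit 10099525198) (nat_lit 0) (nat_lit 99269272661) (nat_lit 2) (nat_lit 5) (nat_lit 4) (nat_lit 4) (nat_lit 2) (nat_lit 4) (nat_lit 328) (nat_lit 248) (nat_lit 204)) (XT.lf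 (nat_lit 0) (nat_lit 121248157052) (nat_lit 152) (nat_lit 604440209) (nat_lit 0) (nat_lit 112561757100) (nat_lit 2) (nat_lit 5) (nat_lit 4) (nat_lit 4) (nat_lit 2) (nat_lit 4) (nat_lit 329) (nat_lit 248) (nat_lit 203))))))) (XT.nd (nat_lit 780) (nat_lit 0) (nat_lit 0) (XT.nd (nat_lit 390) (nat_lit 0) (nat_lit 0) (XT.nd (nat_lit 156) (nat_lit 0) (nat_lit 0) (XT.nd (nat_lit 78) (nat_lit 0) (nat_lit 0) (XT.lf (nat_lit 0) (nat_lit 9921100169) (nat_lit 76) (nat_lit 125837648585) (nat_lit 76) (nat_lit 117130439199) (nat_lit 1) (nat_lit 4) (nat_lit 2) (nat_lit 5) (nat_lit 2) (nat_lit 4) (nat_lit 330) (nat_lit 248) (nat_lit 202)) (XT.lf (nat_lit 0) (nat_lit 21265608600) (nat_lit 76) (nat_lit 130151762935) (nat_lit 76) (nat_lit 121425285555) (nat_lit 1) (nat_lit 4) (nat_lit 2) (nat_lit 5) (nat_lit 2) (nat_lit 4) (nat_lit 331) (nat_lit 248) (nat_lit 201))) (XT.nd (nat_lit 78) (nat_lit 0) (nat_lit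 0) (XT.lf (nat_lit 0) (nat_lit 33476326277) (nat_lit 76) (nat_lit 134830741921) (nat_lit 76) (nat_lit 126086423806) (nat_lit 1) (nat_lit 4) (nat_lit 2) (nat_lit 5) (nat_lit 2) (nat_lit 4) (nat_lit 332) (nat_lit 248) (nat_lit 200)) (XT.nd (nat_lit 78) (nat_lit 0) (nat_lit 0) (XT.lf (nat_lit 0) (nat_lit 46625613007) (nat_lit 76) (nat_lit 139902312826) (nat_lit 76) (nat_lit 131141475512) (nat_lit 1) (nat_lit 4) (nat_lit 2) (nat_lit 5) (nat_lit 2) (nat_lit 4) (nat_lit 333) (nat_lit 248) (nat_lit 199)) (XT.lf (nat_lit 0) (nat_lit 60791390491) (nat_lit 76) (nat_lit 145396529403) (nat_lit 76) (nat_lit 136620396534) (nat_lit 1) (nat_lit 4) (nat_lit 2) (nat_lit 5) (nat_lit 2) (nat_lit 4) (nat_lit 334) (nat_lit 248) (nat_lit 198))))) (XT.nd (nat_lit 156) (nat_lit 0) (nat_lit 0) (XT.nd (nat_lit 78) (nat_lit 0) (nat_lit 0) (XT.lf (nat_lit 0) (nat_lit 76057604075) (nat_lit 76) (nat_lit 151345949973)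 (nat_lit 76) (nat_lit 142555654554) (nat_lit 1) (nat_lit 4) (nat_lit 2) (nat_lit 5) (nat_lit 2) (nat_lit 4) (nat_lit 335) (nat_lit 248) (nat_lit 197)) (XT.lf (nat_lit 0) (nat_lit 92514720211) (nat_lit 76) (nat_lit 157785830362) (nat_lit 76) (nat_lit 148982421470) (nat_lit 1) (nat_lit 4) (nat_lit 2) (nat_lit 5) (nat_lit 2) (nat_lit 4) (nat_lit 336) (nat_lit 248) (nat_lit 196))) (XT.nd (nat_lit 78) (nat_lit 0) (nat_lit 0) (XT.lf (nat_lit 0) (nat_lit 110260262550) (nat_lit 76) (nat_lit 164754332824) (nat_lit 76) (nat_lit 155938781827) (nat_lit 1) (nat_lit 4) (nat_lit 2) (nat_lit 5) (nat_lit 2) (nat_lit 4) (nat_lit 337) (nat_lit 248) (nat_lit 195)) (XT.nd (nat_lit 78) (nat_lit 0) (nat_lit 0) (XT.lf (nat_lit 0) (nat_lit 129399389862) (nat_lit 76) (nat_lit 172292752187) (nat_lit 76) (nat_lit 163465958501) (nat_lit 1) (nat_lit 4) (nat_lit 2) (nat_lit 5) (nat_lit 2) (nat_lit 4) (nat_lit 338) (nat_lit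 248) (nat_lit 194)) (XT.lf (nat_lit 0) (nat_lit 150045519197) (nat_lit 76) (nat_lit 180445760568) (nat_lit 76) (nat_lit 171608556984) (nat_lit 1) (nat_lit 4) (nat_lit 2) (nat_lit 5) (nat_lit 2) (nat_lit 4) (nat_lit 339) (nat_lit 248) (nat_lit 193)))))) (XT.nd (nat_lit 390) (nat_lit 0) (nat_lit 0) (XT.nd (nat_lit 156) (nat_lit 0) (nat_lit 0) (XT.nd (nat_lit 78) (nat_lit 0) (nat_lit 0) (XT.lf (nat_lit 0) (nat_lit 172320997988) (nat_lit 76) (nat_lit 189261672089) (nat_lit 76) (nat_lit 180414829711) (nat_lit 1) (nat_lit 4) (nat_lit 2) (nat_lit 5) (nat_lit 2) (nat_lit 4) (nat_lit 340) (nat_lit 248) (nat_lit 192)) (XT.lf (nat_lit 0) (nat_lit 196357829072) (nat_lit 76) (nat_lit 198792729189) (nat_lit 76) (nat_lit 189936962002) (nat_lit 1) (nat_lit 4) (nat_lit 2) (nat_lit 5) (nat_lit 2) (nat_lit 4) (nat_lit 341) (nat_lit 248) (nat_lit 191))) (XT.nd (nat_lit 78) (nat_lit 0) (nat_lit 0) (XT.lf (nat_lit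 0) (nat_lit 222298452931) (nat_lit 76) (nat_lit 209095412207) (nat_lit 76) (nat_lit 200231381308) (nat_lit 1) (nat_lit 4) (nat_lit 2) (nat_lit 5) (nat_lit 2) (nat_lit 4) (nat_lit 342) (nat_lit 248) (nat_lit 190)) (XT.nd (nat_lit 78) (nat_lit 0) (nat_lit 0) (XT.lf (nat_lit 0) (nat_lit 250296591779) (nat_lit 76) (nat_lit 220230774079) (nat_lit 76) (nat_lit 211359091594) (nat_lit 1) (nat_lit 4) (nat_lit 2) (nat_lit 5) (nat_lit 2) (nat_lit 4) (nat_lit 343) (nat_lit 248) (nat_lit 189)) (XT.lf (nat_lit 0) (nat_lit 280518160514) (nat_lit 76) (nat_lit 232264802135) (nat_lit 76) (nat_lit 223386034848) (nat_lit 1) (nat_lit 4) (nat_lit 2) (nat_lit 5) (nat_lit 2) (nat_lit 4) (nat_lit 344) (nat_lit 248) (nat_lit 188))))) (XT.nd (nat_lit 234) (nat_lit 0) (nat_lit 0) (XT.nd (nat_lit 78) (nat_lit 0) (nat_lit 0) (XT.lf (nat_lit 0) (nat_lit 313142249912) (nat_lit 76) (nat_lit 245268809133) (nat_lit 76)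 (nat_lit 236383481845) (nat_lit 1) (nat_lit 4) (nat_lit 2) (nat_lit 5) (nat_lit 2) (nat_lit 4) (nat_lit 345) (nat_lit 248) (nat_lit 187)) (XT.nd (nat_lit 78) (nat_lit 0) (nat_lit 0) (XT.lf (nat_lit 0) (nat_lit 348362187912) (nat_lit 76) (nat_lit 259319855855) (nat_lit 76) (nat_lit 250428454493) (nat_lit 1) (nat_lit 4) (nat_lit 2) (nat_lit 5) (nat_lit 2) (nat_lit 4) (nat_lit 346) (nat_lit 248) (nat_lit 186)) (XT.lf (nat_lit 0) (nat_lit 386386685257) (nat_lit 76) (nat_lit 274501207765) (nat_lit 76) (nat_lit 265604182258) (nat_lit 1) (nat_lit 4) (nat_lit 2) (nat_lit 5) (nat_lit 2) (nat_lit 4) (nat_lit 347) (nat_lit 248) (nat_lit 185)))) (XT.nd (nat_lit 35490) (nat_lit 0) (nat_lit 2432) (XT.lf (nat_lit 0) (nat_lit 427441072302) (nat_lit 76) (nat_lit 290902828428) (nat_lit 76) (nat_lit 282000595381) (nat_lit 1) (nat_lit 4) (nat_lit 2) (nat_lit 5) (nat_lit 2) (nat_lit 4) (nat_lit 348) (nat_lit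 248) (nat_lit 184)) (XT.nd (nat_lit 78) (nat_lit 152) (nat_lit 0) (XT.lf (nat_lit 0) (nat_lit 1866134119) (nat_lit 228) (nat_lit 1587814381) (nat_lit 0) (nat_lit 1866134119) (nat_lit 35) (nat_lit 5) (nat_lit 38) (nat_lit 4) (nat_lit 35) (nat_lit 4) (nat_lit 282) (nat_lit 249) (nat_lit 249)) (XT.lf (nat_lit 0) (nat_lit 8617988862) (nat_lit 152) (nat_lit 1799031199) (nat_lit 152) (nat_lit 686129770) (nat_lit 33) (nat_lit 4) (nat_lit 35) (nat_lit 5) (nat_lit 35) (nat_lit 4) (nat_lit 283) (nat_lit 249) (nat_lit 248))))))))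
noncomputable def xc27 : XT := (XT.nd (nat_lit 1638) (nat_lit 380) (nat_lit 0) (XT.nd (nat_lit 780) (nat_lit 532) (nat_lit 0) (XT.nd (nat_lit 390) (nat_lit 608) (nat_lit 0) (XT.nd (nat_lit 156) (nat_lit 380) (nat_lit 0) (XT.nd (nat_lit 78) (nat_lit 228) (nat_lit 0) (XT.lf (nat_lit 0) (nat_lit 5724560130) (nat_lit 228) (nat_lit 2196839081) (nat_lit 0) (nat_lit 3683259448) (nat_lit 30) (nat_lit 5) (nat_lit 33) (nat_lit 4) (nat_lit 30) (nat_lit 4) (nat_lit 284) (nat_lit 249) (nat_lit 247)) (XT.lf (nat_lit 0) (nat_lit 325713785) (nat_lit 228) (nat_lit 2282286086) (nat_lit 76) (nat_lit 9544579673) (nat_lit 27) (nat_lit 5) (nat_lit 30) (nat_lit 5) (nat_lit 28) (nat_lit 4) (nat_lit 285) (nat_lit 249) (nat_lit 246))) (XT.nd (nat_lit 78) (nat_lit 304) (nat_lit 0) (XT.lf (nat_lit 0) (nat_lit 6716349724) (nat_lit 152) (nat_lit 2923275775) (nat_lit 0) (nat_lit 3105504961) (nat_lit 26) (nat_lit 5)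 (nat_lit 28) (nat_lit 4) (nat_lit 26) (nat_lit 4) (nat_lit 286) (nat_lit 249) (nat_lit 245)) (XT.nd (nat_lit 78) (nat_lit 76) (nat_lit 0) (XT.lf (nat_lit 0) (nat_lit 115196752) (nat_lit 228) (nat_lit 4116655839) (nat_lit 76) (nat_lit 9158870465) (nat_lit 23) (nat_lit 5) (nat_lit 26) (nat_lit 5) (nat_lit 24) (nat_lit 4) (nat_lit 287) (nat_lit 249) (nat_lit 244)) (XT.lf (nat_lit 0) (nat_lit 6419465272) (nat_lit 152) (nat_lit 6050186624) (nat_lit 0) (nat_lit 1619643104) (nat_lit 22) (nat_lit 5) (nat_lit 24) (nat_lit 4) (nat_lit 22) (nat_lit 4) (nat_lit 288) (nat_lit 249) (nat_lit 243))))) (XT.nd (nat_lit 156) (nat_lit 304) (nat_lit 0) (XT.nd (nat_lit 78) (nat_lit 152) (nat_lit 0) (XT.lf (nat_lit 0) (nat_lit 6051798125) (nat_lit 152) (nat_lit 7100813288) (nat_lit 152) (nat_lit 1695167405) (nat_lit 20) (nat_lit 4) (nat_lit 22) (nat_lit 5) (nat_lit 22) (nat_lit 4) (nat_lit 289) (nat_lit 249)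 (nat_lit 242)) (XT.lf (nat_lit 0) (nat_lit 3171632466) (nat_lit 76) (nat_lit 1286038867) (nat_lit 152) (nat_lit 11213155572) (nat_lit 18) (nat_lit 5) (nat_lit 19) (nat_lit 5) (nat_lit 20) (nat_lit 4) (nat_lit 290) (nat_lit 249) (nat_lit 241))) (XT.nd (nat_lit 78) (nat_lit 304) (nat_lit 0) (XT.lf (nat_lit 0) (nat_lit 10984893122) (nat_lit 152) (nat_lit 768805604) (nat_lit 0) (nat_lit 4807759829) (nat_lit 18) (nat_lit 5) (nat_lit 20) (nat_lit 4) (nat_lit 18) (nat_lit 4) (nat_lit 291) (nat_lit 249) (nat_lit 240)) (XT.nd (nat_lit 78) (nat_lit 76) (nat_lit 0) (XT.lf (nat_lit 0) (nat_lit 427615287) (nat_lit 228) (nat_lit 5758543283) (nat_lit 76) (nat_lit 11340314561) (nat_lit 15) (nat_lit 5) (nat_lit 18) (nat_lit 5) (nat_lit 16) (nat_lit 4) (nat_lit 292) (nat_lit 249) (nat_lit 239)) (XT.lf (nat_lit 0) (nat_lit 6409914758) (nat_lit 76) (nat_lit 160408757) (nat_lit 152) (nat_lit 12001284592) (nat_lit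 14) (nat_lit 5) (nat_lit 15) (nat_lit 5) (nat_lit 16) (nat_lit 4) (nat_lit 293) (nat_lit 249) (nat_lit 238)))))) (XT.nd (nat_lit 390) (nat_lit 228) (nat_lit 0) (XT.nd (nat_lit 156) (nat_lit 228) (nat_lit 0) (XT.nd (nat_lit 78) (nat_lit 76) (nat_lit 0) (XT.lf (nat_lit 0) (nat_lit 13152161493) (nat_lit 152) (nat_lit 495875579) (nat_lit 0) (nat_lit 6055087287) (nat_lit 14) (nat_lit 5) (nat_lit 16) (nat_lit 4) (nat_lit 14) (nat_lit 4) (nat_lit 294) (nat_lit 249) (nat_lit 237)) (XT.lf (nat_lit 0) (nat_lit 12063195587) (nat_lit 76) (nat_lit 8153819919) (nat_lit 76) (nat_lit 710467522) (nat_lit 13) (nat_lit 4) (nat_lit 14) (nat_lit 5) (nat_lit 14) (nat_lit 4) (nat_lit 295) (nat_lit 249) (nat_lit 236))) (XT.nd (nat_lit 78) (nat_lit 76) (nat_lit 0) (XT.lf (nat_lit 0) (nat_lit 2990890236) (nat_lit 76) (nat_lit 2255388098) (nat_lit 152) (nat_lit 17007862171) (nat_lit 11) (nat_lit 5) (nat_lit 12)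 (nat_lit 5) (nat_lit 13) (nat_lit 4) (nat_lit 296) (nat_lit 249) (nat_lit 235)) (XT.nd (nat_lit 78) (nat_lit 76) (nat_lit 0) (XT.lf (nat_lit 0) (nat_lit 11656770477) (nat_lit 152) (nat_lit 8049828121) (nat_lit 0) (nat_lit 3979762777) (nat_lit 11) (nat_lit 5) (nat_lit 13) (nat_lit 4) (nat_lit 11) (nat_lit 4) (nat_lit 297) (nat_lit 249) (nat_lit 234)) (XT.lf (nat_lit 0) (nat_lit 3770268757) (nat_lit 76) (nat_lit 14703559396) (nat_lit 76) (nat_lit 6764754751) (nat_lit 10) (nat_lit 4) (nat_lit 11) (nat_lit 5) (nat_lit 11) (nat_lit 4) (nat_lit 298) (nat_lit 249) (nat_lit 233))))) (XT.nd (nat_lit 234) (nat_lit 76) (nat_lit 0) (XT.nd (nat_lit 78) (nat_lit 152) (nat_lit 0) (XT.lf (nat_lit 0) (nat_lit 16466600843) (nat_lit 76) (nat_lit 9316182545) (nat_lit 76) (nat_lit 1134973322) (nat_lit 10) (nat_lit 4) (nat_lit 11) (nat_lit 5) (nat_lit 11) (nat_lit 4) (nat_lit 299) (nat_lit 249) (nat_lit 232))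 (XT.nd (nat_lit 78) (nat_lit 0) (nat_lit 0) (XT.lf (nat_lit 0) (nat_lit 1067827094) (nat_lit 76) (nat_lit 3553385101) (nat_lit 152) (nat_lit 24114566126) (nat_lit 8) (nat_lit 5) (nat_lit 9) (nat_lit 5) (nat_lit 10) (nat_lit 4) (nat_lit 300) (nat_lit 249) (nat_lit 231)) (XT.lf (nat_lit 0) (nat_lit 10849189609) (nat_lit 152) (nat_lit 17200776732) (nat_lit 0) (nat_lit 2645874597) (nat_lit 8) (nat_lit 5) (nat_lit 10) (nat_lit 4) (nat_lit 8) (nat_lit 4) (nat_lit 301) (nat_lit 249) (nat_lit 230)))) (XT.nd (nat_lit 78) (nat_lit 76) (nat_lit 0) (XT.lf (nat_lit 0) (nat_lit 17472173203) (nat_lit 152) (nat_lit 6260180587) (nat_lit 0) (nat_lit 9085592887) (nat_lit 8) (nat_lit 5) (nat_lit 10) (nat_lit 4) (nat_lit 8) (nat_lit 4) (nat_lit 302) (nat_lit 249) (nat_lit 229)) (XT.nd (nat_lit 78) (nat_lit 0) (nat_lit 0) (XT.lf (nat_lit 0) (nat_lit 5448535842) (nat_lit 76) (nat_lit 19110463059) (nat_lit 76)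 (nat_lit 10554192647) (nat_lit 7) (nat_lit 4) (nat_lit 8) (nat_lit 5) (nat_lit 8) (nat_lit 4) (nat_lit 303) (nat_lit 249) (nat_lit 228)) (XT.lf (nat_lit 0) (nat_lit 18048218316) (nat_lit 76) (nat_lit 14129522818) (nat_lit 76) (nat_lit 5416131946) (nat_lit 7) (nat_lit 4) (nat_lit 8) (nat_lit 5) (nat_lit 8) (nat_lit 4) (nat_lit 304) (nat_lit 249) (nat_lit 227))))))) (XT.nd (nat_lit 780) (nat_lit 152) (nat_lit 0) (XT.nd (nat_lit 390) (nat_lit 76) (nat_lit 0) (XT.nd (nat_lit 156) (nat_lit 0) (nat_lit 0) (XT.nd (nat_lit 78) (nat_lit 152) (nat_lit 0) (XT.lf (nat_lit 0) (nat_lit 31406541778) (nat_lit 76) (nat_lit 8866035573) (nat_lit 76) (nat_lit 7162793) (nat_lit 7) (nat_lit 4) (nat_lit 8) (nat_lit 5) (nat_lit 8) (nat_lit 4) (nat_lit 305) (nat_lit 249) (nat_lit 226)) (XT.lf (nat_lit 0) (nat_lit 2403827759) (nat_lit 76) (nat_lit 3155882488) (nat_lit 152) (nat_lit 37620668844) (nat_lit 5) (nat_lit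 5) (nat_lit 6) (nat_lit 5) (nat_lit 7) (nat_lit 4) (nat_lit 306) (nat_lit 249) (nat_lit 225))) (XT.nd (nat_lit 78) (nat_lit 0) (nat_lit 0) (XT.lf (nat_lit 0) (nat_lit 11654346548) (nat_lit 152) (nat_lit 31684387071) (nat_lit 0) (nat_lit 2970246038) (nat_lit 5) (nat_lit 5) (nat_lit 7) (nat_lit 4) (nat_lit 5) (nat_lit 4) (nat_lit 307) (nat_lit 249) (nat_lit 224)) (XT.nd (nat_lit 78) (nat_lit 0) (nat_lit 0) (XT.lf (nat_lit 0) (nat_lit 18177314288) (nat_lit 152) (nat_lit 22130336885) (nat_lit 0) (nat_lit 9383224988) (nat_lit 5) (nat_lit 5) (nat_lit 7) (nat_lit 4) (nat_lit 5) (nat_lit 4) (nat_lit 308) (nat_lit 249) (nat_lit 223)) (XT.lf (nat_lit 0) (nat_lit 25117995920) (nat_lit 152) (nat_lit 12008512011) (nat_lit 0) (nat_lit 16222065149) (nat_lit 5) (nat_lit 5) (nat_lit 7) (nat_lit 4) (nat_lit 5) (nat_lit 4) (nat_lit 309) (nat_lit 249) (nat_lit 222))))) (XT.nd (nat_lit 156) (nat_lit 0) (nat_lit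 0) (XT.nd (nat_lit 78) (nat_lit 76) (nat_lit 0) (XT.lf (nat_lit 0) (nat_lit 32517521410) (nat_lit 152) (nat_lit 1258931264) (nat_lit 0) (nat_lit 23527292981) (nat_lit 5) (nat_lit 5) (nat_lit 7) (nat_lit 4) (nat_lit 5) (nat_lit 4) (nat_lit 310) (nat_lit 249) (nat_lit 221)) (XT.lf (nat_lit 0) (nat_lit 10518773000) (nat_lit 76) (nat_lit 30065194322) (nat_lit 76) (nat_lit 20987653246) (nat_lit 4) (nat_lit 4) (nat_lit 5) (nat_lit 5) (nat_lit 5) (nat_lit 4) (nat_lit 311) (nat_lit 249) (nat_lit 220))) (XT.nd (nat_lit 78) (nat_lit 0) (nat_lit 0) (XT.lf (nat_lit 0) (nat_lit 23122463480) (nat_lit 76) (nat_lit 26110022018) (nat_lit 76) (nat_lit 16951635899) (nat_lit 4) (nat_lit 4) (nat_lit 5) (nat_lit 5) (nat_lit 5) (nat_lit 4) (nat_lit 312) (nat_lit 249) (nat_lit 219)) (XT.nd (nat_lit 78) (nat_lit 0) (nat_lit 0) (XT.lf (nat_lit 0) (nat_lit 36585202758) (nat_lit 76) (nat_lit 21908818315) (nat_lit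 76) (nat_lit 12675575674) (nat_lit 4) (nat_lit 4) (nat_lit 5) (nat_lit 5) (nat_lit 5) (nat_lit 4) (nat_lit 313) (nat_lit 249) (nat_lit 218)) (XT.lf (nat_lit 0) (nat_lit 50986770028) (nat_lit 76) (nat_lit 17436687191) (nat_lit 76) (nat_lit 8134132956) (nat_lit 4) (nat_lit 4) (nat_lit 5) (nat_lit 5) (nat_lit 5) (nat_lit 4) (nat_lit 314) (nat_lit 249) (nat_lit 217)))))) (XT.nd (nat_lit 390) (nat_lit 0) (nat_lit 0) (XT.nd (nat_lit 156) (nat_lit 76) (nat_lit 0) (XT.nd (nat_lit 78) (nat_lit 76) (nat_lit 0) (XT.lf (nat_lit 0) (nat_lit 66412507913) (nat_lit 76) (nat_lit 12667127129) (nat_lit 76) (nat_lit 3300395491) (nat_lit 4) (nat_lit 4) (nat_lit 5) (nat_lit 5) (nat_lit 5) (nat_lit 4) (nat_lit 315) (nat_lit 249) (nat_lit 216)) (XT.lf (nat_lit 0) (nat_lit 1794932514) (nat_lit 152) (nat_lit 5746543502) (nat_lit 76) (nat_lit 81128497627) (nat_lit 3) (nat_lit 5) (nat_lit 5) (nat_lit 5) (nat_lit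 4) (nat_lit 4) (nat_lit 316) (nat_lit 249) (nat_lit 215))) (XT.nd (nat_lit 78) (nat_lit 0) (nat_lit 0) (XT.lf (nat_lit 0) (nat_lit 5294240726) (nat_lit 76) (nat_lit 1913280084) (nat_lit 152) (nat_lit 88251644835) (nat_lit 2) (nat_lit 5) (nat_lit 3) (nat_lit 5) (nat_lit 4) (nat_lit 4) (nat_lit 317) (nat_lit 249) (nat_lit 214)) (XT.nd (nat_lit 78) (nat_lit 0) (nat_lit 0) (XT.lf (nat_lit 0) (nat_lit 13162856848) (nat_lit 152) (nat_lit 85538524942) (nat_lit 0) (nat_lit 4084644441) (nat_lit 2) (nat_lit 5) (nat_lit 4) (nat_lit 4) (nat_lit 2) (nat_lit 4) (nat_lit 318) (nat_lit 249) (nat_lit 213)) (XT.lf (nat_lit 0) (nat_lit 19574074308) (nat_lit 152) (nat_lit 80675071488) (nat_lit 0) (nat_lit 10450935896) (nat_lit 2) (nat_lit 5) (nat_lit 4) (nat_lit 4) (nat_lit 2) (nat_lit 4) (nat_lit 319) (nat_lit 249) (nat_lit 212))))) (XT.nd (nat_lit 234) (nat_lit 0) (nat_lit 0) (XT.nd (nat_lit 78) (nat_lit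 0) (nat_lit 0) (XT.lf (nat_lit 0) (nat_lit 26449293928) (nat_lit 152) (nat_lit 75515872430) (nat_lit 0) (nat_lit 17284557361) (nat_lit 2) (nat_lit 5) (nat_lit 4) (nat_lit 4) (nat_lit 2) (nat_lit 4) (nat_lit 320) (nat_lit 249) (nat_lit 211)) (XT.nd (nat_lit 78) (nat_lit 0) (nat_lit 0) (XT.lf (nat_lit 0) (nat_lit 33829257748) (nat_lit 152) (nat_lit 70030354735) (nat_lit 0) (nat_lit 24626004373) (nat_lit 2) (nat_lit 5) (nat_lit 4) (nat_lit 4) (nat_lit 2) (nat_lit 4) (nat_lit 321) (nat_lit 249) (nat_lit 210)) (XT.lf (nat_lit 0) (nat_lit 41757698890) (nat_lit 152) (nat_lit 64186011632) (nat_lit 0) (nat_lit 32518781802) (nat_lit 2) (nat_lit 5) (nat_lit 4) (nat_lit 4) (nat_lit 2) (nat_lit 4) (nat_lit 322) (nat_lit 249) (nat_lit 209)))) (XT.nd (nat_lit 78) (nat_lit 0) (nat_lit 0) (XT.lf (nat_lit 0) (nat_lit 50281600706) (nat_lit 152) (nat_lit 57948209977) (nat_lit 0) (nat_lit 41009661663) (nat_lit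 2) (nat_lit 5) (nat_lit 4) (nat_lit 4) (nat_lit 2) (nat_lit 4) (nat_lit 323) (nat_lit 249) (nat_lit 208)) (XT.nd (nat_lit 78) (nat_lit 0) (nat_lit 0) (XT.lf (nat_lit 0) (nat_lit 59451475208) (nat_lit 152) (nat_lit 51279985020) (nat_lit 0) (nat_lit 50148960280) (nat_lit 2) (nat_lit 5) (nat_lit 4) (nat_lit 4) (nat_lit 2) (nat_lit 4) (nat_lit 324) (nat_lit 249) (nat_lit 207)) (XT.lf (nat_lit 0) (nat_lit 69321662393) (nat_lit 152) (nat_lit 44141821352) (nat_lit 0) (nat_lit 59990836461) (nat_lit 2) (nat_lit 5) (nat_lit 4) (nat_lit 4) (nat_lit 2) (nat_lit 4) (nat_lit 325) (nat_lit 249) (nat_lit 206))))))))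
noncomputable def xc28 : XT := (XT.nd (nat_lit 1560) (nat_lit 0) (nat_lit 0) (XT.nd (nat_lit 780) (nat_lit 0) (nat_lit 0) (XT.nd (nat_lit 390) (nat_lit 0) (nat_lit 0) (XT.nd (nat_lit 156) (nat_lit 76) (nat_lit 0) (XT.nd (nat_lit 78) (nat_lit 0) (nat_lit 0) (XT.lf (nat_lit 0) (nat_lit 79950652260) (nat_lit 152) (nat_lit 36491418745) (nat_lit 0) (nat_lit 70593612435) (nat_lit 2) (nat_lit 5) (nat_lit 4) (nat_lit 4) (nat_lit 2) (nat_lit 4) (nat_lit 326) (nat_lit 249) (nat_lit 205)) (XT.lf (nat_lit 0) (nat_lit 91401431414) (nat_lit 152) (nat_lit 28283441480) (nat_lit 0) (nat_lit 82020119465) (nat_lit 2) (nat_lit 5) (nat_lit 4) (nat_lit 4) (nat_lit 2) (nat_lit 4) (nat_lit 327) (nat_lit 249) (nat_lit 204))) (XT.nd (nat_lit 78) (nat_lit 76) (nat_lit 0) (XT.lf (nat_lit 0) (nat_lit 103741856325) (nat_lit 152) (nat_lit 19469249692) (nat_lit 0) (nat_lit 94338070188) (nat_lit 2) (nat_lit 5) (nat_lit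 4) (nat_lit 4) (nat_lit 2) (nat_lit 4) (nat_lit 328) (nat_lit 249) (nat_lit 203)) (XT.nd (nat_lit 78) (nat_lit 76) (nat_lit 0) (XT.lf (nat_lit 0) (nat_lit 117045055436) (nat_lit 152) (nat_lit 9996611132) (nat_lit 0) (nat_lit 107620459867) (nat_lit 2) (nat_lit 5) (nat_lit 4) (nat_lit 4) (nat_lit 2) (nat_lit 4) (nat_lit 329) (nat_lit 249) (nat_lit 202)) (XT.lf (nat_lit 0) (nat_lit 196910725) (nat_lit 76) (nat_lit 131196026124) (nat_lit 76) (nat_lit 121752162560) (nat_lit 1) (nat_lit 4) (nat_lit 2) (nat_lit 5) (nat_lit 2) (nat_lit 4) (nat_lit 330) (nat_lit 249) (nat_lit 201))))) (XT.nd (nat_lit 156) (nat_lit 0) (nat_lit 0) (XT.nd (nat_lit 78) (nat_lit 0) (nat_lit 0) (XT.lf (nat_lit 0) (nat_lit 11521538661) (nat_lit 76) (nat_lit 135519628689) (nat_lit 76) (nat_lit 126057924390) (nat_lit 1) (nat_lit 4) (nat_lit 2) (nat_lit 5) (nat_lit 2) (nat_lit 4) (nat_lit 331) (nat_lit 249) (nat_lit 200))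 (XT.lf (nat_lit 0) (nat_lit 23713848472) (nat_lit 76) (nat_lit 140207393060) (nat_lit 76) (nat_lit 130729169562) (nat_lit 1) (nat_lit 4) (nat_lit 2) (nat_lit 5) (nat_lit 2) (nat_lit 4) (nat_lit 332) (nat_lit 249) (nat_lit 199))) (XT.nd (nat_lit 78) (nat_lit 0) (nat_lit 0) (XT.lf (nat_lit 0) (nat_lit 36846090883) (nat_lit 76) (nat_lit 145287098580) (nat_lit 76) (nat_lit 135793579527) (nat_lit 1) (nat_lit 4) (nat_lit 2) (nat_lit 5) (nat_lit 2) (nat_lit 4) (nat_lit 333) (nat_lit 249) (nat_lit 198)) (XT.nd (nat_lit 78) (nat_lit 0) (nat_lit 0) (XT.lf (nat_lit 0) (nat_lit 50996086588) (nat_lit 76) (nat_lit 150788847209) (nat_lit 76) (nat_lit 141281165605) (nat_lit 1) (nat_lit 4) (nat_lit 2) (nat_lit 5) (nat_lit 2) (nat_lit 4) (nat_lit 334) (nat_lit 249) (nat_lit 197)) (XT.lf (nat_lit 0) (nat_lit 66247687416) (nat_lit 76) (nat_lit 156745241901) (nat_lit 76) (nat_lit 147224446824) (nat_lit 1)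 (nat_lit 4) (nat_lit 2) (nat_lit 5) (nat_lit 2) (nat_lit 4) (nat_lit 335) (nat_lit 249) (nat_lit 196)))))) (XT.nd (nat_lit 390) (nat_lit 0) (nat_lit 0) (XT.nd (nat_lit 156) (nat_lit 0) (nat_lit 0) (XT.nd (nat_lit 78) (nat_lit 0) (nat_lit 0) (XT.lf (nat_lit 0) (nat_lit 82691273221) (nat_lit 76) (nat_lit 163191579809) (nat_lit 76) (nat_lit 153658642628) (nat_lit 1) (nat_lit 4) (nat_lit 2) (nat_lit 5) (nat_lit 2) (nat_lit 4) (nat_lit 336) (nat_lit 249) (nat_lit 195)) (XT.lf (nat_lit 0) (nat_lit 100424287476) (nat_lit 76) (nat_lit 170166061456) (nat_lit 76) (nat_lit 160621881586) (nat_lit 1) (nat_lit 4) (nat_lit 2) (nat_lit 5) (nat_lit 2) (nat_lit 4) (nat_lit 337) (nat_lit 249) (nat_lit 194))) (XT.nd (nat_lit 78) (nat_lit 0) (nat_lit 0) (XT.lf (nat_lit 0) (nat_lit 119551814710) (nat_lit 76) (nat_lit 177710017102) (nat_lit 76) (nat_lit 168155427334) (nat_lit 1) (nat_lit 4) (nat_lit 2) (nat_lit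 5) (nat_lit 2) (nat_lit 4) (nat_lit 338) (nat_lit 249) (nat_lit 193)) (XT.nd (nat_lit 78) (nat_lit 0) (nat_lit 0) (XT.lf (nat_lit 0) (nat_lit 140187203232) (nat_lit 76) (nat_lit 185868151671) (nat_lit 76) (nat_lit 176303923108) (nat_lit 1) (nat_lit 4) (nat_lit 2) (nat_lit 5) (nat_lit 2) (nat_lit 4) (nat_lit 339) (nat_lit 249) (nat_lit 192)) (XT.lf (nat_lit 0) (nat_lit 162452736826) (nat_lit 76) (nat_lit 194688809662) (nat_lit 76) (nat_lit 185115656290) (nat_lit 1) (nat_lit 4) (nat_lit 2) (nat_lit 5) (nat_lit 2) (nat_lit 4) (nat_lit 340) (nat_lit 249) (nat_lit 191))))) (XT.nd (nat_lit 156) (nat_lit 0) (nat_lit 0) (XT.nd (nat_lit 78) (nat_lit 0) (nat_lit 0) (XT.lf (nat_lit 0) (nat_lit 186480359395) (nat_lit 76) (nat_lit 204224261642) (nat_lit 76) (nat_lit 194642844558) (nat_lit 1) (nat_lit 4) (nat_lit 2) (nat_lit 5) (nat_lit 2) (nat_lit 4) (nat_lit 341) (nat_lit 249) (nat_lit 190)) (XT.lf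 (nat_lit 0) (nat_lit 212412456850) (nat_lit 76) (nat_lit 214531013992) (nat_lit 76) (nat_lit 204941945323) (nat_lit 1) (nat_lit 4) (nat_lit 2) (nat_lit 5) (nat_lit 2) (nat_lit 4) (nat_lit 342) (nat_lit 249) (nat_lit 189))) (XT.nd (nat_lit 78) (nat_lit 0) (nat_lit 0) (XT.lf (nat_lit 0) (nat_lit 240402700880) (nat_lit 76) (nat_lit 225670143765) (nat_lit 76) (nat_lit 216073990295) (nat_lit 1) (nat_lit 4) (nat_lit 2) (nat_lit 5) (nat_lit 2) (nat_lit 4) (nat_lit 343) (nat_lit 249) (nat_lit 188)) (XT.nd (nat_lit 78) (nat_lit 0) (nat_lit 0) (XT.lf (nat_lit 0) (nat_lit 270616959598) (nat_lit 76) (nat_lit 237707660618) (nat_lit 76) (nat_lit 228104947146) (nat_lit 1) (nat_lit 4) (nat_lit 2) (nat_lit 5) (nat_lit 2) (nat_lit 4) (nat_lit 344) (nat_lit 249) (nat_lit 187)) (XT.lf (nat_lit 0) (nat_lit 303234280463) (nat_lit 76) (nat_lit 250714897984) (nat_lit 76) (nat_lit 241106110437) (nat_lit 1) (nat_lit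 4) (nat_lit 2) (nat_lit 5) (nat_lit 2) (nat_lit 4) (nat_lit 345) (nat_lit 249) (nat_lit 186))))))) (XT.nd (nat_lit 36036) (nat_lit 0) (nat_lit 760) (XT.nd (nat_lit 35646) (nat_lit 0) (nat_lit 1900) (XT.nd (nat_lit 156) (nat_lit 0) (nat_lit 0) (XT.nd (nat_lit 78) (nat_lit 0) (nat_lit 0) (XT.lf (nat_lit 0) (nat_lit 338447951302) (nat_lit 76) (nat_lit 264768935788) (nat_lit 76) (nat_lit 255154524097) (nat_lit 1) (nat_lit 4) (nat_lit 2) (nat_lit 5) (nat_lit 2) (nat_lit 4) (nat_lit 346) (nat_lit 249) (nat_lit 185)) (XT.lf (nat_lit 0) (nat_lit 376466645720) (nat_lit 76) (nat_lit 279953057217) (nat_lit 76) (nat_lit 270333437985) (nat_lit 1) (nat_lit 4) (nat_lit 2) (nat_lit 5) (nat_lit 2) (nat_lit 4) (nat_lit 347) (nat_lit 249) (nat_lit 184))) (XT.nd (nat_lit 35334) (nat_lit 0) (nat_lit 2812) (XT.lf (nat_lit 0) (nat_lit 417515659684) (nat_lit 76) (nat_lit 296357242250) (nat_lit 76) (nat_lit 286732801222)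 (nat_lit 1) (nat_lit 4) (nat_lit 2) (nat_lit 5) (nat_lit 2) (nat_lit 4) (nat_lit 348) (nat_lit 249) (nat_lit 183)) (XT.nd (nat_lit 78) (nat_lit 228) (nat_lit 0) (XT.lf (nat_lit 0) (nat_lit 1196582513) (nat_lit 228) (nat_lit 2516797097) (nat_lit 0) (nat_lit 1196582513) (nat_lit 41) (nat_lit 5) (nat_lit 44) (nat_lit 4) (nat_lit 41) (nat_lit 4) (nat_lit 280) (nat_lit 250) (nat_lit 250)) (XT.lf (nat_lit 0) (nat_lit 6094469942) (nat_lit 228) (nat_lit 2692405111) (nat_lit 228) (nat_lit 1430374890) (nat_lit 38) (nat_lit 4) (nat_lit 41) (nat_lit 5) (nat_lit 41) (nat_lit 4) (nat_lit 281) (nat_lit 250) (nat_lit 249))))) (XT.nd (nat_lit 156) (nat_lit 456) (nat_lit 0) (XT.nd (nat_lit 78) (nat_lit 228) (nat_lit 0) (XT.lf (nat_lit 0) (nat_lit 4745504240) (nat_lit 228) (nat_lit 3473649989) (nat_lit 0) (nat_lit 2430669266) (nat_lit 35) (nat_lit 5) (nat_lit 38) (nat_lit 4) (nat_lit 35) (nat_lit 4) (nat_lit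 282) (nat_lit 250) (nat_lit 248)) (XT.lf (nat_lit 0) (nat_lit 120093945) (nat_lit 228) (nat_lit 3099106671) (nat_lit 76) (nat_lit 7902916325) (nat_lit 32) (nat_lit 5) (nat_lit 35) (nat_lit 5) (nat_lit 33) (nat_lit 4) (nat_lit 283) (nat_lit 250) (nat_lit 247))) (XT.nd (nat_lit 78) (nat_lit 304) (nat_lit 0) (XT.lf (nat_lit 0) (nat_lit 6301784954) (nat_lit 228) (nat_lit 3124752515) (nat_lit 0) (nat_lit 2207086994) (nat_lit 30) (nat_lit 5) (nat_lit 33) (nat_lit 4) (nat_lit 30) (nat_lit 4) (nat_lit 284) (nat_lit 250) (nat_lit 246)) (XT.nd (nat_lit 78) (nat_lit 76) (nat_lit 0) (XT.lf (nat_lit 0) (nat_lit 672205249) (nat_lit 228) (nat_lit 3558064851) (nat_lit 76) (nat_lit 7960219086) (nat_lit 27) (nat_lit 5) (nat_lit 30) (nat_lit 5) (nat_lit 28) (nat_lit 4) (nat_lit 285) (nat_lit 250) (nat_lit 245)) (XT.lf (nat_lit 0) (nat_lit 6854279909) (nat_lit 152) (nat_lit 4528055610) (nat_lit 0) (nat_lit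 1411281571) (nat_lit 26) (nat_lit 5) (nat_lit 28) (nat_lit 4) (nat_lit 26) (nat_lit 4) (nat_lit 286) (nat_lit 250) (nat_lit 244)))))) (XT.nd (nat_lit 390) (nat_lit 532) (nat_lit 0) (XT.nd (nat_lit 156) (nat_lit 304) (nat_lit 0) (XT.nd (nat_lit 78) (nat_lit 76) (nat_lit 0) (XT.lf (nat_lit 0) (nat_lit 18425102) (nat_lit 228) (nat_lit 6092230971) (nat_lit 76) (nat_lit 7337782740) (nat_lit 23) (nat_lit 5) (nat_lit 26) (nat_lit 5) (nat_lit 24) (nat_lit 4) (nat_lit 287) (nat_lit 250) (nat_lit 243)) (XT.lf (nat_lit 0) (nat_lit 5770262846) (nat_lit 76) (nat_lit 345044558) (nat_lit 152) (nat_lit 8042194263) (nat_lit 22) (nat_lit 5) (nat_lit 23) (nat_lit 5) (nat_lit 24) (nat_lit 4) (nat_lit 288) (nat_lit 250) (nat_lit 242))) (XT.nd (nat_lit 78) (nat_lit 152) (nat_lit 0) (XT.lf (nat_lit 0) (nat_lit 3393078801) (nat_lit 152) (nat_lit 9268613252) (nat_lit 152) (nat_lit 2263744098) (nat_lit 20) (nat_lit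 4) (nat_lit 22) (nat_lit 5) (nat_lit 22) (nat_lit 4) (nat_lit 289) (nat_lit 250) (nat_lit 241)) (XT.nd (nat_lit 78) (nat_lit 0) (nat_lit 0) (XT.lf (nat_lit 0) (nat_lit 110125921) (nat_lit 76) (nat_lit 3613967378) (nat_lit 152) (nat_lit 12034094047) (nat_lit 18) (nat_lit 5) (nat_lit 19) (nat_lit 5) (nat_lit 20) (nat_lit 4) (nat_lit 290) (nat_lit 250) (nat_lit 240)) (XT.lf (nat_lit 0) (nat_lit 10084561483) (nat_lit 152) (nat_lit 4112113969) (nat_lit 0) (nat_lit 2460573158) (nat_lit 18) (nat_lit 5) (nat_lit 20) (nat_lit 4) (nat_lit 18) (nat_lit 4) (nat_lit 291) (nat_lit 250) (nat_lit 239))))) (XT.nd (nat_lit 234) (nat_lit 228) (nat_lit 0) (XT.nd (nat_lit 78) (nat_lit 152) (nat_lit 0) (XT.lf (nat_lit 0) (nat_lit 8100561332) (nat_lit 152) (nat_lit 8789559970) (nat_lit 152) (nat_lit 741477820) (nat_lit 16) (nat_lit 4) (nat_lit 18) (nat_lit 5) (nat_lit 18) (nat_lit 4) (nat_lit 292) (nat_lit 250)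 (nat_lit 238)) (XT.nd (nat_lit 78) (nat_lit 0) (nat_lit 0) (XT.lf (nat_lit 0) (nat_lit 2309408023) (nat_lit 76) (nat_lit 2934577167) (nat_lit 152) (nat_lit 13442451655) (nat_lit 14) (nat_lit 5) (nat_lit 15) (nat_lit 5) (nat_lit 16) (nat_lit 4) (nat_lit 293) (nat_lit 250) (nat_lit 237)) (XT.lf (nat_lit 0) (nat_lit 11669733664) (nat_lit 152) (nat_lit 4871458525) (nat_lit 0) (nat_lit 3284634886) (nat_lit 14) (nat_lit 5) (nat_lit 16) (nat_lit 4) (nat_lit 14) (nat_lit 4) (nat_lit 294) (nat_lit 250) (nat_lit 236)))) (XT.nd (nat_lit 78) (nat_lit 152) (nat_lit 0) (XT.lf (nat_lit 0) (nat_lit 7348222561) (nat_lit 76) (nat_lit 11208328062) (nat_lit 76) (nat_lit 2502601330) (nat_lit 13) (nat_lit 4) (nat_lit 14) (nat_lit 5) (nat_lit 14) (nat_lit 4) (nat_lit 295) (nat_lit 250) (nat_lit 235)) (XT.nd (nat_lit 78) (nat_lit 76) (nat_lit 0) (XT.lf (nat_lit 0) (nat_lit 3363616043) (nat_lit 152) (nat_lit 2107191578)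 (nat_lit 76) (nat_lit 16923851970) (nat_lit 12) (nat_lit 5) (nat_lit 14) (nat_lit 5) (nat_lit 13) (nat_lit 4) (nat_lit 296) (nat_lit 250) (nat_lit 234)) (XT.lf (nat_lit 0) (nat_lit 9591685302) (nat_lit 152) (nat_lit 13488389509) (nat_lit 0) (nat_lit 755979341) (nat_lit 11) (nat_lit 5) (nat_lit 13) (nat_lit 4) (nat_lit 11) (nat_lit 4) (nat_lit 297) (nat_lit 250) (nat_lit 233))))))))
noncomputable def xc29 : XT := (XT.nd (nat_lit 1638) (nat_lit 76) (nat_lit 0) (XT.nd (nat_lit 780) (nat_lit 228) (nat_lit 0) (XT.nd (nat_lit 390) (nat_lit 228) (nat_lit 0) (XT.nd (nat_lit 156) (nat_lit 152) (nat_lit 0) (XT.nd (nat_lit 78) (nat_lit 76) (nat_lit 0) (XT.lf (nat_lit 0) (nat_lit 16259436804) (nat_lit 152) (nat_lit 1955026575) (nat_lit 0) (nat_lit 7181326264) (nat_lit 11) (nat_lit 5) (nat_lit 13) (nat_lit 4) (nat_lit 11) (nat_lit 4) (nat_lit 298) (nat_lit 250) (nat_lit 232)) (XT.lf (nat_lit 0) (nat_lit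 10517818547) (nat_lit 76) (nat_lit 12932818464) (nat_lit 76) (nat_lit 3630259241) (nat_lit 10) (nat_lit 4) (nat_lit 11) (nat_lit 5) (nat_lit 11) (nat_lit 4) (nat_lit 299) (nat_lit 250) (nat_lit 231))) (XT.nd (nat_lit 78) (nat_lit 76) (nat_lit 0) (XT.lf (nat_lit 0) (nat_lit 2107934577) (nat_lit 152) (nat_lit 5189116194) (nat_lit 76) (nat_lit 21608747561) (nat_lit 9) (nat_lit 5) (nat_lit 11) (nat_lit 5) (nat_lit 10) (nat_lit 4) (nat_lit 300) (nat_lit 250) (nat_lit 230)) (XT.nd (nat_lit 78) (nat_lit 0) (nat_lit 0) (XT.lf (nat_lit 0) (nat_lit 6968061991) (nat_lit 76) (nat_lit 1164071003) (nat_lit 152) (nat_lit 22743953689) (nat_lit 8) (nat_lit 5) (nat_lit 9) (nat_lit 5) (nat_lit 10) (nat_lit 4) (nat_lit 301) (nat_lit 250) (nat_lit 229)) (XT.lf (nat_lit 0) (nat_lit 14664315497) (nat_lit 152) (nat_lit 13084597685) (nat_lit 0) (nat_lit 5253853355) (nat_lit 8) (nat_lit 5) (nat_lit 10) (nat_lit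 4) (nat_lit 8) (nat_lit 4) (nat_lit 302) (nat_lit 250) (nat_lit 228))))) (XT.nd (nat_lit 156) (nat_lit 152) (nat_lit 0) (XT.nd (nat_lit 78) (nat_lit 76) (nat_lit 0) (XT.lf (nat_lit 0) (nat_lit 21598827355) (nat_lit 152) (nat_lit 1675586529) (nat_lit 0) (nat_lit 12031244753) (nat_lit 8) (nat_lit 5) (nat_lit 10) (nat_lit 4) (nat_lit 8) (nat_lit 4) (nat_lit 303) (nat_lit 250) (nat_lit 227)) (XT.lf (nat_lit 0) (nat_lit 10748821558) (nat_lit 76) (nat_lit 18377585230) (nat_lit 76) (nat_lit 8664520721) (nat_lit 7) (nat_lit 4) (nat_lit 8) (nat_lit 5) (nat_lit 8) (nat_lit 4) (nat_lit 304) (nat_lit 250) (nat_lit 226))) (XT.nd (nat_lit 78) (nat_lit 152) (nat_lit 0) (XT.lf (nat_lit 0) (nat_lit 23996152493) (nat_lit 76) (nat_lit 13165704206) (nat_lit 76) (nat_lit 3317934227) (nat_lit 7) (nat_lit 4) (nat_lit 8) (nat_lit 5) (nat_lit 8) (nat_lit 4) (nat_lit 305) (nat_lit 250) (nat_lit 225)) (XT.nd (nat_lit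 78) (nat_lit 76) (nat_lit 0) (XT.lf (nat_lit 0) (nat_lit 2261460703) (nat_lit 152) (nat_lit 5336502822) (nat_lit 76) (nat_lit 35789746885) (nat_lit 6) (nat_lit 5) (nat_lit 8) (nat_lit 5) (nat_lit 7) (nat_lit 4) (nat_lit 306) (nat_lit 250) (nat_lit 224)) (XT.lf (nat_lit 0) (nat_lit 6658019915) (nat_lit 76) (nat_lit 1510763211) (nat_lit 152) (nat_lit 38356915621) (nat_lit 5) (nat_lit 5) (nat_lit 6) (nat_lit 5) (nat_lit 7) (nat_lit 4) (nat_lit 307) (nat_lit 250) (nat_lit 223)))))) (XT.nd (nat_lit 390) (nat_lit 152) (nat_lit 0) (XT.nd (nat_lit 156) (nat_lit 76) (nat_lit 0) (XT.nd (nat_lit 78) (nat_lit 0) (nat_lit 0) (XT.lf (nat_lit 0) (nat_lit 14618104230) (nat_lit 152) (nat_lit 30384536267) (nat_lit 0) (nat_lit 4908657527) (nat_lit 5) (nat_lit 5) (nat_lit 7) (nat_lit 4) (nat_lit 5) (nat_lit 4) (nat_lit 308) (nat_lit 250) (nat_lit 222)) (XT.lf (nat_lit 0) (nat_lit 21512434577) (nat_lit 152)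 (nat_lit 20350206642) (nat_lit 0) (nat_lit 11708690215) (nat_lit 5) (nat_lit 5) (nat_lit 7) (nat_lit 4) (nat_lit 5) (nat_lit 4) (nat_lit 309) (nat_lit 250) (nat_lit 221))) (XT.nd (nat_lit 78) (nat_lit 76) (nat_lit 0) (XT.lf (nat_lit 0) (nat_lit 28869042211) (nat_lit 152) (nat_lit 9681640015) (nat_lit 0) (nat_lit 18977985201) (nat_lit 5) (nat_lit 5) (nat_lit 7) (nat_lit 4) (nat_lit 5) (nat_lit 4) (nat_lit 310) (nat_lit 250) (nat_lit 220)) (XT.nd (nat_lit 78) (nat_lit 0) (nat_lit 0) (XT.lf (nat_lit 0) (nat_lit 1740078116) (nat_lit 76) (nat_lit 35018611221) (nat_lit 76) (nat_lit 25046709169) (nat_lit 4) (nat_lit 4) (nat_lit 5) (nat_lit 5) (nat_lit 5) (nat_lit 4) (nat_lit 311) (nat_lit 250) (nat_lit 219)) (XT.lf (nat_lit 0) (nat_lit 14272015500) (nat_lit 76) (nat_lit 31097276603) (nat_lit 76) (nat_lit 21050518028) (nat_lit 4) (nat_lit 4) (nat_lit 5) (nat_lit 5) (nat_lit 5) (nat_lit 4) (nat_lit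 312) (nat_lit 250) (nat_lit 218))))) (XT.nd (nat_lit 234) (nat_lit 152) (nat_lit 0) (XT.nd (nat_lit 78) (nat_lit 0) (nat_lit 0) (XT.lf (nat_lit 0) (nat_lit 27668316725) (nat_lit 76) (nat_lit 26927404090) (nat_lit 76) (nat_lit 16811333921) (nat_lit 4) (nat_lit 4) (nat_lit 5) (nat_lit 5) (nat_lit 5) (nat_lit 4) (nat_lit 313) (nat_lit 250) (nat_lit 217)) (XT.nd (nat_lit 78) (nat_lit 0) (nat_lit 0) (XT.lf (nat_lit 0) (nat_lit 42008367280) (nat_lit 76) (nat_lit 22484283327) (nat_lit 76) (nat_lit 12304035756) (nat_lit 4) (nat_lit 4) (nat_lit 5) (nat_lit 5) (nat_lit 5) (nat_lit 4) (nat_lit 314) (nat_lit 250) (nat_lit 216)) (XT.lf (nat_lit 0) (nat_lit 57377145244) (nat_lit 76) (nat_lit 17741584710) (nat_lit 76) (nat_lit 7501913619) (nat_lit 4) (nat_lit 4) (nat_lit 5) (nat_lit 5) (nat_lit 5) (nat_lit 4) (nat_lit 315) (nat_lit 250) (nat_lit 215)))) (XT.nd (nat_lit 78) (nat_lit 152) (nat_lit 0) (XT.lf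 (nat_lit 0) (nat_lit 73865724855) (nat_lit 76) (nat_lit 12671203357) (nat_lit 76) (nat_lit 2376510488) (nat_lit 4) (nat_lit 4) (nat_lit 5) (nat_lit 5) (nat_lit 5) (nat_lit 4) (nat_lit 316) (nat_lit 250) (nat_lit 214)) (XT.nd (nat_lit 78) (nat_lit 76) (nat_lit 0) (XT.lf (nat_lit 0) (nat_lit 3003245533) (nat_lit 152) (nat_lit 4188985616) (nat_lit 76) (nat_lit 88517709265) (nat_lit 3) (nat_lit 5) (nat_lit 5) (nat_lit 5) (nat_lit 4) (nat_lit 4) (nat_lit 317) (nat_lit 250) (nat_lit 213)) (XT.lf (nat_lit 0) (nat_lit 7647392762) (nat_lit 76) (nat_lit 1152706763) (nat_lit 152) (nat_lit 94244634593) (nat_lit 2) (nat_lit 5) (nat_lit 3) (nat_lit 5) (nat_lit 4) (nat_lit 4) (nat_lit 318) (nat_lit 250) (nat_lit 212))))))) (XT.nd (nat_lit 780) (nat_lit 76) (nat_lit 0) (XT.nd (nat_lit 390) (nat_lit 0) (nat_lit 0) (XT.nd (nat_lit 156) (nat_lit 0) (nat_lit 0) (XT.nd (nat_lit 78) (nat_lit 0) (nat_lit 0)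 (XT.lf (nat_lit 0) (nat_lit 15169812677) (nat_lit 152) (nat_lit 90560761436) (nat_lit 0) (nat_lit 5230299032) (nat_lit 2) (nat_lit 5) (nat_lit 4) (nat_lit 4) (nat_lit 2) (nat_lit 4) (nat_lit 319) (nat_lit 250) (nat_lit 211)) (XT.lf (nat_lit 0) (nat_lit 22023266254) (nat_lit 152) (nat_lit 85443109151) (nat_lit 0) (nat_lit 12045235800) (nat_lit 2) (nat_lit 5) (nat_lit 4) (nat_lit 4) (nat_lit 2) (nat_lit 4) (nat_lit 320) (nat_lit 250) (nat_lit 210))) (XT.nd (nat_lit 78) (nat_lit 0) (nat_lit 0) (XT.lf (nat_lit 0) (nat_lit 29383076332) (nat_lit 152) (nat_lit 79996060690) (nat_lit 0) (nat_lit 19369382166) (nat_lit 2) (nat_lit 5) (nat_lit 4) (nat_lit 4) (nat_lit 2) (nat_lit 4) (nat_lit 321) (nat_lit 250) (nat_lit 209)) (XT.nd (nat_lit 78) (nat_lit 0) (nat_lit 0) (XT.lf (nat_lit 0) (nat_lit 37292856600) (nat_lit 152) (nat_lit 74187337249) (nat_lit 0) (nat_lit 27246140478) (nat_lit 2) (nat_lit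 5) (nat_lit 4) (nat_lit 4) (nat_lit 2) (nat_lit 4) (nat_lit 322) (nat_lit 250) (nat_lit 208)) (XT.lf (nat_lit 0) (nat_lit 45799479830) (nat_lit 152) (nat_lit 67982516762) (nat_lit 0) (nat_lit 35722187823) (nat_lit 2) (nat_lit 5) (nat_lit 4) (nat_lit 4) (nat_lit 2) (nat_lit 4) (nat_lit 323) (nat_lit 250) (nat_lit 207))))) (XT.nd (nat_lit 156) (nat_lit 0) (nat_lit 0) (XT.nd (nat_lit 78) (nat_lit 0) (nat_lit 0) (XT.lf (nat_lit 0) (nat_lit 54953355641) (nat_lit 152) (nat_lit 61344829923) (nat_lit 0) (nat_lit 44847752630) (nat_lit 2) (nat_lit 5) (nat_lit 4) (nat_lit 4) (nat_lit 2) (nat_lit 4) (nat_lit 324) (nat_lit 250) (nat_lit 206)) (XT.lf (nat_lit 0) (nat_lit 64808729224) (nat_lit 152) (nat_lit 54234942291) (nat_lit 0) (nat_lit 54676912320) (nat_lit 2) (nat_lit 5) (nat_lit 4) (nat_lit 4) (nat_lit 2) (nat_lit 4) (nat_lit 325) (nat_lit 250) (nat_lit 205))) (XT.nd (nat_lit 78) (nat_lit 0) (nat_lit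 0) (XT.lf (nat_lit 0) (nat_lit 75424002791) (nat_lit 152) (nat_lit 46610721199) (nat_lit 0) (nat_lit 65267913764) (nat_lit 2) (nat_lit 5) (nat_lit 4) (nat_lit 4) (nat_lit 2) (nat_lit 4) (nat_lit 326) (nat_lit 250) (nat_lit 204)) (XT.nd (nat_lit 78) (nat_lit 0) (nat_lit 0) (XT.lf (nat_lit 0) (nat_lit 86862081669) (nat_lit 152) (nat_lit 38426986077) (nat_lit 0) (nat_lit 76683518453) (nat_lit 2) (nat_lit 5) (nat_lit 4) (nat_lit 4) (nat_lit 2) (nat_lit 4) (nat_lit 327) (nat_lit 250) (nat_lit 203)) (XT.lf (nat_lit 0) (nat_lit 99190747064) (nat_lit 152) (nat_lit 29635240717) (nat_lit 0) (nat_lit 88991374415) (nat_lit 2) (nat_lit 5) (nat_lit 4) (nat_lit 4) (nat_lit 2) (nat_lit 4) (nat_lit 328) (nat_lit 250) (nat_lit 202)))))) (XT.nd (nat_lit 390) (nat_lit 0) (nat_lit 0) (XT.nd (nat_lit 156) (nat_lit 76) (nat_lit 0) (XT.nd (nat_lit 78) (nat_lit 0) (nat_lit 0) (XT.lf (nat_lit 0) (nat_lit 112483057736)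 (nat_lit 152) (nat_lit 20183385888) (nat_lit 0) (nat_lit 102264417093) (nat_lit 2) (nat_lit 5) (nat_lit 4) (nat_lit 4) (nat_lit 2) (nat_lit 4) (nat_lit 329) (nat_lit 250) (nat_lit 201)) (XT.lf (nat_lit 0) (nat_lit 126817782931) (nat_lit 152) (nat_lit 10015410598) (nat_lit 0) (nat_lit 116581301553) (nat_lit 2) (nat_lit 5) (nat_lit 4) (nat_lit 4) (nat_lit 2) (nat_lit 4) (nat_lit 330) (nat_lit 250) (nat_lit 200))) (XT.nd (nat_lit 78) (nat_lit 0) (nat_lit 0) (XT.lf (nat_lit 0) (nat_lit 959654767) (nat_lit 76) (nat_lit 141335197304) (nat_lit 76) (nat_lit 131082196727) (nat_lit 1) (nat_lit 4) (nat_lit 2) (nat_lit 5) (nat_lit 2) (nat_lit 4) (nat_lit 331) (nat_lit 250) (nat_lit 199)) (XT.nd (nat_lit 78) (nat_lit 0) (nat_lit 0) (XT.lf (nat_lit 0) (nat_lit 13134920258) (nat_lit 76) (nat_lit 146031096290) (nat_lit 76) (nat_lit 135762800158) (nat_lit 1) (nat_lit 4) (nat_lit 2) (nat_lit 5) (nat_lit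 2) (nat_lit 4) (nat_lit 332) (nat_lit 250) (nat_lit 198)) (XT.lf (nat_lit 0) (nat_lit 26251380891) (nat_lit 76) (nat_lit 151118333862) (nat_lit 76) (nat_lit 140835875179) (nat_lit 1) (nat_lit 4) (nat_lit 2) (nat_lit 5) (nat_lit 2) (nat_lit 4) (nat_lit 333) (nat_lit 250) (nat_lit 197))))) (XT.nd (nat_lit 234) (nat_lit 0) (nat_lit 0) (XT.nd (nat_lit 78) (nat_lit 0) (nat_lit 0) (XT.lf (nat_lit 0) (nat_lit 40386763839) (nat_lit 76) (nat_lit 156627056612) (nat_lit 76) (nat_lit 146331484456) (nat_lit 1) (nat_lit 4) (nat_lit 2) (nat_lit 5) (nat_lit 2) (nat_lit 4) (nat_lit 334) (nat_lit 250) (nat_lit 196)) (XT.nd (nat_lit 78) (nat_lit 0) (nat_lit 0) (XT.lf (nat_lit 0) (nat_lit 55624834336) (nat_lit 76) (nat_lit 162589908824) (nat_lit 76) (nat_lit 152282194564) (nat_lit 1) (nat_lit 4) (nat_lit 2) (nat_lit 5) (nat_lit 2) (nat_lit 4) (nat_lit 335) (nat_lit 250) (nat_lit 195)) (XT.lf (nat_lit 0) (nat_lit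 72055892057) (nat_lit 76) (nat_lit 169042225918) (nat_lit 76) (nat_lit 158723268968) (nat_lit 1) (nat_lit 4) (nat_lit 2) (nat_lit 5) (nat_lit 2) (nat_lit 4) (nat_lit 336) (nat_lit 250) (nat_lit 194)))) (XT.nd (nat_lit 78) (nat_lit 0) (nat_lit 0) (XT.lf (nat_lit 0) (nat_lit 89777306234) (nat_lit 76) (nat_lit 176022243847) (nat_lit 76) (nat_lit 165692877000) (nat_lit 1) (nat_lit 4) (nat_lit 2) (nat_lit 5) (nat_lit 2) (nat_lit 4) (nat_lit 337) (nat_lit 250) (nat_lit 193)) (XT.nd (nat_lit 78) (nat_lit 0) (nat_lit 0) (XT.lf (nat_lit 0) (nat_lit 108894092655) (nat_lit 76) (nat_lit 183571325681) (nat_lit 76) (nat_lit 173232320040) (nat_lit 1) (nat_lit 4) (nat_lit 2) (nat_lit 5) (nat_lit 2) (nat_lit 4) (nat_lit 338) (nat_lit 250) (nat_lit 192)) (XT.lf (nat_lit 0) (nat_lit 129519535981) (nat_lit 76) (nat_lit 191734206719) (nat_lit 76) (nat_lit 181386276269) (nat_lit 1) (nat_lit 4) (nat_lit 2) (nat_lit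 5) (nat_lit 2) (nat_lit 4) (nat_lit 339) (nat_lit 250) (nat_lit 191))))))))
noncomputable def xc30 : XT := (XT.nd (nat_lit 36660) (nat_lit 0) (nat_lit 304) (XT.nd (nat_lit 35880) (nat_lit 0) (nat_lit 1596) (XT.nd (nat_lit 390) (nat_lit 0) (nat_lit 0) (XT.nd (nat_lit 156) (nat_lit 0) (nat_lit 0) (XT.nd (nat_lit 78) (nat_lit 0) (nat_lit 0) (XT.lf (nat_lit 0) (nat_lit 151775861059) (nat_lit 76) (nat_lit 200559259590) (nat_lit 76) (nat_lit 190203065427) (nat_lit 1) (nat_lit 4) (nat_lit 2) (nat_lit 5) (nat_lit 2) (nat_lit 4) (nat_lit 340) (nat_lit 250) (nat_lit 190)) (XT.lf (nat_lit 0) (nat_lit 175794957224) (nat_lit 76) (nat_lit 210098780903) (nat_lit 76) (nat_lit 199734935154) (nat_lit 1) (nat_lit 4) (nat_lit 2) (nat_lit 5) (nat_lit 2) (nat_lit 4) (nat_lit 341) (nat_lit 250) (nat_lit 189))) (XT.nd (nat_lit 78) (nat_lit 0) (nat_lit 0) (XT.lf (nat_lit 0) (nat_lit 201719159861) (nat_lit 76)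 (nat_lit 220409301154) (nat_lit 76) (nat_lit 210038370605) (nat_lit 1) (nat_lit 4) (nat_lit 2) (nat_lit 5) (nat_lit 2) (nat_lit 4) (nat_lit 342) (nat_lit 250) (nat_lit 188)) (XT.nd (nat_lit 78) (nat_lit 0) (nat_lit 0) (XT.lf (nat_lit 0) (nat_lit 229702093875) (nat_lit 76) (nat_lit 231551919724) (nat_lit 76) (nat_lit 221174429174) (nat_lit 1) (nat_lit 4) (nat_lit 2) (nat_lit 5) (nat_lit 2) (nat_lit 4) (nat_lit 343) (nat_lit 250) (nat_lit 187)) (XT.lf (nat_lit 0) (nat_lit 259909584059) (nat_lit 76) (nat_lit 243592666945) (nat_lit 76) (nat_lit 233209102319) (nat_lit 1) (nat_lit 4) (nat_lit 2) (nat_lit 5) (nat_lit 2) (nat_lit 4) (nat_lit 344) (nat_lit 250) (nat_lit 186))))) (XT.nd (nat_lit 156) (nat_lit 0) (nat_lit 0) (XT.nd (nat_lit 78) (nat_lit 0) (nat_lit 0) (XT.lf (nat_lit 0) (nat_lit 292520637763) (nat_lit 76) (nat_lit 256602895392) (nat_lit 76) (nat_lit 246213706622) (nat_lit 1) (nat_lit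 4) (nat_lit 2) (nat_lit 5) (nat_lit 2) (nat_lit 4) (nat_lit 345) (nat_lit 250) (nat_lit 185)) (XT.lf (nat_lit 0) (nat_lit 327728505674) (nat_lit 76) (nat_lit 270659702715) (nat_lit 76) (nat_lit 260265306405) (nat_lit 1) (nat_lit 4) (nat_lit 2) (nat_lit 5) (nat_lit 2) (nat_lit 4) (nat_lit 346) (nat_lit 250) (nat_lit 184))) (XT.nd (nat_lit 78) (nat_lit 0) (nat_lit 0) (XT.lf (nat_lit 0) (nat_lit 365741827012) (nat_lit 76) (nat_lit 285846388515) (nat_lit 76) (nat_lit 275447170407) (nat_lit 1) (nat_lit 4) (nat_lit 2) (nat_lit 5) (nat_lit 2) (nat_lit 4) (nat_lit 347) (nat_lit 250) (nat_lit 183)) (XT.nd (nat_lit 35178) (nat_lit 0) (nat_lit 3496) (XT.lf (nat_lit 0) (nat_lit 406785865901) (nat_lit 76) (nat_lit 302252947964) (nat_lit 76) (nat_lit 291849265231) (nat_lit 1) (nat_lit 4) (nat_lit 2) (nat_lit 5) (nat_lit 2) (nat_lit 4) (nat_lit 348) (nat_lit 250) (nat_lit 182)) (XT.lf (nat_lit 0) (nat_lit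 502703069) (nat_lit 304) (nat_lit 3552868432) (nat_lit 0) (nat_lit 502703069) (nat_lit 47) (nat_lit 5) (nat_lit 51) (nat_lit 4) (nat_lit 47) (nat_lit 4) (nat_lit 278) (nat_lit 251) (nat_lit 251)))))) (XT.nd (nat_lit 390) (nat_lit 760) (nat_lit 0) (XT.nd (nat_lit 156) (nat_lit 684) (nat_lit 0) (XT.nd (nat_lit 78) (nat_lit 228) (nat_lit 0) (XT.lf (nat_lit 0) (nat_lit 3314067255) (nat_lit 228) (nat_lit 3786784597) (nat_lit 228) (nat_lit 2355642327) (nat_lit 44) (nat_lit 4) (nat_lit 47) (nat_lit 5) (nat_lit 47) (nat_lit 4) (nat_lit 279) (nat_lit 251) (nat_lit 250)) (XT.lf (nat_lit 0) (nat_lit 3567041268) (nat_lit 228) (nat_lit 5320573702) (nat_lit 0) (nat_lit 942018409) (nat_lit 41) (nat_lit 5) (nat_lit 44) (nat_lit 4) (nat_lit 41) (nat_lit 4) (nat_lit 280) (nat_lit 251) (nat_lit 249))) (XT.nd (nat_lit 78) (nat_lit 456) (nat_lit 0) (XT.lf (nat_lit 0) (nat_lit 5523493867) (nat_lit 228) (nat_lit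 4253235115) (nat_lit 228) (nat_lit 459665754) (nat_lit 38) (nat_lit 4) (nat_lit 41) (nat_lit 5) (nat_lit 41) (nat_lit 4) (nat_lit 281) (nat_lit 251) (nat_lit 248)) (XT.nd (nat_lit 78) (nat_lit 228) (nat_lit 0) (XT.lf (nat_lit 0) (nat_lit 5476381630) (nat_lit 228) (nat_lit 4369479721) (nat_lit 0) (nat_lit 832994143) (nat_lit 35) (nat_lit 5) (nat_lit 38) (nat_lit 4) (nat_lit 35) (nat_lit 4) (nat_lit 282) (nat_lit 251) (nat_lit 247)) (XT.lf (nat_lit 0) (nat_lit 615986354) (nat_lit 228) (nat_lit 4334749059) (nat_lit 76) (nat_lit 6209222508) (nat_lit 32) (nat_lit 5) (nat_lit 35) (nat_lit 5) (nat_lit 33) (nat_lit 4) (nat_lit 283) (nat_lit 251) (nat_lit 246))))) (XT.nd (nat_lit 156) (nat_lit 380) (nat_lit 0) (XT.nd (nat_lit 78) (nat_lit 228) (nat_lit 0) (XT.lf (nat_lit 0) (nat_lit 6588534093) (nat_lit 228) (nat_lit 4677383417) (nat_lit 0) (nat_lit 416173977) (nat_lit 30) (nat_lit 5) (nat_lit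 33) (nat_lit 4) (nat_lit 30) (nat_lit 4) (nat_lit 284) (nat_lit 251) (nat_lit 245)) (XT.lf (nat_lit 0) (nat_lit 720918856) (nat_lit 228) (nat_lit 5473539101) (nat_lit 76) (nat_lit 6053558265) (nat_lit 27) (nat_lit 5) (nat_lit 30) (nat_lit 5) (nat_lit 28) (nat_lit 4) (nat_lit 285) (nat_lit 251) (nat_lit 244))) (XT.nd (nat_lit 78) (nat_lit 304) (nat_lit 0) (XT.lf (nat_lit 0) (nat_lit 6063409363) (nat_lit 76) (nat_lit 637169377) (nat_lit 152) (nat_lit 6160824018) (nat_lit 26) (nat_lit 5) (nat_lit 27) (nat_lit 5) (nat_lit 28) (nat_lit 4) (nat_lit 286) (nat_lit 251) (nat_lit 243)) (XT.nd (nat_lit 78) (nat_lit 152) (nat_lit 0) (XT.lf (nat_lit 0) (nat_lit 4779529492) (nat_lit 152) (nat_lit 8344913177) (nat_lit 152) (nat_lit 401391557) (nat_lit 24) (nat_lit 4) (nat_lit 26) (nat_lit 5) (nat_lit 26) (nat_lit 4) (nat_lit 287) (nat_lit 251) (nat_lit 242)) (XT.lf (nat_lit 0) (nat_lit 2798445989) (nat_lit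 76) (nat_lit 2728852980) (nat_lit 152) (nat_lit 8717075985) (nat_lit 22) (nat_lit 5) (nat_lit 23) (nat_lit 5) (nat_lit 24) (nat_lit 4) (nat_lit 288) (nat_lit 251) (nat_lit 241))))))) (XT.nd (nat_lit 780) (nat_lit 456) (nat_lit 0) (XT.nd (nat_lit 390) (nat_lit 304) (nat_lit 0) (XT.nd (nat_lit 156) (nat_lit 304) (nat_lit 0) (XT.nd (nat_lit 78) (nat_lit 76) (nat_lit 0) (XT.lf (nat_lit 0) (nat_lit 40259681) (nat_lit 152) (nat_lit 11814355106) (nat_lit 152) (nat_lit 3168752345) (nat_lit 20) (nat_lit 4) (nat_lit 22) (nat_lit 5) (nat_lit 22) (nat_lit 4) (nat_lit 289) (nat_lit 251) (nat_lit 240)) (XT.lf (nat_lit 0) (nat_lit 2720960623) (nat_lit 228) (nat_lit 3548555879) (nat_lit 76) (nat_lit 9593754760) (nat_lit 19) (nat_lit 5) (nat_lit 22) (nat_lit 5) (nat_lit 20) (nat_lit 4) (nat_lit 290) (nat_lit 251) (nat_lit 239))) (XT.nd (nat_lit 78) (nat_lit 228) (nat_lit 0) (XT.lf (nat_lit 0) (nat_lit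 8601753195) (nat_lit 76) (nat_lit 263406253) (nat_lit 152) (nat_lit 7908071669) (nat_lit 18) (nat_lit 5) (nat_lit 19) (nat_lit 5) (nat_lit 20) (nat_lit 4) (nat_lit 291) (nat_lit 251) (nat_lit 238)) (XT.nd (nat_lit 78) (nat_lit 76) (nat_lit 0) (XT.lf (nat_lit 0) (nat_lit 3706820192) (nat_lit 152) (nat_lit 11779384011) (nat_lit 152) (nat_lit 2270681996) (nat_lit 16) (nat_lit 4) (nat_lit 18) (nat_lit 5) (nat_lit 18) (nat_lit 4) (nat_lit 292) (nat_lit 251) (nat_lit 237)) (XT.lf (nat_lit 0) (nat_lit 3619375492) (nat_lit 228) (nat_lit 2452574355) (nat_lit 76) (nat_lit 12748254818) (nat_lit 15) (nat_lit 5) (nat_lit 18) (nat_lit 5) (nat_lit 16) (nat_lit 4) (nat_lit 293) (nat_lit 251) (nat_lit 236))))) (XT.nd (nat_lit 156) (nat_lit 152) (nat_lit 0) (XT.nd (nat_lit 78) (nat_lit 76) (nat_lit 0) (XT.lf (nat_lit 0) (nat_lit 9851511537) (nat_lit 152) (nat_lit 9989129622) (nat_lit 0) (nat_lit 128698713)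 (nat_lit 14) (nat_lit 5) (nat_lit 16) (nat_lit 4) (nat_lit 14) (nat_lit 4) (nat_lit 294) (nat_lit 251) (nat_lit 235)) (XT.lf (nat_lit 0) (nat_lit 1881047824) (nat_lit 76) (nat_lit 14675234687) (nat_lit 76) (nat_lit 4655544127) (nat_lit 13) (nat_lit 4) (nat_lit 14) (nat_lit 5) (nat_lit 14) (nat_lit 4) (nat_lit 295) (nat_lit 251) (nat_lit 234))) (XT.nd (nat_lit 78) (nat_lit 76) (nat_lit 0) (XT.lf (nat_lit 0) (nat_lit 1185884768) (nat_lit 152) (nat_lit 7863513575) (nat_lit 76) (nat_lit 13504353957) (nat_lit 12) (nat_lit 5) (nat_lit 14) (nat_lit 5) (nat_lit 13) (nat_lit 4) (nat_lit 296) (nat_lit 251) (nat_lit 233)) (XT.nd (nat_lit 78) (nat_lit 0) (nat_lit 0) (XT.lf (nat_lit 0) (nat_lit 4251121207) (nat_lit 76) (nat_lit 2968499946) (nat_lit 152) (nat_lit 16785291006) (nat_lit 11) (nat_lit 5) (nat_lit 12) (nat_lit 5) (nat_lit 13) (nat_lit 4) (nat_lit 297) (nat_lit 251) (nat_lit 232)) (XT.lf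 (nat_lit 0) (nat_lit 13757283726) (nat_lit 152) (nat_lit 8327842341) (nat_lit 0) (nat_lit 3486071082) (nat_lit 11) (nat_lit 5) (nat_lit 13) (nat_lit 4) (nat_lit 11) (nat_lit 4) (nat_lit 298) (nat_lit 251) (nat_lit 231)))))) (XT.nd (nat_lit 390) (nat_lit 228) (nat_lit 0) (XT.nd (nat_lit 156) (nat_lit 152) (nat_lit 0) (XT.nd (nat_lit 78) (nat_lit 0) (nat_lit 0) (XT.lf (nat_lit 0) (nat_lit 3787210049) (nat_lit 76) (nat_lit 16978651032) (nat_lit 76) (nat_lit 6499615532) (nat_lit 10) (nat_lit 4) (nat_lit 11) (nat_lit 5) (nat_lit 11) (nat_lit 4) (nat_lit 299) (nat_lit 251) (nat_lit 230)) (XT.lf (nat_lit 0) (nat_lit 16885588586) (nat_lit 76) (nat_lit 11440844417) (nat_lit 76) (nat_lit 769380348) (nat_lit 10) (nat_lit 4) (nat_lit 11) (nat_lit 5) (nat_lit 11) (nat_lit 4) (nat_lit 300) (nat_lit 251) (nat_lit 229))) (XT.nd (nat_lit 78) (nat_lit 76) (nat_lit 0) (XT.lf (nat_lit 0) (nat_lit 5101049309)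 (nat_lit 152) (nat_lit 392487585) (nat_lit 76) (nat_lit 25582119165) (nat_lit 9) (nat_lit 5) (nat_lit 11) (nat_lit 5) (nat_lit 10) (nat_lit 4) (nat_lit 301) (nat_lit 251) (nat_lit 228)) (XT.nd (nat_lit 78) (nat_lit 0) (nat_lit 0) (XT.lf (nat_lit 0) (nat_lit 11491955566) (nat_lit 152) (nat_lit 20715629799) (nat_lit 0) (nat_lit 1001845896) (nat_lit 8) (nat_lit 5) (nat_lit 10) (nat_lit 4) (nat_lit 8) (nat_lit 4) (nat_lit 302) (nat_lit 251) (nat_lit 227)) (XT.lf (nat_lit 0) (nat_lit 18364201751) (nat_lit 152) (nat_lit 9422653921) (nat_lit 0) (nat_lit 7728610174) (nat_lit 8) (nat_lit 5) (nat_lit 10) (nat_lit 4) (nat_lit 8) (nat_lit 4) (nat_lit 303) (nat_lit 251) (nat_lit 226))))) (XT.nd (nat_lit 234) (nat_lit 152) (nat_lit 0) (XT.nd (nat_lit 78) (nat_lit 0) (nat_lit 0) (XT.lf (nat_lit 0) (nat_lit 2634608605) (nat_lit 76) (nat_lit 23072833574) (nat_lit 76) (nat_lit 12302536527) (nat_lit 7) (nat_lit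 4) (nat_lit 8) (nat_lit 5) (nat_lit 8) (nat_lit 4) (nat_lit 304) (nat_lit 251) (nat_lit 225)) (XT.nd (nat_lit 78) (nat_lit 0) (nat_lit 0) (XT.lf (nat_lit 0) (nat_lit 15779168683) (nat_lit 76) (nat_lit 17908736087) (nat_lit 76) (nat_lit 7013711754) (nat_lit 7) (nat_lit 4) (nat_lit 8) (nat_lit 5) (nat_lit 8) (nat_lit 4) (nat_lit 305) (nat_lit 251) (nat_lit 224)) (XT.lf (nat_lit 0) (nat_lit 29777364508) (nat_lit 76) (nat_lit 12423538356) (nat_lit 76) (nat_lit 1413025793) (nat_lit 7) (nat_lit 4) (nat_lit 8) (nat_lit 5) (nat_lit 8) (nat_lit 4) (nat_lit 306) (nat_lit 251) (nat_lit 223)))) (XT.nd (nat_lit 78) (nat_lit 76) (nat_lit 0) (XT.lf (nat_lit 0) (nat_lit 4387635556) (nat_lit 152) (nat_lit 2122793216) (nat_lit 76) (nat_lit 40250206064) (nat_lit 6) (nat_lit 5) (nat_lit 8) (nat_lit 5) (nat_lit 7) (nat_lit 4) (nat_lit 307) (nat_lit 251) (nat_lit 222)) (XT.nd (nat_lit 78) (nat_lit 0) (nat_lit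 0) (XT.lf (nat_lit 0) (nat_lit 10673074004) (nat_lit 76) (nat_lit 4746801) (nat_lit 152) (nat_lit 39476389027) (nat_lit 5) (nat_lit 5) (nat_lit 6) (nat_lit 5) (nat_lit 7) (nat_lit 4) (nat_lit 308) (nat_lit 251) (nat_lit 221)) (XT.lf (nat_lit 0) (nat_lit 17529159186) (nat_lit 152) (nat_lit 29527746211) (nat_lit 0) (nat_lit 6759504969) (nat_lit 5) (nat_lit 5) (nat_lit 7) (nat_lit 4) (nat_lit 5) (nat_lit 4) (nat_lit 309) (nat_lit 251) (nat_lit 220))))))))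
noncomputable def xc31 : XT := (XT.nd (nat_lit 1638) (nat_lit 76) (nat_lit 0) (XT.nd (nat_lit 780) (nat_lit 0) (nat_lit 0) (XT.nd (nat_lit 390) (nat_lit 152) (nat_lit 0) (XT.nd (nat_lit 156) (nat_lit 76) (nat_lit 0) (XT.nd (nat_lit 78) (nat_lit 0) (nat_lit 0) (XT.lf (nat_lit 0) (nat_lit 24846028063) (nat_lit 152) (nat_lit 18934192657) (nat_lit 0) (nat_lit 13995528803) (nat_lit 5) (nat_lit 5) (nat_lit 7) (nat_lit 4) (nat_lit 5) (nat_lit 4) (nat_lit 310) (nat_lit 251) (nat_lit 219)) (XT.lf (nat_lit 0) (nat_lit 32671712550) (nat_lit 152) (nat_lit 7637624441) (nat_lit 0) (nat_lit 21746356768) (nat_lit 5) (nat_lit 5) (nat_lit 7) (nat_lit 4) (nat_lit 5) (nat_lit 4) (nat_lit 311) (nat_lit 251) (nat_lit 218))) (XT.nd (nat_lit 78) (nat_lit 0) (nat_lit 0) (XT.lf (nat_lit 0) (nat_lit 4575340532) (nat_lit 76) (nat_lit 36548680429) (nat_lit 76) (nat_lit 25554013053) (nat_lit 4) (nat_lit 4) (nat_lit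 5) (nat_lit 5) (nat_lit 5) (nat_lit 4) (nat_lit 312) (nat_lit 251) (nat_lit 217)) (XT.nd (nat_lit 78) (nat_lit 0) (nat_lit 0) (XT.lf (nat_lit 0) (nat_lit 17910125042) (nat_lit 76) (nat_lit 32407818277) (nat_lit 76) (nat_lit 21348973499) (nat_lit 4) (nat_lit 4) (nat_lit 5) (nat_lit 5) (nat_lit 5) (nat_lit 4) (nat_lit 313) (nat_lit 251) (nat_lit 216)) (XT.lf (nat_lit 0) (nat_lit 32193215676) (nat_lit 76) (nat_lit 27991558960) (nat_lit 76) (nat_lit 16873290661) (nat_lit 4) (nat_lit 4) (nat_lit 5) (nat_lit 5) (nat_lit 5) (nat_lit 4) (nat_lit 314) (nat_lit 251) (nat_lit 215))))) (XT.nd (nat_lit 156) (nat_lit 152) (nat_lit 0) (XT.nd (nat_lit 78) (nat_lit 0) (nat_lit 0) (XT.lf (nat_lit 0) (nat_lit 47509252971) (nat_lit 76) (nat_lit 23273732051) (nat_lit 76) (nat_lit 12100441975) (nat_lit 4) (nat_lit 4) (nat_lit 5) (nat_lit 5) (nat_lit 5) (nat_lit 4) (nat_lit 315) (nat_lit 251) (nat_lit 214))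 (XT.lf (nat_lit 0) (nat_lit 63948998630) (nat_lit 76) (nat_lit 18226380059) (nat_lit 76) (nat_lit 7002143892) (nat_lit 4) (nat_lit 4) (nat_lit 5) (nat_lit 5) (nat_lit 5) (nat_lit 4) (nat_lit 316) (nat_lit 251) (nat_lit 213))) (XT.nd (nat_lit 78) (nat_lit 152) (nat_lit 0) (XT.lf (nat_lit 0) (nat_lit 81609873368) (nat_lit 76) (nat_lit 12819592748) (nat_lit 76) (nat_lit 1548184275) (nat_lit 4) (nat_lit 4) (nat_lit 5) (nat_lit 5) (nat_lit 5) (nat_lit 4) (nat_lit 317) (nat_lit 251) (nat_lit 212)) (XT.nd (nat_lit 78) (nat_lit 76) (nat_lit 0) (XT.lf (nat_lit 0) (nat_lit 4156329608) (nat_lit 152) (nat_lit 2794610838) (nat_lit 76) (nat_lit 96369815159) (nat_lit 3) (nat_lit 5) (nat_lit 5) (nat_lit 5) (nat_lit 4) (nat_lit 4) (nat_lit 318) (nat_lit 251) (nat_lit 211)) (XT.lf (nat_lit 0) (nat_lit 9913516124) (nat_lit 76) (nat_lit 461627928) (nat_lit 152) (nat_lit 100869303244) (nat_lit 2) (nat_lit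 5) (nat_lit 3) (nat_lit 5) (nat_lit 4) (nat_lit 4) (nat_lit 319) (nat_lit 251) (nat_lit 210)))))) (XT.nd (nat_lit 390) (nat_lit 0) (nat_lit 0) (XT.nd (nat_lit 156) (nat_lit 0) (nat_lit 0) (XT.nd (nat_lit 78) (nat_lit 0) (nat_lit 0) (XT.lf (nat_lit 0) (nat_lit 17201236581) (nat_lit 152) (nat_lit 96244540816) (nat_lit 0) (nat_lit 6350783170) (nat_lit 2) (nat_lit 5) (nat_lit 4) (nat_lit 4) (nat_lit 2) (nat_lit 4) (nat_lit 320) (nat_lit 251) (nat_lit 209)) (XT.lf (nat_lit 0) (nat_lit 24542385786) (nat_lit 152) (nat_lit 90833112018) (nat_lit 0) (nat_lit 13658910419) (nat_lit 2) (nat_lit 5) (nat_lit 4) (nat_lit 4) (nat_lit 2) (nat_lit 4) (nat_lit 321) (nat_lit 251) (nat_lit 208))) (XT.nd (nat_lit 78) (nat_lit 0) (nat_lit 0) (XT.lf (nat_lit 0) (nat_lit 32434887468) (nat_lit 152) (nat_lit 85057369745) (nat_lit 0) (nat_lit 21520836216) (nat_lit 2) (nat_lit 5) (nat_lit 4) (nat_lit 4) (nat_lit 2)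 (nat_lit 4) (nat_lit 322) (nat_lit 251) (nat_lit 207)) (XT.nd (nat_lit 78) (nat_lit 0) (nat_lit 0) (XT.lf (nat_lit 0) (nat_lit 40925512007) (nat_lit 152) (nat_lit 78883087376) (nat_lit 0) (nat_lit 29983149750) (nat_lit 2) (nat_lit 5) (nat_lit 4) (nat_lit 4) (nat_lit 2) (nat_lit 4) (nat_lit 323) (nat_lit 251) (nat_lit 206)) (XT.lf (nat_lit 0) (nat_lit 50064574215) (nat_lit 152) (nat_lit 72273676573) (nat_lit 0) (nat_lit 39095998066) (nat_lit 2) (nat_lit 5) (nat_lit 4) (nat_lit 4) (nat_lit 2) (nat_lit 4) (nat_lit 324) (nat_lit 251) (nat_lit 205))))) (XT.nd (nat_lit 234) (nat_lit 0) (nat_lit 0) (XT.nd (nat_lit 78) (nat_lit 0) (nat_lit 0) (XT.lf (nat_lit 0) (nat_lit 59906231499) (nat_lit 152) (nat_lit 65189970455) (nat_lit 0) (nat_lit 48913383226) (nat_lit 2) (nat_lit 5) (nat_lit 4) (nat_lit 4) (nat_lit 2) (nat_lit 4) (nat_lit 325) (nat_lit 251) (nat_lit 204)) (XT.nd (nat_lit 78) (nat_lit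 0) (nat_lit 0) (XT.lf (nat_lit 0) (nat_lit 70508804790) (nat_lit 152) (nat_lit 57589991506) (nat_lit 0) (nat_lit 59493482329) (nat_lit 2) (nat_lit 5) (nat_lit 4) (nat_lit 4) (nat_lit 2) (nat_lit 4) (nat_lit 326) (nat_lit 251) (nat_lit 203)) (XT.lf (nat_lit 0) (nat_lit 81935124152) (nat_lit 152) (nat_lit 49428702813) (nat_lit 0) (nat_lit 70898992258) (nat_lit 2) (nat_lit 5) (nat_lit 4) (nat_lit 4) (nat_lit 2) (nat_lit 4) (nat_lit 327) (nat_lit 251) (nat_lit 202)))) (XT.nd (nat_lit 78) (nat_lit 0) (nat_lit 0) (XT.lf (nat_lit 0) (nat_lit 94252901107) (nat_lit 152) (nat_lit 40657741184) (nat_lit 0) (nat_lit 83197501219) (nat_lit 2) (nat_lit 5) (nat_lit 4) (nat_lit 4) (nat_lit 2) (nat_lit 4) (nat_lit 328) (nat_lit 251) (nat_lit 201)) (XT.nd (nat_lit 78) (nat_lit 0) (nat_lit 0) (XT.lf (nat_lit 0) (nat_lit 107535129890) (nat_lit 152) (nat_lit 31225130550) (nat_lit 0) (nat_lit 96461889266) (nat_lit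 2) (nat_lit 5) (nat_lit 4) (nat_lit 4) (nat_lit 2) (nat_lit 4) (nat_lit 329) (nat_lit 251) (nat_lit 200)) (XT.lf (nat_lit 0) (nat_lit 121860520003) (nat_lit 152) (nat_lit 21074973958) (nat_lit 0) (nat_lit 110770760180) (nat_lit 2) (nat_lit 5) (nat_lit 4) (nat_lit 4) (nat_lit 2) (nat_lit 4) (nat_lit 330) (nat_lit 251) (nat_lit 199))))))) (XT.nd (nat_lit 780) (nat_lit 0) (nat_lit 0) (XT.nd (nat_lit 390) (nat_lit 0) (nat_lit 0) (XT.nd (nat_lit 156) (nat_lit 0) (nat_lit 0) (XT.nd (nat_lit 78) (nat_lit 76) (nat_lit 0) (XT.lf (nat_lit 0) (nat_lit 137313962648) (nat_lit 152) (nat_lit 10147122334) (nat_lit 0) (nat_lit 126208907270) (nat_lit 2) (nat_lit 5) (nat_lit 4) (nat_lit 4) (nat_lit 2) (nat_lit 4) (nat_lit 331) (nat_lit 251) (nat_lit 198)) (XT.lf (nat_lit 0) (nat_lit 1676851689) (nat_lit 76) (nat_lit 152336362446) (nat_lit 76) (nat_lit 141217144518) (nat_lit 1) (nat_lit 4) (nat_lit 2) (nat_lit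 5) (nat_lit 2) (nat_lit 4) (nat_lit 332) (nat_lit 251) (nat_lit 197))) (XT.nd (nat_lit 78) (nat_lit 0) (nat_lit 0) (XT.lf (nat_lit 0) (nat_lit 14778699564) (nat_lit 76) (nat_lit 157430574139) (nat_lit 76) (nat_lit 146298242738) (nat_lit 1) (nat_lit 4) (nat_lit 2) (nat_lit 5) (nat_lit 2) (nat_lit 4) (nat_lit 333) (nat_lit 251) (nat_lit 196)) (XT.nd (nat_lit 78) (nat_lit 0) (nat_lit 0) (XT.lf (nat_lit 0) (nat_lit 28900552182) (nat_lit 76) (nat_lit 162945754409) (nat_lit 76) (nat_lit 151801280904) (nat_lit 1) (nat_lit 4) (nat_lit 2) (nat_lit 5) (nat_lit 2) (nat_lit 4) (nat_lit 334) (nat_lit 251) (nat_lit 195)) (XT.lf (nat_lit 0) (nat_lit 44126094594) (nat_lit 76) (nat_lit 168914585806) (nat_lit 76) (nat_lit 157758869611) (nat_lit 1) (nat_lit 4) (nat_lit 2) (nat_lit 5) (nat_lit 2) (nat_lit 4) (nat_lit 335) (nat_lit 251) (nat_lit 194))))) (XT.nd (nat_lit 156) (nat_lit 0) (nat_lit 0) (XT.nd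 (nat_lit 78) (nat_lit 0) (nat_lit 0) (XT.lf (nat_lit 0) (nat_lit 60545552238) (nat_lit 76) (nat_lit 175372439183) (nat_lit 76) (nat_lit 164206313090) (nat_lit 1) (nat_lit 4) (nat_lit 2) (nat_lit 5) (nat_lit 2) (nat_lit 4) (nat_lit 336) (nat_lit 251) (nat_lit 193)) (XT.lf (nat_lit 0) (nat_lit 78256225603) (nat_lit 76) (nat_lit 182357583300) (nat_lit 76) (nat_lit 171181818413) (nat_lit 1) (nat_lit 4) (nat_lit 2) (nat_lit 5) (nat_lit 2) (nat_lit 4) (nat_lit 337) (nat_lit 251) (nat_lit 192))) (XT.nd (nat_lit 78) (nat_lit 0) (nat_lit 0) (XT.lf (nat_lit 0) (nat_lit 97363066827) (nat_lit 76) (nat_lit 189911411603) (nat_lit 76) (nat_lit 178726721908) (nat_lit 1) (nat_lit 4) (nat_lit 2) (nat_lit 5) (nat_lit 2) (nat_lit 4) (nat_lit 338) (nat_lit 251) (nat_lit 191)) (XT.nd (nat_lit 78) (nat_lit 0) (nat_lit 0) (XT.lf (nat_lit 0) (nat_lit 117979301636) (nat_lit 76) (nat_lit 198078687521) (nat_lit 76)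 (nat_lit 186885734113) (nat_lit 1) (nat_lit 4) (nat_lit 2) (nat_lit 5) (nat_lit 2) (nat_lit 4) (nat_lit 339) (nat_lit 251) (nat_lit 190)) (XT.lf (nat_lit 0) (nat_lit 140227100311) (nat_lit 76) (nat_lit 206907809725) (nat_lit 76) (nat_lit 195707204731) (nat_lit 1) (nat_lit 4) (nat_lit 2) (nat_lit 5) (nat_lit 2) (nat_lit 4) (nat_lit 340) (nat_lit 251) (nat_lit 189)))))) (XT.nd (nat_lit 390) (nat_lit 0) (nat_lit 0) (XT.nd (nat_lit 156) (nat_lit 0) (nat_lit 0) (XT.nd (nat_lit 78) (nat_lit 0) (nat_lit 0) (XT.lf (nat_lit 0) (nat_lit 164238301658) (nat_lit 76) (nat_lit 216451098939) (nat_lit 76) (nat_lit 205243409144) (nat_lit 1) (nat_lit 4) (nat_lit 2) (nat_lit 5) (nat_lit 2) (nat_lit 4) (nat_lit 341) (nat_lit 251) (nat_lit 188)) (XT.lf (nat_lit 0) (nat_lit 190155194279) (nat_lit 76) (nat_lit 226765107988) (nat_lit 76) (nat_lit 215550858191) (nat_lit 1) (nat_lit 4) (nat_lit 2) (nat_lit 5) (nat_lit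 2) (nat_lit 4) (nat_lit 342) (nat_lit 251) (nat_lit 187))) (XT.nd (nat_lit 78) (nat_lit 0) (nat_lit 0) (XT.lf (nat_lit 0) (nat_lit 218131359759) (nat_lit 76) (nat_lit 237910956925) (nat_lit 76) (nat_lit 226690633054) (nat_lit 1) (nat_lit 4) (nat_lit 2) (nat_lit 5) (nat_lit 2) (nat_lit 4) (nat_lit 343) (nat_lit 251) (nat_lit 186)) (XT.nd (nat_lit 78) (nat_lit 0) (nat_lit 0) (XT.lf (nat_lit 0) (nat_lit 248332582781) (nat_lit 76) (nat_lit 249954695227) (nat_lit 76) (nat_lit 238728747212) (nat_lit 1) (nat_lit 4) (nat_lit 2) (nat_lit 5) (nat_lit 2) (nat_lit 4) (nat_lit 344) (nat_lit 251) (nat_lit 185)) (XT.lf (nat_lit 0) (nat_lit 280937833558) (nat_lit 76) (nat_lit 262967693193) (nat_lit 76) (nat_lit 251736537638) (nat_lit 1) (nat_lit 4) (nat_lit 2) (nat_lit 5) (nat_lit 2) (nat_lit 4) (nat_lit 345) (nat_lit 251) (nat_lit 184))))) (XT.nd (nat_lit 35178) (nat_lit 0) (nat_lit 3496) (XT.nd (nat_lit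 78) (nat_lit 0) (nat_lit 0) (XT.lf (nat_lit 0) (nat_lit 316140328390) (nat_lit 76) (nat_lit 277027064887) (nat_lit 76) (nat_lit 265791087534) (nat_lit 1) (nat_lit 4) (nat_lit 2) (nat_lit 5) (nat_lit 2) (nat_lit 4) (nat_lit 346) (nat_lit 251) (nat_lit 183)) (XT.nd (nat_lit 78) (nat_lit 0) (nat_lit 0) (XT.lf (nat_lit 0) (nat_lit 354148674652) (nat_lit 76) (nat_lit 292216125103) (nat_lit 76) (nat_lit 280975683124) (nat_lit 1) (nat_lit 4) (nat_lit 2) (nat_lit 5) (nat_lit 2) (nat_lit 4) (nat_lit 347) (nat_lit 251) (nat_lit 182)) (XT.lf (nat_lit 0) (nat_lit 395188106991) (nat_lit 76) (nat_lit 308624883087) (nat_lit 76) (nat_lit 297380307194) (nat_lit 1) (nat_lit 4) (nat_lit 2) (nat_lit 5) (nat_lit 2) (nat_lit 4) (nat_lit 348) (nat_lit 251) (nat_lit 181)))) (XT.nd (nat_lit 78) (nat_lit 836) (nat_lit 0) (XT.lf (nat_lit 0) (nat_lit 3958013697) (nat_lit 304) (nat_lit 149692200) (nat_lit 304) (nat_lit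 149692200) (nat_lit 58) (nat_lit 4) (nat_lit 62) (nat_lit 5) (nat_lit 62) (nat_lit 4) (nat_lit 276) (nat_lit 252) (nat_lit 252)) (XT.nd (nat_lit 78) (nat_lit 304) (nat_lit 0) (XT.lf (nat_lit 0) (nat_lit 572207797) (nat_lit 228) (nat_lit 4927890592) (nat_lit 228) (nat_lit 3304975258) (nat_lit 51) (nat_lit 4) (nat_lit 54) (nat_lit 5) (nat_lit 54) (nat_lit 4) (nat_lit 277) (nat_lit 252) (nat_lit 251)) (XT.lf (nat_lit 0) (nat_lit 1734676472) (nat_lit 228) (nat_lit 636197279) (nat_lit 304) (nat_lit 6754970945) (nat_lit 47) (nat_lit 5) (nat_lit 50) (nat_lit 5) (nat_lit 51) (nat_lit 4) (nat_lit 278) (nat_lit 252) (nat_lit 250))))))))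
noncomputable def xc32 : XT := (XT.nd (nat_lit 1560) (nat_lit 608) (nat_lit 0) (XT.nd (nat_lit 780) (nat_lit 912) (nat_lit 0) (XT.nd (nat_lit 390) (nat_lit 684) (nat_lit 0) (XT.nd (nat_lit 156) (nat_lit 684) (nat_lit 0) (XT.nd (nat_lit 78) (nat_lit 228) (nat_lit 0) (XT.lf (nat_lit 0) (nat_lit 2765933786) (nat_lit 228) (nat_lit 5505877495) (nat_lit 228) (nat_lit 1203969840) (nat_lit 44) (nat_lit 4) (nat_lit 47) (nat_lit 5) (nat_lit 47) (nat_lit 4) (nat_lit 279) (nat_lit 252) (nat_lit 249)) (XT.lf (nat_lit 0) (nat_lit 3662141786) (nat_lit 152) (nat_lit 821284197) (nat_lit 228) (nat_lit 5374751197) (nat_lit 41) (nat_lit 5) (nat_lit 43) (nat_lit 5) (nat_lit 44) (nat_lit 4) (nat_lit 280) (nat_lit 252) (nat_lit 248))) (XT.nd (nat_lit 78) (nat_lit 380) (nat_lit 0) (XT.lf (nat_lit 0) (nat_lit 218258049) (nat_lit 304) (nat_lit 5900159910) (nat_lit 76) (nat_lit 4156203799) (nat_lit 37) (nat_lit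 5) (nat_lit 41) (nat_lit 5) (nat_lit 38) (nat_lit 4) (nat_lit 281) (nat_lit 252) (nat_lit 247)) (XT.nd (nat_lit 78) (nat_lit 228) (nat_lit 0) (XT.lf (nat_lit 0) (nat_lit 4840881926) (nat_lit 152) (nat_lit 1105611300) (nat_lit 228) (nat_lit 4780076970) (nat_lit 35) (nat_lit 5) (nat_lit 37) (nat_lit 5) (nat_lit 38) (nat_lit 4) (nat_lit 282) (nat_lit 252) (nat_lit 246)) (XT.lf (nat_lit 0) (nat_lit 826446515) (nat_lit 228) (nat_lit 6188698051) (nat_lit 76) (nat_lit 4202288067) (nat_lit 32) (nat_lit 5) (nat_lit 35) (nat_lit 5) (nat_lit 33) (nat_lit 4) (nat_lit 283) (nat_lit 252) (nat_lit 245))))) (XT.nd (nat_lit 156) (nat_lit 304) (nat_lit 0) (XT.nd (nat_lit 78) (nat_lit 228) (nat_lit 0) (XT.lf (nat_lit 0) (nat_lit 4857622490) (nat_lit 152) (nat_lit 1756305153) (nat_lit 228) (nat_lit 5135048256) (nat_lit 30) (nat_lit 5) (nat_lit 32) (nat_lit 5) (nat_lit 33) (nat_lit 4) (nat_lit 284) (nat_lit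 252) (nat_lit 244)) (XT.lf (nat_lit 0) (nat_lit 472143279) (nat_lit 228) (nat_lit 8040059794) (nat_lit 76) (nat_lit 3813298479) (nat_lit 27) (nat_lit 5) (nat_lit 30) (nat_lit 5) (nat_lit 28) (nat_lit 4) (nat_lit 285) (nat_lit 252) (nat_lit 243))) (XT.nd (nat_lit 78) (nat_lit 228) (nat_lit 0) (XT.lf (nat_lit 0) (nat_lit 3183097928) (nat_lit 76) (nat_lit 3089571385) (nat_lit 152) (nat_lit 6675303147) (nat_lit 26) (nat_lit 5) (nat_lit 27) (nat_lit 5) (nat_lit 28) (nat_lit 4) (nat_lit 286) (nat_lit 252) (nat_lit 242)) (XT.nd (nat_lit 78) (nat_lit 76) (nat_lit 0) (XT.lf (nat_lit 0) (nat_lit 1529775909) (nat_lit 152) (nat_lit 10948876896) (nat_lit 152) (nat_lit 1144763366) (nat_lit 24) (nat_lit 4) (nat_lit 26) (nat_lit 5) (nat_lit 26) (nat_lit 4) (nat_lit 287) (nat_lit 252) (nat_lit 241)) (XT.lf (nat_lit 0) (nat_lit 4639361061) (nat_lit 228) (nat_lit 838789354) (nat_lit 76) (nat_lit 8872908974)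 (nat_lit 23) (nat_lit 5) (nat_lit 26) (nat_lit 5) (nat_lit 24) (nat_lit 4) (nat_lit 288) (nat_lit 252) (nat_lit 240)))))) (XT.nd (nat_lit 390) (nat_lit 304) (nat_lit 0) (XT.nd (nat_lit 156) (nat_lit 304) (nat_lit 0) (XT.nd (nat_lit 78) (nat_lit 228) (nat_lit 0) (XT.lf (nat_lit 0) (nat_lit 10789462318) (nat_lit 152) (nat_lit 3897653757) (nat_lit 0) (nat_lit 451892749) (nat_lit 22) (nat_lit 5) (nat_lit 24) (nat_lit 4) (nat_lit 22) (nat_lit 4) (nat_lit 289) (nat_lit 252) (nat_lit 239)) (XT.lf (nat_lit 0) (nat_lit 1397979054) (nat_lit 228) (nat_lit 7917011022) (nat_lit 76) (nat_lit 6673928785) (nat_lit 19) (nat_lit 5) (nat_lit 22) (nat_lit 5) (nat_lit 20) (nat_lit 4) (nat_lit 290) (nat_lit 252) (nat_lit 238))) (XT.nd (nat_lit 78) (nat_lit 228) (nat_lit 0) (XT.lf (nat_lit 0) (nat_lit 3895302234) (nat_lit 76) (nat_lit 3465909355) (nat_lit 152) (nat_lit 9546794259) (nat_lit 18) (nat_lit 5) (nat_lit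 19) (nat_lit 5) (nat_lit 20) (nat_lit 4) (nat_lit 291) (nat_lit 252) (nat_lit 237)) (XT.nd (nat_lit 78) (nat_lit 228) (nat_lit 0) (XT.lf (nat_lit 0) (nat_lit 13770860277) (nat_lit 152) (nat_lit 1386252902) (nat_lit 0) (nat_lit 2745190534) (nat_lit 18) (nat_lit 5) (nat_lit 20) (nat_lit 4) (nat_lit 18) (nat_lit 4) (nat_lit 292) (nat_lit 252) (nat_lit 236)) (XT.lf (nat_lit 0) (nat_lit 1695173031) (nat_lit 228) (nat_lit 7887224379) (nat_lit 76) (nat_lit 9390891558) (nat_lit 15) (nat_lit 5) (nat_lit 18) (nat_lit 5) (nat_lit 16) (nat_lit 4) (nat_lit 293) (nat_lit 252) (nat_lit 235))))) (XT.nd (nat_lit 156) (nat_lit 228) (nat_lit 0) (XT.nd (nat_lit 78) (nat_lit 0) (nat_lit 0) (XT.lf (nat_lit 0) (nat_lit 4197184576) (nat_lit 76) (nat_lit 3544881420) (nat_lit 152) (nat_lit 12389679923) (nat_lit 14) (nat_lit 5) (nat_lit 15) (nat_lit 5) (nat_lit 16) (nat_lit 4) (nat_lit 294) (nat_lit 252) (nat_lit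 234)) (XT.lf (nat_lit 0) (nat_lit 14272597021) (nat_lit 152) (nat_lit 4230836146) (nat_lit 0) (nat_lit 2879566690) (nat_lit 14) (nat_lit 5) (nat_lit 16) (nat_lit 4) (nat_lit 14) (nat_lit 4) (nat_lit 295) (nat_lit 252) (nat_lit 233))) (XT.nd (nat_lit 78) (nat_lit 152) (nat_lit 0) (XT.lf (nat_lit 0) (nat_lit 8303977846) (nat_lit 76) (nat_lit 13038593803) (nat_lit 76) (nat_lit 1391038665) (nat_lit 13) (nat_lit 4) (nat_lit 14) (nat_lit 5) (nat_lit 14) (nat_lit 4) (nat_lit 296) (nat_lit 252) (nat_lit 232)) (XT.nd (nat_lit 78) (nat_lit 76) (nat_lit 0) (XT.lf (nat_lit 0) (nat_lit 4540518431) (nat_lit 152) (nat_lit 2575163471) (nat_lit 76) (nat_lit 17077554284) (nat_lit 12) (nat_lit 5) (nat_lit 14) (nat_lit 5) (nat_lit 13) (nat_lit 4) (nat_lit 297) (nat_lit 252) (nat_lit 231)) (XT.lf (nat_lit 0) (nat_lit 10251477745) (nat_lit 76) (nat_lit 652384693) (nat_lit 152) (nat_lit 14864416379) (nat_lit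 11) (nat_lit 5) (nat_lit 12) (nat_lit 5) (nat_lit 13) (nat_lit 4) (nat_lit 298) (nat_lit 252) (nat_lit 230))))))) (XT.nd (nat_lit 780) (nat_lit 152) (nat_lit 0) (XT.nd (nat_lit 390) (nat_lit 228) (nat_lit 0) (XT.nd (nat_lit 156) (nat_lit 152) (nat_lit 0) (XT.nd (nat_lit 78) (nat_lit 76) (nat_lit 0) (XT.lf (nat_lit 0) (nat_lit 17771329730) (nat_lit 152) (nat_lit 3644602711) (nat_lit 0) (nat_lit 6053719966) (nat_lit 11) (nat_lit 5) (nat_lit 13) (nat_lit 4) (nat_lit 11) (nat_lit 4) (nat_lit 299) (nat_lit 252) (nat_lit 229)) (XT.lf (nat_lit 0) (nat_lit 9207172553) (nat_lit 76) (nat_lit 15997499111) (nat_lit 76) (nat_lit 4101714745) (nat_lit 10) (nat_lit 4) (nat_lit 11) (nat_lit 5) (nat_lit 11) (nat_lit 4) (nat_lit 300) (nat_lit 252) (nat_lit 228))) (XT.nd (nat_lit 78) (nat_lit 76) (nat_lit 0) (XT.lf (nat_lit 0) (nat_lit 1810923425) (nat_lit 152) (nat_lit 8348367827) (nat_lit 76) (nat_lit 21132793105)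 (nat_lit 9) (nat_lit 5) (nat_lit 11) (nat_lit 5) (nat_lit 10) (nat_lit 4) (nat_lit 301) (nat_lit 252) (nat_lit 227)) (XT.nd (nat_lit 78) (nat_lit 0) (nat_lit 0) (XT.lf (nat_lit 0) (nat_lit 4178080447) (nat_lit 76) (nat_lit 3817820673) (nat_lit 152) (nat_lit 25440284067) (nat_lit 8) (nat_lit 5) (nat_lit 9) (nat_lit 5) (nat_lit 10) (nat_lit 4) (nat_lit 302) (nat_lit 252) (nat_lit 226)) (XT.lf (nat_lit 0) (nat_lit 14750887024) (nat_lit 152) (nat_lit 18012962055) (nat_lit 0) (nat_lit 2984260744) (nat_lit 8) (nat_lit 5) (nat_lit 10) (nat_lit 4) (nat_lit 8) (nat_lit 4) (nat_lit 303) (nat_lit 252) (nat_lit 225))))) (XT.nd (nat_lit 156) (nat_lit 152) (nat_lit 0) (XT.nd (nat_lit 78) (nat_lit 76) (nat_lit 0) (XT.lf (nat_lit 0) (nat_lit 21999611051) (nat_lit 152) (nat_lit 6139505005) (nat_lit 0) (nat_lit 10108257484) (nat_lit 8) (nat_lit 5) (nat_lit 10) (nat_lit 4) (nat_lit 8) (nat_lit 4) (nat_lit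 304) (nat_lit 252) (nat_lit 224)) (XT.lf (nat_lit 0) (nat_lit 6706897108) (nat_lit 76) (nat_lit 23123238074) (nat_lit 76) (nat_lit 11116396278) (nat_lit 7) (nat_lit 4) (nat_lit 8) (nat_lit 5) (nat_lit 8) (nat_lit 4) (nat_lit 305) (nat_lit 252) (nat_lit 223))) (XT.nd (nat_lit 78) (nat_lit 152) (nat_lit 0) (XT.lf (nat_lit 0) (nat_lit 20616983487) (nat_lit 76) (nat_lit 17679007024) (nat_lit 76) (nat_lit 5565231683) (nat_lit 7) (nat_lit 4) (nat_lit 8) (nat_lit 5) (nat_lit 8) (nat_lit 4) (nat_lit 306) (nat_lit 252) (nat_lit 222)) (XT.nd (nat_lit 78) (nat_lit 76) (nat_lit 0) (XT.lf (nat_lit 0) (nat_lit 323940655) (nat_lit 152) (nat_lit 11548709537) (nat_lit 76) (nat_lit 35140757763) (nat_lit 6) (nat_lit 5) (nat_lit 8) (nat_lit 5) (nat_lit 7) (nat_lit 4) (nat_lit 307) (nat_lit 252) (nat_lit 221)) (XT.lf (nat_lit 0) (nat_lit 856035080) (nat_lit 76) (nat_lit 5563721622) (nat_lit 152) (nat_lit 43996962236)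 (nat_lit 5) (nat_lit 5) (nat_lit 6) (nat_lit 5) (nat_lit 7) (nat_lit 4) (nat_lit 308) (nat_lit 252) (nat_lit 220)))))) (XT.nd (nat_lit 390) (nat_lit 76) (nat_lit 0) (XT.nd (nat_lit 156) (nat_lit 76) (nat_lit 0) (XT.nd (nat_lit 78) (nat_lit 0) (nat_lit 0) (XT.lf (nat_lit 0) (nat_lit 13144565150) (nat_lit 152) (nat_lit 39595516139) (nat_lit 0) (nat_lit 1345180906) (nat_lit 5) (nat_lit 5) (nat_lit 7) (nat_lit 4) (nat_lit 5) (nat_lit 4) (nat_lit 309) (nat_lit 252) (nat_lit 219)) (XT.lf (nat_lit 0) (nat_lit 20424638883) (nat_lit 152) (nat_lit 29071419134) (nat_lit 0) (nat_lit 8550398117) (nat_lit 5) (nat_lit 5) (nat_lit 7) (nat_lit 4) (nat_lit 5) (nat_lit 4) (nat_lit 310) (nat_lit 252) (nat_lit 218))) (XT.nd (nat_lit 78) (nat_lit 76) (nat_lit 0) (XT.lf (nat_lit 0) (nat_lit 28216253792) (nat_lit 152) (nat_lit 17839162538) (nat_lit 0) (nat_lit 16272701432) (nat_lit 5) (nat_lit 5) (nat_lit 7)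 (nat_lit 4) (nat_lit 5) (nat_lit 4) (nat_lit 311) (nat_lit 252) (nat_lit 217)) (XT.nd (nat_lit 78) (nat_lit 76) (nat_lit 0) (XT.lf (nat_lit 0) (nat_lit 36565582410) (nat_lit 152) (nat_lit 5832184830) (nat_lit 0) (nat_lit 24557852647) (nat_lit 5) (nat_lit 5) (nat_lit 7) (nat_lit 4) (nat_lit 5) (nat_lit 4) (nat_lit 312) (nat_lit 252) (nat_lit 216)) (XT.lf (nat_lit 0) (nat_lit 7252801388) (nat_lit 76) (nat_lit 38382537406) (nat_lit 76) (nat_lit 26315384124) (nat_lit 4) (nat_lit 4) (nat_lit 5) (nat_lit 5) (nat_lit 5) (nat_lit 4) (nat_lit 313) (nat_lit 252) (nat_lit 215))))) (XT.nd (nat_lit 234) (nat_lit 76) (nat_lit 0) (XT.nd (nat_lit 78) (nat_lit 0) (nat_lit 0) (XT.lf (nat_lit 0) (nat_lit 21483151354) (nat_lit 76) (nat_lit 33991149798) (nat_lit 76) (nat_lit 21868974737) (nat_lit 4) (nat_lit 4) (nat_lit 5) (nat_lit 5) (nat_lit 5) (nat_lit 4) (nat_lit 314) (nat_lit 252) (nat_lit 214)) (XT.nd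 (nat_lit 78) (nat_lit 0) (nat_lit 0) (XT.lf (nat_lit 0) (nat_lit 36750354697) (nat_lit 76) (nat_lit 29296352249) (nat_lit 76) (nat_lit 17123231098) (nat_lit 4) (nat_lit 4) (nat_lit 5) (nat_lit 5) (nat_lit 5) (nat_lit 4) (nat_lit 315) (nat_lit 252) (nat_lit 213)) (XT.lf (nat_lit 0) (nat_lit 53144883734) (nat_lit 76) (nat_lit 24270323738) (nat_lit 76) (nat_lit 12050030280) (nat_lit 4) (nat_lit 4) (nat_lit 5) (nat_lit 5) (nat_lit 5) (nat_lit 4) (nat_lit 316) (nat_lit 252) (nat_lit 212)))) (XT.nd (nat_lit 78) (nat_lit 76) (nat_lit 0) (XT.lf (nat_lit 0) (nat_lit 70763891229) (nat_lit 76) (nat_lit 18883280392) (nat_lit 76) (nat_lit 6619308873) (nat_lit 4) (nat_lit 4) (nat_lit 5) (nat_lit 5) (nat_lit 5) (nat_lit 4) (nat_lit 317) (nat_lit 252) (nat_lit 211)) (XT.nd (nat_lit 78) (nat_lit 76) (nat_lit 0) (XT.lf (nat_lit 0) (nat_lit 89711786116) (nat_lit 76) (nat_lit 13103298991) (nat_lit 76) (nat_lit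 798884822) (nat_lit 4) (nat_lit 4) (nat_lit 5) (nat_lit 5) (nat_lit 5) (nat_lit 4) (nat_lit 318) (nat_lit 252) (nat_lit 210)) (XT.lf (nat_lit 0) (nat_lit 5271435798) (nat_lit 152) (nat_lit 1535417679) (nat_lit 76) (nat_lit 104740142101) (nat_lit 3) (nat_lit 5) (nat_lit 5) (nat_lit 5) (nat_lit 4) (nat_lit 4) (nat_lit 319) (nat_lit 252) (nat_lit 209))))))))
noncomputable def xc33 : XT := (XT.nd (nat_lit 1638) (nat_lit 0) (nat_lit 0) (XT.nd (nat_lit 780) (nat_lit 76) (nat_lit 0) (XT.nd (nat_lit 390) (nat_lit 0) (nat_lit 0) (XT.nd (nat_lit 156) (nat_lit 0) (nat_lit 0) (XT.nd (nat_lit 78) (nat_lit 0) (nat_lit 0) (XT.lf (nat_lit 0) (nat_lit 11954629919) (nat_lit 152) (nat_lit 107984175912) (nat_lit 0) (nat_lit 167454566) (nat_lit 2) (nat_lit 5) (nat_lit 4) (nat_lit 4) (nat_lit 2) (nat_lit 4) (nat_lit 320) (nat_lit 252) (nat_lit 208)) (XT.lf (nat_lit 0) (nat_lit 19278500537) (nat_lit 152) (nat_lit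 102605728281) (nat_lit 0) (nat_lit 7460749300) (nat_lit 2) (nat_lit 5) (nat_lit 4) (nat_lit 4) (nat_lit 2) (nat_lit 4) (nat_lit 321) (nat_lit 252) (nat_lit 207))) (XT.nd (nat_lit 78) (nat_lit 0) (nat_lit 0) (XT.lf (nat_lit 0) (nat_lit 27155003528) (nat_lit 152) (nat_lit 96860524126) (nat_lit 0) (nat_lit 15308941286) (nat_lit 2) (nat_lit 5) (nat_lit 4) (nat_lit 4) (nat_lit 2) (nat_lit 4) (nat_lit 322) (nat_lit 252) (nat_lit 206)) (XT.nd (nat_lit 78) (nat_lit 0) (nat_lit 0) (XT.lf (nat_lit 0) (nat_lit 35630814464) (nat_lit 152) (nat_lit 90714517794) (nat_lit 0) (nat_lit 23758538330) (nat_lit 2) (nat_lit 5) (nat_lit 4) (nat_lit 4) (nat_lit 2) (nat_lit 4) (nat_lit 323) (nat_lit 252) (nat_lit 205)) (XT.lf (nat_lit 0) (nat_lit 44756160374) (nat_lit 152) (nat_lit 84131288505) (nat_lit 0) (nat_lit 32859612116) (nat_lit 2) (nat_lit 5) (nat_lit 4) (nat_lit 4) (nat_lit 2) (nat_lit 4) (nat_lit 324)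 (nat_lit 252) (nat_lit 204))))) (XT.nd (nat_lit 156) (nat_lit 0) (nat_lit 0) (XT.nd (nat_lit 78) (nat_lit 0) (nat_lit 0) (XT.lf (nat_lit 0) (nat_lit 54585117381) (nat_lit 152) (nat_lit 77071824531) (nat_lit 0) (nat_lit 42666094935) (nat_lit 2) (nat_lit 5) (nat_lit 4) (nat_lit 4) (nat_lit 2) (nat_lit 4) (nat_lit 325) (nat_lit 252) (nat_lit 203)) (XT.lf (nat_lit 0) (nat_lit 65175931156) (nat_lit 152) (nat_lit 69494292011) (nat_lit 0) (nat_lit 53236099277) (nat_lit 2) (nat_lit 5) (nat_lit 4) (nat_lit 4) (nat_lit 2) (nat_lit 4) (nat_lit 326) (nat_lit 252) (nat_lit 202))) (XT.nd (nat_lit 78) (nat_lit 0) (nat_lit 0) (XT.lf (nat_lit 0) (nat_lit 76591362078) (nat_lit 152) (nat_lit 61353787048) (nat_lit 0) (nat_lit 64632262205) (nat_lit 2) (nat_lit 5) (nat_lit 4) (nat_lit 4) (nat_lit 2) (nat_lit 4) (nat_lit 327) (nat_lit 252) (nat_lit 201)) (XT.nd (nat_lit 78) (nat_lit 0) (nat_lit 0) (XT.lf (nat_lit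 0) (nat_lit 88899057144) (nat_lit 152) (nat_lit 52602069613) (nat_lit 0) (nat_lit 76922116536) (nat_lit 2) (nat_lit 5) (nat_lit 4) (nat_lit 4) (nat_lit 2) (nat_lit 4) (nat_lit 328) (nat_lit 252) (nat_lit 200)) (XT.lf (nat_lit 0) (nat_lit 102171950844) (nat_lit 152) (nat_lit 43187277678) (nat_lit 0) (nat_lit 90178491037) (nat_lit 2) (nat_lit 5) (nat_lit 4) (nat_lit 4) (nat_lit 2) (nat_lit 4) (nat_lit 329) (nat_lit 252) (nat_lit 199)))))) (XT.nd (nat_lit 390) (nat_lit 0) (nat_lit 0) (XT.nd (nat_lit 156) (nat_lit 76) (nat_lit 0) (XT.nd (nat_lit 78) (nat_lit 0) (nat_lit 0) (XT.lf (nat_lit 0) (nat_lit 116488697362) (nat_lit 152) (nat_lit 33053619882) (nat_lit 0) (nat_lit 104479942000) (nat_lit 2) (nat_lit 5) (nat_lit 4) (nat_lit 4) (nat_lit 2) (nat_lit 4) (nat_lit 330) (nat_lit 252) (nat_lit 198)) (XT.lf (nat_lit 0) (nat_lit 131934136679) (nat_lit 152) (nat_lit 22141044919) (nat_lit 0) (nat_lit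 119911218766) (nat_lit 2) (nat_lit 5) (nat_lit 4) (nat_lit 4) (nat_lit 2) (nat_lit 4) (nat_lit 331) (nat_lit 252) (nat_lit 197))) (XT.nd (nat_lit 78) (nat_lit 76) (nat_lit 0) (XT.lf (nat_lit 0) (nat_lit 148599797322) (nat_lit 152) (nat_lit 10384885680) (nat_lit 0) (nat_lit 136563765936) (nat_lit 2) (nat_lit 5) (nat_lit 4) (nat_lit 4) (nat_lit 2) (nat_lit 4) (nat_lit 332) (nat_lit 252) (nat_lit 196)) (XT.nd (nat_lit 78) (nat_lit 0) (nat_lit 0) (XT.lf (nat_lit 0) (nat_lit 2360060644) (nat_lit 76) (nat_lit 164261225280) (nat_lit 76) (nat_lit 152213051789) (nat_lit 1) (nat_lit 4) (nat_lit 2) (nat_lit 5) (nat_lit 2) (nat_lit 4) (nat_lit 333) (nat_lit 252) (nat_lit 195)) (XT.lf (nat_lit 0) (nat_lit 16469385178) (nat_lit 76) (nat_lit 169782384735) (nat_lit 76) (nat_lit 157722968555) (nat_lit 1) (nat_lit 4) (nat_lit 2) (nat_lit 5) (nat_lit 2) (nat_lit 4) (nat_lit 334) (nat_lit 252) (nat_lit 194)))))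 (XT.nd (nat_lit 234) (nat_lit 0) (nat_lit 0) (XT.nd (nat_lit 78) (nat_lit 0) (nat_lit 0) (XT.lf (nat_lit 0) (nat_lit 31683327512) (nat_lit 76) (nat_lit 175756752415) (nat_lit 76) (nat_lit 163686926337) (nat_lit 1) (nat_lit 4) (nat_lit 2) (nat_lit 5) (nat_lit 2) (nat_lit 4) (nat_lit 335) (nat_lit 252) (nat_lit 193)) (XT.nd (nat_lit 78) (nat_lit 0) (nat_lit 0) (XT.lf (nat_lit 0) (nat_lit 48092044343) (nat_lit 76) (nat_lit 182219731979) (nat_lit 76) (nat_lit 170140267107) (nat_lit 1) (nat_lit 4) (nat_lit 2) (nat_lit 5) (nat_lit 2) (nat_lit 4) (nat_lit 336) (nat_lit 252) (nat_lit 192)) (XT.lf (nat_lit 0) (nat_lit 65792772511) (nat_lit 76) (nat_lit 189209622566) (nat_lit 76) (nat_lit 177121232885) (nat_lit 1) (nat_lit 4) (nat_lit 2) (nat_lit 5) (nat_lit 2) (nat_lit 4) (nat_lit 337) (nat_lit 252) (nat_lit 191)))) (XT.nd (nat_lit 78) (nat_lit 0) (nat_lit 0) (XT.lf (nat_lit 0) (nat_lit 84890405219)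 (nat_lit 76) (nat_lit 196767845749) (nat_lit 76) (nat_lit 184671192356) (nat_lit 1) (nat_lit 4) (nat_lit 2) (nat_lit 5) (nat_lit 2) (nat_lit 4) (nat_lit 338) (nat_lit 252) (nat_lit 190)) (XT.nd (nat_lit 78) (nat_lit 0) (nat_lit 0) (XT.lf (nat_lit 0) (nat_lit 105498113625) (nat_lit 76) (nat_lit 204939191000) (nat_lit 76) (nat_lit 192834886021) (nat_lit 1) (nat_lit 4) (nat_lit 2) (nat_lit 5) (nat_lit 2) (nat_lit 4) (nat_lit 339) (nat_lit 252) (nat_lit 189)) (XT.lf (nat_lit 0) (nat_lit 127738017482) (nat_lit 76) (nat_lit 213772081104) (nat_lit 76) (nat_lit 201660691324) (nat_lit 1) (nat_lit 4) (nat_lit 2) (nat_lit 5) (nat_lit 2) (nat_lit 4) (nat_lit 340) (nat_lit 252) (nat_lit 188))))))) (XT.nd (nat_lit 35568) (nat_lit 0) (nat_lit 1976) (XT.nd (nat_lit 390) (nat_lit 0) (nat_lit 0) (XT.nd (nat_lit 156) (nat_lit 0) (nat_lit 0) (XT.nd (nat_lit 78) (nat_lit 0) (nat_lit 0) (XT.lf (nat_lit 0) (nat_lit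 151741908813) (nat_lit 76) (nat_lit 223318859115) (nat_lit 76) (nat_lit 211200909334) (nat_lit 1) (nat_lit 4) (nat_lit 2) (nat_lit 5) (nat_lit 2) (nat_lit 4) (nat_lit 341) (nat_lit 252) (nat_lit 187)) (XT.lf (nat_lit 0) (nat_lit 177652032899) (nat_lit 76) (nat_lit 233636098532) (nat_lit 76) (nat_lit 221512074675) (nat_lit 1) (nat_lit 4) (nat_lit 2) (nat_lit 5) (nat_lit 2) (nat_lit 4) (nat_lit 342) (nat_lit 252) (nat_lit 186))) (XT.nd (nat_lit 78) (nat_lit 0) (nat_lit 0) (XT.lf (nat_lit 0) (nat_lit 205621931218) (nat_lit 76) (nat_lit 244784938551) (nat_lit 76) (nat_lit 232655290551) (nat_lit 1) (nat_lit 4) (nat_lit 2) (nat_lit 5) (nat_lit 2) (nat_lit 4) (nat_lit 343) (nat_lit 252) (nat_lit 185)) (XT.nd (nat_lit 78) (nat_lit 0) (nat_lit 0) (XT.lf (nat_lit 0) (nat_lit 235817351314) (nat_lit 76) (nat_lit 256831446372) (nat_lit 76) (nat_lit 244696590831) (nat_lit 1) (nat_lit 4) (nat_lit 2)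 (nat_lit 5) (nat_lit 2) (nat_lit 4) (nat_lit 344) (nat_lit 252) (nat_lit 184)) (XT.lf (nat_lit 0) (nat_lit 268417229010) (nat_lit 76) (nat_lit 269847008709) (nat_lit 76) (nat_lit 257707331371) (nat_lit 1) (nat_lit 4) (nat_lit 2) (nat_lit 5) (nat_lit 2) (nat_lit 4) (nat_lit 345) (nat_lit 252) (nat_lit 183))))) (XT.nd (nat_lit 156) (nat_lit 0) (nat_lit 0) (XT.nd (nat_lit 78) (nat_lit 0) (nat_lit 0) (XT.lf (nat_lit 0) (nat_lit 303614748767) (nat_lit 76) (nat_lit 283908754819) (nat_lit 76) (nat_lit 271764612855) (nat_lit 1) (nat_lit 4) (nat_lit 2) (nat_lit 5) (nat_lit 2) (nat_lit 4) (nat_lit 346) (nat_lit 252) (nat_lit 182)) (XT.lf (nat_lit 0) (nat_lit 341618488479) (nat_lit 76) (nat_lit 299100013569) (nat_lit 76) (nat_lit 286951737691) (nat_lit 1) (nat_lit 4) (nat_lit 2) (nat_lit 5) (nat_lit 2) (nat_lit 4) (nat_lit 347) (nat_lit 252) (nat_lit 181))) (XT.nd (nat_lit 34866) (nat_lit 0) (nat_lit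 4636) (XT.lf (nat_lit 0) (nat_lit 382653655494) (nat_lit 76) (nat_lit 315510807232) (nat_lit 76) (nat_lit 303358703657) (nat_lit 1) (nat_lit 4) (nat_lit 2) (nat_lit 5) (nat_lit 2) (nat_lit 4) (nat_lit 348) (nat_lit 252) (nat_lit 180)) (XT.nd (nat_lit 78) (nat_lit 380) (nat_lit 0) (XT.lf (nat_lit 0) (nat_lit 2583210220) (nat_lit 304) (nat_lit 708783737) (nat_lit 304) (nat_lit 708783737) (nat_lit 67) (nat_lit 4) (nat_lit 71) (nat_lit 5) (nat_lit 71) (nat_lit 4) (nat_lit 274) (nat_lit 253) (nat_lit 253)) (XT.lf (nat_lit 0) (nat_lit 4120269157) (nat_lit 380) (nat_lit 1848638562) (nat_lit 0) (nat_lit 2279883168) (nat_lit 62) (nat_lit 5) (nat_lit 67) (nat_lit 4) (nat_lit 62) (nat_lit 4) (nat_lit 275) (nat_lit 253) (nat_lit 252)))))) (XT.nd (nat_lit 390) (nat_lit 1064) (nat_lit 0) (XT.nd (nat_lit 156) (nat_lit 760) (nat_lit 0) (XT.nd (nat_lit 78) (nat_lit 456) (nat_lit 0) (XT.lf (nat_lit 0) (nat_lit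 1304943393) (nat_lit 380) (nat_lit 869313135) (nat_lit 76) (nat_lit 6348999273) (nat_lit 57) (nat_lit 5) (nat_lit 62) (nat_lit 5) (nat_lit 58) (nat_lit 4) (nat_lit 276) (nat_lit 253) (nat_lit 251)) (XT.lf (nat_lit 0) (nat_lit 47950222) (nat_lit 228) (nat_lit 6827492149) (nat_lit 228) (nat_lit 1949128869) (nat_lit 51) (nat_lit 4) (nat_lit 54) (nat_lit 5) (nat_lit 54) (nat_lit 4) (nat_lit 277) (nat_lit 253) (nat_lit 250))) (XT.nd (nat_lit 78) (nat_lit 456) (nat_lit 0) (XT.lf (nat_lit 0) (nat_lit 903863823) (nat_lit 228) (nat_lit 2595460772) (nat_lit 304) (nat_lit 5654425241) (nat_lit 47) (nat_lit 5) (nat_lit 50) (nat_lit 5) (nat_lit 51) (nat_lit 4) (nat_lit 278) (nat_lit 253) (nat_lit 249)) (XT.nd (nat_lit 78) (nat_lit 228) (nat_lit 0) (XT.lf (nat_lit 0) (nat_lit 1666418648) (nat_lit 228) (nat_lit 7523108238) (nat_lit 228) (nat_lit 324942412) (nat_lit 44) (nat_lit 4) (nat_lit 47) (nat_lit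 5) (nat_lit 47) (nat_lit 4) (nat_lit 279) (nat_lit 253) (nat_lit 248)) (XT.lf (nat_lit 0) (nat_lit 2233131862) (nat_lit 152) (nat_lit 2921689875) (nat_lit 228) (nat_lit 4750549453) (nat_lit 41) (nat_lit 5) (nat_lit 43) (nat_lit 5) (nat_lit 44) (nat_lit 4) (nat_lit 280) (nat_lit 253) (nat_lit 247))))) (XT.nd (nat_lit 234) (nat_lit 380) (nat_lit 0) (XT.nd (nat_lit 78) (nat_lit 380) (nat_lit 0) (XT.lf (nat_lit 0) (nat_lit 608971069) (nat_lit 304) (nat_lit 7690833111) (nat_lit 76) (nat_lit 2032391341) (nat_lit 37) (nat_lit 5) (nat_lit 41) (nat_lit 5) (nat_lit 38) (nat_lit 4) (nat_lit 281) (nat_lit 253) (nat_lit 246)) (XT.nd (nat_lit 78) (nat_lit 228) (nat_lit 0) (XT.lf (nat_lit 0) (nat_lit 2760749262) (nat_lit 152) (nat_lit 3399057056) (nat_lit 228) (nat_lit 4633384963) (nat_lit 35) (nat_lit 5) (nat_lit 37) (nat_lit 5) (nat_lit 38) (nat_lit 4) (nat_lit 282) (nat_lit 253) (nat_lit 245)) (XT.lf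 (nat_lit 0) (nat_lit 752721599) (nat_lit 228) (nat_lit 8671940009) (nat_lit 76) (nat_lit 1870220059) (nat_lit 32) (nat_lit 5) (nat_lit 35) (nat_lit 5) (nat_lit 33) (nat_lit 4) (nat_lit 283) (nat_lit 253) (nat_lit 244)))) (XT.nd (nat_lit 78) (nat_lit 228) (nat_lit 0) (XT.lf (nat_lit 0) (nat_lit 2071083736) (nat_lit 152) (nat_lit 4291611404) (nat_lit 228) (nat_lit 5472749963) (nat_lit 30) (nat_lit 5) (nat_lit 32) (nat_lit 5) (nat_lit 33) (nat_lit 4) (nat_lit 284) (nat_lit 253) (nat_lit 243)) (XT.nd (nat_lit 78) (nat_lit 76) (nat_lit 0) (XT.lf (nat_lit 0) (nat_lit 1149288157) (nat_lit 152) (nat_lit 11195959985) (nat_lit 152) (nat_lit 78095242) (nat_lit 28) (nat_lit 4) (nat_lit 30) (nat_lit 5) (nat_lit 30) (nat_lit 4) (nat_lit 285) (nat_lit 253) (nat_lit 242)) (XT.lf (nat_lit 0) (nat_lit 5551007213) (nat_lit 228) (nat_lit 356744999) (nat_lit 76) (nat_lit 7146937422) (nat_lit 27) (nat_lit 5)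 (nat_lit 30) (nat_lit 5) (nat_lit 28) (nat_lit 4) (nat_lit 286) (nat_lit 253) (nat_lit 241))))))))
noncomputable def xc34 : XT := (XT.nd (nat_lit 1560) (nat_lit 380) (nat_lit 0) (XT.nd (nat_lit 780) (nat_lit 456) (nat_lit 0) (XT.nd (nat_lit 390) (nat_lit 456) (nat_lit 0) (XT.nd (nat_lit 156) (nat_lit 304) (nat_lit 0) (XT.nd (nat_lit 78) (nat_lit 228) (nat_lit 0) (XT.lf (nat_lit 0) (nat_lit 11402404947) (nat_lit 76) (nat_lit 164106775) (nat_lit 152) (nat_lit 2173255036) (nat_lit 26) (nat_lit 5) (nat_lit 27) (nat_lit 5) (nat_lit 28) (nat_lit 4) (nat_lit 287) (nat_lit 253) (nat_lit 240)) (XT.lf (nat_lit 0) (nat_lit 3487475514) (nat_lit 228) (nat_lit 5078447603) (nat_lit 76) (nat_lit 5910201872) (nat_lit 23) (nat_lit 5) (nat_lit 26) (nat_lit 5) (nat_lit 24) (nat_lit 4) (nat_lit 288) (nat_lit 253) (nat_lit 239))) (XT.nd (nat_lit 78) (nat_lit 228) (nat_lit 0) (XT.lf (nat_lit 0) (nat_lit 6681456841)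 (nat_lit 76) (nat_lit 2770637154) (nat_lit 152) (nat_lit 5821343946) (nat_lit 22) (nat_lit 5) (nat_lit 23) (nat_lit 5) (nat_lit 24) (nat_lit 4) (nat_lit 289) (nat_lit 253) (nat_lit 238)) (XT.nd (nat_lit 78) (nat_lit 76) (nat_lit 0) (XT.lf (nat_lit 0) (nat_lit 3107000758) (nat_lit 152) (nat_lit 12765932126) (nat_lit 152) (nat_lit 262822637) (nat_lit 20) (nat_lit 4) (nat_lit 22) (nat_lit 5) (nat_lit 22) (nat_lit 4) (nat_lit 290) (nat_lit 253) (nat_lit 237)) (XT.lf (nat_lit 0) (nat_lit 5548481761) (nat_lit 228) (nat_lit 1510493583) (nat_lit 76) (nat_lit 10004162318) (nat_lit 19) (nat_lit 5) (nat_lit 22) (nat_lit 5) (nat_lit 20) (nat_lit 4) (nat_lit 291) (nat_lit 253) (nat_lit 236))))) (XT.nd (nat_lit 156) (nat_lit 228) (nat_lit 0) (XT.nd (nat_lit 78) (nat_lit 152) (nat_lit 0) (XT.lf (nat_lit 0) (nat_lit 10940860201) (nat_lit 76) (nat_lit 853887951) (nat_lit 152) (nat_lit 6270924062) (nat_lit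 18) (nat_lit 5) (nat_lit 19) (nat_lit 5) (nat_lit 20) (nat_lit 4) (nat_lit 292) (nat_lit 253) (nat_lit 235)) (XT.lf (nat_lit 0) (nat_lit 5037980664) (nat_lit 152) (nat_lit 13514825445) (nat_lit 152) (nat_lit 595129050) (nat_lit 16) (nat_lit 4) (nat_lit 18) (nat_lit 5) (nat_lit 18) (nat_lit 4) (nat_lit 293) (nat_lit 253) (nat_lit 234))) (XT.nd (nat_lit 78) (nat_lit 152) (nat_lit 0) (XT.lf (nat_lit 0) (nat_lit 5319315254) (nat_lit 228) (nat_lit 2303731254) (nat_lit 76) (nat_lit 12691440182) (nat_lit 15) (nat_lit 5) (nat_lit 18) (nat_lit 5) (nat_lit 16) (nat_lit 4) (nat_lit 294) (nat_lit 253) (nat_lit 233)) (XT.nd (nat_lit 78) (nat_lit 76) (nat_lit 0) (XT.lf (nat_lit 0) (nat_lit 10477357078) (nat_lit 76) (nat_lit 1207001776) (nat_lit 152) (nat_lit 9889707232) (nat_lit 14) (nat_lit 5) (nat_lit 15) (nat_lit 5) (nat_lit 16) (nat_lit 4) (nat_lit 295) (nat_lit 253) (nat_lit 232)) (XT.lf (nat_lit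 0) (nat_lit 1087435720) (nat_lit 76) (nat_lit 17458628532) (nat_lit 76) (nat_lit 4389073057) (nat_lit 13) (nat_lit 4) (nat_lit 14) (nat_lit 5) (nat_lit 14) (nat_lit 4) (nat_lit 296) (nat_lit 253) (nat_lit 231)))))) (XT.nd (nat_lit 390) (nat_lit 228) (nat_lit 0) (XT.nd (nat_lit 156) (nat_lit 76) (nat_lit 0) (XT.nd (nat_lit 78) (nat_lit 76) (nat_lit 0) (XT.lf (nat_lit 0) (nat_lit 1564060883) (nat_lit 152) (nat_lit 10081444660) (nat_lit 76) (nat_lit 12755358685) (nat_lit 12) (nat_lit 5) (nat_lit 14) (nat_lit 5) (nat_lit 13) (nat_lit 4) (nat_lit 297) (nat_lit 253) (nat_lit 230)) (XT.lf (nat_lit 0) (nat_lit 2367853009) (nat_lit 76) (nat_lit 5367596980) (nat_lit 152) (nat_lit 18250093239) (nat_lit 11) (nat_lit 5) (nat_lit 12) (nat_lit 5) (nat_lit 13) (nat_lit 4) (nat_lit 298) (nat_lit 253) (nat_lit 229))) (XT.nd (nat_lit 78) (nat_lit 76) (nat_lit 0) (XT.lf (nat_lit 0) (nat_lit 14462822245) (nat_lit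 152) (nat_lit 11793934560) (nat_lit 0) (nat_lit 1437200529) (nat_lit 11) (nat_lit 5) (nat_lit 13) (nat_lit 4) (nat_lit 11) (nat_lit 4) (nat_lit 299) (nat_lit 253) (nat_lit 228)) (XT.nd (nat_lit 78) (nat_lit 0) (nat_lit 0) (XT.lf (nat_lit 0) (nat_lit 671631206) (nat_lit 76) (nat_lit 21029716142) (nat_lit 76) (nat_lit 7839117943) (nat_lit 10) (nat_lit 4) (nat_lit 11) (nat_lit 5) (nat_lit 11) (nat_lit 4) (nat_lit 300) (nat_lit 253) (nat_lit 227)) (XT.lf (nat_lit 0) (nat_lit 14330736840) (nat_lit 76) (nat_lit 15271602878) (nat_lit 76) (nat_lit 1928248676) (nat_lit 10) (nat_lit 4) (nat_lit 11) (nat_lit 5) (nat_lit 11) (nat_lit 4) (nat_lit 301) (nat_lit 253) (nat_lit 226))))) (XT.nd (nat_lit 156) (nat_lit 76) (nat_lit 0) (XT.nd (nat_lit 78) (nat_lit 76) (nat_lit 0) (XT.lf (nat_lit 0) (nat_lit 4197960560) (nat_lit 152) (nat_lit 4878975796) (nat_lit 76) (nat_lit 24605309398) (nat_lit 9) (nat_lit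 5) (nat_lit 11) (nat_lit 5) (nat_lit 10) (nat_lit 4) (nat_lit 302) (nat_lit 253) (nat_lit 225)) (XT.lf (nat_lit 0) (nat_lit 8469787998) (nat_lit 76) (nat_lit 2303649364) (nat_lit 152) (nat_lit 25229733517) (nat_lit 8) (nat_lit 5) (nat_lit 9) (nat_lit 5) (nat_lit 10) (nat_lit 4) (nat_lit 303) (nat_lit 253) (nat_lit 224))) (XT.nd (nat_lit 78) (nat_lit 76) (nat_lit 0) (XT.lf (nat_lit 0) (nat_lit 17936766468) (nat_lit 152) (nat_lit 15716071954) (nat_lit 0) (nat_lit 4853889101) (nat_lit 8) (nat_lit 5) (nat_lit 10) (nat_lit 4) (nat_lit 8) (nat_lit 4) (nat_lit 304) (nat_lit 253) (nat_lit 223)) (XT.nd (nat_lit 78) (nat_lit 76) (nat_lit 0) (XT.lf (nat_lit 0) (nat_lit 25616810011) (nat_lit 152) (nat_lit 3169621826) (nat_lit 0) (nat_lit 12426999099) (nat_lit 8) (nat_lit 5) (nat_lit 10) (nat_lit 4) (nat_lit 8) (nat_lit 4) (nat_lit 305) (nat_lit 253) (nat_lit 222)) (XT.lf (nat_lit 0) (nat_lit 10554079719)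 (nat_lit 76) (nat_lit 23433811980) (nat_lit 76) (nat_lit 10144988526) (nat_lit 7) (nat_lit 4) (nat_lit 8) (nat_lit 5) (nat_lit 8) (nat_lit 4) (nat_lit 306) (nat_lit 253) (nat_lit 221))))))) (XT.nd (nat_lit 780) (nat_lit 152) (nat_lit 0) (XT.nd (nat_lit 390) (nat_lit 76) (nat_lit 0) (XT.nd (nat_lit 156) (nat_lit 76) (nat_lit 0) (XT.nd (nat_lit 78) (nat_lit 76) (nat_lit 0) (XT.lf (nat_lit 0) (nat_lit 25331741095) (nat_lit 76) (nat_lit 17668063568) (nat_lit 76) (nat_lit 4287561835) (nat_lit 7) (nat_lit 4) (nat_lit 8) (nat_lit 5) (nat_lit 8) (nat_lit 4) (nat_lit 307) (nat_lit 253) (nat_lit 220)) (XT.lf (nat_lit 0) (nat_lit 1894064422) (nat_lit 152) (nat_lit 9582556962) (nat_lit 76) (nat_lit 39219990292) (nat_lit 6) (nat_lit 5) (nat_lit 8) (nat_lit 5) (nat_lit 7) (nat_lit 4) (nat_lit 308) (nat_lit 253) (nat_lit 219))) (XT.nd (nat_lit 78) (nat_lit 0) (nat_lit 0) (XT.lf (nat_lit 0) (nat_lit 3688969202)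 (nat_lit 76) (nat_lit 4717351567) (nat_lit 152) (nat_lit 45969476794) (nat_lit 5) (nat_lit 5) (nat_lit 6) (nat_lit 5) (nat_lit 7) (nat_lit 4) (nat_lit 309) (nat_lit 253) (nat_lit 218)) (XT.nd (nat_lit 78) (nat_lit 0) (nat_lit 0) (XT.lf (nat_lit 0) (nat_lit 15578673846) (nat_lit 152) (nat_lit 40153391898) (nat_lit 0) (nat_lit 2610325703) (nat_lit 5) (nat_lit 5) (nat_lit 7) (nat_lit 4) (nat_lit 5) (nat_lit 4) (nat_lit 310) (nat_lit 253) (nat_lit 217)) (XT.lf (nat_lit 0) (nat_lit 23338742849) (nat_lit 152) (nat_lit 28980683099) (nat_lit 0) (nat_lit 10306217304) (nat_lit 5) (nat_lit 5) (nat_lit 7) (nat_lit 4) (nat_lit 5) (nat_lit 4) (nat_lit 311) (nat_lit 253) (nat_lit 216))))) (XT.nd (nat_lit 156) (nat_lit 76) (nat_lit 0) (XT.nd (nat_lit 78) (nat_lit 0) (nat_lit 0) (XT.lf (nat_lit 0) (nat_lit 31658862295) (nat_lit 152) (nat_lit 17028842239) (nat_lit 0) (nat_lit 18566913229) (nat_lit 5) (nat_lit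 5) (nat_lit 7) (nat_lit 4) (nat_lit 5) (nat_lit 4) (nat_lit 312) (nat_lit 253) (nat_lit 215)) (XT.lf (nat_lit 0) (nat_lit 40588336594) (nat_lit 152) (nat_lit 4227043596) (nat_lit 0) (nat_lit 27441365751) (nat_lit 5) (nat_lit 5) (nat_lit 7) (nat_lit 4) (nat_lit 5) (nat_lit 4) (nat_lit 313) (nat_lit 253) (nat_lit 214))) (XT.nd (nat_lit 78) (nat_lit 0) (nat_lit 0) (XT.lf (nat_lit 0) (nat_lit 9814707266) (nat_lit 76) (nat_lit 40518608971) (nat_lit 76) (nat_lit 27320692037) (nat_lit 4) (nat_lit 4) (nat_lit 5) (nat_lit 5) (nat_lit 5) (nat_lit 4) (nat_lit 314) (nat_lit 253) (nat_lit 213)) (XT.nd (nat_lit 78) (nat_lit 0) (nat_lit 0) (XT.lf (nat_lit 0) (nat_lit 25036693987) (nat_lit 76) (nat_lit 35845134904) (nat_lit 76) (nat_lit 22600045663) (nat_lit 4) (nat_lit 4) (nat_lit 5) (nat_lit 5) (nat_lit 5) (nat_lit 4) (nat_lit 315) (nat_lit 253) (nat_lit 212)) (XT.lf (nat_lit 0) (nat_lit 41389355781)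 (nat_lit 76) (nat_lit 30838850358) (nat_lit 76) (nat_lit 17550083055) (nat_lit 4) (nat_lit 4) (nat_lit 5) (nat_lit 5) (nat_lit 5) (nat_lit 4) (nat_lit 316) (nat_lit 253) (nat_lit 211)))))) (XT.nd (nat_lit 390) (nat_lit 0) (nat_lit 0) (XT.nd (nat_lit 156) (nat_lit 152) (nat_lit 0) (XT.nd (nat_lit 78) (nat_lit 0) (nat_lit 0) (XT.lf (nat_lit 0) (nat_lit 58969597311) (nat_lit 76) (nat_lit 25470088460) (nat_lit 76) (nat_lit 12140878508) (nat_lit 4) (nat_lit 4) (nat_lit 5) (nat_lit 5) (nat_lit 5) (nat_lit 4) (nat_lit 317) (nat_lit 253) (nat_lit 210)) (XT.lf (nat_lit 0) (nat_lit 77881597785) (nat_lit 76) (nat_lit 19707034326) (nat_lit 76) (nat_lit 6340377476) (nat_lit 4) (nat_lit 4) (nat_lit 5) (nat_lit 5) (nat_lit 5) (nat_lit 4) (nat_lit 318) (nat_lit 253) (nat_lit 209))) (XT.nd (nat_lit 78) (nat_lit 152) (nat_lit 0) (XT.lf (nat_lit 0) (nat_lit 98237428317) (nat_lit 76) (nat_lit 13515536524)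 (nat_lit 76) (nat_lit 114206621) (nat_lit 4) (nat_lit 4) (nat_lit 5) (nat_lit 5) (nat_lit 5) (nat_lit 4) (nat_lit 319) (nat_lit 253) (nat_lit 208)) (XT.nd (nat_lit 78) (nat_lit 76) (nat_lit 0) (XT.lf (nat_lit 0) (nat_lit 6364103870) (nat_lit 152) (nat_lit 387021647) (nat_lit 76) (nat_lit 113685833003) (nat_lit 3) (nat_lit 5) (nat_lit 5) (nat_lit 5) (nat_lit 4) (nat_lit 4) (nat_lit 320) (nat_lit 253) (nat_lit 207)) (XT.lf (nat_lit 0) (nat_lit 13560227191) (nat_lit 152) (nat_lit 115383673132) (nat_lit 0) (nat_lit 738168966) (nat_lit 2) (nat_lit 5) (nat_lit 4) (nat_lit 4) (nat_lit 2) (nat_lit 4) (nat_lit 321) (nat_lit 253) (nat_lit 206))))) (XT.nd (nat_lit 234) (nat_lit 0) (nat_lit 0) (XT.nd (nat_lit 78) (nat_lit 0) (nat_lit 0) (XT.lf (nat_lit 0) (nat_lit 21421916579) (nat_lit 152) (nat_lit 109666745013) (nat_lit 0) (nat_lit 8573644461) (nat_lit 2) (nat_lit 5) (nat_lit 4) (nat_lit 4) (nat_lit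 2) (nat_lit 4) (nat_lit 322) (nat_lit 253) (nat_lit 205)) (XT.nd (nat_lit 78) (nat_lit 0) (nat_lit 0) (XT.lf (nat_lit 0) (nat_lit 29884011217) (nat_lit 152) (nat_lit 103546920195) (nat_lit 0) (nat_lit 17011466975) (nat_lit 2) (nat_lit 5) (nat_lit 4) (nat_lit 4) (nat_lit 2) (nat_lit 4) (nat_lit 323) (nat_lit 253) (nat_lit 204)) (XT.lf (nat_lit 0) (nat_lit 38996656850) (nat_lit 152) (nat_lit 96987933050) (nat_lit 0) (nat_lit 26101638420) (nat_lit 2) (nat_lit 5) (nat_lit 4) (nat_lit 4) (nat_lit 2) (nat_lit 4) (nat_lit 324) (nat_lit 253) (nat_lit 203)))) (XT.nd (nat_lit 78) (nat_lit 0) (nat_lit 0) (XT.lf (nat_lit 0) (nat_lit 48813854341) (nat_lit 152) (nat_lit 89950915504) (nat_lit 0) (nat_lit 35898026478) (nat_lit 2) (nat_lit 5) (nat_lit 4) (nat_lit 4) (nat_lit 2) (nat_lit 4) (nat_lit 325) (nat_lit 253) (nat_lit 202)) (XT.nd (nat_lit 78) (nat_lit 0) (nat_lit 0) (XT.lf (nat_lit 0) (nat_lit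 59393779676) (nat_lit 152) (nat_lit 82394166714) (nat_lit 0) (nat_lit 46458683819) (nat_lit 2) (nat_lit 5) (nat_lit 4) (nat_lit 4) (nat_lit 2) (nat_lit 4) (nat_lit 326) (nat_lit 253) (nat_lit 201)) (XT.lf (nat_lit 0) (nat_lit 70799128709) (nat_lit 152) (nat_lit 74272905946) (nat_lit 0) (nat_lit 57846192117) (nat_lit 2) (nat_lit 5) (nat_lit 4) (nat_lit 4) (nat_lit 2) (nat_lit 4) (nat_lit 327) (nat_lit 253) (nat_lit 200))))))))
noncomputable def xc35 : XT := (XT.nd (nat_lit 36270) (nat_lit 0) (nat_lit 1292) (XT.nd (nat_lit 780) (nat_lit 0) (nat_lit 0) (XT.nd (nat_lit 390) (nat_lit 76) (nat_lit 0) (XT.nd (nat_lit 156) (nat_lit 0) (nat_lit 0) (XT.nd (nat_lit 78) (nat_lit 0) (nat_lit 0) (XT.lf (nat_lit 0) (nat_lit 83097488693) (nat_lit 152) (nat_lit 65539007211) (nat_lit 0) (nat_lit 70128032901) (nat_lit 2) (nat_lit 5) (nat_lit 4) (nat_lit 4) (nat_lit 2) (nat_lit 4) (nat_lit 328) (nat_lit 253)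 (nat_lit 199)) (XT.lf (nat_lit 0) (nat_lit 96361738798) (nat_lit 152) (nat_lit 56140714071) (nat_lit 0) (nat_lit 83376987451) (nat_lit 2) (nat_lit 5) (nat_lit 4) (nat_lit 4) (nat_lit 2) (nat_lit 4) (nat_lit 329) (nat_lit 253) (nat_lit 198))) (XT.nd (nat_lit 78) (nat_lit 0) (nat_lit 0) (XT.lf (nat_lit 0) (nat_lit 110670481987) (nat_lit 152) (nat_lit 46022332937) (nat_lit 0) (nat_lit 97671568090) (nat_lit 2) (nat_lit 5) (nat_lit 4) (nat_lit 4) (nat_lit 2) (nat_lit 4) (nat_lit 330) (nat_lit 253) (nat_lit 197)) (XT.nd (nat_lit 78) (nat_lit 0) (nat_lit 0) (XT.lf (nat_lit 0) (nat_lit 126108510814) (nat_lit 152) (nat_lit 35123903032) (nat_lit 0) (nat_lit 113096483444) (nat_lit 2) (nat_lit 5) (nat_lit 4) (nat_lit 4) (nat_lit 2) (nat_lit 4) (nat_lit 331) (nat_lit 253) (nat_lit 196)) (XT.lf (nat_lit 0) (nat_lit 142767309893) (nat_lit 152) (nat_lit 23380841068) (nat_lit 0) (nat_lit 129743140419)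 (nat_lit 2) (nat_lit 5) (nat_lit 4) (nat_lit 4) (nat_lit 2) (nat_lit 4) (nat_lit 332) (nat_lit 253) (nat_lit 195))))) (XT.nd (nat_lit 156) (nat_lit 0) (nat_lit 0) (XT.nd (nat_lit 78) (nat_lit 76) (nat_lit 0) (XT.lf (nat_lit 0) (nat_lit 160745598034) (nat_lit 152) (nat_lit 10723558530) (nat_lit 0) (nat_lit 147710185870) (nat_lit 2) (nat_lit 5) (nat_lit 4) (nat_lit 4) (nat_lit 2) (nat_lit 4) (nat_lit 333) (nat_lit 253) (nat_lit 194)) (XT.lf (nat_lit 0) (nat_lit 3019596651) (nat_lit 76) (nat_lit 177177460955) (nat_lit 76) (nat_lit 164131638894) (nat_lit 1) (nat_lit 4) (nat_lit 2) (nat_lit 5) (nat_lit 2) (nat_lit 4) (nat_lit 334) (nat_lit 253) (nat_lit 193))) (XT.nd (nat_lit 78) (nat_lit 0) (nat_lit 0) (XT.lf (nat_lit 0) (nat_lit 18222798173) (nat_lit 76) (nat_lit 183156954822) (nat_lit 76) (nat_lit 170101493967) (nat_lit 1) (nat_lit 4) (nat_lit 2) (nat_lit 5) (nat_lit 2) (nat_lit 4) (nat_lit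 335) (nat_lit 253) (nat_lit 192)) (XT.nd (nat_lit 78) (nat_lit 0) (nat_lit 0) (XT.lf (nat_lit 0) (nat_lit 34621569807) (nat_lit 76) (nat_lit 189624680856) (nat_lit 76) (nat_lit 176560295192) (nat_lit 1) (nat_lit 4) (nat_lit 2) (nat_lit 5) (nat_lit 2) (nat_lit 4) (nat_lit 336) (nat_lit 253) (nat_lit 191)) (XT.lf (nat_lit 0) (nat_lit 52313089459) (nat_lit 76) (nat_lit 196618966323) (nat_lit 76) (nat_lit 183546316946) (nat_lit 1) (nat_lit 4) (nat_lit 2) (nat_lit 5) (nat_lit 2) (nat_lit 4) (nat_lit 337) (nat_lit 253) (nat_lit 190)))))) (XT.nd (nat_lit 390) (nat_lit 0) (nat_lit 0) (XT.nd (nat_lit 156) (nat_lit 0) (nat_lit 0) (XT.nd (nat_lit 78) (nat_lit 0) (nat_lit 0) (XT.lf (nat_lit 0) (nat_lit 71402195764) (nat_lit 76) (nat_lit 204181258839) (nat_lit 76) (nat_lit 191100957877) (nat_lit 1) (nat_lit 4) (nat_lit 2) (nat_lit 5) (nat_lit 2) (nat_lit 4) (nat_lit 338) (nat_lit 253) (nat_lit 189))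 (XT.lf (nat_lit 0) (nat_lit 92002009352) (nat_lit 76) (nat_lit 212356371991) (nat_lit 76) (nat_lit 199268986227) (nat_lit 1) (nat_lit 4) (nat_lit 2) (nat_lit 5) (nat_lit 2) (nat_lit 4) (nat_lit 339) (nat_lit 253) (nat_lit 188))) (XT.nd (nat_lit 78) (nat_lit 0) (nat_lit 0) (XT.lf (nat_lit 0) (nat_lit 114234603192) (nat_lit 76) (nat_lit 221192750892) (nat_lit 76) (nat_lit 208098805127) (nat_lit 1) (nat_lit 4) (nat_lit 2) (nat_lit 5) (nat_lit 2) (nat_lit 4) (nat_lit 340) (nat_lit 253) (nat_lit 187)) (XT.nd (nat_lit 78) (nat_lit 0) (nat_lit 0) (XT.lf (nat_lit 0) (nat_lit 138231725989) (nat_lit 76) (nat_lit 230742759271) (nat_lit 76) (nat_lit 217642739431) (nat_lit 1) (nat_lit 4) (nat_lit 2) (nat_lit 5) (nat_lit 2) (nat_lit 4) (nat_lit 341) (nat_lit 253) (nat_lit 186)) (XT.lf (nat_lit 0) (nat_lit 164135582914) (nat_lit 76) (nat_lit 241062989769) (nat_lit 76) (nat_lit 227957345785) (nat_lit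 1) (nat_lit 4) (nat_lit 2) (nat_lit 5) (nat_lit 2) (nat_lit 4) (nat_lit 342) (nat_lit 253) (nat_lit 185))))) (XT.nd (nat_lit 234) (nat_lit 0) (nat_lit 0) (XT.nd (nat_lit 78) (nat_lit 0) (nat_lit 0) (XT.lf (nat_lit 0) (nat_lit 192099678306) (nat_lit 76) (nat_lit 252214599308) (nat_lit 76) (nat_lit 239103747783) (nat_lit 1) (nat_lit 4) (nat_lit 2) (nat_lit 5) (nat_lit 2) (nat_lit 4) (nat_lit 343) (nat_lit 253) (nat_lit 184)) (XT.nd (nat_lit 78) (nat_lit 0) (nat_lit 0) (XT.lf (nat_lit 0) (nat_lit 222289725321) (nat_lit 76) (nat_lit 264263671499) (nat_lit 76) (nat_lit 251147998177) (nat_lit 1) (nat_lit 4) (nat_lit 2) (nat_lit 5) (nat_lit 2) (nat_lit 4) (nat_lit 344) (nat_lit 253) (nat_lit 183)) (XT.lf (nat_lit 0) (nat_lit 254884627943) (nat_lit 76) (nat_lit 277281608252) (nat_lit 76) (nat_lit 264161470304) (nat_lit 1) (nat_lit 4) (nat_lit 2) (nat_lit 5) (nat_lit 2) (nat_lit 4) (nat_lit 345)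 (nat_lit 253) (nat_lit 182)))) (XT.nd (nat_lit 78) (nat_lit 0) (nat_lit 0) (XT.lf (nat_lit 0) (nat_lit 290077541149) (nat_lit 76) (nat_lit 291345552897) (nat_lit 76) (nat_lit 278221281035) (nat_lit 1) (nat_lit 4) (nat_lit 2) (nat_lit 5) (nat_lit 2) (nat_lit 4) (nat_lit 346) (nat_lit 253) (nat_lit 181)) (XT.nd (nat_lit 78) (nat_lit 0) (nat_lit 0) (XT.lf (nat_lit 0) (nat_lit 328077015537) (nat_lit 76) (nat_lit 306538847326) (nat_lit 76) (nat_lit 293410747767) (nat_lit 1) (nat_lit 4) (nat_lit 2) (nat_lit 5) (nat_lit 2) (nat_lit 4) (nat_lit 347) (nat_lit 253) (nat_lit 180)) (XT.lf (nat_lit 0) (nat_lit 369108233177) (nat_lit 76) (nat_lit 322951525878) (nat_lit 76) (nat_lit 309819882154) (nat_lit 1) (nat_lit 4) (nat_lit 2) (nat_lit 5) (nat_lit 2) (nat_lit 4) (nat_lit 348) (nat_lit 253) (nat_lit 179))))))) (XT.nd (nat_lit 780) (nat_lit 1444) (nat_lit 0) (XT.nd (nat_lit 390) (nat_lit 1520) (nat_lit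 0) (XT.nd (nat_lit 156) (nat_lit 1064) (nat_lit 0) (XT.nd (nat_lit 78) (nat_lit 380) (nat_lit 0) (XT.lf (nat_lit 0) (nat_lit 1491085441) (nat_lit 380) (nat_lit 1147237526) (nat_lit 380) (nat_lit 1147237526) (nat_lit 76) (nat_lit 4) (nat_lit 81) (nat_lit 5) (nat_lit 81) (nat_lit 4) (nat_lit 272) (nat_lit 254) (nat_lit 254)) (XT.lf (nat_lit 0) (nat_lit 3013842431) (nat_lit 380) (nat_lit 3838185567) (nat_lit 0) (nat_lit 926844719) (nat_lit 71) (nat_lit 5) (nat_lit 76) (nat_lit 4) (nat_lit 71) (nat_lit 4) (nat_lit 273) (nat_lit 254) (nat_lit 253))) (XT.nd (nat_lit 78) (nat_lit 684) (nat_lit 0) (XT.lf (nat_lit 0) (nat_lit 458507007) (nat_lit 380) (nat_lit 3079463635) (nat_lit 76) (nat_lit 4472906422) (nat_lit 66) (nat_lit 5) (nat_lit 71) (nat_lit 5) (nat_lit 67) (nat_lit 4) (nat_lit 274) (nat_lit 254) (nat_lit 252)) (XT.nd (nat_lit 78) (nat_lit 380) (nat_lit 0) (XT.lf (nat_lit 0) (nat_lit 5734209745)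 (nat_lit 380) (nat_lit 2331830602) (nat_lit 0) (nat_lit 202145784) (nat_lit 62) (nat_lit 5) (nat_lit 67) (nat_lit 4) (nat_lit 62) (nat_lit 4) (nat_lit 275) (nat_lit 254) (nat_lit 251)) (XT.lf (nat_lit 0) (nat_lit 2667627960) (nat_lit 380) (nat_lit 1641260995) (nat_lit 76) (nat_lit 4241860210) (nat_lit 57) (nat_lit 5) (nat_lit 62) (nat_lit 5) (nat_lit 58) (nat_lit 4) (nat_lit 276) (nat_lit 254) (nat_lit 250))))) (XT.nd (nat_lit 156) (nat_lit 988) (nat_lit 0) (XT.nd (nat_lit 78) (nat_lit 304) (nat_lit 0) (XT.lf (nat_lit 0) (nat_lit 7889052695) (nat_lit 228) (nat_lit 140171081) (nat_lit 304) (nat_lit 833565260) (nat_lit 54) (nat_lit 5) (nat_lit 57) (nat_lit 5) (nat_lit 58) (nat_lit 4) (nat_lit 277) (nat_lit 254) (nat_lit 249)) (XT.lf (nat_lit 0) (nat_lit 4388560113) (nat_lit 304) (nat_lit 454494331) (nat_lit 76) (nat_lit 4357819765) (nat_lit 50) (nat_lit 5) (nat_lit 54) (nat_lit 5) (nat_lit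 51) (nat_lit 4) (nat_lit 278) (nat_lit 254) (nat_lit 248))) (XT.nd (nat_lit 78) (nat_lit 684) (nat_lit 0) (XT.lf (nat_lit 0) (nat_lit 281885359) (nat_lit 304) (nat_lit 308972) (nat_lit 76) (nat_lit 9290149327) (nat_lit 46) (nat_lit 5) (nat_lit 50) (nat_lit 5) (nat_lit 47) (nat_lit 5) (nat_lit 279) (nat_lit 254) (nat_lit 247)) (XT.nd (nat_lit 78) (nat_lit 304) (nat_lit 0) (XT.lf (nat_lit 0) (nat_lit 229515238) (nat_lit 152) (nat_lit 5340498090) (nat_lit 228) (nat_lit 4402241445) (nat_lit 41) (nat_lit 5) (nat_lit 43) (nat_lit 5) (nat_lit 44) (nat_lit 4) (nat_lit 280) (nat_lit 254) (nat_lit 246)) (XT.lf (nat_lit 0) (nat_lit 314550483) (nat_lit 228) (nat_lit 421531623) (nat_lit 304) (nat_lit 9673404867) (nat_lit 37) (nat_lit 5) (nat_lit 40) (nat_lit 5) (nat_lit 41) (nat_lit 5) (nat_lit 281) (nat_lit 254) (nat_lit 245)))))) (XT.nd (nat_lit 390) (nat_lit 684) (nat_lit 0) (XT.nd (nat_lit 156)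 (nat_lit 532) (nat_lit 0) (XT.nd (nat_lit 78) (nat_lit 76) (nat_lit 0) (XT.lf (nat_lit 0) (nat_lit 70758229) (nat_lit 152) (nat_lit 6033391363) (nat_lit 228) (nat_lit 4775635717) (nat_lit 35) (nat_lit 5) (nat_lit 37) (nat_lit 5) (nat_lit 38) (nat_lit 4) (nat_lit 282) (nat_lit 254) (nat_lit 244)) (XT.lf (nat_lit 0) (nat_lit 413848063) (nat_lit 228) (nat_lit 406546163) (nat_lit 76) (nat_lit 10571396089) (nat_lit 34) (nat_lit 5) (nat_lit 37) (nat_lit 5) (nat_lit 35) (nat_lit 5) (nat_lit 283) (nat_lit 254) (nat_lit 243))) (XT.nd (nat_lit 78) (nat_lit 380) (nat_lit 0) (XT.lf (nat_lit 0) (nat_lit 5847936997) (nat_lit 228) (nat_lit 1320704453) (nat_lit 76) (nat_lit 4772640594) (nat_lit 32) (nat_lit 5) (nat_lit 35) (nat_lit 5) (nat_lit 33) (nat_lit 4) (nat_lit 284) (nat_lit 254) (nat_lit 242)) (XT.nd (nat_lit 78) (nat_lit 228) (nat_lit 0) (XT.lf (nat_lit 0) (nat_lit 9932135697) (nat_lit 152) (nat_lit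 1721756151) (nat_lit 228) (nat_lit 884242518) (nat_lit 30) (nat_lit 5) (nat_lit 32) (nat_lit 5) (nat_lit 33) (nat_lit 4) (nat_lit 285) (nat_lit 254) (nat_lit 241)) (XT.lf (nat_lit 0) (nat_lit 4586034850) (nat_lit 228) (nat_lit 4464922467) (nat_lit 76) (nat_lit 4128493414) (nat_lit 27) (nat_lit 5) (nat_lit 30) (nat_lit 5) (nat_lit 28) (nat_lit 4) (nat_lit 286) (nat_lit 254) (nat_lit 240))))) (XT.nd (nat_lit 234) (nat_lit 304) (nat_lit 0) (XT.nd (nat_lit 78) (nat_lit 304) (nat_lit 0) (XT.lf (nat_lit 0) (nat_lit 6976660582) (nat_lit 76) (nat_lit 3449276703) (nat_lit 152) (nat_lit 3447472030) (nat_lit 26) (nat_lit 5) (nat_lit 27) (nat_lit 5) (nat_lit 28) (nat_lit 4) (nat_lit 287) (nat_lit 254) (nat_lit 239)) (XT.nd (nat_lit 78) (nat_lit 76) (nat_lit 0) (XT.lf (nat_lit 0) (nat_lit 2021124757) (nat_lit 228) (nat_lit 10035220407) (nat_lit 76) (nat_lit 2566152299) (nat_lit 23) (nat_lit 5) (nat_lit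 26) (nat_lit 5) (nat_lit 24) (nat_lit 4) (nat_lit 288) (nat_lit 254) (nat_lit 238)) (XT.lf (nat_lit 0) (nat_lit 1386984493) (nat_lit 76) (nat_lit 6417132466) (nat_lit 152) (nat_lit 7624857529) (nat_lit 22) (nat_lit 5) (nat_lit 23) (nat_lit 5) (nat_lit 24) (nat_lit 4) (nat_lit 289) (nat_lit 254) (nat_lit 237)))) (XT.nd (nat_lit 78) (nat_lit 304) (nat_lit 0) (XT.lf (nat_lit 0) (nat_lit 13746582307) (nat_lit 76) (nat_lit 282148361) (nat_lit 152) (nat_lit 2272449286) (nat_lit 22) (nat_lit 5) (nat_lit 23) (nat_lit 5) (nat_lit 24) (nat_lit 4) (nat_lit 290) (nat_lit 254) (nat_lit 236)) (XT.nd (nat_lit 78) (nat_lit 76) (nat_lit 0) (XT.lf (nat_lit 0) (nat_lit 3464740531) (nat_lit 228) (nat_lit 7548217622) (nat_lit 76) (nat_lit 6224162069) (nat_lit 19) (nat_lit 5) (nat_lit 22) (nat_lit 5) (nat_lit 20) (nat_lit 4) (nat_lit 291) (nat_lit 254) (nat_lit 235)) (XT.lf (nat_lit 0) (nat_lit 4549851568)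 (nat_lit 76) (nat_lit 4976048423) (nat_lit 152) (nat_lit 8723072698) (nat_lit 18) (nat_lit 5) (nat_lit 19) (nat_lit 5) (nat_lit 20) (nat_lit 4) (nat_lit 292) (nat_lit 254) (nat_lit 234))))))))
noncomputable def xc36 : XT := (XT.nd (nat_lit 1560) (nat_lit 228) (nat_lit 0) (XT.nd (nat_lit 780) (nat_lit 304) (nat_lit 0) (XT.nd (nat_lit 390) (nat_lit 304) (nat_lit 0) (XT.nd (nat_lit 156) (nat_lit 152) (nat_lit 0) (XT.nd (nat_lit 78) (nat_lit 228) (nat_lit 0) (XT.lf (nat_lit 0) (nat_lit 16058763240) (nat_lit 152) (nat_lit 1778651684) (nat_lit 0) (nat_lit 1505138379) (nat_lit 18) (nat_lit 5) (nat_lit 20) (nat_lit 4) (nat_lit 18) (nat_lit 4) (nat_lit 293) (nat_lit 254) (nat_lit 233)) (XT.lf (nat_lit 0) (nat_lit 2607951170) (nat_lit 228) (nat_lit 9474576007) (nat_lit 76) (nat_lit 8434165471) (nat_lit 15) (nat_lit 5) (nat_lit 18) (nat_lit 5) (nat_lit 16) (nat_lit 4) (nat_lit 294) (nat_lit 254)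 (nat_lit 232))) (XT.nd (nat_lit 78) (nat_lit 76) (nat_lit 0) (XT.lf (nat_lit 0) (nat_lit 2933776722) (nat_lit 76) (nat_lit 5847739035) (nat_lit 152) (nat_lit 13004377541) (nat_lit 14) (nat_lit 5) (nat_lit 15) (nat_lit 5) (nat_lit 16) (nat_lit 4) (nat_lit 295) (nat_lit 254) (nat_lit 231)) (XT.nd (nat_lit 78) (nat_lit 76) (nat_lit 0) (XT.lf (nat_lit 0) (nat_lit 15482719707) (nat_lit 152) (nat_lit 6758599007) (nat_lit 0) (nat_lit 913714679) (nat_lit 14) (nat_lit 5) (nat_lit 16) (nat_lit 4) (nat_lit 14) (nat_lit 4) (nat_lit 296) (nat_lit 254) (nat_lit 230)) (XT.lf (nat_lit 0) (nat_lit 6153700599) (nat_lit 76) (nat_lit 16624126559) (nat_lit 76) (nat_lit 1853071533) (nat_lit 13) (nat_lit 4) (nat_lit 14) (nat_lit 5) (nat_lit 14) (nat_lit 4) (nat_lit 297) (nat_lit 254) (nat_lit 229))))) (XT.nd (nat_lit 156) (nat_lit 152) (nat_lit 0) (XT.nd (nat_lit 78) (nat_lit 76) (nat_lit 0) (XT.lf (nat_lit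 0) (nat_lit 4276890627) (nat_lit 152) (nat_lit 6190512570) (nat_lit 76) (nat_lit 15754693678) (nat_lit 12) (nat_lit 5) (nat_lit 14) (nat_lit 5) (nat_lit 13) (nat_lit 4) (nat_lit 298) (nat_lit 254) (nat_lit 228)) (XT.lf (nat_lit 0) (nat_lit 7050583561) (nat_lit 76) (nat_lit 3769878499) (nat_lit 152) (nat_lit 17119272074) (nat_lit 11) (nat_lit 5) (nat_lit 12) (nat_lit 5) (nat_lit 13) (nat_lit 4) (nat_lit 299) (nat_lit 254) (nat_lit 227))) (XT.nd (nat_lit 78) (nat_lit 152) (nat_lit 0) (XT.lf (nat_lit 0) (nat_lit 17932649130) (nat_lit 152) (nat_lit 8490869934) (nat_lit 0) (nat_lit 3369070590) (nat_lit 11) (nat_lit 5) (nat_lit 13) (nat_lit 4) (nat_lit 11) (nat_lit 4) (nat_lit 300) (nat_lit 254) (nat_lit 226)) (XT.nd (nat_lit 78) (nat_lit 76) (nat_lit 0) (XT.lf (nat_lit 0) (nat_lit 4787389927) (nat_lit 76) (nat_lit 20854967358) (nat_lit 76) (nat_lit 6149948074) (nat_lit 10) (nat_lit 4) (nat_lit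 11) (nat_lit 5) (nat_lit 11) (nat_lit 4) (nat_lit 301) (nat_lit 254) (nat_lit 225)) (XT.lf (nat_lit 0) (nat_lit 60221802) (nat_lit 152) (nat_lit 14712528239) (nat_lit 76) (nat_lit 19177091345) (nat_lit 9) (nat_lit 5) (nat_lit 11) (nat_lit 5) (nat_lit 10) (nat_lit 4) (nat_lit 302) (nat_lit 254) (nat_lit 224)))))) (XT.nd (nat_lit 390) (nat_lit 152) (nat_lit 0) (XT.nd (nat_lit 156) (nat_lit 76) (nat_lit 0) (XT.nd (nat_lit 78) (nat_lit 76) (nat_lit 0) (XT.lf (nat_lit 0) (nat_lit 6456091010) (nat_lit 152) (nat_lit 1722259003) (nat_lit 76) (nat_lit 28101420059) (nat_lit 9) (nat_lit 5) (nat_lit 11) (nat_lit 5) (nat_lit 10) (nat_lit 4) (nat_lit 303) (nat_lit 254) (nat_lit 223)) (XT.lf (nat_lit 0) (nat_lit 12540256083) (nat_lit 76) (nat_lit 927930199) (nat_lit 152) (nat_lit 25322723589) (nat_lit 8) (nat_lit 5) (nat_lit 9) (nat_lit 5) (nat_lit 10) (nat_lit 4) (nat_lit 304) (nat_lit 254) (nat_lit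 222))) (XT.nd (nat_lit 78) (nat_lit 76) (nat_lit 0) (XT.lf (nat_lit 0) (nat_lit 21091365263) (nat_lit 152) (nat_lit 13768687730) (nat_lit 0) (nat_lit 6640423392) (nat_lit 8) (nat_lit 5) (nat_lit 10) (nat_lit 4) (nat_lit 8) (nat_lit 4) (nat_lit 305) (nat_lit 254) (nat_lit 221)) (XT.nd (nat_lit 78) (nat_lit 76) (nat_lit 0) (XT.lf (nat_lit 0) (nat_lit 29258430254) (nat_lit 152) (nat_lit 455904554) (nat_lit 0) (nat_lit 14715810103) (nat_lit 8) (nat_lit 5) (nat_lit 10) (nat_lit 4) (nat_lit 8) (nat_lit 4) (nat_lit 306) (nat_lit 254) (nat_lit 220)) (XT.lf (nat_lit 0) (nat_lit 14236738438) (nat_lit 76) (nat_lit 23988828033) (nat_lit 76) (nat_lit 9361320587) (nat_lit 7) (nat_lit 4) (nat_lit 8) (nat_lit 5) (nat_lit 8) (nat_lit 4) (nat_lit 307) (nat_lit 254) (nat_lit 219))))) (XT.nd (nat_lit 156) (nat_lit 76) (nat_lit 0) (XT.nd (nat_lit 78) (nat_lit 76) (nat_lit 0) (XT.lf (nat_lit 0) (nat_lit 29986365883)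 (nat_lit 76) (nat_lit 17859574482) (nat_lit 76) (nat_lit 3153467687) (nat_lit 7) (nat_lit 4) (nat_lit 8) (nat_lit 5) (nat_lit 8) (nat_lit 4) (nat_lit 308) (nat_lit 254) (nat_lit 218)) (XT.lf (nat_lit 0) (nat_lit 3369499482) (nat_lit 152) (nat_lit 7871410028) (nat_lit 76) (nat_lit 43444671056) (nat_lit 6) (nat_lit 5) (nat_lit 8) (nat_lit 5) (nat_lit 7) (nat_lit 4) (nat_lit 309) (nat_lit 254) (nat_lit 217))) (XT.nd (nat_lit 78) (nat_lit 0) (nat_lit 0) (XT.lf (nat_lit 0) (nat_lit 6354158169) (nat_lit 76) (nat_lit 3987514225) (nat_lit 152) (nat_lit 48320523946) (nat_lit 5) (nat_lit 5) (nat_lit 6) (nat_lit 5) (nat_lit 7) (nat_lit 4) (nat_lit 310) (nat_lit 254) (nat_lit 216)) (XT.nd (nat_lit 78) (nat_lit 0) (nat_lit 0) (XT.lf (nat_lit 0) (nat_lit 18010275953) (nat_lit 152) (nat_lit 41128209948) (nat_lit 0) (nat_lit 3811547442) (nat_lit 5) (nat_lit 5) (nat_lit 7) (nat_lit 4) (nat_lit 5) (nat_lit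 4) (nat_lit 311) (nat_lit 254) (nat_lit 215)) (XT.lf (nat_lit 0) (nat_lit 26303349869) (nat_lit 152) (nat_lit 29227421726) (nat_lit 0) (nat_lit 12049599580) (nat_lit 5) (nat_lit 5) (nat_lit 7) (nat_lit 4) (nat_lit 5) (nat_lit 4) (nat_lit 312) (nat_lit 254) (nat_lit 214))))))) (XT.nd (nat_lit 780) (nat_lit 0) (nat_lit 0) (XT.nd (nat_lit 390) (nat_lit 152) (nat_lit 0) (XT.nd (nat_lit 156) (nat_lit 76) (nat_lit 0) (XT.nd (nat_lit 78) (nat_lit 0) (nat_lit 0) (XT.lf (nat_lit 0) (nat_lit 35207782012) (nat_lit 152) (nat_lit 16472894044) (nat_lit 0) (nat_lit 20903085632) (nat_lit 5) (nat_lit 5) (nat_lit 7) (nat_lit 4) (nat_lit 5) (nat_lit 4) (nat_lit 313) (nat_lit 254) (nat_lit 213)) (XT.lf (nat_lit 0) (nat_lit 44776339386) (nat_lit 152) (nat_lit 2789044515) (nat_lit 0) (nat_lit 30424470700) (nat_lit 5) (nat_lit 5) (nat_lit 7) (nat_lit 4) (nat_lit 5) (nat_lit 4) (nat_lit 314) (nat_lit 254) (nat_lit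 212))) (XT.nd (nat_lit 78) (nat_lit 0) (nat_lit 0) (XT.lf (nat_lit 0) (nat_lit 12298856555) (nat_lit 76) (nat_lit 42958887617) (nat_lit 76) (nat_lit 28563340869) (nat_lit 4) (nat_lit 4) (nat_lit 5) (nat_lit 5) (nat_lit 5) (nat_lit 4) (nat_lit 315) (nat_lit 254) (nat_lit 211)) (XT.nd (nat_lit 78) (nat_lit 0) (nat_lit 0) (XT.lf (nat_lit 0) (nat_lit 28612752384) (nat_lit 76) (nat_lit 37970884519) (nat_lit 76) (nat_lit 23534895122) (nat_lit 4) (nat_lit 4) (nat_lit 5) (nat_lit 5) (nat_lit 5) (nat_lit 4) (nat_lit 316) (nat_lit 254) (nat_lit 210)) (XT.lf (nat_lit 0) (nat_lit 46157099501) (nat_lit 76) (nat_lit 32619049889) (nat_lit 76) (nat_lit 18145613593) (nat_lit 4) (nat_lit 4) (nat_lit 5) (nat_lit 5) (nat_lit 5) (nat_lit 4) (nat_lit 317) (nat_lit 254) (nat_lit 209))))) (XT.nd (nat_lit 156) (nat_lit 152) (nat_lit 0) (XT.nd (nat_lit 78) (nat_lit 0) (nat_lit 0) (XT.lf (nat_lit 0) (nat_lit 65035864408)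 (nat_lit 76) (nat_lit 26871669150) (nat_lit 76) (nat_lit 12363559802) (nat_lit 4) (nat_lit 4) (nat_lit 5) (nat_lit 5) (nat_lit 5) (nat_lit 4) (nat_lit 318) (nat_lit 254) (nat_lit 208)) (XT.lf (nat_lit 0) (nat_lit 85360921267) (nat_lit 76) (nat_lit 20694683751) (nat_lit 76) (nat_lit 6154469723) (nat_lit 4) (nat_lit 4) (nat_lit 5) (nat_lit 5) (nat_lit 5) (nat_lit 4) (nat_lit 319) (nat_lit 254) (nat_lit 207))) (XT.nd (nat_lit 78) (nat_lit 76) (nat_lit 0) (XT.lf (nat_lit 0) (nat_lit 501857570) (nat_lit 152) (nat_lit 13541132562) (nat_lit 76) (nat_lit 106742358089) (nat_lit 3) (nat_lit 5) (nat_lit 5) (nat_lit 5) (nat_lit 4) (nat_lit 4) (nat_lit 320) (nat_lit 254) (nat_lit 206)) (XT.nd (nat_lit 78) (nat_lit 0) (nat_lit 0) (XT.lf (nat_lit 0) (nat_lit 694106724) (nat_lit 76) (nat_lit 6765196638) (nat_lit 152) (nat_lit 122583094766) (nat_lit 2) (nat_lit 5) (nat_lit 3) (nat_lit 5) (nat_lit 4) (nat_lit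 4) (nat_lit 321) (nat_lit 254) (nat_lit 205)) (XT.lf (nat_lit 0) (nat_lit 15201652773) (nat_lit 152) (nat_lit 123551921121) (nat_lit 0) (nat_lit 1275032869) (nat_lit 2) (nat_lit 5) (nat_lit 4) (nat_lit 4) (nat_lit 2) (nat_lit 4) (nat_lit 322) (nat_lit 254) (nat_lit 204)))))) (XT.nd (nat_lit 390) (nat_lit 0) (nat_lit 0) (XT.nd (nat_lit 156) (nat_lit 0) (nat_lit 0) (XT.nd (nat_lit 78) (nat_lit 0) (nat_lit 0) (XT.lf (nat_lit 0) (nat_lit 23651047134) (nat_lit 152) (nat_lit 117456338446) (nat_lit 0) (nat_lit 9701953042) (nat_lit 2) (nat_lit 5) (nat_lit 4) (nat_lit 4) (nat_lit 2) (nat_lit 4) (nat_lit 323) (nat_lit 254) (nat_lit 203)) (XT.lf (nat_lit 0) (nat_lit 32751933251) (nat_lit 152) (nat_lit 110919797730) (nat_lit 0) (nat_lit 18782029726) (nat_lit 2) (nat_lit 5) (nat_lit 4) (nat_lit 4) (nat_lit 2) (nat_lit 4) (nat_lit 324) (nat_lit 254) (nat_lit 202))) (XT.nd (nat_lit 78) (nat_lit 0) (nat_lit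 0) (XT.lf (nat_lit 0) (nat_lit 42558242303) (nat_lit 152) (nat_lit 103903563914) (nat_lit 0) (nat_lit 28569070783) (nat_lit 2) (nat_lit 5) (nat_lit 4) (nat_lit 4) (nat_lit 2) (nat_lit 4) (nat_lit 325) (nat_lit 254) (nat_lit 201)) (XT.nd (nat_lit 78) (nat_lit 0) (nat_lit 0) (XT.lf (nat_lit 0) (nat_lit 53128085749) (nat_lit 152) (nat_lit 96366059319) (nat_lit 0) (nat_lit 39121073494) (nat_lit 2) (nat_lit 5) (nat_lit 4) (nat_lit 4) (nat_lit 2) (nat_lit 4) (nat_lit 326) (nat_lit 254) (nat_lit 200)) (XT.lf (nat_lit 0) (nat_lit 64524099699) (nat_lit 152) (nat_lit 88262617250) (nat_lit 0) (nat_lit 50500568245) (nat_lit 2) (nat_lit 5) (nat_lit 4) (nat_lit 4) (nat_lit 2) (nat_lit 4) (nat_lit 327) (nat_lit 254) (nat_lit 199))))) (XT.nd (nat_lit 234) (nat_lit 0) (nat_lit 0) (XT.nd (nat_lit 78) (nat_lit 0) (nat_lit 0) (XT.lf (nat_lit 0) (nat_lit 76813816088) (nat_lit 152) (nat_lit 79545217310) (nat_lit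 0) (nat_lit 62774989079) (nat_lit 2) (nat_lit 5) (nat_lit 4) (nat_lit 4) (nat_lit 2) (nat_lit 4) (nat_lit 328) (nat_lit 254) (nat_lit 198)) (XT.nd (nat_lit 78) (nat_lit 0) (nat_lit 0) (XT.lf (nat_lit 0) (nat_lit 90070062864) (nat_lit 152) (nat_lit 70162200832) (nat_lit 0) (nat_lit 76017073304) (nat_lit 2) (nat_lit 5) (nat_lit 4) (nat_lit 4) (nat_lit 2) (nat_lit 4) (nat_lit 329) (nat_lit 254) (nat_lit 197)) (XT.lf (nat_lit 0) (nat_lit 104371395564) (nat_lit 152) (nat_lit 60057964756) (nat_lit 0) (nat_lit 90305292532) (nat_lit 2) (nat_lit 5) (nat_lit 4) (nat_lit 4) (nat_lit 2) (nat_lit 4) (nat_lit 330) (nat_lit 254) (nat_lit 196)))) (XT.nd (nat_lit 78) (nat_lit 0) (nat_lit 0) (XT.lf (nat_lit 0) (nat_lit 119802562826) (nat_lit 152) (nat_lit 49172632127) (nat_lit 0) (nat_lit 105724317690) (nat_lit 2) (nat_lit 5) (nat_lit 4) (nat_lit 4) (nat_lit 2) (nat_lit 4) (nat_lit 331) (nat_lit 254) (nat_lit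 195)) (XT.nd (nat_lit 78) (nat_lit 0) (nat_lit 0) (XT.lf (nat_lit 0) (nat_lit 136455008605) (nat_lit 152) (nat_lit 37441697270) (nat_lit 0) (nat_lit 122365520779) (nat_lit 2) (nat_lit 5) (nat_lit 4) (nat_lit 4) (nat_lit 2) (nat_lit 4) (nat_lit 332) (nat_lit 254) (nat_lit 194)) (XT.lf (nat_lit 0) (nat_lit 154427414061) (nat_lit 152) (nat_lit 24795643535) (nat_lit 0) (nat_lit 140327516337) (nat_lit 2) (nat_lit 5) (nat_lit 4) (nat_lit 4) (nat_lit 2) (nat_lit 4) (nat_lit 333) (nat_lit 254) (nat_lit 193))))))))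
noncomputable def xc37 : XT := (XT.nd (nat_lit 36114) (nat_lit 0) (nat_lit 988) (XT.nd (nat_lit 780) (nat_lit 0) (nat_lit 0) (XT.nd (nat_lit 390) (nat_lit 0) (nat_lit 0) (XT.nd (nat_lit 156) (nat_lit 0) (nat_lit 0) (XT.nd (nat_lit 78) (nat_lit 76) (nat_lit 0) (XT.lf (nat_lit 0) (nat_lit 173826282336) (nat_lit 152) (nat_lit 11159531343) (nat_lit 0) (nat_lit 159716745818) (nat_lit 2) (nat_lit 5) (nat_lit 4) (nat_lit 4) (nat_lit 2) (nat_lit 4) (nat_lit 334) (nat_lit 254) (nat_lit 192)) (XT.lf (nat_lit 0) (nat_lit 3664740477) (nat_lit 76) (nat_lit 191159046080) (nat_lit 76) (nat_lit 177040584753) (nat_lit 1) (nat_lit 4) (nat_lit 2) (nat_lit 5) (nat_lit 2) (nat_lit 4) (nat_lit 335) (nat_lit 254) (nat_lit 191))) (XT.nd (nat_lit 78) (nat_lit 0) (nat_lit 0) (XT.lf (nat_lit 0) (nat_lit 20054303595) (nat_lit 76) (nat_lit 197631166994) (nat_lit 76) (nat_lit 183504441954) (nat_lit 1) (nat_lit 4) (nat_lit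 2) (nat_lit 5) (nat_lit 2) (nat_lit 4) (nat_lit 336) (nat_lit 254) (nat_lit 190)) (XT.nd (nat_lit 78) (nat_lit 0) (nat_lit 0) (XT.lf (nat_lit 0) (nat_lit 37737296844) (nat_lit 76) (nat_lit 204629521793) (nat_lit 76) (nat_lit 190495145168) (nat_lit 1) (nat_lit 4) (nat_lit 2) (nat_lit 5) (nat_lit 2) (nat_lit 4) (nat_lit 337) (nat_lit 254) (nat_lit 189)) (XT.lf (nat_lit 0) (nat_lit 56818508330) (nat_lit 76) (nat_lit 212195582210) (nat_lit 76) (nat_lit 198054120784) (nat_lit 1) (nat_lit 4) (nat_lit 2) (nat_lit 5) (nat_lit 2) (nat_lit 4) (nat_lit 338) (nat_lit 254) (nat_lit 188))))) (XT.nd (nat_lit 156) (nat_lit 0) (nat_lit 0) (XT.nd (nat_lit 78) (nat_lit 0) (nat_lit 0) (XT.lf (nat_lit 0) (nat_lit 77411011902) (nat_lit 76) (nat_lit 220374184159) (nat_lit 76) (nat_lit 206226162731) (nat_lit 1) (nat_lit 4) (nat_lit 2) (nat_lit 5) (nat_lit 2) (nat_lit 4) (nat_lit 339) (nat_lit 254) (nat_lit 187))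 (XT.lf (nat_lit 0) (nat_lit 99636837208) (nat_lit 76) (nat_lit 229213793428) (nat_lit 76) (nat_lit 215059697926) (nat_lit 1) (nat_lit 4) (nat_lit 2) (nat_lit 5) (nat_lit 2) (nat_lit 4) (nat_lit 340) (nat_lit 254) (nat_lit 186))) (XT.nd (nat_lit 78) (nat_lit 0) (nat_lit 0) (XT.lf (nat_lit 0) (nat_lit 123627692844) (nat_lit 76) (nat_lit 238766792888) (nat_lit 76) (nat_lit 224607073242) (nat_lit 1) (nat_lit 4) (nat_lit 2) (nat_lit 5) (nat_lit 2) (nat_lit 4) (nat_lit 341) (nat_lit 254) (nat_lit 185)) (XT.nd (nat_lit 78) (nat_lit 0) (nat_lit 0) (XT.lf (nat_lit 0) (nat_lit 149525746842) (nat_lit 76) (nat_lit 249089792906) (nat_lit 76) (nat_lit 234924865719) (nat_lit 1) (nat_lit 4) (nat_lit 2) (nat_lit 5) (nat_lit 2) (nat_lit 4) (nat_lit 342) (nat_lit 254) (nat_lit 184)) (XT.lf (nat_lit 0) (nat_lit 177484469153) (nat_lit 76) (nat_lit 260243966814) (nat_lit 76) (nat_lit 246074217831) (nat_lit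 1) (nat_lit 4) (nat_lit 2) (nat_lit 5) (nat_lit 2) (nat_lit 4) (nat_lit 343) (nat_lit 254) (nat_lit 183)))))) (XT.nd (nat_lit 34866) (nat_lit 0) (nat_lit 4636) (XT.nd (nat_lit 156) (nat_lit 0) (nat_lit 0) (XT.nd (nat_lit 78) (nat_lit 0) (nat_lit 0) (XT.lf (nat_lit 0) (nat_lit 207669541094) (nat_lit 76) (nat_lit 272295413422) (nat_lit 76) (nat_lit 258121199812) (nat_lit 1) (nat_lit 4) (nat_lit 2) (nat_lit 5) (nat_lit 2) (nat_lit 4) (nat_lit 344) (nat_lit 254) (nat_lit 182)) (XT.lf (nat_lit 0) (nat_lit 240259837165) (nat_lit 76) (nat_lit 285315548710) (nat_lit 76) (nat_lit 271137201186) (nat_lit 1) (nat_lit 4) (nat_lit 2) (nat_lit 5) (nat_lit 2) (nat_lit 4) (nat_lit 345) (nat_lit 254) (nat_lit 181))) (XT.nd (nat_lit 78) (nat_lit 0) (nat_lit 0) (XT.lf (nat_lit 0) (nat_lit 275448485047) (nat_lit 76) (nat_lit 299381529034) (nat_lit 76) (nat_lit 285199353812) (nat_lit 1) (nat_lit 4) (nat_lit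 2) (nat_lit 5) (nat_lit 2) (nat_lit 4) (nat_lit 346) (nat_lit 254) (nat_lit 180)) (XT.nd (nat_lit 78) (nat_lit 0) (nat_lit 0) (XT.lf (nat_lit 0) (nat_lit 313444010061) (nat_lit 76) (nat_lit 314576708352) (nat_lit 76) (nat_lit 300390988965) (nat_lit 1) (nat_lit 4) (nat_lit 2) (nat_lit 5) (nat_lit 2) (nat_lit 4) (nat_lit 347) (nat_lit 254) (nat_lit 179)) (XT.lf (nat_lit 0) (nat_lit 354471570872) (nat_lit 76) (nat_lit 330991132171) (nat_lit 76) (nat_lit 316802131151) (nat_lit 1) (nat_lit 4) (nat_lit 2) (nat_lit 5) (nat_lit 2) (nat_lit 4) (nat_lit 348) (nat_lit 254) (nat_lit 178))))) (XT.nd (nat_lit 234) (nat_lit 1064) (nat_lit 0) (XT.nd (nat_lit 78) (nat_lit 988) (nat_lit 0) (XT.lf (nat_lit 0) (nat_lit 732858906) (nat_lit 684) (nat_lit 1437705178) (nat_lit 684) (nat_lit 1437705178) (nat_lit 89) (nat_lit 4) (nat_lit 98) (nat_lit 5) (nat_lit 98) (nat_lit 4) (nat_lit 270) (nat_lit 255) (nat_lit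 255)) (XT.nd (nat_lit 78) (nat_lit 380) (nat_lit 0) (XT.lf (nat_lit 0) (nat_lit 2094035134) (nat_lit 532) (nat_lit 139634773) (nat_lit 608) (nat_lit 5154066976) (nat_lit 81) (nat_lit 5) (nat_lit 88) (nat_lit 5) (nat_lit 89) (nat_lit 4) (nat_lit 271) (nat_lit 255) (nat_lit 254)) (XT.lf (nat_lit 0) (nat_lit 2768463024) (nat_lit 380) (nat_lit 4685289133) (nat_lit 380) (nat_lit 127286129) (nat_lit 76) (nat_lit 4) (nat_lit 81) (nat_lit 5) (nat_lit 81) (nat_lit 4) (nat_lit 272) (nat_lit 255) (nat_lit 253)))) (XT.nd (nat_lit 78) (nat_lit 684) (nat_lit 0) (XT.lf (nat_lit 0) (nat_lit 3479482045) (nat_lit 304) (nat_lit 1431010931) (nat_lit 380) (nat_lit 2887051852) (nat_lit 71) (nat_lit 5) (nat_lit 75) (nat_lit 5) (nat_lit 76) (nat_lit 4) (nat_lit 273) (nat_lit 255) (nat_lit 252)) (XT.nd (nat_lit 78) (nat_lit 304) (nat_lit 0) (XT.lf (nat_lit 0) (nat_lit 2070709027) (nat_lit 380) (nat_lit 3817671182)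 (nat_lit 76) (nat_lit 2150328444) (nat_lit 66) (nat_lit 5) (nat_lit 71) (nat_lit 5) (nat_lit 67) (nat_lit 4) (nat_lit 274) (nat_lit 255) (nat_lit 251)) (XT.lf (nat_lit 0) (nat_lit 4970021282) (nat_lit 304) (nat_lit 2195526054) (nat_lit 380) (nat_lit 1139830303) (nat_lit 62) (nat_lit 5) (nat_lit 66) (nat_lit 5) (nat_lit 67) (nat_lit 4) (nat_lit 275) (nat_lit 255) (nat_lit 250))))))) (XT.nd (nat_lit 780) (nat_lit 1216) (nat_lit 0) (XT.nd (nat_lit 390) (nat_lit 988) (nat_lit 0) (XT.nd (nat_lit 156) (nat_lit 760) (nat_lit 0) (XT.nd (nat_lit 78) (nat_lit 304) (nat_lit 0) (XT.lf (nat_lit 0) (nat_lit 3806326637) (nat_lit 380) (nat_lit 2914512658) (nat_lit 76) (nat_lit 1876833626) (nat_lit 57) (nat_lit 5) (nat_lit 62) (nat_lit 5) (nat_lit 58) (nat_lit 4) (nat_lit 276) (nat_lit 255) (nat_lit 249)) (XT.lf (nat_lit 0) (nat_lit 74946787) (nat_lit 304) (nat_lit 2548212489) (nat_lit 76) (nat_lit 6295348151)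 (nat_lit 53) (nat_lit 5) (nat_lit 57) (nat_lit 5) (nat_lit 54) (nat_lit 5) (nat_lit 277) (nat_lit 255) (nat_lit 248))) (XT.nd (nat_lit 78) (nat_lit 532) (nat_lit 0) (XT.lf (nat_lit 0) (nat_lit 5059185852) (nat_lit 304) (nat_lit 2317008707) (nat_lit 76) (nat_lit 1890535708) (nat_lit 50) (nat_lit 5) (nat_lit 54) (nat_lit 5) (nat_lit 51) (nat_lit 4) (nat_lit 278) (nat_lit 255) (nat_lit 247)) (XT.nd (nat_lit 78) (nat_lit 228) (nat_lit 0) (XT.lf (nat_lit 0) (nat_lit 695453307) (nat_lit 304) (nat_lit 2201831022) (nat_lit 76) (nat_lit 6749236633) (nat_lit 46) (nat_lit 5) (nat_lit 50) (nat_lit 5) (nat_lit 47) (nat_lit 5) (nat_lit 279) (nat_lit 255) (nat_lit 246)) (XT.lf (nat_lit 0) (nat_lit 5768316440) (nat_lit 304) (nat_lit 2285028023) (nat_lit 76) (nat_lit 2004037046) (nat_lit 43) (nat_lit 5) (nat_lit 47) (nat_lit 5) (nat_lit 44) (nat_lit 4) (nat_lit 280) (nat_lit 255) (nat_lit 245))))) (XT.nd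 (nat_lit 156) (nat_lit 532) (nat_lit 0) (XT.nd (nat_lit 78) (nat_lit 228) (nat_lit 0) (XT.lf (nat_lit 0) (nat_lit 673262868) (nat_lit 228) (nat_lit 2567930313) (nat_lit 76) (nat_lit 7262115030) (nat_lit 40) (nat_lit 5) (nat_lit 43) (nat_lit 5) (nat_lit 41) (nat_lit 5) (nat_lit 281) (nat_lit 255) (nat_lit 244)) (XT.lf (nat_lit 0) (nat_lit 5829857274) (nat_lit 304) (nat_lit 3141170574) (nat_lit 76) (nat_lit 2013304381) (nat_lit 37) (nat_lit 5) (nat_lit 41) (nat_lit 5) (nat_lit 38) (nat_lit 4) (nat_lit 282) (nat_lit 255) (nat_lit 243))) (XT.nd (nat_lit 78) (nat_lit 380) (nat_lit 0) (XT.lf (nat_lit 0) (nat_lit 7493681542) (nat_lit 152) (nat_lit 3883119453) (nat_lit 228) (nat_lit 128438880) (nat_lit 35) (nat_lit 5) (nat_lit 37) (nat_lit 5) (nat_lit 38) (nat_lit 4) (nat_lit 283) (nat_lit 255) (nat_lit 242)) (XT.nd (nat_lit 78) (nat_lit 152) (nat_lit 0) (XT.lf (nat_lit 0) (nat_lit 5087959576)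 (nat_lit 228) (nat_lit 5294060163) (nat_lit 76) (nat_lit 1684026328) (nat_lit 32) (nat_lit 5) (nat_lit 35) (nat_lit 5) (nat_lit 33) (nat_lit 4) (nat_lit 284) (nat_lit 255) (nat_lit 241)) (XT.lf (nat_lit 0) (nat_lit 5651815466) (nat_lit 152) (nat_lit 5068896131) (nat_lit 228) (nat_lit 1950961871) (nat_lit 30) (nat_lit 5) (nat_lit 32) (nat_lit 5) (nat_lit 33) (nat_lit 4) (nat_lit 285) (nat_lit 255) (nat_lit 240)))))) (XT.nd (nat_lit 390) (nat_lit 608) (nat_lit 0) (XT.nd (nat_lit 156) (nat_lit 304) (nat_lit 0) (XT.nd (nat_lit 78) (nat_lit 76) (nat_lit 0) (XT.lf (nat_lit 0) (nat_lit 3322336791) (nat_lit 228) (nat_lit 9267658243) (nat_lit 76) (nat_lit 735484898) (nat_lit 27) (nat_lit 5) (nat_lit 30) (nat_lit 5) (nat_lit 28) (nat_lit 4) (nat_lit 286) (nat_lit 255) (nat_lit 239)) (XT.lf (nat_lit 0) (nat_lit 1846854304) (nat_lit 76) (nat_lit 7136679639) (nat_lit 152) (nat_lit 5044933686) (nat_lit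 26) (nat_lit 5) (nat_lit 27) (nat_lit 5) (nat_lit 28) (nat_lit 4) (nat_lit 287) (nat_lit 255) (nat_lit 238))) (XT.nd (nat_lit 78) (nat_lit 228) (nat_lit 0) (XT.lf (nat_lit 0) (nat_lit 265740244) (nat_lit 152) (nat_lit 936441919) (nat_lit 76) (nat_lit 13587155994) (nat_lit 25) (nat_lit 5) (nat_lit 27) (nat_lit 5) (nat_lit 26) (nat_lit 5) (nat_lit 288) (nat_lit 255) (nat_lit 237)) (XT.nd (nat_lit 78) (nat_lit 76) (nat_lit 0) (XT.lf (nat_lit 0) (nat_lit 5901322783) (nat_lit 228) (nat_lit 4516449392) (nat_lit 76) (nat_lit 5185490118) (nat_lit 23) (nat_lit 5) (nat_lit 26) (nat_lit 5) (nat_lit 24) (nat_lit 4) (nat_lit 289) (nat_lit 255) (nat_lit 236)) (XT.lf (nat_lit 0) (nat_lit 7544803362) (nat_lit 76) (nat_lit 4421114391) (nat_lit 152) (nat_lit 4517621895) (nat_lit 22) (nat_lit 5) (nat_lit 23) (nat_lit 5) (nat_lit 24) (nat_lit 4) (nat_lit 290) (nat_lit 255) (nat_lit 235))))) (XT.nd (nat_lit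 234) (nat_lit 304) (nat_lit 0) (XT.nd (nat_lit 78) (nat_lit 76) (nat_lit 0) (XT.lf (nat_lit 0) (nat_lit 1036823222) (nat_lit 228) (nat_lit 14378322986) (nat_lit 76) (nat_lit 2018879161) (nat_lit 19) (nat_lit 5) (nat_lit 22) (nat_lit 5) (nat_lit 20) (nat_lit 4) (nat_lit 291) (nat_lit 255) (nat_lit 234)) (XT.nd (nat_lit 78) (nat_lit 76) (nat_lit 0) (XT.lf (nat_lit 0) (nat_lit 6947941771) (nat_lit 228) (nat_lit 2563592648) (nat_lit 76) (nat_lit 8941903395) (nat_lit 19) (nat_lit 5) (nat_lit 22) (nat_lit 5) (nat_lit 20) (nat_lit 4) (nat_lit 292) (nat_lit 255) (nat_lit 233)) (XT.lf (nat_lit 0) (nat_lit 10259453444) (nat_lit 76) (nat_lit 3080517445) (nat_lit 152) (nat_lit 6214142887) (nat_lit 18) (nat_lit 5) (nat_lit 19) (nat_lit 5) (nat_lit 20) (nat_lit 4) (nat_lit 293) (nat_lit 255) (nat_lit 232)))) (XT.nd (nat_lit 78) (nat_lit 152) (nat_lit 0) (XT.lf (nat_lit 0) (nat_lit 3242637807) (nat_lit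 152) (nat_lit 17010535242) (nat_lit 152) (nat_lit 489283540) (nat_lit 16) (nat_lit 4) (nat_lit 18) (nat_lit 5) (nat_lit 18) (nat_lit 4) (nat_lit 294) (nat_lit 255) (nat_lit 231)) (XT.nd (nat_lit 78) (nat_lit 76) (nat_lit 0) (XT.lf (nat_lit 0) (nat_lit 5585893566) (nat_lit 228) (nat_lit 5299294587) (nat_lit 76) (nat_lit 11132597220) (nat_lit 15) (nat_lit 5) (nat_lit 18) (nat_lit 5) (nat_lit 16) (nat_lit 4) (nat_lit 295) (nat_lit 255) (nat_lit 230)) (XT.lf (nat_lit 0) (nat_lit 7887333437) (nat_lit 76) (nat_lit 4234550628) (nat_lit 152) (nat_lit 11273342630) (nat_lit 14) (nat_lit 5) (nat_lit 15) (nat_lit 5) (nat_lit 16) (nat_lit 4) (nat_lit 296) (nat_lit 255) (nat_lit 229))))))))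
noncomputable def xc38 : XT := (XT.nd (nat_lit 1560) (nat_lit 228) (nat_lit 0) (XT.nd (nat_lit 780) (nat_lit 304) (nat_lit 0) (XT.nd (nat_lit 390) (nat_lit 228) (nat_lit 0) (XT.nd (nat_lit 156) (nat_lit 76) (nat_lit 0) (XT.nd (nat_lit 78) (nat_lit 152) (nat_lit 0) (XT.lf (nat_lit 0) (nat_lit 19193871919) (nat_lit 152) (nat_lit 2836414442) (nat_lit 0) (nat_lit 2851999161) (nat_lit 14) (nat_lit 5) (nat_lit 16) (nat_lit 4) (nat_lit 14) (nat_lit 4) (nat_lit 297) (nat_lit 255) (nat_lit 228)) (XT.lf (nat_lit 0) (nat_lit 458760425) (nat_lit 152) (nat_lit 15574639192) (nat_lit 76) (nat_lit 10448388378) (nat_lit 12) (nat_lit 5) (nat_lit 14) (nat_lit 5) (nat_lit 13) (nat_lit 4) (nat_lit 298) (nat_lit 255) (nat_lit 227))) (XT.nd (nat_lit 78) (nat_lit 76) (nat_lit 0) (XT.lf (nat_lit 0) (nat_lit 6837581721) (nat_lit 152) (nat_lit 2658449339) (nat_lit 76) (nat_lit 18711662363) (nat_lit 12) (nat_lit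 5) (nat_lit 14) (nat_lit 5) (nat_lit 13) (nat_lit 4) (nat_lit 299) (nat_lit 255) (nat_lit 226)) (XT.nd (nat_lit 78) (nat_lit 0) (nat_lit 0) (XT.lf (nat_lit 0) (nat_lit 11466912749) (nat_lit 76) (nat_lit 2333534761) (nat_lit 152) (nat_lit 16267595884) (nat_lit 11) (nat_lit 5) (nat_lit 12) (nat_lit 5) (nat_lit 13) (nat_lit 4) (nat_lit 300) (nat_lit 255) (nat_lit 225)) (XT.lf (nat_lit 0) (nat_lit 21350115232) (nat_lit 152) (nat_lit 5529382164) (nat_lit 0) (nat_lit 5196290011) (nat_lit 11) (nat_lit 5) (nat_lit 13) (nat_lit 4) (nat_lit 11) (nat_lit 4) (nat_lit 301) (nat_lit 255) (nat_lit 224))))) (XT.nd (nat_lit 156) (nat_lit 76) (nat_lit 0) (XT.nd (nat_lit 78) (nat_lit 76) (nat_lit 0) (XT.lf (nat_lit 0) (nat_lit 8652915608) (nat_lit 76) (nat_lit 20931178467) (nat_lit 76) (nat_lit 4656090607) (nat_lit 10) (nat_lit 4) (nat_lit 11) (nat_lit 5) (nat_lit 11) (nat_lit 4) (nat_lit 302) (nat_lit 255)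 (nat_lit 223)) (XT.lf (nat_lit 0) (nat_lit 1844941033) (nat_lit 152) (nat_lit 12605238964) (nat_lit 76) (nat_lit 22125782643) (nat_lit 9) (nat_lit 5) (nat_lit 11) (nat_lit 5) (nat_lit 10) (nat_lit 4) (nat_lit 303) (nat_lit 255) (nat_lit 222))) (XT.nd (nat_lit 78) (nat_lit 0) (nat_lit 0) (XT.lf (nat_lit 0) (nat_lit 1220019188) (nat_lit 76) (nat_lit 7419663952) (nat_lit 152) (nat_lit 30458306829) (nat_lit 8) (nat_lit 5) (nat_lit 9) (nat_lit 5) (nat_lit 10) (nat_lit 4) (nat_lit 304) (nat_lit 255) (nat_lit 221)) (XT.nd (nat_lit 78) (nat_lit 0) (nat_lit 0) (XT.lf (nat_lit 0) (nat_lit 16122270029) (nat_lit 152) (nat_lit 25367772475) (nat_lit 0) (nat_lit 324561987) (nat_lit 8) (nat_lit 5) (nat_lit 10) (nat_lit 4) (nat_lit 8) (nat_lit 4) (nat_lit 305) (nat_lit 255) (nat_lit 220)) (XT.lf (nat_lit 0) (nat_lit 24253003598) (nat_lit 152) (nat_lit 12122694768) (nat_lit 0) (nat_lit 8370408260) (nat_lit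 8) (nat_lit 5) (nat_lit 10) (nat_lit 4) (nat_lit 8) (nat_lit 4) (nat_lit 306) (nat_lit 255) (nat_lit 219)))))) (XT.nd (nat_lit 390) (nat_lit 76) (nat_lit 0) (XT.nd (nat_lit 156) (nat_lit 152) (nat_lit 0) (XT.nd (nat_lit 78) (nat_lit 0) (nat_lit 0) (XT.lf (nat_lit 0) (nat_lit 2119428377) (nat_lit 76) (nat_lit 30877886063) (nat_lit 76) (nat_lit 14916691377) (nat_lit 7) (nat_lit 4) (nat_lit 8) (nat_lit 5) (nat_lit 8) (nat_lit 4) (nat_lit 307) (nat_lit 255) (nat_lit 218)) (XT.lf (nat_lit 0) (nat_lit 17809090014) (nat_lit 76) (nat_lit 24776513747) (nat_lit 76) (nat_lit 8742541887) (nat_lit 7) (nat_lit 4) (nat_lit 8) (nat_lit 5) (nat_lit 8) (nat_lit 4) (nat_lit 308) (nat_lit 255) (nat_lit 217))) (XT.nd (nat_lit 78) (nat_lit 152) (nat_lit 0) (XT.lf (nat_lit 0) (nat_lit 34638434877) (nat_lit 76) (nat_lit 18240728839) (nat_lit 76) (nat_lit 2139370707) (nat_lit 7) (nat_lit 4) (nat_lit 8) (nat_lit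 5) (nat_lit 8) (nat_lit 4) (nat_lit 309) (nat_lit 255) (nat_lit 216)) (XT.nd (nat_lit 78) (nat_lit 76) (nat_lit 0) (XT.lf (nat_lit 0) (nat_lit 4774098798) (nat_lit 152) (nat_lit 6376850291) (nat_lit 76) (nat_lit 47852241945) (nat_lit 6) (nat_lit 5) (nat_lit 8) (nat_lit 5) (nat_lit 7) (nat_lit 4) (nat_lit 310) (nat_lit 255) (nat_lit 215)) (XT.lf (nat_lit 0) (nat_lit 8894445066) (nat_lit 76) (nat_lit 3357247987) (nat_lit 152) (nat_lit 51048896493) (nat_lit 5) (nat_lit 5) (nat_lit 6) (nat_lit 5) (nat_lit 7) (nat_lit 4) (nat_lit 311) (nat_lit 255) (nat_lit 214))))) (XT.nd (nat_lit 156) (nat_lit 76) (nat_lit 0) (XT.nd (nat_lit 78) (nat_lit 0) (nat_lit 0) (XT.lf (nat_lit 0) (nat_lit 20467308763) (nat_lit 152) (nat_lit 42500211169) (nat_lit 0) (nat_lit 4967290582) (nat_lit 5) (nat_lit 5) (nat_lit 7) (nat_lit 4) (nat_lit 5) (nat_lit 4) (nat_lit 312) (nat_lit 255) (nat_lit 213)) (XT.lf (nat_lit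 0) (nat_lit 29348553723) (nat_lit 152) (nat_lit 29789452895) (nat_lit 0) (nat_lit 13801363235) (nat_lit 5) (nat_lit 5) (nat_lit 7) (nat_lit 4) (nat_lit 5) (nat_lit 4) (nat_lit 313) (nat_lit 255) (nat_lit 212))) (XT.nd (nat_lit 78) (nat_lit 76) (nat_lit 0) (XT.lf (nat_lit 0) (nat_lit 38895641484) (nat_lit 152) (nat_lit 16146130596) (nat_lit 0) (nat_lit 23304772935) (nat_lit 5) (nat_lit 5) (nat_lit 7) (nat_lit 4) (nat_lit 5) (nat_lit 4) (nat_lit 314) (nat_lit 255) (nat_lit 211)) (XT.nd (nat_lit 78) (nat_lit 76) (nat_lit 0) (XT.lf (nat_lit 0) (nat_lit 49165147381) (nat_lit 152) (nat_lit 1489394955) (nat_lit 0) (nat_lit 33533836182) (nat_lit 5) (nat_lit 5) (nat_lit 7) (nat_lit 4) (nat_lit 5) (nat_lit 4) (nat_lit 315) (nat_lit 255) (nat_lit 210)) (XT.lf (nat_lit 0) (nat_lit 14739360337) (nat_lit 76) (nat_lit 45708690129) (nat_lit 76) (nat_lit 30039932033) (nat_lit 4) (nat_lit 4) (nat_lit 5)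 (nat_lit 5) (nat_lit 5) (nat_lit 4) (nat_lit 316) (nat_lit 255) (nat_lit 209))))))) (XT.nd (nat_lit 780) (nat_lit 76) (nat_lit 0) (XT.nd (nat_lit 390) (nat_lit 76) (nat_lit 0) (XT.nd (nat_lit 156) (nat_lit 76) (nat_lit 0) (XT.nd (nat_lit 78) (nat_lit 0) (nat_lit 0) (XT.lf (nat_lit 0) (nat_lit 32250471887) (nat_lit 76) (nat_lit 40372528894) (nat_lit 76) (nat_lit 24669097744) (nat_lit 4) (nat_lit 4) (nat_lit 5) (nat_lit 5) (nat_lit 5) (nat_lit 4) (nat_lit 317) (nat_lit 255) (nat_lit 208)) (XT.lf (nat_lit 0) (nat_lit 51098463121) (nat_lit 76) (nat_lit 34639660559) (nat_lit 76) (nat_lit 18904124730) (nat_lit 4) (nat_lit 4) (nat_lit 5) (nat_lit 5) (nat_lit 5) (nat_lit 4) (nat_lit 318) (nat_lit 255) (nat_lit 207))) (XT.nd (nat_lit 78) (nat_lit 76) (nat_lit 0) (XT.lf (nat_lit 0) (nat_lit 71395025838) (nat_lit 76) (nat_lit 28476112570) (nat_lit 76) (nat_lit 12710850186) (nat_lit 4) (nat_lit 4)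 (nat_lit 5) (nat_lit 5) (nat_lit 5) (nat_lit 4) (nat_lit 319) (nat_lit 255) (nat_lit 206)) (XT.nd (nat_lit 78) (nat_lit 76) (nat_lit 0) (XT.lf (nat_lit 0) (nat_lit 93260435967) (nat_lit 76) (nat_lit 21845360199) (nat_lit 76) (nat_lit 6052573228) (nat_lit 4) (nat_lit 4) (nat_lit 5) (nat_lit 5) (nat_lit 5) (nat_lit 4) (nat_lit 320) (nat_lit 255) (nat_lit 205)) (XT.lf (nat_lit 0) (nat_lit 1074630464) (nat_lit 152) (nat_lit 13615280247) (nat_lit 76) (nat_lit 115731436455) (nat_lit 3) (nat_lit 5) (nat_lit 5) (nat_lit 5) (nat_lit 4) (nat_lit 4) (nat_lit 321) (nat_lit 255) (nat_lit 204))))) (XT.nd (nat_lit 156) (nat_lit 0) (nat_lit 0) (XT.nd (nat_lit 78) (nat_lit 0) (nat_lit 0) (XT.lf (nat_lit 0) (nat_lit 1714922061) (nat_lit 76) (nat_lit 6849367040) (nat_lit 152) (nat_lit 131855905750) (nat_lit 2) (nat_lit 5) (nat_lit 3) (nat_lit 5) (nat_lit 4) (nat_lit 4) (nat_lit 322) (nat_lit 255) (nat_lit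 203)) (XT.lf (nat_lit 0) (nat_lit 16894986132) (nat_lit 152) (nat_lit 132525198730) (nat_lit 0) (nat_lit 1786680891) (nat_lit 2) (nat_lit 5) (nat_lit 4) (nat_lit 4) (nat_lit 2) (nat_lit 4) (nat_lit 323) (nat_lit 255) (nat_lit 202))) (XT.nd (nat_lit 78) (nat_lit 0) (nat_lit 0) (XT.lf (nat_lit 0) (nat_lit 25984983809) (nat_lit 152) (nat_lit 126009441743) (nat_lit 0) (nat_lit 10857410574) (nat_lit 2) (nat_lit 5) (nat_lit 4) (nat_lit 4) (nat_lit 2) (nat_lit 4) (nat_lit 324) (nat_lit 255) (nat_lit 201)) (XT.nd (nat_lit 78) (nat_lit 0) (nat_lit 0) (XT.lf (nat_lit 0) (nat_lit 35781210972) (nat_lit 152) (nat_lit 119012452123) (nat_lit 0) (nat_lit 20635797002) (nat_lit 2) (nat_lit 5) (nat_lit 4) (nat_lit 4) (nat_lit 2) (nat_lit 4) (nat_lit 325) (nat_lit 255) (nat_lit 200)) (XT.lf (nat_lit 0) (nat_lit 46341719335) (nat_lit 152) (nat_lit 111492766227) (nat_lit 0) (nat_lit 31179786166) (nat_lit 2)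 (nat_lit 5) (nat_lit 4) (nat_lit 4) (nat_lit 2) (nat_lit 4) (nat_lit 326) (nat_lit 255) (nat_lit 199)))))) (XT.nd (nat_lit 390) (nat_lit 76) (nat_lit 0) (XT.nd (nat_lit 156) (nat_lit 0) (nat_lit 0) (XT.nd (nat_lit 78) (nat_lit 0) (nat_lit 0) (XT.lf (nat_lit 0) (nat_lit 57729089690) (nat_lit 152) (nat_lit 103405822953) (nat_lit 0) (nat_lit 42551860966) (nat_lit 2) (nat_lit 5) (nat_lit 4) (nat_lit 4) (nat_lit 2) (nat_lit 4) (nat_lit 327) (nat_lit 255) (nat_lit 198)) (XT.lf (nat_lit 0) (nat_lit 70010802750) (nat_lit 152) (nat_lit 94703699675) (nat_lit 0) (nat_lit 54819411476) (nat_lit 2) (nat_lit 5) (nat_lit 4) (nat_lit 4) (nat_lit 2) (nat_lit 4) (nat_lit 328) (nat_lit 255) (nat_lit 197))) (XT.nd (nat_lit 78) (nat_lit 0) (nat_lit 0) (XT.lf (nat_lit 0) (nat_lit 83259639037) (nat_lit 152) (nat_lit 85334828255) (nat_lit 0) (nat_lit 68055134289) (nat_lit 2) (nat_lit 5) (nat_lit 4) (nat_lit 4)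 (nat_lit 2) (nat_lit 4) (nat_lit 329) (nat_lit 255) (nat_lit 196)) (XT.nd (nat_lit 78) (nat_lit 0) (nat_lit 0) (XT.lf (nat_lit 0) (nat_lit 97554110173) (nat_lit 152) (nat_lit 75243689454) (nat_lit 0) (nat_lit 82337463321) (nat_lit 2) (nat_lit 5) (nat_lit 4) (nat_lit 4) (nat_lit 2) (nat_lit 4) (nat_lit 330) (nat_lit 255) (nat_lit 195)) (XT.lf (nat_lit 0) (nat_lit 112978924135) (nat_lit 152) (nat_lit 64370483932) (nat_lit 0) (nat_lit 97751034594) (nat_lit 2) (nat_lit 5) (nat_lit 4) (nat_lit 4) (nat_lit 2) (nat_lit 4) (nat_lit 331) (nat_lit 255) (nat_lit 194))))) (XT.nd (nat_lit 234) (nat_lit 76) (nat_lit 0) (XT.nd (nat_lit 78) (nat_lit 0) (nat_lit 0) (XT.lf (nat_lit 0) (nat_lit 129625487229) (nat_lit 152) (nat_lit 52650777878) (nat_lit 0) (nat_lit 114387187789) (nat_lit 2) (nat_lit 5) (nat_lit 4) (nat_lit 4) (nat_lit 2) (nat_lit 4) (nat_lit 332) (nat_lit 255) (nat_lit 193)) (XT.nd (nat_lit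 78) (nat_lit 0) (nat_lit 0) (XT.lf (nat_lit 0) (nat_lit 147592445753) (nat_lit 152) (nat_lit 40015121182) (nat_lit 0) (nat_lit 132344507520) (nat_lit 2) (nat_lit 5) (nat_lit 4) (nat_lit 4) (nat_lit 2) (nat_lit 4) (nat_lit 333) (nat_lit 255) (nat_lit 192)) (XT.lf (nat_lit 0) (nat_lit 166986270574) (nat_lit 152) (nat_lit 26388635879) (nat_lit 0) (nat_lit 151729407531) (nat_lit 2) (nat_lit 5) (nat_lit 4) (nat_lit 4) (nat_lit 2) (nat_lit 4) (nat_lit 334) (nat_lit 255) (nat_lit 191)))) (XT.nd (nat_lit 78) (nat_lit 76) (nat_lit 0) (XT.lf (nat_lit 0) (nat_lit 187921888060) (nat_lit 152) (nat_lit 11690572426) (nat_lit 0) (nat_lit 172656761305) (nat_lit 2) (nat_lit 5) (nat_lit 4) (nat_lit 4) (nat_lit 2) (nat_lit 4) (nat_lit 335) (nat_lit 255) (nat_lit 190)) (XT.nd (nat_lit 78) (nat_lit 0) (nat_lit 0) (XT.lf (nat_lit 0) (nat_lit 4303921167) (nat_lit 76) (nat_lit 206286636234) (nat_lit 76) (nat_lit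 191013857894) (nat_lit 1) (nat_lit 4) (nat_lit 2) (nat_lit 5) (nat_lit 2) (nat_lit 4) (nat_lit 336) (nat_lit 255) (nat_lit 189)) (XT.lf (nat_lit 0) (nat_lit 21979019598) (nat_lit 76) (nat_lit 213288758935) (nat_lit 76) (nat_lit 198008895793) (nat_lit 1) (nat_lit 4) (nat_lit 2) (nat_lit 5) (nat_lit 2) (nat_lit 4) (nat_lit 337) (nat_lit 255) (nat_lit 188))))))))
noncomputable def xc39 : XT := (XT.nd (nat_lit 35958) (nat_lit 0) (nat_lit 912) (XT.nd (nat_lit 780) (nat_lit 0) (nat_lit 0) (XT.nd (nat_lit 390) (nat_lit 0) (nat_lit 0) (XT.nd (nat_lit 156) (nat_lit 0) (nat_lit 0) (XT.nd (nat_lit 78) (nat_lit 0) (nat_lit 0) (XT.lf (nat_lit 0) (nat_lit 41052921068) (nat_lit 76) (nat_lit 220858308149) (nat_lit 76) (nat_lit 205571885006) (nat_lit 1) (nat_lit 4) (nat_lit 2) (nat_lit 5) (nat_lit 2) (nat_lit 4) (nat_lit 338) (nat_lit 255) (nat_lit 187)) (XT.lf (nat_lit 0) (nat_lit 61638656105) (nat_lit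 76) (nat_lit 229040140466) (nat_lit 76) (nat_lit 213747643247) (nat_lit 1) (nat_lit 4) (nat_lit 2) (nat_lit 5) (nat_lit 2) (nat_lit 4) (nat_lit 339) (nat_lit 255) (nat_lit 186))) (XT.nd (nat_lit 78) (nat_lit 0) (nat_lit 0) (XT.lf (nat_lit 0) (nat_lit 83858214250) (nat_lit 76) (nat_lit 237882740816) (nat_lit 76) (nat_lit 222584619454) (nat_lit 1) (nat_lit 4) (nat_lit 2) (nat_lit 5) (nat_lit 2) (nat_lit 4) (nat_lit 340) (nat_lit 255) (nat_lit 185)) (XT.nd (nat_lit 78) (nat_lit 0) (nat_lit 0) (XT.lf (nat_lit 0) (nat_lit 107843266959) (nat_lit 76) (nat_lit 247438509796) (nat_lit 76) (nat_lit 232135180893) (nat_lit 1) (nat_lit 4) (nat_lit 2) (nat_lit 5) (nat_lit 2) (nat_lit 4) (nat_lit 341) (nat_lit 255) (nat_lit 184)) (XT.lf (nat_lit 0) (nat_lit 133735947877) (nat_lit 76) (nat_lit 257764074183) (nat_lit 76) (nat_lit 242455923484) (nat_lit 1) (nat_lit 4) (nat_lit 2) (nat_lit 5) (nat_lit 2)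 (nat_lit 4) (nat_lit 342) (nat_lit 255) (nat_lit 183))))) (XT.nd (nat_lit 156) (nat_lit 0) (nat_lit 0) (XT.nd (nat_lit 78) (nat_lit 0) (nat_lit 0) (XT.lf (nat_lit 0) (nat_lit 161689695114) (nat_lit 76) (nat_lit 268920622508) (nat_lit 76) (nat_lit 253608007183) (nat_lit 1) (nat_lit 4) (nat_lit 2) (nat_lit 5) (nat_lit 2) (nat_lit 4) (nat_lit 343) (nat_lit 255) (nat_lit 182)) (XT.lf (nat_lit 0) (nat_lit 191870160504) (nat_lit 76) (nat_lit 280974267650) (nat_lit 76) (nat_lit 265657518411) (nat_lit 1) (nat_lit 4) (nat_lit 2) (nat_lit 5) (nat_lit 2) (nat_lit 4) (nat_lit 344) (nat_lit 255) (nat_lit 181))) (XT.nd (nat_lit 78) (nat_lit 0) (nat_lit 0) (XT.lf (nat_lit 0) (nat_lit 224456191251) (nat_lit 76) (nat_lit 293996438617) (nat_lit 76) (nat_lit 278675861680) (nat_lit 1) (nat_lit 4) (nat_lit 2) (nat_lit 5) (nat_lit 2) (nat_lit 4) (nat_lit 345) (nat_lit 255) (nat_lit 180)) (XT.nd (nat_lit 78)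 (nat_lit 0) (nat_lit 0) (XT.lf (nat_lit 0) (nat_lit 259640889758) (nat_lit 76) (nat_lit 308064303830) (nat_lit 76) (nat_lit 292740182728) (nat_lit 1) (nat_lit 4) (nat_lit 2) (nat_lit 5) (nat_lit 2) (nat_lit 4) (nat_lit 346) (nat_lit 255) (nat_lit 179)) (XT.lf (nat_lit 0) (nat_lit 297632757943) (nat_lit 76) (nat_lit 323261228415) (nat_lit 76) (nat_lit 307933825679) (nat_lit 1) (nat_lit 4) (nat_lit 2) (nat_lit 5) (nat_lit 2) (nat_lit 4) (nat_lit 347) (nat_lit 255) (nat_lit 178)))))) (XT.nd (nat_lit 34710) (nat_lit 0) (nat_lit 3952) (XT.nd (nat_lit 34476) (nat_lit 0) (nat_lit 6080) (XT.nd (nat_lit 34398) (nat_lit 0) (nat_lit 8056) (XT.lf (nat_lit 0) (nat_lit 338656932803) (nat_lit 76) (nat_lit 339677268222) (nat_lit 76) (nat_lit 324346826937) (nat_lit 1) (nat_lit 4) (nat_lit 2) (nat_lit 5) (nat_lit 2) (nat_lit 4) (nat_lit 348) (nat_lit 255) (nat_lit 177)) (XT.lf (nat_lit 0) (nat_lit 349475455)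 (nat_lit 532) (nat_lit 1558385782) (nat_lit 532) (nat_lit 1558385782) (nat_lit 107) (nat_lit 4) (nat_lit 114) (nat_lit 5) (nat_lit 114) (nat_lit 4) (nat_lit 268) (nat_lit 256) (nat_lit 256))) (XT.nd (nat_lit 78) (nat_lit 1292) (nat_lit 0) (XT.lf (nat_lit 0) (nat_lit 942768434) (nat_lit 608) (nat_lit 891741334) (nat_lit 684) (nat_lit 5234364777) (nat_lit 98) (nat_lit 5) (nat_lit 106) (nat_lit 5) (nat_lit 107) (nat_lit 4) (nat_lit 269) (nat_lit 256) (nat_lit 255)) (XT.nd (nat_lit 78) (nat_lit 608) (nat_lit 0) (XT.lf (nat_lit 0) (nat_lit 1266459992) (nat_lit 684) (nat_lit 5564524629) (nat_lit 684) (nat_lit 395749222) (nat_lit 89) (nat_lit 4) (nat_lit 98) (nat_lit 5) (nat_lit 98) (nat_lit 4) (nat_lit 270) (nat_lit 256) (nat_lit 254)) (XT.lf (nat_lit 0) (nat_lit 1640359914) (nat_lit 532) (nat_lit 2803567060) (nat_lit 608) (nat_lit 2962011315) (nat_lit 81) (nat_lit 5) (nat_lit 88) (nat_lit 5)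 (nat_lit 89) (nat_lit 4) (nat_lit 271) (nat_lit 256) (nat_lit 253))))) (XT.nd (nat_lit 234) (nat_lit 988) (nat_lit 0) (XT.nd (nat_lit 78) (nat_lit 684) (nat_lit 0) (XT.lf (nat_lit 0) (nat_lit 1770576963) (nat_lit 456) (nat_lit 5513333620) (nat_lit 76) (nat_lit 325510486) (nat_lit 75) (nat_lit 5) (nat_lit 81) (nat_lit 5) (nat_lit 76) (nat_lit 4) (nat_lit 272) (nat_lit 256) (nat_lit 252)) (XT.nd (nat_lit 78) (nat_lit 380) (nat_lit 0) (XT.lf (nat_lit 0) (nat_lit 2558196938) (nat_lit 304) (nat_lit 4066164377) (nat_lit 380) (nat_lit 1210822107) (nat_lit 71) (nat_lit 5) (nat_lit 75) (nat_lit 5) (nat_lit 76) (nat_lit 4) (nat_lit 273) (nat_lit 256) (nat_lit 251)) (XT.lf (nat_lit 0) (nat_lit 3047214907) (nat_lit 304) (nat_lit 433516891) (nat_lit 380) (nat_lit 4605251473) (nat_lit 66) (nat_lit 5) (nat_lit 70) (nat_lit 5) (nat_lit 71) (nat_lit 5) (nat_lit 274) (nat_lit 256) (nat_lit 250)))) (XT.nd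 (nat_lit 78) (nat_lit 608) (nat_lit 0) (XT.lf (nat_lit 0) (nat_lit 32774139) (nat_lit 380) (nat_lit 4838719522) (nat_lit 76) (nat_lit 3490414299) (nat_lit 61) (nat_lit 5) (nat_lit 66) (nat_lit 5) (nat_lit 62) (nat_lit 5) (nat_lit 275) (nat_lit 256) (nat_lit 249)) (XT.nd (nat_lit 78) (nat_lit 304) (nat_lit 0) (XT.lf (nat_lit 0) (nat_lit 3954819236) (nat_lit 304) (nat_lit 785227638) (nat_lit 380) (nat_lit 3923645286) (nat_lit 57) (nat_lit 5) (nat_lit 61) (nat_lit 5) (nat_lit 62) (nat_lit 5) (nat_lit 276) (nat_lit 256) (nat_lit 248)) (XT.lf (nat_lit 0) (nat_lit 730491725) (nat_lit 304) (nat_lit 4662292779) (nat_lit 76) (nat_lit 3600512042) (nat_lit 53) (nat_lit 5) (nat_lit 57) (nat_lit 5) (nat_lit 54) (nat_lit 5) (nat_lit 277) (nat_lit 256) (nat_lit 247))))))) (XT.nd (nat_lit 780) (nat_lit 1064) (nat_lit 0) (XT.nd (nat_lit 390) (nat_lit 760) (nat_lit 0) (XT.nd (nat_lit 156) (nat_lit 684)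 (nat_lit 0) (XT.nd (nat_lit 78) (nat_lit 304) (nat_lit 0) (XT.lf (nat_lit 0) (nat_lit 4613995396) (nat_lit 228) (nat_lit 901137937) (nat_lit 304) (nat_lit 3836577065) (nat_lit 50) (nat_lit 5) (nat_lit 53) (nat_lit 5) (nat_lit 54) (nat_lit 5) (nat_lit 278) (nat_lit 256) (nat_lit 246)) (XT.lf (nat_lit 0) (nat_lit 869949661) (nat_lit 304) (nat_lit 4966810837) (nat_lit 76) (nat_lit 3903867080) (nat_lit 46) (nat_lit 5) (nat_lit 50) (nat_lit 5) (nat_lit 47) (nat_lit 5) (nat_lit 279) (nat_lit 256) (nat_lit 245))) (XT.nd (nat_lit 78) (nat_lit 456) (nat_lit 0) (XT.lf (nat_lit 0) (nat_lit 4771763919) (nat_lit 228) (nat_lit 970195672) (nat_lit 304) (nat_lit 4419743594) (nat_lit 43) (nat_lit 5) (nat_lit 46) (nat_lit 5) (nat_lit 47) (nat_lit 5) (nat_lit 280) (nat_lit 256) (nat_lit 244)) (XT.nd (nat_lit 78) (nat_lit 228) (nat_lit 0) (XT.lf (nat_lit 0) (nat_lit 360346279) (nat_lit 228) (nat_lit 6044121148)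 (nat_lit 76) (nat_lit 4212737530) (nat_lit 40) (nat_lit 5) (nat_lit 43) (nat_lit 5) (nat_lit 41) (nat_lit 5) (nat_lit 281) (nat_lit 256) (nat_lit 243)) (XT.lf (nat_lit 0) (nat_lit 4114142167) (nat_lit 228) (nat_lit 1200116659) (nat_lit 304) (nat_lit 5794245008) (nat_lit 37) (nat_lit 5) (nat_lit 40) (nat_lit 5) (nat_lit 41) (nat_lit 5) (nat_lit 282) (nat_lit 256) (nat_lit 242))))) (XT.nd (nat_lit 156) (nat_lit 380) (nat_lit 0) (XT.nd (nat_lit 78) (nat_lit 228) (nat_lit 0) (XT.lf (nat_lit 0) (nat_lit 3363201382) (nat_lit 152) (nat_lit 7308252712) (nat_lit 228) (nat_lit 967575148) (nat_lit 35) (nat_lit 5) (nat_lit 37) (nat_lit 5) (nat_lit 38) (nat_lit 4) (nat_lit 283) (nat_lit 256) (nat_lit 241)) (XT.lf (nat_lit 0) (nat_lit 2243255824) (nat_lit 152) (nat_lit 1831259149) (nat_lit 228) (nat_lit 8136148758) (nat_lit 32) (nat_lit 5) (nat_lit 34) (nat_lit 5) (nat_lit 35) (nat_lit 5) (nat_lit 284)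 (nat_lit 256) (nat_lit 240))) (XT.nd (nat_lit 78) (nat_lit 228) (nat_lit 0) (XT.lf (nat_lit 0) (nat_lit 690901218) (nat_lit 152) (nat_lit 8811825511) (nat_lit 228) (nat_lit 3323897839) (nat_lit 30) (nat_lit 5) (nat_lit 32) (nat_lit 5) (nat_lit 33) (nat_lit 4) (nat_lit 285) (nat_lit 256) (nat_lit 239)) (XT.nd (nat_lit 78) (nat_lit 152) (nat_lit 0) (XT.lf (nat_lit 0) (nat_lit 1822753494) (nat_lit 228) (nat_lit 1308205600) (nat_lit 76) (nat_lit 10359167049) (nat_lit 29) (nat_lit 5) (nat_lit 32) (nat_lit 5) (nat_lit 30) (nat_lit 5) (nat_lit 286) (nat_lit 256) (nat_lit 238)) (XT.lf (nat_lit 0) (nat_lit 7293477191) (nat_lit 228) (nat_lit 3888830442) (nat_lit 76) (nat_lit 3020416774) (nat_lit 27) (nat_lit 5) (nat_lit 30) (nat_lit 5) (nat_lit 28) (nat_lit 4) (nat_lit 287) (nat_lit 256) (nat_lit 237)))))) (XT.nd (nat_lit 390) (nat_lit 456) (nat_lit 0) (XT.nd (nat_lit 156) (nat_lit 304) (nat_lit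 0) (XT.nd (nat_lit 78) (nat_lit 228) (nat_lit 0) (XT.lf (nat_lit 0) (nat_lit 7848864916) (nat_lit 76) (nat_lit 5375636013) (nat_lit 152) (nat_lit 1746864853) (nat_lit 26) (nat_lit 5) (nat_lit 27) (nat_lit 5) (nat_lit 28) (nat_lit 4) (nat_lit 288) (nat_lit 256) (nat_lit 236)) (XT.lf (nat_lit 0) (nat_lit 3693211853) (nat_lit 228) (nat_lit 11144236910) (nat_lit 76) (nat_lit 961846600) (nat_lit 23) (nat_lit 5) (nat_lit 26) (nat_lit 5) (nat_lit 24) (nat_lit 4) (nat_lit 289) (nat_lit 256) (nat_lit 235))) (XT.nd (nat_lit 78) (nat_lit 228) (nat_lit 0) (XT.lf (nat_lit 0) (nat_lit 559898250) (nat_lit 76) (nat_lit 9010293237) (nat_lit 152) (nat_lit 7118827695) (nat_lit 22) (nat_lit 5) (nat_lit 23) (nat_lit 5) (nat_lit 24) (nat_lit 4) (nat_lit 290) (nat_lit 256) (nat_lit 234)) (XT.nd (nat_lit 78) (nat_lit 228) (nat_lit 0) (XT.lf (nat_lit 0) (nat_lit 13332595543) (nat_lit 76) (nat_lit 2623407220) (nat_lit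 152) (nat_lit 1692111005) (nat_lit 22) (nat_lit 5) (nat_lit 23) (nat_lit 5) (nat_lit 24) (nat_lit 4) (nat_lit 291) (nat_lit 256) (nat_lit 233)) (XT.lf (nat_lit 0) (nat_lit 4088307966) (nat_lit 228) (nat_lit 10354068099) (nat_lit 76) (nat_lit 4235767605) (nat_lit 19) (nat_lit 5) (nat_lit 22) (nat_lit 5) (nat_lit 20) (nat_lit 4) (nat_lit 292) (nat_lit 256) (nat_lit 232))))) (XT.nd (nat_lit 234) (nat_lit 152) (nat_lit 0) (XT.nd (nat_lit 78) (nat_lit 228) (nat_lit 0) (XT.lf (nat_lit 0) (nat_lit 2089417233) (nat_lit 76) (nat_lit 8195628654) (nat_lit 152) (nat_lit 9503587972) (nat_lit 18) (nat_lit 5) (nat_lit 19) (nat_lit 5) (nat_lit 20) (nat_lit 4) (nat_lit 293) (nat_lit 256) (nat_lit 231)) (XT.nd (nat_lit 78) (nat_lit 228) (nat_lit 0) (XT.lf (nat_lit 0) (nat_lit 15663211905) (nat_lit 76) (nat_lit 1360553789) (nat_lit 152) (nat_lit 3961981086) (nat_lit 18) (nat_lit 5) (nat_lit 19) (nat_lit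 5) (nat_lit 20) (nat_lit 4) (nat_lit 294) (nat_lit 256) (nat_lit 230)) (XT.lf (nat_lit 0) (nat_lit 2052659217) (nat_lit 228) (nat_lit 14323732311) (nat_lit 76) (nat_lit 5896019758) (nat_lit 15) (nat_lit 5) (nat_lit 18) (nat_lit 5) (nat_lit 16) (nat_lit 4) (nat_lit 295) (nat_lit 256) (nat_lit 229)))) (XT.nd (nat_lit 78) (nat_lit 152) (nat_lit 0) (XT.lf (nat_lit 0) (nat_lit 8406998850) (nat_lit 228) (nat_lit 1493773561) (nat_lit 76) (nat_lit 13758200291) (nat_lit 15) (nat_lit 5) (nat_lit 18) (nat_lit 5) (nat_lit 16) (nat_lit 4) (nat_lit 296) (nat_lit 256) (nat_lit 228)) (XT.nd (nat_lit 78) (nat_lit 76) (nat_lit 0) (XT.lf (nat_lit 0) (nat_lit 12563977327) (nat_lit 76) (nat_lit 2789186138) (nat_lit 152) (nat_lit 9799193996) (nat_lit 14) (nat_lit 5) (nat_lit 15) (nat_lit 5) (nat_lit 16) (nat_lit 4) (nat_lit 297) (nat_lit 256) (nat_lit 227)) (XT.lf (nat_lit 0) (nat_lit 788090036) (nat_lit 76)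 (nat_lit 22073395858) (nat_lit 76) (nat_lit 3903470838) (nat_lit 13) (nat_lit 4) (nat_lit 14) (nat_lit 5) (nat_lit 14) (nat_lit 4) (nat_lit 298) (nat_lit 256) (nat_lit 226))))))))
noncomputable def xc40 : XT := (XT.nd (nat_lit 1560) (nat_lit 228) (nat_lit 0) (XT.nd (nat_lit 780) (nat_lit 228) (nat_lit 0) (XT.nd (nat_lit 390) (nat_lit 228) (nat_lit 0) (XT.nd (nat_lit 156) (nat_lit 76) (nat_lit 0) (XT.nd (nat_lit 78) (nat_lit 76) (nat_lit 0) (XT.lf (nat_lit 0) (nat_lit 2549664818) (nat_lit 152) (nat_lit 13091624922) (nat_lit 76) (nat_lit 12855179069) (nat_lit 12) (nat_lit 5) (nat_lit 14) (nat_lit 5) (nat_lit 13) (nat_lit 4) (nat_lit 299) (nat_lit 256) (nat_lit 225)) (XT.lf (nat_lit 0) (nat_lit 600870588) (nat_lit 76) (nat_lit 8695139276) (nat_lit 152) (nat_lit 21071661241) (nat_lit 11) (nat_lit 5) (nat_lit 12) (nat_lit 5) (nat_lit 13) (nat_lit 4) (nat_lit 300) (nat_lit 256) (nat_lit 224)))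 (XT.nd (nat_lit 78) (nat_lit 76) (nat_lit 0) (XT.lf (nat_lit 0) (nat_lit 15686977106) (nat_lit 76) (nat_lit 1030219241) (nat_lit 152) (nat_lit 15664667173) (nat_lit 11) (nat_lit 5) (nat_lit 12) (nat_lit 5) (nat_lit 13) (nat_lit 4) (nat_lit 301) (nat_lit 256) (nat_lit 223)) (XT.nd (nat_lit 78) (nat_lit 76) (nat_lit 0) (XT.lf (nat_lit 0) (nat_lit 24758102307) (nat_lit 152) (nat_lit 2850370113) (nat_lit 0) (nat_lit 6947464555) (nat_lit 11) (nat_lit 5) (nat_lit 13) (nat_lit 4) (nat_lit 11) (nat_lit 4) (nat_lit 302) (nat_lit 256) (nat_lit 222)) (XT.lf (nat_lit 0) (nat_lit 12330860865) (nat_lit 76) (nat_lit 21240629639) (nat_lit 76) (nat_lit 3326028718) (nat_lit 10) (nat_lit 4) (nat_lit 11) (nat_lit 5) (nat_lit 11) (nat_lit 4) (nat_lit 303) (nat_lit 256) (nat_lit 221))))) (XT.nd (nat_lit 156) (nat_lit 76) (nat_lit 0) (XT.nd (nat_lit 78) (nat_lit 76) (nat_lit 0) (XT.lf (nat_lit 0) (nat_lit 3518514956)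 (nat_lit 152) (nat_lit 10797907452) (nat_lit 76) (nat_lit 25108571583) (nat_lit 9) (nat_lit 5) (nat_lit 11) (nat_lit 5) (nat_lit 10) (nat_lit 4) (nat_lit 304) (nat_lit 256) (nat_lit 220)) (XT.lf (nat_lit 0) (nat_lit 4011002261) (nat_lit 76) (nat_lit 6774849950) (nat_lit 152) (nat_lit 31366535820) (nat_lit 8) (nat_lit 5) (nat_lit 9) (nat_lit 5) (nat_lit 10) (nat_lit 4) (nat_lit 305) (nat_lit 256) (nat_lit 219))) (XT.nd (nat_lit 78) (nat_lit 76) (nat_lit 0) (XT.lf (nat_lit 0) (nat_lit 18777171181) (nat_lit 152) (nat_lit 24853223921) (nat_lit 0) (nat_lit 1460481572) (nat_lit 8) (nat_lit 5) (nat_lit 10) (nat_lit 4) (nat_lit 8) (nat_lit 4) (nat_lit 306) (nat_lit 256) (nat_lit 218)) (XT.nd (nat_lit 78) (nat_lit 76) (nat_lit 0) (XT.lf (nat_lit 0) (nat_lit 27457243468) (nat_lit 152) (nat_lit 10736982246) (nat_lit 0) (nat_lit 10067776686) (nat_lit 8) (nat_lit 5) (nat_lit 10) (nat_lit 4) (nat_lit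 8) (nat_lit 4) (nat_lit 307) (nat_lit 256) (nat_lit 217)) (XT.lf (nat_lit 0) (nat_lit 4542142370) (nat_lit 76) (nat_lit 32300505347) (nat_lit 76) (nat_lit 14843652292) (nat_lit 7) (nat_lit 4) (nat_lit 8) (nat_lit 5) (nat_lit 8) (nat_lit 4) (nat_lit 308) (nat_lit 256) (nat_lit 216)))))) (XT.nd (nat_lit 390) (nat_lit 76) (nat_lit 0) (XT.nd (nat_lit 156) (nat_lit 152) (nat_lit 0) (XT.nd (nat_lit 78) (nat_lit 0) (nat_lit 0) (XT.lf (nat_lit 0) (nat_lit 21320076218) (nat_lit 76) (nat_lit 25788624104) (nat_lit 76) (nat_lit 8269376354) (nat_lit 7) (nat_lit 4) (nat_lit 8) (nat_lit 5) (nat_lit 8) (nat_lit 4) (nat_lit 309) (nat_lit 256) (nat_lit 215)) (XT.lf (nat_lit 0) (nat_lit 39341230966) (nat_lit 76) (nat_lit 18801829052) (nat_lit 76) (nat_lit 1224808434) (nat_lit 7) (nat_lit 4) (nat_lit 8) (nat_lit 5) (nat_lit 8) (nat_lit 4) (nat_lit 310) (nat_lit 256) (nat_lit 214))) (XT.nd (nat_lit 78) (nat_lit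 76) (nat_lit 0) (XT.lf (nat_lit 0) (nat_lit 6129140005) (nat_lit 152) (nat_lit 5065777001) (nat_lit 76) (nat_lit 52479458685) (nat_lit 6) (nat_lit 5) (nat_lit 8) (nat_lit 5) (nat_lit 7) (nat_lit 4) (nat_lit 311) (nat_lit 256) (nat_lit 213)) (XT.nd (nat_lit 78) (nat_lit 0) (nat_lit 0) (XT.lf (nat_lit 0) (nat_lit 11348073926) (nat_lit 76) (nat_lit 2811984054) (nat_lit 152) (nat_lit 54157783034) (nat_lit 5) (nat_lit 5) (nat_lit 6) (nat_lit 5) (nat_lit 7) (nat_lit 4) (nat_lit 312) (nat_lit 256) (nat_lit 212)) (XT.lf (nat_lit 0) (nat_lit 22975930375) (nat_lit 152) (nat_lit 44255633092) (nat_lit 0) (nat_lit 6094114281) (nat_lit 5) (nat_lit 5) (nat_lit 7) (nat_lit 4) (nat_lit 5) (nat_lit 4) (nat_lit 313) (nat_lit 256) (nat_lit 211))))) (XT.nd (nat_lit 156) (nat_lit 76) (nat_lit 0) (XT.nd (nat_lit 78) (nat_lit 0) (nat_lit 0) (XT.lf (nat_lit 0) (nat_lit 32503138865) (nat_lit 152) (nat_lit 30649836005)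 (nat_lit 0) (nat_lit 15580880121) (nat_lit 5) (nat_lit 5) (nat_lit 7) (nat_lit 4) (nat_lit 5) (nat_lit 4) (nat_lit 314) (nat_lit 256) (nat_lit 210)) (XT.lf (nat_lit 0) (nat_lit 42754238029) (nat_lit 152) (nat_lit 16027845931) (nat_lit 0) (nat_lit 25794532387) (nat_lit 5) (nat_lit 5) (nat_lit 7) (nat_lit 4) (nat_lit 5) (nat_lit 4) (nat_lit 315) (nat_lit 256) (nat_lit 209))) (XT.nd (nat_lit 78) (nat_lit 76) (nat_lit 0) (XT.lf (nat_lit 0) (nat_lit 53789975121) (nat_lit 152) (nat_lit 303014039) (nat_lit 0) (nat_lit 36795596426) (nat_lit 5) (nat_lit 5) (nat_lit 7) (nat_lit 4) (nat_lit 5) (nat_lit 4) (nat_lit 316) (nat_lit 256) (nat_lit 208)) (XT.nd (nat_lit 78) (nat_lit 0) (nat_lit 0) (XT.lf (nat_lit 0) (nat_lit 17167304824) (nat_lit 76) (nat_lit 48776472019) (nat_lit 76) (nat_lit 31749988644) (nat_lit 4) (nat_lit 4) (nat_lit 5) (nat_lit 5) (nat_lit 5) (nat_lit 4) (nat_lit 317) (nat_lit 256)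 (nat_lit 207)) (XT.lf (nat_lit 0) (nat_lit 35986801916) (nat_lit 76) (nat_lit 43057041094) (nat_lit 76) (nat_lit 26000831165) (nat_lit 4) (nat_lit 4) (nat_lit 5) (nat_lit 5) (nat_lit 5) (nat_lit 4) (nat_lit 318) (nat_lit 256) (nat_lit 206))))))) (XT.nd (nat_lit 780) (nat_lit 76) (nat_lit 0) (XT.nd (nat_lit 390) (nat_lit 0) (nat_lit 0) (XT.nd (nat_lit 156) (nat_lit 152) (nat_lit 0) (XT.nd (nat_lit 78) (nat_lit 0) (nat_lit 0) (XT.lf (nat_lit 0) (nat_lit 56256981168) (nat_lit 76) (nat_lit 36905935151) (nat_lit 76) (nat_lit 19822200635) (nat_lit 4) (nat_lit 4) (nat_lit 5) (nat_lit 5) (nat_lit 5) (nat_lit 4) (nat_lit 319) (nat_lit 256) (nat_lit 205)) (XT.lf (nat_lit 0) (nat_lit 78097962163) (nat_lit 76) (nat_lit 30286703194) (nat_lit 76) (nat_lit 13177482948) (nat_lit 4) (nat_lit 4) (nat_lit 5) (nat_lit 5) (nat_lit 5) (nat_lit 4) (nat_lit 320) (nat_lit 256) (nat_lit 204))) (XT.nd (nat_lit 78)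 (nat_lit 152) (nat_lit 0) (XT.lf (nat_lit 0) (nat_lit 101639172934) (nat_lit 76) (nat_lit 23160120143) (nat_lit 76) (nat_lit 6027302000) (nat_lit 4) (nat_lit 4) (nat_lit 5) (nat_lit 5) (nat_lit 5) (nat_lit 4) (nat_lit 321) (nat_lit 256) (nat_lit 203)) (XT.nd (nat_lit 78) (nat_lit 76) (nat_lit 0) (XT.lf (nat_lit 0) (nat_lit 1617240381) (nat_lit 152) (nat_lit 13839325266) (nat_lit 76) (nat_lit 125375487824) (nat_lit 3) (nat_lit 5) (nat_lit 5) (nat_lit 5) (nat_lit 4) (nat_lit 4) (nat_lit 322) (nat_lit 256) (nat_lit 202)) (XT.lf (nat_lit 0) (nat_lit 2679693671) (nat_lit 76) (nat_lit 7005473701) (nat_lit 152) (nat_lit 141946699371) (nat_lit 2) (nat_lit 5) (nat_lit 3) (nat_lit 5) (nat_lit 4) (nat_lit 4) (nat_lit 323) (nat_lit 256) (nat_lit 201))))) (XT.nd (nat_lit 156) (nat_lit 0) (nat_lit 0) (XT.nd (nat_lit 78) (nat_lit 0) (nat_lit 0) (XT.lf (nat_lit 0) (nat_lit 18655708083) (nat_lit 152) (nat_lit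 142346285203) (nat_lit 0) (nat_lit 2280820260) (nat_lit 2) (nat_lit 5) (nat_lit 4) (nat_lit 4) (nat_lit 2) (nat_lit 4) (nat_lit 324) (nat_lit 256) (nat_lit 200)) (XT.lf (nat_lit 0) (nat_lit 28442600162) (nat_lit 152) (nat_lit 135367114282) (nat_lit 0) (nat_lit 12051193140) (nat_lit 2) (nat_lit 5) (nat_lit 4) (nat_lit 4) (nat_lit 2) (nat_lit 4) (nat_lit 325) (nat_lit 256) (nat_lit 199))) (XT.nd (nat_lit 78) (nat_lit 0) (nat_lit 0) (XT.lf (nat_lit 0) (nat_lit 38994464931) (nat_lit 152) (nat_lit 127863927181) (nat_lit 0) (nat_lit 22587762354) (nat_lit 2) (nat_lit 5) (nat_lit 4) (nat_lit 4) (nat_lit 2) (nat_lit 4) (nat_lit 326) (nat_lit 256) (nat_lit 198)) (XT.nd (nat_lit 78) (nat_lit 0) (nat_lit 0) (XT.lf (nat_lit 0) (nat_lit 50373831958) (nat_lit 152) (nat_lit 119792260569) (nat_lit 0) (nat_lit 33952966830) (nat_lit 2) (nat_lit 5) (nat_lit 4) (nat_lit 4) (nat_lit 2) (nat_lit 4) (nat_lit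 327) (nat_lit 256) (nat_lit 197)) (XT.lf (nat_lit 0) (nat_lit 62648134528) (nat_lit 152) (nat_lit 111104282349) (nat_lit 0) (nat_lit 46214155928) (nat_lit 2) (nat_lit 5) (nat_lit 4) (nat_lit 4) (nat_lit 2) (nat_lit 4) (nat_lit 328) (nat_lit 256) (nat_lit 196)))))) (XT.nd (nat_lit 390) (nat_lit 76) (nat_lit 0) (XT.nd (nat_lit 156) (nat_lit 0) (nat_lit 0) (XT.nd (nat_lit 78) (nat_lit 0) (nat_lit 0) (XT.lf (nat_lit 0) (nat_lit 75890109251) (nat_lit 152) (nat_lit 101748508204) (nat_lit 0) (nat_lit 59443988546) (nat_lit 2) (nat_lit 5) (nat_lit 4) (nat_lit 4) (nat_lit 2) (nat_lit 4) (nat_lit 329) (nat_lit 256) (nat_lit 195)) (XT.lf (nat_lit 0) (nat_lit 90178227086) (nat_lit 152) (nat_lit 91669496511) (nat_lit 0) (nat_lit 73720863692) (nat_lit 2) (nat_lit 5) (nat_lit 4) (nat_lit 4) (nat_lit 2) (nat_lit 4) (nat_lit 330) (nat_lit 256) (nat_lit 194))) (XT.nd (nat_lit 78) (nat_lit 0) (nat_lit 0)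 (XT.lf (nat_lit 0) (nat_lit 105597158363) (nat_lit 152) (nat_lit 80807519791) (nat_lit 0) (nat_lit 89129385071) (nat_lit 2) (nat_lit 5) (nat_lit 4) (nat_lit 4) (nat_lit 2) (nat_lit 4) (nat_lit 331) (nat_lit 256) (nat_lit 193)) (XT.nd (nat_lit 78) (nat_lit 0) (nat_lit 0) (XT.lf (nat_lit 0) (nat_lit 122238274525) (nat_lit 152) (nat_lit 69098210777) (nat_lit 0) (nat_lit 105760862439) (nat_lit 2) (nat_lit 5) (nat_lit 4) (nat_lit 4) (nat_lit 2) (nat_lit 4) (nat_lit 332) (nat_lit 256) (nat_lit 192)) (XT.lf (nat_lit 0) (nat_lit 140200189595) (nat_lit 152) (nat_lit 56472180970) (nat_lit 0) (nat_lit 123713852700) (nat_lit 2) (nat_lit 5) (nat_lit 4) (nat_lit 4) (nat_lit 2) (nat_lit 4) (nat_lit 333) (nat_lit 256) (nat_lit 191))))) (XT.nd (nat_lit 234) (nat_lit 76) (nat_lit 0) (XT.nd (nat_lit 78) (nat_lit 0) (nat_lit 0) (XT.lf (nat_lit 0) (nat_lit 159589344551) (nat_lit 152) (nat_lit 42854609453)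 (nat_lit 0) (nat_lit 143094743943) (nat_lit 2) (nat_lit 5) (nat_lit 4) (nat_lit 4) (nat_lit 2) (nat_lit 4) (nat_lit 334) (nat_lit 256) (nat_lit 190)) (XT.nd (nat_lit 78) (nat_lit 0) (nat_lit 0) (XT.lf (nat_lit 0) (nat_lit 180520638088) (nat_lit 152) (nat_lit 28164799505) (nat_lit 0) (nat_lit 164018385895) (nat_lit 2) (nat_lit 5) (nat_lit 4) (nat_lit 4) (nat_lit 2) (nat_lit 4) (nat_lit 335) (nat_lit 256) (nat_lit 189)) (XT.lf (nat_lit 0) (nat_lit 203118107501) (nat_lit 152) (nat_lit 12315700401) (nat_lit 0) (nat_lit 186608770507) (nat_lit 2) (nat_lit 5) (nat_lit 4) (nat_lit 4) (nat_lit 2) (nat_lit 4) (nat_lit 336) (nat_lit 256) (nat_lit 188)))) (XT.nd (nat_lit 78) (nat_lit 0) (nat_lit 0) (XT.lf (nat_lit 0) (nat_lit 4944875337) (nat_lit 76) (nat_lit 222647991746) (nat_lit 76) (nat_lit 206132094750) (nat_lit 1) (nat_lit 4) (nat_lit 2) (nat_lit 5) (nat_lit 2) (nat_lit 4) (nat_lit 337) (nat_lit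 256) (nat_lit 187)) (XT.nd (nat_lit 78) (nat_lit 0) (nat_lit 0) (XT.lf (nat_lit 0) (nat_lit 24012008273) (nat_lit 76) (nat_lit 230220771328) (nat_lit 76) (nat_lit 213698800257) (nat_lit 1) (nat_lit 4) (nat_lit 2) (nat_lit 5) (nat_lit 2) (nat_lit 4) (nat_lit 338) (nat_lit 256) (nat_lit 186)) (XT.lf (nat_lit 0) (nat_lit 44591476150) (nat_lit 76) (nat_lit 238405594726) (nat_lit 76) (nat_lit 221877999511) (nat_lit 1) (nat_lit 4) (nat_lit 2) (nat_lit 5) (nat_lit 2) (nat_lit 4) (nat_lit 339) (nat_lit 256) (nat_lit 185))))))))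
noncomputable def xc41 : XT := (XT.nd (nat_lit 35802) (nat_lit 0) (nat_lit 988) (XT.nd (nat_lit 34944) (nat_lit 0) (nat_lit 3952) (XT.nd (nat_lit 390) (nat_lit 0) (nat_lit 0) (XT.nd (nat_lit 156) (nat_lit 0) (nat_lit 0) (XT.nd (nat_lit 78) (nat_lit 0) (nat_lit 0) (XT.lf (nat_lit 0) (nat_lit 66805231368) (nat_lit 76) (nat_lit 247250964596) (nat_lit 76) (nat_lit 230718161840) (nat_lit 1) (nat_lit 4) (nat_lit 2) (nat_lit 5) (nat_lit 2) (nat_lit 4) (nat_lit 340) (nat_lit 256) (nat_lit 184)) (XT.lf (nat_lit 0) (nat_lit 90784910996) (nat_lit 76) (nat_lit 256809297945) (nat_lit 76) (nat_lit 240271673393) (nat_lit 1) (nat_lit 4) (nat_lit 2) (nat_lit 5) (nat_lit 2) (nat_lit 4) (nat_lit 341) (nat_lit 256) (nat_lit 183))) (XT.nd (nat_lit 78) (nat_lit 0) (nat_lit 0) (XT.lf (nat_lit 0) (nat_lit 116672616840) (nat_lit 76) (nat_lit 267137236750) (nat_lit 76) (nat_lit 250595147571) (nat_lit 1) (nat_lit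 4) (nat_lit 2) (nat_lit 5) (nat_lit 2) (nat_lit 4) (nat_lit 342) (nat_lit 256) (nat_lit 182)) (XT.nd (nat_lit 78) (nat_lit 0) (nat_lit 0) (XT.lf (nat_lit 0) (nat_lit 144621757526) (nat_lit 76) (nat_lit 278295983609) (nat_lit 76) (nat_lit 261749760517) (nat_lit 1) (nat_lit 4) (nat_lit 2) (nat_lit 5) (nat_lit 2) (nat_lit 4) (nat_lit 343) (nat_lit 256) (nat_lit 181)) (XT.lf (nat_lit 0) (nat_lit 174797957592) (nat_lit 76) (nat_lit 290351664430) (nat_lit 76) (nat_lit 273801613640) (nat_lit 1) (nat_lit 4) (nat_lit 2) (nat_lit 5) (nat_lit 2) (nat_lit 4) (nat_lit 344) (nat_lit 256) (nat_lit 180))))) (XT.nd (nat_lit 156) (nat_lit 0) (nat_lit 0) (XT.nd (nat_lit 78) (nat_lit 0) (nat_lit 0) (XT.lf (nat_lit 0) (nat_lit 207380038964) (nat_lit 76) (nat_lit 303375720286) (nat_lit 76) (nat_lit 286822125331) (nat_lit 1) (nat_lit 4) (nat_lit 2) (nat_lit 5) (nat_lit 2) (nat_lit 4) (nat_lit 345) (nat_lit 256)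 (nat_lit 179)) (XT.lf (nat_lit 0) (nat_lit 242561080643) (nat_lit 76) (nat_lit 317445330766) (nat_lit 76) (nat_lit 300888454177) (nat_lit 1) (nat_lit 4) (nat_lit 2) (nat_lit 5) (nat_lit 2) (nat_lit 4) (nat_lit 346) (nat_lit 256) (nat_lit 178))) (XT.nd (nat_lit 78) (nat_lit 0) (nat_lit 0) (XT.lf (nat_lit 0) (nat_lit 280549562876) (nat_lit 76) (nat_lit 332643871339) (nat_lit 76) (nat_lit 316083956201) (nat_lit 1) (nat_lit 4) (nat_lit 2) (nat_lit 5) (nat_lit 2) (nat_lit 4) (nat_lit 347) (nat_lit 256) (nat_lit 177)) (XT.nd (nat_lit 34242) (nat_lit 0) (nat_lit 9120) (XT.lf (nat_lit 0) (nat_lit 321570602595) (nat_lit 76) (nat_lit 349061407431) (nat_lit 76) (nat_lit 332498678821) (nat_lit 1) (nat_lit 4) (nat_lit 2) (nat_lit 5) (nat_lit 2) (nat_lit 4) (nat_lit 348) (nat_lit 256) (nat_lit 176)) (XT.lf (nat_lit 0) (nat_lit 375504236) (nat_lit 380) (nat_lit 1491023697) (nat_lit 380) (nat_lit 1491023697)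 (nat_lit 121) (nat_lit 4) (nat_lit 126) (nat_lit 5) (nat_lit 126) (nat_lit 4) (nat_lit 266) (nat_lit 257) (nat_lit 257)))))) (XT.nd (nat_lit 390) (nat_lit 2128) (nat_lit 0) (XT.nd (nat_lit 156) (nat_lit 1976) (nat_lit 0) (XT.nd (nat_lit 78) (nat_lit 532) (nat_lit 0) (XT.lf (nat_lit 0) (nat_lit 577216796) (nat_lit 456) (nat_lit 1263174545) (nat_lit 532) (nat_lit 4978064631) (nat_lit 114) (nat_lit 5) (nat_lit 120) (nat_lit 5) (nat_lit 121) (nat_lit 4) (nat_lit 267) (nat_lit 257) (nat_lit 256)) (XT.lf (nat_lit 0) (nat_lit 515200113) (nat_lit 532) (nat_lit 6144608638) (nat_lit 532) (nat_lit 283217328) (nat_lit 107) (nat_lit 4) (nat_lit 114) (nat_lit 5) (nat_lit 114) (nat_lit 4) (nat_lit 268) (nat_lit 257) (nat_lit 255))) (XT.nd (nat_lit 78) (nat_lit 1292) (nat_lit 0) (XT.lf (nat_lit 0) (nat_lit 513653820) (nat_lit 608) (nat_lit 3868923114) (nat_lit 684) (nat_lit 2704856224) (nat_lit 98) (nat_lit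 5) (nat_lit 106) (nat_lit 5) (nat_lit 107) (nat_lit 4) (nat_lit 269) (nat_lit 257) (nat_lit 254)) (XT.nd (nat_lit 78) (nat_lit 532) (nat_lit 0) (XT.lf (nat_lit 0) (nat_lit 616346348) (nat_lit 684) (nat_lit 1231570281) (nat_lit 760) (nat_lit 5407027422) (nat_lit 88) (nat_lit 5) (nat_lit 97) (nat_lit 5) (nat_lit 98) (nat_lit 5) (nat_lit 270) (nat_lit 257) (nat_lit 253)) (XT.lf (nat_lit 0) (nat_lit 770401485) (nat_lit 532) (nat_lit 5702310177) (nat_lit 608) (nat_lit 971645893) (nat_lit 81) (nat_lit 5) (nat_lit 88) (nat_lit 5) (nat_lit 89) (nat_lit 4) (nat_lit 271) (nat_lit 257) (nat_lit 252))))) (XT.nd (nat_lit 234) (nat_lit 988) (nat_lit 0) (XT.nd (nat_lit 78) (nat_lit 684) (nat_lit 0) (XT.lf (nat_lit 0) (nat_lit 950416105) (nat_lit 380) (nat_lit 2561122555) (nat_lit 456) (nat_lit 4144392033) (nat_lit 75) (nat_lit 5) (nat_lit 80) (nat_lit 5) (nat_lit 81) (nat_lit 5) (nat_lit 272) (nat_lit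 257) (nat_lit 251)) (XT.nd (nat_lit 78) (nat_lit 304) (nat_lit 0) (XT.lf (nat_lit 0) (nat_lit 249641328) (nat_lit 380) (nat_lit 6709716545) (nat_lit 76) (nat_lit 933199802) (nat_lit 70) (nat_lit 5) (nat_lit 75) (nat_lit 5) (nat_lit 71) (nat_lit 5) (nat_lit 273) (nat_lit 257) (nat_lit 250)) (XT.lf (nat_lit 0) (nat_lit 1369274224) (nat_lit 304) (nat_lit 3359766815) (nat_lit 380) (nat_lit 3422334523) (nat_lit 66) (nat_lit 5) (nat_lit 70) (nat_lit 5) (nat_lit 71) (nat_lit 5) (nat_lit 274) (nat_lit 257) (nat_lit 249)))) (XT.nd (nat_lit 78) (nat_lit 608) (nat_lit 0) (XT.lf (nat_lit 0) (nat_lit 958913661) (nat_lit 380) (nat_lit 6861445870) (nat_lit 76) (nat_lit 617221712) (nat_lit 61) (nat_lit 5) (nat_lit 66) (nat_lit 5) (nat_lit 62) (nat_lit 5) (nat_lit 275) (nat_lit 257) (nat_lit 248)) (XT.nd (nat_lit 78) (nat_lit 304) (nat_lit 0) (XT.lf (nat_lit 0) (nat_lit 1690517407) (nat_lit 304) (nat_lit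 3806381236) (nat_lit 380) (nat_lit 3251170620) (nat_lit 57) (nat_lit 5) (nat_lit 61) (nat_lit 5) (nat_lit 62) (nat_lit 5) (nat_lit 276) (nat_lit 257) (nat_lit 247)) (XT.lf (nat_lit 0) (nat_lit 1163633558) (nat_lit 304) (nat_lit 7315490805) (nat_lit 76) (nat_lit 609125937) (nat_lit 53) (nat_lit 5) (nat_lit 57) (nat_lit 5) (nat_lit 54) (nat_lit 5) (nat_lit 277) (nat_lit 257) (nat_lit 246))))))) (XT.nd (nat_lit 780) (nat_lit 988) (nat_lit 0) (XT.nd (nat_lit 390) (nat_lit 988) (nat_lit 0) (XT.nd (nat_lit 156) (nat_lit 456) (nat_lit 0) (XT.nd (nat_lit 78) (nat_lit 304) (nat_lit 0) (XT.lf (nat_lit 0) (nat_lit 1702920689) (nat_lit 228) (nat_lit 4077554595) (nat_lit 304) (nat_lit 3674774364) (nat_lit 50) (nat_lit 5) (nat_lit 53) (nat_lit 5) (nat_lit 54) (nat_lit 5) (nat_lit 278) (nat_lit 257) (nat_lit 245)) (XT.lf (nat_lit 0) (nat_lit 806408474) (nat_lit 304) (nat_lit 8311633482) (nat_lit 76)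 (nat_lit 737179221) (nat_lit 46) (nat_lit 5) (nat_lit 50) (nat_lit 5) (nat_lit 47) (nat_lit 5) (nat_lit 279) (nat_lit 257) (nat_lit 244))) (XT.nd (nat_lit 78) (nat_lit 228) (nat_lit 0) (XT.lf (nat_lit 0) (nat_lit 1151414508) (nat_lit 228) (nat_lit 4358301834) (nat_lit 304) (nat_lit 4775175174) (nat_lit 43) (nat_lit 5) (nat_lit 46) (nat_lit 5) (nat_lit 47) (nat_lit 5) (nat_lit 280) (nat_lit 257) (nat_lit 243)) (XT.nd (nat_lit 78) (nat_lit 76) (nat_lit 0) (XT.lf (nat_lit 0) (nat_lit 603861603) (nat_lit 152) (nat_lit 9931709406) (nat_lit 228) (nat_lit 216357797) (nat_lit 41) (nat_lit 5) (nat_lit 43) (nat_lit 5) (nat_lit 44) (nat_lit 4) (nat_lit 281) (nat_lit 257) (nat_lit 242)) (XT.lf (nat_lit 0) (nat_lit 4577045870) (nat_lit 228) (nat_lit 272253930) (nat_lit 76) (nat_lit 6402598804) (nat_lit 40) (nat_lit 5) (nat_lit 43) (nat_lit 5) (nat_lit 41) (nat_lit 5) (nat_lit 282) (nat_lit 257) (nat_lit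 241))))) (XT.nd (nat_lit 156) (nat_lit 532) (nat_lit 0) (XT.nd (nat_lit 78) (nat_lit 228) (nat_lit 0) (XT.lf (nat_lit 0) (nat_lit 9721662670) (nat_lit 304) (nat_lit 1378098373) (nat_lit 76) (nat_lit 693412576) (nat_lit 37) (nat_lit 5) (nat_lit 41) (nat_lit 5) (nat_lit 38) (nat_lit 4) (nat_lit 283) (nat_lit 257) (nat_lit 240)) (XT.lf (nat_lit 0) (nat_lit 2853062671) (nat_lit 228) (nat_lit 2901417045) (nat_lit 76) (nat_lit 6618939059) (nat_lit 34) (nat_lit 5) (nat_lit 37) (nat_lit 5) (nat_lit 35) (nat_lit 5) (nat_lit 284) (nat_lit 257) (nat_lit 239))) (XT.nd (nat_lit 78) (nat_lit 380) (nat_lit 0) (XT.lf (nat_lit 0) (nat_lit 8070471393) (nat_lit 228) (nat_lit 4820613793) (nat_lit 76) (nat_lit 108933119) (nat_lit 32) (nat_lit 5) (nat_lit 35) (nat_lit 5) (nat_lit 33) (nat_lit 4) (nat_lit 285) (nat_lit 257) (nat_lit 238)) (XT.nd (nat_lit 78) (nat_lit 152) (nat_lit 0) (XT.lf (nat_lit 0) (nat_lit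 101340285) (nat_lit 228) (nat_lit 7272437691) (nat_lit 76) (nat_lit 6299439979) (nat_lit 29) (nat_lit 5) (nat_lit 32) (nat_lit 5) (nat_lit 30) (nat_lit 5) (nat_lit 286) (nat_lit 257) (nat_lit 237)) (XT.lf (nat_lit 0) (nat_lit 4067409855) (nat_lit 152) (nat_lit 1276013533) (nat_lit 228) (nat_lit 9053905322) (nat_lit 27) (nat_lit 5) (nat_lit 29) (nat_lit 5) (nat_lit 30) (nat_lit 5) (nat_lit 287) (nat_lit 257) (nat_lit 236)))))) (XT.nd (nat_lit 390) (nat_lit 532) (nat_lit 0) (XT.nd (nat_lit 156) (nat_lit 304) (nat_lit 0) (XT.nd (nat_lit 78) (nat_lit 76) (nat_lit 0) (XT.lf (nat_lit 0) (nat_lit 1081807452) (nat_lit 76) (nat_lit 9988781322) (nat_lit 152) (nat_lit 4105648728) (nat_lit 26) (nat_lit 5) (nat_lit 27) (nat_lit 5) (nat_lit 28) (nat_lit 4) (nat_lit 288) (nat_lit 257) (nat_lit 235)) (XT.lf (nat_lit 0) (nat_lit 1245774857) (nat_lit 152) (nat_lit 2539518972) (nat_lit 76) (nat_lit 12228987759)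 (nat_lit 25) (nat_lit 5) (nat_lit 27) (nat_lit 5) (nat_lit 26) (nat_lit 5) (nat_lit 289) (nat_lit 257) (nat_lit 234))) (XT.nd (nat_lit 78) (nat_lit 152) (nat_lit 0) (XT.lf (nat_lit 0) (nat_lit 6940540377) (nat_lit 228) (nat_lit 7017494980) (nat_lit 76) (nat_lit 2955141584) (nat_lit 23) (nat_lit 5) (nat_lit 26) (nat_lit 5) (nat_lit 24) (nat_lit 4) (nat_lit 290) (nat_lit 257) (nat_lit 233)) (XT.nd (nat_lit 78) (nat_lit 76) (nat_lit 0) (XT.lf (nat_lit 0) (nat_lit 5404882622) (nat_lit 76) (nat_lit 7739083063) (nat_lit 152) (nat_lit 4737481465) (nat_lit 22) (nat_lit 5) (nat_lit 23) (nat_lit 5) (nat_lit 24) (nat_lit 4) (nat_lit 291) (nat_lit 257) (nat_lit 232)) (XT.lf (nat_lit 0) (nat_lit 875831937) (nat_lit 152) (nat_lit 98139636) (nat_lit 76) (nat_lit 17953161307) (nat_lit 21) (nat_lit 5) (nat_lit 23) (nat_lit 5) (nat_lit 22) (nat_lit 5) (nat_lit 292) (nat_lit 257) (nat_lit 231))))) (XT.nd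 (nat_lit 234) (nat_lit 304) (nat_lit 0) (XT.nd (nat_lit 78) (nat_lit 76) (nat_lit 0) (XT.lf (nat_lit 0) (nat_lit 6960416230) (nat_lit 228) (nat_lit 6746076052) (nat_lit 76) (nat_lit 6336784459) (nat_lit 19) (nat_lit 5) (nat_lit 22) (nat_lit 5) (nat_lit 20) (nat_lit 4) (nat_lit 293) (nat_lit 257) (nat_lit 230)) (XT.nd (nat_lit 78) (nat_lit 0) (nat_lit 0) (XT.lf (nat_lit 0) (nat_lit 6500091155) (nat_lit 76) (nat_lit 7030533529) (nat_lit 152) (nat_lit 7718233128) (nat_lit 18) (nat_lit 5) (nat_lit 19) (nat_lit 5) (nat_lit 20) (nat_lit 4) (nat_lit 294) (nat_lit 257) (nat_lit 229)) (XT.lf (nat_lit 0) (nat_lit 20632357068) (nat_lit 152) (nat_lit 1708766279) (nat_lit 0) (nat_lit 209548668) (nat_lit 18) (nat_lit 5) (nat_lit 20) (nat_lit 4) (nat_lit 18) (nat_lit 4) (nat_lit 295) (nat_lit 257) (nat_lit 228)))) (XT.nd (nat_lit 78) (nat_lit 76) (nat_lit 0) (XT.lf (nat_lit 0) (nat_lit 4415236582) (nat_lit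 228) (nat_lit 11553459977) (nat_lit 76) (nat_lit 7974178463) (nat_lit 15) (nat_lit 5) (nat_lit 18) (nat_lit 5) (nat_lit 16) (nat_lit 4) (nat_lit 296) (nat_lit 257) (nat_lit 227)) (XT.nd (nat_lit 78) (nat_lit 0) (nat_lit 0) (XT.lf (nat_lit 0) (nat_lit 2079361284) (nat_lit 76) (nat_lit 9068184935) (nat_lit 152) (nat_lit 14299438506) (nat_lit 14) (nat_lit 5) (nat_lit 15) (nat_lit 5) (nat_lit 16) (nat_lit 4) (nat_lit 297) (nat_lit 257) (nat_lit 226)) (XT.lf (nat_lit 0) (nat_lit 17037594498) (nat_lit 76) (nat_lit 1482718371) (nat_lit 152) (nat_lit 8546078724) (nat_lit 14) (nat_lit 5) (nat_lit 15) (nat_lit 5) (nat_lit 16) (nat_lit 4) (nat_lit 298) (nat_lit 257) (nat_lit 225))))))))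
noncomputable def xc42 : XT := (XT.nd (nat_lit 1560) (nat_lit 228) (nat_lit 0) (XT.nd (nat_lit 780) (nat_lit 304) (nat_lit 0) (XT.nd (nat_lit 390) (nat_lit 228) (nat_lit 0) (XT.nd (nat_lit 156) (nat_lit 76) (nat_lit 0) (XT.nd (nat_lit 78) (nat_lit 76) (nat_lit 0) (XT.lf (nat_lit 0) (nat_lit 4239944749) (nat_lit 76) (nat_lit 22320755568) (nat_lit 76) (nat_lit 2250818130) (nat_lit 13) (nat_lit 4) (nat_lit 14) (nat_lit 5) (nat_lit 14) (nat_lit 4) (nat_lit 299) (nat_lit 257) (nat_lit 224)) (XT.lf (nat_lit 0) (nat_lit 4514786459) (nat_lit 152) (nat_lit 10941950968) (nat_lit 76) (nat_lit 15230403769) (nat_lit 12) (nat_lit 5) (nat_lit 14) (nat_lit 5) (nat_lit 13) (nat_lit 4) (nat_lit 300) (nat_lit 257) (nat_lit 223))) (XT.nd (nat_lit 78) (nat_lit 0) (nat_lit 0) (XT.lf (nat_lit 0) (nat_lit 3707006288) (nat_lit 76) (nat_lit 8011122361) (nat_lit 152) (nat_lit 20994119713) (nat_lit 11) (nat_lit 5)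 (nat_lit 12) (nat_lit 5) (nat_lit 13) (nat_lit 4) (nat_lit 301) (nat_lit 257) (nat_lit 222)) (XT.nd (nat_lit 78) (nat_lit 0) (nat_lit 0) (XT.lf (nat_lit 0) (nat_lit 19611254247) (nat_lit 152) (nat_lit 15122955371) (nat_lit 0) (nat_lit 159522084) (nat_lit 11) (nat_lit 5) (nat_lit 13) (nat_lit 4) (nat_lit 11) (nat_lit 4) (nat_lit 302) (nat_lit 257) (nat_lit 221)) (XT.lf (nat_lit 0) (nat_lit 28196207501) (nat_lit 152) (nat_lit 402334372) (nat_lit 0) (nat_lit 8648213145) (nat_lit 11) (nat_lit 5) (nat_lit 13) (nat_lit 4) (nat_lit 11) (nat_lit 4) (nat_lit 303) (nat_lit 257) (nat_lit 220))))) (XT.nd (nat_lit 156) (nat_lit 76) (nat_lit 0) (XT.nd (nat_lit 78) (nat_lit 76) (nat_lit 0) (XT.lf (nat_lit 0) (nat_lit 15877096546) (nat_lit 76) (nat_lit 21769575563) (nat_lit 76) (nat_lit 2132449547) (nat_lit 10) (nat_lit 4) (nat_lit 11) (nat_lit 5) (nat_lit 11) (nat_lit 4) (nat_lit 304) (nat_lit 257) (nat_lit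 219)) (XT.lf (nat_lit 0) (nat_lit 5108276880) (nat_lit 152) (nat_lit 9247687726) (nat_lit 76) (nat_lit 28156974670) (nat_lit 9) (nat_lit 5) (nat_lit 11) (nat_lit 5) (nat_lit 10) (nat_lit 4) (nat_lit 305) (nat_lit 257) (nat_lit 218))) (XT.nd (nat_lit 78) (nat_lit 0) (nat_lit 0) (XT.lf (nat_lit 0) (nat_lit 6641022993) (nat_lit 76) (nat_lit 6255120595) (nat_lit 152) (nat_lit 32565471550) (nat_lit 8) (nat_lit 5) (nat_lit 9) (nat_lit 5) (nat_lit 10) (nat_lit 4) (nat_lit 306) (nat_lit 257) (nat_lit 217)) (XT.nd (nat_lit 78) (nat_lit 0) (nat_lit 0) (XT.lf (nat_lit 0) (nat_lit 21449714859) (nat_lit 152) (nat_lit 24660437294) (nat_lit 0) (nat_lit 2528927288) (nat_lit 8) (nat_lit 5) (nat_lit 10) (nat_lit 4) (nat_lit 8) (nat_lit 4) (nat_lit 307) (nat_lit 257) (nat_lit 216)) (XT.lf (nat_lit 0) (nat_lit 30737498857) (nat_lit 152) (nat_lit 9576455140) (nat_lit 0) (nat_lit 11754316590) (nat_lit 8) (nat_lit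 5) (nat_lit 10) (nat_lit 4) (nat_lit 8) (nat_lit 4) (nat_lit 308) (nat_lit 257) (nat_lit 215)))))) (XT.nd (nat_lit 390) (nat_lit 76) (nat_lit 0) (XT.nd (nat_lit 156) (nat_lit 152) (nat_lit 0) (XT.nd (nat_lit 78) (nat_lit 0) (nat_lit 0) (XT.lf (nat_lit 0) (nat_lit 6837235059) (nat_lit 76) (nat_lit 33986387680) (nat_lit 76) (nat_lit 14945432546) (nat_lit 7) (nat_lit 4) (nat_lit 8) (nat_lit 5) (nat_lit 8) (nat_lit 4) (nat_lit 309) (nat_lit 257) (nat_lit 214)) (XT.lf (nat_lit 0) (nat_lit 24814313148) (nat_lit 76) (nat_lit 27020086168) (nat_lit 76) (nat_lit 7925637638) (nat_lit 7) (nat_lit 4) (nat_lit 8) (nat_lit 5) (nat_lit 8) (nat_lit 4) (nat_lit 310) (nat_lit 257) (nat_lit 213))) (XT.nd (nat_lit 78) (nat_lit 152) (nat_lit 0) (XT.lf (nat_lit 0) (nat_lit 44144669102) (nat_lit 76) (nat_lit 19535949575) (nat_lit 76) (nat_lit 391970123) (nat_lit 7) (nat_lit 4) (nat_lit 8) (nat_lit 5) (nat_lit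 8) (nat_lit 4) (nat_lit 311) (nat_lit 257) (nat_lit 212)) (XT.nd (nat_lit 78) (nat_lit 76) (nat_lit 0) (XT.lf (nat_lit 0) (nat_lit 7453759017) (nat_lit 152) (nat_lit 3909635429) (nat_lit 76) (nat_lit 57362861148) (nat_lit 6) (nat_lit 5) (nat_lit 8) (nat_lit 5) (nat_lit 7) (nat_lit 4) (nat_lit 312) (nat_lit 257) (nat_lit 211)) (XT.lf (nat_lit 0) (nat_lit 13749466869) (nat_lit 76) (nat_lit 2339202919) (nat_lit 152) (nat_lit 57654478740) (nat_lit 5) (nat_lit 5) (nat_lit 6) (nat_lit 5) (nat_lit 7) (nat_lit 4) (nat_lit 313) (nat_lit 257) (nat_lit 210))))) (XT.nd (nat_lit 156) (nat_lit 76) (nat_lit 0) (XT.nd (nat_lit 78) (nat_lit 0) (nat_lit 0) (XT.lf (nat_lit 0) (nat_lit 25560950031) (nat_lit 152) (nat_lit 46386108626) (nat_lit 0) (nat_lit 7207021041) (nat_lit 5) (nat_lit 5) (nat_lit 7) (nat_lit 4) (nat_lit 5) (nat_lit 4) (nat_lit 314) (nat_lit 257) (nat_lit 209)) (XT.lf (nat_lit 0) (nat_lit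 35795005924) (nat_lit 152) (nat_lit 31796290374) (nat_lit 0) (nat_lit 17406403880) (nat_lit 5) (nat_lit 5) (nat_lit 7) (nat_lit 4) (nat_lit 5) (nat_lit 4) (nat_lit 315) (nat_lit 257) (nat_lit 208))) (XT.nd (nat_lit 78) (nat_lit 76) (nat_lit 0) (XT.lf (nat_lit 0) (nat_lit 46814962210) (nat_lit 152) (nat_lit 16101247206) (nat_lit 0) (nat_lit 28394255487) (nat_lit 5) (nat_lit 5) (nat_lit 7) (nat_lit 4) (nat_lit 5) (nat_lit 4) (nat_lit 316) (nat_lit 257) (nat_lit 207)) (XT.nd (nat_lit 78) (nat_lit 0) (nat_lit 0) (XT.lf (nat_lit 0) (nat_lit 818216580) (nat_lit 76) (nat_lit 57880680407) (nat_lit 76) (nat_lit 39430247129) (nat_lit 4) (nat_lit 4) (nat_lit 5) (nat_lit 5) (nat_lit 5) (nat_lit 4) (nat_lit 317) (nat_lit 257) (nat_lit 206)) (XT.lf (nat_lit 0) (nat_lit 19611330207) (nat_lit 76) (nat_lit 52173691528) (nat_lit 76) (nat_lit 33695733663) (nat_lit 4) (nat_lit 4) (nat_lit 5) (nat_lit 5) (nat_lit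 5) (nat_lit 4) (nat_lit 318) (nat_lit 257) (nat_lit 205))))))) (XT.nd (nat_lit 780) (nat_lit 76) (nat_lit 0) (XT.nd (nat_lit 390) (nat_lit 76) (nat_lit 0) (XT.nd (nat_lit 156) (nat_lit 76) (nat_lit 0) (XT.nd (nat_lit 78) (nat_lit 0) (nat_lit 0) (XT.lf (nat_lit 0) (nat_lit 39857080326) (nat_lit 76) (nat_lit 46034106000) (nat_lit 76) (nat_lit 27530662405) (nat_lit 4) (nat_lit 4) (nat_lit 5) (nat_lit 5) (nat_lit 5) (nat_lit 4) (nat_lit 319) (nat_lit 257) (nat_lit 204)) (XT.lf (nat_lit 0) (nat_lit 61675441752) (nat_lit 76) (nat_lit 39425541092) (nat_lit 76) (nat_lit 20898499600) (nat_lit 4) (nat_lit 4) (nat_lit 5) (nat_lit 5) (nat_lit 5) (nat_lit 4) (nat_lit 320) (nat_lit 257) (nat_lit 203))) (XT.nd (nat_lit 78) (nat_lit 76) (nat_lit 0) (XT.lf (nat_lit 0) (nat_lit 85195708478) (nat_lit 76) (nat_lit 32308834939) (nat_lit 76) (nat_lit 13759943542) (nat_lit 4) (nat_lit 4) (nat_lit 5) (nat_lit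 5) (nat_lit 5) (nat_lit 4) (nat_lit 321) (nat_lit 257) (nat_lit 202)) (XT.nd (nat_lit 78) (nat_lit 76) (nat_lit 0) (XT.lf (nat_lit 0) (nat_lit 110557259863) (nat_lit 76) (nat_lit 24641814467) (nat_lit 76) (nat_lit 6072691676) (nat_lit 4) (nat_lit 4) (nat_lit 5) (nat_lit 5) (nat_lit 5) (nat_lit 4) (nat_lit 322) (nat_lit 257) (nat_lit 201)) (XT.lf (nat_lit 0) (nat_lit 2138114364) (nat_lit 152) (nat_lit 14204721116) (nat_lit 76) (nat_lit 135736062217) (nat_lit 3) (nat_lit 5) (nat_lit 5) (nat_lit 5) (nat_lit 4) (nat_lit 4) (nat_lit 323) (nat_lit 257) (nat_lit 200))))) (XT.nd (nat_lit 156) (nat_lit 0) (nat_lit 0) (XT.nd (nat_lit 78) (nat_lit 0) (nat_lit 0) (XT.lf (nat_lit 0) (nat_lit 3603583778) (nat_lit 76) (nat_lit 7229969636) (nat_lit 152) (nat_lit 152910049485) (nat_lit 2) (nat_lit 5) (nat_lit 3) (nat_lit 5) (nat_lit 4) (nat_lit 4) (nat_lit 324) (nat_lit 257) (nat_lit 199)) (XT.lf (nat_lit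 0) (nat_lit 20498921811) (nat_lit 152) (nat_lit 153064466907) (nat_lit 0) (nat_lit 2764387473) (nat_lit 2) (nat_lit 5) (nat_lit 4) (nat_lit 4) (nat_lit 2) (nat_lit 4) (nat_lit 325) (nat_lit 257) (nat_lit 198))) (XT.nd (nat_lit 78) (nat_lit 0) (nat_lit 0) (XT.lf (nat_lit 0) (nat_lit 31042783251) (nat_lit 152) (nat_lit 145576556469) (nat_lit 0) (nat_lit 13294086363) (nat_lit 2) (nat_lit 5) (nat_lit 4) (nat_lit 4) (nat_lit 2) (nat_lit 4) (nat_lit 326) (nat_lit 257) (nat_lit 197)) (XT.nd (nat_lit 78) (nat_lit 0) (nat_lit 0) (XT.lf (nat_lit 0) (nat_lit 42414739788) (nat_lit 152) (nat_lit 137519034915) (nat_lit 0) (nat_lit 24652929427) (nat_lit 2) (nat_lit 5) (nat_lit 4) (nat_lit 4) (nat_lit 2) (nat_lit 4) (nat_lit 327) (nat_lit 257) (nat_lit 196)) (XT.lf (nat_lit 0) (nat_lit 54682180794) (nat_lit 152) (nat_lit 128844153970) (nat_lit 0) (nat_lit 36908228329) (nat_lit 2) (nat_lit 5) (nat_lit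 4) (nat_lit 4) (nat_lit 2) (nat_lit 4) (nat_lit 328) (nat_lit 257) (nat_lit 195)))))) (XT.nd (nat_lit 390) (nat_lit 76) (nat_lit 0) (XT.nd (nat_lit 156) (nat_lit 0) (nat_lit 0) (XT.nd (nat_lit 78) (nat_lit 0) (nat_lit 0) (XT.lf (nat_lit 0) (nat_lit 67917802217) (nat_lit 152) (nat_lit 119500506932) (nat_lit 0) (nat_lit 50132607061) (nat_lit 2) (nat_lit 5) (nat_lit 4) (nat_lit 4) (nat_lit 2) (nat_lit 4) (nat_lit 329) (nat_lit 257) (nat_lit 194)) (XT.lf (nat_lit 0) (nat_lit 82200037367) (nat_lit 152) (nat_lit 109432724042) (nat_lit 0) (nat_lit 64404432314) (nat_lit 2) (nat_lit 5) (nat_lit 4) (nat_lit 4) (nat_lit 2) (nat_lit 4) (nat_lit 330) (nat_lit 257) (nat_lit 193))) (XT.nd (nat_lit 78) (nat_lit 0) (nat_lit 0) (XT.lf (nat_lit 0) (nat_lit 97613521713) (nat_lit 152) (nat_lit 98581144362) (nat_lit 0) (nat_lit 79808277866) (nat_lit 2) (nat_lit 5) (nat_lit 4) (nat_lit 4) (nat_lit 2) (nat_lit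 4) (nat_lit 331) (nat_lit 257) (nat_lit 192)) (XT.nd (nat_lit 78) (nat_lit 0) (nat_lit 0) (XT.lf (nat_lit 0) (nat_lit 114249594420) (nat_lit 152) (nat_lit 86881462237) (nat_lit 0) (nat_lit 96435425764) (nat_lit 2) (nat_lit 5) (nat_lit 4) (nat_lit 4) (nat_lit 2) (nat_lit 4) (nat_lit 332) (nat_lit 257) (nat_lit 191)) (XT.lf (nat_lit 0) (nat_lit 132206839625) (nat_lit 152) (nat_lit 74264346215) (nat_lit 0) (nat_lit 114384407256) (nat_lit 2) (nat_lit 5) (nat_lit 4) (nat_lit 4) (nat_lit 2) (nat_lit 4) (nat_lit 333) (nat_lit 257) (nat_lit 190))))) (XT.nd (nat_lit 234) (nat_lit 76) (nat_lit 0) (XT.nd (nat_lit 78) (nat_lit 0) (nat_lit 0) (XT.lf (nat_lit 0) (nat_lit 151591670631) (nat_lit 152) (nat_lit 60655028203) (nat_lit 0) (nat_lit 133761586677) (nat_lit 2) (nat_lit 5) (nat_lit 4) (nat_lit 4) (nat_lit 2) (nat_lit 4) (nat_lit 334) (nat_lit 257) (nat_lit 189)) (XT.nd (nat_lit 78) (nat_lit 0)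 (nat_lit 0) (XT.lf (nat_lit 0) (nat_lit 172518960511) (nat_lit 152) (nat_lit 45972860390) (nat_lit 0) (nat_lit 154681791755) (nat_lit 2) (nat_lit 5) (nat_lit 4) (nat_lit 4) (nat_lit 2) (nat_lit 4) (nat_lit 335) (nat_lit 257) (nat_lit 188)) (XT.lf (nat_lit 0) (nat_lit 195112722835) (nat_lit 152) (nat_lit 30130837336) (nat_lit 0) (nat_lit 177268994078) (nat_lit 2) (nat_lit 5) (nat_lit 4) (nat_lit 4) (nat_lit 2) (nat_lit 4) (nat_lit 336) (nat_lit 257) (nat_lit 187)))) (XT.nd (nat_lit 78) (nat_lit 76) (nat_lit 0) (XT.lf (nat_lit 0) (nat_lit 219506846565) (nat_lit 152) (nat_lit 13035080388) (nat_lit 0) (nat_lit 201657043733) (nat_lit 2) (nat_lit 5) (nat_lit 4) (nat_lit 4) (nat_lit 2) (nat_lit 4) (nat_lit 337) (nat_lit 257) (nat_lit 186)) (XT.nd (nat_lit 78) (nat_lit 0) (nat_lit 0) (XT.lf (nat_lit 0) (nat_lit 5594786761) (nat_lit 76) (nat_lit 240338453010) (nat_lit 76) (nat_lit 222483026034)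 (nat_lit 1) (nat_lit 4) (nat_lit 2) (nat_lit 5) (nat_lit 2) (nat_lit 4) (nat_lit 338) (nat_lit 257) (nat_lit 185)) (XT.lf (nat_lit 0) (nat_lit 26168451710) (nat_lit 76) (nat_lit 248526045927) (nat_lit 76) (nat_lit 230665411411) (nat_lit 1) (nat_lit 4) (nat_lit 2) (nat_lit 5) (nat_lit 2) (nat_lit 4) (nat_lit 339) (nat_lit 257) (nat_lit 184))))))))
noncomputable def xc43 : XT := (XT.nd (nat_lit 35646) (nat_lit 0) (nat_lit 1140) (XT.nd (nat_lit 34788) (nat_lit 0) (nat_lit 4864) (XT.nd (nat_lit 390) (nat_lit 0) (nat_lit 0) (XT.nd (nat_lit 156) (nat_lit 0) (nat_lit 0) (XT.nd (nat_lit 78) (nat_lit 0) (nat_lit 0) (XT.lf (nat_lit 0) (nat_lit 48376833848) (nat_lit 76) (nat_lit 257373980167) (nat_lit 76) (nat_lit 239508523854) (nat_lit 1) (nat_lit 4) (nat_lit 2) (nat_lit 5) (nat_lit 2) (nat_lit 4) (nat_lit 340) (nat_lit 257) (nat_lit 183)) (XT.lf (nat_lit 0) (nat_lit 72351538401) (nat_lit 76) (nat_lit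 266934687934) (nat_lit 76) (nat_lit 249064766994) (nat_lit 1) (nat_lit 4) (nat_lit 2) (nat_lit 5) (nat_lit 2) (nat_lit 4) (nat_lit 341) (nat_lit 257) (nat_lit 182))) (XT.nd (nat_lit 78) (nat_lit 0) (nat_lit 0) (XT.lf (nat_lit 0) (nat_lit 98234637694) (nat_lit 76) (nat_lit 277264825272) (nat_lit 76) (nat_lit 259390770419) (nat_lit 1) (nat_lit 4) (nat_lit 2) (nat_lit 5) (nat_lit 2) (nat_lit 4) (nat_lit 342) (nat_lit 257) (nat_lit 181)) (XT.nd (nat_lit 78) (nat_lit 0) (nat_lit 0) (XT.lf (nat_lit 0) (nat_lit 126179513056) (nat_lit 76) (nat_lit 288425607811) (nat_lit 76) (nat_lit 270547725260) (nat_lit 1) (nat_lit 4) (nat_lit 2) (nat_lit 5) (nat_lit 2) (nat_lit 4) (nat_lit 343) (nat_lit 257) (nat_lit 180)) (XT.lf (nat_lit 0) (nat_lit 156351763747) (nat_lit 76) (nat_lit 300483173521) (nat_lit 76) (nat_lit 282601746805) (nat_lit 1) (nat_lit 4) (nat_lit 2) (nat_lit 5) (nat_lit 2) (nat_lit 4) (nat_lit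 344) (nat_lit 257) (nat_lit 179))))) (XT.nd (nat_lit 156) (nat_lit 0) (nat_lit 0) (XT.nd (nat_lit 78) (nat_lit 0) (nat_lit 0) (XT.lf (nat_lit 0) (nat_lit 188930188291) (nat_lit 76) (nat_lit 313508974644) (nat_lit 76) (nat_lit 295624266294) (nat_lit 1) (nat_lit 4) (nat_lit 2) (nat_lit 5) (nat_lit 2) (nat_lit 4) (nat_lit 345) (nat_lit 257) (nat_lit 178)) (XT.lf (nat_lit 0) (nat_lit 224107844018) (nat_lit 76) (nat_lit 327580201111) (nat_lit 76) (nat_lit 309692454212) (nat_lit 1) (nat_lit 4) (nat_lit 2) (nat_lit 5) (nat_lit 2) (nat_lit 4) (nat_lit 346) (nat_lit 257) (nat_lit 177))) (XT.nd (nat_lit 78) (nat_lit 0) (nat_lit 0) (XT.lf (nat_lit 0) (nat_lit 262093191110) (nat_lit 76) (nat_lit 342780237970) (nat_lit 76) (nat_lit 324889677599) (nat_lit 1) (nat_lit 4) (nat_lit 2) (nat_lit 5) (nat_lit 2) (nat_lit 4) (nat_lit 347) (nat_lit 257) (nat_lit 176)) (XT.nd (nat_lit 34086) (nat_lit 0) (nat_lit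 9880) (XT.lf (nat_lit 0) (nat_lit 303111327921) (nat_lit 76) (nat_lit 359199159512) (nat_lit 76) (nat_lit 341305994074) (nat_lit 1) (nat_lit 4) (nat_lit 2) (nat_lit 5) (nat_lit 2) (nat_lit 4) (nat_lit 348) (nat_lit 257) (nat_lit 175)) (XT.lf (nat_lit 0) (nat_lit 842239784) (nat_lit 228) (nat_lit 1219318671) (nat_lit 228) (nat_lit 1219318671) (nat_lit 131) (nat_lit 4) (nat_lit 134) (nat_lit 5) (nat_lit 134) (nat_lit 4) (nat_lit 264) (nat_lit 258) (nat_lit 258)))))) (XT.nd (nat_lit 390) (nat_lit 3116) (nat_lit 0) (XT.nd (nat_lit 156) (nat_lit 1064) (nat_lit 0) (XT.nd (nat_lit 78) (nat_lit 456) (nat_lit 0) (XT.lf (nat_lit 0) (nat_lit 1062538951) (nat_lit 304) (nat_lit 1223477076) (nat_lit 380) (nat_lit 4347233127) (nat_lit 126) (nat_lit 5) (nat_lit 130) (nat_lit 5) (nat_lit 131) (nat_lit 4) (nat_lit 265) (nat_lit 258) (nat_lit 257)) (XT.lf (nat_lit 0) (nat_lit 244302677) (nat_lit 456) (nat_lit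 6145997257) (nat_lit 76) (nat_lit 335541197) (nat_lit 120) (nat_lit 5) (nat_lit 126) (nat_lit 5) (nat_lit 121) (nat_lit 4) (nat_lit 266) (nat_lit 258) (nat_lit 256))) (XT.nd (nat_lit 78) (nat_lit 608) (nat_lit 0) (XT.lf (nat_lit 0) (nat_lit 174212009) (nat_lit 456) (nat_lit 4596473442) (nat_lit 532) (nat_lit 2066776691) (nat_lit 114) (nat_lit 5) (nat_lit 120) (nat_lit 5) (nat_lit 121) (nat_lit 4) (nat_lit 267) (nat_lit 258) (nat_lit 255)) (XT.nd (nat_lit 78) (nat_lit 532) (nat_lit 0) (XT.lf (nat_lit 0) (nat_lit 2336987487) (nat_lit 532) (nat_lit 112507171) (nat_lit 76) (nat_lit 4521333214) (nat_lit 113) (nat_lit 5) (nat_lit 120) (nat_lit 5) (nat_lit 114) (nat_lit 5) (nat_lit 268) (nat_lit 258) (nat_lit 254)) (XT.lf (nat_lit 0) (nat_lit 6771446670) (nat_lit 608) (nat_lit 292011843) (nat_lit 76) (nat_lit 63130697) (nat_lit 106) (nat_lit 5) (nat_lit 114) (nat_lit 5) (nat_lit 107) (nat_lit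 4) (nat_lit 269) (nat_lit 258) (nat_lit 253))))) (XT.nd (nat_lit 234) (nat_lit 1140) (nat_lit 0) (XT.nd (nat_lit 78) (nat_lit 1292) (nat_lit 0) (XT.lf (nat_lit 0) (nat_lit 3941209598) (nat_lit 684) (nat_lit 457264474) (nat_lit 76) (nat_lit 2903259772) (nat_lit 97) (nat_lit 5) (nat_lit 106) (nat_lit 5) (nat_lit 98) (nat_lit 5) (nat_lit 270) (nat_lit 258) (nat_lit 252)) (XT.nd (nat_lit 78) (nat_lit 532) (nat_lit 0) (XT.lf (nat_lit 0) (nat_lit 832558888) (nat_lit 760) (nat_lit 539388810) (nat_lit 76) (nat_lit 6129114521) (nat_lit 87) (nat_lit 5) (nat_lit 97) (nat_lit 5) (nat_lit 88) (nat_lit 5) (nat_lit 271) (nat_lit 258) (nat_lit 251)) (XT.lf (nat_lit 0) (nat_lit 5089102712) (nat_lit 608) (nat_lit 620306815) (nat_lit 76) (nat_lit 2012576955) (nat_lit 80) (nat_lit 5) (nat_lit 88) (nat_lit 5) (nat_lit 81) (nat_lit 5) (nat_lit 272) (nat_lit 258) (nat_lit 250)))) (XT.nd (nat_lit 78) (nat_lit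 684) (nat_lit 0) (XT.lf (nat_lit 0) (nat_lit 1524500343) (nat_lit 456) (nat_lit 680902641) (nat_lit 76) (nat_lit 5761737354) (nat_lit 74) (nat_lit 5) (nat_lit 80) (nat_lit 5) (nat_lit 75) (nat_lit 5) (nat_lit 273) (nat_lit 258) (nat_lit 249)) (XT.nd (nat_lit 78) (nat_lit 380) (nat_lit 0) (XT.lf (nat_lit 0) (nat_lit 5800627939) (nat_lit 380) (nat_lit 761144212) (nat_lit 76) (nat_lit 1674621196) (nat_lit 70) (nat_lit 5) (nat_lit 75) (nat_lit 5) (nat_lit 71) (nat_lit 5) (nat_lit 274) (nat_lit 258) (nat_lit 248)) (XT.lf (nat_lit 0) (nat_lit 1735761401) (nat_lit 380) (nat_lit 878051090) (nat_lit 76) (nat_lit 5917163065) (nat_lit 65) (nat_lit 5) (nat_lit 70) (nat_lit 5) (nat_lit 66) (nat_lit 5) (nat_lit 275) (nat_lit 258) (nat_lit 247))))))) (XT.nd (nat_lit 780) (nat_lit 1216) (nat_lit 0) (XT.nd (nat_lit 390) (nat_lit 1064) (nat_lit 0) (XT.nd (nat_lit 156) (nat_lit 760) (nat_lit 0) (XT.nd (nat_lit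 78) (nat_lit 380) (nat_lit 0) (XT.lf (nat_lit 0) (nat_lit 6068134956) (nat_lit 380) (nat_lit 1056447301) (nat_lit 76) (nat_lit 1727383588) (nat_lit 61) (nat_lit 5) (nat_lit 66) (nat_lit 5) (nat_lit 62) (nat_lit 5) (nat_lit 276) (nat_lit 258) (nat_lit 246)) (XT.lf (nat_lit 0) (nat_lit 1441747197) (nat_lit 380) (nat_lit 1321567991) (nat_lit 76) (nat_lit 6437375786) (nat_lit 56) (nat_lit 5) (nat_lit 61) (nat_lit 5) (nat_lit 57) (nat_lit 5) (nat_lit 277) (nat_lit 258) (nat_lit 245))) (XT.nd (nat_lit 78) (nat_lit 532) (nat_lit 0) (XT.lf (nat_lit 0) (nat_lit 5853906518) (nat_lit 304) (nat_lit 1712125631) (nat_lit 76) (nat_lit 2012073312) (nat_lit 53) (nat_lit 5) (nat_lit 57) (nat_lit 5) (nat_lit 54) (nat_lit 5) (nat_lit 278) (nat_lit 258) (nat_lit 244)) (XT.nd (nat_lit 78) (nat_lit 228) (nat_lit 0) (XT.lf (nat_lit 0) (nat_lit 585221534) (nat_lit 304) (nat_lit 2238043848) (nat_lit 76) (nat_lit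 7163677031) (nat_lit 49) (nat_lit 5) (nat_lit 53) (nat_lit 5) (nat_lit 50) (nat_lit 5) (nat_lit 279) (nat_lit 258) (nat_lit 243)) (XT.lf (nat_lit 0) (nat_lit 5085915505) (nat_lit 304) (nat_lit 2977751422) (nat_lit 76) (nat_lit 2363224325) (nat_lit 46) (nat_lit 5) (nat_lit 50) (nat_lit 5) (nat_lit 47) (nat_lit 5) (nat_lit 280) (nat_lit 258) (nat_lit 242))))) (XT.nd (nat_lit 156) (nat_lit 608) (nat_lit 0) (XT.nd (nat_lit 78) (nat_lit 228) (nat_lit 0) (XT.lf (nat_lit 0) (nat_lit 6981639316) (nat_lit 228) (nat_lit 2961214886) (nat_lit 304) (nat_lit 959656995) (nat_lit 43) (nat_lit 5) (nat_lit 46) (nat_lit 5) (nat_lit 47) (nat_lit 5) (nat_lit 281) (nat_lit 258) (nat_lit 241)) (XT.lf (nat_lit 0) (nat_lit 3651471519) (nat_lit 228) (nat_lit 5164230216) (nat_lit 76) (nat_lit 2597783461) (nat_lit 40) (nat_lit 5) (nat_lit 43) (nat_lit 5) (nat_lit 41) (nat_lit 5) (nat_lit 282) (nat_lit 258) (nat_lit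 240))) (XT.nd (nat_lit 78) (nat_lit 380) (nat_lit 0) (XT.lf (nat_lit 0) (nat_lit 5236563084) (nat_lit 228) (nat_lit 3378829025) (nat_lit 304) (nat_lit 3348514657) (nat_lit 37) (nat_lit 5) (nat_lit 40) (nat_lit 5) (nat_lit 41) (nat_lit 5) (nat_lit 283) (nat_lit 258) (nat_lit 239)) (XT.nd (nat_lit 78) (nat_lit 152) (nat_lit 0) (XT.lf (nat_lit 0) (nat_lit 1388305841) (nat_lit 228) (nat_lit 8665838451) (nat_lit 76) (nat_lit 2502534312) (nat_lit 34) (nat_lit 5) (nat_lit 37) (nat_lit 5) (nat_lit 35) (nat_lit 5) (nat_lit 284) (nat_lit 258) (nat_lit 238)) (XT.lf (nat_lit 0) (nat_lit 2094835976) (nat_lit 152) (nat_lit 4332447780) (nat_lit 228) (nat_lit 6765007159) (nat_lit 32) (nat_lit 5) (nat_lit 34) (nat_lit 5) (nat_lit 35) (nat_lit 5) (nat_lit 285) (nat_lit 258) (nat_lit 237)))))) (XT.nd (nat_lit 390) (nat_lit 532) (nat_lit 0) (XT.nd (nat_lit 156) (nat_lit 456) (nat_lit 0) (XT.nd (nat_lit 78)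 (nat_lit 228) (nat_lit 0) (XT.lf (nat_lit 0) (nat_lit 11889011707) (nat_lit 228) (nat_lit 136554073) (nat_lit 76) (nat_lit 1852380564) (nat_lit 32) (nat_lit 5) (nat_lit 35) (nat_lit 5) (nat_lit 33) (nat_lit 4) (nat_lit 286) (nat_lit 258) (nat_lit 236)) (XT.lf (nat_lit 0) (nat_lit 3175508571) (nat_lit 228) (nat_lit 2900446236) (nat_lit 76) (nat_lit 8534794343) (nat_lit 29) (nat_lit 5) (nat_lit 32) (nat_lit 5) (nat_lit 30) (nat_lit 5) (nat_lit 287) (nat_lit 258) (nat_lit 235))) (XT.nd (nat_lit 78) (nat_lit 304) (nat_lit 0) (XT.lf (nat_lit 0) (nat_lit 8690810379) (nat_lit 228) (nat_lit 6276352244) (nat_lit 76) (nat_lit 433157479) (nat_lit 27) (nat_lit 5) (nat_lit 30) (nat_lit 5) (nat_lit 28) (nat_lit 4) (nat_lit 288) (nat_lit 258) (nat_lit 234)) (XT.nd (nat_lit 78) (nat_lit 228) (nat_lit 0) (XT.lf (nat_lit 0) (nat_lit 5815654184) (nat_lit 76) (nat_lit 8936684508) (nat_lit 152) (nat_lit 1495600773)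 (nat_lit 26) (nat_lit 5) (nat_lit 27) (nat_lit 5) (nat_lit 28) (nat_lit 4) (nat_lit 289) (nat_lit 258) (nat_lit 233)) (XT.lf (nat_lit 0) (nat_lit 1704294384) (nat_lit 152) (nat_lit 2301500816) (nat_lit 228) (nat_lit 13154325374) (nat_lit 23) (nat_lit 5) (nat_lit 25) (nat_lit 5) (nat_lit 26) (nat_lit 5) (nat_lit 290) (nat_lit 258) (nat_lit 232))))) (XT.nd (nat_lit 234) (nat_lit 228) (nat_lit 0) (XT.nd (nat_lit 78) (nat_lit 304) (nat_lit 0) (XT.lf (nat_lit 0) (nat_lit 10026537701) (nat_lit 228) (nat_lit 3276527566) (nat_lit 76) (nat_lit 4834511808) (nat_lit 23) (nat_lit 5) (nat_lit 26) (nat_lit 5) (nat_lit 24) (nat_lit 4) (nat_lit 291) (nat_lit 258) (nat_lit 231)) (XT.nd (nat_lit 78) (nat_lit 228) (nat_lit 0) (XT.lf (nat_lit 0) (nat_lit 9952664617) (nat_lit 76) (nat_lit 6650361943) (nat_lit 152) (nat_lit 2586599627) (nat_lit 22) (nat_lit 5) (nat_lit 23) (nat_lit 5) (nat_lit 24) (nat_lit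 4) (nat_lit 292) (nat_lit 258) (nat_lit 230)) (XT.lf (nat_lit 0) (nat_lit 3284259874) (nat_lit 228) (nat_lit 16426731982) (nat_lit 76) (nat_lit 611665584) (nat_lit 19) (nat_lit 5) (nat_lit 22) (nat_lit 5) (nat_lit 20) (nat_lit 4) (nat_lit 293) (nat_lit 258) (nat_lit 229)))) (XT.nd (nat_lit 78) (nat_lit 228) (nat_lit 0) (XT.lf (nat_lit 0) (nat_lit 9699214229) (nat_lit 228) (nat_lit 3482334929) (nat_lit 76) (nat_lit 8354491487) (nat_lit 19) (nat_lit 5) (nat_lit 22) (nat_lit 5) (nat_lit 20) (nat_lit 4) (nat_lit 294) (nat_lit 258) (nat_lit 228)) (XT.nd (nat_lit 78) (nat_lit 152) (nat_lit 0) (XT.lf (nat_lit 0) (nat_lit 10658233343) (nat_lit 76) (nat_lit 6031980482) (nat_lit 152) (nat_lit 6153214171) (nat_lit 18) (nat_lit 5) (nat_lit 19) (nat_lit 5) (nat_lit 20) (nat_lit 4) (nat_lit 295) (nat_lit 258) (nat_lit 227)) (XT.lf (nat_lit 0) (nat_lit 1650987111) (nat_lit 152) (nat_lit 22603578286)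 (nat_lit 152) (nat_lit 207650) (nat_lit 16) (nat_lit 4) (nat_lit 18) (nat_lit 5) (nat_lit 18) (nat_lit 4) (nat_lit 296) (nat_lit 258) (nat_lit 226))))))))
noncomputable def xc44 : XT := (XT.nd (nat_lit 1560) (nat_lit 228) (nat_lit 0) (XT.nd (nat_lit 780) (nat_lit 304) (nat_lit 0) (XT.nd (nat_lit 390) (nat_lit 228) (nat_lit 0) (XT.nd (nat_lit 156) (nat_lit 152) (nat_lit 0) (XT.nd (nat_lit 78) (nat_lit 76) (nat_lit 0) (XT.lf (nat_lit 0) (nat_lit 6653198846) (nat_lit 228) (nat_lit 9120251420) (nat_lit 76) (nat_lit 9989407942) (nat_lit 15) (nat_lit 5) (nat_lit 18) (nat_lit 5) (nat_lit 16) (nat_lit 4) (nat_lit 297) (nat_lit 258) (nat_lit 225)) (XT.lf (nat_lit 0) (nat_lit 5457283320) (nat_lit 76) (nat_lit 8377340972) (nat_lit 152) (nat_lit 13557235445) (nat_lit 14) (nat_lit 5) (nat_lit 15) (nat_lit 5) (nat_lit 16) (nat_lit 4) (nat_lit 298) (nat_lit 258) (nat_lit 224))) (XT.nd (nat_lit 78) (nat_lit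 152) (nat_lit 0) (XT.lf (nat_lit 0) (nat_lit 21374280885) (nat_lit 76) (nat_lit 289948102) (nat_lit 152) (nat_lit 7483322298) (nat_lit 14) (nat_lit 5) (nat_lit 15) (nat_lit 5) (nat_lit 16) (nat_lit 4) (nat_lit 299) (nat_lit 258) (nat_lit 223)) (XT.nd (nat_lit 78) (nat_lit 76) (nat_lit 0) (XT.lf (nat_lit 0) (nat_lit 7484496561) (nat_lit 76) (nat_lit 22804536763) (nat_lit 76) (nat_lit 746272490) (nat_lit 13) (nat_lit 4) (nat_lit 14) (nat_lit 5) (nat_lit 14) (nat_lit 4) (nat_lit 300) (nat_lit 258) (nat_lit 222)) (XT.lf (nat_lit 0) (nat_lit 6385870315) (nat_lit 152) (nat_lit 9076391452) (nat_lit 76) (nat_lit 17603508888) (nat_lit 12) (nat_lit 5) (nat_lit 14) (nat_lit 5) (nat_lit 13) (nat_lit 4) (nat_lit 301) (nat_lit 258) (nat_lit 221))))) (XT.nd (nat_lit 156) (nat_lit 152) (nat_lit 0) (XT.nd (nat_lit 78) (nat_lit 0) (nat_lit 0) (XT.lf (nat_lit 0) (nat_lit 6625365533) (nat_lit 76) (nat_lit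 7469203459) (nat_lit 152) (nat_lit 21161925672) (nat_lit 11) (nat_lit 5) (nat_lit 12) (nat_lit 5) (nat_lit 13) (nat_lit 4) (nat_lit 302) (nat_lit 258) (nat_lit 220)) (XT.lf (nat_lit 0) (nat_lit 22529651818) (nat_lit 152) (nat_lit 13854953513) (nat_lit 0) (nat_lit 1232424060) (nat_lit 11) (nat_lit 5) (nat_lit 13) (nat_lit 4) (nat_lit 11) (nat_lit 4) (nat_lit 303) (nat_lit 258) (nat_lit 219))) (XT.nd (nat_lit 78) (nat_lit 76) (nat_lit 0) (XT.lf (nat_lit 0) (nat_lit 1921266101) (nat_lit 76) (nat_lit 29810168821) (nat_lit 76) (nat_lit 8430411748) (nat_lit 10) (nat_lit 4) (nat_lit 11) (nat_lit 5) (nat_lit 11) (nat_lit 4) (nat_lit 304) (nat_lit 258) (nat_lit 218)) (XT.nd (nat_lit 78) (nat_lit 76) (nat_lit 0) (XT.lf (nat_lit 0) (nat_lit 19341851727) (nat_lit 76) (nat_lit 22507794175) (nat_lit 76) (nat_lit 1051621070) (nat_lit 10) (nat_lit 4) (nat_lit 11) (nat_lit 5) (nat_lit 11) (nat_lit 4) (nat_lit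 305) (nat_lit 258) (nat_lit 217)) (XT.lf (nat_lit 0) (nat_lit 6638578886) (nat_lit 152) (nat_lit 7917841974) (nat_lit 76) (nat_lit 31300922698) (nat_lit 9) (nat_lit 5) (nat_lit 11) (nat_lit 5) (nat_lit 10) (nat_lit 4) (nat_lit 306) (nat_lit 258) (nat_lit 216)))))) (XT.nd (nat_lit 390) (nat_lit 152) (nat_lit 0) (XT.nd (nat_lit 156) (nat_lit 76) (nat_lit 0) (XT.nd (nat_lit 78) (nat_lit 0) (nat_lit 0) (XT.lf (nat_lit 0) (nat_lit 9152020668) (nat_lit 76) (nat_lit 5845278741) (nat_lit 152) (nat_lit 34047263513) (nat_lit 8) (nat_lit 5) (nat_lit 9) (nat_lit 5) (nat_lit 10) (nat_lit 4) (nat_lit 307) (nat_lit 258) (nat_lit 215)) (XT.lf (nat_lit 0) (nat_lit 24169095669) (nat_lit 152) (nat_lit 24763378124) (nat_lit 0) (nat_lit 3547091257) (nat_lit 8) (nat_lit 5) (nat_lit 10) (nat_lit 4) (nat_lit 8) (nat_lit 4) (nat_lit 308) (nat_lit 258) (nat_lit 214))) (XT.nd (nat_lit 78) (nat_lit 76) (nat_lit 0)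 (XT.lf (nat_lit 0) (nat_lit 34125576193) (nat_lit 152) (nat_lit 8611188076) (nat_lit 0) (nat_lit 13450078385) (nat_lit 8) (nat_lit 5) (nat_lit 10) (nat_lit 4) (nat_lit 8) (nat_lit 4) (nat_lit 309) (nat_lit 258) (nat_lit 213)) (XT.nd (nat_lit 78) (nat_lit 0) (nat_lit 0) (XT.lf (nat_lit 0) (nat_lit 9040353523) (nat_lit 76) (nat_lit 35935272894) (nat_lit 76) (nat_lit 15210244165) (nat_lit 7) (nat_lit 4) (nat_lit 8) (nat_lit 5) (nat_lit 8) (nat_lit 4) (nat_lit 310) (nat_lit 258) (nat_lit 212)) (XT.lf (nat_lit 0) (nat_lit 28332920847) (nat_lit 76) (nat_lit 28468706208) (nat_lit 76) (nat_lit 7697815515) (nat_lit 7) (nat_lit 4) (nat_lit 8) (nat_lit 5) (nat_lit 8) (nat_lit 4) (nat_lit 311) (nat_lit 258) (nat_lit 211))))) (XT.nd (nat_lit 156) (nat_lit 76) (nat_lit 0) (XT.nd (nat_lit 78) (nat_lit 0) (nat_lit 0) (XT.lf (nat_lit 0) (nat_lit 362710111) (nat_lit 152) (nat_lit 20069799746) (nat_lit 76)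 (nat_lit 48727262670) (nat_lit 6) (nat_lit 5) (nat_lit 8) (nat_lit 5) (nat_lit 7) (nat_lit 4) (nat_lit 312) (nat_lit 258) (nat_lit 210)) (XT.lf (nat_lit 0) (nat_lit 8765327067) (nat_lit 152) (nat_lit 2883754229) (nat_lit 76) (nat_lit 62539206371) (nat_lit 6) (nat_lit 5) (nat_lit 8) (nat_lit 5) (nat_lit 7) (nat_lit 4) (nat_lit 313) (nat_lit 258) (nat_lit 209))) (XT.nd (nat_lit 78) (nat_lit 0) (nat_lit 0) (XT.lf (nat_lit 0) (nat_lit 16129900066) (nat_lit 76) (nat_lit 1928139685) (nat_lit 152) (nat_lit 61550164425) (nat_lit 5) (nat_lit 5) (nat_lit 6) (nat_lit 5) (nat_lit 7) (nat_lit 4) (nat_lit 314) (nat_lit 258) (nat_lit 208)) (XT.nd (nat_lit 78) (nat_lit 0) (nat_lit 0) (XT.lf (nat_lit 0) (nat_lit 28246211173) (nat_lit 152) (nat_lit 48888170917) (nat_lit 0) (nat_lit 8319743233) (nat_lit 5) (nat_lit 5) (nat_lit 7) (nat_lit 4) (nat_lit 5) (nat_lit 4) (nat_lit 315) (nat_lit 258) (nat_lit 207))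 (XT.lf (nat_lit 0) (nat_lit 39251555600) (nat_lit 152) (nat_lit 33220709900) (nat_lit 0) (nat_lit 19295361106) (nat_lit 5) (nat_lit 5) (nat_lit 7) (nat_lit 4) (nat_lit 5) (nat_lit 4) (nat_lit 316) (nat_lit 258) (nat_lit 206))))))) (XT.nd (nat_lit 780) (nat_lit 0) (nat_lit 0) (XT.nd (nat_lit 390) (nat_lit 152) (nat_lit 0) (XT.nd (nat_lit 156) (nat_lit 0) (nat_lit 0) (XT.nd (nat_lit 78) (nat_lit 76) (nat_lit 0) (XT.lf (nat_lit 0) (nat_lit 51109186226) (nat_lit 152) (nat_lit 16352973183) (nat_lit 0) (nat_lit 31125467144) (nat_lit 5) (nat_lit 5) (nat_lit 7) (nat_lit 4) (nat_lit 5) (nat_lit 4) (nat_lit 317) (nat_lit 258) (nat_lit 205)) (XT.lf (nat_lit 0) (nat_lit 1875008164) (nat_lit 76) (nat_lit 62043636458) (nat_lit 76) (nat_lit 42034431646) (nat_lit 4) (nat_lit 4) (nat_lit 5) (nat_lit 5) (nat_lit 5) (nat_lit 4) (nat_lit 318) (nat_lit 258) (nat_lit 204))) (XT.nd (nat_lit 78) (nat_lit 0) (nat_lit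 0) (XT.lf (nat_lit 0) (nat_lit 22098138714) (nat_lit 76) (nat_lit 55914717979) (nat_lit 76) (nat_lit 35881915270) (nat_lit 4) (nat_lit 4) (nat_lit 5) (nat_lit 5) (nat_lit 5) (nat_lit 4) (nat_lit 319) (nat_lit 258) (nat_lit 203)) (XT.nd (nat_lit 78) (nat_lit 0) (nat_lit 0) (XT.lf (nat_lit 0) (nat_lit 43895556095) (nat_lit 76) (nat_lit 49316029969) (nat_lit 76) (nat_lit 29261377355) (nat_lit 4) (nat_lit 4) (nat_lit 5) (nat_lit 5) (nat_lit 5) (nat_lit 4) (nat_lit 320) (nat_lit 258) (nat_lit 202)) (XT.lf (nat_lit 0) (nat_lit 67396430187) (nat_lit 76) (nat_lit 42208469092) (nat_lit 76) (nat_lit 22133585084) (nat_lit 4) (nat_lit 4) (nat_lit 5) (nat_lit 5) (nat_lit 5) (nat_lit 4) (nat_lit 321) (nat_lit 258) (nat_lit 201))))) (XT.nd (nat_lit 156) (nat_lit 152) (nat_lit 0) (XT.nd (nat_lit 78) (nat_lit 0) (nat_lit 0) (XT.lf (nat_lit 0) (nat_lit 92740025430) (nat_lit 76) (nat_lit 34549916468) (nat_lit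 76) (nat_lit 14456299688) (nat_lit 4) (nat_lit 4) (nat_lit 5) (nat_lit 5) (nat_lit 5) (nat_lit 4) (nat_lit 322) (nat_lit 258) (nat_lit 200)) (XT.lf (nat_lit 0) (nat_lit 120076526091) (nat_lit 76) (nat_lit 26294988082) (nat_lit 76) (nat_lit 6184026143) (nat_lit 4) (nat_lit 4) (nat_lit 5) (nat_lit 5) (nat_lit 5) (nat_lit 4) (nat_lit 323) (nat_lit 258) (nat_lit 199))) (XT.nd (nat_lit 78) (nat_lit 76) (nat_lit 0) (XT.lf (nat_lit 0) (nat_lit 2644807162) (nat_lit 152) (nat_lit 14705167587) (nat_lit 76) (nat_lit 146878327997) (nat_lit 3) (nat_lit 5) (nat_lit 5) (nat_lit 5) (nat_lit 4) (nat_lit 4) (nat_lit 324) (nat_lit 258) (nat_lit 198)) (XT.nd (nat_lit 78) (nat_lit 0) (nat_lit 0) (XT.lf (nat_lit 0) (nat_lit 4500164902) (nat_lit 76) (nat_lit 7520351123) (nat_lit 152) (nat_lit 164806445834) (nat_lit 2) (nat_lit 5) (nat_lit 3) (nat_lit 5) (nat_lit 4) (nat_lit 4) (nat_lit 325) (nat_lit 258) (nat_lit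 197)) (XT.lf (nat_lit 0) (nat_lit 22439553219) (nat_lit 152) (nat_lit 164735617819) (nat_lit 0) (nat_lit 3243684556) (nat_lit 2) (nat_lit 5) (nat_lit 4) (nat_lit 4) (nat_lit 2) (nat_lit 4) (nat_lit 326) (nat_lit 258) (nat_lit 196)))))) (XT.nd (nat_lit 390) (nat_lit 0) (nat_lit 0) (XT.nd (nat_lit 156) (nat_lit 0) (nat_lit 0) (XT.nd (nat_lit 78) (nat_lit 0) (nat_lit 0) (XT.lf (nat_lit 0) (nat_lit 33804648191) (nat_lit 152) (nat_lit 156691193541) (nat_lit 0) (nat_lit 14596637424) (nat_lit 2) (nat_lit 5) (nat_lit 4) (nat_lit 4) (nat_lit 2) (nat_lit 4) (nat_lit 327) (nat_lit 258) (nat_lit 195)) (XT.lf (nat_lit 0) (nat_lit 46065735897) (nat_lit 152) (nat_lit 148028439704) (nat_lit 0) (nat_lit 26846482440) (nat_lit 2) (nat_lit 5) (nat_lit 4) (nat_lit 4) (nat_lit 2) (nat_lit 4) (nat_lit 328) (nat_lit 258) (nat_lit 194))) (XT.nd (nat_lit 78) (nat_lit 0) (nat_lit 0) (XT.lf (nat_lit 0) (nat_lit 59295474634)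 (nat_lit 152) (nat_lit 138696021469) (nat_lit 0) (nat_lit 40065811279) (nat_lit 2) (nat_lit 5) (nat_lit 4) (nat_lit 4) (nat_lit 2) (nat_lit 4) (nat_lit 329) (nat_lit 258) (nat_lit 193)) (XT.nd (nat_lit 78) (nat_lit 0) (nat_lit 0) (XT.lf (nat_lit 0) (nat_lit 73572262853) (nat_lit 152) (nat_lit 128638635618) (nat_lit 0) (nat_lit 54332960705) (nat_lit 2) (nat_lit 5) (nat_lit 4) (nat_lit 4) (nat_lit 2) (nat_lit 4) (nat_lit 330) (nat_lit 258) (nat_lit 192)) (XT.lf (nat_lit 0) (nat_lit 88980703744) (nat_lit 152) (nat_lit 117796682827) (nat_lit 0) (nat_lit 69732476786) (nat_lit 2) (nat_lit 5) (nat_lit 4) (nat_lit 4) (nat_lit 2) (nat_lit 4) (nat_lit 331) (nat_lit 258) (nat_lit 191))))) (XT.nd (nat_lit 234) (nat_lit 0) (nat_lit 0) (XT.nd (nat_lit 78) (nat_lit 0) (nat_lit 0) (XT.lf (nat_lit 0) (nat_lit 105612106587) (nat_lit 152) (nat_lit 106105914487) (nat_lit 0) (nat_lit 86355615916) (nat_lit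 2) (nat_lit 5) (nat_lit 4) (nat_lit 4) (nat_lit 2) (nat_lit 4) (nat_lit 332) (nat_lit 258) (nat_lit 190)) (XT.nd (nat_lit 78) (nat_lit 0) (nat_lit 0) (XT.lf (nat_lit 0) (nat_lit 123565027842) (nat_lit 152) (nat_lit 93497051971) (nat_lit 0) (nat_lit 104300885586) (nat_lit 2) (nat_lit 5) (nat_lit 4) (nat_lit 4) (nat_lit 2) (nat_lit 4) (nat_lit 333) (nat_lit 258) (nat_lit 189)) (XT.lf (nat_lit 0) (nat_lit 142945855191) (nat_lit 152) (nat_lit 79895376093) (nat_lit 0) (nat_lit 123674628134) (nat_lit 2) (nat_lit 5) (nat_lit 4) (nat_lit 4) (nat_lit 2) (nat_lit 4) (nat_lit 334) (nat_lit 258) (nat_lit 188)))) (XT.nd (nat_lit 78) (nat_lit 0) (nat_lit 0) (XT.lf (nat_lit 0) (nat_lit 163869437981) (nat_lit 152) (nat_lit 65220284330) (nat_lit 0) (nat_lit 144591650923) (nat_lit 2) (nat_lit 5) (nat_lit 4) (nat_lit 4) (nat_lit 2) (nat_lit 4) (nat_lit 335) (nat_lit 258) (nat_lit 187)) (XT.nd (nat_lit 78)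 (nat_lit 0) (nat_lit 0) (XT.lf (nat_lit 0) (nat_lit 186459767815) (nat_lit 152) (nat_lit 49384813176) (nat_lit 0) (nat_lit 167175906681) (nat_lit 2) (nat_lit 5) (nat_lit 4) (nat_lit 4) (nat_lit 2) (nat_lit 4) (nat_lit 336) (nat_lit 258) (nat_lit 186)) (XT.lf (nat_lit 0) (nat_lit 210850713313) (nat_lit 152) (nat_lit 32295122800) (nat_lit 0) (nat_lit 191561228035) (nat_lit 2) (nat_lit 5) (nat_lit 4) (nat_lit 4) (nat_lit 2) (nat_lit 4) (nat_lit 337) (nat_lit 258) (nat_lit 185))))))))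
noncomputable def xc45 : XT := (XT.nd (nat_lit 35490) (nat_lit 0) (nat_lit 1596) (XT.nd (nat_lit 780) (nat_lit 0) (nat_lit 0) (XT.nd (nat_lit 390) (nat_lit 0) (nat_lit 0) (XT.nd (nat_lit 156) (nat_lit 0) (nat_lit 0) (XT.nd (nat_lit 78) (nat_lit 76) (nat_lit 0) (XT.lf (nat_lit 0) (nat_lit 237186813411) (nat_lit 152) (nat_lit 13849940964) (nat_lit 0) (nat_lit 217892120593) (nat_lit 2) (nat_lit 5) (nat_lit 4) (nat_lit 4) (nat_lit 2) (nat_lit 4) (nat_lit 338) (nat_lit 258) (nat_lit 184)) (XT.lf (nat_lit 0) (nat_lit 6260409307) (nat_lit 76) (nat_lit 259461467115) (nat_lit 76) (nat_lit 240161952500) (nat_lit 1) (nat_lit 4) (nat_lit 2) (nat_lit 5) (nat_lit 2) (nat_lit 4) (nat_lit 339) (nat_lit 258) (nat_lit 183))) (XT.nd (nat_lit 78) (nat_lit 0) (nat_lit 0) (XT.lf (nat_lit 0) (nat_lit 28463816371) (nat_lit 76) (nat_lit 268311775772) (nat_lit 76) (nat_lit 249007796530) (nat_lit 1) (nat_lit 4)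 (nat_lit 2) (nat_lit 5) (nat_lit 2) (nat_lit 4) (nat_lit 340) (nat_lit 258) (nat_lit 182)) (XT.nd (nat_lit 78) (nat_lit 0) (nat_lit 0) (XT.lf (nat_lit 0) (nat_lit 52433914374) (nat_lit 76) (nat_lit 277874682072) (nat_lit 76) (nat_lit 258566568917) (nat_lit 1) (nat_lit 4) (nat_lit 2) (nat_lit 5) (nat_lit 2) (nat_lit 4) (nat_lit 341) (nat_lit 258) (nat_lit 181)) (XT.lf (nat_lit 0) (nat_lit 78312748343) (nat_lit 76) (nat_lit 288206855090) (nat_lit 76) (nat_lit 268894914237) (nat_lit 1) (nat_lit 4) (nat_lit 2) (nat_lit 5) (nat_lit 2) (nat_lit 4) (nat_lit 342) (nat_lit 258) (nat_lit 180))))) (XT.nd (nat_lit 156) (nat_lit 0) (nat_lit 0) (XT.nd (nat_lit 78) (nat_lit 0) (nat_lit 0) (XT.lf (nat_lit 0) (nat_lit 106253674330) (nat_lit 76) (nat_lit 299369522517) (nat_lit 76) (nat_lit 280054037500) (nat_lit 1) (nat_lit 4) (nat_lit 2) (nat_lit 5) (nat_lit 2) (nat_lit 4) (nat_lit 343) (nat_lit 258) (nat_lit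 179)) (XT.lf (nat_lit 0) (nat_lit 136422268193) (nat_lit 76) (nat_lit 311428833494) (nat_lit 76) (nat_lit 292110066843) (nat_lit 1) (nat_lit 4) (nat_lit 2) (nat_lit 5) (nat_lit 2) (nat_lit 4) (nat_lit 344) (nat_lit 258) (nat_lit 178))) (XT.nd (nat_lit 78) (nat_lit 0) (nat_lit 0) (XT.lf (nat_lit 0) (nat_lit 168997306784) (nat_lit 76) (nat_lit 324456250605) (nat_lit 76) (nat_lit 305134445404) (nat_lit 1) (nat_lit 4) (nat_lit 2) (nat_lit 5) (nat_lit 2) (nat_lit 4) (nat_lit 345) (nat_lit 258) (nat_lit 177)) (XT.nd (nat_lit 78) (nat_lit 0) (nat_lit 0) (XT.lf (nat_lit 0) (nat_lit 204171827370) (nat_lit 76) (nat_lit 338528973358) (nat_lit 76) (nat_lit 319204354685) (nat_lit 1) (nat_lit 4) (nat_lit 2) (nat_lit 5) (nat_lit 2) (nat_lit 4) (nat_lit 346) (nat_lit 258) (nat_lit 176)) (XT.lf (nat_lit 0) (nat_lit 242154271554) (nat_lit 76) (nat_lit 353730395666) (nat_lit 76) (nat_lit 334403171926) (nat_lit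 1) (nat_lit 4) (nat_lit 2) (nat_lit 5) (nat_lit 2) (nat_lit 4) (nat_lit 347) (nat_lit 258) (nat_lit 175)))))) (XT.nd (nat_lit 34242) (nat_lit 0) (nat_lit 6536) (XT.nd (nat_lit 34008) (nat_lit 0) (nat_lit 9500) (XT.nd (nat_lit 33930) (nat_lit 0) (nat_lit 10336) (XT.lf (nat_lit 0) (nat_lit 283169720487) (nat_lit 76) (nat_lit 370150600031) (nat_lit 76) (nat_lit 350820964193) (nat_lit 1) (nat_lit 4) (nat_lit 2) (nat_lit 5) (nat_lit 2) (nat_lit 4) (nat_lit 348) (nat_lit 258) (nat_lit 174)) (XT.lf (nat_lit 0) (nat_lit 1780206582) (nat_lit 76) (nat_lit 727645182) (nat_lit 76) (nat_lit 727645182) (nat_lit 137) (nat_lit 4) (nat_lit 138) (nat_lit 5) (nat_lit 138) (nat_lit 4) (nat_lit 262) (nat_lit 259) (nat_lit 259))) (XT.nd (nat_lit 78) (nat_lit 608) (nat_lit 0) (XT.lf (nat_lit 0) (nat_lit 2459980283) (nat_lit 152) (nat_lit 744586825) (nat_lit 228) (nat_lit 3306665751) (nat_lit 134) (nat_lit 5)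 (nat_lit 136) (nat_lit 5) (nat_lit 137) (nat_lit 4) (nat_lit 263) (nat_lit 259) (nat_lit 258)) (XT.nd (nat_lit 78) (nat_lit 304) (nat_lit 0) (XT.lf (nat_lit 0) (nat_lit 1209942763) (nat_lit 304) (nat_lit 5057108659) (nat_lit 76) (nat_lit 305139368) (nat_lit 130) (nat_lit 5) (nat_lit 134) (nat_lit 5) (nat_lit 131) (nat_lit 4) (nat_lit 264) (nat_lit 259) (nat_lit 257)) (XT.lf (nat_lit 0) (nat_lit 687436356) (nat_lit 304) (nat_lit 4961486769) (nat_lit 380) (nat_lit 1003881346) (nat_lit 126) (nat_lit 5) (nat_lit 130) (nat_lit 5) (nat_lit 131) (nat_lit 4) (nat_lit 265) (nat_lit 259) (nat_lit 256))))) (XT.nd (nat_lit 234) (nat_lit 1976) (nat_lit 0) (XT.nd (nat_lit 78) (nat_lit 912) (nat_lit 0) (XT.lf (nat_lit 0) (nat_lit 3273431890) (nat_lit 380) (nat_lit 25886220) (nat_lit 76) (nat_lit 3454394721) (nat_lit 125) (nat_lit 5) (nat_lit 130) (nat_lit 5) (nat_lit 126) (nat_lit 5) (nat_lit 266) (nat_lit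 259) (nat_lit 255)) (XT.nd (nat_lit 78) (nat_lit 456) (nat_lit 0) (XT.lf (nat_lit 0) (nat_lit 686156133) (nat_lit 456) (nat_lit 595250605) (nat_lit 76) (nat_lit 5594617163) (nat_lit 119) (nat_lit 5) (nat_lit 125) (nat_lit 5) (nat_lit 120) (nat_lit 5) (nat_lit 267) (nat_lit 259) (nat_lit 254)) (XT.lf (nat_lit 0) (nat_lit 4821935694) (nat_lit 532) (nat_lit 1102116183) (nat_lit 76) (nat_lit 1094277920) (nat_lit 113) (nat_lit 5) (nat_lit 120) (nat_lit 5) (nat_lit 114) (nat_lit 5) (nat_lit 268) (nat_lit 259) (nat_lit 253)))) (XT.nd (nat_lit 78) (nat_lit 1368) (nat_lit 0) (XT.lf (nat_lit 0) (nat_lit 1833782303) (nat_lit 608) (nat_lit 1542535322) (nat_lit 76) (nat_lit 3805648976) (nat_lit 105) (nat_lit 5) (nat_lit 113) (nat_lit 5) (nat_lit 106) (nat_lit 5) (nat_lit 269) (nat_lit 259) (nat_lit 252)) (XT.nd (nat_lit 78) (nat_lit 760) (nat_lit 0) (XT.lf (nat_lit 0) (nat_lit 5452750702) (nat_lit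 608) (nat_lit 445305982) (nat_lit 684) (nat_lit 1470189953) (nat_lit 97) (nat_lit 5) (nat_lit 105) (nat_lit 5) (nat_lit 106) (nat_lit 5) (nat_lit 270) (nat_lit 259) (nat_lit 251)) (XT.lf (nat_lit 0) (nat_lit 2483557004) (nat_lit 760) (nat_lit 2284905290) (nat_lit 76) (nat_lit 2806911264) (nat_lit 87) (nat_lit 5) (nat_lit 97) (nat_lit 5) (nat_lit 88) (nat_lit 5) (nat_lit 271) (nat_lit 259) (nat_lit 250))))))) (XT.nd (nat_lit 780) (nat_lit 1596) (nat_lit 0) (XT.nd (nat_lit 390) (nat_lit 1368) (nat_lit 0) (XT.nd (nat_lit 156) (nat_lit 988) (nat_lit 0) (XT.nd (nat_lit 78) (nat_lit 456) (nat_lit 0) (XT.lf (nat_lit 0) (nat_lit 5189811624) (nat_lit 532) (nat_lit 1350431921) (nat_lit 608) (nat_lit 1266355041) (nat_lit 80) (nat_lit 5) (nat_lit 87) (nat_lit 5) (nat_lit 88) (nat_lit 5) (nat_lit 272) (nat_lit 259) (nat_lit 249)) (XT.lf (nat_lit 0) (nat_lit 2659833264) (nat_lit 456) (nat_lit 2977452014)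 (nat_lit 76) (nat_lit 2423044831) (nat_lit 74) (nat_lit 5) (nat_lit 80) (nat_lit 5) (nat_lit 75) (nat_lit 5) (nat_lit 273) (nat_lit 259) (nat_lit 248))) (XT.nd (nat_lit 78) (nat_lit 684) (nat_lit 0) (XT.lf (nat_lit 0) (nat_lit 4989451730) (nat_lit 304) (nat_lit 1756500554) (nat_lit 380) (nat_lit 1593382668) (nat_lit 70) (nat_lit 5) (nat_lit 74) (nat_lit 5) (nat_lit 75) (nat_lit 5) (nat_lit 274) (nat_lit 259) (nat_lit 247)) (XT.nd (nat_lit 78) (nat_lit 304) (nat_lit 0) (XT.lf (nat_lit 0) (nat_lit 2360078772) (nat_lit 380) (nat_lit 3788236065) (nat_lit 76) (nat_lit 2494721616) (nat_lit 65) (nat_lit 5) (nat_lit 70) (nat_lit 5) (nat_lit 66) (nat_lit 5) (nat_lit 275) (nat_lit 259) (nat_lit 246)) (XT.lf (nat_lit 0) (nat_lit 4678921414) (nat_lit 304) (nat_lit 1824293575) (nat_lit 380) (nat_lit 2470478897) (nat_lit 61) (nat_lit 5) (nat_lit 65) (nat_lit 5) (nat_lit 66) (nat_lit 5) (nat_lit 276)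 (nat_lit 259) (nat_lit 245))))) (XT.nd (nat_lit 156) (nat_lit 760) (nat_lit 0) (XT.nd (nat_lit 78) (nat_lit 228) (nat_lit 0) (XT.lf (nat_lit 0) (nat_lit 1553050262) (nat_lit 380) (nat_lit 4909371661) (nat_lit 76) (nat_lit 2869534480) (nat_lit 56) (nat_lit 5) (nat_lit 61) (nat_lit 5) (nat_lit 57) (nat_lit 5) (nat_lit 277) (nat_lit 259) (nat_lit 244)) (XT.lf (nat_lit 0) (nat_lit 4057304450) (nat_lit 228) (nat_lit 1713187642) (nat_lit 304) (nat_lit 3948782283) (nat_lit 53) (nat_lit 5) (nat_lit 56) (nat_lit 5) (nat_lit 57) (nat_lit 5) (nat_lit 278) (nat_lit 259) (nat_lit 243))) (XT.nd (nat_lit 78) (nat_lit 456) (nat_lit 0) (XT.lf (nat_lit 0) (nat_lit 175315958) (nat_lit 304) (nat_lit 6570101912) (nat_lit 76) (nat_lit 3392642096) (nat_lit 49) (nat_lit 5) (nat_lit 53) (nat_lit 5) (nat_lit 50) (nat_lit 5) (nat_lit 279) (nat_lit 259) (nat_lit 242)) (XT.nd (nat_lit 78) (nat_lit 228) (nat_lit 0)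 (XT.lf (nat_lit 0) (nat_lit 2881330061) (nat_lit 228) (nat_lit 1591093377) (nat_lit 304) (nat_lit 6115901548) (nat_lit 46) (nat_lit 5) (nat_lit 49) (nat_lit 5) (nat_lit 50) (nat_lit 5) (nat_lit 280) (nat_lit 259) (nat_lit 241)) (XT.lf (nat_lit 0) (nat_lit 1990760261) (nat_lit 228) (nat_lit 7146788117) (nat_lit 304) (nat_lit 1936113959) (nat_lit 43) (nat_lit 5) (nat_lit 46) (nat_lit 5) (nat_lit 47) (nat_lit 5) (nat_lit 281) (nat_lit 259) (nat_lit 240)))))) (XT.nd (nat_lit 390) (nat_lit 760) (nat_lit 0) (XT.nd (nat_lit 156) (nat_lit 608) (nat_lit 0) (XT.nd (nat_lit 78) (nat_lit 0) (nat_lit 0) (XT.lf (nat_lit 0) (nat_lit 848002902) (nat_lit 152) (nat_lit 1645505653) (nat_lit 228) (nat_lit 9102639724) (nat_lit 40) (nat_lit 5) (nat_lit 42) (nat_lit 5) (nat_lit 43) (nat_lit 5) (nat_lit 282) (nat_lit 259) (nat_lit 239)) (XT.lf (nat_lit 0) (nat_lit 7268056968) (nat_lit 228) (nat_lit 611632886)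 (nat_lit 76) (nat_lit 4276452071) (nat_lit 40) (nat_lit 5) (nat_lit 43) (nat_lit 5) (nat_lit 41) (nat_lit 5) (nat_lit 283) (nat_lit 259) (nat_lit 238))) (XT.nd (nat_lit 78) (nat_lit 380) (nat_lit 0) (XT.lf (nat_lit 0) (nat_lit 10405419055) (nat_lit 228) (nat_lit 2051575015) (nat_lit 304) (nat_lit 302519022) (nat_lit 37) (nat_lit 5) (nat_lit 40) (nat_lit 5) (nat_lit 41) (nat_lit 5) (nat_lit 284) (nat_lit 259) (nat_lit 237)) (XT.nd (nat_lit 78) (nat_lit 152) (nat_lit 0) (XT.lf (nat_lit 0) (nat_lit 4567212726) (nat_lit 228) (nat_lit 4580106867) (nat_lit 76) (nat_lit 4257072882) (nat_lit 34) (nat_lit 5) (nat_lit 37) (nat_lit 5) (nat_lit 35) (nat_lit 5) (nat_lit 285) (nat_lit 259) (nat_lit 236)) (XT.lf (nat_lit 0) (nat_lit 6833732056) (nat_lit 152) (nat_lit 3019700179) (nat_lit 228) (nat_lit 4245469317) (nat_lit 32) (nat_lit 5) (nat_lit 34) (nat_lit 5) (nat_lit 35) (nat_lit 5) (nat_lit 286)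 (nat_lit 259) (nat_lit 235))))) (XT.nd (nat_lit 234) (nat_lit 380) (nat_lit 0) (XT.nd (nat_lit 78) (nat_lit 152) (nat_lit 0) (XT.lf (nat_lit 0) (nat_lit 757229337) (nat_lit 228) (nat_lit 10520240298) (nat_lit 76) (nat_lit 3567763635) (nat_lit 29) (nat_lit 5) (nat_lit 32) (nat_lit 5) (nat_lit 30) (nat_lit 5) (nat_lit 287) (nat_lit 259) (nat_lit 234)) (XT.nd (nat_lit 78) (nat_lit 0) (nat_lit 0) (XT.lf (nat_lit 0) (nat_lit 1151444941) (nat_lit 152) (nat_lit 4924734773) (nat_lit 228) (nat_lit 9568505950) (nat_lit 27) (nat_lit 5) (nat_lit 29) (nat_lit 5) (nat_lit 30) (nat_lit 5) (nat_lit 288) (nat_lit 259) (nat_lit 233)) (XT.lf (nat_lit 0) (nat_lit 11907876511) (nat_lit 228) (nat_lit 2613127605) (nat_lit 76) (nat_lit 1982851626) (nat_lit 27) (nat_lit 5) (nat_lit 30) (nat_lit 5) (nat_lit 28) (nat_lit 4) (nat_lit 289) (nat_lit 259) (nat_lit 232)))) (XT.nd (nat_lit 78) (nat_lit 228) (nat_lit 0)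 (XT.lf (nat_lit 0) (nat_lit 875106199) (nat_lit 152) (nat_lit 7174587681) (nat_lit 76) (nat_lit 9375292503) (nat_lit 25) (nat_lit 5) (nat_lit 27) (nat_lit 5) (nat_lit 26) (nat_lit 5) (nat_lit 290) (nat_lit 259) (nat_lit 231)) (XT.nd (nat_lit 78) (nat_lit 76) (nat_lit 0) (XT.lf (nat_lit 0) (nat_lit 5730950244) (nat_lit 152) (nat_lit 914062977) (nat_lit 228) (nat_lit 11770019726) (nat_lit 23) (nat_lit 5) (nat_lit 25) (nat_lit 5) (nat_lit 26) (nat_lit 5) (nat_lit 291) (nat_lit 259) (nat_lit 230)) (XT.lf (nat_lit 0) (nat_lit 154894064) (nat_lit 76) (nat_lit 12845898712) (nat_lit 152) (nat_lit 6477369461) (nat_lit 22) (nat_lit 5) (nat_lit 23) (nat_lit 5) (nat_lit 24) (nat_lit 4) (nat_lit 292) (nat_lit 259) (nat_lit 229))))))))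
noncomputable def xc46 : XT := (XT.nd (nat_lit 1560) (nat_lit 380) (nat_lit 0) (XT.nd (nat_lit 780) (nat_lit 380) (nat_lit 0) (XT.nd (nat_lit 390) (nat_lit 228) (nat_lit 0) (XT.nd (nat_lit 156) (nat_lit 304) (nat_lit 0) (XT.nd (nat_lit 78) (nat_lit 228) (nat_lit 0) (XT.lf (nat_lit 0) (nat_lit 14277162581) (nat_lit 76) (nat_lit 5718186711) (nat_lit 152) (nat_lit 624562958) (nat_lit 22) (nat_lit 5) (nat_lit 23) (nat_lit 5) (nat_lit 24) (nat_lit 4) (nat_lit 293) (nat_lit 259) (nat_lit 228)) (XT.lf (nat_lit 0) (nat_lit 5567338350) (nat_lit 228) (nat_lit 14219178682) (nat_lit 76) (nat_lit 2059454637) (nat_lit 19) (nat_lit 5) (nat_lit 22) (nat_lit 5) (nat_lit 20) (nat_lit 4) (nat_lit 294) (nat_lit 259) (nat_lit 227))) (XT.nd (nat_lit 78) (nat_lit 304) (nat_lit 0) (XT.lf (nat_lit 0) (nat_lit 12345834409) (nat_lit 228) (nat_lit 500095928) (nat_lit 76) (nat_lit 10318087664) (nat_lit 19) (nat_lit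 5) (nat_lit 22) (nat_lit 5) (nat_lit 20) (nat_lit 4) (nat_lit 295) (nat_lit 259) (nat_lit 226)) (XT.nd (nat_lit 78) (nat_lit 228) (nat_lit 0) (XT.lf (nat_lit 0) (nat_lit 14630006290) (nat_lit 76) (nat_lit 5176236684) (nat_lit 152) (nat_lit 4774348527) (nat_lit 18) (nat_lit 5) (nat_lit 19) (nat_lit 5) (nat_lit 20) (nat_lit 4) (nat_lit 296) (nat_lit 259) (nat_lit 225)) (XT.lf (nat_lit 0) (nat_lit 1744915634) (nat_lit 228) (nat_lit 21303302573) (nat_lit 76) (nat_lit 3058560176) (nat_lit 15) (nat_lit 5) (nat_lit 18) (nat_lit 5) (nat_lit 16) (nat_lit 4) (nat_lit 297) (nat_lit 259) (nat_lit 224))))) (XT.nd (nat_lit 156) (nat_lit 152) (nat_lit 0) (XT.nd (nat_lit 78) (nat_lit 76) (nat_lit 0) (XT.lf (nat_lit 0) (nat_lit 8801318382) (nat_lit 228) (nat_lit 6971368999) (nat_lit 76) (nat_lit 11969369222) (nat_lit 15) (nat_lit 5) (nat_lit 18) (nat_lit 5) (nat_lit 16) (nat_lit 4) (nat_lit 298) (nat_lit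 259) (nat_lit 223)) (XT.lf (nat_lit 0) (nat_lit 8647272308) (nat_lit 76) (nat_lit 7833280344) (nat_lit 152) (nat_lit 13024737685) (nat_lit 14) (nat_lit 5) (nat_lit 15) (nat_lit 5) (nat_lit 16) (nat_lit 4) (nat_lit 299) (nat_lit 259) (nat_lit 222))) (XT.nd (nat_lit 78) (nat_lit 152) (nat_lit 0) (XT.lf (nat_lit 0) (nat_lit 24835178464) (nat_lit 152) (nat_lit 5786199748) (nat_lit 0) (nat_lit 785197490) (nat_lit 14) (nat_lit 5) (nat_lit 16) (nat_lit 4) (nat_lit 14) (nat_lit 4) (nat_lit 300) (nat_lit 259) (nat_lit 221)) (XT.nd (nat_lit 78) (nat_lit 0) (nat_lit 0) (XT.lf (nat_lit 0) (nat_lit 617878345) (nat_lit 152) (nat_lit 22884405668) (nat_lit 76) (nat_lit 9945788557) (nat_lit 12) (nat_lit 5) (nat_lit 14) (nat_lit 5) (nat_lit 13) (nat_lit 4) (nat_lit 301) (nat_lit 259) (nat_lit 220)) (XT.lf (nat_lit 0) (nat_lit 8191236630) (nat_lit 152) (nat_lit 7452609427) (nat_lit 76) (nat_lit 20001735431)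 (nat_lit 12) (nat_lit 5) (nat_lit 14) (nat_lit 5) (nat_lit 13) (nat_lit 4) (nat_lit 302) (nat_lit 259) (nat_lit 219)))))) (XT.nd (nat_lit 390) (nat_lit 152) (nat_lit 0) (XT.nd (nat_lit 156) (nat_lit 152) (nat_lit 0) (XT.nd (nat_lit 78) (nat_lit 0) (nat_lit 0) (XT.lf (nat_lit 0) (nat_lit 9403164615) (nat_lit 76) (nat_lit 7052671929) (nat_lit 152) (nat_lit 21558820382) (nat_lit 11) (nat_lit 5) (nat_lit 12) (nat_lit 5) (nat_lit 13) (nat_lit 4) (nat_lit 303) (nat_lit 259) (nat_lit 218)) (XT.lf (nat_lit 0) (nat_lit 25489000328) (nat_lit 152) (nat_lit 12839002840) (nat_lit 0) (nat_lit 2239917341) (nat_lit 11) (nat_lit 5) (nat_lit 13) (nat_lit 4) (nat_lit 11) (nat_lit 4) (nat_lit 304) (nat_lit 259) (nat_lit 217))) (XT.nd (nat_lit 78) (nat_lit 76) (nat_lit 0) (XT.lf (nat_lit 0) (nat_lit 4106992814) (nat_lit 76) (nat_lit 31265956925) (nat_lit 76) (nat_lit 7946118353) (nat_lit 10) (nat_lit 4) (nat_lit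 11) (nat_lit 5) (nat_lit 11) (nat_lit 4) (nat_lit 305) (nat_lit 259) (nat_lit 216)) (XT.nd (nat_lit 78) (nat_lit 76) (nat_lit 0) (XT.lf (nat_lit 0) (nat_lit 22770704888) (nat_lit 76) (nat_lit 23448209004) (nat_lit 76) (nat_lit 62856001) (nat_lit 10) (nat_lit 4) (nat_lit 11) (nat_lit 5) (nat_lit 11) (nat_lit 4) (nat_lit 306) (nat_lit 259) (nat_lit 215)) (XT.lf (nat_lit 0) (nat_lit 8131290587) (nat_lit 152) (nat_lit 6776868808) (nat_lit 76) (nat_lit 34569219812) (nat_lit 9) (nat_lit 5) (nat_lit 11) (nat_lit 5) (nat_lit 10) (nat_lit 4) (nat_lit 307) (nat_lit 259) (nat_lit 214))))) (XT.nd (nat_lit 156) (nat_lit 76) (nat_lit 0) (XT.nd (nat_lit 78) (nat_lit 0) (nat_lit 0) (XT.lf (nat_lit 0) (nat_lit 11581469560) (nat_lit 76) (nat_lit 5532507092) (nat_lit 152) (nat_lit 35807870930) (nat_lit 8) (nat_lit 5) (nat_lit 9) (nat_lit 5) (nat_lit 10) (nat_lit 4) (nat_lit 308) (nat_lit 259) (nat_lit 213))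 (XT.lf (nat_lit 0) (nat_lit 26962880200) (nat_lit 152) (nat_lit 25141315526) (nat_lit 0) (nat_lit 4530318251) (nat_lit 8) (nat_lit 5) (nat_lit 10) (nat_lit 4) (nat_lit 8) (nat_lit 4) (nat_lit 309) (nat_lit 259) (nat_lit 212))) (XT.nd (nat_lit 78) (nat_lit 76) (nat_lit 0) (XT.lf (nat_lit 0) (nat_lit 37652156433) (nat_lit 152) (nat_lit 7815700856) (nat_lit 0) (nat_lit 15173732520) (nat_lit 8) (nat_lit 5) (nat_lit 10) (nat_lit 4) (nat_lit 8) (nat_lit 4) (nat_lit 310) (nat_lit 259) (nat_lit 211)) (XT.nd (nat_lit 78) (nat_lit 0) (nat_lit 0) (XT.lf (nat_lit 0) (nat_lit 11183454627) (nat_lit 76) (nat_lit 38149921713) (nat_lit 76) (nat_lit 15629033018) (nat_lit 7) (nat_lit 4) (nat_lit 8) (nat_lit 5) (nat_lit 8) (nat_lit 4) (nat_lit 311) (nat_lit 259) (nat_lit 210)) (XT.lf (nat_lit 0) (nat_lit 31914251572) (nat_lit 76) (nat_lit 30134931398) (nat_lit 76) (nat_lit 7574723460) (nat_lit 7) (nat_lit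 4) (nat_lit 8) (nat_lit 5) (nat_lit 8) (nat_lit 4) (nat_lit 312) (nat_lit 259) (nat_lit 209))))))) (XT.nd (nat_lit 780) (nat_lit 152) (nat_lit 0) (XT.nd (nat_lit 390) (nat_lit 76) (nat_lit 0) (XT.nd (nat_lit 156) (nat_lit 76) (nat_lit 0) (XT.nd (nat_lit 78) (nat_lit 0) (nat_lit 0) (XT.lf (nat_lit 0) (nat_lit 1054011483) (nat_lit 152) (nat_lit 20435891102) (nat_lit 76) (nat_lit 53169255101) (nat_lit 6) (nat_lit 5) (nat_lit 8) (nat_lit 5) (nat_lit 7) (nat_lit 4) (nat_lit 313) (nat_lit 259) (nat_lit 208)) (XT.lf (nat_lit 0) (nat_lit 10079779680) (nat_lit 152) (nat_lit 1966776212) (nat_lit 76) (nat_lit 68045871971) (nat_lit 6) (nat_lit 5) (nat_lit 8) (nat_lit 5) (nat_lit 7) (nat_lit 4) (nat_lit 314) (nat_lit 259) (nat_lit 207))) (XT.nd (nat_lit 78) (nat_lit 0) (nat_lit 0) (XT.lf (nat_lit 0) (nat_lit 18518093724) (nat_lit 76) (nat_lit 1569531233) (nat_lit 152) (nat_lit 65859746326) (nat_lit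 5) (nat_lit 5) (nat_lit 6) (nat_lit 5) (nat_lit 7) (nat_lit 4) (nat_lit 315) (nat_lit 259) (nat_lit 206)) (XT.nd (nat_lit 78) (nat_lit 0) (nat_lit 0) (XT.lf (nat_lit 0) (nat_lit 31054935106) (nat_lit 152) (nat_lit 51762850791) (nat_lit 0) (nat_lit 9444993909) (nat_lit 5) (nat_lit 5) (nat_lit 7) (nat_lit 4) (nat_lit 5) (nat_lit 4) (nat_lit 316) (nat_lit 259) (nat_lit 205)) (XT.lf (nat_lit 0) (nat_lit 42900038418) (nat_lit 152) (nat_lit 34918761322) (nat_lit 0) (nat_lit 21264611492) (nat_lit 5) (nat_lit 5) (nat_lit 7) (nat_lit 4) (nat_lit 5) (nat_lit 4) (nat_lit 317) (nat_lit 259) (nat_lit 204))))) (XT.nd (nat_lit 156) (nat_lit 0) (nat_lit 0) (XT.nd (nat_lit 78) (nat_lit 76) (nat_lit 0) (XT.lf (nat_lit 0) (nat_lit 55668623318) (nat_lit 152) (nat_lit 16772687547) (nat_lit 0) (nat_lit 34009598495) (nat_lit 5) (nat_lit 5) (nat_lit 7) (nat_lit 4) (nat_lit 5) (nat_lit 4) (nat_lit 318) (nat_lit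 259) (nat_lit 203)) (XT.lf (nat_lit 0) (nat_lit 2874918160) (nat_lit 76) (nat_lit 66606322864) (nat_lit 76) (nat_lit 44925448135) (nat_lit 4) (nat_lit 4) (nat_lit 5) (nat_lit 5) (nat_lit 5) (nat_lit 4) (nat_lit 319) (nat_lit 259) (nat_lit 202))) (XT.nd (nat_lit 78) (nat_lit 0) (nat_lit 0) (XT.lf (nat_lit 0) (nat_lit 24652942906) (nat_lit 76) (nat_lit 60016780129) (nat_lit 76) (nat_lit 38315674007) (nat_lit 4) (nat_lit 4) (nat_lit 5) (nat_lit 5) (nat_lit 5) (nat_lit 4) (nat_lit 320) (nat_lit 259) (nat_lit 201)) (XT.nd (nat_lit 78) (nat_lit 0) (nat_lit 0) (XT.lf (nat_lit 0) (nat_lit 48135860856) (nat_lit 76) (nat_lit 52917687100) (nat_lit 76) (nat_lit 31197848206) (nat_lit 4) (nat_lit 4) (nat_lit 5) (nat_lit 5) (nat_lit 5) (nat_lit 4) (nat_lit 321) (nat_lit 259) (nat_lit 200)) (XT.lf (nat_lit 0) (nat_lit 73462830040) (nat_lit 76) (nat_lit 45266975076) (nat_lit 76) (nat_lit 23529791023) (nat_lit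 4) (nat_lit 4) (nat_lit 5) (nat_lit 5) (nat_lit 5) (nat_lit 4) (nat_lit 322) (nat_lit 259) (nat_lit 199)))))) (XT.nd (nat_lit 390) (nat_lit 0) (nat_lit 0) (XT.nd (nat_lit 156) (nat_lit 152) (nat_lit 0) (XT.nd (nat_lit 78) (nat_lit 0) (nat_lit 0) (XT.lf (nat_lit 0) (nat_lit 100783936203) (nat_lit 76) (nat_lit 37019306505) (nat_lit 76) (nat_lit 15266062119) (nat_lit 4) (nat_lit 4) (nat_lit 5) (nat_lit 5) (nat_lit 5) (nat_lit 4) (nat_lit 323) (nat_lit 259) (nat_lit 198)) (XT.lf (nat_lit 0) (nat_lit 130261082195) (nat_lit 76) (nat_lit 28125806313) (nat_lit 76) (nat_lit 6357691249) (nat_lit 4) (nat_lit 4) (nat_lit 5) (nat_lit 5) (nat_lit 5) (nat_lit 4) (nat_lit 324) (nat_lit 259) (nat_lit 197))) (XT.nd (nat_lit 78) (nat_lit 76) (nat_lit 0) (XT.lf (nat_lit 0) (nat_lit 3144152066) (nat_lit 152) (nat_lit 15336372475) (nat_lit 76) (nat_lit 158871547599) (nat_lit 3) (nat_lit 5) (nat_lit 5) (nat_lit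 5) (nat_lit 4) (nat_lit 4) (nat_lit 325) (nat_lit 259) (nat_lit 196)) (XT.nd (nat_lit 78) (nat_lit 0) (nat_lit 0) (XT.lf (nat_lit 0) (nat_lit 5381692516) (nat_lit 76) (nat_lit 7875051842) (nat_lit 152) (nat_lit 177702546198) (nat_lit 2) (nat_lit 5) (nat_lit 3) (nat_lit 5) (nat_lit 4) (nat_lit 4) (nat_lit 326) (nat_lit 259) (nat_lit 195)) (XT.lf (nat_lit 0) (nat_lit 24492534402) (nat_lit 152) (nat_lit 177422349241) (nat_lit 0) (nat_lit 3724497979) (nat_lit 2) (nat_lit 5) (nat_lit 4) (nat_lit 4) (nat_lit 2) (nat_lit 4) (nat_lit 327) (nat_lit 259) (nat_lit 194))))) (XT.nd (nat_lit 234) (nat_lit 0) (nat_lit 0) (XT.nd (nat_lit 78) (nat_lit 0) (nat_lit 0) (XT.lf (nat_lit 0) (nat_lit 36747739423) (nat_lit 152) (nat_lit 168770824206) (nat_lit 0) (nat_lit 15969293102) (nat_lit 2) (nat_lit 5) (nat_lit 4) (nat_lit 4) (nat_lit 2) (nat_lit 4) (nat_lit 328) (nat_lit 259) (nat_lit 193)) (XT.nd (nat_lit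 78) (nat_lit 0) (nat_lit 0) (XT.lf (nat_lit 0) (nat_lit 49972031229) (nat_lit 152) (nat_lit 159448803011) (nat_lit 0) (nat_lit 29183946114) (nat_lit 2) (nat_lit 5) (nat_lit 4) (nat_lit 4) (nat_lit 2) (nat_lit 4) (nat_lit 329) (nat_lit 259) (nat_lit 192)) (XT.lf (nat_lit 0) (nat_lit 64243775993) (nat_lit 152) (nat_lit 149401044048) (nat_lit 0) (nat_lit 43446766069) (nat_lit 2) (nat_lit 5) (nat_lit 4) (nat_lit 4) (nat_lit 2) (nat_lit 4) (nat_lit 330) (nat_lit 259) (nat_lit 191)))) (XT.nd (nat_lit 78) (nat_lit 0) (nat_lit 0) (XT.lf (nat_lit 0) (nat_lit 79647547019) (nat_lit 152) (nat_lit 138568005043) (nat_lit 0) (nat_lit 58842273383) (nat_lit 2) (nat_lit 5) (nat_lit 4) (nat_lit 4) (nat_lit 2) (nat_lit 4) (nat_lit 331) (nat_lit 259) (nat_lit 190)) (XT.nd (nat_lit 78) (nat_lit 0) (nat_lit 0) (XT.lf (nat_lit 0) (nat_lit 96274625912) (nat_lit 152) (nat_lit 126885490208) (nat_lit 0) (nat_lit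 75461700690) (nat_lit 2) (nat_lit 5) (nat_lit 4) (nat_lit 4) (nat_lit 2) (nat_lit 4) (nat_lit 332) (nat_lit 259) (nat_lit 189)) (XT.lf (nat_lit 0) (nat_lit 114223543510) (nat_lit 152) (nat_lit 114284269827) (nat_lit 0) (nat_lit 93403533487) (nat_lit 2) (nat_lit 5) (nat_lit 4) (nat_lit 4) (nat_lit 2) (nat_lit 4) (nat_lit 333) (nat_lit 259) (nat_lit 188))))))))
noncomputable def xc47 : XT := (XT.nd (nat_lit 35412) (nat_lit 0) (nat_lit 2356) (XT.nd (nat_lit 780) (nat_lit 0) (nat_lit 0) (XT.nd (nat_lit 390) (nat_lit 76) (nat_lit 0) (XT.nd (nat_lit 156) (nat_lit 0) (nat_lit 0) (XT.nd (nat_lit 78) (nat_lit 0) (nat_lit 0) (XT.lf (nat_lit 0) (nat_lit 133600663769) (nat_lit 152) (nat_lit 100689670000) (nat_lit 0) (nat_lit 112774093745) (nat_lit 2) (nat_lit 5) (nat_lit 4) (nat_lit 4) (nat_lit 2) (nat_lit 4) (nat_lit 334) (nat_lit 259) (nat_lit 187)) (XT.lf (nat_lit 0) (nat_lit 154520814069) (nat_lit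 152) (nat_lit 86021130135) (nat_lit 0) (nat_lit 133688169970) (nat_lit 2) (nat_lit 5) (nat_lit 4) (nat_lit 4) (nat_lit 2) (nat_lit 4) (nat_lit 335) (nat_lit 259) (nat_lit 186))) (XT.nd (nat_lit 78) (nat_lit 0) (nat_lit 0) (XT.lf (nat_lit 0) (nat_lit 177107965671) (nat_lit 152) (nat_lit 70191725553) (nat_lit 0) (nat_lit 156269697427) (nat_lit 2) (nat_lit 5) (nat_lit 4) (nat_lit 4) (nat_lit 2) (nat_lit 4) (nat_lit 336) (nat_lit 259) (nat_lit 185)) (XT.nd (nat_lit 78) (nat_lit 0) (nat_lit 0) (XT.lf (nat_lit 0) (nat_lit 201495968361) (nat_lit 152) (nat_lit 53107652375) (nat_lit 0) (nat_lit 180652492577) (nat_lit 2) (nat_lit 5) (nat_lit 4) (nat_lit 4) (nat_lit 2) (nat_lit 4) (nat_lit 337) (nat_lit 259) (nat_lit 184)) (XT.lf (nat_lit 0) (nat_lit 227829343638) (nat_lit 152) (nat_lit 34667671647) (nat_lit 0) (nat_lit 206981046057) (nat_lit 2) (nat_lit 5) (nat_lit 4) (nat_lit 4) (nat_lit 2) (nat_lit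 4) (nat_lit 338) (nat_lit 259) (nat_lit 183))))) (XT.nd (nat_lit 156) (nat_lit 0) (nat_lit 0) (XT.nd (nat_lit 78) (nat_lit 76) (nat_lit 0) (XT.lf (nat_lit 0) (nat_lit 256264141133) (nat_lit 152) (nat_lit 14762509411) (nat_lit 0) (nat_lit 235411378925) (nat_lit 2) (nat_lit 5) (nat_lit 4) (nat_lit 4) (nat_lit 2) (nat_lit 4) (nat_lit 339) (nat_lit 259) (nat_lit 182)) (XT.lf (nat_lit 0) (nat_lit 6948175871) (nat_lit 76) (nat_lit 280129167975) (nat_lit 76) (nat_lit 259272271854) (nat_lit 1) (nat_lit 4) (nat_lit 2) (nat_lit 5) (nat_lit 2) (nat_lit 4) (nat_lit 340) (nat_lit 259) (nat_lit 181))) (XT.nd (nat_lit 78) (nat_lit 0) (nat_lit 0) (XT.lf (nat_lit 0) (nat_lit 30914008549) (nat_lit 76) (nat_lit 289694109955) (nat_lit 76) (nat_lit 268833386136) (nat_lit 1) (nat_lit 4) (nat_lit 2) (nat_lit 5) (nat_lit 2) (nat_lit 4) (nat_lit 341) (nat_lit 259) (nat_lit 180)) (XT.nd (nat_lit 78) (nat_lit 0)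 (nat_lit 0) (XT.lf (nat_lit 0) (nat_lit 56788893143) (nat_lit 76) (nat_lit 300028167861) (nat_lit 76) (nat_lit 279163899878) (nat_lit 1) (nat_lit 4) (nat_lit 2) (nat_lit 5) (nat_lit 2) (nat_lit 4) (nat_lit 342) (nat_lit 259) (nat_lit 179)) (XT.lf (nat_lit 0) (nat_lit 84726162302) (nat_lit 76) (nat_lit 311192580556) (nat_lit 76) (nat_lit 290325030938) (nat_lit 1) (nat_lit 4) (nat_lit 2) (nat_lit 5) (nat_lit 2) (nat_lit 4) (nat_lit 343) (nat_lit 259) (nat_lit 178)))))) (XT.nd (nat_lit 34164) (nat_lit 0) (nat_lit 9424) (XT.nd (nat_lit 156) (nat_lit 0) (nat_lit 0) (XT.nd (nat_lit 78) (nat_lit 0) (nat_lit 0) (XT.lf (nat_lit 0) (nat_lit 114891370213) (nat_lit 76) (nat_lit 323253507521) (nat_lit 76) (nat_lit 302382919354) (nat_lit 1) (nat_lit 4) (nat_lit 2) (nat_lit 5) (nat_lit 2) (nat_lit 4) (nat_lit 344) (nat_lit 259) (nat_lit 177)) (XT.lf (nat_lit 0) (nat_lit 147463273664) (nat_lit 76) (nat_lit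 336282420917) (nat_lit 76) (nat_lit 315409019278) (nat_lit 1) (nat_lit 4) (nat_lit 2) (nat_lit 5) (nat_lit 2) (nat_lit 4) (nat_lit 345) (nat_lit 259) (nat_lit 176))) (XT.nd (nat_lit 78) (nat_lit 0) (nat_lit 0) (XT.lf (nat_lit 0) (nat_lit 182634891342) (nat_lit 76) (nat_lit 350356529119) (nat_lit 76) (nat_lit 329480522413) (nat_lit 1) (nat_lit 4) (nat_lit 2) (nat_lit 5) (nat_lit 2) (nat_lit 4) (nat_lit 346) (nat_lit 259) (nat_lit 175)) (XT.nd (nat_lit 33852) (nat_lit 0) (nat_lit 10488) (XT.lf (nat_lit 0) (nat_lit 220614647648) (nat_lit 76) (nat_lit 365559234251) (nat_lit 76) (nat_lit 344680815446) (nat_lit 1) (nat_lit 4) (nat_lit 2) (nat_lit 5) (nat_lit 2) (nat_lit 4) (nat_lit 347) (nat_lit 259) (nat_lit 174)) (XT.lf (nat_lit 0) (nat_lit 1073741823) (nat_lit 0) (nat_lit 0) (nat_lit 0) (nat_lit 0) (nat_lit 139) (nat_lit 0) (nat_lit 1) (nat_lit 0) (nat_lit 1) (nat_lit 0) (nat_lit 260) (nat_lit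 260) (nat_lit 260))))) (XT.nd (nat_lit 234) (nat_lit 608) (nat_lit 0) (XT.nd (nat_lit 78) (nat_lit 380) (nat_lit 0) (XT.lf (nat_lit 0) (nat_lit 4633119693) (nat_lit 76) (nat_lit 1623238427) (nat_lit 0) (nat_lit 194986821) (nat_lit 138) (nat_lit 5) (nat_lit 139) (nat_lit 0) (nat_lit 138) (nat_lit 4) (nat_lit 261) (nat_lit 260) (nat_lit 259)) (XT.nd (nat_lit 78) (nat_lit 228) (nat_lit 0) (XT.lf (nat_lit 0) (nat_lit 2659938645) (nat_lit 152) (nat_lit 3094640938) (nat_lit 76) (nat_lit 726243044) (nat_lit 136) (nat_lit 5) (nat_lit 138) (nat_lit 5) (nat_lit 137) (nat_lit 4) (nat_lit 262) (nat_lit 260) (nat_lit 258)) (XT.lf (nat_lit 0) (nat_lit 508961704) (nat_lit 228) (nat_lit 4424813491) (nat_lit 76) (nat_lit 1597266031) (nat_lit 133) (nat_lit 5) (nat_lit 136) (nat_lit 5) (nat_lit 134) (nat_lit 5) (nat_lit 263) (nat_lit 260) (nat_lit 257)))) (XT.nd (nat_lit 78) (nat_lit 380) (nat_lit 0) (XT.lf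 (nat_lit 0) (nat_lit 947684448) (nat_lit 228) (nat_lit 3757421799) (nat_lit 304) (nat_lit 1895684502) (nat_lit 130) (nat_lit 5) (nat_lit 133) (nat_lit 5) (nat_lit 134) (nat_lit 5) (nat_lit 264) (nat_lit 260) (nat_lit 256)) (XT.nd (nat_lit 78) (nat_lit 304) (nat_lit 0) (XT.lf (nat_lit 0) (nat_lit 2158925359) (nat_lit 304) (nat_lit 76629440) (nat_lit 76) (nat_lit 4455739558) (nat_lit 129) (nat_lit 5) (nat_lit 133) (nat_lit 5) (nat_lit 130) (nat_lit 5) (nat_lit 265) (nat_lit 260) (nat_lit 255)) (XT.lf (nat_lit 0) (nat_lit 5850217714) (nat_lit 304) (nat_lit 344723412) (nat_lit 380) (nat_lit 607459989) (nat_lit 125) (nat_lit 5) (nat_lit 129) (nat_lit 5) (nat_lit 130) (nat_lit 5) (nat_lit 266) (nat_lit 260) (nat_lit 254))))))) (XT.nd (nat_lit 780) (nat_lit 2204) (nat_lit 0) (XT.nd (nat_lit 390) (nat_lit 1976) (nat_lit 0) (XT.nd (nat_lit 156) (nat_lit 1900) (nat_lit 0) (XT.nd (nat_lit 78) (nat_lit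 532) (nat_lit 0) (XT.lf (nat_lit 0) (nat_lit 3276059427) (nat_lit 456) (nat_lit 1776078991) (nat_lit 76) (nat_lit 1880341432) (nat_lit 119) (nat_lit 5) (nat_lit 125) (nat_lit 5) (nat_lit 120) (nat_lit 5) (nat_lit 267) (nat_lit 260) (nat_lit 253)) (XT.lf (nat_lit 0) (nat_lit 126135487) (nat_lit 532) (nat_lit 2501563813) (nat_lit 76) (nat_lit 4457237086) (nat_lit 112) (nat_lit 5) (nat_lit 119) (nat_lit 5) (nat_lit 113) (nat_lit 5) (nat_lit 268) (nat_lit 260) (nat_lit 252))) (XT.nd (nat_lit 78) (nat_lit 1368) (nat_lit 0) (XT.lf (nat_lit 0) (nat_lit 3869623196) (nat_lit 608) (nat_lit 3186552499) (nat_lit 76) (nat_lit 201879513) (nat_lit 105) (nat_lit 5) (nat_lit 113) (nat_lit 5) (nat_lit 106) (nat_lit 5) (nat_lit 269) (nat_lit 260) (nat_lit 251)) (XT.nd (nat_lit 78) (nat_lit 684) (nat_lit 0) (XT.lf (nat_lit 0) (nat_lit 301068626) (nat_lit 684) (nat_lit 3835334105) (nat_lit 76) (nat_lit 3316524107)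 (nat_lit 96) (nat_lit 5) (nat_lit 105) (nat_lit 5) (nat_lit 97) (nat_lit 5) (nat_lit 270) (nat_lit 260) (nat_lit 250)) (XT.lf (nat_lit 0) (nat_lit 3200082914) (nat_lit 684) (nat_lit 793957591) (nat_lit 760) (nat_lit 3675859455) (nat_lit 87) (nat_lit 5) (nat_lit 96) (nat_lit 5) (nat_lit 97) (nat_lit 5) (nat_lit 271) (nat_lit 260) (nat_lit 249))))) (XT.nd (nat_lit 156) (nat_lit 988) (nat_lit 0) (XT.nd (nat_lit 78) (nat_lit 456) (nat_lit 0) (XT.lf (nat_lit 0) (nat_lit 2813313629) (nat_lit 532) (nat_lit 5061048350) (nat_lit 608) (nat_lit 35866356) (nat_lit 80) (nat_lit 5) (nat_lit 87) (nat_lit 5) (nat_lit 88) (nat_lit 5) (nat_lit 272) (nat_lit 260) (nat_lit 248)) (XT.lf (nat_lit 0) (nat_lit 2411116060) (nat_lit 380) (nat_lit 1236795960) (nat_lit 456) (nat_lit 4525490006) (nat_lit 74) (nat_lit 5) (nat_lit 79) (nat_lit 5) (nat_lit 80) (nat_lit 5) (nat_lit 273) (nat_lit 260) (nat_lit 247))) (XT.nd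 (nat_lit 78) (nat_lit 684) (nat_lit 0) (XT.lf (nat_lit 0) (nat_lit 2001307045) (nat_lit 304) (nat_lit 5552181661) (nat_lit 380) (nat_lit 908178062) (nat_lit 70) (nat_lit 5) (nat_lit 74) (nat_lit 5) (nat_lit 75) (nat_lit 5) (nat_lit 274) (nat_lit 260) (nat_lit 246)) (XT.nd (nat_lit 78) (nat_lit 304) (nat_lit 0) (XT.lf (nat_lit 0) (nat_lit 1543227871) (nat_lit 304) (nat_lit 1277557537) (nat_lit 380) (nat_lit 5954381596) (nat_lit 65) (nat_lit 5) (nat_lit 69) (nat_lit 5) (nat_lit 70) (nat_lit 5) (nat_lit 275) (nat_lit 260) (nat_lit 245)) (XT.lf (nat_lit 0) (nat_lit 1012846429) (nat_lit 304) (nat_lit 5769946091) (nat_lit 380) (nat_lit 2332278441) (nat_lit 61) (nat_lit 5) (nat_lit 65) (nat_lit 5) (nat_lit 66) (nat_lit 5) (nat_lit 276) (nat_lit 260) (nat_lit 244)))))) (XT.nd (nat_lit 390) (nat_lit 1064) (nat_lit 0) (XT.nd (nat_lit 156) (nat_lit 760) (nat_lit 0) (XT.nd (nat_lit 78) (nat_lit 0)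 (nat_lit 0) (XT.lf (nat_lit 0) (nat_lit 408521637) (nat_lit 304) (nat_lit 1068702721) (nat_lit 380) (nat_lit 8006649000) (nat_lit 56) (nat_lit 5) (nat_lit 60) (nat_lit 5) (nat_lit 61) (nat_lit 5) (nat_lit 277) (nat_lit 260) (nat_lit 243)) (XT.lf (nat_lit 0) (nat_lit 5519941715) (nat_lit 380) (nat_lit 344029912) (nat_lit 76) (nat_lit 4016111120) (nat_lit 56) (nat_lit 5) (nat_lit 61) (nat_lit 5) (nat_lit 57) (nat_lit 5) (nat_lit 278) (nat_lit 260) (nat_lit 242))) (XT.nd (nat_lit 78) (nat_lit 532) (nat_lit 0) (XT.lf (nat_lit 0) (nat_lit 9124507675) (nat_lit 228) (nat_lit 739676238) (nat_lit 304) (nat_lit 445198497) (nat_lit 53) (nat_lit 5) (nat_lit 56) (nat_lit 5) (nat_lit 57) (nat_lit 5) (nat_lit 279) (nat_lit 260) (nat_lit 241)) (XT.nd (nat_lit 78) (nat_lit 228) (nat_lit 0) (XT.lf (nat_lit 0) (nat_lit 3703599145) (nat_lit 304) (nat_lit 2275157416) (nat_lit 76) (nat_lit 4789493074) (nat_lit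 49) (nat_lit 5) (nat_lit 53) (nat_lit 5) (nat_lit 50) (nat_lit 5) (nat_lit 280) (nat_lit 260) (nat_lit 240)) (XT.lf (nat_lit 0) (nat_lit 7722893771) (nat_lit 228) (nat_lit 433257578) (nat_lit 304) (nat_lit 3108181605) (nat_lit 46) (nat_lit 5) (nat_lit 49) (nat_lit 5) (nat_lit 50) (nat_lit 5) (nat_lit 281) (nat_lit 260) (nat_lit 239))))) (XT.nd (nat_lit 234) (nat_lit 380) (nat_lit 0) (XT.nd (nat_lit 78) (nat_lit 380) (nat_lit 0) (XT.lf (nat_lit 0) (nat_lit 1201409294) (nat_lit 304) (nat_lit 5110941920) (nat_lit 76) (nat_lit 5483363368) (nat_lit 42) (nat_lit 5) (nat_lit 46) (nat_lit 5) (nat_lit 43) (nat_lit 5) (nat_lit 282) (nat_lit 260) (nat_lit 238)) (XT.nd (nat_lit 78) (nat_lit 228) (nat_lit 0) (XT.lf (nat_lit 0) (nat_lit 5379012715) (nat_lit 152) (nat_lit 370221344) (nat_lit 228) (nat_lit 6617906155) (nat_lit 40) (nat_lit 5) (nat_lit 42) (nat_lit 5) (nat_lit 43) (nat_lit 5) (nat_lit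 283) (nat_lit 260) (nat_lit 237)) (XT.lf (nat_lit 0) (nat_lit 3715679458) (nat_lit 228) (nat_lit 7042029475) (nat_lit 304) (nat_lit 2221914265) (nat_lit 37) (nat_lit 5) (nat_lit 40) (nat_lit 5) (nat_lit 41) (nat_lit 5) (nat_lit 284) (nat_lit 260) (nat_lit 236)))) (XT.nd (nat_lit 78) (nat_lit 152) (nat_lit 0) (XT.lf (nat_lit 0) (nat_lit 1682952401) (nat_lit 152) (nat_lit 777241558) (nat_lit 228) (nat_lit 11178338013) (nat_lit 34) (nat_lit 5) (nat_lit 36) (nat_lit 5) (nat_lit 37) (nat_lit 5) (nat_lit 285) (nat_lit 260) (nat_lit 235)) (XT.nd (nat_lit 78) (nat_lit 152) (nat_lit 0) (XT.lf (nat_lit 0) (nat_lit 7562770144) (nat_lit 228) (nat_lit 849294344) (nat_lit 76) (nat_lit 5930231156) (nat_lit 34) (nat_lit 5) (nat_lit 37) (nat_lit 5) (nat_lit 35) (nat_lit 5) (nat_lit 286) (nat_lit 260) (nat_lit 234)) (XT.lf (nat_lit 0) (nat_lit 11299591458) (nat_lit 152) (nat_lit 1838656662) (nat_lit 228)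 (nat_lit 1961017000) (nat_lit 32) (nat_lit 5) (nat_lit 34) (nat_lit 5) (nat_lit 35) (nat_lit 5) (nat_lit 287) (nat_lit 260) (nat_lit 233))))))))
noncomputable def xc48 : XT := (XT.nd (nat_lit 1560) (nat_lit 532) (nat_lit 0) (XT.nd (nat_lit 780) (nat_lit 684) (nat_lit 0) (XT.nd (nat_lit 390) (nat_lit 380) (nat_lit 0) (XT.nd (nat_lit 156) (nat_lit 304) (nat_lit 0) (XT.nd (nat_lit 78) (nat_lit 152) (nat_lit 0) (XT.lf (nat_lit 0) (nat_lit 3251745809) (nat_lit 228) (nat_lit 7429384107) (nat_lit 76) (nat_lit 5227625205) (nat_lit 29) (nat_lit 5) (nat_lit 32) (nat_lit 5) (nat_lit 30) (nat_lit 5) (nat_lit 288) (nat_lit 260) (nat_lit 232)) (XT.lf (nat_lit 0) (nat_lit 5005135361) (nat_lit 152) (nat_lit 3869513867) (nat_lit 228) (nat_lit 7903770399) (nat_lit 27) (nat_lit 5) (nat_lit 29) (nat_lit 5) (nat_lit 30) (nat_lit 5) (nat_lit 289) (nat_lit 260) (nat_lit 231))) (XT.nd (nat_lit 78) (nat_lit 228)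 (nat_lit 0) (XT.lf (nat_lit 0) (nat_lit 773686511) (nat_lit 76) (nat_lit 14260937688) (nat_lit 152) (nat_lit 2678776592) (nat_lit 26) (nat_lit 5) (nat_lit 27) (nat_lit 5) (nat_lit 28) (nat_lit 4) (nat_lit 290) (nat_lit 260) (nat_lit 230)) (XT.nd (nat_lit 78) (nat_lit 152) (nat_lit 0) (XT.lf (nat_lit 0) (nat_lit 3035869998) (nat_lit 152) (nat_lit 4261704677) (nat_lit 76) (nat_lit 11415058453) (nat_lit 25) (nat_lit 5) (nat_lit 27) (nat_lit 5) (nat_lit 26) (nat_lit 5) (nat_lit 291) (nat_lit 260) (nat_lit 229)) (XT.lf (nat_lit 0) (nat_lit 9170195701) (nat_lit 228) (nat_lit 10268038901) (nat_lit 76) (nat_lit 348641908) (nat_lit 23) (nat_lit 5) (nat_lit 26) (nat_lit 5) (nat_lit 24) (nat_lit 4) (nat_lit 292) (nat_lit 260) (nat_lit 228))))) (XT.nd (nat_lit 156) (nat_lit 228) (nat_lit 0) (XT.nd (nat_lit 78) (nat_lit 76) (nat_lit 0) (XT.lf (nat_lit 0) (nat_lit 3434215955) (nat_lit 76) (nat_lit 12517825991)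 (nat_lit 152) (nat_lit 4987258426) (nat_lit 22) (nat_lit 5) (nat_lit 23) (nat_lit 5) (nat_lit 24) (nat_lit 4) (nat_lit 293) (nat_lit 260) (nat_lit 227)) (XT.lf (nat_lit 0) (nat_lit 1147081881) (nat_lit 152) (nat_lit 3753814289) (nat_lit 76) (nat_lit 17277762843) (nat_lit 21) (nat_lit 5) (nat_lit 23) (nat_lit 5) (nat_lit 22) (nat_lit 5) (nat_lit 294) (nat_lit 260) (nat_lit 226))) (XT.nd (nat_lit 78) (nat_lit 76) (nat_lit 0) (XT.lf (nat_lit 0) (nat_lit 7744839346) (nat_lit 228) (nat_lit 12337429833) (nat_lit 76) (nat_lit 3423504395) (nat_lit 19) (nat_lit 5) (nat_lit 22) (nat_lit 5) (nat_lit 20) (nat_lit 4) (nat_lit 295) (nat_lit 260) (nat_lit 225)) (XT.nd (nat_lit 78) (nat_lit 0) (nat_lit 0) (XT.lf (nat_lit 0) (nat_lit 2330106910) (nat_lit 76) (nat_lit 12643582943) (nat_lit 152) (nat_lit 9960264105) (nat_lit 18) (nat_lit 5) (nat_lit 19) (nat_lit 5) (nat_lit 20) (nat_lit 4) (nat_lit 296)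 (nat_lit 260) (nat_lit 224)) (XT.lf (nat_lit 0) (nat_lit 18474544550) (nat_lit 76) (nat_lit 4442957158) (nat_lit 152) (nat_lit 3552110214) (nat_lit 18) (nat_lit 5) (nat_lit 19) (nat_lit 5) (nat_lit 20) (nat_lit 4) (nat_lit 297) (nat_lit 260) (nat_lit 223)))))) (XT.nd (nat_lit 390) (nat_lit 228) (nat_lit 0) (XT.nd (nat_lit 156) (nat_lit 228) (nat_lit 0) (XT.nd (nat_lit 78) (nat_lit 0) (nat_lit 0) (XT.lf (nat_lit 0) (nat_lit 3380678912) (nat_lit 228) (nat_lit 20342286654) (nat_lit 76) (nat_lit 4396586327) (nat_lit 15) (nat_lit 5) (nat_lit 18) (nat_lit 5) (nat_lit 16) (nat_lit 4) (nat_lit 298) (nat_lit 260) (nat_lit 222)) (XT.lf (nat_lit 0) (nat_lit 10890766471) (nat_lit 228) (nat_lit 5061226552) (nat_lit 76) (nat_lit 13939271849) (nat_lit 15) (nat_lit 5) (nat_lit 18) (nat_lit 5) (nat_lit 16) (nat_lit 4) (nat_lit 299) (nat_lit 260) (nat_lit 221))) (XT.nd (nat_lit 78) (nat_lit 152) (nat_lit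 0) (XT.lf (nat_lit 0) (nat_lit 11699656220) (nat_lit 76) (nat_lit 7418920904) (nat_lit 152) (nat_lit 12680334159) (nat_lit 14) (nat_lit 5) (nat_lit 15) (nat_lit 5) (nat_lit 16) (nat_lit 4) (nat_lit 300) (nat_lit 260) (nat_lit 220)) (XT.nd (nat_lit 78) (nat_lit 152) (nat_lit 0) (XT.lf (nat_lit 0) (nat_lit 28058875639) (nat_lit 152) (nat_lit 4016548376) (nat_lit 0) (nat_lit 1781071313) (nat_lit 14) (nat_lit 5) (nat_lit 16) (nat_lit 4) (nat_lit 14) (nat_lit 4) (nat_lit 301) (nat_lit 260) (nat_lit 219)) (XT.lf (nat_lit 0) (nat_lit 1865916659) (nat_lit 152) (nat_lit 22539330953) (nat_lit 76) (nat_lit 11658068152) (nat_lit 12) (nat_lit 5) (nat_lit 14) (nat_lit 5) (nat_lit 13) (nat_lit 4) (nat_lit 302) (nat_lit 260) (nat_lit 218))))) (XT.nd (nat_lit 156) (nat_lit 152) (nat_lit 0) (XT.nd (nat_lit 78) (nat_lit 76) (nat_lit 0) (XT.lf (nat_lit 0) (nat_lit 9956357826) (nat_lit 152) (nat_lit 6034163397)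 (nat_lit 76) (nat_lit 22450593256) (nat_lit 12) (nat_lit 5) (nat_lit 14) (nat_lit 5) (nat_lit 13) (nat_lit 4) (nat_lit 303) (nat_lit 260) (nat_lit 217)) (XT.lf (nat_lit 0) (nat_lit 12082518128) (nat_lit 76) (nat_lit 6747485985) (nat_lit 152) (nat_lit 22172364025) (nat_lit 11) (nat_lit 5) (nat_lit 12) (nat_lit 5) (nat_lit 13) (nat_lit 4) (nat_lit 304) (nat_lit 260) (nat_lit 216))) (XT.nd (nat_lit 78) (nat_lit 152) (nat_lit 0) (XT.lf (nat_lit 0) (nat_lit 28520041105) (nat_lit 152) (nat_lit 12044837956) (nat_lit 0) (nat_lit 3198345430) (nat_lit 11) (nat_lit 5) (nat_lit 13) (nat_lit 4) (nat_lit 11) (nat_lit 4) (nat_lit 305) (nat_lit 260) (nat_lit 215)) (XT.nd (nat_lit 78) (nat_lit 76) (nat_lit 0) (XT.lf (nat_lit 0) (nat_lit 6177686519) (nat_lit 76) (nat_lit 32970743938) (nat_lit 76) (nat_lit 7588386753) (nat_lit 10) (nat_lit 4) (nat_lit 11) (nat_lit 5) (nat_lit 11) (nat_lit 4) (nat_lit 306)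 (nat_lit 260) (nat_lit 214)) (XT.lf (nat_lit 0) (nat_lit 824682125) (nat_lit 152) (nat_lit 23747926892) (nat_lit 76) (nat_lit 25366800059) (nat_lit 9) (nat_lit 5) (nat_lit 11) (nat_lit 5) (nat_lit 10) (nat_lit 4) (nat_lit 307) (nat_lit 260) (nat_lit 213))))))) (XT.nd (nat_lit 780) (nat_lit 228) (nat_lit 0) (XT.nd (nat_lit 390) (nat_lit 152) (nat_lit 0) (XT.nd (nat_lit 156) (nat_lit 76) (nat_lit 0) (XT.nd (nat_lit 78) (nat_lit 76) (nat_lit 0) (XT.lf (nat_lit 0) (nat_lit 9606232612) (nat_lit 152) (nat_lit 5797755862) (nat_lit 76) (nat_lit 37989955698) (nat_lit 9) (nat_lit 5) (nat_lit 11) (nat_lit 5) (nat_lit 10) (nat_lit 4) (nat_lit 308) (nat_lit 260) (nat_lit 212)) (XT.lf (nat_lit 0) (nat_lit 13963137364) (nat_lit 76) (nat_lit 5306045632) (nat_lit 152) (nat_lit 37846734432) (nat_lit 8) (nat_lit 5) (nat_lit 9) (nat_lit 5) (nat_lit 10) (nat_lit 4) (nat_lit 309) (nat_lit 260) (nat_lit 211)))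 (XT.nd (nat_lit 78) (nat_lit 76) (nat_lit 0) (XT.lf (nat_lit 0) (nat_lit 29857442232) (nat_lit 152) (nat_lit 25778192744) (nat_lit 0) (nat_lit 5492417659) (nat_lit 8) (nat_lit 5) (nat_lit 10) (nat_lit 4) (nat_lit 8) (nat_lit 4) (nat_lit 310) (nat_lit 260) (nat_lit 210)) (XT.nd (nat_lit 78) (nat_lit 76) (nat_lit 0) (XT.lf (nat_lit 0) (nat_lit 41347228593) (nat_lit 152) (nat_lit 7168338383) (nat_lit 0) (nat_lit 16942884777) (nat_lit 8) (nat_lit 5) (nat_lit 10) (nat_lit 4) (nat_lit 8) (nat_lit 4) (nat_lit 311) (nat_lit 260) (nat_lit 209)) (XT.lf (nat_lit 0) (nat_lit 13295443087) (nat_lit 76) (nat_lit 40635923499) (nat_lit 76) (nat_lit 16195172978) (nat_lit 7) (nat_lit 4) (nat_lit 8) (nat_lit 5) (nat_lit 8) (nat_lit 4) (nat_lit 312) (nat_lit 260) (nat_lit 208))))) (XT.nd (nat_lit 156) (nat_lit 76) (nat_lit 0) (XT.nd (nat_lit 78) (nat_lit 76) (nat_lit 0) (XT.lf (nat_lit 0) (nat_lit 35594532522)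 (nat_lit 76) (nat_lit 32021659288) (nat_lit 76) (nat_lit 7547198853) (nat_lit 7) (nat_lit 4) (nat_lit 8) (nat_lit 5) (nat_lit 8) (nat_lit 4) (nat_lit 313) (nat_lit 260) (nat_lit 207)) (XT.lf (nat_lit 0) (nat_lit 1706134668) (nat_lit 152) (nat_lit 21008097246) (nat_lit 76) (nat_lit 57889026148) (nat_lit 6) (nat_lit 5) (nat_lit 8) (nat_lit 5) (nat_lit 7) (nat_lit 4) (nat_lit 314) (nat_lit 260) (nat_lit 206))) (XT.nd (nat_lit 78) (nat_lit 76) (nat_lit 0) (XT.lf (nat_lit 0) (nat_lit 11411904893) (nat_lit 152) (nat_lit 1140169102) (nat_lit 76) (nat_lit 73921236765) (nat_lit 6) (nat_lit 5) (nat_lit 8) (nat_lit 5) (nat_lit 7) (nat_lit 4) (nat_lit 315) (nat_lit 260) (nat_lit 205)) (XT.nd (nat_lit 78) (nat_lit 0) (nat_lit 0) (XT.lf (nat_lit 0) (nat_lit 20940729196) (nat_lit 76) (nat_lit 1255399265) (nat_lit 152) (nat_lit 70601750266) (nat_lit 5) (nat_lit 5) (nat_lit 6) (nat_lit 5) (nat_lit 7) (nat_lit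 4) (nat_lit 316) (nat_lit 260) (nat_lit 204)) (XT.lf (nat_lit 0) (nat_lit 34010032108) (nat_lit 152) (nat_lit 55015355363) (nat_lit 0) (nat_lit 10594687402) (nat_lit 5) (nat_lit 5) (nat_lit 7) (nat_lit 4) (nat_lit 5) (nat_lit 4) (nat_lit 317) (nat_lit 260) (nat_lit 203)))))) (XT.nd (nat_lit 390) (nat_lit 152) (nat_lit 0) (XT.nd (nat_lit 156) (nat_lit 76) (nat_lit 0) (XT.nd (nat_lit 78) (nat_lit 0) (nat_lit 0) (XT.lf (nat_lit 0) (nat_lit 46767876857) (nat_lit 152) (nat_lit 36889555292) (nat_lit 0) (nat_lit 23330682245) (nat_lit 5) (nat_lit 5) (nat_lit 7) (nat_lit 4) (nat_lit 5) (nat_lit 4) (nat_lit 318) (nat_lit 260) (nat_lit 202)) (XT.lf (nat_lit 0) (nat_lit 60525664448) (nat_lit 152) (nat_lit 17352736869) (nat_lit 0) (nat_lit 37068238442) (nat_lit 5) (nat_lit 5) (nat_lit 7) (nat_lit 4) (nat_lit 5) (nat_lit 4) (nat_lit 319) (nat_lit 260) (nat_lit 201))) (XT.nd (nat_lit 78) (nat_lit 0)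 (nat_lit 0) (XT.lf (nat_lit 0) (nat_lit 3833571885) (nat_lit 76) (nat_lit 71591203426) (nat_lit 76) (nat_lit 48115044649) (nat_lit 4) (nat_lit 4) (nat_lit 5) (nat_lit 5) (nat_lit 5) (nat_lit 4) (nat_lit 320) (nat_lit 260) (nat_lit 200)) (XT.nd (nat_lit 78) (nat_lit 0) (nat_lit 0) (XT.lf (nat_lit 0) (nat_lit 27299863777) (nat_lit 76) (nat_lit 64499950997) (nat_lit 76) (nat_lit 41006447060) (nat_lit 4) (nat_lit 4) (nat_lit 5) (nat_lit 5) (nat_lit 5) (nat_lit 4) (nat_lit 321) (nat_lit 260) (nat_lit 199)) (XT.lf (nat_lit 0) (nat_lit 52611438463) (nat_lit 76) (nat_lit 56856498787) (nat_lit 76) (nat_lit 33346934518) (nat_lit 4) (nat_lit 4) (nat_lit 5) (nat_lit 5) (nat_lit 5) (nat_lit 4) (nat_lit 322) (nat_lit 260) (nat_lit 198))))) (XT.nd (nat_lit 234) (nat_lit 152) (nat_lit 0) (XT.nd (nat_lit 78) (nat_lit 0) (nat_lit 0) (XT.lf (nat_lit 0) (nat_lit 79918290461) (nat_lit 76) (nat_lit 48615552267)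 (nat_lit 76) (nat_lit 25091117319) (nat_lit 4) (nat_lit 4) (nat_lit 5) (nat_lit 5) (nat_lit 5) (nat_lit 4) (nat_lit 323) (nat_lit 260) (nat_lit 197)) (XT.nd (nat_lit 78) (nat_lit 0) (nat_lit 0) (XT.lf (nat_lit 0) (nat_lit 109382238152) (nat_lit 76) (nat_lit 39728276196) (nat_lit 76) (nat_lit 16190072102) (nat_lit 4) (nat_lit 4) (nat_lit 5) (nat_lit 5) (nat_lit 5) (nat_lit 4) (nat_lit 324) (nat_lit 260) (nat_lit 196)) (XT.lf (nat_lit 0) (nat_lit 141177882709) (nat_lit 76) (nat_lit 30142005235) (nat_lit 76) (nat_lit 6591051932) (nat_lit 4) (nat_lit 4) (nat_lit 5) (nat_lit 5) (nat_lit 5) (nat_lit 4) (nat_lit 325) (nat_lit 260) (nat_lit 195)))) (XT.nd (nat_lit 78) (nat_lit 76) (nat_lit 0) (XT.lf (nat_lit 0) (nat_lit 3642392333) (nat_lit 152) (nat_lit 16095853844) (nat_lit 76) (nat_lit 171789564756) (nat_lit 3) (nat_lit 5) (nat_lit 5) (nat_lit 5) (nat_lit 4) (nat_lit 4) (nat_lit 326) (nat_lit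 260) (nat_lit 194)) (XT.nd (nat_lit 78) (nat_lit 0) (nat_lit 0) (XT.lf (nat_lit 0) (nat_lit 6259342477) (nat_lit 76) (nat_lit 8293355570) (nat_lit 152) (nat_lit 191671480258) (nat_lit 2) (nat_lit 5) (nat_lit 3) (nat_lit 5) (nat_lit 4) (nat_lit 4) (nat_lit 327) (nat_lit 260) (nat_lit 193)) (XT.lf (nat_lit 0) (nat_lit 26672973614) (nat_lit 152) (nat_lit 191194225311) (nat_lit 0) (nat_lit 4212202896) (nat_lit 2) (nat_lit 5) (nat_lit 4) (nat_lit 4) (nat_lit 2) (nat_lit 4) (nat_lit 328) (nat_lit 260) (nat_lit 192))))))))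
noncomputable def xc49 : XT := (XT.nd (nat_lit 35490) (nat_lit 0) (nat_lit 3116) (XT.nd (nat_lit 780) (nat_lit 76) (nat_lit 0) (XT.nd (nat_lit 390) (nat_lit 0) (nat_lit 0) (XT.nd (nat_lit 156) (nat_lit 0) (nat_lit 0) (XT.nd (nat_lit 78) (nat_lit 0) (nat_lit 0) (XT.lf (nat_lit 0) (nat_lit 39892221965) (nat_lit 152) (nat_lit 181881831004) (nat_lit 0) (nat_lit 17422526438) (nat_lit 2) (nat_lit 5) (nat_lit 4) (nat_lit 4) (nat_lit 2) (nat_lit 4) (nat_lit 329) (nat_lit 260) (nat_lit 191)) (XT.lf (nat_lit 0) (nat_lit 54159296864) (nat_lit 152) (nat_lit 171842985827) (nat_lit 0) (nat_lit 31681337625) (nat_lit 2) (nat_lit 5) (nat_lit 4) (nat_lit 4) (nat_lit 2) (nat_lit 4) (nat_lit 330) (nat_lit 260) (nat_lit 190))) (XT.nd (nat_lit 78) (nat_lit 0) (nat_lit 0) (XT.lf (nat_lit 0) (nat_lit 69558743940) (nat_lit 152) (nat_lit 161018200327) (nat_lit 0) (nat_lit 47073133115) (nat_lit 2) (nat_lit 5) (nat_lit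 4) (nat_lit 4) (nat_lit 2) (nat_lit 4) (nat_lit 331) (nat_lit 260) (nat_lit 189)) (XT.nd (nat_lit 78) (nat_lit 0) (nat_lit 0) (XT.lf (nat_lit 0) (nat_lit 86181819177) (nat_lit 152) (nat_lit 149343327627) (nat_lit 0) (nat_lit 63689123550) (nat_lit 2) (nat_lit 5) (nat_lit 4) (nat_lit 4) (nat_lit 2) (nat_lit 4) (nat_lit 332) (nat_lit 260) (nat_lit 188)) (XT.lf (nat_lit 0) (nat_lit 104127029685) (nat_lit 152) (nat_lit 136749183296) (nat_lit 0) (nat_lit 81627774057) (nat_lit 2) (nat_lit 5) (nat_lit 4) (nat_lit 4) (nat_lit 2) (nat_lit 4) (nat_lit 333) (nat_lit 260) (nat_lit 187))))) (XT.nd (nat_lit 156) (nat_lit 0) (nat_lit 0) (XT.nd (nat_lit 78) (nat_lit 0) (nat_lit 0) (XT.lf (nat_lit 0) (nat_lit 123500717454) (nat_lit 152) (nat_lit 123161135367) (nat_lit 0) (nat_lit 100995387751) (nat_lit 2) (nat_lit 5) (nat_lit 4) (nat_lit 4) (nat_lit 2) (nat_lit 4) (nat_lit 334) (nat_lit 260) (nat_lit 186))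 (XT.lf (nat_lit 0) (nat_lit 144417689522) (nat_lit 152) (nat_lit 108498662076) (nat_lit 0) (nat_lit 121906735675) (nat_lit 2) (nat_lit 5) (nat_lit 4) (nat_lit 4) (nat_lit 2) (nat_lit 4) (nat_lit 335) (nat_lit 260) (nat_lit 185))) (XT.nd (nat_lit 78) (nat_lit 0) (nat_lit 0) (XT.lf (nat_lit 0) (nat_lit 167001898316) (nat_lit 152) (nat_lit 92674874691) (nat_lit 0) (nat_lit 144485736929) (nat_lit 2) (nat_lit 5) (nat_lit 4) (nat_lit 4) (nat_lit 2) (nat_lit 4) (nat_lit 336) (nat_lit 260) (nat_lit 184)) (XT.nd (nat_lit 78) (nat_lit 0) (nat_lit 0) (XT.lf (nat_lit 0) (nat_lit 191387176185) (nat_lit 152) (nat_lit 75596002621) (nat_lit 0) (nat_lit 168866193001) (nat_lit 2) (nat_lit 5) (nat_lit 4) (nat_lit 4) (nat_lit 2) (nat_lit 4) (nat_lit 337) (nat_lit 260) (nat_lit 183)) (XT.lf (nat_lit 0) (nat_lit 217718028479) (nat_lit 152) (nat_lit 57160837734) (nat_lit 0) (nat_lit 195192580668) (nat_lit 2)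 (nat_lit 5) (nat_lit 4) (nat_lit 4) (nat_lit 2) (nat_lit 4) (nat_lit 338) (nat_lit 260) (nat_lit 182)))))) (XT.nd (nat_lit 390) (nat_lit 0) (nat_lit 0) (XT.nd (nat_lit 156) (nat_lit 76) (nat_lit 0) (XT.nd (nat_lit 78) (nat_lit 0) (nat_lit 0) (XT.lf (nat_lit 0) (nat_lit 246150489878) (nat_lit 152) (nat_lit 37260134610) (nat_lit 0) (nat_lit 223620908154) (nat_lit 2) (nat_lit 5) (nat_lit 4) (nat_lit 4) (nat_lit 2) (nat_lit 4) (nat_lit 339) (nat_lit 260) (nat_lit 181)) (XT.lf (nat_lit 0) (nat_lit 276853049042) (nat_lit 152) (nat_lit 15775963155) (nat_lit 0) (nat_lit 254319639620) (nat_lit 2) (nat_lit 5) (nat_lit 4) (nat_lit 4) (nat_lit 2) (nat_lit 4) (nat_lit 340) (nat_lit 260) (nat_lit 180))) (XT.nd (nat_lit 78) (nat_lit 0) (nat_lit 0) (XT.lf (nat_lit 0) (nat_lit 7664295560) (nat_lit 76) (nat_lit 302463012636) (nat_lit 76) (nat_lit 279926059050) (nat_lit 1) (nat_lit 4) (nat_lit 2) (nat_lit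 5) (nat_lit 2) (nat_lit 4) (nat_lit 341) (nat_lit 260) (nat_lit 179)) (XT.nd (nat_lit 78) (nat_lit 0) (nat_lit 0) (XT.lf (nat_lit 0) (nat_lit 33535523325) (nat_lit 76) (nat_lit 312798815810) (nat_lit 76) (nat_lit 290258580589) (nat_lit 1) (nat_lit 4) (nat_lit 2) (nat_lit 5) (nat_lit 2) (nat_lit 4) (nat_lit 342) (nat_lit 260) (nat_lit 178)) (XT.lf (nat_lit 0) (nat_lit 61469406532) (nat_lit 76) (nat_lit 323964844492) (nat_lit 76) (nat_lit 301421570722) (nat_lit 1) (nat_lit 4) (nat_lit 2) (nat_lit 5) (nat_lit 2) (nat_lit 4) (nat_lit 343) (nat_lit 260) (nat_lit 177))))) (XT.nd (nat_lit 234) (nat_lit 0) (nat_lit 0) (XT.nd (nat_lit 78) (nat_lit 0) (nat_lit 0) (XT.lf (nat_lit 0) (nat_lit 91631479302) (nat_lit 76) (nat_lit 336027267743) (nat_lit 76) (nat_lit 313481180501) (nat_lit 1) (nat_lit 4) (nat_lit 2) (nat_lit 5) (nat_lit 2) (nat_lit 4) (nat_lit 344) (nat_lit 260) (nat_lit 176)) (XT.nd (nat_lit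 78) (nat_lit 0) (nat_lit 0) (XT.lf (nat_lit 0) (nat_lit 124200479845) (nat_lit 76) (nat_lit 349057566588) (nat_lit 76) (nat_lit 326508874279) (nat_lit 1) (nat_lit 4) (nat_lit 2) (nat_lit 5) (nat_lit 2) (nat_lit 4) (nat_lit 345) (nat_lit 260) (nat_lit 175)) (XT.lf (nat_lit 0) (nat_lit 159369409645) (nat_lit 76) (nat_lit 363132957614) (nat_lit 76) (nat_lit 340581853206) (nat_lit 1) (nat_lit 4) (nat_lit 2) (nat_lit 5) (nat_lit 2) (nat_lit 4) (nat_lit 346) (nat_lit 260) (nat_lit 174)))) (XT.nd (nat_lit 33930) (nat_lit 0) (nat_lit 9956) (XT.lf (nat_lit 0) (nat_lit 197346677175) (nat_lit 76) (nat_lit 378336850545) (nat_lit 76) (nat_lit 355783512712) (nat_lit 1) (nat_lit 4) (nat_lit 2) (nat_lit 5) (nat_lit 2) (nat_lit 4) (nat_lit 347) (nat_lit 260) (nat_lit 173)) (XT.nd (nat_lit 78) (nat_lit 228) (nat_lit 0) (XT.lf (nat_lit 0) (nat_lit 1241323307) (nat_lit 228) (nat_lit 996966152) (nat_lit 228)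 (nat_lit 996966152) (nat_lit 135) (nat_lit 3) (nat_lit 138) (nat_lit 3) (nat_lit 138) (nat_lit 5) (nat_lit 261) (nat_lit 261) (nat_lit 258)) (XT.lf (nat_lit 0) (nat_lit 159569536) (nat_lit 228) (nat_lit 3644772075) (nat_lit 304) (nat_lit 2706182468) (nat_lit 132) (nat_lit 5) (nat_lit 135) (nat_lit 3) (nat_lit 136) (nat_lit 5) (nat_lit 262) (nat_lit 261) (nat_lit 257))))))) (XT.nd (nat_lit 780) (nat_lit 3344) (nat_lit 0) (XT.nd (nat_lit 390) (nat_lit 2508) (nat_lit 0) (XT.nd (nat_lit 156) (nat_lit 684) (nat_lit 0) (XT.nd (nat_lit 78) (nat_lit 304) (nat_lit 0) (XT.lf (nat_lit 76) (nat_lit 1374053634) (nat_lit 0) (nat_lit 2767087388) (nat_lit 304) (nat_lit 2428559430) (nat_lit 133) (nat_lit 5) (nat_lit 132) (nat_lit 5) (nat_lit 136) (nat_lit 5) (nat_lit 263) (nat_lit 261) (nat_lit 256)) (XT.lf (nat_lit 76) (nat_lit 26088698) (nat_lit 0) (nat_lit 1391818569) (nat_lit 380) (nat_lit 5232062274)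 (nat_lit 129) (nat_lit 5) (nat_lit 128) (nat_lit 5) (nat_lit 133) (nat_lit 5) (nat_lit 264) (nat_lit 261) (nat_lit 255))) (XT.nd (nat_lit 78) (nat_lit 760) (nat_lit 0) (XT.lf (nat_lit 0) (nat_lit 5212818230) (nat_lit 304) (nat_lit 1175956632) (nat_lit 76) (nat_lit 360693416) (nat_lit 129) (nat_lit 5) (nat_lit 133) (nat_lit 5) (nat_lit 130) (nat_lit 5) (nat_lit 265) (nat_lit 261) (nat_lit 254)) (XT.nd (nat_lit 78) (nat_lit 380) (nat_lit 0) (XT.lf (nat_lit 0) (nat_lit 2124643504) (nat_lit 380) (nat_lit 2305412406) (nat_lit 76) (nat_lit 2438475400) (nat_lit 124) (nat_lit 5) (nat_lit 129) (nat_lit 5) (nat_lit 125) (nat_lit 5) (nat_lit 266) (nat_lit 261) (nat_lit 253)) (XT.lf (nat_lit 0) (nat_lit 3664258933) (nat_lit 380) (nat_lit 2113715153) (nat_lit 456) (nat_lit 1231126690) (nat_lit 119) (nat_lit 5) (nat_lit 124) (nat_lit 5) (nat_lit 125) (nat_lit 5) (nat_lit 267) (nat_lit 261) (nat_lit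 252))))) (XT.nd (nat_lit 156) (nat_lit 1444) (nat_lit 0) (XT.nd (nat_lit 78) (nat_lit 532) (nat_lit 0) (XT.lf (nat_lit 0) (nat_lit 2264314828) (nat_lit 532) (nat_lit 4329677698) (nat_lit 76) (nat_lit 576523089) (nat_lit 112) (nat_lit 5) (nat_lit 119) (nat_lit 5) (nat_lit 113) (nat_lit 5) (nat_lit 268) (nat_lit 261) (nat_lit 251)) (XT.lf (nat_lit 0) (nat_lit 2066655918) (nat_lit 532) (nat_lit 3766932687) (nat_lit 608) (nat_lit 1519105687) (nat_lit 105) (nat_lit 5) (nat_lit 112) (nat_lit 5) (nat_lit 113) (nat_lit 5) (nat_lit 269) (nat_lit 261) (nat_lit 250))) (XT.nd (nat_lit 78) (nat_lit 760) (nat_lit 0) (XT.lf (nat_lit 0) (nat_lit 1351905569) (nat_lit 608) (nat_lit 538772734) (nat_lit 684) (nat_lit 5666730575) (nat_lit 96) (nat_lit 5) (nat_lit 104) (nat_lit 5) (nat_lit 105) (nat_lit 5) (nat_lit 270) (nat_lit 261) (nat_lit 249)) (XT.nd (nat_lit 78) (nat_lit 76) (nat_lit 0) (XT.lf (nat_lit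 0) (nat_lit 639038498) (nat_lit 684) (nat_lit 4771151792) (nat_lit 760) (nat_lit 2373149800) (nat_lit 87) (nat_lit 5) (nat_lit 96) (nat_lit 5) (nat_lit 97) (nat_lit 5) (nat_lit 271) (nat_lit 261) (nat_lit 248)) (XT.lf (nat_lit 0) (nat_lit 1015931044) (nat_lit 760) (nat_lit 40715040) (nat_lit 76) (nat_lit 6976803104) (nat_lit 86) (nat_lit 5) (nat_lit 96) (nat_lit 5) (nat_lit 87) (nat_lit 5) (nat_lit 272) (nat_lit 261) (nat_lit 247)))))) (XT.nd (nat_lit 390) (nat_lit 1368) (nat_lit 0) (XT.nd (nat_lit 156) (nat_lit 1064) (nat_lit 0) (XT.nd (nat_lit 78) (nat_lit 380) (nat_lit 0) (XT.lf (nat_lit 0) (nat_lit 4531168391) (nat_lit 608) (nat_lit 745987046) (nat_lit 76) (nat_lit 3028041878) (nat_lit 79) (nat_lit 5) (nat_lit 87) (nat_lit 5) (nat_lit 80) (nat_lit 5) (nat_lit 273) (nat_lit 261) (nat_lit 246)) (XT.lf (nat_lit 0) (nat_lit 7155301221) (nat_lit 380) (nat_lit 1085746940) (nat_lit 456) (nat_lit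 362414282) (nat_lit 74) (nat_lit 5) (nat_lit 79) (nat_lit 5) (nat_lit 80) (nat_lit 5) (nat_lit 274) (nat_lit 261) (nat_lit 245))) (XT.nd (nat_lit 78) (nat_lit 684) (nat_lit 0) (XT.lf (nat_lit 0) (nat_lit 3182473901) (nat_lit 380) (nat_lit 2253688405) (nat_lit 76) (nat_lit 3488894770) (nat_lit 69) (nat_lit 5) (nat_lit 74) (nat_lit 5) (nat_lit 70) (nat_lit 5) (nat_lit 275) (nat_lit 261) (nat_lit 244)) (XT.nd (nat_lit 78) (nat_lit 380) (nat_lit 0) (XT.lf (nat_lit 0) (nat_lit 6170260606) (nat_lit 304) (nat_lit 772346841) (nat_lit 380) (nat_lit 2332623255) (nat_lit 65) (nat_lit 5) (nat_lit 69) (nat_lit 5) (nat_lit 70) (nat_lit 5) (nat_lit 276) (nat_lit 261) (nat_lit 243)) (XT.lf (nat_lit 0) (nat_lit 1315061322) (nat_lit 380) (nat_lit 4088720578) (nat_lit 76) (nat_lit 4248498126) (nat_lit 60) (nat_lit 5) (nat_lit 65) (nat_lit 5) (nat_lit 61) (nat_lit 5) (nat_lit 277) (nat_lit 261) (nat_lit 242)))))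 (XT.nd (nat_lit 234) (nat_lit 532) (nat_lit 0) (XT.nd (nat_lit 78) (nat_lit 532) (nat_lit 0) (XT.lf (nat_lit 0) (nat_lit 4862676876) (nat_lit 304) (nat_lit 277037362) (nat_lit 380) (nat_lit 4919822099) (nat_lit 56) (nat_lit 5) (nat_lit 60) (nat_lit 5) (nat_lit 61) (nat_lit 5) (nat_lit 278) (nat_lit 261) (nat_lit 241)) (XT.nd (nat_lit 78) (nat_lit 304) (nat_lit 0) (XT.lf (nat_lit 0) (nat_lit 4007476264) (nat_lit 228) (nat_lit 5311079540) (nat_lit 304) (nat_lit 1178683281) (nat_lit 53) (nat_lit 5) (nat_lit 56) (nat_lit 5) (nat_lit 57) (nat_lit 5) (nat_lit 279) (nat_lit 261) (nat_lit 240)) (XT.lf (nat_lit 0) (nat_lit 2755066792) (nat_lit 304) (nat_lit 7973349016) (nat_lit 76) (nat_lit 240306604) (nat_lit 49) (nat_lit 5) (nat_lit 53) (nat_lit 5) (nat_lit 50) (nat_lit 5) (nat_lit 280) (nat_lit 261) (nat_lit 239)))) (XT.nd (nat_lit 78) (nat_lit 304) (nat_lit 0) (XT.lf (nat_lit 0) (nat_lit 1731082358)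 (nat_lit 228) (nat_lit 5308741497) (nat_lit 304) (nat_lit 4433480275) (nat_lit 46) (nat_lit 5) (nat_lit 49) (nat_lit 5) (nat_lit 50) (nat_lit 5) (nat_lit 281) (nat_lit 261) (nat_lit 238)) (XT.nd (nat_lit 78) (nat_lit 76) (nat_lit 0) (XT.lf (nat_lit 0) (nat_lit 274012457) (nat_lit 228) (nat_lit 11400257921) (nat_lit 304) (nat_lit 343845796) (nat_lit 43) (nat_lit 5) (nat_lit 46) (nat_lit 5) (nat_lit 47) (nat_lit 5) (nat_lit 282) (nat_lit 261) (nat_lit 237)) (XT.lf (nat_lit 0) (nat_lit 4062857440) (nat_lit 304) (nat_lit 1519520717) (nat_lit 76) (nat_lit 7015127112) (nat_lit 42) (nat_lit 5) (nat_lit 46) (nat_lit 5) (nat_lit 43) (nat_lit 5) (nat_lit 283) (nat_lit 261) (nat_lit 236))))))))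
noncomputable def xc50 : XT := (XT.nd (nat_lit 1560) (nat_lit 608) (nat_lit 0) (XT.nd (nat_lit 780) (nat_lit 836) (nat_lit 0) (XT.nd (nat_lit 390) (nat_lit 608) (nat_lit 0) (XT.nd (nat_lit 156) (nat_lit 380) (nat_lit 0) (XT.nd (nat_lit 78) (nat_lit 304) (nat_lit 0) (XT.lf (nat_lit 0) (nat_lit 8841999842) (nat_lit 228) (nat_lit 3598973954) (nat_lit 76) (nat_lit 780563218) (nat_lit 40) (nat_lit 5) (nat_lit 43) (nat_lit 5) (nat_lit 41) (nat_lit 5) (nat_lit 284) (nat_lit 261) (nat_lit 235)) (XT.lf (nat_lit 0) (nat_lit 223601568) (nat_lit 304) (nat_lit 6109808565) (nat_lit 76) (nat_lit 7556193755) (nat_lit 36) (nat_lit 5) (nat_lit 40) (nat_lit 5) (nat_lit 37) (nat_lit 5) (nat_lit 285) (nat_lit 261) (nat_lit 234))) (XT.nd (nat_lit 78) (nat_lit 228) (nat_lit 0) (XT.lf (nat_lit 0) (nat_lit 5079255986) (nat_lit 228) (nat_lit 9105197009) (nat_lit 76) (nat_lit 421327719) (nat_lit 34) (nat_lit 5)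 (nat_lit 37) (nat_lit 5) (nat_lit 35) (nat_lit 5) (nat_lit 286) (nat_lit 261) (nat_lit 233)) (XT.nd (nat_lit 78) (nat_lit 76) (nat_lit 0) (XT.lf (nat_lit 0) (nat_lit 2681286708) (nat_lit 152) (nat_lit 7783323208) (nat_lit 228) (nat_lit 4907708573) (nat_lit 32) (nat_lit 5) (nat_lit 34) (nat_lit 5) (nat_lit 35) (nat_lit 5) (nat_lit 287) (nat_lit 261) (nat_lit 232)) (XT.lf (nat_lit 0) (nat_lit 127616179) (nat_lit 228) (nat_lit 636304822) (nat_lit 76) (nat_lit 15433830083) (nat_lit 31) (nat_lit 5) (nat_lit 34) (nat_lit 5) (nat_lit 32) (nat_lit 5) (nat_lit 288) (nat_lit 261) (nat_lit 231))))) (XT.nd (nat_lit 156) (nat_lit 304) (nat_lit 0) (XT.nd (nat_lit 78) (nat_lit 152) (nat_lit 0) (XT.lf (nat_lit 0) (nat_lit 5598595114) (nat_lit 228) (nat_lit 4652271002) (nat_lit 76) (nat_lit 6824196401) (nat_lit 29) (nat_lit 5) (nat_lit 32) (nat_lit 5) (nat_lit 30) (nat_lit 5) (nat_lit 289) (nat_lit 261)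 (nat_lit 230)) (XT.lf (nat_lit 0) (nat_lit 8630490314) (nat_lit 152) (nat_lit 2936619825) (nat_lit 228) (nat_lit 6452553489) (nat_lit 27) (nat_lit 5) (nat_lit 29) (nat_lit 5) (nat_lit 30) (nat_lit 5) (nat_lit 290) (nat_lit 261) (nat_lit 229))) (XT.nd (nat_lit 78) (nat_lit 228) (nat_lit 0) (XT.lf (nat_lit 0) (nat_lit 3998457177) (nat_lit 76) (nat_lit 14141917552) (nat_lit 152) (nat_lit 893185095) (nat_lit 26) (nat_lit 5) (nat_lit 27) (nat_lit 5) (nat_lit 28) (nat_lit 4) (nat_lit 291) (nat_lit 261) (nat_lit 228)) (XT.nd (nat_lit 78) (nat_lit 152) (nat_lit 0) (XT.lf (nat_lit 0) (nat_lit 5071225282) (nat_lit 152) (nat_lit 1613229170) (nat_lit 76) (nat_lit 13434009485) (nat_lit 25) (nat_lit 5) (nat_lit 27) (nat_lit 5) (nat_lit 26) (nat_lit 5) (nat_lit 292) (nat_lit 261) (nat_lit 227)) (XT.lf (nat_lit 0) (nat_lit 11626200069) (nat_lit 228) (nat_lit 8161363317) (nat_lit 76) (nat_lit 1494703479)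 (nat_lit 23) (nat_lit 5) (nat_lit 26) (nat_lit 5) (nat_lit 24) (nat_lit 4) (nat_lit 293) (nat_lit 261) (nat_lit 226)))))) (XT.nd (nat_lit 390) (nat_lit 456) (nat_lit 0) (XT.nd (nat_lit 156) (nat_lit 228) (nat_lit 0) (XT.nd (nat_lit 78) (nat_lit 76) (nat_lit 0) (XT.lf (nat_lit 0) (nat_lit 6509819457) (nat_lit 76) (nat_lit 12356919579) (nat_lit 152) (nat_lit 3664445040) (nat_lit 22) (nat_lit 5) (nat_lit 23) (nat_lit 5) (nat_lit 24) (nat_lit 4) (nat_lit 294) (nat_lit 261) (nat_lit 225)) (XT.lf (nat_lit 0) (nat_lit 2782076114) (nat_lit 152) (nat_lit 1408522653) (nat_lit 76) (nat_lit 19684015534) (nat_lit 21) (nat_lit 5) (nat_lit 23) (nat_lit 5) (nat_lit 22) (nat_lit 5) (nat_lit 295) (nat_lit 261) (nat_lit 224))) (XT.nd (nat_lit 78) (nat_lit 76) (nat_lit 0) (XT.lf (nat_lit 0) (nat_lit 9849435005) (nat_lit 228) (nat_lit 10735875571) (nat_lit 76) (nat_lit 4725585524) (nat_lit 19) (nat_lit 5)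 (nat_lit 22) (nat_lit 5) (nat_lit 20) (nat_lit 4) (nat_lit 296) (nat_lit 261) (nat_lit 223)) (XT.nd (nat_lit 78) (nat_lit 0) (nat_lit 0) (XT.lf (nat_lit 0) (nat_lit 4992568941) (nat_lit 76) (nat_lit 12592682115) (nat_lit 152) (nat_lit 9271727646) (nat_lit 18) (nat_lit 5) (nat_lit 19) (nat_lit 5) (nat_lit 20) (nat_lit 4) (nat_lit 297) (nat_lit 261) (nat_lit 222)) (XT.lf (nat_lit 0) (nat_lit 22245150224) (nat_lit 76) (nat_lit 3814701635) (nat_lit 152) (nat_lit 2460947931) (nat_lit 18) (nat_lit 5) (nat_lit 19) (nat_lit 5) (nat_lit 20) (nat_lit 4) (nat_lit 298) (nat_lit 261) (nat_lit 221))))) (XT.nd (nat_lit 156) (nat_lit 228) (nat_lit 0) (XT.nd (nat_lit 78) (nat_lit 0) (nat_lit 0) (XT.lf (nat_lit 0) (nat_lit 4933857871) (nat_lit 228) (nat_lit 19684621469) (nat_lit 76) (nat_lit 5685677205) (nat_lit 15) (nat_lit 5) (nat_lit 18) (nat_lit 5) (nat_lit 16) (nat_lit 4) (nat_lit 299) (nat_lit 261)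 (nat_lit 220)) (XT.lf (nat_lit 0) (nat_lit 12949735794) (nat_lit 228) (nat_lit 3350339382) (nat_lit 76) (nat_lit 15922343201) (nat_lit 15) (nat_lit 5) (nat_lit 18) (nat_lit 5) (nat_lit 16) (nat_lit 4) (nat_lit 300) (nat_lit 261) (nat_lit 219))) (XT.nd (nat_lit 78) (nat_lit 152) (nat_lit 0) (XT.lf (nat_lit 0) (nat_lit 14659464562) (nat_lit 76) (nat_lit 7119926117) (nat_lit 152) (nat_lit 12506161319) (nat_lit 14) (nat_lit 5) (nat_lit 15) (nat_lit 5) (nat_lit 16) (nat_lit 4) (nat_lit 301) (nat_lit 261) (nat_lit 218)) (XT.nd (nat_lit 78) (nat_lit 152) (nat_lit 0) (XT.lf (nat_lit 0) (nat_lit 31364013414) (nat_lit 152) (nat_lit 2423822734) (nat_lit 0) (nat_lit 2723503884) (nat_lit 14) (nat_lit 5) (nat_lit 16) (nat_lit 4) (nat_lit 14) (nat_lit 4) (nat_lit 302) (nat_lit 261) (nat_lit 217)) (XT.lf (nat_lit 0) (nat_lit 3042803201) (nat_lit 152) (nat_lit 22477056332) (nat_lit 76) (nat_lit 13376564522)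 (nat_lit 12) (nat_lit 5) (nat_lit 14) (nat_lit 5) (nat_lit 13) (nat_lit 4) (nat_lit 303) (nat_lit 261) (nat_lit 216))))))) (XT.nd (nat_lit 780) (nat_lit 228) (nat_lit 0) (XT.nd (nat_lit 390) (nat_lit 152) (nat_lit 0) (XT.nd (nat_lit 156) (nat_lit 152) (nat_lit 0) (XT.nd (nat_lit 78) (nat_lit 76) (nat_lit 0) (XT.lf (nat_lit 0) (nat_lit 11704360163) (nat_lit 152) (nat_lit 4789654712) (nat_lit 76) (nat_lit 24974280456) (nat_lit 12) (nat_lit 5) (nat_lit 14) (nat_lit 5) (nat_lit 13) (nat_lit 4) (nat_lit 304) (nat_lit 261) (nat_lit 215)) (XT.lf (nat_lit 0) (nat_lit 14701297513) (nat_lit 76) (nat_lit 6541914753) (nat_lit 152) (nat_lit 22993510838) (nat_lit 11) (nat_lit 5) (nat_lit 12) (nat_lit 5) (nat_lit 13) (nat_lit 4) (nat_lit 305) (nat_lit 261) (nat_lit 214))) (XT.nd (nat_lit 78) (nat_lit 152) (nat_lit 0) (XT.lf (nat_lit 0) (nat_lit 31652056560) (nat_lit 152) (nat_lit 11446966564) (nat_lit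 0) (nat_lit 4122281225) (nat_lit 11) (nat_lit 5) (nat_lit 13) (nat_lit 4) (nat_lit 11) (nat_lit 4) (nat_lit 306) (nat_lit 261) (nat_lit 213)) (XT.nd (nat_lit 78) (nat_lit 76) (nat_lit 0) (XT.lf (nat_lit 0) (nat_lit 8165500789) (nat_lit 76) (nat_lit 34925542049) (nat_lit 76) (nat_lit 7343759246) (nat_lit 10) (nat_lit 4) (nat_lit 11) (nat_lit 5) (nat_lit 11) (nat_lit 4) (nat_lit 307) (nat_lit 261) (nat_lit 212)) (XT.lf (nat_lit 0) (nat_lit 1654025934) (nat_lit 152) (nat_lit 24239184700) (nat_lit 76) (nat_lit 28002809157) (nat_lit 9) (nat_lit 5) (nat_lit 11) (nat_lit 5) (nat_lit 10) (nat_lit 4) (nat_lit 308) (nat_lit 261) (nat_lit 211))))) (XT.nd (nat_lit 156) (nat_lit 76) (nat_lit 0) (XT.nd (nat_lit 78) (nat_lit 76) (nat_lit 0) (XT.lf (nat_lit 0) (nat_lit 11081554590) (nat_lit 152) (nat_lit 4957338975) (nat_lit 76) (nat_lit 41590879092) (nat_lit 9) (nat_lit 5) (nat_lit 11) (nat_lit 5) (nat_lit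 10) (nat_lit 4) (nat_lit 309) (nat_lit 261) (nat_lit 210)) (XT.lf (nat_lit 0) (nat_lit 16327745143) (nat_lit 76) (nat_lit 5156916434) (nat_lit 152) (nat_lit 40166511791) (nat_lit 8) (nat_lit 5) (nat_lit 9) (nat_lit 5) (nat_lit 10) (nat_lit 4) (nat_lit 310) (nat_lit 261) (nat_lit 209))) (XT.nd (nat_lit 78) (nat_lit 76) (nat_lit 0) (XT.lf (nat_lit 0) (nat_lit 32878352096) (nat_lit 152) (nat_lit 26662097663) (nat_lit 0) (nat_lit 6445934827) (nat_lit 8) (nat_lit 5) (nat_lit 10) (nat_lit 4) (nat_lit 8) (nat_lit 4) (nat_lit 311) (nat_lit 261) (nat_lit 208)) (XT.nd (nat_lit 78) (nat_lit 76) (nat_lit 0) (XT.lf (nat_lit 0) (nat_lit 45240483256) (nat_lit 152) (nat_lit 6650740175) (nat_lit 0) (nat_lit 18774356073) (nat_lit 8) (nat_lit 5) (nat_lit 10) (nat_lit 4) (nat_lit 8) (nat_lit 4) (nat_lit 312) (nat_lit 261) (nat_lit 207)) (XT.lf (nat_lit 0) (nat_lit 15402727446) (nat_lit 76) (nat_lit 43401550507)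 (nat_lit 76) (nat_lit 16904210443) (nat_lit 7) (nat_lit 4) (nat_lit 8) (nat_lit 5) (nat_lit 8) (nat_lit 4) (nat_lit 313) (nat_lit 261) (nat_lit 206)))))) (XT.nd (nat_lit 390) (nat_lit 76) (nat_lit 0) (XT.nd (nat_lit 156) (nat_lit 76) (nat_lit 0) (XT.nd (nat_lit 78) (nat_lit 76) (nat_lit 0) (XT.lf (nat_lit 0) (nat_lit 39408436709) (nat_lit 76) (nat_lit 34134089372) (nat_lit 76) (nat_lit 7607848490) (nat_lit 7) (nat_lit 4) (nat_lit 8) (nat_lit 5) (nat_lit 8) (nat_lit 4) (nat_lit 314) (nat_lit 261) (nat_lit 205)) (XT.lf (nat_lit 0) (nat_lit 2329424366) (nat_lit 152) (nat_lit 21777680945) (nat_lit 76) (nat_lit 62919865866) (nat_lit 6) (nat_lit 5) (nat_lit 8) (nat_lit 5) (nat_lit 7) (nat_lit 4) (nat_lit 315) (nat_lit 261) (nat_lit 204))) (XT.nd (nat_lit 78) (nat_lit 76) (nat_lit 0) (XT.lf (nat_lit 0) (nat_lit 12775597030) (nat_lit 152) (nat_lit 387804778) (nat_lit 76) (nat_lit 80205044619)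 (nat_lit 6) (nat_lit 5) (nat_lit 8) (nat_lit 5) (nat_lit 7) (nat_lit 4) (nat_lit 316) (nat_lit 261) (nat_lit 203)) (XT.nd (nat_lit 78) (nat_lit 0) (nat_lit 0) (XT.lf (nat_lit 0) (nat_lit 23422904519) (nat_lit 76) (nat_lit 978864070) (nat_lit 152) (nat_lit 75798264974) (nat_lit 5) (nat_lit 5) (nat_lit 6) (nat_lit 5) (nat_lit 7) (nat_lit 4) (nat_lit 317) (nat_lit 261) (nat_lit 202)) (XT.lf (nat_lit 0) (nat_lit 37134385941) (nat_lit 152) (nat_lit 58654818111) (nat_lit 0) (nat_lit 11780134461) (nat_lit 5) (nat_lit 5) (nat_lit 7) (nat_lit 4) (nat_lit 5) (nat_lit 4) (nat_lit 318) (nat_lit 261) (nat_lit 201))))) (XT.nd (nat_lit 234) (nat_lit 0) (nat_lit 0) (XT.nd (nat_lit 78) (nat_lit 76) (nat_lit 0) (XT.lf (nat_lit 0) (nat_lit 50882965583) (nat_lit 152) (nat_lit 39135381122) (nat_lit 0) (nat_lit 25509981331) (nat_lit 5) (nat_lit 5) (nat_lit 7) (nat_lit 4) (nat_lit 5) (nat_lit 4) (nat_lit 319)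 (nat_lit 261) (nat_lit 200)) (XT.nd (nat_lit 78) (nat_lit 76) (nat_lit 0) (XT.lf (nat_lit 0) (nat_lit 65713697768) (nat_lit 152) (nat_lit 18087864528) (nat_lit 0) (nat_lit 40323368357) (nat_lit 5) (nat_lit 5) (nat_lit 7) (nat_lit 4) (nat_lit 5) (nat_lit 4) (nat_lit 320) (nat_lit 261) (nat_lit 199)) (XT.lf (nat_lit 0) (nat_lit 4764966375) (nat_lit 76) (nat_lit 77023896420) (nat_lit 76) (nat_lit 51617506677) (nat_lit 4) (nat_lit 4) (nat_lit 5) (nat_lit 5) (nat_lit 5) (nat_lit 4) (nat_lit 321) (nat_lit 261) (nat_lit 198)))) (XT.nd (nat_lit 78) (nat_lit 0) (nat_lit 0) (XT.lf (nat_lit 0) (nat_lit 30062286896) (nat_lit 76) (nat_lit 69387166261) (nat_lit 76) (nat_lit 43965905840) (nat_lit 4) (nat_lit 4) (nat_lit 5) (nat_lit 5) (nat_lit 5) (nat_lit 4) (nat_lit 322) (nat_lit 261) (nat_lit 197)) (XT.nd (nat_lit 78) (nat_lit 0) (nat_lit 0) (XT.lf (nat_lit 0) (nat_lit 57355940593) (nat_lit 76) (nat_lit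 61152443861) (nat_lit 76) (nat_lit 35717414293) (nat_lit 4) (nat_lit 4) (nat_lit 5) (nat_lit 5) (nat_lit 5) (nat_lit 4) (nat_lit 323) (nat_lit 261) (nat_lit 196)) (XT.lf (nat_lit 0) (nat_lit 86807667636) (nat_lit 76) (nat_lit 52270930866) (nat_lit 76) (nat_lit 26823152088) (nat_lit 4) (nat_lit 4) (nat_lit 5) (nat_lit 5) (nat_lit 5) (nat_lit 4) (nat_lit 324) (nat_lit 261) (nat_lit 195))))))))
noncomputable def xc51 : XT := (XT.nd (nat_lit 1638) (nat_lit 0) (nat_lit 0) (XT.nd (nat_lit 780) (nat_lit 76) (nat_lit 0) (XT.nd (nat_lit 390) (nat_lit 0) (nat_lit 0) (XT.nd (nat_lit 156) (nat_lit 152) (nat_lit 0) (XT.nd (nat_lit 78) (nat_lit 0) (nat_lit 0) (XT.lf (nat_lit 0) (nat_lit 118591996777) (nat_lit 76) (nat_lit 42689996086) (nat_lit 76) (nat_lit 17230412484) (nat_lit 4) (nat_lit 4) (nat_lit 5) (nat_lit 5) (nat_lit 5) (nat_lit 4) (nat_lit 325) (nat_lit 261) (nat_lit 194)) (XT.lf (nat_lit 0)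 (nat_lit 152897279597) (nat_lit 76) (nat_lit 32352863612) (nat_lit 76) (nat_lit 6882349618) (nat_lit 4) (nat_lit 4) (nat_lit 5) (nat_lit 5) (nat_lit 5) (nat_lit 4) (nat_lit 326) (nat_lit 261) (nat_lit 193))) (XT.nd (nat_lit 78) (nat_lit 76) (nat_lit 0) (XT.lf (nat_lit 0) (nat_lit 4145296153) (nat_lit 152) (nat_lit 16982777613) (nat_lit 76) (nat_lit 185711307911) (nat_lit 3) (nat_lit 5) (nat_lit 5) (nat_lit 5) (nat_lit 4) (nat_lit 4) (nat_lit 327) (nat_lit 261) (nat_lit 192)) (XT.nd (nat_lit 78) (nat_lit 0) (nat_lit 0) (XT.lf (nat_lit 0) (nat_lit 7143418543) (nat_lit 76) (nat_lit 8775325027) (nat_lit 152) (nat_lit 206793204821) (nat_lit 2) (nat_lit 5) (nat_lit 3) (nat_lit 5) (nat_lit 4) (nat_lit 4) (nat_lit 328) (nat_lit 261) (nat_lit 191)) (XT.lf (nat_lit 0) (nat_lit 28996314640) (nat_lit 152) (nat_lit 206128041911) (nat_lit 0) (nat_lit 4711854949) (nat_lit 2) (nat_lit 5) (nat_lit 4) (nat_lit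 4) (nat_lit 2) (nat_lit 4) (nat_lit 329) (nat_lit 261) (nat_lit 190))))) (XT.nd (nat_lit 156) (nat_lit 0) (nat_lit 0) (XT.nd (nat_lit 78) (nat_lit 0) (nat_lit 0) (XT.lf (nat_lit 0) (nat_lit 43259065590) (nat_lit 152) (nat_lit 196097450240) (nat_lit 0) (nat_lit 18966954313) (nat_lit 2) (nat_lit 5) (nat_lit 4) (nat_lit 4) (nat_lit 2) (nat_lit 4) (nat_lit 330) (nat_lit 261) (nat_lit 189)) (XT.lf (nat_lit 0) (nat_lit 58654509009) (nat_lit 152) (nat_lit 185280306874) (nat_lit 0) (nat_lit 34355312931) (nat_lit 2) (nat_lit 5) (nat_lit 4) (nat_lit 4) (nat_lit 2) (nat_lit 4) (nat_lit 331) (nat_lit 261) (nat_lit 188))) (XT.nd (nat_lit 78) (nat_lit 0) (nat_lit 0) (XT.lf (nat_lit 0) (nat_lit 75273877156) (nat_lit 152) (nat_lit 173612510225) (nat_lit 0) (nat_lit 50968121077) (nat_lit 2) (nat_lit 5) (nat_lit 4) (nat_lit 4) (nat_lit 2) (nat_lit 4) (nat_lit 332) (nat_lit 261) (nat_lit 187)) (XT.nd (nat_lit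 78) (nat_lit 0) (nat_lit 0) (XT.lf (nat_lit 0) (nat_lit 93215655174) (nat_lit 152) (nat_lit 161024917792) (nat_lit 0) (nat_lit 68903825019) (nat_lit 2) (nat_lit 5) (nat_lit 4) (nat_lit 4) (nat_lit 2) (nat_lit 4) (nat_lit 333) (nat_lit 261) (nat_lit 186)) (XT.lf (nat_lit 0) (nat_lit 112586164711) (nat_lit 152) (nat_lit 147442936436) (nat_lit 0) (nat_lit 88268710413) (nat_lit 2) (nat_lit 5) (nat_lit 4) (nat_lit 4) (nat_lit 2) (nat_lit 4) (nat_lit 334) (nat_lit 261) (nat_lit 185)))))) (XT.nd (nat_lit 390) (nat_lit 76) (nat_lit 0) (XT.nd (nat_lit 156) (nat_lit 0) (nat_lit 0) (XT.nd (nat_lit 78) (nat_lit 0) (nat_lit 0) (XT.lf (nat_lit 0) (nat_lit 133500193972) (nat_lit 152) (nat_lit 132786080342) (nat_lit 0) (nat_lit 109177532133) (nat_lit 2) (nat_lit 5) (nat_lit 4) (nat_lit 4) (nat_lit 2) (nat_lit 4) (nat_lit 335) (nat_lit 261) (nat_lit 184)) (XT.lf (nat_lit 0) (nat_lit 156081677944) (nat_lit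 152) (nat_lit 116967494065) (nat_lit 0) (nat_lit 131754194309) (nat_lit 2) (nat_lit 5) (nat_lit 4) (nat_lit 4) (nat_lit 2) (nat_lit 4) (nat_lit 336) (nat_lit 261) (nat_lit 183))) (XT.nd (nat_lit 78) (nat_lit 0) (nat_lit 0) (XT.lf (nat_lit 0) (nat_lit 180464432830) (nat_lit 152) (nat_lit 99893437836) (nat_lit 0) (nat_lit 156132484568) (nat_lit 2) (nat_lit 5) (nat_lit 4) (nat_lit 4) (nat_lit 2) (nat_lit 4) (nat_lit 337) (nat_lit 261) (nat_lit 182)) (XT.nd (nat_lit 78) (nat_lit 0) (nat_lit 0) (XT.lf (nat_lit 0) (nat_lit 206792949029) (nat_lit 152) (nat_lit 81462732062) (nat_lit 0) (nat_lit 182456866853) (nat_lit 2) (nat_lit 5) (nat_lit 4) (nat_lit 4) (nat_lit 2) (nat_lit 4) (nat_lit 338) (nat_lit 261) (nat_lit 181)) (XT.lf (nat_lit 0) (nat_lit 235223247376) (nat_lit 152) (nat_lit 61566157745) (nat_lit 0) (nat_lit 210883337503) (nat_lit 2) (nat_lit 5) (nat_lit 4) (nat_lit 4) (nat_lit 2) (nat_lit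 4) (nat_lit 339) (nat_lit 261) (nat_lit 180))))) (XT.nd (nat_lit 234) (nat_lit 0) (nat_lit 0) (XT.nd (nat_lit 78) (nat_lit 76) (nat_lit 0) (XT.lf (nat_lit 0) (nat_lit 265923803716) (nat_lit 152) (nat_lit 40085809260) (nat_lit 0) (nat_lit 241580349678) (nat_lit 2) (nat_lit 5) (nat_lit 4) (nat_lit 4) (nat_lit 2) (nat_lit 4) (nat_lit 340) (nat_lit 261) (nat_lit 179)) (XT.nd (nat_lit 78) (nat_lit 76) (nat_lit 0) (XT.lf (nat_lit 0) (nat_lit 299076547269) (nat_lit 152) (nat_lit 16894395653) (nat_lit 0) (nat_lit 274729811597) (nat_lit 2) (nat_lit 5) (nat_lit 4) (nat_lit 4) (nat_lit 2) (nat_lit 4) (nat_lit 341) (nat_lit 261) (nat_lit 178)) (XT.lf (nat_lit 0) (nat_lit 8414841142) (nat_lit 76) (nat_lit 326594476850) (nat_lit 76) (nat_lit 302244702628) (nat_lit 1) (nat_lit 4) (nat_lit 2) (nat_lit 5) (nat_lit 2) (nat_lit 4) (nat_lit 342) (nat_lit 261) (nat_lit 177)))) (XT.nd (nat_lit 78) (nat_lit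 0) (nat_lit 0) (XT.lf (nat_lit 0) (nat_lit 36345589207) (nat_lit 76) (nat_lit 337762001817) (nat_lit 76) (nat_lit 313409414124) (nat_lit 1) (nat_lit 4) (nat_lit 2) (nat_lit 5) (nat_lit 2) (nat_lit 4) (nat_lit 343) (nat_lit 261) (nat_lit 176)) (XT.nd (nat_lit 78) (nat_lit 0) (nat_lit 0) (XT.lf (nat_lit 0) (nat_lit 66504759069) (nat_lit 76) (nat_lit 349825810518) (nat_lit 76) (nat_lit 325470617757) (nat_lit 1) (nat_lit 4) (nat_lit 2) (nat_lit 5) (nat_lit 2) (nat_lit 4) (nat_lit 344) (nat_lit 261) (nat_lit 175)) (XT.lf (nat_lit 0) (nat_lit 99071071734) (nat_lit 76) (nat_lit 362857392186) (nat_lit 76) (nat_lit 338499787327) (nat_lit 1) (nat_lit 4) (nat_lit 2) (nat_lit 5) (nat_lit 2) (nat_lit 4) (nat_lit 345) (nat_lit 261) (nat_lit 174))))))) (XT.nd (nat_lit 34710) (nat_lit 0) (nat_lit 3876) (XT.nd (nat_lit 34320) (nat_lit 0) (nat_lit 8360) (XT.nd (nat_lit 34086) (nat_lit 0) (nat_lit 9576)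 (XT.nd (nat_lit 78) (nat_lit 0) (nat_lit 0) (XT.lf (nat_lit 0) (nat_lit 134237512758) (nat_lit 76) (nat_lit 376933971012) (nat_lit 76) (nat_lit 352574132727) (nat_lit 1) (nat_lit 4) (nat_lit 2) (nat_lit 5) (nat_lit 2) (nat_lit 4) (nat_lit 346) (nat_lit 261) (nat_lit 173)) (XT.lf (nat_lit 0) (nat_lit 172212475866) (nat_lit 76) (nat_lit 392138963757) (nat_lit 76) (nat_lit 367777057487) (nat_lit 1) (nat_lit 4) (nat_lit 2) (nat_lit 5) (nat_lit 2) (nat_lit 4) (nat_lit 347) (nat_lit 261) (nat_lit 172))) (XT.nd (nat_lit 78) (nat_lit 380) (nat_lit 0) (XT.lf (nat_lit 0) (nat_lit 988384919) (nat_lit 0) (nat_lit 988384919) (nat_lit 228) (nat_lit 1302908475) (nat_lit 132) (nat_lit 5) (nat_lit 132) (nat_lit 3) (nat_lit 135) (nat_lit 3) (nat_lit 262) (nat_lit 262) (nat_lit 256)) (XT.nd (nat_lit 78) (nat_lit 0) (nat_lit 76) (XT.lf (nat_lit 76) (nat_lit 298933751) (nat_lit 0) (nat_lit 750211290) (nat_lit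 380) (nat_lit 5580190521) (nat_lit 128) (nat_lit 5) (nat_lit 127) (nat_lit 3) (nat_lit 132) (nat_lit 5) (nat_lit 263) (nat_lit 262) (nat_lit 255)) (XT.lf (nat_lit 0) (nat_lit 4629123222) (nat_lit 304) (nat_lit 1242358298) (nat_lit 380) (nat_lit 846188991) (nat_lit 128) (nat_lit 5) (nat_lit 132) (nat_lit 5) (nat_lit 133) (nat_lit 5) (nat_lit 264) (nat_lit 262) (nat_lit 254))))) (XT.nd (nat_lit 156) (nat_lit 912) (nat_lit 0) (XT.nd (nat_lit 78) (nat_lit 0) (nat_lit 0) (XT.lf (nat_lit 0) (nat_lit 1360831309) (nat_lit 380) (nat_lit 2681076302) (nat_lit 456) (nat_lit 2784199281) (nat_lit 123) (nat_lit 5) (nat_lit 128) (nat_lit 5) (nat_lit 129) (nat_lit 5) (nat_lit 265) (nat_lit 262) (nat_lit 253)) (XT.lf (nat_lit 76) (nat_lit 2915286619) (nat_lit 0) (nat_lit 1842010661) (nat_lit 456) (nat_lit 2197882955) (nat_lit 124) (nat_lit 5) (nat_lit 123) (nat_lit 5) (nat_lit 129) (nat_lit 5) (nat_lit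 266) (nat_lit 262) (nat_lit 252))) (XT.nd (nat_lit 78) (nat_lit 532) (nat_lit 0) (XT.lf (nat_lit 0) (nat_lit 1066109776) (nat_lit 456) (nat_lit 5328959079) (nat_lit 76) (nat_lit 710365696) (nat_lit 118) (nat_lit 5) (nat_lit 124) (nat_lit 5) (nat_lit 119) (nat_lit 5) (nat_lit 267) (nat_lit 262) (nat_lit 251)) (XT.nd (nat_lit 78) (nat_lit 76) (nat_lit 0) (XT.lf (nat_lit 0) (nat_lit 673004127) (nat_lit 456) (nat_lit 3667428668) (nat_lit 532) (nat_lit 2934890425) (nat_lit 112) (nat_lit 5) (nat_lit 118) (nat_lit 5) (nat_lit 119) (nat_lit 5) (nat_lit 268) (nat_lit 262) (nat_lit 250)) (XT.lf (nat_lit 0) (nat_lit 223967623) (nat_lit 532) (nat_lit 334555720) (nat_lit 76) (nat_lit 6909621630) (nat_lit 111) (nat_lit 5) (nat_lit 118) (nat_lit 5) (nat_lit 112) (nat_lit 5) (nat_lit 269) (nat_lit 262) (nat_lit 249)))))) (XT.nd (nat_lit 390) (nat_lit 1596) (nat_lit 0) (XT.nd (nat_lit 156) (nat_lit 1748)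 (nat_lit 0) (XT.nd (nat_lit 78) (nat_lit 608) (nat_lit 0) (XT.lf (nat_lit 0) (nat_lit 3426251432) (nat_lit 608) (nat_lit 1341266331) (nat_lit 76) (nat_lit 2912384980) (nat_lit 104) (nat_lit 5) (nat_lit 112) (nat_lit 5) (nat_lit 105) (nat_lit 5) (nat_lit 270) (nat_lit 262) (nat_lit 248)) (XT.lf (nat_lit 0) (nat_lit 5613398455) (nat_lit 608) (nat_lit 1136319244) (nat_lit 684) (nat_lit 1166182515) (nat_lit 96) (nat_lit 5) (nat_lit 104) (nat_lit 5) (nat_lit 105) (nat_lit 5) (nat_lit 271) (nat_lit 262) (nat_lit 247))) (XT.nd (nat_lit 78) (nat_lit 988) (nat_lit 0) (XT.lf (nat_lit 0) (nat_lit 2017916169) (nat_lit 760) (nat_lit 3301102610) (nat_lit 76) (nat_lit 2854598693) (nat_lit 86) (nat_lit 5) (nat_lit 96) (nat_lit 5) (nat_lit 87) (nat_lit 5) (nat_lit 272) (nat_lit 262) (nat_lit 246)) (XT.nd (nat_lit 78) (nat_lit 456) (nat_lit 0) (XT.lf (nat_lit 0) (nat_lit 4139180978) (nat_lit 532) (nat_lit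 1188283848) (nat_lit 608) (nat_lit 3128400748) (nat_lit 79) (nat_lit 5) (nat_lit 86) (nat_lit 5) (nat_lit 87) (nat_lit 5) (nat_lit 273) (nat_lit 262) (nat_lit 245)) (XT.lf (nat_lit 0) (nat_lit 97114595) (nat_lit 456) (nat_lit 5382738220) (nat_lit 76) (nat_lit 3283098603) (nat_lit 73) (nat_lit 5) (nat_lit 79) (nat_lit 5) (nat_lit 74) (nat_lit 5) (nat_lit 274) (nat_lit 262) (nat_lit 244))))) (XT.nd (nat_lit 234) (nat_lit 608) (nat_lit 0) (XT.nd (nat_lit 78) (nat_lit 684) (nat_lit 0) (XT.lf (nat_lit 0) (nat_lit 2557259502) (nat_lit 304) (nat_lit 859173191) (nat_lit 380) (nat_lit 5678704962) (nat_lit 69) (nat_lit 5) (nat_lit 73) (nat_lit 5) (nat_lit 74) (nat_lit 5) (nat_lit 275) (nat_lit 262) (nat_lit 243)) (XT.nd (nat_lit 78) (nat_lit 380) (nat_lit 0) (XT.lf (nat_lit 0) (nat_lit 1655514430) (nat_lit 304) (nat_lit 5349854406) (nat_lit 380) (nat_lit 2448665269) (nat_lit 65) (nat_lit 5) (nat_lit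 69) (nat_lit 5) (nat_lit 70) (nat_lit 5) (nat_lit 276) (nat_lit 262) (nat_lit 242)) (XT.lf (nat_lit 0) (nat_lit 687337123) (nat_lit 304) (nat_lit 285807121) (nat_lit 380) (nat_lit 8869652926) (nat_lit 60) (nat_lit 5) (nat_lit 64) (nat_lit 5) (nat_lit 65) (nat_lit 5) (nat_lit 277) (nat_lit 262) (nat_lit 241)))) (XT.nd (nat_lit 78) (nat_lit 608) (nat_lit 0) (XT.lf (nat_lit 0) (nat_lit 4638118393) (nat_lit 380) (nat_lit 452893463) (nat_lit 76) (nat_lit 5167158619) (nat_lit 60) (nat_lit 5) (nat_lit 65) (nat_lit 5) (nat_lit 61) (nat_lit 5) (nat_lit 278) (nat_lit 262) (nat_lit 240)) (XT.nd (nat_lit 78) (nat_lit 304) (nat_lit 0) (XT.lf (nat_lit 0) (nat_lit 8596637444) (nat_lit 380) (nat_lit 1672043990) (nat_lit 76) (nat_lit 438331113) (nat_lit 56) (nat_lit 5) (nat_lit 61) (nat_lit 5) (nat_lit 57) (nat_lit 5) (nat_lit 279) (nat_lit 262) (nat_lit 239)) (XT.lf (nat_lit 0) (nat_lit 1702752783) (nat_lit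 304) (nat_lit 3122772751) (nat_lit 76) (nat_lit 6361328404) (nat_lit 52) (nat_lit 5) (nat_lit 56) (nat_lit 5) (nat_lit 53) (nat_lit 5) (nat_lit 280) (nat_lit 262) (nat_lit 238))))))))
noncomputable def xc52 : XT := (XT.nd (nat_lit 1560) (nat_lit 760) (nat_lit 0) (XT.nd (nat_lit 780) (nat_lit 1064) (nat_lit 0) (XT.nd (nat_lit 390) (nat_lit 836) (nat_lit 0) (XT.nd (nat_lit 156) (nat_lit 456) (nat_lit 0) (XT.nd (nat_lit 78) (nat_lit 228) (nat_lit 0) (XT.lf (nat_lit 0) (nat_lit 5765203369) (nat_lit 304) (nat_lit 4784506824) (nat_lit 76) (nat_lit 1152941380) (nat_lit 49) (nat_lit 5) (nat_lit 53) (nat_lit 5) (nat_lit 50) (nat_lit 5) (nat_lit 281) (nat_lit 262) (nat_lit 237)) (XT.lf (nat_lit 0) (nat_lit 5529974902) (nat_lit 228) (nat_lit 4713268532) (nat_lit 304) (nat_lit 2012133648) (nat_lit 46) (nat_lit 5) (nat_lit 49) (nat_lit 5) (nat_lit 50) (nat_lit 5) (nat_lit 282) (nat_lit 262) (nat_lit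 236))) (XT.nd (nat_lit 78) (nat_lit 152) (nat_lit 0) (XT.lf (nat_lit 0) (nat_lit 2201027912) (nat_lit 304) (nat_lit 8973855854) (nat_lit 76) (nat_lit 1673613744) (nat_lit 42) (nat_lit 5) (nat_lit 46) (nat_lit 5) (nat_lit 43) (nat_lit 5) (nat_lit 283) (nat_lit 262) (nat_lit 235)) (XT.nd (nat_lit 78) (nat_lit 0) (nat_lit 0) (XT.lf (nat_lit 0) (nat_lit 1847663940) (nat_lit 152) (nat_lit 4939898698) (nat_lit 228) (nat_lit 6694673051) (nat_lit 40) (nat_lit 5) (nat_lit 42) (nat_lit 5) (nat_lit 43) (nat_lit 5) (nat_lit 284) (nat_lit 262) (nat_lit 234)) (XT.lf (nat_lit 0) (nat_lit 11811936703) (nat_lit 228) (nat_lit 507295559) (nat_lit 76) (nat_lit 1844041302) (nat_lit 40) (nat_lit 5) (nat_lit 43) (nat_lit 5) (nat_lit 41) (nat_lit 5) (nat_lit 285) (nat_lit 262) (nat_lit 233))))) (XT.nd (nat_lit 156) (nat_lit 380) (nat_lit 0) (XT.nd (nat_lit 78) (nat_lit 152) (nat_lit 0) (XT.lf (nat_lit 0) (nat_lit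 2424672677) (nat_lit 304) (nat_lit 3291164289) (nat_lit 76) (nat_lit 9173256186) (nat_lit 36) (nat_lit 5) (nat_lit 40) (nat_lit 5) (nat_lit 37) (nat_lit 5) (nat_lit 286) (nat_lit 262) (nat_lit 232)) (XT.lf (nat_lit 0) (nat_lit 7573518465) (nat_lit 228) (nat_lit 6581106584) (nat_lit 76) (nat_lit 1512888782) (nat_lit 34) (nat_lit 5) (nat_lit 37) (nat_lit 5) (nat_lit 35) (nat_lit 5) (nat_lit 287) (nat_lit 262) (nat_lit 231))) (XT.nd (nat_lit 78) (nat_lit 228) (nat_lit 0) (XT.lf (nat_lit 0) (nat_lit 6006945876) (nat_lit 152) (nat_lit 7276667813) (nat_lit 228) (nat_lit 3217238122) (nat_lit 32) (nat_lit 5) (nat_lit 34) (nat_lit 5) (nat_lit 35) (nat_lit 5) (nat_lit 288) (nat_lit 262) (nat_lit 230)) (XT.nd (nat_lit 78) (nat_lit 0) (nat_lit 0) (XT.lf (nat_lit 0) (nat_lit 2045817202) (nat_lit 228) (nat_lit 15069268241) (nat_lit 76) (nat_lit 281181021) (nat_lit 29) (nat_lit 5) (nat_lit 32) (nat_lit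 5) (nat_lit 30) (nat_lit 5) (nat_lit 289) (nat_lit 262) (nat_lit 229)) (XT.lf (nat_lit 0) (nat_lit 7835499905) (nat_lit 228) (nat_lit 2133965857) (nat_lit 76) (nat_lit 8380386896) (nat_lit 29) (nat_lit 5) (nat_lit 32) (nat_lit 5) (nat_lit 30) (nat_lit 5) (nat_lit 290) (nat_lit 262) (nat_lit 228)))))) (XT.nd (nat_lit 390) (nat_lit 532) (nat_lit 0) (XT.nd (nat_lit 156) (nat_lit 228) (nat_lit 0) (XT.nd (nat_lit 78) (nat_lit 152) (nat_lit 0) (XT.lf (nat_lit 0) (nat_lit 12085799329) (nat_lit 152) (nat_lit 2106344377) (nat_lit 228) (nat_lit 5182476439) (nat_lit 27) (nat_lit 5) (nat_lit 29) (nat_lit 5) (nat_lit 30) (nat_lit 5) (nat_lit 291) (nat_lit 262) (nat_lit 227)) (XT.lf (nat_lit 0) (nat_lit 725943565) (nat_lit 152) (nat_lit 13454876163) (nat_lit 76) (nat_lit 6291752141) (nat_lit 25) (nat_lit 5) (nat_lit 27) (nat_lit 5) (nat_lit 26) (nat_lit 5) (nat_lit 292) (nat_lit 262) (nat_lit 226)))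 (XT.nd (nat_lit 78) (nat_lit 76) (nat_lit 0) (XT.lf (nat_lit 0) (nat_lit 847785791) (nat_lit 152) (nat_lit 6179141388) (nat_lit 228) (nat_lit 14622180041) (nat_lit 23) (nat_lit 5) (nat_lit 25) (nat_lit 5) (nat_lit 26) (nat_lit 5) (nat_lit 293) (nat_lit 262) (nat_lit 225)) (XT.nd (nat_lit 78) (nat_lit 76) (nat_lit 0) (XT.lf (nat_lit 0) (nat_lit 14032966781) (nat_lit 228) (nat_lit 6303882554) (nat_lit 76) (nat_lit 2572930494) (nat_lit 23) (nat_lit 5) (nat_lit 26) (nat_lit 5) (nat_lit 24) (nat_lit 4) (nat_lit 294) (nat_lit 262) (nat_lit 224)) (XT.lf (nat_lit 0) (nat_lit 9431896360) (nat_lit 76) (nat_lit 12348960378) (nat_lit 152) (nat_lit 2481439755) (nat_lit 22) (nat_lit 5) (nat_lit 23) (nat_lit 5) (nat_lit 24) (nat_lit 4) (nat_lit 295) (nat_lit 262) (nat_lit 223))))) (XT.nd (nat_lit 156) (nat_lit 304) (nat_lit 0) (XT.nd (nat_lit 78) (nat_lit 0) (nat_lit 0) (XT.lf (nat_lit 0) (nat_lit 771666502)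 (nat_lit 152) (nat_lit 3568092579) (nat_lit 228) (nat_lit 21377060250) (nat_lit 19) (nat_lit 5) (nat_lit 21) (nat_lit 5) (nat_lit 22) (nat_lit 5) (nat_lit 296) (nat_lit 262) (nat_lit 222)) (XT.lf (nat_lit 0) (nat_lit 11910545251) (nat_lit 228) (nat_lit 9375482373) (nat_lit 76) (nat_lit 5985148808) (nat_lit 19) (nat_lit 5) (nat_lit 22) (nat_lit 5) (nat_lit 20) (nat_lit 4) (nat_lit 297) (nat_lit 262) (nat_lit 221))) (XT.nd (nat_lit 78) (nat_lit 228) (nat_lit 0) (XT.lf (nat_lit 0) (nat_lit 7514791225) (nat_lit 76) (nat_lit 12689270670) (nat_lit 152) (nat_lit 8740011135) (nat_lit 18) (nat_lit 5) (nat_lit 19) (nat_lit 5) (nat_lit 20) (nat_lit 4) (nat_lit 298) (nat_lit 262) (nat_lit 220)) (XT.nd (nat_lit 78) (nat_lit 228) (nat_lit 0) (XT.lf (nat_lit 0) (nat_lit 25990333324) (nat_lit 76) (nat_lit 3276520345) (nat_lit 152) (nat_lit 1478699023) (nat_lit 18) (nat_lit 5) (nat_lit 19) (nat_lit 5)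 (nat_lit 20) (nat_lit 4) (nat_lit 299) (nat_lit 262) (nat_lit 219)) (XT.lf (nat_lit 0) (nat_lit 6428296135) (nat_lit 228) (nat_lit 19300330729) (nat_lit 76) (nat_lit 6944169904) (nat_lit 15) (nat_lit 5) (nat_lit 18) (nat_lit 5) (nat_lit 16) (nat_lit 4) (nat_lit 300) (nat_lit 262) (nat_lit 218))))))) (XT.nd (nat_lit 780) (nat_lit 304) (nat_lit 0) (XT.nd (nat_lit 390) (nat_lit 228) (nat_lit 0) (XT.nd (nat_lit 156) (nat_lit 152) (nat_lit 0) (XT.nd (nat_lit 78) (nat_lit 76) (nat_lit 0) (XT.lf (nat_lit 0) (nat_lit 15003982837) (nat_lit 228) (nat_lit 1804421665) (nat_lit 76) (nat_lit 17940240400) (nat_lit 15) (nat_lit 5) (nat_lit 18) (nat_lit 5) (nat_lit 16) (nat_lit 4) (nat_lit 301) (nat_lit 262) (nat_lit 217)) (XT.lf (nat_lit 0) (nat_lit 17567334761) (nat_lit 76) (nat_lit 6924338056) (nat_lit 152) (nat_lit 12487621670) (nat_lit 14) (nat_lit 5) (nat_lit 15) (nat_lit 5) (nat_lit 16) (nat_lit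 4) (nat_lit 302) (nat_lit 262) (nat_lit 216))) (XT.nd (nat_lit 78) (nat_lit 152) (nat_lit 0) (XT.lf (nat_lit 0) (nat_lit 34782280342) (nat_lit 152) (nat_lit 976739602) (nat_lit 0) (nat_lit 3627209697) (nat_lit 14) (nat_lit 5) (nat_lit 16) (nat_lit 4) (nat_lit 14) (nat_lit 4) (nat_lit 303) (nat_lit 262) (nat_lit 215)) (XT.nd (nat_lit 78) (nat_lit 0) (nat_lit 0) (XT.lf (nat_lit 0) (nat_lit 4167240152) (nat_lit 152) (nat_lit 22675922916) (nat_lit 76) (nat_lit 15120430183) (nat_lit 12) (nat_lit 5) (nat_lit 14) (nat_lit 5) (nat_lit 13) (nat_lit 4) (nat_lit 304) (nat_lit 262) (nat_lit 214)) (XT.lf (nat_lit 0) (nat_lit 13456461472) (nat_lit 152) (nat_lit 3691995678) (nat_lit 76) (nat_lit 27596056687) (nat_lit 12) (nat_lit 5) (nat_lit 14) (nat_lit 5) (nat_lit 13) (nat_lit 4) (nat_lit 305) (nat_lit 262) (nat_lit 213))))) (XT.nd (nat_lit 156) (nat_lit 152) (nat_lit 0) (XT.nd (nat_lit 78) (nat_lit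 0) (nat_lit 0) (XT.lf (nat_lit 0) (nat_lit 17293877596) (nat_lit 76) (nat_lit 6426233201) (nat_lit 152) (nat_lit 24016254473) (nat_lit 11) (nat_lit 5) (nat_lit 12) (nat_lit 5) (nat_lit 13) (nat_lit 4) (nat_lit 306) (nat_lit 262) (nat_lit 212)) (XT.lf (nat_lit 0) (nat_lit 34913312449) (nat_lit 152) (nat_lit 11024024962) (nat_lit 0) (nat_lit 5024824491) (nat_lit 11) (nat_lit 5) (nat_lit 13) (nat_lit 4) (nat_lit 11) (nat_lit 4) (nat_lit 307) (nat_lit 262) (nat_lit 211))) (XT.nd (nat_lit 78) (nat_lit 76) (nat_lit 0) (XT.lf (nat_lit 0) (nat_lit 10099261555) (nat_lit 76) (nat_lit 37134141822) (nat_lit 76) (nat_lit 7201065844) (nat_lit 10) (nat_lit 4) (nat_lit 11) (nat_lit 5) (nat_lit 11) (nat_lit 4) (nat_lit 308) (nat_lit 262) (nat_lit 210)) (XT.nd (nat_lit 78) (nat_lit 0) (nat_lit 0) (XT.lf (nat_lit 0) (nat_lit 2440814091) (nat_lit 152) (nat_lit 24970692295) (nat_lit 76) (nat_lit 30763151425)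 (nat_lit 9) (nat_lit 5) (nat_lit 11) (nat_lit 5) (nat_lit 10) (nat_lit 4) (nat_lit 309) (nat_lit 262) (nat_lit 209)) (XT.lf (nat_lit 0) (nat_lit 12574066071) (nat_lit 152) (nat_lit 4235752777) (nat_lit 76) (nat_lit 45399739730) (nat_lit 9) (nat_lit 5) (nat_lit 11) (nat_lit 5) (nat_lit 10) (nat_lit 4) (nat_lit 310) (nat_lit 262) (nat_lit 208)))))) (XT.nd (nat_lit 390) (nat_lit 152) (nat_lit 0) (XT.nd (nat_lit 156) (nat_lit 76) (nat_lit 0) (XT.nd (nat_lit 78) (nat_lit 0) (nat_lit 0) (XT.lf (nat_lit 0) (nat_lit 18703543620) (nat_lit 76) (nat_lit 5077689186) (nat_lit 152) (nat_lit 42772869946) (nat_lit 8) (nat_lit 5) (nat_lit 9) (nat_lit 5) (nat_lit 10) (nat_lit 4) (nat_lit 311) (nat_lit 262) (nat_lit 207)) (XT.lf (nat_lit 0) (nat_lit 36050728019) (nat_lit 152) (nat_lit 27784819847) (nat_lit 0) (nat_lit 7402387867) (nat_lit 8) (nat_lit 5) (nat_lit 10) (nat_lit 4) (nat_lit 8) (nat_lit 4) (nat_lit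 312) (nat_lit 262) (nat_lit 206))) (XT.nd (nat_lit 78) (nat_lit 76) (nat_lit 0) (XT.lf (nat_lit 0) (nat_lit 49361673541) (nat_lit 152) (nat_lit 6247386770) (nat_lit 0) (nat_lit 20684432572) (nat_lit 8) (nat_lit 5) (nat_lit 10) (nat_lit 4) (nat_lit 8) (nat_lit 4) (nat_lit 313) (nat_lit 262) (nat_lit 205)) (XT.nd (nat_lit 78) (nat_lit 0) (nat_lit 0) (XT.lf (nat_lit 0) (nat_lit 17529706368) (nat_lit 76) (nat_lit 46457653567) (nat_lit 76) (nat_lit 17753652582) (nat_lit 7) (nat_lit 4) (nat_lit 8) (nat_lit 5) (nat_lit 8) (nat_lit 4) (nat_lit 314) (nat_lit 262) (nat_lit 204)) (XT.lf (nat_lit 0) (nat_lit 43389593799) (nat_lit 76) (nat_lit 36479611910) (nat_lit 76) (nat_lit 7750833133) (nat_lit 7) (nat_lit 4) (nat_lit 8) (nat_lit 5) (nat_lit 8) (nat_lit 4) (nat_lit 315) (nat_lit 262) (nat_lit 203))))) (XT.nd (nat_lit 234) (nat_lit 0) (nat_lit 0) (XT.nd (nat_lit 78) (nat_lit 76) (nat_lit 0) (XT.lf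 (nat_lit 0) (nat_lit 2933129932) (nat_lit 152) (nat_lit 22738804816) (nat_lit 76) (nat_lit 68296148573) (nat_lit 6) (nat_lit 5) (nat_lit 8) (nat_lit 5) (nat_lit 7) (nat_lit 4) (nat_lit 316) (nat_lit 262) (nat_lit 202)) (XT.nd (nat_lit 78) (nat_lit 0) (nat_lit 0) (XT.lf (nat_lit 0) (nat_lit 314467814) (nat_lit 76) (nat_lit 13874523383) (nat_lit 152) (nat_lit 86629198837) (nat_lit 5) (nat_lit 5) (nat_lit 6) (nat_lit 5) (nat_lit 7) (nat_lit 4) (nat_lit 317) (nat_lit 262) (nat_lit 201)) (XT.lf (nat_lit 0) (nat_lit 25988538138) (nat_lit 76) (nat_lit 733984637) (nat_lit 152) (nat_lit 81474930258) (nat_lit 5) (nat_lit 5) (nat_lit 6) (nat_lit 5) (nat_lit 7) (nat_lit 4) (nat_lit 318) (nat_lit 262) (nat_lit 200)))) (XT.nd (nat_lit 78) (nat_lit 0) (nat_lit 0) (XT.lf (nat_lit 0) (nat_lit 40451116981) (nat_lit 152) (nat_lit 62694112270) (nat_lit 0) (nat_lit 13012216058) (nat_lit 5) (nat_lit 5) (nat_lit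 7) (nat_lit 4) (nat_lit 5) (nat_lit 4) (nat_lit 319) (nat_lit 262) (nat_lit 199)) (XT.nd (nat_lit 78) (nat_lit 0) (nat_lit 0) (XT.lf (nat_lit 0) (nat_lit 55273954834) (nat_lit 152) (nat_lit 41661497454) (nat_lit 0) (nat_lit 27818993579) (nat_lit 5) (nat_lit 5) (nat_lit 7) (nat_lit 4) (nat_lit 5) (nat_lit 4) (nat_lit 320) (nat_lit 262) (nat_lit 198)) (XT.lf (nat_lit 0) (nat_lit 71267415816) (nat_lit 152) (nat_lit 18974973174) (nat_lit 0) (nat_lit 43797583882) (nat_lit 5) (nat_lit 5) (nat_lit 7) (nat_lit 4) (nat_lit 5) (nat_lit 4) (nat_lit 321) (nat_lit 262) (nat_lit 197))))))))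
noncomputable def xc53 : XT := (XT.nd (nat_lit 1638) (nat_lit 76) (nat_lit 0) (XT.nd (nat_lit 780) (nat_lit 0) (nat_lit 0) (XT.nd (nat_lit 390) (nat_lit 152) (nat_lit 0) (XT.nd (nat_lit 156) (nat_lit 0) (nat_lit 0) (XT.nd (nat_lit 78) (nat_lit 0) (nat_lit 0) (XT.lf (nat_lit 0) (nat_lit 5681750739) (nat_lit 76) (nat_lit 82933233305) (nat_lit 76) (nat_lit 55449632225) (nat_lit 4) (nat_lit 4) (nat_lit 5) (nat_lit 5) (nat_lit 5) (nat_lit 4) (nat_lit 322) (nat_lit 262) (nat_lit 196)) (XT.lf (nat_lit 0) (nat_lit 32963183786) (nat_lit 76) (nat_lit 74704273980) (nat_lit 76) (nat_lit 47207923690) (nat_lit 4) (nat_lit 4) (nat_lit 5) (nat_lit 5) (nat_lit 5) (nat_lit 4) (nat_lit 323) (nat_lit 262) (nat_lit 195))) (XT.nd (nat_lit 78) (nat_lit 0) (nat_lit 0) (XT.lf (nat_lit 0) (nat_lit 62403595413) (nat_lit 76) (nat_lit 65828097164) (nat_lit 76) (nat_lit 38319942051) (nat_lit 4) (nat_lit 4) (nat_lit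 5) (nat_lit 5) (nat_lit 5) (nat_lit 4) (nat_lit 324) (nat_lit 262) (nat_lit 194)) (XT.nd (nat_lit 78) (nat_lit 0) (nat_lit 0) (XT.lf (nat_lit 0) (nat_lit 94177447318) (nat_lit 76) (nat_lit 56252103292) (nat_lit 76) (nat_lit 28733017786) (nat_lit 4) (nat_lit 4) (nat_lit 5) (nat_lit 5) (nat_lit 5) (nat_lit 4) (nat_lit 325) (nat_lit 262) (nat_lit 193)) (XT.lf (nat_lit 0) (nat_lit 128473028992) (nat_lit 76) (nat_lit 45919545733) (nat_lit 76) (nat_lit 18390339493) (nat_lit 4) (nat_lit 4) (nat_lit 5) (nat_lit 5) (nat_lit 5) (nat_lit 4) (nat_lit 326) (nat_lit 262) (nat_lit 192))))) (XT.nd (nat_lit 156) (nat_lit 76) (nat_lit 0) (XT.nd (nat_lit 78) (nat_lit 76) (nat_lit 0) (XT.lf (nat_lit 0) (nat_lit 165493573514) (nat_lit 76) (nat_lit 34769194516) (nat_lit 76) (nat_lit 7230617226) (nat_lit 4) (nat_lit 4) (nat_lit 5) (nat_lit 5) (nat_lit 5) (nat_lit 4) (nat_lit 327) (nat_lit 262) (nat_lit 191))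 (XT.lf (nat_lit 0) (nat_lit 4658257665) (nat_lit 152) (nat_lit 17997825973) (nat_lit 76) (nat_lit 200721314373) (nat_lit 3) (nat_lit 5) (nat_lit 5) (nat_lit 5) (nat_lit 4) (nat_lit 4) (nat_lit 328) (nat_lit 262) (nat_lit 190))) (XT.nd (nat_lit 78) (nat_lit 0) (nat_lit 0) (XT.lf (nat_lit 0) (nat_lit 8043534576) (nat_lit 76) (nat_lit 9321744901) (nat_lit 152) (nat_lit 223154910643) (nat_lit 2) (nat_lit 5) (nat_lit 3) (nat_lit 5) (nat_lit 4) (nat_lit 4) (nat_lit 329) (nat_lit 262) (nat_lit 189)) (XT.nd (nat_lit 78) (nat_lit 0) (nat_lit 0) (XT.lf (nat_lit 0) (nat_lit 31478488208) (nat_lit 152) (nat_lit 222308167445) (nat_lit 0) (nat_lit 5228271642) (nat_lit 2) (nat_lit 5) (nat_lit 4) (nat_lit 4) (nat_lit 2) (nat_lit 4) (nat_lit 330) (nat_lit 262) (nat_lit 188)) (XT.lf (nat_lit 0) (nat_lit 46870224537) (nat_lit 152) (nat_lit 211498100130) (nat_lit 0) (nat_lit 20613447971) (nat_lit 2) (nat_lit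 5) (nat_lit 4) (nat_lit 4) (nat_lit 2) (nat_lit 4) (nat_lit 331) (nat_lit 262) (nat_lit 187)))))) (XT.nd (nat_lit 390) (nat_lit 0) (nat_lit 0) (XT.nd (nat_lit 156) (nat_lit 0) (nat_lit 0) (XT.nd (nat_lit 78) (nat_lit 0) (nat_lit 0) (XT.lf (nat_lit 0) (nat_lit 63486160193) (nat_lit 152) (nat_lit 199836855379) (nat_lit 0) (nat_lit 37223309551) (nat_lit 2) (nat_lit 5) (nat_lit 4) (nat_lit 4) (nat_lit 2) (nat_lit 4) (nat_lit 332) (nat_lit 262) (nat_lit 186)) (XT.lf (nat_lit 0) (nat_lit 81424759979) (nat_lit 152) (nat_lit 187255329519) (nat_lit 0) (nat_lit 55156285193) (nat_lit 2) (nat_lit 5) (nat_lit 4) (nat_lit 4) (nat_lit 2) (nat_lit 4) (nat_lit 333) (nat_lit 262) (nat_lit 185))) (XT.nd (nat_lit 78) (nat_lit 0) (nat_lit 0) (XT.lf (nat_lit 0) (nat_lit 100792326709) (nat_lit 152) (nat_lit 173678965360) (nat_lit 0) (nat_lit 74518644383) (nat_lit 2) (nat_lit 5) (nat_lit 4) (nat_lit 4) (nat_lit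 2) (nat_lit 4) (nat_lit 334) (nat_lit 262) (nat_lit 184)) (XT.nd (nat_lit 78) (nat_lit 0) (nat_lit 0) (XT.lf (nat_lit 0) (nat_lit 121703631148) (nat_lit 152) (nat_lit 159027310374) (nat_lit 0) (nat_lit 95425127025) (nat_lit 2) (nat_lit 5) (nat_lit 4) (nat_lit 4) (nat_lit 2) (nat_lit 4) (nat_lit 335) (nat_lit 262) (nat_lit 183)) (XT.lf (nat_lit 0) (nat_lit 144282592138) (nat_lit 152) (nat_lit 143213539939) (nat_lit 0) (nat_lit 117999623388) (nat_lit 2) (nat_lit 5) (nat_lit 4) (nat_lit 4) (nat_lit 2) (nat_lit 4) (nat_lit 336) (nat_lit 262) (nat_lit 182))))) (XT.nd (nat_lit 234) (nat_lit 0) (nat_lit 0) (XT.nd (nat_lit 78) (nat_lit 0) (nat_lit 0) (XT.lf (nat_lit 0) (nat_lit 168663010928) (nat_lit 152) (nat_lit 126143942822) (nat_lit 0) (nat_lit 142375908265) (nat_lit 2) (nat_lit 5) (nat_lit 4) (nat_lit 4) (nat_lit 2) (nat_lit 4) (nat_lit 337) (nat_lit 262) (nat_lit 181)) (XT.nd (nat_lit 78)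 (nat_lit 0) (nat_lit 0) (XT.lf (nat_lit 0) (nat_lit 194989364076) (nat_lit 152) (nat_lit 107717365855) (nat_lit 0) (nat_lit 168698433715) (nat_lit 2) (nat_lit 5) (nat_lit 4) (nat_lit 4) (nat_lit 2) (nat_lit 4) (nat_lit 338) (nat_lit 262) (nat_lit 180)) (XT.lf (nat_lit 0) (nat_lit 223417659598) (nat_lit 152) (nat_lit 87824614508) (nat_lit 0) (nat_lit 197123185073) (nat_lit 2) (nat_lit 5) (nat_lit 4) (nat_lit 4) (nat_lit 2) (nat_lit 4) (nat_lit 339) (nat_lit 262) (nat_lit 179)))) (XT.nd (nat_lit 78) (nat_lit 0) (nat_lit 0) (XT.lf (nat_lit 0) (nat_lit 254116361470) (nat_lit 152) (nat_lit 66347805810) (nat_lit 0) (nat_lit 227818605310) (nat_lit 2) (nat_lit 5) (nat_lit 4) (nat_lit 4) (nat_lit 2) (nat_lit 4) (nat_lit 340) (nat_lit 262) (nat_lit 178)) (XT.nd (nat_lit 78) (nat_lit 0) (nat_lit 0) (XT.lf (nat_lit 0) (nat_lit 287267387923) (nat_lit 152) (nat_lit 43159669784) (nat_lit 0) (nat_lit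 260966593214) (nat_lit 2) (nat_lit 5) (nat_lit 4) (nat_lit 4) (nat_lit 2) (nat_lit 4) (nat_lit 341) (nat_lit 262) (nat_lit 177)) (XT.lf (nat_lit 0) (nat_lit 323067189486) (nat_lit 152) (nat_lit 18122795253) (nat_lit 0) (nat_lit 296763581304) (nat_lit 2) (nat_lit 5) (nat_lit 4) (nat_lit 4) (nat_lit 2) (nat_lit 4) (nat_lit 342) (nat_lit 262) (nat_lit 176))))))) (XT.nd (nat_lit 34788) (nat_lit 0) (nat_lit 4484) (XT.nd (nat_lit 34398) (nat_lit 0) (nat_lit 8816) (XT.nd (nat_lit 156) (nat_lit 0) (nat_lit 0) (XT.nd (nat_lit 78) (nat_lit 0) (nat_lit 0) (XT.lf (nat_lit 0) (nat_lit 9205828448) (nat_lit 76) (nat_lit 352665813463) (nat_lit 76) (nat_lit 326359600215) (nat_lit 1) (nat_lit 4) (nat_lit 2) (nat_lit 5) (nat_lit 2) (nat_lit 4) (nat_lit 343) (nat_lit 262) (nat_lit 175)) (XT.lf (nat_lit 0) (nat_lit 39362310432) (nat_lit 76) (nat_lit 364730904987) (nat_lit 76) (nat_lit 338422279640) (nat_lit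 1) (nat_lit 4) (nat_lit 2) (nat_lit 5) (nat_lit 2) (nat_lit 4) (nat_lit 344) (nat_lit 262) (nat_lit 174))) (XT.nd (nat_lit 78) (nat_lit 0) (nat_lit 0) (XT.lf (nat_lit 0) (nat_lit 71926134320) (nat_lit 76) (nat_lit 377763674455) (nat_lit 76) (nat_lit 351452815683) (nat_lit 1) (nat_lit 4) (nat_lit 2) (nat_lit 5) (nat_lit 2) (nat_lit 4) (nat_lit 345) (nat_lit 262) (nat_lit 173)) (XT.nd (nat_lit 78) (nat_lit 0) (nat_lit 0) (XT.lf (nat_lit 0) (nat_lit 107090270922) (nat_lit 76) (nat_lit 391841353095) (nat_lit 76) (nat_lit 365528426337) (nat_lit 1) (nat_lit 4) (nat_lit 2) (nat_lit 5) (nat_lit 2) (nat_lit 4) (nat_lit 346) (nat_lit 262) (nat_lit 172)) (XT.lf (nat_lit 0) (nat_lit 145063100306) (nat_lit 76) (nat_lit 407047364187) (nat_lit 76) (nat_lit 380732522627) (nat_lit 1) (nat_lit 4) (nat_lit 2) (nat_lit 5) (nat_lit 2) (nat_lit 4) (nat_lit 347) (nat_lit 262) (nat_lit 171))))) (XT.nd (nat_lit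 156) (nat_lit 380) (nat_lit 0) (XT.nd (nat_lit 78) (nat_lit 380) (nat_lit 0) (XT.lf (nat_lit 0) (nat_lit 2217474702) (nat_lit 380) (nat_lit 568035591) (nat_lit 380) (nat_lit 568035591) (nat_lit 127) (nat_lit 3) (nat_lit 132) (nat_lit 3) (nat_lit 132) (nat_lit 5) (nat_lit 263) (nat_lit 263) (nat_lit 254)) (XT.lf (nat_lit 0) (nat_lit 980063342) (nat_lit 380) (nat_lit 2893326666) (nat_lit 456) (nat_lit 2931566845) (nat_lit 122) (nat_lit 5) (nat_lit 127) (nat_lit 3) (nat_lit 128) (nat_lit 5) (nat_lit 264) (nat_lit 263) (nat_lit 253))) (XT.nd (nat_lit 78) (nat_lit 380) (nat_lit 0) (XT.lf (nat_lit 76) (nat_lit 2347871235) (nat_lit 0) (nat_lit 1799422749) (nat_lit 456) (nat_lit 2775661540) (nat_lit 123) (nat_lit 5) (nat_lit 122) (nat_lit 5) (nat_lit 128) (nat_lit 5) (nat_lit 265) (nat_lit 263) (nat_lit 252)) (XT.nd (nat_lit 78) (nat_lit 0) (nat_lit 0) (XT.lf (nat_lit 0) (nat_lit 268270674) (nat_lit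 456) (nat_lit 6174968927) (nat_lit 532) (nat_lit 619168591) (nat_lit 117) (nat_lit 5) (nat_lit 123) (nat_lit 5) (nat_lit 124) (nat_lit 5) (nat_lit 266) (nat_lit 263) (nat_lit 251)) (XT.lf (nat_lit 0) (nat_lit 3284963544) (nat_lit 456) (nat_lit 531631933) (nat_lit 532) (nat_lit 3403548128) (nat_lit 117) (nat_lit 5) (nat_lit 123) (nat_lit 5) (nat_lit 124) (nat_lit 5) (nat_lit 267) (nat_lit 263) (nat_lit 250)))))) (XT.nd (nat_lit 390) (nat_lit 1976) (nat_lit 0) (XT.nd (nat_lit 156) (nat_lit 1900) (nat_lit 0) (XT.nd (nat_lit 78) (nat_lit 456) (nat_lit 0) (XT.lf (nat_lit 76) (nat_lit 5561079490) (nat_lit 0) (nat_lit 803781402) (nat_lit 532) (nat_lit 1035215962) (nat_lit 118) (nat_lit 5) (nat_lit 117) (nat_lit 5) (nat_lit 124) (nat_lit 5) (nat_lit 268) (nat_lit 263) (nat_lit 249)) (XT.lf (nat_lit 0) (nat_lit 1897768299) (nat_lit 532) (nat_lit 3147163866) (nat_lit 76) (nat_lit 2555022190) (nat_lit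 111) (nat_lit 5) (nat_lit 118) (nat_lit 5) (nat_lit 112) (nat_lit 5) (nat_lit 269) (nat_lit 263) (nat_lit 248))) (XT.nd (nat_lit 78) (nat_lit 1368) (nat_lit 0) (XT.lf (nat_lit 0) (nat_lit 3389625622) (nat_lit 532) (nat_lit 1503329438) (nat_lit 608) (nat_lit 2929375891) (nat_lit 104) (nat_lit 5) (nat_lit 111) (nat_lit 5) (nat_lit 112) (nat_lit 5) (nat_lit 270) (nat_lit 263) (nat_lit 247)) (XT.nd (nat_lit 78) (nat_lit 760) (nat_lit 0) (XT.lf (nat_lit 0) (nat_lit 2349221767) (nat_lit 608) (nat_lit 5686826092) (nat_lit 684) (nat_lit 31543660) (nat_lit 96) (nat_lit 5) (nat_lit 104) (nat_lit 5) (nat_lit 105) (nat_lit 5) (nat_lit 271) (nat_lit 263) (nat_lit 246)) (XT.lf (nat_lit 0) (nat_lit 1279413484) (nat_lit 684) (nat_lit 1632619355) (nat_lit 760) (nat_lit 5422816065) (nat_lit 86) (nat_lit 5) (nat_lit 95) (nat_lit 5) (nat_lit 96) (nat_lit 5) (nat_lit 272) (nat_lit 263) (nat_lit 245))))) (XT.nd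 (nat_lit 234) (nat_lit 988) (nat_lit 0) (XT.nd (nat_lit 78) (nat_lit 456) (nat_lit 0) (XT.lf (nat_lit 0) (nat_lit 191564114) (nat_lit 532) (nat_lit 5847845723) (nat_lit 608) (nat_lit 2586995326) (nat_lit 79) (nat_lit 5) (nat_lit 86) (nat_lit 5) (nat_lit 87) (nat_lit 5) (nat_lit 273) (nat_lit 263) (nat_lit 244)) (XT.nd (nat_lit 78) (nat_lit 380) (nat_lit 0) (XT.lf (nat_lit 0) (nat_lit 423563307) (nat_lit 608) (nat_lit 892357414) (nat_lit 76) (nat_lit 7627205051) (nat_lit 78) (nat_lit 5) (nat_lit 86) (nat_lit 5) (nat_lit 79) (nat_lit 5) (nat_lit 274) (nat_lit 263) (nat_lit 243)) (XT.lf (nat_lit 0) (nat_lit 3582093623) (nat_lit 456) (nat_lit 2078806924) (nat_lit 76) (nat_lit 3622613805) (nat_lit 73) (nat_lit 5) (nat_lit 79) (nat_lit 5) (nat_lit 74) (nat_lit 5) (nat_lit 275) (nat_lit 263) (nat_lit 242)))) (XT.nd (nat_lit 78) (nat_lit 684) (nat_lit 0) (XT.lf (nat_lit 0) (nat_lit 6334091608)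 (nat_lit 304) (nat_lit 631067314) (nat_lit 380) (nat_lit 2687696306) (nat_lit 69) (nat_lit 5) (nat_lit 73) (nat_lit 5) (nat_lit 74) (nat_lit 5) (nat_lit 276) (nat_lit 263) (nat_lit 241)) (XT.nd (nat_lit 78) (nat_lit 304) (nat_lit 0) (XT.lf (nat_lit 0) (nat_lit 589171776) (nat_lit 380) (nat_lit 4696507225) (nat_lit 76) (nat_lit 4763888541) (nat_lit 64) (nat_lit 5) (nat_lit 69) (nat_lit 5) (nat_lit 65) (nat_lit 5) (nat_lit 277) (nat_lit 263) (nat_lit 240)) (XT.lf (nat_lit 0) (nat_lit 4025669300) (nat_lit 380) (nat_lit 6213702843) (nat_lit 76) (nat_lit 237115732) (nat_lit 60) (nat_lit 5) (nat_lit 65) (nat_lit 5) (nat_lit 61) (nat_lit 5) (nat_lit 278) (nat_lit 263) (nat_lit 239))))))))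
noncomputable def xc54 : XT := (XT.nd (nat_lit 1560) (nat_lit 1064) (nat_lit 0) (XT.nd (nat_lit 780) (nat_lit 1140) (nat_lit 0) (XT.nd (nat_lit 390) (nat_lit 836) (nat_lit 0) (XT.nd (nat_lit 156) (nat_lit 532) (nat_lit 0) (XT.nd (nat_lit 78) (nat_lit 304) (nat_lit 0) (XT.lf (nat_lit 0) (nat_lit 3004610603) (nat_lit 304) (nat_lit 4810257232) (nat_lit 380) (nat_lit 3119042210) (nat_lit 56) (nat_lit 5) (nat_lit 60) (nat_lit 5) (nat_lit 61) (nat_lit 5) (nat_lit 279) (nat_lit 263) (nat_lit 238)) (XT.lf (nat_lit 0) (nat_lit 481721286) (nat_lit 304) (nat_lit 9814579235) (nat_lit 76) (nat_lit 1130571318) (nat_lit 52) (nat_lit 5) (nat_lit 56) (nat_lit 5) (nat_lit 53) (nat_lit 5) (nat_lit 280) (nat_lit 263) (nat_lit 237))) (XT.nd (nat_lit 78) (nat_lit 532) (nat_lit 0) (XT.lf (nat_lit 0) (nat_lit 4355251712) (nat_lit 304) (nat_lit 57868626) (nat_lit 76) (nat_lit 7539088285) (nat_lit 52) (nat_lit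 5) (nat_lit 56) (nat_lit 5) (nat_lit 53) (nat_lit 5) (nat_lit 281) (nat_lit 263) (nat_lit 236)) (XT.nd (nat_lit 78) (nat_lit 304) (nat_lit 0) (XT.lf (nat_lit 0) (nat_lit 8618164523) (nat_lit 304) (nat_lit 1886480236) (nat_lit 76) (nat_lit 2011131978) (nat_lit 49) (nat_lit 5) (nat_lit 53) (nat_lit 5) (nat_lit 50) (nat_lit 5) (nat_lit 282) (nat_lit 263) (nat_lit 235)) (XT.lf (nat_lit 0) (nat_lit 200267937) (nat_lit 304) (nat_lit 4012037140) (nat_lit 76) (nat_lit 8906921445) (nat_lit 45) (nat_lit 5) (nat_lit 49) (nat_lit 5) (nat_lit 46) (nat_lit 5) (nat_lit 283) (nat_lit 263) (nat_lit 234))))) (XT.nd (nat_lit 156) (nat_lit 456) (nat_lit 0) (XT.nd (nat_lit 78) (nat_lit 152) (nat_lit 0) (XT.lf (nat_lit 0) (nat_lit 4572322545) (nat_lit 304) (nat_lit 6516199942) (nat_lit 76) (nat_lit 2675236638) (nat_lit 42) (nat_lit 5) (nat_lit 46) (nat_lit 5) (nat_lit 43) (nat_lit 5) (nat_lit 284) (nat_lit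 263) (nat_lit 233)) (XT.lf (nat_lit 0) (nat_lit 5033035278) (nat_lit 152) (nat_lit 4377561242) (nat_lit 228) (nat_lit 5043570687) (nat_lit 40) (nat_lit 5) (nat_lit 42) (nat_lit 5) (nat_lit 43) (nat_lit 5) (nat_lit 285) (nat_lit 263) (nat_lit 232))) (XT.nd (nat_lit 78) (nat_lit 228) (nat_lit 0) (XT.lf (nat_lit 0) (nat_lit 2427267632) (nat_lit 228) (nat_lit 12307315445) (nat_lit 304) (nat_lit 460417899) (nat_lit 37) (nat_lit 5) (nat_lit 40) (nat_lit 5) (nat_lit 41) (nat_lit 5) (nat_lit 286) (nat_lit 263) (nat_lit 231)) (XT.nd (nat_lit 78) (nat_lit 152) (nat_lit 0) (XT.lf (nat_lit 0) (nat_lit 4490374015) (nat_lit 304) (nat_lit 718870187) (nat_lit 76) (nat_lit 10775229618) (nat_lit 36) (nat_lit 5) (nat_lit 40) (nat_lit 5) (nat_lit 37) (nat_lit 5) (nat_lit 287) (nat_lit 263) (nat_lit 230)) (XT.lf (nat_lit 0) (nat_lit 9969456528) (nat_lit 228) (nat_lit 4319095294) (nat_lit 76) (nat_lit 2540859910)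 (nat_lit 34) (nat_lit 5) (nat_lit 37) (nat_lit 5) (nat_lit 35) (nat_lit 5) (nat_lit 288) (nat_lit 263) (nat_lit 229)))))) (XT.nd (nat_lit 390) (nat_lit 456) (nat_lit 0) (XT.nd (nat_lit 156) (nat_lit 304) (nat_lit 0) (XT.nd (nat_lit 78) (nat_lit 228) (nat_lit 0) (XT.lf (nat_lit 0) (nat_lit 9154816559) (nat_lit 152) (nat_lit 6890590289) (nat_lit 228) (nat_lit 1688705704) (nat_lit 32) (nat_lit 5) (nat_lit 34) (nat_lit 5) (nat_lit 35) (nat_lit 5) (nat_lit 289) (nat_lit 263) (nat_lit 228)) (XT.lf (nat_lit 0) (nat_lit 3865979968) (nat_lit 228) (nat_lit 13598433010) (nat_lit 76) (nat_lit 1239096598) (nat_lit 29) (nat_lit 5) (nat_lit 32) (nat_lit 5) (nat_lit 30) (nat_lit 5) (nat_lit 290) (nat_lit 263) (nat_lit 227))) (XT.nd (nat_lit 78) (nat_lit 152) (nat_lit 0) (XT.lf (nat_lit 0) (nat_lit 179178261) (nat_lit 152) (nat_lit 9819752991) (nat_lit 228) (nat_lit 9740567705) (nat_lit 27) (nat_lit 5)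 (nat_lit 29) (nat_lit 5) (nat_lit 30) (nat_lit 5) (nat_lit 291) (nat_lit 263) (nat_lit 226)) (XT.nd (nat_lit 78) (nat_lit 152) (nat_lit 0) (XT.lf (nat_lit 0) (nat_lit 15423093480) (nat_lit 152) (nat_lit 1361610300) (nat_lit 228) (nat_lit 4065626227) (nat_lit 27) (nat_lit 5) (nat_lit 29) (nat_lit 5) (nat_lit 30) (nat_lit 5) (nat_lit 292) (nat_lit 263) (nat_lit 225)) (XT.lf (nat_lit 0) (nat_lit 2206951978) (nat_lit 152) (nat_lit 12158174723) (nat_lit 76) (nat_lit 7672869420) (nat_lit 25) (nat_lit 5) (nat_lit 27) (nat_lit 5) (nat_lit 26) (nat_lit 5) (nat_lit 293) (nat_lit 263) (nat_lit 224))))) (XT.nd (nat_lit 156) (nat_lit 304) (nat_lit 0) (XT.nd (nat_lit 78) (nat_lit 0) (nat_lit 0) (XT.lf (nat_lit 0) (nat_lit 3185568522) (nat_lit 152) (nat_lit 5756483755) (nat_lit 228) (nat_lit 14370191594) (nat_lit 23) (nat_lit 5) (nat_lit 25) (nat_lit 5) (nat_lit 26) (nat_lit 5) (nat_lit 294) (nat_lit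 263) (nat_lit 223)) (XT.lf (nat_lit 0) (nat_lit 16421611245) (nat_lit 228) (nat_lit 4655938504) (nat_lit 76) (nat_lit 3600653424) (nat_lit 23) (nat_lit 5) (nat_lit 26) (nat_lit 5) (nat_lit 24) (nat_lit 4) (nat_lit 295) (nat_lit 263) (nat_lit 222))) (XT.nd (nat_lit 78) (nat_lit 228) (nat_lit 0) (XT.lf (nat_lit 0) (nat_lit 12245168358) (nat_lit 76) (nat_lit 12482528128) (nat_lit 152) (nat_lit 1414384901) (nat_lit 22) (nat_lit 5) (nat_lit 23) (nat_lit 5) (nat_lit 24) (nat_lit 4) (nat_lit 296) (nat_lit 263) (nat_lit 221)) (XT.nd (nat_lit 78) (nat_lit 0) (nat_lit 0) (XT.lf (nat_lit 0) (nat_lit 2842289447) (nat_lit 152) (nat_lit 3010333174) (nat_lit 228) (nat_lit 21862393685) (nat_lit 19) (nat_lit 5) (nat_lit 21) (nat_lit 5) (nat_lit 22) (nat_lit 5) (nat_lit 297) (nat_lit 263) (nat_lit 220)) (XT.lf (nat_lit 0) (nat_lit 13954914459) (nat_lit 228) (nat_lit 8222860430) (nat_lit 76) (nat_lit 7219718978)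 (nat_lit 19) (nat_lit 5) (nat_lit 22) (nat_lit 5) (nat_lit 20) (nat_lit 4) (nat_lit 298) (nat_lit 263) (nat_lit 219))))))) (XT.nd (nat_lit 780) (nat_lit 456) (nat_lit 0) (XT.nd (nat_lit 390) (nat_lit 228) (nat_lit 0) (XT.nd (nat_lit 156) (nat_lit 304) (nat_lit 0) (XT.nd (nat_lit 78) (nat_lit 0) (nat_lit 0) (XT.lf (nat_lit 0) (nat_lit 9935947747) (nat_lit 76) (nat_lit 12923525822) (nat_lit 152) (nat_lit 8347429857) (nat_lit 18) (nat_lit 5) (nat_lit 19) (nat_lit 5) (nat_lit 20) (nat_lit 4) (nat_lit 299) (nat_lit 263) (nat_lit 218)) (XT.lf (nat_lit 0) (nat_lit 29754720382) (nat_lit 76) (nat_lit 2815598916) (nat_lit 152) (nat_lit 586085529) (nat_lit 18) (nat_lit 5) (nat_lit 19) (nat_lit 5) (nat_lit 20) (nat_lit 4) (nat_lit 300) (nat_lit 263) (nat_lit 217))) (XT.nd (nat_lit 78) (nat_lit 76) (nat_lit 0) (XT.lf (nat_lit 0) (nat_lit 7885400733) (nat_lit 228) (nat_lit 19164778606) (nat_lit 76)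 (nat_lit 8188693998) (nat_lit 15) (nat_lit 5) (nat_lit 18) (nat_lit 5) (nat_lit 16) (nat_lit 4) (nat_lit 301) (nat_lit 263) (nat_lit 216)) (XT.nd (nat_lit 78) (nat_lit 76) (nat_lit 0) (XT.lf (nat_lit 0) (nat_lit 17077302305) (nat_lit 228) (nat_lit 393610045) (nat_lit 76) (nat_lit 20013413801) (nat_lit 15) (nat_lit 5) (nat_lit 18) (nat_lit 5) (nat_lit 16) (nat_lit 4) (nat_lit 302) (nat_lit 263) (nat_lit 215)) (XT.lf (nat_lit 0) (nat_lit 20460301304) (nat_lit 76) (nat_lit 6822264739) (nat_lit 152) (nat_lit 12612975235) (nat_lit 14) (nat_lit 5) (nat_lit 15) (nat_lit 5) (nat_lit 16) (nat_lit 4) (nat_lit 303) (nat_lit 263) (nat_lit 214))))) (XT.nd (nat_lit 156) (nat_lit 76) (nat_lit 0) (XT.nd (nat_lit 78) (nat_lit 76) (nat_lit 0) (XT.lf (nat_lit 0) (nat_lit 363643628) (nat_lit 76) (nat_lit 37986342671) (nat_lit 76) (nat_lit 4147405168) (nat_lit 13) (nat_lit 4) (nat_lit 14) (nat_lit 5) (nat_lit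 14) (nat_lit 4) (nat_lit 304) (nat_lit 263) (nat_lit 213)) (XT.lf (nat_lit 0) (nat_lit 5255945750) (nat_lit 152) (nat_lit 23118856555) (nat_lit 76) (nat_lit 16907688482) (nat_lit 12) (nat_lit 5) (nat_lit 14) (nat_lit 5) (nat_lit 13) (nat_lit 4) (nat_lit 305) (nat_lit 263) (nat_lit 212))) (XT.nd (nat_lit 78) (nat_lit 76) (nat_lit 0) (XT.lf (nat_lit 0) (nat_lit 15232354673) (nat_lit 152) (nat_lit 2717781079) (nat_lit 76) (nat_lit 30338578152) (nat_lit 12) (nat_lit 5) (nat_lit 14) (nat_lit 5) (nat_lit 13) (nat_lit 4) (nat_lit 306) (nat_lit 263) (nat_lit 211)) (XT.nd (nat_lit 78) (nat_lit 0) (nat_lit 0) (XT.lf (nat_lit 0) (nat_lit 19891787908) (nat_lit 76) (nat_lit 6392462574) (nat_lit 152) (nat_lit 25237334295) (nat_lit 11) (nat_lit 5) (nat_lit 12) (nat_lit 5) (nat_lit 13) (nat_lit 4) (nat_lit 307) (nat_lit 263) (nat_lit 210)) (XT.lf (nat_lit 0) (nat_lit 38331455774) (nat_lit 152) (nat_lit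 10758228400) (nat_lit 0) (nat_lit 5917860491) (nat_lit 11) (nat_lit 5) (nat_lit 13) (nat_lit 4) (nat_lit 11) (nat_lit 4) (nat_lit 308) (nat_lit 263) (nat_lit 209)))))) (XT.nd (nat_lit 390) (nat_lit 228) (nat_lit 0) (XT.nd (nat_lit 156) (nat_lit 76) (nat_lit 0) (XT.nd (nat_lit 78) (nat_lit 76) (nat_lit 0) (XT.lf (nat_lit 0) (nat_lit 12005042589) (nat_lit 76) (nat_lit 39602949651) (nat_lit 76) (nat_lit 7151127327) (nat_lit 10) (nat_lit 4) (nat_lit 11) (nat_lit 5) (nat_lit 11) (nat_lit 4) (nat_lit 309) (nat_lit 263) (nat_lit 208)) (XT.lf (nat_lit 0) (nat_lit 3197178398) (nat_lit 152) (nat_lit 25933002016) (nat_lit 76) (nat_lit 33670120493) (nat_lit 9) (nat_lit 5) (nat_lit 11) (nat_lit 5) (nat_lit 10) (nat_lit 4) (nat_lit 310) (nat_lit 263) (nat_lit 207))) (XT.nd (nat_lit 78) (nat_lit 76) (nat_lit 0) (XT.lf (nat_lit 0) (nat_lit 14099527634) (nat_lit 152) (nat_lit 3615959608) (nat_lit 76) (nat_lit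 49444604978) (nat_lit 9) (nat_lit 5) (nat_lit 11) (nat_lit 5) (nat_lit 10) (nat_lit 4) (nat_lit 311) (nat_lit 263) (nat_lit 206)) (XT.nd (nat_lit 78) (nat_lit 0) (nat_lit 0) (XT.lf (nat_lit 0) (nat_lit 21116818593) (nat_lit 76) (nat_lit 5062281752) (nat_lit 152) (nat_lit 45674326781) (nat_lit 8) (nat_lit 5) (nat_lit 9) (nat_lit 5) (nat_lit 10) (nat_lit 4) (nat_lit 312) (nat_lit 263) (nat_lit 205)) (XT.lf (nat_lit 0) (nat_lit 39399556284) (nat_lit 152) (nat_lit 29141482640) (nat_lit 0) (nat_lit 8372475204) (nat_lit 8) (nat_lit 5) (nat_lit 10) (nat_lit 4) (nat_lit 8) (nat_lit 4) (nat_lit 313) (nat_lit 263) (nat_lit 204))))) (XT.nd (nat_lit 234) (nat_lit 152) (nat_lit 0) (XT.nd (nat_lit 78) (nat_lit 76) (nat_lit 0) (XT.lf (nat_lit 0) (nat_lit 53740950039) (nat_lit 152) (nat_lit 5945212161) (nat_lit 0) (nat_lit 22689091167) (nat_lit 8) (nat_lit 5) (nat_lit 10) (nat_lit 4) (nat_lit 8) (nat_lit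 4) (nat_lit 314) (nat_lit 263) (nat_lit 203)) (XT.nd (nat_lit 78) (nat_lit 0) (nat_lit 0) (XT.lf (nat_lit 0) (nat_lit 19699195983) (nat_lit 76) (nat_lit 49817594916) (nat_lit 76) (nat_lit 18742793643) (nat_lit 7) (nat_lit 4) (nat_lit 8) (nat_lit 5) (nat_lit 8) (nat_lit 4) (nat_lit 315) (nat_lit 263) (nat_lit 202)) (XT.lf (nat_lit 0) (nat_lit 47571051216) (nat_lit 76) (nat_lit 39067729996) (nat_lit 76) (nat_lit 7971685760) (nat_lit 7) (nat_lit 4) (nat_lit 8) (nat_lit 5) (nat_lit 8) (nat_lit 4) (nat_lit 316) (nat_lit 263) (nat_lit 201)))) (XT.nd (nat_lit 78) (nat_lit 76) (nat_lit 0) (XT.lf (nat_lit 0) (nat_lit 3525592069) (nat_lit 152) (nat_lit 23888249904) (nat_lit 76) (nat_lit 74053644847) (nat_lit 6) (nat_lit 5) (nat_lit 8) (nat_lit 5) (nat_lit 7) (nat_lit 4) (nat_lit 317) (nat_lit 263) (nat_lit 200)) (XT.nd (nat_lit 78) (nat_lit 0) (nat_lit 0) (XT.lf (nat_lit 0) (nat_lit 980181959) (nat_lit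 76) (nat_lit 14685236587) (nat_lit 152) (nat_lit 93201020009) (nat_lit 5) (nat_lit 5) (nat_lit 6) (nat_lit 5) (nat_lit 7) (nat_lit 4) (nat_lit 318) (nat_lit 263) (nat_lit 199)) (XT.lf (nat_lit 0) (nat_lit 28660729263) (nat_lit 76) (nat_lit 515621310) (nat_lit 152) (nat_lit 87660966591) (nat_lit 5) (nat_lit 5) (nat_lit 6) (nat_lit 5) (nat_lit 7) (nat_lit 4) (nat_lit 319) (nat_lit 263) (nat_lit 198))))))))
noncomputable def xc55 : XT := (XT.nd (nat_lit 1638) (nat_lit 76) (nat_lit 0) (XT.nd (nat_lit 780) (nat_lit 76) (nat_lit 0) (XT.nd (nat_lit 390) (nat_lit 76) (nat_lit 0) (XT.nd (nat_lit 156) (nat_lit 76) (nat_lit 0) (XT.nd (nat_lit 78) (nat_lit 0) (nat_lit 0) (XT.lf (nat_lit 0) (nat_lit 43983828566) (nat_lit 152) (nat_lit 67149720735) (nat_lit 0) (nat_lit 14301539399) (nat_lit 5) (nat_lit 5) (nat_lit 7) (nat_lit 4) (nat_lit 5) (nat_lit 4) (nat_lit 320) (nat_lit 263) (nat_lit 197)) (XT.lf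 (nat_lit 0) (nat_lit 59970521430) (nat_lit 152) (nat_lit 44475972328) (nat_lit 0) (nat_lit 30274463117) (nat_lit 5) (nat_lit 5) (nat_lit 7) (nat_lit 4) (nat_lit 5) (nat_lit 4) (nat_lit 321) (nat_lit 263) (nat_lit 196))) (XT.nd (nat_lit 78) (nat_lit 76) (nat_lit 0) (XT.lf (nat_lit 0) (nat_lit 77223114830) (nat_lit 152) (nat_lit 20012929433) (nat_lit 0) (nat_lit 47514307308) (nat_lit 5) (nat_lit 5) (nat_lit 7) (nat_lit 4) (nat_lit 5) (nat_lit 4) (nat_lit 322) (nat_lit 263) (nat_lit 195)) (XT.nd (nat_lit 78) (nat_lit 0) (nat_lit 0) (XT.lf (nat_lit 0) (nat_lit 6595470370) (nat_lit 76) (nat_lit 89351349763) (nat_lit 76) (nat_lit 59630737416) (nat_lit 4) (nat_lit 4) (nat_lit 5) (nat_lit 5) (nat_lit 5) (nat_lit 4) (nat_lit 323) (nat_lit 263) (nat_lit 194)) (XT.lf (nat_lit 0) (nat_lit 36025404760) (nat_lit 76) (nat_lit 80480113856) (nat_lit 76) (nat_lit 50748571117) (nat_lit 4) (nat_lit 4) (nat_lit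 5) (nat_lit 5) (nat_lit 5) (nat_lit 4) (nat_lit 324) (nat_lit 263) (nat_lit 193))))) (XT.nd (nat_lit 156) (nat_lit 76) (nat_lit 0) (XT.nd (nat_lit 78) (nat_lit 0) (nat_lit 0) (XT.lf (nat_lit 0) (nat_lit 67789555519) (nat_lit 76) (nat_lit 70908694898) (nat_lit 76) (nat_lit 41167031425) (nat_lit 4) (nat_lit 4) (nat_lit 5) (nat_lit 5) (nat_lit 5) (nat_lit 4) (nat_lit 325) (nat_lit 263) (nat_lit 192)) (XT.lf (nat_lit 0) (nat_lit 102076154652) (nat_lit 76) (nat_lit 60580373371) (nat_lit 76) (nat_lit 30829338849) (nat_lit 4) (nat_lit 4) (nat_lit 5) (nat_lit 5) (nat_lit 5) (nat_lit 4) (nat_lit 326) (nat_lit 263) (nat_lit 191))) (XT.nd (nat_lit 78) (nat_lit 76) (nat_lit 0) (XT.lf (nat_lit 0) (nat_lit 139088382005) (nat_lit 76) (nat_lit 49433944406) (nat_lit 76) (nat_lit 19674232986) (nat_lit 4) (nat_lit 4) (nat_lit 5) (nat_lit 5) (nat_lit 5) (nat_lit 4) (nat_lit 327) (nat_lit 263) (nat_lit 190))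 (XT.nd (nat_lit 78) (nat_lit 76) (nat_lit 0) (XT.lf (nat_lit 0) (nat_lit 179045569296) (nat_lit 76) (nat_lit 37403355091) (nat_lit 76) (nat_lit 7635609505) (nat_lit 4) (nat_lit 4) (nat_lit 5) (nat_lit 5) (nat_lit 5) (nat_lit 4) (nat_lit 328) (nat_lit 263) (nat_lit 189)) (XT.lf (nat_lit 0) (nat_lit 5186386231) (nat_lit 152) (nat_lit 19143092852) (nat_lit 76) (nat_lit 216910279666) (nat_lit 3) (nat_lit 5) (nat_lit 5) (nat_lit 5) (nat_lit 4) (nat_lit 4) (nat_lit 329) (nat_lit 263) (nat_lit 188)))))) (XT.nd (nat_lit 390) (nat_lit 0) (nat_lit 0) (XT.nd (nat_lit 156) (nat_lit 0) (nat_lit 0) (XT.nd (nat_lit 78) (nat_lit 0) (nat_lit 0) (XT.lf (nat_lit 0) (nat_lit 8968775357) (nat_lit 76) (nat_lit 9934077318) (nat_lit 152) (nat_lit 240851481680) (nat_lit 2) (nat_lit 5) (nat_lit 3) (nat_lit 5) (nat_lit 4) (nat_lit 4) (nat_lit 330) (nat_lit 263) (nat_lit 187)) (XT.lf (nat_lit 0) (nat_lit 34136057727)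 (nat_lit 152) (nat_lit 239826944795) (nat_lit 0) (nat_lit 5766104959) (nat_lit 2) (nat_lit 5) (nat_lit 4) (nat_lit 4) (nat_lit 2) (nat_lit 4) (nat_lit 331) (nat_lit 263) (nat_lit 186))) (XT.nd (nat_lit 78) (nat_lit 0) (nat_lit 0) (XT.lf (nat_lit 0) (nat_lit 50748815151) (nat_lit 152) (nat_lit 228171766617) (nat_lit 0) (nat_lit 22373238239) (nat_lit 2) (nat_lit 5) (nat_lit 4) (nat_lit 4) (nat_lit 2) (nat_lit 4) (nat_lit 332) (nat_lit 263) (nat_lit 185)) (XT.nd (nat_lit 78) (nat_lit 0) (nat_lit 0) (XT.lf (nat_lit 0) (nat_lit 68684472130) (nat_lit 152) (nat_lit 215595857954) (nat_lit 0) (nat_lit 40303687677) (nat_lit 2) (nat_lit 5) (nat_lit 4) (nat_lit 4) (nat_lit 2) (nat_lit 4) (nat_lit 333) (nat_lit 263) (nat_lit 184)) (XT.lf (nat_lit 0) (nat_lit 88049314038) (nat_lit 152) (nat_lit 202024694904) (nat_lit 0) (nat_lit 59663707788) (nat_lit 2) (nat_lit 5) (nat_lit 4) (nat_lit 4) (nat_lit 2)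 (nat_lit 4) (nat_lit 334) (nat_lit 263) (nat_lit 183))))) (XT.nd (nat_lit 234) (nat_lit 0) (nat_lit 0) (XT.nd (nat_lit 78) (nat_lit 0) (nat_lit 0) (XT.lf (nat_lit 0) (nat_lit 108958095494) (nat_lit 152) (nat_lit 187377855759) (nat_lit 0) (nat_lit 80568024618) (nat_lit 2) (nat_lit 5) (nat_lit 4) (nat_lit 4) (nat_lit 2) (nat_lit 4) (nat_lit 335) (nat_lit 263) (nat_lit 182)) (XT.nd (nat_lit 78) (nat_lit 0) (nat_lit 0) (XT.lf (nat_lit 0) (nat_lit 131534720389) (nat_lit 152) (nat_lit 171568544435) (nat_lit 0) (nat_lit 103140515599) (nat_lit 2) (nat_lit 5) (nat_lit 4) (nat_lit 4) (nat_lit 2) (nat_lit 4) (nat_lit 336) (nat_lit 263) (nat_lit 181)) (XT.lf (nat_lit 0) (nat_lit 155912976128) (nat_lit 152) (nat_lit 154503076126) (nat_lit 0) (nat_lit 127514943640) (nat_lit 2) (nat_lit 5) (nat_lit 4) (nat_lit 4) (nat_lit 2) (nat_lit 4) (nat_lit 337) (nat_lit 263) (nat_lit 180)))) (XT.nd (nat_lit 78)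 (nat_lit 0) (nat_lit 0) (XT.lf (nat_lit 0) (nat_lit 182237326450) (nat_lit 152) (nat_lit 136080322129) (nat_lit 0) (nat_lit 153835749798) (nat_lit 2) (nat_lit 5) (nat_lit 4) (nat_lit 4) (nat_lit 2) (nat_lit 4) (nat_lit 338) (nat_lit 263) (nat_lit 179)) (XT.nd (nat_lit 78) (nat_lit 0) (nat_lit 0) (XT.lf (nat_lit 0) (nat_lit 210663767505) (nat_lit 152) (nat_lit 116191110569) (nat_lit 0) (nat_lit 182258909219) (nat_lit 2) (nat_lit 5) (nat_lit 4) (nat_lit 4) (nat_lit 2) (nat_lit 4) (nat_lit 339) (nat_lit 263) (nat_lit 178)) (XT.lf (nat_lit 0) (nat_lit 241360752276) (nat_lit 152) (nat_lit 94717579451) (nat_lit 0) (nat_lit 212952855441) (nat_lit 2) (nat_lit 5) (nat_lit 4) (nat_lit 4) (nat_lit 2) (nat_lit 4) (nat_lit 340) (nat_lit 263) (nat_lit 177))))))) (XT.nd (nat_lit 34866) (nat_lit 0) (nat_lit 5092) (XT.nd (nat_lit 390) (nat_lit 0) (nat_lit 0) (XT.nd (nat_lit 156) (nat_lit 76) (nat_lit 0)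 (XT.nd (nat_lit 78) (nat_lit 0) (nat_lit 0) (XT.lf (nat_lit 0) (nat_lit 274510188823) (nat_lit 152) (nat_lit 71532478222) (nat_lit 0) (nat_lit 246099478515) (nat_lit 2) (nat_lit 5) (nat_lit 4) (nat_lit 4) (nat_lit 2) (nat_lit 4) (nat_lit 341) (nat_lit 263) (nat_lit 176)) (XT.lf (nat_lit 0) (nat_lit 310308518249) (nat_lit 152) (nat_lit 46498413688) (nat_lit 0) (nat_lit 281895202874) (nat_lit 2) (nat_lit 5) (nat_lit 4) (nat_lit 4) (nat_lit 2) (nat_lit 4) (nat_lit 342) (nat_lit 263) (nat_lit 175))) (XT.nd (nat_lit 78) (nat_lit 76) (nat_lit 0) (XT.lf (nat_lit 0) (nat_lit 348967878804) (nat_lit 152) (nat_lit 19467035837) (nat_lit 0) (nat_lit 320552151330) (nat_lit 2) (nat_lit 5) (nat_lit 4) (nat_lit 4) (nat_lit 2) (nat_lit 4) (nat_lit 343) (nat_lit 263) (nat_lit 174)) (XT.nd (nat_lit 78) (nat_lit 0) (nat_lit 0) (XT.lf (nat_lit 0) (nat_lit 10043289249) (nat_lit 76) (nat_lit 380830877637) (nat_lit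 76) (nat_lit 352412916738) (nat_lit 1) (nat_lit 4) (nat_lit 2) (nat_lit 5) (nat_lit 2) (nat_lit 4) (nat_lit 344) (nat_lit 263) (nat_lit 173)) (XT.lf (nat_lit 0) (nat_lit 42604808716) (nat_lit 76) (nat_lit 393864746919) (nat_lit 76) (nat_lit 365444718035) (nat_lit 1) (nat_lit 4) (nat_lit 2) (nat_lit 5) (nat_lit 2) (nat_lit 4) (nat_lit 345) (nat_lit 263) (nat_lit 172))))) (XT.nd (nat_lit 34242) (nat_lit 0) (nat_lit 8740) (XT.nd (nat_lit 78) (nat_lit 0) (nat_lit 0) (XT.lf (nat_lit 0) (nat_lit 77766811594) (nat_lit 76) (nat_lit 407943443906) (nat_lit 76) (nat_lit 379521500219) (nat_lit 1) (nat_lit 4) (nat_lit 2) (nat_lit 5) (nat_lit 2) (nat_lit 4) (nat_lit 346) (nat_lit 263) (nat_lit 171)) (XT.lf (nat_lit 0) (nat_lit 115737665307) (nat_lit 76) (nat_lit 423150397911) (nat_lit 76) (nat_lit 394726681260) (nat_lit 1) (nat_lit 4) (nat_lit 2) (nat_lit 5) (nat_lit 2) (nat_lit 4) (nat_lit 347) (nat_lit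 263) (nat_lit 170))) (XT.nd (nat_lit 78) (nat_lit 456) (nat_lit 0) (XT.lf (nat_lit 0) (nat_lit 986089912) (nat_lit 0) (nat_lit 986089912) (nat_lit 380) (nat_lit 1483937759) (nat_lit 122) (nat_lit 5) (nat_lit 122) (nat_lit 3) (nat_lit 127) (nat_lit 3) (nat_lit 264) (nat_lit 264) (nat_lit 252)) (XT.nd (nat_lit 78) (nat_lit 456) (nat_lit 0) (XT.lf (nat_lit 76) (nat_lit 181261693) (nat_lit 0) (nat_lit 6721754899) (nat_lit 456) (nat_lit 138041879) (nat_lit 123) (nat_lit 5) (nat_lit 122) (nat_lit 5) (nat_lit 128) (nat_lit 5) (nat_lit 265) (nat_lit 264) (nat_lit 251)) (XT.lf (nat_lit 0) (nat_lit 2660397620) (nat_lit 456) (nat_lit 1539381060) (nat_lit 532) (nat_lit 2987076206) (nat_lit 116) (nat_lit 5) (nat_lit 122) (nat_lit 5) (nat_lit 123) (nat_lit 5) (nat_lit 266) (nat_lit 264) (nat_lit 250)))))) (XT.nd (nat_lit 390) (nat_lit 2660) (nat_lit 0) (XT.nd (nat_lit 156) (nat_lit 532) (nat_lit 0)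 (XT.nd (nat_lit 78) (nat_lit 456) (nat_lit 0) (XT.lf (nat_lit 76) (nat_lit 4178866269) (nat_lit 0) (nat_lit 1300337863) (nat_lit 532) (nat_lit 1875603780) (nat_lit 117) (nat_lit 5) (nat_lit 116) (nat_lit 5) (nat_lit 123) (nat_lit 5) (nat_lit 267) (nat_lit 264) (nat_lit 249)) (XT.lf (nat_lit 0) (nat_lit 806439156) (nat_lit 532) (nat_lit 4789645874) (nat_lit 608) (nat_lit 1947398330) (nat_lit 110) (nat_lit 5) (nat_lit 117) (nat_lit 5) (nat_lit 118) (nat_lit 5) (nat_lit 268) (nat_lit 264) (nat_lit 248))) (XT.nd (nat_lit 78) (nat_lit 532) (nat_lit 0) (XT.lf (nat_lit 76) (nat_lit 1347822596) (nat_lit 0) (nat_lit 2155619422) (nat_lit 608) (nat_lit 4249517088) (nat_lit 111) (nat_lit 5) (nat_lit 110) (nat_lit 5) (nat_lit 118) (nat_lit 5) (nat_lit 269) (nat_lit 264) (nat_lit 247)) (XT.nd (nat_lit 78) (nat_lit 608) (nat_lit 0) (XT.lf (nat_lit 0) (nat_lit 6307134645) (nat_lit 532) (nat_lit 26291964)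 (nat_lit 76) (nat_lit 1651728223) (nat_lit 111) (nat_lit 5) (nat_lit 118) (nat_lit 5) (nat_lit 112) (nat_lit 5) (nat_lit 270) (nat_lit 264) (nat_lit 246)) (XT.lf (nat_lit 0) (nat_lit 1004413702) (nat_lit 608) (nat_lit 1368637133) (nat_lit 76) (nat_lit 5865445707) (nat_lit 103) (nat_lit 5) (nat_lit 111) (nat_lit 5) (nat_lit 104) (nat_lit 5) (nat_lit 271) (nat_lit 264) (nat_lit 245))))) (XT.nd (nat_lit 234) (nat_lit 760) (nat_lit 0) (XT.nd (nat_lit 78) (nat_lit 1292) (nat_lit 0) (XT.lf (nat_lit 0) (nat_lit 3773711720) (nat_lit 684) (nat_lit 2744286897) (nat_lit 76) (nat_lit 1996593703) (nat_lit 95) (nat_lit 5) (nat_lit 104) (nat_lit 5) (nat_lit 96) (nat_lit 5) (nat_lit 272) (nat_lit 264) (nat_lit 244)) (XT.nd (nat_lit 78) (nat_lit 608) (nat_lit 0) (XT.lf (nat_lit 0) (nat_lit 4663679144) (nat_lit 684) (nat_lit 2057267762) (nat_lit 760) (nat_lit 2094393553) (nat_lit 86) (nat_lit 5) (nat_lit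 95) (nat_lit 5) (nat_lit 96) (nat_lit 5) (nat_lit 273) (nat_lit 264) (nat_lit 243)) (XT.lf (nat_lit 0) (nat_lit 715929689) (nat_lit 608) (nat_lit 5624422237) (nat_lit 76) (nat_lit 2800711004) (nat_lit 78) (nat_lit 5) (nat_lit 86) (nat_lit 5) (nat_lit 79) (nat_lit 5) (nat_lit 274) (nat_lit 264) (nat_lit 242)))) (XT.nd (nat_lit 78) (nat_lit 380) (nat_lit 0) (XT.lf (nat_lit 0) (nat_lit 2296405751) (nat_lit 380) (nat_lit 1363989130) (nat_lit 456) (nat_lit 5831910769) (nat_lit 73) (nat_lit 5) (nat_lit 78) (nat_lit 5) (nat_lit 79) (nat_lit 5) (nat_lit 275) (nat_lit 264) (nat_lit 241)) (XT.nd (nat_lit 78) (nat_lit 76) (nat_lit 0) (XT.lf (nat_lit 0) (nat_lit 988295132) (nat_lit 304) (nat_lit 5876943036) (nat_lit 380) (nat_lit 3005459166) (nat_lit 69) (nat_lit 5) (nat_lit 73) (nat_lit 5) (nat_lit 74) (nat_lit 5) (nat_lit 276) (nat_lit 264) (nat_lit 240)) (XT.lf (nat_lit 0) (nat_lit 49446822) (nat_lit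 380) (nat_lit 376776245) (nat_lit 76) (nat_lit 9853164463) (nat_lit 68) (nat_lit 5) (nat_lit 73) (nat_lit 5) (nat_lit 69) (nat_lit 5) (nat_lit 277) (nat_lit 264) (nat_lit 239))))))))
noncomputable def xc56 : XT := (XT.nd (nat_lit 1560) (nat_lit 1216) (nat_lit 0) (XT.nd (nat_lit 780) (nat_lit 1064) (nat_lit 0) (XT.nd (nat_lit 390) (nat_lit 988) (nat_lit 0) (XT.nd (nat_lit 156) (nat_lit 836) (nat_lit 0) (XT.nd (nat_lit 78) (nat_lit 304) (nat_lit 0) (XT.lf (nat_lit 0) (nat_lit 3336140806) (nat_lit 380) (nat_lit 1913272852) (nat_lit 76) (nat_lit 5464498454) (nat_lit 64) (nat_lit 5) (nat_lit 69) (nat_lit 5) (nat_lit 65) (nat_lit 5) (nat_lit 278) (nat_lit 264) (nat_lit 238)) (XT.lf (nat_lit 0) (nat_lit 6902157640) (nat_lit 380) (nat_lit 3564901626) (nat_lit 76) (nat_lit 715539725) (nat_lit 60) (nat_lit 5) (nat_lit 65) (nat_lit 5) (nat_lit 61) (nat_lit 5) (nat_lit 279) (nat_lit 264) (nat_lit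 237))) (XT.nd (nat_lit 78) (nat_lit 532) (nat_lit 0) (XT.lf (nat_lit 0) (nat_lit 6254160026) (nat_lit 304) (nat_lit 4598096381) (nat_lit 380) (nat_lit 831787804) (nat_lit 56) (nat_lit 5) (nat_lit 60) (nat_lit 5) (nat_lit 61) (nat_lit 5) (nat_lit 280) (nat_lit 264) (nat_lit 236)) (XT.nd (nat_lit 78) (nat_lit 228) (nat_lit 0) (XT.lf (nat_lit 0) (nat_lit 2850146680) (nat_lit 304) (nat_lit 7530554883) (nat_lit 76) (nat_lit 1840325920) (nat_lit 52) (nat_lit 5) (nat_lit 56) (nat_lit 5) (nat_lit 53) (nat_lit 5) (nat_lit 281) (nat_lit 264) (nat_lit 235)) (XT.lf (nat_lit 0) (nat_lit 2871242816) (nat_lit 228) (nat_lit 4034560597) (nat_lit 304) (nat_lit 5889234842) (nat_lit 49) (nat_lit 5) (nat_lit 52) (nat_lit 5) (nat_lit 53) (nat_lit 5) (nat_lit 282) (nat_lit 264) (nat_lit 234))))) (XT.nd (nat_lit 156) (nat_lit 684) (nat_lit 0) (XT.nd (nat_lit 78) (nat_lit 76) (nat_lit 0) (XT.lf (nat_lit 0) (nat_lit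 800984005) (nat_lit 228) (nat_lit 10569675021) (nat_lit 304) (nat_lit 2040227338) (nat_lit 46) (nat_lit 5) (nat_lit 49) (nat_lit 5) (nat_lit 50) (nat_lit 5) (nat_lit 283) (nat_lit 264) (nat_lit 233)) (XT.lf (nat_lit 0) (nat_lit 2191443152) (nat_lit 304) (nat_lit 1574539062) (nat_lit 76) (nat_lit 10301378846) (nat_lit 45) (nat_lit 5) (nat_lit 49) (nat_lit 5) (nat_lit 46) (nat_lit 5) (nat_lit 284) (nat_lit 264) (nat_lit 232))) (XT.nd (nat_lit 78) (nat_lit 456) (nat_lit 0) (XT.lf (nat_lit 0) (nat_lit 6820149157) (nat_lit 304) (nat_lit 4314961317) (nat_lit 76) (nat_lit 3633197438) (nat_lit 42) (nat_lit 5) (nat_lit 46) (nat_lit 5) (nat_lit 43) (nat_lit 5) (nat_lit 285) (nat_lit 264) (nat_lit 231)) (XT.nd (nat_lit 78) (nat_lit 304) (nat_lit 0) (XT.lf (nat_lit 0) (nat_lit 8039894683) (nat_lit 152) (nat_lit 3906839056) (nat_lit 228) (nat_lit 3572333941) (nat_lit 40) (nat_lit 5) (nat_lit 42) (nat_lit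 5) (nat_lit 43) (nat_lit 5) (nat_lit 286) (nat_lit 264) (nat_lit 230)) (XT.lf (nat_lit 0) (nat_lit 1251744857) (nat_lit 304) (nat_lit 11155844780) (nat_lit 76) (nat_lit 3914745163) (nat_lit 36) (nat_lit 5) (nat_lit 40) (nat_lit 5) (nat_lit 37) (nat_lit 5) (nat_lit 287) (nat_lit 264) (nat_lit 229)))))) (XT.nd (nat_lit 390) (nat_lit 380) (nat_lit 0) (XT.nd (nat_lit 156) (nat_lit 532) (nat_lit 0) (XT.nd (nat_lit 78) (nat_lit 0) (nat_lit 0) (XT.lf (nat_lit 0) (nat_lit 1709390387) (nat_lit 152) (nat_lit 4771606590) (nat_lit 228) (nat_lit 10698812896) (nat_lit 34) (nat_lit 5) (nat_lit 36) (nat_lit 5) (nat_lit 37) (nat_lit 5) (nat_lit 288) (nat_lit 264) (nat_lit 228)) (XT.lf (nat_lit 0) (nat_lit 12301698051) (nat_lit 228) (nat_lit 2273933774) (nat_lit 76) (nat_lit 3521683594) (nat_lit 34) (nat_lit 5) (nat_lit 37) (nat_lit 5) (nat_lit 35) (nat_lit 5) (nat_lit 289) (nat_lit 264) (nat_lit 227)))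 (XT.nd (nat_lit 78) (nat_lit 380) (nat_lit 0) (XT.lf (nat_lit 0) (nat_lit 12173994590) (nat_lit 152) (nat_lit 6611752678) (nat_lit 228) (nat_lit 292670930) (nat_lit 32) (nat_lit 5) (nat_lit 34) (nat_lit 5) (nat_lit 35) (nat_lit 5) (nat_lit 290) (nat_lit 264) (nat_lit 226)) (XT.nd (nat_lit 78) (nat_lit 152) (nat_lit 0) (XT.lf (nat_lit 0) (nat_lit 5595437884) (nat_lit 228) (nat_lit 12391746017) (nat_lit 76) (nat_lit 2140197145) (nat_lit 29) (nat_lit 5) (nat_lit 32) (nat_lit 5) (nat_lit 30) (nat_lit 5) (nat_lit 291) (nat_lit 264) (nat_lit 225)) (XT.lf (nat_lit 0) (nat_lit 2388355304) (nat_lit 152) (nat_lit 9759739131) (nat_lit 228) (nat_lit 9101805411) (nat_lit 27) (nat_lit 5) (nat_lit 29) (nat_lit 5) (nat_lit 30) (nat_lit 5) (nat_lit 292) (nat_lit 264) (nat_lit 224))))) (XT.nd (nat_lit 156) (nat_lit 228) (nat_lit 0) (XT.nd (nat_lit 78) (nat_lit 152) (nat_lit 0) (XT.lf (nat_lit 0) (nat_lit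 18689202793) (nat_lit 152) (nat_lit 687581625) (nat_lit 228) (nat_lit 3077906224) (nat_lit 27) (nat_lit 5) (nat_lit 29) (nat_lit 5) (nat_lit 30) (nat_lit 5) (nat_lit 293) (nat_lit 264) (nat_lit 223)) (XT.lf (nat_lit 0) (nat_lit 3603443774) (nat_lit 152) (nat_lit 11096285205) (nat_lit 76) (nat_lit 9039251364) (nat_lit 25) (nat_lit 5) (nat_lit 27) (nat_lit 5) (nat_lit 26) (nat_lit 5) (nat_lit 294) (nat_lit 264) (nat_lit 222))) (XT.nd (nat_lit 78) (nat_lit 76) (nat_lit 0) (XT.lf (nat_lit 0) (nat_lit 5386538718) (nat_lit 152) (nat_lit 5430832237) (nat_lit 228) (nat_lit 14300874436) (nat_lit 23) (nat_lit 5) (nat_lit 25) (nat_lit 5) (nat_lit 26) (nat_lit 5) (nat_lit 295) (nat_lit 264) (nat_lit 221)) (XT.nd (nat_lit 78) (nat_lit 76) (nat_lit 0) (XT.lf (nat_lit 0) (nat_lit 18820737197) (nat_lit 228) (nat_lit 3183202118) (nat_lit 76) (nat_lit 4593342607) (nat_lit 23) (nat_lit 5) (nat_lit 26) (nat_lit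 5) (nat_lit 24) (nat_lit 4) (nat_lit 296) (nat_lit 264) (nat_lit 220)) (XT.lf (nat_lit 0) (nat_lit 14989802651) (nat_lit 76) (nat_lit 12748663745) (nat_lit 152) (nat_lit 442513373) (nat_lit 22) (nat_lit 5) (nat_lit 23) (nat_lit 5) (nat_lit 24) (nat_lit 4) (nat_lit 297) (nat_lit 264) (nat_lit 219))))))) (XT.nd (nat_lit 780) (nat_lit 456) (nat_lit 0) (XT.nd (nat_lit 390) (nat_lit 228) (nat_lit 0) (XT.nd (nat_lit 156) (nat_lit 304) (nat_lit 0) (XT.nd (nat_lit 78) (nat_lit 0) (nat_lit 0) (XT.lf (nat_lit 0) (nat_lit 4791971663) (nat_lit 152) (nat_lit 2528245895) (nat_lit 228) (nat_lit 22561289685) (nat_lit 19) (nat_lit 5) (nat_lit 21) (nat_lit 5) (nat_lit 22) (nat_lit 5) (nat_lit 298) (nat_lit 264) (nat_lit 218)) (XT.lf (nat_lit 0) (nat_lit 16007114876) (nat_lit 228) (nat_lit 7249464529) (nat_lit 76) (nat_lit 8445237397) (nat_lit 19) (nat_lit 5) (nat_lit 22) (nat_lit 5) (nat_lit 20) (nat_lit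 4) (nat_lit 299) (nat_lit 264) (nat_lit 217))) (XT.nd (nat_lit 78) (nat_lit 228) (nat_lit 0) (XT.lf (nat_lit 0) (nat_lit 12291157263) (nat_lit 76) (nat_lit 13287923577) (nat_lit 152) (nat_lit 8079197009) (nat_lit 18) (nat_lit 5) (nat_lit 19) (nat_lit 5) (nat_lit 20) (nat_lit 4) (nat_lit 300) (nat_lit 264) (nat_lit 216)) (XT.nd (nat_lit 78) (nat_lit 152) (nat_lit 0) (XT.lf (nat_lit 0) (nat_lit 226239030) (nat_lit 152) (nat_lit 2190883451) (nat_lit 76) (nat_lit 33349780938) (nat_lit 17) (nat_lit 5) (nat_lit 19) (nat_lit 5) (nat_lit 18) (nat_lit 5) (nat_lit 301) (nat_lit 264) (nat_lit 215)) (XT.lf (nat_lit 0) (nat_lit 9324566903) (nat_lit 228) (nat_lit 19257992975) (nat_lit 76) (nat_lit 9434487823) (nat_lit 15) (nat_lit 5) (nat_lit 18) (nat_lit 5) (nat_lit 16) (nat_lit 4) (nat_lit 302) (nat_lit 264) (nat_lit 214))))) (XT.nd (nat_lit 156) (nat_lit 152) (nat_lit 0) (XT.nd (nat_lit 78) (nat_lit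 0) (nat_lit 0) (XT.lf (nat_lit 0) (nat_lit 938234131) (nat_lit 76) (nat_lit 18268358332) (nat_lit 152) (nat_lit 21237844112) (nat_lit 14) (nat_lit 5) (nat_lit 15) (nat_lit 5) (nat_lit 16) (nat_lit 4) (nat_lit 303) (nat_lit 264) (nat_lit 213)) (XT.lf (nat_lit 0) (nat_lit 23372485287) (nat_lit 76) (nat_lit 6805614195) (nat_lit 152) (nat_lit 12872993905) (nat_lit 14) (nat_lit 5) (nat_lit 15) (nat_lit 5) (nat_lit 16) (nat_lit 4) (nat_lit 304) (nat_lit 264) (nat_lit 212))) (XT.nd (nat_lit 78) (nat_lit 76) (nat_lit 0) (XT.lf (nat_lit 0) (nat_lit 1638792606) (nat_lit 76) (nat_lit 40466896389) (nat_lit 76) (nat_lit 3756696761) (nat_lit 13) (nat_lit 4) (nat_lit 14) (nat_lit 5) (nat_lit 14) (nat_lit 4) (nat_lit 305) (nat_lit 264) (nat_lit 211)) (XT.nd (nat_lit 78) (nat_lit 0) (nat_lit 0) (XT.lf (nat_lit 0) (nat_lit 6323992042) (nat_lit 152) (nat_lit 23792833363) (nat_lit 76) (nat_lit 18755522940)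 (nat_lit 12) (nat_lit 5) (nat_lit 14) (nat_lit 5) (nat_lit 13) (nat_lit 4) (nat_lit 306) (nat_lit 264) (nat_lit 210)) (XT.lf (nat_lit 0) (nat_lit 17050545484) (nat_lit 152) (nat_lit 1846748272) (nat_lit 76) (nat_lit 33224200867) (nat_lit 12) (nat_lit 5) (nat_lit 14) (nat_lit 5) (nat_lit 13) (nat_lit 4) (nat_lit 307) (nat_lit 264) (nat_lit 209)))))) (XT.nd (nat_lit 390) (nat_lit 228) (nat_lit 0) (XT.nd (nat_lit 156) (nat_lit 152) (nat_lit 0) (XT.nd (nat_lit 78) (nat_lit 0) (nat_lit 0) (XT.lf (nat_lit 0) (nat_lit 22524283293) (nat_lit 76) (nat_lit 6434149975) (nat_lit 152) (nat_lit 26655994791) (nat_lit 11) (nat_lit 5) (nat_lit 12) (nat_lit 5) (nat_lit 13) (nat_lit 4) (nat_lit 308) (nat_lit 264) (nat_lit 208)) (XT.lf (nat_lit 0) (nat_lit 41933876154) (nat_lit 152) (nat_lit 10634902996) (nat_lit 0) (nat_lit 6812285594) (nat_lit 11) (nat_lit 5) (nat_lit 13) (nat_lit 4) (nat_lit 11) (nat_lit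 4) (nat_lit 309) (nat_lit 264) (nat_lit 207))) (XT.nd (nat_lit 78) (nat_lit 76) (nat_lit 0) (XT.lf (nat_lit 0) (nat_lit 13906666940) (nat_lit 76) (nat_lit 42340867107) (nat_lit 76) (nat_lit 7186503020) (nat_lit 10) (nat_lit 4) (nat_lit 11) (nat_lit 5) (nat_lit 11) (nat_lit 4) (nat_lit 310) (nat_lit 264) (nat_lit 206)) (XT.nd (nat_lit 78) (nat_lit 0) (nat_lit 0) (XT.lf (nat_lit 0) (nat_lit 3934004778) (nat_lit 152) (nat_lit 27120000148) (nat_lit 76) (nat_lit 36746032048) (nat_lit 9) (nat_lit 5) (nat_lit 11) (nat_lit 5) (nat_lit 10) (nat_lit 4) (nat_lit 311) (nat_lit 264) (nat_lit 205)) (XT.lf (nat_lit 0) (nat_lit 15672908464) (nat_lit 152) (nat_lit 3083345609) (nat_lit 76) (nat_lit 53754156631) (nat_lit 9) (nat_lit 5) (nat_lit 11) (nat_lit 5) (nat_lit 10) (nat_lit 4) (nat_lit 312) (nat_lit 264) (nat_lit 204))))) (XT.nd (nat_lit 234) (nat_lit 152) (nat_lit 0) (XT.nd (nat_lit 78) (nat_lit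 0) (nat_lit 0) (XT.lf (nat_lit 0) (nat_lit 23592336477) (nat_lit 76) (nat_lit 5105790898) (nat_lit 152) (nat_lit 48882137154) (nat_lit 8) (nat_lit 5) (nat_lit 9) (nat_lit 5) (nat_lit 10) (nat_lit 4) (nat_lit 313) (nat_lit 264) (nat_lit 203)) (XT.nd (nat_lit 78) (nat_lit 0) (nat_lit 0) (XT.lf (nat_lit 0) (nat_lit 42949986170) (nat_lit 152) (nat_lit 30730240555) (nat_lit 0) (nat_lit 9366258396) (nat_lit 8) (nat_lit 5) (nat_lit 10) (nat_lit 4) (nat_lit 8) (nat_lit 4) (nat_lit 314) (nat_lit 264) (nat_lit 202)) (XT.lf (nat_lit 0) (nat_lit 58409175471) (nat_lit 152) (nat_lit 5733272934) (nat_lit 0) (nat_lit 24804204733) (nat_lit 8) (nat_lit 5) (nat_lit 10) (nat_lit 4) (nat_lit 8) (nat_lit 4) (nat_lit 315) (nat_lit 264) (nat_lit 201)))) (XT.nd (nat_lit 78) (nat_lit 76) (nat_lit 0) (XT.lf (nat_lit 0) (nat_lit 21932807506) (nat_lit 76) (nat_lit 53497214669) (nat_lit 76) (nat_lit 19872574521) (nat_lit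 7) (nat_lit 4) (nat_lit 8) (nat_lit 5) (nat_lit 8) (nat_lit 4) (nat_lit 316) (nat_lit 264) (nat_lit 200)) (XT.nd (nat_lit 78) (nat_lit 76) (nat_lit 0) (XT.lf (nat_lit 0) (nat_lit 51985694429) (nat_lit 76) (nat_lit 41910011506) (nat_lit 76) (nat_lit 8267158941) (nat_lit 7) (nat_lit 4) (nat_lit 8) (nat_lit 5) (nat_lit 8) (nat_lit 4) (nat_lit 317) (nat_lit 264) (nat_lit 199)) (XT.lf (nat_lit 0) (nat_lit 4114405331) (nat_lit 152) (nat_lit 25225184985) (nat_lit 76) (nat_lit 80229826342) (nat_lit 6) (nat_lit 5) (nat_lit 8) (nat_lit 5) (nat_lit 7) (nat_lit 4) (nat_lit 318) (nat_lit 264) (nat_lit 198))))))))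
noncomputable def xc57 : XT := (XT.nd (nat_lit 1638) (nat_lit 76) (nat_lit 0) (XT.nd (nat_lit 780) (nat_lit 152) (nat_lit 0) (XT.nd (nat_lit 390) (nat_lit 76) (nat_lit 0) (XT.nd (nat_lit 156) (nat_lit 0) (nat_lit 0) (XT.nd (nat_lit 78) (nat_lit 0) (nat_lit 0) (XT.lf (nat_lit 0) (nat_lit 1607770659) (nat_lit 76) (nat_lit 15603498016) (nat_lit 152) (nat_lit 100349733010) (nat_lit 5) (nat_lit 5) (nat_lit 6) (nat_lit 5) (nat_lit 7) (nat_lit 4) (nat_lit 319) (nat_lit 264) (nat_lit 197)) (XT.lf (nat_lit 0) (nat_lit 31462082181) (nat_lit 76) (nat_lit 319317775) (nat_lit 152) (nat_lit 94389243363) (nat_lit 5) (nat_lit 5) (nat_lit 6) (nat_lit 5) (nat_lit 7) (nat_lit 4) (nat_lit 320) (nat_lit 264) (nat_lit 196))) (XT.nd (nat_lit 78) (nat_lit 0) (nat_lit 0) (XT.lf (nat_lit 0) (nat_lit 47756840600) (nat_lit 152) (nat_lit 72041656798) (nat_lit 0) (nat_lit 15658579266) (nat_lit 5) (nat_lit 5) (nat_lit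 7) (nat_lit 4) (nat_lit 5) (nat_lit 4) (nat_lit 321) (nat_lit 264) (nat_lit 195)) (XT.nd (nat_lit 78) (nat_lit 0) (nat_lit 0) (XT.lf (nat_lit 0) (nat_lit 65003631431) (nat_lit 152) (nat_lit 47589567155) (nat_lit 0) (nat_lit 32893565273) (nat_lit 5) (nat_lit 5) (nat_lit 7) (nat_lit 4) (nat_lit 5) (nat_lit 4) (nat_lit 322) (nat_lit 264) (nat_lit 194)) (XT.lf (nat_lit 0) (nat_lit 83618990208) (nat_lit 152) (nat_lit 21202405493) (nat_lit 0) (nat_lit 51497993657) (nat_lit 5) (nat_lit 5) (nat_lit 7) (nat_lit 4) (nat_lit 5) (nat_lit 4) (nat_lit 323) (nat_lit 264) (nat_lit 193))))) (XT.nd (nat_lit 156) (nat_lit 0) (nat_lit 0) (XT.nd (nat_lit 78) (nat_lit 0) (nat_lit 0) (XT.lf (nat_lit 0) (nat_lit 7516780473) (nat_lit 76) (nat_lit 96313807705) (nat_lit 76) (nat_lit 64182690420) (nat_lit 4) (nat_lit 4) (nat_lit 5) (nat_lit 5) (nat_lit 5) (nat_lit 4) (nat_lit 324) (nat_lit 264) (nat_lit 192)) (XT.lf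 (nat_lit 0) (nat_lit 39271948690) (nat_lit 76) (nat_lit 86746624780) (nat_lit 76) (nat_lit 54606136445) (nat_lit 4) (nat_lit 4) (nat_lit 5) (nat_lit 5) (nat_lit 5) (nat_lit 4) (nat_lit 325) (nat_lit 264) (nat_lit 191))) (XT.nd (nat_lit 78) (nat_lit 0) (nat_lit 0) (XT.lf (nat_lit 0) (nat_lit 73550230654) (nat_lit 76) (nat_lit 76422225504) (nat_lit 76) (nat_lit 44273060272) (nat_lit 4) (nat_lit 4) (nat_lit 5) (nat_lit 5) (nat_lit 5) (nat_lit 4) (nat_lit 326) (nat_lit 264) (nat_lit 190)) (XT.nd (nat_lit 78) (nat_lit 0) (nat_lit 0) (XT.lf (nat_lit 0) (nat_lit 110554756926) (nat_lit 76) (nat_lit 65279428254) (nat_lit 76) (nat_lit 33122228857) (nat_lit 4) (nat_lit 4) (nat_lit 5) (nat_lit 5) (nat_lit 5) (nat_lit 4) (nat_lit 327) (nat_lit 264) (nat_lit 189)) (XT.lf (nat_lit 0) (nat_lit 150504813585) (nat_lit 76) (nat_lit 53252201638) (nat_lit 76) (nat_lit 21087563199) (nat_lit 4) (nat_lit 4) (nat_lit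 5) (nat_lit 5) (nat_lit 5) (nat_lit 4) (nat_lit 328) (nat_lit 264) (nat_lit 188)))))) (XT.nd (nat_lit 390) (nat_lit 0) (nat_lit 0) (XT.nd (nat_lit 156) (nat_lit 76) (nat_lit 0) (XT.nd (nat_lit 78) (nat_lit 76) (nat_lit 0) (XT.lf (nat_lit 0) (nat_lit 193637141710) (nat_lit 76) (nat_lit 40269273201) (nat_lit 76) (nat_lit 8097746761) (nat_lit 4) (nat_lit 4) (nat_lit 5) (nat_lit 5) (nat_lit 5) (nat_lit 4) (nat_lit 329) (nat_lit 264) (nat_lit 187)) (XT.lf (nat_lit 0) (nat_lit 5734585841) (nat_lit 152) (nat_lit 20422003244) (nat_lit 76) (nat_lit 234375636454) (nat_lit 3) (nat_lit 5) (nat_lit 5) (nat_lit 5) (nat_lit 4) (nat_lit 4) (nat_lit 330) (nat_lit 264) (nat_lit 186))) (XT.nd (nat_lit 78) (nat_lit 0) (nat_lit 0) (XT.lf (nat_lit 0) (nat_lit 9927839469) (nat_lit 76) (nat_lit 10614428354) (nat_lit 152) (nat_lit 259986008124) (nat_lit 2) (nat_lit 5) (nat_lit 3) (nat_lit 5) (nat_lit 4) (nat_lit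 4) (nat_lit 331) (nat_lit 264) (nat_lit 185)) (XT.nd (nat_lit 78) (nat_lit 0) (nat_lit 0) (XT.lf (nat_lit 0) (nat_lit 36986361467) (nat_lit 152) (nat_lit 258785154524) (nat_lit 0) (nat_lit 6329906717) (nat_lit 2) (nat_lit 5) (nat_lit 4) (nat_lit 4) (nat_lit 2) (nat_lit 4) (nat_lit 332) (nat_lit 264) (nat_lit 184)) (XT.lf (nat_lit 0) (nat_lit 54919293624) (nat_lit 152) (nat_lit 246214446969) (nat_lit 0) (nat_lit 24258017077) (nat_lit 2) (nat_lit 5) (nat_lit 4) (nat_lit 4) (nat_lit 2) (nat_lit 4) (nat_lit 333) (nat_lit 264) (nat_lit 183))))) (XT.nd (nat_lit 234) (nat_lit 0) (nat_lit 0) (XT.nd (nat_lit 78) (nat_lit 0) (nat_lit 0) (XT.lf (nat_lit 0) (nat_lit 74281612549) (nat_lit 152) (nat_lit 232648099760) (nat_lit 0) (nat_lit 43615871376) (nat_lit 2) (nat_lit 5) (nat_lit 4) (nat_lit 4) (nat_lit 2) (nat_lit 4) (nat_lit 334) (nat_lit 264) (nat_lit 182)) (XT.nd (nat_lit 78) (nat_lit 0) (nat_lit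 0) (XT.lf (nat_lit 0) (nat_lit 95188057910) (nat_lit 152) (nat_lit 218005719727) (nat_lit 0) (nat_lit 64518182823) (nat_lit 2) (nat_lit 5) (nat_lit 4) (nat_lit 4) (nat_lit 2) (nat_lit 4) (nat_lit 335) (nat_lit 264) (nat_lit 181)) (XT.lf (nat_lit 0) (nat_lit 117762519753) (nat_lit 152) (nat_lit 202200537211) (nat_lit 0) (nat_lit 87088816969) (nat_lit 2) (nat_lit 5) (nat_lit 4) (nat_lit 4) (nat_lit 2) (nat_lit 4) (nat_lit 336) (nat_lit 264) (nat_lit 180)))) (XT.nd (nat_lit 78) (nat_lit 0) (nat_lit 0) (XT.lf (nat_lit 0) (nat_lit 142138772667) (nat_lit 152) (nat_lit 185138891872) (nat_lit 0) (nat_lit 111461525718) (nat_lit 2) (nat_lit 5) (nat_lit 4) (nat_lit 4) (nat_lit 2) (nat_lit 4) (nat_lit 337) (nat_lit 264) (nat_lit 179)) (XT.nd (nat_lit 78) (nat_lit 0) (nat_lit 0) (XT.lf (nat_lit 0) (nat_lit 168461268521) (nat_lit 152) (nat_lit 166719677661) (nat_lit 0) (nat_lit 137780739939) (nat_lit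 2) (nat_lit 5) (nat_lit 4) (nat_lit 4) (nat_lit 2) (nat_lit 4) (nat_lit 338) (nat_lit 264) (nat_lit 178)) (XT.lf (nat_lit 0) (nat_lit 196885992476) (nat_lit 152) (nat_lit 146833743682) (nat_lit 0) (nat_lit 166202425344) (nat_lit 2) (nat_lit 5) (nat_lit 4) (nat_lit 4) (nat_lit 2) (nat_lit 4) (nat_lit 339) (nat_lit 264) (nat_lit 177))))))) (XT.nd (nat_lit 34944) (nat_lit 0) (nat_lit 5168) (XT.nd (nat_lit 390) (nat_lit 76) (nat_lit 0) (XT.nd (nat_lit 156) (nat_lit 0) (nat_lit 0) (XT.nd (nat_lit 78) (nat_lit 0) (nat_lit 0) (XT.lf (nat_lit 0) (nat_lit 227581387341) (nat_lit 152) (nat_lit 125363247361) (nat_lit 0) (nat_lit 196895006736) (nat_lit 2) (nat_lit 5) (nat_lit 4) (nat_lit 4) (nat_lit 2) (nat_lit 4) (nat_lit 340) (nat_lit 264) (nat_lit 176)) (XT.lf (nat_lit 0) (nat_lit 260729351751) (nat_lit 152) (nat_lit 102180956129) (nat_lit 0) (nat_lit 230040366079) (nat_lit 2) (nat_lit 5) (nat_lit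 4) (nat_lit 4) (nat_lit 2) (nat_lit 4) (nat_lit 341) (nat_lit 264) (nat_lit 175))) (XT.nd (nat_lit 78) (nat_lit 0) (nat_lit 0) (XT.lf (nat_lit 0) (nat_lit 296526318088) (nat_lit 152) (nat_lit 77149493444) (nat_lit 0) (nat_lit 265834920317) (nat_lit 2) (nat_lit 5) (nat_lit 4) (nat_lit 4) (nat_lit 2) (nat_lit 4) (nat_lit 342) (nat_lit 264) (nat_lit 174)) (XT.nd (nat_lit 78) (nat_lit 0) (nat_lit 0) (XT.lf (nat_lit 0) (nat_lit 335184416523) (nat_lit 152) (nat_lit 50120524713) (nat_lit 0) (nat_lit 304490785328) (nat_lit 2) (nat_lit 5) (nat_lit 4) (nat_lit 4) (nat_lit 2) (nat_lit 4) (nat_lit 343) (nat_lit 264) (nat_lit 173)) (XT.lf (nat_lit 0) (nat_lit 376932732085) (nat_lit 152) (nat_lit 20933878269) (nat_lit 0) (nat_lit 346237032903) (nat_lit 2) (nat_lit 5) (nat_lit 4) (nat_lit 4) (nat_lit 2) (nat_lit 4) (nat_lit 344) (nat_lit 264) (nat_lit 172))))) (XT.nd (nat_lit 156) (nat_lit 0) (nat_lit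 0) (XT.nd (nat_lit 78) (nat_lit 0) (nat_lit 0) (XT.lf (nat_lit 0) (nat_lit 10933338917) (nat_lit 76) (nat_lit 411256023341) (nat_lit 76) (nat_lit 380558409358) (nat_lit 1) (nat_lit 4) (nat_lit 2) (nat_lit 5) (nat_lit 2) (nat_lit 4) (nat_lit 345) (nat_lit 264) (nat_lit 171)) (XT.lf (nat_lit 0) (nat_lit 46093366124) (nat_lit 76) (nat_lit 425335663241) (nat_lit 76) (nat_lit 394636276294) (nat_lit 1) (nat_lit 4) (nat_lit 2) (nat_lit 5) (nat_lit 2) (nat_lit 4) (nat_lit 346) (nat_lit 264) (nat_lit 170))) (XT.nd (nat_lit 34242) (nat_lit 0) (nat_lit 8664) (XT.lf (nat_lit 0) (nat_lit 84062390512) (nat_lit 76) (nat_lit 440543490315) (nat_lit 76) (nat_lit 409842461733) (nat_lit 1) (nat_lit 4) (nat_lit 2) (nat_lit 5) (nat_lit 2) (nat_lit 4) (nat_lit 347) (nat_lit 264) (nat_lit 169)) (XT.nd (nat_lit 78) (nat_lit 0) (nat_lit 0) (XT.lf (nat_lit 0) (nat_lit 1226305252) (nat_lit 532) (nat_lit 1180792615)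 (nat_lit 532) (nat_lit 1180792615) (nat_lit 115) (nat_lit 3) (nat_lit 122) (nat_lit 3) (nat_lit 122) (nat_lit 5) (nat_lit 265) (nat_lit 265) (nat_lit 250)) (XT.lf (nat_lit 76) (nat_lit 3000580703) (nat_lit 0) (nat_lit 2037064173) (nat_lit 532) (nat_lit 2294597387) (nat_lit 116) (nat_lit 5) (nat_lit 115) (nat_lit 3) (nat_lit 122) (nat_lit 5) (nat_lit 266) (nat_lit 265) (nat_lit 249)))))) (XT.nd (nat_lit 390) (nat_lit 2584) (nat_lit 0) (XT.nd (nat_lit 156) (nat_lit 456) (nat_lit 0) (XT.nd (nat_lit 78) (nat_lit 0) (nat_lit 0) (XT.lf (nat_lit 0) (nat_lit 146383545) (nat_lit 532) (nat_lit 6258711772) (nat_lit 608) (nat_lit 1105030466) (nat_lit 109) (nat_lit 5) (nat_lit 116) (nat_lit 5) (nat_lit 117) (nat_lit 5) (nat_lit 267) (nat_lit 265) (nat_lit 248)) (XT.lf (nat_lit 0) (nat_lit 2581539874) (nat_lit 532) (nat_lit 486195800) (nat_lit 608) (nat_lit 4639208138) (nat_lit 109) (nat_lit 5) (nat_lit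 116) (nat_lit 5) (nat_lit 117) (nat_lit 5) (nat_lit 268) (nat_lit 265) (nat_lit 247))) (XT.nd (nat_lit 78) (nat_lit 532) (nat_lit 0) (XT.lf (nat_lit 0) (nat_lit 5097480146) (nat_lit 532) (nat_lit 2141942194) (nat_lit 608) (nat_lit 686294770) (nat_lit 110) (nat_lit 5) (nat_lit 117) (nat_lit 5) (nat_lit 118) (nat_lit 5) (nat_lit 269) (nat_lit 265) (nat_lit 246)) (XT.nd (nat_lit 78) (nat_lit 532) (nat_lit 0) (XT.lf (nat_lit 76) (nat_lit 4354805605) (nat_lit 0) (nat_lit 3387625611) (nat_lit 608) (nat_lit 423645014) (nat_lit 111) (nat_lit 5) (nat_lit 110) (nat_lit 5) (nat_lit 118) (nat_lit 5) (nat_lit 270) (nat_lit 265) (nat_lit 245)) (XT.lf (nat_lit 0) (nat_lit 2010906651) (nat_lit 608) (nat_lit 5505309367) (nat_lit 76) (nat_lit 912808998) (nat_lit 103) (nat_lit 5) (nat_lit 111) (nat_lit 5) (nat_lit 104) (nat_lit 5) (nat_lit 271) (nat_lit 265) (nat_lit 244))))) (XT.nd (nat_lit 234) (nat_lit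 1216) (nat_lit 0) (XT.nd (nat_lit 78) (nat_lit 760) (nat_lit 0) (XT.lf (nat_lit 0) (nat_lit 1457132341) (nat_lit 608) (nat_lit 3137079059) (nat_lit 684) (nat_lit 4120393849) (nat_lit 95) (nat_lit 5) (nat_lit 103) (nat_lit 5) (nat_lit 104) (nat_lit 5) (nat_lit 272) (nat_lit 265) (nat_lit 243)) (XT.nd (nat_lit 78) (nat_lit 760) (nat_lit 0) (XT.lf (nat_lit 0) (nat_lit 7339230497) (nat_lit 684) (nat_lit 22282736) (nat_lit 76) (nat_lit 1664122061) (nat_lit 95) (nat_lit 5) (nat_lit 104) (nat_lit 5) (nat_lit 96) (nat_lit 5) (nat_lit 273) (nat_lit 265) (nat_lit 242)) (XT.lf (nat_lit 0) (nat_lit 932735599) (nat_lit 760) (nat_lit 1525408183) (nat_lit 76) (nat_lit 6901952607) (nat_lit 85) (nat_lit 5) (nat_lit 95) (nat_lit 5) (nat_lit 86) (nat_lit 5) (nat_lit 274) (nat_lit 265) (nat_lit 241)))) (XT.nd (nat_lit 78) (nat_lit 684) (nat_lit 0) (XT.lf (nat_lit 0) (nat_lit 3705697750) (nat_lit 608) (nat_lit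 3123771911) (nat_lit 76) (nat_lit 2890584307) (nat_lit 78) (nat_lit 5) (nat_lit 86) (nat_lit 5) (nat_lit 79) (nat_lit 5) (nat_lit 275) (nat_lit 265) (nat_lit 240)) (XT.nd (nat_lit 78) (nat_lit 304) (nat_lit 0) (XT.lf (nat_lit 0) (nat_lit 5302492657) (nat_lit 380) (nat_lit 1410070920) (nat_lit 456) (nat_lit 3395910306) (nat_lit 73) (nat_lit 5) (nat_lit 78) (nat_lit 5) (nat_lit 79) (nat_lit 5) (nat_lit 276) (nat_lit 265) (nat_lit 239)) (XT.lf (nat_lit 0) (nat_lit 3903127034) (nat_lit 304) (nat_lit 6111457529) (nat_lit 380) (nat_lit 510901669) (nat_lit 69) (nat_lit 5) (nat_lit 73) (nat_lit 5) (nat_lit 74) (nat_lit 5) (nat_lit 277) (nat_lit 265) (nat_lit 238))))))))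
noncomputable def xc58 : XT := (XT.nd (nat_lit 1560) (nat_lit 1216) (nat_lit 0) (XT.nd (nat_lit 780) (nat_lit 1292) (nat_lit 0) (XT.nd (nat_lit 390) (nat_lit 912) (nat_lit 0) (XT.nd (nat_lit 156) (nat_lit 608) (nat_lit 0) (XT.nd (nat_lit 78) (nat_lit 304) (nat_lit 0) (XT.lf (nat_lit 0) (nat_lit 2380316898) (nat_lit 304) (nat_lit 161598472) (nat_lit 380) (nat_lit 8431111348) (nat_lit 64) (nat_lit 5) (nat_lit 68) (nat_lit 5) (nat_lit 69) (nat_lit 5) (nat_lit 278) (nat_lit 265) (nat_lit 237)) (XT.lf (nat_lit 0) (nat_lit 663186127) (nat_lit 304) (nat_lit 5264873738) (nat_lit 380) (nat_lit 5522745147) (nat_lit 60) (nat_lit 5) (nat_lit 64) (nat_lit 5) (nat_lit 65) (nat_lit 5) (nat_lit 279) (nat_lit 265) (nat_lit 236))) (XT.nd (nat_lit 78) (nat_lit 608) (nat_lit 0) (XT.lf (nat_lit 0) (nat_lit 9644346366) (nat_lit 380) (nat_lit 1152993752) (nat_lit 76) (nat_lit 1166691283) (nat_lit 60) (nat_lit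 5) (nat_lit 65) (nat_lit 5) (nat_lit 61) (nat_lit 5) (nat_lit 280) (nat_lit 265) (nat_lit 235)) (XT.nd (nat_lit 78) (nat_lit 228) (nat_lit 0) (XT.lf (nat_lit 0) (nat_lit 1235689758) (nat_lit 380) (nat_lit 3197511975) (nat_lit 76) (nat_lit 8077763390) (nat_lit 55) (nat_lit 5) (nat_lit 60) (nat_lit 5) (nat_lit 56) (nat_lit 5) (nat_lit 281) (nat_lit 265) (nat_lit 234)) (XT.lf (nat_lit 0) (nat_lit 5075661579) (nat_lit 304) (nat_lit 5501662949) (nat_lit 76) (nat_lit 2518509552) (nat_lit 52) (nat_lit 5) (nat_lit 56) (nat_lit 5) (nat_lit 53) (nat_lit 5) (nat_lit 282) (nat_lit 265) (nat_lit 233))))) (XT.nd (nat_lit 156) (nat_lit 456) (nat_lit 0) (XT.nd (nat_lit 78) (nat_lit 228) (nat_lit 0) (XT.lf (nat_lit 0) (nat_lit 5617923897) (nat_lit 228) (nat_lit 3729180894) (nat_lit 304) (nat_lit 4374316480) (nat_lit 49) (nat_lit 5) (nat_lit 52) (nat_lit 5) (nat_lit 53) (nat_lit 5) (nat_lit 283) (nat_lit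 265) (nat_lit 232)) (XT.lf (nat_lit 0) (nat_lit 3356273513) (nat_lit 228) (nat_lit 10720936908) (nat_lit 304) (nat_lit 314129522) (nat_lit 46) (nat_lit 5) (nat_lit 49) (nat_lit 5) (nat_lit 50) (nat_lit 5) (nat_lit 284) (nat_lit 265) (nat_lit 231))) (XT.nd (nat_lit 78) (nat_lit 152) (nat_lit 0) (XT.lf (nat_lit 0) (nat_lit 686402726) (nat_lit 228) (nat_lit 3384448558) (nat_lit 304) (nat_lit 11034425599) (nat_lit 42) (nat_lit 5) (nat_lit 45) (nat_lit 5) (nat_lit 46) (nat_lit 5) (nat_lit 285) (nat_lit 265) (nat_lit 230)) (XT.nd (nat_lit 78) (nat_lit 152) (nat_lit 0) (XT.lf (nat_lit 0) (nat_lit 8979307737) (nat_lit 304) (nat_lit 2326023604) (nat_lit 76) (nat_lit 4561663476) (nat_lit 42) (nat_lit 5) (nat_lit 46) (nat_lit 5) (nat_lit 43) (nat_lit 5) (nat_lit 286) (nat_lit 265) (nat_lit 229)) (XT.lf (nat_lit 0) (nat_lit 10915782231) (nat_lit 152) (nat_lit 3515573522) (nat_lit 228) (nat_lit 2250848365)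 (nat_lit 40) (nat_lit 5) (nat_lit 42) (nat_lit 5) (nat_lit 43) (nat_lit 5) (nat_lit 287) (nat_lit 265) (nat_lit 228)))))) (XT.nd (nat_lit 390) (nat_lit 456) (nat_lit 0) (XT.nd (nat_lit 156) (nat_lit 380) (nat_lit 0) (XT.nd (nat_lit 78) (nat_lit 152) (nat_lit 0) (XT.lf (nat_lit 0) (nat_lit 2837722100) (nat_lit 304) (nat_lit 9797331786) (nat_lit 76) (nat_lit 4917060814) (nat_lit 36) (nat_lit 5) (nat_lit 40) (nat_lit 5) (nat_lit 37) (nat_lit 5) (nat_lit 288) (nat_lit 265) (nat_lit 227)) (XT.lf (nat_lit 0) (nat_lit 3999297323) (nat_lit 152) (nat_lit 4409571814) (nat_lit 228) (nat_lit 10073267942) (nat_lit 34) (nat_lit 5) (nat_lit 36) (nat_lit 5) (nat_lit 37) (nat_lit 5) (nat_lit 289) (nat_lit 265) (nat_lit 226))) (XT.nd (nat_lit 78) (nat_lit 380) (nat_lit 0) (XT.lf (nat_lit 0) (nat_lit 14601578923) (nat_lit 228) (nat_lit 406217866) (nat_lit 76) (nat_lit 4470046274) (nat_lit 34) (nat_lit 5)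 (nat_lit 37) (nat_lit 5) (nat_lit 35) (nat_lit 5) (nat_lit 290) (nat_lit 265) (nat_lit 225)) (XT.nd (nat_lit 78) (nat_lit 152) (nat_lit 0) (XT.lf (nat_lit 0) (nat_lit 964715778) (nat_lit 228) (nat_lit 5447975235) (nat_lit 76) (nat_lit 14127416612) (nat_lit 31) (nat_lit 5) (nat_lit 34) (nat_lit 5) (nat_lit 32) (nat_lit 5) (nat_lit 291) (nat_lit 265) (nat_lit 224)) (XT.lf (nat_lit 0) (nat_lit 7260647948) (nat_lit 228) (nat_lit 11415868933) (nat_lit 76) (nat_lit 2998975347) (nat_lit 29) (nat_lit 5) (nat_lit 32) (nat_lit 5) (nat_lit 30) (nat_lit 5) (nat_lit 292) (nat_lit 265) (nat_lit 223))))) (XT.nd (nat_lit 156) (nat_lit 304) (nat_lit 0) (XT.nd (nat_lit 78) (nat_lit 0) (nat_lit 0) (XT.lf (nat_lit 0) (nat_lit 4461147650) (nat_lit 152) (nat_lit 9815557614) (nat_lit 228) (nat_lit 8614236787) (nat_lit 27) (nat_lit 5) (nat_lit 29) (nat_lit 5) (nat_lit 30) (nat_lit 5) (nat_lit 293) (nat_lit 265)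 (nat_lit 222)) (XT.lf (nat_lit 0) (nat_lit 21926675981) (nat_lit 152) (nat_lit 71328296) (nat_lit 228) (nat_lit 2198478483) (nat_lit 27) (nat_lit 5) (nat_lit 29) (nat_lit 5) (nat_lit 30) (nat_lit 5) (nat_lit 294) (nat_lit 265) (nat_lit 221))) (XT.nd (nat_lit 78) (nat_lit 152) (nat_lit 0) (XT.lf (nat_lit 0) (nat_lit 4937617457) (nat_lit 152) (nat_lit 10239694902) (nat_lit 76) (nat_lit 10407583852) (nat_lit 25) (nat_lit 5) (nat_lit 27) (nat_lit 5) (nat_lit 26) (nat_lit 5) (nat_lit 295) (nat_lit 265) (nat_lit 220)) (XT.nd (nat_lit 78) (nat_lit 0) (nat_lit 0) (XT.lf (nat_lit 0) (nat_lit 7485950082) (nat_lit 152) (nat_lit 5191284568) (nat_lit 228) (nat_lit 14399906252) (nat_lit 23) (nat_lit 5) (nat_lit 25) (nat_lit 5) (nat_lit 26) (nat_lit 5) (nat_lit 296) (nat_lit 265) (nat_lit 219)) (XT.lf (nat_lit 0) (nat_lit 21256949201) (nat_lit 228) (nat_lit 1855886866) (nat_lit 76) (nat_lit 5564922593)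 (nat_lit 23) (nat_lit 5) (nat_lit 26) (nat_lit 5) (nat_lit 24) (nat_lit 4) (nat_lit 297) (nat_lit 265) (nat_lit 218))))))) (XT.nd (nat_lit 780) (nat_lit 380) (nat_lit 0) (XT.nd (nat_lit 390) (nat_lit 380) (nat_lit 0) (XT.nd (nat_lit 156) (nat_lit 152) (nat_lit 0) (XT.nd (nat_lit 78) (nat_lit 152) (nat_lit 0) (XT.lf (nat_lit 0) (nat_lit 437840333) (nat_lit 152) (nat_lit 12695329394) (nat_lit 76) (nat_lit 17256952363) (nat_lit 21) (nat_lit 5) (nat_lit 23) (nat_lit 5) (nat_lit 22) (nat_lit 5) (nat_lit 298) (nat_lit 265) (nat_lit 217)) (XT.lf (nat_lit 0) (nat_lit 6651923241) (nat_lit 152) (nat_lit 2110723388) (nat_lit 228) (nat_lit 23465905228) (nat_lit 19) (nat_lit 5) (nat_lit 21) (nat_lit 5) (nat_lit 22) (nat_lit 5) (nat_lit 299) (nat_lit 265) (nat_lit 216))) (XT.nd (nat_lit 78) (nat_lit 152) (nat_lit 0) (XT.lf (nat_lit 0) (nat_lit 18089987958) (nat_lit 228) (nat_lit 6430909401) (nat_lit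 76) (nat_lit 9676361276) (nat_lit 19) (nat_lit 5) (nat_lit 22) (nat_lit 5) (nat_lit 20) (nat_lit 4) (nat_lit 300) (nat_lit 265) (nat_lit 215)) (XT.nd (nat_lit 78) (nat_lit 76) (nat_lit 0) (XT.lf (nat_lit 0) (nat_lit 14612184495) (nat_lit 76) (nat_lit 13776982573) (nat_lit 152) (nat_lit 7923040282) (nat_lit 18) (nat_lit 5) (nat_lit 19) (nat_lit 5) (nat_lit 20) (nat_lit 4) (nat_lit 301) (nat_lit 265) (nat_lit 214)) (XT.lf (nat_lit 0) (nat_lit 963604556) (nat_lit 152) (nat_lit 1103248367) (nat_lit 76) (nat_lit 36524959081) (nat_lit 17) (nat_lit 5) (nat_lit 19) (nat_lit 5) (nat_lit 18) (nat_lit 5) (nat_lit 302) (nat_lit 265) (nat_lit 213))))) (XT.nd (nat_lit 156) (nat_lit 152) (nat_lit 0) (XT.nd (nat_lit 78) (nat_lit 76) (nat_lit 0) (XT.lf (nat_lit 0) (nat_lit 10763548469) (nat_lit 228) (nat_lit 19564092016) (nat_lit 76) (nat_lit 10695675436) (nat_lit 15) (nat_lit 5) (nat_lit 18) (nat_lit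 5) (nat_lit 16) (nat_lit 4) (nat_lit 303) (nat_lit 265) (nat_lit 212)) (XT.lf (nat_lit 0) (nat_lit 2194181638) (nat_lit 76) (nat_lit 19209056885) (nat_lit 152) (nat_lit 22243335207) (nat_lit 14) (nat_lit 5) (nat_lit 15) (nat_lit 5) (nat_lit 16) (nat_lit 4) (nat_lit 304) (nat_lit 265) (nat_lit 211))) (XT.nd (nat_lit 78) (nat_lit 152) (nat_lit 0) (XT.lf (nat_lit 0) (nat_lit 26335699643) (nat_lit 76) (nat_lit 6867868781) (nat_lit 152) (nat_lit 13260670052) (nat_lit 14) (nat_lit 5) (nat_lit 15) (nat_lit 5) (nat_lit 16) (nat_lit 4) (nat_lit 305) (nat_lit 265) (nat_lit 210)) (XT.nd (nat_lit 78) (nat_lit 76) (nat_lit 0) (XT.lf (nat_lit 0) (nat_lit 2838189472) (nat_lit 76) (nat_lit 43225549802) (nat_lit 76) (nat_lit 3437804500) (nat_lit 13) (nat_lit 4) (nat_lit 14) (nat_lit 5) (nat_lit 14) (nat_lit 4) (nat_lit 306) (nat_lit 265) (nat_lit 209)) (XT.lf (nat_lit 0) (nat_lit 7385098847) (nat_lit 152)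 (nat_lit 24688431056) (nat_lit 76) (nat_lit 20680535574) (nat_lit 12) (nat_lit 5) (nat_lit 14) (nat_lit 5) (nat_lit 13) (nat_lit 4) (nat_lit 307) (nat_lit 265) (nat_lit 208)))))) (XT.nd (nat_lit 390) (nat_lit 152) (nat_lit 0) (XT.nd (nat_lit 156) (nat_lit 152) (nat_lit 0) (XT.nd (nat_lit 78) (nat_lit 76) (nat_lit 0) (XT.lf (nat_lit 0) (nat_lit 18928651569) (nat_lit 152) (nat_lit 1061313156) (nat_lit 76) (nat_lit 36275258047) (nat_lit 12) (nat_lit 5) (nat_lit 14) (nat_lit 5) (nat_lit 13) (nat_lit 4) (nat_lit 308) (nat_lit 265) (nat_lit 207)) (XT.lf (nat_lit 0) (nat_lit 25218846287) (nat_lit 76) (nat_lit 6546181695) (nat_lit 152) (nat_lit 28273791377) (nat_lit 11) (nat_lit 5) (nat_lit 12) (nat_lit 5) (nat_lit 13) (nat_lit 4) (nat_lit 309) (nat_lit 265) (nat_lit 206))) (XT.nd (nat_lit 78) (nat_lit 152) (nat_lit 0) (XT.lf (nat_lit 0) (nat_lit 45748037479) (nat_lit 152) (nat_lit 10642087832)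 (nat_lit 0) (nat_lit 7718204881) (nat_lit 11) (nat_lit 5) (nat_lit 13) (nat_lit 4) (nat_lit 11) (nat_lit 4) (nat_lit 310) (nat_lit 265) (nat_lit 205)) (XT.nd (nat_lit 78) (nat_lit 76) (nat_lit 0) (XT.lf (nat_lit 0) (nat_lit 15826145549) (nat_lit 76) (nat_lit 45359207707) (nat_lit 76) (nat_lit 7301277092) (nat_lit 10) (nat_lit 4) (nat_lit 11) (nat_lit 5) (nat_lit 11) (nat_lit 4) (nat_lit 311) (nat_lit 265) (nat_lit 204)) (XT.lf (nat_lit 0) (nat_lit 4661149808) (nat_lit 152) (nat_lit 28528590189) (nat_lit 76) (nat_lit 40013476886) (nat_lit 9) (nat_lit 5) (nat_lit 11) (nat_lit 5) (nat_lit 10) (nat_lit 4) (nat_lit 312) (nat_lit 265) (nat_lit 203))))) (XT.nd (nat_lit 234) (nat_lit 76) (nat_lit 0) (XT.nd (nat_lit 78) (nat_lit 76) (nat_lit 0) (XT.lf (nat_lit 0) (nat_lit 17308615814) (nat_lit 152) (nat_lit 2625374397) (nat_lit 76) (nat_lit 58357972748) (nat_lit 9) (nat_lit 5) (nat_lit 11) (nat_lit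 5) (nat_lit 10) (nat_lit 4) (nat_lit 313) (nat_lit 265) (nat_lit 202)) (XT.nd (nat_lit 78) (nat_lit 0) (nat_lit 0) (XT.lf (nat_lit 0) (nat_lit 26153739511) (nat_lit 76) (nat_lit 5204348995) (nat_lit 152) (nat_lit 52410218613) (nat_lit 8) (nat_lit 5) (nat_lit 9) (nat_lit 5) (nat_lit 10) (nat_lit 4) (nat_lit 314) (nat_lit 265) (nat_lit 201)) (XT.lf (nat_lit 0) (nat_lit 46727604906) (nat_lit 152) (nat_lit 32552033689) (nat_lit 0) (nat_lit 10393324135) (nat_lit 8) (nat_lit 5) (nat_lit 10) (nat_lit 4) (nat_lit 8) (nat_lit 4) (nat_lit 315) (nat_lit 265) (nat_lit 200)))) (XT.nd (nat_lit 78) (nat_lit 76) (nat_lit 0) (XT.lf (nat_lit 0) (nat_lit 63398224177) (nat_lit 152) (nat_lit 5602466148) (nat_lit 0) (nat_lit 27045730989) (nat_lit 8) (nat_lit 5) (nat_lit 10) (nat_lit 4) (nat_lit 8) (nat_lit 4) (nat_lit 316) (nat_lit 265) (nat_lit 199)) (XT.nd (nat_lit 78) (nat_lit 0) (nat_lit 0) (XT.lf (nat_lit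 0) (nat_lit 24251283140) (nat_lit 76) (nat_lit 57514828057) (nat_lit 76) (nat_lit 21145471520) (nat_lit 7) (nat_lit 4) (nat_lit 8) (nat_lit 5) (nat_lit 8) (nat_lit 4) (nat_lit 317) (nat_lit 265) (nat_lit 198)) (XT.lf (nat_lit 0) (nat_lit 56666634273) (nat_lit 76) (nat_lit 45020068181) (nat_lit 76) (nat_lit 8635097431) (nat_lit 7) (nat_lit 4) (nat_lit 8) (nat_lit 5) (nat_lit 8) (nat_lit 4) (nat_lit 318) (nat_lit 265) (nat_lit 197))))))))
noncomputable def xc59 : XT := (XT.nd (nat_lit 1638) (nat_lit 76) (nat_lit 0) (XT.nd (nat_lit 780) (nat_lit 152) (nat_lit 0) (XT.nd (nat_lit 390) (nat_lit 76) (nat_lit 0) (XT.nd (nat_lit 156) (nat_lit 0) (nat_lit 0) (XT.nd (nat_lit 78) (nat_lit 76) (nat_lit 0) (XT.lf (nat_lit 0) (nat_lit 4706560070) (nat_lit 152) (nat_lit 26750980209) (nat_lit 76) (nat_lit 86864167446) (nat_lit 6) (nat_lit 5) (nat_lit 8) (nat_lit 5) (nat_lit 7) (nat_lit 4) (nat_lit 319)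 (nat_lit 265) (nat_lit 196)) (XT.lf (nat_lit 0) (nat_lit 2207220624) (nat_lit 76) (nat_lit 16631821155) (nat_lit 152) (nat_lit 108114192618) (nat_lit 5) (nat_lit 5) (nat_lit 6) (nat_lit 5) (nat_lit 7) (nat_lit 4) (nat_lit 320) (nat_lit 265) (nat_lit 195))) (XT.nd (nat_lit 78) (nat_lit 0) (nat_lit 0) (XT.lf (nat_lit 0) (nat_lit 34415000896) (nat_lit 76) (nat_lit 141199583) (nat_lit 152) (nat_lit 101696383728) (nat_lit 5) (nat_lit 5) (nat_lit 6) (nat_lit 5) (nat_lit 7) (nat_lit 4) (nat_lit 321) (nat_lit 265) (nat_lit 194)) (XT.nd (nat_lit 78) (nat_lit 0) (nat_lit 0) (XT.lf (nat_lit 0) (nat_lit 51795414039) (nat_lit 152) (nat_lit 77393431048) (nat_lit 0) (nat_lit 17093807372) (nat_lit 5) (nat_lit 5) (nat_lit 7) (nat_lit 4) (nat_lit 5) (nat_lit 4) (nat_lit 322) (nat_lit 265) (nat_lit 193)) (XT.lf (nat_lit 0) (nat_lit 70405798048) (nat_lit 152) (nat_lit 51015660033) (nat_lit 0) (nat_lit 35694070647)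 (nat_lit 5) (nat_lit 5) (nat_lit 7) (nat_lit 4) (nat_lit 5) (nat_lit 4) (nat_lit 323) (nat_lit 265) (nat_lit 192))))) (XT.nd (nat_lit 156) (nat_lit 0) (nat_lit 0) (XT.nd (nat_lit 78) (nat_lit 76) (nat_lit 0) (XT.lf (nat_lit 0) (nat_lit 90495431742) (nat_lit 152) (nat_lit 22545753029) (nat_lit 0) (nat_lit 55774333291) (nat_lit 5) (nat_lit 5) (nat_lit 7) (nat_lit 4) (nat_lit 5) (nat_lit 4) (nat_lit 324) (nat_lit 265) (nat_lit 191)) (XT.lf (nat_lit 0) (nat_lit 8455633604) (nat_lit 76) (nat_lit 103859747335) (nat_lit 76) (nat_lit 69129971987) (nat_lit 4) (nat_lit 4) (nat_lit 5) (nat_lit 5) (nat_lit 5) (nat_lit 4) (nat_lit 325) (nat_lit 265) (nat_lit 190))) (XT.nd (nat_lit 78) (nat_lit 0) (nat_lit 0) (XT.lf (nat_lit 0) (nat_lit 42726214487) (nat_lit 76) (nat_lit 93538979775) (nat_lit 76) (nat_lit 58801170262) (nat_lit 4) (nat_lit 4) (nat_lit 5) (nat_lit 5) (nat_lit 5) (nat_lit 4) (nat_lit 326)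 (nat_lit 265) (nat_lit 189)) (XT.nd (nat_lit 78) (nat_lit 0) (nat_lit 0) (XT.lf (nat_lit 0) (nat_lit 79723610126) (nat_lit 76) (nat_lit 82399545224) (nat_lit 76) (nat_lit 47654296669) (nat_lit 4) (nat_lit 4) (nat_lit 5) (nat_lit 5) (nat_lit 5) (nat_lit 4) (nat_lit 327) (nat_lit 265) (nat_lit 188)) (XT.lf (nat_lit 0) (nat_lit 119667064350) (nat_lit 76) (nat_lit 70375432217) (nat_lit 76) (nat_lit 35623295661) (nat_lit 4) (nat_lit 4) (nat_lit 5) (nat_lit 5) (nat_lit 5) (nat_lit 4) (nat_lit 328) (nat_lit 265) (nat_lit 187)))))) (XT.nd (nat_lit 390) (nat_lit 0) (nat_lit 0) (XT.nd (nat_lit 156) (nat_lit 152) (nat_lit 0) (XT.nd (nat_lit 78) (nat_lit 0) (nat_lit 0) (XT.lf (nat_lit 0) (nat_lit 162793279108) (nat_lit 76) (nat_lit 57395386753) (nat_lit 76) (nat_lit 22636872417) (nat_lit 4) (nat_lit 4) (nat_lit 5) (nat_lit 5) (nat_lit 5) (nat_lit 4) (nat_lit 329) (nat_lit 265) (nat_lit 186)) (XT.lf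 (nat_lit 0) (nat_lit 209357817154) (nat_lit 76) (nat_lit 43382490042) (nat_lit 76) (nat_lit 8618070356) (nat_lit 4) (nat_lit 4) (nat_lit 5) (nat_lit 5) (nat_lit 5) (nat_lit 4) (nat_lit 330) (nat_lit 265) (nat_lit 185))) (XT.nd (nat_lit 78) (nat_lit 76) (nat_lit 0) (XT.lf (nat_lit 0) (nat_lit 6307626294) (nat_lit 152) (nat_lit 21839253699) (nat_lit 76) (nat_lit 253222167494) (nat_lit 3) (nat_lit 5) (nat_lit 5) (nat_lit 5) (nat_lit 4) (nat_lit 4) (nat_lit 331) (nat_lit 265) (nat_lit 184)) (XT.nd (nat_lit 78) (nat_lit 0) (nat_lit 0) (XT.lf (nat_lit 0) (nat_lit 10929167179) (nat_lit 76) (nat_lit 11365524366) (nat_lit 152) (nat_lit 280670355089) (nat_lit 2) (nat_lit 5) (nat_lit 3) (nat_lit 5) (nat_lit 4) (nat_lit 4) (nat_lit 332) (nat_lit 265) (nat_lit 183)) (XT.lf (nat_lit 0) (nat_lit 40047653033) (nat_lit 152) (nat_lit 279292540055) (nat_lit 0) (nat_lit 6924187939) (nat_lit 2) (nat_lit 5)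 (nat_lit 4) (nat_lit 4) (nat_lit 2) (nat_lit 4) (nat_lit 333) (nat_lit 265) (nat_lit 182))))) (XT.nd (nat_lit 234) (nat_lit 0) (nat_lit 0) (XT.nd (nat_lit 78) (nat_lit 0) (nat_lit 0) (XT.lf (nat_lit 0) (nat_lit 59407635863) (nat_lit 152) (nat_lit 265730651958) (nat_lit 0) (nat_lit 26280036855) (nat_lit 2) (nat_lit 5) (nat_lit 4) (nat_lit 4) (nat_lit 2) (nat_lit 4) (nat_lit 334) (nat_lit 265) (nat_lit 181)) (XT.nd (nat_lit 78) (nat_lit 0) (nat_lit 0) (XT.lf (nat_lit 0) (nat_lit 80311918172) (nat_lit 152) (nat_lit 251092400733) (nat_lit 0) (nat_lit 47180491467) (nat_lit 2) (nat_lit 5) (nat_lit 4) (nat_lit 4) (nat_lit 2) (nat_lit 4) (nat_lit 335) (nat_lit 265) (nat_lit 180)) (XT.lf (nat_lit 0) (nat_lit 102884377190) (nat_lit 152) (nat_lit 235291041187) (nat_lit 0) (nat_lit 69749406321) (nat_lit 2) (nat_lit 5) (nat_lit 4) (nat_lit 4) (nat_lit 2) (nat_lit 4) (nat_lit 336) (nat_lit 265) (nat_lit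 179)))) (XT.nd (nat_lit 78) (nat_lit 0) (nat_lit 0) (XT.lf (nat_lit 0) (nat_lit 127258775636) (nat_lit 152) (nat_lit 218232935634) (nat_lit 0) (nat_lit 94120523133) (nat_lit 2) (nat_lit 5) (nat_lit 4) (nat_lit 4) (nat_lit 2) (nat_lit 4) (nat_lit 337) (nat_lit 265) (nat_lit 178)) (XT.nd (nat_lit 78) (nat_lit 0) (nat_lit 0) (XT.lf (nat_lit 0) (nat_lit 153579554391) (nat_lit 152) (nat_lit 199816999004) (nat_lit 0) (nat_lit 120438263338) (nat_lit 2) (nat_lit 5) (nat_lit 4) (nat_lit 4) (nat_lit 2) (nat_lit 4) (nat_lit 338) (nat_lit 265) (nat_lit 177)) (XT.lf (nat_lit 0) (nat_lit 182002688439) (nat_lit 152) (nat_lit 179934099822) (nat_lit 0) (nat_lit 148858583913) (nat_lit 2) (nat_lit 5) (nat_lit 4) (nat_lit 4) (nat_lit 2) (nat_lit 4) (nat_lit 339) (nat_lit 265) (nat_lit 176))))))) (XT.nd (nat_lit 35022) (nat_lit 0) (nat_lit 5092) (XT.nd (nat_lit 390) (nat_lit 76) (nat_lit 0) (XT.nd (nat_lit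 156) (nat_lit 0) (nat_lit 0) (XT.nd (nat_lit 78) (nat_lit 0) (nat_lit 0) (XT.lf (nat_lit 0) (nat_lit 212696611167) (nat_lit 152) (nat_lit 158466413498) (nat_lit 0) (nat_lit 179549901575) (nat_lit 2) (nat_lit 5) (nat_lit 4) (nat_lit 4) (nat_lit 2) (nat_lit 4) (nat_lit 340) (nat_lit 265) (nat_lit 175)) (XT.lf (nat_lit 0) (nat_lit 245843212487) (nat_lit 152) (nat_lit 135286724115) (nat_lit 0) (nat_lit 212694090796) (nat_lit 2) (nat_lit 5) (nat_lit 4) (nat_lit 4) (nat_lit 2) (nat_lit 4) (nat_lit 341) (nat_lit 265) (nat_lit 174))) (XT.nd (nat_lit 78) (nat_lit 0) (nat_lit 0) (XT.lf (nat_lit 0) (nat_lit 281638916705) (nat_lit 152) (nat_lit 110257670549) (nat_lit 0) (nat_lit 248487561589) (nat_lit 2) (nat_lit 5) (nat_lit 4) (nat_lit 4) (nat_lit 2) (nat_lit 4) (nat_lit 342) (nat_lit 265) (nat_lit 173)) (XT.nd (nat_lit 78) (nat_lit 0) (nat_lit 0) (XT.lf (nat_lit 0) (nat_lit 320295846511) (nat_lit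 152) (nat_lit 83230932485) (nat_lit 0) (nat_lit 287142423409) (nat_lit 2) (nat_lit 5) (nat_lit 4) (nat_lit 4) (nat_lit 2) (nat_lit 4) (nat_lit 343) (nat_lit 265) (nat_lit 172)) (XT.lf (nat_lit 0) (nat_lit 362043080008) (nat_lit 152) (nat_lit 54046351472) (nat_lit 0) (nat_lit 328887742105) (nat_lit 2) (nat_lit 5) (nat_lit 4) (nat_lit 4) (nat_lit 2) (nat_lit 4) (nat_lit 344) (nat_lit 265) (nat_lit 171))))) (XT.nd (nat_lit 156) (nat_lit 0) (nat_lit 0) (XT.nd (nat_lit 78) (nat_lit 76) (nat_lit 0) (XT.lf (nat_lit 0) (nat_lit 407128008210) (nat_lit 152) (nat_lit 22530981848) (nat_lit 0) (nat_lit 373970897342) (nat_lit 2) (nat_lit 5) (nat_lit 4) (nat_lit 4) (nat_lit 2) (nat_lit 4) (nat_lit 345) (nat_lit 265) (nat_lit 170)) (XT.lf (nat_lit 0) (nat_lit 11882240021) (nat_lit 76) (nat_lit 444121076106) (nat_lit 76) (nat_lit 410962323603) (nat_lit 1) (nat_lit 4) (nat_lit 2) (nat_lit 5) (nat_lit 2)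 (nat_lit 4) (nat_lit 346) (nat_lit 265) (nat_lit 169))) (XT.nd (nat_lit 34320) (nat_lit 0) (nat_lit 8132) (XT.lf (nat_lit 0) (nat_lit 49849570591) (nat_lit 76) (nat_lit 459329711575) (nat_lit 76) (nat_lit 426169439042) (nat_lit 1) (nat_lit 4) (nat_lit 2) (nat_lit 5) (nat_lit 2) (nat_lit 4) (nat_lit 347) (nat_lit 265) (nat_lit 168)) (XT.nd (nat_lit 78) (nat_lit 532) (nat_lit 0) (XT.lf (nat_lit 0) (nat_lit 3705808108) (nat_lit 532) (nat_lit 21984961) (nat_lit 532) (nat_lit 21984961) (nat_lit 115) (nat_lit 3) (nat_lit 122) (nat_lit 3) (nat_lit 122) (nat_lit 5) (nat_lit 266) (nat_lit 266) (nat_lit 248)) (XT.lf (nat_lit 0) (nat_lit 2132378533) (nat_lit 532) (nat_lit 2081357577) (nat_lit 608) (nat_lit 3469746625) (nat_lit 108) (nat_lit 5) (nat_lit 115) (nat_lit 3) (nat_lit 116) (nat_lit 5) (nat_lit 267) (nat_lit 266) (nat_lit 247)))))) (XT.nd (nat_lit 390) (nat_lit 2508) (nat_lit 0) (XT.nd (nat_lit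 156) (nat_lit 532) (nat_lit 0) (XT.nd (nat_lit 78) (nat_lit 0) (nat_lit 76) (XT.lf (nat_lit 76) (nat_lit 3818710402) (nat_lit 0) (nat_lit 553919507) (nat_lit 608) (nat_lit 3517660525) (nat_lit 109) (nat_lit 5) (nat_lit 108) (nat_lit 5) (nat_lit 116) (nat_lit 5) (nat_lit 268) (nat_lit 266) (nat_lit 246)) (XT.lf (nat_lit 76) (nat_lit 2036837955) (nat_lit 0) (nat_lit 4677366085) (nat_lit 608) (nat_lit 1403804316) (nat_lit 110) (nat_lit 5) (nat_lit 109) (nat_lit 5) (nat_lit 117) (nat_lit 5) (nat_lit 269) (nat_lit 266) (nat_lit 245))) (XT.nd (nat_lit 78) (nat_lit 0) (nat_lit 76) (XT.lf (nat_lit 76) (nat_lit 274361281) (nat_lit 0) (nat_lit 472151433) (nat_lit 684) (nat_lit 7622385253) (nat_lit 102) (nat_lit 5) (nat_lit 101) (nat_lit 5) (nat_lit 110) (nat_lit 5) (nat_lit 270) (nat_lit 266) (nat_lit 244)) (XT.nd (nat_lit 78) (nat_lit 0) (nat_lit 76) (XT.lf (nat_lit 0) (nat_lit 3014326854) (nat_lit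 608) (nat_lit 1501658757) (nat_lit 684) (nat_lit 4123374130) (nat_lit 102) (nat_lit 5) (nat_lit 110) (nat_lit 5) (nat_lit 111) (nat_lit 5) (nat_lit 271) (nat_lit 266) (nat_lit 243)) (XT.lf (nat_lit 0) (nat_lit 5400200186) (nat_lit 608) (nat_lit 3271083088) (nat_lit 76) (nat_lit 263699372) (nat_lit 103) (nat_lit 5) (nat_lit 111) (nat_lit 5) (nat_lit 104) (nat_lit 5) (nat_lit 272) (nat_lit 266) (nat_lit 242))))) (XT.nd (nat_lit 234) (nat_lit 760) (nat_lit 0) (XT.nd (nat_lit 78) (nat_lit 1292) (nat_lit 0) (XT.lf (nat_lit 0) (nat_lit 4132116881) (nat_lit 608) (nat_lit 3858854148) (nat_lit 684) (nat_lit 1262912503) (nat_lit 95) (nat_lit 5) (nat_lit 103) (nat_lit 5) (nat_lit 104) (nat_lit 5) (nat_lit 273) (nat_lit 266) (nat_lit 241)) (XT.nd (nat_lit 78) (nat_lit 532) (nat_lit 0) (XT.lf (nat_lit 0) (nat_lit 1127585782) (nat_lit 760) (nat_lit 7037577383) (nat_lit 76) (nat_lit 1433744960) (nat_lit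 85) (nat_lit 5) (nat_lit 95) (nat_lit 5) (nat_lit 86) (nat_lit 5) (nat_lit 274) (nat_lit 266) (nat_lit 240)) (XT.lf (nat_lit 0) (nat_lit 887011072) (nat_lit 532) (nat_lit 2811047615) (nat_lit 608) (nat_lit 6271060838) (nat_lit 78) (nat_lit 5) (nat_lit 85) (nat_lit 5) (nat_lit 86) (nat_lit 5) (nat_lit 275) (nat_lit 266) (nat_lit 239)))) (XT.nd (nat_lit 78) (nat_lit 760) (nat_lit 0) (XT.lf (nat_lit 0) (nat_lit 6516294247) (nat_lit 608) (nat_lit 844006221) (nat_lit 76) (nat_lit 3006790262) (nat_lit 78) (nat_lit 5) (nat_lit 86) (nat_lit 5) (nat_lit 79) (nat_lit 5) (nat_lit 276) (nat_lit 266) (nat_lit 238)) (XT.nd (nat_lit 78) (nat_lit 380) (nat_lit 0) (XT.lf (nat_lit 0) (nat_lit 8146423249) (nat_lit 380) (nat_lit 1468832234) (nat_lit 456) (nat_lit 1179111487) (nat_lit 73) (nat_lit 5) (nat_lit 78) (nat_lit 5) (nat_lit 79) (nat_lit 5) (nat_lit 277) (nat_lit 266) (nat_lit 237)) (XT.lf (nat_lit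 0) (nat_lit 1735654353) (nat_lit 380) (nat_lit 4633301499) (nat_lit 76) (nat_lit 4881542939) (nat_lit 68) (nat_lit 5) (nat_lit 73) (nat_lit 5) (nat_lit 69) (nat_lit 5) (nat_lit 278) (nat_lit 266) (nat_lit 236))))))))
noncomputable def xc60 : XT := (XT.nd (nat_lit 1560) (nat_lit 1216) (nat_lit 0) (XT.nd (nat_lit 780) (nat_lit 1292) (nat_lit 0) (XT.nd (nat_lit 390) (nat_lit 912) (nat_lit 0) (XT.nd (nat_lit 156) (nat_lit 608) (nat_lit 0) (XT.nd (nat_lit 78) (nat_lit 304) (nat_lit 0) (XT.lf (nat_lit 0) (nat_lit 4885760051) (nat_lit 380) (nat_lit 6769721473) (nat_lit 76) (nat_lit 84688055) (nat_lit 64) (nat_lit 5) (nat_lit 69) (nat_lit 5) (nat_lit 65) (nat_lit 5) (nat_lit 279) (nat_lit 266) (nat_lit 235)) (XT.lf (nat_lit 0) (nat_lit 3114940576) (nat_lit 304) (nat_lit 5309274035) (nat_lit 380) (nat_lit 3838156800) (nat_lit 60) (nat_lit 5) (nat_lit 64) (nat_lit 5) (nat_lit 65) (nat_lit 5) (nat_lit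 280) (nat_lit 266) (nat_lit 234))) (XT.nd (nat_lit 78) (nat_lit 304) (nat_lit 0) (XT.lf (nat_lit 0) (nat_lit 1102378271) (nat_lit 304) (nat_lit 11208312849) (nat_lit 380) (nat_lit 512572474) (nat_lit 56) (nat_lit 5) (nat_lit 60) (nat_lit 5) (nat_lit 61) (nat_lit 5) (nat_lit 281) (nat_lit 266) (nat_lit 233)) (XT.nd (nat_lit 78) (nat_lit 228) (nat_lit 0) (XT.lf (nat_lit 0) (nat_lit 3139473257) (nat_lit 380) (nat_lit 1179018107) (nat_lit 76) (nat_lit 9100326364) (nat_lit 55) (nat_lit 5) (nat_lit 60) (nat_lit 5) (nat_lit 56) (nat_lit 5) (nat_lit 282) (nat_lit 266) (nat_lit 232)) (XT.lf (nat_lit 0) (nat_lit 7194251512) (nat_lit 304) (nat_lit 3685849204) (nat_lit 76) (nat_lit 3175200843) (nat_lit 52) (nat_lit 5) (nat_lit 56) (nat_lit 5) (nat_lit 53) (nat_lit 5) (nat_lit 283) (nat_lit 266) (nat_lit 231))))) (XT.nd (nat_lit 156) (nat_lit 380) (nat_lit 0) (XT.nd (nat_lit 78) (nat_lit 304) (nat_lit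 0) (XT.lf (nat_lit 0) (nat_lit 8225263891) (nat_lit 228) (nat_lit 3488982658) (nat_lit 304) (nat_lit 3021537906) (nat_lit 49) (nat_lit 5) (nat_lit 52) (nat_lit 5) (nat_lit 53) (nat_lit 5) (nat_lit 284) (nat_lit 266) (nat_lit 230)) (XT.lf (nat_lit 0) (nat_lit 1239539301) (nat_lit 304) (nat_lit 9722819632) (nat_lit 76) (nat_lit 4500055612) (nat_lit 45) (nat_lit 5) (nat_lit 49) (nat_lit 5) (nat_lit 46) (nat_lit 5) (nat_lit 285) (nat_lit 266) (nat_lit 229))) (XT.nd (nat_lit 78) (nat_lit 152) (nat_lit 0) (XT.lf (nat_lit 0) (nat_lit 2835906163) (nat_lit 228) (nat_lit 3045112655) (nat_lit 304) (nat_lit 10356510433) (nat_lit 42) (nat_lit 5) (nat_lit 45) (nat_lit 5) (nat_lit 46) (nat_lit 5) (nat_lit 286) (nat_lit 266) (nat_lit 228)) (XT.nd (nat_lit 78) (nat_lit 152) (nat_lit 0) (XT.lf (nat_lit 0) (nat_lit 11081008535) (nat_lit 304) (nat_lit 510961271) (nat_lit 76) (nat_lit 5473416036) (nat_lit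 42) (nat_lit 5) (nat_lit 46) (nat_lit 5) (nat_lit 43) (nat_lit 5) (nat_lit 287) (nat_lit 266) (nat_lit 227)) (XT.lf (nat_lit 0) (nat_lit 13703221741) (nat_lit 152) (nat_lit 3193413489) (nat_lit 228) (nat_lit 1052939304) (nat_lit 40) (nat_lit 5) (nat_lit 42) (nat_lit 5) (nat_lit 43) (nat_lit 5) (nat_lit 288) (nat_lit 266) (nat_lit 226)))))) (XT.nd (nat_lit 390) (nat_lit 456) (nat_lit 0) (XT.nd (nat_lit 156) (nat_lit 380) (nat_lit 0) (XT.nd (nat_lit 78) (nat_lit 152) (nat_lit 0) (XT.lf (nat_lit 0) (nat_lit 4338606170) (nat_lit 304) (nat_lit 8651265296) (nat_lit 76) (nat_lit 5901248758) (nat_lit 36) (nat_lit 5) (nat_lit 40) (nat_lit 5) (nat_lit 37) (nat_lit 5) (nat_lit 289) (nat_lit 266) (nat_lit 225)) (XT.lf (nat_lit 0) (nat_lit 6165225080) (nat_lit 152) (nat_lit 4124680406) (nat_lit 228) (nat_lit 9609024795) (nat_lit 34) (nat_lit 5) (nat_lit 36) (nat_lit 5) (nat_lit 37) (nat_lit 5) (nat_lit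 290) (nat_lit 266) (nat_lit 224))) (XT.nd (nat_lit 78) (nat_lit 228) (nat_lit 0) (XT.lf (nat_lit 0) (nat_lit 1362108574) (nat_lit 152) (nat_lit 15556902285) (nat_lit 228) (nat_lit 4058333792) (nat_lit 32) (nat_lit 5) (nat_lit 34) (nat_lit 5) (nat_lit 35) (nat_lit 5) (nat_lit 291) (nat_lit 266) (nat_lit 223)) (XT.nd (nat_lit 78) (nat_lit 152) (nat_lit 0) (XT.lf (nat_lit 0) (nat_lit 2131299505) (nat_lit 228) (nat_lit 4165820029) (nat_lit 76) (nat_lit 15830614756) (nat_lit 31) (nat_lit 5) (nat_lit 34) (nat_lit 5) (nat_lit 32) (nat_lit 5) (nat_lit 292) (nat_lit 266) (nat_lit 222)) (XT.lf (nat_lit 0) (nat_lit 8885374127) (nat_lit 228) (nat_lit 10642567148) (nat_lit 76) (nat_lit 3828367337) (nat_lit 29) (nat_lit 5) (nat_lit 32) (nat_lit 5) (nat_lit 30) (nat_lit 5) (nat_lit 293) (nat_lit 266) (nat_lit 221))))) (XT.nd (nat_lit 156) (nat_lit 304) (nat_lit 0) (XT.nd (nat_lit 78) (nat_lit 0) (nat_lit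 0) (XT.lf (nat_lit 0) (nat_lit 6431314429) (nat_lit 152) (nat_lit 9979265317) (nat_lit 228) (nat_lit 8261097731) (nat_lit 27) (nat_lit 5) (nat_lit 29) (nat_lit 5) (nat_lit 30) (nat_lit 5) (nat_lit 294) (nat_lit 266) (nat_lit 220)) (XT.lf (nat_lit 0) (nat_lit 24683903000) (nat_lit 228) (nat_lit 918604364) (nat_lit 76) (nat_lit 482508659) (nat_lit 27) (nat_lit 5) (nat_lit 30) (nat_lit 5) (nat_lit 28) (nat_lit 4) (nat_lit 295) (nat_lit 266) (nat_lit 219))) (XT.nd (nat_lit 78) (nat_lit 152) (nat_lit 0) (XT.lf (nat_lit 0) (nat_lit 6229315965) (nat_lit 152) (nat_lit 9563420288) (nat_lit 76) (nat_lit 11793339032) (nat_lit 25) (nat_lit 5) (nat_lit 27) (nat_lit 5) (nat_lit 26) (nat_lit 5) (nat_lit 296) (nat_lit 266) (nat_lit 218)) (XT.nd (nat_lit 78) (nat_lit 0) (nat_lit 0) (XT.lf (nat_lit 0) (nat_lit 9515285851) (nat_lit 152) (nat_lit 5028728754) (nat_lit 228) (nat_lit 14655946988) (nat_lit 23)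 (nat_lit 5) (nat_lit 25) (nat_lit 5) (nat_lit 26) (nat_lit 5) (nat_lit 297) (nat_lit 266) (nat_lit 217)) (XT.lf (nat_lit 0) (nat_lit 23755304372) (nat_lit 228) (nat_lit 648072303) (nat_lit 76) (nat_lit 6528045564) (nat_lit 23) (nat_lit 5) (nat_lit 26) (nat_lit 5) (nat_lit 24) (nat_lit 4) (nat_lit 298) (nat_lit 266) (nat_lit 216))))))) (XT.nd (nat_lit 780) (nat_lit 380) (nat_lit 0) (XT.nd (nat_lit 390) (nat_lit 380) (nat_lit 0) (XT.nd (nat_lit 156) (nat_lit 152) (nat_lit 0) (XT.nd (nat_lit 78) (nat_lit 152) (nat_lit 0) (XT.lf (nat_lit 0) (nat_lit 1244865614) (nat_lit 152) (nat_lit 12387498690) (nat_lit 76) (nat_lit 19149779334) (nat_lit 21) (nat_lit 5) (nat_lit 23) (nat_lit 5) (nat_lit 22) (nat_lit 5) (nat_lit 299) (nat_lit 266) (nat_lit 215)) (XT.lf (nat_lit 0) (nat_lit 8450018326) (nat_lit 152) (nat_lit 1748217938) (nat_lit 228) (nat_lit 24571326109) (nat_lit 19) (nat_lit 5) (nat_lit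 21) (nat_lit 5) (nat_lit 22) (nat_lit 5) (nat_lit 300) (nat_lit 266) (nat_lit 214))) (XT.nd (nat_lit 78) (nat_lit 152) (nat_lit 0) (XT.lf (nat_lit 0) (nat_lit 20225033267) (nat_lit 228) (nat_lit 5746383275) (nat_lit 76) (nat_lit 10926726082) (nat_lit 19) (nat_lit 5) (nat_lit 22) (nat_lit 5) (nat_lit 20) (nat_lit 4) (nat_lit 301) (nat_lit 266) (nat_lit 213)) (XT.nd (nat_lit 78) (nat_lit 76) (nat_lit 0) (XT.lf (nat_lit 0) (nat_lit 16928051102) (nat_lit 76) (nat_lit 14387050224) (nat_lit 152) (nat_lit 7868875543) (nat_lit 18) (nat_lit 5) (nat_lit 19) (nat_lit 5) (nat_lit 20) (nat_lit 4) (nat_lit 302) (nat_lit 266) (nat_lit 212)) (XT.lf (nat_lit 0) (nat_lit 1657347930) (nat_lit 152) (nat_lit 108770103) (nat_lit 76) (nat_lit 39881794342) (nat_lit 17) (nat_lit 5) (nat_lit 19) (nat_lit 5) (nat_lit 18) (nat_lit 5) (nat_lit 303) (nat_lit 266) (nat_lit 211))))) (XT.nd (nat_lit 156) (nat_lit 152)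 (nat_lit 0) (XT.nd (nat_lit 78) (nat_lit 76) (nat_lit 0) (XT.lf (nat_lit 0) (nat_lit 12218782049) (nat_lit 228) (nat_lit 20070799969) (nat_lit 76) (nat_lit 11985510359) (nat_lit 15) (nat_lit 5) (nat_lit 18) (nat_lit 5) (nat_lit 16) (nat_lit 4) (nat_lit 304) (nat_lit 266) (nat_lit 210)) (XT.lf (nat_lit 0) (nat_lit 3382137959) (nat_lit 76) (nat_lit 20299305001) (nat_lit 152) (nat_lit 23428206315) (nat_lit 14) (nat_lit 5) (nat_lit 15) (nat_lit 5) (nat_lit 16) (nat_lit 4) (nat_lit 305) (nat_lit 266) (nat_lit 209))) (XT.nd (nat_lit 78) (nat_lit 152) (nat_lit 0) (XT.lf (nat_lit 0) (nat_lit 29379983199) (nat_lit 76) (nat_lit 7003894177) (nat_lit 152) (nat_lit 13770972074) (nat_lit 14) (nat_lit 5) (nat_lit 15) (nat_lit 5) (nat_lit 16) (nat_lit 4) (nat_lit 306) (nat_lit 266) (nat_lit 208)) (XT.nd (nat_lit 78) (nat_lit 76) (nat_lit 0) (XT.lf (nat_lit 0) (nat_lit 3981134082) (nat_lit 76) (nat_lit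 46273187151) (nat_lit 76) (nat_lit 3181769188) (nat_lit 13) (nat_lit 4) (nat_lit 14) (nat_lit 5) (nat_lit 14) (nat_lit 4) (nat_lit 307) (nat_lit 266) (nat_lit 207)) (XT.lf (nat_lit 0) (nat_lit 8451890502) (nat_lit 152) (nat_lit 25799454636) (nat_lit 76) (nat_lit 22698979448) (nat_lit 12) (nat_lit 5) (nat_lit 14) (nat_lit 5) (nat_lit 13) (nat_lit 4) (nat_lit 308) (nat_lit 266) (nat_lit 206)))))) (XT.nd (nat_lit 390) (nat_lit 152) (nat_lit 0) (XT.nd (nat_lit 156) (nat_lit 152) (nat_lit 0) (XT.nd (nat_lit 78) (nat_lit 76) (nat_lit 0) (XT.lf (nat_lit 0) (nat_lit 20883669386) (nat_lit 152) (nat_lit 346171075) (nat_lit 76) (nat_lit 39514316679) (nat_lit 12) (nat_lit 5) (nat_lit 14) (nat_lit 5) (nat_lit 13) (nat_lit 4) (nat_lit 309) (nat_lit 266) (nat_lit 205)) (XT.lf (nat_lit 0) (nat_lit 28001632050) (nat_lit 76) (nat_lit 6724625649) (nat_lit 152) (nat_lit 30094436973) (nat_lit 11) (nat_lit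 5) (nat_lit 12) (nat_lit 5) (nat_lit 13) (nat_lit 4) (nat_lit 310) (nat_lit 266) (nat_lit 204))) (XT.nd (nat_lit 78) (nat_lit 152) (nat_lit 0) (XT.lf (nat_lit 0) (nat_lit 49801785855) (nat_lit 152) (nat_lit 10770197483) (nat_lit 0) (nat_lit 8645106093) (nat_lit 11) (nat_lit 5) (nat_lit 13) (nat_lit 4) (nat_lit 11) (nat_lit 4) (nat_lit 311) (nat_lit 266) (nat_lit 203)) (XT.nd (nat_lit 78) (nat_lit 76) (nat_lit 0) (XT.lf (nat_lit 0) (nat_lit 17784062685) (nat_lit 76) (nat_lit 48671647368) (nat_lit 76) (nat_lit 7490878085) (nat_lit 10) (nat_lit 4) (nat_lit 11) (nat_lit 5) (nat_lit 11) (nat_lit 4) (nat_lit 312) (nat_lit 266) (nat_lit 202)) (XT.lf (nat_lit 0) (nat_lit 5387629453) (nat_lit 152) (nat_lit 30158434015) (nat_lit 76) (nat_lit 43495558357) (nat_lit 9) (nat_lit 5) (nat_lit 11) (nat_lit 5) (nat_lit 10) (nat_lit 4) (nat_lit 313) (nat_lit 266) (nat_lit 201))))) (XT.nd (nat_lit 234) (nat_lit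 76) (nat_lit 0) (XT.nd (nat_lit 78) (nat_lit 76) (nat_lit 0) (XT.lf (nat_lit 0) (nat_lit 19020701061) (nat_lit 152) (nat_lit 2231290099) (nat_lit 76) (nat_lit 63286798828) (nat_lit 9) (nat_lit 5) (nat_lit 11) (nat_lit 5) (nat_lit 10) (nat_lit 4) (nat_lit 314) (nat_lit 266) (nat_lit 200)) (XT.nd (nat_lit 78) (nat_lit 0) (nat_lit 0) (XT.lf (nat_lit 0) (nat_lit 28823898852) (nat_lit 76) (nat_lit 5355003179) (nat_lit 152) (nat_lit 56275112994) (nat_lit 8) (nat_lit 5) (nat_lit 9) (nat_lit 5) (nat_lit 10) (nat_lit 4) (nat_lit 315) (nat_lit 266) (nat_lit 199)) (XT.lf (nat_lit 0) (nat_lit 50758697250) (nat_lit 152) (nat_lit 34610392106) (nat_lit 0) (nat_lit 11462928841) (nat_lit 8) (nat_lit 5) (nat_lit 10) (nat_lit 4) (nat_lit 8) (nat_lit 4) (nat_lit 316) (nat_lit 266) (nat_lit 198)))) (XT.nd (nat_lit 78) (nat_lit 76) (nat_lit 0) (XT.lf (nat_lit 0) (nat_lit 68741270956) (nat_lit 152) (nat_lit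 5545289108) (nat_lit 0) (nat_lit 29429888335) (nat_lit 8) (nat_lit 5) (nat_lit 10) (nat_lit 4) (nat_lit 8) (nat_lit 4) (nat_lit 317) (nat_lit 266) (nat_lit 197)) (XT.nd (nat_lit 78) (nat_lit 0) (nat_lit 0) (XT.lf (nat_lit 0) (nat_lit 26674797171) (nat_lit 76) (nat_lit 61891251110) (nat_lit 76) (nat_lit 22565410885) (nat_lit 7) (nat_lit 4) (nat_lit 8) (nat_lit 5) (nat_lit 8) (nat_lit 4) (nat_lit 318) (nat_lit 266) (nat_lit 196)) (XT.lf (nat_lit 0) (nat_lit 61647568144) (nat_lit 76) (nat_lit 48413559569) (nat_lit 76) (nat_lit 9074332674) (nat_lit 7) (nat_lit 4) (nat_lit 8) (nat_lit 5) (nat_lit 8) (nat_lit 4) (nat_lit 319) (nat_lit 266) (nat_lit 195))))))))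
noncomputable def xc61 : XT := (XT.nd (nat_lit 1638) (nat_lit 76) (nat_lit 0) (XT.nd (nat_lit 780) (nat_lit 152) (nat_lit 0) (XT.nd (nat_lit 390) (nat_lit 76) (nat_lit 0) (XT.nd (nat_lit 156) (nat_lit 0) (nat_lit 0) (XT.nd (nat_lit 78) (nat_lit 76) (nat_lit 0) (XT.lf (nat_lit 0) (nat_lit 5308566967) (nat_lit 152) (nat_lit 28469059676) (nat_lit 76) (nat_lit 93998447443) (nat_lit 6) (nat_lit 5) (nat_lit 8) (nat_lit 5) (nat_lit 7) (nat_lit 4) (nat_lit 320) (nat_lit 266) (nat_lit 194)) (XT.lf (nat_lit 0) (nat_lit 2787457663) (nat_lit 76) (nat_lit 17773789427) (nat_lit 152) (nat_lit 116537402931) (nat_lit 5) (nat_lit 5) (nat_lit 6) (nat_lit 5) (nat_lit 7) (nat_lit 4) (nat_lit 321) (nat_lit 266) (nat_lit 193))) (XT.nd (nat_lit 78) (nat_lit 0) (nat_lit 0) (XT.lf (nat_lit 0) (nat_lit 37520191739) (nat_lit 152) (nat_lit 109601136599) (nat_lit 0) (nat_lit 21405412) (nat_lit 5) (nat_lit 5) (nat_lit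 7) (nat_lit 4) (nat_lit 5) (nat_lit 4) (nat_lit 322) (nat_lit 266) (nat_lit 192)) (XT.nd (nat_lit 78) (nat_lit 0) (nat_lit 0) (XT.lf (nat_lit 0) (nat_lit 56125969480) (nat_lit 152) (nat_lit 83232060628) (nat_lit 0) (nat_lit 18617812104) (nat_lit 5) (nat_lit 5) (nat_lit 7) (nat_lit 4) (nat_lit 5) (nat_lit 4) (nat_lit 323) (nat_lit 266) (nat_lit 191)) (XT.lf (nat_lit 0) (nat_lit 76211338112) (nat_lit 152) (nat_lit 54770204592) (nat_lit 0) (nat_lit 38694503838) (nat_lit 5) (nat_lit 5) (nat_lit 7) (nat_lit 4) (nat_lit 5) (nat_lit 4) (nat_lit 324) (nat_lit 266) (nat_lit 190))))) (XT.nd (nat_lit 156) (nat_lit 0) (nat_lit 0) (XT.nd (nat_lit 78) (nat_lit 76) (nat_lit 0) (XT.lf (nat_lit 0) (nat_lit 97895322041) (nat_lit 152) (nat_lit 24046905639) (nat_lit 0) (nat_lit 60370453602) (nat_lit 5) (nat_lit 5) (nat_lit 7) (nat_lit 4) (nat_lit 5) (nat_lit 4) (nat_lit 325) (nat_lit 266) (nat_lit 189)) (XT.lf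 (nat_lit 0) (nat_lit 9421445312) (nat_lit 76) (nat_lit 112032068801) (nat_lit 76) (nat_lit 74499761320) (nat_lit 4) (nat_lit 4) (nat_lit 5) (nat_lit 5) (nat_lit 5) (nat_lit 4) (nat_lit 326) (nat_lit 266) (nat_lit 188))) (XT.nd (nat_lit 78) (nat_lit 0) (nat_lit 0) (XT.lf (nat_lit 0) (nat_lit 46412238516) (nat_lit 76) (nat_lit 100895747860) (nat_lit 76) (nat_lit 63356552378) (nat_lit 4) (nat_lit 4) (nat_lit 5) (nat_lit 5) (nat_lit 5) (nat_lit 4) (nat_lit 327) (nat_lit 266) (nat_lit 187)) (XT.nd (nat_lit 78) (nat_lit 0) (nat_lit 0) (XT.lf (nat_lit 0) (nat_lit 86349579372) (nat_lit 76) (nat_lit 88874517826) (nat_lit 76) (nat_lit 51328944565) (nat_lit 4) (nat_lit 4) (nat_lit 5) (nat_lit 5) (nat_lit 5) (nat_lit 4) (nat_lit 328) (nat_lit 266) (nat_lit 186)) (XT.lf (nat_lit 0) (nat_lit 129470133605) (nat_lit 76) (nat_lit 75897141780) (nat_lit 76) (nat_lit 38345663168) (nat_lit 4) (nat_lit 4) (nat_lit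 5) (nat_lit 5) (nat_lit 5) (nat_lit 4) (nat_lit 329) (nat_lit 266) (nat_lit 185)))))) (XT.nd (nat_lit 390) (nat_lit 0) (nat_lit 0) (XT.nd (nat_lit 156) (nat_lit 152) (nat_lit 0) (XT.nd (nat_lit 78) (nat_lit 0) (nat_lit 0) (XT.lf (nat_lit 0) (nat_lit 176029430424) (nat_lit 76) (nat_lit 61886716753) (nat_lit 76) (nat_lit 24329770224) (nat_lit 4) (nat_lit 4) (nat_lit 5) (nat_lit 5) (nat_lit 5) (nat_lit 4) (nat_lit 330) (nat_lit 266) (nat_lit 184)) (XT.lf (nat_lit 0) (nat_lit 226303376774) (nat_lit 76) (nat_lit 46760218005) (nat_lit 76) (nat_lit 9198208589) (nat_lit 4) (nat_lit 4) (nat_lit 5) (nat_lit 5) (nat_lit 5) (nat_lit 4) (nat_lit 331) (nat_lit 266) (nat_lit 183))) (XT.nd (nat_lit 78) (nat_lit 76) (nat_lit 0) (XT.lf (nat_lit 0) (nat_lit 6910207580) (nat_lit 152) (nat_lit 23400771734) (nat_lit 76) (nat_lit 273562657048) (nat_lit 3) (nat_lit 5) (nat_lit 5) (nat_lit 5) (nat_lit 4) (nat_lit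 4) (nat_lit 332) (nat_lit 266) (nat_lit 182)) (XT.nd (nat_lit 78) (nat_lit 0) (nat_lit 0) (XT.lf (nat_lit 0) (nat_lit 11981055897) (nat_lit 76) (nat_lit 12190697166) (nat_lit 152) (nat_lit 303025789322) (nat_lit 2) (nat_lit 5) (nat_lit 3) (nat_lit 5) (nat_lit 4) (nat_lit 4) (nat_lit 333) (nat_lit 266) (nat_lit 181)) (XT.lf (nat_lit 0) (nat_lit 43339241895) (nat_lit 152) (nat_lit 301468396252) (nat_lit 0) (nat_lit 7553473356) (nat_lit 2) (nat_lit 5) (nat_lit 4) (nat_lit 4) (nat_lit 2) (nat_lit 4) (nat_lit 334) (nat_lit 266) (nat_lit 180))))) (XT.nd (nat_lit 234) (nat_lit 0) (nat_lit 0) (XT.nd (nat_lit 78) (nat_lit 0) (nat_lit 0) (XT.lf (nat_lit 0) (nat_lit 64241521379) (nat_lit 152) (nat_lit 286833967996) (nat_lit 0) (nat_lit 28452208675) (nat_lit 2) (nat_lit 5) (nat_lit 4) (nat_lit 4) (nat_lit 2) (nat_lit 4) (nat_lit 335) (nat_lit 266) (nat_lit 179)) (XT.nd (nat_lit 78) (nat_lit 0) (nat_lit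 0) (XT.lf (nat_lit 0) (nat_lit 86812125929) (nat_lit 152) (nat_lit 271036148237) (nat_lit 0) (nat_lit 51019531592) (nat_lit 2) (nat_lit 5) (nat_lit 4) (nat_lit 4) (nat_lit 2) (nat_lit 4) (nat_lit 336) (nat_lit 266) (nat_lit 178)) (XT.lf (nat_lit 0) (nat_lit 111184807276) (nat_lit 152) (nat_lit 253981320265) (nat_lit 0) (nat_lit 75389174388) (nat_lit 2) (nat_lit 5) (nat_lit 4) (nat_lit 4) (nat_lit 2) (nat_lit 4) (nat_lit 337) (nat_lit 266) (nat_lit 177)))) (XT.nd (nat_lit 78) (nat_lit 0) (nat_lit 0) (XT.lf (nat_lit 0) (nat_lit 137503996123) (nat_lit 152) (nat_lit 235568418432) (nat_lit 0) (nat_lit 101705549763) (nat_lit 2) (nat_lit 5) (nat_lit 4) (nat_lit 4) (nat_lit 2) (nat_lit 4) (nat_lit 338) (nat_lit 266) (nat_lit 176)) (XT.nd (nat_lit 78) (nat_lit 0) (nat_lit 0) (XT.lf (nat_lit 0) (nat_lit 165925658034) (nat_lit 152) (nat_lit 215688329246) (nat_lit 0) (nat_lit 130124606608) (nat_lit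 2) (nat_lit 5) (nat_lit 4) (nat_lit 4) (nat_lit 2) (nat_lit 4) (nat_lit 339) (nat_lit 266) (nat_lit 175)) (XT.lf (nat_lit 0) (nat_lit 196618217673) (nat_lit 152) (nat_lit 194223244772) (nat_lit 0) (nat_lit 160814754148) (nat_lit 2) (nat_lit 5) (nat_lit 4) (nat_lit 4) (nat_lit 2) (nat_lit 4) (nat_lit 340) (nat_lit 266) (nat_lit 174))))))) (XT.nd (nat_lit 35100) (nat_lit 0) (nat_lit 4788) (XT.nd (nat_lit 390) (nat_lit 76) (nat_lit 0) (XT.nd (nat_lit 156) (nat_lit 0) (nat_lit 0) (XT.nd (nat_lit 78) (nat_lit 0) (nat_lit 0) (XT.lf (nat_lit 0) (nat_lit 229763556874) (nat_lit 152) (nat_lit 171045964508) (nat_lit 0) (nat_lit 193957859924) (nat_lit 2) (nat_lit 5) (nat_lit 4) (nat_lit 4) (nat_lit 2) (nat_lit 4) (nat_lit 341) (nat_lit 266) (nat_lit 173)) (XT.lf (nat_lit 0) (nat_lit 265558092463) (nat_lit 152) (nat_lit 146019141609) (nat_lit 0) (nat_lit 229750327527) (nat_lit 2) (nat_lit 5) (nat_lit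 4) (nat_lit 4) (nat_lit 2) (nat_lit 4) (nat_lit 342) (nat_lit 266) (nat_lit 172))) (XT.nd (nat_lit 78) (nat_lit 0) (nat_lit 0) (XT.lf (nat_lit 0) (nat_lit 304213940205) (nat_lit 152) (nat_lit 118994468976) (nat_lit 0) (nat_lit 268404260467) (nat_lit 2) (nat_lit 5) (nat_lit 4) (nat_lit 4) (nat_lit 2) (nat_lit 4) (nat_lit 343) (nat_lit 266) (nat_lit 171)) (XT.nd (nat_lit 78) (nat_lit 0) (nat_lit 0) (XT.lf (nat_lit 0) (nat_lit 345960171790) (nat_lit 152) (nat_lit 89811800400) (nat_lit 0) (nat_lit 310148719088) (nat_lit 2) (nat_lit 5) (nat_lit 4) (nat_lit 4) (nat_lit 2) (nat_lit 4) (nat_lit 344) (nat_lit 266) (nat_lit 170)) (XT.lf (nat_lit 0) (nat_lit 391044172296) (nat_lit 152) (nat_lit 58298201550) (nat_lit 0) (nat_lit 355231077960) (nat_lit 2) (nat_lit 5) (nat_lit 4) (nat_lit 4) (nat_lit 2) (nat_lit 4) (nat_lit 345) (nat_lit 266) (nat_lit 169))))) (XT.nd (nat_lit 34476) (nat_lit 0) (nat_lit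 7524) (XT.nd (nat_lit 78) (nat_lit 76) (nat_lit 0) (XT.lf (nat_lit 0) (nat_lit 439733106170) (nat_lit 152) (nat_lit 24266925173) (nat_lit 0) (nat_lit 403918491802) (nat_lit 2) (nat_lit 5) (nat_lit 4) (nat_lit 4) (nat_lit 2) (nat_lit 4) (nat_lit 346) (nat_lit 266) (nat_lit 168)) (XT.lf (nat_lit 0) (nat_lit 12896462906) (nat_lit 76) (nat_lit 479620387449) (nat_lit 76) (nat_lit 443804365644) (nat_lit 1) (nat_lit 4) (nat_lit 2) (nat_lit 5) (nat_lit 2) (nat_lit 4) (nat_lit 347) (nat_lit 266) (nat_lit 167))) (XT.nd (nat_lit 78) (nat_lit 608) (nat_lit 0) (XT.lf (nat_lit 0) (nat_lit 1033786851) (nat_lit 0) (nat_lit 1033786851) (nat_lit 532) (nat_lit 1871587260) (nat_lit 108) (nat_lit 5) (nat_lit 108) (nat_lit 3) (nat_lit 115) (nat_lit 3) (nat_lit 267) (nat_lit 267) (nat_lit 246)) (XT.nd (nat_lit 78) (nat_lit 608) (nat_lit 0) (XT.lf (nat_lit 0) (nat_lit 6187765585) (nat_lit 532) (nat_lit 54668477)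 (nat_lit 608) (nat_lit 1852303541) (nat_lit 108) (nat_lit 5) (nat_lit 115) (nat_lit 3) (nat_lit 116) (nat_lit 5) (nat_lit 268) (nat_lit 267) (nat_lit 245)) (XT.lf (nat_lit 0) (nat_lit 20044773) (nat_lit 608) (nat_lit 2109752713) (nat_lit 684) (nat_lit 6201707000) (nat_lit 100) (nat_lit 5) (nat_lit 108) (nat_lit 5) (nat_lit 109) (nat_lit 5) (nat_lit 269) (nat_lit 267) (nat_lit 244)))))) (XT.nd (nat_lit 390) (nat_lit 2280) (nat_lit 0) (XT.nd (nat_lit 156) (nat_lit 532) (nat_lit 0) (XT.nd (nat_lit 78) (nat_lit 0) (nat_lit 0) (XT.lf (nat_lit 0) (nat_lit 1968631965) (nat_lit 608) (nat_lit 4211551159) (nat_lit 684) (nat_lit 2409139865) (nat_lit 101) (nat_lit 5) (nat_lit 109) (nat_lit 5) (nat_lit 110) (nat_lit 5) (nat_lit 270) (nat_lit 267) (nat_lit 243)) (XT.lf (nat_lit 76) (nat_lit 2527387258) (nat_lit 0) (nat_lit 1495361025) (nat_lit 684) (nat_lit 4847892473) (nat_lit 102) (nat_lit 5) (nat_lit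 101) (nat_lit 5) (nat_lit 110) (nat_lit 5) (nat_lit 271) (nat_lit 267) (nat_lit 242))) (XT.nd (nat_lit 78) (nat_lit 608) (nat_lit 0) (XT.lf (nat_lit 76) (nat_lit 633896793) (nat_lit 0) (nat_lit 5595481550) (nat_lit 684) (nat_lit 2946005909) (nat_lit 103) (nat_lit 5) (nat_lit 102) (nat_lit 5) (nat_lit 111) (nat_lit 5) (nat_lit 272) (nat_lit 267) (nat_lit 241)) (XT.nd (nat_lit 78) (nat_lit 608) (nat_lit 0) (XT.lf (nat_lit 76) (nat_lit 8260086524) (nat_lit 0) (nat_lit 345372563) (nat_lit 684) (nat_lit 899707249) (nat_lit 103) (nat_lit 5) (nat_lit 102) (nat_lit 5) (nat_lit 111) (nat_lit 5) (nat_lit 273) (nat_lit 267) (nat_lit 240)) (XT.lf (nat_lit 0) (nat_lit 1324689842) (nat_lit 684) (nat_lit 3224081004) (nat_lit 76) (nat_lit 5308989727) (nat_lit 94) (nat_lit 5) (nat_lit 103) (nat_lit 5) (nat_lit 95) (nat_lit 5) (nat_lit 274) (nat_lit 267) (nat_lit 239))))) (XT.nd (nat_lit 234) (nat_lit 684)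 (nat_lit 0) (XT.nd (nat_lit 78) (nat_lit 912) (nat_lit 0) (XT.lf (nat_lit 0) (nat_lit 3696362563) (nat_lit 760) (nat_lit 5280155781) (nat_lit 76) (nat_lit 1261513414) (nat_lit 85) (nat_lit 5) (nat_lit 95) (nat_lit 5) (nat_lit 86) (nat_lit 5) (nat_lit 275) (nat_lit 267) (nat_lit 238)) (XT.nd (nat_lit 78) (nat_lit 380) (nat_lit 0) (XT.lf (nat_lit 0) (nat_lit 3177556787) (nat_lit 532) (nat_lit 3145972682) (nat_lit 608) (nat_lit 4322137830) (nat_lit 78) (nat_lit 5) (nat_lit 85) (nat_lit 5) (nat_lit 86) (nat_lit 5) (nat_lit 276) (nat_lit 267) (nat_lit 237)) (XT.lf (nat_lit 0) (nat_lit 1298825923) (nat_lit 380) (nat_lit 7914520578) (nat_lit 456) (nat_lit 1870156938) (nat_lit 73) (nat_lit 5) (nat_lit 78) (nat_lit 5) (nat_lit 79) (nat_lit 5) (nat_lit 277) (nat_lit 267) (nat_lit 236)))) (XT.nd (nat_lit 78) (nat_lit 608) (nat_lit 0) (XT.lf (nat_lit 0) (nat_lit 832496831) (nat_lit 456) (nat_lit 693408917)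 (nat_lit 76) (nat_lit 10026071014) (nat_lit 72) (nat_lit 5) (nat_lit 78) (nat_lit 5) (nat_lit 73) (nat_lit 5) (nat_lit 278) (nat_lit 267) (nat_lit 235)) (XT.nd (nat_lit 78) (nat_lit 304) (nat_lit 0) (XT.lf (nat_lit 0) (nat_lit 3820466876) (nat_lit 380) (nat_lit 2851846533) (nat_lit 76) (nat_lit 5377524772) (nat_lit 68) (nat_lit 5) (nat_lit 73) (nat_lit 5) (nat_lit 69) (nat_lit 5) (nat_lit 279) (nat_lit 267) (nat_lit 234)) (XT.lf (nat_lit 0) (nat_lit 7114083387) (nat_lit 380) (nat_lit 5161367531) (nat_lit 76) (nat_lit 308908634) (nat_lit 64) (nat_lit 5) (nat_lit 69) (nat_lit 5) (nat_lit 65) (nat_lit 5) (nat_lit 280) (nat_lit 267) (nat_lit 233))))))))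
noncomputable def xc62 : XT := (XT.nd (nat_lit 1560) (nat_lit 1140) (nat_lit 0) (XT.nd (nat_lit 780) (nat_lit 1140) (nat_lit 0) (XT.nd (nat_lit 390) (nat_lit 988) (nat_lit 0) (XT.nd (nat_lit 156) (nat_lit 456) (nat_lit 0) (XT.nd (nat_lit 78) (nat_lit 380) (nat_lit 0) (XT.lf (nat_lit 0) (nat_lit 5420634072) (nat_lit 304) (nat_lit 5410979605) (nat_lit 380) (nat_lit 2322157254) (nat_lit 60) (nat_lit 5) (nat_lit 64) (nat_lit 5) (nat_lit 65) (nat_lit 5) (nat_lit 281) (nat_lit 267) (nat_lit 232)) (XT.lf (nat_lit 0) (nat_lit 1135369614) (nat_lit 380) (nat_lit 10544084699) (nat_lit 76) (nat_lit 2083968621) (nat_lit 55) (nat_lit 5) (nat_lit 60) (nat_lit 5) (nat_lit 56) (nat_lit 5) (nat_lit 282) (nat_lit 267) (nat_lit 231))) (XT.nd (nat_lit 78) (nat_lit 228) (nat_lit 0) (XT.lf (nat_lit 0) (nat_lit 698869887) (nat_lit 228) (nat_lit 4250107663) (nat_lit 304) (nat_lit 9463046425) (nat_lit 52) (nat_lit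 5) (nat_lit 55) (nat_lit 5) (nat_lit 56) (nat_lit 5) (nat_lit 283) (nat_lit 267) (nat_lit 230)) (XT.nd (nat_lit 78) (nat_lit 228) (nat_lit 0) (XT.lf (nat_lit 0) (nat_lit 9238016090) (nat_lit 304) (nat_lit 2046606388) (nat_lit 76) (nat_lit 3819486567) (nat_lit 52) (nat_lit 5) (nat_lit 56) (nat_lit 5) (nat_lit 53) (nat_lit 5) (nat_lit 284) (nat_lit 267) (nat_lit 229)) (XT.lf (nat_lit 0) (nat_lit 10733341658) (nat_lit 228) (nat_lit 3306396274) (nat_lit 304) (nat_lit 1803449645) (nat_lit 49) (nat_lit 5) (nat_lit 52) (nat_lit 5) (nat_lit 53) (nat_lit 5) (nat_lit 285) (nat_lit 267) (nat_lit 228))))) (XT.nd (nat_lit 156) (nat_lit 456) (nat_lit 0) (XT.nd (nat_lit 78) (nat_lit 228) (nat_lit 0) (XT.lf (nat_lit 0) (nat_lit 2682958919) (nat_lit 304) (nat_lit 8623282963) (nat_lit 76) (nat_lit 5324152252) (nat_lit 45) (nat_lit 5) (nat_lit 49) (nat_lit 5) (nat_lit 46) (nat_lit 5) (nat_lit 286) (nat_lit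 267) (nat_lit 227)) (XT.lf (nat_lit 0) (nat_lit 4858553020) (nat_lit 228) (nat_lit 2765666294) (nat_lit 304) (nat_lit 9847008966) (nat_lit 42) (nat_lit 5) (nat_lit 45) (nat_lit 5) (nat_lit 46) (nat_lit 5) (nat_lit 287) (nat_lit 267) (nat_lit 226))) (XT.nd (nat_lit 78) (nat_lit 304) (nat_lit 0) (XT.lf (nat_lit 0) (nat_lit 1202301612) (nat_lit 152) (nat_lit 11969963858) (nat_lit 228) (nat_lit 5196568574) (nat_lit 40) (nat_lit 5) (nat_lit 42) (nat_lit 5) (nat_lit 43) (nat_lit 5) (nat_lit 288) (nat_lit 267) (nat_lit 225)) (XT.nd (nat_lit 78) (nat_lit 228) (nat_lit 0) (XT.lf (nat_lit 0) (nat_lit 42803393) (nat_lit 228) (nat_lit 2888034964) (nat_lit 76) (nat_lit 16397049384) (nat_lit 39) (nat_lit 5) (nat_lit 42) (nat_lit 5) (nat_lit 40) (nat_lit 5) (nat_lit 289) (nat_lit 267) (nat_lit 224)) (XT.lf (nat_lit 0) (nat_lit 5777829696) (nat_lit 304) (nat_lit 7688828598) (nat_lit 76) (nat_lit 6879884219)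 (nat_lit 36) (nat_lit 5) (nat_lit 40) (nat_lit 5) (nat_lit 37) (nat_lit 5) (nat_lit 290) (nat_lit 267) (nat_lit 223)))))) (XT.nd (nat_lit 390) (nat_lit 456) (nat_lit 0) (XT.nd (nat_lit 156) (nat_lit 380) (nat_lit 0) (XT.nd (nat_lit 78) (nat_lit 152) (nat_lit 0) (XT.lf (nat_lit 0) (nat_lit 8241076806) (nat_lit 152) (nat_lit 3907966607) (nat_lit 228) (nat_lit 9288836815) (nat_lit 34) (nat_lit 5) (nat_lit 36) (nat_lit 5) (nat_lit 37) (nat_lit 5) (nat_lit 291) (nat_lit 267) (nat_lit 222)) (XT.lf (nat_lit 0) (nat_lit 3027429951) (nat_lit 152) (nat_lit 16236512679) (nat_lit 228) (nat_lit 3340938307) (nat_lit 32) (nat_lit 5) (nat_lit 34) (nat_lit 5) (nat_lit 35) (nat_lit 5) (nat_lit 292) (nat_lit 267) (nat_lit 221))) (XT.nd (nat_lit 78) (nat_lit 304) (nat_lit 0) (XT.lf (nat_lit 0) (nat_lit 3235793920) (nat_lit 228) (nat_lit 3026183348) (nat_lit 76) (nat_lit 17588323209) (nat_lit 31) (nat_lit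 5) (nat_lit 34) (nat_lit 5) (nat_lit 32) (nat_lit 5) (nat_lit 293) (nat_lit 267) (nat_lit 220)) (XT.nd (nat_lit 78) (nat_lit 152) (nat_lit 0) (XT.lf (nat_lit 0) (nat_lit 10491158054) (nat_lit 228) (nat_lit 10048009471) (nat_lit 76) (nat_lit 4640015636) (nat_lit 29) (nat_lit 5) (nat_lit 32) (nat_lit 5) (nat_lit 30) (nat_lit 5) (nat_lit 294) (nat_lit 267) (nat_lit 219)) (XT.lf (nat_lit 0) (nat_lit 8328942840) (nat_lit 152) (nat_lit 10244738825) (nat_lit 228) (nat_lit 8028400160) (nat_lit 27) (nat_lit 5) (nat_lit 29) (nat_lit 5) (nat_lit 30) (nat_lit 5) (nat_lit 295) (nat_lit 267) (nat_lit 218))))) (XT.nd (nat_lit 156) (nat_lit 304) (nat_lit 0) (XT.nd (nat_lit 78) (nat_lit 76) (nat_lit 0) (XT.lf (nat_lit 0) (nat_lit 331607414) (nat_lit 76) (nat_lit 27127162088) (nat_lit 152) (nat_lit 672283539) (nat_lit 26) (nat_lit 5) (nat_lit 27) (nat_lit 5) (nat_lit 28) (nat_lit 4) (nat_lit 296) (nat_lit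 267) (nat_lit 217)) (XT.lf (nat_lit 0) (nat_lit 7496427628) (nat_lit 152) (nat_lit 9046386395) (nat_lit 76) (nat_lit 13211041814) (nat_lit 25) (nat_lit 5) (nat_lit 27) (nat_lit 5) (nat_lit 26) (nat_lit 5) (nat_lit 297) (nat_lit 267) (nat_lit 216))) (XT.nd (nat_lit 78) (nat_lit 152) (nat_lit 0) (XT.lf (nat_lit 0) (nat_lit 11502897405) (nat_lit 152) (nat_lit 4935606461) (nat_lit 228) (nat_lit 15060288517) (nat_lit 23) (nat_lit 5) (nat_lit 25) (nat_lit 5) (nat_lit 26) (nat_lit 5) (nat_lit 298) (nat_lit 267) (nat_lit 215)) (XT.nd (nat_lit 78) (nat_lit 76) (nat_lit 0) (XT.lf (nat_lit 0) (nat_lit 478182975) (nat_lit 76) (nat_lit 25868995778) (nat_lit 152) (nat_lit 7023612788) (nat_lit 22) (nat_lit 5) (nat_lit 23) (nat_lit 5) (nat_lit 24) (nat_lit 4) (nat_lit 299) (nat_lit 267) (nat_lit 214)) (XT.lf (nat_lit 0) (nat_lit 2006318765) (nat_lit 152) (nat_lit 12243847474) (nat_lit 76) (nat_lit 21120951309)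 (nat_lit 21) (nat_lit 5) (nat_lit 23) (nat_lit 5) (nat_lit 22) (nat_lit 5) (nat_lit 300) (nat_lit 267) (nat_lit 213))))))) (XT.nd (nat_lit 780) (nat_lit 380) (nat_lit 0) (XT.nd (nat_lit 390) (nat_lit 304) (nat_lit 0) (XT.nd (nat_lit 156) (nat_lit 304) (nat_lit 0) (XT.nd (nat_lit 78) (nat_lit 0) (nat_lit 0) (XT.lf (nat_lit 0) (nat_lit 10211360348) (nat_lit 152) (nat_lit 1432516969) (nat_lit 228) (nat_lit 25875293912) (nat_lit 19) (nat_lit 5) (nat_lit 21) (nat_lit 5) (nat_lit 22) (nat_lit 5) (nat_lit 301) (nat_lit 267) (nat_lit 212)) (XT.lf (nat_lit 0) (nat_lit 22432753240) (nat_lit 228) (nat_lit 5178145654) (nat_lit 76) (nat_lit 12209176844) (nat_lit 19) (nat_lit 5) (nat_lit 22) (nat_lit 5) (nat_lit 20) (nat_lit 4) (nat_lit 302) (nat_lit 267) (nat_lit 211))) (XT.nd (nat_lit 78) (nat_lit 228) (nat_lit 0) (XT.lf (nat_lit 0) (nat_lit 19265570094) (nat_lit 76) (nat_lit 15116125563) (nat_lit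 152) (nat_lit 7908529652) (nat_lit 18) (nat_lit 5) (nat_lit 19) (nat_lit 5) (nat_lit 20) (nat_lit 4) (nat_lit 303) (nat_lit 267) (nat_lit 210)) (XT.nd (nat_lit 78) (nat_lit 0) (nat_lit 0) (XT.lf (nat_lit 0) (nat_lit 837610489) (nat_lit 152) (nat_lit 1494085001) (nat_lit 228) (nat_lit 42620608804) (nat_lit 15) (nat_lit 5) (nat_lit 17) (nat_lit 5) (nat_lit 18) (nat_lit 5) (nat_lit 304) (nat_lit 267) (nat_lit 209)) (XT.lf (nat_lit 0) (nat_lit 13705672219) (nat_lit 228) (nat_lit 20769039920) (nat_lit 76) (nat_lit 13316591318) (nat_lit 15) (nat_lit 5) (nat_lit 18) (nat_lit 5) (nat_lit 16) (nat_lit 4) (nat_lit 305) (nat_lit 267) (nat_lit 208))))) (XT.nd (nat_lit 156) (nat_lit 228) (nat_lit 0) (XT.nd (nat_lit 78) (nat_lit 0) (nat_lit 0) (XT.lf (nat_lit 0) (nat_lit 4520697499) (nat_lit 76) (nat_lit 21540467821) (nat_lit 152) (nat_lit 24792692837) (nat_lit 14) (nat_lit 5) (nat_lit 15) (nat_lit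 5) (nat_lit 16) (nat_lit 4) (nat_lit 306) (nat_lit 267) (nat_lit 207)) (XT.lf (nat_lit 0) (nat_lit 32534074913) (nat_lit 76) (nat_lit 7209778322) (nat_lit 152) (nat_lit 14400640597) (nat_lit 14) (nat_lit 5) (nat_lit 15) (nat_lit 5) (nat_lit 16) (nat_lit 4) (nat_lit 307) (nat_lit 267) (nat_lit 206))) (XT.nd (nat_lit 78) (nat_lit 152) (nat_lit 0) (XT.lf (nat_lit 0) (nat_lit 5084852392) (nat_lit 76) (nat_lit 49623184583) (nat_lit 76) (nat_lit 2981012650) (nat_lit 13) (nat_lit 4) (nat_lit 14) (nat_lit 5) (nat_lit 14) (nat_lit 4) (nat_lit 308) (nat_lit 267) (nat_lit 205)) (XT.nd (nat_lit 78) (nat_lit 76) (nat_lit 0) (XT.lf (nat_lit 0) (nat_lit 9536121085) (nat_lit 152) (nat_lit 27122626624) (nat_lit 76) (nat_lit 24826970016) (nat_lit 12) (nat_lit 5) (nat_lit 14) (nat_lit 5) (nat_lit 13) (nat_lit 4) (nat_lit 309) (nat_lit 267) (nat_lit 204)) (XT.lf (nat_lit 0) (nat_lit 322364378) (nat_lit 76)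 (nat_lit 22614882814) (nat_lit 152) (nat_lit 42647086398) (nat_lit 11) (nat_lit 5) (nat_lit 12) (nat_lit 5) (nat_lit 13) (nat_lit 4) (nat_lit 310) (nat_lit 267) (nat_lit 203)))))) (XT.nd (nat_lit 390) (nat_lit 228) (nat_lit 0) (XT.nd (nat_lit 156) (nat_lit 152) (nat_lit 0) (XT.nd (nat_lit 78) (nat_lit 0) (nat_lit 0) (XT.lf (nat_lit 0) (nat_lit 30897865204) (nat_lit 76) (nat_lit 6966598974) (nat_lit 152) (nat_lit 32123684564) (nat_lit 11) (nat_lit 5) (nat_lit 12) (nat_lit 5) (nat_lit 13) (nat_lit 4) (nat_lit 311) (nat_lit 267) (nat_lit 202)) (XT.lf (nat_lit 0) (nat_lit 54123639095) (nat_lit 152) (nat_lit 11011736656) (nat_lit 0) (nat_lit 9602013638) (nat_lit 11) (nat_lit 5) (nat_lit 13) (nat_lit 4) (nat_lit 11) (nat_lit 4) (nat_lit 312) (nat_lit 267) (nat_lit 201))) (XT.nd (nat_lit 78) (nat_lit 76) (nat_lit 0) (XT.lf (nat_lit 0) (nat_lit 19799916551) (nat_lit 76) (nat_lit 52294205498) (nat_lit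 76) (nat_lit 7751927160) (nat_lit 10) (nat_lit 4) (nat_lit 11) (nat_lit 5) (nat_lit 11) (nat_lit 4) (nat_lit 313) (nat_lit 267) (nat_lit 200)) (XT.nd (nat_lit 78) (nat_lit 0) (nat_lit 0) (XT.lf (nat_lit 0) (nat_lit 6121784237) (nat_lit 152) (nat_lit 32011743690) (nat_lit 76) (nat_lit 47216118081) (nat_lit 9) (nat_lit 5) (nat_lit 11) (nat_lit 5) (nat_lit 10) (nat_lit 4) (nat_lit 314) (nat_lit 267) (nat_lit 199)) (XT.lf (nat_lit 0) (nat_lit 20823046431) (nat_lit 152) (nat_lit 1891862708) (nat_lit 76) (nat_lit 68572812230) (nat_lit 9) (nat_lit 5) (nat_lit 11) (nat_lit 5) (nat_lit 10) (nat_lit 4) (nat_lit 315) (nat_lit 267) (nat_lit 198))))) (XT.nd (nat_lit 234) (nat_lit 152) (nat_lit 0) (XT.nd (nat_lit 78) (nat_lit 0) (nat_lit 0) (XT.lf (nat_lit 0) (nat_lit 31625232726) (nat_lit 76) (nat_lit 5555613879) (nat_lit 152) (nat_lit 60495980822) (nat_lit 8) (nat_lit 5) (nat_lit 9) (nat_lit 5) (nat_lit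 10) (nat_lit 4) (nat_lit 316) (nat_lit 267) (nat_lit 197)) (XT.nd (nat_lit 78) (nat_lit 0) (nat_lit 0) (XT.lf (nat_lit 0) (nat_lit 55070493813) (nat_lit 152) (nat_lit 36911284278) (nat_lit 0) (nat_lit 12584128765) (nat_lit 8) (nat_lit 5) (nat_lit 10) (nat_lit 4) (nat_lit 8) (nat_lit 4) (nat_lit 317) (nat_lit 267) (nat_lit 196)) (XT.lf (nat_lit 0) (nat_lit 74473073357) (nat_lit 152) (nat_lit 5555635203) (nat_lit 0) (nat_lit 31973321639) (nat_lit 8) (nat_lit 5) (nat_lit 10) (nat_lit 4) (nat_lit 8) (nat_lit 4) (nat_lit 318) (nat_lit 267) (nat_lit 195)))) (XT.nd (nat_lit 78) (nat_lit 76) (nat_lit 0) (XT.lf (nat_lit 0) (nat_lit 29223228286) (nat_lit 76) (nat_lit 66649852990) (nat_lit 76) (nat_lit 24137706207) (nat_lit 7) (nat_lit 4) (nat_lit 8) (nat_lit 5) (nat_lit 8) (nat_lit 4) (nat_lit 319) (nat_lit 267) (nat_lit 194)) (XT.nd (nat_lit 78) (nat_lit 76) (nat_lit 0) (XT.lf (nat_lit 0) (nat_lit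 66963121135) (nat_lit 76) (nat_lit 52108220067) (nat_lit 76) (nat_lit 9584596373) (nat_lit 7) (nat_lit 4) (nat_lit 8) (nat_lit 5) (nat_lit 8) (nat_lit 4) (nat_lit 320) (nat_lit 267) (nat_lit 193)) (XT.lf (nat_lit 0) (nat_lit 5926566876) (nat_lit 152) (nat_lit 30384788369) (nat_lit 76) (nat_lit 101677056607) (nat_lit 6) (nat_lit 5) (nat_lit 8) (nat_lit 5) (nat_lit 7) (nat_lit 4) (nat_lit 321) (nat_lit 267) (nat_lit 192))))))))
noncomputable def xc63 : XT := (XT.nd (nat_lit 1638) (nat_lit 0) (nat_lit 0) (XT.nd (nat_lit 780) (nat_lit 152) (nat_lit 0) (XT.nd (nat_lit 390) (nat_lit 76) (nat_lit 0) (XT.nd (nat_lit 156) (nat_lit 0) (nat_lit 0) (XT.nd (nat_lit 78) (nat_lit 0) (nat_lit 0) (XT.lf (nat_lit 0) (nat_lit 3356527141) (nat_lit 76) (nat_lit 19034017838) (nat_lit 152) (nat_lit 125666700809) (nat_lit 5) (nat_lit 5) (nat_lit 6) (nat_lit 5) (nat_lit 7) (nat_lit 4) (nat_lit 322) (nat_lit 267)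 (nat_lit 191)) (XT.lf (nat_lit 0) (nat_lit 40694883298) (nat_lit 152) (nat_lit 118042519283) (nat_lit 0) (nat_lit 168025383) (nat_lit 5) (nat_lit 5) (nat_lit 7) (nat_lit 4) (nat_lit 5) (nat_lit 4) (nat_lit 323) (nat_lit 267) (nat_lit 190))) (XT.nd (nat_lit 78) (nat_lit 0) (nat_lit 0) (XT.lf (nat_lit 0) (nat_lit 60776302798) (nat_lit 152) (nat_lit 89588117846) (nat_lit 0) (nat_lit 20241410719) (nat_lit 5) (nat_lit 5) (nat_lit 7) (nat_lit 4) (nat_lit 5) (nat_lit 4) (nat_lit 324) (nat_lit 267) (nat_lit 189)) (XT.nd (nat_lit 78) (nat_lit 0) (nat_lit 0) (XT.lf (nat_lit 0) (nat_lit 82456630123) (nat_lit 152) (nat_lit 58871721299) (nat_lit 0) (nat_lit 41914299003) (nat_lit 5) (nat_lit 5) (nat_lit 7) (nat_lit 4) (nat_lit 5) (nat_lit 4) (nat_lit 325) (nat_lit 267) (nat_lit 188)) (XT.lf (nat_lit 0) (nat_lit 105864341288) (nat_lit 152) (nat_lit 25711306553) (nat_lit 0) (nat_lit 65315122166) (nat_lit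 5) (nat_lit 5) (nat_lit 7) (nat_lit 4) (nat_lit 5) (nat_lit 4) (nat_lit 326) (nat_lit 267) (nat_lit 187))))) (XT.nd (nat_lit 156) (nat_lit 0) (nat_lit 0) (XT.nd (nat_lit 78) (nat_lit 0) (nat_lit 0) (XT.lf (nat_lit 0) (nat_lit 10423241373) (nat_lit 76) (nat_lit 120877643289) (nat_lit 76) (nat_lit 80322046388) (nat_lit 4) (nat_lit 4) (nat_lit 5) (nat_lit 5) (nat_lit 5) (nat_lit 4) (nat_lit 327) (nat_lit 267) (nat_lit 186)) (XT.lf (nat_lit 0) (nat_lit 50354921704) (nat_lit 76) (nat_lit 108859082674) (nat_lit 76) (nat_lit 68297580422) (nat_lit 4) (nat_lit 4) (nat_lit 5) (nat_lit 5) (nat_lit 5) (nat_lit 4) (nat_lit 328) (nat_lit 267) (nat_lit 185))) (XT.nd (nat_lit 78) (nat_lit 0) (nat_lit 0) (XT.lf (nat_lit 0) (nat_lit 93470234710) (nat_lit 76) (nat_lit 95884178312) (nat_lit 76) (nat_lit 55317208143) (nat_lit 4) (nat_lit 4) (nat_lit 5) (nat_lit 5) (nat_lit 5) (nat_lit 4) (nat_lit 329) (nat_lit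 267) (nat_lit 184)) (XT.nd (nat_lit 78) (nat_lit 0) (nat_lit 0) (XT.lf (nat_lit 0) (nat_lit 140024678541) (nat_lit 76) (nat_lit 81876041882) (nat_lit 76) (nat_lit 41304008826) (nat_lit 4) (nat_lit 4) (nat_lit 5) (nat_lit 5) (nat_lit 5) (nat_lit 4) (nat_lit 330) (nat_lit 267) (nat_lit 183)) (XT.lf (nat_lit 0) (nat_lit 190294131384) (nat_lit 76) (nat_lit 66751662204) (nat_lit 76) (nat_lit 26174941290) (nat_lit 4) (nat_lit 4) (nat_lit 5) (nat_lit 5) (nat_lit 5) (nat_lit 4) (nat_lit 331) (nat_lit 267) (nat_lit 182)))))) (XT.nd (nat_lit 390) (nat_lit 0) (nat_lit 0) (XT.nd (nat_lit 156) (nat_lit 76) (nat_lit 0) (XT.nd (nat_lit 78) (nat_lit 76) (nat_lit 0) (XT.lf (nat_lit 0) (nat_lit 244576486292) (nat_lit 76) (nat_lit 50421413325) (nat_lit 76) (nat_lit 9840351802) (nat_lit 4) (nat_lit 4) (nat_lit 5) (nat_lit 5) (nat_lit 5) (nat_lit 4) (nat_lit 332) (nat_lit 267) (nat_lit 181)) (XT.lf (nat_lit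 0) (nat_lit 7547018683) (nat_lit 152) (nat_lit 25113692304) (nat_lit 76) (nat_lit 295518585382) (nat_lit 3) (nat_lit 5) (nat_lit 5) (nat_lit 5) (nat_lit 4) (nat_lit 4) (nat_lit 333) (nat_lit 267) (nat_lit 180))) (XT.nd (nat_lit 78) (nat_lit 0) (nat_lit 0) (XT.lf (nat_lit 0) (nat_lit 13091765457) (nat_lit 76) (nat_lit 13093877194) (nat_lit 152) (nat_lit 327183666790) (nat_lit 2) (nat_lit 5) (nat_lit 3) (nat_lit 5) (nat_lit 4) (nat_lit 4) (nat_lit 334) (nat_lit 267) (nat_lit 179)) (XT.nd (nat_lit 78) (nat_lit 0) (nat_lit 0) (XT.lf (nat_lit 0) (nat_lit 46881635549) (nat_lit 152) (nat_lit 325442223397) (nat_lit 0) (nat_lit 8222352031) (nat_lit 2) (nat_lit 5) (nat_lit 4) (nat_lit 4) (nat_lit 2) (nat_lit 4) (nat_lit 335) (nat_lit 267) (nat_lit 178)) (XT.lf (nat_lit 0) (nat_lit 69450523000) (nat_lit 152) (nat_lit 309647681219) (nat_lit 0) (nat_lit 30788200931) (nat_lit 2) (nat_lit 5) (nat_lit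 4) (nat_lit 4) (nat_lit 2) (nat_lit 4) (nat_lit 336) (nat_lit 267) (nat_lit 177))))) (XT.nd (nat_lit 234) (nat_lit 0) (nat_lit 0) (XT.nd (nat_lit 78) (nat_lit 0) (nat_lit 0) (XT.lf (nat_lit 0) (nat_lit 93821614439) (nat_lit 152) (nat_lit 292595888043) (nat_lit 0) (nat_lit 55156478899) (nat_lit 2) (nat_lit 5) (nat_lit 4) (nat_lit 4) (nat_lit 2) (nat_lit 4) (nat_lit 337) (nat_lit 267) (nat_lit 176)) (XT.nd (nat_lit 78) (nat_lit 0) (nat_lit 0) (XT.lf (nat_lit 0) (nat_lit 120139331150) (nat_lit 152) (nat_lit 274185796207) (nat_lit 0) (nat_lit 81471590543) (nat_lit 2) (nat_lit 5) (nat_lit 4) (nat_lit 4) (nat_lit 2) (nat_lit 4) (nat_lit 338) (nat_lit 267) (nat_lit 175)) (XT.lf (nat_lit 0) (nat_lit 148559629972) (nat_lit 152) (nat_lit 254308308871) (nat_lit 0) (nat_lit 109889477266) (nat_lit 2) (nat_lit 5) (nat_lit 4) (nat_lit 4) (nat_lit 2) (nat_lit 4) (nat_lit 339) (nat_lit 267) (nat_lit 174))))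 (XT.nd (nat_lit 78) (nat_lit 0) (nat_lit 0) (XT.lf (nat_lit 0) (nat_lit 179250927491) (nat_lit 152) (nat_lit 232845633516) (nat_lit 0) (nat_lit 140578541360) (nat_lit 2) (nat_lit 5) (nat_lit 4) (nat_lit 4) (nat_lit 2) (nat_lit 4) (nat_lit 340) (nat_lit 267) (nat_lit 173)) (XT.nd (nat_lit 78) (nat_lit 0) (nat_lit 0) (XT.lf (nat_lit 0) (nat_lit 212395098063) (nat_lit 152) (nat_lit 209670583918) (nat_lit 0) (nat_lit 173720643946) (nat_lit 2) (nat_lit 5) (nat_lit 4) (nat_lit 4) (nat_lit 2) (nat_lit 4) (nat_lit 341) (nat_lit 267) (nat_lit 172)) (XT.lf (nat_lit 0) (nat_lit 248188551587) (nat_lit 152) (nat_lit 184645826451) (nat_lit 0) (nat_lit 209512182669) (nat_lit 2) (nat_lit 5) (nat_lit 4) (nat_lit 4) (nat_lit 2) (nat_lit 4) (nat_lit 342) (nat_lit 267) (nat_lit 171))))))) (XT.nd (nat_lit 35178) (nat_lit 0) (nat_lit 4028) (XT.nd (nat_lit 34788) (nat_lit 0) (nat_lit 7448) (XT.nd (nat_lit 156)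 (nat_lit 0) (nat_lit 0) (XT.nd (nat_lit 78) (nat_lit 0) (nat_lit 0) (XT.lf (nat_lit 0) (nat_lit 286843397418) (nat_lit 152) (nat_lit 157623066254) (nat_lit 0) (nat_lit 248165255535) (nat_lit 2) (nat_lit 5) (nat_lit 4) (nat_lit 4) (nat_lit 2) (nat_lit 4) (nat_lit 343) (nat_lit 267) (nat_lit 170)) (XT.lf (nat_lit 0) (nat_lit 328588701308) (nat_lit 152) (nat_lit 128442168454) (nat_lit 0) (nat_lit 289908917791) (nat_lit 2) (nat_lit 5) (nat_lit 4) (nat_lit 4) (nat_lit 2) (nat_lit 4) (nat_lit 344) (nat_lit 267) (nat_lit 169))) (XT.nd (nat_lit 78) (nat_lit 0) (nat_lit 0) (XT.lf (nat_lit 0) (nat_lit 373671842837) (nat_lit 152) (nat_lit 96930209210) (nat_lit 0) (nat_lit 334990539288) (nat_lit 2) (nat_lit 5) (nat_lit 4) (nat_lit 4) (nat_lit 2) (nat_lit 4) (nat_lit 345) (nat_lit 267) (nat_lit 168)) (XT.nd (nat_lit 78) (nat_lit 0) (nat_lit 0) (XT.lf (nat_lit 0) (nat_lit 422359981361) (nat_lit 152)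 (nat_lit 62900450987) (nat_lit 0) (nat_lit 383677270376) (nat_lit 2) (nat_lit 5) (nat_lit 4) (nat_lit 4) (nat_lit 2) (nat_lit 4) (nat_lit 346) (nat_lit 267) (nat_lit 167)) (XT.lf (nat_lit 0) (nat_lit 474941639183) (nat_lit 152) (nat_lit 26151235958) (nat_lit 0) (nat_lit 436257625015) (nat_lit 2) (nat_lit 5) (nat_lit 4) (nat_lit 4) (nat_lit 2) (nat_lit 4) (nat_lit 347) (nat_lit 267) (nat_lit 166))))) (XT.nd (nat_lit 156) (nat_lit 0) (nat_lit 0) (XT.nd (nat_lit 78) (nat_lit 608) (nat_lit 0) (XT.lf (nat_lit 0) (nat_lit 2022823515) (nat_lit 0) (nat_lit 2022823515) (nat_lit 532) (nat_lit 113761626) (nat_lit 108) (nat_lit 5) (nat_lit 108) (nat_lit 3) (nat_lit 115) (nat_lit 3) (nat_lit 268) (nat_lit 268) (nat_lit 244)) (XT.lf (nat_lit 0) (nat_lit 1429053529) (nat_lit 608) (nat_lit 6708002973) (nat_lit 684) (nat_lit 428235799) (nat_lit 100) (nat_lit 5) (nat_lit 108) (nat_lit 5) (nat_lit 109) (nat_lit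 5) (nat_lit 269) (nat_lit 268) (nat_lit 243))) (XT.nd (nat_lit 78) (nat_lit 0) (nat_lit 76) (XT.lf (nat_lit 0) (nat_lit 3191679277) (nat_lit 608) (nat_lit 368176671) (nat_lit 684) (nat_lit 5272724030) (nat_lit 100) (nat_lit 5) (nat_lit 108) (nat_lit 5) (nat_lit 109) (nat_lit 5) (nat_lit 270) (nat_lit 268) (nat_lit 242)) (XT.nd (nat_lit 78) (nat_lit 0) (nat_lit 0) (XT.lf (nat_lit 0) (nat_lit 5072123621) (nat_lit 608) (nat_lit 2548782034) (nat_lit 684) (nat_lit 1501834117) (nat_lit 101) (nat_lit 5) (nat_lit 109) (nat_lit 5) (nat_lit 110) (nat_lit 5) (nat_lit 271) (nat_lit 268) (nat_lit 241)) (XT.lf (nat_lit 76) (nat_lit 4642367226) (nat_lit 0) (nat_lit 2459843711) (nat_lit 684) (nat_lit 2334246161) (nat_lit 102) (nat_lit 5) (nat_lit 101) (nat_lit 5) (nat_lit 110) (nat_lit 5) (nat_lit 272) (nat_lit 268) (nat_lit 240)))))) (XT.nd (nat_lit 390) (nat_lit 1748) (nat_lit 0) (XT.nd (nat_lit 156)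 (nat_lit 1140) (nat_lit 0) (XT.nd (nat_lit 78) (nat_lit 684) (nat_lit 0) (XT.lf (nat_lit 76) (nat_lit 2664471364) (nat_lit 0) (nat_lit 6635327950) (nat_lit 684) (nat_lit 475500311) (nat_lit 103) (nat_lit 5) (nat_lit 102) (nat_lit 5) (nat_lit 111) (nat_lit 5) (nat_lit 273) (nat_lit 268) (nat_lit 239)) (XT.lf (nat_lit 76) (nat_lit 608217036) (nat_lit 0) (nat_lit 886223961) (nat_lit 760) (nat_lit 8645285415) (nat_lit 94) (nat_lit 5) (nat_lit 93) (nat_lit 5) (nat_lit 103) (nat_lit 5) (nat_lit 274) (nat_lit 268) (nat_lit 238))) (XT.nd (nat_lit 78) (nat_lit 1216) (nat_lit 0) (XT.lf (nat_lit 0) (nat_lit 3698309552) (nat_lit 684) (nat_lit 1522017801) (nat_lit 76) (nat_lit 5308171357) (nat_lit 94) (nat_lit 5) (nat_lit 103) (nat_lit 5) (nat_lit 95) (nat_lit 5) (nat_lit 275) (nat_lit 268) (nat_lit 237)) (XT.nd (nat_lit 78) (nat_lit 532) (nat_lit 0) (XT.lf (nat_lit 0) (nat_lit 6117045779) (nat_lit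 760) (nat_lit 3713175416) (nat_lit 76) (nat_lit 1116437279) (nat_lit 85) (nat_lit 5) (nat_lit 95) (nat_lit 5) (nat_lit 86) (nat_lit 5) (nat_lit 276) (nat_lit 268) (nat_lit 236)) (XT.lf (nat_lit 0) (nat_lit 5334697569) (nat_lit 532) (nat_lit 3491993138) (nat_lit 608) (nat_lit 2566907593) (nat_lit 78) (nat_lit 5) (nat_lit 85) (nat_lit 5) (nat_lit 86) (nat_lit 5) (nat_lit 277) (nat_lit 268) (nat_lit 235))))) (XT.nd (nat_lit 234) (nat_lit 988) (nat_lit 0) (XT.nd (nat_lit 78) (nat_lit 380) (nat_lit 0) (XT.lf (nat_lit 0) (nat_lit 3323592621) (nat_lit 380) (nat_lit 8504780070) (nat_lit 456) (nat_lit 44340471) (nat_lit 73) (nat_lit 5) (nat_lit 78) (nat_lit 5) (nat_lit 79) (nat_lit 5) (nat_lit 278) (nat_lit 268) (nat_lit 234)) (XT.nd (nat_lit 78) (nat_lit 0) (nat_lit 0) (XT.lf (nat_lit 0) (nat_lit 1127472294) (nat_lit 304) (nat_lit 1559785578) (nat_lit 380) (nat_lit 9696318501) (nat_lit 68) (nat_lit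 5) (nat_lit 72) (nat_lit 5) (nat_lit 73) (nat_lit 5) (nat_lit 279) (nat_lit 268) (nat_lit 233)) (XT.lf (nat_lit 0) (nat_lit 5794451427) (nat_lit 380) (nat_lit 1234899019) (nat_lit 76) (nat_lit 5898140332) (nat_lit 68) (nat_lit 5) (nat_lit 73) (nat_lit 5) (nat_lit 69) (nat_lit 5) (nat_lit 280) (nat_lit 268) (nat_lit 232)))) (XT.nd (nat_lit 78) (nat_lit 684) (nat_lit 0) (XT.lf (nat_lit 0) (nat_lit 9258538017) (nat_lit 380) (nat_lit 3731057060) (nat_lit 76) (nat_lit 520045824) (nat_lit 64) (nat_lit 5) (nat_lit 69) (nat_lit 5) (nat_lit 65) (nat_lit 5) (nat_lit 281) (nat_lit 268) (nat_lit 231)) (XT.nd (nat_lit 78) (nat_lit 380) (nat_lit 0) (XT.lf (nat_lit 0) (nat_lit 7617400581) (nat_lit 304) (nat_lit 5566906368) (nat_lit 380) (nat_lit 944956506) (nat_lit 60) (nat_lit 5) (nat_lit 64) (nat_lit 5) (nat_lit 65) (nat_lit 5) (nat_lit 282) (nat_lit 268) (nat_lit 230)) (XT.lf (nat_lit 0) (nat_lit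 2659009475) (nat_lit 380) (nat_lit 9582202917) (nat_lit 76) (nat_lit 2549438447) (nat_lit 55) (nat_lit 5) (nat_lit 60) (nat_lit 5) (nat_lit 56) (nat_lit 5) (nat_lit 283) (nat_lit 268) (nat_lit 229))))))))
noncomputable def xc64 : XT := (XT.nd (nat_lit 1560) (nat_lit 1064) (nat_lit 0) (XT.nd (nat_lit 780) (nat_lit 988) (nat_lit 0) (XT.nd (nat_lit 390) (nat_lit 760) (nat_lit 0) (XT.nd (nat_lit 156) (nat_lit 760) (nat_lit 0) (XT.nd (nat_lit 78) (nat_lit 0) (nat_lit 0) (XT.lf (nat_lit 0) (nat_lit 2481727181) (nat_lit 228) (nat_lit 4216807264) (nat_lit 304) (nat_lit 8796727463) (nat_lit 52) (nat_lit 5) (nat_lit 55) (nat_lit 5) (nat_lit 56) (nat_lit 5) (nat_lit 284) (nat_lit 268) (nat_lit 228)) (XT.lf (nat_lit 0) (nat_lit 11235823201) (nat_lit 304) (nat_lit 552146669) (nat_lit 76) (nat_lit 4459638819) (nat_lit 52) (nat_lit 5) (nat_lit 56) (nat_lit 5) (nat_lit 53) (nat_lit 5) (nat_lit 285) (nat_lit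 268) (nat_lit 227))) (XT.nd (nat_lit 78) (nat_lit 532) (nat_lit 0) (XT.lf (nat_lit 0) (nat_lit 13178134382) (nat_lit 228) (nat_lit 3175070358) (nat_lit 304) (nat_lit 696172724) (nat_lit 49) (nat_lit 5) (nat_lit 52) (nat_lit 5) (nat_lit 53) (nat_lit 5) (nat_lit 286) (nat_lit 268) (nat_lit 226)) (XT.nd (nat_lit 78) (nat_lit 228) (nat_lit 0) (XT.lf (nat_lit 0) (nat_lit 4050078892) (nat_lit 304) (nat_lit 7703610073) (nat_lit 76) (nat_lit 6147968683) (nat_lit 45) (nat_lit 5) (nat_lit 49) (nat_lit 5) (nat_lit 46) (nat_lit 5) (nat_lit 287) (nat_lit 268) (nat_lit 225)) (XT.lf (nat_lit 0) (nat_lit 6786824336) (nat_lit 228) (nat_lit 2538483920) (nat_lit 304) (nat_lit 9487631221) (nat_lit 42) (nat_lit 5) (nat_lit 45) (nat_lit 5) (nat_lit 46) (nat_lit 5) (nat_lit 288) (nat_lit 268) (nat_lit 224))))) (XT.nd (nat_lit 156) (nat_lit 532) (nat_lit 0) (XT.nd (nat_lit 78) (nat_lit 76) (nat_lit 0) (XT.lf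 (nat_lit 0) (nat_lit 2818021104) (nat_lit 152) (nat_lit 12448557897) (nat_lit 228) (nat_lit 4518411546) (nat_lit 40) (nat_lit 5) (nat_lit 42) (nat_lit 5) (nat_lit 43) (nat_lit 5) (nat_lit 289) (nat_lit 268) (nat_lit 223)) (XT.lf (nat_lit 0) (nat_lit 1026664185) (nat_lit 228) (nat_lit 1678515713) (nat_lit 76) (nat_lit 18118749835) (nat_lit 39) (nat_lit 5) (nat_lit 42) (nat_lit 5) (nat_lit 40) (nat_lit 5) (nat_lit 290) (nat_lit 268) (nat_lit 222))) (XT.nd (nat_lit 78) (nat_lit 304) (nat_lit 0) (XT.lf (nat_lit 0) (nat_lit 7176385832) (nat_lit 304) (nat_lit 6885435295) (nat_lit 76) (nat_lit 7864547557) (nat_lit 36) (nat_lit 5) (nat_lit 40) (nat_lit 5) (nat_lit 37) (nat_lit 5) (nat_lit 291) (nat_lit 268) (nat_lit 221)) (XT.nd (nat_lit 78) (nat_lit 152) (nat_lit 0) (XT.lf (nat_lit 0) (nat_lit 10257216278) (nat_lit 152) (nat_lit 3751906892) (nat_lit 228) (nat_lit 9098378976) (nat_lit 34) (nat_lit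 5) (nat_lit 36) (nat_lit 5) (nat_lit 37) (nat_lit 5) (nat_lit 292) (nat_lit 268) (nat_lit 220)) (XT.lf (nat_lit 0) (nat_lit 4603945927) (nat_lit 152) (nat_lit 17051087166) (nat_lit 228) (nat_lit 2714813004) (nat_lit 32) (nat_lit 5) (nat_lit 34) (nat_lit 5) (nat_lit 35) (nat_lit 5) (nat_lit 293) (nat_lit 268) (nat_lit 219)))))) (XT.nd (nat_lit 390) (nat_lit 456) (nat_lit 0) (XT.nd (nat_lit 156) (nat_lit 304) (nat_lit 0) (XT.nd (nat_lit 78) (nat_lit 152) (nat_lit 0) (XT.lf (nat_lit 0) (nat_lit 4295403708) (nat_lit 228) (nat_lit 2005501709) (nat_lit 76) (nat_lit 19416564711) (nat_lit 31) (nat_lit 5) (nat_lit 34) (nat_lit 5) (nat_lit 32) (nat_lit 5) (nat_lit 294) (nat_lit 268) (nat_lit 218)) (XT.lf (nat_lit 0) (nat_lit 12097729503) (nat_lit 228) (nat_lit 9612169974) (nat_lit 76) (nat_lit 5444497847) (nat_lit 29) (nat_lit 5) (nat_lit 32) (nat_lit 5) (nat_lit 30) (nat_lit 5) (nat_lit 295) (nat_lit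 268) (nat_lit 217))) (XT.nd (nat_lit 78) (nat_lit 152) (nat_lit 0) (XT.lf (nat_lit 0) (nat_lit 10181063528) (nat_lit 152) (nat_lit 10607469750) (nat_lit 228) (nat_lit 7904566729) (nat_lit 27) (nat_lit 5) (nat_lit 29) (nat_lit 5) (nat_lit 30) (nat_lit 5) (nat_lit 296) (nat_lit 268) (nat_lit 216)) (XT.nd (nat_lit 78) (nat_lit 0) (nat_lit 0) (XT.lf (nat_lit 0) (nat_lit 8993158) (nat_lit 152) (nat_lit 28824928761) (nat_lit 76) (nat_lit 1511973393) (nat_lit 25) (nat_lit 5) (nat_lit 27) (nat_lit 5) (nat_lit 26) (nat_lit 5) (nat_lit 297) (nat_lit 268) (nat_lit 215)) (XT.lf (nat_lit 0) (nat_lit 8755235105) (nat_lit 152) (nat_lit 8670896762) (nat_lit 76) (nat_lit 14674505799) (nat_lit 25) (nat_lit 5) (nat_lit 27) (nat_lit 5) (nat_lit 26) (nat_lit 5) (nat_lit 298) (nat_lit 268) (nat_lit 214))))) (XT.nd (nat_lit 156) (nat_lit 228) (nat_lit 0) (XT.nd (nat_lit 78) (nat_lit 76) (nat_lit 0) (XT.lf (nat_lit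 0) (nat_lit 13474559826) (nat_lit 152) (nat_lit 4905711670) (nat_lit 228) (nat_lit 15606560305) (nat_lit 23) (nat_lit 5) (nat_lit 25) (nat_lit 5) (nat_lit 26) (nat_lit 5) (nat_lit 299) (nat_lit 268) (nat_lit 213)) (XT.lf (nat_lit 0) (nat_lit 1546310311) (nat_lit 76) (nat_lit 27511128196) (nat_lit 152) (nat_lit 6952401709) (nat_lit 22) (nat_lit 5) (nat_lit 23) (nat_lit 5) (nat_lit 24) (nat_lit 4) (nat_lit 300) (nat_lit 268) (nat_lit 212))) (XT.nd (nat_lit 78) (nat_lit 152) (nat_lit 0) (XT.lf (nat_lit 0) (nat_lit 2734265882) (nat_lit 152) (nat_lit 12250574827) (nat_lit 76) (nat_lit 23187161731) (nat_lit 21) (nat_lit 5) (nat_lit 23) (nat_lit 5) (nat_lit 22) (nat_lit 5) (nat_lit 301) (nat_lit 268) (nat_lit 211)) (XT.nd (nat_lit 78) (nat_lit 0) (nat_lit 0) (XT.lf (nat_lit 0) (nat_lit 11958773769) (nat_lit 152) (nat_lit 1156550423) (nat_lit 228) (nat_lit 27377983504) (nat_lit 19) (nat_lit 5)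 (nat_lit 21) (nat_lit 5) (nat_lit 22) (nat_lit 5) (nat_lit 302) (nat_lit 268) (nat_lit 210)) (XT.lf (nat_lit 0) (nat_lit 24732961043) (nat_lit 228) (nat_lit 4711097338) (nat_lit 76) (nat_lit 13535973299) (nat_lit 19) (nat_lit 5) (nat_lit 22) (nat_lit 5) (nat_lit 20) (nat_lit 4) (nat_lit 303) (nat_lit 268) (nat_lit 209))))))) (XT.nd (nat_lit 780) (nat_lit 456) (nat_lit 0) (XT.nd (nat_lit 390) (nat_lit 228) (nat_lit 0) (XT.nd (nat_lit 156) (nat_lit 76) (nat_lit 0) (XT.nd (nat_lit 78) (nat_lit 228) (nat_lit 0) (XT.lf (nat_lit 0) (nat_lit 21649815447) (nat_lit 76) (nat_lit 15963714066) (nat_lit 152) (nat_lit 8035505633) (nat_lit 18) (nat_lit 5) (nat_lit 19) (nat_lit 5) (nat_lit 20) (nat_lit 4) (nat_lit 304) (nat_lit 268) (nat_lit 208)) (XT.lf (nat_lit 0) (nat_lit 1726778404) (nat_lit 152) (nat_lit 1257548773) (nat_lit 228) (nat_lit 45540553944) (nat_lit 15) (nat_lit 5) (nat_lit 17) (nat_lit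 5) (nat_lit 18) (nat_lit 5) (nat_lit 305) (nat_lit 268) (nat_lit 207))) (XT.nd (nat_lit 78) (nat_lit 76) (nat_lit 0) (XT.lf (nat_lit 0) (nat_lit 15238843765) (nat_lit 228) (nat_lit 21652593252) (nat_lit 76) (nat_lit 14701054537) (nat_lit 15) (nat_lit 5) (nat_lit 18) (nat_lit 5) (nat_lit 16) (nat_lit 4) (nat_lit 306) (nat_lit 268) (nat_lit 206)) (XT.nd (nat_lit 78) (nat_lit 0) (nat_lit 0) (XT.lf (nat_lit 0) (nat_lit 5626513539) (nat_lit 76) (nat_lit 22935531738) (nat_lit 152) (nat_lit 26339062668) (nat_lit 14) (nat_lit 5) (nat_lit 15) (nat_lit 5) (nat_lit 16) (nat_lit 4) (nat_lit 307) (nat_lit 268) (nat_lit 205)) (XT.lf (nat_lit 0) (nat_lit 35825838165) (nat_lit 76) (nat_lit 7482696229) (nat_lit 152) (nat_lit 15148019996) (nat_lit 14) (nat_lit 5) (nat_lit 15) (nat_lit 5) (nat_lit 16) (nat_lit 4) (nat_lit 308) (nat_lit 268) (nat_lit 204))))) (XT.nd (nat_lit 156) (nat_lit 76) (nat_lit 0)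 (XT.nd (nat_lit 78) (nat_lit 76) (nat_lit 0) (XT.lf (nat_lit 0) (nat_lit 6164846672) (nat_lit 76) (nat_lit 53291378221) (nat_lit 76) (nat_lit 2829148949) (nat_lit 13) (nat_lit 4) (nat_lit 14) (nat_lit 5) (nat_lit 14) (nat_lit 4) (nat_lit 309) (nat_lit 268) (nat_lit 203)) (XT.lf (nat_lit 0) (nat_lit 10648873035) (nat_lit 152) (nat_lit 28657333544) (nat_lit 76) (nat_lit 27080679239) (nat_lit 12) (nat_lit 5) (nat_lit 14) (nat_lit 5) (nat_lit 13) (nat_lit 4) (nat_lit 310) (nat_lit 268) (nat_lit 202))) (XT.nd (nat_lit 78) (nat_lit 0) (nat_lit 0) (XT.lf (nat_lit 0) (nat_lit 955655926) (nat_lit 76) (nat_lit 24150002396) (nat_lit 152) (nat_lit 45708568710) (nat_lit 11) (nat_lit 5) (nat_lit 12) (nat_lit 5) (nat_lit 13) (nat_lit 4) (nat_lit 311) (nat_lit 268) (nat_lit 201)) (XT.nd (nat_lit 78) (nat_lit 0) (nat_lit 0) (XT.lf (nat_lit 0) (nat_lit 33932196640) (nat_lit 76) (nat_lit 7270157408) (nat_lit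 152) (nat_lit 34369241736) (nat_lit 11) (nat_lit 5) (nat_lit 12) (nat_lit 5) (nat_lit 13) (nat_lit 4) (nat_lit 312) (nat_lit 268) (nat_lit 200)) (XT.lf (nat_lit 0) (nat_lit 58743062435) (nat_lit 152) (nat_lit 11361059826) (nat_lit 0) (nat_lit 10597625911) (nat_lit 11) (nat_lit 5) (nat_lit 13) (nat_lit 4) (nat_lit 11) (nat_lit 4) (nat_lit 313) (nat_lit 268) (nat_lit 199)))))) (XT.nd (nat_lit 390) (nat_lit 228) (nat_lit 0) (XT.nd (nat_lit 156) (nat_lit 76) (nat_lit 0) (XT.nd (nat_lit 78) (nat_lit 76) (nat_lit 0) (XT.lf (nat_lit 0) (nat_lit 21892422264) (nat_lit 76) (nat_lit 56245254233) (nat_lit 76) (nat_lit 8082111193) (nat_lit 10) (nat_lit 4) (nat_lit 11) (nat_lit 5) (nat_lit 11) (nat_lit 4) (nat_lit 314) (nat_lit 268) (nat_lit 198)) (XT.lf (nat_lit 0) (nat_lit 6871424461) (nat_lit 152) (nat_lit 34093117816) (nat_lit 76) (nat_lit 51199953357) (nat_lit 9) (nat_lit 5) (nat_lit 11) (nat_lit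 5) (nat_lit 10) (nat_lit 4) (nat_lit 315) (nat_lit 268) (nat_lit 197))) (XT.nd (nat_lit 78) (nat_lit 76) (nat_lit 0) (XT.lf (nat_lit 0) (nat_lit 22729535966) (nat_lit 152) (nat_lit 1599169717) (nat_lit 76) (nat_lit 74249883347) (nat_lit 9) (nat_lit 5) (nat_lit 11) (nat_lit 5) (nat_lit 10) (nat_lit 4) (nat_lit 316) (nat_lit 268) (nat_lit 196)) (XT.nd (nat_lit 78) (nat_lit 0) (nat_lit 0) (XT.lf (nat_lit 0) (nat_lit 34579995828) (nat_lit 76) (nat_lit 5804770161) (nat_lit 152) (nat_lit 65094626014) (nat_lit 8) (nat_lit 5) (nat_lit 9) (nat_lit 5) (nat_lit 10) (nat_lit 4) (nat_lit 317) (nat_lit 268) (nat_lit 195)) (XT.lf (nat_lit 0) (nat_lit 59691411766) (nat_lit 152) (nat_lit 39463004581) (nat_lit 0) (nat_lit 13765898176) (nat_lit 8) (nat_lit 5) (nat_lit 10) (nat_lit 4) (nat_lit 8) (nat_lit 4) (nat_lit 318) (nat_lit 268) (nat_lit 194))))) (XT.nd (nat_lit 234) (nat_lit 152) (nat_lit 0) (XT.nd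 (nat_lit 78) (nat_lit 76) (nat_lit 0) (XT.lf (nat_lit 0) (nat_lit 80630251122) (nat_lit 152) (nat_lit 5628620798) (nat_lit 0) (nat_lit 34693260620) (nat_lit 8) (nat_lit 5) (nat_lit 10) (nat_lit 4) (nat_lit 8) (nat_lit 4) (nat_lit 319) (nat_lit 268) (nat_lit 193)) (XT.nd (nat_lit 78) (nat_lit 0) (nat_lit 0) (XT.lf (nat_lit 0) (nat_lit 31916408345) (nat_lit 76) (nat_lit 71816633574) (nat_lit 76) (nat_lit 25869016301) (nat_lit 7) (nat_lit 4) (nat_lit 8) (nat_lit 5) (nat_lit 8) (nat_lit 4) (nat_lit 320) (nat_lit 268) (nat_lit 192)) (XT.lf (nat_lit 0) (nat_lit 72649172488) (nat_lit 76) (nat_lit 56123907621) (nat_lit 76) (nat_lit 10166450746) (nat_lit 7) (nat_lit 4) (nat_lit 8) (nat_lit 5) (nat_lit 8) (nat_lit 4) (nat_lit 321) (nat_lit 268) (nat_lit 191)))) (XT.nd (nat_lit 78) (nat_lit 76) (nat_lit 0) (XT.lf (nat_lit 0) (nat_lit 6566428295) (nat_lit 152) (nat_lit 32505389612) (nat_lit 76) (nat_lit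 109947309415) (nat_lit 6) (nat_lit 5) (nat_lit 8) (nat_lit 5) (nat_lit 7) (nat_lit 4) (nat_lit 322) (nat_lit 268) (nat_lit 190)) (XT.nd (nat_lit 78) (nat_lit 0) (nat_lit 0) (XT.lf (nat_lit 0) (nat_lit 3921751014) (nat_lit 76) (nat_lit 20418129232) (nat_lit 152) (nat_lit 135553975184) (nat_lit 5) (nat_lit 5) (nat_lit 6) (nat_lit 5) (nat_lit 7) (nat_lit 4) (nat_lit 323) (nat_lit 268) (nat_lit 189)) (XT.lf (nat_lit 0) (nat_lit 44098858924) (nat_lit 152) (nat_lit 127205821166) (nat_lit 0) (nat_lit 305702272) (nat_lit 5) (nat_lit 5) (nat_lit 7) (nat_lit 4) (nat_lit 5) (nat_lit 4) (nat_lit 324) (nat_lit 268) (nat_lit 188))))))))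
noncomputable def xc65 : XT := (XT.nd (nat_lit 1638) (nat_lit 0) (nat_lit 0) (XT.nd (nat_lit 780) (nat_lit 76) (nat_lit 0) (XT.nd (nat_lit 390) (nat_lit 76) (nat_lit 0) (XT.nd (nat_lit 156) (nat_lit 76) (nat_lit 0) (XT.nd (nat_lit 78) (nat_lit 0) (nat_lit 0) (XT.lf (nat_lit 0) (nat_lit 65775800505) (nat_lit 152) (nat_lit 96495815736) (nat_lit 0) (nat_lit 21975755852) (nat_lit 5) (nat_lit 5) (nat_lit 7) (nat_lit 4) (nat_lit 5) (nat_lit 4) (nat_lit 325) (nat_lit 268) (nat_lit 187)) (XT.lf (nat_lit 0) (nat_lit 89180376722) (nat_lit 152) (nat_lit 63341318691) (nat_lit 0) (nat_lit 45373954290) (nat_lit 5) (nat_lit 5) (nat_lit 7) (nat_lit 4) (nat_lit 5) (nat_lit 4) (nat_lit 326) (nat_lit 268) (nat_lit 186))) (XT.nd (nat_lit 78) (nat_lit 76) (nat_lit 0) (XT.lf (nat_lit 0) (nat_lit 114451281358) (nat_lit 152) (nat_lit 27545858936) (nat_lit 0) (nat_lit 70638953575) (nat_lit 5) (nat_lit 5) (nat_lit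 7) (nat_lit 4) (nat_lit 5) (nat_lit 4) (nat_lit 327) (nat_lit 268) (nat_lit 185)) (XT.nd (nat_lit 78) (nat_lit 0) (nat_lit 0) (XT.lf (nat_lit 0) (nat_lit 11469789670) (nat_lit 76) (nat_lit 130447553813) (nat_lit 76) (nat_lit 86629758112) (nat_lit 4) (nat_lit 4) (nat_lit 5) (nat_lit 5) (nat_lit 5) (nat_lit 4) (nat_lit 328) (nat_lit 268) (nat_lit 184)) (XT.lf (nat_lit 0) (nat_lit 54580249688) (nat_lit 76) (nat_lit 117474938047) (nat_lit 76) (nat_lit 73652079460) (nat_lit 4) (nat_lit 4) (nat_lit 5) (nat_lit 5) (nat_lit 5) (nat_lit 4) (nat_lit 329) (nat_lit 268) (nat_lit 183))))) (XT.nd (nat_lit 156) (nat_lit 76) (nat_lit 0) (XT.nd (nat_lit 78) (nat_lit 0) (nat_lit 0) (XT.lf (nat_lit 0) (nat_lit 101130200012) (nat_lit 76) (nat_lit 103468920688) (nat_lit 76) (nat_lit 59641374243) (nat_lit 4) (nat_lit 4) (nat_lit 5) (nat_lit 5) (nat_lit 5) (nat_lit 4) (nat_lit 330) (nat_lit 268) (nat_lit 182))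 (XT.lf (nat_lit 0) (nat_lit 151395492200) (nat_lit 76) (nat_lit 88346503113) (nat_lit 76) (nat_lit 44514616058) (nat_lit 4) (nat_lit 4) (nat_lit 5) (nat_lit 5) (nat_lit 5) (nat_lit 4) (nat_lit 331) (nat_lit 268) (nat_lit 181))) (XT.nd (nat_lit 78) (nat_lit 76) (nat_lit 0) (XT.lf (nat_lit 0) (nat_lit 205673994650) (nat_lit 76) (nat_lit 72018070995) (nat_lit 76) (nat_lit 28182164858) (nat_lit 4) (nat_lit 4) (nat_lit 5) (nat_lit 5) (nat_lit 5) (nat_lit 4) (nat_lit 332) (nat_lit 268) (nat_lit 180)) (XT.nd (nat_lit 78) (nat_lit 76) (nat_lit 0) (XT.lf (nat_lit 0) (nat_lit 264287357747) (nat_lit 76) (nat_lit 54386863257) (nat_lit 76) (nat_lit 10547235747) (nat_lit 4) (nat_lit 4) (nat_lit 5) (nat_lit 5) (nat_lit 5) (nat_lit 4) (nat_lit 333) (nat_lit 268) (nat_lit 179)) (XT.lf (nat_lit 0) (nat_lit 8222791921) (nat_lit 152) (nat_lit 26986349785) (nat_lit 76) (nat_lit 319220871056) (nat_lit 3) (nat_lit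 5) (nat_lit 5) (nat_lit 5) (nat_lit 4) (nat_lit 4) (nat_lit 334) (nat_lit 268) (nat_lit 178)))))) (XT.nd (nat_lit 390) (nat_lit 0) (nat_lit 0) (XT.nd (nat_lit 156) (nat_lit 0) (nat_lit 0) (XT.nd (nat_lit 78) (nat_lit 0) (nat_lit 0) (XT.lf (nat_lit 0) (nat_lit 14269615171) (nat_lit 76) (nat_lit 14079594035) (nat_lit 152) (nat_lit 353286184484) (nat_lit 2) (nat_lit 5) (nat_lit 3) (nat_lit 5) (nat_lit 4) (nat_lit 4) (nat_lit 335) (nat_lit 268) (nat_lit 177)) (XT.lf (nat_lit 0) (nat_lit 50696684829) (nat_lit 152) (nat_lit 351354449216) (nat_lit 0) (nat_lit 8935524973) (nat_lit 2) (nat_lit 5) (nat_lit 4) (nat_lit 4) (nat_lit 2) (nat_lit 4) (nat_lit 336) (nat_lit 268) (nat_lit 176))) (XT.nd (nat_lit 78) (nat_lit 0) (nat_lit 0) (XT.lf (nat_lit 0) (nat_lit 75066304132) (nat_lit 152) (nat_lit 334305466038) (nat_lit 0) (nat_lit 33302539209) (nat_lit 2) (nat_lit 5) (nat_lit 4) (nat_lit 4) (nat_lit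 2) (nat_lit 4) (nat_lit 337) (nat_lit 268) (nat_lit 175)) (XT.nd (nat_lit 78) (nat_lit 0) (nat_lit 0) (XT.lf (nat_lit 0) (nat_lit 101382657753) (nat_lit 152) (nat_lit 315897976051) (nat_lit 0) (nat_lit 59616480732) (nat_lit 2) (nat_lit 5) (nat_lit 4) (nat_lit 4) (nat_lit 2) (nat_lit 4) (nat_lit 338) (nat_lit 268) (nat_lit 174)) (XT.lf (nat_lit 0) (nat_lit 129801694456) (nat_lit 152) (nat_lit 296022897834) (nat_lit 0) (nat_lit 88033284010) (nat_lit 2) (nat_lit 5) (nat_lit 4) (nat_lit 4) (nat_lit 2) (nat_lit 4) (nat_lit 339) (nat_lit 268) (nat_lit 173))))) (XT.nd (nat_lit 234) (nat_lit 0) (nat_lit 0) (XT.nd (nat_lit 78) (nat_lit 0) (nat_lit 0) (XT.lf (nat_lit 0) (nat_lit 160491823346) (nat_lit 152) (nat_lit 274562453145) (nat_lit 0) (nat_lit 118721344914) (nat_lit 2) (nat_lit 5) (nat_lit 4) (nat_lit 4) (nat_lit 2) (nat_lit 4) (nat_lit 340) (nat_lit 268) (nat_lit 172)) (XT.nd (nat_lit 78)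 (nat_lit 0) (nat_lit 0) (XT.lf (nat_lit 0) (nat_lit 193634911854) (nat_lit 152) (nat_lit 251389468979) (nat_lit 0) (nat_lit 151862518620) (nat_lit 2) (nat_lit 5) (nat_lit 4) (nat_lit 4) (nat_lit 2) (nat_lit 4) (nat_lit 341) (nat_lit 268) (nat_lit 171)) (XT.lf (nat_lit 0) (nat_lit 229427363467) (nat_lit 152) (nat_lit 226366623949) (nat_lit 0) (nat_lit 187653197268) (nat_lit 2) (nat_lit 5) (nat_lit 4) (nat_lit 4) (nat_lit 2) (nat_lit 4) (nat_lit 342) (nat_lit 268) (nat_lit 170)))) (XT.nd (nat_lit 78) (nat_lit 0) (nat_lit 0) (XT.lf (nat_lit 0) (nat_lit 268081281602) (nat_lit 152) (nat_lit 199345634527) (nat_lit 0) (nat_lit 226305473769) (nat_lit 2) (nat_lit 5) (nat_lit 4) (nat_lit 4) (nat_lit 2) (nat_lit 4) (nat_lit 343) (nat_lit 268) (nat_lit 169)) (XT.nd (nat_lit 78) (nat_lit 0) (nat_lit 0) (XT.lf (nat_lit 0) (nat_lit 309825726515) (nat_lit 152) (nat_lit 170166376332) (nat_lit 0) (nat_lit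 268048398651) (nat_lit 2) (nat_lit 5) (nat_lit 4) (nat_lit 4) (nat_lit 2) (nat_lit 4) (nat_lit 344) (nat_lit 268) (nat_lit 168)) (XT.lf (nat_lit 0) (nat_lit 354908072694) (nat_lit 152) (nat_lit 138655935243) (nat_lit 0) (nat_lit 313129337393) (nat_lit 2) (nat_lit 5) (nat_lit 4) (nat_lit 4) (nat_lit 2) (nat_lit 4) (nat_lit 345) (nat_lit 268) (nat_lit 167))))))) (XT.nd (nat_lit 35256) (nat_lit 0) (nat_lit 3496) (XT.nd (nat_lit 34866) (nat_lit 0) (nat_lit 6308) (XT.nd (nat_lit 34632) (nat_lit 0) (nat_lit 7372) (XT.nd (nat_lit 78) (nat_lit 0) (nat_lit 0) (XT.lf (nat_lit 0) (nat_lit 403595474783) (nat_lit 152) (nat_lit 104627582718) (nat_lit 0) (nat_lit 361815436301) (nat_lit 2) (nat_lit 5) (nat_lit 4) (nat_lit 4) (nat_lit 2) (nat_lit 4) (nat_lit 346) (nat_lit 268) (nat_lit 166)) (XT.lf (nat_lit 0) (nat_lit 456176450721) (nat_lit 152) (nat_lit 67879669261) (nat_lit 0) (nat_lit 414395205588)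 (nat_lit 2) (nat_lit 5) (nat_lit 4) (nat_lit 4) (nat_lit 2) (nat_lit 4) (nat_lit 347) (nat_lit 268) (nat_lit 165))) (XT.nd (nat_lit 78) (nat_lit 0) (nat_lit 0) (XT.lf (nat_lit 0) (nat_lit 1464145103) (nat_lit 684) (nat_lit 1472743366) (nat_lit 684) (nat_lit 1472743366) (nat_lit 99) (nat_lit 3) (nat_lit 108) (nat_lit 3) (nat_lit 108) (nat_lit 5) (nat_lit 269) (nat_lit 269) (nat_lit 242)) (XT.nd (nat_lit 78) (nat_lit 0) (nat_lit 76) (XT.lf (nat_lit 76) (nat_lit 3607016438) (nat_lit 0) (nat_lit 885398746) (nat_lit 684) (nat_lit 4604219632) (nat_lit 100) (nat_lit 5) (nat_lit 99) (nat_lit 3) (nat_lit 108) (nat_lit 5) (nat_lit 270) (nat_lit 269) (nat_lit 241)) (XT.lf (nat_lit 76) (nat_lit 1281198117) (nat_lit 0) (nat_lit 4903609166) (nat_lit 684) (nat_lit 3211536631) (nat_lit 101) (nat_lit 5) (nat_lit 100) (nat_lit 5) (nat_lit 109) (nat_lit 5) (nat_lit 271) (nat_lit 269) (nat_lit 240))))) (XT.nd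 (nat_lit 156) (nat_lit 1216) (nat_lit 0) (XT.nd (nat_lit 78) (nat_lit 0) (nat_lit 0) (XT.lf (nat_lit 0) (nat_lit 8003614617) (nat_lit 608) (nat_lit 1038269972) (nat_lit 684) (nat_lit 678876477) (nat_lit 101) (nat_lit 5) (nat_lit 109) (nat_lit 5) (nat_lit 110) (nat_lit 5) (nat_lit 272) (nat_lit 269) (nat_lit 239)) (XT.lf (nat_lit 76) (nat_lit 6653664858) (nat_lit 0) (nat_lit 3380957172) (nat_lit 684) (nat_lit 33436378) (nat_lit 102) (nat_lit 5) (nat_lit 101) (nat_lit 5) (nat_lit 110) (nat_lit 5) (nat_lit 273) (nat_lit 269) (nat_lit 238))) (XT.nd (nat_lit 78) (nat_lit 608) (nat_lit 0) (XT.lf (nat_lit 0) (nat_lit 1748756257) (nat_lit 684) (nat_lit 5895504697) (nat_lit 760) (nat_lit 2796670044) (nat_lit 93) (nat_lit 5) (nat_lit 102) (nat_lit 5) (nat_lit 103) (nat_lit 5) (nat_lit 274) (nat_lit 269) (nat_lit 237)) (XT.nd (nat_lit 78) (nat_lit 608) (nat_lit 0) (XT.lf (nat_lit 76) (nat_lit 2355856149)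 (nat_lit 0) (nat_lit 1364166083) (nat_lit 760) (nat_lit 7121413881) (nat_lit 94) (nat_lit 5) (nat_lit 93) (nat_lit 5) (nat_lit 103) (nat_lit 5) (nat_lit 275) (nat_lit 269) (nat_lit 236)) (XT.lf (nat_lit 0) (nat_lit 37806047) (nat_lit 684) (nat_lit 5901098207) (nat_lit 760) (nat_lit 5330779416) (nat_lit 85) (nat_lit 5) (nat_lit 94) (nat_lit 5) (nat_lit 95) (nat_lit 5) (nat_lit 276) (nat_lit 269) (nat_lit 235)))))) (XT.nd (nat_lit 390) (nat_lit 1216) (nat_lit 0) (XT.nd (nat_lit 156) (nat_lit 1064) (nat_lit 0) (XT.nd (nat_lit 78) (nat_lit 532) (nat_lit 0) (XT.lf (nat_lit 0) (nat_lit 8428232324) (nat_lit 760) (nat_lit 2304645750) (nat_lit 76) (nat_lit 994849306) (nat_lit 85) (nat_lit 5) (nat_lit 95) (nat_lit 5) (nat_lit 86) (nat_lit 5) (nat_lit 277) (nat_lit 269) (nat_lit 234)) (XT.lf (nat_lit 0) (nat_lit 7392934485) (nat_lit 532) (nat_lit 3852236199) (nat_lit 608) (nat_lit 970990255) (nat_lit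 78) (nat_lit 5) (nat_lit 85) (nat_lit 5) (nat_lit 86) (nat_lit 5) (nat_lit 278) (nat_lit 269) (nat_lit 233))) (XT.nd (nat_lit 78) (nat_lit 608) (nat_lit 0) (XT.lf (nat_lit 0) (nat_lit 1593050822) (nat_lit 456) (nat_lit 7528350883) (nat_lit 76) (nat_lit 3616278503) (nat_lit 72) (nat_lit 5) (nat_lit 78) (nat_lit 5) (nat_lit 73) (nat_lit 5) (nat_lit 279) (nat_lit 269) (nat_lit 232)) (XT.nd (nat_lit 78) (nat_lit 304) (nat_lit 0) (XT.lf (nat_lit 0) (nat_lit 2847570057) (nat_lit 304) (nat_lit 1598084110) (nat_lit 380) (nat_lit 8848736517) (nat_lit 68) (nat_lit 5) (nat_lit 72) (nat_lit 5) (nat_lit 73) (nat_lit 5) (nat_lit 280) (nat_lit 269) (nat_lit 231)) (XT.lf (nat_lit 0) (nat_lit 256386812) (nat_lit 304) (nat_lit 7435962466) (nat_lit 380) (nat_lit 6195122732) (nat_lit 64) (nat_lit 5) (nat_lit 68) (nat_lit 5) (nat_lit 69) (nat_lit 5) (nat_lit 281) (nat_lit 269) (nat_lit 230))))) (XT.nd (nat_lit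 234) (nat_lit 532) (nat_lit 0) (XT.nd (nat_lit 78) (nat_lit 684) (nat_lit 0) (XT.lf (nat_lit 0) (nat_lit 11349810873) (nat_lit 380) (nat_lit 2449277674) (nat_lit 76) (nat_lit 721478449) (nat_lit 64) (nat_lit 5) (nat_lit 69) (nat_lit 5) (nat_lit 65) (nat_lit 5) (nat_lit 282) (nat_lit 269) (nat_lit 229)) (XT.nd (nat_lit 78) (nat_lit 304) (nat_lit 0) (XT.lf (nat_lit 0) (nat_lit 309220457) (nat_lit 380) (nat_lit 5460360259) (nat_lit 76) (nat_lit 9423922978) (nat_lit 59) (nat_lit 5) (nat_lit 64) (nat_lit 5) (nat_lit 60) (nat_lit 5) (nat_lit 283) (nat_lit 269) (nat_lit 228)) (XT.lf (nat_lit 0) (nat_lit 4100134119) (nat_lit 380) (nat_lit 8800932306) (nat_lit 76) (nat_lit 3009525497) (nat_lit 55) (nat_lit 5) (nat_lit 60) (nat_lit 5) (nat_lit 56) (nat_lit 5) (nat_lit 284) (nat_lit 269) (nat_lit 227)))) (XT.nd (nat_lit 78) (nat_lit 304) (nat_lit 0) (XT.lf (nat_lit 0) (nat_lit 4160844661) (nat_lit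 228) (nat_lit 4234099537) (nat_lit 304) (nat_lit 8280161582) (nat_lit 52) (nat_lit 5) (nat_lit 55) (nat_lit 5) (nat_lit 56) (nat_lit 5) (nat_lit 285) (nat_lit 269) (nat_lit 226)) (XT.nd (nat_lit 78) (nat_lit 76) (nat_lit 0) (XT.lf (nat_lit 0) (nat_lit 852599238) (nat_lit 228) (nat_lit 12374590088) (nat_lit 304) (nat_lit 4263981997) (nat_lit 49) (nat_lit 5) (nat_lit 52) (nat_lit 5) (nat_lit 53) (nat_lit 5) (nat_lit 286) (nat_lit 269) (nat_lit 225)) (XT.lf (nat_lit 0) (nat_lit 310859905) (nat_lit 304) (nat_lit 2773584563) (nat_lit 76) (nat_lit 15276107535) (nat_lit 48) (nat_lit 5) (nat_lit 52) (nat_lit 5) (nat_lit 49) (nat_lit 5) (nat_lit 287) (nat_lit 269) (nat_lit 224))))))))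
noncomputable def xc66 : XT := (XT.nd (nat_lit 1560) (nat_lit 760) (nat_lit 0) (XT.nd (nat_lit 780) (nat_lit 912) (nat_lit 0) (XT.nd (nat_lit 390) (nat_lit 684) (nat_lit 0) (XT.nd (nat_lit 156) (nat_lit 456) (nat_lit 0) (XT.nd (nat_lit 78) (nat_lit 228) (nat_lit 0) (XT.lf (nat_lit 0) (nat_lit 5362153841) (nat_lit 304) (nat_lit 6939981589) (nat_lit 76) (nat_lit 6980927792) (nat_lit 45) (nat_lit 5) (nat_lit 49) (nat_lit 5) (nat_lit 46) (nat_lit 5) (nat_lit 288) (nat_lit 269) (nat_lit 223)) (XT.lf (nat_lit 0) (nat_lit 8649718050) (nat_lit 228) (nat_lit 2357101320) (nat_lit 304) (nat_lit 9263155383) (nat_lit 42) (nat_lit 5) (nat_lit 45) (nat_lit 5) (nat_lit 46) (nat_lit 5) (nat_lit 289) (nat_lit 269) (nat_lit 222))) (XT.nd (nat_lit 78) (nat_lit 304) (nat_lit 0) (XT.lf (nat_lit 0) (nat_lit 4346219448) (nat_lit 152) (nat_lit 13033774602) (nat_lit 228) (nat_lit 3942056525) (nat_lit 40) (nat_lit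 5) (nat_lit 42) (nat_lit 5) (nat_lit 43) (nat_lit 5) (nat_lit 290) (nat_lit 269) (nat_lit 221)) (XT.nd (nat_lit 78) (nat_lit 228) (nat_lit 0) (XT.lf (nat_lit 0) (nat_lit 1949363610) (nat_lit 228) (nat_lit 577747203) (nat_lit 76) (nat_lit 19919704297) (nat_lit 39) (nat_lit 5) (nat_lit 42) (nat_lit 5) (nat_lit 40) (nat_lit 5) (nat_lit 291) (nat_lit 269) (nat_lit 220)) (XT.lf (nat_lit 0) (nat_lit 8553248551) (nat_lit 304) (nat_lit 6220135354) (nat_lit 76) (nat_lit 8866030120) (nat_lit 36) (nat_lit 5) (nat_lit 40) (nat_lit 5) (nat_lit 37) (nat_lit 5) (nat_lit 292) (nat_lit 269) (nat_lit 219))))) (XT.nd (nat_lit 156) (nat_lit 380) (nat_lit 0) (XT.nd (nat_lit 78) (nat_lit 152) (nat_lit 0) (XT.lf (nat_lit 0) (nat_lit 12241076610) (nat_lit 152) (nat_lit 3650227274) (nat_lit 228) (nat_lit 9025867963) (nat_lit 34) (nat_lit 5) (nat_lit 36) (nat_lit 5) (nat_lit 37) (nat_lit 5) (nat_lit 293) (nat_lit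 269) (nat_lit 218)) (XT.lf (nat_lit 0) (nat_lit 6116227291) (nat_lit 152) (nat_lit 17999925058) (nat_lit 228) (nat_lit 2166051228) (nat_lit 32) (nat_lit 5) (nat_lit 34) (nat_lit 5) (nat_lit 35) (nat_lit 5) (nat_lit 294) (nat_lit 269) (nat_lit 217))) (XT.nd (nat_lit 78) (nat_lit 304) (nat_lit 0) (XT.lf (nat_lit 0) (nat_lit 5325546870) (nat_lit 228) (nat_lit 1083314697) (nat_lit 76) (nat_lit 21330980118) (nat_lit 31) (nat_lit 5) (nat_lit 34) (nat_lit 5) (nat_lit 32) (nat_lit 5) (nat_lit 295) (nat_lit 269) (nat_lit 216)) (XT.nd (nat_lit 78) (nat_lit 152) (nat_lit 0) (XT.lf (nat_lit 0) (nat_lit 13723365768) (nat_lit 228) (nat_lit 9318317565) (nat_lit 76) (nat_lit 6251526262) (nat_lit 29) (nat_lit 5) (nat_lit 32) (nat_lit 5) (nat_lit 30) (nat_lit 5) (nat_lit 296) (nat_lit 269) (nat_lit 215)) (XT.lf (nat_lit 0) (nat_lit 12012185495) (nat_lit 152) (nat_lit 11064393650) (nat_lit 228) (nat_lit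 7880120130) (nat_lit 27) (nat_lit 5) (nat_lit 29) (nat_lit 5) (nat_lit 30) (nat_lit 5) (nat_lit 297) (nat_lit 269) (nat_lit 214)))))) (XT.nd (nat_lit 390) (nat_lit 456) (nat_lit 0) (XT.nd (nat_lit 156) (nat_lit 304) (nat_lit 0) (XT.nd (nat_lit 78) (nat_lit 0) (nat_lit 0) (XT.lf (nat_lit 0) (nat_lit 619984153) (nat_lit 152) (nat_lit 30113144780) (nat_lit 76) (nat_lit 2009394820) (nat_lit 25) (nat_lit 5) (nat_lit 27) (nat_lit 5) (nat_lit 26) (nat_lit 5) (nat_lit 298) (nat_lit 269) (nat_lit 213)) (XT.lf (nat_lit 0) (nat_lit 10020720157) (nat_lit 152) (nat_lit 8422181205) (nat_lit 76) (nat_lit 16197043630) (nat_lit 25) (nat_lit 5) (nat_lit 27) (nat_lit 5) (nat_lit 26) (nat_lit 5) (nat_lit 299) (nat_lit 269) (nat_lit 212))) (XT.nd (nat_lit 78) (nat_lit 152) (nat_lit 0) (XT.lf (nat_lit 0) (nat_lit 15453956907) (nat_lit 152) (nat_lit 4934019678) (nat_lit 228) (nat_lit 16290483540) (nat_lit 23)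 (nat_lit 5) (nat_lit 25) (nat_lit 5) (nat_lit 26) (nat_lit 5) (nat_lit 300) (nat_lit 269) (nat_lit 211)) (XT.nd (nat_lit 78) (nat_lit 76) (nat_lit 0) (XT.lf (nat_lit 0) (nat_lit 2552964981) (nat_lit 76) (nat_lit 29345602775) (nat_lit 152) (nat_lit 6965812550) (nat_lit 22) (nat_lit 5) (nat_lit 23) (nat_lit 5) (nat_lit 24) (nat_lit 4) (nat_lit 301) (nat_lit 269) (nat_lit 210)) (XT.lf (nat_lit 0) (nat_lit 3439496879) (nat_lit 152) (nat_lit 12396618374) (nat_lit 76) (nat_lit 25364952157) (nat_lit 21) (nat_lit 5) (nat_lit 23) (nat_lit 5) (nat_lit 22) (nat_lit 5) (nat_lit 302) (nat_lit 269) (nat_lit 209))))) (XT.nd (nat_lit 156) (nat_lit 304) (nat_lit 0) (XT.nd (nat_lit 78) (nat_lit 0) (nat_lit 0) (XT.lf (nat_lit 0) (nat_lit 13713233380) (nat_lit 152) (nat_lit 914225431) (nat_lit 228) (nat_lit 29081824789) (nat_lit 19) (nat_lit 5) (nat_lit 21) (nat_lit 5) (nat_lit 22) (nat_lit 5) (nat_lit 303)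 (nat_lit 269) (nat_lit 208)) (XT.lf (nat_lit 0) (nat_lit 27145057756) (nat_lit 228) (nat_lit 4332412450) (nat_lit 76) (nat_lit 14918973169) (nat_lit 19) (nat_lit 5) (nat_lit 22) (nat_lit 5) (nat_lit 20) (nat_lit 4) (nat_lit 304) (nat_lit 269) (nat_lit 207))) (XT.nd (nat_lit 78) (nat_lit 228) (nat_lit 0) (XT.lf (nat_lit 0) (nat_lit 24104537091) (nat_lit 76) (nat_lit 16930710418) (nat_lit 152) (nat_lit 8244784362) (nat_lit 18) (nat_lit 5) (nat_lit 19) (nat_lit 5) (nat_lit 20) (nat_lit 4) (nat_lit 305) (nat_lit 269) (nat_lit 206)) (XT.nd (nat_lit 78) (nat_lit 0) (nat_lit 0) (XT.lf (nat_lit 0) (nat_lit 2569789569) (nat_lit 152) (nat_lit 1052886019) (nat_lit 228) (nat_lit 48763956383) (nat_lit 15) (nat_lit 5) (nat_lit 17) (nat_lit 5) (nat_lit 18) (nat_lit 5) (nat_lit 306) (nat_lit 269) (nat_lit 205)) (XT.lf (nat_lit 0) (nat_lit 16832366363) (nat_lit 228) (nat_lit 22717816949) (nat_lit 76) (nat_lit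 16150746509) (nat_lit 15) (nat_lit 5) (nat_lit 18) (nat_lit 5) (nat_lit 16) (nat_lit 4) (nat_lit 307) (nat_lit 269) (nat_lit 204))))))) (XT.nd (nat_lit 780) (nat_lit 304) (nat_lit 0) (XT.nd (nat_lit 390) (nat_lit 152) (nat_lit 0) (XT.nd (nat_lit 156) (nat_lit 228) (nat_lit 0) (XT.nd (nat_lit 78) (nat_lit 0) (nat_lit 0) (XT.lf (nat_lit 0) (nat_lit 6714632084) (nat_lit 76) (nat_lit 24489018389) (nat_lit 152) (nat_lit 28071491526) (nat_lit 14) (nat_lit 5) (nat_lit 15) (nat_lit 5) (nat_lit 16) (nat_lit 4) (nat_lit 308) (nat_lit 269) (nat_lit 203)) (XT.lf (nat_lit 0) (nat_lit 39282643609) (nat_lit 76) (nat_lit 7820797215) (nat_lit 152) (nat_lit 16012920711) (nat_lit 14) (nat_lit 5) (nat_lit 15) (nat_lit 5) (nat_lit 16) (nat_lit 4) (nat_lit 309) (nat_lit 269) (nat_lit 202))) (XT.nd (nat_lit 78) (nat_lit 152) (nat_lit 0) (XT.lf (nat_lit 0) (nat_lit 7235200121) (nat_lit 76) (nat_lit 57296062683)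 (nat_lit 76) (nat_lit 2720823190) (nat_lit 13) (nat_lit 4) (nat_lit 14) (nat_lit 5) (nat_lit 14) (nat_lit 4) (nat_lit 310) (nat_lit 269) (nat_lit 201)) (XT.nd (nat_lit 78) (nat_lit 76) (nat_lit 0) (XT.lf (nat_lit 0) (nat_lit 11800733378) (nat_lit 152) (nat_lit 30405421591) (nat_lit 76) (nat_lit 29476515970) (nat_lit 12) (nat_lit 5) (nat_lit 14) (nat_lit 5) (nat_lit 13) (nat_lit 4) (nat_lit 311) (nat_lit 269) (nat_lit 200)) (XT.lf (nat_lit 0) (nat_lit 1552943789) (nat_lit 76) (nat_lit 25847030843) (nat_lit 152) (nat_lit 49064941622) (nat_lit 11) (nat_lit 5) (nat_lit 12) (nat_lit 5) (nat_lit 13) (nat_lit 4) (nat_lit 312) (nat_lit 269) (nat_lit 199))))) (XT.nd (nat_lit 156) (nat_lit 152) (nat_lit 0) (XT.nd (nat_lit 78) (nat_lit 0) (nat_lit 0) (XT.lf (nat_lit 0) (nat_lit 37129027362) (nat_lit 76) (nat_lit 7634203570) (nat_lit 152) (nat_lit 36840713867) (nat_lit 11) (nat_lit 5) (nat_lit 12)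 (nat_lit 5) (nat_lit 13) (nat_lit 4) (nat_lit 313) (nat_lit 269) (nat_lit 198)) (XT.lf (nat_lit 0) (nat_lit 63690734635) (nat_lit 152) (nat_lit 11814169781) (nat_lit 0) (nat_lit 11640438711) (nat_lit 11) (nat_lit 5) (nat_lit 13) (nat_lit 4) (nat_lit 11) (nat_lit 4) (nat_lit 314) (nat_lit 269) (nat_lit 197))) (XT.nd (nat_lit 78) (nat_lit 76) (nat_lit 0) (XT.lf (nat_lit 0) (nat_lit 24079783458) (nat_lit 76) (nat_lit 60545553838) (nat_lit 76) (nat_lit 8480077430) (nat_lit 10) (nat_lit 4) (nat_lit 11) (nat_lit 5) (nat_lit 11) (nat_lit 4) (nat_lit 315) (nat_lit 269) (nat_lit 196)) (XT.nd (nat_lit 78) (nat_lit 0) (nat_lit 0) (XT.lf (nat_lit 0) (nat_lit 7643958622) (nat_lit 152) (nat_lit 36409417234) (nat_lit 76) (nat_lit 55473029384) (nat_lit 9) (nat_lit 5) (nat_lit 11) (nat_lit 5) (nat_lit 10) (nat_lit 4) (nat_lit 316) (nat_lit 269) (nat_lit 195)) (XT.lf (nat_lit 0) (nat_lit 24754213847) (nat_lit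 152) (nat_lit 1346408843) (nat_lit 76) (nat_lit 80353836753) (nat_lit 9) (nat_lit 5) (nat_lit 11) (nat_lit 5) (nat_lit 10) (nat_lit 4) (nat_lit 317) (nat_lit 269) (nat_lit 194)))))) (XT.nd (nat_lit 390) (nat_lit 152) (nat_lit 0) (XT.nd (nat_lit 156) (nat_lit 76) (nat_lit 0) (XT.nd (nat_lit 78) (nat_lit 0) (nat_lit 0) (XT.lf (nat_lit 0) (nat_lit 37710545429) (nat_lit 76) (nat_lit 6101719651) (nat_lit 152) (nat_lit 70095548912) (nat_lit 8) (nat_lit 5) (nat_lit 9) (nat_lit 5) (nat_lit 10) (nat_lit 4) (nat_lit 318) (nat_lit 269) (nat_lit 193)) (XT.lf (nat_lit 0) (nat_lit 64651291278) (nat_lit 152) (nat_lit 42276095669) (nat_lit 0) (nat_lit 15017237853) (nat_lit 8) (nat_lit 5) (nat_lit 10) (nat_lit 4) (nat_lit 8) (nat_lit 4) (nat_lit 319) (nat_lit 269) (nat_lit 192))) (XT.nd (nat_lit 78) (nat_lit 76) (nat_lit 0) (XT.lf (nat_lit 0) (nat_lit 87251566185) (nat_lit 152) (nat_lit 5760438907) (nat_lit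 0) (nat_lit 37607673158) (nat_lit 8) (nat_lit 5) (nat_lit 10) (nat_lit 4) (nat_lit 8) (nat_lit 4) (nat_lit 320) (nat_lit 269) (nat_lit 191)) (XT.nd (nat_lit 78) (nat_lit 0) (nat_lit 0) (XT.lf (nat_lit 0) (nat_lit 34774352181) (nat_lit 76) (nat_lit 77420325323) (nat_lit 76) (nat_lit 27767321553) (nat_lit 7) (nat_lit 4) (nat_lit 8) (nat_lit 5) (nat_lit 8) (nat_lit 4) (nat_lit 321) (nat_lit 269) (nat_lit 190)) (XT.lf (nat_lit 0) (nat_lit 78743172184) (nat_lit 76) (nat_lit 60482673068) (nat_lit 76) (nat_lit 10821233425) (nat_lit 7) (nat_lit 4) (nat_lit 8) (nat_lit 5) (nat_lit 8) (nat_lit 4) (nat_lit 322) (nat_lit 269) (nat_lit 189))))) (XT.nd (nat_lit 234) (nat_lit 0) (nat_lit 0) (XT.nd (nat_lit 78) (nat_lit 76) (nat_lit 0) (XT.lf (nat_lit 0) (nat_lit 7233834524) (nat_lit 152) (nat_lit 34839889861) (nat_lit 76) (nat_lit 118859767933) (nat_lit 6) (nat_lit 5) (nat_lit 8) (nat_lit 5) (nat_lit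 7) (nat_lit 4) (nat_lit 323) (nat_lit 269) (nat_lit 188)) (XT.nd (nat_lit 78) (nat_lit 0) (nat_lit 0) (XT.lf (nat_lit 0) (nat_lit 4489864982) (nat_lit 76) (nat_lit 21932743808) (nat_lit 152) (nat_lit 146255922064) (nat_lit 5) (nat_lit 5) (nat_lit 6) (nat_lit 5) (nat_lit 7) (nat_lit 4) (nat_lit 324) (nat_lit 269) (nat_lit 187)) (XT.lf (nat_lit 0) (nat_lit 47753983826) (nat_lit 152) (nat_lit 137142146547) (nat_lit 0) (nat_lit 436669821) (nat_lit 5) (nat_lit 5) (nat_lit 7) (nat_lit 4) (nat_lit 5) (nat_lit 4) (nat_lit 325) (nat_lit 269) (nat_lit 186)))) (XT.nd (nat_lit 78) (nat_lit 0) (nat_lit 0) (XT.lf (nat_lit 0) (nat_lit 71155657313) (nat_lit 152) (nat_lit 103993128854) (nat_lit 0) (nat_lit 23832437956) (nat_lit 5) (nat_lit 5) (nat_lit 7) (nat_lit 4) (nat_lit 5) (nat_lit 4) (nat_lit 326) (nat_lit 269) (nat_lit 185)) (XT.nd (nat_lit 78) (nat_lit 0) (nat_lit 0) (XT.lf (nat_lit 0) (nat_lit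 96423874236) (nat_lit 152) (nat_lit 68202742574) (nat_lit 0) (nat_lit 49095186962) (nat_lit 5) (nat_lit 5) (nat_lit 7) (nat_lit 4) (nat_lit 5) (nat_lit 4) (nat_lit 327) (nat_lit 269) (nat_lit 184)) (XT.lf (nat_lit 0) (nat_lit 123708372178) (nat_lit 152) (nat_lit 29558896529) (nat_lit 0) (nat_lit 76374622018) (nat_lit 5) (nat_lit 5) (nat_lit 7) (nat_lit 4) (nat_lit 5) (nat_lit 4) (nat_lit 328) (nat_lit 269) (nat_lit 183))))))))
noncomputable def xc67 : XT := (XT.nd (nat_lit 36192) (nat_lit 0) (nat_lit 2584) (XT.nd (nat_lit 780) (nat_lit 0) (nat_lit 0) (XT.nd (nat_lit 390) (nat_lit 152) (nat_lit 0) (XT.nd (nat_lit 156) (nat_lit 0) (nat_lit 0) (XT.nd (nat_lit 78) (nat_lit 0) (nat_lit 0) (XT.lf (nat_lit 0) (nat_lit 12569719370) (nat_lit 76) (nat_lit 140797366228) (nat_lit 76) (nat_lit 93458928210) (nat_lit 4) (nat_lit 4) (nat_lit 5) (nat_lit 5) (nat_lit 5) (nat_lit 4) (nat_lit 329) (nat_lit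 269) (nat_lit 182)) (XT.lf (nat_lit 0) (nat_lit 59115509039) (nat_lit 76) (nat_lit 126793310971) (nat_lit 76) (nat_lit 79450532343) (nat_lit 4) (nat_lit 4) (nat_lit 5) (nat_lit 5) (nat_lit 5) (nat_lit 4) (nat_lit 330) (nat_lit 269) (nat_lit 181))) (XT.nd (nat_lit 78) (nat_lit 0) (nat_lit 0) (XT.lf (nat_lit 0) (nat_lit 109376948769) (nat_lit 76) (nat_lit 111672710158) (nat_lit 76) (nat_lit 64325912447) (nat_lit 4) (nat_lit 4) (nat_lit 5) (nat_lit 5) (nat_lit 5) (nat_lit 4) (nat_lit 331) (nat_lit 269) (nat_lit 180)) (XT.nd (nat_lit 78) (nat_lit 0) (nat_lit 0) (XT.lf (nat_lit 0) (nat_lit 163651884128) (nat_lit 76) (nat_lit 95345960227) (nat_lit 76) (nat_lit 47995441144) (nat_lit 4) (nat_lit 4) (nat_lit 5) (nat_lit 5) (nat_lit 5) (nat_lit 4) (nat_lit 332) (nat_lit 269) (nat_lit 179)) (XT.lf (nat_lit 0) (nat_lit 222261944362) (nat_lit 76) (nat_lit 77716310069) (nat_lit 76) (nat_lit 30362345270)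 (nat_lit 4) (nat_lit 4) (nat_lit 5) (nat_lit 5) (nat_lit 5) (nat_lit 4) (nat_lit 333) (nat_lit 269) (nat_lit 178))))) (XT.nd (nat_lit 156) (nat_lit 76) (nat_lit 0) (XT.nd (nat_lit 78) (nat_lit 76) (nat_lit 0) (XT.lf (nat_lit 0) (nat_lit 285554448348) (nat_lit 76) (nat_lit 58679287683) (nat_lit 76) (nat_lit 11322132407) (nat_lit 4) (nat_lit 4) (nat_lit 5) (nat_lit 5) (nat_lit 5) (nat_lit 4) (nat_lit 334) (nat_lit 269) (nat_lit 177)) (XT.lf (nat_lit 0) (nat_lit 8942353738) (nat_lit 152) (nat_lit 29028284257) (nat_lit 76) (nat_lit 344810665949) (nat_lit 3) (nat_lit 5) (nat_lit 5) (nat_lit 5) (nat_lit 4) (nat_lit 4) (nat_lit 335) (nat_lit 269) (nat_lit 176))) (XT.nd (nat_lit 78) (nat_lit 0) (nat_lit 0) (XT.lf (nat_lit 0) (nat_lit 15523074369) (nat_lit 76) (nat_lit 15152983733) (nat_lit 152) (nat_lit 381487200256) (nat_lit 2) (nat_lit 5) (nat_lit 3) (nat_lit 5) (nat_lit 4) (nat_lit 4) (nat_lit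 336) (nat_lit 269) (nat_lit 175)) (XT.nd (nat_lit 78) (nat_lit 0) (nat_lit 0) (XT.lf (nat_lit 0) (nat_lit 54807733774) (nat_lit 152) (nat_lit 379357222118) (nat_lit 0) (nat_lit 9697850493) (nat_lit 2) (nat_lit 5) (nat_lit 4) (nat_lit 4) (nat_lit 2) (nat_lit 4) (nat_lit 337) (nat_lit 269) (nat_lit 174)) (XT.lf (nat_lit 0) (nat_lit 81122825277) (nat_lit 152) (nat_lit 360952141251) (nat_lit 0) (nat_lit 36010708570) (nat_lit 2) (nat_lit 5) (nat_lit 4) (nat_lit 4) (nat_lit 2) (nat_lit 4) (nat_lit 338) (nat_lit 269) (nat_lit 173)))))) (XT.nd (nat_lit 390) (nat_lit 0) (nat_lit 0) (XT.nd (nat_lit 156) (nat_lit 0) (nat_lit 0) (XT.nd (nat_lit 78) (nat_lit 0) (nat_lit 0) (XT.lf (nat_lit 0) (nat_lit 109540693350) (nat_lit 152) (nat_lit 341079293700) (nat_lit 0) (nat_lit 64426508657) (nat_lit 2) (nat_lit 5) (nat_lit 4) (nat_lit 4) (nat_lit 2) (nat_lit 4) (nat_lit 339) (nat_lit 269) (nat_lit 172)) (XT.lf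 (nat_lit 0) (nat_lit 140229740176) (nat_lit 152) (nat_lit 319620914443) (nat_lit 0) (nat_lit 95113640681) (nat_lit 2) (nat_lit 5) (nat_lit 4) (nat_lit 4) (nat_lit 2) (nat_lit 4) (nat_lit 340) (nat_lit 269) (nat_lit 171))) (XT.nd (nat_lit 78) (nat_lit 0) (nat_lit 0) (XT.lf (nat_lit 0) (nat_lit 173371826772) (nat_lit 152) (nat_lit 296449842714) (nat_lit 0) (nat_lit 128253954313) (nat_lit 2) (nat_lit 5) (nat_lit 4) (nat_lit 4) (nat_lit 2) (nat_lit 4) (nat_lit 341) (nat_lit 269) (nat_lit 170)) (XT.nd (nat_lit 78) (nat_lit 0) (nat_lit 0) (XT.lf (nat_lit 0) (nat_lit 209163350689) (nat_lit 152) (nat_lit 271428768458) (nat_lit 0) (nat_lit 164043836596) (nat_lit 2) (nat_lit 5) (nat_lit 4) (nat_lit 4) (nat_lit 2) (nat_lit 4) (nat_lit 342) (nat_lit 269) (nat_lit 169)) (XT.lf (nat_lit 0) (nat_lit 247816409847) (nat_lit 152) (nat_lit 244409418642) (nat_lit 0) (nat_lit 202695375723) (nat_lit 2) (nat_lit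 5) (nat_lit 4) (nat_lit 4) (nat_lit 2) (nat_lit 4) (nat_lit 343) (nat_lit 269) (nat_lit 168))))) (XT.nd (nat_lit 234) (nat_lit 0) (nat_lit 0) (XT.nd (nat_lit 78) (nat_lit 0) (nat_lit 0) (XT.lf (nat_lit 0) (nat_lit 289560059411) (nat_lit 152) (nat_lit 215231678602) (nat_lit 0) (nat_lit 244437617850) (nat_lit 2) (nat_lit 5) (nat_lit 4) (nat_lit 4) (nat_lit 2) (nat_lit 4) (nat_lit 344) (nat_lit 269) (nat_lit 167)) (XT.nd (nat_lit 78) (nat_lit 0) (nat_lit 0) (XT.lf (nat_lit 0) (nat_lit 334641669155) (nat_lit 152) (nat_lit 183722643210) (nat_lit 0) (nat_lit 289517924412) (nat_lit 2) (nat_lit 5) (nat_lit 4) (nat_lit 4) (nat_lit 2) (nat_lit 4) (nat_lit 345) (nat_lit 269) (nat_lit 166)) (XT.lf (nat_lit 0) (nat_lit 383328389360) (nat_lit 152) (nat_lit 149695592258) (nat_lit 0) (nat_lit 338203437967) (nat_lit 2) (nat_lit 5) (nat_lit 4) (nat_lit 4) (nat_lit 2) (nat_lit 4) (nat_lit 346) (nat_lit 269)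 (nat_lit 165)))) (XT.nd (nat_lit 34632) (nat_lit 0) (nat_lit 7372) (XT.lf (nat_lit 0) (nat_lit 435908733924) (nat_lit 152) (nat_lit 112948883961) (nat_lit 0) (nat_lit 390782665263) (nat_lit 2) (nat_lit 5) (nat_lit 4) (nat_lit 4) (nat_lit 2) (nat_lit 4) (nat_lit 347) (nat_lit 269) (nat_lit 164)) (XT.nd (nat_lit 78) (nat_lit 0) (nat_lit 0) (XT.lf (nat_lit 0) (nat_lit 2938508613) (nat_lit 684) (nat_lit 876527893) (nat_lit 684) (nat_lit 876527893) (nat_lit 99) (nat_lit 3) (nat_lit 108) (nat_lit 3) (nat_lit 108) (nat_lit 5) (nat_lit 270) (nat_lit 270) (nat_lit 240)) (XT.lf (nat_lit 76) (nat_lit 5261585463) (nat_lit 0) (nat_lit 2124942556) (nat_lit 684) (nat_lit 2305589770) (nat_lit 100) (nat_lit 5) (nat_lit 99) (nat_lit 3) (nat_lit 108) (nat_lit 5) (nat_lit 271) (nat_lit 270) (nat_lit 239))))))) (XT.nd (nat_lit 780) (nat_lit 2432) (nat_lit 0) (XT.nd (nat_lit 390) (nat_lit 1748) (nat_lit 0)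 (XT.nd (nat_lit 156) (nat_lit 0) (nat_lit 76) (XT.nd (nat_lit 78) (nat_lit 684) (nat_lit 0) (XT.lf (nat_lit 76) (nat_lit 2834291011) (nat_lit 0) (nat_lit 6198016103) (nat_lit 684) (nat_lit 993005004) (nat_lit 101) (nat_lit 5) (nat_lit 100) (nat_lit 5) (nat_lit 109) (nat_lit 5) (nat_lit 272) (nat_lit 270) (nat_lit 238)) (XT.lf (nat_lit 76) (nat_lit 351912516) (nat_lit 0) (nat_lit 65126805) (nat_lit 760) (nat_lit 9967719793) (nat_lit 92) (nat_lit 5) (nat_lit 91) (nat_lit 5) (nat_lit 101) (nat_lit 5) (nat_lit 273) (nat_lit 270) (nat_lit 237))) (XT.nd (nat_lit 78) (nat_lit 0) (nat_lit 76) (XT.lf (nat_lit 0) (nat_lit 2029458385) (nat_lit 684) (nat_lit 2208598268) (nat_lit 760) (nat_lit 6528086808) (nat_lit 92) (nat_lit 5) (nat_lit 101) (nat_lit 5) (nat_lit 102) (nat_lit 5) (nat_lit 274) (nat_lit 270) (nat_lit 236)) (XT.nd (nat_lit 78) (nat_lit 0) (nat_lit 0) (XT.lf (nat_lit 0) (nat_lit 3814119802)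 (nat_lit 684) (nat_lit 4844363848) (nat_lit 760) (nat_lit 2517590237) (nat_lit 93) (nat_lit 5) (nat_lit 102) (nat_lit 5) (nat_lit 103) (nat_lit 5) (nat_lit 275) (nat_lit 270) (nat_lit 235)) (XT.lf (nat_lit 76) (nat_lit 4000927651) (nat_lit 0) (nat_lit 1822274168) (nat_lit 760) (nat_lit 5791697664) (nat_lit 94) (nat_lit 5) (nat_lit 93) (nat_lit 5) (nat_lit 103) (nat_lit 5) (nat_lit 276) (nat_lit 270) (nat_lit 234))))) (XT.nd (nat_lit 156) (nat_lit 1292) (nat_lit 0) (XT.nd (nat_lit 78) (nat_lit 0) (nat_lit 0) (XT.lf (nat_lit 0) (nat_lit 1529115886) (nat_lit 684) (nat_lit 6574923434) (nat_lit 760) (nat_lit 3979409918) (nat_lit 85) (nat_lit 5) (nat_lit 94) (nat_lit 5) (nat_lit 95) (nat_lit 5) (nat_lit 277) (nat_lit 270) (nat_lit 233)) (XT.lf (nat_lit 0) (nat_lit 10664410390) (nat_lit 760) (nat_lit 1026754293) (nat_lit 76) (nat_lit 893621959) (nat_lit 85) (nat_lit 5) (nat_lit 95) (nat_lit 5)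 (nat_lit 86) (nat_lit 5) (nat_lit 278) (nat_lit 270) (nat_lit 232))) (XT.nd (nat_lit 78) (nat_lit 684) (nat_lit 0) (XT.lf (nat_lit 0) (nat_lit 479765944) (nat_lit 608) (nat_lit 3741868739) (nat_lit 76) (nat_lit 8895193175) (nat_lit 77) (nat_lit 5) (nat_lit 85) (nat_lit 5) (nat_lit 78) (nat_lit 5) (nat_lit 279) (nat_lit 270) (nat_lit 231)) (XT.nd (nat_lit 78) (nat_lit 304) (nat_lit 0) (XT.lf (nat_lit 0) (nat_lit 3126021145) (nat_lit 456) (nat_lit 6669755065) (nat_lit 76) (nat_lit 3888141160) (nat_lit 72) (nat_lit 5) (nat_lit 78) (nat_lit 5) (nat_lit 73) (nat_lit 5) (nat_lit 280) (nat_lit 270) (nat_lit 230)) (XT.lf (nat_lit 0) (nat_lit 4472752186) (nat_lit 304) (nat_lit 1651784479) (nat_lit 380) (nat_lit 8164928078) (nat_lit 68) (nat_lit 5) (nat_lit 72) (nat_lit 5) (nat_lit 73) (nat_lit 5) (nat_lit 281) (nat_lit 270) (nat_lit 229)))))) (XT.nd (nat_lit 390) (nat_lit 1216) (nat_lit 0) (XT.nd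 (nat_lit 156) (nat_lit 912) (nat_lit 0) (XT.nd (nat_lit 78) (nat_lit 0) (nat_lit 0) (XT.lf (nat_lit 0) (nat_lit 1677939938) (nat_lit 304) (nat_lit 7877956476) (nat_lit 380) (nat_lit 5378021245) (nat_lit 64) (nat_lit 5) (nat_lit 68) (nat_lit 5) (nat_lit 69) (nat_lit 5) (nat_lit 282) (nat_lit 270) (nat_lit 228)) (XT.lf (nat_lit 0) (nat_lit 13415708821) (nat_lit 380) (nat_lit 1290398256) (nat_lit 76) (nat_lit 916224297) (nat_lit 64) (nat_lit 5) (nat_lit 69) (nat_lit 5) (nat_lit 65) (nat_lit 5) (nat_lit 283) (nat_lit 270) (nat_lit 227))) (XT.nd (nat_lit 78) (nat_lit 532) (nat_lit 0) (XT.lf (nat_lit 0) (nat_lit 1446020349) (nat_lit 380) (nat_lit 4562725814) (nat_lit 76) (nat_lit 10342883984) (nat_lit 59) (nat_lit 5) (nat_lit 64) (nat_lit 5) (nat_lit 60) (nat_lit 5) (nat_lit 284) (nat_lit 270) (nat_lit 226)) (XT.nd (nat_lit 78) (nat_lit 228) (nat_lit 0) (XT.lf (nat_lit 0) (nat_lit 5481303186)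 (nat_lit 380) (nat_lit 8177977704) (nat_lit 76) (nat_lit 3469879422) (nat_lit 55) (nat_lit 5) (nat_lit 60) (nat_lit 5) (nat_lit 56) (nat_lit 5) (nat_lit 285) (nat_lit 270) (nat_lit 225)) (XT.lf (nat_lit 0) (nat_lit 5763070350) (nat_lit 228) (nat_lit 4298434231) (nat_lit 304) (nat_lit 7896360450) (nat_lit 52) (nat_lit 5) (nat_lit 55) (nat_lit 5) (nat_lit 56) (nat_lit 5) (nat_lit 286) (nat_lit 270) (nat_lit 224))))) (XT.nd (nat_lit 234) (nat_lit 684) (nat_lit 0) (XT.nd (nat_lit 78) (nat_lit 304) (nat_lit 0) (XT.lf (nat_lit 0) (nat_lit 2179924651) (nat_lit 228) (nat_lit 13050328632) (nat_lit 304) (nat_lit 3611577519) (nat_lit 49) (nat_lit 5) (nat_lit 52) (nat_lit 5) (nat_lit 53) (nat_lit 5) (nat_lit 287) (nat_lit 270) (nat_lit 223)) (XT.nd (nat_lit 78) (nat_lit 228) (nat_lit 0) (XT.lf (nat_lit 0) (nat_lit 1226213971) (nat_lit 304) (nat_lit 1798952790) (nat_lit 76) (nat_lit 16758479578) (nat_lit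 48) (nat_lit 5) (nat_lit 52) (nat_lit 5) (nat_lit 49) (nat_lit 5) (nat_lit 288) (nat_lit 270) (nat_lit 222)) (XT.lf (nat_lit 0) (nat_lit 6638235749) (nat_lit 304) (nat_lit 6312123454) (nat_lit 76) (nat_lit 7831858819) (nat_lit 45) (nat_lit 5) (nat_lit 49) (nat_lit 5) (nat_lit 46) (nat_lit 5) (nat_lit 289) (nat_lit 270) (nat_lit 221)))) (XT.nd (nat_lit 78) (nat_lit 456) (nat_lit 0) (XT.lf (nat_lit 0) (nat_lit 10473337955) (nat_lit 228) (nat_lit 2216055816) (nat_lit 304) (nat_lit 9161026798) (nat_lit 42) (nat_lit 5) (nat_lit 45) (nat_lit 5) (nat_lit 46) (nat_lit 5) (nat_lit 290) (nat_lit 270) (nat_lit 220)) (XT.nd (nat_lit 78) (nat_lit 304) (nat_lit 0) (XT.lf (nat_lit 0) (nat_lit 5810820858) (nat_lit 152) (nat_lit 13724395015) (nat_lit 228) (nat_lit 3453384743) (nat_lit 40) (nat_lit 5) (nat_lit 42) (nat_lit 5) (nat_lit 43) (nat_lit 5) (nat_lit 291) (nat_lit 270) (nat_lit 219)) (XT.lf (nat_lit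 0) (nat_lit 449268528) (nat_lit 228) (nat_lit 2383708623) (nat_lit 304) (nat_lit 21372342018) (nat_lit 36) (nat_lit 5) (nat_lit 39) (nat_lit 5) (nat_lit 40) (nat_lit 5) (nat_lit 292) (nat_lit 270) (nat_lit 218))))))))
noncomputable def xc68 : XT := (XT.nd (nat_lit 1560) (nat_lit 608) (nat_lit 0) (XT.nd (nat_lit 780) (nat_lit 760) (nat_lit 0) (XT.nd (nat_lit 390) (nat_lit 532) (nat_lit 0) (XT.nd (nat_lit 156) (nat_lit 380) (nat_lit 0) (XT.nd (nat_lit 78) (nat_lit 152) (nat_lit 0) (XT.lf (nat_lit 0) (nat_lit 9925738761) (nat_lit 304) (nat_lit 5675106637) (nat_lit 76) (nat_lit 9894515855) (nat_lit 36) (nat_lit 5) (nat_lit 40) (nat_lit 5) (nat_lit 37) (nat_lit 5) (nat_lit 293) (nat_lit 270) (nat_lit 217)) (XT.lf (nat_lit 0) (nat_lit 14217690440) (nat_lit 152) (nat_lit 3597739137) (nat_lit 228) (nat_lit 9061739414) (nat_lit 34) (nat_lit 5) (nat_lit 36) (nat_lit 5) (nat_lit 37) (nat_lit 5) (nat_lit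 294) (nat_lit 270) (nat_lit 216))) (XT.nd (nat_lit 78) (nat_lit 228) (nat_lit 0) (XT.lf (nat_lit 0) (nat_lit 7586291669) (nat_lit 152) (nat_lit 19083909906) (nat_lit 228) (nat_lit 1682659386) (nat_lit 32) (nat_lit 5) (nat_lit 34) (nat_lit 5) (nat_lit 35) (nat_lit 5) (nat_lit 295) (nat_lit 270) (nat_lit 215)) (XT.nd (nat_lit 78) (nat_lit 152) (nat_lit 0) (XT.lf (nat_lit 0) (nat_lit 6340163036) (nat_lit 228) (nat_lit 241801590) (nat_lit 76) (nat_lit 23347035200) (nat_lit 31) (nat_lit 5) (nat_lit 34) (nat_lit 5) (nat_lit 32) (nat_lit 5) (nat_lit 296) (nat_lit 270) (nat_lit 214)) (XT.lf (nat_lit 0) (nat_lit 15385207856) (nat_lit 228) (nat_lit 9152580976) (nat_lit 76) (nat_lit 7070122804) (nat_lit 29) (nat_lit 5) (nat_lit 32) (nat_lit 5) (nat_lit 30) (nat_lit 5) (nat_lit 297) (nat_lit 270) (nat_lit 213))))) (XT.nd (nat_lit 156) (nat_lit 228) (nat_lit 0) (XT.nd (nat_lit 78) (nat_lit 152) (nat_lit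 0) (XT.lf (nat_lit 0) (nat_lit 13844762601) (nat_lit 152) (nat_lit 11613748091) (nat_lit 228) (nat_lit 7947419369) (nat_lit 27) (nat_lit 5) (nat_lit 29) (nat_lit 5) (nat_lit 30) (nat_lit 5) (nat_lit 298) (nat_lit 270) (nat_lit 212)) (XT.lf (nat_lit 0) (nat_lit 1192792370) (nat_lit 152) (nat_lit 31649615530) (nat_lit 76) (nat_lit 2492903227) (nat_lit 25) (nat_lit 5) (nat_lit 27) (nat_lit 5) (nat_lit 26) (nat_lit 5) (nat_lit 299) (nat_lit 270) (nat_lit 211))) (XT.nd (nat_lit 78) (nat_lit 228) (nat_lit 0) (XT.lf (nat_lit 0) (nat_lit 11306830996) (nat_lit 152) (nat_lit 8288010487) (nat_lit 76) (nat_lit 17791656029) (nat_lit 25) (nat_lit 5) (nat_lit 27) (nat_lit 5) (nat_lit 26) (nat_lit 5) (nat_lit 300) (nat_lit 270) (nat_lit 210)) (XT.nd (nat_lit 78) (nat_lit 76) (nat_lit 0) (XT.lf (nat_lit 0) (nat_lit 17463106359) (nat_lit 152) (nat_lit 5016542242) (nat_lit 228) (nat_lit 17109667362) (nat_lit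 23) (nat_lit 5) (nat_lit 25) (nat_lit 5) (nat_lit 26) (nat_lit 5) (nat_lit 301) (nat_lit 270) (nat_lit 209)) (XT.lf (nat_lit 0) (nat_lit 3514189357) (nat_lit 76) (nat_lit 31379108613) (nat_lit 152) (nat_lit 7057730079) (nat_lit 22) (nat_lit 5) (nat_lit 23) (nat_lit 5) (nat_lit 24) (nat_lit 4) (nat_lit 302) (nat_lit 270) (nat_lit 208)))))) (XT.nd (nat_lit 390) (nat_lit 228) (nat_lit 0) (XT.nd (nat_lit 156) (nat_lit 304) (nat_lit 0) (XT.nd (nat_lit 78) (nat_lit 152) (nat_lit 0) (XT.lf (nat_lit 0) (nat_lit 4131743157) (nat_lit 152) (nat_lit 12673325177) (nat_lit 76) (nat_lit 27670912293) (nat_lit 21) (nat_lit 5) (nat_lit 23) (nat_lit 5) (nat_lit 22) (nat_lit 5) (nat_lit 303) (nat_lit 270) (nat_lit 207)) (XT.lf (nat_lit 0) (nat_lit 15494240704) (nat_lit 152) (nat_lit 700284396) (nat_lit 228) (nat_lit 30991363404) (nat_lit 19) (nat_lit 5) (nat_lit 21) (nat_lit 5) (nat_lit 22) (nat_lit 5) (nat_lit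 304) (nat_lit 270) (nat_lit 206))) (XT.nd (nat_lit 78) (nat_lit 304) (nat_lit 0) (XT.lf (nat_lit 0) (nat_lit 29688284314) (nat_lit 228) (nat_lit 4031223660) (nat_lit 76) (nat_lit 16369797269) (nat_lit 19) (nat_lit 5) (nat_lit 22) (nat_lit 5) (nat_lit 20) (nat_lit 4) (nat_lit 305) (nat_lit 270) (nat_lit 205)) (XT.nd (nat_lit 78) (nat_lit 228) (nat_lit 0) (XT.lf (nat_lit 0) (nat_lit 26652530037) (nat_lit 76) (nat_lit 18019305820) (nat_lit 152) (nat_lit 8532657817) (nat_lit 18) (nat_lit 5) (nat_lit 19) (nat_lit 5) (nat_lit 20) (nat_lit 4) (nat_lit 306) (nat_lit 270) (nat_lit 204)) (XT.lf (nat_lit 0) (nat_lit 3379684199) (nat_lit 152) (nat_lit 875399946) (nat_lit 228) (nat_lit 52305126154) (nat_lit 15) (nat_lit 5) (nat_lit 17) (nat_lit 5) (nat_lit 18) (nat_lit 5) (nat_lit 307) (nat_lit 270) (nat_lit 203))))) (XT.nd (nat_lit 156) (nat_lit 152) (nat_lit 0) (XT.nd (nat_lit 78) (nat_lit 76) (nat_lit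 0) (XT.lf (nat_lit 0) (nat_lit 18499956269) (nat_lit 228) (nat_lit 23963411232) (nat_lit 76) (nat_lit 17677380653) (nat_lit 15) (nat_lit 5) (nat_lit 18) (nat_lit 5) (nat_lit 16) (nat_lit 4) (nat_lit 308) (nat_lit 270) (nat_lit 202)) (XT.lf (nat_lit 0) (nat_lit 7798782642) (nat_lit 76) (nat_lit 26206922534) (nat_lit 152) (nat_lit 29995969288) (nat_lit 14) (nat_lit 5) (nat_lit 15) (nat_lit 5) (nat_lit 16) (nat_lit 4) (nat_lit 309) (nat_lit 270) (nat_lit 201))) (XT.nd (nat_lit 78) (nat_lit 152) (nat_lit 0) (XT.lf (nat_lit 0) (nat_lit 42931718053) (nat_lit 76) (nat_lit 8223111617) (nat_lit 152) (nat_lit 16996508479) (nat_lit 14) (nat_lit 5) (nat_lit 15) (nat_lit 5) (nat_lit 16) (nat_lit 4) (nat_lit 310) (nat_lit 270) (nat_lit 200)) (XT.nd (nat_lit 78) (nat_lit 76) (nat_lit 0) (XT.lf (nat_lit 0) (nat_lit 8308842703) (nat_lit 76) (nat_lit 61658017763) (nat_lit 76) (nat_lit 2651574028) (nat_lit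 13) (nat_lit 4) (nat_lit 14) (nat_lit 5) (nat_lit 14) (nat_lit 4) (nat_lit 311) (nat_lit 270) (nat_lit 199)) (XT.lf (nat_lit 0) (nat_lit 13001951256) (nat_lit 152) (nat_lit 32371035500) (nat_lit 76) (nat_lit 32031295676) (nat_lit 12) (nat_lit 5) (nat_lit 14) (nat_lit 5) (nat_lit 13) (nat_lit 4) (nat_lit 312) (nat_lit 270) (nat_lit 198))))))) (XT.nd (nat_lit 780) (nat_lit 228) (nat_lit 0) (XT.nd (nat_lit 390) (nat_lit 152) (nat_lit 0) (XT.nd (nat_lit 156) (nat_lit 152) (nat_lit 0) (XT.nd (nat_lit 78) (nat_lit 0) (nat_lit 0) (XT.lf (nat_lit 0) (nat_lit 2123711690) (nat_lit 76) (nat_lit 27713342912) (nat_lit 152) (nat_lit 52732667314) (nat_lit 11) (nat_lit 5) (nat_lit 12) (nat_lit 5) (nat_lit 13) (nat_lit 4) (nat_lit 313) (nat_lit 270) (nat_lit 197)) (XT.lf (nat_lit 0) (nat_lit 40512805475) (nat_lit 76) (nat_lit 8058411709) (nat_lit 152) (nat_lit 39549573163) (nat_lit 11) (nat_lit 5) (nat_lit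 12) (nat_lit 5) (nat_lit 13) (nat_lit 4) (nat_lit 314) (nat_lit 270) (nat_lit 196))) (XT.nd (nat_lit 78) (nat_lit 152) (nat_lit 0) (XT.lf (nat_lit 0) (nat_lit 68998808225) (nat_lit 152) (nat_lit 12368549908) (nat_lit 0) (nat_lit 12738857217) (nat_lit 11) (nat_lit 5) (nat_lit 13) (nat_lit 4) (nat_lit 11) (nat_lit 4) (nat_lit 315) (nat_lit 270) (nat_lit 195)) (XT.nd (nat_lit 78) (nat_lit 76) (nat_lit 0) (XT.lf (nat_lit 0) (nat_lit 26379937921) (nat_lit 76) (nat_lit 65218312741) (nat_lit 76) (nat_lit 8945346915) (nat_lit 10) (nat_lit 4) (nat_lit 11) (nat_lit 5) (nat_lit 11) (nat_lit 4) (nat_lit 316) (nat_lit 270) (nat_lit 194)) (XT.lf (nat_lit 0) (nat_lit 8446507723) (nat_lit 152) (nat_lit 38969675750) (nat_lit 76) (nat_lit 60062689085) (nat_lit 9) (nat_lit 5) (nat_lit 11) (nat_lit 5) (nat_lit 10) (nat_lit 4) (nat_lit 317) (nat_lit 270) (nat_lit 193))))) (XT.nd (nat_lit 156) (nat_lit 76)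 (nat_lit 0) (XT.nd (nat_lit 78) (nat_lit 76) (nat_lit 0) (XT.lf (nat_lit 0) (nat_lit 26911432816) (nat_lit 152) (nat_lit 1127737418) (nat_lit 76) (nat_lit 86922715314) (nat_lit 9) (nat_lit 5) (nat_lit 11) (nat_lit 5) (nat_lit 10) (nat_lit 4) (nat_lit 318) (nat_lit 270) (nat_lit 192)) (XT.lf (nat_lit 0) (nat_lit 41039588939) (nat_lit 76) (nat_lit 6446311165) (nat_lit 152) (nat_lit 75526026173) (nat_lit 8) (nat_lit 5) (nat_lit 9) (nat_lit 5) (nat_lit 10) (nat_lit 4) (nat_lit 319) (nat_lit 270) (nat_lit 191))) (XT.nd (nat_lit 78) (nat_lit 76) (nat_lit 0) (XT.lf (nat_lit 0) (nat_lit 69981630666) (nat_lit 152) (nat_lit 45363302254) (nat_lit 0) (nat_lit 16347275852) (nat_lit 8) (nat_lit 5) (nat_lit 10) (nat_lit 4) (nat_lit 8) (nat_lit 4) (nat_lit 320) (nat_lit 270) (nat_lit 190)) (XT.nd (nat_lit 78) (nat_lit 76) (nat_lit 0) (XT.lf (nat_lit 0) (nat_lit 94378206374) (nat_lit 152) (nat_lit 5948235993)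 (nat_lit 0) (nat_lit 40735415687) (nat_lit 8) (nat_lit 5) (nat_lit 10) (nat_lit 4) (nat_lit 8) (nat_lit 4) (nat_lit 321) (nat_lit 270) (nat_lit 189)) (XT.lf (nat_lit 0) (nat_lit 37817472482) (nat_lit 76) (nat_lit 83492518791) (nat_lit 76) (nat_lit 29841917110) (nat_lit 7) (nat_lit 4) (nat_lit 8) (nat_lit 5) (nat_lit 8) (nat_lit 4) (nat_lit 322) (nat_lit 270) (nat_lit 188)))))) (XT.nd (nat_lit 390) (nat_lit 76) (nat_lit 0) (XT.nd (nat_lit 156) (nat_lit 76) (nat_lit 0) (XT.nd (nat_lit 78) (nat_lit 76) (nat_lit 0) (XT.lf (nat_lit 0) (nat_lit 85284452002) (nat_lit 76) (nat_lit 65208849359) (nat_lit 76) (nat_lit 11551015277) (nat_lit 7) (nat_lit 4) (nat_lit 8) (nat_lit 5) (nat_lit 8) (nat_lit 4) (nat_lit 323) (nat_lit 270) (nat_lit 187)) (XT.lf (nat_lit 0) (nat_lit 7934362244) (nat_lit 152) (nat_lit 37399088148) (nat_lit 76) (nat_lit 128468578316) (nat_lit 6) (nat_lit 5) (nat_lit 8) (nat_lit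 5) (nat_lit 7) (nat_lit 4) (nat_lit 324) (nat_lit 270) (nat_lit 186))) (XT.nd (nat_lit 78) (nat_lit 0) (nat_lit 0) (XT.lf (nat_lit 0) (nat_lit 5067138788) (nat_lit 76) (nat_lit 23585480800) (nat_lit 152) (nat_lit 157834335530) (nat_lit 5) (nat_lit 5) (nat_lit 6) (nat_lit 5) (nat_lit 7) (nat_lit 4) (nat_lit 325) (nat_lit 270) (nat_lit 185)) (XT.nd (nat_lit 78) (nat_lit 0) (nat_lit 0) (XT.lf (nat_lit 0) (nat_lit 51683369909) (nat_lit 152) (nat_lit 147907636659) (nat_lit 0) (nat_lit 562919736) (nat_lit 5) (nat_lit 5) (nat_lit 7) (nat_lit 4) (nat_lit 5) (nat_lit 4) (nat_lit 326) (nat_lit 270) (nat_lit 184)) (XT.lf (nat_lit 0) (nat_lit 76949098210) (nat_lit 152) (nat_lit 112121948041) (nat_lit 0) (nat_lit 25823585150) (nat_lit 5) (nat_lit 5) (nat_lit 7) (nat_lit 4) (nat_lit 5) (nat_lit 4) (nat_lit 327) (nat_lit 270) (nat_lit 183))))) (XT.nd (nat_lit 234) (nat_lit 0) (nat_lit 0) (XT.nd (nat_lit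 78) (nat_lit 76) (nat_lit 0) (XT.lf (nat_lit 0) (nat_lit 104231291872) (nat_lit 152) (nat_lit 73482451682) (nat_lit 0) (nat_lit 53101090953) (nat_lit 5) (nat_lit 5) (nat_lit 7) (nat_lit 4) (nat_lit 5) (nat_lit 4) (nat_lit 328) (nat_lit 270) (nat_lit 182)) (XT.nd (nat_lit 78) (nat_lit 76) (nat_lit 0) (XT.lf (nat_lit 0) (nat_lit 133691623153) (nat_lit 152) (nat_lit 31760172790) (nat_lit 0) (nat_lit 82557081626) (nat_lit 5) (nat_lit 5) (nat_lit 7) (nat_lit 4) (nat_lit 5) (nat_lit 4) (nat_lit 329) (nat_lit 270) (nat_lit 181)) (XT.lf (nat_lit 0) (nat_lit 13731629675) (nat_lit 76) (nat_lit 151987431342) (nat_lit 76) (nat_lit 100848870732) (nat_lit 4) (nat_lit 4) (nat_lit 5) (nat_lit 5) (nat_lit 5) (nat_lit 4) (nat_lit 330) (nat_lit 270) (nat_lit 180)))) (XT.nd (nat_lit 78) (nat_lit 0) (nat_lit 0) (XT.lf (nat_lit 0) (nat_lit 63989502314) (nat_lit 76) (nat_lit 136868512715) (nat_lit 76) (nat_lit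 85726230732) (nat_lit 4) (nat_lit 4) (nat_lit 5) (nat_lit 5) (nat_lit 5) (nat_lit 4) (nat_lit 331) (nat_lit 270) (nat_lit 179)) (XT.nd (nat_lit 78) (nat_lit 0) (nat_lit 0) (XT.lf (nat_lit 0) (nat_lit 118261134810) (nat_lit 76) (nat_lit 120543320365) (nat_lit 76) (nat_lit 69397592666) (nat_lit 4) (nat_lit 4) (nat_lit 5) (nat_lit 5) (nat_lit 5) (nat_lit 4) (nat_lit 332) (nat_lit 270) (nat_lit 178)) (XT.lf (nat_lit 0) (nat_lit 176868136839) (nat_lit 76) (nat_lit 102915112411) (nat_lit 76) (nat_lit 51766194235) (nat_lit 4) (nat_lit 4) (nat_lit 5) (nat_lit 5) (nat_lit 5) (nat_lit 4) (nat_lit 333) (nat_lit 270) (nat_lit 177))))))))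
noncomputable def xc69 : XT := (XT.nd (nat_lit 36348) (nat_lit 0) (nat_lit 1900) (XT.nd (nat_lit 780) (nat_lit 0) (nat_lit 0) (XT.nd (nat_lit 390) (nat_lit 0) (nat_lit 0) (XT.nd (nat_lit 156) (nat_lit 152) (nat_lit 0) (XT.nd (nat_lit 78) (nat_lit 0) (nat_lit 0) (XT.lf (nat_lit 0) (nat_lit 240157809153) (nat_lit 76) (nat_lit 83879425398) (nat_lit 76) (nat_lit 32727553077) (nat_lit 4) (nat_lit 4) (nat_lit 5) (nat_lit 5) (nat_lit 5) (nat_lit 4) (nat_lit 334) (nat_lit 270) (nat_lit 176)) (XT.lf (nat_lit 0) (nat_lit 308505201662) (nat_lit 76) (nat_lit 63323455256) (nat_lit 76) (nat_lit 12168847615) (nat_lit 4) (nat_lit 4) (nat_lit 5) (nat_lit 5) (nat_lit 5) (nat_lit 4) (nat_lit 335) (nat_lit 270) (nat_lit 175))) (XT.nd (nat_lit 78) (nat_lit 76) (nat_lit 0) (XT.lf (nat_lit 0) (nat_lit 9710672818) (nat_lit 152) (nat_lit 31250261066) (nat_lit 76) (nat_lit 372440208190) (nat_lit 3) (nat_lit 5)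 (nat_lit 5) (nat_lit 5) (nat_lit 4) (nat_lit 4) (nat_lit 336) (nat_lit 270) (nat_lit 174)) (XT.nd (nat_lit 78) (nat_lit 0) (nat_lit 0) (XT.lf (nat_lit 0) (nat_lit 16860847946) (nat_lit 76) (nat_lit 16319802486) (nat_lit 152) (nat_lit 411953125020) (nat_lit 2) (nat_lit 5) (nat_lit 3) (nat_lit 5) (nat_lit 4) (nat_lit 4) (nat_lit 337) (nat_lit 270) (nat_lit 173)) (XT.lf (nat_lit 0) (nat_lit 59239775453) (nat_lit 152) (nat_lit 409615279452) (nat_lit 0) (nat_lit 10514387999) (nat_lit 2) (nat_lit 5) (nat_lit 4) (nat_lit 4) (nat_lit 2) (nat_lit 4) (nat_lit 338) (nat_lit 270) (nat_lit 172))))) (XT.nd (nat_lit 156) (nat_lit 0) (nat_lit 0) (XT.nd (nat_lit 78) (nat_lit 0) (nat_lit 0) (XT.lf (nat_lit 0) (nat_lit 87656561462) (nat_lit 152) (nat_lit 389744497333) (nat_lit 0) (nat_lit 38929259206) (nat_lit 2) (nat_lit 5) (nat_lit 4) (nat_lit 4) (nat_lit 2) (nat_lit 4) (nat_lit 339) (nat_lit 270) (nat_lit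 171)) (XT.lf (nat_lit 0) (nat_lit 118344606376) (nat_lit 152) (nat_lit 368288030513) (nat_lit 0) (nat_lit 69615531156) (nat_lit 2) (nat_lit 5) (nat_lit 4) (nat_lit 4) (nat_lit 2) (nat_lit 4) (nat_lit 340) (nat_lit 270) (nat_lit 170))) (XT.nd (nat_lit 78) (nat_lit 0) (nat_lit 0) (XT.lf (nat_lit 0) (nat_lit 151485765277) (nat_lit 152) (nat_lit 345118729558) (nat_lit 0) (nat_lit 102755048423) (nat_lit 2) (nat_lit 5) (nat_lit 4) (nat_lit 4) (nat_lit 2) (nat_lit 4) (nat_lit 341) (nat_lit 270) (nat_lit 169)) (XT.nd (nat_lit 78) (nat_lit 0) (nat_lit 0) (XT.lf (nat_lit 0) (nat_lit 187276430217) (nat_lit 152) (nat_lit 320099294909) (nat_lit 0) (nat_lit 138544193331) (nat_lit 2) (nat_lit 5) (nat_lit 4) (nat_lit 4) (nat_lit 2) (nat_lit 4) (nat_lit 342) (nat_lit 270) (nat_lit 168)) (XT.lf (nat_lit 0) (nat_lit 225928694025) (nat_lit 152) (nat_lit 293081463247) (nat_lit 0) (nat_lit 177195049703) (nat_lit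 2) (nat_lit 5) (nat_lit 4) (nat_lit 4) (nat_lit 2) (nat_lit 4) (nat_lit 343) (nat_lit 270) (nat_lit 167)))))) (XT.nd (nat_lit 35100) (nat_lit 0) (nat_lit 6308) (XT.nd (nat_lit 156) (nat_lit 0) (nat_lit 0) (XT.nd (nat_lit 78) (nat_lit 0) (nat_lit 0) (XT.lf (nat_lit 0) (nat_lit 267671607154) (nat_lit 152) (nat_lit 263905128905) (nat_lit 0) (nat_lit 218936659650) (nat_lit 2) (nat_lit 5) (nat_lit 4) (nat_lit 4) (nat_lit 2) (nat_lit 4) (nat_lit 344) (nat_lit 270) (nat_lit 166)) (XT.lf (nat_lit 0) (nat_lit 312752535015) (nat_lit 152) (nat_lit 232397395085) (nat_lit 0) (nat_lit 264016380860) (nat_lit 2) (nat_lit 5) (nat_lit 4) (nat_lit 4) (nat_lit 2) (nat_lit 4) (nat_lit 345) (nat_lit 270) (nat_lit 165))) (XT.nd (nat_lit 34788) (nat_lit 0) (nat_lit 7372) (XT.lf (nat_lit 0) (nat_lit 361438623846) (nat_lit 152) (nat_lit 198371549293) (nat_lit 0) (nat_lit 312701352423) (nat_lit 2) (nat_lit 5) (nat_lit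 4) (nat_lit 4) (nat_lit 2) (nat_lit 4) (nat_lit 346) (nat_lit 270) (nat_lit 164)) (XT.nd (nat_lit 78) (nat_lit 0) (nat_lit 0) (XT.lf (nat_lit 0) (nat_lit 4337196900) (nat_lit 684) (nat_lit 334480248) (nat_lit 684) (nat_lit 334480248) (nat_lit 99) (nat_lit 3) (nat_lit 108) (nat_lit 3) (nat_lit 108) (nat_lit 5) (nat_lit 271) (nat_lit 271) (nat_lit 238)) (XT.lf (nat_lit 76) (nat_lit 6853643738) (nat_lit 0) (nat_lit 3296920050) (nat_lit 684) (nat_lit 203542240) (nat_lit 100) (nat_lit 5) (nat_lit 99) (nat_lit 3) (nat_lit 108) (nat_lit 5) (nat_lit 272) (nat_lit 271) (nat_lit 237))))) (XT.nd (nat_lit 234) (nat_lit 456) (nat_lit 0) (XT.nd (nat_lit 78) (nat_lit 0) (nat_lit 0) (XT.lf (nat_lit 0) (nat_lit 1016255876) (nat_lit 684) (nat_lit 6433811685) (nat_lit 760) (nat_lit 3271220789) (nat_lit 91) (nat_lit 5) (nat_lit 100) (nat_lit 5) (nat_lit 101) (nat_lit 5) (nat_lit 273) (nat_lit 271) (nat_lit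 236)) (XT.nd (nat_lit 78) (nat_lit 0) (nat_lit 76) (XT.lf (nat_lit 76) (nat_lit 1638631979) (nat_lit 0) (nat_lit 733620544) (nat_lit 760) (nat_lit 8743336379) (nat_lit 92) (nat_lit 5) (nat_lit 91) (nat_lit 5) (nat_lit 101) (nat_lit 5) (nat_lit 274) (nat_lit 271) (nat_lit 235)) (XT.lf (nat_lit 0) (nat_lit 3961717223) (nat_lit 684) (nat_lit 1117811019) (nat_lit 760) (nat_lit 6455838959) (nat_lit 92) (nat_lit 5) (nat_lit 101) (nat_lit 5) (nat_lit 102) (nat_lit 5) (nat_lit 275) (nat_lit 271) (nat_lit 234)))) (XT.nd (nat_lit 78) (nat_lit 608) (nat_lit 0) (XT.lf (nat_lit 0) (nat_lit 5770023602) (nat_lit 684) (nat_lit 3926373496) (nat_lit 760) (nat_lit 2287915999) (nat_lit 93) (nat_lit 5) (nat_lit 102) (nat_lit 5) (nat_lit 103) (nat_lit 5) (nat_lit 276) (nat_lit 271) (nat_lit 233)) (XT.nd (nat_lit 78) (nat_lit 608) (nat_lit 0) (XT.lf (nat_lit 76) (nat_lit 5569804168) (nat_lit 0) (nat_lit 2267245744)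 (nat_lit 760) (nat_lit 4626578979) (nat_lit 94) (nat_lit 5) (nat_lit 93) (nat_lit 5) (nat_lit 103) (nat_lit 5) (nat_lit 277) (nat_lit 271) (nat_lit 232)) (XT.lf (nat_lit 0) (nat_lit 2927409967) (nat_lit 684) (nat_lit 7273874588) (nat_lit 760) (nat_lit 2773558450) (nat_lit 85) (nat_lit 5) (nat_lit 94) (nat_lit 5) (nat_lit 95) (nat_lit 5) (nat_lit 278) (nat_lit 271) (nat_lit 231))))))) (XT.nd (nat_lit 780) (nat_lit 1672) (nat_lit 0) (XT.nd (nat_lit 390) (nat_lit 1140) (nat_lit 0) (XT.nd (nat_lit 156) (nat_lit 988) (nat_lit 0) (XT.nd (nat_lit 78) (nat_lit 76) (nat_lit 0) (XT.lf (nat_lit 0) (nat_lit 149546727) (nat_lit 532) (nat_lit 12709445543) (nat_lit 608) (nat_lit 662879862) (nat_lit 78) (nat_lit 5) (nat_lit 85) (nat_lit 5) (nat_lit 86) (nat_lit 5) (nat_lit 279) (nat_lit 271) (nat_lit 230)) (XT.lf (nat_lit 0) (nat_lit 1799758544) (nat_lit 608) (nat_lit 2797354074) (nat_lit 76) (nat_lit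 9502665216) (nat_lit 77) (nat_lit 5) (nat_lit 85) (nat_lit 5) (nat_lit 78) (nat_lit 5) (nat_lit 280) (nat_lit 271) (nat_lit 229))) (XT.nd (nat_lit 78) (nat_lit 608) (nat_lit 0) (XT.lf (nat_lit 0) (nat_lit 4581115060) (nat_lit 456) (nat_lit 5950880147) (nat_lit 76) (nat_lit 4184240787) (nat_lit 72) (nat_lit 5) (nat_lit 78) (nat_lit 5) (nat_lit 73) (nat_lit 5) (nat_lit 281) (nat_lit 271) (nat_lit 228)) (XT.nd (nat_lit 78) (nat_lit 304) (nat_lit 0) (XT.lf (nat_lit 0) (nat_lit 6028597502) (nat_lit 304) (nat_lit 1720358684) (nat_lit 380) (nat_lit 7624957578) (nat_lit 68) (nat_lit 5) (nat_lit 72) (nat_lit 5) (nat_lit 73) (nat_lit 5) (nat_lit 282) (nat_lit 271) (nat_lit 227)) (XT.lf (nat_lit 0) (nat_lit 3013342983) (nat_lit 304) (nat_lit 8377120473) (nat_lit 380) (nat_lit 4682824581) (nat_lit 64) (nat_lit 5) (nat_lit 68) (nat_lit 5) (nat_lit 69) (nat_lit 5) (nat_lit 283) (nat_lit 271) (nat_lit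 226))))) (XT.nd (nat_lit 156) (nat_lit 760) (nat_lit 0) (XT.nd (nat_lit 78) (nat_lit 380) (nat_lit 0) (XT.lf (nat_lit 0) (nat_lit 15481689359) (nat_lit 380) (nat_lit 232088937) (nat_lit 76) (nat_lit 1107001298) (nat_lit 64) (nat_lit 5) (nat_lit 69) (nat_lit 5) (nat_lit 65) (nat_lit 5) (nat_lit 284) (nat_lit 271) (nat_lit 225)) (XT.lf (nat_lit 0) (nat_lit 2515116119) (nat_lit 380) (nat_lit 3783656717) (nat_lit 76) (nat_lit 11311816046) (nat_lit 59) (nat_lit 5) (nat_lit 64) (nat_lit 5) (nat_lit 60) (nat_lit 5) (nat_lit 285) (nat_lit 271) (nat_lit 224))) (XT.nd (nat_lit 78) (nat_lit 456) (nat_lit 0) (XT.lf (nat_lit 0) (nat_lit 6822720969) (nat_lit 380) (nat_lit 7694502283) (nat_lit 76) (nat_lit 3935734424) (nat_lit 55) (nat_lit 5) (nat_lit 60) (nat_lit 5) (nat_lit 56) (nat_lit 5) (nat_lit 286) (nat_lit 271) (nat_lit 223)) (XT.nd (nat_lit 78) (nat_lit 228) (nat_lit 0) (XT.lf (nat_lit 0) (nat_lit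 7312385967) (nat_lit 228) (nat_lit 4407060968) (nat_lit 304) (nat_lit 7631109360) (nat_lit 52) (nat_lit 5) (nat_lit 55) (nat_lit 5) (nat_lit 56) (nat_lit 5) (nat_lit 287) (nat_lit 271) (nat_lit 222)) (XT.lf (nat_lit 0) (nat_lit 3433808912) (nat_lit 228) (nat_lit 13824954492) (nat_lit 304) (nat_lit 3048717852) (nat_lit 49) (nat_lit 5) (nat_lit 52) (nat_lit 5) (nat_lit 53) (nat_lit 5) (nat_lit 288) (nat_lit 271) (nat_lit 221)))))) (XT.nd (nat_lit 390) (nat_lit 684) (nat_lit 0) (XT.nd (nat_lit 156) (nat_lit 684) (nat_lit 0) (XT.nd (nat_lit 78) (nat_lit 228) (nat_lit 0) (XT.lf (nat_lit 0) (nat_lit 2087758683) (nat_lit 304) (nat_lit 917047221) (nat_lit 76) (nat_lit 18322309041) (nat_lit 48) (nat_lit 5) (nat_lit 52) (nat_lit 5) (nat_lit 49) (nat_lit 5) (nat_lit 289) (nat_lit 271) (nat_lit 220)) (XT.lf (nat_lit 0) (nat_lit 7895554554) (nat_lit 304) (nat_lit 5802812927) (nat_lit 76) (nat_lit 8709142094)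 (nat_lit 45) (nat_lit 5) (nat_lit 49) (nat_lit 5) (nat_lit 46) (nat_lit 5) (nat_lit 290) (nat_lit 271) (nat_lit 219))) (XT.nd (nat_lit 78) (nat_lit 456) (nat_lit 0) (XT.lf (nat_lit 0) (nat_lit 12281406004) (nat_lit 228) (nat_lit 2110749738) (nat_lit 304) (nat_lit 9171017126) (nat_lit 42) (nat_lit 5) (nat_lit 45) (nat_lit 5) (nat_lit 46) (nat_lit 5) (nat_lit 291) (nat_lit 271) (nat_lit 218)) (XT.nd (nat_lit 78) (nat_lit 304) (nat_lit 0) (XT.lf (nat_lit 0) (nat_lit 7233251560) (nat_lit 152) (nat_lit 14520493431) (nat_lit 228) (nat_lit 3040323986) (nat_lit 40) (nat_lit 5) (nat_lit 42) (nat_lit 5) (nat_lit 43) (nat_lit 5) (nat_lit 292) (nat_lit 271) (nat_lit 217)) (XT.lf (nat_lit 0) (nat_lit 1423024376) (nat_lit 228) (nat_lit 2269074175) (nat_lit 304) (nat_lit 22417286457) (nat_lit 36) (nat_lit 5) (nat_lit 39) (nat_lit 5) (nat_lit 40) (nat_lit 5) (nat_lit 293) (nat_lit 271) (nat_lit 216)))))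 (XT.nd (nat_lit 234) (nat_lit 380) (nat_lit 0) (XT.nd (nat_lit 78) (nat_lit 304) (nat_lit 0) (XT.lf (nat_lit 0) (nat_lit 11309844438) (nat_lit 304) (nat_lit 5235219810) (nat_lit 76) (nat_lit 10959742526) (nat_lit 36) (nat_lit 5) (nat_lit 40) (nat_lit 5) (nat_lit 37) (nat_lit 5) (nat_lit 294) (nat_lit 271) (nat_lit 215)) (XT.nd (nat_lit 78) (nat_lit 152) (nat_lit 0) (XT.lf (nat_lit 0) (nat_lit 16210153430) (nat_lit 152) (nat_lit 3590199627) (nat_lit 228) (nat_lit 9198374396) (nat_lit 34) (nat_lit 5) (nat_lit 36) (nat_lit 5) (nat_lit 37) (nat_lit 5) (nat_lit 295) (nat_lit 271) (nat_lit 214)) (XT.lf (nat_lit 0) (nat_lit 9034043935) (nat_lit 152) (nat_lit 20305402228) (nat_lit 228) (nat_lit 1254278361) (nat_lit 32) (nat_lit 5) (nat_lit 34) (nat_lit 5) (nat_lit 35) (nat_lit 5) (nat_lit 296) (nat_lit 271) (nat_lit 213)))) (XT.nd (nat_lit 78) (nat_lit 152) (nat_lit 0) (XT.lf (nat_lit 0) (nat_lit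 552294427) (nat_lit 152) (nat_lit 6808310496) (nat_lit 228) (nat_lit 24936538552) (nat_lit 29) (nat_lit 5) (nat_lit 31) (nat_lit 5) (nat_lit 32) (nat_lit 5) (nat_lit 297) (nat_lit 271) (nat_lit 212)) (XT.nd (nat_lit 78) (nat_lit 152) (nat_lit 0) (XT.lf (nat_lit 0) (nat_lit 17099540283) (nat_lit 228) (nat_lit 9103578610) (nat_lit 76) (nat_lit 7908773129) (nat_lit 29) (nat_lit 5) (nat_lit 32) (nat_lit 5) (nat_lit 30) (nat_lit 5) (nat_lit 298) (nat_lit 271) (nat_lit 211)) (XT.lf (nat_lit 0) (nat_lit 15699602068) (nat_lit 152) (nat_lit 12254956090) (nat_lit 228) (nat_lit 8100436536) (nat_lit 27) (nat_lit 5) (nat_lit 29) (nat_lit 5) (nat_lit 30) (nat_lit 5) (nat_lit 299) (nat_lit 271) (nat_lit 210))))))))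
noncomputable def xc70 : XT := (XT.nd (nat_lit 1560) (nat_lit 532) (nat_lit 0) (XT.nd (nat_lit 780) (nat_lit 456) (nat_lit 0) (XT.nd (nat_lit 390) (nat_lit 456) (nat_lit 0) (XT.nd (nat_lit 156) (nat_lit 304) (nat_lit 0) (XT.nd (nat_lit 78) (nat_lit 0) (nat_lit 0) (XT.lf (nat_lit 0) (nat_lit 1736783562) (nat_lit 152) (nat_lit 33433487352) (nat_lit 76) (nat_lit 2969047437) (nat_lit 25) (nat_lit 5) (nat_lit 27) (nat_lit 5) (nat_lit 26) (nat_lit 5) (nat_lit 300) (nat_lit 271) (nat_lit 209)) (XT.lf (nat_lit 0) (nat_lit 12626718033) (nat_lit 152) (nat_lit 8258368529) (nat_lit 76) (nat_lit 19471203281) (nat_lit 25) (nat_lit 5) (nat_lit 27) (nat_lit 5) (nat_lit 26) (nat_lit 5) (nat_lit 301) (nat_lit 271) (nat_lit 208))) (XT.nd (nat_lit 78) (nat_lit 152) (nat_lit 0) (XT.lf (nat_lit 0) (nat_lit 19522734515) (nat_lit 152) (nat_lit 5150205290) (nat_lit 228) (nat_lit 18063441728) (nat_lit 23) (nat_lit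 5) (nat_lit 25) (nat_lit 5) (nat_lit 26) (nat_lit 5) (nat_lit 302) (nat_lit 271) (nat_lit 207)) (XT.nd (nat_lit 78) (nat_lit 76) (nat_lit 0) (XT.lf (nat_lit 0) (nat_lit 4444319000) (nat_lit 76) (nat_lit 33620110842) (nat_lit 152) (nat_lit 7223388030) (nat_lit 22) (nat_lit 5) (nat_lit 23) (nat_lit 5) (nat_lit 24) (nat_lit 4) (nat_lit 303) (nat_lit 271) (nat_lit 206)) (XT.lf (nat_lit 0) (nat_lit 4819867081) (nat_lit 152) (nat_lit 13074174501) (nat_lit 76) (nat_lit 30121865767) (nat_lit 21) (nat_lit 5) (nat_lit 23) (nat_lit 5) (nat_lit 22) (nat_lit 5) (nat_lit 304) (nat_lit 271) (nat_lit 205))))) (XT.nd (nat_lit 156) (nat_lit 304) (nat_lit 0) (XT.nd (nat_lit 78) (nat_lit 0) (nat_lit 0) (XT.lf (nat_lit 0) (nat_lit 17320155692) (nat_lit 152) (nat_lit 510183118) (nat_lit 228) (nat_lit 33113155871) (nat_lit 19) (nat_lit 5) (nat_lit 21) (nat_lit 5) (nat_lit 22) (nat_lit 5) (nat_lit 305) (nat_lit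 271) (nat_lit 204)) (XT.lf (nat_lit 0) (nat_lit 32381952974) (nat_lit 228) (nat_lit 3798353080) (nat_lit 76) (nat_lit 17899979684) (nat_lit 19) (nat_lit 5) (nat_lit 22) (nat_lit 5) (nat_lit 20) (nat_lit 4) (nat_lit 306) (nat_lit 271) (nat_lit 203))) (XT.nd (nat_lit 78) (nat_lit 228) (nat_lit 0) (XT.lf (nat_lit 0) (nat_lit 29315965276) (nat_lit 76) (nat_lit 19232916960) (nat_lit 152) (nat_lit 8896589635) (nat_lit 18) (nat_lit 5) (nat_lit 19) (nat_lit 5) (nat_lit 20) (nat_lit 4) (nat_lit 307) (nat_lit 271) (nat_lit 202)) (XT.nd (nat_lit 78) (nat_lit 0) (nat_lit 0) (XT.lf (nat_lit 0) (nat_lit 4168158614) (nat_lit 152) (nat_lit 721051836) (nat_lit 228) (nat_lit 56180939934) (nat_lit 15) (nat_lit 5) (nat_lit 17) (nat_lit 5) (nat_lit 18) (nat_lit 5) (nat_lit 308) (nat_lit 271) (nat_lit 201)) (XT.lf (nat_lit 0) (nat_lit 20255159044) (nat_lit 228) (nat_lit 25390231153) (nat_lit 76) (nat_lit 19292680865)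 (nat_lit 15) (nat_lit 5) (nat_lit 18) (nat_lit 5) (nat_lit 16) (nat_lit 4) (nat_lit 309) (nat_lit 271) (nat_lit 200)))))) (XT.nd (nat_lit 390) (nat_lit 152) (nat_lit 0) (XT.nd (nat_lit 156) (nat_lit 228) (nat_lit 0) (XT.nd (nat_lit 78) (nat_lit 0) (nat_lit 0) (XT.lf (nat_lit 0) (nat_lit 8891632434) (nat_lit 76) (nat_lit 28096671360) (nat_lit 152) (nat_lit 32120233971) (nat_lit 14) (nat_lit 5) (nat_lit 15) (nat_lit 5) (nat_lit 16) (nat_lit 4) (nat_lit 310) (nat_lit 271) (nat_lit 199)) (XT.lf (nat_lit 0) (nat_lit 46800465849) (nat_lit 76) (nat_lit 8689474456) (nat_lit 152) (nat_lit 18101217250) (nat_lit 14) (nat_lit 5) (nat_lit 15) (nat_lit 5) (nat_lit 16) (nat_lit 4) (nat_lit 311) (nat_lit 271) (nat_lit 198))) (XT.nd (nat_lit 78) (nat_lit 152) (nat_lit 0) (XT.lf (nat_lit 0) (nat_lit 9397784150) (nat_lit 76) (nat_lit 66400561503) (nat_lit 76) (nat_lit 2617716569) (nat_lit 13) (nat_lit 4)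 (nat_lit 14) (nat_lit 5) (nat_lit 14) (nat_lit 4) (nat_lit 312) (nat_lit 271) (nat_lit 197)) (XT.nd (nat_lit 78) (nat_lit 76) (nat_lit 0) (XT.lf (nat_lit 0) (nat_lit 14262579929) (nat_lit 152) (nat_lit 34560495588) (nat_lit 76) (nat_lit 34762402236) (nat_lit 12) (nat_lit 5) (nat_lit 14) (nat_lit 5) (nat_lit 13) (nat_lit 4) (nat_lit 313) (nat_lit 271) (nat_lit 196)) (XT.lf (nat_lit 0) (nat_lit 2676438185) (nat_lit 76) (nat_lit 29757699098) (nat_lit 152) (nat_lit 56730541984) (nat_lit 11) (nat_lit 5) (nat_lit 12) (nat_lit 5) (nat_lit 13) (nat_lit 4) (nat_lit 314) (nat_lit 271) (nat_lit 195))))) (XT.nd (nat_lit 156) (nat_lit 152) (nat_lit 0) (XT.nd (nat_lit 78) (nat_lit 0) (nat_lit 0) (XT.lf (nat_lit 0) (nat_lit 44108301727) (nat_lit 76) (nat_lit 8543166825) (nat_lit 152) (nat_lit 42509151317) (nat_lit 11) (nat_lit 5) (nat_lit 12) (nat_lit 5) (nat_lit 13) (nat_lit 4) (nat_lit 315) (nat_lit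 271) (nat_lit 194)) (XT.lf (nat_lit 0) (nat_lit 74701167288) (nat_lit 152) (nat_lit 13023025793) (nat_lit 0) (nat_lit 13901298620) (nat_lit 11) (nat_lit 5) (nat_lit 13) (nat_lit 4) (nat_lit 11) (nat_lit 4) (nat_lit 316) (nat_lit 271) (nat_lit 193))) (XT.nd (nat_lit 78) (nat_lit 76) (nat_lit 0) (XT.lf (nat_lit 0) (nat_lit 28810782018) (nat_lit 76) (nat_lit 70289271071) (nat_lit 76) (nat_lit 9478244293) (nat_lit 10) (nat_lit 4) (nat_lit 11) (nat_lit 5) (nat_lit 11) (nat_lit 4) (nat_lit 317) (nat_lit 271) (nat_lit 192)) (XT.nd (nat_lit 78) (nat_lit 0) (nat_lit 0) (XT.lf (nat_lit 0) (nat_lit 9286007843) (nat_lit 152) (nat_lit 41785042280) (nat_lit 76) (nat_lit 64997863120) (nat_lit 9) (nat_lit 5) (nat_lit 11) (nat_lit 5) (nat_lit 10) (nat_lit 4) (nat_lit 318) (nat_lit 271) (nat_lit 191)) (XT.lf (nat_lit 0) (nat_lit 29215995128) (nat_lit 152) (nat_lit 938134625) (nat_lit 76) (nat_lit 93997050047)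 (nat_lit 9) (nat_lit 5) (nat_lit 11) (nat_lit 5) (nat_lit 10) (nat_lit 4) (nat_lit 319) (nat_lit 271) (nat_lit 190))))))) (XT.nd (nat_lit 780) (nat_lit 228) (nat_lit 0) (XT.nd (nat_lit 390) (nat_lit 152) (nat_lit 0) (XT.nd (nat_lit 156) (nat_lit 76) (nat_lit 0) (XT.nd (nat_lit 78) (nat_lit 0) (nat_lit 0) (XT.lf (nat_lit 0) (nat_lit 44590417127) (nat_lit 76) (nat_lit 6838948450) (nat_lit 152) (nat_lit 81416216418) (nat_lit 8) (nat_lit 5) (nat_lit 9) (nat_lit 5) (nat_lit 10) (nat_lit 4) (nat_lit 320) (nat_lit 271) (nat_lit 189)) (XT.lf (nat_lit 0) (nat_lit 75715823059) (nat_lit 152) (nat_lit 48739553446) (nat_lit 0) (nat_lit 17765362250) (nat_lit 8) (nat_lit 5) (nat_lit 10) (nat_lit 4) (nat_lit 8) (nat_lit 4) (nat_lit 321) (nat_lit 271) (nat_lit 188))) (XT.nd (nat_lit 78) (nat_lit 76) (nat_lit 0) (XT.lf (nat_lit 0) (nat_lit 102054075791) (nat_lit 152) (nat_lit 6190008773) (nat_lit 0) (nat_lit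 44096382581) (nat_lit 8) (nat_lit 5) (nat_lit 10) (nat_lit 4) (nat_lit 8) (nat_lit 4) (nat_lit 322) (nat_lit 271) (nat_lit 187)) (XT.nd (nat_lit 78) (nat_lit 0) (nat_lit 0) (XT.lf (nat_lit 0) (nat_lit 41066783284) (nat_lit 76) (nat_lit 90067811448) (nat_lit 76) (nat_lit 32103421569) (nat_lit 7) (nat_lit 4) (nat_lit 8) (nat_lit 5) (nat_lit 8) (nat_lit 4) (nat_lit 323) (nat_lit 271) (nat_lit 186)) (XT.lf (nat_lit 0) (nat_lit 92314535017) (nat_lit 76) (nat_lit 70329160228) (nat_lit 76) (nat_lit 12358569731) (nat_lit 7) (nat_lit 4) (nat_lit 8) (nat_lit 5) (nat_lit 8) (nat_lit 4) (nat_lit 324) (nat_lit 271) (nat_lit 185))))) (XT.nd (nat_lit 156) (nat_lit 0) (nat_lit 0) (XT.nd (nat_lit 78) (nat_lit 76) (nat_lit 0) (XT.lf (nat_lit 0) (nat_lit 8673553061) (nat_lit 152) (nat_lit 40195548035) (nat_lit 76) (nat_lit 138831823281) (nat_lit 6) (nat_lit 5) (nat_lit 8) (nat_lit 5) (nat_lit 7) (nat_lit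 4) (nat_lit 325) (nat_lit 271) (nat_lit 184)) (XT.lf (nat_lit 0) (nat_lit 5659482292) (nat_lit 76) (nat_lit 25384971431) (nat_lit 152) (nat_lit 170356435338) (nat_lit 5) (nat_lit 5) (nat_lit 6) (nat_lit 5) (nat_lit 7) (nat_lit 4) (nat_lit 326) (nat_lit 271) (nat_lit 183))) (XT.nd (nat_lit 78) (nat_lit 0) (nat_lit 0) (XT.lf (nat_lit 0) (nat_lit 55911547198) (nat_lit 152) (nat_lit 159563737293) (nat_lit 0) (nat_lit 686242349) (nat_lit 5) (nat_lit 5) (nat_lit 7) (nat_lit 4) (nat_lit 5) (nat_lit 4) (nat_lit 327) (nat_lit 271) (nat_lit 182)) (XT.nd (nat_lit 78) (nat_lit 0) (nat_lit 0) (XT.lf (nat_lit 0) (nat_lit 83191607267) (nat_lit 152) (nat_lit 120928268423) (nat_lit 0) (nat_lit 27961961808) (nat_lit 5) (nat_lit 5) (nat_lit 7) (nat_lit 4) (nat_lit 5) (nat_lit 4) (nat_lit 328) (nat_lit 271) (nat_lit 181)) (XT.lf (nat_lit 0) (nat_lit 112649962999) (nat_lit 152) (nat_lit 79209718686) (nat_lit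 0) (nat_lit 57416298458) (nat_lit 5) (nat_lit 5) (nat_lit 7) (nat_lit 4) (nat_lit 5) (nat_lit 4) (nat_lit 329) (nat_lit 271) (nat_lit 180)))))) (XT.nd (nat_lit 390) (nat_lit 152) (nat_lit 0) (XT.nd (nat_lit 156) (nat_lit 0) (nat_lit 0) (XT.nd (nat_lit 78) (nat_lit 76) (nat_lit 0) (XT.lf (nat_lit 0) (nat_lit 144461182429) (nat_lit 152) (nat_lit 34160867047) (nat_lit 0) (nat_lit 89223796515) (nat_lit 5) (nat_lit 5) (nat_lit 7) (nat_lit 4) (nat_lit 5) (nat_lit 4) (nat_lit 330) (nat_lit 271) (nat_lit 179)) (XT.lf (nat_lit 0) (nat_lit 14964190189) (nat_lit 76) (nat_lit 164083219243) (nat_lit 76) (nat_lit 108842387614) (nat_lit 4) (nat_lit 4) (nat_lit 5) (nat_lit 5) (nat_lit 5) (nat_lit 4) (nat_lit 331) (nat_lit 271) (nat_lit 178))) (XT.nd (nat_lit 78) (nat_lit 0) (nat_lit 0) (XT.lf (nat_lit 0) (nat_lit 69232764480) (nat_lit 76) (nat_lit 147759469097) (nat_lit 76) (nat_lit 92515446990) (nat_lit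 4) (nat_lit 4) (nat_lit 5) (nat_lit 5) (nat_lit 5) (nat_lit 4) (nat_lit 332) (nat_lit 271) (nat_lit 177)) (XT.nd (nat_lit 78) (nat_lit 0) (nat_lit 0) (XT.lf (nat_lit 0) (nat_lit 127836934837) (nat_lit 76) (nat_lit 130132596517) (nat_lit 76) (nat_lit 74885620264) (nat_lit 4) (nat_lit 4) (nat_lit 5) (nat_lit 5) (nat_lit 5) (nat_lit 4) (nat_lit 333) (nat_lit 271) (nat_lit 176)) (XT.lf (nat_lit 0) (nat_lit 191123985233) (nat_lit 76) (nat_lit 111098145962) (nat_lit 76) (nat_lit 55848434389) (nat_lit 4) (nat_lit 4) (nat_lit 5) (nat_lit 5) (nat_lit 5) (nat_lit 4) (nat_lit 334) (nat_lit 271) (nat_lit 175))))) (XT.nd (nat_lit 234) (nat_lit 76) (nat_lit 0) (XT.nd (nat_lit 78) (nat_lit 76) (nat_lit 0) (XT.lf (nat_lit 0) (nat_lit 259468950040) (nat_lit 76) (nat_lit 90543320688) (nat_lit 76) (nat_lit 35291076411) (nat_lit 4) (nat_lit 4) (nat_lit 5) (nat_lit 5) (nat_lit 5) (nat_lit 4) (nat_lit 335)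 (nat_lit 271) (nat_lit 174)) (XT.nd (nat_lit 78) (nat_lit 76) (nat_lit 0) (XT.lf (nat_lit 0) (nat_lit 333276836457) (nat_lit 76) (nat_lit 68346314323) (nat_lit 76) (nat_lit 13091724950) (nat_lit 4) (nat_lit 4) (nat_lit 5) (nat_lit 5) (nat_lit 5) (nat_lit 4) (nat_lit 336) (nat_lit 271) (nat_lit 173)) (XT.lf (nat_lit 0) (nat_lit 10532906257) (nat_lit 152) (nat_lit 33664302930) (nat_lit 76) (nat_lit 402273738429) (nat_lit 3) (nat_lit 5) (nat_lit 5) (nat_lit 5) (nat_lit 4) (nat_lit 4) (nat_lit 337) (nat_lit 271) (nat_lit 172)))) (XT.nd (nat_lit 78) (nat_lit 0) (nat_lit 0) (XT.lf (nat_lit 0) (nat_lit 18291958261) (nat_lit 76) (nat_lit 17586446402) (nat_lit 152) (nat_lit 444863892119) (nat_lit 2) (nat_lit 5) (nat_lit 3) (nat_lit 5) (nat_lit 4) (nat_lit 4) (nat_lit 338) (nat_lit 271) (nat_lit 171)) (XT.nd (nat_lit 78) (nat_lit 0) (nat_lit 0) (XT.lf (nat_lit 0) (nat_lit 64019615047) (nat_lit 152)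 (nat_lit 442306895125) (nat_lit 0) (nat_lit 11390440844) (nat_lit 2) (nat_lit 5) (nat_lit 4) (nat_lit 4) (nat_lit 2) (nat_lit 4) (nat_lit 339) (nat_lit 271) (nat_lit 170)) (XT.lf (nat_lit 0) (nat_lit 94706732266) (nat_lit 152) (nat_lit 420852199080) (nat_lit 0) (nat_lit 42075916429) (nat_lit 2) (nat_lit 5) (nat_lit 4) (nat_lit 4) (nat_lit 2) (nat_lit 4) (nat_lit 340) (nat_lit 271) (nat_lit 169))))))))
noncomputable def xc71 : XT := (XT.nd (nat_lit 36426) (nat_lit 0) (nat_lit 1292) (XT.nd (nat_lit 35568) (nat_lit 0) (nat_lit 4332) (XT.nd (nat_lit 390) (nat_lit 0) (nat_lit 0) (XT.nd (nat_lit 156) (nat_lit 0) (nat_lit 0) (XT.nd (nat_lit 78) (nat_lit 0) (nat_lit 0) (XT.lf (nat_lit 0) (nat_lit 127847032190) (nat_lit 152) (nat_lit 397684537732) (nat_lit 0) (nat_lit 75214696321) (nat_lit 2) (nat_lit 5) (nat_lit 4) (nat_lit 4) (nat_lit 2) (nat_lit 4) (nat_lit 341) (nat_lit 271) (nat_lit 168))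 (XT.lf (nat_lit 0) (nat_lit 163636901780) (nat_lit 152) (nat_lit 372666621236) (nat_lit 0) (nat_lit 111003158475) (nat_lit 2) (nat_lit 5) (nat_lit 4) (nat_lit 4) (nat_lit 2) (nat_lit 4) (nat_lit 342) (nat_lit 271) (nat_lit 167))) (XT.nd (nat_lit 78) (nat_lit 0) (nat_lit 0) (XT.lf (nat_lit 0) (nat_lit 202288429154) (nat_lit 152) (nat_lit 345650195272) (nat_lit 0) (nat_lit 149653382667) (nat_lit 2) (nat_lit 5) (nat_lit 4) (nat_lit 4) (nat_lit 2) (nat_lit 4) (nat_lit 343) (nat_lit 271) (nat_lit 166)) (XT.nd (nat_lit 78) (nat_lit 0) (nat_lit 0) (XT.lf (nat_lit 0) (nat_lit 244030660398) (nat_lit 152) (nat_lit 316475162502) (nat_lit 0) (nat_lit 191394407262) (nat_lit 2) (nat_lit 5) (nat_lit 4) (nat_lit 4) (nat_lit 2) (nat_lit 4) (nat_lit 344) (nat_lit 271) (nat_lit 165)) (XT.lf (nat_lit 0) (nat_lit 289110956885) (nat_lit 152) (nat_lit 284968633843) (nat_lit 0) (nat_lit 236473586480) (nat_lit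 2) (nat_lit 5) (nat_lit 4) (nat_lit 4) (nat_lit 2) (nat_lit 4) (nat_lit 345) (nat_lit 271) (nat_lit 164))))) (XT.nd (nat_lit 34944) (nat_lit 0) (nat_lit 6688) (XT.nd (nat_lit 34866) (nat_lit 0) (nat_lit 6688) (XT.lf (nat_lit 0) (nat_lit 337796461111) (nat_lit 152) (nat_lit 250943903938) (nat_lit 0) (nat_lit 285158056198) (nat_lit 2) (nat_lit 5) (nat_lit 4) (nat_lit 4) (nat_lit 2) (nat_lit 4) (nat_lit 346) (nat_lit 271) (nat_lit 163)) (XT.lf (nat_lit 0) (nat_lit 160959647) (nat_lit 0) (nat_lit 160959647) (nat_lit 684) (nat_lit 5032147490) (nat_lit 90) (nat_lit 5) (nat_lit 90) (nat_lit 3) (nat_lit 99) (nat_lit 3) (nat_lit 272) (nat_lit 272) (nat_lit 236))) (XT.nd (nat_lit 78) (nat_lit 0) (nat_lit 76) (XT.lf (nat_lit 0) (nat_lit 1684768988) (nat_lit 684) (nat_lit 2706410432) (nat_lit 760) (nat_lit 6692690316) (nat_lit 90) (nat_lit 5) (nat_lit 99) (nat_lit 3) (nat_lit 100) (nat_lit 5) (nat_lit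 273) (nat_lit 272) (nat_lit 235)) (XT.nd (nat_lit 78) (nat_lit 0) (nat_lit 0) (XT.lf (nat_lit 0) (nat_lit 2858852926) (nat_lit 684) (nat_lit 5820475440) (nat_lit 760) (nat_lit 2808025595) (nat_lit 91) (nat_lit 5) (nat_lit 100) (nat_lit 5) (nat_lit 101) (nat_lit 5) (nat_lit 274) (nat_lit 272) (nat_lit 234)) (XT.lf (nat_lit 76) (nat_lit 2848740422) (nat_lit 0) (nat_lit 1360968962) (nat_lit 760) (nat_lit 7709434807) (nat_lit 92) (nat_lit 5) (nat_lit 91) (nat_lit 5) (nat_lit 101) (nat_lit 5) (nat_lit 275) (nat_lit 272) (nat_lit 233)))))) (XT.nd (nat_lit 390) (nat_lit 1368) (nat_lit 0) (XT.nd (nat_lit 156) (nat_lit 1140) (nat_lit 0) (XT.nd (nat_lit 78) (nat_lit 0) (nat_lit 76) (XT.lf (nat_lit 0) (nat_lit 5796060437) (nat_lit 684) (nat_lit 120580285) (nat_lit 760) (nat_lit 6462622610) (nat_lit 92) (nat_lit 5) (nat_lit 101) (nat_lit 5) (nat_lit 102) (nat_lit 5) (nat_lit 276) (nat_lit 272) (nat_lit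 232)) (XT.lf (nat_lit 0) (nat_lit 7646898309) (nat_lit 684) (nat_lit 3121193715) (nat_lit 760) (nat_lit 2101366412) (nat_lit 93) (nat_lit 5) (nat_lit 102) (nat_lit 5) (nat_lit 103) (nat_lit 5) (nat_lit 277) (nat_lit 272) (nat_lit 231))) (XT.nd (nat_lit 78) (nat_lit 1216) (nat_lit 0) (XT.lf (nat_lit 76) (nat_lit 7086035197) (nat_lit 0) (nat_lit 2705132299) (nat_lit 760) (nat_lit 3600568038) (nat_lit 94) (nat_lit 5) (nat_lit 93) (nat_lit 5) (nat_lit 103) (nat_lit 5) (nat_lit 278) (nat_lit 272) (nat_lit 230)) (XT.nd (nat_lit 78) (nat_lit 608) (nat_lit 0) (XT.lf (nat_lit 0) (nat_lit 4255536929) (nat_lit 684) (nat_lit 8004067545) (nat_lit 760) (nat_lit 1688683642) (nat_lit 85) (nat_lit 5) (nat_lit 94) (nat_lit 5) (nat_lit 95) (nat_lit 5) (nat_lit 279) (nat_lit 272) (nat_lit 229)) (XT.lf (nat_lit 0) (nat_lit 493680499) (nat_lit 608) (nat_lit 13279207994) (nat_lit 76) (nat_lit 769814267) (nat_lit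 77) (nat_lit 5) (nat_lit 85) (nat_lit 5) (nat_lit 78) (nat_lit 5) (nat_lit 280) (nat_lit 272) (nat_lit 228))))) (XT.nd (nat_lit 234) (nat_lit 684) (nat_lit 0) (XT.nd (nat_lit 78) (nat_lit 684) (nat_lit 0) (XT.lf (nat_lit 0) (nat_lit 3042514369) (nat_lit 608) (nat_lit 1954729364) (nat_lit 76) (nat_lit 10173592243) (nat_lit 77) (nat_lit 5) (nat_lit 85) (nat_lit 5) (nat_lit 78) (nat_lit 5) (nat_lit 281) (nat_lit 272) (nat_lit 227)) (XT.nd (nat_lit 78) (nat_lit 304) (nat_lit 0) (XT.lf (nat_lit 0) (nat_lit 5980708023) (nat_lit 456) (nat_lit 5353171989) (nat_lit 76) (nat_lit 4506161407) (nat_lit 72) (nat_lit 5) (nat_lit 78) (nat_lit 5) (nat_lit 73) (nat_lit 5) (nat_lit 282) (nat_lit 272) (nat_lit 226)) (XT.lf (nat_lit 0) (nat_lit 7537998764) (nat_lit 304) (nat_lit 1803487591) (nat_lit 380) (nat_lit 7212007729) (nat_lit 68) (nat_lit 5) (nat_lit 72) (nat_lit 5) (nat_lit 73) (nat_lit 5) (nat_lit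 283) (nat_lit 272) (nat_lit 225)))) (XT.nd (nat_lit 78) (nat_lit 380) (nat_lit 0) (XT.lf (nat_lit 0) (nat_lit 4284218249) (nat_lit 304) (nat_lit 8934916551) (nat_lit 380) (nat_lit 4092568550) (nat_lit 64) (nat_lit 5) (nat_lit 68) (nat_lit 5) (nat_lit 69) (nat_lit 5) (nat_lit 284) (nat_lit 272) (nat_lit 224)) (XT.nd (nat_lit 78) (nat_lit 76) (nat_lit 0) (XT.lf (nat_lit 0) (nat_lit 769817252) (nat_lit 304) (nat_lit 16813526940) (nat_lit 380) (nat_lit 538482510) (nat_lit 60) (nat_lit 5) (nat_lit 64) (nat_lit 5) (nat_lit 65) (nat_lit 5) (nat_lit 285) (nat_lit 272) (nat_lit 223)) (XT.lf (nat_lit 0) (nat_lit 3533724364) (nat_lit 380) (nat_lit 3105478917) (nat_lit 76) (nat_lit 12338075925) (nat_lit 59) (nat_lit 5) (nat_lit 64) (nat_lit 5) (nat_lit 60) (nat_lit 5) (nat_lit 286) (nat_lit 272) (nat_lit 222))))))) (XT.nd (nat_lit 780) (nat_lit 1140) (nat_lit 0) (XT.nd (nat_lit 390) (nat_lit 836)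 (nat_lit 0) (XT.nd (nat_lit 156) (nat_lit 532) (nat_lit 0) (XT.nd (nat_lit 78) (nat_lit 228) (nat_lit 0) (XT.lf (nat_lit 0) (nat_lit 8142641464) (nat_lit 380) (nat_lit 7334656398) (nat_lit 76) (nat_lit 4411999769) (nat_lit 55) (nat_lit 5) (nat_lit 60) (nat_lit 5) (nat_lit 56) (nat_lit 5) (nat_lit 287) (nat_lit 272) (nat_lit 221)) (XT.lf (nat_lit 0) (nat_lit 8830392953) (nat_lit 228) (nat_lit 4557938602) (nat_lit 304) (nat_lit 7472599543) (nat_lit 52) (nat_lit 5) (nat_lit 55) (nat_lit 5) (nat_lit 56) (nat_lit 5) (nat_lit 288) (nat_lit 272) (nat_lit 220))) (XT.nd (nat_lit 78) (nat_lit 304) (nat_lit 0) (XT.lf (nat_lit 0) (nat_lit 4634002557) (nat_lit 228) (nat_lit 14699983403) (nat_lit 304) (nat_lit 2562346189) (nat_lit 49) (nat_lit 5) (nat_lit 52) (nat_lit 5) (nat_lit 53) (nat_lit 5) (nat_lit 289) (nat_lit 272) (nat_lit 219)) (XT.nd (nat_lit 78) (nat_lit 228) (nat_lit 0) (XT.lf (nat_lit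 0) (nat_lit 2909312637) (nat_lit 304) (nat_lit 110934154) (nat_lit 76) (nat_lit 19979409863) (nat_lit 48) (nat_lit 5) (nat_lit 52) (nat_lit 5) (nat_lit 49) (nat_lit 5) (nat_lit 290) (nat_lit 272) (nat_lit 218)) (XT.lf (nat_lit 0) (nat_lit 9149849763) (nat_lit 304) (nat_lit 5397455998) (nat_lit 76) (nat_lit 9620837942) (nat_lit 45) (nat_lit 5) (nat_lit 49) (nat_lit 5) (nat_lit 46) (nat_lit 5) (nat_lit 291) (nat_lit 272) (nat_lit 217))))) (XT.nd (nat_lit 156) (nat_lit 456) (nat_lit 0) (XT.nd (nat_lit 78) (nat_lit 152) (nat_lit 0) (XT.lf (nat_lit 0) (nat_lit 14095709476) (nat_lit 228) (nat_lit 2037333874) (nat_lit 304) (nat_lit 9284935278) (nat_lit 42) (nat_lit 5) (nat_lit 45) (nat_lit 5) (nat_lit 46) (nat_lit 5) (nat_lit 292) (nat_lit 272) (nat_lit 216)) (XT.lf (nat_lit 0) (nat_lit 8632869361) (nat_lit 152) (nat_lit 15423342452) (nat_lit 228) (nat_lit 2692559220) (nat_lit 40) (nat_lit 5)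 (nat_lit 42) (nat_lit 5) (nat_lit 43) (nat_lit 5) (nat_lit 293) (nat_lit 272) (nat_lit 215))) (XT.nd (nat_lit 78) (nat_lit 152) (nat_lit 0) (XT.lf (nat_lit 0) (nat_lit 2340890987) (nat_lit 228) (nat_lit 2188827871) (nat_lit 304) (nat_lit 23640673726) (nat_lit 36) (nat_lit 5) (nat_lit 39) (nat_lit 5) (nat_lit 40) (nat_lit 5) (nat_lit 294) (nat_lit 272) (nat_lit 214)) (XT.nd (nat_lit 78) (nat_lit 152) (nat_lit 0) (XT.lf (nat_lit 0) (nat_lit 12720501828) (nat_lit 304) (nat_lit 4887666204) (nat_lit 76) (nat_lit 12071145902) (nat_lit 36) (nat_lit 5) (nat_lit 40) (nat_lit 5) (nat_lit 37) (nat_lit 5) (nat_lit 295) (nat_lit 272) (nat_lit 213)) (XT.lf (nat_lit 0) (nat_lit 18240031338) (nat_lit 152) (nat_lit 3624193168) (nat_lit 228) (nat_lit 9429868343) (nat_lit 34) (nat_lit 5) (nat_lit 36) (nat_lit 5) (nat_lit 37) (nat_lit 5) (nat_lit 296) (nat_lit 272) (nat_lit 212)))))) (XT.nd (nat_lit 390)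 (nat_lit 456) (nat_lit 0) (XT.nd (nat_lit 156) (nat_lit 304) (nat_lit 0) (XT.nd (nat_lit 78) (nat_lit 228) (nat_lit 0) (XT.lf (nat_lit 0) (nat_lit 10477659881) (nat_lit 152) (nat_lit 21668157049) (nat_lit 228) (nat_lit 871944210) (nat_lit 32) (nat_lit 5) (nat_lit 34) (nat_lit 5) (nat_lit 35) (nat_lit 5) (nat_lit 297) (nat_lit 272) (nat_lit 211)) (XT.lf (nat_lit 0) (nat_lit 1301274621) (nat_lit 152) (nat_lit 7091800843) (nat_lit 228) (nat_lit 26465216942) (nat_lit 29) (nat_lit 5) (nat_lit 31) (nat_lit 5) (nat_lit 32) (nat_lit 5) (nat_lit 298) (nat_lit 272) (nat_lit 210))) (XT.nd (nat_lit 78) (nat_lit 304) (nat_lit 0) (XT.lf (nat_lit 0) (nat_lit 18882040369) (nat_lit 228) (nat_lit 9162104231) (nat_lit 76) (nat_lit 8775563201) (nat_lit 29) (nat_lit 5) (nat_lit 32) (nat_lit 5) (nat_lit 30) (nat_lit 5) (nat_lit 299) (nat_lit 272) (nat_lit 209)) (XT.nd (nat_lit 78) (nat_lit 152) (nat_lit 0)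 (XT.lf (nat_lit 0) (nat_lit 17596223919) (nat_lit 152) (nat_lit 12988531721) (nat_lit 228) (nat_lit 8334568526) (nat_lit 27) (nat_lit 5) (nat_lit 29) (nat_lit 5) (nat_lit 30) (nat_lit 5) (nat_lit 300) (nat_lit 272) (nat_lit 208)) (XT.lf (nat_lit 0) (nat_lit 2260300837) (nat_lit 152) (nat_lit 35466793380) (nat_lit 76) (nat_lit 3443807131) (nat_lit 25) (nat_lit 5) (nat_lit 27) (nat_lit 5) (nat_lit 26) (nat_lit 5) (nat_lit 301) (nat_lit 272) (nat_lit 207))))) (XT.nd (nat_lit 234) (nat_lit 228) (nat_lit 0) (XT.nd (nat_lit 78) (nat_lit 228) (nat_lit 0) (XT.lf (nat_lit 0) (nat_lit 13992943059) (nat_lit 152) (nat_lit 8325174159) (nat_lit 76) (nat_lit 21248562413) (nat_lit 25) (nat_lit 5) (nat_lit 27) (nat_lit 5) (nat_lit 26) (nat_lit 5) (nat_lit 302) (nat_lit 272) (nat_lit 206)) (XT.nd (nat_lit 78) (nat_lit 76) (nat_lit 0) (XT.lf (nat_lit 0) (nat_lit 21652608529) (nat_lit 152) (nat_lit 5332746121)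 (nat_lit 228) (nat_lit 19152722293) (nat_lit 23) (nat_lit 5) (nat_lit 25) (nat_lit 5) (nat_lit 26) (nat_lit 5) (nat_lit 303) (nat_lit 272) (nat_lit 205)) (XT.lf (nat_lit 0) (nat_lit 5356272694) (nat_lit 76) (nat_lit 36078815679) (nat_lit 152) (nat_lit 7459214786) (nat_lit 22) (nat_lit 5) (nat_lit 23) (nat_lit 5) (nat_lit 24) (nat_lit 4) (nat_lit 304) (nat_lit 272) (nat_lit 204)))) (XT.nd (nat_lit 78) (nat_lit 152) (nat_lit 0) (XT.lf (nat_lit 0) (nat_lit 5512027496) (nat_lit 152) (nat_lit 13594545455) (nat_lit 76) (nat_lit 32735044804) (nat_lit 21) (nat_lit 5) (nat_lit 23) (nat_lit 5) (nat_lit 22) (nat_lit 5) (nat_lit 305) (nat_lit 272) (nat_lit 203)) (XT.nd (nat_lit 78) (nat_lit 0) (nat_lit 0) (XT.lf (nat_lit 0) (nat_lit 19208490825) (nat_lit 152) (nat_lit 339986081) (nat_lit 228) (nat_lit 35455695475) (nat_lit 19) (nat_lit 5) (nat_lit 21) (nat_lit 5) (nat_lit 22) (nat_lit 5) (nat_lit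 306) (nat_lit 272) (nat_lit 202)) (XT.lf (nat_lit 0) (nat_lit 35245662430) (nat_lit 228) (nat_lit 3626082376) (nat_lit 76) (nat_lit 19521105831) (nat_lit 19) (nat_lit 5) (nat_lit 22) (nat_lit 5) (nat_lit 20) (nat_lit 4) (nat_lit 307) (nat_lit 272) (nat_lit 201))))))))
noncomputable def xc72 : XT := (XT.nd (nat_lit 1560) (nat_lit 228) (nat_lit 0) (XT.nd (nat_lit 780) (nat_lit 456) (nat_lit 0) (XT.nd (nat_lit 390) (nat_lit 228) (nat_lit 0) (XT.nd (nat_lit 156) (nat_lit 76) (nat_lit 0) (XT.nd (nat_lit 78) (nat_lit 228) (nat_lit 0) (XT.lf (nat_lit 0) (nat_lit 32116689030) (nat_lit 76) (nat_lit 20576134228) (nat_lit 152) (nat_lit 9335099378) (nat_lit 18) (nat_lit 5) (nat_lit 19) (nat_lit 5) (nat_lit 20) (nat_lit 4) (nat_lit 308) (nat_lit 272) (nat_lit 200)) (XT.lf (nat_lit 0) (nat_lit 4945798270) (nat_lit 152) (nat_lit 586366208) (nat_lit 228) (nat_lit 60410843530) (nat_lit 15) (nat_lit 5)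 (nat_lit 17) (nat_lit 5) (nat_lit 18) (nat_lit 5) (nat_lit 309) (nat_lit 272) (nat_lit 199))) (XT.nd (nat_lit 78) (nat_lit 76) (nat_lit 0) (XT.lf (nat_lit 0) (nat_lit 22111516789) (nat_lit 228) (nat_lit 27001136736) (nat_lit 76) (nat_lit 21008514539) (nat_lit 15) (nat_lit 5) (nat_lit 18) (nat_lit 5) (nat_lit 16) (nat_lit 4) (nat_lit 310) (nat_lit 272) (nat_lit 198)) (XT.nd (nat_lit 78) (nat_lit 0) (nat_lit 0) (XT.lf (nat_lit 0) (nat_lit 10005009651) (nat_lit 76) (nat_lit 30167103133) (nat_lit 152) (nat_lit 34453730553) (nat_lit 14) (nat_lit 5) (nat_lit 15) (nat_lit 5) (nat_lit 16) (nat_lit 4) (nat_lit 311) (nat_lit 272) (nat_lit 197)) (XT.lf (nat_lit 0) (nat_lit 50916768508) (nat_lit 76) (nat_lit 9220463954) (nat_lit 152) (nat_lit 19330683022) (nat_lit 14) (nat_lit 5) (nat_lit 15) (nat_lit 5) (nat_lit 16) (nat_lit 4) (nat_lit 312) (nat_lit 272) (nat_lit 196))))) (XT.nd (nat_lit 156) (nat_lit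 76) (nat_lit 0) (XT.nd (nat_lit 78) (nat_lit 76) (nat_lit 0) (XT.lf (nat_lit 0) (nat_lit 10513319184) (nat_lit 76) (nat_lit 71549628302) (nat_lit 76) (nat_lit 2616242792) (nat_lit 13) (nat_lit 4) (nat_lit 14) (nat_lit 5) (nat_lit 14) (nat_lit 4) (nat_lit 313) (nat_lit 272) (nat_lit 195)) (XT.lf (nat_lit 0) (nat_lit 15592606017) (nat_lit 152) (nat_lit 36982208733) (nat_lit 76) (nat_lit 37687944232) (nat_lit 12) (nat_lit 5) (nat_lit 14) (nat_lit 5) (nat_lit 13) (nat_lit 4) (nat_lit 314) (nat_lit 272) (nat_lit 194))) (XT.nd (nat_lit 78) (nat_lit 0) (nat_lit 0) (XT.lf (nat_lit 0) (nat_lit 3218767883) (nat_lit 76) (nat_lit 31990242969) (nat_lit 152) (nat_lit 61079737472) (nat_lit 11) (nat_lit 5) (nat_lit 12) (nat_lit 5) (nat_lit 13) (nat_lit 4) (nat_lit 315) (nat_lit 272) (nat_lit 193)) (XT.nd (nat_lit 78) (nat_lit 0) (nat_lit 0) (XT.lf (nat_lit 0) (nat_lit 47940868312) (nat_lit 76) (nat_lit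 9089516415) (nat_lit 152) (nat_lit 45734653913) (nat_lit 11) (nat_lit 5) (nat_lit 12) (nat_lit 5) (nat_lit 13) (nat_lit 4) (nat_lit 316) (nat_lit 272) (nat_lit 192)) (XT.lf (nat_lit 0) (nat_lit 80833685917) (nat_lit 152) (nat_lit 13777652402) (nat_lit 0) (nat_lit 15136287306) (nat_lit 11) (nat_lit 5) (nat_lit 13) (nat_lit 4) (nat_lit 11) (nat_lit 4) (nat_lit 317) (nat_lit 272) (nat_lit 191)))))) (XT.nd (nat_lit 390) (nat_lit 228) (nat_lit 0) (XT.nd (nat_lit 156) (nat_lit 76) (nat_lit 0) (XT.nd (nat_lit 78) (nat_lit 76) (nat_lit 0) (XT.lf (nat_lit 0) (nat_lit 31390378001) (nat_lit 76) (nat_lit 75786806884) (nat_lit 76) (nat_lit 10079841993) (nat_lit 10) (nat_lit 4) (nat_lit 11) (nat_lit 5) (nat_lit 11) (nat_lit 4) (nat_lit 318) (nat_lit 272) (nat_lit 190)) (XT.lf (nat_lit 0) (nat_lit 10169302995) (nat_lit 152) (nat_lit 44868751416) (nat_lit 76) (nat_lit 70309282455) (nat_lit 9) (nat_lit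 5) (nat_lit 11) (nat_lit 5) (nat_lit 10) (nat_lit 4) (nat_lit 319) (nat_lit 272) (nat_lit 189))) (XT.nd (nat_lit 78) (nat_lit 76) (nat_lit 0) (XT.lf (nat_lit 0) (nat_lit 31683288188) (nat_lit 152) (nat_lit 773283314) (nat_lit 76) (nat_lit 101620138389) (nat_lit 9) (nat_lit 5) (nat_lit 11) (nat_lit 5) (nat_lit 10) (nat_lit 4) (nat_lit 320) (nat_lit 272) (nat_lit 188)) (XT.nd (nat_lit 78) (nat_lit 0) (nat_lit 0) (XT.lf (nat_lit 0) (nat_lit 48387126725) (nat_lit 76) (nat_lit 7280553687) (nat_lit 152) (nat_lit 87799290954) (nat_lit 8) (nat_lit 5) (nat_lit 9) (nat_lit 5) (nat_lit 10) (nat_lit 4) (nat_lit 321) (nat_lit 272) (nat_lit 187)) (XT.lf (nat_lit 0) (nat_lit 81889397151) (nat_lit 152) (nat_lit 52421971334) (nat_lit 0) (nat_lit 19281159414) (nat_lit 8) (nat_lit 5) (nat_lit 10) (nat_lit 4) (nat_lit 8) (nat_lit 4) (nat_lit 322) (nat_lit 272) (nat_lit 186))))) (XT.nd (nat_lit 156) (nat_lit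 152) (nat_lit 0) (XT.nd (nat_lit 78) (nat_lit 76) (nat_lit 0) (XT.lf (nat_lit 0) (nat_lit 110326094676) (nat_lit 152) (nat_lit 6484518374) (nat_lit 0) (nat_lit 47711656321) (nat_lit 8) (nat_lit 5) (nat_lit 10) (nat_lit 4) (nat_lit 8) (nat_lit 4) (nat_lit 323) (nat_lit 272) (nat_lit 185)) (XT.lf (nat_lit 0) (nat_lit 44544095257) (nat_lit 76) (nat_lit 97183979808) (nat_lit 76) (nat_lit 34563800139) (nat_lit 7) (nat_lit 4) (nat_lit 8) (nat_lit 5) (nat_lit 8) (nat_lit 4) (nat_lit 324) (nat_lit 272) (nat_lit 184))) (XT.nd (nat_lit 78) (nat_lit 152) (nat_lit 0) (XT.lf (nat_lit 0) (nat_lit 99877447179) (nat_lit 76) (nat_lit 75872848087) (nat_lit 76) (nat_lit 13247352388) (nat_lit 7) (nat_lit 4) (nat_lit 8) (nat_lit 5) (nat_lit 8) (nat_lit 4) (nat_lit 325) (nat_lit 272) (nat_lit 183)) (XT.nd (nat_lit 78) (nat_lit 76) (nat_lit 0) (XT.lf (nat_lit 0) (nat_lit 9456979347) (nat_lit 152) (nat_lit 43243610288)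 (nat_lit 76) (nat_lit 150011893406) (nat_lit 6) (nat_lit 5) (nat_lit 8) (nat_lit 5) (nat_lit 7) (nat_lit 4) (nat_lit 326) (nat_lit 272) (nat_lit 182)) (XT.lf (nat_lit 0) (nat_lit 6272539573) (nat_lit 76) (nat_lit 27340882457) (nat_lit 152) (nat_lit 183895232201) (nat_lit 5) (nat_lit 5) (nat_lit 6) (nat_lit 5) (nat_lit 7) (nat_lit 4) (nat_lit 327) (nat_lit 272) (nat_lit 181))))))) (XT.nd (nat_lit 780) (nat_lit 152) (nat_lit 0) (XT.nd (nat_lit 390) (nat_lit 0) (nat_lit 0) (XT.nd (nat_lit 156) (nat_lit 76) (nat_lit 0) (XT.nd (nat_lit 78) (nat_lit 0) (nat_lit 0) (XT.lf (nat_lit 0) (nat_lit 60464638752) (nat_lit 152) (nat_lit 172177507146) (nat_lit 0) (nat_lit 808261965) (nat_lit 5) (nat_lit 5) (nat_lit 7) (nat_lit 4) (nat_lit 5) (nat_lit 4) (nat_lit 328) (nat_lit 272) (nat_lit 180)) (XT.lf (nat_lit 0) (nat_lit 89921165273) (nat_lit 152) (nat_lit 130462410331) (nat_lit 0) (nat_lit 30261067112)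 (nat_lit 5) (nat_lit 5) (nat_lit 7) (nat_lit 4) (nat_lit 5) (nat_lit 4) (nat_lit 329) (nat_lit 272) (nat_lit 179))) (XT.nd (nat_lit 78) (nat_lit 76) (nat_lit 0) (XT.lf (nat_lit 0) (nat_lit 121730690988) (nat_lit 152) (nat_lit 85416755842) (nat_lit 0) (nat_lit 62067147112) (nat_lit 5) (nat_lit 5) (nat_lit 7) (nat_lit 4) (nat_lit 5) (nat_lit 4) (nat_lit 330) (nat_lit 272) (nat_lit 178)) (XT.nd (nat_lit 78) (nat_lit 76) (nat_lit 0) (XT.lf (nat_lit 0) (nat_lit 156081716791) (nat_lit 152) (nat_lit 36773606468) (nat_lit 0) (nat_lit 96414982438) (nat_lit 5) (nat_lit 5) (nat_lit 7) (nat_lit 4) (nat_lit 5) (nat_lit 4) (nat_lit 331) (nat_lit 272) (nat_lit 177)) (XT.lf (nat_lit 0) (nat_lit 16276234646) (nat_lit 76) (nat_lit 177155687306) (nat_lit 76) (nat_lit 117485998807) (nat_lit 4) (nat_lit 4) (nat_lit 5) (nat_lit 5) (nat_lit 5) (nat_lit 4) (nat_lit 332) (nat_lit 272) (nat_lit 176))))) (XT.nd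 (nat_lit 156) (nat_lit 0) (nat_lit 0) (XT.nd (nat_lit 78) (nat_lit 0) (nat_lit 0) (XT.lf (nat_lit 0) (nat_lit 74877783085) (nat_lit 76) (nat_lit 159530051183) (nat_lit 76) (nat_lit 99857627365) (nat_lit 4) (nat_lit 4) (nat_lit 5) (nat_lit 5) (nat_lit 5) (nat_lit 4) (nat_lit 333) (nat_lit 272) (nat_lit 175)) (XT.lf (nat_lit 0) (nat_lit 138162405779) (nat_lit 76) (nat_lit 140496745496) (nat_lit 76) (nat_lit 80821788974) (nat_lit 4) (nat_lit 4) (nat_lit 5) (nat_lit 5) (nat_lit 5) (nat_lit 4) (nat_lit 334) (nat_lit 272) (nat_lit 174))) (XT.nd (nat_lit 78) (nat_lit 0) (nat_lit 0) (XT.lf (nat_lit 0) (nat_lit 206505122713) (nat_lit 76) (nat_lit 119942980285) (nat_lit 76) (nat_lit 60265678666) (nat_lit 4) (nat_lit 4) (nat_lit 5) (nat_lit 5) (nat_lit 5) (nat_lit 4) (nat_lit 335) (nat_lit 272) (nat_lit 173)) (XT.nd (nat_lit 78) (nat_lit 0) (nat_lit 0) (XT.lf (nat_lit 0) (nat_lit 280310927766) (nat_lit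 76) (nat_lit 97746955460) (nat_lit 76) (nat_lit 38067482456) (nat_lit 4) (nat_lit 4) (nat_lit 5) (nat_lit 5) (nat_lit 5) (nat_lit 4) (nat_lit 336) (nat_lit 272) (nat_lit 172)) (XT.lf (nat_lit 0) (nat_lit 360017188673) (nat_lit 76) (nat_lit 73777139021) (nat_lit 76) (nat_lit 14095655475) (nat_lit 4) (nat_lit 4) (nat_lit 5) (nat_lit 5) (nat_lit 5) (nat_lit 4) (nat_lit 337) (nat_lit 272) (nat_lit 171)))))) (XT.nd (nat_lit 390) (nat_lit 0) (nat_lit 0) (XT.nd (nat_lit 156) (nat_lit 0) (nat_lit 0) (XT.nd (nat_lit 78) (nat_lit 76) (nat_lit 0) (XT.lf (nat_lit 0) (nat_lit 11414444462) (nat_lit 152) (nat_lit 36283734010) (nat_lit 76) (nat_lit 434488485227) (nat_lit 3) (nat_lit 5) (nat_lit 5) (nat_lit 5) (nat_lit 4) (nat_lit 4) (nat_lit 338) (nat_lit 272) (nat_lit 170)) (XT.lf (nat_lit 0) (nat_lit 19825824591) (nat_lit 76) (nat_lit 18959977099) (nat_lit 152) (nat_lit 480414009231) (nat_lit 2) (nat_lit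 5) (nat_lit 3) (nat_lit 5) (nat_lit 4) (nat_lit 4) (nat_lit 339) (nat_lit 272) (nat_lit 169))) (XT.nd (nat_lit 78) (nat_lit 0) (nat_lit 0) (XT.lf (nat_lit 0) (nat_lit 69176041554) (nat_lit 152) (nat_lit 477624911513) (nat_lit 0) (nat_lit 12331598785) (nat_lit 2) (nat_lit 5) (nat_lit 4) (nat_lit 4) (nat_lit 2) (nat_lit 4) (nat_lit 340) (nat_lit 272) (nat_lit 168)) (XT.nd (nat_lit 78) (nat_lit 0) (nat_lit 0) (XT.lf (nat_lit 0) (nat_lit 102315546128) (nat_lit 152) (nat_lit 454458768319) (nat_lit 0) (nat_lit 45469695922) (nat_lit 2) (nat_lit 5) (nat_lit 4) (nat_lit 4) (nat_lit 2) (nat_lit 4) (nat_lit 341) (nat_lit 272) (nat_lit 167)) (XT.lf (nat_lit 0) (nat_lit 138104679284) (nat_lit 152) (nat_lit 429442257521) (nat_lit 0) (nat_lit 81257525896) (nat_lit 2) (nat_lit 5) (nat_lit 4) (nat_lit 4) (nat_lit 2) (nat_lit 4) (nat_lit 342) (nat_lit 272) (nat_lit 166))))) (XT.nd (nat_lit 234) (nat_lit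 0) (nat_lit 0) (XT.nd (nat_lit 78) (nat_lit 0) (nat_lit 0) (XT.lf (nat_lit 0) (nat_lit 176755524774) (nat_lit 152) (nat_lit 402427133130) (nat_lit 0) (nat_lit 119907164736) (nat_lit 2) (nat_lit 5) (nat_lit 4) (nat_lit 4) (nat_lit 2) (nat_lit 4) (nat_lit 343) (nat_lit 272) (nat_lit 165)) (XT.nd (nat_lit 78) (nat_lit 0) (nat_lit 0) (XT.lf (nat_lit 0) (nat_lit 218497124644) (nat_lit 152) (nat_lit 373253305520) (nat_lit 0) (nat_lit 161647647338) (nat_lit 2) (nat_lit 5) (nat_lit 4) (nat_lit 4) (nat_lit 2) (nat_lit 4) (nat_lit 344) (nat_lit 272) (nat_lit 164)) (XT.lf (nat_lit 0) (nat_lit 263576836525) (nat_lit 152) (nat_lit 341747892748) (nat_lit 0) (nat_lit 206726324711) (nat_lit 2) (nat_lit 5) (nat_lit 4) (nat_lit 4) (nat_lit 2) (nat_lit 4) (nat_lit 345) (nat_lit 272) (nat_lit 163)))) (XT.nd (nat_lit 34944) (nat_lit 0) (nat_lit 6688) (XT.lf (nat_lit 0) (nat_lit 312261799449) (nat_lit 152)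 (nat_lit 307724196074) (nat_lit 0) (nat_lit 255410329758) (nat_lit 2) (nat_lit 5) (nat_lit 4) (nat_lit 4) (nat_lit 2) (nat_lit 4) (nat_lit 346) (nat_lit 272) (nat_lit 162)) (XT.nd (nat_lit 78) (nat_lit 0) (nat_lit 0) (XT.lf (nat_lit 0) (nat_lit 616542083) (nat_lit 0) (nat_lit 616542083) (nat_lit 684) (nat_lit 4503251081) (nat_lit 90) (nat_lit 5) (nat_lit 90) (nat_lit 3) (nat_lit 99) (nat_lit 3) (nat_lit 273) (nat_lit 273) (nat_lit 234)) (XT.lf (nat_lit 0) (nat_lit 3446401343) (nat_lit 684) (nat_lit 2005007673) (nat_lit 760) (nat_lit 6434519768) (nat_lit 90) (nat_lit 5) (nat_lit 99) (nat_lit 3) (nat_lit 100) (nat_lit 5) (nat_lit 274) (nat_lit 273) (nat_lit 233))))))))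
noncomputable def xc73 : XT := (XT.nd (nat_lit 1638) (nat_lit 1900) (nat_lit 0) (XT.nd (nat_lit 780) (nat_lit 2432) (nat_lit 0) (XT.nd (nat_lit 390) (nat_lit 1748) (nat_lit 0) (XT.nd (nat_lit 156) (nat_lit 0) (nat_lit 76) (XT.nd (nat_lit 78) (nat_lit 0) (nat_lit 0) (XT.lf (nat_lit 0) (nat_lit 4597589092) (nat_lit 684) (nat_lit 5318999981) (nat_lit 760) (nat_lit 2411188855) (nat_lit 91) (nat_lit 5) (nat_lit 100) (nat_lit 5) (nat_lit 101) (nat_lit 5) (nat_lit 275) (nat_lit 273) (nat_lit 232)) (XT.lf (nat_lit 76) (nat_lit 4001723576) (nat_lit 0) (nat_lit 1957379723) (nat_lit 760) (nat_lit 6840105501) (nat_lit 92) (nat_lit 5) (nat_lit 91) (nat_lit 5) (nat_lit 101) (nat_lit 5) (nat_lit 276) (nat_lit 273) (nat_lit 231))) (XT.nd (nat_lit 78) (nat_lit 0) (nat_lit 76) (XT.lf (nat_lit 76) (nat_lit 827903414) (nat_lit 0) (nat_lit 6745698679) (nat_lit 760) (nat_lit 5727683476) (nat_lit 93) (nat_lit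 5) (nat_lit 92) (nat_lit 5) (nat_lit 102) (nat_lit 5) (nat_lit 277) (nat_lit 273) (nat_lit 230)) (XT.nd (nat_lit 78) (nat_lit 0) (nat_lit 0) (XT.lf (nat_lit 0) (nat_lit 9472018503) (nat_lit 684) (nat_lit 2411278736) (nat_lit 760) (nat_lit 1952617986) (nat_lit 93) (nat_lit 5) (nat_lit 102) (nat_lit 5) (nat_lit 103) (nat_lit 5) (nat_lit 278) (nat_lit 273) (nat_lit 229)) (XT.lf (nat_lit 76) (nat_lit 8570824988) (nat_lit 0) (nat_lit 3141456201) (nat_lit 760) (nat_lit 2691650811) (nat_lit 94) (nat_lit 5) (nat_lit 93) (nat_lit 5) (nat_lit 103) (nat_lit 5) (nat_lit 279) (nat_lit 273) (nat_lit 228))))) (XT.nd (nat_lit 156) (nat_lit 684) (nat_lit 0) (XT.nd (nat_lit 78) (nat_lit 608) (nat_lit 0) (XT.lf (nat_lit 0) (nat_lit 5533852110) (nat_lit 684) (nat_lit 8771521712) (nat_lit 760) (nat_lit 703442699) (nat_lit 85) (nat_lit 5) (nat_lit 94) (nat_lit 5) (nat_lit 95) (nat_lit 5) (nat_lit 280) (nat_lit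 273) (nat_lit 227)) (XT.lf (nat_lit 0) (nat_lit 1550559328) (nat_lit 608) (nat_lit 13354125156) (nat_lit 76) (nat_lit 748727010) (nat_lit 77) (nat_lit 5) (nat_lit 85) (nat_lit 5) (nat_lit 78) (nat_lit 5) (nat_lit 281) (nat_lit 273) (nat_lit 226))) (XT.nd (nat_lit 78) (nat_lit 684) (nat_lit 0) (XT.lf (nat_lit 0) (nat_lit 4227938101) (nat_lit 608) (nat_lit 1196830419) (nat_lit 76) (nat_lit 10910931106) (nat_lit 77) (nat_lit 5) (nat_lit 85) (nat_lit 5) (nat_lit 78) (nat_lit 5) (nat_lit 282) (nat_lit 273) (nat_lit 225)) (XT.nd (nat_lit 78) (nat_lit 304) (nat_lit 0) (XT.lf (nat_lit 0) (nat_lit 7344884622) (nat_lit 456) (nat_lit 4860833696) (nat_lit 76) (nat_lit 4855664399) (nat_lit 72) (nat_lit 5) (nat_lit 78) (nat_lit 5) (nat_lit 73) (nat_lit 5) (nat_lit 283) (nat_lit 273) (nat_lit 224)) (XT.lf (nat_lit 0) (nat_lit 9021622908) (nat_lit 304) (nat_lit 1901041814) (nat_lit 380) (nat_lit 6911956639)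 (nat_lit 68) (nat_lit 5) (nat_lit 72) (nat_lit 5) (nat_lit 73) (nat_lit 5) (nat_lit 284) (nat_lit 273) (nat_lit 223)))))) (XT.nd (nat_lit 390) (nat_lit 1216) (nat_lit 0) (XT.nd (nat_lit 156) (nat_lit 532) (nat_lit 0) (XT.nd (nat_lit 78) (nat_lit 380) (nat_lit 0) (XT.lf (nat_lit 0) (nat_lit 5509849937) (nat_lit 304) (nat_lit 9553367660) (nat_lit 380) (nat_lit 3592743239) (nat_lit 64) (nat_lit 5) (nat_lit 68) (nat_lit 5) (nat_lit 69) (nat_lit 5) (nat_lit 285) (nat_lit 273) (nat_lit 222)) (XT.lf (nat_lit 0) (nat_lit 193903360) (nat_lit 380) (nat_lit 17822877132) (nat_lit 76) (nat_lit 1516212273) (nat_lit 59) (nat_lit 5) (nat_lit 64) (nat_lit 5) (nat_lit 60) (nat_lit 5) (nat_lit 286) (nat_lit 273) (nat_lit 221))) (XT.nd (nat_lit 78) (nat_lit 532) (nat_lit 0) (XT.lf (nat_lit 0) (nat_lit 4517210170) (nat_lit 380) (nat_lit 2512979013) (nat_lit 76) (nat_lit 13429129710) (nat_lit 59) (nat_lit 5)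 (nat_lit 64) (nat_lit 5) (nat_lit 60) (nat_lit 5) (nat_lit 287) (nat_lit 273) (nat_lit 220)) (XT.nd (nat_lit 78) (nat_lit 228) (nat_lit 0) (XT.lf (nat_lit 0) (nat_lit 9457721179) (nat_lit 380) (nat_lit 7085175422) (nat_lit 76) (nat_lit 4903339887) (nat_lit 55) (nat_lit 5) (nat_lit 60) (nat_lit 5) (nat_lit 56) (nat_lit 5) (nat_lit 288) (nat_lit 273) (nat_lit 219)) (XT.lf (nat_lit 0) (nat_lit 10336735319) (nat_lit 228) (nat_lit 4749659387) (nat_lit 304) (nat_lit 7411115184) (nat_lit 52) (nat_lit 5) (nat_lit 55) (nat_lit 5) (nat_lit 56) (nat_lit 5) (nat_lit 289) (nat_lit 273) (nat_lit 218))))) (XT.nd (nat_lit 234) (nat_lit 684) (nat_lit 0) (XT.nd (nat_lit 78) (nat_lit 304) (nat_lit 0) (XT.lf (nat_lit 0) (nat_lit 5798180349) (nat_lit 228) (nat_lit 15677964717) (nat_lit 304) (nat_lit 2141245842) (nat_lit 49) (nat_lit 5) (nat_lit 52) (nat_lit 5) (nat_lit 53) (nat_lit 5) (nat_lit 290) (nat_lit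 273) (nat_lit 217)) (XT.nd (nat_lit 78) (nat_lit 0) (nat_lit 0) (XT.lf (nat_lit 0) (nat_lit 655170294) (nat_lit 228) (nat_lit 3058273170) (nat_lit 304) (nat_lit 21096844120) (nat_lit 45) (nat_lit 5) (nat_lit 48) (nat_lit 5) (nat_lit 49) (nat_lit 5) (nat_lit 291) (nat_lit 273) (nat_lit 216)) (XT.lf (nat_lit 0) (nat_lit 10415660485) (nat_lit 304) (nat_lit 5083726102) (nat_lit 76) (nat_lit 10574802372) (nat_lit 45) (nat_lit 5) (nat_lit 49) (nat_lit 5) (nat_lit 46) (nat_lit 5) (nat_lit 292) (nat_lit 273) (nat_lit 215)))) (XT.nd (nat_lit 78) (nat_lit 456) (nat_lit 0) (XT.lf (nat_lit 0) (nat_lit 15936492941) (nat_lit 228) (nat_lit 1992608099) (nat_lit 304) (nat_lit 9496383035) (nat_lit 42) (nat_lit 5) (nat_lit 45) (nat_lit 5) (nat_lit 46) (nat_lit 5) (nat_lit 293) (nat_lit 273) (nat_lit 214)) (XT.nd (nat_lit 78) (nat_lit 304) (nat_lit 0) (XT.lf (nat_lit 0) (nat_lit 10027337795) (nat_lit 152)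 (nat_lit 16435338745) (nat_lit 228) (nat_lit 2401284700) (nat_lit 40) (nat_lit 5) (nat_lit 42) (nat_lit 5) (nat_lit 43) (nat_lit 5) (nat_lit 294) (nat_lit 273) (nat_lit 213)) (XT.lf (nat_lit 0) (nat_lit 3217483821) (nat_lit 228) (nat_lit 2139506600) (nat_lit 304) (nat_lit 25043248228) (nat_lit 36) (nat_lit 5) (nat_lit 39) (nat_lit 5) (nat_lit 40) (nat_lit 5) (nat_lit 295) (nat_lit 273) (nat_lit 212))))))) (XT.nd (nat_lit 780) (nat_lit 836) (nat_lit 0) (XT.nd (nat_lit 390) (nat_lit 532) (nat_lit 0) (XT.nd (nat_lit 156) (nat_lit 380) (nat_lit 0) (XT.nd (nat_lit 78) (nat_lit 152) (nat_lit 0) (XT.lf (nat_lit 0) (nat_lit 14171843822) (nat_lit 304) (nat_lit 4621639727) (nat_lit 76) (nat_lit 13237989814) (nat_lit 36) (nat_lit 5) (nat_lit 40) (nat_lit 5) (nat_lit 37) (nat_lit 5) (nat_lit 296) (nat_lit 273) (nat_lit 211)) (XT.lf (nat_lit 0) (nat_lit 20327719470) (nat_lit 152) (nat_lit 3697031204)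 (nat_lit 228) (nat_lit 9751836681) (nat_lit 34) (nat_lit 5) (nat_lit 36) (nat_lit 5) (nat_lit 37) (nat_lit 5) (nat_lit 297) (nat_lit 273) (nat_lit 210))) (XT.nd (nat_lit 78) (nat_lit 228) (nat_lit 0) (XT.lf (nat_lit 0) (nat_lit 11933921739) (nat_lit 152) (nat_lit 23177263455) (nat_lit 228) (nat_lit 527882514) (nat_lit 32) (nat_lit 5) (nat_lit 34) (nat_lit 5) (nat_lit 35) (nat_lit 5) (nat_lit 298) (nat_lit 273) (nat_lit 209)) (XT.nd (nat_lit 78) (nat_lit 0) (nat_lit 0) (XT.lf (nat_lit 0) (nat_lit 2009626112) (nat_lit 152) (nat_lit 7435229878) (nat_lit 228) (nat_lit 28182704622) (nat_lit 29) (nat_lit 5) (nat_lit 31) (nat_lit 5) (nat_lit 32) (nat_lit 5) (nat_lit 299) (nat_lit 273) (nat_lit 208)) (XT.lf (nat_lit 0) (nat_lit 20748002144) (nat_lit 228) (nat_lit 9320860748) (nat_lit 76) (nat_lit 9678301176) (nat_lit 29) (nat_lit 5) (nat_lit 32) (nat_lit 5) (nat_lit 30) (nat_lit 5) (nat_lit 300)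 (nat_lit 273) (nat_lit 207))))) (XT.nd (nat_lit 156) (nat_lit 228) (nat_lit 0) (XT.nd (nat_lit 78) (nat_lit 152) (nat_lit 0) (XT.lf (nat_lit 0) (nat_lit 19553179108) (nat_lit 152) (nat_lit 13816005156) (nat_lit 228) (nat_lit 8646478955) (nat_lit 27) (nat_lit 5) (nat_lit 29) (nat_lit 5) (nat_lit 30) (nat_lit 5) (nat_lit 301) (nat_lit 273) (nat_lit 206)) (XT.lf (nat_lit 0) (nat_lit 2770835630) (nat_lit 152) (nat_lit 37754262913) (nat_lit 76) (nat_lit 3922703247) (nat_lit 25) (nat_lit 5) (nat_lit 27) (nat_lit 5) (nat_lit 26) (nat_lit 5) (nat_lit 302) (nat_lit 273) (nat_lit 205))) (XT.nd (nat_lit 78) (nat_lit 228) (nat_lit 0) (XT.lf (nat_lit 0) (nat_lit 15417666213) (nat_lit 152) (nat_lit 8482045557) (nat_lit 76) (nat_lit 23136772911) (nat_lit 25) (nat_lit 5) (nat_lit 27) (nat_lit 5) (nat_lit 26) (nat_lit 5) (nat_lit 303) (nat_lit 273) (nat_lit 204)) (XT.nd (nat_lit 78) (nat_lit 76) (nat_lit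 0) (XT.lf (nat_lit 0) (nat_lit 23871833032) (nat_lit 152) (nat_lit 5562627476) (nat_lit 228) (nat_lit 20379903406) (nat_lit 23) (nat_lit 5) (nat_lit 25) (nat_lit 5) (nat_lit 26) (nat_lit 5) (nat_lit 304) (nat_lit 273) (nat_lit 203)) (XT.lf (nat_lit 0) (nat_lit 6261804837) (nat_lit 76) (nat_lit 38767157945) (nat_lit 152) (nat_lit 7762704125) (nat_lit 22) (nat_lit 5) (nat_lit 23) (nat_lit 5) (nat_lit 24) (nat_lit 4) (nat_lit 305) (nat_lit 273) (nat_lit 202)))))) (XT.nd (nat_lit 390) (nat_lit 304) (nat_lit 0) (XT.nd (nat_lit 156) (nat_lit 304) (nat_lit 0) (XT.nd (nat_lit 78) (nat_lit 152) (nat_lit 0) (XT.lf (nat_lit 0) (nat_lit 6215824957) (nat_lit 152) (nat_lit 14231523524) (nat_lit 76) (nat_lit 35528256633) (nat_lit 21) (nat_lit 5) (nat_lit 23) (nat_lit 5) (nat_lit 22) (nat_lit 5) (nat_lit 306) (nat_lit 273) (nat_lit 201)) (XT.lf (nat_lit 0) (nat_lit 21176173759) (nat_lit 152) (nat_lit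 186276458) (nat_lit 228) (nat_lit 38029365735) (nat_lit 19) (nat_lit 5) (nat_lit 21) (nat_lit 5) (nat_lit 22) (nat_lit 5) (nat_lit 307) (nat_lit 273) (nat_lit 200))) (XT.nd (nat_lit 78) (nat_lit 304) (nat_lit 0) (XT.lf (nat_lit 0) (nat_lit 38299500283) (nat_lit 228) (nat_lit 3507956559) (nat_lit 76) (nat_lit 21244940879) (nat_lit 19) (nat_lit 5) (nat_lit 22) (nat_lit 5) (nat_lit 20) (nat_lit 4) (nat_lit 308) (nat_lit 273) (nat_lit 199)) (XT.nd (nat_lit 78) (nat_lit 228) (nat_lit 0) (XT.lf (nat_lit 0) (nat_lit 35076496145) (nat_lit 76) (nat_lit 22054687167) (nat_lit 152) (nat_lit 9847667421) (nat_lit 18) (nat_lit 5) (nat_lit 19) (nat_lit 5) (nat_lit 20) (nat_lit 4) (nat_lit 309) (nat_lit 273) (nat_lit 198)) (XT.lf (nat_lit 0) (nat_lit 5722280862) (nat_lit 152) (nat_lit 468349429) (nat_lit 228) (nat_lit 65016883511) (nat_lit 15) (nat_lit 5) (nat_lit 17) (nat_lit 5) (nat_lit 18) (nat_lit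 5) (nat_lit 310) (nat_lit 273) (nat_lit 197))))) (XT.nd (nat_lit 234) (nat_lit 228) (nat_lit 0) (XT.nd (nat_lit 78) (nat_lit 76) (nat_lit 0) (XT.lf (nat_lit 0) (nat_lit 24082722959) (nat_lit 228) (nat_lit 28800877101) (nat_lit 76) (nat_lit 22837017379) (nat_lit 15) (nat_lit 5) (nat_lit 18) (nat_lit 5) (nat_lit 16) (nat_lit 4) (nat_lit 311) (nat_lit 273) (nat_lit 196)) (XT.nd (nat_lit 78) (nat_lit 0) (nat_lit 0) (XT.lf (nat_lit 0) (nat_lit 11150100600) (nat_lit 76) (nat_lit 32428463552) (nat_lit 152) (nat_lit 37007592323) (nat_lit 14) (nat_lit 5) (nat_lit 15) (nat_lit 5) (nat_lit 16) (nat_lit 4) (nat_lit 312) (nat_lit 273) (nat_lit 195)) (XT.lf (nat_lit 0) (nat_lit 55309267560) (nat_lit 76) (nat_lit 9817353078) (nat_lit 152) (nat_lit 20689696299) (nat_lit 14) (nat_lit 5) (nat_lit 15) (nat_lit 5) (nat_lit 16) (nat_lit 4) (nat_lit 313) (nat_lit 273) (nat_lit 194)))) (XT.nd (nat_lit 78) (nat_lit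 152) (nat_lit 0) (XT.lf (nat_lit 0) (nat_lit 11666209396) (nat_lit 76) (nat_lit 77133871096) (nat_lit 76) (nat_lit 2644737086) (nat_lit 13) (nat_lit 4) (nat_lit 14) (nat_lit 5) (nat_lit 14) (nat_lit 4) (nat_lit 314) (nat_lit 273) (nat_lit 193)) (XT.nd (nat_lit 78) (nat_lit 76) (nat_lit 0) (XT.lf (nat_lit 0) (nat_lit 17002068421) (nat_lit 152) (nat_lit 39646609760) (nat_lit 76) (nat_lit 40826907939) (nat_lit 12) (nat_lit 5) (nat_lit 14) (nat_lit 5) (nat_lit 13) (nat_lit 4) (nat_lit 315) (nat_lit 273) (nat_lit 192)) (XT.lf (nat_lit 0) (nat_lit 3757660468) (nat_lit 76) (nat_lit 34422514485) (nat_lit 152) (nat_lit 65803866925) (nat_lit 11) (nat_lit 5) (nat_lit 12) (nat_lit 5) (nat_lit 13) (nat_lit 4) (nat_lit 316) (nat_lit 273) (nat_lit 191))))))))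
noncomputable def xc74 : XT := (XT.nd (nat_lit 1560) (nat_lit 152) (nat_lit 0) (XT.nd (nat_lit 780) (nat_lit 228) (nat_lit 0) (XT.nd (nat_lit 390) (nat_lit 152) (nat_lit 0) (XT.nd (nat_lit 156) (nat_lit 152) (nat_lit 0) (XT.nd (nat_lit 78) (nat_lit 0) (nat_lit 0) (XT.lf (nat_lit 0) (nat_lit 52036685143) (nat_lit 76) (nat_lit 9699133355) (nat_lit 152) (nat_lit 49243195165) (nat_lit 11) (nat_lit 5) (nat_lit 12) (nat_lit 5) (nat_lit 13) (nat_lit 4) (nat_lit 317) (nat_lit 273) (nat_lit 190)) (XT.lf (nat_lit 0) (nat_lit 87434490225) (nat_lit 152) (nat_lit 14633623635) (nat_lit 0) (nat_lit 16452544196) (nat_lit 11) (nat_lit 5) (nat_lit 13) (nat_lit 4) (nat_lit 11) (nat_lit 4) (nat_lit 318) (nat_lit 273) (nat_lit 189))) (XT.nd (nat_lit 78) (nat_lit 76) (nat_lit 0) (XT.lf (nat_lit 0) (nat_lit 34137147868) (nat_lit 76) (nat_lit 81742064643) (nat_lit 76) (nat_lit 10751917072) (nat_lit 10) (nat_lit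 4) (nat_lit 11) (nat_lit 5) (nat_lit 11) (nat_lit 4) (nat_lit 319) (nat_lit 273) (nat_lit 188)) (XT.nd (nat_lit 78) (nat_lit 0) (nat_lit 0) (XT.lf (nat_lit 0) (nat_lit 11103230058) (nat_lit 152) (nat_lit 48236119973) (nat_lit 76) (nat_lit 76029695734) (nat_lit 9) (nat_lit 5) (nat_lit 11) (nat_lit 5) (nat_lit 10) (nat_lit 4) (nat_lit 320) (nat_lit 273) (nat_lit 187)) (XT.lf (nat_lit 0) (nat_lit 34329416820) (nat_lit 152) (nat_lit 629468613) (nat_lit 76) (nat_lit 109838333426) (nat_lit 9) (nat_lit 5) (nat_lit 11) (nat_lit 5) (nat_lit 10) (nat_lit 4) (nat_lit 321) (nat_lit 273) (nat_lit 186))))) (XT.nd (nat_lit 156) (nat_lit 76) (nat_lit 0) (XT.nd (nat_lit 78) (nat_lit 0) (nat_lit 0) (XT.lf (nat_lit 0) (nat_lit 52454835742) (nat_lit 76) (nat_lit 7772539616) (nat_lit 152) (nat_lit 94711589187) (nat_lit 8) (nat_lit 5) (nat_lit 9) (nat_lit 5) (nat_lit 10) (nat_lit 4) (nat_lit 322) (nat_lit 273)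 (nat_lit 185)) (XT.lf (nat_lit 0) (nat_lit 88540264499) (nat_lit 152) (nat_lit 56429903947) (nat_lit 0) (nat_lit 20904729143) (nat_lit 8) (nat_lit 5) (nat_lit 10) (nat_lit 4) (nat_lit 8) (nat_lit 4) (nat_lit 323) (nat_lit 273) (nat_lit 184))) (XT.nd (nat_lit 78) (nat_lit 76) (nat_lit 0) (XT.lf (nat_lit 0) (nat_lit 119244511486) (nat_lit 152) (nat_lit 6831219573) (nat_lit 0) (nat_lit 51603660100) (nat_lit 8) (nat_lit 5) (nat_lit 10) (nat_lit 4) (nat_lit 8) (nat_lit 4) (nat_lit 324) (nat_lit 273) (nat_lit 183)) (XT.nd (nat_lit 78) (nat_lit 0) (nat_lit 0) (XT.lf (nat_lit 0) (nat_lit 48272205619) (nat_lit 76) (nat_lit 104882175082) (nat_lit 76) (nat_lit 37236401445) (nat_lit 7) (nat_lit 4) (nat_lit 8) (nat_lit 5) (nat_lit 8) (nat_lit 4) (nat_lit 325) (nat_lit 273) (nat_lit 182)) (XT.lf (nat_lit 0) (nat_lit 108020034381) (nat_lit 76) (nat_lit 81871821203) (nat_lit 76) (nat_lit 14221489926)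 (nat_lit 7) (nat_lit 4) (nat_lit 8) (nat_lit 5) (nat_lit 8) (nat_lit 4) (nat_lit 326) (nat_lit 273) (nat_lit 181)))))) (XT.nd (nat_lit 390) (nat_lit 76) (nat_lit 0) (XT.nd (nat_lit 156) (nat_lit 0) (nat_lit 0) (XT.nd (nat_lit 78) (nat_lit 76) (nat_lit 0) (XT.lf (nat_lit 0) (nat_lit 10290305562) (nat_lit 152) (nat_lit 46559424910) (nat_lit 76) (nat_lit 162075880084) (nat_lit 6) (nat_lit 5) (nat_lit 8) (nat_lit 5) (nat_lit 7) (nat_lit 4) (nat_lit 327) (nat_lit 273) (nat_lit 180)) (XT.lf (nat_lit 0) (nat_lit 6911773035) (nat_lit 76) (nat_lit 29463949789) (nat_lit 152) (nat_lit 198529932084) (nat_lit 5) (nat_lit 5) (nat_lit 6) (nat_lit 5) (nat_lit 7) (nat_lit 4) (nat_lit 328) (nat_lit 273) (nat_lit 179))) (XT.nd (nat_lit 78) (nat_lit 0) (nat_lit 0) (XT.lf (nat_lit 0) (nat_lit 65370540801) (nat_lit 152) (nat_lit 185821967379) (nat_lit 0) (nat_lit 930467699) (nat_lit 5) (nat_lit 5) (nat_lit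 7) (nat_lit 4) (nat_lit 5) (nat_lit 4) (nat_lit 329) (nat_lit 273) (nat_lit 178)) (XT.nd (nat_lit 78) (nat_lit 0) (nat_lit 0) (XT.lf (nat_lit 0) (nat_lit 97178498261) (nat_lit 152) (nat_lit 140779273214) (nat_lit 0) (nat_lit 32735234683) (nat_lit 5) (nat_lit 5) (nat_lit 7) (nat_lit 4) (nat_lit 5) (nat_lit 4) (nat_lit 330) (nat_lit 273) (nat_lit 177)) (XT.lf (nat_lit 0) (nat_lit 131528071977) (nat_lit 152) (nat_lit 92138864881) (nat_lit 0) (nat_lit 67081854252) (nat_lit 5) (nat_lit 5) (nat_lit 7) (nat_lit 4) (nat_lit 5) (nat_lit 4) (nat_lit 331) (nat_lit 273) (nat_lit 176))))) (XT.nd (nat_lit 156) (nat_lit 0) (nat_lit 0) (XT.nd (nat_lit 78) (nat_lit 76) (nat_lit 0) (XT.lf (nat_lit 0) (nat_lit 168622814977) (nat_lit 152) (nat_lit 39612502922) (nat_lit 0) (nat_lit 104173861932) (nat_lit 5) (nat_lit 5) (nat_lit 7) (nat_lit 4) (nat_lit 5) (nat_lit 4) (nat_lit 332) (nat_lit 273) (nat_lit 175))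 (XT.lf (nat_lit 0) (nat_lit 17676849572) (nat_lit 76) (nat_lit 191281683549) (nat_lit 76) (nat_lit 126830197800) (nat_lit 4) (nat_lit 4) (nat_lit 5) (nat_lit 5) (nat_lit 5) (nat_lit 4) (nat_lit 333) (nat_lit 273) (nat_lit 174))) (XT.nd (nat_lit 78) (nat_lit 0) (nat_lit 0) (XT.lf (nat_lit 0) (nat_lit 80959224393) (nat_lit 76) (nat_lit 172249437924) (nat_lit 76) (nat_lit 107795607080) (nat_lit 4) (nat_lit 4) (nat_lit 5) (nat_lit 5) (nat_lit 5) (nat_lit 4) (nat_lit 334) (nat_lit 273) (nat_lit 173)) (XT.nd (nat_lit 78) (nat_lit 0) (nat_lit 0) (XT.lf (nat_lit 0) (nat_lit 149299859964) (nat_lit 76) (nat_lit 151696654253) (nat_lit 76) (nat_lit 87240652023) (nat_lit 4) (nat_lit 4) (nat_lit 5) (nat_lit 5) (nat_lit 5) (nat_lit 4) (nat_lit 335) (nat_lit 273) (nat_lit 172)) (XT.lf (nat_lit 0) (nat_lit 223103737829) (nat_lit 76) (nat_lit 129501538261) (nat_lit 76) (nat_lit 65043525489) (nat_lit 4)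 (nat_lit 4) (nat_lit 5) (nat_lit 5) (nat_lit 5) (nat_lit 4) (nat_lit 336) (nat_lit 273) (nat_lit 171))))))) (XT.nd (nat_lit 35724) (nat_lit 0) (nat_lit 5320) (XT.nd (nat_lit 390) (nat_lit 0) (nat_lit 0) (XT.nd (nat_lit 156) (nat_lit 152) (nat_lit 0) (XT.nd (nat_lit 78) (nat_lit 0) (nat_lit 0) (XT.lf (nat_lit 0) (nat_lit 302808214302) (nat_lit 76) (nat_lit 105532563334) (nat_lit 76) (nat_lit 41072688950) (nat_lit 4) (nat_lit 4) (nat_lit 5) (nat_lit 5) (nat_lit 5) (nat_lit 4) (nat_lit 337) (nat_lit 273) (nat_lit 170)) (XT.lf (nat_lit 0) (nat_lit 388885612206) (nat_lit 76) (nat_lit 79647691104) (nat_lit 76) (nat_lit 15186093004) (nat_lit 4) (nat_lit 4) (nat_lit 5) (nat_lit 5) (nat_lit 5) (nat_lit 4) (nat_lit 338) (nat_lit 273) (nat_lit 169))) (XT.nd (nat_lit 78) (nat_lit 76) (nat_lit 0) (XT.lf (nat_lit 0) (nat_lit 12360955390) (nat_lit 152) (nat_lit 39123235583) (nat_lit 76) (nat_lit 469275725673)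 (nat_lit 3) (nat_lit 5) (nat_lit 5) (nat_lit 5) (nat_lit 4) (nat_lit 4) (nat_lit 339) (nat_lit 273) (nat_lit 168)) (XT.nd (nat_lit 78) (nat_lit 0) (nat_lit 0) (XT.lf (nat_lit 0) (nat_lit 21472341236) (nat_lit 76) (nat_lit 20448152996) (nat_lit 152) (nat_lit 518813698679) (nat_lit 2) (nat_lit 5) (nat_lit 3) (nat_lit 5) (nat_lit 4) (nat_lit 4) (nat_lit 340) (nat_lit 273) (nat_lit 167)) (XT.lf (nat_lit 0) (nat_lit 74740009398) (nat_lit 152) (nat_lit 515777861205) (nat_lit 0) (nat_lit 13343780557) (nat_lit 2) (nat_lit 5) (nat_lit 4) (nat_lit 4) (nat_lit 2) (nat_lit 4) (nat_lit 341) (nat_lit 273) (nat_lit 166))))) (XT.nd (nat_lit 156) (nat_lit 0) (nat_lit 0) (XT.nd (nat_lit 78) (nat_lit 0) (nat_lit 0) (XT.lf (nat_lit 0) (nat_lit 110528460670) (nat_lit 152) (nat_lit 490762651980) (nat_lit 0) (nat_lit 49131025179) (nat_lit 2) (nat_lit 5) (nat_lit 4) (nat_lit 4) (nat_lit 2) (nat_lit 4) (nat_lit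 342) (nat_lit 273) (nat_lit 165)) (XT.lf (nat_lit 0) (nat_lit 149178674785) (nat_lit 152) (nat_lit 463748732748) (nat_lit 0) (nat_lit 87780122026) (nat_lit 2) (nat_lit 5) (nat_lit 4) (nat_lit 4) (nat_lit 2) (nat_lit 4) (nat_lit 343) (nat_lit 273) (nat_lit 164))) (XT.nd (nat_lit 78) (nat_lit 0) (nat_lit 0) (XT.lf (nat_lit 0) (nat_lit 190919690050) (nat_lit 152) (nat_lit 434576021026) (nat_lit 0) (nat_lit 129520102783) (nat_lit 2) (nat_lit 5) (nat_lit 4) (nat_lit 4) (nat_lit 2) (nat_lit 4) (nat_lit 344) (nat_lit 273) (nat_lit 163)) (XT.nd (nat_lit 78) (nat_lit 0) (nat_lit 0) (XT.lf (nat_lit 0) (nat_lit 235998860630) (nat_lit 152) (nat_lit 403071641485) (nat_lit 0) (nat_lit 174598315485) (nat_lit 2) (nat_lit 5) (nat_lit 4) (nat_lit 4) (nat_lit 2) (nat_lit 4) (nat_lit 345) (nat_lit 273) (nat_lit 162)) (XT.lf (nat_lit 0) (nat_lit 284683322349) (nat_lit 152) (nat_lit 369048901505) (nat_lit 0)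 (nat_lit 223281890281) (nat_lit 2) (nat_lit 5) (nat_lit 4) (nat_lit 4) (nat_lit 2) (nat_lit 4) (nat_lit 346) (nat_lit 273) (nat_lit 161)))))) (XT.nd (nat_lit 390) (nat_lit 1368) (nat_lit 0) (XT.nd (nat_lit 156) (nat_lit 0) (nat_lit 76) (XT.nd (nat_lit 78) (nat_lit 0) (nat_lit 0) (XT.lf (nat_lit 0) (nat_lit 1045414201) (nat_lit 0) (nat_lit 1045414201) (nat_lit 684) (nat_lit 4064927312) (nat_lit 90) (nat_lit 5) (nat_lit 90) (nat_lit 3) (nat_lit 99) (nat_lit 3) (nat_lit 274) (nat_lit 274) (nat_lit 232)) (XT.lf (nat_lit 0) (nat_lit 5116875827) (nat_lit 684) (nat_lit 1378443614) (nat_lit 760) (nat_lit 6268909458) (nat_lit 90) (nat_lit 5) (nat_lit 99) (nat_lit 3) (nat_lit 100) (nat_lit 5) (nat_lit 275) (nat_lit 274) (nat_lit 231))) (XT.nd (nat_lit 78) (nat_lit 0) (nat_lit 0) (XT.lf (nat_lit 0) (nat_lit 6260001786) (nat_lit 684) (nat_lit 4915376037) (nat_lit 760) (nat_lit 2071266072) (nat_lit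 91) (nat_lit 5) (nat_lit 100) (nat_lit 5) (nat_lit 101) (nat_lit 5) (nat_lit 276) (nat_lit 274) (nat_lit 230)) (XT.nd (nat_lit 78) (nat_lit 0) (nat_lit 76) (XT.lf (nat_lit 76) (nat_lit 5114971820) (nat_lit 0) (nat_lit 2531951276) (nat_lit 760) (nat_lit 6113236361) (nat_lit 92) (nat_lit 5) (nat_lit 91) (nat_lit 5) (nat_lit 101) (nat_lit 5) (nat_lit 277) (nat_lit 274) (nat_lit 229)) (XT.lf (nat_lit 76) (nat_lit 1719269437) (nat_lit 0) (nat_lit 7588442062) (nat_lit 760) (nat_lit 4999014492) (nat_lit 93) (nat_lit 5) (nat_lit 92) (nat_lit 5) (nat_lit 102) (nat_lit 5) (nat_lit 278) (nat_lit 274) (nat_lit 228))))) (XT.nd (nat_lit 234) (nat_lit 912) (nat_lit 0) (XT.nd (nat_lit 78) (nat_lit 684) (nat_lit 0) (XT.lf (nat_lit 0) (nat_lit 11270047755) (nat_lit 684) (nat_lit 1781469721) (nat_lit 760) (nat_lit 1837172984) (nat_lit 93) (nat_lit 5) (nat_lit 102) (nat_lit 5) (nat_lit 103) (nat_lit 5) (nat_lit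 279) (nat_lit 274) (nat_lit 227)) (XT.nd (nat_lit 78) (nat_lit 684) (nat_lit 0) (XT.lf (nat_lit 76) (nat_lit 10043448270) (nat_lit 0) (nat_lit 3581312923) (nat_lit 760) (nat_lit 1880780312) (nat_lit 94) (nat_lit 5) (nat_lit 93) (nat_lit 5) (nat_lit 103) (nat_lit 5) (nat_lit 280) (nat_lit 274) (nat_lit 226)) (XT.lf (nat_lit 0) (nat_lit 194362609) (nat_lit 760) (nat_lit 9384581639) (nat_lit 76) (nat_lit 6582980313) (nat_lit 84) (nat_lit 5) (nat_lit 94) (nat_lit 5) (nat_lit 85) (nat_lit 5) (nat_lit 281) (nat_lit 274) (nat_lit 225)))) (XT.nd (nat_lit 78) (nat_lit 380) (nat_lit 0) (XT.lf (nat_lit 0) (nat_lit 2546847207) (nat_lit 608) (nat_lit 13575902118) (nat_lit 76) (nat_lit 737746914) (nat_lit 77) (nat_lit 5) (nat_lit 85) (nat_lit 5) (nat_lit 78) (nat_lit 5) (nat_lit 282) (nat_lit 274) (nat_lit 224)) (XT.nd (nat_lit 78) (nat_lit 380) (nat_lit 0) (XT.lf (nat_lit 0) (nat_lit 5373805679) (nat_lit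 608) (nat_lit 508731436) (nat_lit 76) (nat_lit 11718177579) (nat_lit 77) (nat_lit 5) (nat_lit 85) (nat_lit 5) (nat_lit 78) (nat_lit 5) (nat_lit 283) (nat_lit 274) (nat_lit 223)) (XT.lf (nat_lit 0) (nat_lit 8691837495) (nat_lit 456) (nat_lit 4460441088) (nat_lit 76) (nat_lit 5234695466) (nat_lit 72) (nat_lit 5) (nat_lit 78) (nat_lit 5) (nat_lit 73) (nat_lit 5) (nat_lit 284) (nat_lit 274) (nat_lit 222))))))))
noncomputable def xc75 : XT := (XT.nd (nat_lit 1638) (nat_lit 1216) (nat_lit 0) (XT.nd (nat_lit 780) (nat_lit 1444) (nat_lit 0) (XT.nd (nat_lit 390) (nat_lit 988) (nat_lit 0) (XT.nd (nat_lit 156) (nat_lit 684) (nat_lit 0) (XT.nd (nat_lit 78) (nat_lit 304) (nat_lit 0) (XT.lf (nat_lit 0) (nat_lit 10498311797) (nat_lit 304) (nat_lit 2013066188) (nat_lit 380) (nat_lit 6713016988) (nat_lit 68) (nat_lit 5) (nat_lit 72) (nat_lit 5) (nat_lit 73) (nat_lit 5) (nat_lit 285) (nat_lit 274) (nat_lit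 221)) (XT.lf (nat_lit 0) (nat_lit 6707577428) (nat_lit 304) (nat_lit 10235039151) (nat_lit 380) (nat_lit 3170945625) (nat_lit 64) (nat_lit 5) (nat_lit 68) (nat_lit 5) (nat_lit 69) (nat_lit 5) (nat_lit 286) (nat_lit 274) (nat_lit 220))) (XT.nd (nat_lit 78) (nat_lit 304) (nat_lit 0) (XT.lf (nat_lit 0) (nat_lit 858293274) (nat_lit 380) (nat_lit 18470060805) (nat_lit 76) (nat_lit 1733812692) (nat_lit 59) (nat_lit 5) (nat_lit 64) (nat_lit 5) (nat_lit 60) (nat_lit 5) (nat_lit 287) (nat_lit 274) (nat_lit 219)) (XT.nd (nat_lit 78) (nat_lit 304) (nat_lit 0) (XT.lf (nat_lit 0) (nat_lit 5479399618) (nat_lit 380) (nat_lit 1993048354) (nat_lit 76) (nat_lit 14592629936) (nat_lit 59) (nat_lit 5) (nat_lit 64) (nat_lit 5) (nat_lit 60) (nat_lit 5) (nat_lit 288) (nat_lit 274) (nat_lit 218)) (XT.lf (nat_lit 0) (nat_lit 10783327554) (nat_lit 380) (nat_lit 6935036878) (nat_lit 76) (nat_lit 5414245740) (nat_lit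 55) (nat_lit 5) (nat_lit 60) (nat_lit 5) (nat_lit 56) (nat_lit 5) (nat_lit 289) (nat_lit 274) (nat_lit 217))))) (XT.nd (nat_lit 156) (nat_lit 532) (nat_lit 0) (XT.nd (nat_lit 78) (nat_lit 228) (nat_lit 0) (XT.lf (nat_lit 0) (nat_lit 11849468838) (nat_lit 228) (nat_lit 4981385992) (nat_lit 304) (nat_lit 7438767497) (nat_lit 52) (nat_lit 5) (nat_lit 55) (nat_lit 5) (nat_lit 56) (nat_lit 5) (nat_lit 290) (nat_lit 274) (nat_lit 216)) (XT.lf (nat_lit 0) (nat_lit 6942296770) (nat_lit 228) (nat_lit 16762433925) (nat_lit 304) (nat_lit 1775775926) (nat_lit 49) (nat_lit 5) (nat_lit 52) (nat_lit 5) (nat_lit 53) (nat_lit 5) (nat_lit 291) (nat_lit 274) (nat_lit 215))) (XT.nd (nat_lit 78) (nat_lit 228) (nat_lit 0) (XT.lf (nat_lit 0) (nat_lit 1375399937) (nat_lit 228) (nat_lit 3126646970) (nat_lit 304) (nat_lit 22267825154) (nat_lit 45) (nat_lit 5) (nat_lit 48) (nat_lit 5) (nat_lit 49) (nat_lit 5) (nat_lit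 292) (nat_lit 274) (nat_lit 214)) (XT.nd (nat_lit 78) (nat_lit 228) (nat_lit 0) (XT.lf (nat_lit 0) (nat_lit 11706580283) (nat_lit 304) (nat_lit 4851255488) (nat_lit 76) (nat_lit 11578791872) (nat_lit 45) (nat_lit 5) (nat_lit 49) (nat_lit 5) (nat_lit 46) (nat_lit 5) (nat_lit 293) (nat_lit 274) (nat_lit 213)) (XT.lf (nat_lit 0) (nat_lit 17822803587) (nat_lit 228) (nat_lit 1973936770) (nat_lit 304) (nat_lit 9800549212) (nat_lit 42) (nat_lit 5) (nat_lit 45) (nat_lit 5) (nat_lit 46) (nat_lit 5) (nat_lit 294) (nat_lit 274) (nat_lit 212)))))) (XT.nd (nat_lit 390) (nat_lit 684) (nat_lit 0) (XT.nd (nat_lit 156) (nat_lit 304) (nat_lit 0) (XT.nd (nat_lit 78) (nat_lit 304) (nat_lit 0) (XT.lf (nat_lit 0) (nat_lit 11432953218) (nat_lit 152) (nat_lit 17559947136) (nat_lit 228) (nat_lit 2158991679) (nat_lit 40) (nat_lit 5) (nat_lit 42) (nat_lit 5) (nat_lit 43) (nat_lit 5) (nat_lit 295) (nat_lit 274) (nat_lit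 211)) (XT.lf (nat_lit 0) (nat_lit 4065864655) (nat_lit 228) (nat_lit 2118256718) (nat_lit 304) (nat_lit 26627744270) (nat_lit 36) (nat_lit 5) (nat_lit 39) (nat_lit 5) (nat_lit 40) (nat_lit 5) (nat_lit 296) (nat_lit 274) (nat_lit 210))) (XT.nd (nat_lit 78) (nat_lit 304) (nat_lit 0) (XT.lf (nat_lit 0) (nat_lit 15677420758) (nat_lit 304) (nat_lit 4428065202) (nat_lit 76) (nat_lit 14469484624) (nat_lit 36) (nat_lit 5) (nat_lit 40) (nat_lit 5) (nat_lit 37) (nat_lit 5) (nat_lit 297) (nat_lit 274) (nat_lit 209)) (XT.nd (nat_lit 78) (nat_lit 152) (nat_lit 0) (XT.lf (nat_lit 0) (nat_lit 22492762152) (nat_lit 152) (nat_lit 3806667655) (nat_lit 228) (nat_lit 10161252195) (nat_lit 34) (nat_lit 5) (nat_lit 36) (nat_lit 5) (nat_lit 37) (nat_lit 5) (nat_lit 298) (nat_lit 274) (nat_lit 208)) (XT.lf (nat_lit 0) (nat_lit 13418512936) (nat_lit 152) (nat_lit 24839103862) (nat_lit 228) (nat_lit 215331537)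 (nat_lit 32) (nat_lit 5) (nat_lit 34) (nat_lit 5) (nat_lit 35) (nat_lit 5) (nat_lit 299) (nat_lit 274) (nat_lit 207))))) (XT.nd (nat_lit 234) (nat_lit 304) (nat_lit 0) (XT.nd (nat_lit 78) (nat_lit 152) (nat_lit 0) (XT.lf (nat_lit 0) (nat_lit 2688442772) (nat_lit 152) (nat_lit 7838077219) (nat_lit 228) (nat_lit 30094617223) (nat_lit 29) (nat_lit 5) (nat_lit 31) (nat_lit 5) (nat_lit 32) (nat_lit 5) (nat_lit 300) (nat_lit 274) (nat_lit 206)) (XT.nd (nat_lit 78) (nat_lit 152) (nat_lit 0) (XT.lf (nat_lit 0) (nat_lit 22712539286) (nat_lit 228) (nat_lit 9574235523) (nat_lit 76) (nat_lit 10624627101) (nat_lit 29) (nat_lit 5) (nat_lit 32) (nat_lit 5) (nat_lit 30) (nat_lit 5) (nat_lit 301) (nat_lit 274) (nat_lit 205)) (XT.lf (nat_lit 0) (nat_lit 21588333021) (nat_lit 152) (nat_lit 14739864871) (nat_lit 228) (nat_lit 9033966259) (nat_lit 27) (nat_lit 5) (nat_lit 29) (nat_lit 5) (nat_lit 30) (nat_lit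 5) (nat_lit 302) (nat_lit 274) (nat_lit 204)))) (XT.nd (nat_lit 78) (nat_lit 152) (nat_lit 0) (XT.lf (nat_lit 0) (nat_lit 3275176285) (nat_lit 152) (nat_lit 40303175673) (nat_lit 76) (nat_lit 4410894974) (nat_lit 25) (nat_lit 5) (nat_lit 27) (nat_lit 5) (nat_lit 26) (nat_lit 5) (nat_lit 303) (nat_lit 274) (nat_lit 203)) (XT.nd (nat_lit 78) (nat_lit 152) (nat_lit 0) (XT.lf (nat_lit 0) (nat_lit 16912814514) (nat_lit 152) (nat_lit 8724101542) (nat_lit 76) (nat_lit 25149173510) (nat_lit 25) (nat_lit 5) (nat_lit 27) (nat_lit 5) (nat_lit 26) (nat_lit 5) (nat_lit 304) (nat_lit 274) (nat_lit 202)) (XT.lf (nat_lit 0) (nat_lit 26199117243) (nat_lit 152) (nat_lit 5838966263) (nat_lit 228) (nat_lit 21748775898) (nat_lit 23) (nat_lit 5) (nat_lit 25) (nat_lit 5) (nat_lit 26) (nat_lit 5) (nat_lit 305) (nat_lit 274) (nat_lit 201))))))) (XT.nd (nat_lit 780) (nat_lit 456) (nat_lit 0) (XT.nd (nat_lit 390)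 (nat_lit 380) (nat_lit 0) (XT.nd (nat_lit 156) (nat_lit 228) (nat_lit 0) (XT.nd (nat_lit 78) (nat_lit 76) (nat_lit 0) (XT.lf (nat_lit 0) (nat_lit 7171725842) (nat_lit 76) (nat_lit 41698809225) (nat_lit 152) (nat_lit 8132307693) (nat_lit 22) (nat_lit 5) (nat_lit 23) (nat_lit 5) (nat_lit 24) (nat_lit 4) (nat_lit 306) (nat_lit 274) (nat_lit 200)) (XT.lf (nat_lit 0) (nat_lit 6938429827) (nat_lit 152) (nat_lit 14983740907) (nat_lit 76) (nat_lit 38520044121) (nat_lit 21) (nat_lit 5) (nat_lit 23) (nat_lit 5) (nat_lit 22) (nat_lit 5) (nat_lit 307) (nat_lit 274) (nat_lit 199))) (XT.nd (nat_lit 78) (nat_lit 76) (nat_lit 0) (XT.lf (nat_lit 0) (nat_lit 23239783836) (nat_lit 152) (nat_lit 46078686) (nat_lit 228) (nat_lit 40846418888) (nat_lit 19) (nat_lit 5) (nat_lit 21) (nat_lit 5) (nat_lit 22) (nat_lit 5) (nat_lit 308) (nat_lit 274) (nat_lit 198)) (XT.nd (nat_lit 78) (nat_lit 76) (nat_lit 0) (XT.lf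 (nat_lit 0) (nat_lit 41564236076) (nat_lit 228) (nat_lit 3438616741) (nat_lit 76) (nat_lit 23083550708) (nat_lit 19) (nat_lit 5) (nat_lit 22) (nat_lit 5) (nat_lit 20) (nat_lit 4) (nat_lit 309) (nat_lit 274) (nat_lit 197)) (XT.lf (nat_lit 0) (nat_lit 38217382634) (nat_lit 76) (nat_lit 23675425482) (nat_lit 152) (nat_lit 10434657849) (nat_lit 18) (nat_lit 5) (nat_lit 19) (nat_lit 5) (nat_lit 20) (nat_lit 4) (nat_lit 310) (nat_lit 274) (nat_lit 196))))) (XT.nd (nat_lit 156) (nat_lit 152) (nat_lit 0) (XT.nd (nat_lit 78) (nat_lit 0) (nat_lit 0) (XT.lf (nat_lit 0) (nat_lit 6506554012) (nat_lit 152) (nat_lit 364419856) (nat_lit 228) (nat_lit 70023766168) (nat_lit 15) (nat_lit 5) (nat_lit 17) (nat_lit 5) (nat_lit 18) (nat_lit 5) (nat_lit 311) (nat_lit 274) (nat_lit 195)) (XT.lf (nat_lit 0) (nat_lit 26182767431) (nat_lit 228) (nat_lit 30796004733) (nat_lit 76) (nat_lit 24790712032) (nat_lit 15)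 (nat_lit 5) (nat_lit 18) (nat_lit 5) (nat_lit 16) (nat_lit 4) (nat_lit 312) (nat_lit 274) (nat_lit 194))) (XT.nd (nat_lit 78) (nat_lit 76) (nat_lit 0) (XT.lf (nat_lit 0) (nat_lit 12337624918) (nat_lit 76) (nat_lit 34892418421) (nat_lit 152) (nat_lit 39794642889) (nat_lit 14) (nat_lit 5) (nat_lit 15) (nat_lit 5) (nat_lit 16) (nat_lit 4) (nat_lit 313) (nat_lit 274) (nat_lit 193)) (XT.nd (nat_lit 78) (nat_lit 76) (nat_lit 0) (XT.lf (nat_lit 0) (nat_lit 60007635141) (nat_lit 76) (nat_lit 10482072607) (nat_lit 152) (nat_lit 22184171245) (nat_lit 14) (nat_lit 5) (nat_lit 15) (nat_lit 5) (nat_lit 16) (nat_lit 4) (nat_lit 314) (nat_lit 274) (nat_lit 192)) (XT.lf (nat_lit 0) (nat_lit 12866845548) (nat_lit 76) (nat_lit 83184787000) (nat_lit 76) (nat_lit 2701304797) (nat_lit 13) (nat_lit 4) (nat_lit 14) (nat_lit 5) (nat_lit 14) (nat_lit 4) (nat_lit 315) (nat_lit 274) (nat_lit 191)))))) (XT.nd (nat_lit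 390) (nat_lit 228) (nat_lit 0) (XT.nd (nat_lit 156) (nat_lit 76) (nat_lit 0) (XT.nd (nat_lit 78) (nat_lit 76) (nat_lit 0) (XT.lf (nat_lit 0) (nat_lit 18501169013) (nat_lit 152) (nat_lit 42566130319) (nat_lit 76) (nat_lit 44199309004) (nat_lit 12) (nat_lit 5) (nat_lit 14) (nat_lit 5) (nat_lit 13) (nat_lit 4) (nat_lit 316) (nat_lit 274) (nat_lit 190)) (XT.lf (nat_lit 0) (nat_lit 4299520866) (nat_lit 76) (nat_lit 37067478261) (nat_lit 152) (nat_lit 70929073445) (nat_lit 11) (nat_lit 5) (nat_lit 12) (nat_lit 5) (nat_lit 13) (nat_lit 4) (nat_lit 317) (nat_lit 274) (nat_lit 189))) (XT.nd (nat_lit 78) (nat_lit 76) (nat_lit 0) (XT.lf (nat_lit 0) (nat_lit 56422997325) (nat_lit 76) (nat_lit 10374288670) (nat_lit 152) (nat_lit 53053851858) (nat_lit 11) (nat_lit 5) (nat_lit 12) (nat_lit 5) (nat_lit 13) (nat_lit 4) (nat_lit 318) (nat_lit 274) (nat_lit 188)) (XT.nd (nat_lit 78) (nat_lit 76) (nat_lit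 0) (XT.lf (nat_lit 0) (nat_lit 94544226668) (nat_lit 152) (nat_lit 15593201592) (nat_lit 0) (nat_lit 17859071726) (nat_lit 11) (nat_lit 5) (nat_lit 13) (nat_lit 4) (nat_lit 11) (nat_lit 4) (nat_lit 319) (nat_lit 274) (nat_lit 187)) (XT.lf (nat_lit 0) (nat_lit 37070056964) (nat_lit 76) (nat_lit 88189105749) (nat_lit 76) (nat_lit 11496919305) (nat_lit 10) (nat_lit 4) (nat_lit 11) (nat_lit 5) (nat_lit 11) (nat_lit 4) (nat_lit 320) (nat_lit 274) (nat_lit 186))))) (XT.nd (nat_lit 234) (nat_lit 76) (nat_lit 0) (XT.nd (nat_lit 78) (nat_lit 76) (nat_lit 0) (XT.lf (nat_lit 0) (nat_lit 12094697330) (nat_lit 152) (nat_lit 51904567565) (nat_lit 76) (nat_lit 82194093584) (nat_lit 9) (nat_lit 5) (nat_lit 11) (nat_lit 5) (nat_lit 10) (nat_lit 4) (nat_lit 321) (nat_lit 274) (nat_lit 185)) (XT.nd (nat_lit 78) (nat_lit 76) (nat_lit 0) (XT.lf (nat_lit 0) (nat_lit 37171333931) (nat_lit 152) (nat_lit 503490911)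 (nat_lit 76) (nat_lit 118701346573) (nat_lit 9) (nat_lit 5) (nat_lit 11) (nat_lit 5) (nat_lit 10) (nat_lit 4) (nat_lit 322) (nat_lit 274) (nat_lit 184)) (XT.lf (nat_lit 0) (nat_lit 56819894480) (nat_lit 76) (nat_lit 8316789317) (nat_lit 152) (nat_lit 102192798693) (nat_lit 8) (nat_lit 5) (nat_lit 9) (nat_lit 5) (nat_lit 10) (nat_lit 4) (nat_lit 323) (nat_lit 274) (nat_lit 183)))) (XT.nd (nat_lit 78) (nat_lit 76) (nat_lit 0) (XT.lf (nat_lit 0) (nat_lit 95708975692) (nat_lit 152) (nat_lit 60784981197) (nat_lit 0) (nat_lit 22646617913) (nat_lit 8) (nat_lit 5) (nat_lit 10) (nat_lit 4) (nat_lit 8) (nat_lit 4) (nat_lit 324) (nat_lit 274) (nat_lit 182)) (XT.nd (nat_lit 78) (nat_lit 76) (nat_lit 0) (XT.lf (nat_lit 0) (nat_lit 128863229844) (nat_lit 152) (nat_lit 7230203189) (nat_lit 0) (nat_lit 55796314425) (nat_lit 8) (nat_lit 5) (nat_lit 10) (nat_lit 4) (nat_lit 8) (nat_lit 4) (nat_lit 325)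 (nat_lit 274) (nat_lit 181)) (XT.lf (nat_lit 0) (nat_lit 52275085242) (nat_lit 76) (nat_lit 113207142856) (nat_lit 76) (nat_lit 40136007401) (nat_lit 7) (nat_lit 4) (nat_lit 8) (nat_lit 5) (nat_lit 8) (nat_lit 4) (nat_lit 326) (nat_lit 274) (nat_lit 180))))))))
noncomputable def xc76 : XT := (XT.nd (nat_lit 36582) (nat_lit 0) (nat_lit 3040) (XT.nd (nat_lit 780) (nat_lit 152) (nat_lit 0) (XT.nd (nat_lit 390) (nat_lit 76) (nat_lit 0) (XT.nd (nat_lit 156) (nat_lit 76) (nat_lit 0) (XT.nd (nat_lit 78) (nat_lit 76) (nat_lit 0) (XT.lf (nat_lit 0) (nat_lit 116792288218) (nat_lit 76) (nat_lit 88360820387) (nat_lit 76) (nat_lit 15285777490) (nat_lit 7) (nat_lit 4) (nat_lit 8) (nat_lit 5) (nat_lit 8) (nat_lit 4) (nat_lit 327) (nat_lit 274) (nat_lit 179)) (XT.lf (nat_lit 0) (nat_lit 11179346080) (nat_lit 152) (nat_lit 50161001432) (nat_lit 76) (nat_lit 175095993019) (nat_lit 6) (nat_lit 5) (nat_lit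 8) (nat_lit 5) (nat_lit 7) (nat_lit 4) (nat_lit 328) (nat_lit 274) (nat_lit 178))) (XT.nd (nat_lit 78) (nat_lit 0) (nat_lit 0) (XT.lf (nat_lit 0) (nat_lit 7582539205) (nat_lit 76) (nat_lit 31766021821) (nat_lit 152) (nat_lit 214346381268) (nat_lit 5) (nat_lit 5) (nat_lit 6) (nat_lit 5) (nat_lit 7) (nat_lit 4) (nat_lit 329) (nat_lit 274) (nat_lit 177)) (XT.nd (nat_lit 78) (nat_lit 0) (nat_lit 0) (XT.lf (nat_lit 0) (nat_lit 70659109775) (nat_lit 152) (nat_lit 200576493340) (nat_lit 0) (nat_lit 1054240487) (nat_lit 5) (nat_lit 5) (nat_lit 7) (nat_lit 4) (nat_lit 5) (nat_lit 4) (nat_lit 330) (nat_lit 274) (nat_lit 176)) (XT.lf (nat_lit 0) (nat_lit 105007338965) (nat_lit 152) (nat_lit 151938623008) (nat_lit 0) (nat_lit 35399734357) (nat_lit 5) (nat_lit 5) (nat_lit 7) (nat_lit 4) (nat_lit 5) (nat_lit 4) (nat_lit 331) (nat_lit 274) (nat_lit 175))))) (XT.nd (nat_lit 156) (nat_lit 76) (nat_lit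 0) (XT.nd (nat_lit 78) (nat_lit 0) (nat_lit 0) (XT.lf (nat_lit 0) (nat_lit 142100837034) (nat_lit 152) (nat_lit 99414611049) (nat_lit 0) (nat_lit 72490699722) (nat_lit 5) (nat_lit 5) (nat_lit 7) (nat_lit 4) (nat_lit 5) (nat_lit 4) (nat_lit 332) (nat_lit 274) (nat_lit 174)) (XT.lf (nat_lit 0) (nat_lit 182159417303) (nat_lit 152) (nat_lit 42693204061) (nat_lit 0) (nat_lit 112546934895) (nat_lit 5) (nat_lit 5) (nat_lit 7) (nat_lit 4) (nat_lit 5) (nat_lit 4) (nat_lit 333) (nat_lit 274) (nat_lit 173))) (XT.nd (nat_lit 78) (nat_lit 0) (nat_lit 0) (XT.lf (nat_lit 0) (nat_lit 19175459261) (nat_lit 76) (nat_lit 206544387349) (nat_lit 76) (nat_lit 136929733556) (nat_lit 4) (nat_lit 4) (nat_lit 5) (nat_lit 5) (nat_lit 5) (nat_lit 4) (nat_lit 334) (nat_lit 274) (nat_lit 172)) (XT.nd (nat_lit 78) (nat_lit 0) (nat_lit 0) (XT.lf (nat_lit 0) (nat_lit 87514167644) (nat_lit 76) (nat_lit 185992512511) (nat_lit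 76) (nat_lit 116375848176) (nat_lit 4) (nat_lit 4) (nat_lit 5) (nat_lit 5) (nat_lit 5) (nat_lit 4) (nat_lit 335) (nat_lit 274) (nat_lit 171)) (XT.lf (nat_lit 0) (nat_lit 161316261076) (nat_lit 76) (nat_lit 163798238031) (nat_lit 76) (nat_lit 94179712083) (nat_lit 4) (nat_lit 4) (nat_lit 5) (nat_lit 5) (nat_lit 5) (nat_lit 4) (nat_lit 336) (nat_lit 274) (nat_lit 170)))))) (XT.nd (nat_lit 390) (nat_lit 0) (nat_lit 0) (XT.nd (nat_lit 156) (nat_lit 152) (nat_lit 0) (XT.nd (nat_lit 78) (nat_lit 0) (nat_lit 0) (XT.lf (nat_lit 0) (nat_lit 241019085295) (nat_lit 76) (nat_lit 139830042282) (nat_lit 76) (nat_lit 70209792618) (nat_lit 4) (nat_lit 4) (nat_lit 5) (nat_lit 5) (nat_lit 5) (nat_lit 4) (nat_lit 337) (nat_lit 274) (nat_lit 169)) (XT.lf (nat_lit 0) (nat_lit 327094953334) (nat_lit 76) (nat_lit 113945891513) (nat_lit 76) (nat_lit 44324045816) (nat_lit 4) (nat_lit 4) (nat_lit 5) (nat_lit 5)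 (nat_lit 5) (nat_lit 4) (nat_lit 338) (nat_lit 274) (nat_lit 168))) (XT.nd (nat_lit 78) (nat_lit 152) (nat_lit 0) (XT.lf (nat_lit 0) (nat_lit 420053944412) (nat_lit 76) (nat_lit 85992398162) (nat_lit 76) (nat_lit 16369074657) (nat_lit 4) (nat_lit 4) (nat_lit 5) (nat_lit 5) (nat_lit 5) (nat_lit 4) (nat_lit 339) (nat_lit 274) (nat_lit 167)) (XT.nd (nat_lit 78) (nat_lit 76) (nat_lit 0) (XT.lf (nat_lit 0) (nat_lit 13378428675) (nat_lit 152) (nat_lit 42198913062) (nat_lit 76) (nat_lit 506841927784) (nat_lit 3) (nat_lit 5) (nat_lit 5) (nat_lit 5) (nat_lit 4) (nat_lit 4) (nat_lit 340) (nat_lit 274) (nat_lit 166)) (XT.lf (nat_lit 0) (nat_lit 23241955247) (nat_lit 76) (nat_lit 22059466253) (nat_lit 152) (nat_lit 560290132629) (nat_lit 2) (nat_lit 5) (nat_lit 3) (nat_lit 5) (nat_lit 4) (nat_lit 4) (nat_lit 341) (nat_lit 274) (nat_lit 165))))) (XT.nd (nat_lit 156) (nat_lit 0) (nat_lit 0) (XT.nd (nat_lit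 78) (nat_lit 0) (nat_lit 0) (XT.lf (nat_lit 0) (nat_lit 80744831308) (nat_lit 152) (nat_lit 556991184727) (nat_lit 0) (nat_lit 14433277060) (nat_lit 2) (nat_lit 5) (nat_lit 4) (nat_lit 4) (nat_lit 2) (nat_lit 4) (nat_lit 342) (nat_lit 274) (nat_lit 164)) (XT.lf (nat_lit 0) (nat_lit 119394460818) (nat_lit 152) (nat_lit 529978381384) (nat_lit 0) (nat_lit 53081872062) (nat_lit 2) (nat_lit 5) (nat_lit 4) (nat_lit 4) (nat_lit 2) (nat_lit 4) (nat_lit 343) (nat_lit 274) (nat_lit 163))) (XT.nd (nat_lit 78) (nat_lit 0) (nat_lit 0) (XT.lf (nat_lit 0) (nat_lit 161134934782) (nat_lit 152) (nat_lit 500806702892) (nat_lit 0) (nat_lit 94821388148) (nat_lit 2) (nat_lit 5) (nat_lit 4) (nat_lit 4) (nat_lit 2) (nat_lit 4) (nat_lit 344) (nat_lit 274) (nat_lit 162)) (XT.nd (nat_lit 78) (nat_lit 0) (nat_lit 0) (XT.lf (nat_lit 0) (nat_lit 206213604156) (nat_lit 152) (nat_lit 469303280045) (nat_lit 0) (nat_lit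 139899170598) (nat_lit 2) (nat_lit 5) (nat_lit 4) (nat_lit 4) (nat_lit 2) (nat_lit 4) (nat_lit 345) (nat_lit 274) (nat_lit 161)) (XT.lf (nat_lit 0) (nat_lit 254897601796) (nat_lit 152) (nat_lit 435281425894) (nat_lit 0) (nat_lit 188582347013) (nat_lit 2) (nat_lit 5) (nat_lit 4) (nat_lit 4) (nat_lit 2) (nat_lit 4) (nat_lit 346) (nat_lit 274) (nat_lit 160))))))) (XT.nd (nat_lit 780) (nat_lit 2280) (nat_lit 0) (XT.nd (nat_lit 390) (nat_lit 1368) (nat_lit 0) (XT.nd (nat_lit 156) (nat_lit 0) (nat_lit 76) (XT.nd (nat_lit 78) (nat_lit 0) (nat_lit 0) (XT.lf (nat_lit 0) (nat_lit 1454449216) (nat_lit 0) (nat_lit 1454449216) (nat_lit 684) (nat_lit 3705464557) (nat_lit 90) (nat_lit 5) (nat_lit 90) (nat_lit 3) (nat_lit 99) (nat_lit 3) (nat_lit 275) (nat_lit 275) (nat_lit 230)) (XT.lf (nat_lit 0) (nat_lit 6722009823) (nat_lit 684) (nat_lit 814023740) (nat_lit 760) (nat_lit 6187112980) (nat_lit 90) (nat_lit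 5) (nat_lit 99) (nat_lit 3) (nat_lit 100) (nat_lit 5) (nat_lit 276) (nat_lit 275) (nat_lit 229))) (XT.nd (nat_lit 78) (nat_lit 0) (nat_lit 0) (XT.lf (nat_lit 0) (nat_lit 7870717537) (nat_lit 684) (nat_lit 4597748830) (nat_lit 760) (nat_lit 1780161897) (nat_lit 91) (nat_lit 5) (nat_lit 100) (nat_lit 5) (nat_lit 101) (nat_lit 5) (nat_lit 277) (nat_lit 275) (nat_lit 228)) (XT.nd (nat_lit 78) (nat_lit 0) (nat_lit 76) (XT.lf (nat_lit 76) (nat_lit 6204133863) (nat_lit 0) (nat_lit 3092858866) (nat_lit 760) (nat_lit 5509979100) (nat_lit 92) (nat_lit 5) (nat_lit 91) (nat_lit 5) (nat_lit 101) (nat_lit 5) (nat_lit 278) (nat_lit 275) (nat_lit 227)) (XT.lf (nat_lit 76) (nat_lit 2564230188) (nat_lit 0) (nat_lit 8455366097) (nat_lit 760) (nat_lit 4381374212) (nat_lit 93) (nat_lit 5) (nat_lit 92) (nat_lit 5) (nat_lit 102) (nat_lit 5) (nat_lit 279) (nat_lit 275) (nat_lit 226))))) (XT.nd (nat_lit 156) (nat_lit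 1596) (nat_lit 0) (XT.nd (nat_lit 78) (nat_lit 0) (nat_lit 0) (XT.lf (nat_lit 0) (nat_lit 13063513519) (nat_lit 684) (nat_lit 1218644951) (nat_lit 760) (nat_lit 1751246925) (nat_lit 93) (nat_lit 5) (nat_lit 102) (nat_lit 5) (nat_lit 103) (nat_lit 5) (nat_lit 280) (nat_lit 275) (nat_lit 225)) (XT.lf (nat_lit 76) (nat_lit 11521613161) (nat_lit 0) (nat_lit 4029460811) (nat_lit 760) (nat_lit 1151439442) (nat_lit 94) (nat_lit 5) (nat_lit 93) (nat_lit 5) (nat_lit 103) (nat_lit 5) (nat_lit 281) (nat_lit 275) (nat_lit 224))) (XT.nd (nat_lit 78) (nat_lit 912) (nat_lit 0) (XT.lf (nat_lit 0) (nat_lit 1007035247) (nat_lit 760) (nat_lit 9418168303) (nat_lit 76) (nat_lit 6988359519) (nat_lit 84) (nat_lit 5) (nat_lit 94) (nat_lit 5) (nat_lit 85) (nat_lit 5) (nat_lit 282) (nat_lit 275) (nat_lit 223)) (XT.nd (nat_lit 78) (nat_lit 380) (nat_lit 0) (XT.lf (nat_lit 0) (nat_lit 3498402882) (nat_lit 608) (nat_lit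 13936191495) (nat_lit 76) (nat_lit 735999986) (nat_lit 77) (nat_lit 5) (nat_lit 85) (nat_lit 5) (nat_lit 78) (nat_lit 5) (nat_lit 283) (nat_lit 275) (nat_lit 222)) (XT.lf (nat_lit 0) (nat_lit 126644570) (nat_lit 380) (nat_lit 6371457560) (nat_lit 456) (nat_lit 12474699046) (nat_lit 72) (nat_lit 5) (nat_lit 77) (nat_lit 5) (nat_lit 78) (nat_lit 5) (nat_lit 284) (nat_lit 275) (nat_lit 221)))))) (XT.nd (nat_lit 390) (nat_lit 1292) (nat_lit 0) (XT.nd (nat_lit 156) (nat_lit 684) (nat_lit 0) (XT.nd (nat_lit 78) (nat_lit 304) (nat_lit 0) (XT.lf (nat_lit 0) (nat_lit 10038215105) (nat_lit 456) (nat_lit 4140613735) (nat_lit 76) (nat_lit 5645393183) (nat_lit 72) (nat_lit 5) (nat_lit 78) (nat_lit 5) (nat_lit 73) (nat_lit 5) (nat_lit 285) (nat_lit 275) (nat_lit 220)) (XT.lf (nat_lit 0) (nat_lit 11985432447) (nat_lit 304) (nat_lit 2139767372) (nat_lit 380) (nat_lit 6605428560) (nat_lit 68) (nat_lit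 5) (nat_lit 72) (nat_lit 5) (nat_lit 73) (nat_lit 5) (nat_lit 286) (nat_lit 275) (nat_lit 219))) (XT.nd (nat_lit 78) (nat_lit 380) (nat_lit 0) (XT.lf (nat_lit 0) (nat_lit 7893137237) (nat_lit 304) (nat_lit 10983027879) (nat_lit 380) (nat_lit 2816581947) (nat_lit 64) (nat_lit 5) (nat_lit 68) (nat_lit 5) (nat_lit 69) (nat_lit 5) (nat_lit 287) (nat_lit 275) (nat_lit 218)) (XT.nd (nat_lit 78) (nat_lit 0) (nat_lit 0) (XT.lf (nat_lit 0) (nat_lit 1483264731) (nat_lit 380) (nat_lit 19280101799) (nat_lit 76) (nat_lit 1955082382) (nat_lit 59) (nat_lit 5) (nat_lit 64) (nat_lit 5) (nat_lit 60) (nat_lit 5) (nat_lit 288) (nat_lit 275) (nat_lit 217)) (XT.lf (nat_lit 0) (nat_lit 6432851582) (nat_lit 380) (nat_lit 1534377527) (nat_lit 76) (nat_lit 15836489104) (nat_lit 59) (nat_lit 5) (nat_lit 64) (nat_lit 5) (nat_lit 60) (nat_lit 5) (nat_lit 289) (nat_lit 275) (nat_lit 216))))) (XT.nd (nat_lit 234) (nat_lit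 532) (nat_lit 0) (XT.nd (nat_lit 78) (nat_lit 456) (nat_lit 0) (XT.lf (nat_lit 0) (nat_lit 12133809842) (nat_lit 380) (nat_lit 6875168550) (nat_lit 76) (nat_lit 5949098931) (nat_lit 55) (nat_lit 5) (nat_lit 60) (nat_lit 5) (nat_lit 56) (nat_lit 5) (nat_lit 290) (nat_lit 275) (nat_lit 215)) (XT.nd (nat_lit 78) (nat_lit 228) (nat_lit 0) (XT.lf (nat_lit 0) (nat_lit 13385384758) (nat_lit 228) (nat_lit 5252799697) (nat_lit 304) (nat_lit 7549269357) (nat_lit 52) (nat_lit 5) (nat_lit 55) (nat_lit 5) (nat_lit 56) (nat_lit 5) (nat_lit 291) (nat_lit 275) (nat_lit 214)) (XT.lf (nat_lit 0) (nat_lit 8080895526) (nat_lit 228) (nat_lit 17957879969) (nat_lit 304) (nat_lit 1457644599) (nat_lit 49) (nat_lit 5) (nat_lit 52) (nat_lit 5) (nat_lit 53) (nat_lit 5) (nat_lit 292) (nat_lit 275) (nat_lit 213)))) (XT.nd (nat_lit 78) (nat_lit 228) (nat_lit 0) (XT.lf (nat_lit 0) (nat_lit 2057976530) (nat_lit 228) (nat_lit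 3225640135) (nat_lit 304) (nat_lit 23606207188) (nat_lit 45) (nat_lit 5) (nat_lit 48) (nat_lit 5) (nat_lit 49) (nat_lit 5) (nat_lit 293) (nat_lit 275) (nat_lit 212)) (XT.nd (nat_lit 78) (nat_lit 228) (nat_lit 0) (XT.lf (nat_lit 0) (nat_lit 13035482356) (nat_lit 304) (nat_lit 4691371785) (nat_lit 76) (nat_lit 12640559309) (nat_lit 45) (nat_lit 5) (nat_lit 49) (nat_lit 5) (nat_lit 46) (nat_lit 5) (nat_lit 294) (nat_lit 275) (nat_lit 211)) (XT.lf (nat_lit 0) (nat_lit 19772797292) (nat_lit 228) (nat_lit 1979176834) (nat_lit 304) (nat_lit 10194037193) (nat_lit 42) (nat_lit 5) (nat_lit 45) (nat_lit 5) (nat_lit 46) (nat_lit 5) (nat_lit 295) (nat_lit 275) (nat_lit 210))))))))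
noncomputable def xc77 : XT := (XT.nd (nat_lit 1638) (nat_lit 684) (nat_lit 0) (XT.nd (nat_lit 780) (nat_lit 912) (nat_lit 0) (XT.nd (nat_lit 390) (nat_lit 456) (nat_lit 0) (XT.nd (nat_lit 156) (nat_lit 380) (nat_lit 0) (XT.nd (nat_lit 78) (nat_lit 304) (nat_lit 0) (XT.lf (nat_lit 0) (nat_lit 12864932068) (nat_lit 152) (nat_lit 18801661023) (nat_lit 228) (nat_lit 1959286633) (nat_lit 40) (nat_lit 5) (nat_lit 42) (nat_lit 5) (nat_lit 43) (nat_lit 5) (nat_lit 296) (nat_lit 275) (nat_lit 209)) (XT.lf (nat_lit 0) (nat_lit 4897805748) (nat_lit 228) (nat_lit 2122756343) (nat_lit 304) (nat_lit 28398769867) (nat_lit 36) (nat_lit 5) (nat_lit 39) (nat_lit 5) (nat_lit 40) (nat_lit 5) (nat_lit 297) (nat_lit 275) (nat_lit 208))) (XT.nd (nat_lit 78) (nat_lit 380) (nat_lit 0) (XT.lf (nat_lit 0) (nat_lit 17250398224) (nat_lit 304) (nat_lit 4299366570) (nat_lit 76) (nat_lit 15774896296) (nat_lit 36) (nat_lit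 5) (nat_lit 40) (nat_lit 5) (nat_lit 37) (nat_lit 5) (nat_lit 298) (nat_lit 275) (nat_lit 207)) (XT.nd (nat_lit 78) (nat_lit 228) (nat_lit 0) (XT.lf (nat_lit 0) (nat_lit 24754138821) (nat_lit 152) (nat_lit 3951627984) (nat_lit 228) (nat_lit 10656309932) (nat_lit 34) (nat_lit 5) (nat_lit 36) (nat_lit 5) (nat_lit 37) (nat_lit 5) (nat_lit 299) (nat_lit 275) (nat_lit 206)) (XT.lf (nat_lit 0) (nat_lit 69317992) (nat_lit 228) (nat_lit 26590839121) (nat_lit 76) (nat_lit 14875786559) (nat_lit 31) (nat_lit 5) (nat_lit 34) (nat_lit 5) (nat_lit 32) (nat_lit 5) (nat_lit 300) (nat_lit 275) (nat_lit 205))))) (XT.nd (nat_lit 156) (nat_lit 304) (nat_lit 0) (XT.nd (nat_lit 78) (nat_lit 0) (nat_lit 0) (XT.lf (nat_lit 0) (nat_lit 3347659629) (nat_lit 152) (nat_lit 8300539163) (nat_lit 228) (nat_lit 32208373356) (nat_lit 29) (nat_lit 5) (nat_lit 31) (nat_lit 5) (nat_lit 32) (nat_lit 5) (nat_lit 301) (nat_lit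 275) (nat_lit 204)) (XT.lf (nat_lit 0) (nat_lit 24790770969) (nat_lit 228) (nat_lit 9918111534) (nat_lit 76) (nat_lit 11622112556) (nat_lit 29) (nat_lit 5) (nat_lit 32) (nat_lit 5) (nat_lit 30) (nat_lit 5) (nat_lit 302) (nat_lit 275) (nat_lit 203))) (XT.nd (nat_lit 78) (nat_lit 152) (nat_lit 0) (XT.lf (nat_lit 0) (nat_lit 23719120157) (nat_lit 152) (nat_lit 15763515053) (nat_lit 228) (nat_lit 9495854503) (nat_lit 27) (nat_lit 5) (nat_lit 29) (nat_lit 5) (nat_lit 30) (nat_lit 5) (nat_lit 303) (nat_lit 275) (nat_lit 202)) (XT.nd (nat_lit 78) (nat_lit 0) (nat_lit 0) (XT.lf (nat_lit 0) (nat_lit 3779537614) (nat_lit 152) (nat_lit 43123255968) (nat_lit 76) (nat_lit 4913265430) (nat_lit 25) (nat_lit 5) (nat_lit 27) (nat_lit 5) (nat_lit 26) (nat_lit 5) (nat_lit 304) (nat_lit 275) (nat_lit 201)) (XT.lf (nat_lit 0) (nat_lit 18490235255) (nat_lit 152) (nat_lit 9047794703) (nat_lit 76) (nat_lit 27299532259)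 (nat_lit 25) (nat_lit 5) (nat_lit 27) (nat_lit 5) (nat_lit 26) (nat_lit 5) (nat_lit 305) (nat_lit 275) (nat_lit 200)))))) (XT.nd (nat_lit 390) (nat_lit 456) (nat_lit 0) (XT.nd (nat_lit 156) (nat_lit 228) (nat_lit 0) (XT.nd (nat_lit 78) (nat_lit 76) (nat_lit 0) (XT.lf (nat_lit 0) (nat_lit 28653017790) (nat_lit 152) (nat_lit 6161475016) (nat_lit 228) (nat_lit 23264466911) (nat_lit 23) (nat_lit 5) (nat_lit 25) (nat_lit 5) (nat_lit 26) (nat_lit 5) (nat_lit 306) (nat_lit 275) (nat_lit 199)) (XT.lf (nat_lit 0) (nat_lit 8096095441) (nat_lit 76) (nat_lit 44889205257) (nat_lit 152) (nat_lit 8567346388) (nat_lit 22) (nat_lit 5) (nat_lit 23) (nat_lit 5) (nat_lit 24) (nat_lit 4) (nat_lit 307) (nat_lit 275) (nat_lit 198))) (XT.nd (nat_lit 78) (nat_lit 152) (nat_lit 0) (XT.lf (nat_lit 0) (nat_lit 7686695977) (nat_lit 152) (nat_lit 15851246336) (nat_lit 76) (nat_lit 41729842917) (nat_lit 21) (nat_lit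 5) (nat_lit 23) (nat_lit 5) (nat_lit 22) (nat_lit 5) (nat_lit 308) (nat_lit 275) (nat_lit 197)) (XT.nd (nat_lit 78) (nat_lit 0) (nat_lit 0) (XT.lf (nat_lit 0) (nat_lit 25333858045) (nat_lit 228) (nat_lit 43839068241) (nat_lit 76) (nat_lit 80544992) (nat_lit 19) (nat_lit 5) (nat_lit 22) (nat_lit 5) (nat_lit 20) (nat_lit 4) (nat_lit 309) (nat_lit 275) (nat_lit 196)) (XT.lf (nat_lit 0) (nat_lit 45061507824) (nat_lit 228) (nat_lit 3413657775) (nat_lit 76) (nat_lit 25049417342) (nat_lit 19) (nat_lit 5) (nat_lit 22) (nat_lit 5) (nat_lit 20) (nat_lit 4) (nat_lit 310) (nat_lit 275) (nat_lit 195))))) (XT.nd (nat_lit 234) (nat_lit 152) (nat_lit 0) (XT.nd (nat_lit 78) (nat_lit 228) (nat_lit 0) (XT.lf (nat_lit 0) (nat_lit 41561781817) (nat_lit 76) (nat_lit 25446314237) (nat_lit 152) (nat_lit 11097257152) (nat_lit 18) (nat_lit 5) (nat_lit 19) (nat_lit 5) (nat_lit 20) (nat_lit 4) (nat_lit 311) (nat_lit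 275) (nat_lit 194)) (XT.nd (nat_lit 78) (nat_lit 0) (nat_lit 0) (XT.lf (nat_lit 0) (nat_lit 7306991468) (nat_lit 152) (nat_lit 272347856) (nat_lit 228) (nat_lit 75458942476) (nat_lit 15) (nat_lit 5) (nat_lit 17) (nat_lit 5) (nat_lit 18) (nat_lit 5) (nat_lit 312) (nat_lit 275) (nat_lit 193)) (XT.lf (nat_lit 0) (nat_lit 28426074211) (nat_lit 228) (nat_lit 32994816683) (nat_lit 76) (nat_lit 26882622340) (nat_lit 15) (nat_lit 5) (nat_lit 18) (nat_lit 5) (nat_lit 16) (nat_lit 4) (nat_lit 313) (nat_lit 275) (nat_lit 192)))) (XT.nd (nat_lit 78) (nat_lit 76) (nat_lit 0) (XT.lf (nat_lit 0) (nat_lit 13577992481) (nat_lit 76) (nat_lit 37572081600) (nat_lit 152) (nat_lit 42829417322) (nat_lit 14) (nat_lit 5) (nat_lit 15) (nat_lit 5) (nat_lit 16) (nat_lit 4) (nat_lit 314) (nat_lit 275) (nat_lit 191)) (XT.nd (nat_lit 78) (nat_lit 76) (nat_lit 0) (XT.lf (nat_lit 0) (nat_lit 65042836295) (nat_lit 76)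 (nat_lit 11217184439) (nat_lit 152) (nat_lit 23821129946) (nat_lit 14) (nat_lit 5) (nat_lit 15) (nat_lit 5) (nat_lit 16) (nat_lit 4) (nat_lit 315) (nat_lit 275) (nat_lit 190)) (XT.lf (nat_lit 0) (nat_lit 14125393638) (nat_lit 76) (nat_lit 89736866098) (nat_lit 76) (nat_lit 2784512014) (nat_lit 13) (nat_lit 4) (nat_lit 14) (nat_lit 5) (nat_lit 14) (nat_lit 4) (nat_lit 316) (nat_lit 275) (nat_lit 189))))))) (XT.nd (nat_lit 780) (nat_lit 304) (nat_lit 0) (XT.nd (nat_lit 390) (nat_lit 152) (nat_lit 0) (XT.nd (nat_lit 156) (nat_lit 76) (nat_lit 0) (XT.nd (nat_lit 78) (nat_lit 76) (nat_lit 0) (XT.lf (nat_lit 0) (nat_lit 20100377004) (nat_lit 152) (nat_lit 45755192844) (nat_lit 76) (nat_lit 47826344629) (nat_lit 12) (nat_lit 5) (nat_lit 14) (nat_lit 5) (nat_lit 13) (nat_lit 4) (nat_lit 317) (nat_lit 275) (nat_lit 188)) (XT.lf (nat_lit 0) (nat_lit 4850313434) (nat_lit 76) (nat_lit 39939566010)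 (nat_lit 152) (nat_lit 76484141061) (nat_lit 11) (nat_lit 5) (nat_lit 12) (nat_lit 5) (nat_lit 13) (nat_lit 4) (nat_lit 318) (nat_lit 275) (nat_lit 187))) (XT.nd (nat_lit 78) (nat_lit 76) (nat_lit 0) (XT.lf (nat_lit 0) (nat_lit 61128347203) (nat_lit 76) (nat_lit 11117833141) (nat_lit 152) (nat_lit 57187735693) (nat_lit 11) (nat_lit 5) (nat_lit 12) (nat_lit 5) (nat_lit 13) (nat_lit 4) (nat_lit 319) (nat_lit 275) (nat_lit 186)) (XT.nd (nat_lit 78) (nat_lit 76) (nat_lit 0) (XT.lf (nat_lit 0) (nat_lit 102206339240) (nat_lit 152) (nat_lit 16659663263) (nat_lit 0) (nat_lit 19365235730) (nat_lit 11) (nat_lit 5) (nat_lit 13) (nat_lit 4) (nat_lit 11) (nat_lit 4) (nat_lit 320) (nat_lit 275) (nat_lit 185)) (XT.lf (nat_lit 0) (nat_lit 40208790179) (nat_lit 76) (nat_lit 95165081203) (nat_lit 76) (nat_lit 12317949314) (nat_lit 10) (nat_lit 4) (nat_lit 11) (nat_lit 5) (nat_lit 11) (nat_lit 4) (nat_lit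 321) (nat_lit 275) (nat_lit 184))))) (XT.nd (nat_lit 156) (nat_lit 76) (nat_lit 0) (XT.nd (nat_lit 78) (nat_lit 0) (nat_lit 0) (XT.lf (nat_lit 0) (nat_lit 13150758085) (nat_lit 152) (nat_lit 55893659645) (nat_lit 76) (nat_lit 88839941879) (nat_lit 9) (nat_lit 5) (nat_lit 11) (nat_lit 5) (nat_lit 10) (nat_lit 4) (nat_lit 322) (nat_lit 275) (nat_lit 183)) (XT.lf (nat_lit 0) (nat_lit 40226971173) (nat_lit 152) (nat_lit 392591180) (nat_lit 76) (nat_lit 128262566158) (nat_lit 9) (nat_lit 5) (nat_lit 11) (nat_lit 5) (nat_lit 10) (nat_lit 4) (nat_lit 323) (nat_lit 275) (nat_lit 182))) (XT.nd (nat_lit 78) (nat_lit 0) (nat_lit 0) (XT.lf (nat_lit 0) (nat_lit 61510094988) (nat_lit 76) (nat_lit 8915642862) (nat_lit 152) (nat_lit 110286160148) (nat_lit 8) (nat_lit 5) (nat_lit 9) (nat_lit 5) (nat_lit 10) (nat_lit 4) (nat_lit 324) (nat_lit 275) (nat_lit 181)) (XT.nd (nat_lit 78) (nat_lit 0) (nat_lit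 0) (XT.lf (nat_lit 0) (nat_lit 103438987672) (nat_lit 152) (nat_lit 65511192702) (nat_lit 0) (nat_lit 24517941344) (nat_lit 8) (nat_lit 5) (nat_lit 10) (nat_lit 4) (nat_lit 8) (nat_lit 4) (nat_lit 325) (nat_lit 275) (nat_lit 180)) (XT.lf (nat_lit 0) (nat_lit 139240152976) (nat_lit 152) (nat_lit 7682150008) (nat_lit 0) (nat_lit 60315199206) (nat_lit 8) (nat_lit 5) (nat_lit 10) (nat_lit 4) (nat_lit 8) (nat_lit 4) (nat_lit 326) (nat_lit 275) (nat_lit 179)))))) (XT.nd (nat_lit 390) (nat_lit 76) (nat_lit 0) (XT.nd (nat_lit 156) (nat_lit 152) (nat_lit 0) (XT.nd (nat_lit 78) (nat_lit 0) (nat_lit 0) (XT.lf (nat_lit 0) (nat_lit 56578065290) (nat_lit 76) (nat_lit 122207467514) (nat_lit 76) (nat_lit 43278895743) (nat_lit 7) (nat_lit 4) (nat_lit 8) (nat_lit 5) (nat_lit 8) (nat_lit 4) (nat_lit 327) (nat_lit 275) (nat_lit 178)) (XT.lf (nat_lit 0) (nat_lit 126247683524) (nat_lit 76) (nat_lit 95377605675)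 (nat_lit 76) (nat_lit 16445683902) (nat_lit 7) (nat_lit 4) (nat_lit 8) (nat_lit 5) (nat_lit 8) (nat_lit 4) (nat_lit 328) (nat_lit 275) (nat_lit 177))) (XT.nd (nat_lit 78) (nat_lit 76) (nat_lit 0) (XT.lf (nat_lit 0) (nat_lit 12130120442) (nat_lit 152) (nat_lit 54068276719) (nat_lit 76) (nat_lit 189150005217) (nat_lit 6) (nat_lit 5) (nat_lit 8) (nat_lit 5) (nat_lit 7) (nat_lit 4) (nat_lit 329) (nat_lit 275) (nat_lit 176)) (XT.nd (nat_lit 78) (nat_lit 0) (nat_lit 0) (XT.lf (nat_lit 0) (nat_lit 8290157712) (nat_lit 76) (nat_lit 34260112250) (nat_lit 152) (nat_lit 231437554234) (nat_lit 5) (nat_lit 5) (nat_lit 6) (nat_lit 5) (nat_lit 7) (nat_lit 4) (nat_lit 330) (nat_lit 275) (nat_lit 175)) (XT.lf (nat_lit 0) (nat_lit 76362357856) (nat_lit 152) (nat_lit 216527249786) (nat_lit 0) (nat_lit 1180876855) (nat_lit 5) (nat_lit 5) (nat_lit 7) (nat_lit 4) (nat_lit 5) (nat_lit 4) (nat_lit 331) (nat_lit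 275) (nat_lit 174))))) (XT.nd (nat_lit 234) (nat_lit 76) (nat_lit 0) (XT.nd (nat_lit 78) (nat_lit 0) (nat_lit 0) (XT.lf (nat_lit 0) (nat_lit 113454703211) (nat_lit 152) (nat_lit 164005413754) (nat_lit 0) (nat_lit 38270877114) (nat_lit 5) (nat_lit 5) (nat_lit 7) (nat_lit 4) (nat_lit 5) (nat_lit 4) (nat_lit 332) (nat_lit 275) (nat_lit 173)) (XT.nd (nat_lit 78) (nat_lit 0) (nat_lit 0) (XT.lf (nat_lit 0) (nat_lit 153512216153) (nat_lit 152) (nat_lit 107286021512) (nat_lit 0) (nat_lit 78326218670) (nat_lit 5) (nat_lit 5) (nat_lit 7) (nat_lit 4) (nat_lit 5) (nat_lit 4) (nat_lit 333) (nat_lit 275) (nat_lit 172)) (XT.lf (nat_lit 0) (nat_lit 196772274536) (nat_lit 152) (nat_lit 46032958145) (nat_lit 0) (nat_lit 121584266512) (nat_lit 5) (nat_lit 5) (nat_lit 7) (nat_lit 4) (nat_lit 5) (nat_lit 4) (nat_lit 334) (nat_lit 275) (nat_lit 171)))) (XT.nd (nat_lit 78) (nat_lit 0) (nat_lit 0) (XT.lf (nat_lit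 0) (nat_lit 20781908317) (nat_lit 76) (nat_lit 223033789775) (nat_lit 76) (nat_lit 147843920138) (nat_lit 4) (nat_lit 4) (nat_lit 5) (nat_lit 5) (nat_lit 5) (nat_lit 4) (nat_lit 335) (nat_lit 275) (nat_lit 170)) (XT.nd (nat_lit 78) (nat_lit 0) (nat_lit 0) (XT.lf (nat_lit 0) (nat_lit 94582349495) (nat_lit 76) (nat_lit 200840294473) (nat_lit 76) (nat_lit 125648701120) (nat_lit 4) (nat_lit 4) (nat_lit 5) (nat_lit 5) (nat_lit 5) (nat_lit 4) (nat_lit 336) (nat_lit 275) (nat_lit 169)) (XT.lf (nat_lit 0) (nat_lit 174283643850) (nat_lit 76) (nat_lit 176872820185) (nat_lit 76) (nat_lit 101679630800) (nat_lit 4) (nat_lit 4) (nat_lit 5) (nat_lit 5) (nat_lit 5) (nat_lit 4) (nat_lit 337) (nat_lit 275) (nat_lit 168))))))))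
noncomputable def xc78 : XT := (XT.nd (nat_lit 36660) (nat_lit 0) (nat_lit 1596) (XT.nd (nat_lit 35880) (nat_lit 0) (nat_lit 5320) (XT.nd (nat_lit 390) (nat_lit 0) (nat_lit 0) (XT.nd (nat_lit 156) (nat_lit 152) (nat_lit 0) (XT.nd (nat_lit 78) (nat_lit 0) (nat_lit 0) (XT.lf (nat_lit 0) (nat_lit 260358095348) (nat_lit 76) (nat_lit 150989337435) (nat_lit 76) (nat_lit 75794670241) (nat_lit 4) (nat_lit 4) (nat_lit 5) (nat_lit 5) (nat_lit 5) (nat_lit 4) (nat_lit 338) (nat_lit 275) (nat_lit 167)) (XT.lf (nat_lit 0) (nat_lit 353315774814) (nat_lit 76) (nat_lit 123036462621) (nat_lit 76) (nat_lit 47840427086) (nat_lit 4) (nat_lit 4) (nat_lit 5) (nat_lit 5) (nat_lit 5) (nat_lit 4) (nat_lit 339) (nat_lit 275) (nat_lit 166))) (XT.nd (nat_lit 78) (nat_lit 152) (nat_lit 0) (XT.lf (nat_lit 0) (nat_lit 453707542569) (nat_lit 76) (nat_lit 92848549078) (nat_lit 76) (nat_lit 17651246560) (nat_lit 4) (nat_lit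 4) (nat_lit 5) (nat_lit 5) (nat_lit 5) (nat_lit 4) (nat_lit 340) (nat_lit 275) (nat_lit 165)) (XT.nd (nat_lit 78) (nat_lit 76) (nat_lit 0) (XT.lf (nat_lit 0) (nat_lit 14473220162) (nat_lit 152) (nat_lit 45528374316) (nat_lit 76) (nat_lit 547409981644) (nat_lit 3) (nat_lit 5) (nat_lit 5) (nat_lit 5) (nat_lit 4) (nat_lit 4) (nat_lit 341) (nat_lit 275) (nat_lit 164)) (XT.lf (nat_lit 0) (nat_lit 25145744719) (nat_lit 76) (nat_lit 23803185330) (nat_lit 152) (nat_lit 605088770243) (nat_lit 2) (nat_lit 5) (nat_lit 3) (nat_lit 5) (nat_lit 4) (nat_lit 4) (nat_lit 342) (nat_lit 275) (nat_lit 163))))) (XT.nd (nat_lit 156) (nat_lit 0) (nat_lit 0) (XT.nd (nat_lit 78) (nat_lit 0) (nat_lit 0) (XT.lf (nat_lit 0) (nat_lit 87226383826) (nat_lit 152) (nat_lit 601508551029) (nat_lit 0) (nat_lit 15606795584) (nat_lit 2) (nat_lit 5) (nat_lit 4) (nat_lit 4) (nat_lit 2) (nat_lit 4) (nat_lit 343) (nat_lit 275)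 (nat_lit 162)) (XT.lf (nat_lit 0) (nat_lit 128966356585) (nat_lit 152) (nat_lit 572337829232) (nat_lit 0) (nat_lit 57345881419) (nat_lit 2) (nat_lit 5) (nat_lit 4) (nat_lit 4) (nat_lit 2) (nat_lit 4) (nat_lit 344) (nat_lit 275) (nat_lit 161))) (XT.nd (nat_lit 78) (nat_lit 0) (nat_lit 0) (XT.lf (nat_lit 0) (nat_lit 174044561881) (nat_lit 152) (nat_lit 540835292213) (nat_lit 0) (nat_lit 102423265489) (nat_lit 2) (nat_lit 5) (nat_lit 4) (nat_lit 4) (nat_lit 2) (nat_lit 4) (nat_lit 345) (nat_lit 275) (nat_lit 160)) (XT.nd (nat_lit 35178) (nat_lit 0) (nat_lit 6688) (XT.lf (nat_lit 0) (nat_lit 222728129818) (nat_lit 152) (nat_lit 506814258273) (nat_lit 0) (nat_lit 151106073033) (nat_lit 2) (nat_lit 5) (nat_lit 4) (nat_lit 4) (nat_lit 2) (nat_lit 4) (nat_lit 346) (nat_lit 275) (nat_lit 159)) (XT.lf (nat_lit 0) (nat_lit 1849784816) (nat_lit 0) (nat_lit 1849784816) (nat_lit 684) (nat_lit 3414918749)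 (nat_lit 90) (nat_lit 5) (nat_lit 90) (nat_lit 3) (nat_lit 99) (nat_lit 3) (nat_lit 276) (nat_lit 276) (nat_lit 228)))))) (XT.nd (nat_lit 390) (nat_lit 1368) (nat_lit 0) (XT.nd (nat_lit 156) (nat_lit 0) (nat_lit 76) (XT.nd (nat_lit 78) (nat_lit 0) (nat_lit 76) (XT.lf (nat_lit 0) (nat_lit 8284962594) (nat_lit 684) (nat_lit 300703112) (nat_lit 760) (nat_lit 6181988368) (nat_lit 90) (nat_lit 5) (nat_lit 99) (nat_lit 3) (nat_lit 100) (nat_lit 5) (nat_lit 277) (nat_lit 276) (nat_lit 227)) (XT.lf (nat_lit 0) (nat_lit 9451948679) (nat_lit 684) (nat_lit 4356123187) (nat_lit 760) (nat_lit 1530937793) (nat_lit 91) (nat_lit 5) (nat_lit 100) (nat_lit 5) (nat_lit 101) (nat_lit 5) (nat_lit 278) (nat_lit 276) (nat_lit 226))) (XT.nd (nat_lit 78) (nat_lit 0) (nat_lit 76) (XT.lf (nat_lit 76) (nat_lit 7283424361) (nat_lit 0) (nat_lit 3647516217) (nat_lit 760) (nat_lit 5014292372) (nat_lit 92) (nat_lit 5)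 (nat_lit 91) (nat_lit 5) (nat_lit 101) (nat_lit 5) (nat_lit 279) (nat_lit 276) (nat_lit 225)) (XT.nd (nat_lit 78) (nat_lit 0) (nat_lit 76) (XT.lf (nat_lit 76) (nat_lit 3375866542) (nat_lit 0) (nat_lit 9354573736) (nat_lit 760) (nat_lit 3859489226) (nat_lit 93) (nat_lit 5) (nat_lit 92) (nat_lit 5) (nat_lit 102) (nat_lit 5) (nat_lit 280) (nat_lit 276) (nat_lit 224)) (XT.lf (nat_lit 0) (nat_lit 14873222468) (nat_lit 684) (nat_lit 711419171) (nat_lit 760) (nat_lit 1691672556) (nat_lit 93) (nat_lit 5) (nat_lit 102) (nat_lit 5) (nat_lit 103) (nat_lit 5) (nat_lit 281) (nat_lit 276) (nat_lit 223))))) (XT.nd (nat_lit 156) (nat_lit 912) (nat_lit 0) (XT.nd (nat_lit 78) (nat_lit 684) (nat_lit 0) (XT.lf (nat_lit 76) (nat_lit 13021779309) (nat_lit 0) (nat_lit 4490400370) (nat_lit 760) (nat_lit 489265078) (nat_lit 94) (nat_lit 5) (nat_lit 93) (nat_lit 5) (nat_lit 103) (nat_lit 5) (nat_lit 282) (nat_lit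 276) (nat_lit 222)) (XT.lf (nat_lit 0) (nat_lit 1771003099) (nat_lit 760) (nat_lit 9556755626) (nat_lit 76) (nat_lit 7443468045) (nat_lit 84) (nat_lit 5) (nat_lit 94) (nat_lit 5) (nat_lit 85) (nat_lit 5) (nat_lit 283) (nat_lit 276) (nat_lit 221))) (XT.nd (nat_lit 78) (nat_lit 380) (nat_lit 0) (XT.lf (nat_lit 0) (nat_lit 4419399854) (nat_lit 608) (nat_lit 14428845051) (nat_lit 76) (nat_lit 742782351) (nat_lit 77) (nat_lit 5) (nat_lit 85) (nat_lit 5) (nat_lit 78) (nat_lit 5) (nat_lit 284) (nat_lit 276) (nat_lit 220)) (XT.nd (nat_lit 78) (nat_lit 0) (nat_lit 0) (XT.lf (nat_lit 0) (nat_lit 731976031) (nat_lit 380) (nat_lit 6888901028) (nat_lit 456) (nat_lit 12838529263) (nat_lit 72) (nat_lit 5) (nat_lit 77) (nat_lit 5) (nat_lit 78) (nat_lit 5) (nat_lit 285) (nat_lit 276) (nat_lit 219)) (XT.lf (nat_lit 0) (nat_lit 11399426128) (nat_lit 456) (nat_lit 3891733684) (nat_lit 76) (nat_lit 6090099124)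 (nat_lit 72) (nat_lit 5) (nat_lit 78) (nat_lit 5) (nat_lit 73) (nat_lit 5) (nat_lit 286) (nat_lit 276) (nat_lit 218))))))) (XT.nd (nat_lit 780) (nat_lit 1444) (nat_lit 0) (XT.nd (nat_lit 390) (nat_lit 988) (nat_lit 0) (XT.nd (nat_lit 156) (nat_lit 684) (nat_lit 0) (XT.nd (nat_lit 78) (nat_lit 304) (nat_lit 0) (XT.lf (nat_lit 0) (nat_lit 13499184487) (nat_lit 304) (nat_lit 2281504223) (nat_lit 380) (nat_lit 6581196705) (nat_lit 68) (nat_lit 5) (nat_lit 72) (nat_lit 5) (nat_lit 73) (nat_lit 5) (nat_lit 287) (nat_lit 276) (nat_lit 217)) (XT.lf (nat_lit 0) (nat_lit 9080961342) (nat_lit 304) (nat_lit 11800958171) (nat_lit 380) (nat_lit 2520612782) (nat_lit 64) (nat_lit 5) (nat_lit 68) (nat_lit 5) (nat_lit 69) (nat_lit 5) (nat_lit 288) (nat_lit 276) (nat_lit 216))) (XT.nd (nat_lit 78) (nat_lit 304) (nat_lit 0) (XT.lf (nat_lit 0) (nat_lit 2078870349) (nat_lit 380) (nat_lit 20250181522) (nat_lit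 76) (nat_lit 2182274874) (nat_lit 59) (nat_lit 5) (nat_lit 64) (nat_lit 5) (nat_lit 60) (nat_lit 5) (nat_lit 289) (nat_lit 276) (nat_lit 215)) (XT.nd (nat_lit 78) (nat_lit 304) (nat_lit 0) (XT.lf (nat_lit 0) (nat_lit 7389094931) (nat_lit 380) (nat_lit 1127194007) (nat_lit 76) (nat_lit 17168950734) (nat_lit 59) (nat_lit 5) (nat_lit 64) (nat_lit 5) (nat_lit 60) (nat_lit 5) (nat_lit 290) (nat_lit 276) (nat_lit 214)) (XT.lf (nat_lit 0) (nat_lit 13522738296) (nat_lit 380) (nat_lit 6898200486) (nat_lit 76) (nat_lit 6512229804) (nat_lit 55) (nat_lit 5) (nat_lit 60) (nat_lit 5) (nat_lit 56) (nat_lit 5) (nat_lit 291) (nat_lit 276) (nat_lit 213))))) (XT.nd (nat_lit 156) (nat_lit 532) (nat_lit 0) (XT.nd (nat_lit 78) (nat_lit 228) (nat_lit 0) (XT.lf (nat_lit 0) (nat_lit 14960295111) (nat_lit 228) (nat_lit 5564058330) (nat_lit 304) (nat_lit 7737744909) (nat_lit 52) (nat_lit 5) (nat_lit 55) (nat_lit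 5) (nat_lit 56) (nat_lit 5) (nat_lit 292) (nat_lit 276) (nat_lit 212)) (XT.lf (nat_lit 0) (nat_lit 9227380041) (nat_lit 228) (nat_lit 19269725841) (nat_lit 304) (nat_lit 1179714500) (nat_lit 49) (nat_lit 5) (nat_lit 52) (nat_lit 5) (nat_lit 53) (nat_lit 5) (nat_lit 293) (nat_lit 276) (nat_lit 211))) (XT.nd (nat_lit 78) (nat_lit 228) (nat_lit 0) (XT.lf (nat_lit 0) (nat_lit 2713479363) (nat_lit 228) (nat_lit 3354114364) (nat_lit 304) (nat_lit 25114864962) (nat_lit 45) (nat_lit 5) (nat_lit 48) (nat_lit 5) (nat_lit 49) (nat_lit 5) (nat_lit 294) (nat_lit 276) (nat_lit 210)) (XT.nd (nat_lit 78) (nat_lit 228) (nat_lit 0) (XT.lf (nat_lit 0) (nat_lit 14414719822) (nat_lit 304) (nat_lit 4596873450) (nat_lit 76) (nat_lit 13767942673) (nat_lit 45) (nat_lit 5) (nat_lit 49) (nat_lit 5) (nat_lit 46) (nat_lit 5) (nat_lit 295) (nat_lit 276) (nat_lit 209)) (XT.lf (nat_lit 0) (nat_lit 21804011867) (nat_lit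 228) (nat_lit 2006616881) (nat_lit 304) (nat_lit 10674721387) (nat_lit 42) (nat_lit 5) (nat_lit 45) (nat_lit 5) (nat_lit 46) (nat_lit 5) (nat_lit 296) (nat_lit 276) (nat_lit 208)))))) (XT.nd (nat_lit 390) (nat_lit 608) (nat_lit 0) (XT.nd (nat_lit 156) (nat_lit 380) (nat_lit 0) (XT.nd (nat_lit 78) (nat_lit 304) (nat_lit 0) (XT.lf (nat_lit 0) (nat_lit 14337664521) (nat_lit 152) (nat_lit 20165977475) (nat_lit 228) (nat_lit 1796735685) (nat_lit 40) (nat_lit 5) (nat_lit 42) (nat_lit 5) (nat_lit 43) (nat_lit 5) (nat_lit 297) (nat_lit 276) (nat_lit 207)) (XT.lf (nat_lit 0) (nat_lit 5724019715) (nat_lit 228) (nat_lit 2151149455) (nat_lit 304) (nat_lit 30362720544) (nat_lit 36) (nat_lit 5) (nat_lit 39) (nat_lit 5) (nat_lit 40) (nat_lit 5) (nat_lit 298) (nat_lit 276) (nat_lit 206))) (XT.nd (nat_lit 78) (nat_lit 380) (nat_lit 0) (XT.lf (nat_lit 0) (nat_lit 18903735814) (nat_lit 304) (nat_lit 4229269387)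 (nat_lit 76) (nat_lit 17163648032) (nat_lit 36) (nat_lit 5) (nat_lit 40) (nat_lit 5) (nat_lit 37) (nat_lit 5) (nat_lit 299) (nat_lit 276) (nat_lit 205)) (XT.nd (nat_lit 78) (nat_lit 228) (nat_lit 0) (XT.lf (nat_lit 0) (nat_lit 27130522479) (nat_lit 152) (nat_lit 4130950024) (nat_lit 228) (nat_lit 11236316066) (nat_lit 34) (nat_lit 5) (nat_lit 36) (nat_lit 5) (nat_lit 37) (nat_lit 5) (nat_lit 300) (nat_lit 276) (nat_lit 204)) (XT.lf (nat_lit 0) (nat_lit 327292052) (nat_lit 228) (nat_lit 28320026495) (nat_lit 76) (nat_lit 16198621612) (nat_lit 31) (nat_lit 5) (nat_lit 34) (nat_lit 5) (nat_lit 32) (nat_lit 5) (nat_lit 301) (nat_lit 276) (nat_lit 203))))) (XT.nd (nat_lit 234) (nat_lit 304) (nat_lit 0) (XT.nd (nat_lit 78) (nat_lit 152) (nat_lit 0) (XT.lf (nat_lit 0) (nat_lit 3996252095) (nat_lit 152) (nat_lit 8823477844) (nat_lit 228) (nat_lit 34533145724) (nat_lit 29) (nat_lit 5) (nat_lit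 31) (nat_lit 5) (nat_lit 32) (nat_lit 5) (nat_lit 302) (nat_lit 276) (nat_lit 202)) (XT.nd (nat_lit 78) (nat_lit 152) (nat_lit 0) (XT.lf (nat_lit 0) (nat_lit 26997994016) (nat_lit 228) (nat_lit 10349709608) (nat_lit 76) (nat_lit 12678352142) (nat_lit 29) (nat_lit 5) (nat_lit 32) (nat_lit 5) (nat_lit 30) (nat_lit 5) (nat_lit 303) (nat_lit 276) (nat_lit 201)) (XT.lf (nat_lit 0) (nat_lit 25962775022) (nat_lit 152) (nat_lit 16891246628) (nat_lit 228) (nat_lit 10031903987) (nat_lit 27) (nat_lit 5) (nat_lit 29) (nat_lit 5) (nat_lit 30) (nat_lit 5) (nat_lit 304) (nat_lit 276) (nat_lit 200)))) (XT.nd (nat_lit 78) (nat_lit 152) (nat_lit 0) (XT.lf (nat_lit 0) (nat_lit 4289674308) (nat_lit 152) (nat_lit 46226602592) (nat_lit 76) (nat_lit 5434497838) (nat_lit 25) (nat_lit 5) (nat_lit 27) (nat_lit 5) (nat_lit 26) (nat_lit 5) (nat_lit 305) (nat_lit 276) (nat_lit 199)) (XT.nd (nat_lit 78) (nat_lit 152)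 (nat_lit 0) (XT.lf (nat_lit 0) (nat_lit 20161837117) (nat_lit 152) (nat_lit 9450772119) (nat_lit 76) (nat_lit 29602171853) (nat_lit 25) (nat_lit 5) (nat_lit 27) (nat_lit 5) (nat_lit 26) (nat_lit 5) (nat_lit 306) (nat_lit 276) (nat_lit 198)) (XT.lf (nat_lit 0) (nat_lit 31252161791) (nat_lit 152) (nat_lit 6530414495) (nat_lit 228) (nat_lit 24933399419) (nat_lit 23) (nat_lit 5) (nat_lit 25) (nat_lit 5) (nat_lit 26) (nat_lit 5) (nat_lit 307) (nat_lit 276) (nat_lit 197))))))))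
noncomputable def xc79 : XT := (XT.nd (nat_lit 1638) (nat_lit 380) (nat_lit 0) (XT.nd (nat_lit 780) (nat_lit 456) (nat_lit 0) (XT.nd (nat_lit 390) (nat_lit 380) (nat_lit 0) (XT.nd (nat_lit 156) (nat_lit 228) (nat_lit 0) (XT.nd (nat_lit 78) (nat_lit 76) (nat_lit 0) (XT.lf (nat_lit 0) (nat_lit 9044393100) (nat_lit 76) (nat_lit 48355591415) (nat_lit 152) (nat_lit 9067938215) (nat_lit 22) (nat_lit 5) (nat_lit 23) (nat_lit 5) (nat_lit 24) (nat_lit 4) (nat_lit 308) (nat_lit 276) (nat_lit 196)) (XT.lf (nat_lit 0) (nat_lit 8467262454) (nat_lit 152) (nat_lit 16835400705) (nat_lit 76) (nat_lit 45178137128) (nat_lit 21) (nat_lit 5) (nat_lit 23) (nat_lit 5) (nat_lit 22) (nat_lit 5) (nat_lit 309) (nat_lit 276) (nat_lit 195))) (XT.nd (nat_lit 78) (nat_lit 76) (nat_lit 0) (XT.lf (nat_lit 0) (nat_lit 27519948968) (nat_lit 228) (nat_lit 47068371195) (nat_lit 76) (nat_lit 197342830) (nat_lit 19) (nat_lit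 5) (nat_lit 22) (nat_lit 5) (nat_lit 20) (nat_lit 4) (nat_lit 310) (nat_lit 276) (nat_lit 194)) (XT.nd (nat_lit 78) (nat_lit 76) (nat_lit 0) (XT.lf (nat_lit 0) (nat_lit 48814004634) (nat_lit 228) (nat_lit 3429507338) (nat_lit 76) (nat_lit 27155550580) (nat_lit 19) (nat_lit 5) (nat_lit 22) (nat_lit 5) (nat_lit 20) (nat_lit 4) (nat_lit 311) (nat_lit 276) (nat_lit 193)) (XT.lf (nat_lit 0) (nat_lit 45132787952) (nat_lit 76) (nat_lit 27376442143) (nat_lit 152) (nat_lit 11837426849) (nat_lit 18) (nat_lit 5) (nat_lit 19) (nat_lit 5) (nat_lit 20) (nat_lit 4) (nat_lit 312) (nat_lit 276) (nat_lit 192))))) (XT.nd (nat_lit 156) (nat_lit 152) (nat_lit 0) (XT.nd (nat_lit 78) (nat_lit 0) (nat_lit 0) (XT.lf (nat_lit 0) (nat_lit 8131531182) (nat_lit 152) (nat_lit 190204280) (nat_lit 228) (nat_lit 81352718072) (nat_lit 15) (nat_lit 5) (nat_lit 17) (nat_lit 5) (nat_lit 18) (nat_lit 5) (nat_lit 313) (nat_lit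 276) (nat_lit 191)) (XT.lf (nat_lit 0) (nat_lit 30827633902) (nat_lit 228) (nat_lit 35407320031) (nat_lit 76) (nat_lit 29126384859) (nat_lit 15) (nat_lit 5) (nat_lit 18) (nat_lit 5) (nat_lit 16) (nat_lit 4) (nat_lit 314) (nat_lit 276) (nat_lit 190))) (XT.nd (nat_lit 78) (nat_lit 76) (nat_lit 0) (XT.lf (nat_lit 0) (nat_lit 14881445160) (nat_lit 76) (nat_lit 40482057409) (nat_lit 152) (nat_lit 46128201264) (nat_lit 14) (nat_lit 5) (nat_lit 15) (nat_lit 5) (nat_lit 16) (nat_lit 4) (nat_lit 315) (nat_lit 276) (nat_lit 189)) (XT.nd (nat_lit 78) (nat_lit 76) (nat_lit 0) (XT.lf (nat_lit 0) (nat_lit 70447386606) (nat_lit 76) (nat_lit 12025864084) (nat_lit 152) (nat_lit 25608700486) (nat_lit 14) (nat_lit 5) (nat_lit 15) (nat_lit 5) (nat_lit 16) (nat_lit 4) (nat_lit 316) (nat_lit 276) (nat_lit 188)) (XT.lf (nat_lit 0) (nat_lit 15451927570) (nat_lit 76) (nat_lit 96827763378) (nat_lit 76) (nat_lit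 2893335074) (nat_lit 13) (nat_lit 4) (nat_lit 14) (nat_lit 5) (nat_lit 14) (nat_lit 4) (nat_lit 317) (nat_lit 276) (nat_lit 187)))))) (XT.nd (nat_lit 390) (nat_lit 228) (nat_lit 0) (XT.nd (nat_lit 156) (nat_lit 76) (nat_lit 0) (XT.nd (nat_lit 78) (nat_lit 76) (nat_lit 0) (XT.lf (nat_lit 0) (nat_lit 21810528624) (nat_lit 152) (nat_lit 49230227699) (nat_lit 76) (nat_lit 51730547967) (nat_lit 12) (nat_lit 5) (nat_lit 14) (nat_lit 5) (nat_lit 13) (nat_lit 4) (nat_lit 318) (nat_lit 276) (nat_lit 186)) (XT.lf (nat_lit 0) (nat_lit 5415662668) (nat_lit 76) (nat_lit 43054732565) (nat_lit 152) (nat_lit 82500627610) (nat_lit 11) (nat_lit 5) (nat_lit 12) (nat_lit 5) (nat_lit 13) (nat_lit 4) (nat_lit 319) (nat_lit 276) (nat_lit 185))) (XT.nd (nat_lit 78) (nat_lit 76) (nat_lit 0) (XT.lf (nat_lit 0) (nat_lit 66182804015) (nat_lit 76) (nat_lit 11933186899) (nat_lit 152) (nat_lit 61668083497) (nat_lit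 11) (nat_lit 5) (nat_lit 12) (nat_lit 5) (nat_lit 13) (nat_lit 4) (nat_lit 320) (nat_lit 276) (nat_lit 184)) (XT.nd (nat_lit 78) (nat_lit 76) (nat_lit 0) (XT.lf (nat_lit 0) (nat_lit 110467358072) (nat_lit 152) (nat_lit 17837262750) (nat_lit 0) (nat_lit 20980845420) (nat_lit 11) (nat_lit 5) (nat_lit 13) (nat_lit 4) (nat_lit 11) (nat_lit 4) (nat_lit 321) (nat_lit 276) (nat_lit 183)) (XT.lf (nat_lit 0) (nat_lit 43573923312) (nat_lit 76) (nat_lit 102710426754) (nat_lit 76) (nat_lit 13218745739) (nat_lit 10) (nat_lit 4) (nat_lit 11) (nat_lit 5) (nat_lit 11) (nat_lit 4) (nat_lit 322) (nat_lit 276) (nat_lit 182))))) (XT.nd (nat_lit 234) (nat_lit 76) (nat_lit 0) (XT.nd (nat_lit 78) (nat_lit 76) (nat_lit 0) (XT.lf (nat_lit 0) (nat_lit 14278680331) (nat_lit 152) (nat_lit 60225171857) (nat_lit 76) (nat_lit 96007425988) (nat_lit 9) (nat_lit 5) (nat_lit 11) (nat_lit 5) (nat_lit 10) (nat_lit 4) (nat_lit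 323) (nat_lit 276) (nat_lit 181)) (XT.nd (nat_lit 78) (nat_lit 76) (nat_lit 0) (XT.lf (nat_lit 0) (nat_lit 43515371087) (nat_lit 152) (nat_lit 294386845) (nat_lit 76) (nat_lit 138579394375) (nat_lit 9) (nat_lit 5) (nat_lit 11) (nat_lit 5) (nat_lit 10) (nat_lit 4) (nat_lit 324) (nat_lit 276) (nat_lit 180)) (XT.lf (nat_lit 0) (nat_lit 66554881453) (nat_lit 76) (nat_lit 9571890177) (nat_lit 152) (nat_lit 119038697645) (nat_lit 8) (nat_lit 5) (nat_lit 9) (nat_lit 5) (nat_lit 10) (nat_lit 4) (nat_lit 325) (nat_lit 276) (nat_lit 179)))) (XT.nd (nat_lit 78) (nat_lit 76) (nat_lit 0) (XT.lf (nat_lit 0) (nat_lit 111776944413) (nat_lit 152) (nat_lit 70634986788) (nat_lit 0) (nat_lit 26530468898) (nat_lit 8) (nat_lit 5) (nat_lit 10) (nat_lit 4) (nat_lit 8) (nat_lit 4) (nat_lit 326) (nat_lit 276) (nat_lit 178)) (XT.nd (nat_lit 78) (nat_lit 76) (nat_lit 0) (XT.lf (nat_lit 0) (nat_lit 150437548295) (nat_lit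 152) (nat_lit 8188294852) (nat_lit 0) (nat_lit 65187722779) (nat_lit 8) (nat_lit 5) (nat_lit 10) (nat_lit 4) (nat_lit 8) (nat_lit 4) (nat_lit 327) (nat_lit 276) (nat_lit 177)) (XT.lf (nat_lit 0) (nat_lit 61208025558) (nat_lit 76) (nat_lit 131935842376) (nat_lit 76) (nat_lit 46682915007) (nat_lit 7) (nat_lit 4) (nat_lit 8) (nat_lit 5) (nat_lit 8) (nat_lit 4) (nat_lit 328) (nat_lit 276) (nat_lit 176))))))) (XT.nd (nat_lit 780) (nat_lit 152) (nat_lit 0) (XT.nd (nat_lit 390) (nat_lit 76) (nat_lit 0) (XT.nd (nat_lit 156) (nat_lit 76) (nat_lit 0) (XT.nd (nat_lit 78) (nat_lit 76) (nat_lit 0) (XT.lf (nat_lit 0) (nat_lit 136443530655) (nat_lit 76) (nat_lit 102963163629) (nat_lit 76) (nat_lit 17707364174) (nat_lit 7) (nat_lit 4) (nat_lit 8) (nat_lit 5) (nat_lit 8) (nat_lit 4) (nat_lit 329) (nat_lit 276) (nat_lit 175)) (XT.lf (nat_lit 0) (nat_lit 13148906856) (nat_lit 152) (nat_lit 58303199738) (nat_lit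 76) (nat_lit 204321728506) (nat_lit 6) (nat_lit 5) (nat_lit 8) (nat_lit 5) (nat_lit 7) (nat_lit 4) (nat_lit 330) (nat_lit 276) (nat_lit 174))) (XT.nd (nat_lit 78) (nat_lit 0) (nat_lit 0) (XT.lf (nat_lit 0) (nat_lit 9039974728) (nat_lit 76) (nat_lit 36960462283) (nat_lit 152) (nat_lit 249904086748) (nat_lit 5) (nat_lit 5) (nat_lit 6) (nat_lit 5) (nat_lit 7) (nat_lit 4) (nat_lit 331) (nat_lit 276) (nat_lit 173)) (XT.nd (nat_lit 78) (nat_lit 0) (nat_lit 0) (XT.lf (nat_lit 0) (nat_lit 82514658640) (nat_lit 152) (nat_lit 233767671348) (nat_lit 0) (nat_lit 1311609974) (nat_lit 5) (nat_lit 5) (nat_lit 7) (nat_lit 4) (nat_lit 5) (nat_lit 4) (nat_lit 332) (nat_lit 276) (nat_lit 172)) (XT.lf (nat_lit 0) (nat_lit 122571183316) (nat_lit 152) (nat_lit 177050144613) (nat_lit 0) (nat_lit 41366124108) (nat_lit 5) (nat_lit 5) (nat_lit 7) (nat_lit 4) (nat_lit 5) (nat_lit 4) (nat_lit 333) (nat_lit 276) (nat_lit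 171))))) (XT.nd (nat_lit 156) (nat_lit 76) (nat_lit 0) (XT.nd (nat_lit 78) (nat_lit 0) (nat_lit 0) (XT.lf (nat_lit 0) (nat_lit 165830326638) (nat_lit 152) (nat_lit 115798808565) (nat_lit 0) (nat_lit 84623405817) (nat_lit 5) (nat_lit 5) (nat_lit 7) (nat_lit 4) (nat_lit 5) (nat_lit 4) (nat_lit 334) (nat_lit 276) (nat_lit 170)) (XT.lf (nat_lit 0) (nat_lit 212548439085) (nat_lit 152) (nat_lit 49650692326) (nat_lit 0) (nat_lit 131339794548) (nat_lit 5) (nat_lit 5) (nat_lit 7) (nat_lit 4) (nat_lit 5) (nat_lit 4) (nat_lit 335) (nat_lit 276) (nat_lit 169))) (XT.nd (nat_lit 78) (nat_lit 0) (nat_lit 0) (XT.lf (nat_lit 0) (nat_lit 22506542870) (nat_lit 76) (nat_lit 240847216069) (nat_lit 76) (nat_lit 159636975499) (nat_lit 4) (nat_lit 4) (nat_lit 5) (nat_lit 5) (nat_lit 5) (nat_lit 4) (nat_lit 336) (nat_lit 276) (nat_lit 168)) (XT.nd (nat_lit 78) (nat_lit 0) (nat_lit 0) (XT.lf (nat_lit 0) (nat_lit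 102206420684) (nat_lit 76) (nat_lit 216880409801) (nat_lit 76) (nat_lit 135668691423) (nat_lit 4) (nat_lit 4) (nat_lit 5) (nat_lit 5) (nat_lit 5) (nat_lit 4) (nat_lit 337) (nat_lit 276) (nat_lit 167)) (XT.lf (nat_lit 0) (nat_lit 188279560571) (nat_lit 76) (nat_lit 190997545587) (nat_lit 76) (nat_lit 109784458868) (nat_lit 4) (nat_lit 4) (nat_lit 5) (nat_lit 5) (nat_lit 5) (nat_lit 4) (nat_lit 338) (nat_lit 276) (nat_lit 166)))))) (XT.nd (nat_lit 390) (nat_lit 0) (nat_lit 0) (XT.nd (nat_lit 156) (nat_lit 152) (nat_lit 0) (XT.nd (nat_lit 78) (nat_lit 0) (nat_lit 0) (XT.lf (nat_lit 0) (nat_lit 281236025581) (nat_lit 76) (nat_lit 163045243492) (nat_lit 76) (nat_lit 81830889791) (nat_lit 4) (nat_lit 4) (nat_lit 5) (nat_lit 5) (nat_lit 5) (nat_lit 4) (nat_lit 339) (nat_lit 276) (nat_lit 165)) (XT.lf (nat_lit 0) (nat_lit 381626668840) (nat_lit 76) (nat_lit 132857860244) (nat_lit 76) (nat_lit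 51642333411) (nat_lit 4) (nat_lit 4) (nat_lit 5) (nat_lit 5) (nat_lit 5) (nat_lit 4) (nat_lit 340) (nat_lit 276) (nat_lit 164))) (XT.nd (nat_lit 78) (nat_lit 152) (nat_lit 0) (XT.lf (nat_lit 0) (nat_lit 490046397865) (nat_lit 76) (nat_lit 100256507646) (nat_lit 76) (nat_lit 19039894579) (nat_lit 4) (nat_lit 4) (nat_lit 5) (nat_lit 5) (nat_lit 5) (nat_lit 4) (nat_lit 341) (nat_lit 276) (nat_lit 163)) (XT.nd (nat_lit 78) (nat_lit 76) (nat_lit 0) (XT.lf (nat_lit 0) (nat_lit 15652097316) (nat_lit 152) (nat_lit 49130819338) (nat_lit 76) (nat_lit 591220526779) (nat_lit 3) (nat_lit 5) (nat_lit 5) (nat_lit 5) (nat_lit 4) (nat_lit 4) (nat_lit 342) (nat_lit 276) (nat_lit 162)) (XT.lf (nat_lit 0) (nat_lit 27195498477) (nat_lit 76) (nat_lit 25689403271) (nat_lit 152) (nat_lit 653474804478) (nat_lit 2) (nat_lit 5) (nat_lit 3) (nat_lit 5) (nat_lit 4) (nat_lit 4) (nat_lit 343) (nat_lit 276) (nat_lit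 161))))) (XT.nd (nat_lit 35412) (nat_lit 0) (nat_lit 6688) (XT.nd (nat_lit 78) (nat_lit 0) (nat_lit 0) (XT.lf (nat_lit 0) (nat_lit 94223326849) (nat_lit 152) (nat_lit 649593288201) (nat_lit 0) (nat_lit 16871505520) (nat_lit 2) (nat_lit 5) (nat_lit 4) (nat_lit 4) (nat_lit 2) (nat_lit 4) (nat_lit 344) (nat_lit 276) (nat_lit 160)) (XT.nd (nat_lit 78) (nat_lit 0) (nat_lit 0) (XT.lf (nat_lit 0) (nat_lit 139301102442) (nat_lit 152) (nat_lit 618091571394) (nat_lit 0) (nat_lit 61948520719) (nat_lit 2) (nat_lit 5) (nat_lit 4) (nat_lit 4) (nat_lit 2) (nat_lit 4) (nat_lit 345) (nat_lit 276) (nat_lit 159)) (XT.lf (nat_lit 0) (nat_lit 187984272507) (nat_lit 152) (nat_lit 584071296909) (nat_lit 0) (nat_lit 110630986716) (nat_lit 2) (nat_lit 5) (nat_lit 4) (nat_lit 4) (nat_lit 2) (nat_lit 4) (nat_lit 346) (nat_lit 276) (nat_lit 158)))) (XT.nd (nat_lit 78) (nat_lit 0) (nat_lit 0) (XT.lf (nat_lit 0) (nat_lit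 2236947696) (nat_lit 0) (nat_lit 2236947696) (nat_lit 684) (nat_lit 3184868959) (nat_lit 90) (nat_lit 5) (nat_lit 90) (nat_lit 3) (nat_lit 99) (nat_lit 3) (nat_lit 277) (nat_lit 277) (nat_lit 226)) (XT.nd (nat_lit 78) (nat_lit 0) (nat_lit 76) (XT.lf (nat_lit 76) (nat_lit 176821257) (nat_lit 0) (nat_lit 9652635906) (nat_lit 760) (nat_lit 6073737155) (nat_lit 91) (nat_lit 5) (nat_lit 90) (nat_lit 5) (nat_lit 100) (nat_lit 5) (nat_lit 278) (nat_lit 277) (nat_lit 225)) (XT.lf (nat_lit 0) (nat_lit 11023925680) (nat_lit 684) (nat_lit 4182111713) (nat_lit 760) (nat_lit 1317647165) (nat_lit 91) (nat_lit 5) (nat_lit 100) (nat_lit 5) (nat_lit 101) (nat_lit 5) (nat_lit 279) (nat_lit 277) (nat_lit 224))))))))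
noncomputable def xc80 : XT := (XT.nd (nat_lit 1560) (nat_lit 1900) (nat_lit 0) (XT.nd (nat_lit 780) (nat_lit 2128) (nat_lit 0) (XT.nd (nat_lit 390) (nat_lit 1444) (nat_lit 0) (XT.nd (nat_lit 156) (nat_lit 608) (nat_lit 0) (XT.nd (nat_lit 78) (nat_lit 0) (nat_lit 76) (XT.lf (nat_lit 76) (nat_lit 8365892368) (nat_lit 0) (nat_lit 4202716556) (nat_lit 760) (nat_lit 4612550768) (nat_lit 92) (nat_lit 5) (nat_lit 91) (nat_lit 5) (nat_lit 101) (nat_lit 5) (nat_lit 280) (nat_lit 277) (nat_lit 223)) (XT.lf (nat_lit 76) (nat_lit 4165910093) (nat_lit 0) (nat_lit 10293936165) (nat_lit 760) (nat_lit 3420310329) (nat_lit 93) (nat_lit 5) (nat_lit 92) (nat_lit 5) (nat_lit 102) (nat_lit 5) (nat_lit 281) (nat_lit 277) (nat_lit 222))) (XT.nd (nat_lit 78) (nat_lit 760) (nat_lit 0) (XT.lf (nat_lit 0) (nat_lit 16718625419) (nat_lit 684) (nat_lit 249885022) (nat_lit 760) (nat_lit 1655817983) (nat_lit 93) (nat_lit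 5) (nat_lit 102) (nat_lit 5) (nat_lit 103) (nat_lit 5) (nat_lit 282) (nat_lit 277) (nat_lit 221)) (XT.nd (nat_lit 78) (nat_lit 0) (nat_lit 76) (XT.lf (nat_lit 0) (nat_lit 114489850) (nat_lit 760) (nat_lit 4852015931) (nat_lit 836) (nat_lit 14443009440) (nat_lit 83) (nat_lit 5) (nat_lit 93) (nat_lit 5) (nat_lit 94) (nat_lit 5) (nat_lit 283) (nat_lit 277) (nat_lit 220)) (XT.lf (nat_lit 0) (nat_lit 2498593011) (nat_lit 760) (nat_lit 9794147464) (nat_lit 76) (nat_lit 7949816343) (nat_lit 84) (nat_lit 5) (nat_lit 94) (nat_lit 5) (nat_lit 85) (nat_lit 5) (nat_lit 284) (nat_lit 277) (nat_lit 219))))) (XT.nd (nat_lit 156) (nat_lit 608) (nat_lit 0) (XT.nd (nat_lit 78) (nat_lit 380) (nat_lit 0) (XT.lf (nat_lit 0) (nat_lit 5322612971) (nat_lit 608) (nat_lit 15049680635) (nat_lit 76) (nat_lit 757539614) (nat_lit 77) (nat_lit 5) (nat_lit 85) (nat_lit 5) (nat_lit 78) (nat_lit 5) (nat_lit 285) (nat_lit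 277) (nat_lit 218)) (XT.lf (nat_lit 0) (nat_lit 1300822089) (nat_lit 380) (nat_lit 7446637650) (nat_lit 456) (nat_lit 13321933871) (nat_lit 72) (nat_lit 5) (nat_lit 77) (nat_lit 5) (nat_lit 78) (nat_lit 5) (nat_lit 286) (nat_lit 277) (nat_lit 217))) (XT.nd (nat_lit 78) (nat_lit 608) (nat_lit 0) (XT.lf (nat_lit 0) (nat_lit 12789907151) (nat_lit 456) (nat_lit 3705705137) (nat_lit 76) (nat_lit 6571369542) (nat_lit 72) (nat_lit 5) (nat_lit 78) (nat_lit 5) (nat_lit 73) (nat_lit 5) (nat_lit 287) (nat_lit 277) (nat_lit 216)) (XT.nd (nat_lit 78) (nat_lit 304) (nat_lit 0) (XT.lf (nat_lit 0) (nat_lit 15054871513) (nat_lit 304) (nat_lit 2438780614) (nat_lit 380) (nat_lit 6633870304) (nat_lit 68) (nat_lit 5) (nat_lit 72) (nat_lit 5) (nat_lit 73) (nat_lit 5) (nat_lit 288) (nat_lit 277) (nat_lit 215)) (XT.lf (nat_lit 0) (nat_lit 10284438529) (nat_lit 304) (nat_lit 12692984124) (nat_lit 380) (nat_lit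 2275334746) (nat_lit 64) (nat_lit 5) (nat_lit 68) (nat_lit 5) (nat_lit 69) (nat_lit 5) (nat_lit 289) (nat_lit 277) (nat_lit 214)))))) (XT.nd (nat_lit 390) (nat_lit 988) (nat_lit 0) (XT.nd (nat_lit 156) (nat_lit 760) (nat_lit 0) (XT.nd (nat_lit 78) (nat_lit 0) (nat_lit 0) (XT.lf (nat_lit 0) (nat_lit 2654082960) (nat_lit 380) (nat_lit 21379516671) (nat_lit 76) (nat_lit 2417544365) (nat_lit 59) (nat_lit 5) (nat_lit 64) (nat_lit 5) (nat_lit 60) (nat_lit 5) (nat_lit 290) (nat_lit 277) (nat_lit 213)) (XT.lf (nat_lit 0) (nat_lit 8358836398) (nat_lit 380) (nat_lit 763036774) (nat_lit 76) (nat_lit 18598658923) (nat_lit 59) (nat_lit 5) (nat_lit 64) (nat_lit 5) (nat_lit 60) (nat_lit 5) (nat_lit 291) (nat_lit 277) (nat_lit 212))) (XT.nd (nat_lit 78) (nat_lit 456) (nat_lit 0) (XT.lf (nat_lit 0) (nat_lit 14963116744) (nat_lit 380) (nat_lit 6998254786) (nat_lit 76) (nat_lit 7107970671) (nat_lit 55) (nat_lit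 5) (nat_lit 60) (nat_lit 5) (nat_lit 56) (nat_lit 5) (nat_lit 292) (nat_lit 277) (nat_lit 211)) (XT.nd (nat_lit 78) (nat_lit 228) (nat_lit 0) (XT.lf (nat_lit 0) (nat_lit 16589285706) (nat_lit 228) (nat_lit 5915762779) (nat_lit 304) (nat_lit 8000569374) (nat_lit 52) (nat_lit 5) (nat_lit 55) (nat_lit 5) (nat_lit 56) (nat_lit 5) (nat_lit 293) (nat_lit 277) (nat_lit 210)) (XT.lf (nat_lit 0) (nat_lit 10394250890) (nat_lit 228) (nat_lit 20704321290) (nat_lit 304) (nat_lit 935835772) (nat_lit 49) (nat_lit 5) (nat_lit 52) (nat_lit 5) (nat_lit 53) (nat_lit 5) (nat_lit 294) (nat_lit 277) (nat_lit 209))))) (XT.nd (nat_lit 156) (nat_lit 684) (nat_lit 0) (XT.nd (nat_lit 78) (nat_lit 0) (nat_lit 0) (XT.lf (nat_lit 0) (nat_lit 3351395083) (nat_lit 228) (nat_lit 3511352135) (nat_lit 304) (nat_lit 26798403609) (nat_lit 45) (nat_lit 5) (nat_lit 48) (nat_lit 5) (nat_lit 49) (nat_lit 5) (nat_lit 295) (nat_lit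 277) (nat_lit 208)) (XT.lf (nat_lit 0) (nat_lit 15856305225) (nat_lit 304) (nat_lit 4561838623) (nat_lit 76) (nat_lit 14968948235) (nat_lit 45) (nat_lit 5) (nat_lit 49) (nat_lit 5) (nat_lit 46) (nat_lit 5) (nat_lit 296) (nat_lit 277) (nat_lit 207))) (XT.nd (nat_lit 78) (nat_lit 456) (nat_lit 0) (XT.lf (nat_lit 0) (nat_lit 23933612987) (nat_lit 228) (nat_lit 2054925639) (nat_lit 304) (nat_lit 11241628811) (nat_lit 42) (nat_lit 5) (nat_lit 45) (nat_lit 5) (nat_lit 46) (nat_lit 5) (nat_lit 297) (nat_lit 277) (nat_lit 206)) (XT.nd (nat_lit 78) (nat_lit 304) (nat_lit 0) (XT.lf (nat_lit 0) (nat_lit 15864939932) (nat_lit 152) (nat_lit 21659385620) (nat_lit 228) (nat_lit 1666731503) (nat_lit 40) (nat_lit 5) (nat_lit 42) (nat_lit 5) (nat_lit 43) (nat_lit 5) (nat_lit 298) (nat_lit 277) (nat_lit 205)) (XT.lf (nat_lit 0) (nat_lit 6554360280) (nat_lit 228) (nat_lit 2201990216) (nat_lit 304) (nat_lit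 32527719916) (nat_lit 36) (nat_lit 5) (nat_lit 39) (nat_lit 5) (nat_lit 40) (nat_lit 5) (nat_lit 299) (nat_lit 277) (nat_lit 204))))))) (XT.nd (nat_lit 780) (nat_lit 836) (nat_lit 0) (XT.nd (nat_lit 390) (nat_lit 532) (nat_lit 0) (XT.nd (nat_lit 156) (nat_lit 380) (nat_lit 0) (XT.nd (nat_lit 78) (nat_lit 152) (nat_lit 0) (XT.lf (nat_lit 0) (nat_lit 20650350293) (nat_lit 304) (nat_lit 4212632793) (nat_lit 76) (nat_lit 18645416171) (nat_lit 36) (nat_lit 5) (nat_lit 40) (nat_lit 5) (nat_lit 37) (nat_lit 5) (nat_lit 300) (nat_lit 277) (nat_lit 203)) (XT.lf (nat_lit 0) (nat_lit 29640515505) (nat_lit 152) (nat_lit 4344135046) (nat_lit 228) (nat_lit 11901597670) (nat_lit 34) (nat_lit 5) (nat_lit 36) (nat_lit 5) (nat_lit 37) (nat_lit 5) (nat_lit 301) (nat_lit 277) (nat_lit 202))) (XT.nd (nat_lit 78) (nat_lit 152) (nat_lit 0) (XT.lf (nat_lit 0) (nat_lit 569892272) (nat_lit 228) (nat_lit 30244339386)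 (nat_lit 76) (nat_lit 17608342041) (nat_lit 31) (nat_lit 5) (nat_lit 34) (nat_lit 5) (nat_lit 32) (nat_lit 5) (nat_lit 302) (nat_lit 277) (nat_lit 201)) (XT.nd (nat_lit 78) (nat_lit 0) (nat_lit 0) (XT.lf (nat_lit 0) (nat_lit 4642409476) (nat_lit 152) (nat_lit 9408381747) (nat_lit 228) (nat_lit 37079835875) (nat_lit 29) (nat_lit 5) (nat_lit 31) (nat_lit 5) (nat_lit 32) (nat_lit 5) (nat_lit 303) (nat_lit 277) (nat_lit 200)) (XT.lf (nat_lit 0) (nat_lit 29349844313) (nat_lit 228) (nat_lit 10867457596) (nat_lit 76) (nat_lit 13801048453) (nat_lit 29) (nat_lit 5) (nat_lit 32) (nat_lit 5) (nat_lit 30) (nat_lit 5) (nat_lit 304) (nat_lit 277) (nat_lit 199))))) (XT.nd (nat_lit 156) (nat_lit 228) (nat_lit 0) (XT.nd (nat_lit 78) (nat_lit 152) (nat_lit 0) (XT.lf (nat_lit 0) (nat_lit 28336543639) (nat_lit 152) (nat_lit 18128220545) (nat_lit 228) (nat_lit 10642739162) (nat_lit 27) (nat_lit 5) (nat_lit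 29) (nat_lit 5) (nat_lit 30) (nat_lit 5) (nat_lit 305) (nat_lit 277) (nat_lit 198)) (XT.lf (nat_lit 0) (nat_lit 4810980699) (nat_lit 152) (nat_lit 49627651021) (nat_lit 76) (nat_lit 5979143789) (nat_lit 25) (nat_lit 5) (nat_lit 27) (nat_lit 5) (nat_lit 26) (nat_lit 5) (nat_lit 306) (nat_lit 277) (nat_lit 197))) (XT.nd (nat_lit 78) (nat_lit 228) (nat_lit 0) (XT.lf (nat_lit 0) (nat_lit 21939721537) (nat_lit 152) (nat_lit 9931760019) (nat_lit 76) (nat_lit 32072092012) (nat_lit 25) (nat_lit 5) (nat_lit 27) (nat_lit 5) (nat_lit 26) (nat_lit 5) (nat_lit 307) (nat_lit 277) (nat_lit 196)) (XT.nd (nat_lit 78) (nat_lit 76) (nat_lit 0) (XT.lf (nat_lit 0) (nat_lit 34015454228) (nat_lit 152) (nat_lit 6946556054) (nat_lit 228) (nat_lit 26763269550) (nat_lit 23) (nat_lit 5) (nat_lit 25) (nat_lit 5) (nat_lit 26) (nat_lit 5) (nat_lit 308) (nat_lit 277) (nat_lit 195)) (XT.lf (nat_lit 0) (nat_lit 10025669191)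 (nat_lit 76) (nat_lit 52117085485) (nat_lit 152) (nat_lit 9634940586) (nat_lit 22) (nat_lit 5) (nat_lit 23) (nat_lit 5) (nat_lit 24) (nat_lit 4) (nat_lit 309) (nat_lit 277) (nat_lit 194)))))) (XT.nd (nat_lit 390) (nat_lit 304) (nat_lit 0) (XT.nd (nat_lit 156) (nat_lit 304) (nat_lit 0) (XT.nd (nat_lit 78) (nat_lit 152) (nat_lit 0) (XT.lf (nat_lit 0) (nat_lit 9286645163) (nat_lit 152) (nat_lit 17938795399) (nat_lit 76) (nat_lit 48886615446) (nat_lit 21) (nat_lit 5) (nat_lit 23) (nat_lit 5) (nat_lit 22) (nat_lit 5) (nat_lit 310) (nat_lit 277) (nat_lit 193)) (XT.lf (nat_lit 0) (nat_lit 29858189501) (nat_lit 228) (nat_lit 50595652873) (nat_lit 76) (nat_lit 307741229) (nat_lit 19) (nat_lit 5) (nat_lit 22) (nat_lit 5) (nat_lit 20) (nat_lit 4) (nat_lit 311) (nat_lit 277) (nat_lit 192))) (XT.nd (nat_lit 78) (nat_lit 304) (nat_lit 0) (XT.lf (nat_lit 0) (nat_lit 52845647797) (nat_lit 228) (nat_lit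 3483323463) (nat_lit 76) (nat_lit 29415597379) (nat_lit 19) (nat_lit 5) (nat_lit 22) (nat_lit 5) (nat_lit 20) (nat_lit 4) (nat_lit 312) (nat_lit 277) (nat_lit 191)) (XT.nd (nat_lit 78) (nat_lit 228) (nat_lit 0) (XT.lf (nat_lit 0) (nat_lit 48954370856) (nat_lit 76) (nat_lit 29476042055) (nat_lit 152) (nat_lit 12657868464) (nat_lit 18) (nat_lit 5) (nat_lit 19) (nat_lit 5) (nat_lit 20) (nat_lit 4) (nat_lit 313) (nat_lit 277) (nat_lit 190)) (XT.lf (nat_lit 0) (nat_lit 8987798188) (nat_lit 152) (nat_lit 116316196) (nat_lit 228) (nat_lit 87738387676) (nat_lit 15) (nat_lit 5) (nat_lit 17) (nat_lit 5) (nat_lit 18) (nat_lit 5) (nat_lit 314) (nat_lit 277) (nat_lit 189))))) (XT.nd (nat_lit 234) (nat_lit 228) (nat_lit 0) (XT.nd (nat_lit 78) (nat_lit 76) (nat_lit 0) (XT.lf (nat_lit 0) (nat_lit 33403132812) (nat_lit 228) (nat_lit 38045219431) (nat_lit 76) (nat_lit 31536359100) (nat_lit 15) (nat_lit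 5) (nat_lit 18) (nat_lit 5) (nat_lit 16) (nat_lit 4) (nat_lit 315) (nat_lit 277) (nat_lit 188)) (XT.nd (nat_lit 78) (nat_lit 0) (nat_lit 0) (XT.lf (nat_lit 0) (nat_lit 16258186150) (nat_lit 76) (nat_lit 43638496900) (nat_lit 152) (nat_lit 49709087129) (nat_lit 14) (nat_lit 5) (nat_lit 15) (nat_lit 5) (nat_lit 16) (nat_lit 4) (nat_lit 316) (nat_lit 277) (nat_lit 187)) (XT.lf (nat_lit 0) (nat_lit 76255608440) (nat_lit 76) (nat_lit 12911891450) (nat_lit 152) (nat_lit 27556127788) (nat_lit 14) (nat_lit 5) (nat_lit 15) (nat_lit 5) (nat_lit 16) (nat_lit 4) (nat_lit 317) (nat_lit 277) (nat_lit 186)))) (XT.nd (nat_lit 78) (nat_lit 152) (nat_lit 0) (XT.lf (nat_lit 0) (nat_lit 16856550945) (nat_lit 76) (nat_lit 104498494044) (nat_lit 76) (nat_lit 3027118495) (nat_lit 13) (nat_lit 4) (nat_lit 14) (nat_lit 5) (nat_lit 14) (nat_lit 4) (nat_lit 318) (nat_lit 277) (nat_lit 185)) (XT.nd (nat_lit 78) (nat_lit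 76) (nat_lit 0) (XT.lf (nat_lit 0) (nat_lit 23642923606) (nat_lit 152) (nat_lit 53009711953) (nat_lit 76) (nat_lit 55935946338) (nat_lit 12) (nat_lit 5) (nat_lit 14) (nat_lit 5) (nat_lit 13) (nat_lit 4) (nat_lit 319) (nat_lit 277) (nat_lit 184)) (XT.lf (nat_lit 0) (nat_lit 6000942567) (nat_lit 76) (nat_lit 46430525158) (nat_lit 152) (nat_lit 89013019438) (nat_lit 11) (nat_lit 5) (nat_lit 12) (nat_lit 5) (nat_lit 13) (nat_lit 4) (nat_lit 320) (nat_lit 277) (nat_lit 183))))))))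
noncomputable def xc81 : XT := (XT.nd (nat_lit 1638) (nat_lit 152) (nat_lit 0) (XT.nd (nat_lit 780) (nat_lit 228) (nat_lit 0) (XT.nd (nat_lit 390) (nat_lit 152) (nat_lit 0) (XT.nd (nat_lit 156) (nat_lit 152) (nat_lit 0) (XT.nd (nat_lit 78) (nat_lit 0) (nat_lit 0) (XT.lf (nat_lit 0) (nat_lit 71618193971) (nat_lit 76) (nat_lit 12824336284) (nat_lit 152) (nat_lit 66520365009) (nat_lit 11) (nat_lit 5) (nat_lit 12) (nat_lit 5) (nat_lit 13) (nat_lit 4) (nat_lit 321) (nat_lit 277) (nat_lit 182)) (XT.lf (nat_lit 0) (nat_lit 119377201873) (nat_lit 152) (nat_lit 19131207442) (nat_lit 0) (nat_lit 22716232491) (nat_lit 11) (nat_lit 5) (nat_lit 13) (nat_lit 4) (nat_lit 11) (nat_lit 4) (nat_lit 322) (nat_lit 277) (nat_lit 181))) (XT.nd (nat_lit 78) (nat_lit 76) (nat_lit 0) (XT.lf (nat_lit 0) (nat_lit 47187091909) (nat_lit 76) (nat_lit 110869081072) (nat_lit 76) (nat_lit 14203680652) (nat_lit 10) (nat_lit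 4) (nat_lit 11) (nat_lit 5) (nat_lit 11) (nat_lit 4) (nat_lit 323) (nat_lit 277) (nat_lit 180)) (XT.nd (nat_lit 78) (nat_lit 0) (nat_lit 0) (XT.lf (nat_lit 0) (nat_lit 15486013851) (nat_lit 152) (nat_lit 64923174838) (nat_lit 76) (nat_lit 103739707960) (nat_lit 9) (nat_lit 5) (nat_lit 11) (nat_lit 5) (nat_lit 10) (nat_lit 4) (nat_lit 324) (nat_lit 277) (nat_lit 179)) (XT.lf (nat_lit 0) (nat_lit 47056822157) (nat_lit 152) (nat_lit 206816711) (nat_lit 76) (nat_lit 149713605086) (nat_lit 9) (nat_lit 5) (nat_lit 11) (nat_lit 5) (nat_lit 10) (nat_lit 4) (nat_lit 325) (nat_lit 277) (nat_lit 178))))) (XT.nd (nat_lit 156) (nat_lit 76) (nat_lit 0) (XT.nd (nat_lit 78) (nat_lit 0) (nat_lit 0) (XT.lf (nat_lit 0) (nat_lit 71985563864) (nat_lit 76) (nat_lit 10288769550) (nat_lit 152) (nat_lit 128501475114) (nat_lit 8) (nat_lit 5) (nat_lit 9) (nat_lit 5) (nat_lit 10) (nat_lit 4) (nat_lit 326) (nat_lit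 277) (nat_lit 177)) (XT.lf (nat_lit 0) (nat_lit 120772973189) (nat_lit 152) (nat_lit 76185390216) (nat_lit 0) (nat_lit 28696709777) (nat_lit 8) (nat_lit 5) (nat_lit 10) (nat_lit 4) (nat_lit 8) (nat_lit 4) (nat_lit 327) (nat_lit 277) (nat_lit 176))) (XT.nd (nat_lit 78) (nat_lit 76) (nat_lit 0) (XT.lf (nat_lit 0) (nat_lit 162522434772) (nat_lit 152) (nat_lit 8750399629) (nat_lit 0) (nat_lit 70443299275) (nat_lit 8) (nat_lit 5) (nat_lit 10) (nat_lit 4) (nat_lit 8) (nat_lit 4) (nat_lit 328) (nat_lit 277) (nat_lit 175)) (XT.nd (nat_lit 78) (nat_lit 0) (nat_lit 0) (XT.lf (nat_lit 0) (nat_lit 66193586537) (nat_lit 76) (nat_lit 142449366710) (nat_lit 76) (nat_lit 50367571874) (nat_lit 7) (nat_lit 4) (nat_lit 8) (nat_lit 5) (nat_lit 8) (nat_lit 4) (nat_lit 329) (nat_lit 277) (nat_lit 174)) (XT.lf (nat_lit 0) (nat_lit 147441345454) (nat_lit 76) (nat_lit 111161936113) (nat_lit 76) (nat_lit 19077678925)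 (nat_lit 7) (nat_lit 4) (nat_lit 8) (nat_lit 5) (nat_lit 8) (nat_lit 4) (nat_lit 330) (nat_lit 277) (nat_lit 173)))))) (XT.nd (nat_lit 390) (nat_lit 76) (nat_lit 0) (XT.nd (nat_lit 156) (nat_lit 0) (nat_lit 0) (XT.nd (nat_lit 78) (nat_lit 76) (nat_lit 0) (XT.lf (nat_lit 0) (nat_lit 14242294694) (nat_lit 152) (nat_lit 62889833017) (nat_lit 76) (nat_lit 220701522747) (nat_lit 6) (nat_lit 5) (nat_lit 8) (nat_lit 5) (nat_lit 7) (nat_lit 4) (nat_lit 331) (nat_lit 277) (nat_lit 172)) (XT.lf (nat_lit 0) (nat_lit 9837422019) (nat_lit 76) (nat_lit 39882612239) (nat_lit 152) (nat_lit 269854856911) (nat_lit 5) (nat_lit 5) (nat_lit 6) (nat_lit 5) (nat_lit 7) (nat_lit 4) (nat_lit 332) (nat_lit 277) (nat_lit 171))) (XT.nd (nat_lit 78) (nat_lit 0) (nat_lit 0) (XT.lf (nat_lit 0) (nat_lit 89152964524) (nat_lit 152) (nat_lit 252398990388) (nat_lit 0) (nat_lit 1447628425) (nat_lit 5) (nat_lit 5) (nat_lit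 7) (nat_lit 4) (nat_lit 5) (nat_lit 4) (nat_lit 333) (nat_lit 277) (nat_lit 170)) (XT.nd (nat_lit 78) (nat_lit 0) (nat_lit 0) (XT.lf (nat_lit 0) (nat_lit 132411260567) (nat_lit 152) (nat_lit 191149253711) (nat_lit 0) (nat_lit 44704200752) (nat_lit 5) (nat_lit 5) (nat_lit 7) (nat_lit 4) (nat_lit 5) (nat_lit 4) (nat_lit 334) (nat_lit 277) (nat_lit 169)) (XT.lf (nat_lit 0) (nat_lit 179128588496) (nat_lit 152) (nat_lit 125002618371) (nat_lit 0) (nat_lit 91419932648) (nat_lit 5) (nat_lit 5) (nat_lit 7) (nat_lit 4) (nat_lit 5) (nat_lit 4) (nat_lit 335) (nat_lit 277) (nat_lit 168))))) (XT.nd (nat_lit 234) (nat_lit 0) (nat_lit 0) (XT.nd (nat_lit 78) (nat_lit 76) (nat_lit 0) (XT.lf (nat_lit 0) (nat_lit 229581791737) (nat_lit 152) (nat_lit 53567104305) (nat_lit 0) (nat_lit 141871658081) (nat_lit 5) (nat_lit 5) (nat_lit 7) (nat_lit 4) (nat_lit 5) (nat_lit 4) (nat_lit 336) (nat_lit 277) (nat_lit 167))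 (XT.nd (nat_lit 78) (nat_lit 0) (nat_lit 0) (XT.lf (nat_lit 0) (nat_lit 24360291512) (nat_lit 76) (nat_lit 260089893142) (nat_lit 76) (nat_lit 172378391144) (nat_lit 4) (nat_lit 4) (nat_lit 5) (nat_lit 5) (nat_lit 5) (nat_lit 4) (nat_lit 337) (nat_lit 277) (nat_lit 166)) (XT.lf (nat_lit 0) (nat_lit 110432216943) (nat_lit 76) (nat_lit 234207601647) (nat_lit 76) (nat_lit 146494832667) (nat_lit 4) (nat_lit 4) (nat_lit 5) (nat_lit 5) (nat_lit 5) (nat_lit 4) (nat_lit 338) (nat_lit 277) (nat_lit 165)))) (XT.nd (nat_lit 78) (nat_lit 0) (nat_lit 0) (XT.lf (nat_lit 0) (nat_lit 203387557457) (nat_lit 76) (nat_lit 206255829848) (nat_lit 76) (nat_lit 118541887736) (nat_lit 4) (nat_lit 4) (nat_lit 5) (nat_lit 5) (nat_lit 5) (nat_lit 4) (nat_lit 339) (nat_lit 277) (nat_lit 164)) (XT.nd (nat_lit 78) (nat_lit 0) (nat_lit 0) (XT.lf (nat_lit 0) (nat_lit 303777159517) (nat_lit 76) (nat_lit 176068937614)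 (nat_lit 76) (nat_lit 88353909268) (nat_lit 4) (nat_lit 4) (nat_lit 5) (nat_lit 5) (nat_lit 5) (nat_lit 4) (nat_lit 340) (nat_lit 277) (nat_lit 163)) (XT.lf (nat_lit 0) (nat_lit 412195924468) (nat_lit 76) (nat_lit 143468039658) (nat_lit 76) (nat_lit 55752005541) (nat_lit 4) (nat_lit 4) (nat_lit 5) (nat_lit 5) (nat_lit 5) (nat_lit 4) (nat_lit 341) (nat_lit 277) (nat_lit 162))))))) (XT.nd (nat_lit 36036) (nat_lit 0) (nat_lit 4028) (XT.nd (nat_lit 35646) (nat_lit 0) (nat_lit 6688) (XT.nd (nat_lit 156) (nat_lit 76) (nat_lit 0) (XT.nd (nat_lit 78) (nat_lit 76) (nat_lit 0) (XT.lf (nat_lit 0) (nat_lit 529286333879) (nat_lit 76) (nat_lit 108259945474) (nat_lit 76) (nat_lit 20542980088) (nat_lit 4) (nat_lit 4) (nat_lit 5) (nat_lit 5) (nat_lit 5) (nat_lit 4) (nat_lit 342) (nat_lit 277) (nat_lit 161)) (XT.lf (nat_lit 0) (nat_lit 16922285970) (nat_lit 152) (nat_lit 53027141433) (nat_lit 76) (nat_lit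 638533383773) (nat_lit 3) (nat_lit 5) (nat_lit 5) (nat_lit 5) (nat_lit 4) (nat_lit 4) (nat_lit 343) (nat_lit 277) (nat_lit 160))) (XT.nd (nat_lit 78) (nat_lit 0) (nat_lit 0) (XT.lf (nat_lit 0) (nat_lit 29403797975) (nat_lit 76) (nat_lit 27729091811) (nat_lit 152) (nat_lit 705734726951) (nat_lit 2) (nat_lit 5) (nat_lit 3) (nat_lit 5) (nat_lit 4) (nat_lit 4) (nat_lit 344) (nat_lit 277) (nat_lit 159)) (XT.nd (nat_lit 78) (nat_lit 0) (nat_lit 0) (XT.lf (nat_lit 0) (nat_lit 101777338673) (nat_lit 152) (nat_lit 701529932576) (nat_lit 0) (nat_lit 18235085949) (nat_lit 2) (nat_lit 5) (nat_lit 4) (nat_lit 4) (nat_lit 2) (nat_lit 4) (nat_lit 345) (nat_lit 277) (nat_lit 158)) (XT.lf (nat_lit 0) (nat_lit 150460140337) (nat_lit 152) (nat_lit 667510361289) (nat_lit 0) (nat_lit 66917235698) (nat_lit 2) (nat_lit 5) (nat_lit 4) (nat_lit 4) (nat_lit 2) (nat_lit 4) (nat_lit 346) (nat_lit 277) (nat_lit 157)))))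 (XT.nd (nat_lit 156) (nat_lit 0) (nat_lit 76) (XT.nd (nat_lit 78) (nat_lit 0) (nat_lit 0) (XT.lf (nat_lit 0) (nat_lit 2620961893) (nat_lit 0) (nat_lit 2620961893) (nat_lit 684) (nat_lit 3008208467) (nat_lit 90) (nat_lit 5) (nat_lit 90) (nat_lit 3) (nat_lit 99) (nat_lit 3) (nat_lit 278) (nat_lit 278) (nat_lit 224)) (XT.lf (nat_lit 76) (nat_lit 630197607) (nat_lit 0) (nat_lit 10746020463) (nat_lit 760) (nat_lit 5759679336) (nat_lit 91) (nat_lit 5) (nat_lit 90) (nat_lit 5) (nat_lit 100) (nat_lit 5) (nat_lit 279) (nat_lit 278) (nat_lit 223))) (XT.nd (nat_lit 78) (nat_lit 0) (nat_lit 0) (XT.lf (nat_lit 0) (nat_lit 12605274839) (nat_lit 684) (nat_lit 4068719977) (nat_lit 760) (nat_lit 1135194011) (nat_lit 91) (nat_lit 5) (nat_lit 100) (nat_lit 5) (nat_lit 101) (nat_lit 5) (nat_lit 280) (nat_lit 278) (nat_lit 222)) (XT.nd (nat_lit 78) (nat_lit 0) (nat_lit 76) (XT.lf (nat_lit 76) (nat_lit 9463656606)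 (nat_lit 0) (nat_lit 4764756104) (nat_lit 760) (nat_lit 4293210356) (nat_lit 92) (nat_lit 5) (nat_lit 91) (nat_lit 5) (nat_lit 101) (nat_lit 5) (nat_lit 281) (nat_lit 278) (nat_lit 221)) (XT.lf (nat_lit 76) (nat_lit 4944976991) (nat_lit 0) (nat_lit 11281199797) (nat_lit 760) (nat_lit 3052698843) (nat_lit 93) (nat_lit 5) (nat_lit 92) (nat_lit 5) (nat_lit 102) (nat_lit 5) (nat_lit 282) (nat_lit 278) (nat_lit 220)))))) (XT.nd (nat_lit 390) (nat_lit 1292) (nat_lit 0) (XT.nd (nat_lit 156) (nat_lit 836) (nat_lit 0) (XT.nd (nat_lit 78) (nat_lit 760) (nat_lit 0) (XT.lf (nat_lit 76) (nat_lit 180382877) (nat_lit 0) (nat_lit 18440573165) (nat_lit 760) (nat_lit 1463950384) (nat_lit 94) (nat_lit 5) (nat_lit 93) (nat_lit 5) (nat_lit 103) (nat_lit 5) (nat_lit 283) (nat_lit 278) (nat_lit 219)) (XT.lf (nat_lit 0) (nat_lit 660329280) (nat_lit 760) (nat_lit 4796270441) (nat_lit 836) (nat_lit 15477849547)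 (nat_lit 83) (nat_lit 5) (nat_lit 93) (nat_lit 5) (nat_lit 94) (nat_lit 5) (nat_lit 284) (nat_lit 278) (nat_lit 218))) (XT.nd (nat_lit 78) (nat_lit 912) (nat_lit 0) (XT.lf (nat_lit 0) (nat_lit 3200803551) (nat_lit 760) (nat_lit 10125734292) (nat_lit 76) (nat_lit 8509387774) (nat_lit 84) (nat_lit 5) (nat_lit 94) (nat_lit 5) (nat_lit 85) (nat_lit 5) (nat_lit 285) (nat_lit 278) (nat_lit 217)) (XT.nd (nat_lit 78) (nat_lit 380) (nat_lit 0) (XT.lf (nat_lit 0) (nat_lit 6219667833) (nat_lit 608) (nat_lit 15796288814) (nat_lit 76) (nat_lit 779849467) (nat_lit 77) (nat_lit 5) (nat_lit 85) (nat_lit 5) (nat_lit 78) (nat_lit 5) (nat_lit 286) (nat_lit 278) (nat_lit 216)) (XT.lf (nat_lit 0) (nat_lit 1842377547) (nat_lit 380) (nat_lit 8048048137) (nat_lit 456) (nat_lit 13921572555) (nat_lit 72) (nat_lit 5) (nat_lit 77) (nat_lit 5) (nat_lit 78) (nat_lit 5) (nat_lit 287) (nat_lit 278) (nat_lit 215)))))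 (XT.nd (nat_lit 234) (nat_lit 684) (nat_lit 0) (XT.nd (nat_lit 78) (nat_lit 608) (nat_lit 0) (XT.lf (nat_lit 0) (nat_lit 14223359440) (nat_lit 456) (nat_lit 3575749305) (nat_lit 76) (nat_lit 7091988646) (nat_lit 72) (nat_lit 5) (nat_lit 78) (nat_lit 5) (nat_lit 73) (nat_lit 5) (nat_lit 288) (nat_lit 278) (nat_lit 214)) (XT.nd (nat_lit 78) (nat_lit 304) (nat_lit 0) (XT.lf (nat_lit 0) (nat_lit 16667142121) (nat_lit 304) (nat_lit 2612240447) (nat_lit 380) (nat_lit 6758353816) (nat_lit 68) (nat_lit 5) (nat_lit 72) (nat_lit 5) (nat_lit 73) (nat_lit 5) (nat_lit 289) (nat_lit 278) (nat_lit 213)) (XT.lf (nat_lit 0) (nat_lit 11516144468) (nat_lit 304) (nat_lit 13663797767) (nat_lit 380) (nat_lit 2074193608) (nat_lit 64) (nat_lit 5) (nat_lit 68) (nat_lit 5) (nat_lit 69) (nat_lit 5) (nat_lit 290) (nat_lit 278) (nat_lit 212)))) (XT.nd (nat_lit 78) (nat_lit 304) (nat_lit 0) (XT.lf (nat_lit 0) (nat_lit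 3216977998) (nat_lit 380) (nat_lit 22669199529) (nat_lit 76) (nat_lit 2662977664) (nat_lit 59) (nat_lit 5) (nat_lit 64) (nat_lit 5) (nat_lit 60) (nat_lit 5) (nat_lit 291) (nat_lit 278) (nat_lit 211)) (XT.nd (nat_lit 78) (nat_lit 304) (nat_lit 0) (XT.lf (nat_lit 0) (nat_lit 9352143682) (nat_lit 380) (nat_lit 434562610) (nat_lit 76) (nat_lit 20134727331) (nat_lit 59) (nat_lit 5) (nat_lit 64) (nat_lit 5) (nat_lit 60) (nat_lit 5) (nat_lit 292) (nat_lit 278) (nat_lit 210)) (XT.lf (nat_lit 0) (nat_lit 16467572963) (nat_lit 380) (nat_lit 7170767999) (nat_lit 76) (nat_lit 7740705102) (nat_lit 55) (nat_lit 5) (nat_lit 60) (nat_lit 5) (nat_lit 56) (nat_lit 5) (nat_lit 293) (nat_lit 278) (nat_lit 209))))))))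
noncomputable def xc82 : XT := (XT.nd (nat_lit 1560) (nat_lit 1064) (nat_lit 0) (XT.nd (nat_lit 780) (nat_lit 912) (nat_lit 0) (XT.nd (nat_lit 390) (nat_lit 836) (nat_lit 0) (XT.nd (nat_lit 156) (nat_lit 532) (nat_lit 0) (XT.nd (nat_lit 78) (nat_lit 228) (nat_lit 0) (XT.lf (nat_lit 0) (nat_lit 18286942097) (nat_lit 228) (nat_lit 6308931022) (nat_lit 304) (nat_lit 8335235013) (nat_lit 52) (nat_lit 5) (nat_lit 55) (nat_lit 5) (nat_lit 56) (nat_lit 5) (nat_lit 294) (nat_lit 278) (nat_lit 208)) (XT.lf (nat_lit 0) (nat_lit 11593315350) (nat_lit 228) (nat_lit 22268946642) (nat_lit 304) (nat_lit 720702730) (nat_lit 49) (nat_lit 5) (nat_lit 52) (nat_lit 5) (nat_lit 53) (nat_lit 5) (nat_lit 295) (nat_lit 278) (nat_lit 207))) (XT.nd (nat_lit 78) (nat_lit 228) (nat_lit 0) (XT.lf (nat_lit 0) (nat_lit 3980306906) (nat_lit 228) (nat_lit 3697017356) (nat_lit 304) (nat_lit 28663083040) (nat_lit 45) (nat_lit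 5) (nat_lit 48) (nat_lit 5) (nat_lit 49) (nat_lit 5) (nat_lit 296) (nat_lit 278) (nat_lit 206)) (XT.nd (nat_lit 78) (nat_lit 228) (nat_lit 0) (XT.lf (nat_lit 0) (nat_lit 17372072860) (nat_lit 304) (nat_lit 4581462751) (nat_lit 76) (nat_lit 16251829447) (nat_lit 45) (nat_lit 5) (nat_lit 49) (nat_lit 5) (nat_lit 46) (nat_lit 5) (nat_lit 297) (nat_lit 278) (nat_lit 205)) (XT.lf (nat_lit 0) (nat_lit 26178617673) (nat_lit 228) (nat_lit 2123108619) (nat_lit 304) (nat_lit 11894842615) (nat_lit 42) (nat_lit 5) (nat_lit 45) (nat_lit 5) (nat_lit 46) (nat_lit 5) (nat_lit 298) (nat_lit 278) (nat_lit 204))))) (XT.nd (nat_lit 156) (nat_lit 380) (nat_lit 0) (XT.nd (nat_lit 78) (nat_lit 304) (nat_lit 0) (XT.lf (nat_lit 0) (nat_lit 17460148715) (nat_lit 152) (nat_lit 23289367219) (nat_lit 228) (nat_lit 1565379490) (nat_lit 40) (nat_lit 5) (nat_lit 42) (nat_lit 5) (nat_lit 43) (nat_lit 5) (nat_lit 299)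 (nat_lit 278) (nat_lit 203)) (XT.lf (nat_lit 0) (nat_lit 7397998357) (nat_lit 228) (nat_lit 2274196076) (nat_lit 304) (nat_lit 34903584395) (nat_lit 36) (nat_lit 5) (nat_lit 39) (nat_lit 5) (nat_lit 40) (nat_lit 5) (nat_lit 300) (nat_lit 278) (nat_lit 202))) (XT.nd (nat_lit 78) (nat_lit 380) (nat_lit 0) (XT.lf (nat_lit 0) (nat_lit 22503266188) (nat_lit 304) (nat_lit 4245306872) (nat_lit 76) (nat_lit 20230221872) (nat_lit 36) (nat_lit 5) (nat_lit 40) (nat_lit 5) (nat_lit 37) (nat_lit 5) (nat_lit 301) (nat_lit 278) (nat_lit 201)) (XT.nd (nat_lit 78) (nat_lit 228) (nat_lit 0) (XT.lf (nat_lit 0) (nat_lit 32302867194) (nat_lit 152) (nat_lit 4591107739) (nat_lit 228) (nat_lit 12653430833) (nat_lit 34) (nat_lit 5) (nat_lit 36) (nat_lit 5) (nat_lit 37) (nat_lit 5) (nat_lit 302) (nat_lit 278) (nat_lit 200)) (XT.lf (nat_lit 0) (nat_lit 801026226) (nat_lit 228) (nat_lit 32371286033) (nat_lit 76)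 (nat_lit 19114600883) (nat_lit 31) (nat_lit 5) (nat_lit 34) (nat_lit 5) (nat_lit 32) (nat_lit 5) (nat_lit 303) (nat_lit 278) (nat_lit 199)))))) (XT.nd (nat_lit 390) (nat_lit 456) (nat_lit 0) (XT.nd (nat_lit 156) (nat_lit 304) (nat_lit 0) (XT.nd (nat_lit 78) (nat_lit 0) (nat_lit 0) (XT.lf (nat_lit 0) (nat_lit 5293686678) (nat_lit 152) (nat_lit 10057336302) (nat_lit 228) (nat_lit 39861070563) (nat_lit 29) (nat_lit 5) (nat_lit 31) (nat_lit 5) (nat_lit 32) (nat_lit 5) (nat_lit 304) (nat_lit 278) (nat_lit 198)) (XT.lf (nat_lit 0) (nat_lit 31862450150) (nat_lit 228) (nat_lit 11470883028) (nat_lit 76) (nat_lit 14998091983) (nat_lit 29) (nat_lit 5) (nat_lit 32) (nat_lit 5) (nat_lit 30) (nat_lit 5) (nat_lit 305) (nat_lit 278) (nat_lit 197))) (XT.nd (nat_lit 78) (nat_lit 152) (nat_lit 0) (XT.lf (nat_lit 0) (nat_lit 30857879524) (nat_lit 152) (nat_lit 19480462230) (nat_lit 228) (nat_lit 11329791746)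 (nat_lit 27) (nat_lit 5) (nat_lit 29) (nat_lit 5) (nat_lit 30) (nat_lit 5) (nat_lit 306) (nat_lit 278) (nat_lit 196)) (XT.nd (nat_lit 78) (nat_lit 0) (nat_lit 0) (XT.lf (nat_lit 0) (nat_lit 5348579016) (nat_lit 152) (nat_lit 53343165075) (nat_lit 76) (nat_lit 6551684931) (nat_lit 25) (nat_lit 5) (nat_lit 27) (nat_lit 5) (nat_lit 26) (nat_lit 5) (nat_lit 307) (nat_lit 278) (nat_lit 195)) (XT.lf (nat_lit 0) (nat_lit 23836306539) (nat_lit 152) (nat_lit 10490469314) (nat_lit 76) (nat_lit 34725090520) (nat_lit 25) (nat_lit 5) (nat_lit 27) (nat_lit 5) (nat_lit 26) (nat_lit 5) (nat_lit 308) (nat_lit 278) (nat_lit 194))))) (XT.nd (nat_lit 156) (nat_lit 228) (nat_lit 0) (XT.nd (nat_lit 78) (nat_lit 76) (nat_lit 0) (XT.lf (nat_lit 0) (nat_lit 36962273123) (nat_lit 152) (nat_lit 7411152623) (nat_lit 228) (nat_lit 28763040115) (nat_lit 23) (nat_lit 5) (nat_lit 25) (nat_lit 5) (nat_lit 26) (nat_lit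 5) (nat_lit 309) (nat_lit 278) (nat_lit 193)) (XT.lf (nat_lit 0) (nat_lit 11048680068) (nat_lit 76) (nat_lit 56194757156) (nat_lit 152) (nat_lit 10269905341) (nat_lit 22) (nat_lit 5) (nat_lit 23) (nat_lit 5) (nat_lit 24) (nat_lit 4) (nat_lit 310) (nat_lit 278) (nat_lit 192))) (XT.nd (nat_lit 78) (nat_lit 152) (nat_lit 0) (XT.lf (nat_lit 0) (nat_lit 10151320358) (nat_lit 152) (nat_lit 19165190730) (nat_lit 76) (nat_lit 52878329444) (nat_lit 21) (nat_lit 5) (nat_lit 23) (nat_lit 5) (nat_lit 22) (nat_lit 5) (nat_lit 311) (nat_lit 278) (nat_lit 191)) (XT.nd (nat_lit 78) (nat_lit 0) (nat_lit 0) (XT.lf (nat_lit 0) (nat_lit 32363995394) (nat_lit 228) (nat_lit 54439097268) (nat_lit 76) (nat_lit 413474188) (nat_lit 19) (nat_lit 5) (nat_lit 22) (nat_lit 5) (nat_lit 20) (nat_lit 4) (nat_lit 312) (nat_lit 278) (nat_lit 190)) (XT.lf (nat_lit 0) (nat_lit 57181772522) (nat_lit 228) (nat_lit 3572908012)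 (nat_lit 76) (nat_lit 31843950410) (nat_lit 19) (nat_lit 5) (nat_lit 22) (nat_lit 5) (nat_lit 20) (nat_lit 4) (nat_lit 313) (nat_lit 278) (nat_lit 189))))))) (XT.nd (nat_lit 780) (nat_lit 456) (nat_lit 0) (XT.nd (nat_lit 390) (nat_lit 228) (nat_lit 0) (XT.nd (nat_lit 156) (nat_lit 76) (nat_lit 0) (XT.nd (nat_lit 78) (nat_lit 228) (nat_lit 0) (XT.lf (nat_lit 0) (nat_lit 53051584609) (nat_lit 76) (nat_lit 31756523002) (nat_lit 152) (nat_lit 13561999541) (nat_lit 18) (nat_lit 5) (nat_lit 19) (nat_lit 5) (nat_lit 20) (nat_lit 4) (nat_lit 314) (nat_lit 278) (nat_lit 188)) (XT.lf (nat_lit 0) (nat_lit 9883214799) (nat_lit 152) (nat_lit 49228807) (nat_lit 228) (nat_lit 94652393669) (nat_lit 15) (nat_lit 5) (nat_lit 17) (nat_lit 5) (nat_lit 18) (nat_lit 5) (nat_lit 315) (nat_lit 278) (nat_lit 187))) (XT.nd (nat_lit 78) (nat_lit 76) (nat_lit 0) (XT.lf (nat_lit 0) (nat_lit 36169080451) (nat_lit 228)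 (nat_lit 40921924946) (nat_lit 76) (nat_lit 34127737866) (nat_lit 15) (nat_lit 5) (nat_lit 18) (nat_lit 5) (nat_lit 16) (nat_lit 4) (nat_lit 316) (nat_lit 278) (nat_lit 186)) (XT.nd (nat_lit 78) (nat_lit 0) (nat_lit 0) (XT.lf (nat_lit 0) (nat_lit 17718499288) (nat_lit 76) (nat_lit 47059167614) (nat_lit 152) (nat_lit 53592046750) (nat_lit 14) (nat_lit 5) (nat_lit 15) (nat_lit 5) (nat_lit 16) (nat_lit 4) (nat_lit 317) (nat_lit 278) (nat_lit 185)) (XT.lf (nat_lit 0) (nat_lit 82503888824) (nat_lit 76) (nat_lit 13879649212) (nat_lit 152) (nat_lit 29673796392) (nat_lit 14) (nat_lit 5) (nat_lit 15) (nat_lit 5) (nat_lit 16) (nat_lit 4) (nat_lit 318) (nat_lit 278) (nat_lit 184))))) (XT.nd (nat_lit 156) (nat_lit 76) (nat_lit 0) (XT.nd (nat_lit 78) (nat_lit 76) (nat_lit 0) (XT.lf (nat_lit 0) (nat_lit 18349510181) (nat_lit 76) (nat_lit 112793652713) (nat_lit 76) (nat_lit 3185540216) (nat_lit 13) (nat_lit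 4) (nat_lit 14) (nat_lit 5) (nat_lit 14) (nat_lit 4) (nat_lit 319) (nat_lit 278) (nat_lit 183)) (XT.lf (nat_lit 0) (nat_lit 25609419816) (nat_lit 152) (nat_lit 57114228655) (nat_lit 76) (nat_lit 60468224766) (nat_lit 12) (nat_lit 5) (nat_lit 14) (nat_lit 5) (nat_lit 13) (nat_lit 4) (nat_lit 320) (nat_lit 278) (nat_lit 182))) (XT.nd (nat_lit 78) (nat_lit 0) (nat_lit 0) (XT.lf (nat_lit 0) (nat_lit 6611356523) (nat_lit 76) (nat_lit 50086165720) (nat_lit 152) (nat_lit 96058908060) (nat_lit 11) (nat_lit 5) (nat_lit 12) (nat_lit 5) (nat_lit 13) (nat_lit 4) (nat_lit 321) (nat_lit 278) (nat_lit 181)) (XT.nd (nat_lit 78) (nat_lit 0) (nat_lit 0) (XT.lf (nat_lit 0) (nat_lit 77468333331) (nat_lit 76) (nat_lit 13795837399) (nat_lit 152) (nat_lit 71772408161) (nat_lit 11) (nat_lit 5) (nat_lit 12) (nat_lit 5) (nat_lit 13) (nat_lit 4) (nat_lit 322) (nat_lit 278) (nat_lit 180)) (XT.lf (nat_lit 0) (nat_lit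 128989496639) (nat_lit 152) (nat_lit 20547646828) (nat_lit 0) (nat_lit 24582330334) (nat_lit 11) (nat_lit 5) (nat_lit 13) (nat_lit 4) (nat_lit 11) (nat_lit 4) (nat_lit 323) (nat_lit 278) (nat_lit 179)))))) (XT.nd (nat_lit 390) (nat_lit 228) (nat_lit 0) (XT.nd (nat_lit 156) (nat_lit 76) (nat_lit 0) (XT.nd (nat_lit 78) (nat_lit 76) (nat_lit 0) (XT.lf (nat_lit 0) (nat_lit 51071159684) (nat_lit 76) (nat_lit 119688727737) (nat_lit 76) (nat_lit 15277762530) (nat_lit 10) (nat_lit 4) (nat_lit 11) (nat_lit 5) (nat_lit 11) (nat_lit 4) (nat_lit 324) (nat_lit 278) (nat_lit 178)) (XT.lf (nat_lit 0) (nat_lit 16780655499) (nat_lit 152) (nat_lit 70014138935) (nat_lit 76) (nat_lit 112083198635) (nat_lit 9) (nat_lit 5) (nat_lit 11) (nat_lit 5) (nat_lit 10) (nat_lit 4) (nat_lit 325) (nat_lit 278) (nat_lit 177))) (XT.nd (nat_lit 78) (nat_lit 76) (nat_lit 0) (XT.lf (nat_lit 0) (nat_lit 50872998059) (nat_lit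 152) (nat_lit 128093631) (nat_lit 76) (nat_lit 161731725009) (nat_lit 9) (nat_lit 5) (nat_lit 11) (nat_lit 5) (nat_lit 10) (nat_lit 4) (nat_lit 326) (nat_lit 278) (nat_lit 176)) (XT.nd (nat_lit 78) (nat_lit 0) (nat_lit 0) (XT.lf (nat_lit 0) (nat_lit 77835537141) (nat_lit 76) (nat_lit 11069971388) (nat_lit 152) (nat_lit 138729879866) (nat_lit 8) (nat_lit 5) (nat_lit 9) (nat_lit 5) (nat_lit 10) (nat_lit 4) (nat_lit 327) (nat_lit 278) (nat_lit 175)) (XT.lf (nat_lit 0) (nat_lit 130480998649) (nat_lit 152) (nat_lit 82194148460) (nat_lit 0) (nat_lit 31030000887) (nat_lit 8) (nat_lit 5) (nat_lit 10) (nat_lit 4) (nat_lit 8) (nat_lit 4) (nat_lit 328) (nat_lit 278) (nat_lit 174))))) (XT.nd (nat_lit 234) (nat_lit 152) (nat_lit 0) (XT.nd (nat_lit 78) (nat_lit 76) (nat_lit 0) (XT.lf (nat_lit 0) (nat_lit 175566995855) (nat_lit 152) (nat_lit 9370734402) (nat_lit 0) (nat_lit 76113535742) (nat_lit 8) (nat_lit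 5) (nat_lit 10) (nat_lit 4) (nat_lit 8) (nat_lit 4) (nat_lit 329) (nat_lit 278) (nat_lit 173)) (XT.nd (nat_lit 78) (nat_lit 0) (nat_lit 0) (XT.lf (nat_lit 0) (nat_lit 71565307114) (nat_lit 76) (nat_lit 153809871041) (nat_lit 76) (nat_lit 54354130973) (nat_lit 7) (nat_lit 4) (nat_lit 8) (nat_lit 5) (nat_lit 8) (nat_lit 4) (nat_lit 330) (nat_lit 278) (nat_lit 172)) (XT.lf (nat_lit 0) (nat_lit 159307239807) (nat_lit 76) (nat_lit 120022071551) (nat_lit 76) (nat_lit 20564220415) (nat_lit 7) (nat_lit 4) (nat_lit 8) (nat_lit 5) (nat_lit 8) (nat_lit 4) (nat_lit 331) (nat_lit 278) (nat_lit 171)))) (XT.nd (nat_lit 78) (nat_lit 76) (nat_lit 0) (XT.lf (nat_lit 0) (nat_lit 15417236646) (nat_lit 152) (nat_lit 67854470703) (nat_lit 76) (nat_lit 238386842063) (nat_lit 6) (nat_lit 5) (nat_lit 8) (nat_lit 5) (nat_lit 7) (nat_lit 4) (nat_lit 332) (nat_lit 278) (nat_lit 170)) (XT.nd (nat_lit 78) (nat_lit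 0) (nat_lit 0) (XT.lf (nat_lit 0) (nat_lit 10688072598) (nat_lit 76) (nat_lit 43043482684) (nat_lit 152) (nat_lit 291407617226) (nat_lit 5) (nat_lit 5) (nat_lit 6) (nat_lit 5) (nat_lit 7) (nat_lit 4) (nat_lit 333) (nat_lit 278) (nat_lit 169)) (XT.lf (nat_lit 0) (nat_lit 96317037414) (nat_lit 152) (nat_lit 272530814739) (nat_lit 0) (nat_lit 1590093065) (nat_lit 5) (nat_lit 5) (nat_lit 7) (nat_lit 4) (nat_lit 5) (nat_lit 4) (nat_lit 334) (nat_lit 278) (nat_lit 168))))))))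
noncomputable def xc83 : XT := (XT.nd (nat_lit 37050) (nat_lit 0) (nat_lit 1748) (XT.nd (nat_lit 780) (nat_lit 76) (nat_lit 0) (XT.nd (nat_lit 390) (nat_lit 76) (nat_lit 0) (XT.nd (nat_lit 156) (nat_lit 76) (nat_lit 0) (XT.nd (nat_lit 78) (nat_lit 0) (nat_lit 0) (XT.lf (nat_lit 0) (nat_lit 143033638938) (nat_lit 152) (nat_lit 206385550601) (nat_lit 0) (nat_lit 48305216781) (nat_lit 5) (nat_lit 5) (nat_lit 7) (nat_lit 4) (nat_lit 5) (nat_lit 4) (nat_lit 335) (nat_lit 278) (nat_lit 167)) (XT.lf (nat_lit 0) (nat_lit 193486169581) (nat_lit 152) (nat_lit 134951306167) (nat_lit 0) (nat_lit 98756379083) (nat_lit 5) (nat_lit 5) (nat_lit 7) (nat_lit 4) (nat_lit 5) (nat_lit 4) (nat_lit 336) (nat_lit 278) (nat_lit 166))) (XT.nd (nat_lit 78) (nat_lit 76) (nat_lit 0) (XT.lf (nat_lit 0) (nat_lit 247973607303) (nat_lit 152) (nat_lit 57804767396) (nat_lit 0) (nat_lit 153242549822) (nat_lit 5) (nat_lit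 5) (nat_lit 7) (nat_lit 4) (nat_lit 5) (nat_lit 4) (nat_lit 337) (nat_lit 278) (nat_lit 165)) (XT.nd (nat_lit 78) (nat_lit 0) (nat_lit 0) (XT.lf (nat_lit 0) (nat_lit 26354746874) (nat_lit 76) (nat_lit 280875565206) (nat_lit 76) (nat_lit 186143334593) (nat_lit 4) (nat_lit 4) (nat_lit 5) (nat_lit 5) (nat_lit 5) (nat_lit 4) (nat_lit 338) (nat_lit 278) (nat_lit 164)) (XT.lf (nat_lit 0) (nat_lit 119309046189) (nat_lit 76) (nat_lit 252924284421) (nat_lit 76) (nat_lit 158190967575) (nat_lit 4) (nat_lit 4) (nat_lit 5) (nat_lit 5) (nat_lit 5) (nat_lit 4) (nat_lit 339) (nat_lit 278) (nat_lit 163))))) (XT.nd (nat_lit 156) (nat_lit 76) (nat_lit 0) (XT.nd (nat_lit 78) (nat_lit 0) (nat_lit 0) (XT.lf (nat_lit 0) (nat_lit 219697684174) (nat_lit 76) (nat_lit 222737846830) (nat_lit 76) (nat_lit 128003524212) (nat_lit 4) (nat_lit 4) (nat_lit 5) (nat_lit 5) (nat_lit 5) (nat_lit 4) (nat_lit 340) (nat_lit 278)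 (nat_lit 162)) (XT.lf (nat_lit 0) (nat_lit 328115556464) (nat_lit 76) (nat_lit 190137369840) (nat_lit 76) (nat_lit 95402115952) (nat_lit 4) (nat_lit 4) (nat_lit 5) (nat_lit 5) (nat_lit 5) (nat_lit 4) (nat_lit 341) (nat_lit 278) (nat_lit 161))) (XT.nd (nat_lit 78) (nat_lit 76) (nat_lit 0) (XT.lf (nat_lit 0) (nat_lit 445205139337) (nat_lit 76) (nat_lit 154929665439) (nat_lit 76) (nat_lit 60193549265) (nat_lit 4) (nat_lit 4) (nat_lit 5) (nat_lit 5) (nat_lit 5) (nat_lit 4) (nat_lit 342) (nat_lit 278) (nat_lit 160)) (XT.nd (nat_lit 78) (nat_lit 76) (nat_lit 0) (XT.lf (nat_lit 0) (nat_lit 571660296990) (nat_lit 76) (nat_lit 116906095379) (nat_lit 76) (nat_lit 22169180791) (nat_lit 4) (nat_lit 4) (nat_lit 5) (nat_lit 5) (nat_lit 5) (nat_lit 4) (nat_lit 343) (nat_lit 278) (nat_lit 159)) (XT.lf (nat_lit 0) (nat_lit 18291518839) (nat_lit 152) (nat_lit 57240040240) (nat_lit 76) (nat_lit 689629098757)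 (nat_lit 3) (nat_lit 5) (nat_lit 5) (nat_lit 5) (nat_lit 4) (nat_lit 4) (nat_lit 344) (nat_lit 278) (nat_lit 158)))))) (XT.nd (nat_lit 35802) (nat_lit 0) (nat_lit 5320) (XT.nd (nat_lit 35568) (nat_lit 0) (nat_lit 6688) (XT.nd (nat_lit 35490) (nat_lit 0) (nat_lit 6688) (XT.lf (nat_lit 0) (nat_lit 31784102173) (nat_lit 76) (nat_lit 29934161507) (nat_lit 152) (nat_lit 762178019950) (nat_lit 2) (nat_lit 5) (nat_lit 3) (nat_lit 5) (nat_lit 4) (nat_lit 4) (nat_lit 345) (nat_lit 278) (nat_lit 157)) (XT.lf (nat_lit 0) (nat_lit 3006443354) (nat_lit 0) (nat_lit 3006443354) (nat_lit 684) (nat_lit 2878966303) (nat_lit 90) (nat_lit 5) (nat_lit 90) (nat_lit 3) (nat_lit 99) (nat_lit 3) (nat_lit 279) (nat_lit 279) (nat_lit 222))) (XT.nd (nat_lit 78) (nat_lit 0) (nat_lit 76) (XT.lf (nat_lit 76) (nat_lit 1057182902) (nat_lit 0) (nat_lit 11881056769) (nat_lit 760) (nat_lit 5534619672) (nat_lit 91) (nat_lit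 5) (nat_lit 90) (nat_lit 5) (nat_lit 100) (nat_lit 5) (nat_lit 280) (nat_lit 279) (nat_lit 221)) (XT.nd (nat_lit 78) (nat_lit 0) (nat_lit 0) (XT.lf (nat_lit 0) (nat_lit 14213349694) (nat_lit 684) (nat_lit 4010163500) (nat_lit 760) (nat_lit 979211754) (nat_lit 91) (nat_lit 5) (nat_lit 100) (nat_lit 5) (nat_lit 101) (nat_lit 5) (nat_lit 281) (nat_lit 279) (nat_lit 220)) (XT.lf (nat_lit 76) (nat_lit 10588112687) (nat_lit 0) (nat_lit 5339542751) (nat_lit 760) (nat_lit 4046522746) (nat_lit 92) (nat_lit 5) (nat_lit 91) (nat_lit 5) (nat_lit 101) (nat_lit 5) (nat_lit 282) (nat_lit 279) (nat_lit 219))))) (XT.nd (nat_lit 234) (nat_lit 836) (nat_lit 0) (XT.nd (nat_lit 78) (nat_lit 684) (nat_lit 0) (XT.lf (nat_lit 76) (nat_lit 5722771730) (nat_lit 0) (nat_lit 12324083932) (nat_lit 760) (nat_lit 2747157967) (nat_lit 93) (nat_lit 5) (nat_lit 92) (nat_lit 5) (nat_lit 102) (nat_lit 5) (nat_lit 283) (nat_lit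 279) (nat_lit 218)) (XT.nd (nat_lit 78) (nat_lit 760) (nat_lit 0) (XT.lf (nat_lit 76) (nat_lit 588488075) (nat_lit 0) (nat_lit 20010136071) (nat_lit 760) (nat_lit 1067709642) (nat_lit 94) (nat_lit 5) (nat_lit 93) (nat_lit 5) (nat_lit 103) (nat_lit 5) (nat_lit 284) (nat_lit 279) (nat_lit 217)) (XT.lf (nat_lit 0) (nat_lit 1173272428) (nat_lit 760) (nat_lit 4799393575) (nat_lit 836) (nat_lit 16612681893) (nat_lit 83) (nat_lit 5) (nat_lit 93) (nat_lit 5) (nat_lit 94) (nat_lit 5) (nat_lit 285) (nat_lit 279) (nat_lit 216)))) (XT.nd (nat_lit 78) (nat_lit 912) (nat_lit 0) (XT.lf (nat_lit 0) (nat_lit 3887528930) (nat_lit 760) (nat_lit 10548323068) (nat_lit 76) (nat_lit 9124626213) (nat_lit 84) (nat_lit 5) (nat_lit 94) (nat_lit 5) (nat_lit 85) (nat_lit 5) (nat_lit 286) (nat_lit 279) (nat_lit 215)) (XT.nd (nat_lit 78) (nat_lit 380) (nat_lit 0) (XT.lf (nat_lit 0) (nat_lit 7121258599) (nat_lit 608)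 (nat_lit 16667874059) (nat_lit 76) (nat_lit 809407077) (nat_lit 77) (nat_lit 5) (nat_lit 85) (nat_lit 5) (nat_lit 78) (nat_lit 5) (nat_lit 287) (nat_lit 279) (nat_lit 214)) (XT.lf (nat_lit 0) (nat_lit 2364844647) (nat_lit 380) (nat_lit 8696761223) (nat_lit 456) (nat_lit 14635678996) (nat_lit 72) (nat_lit 5) (nat_lit 77) (nat_lit 5) (nat_lit 78) (nat_lit 5) (nat_lit 288) (nat_lit 279) (nat_lit 213))))))) (XT.nd (nat_lit 780) (nat_lit 1520) (nat_lit 0) (XT.nd (nat_lit 390) (nat_lit 1064) (nat_lit 0) (XT.nd (nat_lit 156) (nat_lit 684) (nat_lit 0) (XT.nd (nat_lit 78) (nat_lit 304) (nat_lit 0) (XT.lf (nat_lit 0) (nat_lit 15712959777) (nat_lit 456) (nat_lit 3496229479) (nat_lit 76) (nat_lit 7654983489) (nat_lit 72) (nat_lit 5) (nat_lit 78) (nat_lit 5) (nat_lit 73) (nat_lit 5) (nat_lit 289) (nat_lit 279) (nat_lit 212)) (XT.lf (nat_lit 0) (nat_lit 18350205610) (nat_lit 304) (nat_lit 2802664628)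 (nat_lit 380) (nat_lit 6950748706) (nat_lit 68) (nat_lit 5) (nat_lit 72) (nat_lit 5) (nat_lit 73) (nat_lit 5) (nat_lit 290) (nat_lit 279) (nat_lit 211))) (XT.nd (nat_lit 78) (nat_lit 380) (nat_lit 0) (XT.lf (nat_lit 0) (nat_lit 12788045471) (nat_lit 304) (nat_lit 14718642769) (nat_lit 380) (nat_lit 1911624367) (nat_lit 64) (nat_lit 5) (nat_lit 68) (nat_lit 5) (nat_lit 69) (nat_lit 5) (nat_lit 291) (nat_lit 279) (nat_lit 210)) (XT.nd (nat_lit 78) (nat_lit 0) (nat_lit 0) (XT.lf (nat_lit 0) (nat_lit 3774892138) (nat_lit 380) (nat_lit 24122071504) (nat_lit 76) (nat_lit 2920623002) (nat_lit 59) (nat_lit 5) (nat_lit 64) (nat_lit 5) (nat_lit 60) (nat_lit 5) (nat_lit 292) (nat_lit 279) (nat_lit 209)) (XT.lf (nat_lit 0) (nat_lit 10378607676) (nat_lit 380) (nat_lit 135379482) (nat_lit 76) (nat_lit 21786808411) (nat_lit 59) (nat_lit 5) (nat_lit 64) (nat_lit 5) (nat_lit 60) (nat_lit 5) (nat_lit 293)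 (nat_lit 279) (nat_lit 208))))) (XT.nd (nat_lit 156) (nat_lit 532) (nat_lit 0) (XT.nd (nat_lit 78) (nat_lit 228) (nat_lit 0) (XT.lf (nat_lit 0) (nat_lit 18048530652) (nat_lit 380) (nat_lit 7412341674) (nat_lit 76) (nat_lit 8414914167) (nat_lit 55) (nat_lit 5) (nat_lit 60) (nat_lit 5) (nat_lit 56) (nat_lit 5) (nat_lit 294) (nat_lit 279) (nat_lit 207)) (XT.lf (nat_lit 0) (nat_lit 20067553100) (nat_lit 228) (nat_lit 6744978854) (nat_lit 304) (nat_lit 8740239762) (nat_lit 52) (nat_lit 5) (nat_lit 55) (nat_lit 5) (nat_lit 56) (nat_lit 5) (nat_lit 295) (nat_lit 279) (nat_lit 206))) (XT.nd (nat_lit 78) (nat_lit 304) (nat_lit 0) (XT.lf (nat_lit 0) (nat_lit 12835873503) (nat_lit 228) (nat_lit 23971826956) (nat_lit 304) (nat_lit 529730772) (nat_lit 49) (nat_lit 5) (nat_lit 52) (nat_lit 5) (nat_lit 53) (nat_lit 5) (nat_lit 296) (nat_lit 279) (nat_lit 205)) (XT.nd (nat_lit 78) (nat_lit 0) (nat_lit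 0) (XT.lf (nat_lit 0) (nat_lit 4608059489) (nat_lit 228) (nat_lit 3911123266) (nat_lit 304) (nat_lit 30716766808) (nat_lit 45) (nat_lit 5) (nat_lit 48) (nat_lit 5) (nat_lit 49) (nat_lit 5) (nat_lit 297) (nat_lit 279) (nat_lit 204)) (XT.lf (nat_lit 0) (nat_lit 18973827044) (nat_lit 304) (nat_lit 4651920990) (nat_lit 76) (nat_lit 17625162833) (nat_lit 45) (nat_lit 5) (nat_lit 49) (nat_lit 5) (nat_lit 46) (nat_lit 5) (nat_lit 298) (nat_lit 279) (nat_lit 203)))))) (XT.nd (nat_lit 390) (nat_lit 684) (nat_lit 0) (XT.nd (nat_lit 156) (nat_lit 456) (nat_lit 0) (XT.nd (nat_lit 78) (nat_lit 152) (nat_lit 0) (XT.lf (nat_lit 0) (nat_lit 28556099514) (nat_lit 228) (nat_lit 2210471823) (nat_lit 304) (nat_lit 12635424794) (nat_lit 42) (nat_lit 5) (nat_lit 45) (nat_lit 5) (nat_lit 46) (nat_lit 5) (nat_lit 299) (nat_lit 279) (nat_lit 202)) (XT.lf (nat_lit 0) (nat_lit 19136464717) (nat_lit 152) (nat_lit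 25064408530) (nat_lit 228) (nat_lit 1489400545) (nat_lit 40) (nat_lit 5) (nat_lit 42) (nat_lit 5) (nat_lit 43) (nat_lit 5) (nat_lit 300) (nat_lit 279) (nat_lit 201))) (XT.nd (nat_lit 78) (nat_lit 152) (nat_lit 0) (XT.lf (nat_lit 0) (nat_lit 8263577299) (nat_lit 228) (nat_lit 2367008514) (nat_lit 304) (nat_lit 37501809835) (nat_lit 36) (nat_lit 5) (nat_lit 39) (nat_lit 5) (nat_lit 40) (nat_lit 5) (nat_lit 301) (nat_lit 279) (nat_lit 200)) (XT.nd (nat_lit 78) (nat_lit 152) (nat_lit 0) (XT.lf (nat_lit 0) (nat_lit 24475756454) (nat_lit 304) (nat_lit 4324011888) (nat_lit 76) (nat_lit 21928519944) (nat_lit 36) (nat_lit 5) (nat_lit 40) (nat_lit 5) (nat_lit 37) (nat_lit 5) (nat_lit 302) (nat_lit 279) (nat_lit 199)) (XT.lf (nat_lit 0) (nat_lit 35136676859) (nat_lit 152) (nat_lit 4872183987) (nat_lit 228) (nat_lit 13493984920) (nat_lit 34) (nat_lit 5) (nat_lit 36) (nat_lit 5) (nat_lit 37) (nat_lit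 5) (nat_lit 303) (nat_lit 279) (nat_lit 198))))) (XT.nd (nat_lit 234) (nat_lit 304) (nat_lit 0) (XT.nd (nat_lit 78) (nat_lit 152) (nat_lit 0) (XT.lf (nat_lit 0) (nat_lit 1024181174) (nat_lit 228) (nat_lit 34710131144) (nat_lit 76) (nat_lit 20727437916) (nat_lit 31) (nat_lit 5) (nat_lit 34) (nat_lit 5) (nat_lit 32) (nat_lit 5) (nat_lit 304) (nat_lit 279) (nat_lit 197)) (XT.nd (nat_lit 78) (nat_lit 0) (nat_lit 0) (XT.lf (nat_lit 0) (nat_lit 5957137410) (nat_lit 152) (nat_lit 10773003466) (nat_lit 228) (nat_lit 42891218054) (nat_lit 29) (nat_lit 5) (nat_lit 31) (nat_lit 5) (nat_lit 32) (nat_lit 5) (nat_lit 305) (nat_lit 279) (nat_lit 196)) (XT.lf (nat_lit 0) (nat_lit 34552579815) (nat_lit 228) (nat_lit 12160526255) (nat_lit 76) (nat_lit 16277637261) (nat_lit 29) (nat_lit 5) (nat_lit 32) (nat_lit 5) (nat_lit 30) (nat_lit 5) (nat_lit 306) (nat_lit 279) (nat_lit 195)))) (XT.nd (nat_lit 78) (nat_lit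 152) (nat_lit 0) (XT.lf (nat_lit 0) (nat_lit 33544627506) (nat_lit 152) (nat_lit 20954866323) (nat_lit 228) (nat_lit 12095257262) (nat_lit 27) (nat_lit 5) (nat_lit 29) (nat_lit 5) (nat_lit 30) (nat_lit 5) (nat_lit 307) (nat_lit 279) (nat_lit 194)) (XT.nd (nat_lit 78) (nat_lit 0) (nat_lit 0) (XT.lf (nat_lit 0) (nat_lit 5907398003) (nat_lit 152) (nat_lit 57392255776) (nat_lit 76) (nat_lit 7156589307) (nat_lit 25) (nat_lit 5) (nat_lit 27) (nat_lit 5) (nat_lit 26) (nat_lit 5) (nat_lit 308) (nat_lit 279) (nat_lit 193)) (XT.lf (nat_lit 0) (nat_lit 25864445011) (nat_lit 152) (nat_lit 11127519354) (nat_lit 76) (nat_lit 37577884411) (nat_lit 25) (nat_lit 5) (nat_lit 27) (nat_lit 5) (nat_lit 26) (nat_lit 5) (nat_lit 309) (nat_lit 279) (nat_lit 192))))))))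
noncomputable def xc84 : XT := (XT.nd (nat_lit 1560) (nat_lit 380) (nat_lit 0) (XT.nd (nat_lit 780) (nat_lit 456) (nat_lit 0) (XT.nd (nat_lit 390) (nat_lit 380) (nat_lit 0) (XT.nd (nat_lit 156) (nat_lit 228) (nat_lit 0) (XT.nd (nat_lit 78) (nat_lit 76) (nat_lit 0) (XT.lf (nat_lit 0) (nat_lit 40112655656) (nat_lit 152) (nat_lit 7925917334) (nat_lit 228) (nat_lit 30942949065) (nat_lit 23) (nat_lit 5) (nat_lit 25) (nat_lit 5) (nat_lit 26) (nat_lit 5) (nat_lit 310) (nat_lit 279) (nat_lit 191)) (XT.lf (nat_lit 0) (nat_lit 12122009779) (nat_lit 76) (nat_lit 60611723902) (nat_lit 152) (nat_lit 10975045014) (nat_lit 22) (nat_lit 5) (nat_lit 23) (nat_lit 5) (nat_lit 24) (nat_lit 4) (nat_lit 311) (nat_lit 279) (nat_lit 190))) (XT.nd (nat_lit 78) (nat_lit 152) (nat_lit 0) (XT.lf (nat_lit 0) (nat_lit 11067801485) (nat_lit 152) (nat_lit 20519472260) (nat_lit 76) (nat_lit 57177855713) (nat_lit 21) (nat_lit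 5) (nat_lit 23) (nat_lit 5) (nat_lit 22) (nat_lit 5) (nat_lit 312) (nat_lit 279) (nat_lit 189)) (XT.nd (nat_lit 78) (nat_lit 0) (nat_lit 0) (XT.lf (nat_lit 0) (nat_lit 35053552897) (nat_lit 228) (nat_lit 58619149745) (nat_lit 76) (nat_lit 516094012) (nat_lit 19) (nat_lit 5) (nat_lit 22) (nat_lit 5) (nat_lit 20) (nat_lit 4) (nat_lit 313) (nat_lit 279) (nat_lit 188)) (XT.lf (nat_lit 0) (nat_lit 61849312353) (nat_lit 228) (nat_lit 3696633890) (nat_lit 76) (nat_lit 34455857082) (nat_lit 19) (nat_lit 5) (nat_lit 22) (nat_lit 5) (nat_lit 20) (nat_lit 4) (nat_lit 314) (nat_lit 279) (nat_lit 187))))) (XT.nd (nat_lit 156) (nat_lit 76) (nat_lit 0) (XT.nd (nat_lit 78) (nat_lit 228) (nat_lit 0) (XT.lf (nat_lit 0) (nat_lit 57450773178) (nat_lit 76) (nat_lit 34230513277) (nat_lit 152) (nat_lit 14553939615) (nat_lit 18) (nat_lit 5) (nat_lit 19) (nat_lit 5) (nat_lit 20) (nat_lit 4) (nat_lit 315) (nat_lit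 279) (nat_lit 186)) (XT.lf (nat_lit 0) (nat_lit 10812965502) (nat_lit 228) (nat_lit 102122374002) (nat_lit 76) (nat_lit 11932750) (nat_lit 15) (nat_lit 5) (nat_lit 18) (nat_lit 5) (nat_lit 16) (nat_lit 4) (nat_lit 316) (nat_lit 279) (nat_lit 185))) (XT.nd (nat_lit 78) (nat_lit 76) (nat_lit 0) (XT.lf (nat_lit 0) (nat_lit 39142936975) (nat_lit 228) (nat_lit 44052578771) (nat_lit 76) (nat_lit 36916658918) (nat_lit 15) (nat_lit 5) (nat_lit 18) (nat_lit 5) (nat_lit 16) (nat_lit 4) (nat_lit 317) (nat_lit 279) (nat_lit 184)) (XT.nd (nat_lit 78) (nat_lit 0) (nat_lit 0) (XT.lf (nat_lit 0) (nat_lit 19272860443) (nat_lit 76) (nat_lit 50763536622) (nat_lit 152) (nat_lit 57799020102) (nat_lit 14) (nat_lit 5) (nat_lit 15) (nat_lit 5) (nat_lit 16) (nat_lit 4) (nat_lit 318) (nat_lit 279) (nat_lit 183)) (XT.lf (nat_lit 0) (nat_lit 89230941792) (nat_lit 76) (nat_lit 14934128185) (nat_lit 152) (nat_lit 31973264558)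 (nat_lit 14) (nat_lit 5) (nat_lit 15) (nat_lit 5) (nat_lit 16) (nat_lit 4) (nat_lit 319) (nat_lit 279) (nat_lit 182)))))) (XT.nd (nat_lit 390) (nat_lit 228) (nat_lit 0) (XT.nd (nat_lit 156) (nat_lit 76) (nat_lit 0) (XT.nd (nat_lit 78) (nat_lit 76) (nat_lit 0) (XT.lf (nat_lit 0) (nat_lit 19941300865) (nat_lit 76) (nat_lit 121761657229) (nat_lit 76) (nat_lit 3368583229) (nat_lit 13) (nat_lit 4) (nat_lit 14) (nat_lit 5) (nat_lit 14) (nat_lit 4) (nat_lit 320) (nat_lit 279) (nat_lit 181)) (XT.lf (nat_lit 0) (nat_lit 27722527243) (nat_lit 152) (nat_lit 61566545741) (nat_lit 76) (nat_lit 65354896328) (nat_lit 12) (nat_lit 5) (nat_lit 14) (nat_lit 5) (nat_lit 13) (nat_lit 4) (nat_lit 321) (nat_lit 279) (nat_lit 180))) (XT.nd (nat_lit 78) (nat_lit 0) (nat_lit 0) (XT.lf (nat_lit 0) (nat_lit 7252009343) (nat_lit 76) (nat_lit 54042646211) (nat_lit 152) (nat_lit 103679189178) (nat_lit 11) (nat_lit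 5) (nat_lit 12) (nat_lit 5) (nat_lit 13) (nat_lit 4) (nat_lit 322) (nat_lit 279) (nat_lit 179)) (XT.nd (nat_lit 78) (nat_lit 0) (nat_lit 0) (XT.lf (nat_lit 0) (nat_lit 83769266942) (nat_lit 76) (nat_lit 14852825903) (nat_lit 152) (nat_lit 77454541992) (nat_lit 11) (nat_lit 5) (nat_lit 12) (nat_lit 5) (nat_lit 13) (nat_lit 4) (nat_lit 323) (nat_lit 279) (nat_lit 178)) (XT.lf (nat_lit 0) (nat_lit 139361913072) (nat_lit 152) (nat_lit 22093672902) (nat_lit 0) (nat_lit 26590754246) (nat_lit 11) (nat_lit 5) (nat_lit 13) (nat_lit 4) (nat_lit 11) (nat_lit 4) (nat_lit 324) (nat_lit 279) (nat_lit 177))))) (XT.nd (nat_lit 156) (nat_lit 76) (nat_lit 0) (XT.nd (nat_lit 78) (nat_lit 76) (nat_lit 0) (XT.lf (nat_lit 0) (nat_lit 55250388485) (nat_lit 76) (nat_lit 129221062050) (nat_lit 76) (nat_lit 16446646278) (nat_lit 10) (nat_lit 4) (nat_lit 11) (nat_lit 5) (nat_lit 11) (nat_lit 4) (nat_lit 325) (nat_lit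 279) (nat_lit 176)) (XT.lf (nat_lit 0) (nat_lit 18170913614) (nat_lit 152) (nat_lit 75527058552) (nat_lit 76) (nat_lit 121087846670) (nat_lit 9) (nat_lit 5) (nat_lit 11) (nat_lit 5) (nat_lit 10) (nat_lit 4) (nat_lit 326) (nat_lit 279) (nat_lit 175))) (XT.nd (nat_lit 78) (nat_lit 76) (nat_lit 0) (XT.lf (nat_lit 0) (nat_lit 54987102418) (nat_lit 152) (nat_lit 56663809) (nat_lit 76) (nat_lit 174705440921) (nat_lit 9) (nat_lit 5) (nat_lit 11) (nat_lit 5) (nat_lit 10) (nat_lit 4) (nat_lit 327) (nat_lit 279) (nat_lit 174)) (XT.nd (nat_lit 78) (nat_lit 0) (nat_lit 0) (XT.lf (nat_lit 0) (nat_lit 84140507827) (nat_lit 76) (nat_lit 11919646837) (nat_lit 152) (nat_lit 149783934473) (nat_lit 8) (nat_lit 5) (nat_lit 9) (nat_lit 5) (nat_lit 10) (nat_lit 4) (nat_lit 328) (nat_lit 279) (nat_lit 173)) (XT.lf (nat_lit 0) (nat_lit 140959076968) (nat_lit 152) (nat_lit 88695886636) (nat_lit 0) (nat_lit 33544597740)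 (nat_lit 8) (nat_lit 5) (nat_lit 10) (nat_lit 4) (nat_lit 8) (nat_lit 4) (nat_lit 329) (nat_lit 279) (nat_lit 172))))))) (XT.nd (nat_lit 780) (nat_lit 76) (nat_lit 0) (XT.nd (nat_lit 390) (nat_lit 76) (nat_lit 0) (XT.nd (nat_lit 156) (nat_lit 152) (nat_lit 0) (XT.nd (nat_lit 78) (nat_lit 76) (nat_lit 0) (XT.lf (nat_lit 0) (nat_lit 189649020734) (nat_lit 152) (nat_lit 10052065653) (nat_lit 0) (nat_lit 82232430437) (nat_lit 8) (nat_lit 5) (nat_lit 10) (nat_lit 4) (nat_lit 8) (nat_lit 4) (nat_lit 330) (nat_lit 279) (nat_lit 171)) (XT.lf (nat_lit 0) (nat_lit 77355889754) (nat_lit 76) (nat_lit 166084272345) (nat_lit 76) (nat_lit 58665727354) (nat_lit 7) (nat_lit 4) (nat_lit 8) (nat_lit 5) (nat_lit 8) (nat_lit 4) (nat_lit 331) (nat_lit 279) (nat_lit 170))) (XT.nd (nat_lit 78) (nat_lit 152) (nat_lit 0) (XT.lf (nat_lit 0) (nat_lit 172112335725) (nat_lit 76) (nat_lit 129595699887) (nat_lit 76)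 (nat_lit 22175344995) (nat_lit 7) (nat_lit 4) (nat_lit 8) (nat_lit 5) (nat_lit 8) (nat_lit 4) (nat_lit 332) (nat_lit 279) (nat_lit 169)) (XT.nd (nat_lit 78) (nat_lit 76) (nat_lit 0) (XT.lf (nat_lit 0) (nat_lit 16681101155) (nat_lit 152) (nat_lit 73225773357) (nat_lit 76) (nat_lit 257482821575) (nat_lit 6) (nat_lit 5) (nat_lit 8) (nat_lit 5) (nat_lit 7) (nat_lit 4) (nat_lit 333) (nat_lit 279) (nat_lit 168)) (XT.lf (nat_lit 0) (nat_lit 11597693868) (nat_lit 76) (nat_lit 46461465299) (nat_lit 152) (nat_lit 314689681133) (nat_lit 5) (nat_lit 5) (nat_lit 6) (nat_lit 5) (nat_lit 7) (nat_lit 4) (nat_lit 334) (nat_lit 279) (nat_lit 167))))) (XT.nd (nat_lit 156) (nat_lit 76) (nat_lit 0) (XT.nd (nat_lit 78) (nat_lit 0) (nat_lit 0) (XT.lf (nat_lit 0) (nat_lit 104049694412) (nat_lit 152) (nat_lit 294281758245) (nat_lit 0) (nat_lit 1740152333) (nat_lit 5) (nat_lit 5) (nat_lit 7) (nat_lit 4) (nat_lit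 5) (nat_lit 4) (nat_lit 335) (nat_lit 279) (nat_lit 166)) (XT.lf (nat_lit 0) (nat_lit 154501602280) (nat_lit 152) (nat_lit 222848689396) (nat_lit 0) (nat_lit 52190793218) (nat_lit 5) (nat_lit 5) (nat_lit 7) (nat_lit 4) (nat_lit 5) (nat_lit 4) (nat_lit 336) (nat_lit 279) (nat_lit 165))) (XT.nd (nat_lit 78) (nat_lit 76) (nat_lit 0) (XT.lf (nat_lit 0) (nat_lit 208988463358) (nat_lit 152) (nat_lit 145703239130) (nat_lit 0) (nat_lit 106676481164) (nat_lit 5) (nat_lit 5) (nat_lit 7) (nat_lit 4) (nat_lit 5) (nat_lit 4) (nat_lit 337) (nat_lit 279) (nat_lit 164)) (XT.nd (nat_lit 78) (nat_lit 76) (nat_lit 0) (XT.lf (nat_lit 0) (nat_lit 267833162749) (nat_lit 152) (nat_lit 62388249222) (nat_lit 0) (nat_lit 165520094322) (nat_lit 5) (nat_lit 5) (nat_lit 7) (nat_lit 4) (nat_lit 5) (nat_lit 4) (nat_lit 338) (nat_lit 279) (nat_lit 163)) (XT.lf (nat_lit 0) (nat_lit 28502248745) (nat_lit 76) (nat_lit 303327161017)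 (nat_lit 76) (nat_lit 201013086818) (nat_lit 4) (nat_lit 4) (nat_lit 5) (nat_lit 5) (nat_lit 5) (nat_lit 4) (nat_lit 339) (nat_lit 279) (nat_lit 162)))))) (XT.nd (nat_lit 390) (nat_lit 76) (nat_lit 0) (XT.nd (nat_lit 156) (nat_lit 0) (nat_lit 0) (XT.nd (nat_lit 78) (nat_lit 0) (nat_lit 0) (XT.lf (nat_lit 0) (nat_lit 128889994069) (nat_lit 76) (nat_lit 273141144391) (nat_lit 76) (nat_lit 170826138923) (nat_lit 4) (nat_lit 4) (nat_lit 5) (nat_lit 5) (nat_lit 5) (nat_lit 4) (nat_lit 340) (nat_lit 279) (nat_lit 161)) (XT.lf (nat_lit 0) (nat_lit 237307039821) (nat_lit 76) (nat_lit 240541057184) (nat_lit 76) (nat_lit 138225189429) (nat_lit 4) (nat_lit 4) (nat_lit 5) (nat_lit 5) (nat_lit 5) (nat_lit 4) (nat_lit 341) (nat_lit 279) (nat_lit 160))) (XT.nd (nat_lit 78) (nat_lit 0) (nat_lit 0) (XT.lf (nat_lit 0) (nat_lit 354395857381) (nat_lit 76) (nat_lit 205333713694) (nat_lit 76) (nat_lit 103017047525)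 (nat_lit 4) (nat_lit 4) (nat_lit 5) (nat_lit 5) (nat_lit 5) (nat_lit 4) (nat_lit 342) (nat_lit 279) (nat_lit 159)) (XT.nd (nat_lit 78) (nat_lit 0) (nat_lit 0) (XT.lf (nat_lit 0) (nat_lit 480850306411) (nat_lit 76) (nat_lit 167310477810) (nat_lit 76) (nat_lit 64993072369) (nat_lit 4) (nat_lit 4) (nat_lit 5) (nat_lit 5) (nat_lit 5) (nat_lit 4) (nat_lit 343) (nat_lit 279) (nat_lit 158)) (XT.lf (nat_lit 0) (nat_lit 617419746607) (nat_lit 76) (nat_lit 126246026654) (nat_lit 76) (nat_lit 23927936702) (nat_lit 4) (nat_lit 4) (nat_lit 5) (nat_lit 5) (nat_lit 5) (nat_lit 4) (nat_lit 344) (nat_lit 279) (nat_lit 157))))) (XT.nd (nat_lit 35724) (nat_lit 0) (nat_lit 6688) (XT.nd (nat_lit 35568) (nat_lit 0) (nat_lit 6612) (XT.lf (nat_lit 0) (nat_lit 19768086222) (nat_lit 152) (nat_lit 61794147002) (nat_lit 76) (nat_lit 744810610028) (nat_lit 3) (nat_lit 5) (nat_lit 5) (nat_lit 5) (nat_lit 4) (nat_lit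 4) (nat_lit 345) (nat_lit 279) (nat_lit 156)) (XT.nd (nat_lit 78) (nat_lit 0) (nat_lit 0) (XT.lf (nat_lit 0) (nat_lit 3397682854) (nat_lit 0) (nat_lit 3397682854) (nat_lit 684) (nat_lit 2792154971) (nat_lit 90) (nat_lit 5) (nat_lit 90) (nat_lit 3) (nat_lit 99) (nat_lit 3) (nat_lit 280) (nat_lit 280) (nat_lit 220)) (XT.lf (nat_lit 76) (nat_lit 1464605174) (nat_lit 0) (nat_lit 13067613557) (nat_lit 760) (nat_lit 5389397124) (nat_lit 91) (nat_lit 5) (nat_lit 90) (nat_lit 5) (nat_lit 100) (nat_lit 5) (nat_lit 281) (nat_lit 280) (nat_lit 219)))) (XT.nd (nat_lit 78) (nat_lit 0) (nat_lit 0) (XT.lf (nat_lit 0) (nat_lit 15864523352) (nat_lit 684) (nat_lit 4001712113) (nat_lit 760) (nat_lit 845959380) (nat_lit 91) (nat_lit 5) (nat_lit 100) (nat_lit 5) (nat_lit 101) (nat_lit 5) (nat_lit 282) (nat_lit 280) (nat_lit 218)) (XT.nd (nat_lit 78) (nat_lit 0) (nat_lit 76) (XT.lf (nat_lit 76) (nat_lit 11750116737)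 (nat_lit 0) (nat_lit 5932692247) (nat_lit 760) (nat_lit 3864290829) (nat_lit 92) (nat_lit 5) (nat_lit 91) (nat_lit 5) (nat_lit 101) (nat_lit 5) (nat_lit 283) (nat_lit 280) (nat_lit 217)) (XT.lf (nat_lit 76) (nat_lit 6508265433) (nat_lit 0) (nat_lit 13430370858) (nat_lit 760) (nat_lit 2495602772) (nat_lit 93) (nat_lit 5) (nat_lit 92) (nat_lit 5) (nat_lit 102) (nat_lit 5) (nat_lit 284) (nat_lit 280) (nat_lit 216))))))))
noncomputable def xc85 : XT := (XT.nd (nat_lit 1638) (nat_lit 1596) (nat_lit 0) (XT.nd (nat_lit 780) (nat_lit 1824) (nat_lit 0) (XT.nd (nat_lit 390) (nat_lit 1292) (nat_lit 0) (XT.nd (nat_lit 156) (nat_lit 836) (nat_lit 0) (XT.nd (nat_lit 78) (nat_lit 760) (nat_lit 0) (XT.lf (nat_lit 76) (nat_lit 973079611) (nat_lit 0) (nat_lit 21691808628) (nat_lit 760) (nat_lit 713005724) (nat_lit 94) (nat_lit 5) (nat_lit 93) (nat_lit 5) (nat_lit 103) (nat_lit 5) (nat_lit 285) (nat_lit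 280) (nat_lit 215)) (XT.lf (nat_lit 0) (nat_lit 1661610222) (nat_lit 760) (nat_lit 4857060337) (nat_lit 836) (nat_lit 17853051368) (nat_lit 83) (nat_lit 5) (nat_lit 93) (nat_lit 5) (nat_lit 94) (nat_lit 5) (nat_lit 286) (nat_lit 280) (nat_lit 214))) (XT.nd (nat_lit 78) (nat_lit 912) (nat_lit 0) (XT.lf (nat_lit 0) (nat_lit 4567753718) (nat_lit 760) (nat_lit 11059995869) (nat_lit 76) (nat_lit 9798429830) (nat_lit 84) (nat_lit 5) (nat_lit 94) (nat_lit 5) (nat_lit 85) (nat_lit 5) (nat_lit 287) (nat_lit 280) (nat_lit 213)) (XT.nd (nat_lit 78) (nat_lit 380) (nat_lit 0) (XT.lf (nat_lit 0) (nat_lit 8037339036) (nat_lit 608) (nat_lit 17665126120) (nat_lit 76) (nat_lit 846012913) (nat_lit 77) (nat_lit 5) (nat_lit 85) (nat_lit 5) (nat_lit 78) (nat_lit 5) (nat_lit 288) (nat_lit 280) (nat_lit 212)) (XT.lf (nat_lit 0) (nat_lit 2875600202) (nat_lit 380) (nat_lit 9396676704) (nat_lit 456) (nat_lit 15463924122)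 (nat_lit 72) (nat_lit 5) (nat_lit 77) (nat_lit 5) (nat_lit 78) (nat_lit 5) (nat_lit 289) (nat_lit 280) (nat_lit 211))))) (XT.nd (nat_lit 156) (nat_lit 988) (nat_lit 0) (XT.nd (nat_lit 78) (nat_lit 304) (nat_lit 0) (XT.lf (nat_lit 0) (nat_lit 17271549698) (nat_lit 456) (nat_lit 3462502109) (nat_lit 76) (nat_lit 8263640528) (nat_lit 72) (nat_lit 5) (nat_lit 78) (nat_lit 5) (nat_lit 73) (nat_lit 5) (nat_lit 290) (nat_lit 280) (nat_lit 210)) (XT.lf (nat_lit 0) (nat_lit 20118026687) (nat_lit 304) (nat_lit 3010969830) (nat_lit 380) (nat_lit 7208220283) (nat_lit 68) (nat_lit 5) (nat_lit 72) (nat_lit 5) (nat_lit 73) (nat_lit 5) (nat_lit 291) (nat_lit 280) (nat_lit 209))) (XT.nd (nat_lit 78) (nat_lit 684) (nat_lit 0) (XT.lf (nat_lit 0) (nat_lit 14111680197) (nat_lit 304) (nat_lit 15863333420) (nat_lit 380) (nat_lit 1782914459) (nat_lit 64) (nat_lit 5) (nat_lit 68) (nat_lit 5) (nat_lit 69) (nat_lit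 5) (nat_lit 292) (nat_lit 280) (nat_lit 208)) (XT.nd (nat_lit 78) (nat_lit 304) (nat_lit 0) (XT.lf (nat_lit 0) (nat_lit 4334561749) (nat_lit 380) (nat_lit 25742625987) (nat_lit 76) (nat_lit 3192516262) (nat_lit 59) (nat_lit 5) (nat_lit 64) (nat_lit 5) (nat_lit 60) (nat_lit 5) (nat_lit 293) (nat_lit 280) (nat_lit 207)) (XT.lf (nat_lit 0) (nat_lit 144729095) (nat_lit 304) (nat_lit 11305017785) (nat_lit 380) (nat_lit 23422694190) (nat_lit 55) (nat_lit 5) (nat_lit 59) (nat_lit 5) (nat_lit 60) (nat_lit 5) (nat_lit 294) (nat_lit 280) (nat_lit 206)))))) (XT.nd (nat_lit 390) (nat_lit 1064) (nat_lit 0) (XT.nd (nat_lit 156) (nat_lit 532) (nat_lit 0) (XT.nd (nat_lit 78) (nat_lit 228) (nat_lit 0) (XT.lf (nat_lit 0) (nat_lit 19718366337) (nat_lit 380) (nat_lit 7720617274) (nat_lit 76) (nat_lit 9135220345) (nat_lit 55) (nat_lit 5) (nat_lit 60) (nat_lit 5) (nat_lit 56) (nat_lit 5) (nat_lit 295) (nat_lit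 280) (nat_lit 205)) (XT.lf (nat_lit 0) (nat_lit 21945295857) (nat_lit 228) (nat_lit 7225706579) (nat_lit 304) (nat_lit 9214995592) (nat_lit 52) (nat_lit 5) (nat_lit 55) (nat_lit 5) (nat_lit 56) (nat_lit 5) (nat_lit 296) (nat_lit 280) (nat_lit 204))) (XT.nd (nat_lit 78) (nat_lit 304) (nat_lit 0) (XT.lf (nat_lit 0) (nat_lit 14132884780) (nat_lit 228) (nat_lit 25822155916) (nat_lit 304) (nat_lit 358950648) (nat_lit 49) (nat_lit 5) (nat_lit 52) (nat_lit 5) (nat_lit 53) (nat_lit 5) (nat_lit 297) (nat_lit 280) (nat_lit 203)) (XT.nd (nat_lit 78) (nat_lit 0) (nat_lit 0) (XT.lf (nat_lit 0) (nat_lit 5241903178) (nat_lit 228) (nat_lit 4154006715) (nat_lit 304) (nat_lit 32968893067) (nat_lit 45) (nat_lit 5) (nat_lit 48) (nat_lit 5) (nat_lit 49) (nat_lit 5) (nat_lit 298) (nat_lit 280) (nat_lit 202)) (XT.lf (nat_lit 0) (nat_lit 20673479054) (nat_lit 304) (nat_lit 4770251983) (nat_lit 76) (nat_lit 19097921943)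 (nat_lit 45) (nat_lit 5) (nat_lit 49) (nat_lit 5) (nat_lit 46) (nat_lit 5) (nat_lit 299) (nat_lit 280) (nat_lit 201))))) (XT.nd (nat_lit 234) (nat_lit 380) (nat_lit 0) (XT.nd (nat_lit 78) (nat_lit 456) (nat_lit 0) (XT.lf (nat_lit 0) (nat_lit 31083379337) (nat_lit 228) (nat_lit 2316591560) (nat_lit 304) (nat_lit 13465355803) (nat_lit 42) (nat_lit 5) (nat_lit 45) (nat_lit 5) (nat_lit 46) (nat_lit 5) (nat_lit 300) (nat_lit 280) (nat_lit 200)) (XT.nd (nat_lit 78) (nat_lit 304) (nat_lit 0) (XT.lf (nat_lit 0) (nat_lit 20907011614) (nat_lit 152) (nat_lit 26994022745) (nat_lit 228) (nat_lit 1436048041) (nat_lit 40) (nat_lit 5) (nat_lit 42) (nat_lit 5) (nat_lit 43) (nat_lit 5) (nat_lit 301) (nat_lit 280) (nat_lit 199)) (XT.lf (nat_lit 0) (nat_lit 9159350618) (nat_lit 228) (nat_lit 2479960374) (nat_lit 304) (nat_lit 40335578326) (nat_lit 36) (nat_lit 5) (nat_lit 39) (nat_lit 5) (nat_lit 40) (nat_lit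 5) (nat_lit 302) (nat_lit 280) (nat_lit 198)))) (XT.nd (nat_lit 78) (nat_lit 380) (nat_lit 0) (XT.lf (nat_lit 0) (nat_lit 26581475553) (nat_lit 304) (nat_lit 4446236394) (nat_lit 76) (nat_lit 23751286041) (nat_lit 36) (nat_lit 5) (nat_lit 40) (nat_lit 5) (nat_lit 37) (nat_lit 5) (nat_lit 303) (nat_lit 280) (nat_lit 197)) (XT.nd (nat_lit 78) (nat_lit 228) (nat_lit 0) (XT.lf (nat_lit 0) (nat_lit 38161585878) (nat_lit 152) (nat_lit 5188045492) (nat_lit 228) (nat_lit 14426281166) (nat_lit 34) (nat_lit 5) (nat_lit 36) (nat_lit 5) (nat_lit 37) (nat_lit 5) (nat_lit 304) (nat_lit 280) (nat_lit 196)) (XT.lf (nat_lit 0) (nat_lit 1242494997) (nat_lit 228) (nat_lit 37271871530) (nat_lit 76) (nat_lit 22457365599) (nat_lit 31) (nat_lit 5) (nat_lit 34) (nat_lit 5) (nat_lit 32) (nat_lit 5) (nat_lit 305) (nat_lit 280) (nat_lit 195))))))) (XT.nd (nat_lit 780) (nat_lit 684) (nat_lit 0) (XT.nd (nat_lit 390)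 (nat_lit 456) (nat_lit 0) (XT.nd (nat_lit 156) (nat_lit 304) (nat_lit 0) (XT.nd (nat_lit 78) (nat_lit 0) (nat_lit 0) (XT.lf (nat_lit 0) (nat_lit 6639431824) (nat_lit 152) (nat_lit 11558609398) (nat_lit 228) (nat_lit 46186423116) (nat_lit 29) (nat_lit 5) (nat_lit 31) (nat_lit 5) (nat_lit 32) (nat_lit 5) (nat_lit 306) (nat_lit 280) (nat_lit 194)) (XT.lf (nat_lit 0) (nat_lit 37437785559) (nat_lit 228) (nat_lit 12937871601) (nat_lit 76) (nat_lit 17648176362) (nat_lit 29) (nat_lit 5) (nat_lit 32) (nat_lit 5) (nat_lit 30) (nat_lit 5) (nat_lit 307) (nat_lit 280) (nat_lit 193))) (XT.nd (nat_lit 78) (nat_lit 152) (nat_lit 0) (XT.lf (nat_lit 0) (nat_lit 36415198411) (nat_lit 152) (nat_lit 22559210973) (nat_lit 228) (nat_lit 12942063522) (nat_lit 27) (nat_lit 5) (nat_lit 29) (nat_lit 5) (nat_lit 30) (nat_lit 5) (nat_lit 308) (nat_lit 280) (nat_lit 192)) (XT.nd (nat_lit 78) (nat_lit 0) (nat_lit 0)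 (XT.lf (nat_lit 0) (nat_lit 6492243500) (nat_lit 152) (nat_lit 61796425584) (nat_lit 76) (nat_lit 7798363349) (nat_lit 25) (nat_lit 5) (nat_lit 27) (nat_lit 5) (nat_lit 26) (nat_lit 5) (nat_lit 309) (nat_lit 280) (nat_lit 191)) (XT.lf (nat_lit 0) (nat_lit 28037539184) (nat_lit 152) (nat_lit 11844377704) (nat_lit 76) (nat_lit 40648232662) (nat_lit 25) (nat_lit 5) (nat_lit 27) (nat_lit 5) (nat_lit 26) (nat_lit 5) (nat_lit 310) (nat_lit 280) (nat_lit 190))))) (XT.nd (nat_lit 156) (nat_lit 228) (nat_lit 0) (XT.nd (nat_lit 78) (nat_lit 76) (nat_lit 0) (XT.lf (nat_lit 0) (nat_lit 43487478022) (nat_lit 152) (nat_lit 8493008983) (nat_lit 228) (nat_lit 33314531888) (nat_lit 23) (nat_lit 5) (nat_lit 25) (nat_lit 5) (nat_lit 26) (nat_lit 5) (nat_lit 311) (nat_lit 280) (nat_lit 189)) (XT.lf (nat_lit 0) (nat_lit 13254180804) (nat_lit 76) (nat_lit 65393263129) (nat_lit 152) (nat_lit 11753209149) (nat_lit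 22) (nat_lit 5) (nat_lit 23) (nat_lit 5) (nat_lit 24) (nat_lit 4) (nat_lit 312) (nat_lit 280) (nat_lit 188))) (XT.nd (nat_lit 78) (nat_lit 152) (nat_lit 0) (XT.lf (nat_lit 0) (nat_lit 12042710771) (nat_lit 152) (nat_lit 22007623210) (nat_lit 76) (nat_lit 61811463383) (nat_lit 21) (nat_lit 5) (nat_lit 23) (nat_lit 5) (nat_lit 22) (nat_lit 5) (nat_lit 313) (nat_lit 280) (nat_lit 187)) (XT.nd (nat_lit 78) (nat_lit 0) (nat_lit 0) (XT.lf (nat_lit 0) (nat_lit 37943946415) (nat_lit 228) (nat_lit 63158582870) (nat_lit 76) (nat_lit 617002494) (nat_lit 19) (nat_lit 5) (nat_lit 22) (nat_lit 5) (nat_lit 20) (nat_lit 4) (nat_lit 314) (nat_lit 280) (nat_lit 186)) (XT.lf (nat_lit 0) (nat_lit 66876988162) (nat_lit 228) (nat_lit 3853384180) (nat_lit 76) (nat_lit 37267530242) (nat_lit 19) (nat_lit 5) (nat_lit 22) (nat_lit 5) (nat_lit 20) (nat_lit 4) (nat_lit 315) (nat_lit 280) (nat_lit 185)))))) (XT.nd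 (nat_lit 390) (nat_lit 304) (nat_lit 0) (XT.nd (nat_lit 156) (nat_lit 76) (nat_lit 0) (XT.nd (nat_lit 78) (nat_lit 228) (nat_lit 0) (XT.lf (nat_lit 0) (nat_lit 62179775534) (nat_lit 76) (nat_lit 36911914246) (nat_lit 152) (nat_lit 15638505221) (nat_lit 18) (nat_lit 5) (nat_lit 19) (nat_lit 5) (nat_lit 20) (nat_lit 4) (nat_lit 316) (nat_lit 280) (nat_lit 184)) (XT.lf (nat_lit 0) (nat_lit 11752382453) (nat_lit 228) (nat_lit 110159663764) (nat_lit 76) (nat_lit 67241094) (nat_lit 15) (nat_lit 5) (nat_lit 18) (nat_lit 5) (nat_lit 16) (nat_lit 4) (nat_lit 317) (nat_lit 280) (nat_lit 183))) (XT.nd (nat_lit 78) (nat_lit 76) (nat_lit 0) (XT.lf (nat_lit 0) (nat_lit 42343242036) (nat_lit 228) (nat_lit 47454099741) (nat_lit 76) (nat_lit 39920319153) (nat_lit 15) (nat_lit 5) (nat_lit 18) (nat_lit 5) (nat_lit 16) (nat_lit 4) (nat_lit 318) (nat_lit 280) (nat_lit 182)) (XT.nd (nat_lit 78) (nat_lit 0)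 (nat_lit 0) (XT.lf (nat_lit 0) (nat_lit 20932042855) (nat_lit 76) (nat_lit 54772866807) (nat_lit 152) (nat_lit 62354019909) (nat_lit 14) (nat_lit 5) (nat_lit 15) (nat_lit 5) (nat_lit 16) (nat_lit 4) (nat_lit 319) (nat_lit 280) (nat_lit 181)) (XT.lf (nat_lit 0) (nat_lit 96478077855) (nat_lit 76) (nat_lit 16080939231) (nat_lit 152) (nat_lit 34467309240) (nat_lit 14) (nat_lit 5) (nat_lit 15) (nat_lit 5) (nat_lit 16) (nat_lit 4) (nat_lit 320) (nat_lit 280) (nat_lit 180))))) (XT.nd (nat_lit 234) (nat_lit 76) (nat_lit 0) (XT.nd (nat_lit 78) (nat_lit 152) (nat_lit 0) (XT.lf (nat_lit 0) (nat_lit 21642769088) (nat_lit 76) (nat_lit 131455018047) (nat_lit 76) (nat_lit 3576512785) (nat_lit 13) (nat_lit 4) (nat_lit 14) (nat_lit 5) (nat_lit 14) (nat_lit 4) (nat_lit 321) (nat_lit 280) (nat_lit 179)) (XT.nd (nat_lit 78) (nat_lit 76) (nat_lit 0) (XT.lf (nat_lit 0) (nat_lit 29995502470) (nat_lit 152) (nat_lit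 66391714045) (nat_lit 76) (nat_lit 70625480748) (nat_lit 12) (nat_lit 5) (nat_lit 14) (nat_lit 5) (nat_lit 13) (nat_lit 4) (nat_lit 322) (nat_lit 280) (nat_lit 178)) (XT.lf (nat_lit 0) (nat_lit 7927972817) (nat_lit 76) (nat_lit 58322837086) (nat_lit 152) (nat_lit 111918284663) (nat_lit 11) (nat_lit 5) (nat_lit 12) (nat_lit 5) (nat_lit 13) (nat_lit 4) (nat_lit 323) (nat_lit 280) (nat_lit 177)))) (XT.nd (nat_lit 78) (nat_lit 76) (nat_lit 0) (XT.lf (nat_lit 0) (nat_lit 90559514524) (nat_lit 76) (nat_lit 16001032696) (nat_lit 152) (nat_lit 83599757528) (nat_lit 11) (nat_lit 5) (nat_lit 12) (nat_lit 5) (nat_lit 13) (nat_lit 4) (nat_lit 324) (nat_lit 280) (nat_lit 176)) (XT.nd (nat_lit 78) (nat_lit 76) (nat_lit 0) (XT.lf (nat_lit 0) (nat_lit 150556525156) (nat_lit 152) (nat_lit 23777331281) (nat_lit 0) (nat_lit 28753883486) (nat_lit 11) (nat_lit 5) (nat_lit 13) (nat_lit 4) (nat_lit 11) (nat_lit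 4) (nat_lit 325) (nat_lit 280) (nat_lit 175)) (XT.lf (nat_lit 0) (nat_lit 59750611631) (nat_lit 76) (nat_lit 139522083857) (nat_lit 76) (nat_lit 17716649881) (nat_lit 10) (nat_lit 4) (nat_lit 11) (nat_lit 5) (nat_lit 11) (nat_lit 4) (nat_lit 326) (nat_lit 280) (nat_lit 174))))))))
noncomputable def xc86 : XT := (XT.nd (nat_lit 37128) (nat_lit 0) (nat_lit 2736) (XT.nd (nat_lit 780) (nat_lit 76) (nat_lit 0) (XT.nd (nat_lit 390) (nat_lit 228) (nat_lit 0) (XT.nd (nat_lit 156) (nat_lit 0) (nat_lit 0) (XT.nd (nat_lit 78) (nat_lit 76) (nat_lit 0) (XT.lf (nat_lit 0) (nat_lit 19665572364) (nat_lit 152) (nat_lit 81493596096) (nat_lit 76) (nat_lit 130807446544) (nat_lit 9) (nat_lit 5) (nat_lit 11) (nat_lit 5) (nat_lit 10) (nat_lit 4) (nat_lit 327) (nat_lit 280) (nat_lit 173)) (XT.lf (nat_lit 0) (nat_lit 9120116) (nat_lit 76) (nat_lit 59415042572) (nat_lit 152) (nat_lit 188703057858) (nat_lit 8) (nat_lit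 5) (nat_lit 9) (nat_lit 5) (nat_lit 10) (nat_lit 4) (nat_lit 328) (nat_lit 280) (nat_lit 172))) (XT.nd (nat_lit 78) (nat_lit 0) (nat_lit 0) (XT.lf (nat_lit 0) (nat_lit 90938730377) (nat_lit 76) (nat_lit 12842421035) (nat_lit 152) (nat_lit 161728638443) (nat_lit 8) (nat_lit 5) (nat_lit 9) (nat_lit 5) (nat_lit 10) (nat_lit 4) (nat_lit 329) (nat_lit 280) (nat_lit 171)) (XT.nd (nat_lit 78) (nat_lit 0) (nat_lit 0) (XT.lf (nat_lit 0) (nat_lit 152269752394) (nat_lit 152) (nat_lit 95728291362) (nat_lit 0) (nat_lit 36255769111) (nat_lit 8) (nat_lit 5) (nat_lit 10) (nat_lit 4) (nat_lit 8) (nat_lit 4) (nat_lit 330) (nat_lit 280) (nat_lit 170)) (XT.lf (nat_lit 0) (nat_lit 204852376900) (nat_lit 152) (nat_lit 10797651086) (nat_lit 0) (nat_lit 88836583716) (nat_lit 8) (nat_lit 5) (nat_lit 10) (nat_lit 4) (nat_lit 8) (nat_lit 4) (nat_lit 331) (nat_lit 280) (nat_lit 169))))) (XT.nd (nat_lit 156) (nat_lit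 152) (nat_lit 0) (XT.nd (nat_lit 78) (nat_lit 0) (nat_lit 0) (XT.lf (nat_lit 0) (nat_lit 83600394946) (nat_lit 76) (nat_lit 179344960994) (nat_lit 76) (nat_lit 63327491975) (nat_lit 7) (nat_lit 4) (nat_lit 8) (nat_lit 5) (nat_lit 8) (nat_lit 4) (nat_lit 332) (nat_lit 280) (nat_lit 168)) (XT.lf (nat_lit 0) (nat_lit 185933205927) (nat_lit 76) (nat_lit 139939232602) (nat_lit 76) (nat_lit 23920211884) (nat_lit 7) (nat_lit 4) (nat_lit 8) (nat_lit 5) (nat_lit 8) (nat_lit 4) (nat_lit 333) (nat_lit 280) (nat_lit 167))) (XT.nd (nat_lit 78) (nat_lit 76) (nat_lit 0) (XT.lf (nat_lit 0) (nat_lit 18041725715) (nat_lit 152) (nat_lit 79034919758) (nat_lit 76) (nat_lit 278102908332) (nat_lit 6) (nat_lit 5) (nat_lit 8) (nat_lit 5) (nat_lit 7) (nat_lit 4) (nat_lit 334) (nat_lit 280) (nat_lit 166)) (XT.nd (nat_lit 78) (nat_lit 0) (nat_lit 0) (XT.lf (nat_lit 0) (nat_lit 12572299039) (nat_lit 76) (nat_lit 50156523812)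 (nat_lit 152) (nat_lit 339838667805) (nat_lit 5) (nat_lit 5) (nat_lit 6) (nat_lit 5) (nat_lit 7) (nat_lit 4) (nat_lit 335) (nat_lit 280) (nat_lit 165)) (XT.lf (nat_lit 0) (nat_lit 112397070175) (nat_lit 152) (nat_lit 317780127373) (nat_lit 0) (nat_lit 1898956274) (nat_lit 5) (nat_lit 5) (nat_lit 7) (nat_lit 4) (nat_lit 5) (nat_lit 4) (nat_lit 336) (nat_lit 280) (nat_lit 164)))))) (XT.nd (nat_lit 390) (nat_lit 0) (nat_lit 0) (XT.nd (nat_lit 156) (nat_lit 76) (nat_lit 0) (XT.nd (nat_lit 78) (nat_lit 0) (nat_lit 0) (XT.lf (nat_lit 0) (nat_lit 166883397324) (nat_lit 152) (nat_lit 240635684982) (nat_lit 0) (nat_lit 56384197189) (nat_lit 5) (nat_lit 5) (nat_lit 7) (nat_lit 4) (nat_lit 5) (nat_lit 4) (nat_lit 337) (nat_lit 280) (nat_lit 163)) (XT.lf (nat_lit 0) (nat_lit 225727602335) (nat_lit 152) (nat_lit 157321628292) (nat_lit 0) (nat_lit 115227396429) (nat_lit 5) (nat_lit 5) (nat_lit 7) (nat_lit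 4) (nat_lit 5) (nat_lit 4) (nat_lit 338) (nat_lit 280) (nat_lit 162))) (XT.nd (nat_lit 78) (nat_lit 76) (nat_lit 0) (XT.lf (nat_lit 0) (nat_lit 289278391610) (nat_lit 152) (nat_lit 67344244374) (nat_lit 0) (nat_lit 178777254434) (nat_lit 5) (nat_lit 5) (nat_lit 7) (nat_lit 4) (nat_lit 5) (nat_lit 4) (nat_lit 339) (nat_lit 280) (nat_lit 161)) (XT.nd (nat_lit 78) (nat_lit 0) (nat_lit 0) (XT.lf (nat_lit 0) (nat_lit 30815969557) (nat_lit 76) (nat_lit 327577516507) (nat_lit 76) (nat_lit 217075517044) (nat_lit 4) (nat_lit 4) (nat_lit 5) (nat_lit 5) (nat_lit 5) (nat_lit 4) (nat_lit 340) (nat_lit 280) (nat_lit 160)) (XT.lf (nat_lit 0) (nat_lit 139232249995) (nat_lit 76) (nat_lit 294977790210) (nat_lit 76) (nat_lit 184474992333) (nat_lit 4) (nat_lit 4) (nat_lit 5) (nat_lit 5) (nat_lit 5) (nat_lit 4) (nat_lit 341) (nat_lit 280) (nat_lit 159))))) (XT.nd (nat_lit 156) (nat_lit 0) (nat_lit 0) (XT.nd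 (nat_lit 78) (nat_lit 0) (nat_lit 0) (XT.lf (nat_lit 0) (nat_lit 256320358933) (nat_lit 76) (nat_lit 259770780895) (nat_lit 76) (nat_lit 149267243746) (nat_lit 4) (nat_lit 4) (nat_lit 5) (nat_lit 5) (nat_lit 5) (nat_lit 4) (nat_lit 342) (nat_lit 280) (nat_lit 158)) (XT.lf (nat_lit 0) (nat_lit 382774151830) (nat_lit 76) (nat_lit 221747854434) (nat_lit 76) (nat_lit 111243632774) (nat_lit 4) (nat_lit 4) (nat_lit 5) (nat_lit 5) (nat_lit 5) (nat_lit 4) (nat_lit 343) (nat_lit 280) (nat_lit 157))) (XT.nd (nat_lit 78) (nat_lit 0) (nat_lit 0) (XT.lf (nat_lit 0) (nat_lit 519342984496) (nat_lit 76) (nat_lit 180683689780) (nat_lit 76) (nat_lit 70178834313) (nat_lit 4) (nat_lit 4) (nat_lit 5) (nat_lit 5) (nat_lit 5) (nat_lit 4) (nat_lit 344) (nat_lit 280) (nat_lit 156)) (XT.nd (nat_lit 35646) (nat_lit 0) (nat_lit 6536) (XT.lf (nat_lit 0) (nat_lit 666836153717) (nat_lit 76) (nat_lit 136334943736) (nat_lit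 76) (nat_lit 25829501411) (nat_lit 4) (nat_lit 4) (nat_lit 5) (nat_lit 5) (nat_lit 5) (nat_lit 4) (nat_lit 345) (nat_lit 280) (nat_lit 155)) (XT.lf (nat_lit 0) (nat_lit 3798719046) (nat_lit 0) (nat_lit 3798719046) (nat_lit 684) (nat_lit 2743640678) (nat_lit 90) (nat_lit 5) (nat_lit 90) (nat_lit 3) (nat_lit 99) (nat_lit 3) (nat_lit 281) (nat_lit 281) (nat_lit 218))))))) (XT.nd (nat_lit 780) (nat_lit 2432) (nat_lit 0) (XT.nd (nat_lit 390) (nat_lit 1368) (nat_lit 0) (XT.nd (nat_lit 156) (nat_lit 0) (nat_lit 76) (XT.nd (nat_lit 78) (nat_lit 0) (nat_lit 76) (XT.lf (nat_lit 76) (nat_lit 1858563403) (nat_lit 0) (nat_lit 14315416543) (nat_lit 760) (nat_lit 5316440421) (nat_lit 91) (nat_lit 5) (nat_lit 90) (nat_lit 5) (nat_lit 100) (nat_lit 5) (nat_lit 282) (nat_lit 281) (nat_lit 217)) (XT.lf (nat_lit 0) (nat_lit 17574447979) (nat_lit 684) (nat_lit 4039557872) (nat_lit 760) (nat_lit 732232396)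 (nat_lit 91) (nat_lit 5) (nat_lit 100) (nat_lit 5) (nat_lit 101) (nat_lit 5) (nat_lit 283) (nat_lit 281) (nat_lit 216))) (XT.nd (nat_lit 78) (nat_lit 0) (nat_lit 76) (XT.lf (nat_lit 76) (nat_lit 12960149254) (nat_lit 0) (nat_lit 6549613933) (nat_lit 760) (nat_lit 3739660316) (nat_lit 92) (nat_lit 5) (nat_lit 91) (nat_lit 5) (nat_lit 101) (nat_lit 5) (nat_lit 284) (nat_lit 281) (nat_lit 215)) (XT.nd (nat_lit 78) (nat_lit 0) (nat_lit 76) (XT.lf (nat_lit 76) (nat_lit 7309852564) (nat_lit 0) (nat_lit 14607990009) (nat_lit 760) (nat_lit 2291163346) (nat_lit 93) (nat_lit 5) (nat_lit 92) (nat_lit 5) (nat_lit 102) (nat_lit 5) (nat_lit 285) (nat_lit 281) (nat_lit 214)) (XT.lf (nat_lit 76) (nat_lit 1340288540) (nat_lit 0) (nat_lit 23496479168) (nat_lit 760) (nat_lit 392713629) (nat_lit 94) (nat_lit 5) (nat_lit 93) (nat_lit 5) (nat_lit 103) (nat_lit 5) (nat_lit 286) (nat_lit 281) (nat_lit 213)))))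 (XT.nd (nat_lit 156) (nat_lit 836) (nat_lit 0) (XT.nd (nat_lit 78) (nat_lit 0) (nat_lit 76) (XT.lf (nat_lit 0) (nat_lit 2132738627) (nat_lit 760) (nat_lit 4965888604) (nat_lit 836) (nat_lit 19205296612) (nat_lit 83) (nat_lit 5) (nat_lit 93) (nat_lit 5) (nat_lit 94) (nat_lit 5) (nat_lit 287) (nat_lit 281) (nat_lit 212)) (XT.lf (nat_lit 0) (nat_lit 5249722776) (nat_lit 760) (nat_lit 11659993546) (nat_lit 76) (nat_lit 10534150512) (nat_lit 84) (nat_lit 5) (nat_lit 94) (nat_lit 5) (nat_lit 85) (nat_lit 5) (nat_lit 288) (nat_lit 281) (nat_lit 211))) (XT.nd (nat_lit 78) (nat_lit 380) (nat_lit 0) (XT.lf (nat_lit 0) (nat_lit 8977290964) (nat_lit 608) (nat_lit 18790117877) (nat_lit 76) (nat_lit 889562661) (nat_lit 77) (nat_lit 5) (nat_lit 85) (nat_lit 5) (nat_lit 78) (nat_lit 5) (nat_lit 289) (nat_lit 281) (nat_lit 210)) (XT.nd (nat_lit 78) (nat_lit 0) (nat_lit 0) (XT.lf (nat_lit 0) (nat_lit 3381340934)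 (nat_lit 380) (nat_lit 10151989874) (nat_lit 456) (nat_lit 16407305890) (nat_lit 72) (nat_lit 5) (nat_lit 77) (nat_lit 5) (nat_lit 78) (nat_lit 5) (nat_lit 290) (nat_lit 281) (nat_lit 209)) (XT.lf (nat_lit 0) (nat_lit 18911806886) (nat_lit 456) (nat_lit 3470790233) (nat_lit 76) (nat_lit 8921523917) (nat_lit 72) (nat_lit 5) (nat_lit 78) (nat_lit 5) (nat_lit 73) (nat_lit 5) (nat_lit 291) (nat_lit 281) (nat_lit 208)))))) (XT.nd (nat_lit 390) (nat_lit 1140) (nat_lit 0) (XT.nd (nat_lit 156) (nat_lit 684) (nat_lit 0) (XT.nd (nat_lit 78) (nat_lit 304) (nat_lit 0) (XT.lf (nat_lit 0) (nat_lit 21984502968) (nat_lit 304) (nat_lit 3238208897) (nat_lit 380) (nat_lit 7528886549) (nat_lit 68) (nat_lit 5) (nat_lit 72) (nat_lit 5) (nat_lit 73) (nat_lit 5) (nat_lit 292) (nat_lit 281) (nat_lit 207)) (XT.lf (nat_lit 0) (nat_lit 15498323022) (nat_lit 304) (nat_lit 17104278719) (nat_lit 380) (nat_lit 1684086832)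 (nat_lit 64) (nat_lit 5) (nat_lit 68) (nat_lit 5) (nat_lit 69) (nat_lit 5) (nat_lit 293) (nat_lit 281) (nat_lit 206))) (XT.nd (nat_lit 78) (nat_lit 304) (nat_lit 0) (XT.lf (nat_lit 0) (nat_lit 4902244248) (nat_lit 380) (nat_lit 27536937268) (nat_lit 76) (nat_lit 3480705132) (nat_lit 59) (nat_lit 5) (nat_lit 64) (nat_lit 5) (nat_lit 60) (nat_lit 5) (nat_lit 294) (nat_lit 281) (nat_lit 205)) (XT.nd (nat_lit 78) (nat_lit 0) (nat_lit 0) (XT.lf (nat_lit 0) (nat_lit 409885350) (nat_lit 304) (nat_lit 12164353638) (nat_lit 380) (nat_lit 25077249719) (nat_lit 55) (nat_lit 5) (nat_lit 59) (nat_lit 5) (nat_lit 60) (nat_lit 5) (nat_lit 295) (nat_lit 281) (nat_lit 204)) (XT.lf (nat_lit 0) (nat_lit 21489554123) (nat_lit 380) (nat_lit 8094172235) (nat_lit 76) (nat_lit 9906429816) (nat_lit 55) (nat_lit 5) (nat_lit 60) (nat_lit 5) (nat_lit 56) (nat_lit 5) (nat_lit 296) (nat_lit 281) (nat_lit 203))))) (XT.nd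 (nat_lit 234) (nat_lit 380) (nat_lit 0) (XT.nd (nat_lit 78) (nat_lit 532) (nat_lit 0) (XT.lf (nat_lit 0) (nat_lit 23934405901) (nat_lit 228) (nat_lit 7753291068) (nat_lit 304) (nat_lit 9759754095) (nat_lit 52) (nat_lit 5) (nat_lit 55) (nat_lit 5) (nat_lit 56) (nat_lit 5) (nat_lit 297) (nat_lit 281) (nat_lit 202)) (XT.nd (nat_lit 78) (nat_lit 304) (nat_lit 0) (XT.lf (nat_lit 0) (nat_lit 15495118269) (nat_lit 228) (nat_lit 27830129010) (nat_lit 304) (nat_lit 204917568) (nat_lit 49) (nat_lit 5) (nat_lit 52) (nat_lit 5) (nat_lit 53) (nat_lit 5) (nat_lit 298) (nat_lit 281) (nat_lit 201)) (XT.lf (nat_lit 0) (nat_lit 5888620770) (nat_lit 228) (nat_lit 4426308038) (nat_lit 304) (nat_lit 35430465653) (nat_lit 45) (nat_lit 5) (nat_lit 48) (nat_lit 5) (nat_lit 49) (nat_lit 5) (nat_lit 299) (nat_lit 281) (nat_lit 200)))) (XT.nd (nat_lit 78) (nat_lit 380) (nat_lit 0) (XT.lf (nat_lit 0) (nat_lit 22483175148)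 (nat_lit 304) (nat_lit 4934260100) (nat_lit 76) (nat_lit 20679550351) (nat_lit 45) (nat_lit 5) (nat_lit 49) (nat_lit 5) (nat_lit 46) (nat_lit 5) (nat_lit 300) (nat_lit 281) (nat_lit 199)) (XT.nd (nat_lit 78) (nat_lit 152) (nat_lit 0) (XT.lf (nat_lit 0) (nat_lit 33778204572) (nat_lit 228) (nat_lit 2441289590) (nat_lit 304) (nat_lit 14387489123) (nat_lit 42) (nat_lit 5) (nat_lit 45) (nat_lit 5) (nat_lit 46) (nat_lit 5) (nat_lit 301) (nat_lit 281) (nat_lit 198)) (XT.lf (nat_lit 0) (nat_lit 22785016405) (nat_lit 152) (nat_lit 29088782505) (nat_lit 228) (nat_lit 1403037039) (nat_lit 40) (nat_lit 5) (nat_lit 42) (nat_lit 5) (nat_lit 43) (nat_lit 5) (nat_lit 302) (nat_lit 281) (nat_lit 197))))))))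
noncomputable def xc87 : XT := (XT.nd (nat_lit 1638) (nat_lit 608) (nat_lit 0) (XT.nd (nat_lit 780) (nat_lit 836) (nat_lit 0) (XT.nd (nat_lit 390) (nat_lit 456) (nat_lit 0) (XT.nd (nat_lit 156) (nat_lit 532) (nat_lit 0) (XT.nd (nat_lit 78) (nat_lit 0) (nat_lit 0) (XT.lf (nat_lit 0) (nat_lit 10093305058) (nat_lit 228) (nat_lit 2612848955) (nat_lit 304) (nat_lit 43419783735) (nat_lit 36) (nat_lit 5) (nat_lit 39) (nat_lit 5) (nat_lit 40) (nat_lit 5) (nat_lit 303) (nat_lit 281) (nat_lit 196)) (XT.lf (nat_lit 0) (nat_lit 28834587032) (nat_lit 304) (nat_lit 4610151659) (nat_lit 76) (nat_lit 25710103346) (nat_lit 36) (nat_lit 5) (nat_lit 40) (nat_lit 5) (nat_lit 37) (nat_lit 5) (nat_lit 304) (nat_lit 281) (nat_lit 195))) (XT.nd (nat_lit 78) (nat_lit 380) (nat_lit 0) (XT.lf (nat_lit 0) (nat_lit 41397961711) (nat_lit 152) (nat_lit 5539720465) (nat_lit 228) (nat_lit 15454164053) (nat_lit 34) (nat_lit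 5) (nat_lit 36) (nat_lit 5) (nat_lit 37) (nat_lit 5) (nat_lit 305) (nat_lit 281) (nat_lit 194)) (XT.nd (nat_lit 78) (nat_lit 152) (nat_lit 0) (XT.lf (nat_lit 0) (nat_lit 1458817890) (nat_lit 228) (nat_lit 40069233302) (nat_lit 76) (nat_lit 24315454032) (nat_lit 31) (nat_lit 5) (nat_lit 34) (nat_lit 5) (nat_lit 32) (nat_lit 5) (nat_lit 306) (nat_lit 281) (nat_lit 193)) (XT.lf (nat_lit 0) (nat_lit 7346961045) (nat_lit 152) (nat_lit 12417939487) (nat_lit 228) (nat_lit 49764659684) (nat_lit 29) (nat_lit 5) (nat_lit 31) (nat_lit 5) (nat_lit 32) (nat_lit 5) (nat_lit 307) (nat_lit 281) (nat_lit 192))))) (XT.nd (nat_lit 156) (nat_lit 304) (nat_lit 0) (XT.nd (nat_lit 78) (nat_lit 152) (nat_lit 0) (XT.lf (nat_lit 0) (nat_lit 40536545851) (nat_lit 228) (nat_lit 13805294372) (nat_lit 76) (nat_lit 19118610821) (nat_lit 29) (nat_lit 5) (nat_lit 32) (nat_lit 5) (nat_lit 30) (nat_lit 5) (nat_lit 308)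 (nat_lit 281) (nat_lit 191)) (XT.lf (nat_lit 0) (nat_lit 39488737247) (nat_lit 152) (nat_lit 24302181171) (nat_lit 228) (nat_lit 13873849796) (nat_lit 27) (nat_lit 5) (nat_lit 29) (nat_lit 5) (nat_lit 30) (nat_lit 5) (nat_lit 309) (nat_lit 281) (nat_lit 190))) (XT.nd (nat_lit 78) (nat_lit 152) (nat_lit 0) (XT.lf (nat_lit 0) (nat_lit 7107862398) (nat_lit 152) (nat_lit 66579636670) (nat_lit 76) (nat_lit 8481600470) (nat_lit 25) (nat_lit 5) (nat_lit 27) (nat_lit 5) (nat_lit 26) (nat_lit 5) (nat_lit 310) (nat_lit 281) (nat_lit 189)) (XT.nd (nat_lit 78) (nat_lit 152) (nat_lit 0) (XT.lf (nat_lit 0) (nat_lit 30369652890) (nat_lit 152) (nat_lit 12643314068) (nat_lit 76) (nat_lit 43955061694) (nat_lit 25) (nat_lit 5) (nat_lit 27) (nat_lit 5) (nat_lit 26) (nat_lit 5) (nat_lit 311) (nat_lit 281) (nat_lit 188)) (XT.lf (nat_lit 0) (nat_lit 47108631539) (nat_lit 152) (nat_lit 9115023657) (nat_lit 228)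 (nat_lit 35890657142) (nat_lit 23) (nat_lit 5) (nat_lit 25) (nat_lit 5) (nat_lit 26) (nat_lit 5) (nat_lit 312) (nat_lit 281) (nat_lit 187)))))) (XT.nd (nat_lit 390) (nat_lit 456) (nat_lit 0) (XT.nd (nat_lit 156) (nat_lit 228) (nat_lit 0) (XT.nd (nat_lit 78) (nat_lit 76) (nat_lit 0) (XT.lf (nat_lit 0) (nat_lit 14453755874) (nat_lit 76) (nat_lit 70566940670) (nat_lit 152) (nat_lit 12607869630) (nat_lit 22) (nat_lit 5) (nat_lit 23) (nat_lit 5) (nat_lit 24) (nat_lit 4) (nat_lit 313) (nat_lit 281) (nat_lit 186)) (XT.lf (nat_lit 0) (nat_lit 13082846740) (nat_lit 152) (nat_lit 23636711435) (nat_lit 76) (nat_lit 66807288557) (nat_lit 21) (nat_lit 5) (nat_lit 23) (nat_lit 5) (nat_lit 22) (nat_lit 5) (nat_lit 314) (nat_lit 281) (nat_lit 185))) (XT.nd (nat_lit 78) (nat_lit 76) (nat_lit 0) (XT.lf (nat_lit 0) (nat_lit 41053286963) (nat_lit 228) (nat_lit 68082583925) (nat_lit 76) (nat_lit 717478059)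 (nat_lit 19) (nat_lit 5) (nat_lit 22) (nat_lit 5) (nat_lit 20) (nat_lit 4) (nat_lit 315) (nat_lit 281) (nat_lit 184)) (XT.nd (nat_lit 78) (nat_lit 76) (nat_lit 0) (XT.lf (nat_lit 0) (nat_lit 72295503543) (nat_lit 228) (nat_lit 4042501604) (nat_lit 76) (nat_lit 40296261703) (nat_lit 19) (nat_lit 5) (nat_lit 22) (nat_lit 5) (nat_lit 20) (nat_lit 4) (nat_lit 316) (nat_lit 281) (nat_lit 183)) (XT.lf (nat_lit 0) (nat_lit 67268132629) (nat_lit 76) (nat_lit 39815964699) (nat_lit 152) (nat_lit 16821213243) (nat_lit 18) (nat_lit 5) (nat_lit 19) (nat_lit 5) (nat_lit 20) (nat_lit 4) (nat_lit 317) (nat_lit 281) (nat_lit 182))))) (XT.nd (nat_lit 234) (nat_lit 152) (nat_lit 0) (XT.nd (nat_lit 78) (nat_lit 76) (nat_lit 0) (XT.lf (nat_lit 0) (nat_lit 12756341663) (nat_lit 228) (nat_lit 118858839336) (nat_lit 76) (nat_lit 119219939) (nat_lit 15) (nat_lit 5) (nat_lit 18) (nat_lit 5) (nat_lit 16) (nat_lit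 4) (nat_lit 318) (nat_lit 281) (nat_lit 181)) (XT.nd (nat_lit 78) (nat_lit 76) (nat_lit 0) (XT.lf (nat_lit 0) (nat_lit 45789746411) (nat_lit 228) (nat_lit 51145244823) (nat_lit 76) (nat_lit 43157092424) (nat_lit 15) (nat_lit 5) (nat_lit 18) (nat_lit 5) (nat_lit 16) (nat_lit 4) (nat_lit 319) (nat_lit 281) (nat_lit 180)) (XT.lf (nat_lit 0) (nat_lit 22707218060) (nat_lit 76) (nat_lit 59110326515) (nat_lit 152) (nat_lit 67283252167) (nat_lit 14) (nat_lit 5) (nat_lit 15) (nat_lit 5) (nat_lit 16) (nat_lit 4) (nat_lit 320) (nat_lit 281) (nat_lit 179)))) (XT.nd (nat_lit 78) (nat_lit 152) (nat_lit 0) (XT.lf (nat_lit 0) (nat_lit 104289483136) (nat_lit 76) (nat_lit 17326331373) (nat_lit 152) (nat_lit 37169981632) (nat_lit 14) (nat_lit 5) (nat_lit 15) (nat_lit 5) (nat_lit 16) (nat_lit 4) (nat_lit 321) (nat_lit 281) (nat_lit 178)) (XT.nd (nat_lit 78) (nat_lit 76) (nat_lit 0) (XT.lf (nat_lit 0) (nat_lit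 23465209266) (nat_lit 76) (nat_lit 141930634374) (nat_lit 76) (nat_lit 3809858514) (nat_lit 13) (nat_lit 4) (nat_lit 14) (nat_lit 5) (nat_lit 14) (nat_lit 4) (nat_lit 322) (nat_lit 281) (nat_lit 177)) (XT.lf (nat_lit 0) (nat_lit 32442444662) (nat_lit 152) (nat_lit 71617184094) (nat_lit 76) (nat_lit 76311692659) (nat_lit 12) (nat_lit 5) (nat_lit 14) (nat_lit 5) (nat_lit 13) (nat_lit 4) (nat_lit 323) (nat_lit 281) (nat_lit 176))))))) (XT.nd (nat_lit 780) (nat_lit 228) (nat_lit 0) (XT.nd (nat_lit 390) (nat_lit 152) (nat_lit 0) (XT.nd (nat_lit 156) (nat_lit 152) (nat_lit 0) (XT.nd (nat_lit 78) (nat_lit 0) (nat_lit 0) (XT.lf (nat_lit 0) (nat_lit 8644346038) (nat_lit 76) (nat_lit 62951609165) (nat_lit 152) (nat_lit 120824388340) (nat_lit 11) (nat_lit 5) (nat_lit 12) (nat_lit 5) (nat_lit 13) (nat_lit 4) (nat_lit 324) (nat_lit 281) (nat_lit 175)) (XT.lf (nat_lit 0) (nat_lit 97880326979) (nat_lit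 76) (nat_lit 17246805230) (nat_lit 152) (nat_lit 90243887116) (nat_lit 11) (nat_lit 5) (nat_lit 12) (nat_lit 5) (nat_lit 13) (nat_lit 4) (nat_lit 325) (nat_lit 281) (nat_lit 174))) (XT.nd (nat_lit 78) (nat_lit 152) (nat_lit 0) (XT.lf (nat_lit 0) (nat_lit 162640192434) (nat_lit 152) (nat_lit 25607642394) (nat_lit 0) (nat_lit 31084945966) (nat_lit 11) (nat_lit 5) (nat_lit 13) (nat_lit 4) (nat_lit 11) (nat_lit 4) (nat_lit 326) (nat_lit 281) (nat_lit 173)) (XT.nd (nat_lit 78) (nat_lit 76) (nat_lit 0) (XT.lf (nat_lit 0) (nat_lit 64599412333) (nat_lit 76) (nat_lit 150652417818) (nat_lit 76) (nat_lit 19094777398) (nat_lit 10) (nat_lit 4) (nat_lit 11) (nat_lit 5) (nat_lit 11) (nat_lit 4) (nat_lit 327) (nat_lit 281) (nat_lit 172)) (XT.lf (nat_lit 0) (nat_lit 21273956752) (nat_lit 152) (nat_lit 87948245700) (nat_lit 76) (nat_lit 141299967628) (nat_lit 9) (nat_lit 5) (nat_lit 11) (nat_lit 5) (nat_lit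 10) (nat_lit 4) (nat_lit 328) (nat_lit 281) (nat_lit 171))))) (XT.nd (nat_lit 156) (nat_lit 76) (nat_lit 0) (XT.nd (nat_lit 78) (nat_lit 0) (nat_lit 0) (XT.lf (nat_lit 0) (nat_lit 71870025) (nat_lit 76) (nat_lit 64139729728) (nat_lit 152) (nat_lit 203764107313) (nat_lit 8) (nat_lit 5) (nat_lit 9) (nat_lit 5) (nat_lit 10) (nat_lit 4) (nat_lit 329) (nat_lit 281) (nat_lit 170)) (XT.lf (nat_lit 0) (nat_lit 98271255011) (nat_lit 76) (nat_lit 13843410783) (nat_lit 152) (nat_lit 174634341395) (nat_lit 8) (nat_lit 5) (nat_lit 9) (nat_lit 5) (nat_lit 10) (nat_lit 4) (nat_lit 330) (nat_lit 281) (nat_lit 169))) (XT.nd (nat_lit 78) (nat_lit 76) (nat_lit 0) (XT.lf (nat_lit 0) (nat_lit 164480438612) (nat_lit 152) (nat_lit 103332314097) (nat_lit 0) (nat_lit 39179896236) (nat_lit 8) (nat_lit 5) (nat_lit 10) (nat_lit 4) (nat_lit 8) (nat_lit 4) (nat_lit 331) (nat_lit 281) (nat_lit 168)) (XT.nd (nat_lit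 78) (nat_lit 76) (nat_lit 0) (XT.lf (nat_lit 0) (nat_lit 221267517076) (nat_lit 152) (nat_lit 11611240420) (nat_lit 0) (nat_lit 95965423002) (nat_lit 8) (nat_lit 5) (nat_lit 10) (nat_lit 4) (nat_lit 8) (nat_lit 4) (nat_lit 332) (nat_lit 281) (nat_lit 167)) (XT.lf (nat_lit 0) (nat_lit 90336466675) (nat_lit 76) (nat_lit 193670221508) (nat_lit 76) (nat_lit 68366690675) (nat_lit 7) (nat_lit 4) (nat_lit 8) (nat_lit 5) (nat_lit 8) (nat_lit 4) (nat_lit 333) (nat_lit 281) (nat_lit 166)))))) (XT.nd (nat_lit 390) (nat_lit 76) (nat_lit 0) (XT.nd (nat_lit 156) (nat_lit 76) (nat_lit 0) (XT.nd (nat_lit 78) (nat_lit 76) (nat_lit 0) (XT.lf (nat_lit 0) (nat_lit 200852344006) (nat_lit 76) (nat_lit 151113689390) (nat_lit 76) (nat_lit 25808828226) (nat_lit 7) (nat_lit 4) (nat_lit 8) (nat_lit 5) (nat_lit 8) (nat_lit 4) (nat_lit 334) (nat_lit 281) (nat_lit 165)) (XT.lf (nat_lit 0) (nat_lit 19507471582) (nat_lit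 152) (nat_lit 85315776208) (nat_lit 76) (nat_lit 300369540374) (nat_lit 6) (nat_lit 5) (nat_lit 8) (nat_lit 5) (nat_lit 7) (nat_lit 4) (nat_lit 335) (nat_lit 281) (nat_lit 164))) (XT.nd (nat_lit 78) (nat_lit 0) (nat_lit 0) (XT.lf (nat_lit 0) (nat_lit 13618197555) (nat_lit 76) (nat_lit 54150305396) (nat_lit 152) (nat_lit 367003309396) (nat_lit 5) (nat_lit 5) (nat_lit 6) (nat_lit 5) (nat_lit 7) (nat_lit 4) (nat_lit 336) (nat_lit 281) (nat_lit 163)) (XT.nd (nat_lit 78) (nat_lit 0) (nat_lit 0) (XT.lf (nat_lit 0) (nat_lit 121408897698) (nat_lit 152) (nat_lit 343164667595) (nat_lit 0) (nat_lit 2067669548) (nat_lit 5) (nat_lit 5) (nat_lit 7) (nat_lit 4) (nat_lit 5) (nat_lit 4) (nat_lit 337) (nat_lit 281) (nat_lit 162)) (XT.lf (nat_lit 0) (nat_lit 180252644951) (nat_lit 152) (nat_lit 259851474995) (nat_lit 0) (nat_lit 60910485531) (nat_lit 5) (nat_lit 5) (nat_lit 7) (nat_lit 4) (nat_lit 5) (nat_lit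 4) (nat_lit 338) (nat_lit 281) (nat_lit 161))))) (XT.nd (nat_lit 234) (nat_lit 0) (nat_lit 0) (XT.nd (nat_lit 78) (nat_lit 76) (nat_lit 0) (XT.lf (nat_lit 0) (nat_lit 243803010375) (nat_lit 152) (nat_lit 169874891162) (nat_lit 0) (nat_lit 124459988668) (nat_lit 5) (nat_lit 5) (nat_lit 7) (nat_lit 4) (nat_lit 5) (nat_lit 4) (nat_lit 339) (nat_lit 281) (nat_lit 160)) (XT.nd (nat_lit 78) (nat_lit 76) (nat_lit 0) (XT.lf (nat_lit 0) (nat_lit 312436588729) (nat_lit 152) (nat_lit 72701721523) (nat_lit 0) (nat_lit 193092768608) (nat_lit 5) (nat_lit 5) (nat_lit 7) (nat_lit 4) (nat_lit 5) (nat_lit 4) (nat_lit 340) (nat_lit 281) (nat_lit 159)) (XT.lf (nat_lit 0) (nat_lit 33310003048) (nat_lit 76) (nat_lit 353770156963) (nat_lit 76) (nat_lit 234425597571) (nat_lit 4) (nat_lit 4) (nat_lit 5) (nat_lit 5) (nat_lit 5) (nat_lit 4) (nat_lit 341) (nat_lit 281) (nat_lit 158)))) (XT.nd (nat_lit 78) (nat_lit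 0) (nat_lit 0) (XT.lf (nat_lit 0) (nat_lit 150397455853) (nat_lit 76) (nat_lit 318563457071) (nat_lit 76) (nat_lit 199218213167) (nat_lit 4) (nat_lit 4) (nat_lit 5) (nat_lit 5) (nat_lit 5) (nat_lit 4) (nat_lit 342) (nat_lit 281) (nat_lit 157)) (XT.nd (nat_lit 78) (nat_lit 0) (nat_lit 0) (XT.lf (nat_lit 0) (nat_lit 276850641219) (nat_lit 76) (nat_lit 280540817112) (nat_lit 76) (nat_lit 161194939401) (nat_lit 4) (nat_lit 4) (nat_lit 5) (nat_lit 5) (nat_lit 5) (nat_lit 4) (nat_lit 343) (nat_lit 281) (nat_lit 156)) (XT.lf (nat_lit 0) (nat_lit 413418911357) (nat_lit 76) (nat_lit 239476917738) (nat_lit 76) (nat_lit 120130453169) (nat_lit 4) (nat_lit 4) (nat_lit 5) (nat_lit 5) (nat_lit 5) (nat_lit 4) (nat_lit 344) (nat_lit 281) (nat_lit 155))))))))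
noncomputable def xc88 : XT := (XT.nd (nat_lit 37206) (nat_lit 0) (nat_lit 760) (XT.nd (nat_lit 36426) (nat_lit 0) (nat_lit 3116) (XT.nd (nat_lit 36036) (nat_lit 0) (nat_lit 5548) (XT.nd (nat_lit 35802) (nat_lit 0) (nat_lit 6536) (XT.nd (nat_lit 35724) (nat_lit 0) (nat_lit 6536) (XT.lf (nat_lit 0) (nat_lit 560911559720) (nat_lit 76) (nat_lit 195128417323) (nat_lit 76) (nat_lit 75781409367) (nat_lit 4) (nat_lit 4) (nat_lit 5) (nat_lit 5) (nat_lit 5) (nat_lit 4) (nat_lit 345) (nat_lit 281) (nat_lit 154)) (XT.lf (nat_lit 0) (nat_lit 4213403232) (nat_lit 0) (nat_lit 4213403232) (nat_lit 684) (nat_lit 2730032918) (nat_lit 90) (nat_lit 5) (nat_lit 90) (nat_lit 3) (nat_lit 99) (nat_lit 3) (nat_lit 282) (nat_lit 282) (nat_lit 216))) (XT.nd (nat_lit 78) (nat_lit 0) (nat_lit 76) (XT.lf (nat_lit 76) (nat_lit 2244551128) (nat_lit 0) (nat_lit 15634170015) (nat_lit 760) (nat_lit 5309563892) (nat_lit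 91) (nat_lit 5) (nat_lit 90) (nat_lit 5) (nat_lit 100) (nat_lit 5) (nat_lit 283) (nat_lit 282) (nat_lit 215)) (XT.nd (nat_lit 78) (nat_lit 0) (nat_lit 0) (XT.lf (nat_lit 0) (nat_lit 19358286842) (nat_lit 684) (nat_lit 4120703289) (nat_lit 760) (nat_lit 635286525) (nat_lit 91) (nat_lit 5) (nat_lit 100) (nat_lit 5) (nat_lit 101) (nat_lit 5) (nat_lit 284) (nat_lit 282) (nat_lit 214)) (XT.lf (nat_lit 76) (nat_lit 14228462547) (nat_lit 0) (nat_lit 7195587769) (nat_lit 760) (nat_lit 3666942040) (nat_lit 92) (nat_lit 5) (nat_lit 91) (nat_lit 5) (nat_lit 101) (nat_lit 5) (nat_lit 285) (nat_lit 282) (nat_lit 213))))) (XT.nd (nat_lit 156) (nat_lit 1140) (nat_lit 0) (XT.nd (nat_lit 78) (nat_lit 0) (nat_lit 76) (XT.lf (nat_lit 76) (nat_lit 8135489445) (nat_lit 0) (nat_lit 15865097558) (nat_lit 760) (nat_lit 2128016387) (nat_lit 93) (nat_lit 5) (nat_lit 92) (nat_lit 5) (nat_lit 102) (nat_lit 5) (nat_lit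 286) (nat_lit 282) (nat_lit 212)) (XT.lf (nat_lit 76) (nat_lit 1695593379) (nat_lit 0) (nat_lit 25435633244) (nat_lit 760) (nat_lit 100628873) (nat_lit 94) (nat_lit 5) (nat_lit 93) (nat_lit 5) (nat_lit 103) (nat_lit 5) (nat_lit 287) (nat_lit 282) (nat_lit 211))) (XT.nd (nat_lit 78) (nat_lit 456) (nat_lit 0) (XT.lf (nat_lit 0) (nat_lit 2593309353) (nat_lit 760) (nat_lit 5123330680) (nat_lit 836) (nat_lit 20676563564) (nat_lit 83) (nat_lit 5) (nat_lit 93) (nat_lit 5) (nat_lit 94) (nat_lit 5) (nat_lit 288) (nat_lit 282) (nat_lit 210)) (XT.nd (nat_lit 78) (nat_lit 532) (nat_lit 0) (XT.lf (nat_lit 0) (nat_lit 5941090139) (nat_lit 760) (nat_lit 12348621226) (nat_lit 76) (nat_lit 11335598513) (nat_lit 84) (nat_lit 5) (nat_lit 94) (nat_lit 5) (nat_lit 85) (nat_lit 5) (nat_lit 289) (nat_lit 282) (nat_lit 209)) (XT.lf (nat_lit 0) (nat_lit 9950073697) (nat_lit 608) (nat_lit 20046226541) (nat_lit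 76) (nat_lit 940038986) (nat_lit 77) (nat_lit 5) (nat_lit 85) (nat_lit 5) (nat_lit 78) (nat_lit 5) (nat_lit 290) (nat_lit 282) (nat_lit 208)))))) (XT.nd (nat_lit 390) (nat_lit 1064) (nat_lit 0) (XT.nd (nat_lit 156) (nat_lit 988) (nat_lit 0) (XT.nd (nat_lit 78) (nat_lit 0) (nat_lit 0) (XT.lf (nat_lit 0) (nat_lit 3888210276) (nat_lit 380) (nat_lit 10967217507) (nat_lit 456) (nat_lit 17468062376) (nat_lit 72) (nat_lit 5) (nat_lit 77) (nat_lit 5) (nat_lit 78) (nat_lit 5) (nat_lit 291) (nat_lit 282) (nat_lit 207)) (XT.lf (nat_lit 0) (nat_lit 20646401996) (nat_lit 456) (nat_lit 3518076185) (nat_lit 76) (nat_lit 9632495614) (nat_lit 72) (nat_lit 5) (nat_lit 78) (nat_lit 5) (nat_lit 73) (nat_lit 5) (nat_lit 292) (nat_lit 282) (nat_lit 206))) (XT.nd (nat_lit 78) (nat_lit 684) (nat_lit 0) (XT.lf (nat_lit 0) (nat_lit 23963628558) (nat_lit 304) (nat_lit 3485572777) (nat_lit 380) (nat_lit 7911726144)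 (nat_lit 68) (nat_lit 5) (nat_lit 72) (nat_lit 5) (nat_lit 73) (nat_lit 5) (nat_lit 293) (nat_lit 282) (nat_lit 205)) (XT.nd (nat_lit 78) (nat_lit 380) (nat_lit 0) (XT.lf (nat_lit 0) (nat_lit 16959132287) (nat_lit 304) (nat_lit 18448511471) (nat_lit 380) (nat_lit 1611800076) (nat_lit 64) (nat_lit 5) (nat_lit 68) (nat_lit 5) (nat_lit 69) (nat_lit 5) (nat_lit 294) (nat_lit 282) (nat_lit 204)) (XT.lf (nat_lit 0) (nat_lit 5483824987) (nat_lit 380) (nat_lit 29512612759) (nat_lit 76) (nat_lit 3787271598) (nat_lit 59) (nat_lit 5) (nat_lit 64) (nat_lit 5) (nat_lit 60) (nat_lit 5) (nat_lit 295) (nat_lit 282) (nat_lit 203))))) (XT.nd (nat_lit 156) (nat_lit 760) (nat_lit 0) (XT.nd (nat_lit 78) (nat_lit 0) (nat_lit 0) (XT.lf (nat_lit 0) (nat_lit 660078378) (nat_lit 304) (nat_lit 13098865467) (nat_lit 380) (nat_lit 26895449583) (nat_lit 55) (nat_lit 5) (nat_lit 59) (nat_lit 5) (nat_lit 60) (nat_lit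 5) (nat_lit 296) (nat_lit 282) (nat_lit 202)) (XT.lf (nat_lit 0) (nat_lit 23374800825) (nat_lit 380) (nat_lit 8532434390) (nat_lit 76) (nat_lit 10733573696) (nat_lit 55) (nat_lit 5) (nat_lit 60) (nat_lit 5) (nat_lit 56) (nat_lit 5) (nat_lit 297) (nat_lit 282) (nat_lit 201))) (XT.nd (nat_lit 78) (nat_lit 532) (nat_lit 0) (XT.lf (nat_lit 0) (nat_lit 26049335306) (nat_lit 228) (nat_lit 8330282717) (nat_lit 304) (nat_lit 10375547159) (nat_lit 52) (nat_lit 5) (nat_lit 55) (nat_lit 5) (nat_lit 56) (nat_lit 5) (nat_lit 298) (nat_lit 282) (nat_lit 200)) (XT.nd (nat_lit 78) (nat_lit 304) (nat_lit 0) (XT.lf (nat_lit 0) (nat_lit 16933289722) (nat_lit 228) (nat_lit 30006985679) (nat_lit 304) (nat_lit 64633049) (nat_lit 49) (nat_lit 5) (nat_lit 52) (nat_lit 5) (nat_lit 53) (nat_lit 5) (nat_lit 299) (nat_lit 282) (nat_lit 199)) (XT.lf (nat_lit 0) (nat_lit 6554639561) (nat_lit 228) (nat_lit 4728955879)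 (nat_lit 304) (nat_lit 38114063691) (nat_lit 45) (nat_lit 5) (nat_lit 48) (nat_lit 5) (nat_lit 49) (nat_lit 5) (nat_lit 300) (nat_lit 282) (nat_lit 198))))))) (XT.nd (nat_lit 780) (nat_lit 988) (nat_lit 0) (XT.nd (nat_lit 390) (nat_lit 684) (nat_lit 0) (XT.nd (nat_lit 156) (nat_lit 456) (nat_lit 0) (XT.nd (nat_lit 78) (nat_lit 228) (nat_lit 0) (XT.lf (nat_lit 0) (nat_lit 24415417782) (nat_lit 304) (nat_lit 5142433656) (nat_lit 76) (nat_lit 22380034623) (nat_lit 45) (nat_lit 5) (nat_lit 49) (nat_lit 5) (nat_lit 46) (nat_lit 5) (nat_lit 301) (nat_lit 282) (nat_lit 197)) (XT.lf (nat_lit 0) (nat_lit 36658920204) (nat_lit 228) (nat_lit 2584612910) (nat_lit 304) (nat_lit 15405519166) (nat_lit 42) (nat_lit 5) (nat_lit 45) (nat_lit 5) (nat_lit 46) (nat_lit 5) (nat_lit 302) (nat_lit 282) (nat_lit 196))) (XT.nd (nat_lit 78) (nat_lit 304) (nat_lit 0) (XT.lf (nat_lit 0) (nat_lit 24783952715) (nat_lit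 152) (nat_lit 31360362078) (nat_lit 228) (nat_lit 1388484010) (nat_lit 40) (nat_lit 5) (nat_lit 42) (nat_lit 5) (nat_lit 43) (nat_lit 5) (nat_lit 303) (nat_lit 282) (nat_lit 195)) (XT.nd (nat_lit 78) (nat_lit 0) (nat_lit 0) (XT.lf (nat_lit 0) (nat_lit 11073271512) (nat_lit 228) (nat_lit 2765714108) (nat_lit 304) (nat_lit 46771074889) (nat_lit 36) (nat_lit 5) (nat_lit 39) (nat_lit 5) (nat_lit 40) (nat_lit 5) (nat_lit 304) (nat_lit 282) (nat_lit 194)) (XT.lf (nat_lit 0) (nat_lit 31249887461) (nat_lit 304) (nat_lit 4814540226) (nat_lit 76) (nat_lit 27817249767) (nat_lit 36) (nat_lit 5) (nat_lit 40) (nat_lit 5) (nat_lit 37) (nat_lit 5) (nat_lit 305) (nat_lit 282) (nat_lit 193))))) (XT.nd (nat_lit 156) (nat_lit 304) (nat_lit 0) (XT.nd (nat_lit 78) (nat_lit 228) (nat_lit 0) (XT.lf (nat_lit 0) (nat_lit 44867076565) (nat_lit 152) (nat_lit 5928569684) (nat_lit 228) (nat_lit 16582284210) (nat_lit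 34) (nat_lit 5) (nat_lit 36) (nat_lit 5) (nat_lit 37) (nat_lit 5) (nat_lit 306) (nat_lit 282) (nat_lit 192)) (XT.lf (nat_lit 0) (nat_lit 1675766200) (nat_lit 228) (nat_lit 43116689018) (nat_lit 76) (nat_lit 26313415994) (nat_lit 31) (nat_lit 5) (nat_lit 34) (nat_lit 5) (nat_lit 32) (nat_lit 5) (nat_lit 307) (nat_lit 282) (nat_lit 191))) (XT.nd (nat_lit 78) (nat_lit 152) (nat_lit 0) (XT.lf (nat_lit 0) (nat_lit 8085930784) (nat_lit 152) (nat_lit 13355340126) (nat_lit 228) (nat_lit 53645800495) (nat_lit 29) (nat_lit 5) (nat_lit 31) (nat_lit 5) (nat_lit 32) (nat_lit 5) (nat_lit 308) (nat_lit 282) (nat_lit 190)) (XT.nd (nat_lit 78) (nat_lit 152) (nat_lit 0) (XT.lf (nat_lit 0) (nat_lit 43868407660) (nat_lit 228) (nat_lit 14766021971) (nat_lit 76) (nat_lit 20698322895) (nat_lit 29) (nat_lit 5) (nat_lit 32) (nat_lit 5) (nat_lit 30) (nat_lit 5) (nat_lit 309) (nat_lit 282) (nat_lit 189)) (XT.lf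 (nat_lit 0) (nat_lit 42785287326) (nat_lit 152) (nat_lit 26193400692) (nat_lit 228) (nat_lit 14894955648) (nat_lit 27) (nat_lit 5) (nat_lit 29) (nat_lit 5) (nat_lit 30) (nat_lit 5) (nat_lit 310) (nat_lit 282) (nat_lit 188)))))) (XT.nd (nat_lit 390) (nat_lit 532) (nat_lit 0) (XT.nd (nat_lit 156) (nat_lit 304) (nat_lit 0) (XT.nd (nat_lit 78) (nat_lit 0) (nat_lit 0) (XT.lf (nat_lit 0) (nat_lit 7759001179) (nat_lit 152) (nat_lit 71768402185) (nat_lit 76) (nat_lit 9211027045) (nat_lit 25) (nat_lit 5) (nat_lit 27) (nat_lit 5) (nat_lit 26) (nat_lit 5) (nat_lit 311) (nat_lit 282) (nat_lit 187)) (XT.lf (nat_lit 0) (nat_lit 32875623074) (nat_lit 152) (nat_lit 13527366769) (nat_lit 76) (nat_lit 47518594905) (nat_lit 25) (nat_lit 5) (nat_lit 27) (nat_lit 5) (nat_lit 26) (nat_lit 5) (nat_lit 312) (nat_lit 282) (nat_lit 186))) (XT.nd (nat_lit 78) (nat_lit 152) (nat_lit 0) (XT.lf (nat_lit 0) (nat_lit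 50999197298) (nat_lit 152) (nat_lit 9794991973) (nat_lit 228) (nat_lit 38685574583) (nat_lit 23) (nat_lit 5) (nat_lit 25) (nat_lit 5) (nat_lit 26) (nat_lit 5) (nat_lit 313) (nat_lit 282) (nat_lit 185)) (XT.nd (nat_lit 78) (nat_lit 76) (nat_lit 0) (XT.lf (nat_lit 0) (nat_lit 15729432720) (nat_lit 76) (nat_lit 76162755878) (nat_lit 152) (nat_lit 13543114212) (nat_lit 22) (nat_lit 5) (nat_lit 23) (nat_lit 5) (nat_lit 24) (nat_lit 4) (nat_lit 314) (nat_lit 282) (nat_lit 184)) (XT.lf (nat_lit 0) (nat_lit 14195248748) (nat_lit 152) (nat_lit 25414889749) (nat_lit 76) (nat_lit 72195517135) (nat_lit 21) (nat_lit 5) (nat_lit 23) (nat_lit 5) (nat_lit 22) (nat_lit 5) (nat_lit 315) (nat_lit 282) (nat_lit 183))))) (XT.nd (nat_lit 234) (nat_lit 304) (nat_lit 0) (XT.nd (nat_lit 78) (nat_lit 76) (nat_lit 0) (XT.lf (nat_lit 0) (nat_lit 44400842816) (nat_lit 228) (nat_lit 73418863500) (nat_lit 76) (nat_lit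 818699490) (nat_lit 19) (nat_lit 5) (nat_lit 22) (nat_lit 5) (nat_lit 20) (nat_lit 4) (nat_lit 316) (nat_lit 282) (nat_lit 182)) (XT.nd (nat_lit 78) (nat_lit 76) (nat_lit 0) (XT.lf (nat_lit 0) (nat_lit 78137748360) (nat_lit 228) (nat_lit 4263746974) (nat_lit 76) (nat_lit 43560539664) (nat_lit 19) (nat_lit 5) (nat_lit 22) (nat_lit 5) (nat_lit 20) (nat_lit 4) (nat_lit 317) (nat_lit 282) (nat_lit 181)) (XT.lf (nat_lit 0) (nat_lit 72747298477) (nat_lit 76) (nat_lit 42959315704) (nat_lit 152) (nat_lit 18108291993) (nat_lit 18) (nat_lit 5) (nat_lit 19) (nat_lit 5) (nat_lit 20) (nat_lit 4) (nat_lit 318) (nat_lit 282) (nat_lit 180)))) (XT.nd (nat_lit 78) (nat_lit 76) (nat_lit 0) (XT.lf (nat_lit 0) (nat_lit 13831520304) (nat_lit 228) (nat_lit 128270154912) (nat_lit 76) (nat_lit 168709144) (nat_lit 15) (nat_lit 5) (nat_lit 18) (nat_lit 5) (nat_lit 16) (nat_lit 4) (nat_lit 319) (nat_lit 282) (nat_lit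 179)) (XT.nd (nat_lit 78) (nat_lit 76) (nat_lit 0) (XT.lf (nat_lit 0) (nat_lit 49503547706) (nat_lit 228) (nat_lit 55146687027) (nat_lit 76) (nat_lit 46646652049) (nat_lit 15) (nat_lit 5) (nat_lit 18) (nat_lit 5) (nat_lit 16) (nat_lit 4) (nat_lit 320) (nat_lit 282) (nat_lit 178)) (XT.lf (nat_lit 0) (nat_lit 24610053887) (nat_lit 76) (nat_lit 63801112823) (nat_lit 152) (nat_lit 72615252759) (nat_lit 14) (nat_lit 5) (nat_lit 15) (nat_lit 5) (nat_lit 16) (nat_lit 4) (nat_lit 321) (nat_lit 282) (nat_lit 177))))))))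
noncomputable def xc89 : XT := (XT.nd (nat_lit 1638) (nat_lit 0) (nat_lit 0) (XT.nd (nat_lit 780) (nat_lit 304) (nat_lit 0) (XT.nd (nat_lit 390) (nat_lit 228) (nat_lit 0) (XT.nd (nat_lit 156) (nat_lit 152) (nat_lit 0) (XT.nd (nat_lit 78) (nat_lit 76) (nat_lit 0) (XT.lf (nat_lit 0) (nat_lit 112712510659) (nat_lit 76) (nat_lit 18677215834) (nat_lit 152) (nat_lit 40096673143) (nat_lit 14) (nat_lit 5) (nat_lit 15) (nat_lit 5) (nat_lit 16) (nat_lit 4) (nat_lit 322) (nat_lit 282) (nat_lit 176)) (XT.lf (nat_lit 0) (nat_lit 25420459830) (nat_lit 76) (nat_lit 153250118461) (nat_lit 76) (nat_lit 4069400887) (nat_lit 13) (nat_lit 4) (nat_lit 14) (nat_lit 5) (nat_lit 14) (nat_lit 4) (nat_lit 323) (nat_lit 282) (nat_lit 175))) (XT.nd (nat_lit 78) (nat_lit 76) (nat_lit 0) (XT.lf (nat_lit 0) (nat_lit 35078394072) (nat_lit 152) (nat_lit 77272941646) (nat_lit 76) (nat_lit 82447640976) (nat_lit 12) (nat_lit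 5) (nat_lit 14) (nat_lit 5) (nat_lit 13) (nat_lit 4) (nat_lit 324) (nat_lit 282) (nat_lit 174)) (XT.nd (nat_lit 78) (nat_lit 0) (nat_lit 0) (XT.lf (nat_lit 0) (nat_lit 9406311584) (nat_lit 76) (nat_lit 67955969303) (nat_lit 152) (nat_lit 130449736616) (nat_lit 11) (nat_lit 5) (nat_lit 12) (nat_lit 5) (nat_lit 13) (nat_lit 4) (nat_lit 325) (nat_lit 282) (nat_lit 173)) (XT.lf (nat_lit 0) (nat_lit 105775954862) (nat_lit 76) (nat_lit 18597134283) (nat_lit 152) (nat_lit 97425802908) (nat_lit 11) (nat_lit 5) (nat_lit 12) (nat_lit 5) (nat_lit 13) (nat_lit 4) (nat_lit 326) (nat_lit 282) (nat_lit 172))))) (XT.nd (nat_lit 156) (nat_lit 152) (nat_lit 0) (XT.nd (nat_lit 78) (nat_lit 76) (nat_lit 0) (XT.lf (nat_lit 0) (nat_lit 175684968585) (nat_lit 152) (nat_lit 27594632225) (nat_lit 0) (nat_lit 33598106356) (nat_lit 11) (nat_lit 5) (nat_lit 13) (nat_lit 4) (nat_lit 11) (nat_lit 4) (nat_lit 327) (nat_lit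 282) (nat_lit 171)) (XT.lf (nat_lit 0) (nat_lit 69826308883) (nat_lit 76) (nat_lit 162677662729) (nat_lit 76) (nat_lit 20588748072) (nat_lit 10) (nat_lit 4) (nat_lit 11) (nat_lit 5) (nat_lit 11) (nat_lit 4) (nat_lit 328) (nat_lit 282) (nat_lit 170))) (XT.nd (nat_lit 78) (nat_lit 76) (nat_lit 0) (XT.lf (nat_lit 0) (nat_lit 23005998977) (nat_lit 152) (nat_lit 94928517150) (nat_lit 76) (nat_lit 152627906534) (nat_lit 9) (nat_lit 5) (nat_lit 11) (nat_lit 5) (nat_lit 10) (nat_lit 4) (nat_lit 329) (nat_lit 282) (nat_lit 169)) (XT.nd (nat_lit 78) (nat_lit 0) (nat_lit 0) (XT.lf (nat_lit 0) (nat_lit 130792038) (nat_lit 76) (nat_lit 69246460019) (nat_lit 152) (nat_lit 220035061710) (nat_lit 8) (nat_lit 5) (nat_lit 9) (nat_lit 5) (nat_lit 10) (nat_lit 4) (nat_lit 330) (nat_lit 282) (nat_lit 168)) (XT.lf (nat_lit 0) (nat_lit 106182189125) (nat_lit 76) (nat_lit 14928246527) (nat_lit 152) (nat_lit 188577149643)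 (nat_lit 8) (nat_lit 5) (nat_lit 9) (nat_lit 5) (nat_lit 10) (nat_lit 4) (nat_lit 331) (nat_lit 282) (nat_lit 167)))))) (XT.nd (nat_lit 390) (nat_lit 152) (nat_lit 0) (XT.nd (nat_lit 156) (nat_lit 152) (nat_lit 0) (XT.nd (nat_lit 78) (nat_lit 0) (nat_lit 0) (XT.lf (nat_lit 0) (nat_lit 177663827426) (nat_lit 152) (nat_lit 111552396676) (nat_lit 0) (nat_lit 42334577370) (nat_lit 8) (nat_lit 5) (nat_lit 10) (nat_lit 4) (nat_lit 8) (nat_lit 4) (nat_lit 332) (nat_lit 282) (nat_lit 166)) (XT.lf (nat_lit 0) (nat_lit 238992023744) (nat_lit 152) (nat_lit 12497081738) (nat_lit 0) (nat_lit 103661443356) (nat_lit 8) (nat_lit 5) (nat_lit 10) (nat_lit 4) (nat_lit 8) (nat_lit 4) (nat_lit 333) (nat_lit 282) (nat_lit 165))) (XT.nd (nat_lit 78) (nat_lit 76) (nat_lit 0) (XT.lf (nat_lit 0) (nat_lit 97604570681) (nat_lit 76) (nat_lit 209144689394) (nat_lit 76) (nat_lit 73812877217) (nat_lit 7) (nat_lit 4)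 (nat_lit 8) (nat_lit 5) (nat_lit 8) (nat_lit 4) (nat_lit 334) (nat_lit 282) (nat_lit 164)) (XT.nd (nat_lit 78) (nat_lit 76) (nat_lit 0) (XT.lf (nat_lit 0) (nat_lit 216958667333) (nat_lit 76) (nat_lit 163185053213) (nat_lit 76) (nat_lit 27852100491) (nat_lit 7) (nat_lit 4) (nat_lit 8) (nat_lit 5) (nat_lit 8) (nat_lit 4) (nat_lit 335) (nat_lit 282) (nat_lit 163)) (XT.lf (nat_lit 0) (nat_lit 21087280393) (nat_lit 152) (nat_lit 92105083976) (nat_lit 76) (nat_lit 324414878103) (nat_lit 6) (nat_lit 5) (nat_lit 8) (nat_lit 5) (nat_lit 7) (nat_lit 4) (nat_lit 336) (nat_lit 282) (nat_lit 162))))) (XT.nd (nat_lit 234) (nat_lit 76) (nat_lit 0) (XT.nd (nat_lit 78) (nat_lit 0) (nat_lit 0) (XT.lf (nat_lit 0) (nat_lit 14742045158) (nat_lit 76) (nat_lit 58466263023) (nat_lit 152) (nat_lit 396344325319) (nat_lit 5) (nat_lit 5) (nat_lit 6) (nat_lit 5) (nat_lit 7) (nat_lit 4) (nat_lit 337) (nat_lit 282)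 (nat_lit 161)) (XT.nd (nat_lit 78) (nat_lit 0) (nat_lit 0) (XT.lf (nat_lit 0) (nat_lit 131138809367) (nat_lit 152) (nat_lit 370585373609) (nat_lit 0) (nat_lit 2247483637) (nat_lit 5) (nat_lit 5) (nat_lit 7) (nat_lit 4) (nat_lit 5) (nat_lit 4) (nat_lit 338) (nat_lit 282) (nat_lit 160)) (XT.lf (nat_lit 0) (nat_lit 194688782337) (nat_lit 152) (nat_lit 280609530593) (nat_lit 0) (nat_lit 65796658193) (nat_lit 5) (nat_lit 5) (nat_lit 7) (nat_lit 4) (nat_lit 5) (nat_lit 4) (nat_lit 339) (nat_lit 282) (nat_lit 159)))) (XT.nd (nat_lit 78) (nat_lit 76) (nat_lit 0) (XT.lf (nat_lit 0) (nat_lit 263321997307) (nat_lit 152) (nat_lit 183437046897) (nat_lit 0) (nat_lit 134429133891) (nat_lit 5) (nat_lit 5) (nat_lit 7) (nat_lit 4) (nat_lit 5) (nat_lit 4) (nat_lit 340) (nat_lit 282) (nat_lit 158)) (XT.nd (nat_lit 78) (nat_lit 76) (nat_lit 0) (XT.lf (nat_lit 0) (nat_lit 337445169625) (nat_lit 152) (nat_lit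 78492085581) (nat_lit 0) (nat_lit 208551621697) (nat_lit 5) (nat_lit 5) (nat_lit 7) (nat_lit 4) (nat_lit 5) (nat_lit 4) (nat_lit 341) (nat_lit 282) (nat_lit 157)) (XT.lf (nat_lit 0) (nat_lit 35999456863) (nat_lit 76) (nat_lit 382060143265) (nat_lit 76) (nat_lit 253165961531) (nat_lit 4) (nat_lit 4) (nat_lit 5) (nat_lit 5) (nat_lit 5) (nat_lit 4) (nat_lit 342) (nat_lit 282) (nat_lit 156))))))) (XT.nd (nat_lit 36504) (nat_lit 0) (nat_lit 3344) (XT.nd (nat_lit 36114) (nat_lit 0) (nat_lit 6004) (XT.nd (nat_lit 156) (nat_lit 0) (nat_lit 0) (XT.nd (nat_lit 78) (nat_lit 0) (nat_lit 0) (XT.lf (nat_lit 0) (nat_lit 162452079702) (nat_lit 76) (nat_lit 344037768586) (nat_lit 76) (nat_lit 215142999994) (nat_lit 4) (nat_lit 4) (nat_lit 5) (nat_lit 5) (nat_lit 5) (nat_lit 4) (nat_lit 343) (nat_lit 282) (nat_lit 155)) (XT.lf (nat_lit 0) (nat_lit 299019828981) (nat_lit 76) (nat_lit 302974114841) (nat_lit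 76) (nat_lit 174078802862) (nat_lit 4) (nat_lit 4) (nat_lit 5) (nat_lit 5) (nat_lit 5) (nat_lit 4) (nat_lit 344) (nat_lit 282) (nat_lit 154))) (XT.nd (nat_lit 35802) (nat_lit 0) (nat_lit 6536) (XT.lf (nat_lit 0) (nat_lit 446511995066) (nat_lit 76) (nat_lit 258625841860) (nat_lit 76) (nat_lit 129730026745) (nat_lit 4) (nat_lit 4) (nat_lit 5) (nat_lit 5) (nat_lit 5) (nat_lit 4) (nat_lit 345) (nat_lit 282) (nat_lit 153)) (XT.nd (nat_lit 78) (nat_lit 0) (nat_lit 0) (XT.lf (nat_lit 0) (nat_lit 4645457197) (nat_lit 0) (nat_lit 4645457197) (nat_lit 684) (nat_lit 2748590717) (nat_lit 90) (nat_lit 5) (nat_lit 90) (nat_lit 3) (nat_lit 99) (nat_lit 3) (nat_lit 283) (nat_lit 283) (nat_lit 214)) (XT.lf (nat_lit 76) (nat_lit 2627563995) (nat_lit 0) (nat_lit 17033669176) (nat_lit 760) (nat_lit 5363794228) (nat_lit 91) (nat_lit 5) (nat_lit 90) (nat_lit 5) (nat_lit 100) (nat_lit 5) (nat_lit 284) (nat_lit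 283) (nat_lit 213))))) (XT.nd (nat_lit 156) (nat_lit 608) (nat_lit 0) (XT.nd (nat_lit 78) (nat_lit 0) (nat_lit 0) (XT.lf (nat_lit 0) (nat_lit 21230923575) (nat_lit 684) (nat_lit 4242867085) (nat_lit 760) (nat_lit 552772287) (nat_lit 91) (nat_lit 5) (nat_lit 100) (nat_lit 5) (nat_lit 101) (nat_lit 5) (nat_lit 285) (nat_lit 283) (nat_lit 212)) (XT.lf (nat_lit 76) (nat_lit 15565214648) (nat_lit 0) (nat_lit 7875834174) (nat_lit 760) (nat_lit 3641460726) (nat_lit 92) (nat_lit 5) (nat_lit 91) (nat_lit 5) (nat_lit 101) (nat_lit 5) (nat_lit 286) (nat_lit 283) (nat_lit 211))) (XT.nd (nat_lit 78) (nat_lit 684) (nat_lit 0) (XT.lf (nat_lit 76) (nat_lit 8992817521) (nat_lit 0) (nat_lit 17210152712) (nat_lit 760) (nat_lit 2001241214) (nat_lit 93) (nat_lit 5) (nat_lit 92) (nat_lit 5) (nat_lit 102) (nat_lit 5) (nat_lit 287) (nat_lit 283) (nat_lit 210)) (XT.nd (nat_lit 78) (nat_lit 0) (nat_lit 0) (XT.lf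 (nat_lit 0) (nat_lit 163272965) (nat_lit 760) (nat_lit 27355402400) (nat_lit 836) (nat_lit 1877892897) (nat_lit 83) (nat_lit 5) (nat_lit 93) (nat_lit 5) (nat_lit 94) (nat_lit 5) (nat_lit 288) (nat_lit 283) (nat_lit 209)) (XT.lf (nat_lit 0) (nat_lit 3049360895) (nat_lit 760) (nat_lit 5327582412) (nat_lit 836) (nat_lit 22274827214) (nat_lit 83) (nat_lit 5) (nat_lit 93) (nat_lit 5) (nat_lit 94) (nat_lit 5) (nat_lit 289) (nat_lit 283) (nat_lit 208)))))) (XT.nd (nat_lit 390) (nat_lit 1520) (nat_lit 0) (XT.nd (nat_lit 156) (nat_lit 684) (nat_lit 0) (XT.nd (nat_lit 78) (nat_lit 532) (nat_lit 0) (XT.lf (nat_lit 0) (nat_lit 6649050139) (nat_lit 760) (nat_lit 13127172957) (nat_lit 76) (nat_lit 12207051984) (nat_lit 84) (nat_lit 5) (nat_lit 94) (nat_lit 5) (nat_lit 85) (nat_lit 5) (nat_lit 290) (nat_lit 283) (nat_lit 207)) (XT.lf (nat_lit 0) (nat_lit 10964357590) (nat_lit 608) (nat_lit 21438075586)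 (nat_lit 76) (nat_lit 997504890) (nat_lit 77) (nat_lit 5) (nat_lit 85) (nat_lit 5) (nat_lit 78) (nat_lit 5) (nat_lit 291) (nat_lit 283) (nat_lit 206))) (XT.nd (nat_lit 78) (nat_lit 304) (nat_lit 0) (XT.lf (nat_lit 0) (nat_lit 4401909474) (nat_lit 380) (nat_lit 11847225604) (nat_lit 456) (nat_lit 18649605459) (nat_lit 72) (nat_lit 5) (nat_lit 77) (nat_lit 5) (nat_lit 78) (nat_lit 5) (nat_lit 292) (nat_lit 283) (nat_lit 205)) (XT.nd (nat_lit 78) (nat_lit 304) (nat_lit 0) (XT.lf (nat_lit 0) (nat_lit 22488143785) (nat_lit 456) (nat_lit 3602010905) (nat_lit 76) (nat_lit 10400737395) (nat_lit 72) (nat_lit 5) (nat_lit 78) (nat_lit 5) (nat_lit 73) (nat_lit 5) (nat_lit 293) (nat_lit 283) (nat_lit 204)) (XT.lf (nat_lit 0) (nat_lit 26069646613) (nat_lit 304) (nat_lit 3754393881) (nat_lit 380) (nat_lit 8356502946) (nat_lit 68) (nat_lit 5) (nat_lit 72) (nat_lit 5) (nat_lit 73) (nat_lit 5) (nat_lit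 294) (nat_lit 283) (nat_lit 203))))) (XT.nd (nat_lit 234) (nat_lit 532) (nat_lit 0) (XT.nd (nat_lit 78) (nat_lit 684) (nat_lit 0) (XT.lf (nat_lit 0) (nat_lit 18505286244) (nat_lit 304) (nat_lit 19903722339) (nat_lit 380) (nat_lit 1563263198) (nat_lit 64) (nat_lit 5) (nat_lit 68) (nat_lit 5) (nat_lit 69) (nat_lit 5) (nat_lit 295) (nat_lit 283) (nat_lit 202)) (XT.nd (nat_lit 78) (nat_lit 304) (nat_lit 0) (XT.lf (nat_lit 0) (nat_lit 6084911987) (nat_lit 380) (nat_lit 31678766250) (nat_lit 76) (nat_lit 4114353167) (nat_lit 59) (nat_lit 5) (nat_lit 64) (nat_lit 5) (nat_lit 60) (nat_lit 5) (nat_lit 296) (nat_lit 283) (nat_lit 201)) (XT.lf (nat_lit 0) (nat_lit 899271995) (nat_lit 304) (nat_lit 14113650165) (nat_lit 380) (nat_lit 28885922900) (nat_lit 55) (nat_lit 5) (nat_lit 59) (nat_lit 5) (nat_lit 60) (nat_lit 5) (nat_lit 297) (nat_lit 283) (nat_lit 200)))) (XT.nd (nat_lit 78) (nat_lit 532)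 (nat_lit 0) (XT.lf (nat_lit 0) (nat_lit 25387173756) (nat_lit 380) (nat_lit 9035612455) (nat_lit 76) (nat_lit 11621948802) (nat_lit 55) (nat_lit 5) (nat_lit 60) (nat_lit 5) (nat_lit 56) (nat_lit 5) (nat_lit 298) (nat_lit 283) (nat_lit 199)) (XT.nd (nat_lit 78) (nat_lit 304) (nat_lit 0) (XT.lf (nat_lit 0) (nat_lit 28304901587) (nat_lit 228) (nat_lit 8959606881) (nat_lit 304) (nat_lit 11064140946) (nat_lit 52) (nat_lit 5) (nat_lit 55) (nat_lit 5) (nat_lit 56) (nat_lit 5) (nat_lit 299) (nat_lit 283) (nat_lit 198)) (XT.lf (nat_lit 0) (nat_lit 62457254) (nat_lit 304) (nat_lit 32301545265) (nat_lit 76) (nat_lit 18394672804) (nat_lit 48) (nat_lit 5) (nat_lit 52) (nat_lit 5) (nat_lit 49) (nat_lit 5) (nat_lit 300) (nat_lit 283) (nat_lit 197))))))))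
noncomputable def xc90 : XT := (XT.nd (nat_lit 1560) (nat_lit 760) (nat_lit 0) (XT.nd (nat_lit 780) (nat_lit 1064) (nat_lit 0) (XT.nd (nat_lit 390) (nat_lit 532) (nat_lit 0) (XT.nd (nat_lit 156) (nat_lit 684) (nat_lit 0) (XT.nd (nat_lit 78) (nat_lit 0) (nat_lit 0) (XT.lf (nat_lit 0) (nat_lit 7246131037) (nat_lit 228) (nat_lit 5063156435) (nat_lit 304) (nat_lit 41033868472) (nat_lit 45) (nat_lit 5) (nat_lit 48) (nat_lit 5) (nat_lit 49) (nat_lit 5) (nat_lit 301) (nat_lit 283) (nat_lit 196)) (XT.lf (nat_lit 0) (nat_lit 26483181917) (nat_lit 304) (nat_lit 5393877001) (nat_lit 76) (nat_lit 24209978068) (nat_lit 45) (nat_lit 5) (nat_lit 49) (nat_lit 5) (nat_lit 46) (nat_lit 5) (nat_lit 302) (nat_lit 283) (nat_lit 195))) (XT.nd (nat_lit 78) (nat_lit 456) (nat_lit 0) (XT.lf (nat_lit 0) (nat_lit 39744633877) (nat_lit 228) (nat_lit 2746817601) (nat_lit 304) (nat_lit 16523961139) (nat_lit 42) (nat_lit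 5) (nat_lit 45) (nat_lit 5) (nat_lit 46) (nat_lit 5) (nat_lit 303) (nat_lit 283) (nat_lit 194)) (XT.nd (nat_lit 78) (nat_lit 304) (nat_lit 0) (XT.lf (nat_lit 0) (nat_lit 26917676303) (nat_lit 152) (nat_lit 33821588997) (nat_lit 228) (nat_lit 1390855605) (nat_lit 40) (nat_lit 5) (nat_lit 42) (nat_lit 5) (nat_lit 43) (nat_lit 5) (nat_lit 304) (nat_lit 283) (nat_lit 193)) (XT.lf (nat_lit 0) (nat_lit 12107025937) (nat_lit 228) (nat_lit 2938820718) (nat_lit 304) (nat_lit 50407915592) (nat_lit 36) (nat_lit 5) (nat_lit 39) (nat_lit 5) (nat_lit 40) (nat_lit 5) (nat_lit 305) (nat_lit 283) (nat_lit 192))))) (XT.nd (nat_lit 156) (nat_lit 380) (nat_lit 0) (XT.nd (nat_lit 78) (nat_lit 152) (nat_lit 0) (XT.lf (nat_lit 0) (nat_lit 33842928412) (nat_lit 304) (nat_lit 5058736739) (nat_lit 76) (nat_lit 30085786601) (nat_lit 36) (nat_lit 5) (nat_lit 40) (nat_lit 5) (nat_lit 37) (nat_lit 5) (nat_lit 306)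 (nat_lit 283) (nat_lit 191)) (XT.lf (nat_lit 0) (nat_lit 48591283155) (nat_lit 152) (nat_lit 6356277397) (nat_lit 228) (nat_lit 17816091769) (nat_lit 34) (nat_lit 5) (nat_lit 36) (nat_lit 5) (nat_lit 37) (nat_lit 5) (nat_lit 307) (nat_lit 283) (nat_lit 190))) (XT.nd (nat_lit 78) (nat_lit 152) (nat_lit 0) (XT.lf (nat_lit 0) (nat_lit 1895769607) (nat_lit 228) (nat_lit 46430493492) (nat_lit 76) (nat_lit 28463693010) (nat_lit 31) (nat_lit 5) (nat_lit 34) (nat_lit 5) (nat_lit 32) (nat_lit 5) (nat_lit 308) (nat_lit 283) (nat_lit 189)) (XT.nd (nat_lit 78) (nat_lit 0) (nat_lit 0) (XT.lf (nat_lit 0) (nat_lit 8862445898) (nat_lit 152) (nat_lit 14375726767) (nat_lit 228) (nat_lit 57851703249) (nat_lit 29) (nat_lit 5) (nat_lit 31) (nat_lit 5) (nat_lit 32) (nat_lit 5) (nat_lit 309) (nat_lit 283) (nat_lit 188)) (XT.lf (nat_lit 0) (nat_lit 47454130394) (nat_lit 228) (nat_lit 15824107612) (nat_lit 76)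 (nat_lit 22397247033) (nat_lit 29) (nat_lit 5) (nat_lit 32) (nat_lit 5) (nat_lit 30) (nat_lit 5) (nat_lit 310) (nat_lit 283) (nat_lit 187)))))) (XT.nd (nat_lit 390) (nat_lit 532) (nat_lit 0) (XT.nd (nat_lit 156) (nat_lit 228) (nat_lit 0) (XT.nd (nat_lit 78) (nat_lit 152) (nat_lit 0) (XT.lf (nat_lit 0) (nat_lit 46325952476) (nat_lit 152) (nat_lit 28243472394) (nat_lit 228) (nat_lit 16010418584) (nat_lit 27) (nat_lit 5) (nat_lit 29) (nat_lit 5) (nat_lit 30) (nat_lit 5) (nat_lit 311) (nat_lit 283) (nat_lit 186)) (XT.lf (nat_lit 0) (nat_lit 8450460118) (nat_lit 152) (nat_lit 77391899893) (nat_lit 76) (nat_lit 9991546500) (nat_lit 25) (nat_lit 5) (nat_lit 27) (nat_lit 5) (nat_lit 26) (nat_lit 5) (nat_lit 312) (nat_lit 283) (nat_lit 185))) (XT.nd (nat_lit 78) (nat_lit 228) (nat_lit 0) (XT.lf (nat_lit 0) (nat_lit 35571171851) (nat_lit 152) (nat_lit 14500320493) (nat_lit 76) (nat_lit 51360487397)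 (nat_lit 25) (nat_lit 5) (nat_lit 27) (nat_lit 5) (nat_lit 26) (nat_lit 5) (nat_lit 313) (nat_lit 283) (nat_lit 184)) (XT.nd (nat_lit 78) (nat_lit 76) (nat_lit 0) (XT.lf (nat_lit 0) (nat_lit 55183621453) (nat_lit 152) (nat_lit 10536381474) (nat_lit 228) (nat_lit 41714975479) (nat_lit 23) (nat_lit 5) (nat_lit 25) (nat_lit 5) (nat_lit 26) (nat_lit 5) (nat_lit 314) (nat_lit 283) (nat_lit 183)) (XT.lf (nat_lit 0) (nat_lit 17090133339) (nat_lit 76) (nat_lit 82213303744) (nat_lit 152) (nat_lit 14563647550) (nat_lit 22) (nat_lit 5) (nat_lit 23) (nat_lit 5) (nat_lit 24) (nat_lit 4) (nat_lit 315) (nat_lit 283) (nat_lit 182))))) (XT.nd (nat_lit 156) (nat_lit 304) (nat_lit 0) (XT.nd (nat_lit 78) (nat_lit 152) (nat_lit 0) (XT.lf (nat_lit 0) (nat_lit 15387259483) (nat_lit 152) (nat_lit 27351408603) (nat_lit 76) (nat_lit 78008577482) (nat_lit 21) (nat_lit 5) (nat_lit 23) (nat_lit 5) (nat_lit 22) (nat_lit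 5) (nat_lit 316) (nat_lit 283) (nat_lit 181)) (XT.lf (nat_lit 0) (nat_lit 48007173698) (nat_lit 228) (nat_lit 79197784841) (nat_lit 76) (nat_lit 921766768) (nat_lit 19) (nat_lit 5) (nat_lit 22) (nat_lit 5) (nat_lit 20) (nat_lit 4) (nat_lit 317) (nat_lit 283) (nat_lit 180))) (XT.nd (nat_lit 78) (nat_lit 304) (nat_lit 0) (XT.lf (nat_lit 0) (nat_lit 84439012170) (nat_lit 228) (nat_lit 4517265492) (nat_lit 76) (nat_lit 47080171095) (nat_lit 19) (nat_lit 5) (nat_lit 22) (nat_lit 5) (nat_lit 20) (nat_lit 4) (nat_lit 318) (nat_lit 283) (nat_lit 179)) (XT.nd (nat_lit 78) (nat_lit 228) (nat_lit 0) (XT.lf (nat_lit 0) (nat_lit 78650857421) (nat_lit 76) (nat_lit 46360116026) (nat_lit 152) (nat_lit 19506699600) (nat_lit 18) (nat_lit 5) (nat_lit 19) (nat_lit 5) (nat_lit 20) (nat_lit 4) (nat_lit 319) (nat_lit 283) (nat_lit 178)) (XT.lf (nat_lit 0) (nat_lit 14984913763) (nat_lit 228) (nat_lit 138448269729)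 (nat_lit 76) (nat_lit 216457942) (nat_lit 15) (nat_lit 5) (nat_lit 18) (nat_lit 5) (nat_lit 16) (nat_lit 4) (nat_lit 320) (nat_lit 283) (nat_lit 177))))))) (XT.nd (nat_lit 780) (nat_lit 304) (nat_lit 0) (XT.nd (nat_lit 390) (nat_lit 228) (nat_lit 0) (XT.nd (nat_lit 156) (nat_lit 152) (nat_lit 0) (XT.nd (nat_lit 78) (nat_lit 76) (nat_lit 0) (XT.lf (nat_lit 0) (nat_lit 53507231369) (nat_lit 228) (nat_lit 59481109420) (nat_lit 76) (nat_lit 50410099089) (nat_lit 15) (nat_lit 5) (nat_lit 18) (nat_lit 5) (nat_lit 16) (nat_lit 4) (nat_lit 321) (nat_lit 283) (nat_lit 176)) (XT.lf (nat_lit 0) (nat_lit 26652810858) (nat_lit 76) (nat_lit 68872588842) (nat_lit 152) (nat_lit 78381040554) (nat_lit 14) (nat_lit 5) (nat_lit 15) (nat_lit 5) (nat_lit 16) (nat_lit 4) (nat_lit 322) (nat_lit 283) (nat_lit 175))) (XT.nd (nat_lit 78) (nat_lit 152) (nat_lit 0) (XT.lf (nat_lit 0) (nat_lit 121797986197) (nat_lit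 76) (nat_lit 20141195871) (nat_lit 152) (nat_lit 43264191786) (nat_lit 14) (nat_lit 5) (nat_lit 15) (nat_lit 5) (nat_lit 16) (nat_lit 4) (nat_lit 323) (nat_lit 283) (nat_lit 174)) (XT.nd (nat_lit 78) (nat_lit 76) (nat_lit 0) (XT.lf (nat_lit 0) (nat_lit 27520998042) (nat_lit 76) (nat_lit 165480149659) (nat_lit 76) (nat_lit 4356161542) (nat_lit 13) (nat_lit 4) (nat_lit 14) (nat_lit 5) (nat_lit 14) (nat_lit 4) (nat_lit 324) (nat_lit 283) (nat_lit 173)) (XT.lf (nat_lit 0) (nat_lit 37919433976) (nat_lit 152) (nat_lit 83391662115) (nat_lit 76) (nat_lit 89070040820) (nat_lit 12) (nat_lit 5) (nat_lit 14) (nat_lit 5) (nat_lit 13) (nat_lit 4) (nat_lit 325) (nat_lit 283) (nat_lit 172))))) (XT.nd (nat_lit 156) (nat_lit 152) (nat_lit 0) (XT.nd (nat_lit 78) (nat_lit 0) (nat_lit 0) (XT.lf (nat_lit 0) (nat_lit 10219188479) (nat_lit 76) (nat_lit 73365210399) (nat_lit 152) (nat_lit 140850905196) (nat_lit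 11) (nat_lit 5) (nat_lit 12) (nat_lit 5) (nat_lit 13) (nat_lit 4) (nat_lit 326) (nat_lit 283) (nat_lit 171)) (XT.lf (nat_lit 0) (nat_lit 114293931221) (nat_lit 76) (nat_lit 20059686091) (nat_lit 152) (nat_lit 105187635336) (nat_lit 11) (nat_lit 5) (nat_lit 12) (nat_lit 5) (nat_lit 13) (nat_lit 4) (nat_lit 327) (nat_lit 283) (nat_lit 170))) (XT.nd (nat_lit 78) (nat_lit 152) (nat_lit 0) (XT.lf (nat_lit 0) (nat_lit 189768539011) (nat_lit 152) (nat_lit 29749372246) (nat_lit 0) (nat_lit 36308558357) (nat_lit 11) (nat_lit 5) (nat_lit 13) (nat_lit 4) (nat_lit 11) (nat_lit 4) (nat_lit 328) (nat_lit 283) (nat_lit 169)) (XT.nd (nat_lit 78) (nat_lit 76) (nat_lit 0) (XT.lf (nat_lit 0) (nat_lit 75462948199) (nat_lit 76) (nat_lit 175668771739) (nat_lit 76) (nat_lit 22207031458) (nat_lit 10) (nat_lit 4) (nat_lit 11) (nat_lit 5) (nat_lit 11) (nat_lit 4) (nat_lit 329) (nat_lit 283) (nat_lit 168)) (XT.lf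 (nat_lit 0) (nat_lit 24872306814) (nat_lit 152) (nat_lit 102475140594) (nat_lit 76) (nat_lit 164858665030) (nat_lit 9) (nat_lit 5) (nat_lit 11) (nat_lit 5) (nat_lit 10) (nat_lit 4) (nat_lit 330) (nat_lit 283) (nat_lit 167)))))) (XT.nd (nat_lit 390) (nat_lit 152) (nat_lit 0) (XT.nd (nat_lit 156) (nat_lit 76) (nat_lit 0) (XT.nd (nat_lit 78) (nat_lit 0) (nat_lit 0) (XT.lf (nat_lit 0) (nat_lit 186842173) (nat_lit 76) (nat_lit 74765216526) (nat_lit 152) (nat_lit 237611997143) (nat_lit 8) (nat_lit 5) (nat_lit 9) (nat_lit 5) (nat_lit 10) (nat_lit 4) (nat_lit 331) (nat_lit 283) (nat_lit 166)) (XT.lf (nat_lit 0) (nat_lit 114718974229) (nat_lit 76) (nat_lit 16103098569) (nat_lit 152) (nat_lit 203639368371) (nat_lit 8) (nat_lit 5) (nat_lit 9) (nat_lit 5) (nat_lit 10) (nat_lit 4) (nat_lit 332) (nat_lit 283) (nat_lit 165))) (XT.nd (nat_lit 78) (nat_lit 76) (nat_lit 0) (XT.lf (nat_lit 0) (nat_lit 191898327419)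 (nat_lit 152) (nat_lit 120436719970) (nat_lit 0) (nat_lit 45738738479) (nat_lit 8) (nat_lit 5) (nat_lit 10) (nat_lit 4) (nat_lit 8) (nat_lit 4) (nat_lit 333) (nat_lit 283) (nat_lit 164)) (XT.nd (nat_lit 78) (nat_lit 76) (nat_lit 0) (XT.lf (nat_lit 0) (nat_lit 258131194716) (nat_lit 152) (nat_lit 13459933054) (nat_lit 0) (nat_lit 111970465232) (nat_lit 8) (nat_lit 5) (nat_lit 10) (nat_lit 4) (nat_lit 8) (nat_lit 4) (nat_lit 334) (nat_lit 283) (nat_lit 163)) (XT.lf (nat_lit 0) (nat_lit 105448247268) (nat_lit 76) (nat_lit 225859846650) (nat_lit 76) (nat_lit 79698061105) (nat_lit 7) (nat_lit 4) (nat_lit 8) (nat_lit 5) (nat_lit 8) (nat_lit 4) (nat_lit 335) (nat_lit 283) (nat_lit 162))))) (XT.nd (nat_lit 234) (nat_lit 0) (nat_lit 0) (XT.nd (nat_lit 78) (nat_lit 152) (nat_lit 0) (XT.lf (nat_lit 0) (nat_lit 234348056027) (nat_lit 76) (nat_lit 176224655714) (nat_lit 76) (nat_lit 30061892336) (nat_lit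 7) (nat_lit 4) (nat_lit 8) (nat_lit 5) (nat_lit 8) (nat_lit 4) (nat_lit 336) (nat_lit 283) (nat_lit 161)) (XT.nd (nat_lit 78) (nat_lit 76) (nat_lit 0) (XT.lf (nat_lit 0) (nat_lit 22790733232) (nat_lit 152) (nat_lit 99442665651) (nat_lit 76) (nat_lit 350381592442) (nat_lit 6) (nat_lit 5) (nat_lit 8) (nat_lit 5) (nat_lit 7) (nat_lit 4) (nat_lit 337) (nat_lit 283) (nat_lit 160)) (XT.lf (nat_lit 0) (nat_lit 15950894194) (nat_lit 76) (nat_lit 63129789370) (nat_lit 152) (nat_lit 428035368577) (nat_lit 5) (nat_lit 5) (nat_lit 6) (nat_lit 5) (nat_lit 7) (nat_lit 4) (nat_lit 338) (nat_lit 283) (nat_lit 159)))) (XT.nd (nat_lit 78) (nat_lit 0) (nat_lit 0) (XT.lf (nat_lit 0) (nat_lit 141644660218) (nat_lit 152) (nat_lit 400204367941) (nat_lit 0) (nat_lit 2439628457) (nat_lit 5) (nat_lit 5) (nat_lit 7) (nat_lit 4) (nat_lit 5) (nat_lit 4) (nat_lit 339) (nat_lit 283) (nat_lit 158)) (XT.nd (nat_lit 78)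 (nat_lit 0) (nat_lit 0) (XT.lf (nat_lit 0) (nat_lit 210277538722) (nat_lit 152) (nat_lit 303032519377) (nat_lit 0) (nat_lit 71071822449) (nat_lit 5) (nat_lit 5) (nat_lit 7) (nat_lit 4) (nat_lit 5) (nat_lit 4) (nat_lit 340) (nat_lit 283) (nat_lit 157)) (XT.lf (nat_lit 0) (nat_lit 284400399497) (nat_lit 152) (nat_lit 198088146146) (nat_lit 0) (nat_lit 145194049418) (nat_lit 5) (nat_lit 5) (nat_lit 7) (nat_lit 4) (nat_lit 5) (nat_lit 4) (nat_lit 341) (nat_lit 283) (nat_lit 156))))))))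
noncomputable def xc91 : XT := (XT.nd (nat_lit 37440) (nat_lit 0) (nat_lit 836) (XT.nd (nat_lit 36582) (nat_lit 0) (nat_lit 3648) (XT.nd (nat_lit 36192) (nat_lit 0) (nat_lit 6004) (XT.nd (nat_lit 156) (nat_lit 0) (nat_lit 0) (XT.nd (nat_lit 78) (nat_lit 76) (nat_lit 0) (XT.lf (nat_lit 0) (nat_lit 364452489126) (nat_lit 152) (nat_lit 84749355665) (nat_lit 0) (nat_lit 225245552188) (nat_lit 5) (nat_lit 5) (nat_lit 7) (nat_lit 4) (nat_lit 5) (nat_lit 4) (nat_lit 342) (nat_lit 283) (nat_lit 155)) (XT.lf (nat_lit 0) (nat_lit 38900549877) (nat_lit 76) (nat_lit 412614987087) (nat_lit 76) (nat_lit 273407506762) (nat_lit 4) (nat_lit 4) (nat_lit 5) (nat_lit 5) (nat_lit 5) (nat_lit 4) (nat_lit 343) (nat_lit 283) (nat_lit 154))) (XT.nd (nat_lit 78) (nat_lit 0) (nat_lit 0) (XT.lf (nat_lit 0) (nat_lit 175467816879) (nat_lit 76) (nat_lit 371551560776) (nat_lit 76) (nat_lit 232343577316) (nat_lit 4) (nat_lit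 4) (nat_lit 5) (nat_lit 5) (nat_lit 5) (nat_lit 4) (nat_lit 344) (nat_lit 283) (nat_lit 153)) (XT.nd (nat_lit 35880) (nat_lit 0) (nat_lit 6536) (XT.lf (nat_lit 0) (nat_lit 322959536411) (nat_lit 76) (nat_lit 327203498384) (nat_lit 76) (nat_lit 187995049056) (nat_lit 4) (nat_lit 4) (nat_lit 5) (nat_lit 5) (nat_lit 5) (nat_lit 4) (nat_lit 345) (nat_lit 283) (nat_lit 152)) (XT.lf (nat_lit 0) (nat_lit 5098525277) (nat_lit 0) (nat_lit 5098525277) (nat_lit 684) (nat_lit 2797143240) (nat_lit 90) (nat_lit 5) (nat_lit 90) (nat_lit 3) (nat_lit 99) (nat_lit 3) (nat_lit 284) (nat_lit 284) (nat_lit 212))))) (XT.nd (nat_lit 156) (nat_lit 532) (nat_lit 0) (XT.nd (nat_lit 78) (nat_lit 0) (nat_lit 76) (XT.lf (nat_lit 76) (nat_lit 3012193648) (nat_lit 0) (nat_lit 18523905199) (nat_lit 760) (nat_lit 5475223918) (nat_lit 91) (nat_lit 5) (nat_lit 90) (nat_lit 5) (nat_lit 100) (nat_lit 5) (nat_lit 285) (nat_lit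 284) (nat_lit 211)) (XT.lf (nat_lit 0) (nat_lit 23207152764) (nat_lit 684) (nat_lit 4404405105) (nat_lit 760) (nat_lit 482678947) (nat_lit 91) (nat_lit 5) (nat_lit 100) (nat_lit 5) (nat_lit 101) (nat_lit 5) (nat_lit 286) (nat_lit 284) (nat_lit 210))) (XT.nd (nat_lit 78) (nat_lit 608) (nat_lit 0) (XT.lf (nat_lit 76) (nat_lit 16980592225) (nat_lit 0) (nat_lit 8595578019) (nat_lit 760) (nat_lit 3659426523) (nat_lit 92) (nat_lit 5) (nat_lit 91) (nat_lit 5) (nat_lit 101) (nat_lit 5) (nat_lit 287) (nat_lit 284) (nat_lit 209)) (XT.nd (nat_lit 78) (nat_lit 684) (nat_lit 0) (XT.lf (nat_lit 76) (nat_lit 9889273889) (nat_lit 0) (nat_lit 18651991807) (nat_lit 760) (nat_lit 1906696749) (nat_lit 93) (nat_lit 5) (nat_lit 92) (nat_lit 5) (nat_lit 102) (nat_lit 5) (nat_lit 288) (nat_lit 284) (nat_lit 208)) (XT.lf (nat_lit 0) (nat_lit 406507759) (nat_lit 760) (nat_lit 29353450589) (nat_lit 836) (nat_lit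 1976400778) (nat_lit 83) (nat_lit 5) (nat_lit 93) (nat_lit 5) (nat_lit 94) (nat_lit 5) (nat_lit 289) (nat_lit 284) (nat_lit 207)))))) (XT.nd (nat_lit 390) (nat_lit 1520) (nat_lit 0) (XT.nd (nat_lit 156) (nat_lit 836) (nat_lit 0) (XT.nd (nat_lit 78) (nat_lit 0) (nat_lit 76) (XT.lf (nat_lit 0) (nat_lit 3506432874) (nat_lit 760) (nat_lit 5577507521) (nat_lit 836) (nat_lit 24008921215) (nat_lit 83) (nat_lit 5) (nat_lit 93) (nat_lit 5) (nat_lit 94) (nat_lit 5) (nat_lit 290) (nat_lit 284) (nat_lit 206)) (XT.lf (nat_lit 0) (nat_lit 7380453565) (nat_lit 760) (nat_lit 13997873228) (nat_lit 76) (nat_lit 13153271141) (nat_lit 84) (nat_lit 5) (nat_lit 94) (nat_lit 5) (nat_lit 85) (nat_lit 5) (nat_lit 291) (nat_lit 284) (nat_lit 205))) (XT.nd (nat_lit 78) (nat_lit 380) (nat_lit 0) (XT.lf (nat_lit 0) (nat_lit 12028644397) (nat_lit 608) (nat_lit 22971495194) (nat_lit 76) (nat_lit 1062098478) (nat_lit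 77) (nat_lit 5) (nat_lit 85) (nat_lit 5) (nat_lit 78) (nat_lit 5) (nat_lit 292) (nat_lit 284) (nat_lit 204)) (XT.nd (nat_lit 78) (nat_lit 0) (nat_lit 0) (XT.lf (nat_lit 0) (nat_lit 4927795408) (nat_lit 380) (nat_lit 12797259050) (nat_lit 456) (nat_lit 19956472808) (nat_lit 72) (nat_lit 5) (nat_lit 77) (nat_lit 5) (nat_lit 78) (nat_lit 5) (nat_lit 293) (nat_lit 284) (nat_lit 203)) (XT.lf (nat_lit 0) (nat_lit 24450115066) (nat_lit 456) (nat_lit 3720837609) (nat_lit 76) (nat_lit 11230774895) (nat_lit 72) (nat_lit 5) (nat_lit 78) (nat_lit 5) (nat_lit 73) (nat_lit 5) (nat_lit 294) (nat_lit 284) (nat_lit 202))))) (XT.nd (nat_lit 234) (nat_lit 532) (nat_lit 0) (XT.nd (nat_lit 78) (nat_lit 684) (nat_lit 0) (XT.lf (nat_lit 0) (nat_lit 28317193455) (nat_lit 304) (nat_lit 4046150811) (nat_lit 380) (nat_lit 8863705204) (nat_lit 68) (nat_lit 5) (nat_lit 72) (nat_lit 5) (nat_lit 73) (nat_lit 5) (nat_lit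 295) (nat_lit 284) (nat_lit 201)) (XT.nd (nat_lit 78) (nat_lit 380) (nat_lit 0) (XT.lf (nat_lit 0) (nat_lit 20148109156) (nat_lit 304) (nat_lit 21478298890) (nat_lit 380) (nat_lit 1536163002) (nat_lit 64) (nat_lit 5) (nat_lit 68) (nat_lit 5) (nat_lit 69) (nat_lit 5) (nat_lit 296) (nat_lit 284) (nat_lit 200)) (XT.lf (nat_lit 0) (nat_lit 6710920481) (nat_lit 380) (nat_lit 34046010340) (nat_lit 76) (nat_lit 4464163150) (nat_lit 59) (nat_lit 5) (nat_lit 64) (nat_lit 5) (nat_lit 60) (nat_lit 5) (nat_lit 297) (nat_lit 284) (nat_lit 199)))) (XT.nd (nat_lit 78) (nat_lit 228) (nat_lit 0) (XT.lf (nat_lit 0) (nat_lit 1131010862) (nat_lit 304) (nat_lit 15214343225) (nat_lit 380) (nat_lit 31058625736) (nat_lit 55) (nat_lit 5) (nat_lit 59) (nat_lit 5) (nat_lit 60) (nat_lit 5) (nat_lit 298) (nat_lit 284) (nat_lit 198)) (XT.nd (nat_lit 78) (nat_lit 228) (nat_lit 0) (XT.lf (nat_lit 0) (nat_lit 27540223158)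 (nat_lit 380) (nat_lit 9604640561) (nat_lit 76) (nat_lit 12577158418) (nat_lit 55) (nat_lit 5) (nat_lit 60) (nat_lit 5) (nat_lit 56) (nat_lit 5) (nat_lit 299) (nat_lit 284) (nat_lit 197)) (XT.lf (nat_lit 0) (nat_lit 30716429736) (nat_lit 228) (nat_lit 9644569486) (nat_lit 304) (nat_lit 11828001658) (nat_lit 52) (nat_lit 5) (nat_lit 55) (nat_lit 5) (nat_lit 56) (nat_lit 5) (nat_lit 300) (nat_lit 284) (nat_lit 196))))))) (XT.nd (nat_lit 780) (nat_lit 1064) (nat_lit 0) (XT.nd (nat_lit 390) (nat_lit 836) (nat_lit 0) (XT.nd (nat_lit 156) (nat_lit 380) (nat_lit 0) (XT.nd (nat_lit 78) (nat_lit 228) (nat_lit 0) (XT.lf (nat_lit 0) (nat_lit 178930853) (nat_lit 304) (nat_lit 34735880538) (nat_lit 76) (nat_lit 19898830685) (nat_lit 48) (nat_lit 5) (nat_lit 52) (nat_lit 5) (nat_lit 49) (nat_lit 5) (nat_lit 301) (nat_lit 284) (nat_lit 195)) (XT.lf (nat_lit 0) (nat_lit 7969100249) (nat_lit 228) (nat_lit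 5430386664) (nat_lit 304) (nat_lit 44205706625) (nat_lit 45) (nat_lit 5) (nat_lit 48) (nat_lit 5) (nat_lit 49) (nat_lit 5) (nat_lit 302) (nat_lit 284) (nat_lit 194))) (XT.nd (nat_lit 78) (nat_lit 380) (nat_lit 0) (XT.lf (nat_lit 0) (nat_lit 28700028096) (nat_lit 304) (nat_lit 5688254662) (nat_lit 76) (nat_lit 26180676070) (nat_lit 45) (nat_lit 5) (nat_lit 49) (nat_lit 5) (nat_lit 46) (nat_lit 5) (nat_lit 303) (nat_lit 284) (nat_lit 193)) (XT.nd (nat_lit 78) (nat_lit 152) (nat_lit 0) (XT.lf (nat_lit 0) (nat_lit 43055377475) (nat_lit 228) (nat_lit 2928356269) (nat_lit 304) (nat_lit 17748141781) (nat_lit 42) (nat_lit 5) (nat_lit 45) (nat_lit 5) (nat_lit 46) (nat_lit 5) (nat_lit 304) (nat_lit 284) (nat_lit 192)) (XT.lf (nat_lit 0) (nat_lit 29200554889) (nat_lit 152) (nat_lit 36486505033) (nat_lit 228) (nat_lit 1408925214) (nat_lit 40) (nat_lit 5) (nat_lit 42) (nat_lit 5) (nat_lit 43) (nat_lit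 5) (nat_lit 305) (nat_lit 284) (nat_lit 191))))) (XT.nd (nat_lit 156) (nat_lit 532) (nat_lit 0) (XT.nd (nat_lit 78) (nat_lit 0) (nat_lit 0) (XT.lf (nat_lit 0) (nat_lit 13202382169) (nat_lit 228) (nat_lit 3132645067) (nat_lit 304) (nat_lit 54350660903) (nat_lit 36) (nat_lit 5) (nat_lit 39) (nat_lit 5) (nat_lit 40) (nat_lit 5) (nat_lit 306) (nat_lit 284) (nat_lit 190)) (XT.lf (nat_lit 0) (nat_lit 36630138023) (nat_lit 304) (nat_lit 5342579449) (nat_lit 76) (nat_lit 32529649574) (nat_lit 36) (nat_lit 5) (nat_lit 40) (nat_lit 5) (nat_lit 37) (nat_lit 5) (nat_lit 307) (nat_lit 284) (nat_lit 189))) (XT.nd (nat_lit 78) (nat_lit 380) (nat_lit 0) (XT.lf (nat_lit 0) (nat_lit 52594189772) (nat_lit 152) (nat_lit 6824846579) (nat_lit 228) (nat_lit 19161839349) (nat_lit 34) (nat_lit 5) (nat_lit 36) (nat_lit 5) (nat_lit 37) (nat_lit 5) (nat_lit 308) (nat_lit 284) (nat_lit 188)) (XT.nd (nat_lit 78) (nat_lit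 152) (nat_lit 0) (XT.lf (nat_lit 0) (nat_lit 2121112683) (nat_lit 228) (nat_lit 50028737285) (nat_lit 76) (nat_lit 30779543370) (nat_lit 31) (nat_lit 5) (nat_lit 34) (nat_lit 5) (nat_lit 32) (nat_lit 5) (nat_lit 309) (nat_lit 284) (nat_lit 187)) (XT.lf (nat_lit 0) (nat_lit 9682587534) (nat_lit 152) (nat_lit 15484597864) (nat_lit 228) (nat_lit 62406313030) (nat_lit 29) (nat_lit 5) (nat_lit 31) (nat_lit 5) (nat_lit 32) (nat_lit 5) (nat_lit 310) (nat_lit 284) (nat_lit 186)))))) (XT.nd (nat_lit 390) (nat_lit 608) (nat_lit 0) (XT.nd (nat_lit 156) (nat_lit 304) (nat_lit 0) (XT.nd (nat_lit 78) (nat_lit 152) (nat_lit 0) (XT.lf (nat_lit 0) (nat_lit 51315833015) (nat_lit 228) (nat_lit 16984415408) (nat_lit 76) (nat_lit 24225942353) (nat_lit 29) (nat_lit 5) (nat_lit 32) (nat_lit 5) (nat_lit 30) (nat_lit 5) (nat_lit 311) (nat_lit 284) (nat_lit 185)) (XT.lf (nat_lit 0) (nat_lit 50133059336) (nat_lit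 152) (nat_lit 30464026700) (nat_lit 228) (nat_lit 17225979852) (nat_lit 27) (nat_lit 5) (nat_lit 29) (nat_lit 5) (nat_lit 30) (nat_lit 5) (nat_lit 312) (nat_lit 284) (nat_lit 184))) (XT.nd (nat_lit 78) (nat_lit 152) (nat_lit 0) (XT.lf (nat_lit 0) (nat_lit 9187144086) (nat_lit 152) (nat_lit 83482107793) (nat_lit 76) (nat_lit 10828282164) (nat_lit 25) (nat_lit 5) (nat_lit 27) (nat_lit 5) (nat_lit 26) (nat_lit 5) (nat_lit 313) (nat_lit 284) (nat_lit 183)) (XT.nd (nat_lit 78) (nat_lit 152) (nat_lit 0) (XT.lf (nat_lit 0) (nat_lit 38473020375) (nat_lit 152) (nat_lit 15566694196) (nat_lit 76) (nat_lit 55503967077) (nat_lit 25) (nat_lit 5) (nat_lit 27) (nat_lit 5) (nat_lit 26) (nat_lit 5) (nat_lit 314) (nat_lit 284) (nat_lit 182)) (XT.lf (nat_lit 0) (nat_lit 59687893107) (nat_lit 152) (nat_lit 11343103843) (nat_lit 228) (nat_lit 44996064917) (nat_lit 23) (nat_lit 5) (nat_lit 25) (nat_lit 5) (nat_lit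 26) (nat_lit 5) (nat_lit 315) (nat_lit 284) (nat_lit 181))))) (XT.nd (nat_lit 234) (nat_lit 304) (nat_lit 0) (XT.nd (nat_lit 78) (nat_lit 228) (nat_lit 0) (XT.lf (nat_lit 0) (nat_lit 18545089207) (nat_lit 76) (nat_lit 88753954631) (nat_lit 152) (nat_lit 15674799196) (nat_lit 22) (nat_lit 5) (nat_lit 23) (nat_lit 5) (nat_lit 24) (nat_lit 4) (nat_lit 316) (nat_lit 284) (nat_lit 180)) (XT.nd (nat_lit 78) (nat_lit 152) (nat_lit 0) (XT.lf (nat_lit 0) (nat_lit 16666586292) (nat_lit 152) (nat_lit 29456640353) (nat_lit 76) (nat_lit 84281344422) (nat_lit 21) (nat_lit 5) (nat_lit 23) (nat_lit 5) (nat_lit 22) (nat_lit 5) (nat_lit 317) (nat_lit 284) (nat_lit 179)) (XT.lf (nat_lit 0) (nat_lit 51894269762) (nat_lit 228) (nat_lit 85452513887) (nat_lit 76) (nat_lit 1027719460) (nat_lit 19) (nat_lit 5) (nat_lit 22) (nat_lit 5) (nat_lit 20) (nat_lit 4) (nat_lit 318) (nat_lit 284) (nat_lit 178)))) (XT.nd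 (nat_lit 78) (nat_lit 304) (nat_lit 0) (XT.lf (nat_lit 0) (nat_lit 91237209225) (nat_lit 228) (nat_lit 4803559935) (nat_lit 76) (nat_lit 50876410107) (nat_lit 19) (nat_lit 5) (nat_lit 22) (nat_lit 5) (nat_lit 20) (nat_lit 4) (nat_lit 319) (nat_lit 284) (nat_lit 177)) (XT.nd (nat_lit 78) (nat_lit 228) (nat_lit 0) (XT.lf (nat_lit 0) (nat_lit 85014749631) (nat_lit 76) (nat_lit 50038108320) (nat_lit 152) (nat_lit 21024149361) (nat_lit 18) (nat_lit 5) (nat_lit 19) (nat_lit 5) (nat_lit 20) (nat_lit 4) (nat_lit 320) (nat_lit 284) (nat_lit 176)) (XT.lf (nat_lit 0) (nat_lit 16223891908) (nat_lit 228) (nat_lit 149452545595) (nat_lit 76) (nat_lit 263140203) (nat_lit 15) (nat_lit 5) (nat_lit 18) (nat_lit 5) (nat_lit 16) (nat_lit 4) (nat_lit 321) (nat_lit 284) (nat_lit 175))))))))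
noncomputable def xc92 : XT := (XT.nd (nat_lit 1560) (nat_lit 76) (nat_lit 0) (XT.nd (nat_lit 780) (nat_lit 304) (nat_lit 0) (XT.nd (nat_lit 390) (nat_lit 228) (nat_lit 0) (XT.nd (nat_lit 156) (nat_lit 152) (nat_lit 0) (XT.nd (nat_lit 78) (nat_lit 76) (nat_lit 0) (XT.lf (nat_lit 0) (nat_lit 57825018252) (nat_lit 228) (nat_lit 64173315106) (nat_lit 76) (nat_lit 54470097410) (nat_lit 15) (nat_lit 5) (nat_lit 18) (nat_lit 5) (nat_lit 16) (nat_lit 4) (nat_lit 322) (nat_lit 284) (nat_lit 174)) (XT.lf (nat_lit 0) (nat_lit 28848438212) (nat_lit 76) (nat_lit 74354435551) (nat_lit 152) (nat_lit 84614287494) (nat_lit 14) (nat_lit 5) (nat_lit 15) (nat_lit 5) (nat_lit 16) (nat_lit 4) (nat_lit 323) (nat_lit 284) (nat_lit 173))) (XT.nd (nat_lit 78) (nat_lit 152) (nat_lit 0) (XT.lf (nat_lit 0) (nat_lit 131600531098) (nat_lit 76) (nat_lit 21726602284) (nat_lit 152) (nat_lit 46690849069) (nat_lit 14) (nat_lit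 5) (nat_lit 15) (nat_lit 5) (nat_lit 16) (nat_lit 4) (nat_lit 324) (nat_lit 284) (nat_lit 172)) (XT.nd (nat_lit 78) (nat_lit 76) (nat_lit 0) (XT.lf (nat_lit 0) (nat_lit 29780035074) (nat_lit 76) (nat_lit 178692860090) (nat_lit 76) (nat_lit 4671397078) (nat_lit 13) (nat_lit 4) (nat_lit 14) (nat_lit 5) (nat_lit 14) (nat_lit 4) (nat_lit 325) (nat_lit 284) (nat_lit 171)) (XT.lf (nat_lit 0) (nat_lit 40982796975) (nat_lit 152) (nat_lit 90008884262) (nat_lit 76) (nat_lit 96218439496) (nat_lit 12) (nat_lit 5) (nat_lit 14) (nat_lit 5) (nat_lit 13) (nat_lit 4) (nat_lit 326) (nat_lit 284) (nat_lit 170))))) (XT.nd (nat_lit 156) (nat_lit 152) (nat_lit 0) (XT.nd (nat_lit 78) (nat_lit 0) (nat_lit 0) (XT.lf (nat_lit 0) (nat_lit 11088482788) (nat_lit 76) (nat_lit 79211076365) (nat_lit 152) (nat_lit 152089133349) (nat_lit 11) (nat_lit 5) (nat_lit 12) (nat_lit 5) (nat_lit 13) (nat_lit 4) (nat_lit 327) (nat_lit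 284) (nat_lit 169)) (XT.lf (nat_lit 0) (nat_lit 123485370934) (nat_lit 76) (nat_lit 21642839807) (nat_lit 152) (nat_lit 113575012586) (nat_lit 11) (nat_lit 5) (nat_lit 12) (nat_lit 5) (nat_lit 13) (nat_lit 4) (nat_lit 328) (nat_lit 284) (nat_lit 168))) (XT.nd (nat_lit 78) (nat_lit 152) (nat_lit 0) (XT.lf (nat_lit 0) (nat_lit 204974690289) (nat_lit 152) (nat_lit 32084028339) (nat_lit 0) (nat_lit 39232621876) (nat_lit 11) (nat_lit 5) (nat_lit 13) (nat_lit 4) (nat_lit 11) (nat_lit 4) (nat_lit 329) (nat_lit 284) (nat_lit 167)) (XT.nd (nat_lit 78) (nat_lit 76) (nat_lit 0) (XT.lf (nat_lit 0) (nat_lit 81543309333) (nat_lit 76) (nat_lit 189702465515) (nat_lit 76) (nat_lit 23958888506) (nat_lit 10) (nat_lit 4) (nat_lit 11) (nat_lit 5) (nat_lit 11) (nat_lit 4) (nat_lit 330) (nat_lit 284) (nat_lit 166)) (XT.lf (nat_lit 0) (nat_lit 26884234637) (nat_lit 152) (nat_lit 110632292851) (nat_lit 76) (nat_lit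 178064955947) (nat_lit 9) (nat_lit 5) (nat_lit 11) (nat_lit 5) (nat_lit 10) (nat_lit 4) (nat_lit 331) (nat_lit 284) (nat_lit 165)))))) (XT.nd (nat_lit 390) (nat_lit 152) (nat_lit 0) (XT.nd (nat_lit 156) (nat_lit 76) (nat_lit 0) (XT.nd (nat_lit 78) (nat_lit 0) (nat_lit 0) (XT.lf (nat_lit 0) (nat_lit 240872856) (nat_lit 76) (nat_lit 80728463773) (nat_lit 152) (nat_lit 256598777985) (nat_lit 8) (nat_lit 5) (nat_lit 9) (nat_lit 5) (nat_lit 10) (nat_lit 4) (nat_lit 332) (nat_lit 284) (nat_lit 164)) (XT.lf (nat_lit 0) (nat_lit 123932680417) (nat_lit 76) (nat_lit 17374707497) (nat_lit 152) (nat_lit 219909981795) (nat_lit 8) (nat_lit 5) (nat_lit 9) (nat_lit 5) (nat_lit 10) (nat_lit 4) (nat_lit 333) (nat_lit 284) (nat_lit 163))) (XT.nd (nat_lit 78) (nat_lit 76) (nat_lit 0) (XT.lf (nat_lit 0) (nat_lit 207268535346) (nat_lit 152) (nat_lit 130037476805) (nat_lit 0) (nat_lit 49412750897) (nat_lit 8)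 (nat_lit 5) (nat_lit 10) (nat_lit 4) (nat_lit 8) (nat_lit 4) (nat_lit 334) (nat_lit 284) (nat_lit 162)) (XT.nd (nat_lit 78) (nat_lit 76) (nat_lit 0) (XT.lf (nat_lit 0) (nat_lit 278798673380) (nat_lit 152) (nat_lit 14505078845) (nat_lit 0) (nat_lit 120941911098) (nat_lit 8) (nat_lit 5) (nat_lit 10) (nat_lit 4) (nat_lit 8) (nat_lit 4) (nat_lit 335) (nat_lit 284) (nat_lit 161)) (XT.lf (nat_lit 0) (nat_lit 113914380482) (nat_lit 76) (nat_lit 243914558682) (nat_lit 76) (nat_lit 86056890999) (nat_lit 7) (nat_lit 4) (nat_lit 8) (nat_lit 5) (nat_lit 8) (nat_lit 4) (nat_lit 336) (nat_lit 284) (nat_lit 160))))) (XT.nd (nat_lit 156) (nat_lit 76) (nat_lit 0) (XT.nd (nat_lit 78) (nat_lit 76) (nat_lit 0) (XT.lf (nat_lit 0) (nat_lit 253123931466) (nat_lit 76) (nat_lit 190309595116) (nat_lit 76) (nat_lit 32451089099) (nat_lit 7) (nat_lit 4) (nat_lit 8) (nat_lit 5) (nat_lit 8) (nat_lit 4) (nat_lit 337)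 (nat_lit 284) (nat_lit 159)) (XT.lf (nat_lit 0) (nat_lit 24628112612) (nat_lit 152) (nat_lit 107371651398) (nat_lit 76) (nat_lit 378423714564) (nat_lit 6) (nat_lit 5) (nat_lit 8) (nat_lit 5) (nat_lit 7) (nat_lit 4) (nat_lit 338) (nat_lit 284) (nat_lit 158))) (XT.nd (nat_lit 78) (nat_lit 0) (nat_lit 0) (XT.lf (nat_lit 0) (nat_lit 17252244728) (nat_lit 76) (nat_lit 68168362938) (nat_lit 152) (nat_lit 462264049599) (nat_lit 5) (nat_lit 5) (nat_lit 6) (nat_lit 5) (nat_lit 7) (nat_lit 4) (nat_lit 339) (nat_lit 284) (nat_lit 157)) (XT.nd (nat_lit 78) (nat_lit 0) (nat_lit 0) (XT.lf (nat_lit 0) (nat_lit 152988875441) (nat_lit 152) (nat_lit 432196852872) (nat_lit 0) (nat_lit 2645383549) (nat_lit 5) (nat_lit 5) (nat_lit 7) (nat_lit 4) (nat_lit 5) (nat_lit 4) (nat_lit 340) (nat_lit 284) (nat_lit 156)) (XT.lf (nat_lit 0) (nat_lit 227111447751) (nat_lit 152) (nat_lit 327253024165) (nat_lit 0) (nat_lit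 76767369000) (nat_lit 5) (nat_lit 5) (nat_lit 7) (nat_lit 4) (nat_lit 5) (nat_lit 4) (nat_lit 341) (nat_lit 284) (nat_lit 155))))))) (XT.nd (nat_lit 36660) (nat_lit 0) (nat_lit 3648) (XT.nd (nat_lit 36270) (nat_lit 0) (nat_lit 6004) (XT.nd (nat_lit 156) (nat_lit 76) (nat_lit 0) (XT.nd (nat_lit 78) (nat_lit 0) (nat_lit 0) (XT.lf (nat_lit 0) (nat_lit 307163270282) (nat_lit 152) (nat_lit 213914737872) (nat_lit 0) (nat_lit 156818648144) (nat_lit 5) (nat_lit 5) (nat_lit 7) (nat_lit 4) (nat_lit 5) (nat_lit 4) (nat_lit 342) (nat_lit 284) (nat_lit 154)) (XT.lf (nat_lit 0) (nat_lit 393618724205) (nat_lit 152) (nat_lit 91510359705) (nat_lit 0) (nat_lit 243273598931) (nat_lit 5) (nat_lit 5) (nat_lit 7) (nat_lit 4) (nat_lit 5) (nat_lit 4) (nat_lit 343) (nat_lit 284) (nat_lit 153))) (XT.nd (nat_lit 78) (nat_lit 0) (nat_lit 0) (XT.lf (nat_lit 0) (nat_lit 42030714978) (nat_lit 76) (nat_lit 445615640409)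 (nat_lit 76) (nat_lit 295270049268) (nat_lit 4) (nat_lit 4) (nat_lit 5) (nat_lit 5) (nat_lit 5) (nat_lit 4) (nat_lit 344) (nat_lit 284) (nat_lit 152)) (XT.nd (nat_lit 35958) (nat_lit 0) (nat_lit 6536) (XT.lf (nat_lit 0) (nat_lit 189522021036) (nat_lit 76) (nat_lit 401267773005) (nat_lit 76) (nat_lit 250921750506) (nat_lit 4) (nat_lit 4) (nat_lit 5) (nat_lit 5) (nat_lit 5) (nat_lit 4) (nat_lit 345) (nat_lit 284) (nat_lit 151)) (XT.lf (nat_lit 0) (nat_lit 5576221689) (nat_lit 0) (nat_lit 5576221689) (nat_lit 684) (nat_lit 2874022780) (nat_lit 90) (nat_lit 5) (nat_lit 90) (nat_lit 3) (nat_lit 99) (nat_lit 3) (nat_lit 285) (nat_lit 285) (nat_lit 210))))) (XT.nd (nat_lit 156) (nat_lit 532) (nat_lit 0) (XT.nd (nat_lit 78) (nat_lit 0) (nat_lit 76) (XT.lf (nat_lit 76) (nat_lit 3402710065) (nat_lit 0) (nat_lit 20115164743) (nat_lit 760) (nat_lit 5640887709) (nat_lit 91) (nat_lit 5) (nat_lit 90)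 (nat_lit 5) (nat_lit 100) (nat_lit 5) (nat_lit 286) (nat_lit 285) (nat_lit 209)) (XT.lf (nat_lit 0) (nat_lit 25301855390) (nat_lit 684) (nat_lit 4604244357) (nat_lit 760) (nat_lit 423286469) (nat_lit 91) (nat_lit 5) (nat_lit 100) (nat_lit 5) (nat_lit 101) (nat_lit 5) (nat_lit 287) (nat_lit 285) (nat_lit 208))) (XT.nd (nat_lit 78) (nat_lit 608) (nat_lit 0) (XT.lf (nat_lit 76) (nat_lit 18484924724) (nat_lit 0) (nat_lit 9360107930) (nat_lit 760) (nat_lit 3717826169) (nat_lit 92) (nat_lit 5) (nat_lit 91) (nat_lit 5) (nat_lit 101) (nat_lit 5) (nat_lit 288) (nat_lit 285) (nat_lit 207)) (XT.nd (nat_lit 78) (nat_lit 684) (nat_lit 0) (XT.lf (nat_lit 76) (nat_lit 10832191321) (nat_lit 0) (nat_lit 20199901218) (nat_lit 760) (nat_lit 1840916506) (nat_lit 93) (nat_lit 5) (nat_lit 92) (nat_lit 5) (nat_lit 102) (nat_lit 5) (nat_lit 289) (nat_lit 285) (nat_lit 206)) (XT.lf (nat_lit 0) (nat_lit 636364591)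 (nat_lit 760) (nat_lit 31538503041) (nat_lit 836) (nat_lit 2090168232) (nat_lit 83) (nat_lit 5) (nat_lit 93) (nat_lit 5) (nat_lit 94) (nat_lit 5) (nat_lit 290) (nat_lit 285) (nat_lit 205)))))) (XT.nd (nat_lit 390) (nat_lit 1520) (nat_lit 0) (XT.nd (nat_lit 156) (nat_lit 836) (nat_lit 0) (XT.nd (nat_lit 78) (nat_lit 0) (nat_lit 76) (XT.lf (nat_lit 0) (nat_lit 3969666218) (nat_lit 760) (nat_lit 5872575164) (nat_lit 836) (nat_lit 25888575090) (nat_lit 83) (nat_lit 5) (nat_lit 93) (nat_lit 5) (nat_lit 94) (nat_lit 5) (nat_lit 291) (nat_lit 285) (nat_lit 204)) (XT.lf (nat_lit 0) (nat_lit 8141911296) (nat_lit 760) (nat_lit 14963833431) (nat_lit 76) (nat_lit 14179516884) (nat_lit 84) (nat_lit 5) (nat_lit 94) (nat_lit 5) (nat_lit 85) (nat_lit 5) (nat_lit 292) (nat_lit 285) (nat_lit 203))) (XT.nd (nat_lit 78) (nat_lit 380) (nat_lit 0) (XT.lf (nat_lit 0) (nat_lit 13151376793) (nat_lit 608) (nat_lit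 24653499412) (nat_lit 76) (nat_lit 1134028974) (nat_lit 77) (nat_lit 5) (nat_lit 85) (nat_lit 5) (nat_lit 78) (nat_lit 5) (nat_lit 293) (nat_lit 285) (nat_lit 202)) (XT.nd (nat_lit 78) (nat_lit 0) (nat_lit 0) (XT.lf (nat_lit 0) (nat_lit 5470967236) (nat_lit 380) (nat_lit 13822973414) (nat_lit 456) (nat_lit 21394296286) (nat_lit 72) (nat_lit 5) (nat_lit 77) (nat_lit 5) (nat_lit 78) (nat_lit 5) (nat_lit 294) (nat_lit 285) (nat_lit 201)) (XT.lf (nat_lit 0) (nat_lit 26545801721) (nat_lit 456) (nat_lit 3873327861) (nat_lit 76) (nat_lit 12127503784) (nat_lit 72) (nat_lit 5) (nat_lit 78) (nat_lit 5) (nat_lit 73) (nat_lit 5) (nat_lit 295) (nat_lit 285) (nat_lit 200))))) (XT.nd (nat_lit 234) (nat_lit 532) (nat_lit 0) (XT.nd (nat_lit 78) (nat_lit 684) (nat_lit 0) (XT.lf (nat_lit 0) (nat_lit 30721436483) (nat_lit 304) (nat_lit 4362474408) (nat_lit 380) (nat_lit 9434497455) (nat_lit 68) (nat_lit 5)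 (nat_lit 72) (nat_lit 5) (nat_lit 73) (nat_lit 5) (nat_lit 296) (nat_lit 285) (nat_lit 199)) (XT.nd (nat_lit 78) (nat_lit 380) (nat_lit 0) (XT.lf (nat_lit 0) (nat_lit 21899189723) (nat_lit 304) (nat_lit 23181369698) (nat_lit 380) (nat_lit 1528602294) (nat_lit 64) (nat_lit 5) (nat_lit 68) (nat_lit 5) (nat_lit 69) (nat_lit 5) (nat_lit 297) (nat_lit 285) (nat_lit 198)) (XT.lf (nat_lit 0) (nat_lit 7367149003) (nat_lit 380) (nat_lit 36626466535) (nat_lit 76) (nat_lit 4839010305) (nat_lit 59) (nat_lit 5) (nat_lit 64) (nat_lit 5) (nat_lit 60) (nat_lit 5) (nat_lit 298) (nat_lit 285) (nat_lit 197)))) (XT.nd (nat_lit 78) (nat_lit 228) (nat_lit 0) (XT.lf (nat_lit 0) (nat_lit 1358491995) (nat_lit 304) (nat_lit 16407143158) (nat_lit 380) (nat_lit 33424856437) (nat_lit 55) (nat_lit 5) (nat_lit 59) (nat_lit 5) (nat_lit 60) (nat_lit 5) (nat_lit 299) (nat_lit 285) (nat_lit 196)) (XT.nd (nat_lit 78) (nat_lit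 228) (nat_lit 0) (XT.lf (nat_lit 0) (nat_lit 29848101077) (nat_lit 380) (nat_lit 10241135185) (nat_lit 76) (nat_lit 13605153548) (nat_lit 55) (nat_lit 5) (nat_lit 60) (nat_lit 5) (nat_lit 56) (nat_lit 5) (nat_lit 300) (nat_lit 285) (nat_lit 195)) (XT.lf (nat_lit 0) (nat_lit 33299889539) (nat_lit 228) (nat_lit 10388866574) (nat_lit 304) (nat_lit 12670271828) (nat_lit 52) (nat_lit 5) (nat_lit 55) (nat_lit 5) (nat_lit 56) (nat_lit 5) (nat_lit 301) (nat_lit 285) (nat_lit 194))))))))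
noncomputable def xc93 : XT := (XT.nd (nat_lit 1638) (nat_lit 760) (nat_lit 0) (XT.nd (nat_lit 780) (nat_lit 1064) (nat_lit 0) (XT.nd (nat_lit 390) (nat_lit 836) (nat_lit 0) (XT.nd (nat_lit 156) (nat_lit 380) (nat_lit 0) (XT.nd (nat_lit 78) (nat_lit 228) (nat_lit 0) (XT.lf (nat_lit 0) (nat_lit 288818896) (nat_lit 304) (nat_lit 37386331615) (nat_lit 76) (nat_lit 21518672715) (nat_lit 48) (nat_lit 5) (nat_lit 52) (nat_lit 5) (nat_lit 49) (nat_lit 5) (nat_lit 302) (nat_lit 285) (nat_lit 193)) (XT.lf (nat_lit 0) (nat_lit 8729466686) (nat_lit 228) (nat_lit 5832391083) (nat_lit 304) (nat_lit 47647108864) (nat_lit 45) (nat_lit 5) (nat_lit 48) (nat_lit 5) (nat_lit 49) (nat_lit 5) (nat_lit 303) (nat_lit 285) (nat_lit 192))) (XT.nd (nat_lit 78) (nat_lit 380) (nat_lit 0) (XT.lf (nat_lit 0) (nat_lit 31080213836) (nat_lit 304) (nat_lit 6025746020) (nat_lit 76) (nat_lit 28304193732) (nat_lit 45) (nat_lit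 5) (nat_lit 49) (nat_lit 5) (nat_lit 46) (nat_lit 5) (nat_lit 304) (nat_lit 285) (nat_lit 191)) (XT.nd (nat_lit 78) (nat_lit 152) (nat_lit 0) (XT.lf (nat_lit 0) (nat_lit 46612267282) (nat_lit 228) (nat_lit 3129868650) (nat_lit 304) (nat_lit 19084200044) (nat_lit 42) (nat_lit 5) (nat_lit 45) (nat_lit 5) (nat_lit 46) (nat_lit 5) (nat_lit 305) (nat_lit 285) (nat_lit 190)) (XT.lf (nat_lit 0) (nat_lit 31647594206) (nat_lit 152) (nat_lit 39370436510) (nat_lit 228) (nat_lit 1441736247) (nat_lit 40) (nat_lit 5) (nat_lit 42) (nat_lit 5) (nat_lit 43) (nat_lit 5) (nat_lit 306) (nat_lit 285) (nat_lit 189))))) (XT.nd (nat_lit 156) (nat_lit 532) (nat_lit 0) (XT.nd (nat_lit 78) (nat_lit 0) (nat_lit 0) (XT.lf (nat_lit 0) (nat_lit 14367278295) (nat_lit 228) (nat_lit 3347864605) (nat_lit 304) (nat_lit 58621649359) (nat_lit 36) (nat_lit 5) (nat_lit 39) (nat_lit 5) (nat_lit 40) (nat_lit 5) (nat_lit 307) (nat_lit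 285) (nat_lit 188)) (XT.lf (nat_lit 0) (nat_lit 39628943559) (nat_lit 304) (nat_lit 5666371068) (nat_lit 76) (nat_lit 35163743115) (nat_lit 36) (nat_lit 5) (nat_lit 40) (nat_lit 5) (nat_lit 37) (nat_lit 5) (nat_lit 308) (nat_lit 285) (nat_lit 187))) (XT.nd (nat_lit 78) (nat_lit 380) (nat_lit 0) (XT.lf (nat_lit 0) (nat_lit 56900836720) (nat_lit 152) (nat_lit 7336598187) (nat_lit 228) (nat_lit 20626593971) (nat_lit 34) (nat_lit 5) (nat_lit 36) (nat_lit 5) (nat_lit 37) (nat_lit 5) (nat_lit 309) (nat_lit 285) (nat_lit 186)) (XT.nd (nat_lit 78) (nat_lit 152) (nat_lit 0) (XT.lf (nat_lit 0) (nat_lit 2353971715) (nat_lit 228) (nat_lit 53931417195) (nat_lit 76) (nat_lit 33275132935) (nat_lit 31) (nat_lit 5) (nat_lit 34) (nat_lit 5) (nat_lit 32) (nat_lit 5) (nat_lit 310) (nat_lit 285) (nat_lit 185)) (XT.lf (nat_lit 0) (nat_lit 10552484285) (nat_lit 152) (nat_lit 16688054441) (nat_lit 228) (nat_lit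 67335780967) (nat_lit 29) (nat_lit 5) (nat_lit 31) (nat_lit 5) (nat_lit 32) (nat_lit 5) (nat_lit 311) (nat_lit 285) (nat_lit 184)))))) (XT.nd (nat_lit 390) (nat_lit 608) (nat_lit 0) (XT.nd (nat_lit 156) (nat_lit 304) (nat_lit 0) (XT.nd (nat_lit 78) (nat_lit 152) (nat_lit 0) (XT.lf (nat_lit 0) (nat_lit 55477145771) (nat_lit 228) (nat_lit 18252615817) (nat_lit 76) (nat_lit 26195666881) (nat_lit 29) (nat_lit 5) (nat_lit 32) (nat_lit 5) (nat_lit 30) (nat_lit 5) (nat_lit 312) (nat_lit 285) (nat_lit 183)) (XT.lf (nat_lit 0) (nat_lit 54230321591) (nat_lit 152) (nat_lit 32867778221) (nat_lit 228) (nat_lit 18548097834) (nat_lit 27) (nat_lit 5) (nat_lit 29) (nat_lit 5) (nat_lit 30) (nat_lit 5) (nat_lit 313) (nat_lit 285) (nat_lit 182))) (XT.nd (nat_lit 78) (nat_lit 152) (nat_lit 0) (XT.lf (nat_lit 0) (nat_lit 9974110776) (nat_lit 152) (nat_lit 90073961661) (nat_lit 76) (nat_lit 11726619449) (nat_lit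 25) (nat_lit 5) (nat_lit 27) (nat_lit 5) (nat_lit 26) (nat_lit 5) (nat_lit 314) (nat_lit 285) (nat_lit 181)) (XT.nd (nat_lit 78) (nat_lit 152) (nat_lit 0) (XT.lf (nat_lit 0) (nat_lit 41599005675) (nat_lit 152) (nat_lit 16731738291) (nat_lit 76) (nat_lit 59973983251) (nat_lit 25) (nat_lit 5) (nat_lit 27) (nat_lit 5) (nat_lit 26) (nat_lit 5) (nat_lit 315) (nat_lit 285) (nat_lit 180)) (XT.lf (nat_lit 0) (nat_lit 64539726627) (nat_lit 152) (nat_lit 12219526645) (nat_lit 228) (nat_lit 48547646030) (nat_lit 23) (nat_lit 5) (nat_lit 25) (nat_lit 5) (nat_lit 26) (nat_lit 5) (nat_lit 316) (nat_lit 285) (nat_lit 179))))) (XT.nd (nat_lit 234) (nat_lit 304) (nat_lit 0) (XT.nd (nat_lit 78) (nat_lit 228) (nat_lit 0) (XT.lf (nat_lit 0) (nat_lit 20103923710) (nat_lit 76) (nat_lit 95823052369) (nat_lit 152) (nat_lit 16882538141) (nat_lit 22) (nat_lit 5) (nat_lit 23) (nat_lit 5) (nat_lit 24) (nat_lit 4)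 (nat_lit 317) (nat_lit 285) (nat_lit 178)) (XT.nd (nat_lit 78) (nat_lit 152) (nat_lit 0) (XT.lf (nat_lit 0) (nat_lit 18041362142) (nat_lit 152) (nat_lit 31742114536) (nat_lit 76) (nat_lit 91051356040) (nat_lit 21) (nat_lit 5) (nat_lit 23) (nat_lit 5) (nat_lit 22) (nat_lit 5) (nat_lit 318) (nat_lit 285) (nat_lit 177)) (XT.lf (nat_lit 0) (nat_lit 56085696604) (nat_lit 228) (nat_lit 92219190186) (nat_lit 76) (nat_lit 1137553058) (nat_lit 19) (nat_lit 5) (nat_lit 22) (nat_lit 5) (nat_lit 20) (nat_lit 4) (nat_lit 319) (nat_lit 285) (nat_lit 176)))) (XT.nd (nat_lit 78) (nat_lit 304) (nat_lit 0) (XT.lf (nat_lit 0) (nat_lit 98573116760) (nat_lit 228) (nat_lit 5123469904) (nat_lit 76) (nat_lit 54972093324) (nat_lit 19) (nat_lit 5) (nat_lit 22) (nat_lit 5) (nat_lit 20) (nat_lit 4) (nat_lit 320) (nat_lit 285) (nat_lit 175)) (XT.nd (nat_lit 78) (nat_lit 228) (nat_lit 0) (XT.lf (nat_lit 0) (nat_lit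 91877506776) (nat_lit 76) (nat_lit 54014736386) (nat_lit 152) (nat_lit 22669141832) (nat_lit 18) (nat_lit 5) (nat_lit 19) (nat_lit 5) (nat_lit 20) (nat_lit 4) (nat_lit 321) (nat_lit 285) (nat_lit 174)) (XT.lf (nat_lit 0) (nat_lit 17556255458) (nat_lit 228) (nat_lit 161347376032) (nat_lit 76) (nat_lit 309367710) (nat_lit 15) (nat_lit 5) (nat_lit 18) (nat_lit 5) (nat_lit 16) (nat_lit 4) (nat_lit 322) (nat_lit 285) (nat_lit 173))))))) (XT.nd (nat_lit 780) (nat_lit 304) (nat_lit 0) (XT.nd (nat_lit 390) (nat_lit 228) (nat_lit 0) (XT.nd (nat_lit 156) (nat_lit 152) (nat_lit 0) (XT.nd (nat_lit 78) (nat_lit 76) (nat_lit 0) (XT.lf (nat_lit 0) (nat_lit 62482919896) (nat_lit 228) (nat_lit 69250353268) (nat_lit 76) (nat_lit 58851016584) (nat_lit 15) (nat_lit 5) (nat_lit 18) (nat_lit 5) (nat_lit 16) (nat_lit 4) (nat_lit 323) (nat_lit 285) (nat_lit 172)) (XT.lf (nat_lit 0) (nat_lit 31210670682) (nat_lit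 76) (nat_lit 80278818861) (nat_lit 152) (nat_lit 91351506364) (nat_lit 14) (nat_lit 5) (nat_lit 15) (nat_lit 5) (nat_lit 16) (nat_lit 4) (nat_lit 324) (nat_lit 285) (nat_lit 171))) (XT.nd (nat_lit 78) (nat_lit 152) (nat_lit 0) (XT.lf (nat_lit 0) (nat_lit 142178904524) (nat_lit 76) (nat_lit 23442534601) (nat_lit 152) (nat_lit 50396557616) (nat_lit 14) (nat_lit 5) (nat_lit 15) (nat_lit 5) (nat_lit 16) (nat_lit 4) (nat_lit 325) (nat_lit 285) (nat_lit 170)) (XT.nd (nat_lit 78) (nat_lit 76) (nat_lit 0) (XT.lf (nat_lit 0) (nat_lit 32211612425) (nat_lit 76) (nat_lit 192966253968) (nat_lit 76) (nat_lit 5016595995) (nat_lit 13) (nat_lit 4) (nat_lit 14) (nat_lit 5) (nat_lit 14) (nat_lit 4) (nat_lit 326) (nat_lit 285) (nat_lit 169)) (XT.lf (nat_lit 0) (nat_lit 44286976529) (nat_lit 152) (nat_lit 97163203694) (nat_lit 76) (nat_lit 103935458046) (nat_lit 12) (nat_lit 5) (nat_lit 14) (nat_lit 5) (nat_lit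 13) (nat_lit 4) (nat_lit 327) (nat_lit 285) (nat_lit 168))))) (XT.nd (nat_lit 156) (nat_lit 152) (nat_lit 0) (XT.nd (nat_lit 78) (nat_lit 0) (nat_lit 0) (XT.lf (nat_lit 0) (nat_lit 12019936610) (nat_lit 76) (nat_lit 85527942871) (nat_lit 152) (nat_lit 164230677371) (nat_lit 11) (nat_lit 5) (nat_lit 12) (nat_lit 5) (nat_lit 13) (nat_lit 4) (nat_lit 328) (nat_lit 285) (nat_lit 167)) (XT.lf (nat_lit 0) (nat_lit 133405288755) (nat_lit 76) (nat_lit 23355730322) (nat_lit 152) (nat_lit 122637322254) (nat_lit 11) (nat_lit 5) (nat_lit 12) (nat_lit 5) (nat_lit 13) (nat_lit 4) (nat_lit 329) (nat_lit 285) (nat_lit 166))) (XT.nd (nat_lit 78) (nat_lit 152) (nat_lit 0) (XT.lf (nat_lit 0) (nat_lit 221393814482) (nat_lit 152) (nat_lit 34611918570) (nat_lit 0) (nat_lit 42387845867) (nat_lit 11) (nat_lit 5) (nat_lit 13) (nat_lit 4) (nat_lit 11) (nat_lit 4) (nat_lit 330) (nat_lit 285) (nat_lit 165)) (XT.nd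 (nat_lit 78) (nat_lit 76) (nat_lit 0) (XT.lf (nat_lit 0) (nat_lit 88103918523) (nat_lit 76) (nat_lit 204861680621) (nat_lit 76) (nat_lit 25854418629) (nat_lit 10) (nat_lit 4) (nat_lit 11) (nat_lit 5) (nat_lit 11) (nat_lit 4) (nat_lit 331) (nat_lit 285) (nat_lit 164)) (XT.lf (nat_lit 0) (nat_lit 29053957699) (nat_lit 152) (nat_lit 119447846280) (nat_lit 76) (nat_lit 192325239626) (nat_lit 9) (nat_lit 5) (nat_lit 11) (nat_lit 5) (nat_lit 10) (nat_lit 4) (nat_lit 332) (nat_lit 285) (nat_lit 163)))))) (XT.nd (nat_lit 390) (nat_lit 152) (nat_lit 0) (XT.nd (nat_lit 156) (nat_lit 76) (nat_lit 0) (XT.nd (nat_lit 78) (nat_lit 0) (nat_lit 0) (XT.lf (nat_lit 0) (nat_lit 293650322) (nat_lit 76) (nat_lit 87171334433) (nat_lit 152) (nat_lit 277107665367) (nat_lit 8) (nat_lit 5) (nat_lit 9) (nat_lit 5) (nat_lit 10) (nat_lit 4) (nat_lit 333) (nat_lit 285) (nat_lit 162)) (XT.lf (nat_lit 0) (nat_lit 133878320441)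 (nat_lit 76) (nat_lit 18750418872) (nat_lit 152) (nat_lit 237485173989) (nat_lit 8) (nat_lit 5) (nat_lit 9) (nat_lit 5) (nat_lit 10) (nat_lit 4) (nat_lit 334) (nat_lit 285) (nat_lit 161))) (XT.nd (nat_lit 78) (nat_lit 76) (nat_lit 0) (XT.lf (nat_lit 0) (nat_lit 223865743253) (nat_lit 152) (nat_lit 140411170456) (nat_lit 0) (nat_lit 53378556754) (nat_lit 8) (nat_lit 5) (nat_lit 10) (nat_lit 4) (nat_lit 8) (nat_lit 4) (nat_lit 335) (nat_lit 285) (nat_lit 160)) (XT.nd (nat_lit 78) (nat_lit 76) (nat_lit 0) (XT.lf (nat_lit 0) (nat_lit 301117127510) (nat_lit 152) (nat_lit 15638351362) (nat_lit 0) (nat_lit 130629102676) (nat_lit 8) (nat_lit 5) (nat_lit 10) (nat_lit 4) (nat_lit 8) (nat_lit 4) (nat_lit 336) (nat_lit 285) (nat_lit 159)) (XT.lf (nat_lit 0) (nat_lit 123053485510) (nat_lit 76) (nat_lit 263415655733) (nat_lit 76) (nat_lit 92926854664) (nat_lit 7) (nat_lit 4) (nat_lit 8) (nat_lit 5)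 (nat_lit 8) (nat_lit 4) (nat_lit 337) (nat_lit 285) (nat_lit 158))))) (XT.nd (nat_lit 234) (nat_lit 0) (nat_lit 0) (XT.nd (nat_lit 78) (nat_lit 152) (nat_lit 0) (XT.lf (nat_lit 0) (nat_lit 273397878011) (nat_lit 76) (nat_lit 205523188982) (nat_lit 76) (nat_lit 35033669175) (nat_lit 7) (nat_lit 4) (nat_lit 8) (nat_lit 5) (nat_lit 8) (nat_lit 4) (nat_lit 338) (nat_lit 285) (nat_lit 157)) (XT.nd (nat_lit 78) (nat_lit 76) (nat_lit 0) (XT.lf (nat_lit 0) (nat_lit 26610467862) (nat_lit 152) (nat_lit 115938726183) (nat_lit 76) (nat_lit 408707552340) (nat_lit 6) (nat_lit 5) (nat_lit 8) (nat_lit 5) (nat_lit 7) (nat_lit 4) (nat_lit 339) (nat_lit 285) (nat_lit 156)) (XT.lf (nat_lit 0) (nat_lit 18654096973) (nat_lit 76) (nat_lit 73611707161) (nat_lit 152) (nat_lit 499233043540) (nat_lit 5) (nat_lit 5) (nat_lit 6) (nat_lit 5) (nat_lit 7) (nat_lit 4) (nat_lit 340) (nat_lit 285) (nat_lit 155)))) (XT.nd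 (nat_lit 78) (nat_lit 0) (nat_lit 0) (XT.lf (nat_lit 0) (nat_lit 165238824301) (nat_lit 152) (nat_lit 466752141137) (nat_lit 0) (nat_lit 2866089006) (nat_lit 5) (nat_lit 5) (nat_lit 7) (nat_lit 4) (nat_lit 5) (nat_lit 4) (nat_lit 341) (nat_lit 285) (nat_lit 154)) (XT.nd (nat_lit 78) (nat_lit 0) (nat_lit 0) (XT.lf (nat_lit 0) (nat_lit 245290399520) (nat_lit 152) (nat_lit 353414321685) (nat_lit 0) (nat_lit 82917161088) (nat_lit 5) (nat_lit 5) (nat_lit 7) (nat_lit 4) (nat_lit 5) (nat_lit 4) (nat_lit 342) (nat_lit 285) (nat_lit 153)) (XT.lf (nat_lit 0) (nat_lit 331745624450) (nat_lit 152) (nat_lit 231010375779) (nat_lit 0) (nat_lit 169371920151) (nat_lit 5) (nat_lit 5) (nat_lit 7) (nat_lit 4) (nat_lit 5) (nat_lit 4) (nat_lit 343) (nat_lit 285) (nat_lit 152))))))))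
noncomputable def xc94 : XT := (XT.nd (nat_lit 37596) (nat_lit 0) (nat_lit 684) (XT.nd (nat_lit 36816) (nat_lit 0) (nat_lit 3040) (XT.nd (nat_lit 36426) (nat_lit 0) (nat_lit 5472) (XT.nd (nat_lit 36192) (nat_lit 0) (nat_lit 6460) (XT.nd (nat_lit 36114) (nat_lit 0) (nat_lit 6460) (XT.lf (nat_lit 0) (nat_lit 425116826350) (nat_lit 152) (nat_lit 98814946702) (nat_lit 0) (nat_lit 262742690693) (nat_lit 5) (nat_lit 5) (nat_lit 7) (nat_lit 4) (nat_lit 5) (nat_lit 4) (nat_lit 344) (nat_lit 285) (nat_lit 151)) (XT.lf (nat_lit 0) (nat_lit 6082174011) (nat_lit 0) (nat_lit 6082174011) (nat_lit 684) (nat_lit 2978008458) (nat_lit 90) (nat_lit 5) (nat_lit 90) (nat_lit 3) (nat_lit 99) (nat_lit 3) (nat_lit 286) (nat_lit 286) (nat_lit 208))) (XT.nd (nat_lit 78) (nat_lit 0) (nat_lit 76) (XT.lf (nat_lit 76) (nat_lit 3803134110) (nat_lit 0) (nat_lit 21818125459) (nat_lit 760) (nat_lit 5858658964) (nat_lit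 91) (nat_lit 5) (nat_lit 90) (nat_lit 5) (nat_lit 100) (nat_lit 5) (nat_lit 287) (nat_lit 286) (nat_lit 207)) (XT.nd (nat_lit 78) (nat_lit 0) (nat_lit 0) (XT.lf (nat_lit 0) (nat_lit 27530162261) (nat_lit 684) (nat_lit 4841828455) (nat_lit 760) (nat_lit 373124359) (nat_lit 91) (nat_lit 5) (nat_lit 100) (nat_lit 5) (nat_lit 101) (nat_lit 5) (nat_lit 288) (nat_lit 286) (nat_lit 206)) (XT.lf (nat_lit 76) (nat_lit 20088791680) (nat_lit 0) (nat_lit 10174831919) (nat_lit 760) (nat_lit 3814331072) (nat_lit 92) (nat_lit 5) (nat_lit 91) (nat_lit 5) (nat_lit 101) (nat_lit 5) (nat_lit 289) (nat_lit 286) (nat_lit 205))))) (XT.nd (nat_lit 156) (nat_lit 456) (nat_lit 0) (XT.nd (nat_lit 78) (nat_lit 684) (nat_lit 0) (XT.lf (nat_lit 76) (nat_lit 11828889672) (nat_lit 0) (nat_lit 21863690011) (nat_lit 760) (nat_lit 1801019059) (nat_lit 93) (nat_lit 5) (nat_lit 92) (nat_lit 5) (nat_lit 102) (nat_lit 5) (nat_lit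 290) (nat_lit 286) (nat_lit 204)) (XT.lf (nat_lit 0) (nat_lit 856457753) (nat_lit 760) (nat_lit 33921645359) (nat_lit 836) (nat_lit 2219363337) (nat_lit 83) (nat_lit 5) (nat_lit 93) (nat_lit 5) (nat_lit 94) (nat_lit 5) (nat_lit 291) (nat_lit 286) (nat_lit 203))) (XT.nd (nat_lit 78) (nat_lit 456) (nat_lit 0) (XT.lf (nat_lit 0) (nat_lit 4443891362) (nat_lit 760) (nat_lit 6212809024) (nat_lit 836) (nat_lit 27924458917) (nat_lit 83) (nat_lit 5) (nat_lit 93) (nat_lit 5) (nat_lit 94) (nat_lit 5) (nat_lit 292) (nat_lit 286) (nat_lit 202)) (XT.nd (nat_lit 78) (nat_lit 532) (nat_lit 0) (XT.lf (nat_lit 0) (nat_lit 8939887524) (nat_lit 760) (nat_lit 16029021677) (nat_lit 76) (nat_lit 15291573753) (nat_lit 84) (nat_lit 5) (nat_lit 94) (nat_lit 5) (nat_lit 85) (nat_lit 5) (nat_lit 293) (nat_lit 286) (nat_lit 201)) (XT.lf (nat_lit 0) (nat_lit 14341039101) (nat_lit 608) (nat_lit 26492278510) (nat_lit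 76) (nat_lit 1213573838) (nat_lit 77) (nat_lit 5) (nat_lit 85) (nat_lit 5) (nat_lit 78) (nat_lit 5) (nat_lit 294) (nat_lit 286) (nat_lit 200)))))) (XT.nd (nat_lit 390) (nat_lit 1064) (nat_lit 0) (XT.nd (nat_lit 156) (nat_lit 988) (nat_lit 0) (XT.nd (nat_lit 78) (nat_lit 0) (nat_lit 0) (XT.lf (nat_lit 0) (nat_lit 6036343686) (nat_lit 380) (nat_lit 14930469071) (nat_lit 456) (nat_lit 22969785164) (nat_lit 72) (nat_lit 5) (nat_lit 77) (nat_lit 5) (nat_lit 78) (nat_lit 5) (nat_lit 295) (nat_lit 286) (nat_lit 199)) (XT.lf (nat_lit 0) (nat_lit 28789216760) (nat_lit 456) (nat_lit 4058728421) (nat_lit 76) (nat_lit 13096218230) (nat_lit 72) (nat_lit 5) (nat_lit 78) (nat_lit 5) (nat_lit 73) (nat_lit 5) (nat_lit 296) (nat_lit 286) (nat_lit 198))) (XT.nd (nat_lit 78) (nat_lit 684) (nat_lit 0) (XT.lf (nat_lit 0) (nat_lit 33298207944) (nat_lit 304) (nat_lit 4705155088) (nat_lit 380) (nat_lit 10070683721)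 (nat_lit 68) (nat_lit 5) (nat_lit 72) (nat_lit 5) (nat_lit 73) (nat_lit 5) (nat_lit 297) (nat_lit 286) (nat_lit 197)) (XT.nd (nat_lit 78) (nat_lit 380) (nat_lit 0) (XT.lf (nat_lit 0) (nat_lit 23770493758) (nat_lit 304) (nat_lit 25022853636) (nat_lit 380) (nat_lit 1539047416) (nat_lit 64) (nat_lit 5) (nat_lit 68) (nat_lit 5) (nat_lit 69) (nat_lit 5) (nat_lit 298) (nat_lit 286) (nat_lit 196)) (XT.lf (nat_lit 0) (nat_lit 8058848497) (nat_lit 380) (nat_lit 39433791821) (nat_lit 76) (nat_lit 5241318118) (nat_lit 59) (nat_lit 5) (nat_lit 64) (nat_lit 5) (nat_lit 60) (nat_lit 5) (nat_lit 299) (nat_lit 286) (nat_lit 195))))) (XT.nd (nat_lit 156) (nat_lit 760) (nat_lit 0) (XT.nd (nat_lit 78) (nat_lit 0) (nat_lit 0) (XT.lf (nat_lit 0) (nat_lit 1584626999) (nat_lit 304) (nat_lit 17698840532) (nat_lit 380) (nat_lit 35997285145) (nat_lit 55) (nat_lit 5) (nat_lit 59) (nat_lit 5) (nat_lit 60) (nat_lit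 5) (nat_lit 300) (nat_lit 286) (nat_lit 194)) (XT.lf (nat_lit 0) (nat_lit 32325678301) (nat_lit 380) (nat_lit 10947363053) (nat_lit 76) (nat_lit 14712275070) (nat_lit 55) (nat_lit 5) (nat_lit 60) (nat_lit 5) (nat_lit 56) (nat_lit 5) (nat_lit 301) (nat_lit 286) (nat_lit 193))) (XT.nd (nat_lit 78) (nat_lit 532) (nat_lit 0) (XT.lf (nat_lit 0) (nat_lit 36072030070) (nat_lit 228) (nat_lit 11196597581) (nat_lit 304) (nat_lit 13594756089) (nat_lit 52) (nat_lit 5) (nat_lit 55) (nat_lit 5) (nat_lit 56) (nat_lit 5) (nat_lit 302) (nat_lit 286) (nat_lit 192)) (XT.nd (nat_lit 78) (nat_lit 228) (nat_lit 0) (XT.lf (nat_lit 0) (nat_lit 393863344) (nat_lit 304) (nat_lit 40267139236) (nat_lit 76) (nat_lit 23264116786) (nat_lit 48) (nat_lit 5) (nat_lit 52) (nat_lit 5) (nat_lit 49) (nat_lit 5) (nat_lit 303) (nat_lit 286) (nat_lit 191)) (XT.lf (nat_lit 0) (nat_lit 9533138165) (nat_lit 228) (nat_lit 6271181860)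 (nat_lit 304) (nat_lit 51377383839) (nat_lit 45) (nat_lit 5) (nat_lit 48) (nat_lit 5) (nat_lit 49) (nat_lit 5) (nat_lit 304) (nat_lit 286) (nat_lit 190))))))) (XT.nd (nat_lit 780) (nat_lit 988) (nat_lit 0) (XT.nd (nat_lit 390) (nat_lit 684) (nat_lit 0) (XT.nd (nat_lit 156) (nat_lit 456) (nat_lit 0) (XT.nd (nat_lit 78) (nat_lit 228) (nat_lit 0) (XT.lf (nat_lit 0) (nat_lit 33638804719) (nat_lit 304) (nat_lit 6407009221) (nat_lit 76) (nat_lit 30593446564) (nat_lit 45) (nat_lit 5) (nat_lit 49) (nat_lit 5) (nat_lit 46) (nat_lit 5) (nat_lit 305) (nat_lit 286) (nat_lit 189)) (XT.lf (nat_lit 0) (nat_lit 50437664653) (nat_lit 228) (nat_lit 3352175047) (nat_lit 304) (nat_lit 20539096987) (nat_lit 42) (nat_lit 5) (nat_lit 45) (nat_lit 5) (nat_lit 46) (nat_lit 5) (nat_lit 306) (nat_lit 286) (nat_lit 188))) (XT.nd (nat_lit 78) (nat_lit 304) (nat_lit 0) (XT.lf (nat_lit 0) (nat_lit 34274562001) (nat_lit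 152) (nat_lit 42490074067) (nat_lit 228) (nat_lit 1488571218) (nat_lit 40) (nat_lit 5) (nat_lit 42) (nat_lit 5) (nat_lit 43) (nat_lit 5) (nat_lit 307) (nat_lit 286) (nat_lit 187)) (XT.nd (nat_lit 78) (nat_lit 0) (nat_lit 0) (XT.lf (nat_lit 0) (nat_lit 15609858048) (nat_lit 228) (nat_lit 3585350779) (nat_lit 304) (nat_lit 63245310991) (nat_lit 36) (nat_lit 5) (nat_lit 39) (nat_lit 5) (nat_lit 40) (nat_lit 5) (nat_lit 308) (nat_lit 286) (nat_lit 186)) (XT.lf (nat_lit 0) (nat_lit 42857896298) (nat_lit 304) (nat_lit 6030847817) (nat_lit 76) (nat_lit 38004038702) (nat_lit 36) (nat_lit 5) (nat_lit 40) (nat_lit 5) (nat_lit 37) (nat_lit 5) (nat_lit 309) (nat_lit 286) (nat_lit 185))))) (XT.nd (nat_lit 156) (nat_lit 304) (nat_lit 0) (XT.nd (nat_lit 78) (nat_lit 228) (nat_lit 0) (XT.lf (nat_lit 0) (nat_lit 61537876023) (nat_lit 152) (nat_lit 7894174088) (nat_lit 228) (nat_lit 22218257390) (nat_lit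 34) (nat_lit 5) (nat_lit 36) (nat_lit 5) (nat_lit 37) (nat_lit 5) (nat_lit 310) (nat_lit 286) (nat_lit 184)) (XT.lf (nat_lit 0) (nat_lit 2596447561) (nat_lit 228) (nat_lit 58160523273) (nat_lit 76) (nat_lit 35965629593) (nat_lit 31) (nat_lit 5) (nat_lit 34) (nat_lit 5) (nat_lit 32) (nat_lit 5) (nat_lit 311) (nat_lit 286) (nat_lit 183))) (XT.nd (nat_lit 78) (nat_lit 152) (nat_lit 0) (XT.lf (nat_lit 0) (nat_lit 11478378629) (nat_lit 152) (nat_lit 17992825089) (nat_lit 228) (nat_lit 72668599288) (nat_lit 29) (nat_lit 5) (nat_lit 31) (nat_lit 5) (nat_lit 32) (nat_lit 5) (nat_lit 312) (nat_lit 286) (nat_lit 182)) (XT.nd (nat_lit 78) (nat_lit 152) (nat_lit 0) (XT.lf (nat_lit 0) (nat_lit 59963367943) (nat_lit 228) (nat_lit 19635190631) (nat_lit 76) (nat_lit 28318454269) (nat_lit 29) (nat_lit 5) (nat_lit 32) (nat_lit 5) (nat_lit 30) (nat_lit 5) (nat_lit 313) (nat_lit 286) (nat_lit 181)) (XT.lf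 (nat_lit 0) (nat_lit 58643007871) (nat_lit 152) (nat_lit 35468590555) (nat_lit 228) (nat_lit 19983968632) (nat_lit 27) (nat_lit 5) (nat_lit 29) (nat_lit 5) (nat_lit 30) (nat_lit 5) (nat_lit 314) (nat_lit 286) (nat_lit 180)))))) (XT.nd (nat_lit 390) (nat_lit 532) (nat_lit 0) (XT.nd (nat_lit 156) (nat_lit 304) (nat_lit 0) (XT.nd (nat_lit 78) (nat_lit 0) (nat_lit 0) (XT.lf (nat_lit 0) (nat_lit 10816617110) (nat_lit 152) (nat_lit 97205534668) (nat_lit 76) (nat_lit 12692247900) (nat_lit 25) (nat_lit 5) (nat_lit 27) (nat_lit 5) (nat_lit 26) (nat_lit 5) (nat_lit 315) (nat_lit 286) (nat_lit 179)) (XT.lf (nat_lit 0) (nat_lit 44968201565) (nat_lit 152) (nat_lit 18001440386) (nat_lit 76) (nat_lit 64797363851) (nat_lit 25) (nat_lit 5) (nat_lit 27) (nat_lit 5) (nat_lit 26) (nat_lit 5) (nat_lit 316) (nat_lit 286) (nat_lit 178))) (XT.nd (nat_lit 78) (nat_lit 152) (nat_lit 0) (XT.lf (nat_lit 0) (nat_lit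 69768750155) (nat_lit 152) (nat_lit 13170489407) (nat_lit 228) (nat_lit 52390216216) (nat_lit 23) (nat_lit 5) (nat_lit 25) (nat_lit 5) (nat_lit 26) (nat_lit 5) (nat_lit 317) (nat_lit 286) (nat_lit 177)) (XT.nd (nat_lit 78) (nat_lit 76) (nat_lit 0) (XT.lf (nat_lit 0) (nat_lit 21776732948) (nat_lit 76) (nat_lit 103462131614) (nat_lit 152) (nat_lit 18193493567) (nat_lit 22) (nat_lit 5) (nat_lit 23) (nat_lit 5) (nat_lit 24) (nat_lit 4) (nat_lit 318) (nat_lit 286) (nat_lit 176)) (XT.lf (nat_lit 0) (nat_lit 19520206905) (nat_lit 152) (nat_lit 34220563736) (nat_lit 76) (nat_lit 98359044826) (nat_lit 21) (nat_lit 5) (nat_lit 23) (nat_lit 5) (nat_lit 22) (nat_lit 5) (nat_lit 319) (nat_lit 286) (nat_lit 175))))) (XT.nd (nat_lit 234) (nat_lit 304) (nat_lit 0) (XT.nd (nat_lit 78) (nat_lit 76) (nat_lit 0) (XT.lf (nat_lit 0) (nat_lit 60606747514) (nat_lit 228) (nat_lit 99537119081) (nat_lit 76) (nat_lit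 1252233607) (nat_lit 19) (nat_lit 5) (nat_lit 22) (nat_lit 5) (nat_lit 20) (nat_lit 4) (nat_lit 320) (nat_lit 286) (nat_lit 174)) (XT.nd (nat_lit 78) (nat_lit 76) (nat_lit 0) (XT.lf (nat_lit 0) (nat_lit 106490628307) (nat_lit 228) (nat_lit 5478156459) (nat_lit 76) (nat_lit 59391783294) (nat_lit 19) (nat_lit 5) (nat_lit 22) (nat_lit 5) (nat_lit 20) (nat_lit 4) (nat_lit 321) (nat_lit 286) (nat_lit 173)) (XT.lf (nat_lit 0) (nat_lit 99280499820) (nat_lit 76) (nat_lit 58313263891) (nat_lit 152) (nat_lit 24451003530) (nat_lit 18) (nat_lit 5) (nat_lit 19) (nat_lit 5) (nat_lit 20) (nat_lit 4) (nat_lit 322) (nat_lit 286) (nat_lit 172)))) (XT.nd (nat_lit 78) (nat_lit 76) (nat_lit 0) (XT.lf (nat_lit 0) (nat_lit 18990293102) (nat_lit 228) (nat_lit 174202548479) (nat_lit 76) (nat_lit 355701739) (nat_lit 15) (nat_lit 5) (nat_lit 18) (nat_lit 5) (nat_lit 16) (nat_lit 4) (nat_lit 323) (nat_lit 286) (nat_lit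 171)) (XT.nd (nat_lit 78) (nat_lit 76) (nat_lit 0) (XT.lf (nat_lit 0) (nat_lit 67508902753) (nat_lit 228) (nat_lit 74741661497) (nat_lit 76) (nat_lit 63579083662) (nat_lit 15) (nat_lit 5) (nat_lit 18) (nat_lit 5) (nat_lit 16) (nat_lit 4) (nat_lit 324) (nat_lit 286) (nat_lit 170)) (XT.lf (nat_lit 0) (nat_lit 33754127056) (nat_lit 76) (nat_lit 86680572643) (nat_lit 152) (nat_lit 98632257078) (nat_lit 14) (nat_lit 5) (nat_lit 15) (nat_lit 5) (nat_lit 16) (nat_lit 4) (nat_lit 325) (nat_lit 286) (nat_lit 169))))))))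
noncomputable def xc95 : XT := (XT.nd (nat_lit 37752) (nat_lit 0) (nat_lit 2356) (XT.nd (nat_lit 780) (nat_lit 228) (nat_lit 0) (XT.nd (nat_lit 390) (nat_lit 228) (nat_lit 0) (XT.nd (nat_lit 156) (nat_lit 152) (nat_lit 0) (XT.nd (nat_lit 78) (nat_lit 76) (nat_lit 0) (XT.lf (nat_lit 0) (nat_lit 153596367552) (nat_lit 76) (nat_lit 25298907993) (nat_lit 152) (nat_lit 54402939822) (nat_lit 14) (nat_lit 5) (nat_lit 15) (nat_lit 5) (nat_lit 16) (nat_lit 4) (nat_lit 326) (nat_lit 286) (nat_lit 168)) (XT.lf (nat_lit 0) (nat_lit 34830700665) (nat_lit 76) (nat_lit 208384662885) (nat_lit 76) (nat_lit 5393478502) (nat_lit 13) (nat_lit 4) (nat_lit 14) (nat_lit 5) (nat_lit 14) (nat_lit 4) (nat_lit 327) (nat_lit 286) (nat_lit 167))) (XT.nd (nat_lit 78) (nat_lit 76) (nat_lit 0) (XT.lf (nat_lit 0) (nat_lit 47851844628) (nat_lit 152) (nat_lit 104896486920) (nat_lit 76) (nat_lit 112267049997) (nat_lit 12)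 (nat_lit 5) (nat_lit 14) (nat_lit 5) (nat_lit 13) (nat_lit 4) (nat_lit 328) (nat_lit 286) (nat_lit 166)) (XT.nd (nat_lit 78) (nat_lit 0) (nat_lit 0) (XT.lf (nat_lit 0) (nat_lit 13019576120) (nat_lit 76) (nat_lit 92353014718) (nat_lit 152) (nat_lit 177347195136) (nat_lit 11) (nat_lit 5) (nat_lit 12) (nat_lit 5) (nat_lit 13) (nat_lit 4) (nat_lit 329) (nat_lit 286) (nat_lit 165)) (XT.lf (nat_lit 0) (nat_lit 144112938319) (nat_lit 76) (nat_lit 25208296541) (nat_lit 152) (nat_lit 132427996530) (nat_lit 11) (nat_lit 5) (nat_lit 12) (nat_lit 5) (nat_lit 13) (nat_lit 4) (nat_lit 330) (nat_lit 286) (nat_lit 164))))) (XT.nd (nat_lit 156) (nat_lit 152) (nat_lit 0) (XT.nd (nat_lit 78) (nat_lit 76) (nat_lit 0) (XT.lf (nat_lit 0) (nat_lit 239123451472) (nat_lit 152) (nat_lit 37347579844) (nat_lit 0) (nat_lit 45793117571) (nat_lit 11) (nat_lit 5) (nat_lit 13) (nat_lit 4) (nat_lit 11) (nat_lit 4) (nat_lit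 331) (nat_lit 286) (nat_lit 163)) (XT.lf (nat_lit 0) (nat_lit 95184077378) (nat_lit 76) (nat_lit 221236055627) (nat_lit 76) (nat_lit 27904612862) (nat_lit 10) (nat_lit 4) (nat_lit 11) (nat_lit 5) (nat_lit 11) (nat_lit 4) (nat_lit 332) (nat_lit 286) (nat_lit 162))) (XT.nd (nat_lit 78) (nat_lit 76) (nat_lit 0) (XT.lf (nat_lit 0) (nat_lit 31394550285) (nat_lit 152) (nat_lit 128973641404) (nat_lit 76) (nat_lit 207724193641) (nat_lit 9) (nat_lit 5) (nat_lit 11) (nat_lit 5) (nat_lit 10) (nat_lit 4) (nat_lit 333) (nat_lit 286) (nat_lit 161)) (XT.nd (nat_lit 78) (nat_lit 0) (nat_lit 0) (XT.lf (nat_lit 0) (nat_lit 345869747) (nat_lit 76) (nat_lit 94131832647) (nat_lit 152) (nat_lit 299259976421) (nat_lit 8) (nat_lit 5) (nat_lit 9) (nat_lit 5) (nat_lit 10) (nat_lit 4) (nat_lit 334) (nat_lit 286) (nat_lit 160)) (XT.lf (nat_lit 0) (nat_lit 144615185520) (nat_lit 76) (nat_lit 20238222251) (nat_lit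 152) (nat_lit 256468893301) (nat_lit 8) (nat_lit 5) (nat_lit 9) (nat_lit 5) (nat_lit 10) (nat_lit 4) (nat_lit 335) (nat_lit 286) (nat_lit 159)))))) (XT.nd (nat_lit 390) (nat_lit 76) (nat_lit 0) (XT.nd (nat_lit 156) (nat_lit 152) (nat_lit 0) (XT.nd (nat_lit 78) (nat_lit 0) (nat_lit 0) (XT.lf (nat_lit 0) (nat_lit 241788484435) (nat_lit 152) (nat_lit 151618940212) (nat_lit 0) (nat_lit 57659803045) (nat_lit 8) (nat_lit 5) (nat_lit 10) (nat_lit 4) (nat_lit 8) (nat_lit 4) (nat_lit 336) (nat_lit 286) (nat_lit 158)) (XT.lf (nat_lit 0) (nat_lit 325218980786) (nat_lit 152) (nat_lit 16866156619) (nat_lit 0) (nat_lit 141089580659) (nat_lit 8) (nat_lit 5) (nat_lit 10) (nat_lit 4) (nat_lit 8) (nat_lit 4) (nat_lit 337) (nat_lit 286) (nat_lit 157))) (XT.nd (nat_lit 78) (nat_lit 76) (nat_lit 0) (XT.lf (nat_lit 0) (nat_lit 132920016228) (nat_lit 76) (nat_lit 284478562132) (nat_lit 76) (nat_lit 100348496508)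 (nat_lit 7) (nat_lit 4) (nat_lit 8) (nat_lit 5) (nat_lit 8) (nat_lit 4) (nat_lit 338) (nat_lit 286) (nat_lit 156)) (XT.nd (nat_lit 78) (nat_lit 76) (nat_lit 0) (XT.lf (nat_lit 0) (nat_lit 295290311841) (nat_lit 76) (nat_lit 221955464415) (nat_lit 76) (nat_lit 37824782590) (nat_lit 7) (nat_lit 4) (nat_lit 8) (nat_lit 5) (nat_lit 8) (nat_lit 4) (nat_lit 339) (nat_lit 286) (nat_lit 155)) (XT.lf (nat_lit 0) (nat_lit 28749684443) (nat_lit 152) (nat_lit 125194399273) (nat_lit 76) (nat_lit 441412678998) (nat_lit 6) (nat_lit 5) (nat_lit 8) (nat_lit 5) (nat_lit 7) (nat_lit 4) (nat_lit 340) (nat_lit 286) (nat_lit 154))))) (XT.nd (nat_lit 234) (nat_lit 0) (nat_lit 0) (XT.nd (nat_lit 78) (nat_lit 0) (nat_lit 0) (XT.lf (nat_lit 0) (nat_lit 20165005550) (nat_lit 76) (nat_lit 79491963339) (nat_lit 152) (nat_lit 539161287480) (nat_lit 5) (nat_lit 5) (nat_lit 6) (nat_lit 5) (nat_lit 7) (nat_lit 4) (nat_lit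 341) (nat_lit 286) (nat_lit 153)) (XT.nd (nat_lit 78) (nat_lit 0) (nat_lit 0) (XT.lf (nat_lit 0) (nat_lit 178467222791) (nat_lit 152) (nat_lit 504074771305) (nat_lit 0) (nat_lit 3103156282) (nat_lit 5) (nat_lit 5) (nat_lit 7) (nat_lit 4) (nat_lit 5) (nat_lit 4) (nat_lit 342) (nat_lit 286) (nat_lit 152)) (XT.lf (nat_lit 0) (nat_lit 264922235690) (nat_lit 152) (nat_lit 381671225640) (nat_lit 0) (nat_lit 89557737823) (nat_lit 5) (nat_lit 5) (nat_lit 7) (nat_lit 4) (nat_lit 5) (nat_lit 4) (nat_lit 343) (nat_lit 286) (nat_lit 151)))) (XT.nd (nat_lit 36192) (nat_lit 0) (nat_lit 6460) (XT.lf (nat_lit 0) (nat_lit 358293241266) (nat_lit 152) (nat_lit 249476167156) (nat_lit 0) (nat_lit 182928343993) (nat_lit 5) (nat_lit 5) (nat_lit 7) (nat_lit 4) (nat_lit 5) (nat_lit 4) (nat_lit 344) (nat_lit 286) (nat_lit 150)) (XT.nd (nat_lit 78) (nat_lit 0) (nat_lit 0) (XT.lf (nat_lit 0) (nat_lit 6620063592)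 (nat_lit 0) (nat_lit 6620063592) (nat_lit 684) (nat_lit 3108279189) (nat_lit 90) (nat_lit 5) (nat_lit 90) (nat_lit 3) (nat_lit 99) (nat_lit 3) (nat_lit 287) (nat_lit 287) (nat_lit 206)) (XT.lf (nat_lit 76) (nat_lit 4217301882) (nat_lit 0) (nat_lit 23643948899) (nat_lit 760) (nat_lit 6127163271) (nat_lit 91) (nat_lit 5) (nat_lit 90) (nat_lit 5) (nat_lit 100) (nat_lit 5) (nat_lit 288) (nat_lit 287) (nat_lit 205))))))) (XT.nd (nat_lit 780) (nat_lit 2432) (nat_lit 0) (XT.nd (nat_lit 390) (nat_lit 1140) (nat_lit 0) (XT.nd (nat_lit 156) (nat_lit 608) (nat_lit 0) (XT.nd (nat_lit 78) (nat_lit 0) (nat_lit 0) (XT.lf (nat_lit 0) (nat_lit 29907608198) (nat_lit 684) (nat_lit 5117073008) (nat_lit 760) (nat_lit 330936389) (nat_lit 91) (nat_lit 5) (nat_lit 100) (nat_lit 5) (nat_lit 101) (nat_lit 5) (nat_lit 289) (nat_lit 287) (nat_lit 204)) (XT.lf (nat_lit 76) (nat_lit 21803124934) (nat_lit 0) (nat_lit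 11045330265) (nat_lit 760) (nat_lit 3947220022) (nat_lit 92) (nat_lit 5) (nat_lit 91) (nat_lit 5) (nat_lit 101) (nat_lit 5) (nat_lit 290) (nat_lit 287) (nat_lit 203))) (XT.nd (nat_lit 78) (nat_lit 684) (nat_lit 0) (XT.lf (nat_lit 76) (nat_lit 12886760385) (nat_lit 0) (nat_lit 23653763175) (nat_lit 760) (nat_lit 1784631820) (nat_lit 93) (nat_lit 5) (nat_lit 92) (nat_lit 5) (nat_lit 102) (nat_lit 5) (nat_lit 291) (nat_lit 287) (nat_lit 202)) (XT.nd (nat_lit 78) (nat_lit 0) (nat_lit 0) (XT.lf (nat_lit 0) (nat_lit 1070022379) (nat_lit 760) (nat_lit 36515402772) (nat_lit 836) (nat_lit 2364317793) (nat_lit 83) (nat_lit 5) (nat_lit 93) (nat_lit 5) (nat_lit 94) (nat_lit 5) (nat_lit 292) (nat_lit 287) (nat_lit 201)) (XT.lf (nat_lit 0) (nat_lit 4933706381) (nat_lit 760) (nat_lit 6598746509) (nat_lit 836) (nat_lit 30128235436) (nat_lit 83) (nat_lit 5) (nat_lit 93) (nat_lit 5) (nat_lit 94) (nat_lit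 5) (nat_lit 293) (nat_lit 287) (nat_lit 200))))) (XT.nd (nat_lit 156) (nat_lit 684) (nat_lit 0) (XT.nd (nat_lit 78) (nat_lit 532) (nat_lit 0) (XT.lf (nat_lit 0) (nat_lit 9780784394) (nat_lit 760) (nat_lit 17198244622) (nat_lit 76) (nat_lit 16495777154) (nat_lit 84) (nat_lit 5) (nat_lit 94) (nat_lit 5) (nat_lit 85) (nat_lit 5) (nat_lit 294) (nat_lit 287) (nat_lit 199)) (XT.lf (nat_lit 0) (nat_lit 15606251039) (nat_lit 608) (nat_lit 28497205325) (nat_lit 76) (nat_lit 1301076880) (nat_lit 77) (nat_lit 5) (nat_lit 85) (nat_lit 5) (nat_lit 78) (nat_lit 5) (nat_lit 295) (nat_lit 287) (nat_lit 198))) (XT.nd (nat_lit 78) (nat_lit 304) (nat_lit 0) (XT.lf (nat_lit 0) (nat_lit 6628732551) (nat_lit 380) (nat_lit 16126327880) (nat_lit 456) (nat_lit 24690722894) (nat_lit 72) (nat_lit 5) (nat_lit 77) (nat_lit 5) (nat_lit 78) (nat_lit 5) (nat_lit 296) (nat_lit 287) (nat_lit 197)) (XT.nd (nat_lit 78) (nat_lit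 304) (nat_lit 0) (XT.lf (nat_lit 0) (nat_lit 31195021196) (nat_lit 456) (nat_lit 4276717444) (nat_lit 76) (nat_lit 14142641806) (nat_lit 72) (nat_lit 5) (nat_lit 78) (nat_lit 5) (nat_lit 73) (nat_lit 5) (nat_lit 297) (nat_lit 287) (nat_lit 196)) (XT.lf (nat_lit 0) (nat_lit 36064136376) (nat_lit 304) (nat_lit 5076151452) (nat_lit 380) (nat_lit 10774680729) (nat_lit 68) (nat_lit 5) (nat_lit 72) (nat_lit 5) (nat_lit 73) (nat_lit 5) (nat_lit 298) (nat_lit 287) (nat_lit 195)))))) (XT.nd (nat_lit 390) (nat_lit 1216) (nat_lit 0) (XT.nd (nat_lit 156) (nat_lit 532) (nat_lit 0) (XT.nd (nat_lit 78) (nat_lit 380) (nat_lit 0) (XT.lf (nat_lit 0) (nat_lit 25774472813) (nat_lit 304) (nat_lit 27013514542) (nat_lit 380) (nat_lit 1566283810) (nat_lit 64) (nat_lit 5) (nat_lit 68) (nat_lit 5) (nat_lit 69) (nat_lit 5) (nat_lit 299) (nat_lit 287) (nat_lit 194)) (XT.lf (nat_lit 0) (nat_lit 8791285779) (nat_lit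 380) (nat_lit 42483220787) (nat_lit 76) (nat_lit 5673643962) (nat_lit 59) (nat_lit 5) (nat_lit 64) (nat_lit 5) (nat_lit 60) (nat_lit 5) (nat_lit 300) (nat_lit 287) (nat_lit 193))) (XT.nd (nat_lit 78) (nat_lit 228) (nat_lit 0) (XT.lf (nat_lit 0) (nat_lit 1812096443) (nat_lit 304) (nat_lit 19096851617) (nat_lit 380) (nat_lit 38789996792) (nat_lit 55) (nat_lit 5) (nat_lit 59) (nat_lit 5) (nat_lit 60) (nat_lit 5) (nat_lit 301) (nat_lit 287) (nat_lit 192)) (XT.nd (nat_lit 78) (nat_lit 228) (nat_lit 0) (XT.lf (nat_lit 0) (nat_lit 34988660839) (nat_lit 380) (nat_lit 11726218844) (nat_lit 76) (nat_lit 15905297232) (nat_lit 55) (nat_lit 5) (nat_lit 60) (nat_lit 5) (nat_lit 56) (nat_lit 5) (nat_lit 302) (nat_lit 287) (nat_lit 191)) (XT.lf (nat_lit 0) (nat_lit 39050513128) (nat_lit 228) (nat_lit 12072282248) (nat_lit 304) (nat_lit 14605915550) (nat_lit 52) (nat_lit 5) (nat_lit 55) (nat_lit 5) (nat_lit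 56) (nat_lit 5) (nat_lit 303) (nat_lit 287) (nat_lit 190))))) (XT.nd (nat_lit 234) (nat_lit 684) (nat_lit 0) (XT.nd (nat_lit 78) (nat_lit 228) (nat_lit 0) (XT.lf (nat_lit 0) (nat_lit 495621843) (nat_lit 304) (nat_lit 43394118307) (nat_lit 76) (nat_lit 25145779611) (nat_lit 48) (nat_lit 5) (nat_lit 52) (nat_lit 5) (nat_lit 49) (nat_lit 5) (nat_lit 304) (nat_lit 287) (nat_lit 189)) (XT.nd (nat_lit 78) (nat_lit 0) (nat_lit 0) (XT.lf (nat_lit 0) (nat_lit 10386079122) (nat_lit 228) (nat_lit 6749041953) (nat_lit 304) (nat_lit 55417706805) (nat_lit 45) (nat_lit 5) (nat_lit 48) (nat_lit 5) (nat_lit 49) (nat_lit 5) (nat_lit 305) (nat_lit 287) (nat_lit 188)) (XT.lf (nat_lit 0) (nat_lit 36391786477) (nat_lit 304) (nat_lit 6833153222) (nat_lit 76) (nat_lit 33062284886) (nat_lit 45) (nat_lit 5) (nat_lit 49) (nat_lit 5) (nat_lit 46) (nat_lit 5) (nat_lit 306) (nat_lit 287) (nat_lit 187)))) (XT.nd (nat_lit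 78) (nat_lit 456) (nat_lit 0) (XT.lf (nat_lit 0) (nat_lit 54555338996) (nat_lit 228) (nat_lit 3596272324) (nat_lit 304) (nat_lit 22120634331) (nat_lit 42) (nat_lit 5) (nat_lit 45) (nat_lit 5) (nat_lit 46) (nat_lit 5) (nat_lit 307) (nat_lit 287) (nat_lit 186)) (XT.nd (nat_lit 78) (nat_lit 304) (nat_lit 0) (XT.lf (nat_lit 0) (nat_lit 37098111545) (nat_lit 152) (nat_lit 45863562087) (nat_lit 228) (nat_lit 1548925838) (nat_lit 40) (nat_lit 5) (nat_lit 42) (nat_lit 5) (nat_lit 43) (nat_lit 5) (nat_lit 308) (nat_lit 287) (nat_lit 185)) (XT.lf (nat_lit 0) (nat_lit 16938548518) (nat_lit 228) (nat_lit 3846164615) (nat_lit 304) (nat_lit 68248291224) (nat_lit 36) (nat_lit 5) (nat_lit 39) (nat_lit 5) (nat_lit 40) (nat_lit 5) (nat_lit 309) (nat_lit 287) (nat_lit 184))))))))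
noncomputable def xc96 : XT := (XT.nd (nat_lit 1560) (nat_lit 532) (nat_lit 0) (XT.nd (nat_lit 780) (nat_lit 760) (nat_lit 0) (XT.nd (nat_lit 390) (nat_lit 532) (nat_lit 0) (XT.nd (nat_lit 156) (nat_lit 380) (nat_lit 0) (XT.nd (nat_lit 78) (nat_lit 152) (nat_lit 0) (XT.lf (nat_lit 0) (nat_lit 46336799997) (nat_lit 304) (nat_lit 6437155718) (nat_lit 76) (nat_lit 41067678103) (nat_lit 36) (nat_lit 5) (nat_lit 40) (nat_lit 5) (nat_lit 37) (nat_lit 5) (nat_lit 310) (nat_lit 287) (nat_lit 183)) (XT.lf (nat_lit 0) (nat_lit 66533756212) (nat_lit 152) (nat_lit 8500543445) (nat_lit 228) (nat_lit 23945594439) (nat_lit 34) (nat_lit 5) (nat_lit 36) (nat_lit 5) (nat_lit 37) (nat_lit 5) (nat_lit 311) (nat_lit 287) (nat_lit 182))) (XT.nd (nat_lit 78) (nat_lit 152) (nat_lit 0) (XT.lf (nat_lit 0) (nat_lit 2850595214) (nat_lit 228) (nat_lit 62740142143) (nat_lit 76) (nat_lit 38867302133) (nat_lit 31) (nat_lit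 5) (nat_lit 34) (nat_lit 5) (nat_lit 32) (nat_lit 5) (nat_lit 312) (nat_lit 287) (nat_lit 181)) (XT.nd (nat_lit 78) (nat_lit 0) (nat_lit 0) (XT.lf (nat_lit 0) (nat_lit 12466689729) (nat_lit 152) (nat_lit 19406296272) (nat_lit 228) (nat_lit 78435753077) (nat_lit 29) (nat_lit 5) (nat_lit 31) (nat_lit 5) (nat_lit 32) (nat_lit 5) (nat_lit 313) (nat_lit 287) (nat_lit 180)) (XT.lf (nat_lit 0) (nat_lit 64801632946) (nat_lit 228) (nat_lit 21139446853) (nat_lit 76) (nat_lit 30607193673) (nat_lit 29) (nat_lit 5) (nat_lit 32) (nat_lit 5) (nat_lit 30) (nat_lit 5) (nat_lit 314) (nat_lit 287) (nat_lit 179))))) (XT.nd (nat_lit 156) (nat_lit 228) (nat_lit 0) (XT.nd (nat_lit 78) (nat_lit 152) (nat_lit 0) (XT.lf (nat_lit 0) (nat_lit 63398114955) (nat_lit 152) (nat_lit 38281549401) (nat_lit 228) (nat_lit 21541553553) (nat_lit 27) (nat_lit 5) (nat_lit 29) (nat_lit 5) (nat_lit 30) (nat_lit 5) (nat_lit 315)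 (nat_lit 287) (nat_lit 178)) (XT.lf (nat_lit 0) (nat_lit 11720164475) (nat_lit 152) (nat_lit 104918239507) (nat_lit 76) (nat_lit 13731203603) (nat_lit 25) (nat_lit 5) (nat_lit 27) (nat_lit 5) (nat_lit 26) (nat_lit 5) (nat_lit 316) (nat_lit 287) (nat_lit 177))) (XT.nd (nat_lit 78) (nat_lit 228) (nat_lit 0) (XT.lf (nat_lit 0) (nat_lit 48601044725) (nat_lit 152) (nat_lit 19382539012) (nat_lit 76) (nat_lit 70002982470) (nat_lit 25) (nat_lit 5) (nat_lit 27) (nat_lit 5) (nat_lit 26) (nat_lit 5) (nat_lit 317) (nat_lit 287) (nat_lit 176)) (XT.nd (nat_lit 78) (nat_lit 76) (nat_lit 0) (XT.lf (nat_lit 0) (nat_lit 75406701984) (nat_lit 152) (nat_lit 14201323887) (nat_lit 228) (nat_lit 56546075578) (nat_lit 23) (nat_lit 5) (nat_lit 25) (nat_lit 5) (nat_lit 26) (nat_lit 5) (nat_lit 318) (nat_lit 287) (nat_lit 175)) (XT.lf (nat_lit 0) (nat_lit 23574165944) (nat_lit 76) (nat_lit 111716155516) (nat_lit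 152) (nat_lit 19614981603) (nat_lit 22) (nat_lit 5) (nat_lit 23) (nat_lit 5) (nat_lit 24) (nat_lit 4) (nat_lit 319) (nat_lit 287) (nat_lit 174)))))) (XT.nd (nat_lit 390) (nat_lit 228) (nat_lit 0) (XT.nd (nat_lit 156) (nat_lit 304) (nat_lit 0) (XT.nd (nat_lit 78) (nat_lit 152) (nat_lit 0) (XT.lf (nat_lit 0) (nat_lit 21112289670) (nat_lit 152) (nat_lit 36905979785) (nat_lit 76) (nat_lit 106247984720) (nat_lit 21) (nat_lit 5) (nat_lit 23) (nat_lit 5) (nat_lit 22) (nat_lit 5) (nat_lit 320) (nat_lit 287) (nat_lit 173)) (XT.lf (nat_lit 0) (nat_lit 65484604173) (nat_lit 228) (nat_lit 107448985795) (nat_lit 76) (nat_lit 1372710910) (nat_lit 19) (nat_lit 5) (nat_lit 22) (nat_lit 5) (nat_lit 20) (nat_lit 4) (nat_lit 321) (nat_lit 287) (nat_lit 172))) (XT.nd (nat_lit 78) (nat_lit 304) (nat_lit 0) (XT.lf (nat_lit 0) (nat_lit 115037023810) (nat_lit 228) (nat_lit 5869091556) (nat_lit 76) (nat_lit 64161920971)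 (nat_lit 19) (nat_lit 5) (nat_lit 22) (nat_lit 5) (nat_lit 20) (nat_lit 4) (nat_lit 322) (nat_lit 287) (nat_lit 171)) (XT.nd (nat_lit 78) (nat_lit 228) (nat_lit 0) (XT.lf (nat_lit 0) (nat_lit 107268200867) (nat_lit 76) (nat_lit 62958905072) (nat_lit 152) (nat_lit 26379932193) (nat_lit 18) (nat_lit 5) (nat_lit 19) (nat_lit 5) (nat_lit 20) (nat_lit 4) (nat_lit 323) (nat_lit 287) (nat_lit 170)) (XT.lf (nat_lit 0) (nat_lit 20534839944) (nat_lit 228) (nat_lit 188093641216) (nat_lit 76) (nat_lit 402663203) (nat_lit 15) (nat_lit 5) (nat_lit 18) (nat_lit 5) (nat_lit 16) (nat_lit 4) (nat_lit 324) (nat_lit 287) (nat_lit 169))))) (XT.nd (nat_lit 156) (nat_lit 152) (nat_lit 0) (XT.nd (nat_lit 78) (nat_lit 76) (nat_lit 0) (XT.lf (nat_lit 0) (nat_lit 72933062560) (nat_lit 228) (nat_lit 80679224841) (nat_lit 76) (nat_lit 68682544916) (nat_lit 15) (nat_lit 5) (nat_lit 18) (nat_lit 5) (nat_lit 16) (nat_lit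 4) (nat_lit 325) (nat_lit 287) (nat_lit 168)) (XT.lf (nat_lit 0) (nat_lit 36494411542) (nat_lit 76) (nat_lit 93597398661) (nat_lit 152) (nat_lit 106499372456) (nat_lit 14) (nat_lit 5) (nat_lit 15) (nat_lit 5) (nat_lit 16) (nat_lit 4) (nat_lit 326) (nat_lit 287) (nat_lit 167))) (XT.nd (nat_lit 78) (nat_lit 152) (nat_lit 0) (XT.lf (nat_lit 0) (nat_lit 165921071698) (nat_lit 76) (nat_lit 27306506009) (nat_lit 152) (nat_lit 58733447981) (nat_lit 14) (nat_lit 5) (nat_lit 15) (nat_lit 5) (nat_lit 16) (nat_lit 4) (nat_lit 327) (nat_lit 287) (nat_lit 166)) (XT.nd (nat_lit 78) (nat_lit 76) (nat_lit 0) (XT.lf (nat_lit 0) (nat_lit 37653301477) (nat_lit 76) (nat_lit 225039239585) (nat_lit 76) (nat_lit 5803998987) (nat_lit 13) (nat_lit 4) (nat_lit 14) (nat_lit 5) (nat_lit 14) (nat_lit 4) (nat_lit 328) (nat_lit 287) (nat_lit 165)) (XT.lf (nat_lit 0) (nat_lit 51698776471) (nat_lit 152) (nat_lit 113254106878)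 (nat_lit 76) (nat_lit 121262778972) (nat_lit 12) (nat_lit 5) (nat_lit 14) (nat_lit 5) (nat_lit 13) (nat_lit 4) (nat_lit 329) (nat_lit 287) (nat_lit 164))))))) (XT.nd (nat_lit 780) (nat_lit 152) (nat_lit 0) (XT.nd (nat_lit 390) (nat_lit 152) (nat_lit 0) (XT.nd (nat_lit 156) (nat_lit 152) (nat_lit 0) (XT.nd (nat_lit 78) (nat_lit 0) (nat_lit 0) (XT.lf (nat_lit 0) (nat_lit 14093759305) (nat_lit 76) (nat_lit 99726540890) (nat_lit 152) (nat_lit 191516163798) (nat_lit 11) (nat_lit 5) (nat_lit 12) (nat_lit 5) (nat_lit 13) (nat_lit 4) (nat_lit 330) (nat_lit 287) (nat_lit 163)) (XT.lf (nat_lit 0) (nat_lit 155672174399) (nat_lit 76) (nat_lit 27211335259) (nat_lit 152) (nat_lit 143004822411) (nat_lit 11) (nat_lit 5) (nat_lit 12) (nat_lit 5) (nat_lit 13) (nat_lit 4) (nat_lit 331) (nat_lit 287) (nat_lit 162))) (XT.nd (nat_lit 78) (nat_lit 152) (nat_lit 0) (XT.lf (nat_lit 0) (nat_lit 258268872714) (nat_lit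 152) (nat_lit 40306843526) (nat_lit 0) (nat_lit 49468778940) (nat_lit 11) (nat_lit 5) (nat_lit 13) (nat_lit 4) (nat_lit 11) (nat_lit 4) (nat_lit 332) (nat_lit 287) (nat_lit 161)) (XT.nd (nat_lit 78) (nat_lit 76) (nat_lit 0) (XT.lf (nat_lit 0) (nat_lit 102826105843) (nat_lit 76) (nat_lit 238922457700) (nat_lit 76) (nat_lit 30121413255) (nat_lit 10) (nat_lit 4) (nat_lit 11) (nat_lit 5) (nat_lit 11) (nat_lit 4) (nat_lit 333) (nat_lit 287) (nat_lit 160)) (XT.lf (nat_lit 0) (nat_lit 33920068329) (nat_lit 152) (nat_lit 139265784621) (nat_lit 76) (nat_lit 224353218677) (nat_lit 9) (nat_lit 5) (nat_lit 11) (nat_lit 5) (nat_lit 10) (nat_lit 4) (nat_lit 334) (nat_lit 287) (nat_lit 159))))) (XT.nd (nat_lit 156) (nat_lit 76) (nat_lit 0) (XT.nd (nat_lit 78) (nat_lit 0) (nat_lit 0) (XT.lf (nat_lit 0) (nat_lit 398168441) (nat_lit 76) (nat_lit 101651055063) (nat_lit 152) (nat_lit 323186798047) (nat_lit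 8) (nat_lit 5) (nat_lit 9) (nat_lit 5) (nat_lit 10) (nat_lit 4) (nat_lit 335) (nat_lit 287) (nat_lit 158)) (XT.lf (nat_lit 0) (nat_lit 156207205097) (nat_lit 76) (nat_lit 21846794666) (nat_lit 152) (nat_lit 276973463573) (nat_lit 8) (nat_lit 5) (nat_lit 9) (nat_lit 5) (nat_lit 10) (nat_lit 4) (nat_lit 336) (nat_lit 287) (nat_lit 157))) (XT.nd (nat_lit 78) (nat_lit 76) (nat_lit 0) (XT.lf (nat_lit 0) (nat_lit 261143121594) (nat_lit 152) (nat_lit 163726915751) (nat_lit 0) (nat_lit 62281985222) (nat_lit 8) (nat_lit 5) (nat_lit 10) (nat_lit 4) (nat_lit 8) (nat_lit 4) (nat_lit 337) (nat_lit 287) (nat_lit 156)) (XT.nd (nat_lit 78) (nat_lit 76) (nat_lit 0) (XT.lf (nat_lit 0) (nat_lit 351247201475) (nat_lit 152) (nat_lit 18195505002) (nat_lit 0) (nat_lit 152385448902) (nat_lit 8) (nat_lit 5) (nat_lit 10) (nat_lit 4) (nat_lit 8) (nat_lit 4) (nat_lit 338) (nat_lit 287) (nat_lit 155)) (XT.lf (nat_lit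 0) (nat_lit 143572694924) (nat_lit 76) (nat_lit 307227977024) (nat_lit 76) (nat_lit 108365653896) (nat_lit 7) (nat_lit 4) (nat_lit 8) (nat_lit 5) (nat_lit 8) (nat_lit 4) (nat_lit 339) (nat_lit 287) (nat_lit 154)))))) (XT.nd (nat_lit 36582) (nat_lit 0) (nat_lit 5928) (XT.nd (nat_lit 156) (nat_lit 76) (nat_lit 0) (XT.nd (nat_lit 78) (nat_lit 76) (nat_lit 0) (XT.lf (nat_lit 0) (nat_lit 318931201046) (nat_lit 76) (nat_lit 239703688533) (nat_lit 76) (nat_lit 40840837112) (nat_lit 7) (nat_lit 4) (nat_lit 8) (nat_lit 5) (nat_lit 8) (nat_lit 4) (nat_lit 340) (nat_lit 287) (nat_lit 153)) (XT.lf (nat_lit 0) (nat_lit 31058557647) (nat_lit 152) (nat_lit 135193297403) (nat_lit 76) (nat_lit 476732999963) (nat_lit 6) (nat_lit 5) (nat_lit 8) (nat_lit 5) (nat_lit 7) (nat_lit 4) (nat_lit 341) (nat_lit 287) (nat_lit 152))) (XT.nd (nat_lit 78) (nat_lit 0) (nat_lit 0) (XT.lf (nat_lit 0) (nat_lit 21794136051)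 (nat_lit 76) (nat_lit 85843878367) (nat_lit 152) (nat_lit 582285274547) (nat_lit 5) (nat_lit 5) (nat_lit 6) (nat_lit 5) (nat_lit 7) (nat_lit 4) (nat_lit 342) (nat_lit 287) (nat_lit 151)) (XT.nd (nat_lit 78) (nat_lit 0) (nat_lit 0) (XT.lf (nat_lit 0) (nat_lit 192752567474) (nat_lit 152) (nat_lit 544385714324) (nat_lit 0) (nat_lit 3358079013) (nat_lit 5) (nat_lit 5) (nat_lit 7) (nat_lit 4) (nat_lit 5) (nat_lit 4) (nat_lit 343) (nat_lit 287) (nat_lit 150)) (XT.lf (nat_lit 0) (nat_lit 286123391268) (nat_lit 152) (nat_lit 412190998983) (nat_lit 0) (nat_lit 96728532987) (nat_lit 5) (nat_lit 5) (nat_lit 7) (nat_lit 4) (nat_lit 5) (nat_lit 4) (nat_lit 344) (nat_lit 287) (nat_lit 149))))) (XT.nd (nat_lit 234) (nat_lit 532) (nat_lit 0) (XT.nd (nat_lit 78) (nat_lit 0) (nat_lit 0) (XT.lf (nat_lit 0) (nat_lit 7193663588) (nat_lit 0) (nat_lit 7193663588) (nat_lit 684) (nat_lit 3264374698) (nat_lit 90)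 (nat_lit 5) (nat_lit 90) (nat_lit 3) (nat_lit 99) (nat_lit 3) (nat_lit 288) (nat_lit 288) (nat_lit 204)) (XT.nd (nat_lit 78) (nat_lit 0) (nat_lit 76) (XT.lf (nat_lit 76) (nat_lit 4648922181) (nat_lit 0) (nat_lit 25604372049) (nat_lit 760) (nat_lit 6445707038) (nat_lit 91) (nat_lit 5) (nat_lit 90) (nat_lit 5) (nat_lit 100) (nat_lit 5) (nat_lit 289) (nat_lit 288) (nat_lit 203)) (XT.lf (nat_lit 0) (nat_lit 32450279402) (nat_lit 684) (nat_lit 5430329689) (nat_lit 760) (nat_lit 295650396) (nat_lit 91) (nat_lit 5) (nat_lit 100) (nat_lit 5) (nat_lit 101) (nat_lit 5) (nat_lit 290) (nat_lit 288) (nat_lit 202)))) (XT.nd (nat_lit 78) (nat_lit 608) (nat_lit 0) (XT.lf (nat_lit 76) (nat_lit 23639307301) (nat_lit 0) (nat_lit 11977406439) (nat_lit 760) (nat_lit 4115314551) (nat_lit 92) (nat_lit 5) (nat_lit 91) (nat_lit 5) (nat_lit 101) (nat_lit 5) (nat_lit 291) (nat_lit 288) (nat_lit 201)) (XT.nd (nat_lit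 78) (nat_lit 684) (nat_lit 0) (XT.lf (nat_lit 76) (nat_lit 14013345538) (nat_lit 0) (nat_lit 25581196228) (nat_lit 760) (nat_lit 1789826264) (nat_lit 93) (nat_lit 5) (nat_lit 92) (nat_lit 5) (nat_lit 102) (nat_lit 5) (nat_lit 292) (nat_lit 288) (nat_lit 200)) (XT.lf (nat_lit 0) (nat_lit 1279979456) (nat_lit 760) (nat_lit 39333776441) (nat_lit 836) (nat_lit 2525518591) (nat_lit 83) (nat_lit 5) (nat_lit 93) (nat_lit 5) (nat_lit 94) (nat_lit 5) (nat_lit 293) (nat_lit 288) (nat_lit 199))))))))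
noncomputable def xc97 : XT := (XT.nd (nat_lit 1638) (nat_lit 1520) (nat_lit 0) (XT.nd (nat_lit 780) (nat_lit 1976) (nat_lit 0) (XT.nd (nat_lit 390) (nat_lit 1292) (nat_lit 0) (XT.nd (nat_lit 156) (nat_lit 836) (nat_lit 0) (XT.nd (nat_lit 78) (nat_lit 0) (nat_lit 76) (XT.lf (nat_lit 0) (nat_lit 5443546675) (nat_lit 760) (nat_lit 7031406830) (nat_lit 836) (nat_lit 32512619618) (nat_lit 83) (nat_lit 5) (nat_lit 93) (nat_lit 5) (nat_lit 94) (nat_lit 5) (nat_lit 294) (nat_lit 288) (nat_lit 198)) (XT.lf (nat_lit 0) (nat_lit 10671019666) (nat_lit 760) (nat_lit 18477140209) (nat_lit 76) (nat_lit 17799044866) (nat_lit 84) (nat_lit 5) (nat_lit 94) (nat_lit 5) (nat_lit 85) (nat_lit 5) (nat_lit 295) (nat_lit 288) (nat_lit 197))) (XT.nd (nat_lit 78) (nat_lit 380) (nat_lit 0) (XT.lf (nat_lit 0) (nat_lit 16955856069) (nat_lit 608) (nat_lit 30678854637) (nat_lit 76) (nat_lit 1396947268) (nat_lit 77)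 (nat_lit 5) (nat_lit 85) (nat_lit 5) (nat_lit 78) (nat_lit 5) (nat_lit 296) (nat_lit 288) (nat_lit 196)) (XT.nd (nat_lit 78) (nat_lit 0) (nat_lit 0) (XT.lf (nat_lit 0) (nat_lit 7252893784) (nat_lit 380) (nat_lit 17417652632) (nat_lit 456) (nat_lit 26565976368) (nat_lit 72) (nat_lit 5) (nat_lit 77) (nat_lit 5) (nat_lit 78) (nat_lit 5) (nat_lit 297) (nat_lit 288) (nat_lit 195)) (XT.lf (nat_lit 0) (nat_lit 33778643379) (nat_lit 456) (nat_lit 4527368857) (nat_lit 76) (nat_lit 15272961001) (nat_lit 72) (nat_lit 5) (nat_lit 78) (nat_lit 5) (nat_lit 73) (nat_lit 5) (nat_lit 298) (nat_lit 288) (nat_lit 194))))) (XT.nd (nat_lit 156) (nat_lit 684) (nat_lit 0) (XT.nd (nat_lit 78) (nat_lit 304) (nat_lit 0) (XT.lf (nat_lit 0) (nat_lit 39036777399) (nat_lit 304) (nat_lit 5477600183) (nat_lit 380) (nat_lit 11549500103) (nat_lit 68) (nat_lit 5) (nat_lit 72) (nat_lit 5) (nat_lit 73) (nat_lit 5) (nat_lit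 299) (nat_lit 288) (nat_lit 193)) (XT.lf (nat_lit 0) (nat_lit 27924170312) (nat_lit 304) (nat_lit 29165021473) (nat_lit 380) (nat_lit 1609378525) (nat_lit 64) (nat_lit 5) (nat_lit 68) (nat_lit 5) (nat_lit 69) (nat_lit 5) (nat_lit 300) (nat_lit 288) (nat_lit 192))) (XT.nd (nat_lit 78) (nat_lit 304) (nat_lit 0) (XT.lf (nat_lit 0) (nat_lit 9569802464) (nat_lit 380) (nat_lit 45791622637) (nat_lit 76) (nat_lit 6138698368) (nat_lit 59) (nat_lit 5) (nat_lit 64) (nat_lit 5) (nat_lit 60) (nat_lit 5) (nat_lit 301) (nat_lit 288) (nat_lit 191)) (XT.nd (nat_lit 78) (nat_lit 0) (nat_lit 0) (XT.lf (nat_lit 0) (nat_lit 2043397563) (nat_lit 304) (nat_lit 20609256675) (nat_lit 380) (nat_lit 41818547046) (nat_lit 55) (nat_lit 5) (nat_lit 59) (nat_lit 5) (nat_lit 60) (nat_lit 5) (nat_lit 302) (nat_lit 288) (nat_lit 190)) (XT.lf (nat_lit 0) (nat_lit 37853707301) (nat_lit 380) (nat_lit 12581211711) (nat_lit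 76) (nat_lit 17191472860) (nat_lit 55) (nat_lit 5) (nat_lit 60) (nat_lit 5) (nat_lit 56) (nat_lit 5) (nat_lit 303) (nat_lit 288) (nat_lit 189)))))) (XT.nd (nat_lit 390) (nat_lit 988) (nat_lit 0) (XT.nd (nat_lit 156) (nat_lit 456) (nat_lit 0) (XT.nd (nat_lit 78) (nat_lit 304) (nat_lit 0) (XT.lf (nat_lit 0) (nat_lit 42254047193) (nat_lit 228) (nat_lit 13020881065) (nat_lit 304) (nat_lit 15708870082) (nat_lit 52) (nat_lit 5) (nat_lit 55) (nat_lit 5) (nat_lit 56) (nat_lit 5) (nat_lit 304) (nat_lit 288) (nat_lit 188)) (XT.lf (nat_lit 0) (nat_lit 595499154) (nat_lit 304) (nat_lit 46784721787) (nat_lit 76) (nat_lit 27175046132) (nat_lit 48) (nat_lit 5) (nat_lit 52) (nat_lit 5) (nat_lit 49) (nat_lit 5) (nat_lit 305) (nat_lit 288) (nat_lit 187))) (XT.nd (nat_lit 78) (nat_lit 228) (nat_lit 0) (XT.lf (nat_lit 0) (nat_lit 11294374491) (nat_lit 228) (nat_lit 7268531105) (nat_lit 304) (nat_lit 59791223022)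 (nat_lit 45) (nat_lit 5) (nat_lit 48) (nat_lit 5) (nat_lit 49) (nat_lit 5) (nat_lit 306) (nat_lit 288) (nat_lit 186)) (XT.nd (nat_lit 78) (nat_lit 228) (nat_lit 0) (XT.lf (nat_lit 0) (nat_lit 39356179275) (nat_lit 304) (nat_lit 7305717058) (nat_lit 76) (nat_lit 35725582660) (nat_lit 45) (nat_lit 5) (nat_lit 49) (nat_lit 5) (nat_lit 46) (nat_lit 5) (nat_lit 307) (nat_lit 288) (nat_lit 185)) (XT.lf (nat_lit 0) (nat_lit 58990634745) (nat_lit 228) (nat_lit 3863332197) (nat_lit 304) (nat_lit 23837481223) (nat_lit 42) (nat_lit 5) (nat_lit 45) (nat_lit 5) (nat_lit 46) (nat_lit 5) (nat_lit 308) (nat_lit 288) (nat_lit 184))))) (XT.nd (nat_lit 234) (nat_lit 532) (nat_lit 0) (XT.nd (nat_lit 78) (nat_lit 304) (nat_lit 0) (XT.lf (nat_lit 0) (nat_lit 40135906100) (nat_lit 152) (nat_lit 49510598096) (nat_lit 228) (nat_lit 1622487472) (nat_lit 40) (nat_lit 5) (nat_lit 42) (nat_lit 5) (nat_lit 43) (nat_lit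 5) (nat_lit 309) (nat_lit 288) (nat_lit 183)) (XT.nd (nat_lit 78) (nat_lit 0) (nat_lit 0) (XT.lf (nat_lit 0) (nat_lit 18362135337) (nat_lit 228) (nat_lit 4131554777) (nat_lit 304) (nat_lit 73659590867) (nat_lit 36) (nat_lit 5) (nat_lit 39) (nat_lit 5) (nat_lit 40) (nat_lit 5) (nat_lit 310) (nat_lit 288) (nat_lit 182)) (XT.lf (nat_lit 0) (nat_lit 50086844129) (nat_lit 304) (nat_lit 6886833315) (nat_lit 76) (nat_lit 44373082324) (nat_lit 36) (nat_lit 5) (nat_lit 40) (nat_lit 5) (nat_lit 37) (nat_lit 5) (nat_lit 311) (nat_lit 288) (nat_lit 181)))) (XT.nd (nat_lit 78) (nat_lit 380) (nat_lit 0) (XT.lf (nat_lit 0) (nat_lit 71918913934) (nat_lit 152) (nat_lit 9159012359) (nat_lit 228) (nat_lit 25818269136) (nat_lit 34) (nat_lit 5) (nat_lit 36) (nat_lit 5) (nat_lit 37) (nat_lit 5) (nat_lit 312) (nat_lit 288) (nat_lit 180)) (XT.nd (nat_lit 78) (nat_lit 152) (nat_lit 0) (XT.lf (nat_lit 0) (nat_lit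 3118450657) (nat_lit 228) (nat_lit 67696576600) (nat_lit 76) (nat_lit 41997624380) (nat_lit 31) (nat_lit 5) (nat_lit 34) (nat_lit 5) (nat_lit 32) (nat_lit 5) (nat_lit 313) (nat_lit 288) (nat_lit 179)) (XT.lf (nat_lit 0) (nat_lit 13524073613) (nat_lit 152) (nat_lit 20936547895) (nat_lit 228) (nat_lit 84670889254) (nat_lit 29) (nat_lit 5) (nat_lit 31) (nat_lit 5) (nat_lit 32) (nat_lit 5) (nat_lit 314) (nat_lit 288) (nat_lit 178))))))) (XT.nd (nat_lit 780) (nat_lit 684) (nat_lit 0) (XT.nd (nat_lit 390) (nat_lit 380) (nat_lit 0) (XT.nd (nat_lit 156) (nat_lit 304) (nat_lit 0) (XT.nd (nat_lit 78) (nat_lit 152) (nat_lit 0) (XT.lf (nat_lit 0) (nat_lit 70021082141) (nat_lit 228) (nat_lit 22773538962) (nat_lit 76) (nat_lit 33075713494) (nat_lit 29) (nat_lit 5) (nat_lit 32) (nat_lit 5) (nat_lit 30) (nat_lit 5) (nat_lit 315) (nat_lit 288) (nat_lit 177)) (XT.lf (nat_lit 0) (nat_lit 68524547875) (nat_lit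 152) (nat_lit 41323044205) (nat_lit 228) (nat_lit 23229613289) (nat_lit 27) (nat_lit 5) (nat_lit 29) (nat_lit 5) (nat_lit 30) (nat_lit 5) (nat_lit 316) (nat_lit 288) (nat_lit 176))) (XT.nd (nat_lit 78) (nat_lit 152) (nat_lit 0) (XT.lf (nat_lit 0) (nat_lit 12690543406) (nat_lit 152) (nat_lit 113257053663) (nat_lit 76) (nat_lit 14849912401) (nat_lit 25) (nat_lit 5) (nat_lit 27) (nat_lit 5) (nat_lit 26) (nat_lit 5) (nat_lit 317) (nat_lit 288) (nat_lit 175)) (XT.nd (nat_lit 78) (nat_lit 152) (nat_lit 0) (XT.lf (nat_lit 0) (nat_lit 52519466981) (nat_lit 152) (nat_lit 20882544906) (nat_lit 76) (nat_lit 75621936353) (nat_lit 25) (nat_lit 5) (nat_lit 27) (nat_lit 5) (nat_lit 26) (nat_lit 5) (nat_lit 318) (nat_lit 288) (nat_lit 174)) (XT.lf (nat_lit 0) (nat_lit 81487636476) (nat_lit 152) (nat_lit 15317878468) (nat_lit 228) (nat_lit 61039447894) (nat_lit 23) (nat_lit 5) (nat_lit 25) (nat_lit 5)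 (nat_lit 26) (nat_lit 5) (nat_lit 319) (nat_lit 288) (nat_lit 173))))) (XT.nd (nat_lit 156) (nat_lit 228) (nat_lit 0) (XT.nd (nat_lit 78) (nat_lit 76) (nat_lit 0) (XT.lf (nat_lit 0) (nat_lit 25507505221) (nat_lit 76) (nat_lit 120633774924) (nat_lit 152) (nat_lit 21155037943) (nat_lit 22) (nat_lit 5) (nat_lit 23) (nat_lit 5) (nat_lit 24) (nat_lit 4) (nat_lit 320) (nat_lit 288) (nat_lit 172)) (XT.lf (nat_lit 0) (nat_lit 22827392711) (nat_lit 152) (nat_lit 39813680176) (nat_lit 76) (nat_lit 114765155724) (nat_lit 21) (nat_lit 5) (nat_lit 23) (nat_lit 5) (nat_lit 22) (nat_lit 5) (nat_lit 321) (nat_lit 288) (nat_lit 171))) (XT.nd (nat_lit 78) (nat_lit 76) (nat_lit 0) (XT.lf (nat_lit 0) (nat_lit 70748506987) (nat_lit 228) (nat_lit 116001092234) (nat_lit 76) (nat_lit 1499930573) (nat_lit 19) (nat_lit 5) (nat_lit 22) (nat_lit 5) (nat_lit 20) (nat_lit 4) (nat_lit 322) (nat_lit 288) (nat_lit 170))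 (XT.nd (nat_lit 78) (nat_lit 76) (nat_lit 0) (XT.lf (nat_lit 0) (nat_lit 124263258381) (nat_lit 228) (nat_lit 6298051821) (nat_lit 76) (nat_lit 69310988343) (nat_lit 19) (nat_lit 5) (nat_lit 22) (nat_lit 5) (nat_lit 20) (nat_lit 4) (nat_lit 323) (nat_lit 288) (nat_lit 169)) (XT.lf (nat_lit 0) (nat_lit 115888461002) (nat_lit 76) (nat_lit 67978968019) (nat_lit 152) (nat_lit 28467048631) (nat_lit 18) (nat_lit 5) (nat_lit 19) (nat_lit 5) (nat_lit 20) (nat_lit 4) (nat_lit 324) (nat_lit 288) (nat_lit 168)))))) (XT.nd (nat_lit 390) (nat_lit 304) (nat_lit 0) (XT.nd (nat_lit 156) (nat_lit 152) (nat_lit 0) (XT.nd (nat_lit 78) (nat_lit 0) (nat_lit 0) (XT.lf (nat_lit 0) (nat_lit 22199337868) (nat_lit 228) (nat_lit 203102456980) (nat_lit 76) (nat_lit 450741593) (nat_lit 15) (nat_lit 5) (nat_lit 18) (nat_lit 5) (nat_lit 16) (nat_lit 4) (nat_lit 325) (nat_lit 288) (nat_lit 167)) (XT.lf (nat_lit 0) (nat_lit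 78787810091) (nat_lit 228) (nat_lit 87097752149) (nat_lit 76) (nat_lit 74191838633) (nat_lit 15) (nat_lit 5) (nat_lit 18) (nat_lit 5) (nat_lit 16) (nat_lit 4) (nat_lit 326) (nat_lit 288) (nat_lit 166))) (XT.nd (nat_lit 78) (nat_lit 76) (nat_lit 0) (XT.lf (nat_lit 0) (nat_lit 39448218856) (nat_lit 76) (nat_lit 101070084421) (nat_lit 152) (nat_lit 114999204636) (nat_lit 14) (nat_lit 5) (nat_lit 15) (nat_lit 5) (nat_lit 16) (nat_lit 4) (nat_lit 327) (nat_lit 288) (nat_lit 165)) (XT.nd (nat_lit 78) (nat_lit 76) (nat_lit 0) (XT.lf (nat_lit 0) (nat_lit 179226474462) (nat_lit 76) (nat_lit 29477039329) (nat_lit 152) (nat_lit 63413496397) (nat_lit 14) (nat_lit 5) (nat_lit 15) (nat_lit 5) (nat_lit 16) (nat_lit 4) (nat_lit 328) (nat_lit 288) (nat_lit 164)) (XT.lf (nat_lit 0) (nat_lit 40696553900) (nat_lit 76) (nat_lit 243028493009) (nat_lit 76) (nat_lit 6250350975) (nat_lit 13) (nat_lit 4) (nat_lit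 14) (nat_lit 5) (nat_lit 14) (nat_lit 4) (nat_lit 329) (nat_lit 288) (nat_lit 163))))) (XT.nd (nat_lit 234) (nat_lit 152) (nat_lit 0) (XT.nd (nat_lit 78) (nat_lit 76) (nat_lit 0) (XT.lf (nat_lit 0) (nat_lit 55850783075) (nat_lit 152) (nat_lit 122285201034) (nat_lit 76) (nat_lit 130976116940) (nat_lit 12) (nat_lit 5) (nat_lit 14) (nat_lit 5) (nat_lit 13) (nat_lit 4) (nat_lit 330) (nat_lit 288) (nat_lit 162)) (XT.nd (nat_lit 78) (nat_lit 0) (nat_lit 0) (XT.lf (nat_lit 0) (nat_lit 15249223952) (nat_lit 76) (nat_lit 107692048415) (nat_lit 152) (nat_lit 206821332975) (nat_lit 11) (nat_lit 5) (nat_lit 12) (nat_lit 5) (nat_lit 13) (nat_lit 4) (nat_lit 331) (nat_lit 288) (nat_lit 161)) (XT.lf (nat_lit 0) (nat_lit 168151840853) (nat_lit 76) (nat_lit 29376560833) (nat_lit 152) (nat_lit 154430278642) (nat_lit 11) (nat_lit 5) (nat_lit 12) (nat_lit 5) (nat_lit 13) (nat_lit 4) (nat_lit 332) (nat_lit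 288) (nat_lit 160)))) (XT.nd (nat_lit 78) (nat_lit 152) (nat_lit 0) (XT.lf (nat_lit 0) (nat_lit 278943709969) (nat_lit 152) (nat_lit 43506920238) (nat_lit 0) (nat_lit 53436751045) (nat_lit 11) (nat_lit 5) (nat_lit 13) (nat_lit 4) (nat_lit 11) (nat_lit 4) (nat_lit 333) (nat_lit 288) (nat_lit 159)) (XT.nd (nat_lit 78) (nat_lit 76) (nat_lit 0) (XT.lf (nat_lit 0) (nat_lit 111075601610) (nat_lit 76) (nat_lit 258025552690) (nat_lit 76) (nat_lit 32517778719) (nat_lit 10) (nat_lit 4) (nat_lit 11) (nat_lit 5) (nat_lit 11) (nat_lit 4) (nat_lit 334) (nat_lit 288) (nat_lit 158)) (XT.lf (nat_lit 0) (nat_lit 36645637119) (nat_lit 152) (nat_lit 150384972550) (nat_lit 76) (nat_lit 242310983669) (nat_lit 9) (nat_lit 5) (nat_lit 11) (nat_lit 5) (nat_lit 10) (nat_lit 4) (nat_lit 335) (nat_lit 288) (nat_lit 157))))))))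
noncomputable def xc98 : XT := (XT.nd (nat_lit 37830) (nat_lit 0) (nat_lit 1368) (XT.nd (nat_lit 37050) (nat_lit 0) (nat_lit 5092) (XT.nd (nat_lit 390) (nat_lit 152) (nat_lit 0) (XT.nd (nat_lit 156) (nat_lit 76) (nat_lit 0) (XT.nd (nat_lit 78) (nat_lit 0) (nat_lit 0) (XT.lf (nat_lit 0) (nat_lit 451137412) (nat_lit 76) (nat_lit 109773430796) (nat_lit 152) (nat_lit 349029759305) (nat_lit 8) (nat_lit 5) (nat_lit 9) (nat_lit 5) (nat_lit 10) (nat_lit 4) (nat_lit 336) (nat_lit 288) (nat_lit 156)) (XT.lf (nat_lit 0) (nat_lit 168723332889) (nat_lit 76) (nat_lit 23585548728) (nat_lit 152) (nat_lit 299120245672) (nat_lit 8) (nat_lit 5) (nat_lit 9) (nat_lit 5) (nat_lit 10) (nat_lit 4) (nat_lit 337) (nat_lit 288) (nat_lit 155))) (XT.nd (nat_lit 78) (nat_lit 76) (nat_lit 0) (XT.lf (nat_lit 0) (nat_lit 282044480789) (nat_lit 152) (nat_lit 176806602209) (nat_lit 0) (nat_lit 67272601254) (nat_lit 8) (nat_lit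 5) (nat_lit 10) (nat_lit 4) (nat_lit 8) (nat_lit 4) (nat_lit 338) (nat_lit 288) (nat_lit 154)) (XT.nd (nat_lit 78) (nat_lit 76) (nat_lit 0) (XT.lf (nat_lit 0) (nat_lit 379356153026) (nat_lit 152) (nat_lit 19634046511) (nat_lit 0) (nat_lit 164583745198) (nat_lit 8) (nat_lit 5) (nat_lit 10) (nat_lit 4) (nat_lit 8) (nat_lit 4) (nat_lit 339) (nat_lit 288) (nat_lit 153)) (XT.lf (nat_lit 0) (nat_lit 155074866312) (nat_lit 76) (nat_lit 331798610524) (nat_lit 76) (nat_lit 117025713535) (nat_lit 7) (nat_lit 4) (nat_lit 8) (nat_lit 5) (nat_lit 8) (nat_lit 4) (nat_lit 340) (nat_lit 288) (nat_lit 152))))) (XT.nd (nat_lit 156) (nat_lit 76) (nat_lit 0) (XT.nd (nat_lit 78) (nat_lit 76) (nat_lit 0) (XT.lf (nat_lit 0) (nat_lit 344460841383) (nat_lit 76) (nat_lit 258872942262) (nat_lit 76) (nat_lit 44099592347) (nat_lit 7) (nat_lit 4) (nat_lit 8) (nat_lit 5) (nat_lit 8) (nat_lit 4) (nat_lit 341) (nat_lit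 288) (nat_lit 151)) (XT.lf (nat_lit 0) (nat_lit 33550871245) (nat_lit 152) (nat_lit 145994483237) (nat_lit 76) (nat_lit 514877904230) (nat_lit 6) (nat_lit 5) (nat_lit 8) (nat_lit 5) (nat_lit 7) (nat_lit 4) (nat_lit 342) (nat_lit 288) (nat_lit 150))) (XT.nd (nat_lit 78) (nat_lit 0) (nat_lit 0) (XT.lf (nat_lit 0) (nat_lit 23551324391) (nat_lit 76) (nat_lit 92705008288) (nat_lit 152) (nat_lit 628860452536) (nat_lit 5) (nat_lit 5) (nat_lit 6) (nat_lit 5) (nat_lit 7) (nat_lit 4) (nat_lit 343) (nat_lit 288) (nat_lit 149)) (XT.nd (nat_lit 36348) (nat_lit 0) (nat_lit 6460) (XT.lf (nat_lit 0) (nat_lit 208179603171) (nat_lit 152) (nat_lit 587923678222) (nat_lit 0) (nat_lit 3632443981) (nat_lit 5) (nat_lit 5) (nat_lit 7) (nat_lit 4) (nat_lit 5) (nat_lit 4) (nat_lit 344) (nat_lit 288) (nat_lit 148)) (XT.lf (nat_lit 0) (nat_lit 7806875217) (nat_lit 0) (nat_lit 7806875217) (nat_lit 684) (nat_lit 3446163540)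 (nat_lit 90) (nat_lit 5) (nat_lit 90) (nat_lit 3) (nat_lit 99) (nat_lit 3) (nat_lit 289) (nat_lit 289) (nat_lit 202)))))) (XT.nd (nat_lit 390) (nat_lit 836) (nat_lit 0) (XT.nd (nat_lit 156) (nat_lit 532) (nat_lit 0) (XT.nd (nat_lit 78) (nat_lit 0) (nat_lit 76) (XT.lf (nat_lit 76) (nat_lit 5101628264) (nat_lit 0) (nat_lit 27711798664) (nat_lit 760) (nat_lit 6814219143) (nat_lit 91) (nat_lit 5) (nat_lit 90) (nat_lit 5) (nat_lit 100) (nat_lit 5) (nat_lit 290) (nat_lit 289) (nat_lit 201)) (XT.lf (nat_lit 0) (nat_lit 35174956202) (nat_lit 684) (nat_lit 5782357951) (nat_lit 760) (nat_lit 266352407) (nat_lit 91) (nat_lit 5) (nat_lit 100) (nat_lit 5) (nat_lit 101) (nat_lit 5) (nat_lit 291) (nat_lit 289) (nat_lit 200))) (XT.nd (nat_lit 78) (nat_lit 608) (nat_lit 0) (XT.lf (nat_lit 76) (nat_lit 25609269077) (nat_lit 0) (nat_lit 12977136809) (nat_lit 760) (nat_lit 4317925284) (nat_lit 92) (nat_lit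 5) (nat_lit 91) (nat_lit 5) (nat_lit 101) (nat_lit 5) (nat_lit 292) (nat_lit 289) (nat_lit 199)) (XT.nd (nat_lit 78) (nat_lit 684) (nat_lit 0) (XT.lf (nat_lit 76) (nat_lit 15216412773) (nat_lit 0) (nat_lit 27657811952) (nat_lit 760) (nat_lit 1815063033) (nat_lit 93) (nat_lit 5) (nat_lit 92) (nat_lit 5) (nat_lit 102) (nat_lit 5) (nat_lit 293) (nat_lit 289) (nat_lit 198)) (XT.lf (nat_lit 0) (nat_lit 1488992427) (nat_lit 760) (nat_lit 42392293926) (nat_lit 836) (nat_lit 2703602067) (nat_lit 83) (nat_lit 5) (nat_lit 93) (nat_lit 5) (nat_lit 94) (nat_lit 5) (nat_lit 294) (nat_lit 289) (nat_lit 197))))) (XT.nd (nat_lit 156) (nat_lit 836) (nat_lit 0) (XT.nd (nat_lit 78) (nat_lit 0) (nat_lit 76) (XT.lf (nat_lit 0) (nat_lit 5977747645) (nat_lit 760) (nat_lit 7512266941) (nat_lit 836) (nat_lit 35091445843) (nat_lit 83) (nat_lit 5) (nat_lit 93) (nat_lit 5) (nat_lit 94) (nat_lit 5) (nat_lit 295) (nat_lit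 289) (nat_lit 196)) (XT.lf (nat_lit 0) (nat_lit 11617098805) (nat_lit 760) (nat_lit 19872180439) (nat_lit 76) (nat_lit 19208912849) (nat_lit 84) (nat_lit 5) (nat_lit 94) (nat_lit 5) (nat_lit 85) (nat_lit 5) (nat_lit 296) (nat_lit 289) (nat_lit 195))) (XT.nd (nat_lit 78) (nat_lit 380) (nat_lit 0) (XT.lf (nat_lit 0) (nat_lit 18399005750) (nat_lit 608) (nat_lit 33049034824) (nat_lit 76) (nat_lit 1501659357) (nat_lit 77) (nat_lit 5) (nat_lit 85) (nat_lit 5) (nat_lit 78) (nat_lit 5) (nat_lit 297) (nat_lit 289) (nat_lit 194)) (XT.nd (nat_lit 78) (nat_lit 0) (nat_lit 0) (XT.lf (nat_lit 0) (nat_lit 7913597363) (nat_lit 380) (nat_lit 18812109528) (nat_lit 456) (nat_lit 28605516859) (nat_lit 72) (nat_lit 5) (nat_lit 77) (nat_lit 5) (nat_lit 78) (nat_lit 5) (nat_lit 298) (nat_lit 289) (nat_lit 193)) (XT.lf (nat_lit 0) (nat_lit 36556398229) (nat_lit 456) (nat_lit 4811123882) (nat_lit 76) (nat_lit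 16493861540) (nat_lit 72) (nat_lit 5) (nat_lit 78) (nat_lit 5) (nat_lit 73) (nat_lit 5) (nat_lit 299) (nat_lit 289) (nat_lit 192))))))) (XT.nd (nat_lit 780) (nat_lit 1444) (nat_lit 0) (XT.nd (nat_lit 390) (nat_lit 988) (nat_lit 0) (XT.nd (nat_lit 156) (nat_lit 684) (nat_lit 0) (XT.nd (nat_lit 78) (nat_lit 304) (nat_lit 0) (XT.lf (nat_lit 0) (nat_lit 42234745408) (nat_lit 304) (nat_lit 5911827244) (nat_lit 380) (nat_lit 12398738675) (nat_lit 68) (nat_lit 5) (nat_lit 72) (nat_lit 5) (nat_lit 73) (nat_lit 5) (nat_lit 300) (nat_lit 289) (nat_lit 191)) (XT.lf (nat_lit 0) (nat_lit 30233326565) (nat_lit 304) (nat_lit 31490014830) (nat_lit 380) (nat_lit 1667648706) (nat_lit 64) (nat_lit 5) (nat_lit 68) (nat_lit 5) (nat_lit 69) (nat_lit 5) (nat_lit 301) (nat_lit 289) (nat_lit 190))) (XT.nd (nat_lit 78) (nat_lit 304) (nat_lit 0) (XT.lf (nat_lit 0) (nat_lit 10399870390) (nat_lit 380) (nat_lit 49377572636)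 (nat_lit 76) (nat_lit 6639364617) (nat_lit 59) (nat_lit 5) (nat_lit 64) (nat_lit 5) (nat_lit 60) (nat_lit 5) (nat_lit 302) (nat_lit 289) (nat_lit 189)) (XT.nd (nat_lit 78) (nat_lit 0) (nat_lit 0) (XT.lf (nat_lit 0) (nat_lit 2280886348) (nat_lit 304) (nat_lit 22244842999) (nat_lit 380) (nat_lit 45100030904) (nat_lit 55) (nat_lit 5) (nat_lit 59) (nat_lit 5) (nat_lit 60) (nat_lit 5) (nat_lit 303) (nat_lit 289) (nat_lit 188)) (XT.lf (nat_lit 0) (nat_lit 40938548462) (nat_lit 380) (nat_lit 13516459813) (nat_lit 76) (nat_lit 18578580682) (nat_lit 55) (nat_lit 5) (nat_lit 60) (nat_lit 5) (nat_lit 56) (nat_lit 5) (nat_lit 304) (nat_lit 289) (nat_lit 187))))) (XT.nd (nat_lit 156) (nat_lit 456) (nat_lit 0) (XT.nd (nat_lit 78) (nat_lit 304) (nat_lit 0) (XT.lf (nat_lit 0) (nat_lit 45702523416) (nat_lit 228) (nat_lit 14047819244) (nat_lit 304) (nat_lit 16909407953) (nat_lit 52) (nat_lit 5) (nat_lit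 55) (nat_lit 5) (nat_lit 56) (nat_lit 5) (nat_lit 305) (nat_lit 289) (nat_lit 186)) (XT.lf (nat_lit 0) (nat_lit 694774516) (nat_lit 304) (nat_lit 50458118542) (nat_lit 76) (nat_lit 29364142545) (nat_lit 48) (nat_lit 5) (nat_lit 52) (nat_lit 5) (nat_lit 49) (nat_lit 5) (nat_lit 306) (nat_lit 289) (nat_lit 185))) (XT.nd (nat_lit 78) (nat_lit 228) (nat_lit 0) (XT.lf (nat_lit 0) (nat_lit 12264290225) (nat_lit 228) (nat_lit 7832494557) (nat_lit 304) (nat_lit 64523165988) (nat_lit 45) (nat_lit 5) (nat_lit 48) (nat_lit 5) (nat_lit 49) (nat_lit 5) (nat_lit 307) (nat_lit 289) (nat_lit 184)) (XT.nd (nat_lit 78) (nat_lit 228) (nat_lit 0) (XT.lf (nat_lit 0) (nat_lit 42550155339) (nat_lit 304) (nat_lit 7826655542) (nat_lit 76) (nat_lit 38599331419) (nat_lit 45) (nat_lit 5) (nat_lit 49) (nat_lit 5) (nat_lit 46) (nat_lit 5) (nat_lit 308) (nat_lit 289) (nat_lit 183)) (XT.lf (nat_lit 0) (nat_lit 63770643953)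 (nat_lit 228) (nat_lit 4154701660) (nat_lit 304) (nat_lit 25699208927) (nat_lit 42) (nat_lit 5) (nat_lit 45) (nat_lit 5) (nat_lit 46) (nat_lit 5) (nat_lit 309) (nat_lit 289) (nat_lit 182)))))) (XT.nd (nat_lit 390) (nat_lit 608) (nat_lit 0) (XT.nd (nat_lit 156) (nat_lit 380) (nat_lit 0) (XT.nd (nat_lit 78) (nat_lit 304) (nat_lit 0) (XT.lf (nat_lit 0) (nat_lit 43406745692) (nat_lit 152) (nat_lit 53452542516) (nat_lit 228) (nat_lit 1709117374) (nat_lit 40) (nat_lit 5) (nat_lit 42) (nat_lit 5) (nat_lit 43) (nat_lit 5) (nat_lit 310) (nat_lit 289) (nat_lit 181)) (XT.lf (nat_lit 0) (nat_lit 19889836392) (nat_lit 228) (nat_lit 4442957926) (nat_lit 304) (nat_lit 79510722630) (nat_lit 36) (nat_lit 5) (nat_lit 39) (nat_lit 5) (nat_lit 40) (nat_lit 5) (nat_lit 311) (nat_lit 289) (nat_lit 180))) (XT.nd (nat_lit 78) (nat_lit 380) (nat_lit 0) (XT.lf (nat_lit 0) (nat_lit 54130743077) (nat_lit 304) (nat_lit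 7381800162) (nat_lit 76) (nat_lit 47940067090) (nat_lit 36) (nat_lit 5) (nat_lit 40) (nat_lit 5) (nat_lit 37) (nat_lit 5) (nat_lit 312) (nat_lit 289) (nat_lit 179)) (XT.nd (nat_lit 78) (nat_lit 228) (nat_lit 0) (XT.lf (nat_lit 0) (nat_lit 77725974052) (nat_lit 152) (nat_lit 9873236638) (nat_lit 228) (nat_lit 27846888367) (nat_lit 34) (nat_lit 5) (nat_lit 36) (nat_lit 5) (nat_lit 37) (nat_lit 5) (nat_lit 313) (nat_lit 289) (nat_lit 178)) (XT.lf (nat_lit 0) (nat_lit 3402055505) (nat_lit 228) (nat_lit 73058481643) (nat_lit 76) (nat_lit 45375385356) (nat_lit 31) (nat_lit 5) (nat_lit 34) (nat_lit 5) (nat_lit 32) (nat_lit 5) (nat_lit 314) (nat_lit 289) (nat_lit 177))))) (XT.nd (nat_lit 234) (nat_lit 304) (nat_lit 0) (XT.nd (nat_lit 78) (nat_lit 152) (nat_lit 0) (XT.lf (nat_lit 0) (nat_lit 14657481589) (nat_lit 152) (nat_lit 22592394156) (nat_lit 228) (nat_lit 91410503408) (nat_lit 29) (nat_lit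 5) (nat_lit 31) (nat_lit 5) (nat_lit 32) (nat_lit 5) (nat_lit 315) (nat_lit 289) (nat_lit 176)) (XT.nd (nat_lit 78) (nat_lit 152) (nat_lit 0) (XT.lf (nat_lit 0) (nat_lit 75653048685) (nat_lit 228) (nat_lit 24546499206) (nat_lit 76) (nat_lit 35738869619) (nat_lit 29) (nat_lit 5) (nat_lit 32) (nat_lit 5) (nat_lit 30) (nat_lit 5) (nat_lit 316) (nat_lit 289) (nat_lit 175)) (XT.lf (nat_lit 0) (nat_lit 74053308449) (nat_lit 152) (nat_lit 44610858636) (nat_lit 228) (nat_lit 25057748685) (nat_lit 27) (nat_lit 5) (nat_lit 29) (nat_lit 5) (nat_lit 30) (nat_lit 5) (nat_lit 317) (nat_lit 289) (nat_lit 174)))) (XT.nd (nat_lit 78) (nat_lit 152) (nat_lit 0) (XT.lf (nat_lit 0) (nat_lit 13733878247) (nat_lit 152) (nat_lit 122270768672) (nat_lit 76) (nat_lit 16055234362) (nat_lit 25) (nat_lit 5) (nat_lit 27) (nat_lit 5) (nat_lit 26) (nat_lit 5) (nat_lit 318) (nat_lit 289) (nat_lit 173)) (XT.nd (nat_lit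 78) (nat_lit 152) (nat_lit 0) (XT.lf (nat_lit 0) (nat_lit 56747034866) (nat_lit 152) (nat_lit 22509769531) (nat_lit 76) (nat_lit 81687736603) (nat_lit 25) (nat_lit 5) (nat_lit 27) (nat_lit 5) (nat_lit 26) (nat_lit 5) (nat_lit 319) (nat_lit 289) (nat_lit 172)) (XT.lf (nat_lit 0) (nat_lit 88048141164) (nat_lit 152) (nat_lit 16526546630) (nat_lit 228) (nat_lit 65896614587) (nat_lit 23) (nat_lit 5) (nat_lit 25) (nat_lit 5) (nat_lit 26) (nat_lit 5) (nat_lit 320) (nat_lit 289) (nat_lit 171))))))))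
noncomputable def xc99 : XT := (XT.nd (nat_lit 1638) (nat_lit 152) (nat_lit 0) (XT.nd (nat_lit 780) (nat_lit 456) (nat_lit 0) (XT.nd (nat_lit 390) (nat_lit 380) (nat_lit 0) (XT.nd (nat_lit 156) (nat_lit 228) (nat_lit 0) (XT.nd (nat_lit 78) (nat_lit 76) (nat_lit 0) (XT.lf (nat_lit 0) (nat_lit 27588748644) (nat_lit 76) (nat_lit 130267610462) (nat_lit 152) (nat_lit 22822456249) (nat_lit 22) (nat_lit 5) (nat_lit 23) (nat_lit 5) (nat_lit 24) (nat_lit 4) (nat_lit 321) (nat_lit 289) (nat_lit 170)) (XT.lf (nat_lit 0) (nat_lit 24675977704) (nat_lit 152) (nat_lit 42960384680) (nat_lit 76) (nat_lit 123961227772) (nat_lit 21) (nat_lit 5) (nat_lit 23) (nat_lit 5) (nat_lit 22) (nat_lit 5) (nat_lit 322) (nat_lit 289) (nat_lit 169))) (XT.nd (nat_lit 78) (nat_lit 76) (nat_lit 0) (XT.lf (nat_lit 0) (nat_lit 76429936311) (nat_lit 228) (nat_lit 125243617520) (nat_lit 76) (nat_lit 1634845106) (nat_lit 19)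 (nat_lit 5) (nat_lit 22) (nat_lit 5) (nat_lit 20) (nat_lit 4) (nat_lit 323) (nat_lit 289) (nat_lit 168)) (XT.nd (nat_lit 78) (nat_lit 76) (nat_lit 0) (XT.lf (nat_lit 0) (nat_lit 134224271612) (nat_lit 228) (nat_lit 6767116251) (nat_lit 76) (nat_lit 74869682307) (nat_lit 19) (nat_lit 5) (nat_lit 22) (nat_lit 5) (nat_lit 20) (nat_lit 4) (nat_lit 324) (nat_lit 289) (nat_lit 167)) (XT.lf (nat_lit 0) (nat_lit 125192806113) (nat_lit 76) (nat_lit 73403011232) (nat_lit 152) (nat_lit 30724455271) (nat_lit 18) (nat_lit 5) (nat_lit 19) (nat_lit 5) (nat_lit 20) (nat_lit 4) (nat_lit 325) (nat_lit 289) (nat_lit 166))))) (XT.nd (nat_lit 156) (nat_lit 152) (nat_lit 0) (XT.nd (nat_lit 78) (nat_lit 0) (nat_lit 0) (XT.lf (nat_lit 0) (nat_lit 23993898348) (nat_lit 228) (nat_lit 219317495502) (nat_lit 76) (nat_lit 500402888) (nat_lit 15) (nat_lit 5) (nat_lit 18) (nat_lit 5) (nat_lit 16) (nat_lit 4) (nat_lit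 326) (nat_lit 289) (nat_lit 165)) (XT.lf (nat_lit 0) (nat_lit 85108069575) (nat_lit 228) (nat_lit 94034870436) (nat_lit 76) (nat_lit 80139780137) (nat_lit 15) (nat_lit 5) (nat_lit 18) (nat_lit 5) (nat_lit 16) (nat_lit 4) (nat_lit 327) (nat_lit 289) (nat_lit 164))) (XT.nd (nat_lit 78) (nat_lit 76) (nat_lit 0) (XT.lf (nat_lit 0) (nat_lit 42633443983) (nat_lit 76) (nat_lit 109142740101) (nat_lit 152) (nat_lit 124181893393) (nat_lit 14) (nat_lit 5) (nat_lit 15) (nat_lit 5) (nat_lit 16) (nat_lit 4) (nat_lit 328) (nat_lit 289) (nat_lit 163)) (XT.nd (nat_lit 78) (nat_lit 76) (nat_lit 0) (XT.lf (nat_lit 0) (nat_lit 193591784659) (nat_lit 76) (nat_lit 31823210741) (nat_lit 152) (nat_lit 68470606096) (nat_lit 14) (nat_lit 5) (nat_lit 15) (nat_lit 5) (nat_lit 16) (nat_lit 4) (nat_lit 329) (nat_lit 289) (nat_lit 162)) (XT.lf (nat_lit 0) (nat_lit 43978845688) (nat_lit 76) (nat_lit 262458867663) (nat_lit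 76) (nat_lit 6734974448) (nat_lit 13) (nat_lit 4) (nat_lit 14) (nat_lit 5) (nat_lit 14) (nat_lit 4) (nat_lit 330) (nat_lit 289) (nat_lit 161)))))) (XT.nd (nat_lit 390) (nat_lit 228) (nat_lit 0) (XT.nd (nat_lit 156) (nat_lit 76) (nat_lit 0) (XT.nd (nat_lit 78) (nat_lit 76) (nat_lit 0) (XT.lf (nat_lit 0) (nat_lit 60332652723) (nat_lit 152) (nat_lit 132042953337) (nat_lit 76) (nat_lit 141464764981) (nat_lit 12) (nat_lit 5) (nat_lit 14) (nat_lit 5) (nat_lit 13) (nat_lit 4) (nat_lit 331) (nat_lit 289) (nat_lit 160)) (XT.lf (nat_lit 0) (nat_lit 16493136407) (nat_lit 76) (nat_lit 116296596319) (nat_lit 152) (nat_lit 223353215944) (nat_lit 11) (nat_lit 5) (nat_lit 12) (nat_lit 5) (nat_lit 13) (nat_lit 4) (nat_lit 332) (nat_lit 289) (nat_lit 159))) (XT.nd (nat_lit 78) (nat_lit 76) (nat_lit 0) (XT.lf (nat_lit 0) (nat_lit 181626186769) (nat_lit 76) (nat_lit 31716670914) (nat_lit 152) (nat_lit 166771901240)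 (nat_lit 11) (nat_lit 5) (nat_lit 12) (nat_lit 5) (nat_lit 13) (nat_lit 4) (nat_lit 333) (nat_lit 289) (nat_lit 158)) (XT.nd (nat_lit 78) (nat_lit 76) (nat_lit 0) (XT.lf (nat_lit 0) (nat_lit 301270632896) (nat_lit 152) (nat_lit 46966494116) (nat_lit 0) (nat_lit 57720667286) (nat_lit 11) (nat_lit 5) (nat_lit 13) (nat_lit 4) (nat_lit 11) (nat_lit 4) (nat_lit 334) (nat_lit 289) (nat_lit 157)) (XT.lf (nat_lit 0) (nat_lit 119981717726) (nat_lit 76) (nat_lit 278658421986) (nat_lit 76) (nat_lit 35107757604) (nat_lit 10) (nat_lit 4) (nat_lit 11) (nat_lit 5) (nat_lit 11) (nat_lit 4) (nat_lit 335) (nat_lit 289) (nat_lit 156))))) (XT.nd (nat_lit 234) (nat_lit 76) (nat_lit 0) (XT.nd (nat_lit 78) (nat_lit 76) (nat_lit 0) (XT.lf (nat_lit 0) (nat_lit 39587544710) (nat_lit 152) (nat_lit 162396844735) (nat_lit 76) (nat_lit 261704013509) (nat_lit 9) (nat_lit 5) (nat_lit 11) (nat_lit 5) (nat_lit 10) (nat_lit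 4) (nat_lit 336) (nat_lit 289) (nat_lit 155)) (XT.nd (nat_lit 78) (nat_lit 0) (nat_lit 0) (XT.lf (nat_lit 0) (nat_lit 505331539) (nat_lit 76) (nat_lit 118546981639) (nat_lit 152) (nat_lit 376941866914) (nat_lit 8) (nat_lit 5) (nat_lit 9) (nat_lit 5) (nat_lit 10) (nat_lit 4) (nat_lit 337) (nat_lit 289) (nat_lit 154)) (XT.lf (nat_lit 0) (nat_lit 182237961682) (nat_lit 76) (nat_lit 25464685569) (nat_lit 152) (nat_lit 323040353163) (nat_lit 8) (nat_lit 5) (nat_lit 9) (nat_lit 5) (nat_lit 10) (nat_lit 4) (nat_lit 338) (nat_lit 289) (nat_lit 153)))) (XT.nd (nat_lit 78) (nat_lit 76) (nat_lit 0) (XT.lf (nat_lit 0) (nat_lit 304616535024) (nat_lit 152) (nat_lit 190935298080) (nat_lit 0) (nat_lit 72661317116) (nat_lit 8) (nat_lit 5) (nat_lit 10) (nat_lit 4) (nat_lit 8) (nat_lit 4) (nat_lit 339) (nat_lit 289) (nat_lit 152)) (XT.nd (nat_lit 78) (nat_lit 76) (nat_lit 0) (XT.lf (nat_lit 0) (nat_lit 409712511723)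 (nat_lit 152) (nat_lit 21190110689) (nat_lit 0) (nat_lit 177756840889) (nat_lit 8) (nat_lit 5) (nat_lit 10) (nat_lit 4) (nat_lit 8) (nat_lit 4) (nat_lit 340) (nat_lit 289) (nat_lit 151)) (XT.lf (nat_lit 0) (nat_lit 167494878074) (nat_lit 76) (nat_lit 358335979593) (nat_lit 76) (nat_lit 126379889383) (nat_lit 7) (nat_lit 4) (nat_lit 8) (nat_lit 5) (nat_lit 8) (nat_lit 4) (nat_lit 341) (nat_lit 289) (nat_lit 150))))))) (XT.nd (nat_lit 37128) (nat_lit 0) (nat_lit 3268) (XT.nd (nat_lit 36738) (nat_lit 0) (nat_lit 5928) (XT.nd (nat_lit 156) (nat_lit 76) (nat_lit 0) (XT.nd (nat_lit 78) (nat_lit 76) (nat_lit 0) (XT.lf (nat_lit 0) (nat_lit 372030692450) (nat_lit 76) (nat_lit 279576740816) (nat_lit 76) (nat_lit 47620262295) (nat_lit 7) (nat_lit 4) (nat_lit 8) (nat_lit 5) (nat_lit 8) (nat_lit 4) (nat_lit 342) (nat_lit 289) (nat_lit 149)) (XT.lf (nat_lit 0) (nat_lit 36241481570) (nat_lit 152) (nat_lit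 157661800847) (nat_lit 76) (nat_lit 556073507171) (nat_lit 6) (nat_lit 5) (nat_lit 8) (nat_lit 5) (nat_lit 7) (nat_lit 4) (nat_lit 343) (nat_lit 289) (nat_lit 148))) (XT.nd (nat_lit 36426) (nat_lit 0) (nat_lit 6460) (XT.lf (nat_lit 0) (nat_lit 25447139410) (nat_lit 76) (nat_lit 100115938830) (nat_lit 152) (nat_lit 679162735263) (nat_lit 5) (nat_lit 5) (nat_lit 6) (nat_lit 5) (nat_lit 7) (nat_lit 4) (nat_lit 344) (nat_lit 289) (nat_lit 147)) (XT.nd (nat_lit 78) (nat_lit 0) (nat_lit 0) (XT.lf (nat_lit 0) (nat_lit 8463762805) (nat_lit 0) (nat_lit 8463762805) (nat_lit 684) (nat_lit 3653817243) (nat_lit 90) (nat_lit 5) (nat_lit 90) (nat_lit 3) (nat_lit 99) (nat_lit 3) (nat_lit 290) (nat_lit 290) (nat_lit 200)) (XT.lf (nat_lit 76) (nat_lit 5579024907) (nat_lit 0) (nat_lit 29979391434) (nat_lit 760) (nat_lit 7233204019) (nat_lit 91) (nat_lit 5) (nat_lit 90) (nat_lit 5) (nat_lit 100) (nat_lit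 5) (nat_lit 291) (nat_lit 290) (nat_lit 199))))) (XT.nd (nat_lit 156) (nat_lit 608) (nat_lit 0) (XT.nd (nat_lit 78) (nat_lit 0) (nat_lit 0) (XT.lf (nat_lit 0) (nat_lit 38099253150) (nat_lit 684) (nat_lit 6174303486) (nat_lit 760) (nat_lit 242264491) (nat_lit 91) (nat_lit 5) (nat_lit 100) (nat_lit 5) (nat_lit 101) (nat_lit 5) (nat_lit 292) (nat_lit 290) (nat_lit 198)) (XT.lf (nat_lit 76) (nat_lit 27725583641) (nat_lit 0) (nat_lit 14050919769) (nat_lit 760) (nat_lit 4554807839) (nat_lit 92) (nat_lit 5) (nat_lit 91) (nat_lit 5) (nat_lit 101) (nat_lit 5) (nat_lit 293) (nat_lit 290) (nat_lit 197))) (XT.nd (nat_lit 78) (nat_lit 684) (nat_lit 0) (XT.lf (nat_lit 76) (nat_lit 16504027227) (nat_lit 0) (nat_lit 29896259976) (nat_lit 760) (nat_lit 1859145534) (nat_lit 93) (nat_lit 5) (nat_lit 92) (nat_lit 5) (nat_lit 102) (nat_lit 5) (nat_lit 294) (nat_lit 290) (nat_lit 196)) (XT.nd (nat_lit 78) (nat_lit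 0) (nat_lit 0) (XT.lf (nat_lit 0) (nat_lit 1699516670) (nat_lit 760) (nat_lit 45708073333) (nat_lit 836) (nat_lit 2899350098) (nat_lit 83) (nat_lit 5) (nat_lit 93) (nat_lit 5) (nat_lit 94) (nat_lit 5) (nat_lit 295) (nat_lit 290) (nat_lit 195)) (XT.lf (nat_lit 0) (nat_lit 6540601575) (nat_lit 760) (nat_lit 8043244493) (nat_lit 836) (nat_lit 37879742868) (nat_lit 83) (nat_lit 5) (nat_lit 93) (nat_lit 5) (nat_lit 94) (nat_lit 5) (nat_lit 296) (nat_lit 290) (nat_lit 194)))))) (XT.nd (nat_lit 390) (nat_lit 1520) (nat_lit 0) (XT.nd (nat_lit 156) (nat_lit 684) (nat_lit 0) (XT.nd (nat_lit 78) (nat_lit 532) (nat_lit 0) (XT.lf (nat_lit 0) (nat_lit 12625682730) (nat_lit 760) (nat_lit 21390683452) (nat_lit 76) (nat_lit 20733575459) (nat_lit 84) (nat_lit 5) (nat_lit 94) (nat_lit 5) (nat_lit 85) (nat_lit 5) (nat_lit 297) (nat_lit 290) (nat_lit 193)) (XT.lf (nat_lit 0) (nat_lit 19945241364) (nat_lit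 608) (nat_lit 35620831252) (nat_lit 76) (nat_lit 1615753275) (nat_lit 77) (nat_lit 5) (nat_lit 85) (nat_lit 5) (nat_lit 78) (nat_lit 5) (nat_lit 298) (nat_lit 290) (nat_lit 192))) (XT.nd (nat_lit 78) (nat_lit 304) (nat_lit 0) (XT.lf (nat_lit 0) (nat_lit 8615676986) (nat_lit 380) (nat_lit 20317973940) (nat_lit 456) (nat_lit 30820452020) (nat_lit 72) (nat_lit 5) (nat_lit 77) (nat_lit 5) (nat_lit 78) (nat_lit 5) (nat_lit 299) (nat_lit 290) (nat_lit 191)) (XT.nd (nat_lit 78) (nat_lit 304) (nat_lit 0) (XT.lf (nat_lit 0) (nat_lit 39545607773) (nat_lit 456) (nat_lit 5128768864) (nat_lit 76) (nat_lit 17812567701) (nat_lit 72) (nat_lit 5) (nat_lit 78) (nat_lit 5) (nat_lit 73) (nat_lit 5) (nat_lit 300) (nat_lit 290) (nat_lit 190)) (XT.lf (nat_lit 0) (nat_lit 45677847587) (nat_lit 304) (nat_lit 6381360398) (nat_lit 380) (nat_lit 13326576180) (nat_lit 68) (nat_lit 5) (nat_lit 72) (nat_lit 5) (nat_lit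 73) (nat_lit 5) (nat_lit 301) (nat_lit 290) (nat_lit 189))))) (XT.nd (nat_lit 234) (nat_lit 532) (nat_lit 0) (XT.nd (nat_lit 78) (nat_lit 684) (nat_lit 0) (XT.lf (nat_lit 0) (nat_lit 32716483969) (nat_lit 304) (nat_lit 34002178670) (nat_lit 380) (nat_lit 1740635276) (nat_lit 64) (nat_lit 5) (nat_lit 68) (nat_lit 5) (nat_lit 69) (nat_lit 5) (nat_lit 302) (nat_lit 290) (nat_lit 188)) (XT.nd (nat_lit 78) (nat_lit 304) (nat_lit 0) (XT.lf (nat_lit 0) (nat_lit 11287144426) (nat_lit 380) (nat_lit 53261437731) (nat_lit 76) (nat_lit 7178718843) (nat_lit 59) (nat_lit 5) (nat_lit 64) (nat_lit 5) (nat_lit 60) (nat_lit 5) (nat_lit 303) (nat_lit 290) (nat_lit 187)) (XT.lf (nat_lit 0) (nat_lit 2526814886) (nat_lit 304) (nat_lit 24013152824) (nat_lit 380) (nat_lit 48653163773) (nat_lit 55) (nat_lit 5) (nat_lit 59) (nat_lit 5) (nat_lit 60) (nat_lit 5) (nat_lit 304) (nat_lit 290) (nat_lit 186)))) (XT.nd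 (nat_lit 78) (nat_lit 532) (nat_lit 0) (XT.lf (nat_lit 0) (nat_lit 44262110200) (nat_lit 380) (nat_lit 14536692206) (nat_lit 76) (nat_lit 20074975156) (nat_lit 55) (nat_lit 5) (nat_lit 60) (nat_lit 5) (nat_lit 56) (nat_lit 5) (nat_lit 305) (nat_lit 290) (nat_lit 185)) (XT.nd (nat_lit 78) (nat_lit 304) (nat_lit 0) (XT.lf (nat_lit 0) (nat_lit 49417155028) (nat_lit 228) (nat_lit 15159014205) (nat_lit 304) (nat_lit 18214002380) (nat_lit 52) (nat_lit 5) (nat_lit 55) (nat_lit 5) (nat_lit 56) (nat_lit 5) (nat_lit 306) (nat_lit 290) (nat_lit 184)) (XT.lf (nat_lit 0) (nat_lit 794625535) (nat_lit 304) (nat_lit 54435285012) (nat_lit 76) (nat_lit 31726213525) (nat_lit 48) (nat_lit 5) (nat_lit 52) (nat_lit 5) (nat_lit 49) (nat_lit 5) (nat_lit 307) (nat_lit 290) (nat_lit 183))))))))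
noncomputable def xc100 : XT := (XT.nd (nat_lit 1560) (nat_lit 684) (nat_lit 0) (XT.nd (nat_lit 780) (nat_lit 1064) (nat_lit 0) (XT.nd (nat_lit 390) (nat_lit 532) (nat_lit 0) (XT.nd (nat_lit 156) (nat_lit 684) (nat_lit 0) (XT.nd (nat_lit 78) (nat_lit 0) (nat_lit 0) (XT.lf (nat_lit 0) (nat_lit 13302331398) (nat_lit 228) (nat_lit 8444074371) (nat_lit 304) (nat_lit 69640990738) (nat_lit 45) (nat_lit 5) (nat_lit 48) (nat_lit 5) (nat_lit 49) (nat_lit 5) (nat_lit 308) (nat_lit 290) (nat_lit 182)) (XT.lf (nat_lit 0) (nat_lit 45993161012) (nat_lit 304) (nat_lit 8398330783) (nat_lit 76) (nat_lit 41700739992) (nat_lit 45) (nat_lit 5) (nat_lit 49) (nat_lit 5) (nat_lit 46) (nat_lit 5) (nat_lit 309) (nat_lit 290) (nat_lit 181))) (XT.nd (nat_lit 78) (nat_lit 456) (nat_lit 0) (XT.lf (nat_lit 0) (nat_lit 68924386027) (nat_lit 228) (nat_lit 4471905371) (nat_lit 304) (nat_lit 27716333232) (nat_lit 42) (nat_lit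 5) (nat_lit 45) (nat_lit 5) (nat_lit 46) (nat_lit 5) (nat_lit 310) (nat_lit 290) (nat_lit 180)) (XT.nd (nat_lit 78) (nat_lit 304) (nat_lit 0) (XT.lf (nat_lit 0) (nat_lit 46930697475) (nat_lit 152) (nat_lit 57712539274) (nat_lit 228) (nat_lit 1808836222) (nat_lit 40) (nat_lit 5) (nat_lit 42) (nat_lit 5) (nat_lit 43) (nat_lit 5) (nat_lit 311) (nat_lit 290) (nat_lit 179)) (XT.lf (nat_lit 0) (nat_lit 21531375007) (nat_lit 228) (nat_lit 4782001185) (nat_lit 304) (nat_lit 85835884704) (nat_lit 36) (nat_lit 5) (nat_lit 39) (nat_lit 5) (nat_lit 40) (nat_lit 5) (nat_lit 312) (nat_lit 290) (nat_lit 178))))) (XT.nd (nat_lit 156) (nat_lit 380) (nat_lit 0) (XT.nd (nat_lit 78) (nat_lit 152) (nat_lit 0) (XT.lf (nat_lit 0) (nat_lit 58492882407) (nat_lit 304) (nat_lit 7924350504) (nat_lit 76) (nat_lit 51789965684) (nat_lit 36) (nat_lit 5) (nat_lit 40) (nat_lit 5) (nat_lit 37) (nat_lit 5) (nat_lit 313)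 (nat_lit 290) (nat_lit 177)) (XT.lf (nat_lit 0) (nat_lit 83989959902) (nat_lit 152) (nat_lit 10647237621) (nat_lit 228) (nat_lit 30043053103) (nat_lit 34) (nat_lit 5) (nat_lit 36) (nat_lit 5) (nat_lit 37) (nat_lit 5) (nat_lit 314) (nat_lit 290) (nat_lit 176))) (XT.nd (nat_lit 78) (nat_lit 152) (nat_lit 0) (XT.lf (nat_lit 0) (nat_lit 3703479886) (nat_lit 228) (nat_lit 78857017269) (nat_lit 76) (nat_lit 49020806296) (nat_lit 31) (nat_lit 5) (nat_lit 34) (nat_lit 5) (nat_lit 32) (nat_lit 5) (nat_lit 315) (nat_lit 290) (nat_lit 175)) (XT.nd (nat_lit 78) (nat_lit 0) (nat_lit 0) (XT.lf (nat_lit 0) (nat_lit 15874217707) (nat_lit 152) (nat_lit 24383429747) (nat_lit 228) (nat_lit 98694145304) (nat_lit 29) (nat_lit 5) (nat_lit 31) (nat_lit 5) (nat_lit 32) (nat_lit 5) (nat_lit 316) (nat_lit 290) (nat_lit 174)) (XT.lf (nat_lit 0) (nat_lit 81731252775) (nat_lit 228) (nat_lit 26468275664) (nat_lit 76)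 (nat_lit 38612638865) (nat_lit 29) (nat_lit 5) (nat_lit 32) (nat_lit 5) (nat_lit 30) (nat_lit 5) (nat_lit 317) (nat_lit 290) (nat_lit 173)))))) (XT.nd (nat_lit 390) (nat_lit 532) (nat_lit 0) (XT.nd (nat_lit 156) (nat_lit 228) (nat_lit 0) (XT.nd (nat_lit 78) (nat_lit 152) (nat_lit 0) (XT.lf (nat_lit 0) (nat_lit 80017693791) (nat_lit 152) (nat_lit 48164270276) (nat_lit 228) (nat_lit 27036448084) (nat_lit 27) (nat_lit 5) (nat_lit 29) (nat_lit 5) (nat_lit 30) (nat_lit 5) (nat_lit 318) (nat_lit 290) (nat_lit 172)) (XT.lf (nat_lit 0) (nat_lit 14856672328) (nat_lit 152) (nat_lit 132012264456) (nat_lit 76) (nat_lit 17354509908) (nat_lit 25) (nat_lit 5) (nat_lit 27) (nat_lit 5) (nat_lit 26) (nat_lit 5) (nat_lit 319) (nat_lit 290) (nat_lit 171))) (XT.nd (nat_lit 78) (nat_lit 228) (nat_lit 0) (XT.lf (nat_lit 0) (nat_lit 61309097490) (nat_lit 152) (nat_lit 24273360621) (nat_lit 76) (nat_lit 88236511826)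 (nat_lit 25) (nat_lit 5) (nat_lit 27) (nat_lit 5) (nat_lit 26) (nat_lit 5) (nat_lit 320) (nat_lit 290) (nat_lit 170)) (XT.nd (nat_lit 78) (nat_lit 76) (nat_lit 0) (XT.lf (nat_lit 0) (nat_lit 95127566676) (nat_lit 152) (nat_lit 17834299549) (nat_lit 228) (nat_lit 71146062257) (nat_lit 23) (nat_lit 5) (nat_lit 25) (nat_lit 5) (nat_lit 26) (nat_lit 5) (nat_lit 321) (nat_lit 290) (nat_lit 169)) (XT.lf (nat_lit 0) (nat_lit 29830693362) (nat_lit 76) (nat_lit 140674559032) (nat_lit 152) (nat_lit 24626832370) (nat_lit 22) (nat_lit 5) (nat_lit 23) (nat_lit 5) (nat_lit 24) (nat_lit 4) (nat_lit 322) (nat_lit 290) (nat_lit 168))))) (XT.nd (nat_lit 156) (nat_lit 304) (nat_lit 0) (XT.nd (nat_lit 78) (nat_lit 152) (nat_lit 0) (XT.lf (nat_lit 0) (nat_lit 26669254803) (nat_lit 152) (nat_lit 46364302293) (nat_lit 76) (nat_lit 133890865697) (nat_lit 21) (nat_lit 5) (nat_lit 23) (nat_lit 5) (nat_lit 22) (nat_lit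 5) (nat_lit 323) (nat_lit 290) (nat_lit 167)) (XT.lf (nat_lit 0) (nat_lit 82562805809) (nat_lit 228) (nat_lit 135230903481) (nat_lit 76) (nat_lit 1778424285) (nat_lit 19) (nat_lit 5) (nat_lit 22) (nat_lit 5) (nat_lit 20) (nat_lit 4) (nat_lit 324) (nat_lit 290) (nat_lit 166))) (XT.nd (nat_lit 78) (nat_lit 304) (nat_lit 0) (XT.lf (nat_lit 0) (nat_lit 144979319446) (nat_lit 228) (nat_lit 7278667551) (nat_lit 76) (nat_lit 80871100938) (nat_lit 19) (nat_lit 5) (nat_lit 22) (nat_lit 5) (nat_lit 20) (nat_lit 4) (nat_lit 325) (nat_lit 290) (nat_lit 165)) (XT.nd (nat_lit 78) (nat_lit 228) (nat_lit 0) (XT.lf (nat_lit 0) (nat_lit 135236752749) (nat_lit 76) (nat_lit 79263014281) (nat_lit 152) (nat_lit 33165301567) (nat_lit 18) (nat_lit 5) (nat_lit 19) (nat_lit 5) (nat_lit 20) (nat_lit 4) (nat_lit 326) (nat_lit 290) (nat_lit 164)) (XT.lf (nat_lit 0) (nat_lit 25929368249) (nat_lit 228) (nat_lit 236834467471)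 (nat_lit 76) (nat_lit 552096613) (nat_lit 15) (nat_lit 5) (nat_lit 18) (nat_lit 5) (nat_lit 16) (nat_lit 4) (nat_lit 327) (nat_lit 290) (nat_lit 163))))))) (XT.nd (nat_lit 780) (nat_lit 228) (nat_lit 0) (XT.nd (nat_lit 390) (nat_lit 228) (nat_lit 0) (XT.nd (nat_lit 156) (nat_lit 152) (nat_lit 0) (XT.nd (nat_lit 78) (nat_lit 76) (nat_lit 0) (XT.lf (nat_lit 0) (nat_lit 91931491098) (nat_lit 228) (nat_lit 101531338153) (nat_lit 76) (nat_lit 86561760228) (nat_lit 15) (nat_lit 5) (nat_lit 18) (nat_lit 5) (nat_lit 16) (nat_lit 4) (nat_lit 328) (nat_lit 290) (nat_lit 162)) (XT.lf (nat_lit 0) (nat_lit 46069297501) (nat_lit 76) (nat_lit 117863055850) (nat_lit 152) (nat_lit 134101657816) (nat_lit 14) (nat_lit 5) (nat_lit 15) (nat_lit 5) (nat_lit 16) (nat_lit 4) (nat_lit 329) (nat_lit 290) (nat_lit 161))) (XT.nd (nat_lit 78) (nat_lit 152) (nat_lit 0) (XT.lf (nat_lit 0) (nat_lit 209102440394) (nat_lit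 76) (nat_lit 34358786620) (nat_lit 152) (nat_lit 73934562872) (nat_lit 14) (nat_lit 5) (nat_lit 15) (nat_lit 5) (nat_lit 16) (nat_lit 4) (nat_lit 330) (nat_lit 290) (nat_lit 160)) (XT.nd (nat_lit 78) (nat_lit 76) (nat_lit 0) (XT.lf (nat_lit 0) (nat_lit 47519930672) (nat_lit 76) (nat_lit 283445370640) (nat_lit 76) (nat_lit 7260565438) (nat_lit 13) (nat_lit 4) (nat_lit 14) (nat_lit 5) (nat_lit 14) (nat_lit 4) (nat_lit 331) (nat_lit 290) (nat_lit 159)) (XT.lf (nat_lit 0) (nat_lit 65171102219) (nat_lit 152) (nat_lit 142584901452) (nat_lit 76) (nat_lit 152790998551) (nat_lit 12) (nat_lit 5) (nat_lit 14) (nat_lit 5) (nat_lit 13) (nat_lit 4) (nat_lit 332) (nat_lit 290) (nat_lit 158))))) (XT.nd (nat_lit 156) (nat_lit 152) (nat_lit 0) (XT.nd (nat_lit 78) (nat_lit 0) (nat_lit 0) (XT.lf (nat_lit 0) (nat_lit 17833141622) (nat_lit 76) (nat_lit 125591051075) (nat_lit 152) (nat_lit 241209621652) (nat_lit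 11) (nat_lit 5) (nat_lit 12) (nat_lit 5) (nat_lit 13) (nat_lit 4) (nat_lit 333) (nat_lit 290) (nat_lit 157)) (XT.lf (nat_lit 0) (nat_lit 196175313473) (nat_lit 76) (nat_lit 34245418523) (nat_lit 152) (nat_lit 180102679666) (nat_lit 11) (nat_lit 5) (nat_lit 12) (nat_lit 5) (nat_lit 13) (nat_lit 4) (nat_lit 334) (nat_lit 290) (nat_lit 156))) (XT.nd (nat_lit 78) (nat_lit 152) (nat_lit 0) (XT.lf (nat_lit 0) (nat_lit 325382079593) (nat_lit 152) (nat_lit 50705826899) (nat_lit 0) (nat_lit 62346016277) (nat_lit 11) (nat_lit 5) (nat_lit 13) (nat_lit 4) (nat_lit 11) (nat_lit 4) (nat_lit 335) (nat_lit 290) (nat_lit 155)) (XT.nd (nat_lit 78) (nat_lit 76) (nat_lit 0) (XT.lf (nat_lit 0) (nat_lit 129597460208) (nat_lit 76) (nat_lit 300943229731) (nat_lit 76) (nat_lit 37906567331) (nat_lit 10) (nat_lit 4) (nat_lit 11) (nat_lit 5) (nat_lit 11) (nat_lit 4) (nat_lit 336) (nat_lit 290) (nat_lit 154)) (XT.lf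 (nat_lit 0) (nat_lit 42763341687) (nat_lit 152) (nat_lit 175372366647) (nat_lit 76) (nat_lit 282647322884) (nat_lit 9) (nat_lit 5) (nat_lit 11) (nat_lit 5) (nat_lit 10) (nat_lit 4) (nat_lit 337) (nat_lit 290) (nat_lit 153)))))) (XT.nd (nat_lit 390) (nat_lit 76) (nat_lit 0) (XT.nd (nat_lit 156) (nat_lit 76) (nat_lit 0) (XT.nd (nat_lit 78) (nat_lit 0) (nat_lit 0) (XT.lf (nat_lit 0) (nat_lit 561278582) (nat_lit 76) (nat_lit 128023604006) (nat_lit 152) (nat_lit 407088408709) (nat_lit 8) (nat_lit 5) (nat_lit 9) (nat_lit 5) (nat_lit 10) (nat_lit 4) (nat_lit 338) (nat_lit 290) (nat_lit 152)) (XT.lf (nat_lit 0) (nat_lit 196831369468) (nat_lit 76) (nat_lit 27495252856) (nat_lit 152) (nat_lit 348875426270) (nat_lit 8) (nat_lit 5) (nat_lit 9) (nat_lit 5) (nat_lit 10) (nat_lit 4) (nat_lit 339) (nat_lit 290) (nat_lit 151))) (XT.nd (nat_lit 78) (nat_lit 76) (nat_lit 0) (XT.lf (nat_lit 0) (nat_lit 328993141580)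 (nat_lit 152) (nat_lit 206196548275) (nat_lit 0) (nat_lit 78480144778) (nat_lit 8) (nat_lit 5) (nat_lit 10) (nat_lit 4) (nat_lit 8) (nat_lit 4) (nat_lit 340) (nat_lit 290) (nat_lit 150)) (XT.nd (nat_lit 78) (nat_lit 76) (nat_lit 0) (XT.lf (nat_lit 0) (nat_lit 442496256878) (nat_lit 152) (nat_lit 22872751349) (nat_lit 0) (nat_lit 191982871765) (nat_lit 8) (nat_lit 5) (nat_lit 10) (nat_lit 4) (nat_lit 8) (nat_lit 4) (nat_lit 341) (nat_lit 290) (nat_lit 149)) (XT.lf (nat_lit 0) (nat_lit 180906490316) (nat_lit 76) (nat_lit 386997268307) (nat_lit 76) (nat_lit 136483523646) (nat_lit 7) (nat_lit 4) (nat_lit 8) (nat_lit 5) (nat_lit 8) (nat_lit 4) (nat_lit 342) (nat_lit 290) (nat_lit 148))))) (XT.nd (nat_lit 36660) (nat_lit 0) (nat_lit 6384) (XT.nd (nat_lit 78) (nat_lit 76) (nat_lit 0) (XT.lf (nat_lit 0) (nat_lit 401804279325) (nat_lit 76) (nat_lit 301937704476) (nat_lit 76) (nat_lit 51423626901)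 (nat_lit 7) (nat_lit 4) (nat_lit 8) (nat_lit 5) (nat_lit 8) (nat_lit 4) (nat_lit 343) (nat_lit 290) (nat_lit 147)) (XT.nd (nat_lit 36504) (nat_lit 0) (nat_lit 6384) (XT.lf (nat_lit 0) (nat_lit 39146407629) (nat_lit 152) (nat_lit 170264250189) (nat_lit 76) (nat_lit 600563992171) (nat_lit 6) (nat_lit 5) (nat_lit 8) (nat_lit 5) (nat_lit 7) (nat_lit 4) (nat_lit 344) (nat_lit 290) (nat_lit 146)) (XT.lf (nat_lit 0) (nat_lit 9168588085) (nat_lit 0) (nat_lit 9168588085) (nat_lit 684) (nat_lit 3887789821) (nat_lit 90) (nat_lit 5) (nat_lit 90) (nat_lit 3) (nat_lit 99) (nat_lit 3) (nat_lit 291) (nat_lit 291) (nat_lit 198)))) (XT.nd (nat_lit 78) (nat_lit 0) (nat_lit 76) (XT.lf (nat_lit 76) (nat_lit 6084731659) (nat_lit 0) (nat_lit 32421165998) (nat_lit 760) (nat_lit 7703704771) (nat_lit 91) (nat_lit 5) (nat_lit 90) (nat_lit 5) (nat_lit 100) (nat_lit 5) (nat_lit 292) (nat_lit 291) (nat_lit 197)) (XT.nd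 (nat_lit 78) (nat_lit 0) (nat_lit 0) (XT.lf (nat_lit 0) (nat_lit 41241758262) (nat_lit 684) (nat_lit 6607682692) (nat_lit 760) (nat_lit 222725805) (nat_lit 91) (nat_lit 5) (nat_lit 100) (nat_lit 5) (nat_lit 101) (nat_lit 5) (nat_lit 293) (nat_lit 291) (nat_lit 196)) (XT.lf (nat_lit 76) (nat_lit 30001563321) (nat_lit 0) (nat_lit 15205524913) (nat_lit 760) (nat_lit 4826127080) (nat_lit 92) (nat_lit 5) (nat_lit 91) (nat_lit 5) (nat_lit 101) (nat_lit 5) (nat_lit 294) (nat_lit 291) (nat_lit 195))))))))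
noncomputable def xc101 : XT := (XT.nd (nat_lit 1638) (nat_lit 1748) (nat_lit 0) (XT.nd (nat_lit 780) (nat_lit 1900) (nat_lit 0) (XT.nd (nat_lit 390) (nat_lit 1368) (nat_lit 0) (XT.nd (nat_lit 156) (nat_lit 456) (nat_lit 0) (XT.nd (nat_lit 78) (nat_lit 684) (nat_lit 0) (XT.lf (nat_lit 76) (nat_lit 17884621553) (nat_lit 0) (nat_lit 32310099892) (nat_lit 760) (nat_lit 1921180896) (nat_lit 93) (nat_lit 5) (nat_lit 92) (nat_lit 5) (nat_lit 102) (nat_lit 5) (nat_lit 295) (nat_lit 291) (nat_lit 194)) (XT.lf (nat_lit 0) (nat_lit 1913842928) (nat_lit 760) (nat_lit 49299900864) (nat_lit 836) (nat_lit 3113688252) (nat_lit 83) (nat_lit 5) (nat_lit 93) (nat_lit 5) (nat_lit 94) (nat_lit 5) (nat_lit 296) (nat_lit 291) (nat_lit 193))) (XT.nd (nat_lit 78) (nat_lit 456) (nat_lit 0) (XT.lf (nat_lit 0) (nat_lit 7136409817) (nat_lit 760) (nat_lit 8626687075) (nat_lit 836) (nat_lit 40893816877) (nat_lit 83)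 (nat_lit 5) (nat_lit 93) (nat_lit 5) (nat_lit 94) (nat_lit 5) (nat_lit 297) (nat_lit 291) (nat_lit 192)) (XT.nd (nat_lit 78) (nat_lit 532) (nat_lit 0) (XT.lf (nat_lit 0) (nat_lit 13703652317) (nat_lit 760) (nat_lit 23040834371) (nat_lit 76) (nat_lit 22381930205) (nat_lit 84) (nat_lit 5) (nat_lit 94) (nat_lit 5) (nat_lit 85) (nat_lit 5) (nat_lit 298) (nat_lit 291) (nat_lit 191)) (XT.lf (nat_lit 0) (nat_lit 21604573940) (nat_lit 608) (nat_lit 38408661026) (nat_lit 76) (nat_lit 1739836213) (nat_lit 77) (nat_lit 5) (nat_lit 85) (nat_lit 5) (nat_lit 78) (nat_lit 5) (nat_lit 299) (nat_lit 291) (nat_lit 190))))) (XT.nd (nat_lit 156) (nat_lit 988) (nat_lit 0) (XT.nd (nat_lit 78) (nat_lit 0) (nat_lit 0) (XT.lf (nat_lit 0) (nat_lit 9364080523) (nat_lit 380) (nat_lit 21944179730) (nat_lit 456) (nat_lit 33223068472) (nat_lit 72) (nat_lit 5) (nat_lit 77) (nat_lit 5) (nat_lit 78) (nat_lit 5) (nat_lit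 300) (nat_lit 291) (nat_lit 189)) (XT.lf (nat_lit 0) (nat_lit 42764724232) (nat_lit 456) (nat_lit 5481418686) (nat_lit 76) (nat_lit 19236884878) (nat_lit 72) (nat_lit 5) (nat_lit 78) (nat_lit 5) (nat_lit 73) (nat_lit 5) (nat_lit 301) (nat_lit 291) (nat_lit 188))) (XT.nd (nat_lit 78) (nat_lit 684) (nat_lit 0) (XT.lf (nat_lit 0) (nat_lit 49387221609) (nat_lit 304) (nat_lit 6888943110) (nat_lit 380) (nat_lit 14337779788) (nat_lit 68) (nat_lit 5) (nat_lit 72) (nat_lit 5) (nat_lit 73) (nat_lit 5) (nat_lit 302) (nat_lit 291) (nat_lit 187)) (XT.nd (nat_lit 78) (nat_lit 380) (nat_lit 0) (XT.lf (nat_lit 0) (nat_lit 35389093564) (nat_lit 304) (nat_lit 36716319573) (nat_lit 380) (nat_lit 1828081120) (nat_lit 64) (nat_lit 5) (nat_lit 68) (nat_lit 5) (nat_lit 69) (nat_lit 5) (nat_lit 303) (nat_lit 291) (nat_lit 186)) (XT.lf (nat_lit 0) (nat_lit 12237513447) (nat_lit 380) (nat_lit 57465476277) (nat_lit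 76) (nat_lit 7760050865) (nat_lit 59) (nat_lit 5) (nat_lit 64) (nat_lit 5) (nat_lit 60) (nat_lit 5) (nat_lit 304) (nat_lit 291) (nat_lit 185)))))) (XT.nd (nat_lit 390) (nat_lit 836) (nat_lit 0) (XT.nd (nat_lit 156) (nat_lit 760) (nat_lit 0) (XT.nd (nat_lit 78) (nat_lit 0) (nat_lit 0) (XT.lf (nat_lit 0) (nat_lit 2783364766) (nat_lit 304) (nat_lit 25924536313) (nat_lit 380) (nat_lit 52498375034) (nat_lit 55) (nat_lit 5) (nat_lit 59) (nat_lit 5) (nat_lit 60) (nat_lit 5) (nat_lit 305) (nat_lit 291) (nat_lit 184)) (XT.lf (nat_lit 0) (nat_lit 47844640969) (nat_lit 380) (nat_lit 15647257562) (nat_lit 76) (nat_lit 21689639166) (nat_lit 55) (nat_lit 5) (nat_lit 60) (nat_lit 5) (nat_lit 56) (nat_lit 5) (nat_lit 306) (nat_lit 291) (nat_lit 183))) (XT.nd (nat_lit 78) (nat_lit 532) (nat_lit 0) (XT.lf (nat_lit 0) (nat_lit 53420621513) (nat_lit 228) (nat_lit 16360906657) (nat_lit 304) (nat_lit 19629834667)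 (nat_lit 52) (nat_lit 5) (nat_lit 55) (nat_lit 5) (nat_lit 56) (nat_lit 5) (nat_lit 307) (nat_lit 291) (nat_lit 182)) (XT.nd (nat_lit 78) (nat_lit 228) (nat_lit 0) (XT.lf (nat_lit 0) (nat_lit 896149159) (nat_lit 304) (nat_lit 58739110715) (nat_lit 76) (nat_lit 34275404209) (nat_lit 48) (nat_lit 5) (nat_lit 52) (nat_lit 5) (nat_lit 49) (nat_lit 5) (nat_lit 308) (nat_lit 291) (nat_lit 181)) (XT.lf (nat_lit 0) (nat_lit 14415298736) (nat_lit 228) (nat_lit 9106723306) (nat_lit 304) (nat_lit 75174522630) (nat_lit 45) (nat_lit 5) (nat_lit 48) (nat_lit 5) (nat_lit 49) (nat_lit 5) (nat_lit 309) (nat_lit 291) (nat_lit 180))))) (XT.nd (nat_lit 234) (nat_lit 456) (nat_lit 0) (XT.nd (nat_lit 78) (nat_lit 380) (nat_lit 0) (XT.lf (nat_lit 0) (nat_lit 49706044316) (nat_lit 304) (nat_lit 9023508972) (nat_lit 76) (nat_lit 45048340738) (nat_lit 45) (nat_lit 5) (nat_lit 49) (nat_lit 5) (nat_lit 46) (nat_lit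 5) (nat_lit 310) (nat_lit 291) (nat_lit 179)) (XT.nd (nat_lit 78) (nat_lit 152) (nat_lit 0) (XT.lf (nat_lit 0) (nat_lit 74482996168) (nat_lit 228) (nat_lit 4816649894) (nat_lit 304) (nat_lit 29900364506) (nat_lit 42) (nat_lit 5) (nat_lit 45) (nat_lit 5) (nat_lit 46) (nat_lit 5) (nat_lit 311) (nat_lit 291) (nat_lit 178)) (XT.lf (nat_lit 0) (nat_lit 50729230885) (nat_lit 152) (nat_lit 62315647832) (nat_lit 228) (nat_lit 1921812546) (nat_lit 40) (nat_lit 5) (nat_lit 42) (nat_lit 5) (nat_lit 43) (nat_lit 5) (nat_lit 312) (nat_lit 291) (nat_lit 177)))) (XT.nd (nat_lit 78) (nat_lit 152) (nat_lit 0) (XT.lf (nat_lit 0) (nat_lit 23297053478) (nat_lit 228) (nat_lit 5150506603) (nat_lit 304) (nat_lit 92672152140) (nat_lit 36) (nat_lit 5) (nat_lit 39) (nat_lit 5) (nat_lit 40) (nat_lit 5) (nat_lit 313) (nat_lit 291) (nat_lit 176)) (XT.nd (nat_lit 78) (nat_lit 152) (nat_lit 0) (XT.lf (nat_lit 0) (nat_lit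 63199473394) (nat_lit 304) (nat_lit 8517151707) (nat_lit 76) (nat_lit 55945760013) (nat_lit 36) (nat_lit 5) (nat_lit 40) (nat_lit 5) (nat_lit 37) (nat_lit 5) (nat_lit 314) (nat_lit 291) (nat_lit 175)) (XT.lf (nat_lit 0) (nat_lit 90748515340) (nat_lit 152) (nat_lit 11485420997) (nat_lit 228) (nat_lit 32419417161) (nat_lit 34) (nat_lit 5) (nat_lit 36) (nat_lit 5) (nat_lit 37) (nat_lit 5) (nat_lit 315) (nat_lit 291) (nat_lit 174))))))) (XT.nd (nat_lit 780) (nat_lit 608) (nat_lit 0) (XT.nd (nat_lit 390) (nat_lit 456) (nat_lit 0) (XT.nd (nat_lit 156) (nat_lit 304) (nat_lit 0) (XT.nd (nat_lit 78) (nat_lit 152) (nat_lit 0) (XT.lf (nat_lit 0) (nat_lit 4024843960) (nat_lit 228) (nat_lit 85126018547) (nat_lit 76) (nat_lit 52955665340) (nat_lit 31) (nat_lit 5) (nat_lit 34) (nat_lit 5) (nat_lit 32) (nat_lit 5) (nat_lit 316) (nat_lit 291) (nat_lit 173)) (XT.lf (nat_lit 0) (nat_lit 17181995994) (nat_lit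 152) (nat_lit 26320081542) (nat_lit 228) (nat_lit 106564644027) (nat_lit 29) (nat_lit 5) (nat_lit 31) (nat_lit 5) (nat_lit 32) (nat_lit 5) (nat_lit 317) (nat_lit 291) (nat_lit 172))) (XT.nd (nat_lit 78) (nat_lit 304) (nat_lit 0) (XT.lf (nat_lit 0) (nat_lit 88292009680) (nat_lit 228) (nat_lit 28549777945) (nat_lit 76) (nat_lit 41714218283) (nat_lit 29) (nat_lit 5) (nat_lit 32) (nat_lit 5) (nat_lit 30) (nat_lit 5) (nat_lit 318) (nat_lit 291) (nat_lit 171)) (XT.nd (nat_lit 78) (nat_lit 152) (nat_lit 0) (XT.lf (nat_lit 0) (nat_lit 86453506299) (nat_lit 152) (nat_lit 52004159967) (nat_lit 228) (nat_lit 29177141283) (nat_lit 27) (nat_lit 5) (nat_lit 29) (nat_lit 5) (nat_lit 30) (nat_lit 5) (nat_lit 319) (nat_lit 291) (nat_lit 170)) (XT.lf (nat_lit 0) (nat_lit 16065854109) (nat_lit 152) (nat_lit 142538809990) (nat_lit 76) (nat_lit 18755608010) (nat_lit 25) (nat_lit 5) (nat_lit 27) (nat_lit 5)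 (nat_lit 26) (nat_lit 5) (nat_lit 320) (nat_lit 291) (nat_lit 169))))) (XT.nd (nat_lit 156) (nat_lit 304) (nat_lit 0) (XT.nd (nat_lit 78) (nat_lit 152) (nat_lit 0) (XT.lf (nat_lit 0) (nat_lit 66232943802) (nat_lit 152) (nat_lit 26183344635) (nat_lit 76) (nat_lit 95307226577) (nat_lit 25) (nat_lit 5) (nat_lit 27) (nat_lit 5) (nat_lit 26) (nat_lit 5) (nat_lit 321) (nat_lit 291) (nat_lit 168)) (XT.lf (nat_lit 0) (nat_lit 102768271170) (nat_lit 152) (nat_lit 19248722858) (nat_lit 228) (nat_lit 76818644445) (nat_lit 23) (nat_lit 5) (nat_lit 25) (nat_lit 5) (nat_lit 26) (nat_lit 5) (nat_lit 322) (nat_lit 291) (nat_lit 167))) (XT.nd (nat_lit 78) (nat_lit 228) (nat_lit 0) (XT.lf (nat_lit 0) (nat_lit 32247022653) (nat_lit 76) (nat_lit 151916126406) (nat_lit 152) (nat_lit 26578614438) (nat_lit 22) (nat_lit 5) (nat_lit 23) (nat_lit 5) (nat_lit 24) (nat_lit 4) (nat_lit 323) (nat_lit 291) (nat_lit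 166)) (XT.nd (nat_lit 78) (nat_lit 152) (nat_lit 0) (XT.lf (nat_lit 0) (nat_lit 28819255134) (nat_lit 152) (nat_lit 50045228746) (nat_lit 76) (nat_lit 144613057196) (nat_lit 21) (nat_lit 5) (nat_lit 23) (nat_lit 5) (nat_lit 22) (nat_lit 5) (nat_lit 324) (nat_lit 291) (nat_lit 165)) (XT.lf (nat_lit 0) (nat_lit 89183669259) (nat_lit 228) (nat_lit 146021766500) (nat_lit 76) (nat_lit 1931664938) (nat_lit 19) (nat_lit 5) (nat_lit 22) (nat_lit 5) (nat_lit 20) (nat_lit 4) (nat_lit 325) (nat_lit 291) (nat_lit 164)))))) (XT.nd (nat_lit 390) (nat_lit 228) (nat_lit 0) (XT.nd (nat_lit 156) (nat_lit 304) (nat_lit 0) (XT.nd (nat_lit 78) (nat_lit 76) (nat_lit 0) (XT.lf (nat_lit 0) (nat_lit 156592330729) (nat_lit 228) (nat_lit 7835396826) (nat_lit 76) (nat_lit 87350943374) (nat_lit 19) (nat_lit 5) (nat_lit 22) (nat_lit 5) (nat_lit 20) (nat_lit 4) (nat_lit 326) (nat_lit 291) (nat_lit 163)) (XT.lf (nat_lit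 0) (nat_lit 146080146112) (nat_lit 76) (nat_lit 85593563440) (nat_lit 152) (nat_lit 35803856517) (nat_lit 18) (nat_lit 5) (nat_lit 19) (nat_lit 5) (nat_lit 20) (nat_lit 4) (nat_lit 327) (nat_lit 291) (nat_lit 162))) (XT.nd (nat_lit 78) (nat_lit 76) (nat_lit 0) (XT.lf (nat_lit 0) (nat_lit 28017399151) (nat_lit 228) (nat_lit 255756852723) (nat_lit 76) (nat_lit 606262193) (nat_lit 15) (nat_lit 5) (nat_lit 18) (nat_lit 5) (nat_lit 16) (nat_lit 4) (nat_lit 328) (nat_lit 291) (nat_lit 161)) (XT.nd (nat_lit 78) (nat_lit 76) (nat_lit 0) (XT.lf (nat_lit 0) (nat_lit 99298678388) (nat_lit 228) (nat_lit 109631278403) (nat_lit 76) (nat_lit 93495958316) (nat_lit 15) (nat_lit 5) (nat_lit 18) (nat_lit 5) (nat_lit 16) (nat_lit 4) (nat_lit 329) (nat_lit 291) (nat_lit 160)) (XT.lf (nat_lit 0) (nat_lit 49776427377) (nat_lit 76) (nat_lit 127282580892) (nat_lit 152) (nat_lit 144817112930) (nat_lit 14) (nat_lit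 5) (nat_lit 15) (nat_lit 5) (nat_lit 16) (nat_lit 4) (nat_lit 330) (nat_lit 291) (nat_lit 159))))) (XT.nd (nat_lit 234) (nat_lit 76) (nat_lit 0) (XT.nd (nat_lit 78) (nat_lit 152) (nat_lit 0) (XT.lf (nat_lit 0) (nat_lit 225850622733) (nat_lit 76) (nat_lit 37098675266) (nat_lit 152) (nat_lit 79837589466) (nat_lit 14) (nat_lit 5) (nat_lit 15) (nat_lit 5) (nat_lit 16) (nat_lit 4) (nat_lit 331) (nat_lit 291) (nat_lit 158)) (XT.nd (nat_lit 78) (nat_lit 76) (nat_lit 0) (XT.lf (nat_lit 0) (nat_lit 51341053015) (nat_lit 76) (nat_lit 306112249917) (nat_lit 76) (nat_lit 7830087828) (nat_lit 13) (nat_lit 4) (nat_lit 14) (nat_lit 5) (nat_lit 14) (nat_lit 4) (nat_lit 332) (nat_lit 291) (nat_lit 157)) (XT.lf (nat_lit 0) (nat_lit 70394938955) (nat_lit 152) (nat_lit 153973270941) (nat_lit 76) (nat_lit 165022039384) (nat_lit 12) (nat_lit 5) (nat_lit 14) (nat_lit 5) (nat_lit 13) (nat_lit 4) (nat_lit 333)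 (nat_lit 291) (nat_lit 156)))) (XT.nd (nat_lit 78) (nat_lit 0) (nat_lit 0) (XT.lf (nat_lit 0) (nat_lit 19277414954) (nat_lit 76) (nat_lit 135630385101) (nat_lit 152) (nat_lit 260496230575) (nat_lit 11) (nat_lit 5) (nat_lit 12) (nat_lit 5) (nat_lit 13) (nat_lit 4) (nat_lit 334) (nat_lit 291) (nat_lit 155)) (XT.nd (nat_lit 78) (nat_lit 0) (nat_lit 0) (XT.lf (nat_lit 0) (nat_lit 211885655219) (nat_lit 76) (nat_lit 36977690838) (nat_lit 152) (nat_lit 194501485882) (nat_lit 11) (nat_lit 5) (nat_lit 12) (nat_lit 5) (nat_lit 13) (nat_lit 4) (nat_lit 335) (nat_lit 291) (nat_lit 154)) (XT.lf (nat_lit 0) (nat_lit 351421044507) (nat_lit 152) (nat_lit 54746872315) (nat_lit 0) (nat_lit 67340295323) (nat_lit 11) (nat_lit 5) (nat_lit 13) (nat_lit 4) (nat_lit 11) (nat_lit 4) (nat_lit 336) (nat_lit 291) (nat_lit 153))))))))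
noncomputable def xc102 : XT := (XT.nd (nat_lit 38142) (nat_lit 0) (nat_lit 1064) (XT.nd (nat_lit 37362) (nat_lit 0) (nat_lit 4332) (XT.nd (nat_lit 390) (nat_lit 76) (nat_lit 0) (XT.nd (nat_lit 156) (nat_lit 76) (nat_lit 0) (XT.nd (nat_lit 78) (nat_lit 76) (nat_lit 0) (XT.lf (nat_lit 0) (nat_lit 139980007594) (nat_lit 76) (nat_lit 325011944269) (nat_lit 76) (nat_lit 40930681468) (nat_lit 10) (nat_lit 4) (nat_lit 11) (nat_lit 5) (nat_lit 11) (nat_lit 4) (nat_lit 337) (nat_lit 291) (nat_lit 152)) (XT.lf (nat_lit 0) (nat_lit 46191947946) (nat_lit 152) (nat_lit 189388245084) (nat_lit 76) (nat_lit 305265100050) (nat_lit 9) (nat_lit 5) (nat_lit 11) (nat_lit 5) (nat_lit 10) (nat_lit 4) (nat_lit 338) (nat_lit 291) (nat_lit 151))) (XT.nd (nat_lit 78) (nat_lit 0) (nat_lit 0) (XT.lf (nat_lit 0) (nat_lit 619487213) (nat_lit 76) (nat_lit 138259374216) (nat_lit 152) (nat_lit 439647930344) (nat_lit 8)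 (nat_lit 5) (nat_lit 9) (nat_lit 5) (nat_lit 10) (nat_lit 4) (nat_lit 339) (nat_lit 291) (nat_lit 150)) (XT.nd (nat_lit 78) (nat_lit 0) (nat_lit 0) (XT.lf (nat_lit 0) (nat_lit 212590199715) (nat_lit 76) (nat_lit 29689208168) (nat_lit 152) (nat_lit 376778468648) (nat_lit 8) (nat_lit 5) (nat_lit 9) (nat_lit 5) (nat_lit 10) (nat_lit 4) (nat_lit 340) (nat_lit 291) (nat_lit 149)) (XT.lf (nat_lit 0) (nat_lit 355318837552) (nat_lit 152) (nat_lit 222680634919) (nat_lit 0) (nat_lit 84763633771) (nat_lit 8) (nat_lit 5) (nat_lit 10) (nat_lit 4) (nat_lit 8) (nat_lit 4) (nat_lit 341) (nat_lit 291) (nat_lit 148))))) (XT.nd (nat_lit 36738) (nat_lit 0) (nat_lit 6308) (XT.nd (nat_lit 78) (nat_lit 76) (nat_lit 0) (XT.lf (nat_lit 0) (nat_lit 477901739508) (nat_lit 152) (nat_lit 24691796256) (nat_lit 0) (nat_lit 207346202813) (nat_lit 8) (nat_lit 5) (nat_lit 10) (nat_lit 4) (nat_lit 8) (nat_lit 4) (nat_lit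 342) (nat_lit 291) (nat_lit 147)) (XT.lf (nat_lit 0) (nat_lit 195389316466) (nat_lit 76) (nat_lit 417952257544) (nat_lit 76) (nat_lit 147396412595) (nat_lit 7) (nat_lit 4) (nat_lit 8) (nat_lit 5) (nat_lit 8) (nat_lit 4) (nat_lit 343) (nat_lit 291) (nat_lit 146))) (XT.nd (nat_lit 78) (nat_lit 0) (nat_lit 0) (XT.lf (nat_lit 0) (nat_lit 9925844211) (nat_lit 0) (nat_lit 9925844211) (nat_lit 684) (nat_lit 4148802031) (nat_lit 90) (nat_lit 5) (nat_lit 90) (nat_lit 3) (nat_lit 99) (nat_lit 3) (nat_lit 292) (nat_lit 292) (nat_lit 196)) (XT.nd (nat_lit 78) (nat_lit 0) (nat_lit 76) (XT.lf (nat_lit 76) (nat_lit 6622423050) (nat_lit 0) (nat_lit 35052087715) (nat_lit 760) (nat_lit 8227275185) (nat_lit 91) (nat_lit 5) (nat_lit 90) (nat_lit 5) (nat_lit 100) (nat_lit 5) (nat_lit 293) (nat_lit 292) (nat_lit 195)) (XT.lf (nat_lit 0) (nat_lit 44622173049) (nat_lit 684) (nat_lit 7084372519) (nat_lit 760)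 (nat_lit 207176374) (nat_lit 91) (nat_lit 5) (nat_lit 100) (nat_lit 5) (nat_lit 101) (nat_lit 5) (nat_lit 294) (nat_lit 292) (nat_lit 194)))))) (XT.nd (nat_lit 390) (nat_lit 1444) (nat_lit 0) (XT.nd (nat_lit 156) (nat_lit 608) (nat_lit 0) (XT.nd (nat_lit 78) (nat_lit 0) (nat_lit 76) (XT.lf (nat_lit 76) (nat_lit 32451356587) (nat_lit 0) (nat_lit 16448142800) (nat_lit 760) (nat_lit 5132428677) (nat_lit 92) (nat_lit 5) (nat_lit 91) (nat_lit 5) (nat_lit 101) (nat_lit 5) (nat_lit 295) (nat_lit 292) (nat_lit 193)) (XT.lf (nat_lit 76) (nat_lit 19367064929) (nat_lit 0) (nat_lit 34913888609) (nat_lit 760) (nat_lit 2000547281) (nat_lit 93) (nat_lit 5) (nat_lit 92) (nat_lit 5) (nat_lit 102) (nat_lit 5) (nat_lit 296) (nat_lit 292) (nat_lit 192))) (XT.nd (nat_lit 78) (nat_lit 0) (nat_lit 0) (XT.lf (nat_lit 0) (nat_lit 2134135654) (nat_lit 760) (nat_lit 53188321658) (nat_lit 836) (nat_lit 3347685701)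 (nat_lit 83) (nat_lit 5) (nat_lit 93) (nat_lit 5) (nat_lit 94) (nat_lit 5) (nat_lit 297) (nat_lit 292) (nat_lit 191)) (XT.nd (nat_lit 78) (nat_lit 0) (nat_lit 76) (XT.lf (nat_lit 0) (nat_lit 7769531206) (nat_lit 760) (nat_lit 9265367157) (nat_lit 836) (nat_lit 44151342958) (nat_lit 83) (nat_lit 5) (nat_lit 93) (nat_lit 5) (nat_lit 94) (nat_lit 5) (nat_lit 298) (nat_lit 292) (nat_lit 190)) (XT.lf (nat_lit 0) (nat_lit 14858170642) (nat_lit 760) (nat_lit 24831714497) (nat_lit 76) (nat_lit 24163627204) (nat_lit 84) (nat_lit 5) (nat_lit 94) (nat_lit 5) (nat_lit 85) (nat_lit 5) (nat_lit 299) (nat_lit 292) (nat_lit 189))))) (XT.nd (nat_lit 156) (nat_lit 608) (nat_lit 0) (XT.nd (nat_lit 78) (nat_lit 380) (nat_lit 0) (XT.lf (nat_lit 0) (nat_lit 23387563712) (nat_lit 608) (nat_lit 41428338882) (nat_lit 76) (nat_lit 1874584390) (nat_lit 77) (nat_lit 5) (nat_lit 85) (nat_lit 5) (nat_lit 78) (nat_lit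 5) (nat_lit 300) (nat_lit 292) (nat_lit 188)) (XT.lf (nat_lit 0) (nat_lit 10163918023) (nat_lit 380) (nat_lit 23700372437) (nat_lit 456) (nat_lit 35826884708) (nat_lit 72) (nat_lit 5) (nat_lit 77) (nat_lit 5) (nat_lit 78) (nat_lit 5) (nat_lit 301) (nat_lit 292) (nat_lit 187))) (XT.nd (nat_lit 78) (nat_lit 608) (nat_lit 0) (XT.lf (nat_lit 0) (nat_lit 46233456901) (nat_lit 456) (nat_lit 5870505151) (nat_lit 76) (nat_lit 20775245614) (nat_lit 72) (nat_lit 5) (nat_lit 78) (nat_lit 5) (nat_lit 73) (nat_lit 5) (nat_lit 302) (nat_lit 292) (nat_lit 186)) (XT.nd (nat_lit 78) (nat_lit 304) (nat_lit 0) (XT.lf (nat_lit 0) (nat_lit 53385478329) (nat_lit 304) (nat_lit 7437549882) (nat_lit 380) (nat_lit 15437714990) (nat_lit 68) (nat_lit 5) (nat_lit 72) (nat_lit 5) (nat_lit 73) (nat_lit 5) (nat_lit 303) (nat_lit 292) (nat_lit 185)) (XT.lf (nat_lit 0) (nat_lit 38267624064) (nat_lit 304) (nat_lit 39648452479)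 (nat_lit 380) (nat_lit 1929913190) (nat_lit 64) (nat_lit 5) (nat_lit 68) (nat_lit 5) (nat_lit 69) (nat_lit 5) (nat_lit 304) (nat_lit 292) (nat_lit 184))))))) (XT.nd (nat_lit 780) (nat_lit 1140) (nat_lit 0) (XT.nd (nat_lit 390) (nat_lit 912) (nat_lit 0) (XT.nd (nat_lit 156) (nat_lit 532) (nat_lit 0) (XT.nd (nat_lit 78) (nat_lit 304) (nat_lit 0) (XT.lf (nat_lit 0) (nat_lit 13257150210) (nat_lit 380) (nat_lit 62013951972) (nat_lit 76) (nat_lit 8386885896) (nat_lit 59) (nat_lit 5) (nat_lit 64) (nat_lit 5) (nat_lit 60) (nat_lit 5) (nat_lit 305) (nat_lit 292) (nat_lit 183)) (XT.lf (nat_lit 0) (nat_lit 3052677200) (nat_lit 304) (nat_lit 27990209834) (nat_lit 380) (nat_lit 56657914240) (nat_lit 55) (nat_lit 5) (nat_lit 59) (nat_lit 5) (nat_lit 60) (nat_lit 5) (nat_lit 306) (nat_lit 292) (nat_lit 182))) (XT.nd (nat_lit 78) (nat_lit 532) (nat_lit 0) (XT.lf (nat_lit 0) (nat_lit 51707844921) (nat_lit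 380) (nat_lit 16854139315) (nat_lit 76) (nat_lit 23432239996) (nat_lit 55) (nat_lit 5) (nat_lit 60) (nat_lit 5) (nat_lit 56) (nat_lit 5) (nat_lit 307) (nat_lit 292) (nat_lit 181)) (XT.nd (nat_lit 78) (nat_lit 304) (nat_lit 0) (XT.lf (nat_lit 0) (nat_lit 57737218837) (nat_lit 228) (nat_lit 17660495337) (nat_lit 304) (nat_lit 21164823719) (nat_lit 52) (nat_lit 5) (nat_lit 55) (nat_lit 5) (nat_lit 56) (nat_lit 5) (nat_lit 308) (nat_lit 292) (nat_lit 180)) (XT.lf (nat_lit 0) (nat_lit 1000380171) (nat_lit 304) (nat_lit 63394517781) (nat_lit 76) (nat_lit 37026947521) (nat_lit 48) (nat_lit 5) (nat_lit 52) (nat_lit 5) (nat_lit 49) (nat_lit 5) (nat_lit 309) (nat_lit 292) (nat_lit 179))))) (XT.nd (nat_lit 156) (nat_lit 684) (nat_lit 0) (XT.nd (nat_lit 78) (nat_lit 0) (nat_lit 0) (XT.lf (nat_lit 0) (nat_lit 15610344330) (nat_lit 228) (nat_lit 9824221206) (nat_lit 304) (nat_lit 81156122158) (nat_lit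 45) (nat_lit 5) (nat_lit 48) (nat_lit 5) (nat_lit 49) (nat_lit 5) (nat_lit 310) (nat_lit 292) (nat_lit 178)) (XT.lf (nat_lit 0) (nat_lit 53711189060) (nat_lit 304) (nat_lit 9705362020) (nat_lit 76) (nat_lit 48662103013) (nat_lit 45) (nat_lit 5) (nat_lit 49) (nat_lit 5) (nat_lit 46) (nat_lit 5) (nat_lit 311) (nat_lit 292) (nat_lit 177))) (XT.nd (nat_lit 78) (nat_lit 456) (nat_lit 0) (XT.lf (nat_lit 0) (nat_lit 80479923977) (nat_lit 228) (nat_lit 5190829703) (nat_lit 304) (nat_lit 32263865387) (nat_lit 42) (nat_lit 5) (nat_lit 45) (nat_lit 5) (nat_lit 46) (nat_lit 5) (nat_lit 312) (nat_lit 292) (nat_lit 176)) (XT.nd (nat_lit 78) (nat_lit 304) (nat_lit 0) (XT.lf (nat_lit 0) (nat_lit 54825358804) (nat_lit 152) (nat_lit 67288987293) (nat_lit 228) (nat_lit 2048353697) (nat_lit 40) (nat_lit 5) (nat_lit 42) (nat_lit 5) (nat_lit 43) (nat_lit 5) (nat_lit 313) (nat_lit 292) (nat_lit 175)) (XT.lf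 (nat_lit 0) (nat_lit 25197827762) (nat_lit 228) (nat_lit 5550497510) (nat_lit 304) (nat_lit 100059686880) (nat_lit 36) (nat_lit 5) (nat_lit 39) (nat_lit 5) (nat_lit 40) (nat_lit 5) (nat_lit 314) (nat_lit 292) (nat_lit 174)))))) (XT.nd (nat_lit 390) (nat_lit 608) (nat_lit 0) (XT.nd (nat_lit 156) (nat_lit 380) (nat_lit 0) (XT.nd (nat_lit 78) (nat_lit 152) (nat_lit 0) (XT.lf (nat_lit 0) (nat_lit 68278716927) (nat_lit 304) (nat_lit 9163247062) (nat_lit 76) (nat_lit 60432220774) (nat_lit 36) (nat_lit 5) (nat_lit 40) (nat_lit 5) (nat_lit 37) (nat_lit 5) (nat_lit 315) (nat_lit 292) (nat_lit 173)) (XT.lf (nat_lit 0) (nat_lit 98042140262) (nat_lit 152) (nat_lit 12392598612) (nat_lit 228) (nat_lit 34989753636) (nat_lit 34) (nat_lit 5) (nat_lit 36) (nat_lit 5) (nat_lit 37) (nat_lit 5) (nat_lit 316) (nat_lit 292) (nat_lit 172))) (XT.nd (nat_lit 78) (nat_lit 152) (nat_lit 0) (XT.lf (nat_lit 0) (nat_lit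 4368338406) (nat_lit 228) (nat_lit 91902183617) (nat_lit 76) (nat_lit 57203430758) (nat_lit 31) (nat_lit 5) (nat_lit 34) (nat_lit 5) (nat_lit 32) (nat_lit 5) (nat_lit 317) (nat_lit 292) (nat_lit 171)) (XT.nd (nat_lit 78) (nat_lit 0) (nat_lit 0) (XT.lf (nat_lit 0) (nat_lit 18588998121) (nat_lit 152) (nat_lit 28413665960) (nat_lit 228) (nat_lit 115068353871) (nat_lit 29) (nat_lit 5) (nat_lit 31) (nat_lit 5) (nat_lit 32) (nat_lit 5) (nat_lit 318) (nat_lit 292) (nat_lit 170)) (XT.lf (nat_lit 0) (nat_lit 95374451974) (nat_lit 228) (nat_lit 30802930472) (nat_lit 76) (nat_lit 45062131045) (nat_lit 29) (nat_lit 5) (nat_lit 32) (nat_lit 5) (nat_lit 30) (nat_lit 5) (nat_lit 319) (nat_lit 292) (nat_lit 169))))) (XT.nd (nat_lit 234) (nat_lit 304) (nat_lit 0) (XT.nd (nat_lit 78) (nat_lit 152) (nat_lit 0) (XT.lf (nat_lit 0) (nat_lit 93399276690) (nat_lit 152) (nat_lit 56153131370) (nat_lit 228) (nat_lit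 31492260248) (nat_lit 27) (nat_lit 5) (nat_lit 29) (nat_lit 5) (nat_lit 30) (nat_lit 5) (nat_lit 320) (nat_lit 292) (nat_lit 168)) (XT.nd (nat_lit 78) (nat_lit 0) (nat_lit 0) (XT.lf (nat_lit 0) (nat_lit 17368824765) (nat_lit 152) (nat_lit 153912391793) (nat_lit 76) (nat_lit 20266976841) (nat_lit 25) (nat_lit 5) (nat_lit 27) (nat_lit 5) (nat_lit 26) (nat_lit 5) (nat_lit 321) (nat_lit 292) (nat_lit 167)) (XT.lf (nat_lit 0) (nat_lit 71547970351) (nat_lit 152) (nat_lit 28250676099) (nat_lit 76) (nat_lit 102941915990) (nat_lit 25) (nat_lit 5) (nat_lit 27) (nat_lit 5) (nat_lit 26) (nat_lit 5) (nat_lit 322) (nat_lit 292) (nat_lit 166)))) (XT.nd (nat_lit 78) (nat_lit 152) (nat_lit 0) (XT.lf (nat_lit 0) (nat_lit 111015880977) (nat_lit 152) (nat_lit 20778057711) (nat_lit 228) (nat_lit 82947758435) (nat_lit 23) (nat_lit 5) (nat_lit 25) (nat_lit 5) (nat_lit 26) (nat_lit 5) (nat_lit 323) (nat_lit 292)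 (nat_lit 165)) (XT.nd (nat_lit 78) (nat_lit 76) (nat_lit 0) (XT.lf (nat_lit 0) (nat_lit 34852396453) (nat_lit 76) (nat_lit 164058787791) (nat_lit 152) (nat_lit 28689158975) (nat_lit 22) (nat_lit 5) (nat_lit 23) (nat_lit 5) (nat_lit 24) (nat_lit 4) (nat_lit 324) (nat_lit 292) (nat_lit 164)) (XT.lf (nat_lit 0) (nat_lit 31138907296) (nat_lit 152) (nat_lit 54024654890) (nat_lit 76) (nat_lit 156191465834) (nat_lit 21) (nat_lit 5) (nat_lit 23) (nat_lit 5) (nat_lit 22) (nat_lit 5) (nat_lit 325) (nat_lit 292) (nat_lit 163))))))))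
noncomputable def xc103 : XT := (XT.nd (nat_lit 38298) (nat_lit 0) (nat_lit 2128) (XT.nd (nat_lit 780) (nat_lit 228) (nat_lit 0) (XT.nd (nat_lit 390) (nat_lit 304) (nat_lit 0) (XT.nd (nat_lit 156) (nat_lit 304) (nat_lit 0) (XT.nd (nat_lit 78) (nat_lit 0) (nat_lit 0) (XT.lf (nat_lit 0) (nat_lit 96331942177) (nat_lit 228) (nat_lit 157679837330) (nat_lit 76) (nat_lit 2095600319) (nat_lit 19) (nat_lit 5) (nat_lit 22) (nat_lit 5) (nat_lit 20) (nat_lit 4) (nat_lit 326) (nat_lit 292) (nat_lit 162)) (XT.lf (nat_lit 0) (nat_lit 169132290685) (nat_lit 228) (nat_lit 8440311452) (nat_lit 76) (nat_lit 94347724572) (nat_lit 19) (nat_lit 5) (nat_lit 22) (nat_lit 5) (nat_lit 20) (nat_lit 4) (nat_lit 327) (nat_lit 292) (nat_lit 161))) (XT.nd (nat_lit 78) (nat_lit 228) (nat_lit 0) (XT.lf (nat_lit 0) (nat_lit 157787522430) (nat_lit 76) (nat_lit 92432053330) (nat_lit 152) (nat_lit 38655588586) (nat_lit 18)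 (nat_lit 5) (nat_lit 19) (nat_lit 5) (nat_lit 20) (nat_lit 4) (nat_lit 328) (nat_lit 292) (nat_lit 160)) (XT.nd (nat_lit 78) (nat_lit 0) (nat_lit 0) (XT.lf (nat_lit 0) (nat_lit 30270520714) (nat_lit 228) (nat_lit 276196505753) (nat_lit 76) (nat_lit 663334715) (nat_lit 15) (nat_lit 5) (nat_lit 18) (nat_lit 5) (nat_lit 16) (nat_lit 4) (nat_lit 329) (nat_lit 292) (nat_lit 159)) (XT.lf (nat_lit 0) (nat_lit 107253433428) (nat_lit 228) (nat_lit 118382433280) (nat_lit 76) (nat_lit 100983571598) (nat_lit 15) (nat_lit 5) (nat_lit 18) (nat_lit 5) (nat_lit 16) (nat_lit 4) (nat_lit 330) (nat_lit 292) (nat_lit 158))))) (XT.nd (nat_lit 156) (nat_lit 228) (nat_lit 0) (XT.nd (nat_lit 78) (nat_lit 0) (nat_lit 0) (XT.lf (nat_lit 0) (nat_lit 53777048149) (nat_lit 76) (nat_lit 137457025990) (nat_lit 152) (nat_lit 156391613043) (nat_lit 14) (nat_lit 5) (nat_lit 15) (nat_lit 5) (nat_lit 16) (nat_lit 4) (nat_lit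 331) (nat_lit 292) (nat_lit 157)) (XT.lf (nat_lit 0) (nat_lit 243935808275) (nat_lit 76) (nat_lit 40059012460) (nat_lit 152) (nat_lit 86214532806) (nat_lit 14) (nat_lit 5) (nat_lit 15) (nat_lit 5) (nat_lit 16) (nat_lit 4) (nat_lit 332) (nat_lit 292) (nat_lit 156))) (XT.nd (nat_lit 78) (nat_lit 152) (nat_lit 0) (XT.lf (nat_lit 0) (nat_lit 55465079273) (nat_lit 76) (nat_lit 330593727876) (nat_lit 76) (nat_lit 8446787340) (nat_lit 13) (nat_lit 4) (nat_lit 14) (nat_lit 5) (nat_lit 14) (nat_lit 4) (nat_lit 333) (nat_lit 292) (nat_lit 155)) (XT.nd (nat_lit 78) (nat_lit 76) (nat_lit 0) (XT.lf (nat_lit 0) (nat_lit 76035234824) (nat_lit 152) (nat_lit 166275338183) (nat_lit 76) (nat_lit 178230456298) (nat_lit 12) (nat_lit 5) (nat_lit 14) (nat_lit 5) (nat_lit 13) (nat_lit 4) (nat_lit 334) (nat_lit 292) (nat_lit 154)) (XT.lf (nat_lit 0) (nat_lit 20834716177) (nat_lit 76) (nat_lit 146474000015) (nat_lit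 152) (nat_lit 281327217765) (nat_lit 11) (nat_lit 5) (nat_lit 12) (nat_lit 5) (nat_lit 13) (nat_lit 4) (nat_lit 335) (nat_lit 292) (nat_lit 153)))))) (XT.nd (nat_lit 390) (nat_lit 0) (nat_lit 0) (XT.nd (nat_lit 156) (nat_lit 228) (nat_lit 0) (XT.nd (nat_lit 78) (nat_lit 0) (nat_lit 0) (XT.lf (nat_lit 0) (nat_lit 228850496550) (nat_lit 76) (nat_lit 39929595091) (nat_lit 152) (nat_lit 210053538775) (nat_lit 11) (nat_lit 5) (nat_lit 12) (nat_lit 5) (nat_lit 13) (nat_lit 4) (nat_lit 336) (nat_lit 292) (nat_lit 152)) (XT.lf (nat_lit 0) (nat_lit 379541928468) (nat_lit 152) (nat_lit 59113401305) (nat_lit 0) (nat_lit 72733175451) (nat_lit 11) (nat_lit 5) (nat_lit 13) (nat_lit 4) (nat_lit 11) (nat_lit 4) (nat_lit 337) (nat_lit 292) (nat_lit 151))) (XT.nd (nat_lit 78) (nat_lit 152) (nat_lit 0) (XT.lf (nat_lit 0) (nat_lit 151191054438) (nat_lit 76) (nat_lit 351007118055) (nat_lit 76) (nat_lit 44197924694)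 (nat_lit 10) (nat_lit 4) (nat_lit 11) (nat_lit 5) (nat_lit 11) (nat_lit 4) (nat_lit 338) (nat_lit 292) (nat_lit 150)) (XT.nd (nat_lit 78) (nat_lit 76) (nat_lit 0) (XT.lf (nat_lit 0) (nat_lit 49893767193) (nat_lit 152) (nat_lit 204527378340) (nat_lit 76) (nat_lit 329691444660) (nat_lit 9) (nat_lit 5) (nat_lit 11) (nat_lit 5) (nat_lit 10) (nat_lit 4) (nat_lit 339) (nat_lit 292) (nat_lit 149)) (XT.lf (nat_lit 0) (nat_lit 680454235) (nat_lit 76) (nat_lit 149314878860) (nat_lit 152) (nat_lit 474813290954) (nat_lit 8) (nat_lit 5) (nat_lit 9) (nat_lit 5) (nat_lit 10) (nat_lit 4) (nat_lit 340) (nat_lit 292) (nat_lit 148))))) (XT.nd (nat_lit 36894) (nat_lit 0) (nat_lit 6232) (XT.nd (nat_lit 78) (nat_lit 0) (nat_lit 0) (XT.lf (nat_lit 0) (nat_lit 229607978697) (nat_lit 76) (nat_lit 32059488068) (nat_lit 152) (nat_lit 406914751864) (nat_lit 8) (nat_lit 5) (nat_lit 9) (nat_lit 5) (nat_lit 10) (nat_lit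 4) (nat_lit 341) (nat_lit 292) (nat_lit 147)) (XT.nd (nat_lit 78) (nat_lit 0) (nat_lit 0) (XT.lf (nat_lit 0) (nat_lit 383749698334) (nat_lit 152) (nat_lit 240485108674) (nat_lit 0) (nat_lit 91549077535) (nat_lit 8) (nat_lit 5) (nat_lit 10) (nat_lit 4) (nat_lit 8) (nat_lit 4) (nat_lit 342) (nat_lit 292) (nat_lit 146)) (XT.lf (nat_lit 0) (nat_lit 516138835870) (nat_lit 152) (nat_lit 26657901957) (nat_lit 0) (nat_lit 223937929650) (nat_lit 8) (nat_lit 5) (nat_lit 10) (nat_lit 4) (nat_lit 8) (nat_lit 4) (nat_lit 343) (nat_lit 292) (nat_lit 145)))) (XT.nd (nat_lit 78) (nat_lit 0) (nat_lit 0) (XT.lf (nat_lit 0) (nat_lit 10740289903) (nat_lit 0) (nat_lit 10740289903) (nat_lit 684) (nat_lit 4437829842) (nat_lit 90) (nat_lit 5) (nat_lit 90) (nat_lit 3) (nat_lit 99) (nat_lit 3) (nat_lit 293) (nat_lit 293) (nat_lit 194)) (XT.nd (nat_lit 78) (nat_lit 0) (nat_lit 76) (XT.lf (nat_lit 76) (nat_lit 7195866464)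 (nat_lit 0) (nat_lit 37888172116) (nat_lit 760) (nat_lit 8805959628) (nat_lit 91) (nat_lit 5) (nat_lit 90) (nat_lit 5) (nat_lit 100) (nat_lit 5) (nat_lit 294) (nat_lit 293) (nat_lit 193)) (XT.lf (nat_lit 0) (nat_lit 48261454888) (nat_lit 684) (nat_lit 7606605184) (nat_lit 760) (nat_lit 195143236) (nat_lit 91) (nat_lit 5) (nat_lit 100) (nat_lit 5) (nat_lit 101) (nat_lit 5) (nat_lit 295) (nat_lit 293) (nat_lit 192))))))) (XT.nd (nat_lit 780) (nat_lit 2128) (nat_lit 0) (XT.nd (nat_lit 390) (nat_lit 1444) (nat_lit 0) (XT.nd (nat_lit 156) (nat_lit 608) (nat_lit 0) (XT.nd (nat_lit 78) (nat_lit 0) (nat_lit 76) (XT.lf (nat_lit 76) (nat_lit 35090047591) (nat_lit 0) (nat_lit 17786435835) (nat_lit 760) (nat_lit 5474617134) (nat_lit 92) (nat_lit 5) (nat_lit 91) (nat_lit 5) (nat_lit 101) (nat_lit 5) (nat_lit 296) (nat_lit 293) (nat_lit 191)) (XT.lf (nat_lit 76) (nat_lit 20960731951) (nat_lit 0) (nat_lit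 37723272611) (nat_lit 760) (nat_lit 2096866709) (nat_lit 93) (nat_lit 5) (nat_lit 92) (nat_lit 5) (nat_lit 102) (nat_lit 5) (nat_lit 297) (nat_lit 293) (nat_lit 190))) (XT.nd (nat_lit 78) (nat_lit 0) (nat_lit 0) (XT.lf (nat_lit 0) (nat_lit 2362467065) (nat_lit 760) (nat_lit 57395743979) (nat_lit 836) (nat_lit 3602556789) (nat_lit 83) (nat_lit 5) (nat_lit 93) (nat_lit 5) (nat_lit 94) (nat_lit 5) (nat_lit 298) (nat_lit 293) (nat_lit 189)) (XT.nd (nat_lit 78) (nat_lit 0) (nat_lit 76) (XT.lf (nat_lit 0) (nat_lit 8444427553) (nat_lit 760) (nat_lit 9962482259) (nat_lit 836) (nat_lit 47671465424) (nat_lit 83) (nat_lit 5) (nat_lit 93) (nat_lit 5) (nat_lit 94) (nat_lit 5) (nat_lit 299) (nat_lit 293) (nat_lit 188)) (XT.lf (nat_lit 0) (nat_lit 16096743823) (nat_lit 760) (nat_lit 26773338572) (nat_lit 76) (nat_lit 26089123573) (nat_lit 84) (nat_lit 5) (nat_lit 94) (nat_lit 5) (nat_lit 85) (nat_lit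 5) (nat_lit 300) (nat_lit 293) (nat_lit 187))))) (XT.nd (nat_lit 156) (nat_lit 608) (nat_lit 0) (XT.nd (nat_lit 78) (nat_lit 380) (nat_lit 0) (XT.lf (nat_lit 0) (nat_lit 25305399962) (nat_lit 608) (nat_lit 44697154152) (nat_lit 76) (nat_lit 2020745653) (nat_lit 77) (nat_lit 5) (nat_lit 85) (nat_lit 5) (nat_lit 78) (nat_lit 5) (nat_lit 301) (nat_lit 293) (nat_lit 186)) (XT.lf (nat_lit 0) (nat_lit 11020508023) (nat_lit 380) (nat_lit 25596966644) (nat_lit 456) (nat_lit 38646714117) (nat_lit 72) (nat_lit 5) (nat_lit 77) (nat_lit 5) (nat_lit 78) (nat_lit 5) (nat_lit 302) (nat_lit 293) (nat_lit 185))) (XT.nd (nat_lit 78) (nat_lit 608) (nat_lit 0) (XT.lf (nat_lit 0) (nat_lit 49972903969) (nat_lit 456) (nat_lit 6297769852) (nat_lit 76) (nat_lit 22436759387) (nat_lit 72) (nat_lit 5) (nat_lit 78) (nat_lit 5) (nat_lit 73) (nat_lit 5) (nat_lit 303) (nat_lit 293) (nat_lit 184)) (XT.nd (nat_lit 78)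 (nat_lit 304) (nat_lit 0) (XT.lf (nat_lit 0) (nat_lit 57696850710) (nat_lit 304) (nat_lit 8030403088) (nat_lit 380) (nat_lit 16632362522) (nat_lit 68) (nat_lit 5) (nat_lit 72) (nat_lit 5) (nat_lit 73) (nat_lit 5) (nat_lit 304) (nat_lit 293) (nat_lit 183)) (XT.lf (nat_lit 0) (nat_lit 41369674435) (nat_lit 304) (nat_lit 42815893955) (nat_lit 380) (nat_lit 2046228040) (nat_lit 64) (nat_lit 5) (nat_lit 68) (nat_lit 5) (nat_lit 69) (nat_lit 5) (nat_lit 305) (nat_lit 293) (nat_lit 182)))))) (XT.nd (nat_lit 390) (nat_lit 912) (nat_lit 0) (XT.nd (nat_lit 156) (nat_lit 532) (nat_lit 0) (XT.nd (nat_lit 78) (nat_lit 304) (nat_lit 0) (XT.lf (nat_lit 0) (nat_lit 14352560780) (nat_lit 380) (nat_lit 66933262225) (nat_lit 76) (nat_lit 9063007345) (nat_lit 59) (nat_lit 5) (nat_lit 64) (nat_lit 5) (nat_lit 60) (nat_lit 5) (nat_lit 306) (nat_lit 293) (nat_lit 181)) (XT.lf (nat_lit 0) (nat_lit 3336880447)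 (nat_lit 304) (nat_lit 30222319811) (nat_lit 380) (nat_lit 61155970222) (nat_lit 55) (nat_lit 5) (nat_lit 59) (nat_lit 5) (nat_lit 60) (nat_lit 5) (nat_lit 307) (nat_lit 293) (nat_lit 180))) (XT.nd (nat_lit 78) (nat_lit 532) (nat_lit 0) (XT.lf (nat_lit 0) (nat_lit 55875021791) (nat_lit 380) (nat_lit 18163976932) (nat_lit 76) (nat_lit 25313188962) (nat_lit 55) (nat_lit 5) (nat_lit 60) (nat_lit 5) (nat_lit 56) (nat_lit 5) (nat_lit 308) (nat_lit 293) (nat_lit 179)) (XT.nd (nat_lit 78) (nat_lit 304) (nat_lit 0) (XT.lf (nat_lit 0) (nat_lit 62393016990) (nat_lit 228) (nat_lit 19065375558) (nat_lit 304) (nat_lit 22827661776) (nat_lit 52) (nat_lit 5) (nat_lit 55) (nat_lit 5) (nat_lit 56) (nat_lit 5) (nat_lit 309) (nat_lit 293) (nat_lit 178)) (XT.lf (nat_lit 0) (nat_lit 1108307600) (nat_lit 304) (nat_lit 68428594815) (nat_lit 76) (nat_lit 39997257451) (nat_lit 48) (nat_lit 5) (nat_lit 52) (nat_lit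 5) (nat_lit 49) (nat_lit 5) (nat_lit 310) (nat_lit 293) (nat_lit 177))))) (XT.nd (nat_lit 234) (nat_lit 456) (nat_lit 0) (XT.nd (nat_lit 78) (nat_lit 228) (nat_lit 0) (XT.lf (nat_lit 0) (nat_lit 16895027239) (nat_lit 228) (nat_lit 10600693912) (nat_lit 304) (nat_lit 87620866489) (nat_lit 45) (nat_lit 5) (nat_lit 48) (nat_lit 5) (nat_lit 49) (nat_lit 5) (nat_lit 311) (nat_lit 293) (nat_lit 176)) (XT.nd (nat_lit 78) (nat_lit 228) (nat_lit 0) (XT.lf (nat_lit 0) (nat_lit 58032656544) (nat_lit 304) (nat_lit 10447473707) (nat_lit 76) (nat_lit 52563554635) (nat_lit 45) (nat_lit 5) (nat_lit 49) (nat_lit 5) (nat_lit 46) (nat_lit 5) (nat_lit 312) (nat_lit 293) (nat_lit 175)) (XT.lf (nat_lit 0) (nat_lit 86951143783) (nat_lit 228) (nat_lit 5596534879) (nat_lit 304) (nat_lit 34820516217) (nat_lit 42) (nat_lit 5) (nat_lit 45) (nat_lit 5) (nat_lit 46) (nat_lit 5) (nat_lit 313) (nat_lit 293) (nat_lit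 174)))) (XT.nd (nat_lit 78) (nat_lit 304) (nat_lit 0) (XT.lf (nat_lit 0) (nat_lit 59243785869) (nat_lit 152) (nat_lit 72661893343) (nat_lit 228) (nat_lit 2188899074) (nat_lit 40) (nat_lit 5) (nat_lit 42) (nat_lit 5) (nat_lit 43) (nat_lit 5) (nat_lit 314) (nat_lit 293) (nat_lit 173)) (XT.nd (nat_lit 78) (nat_lit 0) (nat_lit 0) (XT.lf (nat_lit 0) (nat_lit 27245384097) (nat_lit 228) (nat_lit 5984206704) (nat_lit 304) (nat_lit 108041967461) (nat_lit 36) (nat_lit 5) (nat_lit 39) (nat_lit 5) (nat_lit 40) (nat_lit 5) (nat_lit 315) (nat_lit 293) (nat_lit 172)) (XT.lf (nat_lit 0) (nat_lit 73760977982) (nat_lit 304) (nat_lit 9866062673) (nat_lit 76) (nat_lit 65276057662) (nat_lit 36) (nat_lit 5) (nat_lit 40) (nat_lit 5) (nat_lit 37) (nat_lit 5) (nat_lit 316) (nat_lit 293) (nat_lit 171))))))))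
noncomputable def xc104 : XT := (XT.nd (nat_lit 1560) (nat_lit 228) (nat_lit 0) (XT.nd (nat_lit 780) (nat_lit 760) (nat_lit 0) (XT.nd (nat_lit 390) (nat_lit 456) (nat_lit 0) (XT.nd (nat_lit 156) (nat_lit 304) (nat_lit 0) (XT.nd (nat_lit 78) (nat_lit 228) (nat_lit 0) (XT.lf (nat_lit 0) (nat_lit 105914441263) (nat_lit 152) (nat_lit 13374013305) (nat_lit 228) (nat_lit 37769029178) (nat_lit 34) (nat_lit 5) (nat_lit 36) (nat_lit 5) (nat_lit 37) (nat_lit 5) (nat_lit 317) (nat_lit 293) (nat_lit 170)) (XT.lf (nat_lit 0) (nat_lit 4736244205) (nat_lit 228) (nat_lit 99225280449) (nat_lit 76) (nat_lit 61789403600) (nat_lit 31) (nat_lit 5) (nat_lit 34) (nat_lit 5) (nat_lit 32) (nat_lit 5) (nat_lit 318) (nat_lit 293) (nat_lit 169))) (XT.nd (nat_lit 78) (nat_lit 152) (nat_lit 0) (XT.lf (nat_lit 0) (nat_lit 20103932140) (nat_lit 152) (nat_lit 30676452219) (nat_lit 228) (nat_lit 124255422250) (nat_lit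 29) (nat_lit 5) (nat_lit 31) (nat_lit 5) (nat_lit 32) (nat_lit 5) (nat_lit 319) (nat_lit 293) (nat_lit 168)) (XT.nd (nat_lit 78) (nat_lit 152) (nat_lit 0) (XT.lf (nat_lit 0) (nat_lit 103020767458) (nat_lit 228) (nat_lit 33240733404) (nat_lit 76) (nat_lit 48676339611) (nat_lit 29) (nat_lit 5) (nat_lit 32) (nat_lit 5) (nat_lit 30) (nat_lit 5) (nat_lit 320) (nat_lit 293) (nat_lit 167)) (XT.lf (nat_lit 0) (nat_lit 100896501650) (nat_lit 152) (nat_lit 60635641316) (nat_lit 228) (nat_lit 33995306758) (nat_lit 27) (nat_lit 5) (nat_lit 29) (nat_lit 5) (nat_lit 30) (nat_lit 5) (nat_lit 321) (nat_lit 293) (nat_lit 166))))) (XT.nd (nat_lit 156) (nat_lit 304) (nat_lit 0) (XT.nd (nat_lit 78) (nat_lit 0) (nat_lit 0) (XT.lf (nat_lit 0) (nat_lit 18773507638) (nat_lit 152) (nat_lit 166200071926) (nat_lit 76) (nat_lit 21897697291) (nat_lit 25) (nat_lit 5) (nat_lit 27) (nat_lit 5) (nat_lit 26) (nat_lit 5)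 (nat_lit 322) (nat_lit 293) (nat_lit 165)) (XT.lf (nat_lit 0) (nat_lit 77285860657) (nat_lit 152) (nat_lit 30487293881) (nat_lit 76) (nat_lit 111185938068) (nat_lit 25) (nat_lit 5) (nat_lit 27) (nat_lit 5) (nat_lit 26) (nat_lit 5) (nat_lit 323) (nat_lit 293) (nat_lit 164))) (XT.nd (nat_lit 78) (nat_lit 152) (nat_lit 0) (XT.lf (nat_lit 0) (nat_lit 119919569248) (nat_lit 152) (nat_lit 22431246279) (nat_lit 228) (nat_lit 89569537988) (nat_lit 23) (nat_lit 5) (nat_lit 25) (nat_lit 5) (nat_lit 26) (nat_lit 5) (nat_lit 324) (nat_lit 293) (nat_lit 163)) (XT.nd (nat_lit 78) (nat_lit 76) (nat_lit 0) (XT.lf (nat_lit 0) (nat_lit 37662546321) (nat_lit 76) (nat_lit 177174378393) (nat_lit 152) (nat_lit 30970793221) (nat_lit 22) (nat_lit 5) (nat_lit 23) (nat_lit 5) (nat_lit 24) (nat_lit 4) (nat_lit 325) (nat_lit 293) (nat_lit 162)) (XT.lf (nat_lit 0) (nat_lit 33642118432) (nat_lit 152) (nat_lit 58325886408)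 (nat_lit 76) (nat_lit 168694811275) (nat_lit 21) (nat_lit 5) (nat_lit 23) (nat_lit 5) (nat_lit 22) (nat_lit 5) (nat_lit 326) (nat_lit 293) (nat_lit 161)))))) (XT.nd (nat_lit 390) (nat_lit 304) (nat_lit 0) (XT.nd (nat_lit 156) (nat_lit 304) (nat_lit 0) (XT.nd (nat_lit 78) (nat_lit 0) (nat_lit 0) (XT.lf (nat_lit 0) (nat_lit 104050139679) (nat_lit 228) (nat_lit 170273930687) (nat_lit 76) (nat_lit 2271309204) (nat_lit 19) (nat_lit 5) (nat_lit 22) (nat_lit 5) (nat_lit 20) (nat_lit 4) (nat_lit 327) (nat_lit 293) (nat_lit 160)) (XT.lf (nat_lit 0) (nat_lit 182673653688) (nat_lit 228) (nat_lit 9096745970) (nat_lit 76) (nat_lit 101903006296) (nat_lit 19) (nat_lit 5) (nat_lit 22) (nat_lit 5) (nat_lit 20) (nat_lit 4) (nat_lit 328) (nat_lit 293) (nat_lit 159))) (XT.nd (nat_lit 78) (nat_lit 228) (nat_lit 0) (XT.lf (nat_lit 0) (nat_lit 170428498014) (nat_lit 76) (nat_lit 99818905675) (nat_lit 152) (nat_lit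 41737253391) (nat_lit 18) (nat_lit 5) (nat_lit 19) (nat_lit 5) (nat_lit 20) (nat_lit 4) (nat_lit 329) (nat_lit 293) (nat_lit 158)) (XT.nd (nat_lit 78) (nat_lit 0) (nat_lit 0) (XT.lf (nat_lit 0) (nat_lit 32702218640) (nat_lit 228) (nat_lit 298274311959) (nat_lit 76) (nat_lit 723750212) (nat_lit 15) (nat_lit 5) (nat_lit 18) (nat_lit 5) (nat_lit 16) (nat_lit 4) (nat_lit 330) (nat_lit 293) (nat_lit 157)) (XT.lf (nat_lit 0) (nat_lit 115843019462) (nat_lit 228) (nat_lit 127836440669) (nat_lit 76) (nat_lit 109069061696) (nat_lit 15) (nat_lit 5) (nat_lit 18) (nat_lit 5) (nat_lit 16) (nat_lit 4) (nat_lit 331) (nat_lit 293) (nat_lit 156))))) (XT.nd (nat_lit 156) (nat_lit 228) (nat_lit 0) (XT.nd (nat_lit 78) (nat_lit 0) (nat_lit 0) (XT.lf (nat_lit 0) (nat_lit 58095078411) (nat_lit 76) (nat_lit 148446591007) (nat_lit 152) (nat_lit 168893623737) (nat_lit 14) (nat_lit 5) (nat_lit 15) (nat_lit 5) (nat_lit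 16) (nat_lit 4) (nat_lit 332) (nat_lit 293) (nat_lit 155)) (XT.lf (nat_lit 0) (nat_lit 263465364058) (nat_lit 76) (nat_lit 43257254695) (nat_lit 152) (nat_lit 93103067330) (nat_lit 14) (nat_lit 5) (nat_lit 15) (nat_lit 5) (nat_lit 16) (nat_lit 4) (nat_lit 333) (nat_lit 293) (nat_lit 154))) (XT.nd (nat_lit 78) (nat_lit 152) (nat_lit 0) (XT.lf (nat_lit 0) (nat_lit 59916639195) (nat_lit 76) (nat_lit 357034794320) (nat_lit 76) (nat_lit 9114207699) (nat_lit 13) (nat_lit 4) (nat_lit 14) (nat_lit 5) (nat_lit 14) (nat_lit 4) (nat_lit 334) (nat_lit 293) (nat_lit 153)) (XT.nd (nat_lit 78) (nat_lit 76) (nat_lit 0) (XT.lf (nat_lit 0) (nat_lit 82125513103) (nat_lit 152) (nat_lit 179563824057) (nat_lit 76) (nat_lit 192494597331) (nat_lit 12) (nat_lit 5) (nat_lit 14) (nat_lit 5) (nat_lit 13) (nat_lit 4) (nat_lit 335) (nat_lit 293) (nat_lit 152)) (XT.lf (nat_lit 0) (nat_lit 22514446169) (nat_lit 76) (nat_lit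 158186076484) (nat_lit 152) (nat_lit 303825926689) (nat_lit 11) (nat_lit 5) (nat_lit 12) (nat_lit 5) (nat_lit 13) (nat_lit 4) (nat_lit 336) (nat_lit 293) (nat_lit 151))))))) (XT.nd (nat_lit 37518) (nat_lit 0) (nat_lit 3876) (XT.nd (nat_lit 390) (nat_lit 0) (nat_lit 0) (XT.nd (nat_lit 156) (nat_lit 228) (nat_lit 0) (XT.nd (nat_lit 78) (nat_lit 0) (nat_lit 0) (XT.lf (nat_lit 0) (nat_lit 247170529512) (nat_lit 76) (nat_lit 43118552022) (nat_lit 152) (nat_lit 226850906601) (nat_lit 11) (nat_lit 5) (nat_lit 12) (nat_lit 5) (nat_lit 13) (nat_lit 4) (nat_lit 337) (nat_lit 293) (nat_lit 150)) (XT.lf (nat_lit 0) (nat_lit 409911455927) (nat_lit 152) (nat_lit 63831138708) (nat_lit 0) (nat_lit 78556679026) (nat_lit 11) (nat_lit 5) (nat_lit 13) (nat_lit 4) (nat_lit 11) (nat_lit 4) (nat_lit 338) (nat_lit 293) (nat_lit 149))) (XT.nd (nat_lit 78) (nat_lit 152) (nat_lit 0) (XT.lf (nat_lit 0) (nat_lit 163297180902)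 (nat_lit 76) (nat_lit 379082730576) (nat_lit 76) (nat_lit 47727576150) (nat_lit 10) (nat_lit 4) (nat_lit 11) (nat_lit 5) (nat_lit 11) (nat_lit 4) (nat_lit 339) (nat_lit 293) (nat_lit 148)) (XT.nd (nat_lit 78) (nat_lit 76) (nat_lit 0) (XT.lf (nat_lit 0) (nat_lit 53890809902) (nat_lit 152) (nat_lit 220879343685) (nat_lit 76) (nat_lit 356071164043) (nat_lit 9) (nat_lit 5) (nat_lit 11) (nat_lit 5) (nat_lit 10) (nat_lit 4) (nat_lit 340) (nat_lit 293) (nat_lit 147)) (XT.lf (nat_lit 0) (nat_lit 744671135) (nat_lit 76) (nat_lit 161255572176) (nat_lit 152) (nat_lit 512792803975) (nat_lit 8) (nat_lit 5) (nat_lit 9) (nat_lit 5) (nat_lit 10) (nat_lit 4) (nat_lit 341) (nat_lit 293) (nat_lit 146))))) (XT.nd (nat_lit 36894) (nat_lit 0) (nat_lit 6232) (XT.nd (nat_lit 78) (nat_lit 0) (nat_lit 0) (XT.lf (nat_lit 0) (nat_lit 247985673067) (nat_lit 76) (nat_lit 34620083230) (nat_lit 152) (nat_lit 439462792888)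 (nat_lit 8) (nat_lit 5) (nat_lit 9) (nat_lit 5) (nat_lit 10) (nat_lit 4) (nat_lit 342) (nat_lit 293) (nat_lit 145)) (XT.lf (nat_lit 0) (nat_lit 414454264202) (nat_lit 152) (nat_lit 259715363666) (nat_lit 0) (nat_lit 98876735787) (nat_lit 8) (nat_lit 5) (nat_lit 10) (nat_lit 4) (nat_lit 8) (nat_lit 4) (nat_lit 343) (nat_lit 293) (nat_lit 144))) (XT.nd (nat_lit 78) (nat_lit 0) (nat_lit 0) (XT.lf (nat_lit 0) (nat_lit 11616984079) (nat_lit 0) (nat_lit 11616984079) (nat_lit 684) (nat_lit 4756096669) (nat_lit 90) (nat_lit 5) (nat_lit 90) (nat_lit 3) (nat_lit 99) (nat_lit 3) (nat_lit 294) (nat_lit 294) (nat_lit 192)) (XT.nd (nat_lit 78) (nat_lit 0) (nat_lit 76) (XT.lf (nat_lit 76) (nat_lit 7808958253) (nat_lit 0) (nat_lit 40946589898) (nat_lit 760) (nat_lit 9442280044) (nat_lit 91) (nat_lit 5) (nat_lit 90) (nat_lit 5) (nat_lit 100) (nat_lit 5) (nat_lit 295) (nat_lit 294) (nat_lit 191)) (XT.lf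 (nat_lit 0) (nat_lit 52181963181) (nat_lit 684) (nat_lit 8176967329) (nat_lit 760) (nat_lit 186228590) (nat_lit 91) (nat_lit 5) (nat_lit 100) (nat_lit 5) (nat_lit 101) (nat_lit 5) (nat_lit 296) (nat_lit 294) (nat_lit 190)))))) (XT.nd (nat_lit 390) (nat_lit 1824) (nat_lit 0) (XT.nd (nat_lit 156) (nat_lit 608) (nat_lit 0) (XT.nd (nat_lit 78) (nat_lit 0) (nat_lit 76) (XT.lf (nat_lit 76) (nat_lit 37933759008) (nat_lit 0) (nat_lit 19228590765) (nat_lit 760) (nat_lit 5853939524) (nat_lit 92) (nat_lit 5) (nat_lit 91) (nat_lit 5) (nat_lit 101) (nat_lit 5) (nat_lit 297) (nat_lit 294) (nat_lit 189)) (XT.lf (nat_lit 76) (nat_lit 22675572183) (nat_lit 0) (nat_lit 40755085820) (nat_lit 760) (nat_lit 2209982683) (nat_lit 93) (nat_lit 5) (nat_lit 92) (nat_lit 5) (nat_lit 102) (nat_lit 5) (nat_lit 298) (nat_lit 294) (nat_lit 188))) (XT.nd (nat_lit 78) (nat_lit 0) (nat_lit 0) (XT.lf (nat_lit 0) (nat_lit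 2600847626) (nat_lit 760) (nat_lit 61946556951) (nat_lit 836) (nat_lit 3879664137) (nat_lit 83) (nat_lit 5) (nat_lit 93) (nat_lit 5) (nat_lit 94) (nat_lit 5) (nat_lit 299) (nat_lit 294) (nat_lit 187)) (XT.nd (nat_lit 78) (nat_lit 0) (nat_lit 76) (XT.lf (nat_lit 0) (nat_lit 9165706938) (nat_lit 760) (nat_lit 10721659964) (nat_lit 836) (nat_lit 51474907477) (nat_lit 83) (nat_lit 5) (nat_lit 93) (nat_lit 5) (nat_lit 94) (nat_lit 5) (nat_lit 300) (nat_lit 294) (nat_lit 186)) (XT.lf (nat_lit 0) (nat_lit 17427281280) (nat_lit 760) (nat_lit 28876699926) (nat_lit 76) (nat_lit 28169742994) (nat_lit 84) (nat_lit 5) (nat_lit 94) (nat_lit 5) (nat_lit 85) (nat_lit 5) (nat_lit 301) (nat_lit 294) (nat_lit 185))))) (XT.nd (nat_lit 234) (nat_lit 988) (nat_lit 0) (XT.nd (nat_lit 78) (nat_lit 380) (nat_lit 0) (XT.lf (nat_lit 0) (nat_lit 27369982125) (nat_lit 608) (nat_lit 48233958858) (nat_lit 76) (nat_lit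 2179142713) (nat_lit 77) (nat_lit 5) (nat_lit 85) (nat_lit 5) (nat_lit 78) (nat_lit 5) (nat_lit 302) (nat_lit 294) (nat_lit 184)) (XT.nd (nat_lit 78) (nat_lit 0) (nat_lit 0) (XT.lf (nat_lit 0) (nat_lit 11939422806) (nat_lit 380) (nat_lit 27645207867) (nat_lit 456) (nat_lit 41698738140) (nat_lit 72) (nat_lit 5) (nat_lit 77) (nat_lit 5) (nat_lit 78) (nat_lit 5) (nat_lit 303) (nat_lit 294) (nat_lit 183)) (XT.lf (nat_lit 0) (nat_lit 54005690433) (nat_lit 456) (nat_lit 6765261097) (nat_lit 76) (nat_lit 24231266431) (nat_lit 72) (nat_lit 5) (nat_lit 78) (nat_lit 5) (nat_lit 73) (nat_lit 5) (nat_lit 304) (nat_lit 294) (nat_lit 182)))) (XT.nd (nat_lit 78) (nat_lit 684) (nat_lit 0) (XT.lf (nat_lit 0) (nat_lit 62347350237) (nat_lit 304) (nat_lit 8670991383) (nat_lit 380) (nat_lit 17928341041) (nat_lit 68) (nat_lit 5) (nat_lit 72) (nat_lit 5) (nat_lit 73) (nat_lit 5) (nat_lit 305) (nat_lit 294) (nat_lit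 181)) (XT.nd (nat_lit 78) (nat_lit 380) (nat_lit 0) (XT.lf (nat_lit 0) (nat_lit 44714091021) (nat_lit 304) (nat_lit 46237363412) (nat_lit 380) (nat_lit 2177280360) (nat_lit 64) (nat_lit 5) (nat_lit 68) (nat_lit 5) (nat_lit 69) (nat_lit 5) (nat_lit 306) (nat_lit 294) (nat_lit 180)) (XT.lf (nat_lit 0) (nat_lit 15530634086) (nat_lit 380) (nat_lit 72252081378) (nat_lit 76) (nat_lit 9792480870) (nat_lit 59) (nat_lit 5) (nat_lit 64) (nat_lit 5) (nat_lit 60) (nat_lit 5) (nat_lit 307) (nat_lit 294) (nat_lit 179))))))))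
noncomputable def xc105 : XT := (XT.nd (nat_lit 1638) (nat_lit 836) (nat_lit 0) (XT.nd (nat_lit 780) (nat_lit 1292) (nat_lit 0) (XT.nd (nat_lit 390) (nat_lit 684) (nat_lit 0) (XT.nd (nat_lit 156) (nat_lit 760) (nat_lit 0) (XT.nd (nat_lit 78) (nat_lit 0) (nat_lit 0) (XT.lf (nat_lit 0) (nat_lit 3638115066) (nat_lit 304) (nat_lit 32634012451) (nat_lit 380) (nat_lit 66018803500) (nat_lit 55) (nat_lit 5) (nat_lit 59) (nat_lit 5) (nat_lit 60) (nat_lit 5) (nat_lit 308) (nat_lit 294) (nat_lit 178)) (XT.lf (nat_lit 0) (nat_lit 60371214614) (nat_lit 380) (nat_lit 19584093090) (nat_lit 76) (nat_lit 27343705128) (nat_lit 55) (nat_lit 5) (nat_lit 60) (nat_lit 5) (nat_lit 56) (nat_lit 5) (nat_lit 309) (nat_lit 294) (nat_lit 177))) (XT.nd (nat_lit 78) (nat_lit 532) (nat_lit 0) (XT.lf (nat_lit 0) (nat_lit 67416026119) (nat_lit 228) (nat_lit 20583781694) (nat_lit 304) (nat_lit 24627856336) (nat_lit 52)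 (nat_lit 5) (nat_lit 55) (nat_lit 5) (nat_lit 56) (nat_lit 5) (nat_lit 310) (nat_lit 294) (nat_lit 176)) (XT.nd (nat_lit 78) (nat_lit 228) (nat_lit 0) (XT.lf (nat_lit 0) (nat_lit 1220889402) (nat_lit 304) (nat_lit 73870745579) (nat_lit 76) (nat_lit 43204028898) (nat_lit 48) (nat_lit 5) (nat_lit 52) (nat_lit 5) (nat_lit 49) (nat_lit 5) (nat_lit 311) (nat_lit 294) (nat_lit 175)) (XT.lf (nat_lit 0) (nat_lit 18277369613) (nat_lit 228) (nat_lit 11440634722) (nat_lit 304) (nat_lit 94606748564) (nat_lit 45) (nat_lit 5) (nat_lit 48) (nat_lit 5) (nat_lit 49) (nat_lit 5) (nat_lit 312) (nat_lit 294) (nat_lit 174))))) (XT.nd (nat_lit 156) (nat_lit 456) (nat_lit 0) (XT.nd (nat_lit 78) (nat_lit 228) (nat_lit 0) (XT.lf (nat_lit 0) (nat_lit 62696335905) (nat_lit 304) (nat_lit 11253850072) (nat_lit 76) (nat_lit 56775912138) (nat_lit 45) (nat_lit 5) (nat_lit 49) (nat_lit 5) (nat_lit 46) (nat_lit 5) (nat_lit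 313) (nat_lit 294) (nat_lit 173)) (XT.lf (nat_lit 0) (nat_lit 93935378194) (nat_lit 228) (nat_lit 6036060482) (nat_lit 304) (nat_lit 37585188377) (nat_lit 42) (nat_lit 5) (nat_lit 45) (nat_lit 5) (nat_lit 46) (nat_lit 5) (nat_lit 314) (nat_lit 294) (nat_lit 172))) (XT.nd (nat_lit 78) (nat_lit 304) (nat_lit 0) (XT.lf (nat_lit 0) (nat_lit 64011065111) (nat_lit 152) (nat_lit 78466088865) (nat_lit 228) (nat_lit 2344015356) (nat_lit 40) (nat_lit 5) (nat_lit 42) (nat_lit 5) (nat_lit 43) (nat_lit 5) (nat_lit 315) (nat_lit 294) (nat_lit 171)) (XT.nd (nat_lit 78) (nat_lit 0) (nat_lit 0) (XT.lf (nat_lit 0) (nat_lit 29452218284) (nat_lit 228) (nat_lit 6454086409) (nat_lit 304) (nat_lit 116666039563) (nat_lit 36) (nat_lit 5) (nat_lit 39) (nat_lit 5) (nat_lit 40) (nat_lit 5) (nat_lit 316) (nat_lit 294) (nat_lit 170)) (XT.lf (nat_lit 0) (nat_lit 79678971876) (nat_lit 304) (nat_lit 10629418200) (nat_lit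 76) (nat_lit 70506080568) (nat_lit 36) (nat_lit 5) (nat_lit 40) (nat_lit 5) (nat_lit 37) (nat_lit 5) (nat_lit 317) (nat_lit 294) (nat_lit 169)))))) (XT.nd (nat_lit 390) (nat_lit 608) (nat_lit 0) (XT.nd (nat_lit 156) (nat_lit 304) (nat_lit 0) (XT.nd (nat_lit 78) (nat_lit 228) (nat_lit 0) (XT.lf (nat_lit 0) (nat_lit 114412399188) (nat_lit 152) (nat_lit 14435366814) (nat_lit 228) (nat_lit 40773486399) (nat_lit 34) (nat_lit 5) (nat_lit 36) (nat_lit 5) (nat_lit 37) (nat_lit 5) (nat_lit 318) (nat_lit 294) (nat_lit 168)) (XT.lf (nat_lit 0) (nat_lit 5130951977) (nat_lit 228) (nat_lit 107138373309) (nat_lit 76) (nat_lit 66740870686) (nat_lit 31) (nat_lit 5) (nat_lit 34) (nat_lit 5) (nat_lit 32) (nat_lit 5) (nat_lit 319) (nat_lit 294) (nat_lit 167))) (XT.nd (nat_lit 78) (nat_lit 152) (nat_lit 0) (XT.lf (nat_lit 0) (nat_lit 21736092878) (nat_lit 152) (nat_lit 33121731790) (nat_lit 228) (nat_lit 134180081056)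 (nat_lit 29) (nat_lit 5) (nat_lit 31) (nat_lit 5) (nat_lit 32) (nat_lit 5) (nat_lit 320) (nat_lit 294) (nat_lit 166)) (XT.nd (nat_lit 78) (nat_lit 152) (nat_lit 0) (XT.lf (nat_lit 0) (nat_lit 111276454341) (nat_lit 228) (nat_lit 35877331320) (nat_lit 76) (nat_lit 52578366946) (nat_lit 29) (nat_lit 5) (nat_lit 32) (nat_lit 5) (nat_lit 30) (nat_lit 5) (nat_lit 321) (nat_lit 294) (nat_lit 165)) (XT.lf (nat_lit 0) (nat_lit 108989897729) (nat_lit 152) (nat_lit 65478141657) (nat_lit 228) (nat_lit 36700927262) (nat_lit 27) (nat_lit 5) (nat_lit 29) (nat_lit 5) (nat_lit 30) (nat_lit 5) (nat_lit 322) (nat_lit 294) (nat_lit 164))))) (XT.nd (nat_lit 234) (nat_lit 304) (nat_lit 0) (XT.nd (nat_lit 78) (nat_lit 152) (nat_lit 0) (XT.lf (nat_lit 0) (nat_lit 20288399989) (nat_lit 152) (nat_lit 179474377396) (nat_lit 76) (nat_lit 23657539740) (nat_lit 25) (nat_lit 5) (nat_lit 27) (nat_lit 5) (nat_lit 26)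 (nat_lit 5) (nat_lit 323) (nat_lit 294) (nat_lit 163)) (XT.nd (nat_lit 78) (nat_lit 152) (nat_lit 0) (XT.lf (nat_lit 0) (nat_lit 83480777416) (nat_lit 152) (nat_lit 32906184536) (nat_lit 76) (nat_lit 120088245211) (nat_lit 25) (nat_lit 5) (nat_lit 27) (nat_lit 5) (nat_lit 26) (nat_lit 5) (nat_lit 324) (nat_lit 294) (nat_lit 162)) (XT.lf (nat_lit 0) (nat_lit 129532354432) (nat_lit 152) (nat_lit 24217981878) (nat_lit 228) (nat_lit 96723063027) (nat_lit 23) (nat_lit 5) (nat_lit 25) (nat_lit 5) (nat_lit 26) (nat_lit 5) (nat_lit 325) (nat_lit 294) (nat_lit 161)))) (XT.nd (nat_lit 78) (nat_lit 228) (nat_lit 0) (XT.lf (nat_lit 0) (nat_lit 40694375602) (nat_lit 76) (nat_lit 191340516232) (nat_lit 152) (nat_lit 33436883915) (nat_lit 22) (nat_lit 5) (nat_lit 23) (nat_lit 5) (nat_lit 24) (nat_lit 4) (nat_lit 326) (nat_lit 294) (nat_lit 160)) (XT.nd (nat_lit 78) (nat_lit 152) (nat_lit 0) (XT.lf (nat_lit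 0) (nat_lit 36343860466) (nat_lit 152) (nat_lit 62974175364) (nat_lit 76) (nat_lit 182197279042) (nat_lit 21) (nat_lit 5) (nat_lit 23) (nat_lit 5) (nat_lit 22) (nat_lit 5) (nat_lit 327) (nat_lit 294) (nat_lit 159)) (XT.lf (nat_lit 0) (nat_lit 112384132101) (nat_lit 228) (nat_lit 183878446625) (nat_lit 76) (nat_lit 2459924828) (nat_lit 19) (nat_lit 5) (nat_lit 22) (nat_lit 5) (nat_lit 20) (nat_lit 4) (nat_lit 328) (nat_lit 294) (nat_lit 158))))))) (XT.nd (nat_lit 780) (nat_lit 228) (nat_lit 0) (XT.nd (nat_lit 390) (nat_lit 228) (nat_lit 0) (XT.nd (nat_lit 156) (nat_lit 304) (nat_lit 0) (XT.nd (nat_lit 78) (nat_lit 76) (nat_lit 0) (XT.lf (nat_lit 0) (nat_lit 197296787879) (nat_lit 228) (nat_lit 9808375910) (nat_lit 76) (nat_lit 110061645770) (nat_lit 19) (nat_lit 5) (nat_lit 22) (nat_lit 5) (nat_lit 20) (nat_lit 4) (nat_lit 329) (nat_lit 294) (nat_lit 157)) (XT.lf (nat_lit 0) (nat_lit 184078187484)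 (nat_lit 76) (nat_lit 107797806400) (nat_lit 152) (nat_lit 45066989594) (nat_lit 18) (nat_lit 5) (nat_lit 19) (nat_lit 5) (nat_lit 20) (nat_lit 4) (nat_lit 330) (nat_lit 294) (nat_lit 156))) (XT.nd (nat_lit 78) (nat_lit 76) (nat_lit 0) (XT.lf (nat_lit 0) (nat_lit 35327017760) (nat_lit 228) (nat_lit 322120898329) (nat_lit 76) (nat_lit 787950571) (nat_lit 15) (nat_lit 5) (nat_lit 18) (nat_lit 5) (nat_lit 16) (nat_lit 4) (nat_lit 331) (nat_lit 294) (nat_lit 155)) (XT.nd (nat_lit 78) (nat_lit 76) (nat_lit 0) (XT.lf (nat_lit 0) (nat_lit 125118444009) (nat_lit 228) (nat_lit 138049135009) (nat_lit 76) (nat_lit 117800420282) (nat_lit 15) (nat_lit 5) (nat_lit 18) (nat_lit 5) (nat_lit 16) (nat_lit 4) (nat_lit 332) (nat_lit 294) (nat_lit 154)) (XT.lf (nat_lit 0) (nat_lit 62756287574) (nat_lit 76) (nat_lit 160316319434) (nat_lit 152) (nat_lit 182397124654) (nat_lit 14) (nat_lit 5) (nat_lit 15) (nat_lit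 5) (nat_lit 16) (nat_lit 4) (nat_lit 333) (nat_lit 294) (nat_lit 153))))) (XT.nd (nat_lit 156) (nat_lit 152) (nat_lit 0) (XT.nd (nat_lit 78) (nat_lit 76) (nat_lit 0) (XT.lf (nat_lit 0) (nat_lit 284555188451) (nat_lit 76) (nat_lit 46712280577) (nat_lit 152) (nat_lit 100543915510) (nat_lit 14) (nat_lit 5) (nat_lit 15) (nat_lit 5) (nat_lit 16) (nat_lit 4) (nat_lit 334) (nat_lit 294) (nat_lit 152)) (XT.lf (nat_lit 0) (nat_lit 64722276213) (nat_lit 76) (nat_lit 385592063646) (nat_lit 76) (nat_lit 9836209002) (nat_lit 13) (nat_lit 4) (nat_lit 14) (nat_lit 5) (nat_lit 14) (nat_lit 4) (nat_lit 335) (nat_lit 294) (nat_lit 151))) (XT.nd (nat_lit 78) (nat_lit 76) (nat_lit 0) (XT.lf (nat_lit 0) (nat_lit 88701949465) (nat_lit 152) (nat_lit 193917320602) (nat_lit 76) (nat_lit 207899055832) (nat_lit 12) (nat_lit 5) (nat_lit 14) (nat_lit 5) (nat_lit 13) (nat_lit 4) (nat_lit 336) (nat_lit 294) (nat_lit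 150)) (XT.nd (nat_lit 78) (nat_lit 0) (nat_lit 0) (XT.lf (nat_lit 0) (nat_lit 24326706712) (nat_lit 76) (nat_lit 170835952717) (nat_lit 152) (nat_lit 328125597790) (nat_lit 11) (nat_lit 5) (nat_lit 12) (nat_lit 5) (nat_lit 13) (nat_lit 4) (nat_lit 337) (nat_lit 294) (nat_lit 149)) (XT.lf (nat_lit 0) (nat_lit 266954454142) (nat_lit 76) (nat_lit 46563397400) (nat_lit 152) (nat_lit 244993050395) (nat_lit 11) (nat_lit 5) (nat_lit 12) (nat_lit 5) (nat_lit 13) (nat_lit 4) (nat_lit 338) (nat_lit 294) (nat_lit 148)))))) (XT.nd (nat_lit 37206) (nat_lit 0) (nat_lit 5700) (XT.nd (nat_lit 156) (nat_lit 152) (nat_lit 0) (XT.nd (nat_lit 78) (nat_lit 76) (nat_lit 0) (XT.lf (nat_lit 0) (nat_lit 442709664911) (nat_lit 152) (nat_lit 68927912126) (nat_lit 0) (nat_lit 84845371046) (nat_lit 11) (nat_lit 5) (nat_lit 13) (nat_lit 4) (nat_lit 11) (nat_lit 4) (nat_lit 339) (nat_lit 294) (nat_lit 147)) (XT.lf (nat_lit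 0) (nat_lit 176370250735) (nat_lit 76) (nat_lit 409405099260) (nat_lit 76) (nat_lit 51540481728) (nat_lit 10) (nat_lit 4) (nat_lit 11) (nat_lit 5) (nat_lit 11) (nat_lit 4) (nat_lit 340) (nat_lit 294) (nat_lit 146))) (XT.nd (nat_lit 78) (nat_lit 76) (nat_lit 0) (XT.lf (nat_lit 0) (nat_lit 58206825495) (nat_lit 152) (nat_lit 238540924956) (nat_lit 76) (nat_lit 384560632725) (nat_lit 9) (nat_lit 5) (nat_lit 11) (nat_lit 5) (nat_lit 10) (nat_lit 4) (nat_lit 341) (nat_lit 294) (nat_lit 145)) (XT.nd (nat_lit 78) (nat_lit 0) (nat_lit 0) (XT.lf (nat_lit 0) (nat_lit 812630079) (nat_lit 76) (nat_lit 174152162502) (nat_lit 152) (nat_lit 553811469843) (nat_lit 8) (nat_lit 5) (nat_lit 9) (nat_lit 5) (nat_lit 10) (nat_lit 4) (nat_lit 342) (nat_lit 294) (nat_lit 144)) (XT.lf (nat_lit 0) (nat_lit 267832291036) (nat_lit 76) (nat_lit 37386120030) (nat_lit 152) (nat_lit 474615410347) (nat_lit 8) (nat_lit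 5) (nat_lit 9) (nat_lit 5) (nat_lit 10) (nat_lit 4) (nat_lit 343) (nat_lit 294) (nat_lit 143))))) (XT.nd (nat_lit 234) (nat_lit 532) (nat_lit 0) (XT.nd (nat_lit 78) (nat_lit 0) (nat_lit 0) (XT.lf (nat_lit 0) (nat_lit 12561321357) (nat_lit 0) (nat_lit 12561321357) (nat_lit 684) (nat_lit 5105069005) (nat_lit 90) (nat_lit 5) (nat_lit 90) (nat_lit 3) (nat_lit 99) (nat_lit 3) (nat_lit 295) (nat_lit 295) (nat_lit 190)) (XT.nd (nat_lit 78) (nat_lit 0) (nat_lit 76) (XT.lf (nat_lit 76) (nat_lit 8465758650) (nat_lit 0) (nat_lit 44245777320) (nat_lit 760) (nat_lit 10139229358) (nat_lit 91) (nat_lit 5) (nat_lit 90) (nat_lit 5) (nat_lit 100) (nat_lit 5) (nat_lit 296) (nat_lit 295) (nat_lit 189)) (XT.lf (nat_lit 0) (nat_lit 56407610687) (nat_lit 684) (nat_lit 8798403291) (nat_lit 760) (nat_lit 180099695) (nat_lit 91) (nat_lit 5) (nat_lit 100) (nat_lit 5) (nat_lit 101) (nat_lit 5) (nat_lit 297) (nat_lit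 295) (nat_lit 188)))) (XT.nd (nat_lit 78) (nat_lit 608) (nat_lit 0) (XT.lf (nat_lit 76) (nat_lit 40999759120) (nat_lit 0) (nat_lit 20783373280) (nat_lit 760) (nat_lit 6271974353) (nat_lit 92) (nat_lit 5) (nat_lit 91) (nat_lit 5) (nat_lit 101) (nat_lit 5) (nat_lit 298) (nat_lit 295) (nat_lit 187)) (XT.nd (nat_lit 78) (nat_lit 684) (nat_lit 0) (XT.lf (nat_lit 76) (nat_lit 24522181124) (nat_lit 0) (nat_lit 44027453762) (nat_lit 760) (nat_lit 2339941995) (nat_lit 93) (nat_lit 5) (nat_lit 92) (nat_lit 5) (nat_lit 102) (nat_lit 5) (nat_lit 299) (nat_lit 295) (nat_lit 186)) (XT.lf (nat_lit 0) (nat_lit 2851253566) (nat_lit 760) (nat_lit 66867262177) (nat_lit 836) (nat_lit 4180523212) (nat_lit 83) (nat_lit 5) (nat_lit 93) (nat_lit 5) (nat_lit 94) (nat_lit 5) (nat_lit 300) (nat_lit 295) (nat_lit 185))))))))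
noncomputable def xc106 : XT := (XT.nd (nat_lit 1560) (nat_lit 1596) (nat_lit 0) (XT.nd (nat_lit 780) (nat_lit 1824) (nat_lit 0) (XT.nd (nat_lit 390) (nat_lit 1292) (nat_lit 0) (XT.nd (nat_lit 156) (nat_lit 836) (nat_lit 0) (XT.nd (nat_lit 78) (nat_lit 0) (nat_lit 76) (XT.lf (nat_lit 0) (nat_lit 9938165466) (nat_lit 760) (nat_lit 11546967455) (nat_lit 836) (nat_lit 55584090764) (nat_lit 83) (nat_lit 5) (nat_lit 93) (nat_lit 5) (nat_lit 94) (nat_lit 5) (nat_lit 301) (nat_lit 295) (nat_lit 184)) (XT.lf (nat_lit 0) (nat_lit 18858156127) (nat_lit 760) (nat_lit 31153823461) (nat_lit 76) (nat_lit 30417740758) (nat_lit 84) (nat_lit 5) (nat_lit 94) (nat_lit 5) (nat_lit 85) (nat_lit 5) (nat_lit 302) (nat_lit 295) (nat_lit 183))) (XT.nd (nat_lit 78) (nat_lit 380) (nat_lit 0) (XT.lf (nat_lit 0) (nat_lit 29594002990) (nat_lit 608) (nat_lit 52059267107) (nat_lit 76) (nat_lit 2350676983) (nat_lit 77)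 (nat_lit 5) (nat_lit 85) (nat_lit 5) (nat_lit 78) (nat_lit 5) (nat_lit 303) (nat_lit 295) (nat_lit 182)) (XT.nd (nat_lit 78) (nat_lit 0) (nat_lit 0) (XT.lf (nat_lit 0) (nat_lit 12926533199) (nat_lit 380) (nat_lit 29857239355) (nat_lit 456) (nat_lit 45000589603) (nat_lit 72) (nat_lit 5) (nat_lit 77) (nat_lit 5) (nat_lit 78) (nat_lit 5) (nat_lit 304) (nat_lit 295) (nat_lit 181)) (XT.lf (nat_lit 0) (nat_lit 58356113214) (nat_lit 456) (nat_lit 7275334572) (nat_lit 76) (nat_lit 26169395911) (nat_lit 72) (nat_lit 5) (nat_lit 78) (nat_lit 5) (nat_lit 73) (nat_lit 5) (nat_lit 305) (nat_lit 295) (nat_lit 180))))) (XT.nd (nat_lit 156) (nat_lit 684) (nat_lit 0) (XT.nd (nat_lit 78) (nat_lit 304) (nat_lit 0) (XT.lf (nat_lit 0) (nat_lit 67364932040) (nat_lit 304) (nat_lit 9363089802) (nat_lit 380) (nat_lit 19332935414) (nat_lit 68) (nat_lit 5) (nat_lit 72) (nat_lit 5) (nat_lit 73) (nat_lit 5) (nat_lit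 306) (nat_lit 295) (nat_lit 179)) (XT.lf (nat_lit 0) (nat_lit 48321090243) (nat_lit 304) (nat_lit 49933092832) (nat_lit 380) (nat_lit 2323474171) (nat_lit 64) (nat_lit 5) (nat_lit 68) (nat_lit 5) (nat_lit 69) (nat_lit 5) (nat_lit 307) (nat_lit 295) (nat_lit 178))) (XT.nd (nat_lit 78) (nat_lit 304) (nat_lit 0) (XT.lf (nat_lit 0) (nat_lit 16798692189) (nat_lit 380) (nat_lit 78001519301) (nat_lit 76) (nat_lit 10579679869) (nat_lit 59) (nat_lit 5) (nat_lit 64) (nat_lit 5) (nat_lit 60) (nat_lit 5) (nat_lit 308) (nat_lit 295) (nat_lit 177)) (XT.nd (nat_lit 78) (nat_lit 0) (nat_lit 0) (XT.lf (nat_lit 0) (nat_lit 3958557432) (nat_lit 304) (nat_lit 35239509729) (nat_lit 380) (nat_lit 71274892537) (nat_lit 55) (nat_lit 5) (nat_lit 59) (nat_lit 5) (nat_lit 60) (nat_lit 5) (nat_lit 309) (nat_lit 295) (nat_lit 176)) (XT.lf (nat_lit 0) (nat_lit 65223366413) (nat_lit 380) (nat_lit 21122526645) (nat_lit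 76) (nat_lit 29535883507) (nat_lit 55) (nat_lit 5) (nat_lit 60) (nat_lit 5) (nat_lit 56) (nat_lit 5) (nat_lit 310) (nat_lit 295) (nat_lit 175)))))) (XT.nd (nat_lit 390) (nat_lit 836) (nat_lit 0) (XT.nd (nat_lit 156) (nat_lit 456) (nat_lit 0) (XT.nd (nat_lit 78) (nat_lit 304) (nat_lit 0) (XT.lf (nat_lit 0) (nat_lit 72836372483) (nat_lit 228) (nat_lit 22224633828) (nat_lit 304) (nat_lit 26575778274) (nat_lit 52) (nat_lit 5) (nat_lit 55) (nat_lit 5) (nat_lit 56) (nat_lit 5) (nat_lit 311) (nat_lit 295) (nat_lit 174)) (XT.lf (nat_lit 0) (nat_lit 1339065694) (nat_lit 304) (nat_lit 79752853080) (nat_lit 76) (nat_lit 46666344737) (nat_lit 48) (nat_lit 5) (nat_lit 52) (nat_lit 5) (nat_lit 49) (nat_lit 5) (nat_lit 312) (nat_lit 295) (nat_lit 173))) (XT.nd (nat_lit 78) (nat_lit 228) (nat_lit 0) (XT.lf (nat_lit 0) (nat_lit 19765913944) (nat_lit 228) (nat_lit 12348928449) (nat_lit 304) (nat_lit 102154894721)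 (nat_lit 45) (nat_lit 5) (nat_lit 48) (nat_lit 5) (nat_lit 49) (nat_lit 5) (nat_lit 313) (nat_lit 295) (nat_lit 172)) (XT.nd (nat_lit 78) (nat_lit 228) (nat_lit 0) (XT.lf (nat_lit 0) (nat_lit 67730104195) (nat_lit 304) (nat_lit 12128933856) (nat_lit 76) (nat_lit 61324220647) (nat_lit 45) (nat_lit 5) (nat_lit 49) (nat_lit 5) (nat_lit 46) (nat_lit 5) (nat_lit 314) (nat_lit 295) (nat_lit 171)) (XT.lf (nat_lit 0) (nat_lit 101474336457) (nat_lit 228) (nat_lit 6511917554) (nat_lit 304) (nat_lit 40574025792) (nat_lit 42) (nat_lit 5) (nat_lit 45) (nat_lit 5) (nat_lit 46) (nat_lit 5) (nat_lit 315) (nat_lit 295) (nat_lit 170))))) (XT.nd (nat_lit 156) (nat_lit 380) (nat_lit 0) (XT.nd (nat_lit 78) (nat_lit 304) (nat_lit 0) (XT.lf (nat_lit 0) (nat_lit 69155764082) (nat_lit 152) (nat_lit 84735869163) (nat_lit 228) (nat_lit 2514393542) (nat_lit 40) (nat_lit 5) (nat_lit 42) (nat_lit 5) (nat_lit 43) (nat_lit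 5) (nat_lit 316) (nat_lit 295) (nat_lit 169)) (XT.lf (nat_lit 0) (nat_lit 31831718328) (nat_lit 228) (nat_lit 6962820017) (nat_lit 304) (nat_lit 125982788695) (nat_lit 36) (nat_lit 5) (nat_lit 39) (nat_lit 5) (nat_lit 40) (nat_lit 5) (nat_lit 317) (nat_lit 295) (nat_lit 168))) (XT.nd (nat_lit 78) (nat_lit 380) (nat_lit 0) (XT.lf (nat_lit 0) (nat_lit 86067963542) (nat_lit 304) (nat_lit 11457541300) (nat_lit 76) (nat_lit 76153372820) (nat_lit 36) (nat_lit 5) (nat_lit 40) (nat_lit 5) (nat_lit 37) (nat_lit 5) (nat_lit 318) (nat_lit 295) (nat_lit 167)) (XT.nd (nat_lit 78) (nat_lit 228) (nat_lit 0) (XT.lf (nat_lit 0) (nat_lit 123586655375) (nat_lit 152) (nat_lit 15582850861) (nat_lit 228) (nat_lit 44020734727) (nat_lit 34) (nat_lit 5) (nat_lit 36) (nat_lit 5) (nat_lit 37) (nat_lit 5) (nat_lit 319) (nat_lit 295) (nat_lit 166)) (XT.lf (nat_lit 0) (nat_lit 5554981149) (nat_lit 228) (nat_lit 115688070080)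 (nat_lit 76) (nat_lit 72087268941) (nat_lit 31) (nat_lit 5) (nat_lit 34) (nat_lit 5) (nat_lit 32) (nat_lit 5) (nat_lit 320) (nat_lit 295) (nat_lit 165))))))) (XT.nd (nat_lit 780) (nat_lit 684) (nat_lit 0) (XT.nd (nat_lit 390) (nat_lit 456) (nat_lit 0) (XT.nd (nat_lit 156) (nat_lit 304) (nat_lit 0) (XT.nd (nat_lit 78) (nat_lit 0) (nat_lit 0) (XT.lf (nat_lit 0) (nat_lit 23495424554) (nat_lit 152) (nat_lit 35763894367) (nat_lit 228) (nat_lit 144900963043) (nat_lit 29) (nat_lit 5) (nat_lit 31) (nat_lit 5) (nat_lit 32) (nat_lit 5) (nat_lit 321) (nat_lit 295) (nat_lit 164)) (XT.lf (nat_lit 0) (nat_lit 120190595282) (nat_lit 228) (nat_lit 38728089880) (nat_lit 76) (nat_lit 56791426568) (nat_lit 29) (nat_lit 5) (nat_lit 32) (nat_lit 5) (nat_lit 30) (nat_lit 5) (nat_lit 322) (nat_lit 295) (nat_lit 163))) (XT.nd (nat_lit 78) (nat_lit 152) (nat_lit 0) (XT.lf (nat_lit 0) (nat_lit 117727673179) (nat_lit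 152) (nat_lit 70709233384) (nat_lit 228) (nat_lit 39624995238) (nat_lit 27) (nat_lit 5) (nat_lit 29) (nat_lit 5) (nat_lit 30) (nat_lit 5) (nat_lit 323) (nat_lit 295) (nat_lit 162)) (XT.nd (nat_lit 78) (nat_lit 0) (nat_lit 0) (XT.lf (nat_lit 0) (nat_lit 21922627457) (nat_lit 152) (nat_lit 193813723093) (nat_lit 76) (nat_lit 25557024491) (nat_lit 25) (nat_lit 5) (nat_lit 27) (nat_lit 5) (nat_lit 26) (nat_lit 5) (nat_lit 324) (nat_lit 295) (nat_lit 161)) (XT.lf (nat_lit 0) (nat_lit 90169568747) (nat_lit 152) (nat_lit 35521452915) (nat_lit 76) (nat_lit 129701676654) (nat_lit 25) (nat_lit 5) (nat_lit 27) (nat_lit 5) (nat_lit 26) (nat_lit 5) (nat_lit 325) (nat_lit 295) (nat_lit 160))))) (XT.nd (nat_lit 156) (nat_lit 228) (nat_lit 0) (XT.nd (nat_lit 78) (nat_lit 76) (nat_lit 0) (XT.lf (nat_lit 0) (nat_lit 139911420533) (nat_lit 152) (nat_lit 26148763962) (nat_lit 228) (nat_lit 104450587425) (nat_lit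 23) (nat_lit 5) (nat_lit 25) (nat_lit 5) (nat_lit 26) (nat_lit 5) (nat_lit 326) (nat_lit 295) (nat_lit 159)) (XT.lf (nat_lit 0) (nat_lit 43966065547) (nat_lit 76) (nat_lit 206641059629) (nat_lit 152) (nat_lit 36101912848) (nat_lit 22) (nat_lit 5) (nat_lit 23) (nat_lit 5) (nat_lit 24) (nat_lit 4) (nat_lit 327) (nat_lit 295) (nat_lit 158))) (XT.nd (nat_lit 78) (nat_lit 152) (nat_lit 0) (XT.lf (nat_lit 0) (nat_lit 39260262100) (nat_lit 152) (nat_lit 67996864231) (nat_lit 76) (nat_lit 196778962313) (nat_lit 21) (nat_lit 5) (nat_lit 23) (nat_lit 5) (nat_lit 22) (nat_lit 5) (nat_lit 328) (nat_lit 295) (nat_lit 157)) (XT.nd (nat_lit 78) (nat_lit 0) (nat_lit 0) (XT.lf (nat_lit 0) (nat_lit 121383419981) (nat_lit 228) (nat_lit 198573805932) (nat_lit 76) (nat_lit 2662643786) (nat_lit 19) (nat_lit 5) (nat_lit 22) (nat_lit 5) (nat_lit 20) (nat_lit 4) (nat_lit 329) (nat_lit 295) (nat_lit 156)) (XT.lf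 (nat_lit 0) (nat_lit 213088454346) (nat_lit 228) (nat_lit 10579234479) (nat_lit 76) (nat_lit 118872063517) (nat_lit 19) (nat_lit 5) (nat_lit 22) (nat_lit 5) (nat_lit 20) (nat_lit 4) (nat_lit 330) (nat_lit 295) (nat_lit 155)))))) (XT.nd (nat_lit 390) (nat_lit 304) (nat_lit 0) (XT.nd (nat_lit 156) (nat_lit 76) (nat_lit 0) (XT.nd (nat_lit 78) (nat_lit 228) (nat_lit 0) (XT.lf (nat_lit 0) (nat_lit 198817653755) (nat_lit 76) (nat_lit 116415962420) (nat_lit 152) (nat_lit 48664423463) (nat_lit 18) (nat_lit 5) (nat_lit 19) (nat_lit 5) (nat_lit 20) (nat_lit 4) (nat_lit 331) (nat_lit 295) (nat_lit 154)) (XT.lf (nat_lit 0) (nat_lit 38160570838) (nat_lit 228) (nat_lit 347877402683) (nat_lit 76) (nat_lit 856388145) (nat_lit 15) (nat_lit 5) (nat_lit 18) (nat_lit 5) (nat_lit 16) (nat_lit 4) (nat_lit 332) (nat_lit 295) (nat_lit 153))) (XT.nd (nat_lit 78) (nat_lit 76) (nat_lit 0) (XT.lf (nat_lit 0) (nat_lit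 135134763657) (nat_lit 228) (nat_lit 149080873669) (nat_lit 76) (nat_lit 127229455319) (nat_lit 15) (nat_lit 5) (nat_lit 18) (nat_lit 5) (nat_lit 16) (nat_lit 4) (nat_lit 333) (nat_lit 295) (nat_lit 152)) (XT.nd (nat_lit 78) (nat_lit 0) (nat_lit 0) (XT.lf (nat_lit 0) (nat_lit 67788452865) (nat_lit 76) (nat_lit 173136481939) (nat_lit 152) (nat_lit 196982045361) (nat_lit 14) (nat_lit 5) (nat_lit 15) (nat_lit 5) (nat_lit 16) (nat_lit 4) (nat_lit 334) (nat_lit 295) (nat_lit 151)) (XT.lf (nat_lit 0) (nat_lit 307330401940) (nat_lit 76) (nat_lit 50444500940) (nat_lit 152) (nat_lit 108581086839) (nat_lit 14) (nat_lit 5) (nat_lit 15) (nat_lit 5) (nat_lit 16) (nat_lit 4) (nat_lit 335) (nat_lit 295) (nat_lit 150))))) (XT.nd (nat_lit 234) (nat_lit 76) (nat_lit 0) (XT.nd (nat_lit 78) (nat_lit 152) (nat_lit 0) (XT.lf (nat_lit 0) (nat_lit 69910608621) (nat_lit 76) (nat_lit 416434701183) (nat_lit 76)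 (nat_lit 10616988341) (nat_lit 13) (nat_lit 4) (nat_lit 14) (nat_lit 5) (nat_lit 14) (nat_lit 4) (nat_lit 336) (nat_lit 295) (nat_lit 149)) (XT.nd (nat_lit 78) (nat_lit 76) (nat_lit 0) (XT.lf (nat_lit 0) (nat_lit 95803588372) (nat_lit 152) (nat_lit 209420753078) (nat_lit 76) (nat_lit 224535173298) (nat_lit 12) (nat_lit 5) (nat_lit 14) (nat_lit 5) (nat_lit 13) (nat_lit 4) (nat_lit 337) (nat_lit 295) (nat_lit 148)) (XT.lf (nat_lit 0) (nat_lit 26282363869) (nat_lit 76) (nat_lit 184498533764) (nat_lit 152) (nat_lit 354370156045) (nat_lit 11) (nat_lit 5) (nat_lit 12) (nat_lit 5) (nat_lit 13) (nat_lit 4) (nat_lit 338) (nat_lit 295) (nat_lit 147)))) (XT.nd (nat_lit 78) (nat_lit 76) (nat_lit 0) (XT.lf (nat_lit 0) (nat_lit 288319625862) (nat_lit 76) (nat_lit 50284492182) (nat_lit 152) (nat_lit 264587411492) (nat_lit 11) (nat_lit 5) (nat_lit 12) (nat_lit 5) (nat_lit 13) (nat_lit 4) (nat_lit 339)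 (nat_lit 295) (nat_lit 146)) (XT.nd (nat_lit 78) (nat_lit 76) (nat_lit 0) (XT.lf (nat_lit 0) (nat_lit 478130975577) (nat_lit 152) (nat_lit 74433813752) (nat_lit 0) (nat_lit 91636565285) (nat_lit 11) (nat_lit 5) (nat_lit 13) (nat_lit 4) (nat_lit 11) (nat_lit 4) (nat_lit 340) (nat_lit 295) (nat_lit 145)) (XT.lf (nat_lit 0) (nat_lit 190487840067) (nat_lit 76) (nat_lit 442153863714) (nat_lit 76) (nat_lit 55659175930) (nat_lit 10) (nat_lit 4) (nat_lit 11) (nat_lit 5) (nat_lit 11) (nat_lit 4) (nat_lit 341) (nat_lit 295) (nat_lit 144))))))))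
noncomputable def xc107 : XT := (XT.nd (nat_lit 38532) (nat_lit 0) (nat_lit 456) (XT.nd (nat_lit 37674) (nat_lit 0) (nat_lit 2812) (XT.nd (nat_lit 37284) (nat_lit 0) (nat_lit 5700) (XT.nd (nat_lit 37050) (nat_lit 0) (nat_lit 6232) (XT.nd (nat_lit 78) (nat_lit 76) (nat_lit 0) (XT.lf (nat_lit 0) (nat_lit 62867444580) (nat_lit 152) (nat_lit 257616683329) (nat_lit 76) (nat_lit 415328720275) (nat_lit 9) (nat_lit 5) (nat_lit 11) (nat_lit 5) (nat_lit 10) (nat_lit 4) (nat_lit 342) (nat_lit 295) (nat_lit 143)) (XT.lf (nat_lit 0) (nat_lit 884829489) (nat_lit 76) (nat_lit 188081030078) (nat_lit 152) (nat_lit 598112307827) (nat_lit 8) (nat_lit 5) (nat_lit 9) (nat_lit 5) (nat_lit 10) (nat_lit 4) (nat_lit 343) (nat_lit 295) (nat_lit 142))) (XT.nd (nat_lit 78) (nat_lit 0) (nat_lit 0) (XT.lf (nat_lit 0) (nat_lit 13579068760) (nat_lit 0) (nat_lit 13579068760) (nat_lit 684) (nat_lit 5486455151) (nat_lit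 90) (nat_lit 5) (nat_lit 90) (nat_lit 3) (nat_lit 99) (nat_lit 3) (nat_lit 296) (nat_lit 296) (nat_lit 188)) (XT.nd (nat_lit 78) (nat_lit 0) (nat_lit 76) (XT.lf (nat_lit 76) (nat_lit 9170525976) (nat_lit 0) (nat_lit 47805552871) (nat_lit 760) (nat_lit 10900270752) (nat_lit 91) (nat_lit 5) (nat_lit 90) (nat_lit 5) (nat_lit 100) (nat_lit 5) (nat_lit 297) (nat_lit 296) (nat_lit 187)) (XT.lf (nat_lit 0) (nat_lit 60964021369) (nat_lit 684) (nat_lit 9474222207) (nat_lit 760) (nat_lit 176480252) (nat_lit 91) (nat_lit 5) (nat_lit 100) (nat_lit 5) (nat_lit 101) (nat_lit 5) (nat_lit 298) (nat_lit 296) (nat_lit 186))))) (XT.nd (nat_lit 156) (nat_lit 608) (nat_lit 0) (XT.nd (nat_lit 78) (nat_lit 0) (nat_lit 76) (XT.lf (nat_lit 76) (nat_lit 44306574033) (nat_lit 0) (nat_lit 22460185163) (nat_lit 760) (nat_lit 6730625020) (nat_lit 92) (nat_lit 5) (nat_lit 91) (nat_lit 5) (nat_lit 101) (nat_lit 5) (nat_lit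 299) (nat_lit 296) (nat_lit 185)) (XT.lf (nat_lit 76) (nat_lit 26511873280) (nat_lit 0) (nat_lit 47559904759) (nat_lit 760) (nat_lit 2486980202) (nat_lit 93) (nat_lit 5) (nat_lit 92) (nat_lit 5) (nat_lit 102) (nat_lit 5) (nat_lit 300) (nat_lit 296) (nat_lit 184))) (XT.nd (nat_lit 78) (nat_lit 0) (nat_lit 0) (XT.lf (nat_lit 0) (nat_lit 3115651974) (nat_lit 760) (nat_lit 72186619720) (nat_lit 836) (nat_lit 4506808299) (nat_lit 83) (nat_lit 5) (nat_lit 93) (nat_lit 5) (nat_lit 94) (nat_lit 5) (nat_lit 301) (nat_lit 296) (nat_lit 183)) (XT.nd (nat_lit 78) (nat_lit 0) (nat_lit 76) (XT.lf (nat_lit 0) (nat_lit 10766828076) (nat_lit 760) (nat_lit 12442925379) (nat_lit 836) (nat_lit 60023265460) (nat_lit 83) (nat_lit 5) (nat_lit 93) (nat_lit 5) (nat_lit 94) (nat_lit 5) (nat_lit 302) (nat_lit 296) (nat_lit 182)) (XT.lf (nat_lit 0) (nat_lit 20398266388) (nat_lit 760) (nat_lit 33617826476) (nat_lit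 76) (nat_lit 32846374632) (nat_lit 84) (nat_lit 5) (nat_lit 94) (nat_lit 5) (nat_lit 85) (nat_lit 5) (nat_lit 303) (nat_lit 296) (nat_lit 181)))))) (XT.nd (nat_lit 390) (nat_lit 1444) (nat_lit 0) (XT.nd (nat_lit 156) (nat_lit 608) (nat_lit 0) (XT.nd (nat_lit 78) (nat_lit 380) (nat_lit 0) (XT.lf (nat_lit 0) (nat_lit 31991034800) (nat_lit 608) (nat_lit 56195366106) (nat_lit 76) (nat_lit 2536333039) (nat_lit 77) (nat_lit 5) (nat_lit 85) (nat_lit 5) (nat_lit 78) (nat_lit 5) (nat_lit 304) (nat_lit 296) (nat_lit 180)) (XT.lf (nat_lit 0) (nat_lit 13988053462) (nat_lit 380) (nat_lit 32246174178) (nat_lit 456) (nat_lit 48571446453) (nat_lit 72) (nat_lit 5) (nat_lit 77) (nat_lit 5) (nat_lit 78) (nat_lit 5) (nat_lit 305) (nat_lit 296) (nat_lit 179))) (XT.nd (nat_lit 78) (nat_lit 608) (nat_lit 0) (XT.lf (nat_lit 0) (nat_lit 63050294613) (nat_lit 456) (nat_lit 7830657452) (nat_lit 76) (nat_lit 28262628796)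 (nat_lit 72) (nat_lit 5) (nat_lit 78) (nat_lit 5) (nat_lit 73) (nat_lit 5) (nat_lit 306) (nat_lit 296) (nat_lit 178)) (XT.nd (nat_lit 78) (nat_lit 304) (nat_lit 0) (XT.lf (nat_lit 0) (nat_lit 72779669971) (nat_lit 304) (nat_lit 10110781627) (nat_lit 380) (nat_lit 20854130509) (nat_lit 68) (nat_lit 5) (nat_lit 72) (nat_lit 5) (nat_lit 73) (nat_lit 5) (nat_lit 307) (nat_lit 296) (nat_lit 177)) (XT.lf (nat_lit 0) (nat_lit 52212387837) (nat_lit 304) (nat_lit 53924945632) (nat_lit 380) (nat_lit 2485356376) (nat_lit 64) (nat_lit 5) (nat_lit 68) (nat_lit 5) (nat_lit 69) (nat_lit 5) (nat_lit 308) (nat_lit 296) (nat_lit 176))))) (XT.nd (nat_lit 234) (nat_lit 760) (nat_lit 0) (XT.nd (nat_lit 78) (nat_lit 304) (nat_lit 0) (XT.lf (nat_lit 0) (nat_lit 18164541761) (nat_lit 380) (nat_lit 84215296033) (nat_lit 76) (nat_lit 11429312599) (nat_lit 59) (nat_lit 5) (nat_lit 64) (nat_lit 5) (nat_lit 60) (nat_lit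 5) (nat_lit 309) (nat_lit 296) (nat_lit 175)) (XT.nd (nat_lit 78) (nat_lit 0) (nat_lit 0) (XT.lf (nat_lit 0) (nat_lit 4300441925) (nat_lit 304) (nat_lit 38054192011) (nat_lit 380) (nat_lit 76955094466) (nat_lit 55) (nat_lit 5) (nat_lit 59) (nat_lit 5) (nat_lit 60) (nat_lit 5) (nat_lit 310) (nat_lit 296) (nat_lit 174)) (XT.lf (nat_lit 0) (nat_lit 70460486952) (nat_lit 380) (nat_lit 22788071324) (nat_lit 76) (nat_lit 31902768221) (nat_lit 55) (nat_lit 5) (nat_lit 60) (nat_lit 5) (nat_lit 56) (nat_lit 5) (nat_lit 311) (nat_lit 296) (nat_lit 173)))) (XT.nd (nat_lit 78) (nat_lit 532) (nat_lit 0) (XT.lf (nat_lit 0) (nat_lit 78686485535) (nat_lit 228) (nat_lit 23997588758) (nat_lit 304) (nat_lit 28682716248) (nat_lit 52) (nat_lit 5) (nat_lit 55) (nat_lit 5) (nat_lit 56) (nat_lit 5) (nat_lit 312) (nat_lit 296) (nat_lit 172)) (XT.nd (nat_lit 78) (nat_lit 228) (nat_lit 0) (XT.lf (nat_lit 0) (nat_lit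 1463770801) (nat_lit 304) (nat_lit 86109459803) (nat_lit 76) (nat_lit 50404790800) (nat_lit 48) (nat_lit 5) (nat_lit 52) (nat_lit 5) (nat_lit 49) (nat_lit 5) (nat_lit 313) (nat_lit 296) (nat_lit 171)) (XT.lf (nat_lit 0) (nat_lit 21369782021) (nat_lit 228) (nat_lit 13330878176) (nat_lit 304) (nat_lit 110309801964) (nat_lit 45) (nat_lit 5) (nat_lit 48) (nat_lit 5) (nat_lit 49) (nat_lit 5) (nat_lit 314) (nat_lit 296) (nat_lit 170))))))) (XT.nd (nat_lit 780) (nat_lit 988) (nat_lit 0) (XT.nd (nat_lit 390) (nat_lit 684) (nat_lit 0) (XT.nd (nat_lit 156) (nat_lit 456) (nat_lit 0) (XT.nd (nat_lit 78) (nat_lit 228) (nat_lit 0) (XT.lf (nat_lit 0) (nat_lit 73163997285) (nat_lit 304) (nat_lit 13077622860) (nat_lit 76) (nat_lit 66235504268) (nat_lit 45) (nat_lit 5) (nat_lit 49) (nat_lit 5) (nat_lit 46) (nat_lit 5) (nat_lit 315) (nat_lit 296) (nat_lit 169)) (XT.lf (nat_lit 0) (nat_lit 109612969251) (nat_lit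 228) (nat_lit 7026845780) (nat_lit 304) (nat_lit 43804534914) (nat_lit 42) (nat_lit 5) (nat_lit 45) (nat_lit 5) (nat_lit 46) (nat_lit 5) (nat_lit 316) (nat_lit 296) (nat_lit 168))) (XT.nd (nat_lit 78) (nat_lit 304) (nat_lit 0) (XT.lf (nat_lit 0) (nat_lit 74708641671) (nat_lit 152) (nat_lit 91508302816) (nat_lit 228) (nat_lit 2700847631) (nat_lit 40) (nat_lit 5) (nat_lit 42) (nat_lit 5) (nat_lit 43) (nat_lit 5) (nat_lit 317) (nat_lit 296) (nat_lit 167)) (XT.nd (nat_lit 78) (nat_lit 0) (nat_lit 0) (XT.lf (nat_lit 0) (nat_lit 34398251149) (nat_lit 228) (nat_lit 7513335584) (nat_lit 304) (nat_lit 136047236523) (nat_lit 36) (nat_lit 5) (nat_lit 39) (nat_lit 5) (nat_lit 40) (nat_lit 5) (nat_lit 318) (nat_lit 296) (nat_lit 166)) (XT.lf (nat_lit 0) (nat_lit 92965981143) (nat_lit 304) (nat_lit 12355085657) (nat_lit 76) (nat_lit 82251477529) (nat_lit 36) (nat_lit 5) (nat_lit 40) (nat_lit 5) (nat_lit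 37) (nat_lit 5) (nat_lit 319) (nat_lit 296) (nat_lit 165))))) (XT.nd (nat_lit 156) (nat_lit 304) (nat_lit 0) (XT.nd (nat_lit 78) (nat_lit 228) (nat_lit 0) (XT.lf (nat_lit 0) (nat_lit 133491818473) (nat_lit 152) (nat_lit 16823181520) (nat_lit 228) (nat_lit 47529850138) (nat_lit 34) (nat_lit 5) (nat_lit 36) (nat_lit 5) (nat_lit 37) (nat_lit 5) (nat_lit 320) (nat_lit 296) (nat_lit 164)) (XT.lf (nat_lit 0) (nat_lit 6010999166) (nat_lit 228) (nat_lit 124924791704) (nat_lit 76) (nat_lit 77860362081) (nat_lit 31) (nat_lit 5) (nat_lit 34) (nat_lit 5) (nat_lit 32) (nat_lit 5) (nat_lit 321) (nat_lit 296) (nat_lit 163))) (XT.nd (nat_lit 78) (nat_lit 152) (nat_lit 0) (XT.lf (nat_lit 0) (nat_lit 25392586163) (nat_lit 152) (nat_lit 38618510747) (nat_lit 228) (nat_lit 156481445009) (nat_lit 29) (nat_lit 5) (nat_lit 31) (nat_lit 5) (nat_lit 32) (nat_lit 5) (nat_lit 322) (nat_lit 296) (nat_lit 162)) (XT.nd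 (nat_lit 78) (nat_lit 152) (nat_lit 0) (XT.lf (nat_lit 0) (nat_lit 129816152055) (nat_lit 228) (nat_lit 41809680738) (nat_lit 76) (nat_lit 61340562253) (nat_lit 29) (nat_lit 5) (nat_lit 32) (nat_lit 5) (nat_lit 30) (nat_lit 5) (nat_lit 323) (nat_lit 296) (nat_lit 161)) (XT.lf (nat_lit 0) (nat_lit 127161819501) (nat_lit 152) (nat_lit 76359833847) (nat_lit 228) (nat_lit 42784701471) (nat_lit 27) (nat_lit 5) (nat_lit 29) (nat_lit 5) (nat_lit 30) (nat_lit 5) (nat_lit 324) (nat_lit 296) (nat_lit 160)))))) (XT.nd (nat_lit 390) (nat_lit 532) (nat_lit 0) (XT.nd (nat_lit 156) (nat_lit 304) (nat_lit 0) (XT.nd (nat_lit 78) (nat_lit 0) (nat_lit 0) (XT.lf (nat_lit 0) (nat_lit 23686001670) (nat_lit 152) (nat_lit 209302870584) (nat_lit 76) (nat_lit 27607486289) (nat_lit 25) (nat_lit 5) (nat_lit 27) (nat_lit 5) (nat_lit 26) (nat_lit 5) (nat_lit 325) (nat_lit 296) (nat_lit 159)) (XT.lf (nat_lit 0) (nat_lit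 97391989818) (nat_lit 152) (nat_lit 38348400300) (nat_lit 76) (nat_lit 140083273600) (nat_lit 25) (nat_lit 5) (nat_lit 27) (nat_lit 5) (nat_lit 26) (nat_lit 5) (nat_lit 326) (nat_lit 296) (nat_lit 158))) (XT.nd (nat_lit 78) (nat_lit 152) (nat_lit 0) (XT.lf (nat_lit 0) (nat_lit 151118461188) (nat_lit 152) (nat_lit 28234958232) (nat_lit 228) (nat_lit 112797786130) (nat_lit 23) (nat_lit 5) (nat_lit 25) (nat_lit 5) (nat_lit 26) (nat_lit 5) (nat_lit 327) (nat_lit 296) (nat_lit 157)) (XT.nd (nat_lit 78) (nat_lit 76) (nat_lit 0) (XT.lf (nat_lit 0) (nat_lit 47497188151) (nat_lit 76) (nat_lit 223166602029) (nat_lit 152) (nat_lit 38981559549) (nat_lit 22) (nat_lit 5) (nat_lit 23) (nat_lit 5) (nat_lit 24) (nat_lit 4) (nat_lit 328) (nat_lit 296) (nat_lit 156)) (XT.lf (nat_lit 0) (nat_lit 42408707208) (nat_lit 152) (nat_lit 73423543101) (nat_lit 76) (nat_lit 212526338410) (nat_lit 21) (nat_lit 5) (nat_lit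 23) (nat_lit 5) (nat_lit 22) (nat_lit 5) (nat_lit 329) (nat_lit 296) (nat_lit 155))))) (XT.nd (nat_lit 234) (nat_lit 304) (nat_lit 0) (XT.nd (nat_lit 78) (nat_lit 76) (nat_lit 0) (XT.lf (nat_lit 0) (nat_lit 131101430094) (nat_lit 228) (nat_lit 214446921977) (nat_lit 76) (nat_lit 2880734998) (nat_lit 19) (nat_lit 5) (nat_lit 22) (nat_lit 5) (nat_lit 20) (nat_lit 4) (nat_lit 330) (nat_lit 296) (nat_lit 154)) (XT.nd (nat_lit 78) (nat_lit 76) (nat_lit 0) (XT.lf (nat_lit 0) (nat_lit 230142323763) (nat_lit 228) (nat_lit 11413732100) (nat_lit 76) (nat_lit 128386532032) (nat_lit 19) (nat_lit 5) (nat_lit 22) (nat_lit 5) (nat_lit 20) (nat_lit 4) (nat_lit 331) (nat_lit 296) (nat_lit 153)) (XT.lf (nat_lit 0) (nat_lit 214734392592) (nat_lit 76) (nat_lit 125724379595) (nat_lit 152) (nat_lit 52550782673) (nat_lit 18) (nat_lit 5) (nat_lit 19) (nat_lit 5) (nat_lit 20) (nat_lit 4) (nat_lit 332) (nat_lit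 296) (nat_lit 152)))) (XT.nd (nat_lit 78) (nat_lit 76) (nat_lit 0) (XT.lf (nat_lit 0) (nat_lit 41219753660) (nat_lit 228) (nat_lit 375696305878) (nat_lit 76) (nat_lit 929530136) (nat_lit 15) (nat_lit 5) (nat_lit 18) (nat_lit 5) (nat_lit 16) (nat_lit 4) (nat_lit 333) (nat_lit 296) (nat_lit 151)) (XT.nd (nat_lit 78) (nat_lit 76) (nat_lit 0) (XT.lf (nat_lit 0) (nat_lit 145951412485) (nat_lit 228) (nat_lit 160996890767) (nat_lit 76) (nat_lit 137412099652) (nat_lit 15) (nat_lit 5) (nat_lit 18) (nat_lit 5) (nat_lit 16) (nat_lit 4) (nat_lit 334) (nat_lit 296) (nat_lit 150)) (XT.lf (nat_lit 0) (nat_lit 73221527624) (nat_lit 76) (nat_lit 186982991158) (nat_lit 152) (nat_lit 212734736850) (nat_lit 14) (nat_lit 5) (nat_lit 15) (nat_lit 5) (nat_lit 16) (nat_lit 4) (nat_lit 335) (nat_lit 296) (nat_lit 149))))))))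
noncomputable def xc108 : XT := (XT.nd (nat_lit 38610) (nat_lit 0) (nat_lit 836) (XT.nd (nat_lit 37830) (nat_lit 0) (nat_lit 4104) (XT.nd (nat_lit 390) (nat_lit 76) (nat_lit 0) (XT.nd (nat_lit 156) (nat_lit 152) (nat_lit 0) (XT.nd (nat_lit 78) (nat_lit 76) (nat_lit 0) (XT.lf (nat_lit 0) (nat_lit 331926091993) (nat_lit 76) (nat_lit 54475978297) (nat_lit 152) (nat_lit 117262136619) (nat_lit 14) (nat_lit 5) (nat_lit 15) (nat_lit 5) (nat_lit 16) (nat_lit 4) (nat_lit 336) (nat_lit 296) (nat_lit 148)) (XT.lf (nat_lit 0) (nat_lit 75512502501) (nat_lit 76) (nat_lit 449745424162) (nat_lit 76) (nat_lit 11461102741) (nat_lit 13) (nat_lit 4) (nat_lit 14) (nat_lit 5) (nat_lit 14) (nat_lit 4) (nat_lit 337) (nat_lit 296) (nat_lit 147))) (XT.nd (nat_lit 78) (nat_lit 76) (nat_lit 0) (XT.lf (nat_lit 0) (nat_lit 103472576188) (nat_lit 152) (nat_lit 226165880084) (nat_lit 76) (nat_lit 242501581983) (nat_lit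 12) (nat_lit 5) (nat_lit 14) (nat_lit 5) (nat_lit 13) (nat_lit 4) (nat_lit 338) (nat_lit 296) (nat_lit 146)) (XT.nd (nat_lit 78) (nat_lit 0) (nat_lit 0) (XT.lf (nat_lit 0) (nat_lit 28393115375) (nat_lit 76) (nat_lit 199254734050) (nat_lit 152) (nat_lit 382715062108) (nat_lit 11) (nat_lit 5) (nat_lit 12) (nat_lit 5) (nat_lit 13) (nat_lit 4) (nat_lit 339) (nat_lit 296) (nat_lit 145)) (XT.lf (nat_lit 0) (nat_lit 311392753705) (nat_lit 76) (nat_lit 54303841913) (nat_lit 152) (nat_lit 285750046615) (nat_lit 11) (nat_lit 5) (nat_lit 12) (nat_lit 5) (nat_lit 13) (nat_lit 4) (nat_lit 340) (nat_lit 296) (nat_lit 144))))) (XT.nd (nat_lit 37206) (nat_lit 0) (nat_lit 6080) (XT.nd (nat_lit 78) (nat_lit 76) (nat_lit 0) (XT.lf (nat_lit 0) (nat_lit 516385343775) (nat_lit 152) (nat_lit 80381376068) (nat_lit 0) (nat_lit 98970546540) (nat_lit 11) (nat_lit 5) (nat_lit 13) (nat_lit 4) (nat_lit 11) (nat_lit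 4) (nat_lit 341) (nat_lit 296) (nat_lit 143)) (XT.lf (nat_lit 0) (nat_lit 205733699640) (nat_lit 76) (nat_lit 477523049108) (nat_lit 76) (nat_lit 60108013968) (nat_lit 10) (nat_lit 4) (nat_lit 11) (nat_lit 5) (nat_lit 11) (nat_lit 4) (nat_lit 342) (nat_lit 296) (nat_lit 142))) (XT.nd (nat_lit 78) (nat_lit 0) (nat_lit 0) (XT.lf (nat_lit 0) (nat_lit 14676403944) (nat_lit 0) (nat_lit 14676403944) (nat_lit 684) (nat_lit 5902206805) (nat_lit 90) (nat_lit 5) (nat_lit 90) (nat_lit 3) (nat_lit 99) (nat_lit 3) (nat_lit 297) (nat_lit 297) (nat_lit 186)) (XT.nd (nat_lit 78) (nat_lit 0) (nat_lit 76) (XT.lf (nat_lit 76) (nat_lit 9927750559) (nat_lit 0) (nat_lit 51647241071) (nat_lit 760) (nat_lit 11729342348) (nat_lit 91) (nat_lit 5) (nat_lit 90) (nat_lit 5) (nat_lit 100) (nat_lit 5) (nat_lit 298) (nat_lit 297) (nat_lit 185)) (XT.lf (nat_lit 0) (nat_lit 65878696086) (nat_lit 684) (nat_lit 10208108759)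 (nat_lit 760) (nat_lit 175143066) (nat_lit 91) (nat_lit 5) (nat_lit 100) (nat_lit 5) (nat_lit 101) (nat_lit 5) (nat_lit 299) (nat_lit 297) (nat_lit 184)))))) (XT.nd (nat_lit 390) (nat_lit 1444) (nat_lit 0) (XT.nd (nat_lit 156) (nat_lit 608) (nat_lit 0) (XT.nd (nat_lit 78) (nat_lit 0) (nat_lit 76) (XT.lf (nat_lit 76) (nat_lit 47874105942) (nat_lit 0) (nat_lit 24269124480) (nat_lit 760) (nat_lit 7232117477) (nat_lit 92) (nat_lit 5) (nat_lit 91) (nat_lit 5) (nat_lit 101) (nat_lit 5) (nat_lit 300) (nat_lit 297) (nat_lit 183)) (XT.lf (nat_lit 76) (nat_lit 28656758042) (nat_lit 0) (nat_lit 51373488888) (nat_lit 760) (nat_lit 2651510333) (nat_lit 93) (nat_lit 5) (nat_lit 92) (nat_lit 5) (nat_lit 102) (nat_lit 5) (nat_lit 301) (nat_lit 297) (nat_lit 182))) (XT.nd (nat_lit 78) (nat_lit 0) (nat_lit 0) (XT.lf (nat_lit 0) (nat_lit 3396023922) (nat_lit 760) (nat_lit 77935809045) (nat_lit 836) (nat_lit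 4860359848) (nat_lit 83) (nat_lit 5) (nat_lit 93) (nat_lit 5) (nat_lit 94) (nat_lit 5) (nat_lit 302) (nat_lit 297) (nat_lit 181)) (XT.nd (nat_lit 78) (nat_lit 0) (nat_lit 76) (XT.lf (nat_lit 0) (nat_lit 11656988942) (nat_lit 760) (nat_lit 13414525842) (nat_lit 836) (nat_lit 64818651591) (nat_lit 83) (nat_lit 5) (nat_lit 93) (nat_lit 5) (nat_lit 94) (nat_lit 5) (nat_lit 303) (nat_lit 297) (nat_lit 180)) (XT.lf (nat_lit 0) (nat_lit 22057097668) (nat_lit 760) (nat_lit 36282987451) (nat_lit 76) (nat_lit 35469981905) (nat_lit 84) (nat_lit 5) (nat_lit 94) (nat_lit 5) (nat_lit 85) (nat_lit 5) (nat_lit 304) (nat_lit 297) (nat_lit 179))))) (XT.nd (nat_lit 156) (nat_lit 608) (nat_lit 0) (XT.nd (nat_lit 78) (nat_lit 380) (nat_lit 0) (XT.lf (nat_lit 0) (nat_lit 34575618999) (nat_lit 608) (nat_lit 60666439180) (nat_lit 76) (nat_lit 2737183696) (nat_lit 77) (nat_lit 5) (nat_lit 85) (nat_lit 5) (nat_lit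 78) (nat_lit 5) (nat_lit 305) (nat_lit 297) (nat_lit 178)) (XT.lf (nat_lit 0) (nat_lit 15130586771) (nat_lit 380) (nat_lit 34826173046) (nat_lit 456) (nat_lit 52432136176) (nat_lit 72) (nat_lit 5) (nat_lit 77) (nat_lit 5) (nat_lit 78) (nat_lit 5) (nat_lit 306) (nat_lit 297) (nat_lit 177))) (XT.nd (nat_lit 78) (nat_lit 608) (nat_lit 0) (XT.lf (nat_lit 0) (nat_lit 68116345223) (nat_lit 456) (nat_lit 8434215770) (nat_lit 76) (nat_lit 30523365790) (nat_lit 72) (nat_lit 5) (nat_lit 78) (nat_lit 5) (nat_lit 73) (nat_lit 5) (nat_lit 307) (nat_lit 297) (nat_lit 176)) (XT.nd (nat_lit 78) (nat_lit 304) (nat_lit 0) (XT.lf (nat_lit 0) (nat_lit 78623942890) (nat_lit 304) (nat_lit 10918482154) (nat_lit 380) (nat_lit 22500650474) (nat_lit 68) (nat_lit 5) (nat_lit 72) (nat_lit 5) (nat_lit 73) (nat_lit 5) (nat_lit 308) (nat_lit 297) (nat_lit 175)) (XT.lf (nat_lit 0) (nat_lit 56411335632) (nat_lit 304)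 (nat_lit 58236545340) (nat_lit 380) (nat_lit 2663612416) (nat_lit 64) (nat_lit 5) (nat_lit 68) (nat_lit 5) (nat_lit 69) (nat_lit 5) (nat_lit 309) (nat_lit 297) (nat_lit 174))))))) (XT.nd (nat_lit 780) (nat_lit 1140) (nat_lit 0) (XT.nd (nat_lit 390) (nat_lit 912) (nat_lit 0) (XT.nd (nat_lit 156) (nat_lit 532) (nat_lit 0) (XT.nd (nat_lit 78) (nat_lit 304) (nat_lit 0) (XT.lf (nat_lit 0) (nat_lit 19636527288) (nat_lit 380) (nat_lit 90929933287) (nat_lit 76) (nat_lit 12346451110) (nat_lit 59) (nat_lit 5) (nat_lit 64) (nat_lit 5) (nat_lit 60) (nat_lit 5) (nat_lit 310) (nat_lit 297) (nat_lit 173)) (XT.lf (nat_lit 0) (nat_lit 4666082130) (nat_lit 304) (nat_lit 41094687784) (nat_lit 380) (nat_lit 83092821061) (nat_lit 55) (nat_lit 5) (nat_lit 59) (nat_lit 5) (nat_lit 60) (nat_lit 5) (nat_lit 311) (nat_lit 297) (nat_lit 172))) (XT.nd (nat_lit 78) (nat_lit 532) (nat_lit 0) (XT.lf (nat_lit 0) (nat_lit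 76113830731) (nat_lit 380) (nat_lit 24590320175) (nat_lit 76) (nat_lit 34458431065) (nat_lit 55) (nat_lit 5) (nat_lit 60) (nat_lit 5) (nat_lit 56) (nat_lit 5) (nat_lit 312) (nat_lit 297) (nat_lit 171)) (XT.nd (nat_lit 78) (nat_lit 304) (nat_lit 0) (XT.lf (nat_lit 0) (nat_lit 85001297428) (nat_lit 228) (nat_lit 25913095639) (nat_lit 304) (nat_lit 30960937554) (nat_lit 52) (nat_lit 5) (nat_lit 55) (nat_lit 5) (nat_lit 56) (nat_lit 5) (nat_lit 313) (nat_lit 297) (nat_lit 170)) (XT.lf (nat_lit 0) (nat_lit 1595944355) (nat_lit 304) (nat_lit 92977964938) (nat_lit 76) (nat_lit 54441579486) (nat_lit 48) (nat_lit 5) (nat_lit 52) (nat_lit 5) (nat_lit 49) (nat_lit 5) (nat_lit 314) (nat_lit 297) (nat_lit 169))))) (XT.nd (nat_lit 156) (nat_lit 684) (nat_lit 0) (XT.nd (nat_lit 78) (nat_lit 0) (nat_lit 0) (XT.lf (nat_lit 0) (nat_lit 23098736119) (nat_lit 228) (nat_lit 14392234790) (nat_lit 304) (nat_lit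 119119596123) (nat_lit 45) (nat_lit 5) (nat_lit 48) (nat_lit 5) (nat_lit 49) (nat_lit 5) (nat_lit 315) (nat_lit 297) (nat_lit 168)) (XT.lf (nat_lit 0) (nat_lit 79030392749) (nat_lit 304) (nat_lit 14105292133) (nat_lit 76) (nat_lit 71538927916) (nat_lit 45) (nat_lit 5) (nat_lit 49) (nat_lit 5) (nat_lit 46) (nat_lit 5) (nat_lit 316) (nat_lit 297) (nat_lit 167))) (XT.nd (nat_lit 78) (nat_lit 456) (nat_lit 0) (XT.lf (nat_lit 0) (nat_lit 118399741597) (nat_lit 228) (nat_lit 7583827824) (nat_lit 304) (nat_lit 47295683594) (nat_lit 42) (nat_lit 5) (nat_lit 45) (nat_lit 5) (nat_lit 46) (nat_lit 5) (nat_lit 317) (nat_lit 297) (nat_lit 166)) (XT.nd (nat_lit 78) (nat_lit 304) (nat_lit 0) (XT.lf (nat_lit 0) (nat_lit 80702836831) (nat_lit 152) (nat_lit 98823449310) (nat_lit 228) (nat_lit 2904314794) (nat_lit 40) (nat_lit 5) (nat_lit 42) (nat_lit 5) (nat_lit 43) (nat_lit 5) (nat_lit 318) (nat_lit 297)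 (nat_lit 165)) (XT.lf (nat_lit 0) (nat_lit 37167254035) (nat_lit 228) (nat_lit 8108821125) (nat_lit 304) (nat_lit 146918862438) (nat_lit 36) (nat_lit 5) (nat_lit 39) (nat_lit 5) (nat_lit 40) (nat_lit 5) (nat_lit 319) (nat_lit 297) (nat_lit 164)))))) (XT.nd (nat_lit 390) (nat_lit 608) (nat_lit 0) (XT.nd (nat_lit 156) (nat_lit 380) (nat_lit 0) (XT.nd (nat_lit 78) (nat_lit 152) (nat_lit 0) (XT.lf (nat_lit 0) (nat_lit 100414045401) (nat_lit 304) (nat_lit 13327152534) (nat_lit 76) (nat_lit 88836598202) (nat_lit 36) (nat_lit 5) (nat_lit 40) (nat_lit 5) (nat_lit 37) (nat_lit 5) (nat_lit 320) (nat_lit 297) (nat_lit 163)) (XT.lf (nat_lit 0) (nat_lit 144186793811) (nat_lit 152) (nat_lit 18163637029) (nat_lit 228) (nat_lit 51321484233) (nat_lit 34) (nat_lit 5) (nat_lit 36) (nat_lit 5) (nat_lit 37) (nat_lit 5) (nat_lit 321) (nat_lit 297) (nat_lit 162))) (XT.nd (nat_lit 78) (nat_lit 152) (nat_lit 0)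 (XT.lf (nat_lit 0) (nat_lit 6501840969) (nat_lit 228) (nat_lit 134903065179) (nat_lit 76) (nat_lit 84094430781) (nat_lit 31) (nat_lit 5) (nat_lit 34) (nat_lit 5) (nat_lit 32) (nat_lit 5) (nat_lit 322) (nat_lit 297) (nat_lit 161)) (XT.nd (nat_lit 78) (nat_lit 0) (nat_lit 0) (XT.lf (nat_lit 0) (nat_lit 27439020186) (nat_lit 152) (nat_lit 41702423046) (nat_lit 228) (nat_lit 168990019700) (nat_lit 29) (nat_lit 5) (nat_lit 31) (nat_lit 5) (nat_lit 32) (nat_lit 5) (nat_lit 323) (nat_lit 297) (nat_lit 160)) (XT.lf (nat_lit 0) (nat_lit 140210282655) (nat_lit 228) (nat_lit 45140175077) (nat_lit 76) (nat_lit 66252798282) (nat_lit 29) (nat_lit 5) (nat_lit 32) (nat_lit 5) (nat_lit 30) (nat_lit 5) (nat_lit 324) (nat_lit 297) (nat_lit 159))))) (XT.nd (nat_lit 234) (nat_lit 304) (nat_lit 0) (XT.nd (nat_lit 78) (nat_lit 152) (nat_lit 0) (XT.lf (nat_lit 0) (nat_lit 137348424585) (nat_lit 152) (nat_lit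 82463358030) (nat_lit 228) (nat_lit 46198652670) (nat_lit 27) (nat_lit 5) (nat_lit 29) (nat_lit 5) (nat_lit 30) (nat_lit 5) (nat_lit 325) (nat_lit 297) (nat_lit 158)) (XT.nd (nat_lit 78) (nat_lit 0) (nat_lit 0) (XT.lf (nat_lit 0) (nat_lit 25589081406) (nat_lit 152) (nat_lit 226033425372) (nat_lit 76) (nat_lit 29821143353) (nat_lit 25) (nat_lit 5) (nat_lit 27) (nat_lit 5) (nat_lit 26) (nat_lit 5) (nat_lit 326) (nat_lit 297) (nat_lit 157)) (XT.lf (nat_lit 0) (nat_lit 105190941228) (nat_lit 152) (nat_lit 41403610417) (nat_lit 76) (nat_lit 151294618970) (nat_lit 25) (nat_lit 5) (nat_lit 27) (nat_lit 5) (nat_lit 26) (nat_lit 5) (nat_lit 327) (nat_lit 297) (nat_lit 156)))) (XT.nd (nat_lit 78) (nat_lit 152) (nat_lit 0) (XT.lf (nat_lit 0) (nat_lit 163220049719) (nat_lit 152) (nat_lit 30488862189) (nat_lit 228) (nat_lit 121814023039) (nat_lit 23) (nat_lit 5) (nat_lit 25) (nat_lit 5) (nat_lit 26)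 (nat_lit 5) (nat_lit 328) (nat_lit 297) (nat_lit 155)) (XT.nd (nat_lit 78) (nat_lit 76) (nat_lit 0) (XT.lf (nat_lit 0) (nat_lit 51308826508) (nat_lit 76) (nat_lit 241015007033) (nat_lit 152) (nat_lit 42092791509) (nat_lit 22) (nat_lit 5) (nat_lit 23) (nat_lit 5) (nat_lit 24) (nat_lit 4) (nat_lit 329) (nat_lit 297) (nat_lit 154)) (XT.lf (nat_lit 0) (nat_lit 45807940257) (nat_lit 152) (nat_lit 79286220900) (nat_lit 76) (nat_lit 229532782855) (nat_lit 21) (nat_lit 5) (nat_lit 23) (nat_lit 5) (nat_lit 22) (nat_lit 5) (nat_lit 330) (nat_lit 297) (nat_lit 153))))))))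
noncomputable def xc109 : XT := (XT.nd (nat_lit 38766) (nat_lit 0) (nat_lit 1064) (XT.nd (nat_lit 780) (nat_lit 0) (nat_lit 0) (XT.nd (nat_lit 390) (nat_lit 304) (nat_lit 0) (XT.nd (nat_lit 156) (nat_lit 304) (nat_lit 0) (XT.nd (nat_lit 78) (nat_lit 0) (nat_lit 0) (XT.lf (nat_lit 0) (nat_lit 141595834381) (nat_lit 228) (nat_lit 231591711718) (nat_lit 76) (nat_lit 3115548829) (nat_lit 19) (nat_lit 5) (nat_lit 22) (nat_lit 5) (nat_lit 20) (nat_lit 4) (nat_lit 331) (nat_lit 297) (nat_lit 152)) (XT.lf (nat_lit 0) (nat_lit 248559533626) (nat_lit 228) (nat_lit 12316678800) (nat_lit 76) (nat_lit 138661487031) (nat_lit 19) (nat_lit 5) (nat_lit 22) (nat_lit 5) (nat_lit 20) (nat_lit 4) (nat_lit 332) (nat_lit 297) (nat_lit 151))) (XT.nd (nat_lit 78) (nat_lit 228) (nat_lit 0) (XT.lf (nat_lit 0) (nat_lit 231922854679) (nat_lit 76) (nat_lit 135778163451) (nat_lit 152) (nat_lit 56749019956) (nat_lit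 18) (nat_lit 5) (nat_lit 19) (nat_lit 5) (nat_lit 20) (nat_lit 4) (nat_lit 333) (nat_lit 297) (nat_lit 150)) (XT.nd (nat_lit 78) (nat_lit 0) (nat_lit 0) (XT.lf (nat_lit 0) (nat_lit 44522767041) (nat_lit 228) (nat_lit 405742331834) (nat_lit 76) (nat_lit 1007862832) (nat_lit 15) (nat_lit 5) (nat_lit 18) (nat_lit 5) (nat_lit 16) (nat_lit 4) (nat_lit 334) (nat_lit 297) (nat_lit 149)) (XT.lf (nat_lit 0) (nat_lit 157632556122) (nat_lit 228) (nat_lit 173867680441) (nat_lit 76) (nat_lit 148408743813) (nat_lit 15) (nat_lit 5) (nat_lit 18) (nat_lit 5) (nat_lit 16) (nat_lit 4) (nat_lit 335) (nat_lit 297) (nat_lit 148))))) (XT.nd (nat_lit 156) (nat_lit 228) (nat_lit 0) (XT.nd (nat_lit 78) (nat_lit 0) (nat_lit 0) (XT.lf (nat_lit 0) (nat_lit 79087821962) (nat_lit 76) (nat_lit 201937850156) (nat_lit 152) (nat_lit 229748481384) (nat_lit 14) (nat_lit 5) (nat_lit 15) (nat_lit 5) (nat_lit 16) (nat_lit 4)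 (nat_lit 336) (nat_lit 297) (nat_lit 147)) (XT.lf (nat_lit 0) (nat_lit 358488116508) (nat_lit 76) (nat_lit 58830556287) (nat_lit 152) (nat_lit 126638446054) (nat_lit 14) (nat_lit 5) (nat_lit 15) (nat_lit 5) (nat_lit 16) (nat_lit 4) (nat_lit 337) (nat_lit 297) (nat_lit 146))) (XT.nd (nat_lit 78) (nat_lit 152) (nat_lit 0) (XT.lf (nat_lit 0) (nat_lit 81561257494) (nat_lit 76) (nat_lit 485721583201) (nat_lit 76) (nat_lit 12373494503) (nat_lit 13) (nat_lit 4) (nat_lit 14) (nat_lit 5) (nat_lit 14) (nat_lit 4) (nat_lit 338) (nat_lit 297) (nat_lit 145)) (XT.nd (nat_lit 78) (nat_lit 76) (nat_lit 0) (XT.lf (nat_lit 0) (nat_lit 111754412415) (nat_lit 152) (nat_lit 244251834612) (nat_lit 76) (nat_lit 261904790521) (nat_lit 12) (nat_lit 5) (nat_lit 14) (nat_lit 5) (nat_lit 13) (nat_lit 4) (nat_lit 339) (nat_lit 297) (nat_lit 144)) (XT.lf (nat_lit 0) (nat_lit 30671562544) (nat_lit 76) (nat_lit 215191955695)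 (nat_lit 152) (nat_lit 413328232079) (nat_lit 11) (nat_lit 5) (nat_lit 12) (nat_lit 5) (nat_lit 13) (nat_lit 4) (nat_lit 340) (nat_lit 297) (nat_lit 143)))))) (XT.nd (nat_lit 37518) (nat_lit 0) (nat_lit 5016) (XT.nd (nat_lit 37284) (nat_lit 0) (nat_lit 6004) (XT.nd (nat_lit 78) (nat_lit 0) (nat_lit 0) (XT.lf (nat_lit 0) (nat_lit 336310653575) (nat_lit 76) (nat_lit 58645226045) (nat_lit 152) (nat_lit 308606314235) (nat_lit 11) (nat_lit 5) (nat_lit 12) (nat_lit 5) (nat_lit 13) (nat_lit 4) (nat_lit 341) (nat_lit 297) (nat_lit 142)) (XT.lf (nat_lit 0) (nat_lit 557699506456) (nat_lit 152) (nat_lit 86805762367) (nat_lit 0) (nat_lit 106890810318) (nat_lit 11) (nat_lit 5) (nat_lit 13) (nat_lit 4) (nat_lit 11) (nat_lit 4) (nat_lit 342) (nat_lit 297) (nat_lit 141))) (XT.nd (nat_lit 78) (nat_lit 0) (nat_lit 0) (XT.lf (nat_lit 0) (nat_lit 15859955288) (nat_lit 0) (nat_lit 15859955288) (nat_lit 684)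 (nat_lit 6354523303) (nat_lit 90) (nat_lit 5) (nat_lit 90) (nat_lit 3) (nat_lit 99) (nat_lit 3) (nat_lit 298) (nat_lit 298) (nat_lit 184)) (XT.nd (nat_lit 78) (nat_lit 0) (nat_lit 76) (XT.lf (nat_lit 76) (nat_lit 10742188800) (nat_lit 0) (nat_lit 55793804281) (nat_lit 760) (nat_lit 12630866978) (nat_lit 91) (nat_lit 5) (nat_lit 90) (nat_lit 5) (nat_lit 100) (nat_lit 5) (nat_lit 299) (nat_lit 298) (nat_lit 183)) (XT.lf (nat_lit 0) (nat_lit 71181187423) (nat_lit 684) (nat_lit 11004137412) (nat_lit 760) (nat_lit 175903820) (nat_lit 91) (nat_lit 5) (nat_lit 100) (nat_lit 5) (nat_lit 101) (nat_lit 5) (nat_lit 300) (nat_lit 298) (nat_lit 182))))) (XT.nd (nat_lit 234) (nat_lit 456) (nat_lit 0) (XT.nd (nat_lit 78) (nat_lit 608) (nat_lit 0) (XT.lf (nat_lit 76) (nat_lit 51723758343) (nat_lit 0) (nat_lit 26221049246) (nat_lit 760) (nat_lit 7779001736) (nat_lit 92) (nat_lit 5) (nat_lit 91) (nat_lit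 5) (nat_lit 101) (nat_lit 5) (nat_lit 301) (nat_lit 298) (nat_lit 181)) (XT.nd (nat_lit 78) (nat_lit 684) (nat_lit 0) (XT.lf (nat_lit 76) (nat_lit 30969819003) (nat_lit 0) (nat_lit 55490905506) (nat_lit 760) (nat_lit 2834114454) (nat_lit 93) (nat_lit 5) (nat_lit 92) (nat_lit 5) (nat_lit 102) (nat_lit 5) (nat_lit 302) (nat_lit 298) (nat_lit 180)) (XT.lf (nat_lit 0) (nat_lit 3694386040) (nat_lit 760) (nat_lit 84148605651) (nat_lit 836) (nat_lit 5243193166) (nat_lit 83) (nat_lit 5) (nat_lit 93) (nat_lit 5) (nat_lit 94) (nat_lit 5) (nat_lit 303) (nat_lit 298) (nat_lit 179)))) (XT.nd (nat_lit 78) (nat_lit 456) (nat_lit 0) (XT.lf (nat_lit 0) (nat_lit 12614251950) (nat_lit 760) (nat_lit 14467254466) (nat_lit 836) (nat_lit 69998592357) (nat_lit 83) (nat_lit 5) (nat_lit 93) (nat_lit 5) (nat_lit 94) (nat_lit 5) (nat_lit 304) (nat_lit 298) (nat_lit 178)) (XT.nd (nat_lit 78) (nat_lit 532) (nat_lit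 0) (XT.lf (nat_lit 0) (nat_lit 23844787883) (nat_lit 760) (nat_lit 39164822999) (nat_lit 76) (nat_lit 38304063055) (nat_lit 84) (nat_lit 5) (nat_lit 94) (nat_lit 5) (nat_lit 85) (nat_lit 5) (nat_lit 305) (nat_lit 298) (nat_lit 177)) (XT.lf (nat_lit 0) (nat_lit 37363360404) (nat_lit 608) (nat_lit 65498701318) (nat_lit 76) (nat_lit 2954395714) (nat_lit 77) (nat_lit 5) (nat_lit 85) (nat_lit 5) (nat_lit 78) (nat_lit 5) (nat_lit 306) (nat_lit 298) (nat_lit 176))))))) (XT.nd (nat_lit 780) (nat_lit 1520) (nat_lit 0) (XT.nd (nat_lit 390) (nat_lit 1064) (nat_lit 0) (XT.nd (nat_lit 156) (nat_lit 988) (nat_lit 0) (XT.nd (nat_lit 78) (nat_lit 0) (nat_lit 0) (XT.lf (nat_lit 0) (nat_lit 16361171771) (nat_lit 380) (nat_lit 37612528321) (nat_lit 456) (nat_lit 56605251314) (nat_lit 72) (nat_lit 5) (nat_lit 77) (nat_lit 5) (nat_lit 78) (nat_lit 5) (nat_lit 307) (nat_lit 298) (nat_lit 175)) (XT.lf (nat_lit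 0) (nat_lit 73584537479) (nat_lit 456) (nat_lit 9089324878) (nat_lit 76) (nat_lit 32965000735) (nat_lit 72) (nat_lit 5) (nat_lit 78) (nat_lit 5) (nat_lit 73) (nat_lit 5) (nat_lit 308) (nat_lit 298) (nat_lit 174))) (XT.nd (nat_lit 78) (nat_lit 684) (nat_lit 0) (XT.lf (nat_lit 0) (nat_lit 84932633459) (nat_lit 304) (nat_lit 11790964497) (nat_lit 380) (nat_lit 24282003545) (nat_lit 68) (nat_lit 5) (nat_lit 72) (nat_lit 5) (nat_lit 73) (nat_lit 5) (nat_lit 309) (nat_lit 298) (nat_lit 173)) (XT.nd (nat_lit 78) (nat_lit 380) (nat_lit 0) (XT.lf (nat_lit 0) (nat_lit 60943066872) (nat_lit 304) (nat_lit 62893414833) (nat_lit 380) (nat_lit 2859063833) (nat_lit 64) (nat_lit 5) (nat_lit 68) (nat_lit 5) (nat_lit 69) (nat_lit 5) (nat_lit 310) (nat_lit 298) (nat_lit 172)) (XT.lf (nat_lit 0) (nat_lit 21223586462) (nat_lit 380) (nat_lit 98184963727) (nat_lit 76) (nat_lit 13336562177) (nat_lit 59) (nat_lit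 5) (nat_lit 64) (nat_lit 5) (nat_lit 60) (nat_lit 5) (nat_lit 311) (nat_lit 298) (nat_lit 171))))) (XT.nd (nat_lit 156) (nat_lit 760) (nat_lit 0) (XT.nd (nat_lit 78) (nat_lit 0) (nat_lit 0) (XT.lf (nat_lit 0) (nat_lit 5057891378) (nat_lit 304) (nat_lit 44378970978) (nat_lit 380) (nat_lit 89724230832) (nat_lit 55) (nat_lit 5) (nat_lit 59) (nat_lit 5) (nat_lit 60) (nat_lit 5) (nat_lit 312) (nat_lit 298) (nat_lit 170)) (XT.lf (nat_lit 0) (nat_lit 82217087415) (nat_lit 380) (nat_lit 26539715837) (nat_lit 76) (nat_lit 37218055985) (nat_lit 55) (nat_lit 5) (nat_lit 60) (nat_lit 5) (nat_lit 56) (nat_lit 5) (nat_lit 313) (nat_lit 298) (nat_lit 169))) (XT.nd (nat_lit 78) (nat_lit 532) (nat_lit 0) (XT.lf (nat_lit 0) (nat_lit 91818456306) (nat_lit 228) (nat_lit 27982456544) (nat_lit 304) (nat_lit 33423755636) (nat_lit 52) (nat_lit 5) (nat_lit 55) (nat_lit 5) (nat_lit 56) (nat_lit 5) (nat_lit 314)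 (nat_lit 298) (nat_lit 168)) (XT.nd (nat_lit 78) (nat_lit 228) (nat_lit 0) (XT.lf (nat_lit 0) (nat_lit 1736541619) (nat_lit 304) (nat_lit 100398839609) (nat_lit 76) (nat_lit 58800682784) (nat_lit 48) (nat_lit 5) (nat_lit 52) (nat_lit 5) (nat_lit 49) (nat_lit 5) (nat_lit 315) (nat_lit 298) (nat_lit 167)) (XT.lf (nat_lit 0) (nat_lit 24963242980) (nat_lit 228) (nat_lit 15539229451) (nat_lit 304) (nat_lit 128636312305) (nat_lit 45) (nat_lit 5) (nat_lit 48) (nat_lit 5) (nat_lit 49) (nat_lit 5) (nat_lit 316) (nat_lit 298) (nat_lit 166)))))) (XT.nd (nat_lit 390) (nat_lit 836) (nat_lit 0) (XT.nd (nat_lit 156) (nat_lit 456) (nat_lit 0) (XT.nd (nat_lit 78) (nat_lit 228) (nat_lit 0) (XT.lf (nat_lit 0) (nat_lit 85364205925) (nat_lit 304) (nat_lit 15217819966) (nat_lit 76) (nat_lit 77265971596) (nat_lit 45) (nat_lit 5) (nat_lit 49) (nat_lit 5) (nat_lit 46) (nat_lit 5) (nat_lit 317) (nat_lit 298) (nat_lit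 165)) (XT.lf (nat_lit 0) (nat_lit 127886925662) (nat_lit 228) (nat_lit 8186105365) (nat_lit 304) (nat_lit 51068009309) (nat_lit 42) (nat_lit 5) (nat_lit 45) (nat_lit 5) (nat_lit 46) (nat_lit 5) (nat_lit 318) (nat_lit 298) (nat_lit 164))) (XT.nd (nat_lit 78) (nat_lit 304) (nat_lit 0) (XT.lf (nat_lit 0) (nat_lit 87174070488) (nat_lit 152) (nat_lit 106724594691) (nat_lit 228) (nat_lit 3125856953) (nat_lit 40) (nat_lit 5) (nat_lit 42) (nat_lit 5) (nat_lit 43) (nat_lit 5) (nat_lit 319) (nat_lit 298) (nat_lit 163)) (XT.nd (nat_lit 78) (nat_lit 0) (nat_lit 0) (XT.lf (nat_lit 0) (nat_lit 40155331540) (nat_lit 228) (nat_lit 8752741745) (nat_lit 304) (nat_lit 158661952188) (nat_lit 36) (nat_lit 5) (nat_lit 39) (nat_lit 5) (nat_lit 40) (nat_lit 5) (nat_lit 320) (nat_lit 298) (nat_lit 162)) (XT.lf (nat_lit 0) (nat_lit 108456416090) (nat_lit 304) (nat_lit 14379315841) (nat_lit 76) (nat_lit 95947814871)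 (nat_lit 36) (nat_lit 5) (nat_lit 40) (nat_lit 5) (nat_lit 37) (nat_lit 5) (nat_lit 321) (nat_lit 298) (nat_lit 161))))) (XT.nd (nat_lit 234) (nat_lit 304) (nat_lit 0) (XT.nd (nat_lit 78) (nat_lit 380) (nat_lit 0) (XT.lf (nat_lit 0) (nat_lit 155735137402) (nat_lit 152) (nat_lit 19612099208) (nat_lit 228) (nat_lit 55417983222) (nat_lit 34) (nat_lit 5) (nat_lit 36) (nat_lit 5) (nat_lit 37) (nat_lit 5) (nat_lit 322) (nat_lit 298) (nat_lit 160)) (XT.nd (nat_lit 78) (nat_lit 152) (nat_lit 0) (XT.lf (nat_lit 0) (nat_lit 7030528944) (nat_lit 228) (nat_lit 145681841719) (nat_lit 76) (nat_lit 90826477470) (nat_lit 31) (nat_lit 5) (nat_lit 34) (nat_lit 5) (nat_lit 32) (nat_lit 5) (nat_lit 323) (nat_lit 298) (nat_lit 159)) (XT.lf (nat_lit 0) (nat_lit 29647025143) (nat_lit 152) (nat_lit 45033842746) (nat_lit 228) (nat_lit 182500698548) (nat_lit 29) (nat_lit 5) (nat_lit 31) (nat_lit 5) (nat_lit 32)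 (nat_lit 5) (nat_lit 324) (nat_lit 298) (nat_lit 158)))) (XT.nd (nat_lit 78) (nat_lit 304) (nat_lit 0) (XT.lf (nat_lit 0) (nat_lit 151434682801) (nat_lit 228) (nat_lit 48739146181) (nat_lit 76) (nat_lit 71557301164) (nat_lit 29) (nat_lit 5) (nat_lit 32) (nat_lit 5) (nat_lit 30) (nat_lit 5) (nat_lit 325) (nat_lit 298) (nat_lit 157)) (XT.nd (nat_lit 78) (nat_lit 152) (nat_lit 0) (XT.lf (nat_lit 0) (nat_lit 148348009392) (nat_lit 152) (nat_lit 89055914907) (nat_lit 228) (nat_lit 49886978938) (nat_lit 27) (nat_lit 5) (nat_lit 29) (nat_lit 5) (nat_lit 30) (nat_lit 5) (nat_lit 326) (nat_lit 298) (nat_lit 156)) (XT.lf (nat_lit 0) (nat_lit 27643237756) (nat_lit 152) (nat_lit 244104375413) (nat_lit 76) (nat_lit 32211171379) (nat_lit 25) (nat_lit 5) (nat_lit 27) (nat_lit 5) (nat_lit 26) (nat_lit 5) (nat_lit 327) (nat_lit 298) (nat_lit 155))))))))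
noncomputable def xc110 : XT := (XT.nd (nat_lit 38766) (nat_lit 0) (nat_lit 1520) (XT.nd (nat_lit 780) (nat_lit 228) (nat_lit 0) (XT.nd (nat_lit 390) (nat_lit 380) (nat_lit 0) (XT.nd (nat_lit 156) (nat_lit 304) (nat_lit 0) (XT.nd (nat_lit 78) (nat_lit 152) (nat_lit 0) (XT.lf (nat_lit 0) (nat_lit 113612725635) (nat_lit 152) (nat_lit 44705043706) (nat_lit 76) (nat_lit 163402203819) (nat_lit 25) (nat_lit 5) (nat_lit 27) (nat_lit 5) (nat_lit 26) (nat_lit 5) (nat_lit 328) (nat_lit 298) (nat_lit 154)) (XT.lf (nat_lit 0) (nat_lit 176288037472) (nat_lit 152) (nat_lit 32923776462) (nat_lit 228) (nat_lit 131552641126) (nat_lit 23) (nat_lit 5) (nat_lit 25) (nat_lit 5) (nat_lit 26) (nat_lit 5) (nat_lit 329) (nat_lit 298) (nat_lit 153))) (XT.nd (nat_lit 78) (nat_lit 228) (nat_lit 0) (XT.lf (nat_lit 0) (nat_lit 55423703502) (nat_lit 76) (nat_lit 260291986782) (nat_lit 152) (nat_lit 45453962425) (nat_lit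 22) (nat_lit 5) (nat_lit 23) (nat_lit 5) (nat_lit 24) (nat_lit 4) (nat_lit 330) (nat_lit 298) (nat_lit 152)) (XT.nd (nat_lit 78) (nat_lit 152) (nat_lit 0) (XT.lf (nat_lit 0) (nat_lit 49478179448) (nat_lit 152) (nat_lit 85619511534) (nat_lit 76) (nat_lit 247899124082) (nat_lit 21) (nat_lit 5) (nat_lit 23) (nat_lit 5) (nat_lit 22) (nat_lit 5) (nat_lit 331) (nat_lit 298) (nat_lit 151)) (XT.lf (nat_lit 0) (nat_lit 152928893689) (nat_lit 228) (nat_lit 250109648779) (nat_lit 76) (nat_lit 3368526473) (nat_lit 19) (nat_lit 5) (nat_lit 22) (nat_lit 5) (nat_lit 20) (nat_lit 4) (nat_lit 332) (nat_lit 298) (nat_lit 150))))) (XT.nd (nat_lit 156) (nat_lit 304) (nat_lit 0) (XT.nd (nat_lit 78) (nat_lit 76) (nat_lit 0) (XT.lf (nat_lit 0) (nat_lit 268449289425) (nat_lit 228) (nat_lit 13293309514) (nat_lit 76) (nat_lit 149757863158) (nat_lit 19) (nat_lit 5) (nat_lit 22) (nat_lit 5) (nat_lit 20) (nat_lit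 4) (nat_lit 333) (nat_lit 298) (nat_lit 149)) (XT.lf (nat_lit 0) (nat_lit 250485008396) (nat_lit 76) (nat_lit 146636844416) (nat_lit 152) (nat_lit 61283947270) (nat_lit 18) (nat_lit 5) (nat_lit 19) (nat_lit 5) (nat_lit 20) (nat_lit 4) (nat_lit 334) (nat_lit 298) (nat_lit 148))) (XT.nd (nat_lit 78) (nat_lit 76) (nat_lit 0) (XT.lf (nat_lit 0) (nat_lit 48089246403) (nat_lit 228) (nat_lit 438193420614) (nat_lit 76) (nat_lit 1091895737) (nat_lit 15) (nat_lit 5) (nat_lit 18) (nat_lit 5) (nat_lit 16) (nat_lit 4) (nat_lit 335) (nat_lit 298) (nat_lit 147)) (XT.nd (nat_lit 78) (nat_lit 76) (nat_lit 0) (XT.lf (nat_lit 0) (nat_lit 170247473572) (nat_lit 228) (nat_lit 187769411759) (nat_lit 76) (nat_lit 160284595058) (nat_lit 15) (nat_lit 5) (nat_lit 18) (nat_lit 5) (nat_lit 16) (nat_lit 4) (nat_lit 336) (nat_lit 298) (nat_lit 146)) (XT.lf (nat_lit 0) (nat_lit 85422196937) (nat_lit 76) (nat_lit 218089637174)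 (nat_lit 152) (nat_lit 248124043696) (nat_lit 14) (nat_lit 5) (nat_lit 15) (nat_lit 5) (nat_lit 16) (nat_lit 4) (nat_lit 337) (nat_lit 298) (nat_lit 145)))))) (XT.nd (nat_lit 37596) (nat_lit 0) (nat_lit 6004) (XT.nd (nat_lit 156) (nat_lit 152) (nat_lit 0) (XT.nd (nat_lit 78) (nat_lit 76) (nat_lit 0) (XT.lf (nat_lit 0) (nat_lit 387173970660) (nat_lit 76) (nat_lit 63533999870) (nat_lit 152) (nat_lit 136765525259) (nat_lit 14) (nat_lit 5) (nat_lit 15) (nat_lit 5) (nat_lit 16) (nat_lit 4) (nat_lit 338) (nat_lit 298) (nat_lit 144)) (XT.lf (nat_lit 0) (nat_lit 88092806579) (nat_lit 76) (nat_lit 524576330696) (nat_lit 76) (nat_lit 13359519076) (nat_lit 13) (nat_lit 4) (nat_lit 14) (nat_lit 5) (nat_lit 14) (nat_lit 4) (nat_lit 339) (nat_lit 298) (nat_lit 143))) (XT.nd (nat_lit 78) (nat_lit 76) (nat_lit 0) (XT.lf (nat_lit 0) (nat_lit 120698220597) (nat_lit 152) (nat_lit 263785709194) (nat_lit 76)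 (nat_lit 282859816064) (nat_lit 12) (nat_lit 5) (nat_lit 14) (nat_lit 5) (nat_lit 13) (nat_lit 4) (nat_lit 340) (nat_lit 298) (nat_lit 142)) (XT.nd (nat_lit 78) (nat_lit 0) (nat_lit 0) (XT.lf (nat_lit 0) (nat_lit 33131287153) (nat_lit 76) (nat_lit 232404605465) (nat_lit 152) (nat_lit 446391031286) (nat_lit 11) (nat_lit 5) (nat_lit 12) (nat_lit 5) (nat_lit 13) (nat_lit 4) (nat_lit 341) (nat_lit 298) (nat_lit 141)) (XT.lf (nat_lit 0) (nat_lit 363221061051) (nat_lit 76) (nat_lit 63334337938) (nat_lit 152) (nat_lit 333291616264) (nat_lit 11) (nat_lit 5) (nat_lit 12) (nat_lit 5) (nat_lit 13) (nat_lit 4) (nat_lit 342) (nat_lit 298) (nat_lit 140))))) (XT.nd (nat_lit 156) (nat_lit 0) (nat_lit 76) (XT.nd (nat_lit 78) (nat_lit 0) (nat_lit 0) (XT.lf (nat_lit 0) (nat_lit 17136844157) (nat_lit 0) (nat_lit 17136844157) (nat_lit 684) (nat_lit 6845858379) (nat_lit 90) (nat_lit 5) (nat_lit 90) (nat_lit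 3) (nat_lit 99) (nat_lit 3) (nat_lit 299) (nat_lit 299) (nat_lit 182)) (XT.lf (nat_lit 76) (nat_lit 11618897749) (nat_lit 0) (nat_lit 60269983456) (nat_lit 760) (nat_lit 13609766756) (nat_lit 91) (nat_lit 5) (nat_lit 90) (nat_lit 5) (nat_lit 100) (nat_lit 5) (nat_lit 300) (nat_lit 299) (nat_lit 181))) (XT.nd (nat_lit 78) (nat_lit 0) (nat_lit 0) (XT.lf (nat_lit 0) (nat_lit 76903284998) (nat_lit 684) (nat_lit 11866790038) (nat_lit 760) (nat_lit 178615793) (nat_lit 91) (nat_lit 5) (nat_lit 100) (nat_lit 5) (nat_lit 101) (nat_lit 5) (nat_lit 301) (nat_lit 299) (nat_lit 180)) (XT.nd (nat_lit 78) (nat_lit 0) (nat_lit 76) (XT.lf (nat_lit 76) (nat_lit 55878569098) (nat_lit 0) (nat_lit 28327645058) (nat_lit 760) (nat_lit 8374156976) (nat_lit 92) (nat_lit 5) (nat_lit 91) (nat_lit 5) (nat_lit 101) (nat_lit 5) (nat_lit 302) (nat_lit 299) (nat_lit 179)) (XT.lf (nat_lit 76) (nat_lit 33464997388) (nat_lit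 0) (nat_lit 59936640144) (nat_lit 760) (nat_lit 3035537792) (nat_lit 93) (nat_lit 5) (nat_lit 92) (nat_lit 5) (nat_lit 102) (nat_lit 5) (nat_lit 303) (nat_lit 299) (nat_lit 178))))))) (XT.nd (nat_lit 780) (nat_lit 1824) (nat_lit 0) (XT.nd (nat_lit 390) (nat_lit 1292) (nat_lit 0) (XT.nd (nat_lit 156) (nat_lit 836) (nat_lit 0) (XT.nd (nat_lit 78) (nat_lit 0) (nat_lit 0) (XT.lf (nat_lit 0) (nat_lit 4012810897) (nat_lit 760) (nat_lit 90861574249) (nat_lit 836) (nat_lit 5657508471) (nat_lit 83) (nat_lit 5) (nat_lit 93) (nat_lit 5) (nat_lit 94) (nat_lit 5) (nat_lit 304) (nat_lit 299) (nat_lit 177)) (XT.lf (nat_lit 0) (nat_lit 13644571712) (nat_lit 760) (nat_lit 15607116440) (nat_lit 836) (nat_lit 75593720349) (nat_lit 83) (nat_lit 5) (nat_lit 93) (nat_lit 5) (nat_lit 94) (nat_lit 5) (nat_lit 305) (nat_lit 299) (nat_lit 176))) (XT.nd (nat_lit 78) (nat_lit 912) (nat_lit 0) (XT.lf (nat_lit 0) (nat_lit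 25772194645) (nat_lit 760) (nat_lit 42280173235) (nat_lit 76) (nat_lit 41365372494) (nat_lit 84) (nat_lit 5) (nat_lit 94) (nat_lit 5) (nat_lit 85) (nat_lit 5) (nat_lit 306) (nat_lit 299) (nat_lit 175)) (XT.nd (nat_lit 78) (nat_lit 380) (nat_lit 0) (XT.lf (nat_lit 0) (nat_lit 40371026531) (nat_lit 608) (nat_lit 70720547872) (nat_lit 76) (nat_lit 3189236160) (nat_lit 77) (nat_lit 5) (nat_lit 85) (nat_lit 5) (nat_lit 78) (nat_lit 5) (nat_lit 307) (nat_lit 299) (nat_lit 174)) (XT.lf (nat_lit 0) (nat_lit 17687330653) (nat_lit 380) (nat_lit 40621754723) (nat_lit 456) (nat_lit 61115276567) (nat_lit 72) (nat_lit 5) (nat_lit 77) (nat_lit 5) (nat_lit 78) (nat_lit 5) (nat_lit 308) (nat_lit 299) (nat_lit 173))))) (XT.nd (nat_lit 156) (nat_lit 988) (nat_lit 0) (XT.nd (nat_lit 78) (nat_lit 304) (nat_lit 0) (XT.lf (nat_lit 0) (nat_lit 79487491010) (nat_lit 456) (nat_lit 9799642890) (nat_lit 76) (nat_lit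 35601999903) (nat_lit 72) (nat_lit 5) (nat_lit 78) (nat_lit 5) (nat_lit 73) (nat_lit 5) (nat_lit 309) (nat_lit 299) (nat_lit 172)) (XT.lf (nat_lit 0) (nat_lit 91743340790) (nat_lit 304) (nat_lit 12733387550) (nat_lit 380) (nat_lit 26208532478) (nat_lit 68) (nat_lit 5) (nat_lit 72) (nat_lit 5) (nat_lit 73) (nat_lit 5) (nat_lit 310) (nat_lit 299) (nat_lit 171))) (XT.nd (nat_lit 78) (nat_lit 684) (nat_lit 0) (XT.lf (nat_lit 0) (nat_lit 65834651102) (nat_lit 304) (nat_lit 67923126930) (nat_lit 380) (nat_lit 3072667560) (nat_lit 64) (nat_lit 5) (nat_lit 68) (nat_lit 5) (nat_lit 69) (nat_lit 5) (nat_lit 311) (nat_lit 299) (nat_lit 170)) (XT.nd (nat_lit 78) (nat_lit 304) (nat_lit 0) (XT.lf (nat_lit 0) (nat_lit 22935308248) (nat_lit 380) (nat_lit 106023159125) (nat_lit 76) (nat_lit 14405540458) (nat_lit 59) (nat_lit 5) (nat_lit 64) (nat_lit 5) (nat_lit 60) (nat_lit 5) (nat_lit 312) (nat_lit 299)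 (nat_lit 169)) (XT.lf (nat_lit 0) (nat_lit 5478402898) (nat_lit 304) (nat_lit 47926466444) (nat_lit 380) (nat_lit 96888438233) (nat_lit 55) (nat_lit 5) (nat_lit 59) (nat_lit 5) (nat_lit 60) (nat_lit 5) (nat_lit 313) (nat_lit 299) (nat_lit 168)))))) (XT.nd (nat_lit 390) (nat_lit 1064) (nat_lit 0) (XT.nd (nat_lit 156) (nat_lit 532) (nat_lit 0) (XT.nd (nat_lit 78) (nat_lit 228) (nat_lit 0) (XT.lf (nat_lit 0) (nat_lit 88806585946) (nat_lit 380) (nat_lit 28647606794) (nat_lit 76) (nat_lit 40198029986) (nat_lit 55) (nat_lit 5) (nat_lit 60) (nat_lit 5) (nat_lit 56) (nat_lit 5) (nat_lit 314) (nat_lit 299) (nat_lit 167)) (XT.lf (nat_lit 0) (nat_lit 99178554796) (nat_lit 228) (nat_lit 30217892278) (nat_lit 304) (nat_lit 36085604542) (nat_lit 52) (nat_lit 5) (nat_lit 55) (nat_lit 5) (nat_lit 56) (nat_lit 5) (nat_lit 315) (nat_lit 299) (nat_lit 166))) (XT.nd (nat_lit 78) (nat_lit 228) (nat_lit 0)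 (XT.lf (nat_lit 0) (nat_lit 1886543238) (nat_lit 304) (nat_lit 108415861211) (nat_lit 76) (nat_lit 63507975523) (nat_lit 48) (nat_lit 5) (nat_lit 52) (nat_lit 5) (nat_lit 49) (nat_lit 5) (nat_lit 316) (nat_lit 299) (nat_lit 165)) (XT.nd (nat_lit 78) (nat_lit 0) (nat_lit 0) (XT.lf (nat_lit 0) (nat_lit 26974541076) (nat_lit 228) (nat_lit 16778609129) (nat_lit 304) (nat_lit 138916199193) (nat_lit 45) (nat_lit 5) (nat_lit 48) (nat_lit 5) (nat_lit 49) (nat_lit 5) (nat_lit 317) (nat_lit 299) (nat_lit 164)) (XT.lf (nat_lit 0) (nat_lit 92203100421) (nat_lit 304) (nat_lit 16421617701) (nat_lit 76) (nat_lit 83450618191) (nat_lit 45) (nat_lit 5) (nat_lit 49) (nat_lit 5) (nat_lit 46) (nat_lit 5) (nat_lit 318) (nat_lit 299) (nat_lit 163))))) (XT.nd (nat_lit 234) (nat_lit 380) (nat_lit 0) (XT.nd (nat_lit 78) (nat_lit 456) (nat_lit 0) (XT.lf (nat_lit 0) (nat_lit 138130915327) (nat_lit 228) (nat_lit 8837196910)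 (nat_lit 304) (nat_lit 55143737286) (nat_lit 42) (nat_lit 5) (nat_lit 45) (nat_lit 5) (nat_lit 46) (nat_lit 5) (nat_lit 319) (nat_lit 299) (nat_lit 162)) (XT.nd (nat_lit 78) (nat_lit 304) (nat_lit 0) (XT.lf (nat_lit 0) (nat_lit 94160861962) (nat_lit 152) (nat_lit 115258506570) (nat_lit 228) (nat_lit 3366663657) (nat_lit 40) (nat_lit 5) (nat_lit 42) (nat_lit 5) (nat_lit 43) (nat_lit 5) (nat_lit 320) (nat_lit 299) (nat_lit 161)) (XT.lf (nat_lit 0) (nat_lit 43380358528) (nat_lit 228) (nat_lit 9448858658) (nat_lit 304) (nat_lit 171345975539) (nat_lit 36) (nat_lit 5) (nat_lit 39) (nat_lit 5) (nat_lit 40) (nat_lit 5) (nat_lit 321) (nat_lit 299) (nat_lit 160)))) (XT.nd (nat_lit 78) (nat_lit 380) (nat_lit 0) (XT.lf (nat_lit 0) (nat_lit 117140857237) (nat_lit 304) (nat_lit 15517650739) (nat_lit 76) (nat_lit 103627317027) (nat_lit 36) (nat_lit 5) (nat_lit 40) (nat_lit 5) (nat_lit 37) (nat_lit 5)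 (nat_lit 322) (nat_lit 299) (nat_lit 159)) (XT.nd (nat_lit 78) (nat_lit 228) (nat_lit 0) (XT.lf (nat_lit 0) (nat_lit 168205436808) (nat_lit 152) (nat_lit 21177098708) (nat_lit 228) (nat_lit 59843517430) (nat_lit 34) (nat_lit 5) (nat_lit 36) (nat_lit 5) (nat_lit 37) (nat_lit 5) (nat_lit 323) (nat_lit 299) (nat_lit 158)) (XT.lf (nat_lit 0) (nat_lit 7600293532) (nat_lit 228) (nat_lit 157324841839) (nat_lit 76) (nat_lit 98096447028) (nat_lit 31) (nat_lit 5) (nat_lit 34) (nat_lit 5) (nat_lit 32) (nat_lit 5) (nat_lit 324) (nat_lit 299) (nat_lit 157))))))))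
noncomputable def xc111 : XT := (XT.nd (nat_lit 38922) (nat_lit 0) (nat_lit 1900) (XT.nd (nat_lit 780) (nat_lit 608) (nat_lit 0) (XT.nd (nat_lit 390) (nat_lit 456) (nat_lit 0) (XT.nd (nat_lit 156) (nat_lit 304) (nat_lit 0) (XT.nd (nat_lit 78) (nat_lit 0) (nat_lit 0) (XT.lf (nat_lit 0) (nat_lit 32029832544) (nat_lit 152) (nat_lit 48632457107) (nat_lit 228) (nat_lit 197093447567) (nat_lit 29) (nat_lit 5) (nat_lit 31) (nat_lit 5) (nat_lit 32) (nat_lit 5) (nat_lit 325) (nat_lit 299) (nat_lit 156)) (XT.lf (nat_lit 0) (nat_lit 163555953939) (nat_lit 228) (nat_lit 52627781561) (nat_lit 76) (nat_lit 77285553826) (nat_lit 29) (nat_lit 5) (nat_lit 32) (nat_lit 5) (nat_lit 30) (nat_lit 5) (nat_lit 326) (nat_lit 299) (nat_lit 155))) (XT.nd (nat_lit 78) (nat_lit 152) (nat_lit 0) (XT.lf (nat_lit 0) (nat_lit 160225890301) (nat_lit 152) (nat_lit 96176519987) (nat_lit 228) (nat_lit 53871450674) (nat_lit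 27) (nat_lit 5) (nat_lit 29) (nat_lit 5) (nat_lit 30) (nat_lit 5) (nat_lit 327) (nat_lit 299) (nat_lit 154)) (XT.nd (nat_lit 78) (nat_lit 0) (nat_lit 0) (XT.lf (nat_lit 0) (nat_lit 29860723730) (nat_lit 152) (nat_lit 263622674017) (nat_lit 76) (nat_lit 34791782989) (nat_lit 25) (nat_lit 5) (nat_lit 27) (nat_lit 5) (nat_lit 26) (nat_lit 5) (nat_lit 328) (nat_lit 299) (nat_lit 153)) (XT.lf (nat_lit 0) (nat_lit 122707324198) (nat_lit 152) (nat_lit 48272140323) (nat_lit 76) (nat_lit 176477822624) (nat_lit 25) (nat_lit 5) (nat_lit 27) (nat_lit 5) (nat_lit 26) (nat_lit 5) (nat_lit 329) (nat_lit 299) (nat_lit 152))))) (XT.nd (nat_lit 156) (nat_lit 228) (nat_lit 0) (XT.nd (nat_lit 78) (nat_lit 76) (nat_lit 0) (XT.lf (nat_lit 0) (nat_lit 190399982884) (nat_lit 152) (nat_lit 35554082297) (nat_lit 228) (nat_lit 142071276493) (nat_lit 23) (nat_lit 5) (nat_lit 25) (nat_lit 5) (nat_lit 26) (nat_lit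 5) (nat_lit 330) (nat_lit 299) (nat_lit 151)) (XT.lf (nat_lit 0) (nat_lit 59866319666) (nat_lit 76) (nat_lit 281111727057) (nat_lit 152) (nat_lit 49084918990) (nat_lit 22) (nat_lit 5) (nat_lit 23) (nat_lit 5) (nat_lit 24) (nat_lit 4) (nat_lit 331) (nat_lit 299) (nat_lit 150))) (XT.nd (nat_lit 78) (nat_lit 152) (nat_lit 0) (XT.lf (nat_lit 0) (nat_lit 53441238305) (nat_lit 152) (nat_lit 92460835970) (nat_lit 76) (nat_lit 267734242107) (nat_lit 21) (nat_lit 5) (nat_lit 23) (nat_lit 5) (nat_lit 22) (nat_lit 5) (nat_lit 332) (nat_lit 299) (nat_lit 149)) (XT.nd (nat_lit 78) (nat_lit 0) (nat_lit 0) (XT.lf (nat_lit 0) (nat_lit 165167828433) (nat_lit 228) (nat_lit 270110361801) (nat_lit 76) (nat_lit 3641209669) (nat_lit 19) (nat_lit 5) (nat_lit 22) (nat_lit 5) (nat_lit 20) (nat_lit 4) (nat_lit 333) (nat_lit 299) (nat_lit 148)) (XT.lf (nat_lit 0) (nat_lit 289929513365) (nat_lit 228) (nat_lit 14349312350)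 (nat_lit 76) (nat_lit 161741456172) (nat_lit 19) (nat_lit 5) (nat_lit 22) (nat_lit 5) (nat_lit 20) (nat_lit 4) (nat_lit 334) (nat_lit 299) (nat_lit 147)))))) (XT.nd (nat_lit 390) (nat_lit 228) (nat_lit 0) (XT.nd (nat_lit 156) (nat_lit 76) (nat_lit 0) (XT.nd (nat_lit 78) (nat_lit 228) (nat_lit 0) (XT.lf (nat_lit 0) (nat_lit 270530946707) (nat_lit 76) (nat_lit 158364729459) (nat_lit 152) (nat_lit 66182381259) (nat_lit 18) (nat_lit 5) (nat_lit 19) (nat_lit 5) (nat_lit 20) (nat_lit 4) (nat_lit 335) (nat_lit 299) (nat_lit 146)) (XT.lf (nat_lit 0) (nat_lit 51940379597) (nat_lit 228) (nat_lit 473241780266) (nat_lit 76) (nat_lit 1182165674) (nat_lit 15) (nat_lit 5) (nat_lit 18) (nat_lit 5) (nat_lit 16) (nat_lit 4) (nat_lit 336) (nat_lit 299) (nat_lit 145))) (XT.nd (nat_lit 78) (nat_lit 76) (nat_lit 0) (XT.lf (nat_lit 0) (nat_lit 183870969127) (nat_lit 228) (nat_lit 202784377665) (nat_lit 76) (nat_lit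 173110064772) (nat_lit 15) (nat_lit 5) (nat_lit 18) (nat_lit 5) (nat_lit 16) (nat_lit 4) (nat_lit 337) (nat_lit 299) (nat_lit 144)) (XT.nd (nat_lit 78) (nat_lit 0) (nat_lit 0) (XT.lf (nat_lit 0) (nat_lit 92262273462) (nat_lit 76) (nat_lit 235534029519) (nat_lit 152) (nat_lit 267970266747) (nat_lit 14) (nat_lit 5) (nat_lit 15) (nat_lit 5) (nat_lit 16) (nat_lit 4) (nat_lit 338) (nat_lit 299) (nat_lit 143)) (XT.lf (nat_lit 0) (nat_lit 418153722359) (nat_lit 76) (nat_lit 68614147054) (nat_lit 152) (nat_lit 147703340942) (nat_lit 14) (nat_lit 5) (nat_lit 15) (nat_lit 5) (nat_lit 16) (nat_lit 4) (nat_lit 339) (nat_lit 299) (nat_lit 142))))) (XT.nd (nat_lit 37518) (nat_lit 0) (nat_lit 6004) (XT.nd (nat_lit 78) (nat_lit 152) (nat_lit 0) (XT.lf (nat_lit 0) (nat_lit 95145931110) (nat_lit 76) (nat_lit 566539883001) (nat_lit 76) (nat_lit 14424975571) (nat_lit 13) (nat_lit 4) (nat_lit 14) (nat_lit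 5) (nat_lit 14) (nat_lit 4) (nat_lit 340) (nat_lit 299) (nat_lit 141)) (XT.nd (nat_lit 78) (nat_lit 76) (nat_lit 0) (XT.lf (nat_lit 0) (nat_lit 130357040512) (nat_lit 152) (nat_lit 284883188541) (nat_lit 76) (nat_lit 305490866696) (nat_lit 12) (nat_lit 5) (nat_lit 14) (nat_lit 5) (nat_lit 13) (nat_lit 4) (nat_lit 341) (nat_lit 299) (nat_lit 140)) (XT.lf (nat_lit 0) (nat_lit 35786933820) (nat_lit 76) (nat_lit 250994653356) (nat_lit 152) (nat_lit 482099347946) (nat_lit 11) (nat_lit 5) (nat_lit 12) (nat_lit 5) (nat_lit 13) (nat_lit 4) (nat_lit 342) (nat_lit 299) (nat_lit 139)))) (XT.nd (nat_lit 78) (nat_lit 0) (nat_lit 0) (XT.lf (nat_lit 0) (nat_lit 18514729657) (nat_lit 0) (nat_lit 18514729657) (nat_lit 684) (nat_lit 7378929322) (nat_lit 90) (nat_lit 5) (nat_lit 90) (nat_lit 3) (nat_lit 99) (nat_lit 3) (nat_lit 300) (nat_lit 300) (nat_lit 180)) (XT.nd (nat_lit 78) (nat_lit 0) (nat_lit 76)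 (XT.lf (nat_lit 76) (nat_lit 12563270547) (nat_lit 0) (nat_lit 65102448758) (nat_lit 760) (nat_lit 14671482271) (nat_lit 91) (nat_lit 5) (nat_lit 90) (nat_lit 5) (nat_lit 100) (nat_lit 5) (nat_lit 301) (nat_lit 300) (nat_lit 179)) (XT.lf (nat_lit 0) (nat_lit 83079212563) (nat_lit 684) (nat_lit 12800976890) (nat_lit 760) (nat_lit 183165403) (nat_lit 91) (nat_lit 5) (nat_lit 100) (nat_lit 5) (nat_lit 101) (nat_lit 5) (nat_lit 302) (nat_lit 300) (nat_lit 178))))))) (XT.nd (nat_lit 780) (nat_lit 2128) (nat_lit 0) (XT.nd (nat_lit 390) (nat_lit 1444) (nat_lit 0) (XT.nd (nat_lit 156) (nat_lit 608) (nat_lit 0) (XT.nd (nat_lit 78) (nat_lit 0) (nat_lit 76) (XT.lf (nat_lit 76) (nat_lit 60363352300) (nat_lit 0) (nat_lit 30601497157) (nat_lit 760) (nat_lit 9020800011) (nat_lit 92) (nat_lit 5) (nat_lit 91) (nat_lit 5) (nat_lit 101) (nat_lit 5) (nat_lit 303) (nat_lit 300) (nat_lit 177)) (XT.lf (nat_lit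 76) (nat_lit 36157280226) (nat_lit 0) (nat_lit 64737111649) (nat_lit 760) (nat_lit 3256685155) (nat_lit 93) (nat_lit 5) (nat_lit 92) (nat_lit 5) (nat_lit 102) (nat_lit 5) (nat_lit 304) (nat_lit 300) (nat_lit 176))) (XT.nd (nat_lit 78) (nat_lit 0) (nat_lit 0) (XT.lf (nat_lit 0) (nat_lit 4353446515) (nat_lit 760) (nat_lit 98114279463) (nat_lit 836) (nat_lit 6105702300) (nat_lit 83) (nat_lit 5) (nat_lit 93) (nat_lit 5) (nat_lit 94) (nat_lit 5) (nat_lit 305) (nat_lit 300) (nat_lit 175)) (XT.nd (nat_lit 78) (nat_lit 0) (nat_lit 76) (XT.lf (nat_lit 0) (nat_lit 14754295548) (nat_lit 760) (nat_lit 16840666565) (nat_lit 836) (nat_lit 81637137562) (nat_lit 83) (nat_lit 5) (nat_lit 93) (nat_lit 5) (nat_lit 94) (nat_lit 5) (nat_lit 306) (nat_lit 300) (nat_lit 174)) (XT.lf (nat_lit 0) (nat_lit 27850965872) (nat_lit 760) (nat_lit 45647295938) (nat_lit 76) (nat_lit 44672016898) (nat_lit 84) (nat_lit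 5) (nat_lit 94) (nat_lit 5) (nat_lit 85) (nat_lit 5) (nat_lit 307) (nat_lit 300) (nat_lit 173))))) (XT.nd (nat_lit 156) (nat_lit 608) (nat_lit 0) (XT.nd (nat_lit 78) (nat_lit 380) (nat_lit 0) (XT.lf (nat_lit 0) (nat_lit 43616652837) (nat_lit 608) (nat_lit 76362717121) (nat_lit 76) (nat_lit 3443079433) (nat_lit 77) (nat_lit 5) (nat_lit 85) (nat_lit 5) (nat_lit 78) (nat_lit 5) (nat_lit 308) (nat_lit 300) (nat_lit 172)) (XT.lf (nat_lit 0) (nat_lit 19117119179) (nat_lit 380) (nat_lit 43871687260) (nat_lit 456) (nat_lit 65988728071) (nat_lit 72) (nat_lit 5) (nat_lit 77) (nat_lit 5) (nat_lit 78) (nat_lit 5) (nat_lit 309) (nat_lit 300) (nat_lit 171))) (XT.nd (nat_lit 78) (nat_lit 608) (nat_lit 0) (XT.lf (nat_lit 0) (nat_lit 85860371063) (nat_lit 456) (nat_lit 10569187043) (nat_lit 76) (nat_lit 38449987665) (nat_lit 72) (nat_lit 5) (nat_lit 78) (nat_lit 5) (nat_lit 73) (nat_lit 5) (nat_lit 310)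 (nat_lit 300) (nat_lit 170)) (XT.nd (nat_lit 78) (nat_lit 304) (nat_lit 0) (XT.lf (nat_lit 0) (nat_lit 99096608340) (nat_lit 304) (nat_lit 13751326296) (nat_lit 380) (nat_lit 28291470778) (nat_lit 68) (nat_lit 5) (nat_lit 72) (nat_lit 5) (nat_lit 73) (nat_lit 5) (nat_lit 311) (nat_lit 300) (nat_lit 169)) (XT.lf (nat_lit 0) (nat_lit 71115259679) (nat_lit 304) (nat_lit 73355467235) (nat_lit 380) (nat_lit 3305516819) (nat_lit 64) (nat_lit 5) (nat_lit 68) (nat_lit 5) (nat_lit 69) (nat_lit 5) (nat_lit 312) (nat_lit 300) (nat_lit 168)))))) (XT.nd (nat_lit 390) (nat_lit 912) (nat_lit 0) (XT.nd (nat_lit 156) (nat_lit 532) (nat_lit 0) (XT.nd (nat_lit 78) (nat_lit 304) (nat_lit 0) (XT.lf (nat_lit 0) (nat_lit 24781994077) (nat_lit 380) (nat_lit 114490778573) (nat_lit 76) (nat_lit 15559744075) (nat_lit 59) (nat_lit 5) (nat_lit 64) (nat_lit 5) (nat_lit 60) (nat_lit 5) (nat_lit 313) (nat_lit 300) (nat_lit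 167)) (XT.lf (nat_lit 0) (nat_lit 5930289851) (nat_lit 304) (nat_lit 51758164168) (nat_lit 380) (nat_lit 104627741117) (nat_lit 55) (nat_lit 5) (nat_lit 59) (nat_lit 5) (nat_lit 60) (nat_lit 5) (nat_lit 314) (nat_lit 300) (nat_lit 166))) (XT.nd (nat_lit 78) (nat_lit 532) (nat_lit 0) (XT.lf (nat_lit 0) (nat_lit 95921513660) (nat_lit 380) (nat_lit 30926309791) (nat_lit 76) (nat_lit 43416041043) (nat_lit 55) (nat_lit 5) (nat_lit 60) (nat_lit 5) (nat_lit 56) (nat_lit 5) (nat_lit 315) (nat_lit 300) (nat_lit 165)) (XT.nd (nat_lit 78) (nat_lit 304) (nat_lit 0) (XT.lf (nat_lit 0) (nat_lit 107125375175) (nat_lit 228) (nat_lit 32632613792) (nat_lit 304) (nat_lit 38962120647) (nat_lit 52) (nat_lit 5) (nat_lit 55) (nat_lit 5) (nat_lit 56) (nat_lit 5) (nat_lit 316) (nat_lit 300) (nat_lit 164)) (XT.lf (nat_lit 0) (nat_lit 2046964544) (nat_lit 304) (nat_lit 117076368134) (nat_lit 76) (nat_lit 68591389728)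 (nat_lit 48) (nat_lit 5) (nat_lit 52) (nat_lit 5) (nat_lit 49) (nat_lit 5) (nat_lit 317) (nat_lit 300) (nat_lit 163))))) (XT.nd (nat_lit 234) (nat_lit 456) (nat_lit 0) (XT.nd (nat_lit 78) (nat_lit 228) (nat_lit 0) (XT.lf (nat_lit 0) (nat_lit 29144711716) (nat_lit 228) (nat_lit 18117675399) (nat_lit 304) (nat_lit 150020048886) (nat_lit 45) (nat_lit 5) (nat_lit 48) (nat_lit 5) (nat_lit 49) (nat_lit 5) (nat_lit 318) (nat_lit 300) (nat_lit 162)) (XT.nd (nat_lit 78) (nat_lit 228) (nat_lit 0) (XT.lf (nat_lit 0) (nat_lit 99587714386) (nat_lit 304) (nat_lit 17723663422) (nat_lit 76) (nat_lit 90129555908) (nat_lit 45) (nat_lit 5) (nat_lit 49) (nat_lit 5) (nat_lit 46) (nat_lit 5) (nat_lit 319) (nat_lit 300) (nat_lit 161)) (XT.lf (nat_lit 0) (nat_lit 149192564489) (nat_lit 228) (nat_lit 9540917447) (nat_lit 304) (nat_lit 59546909137) (nat_lit 42) (nat_lit 5) (nat_lit 45) (nat_lit 5) (nat_lit 46)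 (nat_lit 5) (nat_lit 320) (nat_lit 300) (nat_lit 160)))) (XT.nd (nat_lit 78) (nat_lit 304) (nat_lit 0) (XT.lf (nat_lit 0) (nat_lit 101704761298) (nat_lit 152) (nat_lit 124475709989) (nat_lit 228) (nat_lit 3628056204) (nat_lit 40) (nat_lit 5) (nat_lit 42) (nat_lit 5) (nat_lit 43) (nat_lit 5) (nat_lit 321) (nat_lit 300) (nat_lit 159)) (XT.nd (nat_lit 78) (nat_lit 0) (nat_lit 0) (XT.lf (nat_lit 0) (nat_lit 46861590078) (nat_lit 228) (nat_lit 10201250182) (nat_lit 304) (nat_lit 185045995126) (nat_lit 36) (nat_lit 5) (nat_lit 39) (nat_lit 5) (nat_lit 40) (nat_lit 5) (nat_lit 322) (nat_lit 300) (nat_lit 158)) (XT.lf (nat_lit 0) (nat_lit 126518922678) (nat_lit 304) (nat_lit 16748765842) (nat_lit 76) (nat_lit 111920654795) (nat_lit 36) (nat_lit 5) (nat_lit 40) (nat_lit 5) (nat_lit 37) (nat_lit 5) (nat_lit 323) (nat_lit 300) (nat_lit 157))))))))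
noncomputable def xc112 : XT := (XT.nd (nat_lit 38922) (nat_lit 0) (nat_lit 2128) (XT.nd (nat_lit 780) (nat_lit 684) (nat_lit 0) (XT.nd (nat_lit 390) (nat_lit 456) (nat_lit 0) (XT.nd (nat_lit 156) (nat_lit 304) (nat_lit 0) (XT.nd (nat_lit 78) (nat_lit 228) (nat_lit 0) (XT.lf (nat_lit 0) (nat_lit 181671721215) (nat_lit 152) (nat_lit 22867864311) (nat_lit 228) (nat_lit 64624222033) (nat_lit 34) (nat_lit 5) (nat_lit 36) (nat_lit 5) (nat_lit 37) (nat_lit 5) (nat_lit 324) (nat_lit 300) (nat_lit 156)) (XT.lf (nat_lit 0) (nat_lit 8214594682) (nat_lit 228) (nat_lit 169900929308) (nat_lit 76) (nat_lit 105947464711) (nat_lit 31) (nat_lit 5) (nat_lit 34) (nat_lit 5) (nat_lit 32) (nat_lit 5) (nat_lit 325) (nat_lit 300) (nat_lit 155))) (XT.nd (nat_lit 78) (nat_lit 152) (nat_lit 0) (XT.lf (nat_lit 0) (nat_lit 34601688788) (nat_lit 152) (nat_lit 52519544538) (nat_lit 228) (nat_lit 212854658913) (nat_lit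 29) (nat_lit 5) (nat_lit 31) (nat_lit 5) (nat_lit 32) (nat_lit 5) (nat_lit 326) (nat_lit 300) (nat_lit 154)) (XT.nd (nat_lit 78) (nat_lit 152) (nat_lit 0) (XT.lf (nat_lit 0) (nat_lit 176645999967) (nat_lit 228) (nat_lit 56829005188) (nat_lit 76) (nat_lit 83471543340) (nat_lit 29) (nat_lit 5) (nat_lit 32) (nat_lit 5) (nat_lit 30) (nat_lit 5) (nat_lit 327) (nat_lit 300) (nat_lit 153)) (XT.lf (nat_lit 0) (nat_lit 173052569342) (nat_lit 152) (nat_lit 103867325304) (nat_lit 228) (nat_lit 58175605532) (nat_lit 27) (nat_lit 5) (nat_lit 29) (nat_lit 5) (nat_lit 30) (nat_lit 5) (nat_lit 328) (nat_lit 300) (nat_lit 152))))) (XT.nd (nat_lit 156) (nat_lit 304) (nat_lit 0) (XT.nd (nat_lit 78) (nat_lit 0) (nat_lit 0) (XT.lf (nat_lit 0) (nat_lit 32254748769) (nat_lit 152) (nat_lit 284703870457) (nat_lit 76) (nat_lit 37578313127) (nat_lit 25) (nat_lit 5) (nat_lit 27) (nat_lit 5) (nat_lit 26) (nat_lit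 5) (nat_lit 329) (nat_lit 300) (nat_lit 151)) (XT.lf (nat_lit 0) (nat_lit 132528694524) (nat_lit 152) (nat_lit 52125932400) (nat_lit 76) (nat_lit 190598999822) (nat_lit 25) (nat_lit 5) (nat_lit 27) (nat_lit 5) (nat_lit 26) (nat_lit 5) (nat_lit 330) (nat_lit 300) (nat_lit 150))) (XT.nd (nat_lit 78) (nat_lit 152) (nat_lit 0) (XT.lf (nat_lit 0) (nat_lit 205639613900) (nat_lit 152) (nat_lit 38395325649) (nat_lit 228) (nat_lit 153432198157) (nat_lit 23) (nat_lit 5) (nat_lit 25) (nat_lit 5) (nat_lit 26) (nat_lit 5) (nat_lit 331) (nat_lit 300) (nat_lit 149)) (XT.nd (nat_lit 78) (nat_lit 76) (nat_lit 0) (XT.lf (nat_lit 0) (nat_lit 64663101134) (nat_lit 76) (nat_lit 303597562797) (nat_lit 152) (nat_lit 53007116806) (nat_lit 22) (nat_lit 5) (nat_lit 23) (nat_lit 5) (nat_lit 24) (nat_lit 4) (nat_lit 332) (nat_lit 300) (nat_lit 148)) (XT.lf (nat_lit 0) (nat_lit 57720656456) (nat_lit 152) (nat_lit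 99850641388) (nat_lit 76) (nat_lit 289155714756) (nat_lit 21) (nat_lit 5) (nat_lit 23) (nat_lit 5) (nat_lit 22) (nat_lit 5) (nat_lit 333) (nat_lit 300) (nat_lit 147)))))) (XT.nd (nat_lit 390) (nat_lit 228) (nat_lit 0) (XT.nd (nat_lit 156) (nat_lit 304) (nat_lit 0) (XT.nd (nat_lit 78) (nat_lit 0) (nat_lit 0) (XT.lf (nat_lit 0) (nat_lit 178385218399) (nat_lit 228) (nat_lit 291712281555) (nat_lit 76) (nat_lit 3935250851) (nat_lit 19) (nat_lit 5) (nat_lit 22) (nat_lit 5) (nat_lit 20) (nat_lit 4) (nat_lit 334) (nat_lit 300) (nat_lit 146)) (XT.lf (nat_lit 0) (nat_lit 313127544518) (nat_lit 228) (nat_lit 15490859940) (nat_lit 76) (nat_lit 174683313785) (nat_lit 19) (nat_lit 5) (nat_lit 22) (nat_lit 5) (nat_lit 20) (nat_lit 4) (nat_lit 335) (nat_lit 300) (nat_lit 145))) (XT.nd (nat_lit 78) (nat_lit 228) (nat_lit 0) (XT.lf (nat_lit 0) (nat_lit 292179541819) (nat_lit 76) (nat_lit 171031282207) (nat_lit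 152) (nat_lit 71473300813) (nat_lit 18) (nat_lit 5) (nat_lit 19) (nat_lit 5) (nat_lit 20) (nat_lit 4) (nat_lit 336) (nat_lit 300) (nat_lit 144)) (XT.nd (nat_lit 78) (nat_lit 0) (nat_lit 0) (XT.lf (nat_lit 0) (nat_lit 56099033733) (nat_lit 228) (nat_lit 511095023582) (nat_lit 76) (nat_lit 1279240880) (nat_lit 15) (nat_lit 5) (nat_lit 18) (nat_lit 5) (nat_lit 16) (nat_lit 4) (nat_lit 337) (nat_lit 300) (nat_lit 143)) (XT.lf (nat_lit 0) (nat_lit 198583816812) (nat_lit 228) (nat_lit 219001480558) (nat_lit 76) (nat_lit 186961186577) (nat_lit 15) (nat_lit 5) (nat_lit 18) (nat_lit 5) (nat_lit 16) (nat_lit 4) (nat_lit 338) (nat_lit 300) (nat_lit 142))))) (XT.nd (nat_lit 156) (nat_lit 152) (nat_lit 0) (XT.nd (nat_lit 78) (nat_lit 0) (nat_lit 0) (XT.lf (nat_lit 0) (nat_lit 99648657234) (nat_lit 76) (nat_lit 254374369653) (nat_lit 152) (nat_lit 289404715552) (nat_lit 14) (nat_lit 5) (nat_lit 15)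 (nat_lit 5) (nat_lit 16) (nat_lit 4) (nat_lit 339) (nat_lit 300) (nat_lit 141)) (XT.lf (nat_lit 0) (nat_lit 451611021902) (nat_lit 76) (nat_lit 74101073053) (nat_lit 152) (nat_lit 159516670685) (nat_lit 14) (nat_lit 5) (nat_lit 15) (nat_lit 5) (nat_lit 16) (nat_lit 4) (nat_lit 340) (nat_lit 300) (nat_lit 140))) (XT.nd (nat_lit 78) (nat_lit 76) (nat_lit 0) (XT.lf (nat_lit 0) (nat_lit 102762492434) (nat_lit 76) (nat_lit 611860883868) (nat_lit 76) (nat_lit 15576140086) (nat_lit 13) (nat_lit 4) (nat_lit 14) (nat_lit 5) (nat_lit 14) (nat_lit 4) (nat_lit 341) (nat_lit 300) (nat_lit 139)) (XT.nd (nat_lit 37440) (nat_lit 0) (nat_lit 5928) (XT.lf (nat_lit 0) (nat_lit 140788143420) (nat_lit 152) (nat_lit 307669233380) (nat_lit 76) (nat_lit 329932078201) (nat_lit 12) (nat_lit 5) (nat_lit 14) (nat_lit 5) (nat_lit 13) (nat_lit 4) (nat_lit 342) (nat_lit 300) (nat_lit 138)) (XT.lf (nat_lit 0) (nat_lit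 20001856219) (nat_lit 0) (nat_lit 20001856219) (nat_lit 684) (nat_lit 7956728469) (nat_lit 90) (nat_lit 5) (nat_lit 90) (nat_lit 3) (nat_lit 99) (nat_lit 3) (nat_lit 301) (nat_lit 301) (nat_lit 178))))))) (XT.nd (nat_lit 780) (nat_lit 2432) (nat_lit 0) (XT.nd (nat_lit 390) (nat_lit 836) (nat_lit 0) (XT.nd (nat_lit 156) (nat_lit 532) (nat_lit 0) (XT.nd (nat_lit 78) (nat_lit 0) (nat_lit 76) (XT.lf (nat_lit 76) (nat_lit 13581073084) (nat_lit 0) (nat_lit 70319961039) (nat_lit 760) (nat_lit 15821996269) (nat_lit 91) (nat_lit 5) (nat_lit 90) (nat_lit 5) (nat_lit 100) (nat_lit 5) (nat_lit 302) (nat_lit 301) (nat_lit 177)) (XT.lf (nat_lit 0) (nat_lit 89745838289) (nat_lit 684) (nat_lit 13812060914) (nat_lit 760) (nat_lit 189468452) (nat_lit 91) (nat_lit 5) (nat_lit 100) (nat_lit 5) (nat_lit 101) (nat_lit 5) (nat_lit 303) (nat_lit 301) (nat_lit 176))) (XT.nd (nat_lit 78) (nat_lit 608) (nat_lit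 0) (XT.lf (nat_lit 76) (nat_lit 65204849903) (nat_lit 0) (nat_lit 33056167422) (nat_lit 760) (nat_lit 9722497000) (nat_lit 92) (nat_lit 5) (nat_lit 91) (nat_lit 5) (nat_lit 101) (nat_lit 5) (nat_lit 304) (nat_lit 301) (nat_lit 175)) (XT.nd (nat_lit 78) (nat_lit 684) (nat_lit 0) (XT.lf (nat_lit 76) (nat_lit 39062793925) (nat_lit 0) (nat_lit 69920830489) (nat_lit 760) (nat_lit 3498619436) (nat_lit 93) (nat_lit 5) (nat_lit 92) (nat_lit 5) (nat_lit 102) (nat_lit 5) (nat_lit 305) (nat_lit 301) (nat_lit 174)) (XT.lf (nat_lit 0) (nat_lit 4718535291) (nat_lit 760) (nat_lit 105949515162) (nat_lit 836) (nat_lit 6590380321) (nat_lit 83) (nat_lit 5) (nat_lit 93) (nat_lit 5) (nat_lit 94) (nat_lit 5) (nat_lit 306) (nat_lit 301) (nat_lit 173))))) (XT.nd (nat_lit 156) (nat_lit 836) (nat_lit 0) (XT.nd (nat_lit 78) (nat_lit 0) (nat_lit 76) (XT.lf (nat_lit 0) (nat_lit 15950206834) (nat_lit 760) (nat_lit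 18175043355) (nat_lit 836) (nat_lit 88164610268) (nat_lit 83) (nat_lit 5) (nat_lit 93) (nat_lit 5) (nat_lit 94) (nat_lit 5) (nat_lit 307) (nat_lit 301) (nat_lit 172)) (XT.lf (nat_lit 0) (nat_lit 30093614177) (nat_lit 760) (nat_lit 49285969911) (nat_lit 76) (nat_lit 48243561690) (nat_lit 84) (nat_lit 5) (nat_lit 94) (nat_lit 5) (nat_lit 85) (nat_lit 5) (nat_lit 308) (nat_lit 301) (nat_lit 171))) (XT.nd (nat_lit 78) (nat_lit 380) (nat_lit 0) (XT.lf (nat_lit 0) (nat_lit 47119654631) (nat_lit 608) (nat_lit 82458467532) (nat_lit 76) (nat_lit 3717415002) (nat_lit 77) (nat_lit 5) (nat_lit 85) (nat_lit 5) (nat_lit 78) (nat_lit 5) (nat_lit 309) (nat_lit 301) (nat_lit 170)) (XT.nd (nat_lit 78) (nat_lit 0) (nat_lit 0) (XT.lf (nat_lit 0) (nat_lit 20659179107) (nat_lit 380) (nat_lit 47381586987) (nat_lit 456) (nat_lit 71254305552) (nat_lit 72) (nat_lit 5) (nat_lit 77) (nat_lit 5) (nat_lit 78) (nat_lit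 5) (nat_lit 310) (nat_lit 301) (nat_lit 169)) (XT.lf (nat_lit 0) (nat_lit 92741101273) (nat_lit 456) (nat_lit 11402352940) (nat_lit 76) (nat_lit 41525839017) (nat_lit 72) (nat_lit 5) (nat_lit 78) (nat_lit 5) (nat_lit 73) (nat_lit 5) (nat_lit 311) (nat_lit 301) (nat_lit 168)))))) (XT.nd (nat_lit 390) (nat_lit 1140) (nat_lit 0) (XT.nd (nat_lit 156) (nat_lit 684) (nat_lit 0) (XT.nd (nat_lit 78) (nat_lit 304) (nat_lit 0) (XT.lf (nat_lit 0) (nat_lit 107036168529) (nat_lit 304) (nat_lit 14850804606) (nat_lit 380) (nat_lit 30543004919) (nat_lit 68) (nat_lit 5) (nat_lit 72) (nat_lit 5) (nat_lit 73) (nat_lit 5) (nat_lit 312) (nat_lit 301) (nat_lit 167)) (XT.lf (nat_lit 0) (nat_lit 76816343012) (nat_lit 304) (nat_lit 79222610161) (nat_lit 380) (nat_lit 3558843500) (nat_lit 64) (nat_lit 5) (nat_lit 68) (nat_lit 5) (nat_lit 69) (nat_lit 5) (nat_lit 313) (nat_lit 301) (nat_lit 166))) (XT.nd (nat_lit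 78) (nat_lit 304) (nat_lit 0) (XT.lf (nat_lit 0) (nat_lit 26774722645) (nat_lit 380) (nat_lit 123637838114) (nat_lit 76) (nat_lit 16806032844) (nat_lit 59) (nat_lit 5) (nat_lit 64) (nat_lit 5) (nat_lit 60) (nat_lit 5) (nat_lit 314) (nat_lit 301) (nat_lit 165)) (XT.nd (nat_lit 78) (nat_lit 0) (nat_lit 0) (XT.lf (nat_lit 0) (nat_lit 6416385468) (nat_lit 304) (nat_lit 55896742891) (nat_lit 380) (nat_lit 112987867664) (nat_lit 55) (nat_lit 5) (nat_lit 59) (nat_lit 5) (nat_lit 60) (nat_lit 5) (nat_lit 315) (nat_lit 301) (nat_lit 164)) (XT.lf (nat_lit 0) (nat_lit 103604151795) (nat_lit 380) (nat_lit 33389178680) (nat_lit 76) (nat_lit 46891183600) (nat_lit 55) (nat_lit 5) (nat_lit 60) (nat_lit 5) (nat_lit 56) (nat_lit 5) (nat_lit 316) (nat_lit 301) (nat_lit 163))))) (XT.nd (nat_lit 234) (nat_lit 380) (nat_lit 0) (XT.nd (nat_lit 78) (nat_lit 532) (nat_lit 0) (XT.lf (nat_lit 0) (nat_lit 115706152785)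 (nat_lit 228) (nat_lit 35240899621) (nat_lit 304) (nat_lit 42070232054) (nat_lit 52) (nat_lit 5) (nat_lit 55) (nat_lit 5) (nat_lit 56) (nat_lit 5) (nat_lit 317) (nat_lit 301) (nat_lit 162)) (XT.nd (nat_lit 78) (nat_lit 228) (nat_lit 0) (XT.lf (nat_lit 0) (nat_lit 2218864580) (nat_lit 304) (nat_lit 126431536249) (nat_lit 76) (nat_lit 74081081019) (nat_lit 48) (nat_lit 5) (nat_lit 52) (nat_lit 5) (nat_lit 49) (nat_lit 5) (nat_lit 318) (nat_lit 301) (nat_lit 161)) (XT.lf (nat_lit 0) (nat_lit 31486754492) (nat_lit 228) (nat_lit 19564326691) (nat_lit 304) (nat_lit 162013554167) (nat_lit 45) (nat_lit 5) (nat_lit 48) (nat_lit 5) (nat_lit 49) (nat_lit 5) (nat_lit 319) (nat_lit 301) (nat_lit 160)))) (XT.nd (nat_lit 78) (nat_lit 380) (nat_lit 0) (XT.lf (nat_lit 0) (nat_lit 107561903974) (nat_lit 304) (nat_lit 19131539610) (nat_lit 76) (nat_lit 97342396598) (nat_lit 45) (nat_lit 5) (nat_lit 49) (nat_lit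 5) (nat_lit 46) (nat_lit 5) (nat_lit 320) (nat_lit 301) (nat_lit 159)) (XT.nd (nat_lit 78) (nat_lit 152) (nat_lit 0) (XT.lf (nat_lit 0) (nat_lit 161137551212) (nat_lit 228) (nat_lit 10301400020) (nat_lit 304) (nat_lit 64303522693) (nat_lit 42) (nat_lit 5) (nat_lit 45) (nat_lit 5) (nat_lit 46) (nat_lit 5) (nat_lit 321) (nat_lit 301) (nat_lit 158)) (XT.lf (nat_lit 0) (nat_lit 109850598975) (nat_lit 152) (nat_lit 134430785730) (nat_lit 228) (nat_lit 3911492963) (nat_lit 40) (nat_lit 5) (nat_lit 42) (nat_lit 5) (nat_lit 43) (nat_lit 5) (nat_lit 322) (nat_lit 301) (nat_lit 157))))))))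
noncomputable def xc113 : XT := (XT.nd (nat_lit 39156) (nat_lit 0) (nat_lit 1672) (XT.nd (nat_lit 780) (nat_lit 684) (nat_lit 0) (XT.nd (nat_lit 390) (nat_lit 456) (nat_lit 0) (XT.nd (nat_lit 156) (nat_lit 532) (nat_lit 0) (XT.nd (nat_lit 78) (nat_lit 0) (nat_lit 0) (XT.lf (nat_lit 0) (nat_lit 50619779002) (nat_lit 228) (nat_lit 11014334790) (nat_lit 304) (nat_lit 199843108845) (nat_lit 36) (nat_lit 5) (nat_lit 39) (nat_lit 5) (nat_lit 40) (nat_lit 5) (nat_lit 323) (nat_lit 301) (nat_lit 156)) (XT.lf (nat_lit 0) (nat_lit 136646263707) (nat_lit 304) (nat_lit 18079839129) (nat_lit 76) (nat_lit 120877009858) (nat_lit 36) (nat_lit 5) (nat_lit 40) (nat_lit 5) (nat_lit 37) (nat_lit 5) (nat_lit 324) (nat_lit 301) (nat_lit 155))) (XT.nd (nat_lit 78) (nat_lit 380) (nat_lit 0) (XT.lf (nat_lit 0) (nat_lit 196213903240) (nat_lit 152) (nat_lit 24694376537) (nat_lit 228) (nat_lit 69788349790) (nat_lit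 34) (nat_lit 5) (nat_lit 36) (nat_lit 5) (nat_lit 37) (nat_lit 5) (nat_lit 325) (nat_lit 301) (nat_lit 154)) (XT.nd (nat_lit 78) (nat_lit 152) (nat_lit 0) (XT.lf (nat_lit 0) (nat_lit 8877144345) (nat_lit 228) (nat_lit 183484516104) (nat_lit 76) (nat_lit 114426092753) (nat_lit 31) (nat_lit 5) (nat_lit 34) (nat_lit 5) (nat_lit 32) (nat_lit 5) (nat_lit 326) (nat_lit 301) (nat_lit 153)) (XT.lf (nat_lit 0) (nat_lit 37377942582) (nat_lit 152) (nat_lit 56718099580) (nat_lit 228) (nat_lit 229877660862) (nat_lit 29) (nat_lit 5) (nat_lit 31) (nat_lit 5) (nat_lit 32) (nat_lit 5) (nat_lit 327) (nat_lit 301) (nat_lit 152))))) (XT.nd (nat_lit 156) (nat_lit 304) (nat_lit 0) (XT.nd (nat_lit 78) (nat_lit 152) (nat_lit 0) (XT.lf (nat_lit 0) (nat_lit 190782455096) (nat_lit 228) (nat_lit 61367610499) (nat_lit 76) (nat_lit 90151963315) (nat_lit 29) (nat_lit 5) (nat_lit 32) (nat_lit 5) (nat_lit 30) (nat_lit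 5) (nat_lit 328) (nat_lit 301) (nat_lit 151)) (XT.lf (nat_lit 0) (nat_lit 186904154705) (nat_lit 152) (nat_lit 112173868150) (nat_lit 228) (nat_lit 62824886145) (nat_lit 27) (nat_lit 5) (nat_lit 29) (nat_lit 5) (nat_lit 30) (nat_lit 5) (nat_lit 329) (nat_lit 301) (nat_lit 150))) (XT.nd (nat_lit 78) (nat_lit 152) (nat_lit 0) (XT.lf (nat_lit 0) (nat_lit 34839558661) (nat_lit 152) (nat_lit 307472791992) (nat_lit 76) (nat_lit 40587310944) (nat_lit 25) (nat_lit 5) (nat_lit 27) (nat_lit 5) (nat_lit 26) (nat_lit 5) (nat_lit 330) (nat_lit 301) (nat_lit 149)) (XT.nd (nat_lit 78) (nat_lit 152) (nat_lit 0) (XT.lf (nat_lit 0) (nat_lit 143135091928) (nat_lit 152) (nat_lit 56289166157) (nat_lit 76) (nat_lit 205849450148) (nat_lit 25) (nat_lit 5) (nat_lit 27) (nat_lit 5) (nat_lit 26) (nat_lit 5) (nat_lit 331) (nat_lit 301) (nat_lit 148)) (XT.lf (nat_lit 0) (nat_lit 222097326552) (nat_lit 152) (nat_lit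 41464308326) (nat_lit 228) (nat_lit 165702675540) (nat_lit 23) (nat_lit 5) (nat_lit 25) (nat_lit 5) (nat_lit 26) (nat_lit 5) (nat_lit 332) (nat_lit 301) (nat_lit 147)))))) (XT.nd (nat_lit 390) (nat_lit 304) (nat_lit 0) (XT.nd (nat_lit 156) (nat_lit 228) (nat_lit 0) (XT.nd (nat_lit 78) (nat_lit 76) (nat_lit 0) (XT.lf (nat_lit 0) (nat_lit 69842558600) (nat_lit 76) (nat_lit 327882707992) (nat_lit 152) (nat_lit 57243746075) (nat_lit 22) (nat_lit 5) (nat_lit 23) (nat_lit 5) (nat_lit 24) (nat_lit 4) (nat_lit 333) (nat_lit 301) (nat_lit 146)) (XT.lf (nat_lit 0) (nat_lit 62341840424) (nat_lit 152) (nat_lit 107832638636) (nat_lit 76) (nat_lit 312290515284) (nat_lit 21) (nat_lit 5) (nat_lit 23) (nat_lit 5) (nat_lit 22) (nat_lit 5) (nat_lit 334) (nat_lit 301) (nat_lit 145))) (XT.nd (nat_lit 78) (nat_lit 76) (nat_lit 0) (XT.lf (nat_lit 0) (nat_lit 192659434097) (nat_lit 228) (nat_lit 315043340563)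 (nat_lit 76) (nat_lit 4252423807) (nat_lit 19) (nat_lit 5) (nat_lit 22) (nat_lit 5) (nat_lit 20) (nat_lit 4) (nat_lit 335) (nat_lit 301) (nat_lit 144)) (XT.nd (nat_lit 78) (nat_lit 76) (nat_lit 0) (XT.lf (nat_lit 0) (nat_lit 338180894586) (nat_lit 228) (nat_lit 16724643997) (nat_lit 76) (nat_lit 188660157488) (nat_lit 19) (nat_lit 5) (nat_lit 22) (nat_lit 5) (nat_lit 20) (nat_lit 4) (nat_lit 336) (nat_lit 301) (nat_lit 143)) (XT.lf (nat_lit 0) (nat_lit 315559151542) (nat_lit 76) (nat_lit 184711533747) (nat_lit 152) (nat_lit 77188017633) (nat_lit 18) (nat_lit 5) (nat_lit 19) (nat_lit 5) (nat_lit 20) (nat_lit 4) (nat_lit 337) (nat_lit 301) (nat_lit 142))))) (XT.nd (nat_lit 234) (nat_lit 0) (nat_lit 0) (XT.nd (nat_lit 78) (nat_lit 76) (nat_lit 0) (XT.lf (nat_lit 0) (nat_lit 60589891760) (nat_lit 228) (nat_lit 551977396468) (nat_lit 76) (nat_lit 1383725172) (nat_lit 15) (nat_lit 5) (nat_lit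 18) (nat_lit 5) (nat_lit 16) (nat_lit 4) (nat_lit 338) (nat_lit 301) (nat_lit 141)) (XT.nd (nat_lit 78) (nat_lit 76) (nat_lit 0) (XT.lf (nat_lit 0) (nat_lit 214473240054) (nat_lit 228) (nat_lit 236516757336) (nat_lit 76) (nat_lit 201920067633) (nat_lit 15) (nat_lit 5) (nat_lit 18) (nat_lit 5) (nat_lit 16) (nat_lit 4) (nat_lit 339) (nat_lit 301) (nat_lit 140)) (XT.lf (nat_lit 0) (nat_lit 107625181067) (nat_lit 76) (nat_lit 274722276850) (nat_lit 152) (nat_lit 312554372859) (nat_lit 14) (nat_lit 5) (nat_lit 15) (nat_lit 5) (nat_lit 16) (nat_lit 4) (nat_lit 340) (nat_lit 301) (nat_lit 139)))) (XT.nd (nat_lit 37596) (nat_lit 0) (nat_lit 5776) (XT.lf (nat_lit 0) (nat_lit 487744191853) (nat_lit 76) (nat_lit 80027267808) (nat_lit 152) (nat_lit 172275485879) (nat_lit 14) (nat_lit 5) (nat_lit 15) (nat_lit 5) (nat_lit 16) (nat_lit 4) (nat_lit 341) (nat_lit 301) (nat_lit 138)) (XT.nd (nat_lit 78)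 (nat_lit 0) (nat_lit 0) (XT.lf (nat_lit 0) (nat_lit 21607104330) (nat_lit 0) (nat_lit 21607104330) (nat_lit 684) (nat_lit 8582536982) (nat_lit 90) (nat_lit 5) (nat_lit 90) (nat_lit 3) (nat_lit 99) (nat_lit 3) (nat_lit 302) (nat_lit 302) (nat_lit 176)) (XT.lf (nat_lit 76) (nat_lit 14678482194) (nat_lit 0) (nat_lit 75953545216) (nat_lit 760) (nat_lit 17067861780) (nat_lit 91) (nat_lit 5) (nat_lit 90) (nat_lit 5) (nat_lit 100) (nat_lit 5) (nat_lit 303) (nat_lit 302) (nat_lit 175))))))) (XT.nd (nat_lit 780) (nat_lit 2432) (nat_lit 0) (XT.nd (nat_lit 390) (nat_lit 1140) (nat_lit 0) (XT.nd (nat_lit 156) (nat_lit 608) (nat_lit 0) (XT.nd (nat_lit 78) (nat_lit 0) (nat_lit 0) (XT.lf (nat_lit 0) (nat_lit 96942899660) (nat_lit 684) (nat_lit 14905885417) (nat_lit 760) (nat_lit 197466992) (nat_lit 91) (nat_lit 5) (nat_lit 100) (nat_lit 5) (nat_lit 101) (nat_lit 5) (nat_lit 304) (nat_lit 302) (nat_lit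 174)) (XT.lf (nat_lit 76) (nat_lit 70431894119) (nat_lit 0) (nat_lit 35706276807) (nat_lit 760) (nat_lit 10483178266) (nat_lit 92) (nat_lit 5) (nat_lit 91) (nat_lit 5) (nat_lit 101) (nat_lit 5) (nat_lit 305) (nat_lit 302) (nat_lit 173))) (XT.nd (nat_lit 78) (nat_lit 684) (nat_lit 0) (XT.lf (nat_lit 76) (nat_lit 42198903929) (nat_lit 0) (nat_lit 75518569209) (nat_lit 760) (nat_lit 3762562033) (nat_lit 93) (nat_lit 5) (nat_lit 92) (nat_lit 5) (nat_lit 102) (nat_lit 5) (nat_lit 306) (nat_lit 302) (nat_lit 172)) (XT.nd (nat_lit 78) (nat_lit 0) (nat_lit 0) (XT.lf (nat_lit 0) (nat_lit 5110432598) (nat_lit 760) (nat_lit 114413553658) (nat_lit 836) (nat_lit 7114371582) (nat_lit 83) (nat_lit 5) (nat_lit 93) (nat_lit 5) (nat_lit 94) (nat_lit 5) (nat_lit 307) (nat_lit 302) (nat_lit 171)) (XT.lf (nat_lit 0) (nat_lit 17239570126) (nat_lit 760) (nat_lit 19618007270) (nat_lit 836) (nat_lit 95214779862)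 (nat_lit 83) (nat_lit 5) (nat_lit 93) (nat_lit 5) (nat_lit 94) (nat_lit 5) (nat_lit 308) (nat_lit 302) (nat_lit 170))))) (XT.nd (nat_lit 156) (nat_lit 684) (nat_lit 0) (XT.nd (nat_lit 78) (nat_lit 532) (nat_lit 0) (XT.lf (nat_lit 0) (nat_lit 32513595625) (nat_lit 760) (nat_lit 53217608048) (nat_lit 76) (nat_lit 52101146283) (nat_lit 84) (nat_lit 5) (nat_lit 94) (nat_lit 5) (nat_lit 85) (nat_lit 5) (nat_lit 309) (nat_lit 302) (nat_lit 169)) (XT.lf (nat_lit 0) (nat_lit 50900946452) (nat_lit 608) (nat_lit 89043770656) (nat_lit 76) (nat_lit 4013855882) (nat_lit 77) (nat_lit 5) (nat_lit 85) (nat_lit 5) (nat_lit 78) (nat_lit 5) (nat_lit 310) (nat_lit 302) (nat_lit 168))) (XT.nd (nat_lit 78) (nat_lit 304) (nat_lit 0) (XT.lf (nat_lit 0) (nat_lit 22322793402) (nat_lit 380) (nat_lit 51172255190) (nat_lit 456) (nat_lit 76943058119) (nat_lit 72) (nat_lit 5) (nat_lit 77) (nat_lit 5) (nat_lit 78) (nat_lit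 5) (nat_lit 311) (nat_lit 302) (nat_lit 167)) (XT.nd (nat_lit 78) (nat_lit 304) (nat_lit 0) (XT.lf (nat_lit 0) (nat_lit 100170592157) (nat_lit 456) (nat_lit 12303936695) (nat_lit 76) (nat_lit 44847779544) (nat_lit 72) (nat_lit 5) (nat_lit 78) (nat_lit 5) (nat_lit 73) (nat_lit 5) (nat_lit 312) (nat_lit 302) (nat_lit 166)) (XT.lf (nat_lit 0) (nat_lit 115609205634) (nat_lit 304) (nat_lit 16038330742) (nat_lit 380) (nat_lit 32976342842) (nat_lit 68) (nat_lit 5) (nat_lit 72) (nat_lit 5) (nat_lit 73) (nat_lit 5) (nat_lit 313) (nat_lit 302) (nat_lit 165)))))) (XT.nd (nat_lit 390) (nat_lit 1216) (nat_lit 0) (XT.nd (nat_lit 156) (nat_lit 532) (nat_lit 0) (XT.nd (nat_lit 78) (nat_lit 380) (nat_lit 0) (XT.lf (nat_lit 0) (nat_lit 82971820685) (nat_lit 304) (nat_lit 85559309189) (nat_lit 380) (nat_lit 3834021946) (nat_lit 64) (nat_lit 5) (nat_lit 68) (nat_lit 5) (nat_lit 69) (nat_lit 5) (nat_lit 314)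 (nat_lit 302) (nat_lit 164)) (XT.lf (nat_lit 0) (nat_lit 28925418771) (nat_lit 380) (nat_lit 133518403276) (nat_lit 76) (nat_lit 18151809403) (nat_lit 59) (nat_lit 5) (nat_lit 64) (nat_lit 5) (nat_lit 60) (nat_lit 5) (nat_lit 315) (nat_lit 302) (nat_lit 163))) (XT.nd (nat_lit 78) (nat_lit 228) (nat_lit 0) (XT.lf (nat_lit 0) (nat_lit 6939703531) (nat_lit 304) (nat_lit 60366703850) (nat_lit 380) (nat_lit 122018244177) (nat_lit 55) (nat_lit 5) (nat_lit 59) (nat_lit 5) (nat_lit 60) (nat_lit 5) (nat_lit 316) (nat_lit 302) (nat_lit 162)) (XT.nd (nat_lit 78) (nat_lit 228) (nat_lit 0) (XT.lf (nat_lit 0) (nat_lit 111900128866) (nat_lit 380) (nat_lit 36050680006) (nat_lit 76) (nat_lit 50644072316) (nat_lit 55) (nat_lit 5) (nat_lit 60) (nat_lit 5) (nat_lit 56) (nat_lit 5) (nat_lit 317) (nat_lit 302) (nat_lit 161)) (XT.lf (nat_lit 0) (nat_lit 124971859339) (nat_lit 228) (nat_lit 38058179757) (nat_lit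 304) (nat_lit 45428256100) (nat_lit 52) (nat_lit 5) (nat_lit 55) (nat_lit 5) (nat_lit 56) (nat_lit 5) (nat_lit 318) (nat_lit 302) (nat_lit 160))))) (XT.nd (nat_lit 234) (nat_lit 684) (nat_lit 0) (XT.nd (nat_lit 78) (nat_lit 228) (nat_lit 0) (XT.lf (nat_lit 0) (nat_lit 2403354948) (nat_lit 304) (nat_lit 136536678717) (nat_lit 76) (nat_lit 80009608063) (nat_lit 48) (nat_lit 5) (nat_lit 52) (nat_lit 5) (nat_lit 49) (nat_lit 5) (nat_lit 319) (nat_lit 302) (nat_lit 159)) (XT.nd (nat_lit 78) (nat_lit 0) (nat_lit 0) (XT.lf (nat_lit 0) (nat_lit 34014667622) (nat_lit 228) (nat_lit 21127104222) (nat_lit 304) (nat_lit 174967695231) (nat_lit 45) (nat_lit 5) (nat_lit 48) (nat_lit 5) (nat_lit 49) (nat_lit 5) (nat_lit 320) (nat_lit 302) (nat_lit 158)) (XT.lf (nat_lit 0) (nat_lit 116173005501) (nat_lit 304) (nat_lit 20653474914) (nat_lit 76) (nat_lit 105131911284) (nat_lit 45) (nat_lit 5) (nat_lit 49)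 (nat_lit 5) (nat_lit 46) (nat_lit 5) (nat_lit 321) (nat_lit 302) (nat_lit 157)))) (XT.nd (nat_lit 78) (nat_lit 456) (nat_lit 0) (XT.lf (nat_lit 0) (nat_lit 174036769956) (nat_lit 228) (nat_lit 11123119341) (nat_lit 304) (nat_lit 69441683818) (nat_lit 42) (nat_lit 5) (nat_lit 45) (nat_lit 5) (nat_lit 46) (nat_lit 5) (nat_lit 322) (nat_lit 302) (nat_lit 156)) (XT.nd (nat_lit 78) (nat_lit 304) (nat_lit 0) (XT.lf (nat_lit 0) (nat_lit 118646754551) (nat_lit 152) (nat_lit 145182692812) (nat_lit 228) (nat_lit 4218575862) (nat_lit 40) (nat_lit 5) (nat_lit 42) (nat_lit 5) (nat_lit 43) (nat_lit 5) (nat_lit 323) (nat_lit 302) (nat_lit 155)) (XT.lf (nat_lit 0) (nat_lit 54677301753) (nat_lit 228) (nat_lit 11892896349) (nat_lit 304) (nat_lit 215824928358) (nat_lit 36) (nat_lit 5) (nat_lit 39) (nat_lit 5) (nat_lit 40) (nat_lit 5) (nat_lit 324) (nat_lit 302) (nat_lit 154))))))))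
noncomputable def xc114 : XT := (XT.nd (nat_lit 39156) (nat_lit 0) (nat_lit 1672) (XT.nd (nat_lit 780) (nat_lit 608) (nat_lit 0) (XT.nd (nat_lit 390) (nat_lit 532) (nat_lit 0) (XT.nd (nat_lit 156) (nat_lit 380) (nat_lit 0) (XT.nd (nat_lit 78) (nat_lit 152) (nat_lit 0) (XT.lf (nat_lit 0) (nat_lit 147582960700) (nat_lit 304) (nat_lit 19518657690) (nat_lit 76) (nat_lit 130549487759) (nat_lit 36) (nat_lit 5) (nat_lit 40) (nat_lit 5) (nat_lit 37) (nat_lit 5) (nat_lit 325) (nat_lit 302) (nat_lit 153)) (XT.lf (nat_lit 0) (nat_lit 211918255148) (nat_lit 152) (nat_lit 26667425872) (nat_lit 228) (nat_lit 75366436629) (nat_lit 34) (nat_lit 5) (nat_lit 36) (nat_lit 5) (nat_lit 37) (nat_lit 5) (nat_lit 326) (nat_lit 302) (nat_lit 152))) (XT.nd (nat_lit 78) (nat_lit 152) (nat_lit 0) (XT.lf (nat_lit 0) (nat_lit 9591930166) (nat_lit 228) (nat_lit 198156000686) (nat_lit 76) (nat_lit 123582607184) (nat_lit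 31) (nat_lit 5) (nat_lit 34) (nat_lit 5) (nat_lit 32) (nat_lit 5) (nat_lit 327) (nat_lit 302) (nat_lit 151)) (XT.nd (nat_lit 78) (nat_lit 0) (nat_lit 0) (XT.lf (nat_lit 0) (nat_lit 40375138458) (nat_lit 152) (nat_lit 61252968226) (nat_lit 228) (nat_lit 248263269166) (nat_lit 29) (nat_lit 5) (nat_lit 31) (nat_lit 5) (nat_lit 32) (nat_lit 5) (nat_lit 328) (nat_lit 302) (nat_lit 150)) (XT.lf (nat_lit 0) (nat_lit 206049145410) (nat_lit 228) (nat_lit 66270404880) (nat_lit 76) (nat_lit 97366432202) (nat_lit 29) (nat_lit 5) (nat_lit 32) (nat_lit 5) (nat_lit 30) (nat_lit 5) (nat_lit 329) (nat_lit 302) (nat_lit 149))))) (XT.nd (nat_lit 156) (nat_lit 228) (nat_lit 0) (XT.nd (nat_lit 78) (nat_lit 152) (nat_lit 0) (XT.lf (nat_lit 0) (nat_lit 201862814084) (nat_lit 152) (nat_lit 121145340035) (nat_lit 228) (nat_lit 67846789392) (nat_lit 27) (nat_lit 5) (nat_lit 29) (nat_lit 5) (nat_lit 30) (nat_lit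 5) (nat_lit 330) (nat_lit 302) (nat_lit 148)) (XT.lf (nat_lit 0) (nat_lit 37630521356) (nat_lit 152) (nat_lit 332064281246) (nat_lit 76) (nat_lit 43836638727) (nat_lit 25) (nat_lit 5) (nat_lit 27) (nat_lit 5) (nat_lit 26) (nat_lit 5) (nat_lit 331) (nat_lit 302) (nat_lit 147))) (XT.nd (nat_lit 78) (nat_lit 228) (nat_lit 0) (XT.lf (nat_lit 0) (nat_lit 154589415952) (nat_lit 152) (nat_lit 60786434537) (nat_lit 76) (nat_lit 222319575518) (nat_lit 25) (nat_lit 5) (nat_lit 27) (nat_lit 5) (nat_lit 26) (nat_lit 5) (nat_lit 332) (nat_lit 302) (nat_lit 146)) (XT.nd (nat_lit 78) (nat_lit 76) (nat_lit 0) (XT.lf (nat_lit 0) (nat_lit 239870722707) (nat_lit 152) (nat_lit 44779186725) (nat_lit 228) (nat_lit 178955375805) (nat_lit 23) (nat_lit 5) (nat_lit 25) (nat_lit 5) (nat_lit 26) (nat_lit 5) (nat_lit 333) (nat_lit 302) (nat_lit 145)) (XT.lf (nat_lit 0) (nat_lit 75435458294) (nat_lit 76) (nat_lit 354111044257)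 (nat_lit 152) (nat_lit 61819867782) (nat_lit 22) (nat_lit 5) (nat_lit 23) (nat_lit 5) (nat_lit 24) (nat_lit 4) (nat_lit 334) (nat_lit 302) (nat_lit 144)))))) (XT.nd (nat_lit 390) (nat_lit 76) (nat_lit 0) (XT.nd (nat_lit 156) (nat_lit 304) (nat_lit 0) (XT.nd (nat_lit 78) (nat_lit 152) (nat_lit 0) (XT.lf (nat_lit 0) (nat_lit 67332215309) (nat_lit 152) (nat_lit 116454059343) (nat_lit 76) (nat_lit 337275765550) (nat_lit 21) (nat_lit 5) (nat_lit 23) (nat_lit 5) (nat_lit 22) (nat_lit 5) (nat_lit 335) (nat_lit 302) (nat_lit 143)) (XT.lf (nat_lit 0) (nat_lit 208075102255) (nat_lit 228) (nat_lit 340241729346) (nat_lit 76) (nat_lit 4594634934) (nat_lit 19) (nat_lit 5) (nat_lit 22) (nat_lit 5) (nat_lit 20) (nat_lit 4) (nat_lit 336) (nat_lit 302) (nat_lit 142))) (XT.nd (nat_lit 78) (nat_lit 304) (nat_lit 0) (XT.lf (nat_lit 0) (nat_lit 365238063774) (nat_lit 228) (nat_lit 18057913238) (nat_lit 76)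 (nat_lit 203754837885) (nat_lit 19) (nat_lit 5) (nat_lit 22) (nat_lit 5) (nat_lit 20) (nat_lit 4) (nat_lit 337) (nat_lit 302) (nat_lit 141)) (XT.nd (nat_lit 78) (nat_lit 228) (nat_lit 0) (XT.lf (nat_lit 0) (nat_lit 340808381589) (nat_lit 76) (nat_lit 199486526546) (nat_lit 152) (nat_lit 83360360788) (nat_lit 18) (nat_lit 5) (nat_lit 19) (nat_lit 5) (nat_lit 20) (nat_lit 4) (nat_lit 338) (nat_lit 302) (nat_lit 140)) (XT.lf (nat_lit 0) (nat_lit 65439599672) (nat_lit 228) (nat_lit 596131105161) (nat_lit 76) (nat_lit 1496262195) (nat_lit 15) (nat_lit 5) (nat_lit 18) (nat_lit 5) (nat_lit 16) (nat_lit 4) (nat_lit 339) (nat_lit 302) (nat_lit 139))))) (XT.nd (nat_lit 37752) (nat_lit 0) (nat_lit 5776) (XT.nd (nat_lit 78) (nat_lit 76) (nat_lit 0) (XT.lf (nat_lit 0) (nat_lit 231633429418) (nat_lit 228) (nat_lit 255433946974) (nat_lit 76) (nat_lit 218075375831) (nat_lit 15) (nat_lit 5) (nat_lit 18)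 (nat_lit 5) (nat_lit 16) (nat_lit 4) (nat_lit 340) (nat_lit 302) (nat_lit 138)) (XT.lf (nat_lit 0) (nat_lit 116239166106) (nat_lit 76) (nat_lit 296698307989) (nat_lit 152) (nat_lit 337556390780) (nat_lit 14) (nat_lit 5) (nat_lit 15) (nat_lit 5) (nat_lit 16) (nat_lit 4) (nat_lit 341) (nat_lit 302) (nat_lit 137))) (XT.nd (nat_lit 78) (nat_lit 0) (nat_lit 0) (XT.lf (nat_lit 0) (nat_lit 23340044773) (nat_lit 0) (nat_lit 23340044773) (nat_lit 684) (nat_lit 9259940896) (nat_lit 90) (nat_lit 5) (nat_lit 90) (nat_lit 3) (nat_lit 99) (nat_lit 3) (nat_lit 303) (nat_lit 303) (nat_lit 174)) (XT.nd (nat_lit 78) (nat_lit 0) (nat_lit 76) (XT.lf (nat_lit 76) (nat_lit 15862125706) (nat_lit 0) (nat_lit 82036676651) (nat_lit 760) (nat_lit 18416234661) (nat_lit 91) (nat_lit 5) (nat_lit 90) (nat_lit 5) (nat_lit 100) (nat_lit 5) (nat_lit 304) (nat_lit 303) (nat_lit 173)) (XT.lf (nat_lit 0) (nat_lit 104713244449)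 (nat_lit 684) (nat_lit 16088805178) (nat_lit 760) (nat_lit 207126718) (nat_lit 91) (nat_lit 5) (nat_lit 100) (nat_lit 5) (nat_lit 101) (nat_lit 5) (nat_lit 305) (nat_lit 303) (nat_lit 172))))))) (XT.nd (nat_lit 780) (nat_lit 2128) (nat_lit 0) (XT.nd (nat_lit 390) (nat_lit 1444) (nat_lit 0) (XT.nd (nat_lit 156) (nat_lit 608) (nat_lit 0) (XT.nd (nat_lit 78) (nat_lit 0) (nat_lit 76) (XT.lf (nat_lit 76) (nat_lit 76075581642) (nat_lit 0) (nat_lit 38567593758) (nat_lit 760) (nat_lit 11307156177) (nat_lit 92) (nat_lit 5) (nat_lit 91) (nat_lit 5) (nat_lit 101) (nat_lit 5) (nat_lit 306) (nat_lit 303) (nat_lit 171)) (XT.lf (nat_lit 76) (nat_lit 45584321121) (nat_lit 0) (nat_lit 81563546070) (nat_lit 760) (nat_lit 4049895050) (nat_lit 93) (nat_lit 5) (nat_lit 92) (nat_lit 5) (nat_lit 102) (nat_lit 5) (nat_lit 307) (nat_lit 303) (nat_lit 170))) (XT.nd (nat_lit 78) (nat_lit 0) (nat_lit 0) (XT.lf (nat_lit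 0) (nat_lit 5531625303) (nat_lit 760) (nat_lit 123556416142) (nat_lit 836) (nat_lit 7680744246) (nat_lit 83) (nat_lit 5) (nat_lit 93) (nat_lit 5) (nat_lit 94) (nat_lit 5) (nat_lit 308) (nat_lit 303) (nat_lit 169)) (XT.nd (nat_lit 78) (nat_lit 0) (nat_lit 76) (XT.lf (nat_lit 0) (nat_lit 18630178418) (nat_lit 760) (nat_lit 21177983214) (nat_lit 836) (nat_lit 102829390897) (nat_lit 83) (nat_lit 5) (nat_lit 93) (nat_lit 5) (nat_lit 94) (nat_lit 5) (nat_lit 309) (nat_lit 303) (nat_lit 168)) (XT.lf (nat_lit 0) (nat_lit 35125393421) (nat_lit 760) (nat_lit 57465380670) (nat_lit 76) (nat_lit 56267608748) (nat_lit 84) (nat_lit 5) (nat_lit 94) (nat_lit 5) (nat_lit 85) (nat_lit 5) (nat_lit 310) (nat_lit 303) (nat_lit 167))))) (XT.nd (nat_lit 156) (nat_lit 608) (nat_lit 0) (XT.nd (nat_lit 78) (nat_lit 380) (nat_lit 0) (XT.lf (nat_lit 0) (nat_lit 54983069708) (nat_lit 608) (nat_lit 96157520698) (nat_lit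 76) (nat_lit 4334147892) (nat_lit 77) (nat_lit 5) (nat_lit 85) (nat_lit 5) (nat_lit 78) (nat_lit 5) (nat_lit 311) (nat_lit 303) (nat_lit 166)) (XT.lf (nat_lit 0) (nat_lit 24117944692) (nat_lit 380) (nat_lit 55266156698) (nat_lit 456) (nat_lit 83088564602) (nat_lit 72) (nat_lit 5) (nat_lit 77) (nat_lit 5) (nat_lit 78) (nat_lit 5) (nat_lit 312) (nat_lit 303) (nat_lit 165))) (XT.nd (nat_lit 78) (nat_lit 608) (nat_lit 0) (XT.lf (nat_lit 0) (nat_lit 108192986771) (nat_lit 456) (nat_lit 13279159997) (nat_lit 76) (nat_lit 48435493372) (nat_lit 72) (nat_lit 5) (nat_lit 78) (nat_lit 5) (nat_lit 73) (nat_lit 5) (nat_lit 313) (nat_lit 303) (nat_lit 164)) (XT.nd (nat_lit 78) (nat_lit 304) (nat_lit 0) (XT.lf (nat_lit 0) (nat_lit 124866638607) (nat_lit 304) (nat_lit 17320935755) (nat_lit 380) (nat_lit 35605789030) (nat_lit 68) (nat_lit 5) (nat_lit 72) (nat_lit 5) (nat_lit 73) (nat_lit 5) (nat_lit 314)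 (nat_lit 303) (nat_lit 163)) (XT.lf (nat_lit 0) (nat_lit 89618285674) (nat_lit 304) (nat_lit 92403102462) (nat_lit 380) (nat_lit 4132574091) (nat_lit 64) (nat_lit 5) (nat_lit 68) (nat_lit 5) (nat_lit 69) (nat_lit 5) (nat_lit 315) (nat_lit 303) (nat_lit 162)))))) (XT.nd (nat_lit 390) (nat_lit 912) (nat_lit 0) (XT.nd (nat_lit 156) (nat_lit 532) (nat_lit 0) (XT.nd (nat_lit 78) (nat_lit 304) (nat_lit 0) (XT.lf (nat_lit 0) (nat_lit 31246926821) (nat_lit 380) (nat_lit 144190906156) (nat_lit 76) (nat_lit 19605063494) (nat_lit 59) (nat_lit 5) (nat_lit 64) (nat_lit 5) (nat_lit 60) (nat_lit 5) (nat_lit 316) (nat_lit 303) (nat_lit 161)) (XT.lf (nat_lit 0) (nat_lit 7503459397) (nat_lit 304) (nat_lit 65194515405) (nat_lit 380) (nat_lit 131772285244) (nat_lit 55) (nat_lit 5) (nat_lit 59) (nat_lit 5) (nat_lit 60) (nat_lit 5) (nat_lit 317) (nat_lit 303) (nat_lit 160))) (XT.nd (nat_lit 78) (nat_lit 532)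 (nat_lit 0) (XT.lf (nat_lit 0) (nat_lit 120858693467) (nat_lit 380) (nat_lit 38926475689) (nat_lit 76) (nat_lit 54696964724) (nat_lit 55) (nat_lit 5) (nat_lit 60) (nat_lit 5) (nat_lit 56) (nat_lit 5) (nat_lit 318) (nat_lit 303) (nat_lit 159)) (XT.nd (nat_lit 78) (nat_lit 304) (nat_lit 0) (XT.lf (nat_lit 0) (nat_lit 134977507890) (nat_lit 228) (nat_lit 41101126461) (nat_lit 304) (nat_lit 49056005513) (nat_lit 52) (nat_lit 5) (nat_lit 55) (nat_lit 5) (nat_lit 56) (nat_lit 5) (nat_lit 319) (nat_lit 303) (nat_lit 158)) (XT.lf (nat_lit 0) (nat_lit 2601608598) (nat_lit 304) (nat_lit 147451570806) (nat_lit 76) (nat_lit 86412126162) (nat_lit 48) (nat_lit 5) (nat_lit 52) (nat_lit 5) (nat_lit 49) (nat_lit 5) (nat_lit 320) (nat_lit 303) (nat_lit 157))))) (XT.nd (nat_lit 234) (nat_lit 456) (nat_lit 0) (XT.nd (nat_lit 78) (nat_lit 228) (nat_lit 0) (XT.lf (nat_lit 0) (nat_lit 36743533735) (nat_lit 228)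 (nat_lit 22815241863) (nat_lit 304) (nat_lit 188959158114) (nat_lit 45) (nat_lit 5) (nat_lit 48) (nat_lit 5) (nat_lit 49) (nat_lit 5) (nat_lit 321) (nat_lit 303) (nat_lit 156)) (XT.nd (nat_lit 78) (nat_lit 228) (nat_lit 0) (XT.lf (nat_lit 0) (nat_lit 125472117897) (nat_lit 304) (nat_lit 22298390198) (nat_lit 76) (nat_lit 113544284281) (nat_lit 45) (nat_lit 5) (nat_lit 49) (nat_lit 5) (nat_lit 46) (nat_lit 5) (nat_lit 322) (nat_lit 303) (nat_lit 155)) (XT.lf (nat_lit 0) (nat_lit 187966754287) (nat_lit 228) (nat_lit 12010917550) (nat_lit 304) (nat_lit 74991771017) (nat_lit 42) (nat_lit 5) (nat_lit 45) (nat_lit 5) (nat_lit 46) (nat_lit 5) (nat_lit 323) (nat_lit 303) (nat_lit 154)))) (XT.nd (nat_lit 78) (nat_lit 304) (nat_lit 0) (XT.lf (nat_lit 0) (nat_lit 128145445926) (nat_lit 152) (nat_lit 156795117070) (nat_lit 228) (nat_lit 4551058041) (nat_lit 40) (nat_lit 5) (nat_lit 42) (nat_lit 5)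 (nat_lit 43) (nat_lit 5) (nat_lit 324) (nat_lit 303) (nat_lit 153)) (XT.nd (nat_lit 78) (nat_lit 0) (nat_lit 0) (XT.lf (nat_lit 0) (nat_lit 59058293532) (nat_lit 228) (nat_lit 12842111644) (nat_lit 304) (nat_lit 233086096501) (nat_lit 36) (nat_lit 5) (nat_lit 39) (nat_lit 5) (nat_lit 40) (nat_lit 5) (nat_lit 325) (nat_lit 303) (nat_lit 152)) (XT.lf (nat_lit 0) (nat_lit 159393880732) (nat_lit 304) (nat_lit 21073661476) (nat_lit 76) (nat_lit 140995433330) (nat_lit 36) (nat_lit 5) (nat_lit 40) (nat_lit 5) (nat_lit 37) (nat_lit 5) (nat_lit 326) (nat_lit 303) (nat_lit 151))))))))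
noncomputable def xc115 : XT := (XT.nd (nat_lit 39312) (nat_lit 0) (nat_lit 1064) (XT.nd (nat_lit 780) (nat_lit 456) (nat_lit 0) (XT.nd (nat_lit 390) (nat_lit 456) (nat_lit 0) (XT.nd (nat_lit 156) (nat_lit 304) (nat_lit 0) (XT.nd (nat_lit 78) (nat_lit 228) (nat_lit 0) (XT.lf (nat_lit 0) (nat_lit 228877922392) (nat_lit 152) (nat_lit 28798675919) (nat_lit 228) (nat_lit 81391481031) (nat_lit 34) (nat_lit 5) (nat_lit 36) (nat_lit 5) (nat_lit 37) (nat_lit 5) (nat_lit 327) (nat_lit 303) (nat_lit 150)) (XT.lf (nat_lit 0) (nat_lit 10363240575) (nat_lit 228) (nat_lit 214002242139) (nat_lit 76) (nat_lit 133471296529) (nat_lit 31) (nat_lit 5) (nat_lit 34) (nat_lit 5) (nat_lit 32) (nat_lit 5) (nat_lit 328) (nat_lit 303) (nat_lit 149))) (XT.nd (nat_lit 78) (nat_lit 152) (nat_lit 0) (XT.lf (nat_lit 0) (nat_lit 43611117015) (nat_lit 152) (nat_lit 66150994332) (nat_lit 228) (nat_lit 268120383027) (nat_lit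 29) (nat_lit 5) (nat_lit 31) (nat_lit 5) (nat_lit 32) (nat_lit 5) (nat_lit 329) (nat_lit 303) (nat_lit 148)) (XT.nd (nat_lit 78) (nat_lit 152) (nat_lit 0) (XT.lf (nat_lit 0) (nat_lit 222536586907) (nat_lit 228) (nat_lit 71566366438) (nat_lit 76) (nat_lit 105157728792) (nat_lit 29) (nat_lit 5) (nat_lit 32) (nat_lit 5) (nat_lit 30) (nat_lit 5) (nat_lit 330) (nat_lit 303) (nat_lit 147)) (XT.lf (nat_lit 0) (nat_lit 218017263596) (nat_lit 152) (nat_lit 130834877418) (nat_lit 228) (nat_lit 73271028047) (nat_lit 27) (nat_lit 5) (nat_lit 29) (nat_lit 5) (nat_lit 30) (nat_lit 5) (nat_lit 331) (nat_lit 303) (nat_lit 146))))) (XT.nd (nat_lit 156) (nat_lit 304) (nat_lit 0) (XT.nd (nat_lit 78) (nat_lit 0) (nat_lit 0) (XT.lf (nat_lit 0) (nat_lit 40644219240) (nat_lit 152) (nat_lit 358623993271) (nat_lit 76) (nat_lit 47345578491) (nat_lit 25) (nat_lit 5) (nat_lit 27) (nat_lit 5) (nat_lit 26) (nat_lit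 5) (nat_lit 332) (nat_lit 303) (nat_lit 145)) (XT.lf (nat_lit 0) (nat_lit 166959584205) (nat_lit 152) (nat_lit 65644321083) (nat_lit 76) (nat_lit 240107001435) (nat_lit 25) (nat_lit 5) (nat_lit 27) (nat_lit 5) (nat_lit 26) (nat_lit 5) (nat_lit 333) (nat_lit 303) (nat_lit 144))) (XT.nd (nat_lit 78) (nat_lit 152) (nat_lit 0) (XT.lf (nat_lit 0) (nat_lit 259065190221) (nat_lit 152) (nat_lit 48359578704) (nat_lit 228) (nat_lit 193268793372) (nat_lit 23) (nat_lit 5) (nat_lit 25) (nat_lit 5) (nat_lit 26) (nat_lit 5) (nat_lit 334) (nat_lit 303) (nat_lit 143)) (XT.nd (nat_lit 78) (nat_lit 76) (nat_lit 0) (XT.lf (nat_lit 0) (nat_lit 81475006040) (nat_lit 76) (nat_lit 382437972744) (nat_lit 152) (nat_lit 66762561131) (nat_lit 22) (nat_lit 5) (nat_lit 23) (nat_lit 5) (nat_lit 24) (nat_lit 4) (nat_lit 335) (nat_lit 303) (nat_lit 142)) (XT.lf (nat_lit 0) (nat_lit 72721388257) (nat_lit 152) (nat_lit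 125765934173) (nat_lit 76) (nat_lit 364259549224) (nat_lit 21) (nat_lit 5) (nat_lit 23) (nat_lit 5) (nat_lit 22) (nat_lit 5) (nat_lit 336) (nat_lit 303) (nat_lit 141)))))) (XT.nd (nat_lit 38064) (nat_lit 0) (nat_lit 5168) (XT.nd (nat_lit 156) (nat_lit 304) (nat_lit 0) (XT.nd (nat_lit 78) (nat_lit 0) (nat_lit 0) (XT.lf (nat_lit 0) (nat_lit 224723608233) (nat_lit 228) (nat_lit 367456713732) (nat_lit 76) (nat_lit 4963935171) (nat_lit 19) (nat_lit 5) (nat_lit 22) (nat_lit 5) (nat_lit 20) (nat_lit 4) (nat_lit 337) (nat_lit 303) (nat_lit 140)) (XT.lf (nat_lit 0) (nat_lit 394459421651) (nat_lit 228) (nat_lit 19498514850) (nat_lit 76) (nat_lit 220056826252) (nat_lit 19) (nat_lit 5) (nat_lit 22) (nat_lit 5) (nat_lit 20) (nat_lit 4) (nat_lit 338) (nat_lit 303) (nat_lit 139))) (XT.nd (nat_lit 78) (nat_lit 228) (nat_lit 0) (XT.lf (nat_lit 0) (nat_lit 368076908361) (nat_lit 76) (nat_lit 215443794091)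 (nat_lit 152) (nat_lit 90026876332) (nat_lit 18) (nat_lit 5) (nat_lit 19) (nat_lit 5) (nat_lit 20) (nat_lit 4) (nat_lit 339) (nat_lit 303) (nat_lit 138)) (XT.nd (nat_lit 78) (nat_lit 0) (nat_lit 0) (XT.lf (nat_lit 0) (nat_lit 70676925200) (nat_lit 228) (nat_lit 643817750102) (nat_lit 76) (nat_lit 1617539826) (nat_lit 15) (nat_lit 5) (nat_lit 18) (nat_lit 5) (nat_lit 16) (nat_lit 4) (nat_lit 340) (nat_lit 303) (nat_lit 137)) (XT.lf (nat_lit 0) (nat_lit 250166101506) (nat_lit 228) (nat_lit 275865103962) (nat_lit 76) (nat_lit 235522865763) (nat_lit 15) (nat_lit 5) (nat_lit 18) (nat_lit 5) (nat_lit 16) (nat_lit 4) (nat_lit 341) (nat_lit 303) (nat_lit 136))))) (XT.nd (nat_lit 234) (nat_lit 532) (nat_lit 0) (XT.nd (nat_lit 78) (nat_lit 0) (nat_lit 0) (XT.lf (nat_lit 0) (nat_lit 25210996723) (nat_lit 0) (nat_lit 25210996723) (nat_lit 684) (nat_lit 9992849470) (nat_lit 90) (nat_lit 5) (nat_lit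 90) (nat_lit 3) (nat_lit 99) (nat_lit 3) (nat_lit 304) (nat_lit 304) (nat_lit 172)) (XT.nd (nat_lit 78) (nat_lit 0) (nat_lit 76) (XT.lf (nat_lit 76) (nat_lit 17139124687) (nat_lit 0) (nat_lit 88605481683) (nat_lit 760) (nat_lit 19874910610) (nat_lit 91) (nat_lit 5) (nat_lit 90) (nat_lit 5) (nat_lit 100) (nat_lit 5) (nat_lit 305) (nat_lit 304) (nat_lit 171)) (XT.lf (nat_lit 0) (nat_lit 113103089341) (nat_lit 684) (nat_lit 17367721088) (nat_lit 760) (nat_lit 218434823) (nat_lit 91) (nat_lit 5) (nat_lit 100) (nat_lit 5) (nat_lit 101) (nat_lit 5) (nat_lit 306) (nat_lit 304) (nat_lit 170)))) (XT.nd (nat_lit 78) (nat_lit 608) (nat_lit 0) (XT.lf (nat_lit 76) (nat_lit 82169460816) (nat_lit 0) (nat_lit 41657129180) (nat_lit 760) (nat_lit 12199146067) (nat_lit 92) (nat_lit 5) (nat_lit 91) (nat_lit 5) (nat_lit 101) (nat_lit 5) (nat_lit 307) (nat_lit 304) (nat_lit 169)) (XT.nd (nat_lit 78) (nat_lit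 684) (nat_lit 0) (XT.lf (nat_lit 76) (nat_lit 49239215711) (nat_lit 0) (nat_lit 88091623003) (nat_lit 760) (nat_lit 4362165164) (nat_lit 93) (nat_lit 5) (nat_lit 92) (nat_lit 5) (nat_lit 102) (nat_lit 5) (nat_lit 308) (nat_lit 304) (nat_lit 168)) (XT.lf (nat_lit 0) (nat_lit 5984750403) (nat_lit 760) (nat_lit 133432165880) (nat_lit 836) (nat_lit 8292822902) (nat_lit 83) (nat_lit 5) (nat_lit 93) (nat_lit 5) (nat_lit 94) (nat_lit 5) (nat_lit 309) (nat_lit 304) (nat_lit 167))))))) (XT.nd (nat_lit 780) (nat_lit 1976) (nat_lit 0) (XT.nd (nat_lit 390) (nat_lit 1292) (nat_lit 0) (XT.nd (nat_lit 156) (nat_lit 836) (nat_lit 0) (XT.nd (nat_lit 78) (nat_lit 0) (nat_lit 76) (XT.lf (nat_lit 0) (nat_lit 20130402947) (nat_lit 760) (nat_lit 22864107470) (nat_lit 836) (nat_lit 111053537647) (nat_lit 83) (nat_lit 5) (nat_lit 93) (nat_lit 5) (nat_lit 94) (nat_lit 5) (nat_lit 310) (nat_lit 304) (nat_lit 166))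 (XT.lf (nat_lit 0) (nat_lit 37944607118) (nat_lit 760) (nat_lit 62054349788) (nat_lit 76) (nat_lit 60767620639) (nat_lit 84) (nat_lit 5) (nat_lit 94) (nat_lit 5) (nat_lit 85) (nat_lit 5) (nat_lit 311) (nat_lit 304) (nat_lit 165))) (XT.nd (nat_lit 78) (nat_lit 380) (nat_lit 0) (XT.lf (nat_lit 0) (nat_lit 59390329431) (nat_lit 608) (nat_lit 103841761919) (nat_lit 76) (nat_lit 4680179741) (nat_lit 77) (nat_lit 5) (nat_lit 85) (nat_lit 5) (nat_lit 78) (nat_lit 5) (nat_lit 312) (nat_lit 304) (nat_lit 164)) (XT.nd (nat_lit 78) (nat_lit 0) (nat_lit 0) (XT.lf (nat_lit 0) (nat_lit 26055377367) (nat_lit 380) (nat_lit 59687553052) (nat_lit 456) (nat_lit 89727129394) (nat_lit 72) (nat_lit 5) (nat_lit 77) (nat_lit 5) (nat_lit 78) (nat_lit 5) (nat_lit 313) (nat_lit 304) (nat_lit 163)) (XT.lf (nat_lit 0) (nat_lit 116855925062) (nat_lit 456) (nat_lit 14333698187) (nat_lit 76) (nat_lit 52310239791) (nat_lit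 72) (nat_lit 5) (nat_lit 78) (nat_lit 5) (nat_lit 73) (nat_lit 5) (nat_lit 314) (nat_lit 304) (nat_lit 162))))) (XT.nd (nat_lit 156) (nat_lit 684) (nat_lit 0) (XT.nd (nat_lit 78) (nat_lit 304) (nat_lit 0) (XT.lf (nat_lit 0) (nat_lit 134863425561) (nat_lit 304) (nat_lit 18706214998) (nat_lit 380) (nat_lit 38446826535) (nat_lit 68) (nat_lit 5) (nat_lit 72) (nat_lit 5) (nat_lit 73) (nat_lit 5) (nat_lit 315) (nat_lit 304) (nat_lit 161)) (XT.lf (nat_lit 0) (nat_lit 96795223952) (nat_lit 304) (nat_lit 99794534934) (nat_lit 380) (nat_lit 4456175894) (nat_lit 64) (nat_lit 5) (nat_lit 68) (nat_lit 5) (nat_lit 69) (nat_lit 5) (nat_lit 316) (nat_lit 304) (nat_lit 160))) (XT.nd (nat_lit 78) (nat_lit 304) (nat_lit 0) (XT.lf (nat_lit 0) (nat_lit 33753089188) (nat_lit 380) (nat_lit 155718488850) (nat_lit 76) (nat_lit 21174419652) (nat_lit 59) (nat_lit 5) (nat_lit 64) (nat_lit 5) (nat_lit 60) (nat_lit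 5) (nat_lit 317) (nat_lit 304) (nat_lit 159)) (XT.nd (nat_lit 78) (nat_lit 0) (nat_lit 0) (XT.lf (nat_lit 0) (nat_lit 8111091759) (nat_lit 304) (nat_lit 70408769407) (nat_lit 380) (nat_lit 142307707923) (nat_lit 55) (nat_lit 5) (nat_lit 59) (nat_lit 5) (nat_lit 60) (nat_lit 5) (nat_lit 318) (nat_lit 304) (nat_lit 158)) (XT.lf (nat_lit 0) (nat_lit 130533008194) (nat_lit 380) (nat_lit 42033513226) (nat_lit 76) (nat_lit 59073893560) (nat_lit 55) (nat_lit 5) (nat_lit 60) (nat_lit 5) (nat_lit 56) (nat_lit 5) (nat_lit 319) (nat_lit 304) (nat_lit 157)))))) (XT.nd (nat_lit 390) (nat_lit 988) (nat_lit 0) (XT.nd (nat_lit 156) (nat_lit 456) (nat_lit 0) (XT.nd (nat_lit 78) (nat_lit 304) (nat_lit 0) (XT.lf (nat_lit 0) (nat_lit 145782481330) (nat_lit 228) (nat_lit 44387752520) (nat_lit 304) (nat_lit 52974903757) (nat_lit 52) (nat_lit 5) (nat_lit 55) (nat_lit 5) (nat_lit 56) (nat_lit 5) (nat_lit 320)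 (nat_lit 304) (nat_lit 156)) (XT.lf (nat_lit 0) (nat_lit 2814868677) (nat_lit 304) (nat_lit 159240801573) (nat_lit 76) (nat_lit 93326596129) (nat_lit 48) (nat_lit 5) (nat_lit 52) (nat_lit 5) (nat_lit 49) (nat_lit 5) (nat_lit 321) (nat_lit 304) (nat_lit 155))) (XT.nd (nat_lit 78) (nat_lit 228) (nat_lit 0) (XT.lf (nat_lit 0) (nat_lit 39689611688) (nat_lit 228) (nat_lit 24638720216) (nat_lit 304) (nat_lit 204070787253) (nat_lit 45) (nat_lit 5) (nat_lit 48) (nat_lit 5) (nat_lit 49) (nat_lit 5) (nat_lit 322) (nat_lit 304) (nat_lit 154)) (XT.nd (nat_lit 78) (nat_lit 228) (nat_lit 0) (XT.lf (nat_lit 0) (nat_lit 135514407181) (nat_lit 304) (nat_lit 24075949077) (nat_lit 76) (nat_lit 122629387461) (nat_lit 45) (nat_lit 5) (nat_lit 49) (nat_lit 5) (nat_lit 46) (nat_lit 5) (nat_lit 323) (nat_lit 304) (nat_lit 153)) (XT.lf (nat_lit 0) (nat_lit 203010132641) (nat_lit 228) (nat_lit 12970032262) (nat_lit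 304) (nat_lit 80986613808) (nat_lit 42) (nat_lit 5) (nat_lit 45) (nat_lit 5) (nat_lit 46) (nat_lit 5) (nat_lit 324) (nat_lit 304) (nat_lit 152))))) (XT.nd (nat_lit 234) (nat_lit 532) (nat_lit 0) (XT.nd (nat_lit 78) (nat_lit 304) (nat_lit 0) (XT.lf (nat_lit 0) (nat_lit 138403040971) (nat_lit 152) (nat_lit 169336847863) (nat_lit 228) (nat_lit 4910852654) (nat_lit 40) (nat_lit 5) (nat_lit 42) (nat_lit 5) (nat_lit 43) (nat_lit 5) (nat_lit 325) (nat_lit 304) (nat_lit 151)) (XT.nd (nat_lit 78) (nat_lit 0) (nat_lit 0) (XT.lf (nat_lit 0) (nat_lit 63788793468) (nat_lit 228) (nat_lit 13867580358) (nat_lit 304) (nat_lit 251728846595) (nat_lit 36) (nat_lit 5) (nat_lit 39) (nat_lit 5) (nat_lit 40) (nat_lit 5) (nat_lit 326) (nat_lit 304) (nat_lit 150)) (XT.lf (nat_lit 0) (nat_lit 172149063324) (nat_lit 304) (nat_lit 22753991269) (nat_lit 76) (nat_lit 152276771143) (nat_lit 36) (nat_lit 5) (nat_lit 40)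 (nat_lit 5) (nat_lit 37) (nat_lit 5) (nat_lit 327) (nat_lit 304) (nat_lit 149)))) (XT.nd (nat_lit 78) (nat_lit 380) (nat_lit 0) (XT.lf (nat_lit 0) (nat_lit 247193477542) (nat_lit 152) (nat_lit 31100731839) (nat_lit 228) (nat_lit 87899138224) (nat_lit 34) (nat_lit 5) (nat_lit 36) (nat_lit 5) (nat_lit 37) (nat_lit 5) (nat_lit 328) (nat_lit 304) (nat_lit 148)) (XT.nd (nat_lit 78) (nat_lit 152) (nat_lit 0) (XT.lf (nat_lit 0) (nat_lit 11195691449) (nat_lit 228) (nat_lit 231117072914) (nat_lit 76) (nat_lit 144150784176) (nat_lit 31) (nat_lit 5) (nat_lit 34) (nat_lit 5) (nat_lit 32) (nat_lit 5) (nat_lit 329) (nat_lit 304) (nat_lit 147)) (XT.lf (nat_lit 0) (nat_lit 47105122528) (nat_lit 152) (nat_lit 71441178000) (nat_lit 228) (nat_lit 289566629177) (nat_lit 29) (nat_lit 5) (nat_lit 31) (nat_lit 5) (nat_lit 32) (nat_lit 5) (nat_lit 330) (nat_lit 304) (nat_lit 146))))))))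
noncomputable def xc116 : XT := (XT.nd (nat_lit 39312) (nat_lit 0) (nat_lit 760) (XT.nd (nat_lit 780) (nat_lit 228) (nat_lit 0) (XT.nd (nat_lit 390) (nat_lit 380) (nat_lit 0) (XT.nd (nat_lit 156) (nat_lit 304) (nat_lit 0) (XT.nd (nat_lit 78) (nat_lit 152) (nat_lit 0) (XT.lf (nat_lit 0) (nat_lit 240342523002) (nat_lit 228) (nat_lit 77286813928) (nat_lit 76) (nat_lit 113572046353) (nat_lit 29) (nat_lit 5) (nat_lit 32) (nat_lit 5) (nat_lit 30) (nat_lit 5) (nat_lit 331) (nat_lit 304) (nat_lit 145)) (XT.lf (nat_lit 0) (nat_lit 235463295219) (nat_lit 152) (nat_lit 141299875927) (nat_lit 228) (nat_lit 79129705749) (nat_lit 27) (nat_lit 5) (nat_lit 29) (nat_lit 5) (nat_lit 30) (nat_lit 5) (nat_lit 332) (nat_lit 304) (nat_lit 144))) (XT.nd (nat_lit 78) (nat_lit 152) (nat_lit 0) (XT.lf (nat_lit 0) (nat_lit 43898548424) (nat_lit 152) (nat_lit 387309256976) (nat_lit 76) (nat_lit 51134946876) (nat_lit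 25) (nat_lit 5) (nat_lit 27) (nat_lit 5) (nat_lit 26) (nat_lit 5) (nat_lit 333) (nat_lit 304) (nat_lit 143)) (XT.nd (nat_lit 78) (nat_lit 152) (nat_lit 0) (XT.lf (nat_lit 0) (nat_lit 180318935798) (nat_lit 152) (nat_lit 70891555883) (nat_lit 76) (nat_lit 259317156093) (nat_lit 25) (nat_lit 5) (nat_lit 27) (nat_lit 5) (nat_lit 26) (nat_lit 5) (nat_lit 334) (nat_lit 304) (nat_lit 142)) (XT.lf (nat_lit 0) (nat_lit 279794528979) (nat_lit 152) (nat_lit 52226679226) (nat_lit 228) (nat_lit 208727714111) (nat_lit 23) (nat_lit 5) (nat_lit 25) (nat_lit 5) (nat_lit 26) (nat_lit 5) (nat_lit 335) (nat_lit 304) (nat_lit 141))))) (XT.nd (nat_lit 156) (nat_lit 228) (nat_lit 0) (XT.nd (nat_lit 78) (nat_lit 76) (nat_lit 0) (XT.lf (nat_lit 0) (nat_lit 87997045516) (nat_lit 76) (nat_lit 413031334420) (nat_lit 152) (nat_lit 72101083106) (nat_lit 22) (nat_lit 5) (nat_lit 23) (nat_lit 5) (nat_lit 24) (nat_lit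 4) (nat_lit 336) (nat_lit 304) (nat_lit 140)) (XT.lf (nat_lit 0) (nat_lit 78541324731) (nat_lit 152) (nat_lit 135823393820) (nat_lit 76) (nat_lit 393401789869) (nat_lit 21) (nat_lit 5) (nat_lit 23) (nat_lit 5) (nat_lit 22) (nat_lit 5) (nat_lit 337) (nat_lit 304) (nat_lit 139))) (XT.nd (nat_lit 78) (nat_lit 76) (nat_lit 0) (XT.lf (nat_lit 0) (nat_lit 242703638351) (nat_lit 228) (nat_lit 396849518010) (nat_lit 76) (nat_lit 5362532704) (nat_lit 19) (nat_lit 5) (nat_lit 22) (nat_lit 5) (nat_lit 20) (nat_lit 4) (nat_lit 338) (nat_lit 304) (nat_lit 138)) (XT.nd (nat_lit 78) (nat_lit 76) (nat_lit 0) (XT.lf (nat_lit 0) (nat_lit 426018158216) (nat_lit 228) (nat_lit 21054939723) (nat_lit 76) (nat_lit 237662745240) (nat_lit 19) (nat_lit 5) (nat_lit 22) (nat_lit 5) (nat_lit 20) (nat_lit 4) (nat_lit 339) (nat_lit 304) (nat_lit 137)) (XT.lf (nat_lit 0) (nat_lit 397526367138) (nat_lit 76) (nat_lit 232677879084)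 (nat_lit 152) (nat_lit 97227043140) (nat_lit 18) (nat_lit 5) (nat_lit 19) (nat_lit 5) (nat_lit 20) (nat_lit 4) (nat_lit 340) (nat_lit 304) (nat_lit 136)))))) (XT.nd (nat_lit 38142) (nat_lit 0) (nat_lit 4712) (XT.nd (nat_lit 37908) (nat_lit 0) (nat_lit 5700) (XT.nd (nat_lit 37830) (nat_lit 0) (nat_lit 5700) (XT.lf (nat_lit 0) (nat_lit 76332928972) (nat_lit 228) (nat_lit 695319874953) (nat_lit 76) (nat_lit 1748294739) (nat_lit 15) (nat_lit 5) (nat_lit 18) (nat_lit 5) (nat_lit 16) (nat_lit 4) (nat_lit 341) (nat_lit 304) (nat_lit 135)) (XT.lf (nat_lit 0) (nat_lit 27231090082) (nat_lit 0) (nat_lit 27231090082) (nat_lit 684) (nat_lit 10785515856) (nat_lit 90) (nat_lit 5) (nat_lit 90) (nat_lit 3) (nat_lit 99) (nat_lit 3) (nat_lit 305) (nat_lit 305) (nat_lit 170))) (XT.nd (nat_lit 78) (nat_lit 0) (nat_lit 76) (XT.lf (nat_lit 76) (nat_lit 18517138170) (nat_lit 0) (nat_lit 95698953568) (nat_lit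 760) (nat_lit 21452366745) (nat_lit 91) (nat_lit 5) (nat_lit 90) (nat_lit 5) (nat_lit 100) (nat_lit 5) (nat_lit 306) (nat_lit 305) (nat_lit 169)) (XT.nd (nat_lit 78) (nat_lit 0) (nat_lit 0) (XT.lf (nat_lit 0) (nat_lit 122162297853) (nat_lit 684) (nat_lit 18750118452) (nat_lit 760) (nat_lit 231398265) (nat_lit 91) (nat_lit 5) (nat_lit 100) (nat_lit 5) (nat_lit 101) (nat_lit 5) (nat_lit 307) (nat_lit 305) (nat_lit 168)) (XT.lf (nat_lit 76) (nat_lit 88749732909) (nat_lit 0) (nat_lit 44993238542) (nat_lit 760) (nat_lit 13164290197) (nat_lit 92) (nat_lit 5) (nat_lit 91) (nat_lit 5) (nat_lit 101) (nat_lit 5) (nat_lit 308) (nat_lit 305) (nat_lit 167))))) (XT.nd (nat_lit 156) (nat_lit 456) (nat_lit 0) (XT.nd (nat_lit 78) (nat_lit 684) (nat_lit 0) (XT.lf (nat_lit 76) (nat_lit 53185339337) (nat_lit 0) (nat_lit 95141519071) (nat_lit 760) (nat_lit 4701089089) (nat_lit 93) (nat_lit 5) (nat_lit 92)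 (nat_lit 5) (nat_lit 102) (nat_lit 5) (nat_lit 309) (nat_lit 305) (nat_lit 166)) (XT.lf (nat_lit 0) (nat_lit 6472614005) (nat_lit 760) (nat_lit 144099225816) (nat_lit 836) (nat_lit 8954207511) (nat_lit 83) (nat_lit 5) (nat_lit 93) (nat_lit 5) (nat_lit 94) (nat_lit 5) (nat_lit 310) (nat_lit 305) (nat_lit 165))) (XT.nd (nat_lit 78) (nat_lit 456) (nat_lit 0) (XT.lf (nat_lit 0) (nat_lit 21749245895) (nat_lit 760) (nat_lit 24686279277) (nat_lit 836) (nat_lit 119935930637) (nat_lit 83) (nat_lit 5) (nat_lit 93) (nat_lit 5) (nat_lit 94) (nat_lit 5) (nat_lit 311) (nat_lit 305) (nat_lit 164)) (XT.nd (nat_lit 78) (nat_lit 532) (nat_lit 0) (XT.lf (nat_lit 0) (nat_lit 40988047964) (nat_lit 760) (nat_lit 67011615007) (nat_lit 76) (nat_lit 65627832752) (nat_lit 84) (nat_lit 5) (nat_lit 94) (nat_lit 5) (nat_lit 85) (nat_lit 5) (nat_lit 312) (nat_lit 305) (nat_lit 163)) (XT.lf (nat_lit 0) (nat_lit 64148941027)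 (nat_lit 608) (nat_lit 112141935148) (nat_lit 76) (nat_lit 5053993997) (nat_lit 77) (nat_lit 5) (nat_lit 85) (nat_lit 5) (nat_lit 78) (nat_lit 5) (nat_lit 313) (nat_lit 305) (nat_lit 162))))))) (XT.nd (nat_lit 780) (nat_lit 1520) (nat_lit 0) (XT.nd (nat_lit 390) (nat_lit 1064) (nat_lit 0) (XT.nd (nat_lit 156) (nat_lit 988) (nat_lit 0) (XT.nd (nat_lit 78) (nat_lit 0) (nat_lit 0) (XT.lf (nat_lit 0) (nat_lit 28146663781) (nat_lit 380) (nat_lit 64462646304) (nat_lit 456) (nat_lit 96897994897) (nat_lit 72) (nat_lit 5) (nat_lit 77) (nat_lit 5) (nat_lit 78) (nat_lit 5) (nat_lit 314) (nat_lit 305) (nat_lit 161)) (XT.lf (nat_lit 0) (nat_lit 126210828551) (nat_lit 456) (nat_lit 15473711421) (nat_lit 76) (nat_lit 56494979198) (nat_lit 72) (nat_lit 5) (nat_lit 78) (nat_lit 5) (nat_lit 73) (nat_lit 5) (nat_lit 315) (nat_lit 305) (nat_lit 160))) (XT.nd (nat_lit 78) (nat_lit 684) (nat_lit 0) (XT.lf (nat_lit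 0) (nat_lit 145658891809) (nat_lit 304) (nat_lit 20202373021) (nat_lit 380) (nat_lit 41516206388) (nat_lit 68) (nat_lit 5) (nat_lit 72) (nat_lit 5) (nat_lit 73) (nat_lit 5) (nat_lit 316) (nat_lit 305) (nat_lit 159)) (XT.nd (nat_lit 78) (nat_lit 380) (nat_lit 0) (XT.lf (nat_lit 0) (nat_lit 104545250840) (nat_lit 304) (nat_lit 107777398376) (nat_lit 380) (nat_lit 4806665057) (nat_lit 64) (nat_lit 5) (nat_lit 68) (nat_lit 5) (nat_lit 69) (nat_lit 5) (nat_lit 317) (nat_lit 305) (nat_lit 158)) (XT.lf (nat_lit 0) (nat_lit 36458830340) (nat_lit 380) (nat_lit 168169375194) (nat_lit 76) (nat_lit 22869188621) (nat_lit 59) (nat_lit 5) (nat_lit 64) (nat_lit 5) (nat_lit 60) (nat_lit 5) (nat_lit 318) (nat_lit 305) (nat_lit 157))))) (XT.nd (nat_lit 156) (nat_lit 760) (nat_lit 0) (XT.nd (nat_lit 78) (nat_lit 0) (nat_lit 0) (XT.lf (nat_lit 0) (nat_lit 8766285350) (nat_lit 304) (nat_lit 76040350220) (nat_lit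 380) (nat_lit 153686871762) (nat_lit 55) (nat_lit 5) (nat_lit 59) (nat_lit 5) (nat_lit 60) (nat_lit 5) (nat_lit 319) (nat_lit 305) (nat_lit 156)) (XT.lf (nat_lit 0) (nat_lit 140980466450) (nat_lit 380) (nat_lit 45390123880) (nat_lit 76) (nat_lit 63800809553) (nat_lit 55) (nat_lit 5) (nat_lit 60) (nat_lit 5) (nat_lit 56) (nat_lit 5) (nat_lit 320) (nat_lit 305) (nat_lit 155))) (XT.nd (nat_lit 78) (nat_lit 532) (nat_lit 0) (XT.lf (nat_lit 0) (nat_lit 157450886428) (nat_lit 228) (nat_lit 47937517529) (nat_lit 304) (nat_lit 57208110224) (nat_lit 52) (nat_lit 5) (nat_lit 55) (nat_lit 5) (nat_lit 56) (nat_lit 5) (nat_lit 321) (nat_lit 305) (nat_lit 154)) (XT.nd (nat_lit 78) (nat_lit 228) (nat_lit 0) (XT.lf (nat_lit 0) (nat_lit 3044457512) (nat_lit 304) (nat_lit 171974154435) (nat_lit 76) (nat_lit 100794009720) (nat_lit 48) (nat_lit 5) (nat_lit 52) (nat_lit 5) (nat_lit 49) (nat_lit 5) (nat_lit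 322) (nat_lit 305) (nat_lit 153)) (XT.lf (nat_lit 0) (nat_lit 42870434990) (nat_lit 228) (nat_lit 26608325211) (nat_lit 304) (nat_lit 220392074796) (nat_lit 45) (nat_lit 5) (nat_lit 48) (nat_lit 5) (nat_lit 49) (nat_lit 5) (nat_lit 323) (nat_lit 305) (nat_lit 152)))))) (XT.nd (nat_lit 390) (nat_lit 836) (nat_lit 0) (XT.nd (nat_lit 156) (nat_lit 456) (nat_lit 0) (XT.nd (nat_lit 78) (nat_lit 228) (nat_lit 0) (XT.lf (nat_lit 0) (nat_lit 146359434800) (nat_lit 304) (nat_lit 25996613191) (nat_lit 76) (nat_lit 132441076281) (nat_lit 45) (nat_lit 5) (nat_lit 49) (nat_lit 5) (nat_lit 46) (nat_lit 5) (nat_lit 324) (nat_lit 305) (nat_lit 151)) (XT.lf (nat_lit 0) (nat_lit 219256119873) (nat_lit 228) (nat_lit 14006127048) (nat_lit 304) (nat_lit 87461685838) (nat_lit 42) (nat_lit 5) (nat_lit 45) (nat_lit 5) (nat_lit 46) (nat_lit 5) (nat_lit 325) (nat_lit 305) (nat_lit 150))) (XT.nd (nat_lit 78) (nat_lit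 304) (nat_lit 0) (XT.lf (nat_lit 0) (nat_lit 149480393448) (nat_lit 152) (nat_lit 182882185120) (nat_lit 228) (nat_lit 5300042858) (nat_lit 40) (nat_lit 5) (nat_lit 42) (nat_lit 5) (nat_lit 43) (nat_lit 5) (nat_lit 326) (nat_lit 305) (nat_lit 149)) (XT.nd (nat_lit 78) (nat_lit 0) (nat_lit 0) (XT.lf (nat_lit 0) (nat_lit 68896900764) (nat_lit 228) (nat_lit 14975357657) (nat_lit 304) (nat_lit 271863606976) (nat_lit 36) (nat_lit 5) (nat_lit 39) (nat_lit 5) (nat_lit 40) (nat_lit 5) (nat_lit 327) (nat_lit 305) (nat_lit 148)) (XT.lf (nat_lit 0) (nat_lit 185924136653) (nat_lit 304) (nat_lit 24569541087) (nat_lit 76) (nat_lit 164460373008) (nat_lit 36) (nat_lit 5) (nat_lit 40) (nat_lit 5) (nat_lit 37) (nat_lit 5) (nat_lit 328) (nat_lit 305) (nat_lit 147))))) (XT.nd (nat_lit 234) (nat_lit 304) (nat_lit 0) (XT.nd (nat_lit 78) (nat_lit 380) (nat_lit 0) (XT.lf (nat_lit 0) (nat_lit 266973517953) (nat_lit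 152) (nat_lit 33587214466) (nat_lit 228) (nat_lit 94927930317) (nat_lit 34) (nat_lit 5) (nat_lit 36) (nat_lit 5) (nat_lit 37) (nat_lit 5) (nat_lit 329) (nat_lit 305) (nat_lit 146)) (XT.nd (nat_lit 78) (nat_lit 152) (nat_lit 0) (XT.lf (nat_lit 0) (nat_lit 12094254540) (nat_lit 228) (nat_lit 249601853188) (nat_lit 76) (nat_lit 155684376338) (nat_lit 31) (nat_lit 5) (nat_lit 34) (nat_lit 5) (nat_lit 32) (nat_lit 5) (nat_lit 330) (nat_lit 305) (nat_lit 145)) (XT.lf (nat_lit 0) (nat_lit 50877918607) (nat_lit 152) (nat_lit 77154846830) (nat_lit 228) (nat_lit 312729057855) (nat_lit 29) (nat_lit 5) (nat_lit 31) (nat_lit 5) (nat_lit 32) (nat_lit 5) (nat_lit 331) (nat_lit 305) (nat_lit 144)))) (XT.nd (nat_lit 78) (nat_lit 304) (nat_lit 0) (XT.lf (nat_lit 0) (nat_lit 259572504697) (nat_lit 228) (nat_lit 83465590812) (nat_lit 76) (nat_lit 122659266900) (nat_lit 29) (nat_lit 5) (nat_lit 32) (nat_lit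 5) (nat_lit 30) (nat_lit 5) (nat_lit 332) (nat_lit 305) (nat_lit 143)) (XT.nd (nat_lit 78) (nat_lit 152) (nat_lit 0) (XT.lf (nat_lit 0) (nat_lit 254304345921) (nat_lit 152) (nat_lit 152602329920) (nat_lit 228) (nat_lit 85457506300) (nat_lit 27) (nat_lit 5) (nat_lit 29) (nat_lit 5) (nat_lit 30) (nat_lit 5) (nat_lit 333) (nat_lit 305) (nat_lit 142)) (XT.lf (nat_lit 0) (nat_lit 47412825684) (nat_lit 152) (nat_lit 418290005973) (nat_lit 76) (nat_lit 55227219056) (nat_lit 25) (nat_lit 5) (nat_lit 27) (nat_lit 5) (nat_lit 26) (nat_lit 5) (nat_lit 334) (nat_lit 305) (nat_lit 141))))))))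
noncomputable def xc117 : XT := (XT.nd (nat_lit 39546) (nat_lit 0) (nat_lit 0) (XT.nd (nat_lit 38688) (nat_lit 0) (nat_lit 2736) (XT.nd (nat_lit 390) (nat_lit 0) (nat_lit 0) (XT.nd (nat_lit 156) (nat_lit 304) (nat_lit 0) (XT.nd (nat_lit 78) (nat_lit 152) (nat_lit 0) (XT.lf (nat_lit 0) (nat_lit 194746666760) (nat_lit 152) (nat_lit 76559184464) (nat_lit 76) (nat_lit 280063895644) (nat_lit 25) (nat_lit 5) (nat_lit 27) (nat_lit 5) (nat_lit 26) (nat_lit 5) (nat_lit 335) (nat_lit 305) (nat_lit 140)) (XT.lf (nat_lit 0) (nat_lit 302181626568) (nat_lit 152) (nat_lit 56403385431) (nat_lit 228) (nat_lit 225423716964) (nat_lit 23) (nat_lit 5) (nat_lit 25) (nat_lit 5) (nat_lit 26) (nat_lit 5) (nat_lit 336) (nat_lit 305) (nat_lit 139))) (XT.nd (nat_lit 78) (nat_lit 228) (nat_lit 0) (XT.lf (nat_lit 0) (nat_lit 95040271944) (nat_lit 76) (nat_lit 446072404151) (nat_lit 152) (nat_lit 77867041054) (nat_lit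 22) (nat_lit 5) (nat_lit 23) (nat_lit 5) (nat_lit 24) (nat_lit 4) (nat_lit 337) (nat_lit 305) (nat_lit 138)) (XT.nd (nat_lit 78) (nat_lit 152) (nat_lit 0) (XT.lf (nat_lit 0) (nat_lit 84826538643) (nat_lit 152) (nat_lit 146685994503) (nat_lit 76) (nat_lit 424875199096) (nat_lit 21) (nat_lit 5) (nat_lit 23) (nat_lit 5) (nat_lit 22) (nat_lit 5) (nat_lit 338) (nat_lit 305) (nat_lit 137)) (XT.lf (nat_lit 0) (nat_lit 262121765375) (nat_lit 228) (nat_lit 428594279159) (nat_lit 76) (nat_lit 5792806512) (nat_lit 19) (nat_lit 5) (nat_lit 22) (nat_lit 5) (nat_lit 20) (nat_lit 4) (nat_lit 339) (nat_lit 305) (nat_lit 136))))) (XT.nd (nat_lit 38064) (nat_lit 0) (nat_lit 5396) (XT.nd (nat_lit 37986) (nat_lit 0) (nat_lit 5396) (XT.lf (nat_lit 0) (nat_lit 460101310832) (nat_lit 228) (nat_lit 22736371668) (nat_lit 76) (nat_lit 256676941888) (nat_lit 19) (nat_lit 5) (nat_lit 22) (nat_lit 5) (nat_lit 20)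 (nat_lit 4) (nat_lit 340) (nat_lit 305) (nat_lit 135)) (XT.lf (nat_lit 0) (nat_lit 29412332451) (nat_lit 0) (nat_lit 29412332451) (nat_lit 684) (nat_lit 11642560166) (nat_lit 90) (nat_lit 5) (nat_lit 90) (nat_lit 3) (nat_lit 99) (nat_lit 3) (nat_lit 306) (nat_lit 306) (nat_lit 168))) (XT.nd (nat_lit 78) (nat_lit 0) (nat_lit 76) (XT.lf (nat_lit 76) (nat_lit 20004410723) (nat_lit 0) (nat_lit 103359185140) (nat_lit 760) (nat_lit 23157807873) (nat_lit 91) (nat_lit 5) (nat_lit 90) (nat_lit 5) (nat_lit 100) (nat_lit 5) (nat_lit 307) (nat_lit 306) (nat_lit 167)) (XT.nd (nat_lit 78) (nat_lit 0) (nat_lit 0) (XT.lf (nat_lit 0) (nat_lit 131944679285) (nat_lit 684) (nat_lit 20244109132) (nat_lit 760) (nat_lit 246042376) (nat_lit 91) (nat_lit 5) (nat_lit 100) (nat_lit 5) (nat_lit 101) (nat_lit 5) (nat_lit 308) (nat_lit 306) (nat_lit 166)) (XT.lf (nat_lit 76) (nat_lit 95855468768) (nat_lit 0) (nat_lit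 48595731770) (nat_lit 760) (nat_lit 14208184823) (nat_lit 92) (nat_lit 5) (nat_lit 91) (nat_lit 5) (nat_lit 101) (nat_lit 5) (nat_lit 309) (nat_lit 306) (nat_lit 165)))))) (XT.nd (nat_lit 390) (nat_lit 1672) (nat_lit 0) (XT.nd (nat_lit 156) (nat_lit 456) (nat_lit 0) (XT.nd (nat_lit 78) (nat_lit 684) (nat_lit 0) (XT.lf (nat_lit 76) (nat_lit 57446156169) (nat_lit 0) (nat_lit 102755040723) (nat_lit 760) (nat_lit 5068560571) (nat_lit 93) (nat_lit 5) (nat_lit 92) (nat_lit 5) (nat_lit 102) (nat_lit 5) (nat_lit 310) (nat_lit 306) (nat_lit 164)) (XT.lf (nat_lit 0) (nat_lit 6998210823) (nat_lit 760) (nat_lit 155620722408) (nat_lit 836) (nat_lit 9668794092) (nat_lit 83) (nat_lit 5) (nat_lit 93) (nat_lit 5) (nat_lit 94) (nat_lit 5) (nat_lit 311) (nat_lit 306) (nat_lit 163))) (XT.nd (nat_lit 78) (nat_lit 456) (nat_lit 0) (XT.lf (nat_lit 0) (nat_lit 23496396398) (nat_lit 760) (nat_lit 26655217292)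 (nat_lit 836) (nat_lit 129529184699) (nat_lit 83) (nat_lit 5) (nat_lit 93) (nat_lit 5) (nat_lit 94) (nat_lit 5) (nat_lit 312) (nat_lit 306) (nat_lit 162)) (XT.nd (nat_lit 78) (nat_lit 532) (nat_lit 0) (XT.lf (nat_lit 0) (nat_lit 44273841010) (nat_lit 760) (nat_lit 72366471879) (nat_lit 76) (nat_lit 70877032676) (nat_lit 84) (nat_lit 5) (nat_lit 94) (nat_lit 5) (nat_lit 85) (nat_lit 5) (nat_lit 313) (nat_lit 306) (nat_lit 161)) (XT.lf (nat_lit 0) (nat_lit 69287187964) (nat_lit 608) (nat_lit 121107144790) (nat_lit 76) (nat_lit 5457799008) (nat_lit 77) (nat_lit 5) (nat_lit 85) (nat_lit 5) (nat_lit 78) (nat_lit 5) (nat_lit 314) (nat_lit 306) (nat_lit 160))))) (XT.nd (nat_lit 234) (nat_lit 988) (nat_lit 0) (XT.nd (nat_lit 78) (nat_lit 304) (nat_lit 0) (XT.lf (nat_lit 0) (nat_lit 30404274991) (nat_lit 380) (nat_lit 69619734318) (nat_lit 456) (nat_lit 104643571758) (nat_lit 72) (nat_lit 5) (nat_lit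 77) (nat_lit 5) (nat_lit 78) (nat_lit 5) (nat_lit 315) (nat_lit 306) (nat_lit 159)) (XT.nd (nat_lit 78) (nat_lit 304) (nat_lit 0) (XT.lf (nat_lit 0) (nat_lit 136313207080) (nat_lit 456) (nat_lit 16705879064) (nat_lit 76) (nat_lit 61014509138) (nat_lit 72) (nat_lit 5) (nat_lit 78) (nat_lit 5) (nat_lit 73) (nat_lit 5) (nat_lit 316) (nat_lit 306) (nat_lit 158)) (XT.lf (nat_lit 0) (nat_lit 157317083437) (nat_lit 304) (nat_lit 21818272073) (nat_lit 380) (nat_lit 44832044849) (nat_lit 68) (nat_lit 5) (nat_lit 72) (nat_lit 5) (nat_lit 73) (nat_lit 5) (nat_lit 317) (nat_lit 306) (nat_lit 157)))) (XT.nd (nat_lit 78) (nat_lit 684) (nat_lit 0) (XT.lf (nat_lit 0) (nat_lit 112914365567) (nat_lit 304) (nat_lit 116398990664) (nat_lit 380) (nat_lit 5186050021) (nat_lit 64) (nat_lit 5) (nat_lit 68) (nat_lit 5) (nat_lit 69) (nat_lit 5) (nat_lit 318) (nat_lit 306) (nat_lit 156)) (XT.nd (nat_lit 78) (nat_lit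 304) (nat_lit 0) (XT.lf (nat_lit 0) (nat_lit 39380247001) (nat_lit 380) (nat_lit 181617272978) (nat_lit 76) (nat_lit 24699422782) (nat_lit 59) (nat_lit 5) (nat_lit 64) (nat_lit 5) (nat_lit 60) (nat_lit 5) (nat_lit 319) (nat_lit 306) (nat_lit 155)) (XT.lf (nat_lit 0) (nat_lit 9472994771) (nat_lit 304) (nat_lit 82122617384) (nat_lit 380) (nat_lit 165977146611) (nat_lit 55) (nat_lit 5) (nat_lit 59) (nat_lit 5) (nat_lit 60) (nat_lit 5) (nat_lit 320) (nat_lit 306) (nat_lit 154))))))) (XT.nd (nat_lit 780) (nat_lit 1140) (nat_lit 0) (XT.nd (nat_lit 390) (nat_lit 836) (nat_lit 0) (XT.nd (nat_lit 156) (nat_lit 532) (nat_lit 0) (XT.nd (nat_lit 78) (nat_lit 228) (nat_lit 0) (XT.lf (nat_lit 0) (nat_lit 152263034082) (nat_lit 380) (nat_lit 49016129397) (nat_lit 76) (nat_lit 68905735521) (nat_lit 55) (nat_lit 5) (nat_lit 60) (nat_lit 5) (nat_lit 56) (nat_lit 5) (nat_lit 321) (nat_lit 306) (nat_lit 153))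 (XT.lf (nat_lit 0) (nat_lit 170051935558) (nat_lit 228) (nat_lit 51771442805) (nat_lit 304) (nat_lit 61780655960) (nat_lit 52) (nat_lit 5) (nat_lit 55) (nat_lit 5) (nat_lit 56) (nat_lit 5) (nat_lit 322) (nat_lit 306) (nat_lit 152))) (XT.nd (nat_lit 78) (nat_lit 228) (nat_lit 0) (XT.lf (nat_lit 0) (nat_lit 3291785839) (nat_lit 304) (nat_lit 185727018835) (nat_lit 76) (nat_lit 108858632950) (nat_lit 48) (nat_lit 5) (nat_lit 52) (nat_lit 5) (nat_lit 49) (nat_lit 5) (nat_lit 323) (nat_lit 306) (nat_lit 151)) (XT.nd (nat_lit 78) (nat_lit 0) (nat_lit 0) (XT.lf (nat_lit 0) (nat_lit 46304917497) (nat_lit 228) (nat_lit 28735711545) (nat_lit 304) (nat_lit 238019689547) (nat_lit 45) (nat_lit 5) (nat_lit 48) (nat_lit 5) (nat_lit 49) (nat_lit 5) (nat_lit 324) (nat_lit 306) (nat_lit 150)) (XT.lf (nat_lit 0) (nat_lit 158071511810) (nat_lit 304) (nat_lit 28071702491) (nat_lit 76) (nat_lit 143037509352)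 (nat_lit 45) (nat_lit 5) (nat_lit 49) (nat_lit 5) (nat_lit 46) (nat_lit 5) (nat_lit 325) (nat_lit 306) (nat_lit 149))))) (XT.nd (nat_lit 156) (nat_lit 456) (nat_lit 0) (XT.nd (nat_lit 78) (nat_lit 152) (nat_lit 0) (XT.lf (nat_lit 0) (nat_lit 236801047581) (nat_lit 228) (nat_lit 15125324521) (nat_lit 304) (nat_lit 94455313887) (nat_lit 42) (nat_lit 5) (nat_lit 45) (nat_lit 5) (nat_lit 46) (nat_lit 5) (nat_lit 326) (nat_lit 306) (nat_lit 148)) (XT.lf (nat_lit 0) (nat_lit 161443205240) (nat_lit 152) (nat_lit 197511379123) (nat_lit 228) (nat_lit 5720892987) (nat_lit 40) (nat_lit 5) (nat_lit 42) (nat_lit 5) (nat_lit 43) (nat_lit 5) (nat_lit 327) (nat_lit 306) (nat_lit 147))) (XT.nd (nat_lit 78) (nat_lit 152) (nat_lit 0) (XT.lf (nat_lit 0) (nat_lit 74412942793) (nat_lit 228) (nat_lit 16171989553) (nat_lit 304) (nat_lit 293609654255) (nat_lit 36) (nat_lit 5) (nat_lit 39) (nat_lit 5) (nat_lit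 40) (nat_lit 5) (nat_lit 328) (nat_lit 306) (nat_lit 146)) (XT.nd (nat_lit 78) (nat_lit 152) (nat_lit 0) (XT.lf (nat_lit 0) (nat_lit 200800766712) (nat_lit 304) (nat_lit 26531015311) (nat_lit 76) (nat_lit 177618454712) (nat_lit 36) (nat_lit 5) (nat_lit 40) (nat_lit 5) (nat_lit 37) (nat_lit 5) (nat_lit 329) (nat_lit 306) (nat_lit 145)) (XT.lf (nat_lit 0) (nat_lit 288335310746) (nat_lit 152) (nat_lit 36272840525) (nat_lit 228) (nat_lit 102519473585) (nat_lit 34) (nat_lit 5) (nat_lit 36) (nat_lit 5) (nat_lit 37) (nat_lit 5) (nat_lit 330) (nat_lit 306) (nat_lit 144)))))) (XT.nd (nat_lit 390) (nat_lit 456) (nat_lit 0) (XT.nd (nat_lit 156) (nat_lit 304) (nat_lit 0) (XT.nd (nat_lit 78) (nat_lit 152) (nat_lit 0) (XT.lf (nat_lit 0) (nat_lit 13064287852) (nat_lit 228) (nat_lit 269566070066) (nat_lit 76) (nat_lit 168140437684) (nat_lit 31) (nat_lit 5) (nat_lit 34) (nat_lit 5) (nat_lit 32) (nat_lit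 5) (nat_lit 331) (nat_lit 306) (nat_lit 143)) (XT.lf (nat_lit 0) (nat_lit 54951912620) (nat_lit 152) (nat_lit 83325841050) (nat_lit 228) (nat_lit 337744894780) (nat_lit 29) (nat_lit 5) (nat_lit 31) (nat_lit 5) (nat_lit 32) (nat_lit 5) (nat_lit 332) (nat_lit 306) (nat_lit 142))) (XT.nd (nat_lit 78) (nat_lit 304) (nat_lit 0) (XT.lf (nat_lit 0) (nat_lit 280340516883) (nat_lit 228) (nat_lit 90139264491) (nat_lit 76) (nat_lit 132473257258) (nat_lit 29) (nat_lit 5) (nat_lit 32) (nat_lit 5) (nat_lit 30) (nat_lit 5) (nat_lit 333) (nat_lit 306) (nat_lit 141)) (XT.nd (nat_lit 78) (nat_lit 152) (nat_lit 0) (XT.lf (nat_lit 0) (nat_lit 274652111877) (nat_lit 152) (nat_lit 164809199372) (nat_lit 228) (nat_lit 92291898376) (nat_lit 27) (nat_lit 5) (nat_lit 29) (nat_lit 5) (nat_lit 30) (nat_lit 5) (nat_lit 334) (nat_lit 306) (nat_lit 140)) (XT.lf (nat_lit 0) (nat_lit 51207903681) (nat_lit 152) (nat_lit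 451749784330) (nat_lit 76) (nat_lit 59646662380) (nat_lit 25) (nat_lit 5) (nat_lit 27) (nat_lit 5) (nat_lit 26) (nat_lit 5) (nat_lit 335) (nat_lit 306) (nat_lit 139))))) (XT.nd (nat_lit 234) (nat_lit 228) (nat_lit 0) (XT.nd (nat_lit 78) (nat_lit 228) (nat_lit 0) (XT.lf (nat_lit 0) (nat_lit 210328300047) (nat_lit 152) (nat_lit 82680750591) (nat_lit 76) (nat_lit 302470179332) (nat_lit 25) (nat_lit 5) (nat_lit 27) (nat_lit 5) (nat_lit 26) (nat_lit 5) (nat_lit 336) (nat_lit 306) (nat_lit 138)) (XT.nd (nat_lit 78) (nat_lit 76) (nat_lit 0) (XT.lf (nat_lit 0) (nat_lit 326359187619) (nat_lit 152) (nat_lit 60914431872) (nat_lit 228) (nat_lit 243455715937) (nat_lit 23) (nat_lit 5) (nat_lit 25) (nat_lit 5) (nat_lit 26) (nat_lit 5) (nat_lit 337) (nat_lit 306) (nat_lit 137)) (XT.lf (nat_lit 0) (nat_lit 102646462480) (nat_lit 76) (nat_lit 481756964468) (nat_lit 152) (nat_lit 84094579322) (nat_lit 22)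 (nat_lit 5) (nat_lit 23) (nat_lit 5) (nat_lit 24) (nat_lit 4) (nat_lit 338) (nat_lit 306) (nat_lit 136)))) (XT.nd (nat_lit 78) (nat_lit 152) (nat_lit 0) (XT.lf (nat_lit 0) (nat_lit 91614297480) (nat_lit 152) (nat_lit 158418069861) (nat_lit 76) (nat_lit 458866300447) (nat_lit 21) (nat_lit 5) (nat_lit 23) (nat_lit 5) (nat_lit 22) (nat_lit 5) (nat_lit 339) (nat_lit 306) (nat_lit 135)) (XT.nd (nat_lit 38064) (nat_lit 0) (nat_lit 5396) (XT.lf (nat_lit 0) (nat_lit 283093080641) (nat_lit 228) (nat_lit 462879077757) (nat_lit 76) (nat_lit 6257320875) (nat_lit 19) (nat_lit 5) (nat_lit 22) (nat_lit 5) (nat_lit 20) (nat_lit 4) (nat_lit 340) (nat_lit 306) (nat_lit 134)) (XT.lf (nat_lit 0) (nat_lit 31767681155) (nat_lit 0) (nat_lit 31767681155) (nat_lit 684) (nat_lit 12568995022) (nat_lit 90) (nat_lit 5) (nat_lit 90) (nat_lit 3) (nat_lit 99) (nat_lit 3) (nat_lit 307) (nat_lit 307) (nat_lit 166))))))))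
noncomputable def xc118 : XT := (XT.nd (nat_lit 1560) (nat_lit 1596) (nat_lit 0) (XT.nd (nat_lit 780) (nat_lit 2280) (nat_lit 0) (XT.nd (nat_lit 390) (nat_lit 836) (nat_lit 0) (XT.nd (nat_lit 156) (nat_lit 532) (nat_lit 0) (XT.nd (nat_lit 78) (nat_lit 0) (nat_lit 76) (XT.lf (nat_lit 76) (nat_lit 21609823165) (nat_lit 0) (nat_lit 111631619614) (nat_lit 760) (nat_lit 25001217643) (nat_lit 91) (nat_lit 5) (nat_lit 90) (nat_lit 5) (nat_lit 100) (nat_lit 5) (nat_lit 308) (nat_lit 307) (nat_lit 165)) (XT.lf (nat_lit 0) (nat_lit 142508310558) (nat_lit 684) (nat_lit 21858477716) (nat_lit 760) (nat_lit 262409793) (nat_lit 91) (nat_lit 5) (nat_lit 100) (nat_lit 5) (nat_lit 101) (nat_lit 5) (nat_lit 309) (nat_lit 307) (nat_lit 164))) (XT.nd (nat_lit 78) (nat_lit 608) (nat_lit 0) (XT.lf (nat_lit 76) (nat_lit 103528842163) (nat_lit 0) (nat_lit 52485991603) (nat_lit 760) (nat_lit 15336910434) (nat_lit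 92) (nat_lit 5) (nat_lit 91) (nat_lit 5) (nat_lit 101) (nat_lit 5) (nat_lit 310) (nat_lit 307) (nat_lit 163)) (XT.nd (nat_lit 78) (nat_lit 684) (nat_lit 0) (XT.lf (nat_lit 76) (nat_lit 62046983852) (nat_lit 0) (nat_lit 110977330235) (nat_lit 760) (nat_lit 5466658890) (nat_lit 93) (nat_lit 5) (nat_lit 92) (nat_lit 5) (nat_lit 102) (nat_lit 5) (nat_lit 311) (nat_lit 307) (nat_lit 162)) (XT.lf (nat_lit 0) (nat_lit 7564744384) (nat_lit 760) (nat_lit 168064857675) (nat_lit 836) (nat_lit 10440797259) (nat_lit 83) (nat_lit 5) (nat_lit 93) (nat_lit 5) (nat_lit 94) (nat_lit 5) (nat_lit 312) (nat_lit 307) (nat_lit 161))))) (XT.nd (nat_lit 156) (nat_lit 836) (nat_lit 0) (XT.nd (nat_lit 78) (nat_lit 0) (nat_lit 76) (XT.lf (nat_lit 0) (nat_lit 25382290235) (nat_lit 760) (nat_lit 28782521226) (nat_lit 836) (nat_lit 139890130252) (nat_lit 83) (nat_lit 5) (nat_lit 93) (nat_lit 5) (nat_lit 94) (nat_lit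 5) (nat_lit 313) (nat_lit 307) (nat_lit 160)) (XT.lf (nat_lit 0) (nat_lit 47821534649) (nat_lit 760) (nat_lit 78150583587) (nat_lit 76) (nat_lit 76546315063) (nat_lit 84) (nat_lit 5) (nat_lit 94) (nat_lit 5) (nat_lit 85) (nat_lit 5) (nat_lit 314) (nat_lit 307) (nat_lit 159))) (XT.nd (nat_lit 78) (nat_lit 380) (nat_lit 0) (XT.lf (nat_lit 0) (nat_lit 74835591374) (nat_lit 608) (nat_lit 130790447882) (nat_lit 76) (nat_lit 5893981821) (nat_lit 77) (nat_lit 5) (nat_lit 85) (nat_lit 5) (nat_lit 78) (nat_lit 5) (nat_lit 315) (nat_lit 307) (nat_lit 158)) (XT.nd (nat_lit 78) (nat_lit 0) (nat_lit 0) (XT.lf (nat_lit 0) (nat_lit 32841656520) (nat_lit 380) (nat_lit 75189378486) (nat_lit 456) (nat_lit 113009688217) (nat_lit 72) (nat_lit 5) (nat_lit 77) (nat_lit 5) (nat_lit 78) (nat_lit 5) (nat_lit 316) (nat_lit 307) (nat_lit 157)) (XT.lf (nat_lit 0) (nat_lit 147222989509) (nat_lit 456) (nat_lit 18037437462)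 (nat_lit 76) (nat_lit 65895611232) (nat_lit 72) (nat_lit 5) (nat_lit 78) (nat_lit 5) (nat_lit 73) (nat_lit 5) (nat_lit 317) (nat_lit 307) (nat_lit 156)))))) (XT.nd (nat_lit 390) (nat_lit 988) (nat_lit 0) (XT.nd (nat_lit 156) (nat_lit 684) (nat_lit 0) (XT.nd (nat_lit 78) (nat_lit 304) (nat_lit 0) (XT.lf (nat_lit 0) (nat_lit 169907148572) (nat_lit 304) (nat_lit 23563484533) (nat_lit 380) (nat_lit 48413929039) (nat_lit 68) (nat_lit 5) (nat_lit 72) (nat_lit 5) (nat_lit 73) (nat_lit 5) (nat_lit 318) (nat_lit 307) (nat_lit 155)) (XT.lf (nat_lit 0) (nat_lit 121952225597) (nat_lit 304) (nat_lit 125710395872) (nat_lit 380) (nat_lit 5596520237) (nat_lit 64) (nat_lit 5) (nat_lit 68) (nat_lit 5) (nat_lit 69) (nat_lit 5) (nat_lit 319) (nat_lit 307) (nat_lit 154))) (XT.nd (nat_lit 78) (nat_lit 304) (nat_lit 0) (XT.lf (nat_lit 0) (nat_lit 42534705027) (nat_lit 380) (nat_lit 196141808938) (nat_lit 76)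 (nat_lit 26675975946) (nat_lit 59) (nat_lit 5) (nat_lit 64) (nat_lit 5) (nat_lit 60) (nat_lit 5) (nat_lit 320) (nat_lit 307) (nat_lit 153)) (XT.nd (nat_lit 78) (nat_lit 0) (nat_lit 0) (XT.lf (nat_lit 0) (nat_lit 10235469635) (nat_lit 304) (nat_lit 88691602998) (nat_lit 380) (nat_lit 179251310373) (nat_lit 55) (nat_lit 5) (nat_lit 59) (nat_lit 5) (nat_lit 60) (nat_lit 5) (nat_lit 321) (nat_lit 307) (nat_lit 152)) (XT.lf (nat_lit 0) (nat_lit 164447617889) (nat_lit 380) (nat_lit 52932957821) (nat_lit 76) (nat_lit 74418932706) (nat_lit 55) (nat_lit 5) (nat_lit 60) (nat_lit 5) (nat_lit 56) (nat_lit 5) (nat_lit 322) (nat_lit 307) (nat_lit 151))))) (XT.nd (nat_lit 156) (nat_lit 456) (nat_lit 0) (XT.nd (nat_lit 78) (nat_lit 304) (nat_lit 0) (XT.lf (nat_lit 0) (nat_lit 183660358421) (nat_lit 228) (nat_lit 55912235625) (nat_lit 304) (nat_lit 66719590706) (nat_lit 52) (nat_lit 5) (nat_lit 55) (nat_lit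 5) (nat_lit 56) (nat_lit 5) (nat_lit 323) (nat_lit 307) (nat_lit 150)) (XT.lf (nat_lit 0) (nat_lit 3558362353) (nat_lit 304) (nat_lit 200580835386) (nat_lit 76) (nat_lit 117568268762) (nat_lit 48) (nat_lit 5) (nat_lit 52) (nat_lit 5) (nat_lit 49) (nat_lit 5) (nat_lit 324) (nat_lit 307) (nat_lit 149))) (XT.nd (nat_lit 78) (nat_lit 228) (nat_lit 0) (XT.lf (nat_lit 0) (nat_lit 50013467026) (nat_lit 228) (nat_lit 31033471346) (nat_lit 304) (nat_lit 257058048633) (nat_lit 45) (nat_lit 5) (nat_lit 48) (nat_lit 5) (nat_lit 49) (nat_lit 5) (nat_lit 325) (nat_lit 307) (nat_lit 148)) (XT.nd (nat_lit 78) (nat_lit 228) (nat_lit 0) (XT.lf (nat_lit 0) (nat_lit 170720081029) (nat_lit 304) (nat_lit 30313460847) (nat_lit 76) (nat_lit 154481493440) (nat_lit 45) (nat_lit 5) (nat_lit 49) (nat_lit 5) (nat_lit 46) (nat_lit 5) (nat_lit 326) (nat_lit 307) (nat_lit 147)) (XT.lf (nat_lit 0) (nat_lit 255748936358)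 (nat_lit 228) (nat_lit 16334242208) (nat_lit 304) (nat_lit 102008903933) (nat_lit 42) (nat_lit 5) (nat_lit 45) (nat_lit 5) (nat_lit 46) (nat_lit 5) (nat_lit 327) (nat_lit 307) (nat_lit 146))))))) (XT.nd (nat_lit 780) (nat_lit 304) (nat_lit 0) (XT.nd (nat_lit 390) (nat_lit 456) (nat_lit 0) (XT.nd (nat_lit 156) (nat_lit 380) (nat_lit 0) (XT.nd (nat_lit 78) (nat_lit 304) (nat_lit 0) (XT.lf (nat_lit 0) (nat_lit 174362417073) (nat_lit 152) (nat_lit 213311105633) (nat_lit 228) (nat_lit 6175860979) (nat_lit 40) (nat_lit 5) (nat_lit 42) (nat_lit 5) (nat_lit 43) (nat_lit 5) (nat_lit 328) (nat_lit 307) (nat_lit 145)) (XT.lf (nat_lit 0) (nat_lit 80369656172) (nat_lit 228) (nat_lit 17464551259) (nat_lit 304) (nat_lit 317095819190) (nat_lit 36) (nat_lit 5) (nat_lit 39) (nat_lit 5) (nat_lit 40) (nat_lit 5) (nat_lit 329) (nat_lit 307) (nat_lit 144))) (XT.nd (nat_lit 78) (nat_lit 380) (nat_lit 0) (XT.lf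 (nat_lit 0) (nat_lit 216867142116) (nat_lit 304) (nat_lit 28649990824) (nat_lit 76) (nat_lit 191829004360) (nat_lit 36) (nat_lit 5) (nat_lit 40) (nat_lit 5) (nat_lit 37) (nat_lit 5) (nat_lit 330) (nat_lit 307) (nat_lit 143)) (XT.nd (nat_lit 78) (nat_lit 228) (nat_lit 0) (XT.lf (nat_lit 0) (nat_lit 311405488964) (nat_lit 152) (nat_lit 39173509419) (nat_lit 228) (nat_lit 110718724238) (nat_lit 34) (nat_lit 5) (nat_lit 36) (nat_lit 5) (nat_lit 37) (nat_lit 5) (nat_lit 331) (nat_lit 307) (nat_lit 142)) (XT.lf (nat_lit 0) (nat_lit 14111568181) (nat_lit 228) (nat_lit 291127985149) (nat_lit 76) (nat_lit 181592796874) (nat_lit 31) (nat_lit 5) (nat_lit 34) (nat_lit 5) (nat_lit 32) (nat_lit 5) (nat_lit 332) (nat_lit 307) (nat_lit 141))))) (XT.nd (nat_lit 156) (nat_lit 304) (nat_lit 0) (XT.nd (nat_lit 78) (nat_lit 0) (nat_lit 0) (XT.lf (nat_lit 0) (nat_lit 59351289674) (nat_lit 152) (nat_lit 89990713609)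 (nat_lit 228) (nat_lit 364762353558) (nat_lit 29) (nat_lit 5) (nat_lit 31) (nat_lit 5) (nat_lit 32) (nat_lit 5) (nat_lit 333) (nat_lit 307) (nat_lit 140)) (XT.lf (nat_lit 0) (nat_lit 302769654504) (nat_lit 228) (nat_lit 97347341876) (nat_lit 76) (nat_lit 143072188659) (nat_lit 29) (nat_lit 5) (nat_lit 32) (nat_lit 5) (nat_lit 30) (nat_lit 5) (nat_lit 334) (nat_lit 307) (nat_lit 139))) (XT.nd (nat_lit 78) (nat_lit 152) (nat_lit 0) (XT.lf (nat_lit 0) (nat_lit 296627211454) (nat_lit 152) (nat_lit 177992806257) (nat_lit 228) (nat_lit 99673356876) (nat_lit 27) (nat_lit 5) (nat_lit 29) (nat_lit 5) (nat_lit 30) (nat_lit 5) (nat_lit 335) (nat_lit 307) (nat_lit 138)) (XT.nd (nat_lit 78) (nat_lit 0) (nat_lit 0) (XT.lf (nat_lit 0) (nat_lit 55306295186) (nat_lit 152) (nat_lit 487886833160) (nat_lit 76) (nat_lit 64419480590) (nat_lit 25) (nat_lit 5) (nat_lit 27) (nat_lit 5) (nat_lit 26) (nat_lit 5)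 (nat_lit 336) (nat_lit 307) (nat_lit 137)) (XT.lf (nat_lit 0) (nat_lit 227156192950) (nat_lit 152) (nat_lit 89292494049) (nat_lit 76) (nat_lit 326668798512) (nat_lit 25) (nat_lit 5) (nat_lit 27) (nat_lit 5) (nat_lit 26) (nat_lit 5) (nat_lit 337) (nat_lit 307) (nat_lit 136)))))) (XT.nd (nat_lit 38454) (nat_lit 0) (nat_lit 4712) (XT.nd (nat_lit 156) (nat_lit 76) (nat_lit 0) (XT.nd (nat_lit 78) (nat_lit 76) (nat_lit 0) (XT.lf (nat_lit 0) (nat_lit 352470521158) (nat_lit 152) (nat_lit 65786536701) (nat_lit 228) (nat_lit 262930545653) (nat_lit 23) (nat_lit 5) (nat_lit 25) (nat_lit 5) (nat_lit 26) (nat_lit 5) (nat_lit 338) (nat_lit 307) (nat_lit 135)) (XT.lf (nat_lit 0) (nat_lit 110860724729) (nat_lit 76) (nat_lit 520296465370) (nat_lit 152) (nat_lit 90820581009) (nat_lit 22) (nat_lit 5) (nat_lit 23) (nat_lit 5) (nat_lit 24) (nat_lit 4) (nat_lit 339) (nat_lit 307) (nat_lit 134))) (XT.nd (nat_lit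 38142) (nat_lit 0) (nat_lit 5244) (XT.lf (nat_lit 0) (nat_lit 98944843667) (nat_lit 152) (nat_lit 171089111298) (nat_lit 76) (nat_lit 495576535058) (nat_lit 21) (nat_lit 5) (nat_lit 23) (nat_lit 5) (nat_lit 22) (nat_lit 5) (nat_lit 340) (nat_lit 307) (nat_lit 133)) (XT.nd (nat_lit 78) (nat_lit 0) (nat_lit 0) (XT.lf (nat_lit 0) (nat_lit 34311120775) (nat_lit 0) (nat_lit 34311120775) (nat_lit 684) (nat_lit 13570253686) (nat_lit 90) (nat_lit 5) (nat_lit 90) (nat_lit 3) (nat_lit 99) (nat_lit 3) (nat_lit 308) (nat_lit 308) (nat_lit 164)) (XT.lf (nat_lit 76) (nat_lit 23342946796) (nat_lit 0) (nat_lit 120565321048) (nat_lit 760) (nat_lit 26993414798) (nat_lit 91) (nat_lit 5) (nat_lit 90) (nat_lit 5) (nat_lit 100) (nat_lit 5) (nat_lit 309) (nat_lit 308) (nat_lit 163))))) (XT.nd (nat_lit 234) (nat_lit 608) (nat_lit 0) (XT.nd (nat_lit 78) (nat_lit 0) (nat_lit 0) (XT.lf (nat_lit 0) (nat_lit 153915882922)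 (nat_lit 684) (nat_lit 23602731939) (nat_lit 760) (nat_lit 280559665) (nat_lit 91) (nat_lit 5) (nat_lit 100) (nat_lit 5) (nat_lit 101) (nat_lit 5) (nat_lit 310) (nat_lit 308) (nat_lit 162)) (XT.nd (nat_lit 78) (nat_lit 0) (nat_lit 76) (XT.lf (nat_lit 76) (nat_lit 111815381269) (nat_lit 0) (nat_lit 56687101118) (nat_lit 760) (nat_lit 16557065279) (nat_lit 92) (nat_lit 5) (nat_lit 91) (nat_lit 5) (nat_lit 101) (nat_lit 5) (nat_lit 311) (nat_lit 308) (nat_lit 161)) (XT.lf (nat_lit 76) (nat_lit 67015145158) (nat_lit 0) (nat_lit 119857133813) (nat_lit 760) (nat_lit 5897658845) (nat_lit 93) (nat_lit 5) (nat_lit 92) (nat_lit 5) (nat_lit 102) (nat_lit 5) (nat_lit 312) (nat_lit 308) (nat_lit 160)))) (XT.nd (nat_lit 78) (nat_lit 0) (nat_lit 0) (XT.lf (nat_lit 0) (nat_lit 8175648124) (nat_lit 760) (nat_lit 181505311614) (nat_lit 836) (nat_lit 11274774722) (nat_lit 83) (nat_lit 5) (nat_lit 93) (nat_lit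 5) (nat_lit 94) (nat_lit 5) (nat_lit 313) (nat_lit 308) (nat_lit 159)) (XT.nd (nat_lit 78) (nat_lit 0) (nat_lit 76) (XT.lf (nat_lit 0) (nat_lit 27418173629) (nat_lit 760) (nat_lit 31080738966) (nat_lit 836) (nat_lit 151080149638) (nat_lit 83) (nat_lit 5) (nat_lit 93) (nat_lit 5) (nat_lit 94) (nat_lit 5) (nat_lit 314) (nat_lit 308) (nat_lit 158)) (XT.lf (nat_lit 0) (nat_lit 51652218291) (nat_lit 760) (nat_lit 84398166931) (nat_lit 76) (nat_lit 82669265616) (nat_lit 84) (nat_lit 5) (nat_lit 94) (nat_lit 5) (nat_lit 85) (nat_lit 5) (nat_lit 315) (nat_lit 308) (nat_lit 157))))))))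
noncomputable def xc119 : XT := (XT.nd (nat_lit 1638) (nat_lit 380) (nat_lit 0) (XT.nd (nat_lit 780) (nat_lit 1596) (nat_lit 0) (XT.nd (nat_lit 390) (nat_lit 1216) (nat_lit 0) (XT.nd (nat_lit 156) (nat_lit 608) (nat_lit 0) (XT.nd (nat_lit 78) (nat_lit 380) (nat_lit 0) (XT.lf (nat_lit 0) (nat_lit 80827092639) (nat_lit 608) (nat_lit 141249166830) (nat_lit 76) (nat_lit 6365122187) (nat_lit 77) (nat_lit 5) (nat_lit 85) (nat_lit 5) (nat_lit 78) (nat_lit 5) (nat_lit 316) (nat_lit 308) (nat_lit 156)) (XT.lf (nat_lit 0) (nat_lit 35473309626) (nat_lit 380) (nat_lit 81204584855) (nat_lit 456) (nat_lit 122045859980) (nat_lit 72) (nat_lit 5) (nat_lit 77) (nat_lit 5) (nat_lit 78) (nat_lit 5) (nat_lit 317) (nat_lit 308) (nat_lit 155))) (XT.nd (nat_lit 78) (nat_lit 608) (nat_lit 0) (XT.lf (nat_lit 0) (nat_lit 159004880335) (nat_lit 456) (nat_lit 19476221274) (nat_lit 76) (nat_lit 71167209858) (nat_lit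 72) (nat_lit 5) (nat_lit 78) (nat_lit 5) (nat_lit 73) (nat_lit 5) (nat_lit 318) (nat_lit 308) (nat_lit 154)) (XT.nd (nat_lit 78) (nat_lit 304) (nat_lit 0) (XT.lf (nat_lit 0) (nat_lit 183503748630) (nat_lit 304) (nat_lit 25448349556) (nat_lit 380) (nat_lit 52283031532) (nat_lit 68) (nat_lit 5) (nat_lit 72) (nat_lit 5) (nat_lit 73) (nat_lit 5) (nat_lit 319) (nat_lit 308) (nat_lit 153)) (XT.lf (nat_lit 0) (nat_lit 131712442384) (nat_lit 304) (nat_lit 135766786831) (nat_lit 380) (nat_lit 6040457745) (nat_lit 64) (nat_lit 5) (nat_lit 68) (nat_lit 5) (nat_lit 69) (nat_lit 5) (nat_lit 320) (nat_lit 308) (nat_lit 152))))) (XT.nd (nat_lit 156) (nat_lit 532) (nat_lit 0) (XT.nd (nat_lit 78) (nat_lit 304) (nat_lit 0) (XT.lf (nat_lit 0) (nat_lit 45940943592) (nat_lit 380) (nat_lit 211828999094) (nat_lit 76) (nat_lit 28810567859) (nat_lit 59) (nat_lit 5) (nat_lit 64) (nat_lit 5) (nat_lit 60) (nat_lit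 5) (nat_lit 321) (nat_lit 308) (nat_lit 151)) (XT.lf (nat_lit 0) (nat_lit 11058281213) (nat_lit 304) (nat_lit 95786224982) (nat_lit 380) (nat_lit 193587979017) (nat_lit 55) (nat_lit 5) (nat_lit 59) (nat_lit 5) (nat_lit 60) (nat_lit 5) (nat_lit 322) (nat_lit 308) (nat_lit 150))) (XT.nd (nat_lit 78) (nat_lit 532) (nat_lit 0) (XT.lf (nat_lit 0) (nat_lit 177606463225) (nat_lit 380) (nat_lit 57163769062) (nat_lit 76) (nat_lit 80373080332) (nat_lit 55) (nat_lit 5) (nat_lit 60) (nat_lit 5) (nat_lit 56) (nat_lit 5) (nat_lit 323) (nat_lit 308) (nat_lit 149)) (XT.nd (nat_lit 78) (nat_lit 304) (nat_lit 0) (XT.lf (nat_lit 0) (nat_lit 198356846232) (nat_lit 228) (nat_lit 60384423491) (nat_lit 304) (nat_lit 72054142075) (nat_lit 52) (nat_lit 5) (nat_lit 55) (nat_lit 5) (nat_lit 56) (nat_lit 5) (nat_lit 324) (nat_lit 308) (nat_lit 148)) (XT.lf (nat_lit 0) (nat_lit 3845803673) (nat_lit 304) (nat_lit 216623577119)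 (nat_lit 76) (nat_lit 126974540598) (nat_lit 48) (nat_lit 5) (nat_lit 52) (nat_lit 5) (nat_lit 49) (nat_lit 5) (nat_lit 325) (nat_lit 308) (nat_lit 147)))))) (XT.nd (nat_lit 390) (nat_lit 684) (nat_lit 0) (XT.nd (nat_lit 156) (nat_lit 684) (nat_lit 0) (XT.nd (nat_lit 78) (nat_lit 0) (nat_lit 0) (XT.lf (nat_lit 0) (nat_lit 54018107598) (nat_lit 228) (nat_lit 33515208448) (nat_lit 304) (nat_lit 277619935256) (nat_lit 45) (nat_lit 5) (nat_lit 48) (nat_lit 5) (nat_lit 49) (nat_lit 5) (nat_lit 326) (nat_lit 308) (nat_lit 146)) (XT.lf (nat_lit 0) (nat_lit 184380129447) (nat_lit 304) (nat_lit 32735127355) (nat_lit 76) (nat_lit 166840855971) (nat_lit 45) (nat_lit 5) (nat_lit 49) (nat_lit 5) (nat_lit 46) (nat_lit 5) (nat_lit 327) (nat_lit 308) (nat_lit 145))) (XT.nd (nat_lit 78) (nat_lit 456) (nat_lit 0) (XT.lf (nat_lit 0) (nat_lit 276212113416) (nat_lit 228) (nat_lit 17640031419) (nat_lit 304)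 (nat_lit 110167185637) (nat_lit 42) (nat_lit 5) (nat_lit 45) (nat_lit 5) (nat_lit 46) (nat_lit 5) (nat_lit 328) (nat_lit 308) (nat_lit 144)) (XT.nd (nat_lit 78) (nat_lit 304) (nat_lit 0) (XT.lf (nat_lit 0) (nat_lit 188314630102) (nat_lit 152) (nat_lit 230374979150) (nat_lit 228) (nat_lit 6667612088) (nat_lit 40) (nat_lit 5) (nat_lit 42) (nat_lit 5) (nat_lit 43) (nat_lit 5) (nat_lit 329) (nat_lit 308) (nat_lit 143)) (XT.lf (nat_lit 0) (nat_lit 86802381920) (nat_lit 228) (nat_lit 18860688731) (nat_lit 304) (nat_lit 342461249295) (nat_lit 36) (nat_lit 5) (nat_lit 39) (nat_lit 5) (nat_lit 40) (nat_lit 5) (nat_lit 330) (nat_lit 308) (nat_lit 142))))) (XT.nd (nat_lit 234) (nat_lit 304) (nat_lit 0) (XT.nd (nat_lit 78) (nat_lit 380) (nat_lit 0) (XT.lf (nat_lit 0) (nat_lit 234218497425) (nat_lit 304) (nat_lit 30938984506) (nat_lit 76) (nat_lit 207176244866) (nat_lit 36) (nat_lit 5) (nat_lit 40)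 (nat_lit 5) (nat_lit 37) (nat_lit 5) (nat_lit 331) (nat_lit 308) (nat_lit 141)) (XT.nd (nat_lit 78) (nat_lit 228) (nat_lit 0) (XT.lf (nat_lit 0) (nat_lit 336320803046) (nat_lit 152) (nat_lit 42306397075) (nat_lit 228) (nat_lit 119574244097) (nat_lit 34) (nat_lit 5) (nat_lit 36) (nat_lit 5) (nat_lit 37) (nat_lit 5) (nat_lit 332) (nat_lit 308) (nat_lit 140)) (XT.lf (nat_lit 0) (nat_lit 15242326027) (nat_lit 228) (nat_lit 314415334281) (nat_lit 76) (nat_lit 196121184423) (nat_lit 31) (nat_lit 5) (nat_lit 34) (nat_lit 5) (nat_lit 32) (nat_lit 5) (nat_lit 333) (nat_lit 308) (nat_lit 139)))) (XT.nd (nat_lit 78) (nat_lit 152) (nat_lit 0) (XT.lf (nat_lit 0) (nat_lit 64102156945) (nat_lit 152) (nat_lit 97188946414) (nat_lit 228) (nat_lit 393941513307) (nat_lit 29) (nat_lit 5) (nat_lit 31) (nat_lit 5) (nat_lit 32) (nat_lit 5) (nat_lit 334) (nat_lit 308) (nat_lit 138)) (XT.nd (nat_lit 78) (nat_lit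 152) (nat_lit 0) (XT.lf (nat_lit 0) (nat_lit 326992852611) (nat_lit 228) (nat_lit 105132502533) (nat_lit 76) (nat_lit 154518881807) (nat_lit 29) (nat_lit 5) (nat_lit 32) (nat_lit 5) (nat_lit 30) (nat_lit 5) (nat_lit 335) (nat_lit 308) (nat_lit 137)) (XT.lf (nat_lit 0) (nat_lit 320359900910) (nat_lit 152) (nat_lit 192231262766) (nat_lit 228) (nat_lit 107645602166) (nat_lit 27) (nat_lit 5) (nat_lit 29) (nat_lit 5) (nat_lit 30) (nat_lit 5) (nat_lit 336) (nat_lit 308) (nat_lit 136))))))) (XT.nd (nat_lit 38922) (nat_lit 0) (nat_lit 2280) (XT.nd (nat_lit 38532) (nat_lit 0) (nat_lit 4636) (XT.nd (nat_lit 156) (nat_lit 228) (nat_lit 0) (XT.nd (nat_lit 78) (nat_lit 0) (nat_lit 0) (XT.lf (nat_lit 0) (nat_lit 59732307040) (nat_lit 152) (nat_lit 526915264452) (nat_lit 76) (nat_lit 69573969438) (nat_lit 25) (nat_lit 5) (nat_lit 27) (nat_lit 5) (nat_lit 26) (nat_lit 5) (nat_lit 337) (nat_lit 308) (nat_lit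 135)) (XT.lf (nat_lit 0) (nat_lit 245330084903) (nat_lit 152) (nat_lit 96433564536) (nat_lit 76) (nat_lit 352803163875) (nat_lit 25) (nat_lit 5) (nat_lit 27) (nat_lit 5) (nat_lit 26) (nat_lit 5) (nat_lit 338) (nat_lit 308) (nat_lit 134))) (XT.nd (nat_lit 78) (nat_lit 76) (nat_lit 0) (XT.lf (nat_lit 0) (nat_lit 380670390671) (nat_lit 152) (nat_lit 71048559671) (nat_lit 228) (nat_lit 283963593936) (nat_lit 23) (nat_lit 5) (nat_lit 25) (nat_lit 5) (nat_lit 26) (nat_lit 5) (nat_lit 339) (nat_lit 308) (nat_lit 133)) (XT.nd (nat_lit 38220) (nat_lit 0) (nat_lit 5168) (XT.lf (nat_lit 0) (nat_lit 119731764850) (nat_lit 76) (nat_lit 561919277032) (nat_lit 152) (nat_lit 98084886048) (nat_lit 22) (nat_lit 5) (nat_lit 23) (nat_lit 5) (nat_lit 24) (nat_lit 4) (nat_lit 340) (nat_lit 308) (nat_lit 132)) (XT.lf (nat_lit 0) (nat_lit 37057746656) (nat_lit 0) (nat_lit 37057746656) (nat_lit 684) (nat_lit 14652220914)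 (nat_lit 90) (nat_lit 5) (nat_lit 90) (nat_lit 3) (nat_lit 99) (nat_lit 3) (nat_lit 309) (nat_lit 309) (nat_lit 162))))) (XT.nd (nat_lit 156) (nat_lit 532) (nat_lit 0) (XT.nd (nat_lit 78) (nat_lit 0) (nat_lit 76) (XT.lf (nat_lit 76) (nat_lit 25214101485) (nat_lit 0) (nat_lit 130213266094) (nat_lit 760) (nat_lit 29146114785) (nat_lit 91) (nat_lit 5) (nat_lit 90) (nat_lit 5) (nat_lit 100) (nat_lit 5) (nat_lit 310) (nat_lit 309) (nat_lit 161)) (XT.lf (nat_lit 0) (nat_lit 166235075640) (nat_lit 684) (nat_lit 25487157632) (nat_lit 760) (nat_lit 300567099) (nat_lit 91) (nat_lit 5) (nat_lit 100) (nat_lit 5) (nat_lit 101) (nat_lit 5) (nat_lit 311) (nat_lit 309) (nat_lit 160))) (XT.nd (nat_lit 78) (nat_lit 608) (nat_lit 0) (XT.lf (nat_lit 76) (nat_lit 120764239799) (nat_lit 0) (nat_lit 61223981234) (nat_lit 760) (nat_lit 17875802321) (nat_lit 92) (nat_lit 5) (nat_lit 91) (nat_lit 5) (nat_lit 101)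 (nat_lit 5) (nat_lit 312) (nat_lit 309) (nat_lit 159)) (XT.nd (nat_lit 78) (nat_lit 684) (nat_lit 0) (XT.lf (nat_lit 76) (nat_lit 72380131288) (nat_lit 0) (nat_lit 129447090971) (nat_lit 760) (nat_lit 6364042234) (nat_lit 93) (nat_lit 5) (nat_lit 92) (nat_lit 5) (nat_lit 102) (nat_lit 5) (nat_lit 313) (nat_lit 309) (nat_lit 158)) (XT.lf (nat_lit 0) (nat_lit 8834607545) (nat_lit 760) (nat_lit 196021677323) (nat_lit 836) (nat_lit 12175653890) (nat_lit 83) (nat_lit 5) (nat_lit 93) (nat_lit 5) (nat_lit 94) (nat_lit 5) (nat_lit 314) (nat_lit 309) (nat_lit 157)))))) (XT.nd (nat_lit 390) (nat_lit 1520) (nat_lit 0) (XT.nd (nat_lit 156) (nat_lit 836) (nat_lit 0) (XT.nd (nat_lit 78) (nat_lit 0) (nat_lit 76) (XT.lf (nat_lit 0) (nat_lit 29616171566) (nat_lit 760) (nat_lit 33563439545) (nat_lit 836) (nat_lit 163165540489) (nat_lit 83) (nat_lit 5) (nat_lit 93) (nat_lit 5) (nat_lit 94) (nat_lit 5) (nat_lit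 315) (nat_lit 309) (nat_lit 156)) (XT.lf (nat_lit 0) (nat_lit 55788648900) (nat_lit 760) (nat_lit 91146193689) (nat_lit 76) (nat_lit 89282159873) (nat_lit 84) (nat_lit 5) (nat_lit 94) (nat_lit 5) (nat_lit 85) (nat_lit 5) (nat_lit 316) (nat_lit 309) (nat_lit 155))) (XT.nd (nat_lit 78) (nat_lit 380) (nat_lit 0) (XT.lf (nat_lit 0) (nat_lit 87297250067) (nat_lit 608) (nat_lit 152545227677) (nat_lit 76) (nat_lit 6874007734) (nat_lit 77) (nat_lit 5) (nat_lit 85) (nat_lit 5) (nat_lit 78) (nat_lit 5) (nat_lit 317) (nat_lit 309) (nat_lit 154)) (XT.nd (nat_lit 78) (nat_lit 0) (nat_lit 0) (XT.lf (nat_lit 0) (nat_lit 38314878601) (nat_lit 380) (nat_lit 87700999731) (nat_lit 456) (nat_lit 131805582196) (nat_lit 72) (nat_lit 5) (nat_lit 77) (nat_lit 5) (nat_lit 78) (nat_lit 5) (nat_lit 318) (nat_lit 309) (nat_lit 153)) (XT.lf (nat_lit 0) (nat_lit 171728744412) (nat_lit 456) (nat_lit 21030708564) (nat_lit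 76) (nat_lit 76860543545) (nat_lit 72) (nat_lit 5) (nat_lit 78) (nat_lit 5) (nat_lit 73) (nat_lit 5) (nat_lit 319) (nat_lit 309) (nat_lit 152))))) (XT.nd (nat_lit 234) (nat_lit 532) (nat_lit 0) (XT.nd (nat_lit 78) (nat_lit 684) (nat_lit 0) (XT.lf (nat_lit 0) (nat_lit 198187502029) (nat_lit 304) (nat_lit 27484034274) (nat_lit 380) (nat_lit 56462234557) (nat_lit 68) (nat_lit 5) (nat_lit 72) (nat_lit 5) (nat_lit 73) (nat_lit 5) (nat_lit 320) (nat_lit 309) (nat_lit 151)) (XT.nd (nat_lit 78) (nat_lit 380) (nat_lit 0) (XT.lf (nat_lit 0) (nat_lit 142252900343) (nat_lit 304) (nat_lit 146627751939) (nat_lit 380) (nat_lit 6520450100) (nat_lit 64) (nat_lit 5) (nat_lit 68) (nat_lit 5) (nat_lit 69) (nat_lit 5) (nat_lit 321) (nat_lit 309) (nat_lit 150)) (XT.lf (nat_lit 0) (nat_lit 49619187326) (nat_lit 380) (nat_lit 228771757156) (nat_lit 76) (nat_lit 31115853822) (nat_lit 59) (nat_lit 5) (nat_lit 64)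 (nat_lit 5) (nat_lit 60) (nat_lit 5) (nat_lit 322) (nat_lit 309) (nat_lit 149)))) (XT.nd (nat_lit 78) (nat_lit 228) (nat_lit 0) (XT.lf (nat_lit 0) (nat_lit 11946350780) (nat_lit 304) (nat_lit 103448517480) (nat_lit 380) (nat_lit 209072071363) (nat_lit 55) (nat_lit 5) (nat_lit 59) (nat_lit 5) (nat_lit 60) (nat_lit 5) (nat_lit 323) (nat_lit 309) (nat_lit 148)) (XT.nd (nat_lit 78) (nat_lit 228) (nat_lit 0) (XT.lf (nat_lit 0) (nat_lit 191817583083) (nat_lit 380) (nat_lit 61733590937) (nat_lit 76) (nat_lit 86803469464) (nat_lit 55) (nat_lit 5) (nat_lit 60) (nat_lit 5) (nat_lit 56) (nat_lit 5) (nat_lit 324) (nat_lit 309) (nat_lit 147)) (XT.lf (nat_lit 0) (nat_lit 214228531052) (nat_lit 228) (nat_lit 65214499228) (nat_lit 304) (nat_lit 77815887803) (nat_lit 52) (nat_lit 5) (nat_lit 55) (nat_lit 5) (nat_lit 56) (nat_lit 5) (nat_lit 325) (nat_lit 309) (nat_lit 146))))))))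
noncomputable def xc120 : XT := (XT.nd (nat_lit 39936) (nat_lit 0) (nat_lit 304) (XT.nd (nat_lit 780) (nat_lit 304) (nat_lit 0) (XT.nd (nat_lit 390) (nat_lit 836) (nat_lit 0) (XT.nd (nat_lit 156) (nat_lit 380) (nat_lit 0) (XT.nd (nat_lit 78) (nat_lit 228) (nat_lit 0) (XT.lf (nat_lit 0) (nat_lit 4155844793) (nat_lit 304) (nat_lit 233950269617) (nat_lit 76) (nat_lit 137133198578) (nat_lit 48) (nat_lit 5) (nat_lit 52) (nat_lit 5) (nat_lit 49) (nat_lit 5) (nat_lit 326) (nat_lit 309) (nat_lit 145)) (XT.lf (nat_lit 0) (nat_lit 58342611085) (nat_lit 228) (nat_lit 36195618707) (nat_lit 304) (nat_lit 299827166163) (nat_lit 45) (nat_lit 5) (nat_lit 48) (nat_lit 5) (nat_lit 49) (nat_lit 5) (nat_lit 327) (nat_lit 309) (nat_lit 144))) (XT.nd (nat_lit 78) (nat_lit 380) (nat_lit 0) (XT.lf (nat_lit 0) (nat_lit 199132633369) (nat_lit 304) (nat_lit 35351013710) (nat_lit 76) (nat_lit 180188847234) (nat_lit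 45) (nat_lit 5) (nat_lit 49) (nat_lit 5) (nat_lit 46) (nat_lit 5) (nat_lit 328) (nat_lit 309) (nat_lit 143)) (XT.nd (nat_lit 78) (nat_lit 152) (nat_lit 0) (XT.lf (nat_lit 0) (nat_lit 298311879257) (nat_lit 228) (nat_lit 19050419318) (nat_lit 304) (nat_lit 118978476631) (nat_lit 42) (nat_lit 5) (nat_lit 45) (nat_lit 5) (nat_lit 46) (nat_lit 5) (nat_lit 329) (nat_lit 309) (nat_lit 142)) (XT.lf (nat_lit 0) (nat_lit 203382560852) (nat_lit 152) (nat_lit 248804107339) (nat_lit 228) (nat_lit 7199033942) (nat_lit 40) (nat_lit 5) (nat_lit 42) (nat_lit 5) (nat_lit 43) (nat_lit 5) (nat_lit 330) (nat_lit 309) (nat_lit 141))))) (XT.nd (nat_lit 156) (nat_lit 532) (nat_lit 0) (XT.nd (nat_lit 78) (nat_lit 0) (nat_lit 0) (XT.lf (nat_lit 0) (nat_lit 93749275880) (nat_lit 228) (nat_lit 20368663661) (nat_lit 304) (nat_lit 369856232717) (nat_lit 36) (nat_lit 5) (nat_lit 39) (nat_lit 5) (nat_lit 40) (nat_lit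 5) (nat_lit 331) (nat_lit 309) (nat_lit 140)) (XT.lf (nat_lit 0) (nat_lit 252957678127) (nat_lit 304) (nat_lit 33411526464) (nat_lit 76) (nat_lit 223751133342) (nat_lit 36) (nat_lit 5) (nat_lit 40) (nat_lit 5) (nat_lit 37) (nat_lit 5) (nat_lit 332) (nat_lit 309) (nat_lit 139))) (XT.nd (nat_lit 78) (nat_lit 380) (nat_lit 0) (XT.lf (nat_lit 0) (nat_lit 363228932108) (nat_lit 152) (nat_lit 45690057420) (nat_lit 228) (nat_lit 129138487739) (nat_lit 34) (nat_lit 5) (nat_lit 36) (nat_lit 5) (nat_lit 37) (nat_lit 5) (nat_lit 333) (nat_lit 309) (nat_lit 138)) (XT.nd (nat_lit 78) (nat_lit 152) (nat_lit 0) (XT.lf (nat_lit 0) (nat_lit 16463283090) (nat_lit 228) (nat_lit 339566083588) (nat_lit 76) (nat_lit 211811705479) (nat_lit 31) (nat_lit 5) (nat_lit 34) (nat_lit 5) (nat_lit 32) (nat_lit 5) (nat_lit 334) (nat_lit 309) (nat_lit 137)) (XT.lf (nat_lit 0) (nat_lit 69232699270) (nat_lit 152) (nat_lit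 104963183968) (nat_lit 228) (nat_lit 425455266697) (nat_lit 29) (nat_lit 5) (nat_lit 31) (nat_lit 5) (nat_lit 32) (nat_lit 5) (nat_lit 335) (nat_lit 309) (nat_lit 136)))))) (XT.nd (nat_lit 38766) (nat_lit 0) (nat_lit 4408) (XT.nd (nat_lit 234) (nat_lit 152) (nat_lit 0) (XT.nd (nat_lit 78) (nat_lit 152) (nat_lit 0) (XT.lf (nat_lit 0) (nat_lit 353153674635) (nat_lit 228) (nat_lit 113540850770) (nat_lit 76) (nat_lit 166881179437) (nat_lit 29) (nat_lit 5) (nat_lit 32) (nat_lit 5) (nat_lit 30) (nat_lit 5) (nat_lit 336) (nat_lit 309) (nat_lit 135)) (XT.lf (nat_lit 0) (nat_lit 345990847081) (nat_lit 152) (nat_lit 207608933891) (nat_lit 228) (nat_lit 116255858655) (nat_lit 27) (nat_lit 5) (nat_lit 29) (nat_lit 5) (nat_lit 30) (nat_lit 5) (nat_lit 337) (nat_lit 309) (nat_lit 134))) (XT.nd (nat_lit 38376) (nat_lit 0) (nat_lit 4940) (XT.lf (nat_lit 0) (nat_lit 264957688984) (nat_lit 152) (nat_lit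 104146252924) (nat_lit 76) (nat_lit 381028155567) (nat_lit 25) (nat_lit 5) (nat_lit 27) (nat_lit 5) (nat_lit 26) (nat_lit 5) (nat_lit 339) (nat_lit 309) (nat_lit 132)) (XT.nd (nat_lit 78) (nat_lit 0) (nat_lit 0) (XT.lf (nat_lit 0) (nat_lit 40023854917) (nat_lit 0) (nat_lit 40023854917) (nat_lit 684) (nat_lit 15821266671) (nat_lit 90) (nat_lit 5) (nat_lit 90) (nat_lit 3) (nat_lit 99) (nat_lit 3) (nat_lit 310) (nat_lit 310) (nat_lit 160)) (XT.lf (nat_lit 76) (nat_lit 27234418000) (nat_lit 0) (nat_lit 140632658797) (nat_lit 760) (nat_lit 31471997043) (nat_lit 91) (nat_lit 5) (nat_lit 90) (nat_lit 5) (nat_lit 100) (nat_lit 5) (nat_lit 311) (nat_lit 310) (nat_lit 159))))) (XT.nd (nat_lit 156) (nat_lit 608) (nat_lit 0) (XT.nd (nat_lit 78) (nat_lit 0) (nat_lit 0) (XT.lf (nat_lit 0) (nat_lit 179538958924) (nat_lit 684) (nat_lit 27522878475) (nat_lit 760) (nat_lit 322522842) (nat_lit 91) (nat_lit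 5) (nat_lit 100) (nat_lit 5) (nat_lit 101) (nat_lit 5) (nat_lit 312) (nat_lit 310) (nat_lit 158)) (XT.lf (nat_lit 76) (nat_lit 130428489433) (nat_lit 0) (nat_lit 66123538987) (nat_lit 760) (nat_lit 19300869781) (nat_lit 92) (nat_lit 5) (nat_lit 91) (nat_lit 5) (nat_lit 101) (nat_lit 5) (nat_lit 313) (nat_lit 310) (nat_lit 157))) (XT.nd (nat_lit 78) (nat_lit 684) (nat_lit 0) (XT.lf (nat_lit 76) (nat_lit 78173777832) (nat_lit 0) (nat_lit 139804046908) (nat_lit 760) (nat_lit 6868510848) (nat_lit 93) (nat_lit 5) (nat_lit 92) (nat_lit 5) (nat_lit 102) (nat_lit 5) (nat_lit 314) (nat_lit 310) (nat_lit 156)) (XT.nd (nat_lit 78) (nat_lit 0) (nat_lit 0) (XT.lf (nat_lit 0) (nat_lit 9545583599) (nat_lit 760) (nat_lit 211699931381) (nat_lit 836) (nat_lit 13148760720) (nat_lit 83) (nat_lit 5) (nat_lit 93) (nat_lit 5) (nat_lit 94) (nat_lit 5) (nat_lit 315) (nat_lit 310) (nat_lit 155)) (XT.lf (nat_lit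 0) (nat_lit 31989361079) (nat_lit 760) (nat_lit 36245292369) (nat_lit 836) (nat_lit 176217908283) (nat_lit 83) (nat_lit 5) (nat_lit 93) (nat_lit 5) (nat_lit 94) (nat_lit 5) (nat_lit 316) (nat_lit 310) (nat_lit 154))))))) (XT.nd (nat_lit 780) (nat_lit 1748) (nat_lit 0) (XT.nd (nat_lit 390) (nat_lit 1216) (nat_lit 0) (XT.nd (nat_lit 156) (nat_lit 684) (nat_lit 0) (XT.nd (nat_lit 78) (nat_lit 532) (nat_lit 0) (XT.lf (nat_lit 0) (nat_lit 60255387200) (nat_lit 760) (nat_lit 98434608494) (nat_lit 76) (nat_lit 96424177971) (nat_lit 84) (nat_lit 5) (nat_lit 94) (nat_lit 5) (nat_lit 85) (nat_lit 5) (nat_lit 317) (nat_lit 310) (nat_lit 153)) (XT.lf (nat_lit 0) (nat_lit 94284450868) (nat_lit 608) (nat_lit 164745525848) (nat_lit 76) (nat_lit 7423650380) (nat_lit 77) (nat_lit 5) (nat_lit 85) (nat_lit 5) (nat_lit 78) (nat_lit 5) (nat_lit 318) (nat_lit 310) (nat_lit 152))) (XT.nd (nat_lit 78) (nat_lit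 304) (nat_lit 0) (XT.lf (nat_lit 0) (nat_lit 41383244648) (nat_lit 380) (nat_lit 94717120937) (nat_lit 456) (nat_lit 142346645213) (nat_lit 72) (nat_lit 5) (nat_lit 77) (nat_lit 5) (nat_lit 78) (nat_lit 5) (nat_lit 319) (nat_lit 310) (nat_lit 151)) (XT.nd (nat_lit 78) (nat_lit 304) (nat_lit 0) (XT.lf (nat_lit 0) (nat_lit 185470022060) (nat_lit 456) (nat_lit 22710069902) (nat_lit 76) (nat_lit 83009350077) (nat_lit 72) (nat_lit 5) (nat_lit 78) (nat_lit 5) (nat_lit 73) (nat_lit 5) (nat_lit 320) (nat_lit 310) (nat_lit 150)) (XT.lf (nat_lit 0) (nat_lit 214045463018) (nat_lit 304) (nat_lit 29682599911) (nat_lit 380) (nat_lit 60976264507) (nat_lit 68) (nat_lit 5) (nat_lit 72) (nat_lit 5) (nat_lit 73) (nat_lit 5) (nat_lit 321) (nat_lit 310) (nat_lit 149))))) (XT.nd (nat_lit 156) (nat_lit 532) (nat_lit 0) (XT.nd (nat_lit 78) (nat_lit 380) (nat_lit 0) (XT.lf (nat_lit 0) (nat_lit 153636100964) (nat_lit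 304) (nat_lit 158357648158) (nat_lit 380) (nat_lit 7039304674) (nat_lit 64) (nat_lit 5) (nat_lit 68) (nat_lit 5) (nat_lit 69) (nat_lit 5) (nat_lit 322) (nat_lit 310) (nat_lit 148)) (XT.lf (nat_lit 0) (nat_lit 53591267105) (nat_lit 380) (nat_lit 247070444004) (nat_lit 76) (nat_lit 33605499814) (nat_lit 59) (nat_lit 5) (nat_lit 64) (nat_lit 5) (nat_lit 60) (nat_lit 5) (nat_lit 323) (nat_lit 310) (nat_lit 147))) (XT.nd (nat_lit 78) (nat_lit 228) (nat_lit 0) (XT.lf (nat_lit 0) (nat_lit 12904979857) (nat_lit 304) (nat_lit 111723879760) (nat_lit 380) (nat_lit 225795311373) (nat_lit 55) (nat_lit 5) (nat_lit 59) (nat_lit 5) (nat_lit 60) (nat_lit 5) (nat_lit 324) (nat_lit 310) (nat_lit 146)) (XT.nd (nat_lit 78) (nat_lit 228) (nat_lit 0) (XT.lf (nat_lit 0) (nat_lit 207165221211) (nat_lit 380) (nat_lit 66669466440) (nat_lit 76) (nat_lit 93748212302) (nat_lit 55) (nat_lit 5) (nat_lit 60) (nat_lit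 5) (nat_lit 56) (nat_lit 5) (nat_lit 325) (nat_lit 310) (nat_lit 145)) (XT.lf (nat_lit 0) (nat_lit 231369503111) (nat_lit 228) (nat_lit 70431077769) (nat_lit 304) (nat_lit 84038942060) (nat_lit 52) (nat_lit 5) (nat_lit 55) (nat_lit 5) (nat_lit 56) (nat_lit 5) (nat_lit 326) (nat_lit 310) (nat_lit 144)))))) (XT.nd (nat_lit 390) (nat_lit 836) (nat_lit 0) (XT.nd (nat_lit 156) (nat_lit 380) (nat_lit 0) (XT.nd (nat_lit 78) (nat_lit 228) (nat_lit 0) (XT.lf (nat_lit 0) (nat_lit 4490350123) (nat_lit 304) (nat_lit 252663553128) (nat_lit 76) (nat_lit 148104450086) (nat_lit 48) (nat_lit 5) (nat_lit 52) (nat_lit 5) (nat_lit 49) (nat_lit 5) (nat_lit 327) (nat_lit 310) (nat_lit 143)) (XT.lf (nat_lit 0) (nat_lit 63012639037) (nat_lit 228) (nat_lit 39090576830) (nat_lit 304) (nat_lit 323811312782) (nat_lit 45) (nat_lit 5) (nat_lit 48) (nat_lit 5) (nat_lit 49) (nat_lit 5) (nat_lit 328) (nat_lit 310) (nat_lit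 142))) (XT.nd (nat_lit 78) (nat_lit 380) (nat_lit 0) (XT.lf (nat_lit 0) (nat_lit 215065038934) (nat_lit 304) (nat_lit 38176588091) (nat_lit 76) (nat_lit 194604574684) (nat_lit 45) (nat_lit 5) (nat_lit 49) (nat_lit 5) (nat_lit 46) (nat_lit 5) (nat_lit 329) (nat_lit 310) (nat_lit 141)) (XT.nd (nat_lit 78) (nat_lit 152) (nat_lit 0) (XT.lf (nat_lit 0) (nat_lit 322179227374) (nat_lit 228) (nat_lit 20573754462) (nat_lit 304) (nat_lit 128494968191) (nat_lit 42) (nat_lit 5) (nat_lit 45) (nat_lit 5) (nat_lit 46) (nat_lit 5) (nat_lit 330) (nat_lit 310) (nat_lit 140)) (XT.lf (nat_lit 0) (nat_lit 219655532268) (nat_lit 152) (nat_lit 268707689920) (nat_lit 228) (nat_lit 7773253027) (nat_lit 40) (nat_lit 5) (nat_lit 42) (nat_lit 5) (nat_lit 43) (nat_lit 5) (nat_lit 331) (nat_lit 310) (nat_lit 139))))) (XT.nd (nat_lit 234) (nat_lit 380) (nat_lit 0) (XT.nd (nat_lit 78) (nat_lit 152) (nat_lit 0) (XT.lf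 (nat_lit 0) (nat_lit 101251535687) (nat_lit 228) (nat_lit 21997402152) (nat_lit 304) (nat_lit 399443088227) (nat_lit 36) (nat_lit 5) (nat_lit 39) (nat_lit 5) (nat_lit 40) (nat_lit 5) (nat_lit 332) (nat_lit 310) (nat_lit 138)) (XT.nd (nat_lit 78) (nat_lit 152) (nat_lit 0) (XT.lf (nat_lit 0) (nat_lit 273195750632) (nat_lit 304) (nat_lit 36082239387) (nat_lit 76) (nat_lit 241651900352) (nat_lit 36) (nat_lit 5) (nat_lit 40) (nat_lit 5) (nat_lit 37) (nat_lit 5) (nat_lit 333) (nat_lit 310) (nat_lit 137)) (XT.lf (nat_lit 0) (nat_lit 392289359862) (nat_lit 152) (nat_lit 49344532058) (nat_lit 228) (nat_lit 139468112810) (nat_lit 34) (nat_lit 5) (nat_lit 36) (nat_lit 5) (nat_lit 37) (nat_lit 5) (nat_lit 334) (nat_lit 310) (nat_lit 136)))) (XT.nd (nat_lit 78) (nat_lit 152) (nat_lit 0) (XT.lf (nat_lit 0) (nat_lit 17781692599) (nat_lit 228) (nat_lit 366729246274) (nat_lit 76) (nat_lit 228757350339)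 (nat_lit 31) (nat_lit 5) (nat_lit 34) (nat_lit 5) (nat_lit 32) (nat_lit 5) (nat_lit 335) (nat_lit 310) (nat_lit 135)) (XT.nd (nat_lit 78) (nat_lit 0) (nat_lit 0) (XT.lf (nat_lit 0) (nat_lit 74773346906) (nat_lit 152) (nat_lit 113359485807) (nat_lit 228) (nat_lit 459490344004) (nat_lit 29) (nat_lit 5) (nat_lit 31) (nat_lit 5) (nat_lit 32) (nat_lit 5) (nat_lit 336) (nat_lit 310) (nat_lit 134)) (XT.lf (nat_lit 0) (nat_lit 381407163578) (nat_lit 228) (nat_lit 122622188135) (nat_lit 76) (nat_lit 180232348591) (nat_lit 29) (nat_lit 5) (nat_lit 32) (nat_lit 5) (nat_lit 30) (nat_lit 5) (nat_lit 337) (nat_lit 310) (nat_lit 133))))))))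
noncomputable def xc121 : XT := (XT.nd (nat_lit 40014) (nat_lit 0) (nat_lit 152) (XT.nd (nat_lit 39156) (nat_lit 0) (nat_lit 1520) (XT.nd (nat_lit 38766) (nat_lit 0) (nat_lit 4408) (XT.nd (nat_lit 38532) (nat_lit 0) (nat_lit 4940) (XT.nd (nat_lit 78) (nat_lit 152) (nat_lit 0) (XT.lf (nat_lit 0) (nat_lit 373671961639) (nat_lit 152) (nat_lit 224216937100) (nat_lit 228) (nat_lit 125555134203) (nat_lit 27) (nat_lit 5) (nat_lit 29) (nat_lit 5) (nat_lit 30) (nat_lit 5) (nat_lit 338) (nat_lit 310) (nat_lit 132)) (XT.lf (nat_lit 0) (nat_lit 69674268050) (nat_lit 152) (nat_lit 614589786554) (nat_lit 76) (nat_lit 81152623306) (nat_lit 25) (nat_lit 5) (nat_lit 27) (nat_lit 5) (nat_lit 26) (nat_lit 5) (nat_lit 339) (nat_lit 310) (nat_lit 131))) (XT.nd (nat_lit 78) (nat_lit 0) (nat_lit 0) (XT.lf (nat_lit 0) (nat_lit 43227039484) (nat_lit 0) (nat_lit 43227039484) (nat_lit 684) (nat_lit 17084282892)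 (nat_lit 90) (nat_lit 5) (nat_lit 90) (nat_lit 3) (nat_lit 99) (nat_lit 3) (nat_lit 311) (nat_lit 311) (nat_lit 158)) (XT.nd (nat_lit 78) (nat_lit 0) (nat_lit 76) (XT.lf (nat_lit 76) (nat_lit 29415904976) (nat_lit 0) (nat_lit 151885270314) (nat_lit 760) (nat_lit 33984778305) (nat_lit 91) (nat_lit 5) (nat_lit 90) (nat_lit 5) (nat_lit 100) (nat_lit 5) (nat_lit 312) (nat_lit 311) (nat_lit 157)) (XT.lf (nat_lit 0) (nat_lit 193906428546) (nat_lit 684) (nat_lit 29721920886) (nat_lit 760) (nat_lit 346533153) (nat_lit 91) (nat_lit 5) (nat_lit 100) (nat_lit 5) (nat_lit 101) (nat_lit 5) (nat_lit 313) (nat_lit 311) (nat_lit 156))))) (XT.nd (nat_lit 156) (nat_lit 608) (nat_lit 0) (XT.nd (nat_lit 78) (nat_lit 0) (nat_lit 76) (XT.lf (nat_lit 76) (nat_lit 140865435298) (nat_lit 0) (nat_lit 71414827502) (nat_lit 760) (nat_lit 20840655477) (nat_lit 92) (nat_lit 5) (nat_lit 91) (nat_lit 5) (nat_lit 101)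 (nat_lit 5) (nat_lit 314) (nat_lit 311) (nat_lit 155)) (XT.lf (nat_lit 76) (nat_lit 84430454442) (nat_lit 0) (nat_lit 150989389745) (nat_lit 760) (nat_lit 7414001005) (nat_lit 93) (nat_lit 5) (nat_lit 92) (nat_lit 5) (nat_lit 102) (nat_lit 5) (nat_lit 315) (nat_lit 311) (nat_lit 154))) (XT.nd (nat_lit 78) (nat_lit 0) (nat_lit 0) (XT.lf (nat_lit 0) (nat_lit 10312837497) (nat_lit 760) (nat_lit 228632942243) (nat_lit 836) (nat_lit 14199850980) (nat_lit 83) (nat_lit 5) (nat_lit 93) (nat_lit 5) (nat_lit 94) (nat_lit 5) (nat_lit 316) (nat_lit 311) (nat_lit 153)) (XT.nd (nat_lit 78) (nat_lit 0) (nat_lit 76) (XT.lf (nat_lit 0) (nat_lit 34551849975) (nat_lit 760) (nat_lit 39142153121) (nat_lit 836) (nat_lit 190314590392) (nat_lit 83) (nat_lit 5) (nat_lit 93) (nat_lit 5) (nat_lit 94) (nat_lit 5) (nat_lit 317) (nat_lit 311) (nat_lit 152)) (XT.lf (nat_lit 0) (nat_lit 65078944365) (nat_lit 760) (nat_lit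 106306564510) (nat_lit 76) (nat_lit 104137636649) (nat_lit 84) (nat_lit 5) (nat_lit 94) (nat_lit 5) (nat_lit 85) (nat_lit 5) (nat_lit 318) (nat_lit 311) (nat_lit 151)))))) (XT.nd (nat_lit 390) (nat_lit 1444) (nat_lit 0) (XT.nd (nat_lit 156) (nat_lit 608) (nat_lit 0) (XT.nd (nat_lit 78) (nat_lit 380) (nat_lit 0) (XT.lf (nat_lit 0) (nat_lit 101830139718) (nat_lit 608) (nat_lit 177922321514) (nat_lit 76) (nat_lit 8017304093) (nat_lit 77) (nat_lit 5) (nat_lit 85) (nat_lit 5) (nat_lit 78) (nat_lit 5) (nat_lit 319) (nat_lit 311) (nat_lit 150)) (XT.lf (nat_lit 0) (nat_lit 44696626920) (nat_lit 380) (nat_lit 102294525958) (nat_lit 456) (nat_lit 153731475975) (nat_lit 72) (nat_lit 5) (nat_lit 77) (nat_lit 5) (nat_lit 78) (nat_lit 5) (nat_lit 320) (nat_lit 311) (nat_lit 149))) (XT.nd (nat_lit 78) (nat_lit 608) (nat_lit 0) (XT.lf (nat_lit 0) (nat_lit 200310177061) (nat_lit 456) (nat_lit 24524221733)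 (nat_lit 76) (nat_lit 89650066403) (nat_lit 72) (nat_lit 5) (nat_lit 78) (nat_lit 5) (nat_lit 73) (nat_lit 5) (nat_lit 321) (nat_lit 311) (nat_lit 148)) (XT.nd (nat_lit 78) (nat_lit 304) (nat_lit 0) (XT.lf (nat_lit 0) (nat_lit 231171638492) (nat_lit 304) (nat_lit 32057073212) (nat_lit 380) (nat_lit 65851837535) (nat_lit 68) (nat_lit 5) (nat_lit 72) (nat_lit 5) (nat_lit 73) (nat_lit 5) (nat_lit 322) (nat_lit 311) (nat_lit 147)) (XT.lf (nat_lit 0) (nat_lit 165929534132) (nat_lit 304) (nat_lit 171025982288) (nat_lit 380) (nat_lit 7600064416) (nat_lit 64) (nat_lit 5) (nat_lit 68) (nat_lit 5) (nat_lit 69) (nat_lit 5) (nat_lit 323) (nat_lit 311) (nat_lit 146))))) (XT.nd (nat_lit 234) (nat_lit 760) (nat_lit 0) (XT.nd (nat_lit 78) (nat_lit 304) (nat_lit 0) (XT.lf (nat_lit 0) (nat_lit 57880750223) (nat_lit 380) (nat_lit 266833461447) (nat_lit 76) (nat_lit 36294263604) (nat_lit 59) (nat_lit 5) (nat_lit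 64) (nat_lit 5) (nat_lit 60) (nat_lit 5) (nat_lit 324) (nat_lit 311) (nat_lit 145)) (XT.nd (nat_lit 78) (nat_lit 0) (nat_lit 0) (XT.lf (nat_lit 0) (nat_lit 13939882544) (nat_lit 304) (nat_lit 120661345079) (nat_lit 380) (nat_lit 243856770903) (nat_lit 55) (nat_lit 5) (nat_lit 59) (nat_lit 5) (nat_lit 60) (nat_lit 5) (nat_lit 325) (nat_lit 311) (nat_lit 144)) (XT.lf (nat_lit 0) (nat_lit 223740352043) (nat_lit 380) (nat_lit 72000613115) (nat_lit 76) (nat_lit 101248468190) (nat_lit 55) (nat_lit 5) (nat_lit 60) (nat_lit 5) (nat_lit 56) (nat_lit 5) (nat_lit 326) (nat_lit 311) (nat_lit 143)))) (XT.nd (nat_lit 78) (nat_lit 532) (nat_lit 0) (XT.lf (nat_lit 0) (nat_lit 249881369238) (nat_lit 228) (nat_lit 76065065536) (nat_lit 304) (nat_lit 90760156904) (nat_lit 52) (nat_lit 5) (nat_lit 55) (nat_lit 5) (nat_lit 56) (nat_lit 5) (nat_lit 327) (nat_lit 311) (nat_lit 142)) (XT.nd (nat_lit 78) (nat_lit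 228) (nat_lit 0) (XT.lf (nat_lit 0) (nat_lit 4851325172) (nat_lit 304) (nat_lit 272874289934) (nat_lit 76) (nat_lit 159953316741) (nat_lit 48) (nat_lit 5) (nat_lit 52) (nat_lit 5) (nat_lit 49) (nat_lit 5) (nat_lit 328) (nat_lit 311) (nat_lit 141)) (XT.lf (nat_lit 0) (nat_lit 68055895587) (nat_lit 228) (nat_lit 42217230235) (nat_lit 304) (nat_lit 349714480258) (nat_lit 45) (nat_lit 5) (nat_lit 48) (nat_lit 5) (nat_lit 49) (nat_lit 5) (nat_lit 329) (nat_lit 311) (nat_lit 140))))))) (XT.nd (nat_lit 39234) (nat_lit 0) (nat_lit 3420) (XT.nd (nat_lit 390) (nat_lit 684) (nat_lit 0) (XT.nd (nat_lit 156) (nat_lit 456) (nat_lit 0) (XT.nd (nat_lit 78) (nat_lit 228) (nat_lit 0) (XT.lf (nat_lit 0) (nat_lit 232271780882) (nat_lit 304) (nat_lit 41228566034) (nat_lit 76) (nat_lit 210173471926) (nat_lit 45) (nat_lit 5) (nat_lit 49) (nat_lit 5) (nat_lit 46) (nat_lit 5) (nat_lit 330) (nat_lit 311) (nat_lit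 139)) (XT.lf (nat_lit 0) (nat_lit 347955621271) (nat_lit 228) (nat_lit 22219056053) (nat_lit 304) (nat_lit 138773033949) (nat_lit 42) (nat_lit 5) (nat_lit 45) (nat_lit 5) (nat_lit 46) (nat_lit 5) (nat_lit 331) (nat_lit 311) (nat_lit 138))) (XT.nd (nat_lit 78) (nat_lit 304) (nat_lit 0) (XT.lf (nat_lit 0) (nat_lit 237230003784) (nat_lit 152) (nat_lit 290203665533) (nat_lit 228) (nat_lit 8393652682) (nat_lit 40) (nat_lit 5) (nat_lit 42) (nat_lit 5) (nat_lit 43) (nat_lit 5) (nat_lit 332) (nat_lit 311) (nat_lit 137)) (XT.nd (nat_lit 78) (nat_lit 0) (nat_lit 0) (XT.lf (nat_lit 0) (nat_lit 109353645627) (nat_lit 228) (nat_lit 23756547374) (nat_lit 304) (nat_lit 431397126584) (nat_lit 36) (nat_lit 5) (nat_lit 39) (nat_lit 5) (nat_lit 40) (nat_lit 5) (nat_lit 333) (nat_lit 311) (nat_lit 136)) (XT.lf (nat_lit 0) (nat_lit 295052660901) (nat_lit 304) (nat_lit 38966924511) (nat_lit 76) (nat_lit 260984632236)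 (nat_lit 36) (nat_lit 5) (nat_lit 40) (nat_lit 5) (nat_lit 37) (nat_lit 5) (nat_lit 334) (nat_lit 311) (nat_lit 135))))) (XT.nd (nat_lit 156) (nat_lit 304) (nat_lit 0) (XT.nd (nat_lit 78) (nat_lit 228) (nat_lit 0) (XT.lf (nat_lit 0) (nat_lit 423674320366) (nat_lit 152) (nat_lit 53291468803) (nat_lit 228) (nat_lit 150624315308) (nat_lit 34) (nat_lit 5) (nat_lit 36) (nat_lit 5) (nat_lit 37) (nat_lit 5) (nat_lit 335) (nat_lit 311) (nat_lit 134)) (XT.lf (nat_lit 0) (nat_lit 19205382725) (nat_lit 228) (nat_lit 396065764988) (nat_lit 76) (nat_lit 247058545723) (nat_lit 31) (nat_lit 5) (nat_lit 34) (nat_lit 5) (nat_lit 32) (nat_lit 5) (nat_lit 336) (nat_lit 311) (nat_lit 133))) (XT.nd (nat_lit 78) (nat_lit 152) (nat_lit 0) (XT.lf (nat_lit 0) (nat_lit 80756956509) (nat_lit 152) (nat_lit 122427599199) (nat_lit 228) (nat_lit 496248419236) (nat_lit 29) (nat_lit 5) (nat_lit 31) (nat_lit 5) (nat_lit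 32) (nat_lit 5) (nat_lit 337) (nat_lit 311) (nat_lit 132)) (XT.nd (nat_lit 78) (nat_lit 152) (nat_lit 0) (XT.lf (nat_lit 0) (nat_lit 411920761160) (nat_lit 228) (nat_lit 132430307923) (nat_lit 76) (nat_lit 194651515009) (nat_lit 29) (nat_lit 5) (nat_lit 32) (nat_lit 5) (nat_lit 30) (nat_lit 5) (nat_lit 338) (nat_lit 311) (nat_lit 131)) (XT.lf (nat_lit 0) (nat_lit 403567301896) (nat_lit 152) (nat_lit 242153682069) (nat_lit 228) (nat_lit 135598522010) (nat_lit 27) (nat_lit 5) (nat_lit 29) (nat_lit 5) (nat_lit 30) (nat_lit 5) (nat_lit 339) (nat_lit 311) (nat_lit 130)))))) (XT.nd (nat_lit 390) (nat_lit 1368) (nat_lit 0) (XT.nd (nat_lit 156) (nat_lit 0) (nat_lit 76) (XT.nd (nat_lit 78) (nat_lit 0) (nat_lit 0) (XT.lf (nat_lit 0) (nat_lit 46686296756) (nat_lit 0) (nat_lit 46686296756) (nat_lit 684) (nat_lit 18448723471) (nat_lit 90) (nat_lit 5) (nat_lit 90) (nat_lit 3) (nat_lit 99) (nat_lit 3)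 (nat_lit 312) (nat_lit 312) (nat_lit 156)) (XT.lf (nat_lit 76) (nat_lit 31771520941) (nat_lit 0) (nat_lit 164037805598) (nat_lit 760) (nat_lit 36699292307) (nat_lit 91) (nat_lit 5) (nat_lit 90) (nat_lit 5) (nat_lit 100) (nat_lit 5) (nat_lit 313) (nat_lit 312) (nat_lit 155))) (XT.nd (nat_lit 78) (nat_lit 0) (nat_lit 0) (XT.lf (nat_lit 0) (nat_lit 209422674748) (nat_lit 684) (nat_lit 32097284411) (nat_lit 760) (nat_lit 372719868) (nat_lit 91) (nat_lit 5) (nat_lit 100) (nat_lit 5) (nat_lit 101) (nat_lit 5) (nat_lit 314) (nat_lit 312) (nat_lit 154)) (XT.nd (nat_lit 78) (nat_lit 0) (nat_lit 76) (XT.lf (nat_lit 76) (nat_lit 152136956395) (nat_lit 0) (nat_lit 77129218603) (nat_lit 760) (nat_lit 22504235173) (nat_lit 92) (nat_lit 5) (nat_lit 91) (nat_lit 5) (nat_lit 101) (nat_lit 5) (nat_lit 315) (nat_lit 312) (nat_lit 153)) (XT.lf (nat_lit 76) (nat_lit 91187269384) (nat_lit 0) (nat_lit 163069414625)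 (nat_lit 760) (nat_lit 8003699695) (nat_lit 93) (nat_lit 5) (nat_lit 92) (nat_lit 5) (nat_lit 102) (nat_lit 5) (nat_lit 316) (nat_lit 312) (nat_lit 152))))) (XT.nd (nat_lit 234) (nat_lit 836) (nat_lit 0) (XT.nd (nat_lit 78) (nat_lit 0) (nat_lit 0) (XT.lf (nat_lit 0) (nat_lit 11140957099) (nat_lit 760) (nat_lit 246921019625) (nat_lit 836) (nat_lit 15335144101) (nat_lit 83) (nat_lit 5) (nat_lit 93) (nat_lit 5) (nat_lit 94) (nat_lit 5) (nat_lit 317) (nat_lit 312) (nat_lit 151)) (XT.nd (nat_lit 78) (nat_lit 0) (nat_lit 76) (XT.lf (nat_lit 0) (nat_lit 37318861494) (nat_lit 760) (nat_lit 42271156854) (nat_lit 836) (nat_lit 205539114144) (nat_lit 83) (nat_lit 5) (nat_lit 93) (nat_lit 5) (nat_lit 94) (nat_lit 5) (nat_lit 318) (nat_lit 312) (nat_lit 150)) (XT.lf (nat_lit 0) (nat_lit 70287940118) (nat_lit 760) (nat_lit 114808678266) (nat_lit 76) (nat_lit 112468239866) (nat_lit 84) (nat_lit 5) (nat_lit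 94) (nat_lit 5) (nat_lit 85) (nat_lit 5) (nat_lit 319) (nat_lit 312) (nat_lit 149)))) (XT.nd (nat_lit 78) (nat_lit 380) (nat_lit 0) (XT.lf (nat_lit 0) (nat_lit 109979065283) (nat_lit 608) (nat_lit 192153666904) (nat_lit 76) (nat_lit 8658484102) (nat_lit 77) (nat_lit 5) (nat_lit 85) (nat_lit 5) (nat_lit 78) (nat_lit 5) (nat_lit 320) (nat_lit 312) (nat_lit 148)) (XT.nd (nat_lit 78) (nat_lit 0) (nat_lit 0) (XT.lf (nat_lit 0) (nat_lit 48274691351) (nat_lit 380) (nat_lit 110478118338) (nat_lit 456) (nat_lit 166027507036) (nat_lit 72) (nat_lit 5) (nat_lit 77) (nat_lit 5) (nat_lit 78) (nat_lit 5) (nat_lit 321) (nat_lit 312) (nat_lit 147)) (XT.lf (nat_lit 0) (nat_lit 216337180214) (nat_lit 456) (nat_lit 26483884300) (nat_lit 76) (nat_lit 96822044555) (nat_lit 72) (nat_lit 5) (nat_lit 78) (nat_lit 5) (nat_lit 73) (nat_lit 5) (nat_lit 322) (nat_lit 312) (nat_lit 146))))))))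
noncomputable def xc122 : XT := (XT.nd (nat_lit 40092) (nat_lit 0) (nat_lit 532) (XT.nd (nat_lit 780) (nat_lit 988) (nat_lit 0) (XT.nd (nat_lit 390) (nat_lit 988) (nat_lit 0) (XT.nd (nat_lit 156) (nat_lit 684) (nat_lit 0) (XT.nd (nat_lit 78) (nat_lit 304) (nat_lit 0) (XT.lf (nat_lit 0) (nat_lit 249667545867) (nat_lit 304) (nat_lit 34621523592) (nat_lit 380) (nat_lit 71117817070) (nat_lit 68) (nat_lit 5) (nat_lit 72) (nat_lit 5) (nat_lit 73) (nat_lit 5) (nat_lit 323) (nat_lit 312) (nat_lit 145)) (XT.lf (nat_lit 0) (nat_lit 179206078868) (nat_lit 304) (nat_lit 184707822769) (nat_lit 380) (nat_lit 8206025133) (nat_lit 64) (nat_lit 5) (nat_lit 68) (nat_lit 5) (nat_lit 69) (nat_lit 5) (nat_lit 324) (nat_lit 312) (nat_lit 144))) (XT.nd (nat_lit 78) (nat_lit 304) (nat_lit 0) (XT.lf (nat_lit 0) (nat_lit 62513080739) (nat_lit 380) (nat_lit 288177893784) (nat_lit 76) (nat_lit 39198082304) (nat_lit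 59) (nat_lit 5) (nat_lit 64) (nat_lit 5) (nat_lit 60) (nat_lit 5) (nat_lit 325) (nat_lit 312) (nat_lit 143)) (XT.nd (nat_lit 78) (nat_lit 0) (nat_lit 0) (XT.lf (nat_lit 0) (nat_lit 15057220180) (nat_lit 304) (nat_lit 130313871118) (nat_lit 380) (nat_lit 263363456111) (nat_lit 55) (nat_lit 5) (nat_lit 59) (nat_lit 5) (nat_lit 60) (nat_lit 5) (nat_lit 326) (nat_lit 312) (nat_lit 142)) (XT.lf (nat_lit 0) (nat_lit 241641220412) (nat_lit 380) (nat_lit 77758595428) (nat_lit 76) (nat_lit 109348687642) (nat_lit 55) (nat_lit 5) (nat_lit 60) (nat_lit 5) (nat_lit 56) (nat_lit 5) (nat_lit 327) (nat_lit 312) (nat_lit 141))))) (XT.nd (nat_lit 156) (nat_lit 456) (nat_lit 0) (XT.nd (nat_lit 78) (nat_lit 304) (nat_lit 0) (XT.lf (nat_lit 0) (nat_lit 269873855695) (nat_lit 228) (nat_lit 82149843435) (nat_lit 304) (nat_lit 98019340067) (nat_lit 52) (nat_lit 5) (nat_lit 55) (nat_lit 5) (nat_lit 56) (nat_lit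 5) (nat_lit 328) (nat_lit 312) (nat_lit 140)) (XT.lf (nat_lit 0) (nat_lit 5240928989) (nat_lit 304) (nat_lit 294702220574) (nat_lit 76) (nat_lit 172750019880) (nat_lit 48) (nat_lit 5) (nat_lit 52) (nat_lit 5) (nat_lit 49) (nat_lit 5) (nat_lit 329) (nat_lit 312) (nat_lit 139))) (XT.nd (nat_lit 78) (nat_lit 228) (nat_lit 0) (XT.lf (nat_lit 0) (nat_lit 73502292326) (nat_lit 228) (nat_lit 45594100474) (nat_lit 304) (nat_lit 377690149013) (nat_lit 45) (nat_lit 5) (nat_lit 48) (nat_lit 5) (nat_lit 49) (nat_lit 5) (nat_lit 330) (nat_lit 312) (nat_lit 138)) (XT.nd (nat_lit 78) (nat_lit 228) (nat_lit 0) (XT.lf (nat_lit 0) (nat_lit 250854842654) (nat_lit 304) (nat_lit 44525008806) (nat_lit 76) (nat_lit 226987805157) (nat_lit 45) (nat_lit 5) (nat_lit 49) (nat_lit 5) (nat_lit 46) (nat_lit 5) (nat_lit 331) (nat_lit 312) (nat_lit 137)) (XT.lf (nat_lit 0) (nat_lit 375793833411) (nat_lit 228) (nat_lit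 23996067192) (nat_lit 304) (nat_lit 149873563481) (nat_lit 42) (nat_lit 5) (nat_lit 45) (nat_lit 5) (nat_lit 46) (nat_lit 5) (nat_lit 332) (nat_lit 312) (nat_lit 136)))))) (XT.nd (nat_lit 390) (nat_lit 152) (nat_lit 0) (XT.nd (nat_lit 156) (nat_lit 380) (nat_lit 0) (XT.nd (nat_lit 78) (nat_lit 304) (nat_lit 0) (XT.lf (nat_lit 0) (nat_lit 256210143570) (nat_lit 152) (nat_lit 313419410438) (nat_lit 228) (nat_lit 9063892677) (nat_lit 40) (nat_lit 5) (nat_lit 42) (nat_lit 5) (nat_lit 43) (nat_lit 5) (nat_lit 333) (nat_lit 312) (nat_lit 135)) (XT.lf (nat_lit 0) (nat_lit 118103640882) (nat_lit 228) (nat_lit 25656516509) (nat_lit 304) (nat_lit 465907688978) (nat_lit 36) (nat_lit 5) (nat_lit 39) (nat_lit 5) (nat_lit 40) (nat_lit 5) (nat_lit 334) (nat_lit 312) (nat_lit 134))) (XT.nd (nat_lit 78) (nat_lit 380) (nat_lit 0) (XT.lf (nat_lit 0) (nat_lit 318657945634) (nat_lit 304) (nat_lit 42082654649)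 (nat_lit 76) (nat_lit 281863899947) (nat_lit 36) (nat_lit 5) (nat_lit 40) (nat_lit 5) (nat_lit 37) (nat_lit 5) (nat_lit 335) (nat_lit 312) (nat_lit 133)) (XT.nd (nat_lit 78) (nat_lit 228) (nat_lit 0) (XT.lf (nat_lit 0) (nat_lit 457569819249) (nat_lit 152) (nat_lit 57554249768) (nat_lit 228) (nat_lit 162673191838) (nat_lit 34) (nat_lit 5) (nat_lit 36) (nat_lit 5) (nat_lit 37) (nat_lit 5) (nat_lit 336) (nat_lit 312) (nat_lit 132)) (XT.lf (nat_lit 0) (nat_lit 20742803327) (nat_lit 228) (nat_lit 427749464983) (nat_lit 76) (nat_lit 266823750092) (nat_lit 31) (nat_lit 5) (nat_lit 34) (nat_lit 5) (nat_lit 32) (nat_lit 5) (nat_lit 337) (nat_lit 312) (nat_lit 131))))) (XT.nd (nat_lit 38688) (nat_lit 0) (nat_lit 4636) (XT.nd (nat_lit 78) (nat_lit 0) (nat_lit 0) (XT.lf (nat_lit 0) (nat_lit 87219006386) (nat_lit 152) (nat_lit 132221253746) (nat_lit 228) (nat_lit 535947304874) (nat_lit 29) (nat_lit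 5) (nat_lit 31) (nat_lit 5) (nat_lit 32) (nat_lit 5) (nat_lit 338) (nat_lit 312) (nat_lit 130)) (XT.lf (nat_lit 0) (nat_lit 444875300393) (nat_lit 228) (nat_lit 143023313437) (nat_lit 76) (nat_lit 210224132207) (nat_lit 29) (nat_lit 5) (nat_lit 32) (nat_lit 5) (nat_lit 30) (nat_lit 5) (nat_lit 339) (nat_lit 312) (nat_lit 129))) (XT.nd (nat_lit 78) (nat_lit 0) (nat_lit 0) (XT.lf (nat_lit 0) (nat_lit 50422138522) (nat_lit 0) (nat_lit 50422138522) (nat_lit 684) (nat_lit 19922647710) (nat_lit 90) (nat_lit 5) (nat_lit 90) (nat_lit 3) (nat_lit 99) (nat_lit 3) (nat_lit 313) (nat_lit 313) (nat_lit 154)) (XT.nd (nat_lit 78) (nat_lit 0) (nat_lit 76) (XT.lf (nat_lit 76) (nat_lit 34315251846) (nat_lit 0) (nat_lit 177162299233) (nat_lit 760) (nat_lit 39631576344) (nat_lit 91) (nat_lit 5) (nat_lit 90) (nat_lit 5) (nat_lit 100) (nat_lit 5) (nat_lit 314) (nat_lit 313) (nat_lit 153)) (XT.lf (nat_lit 0)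 (nat_lit 226179688246) (nat_lit 684) (nat_lit 34663017998) (nat_lit 760) (nat_lit 401220639) (nat_lit 91) (nat_lit 5) (nat_lit 100) (nat_lit 5) (nat_lit 101) (nat_lit 5) (nat_lit 315) (nat_lit 313) (nat_lit 152))))))) (XT.nd (nat_lit 780) (nat_lit 2128) (nat_lit 0) (XT.nd (nat_lit 390) (nat_lit 1444) (nat_lit 0) (XT.nd (nat_lit 156) (nat_lit 608) (nat_lit 0) (XT.nd (nat_lit 78) (nat_lit 0) (nat_lit 76) (XT.lf (nat_lit 76) (nat_lit 164309873018) (nat_lit 0) (nat_lit 83300589100) (nat_lit 760) (nat_lit 24301425202) (nat_lit 92) (nat_lit 5) (nat_lit 91) (nat_lit 5) (nat_lit 101) (nat_lit 5) (nat_lit 316) (nat_lit 313) (nat_lit 151)) (XT.lf (nat_lit 76) (nat_lit 98484290189) (nat_lit 0) (nat_lit 176115716853) (nat_lit 760) (nat_lit 8641062379) (nat_lit 93) (nat_lit 5) (nat_lit 92) (nat_lit 5) (nat_lit 102) (nat_lit 5) (nat_lit 317) (nat_lit 313) (nat_lit 150))) (XT.nd (nat_lit 78) (nat_lit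 0) (nat_lit 0) (XT.lf (nat_lit 0) (nat_lit 12034885074) (nat_lit 760) (nat_lit 266672508124) (nat_lit 836) (nat_lit 16561359815) (nat_lit 83) (nat_lit 5) (nat_lit 93) (nat_lit 5) (nat_lit 94) (nat_lit 5) (nat_lit 318) (nat_lit 313) (nat_lit 149)) (XT.nd (nat_lit 78) (nat_lit 0) (nat_lit 76) (XT.lf (nat_lit 0) (nat_lit 40306825420) (nat_lit 760) (nat_lit 45650818781) (nat_lit 836) (nat_lit 221981691596) (nat_lit 83) (nat_lit 5) (nat_lit 93) (nat_lit 5) (nat_lit 94) (nat_lit 5) (nat_lit 319) (nat_lit 313) (nat_lit 148)) (XT.lf (nat_lit 0) (nat_lit 75913273170) (nat_lit 760) (nat_lit 123991305136) (nat_lit 76) (nat_lit 121465349505) (nat_lit 84) (nat_lit 5) (nat_lit 94) (nat_lit 5) (nat_lit 85) (nat_lit 5) (nat_lit 320) (nat_lit 313) (nat_lit 147))))) (XT.nd (nat_lit 156) (nat_lit 608) (nat_lit 0) (XT.nd (nat_lit 78) (nat_lit 380) (nat_lit 0) (XT.lf (nat_lit 0) (nat_lit 118779546187) (nat_lit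 608) (nat_lit 207523868065) (nat_lit 76) (nat_lit 9350987661) (nat_lit 77) (nat_lit 5) (nat_lit 85) (nat_lit 5) (nat_lit 78) (nat_lit 5) (nat_lit 321) (nat_lit 313) (nat_lit 146)) (XT.lf (nat_lit 0) (nat_lit 52138667926) (nat_lit 380) (nat_lit 119316393786) (nat_lit 456) (nat_lit 179307575383) (nat_lit 72) (nat_lit 5) (nat_lit 77) (nat_lit 5) (nat_lit 78) (nat_lit 5) (nat_lit 322) (nat_lit 313) (nat_lit 145))) (XT.nd (nat_lit 78) (nat_lit 608) (nat_lit 0) (XT.lf (nat_lit 0) (nat_lit 233646031336) (nat_lit 456) (nat_lit 28600644450) (nat_lit 76) (nat_lit 104567784833) (nat_lit 72) (nat_lit 5) (nat_lit 78) (nat_lit 5) (nat_lit 73) (nat_lit 5) (nat_lit 323) (nat_lit 313) (nat_lit 144)) (XT.nd (nat_lit 78) (nat_lit 304) (nat_lit 0) (XT.lf (nat_lit 0) (nat_lit 269642815360) (nat_lit 304) (nat_lit 37391146477) (nat_lit 380) (nat_lit 76805384183) (nat_lit 68) (nat_lit 5) (nat_lit 72) (nat_lit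 5) (nat_lit 73) (nat_lit 5) (nat_lit 324) (nat_lit 313) (nat_lit 143)) (XT.lf (nat_lit 0) (nat_lit 193544435895) (nat_lit 304) (nat_lit 199484244456) (nat_lit 380) (nat_lit 8860754368) (nat_lit 64) (nat_lit 5) (nat_lit 68) (nat_lit 5) (nat_lit 69) (nat_lit 5) (nat_lit 325) (nat_lit 313) (nat_lit 142)))))) (XT.nd (nat_lit 390) (nat_lit 912) (nat_lit 0) (XT.nd (nat_lit 156) (nat_lit 532) (nat_lit 0) (XT.nd (nat_lit 78) (nat_lit 304) (nat_lit 0) (XT.lf (nat_lit 0) (nat_lit 67515730849) (nat_lit 380) (nat_lit 311230200921) (nat_lit 76) (nat_lit 42334166894) (nat_lit 59) (nat_lit 5) (nat_lit 64) (nat_lit 5) (nat_lit 60) (nat_lit 5) (nat_lit 326) (nat_lit 313) (nat_lit 141)) (XT.lf (nat_lit 0) (nat_lit 16263638529) (nat_lit 304) (nat_lit 140738653674) (nat_lit 380) (nat_lit 284430940981) (nat_lit 55) (nat_lit 5) (nat_lit 59) (nat_lit 5) (nat_lit 60) (nat_lit 5) (nat_lit 327) (nat_lit 313) (nat_lit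 140))) (XT.nd (nat_lit 78) (nat_lit 532) (nat_lit 0) (XT.lf (nat_lit 0) (nat_lit 260973924257) (nat_lit 380) (nat_lit 83977511169) (nat_lit 76) (nat_lit 118096875859) (nat_lit 55) (nat_lit 5) (nat_lit 60) (nat_lit 5) (nat_lit 56) (nat_lit 5) (nat_lit 328) (nat_lit 313) (nat_lit 139)) (XT.nd (nat_lit 78) (nat_lit 304) (nat_lit 0) (XT.lf (nat_lit 0) (nat_lit 291465459039) (nat_lit 228) (nat_lit 88721464531) (nat_lit 304) (nat_lit 105859490332) (nat_lit 52) (nat_lit 5) (nat_lit 55) (nat_lit 5) (nat_lit 56) (nat_lit 5) (nat_lit 329) (nat_lit 313) (nat_lit 138)) (XT.lf (nat_lit 0) (nat_lit 5661487434) (nat_lit 304) (nat_lit 318276672778) (nat_lit 76) (nat_lit 186570396812) (nat_lit 48) (nat_lit 5) (nat_lit 52) (nat_lit 5) (nat_lit 49) (nat_lit 5) (nat_lit 330) (nat_lit 313) (nat_lit 137))))) (XT.nd (nat_lit 234) (nat_lit 456) (nat_lit 0) (XT.nd (nat_lit 78) (nat_lit 228) (nat_lit 0) (XT.lf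 (nat_lit 0) (nat_lit 79384126168) (nat_lit 228) (nat_lit 49241192830) (nat_lit 304) (nat_lit 407904083786) (nat_lit 45) (nat_lit 5) (nat_lit 48) (nat_lit 5) (nat_lit 49) (nat_lit 5) (nat_lit 331) (nat_lit 313) (nat_lit 136)) (XT.nd (nat_lit 78) (nat_lit 228) (nat_lit 0) (XT.lf (nat_lit 0) (nat_lit 270924361155) (nat_lit 304) (nat_lit 48085429854) (nat_lit 76) (nat_lit 245147220068) (nat_lit 45) (nat_lit 5) (nat_lit 49) (nat_lit 5) (nat_lit 46) (nat_lit 5) (nat_lit 332) (nat_lit 313) (nat_lit 135)) (XT.lf (nat_lit 0) (nat_lit 405858851090) (nat_lit 228) (nat_lit 25915312457) (nat_lit 304) (nat_lit 161862322717) (nat_lit 42) (nat_lit 5) (nat_lit 45) (nat_lit 5) (nat_lit 46) (nat_lit 5) (nat_lit 333) (nat_lit 313) (nat_lit 134)))) (XT.nd (nat_lit 78) (nat_lit 304) (nat_lit 0) (XT.lf (nat_lit 0) (nat_lit 276708446382) (nat_lit 152) (nat_lit 338492493162) (nat_lit 228) (nat_lit 9787930516)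 (nat_lit 40) (nat_lit 5) (nat_lit 42) (nat_lit 5) (nat_lit 43) (nat_lit 5) (nat_lit 334) (nat_lit 313) (nat_lit 133)) (XT.nd (nat_lit 78) (nat_lit 0) (nat_lit 0) (XT.lf (nat_lit 0) (nat_lit 127553392719) (nat_lit 228) (nat_lit 27708562302) (nat_lit 304) (nat_lit 503179268659) (nat_lit 36) (nat_lit 5) (nat_lit 39) (nat_lit 5) (nat_lit 40) (nat_lit 5) (nat_lit 335) (nat_lit 313) (nat_lit 132)) (XT.lf (nat_lit 0) (nat_lit 344151500232) (nat_lit 304) (nat_lit 45447874854) (nat_lit 76) (nat_lit 304413438154) (nat_lit 36) (nat_lit 5) (nat_lit 40) (nat_lit 5) (nat_lit 37) (nat_lit 5) (nat_lit 336) (nat_lit 313) (nat_lit 131))))))))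
noncomputable def xc123 : XT := (XT.nd (nat_lit 40326) (nat_lit 0) (nat_lit 228) (XT.nd (nat_lit 39468) (nat_lit 0) (nat_lit 1064) (XT.nd (nat_lit 39078) (nat_lit 0) (nat_lit 3496) (XT.nd (nat_lit 38844) (nat_lit 0) (nat_lit 4484) (XT.nd (nat_lit 38766) (nat_lit 0) (nat_lit 4484) (XT.lf (nat_lit 0) (nat_lit 22403076345) (nat_lit 228) (nat_lit 461968083701) (nat_lit 76) (nat_lit 288170096525) (nat_lit 31) (nat_lit 5) (nat_lit 34) (nat_lit 5) (nat_lit 32) (nat_lit 5) (nat_lit 338) (nat_lit 313) (nat_lit 129)) (XT.lf (nat_lit 0) (nat_lit 54456713809) (nat_lit 0) (nat_lit 54456713809) (nat_lit 684) (nat_lit 21514767450) (nat_lit 90) (nat_lit 5) (nat_lit 90) (nat_lit 3) (nat_lit 99) (nat_lit 3) (nat_lit 314) (nat_lit 314) (nat_lit 152))) (XT.nd (nat_lit 78) (nat_lit 0) (nat_lit 76) (XT.lf (nat_lit 76) (nat_lit 37062194586) (nat_lit 0) (nat_lit 191336542763) (nat_lit 760) (nat_lit 42798965151)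 (nat_lit 91) (nat_lit 5) (nat_lit 90) (nat_lit 5) (nat_lit 100) (nat_lit 5) (nat_lit 315) (nat_lit 314) (nat_lit 151)) (XT.nd (nat_lit 78) (nat_lit 0) (nat_lit 0) (XT.lf (nat_lit 0) (nat_lit 244276806376) (nat_lit 684) (nat_lit 37434302609) (nat_lit 760) (nat_lit 432189331) (nat_lit 91) (nat_lit 5) (nat_lit 100) (nat_lit 5) (nat_lit 101) (nat_lit 5) (nat_lit 316) (nat_lit 314) (nat_lit 150)) (XT.lf (nat_lit 76) (nat_lit 177456343339) (nat_lit 0) (nat_lit 89965521866) (nat_lit 760) (nat_lit 26242839643) (nat_lit 92) (nat_lit 5) (nat_lit 91) (nat_lit 5) (nat_lit 101) (nat_lit 5) (nat_lit 317) (nat_lit 314) (nat_lit 149))))) (XT.nd (nat_lit 156) (nat_lit 456) (nat_lit 0) (XT.nd (nat_lit 78) (nat_lit 684) (nat_lit 0) (XT.lf (nat_lit 76) (nat_lit 106364781736) (nat_lit 0) (nat_lit 190205616397) (nat_lit 760) (nat_lit 9329832544) (nat_lit 93) (nat_lit 5) (nat_lit 92) (nat_lit 5) (nat_lit 102)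 (nat_lit 5) (nat_lit 318) (nat_lit 314) (nat_lit 148)) (XT.lf (nat_lit 0) (nat_lit 12999949035) (nat_lit 760) (nat_lit 288004428570) (nat_lit 836) (nat_lit 17885757786) (nat_lit 83) (nat_lit 5) (nat_lit 93) (nat_lit 5) (nat_lit 94) (nat_lit 5) (nat_lit 319) (nat_lit 314) (nat_lit 147))) (XT.nd (nat_lit 78) (nat_lit 456) (nat_lit 0) (XT.lf (nat_lit 0) (nat_lit 43533476226) (nat_lit 760) (nat_lit 49301143354) (nat_lit 836) (nat_lit 239739753948) (nat_lit 83) (nat_lit 5) (nat_lit 93) (nat_lit 5) (nat_lit 94) (nat_lit 5) (nat_lit 320) (nat_lit 314) (nat_lit 146)) (XT.nd (nat_lit 78) (nat_lit 532) (nat_lit 0) (XT.lf (nat_lit 0) (nat_lit 81988305053) (nat_lit 760) (nat_lit 133908837092) (nat_lit 76) (nat_lit 131182277783) (nat_lit 84) (nat_lit 5) (nat_lit 94) (nat_lit 5) (nat_lit 85) (nat_lit 5) (nat_lit 321) (nat_lit 314) (nat_lit 145)) (XT.lf (nat_lit 0) (nat_lit 128283758032) (nat_lit 608)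 (nat_lit 224123983794) (nat_lit 76) (nat_lit 10098916493) (nat_lit 77) (nat_lit 5) (nat_lit 85) (nat_lit 5) (nat_lit 78) (nat_lit 5) (nat_lit 322) (nat_lit 314) (nat_lit 144)))))) (XT.nd (nat_lit 390) (nat_lit 1064) (nat_lit 0) (XT.nd (nat_lit 156) (nat_lit 988) (nat_lit 0) (XT.nd (nat_lit 78) (nat_lit 0) (nat_lit 0) (XT.lf (nat_lit 0) (nat_lit 56311477124) (nat_lit 380) (nat_lit 128861727563) (nat_lit 456) (nat_lit 193650353383) (nat_lit 72) (nat_lit 5) (nat_lit 77) (nat_lit 5) (nat_lit 78) (nat_lit 5) (nat_lit 323) (nat_lit 314) (nat_lit 143)) (XT.lf (nat_lit 0) (nat_lit 252339322815) (nat_lit 456) (nat_lit 30887023687) (nat_lit 76) (nat_lit 112933187656) (nat_lit 72) (nat_lit 5) (nat_lit 78) (nat_lit 5) (nat_lit 73) (nat_lit 5) (nat_lit 324) (nat_lit 314) (nat_lit 142))) (XT.nd (nat_lit 78) (nat_lit 684) (nat_lit 0) (XT.lf (nat_lit 0) (nat_lit 291215840231) (nat_lit 304) (nat_lit 40382353316)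 (nat_lit 380) (nat_lit 82948221765) (nat_lit 68) (nat_lit 5) (nat_lit 72) (nat_lit 5) (nat_lit 73) (nat_lit 5) (nat_lit 325) (nat_lit 314) (nat_lit 141)) (XT.nd (nat_lit 78) (nat_lit 380) (nat_lit 0) (XT.lf (nat_lit 0) (nat_lit 209029594605) (nat_lit 304) (nat_lit 215442809001) (nat_lit 380) (nat_lit 9568111995) (nat_lit 64) (nat_lit 5) (nat_lit 68) (nat_lit 5) (nat_lit 69) (nat_lit 5) (nat_lit 326) (nat_lit 314) (nat_lit 140)) (XT.lf (nat_lit 0) (nat_lit 72918364190) (nat_lit 380) (nat_lit 336126967163) (nat_lit 76) (nat_lit 45721104298) (nat_lit 59) (nat_lit 5) (nat_lit 64) (nat_lit 5) (nat_lit 60) (nat_lit 5) (nat_lit 327) (nat_lit 314) (nat_lit 139))))) (XT.nd (nat_lit 234) (nat_lit 532) (nat_lit 0) (XT.nd (nat_lit 78) (nat_lit 228) (nat_lit 0) (XT.lf (nat_lit 0) (nat_lit 17566307744) (nat_lit 304) (nat_lit 151997465504) (nat_lit 380) (nat_lit 307184051703) (nat_lit 55) (nat_lit 5)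 (nat_lit 59) (nat_lit 5) (nat_lit 60) (nat_lit 5) (nat_lit 328) (nat_lit 314) (nat_lit 138)) (XT.nd (nat_lit 78) (nat_lit 228) (nat_lit 0) (XT.lf (nat_lit 0) (nat_lit 281853043797) (nat_lit 380) (nat_lit 90694192950) (nat_lit 76) (nat_lit 127544877305) (nat_lit 55) (nat_lit 5) (nat_lit 60) (nat_lit 5) (nat_lit 56) (nat_lit 5) (nat_lit 329) (nat_lit 314) (nat_lit 137)) (XT.lf (nat_lit 0) (nat_lit 314784148856) (nat_lit 228) (nat_lit 95818867583) (nat_lit 304) (nat_lit 114327051909) (nat_lit 52) (nat_lit 5) (nat_lit 55) (nat_lit 5) (nat_lit 56) (nat_lit 5) (nat_lit 330) (nat_lit 314) (nat_lit 136)))) (XT.nd (nat_lit 78) (nat_lit 228) (nat_lit 0) (XT.lf (nat_lit 0) (nat_lit 6115507360) (nat_lit 304) (nat_lit 343737327313) (nat_lit 76) (nat_lit 201496350353) (nat_lit 48) (nat_lit 5) (nat_lit 52) (nat_lit 5) (nat_lit 49) (nat_lit 5) (nat_lit 331) (nat_lit 314) (nat_lit 135)) (XT.nd (nat_lit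 78) (nat_lit 0) (nat_lit 0) (XT.lf (nat_lit 0) (nat_lit 85736271261) (nat_lit 228) (nat_lit 53180114729) (nat_lit 304) (nat_lit 440535315539) (nat_lit 45) (nat_lit 5) (nat_lit 48) (nat_lit 5) (nat_lit 49) (nat_lit 5) (nat_lit 332) (nat_lit 314) (nat_lit 134)) (XT.lf (nat_lit 0) (nat_lit 292599279774) (nat_lit 304) (nat_lit 51930909942) (nat_lit 76) (nat_lit 264759332463) (nat_lit 45) (nat_lit 5) (nat_lit 49) (nat_lit 5) (nat_lit 46) (nat_lit 5) (nat_lit 333) (nat_lit 314) (nat_lit 133))))))) (XT.nd (nat_lit 39624) (nat_lit 0) (nat_lit 1368) (XT.nd (nat_lit 39234) (nat_lit 0) (nat_lit 3724) (XT.nd (nat_lit 156) (nat_lit 456) (nat_lit 0) (XT.nd (nat_lit 78) (nat_lit 152) (nat_lit 0) (XT.lf (nat_lit 0) (nat_lit 438328854622) (nat_lit 228) (nat_lit 27988160129) (nat_lit 304) (nat_lit 174810343305) (nat_lit 42) (nat_lit 5) (nat_lit 45) (nat_lit 5) (nat_lit 46) (nat_lit 5) (nat_lit 334) (nat_lit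 314) (nat_lit 132)) (XT.lf (nat_lit 0) (nat_lit 298846400665) (nat_lit 152) (nat_lit 365571489571) (nat_lit 228) (nat_lit 10570044539) (nat_lit 40) (nat_lit 5) (nat_lit 42) (nat_lit 5) (nat_lit 43) (nat_lit 5) (nat_lit 335) (nat_lit 314) (nat_lit 131))) (XT.nd (nat_lit 156) (nat_lit 152) (nat_lit 0) (XT.lf (nat_lit 0) (nat_lit 137758916338) (nat_lit 228) (nat_lit 29924839598) (nat_lit 304) (nat_lit 543432722432) (nat_lit 36) (nat_lit 5) (nat_lit 39) (nat_lit 5) (nat_lit 40) (nat_lit 5) (nat_lit 336) (nat_lit 314) (nat_lit 130)) (XT.nd (nat_lit 38844) (nat_lit 0) (nat_lit 4256) (XT.lf (nat_lit 0) (nat_lit 533712017058) (nat_lit 152) (nat_lit 67130385761) (nat_lit 228) (nat_lit 189740235903) (nat_lit 34) (nat_lit 5) (nat_lit 36) (nat_lit 5) (nat_lit 37) (nat_lit 5) (nat_lit 338) (nat_lit 314) (nat_lit 128)) (XT.lf (nat_lit 0) (nat_lit 58813940391) (nat_lit 0) (nat_lit 58813940391) (nat_lit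 684) (nat_lit 23234498163) (nat_lit 90) (nat_lit 5) (nat_lit 90) (nat_lit 3) (nat_lit 99) (nat_lit 3) (nat_lit 315) (nat_lit 315) (nat_lit 150))))) (XT.nd (nat_lit 156) (nat_lit 532) (nat_lit 0) (XT.nd (nat_lit 78) (nat_lit 0) (nat_lit 76) (XT.lf (nat_lit 76) (nat_lit 40028646997) (nat_lit 0) (nat_lit 206644546080) (nat_lit 760) (nat_lit 46220192633) (nat_lit 91) (nat_lit 5) (nat_lit 90) (nat_lit 5) (nat_lit 100) (nat_lit 5) (nat_lit 316) (nat_lit 315) (nat_lit 149)) (XT.lf (nat_lit 0) (nat_lit 263821302627) (nat_lit 684) (nat_lit 40427540620) (nat_lit 760) (nat_lit 465796576) (nat_lit 91) (nat_lit 5) (nat_lit 100) (nat_lit 5) (nat_lit 101) (nat_lit 5) (nat_lit 317) (nat_lit 315) (nat_lit 148))) (XT.nd (nat_lit 78) (nat_lit 608) (nat_lit 0) (XT.lf (nat_lit 76) (nat_lit 191654291546) (nat_lit 0) (nat_lit 97163522907) (nat_lit 760) (nat_lit 28339952364) (nat_lit 92) (nat_lit 5) (nat_lit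 91) (nat_lit 5) (nat_lit 101) (nat_lit 5) (nat_lit 318) (nat_lit 315) (nat_lit 147)) (XT.nd (nat_lit 78) (nat_lit 684) (nat_lit 0) (XT.lf (nat_lit 76) (nat_lit 114875463188) (nat_lit 0) (nat_lit 205422616288) (nat_lit 760) (nat_lit 10074063091) (nat_lit 93) (nat_lit 5) (nat_lit 92) (nat_lit 5) (nat_lit 102) (nat_lit 5) (nat_lit 319) (nat_lit 315) (nat_lit 146)) (XT.lf (nat_lit 0) (nat_lit 14041893821) (nat_lit 760) (nat_lit 311043170883) (nat_lit 836) (nat_lit 19316180468) (nat_lit 83) (nat_lit 5) (nat_lit 93) (nat_lit 5) (nat_lit 94) (nat_lit 5) (nat_lit 320) (nat_lit 315) (nat_lit 145)))))) (XT.nd (nat_lit 390) (nat_lit 1520) (nat_lit 0) (XT.nd (nat_lit 156) (nat_lit 836) (nat_lit 0) (XT.nd (nat_lit 78) (nat_lit 0) (nat_lit 76) (XT.lf (nat_lit 0) (nat_lit 47017958828) (nat_lit 760) (nat_lit 53243742255) (nat_lit 836) (nat_lit 258918528763) (nat_lit 83) (nat_lit 5) (nat_lit 93) (nat_lit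 5) (nat_lit 94) (nat_lit 5) (nat_lit 321) (nat_lit 315) (nat_lit 144)) (XT.lf (nat_lit 0) (nat_lit 88549058440) (nat_lit 760) (nat_lit 144620024465) (nat_lit 76) (nat_lit 141676603076) (nat_lit 84) (nat_lit 5) (nat_lit 94) (nat_lit 5) (nat_lit 85) (nat_lit 5) (nat_lit 322) (nat_lit 315) (nat_lit 143))) (XT.nd (nat_lit 78) (nat_lit 380) (nat_lit 0) (XT.lf (nat_lit 0) (nat_lit 138548043165) (nat_lit 608) (nat_lit 242052364675) (nat_lit 76) (nat_lit 10906701057) (nat_lit 77) (nat_lit 5) (nat_lit 85) (nat_lit 5) (nat_lit 78) (nat_lit 5) (nat_lit 323) (nat_lit 315) (nat_lit 142)) (XT.nd (nat_lit 78) (nat_lit 0) (nat_lit 0) (XT.lf (nat_lit 0) (nat_lit 60817866284) (nat_lit 380) (nat_lit 139170684864) (nat_lit 456) (nat_lit 209140814411) (nat_lit 72) (nat_lit 5) (nat_lit 77) (nat_lit 5) (nat_lit 78) (nat_lit 5) (nat_lit 324) (nat_lit 315) (nat_lit 141)) (XT.lf (nat_lit 0) (nat_lit 272527848075)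 (nat_lit 456) (nat_lit 33356551837) (nat_lit 76) (nat_lit 121967825553) (nat_lit 72) (nat_lit 5) (nat_lit 78) (nat_lit 5) (nat_lit 73) (nat_lit 5) (nat_lit 325) (nat_lit 315) (nat_lit 140))))) (XT.nd (nat_lit 234) (nat_lit 532) (nat_lit 0) (XT.nd (nat_lit 78) (nat_lit 684) (nat_lit 0) (XT.lf (nat_lit 0) (nat_lit 314514478885) (nat_lit 304) (nat_lit 43612868812) (nat_lit 380) (nat_lit 89582713634) (nat_lit 68) (nat_lit 5) (nat_lit 72) (nat_lit 5) (nat_lit 73) (nat_lit 5) (nat_lit 326) (nat_lit 315) (nat_lit 139)) (XT.nd (nat_lit 78) (nat_lit 380) (nat_lit 0) (XT.lf (nat_lit 0) (nat_lit 225753337207) (nat_lit 304) (nat_lit 232678083676) (nat_lit 380) (nat_lit 10332272613) (nat_lit 64) (nat_lit 5) (nat_lit 68) (nat_lit 5) (nat_lit 69) (nat_lit 5) (nat_lit 327) (nat_lit 315) (nat_lit 138)) (XT.lf (nat_lit 0) (nat_lit 78753012056) (nat_lit 380) (nat_lit 363015710070) (nat_lit 76) (nat_lit 49378967584)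 (nat_lit 59) (nat_lit 5) (nat_lit 64) (nat_lit 5) (nat_lit 60) (nat_lit 5) (nat_lit 328) (nat_lit 315) (nat_lit 137)))) (XT.nd (nat_lit 78) (nat_lit 228) (nat_lit 0) (XT.lf (nat_lit 0) (nat_lit 18972965358) (nat_lit 304) (nat_lit 164157022292) (nat_lit 380) (nat_lit 331757605952) (nat_lit 55) (nat_lit 5) (nat_lit 59) (nat_lit 5) (nat_lit 60) (nat_lit 5) (nat_lit 329) (nat_lit 315) (nat_lit 136)) (XT.nd (nat_lit 78) (nat_lit 228) (nat_lit 0) (XT.lf (nat_lit 0) (nat_lit 304402320909) (nat_lit 380) (nat_lit 97948425992) (nat_lit 76) (nat_lit 137748683005) (nat_lit 55) (nat_lit 5) (nat_lit 60) (nat_lit 5) (nat_lit 56) (nat_lit 5) (nat_lit 330) (nat_lit 315) (nat_lit 135)) (XT.lf (nat_lit 0) (nat_lit 339968126559) (nat_lit 228) (nat_lit 103484107690) (nat_lit 304) (nat_lit 123472189269) (nat_lit 52) (nat_lit 5) (nat_lit 55) (nat_lit 5) (nat_lit 56) (nat_lit 5) (nat_lit 331) (nat_lit 315) (nat_lit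 134))))))))
noncomputable def xc124 : XT := (XT.nd (nat_lit 40482) (nat_lit 0) (nat_lit 304) (XT.nd (nat_lit 39702) (nat_lit 0) (nat_lit 1748) (XT.nd (nat_lit 468) (nat_lit 304) (nat_lit 0) (XT.nd (nat_lit 156) (nat_lit 380) (nat_lit 0) (XT.nd (nat_lit 78) (nat_lit 228) (nat_lit 0) (XT.lf (nat_lit 0) (nat_lit 6605691819) (nat_lit 304) (nat_lit 371235045247) (nat_lit 76) (nat_lit 217616334269) (nat_lit 48) (nat_lit 5) (nat_lit 52) (nat_lit 5) (nat_lit 49) (nat_lit 5) (nat_lit 332) (nat_lit 315) (nat_lit 133)) (XT.lf (nat_lit 0) (nat_lit 92596386097) (nat_lit 228) (nat_lit 57434203668) (nat_lit 304) (nat_lit 475777202040) (nat_lit 45) (nat_lit 5) (nat_lit 48) (nat_lit 5) (nat_lit 49) (nat_lit 5) (nat_lit 333) (nat_lit 315) (nat_lit 132))) (XT.nd (nat_lit 78) (nat_lit 380) (nat_lit 0) (XT.lf (nat_lit 0) (nat_lit 316008053540) (nat_lit 304) (nat_lit 56084221643) (nat_lit 76) (nat_lit 285940366087)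 (nat_lit 45) (nat_lit 5) (nat_lit 49) (nat_lit 5) (nat_lit 46) (nat_lit 5) (nat_lit 334) (nat_lit 315) (nat_lit 131)) (XT.nd (nat_lit 78) (nat_lit 152) (nat_lit 0) (XT.lf (nat_lit 0) (nat_lit 473396273626) (nat_lit 228) (nat_lit 30226889445) (nat_lit 304) (nat_lit 188794343242) (nat_lit 42) (nat_lit 5) (nat_lit 45) (nat_lit 5) (nat_lit 46) (nat_lit 5) (nat_lit 335) (nat_lit 315) (nat_lit 130)) (XT.lf (nat_lit 0) (nat_lit 322755208888) (nat_lit 152) (nat_lit 394816863191) (nat_lit 228) (nat_lit 11414858992) (nat_lit 40) (nat_lit 5) (nat_lit 42) (nat_lit 5) (nat_lit 43) (nat_lit 5) (nat_lit 336) (nat_lit 315) (nat_lit 129))))) (XT.nd (nat_lit 39000) (nat_lit 0) (nat_lit 4104) (XT.nd (nat_lit 38922) (nat_lit 0) (nat_lit 4104) (XT.lf (nat_lit 0) (nat_lit 401419836203) (nat_lit 304) (nat_lit 53008088903) (nat_lit 76) (nat_lit 355068542180) (nat_lit 36) (nat_lit 5) (nat_lit 40) (nat_lit 5) (nat_lit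 37) (nat_lit 5) (nat_lit 338) (nat_lit 315) (nat_lit 127)) (XT.lf (nat_lit 0) (nat_lit 63519646737) (nat_lit 0) (nat_lit 63519646737) (nat_lit 684) (nat_lit 25092014289) (nat_lit 90) (nat_lit 5) (nat_lit 90) (nat_lit 3) (nat_lit 99) (nat_lit 3) (nat_lit 316) (nat_lit 316) (nat_lit 148))) (XT.nd (nat_lit 78) (nat_lit 0) (nat_lit 76) (XT.lf (nat_lit 76) (nat_lit 43232204913) (nat_lit 0) (nat_lit 223177035604) (nat_lit 760) (nat_lit 49915502035) (nat_lit 91) (nat_lit 5) (nat_lit 90) (nat_lit 5) (nat_lit 100) (nat_lit 5) (nat_lit 317) (nat_lit 316) (nat_lit 147)) (XT.nd (nat_lit 78) (nat_lit 0) (nat_lit 0) (XT.lf (nat_lit 0) (nat_lit 284929023077) (nat_lit 684) (nat_lit 43660452548) (nat_lit 760) (nat_lit 502230484) (nat_lit 91) (nat_lit 5) (nat_lit 100) (nat_lit 5) (nat_lit 101) (nat_lit 5) (nat_lit 318) (nat_lit 316) (nat_lit 146)) (XT.lf (nat_lit 76) (nat_lit 206987870072) (nat_lit 0) (nat_lit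 104937255710) (nat_lit 760) (nat_lit 30605164285) (nat_lit 92) (nat_lit 5) (nat_lit 91) (nat_lit 5) (nat_lit 101) (nat_lit 5) (nat_lit 319) (nat_lit 316) (nat_lit 145)))))) (XT.nd (nat_lit 390) (nat_lit 1368) (nat_lit 0) (XT.nd (nat_lit 156) (nat_lit 456) (nat_lit 0) (XT.nd (nat_lit 78) (nat_lit 684) (nat_lit 0) (XT.lf (nat_lit 76) (nat_lit 124066785319) (nat_lit 0) (nat_lit 221856897625) (nat_lit 760) (nat_lit 10878139667) (nat_lit 93) (nat_lit 5) (nat_lit 92) (nat_lit 5) (nat_lit 102) (nat_lit 5) (nat_lit 320) (nat_lit 316) (nat_lit 144)) (XT.lf (nat_lit 0) (nat_lit 15166916163) (nat_lit 760) (nat_lit 335925242547) (nat_lit 836) (nat_lit 20861099442) (nat_lit 83) (nat_lit 5) (nat_lit 93) (nat_lit 5) (nat_lit 94) (nat_lit 5) (nat_lit 321) (nat_lit 316) (nat_lit 143))) (XT.nd (nat_lit 78) (nat_lit 456) (nat_lit 0) (XT.lf (nat_lit 0) (nat_lit 50780942605) (nat_lit 760) (nat_lit 57501962000)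 (nat_lit 836) (nat_lit 279631663413) (nat_lit 83) (nat_lit 5) (nat_lit 93) (nat_lit 5) (nat_lit 94) (nat_lit 5) (nat_lit 322) (nat_lit 316) (nat_lit 142)) (XT.nd (nat_lit 78) (nat_lit 532) (nat_lit 0) (XT.lf (nat_lit 0) (nat_lit 95634431146) (nat_lit 760) (nat_lit 156188323616) (nat_lit 76) (nat_lit 153010511046) (nat_lit 84) (nat_lit 5) (nat_lit 94) (nat_lit 5) (nat_lit 85) (nat_lit 5) (nat_lit 323) (nat_lit 316) (nat_lit 141)) (XT.lf (nat_lit 0) (nat_lit 149633245063) (nat_lit 608) (nat_lit 261415235415) (nat_lit 76) (nat_lit 11779126755) (nat_lit 77) (nat_lit 5) (nat_lit 85) (nat_lit 5) (nat_lit 78) (nat_lit 5) (nat_lit 324) (nat_lit 316) (nat_lit 140))))) (XT.nd (nat_lit 156) (nat_lit 988) (nat_lit 0) (XT.nd (nat_lit 78) (nat_lit 0) (nat_lit 0) (XT.lf (nat_lit 0) (nat_lit 65684556725) (nat_lit 380) (nat_lit 150304356025) (nat_lit 456) (nat_lit 225870735906) (nat_lit 72) (nat_lit 5)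 (nat_lit 77) (nat_lit 5) (nat_lit 78) (nat_lit 5) (nat_lit 325) (nat_lit 316) (nat_lit 139)) (XT.lf (nat_lit 0) (nat_lit 294331258563) (nat_lit 456) (nat_lit 36023846779) (nat_lit 76) (nat_lit 131725236923) (nat_lit 72) (nat_lit 5) (nat_lit 78) (nat_lit 5) (nat_lit 73) (nat_lit 5) (nat_lit 326) (nat_lit 316) (nat_lit 138))) (XT.nd (nat_lit 78) (nat_lit 684) (nat_lit 0) (XT.lf (nat_lit 0) (nat_lit 339676812981) (nat_lit 304) (nat_lit 47101835928) (nat_lit 380) (nat_lit 96748159710) (nat_lit 68) (nat_lit 5) (nat_lit 72) (nat_lit 5) (nat_lit 73) (nat_lit 5) (nat_lit 327) (nat_lit 316) (nat_lit 137)) (XT.nd (nat_lit 78) (nat_lit 380) (nat_lit 0) (XT.lf (nat_lit 0) (nat_lit 243814783053) (nat_lit 304) (nat_lit 251292201731) (nat_lit 380) (nat_lit 11157749876) (nat_lit 64) (nat_lit 5) (nat_lit 68) (nat_lit 5) (nat_lit 69) (nat_lit 5) (nat_lit 328) (nat_lit 316) (nat_lit 136)) (XT.lf (nat_lit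 0) (nat_lit 85054263593) (nat_lit 380) (nat_lit 392055754199) (nat_lit 76) (nat_lit 53329434975) (nat_lit 59) (nat_lit 5) (nat_lit 64) (nat_lit 5) (nat_lit 60) (nat_lit 5) (nat_lit 329) (nat_lit 316) (nat_lit 135))))))) (XT.nd (nat_lit 39858) (nat_lit 0) (nat_lit 1444) (XT.nd (nat_lit 390) (nat_lit 380) (nat_lit 0) (XT.nd (nat_lit 156) (nat_lit 760) (nat_lit 0) (XT.nd (nat_lit 78) (nat_lit 0) (nat_lit 0) (XT.lf (nat_lit 0) (nat_lit 20491962562) (nat_lit 304) (nat_lit 177289377926) (nat_lit 380) (nat_lit 358297211438) (nat_lit 55) (nat_lit 5) (nat_lit 59) (nat_lit 5) (nat_lit 60) (nat_lit 5) (nat_lit 330) (nat_lit 316) (nat_lit 134)) (XT.lf (nat_lit 0) (nat_lit 328755392733) (nat_lit 380) (nat_lit 105783183478) (nat_lit 76) (nat_lit 148768762415) (nat_lit 55) (nat_lit 5) (nat_lit 60) (nat_lit 5) (nat_lit 56) (nat_lit 5) (nat_lit 331) (nat_lit 316) (nat_lit 133))) (XT.nd (nat_lit 78) (nat_lit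 532) (nat_lit 0) (XT.lf (nat_lit 0) (nat_lit 367166644751) (nat_lit 228) (nat_lit 111762605424) (nat_lit 304) (nat_lit 133349084102) (nat_lit 52) (nat_lit 5) (nat_lit 55) (nat_lit 5) (nat_lit 56) (nat_lit 5) (nat_lit 332) (nat_lit 316) (nat_lit 132)) (XT.nd (nat_lit 78) (nat_lit 228) (nat_lit 0) (XT.lf (nat_lit 0) (nat_lit 7134956382) (nat_lit 304) (nat_lit 400932761546) (nat_lit 76) (nat_lit 235025877539) (nat_lit 48) (nat_lit 5) (nat_lit 52) (nat_lit 5) (nat_lit 49) (nat_lit 5) (nat_lit 333) (nat_lit 316) (nat_lit 131)) (XT.lf (nat_lit 0) (nat_lit 100005137051) (nat_lit 228) (nat_lit 62028665408) (nat_lit 304) (nat_lit 513838573383) (nat_lit 45) (nat_lit 5) (nat_lit 48) (nat_lit 5) (nat_lit 49) (nat_lit 5) (nat_lit 334) (nat_lit 316) (nat_lit 130))))) (XT.nd (nat_lit 39234) (nat_lit 0) (nat_lit 3800) (XT.nd (nat_lit 156) (nat_lit 380) (nat_lit 0) (XT.lf (nat_lit 0) (nat_lit 341289410601)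 (nat_lit 304) (nat_lit 60569963923) (nat_lit 76) (nat_lit 308815841454) (nat_lit 45) (nat_lit 5) (nat_lit 49) (nat_lit 5) (nat_lit 46) (nat_lit 5) (nat_lit 335) (nat_lit 316) (nat_lit 129)) (XT.lf (nat_lit 0) (nat_lit 348576565388) (nat_lit 152) (nat_lit 426401915997) (nat_lit 228) (nat_lit 12327371177) (nat_lit 40) (nat_lit 5) (nat_lit 42) (nat_lit 5) (nat_lit 43) (nat_lit 5) (nat_lit 337) (nat_lit 316) (nat_lit 127))) (XT.nd (nat_lit 78) (nat_lit 0) (nat_lit 0) (XT.lf (nat_lit 0) (nat_lit 68601725262) (nat_lit 0) (nat_lit 68601725262) (nat_lit 684) (nat_lit 27098309137) (nat_lit 90) (nat_lit 5) (nat_lit 90) (nat_lit 3) (nat_lit 99) (nat_lit 3) (nat_lit 317) (nat_lit 317) (nat_lit 146)) (XT.nd (nat_lit 78) (nat_lit 0) (nat_lit 76) (XT.lf (nat_lit 76) (nat_lit 46691866830) (nat_lit 0) (nat_lit 241031992208) (nat_lit 760) (nat_lit 53906765166) (nat_lit 91) (nat_lit 5) (nat_lit 90) (nat_lit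 5) (nat_lit 100) (nat_lit 5) (nat_lit 318) (nat_lit 317) (nat_lit 145)) (XT.lf (nat_lit 0) (nat_lit 307725073523) (nat_lit 684) (nat_lit 47152181652) (nat_lit 760) (nat_lit 541697486) (nat_lit 91) (nat_lit 5) (nat_lit 100) (nat_lit 5) (nat_lit 101) (nat_lit 5) (nat_lit 319) (nat_lit 317) (nat_lit 144)))))) (XT.nd (nat_lit 390) (nat_lit 1824) (nat_lit 0) (XT.nd (nat_lit 156) (nat_lit 608) (nat_lit 0) (XT.nd (nat_lit 78) (nat_lit 0) (nat_lit 76) (XT.lf (nat_lit 76) (nat_lit 223547958665) (nat_lit 0) (nat_lit 113332794269) (nat_lit 760) (nat_lit 33051876238) (nat_lit 92) (nat_lit 5) (nat_lit 91) (nat_lit 5) (nat_lit 101) (nat_lit 5) (nat_lit 320) (nat_lit 317) (nat_lit 143)) (XT.lf (nat_lit 76) (nat_lit 133993229890) (nat_lit 0) (nat_lit 239605854127) (nat_lit 760) (nat_lit 11746806075) (nat_lit 93) (nat_lit 5) (nat_lit 92) (nat_lit 5) (nat_lit 102) (nat_lit 5) (nat_lit 321) (nat_lit 317)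 (nat_lit 142))) (XT.nd (nat_lit 78) (nat_lit 0) (nat_lit 0) (XT.lf (nat_lit 0) (nat_lit 16381701930) (nat_lit 760) (nat_lit 362798077103) (nat_lit 836) (nat_lit 22529665498) (nat_lit 83) (nat_lit 5) (nat_lit 93) (nat_lit 5) (nat_lit 94) (nat_lit 5) (nat_lit 322) (nat_lit 317) (nat_lit 141)) (XT.nd (nat_lit 78) (nat_lit 0) (nat_lit 76) (XT.lf (nat_lit 0) (nat_lit 54844744377) (nat_lit 760) (nat_lit 62101021878) (nat_lit 836) (nat_lit 302001898430) (nat_lit 83) (nat_lit 5) (nat_lit 93) (nat_lit 5) (nat_lit 94) (nat_lit 5) (nat_lit 323) (nat_lit 317) (nat_lit 140)) (XT.lf (nat_lit 0) (nat_lit 103286427091) (nat_lit 760) (nat_lit 168682272558) (nat_lit 76) (nat_lit 165251163079) (nat_lit 84) (nat_lit 5) (nat_lit 94) (nat_lit 5) (nat_lit 85) (nat_lit 5) (nat_lit 324) (nat_lit 317) (nat_lit 139))))) (XT.nd (nat_lit 234) (nat_lit 988) (nat_lit 0) (XT.nd (nat_lit 78) (nat_lit 380) (nat_lit 0)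 (XT.lf (nat_lit 0) (nat_lit 161605069316) (nat_lit 608) (nat_lit 282327323902) (nat_lit 76) (nat_lit 12721362257) (nat_lit 77) (nat_lit 5) (nat_lit 85) (nat_lit 5) (nat_lit 78) (nat_lit 5) (nat_lit 325) (nat_lit 317) (nat_lit 138)) (XT.nd (nat_lit 78) (nat_lit 0) (nat_lit 0) (XT.lf (nat_lit 0) (nat_lit 70940402485) (nat_lit 380) (nat_lit 162328718544) (nat_lit 456) (nat_lit 243939242809) (nat_lit 72) (nat_lit 5) (nat_lit 77) (nat_lit 5) (nat_lit 78) (nat_lit 5) (nat_lit 326) (nat_lit 317) (nat_lit 137)) (XT.lf (nat_lit 0) (nat_lit 317878773173) (nat_lit 456) (nat_lit 38904700677) (nat_lit 76) (nat_lit 142263243296) (nat_lit 72) (nat_lit 5) (nat_lit 78) (nat_lit 5) (nat_lit 73) (nat_lit 5) (nat_lit 327) (nat_lit 317) (nat_lit 136)))) (XT.nd (nat_lit 78) (nat_lit 684) (nat_lit 0) (XT.lf (nat_lit 0) (nat_lit 366851966066) (nat_lit 304) (nat_lit 50869929314) (nat_lit 380) (nat_lit 104487008530)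 (nat_lit 68) (nat_lit 5) (nat_lit 72) (nat_lit 5) (nat_lit 73) (nat_lit 5) (nat_lit 328) (nat_lit 317) (nat_lit 135)) (XT.nd (nat_lit 78) (nat_lit 380) (nat_lit 0) (XT.lf (nat_lit 0) (nat_lit 263320976388) (nat_lit 304) (nat_lit 271395467582) (nat_lit 380) (nat_lit 12049422896) (nat_lit 64) (nat_lit 5) (nat_lit 68) (nat_lit 5) (nat_lit 69) (nat_lit 5) (nat_lit 329) (nat_lit 317) (nat_lit 134)) (XT.lf (nat_lit 0) (nat_lit 91859471083) (nat_lit 380) (nat_lit 423419174861) (nat_lit 76) (nat_lit 57595918361) (nat_lit 59) (nat_lit 5) (nat_lit 64) (nat_lit 5) (nat_lit 60) (nat_lit 5) (nat_lit 330) (nat_lit 317) (nat_lit 133))))))))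
noncomputable def xc125 : XT := (XT.nd (nat_lit 40794) (nat_lit 0) (nat_lit 228) (XT.nd (nat_lit 39936) (nat_lit 0) (nat_lit 988) (XT.nd (nat_lit 468) (nat_lit 228) (nat_lit 0) (XT.nd (nat_lit 156) (nat_lit 760) (nat_lit 0) (XT.nd (nat_lit 78) (nat_lit 0) (nat_lit 0) (XT.lf (nat_lit 0) (nat_lit 22132314058) (nat_lit 304) (nat_lit 191472351420) (nat_lit 380) (nat_lit 386960128451) (nat_lit 55) (nat_lit 5) (nat_lit 59) (nat_lit 5) (nat_lit 60) (nat_lit 5) (nat_lit 331) (nat_lit 317) (nat_lit 132)) (XT.lf (nat_lit 0) (nat_lit 355056583884) (nat_lit 380) (nat_lit 114244880858) (nat_lit 76) (nat_lit 160670421819) (nat_lit 55) (nat_lit 5) (nat_lit 60) (nat_lit 5) (nat_lit 56) (nat_lit 5) (nat_lit 332) (nat_lit 317) (nat_lit 131))) (XT.nd (nat_lit 78) (nat_lit 532) (nat_lit 0) (XT.lf (nat_lit 0) (nat_lit 396540892027) (nat_lit 228) (nat_lit 120703415915) (nat_lit 304) (nat_lit 144016256107) (nat_lit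 52) (nat_lit 5) (nat_lit 55) (nat_lit 5) (nat_lit 56) (nat_lit 5) (nat_lit 333) (nat_lit 317) (nat_lit 130)) (XT.nd (nat_lit 78) (nat_lit 228) (nat_lit 0) (XT.lf (nat_lit 0) (nat_lit 7706446666) (nat_lit 304) (nat_lit 433006450267) (nat_lit 76) (nat_lit 253828150528) (nat_lit 48) (nat_lit 5) (nat_lit 52) (nat_lit 5) (nat_lit 49) (nat_lit 5) (nat_lit 334) (nat_lit 317) (nat_lit 129)) (XT.lf (nat_lit 0) (nat_lit 108006439705) (nat_lit 228) (nat_lit 66990723255) (nat_lit 304) (nat_lit 554944969250) (nat_lit 45) (nat_lit 5) (nat_lit 48) (nat_lit 5) (nat_lit 49) (nat_lit 5) (nat_lit 335) (nat_lit 317) (nat_lit 128))))) (XT.nd (nat_lit 39234) (nat_lit 0) (nat_lit 3648) (XT.nd (nat_lit 39156) (nat_lit 0) (nat_lit 3648) (XT.lf (nat_lit 0) (nat_lit 552171258273) (nat_lit 228) (nat_lit 35256106538) (nat_lit 304) (nat_lit 220208347469) (nat_lit 42) (nat_lit 5) (nat_lit 45) (nat_lit 5) (nat_lit 46)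 (nat_lit 5) (nat_lit 337) (nat_lit 317) (nat_lit 126)) (XT.lf (nat_lit 0) (nat_lit 74090297771) (nat_lit 0) (nat_lit 74090297771) (nat_lit 684) (nat_lit 29265259692) (nat_lit 90) (nat_lit 5) (nat_lit 90) (nat_lit 3) (nat_lit 99) (nat_lit 3) (nat_lit 318) (nat_lit 318) (nat_lit 144))) (XT.nd (nat_lit 78) (nat_lit 0) (nat_lit 76) (XT.lf (nat_lit 76) (nat_lit 50428146839) (nat_lit 0) (nat_lit 260315232103) (nat_lit 760) (nat_lit 58217611393) (nat_lit 91) (nat_lit 5) (nat_lit 90) (nat_lit 5) (nat_lit 100) (nat_lit 5) (nat_lit 319) (nat_lit 318) (nat_lit 143)) (XT.nd (nat_lit 78) (nat_lit 0) (nat_lit 0) (XT.lf (nat_lit 0) (nat_lit 332344561401) (nat_lit 684) (nat_lit 50923407024) (nat_lit 760) (nat_lit 584423344) (nat_lit 91) (nat_lit 5) (nat_lit 100) (nat_lit 5) (nat_lit 101) (nat_lit 5) (nat_lit 320) (nat_lit 318) (nat_lit 142)) (XT.lf (nat_lit 76) (nat_lit 241432703269) (nat_lit 0) (nat_lit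 122399896294) (nat_lit 760) (nat_lit 35694567840) (nat_lit 92) (nat_lit 5) (nat_lit 91) (nat_lit 5) (nat_lit 101) (nat_lit 5) (nat_lit 321) (nat_lit 318) (nat_lit 141)))))) (XT.nd (nat_lit 390) (nat_lit 1672) (nat_lit 0) (XT.nd (nat_lit 156) (nat_lit 456) (nat_lit 0) (XT.nd (nat_lit 78) (nat_lit 684) (nat_lit 0) (XT.lf (nat_lit 76) (nat_lit 144713632851) (nat_lit 0) (nat_lit 258774669416) (nat_lit 760) (nat_lit 12685191879) (nat_lit 93) (nat_lit 5) (nat_lit 92) (nat_lit 5) (nat_lit 102) (nat_lit 5) (nat_lit 322) (nat_lit 318) (nat_lit 140)) (XT.lf (nat_lit 0) (nat_lit 17693466199) (nat_lit 760) (nat_lit 391820907455) (nat_lit 836) (nat_lit 24331762761) (nat_lit 83) (nat_lit 5) (nat_lit 93) (nat_lit 5) (nat_lit 94) (nat_lit 5) (nat_lit 323) (nat_lit 318) (nat_lit 139))) (XT.nd (nat_lit 78) (nat_lit 456) (nat_lit 0) (XT.lf (nat_lit 0) (nat_lit 59233461071) (nat_lit 760) (nat_lit 67068163058)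 (nat_lit 836) (nat_lit 326161794771) (nat_lit 83) (nat_lit 5) (nat_lit 93) (nat_lit 5) (nat_lit 94) (nat_lit 5) (nat_lit 324) (nat_lit 318) (nat_lit 138)) (XT.nd (nat_lit 78) (nat_lit 532) (nat_lit 0) (XT.lf (nat_lit 0) (nat_lit 111550405604) (nat_lit 760) (nat_lit 182175896760) (nat_lit 76) (nat_lit 178471094216) (nat_lit 84) (nat_lit 5) (nat_lit 94) (nat_lit 5) (nat_lit 85) (nat_lit 5) (nat_lit 325) (nat_lit 318) (nat_lit 137)) (XT.lf (nat_lit 0) (nat_lit 174534473359) (nat_lit 608) (nat_lit 304912540725) (nat_lit 76) (nat_lit 13738990100) (nat_lit 77) (nat_lit 5) (nat_lit 85) (nat_lit 5) (nat_lit 78) (nat_lit 5) (nat_lit 326) (nat_lit 318) (nat_lit 136))))) (XT.nd (nat_lit 234) (nat_lit 988) (nat_lit 0) (XT.nd (nat_lit 78) (nat_lit 304) (nat_lit 0) (XT.lf (nat_lit 0) (nat_lit 76616561657) (nat_lit 380) (nat_lit 175315028061) (nat_lit 456) (nat_lit 263453394605) (nat_lit 72) (nat_lit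 5) (nat_lit 77) (nat_lit 5) (nat_lit 78) (nat_lit 5) (nat_lit 327) (nat_lit 318) (nat_lit 135)) (XT.nd (nat_lit 78) (nat_lit 304) (nat_lit 0) (XT.lf (nat_lit 0) (nat_lit 343309944305) (nat_lit 456) (nat_lit 42016173229) (nat_lit 76) (nat_lit 153644291974) (nat_lit 72) (nat_lit 5) (nat_lit 78) (nat_lit 5) (nat_lit 73) (nat_lit 5) (nat_lit 328) (nat_lit 318) (nat_lit 134)) (XT.lf (nat_lit 0) (nat_lit 396200987589) (nat_lit 304) (nat_lit 54939477802) (nat_lit 380) (nat_lit 112845108482) (nat_lit 68) (nat_lit 5) (nat_lit 72) (nat_lit 5) (nat_lit 73) (nat_lit 5) (nat_lit 329) (nat_lit 318) (nat_lit 133)))) (XT.nd (nat_lit 78) (nat_lit 684) (nat_lit 0) (XT.lf (nat_lit 0) (nat_lit 284387521003) (nat_lit 304) (nat_lit 293107010434) (nat_lit 380) (nat_lit 13012564854) (nat_lit 64) (nat_lit 5) (nat_lit 68) (nat_lit 5) (nat_lit 69) (nat_lit 5) (nat_lit 330) (nat_lit 318) (nat_lit 132)) (XT.nd (nat_lit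 78) (nat_lit 304) (nat_lit 0) (XT.lf (nat_lit 0) (nat_lit 99208971571) (nat_lit 380) (nat_lit 457291817497) (nat_lit 76) (nat_lit 62203702073) (nat_lit 59) (nat_lit 5) (nat_lit 64) (nat_lit 5) (nat_lit 60) (nat_lit 5) (nat_lit 331) (nat_lit 318) (nat_lit 131)) (XT.lf (nat_lit 0) (nat_lit 23903751799) (nat_lit 304) (nat_lit 206789988008) (nat_lit 380) (nat_lit 417916201500) (nat_lit 55) (nat_lit 5) (nat_lit 59) (nat_lit 5) (nat_lit 60) (nat_lit 5) (nat_lit 332) (nat_lit 318) (nat_lit 130))))))) (XT.nd (nat_lit 40014) (nat_lit 0) (nat_lit 760) (XT.nd (nat_lit 39624) (nat_lit 0) (nat_lit 2888) (XT.nd (nat_lit 156) (nat_lit 532) (nat_lit 0) (XT.nd (nat_lit 78) (nat_lit 228) (nat_lit 0) (XT.lf (nat_lit 0) (nat_lit 383461761943) (nat_lit 380) (nat_lit 123383650597) (nat_lit 76) (nat_lit 173524191375) (nat_lit 55) (nat_lit 5) (nat_lit 60) (nat_lit 5) (nat_lit 56) (nat_lit 5) (nat_lit 333) (nat_lit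 318) (nat_lit 129)) (XT.lf (nat_lit 0) (nat_lit 428264948450) (nat_lit 228) (nat_lit 130359519484) (nat_lit 304) (nat_lit 155536909543) (nat_lit 52) (nat_lit 5) (nat_lit 55) (nat_lit 5) (nat_lit 56) (nat_lit 5) (nat_lit 334) (nat_lit 318) (nat_lit 128))) (XT.nd (nat_lit 156) (nat_lit 228) (nat_lit 0) (XT.lf (nat_lit 0) (nat_lit 8323557198) (nat_lit 304) (nat_lit 467646167075) (nat_lit 76) (nat_lit 274134576426) (nat_lit 48) (nat_lit 5) (nat_lit 52) (nat_lit 5) (nat_lit 49) (nat_lit 5) (nat_lit 335) (nat_lit 318) (nat_lit 127)) (XT.nd (nat_lit 39234) (nat_lit 0) (nat_lit 3420) (XT.lf (nat_lit 0) (nat_lit 398081152417) (nat_lit 304) (nat_lit 70647152519) (nat_lit 76) (nat_lit 360203206200) (nat_lit 45) (nat_lit 5) (nat_lit 49) (nat_lit 5) (nat_lit 46) (nat_lit 5) (nat_lit 337) (nat_lit 318) (nat_lit 125)) (XT.lf (nat_lit 0) (nat_lit 80017894095) (nat_lit 0) (nat_lit 80017894095) (nat_lit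 684) (nat_lit 31605696708) (nat_lit 90) (nat_lit 5) (nat_lit 90) (nat_lit 3) (nat_lit 99) (nat_lit 3) (nat_lit 319) (nat_lit 319) (nat_lit 142))))) (XT.nd (nat_lit 156) (nat_lit 532) (nat_lit 0) (XT.nd (nat_lit 78) (nat_lit 0) (nat_lit 76) (XT.lf (nat_lit 76) (nat_lit 54463196479) (nat_lit 0) (nat_lit 281141034105) (nat_lit 760) (nat_lit 62873567127) (nat_lit 91) (nat_lit 5) (nat_lit 90) (nat_lit 5) (nat_lit 100) (nat_lit 5) (nat_lit 320) (nat_lit 319) (nat_lit 141)) (XT.lf (nat_lit 0) (nat_lit 358933396885) (nat_lit 684) (nat_lit 54996465834) (nat_lit 760) (nat_lit 630654284) (nat_lit 91) (nat_lit 5) (nat_lit 100) (nat_lit 5) (nat_lit 101) (nat_lit 5) (nat_lit 321) (nat_lit 319) (nat_lit 140))) (XT.nd (nat_lit 78) (nat_lit 608) (nat_lit 0) (XT.lf (nat_lit 76) (nat_lit 260748097917) (nat_lit 0) (nat_lit 132192298219) (nat_lit 760) (nat_lit 38548882842) (nat_lit 92) (nat_lit 5) (nat_lit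 91) (nat_lit 5) (nat_lit 101) (nat_lit 5) (nat_lit 322) (nat_lit 319) (nat_lit 139)) (XT.nd (nat_lit 78) (nat_lit 684) (nat_lit 0) (XT.lf (nat_lit 76) (nat_lit 156291533295) (nat_lit 0) (nat_lit 279476940430) (nat_lit 760) (nat_lit 13698842379) (nat_lit 93) (nat_lit 5) (nat_lit 92) (nat_lit 5) (nat_lit 102) (nat_lit 5) (nat_lit 323) (nat_lit 319) (nat_lit 138)) (XT.lf (nat_lit 0) (nat_lit 19109996405) (nat_lit 760) (nat_lit 423165709153) (nat_lit 836) (nat_lit 26278067176) (nat_lit 83) (nat_lit 5) (nat_lit 93) (nat_lit 5) (nat_lit 94) (nat_lit 5) (nat_lit 324) (nat_lit 319) (nat_lit 137)))))) (XT.nd (nat_lit 390) (nat_lit 1292) (nat_lit 0) (XT.nd (nat_lit 156) (nat_lit 836) (nat_lit 0) (XT.nd (nat_lit 78) (nat_lit 0) (nat_lit 76) (XT.lf (nat_lit 0) (nat_lit 63973112873) (nat_lit 760) (nat_lit 72432809715) (nat_lit 836) (nat_lit 352254519273) (nat_lit 83) (nat_lit 5) (nat_lit 93) (nat_lit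 5) (nat_lit 94) (nat_lit 5) (nat_lit 325) (nat_lit 319) (nat_lit 136)) (XT.lf (nat_lit 0) (nat_lit 120475350557) (nat_lit 760) (nat_lit 196749147511) (nat_lit 76) (nat_lit 192748642942) (nat_lit 84) (nat_lit 5) (nat_lit 94) (nat_lit 5) (nat_lit 85) (nat_lit 5) (nat_lit 326) (nat_lit 319) (nat_lit 135))) (XT.nd (nat_lit 78) (nat_lit 380) (nat_lit 0) (XT.lf (nat_lit 0) (nat_lit 188498087279) (nat_lit 608) (nat_lit 329304713146) (nat_lit 76) (nat_lit 14838039745) (nat_lit 77) (nat_lit 5) (nat_lit 85) (nat_lit 5) (nat_lit 78) (nat_lit 5) (nat_lit 327) (nat_lit 319) (nat_lit 134)) (XT.nd (nat_lit 78) (nat_lit 0) (nat_lit 0) (XT.lf (nat_lit 0) (nat_lit 82746681320) (nat_lit 380) (nat_lit 189340240623) (nat_lit 456) (nat_lit 284528819442) (nat_lit 72) (nat_lit 5) (nat_lit 77) (nat_lit 5) (nat_lit 78) (nat_lit 5) (nat_lit 328) (nat_lit 319) (nat_lit 133)) (XT.lf (nat_lit 0) (nat_lit 370775485115)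 (nat_lit 456) (nat_lit 45376692480) (nat_lit 76) (nat_lit 165935826085) (nat_lit 72) (nat_lit 5) (nat_lit 78) (nat_lit 5) (nat_lit 73) (nat_lit 5) (nat_lit 329) (nat_lit 319) (nat_lit 132))))) (XT.nd (nat_lit 234) (nat_lit 304) (nat_lit 0) (XT.nd (nat_lit 78) (nat_lit 684) (nat_lit 0) (XT.lf (nat_lit 0) (nat_lit 427897807540) (nat_lit 304) (nat_lit 59334596711) (nat_lit 380) (nat_lit 121871979222) (nat_lit 68) (nat_lit 5) (nat_lit 72) (nat_lit 5) (nat_lit 73) (nat_lit 5) (nat_lit 330) (nat_lit 319) (nat_lit 131)) (XT.nd (nat_lit 78) (nat_lit 380) (nat_lit 0) (XT.lf (nat_lit 0) (nat_lit 307139265571) (nat_lit 304) (nat_lit 316555490205) (nat_lit 380) (nat_lit 14052873991) (nat_lit 64) (nat_lit 5) (nat_lit 68) (nat_lit 5) (nat_lit 69) (nat_lit 5) (nat_lit 331) (nat_lit 319) (nat_lit 130)) (XT.lf (nat_lit 0) (nat_lit 107146326128) (nat_lit 380) (nat_lit 493874398705) (nat_lit 76) (nat_lit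 67180092754) (nat_lit 59) (nat_lit 5) (nat_lit 64) (nat_lit 5) (nat_lit 60) (nat_lit 5) (nat_lit 332) (nat_lit 319) (nat_lit 129)))) (XT.nd (nat_lit 78) (nat_lit 0) (nat_lit 0) (XT.lf (nat_lit 0) (nat_lit 25816782924) (nat_lit 304) (nat_lit 223333057139) (nat_lit 380) (nat_lit 451348865566) (nat_lit 55) (nat_lit 5) (nat_lit 59) (nat_lit 5) (nat_lit 60) (nat_lit 5) (nat_lit 333) (nat_lit 319) (nat_lit 128)) (XT.nd (nat_lit 39546) (nat_lit 0) (nat_lit 2660) (XT.lf (nat_lit 0) (nat_lit 414139261325) (nat_lit 380) (nat_lit 133253639002) (nat_lit 76) (nat_lit 187406243122) (nat_lit 55) (nat_lit 5) (nat_lit 60) (nat_lit 5) (nat_lit 56) (nat_lit 5) (nat_lit 334) (nat_lit 319) (nat_lit 127)) (XT.lf (nat_lit 0) (nat_lit 86419644984) (nat_lit 0) (nat_lit 86419644984) (nat_lit 684) (nat_lit 34133480498) (nat_lit 90) (nat_lit 5) (nat_lit 90) (nat_lit 3) (nat_lit 99) (nat_lit 3) (nat_lit 320) (nat_lit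 320) (nat_lit 140))))))))
noncomputable def xc126 : XT := (XT.nd (nat_lit 41106) (nat_lit 0) (nat_lit 0) (XT.nd (nat_lit 780) (nat_lit 1292) (nat_lit 0) (XT.nd (nat_lit 390) (nat_lit 836) (nat_lit 0) (XT.nd (nat_lit 156) (nat_lit 532) (nat_lit 0) (XT.nd (nat_lit 78) (nat_lit 0) (nat_lit 76) (XT.lf (nat_lit 76) (nat_lit 58820936263) (nat_lit 0) (nat_lit 303632817035) (nat_lit 760) (nat_lit 67902206632) (nat_lit 91) (nat_lit 5) (nat_lit 90) (nat_lit 5) (nat_lit 100) (nat_lit 5) (nat_lit 321) (nat_lit 320) (nat_lit 139)) (XT.lf (nat_lit 0) (nat_lit 387649157947) (nat_lit 684) (nat_lit 59395485440) (nat_lit 760) (nat_lit 680658302) (nat_lit 91) (nat_lit 5) (nat_lit 100) (nat_lit 5) (nat_lit 101) (nat_lit 5) (nat_lit 322) (nat_lit 320) (nat_lit 138))) (XT.nd (nat_lit 78) (nat_lit 608) (nat_lit 0) (XT.lf (nat_lit 76) (nat_lit 281608613092) (nat_lit 0) (nat_lit 142768033776) (nat_lit 760) (nat_lit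 41631721431) (nat_lit 92) (nat_lit 5) (nat_lit 91) (nat_lit 5) (nat_lit 101) (nat_lit 5) (nat_lit 323) (nat_lit 320) (nat_lit 137)) (XT.nd (nat_lit 78) (nat_lit 684) (nat_lit 0) (XT.lf (nat_lit 76) (nat_lit 168795550245) (nat_lit 0) (nat_lit 301835350689) (nat_lit 760) (nat_lit 14793751098) (nat_lit 93) (nat_lit 5) (nat_lit 92) (nat_lit 5) (nat_lit 102) (nat_lit 5) (nat_lit 324) (nat_lit 320) (nat_lit 136)) (XT.lf (nat_lit 0) (nat_lit 20639698818) (nat_lit 760) (nat_lit 457018219230) (nat_lit 836) (nat_lit 28380109699) (nat_lit 83) (nat_lit 5) (nat_lit 93) (nat_lit 5) (nat_lit 94) (nat_lit 5) (nat_lit 325) (nat_lit 320) (nat_lit 135))))) (XT.nd (nat_lit 156) (nat_lit 836) (nat_lit 0) (XT.nd (nat_lit 78) (nat_lit 0) (nat_lit 76) (XT.lf (nat_lit 0) (nat_lit 69091797738) (nat_lit 760) (nat_lit 78226743145) (nat_lit 836) (nat_lit 380434692989) (nat_lit 83) (nat_lit 5) (nat_lit 93) (nat_lit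 5) (nat_lit 94) (nat_lit 5) (nat_lit 326) (nat_lit 320) (nat_lit 134)) (XT.lf (nat_lit 0) (nat_lit 130114160927) (nat_lit 760) (nat_lit 212488375446) (nat_lit 76) (nat_lit 208168415370) (nat_lit 84) (nat_lit 5) (nat_lit 94) (nat_lit 5) (nat_lit 85) (nat_lit 5) (nat_lit 327) (nat_lit 320) (nat_lit 133))) (XT.nd (nat_lit 78) (nat_lit 380) (nat_lit 0) (XT.lf (nat_lit 0) (nat_lit 203578668187) (nat_lit 608) (nat_lit 355648377888) (nat_lit 76) (nat_lit 16025023286) (nat_lit 77) (nat_lit 5) (nat_lit 85) (nat_lit 5) (nat_lit 78) (nat_lit 5) (nat_lit 328) (nat_lit 320) (nat_lit 132)) (XT.nd (nat_lit 78) (nat_lit 0) (nat_lit 0) (XT.lf (nat_lit 0) (nat_lit 89367097179) (nat_lit 380) (nat_lit 204487468718) (nat_lit 456) (nat_lit 307290399061) (nat_lit 72) (nat_lit 5) (nat_lit 77) (nat_lit 5) (nat_lit 78) (nat_lit 5) (nat_lit 329) (nat_lit 320) (nat_lit 131)) (XT.lf (nat_lit 0) (nat_lit 400438162869)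 (nat_lit 456) (nat_lit 49006163777) (nat_lit 76) (nat_lit 179210684243) (nat_lit 72) (nat_lit 5) (nat_lit 78) (nat_lit 5) (nat_lit 73) (nat_lit 5) (nat_lit 330) (nat_lit 320) (nat_lit 130)))))) (XT.nd (nat_lit 39936) (nat_lit 0) (nat_lit 2128) (XT.nd (nat_lit 156) (nat_lit 684) (nat_lit 0) (XT.nd (nat_lit 78) (nat_lit 304) (nat_lit 0) (XT.lf (nat_lit 0) (nat_lit 462130267383) (nat_lit 304) (nat_lit 64081330742) (nat_lit 380) (nat_lit 131621104897) (nat_lit 68) (nat_lit 5) (nat_lit 72) (nat_lit 5) (nat_lit 73) (nat_lit 5) (nat_lit 331) (nat_lit 320) (nat_lit 129)) (XT.lf (nat_lit 0) (nat_lit 331711043723) (nat_lit 304) (nat_lit 341879859921) (nat_lit 380) (nat_lit 15176507158) (nat_lit 64) (nat_lit 5) (nat_lit 68) (nat_lit 5) (nat_lit 69) (nat_lit 5) (nat_lit 332) (nat_lit 320) (nat_lit 128))) (XT.nd (nat_lit 78) (nat_lit 304) (nat_lit 0) (XT.lf (nat_lit 0) (nat_lit 115718578199) (nat_lit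 380) (nat_lit 533383695430) (nat_lit 76) (nat_lit 72554581207) (nat_lit 59) (nat_lit 5) (nat_lit 64) (nat_lit 5) (nat_lit 60) (nat_lit 5) (nat_lit 333) (nat_lit 320) (nat_lit 127)) (XT.nd (nat_lit 39624) (nat_lit 0) (nat_lit 2660) (XT.lf (nat_lit 0) (nat_lit 27882752256) (nat_lit 304) (nat_lit 241199590335) (nat_lit 380) (nat_lit 487456232927) (nat_lit 55) (nat_lit 5) (nat_lit 59) (nat_lit 5) (nat_lit 60) (nat_lit 5) (nat_lit 334) (nat_lit 320) (nat_lit 126)) (XT.lf (nat_lit 0) (nat_lit 93333490383) (nat_lit 0) (nat_lit 93333490383) (nat_lit 684) (nat_lit 36863582851) (nat_lit 90) (nat_lit 5) (nat_lit 90) (nat_lit 3) (nat_lit 99) (nat_lit 3) (nat_lit 321) (nat_lit 321) (nat_lit 138))))) (XT.nd (nat_lit 156) (nat_lit 532) (nat_lit 0) (XT.nd (nat_lit 78) (nat_lit 0) (nat_lit 76) (XT.lf (nat_lit 76) (nat_lit 63527197639) (nat_lit 0) (nat_lit 327923871239) (nat_lit 760) (nat_lit 73333315034)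 (nat_lit 91) (nat_lit 5) (nat_lit 90) (nat_lit 5) (nat_lit 100) (nat_lit 5) (nat_lit 322) (nat_lit 321) (nat_lit 137)) (XT.lf (nat_lit 0) (nat_lit 418662024492) (nat_lit 684) (nat_lit 64146526143) (nat_lit 760) (nat_lit 734726599) (nat_lit 91) (nat_lit 5) (nat_lit 100) (nat_lit 5) (nat_lit 101) (nat_lit 5) (nat_lit 323) (nat_lit 321) (nat_lit 136))) (XT.nd (nat_lit 78) (nat_lit 608) (nat_lit 0) (XT.lf (nat_lit 76) (nat_lit 304137874278) (nat_lit 0) (nat_lit 154189778003) (nat_lit 760) (nat_lit 44961340045) (nat_lit 92) (nat_lit 5) (nat_lit 91) (nat_lit 5) (nat_lit 101) (nat_lit 5) (nat_lit 324) (nat_lit 321) (nat_lit 135)) (XT.nd (nat_lit 78) (nat_lit 684) (nat_lit 0) (XT.lf (nat_lit 76) (nat_lit 182299789504) (nat_lit 0) (nat_lit 325982397387) (nat_lit 760) (nat_lit 15976394986) (nat_lit 93) (nat_lit 5) (nat_lit 92) (nat_lit 5) (nat_lit 102) (nat_lit 5) (nat_lit 325) (nat_lit 321) (nat_lit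 134)) (XT.lf (nat_lit 0) (nat_lit 22291648644) (nat_lit 760) (nat_lit 493579036632) (nat_lit 836) (nat_lit 30650344562) (nat_lit 83) (nat_lit 5) (nat_lit 93) (nat_lit 5) (nat_lit 94) (nat_lit 5) (nat_lit 326) (nat_lit 321) (nat_lit 133))))))) (XT.nd (nat_lit 40404) (nat_lit 0) (nat_lit 988) (XT.nd (nat_lit 390) (nat_lit 1292) (nat_lit 0) (XT.nd (nat_lit 156) (nat_lit 836) (nat_lit 0) (XT.nd (nat_lit 78) (nat_lit 0) (nat_lit 76) (XT.lf (nat_lit 0) (nat_lit 74619858150) (nat_lit 760) (nat_lit 84484289878) (nat_lit 836) (nat_lit 410869307398) (nat_lit 83) (nat_lit 5) (nat_lit 93) (nat_lit 5) (nat_lit 94) (nat_lit 5) (nat_lit 327) (nat_lit 321) (nat_lit 132)) (XT.lf (nat_lit 0) (nat_lit 140523964520) (nat_lit 760) (nat_lit 229486842030) (nat_lit 76) (nat_lit 224821786569) (nat_lit 84) (nat_lit 5) (nat_lit 94) (nat_lit 5) (nat_lit 85) (nat_lit 5) (nat_lit 328) (nat_lit 321) (nat_lit 131)))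 (XT.nd (nat_lit 78) (nat_lit 380) (nat_lit 0) (XT.lf (nat_lit 0) (nat_lit 219865590865) (nat_lit 608) (nat_lit 384099637429) (nat_lit 76) (nat_lit 17306974019) (nat_lit 77) (nat_lit 5) (nat_lit 85) (nat_lit 5) (nat_lit 78) (nat_lit 5) (nat_lit 329) (nat_lit 321) (nat_lit 130)) (XT.nd (nat_lit 78) (nat_lit 0) (nat_lit 0) (XT.lf (nat_lit 0) (nat_lit 96517049104) (nat_lit 380) (nat_lit 220846473799) (nat_lit 456) (nat_lit 331873008612) (nat_lit 72) (nat_lit 5) (nat_lit 77) (nat_lit 5) (nat_lit 78) (nat_lit 5) (nat_lit 330) (nat_lit 321) (nat_lit 129)) (XT.lf (nat_lit 0) (nat_lit 432473763690) (nat_lit 456) (nat_lit 52926087519) (nat_lit 76) (nat_lit 193547532186) (nat_lit 72) (nat_lit 5) (nat_lit 78) (nat_lit 5) (nat_lit 73) (nat_lit 5) (nat_lit 331) (nat_lit 321) (nat_lit 128))))) (XT.nd (nat_lit 312) (nat_lit 684) (nat_lit 0) (XT.nd (nat_lit 78) (nat_lit 304) (nat_lit 0) (XT.lf (nat_lit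 0) (nat_lit 499101233390) (nat_lit 304) (nat_lit 69207808303) (nat_lit 380) (nat_lit 142150250882) (nat_lit 68) (nat_lit 5) (nat_lit 72) (nat_lit 5) (nat_lit 73) (nat_lit 5) (nat_lit 332) (nat_lit 321) (nat_lit 127)) (XT.lf (nat_lit 0) (nat_lit 358248473266) (nat_lit 304) (nat_lit 369230189130) (nat_lit 380) (nat_lit 16390116112) (nat_lit 64) (nat_lit 5) (nat_lit 68) (nat_lit 5) (nat_lit 69) (nat_lit 5) (nat_lit 333) (nat_lit 321) (nat_lit 126))) (XT.nd (nat_lit 39546) (nat_lit 0) (nat_lit 2660) (XT.lf (nat_lit 0) (nat_lit 483052961930) (nat_lit 380) (nat_lit 155425875812) (nat_lit 76) (nat_lit 218590835373) (nat_lit 55) (nat_lit 5) (nat_lit 60) (nat_lit 5) (nat_lit 56) (nat_lit 5) (nat_lit 336) (nat_lit 321) (nat_lit 123)) (XT.nd (nat_lit 78) (nat_lit 0) (nat_lit 0) (XT.lf (nat_lit 0) (nat_lit 100800404354) (nat_lit 0) (nat_lit 100800404354) (nat_lit 684) (nat_lit 39812175579) (nat_lit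 90) (nat_lit 5) (nat_lit 90) (nat_lit 3) (nat_lit 99) (nat_lit 3) (nat_lit 322) (nat_lit 322) (nat_lit 136)) (XT.lf (nat_lit 76) (nat_lit 68609876258) (nat_lit 0) (nat_lit 354158148601) (nat_lit 760) (nat_lit 79199064489) (nat_lit 91) (nat_lit 5) (nat_lit 90) (nat_lit 5) (nat_lit 100) (nat_lit 5) (nat_lit 323) (nat_lit 322) (nat_lit 135)))))) (XT.nd (nat_lit 390) (nat_lit 1140) (nat_lit 0) (XT.nd (nat_lit 156) (nat_lit 608) (nat_lit 0) (XT.nd (nat_lit 78) (nat_lit 0) (nat_lit 0) (XT.lf (nat_lit 0) (nat_lit 452155787127) (nat_lit 684) (nat_lit 69277735433) (nat_lit 760) (nat_lit 793175195) (nat_lit 91) (nat_lit 5) (nat_lit 100) (nat_lit 5) (nat_lit 101) (nat_lit 5) (nat_lit 324) (nat_lit 322) (nat_lit 134)) (XT.lf (nat_lit 76) (nat_lit 328469394736) (nat_lit 0) (nat_lit 166525218753) (nat_lit 760) (nat_lit 48557459268) (nat_lit 92) (nat_lit 5) (nat_lit 91) (nat_lit 5) (nat_lit 101) (nat_lit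 5) (nat_lit 325) (nat_lit 322) (nat_lit 133))) (XT.nd (nat_lit 78) (nat_lit 684) (nat_lit 0) (XT.lf (nat_lit 76) (nat_lit 196884282986) (nat_lit 0) (nat_lit 352061176629) (nat_lit 760) (nat_lit 17253772532) (nat_lit 93) (nat_lit 5) (nat_lit 92) (nat_lit 5) (nat_lit 102) (nat_lit 5) (nat_lit 326) (nat_lit 322) (nat_lit 132)) (XT.nd (nat_lit 78) (nat_lit 0) (nat_lit 0) (XT.lf (nat_lit 0) (nat_lit 24075644048) (nat_lit 760) (nat_lit 533064810749) (nat_lit 836) (nat_lit 33102223025) (nat_lit 83) (nat_lit 5) (nat_lit 93) (nat_lit 5) (nat_lit 94) (nat_lit 5) (nat_lit 327) (nat_lit 322) (nat_lit 131)) (XT.lf (nat_lit 0) (nat_lit 80590061165) (nat_lit 760) (nat_lit 91242524907) (nat_lit 836) (nat_lit 443738713933) (nat_lit 83) (nat_lit 5) (nat_lit 93) (nat_lit 5) (nat_lit 94) (nat_lit 5) (nat_lit 328) (nat_lit 322) (nat_lit 130))))) (XT.nd (nat_lit 234) (nat_lit 304) (nat_lit 0) (XT.nd (nat_lit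 78) (nat_lit 912) (nat_lit 0) (XT.lf (nat_lit 0) (nat_lit 151766456714) (nat_lit 760) (nat_lit 247845272030) (nat_lit 76) (nat_lit 242807442020) (nat_lit 84) (nat_lit 5) (nat_lit 94) (nat_lit 5) (nat_lit 85) (nat_lit 5) (nat_lit 329) (nat_lit 322) (nat_lit 129)) (XT.nd (nat_lit 78) (nat_lit 380) (nat_lit 0) (XT.lf (nat_lit 0) (nat_lit 237455377591) (nat_lit 608) (nat_lit 414827084854) (nat_lit 76) (nat_lit 18691488104) (nat_lit 77) (nat_lit 5) (nat_lit 85) (nat_lit 5) (nat_lit 78) (nat_lit 5) (nat_lit 330) (nat_lit 322) (nat_lit 128)) (XT.lf (nat_lit 0) (nat_lit 104238913848) (nat_lit 380) (nat_lit 238514198205) (nat_lit 456) (nat_lit 358422315716) (nat_lit 72) (nat_lit 5) (nat_lit 77) (nat_lit 5) (nat_lit 78) (nat_lit 5) (nat_lit 331) (nat_lit 322) (nat_lit 127)))) (XT.nd (nat_lit 78) (nat_lit 304) (nat_lit 0) (XT.lf (nat_lit 0) (nat_lit 467072134429) (nat_lit 456) (nat_lit 57159686387)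 (nat_lit 76) (nat_lit 209031328934) (nat_lit 72) (nat_lit 5) (nat_lit 78) (nat_lit 5) (nat_lit 73) (nat_lit 5) (nat_lit 332) (nat_lit 322) (nat_lit 126)) (XT.nd (nat_lit 39858) (nat_lit 0) (nat_lit 1672) (XT.lf (nat_lit 0) (nat_lit 539029798981) (nat_lit 304) (nat_lit 74744408192) (nat_lit 380) (nat_lit 153521805927) (nat_lit 68) (nat_lit 5) (nat_lit 72) (nat_lit 5) (nat_lit 73) (nat_lit 5) (nat_lit 333) (nat_lit 322) (nat_lit 125)) (XT.lf (nat_lit 0) (nat_lit 108864637954) (nat_lit 0) (nat_lit 108864637954) (nat_lit 684) (nat_lit 42996726184) (nat_lit 90) (nat_lit 5) (nat_lit 90) (nat_lit 3) (nat_lit 99) (nat_lit 3) (nat_lit 323) (nat_lit 323) (nat_lit 134))))))))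
noncomputable def xc127 : XT := (XT.nd (nat_lit 81510) (nat_lit 0) (nat_lit 836) (XT.nd (nat_lit 40638) (nat_lit 0) (nat_lit 380) (XT.nd (nat_lit 390) (nat_lit 836) (nat_lit 0) (XT.nd (nat_lit 156) (nat_lit 532) (nat_lit 0) (XT.nd (nat_lit 78) (nat_lit 0) (nat_lit 76) (XT.lf (nat_lit 76) (nat_lit 74099097435) (nat_lit 0) (nat_lit 382491115701) (nat_lit 760) (nat_lit 85534204542) (nat_lit 91) (nat_lit 5) (nat_lit 90) (nat_lit 5) (nat_lit 100) (nat_lit 5) (nat_lit 324) (nat_lit 323) (nat_lit 133)) (XT.lf (nat_lit 0) (nat_lit 488328936549) (nat_lit 684) (nat_lit 74819514623) (nat_lit 760) (nat_lit 856346689) (nat_lit 91) (nat_lit 5) (nat_lit 100) (nat_lit 5) (nat_lit 101) (nat_lit 5) (nat_lit 325) (nat_lit 323) (nat_lit 132))) (XT.nd (nat_lit 78) (nat_lit 608) (nat_lit 0) (XT.lf (nat_lit 76) (nat_lit 354747366853) (nat_lit 0) (nat_lit 179847457883) (nat_lit 760) (nat_lit 52441380444) (nat_lit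 92) (nat_lit 5) (nat_lit 91) (nat_lit 5) (nat_lit 101) (nat_lit 5) (nat_lit 326) (nat_lit 323) (nat_lit 131)) (XT.nd (nat_lit 78) (nat_lit 684) (nat_lit 0) (XT.lf (nat_lit 76) (nat_lit 212635463143) (nat_lit 0) (nat_lit 380226231469) (nat_lit 760) (nat_lit 18633445002) (nat_lit 93) (nat_lit 5) (nat_lit 92) (nat_lit 5) (nat_lit 102) (nat_lit 5) (nat_lit 327) (nat_lit 323) (nat_lit 130)) (XT.lf (nat_lit 0) (nat_lit 26002264427) (nat_lit 760) (nat_lit 575709525089) (nat_lit 836) (nat_lit 35750273037) (nat_lit 83) (nat_lit 5) (nat_lit 93) (nat_lit 5) (nat_lit 94) (nat_lit 5) (nat_lit 328) (nat_lit 323) (nat_lit 129))))) (XT.nd (nat_lit 156) (nat_lit 836) (nat_lit 0) (XT.nd (nat_lit 78) (nat_lit 0) (nat_lit 76) (XT.lf (nat_lit 0) (nat_lit 87037792776) (nat_lit 760) (nat_lit 98541491234) (nat_lit 836) (nat_lit 479237692686) (nat_lit 83) (nat_lit 5) (nat_lit 93) (nat_lit 5) (nat_lit 94) (nat_lit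 5) (nat_lit 329) (nat_lit 323) (nat_lit 128)) (XT.lf (nat_lit 0) (nat_lit 163908266250) (nat_lit 760) (nat_lit 267672450237) (nat_lit 76) (nat_lit 262231962386) (nat_lit 84) (nat_lit 5) (nat_lit 94) (nat_lit 5) (nat_lit 85) (nat_lit 5) (nat_lit 330) (nat_lit 323) (nat_lit 127))) (XT.nd (nat_lit 78) (nat_lit 380) (nat_lit 0) (XT.lf (nat_lit 0) (nat_lit 256452270296) (nat_lit 608) (nat_lit 448012802767) (nat_lit 76) (nat_lit 20186769570) (nat_lit 77) (nat_lit 5) (nat_lit 85) (nat_lit 5) (nat_lit 78) (nat_lit 5) (nat_lit 331) (nat_lit 323) (nat_lit 126)) (XT.nd (nat_lit 78) (nat_lit 0) (nat_lit 0) (XT.lf (nat_lit 0) (nat_lit 112578456324) (nat_lit 380) (nat_lit 257595339635) (nat_lit 456) (nat_lit 387095643510) (nat_lit 72) (nat_lit 5) (nat_lit 77) (nat_lit 5) (nat_lit 78) (nat_lit 5) (nat_lit 332) (nat_lit 323) (nat_lit 125)) (XT.lf (nat_lit 0) (nat_lit 504438307827) (nat_lit 456) (nat_lit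 61732042801) (nat_lit 76) (nat_lit 225753830252) (nat_lit 72) (nat_lit 5) (nat_lit 78) (nat_lit 5) (nat_lit 73) (nat_lit 5) (nat_lit 333) (nat_lit 323) (nat_lit 124)))))) (XT.nd (nat_lit 390) (nat_lit 988) (nat_lit 0) (XT.nd (nat_lit 156) (nat_lit 0) (nat_lit 76) (XT.nd (nat_lit 78) (nat_lit 0) (nat_lit 0) (XT.lf (nat_lit 0) (nat_lit 117573981531) (nat_lit 0) (nat_lit 117573981531) (nat_lit 684) (nat_lit 46436101247) (nat_lit 90) (nat_lit 5) (nat_lit 90) (nat_lit 3) (nat_lit 99) (nat_lit 3) (nat_lit 324) (nat_lit 324) (nat_lit 132)) (XT.lf (nat_lit 76) (nat_lit 80027394809) (nat_lit 0) (nat_lit 413090675200) (nat_lit 760) (nat_lit 92376267803) (nat_lit 91) (nat_lit 5) (nat_lit 90) (nat_lit 5) (nat_lit 100) (nat_lit 5) (nat_lit 325) (nat_lit 324) (nat_lit 131))) (XT.nd (nat_lit 78) (nat_lit 0) (nat_lit 0) (XT.lf (nat_lit 0) (nat_lit 527395839993) (nat_lit 684) (nat_lit 80804698868) (nat_lit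 760) (nat_lit 924612208) (nat_lit 91) (nat_lit 5) (nat_lit 100) (nat_lit 5) (nat_lit 101) (nat_lit 5) (nat_lit 326) (nat_lit 324) (nat_lit 130)) (XT.nd (nat_lit 78) (nat_lit 0) (nat_lit 76) (XT.lf (nat_lit 76) (nat_lit 383127516745) (nat_lit 0) (nat_lit 194235444526) (nat_lit 760) (nat_lit 56636111690) (nat_lit 92) (nat_lit 5) (nat_lit 91) (nat_lit 5) (nat_lit 101) (nat_lit 5) (nat_lit 327) (nat_lit 324) (nat_lit 129)) (XT.lf (nat_lit 76) (nat_lit 229646675296) (nat_lit 0) (nat_lit 410644467768) (nat_lit 760) (nat_lit 20123581051) (nat_lit 93) (nat_lit 5) (nat_lit 92) (nat_lit 5) (nat_lit 102) (nat_lit 5) (nat_lit 328) (nat_lit 324) (nat_lit 128))))) (XT.nd (nat_lit 234) (nat_lit 456) (nat_lit 0) (XT.nd (nat_lit 78) (nat_lit 0) (nat_lit 0) (XT.lf (nat_lit 0) (nat_lit 28082933282) (nat_lit 760) (nat_lit 621765883702) (nat_lit 836) (nat_lit 38610185285) (nat_lit 83) (nat_lit 5) (nat_lit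 93) (nat_lit 5) (nat_lit 94) (nat_lit 5) (nat_lit 329) (nat_lit 324) (nat_lit 127)) (XT.nd (nat_lit 78) (nat_lit 0) (nat_lit 76) (XT.lf (nat_lit 0) (nat_lit 94001267773) (nat_lit 760) (nat_lit 106424437019) (nat_lit 836) (nat_lit 517576606625) (nat_lit 83) (nat_lit 5) (nat_lit 93) (nat_lit 5) (nat_lit 94) (nat_lit 5) (nat_lit 330) (nat_lit 324) (nat_lit 126)) (XT.lf (nat_lit 0) (nat_lit 177021350216) (nat_lit 760) (nat_lit 289085865979) (nat_lit 76) (nat_lit 283210455081) (nat_lit 84) (nat_lit 5) (nat_lit 94) (nat_lit 5) (nat_lit 85) (nat_lit 5) (nat_lit 331) (nat_lit 324) (nat_lit 125)))) (XT.nd (nat_lit 40092) (nat_lit 0) (nat_lit 988) (XT.lf (nat_lit 0) (nat_lit 276968848437) (nat_lit 608) (nat_lit 483853442150) (nat_lit 76) (nat_lit 21801678915) (nat_lit 77) (nat_lit 5) (nat_lit 85) (nat_lit 5) (nat_lit 78) (nat_lit 5) (nat_lit 332) (nat_lit 324) (nat_lit 124)) (XT.nd (nat_lit 78)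 (nat_lit 0) (nat_lit 0) (XT.lf (nat_lit 0) (nat_lit 126980047980) (nat_lit 0) (nat_lit 126980047980) (nat_lit 684) (nat_lit 50150678105) (nat_lit 90) (nat_lit 5) (nat_lit 90) (nat_lit 3) (nat_lit 99) (nat_lit 3) (nat_lit 325) (nat_lit 325) (nat_lit 130)) (XT.lf (nat_lit 76) (nat_lit 86429903248) (nat_lit 0) (nat_lit 446138160905) (nat_lit 760) (nat_lit 99765792151) (nat_lit 91) (nat_lit 5) (nat_lit 90) (nat_lit 5) (nat_lit 100) (nat_lit 5) (nat_lit 326) (nat_lit 325) (nat_lit 129))))))) (XT.nd (nat_lit 40872) (nat_lit 0) (nat_lit 0) (XT.nd (nat_lit 390) (nat_lit 0) (nat_lit 76) (XT.nd (nat_lit 156) (nat_lit 608) (nat_lit 0) (XT.nd (nat_lit 78) (nat_lit 0) (nat_lit 0) (XT.lf (nat_lit 0) (nat_lit 569588011755) (nat_lit 684) (nat_lit 87268751626) (nat_lit 760) (nat_lit 998373524) (nat_lit 91) (nat_lit 5) (nat_lit 100) (nat_lit 5) (nat_lit 101) (nat_lit 5) (nat_lit 327) (nat_lit 325) (nat_lit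 128)) (XT.lf (nat_lit 76) (nat_lit 413778027193) (nat_lit 0) (nat_lit 209774442992) (nat_lit 760) (nat_lit 61166504064) (nat_lit 92) (nat_lit 5) (nat_lit 91) (nat_lit 5) (nat_lit 101) (nat_lit 5) (nat_lit 328) (nat_lit 325) (nat_lit 127))) (XT.nd (nat_lit 78) (nat_lit 684) (nat_lit 0) (XT.lf (nat_lit 76) (nat_lit 248018730909) (nat_lit 0) (nat_lit 443496143315) (nat_lit 760) (nat_lit 21733004957) (nat_lit 93) (nat_lit 5) (nat_lit 92) (nat_lit 5) (nat_lit 102) (nat_lit 5) (nat_lit 329) (nat_lit 325) (nat_lit 126)) (XT.nd (nat_lit 78) (nat_lit 0) (nat_lit 0) (XT.lf (nat_lit 0) (nat_lit 30329986070) (nat_lit 760) (nat_lit 671506808552) (nat_lit 836) (nat_lit 41698906149) (nat_lit 83) (nat_lit 5) (nat_lit 93) (nat_lit 5) (nat_lit 94) (nat_lit 5) (nat_lit 330) (nat_lit 325) (nat_lit 125)) (XT.lf (nat_lit 0) (nat_lit 101521756348) (nat_lit 760) (nat_lit 114938071753) (nat_lit 836) (nat_lit 558982648155)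 (nat_lit 83) (nat_lit 5) (nat_lit 93) (nat_lit 5) (nat_lit 94) (nat_lit 5) (nat_lit 331) (nat_lit 325) (nat_lit 124))))) (XT.nd (nat_lit 40248) (nat_lit 0) (nat_lit 456) (XT.nd (nat_lit 40170) (nat_lit 0) (nat_lit 456) (XT.lf (nat_lit 0) (nat_lit 191183420602) (nat_lit 760) (nat_lit 312212409232) (nat_lit 76) (nat_lit 305867236363) (nat_lit 84) (nat_lit 5) (nat_lit 94) (nat_lit 5) (nat_lit 85) (nat_lit 5) (nat_lit 332) (nat_lit 325) (nat_lit 123)) (XT.lf (nat_lit 0) (nat_lit 137138578641) (nat_lit 0) (nat_lit 137138578641) (nat_lit 684) (nat_lit 54162465514) (nat_lit 90) (nat_lit 5) (nat_lit 90) (nat_lit 3) (nat_lit 99) (nat_lit 3) (nat_lit 326) (nat_lit 326) (nat_lit 128))) (XT.nd (nat_lit 78) (nat_lit 0) (nat_lit 76) (XT.lf (nat_lit 76) (nat_lit 93344567160) (nat_lit 0) (nat_lit 481829412415) (nat_lit 760) (nat_lit 107746560772) (nat_lit 91) (nat_lit 5) (nat_lit 90) (nat_lit 5) (nat_lit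 100) (nat_lit 5) (nat_lit 327) (nat_lit 326) (nat_lit 127)) (XT.nd (nat_lit 78) (nat_lit 0) (nat_lit 0) (XT.lf (nat_lit 0) (nat_lit 615155485276) (nat_lit 684) (nat_lit 94249974705) (nat_lit 760) (nat_lit 1078065370) (nat_lit 91) (nat_lit 5) (nat_lit 100) (nat_lit 5) (nat_lit 101) (nat_lit 5) (nat_lit 328) (nat_lit 326) (nat_lit 126)) (XT.lf (nat_lit 76) (nat_lit 446880534379) (nat_lit 0) (nat_lit 226556538096) (nat_lit 760) (nat_lit 66059398668) (nat_lit 92) (nat_lit 5) (nat_lit 91) (nat_lit 5) (nat_lit 101) (nat_lit 5) (nat_lit 329) (nat_lit 326) (nat_lit 125)))))) (XT.nd (nat_lit 40638) (nat_lit 0) (nat_lit 532) (XT.nd (nat_lit 40404) (nat_lit 0) (nat_lit 532) (XT.nd (nat_lit 78) (nat_lit 684) (nat_lit 0) (XT.lf (nat_lit 76) (nat_lit 267860505093) (nat_lit 0) (nat_lit 478975936055) (nat_lit 760) (nat_lit 23471248767) (nat_lit 93) (nat_lit 5) (nat_lit 92) (nat_lit 5) (nat_lit 102) (nat_lit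 5) (nat_lit 330) (nat_lit 326) (nat_lit 124)) (XT.lf (nat_lit 0) (nat_lit 32756743431) (nat_lit 760) (nat_lit 725227056729) (nat_lit 836) (nat_lit 45034738086) (nat_lit 83) (nat_lit 5) (nat_lit 93) (nat_lit 5) (nat_lit 94) (nat_lit 5) (nat_lit 331) (nat_lit 326) (nat_lit 123))) (XT.nd (nat_lit 78) (nat_lit 0) (nat_lit 0) (XT.lf (nat_lit 0) (nat_lit 148109773662) (nat_lit 0) (nat_lit 148109773662) (nat_lit 684) (nat_lit 58495233984) (nat_lit 90) (nat_lit 5) (nat_lit 90) (nat_lit 3) (nat_lit 99) (nat_lit 3) (nat_lit 327) (nat_lit 327) (nat_lit 126)) (XT.nd (nat_lit 78) (nat_lit 0) (nat_lit 76) (XT.lf (nat_lit 76) (nat_lit 100812365430) (nat_lit 0) (nat_lit 520375935707) (nat_lit 760) (nat_lit 116365861466) (nat_lit 91) (nat_lit 5) (nat_lit 90) (nat_lit 5) (nat_lit 100) (nat_lit 5) (nat_lit 328) (nat_lit 327) (nat_lit 125)) (XT.lf (nat_lit 0) (nat_lit 664368294966) (nat_lit 684) (nat_lit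 101789735155) (nat_lit 760) (nat_lit 1164157962) (nat_lit 91) (nat_lit 5) (nat_lit 100) (nat_lit 5) (nat_lit 101) (nat_lit 5) (nat_lit 329) (nat_lit 327) (nat_lit 124))))) (XT.nd (nat_lit 40638) (nat_lit 0) (nat_lit 0) (XT.nd (nat_lit 40482) (nat_lit 76) (nat_lit 0) (XT.lf (nat_lit 76) (nat_lit 482631204333) (nat_lit 0) (nat_lit 244681180884) (nat_lit 760) (nat_lit 71343785575) (nat_lit 92) (nat_lit 5) (nat_lit 91) (nat_lit 5) (nat_lit 101) (nat_lit 5) (nat_lit 330) (nat_lit 327) (nat_lit 123)) (XT.nd (nat_lit 78) (nat_lit 0) (nat_lit 0) (XT.lf (nat_lit 0) (nat_lit 159958648774) (nat_lit 0) (nat_lit 159958648774) (nat_lit 684) (nat_lit 63174656568) (nat_lit 90) (nat_lit 5) (nat_lit 90) (nat_lit 3) (nat_lit 99) (nat_lit 3) (nat_lit 328) (nat_lit 328) (nat_lit 124)) (XT.lf (nat_lit 76) (nat_lit 108877554336) (nat_lit 0) (nat_lit 562006156567) (nat_lit 760) (nat_lit 125674766727) (nat_lit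 91) (nat_lit 5) (nat_lit 90) (nat_lit 5) (nat_lit 100) (nat_lit 5) (nat_lit 329) (nat_lit 328) (nat_lit 123)))) (XT.nd (nat_lit 40794) (nat_lit 76) (nat_lit 0) (XT.lf (nat_lit 0) (nat_lit 717518076523) (nat_lit 684) (nat_lit 109932710327) (nat_lit 760) (nat_lit 1257159737) (nat_lit 91) (nat_lit 5) (nat_lit 100) (nat_lit 5) (nat_lit 101) (nat_lit 5) (nat_lit 330) (nat_lit 328) (nat_lit 122)) (XT.nd (nat_lit 40560) (nat_lit 76) (nat_lit 0) (XT.lf (nat_lit 76) (nat_lit 562941414110) (nat_lit 0) (nat_lit 285396328266) (nat_lit 760) (nat_lit 83214785267) (nat_lit 92) (nat_lit 5) (nat_lit 91) (nat_lit 5) (nat_lit 101) (nat_lit 5) (nat_lit 332) (nat_lit 329) (nat_lit 119)) (XT.lf (nat_lit 76) (nat_lit 126995111024) (nat_lit 0) (nat_lit 655524223526) (nat_lit 760) (nat_lit 146586443893) (nat_lit 91) (nat_lit 5) (nat_lit 90) (nat_lit 5) (nat_lit 100) (nat_lit 5) (nat_lit 331) (nat_lit 330) (nat_lit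 119))))))))

set_option maxRecDepth 10000000 in
noncomputable def Tp : PT := (PT.nd (nat_lit 5374824) (PT.nd (nat_lit 5090202) (PT.nd (nat_lit 4805814) pc0 pc1) (PT.nd (nat_lit 162708) pc2 pc3)) (PT.nd (nat_lit 201474) (PT.nd (nat_lit 120666) pc4 pc5) (PT.nd (nat_lit 83382) pc6 pc7)))

set_option maxRecDepth 10000000 in
noncomputable def Tx : XT := (XT.nd (nat_lit 8804952) (nat_lit 0) (nat_lit 76) XT.nil (XT.nd (nat_lit 4631484) (nat_lit 0) (nat_lit 0) (XT.nd (nat_lit 2108184) (nat_lit 0) (nat_lit 76) (XT.nd (nat_lit 1457586) (nat_lit 0) (nat_lit 0) (XT.nd (nat_lit 1013142) (nat_lit 0) (nat_lit 0) (XT.nd (nat_lit 690222) (nat_lit 0) (nat_lit 0) (XT.nd (nat_lit 486564) (nat_lit 0) (nat_lit 0) (XT.nd (nat_lit 324714) (nat_lit 0) (nat_lit 0) (XT.nd (nat_lit 203268) (nat_lit 0) (nat_lit 0) xc0 xc1) (XT.nd (nat_lit 81198) (nat_lit 0) (nat_lit 0) xc2 xc3)) (XT.nd (nat_lit 121368) (nat_lit 0)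 (nat_lit 0) (XT.nd (nat_lit 41652) (nat_lit 0) (nat_lit 0) xc4 xc5) (XT.nd (nat_lit 41184) (nat_lit 0) (nat_lit 0) xc6 xc7))) (XT.nd (nat_lit 162708) (nat_lit 0) (nat_lit 0) (XT.nd (nat_lit 81666) (nat_lit 0) (nat_lit 0) (XT.nd (nat_lit 40872) (nat_lit 0) (nat_lit 0) xc8 xc9) (XT.nd (nat_lit 40560) (nat_lit 0) (nat_lit 0) xc10 xc11)) (XT.nd (nat_lit 80418) (nat_lit 0) (nat_lit 0) (XT.nd (nat_lit 40248) (nat_lit 0) (nat_lit 0) xc12 xc13) (XT.nd (nat_lit 39936) (nat_lit 0) (nat_lit 0) xc14 xc15)))) (XT.nd (nat_lit 242268) (nat_lit 0) (nat_lit 0) (XT.nd (nat_lit 121758) (nat_lit 0) (nat_lit 0) (XT.nd (nat_lit 42900) (nat_lit 0) (nat_lit 0) (XT.nd (nat_lit 39624) (nat_lit 0) (nat_lit 0) xc16 xc17) (XT.nd (nat_lit 39468) (nat_lit 0) (nat_lit 0) xc18 xc19)) (XT.nd (nat_lit 42432) (nat_lit 0) (nat_lit 0) (XT.nd (nat_lit 39156) (nat_lit 0) (nat_lit 0) xc20 xc21) (XT.nd (nat_lit 39078) (nat_lit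 0) (nat_lit 0) xc22 xc23))) (XT.nd (nat_lit 83928) (nat_lit 0) (nat_lit 0) (XT.nd (nat_lit 42042) (nat_lit 0) (nat_lit 0) (XT.nd (nat_lit 3198) (nat_lit 0) (nat_lit 0) xc24 xc25) (XT.nd (nat_lit 38610) (nat_lit 0) (nat_lit 76) xc26 xc27)) (XT.nd (nat_lit 41730) (nat_lit 0) (nat_lit 0) (XT.nd (nat_lit 38454) (nat_lit 0) (nat_lit 0) xc28 xc29) (XT.nd (nat_lit 38298) (nat_lit 0) (nat_lit 0) xc30 xc31))))) (XT.nd (nat_lit 325806) (nat_lit 0) (nat_lit 0) (XT.nd (nat_lit 164112) (nat_lit 0) (nat_lit 0) (XT.nd (nat_lit 82368) (nat_lit 0) (nat_lit 0) (XT.nd (nat_lit 41262) (nat_lit 0) (nat_lit 0) (XT.nd (nat_lit 3198) (nat_lit 152) (nat_lit 0) xc32 xc33) (XT.nd (nat_lit 3198) (nat_lit 76) (nat_lit 0) xc34 xc35)) (XT.nd (nat_lit 40950) (nat_lit 0) (nat_lit 0) (XT.nd (nat_lit 3198) (nat_lit 76) (nat_lit 0) xc36 xc37) (XT.nd (nat_lit 3198) (nat_lit 0) (nat_lit 0) xc38 xc39))) (XT.nd (nat_lit 81120)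 (nat_lit 0) (nat_lit 0) (XT.nd (nat_lit 40638) (nat_lit 0) (nat_lit 0) (XT.nd (nat_lit 3198) (nat_lit 0) (nat_lit 0) xc40 xc41) (XT.nd (nat_lit 3198) (nat_lit 0) (nat_lit 0) xc42 xc43)) (XT.nd (nat_lit 40326) (nat_lit 0) (nat_lit 0) (XT.nd (nat_lit 3198) (nat_lit 76) (nat_lit 0) xc44 xc45) (XT.nd (nat_lit 3198) (nat_lit 76) (nat_lit 0) xc46 xc47)))) (XT.nd (nat_lit 161772) (nat_lit 0) (nat_lit 0) (XT.nd (nat_lit 80730) (nat_lit 0) (nat_lit 0) (XT.nd (nat_lit 40326) (nat_lit 0) (nat_lit 0) (XT.nd (nat_lit 3198) (nat_lit 76) (nat_lit 0) xc48 xc49) (XT.nd (nat_lit 3198) (nat_lit 228) (nat_lit 0) xc50 xc51)) (XT.nd (nat_lit 40482) (nat_lit 0) (nat_lit 0) (XT.nd (nat_lit 3198) (nat_lit 304) (nat_lit 0) xc52 xc53) (XT.nd (nat_lit 3198) (nat_lit 304) (nat_lit 0) xc54 xc55))) (XT.nd (nat_lit 81354) (nat_lit 0) (nat_lit 0) (XT.nd (nat_lit 40638) (nat_lit 0) (nat_lit 0) (XT.nd (nat_lit 3198) (nat_lit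 380) (nat_lit 0) xc56 xc57) (XT.nd (nat_lit 3198) (nat_lit 456) (nat_lit 0) xc58 xc59)) (XT.nd (nat_lit 40794) (nat_lit 0) (nat_lit 76) (XT.nd (nat_lit 3198) (nat_lit 456) (nat_lit 0) xc60 xc61) (XT.nd (nat_lit 3198) (nat_lit 304) (nat_lit 0) xc62 xc63)))))) (XT.nd (nat_lit 774150) (nat_lit 0) (nat_lit 228) (XT.nd (nat_lit 365430) (nat_lit 0) (nat_lit 0) (XT.nd (nat_lit 164424) (nat_lit 0) (nat_lit 0) (XT.nd (nat_lit 81978) (nat_lit 0) (nat_lit 0) (XT.nd (nat_lit 40950) (nat_lit 0) (nat_lit 0) (XT.nd (nat_lit 3198) (nat_lit 228) (nat_lit 0) xc64 xc65) (XT.nd (nat_lit 3198) (nat_lit 228) (nat_lit 0) xc66 xc67)) (XT.nd (nat_lit 41184) (nat_lit 0) (nat_lit 0) (XT.nd (nat_lit 3198) (nat_lit 152) (nat_lit 0) xc68 xc69) (XT.nd (nat_lit 3198) (nat_lit 0) (nat_lit 0) xc70 xc71))) (XT.nd (nat_lit 82758) (nat_lit 0) (nat_lit 0) (XT.nd (nat_lit 41340) (nat_lit 0) (nat_lit 0) (XT.nd (nat_lit 38064)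 (nat_lit 0) (nat_lit 684) xc72 xc73) (XT.nd (nat_lit 38142) (nat_lit 0) (nat_lit 380) xc74 xc75)) (XT.nd (nat_lit 41496) (nat_lit 0) (nat_lit 0) (XT.nd (nat_lit 38220) (nat_lit 0) (nat_lit 152) xc76 xc77) (XT.nd (nat_lit 38298) (nat_lit 0) (nat_lit 0) xc78 xc79)))) (XT.nd (nat_lit 167622) (nat_lit 0) (nat_lit 152) (XT.nd (nat_lit 83616) (nat_lit 0) (nat_lit 76) (XT.nd (nat_lit 41730) (nat_lit 0) (nat_lit 0) (XT.nd (nat_lit 3198) (nat_lit 684) (nat_lit 0) xc80 xc81) (XT.nd (nat_lit 3198) (nat_lit 228) (nat_lit 0) xc82 xc83)) (XT.nd (nat_lit 41964) (nat_lit 0) (nat_lit 76) (XT.nd (nat_lit 38688) (nat_lit 0) (nat_lit 532) xc84 xc85) (XT.nd (nat_lit 38766) (nat_lit 0) (nat_lit 0) xc86 xc87))) (XT.nd (nat_lit 120120) (nat_lit 0) (nat_lit 0) (XT.nd (nat_lit 77844) (nat_lit 0) (nat_lit 0) (XT.nd (nat_lit 38844) (nat_lit 0) (nat_lit 0) xc88 xc89) (XT.nd (nat_lit 3198) (nat_lit 76) (nat_lit 0)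 xc90 xc91)) (XT.nd (nat_lit 42354) (nat_lit 0) (nat_lit 76) (XT.nd (nat_lit 39078) (nat_lit 0) (nat_lit 76) xc92 xc93) (XT.nd (nat_lit 39234) (nat_lit 0) (nat_lit 0) xc94 xc95))))) (XT.nd (nat_lit 529386) (nat_lit 0) (nat_lit 532) (XT.nd (nat_lit 244374) (nat_lit 0) (nat_lit 228) (XT.nd (nat_lit 121758) (nat_lit 0) (nat_lit 76) (XT.nd (nat_lit 42666) (nat_lit 0) (nat_lit 0) (XT.nd (nat_lit 39390) (nat_lit 0) (nat_lit 304) xc96 xc97) (XT.nd (nat_lit 39468) (nat_lit 0) (nat_lit 0) xc98 xc99)) (XT.nd (nat_lit 42900) (nat_lit 0) (nat_lit 76) (XT.nd (nat_lit 39624) (nat_lit 0) (nat_lit 380) xc100 xc101) (XT.nd (nat_lit 39780) (nat_lit 0) (nat_lit 76) xc102 xc103))) (XT.nd (nat_lit 123396) (nat_lit 0) (nat_lit 152) (XT.nd (nat_lit 80028) (nat_lit 0) (nat_lit 0) (XT.nd (nat_lit 39936) (nat_lit 0) (nat_lit 0) xc104 xc105) (XT.nd (nat_lit 3198) (nat_lit 152) (nat_lit 0) xc106 xc107)) (XT.nd (nat_lit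 80652) (nat_lit 0) (nat_lit 76) (XT.nd (nat_lit 40248) (nat_lit 0) (nat_lit 76) xc108 xc109) (XT.nd (nat_lit 40404) (nat_lit 0) (nat_lit 0) xc110 xc111)))) (XT.nd (nat_lit 365898) (nat_lit 0) (nat_lit 988) (XT.nd (nat_lit 163098) (nat_lit 0) (nat_lit 228) (XT.nd (nat_lit 81354) (nat_lit 0) (nat_lit 152) (XT.nd (nat_lit 40560) (nat_lit 0) (nat_lit 152) xc112 xc113) (XT.nd (nat_lit 40794) (nat_lit 0) (nat_lit 76) xc114 xc115)) (XT.nd (nat_lit 120120) (nat_lit 0) (nat_lit 456) (XT.nd (nat_lit 40950) (nat_lit 0) (nat_lit 304) xc116 xc117) (XT.nd (nat_lit 41262) (nat_lit 0) (nat_lit 76) xc118 xc119))) (XT.nd (nat_lit 244296) (nat_lit 0) (nat_lit 836) (XT.nd (nat_lit 121680) (nat_lit 0) (nat_lit 304) (XT.nd (nat_lit 41574) (nat_lit 0) (nat_lit 0) xc120 xc121) (XT.nd (nat_lit 41808) (nat_lit 0) (nat_lit 152) xc122 xc123)) (XT.nd (nat_lit 202332) (nat_lit 0) (nat_lit 1444) (XT.nd (nat_lit 81198)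 (nat_lit 0) (nat_lit 456) xc124 xc125) (XT.nd (nat_lit 122148) (nat_lit 0) (nat_lit 1292) xc126 xc127))))))) XT.nil))

set_option maxRecDepth 10000000 in
noncomputable def Te : XT := XT.nil

set_option maxRecDepth 10000000 in
noncomputable def Tz : ZL := (ZL.cons (nat_lit 76) (nat_lit 6) (nat_lit 213318302268590324664) (ZL.cons (nat_lit 152) (nat_lit 6) (nat_lit 206255462191840718698) (ZL.cons (nat_lit 228) (nat_lit 3) (nat_lit 102830438041974612283) (ZL.cons (nat_lit 304) (nat_lit 6) (nat_lit 198627594908951144256) (ZL.cons (nat_lit 380) (nat_lit 6) (nat_lit 192176780040336835856) (ZL.cons (nat_lit 456) (nat_lit 3) (nat_lit 95813118673922355828) (ZL.cons (nat_lit 532) (nat_lit 6) (nat_lit 185209899982233382782) (ZL.cons (nat_lit 608) (nat_lit 6) (nat_lit 179340560072172794198) (ZL.cons (nat_lit 684) (nat_lit 3) (nat_lit 89415399159932635897) (ZL.cons (nat_lit 760) (nat_lit 6) (nat_lit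 173001672969307358530) (ZL.cons (nat_lit 836) (nat_lit 6) (nat_lit 167687980965519299798) (ZL.cons (nat_lit 912) (nat_lit 3) (nat_lit 83607989671506167304) (ZL.cons (nat_lit 988) (nat_lit 6) (nat_lit 161949193601428196370) (ZL.cons (nat_lit 1064) (nat_lit 6) (nat_lit 157170105162382593364) (ZL.cons (nat_lit 1140) (nat_lit 3) (nat_lit 78366533311512146131) (ZL.cons (nat_lit 1216) (nat_lit 6) (nat_lit 152850393501792292390) (ZL.cons (nat_lit 1292) (nat_lit 6) (nat_lit 152008689648213342118) (ZL.cons (nat_lit 1368) (nat_lit 6) (nat_lit 147748066368996466234) (ZL.cons (nat_lit 1444) (nat_lit 3) (nat_lit 73671700527387908532) (ZL.cons (nat_lit 1520) (nat_lit 6) (nat_lit 143925948647422749786) (ZL.cons (nat_lit 1596) (nat_lit 6) (nat_lit 143146593227442240276) (ZL.cons (nat_lit 1672) (nat_lit 6) (nat_lit 139393396193902486856) (ZL.cons (nat_lit 1748) (nat_lit 3) (nat_lit 69509353044071313258)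 (ZL.cons (nat_lit 1824) (nat_lit 6) (nat_lit 136061568786550395298) (ZL.cons (nat_lit 1900) (nat_lit 6) (nat_lit 135339943397679553162) (ZL.cons (nat_lit 1976) (nat_lit 6) (nat_lit 133131366842972027286) (ZL.cons (nat_lit 2052) (nat_lit 6) (nat_lit 132088505080850276076) (ZL.cons (nat_lit 2128) (nat_lit 3) (nat_lit 65870784898869647140) (ZL.cons (nat_lit 2204) (nat_lit 6) (nat_lit 129245123355036547696) (ZL.cons (nat_lit 2280) (nat_lit 6) (nat_lit 128576951698674656826) (ZL.cons (nat_lit 2356) (nat_lit 6) (nat_lit 126792948550752064442) (ZL.cons (nat_lit 2432) (nat_lit 6) (nat_lit 125827335808046739248) (ZL.cons (nat_lit 2508) (nat_lit 3) (nat_lit 62753049717397915087) (ZL.cons (nat_lit 2584) (nat_lit 6) (nat_lit 124717449261749214560) (ZL.cons (nat_lit 2660) (nat_lit 6) (nat_lit 123476428105762931658) (ZL.cons (nat_lit 2736) (nat_lit 6) (nat_lit 122857750646168588260) (ZL.cons (nat_lit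 2812) (nat_lit 6) (nat_lit 123006326232982055240) (ZL.cons (nat_lit 2888) (nat_lit 6) (nat_lit 121510297286920811494) (ZL.cons (nat_lit 2964) (nat_lit 6) (nat_lit 120616211414045510388) (ZL.cons (nat_lit 3040) (nat_lit 3) (nat_lit 60159385163851038032) (ZL.cons (nat_lit 3116) (nat_lit 6) (nat_lit 119917292205927240270) (ZL.cons (nat_lit 3192) (nat_lit 6) (nat_lit 118768198542976978320) (ZL.cons (nat_lit 3268) (nat_lit 6) (nat_lit 118195349043352586288) (ZL.cons (nat_lit 3344) (nat_lit 3) (nat_lit 58559904887605864442) (ZL.cons (nat_lit 3420) (nat_lit 6) (nat_lit 117293363792249457920) (ZL.cons (nat_lit 3496) (nat_lit 6) (nat_lit 117815054311611757506) (ZL.cons (nat_lit 3572) (nat_lit 6) (nat_lit 118687972832672626450) (ZL.cons (nat_lit 3648) (nat_lit 6) (nat_lit 117302760845578882240) (ZL.cons (nat_lit 3724) (nat_lit 6) (nat_lit 116474903555879529364) (ZL.cons (nat_lit 3800) (nat_lit 3)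 (nat_lit 58099747571299285828) (ZL.cons (nat_lit 3876) (nat_lit 6) (nat_lit 115126097966333798438) (ZL.cons (nat_lit 3952) (nat_lit 6) (nat_lit 115487090321772274838) (ZL.cons (nat_lit 4028) (nat_lit 6) (nat_lit 116211214246607381574) (ZL.cons (nat_lit 4104) (nat_lit 6) (nat_lit 115147238632764546438) (ZL.cons (nat_lit 4180) (nat_lit 6) (nat_lit 114616822429408627886) (ZL.cons (nat_lit 4256) (nat_lit 3) (nat_lit 56726811265353388533) (ZL.cons (nat_lit 4332) (nat_lit 6) (nat_lit 113641060869107524430) (ZL.cons (nat_lit 4408) (nat_lit 6) (nat_lit 114204486630018807980) (ZL.cons (nat_lit 4484) (nat_lit 6) (nat_lit 113437952102519407168) (ZL.cons (nat_lit 4560) (nat_lit 3) (nat_lit 56591472156222223162) (ZL.cons (nat_lit 4636) (nat_lit 6) (nat_lit 112266026519823937382) (ZL.cons (nat_lit 4712) (nat_lit 6) (nat_lit 112655898263697491896) (ZL.cons (nat_lit 4788) (nat_lit 6) (nat_lit 112164772149479048792)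 (ZL.cons (nat_lit 4864) (nat_lit 3) (nat_lit 55676919461111027703) (ZL.cons (nat_lit 4940) (nat_lit 6) (nat_lit 111556272327694862556) (ZL.cons (nat_lit 5016) (nat_lit 3) (nat_lit 55660077001775690148) (ZL.cons (nat_lit 5092) (nat_lit 6) (nat_lit 110899092520167941424) (ZL.cons (nat_lit 5168) (nat_lit 1) (nat_lit 18446744073709551617) ZL.nil))))))))))))))))))))))))))))))))))))))))))))))))))))))))))))))))))))

noncomputable def vl : XL := ⟨(nat_lit 0), (nat_lit 76), (nat_lit 316668492), (nat_lit 152), (nat_lit 127003519), (nat_lit 152), (nat_lit 127003519), (nat_lit 1), (nat_lit 4), (nat_lit 2), (nat_lit 5), (nat_lit 2), (nat_lit 4), (nat_lit 0), (nat_lit 0), (nat_lit 0)⟩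

noncomputable def cp0 : Nat := (nat_lit 1979317629810335603897720767602460124334056649490431034847076282566411132215199967436283901077761576590297037735319334127211930857980605845460323479158459487956055591278419477150416476090559127380218432926609849201973568115376321891810694983949108978997517011023344978952826200420100293318447906978208760068781232137049309373876581142531796868359225007758373568516012675539676602579029248230661960789404391879845304025876727355992176666641507900383634137629721347338517580630067324361935727817548624366605466599742695143994181352695255479633362160803339264992942287824647960295518227299319911836007898813595018679516583005812390939922403104407824923703197608083772594183476155961146634306211696241030781196634991326050456997104186073077480989725258008140532511374420309748307222055114305603547552800488293676562706256565639822014130404619510494748590277665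86926820304962897435977719213976563759713687153408541046931999835808649282739040957578986693237028707622511315007186818483529073702103128653156910869613216890404984283806202859336368180219689323010651762608826576498561803176046803159337260506319966565373059287938739038397396969175487307609047832113488112413478640073204098665777238681681066709056003817304976188990240573591581321618063226275378205378513882036973097346654920405540714664068316980081417001571224110488457549966732955656194773419054839361714274353353740773458382214256232596583778407461669946187418091276336641983238454739515871117457208187256351204514487334820810876455954527416230725905194788756638684669192454528884475229252072014635075346691640000512)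

noncomputable def cp1 : Nat := (nat_lit 4107455013775160341909454905392451157458170436184446964084703972478589199449297011499323292216362839598244112902762584395164672446895278349311130607062684571745804916616423537861707184656383754648148008099819286402140694161853188350202952889590089117093620546724989595088059656938943192064549764037946888267949115911828652118990094034035189587550471408565150471841665438105324678949252151742841596587211301952769001249844958335694109731982511236621774496414441854517398722729241538835966516917549793827855469017787062116696387334583019384403318041270083633513004783801483430802029956686935260055832414512607880021418140355787829888970634066330391232866797735642771658354206008598741600180728076183001020742664742169310595289129611583112351892973628976669807018446825525573084387336551971562195409031150820602746747622601924346752300311852171687231564139211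4959357905542954565325181236608185514082914324137023095353089654746821128283206275084209104553654718144818163964428365171826649925087946277163829711799298100433686551255867784357360909697105532936605483267016569557341231150945104420518104092491991950734657548929095278819302114544849012785241916179044437188466418281424500700911780296436780272997626550238789741926660657724970227659340758683650181311607830331727613237972199589290588416676567822395912829068099947756214051549649239929563639439953049661662593101666206472203248668007743804067565935885170301290526086381703159044461861464946450897331147308283150412374163236136013070658271301672572161718839874402070766274445422941969623283983626703264470127492122714503738427746286058983274189791428865980658929887693969428779140028581477700897551785831327377998383182320791065066233679651109969796535670903508043856754580265274944880364795191922303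3799625467780580081214828133781556787102952913798481950780348471226290009843802230983731642260072649845231301987114143645654419818062717044457195152879572177493323531051397992490690870989310220731311428789538706738386343183691749607933059844733011901834864042394630655138210580400850233904653160781624871841282303718105252827952366755051389413944649151205642342012636243332980971089529208537727123321498386996088414170432209374713723559293426542571091641844564166656629700982876921871435381396668793822120688801435310499589609992214518838129085740552202413476663717965119052684075842987210455843664048218554639876031284168871886711873308135555944601833537749628572808517313489214279773100380132594044164640626328390039291192721802362548090788337126189586108890309315285531283349876688554405457109110311764705047760900937553662373053429899373519448591793820009165479745247869860476767243787483041874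2566659383313345580348431393796912099301119913475987643403228439122017842169555924482459464641903546344434093733377389515951715758071594606857729973747232527891576567794376947328702937535131938001781499842459752118933687820448942976271854462326193902925119438610759380367943272048229219441127461454748626015160361178274685392540816394418789774375407841823070811500039575843181119584439569394931644630445728171574556478330505115482499588147466650315062516306357600495759360301990418234052079124131162242526086128716557091646964477615844394618847232)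

noncomputable def rc0 : Nat := (nat_lit 4107455013775160341909454905392451157458170436184446964084703972478589199449297011499323292216362839598244112902762584395164672446895278349311130607062684571745804916616423537861707184656383754648148008099819286402140694161853188350202952889590089117093620546724989595088059656938943192064549764037946888267949115911828652118990094034035189587550471408565150471841665438105324678949252151742841596587211301952769001249844958335694109731982511236621774496414441854517398722729241538835966516917549793827855469017787062116696387334583019384403318041270083633513004783801483430802029956686935260055832414512607880021418140355787829888970634066330391232866797735642771658354206008598741600180728076183001020742664742169310595289129611583112351892973628976669807018446825525573084387336551971562195409031150820602746747622601924346752300311852171687231564139211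4959357905542954565325181236608185514082914324137023095353089654746821128283206275084209104553654718144818163964428365171826649925087946277163829711799298100433686551255867784357360909697105532936605483267016569557341231150945104420518104092491991950734657548929095278819302114544849012785241916179044437188466418281424500700911780296436780272997626550238789741926660657724970227659340758683650181311607830331727613237972199589290588416676567822395912829068099947756214051549649239929563639439953049661662593101666206472203248668007743804067565935885170301290526086381703159044461861464946450897331147308283150412374163236136013070658271301672572161718839874402070766274445422941969623283983626703264470127492122714503738427746286058983274189791428865980658929887693969428779140028581477700897551785831327377998383182320791065066233679651109969796535670903508043856754580265274944880364795191922303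3799625467780580081214828133781556787102952913798481950780348471226290009843802230983731642260072649845231301987114143645654419818062717044457195152879572177493323531051397992490690870989310220731311428789538706738386343183691749607933059844733011901834864042394630655138210580400850233904653160781624871841282303718105252827952366755051389413944649151205642342012636243332980971089529208537727123321498386996088414170432209374713723559293426542571091641844564166656629700982876921871435381396668793822120688801435310499589609992214518838129085740552202413476663717965119052684075842987210455843664048218554639876031284168871886711873308135555944601833537749628572808517313489214279773100380132594044164640626328390039291192721802362548090788337126189586108890309315285531283349876688554405457109110311764705047760900937553662373053429899373519448591793820009165479745247869860476767243787483041874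2566659383313345580348431393796912099301119913475987643403228439122017842169555924482459464641903546344434093733377389515951715758071594606857729973747232527891576567794376947328702937535131938001781499842459752118933687820448942976271854462326193902925119438610759380367943272048229219441127461454748626015160361178274685392540816394418789774375407841823070811500039575843181119584439569394931644630445728171574556478330505115482499588147466650315062516306357600495759360301990418234052079124131162242526086128716557091646964477615844394618847232)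

end Vale.Agent.Lib.P154.PChain.BN.S3
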