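import Vale.Agent.Lib.P154.PChain.BN.R3_0

set_option linter.all false

namespace Vale.Agent.Lib.P154.PChain.BN.S4

open Vale.Agent.Lib.P154.Chain

noncomputable def pc0 : PT := (PT.nd (nat_lit 3993834) (PT.nd (nat_lit 3790878) (PT.nd (nat_lit 3669198) (PT.nd (nat_lit 3628560) (PT.nd (nat_lit 3628482) (PT.nd (nat_lit 3587922) PT.nil (PT.lf (nat_lit 76) (nat_lit 3) (nat_lit 1) (nat_lit 1) (nat_lit 151) (nat_lit 88) (nat_lit 151))) (PT.lf (nat_lit 152) (nat_lit 6) (nat_lit 2) (nat_lit 3) (nat_lit 150) (nat_lit 89) (nat_lit 151))) (PT.nd (nat_lit 40482) (PT.lf (nat_lit 152) (nat_lit 6) (nat_lit 2) (nat_lit 1) (nat_lit 151) (nat_lit 89) (nat_lit 150)) (PT.nd (nat_lit 78) (PT.lf (nat_lit 228) (nat_lit 6) (nat_lit 3) (nat_lit 3) (nat_lit 149) (nat_lit 90) (nat_lit 151)) (PT.lf (nat_lit 304) (nat_lit 3) (nat_lit 4) (nat_lit 1) (nat_lit 150) (nat_lit 90) (nat_lit 150))))) (PT.nd (nat_lit 81042)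 (PT.nd (nat_lit 40482) (PT.lf (nat_lit 228) (nat_lit 6) (nat_lit 3) (nat_lit 1) (nat_lit 151) (nat_lit 90) (nat_lit 149)) (PT.nd (nat_lit 78) (PT.lf (nat_lit 380) (nat_lit 6) (nat_lit 5) (nat_lit 3) (nat_lit 149) (nat_lit 91) (nat_lit 150)) (PT.lf (nat_lit 380) (nat_lit 6) (nat_lit 5) (nat_lit 1) (nat_lit 150) (nat_lit 91) (nat_lit 149)))) (PT.nd (nat_lit 78) (PT.lf (nat_lit 456) (nat_lit 6) (nat_lit 6) (nat_lit 3) (nat_lit 148) (nat_lit 92) (nat_lit 150)) (PT.nd (nat_lit 78) (PT.lf (nat_lit 532) (nat_lit 3) (nat_lit 7) (nat_lit 1) (nat_lit 149) (nat_lit 92) (nat_lit 149)) (PT.lf (nat_lit 456) (nat_lit 6) (nat_lit 6) (nat_lit 1) (nat_lit 150) (nat_lit 92) (nat_lit 148)))))) (PT.nd (nat_lit 81276) (PT.nd (nat_lit 40638) (PT.nd (nat_lit 78) (PT.lf (nat_lit 608) (nat_lit 6) (nat_lit 8) (nat_lit 3) (nat_lit 148) (nat_lit 93) (nat_lit 149)) (PT.nd (nat_lit 40482) (PT.lf (nat_lit 608) (nat_lit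 6) (nat_lit 8) (nat_lit 1) (nat_lit 149) (nat_lit 93) (nat_lit 148)) (PT.lf (nat_lit 684) (nat_lit 6) (nat_lit 9) (nat_lit 3) (nat_lit 147) (nat_lit 94) (nat_lit 149)))) (PT.nd (nat_lit 78) (PT.lf (nat_lit 760) (nat_lit 3) (nat_lit 10) (nat_lit 1) (nat_lit 148) (nat_lit 94) (nat_lit 148)) (PT.nd (nat_lit 40482) (PT.lf (nat_lit 684) (nat_lit 6) (nat_lit 9) (nat_lit 1) (nat_lit 149) (nat_lit 94) (nat_lit 147)) (PT.lf (nat_lit 836) (nat_lit 6) (nat_lit 11) (nat_lit 3) (nat_lit 147) (nat_lit 95) (nat_lit 148))))) (PT.nd (nat_lit 40638) (PT.nd (nat_lit 40482) (PT.lf (nat_lit 836) (nat_lit 6) (nat_lit 11) (nat_lit 1) (nat_lit 148) (nat_lit 95) (nat_lit 147)) (PT.nd (nat_lit 78) (PT.lf (nat_lit 912) (nat_lit 6) (nat_lit 12) (nat_lit 3) (nat_lit 146) (nat_lit 96) (nat_lit 148)) (PT.lf (nat_lit 988) (nat_lit 3) (nat_lit 13) (nat_lit 1) (nat_lit 147) (nat_lit 96) (nat_lit 147)))) (PT.nd (nat_lit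 40482) (PT.lf (nat_lit 912) (nat_lit 6) (nat_lit 12) (nat_lit 1) (nat_lit 148) (nat_lit 96) (nat_lit 146)) (PT.nd (nat_lit 78) (PT.lf (nat_lit 1064) (nat_lit 6) (nat_lit 14) (nat_lit 3) (nat_lit 146) (nat_lit 97) (nat_lit 147)) (PT.lf (nat_lit 1064) (nat_lit 6) (nat_lit 14) (nat_lit 1) (nat_lit 147) (nat_lit 97) (nat_lit 146))))))) (PT.nd (nat_lit 121914) (PT.nd (nat_lit 40794) (PT.nd (nat_lit 40560) (PT.nd (nat_lit 78) (PT.lf (nat_lit 1140) (nat_lit 6) (nat_lit 15) (nat_lit 3) (nat_lit 145) (nat_lit 98) (nat_lit 147)) (PT.nd (nat_lit 78) (PT.lf (nat_lit 1216) (nat_lit 3) (nat_lit 16) (nat_lit 1) (nat_lit 146) (nat_lit 98) (nat_lit 146)) (PT.lf (nat_lit 1140) (nat_lit 6) (nat_lit 15) (nat_lit 1) (nat_lit 147) (nat_lit 98) (nat_lit 145)))) (PT.nd (nat_lit 78) (PT.lf (nat_lit 1292) (nat_lit 6) (nat_lit 17) (nat_lit 3) (nat_lit 144) (nat_lit 99) (nat_lit 147)) (PT.nd (nat_lit 78) (PT.lf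 (nat_lit 1368) (nat_lit 6) (nat_lit 18) (nat_lit 3) (nat_lit 145) (nat_lit 99) (nat_lit 146)) (PT.lf (nat_lit 1368) (nat_lit 6) (nat_lit 18) (nat_lit 1) (nat_lit 146) (nat_lit 99) (nat_lit 145))))) (PT.nd (nat_lit 40560) (PT.nd (nat_lit 40404) (PT.lf (nat_lit 1292) (nat_lit 6) (nat_lit 17) (nat_lit 1) (nat_lit 147) (nat_lit 99) (nat_lit 144)) (PT.nd (nat_lit 78) (PT.lf (nat_lit 1444) (nat_lit 6) (nat_lit 19) (nat_lit 3) (nat_lit 144) (nat_lit 100) (nat_lit 146)) (PT.lf (nat_lit 1520) (nat_lit 3) (nat_lit 20) (nat_lit 1) (nat_lit 145) (nat_lit 100) (nat_lit 145)))) (PT.nd (nat_lit 40404) (PT.lf (nat_lit 1444) (nat_lit 6) (nat_lit 19) (nat_lit 1) (nat_lit 146) (nat_lit 100) (nat_lit 144)) (PT.nd (nat_lit 78) (PT.lf (nat_lit 1596) (nat_lit 6) (nat_lit 21) (nat_lit 3) (nat_lit 143) (nat_lit 101) (nat_lit 146)) (PT.lf (nat_lit 1672) (nat_lit 6) (nat_lit 22) (nat_lit 3) (nat_lit 144) (nat_lit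 101) (nat_lit 145)))))) (PT.nd (nat_lit 81120) (PT.nd (nat_lit 40560) (PT.nd (nat_lit 78) (PT.lf (nat_lit 1672) (nat_lit 6) (nat_lit 22) (nat_lit 1) (nat_lit 145) (nat_lit 101) (nat_lit 144)) (PT.nd (nat_lit 40404) (PT.lf (nat_lit 1596) (nat_lit 6) (nat_lit 21) (nat_lit 1) (nat_lit 146) (nat_lit 101) (nat_lit 143)) (PT.lf (nat_lit 1748) (nat_lit 6) (nat_lit 23) (nat_lit 3) (nat_lit 143) (nat_lit 102) (nat_lit 145)))) (PT.nd (nat_lit 78) (PT.lf (nat_lit 1824) (nat_lit 3) (nat_lit 24) (nat_lit 1) (nat_lit 144) (nat_lit 102) (nat_lit 144)) (PT.nd (nat_lit 40404) (PT.lf (nat_lit 1748) (nat_lit 6) (nat_lit 23) (nat_lit 1) (nat_lit 145) (nat_lit 102) (nat_lit 143)) (PT.lf (nat_lit 1900) (nat_lit 6) (nat_lit 25) (nat_lit 3) (nat_lit 142) (nat_lit 103) (nat_lit 145))))) (PT.nd (nat_lit 40560) (PT.nd (nat_lit 78) (PT.lf (nat_lit 1976) (nat_lit 6) (nat_lit 26) (nat_lit 3) (nat_lit 143) (nat_lit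 103) (nat_lit 144)) (PT.nd (nat_lit 78) (PT.lf (nat_lit 1976) (nat_lit 6) (nat_lit 26) (nat_lit 1) (nat_lit 144) (nat_lit 103) (nat_lit 143)) (PT.lf (nat_lit 1900) (nat_lit 6) (nat_lit 25) (nat_lit 1) (nat_lit 145) (nat_lit 103) (nat_lit 142)))) (PT.nd (nat_lit 78) (PT.lf (nat_lit 2052) (nat_lit 6) (nat_lit 27) (nat_lit 3) (nat_lit 142) (nat_lit 104) (nat_lit 144)) (PT.nd (nat_lit 78) (PT.lf (nat_lit 2128) (nat_lit 3) (nat_lit 28) (nat_lit 1) (nat_lit 143) (nat_lit 104) (nat_lit 143)) (PT.lf (nat_lit 2052) (nat_lit 6) (nat_lit 27) (nat_lit 1) (nat_lit 144) (nat_lit 104) (nat_lit 142))))))))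
noncomputable def pc1 : PT := (PT.nd (nat_lit 162708) (PT.nd (nat_lit 81354) (PT.nd (nat_lit 40638) (PT.nd (nat_lit 156) (PT.nd (nat_lit 78) (PT.lf (nat_lit 2204) (nat_lit 6) (nat_lit 29) (nat_lit 3) (nat_lit 141) (nat_lit 105) (nat_lit 144)) (PT.lf (nat_lit 2280) (nat_lit 6) (nat_lit 30) (nat_lit 3) (nat_lit 142) (nat_lit 105) (nat_lit 143))) (PT.nd (nat_lit 78) (PT.lf (nat_lit 2280) (nat_lit 6) (nat_lit 30) (nat_lit 1) (nat_lit 143) (nat_lit 105) (nat_lit 142)) (PT.nd (nat_lit 40326) (PT.lf (nat_lit 2204) (nat_lit 6) (nat_lit 29) (nat_lit 1) (nat_lit 144) (nat_lit 105) (nat_lit 141)) (PT.lf (nat_lit 2356) (nat_lit 6) (nat_lit 31) (nat_lit 3) (nat_lit 140) (nat_lit 106) (nat_lit 144))))) (PT.nd (nat_lit 234) (PT.nd (nat_lit 78) (PT.lf (nat_lit 2432) (nat_lit 6) (nat_lit 32) (nat_lit 3) (nat_lit 141) (nat_lit 106) (nat_lit 143)) (PT.nd (nat_lit 78) (PT.lf (nat_lit 2508) (nat_lit 3) (nat_lit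 33) (nat_lit 1) (nat_lit 142) (nat_lit 106) (nat_lit 142)) (PT.lf (nat_lit 2432) (nat_lit 6) (nat_lit 32) (nat_lit 1) (nat_lit 143) (nat_lit 106) (nat_lit 141)))) (PT.nd (nat_lit 40326) (PT.lf (nat_lit 2356) (nat_lit 6) (nat_lit 31) (nat_lit 1) (nat_lit 144) (nat_lit 106) (nat_lit 140)) (PT.nd (nat_lit 78) (PT.lf (nat_lit 2584) (nat_lit 6) (nat_lit 34) (nat_lit 3) (nat_lit 140) (nat_lit 107) (nat_lit 143)) (PT.lf (nat_lit 2660) (nat_lit 6) (nat_lit 35) (nat_lit 3) (nat_lit 141) (nat_lit 107) (nat_lit 142)))))) (PT.nd (nat_lit 40716) (PT.nd (nat_lit 40482) (PT.nd (nat_lit 78) (PT.lf (nat_lit 2660) (nat_lit 6) (nat_lit 35) (nat_lit 1) (nat_lit 142) (nat_lit 107) (nat_lit 141)) (PT.nd (nat_lit 40326) (PT.lf (nat_lit 2584) (nat_lit 6) (nat_lit 34) (nat_lit 1) (nat_lit 143) (nat_lit 107) (nat_lit 140)) (PT.lf (nat_lit 2736) (nat_lit 6) (nat_lit 36) (nat_lit 3) (nat_lit 139) (nat_lit 108)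 (nat_lit 143)))) (PT.nd (nat_lit 78) (PT.lf (nat_lit 2812) (nat_lit 6) (nat_lit 37) (nat_lit 3) (nat_lit 140) (nat_lit 108) (nat_lit 142)) (PT.nd (nat_lit 78) (PT.lf (nat_lit 2888) (nat_lit 3) (nat_lit 38) (nat_lit 1) (nat_lit 141) (nat_lit 108) (nat_lit 141)) (PT.lf (nat_lit 2812) (nat_lit 6) (nat_lit 37) (nat_lit 1) (nat_lit 142) (nat_lit 108) (nat_lit 140))))) (PT.nd (nat_lit 40404) (PT.nd (nat_lit 40248) (PT.lf (nat_lit 2736) (nat_lit 6) (nat_lit 36) (nat_lit 1) (nat_lit 143) (nat_lit 108) (nat_lit 139)) (PT.nd (nat_lit 78) (PT.lf (nat_lit 2964) (nat_lit 6) (nat_lit 39) (nat_lit 3) (nat_lit 138) (nat_lit 109) (nat_lit 143)) (PT.lf (nat_lit 3040) (nat_lit 6) (nat_lit 40) (nat_lit 3) (nat_lit 139) (nat_lit 109) (nat_lit 142)))) (PT.nd (nat_lit 78) (PT.lf (nat_lit 3116) (nat_lit 6) (nat_lit 41) (nat_lit 3) (nat_lit 140) (nat_lit 109) (nat_lit 141)) (PT.nd (nat_lit 78) (PT.lf (nat_lit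 3116) (nat_lit 6) (nat_lit 41) (nat_lit 1) (nat_lit 141) (nat_lit 109) (nat_lit 140)) (PT.lf (nat_lit 3040) (nat_lit 6) (nat_lit 40) (nat_lit 1) (nat_lit 142) (nat_lit 109) (nat_lit 139))))))) (PT.nd (nat_lit 121368) (PT.nd (nat_lit 80808) (PT.nd (nat_lit 40404) (PT.nd (nat_lit 40248) (PT.lf (nat_lit 2964) (nat_lit 6) (nat_lit 39) (nat_lit 1) (nat_lit 143) (nat_lit 109) (nat_lit 138)) (PT.nd (nat_lit 78) (PT.lf (nat_lit 3192) (nat_lit 6) (nat_lit 42) (nat_lit 3) (nat_lit 138) (nat_lit 110) (nat_lit 142)) (PT.lf (nat_lit 3268) (nat_lit 6) (nat_lit 43) (nat_lit 3) (nat_lit 139) (nat_lit 110) (nat_lit 141)))) (PT.nd (nat_lit 78) (PT.lf (nat_lit 3344) (nat_lit 3) (nat_lit 44) (nat_lit 1) (nat_lit 140) (nat_lit 110) (nat_lit 140)) (PT.nd (nat_lit 78) (PT.lf (nat_lit 3268) (nat_lit 6) (nat_lit 43) (nat_lit 1) (nat_lit 141) (nat_lit 110) (nat_lit 139)) (PT.lf (nat_lit 3192) (nat_lit 6) (nat_lit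 42) (nat_lit 1) (nat_lit 142) (nat_lit 110) (nat_lit 138))))) (PT.nd (nat_lit 234) (PT.nd (nat_lit 78) (PT.lf (nat_lit 3420) (nat_lit 6) (nat_lit 45) (nat_lit 3) (nat_lit 137) (nat_lit 111) (nat_lit 142)) (PT.nd (nat_lit 78) (PT.lf (nat_lit 3496) (nat_lit 6) (nat_lit 46) (nat_lit 3) (nat_lit 138) (nat_lit 111) (nat_lit 141)) (PT.lf (nat_lit 3572) (nat_lit 6) (nat_lit 47) (nat_lit 3) (nat_lit 139) (nat_lit 111) (nat_lit 140)))) (PT.nd (nat_lit 78) (PT.lf (nat_lit 3572) (nat_lit 6) (nat_lit 47) (nat_lit 1) (nat_lit 140) (nat_lit 111) (nat_lit 139)) (PT.nd (nat_lit 78) (PT.lf (nat_lit 3496) (nat_lit 6) (nat_lit 46) (nat_lit 1) (nat_lit 141) (nat_lit 111) (nat_lit 138)) (PT.lf (nat_lit 3420) (nat_lit 6) (nat_lit 45) (nat_lit 1) (nat_lit 142) (nat_lit 111) (nat_lit 137)))))) (PT.nd (nat_lit 468) (PT.nd (nat_lit 234) (PT.nd (nat_lit 78) (PT.lf (nat_lit 3648) (nat_lit 6) (nat_lit 48) (nat_lit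 3) (nat_lit 136) (nat_lit 112) (nat_lit 142)) (PT.nd (nat_lit 78) (PT.lf (nat_lit 3724) (nat_lit 6) (nat_lit 49) (nat_lit 3) (nat_lit 137) (nat_lit 112) (nat_lit 141)) (PT.lf (nat_lit 3800) (nat_lit 6) (nat_lit 50) (nat_lit 3) (nat_lit 138) (nat_lit 112) (nat_lit 140)))) (PT.nd (nat_lit 78) (PT.lf (nat_lit 3876) (nat_lit 3) (nat_lit 51) (nat_lit 1) (nat_lit 139) (nat_lit 112) (nat_lit 139)) (PT.nd (nat_lit 78) (PT.lf (nat_lit 3800) (nat_lit 6) (nat_lit 50) (nat_lit 1) (nat_lit 140) (nat_lit 112) (nat_lit 138)) (PT.lf (nat_lit 3724) (nat_lit 6) (nat_lit 49) (nat_lit 1) (nat_lit 141) (nat_lit 112) (nat_lit 137))))) (PT.nd (nat_lit 40326) (PT.nd (nat_lit 40170) (PT.lf (nat_lit 3648) (nat_lit 6) (nat_lit 48) (nat_lit 1) (nat_lit 142) (nat_lit 112) (nat_lit 136)) (PT.nd (nat_lit 78) (PT.lf (nat_lit 3952) (nat_lit 6) (nat_lit 52) (nat_lit 3) (nat_lit 136) (nat_lit 113) (nat_lit 141)) (PT.lf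 (nat_lit 4028) (nat_lit 6) (nat_lit 53) (nat_lit 3) (nat_lit 137) (nat_lit 113) (nat_lit 140)))) (PT.nd (nat_lit 78) (PT.lf (nat_lit 4104) (nat_lit 6) (nat_lit 54) (nat_lit 3) (nat_lit 138) (nat_lit 113) (nat_lit 139)) (PT.nd (nat_lit 78) (PT.lf (nat_lit 4104) (nat_lit 6) (nat_lit 54) (nat_lit 1) (nat_lit 139) (nat_lit 113) (nat_lit 138)) (PT.lf (nat_lit 4028) (nat_lit 6) (nat_lit 53) (nat_lit 1) (nat_lit 140) (nat_lit 113) (nat_lit 137))))))))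
noncomputable def pc2 : PT := (PT.nd (nat_lit 121836) (PT.nd (nat_lit 80964) (PT.nd (nat_lit 40482) (PT.nd (nat_lit 40248) (PT.nd (nat_lit 40170) (PT.lf (nat_lit 3952) (nat_lit 6) (nat_lit 52) (nat_lit 1) (nat_lit 141) (nat_lit 113) (nat_lit 136)) (PT.lf (nat_lit 4180) (nat_lit 6) (nat_lit 55) (nat_lit 3) (nat_lit 135) (nat_lit 114) (nat_lit 141))) (PT.nd (nat_lit 78) (PT.lf (nat_lit 4256) (nat_lit 6) (nat_lit 56) (nat_lit 3) (nat_lit 136) (nat_lit 114) (nat_lit 140)) (PT.nd (nat_lit 78) (PT.lf (nat_lit 4332) (nat_lit 6) (nat_lit 57) (nat_lit 3) (nat_lit 137) (nat_lit 114) (nat_lit 139)) (PT.lf (nat_lit 4408) (nat_lit 3) (nat_lit 58) (nat_lit 1) (nat_lit 138) (nat_lit 114) (nat_lit 138))))) (PT.nd (nat_lit 40248) (PT.nd (nat_lit 78) (PT.lf (nat_lit 4332) (nat_lit 6) (nat_lit 57) (nat_lit 1) (nat_lit 139) (nat_lit 114) (nat_lit 137)) (PT.nd (nat_lit 78) (PT.lf (nat_lit 4256) (nat_lit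 6) (nat_lit 56) (nat_lit 1) (nat_lit 140) (nat_lit 114) (nat_lit 136)) (PT.lf (nat_lit 4180) (nat_lit 6) (nat_lit 55) (nat_lit 1) (nat_lit 141) (nat_lit 114) (nat_lit 135)))) (PT.nd (nat_lit 78) (PT.lf (nat_lit 4484) (nat_lit 6) (nat_lit 59) (nat_lit 3) (nat_lit 134) (nat_lit 115) (nat_lit 141)) (PT.nd (nat_lit 78) (PT.lf (nat_lit 4560) (nat_lit 6) (nat_lit 60) (nat_lit 3) (nat_lit 135) (nat_lit 115) (nat_lit 140)) (PT.lf (nat_lit 4636) (nat_lit 6) (nat_lit 61) (nat_lit 3) (nat_lit 136) (nat_lit 115) (nat_lit 139)))))) (PT.nd (nat_lit 40404) (PT.nd (nat_lit 234) (PT.nd (nat_lit 78) (PT.lf (nat_lit 4712) (nat_lit 6) (nat_lit 62) (nat_lit 3) (nat_lit 137) (nat_lit 115) (nat_lit 138)) (PT.nd (nat_lit 78) (PT.lf (nat_lit 4712) (nat_lit 6) (nat_lit 62) (nat_lit 1) (nat_lit 138) (nat_lit 115) (nat_lit 137)) (PT.lf (nat_lit 4636) (nat_lit 6) (nat_lit 61) (nat_lit 1) (nat_lit 139) (nat_lit 115)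 (nat_lit 136)))) (PT.nd (nat_lit 78) (PT.lf (nat_lit 4560) (nat_lit 6) (nat_lit 60) (nat_lit 1) (nat_lit 140) (nat_lit 115) (nat_lit 135)) (PT.nd (nat_lit 40014) (PT.lf (nat_lit 4484) (nat_lit 6) (nat_lit 59) (nat_lit 1) (nat_lit 141) (nat_lit 115) (nat_lit 134)) (PT.lf (nat_lit 4788) (nat_lit 6) (nat_lit 63) (nat_lit 3) (nat_lit 133) (nat_lit 116) (nat_lit 141))))) (PT.nd (nat_lit 234) (PT.nd (nat_lit 78) (PT.lf (nat_lit 4864) (nat_lit 6) (nat_lit 64) (nat_lit 3) (nat_lit 134) (nat_lit 116) (nat_lit 140)) (PT.nd (nat_lit 78) (PT.lf (nat_lit 4940) (nat_lit 6) (nat_lit 65) (nat_lit 3) (nat_lit 135) (nat_lit 116) (nat_lit 139)) (PT.lf (nat_lit 5016) (nat_lit 6) (nat_lit 66) (nat_lit 3) (nat_lit 136) (nat_lit 116) (nat_lit 138)))) (PT.nd (nat_lit 78) (PT.lf (nat_lit 5092) (nat_lit 3) (nat_lit 67) (nat_lit 1) (nat_lit 137) (nat_lit 116) (nat_lit 137)) (PT.nd (nat_lit 78) (PT.lf (nat_lit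 5016) (nat_lit 6) (nat_lit 66) (nat_lit 1) (nat_lit 138) (nat_lit 116) (nat_lit 136)) (PT.lf (nat_lit 4940) (nat_lit 6) (nat_lit 65) (nat_lit 1) (nat_lit 139) (nat_lit 116) (nat_lit 135))))))) (PT.nd (nat_lit 80808) (PT.nd (nat_lit 40404) (PT.nd (nat_lit 40170) (PT.nd (nat_lit 78) (PT.lf (nat_lit 4864) (nat_lit 6) (nat_lit 64) (nat_lit 1) (nat_lit 140) (nat_lit 116) (nat_lit 134)) (PT.nd (nat_lit 40014) (PT.lf (nat_lit 4788) (nat_lit 6) (nat_lit 63) (nat_lit 1) (nat_lit 141) (nat_lit 116) (nat_lit 133)) (PT.lf (nat_lit 5168) (nat_lit 6) (nat_lit 68) (nat_lit 3) (nat_lit 133) (nat_lit 117) (nat_lit 140)))) (PT.nd (nat_lit 78) (PT.lf (nat_lit 5244) (nat_lit 6) (nat_lit 69) (nat_lit 3) (nat_lit 134) (nat_lit 117) (nat_lit 139)) (PT.nd (nat_lit 78) (PT.lf (nat_lit 5320) (nat_lit 6) (nat_lit 70) (nat_lit 3) (nat_lit 135) (nat_lit 117) (nat_lit 138)) (PT.lf (nat_lit 5396) (nat_lit 6) (nat_lit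 71) (nat_lit 3) (nat_lit 136) (nat_lit 117) (nat_lit 137))))) (PT.nd (nat_lit 234) (PT.nd (nat_lit 78) (PT.lf (nat_lit 5396) (nat_lit 6) (nat_lit 71) (nat_lit 1) (nat_lit 137) (nat_lit 117) (nat_lit 136)) (PT.nd (nat_lit 78) (PT.lf (nat_lit 5320) (nat_lit 6) (nat_lit 70) (nat_lit 1) (nat_lit 138) (nat_lit 117) (nat_lit 135)) (PT.lf (nat_lit 5244) (nat_lit 6) (nat_lit 69) (nat_lit 1) (nat_lit 139) (nat_lit 117) (nat_lit 134)))) (PT.nd (nat_lit 40014) (PT.lf (nat_lit 5168) (nat_lit 6) (nat_lit 68) (nat_lit 1) (nat_lit 140) (nat_lit 117) (nat_lit 133)) (PT.nd (nat_lit 78) (PT.lf (nat_lit 5472) (nat_lit 6) (nat_lit 72) (nat_lit 3) (nat_lit 132) (nat_lit 118) (nat_lit 140)) (PT.lf (nat_lit 5548) (nat_lit 6) (nat_lit 73) (nat_lit 3) (nat_lit 133) (nat_lit 118) (nat_lit 139)))))) (PT.nd (nat_lit 468) (PT.nd (nat_lit 234) (PT.nd (nat_lit 78) (PT.lf (nat_lit 5624) (nat_lit 6) (nat_lit 74) (nat_lit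 3) (nat_lit 134) (nat_lit 118) (nat_lit 138)) (PT.nd (nat_lit 78) (PT.lf (nat_lit 5700) (nat_lit 6) (nat_lit 75) (nat_lit 3) (nat_lit 135) (nat_lit 118) (nat_lit 137)) (PT.lf (nat_lit 5776) (nat_lit 3) (nat_lit 76) (nat_lit 1) (nat_lit 136) (nat_lit 118) (nat_lit 136)))) (PT.nd (nat_lit 78) (PT.lf (nat_lit 5700) (nat_lit 6) (nat_lit 75) (nat_lit 1) (nat_lit 137) (nat_lit 118) (nat_lit 135)) (PT.nd (nat_lit 78) (PT.lf (nat_lit 5624) (nat_lit 6) (nat_lit 74) (nat_lit 1) (nat_lit 138) (nat_lit 118) (nat_lit 134)) (PT.lf (nat_lit 5548) (nat_lit 6) (nat_lit 73) (nat_lit 1) (nat_lit 139) (nat_lit 118) (nat_lit 133))))) (PT.nd (nat_lit 40092) (PT.nd (nat_lit 39936) (PT.lf (nat_lit 5472) (nat_lit 6) (nat_lit 72) (nat_lit 1) (nat_lit 140) (nat_lit 118) (nat_lit 132)) (PT.nd (nat_lit 78) (PT.lf (nat_lit 5852) (nat_lit 6) (nat_lit 77) (nat_lit 3) (nat_lit 131) (nat_lit 119) (nat_lit 140)) (PT.lf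 (nat_lit 5928) (nat_lit 6) (nat_lit 78) (nat_lit 3) (nat_lit 132) (nat_lit 119) (nat_lit 139)))) (PT.nd (nat_lit 78) (PT.lf (nat_lit 6004) (nat_lit 6) (nat_lit 79) (nat_lit 3) (nat_lit 133) (nat_lit 119) (nat_lit 138)) (PT.nd (nat_lit 78) (PT.lf (nat_lit 6080) (nat_lit 6) (nat_lit 80) (nat_lit 3) (nat_lit 134) (nat_lit 119) (nat_lit 137)) (PT.lf (nat_lit 6156) (nat_lit 6) (nat_lit 81) (nat_lit 3) (nat_lit 135) (nat_lit 119) (nat_lit 136))))))))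
noncomputable def pc3 : PT := (PT.nd (nat_lit 81276) (PT.nd (nat_lit 40638) (PT.nd (nat_lit 40170) (PT.nd (nat_lit 156) (PT.nd (nat_lit 78) (PT.lf (nat_lit 6156) (nat_lit 6) (nat_lit 81) (nat_lit 1) (nat_lit 136) (nat_lit 119) (nat_lit 135)) (PT.lf (nat_lit 6080) (nat_lit 6) (nat_lit 80) (nat_lit 1) (nat_lit 137) (nat_lit 119) (nat_lit 134))) (PT.nd (nat_lit 78) (PT.lf (nat_lit 6004) (nat_lit 6) (nat_lit 79) (nat_lit 1) (nat_lit 138) (nat_lit 119) (nat_lit 133)) (PT.nd (nat_lit 78) (PT.lf (nat_lit 5928) (nat_lit 6) (nat_lit 78) (nat_lit 1) (nat_lit 139) (nat_lit 119) (nat_lit 132)) (PT.lf (nat_lit 5852) (nat_lit 6) (nat_lit 77) (nat_lit 1) (nat_lit 140) (nat_lit 119) (nat_lit 131))))) (PT.nd (nat_lit 234) (PT.nd (nat_lit 78) (PT.lf (nat_lit 6384) (nat_lit 6) (nat_lit 84) (nat_lit 3) (nat_lit 130) (nat_lit 120) (nat_lit 140)) (PT.nd (nat_lit 78) (PT.lf (nat_lit 6460) (nat_lit 6) (nat_lit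 85) (nat_lit 3) (nat_lit 131) (nat_lit 120) (nat_lit 139)) (PT.lf (nat_lit 6536) (nat_lit 6) (nat_lit 86) (nat_lit 3) (nat_lit 132) (nat_lit 120) (nat_lit 138)))) (PT.nd (nat_lit 78) (PT.lf (nat_lit 6612) (nat_lit 6) (nat_lit 87) (nat_lit 3) (nat_lit 133) (nat_lit 120) (nat_lit 137)) (PT.nd (nat_lit 78) (PT.lf (nat_lit 6688) (nat_lit 6) (nat_lit 88) (nat_lit 3) (nat_lit 134) (nat_lit 120) (nat_lit 136)) (PT.lf (nat_lit 6764) (nat_lit 3) (nat_lit 89) (nat_lit 1) (nat_lit 135) (nat_lit 120) (nat_lit 135)))))) (PT.nd (nat_lit 40170) (PT.nd (nat_lit 234) (PT.nd (nat_lit 78) (PT.lf (nat_lit 6688) (nat_lit 6) (nat_lit 88) (nat_lit 1) (nat_lit 136) (nat_lit 120) (nat_lit 134)) (PT.nd (nat_lit 78) (PT.lf (nat_lit 6612) (nat_lit 6) (nat_lit 87) (nat_lit 1) (nat_lit 137) (nat_lit 120) (nat_lit 133)) (PT.lf (nat_lit 6536) (nat_lit 6) (nat_lit 86) (nat_lit 1) (nat_lit 138) (nat_lit 120) (nat_lit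 132)))) (PT.nd (nat_lit 78) (PT.lf (nat_lit 6460) (nat_lit 6) (nat_lit 85) (nat_lit 1) (nat_lit 139) (nat_lit 120) (nat_lit 131)) (PT.nd (nat_lit 39780) (PT.lf (nat_lit 6384) (nat_lit 6) (nat_lit 84) (nat_lit 1) (nat_lit 140) (nat_lit 120) (nat_lit 130)) (PT.lf (nat_lit 6308) (nat_lit 6) (nat_lit 83) (nat_lit 3) (nat_lit 129) (nat_lit 121) (nat_lit 140))))) (PT.nd (nat_lit 234) (PT.nd (nat_lit 78) (PT.lf (nat_lit 7144) (nat_lit 6) (nat_lit 94) (nat_lit 3) (nat_lit 130) (nat_lit 121) (nat_lit 139)) (PT.nd (nat_lit 78) (PT.lf (nat_lit 7220) (nat_lit 6) (nat_lit 95) (nat_lit 3) (nat_lit 131) (nat_lit 121) (nat_lit 138)) (PT.lf (nat_lit 7296) (nat_lit 6) (nat_lit 96) (nat_lit 3) (nat_lit 132) (nat_lit 121) (nat_lit 137)))) (PT.nd (nat_lit 78) (PT.lf (nat_lit 7372) (nat_lit 6) (nat_lit 97) (nat_lit 3) (nat_lit 133) (nat_lit 121) (nat_lit 136)) (PT.nd (nat_lit 78) (PT.lf (nat_lit 7448) (nat_lit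 6) (nat_lit 98) (nat_lit 3) (nat_lit 134) (nat_lit 121) (nat_lit 135)) (PT.lf (nat_lit 7448) (nat_lit 6) (nat_lit 98) (nat_lit 1) (nat_lit 135) (nat_lit 121) (nat_lit 134))))))) (PT.nd (nat_lit 40560) (PT.nd (nat_lit 40092) (PT.nd (nat_lit 234) (PT.nd (nat_lit 78) (PT.lf (nat_lit 7372) (nat_lit 6) (nat_lit 97) (nat_lit 1) (nat_lit 136) (nat_lit 121) (nat_lit 133)) (PT.nd (nat_lit 78) (PT.lf (nat_lit 7296) (nat_lit 6) (nat_lit 96) (nat_lit 1) (nat_lit 137) (nat_lit 121) (nat_lit 132)) (PT.lf (nat_lit 7220) (nat_lit 6) (nat_lit 95) (nat_lit 1) (nat_lit 138) (nat_lit 121) (nat_lit 131)))) (PT.nd (nat_lit 78) (PT.lf (nat_lit 7144) (nat_lit 6) (nat_lit 94) (nat_lit 1) (nat_lit 139) (nat_lit 121) (nat_lit 130)) (PT.nd (nat_lit 39702) (PT.lf (nat_lit 6308) (nat_lit 6) (nat_lit 83) (nat_lit 1) (nat_lit 140) (nat_lit 121) (nat_lit 129)) (PT.lf (nat_lit 6232) (nat_lit 6) (nat_lit 82) (nat_lit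 3) (nat_lit 128) (nat_lit 122) (nat_lit 140))))) (PT.nd (nat_lit 234) (PT.nd (nat_lit 78) (PT.lf (nat_lit 7068) (nat_lit 6) (nat_lit 93) (nat_lit 3) (nat_lit 129) (nat_lit 122) (nat_lit 139)) (PT.nd (nat_lit 78) (PT.lf (nat_lit 7828) (nat_lit 6) (nat_lit 103) (nat_lit 3) (nat_lit 130) (nat_lit 122) (nat_lit 138)) (PT.lf (nat_lit 7904) (nat_lit 6) (nat_lit 104) (nat_lit 3) (nat_lit 131) (nat_lit 122) (nat_lit 137)))) (PT.nd (nat_lit 78) (PT.lf (nat_lit 7980) (nat_lit 6) (nat_lit 105) (nat_lit 3) (nat_lit 132) (nat_lit 122) (nat_lit 136)) (PT.nd (nat_lit 78) (PT.lf (nat_lit 8056) (nat_lit 6) (nat_lit 106) (nat_lit 3) (nat_lit 133) (nat_lit 122) (nat_lit 135)) (PT.lf (nat_lit 8132) (nat_lit 3) (nat_lit 107) (nat_lit 1) (nat_lit 134) (nat_lit 122) (nat_lit 134)))))) (PT.nd (nat_lit 40092) (PT.nd (nat_lit 234) (PT.nd (nat_lit 78) (PT.lf (nat_lit 8056) (nat_lit 6) (nat_lit 106) (nat_lit 1)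 (nat_lit 135) (nat_lit 122) (nat_lit 133)) (PT.nd (nat_lit 78) (PT.lf (nat_lit 7980) (nat_lit 6) (nat_lit 105) (nat_lit 1) (nat_lit 136) (nat_lit 122) (nat_lit 132)) (PT.lf (nat_lit 7904) (nat_lit 6) (nat_lit 104) (nat_lit 1) (nat_lit 137) (nat_lit 122) (nat_lit 131)))) (PT.nd (nat_lit 78) (PT.lf (nat_lit 7828) (nat_lit 6) (nat_lit 103) (nat_lit 1) (nat_lit 138) (nat_lit 122) (nat_lit 130)) (PT.nd (nat_lit 78) (PT.lf (nat_lit 7068) (nat_lit 6) (nat_lit 93) (nat_lit 1) (nat_lit 139) (nat_lit 122) (nat_lit 129)) (PT.lf (nat_lit 6232) (nat_lit 6) (nat_lit 82) (nat_lit 1) (nat_lit 140) (nat_lit 122) (nat_lit 128))))) (PT.nd (nat_lit 234) (PT.nd (nat_lit 78) (PT.lf (nat_lit 6992) (nat_lit 6) (nat_lit 92) (nat_lit 3) (nat_lit 128) (nat_lit 123) (nat_lit 139)) (PT.nd (nat_lit 78) (PT.lf (nat_lit 7752) (nat_lit 6) (nat_lit 102) (nat_lit 3) (nat_lit 129) (nat_lit 123) (nat_lit 138)) (PT.lf (nat_lit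 8436) (nat_lit 6) (nat_lit 111) (nat_lit 3) (nat_lit 130) (nat_lit 123) (nat_lit 137)))) (PT.nd (nat_lit 78) (PT.lf (nat_lit 8512) (nat_lit 6) (nat_lit 112) (nat_lit 3) (nat_lit 131) (nat_lit 123) (nat_lit 136)) (PT.nd (nat_lit 78) (PT.lf (nat_lit 8588) (nat_lit 6) (nat_lit 113) (nat_lit 3) (nat_lit 132) (nat_lit 123) (nat_lit 135)) (PT.lf (nat_lit 8664) (nat_lit 6) (nat_lit 114) (nat_lit 3) (nat_lit 133) (nat_lit 123) (nat_lit 134))))))))
noncomputable def pc4 : PT := (PT.nd (nat_lit 80964) (PT.nd (nat_lit 40482) (PT.nd (nat_lit 390) (PT.nd (nat_lit 156) (PT.nd (nat_lit 78) (PT.lf (nat_lit 8664) (nat_lit 6) (nat_lit 114) (nat_lit 1) (nat_lit 134) (nat_lit 123) (nat_lit 133)) (PT.lf (nat_lit 8588) (nat_lit 6) (nat_lit 113) (nat_lit 1) (nat_lit 135) (nat_lit 123) (nat_lit 132))) (PT.nd (nat_lit 78) (PT.lf (nat_lit 8512) (nat_lit 6) (nat_lit 112) (nat_lit 1) (nat_lit 136) (nat_lit 123)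 (nat_lit 131)) (PT.nd (nat_lit 78) (PT.lf (nat_lit 8436) (nat_lit 6) (nat_lit 111) (nat_lit 1) (nat_lit 137) (nat_lit 123) (nat_lit 130)) (PT.lf (nat_lit 7752) (nat_lit 6) (nat_lit 102) (nat_lit 1) (nat_lit 138) (nat_lit 123) (nat_lit 129))))) (PT.nd (nat_lit 39858) (PT.nd (nat_lit 39702) (PT.lf (nat_lit 6992) (nat_lit 6) (nat_lit 92) (nat_lit 1) (nat_lit 139) (nat_lit 123) (nat_lit 128)) (PT.nd (nat_lit 78) (PT.lf (nat_lit 6916) (nat_lit 6) (nat_lit 91) (nat_lit 3) (nat_lit 127) (nat_lit 124) (nat_lit 139)) (PT.lf (nat_lit 7676) (nat_lit 6) (nat_lit 101) (nat_lit 3) (nat_lit 128) (nat_lit 124) (nat_lit 138)))) (PT.nd (nat_lit 78) (PT.lf (nat_lit 8360) (nat_lit 6) (nat_lit 110) (nat_lit 3) (nat_lit 129) (nat_lit 124) (nat_lit 137)) (PT.nd (nat_lit 78) (PT.lf (nat_lit 8968) (nat_lit 6) (nat_lit 118) (nat_lit 3) (nat_lit 130) (nat_lit 124) (nat_lit 136)) (PT.lf (nat_lit 9044) (nat_lit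 6) (nat_lit 119) (nat_lit 3) (nat_lit 131) (nat_lit 124) (nat_lit 135)))))) (PT.nd (nat_lit 468) (PT.nd (nat_lit 234) (PT.nd (nat_lit 78) (PT.lf (nat_lit 9120) (nat_lit 6) (nat_lit 120) (nat_lit 3) (nat_lit 132) (nat_lit 124) (nat_lit 134)) (PT.nd (nat_lit 78) (PT.lf (nat_lit 9196) (nat_lit 3) (nat_lit 121) (nat_lit 1) (nat_lit 133) (nat_lit 124) (nat_lit 133)) (PT.lf (nat_lit 9120) (nat_lit 6) (nat_lit 120) (nat_lit 1) (nat_lit 134) (nat_lit 124) (nat_lit 132)))) (PT.nd (nat_lit 78) (PT.lf (nat_lit 9044) (nat_lit 6) (nat_lit 119) (nat_lit 1) (nat_lit 135) (nat_lit 124) (nat_lit 131)) (PT.nd (nat_lit 78) (PT.lf (nat_lit 8968) (nat_lit 6) (nat_lit 118) (nat_lit 1) (nat_lit 136) (nat_lit 124) (nat_lit 130)) (PT.lf (nat_lit 8360) (nat_lit 6) (nat_lit 110) (nat_lit 1) (nat_lit 137) (nat_lit 124) (nat_lit 129))))) (PT.nd (nat_lit 39780) (PT.nd (nat_lit 78) (PT.lf (nat_lit 7676) (nat_lit 6)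 (nat_lit 101) (nat_lit 1) (nat_lit 138) (nat_lit 124) (nat_lit 128)) (PT.nd (nat_lit 39624) (PT.lf (nat_lit 6916) (nat_lit 6) (nat_lit 91) (nat_lit 1) (nat_lit 139) (nat_lit 124) (nat_lit 127)) (PT.lf (nat_lit 6840) (nat_lit 6) (nat_lit 90) (nat_lit 3) (nat_lit 126) (nat_lit 125) (nat_lit 139)))) (PT.nd (nat_lit 78) (PT.lf (nat_lit 7600) (nat_lit 6) (nat_lit 100) (nat_lit 3) (nat_lit 127) (nat_lit 125) (nat_lit 138)) (PT.nd (nat_lit 78) (PT.lf (nat_lit 8284) (nat_lit 6) (nat_lit 109) (nat_lit 3) (nat_lit 128) (nat_lit 125) (nat_lit 137)) (PT.lf (nat_lit 8892) (nat_lit 6) (nat_lit 117) (nat_lit 3) (nat_lit 129) (nat_lit 125) (nat_lit 136))))))) (PT.nd (nat_lit 40404) (PT.nd (nat_lit 468) (PT.nd (nat_lit 234) (PT.nd (nat_lit 78) (PT.lf (nat_lit 9424) (nat_lit 6) (nat_lit 124) (nat_lit 3) (nat_lit 130) (nat_lit 125) (nat_lit 135)) (PT.nd (nat_lit 78) (PT.lf (nat_lit 9500) (nat_lit 6) (nat_lit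 125) (nat_lit 3) (nat_lit 131) (nat_lit 125) (nat_lit 134)) (PT.lf (nat_lit 9576) (nat_lit 6) (nat_lit 126) (nat_lit 3) (nat_lit 132) (nat_lit 125) (nat_lit 133)))) (PT.nd (nat_lit 78) (PT.lf (nat_lit 9576) (nat_lit 6) (nat_lit 126) (nat_lit 1) (nat_lit 133) (nat_lit 125) (nat_lit 132)) (PT.nd (nat_lit 78) (PT.lf (nat_lit 9500) (nat_lit 6) (nat_lit 125) (nat_lit 1) (nat_lit 134) (nat_lit 125) (nat_lit 131)) (PT.lf (nat_lit 9424) (nat_lit 6) (nat_lit 124) (nat_lit 1) (nat_lit 135) (nat_lit 125) (nat_lit 130))))) (PT.nd (nat_lit 234) (PT.nd (nat_lit 78) (PT.lf (nat_lit 8892) (nat_lit 6) (nat_lit 117) (nat_lit 1) (nat_lit 136) (nat_lit 125) (nat_lit 129)) (PT.nd (nat_lit 78) (PT.lf (nat_lit 8284) (nat_lit 6) (nat_lit 109) (nat_lit 1) (nat_lit 137) (nat_lit 125) (nat_lit 128)) (PT.lf (nat_lit 7600) (nat_lit 6) (nat_lit 100) (nat_lit 1) (nat_lit 138) (nat_lit 125) (nat_lit 127)))) (PT.nd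 (nat_lit 39546) (PT.lf (nat_lit 6840) (nat_lit 6) (nat_lit 90) (nat_lit 1) (nat_lit 139) (nat_lit 125) (nat_lit 126)) (PT.nd (nat_lit 78) (PT.lf (nat_lit 6840) (nat_lit 6) (nat_lit 90) (nat_lit 5) (nat_lit 125) (nat_lit 126) (nat_lit 139)) (PT.lf (nat_lit 7524) (nat_lit 3) (nat_lit 99) (nat_lit 3) (nat_lit 126) (nat_lit 126) (nat_lit 138)))))) (PT.nd (nat_lit 468) (PT.nd (nat_lit 234) (PT.nd (nat_lit 78) (PT.lf (nat_lit 8208) (nat_lit 6) (nat_lit 108) (nat_lit 3) (nat_lit 127) (nat_lit 126) (nat_lit 137)) (PT.nd (nat_lit 78) (PT.lf (nat_lit 8816) (nat_lit 6) (nat_lit 116) (nat_lit 3) (nat_lit 128) (nat_lit 126) (nat_lit 136)) (PT.lf (nat_lit 9348) (nat_lit 6) (nat_lit 123) (nat_lit 3) (nat_lit 129) (nat_lit 126) (nat_lit 135)))) (PT.nd (nat_lit 78) (PT.lf (nat_lit 9804) (nat_lit 6) (nat_lit 129) (nat_lit 3) (nat_lit 130) (nat_lit 126) (nat_lit 134)) (PT.nd (nat_lit 78) (PT.lf (nat_lit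 9880) (nat_lit 6) (nat_lit 130) (nat_lit 3) (nat_lit 131) (nat_lit 126) (nat_lit 133)) (PT.lf (nat_lit 9956) (nat_lit 3) (nat_lit 131) (nat_lit 1) (nat_lit 132) (nat_lit 126) (nat_lit 132))))) (PT.nd (nat_lit 234) (PT.nd (nat_lit 78) (PT.lf (nat_lit 9880) (nat_lit 6) (nat_lit 130) (nat_lit 1) (nat_lit 133) (nat_lit 126) (nat_lit 131)) (PT.nd (nat_lit 78) (PT.lf (nat_lit 9804) (nat_lit 6) (nat_lit 129) (nat_lit 1) (nat_lit 134) (nat_lit 126) (nat_lit 130)) (PT.lf (nat_lit 9348) (nat_lit 6) (nat_lit 123) (nat_lit 1) (nat_lit 135) (nat_lit 126) (nat_lit 129)))) (PT.nd (nat_lit 78) (PT.lf (nat_lit 8816) (nat_lit 6) (nat_lit 116) (nat_lit 1) (nat_lit 136) (nat_lit 126) (nat_lit 128)) (PT.nd (nat_lit 78) (PT.lf (nat_lit 8208) (nat_lit 6) (nat_lit 108) (nat_lit 1) (nat_lit 137) (nat_lit 126) (nat_lit 127)) (PT.lf (nat_lit 7524) (nat_lit 3) (nat_lit 99) (nat_lit 0) (nat_lit 138) (nat_lit 126)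 (nat_lit 126))))))))
noncomputable def pc5 : PT := (PT.nd (nat_lit 80418) (PT.nd (nat_lit 40248) (PT.nd (nat_lit 39780) (PT.nd (nat_lit 39546) (PT.nd (nat_lit 39468) (PT.lf (nat_lit 6840) (nat_lit 6) (nat_lit 90) (nat_lit 0) (nat_lit 139) (nat_lit 126) (nat_lit 125)) (PT.lf (nat_lit 6916) (nat_lit 6) (nat_lit 91) (nat_lit 5) (nat_lit 124) (nat_lit 127) (nat_lit 139))) (PT.nd (nat_lit 78) (PT.lf (nat_lit 7600) (nat_lit 6) (nat_lit 100) (nat_lit 5) (nat_lit 125) (nat_lit 127) (nat_lit 138)) (PT.nd (nat_lit 78) (PT.lf (nat_lit 8208) (nat_lit 6) (nat_lit 108) (nat_lit 5) (nat_lit 126) (nat_lit 127) (nat_lit 137)) (PT.lf (nat_lit 8740) (nat_lit 3) (nat_lit 115) (nat_lit 3) (nat_lit 127) (nat_lit 127) (nat_lit 136))))) (PT.nd (nat_lit 234) (PT.nd (nat_lit 78) (PT.lf (nat_lit 9272) (nat_lit 6) (nat_lit 122) (nat_lit 3) (nat_lit 128) (nat_lit 127) (nat_lit 135)) (PT.nd (nat_lit 78) (PT.lf (nat_lit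 9728) (nat_lit 6) (nat_lit 128) (nat_lit 3) (nat_lit 129) (nat_lit 127) (nat_lit 134)) (PT.lf (nat_lit 10108) (nat_lit 6) (nat_lit 133) (nat_lit 3) (nat_lit 130) (nat_lit 127) (nat_lit 133)))) (PT.nd (nat_lit 78) (PT.lf (nat_lit 10184) (nat_lit 6) (nat_lit 134) (nat_lit 3) (nat_lit 131) (nat_lit 127) (nat_lit 132)) (PT.nd (nat_lit 78) (PT.lf (nat_lit 10184) (nat_lit 6) (nat_lit 134) (nat_lit 1) (nat_lit 132) (nat_lit 127) (nat_lit 131)) (PT.lf (nat_lit 10108) (nat_lit 6) (nat_lit 133) (nat_lit 1) (nat_lit 133) (nat_lit 127) (nat_lit 130)))))) (PT.nd (nat_lit 39702) (PT.nd (nat_lit 234) (PT.nd (nat_lit 78) (PT.lf (nat_lit 9728) (nat_lit 6) (nat_lit 128) (nat_lit 1) (nat_lit 134) (nat_lit 127) (nat_lit 129)) (PT.nd (nat_lit 78) (PT.lf (nat_lit 9272) (nat_lit 6) (nat_lit 122) (nat_lit 1) (nat_lit 135) (nat_lit 127) (nat_lit 128)) (PT.lf (nat_lit 8740) (nat_lit 3) (nat_lit 115) (nat_lit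 0) (nat_lit 136) (nat_lit 127) (nat_lit 127)))) (PT.nd (nat_lit 78) (PT.lf (nat_lit 8208) (nat_lit 6) (nat_lit 108) (nat_lit 0) (nat_lit 137) (nat_lit 127) (nat_lit 126)) (PT.nd (nat_lit 78) (PT.lf (nat_lit 7600) (nat_lit 6) (nat_lit 100) (nat_lit 0) (nat_lit 138) (nat_lit 127) (nat_lit 125)) (PT.lf (nat_lit 6916) (nat_lit 6) (nat_lit 91) (nat_lit 0) (nat_lit 139) (nat_lit 127) (nat_lit 124))))) (PT.nd (nat_lit 234) (PT.nd (nat_lit 78) (PT.lf (nat_lit 6232) (nat_lit 6) (nat_lit 82) (nat_lit 5) (nat_lit 122) (nat_lit 128) (nat_lit 140)) (PT.nd (nat_lit 78) (PT.lf (nat_lit 6992) (nat_lit 6) (nat_lit 92) (nat_lit 5) (nat_lit 123) (nat_lit 128) (nat_lit 139)) (PT.lf (nat_lit 7676) (nat_lit 6) (nat_lit 101) (nat_lit 5) (nat_lit 124) (nat_lit 128) (nat_lit 138)))) (PT.nd (nat_lit 78) (PT.lf (nat_lit 8284) (nat_lit 6) (nat_lit 109) (nat_lit 5) (nat_lit 125) (nat_lit 128) (nat_lit 137)) (PT.nd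 (nat_lit 78) (PT.lf (nat_lit 8816) (nat_lit 6) (nat_lit 116) (nat_lit 5) (nat_lit 126) (nat_lit 128) (nat_lit 136)) (PT.lf (nat_lit 9272) (nat_lit 6) (nat_lit 122) (nat_lit 5) (nat_lit 127) (nat_lit 128) (nat_lit 135))))))) (PT.nd (nat_lit 936) (PT.nd (nat_lit 468) (PT.nd (nat_lit 234) (PT.nd (nat_lit 78) (PT.lf (nat_lit 9652) (nat_lit 3) (nat_lit 127) (nat_lit 3) (nat_lit 128) (nat_lit 128) (nat_lit 134)) (PT.nd (nat_lit 78) (PT.lf (nat_lit 10032) (nat_lit 6) (nat_lit 132) (nat_lit 3) (nat_lit 129) (nat_lit 128) (nat_lit 133)) (PT.lf (nat_lit 10336) (nat_lit 6) (nat_lit 136) (nat_lit 3) (nat_lit 130) (nat_lit 128) (nat_lit 132)))) (PT.nd (nat_lit 78) (PT.lf (nat_lit 10412) (nat_lit 3) (nat_lit 137) (nat_lit 1) (nat_lit 131) (nat_lit 128) (nat_lit 131)) (PT.nd (nat_lit 78) (PT.lf (nat_lit 10336) (nat_lit 6) (nat_lit 136) (nat_lit 1) (nat_lit 132) (nat_lit 128) (nat_lit 130)) (PT.lf (nat_lit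 10032) (nat_lit 6) (nat_lit 132) (nat_lit 1) (nat_lit 133) (nat_lit 128) (nat_lit 129))))) (PT.nd (nat_lit 234) (PT.nd (nat_lit 78) (PT.lf (nat_lit 9652) (nat_lit 3) (nat_lit 127) (nat_lit 0) (nat_lit 134) (nat_lit 128) (nat_lit 128)) (PT.nd (nat_lit 78) (PT.lf (nat_lit 9272) (nat_lit 6) (nat_lit 122) (nat_lit 0) (nat_lit 135) (nat_lit 128) (nat_lit 127)) (PT.lf (nat_lit 8816) (nat_lit 6) (nat_lit 116) (nat_lit 0) (nat_lit 136) (nat_lit 128) (nat_lit 126)))) (PT.nd (nat_lit 78) (PT.lf (nat_lit 8284) (nat_lit 6) (nat_lit 109) (nat_lit 0) (nat_lit 137) (nat_lit 128) (nat_lit 125)) (PT.nd (nat_lit 78) (PT.lf (nat_lit 7676) (nat_lit 6) (nat_lit 101) (nat_lit 0) (nat_lit 138) (nat_lit 128) (nat_lit 124)) (PT.lf (nat_lit 6992) (nat_lit 6) (nat_lit 92) (nat_lit 0) (nat_lit 139) (nat_lit 128) (nat_lit 123)))))) (PT.nd (nat_lit 39546) (PT.nd (nat_lit 39312) (PT.nd (nat_lit 39156) (PT.lf (nat_lit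 6232) (nat_lit 6) (nat_lit 82) (nat_lit 0) (nat_lit 140) (nat_lit 128) (nat_lit 122)) (PT.nd (nat_lit 78) (PT.lf (nat_lit 6308) (nat_lit 6) (nat_lit 83) (nat_lit 5) (nat_lit 121) (nat_lit 129) (nat_lit 140)) (PT.lf (nat_lit 7068) (nat_lit 6) (nat_lit 93) (nat_lit 5) (nat_lit 122) (nat_lit 129) (nat_lit 139)))) (PT.nd (nat_lit 78) (PT.lf (nat_lit 7752) (nat_lit 6) (nat_lit 102) (nat_lit 5) (nat_lit 123) (nat_lit 129) (nat_lit 138)) (PT.nd (nat_lit 78) (PT.lf (nat_lit 8360) (nat_lit 6) (nat_lit 110) (nat_lit 5) (nat_lit 124) (nat_lit 129) (nat_lit 137)) (PT.lf (nat_lit 8892) (nat_lit 6) (nat_lit 117) (nat_lit 5) (nat_lit 125) (nat_lit 129) (nat_lit 136))))) (PT.nd (nat_lit 234) (PT.nd (nat_lit 78) (PT.lf (nat_lit 9348) (nat_lit 6) (nat_lit 123) (nat_lit 5) (nat_lit 126) (nat_lit 129) (nat_lit 135)) (PT.nd (nat_lit 78) (PT.lf (nat_lit 9728) (nat_lit 6) (nat_lit 128) (nat_lit 5) (nat_lit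 127) (nat_lit 129) (nat_lit 134)) (PT.lf (nat_lit 10032) (nat_lit 6) (nat_lit 132) (nat_lit 5) (nat_lit 128) (nat_lit 129) (nat_lit 133)))) (PT.nd (nat_lit 78) (PT.lf (nat_lit 10260) (nat_lit 3) (nat_lit 135) (nat_lit 3) (nat_lit 129) (nat_lit 129) (nat_lit 132)) (PT.nd (nat_lit 78) (PT.lf (nat_lit 10488) (nat_lit 6) (nat_lit 138) (nat_lit 3) (nat_lit 130) (nat_lit 129) (nat_lit 131)) (PT.lf (nat_lit 10488) (nat_lit 6) (nat_lit 138) (nat_lit 1) (nat_lit 131) (nat_lit 129) (nat_lit 130))))))))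
noncomputable def pc6 : PT := (PT.nd (nat_lit 40794) (PT.nd (nat_lit 39858) (PT.nd (nat_lit 390) (PT.nd (nat_lit 156) (PT.nd (nat_lit 78) (PT.lf (nat_lit 10260) (nat_lit 3) (nat_lit 135) (nat_lit 0) (nat_lit 132) (nat_lit 129) (nat_lit 129)) (PT.lf (nat_lit 10032) (nat_lit 6) (nat_lit 132) (nat_lit 0) (nat_lit 133) (nat_lit 129) (nat_lit 128))) (PT.nd (nat_lit 78) (PT.lf (nat_lit 9728) (nat_lit 6) (nat_lit 128) (nat_lit 0) (nat_lit 134) (nat_lit 129) (nat_lit 127)) (PT.nd (nat_lit 78) (PT.lf (nat_lit 9348) (nat_lit 6) (nat_lit 123) (nat_lit 0) (nat_lit 135) (nat_lit 129) (nat_lit 126)) (PT.lf (nat_lit 8892) (nat_lit 6) (nat_lit 117) (nat_lit 0) (nat_lit 136) (nat_lit 129) (nat_lit 125))))) (PT.nd (nat_lit 234) (PT.nd (nat_lit 78) (PT.lf (nat_lit 8360) (nat_lit 6) (nat_lit 110) (nat_lit 0) (nat_lit 137) (nat_lit 129) (nat_lit 124)) (PT.nd (nat_lit 78) (PT.lf (nat_lit 7752) (nat_lit 6)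 (nat_lit 102) (nat_lit 0) (nat_lit 138) (nat_lit 129) (nat_lit 123)) (PT.lf (nat_lit 7068) (nat_lit 6) (nat_lit 93) (nat_lit 0) (nat_lit 139) (nat_lit 129) (nat_lit 122)))) (PT.nd (nat_lit 39078) (PT.lf (nat_lit 6308) (nat_lit 6) (nat_lit 83) (nat_lit 0) (nat_lit 140) (nat_lit 129) (nat_lit 121)) (PT.nd (nat_lit 78) (PT.lf (nat_lit 6384) (nat_lit 6) (nat_lit 84) (nat_lit 5) (nat_lit 120) (nat_lit 130) (nat_lit 140)) (PT.lf (nat_lit 7144) (nat_lit 6) (nat_lit 94) (nat_lit 5) (nat_lit 121) (nat_lit 130) (nat_lit 139)))))) (PT.nd (nat_lit 468) (PT.nd (nat_lit 234) (PT.nd (nat_lit 78) (PT.lf (nat_lit 7828) (nat_lit 6) (nat_lit 103) (nat_lit 5) (nat_lit 122) (nat_lit 130) (nat_lit 138)) (PT.nd (nat_lit 78) (PT.lf (nat_lit 8436) (nat_lit 6) (nat_lit 111) (nat_lit 5) (nat_lit 123) (nat_lit 130) (nat_lit 137)) (PT.lf (nat_lit 8968) (nat_lit 6) (nat_lit 118) (nat_lit 5) (nat_lit 124) (nat_lit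 130) (nat_lit 136)))) (PT.nd (nat_lit 78) (PT.lf (nat_lit 9424) (nat_lit 6) (nat_lit 124) (nat_lit 5) (nat_lit 125) (nat_lit 130) (nat_lit 135)) (PT.nd (nat_lit 78) (PT.lf (nat_lit 9804) (nat_lit 6) (nat_lit 129) (nat_lit 5) (nat_lit 126) (nat_lit 130) (nat_lit 134)) (PT.lf (nat_lit 10108) (nat_lit 6) (nat_lit 133) (nat_lit 5) (nat_lit 127) (nat_lit 130) (nat_lit 133))))) (PT.nd (nat_lit 234) (PT.nd (nat_lit 78) (PT.lf (nat_lit 10336) (nat_lit 6) (nat_lit 136) (nat_lit 5) (nat_lit 128) (nat_lit 130) (nat_lit 132)) (PT.nd (nat_lit 78) (PT.lf (nat_lit 10488) (nat_lit 6) (nat_lit 138) (nat_lit 5) (nat_lit 129) (nat_lit 130) (nat_lit 131)) (PT.lf (nat_lit 10564) (nat_lit 1) (nat_lit 139) (nat_lit 0) (nat_lit 130) (nat_lit 130) (nat_lit 130)))) (PT.nd (nat_lit 78) (PT.lf (nat_lit 10488) (nat_lit 6) (nat_lit 138) (nat_lit 0) (nat_lit 131) (nat_lit 130) (nat_lit 129)) (PT.nd (nat_lit 78) (PT.lf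 (nat_lit 10336) (nat_lit 6) (nat_lit 136) (nat_lit 0) (nat_lit 132) (nat_lit 130) (nat_lit 128)) (PT.lf (nat_lit 10108) (nat_lit 6) (nat_lit 133) (nat_lit 0) (nat_lit 133) (nat_lit 130) (nat_lit 127))))))) (PT.nd (nat_lit 39858) (PT.nd (nat_lit 468) (PT.nd (nat_lit 234) (PT.nd (nat_lit 78) (PT.lf (nat_lit 9804) (nat_lit 6) (nat_lit 129) (nat_lit 0) (nat_lit 134) (nat_lit 130) (nat_lit 126)) (PT.nd (nat_lit 78) (PT.lf (nat_lit 9424) (nat_lit 6) (nat_lit 124) (nat_lit 0) (nat_lit 135) (nat_lit 130) (nat_lit 125)) (PT.lf (nat_lit 8968) (nat_lit 6) (nat_lit 118) (nat_lit 0) (nat_lit 136) (nat_lit 130) (nat_lit 124)))) (PT.nd (nat_lit 78) (PT.lf (nat_lit 8436) (nat_lit 6) (nat_lit 111) (nat_lit 0) (nat_lit 137) (nat_lit 130) (nat_lit 123)) (PT.nd (nat_lit 78) (PT.lf (nat_lit 7828) (nat_lit 6) (nat_lit 103) (nat_lit 0) (nat_lit 138) (nat_lit 130) (nat_lit 122)) (PT.lf (nat_lit 7144) (nat_lit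 6) (nat_lit 94) (nat_lit 0) (nat_lit 139) (nat_lit 130) (nat_lit 121))))) (PT.nd (nat_lit 39156) (PT.nd (nat_lit 39000) (PT.lf (nat_lit 6384) (nat_lit 6) (nat_lit 84) (nat_lit 0) (nat_lit 140) (nat_lit 130) (nat_lit 120)) (PT.nd (nat_lit 78) (PT.lf (nat_lit 5852) (nat_lit 6) (nat_lit 77) (nat_lit 5) (nat_lit 119) (nat_lit 131) (nat_lit 140)) (PT.lf (nat_lit 6460) (nat_lit 6) (nat_lit 85) (nat_lit 5) (nat_lit 120) (nat_lit 131) (nat_lit 139)))) (PT.nd (nat_lit 78) (PT.lf (nat_lit 7220) (nat_lit 6) (nat_lit 95) (nat_lit 5) (nat_lit 121) (nat_lit 131) (nat_lit 138)) (PT.nd (nat_lit 78) (PT.lf (nat_lit 7904) (nat_lit 6) (nat_lit 104) (nat_lit 5) (nat_lit 122) (nat_lit 131) (nat_lit 137)) (PT.lf (nat_lit 8512) (nat_lit 6) (nat_lit 112) (nat_lit 5) (nat_lit 123) (nat_lit 131) (nat_lit 136)))))) (PT.nd (nat_lit 468) (PT.nd (nat_lit 234) (PT.nd (nat_lit 78) (PT.lf (nat_lit 9044) (nat_lit 6)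 (nat_lit 119) (nat_lit 5) (nat_lit 124) (nat_lit 131) (nat_lit 135)) (PT.nd (nat_lit 78) (PT.lf (nat_lit 9500) (nat_lit 6) (nat_lit 125) (nat_lit 5) (nat_lit 125) (nat_lit 131) (nat_lit 134)) (PT.lf (nat_lit 9880) (nat_lit 6) (nat_lit 130) (nat_lit 5) (nat_lit 126) (nat_lit 131) (nat_lit 133)))) (PT.nd (nat_lit 78) (PT.lf (nat_lit 10184) (nat_lit 6) (nat_lit 134) (nat_lit 5) (nat_lit 127) (nat_lit 131) (nat_lit 132)) (PT.nd (nat_lit 78) (PT.lf (nat_lit 10412) (nat_lit 3) (nat_lit 137) (nat_lit 4) (nat_lit 128) (nat_lit 131) (nat_lit 131)) (PT.lf (nat_lit 10488) (nat_lit 6) (nat_lit 138) (nat_lit 4) (nat_lit 129) (nat_lit 131) (nat_lit 130))))) (PT.nd (nat_lit 234) (PT.nd (nat_lit 78) (PT.lf (nat_lit 10488) (nat_lit 6) (nat_lit 138) (nat_lit 2) (nat_lit 130) (nat_lit 131) (nat_lit 129)) (PT.nd (nat_lit 78) (PT.lf (nat_lit 10412) (nat_lit 3) (nat_lit 137) (nat_lit 0) (nat_lit 131) (nat_lit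 131) (nat_lit 128)) (PT.lf (nat_lit 10184) (nat_lit 6) (nat_lit 134) (nat_lit 0) (nat_lit 132) (nat_lit 131) (nat_lit 127)))) (PT.nd (nat_lit 78) (PT.lf (nat_lit 9880) (nat_lit 6) (nat_lit 130) (nat_lit 0) (nat_lit 133) (nat_lit 131) (nat_lit 126)) (PT.nd (nat_lit 78) (PT.lf (nat_lit 9500) (nat_lit 6) (nat_lit 125) (nat_lit 0) (nat_lit 134) (nat_lit 131) (nat_lit 125)) (PT.lf (nat_lit 9044) (nat_lit 6) (nat_lit 119) (nat_lit 0) (nat_lit 135) (nat_lit 131) (nat_lit 124))))))))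
noncomputable def pc7 : PT := (PT.nd (nat_lit 40716) (PT.nd (nat_lit 39780) (PT.nd (nat_lit 39312) (PT.nd (nat_lit 234) (PT.nd (nat_lit 78) (PT.lf (nat_lit 8512) (nat_lit 6) (nat_lit 112) (nat_lit 0) (nat_lit 136) (nat_lit 131) (nat_lit 123)) (PT.nd (nat_lit 78) (PT.lf (nat_lit 7904) (nat_lit 6) (nat_lit 104) (nat_lit 0) (nat_lit 137) (nat_lit 131) (nat_lit 122)) (PT.lf (nat_lit 7220) (nat_lit 6) (nat_lit 95) (nat_lit 0) (nat_lit 138) (nat_lit 131) (nat_lit 121)))) (PT.nd (nat_lit 78) (PT.lf (nat_lit 6460) (nat_lit 6) (nat_lit 85) (nat_lit 0) (nat_lit 139) (nat_lit 131) (nat_lit 120)) (PT.nd (nat_lit 38922) (PT.lf (nat_lit 5852) (nat_lit 6) (nat_lit 77) (nat_lit 0) (nat_lit 140) (nat_lit 131) (nat_lit 119)) (PT.lf (nat_lit 5472) (nat_lit 6) (nat_lit 72) (nat_lit 5) (nat_lit 118) (nat_lit 132) (nat_lit 140))))) (PT.nd (nat_lit 234) (PT.nd (nat_lit 78) (PT.lf (nat_lit 5928) (nat_lit 6)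 (nat_lit 78) (nat_lit 5) (nat_lit 119) (nat_lit 132) (nat_lit 139)) (PT.nd (nat_lit 78) (PT.lf (nat_lit 6536) (nat_lit 6) (nat_lit 86) (nat_lit 5) (nat_lit 120) (nat_lit 132) (nat_lit 138)) (PT.lf (nat_lit 7296) (nat_lit 6) (nat_lit 96) (nat_lit 5) (nat_lit 121) (nat_lit 132) (nat_lit 137)))) (PT.nd (nat_lit 78) (PT.lf (nat_lit 7980) (nat_lit 6) (nat_lit 105) (nat_lit 5) (nat_lit 122) (nat_lit 132) (nat_lit 136)) (PT.nd (nat_lit 78) (PT.lf (nat_lit 8588) (nat_lit 6) (nat_lit 113) (nat_lit 5) (nat_lit 123) (nat_lit 132) (nat_lit 135)) (PT.lf (nat_lit 9120) (nat_lit 6) (nat_lit 120) (nat_lit 5) (nat_lit 124) (nat_lit 132) (nat_lit 134)))))) (PT.nd (nat_lit 468) (PT.nd (nat_lit 234) (PT.nd (nat_lit 78) (PT.lf (nat_lit 9576) (nat_lit 6) (nat_lit 126) (nat_lit 5) (nat_lit 125) (nat_lit 132) (nat_lit 133)) (PT.nd (nat_lit 78) (PT.lf (nat_lit 9956) (nat_lit 3) (nat_lit 131) (nat_lit 4) (nat_lit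 126) (nat_lit 132) (nat_lit 132)) (PT.lf (nat_lit 10184) (nat_lit 6) (nat_lit 134) (nat_lit 4) (nat_lit 127) (nat_lit 132) (nat_lit 131)))) (PT.nd (nat_lit 78) (PT.lf (nat_lit 10336) (nat_lit 6) (nat_lit 136) (nat_lit 4) (nat_lit 128) (nat_lit 132) (nat_lit 130)) (PT.nd (nat_lit 78) (PT.lf (nat_lit 10260) (nat_lit 3) (nat_lit 135) (nat_lit 2) (nat_lit 129) (nat_lit 132) (nat_lit 129)) (PT.lf (nat_lit 10336) (nat_lit 6) (nat_lit 136) (nat_lit 2) (nat_lit 130) (nat_lit 132) (nat_lit 128))))) (PT.nd (nat_lit 234) (PT.nd (nat_lit 78) (PT.lf (nat_lit 10184) (nat_lit 6) (nat_lit 134) (nat_lit 2) (nat_lit 131) (nat_lit 132) (nat_lit 127)) (PT.nd (nat_lit 78) (PT.lf (nat_lit 9956) (nat_lit 3) (nat_lit 131) (nat_lit 0) (nat_lit 132) (nat_lit 132) (nat_lit 126)) (PT.lf (nat_lit 9576) (nat_lit 6) (nat_lit 126) (nat_lit 0) (nat_lit 133) (nat_lit 132) (nat_lit 125)))) (PT.nd (nat_lit 78) (PT.lf (nat_lit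 9120) (nat_lit 6) (nat_lit 120) (nat_lit 0) (nat_lit 134) (nat_lit 132) (nat_lit 124)) (PT.nd (nat_lit 78) (PT.lf (nat_lit 8588) (nat_lit 6) (nat_lit 113) (nat_lit 0) (nat_lit 135) (nat_lit 132) (nat_lit 123)) (PT.lf (nat_lit 7980) (nat_lit 6) (nat_lit 105) (nat_lit 0) (nat_lit 136) (nat_lit 132) (nat_lit 122))))))) (PT.nd (nat_lit 39624) (PT.nd (nat_lit 39156) (PT.nd (nat_lit 234) (PT.nd (nat_lit 78) (PT.lf (nat_lit 7296) (nat_lit 6) (nat_lit 96) (nat_lit 0) (nat_lit 137) (nat_lit 132) (nat_lit 121)) (PT.nd (nat_lit 78) (PT.lf (nat_lit 6536) (nat_lit 6) (nat_lit 86) (nat_lit 0) (nat_lit 138) (nat_lit 132) (nat_lit 120)) (PT.lf (nat_lit 5928) (nat_lit 6) (nat_lit 78) (nat_lit 0) (nat_lit 139) (nat_lit 132) (nat_lit 119)))) (PT.nd (nat_lit 38766) (PT.lf (nat_lit 5472) (nat_lit 6) (nat_lit 72) (nat_lit 0) (nat_lit 140) (nat_lit 132) (nat_lit 118)) (PT.nd (nat_lit 78) (PT.lf (nat_lit 4788)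 (nat_lit 6) (nat_lit 63) (nat_lit 5) (nat_lit 116) (nat_lit 133) (nat_lit 141)) (PT.lf (nat_lit 5168) (nat_lit 6) (nat_lit 68) (nat_lit 5) (nat_lit 117) (nat_lit 133) (nat_lit 140))))) (PT.nd (nat_lit 234) (PT.nd (nat_lit 78) (PT.lf (nat_lit 5548) (nat_lit 6) (nat_lit 73) (nat_lit 5) (nat_lit 118) (nat_lit 133) (nat_lit 139)) (PT.nd (nat_lit 78) (PT.lf (nat_lit 6004) (nat_lit 6) (nat_lit 79) (nat_lit 5) (nat_lit 119) (nat_lit 133) (nat_lit 138)) (PT.lf (nat_lit 6612) (nat_lit 6) (nat_lit 87) (nat_lit 5) (nat_lit 120) (nat_lit 133) (nat_lit 137)))) (PT.nd (nat_lit 78) (PT.lf (nat_lit 7372) (nat_lit 6) (nat_lit 97) (nat_lit 5) (nat_lit 121) (nat_lit 133) (nat_lit 136)) (PT.nd (nat_lit 78) (PT.lf (nat_lit 8056) (nat_lit 6) (nat_lit 106) (nat_lit 5) (nat_lit 122) (nat_lit 133) (nat_lit 135)) (PT.lf (nat_lit 8664) (nat_lit 6) (nat_lit 114) (nat_lit 5) (nat_lit 123) (nat_lit 133) (nat_lit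 134)))))) (PT.nd (nat_lit 468) (PT.nd (nat_lit 234) (PT.nd (nat_lit 78) (PT.lf (nat_lit 9196) (nat_lit 3) (nat_lit 121) (nat_lit 4) (nat_lit 124) (nat_lit 133) (nat_lit 133)) (PT.nd (nat_lit 78) (PT.lf (nat_lit 9576) (nat_lit 6) (nat_lit 126) (nat_lit 4) (nat_lit 125) (nat_lit 133) (nat_lit 132)) (PT.lf (nat_lit 9880) (nat_lit 6) (nat_lit 130) (nat_lit 4) (nat_lit 126) (nat_lit 133) (nat_lit 131)))) (PT.nd (nat_lit 78) (PT.lf (nat_lit 10108) (nat_lit 6) (nat_lit 133) (nat_lit 4) (nat_lit 127) (nat_lit 133) (nat_lit 130)) (PT.nd (nat_lit 78) (PT.lf (nat_lit 10032) (nat_lit 6) (nat_lit 132) (nat_lit 4) (nat_lit 128) (nat_lit 133) (nat_lit 129)) (PT.lf (nat_lit 10032) (nat_lit 6) (nat_lit 132) (nat_lit 2) (nat_lit 129) (nat_lit 133) (nat_lit 128))))) (PT.nd (nat_lit 234) (PT.nd (nat_lit 78) (PT.lf (nat_lit 10108) (nat_lit 6) (nat_lit 133) (nat_lit 2) (nat_lit 130) (nat_lit 133) (nat_lit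 127)) (PT.nd (nat_lit 78) (PT.lf (nat_lit 9880) (nat_lit 6) (nat_lit 130) (nat_lit 2) (nat_lit 131) (nat_lit 133) (nat_lit 126)) (PT.lf (nat_lit 9576) (nat_lit 6) (nat_lit 126) (nat_lit 2) (nat_lit 132) (nat_lit 133) (nat_lit 125)))) (PT.nd (nat_lit 78) (PT.lf (nat_lit 9196) (nat_lit 3) (nat_lit 121) (nat_lit 0) (nat_lit 133) (nat_lit 133) (nat_lit 124)) (PT.nd (nat_lit 78) (PT.lf (nat_lit 8664) (nat_lit 6) (nat_lit 114) (nat_lit 0) (nat_lit 134) (nat_lit 133) (nat_lit 123)) (PT.lf (nat_lit 8056) (nat_lit 6) (nat_lit 106) (nat_lit 0) (nat_lit 135) (nat_lit 133) (nat_lit 122))))))))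
noncomputable def pc8 : PT := (PT.nd (nat_lit 40326) (PT.nd (nat_lit 39390) (PT.nd (nat_lit 390) (PT.nd (nat_lit 156) (PT.nd (nat_lit 78) (PT.lf (nat_lit 7372) (nat_lit 6) (nat_lit 97) (nat_lit 0) (nat_lit 136) (nat_lit 133) (nat_lit 121)) (PT.lf (nat_lit 6612) (nat_lit 6) (nat_lit 87) (nat_lit 0) (nat_lit 137) (nat_lit 133) (nat_lit 120))) (PT.nd (nat_lit 78) (PT.lf (nat_lit 6004) (nat_lit 6) (nat_lit 79) (nat_lit 0) (nat_lit 138) (nat_lit 133) (nat_lit 119)) (PT.nd (nat_lit 78) (PT.lf (nat_lit 5548) (nat_lit 6) (nat_lit 73) (nat_lit 0) (nat_lit 139) (nat_lit 133) (nat_lit 118)) (PT.lf (nat_lit 5168) (nat_lit 6) (nat_lit 68) (nat_lit 0) (nat_lit 140) (nat_lit 133) (nat_lit 117))))) (PT.nd (nat_lit 38766) (PT.nd (nat_lit 38610) (PT.lf (nat_lit 4788) (nat_lit 6) (nat_lit 63) (nat_lit 0) (nat_lit 141) (nat_lit 133) (nat_lit 116)) (PT.nd (nat_lit 78) (PT.lf (nat_lit 4484) (nat_lit 6) (nat_lit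 59) (nat_lit 5) (nat_lit 115) (nat_lit 134) (nat_lit 141)) (PT.lf (nat_lit 4864) (nat_lit 6) (nat_lit 64) (nat_lit 5) (nat_lit 116) (nat_lit 134) (nat_lit 140)))) (PT.nd (nat_lit 78) (PT.lf (nat_lit 5244) (nat_lit 6) (nat_lit 69) (nat_lit 5) (nat_lit 117) (nat_lit 134) (nat_lit 139)) (PT.nd (nat_lit 78) (PT.lf (nat_lit 5624) (nat_lit 6) (nat_lit 74) (nat_lit 5) (nat_lit 118) (nat_lit 134) (nat_lit 138)) (PT.lf (nat_lit 6080) (nat_lit 6) (nat_lit 80) (nat_lit 5) (nat_lit 119) (nat_lit 134) (nat_lit 137)))))) (PT.nd (nat_lit 468) (PT.nd (nat_lit 234) (PT.nd (nat_lit 78) (PT.lf (nat_lit 6688) (nat_lit 6) (nat_lit 88) (nat_lit 5) (nat_lit 120) (nat_lit 134) (nat_lit 136)) (PT.nd (nat_lit 78) (PT.lf (nat_lit 7448) (nat_lit 6) (nat_lit 98) (nat_lit 5) (nat_lit 121) (nat_lit 134) (nat_lit 135)) (PT.lf (nat_lit 8132) (nat_lit 3) (nat_lit 107) (nat_lit 4) (nat_lit 122) (nat_lit 134) (nat_lit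 134)))) (PT.nd (nat_lit 78) (PT.lf (nat_lit 8664) (nat_lit 6) (nat_lit 114) (nat_lit 4) (nat_lit 123) (nat_lit 134) (nat_lit 133)) (PT.nd (nat_lit 78) (PT.lf (nat_lit 9120) (nat_lit 6) (nat_lit 120) (nat_lit 4) (nat_lit 124) (nat_lit 134) (nat_lit 132)) (PT.lf (nat_lit 9500) (nat_lit 6) (nat_lit 125) (nat_lit 4) (nat_lit 125) (nat_lit 134) (nat_lit 131))))) (PT.nd (nat_lit 234) (PT.nd (nat_lit 78) (PT.lf (nat_lit 9804) (nat_lit 6) (nat_lit 129) (nat_lit 4) (nat_lit 126) (nat_lit 134) (nat_lit 130)) (PT.nd (nat_lit 78) (PT.lf (nat_lit 9728) (nat_lit 6) (nat_lit 128) (nat_lit 4) (nat_lit 127) (nat_lit 134) (nat_lit 129)) (PT.lf (nat_lit 9652) (nat_lit 3) (nat_lit 127) (nat_lit 2) (nat_lit 128) (nat_lit 134) (nat_lit 128)))) (PT.nd (nat_lit 78) (PT.lf (nat_lit 9728) (nat_lit 6) (nat_lit 128) (nat_lit 2) (nat_lit 129) (nat_lit 134) (nat_lit 127)) (PT.nd (nat_lit 78) (PT.lf (nat_lit 9804)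 (nat_lit 6) (nat_lit 129) (nat_lit 2) (nat_lit 130) (nat_lit 134) (nat_lit 126)) (PT.lf (nat_lit 9500) (nat_lit 6) (nat_lit 125) (nat_lit 2) (nat_lit 131) (nat_lit 134) (nat_lit 125))))))) (PT.nd (nat_lit 39390) (PT.nd (nat_lit 468) (PT.nd (nat_lit 234) (PT.nd (nat_lit 78) (PT.lf (nat_lit 9120) (nat_lit 6) (nat_lit 120) (nat_lit 2) (nat_lit 132) (nat_lit 134) (nat_lit 124)) (PT.nd (nat_lit 78) (PT.lf (nat_lit 8664) (nat_lit 6) (nat_lit 114) (nat_lit 2) (nat_lit 133) (nat_lit 134) (nat_lit 123)) (PT.lf (nat_lit 8132) (nat_lit 3) (nat_lit 107) (nat_lit 0) (nat_lit 134) (nat_lit 134) (nat_lit 122)))) (PT.nd (nat_lit 78) (PT.lf (nat_lit 7448) (nat_lit 6) (nat_lit 98) (nat_lit 0) (nat_lit 135) (nat_lit 134) (nat_lit 121)) (PT.nd (nat_lit 78) (PT.lf (nat_lit 6688) (nat_lit 6) (nat_lit 88) (nat_lit 0) (nat_lit 136) (nat_lit 134) (nat_lit 120)) (PT.lf (nat_lit 6080) (nat_lit 6) (nat_lit 80)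 (nat_lit 0) (nat_lit 137) (nat_lit 134) (nat_lit 119))))) (PT.nd (nat_lit 234) (PT.nd (nat_lit 78) (PT.lf (nat_lit 5624) (nat_lit 6) (nat_lit 74) (nat_lit 0) (nat_lit 138) (nat_lit 134) (nat_lit 118)) (PT.nd (nat_lit 78) (PT.lf (nat_lit 5244) (nat_lit 6) (nat_lit 69) (nat_lit 0) (nat_lit 139) (nat_lit 134) (nat_lit 117)) (PT.lf (nat_lit 4864) (nat_lit 6) (nat_lit 64) (nat_lit 0) (nat_lit 140) (nat_lit 134) (nat_lit 116)))) (PT.nd (nat_lit 38532) (PT.lf (nat_lit 4484) (nat_lit 6) (nat_lit 59) (nat_lit 0) (nat_lit 141) (nat_lit 134) (nat_lit 115)) (PT.nd (nat_lit 78) (PT.lf (nat_lit 4180) (nat_lit 6) (nat_lit 55) (nat_lit 5) (nat_lit 114) (nat_lit 135) (nat_lit 141)) (PT.lf (nat_lit 4560) (nat_lit 6) (nat_lit 60) (nat_lit 5) (nat_lit 115) (nat_lit 135) (nat_lit 140)))))) (PT.nd (nat_lit 468) (PT.nd (nat_lit 234) (PT.nd (nat_lit 78) (PT.lf (nat_lit 4940) (nat_lit 6) (nat_lit 65) (nat_lit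 5) (nat_lit 116) (nat_lit 135) (nat_lit 139)) (PT.nd (nat_lit 78) (PT.lf (nat_lit 5320) (nat_lit 6) (nat_lit 70) (nat_lit 5) (nat_lit 117) (nat_lit 135) (nat_lit 138)) (PT.lf (nat_lit 5700) (nat_lit 6) (nat_lit 75) (nat_lit 5) (nat_lit 118) (nat_lit 135) (nat_lit 137)))) (PT.nd (nat_lit 78) (PT.lf (nat_lit 6156) (nat_lit 6) (nat_lit 81) (nat_lit 5) (nat_lit 119) (nat_lit 135) (nat_lit 136)) (PT.nd (nat_lit 78) (PT.lf (nat_lit 6764) (nat_lit 3) (nat_lit 89) (nat_lit 4) (nat_lit 120) (nat_lit 135) (nat_lit 135)) (PT.lf (nat_lit 7448) (nat_lit 6) (nat_lit 98) (nat_lit 4) (nat_lit 121) (nat_lit 135) (nat_lit 134))))) (PT.nd (nat_lit 234) (PT.nd (nat_lit 78) (PT.lf (nat_lit 8056) (nat_lit 6) (nat_lit 106) (nat_lit 4) (nat_lit 122) (nat_lit 135) (nat_lit 133)) (PT.nd (nat_lit 78) (PT.lf (nat_lit 8588) (nat_lit 6) (nat_lit 113) (nat_lit 4) (nat_lit 123) (nat_lit 135) (nat_lit 132)) (PT.lf (nat_lit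 9044) (nat_lit 6) (nat_lit 119) (nat_lit 4) (nat_lit 124) (nat_lit 135) (nat_lit 131)))) (PT.nd (nat_lit 78) (PT.lf (nat_lit 9424) (nat_lit 6) (nat_lit 124) (nat_lit 4) (nat_lit 125) (nat_lit 135) (nat_lit 130)) (PT.nd (nat_lit 78) (PT.lf (nat_lit 9348) (nat_lit 6) (nat_lit 123) (nat_lit 4) (nat_lit 126) (nat_lit 135) (nat_lit 129)) (PT.lf (nat_lit 9272) (nat_lit 6) (nat_lit 122) (nat_lit 4) (nat_lit 127) (nat_lit 135) (nat_lit 128))))))))
noncomputable def pc9 : PT := (PT.nd (nat_lit 40092) (PT.nd (nat_lit 858) (PT.nd (nat_lit 390) (PT.nd (nat_lit 156) (PT.nd (nat_lit 78) (PT.lf (nat_lit 9272) (nat_lit 6) (nat_lit 122) (nat_lit 2) (nat_lit 128) (nat_lit 135) (nat_lit 127)) (PT.lf (nat_lit 9348) (nat_lit 6) (nat_lit 123) (nat_lit 2) (nat_lit 129) (nat_lit 135) (nat_lit 126))) (PT.nd (nat_lit 78) (PT.lf (nat_lit 9424) (nat_lit 6) (nat_lit 124) (nat_lit 2) (nat_lit 130) (nat_lit 135) (nat_lit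 125)) (PT.nd (nat_lit 78) (PT.lf (nat_lit 9044) (nat_lit 6) (nat_lit 119) (nat_lit 2) (nat_lit 131) (nat_lit 135) (nat_lit 124)) (PT.lf (nat_lit 8588) (nat_lit 6) (nat_lit 113) (nat_lit 2) (nat_lit 132) (nat_lit 135) (nat_lit 123))))) (PT.nd (nat_lit 234) (PT.nd (nat_lit 78) (PT.lf (nat_lit 8056) (nat_lit 6) (nat_lit 106) (nat_lit 2) (nat_lit 133) (nat_lit 135) (nat_lit 122)) (PT.nd (nat_lit 78) (PT.lf (nat_lit 7448) (nat_lit 6) (nat_lit 98) (nat_lit 2) (nat_lit 134) (nat_lit 135) (nat_lit 121)) (PT.lf (nat_lit 6764) (nat_lit 3) (nat_lit 89) (nat_lit 0) (nat_lit 135) (nat_lit 135) (nat_lit 120)))) (PT.nd (nat_lit 78) (PT.lf (nat_lit 6156) (nat_lit 6) (nat_lit 81) (nat_lit 0) (nat_lit 136) (nat_lit 135) (nat_lit 119)) (PT.nd (nat_lit 78) (PT.lf (nat_lit 5700) (nat_lit 6) (nat_lit 75) (nat_lit 0) (nat_lit 137) (nat_lit 135) (nat_lit 118)) (PT.lf (nat_lit 5320) (nat_lit 6) (nat_lit 70)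 (nat_lit 0) (nat_lit 138) (nat_lit 135) (nat_lit 117)))))) (PT.nd (nat_lit 38766) (PT.nd (nat_lit 38532) (PT.nd (nat_lit 78) (PT.lf (nat_lit 4940) (nat_lit 6) (nat_lit 65) (nat_lit 0) (nat_lit 139) (nat_lit 135) (nat_lit 116)) (PT.nd (nat_lit 78) (PT.lf (nat_lit 4560) (nat_lit 6) (nat_lit 60) (nat_lit 0) (nat_lit 140) (nat_lit 135) (nat_lit 115)) (PT.lf (nat_lit 4180) (nat_lit 6) (nat_lit 55) (nat_lit 0) (nat_lit 141) (nat_lit 135) (nat_lit 114)))) (PT.nd (nat_lit 78) (PT.lf (nat_lit 3648) (nat_lit 6) (nat_lit 48) (nat_lit 5) (nat_lit 112) (nat_lit 136) (nat_lit 142)) (PT.nd (nat_lit 78) (PT.lf (nat_lit 3952) (nat_lit 6) (nat_lit 52) (nat_lit 5) (nat_lit 113) (nat_lit 136) (nat_lit 141)) (PT.lf (nat_lit 4256) (nat_lit 6) (nat_lit 56) (nat_lit 5) (nat_lit 114) (nat_lit 136) (nat_lit 140))))) (PT.nd (nat_lit 234) (PT.nd (nat_lit 78) (PT.lf (nat_lit 4636) (nat_lit 6) (nat_lit 61) (nat_lit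 5) (nat_lit 115) (nat_lit 136) (nat_lit 139)) (PT.nd (nat_lit 78) (PT.lf (nat_lit 5016) (nat_lit 6) (nat_lit 66) (nat_lit 5) (nat_lit 116) (nat_lit 136) (nat_lit 138)) (PT.lf (nat_lit 5396) (nat_lit 6) (nat_lit 71) (nat_lit 5) (nat_lit 117) (nat_lit 136) (nat_lit 137)))) (PT.nd (nat_lit 78) (PT.lf (nat_lit 5776) (nat_lit 3) (nat_lit 76) (nat_lit 4) (nat_lit 118) (nat_lit 136) (nat_lit 136)) (PT.nd (nat_lit 78) (PT.lf (nat_lit 6156) (nat_lit 6) (nat_lit 81) (nat_lit 4) (nat_lit 119) (nat_lit 136) (nat_lit 135)) (PT.lf (nat_lit 6688) (nat_lit 6) (nat_lit 88) (nat_lit 4) (nat_lit 120) (nat_lit 136) (nat_lit 134))))))) (PT.nd (nat_lit 936) (PT.nd (nat_lit 468) (PT.nd (nat_lit 234) (PT.nd (nat_lit 78) (PT.lf (nat_lit 7372) (nat_lit 6) (nat_lit 97) (nat_lit 4) (nat_lit 121) (nat_lit 136) (nat_lit 133)) (PT.nd (nat_lit 78) (PT.lf (nat_lit 7980) (nat_lit 6) (nat_lit 105) (nat_lit 4) (nat_lit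 122) (nat_lit 136) (nat_lit 132)) (PT.lf (nat_lit 8512) (nat_lit 6) (nat_lit 112) (nat_lit 4) (nat_lit 123) (nat_lit 136) (nat_lit 131)))) (PT.nd (nat_lit 78) (PT.lf (nat_lit 8968) (nat_lit 6) (nat_lit 118) (nat_lit 4) (nat_lit 124) (nat_lit 136) (nat_lit 130)) (PT.nd (nat_lit 78) (PT.lf (nat_lit 8892) (nat_lit 6) (nat_lit 117) (nat_lit 4) (nat_lit 125) (nat_lit 136) (nat_lit 129)) (PT.lf (nat_lit 8816) (nat_lit 6) (nat_lit 116) (nat_lit 4) (nat_lit 126) (nat_lit 136) (nat_lit 128))))) (PT.nd (nat_lit 234) (PT.nd (nat_lit 78) (PT.lf (nat_lit 8740) (nat_lit 3) (nat_lit 115) (nat_lit 2) (nat_lit 127) (nat_lit 136) (nat_lit 127)) (PT.nd (nat_lit 78) (PT.lf (nat_lit 8816) (nat_lit 6) (nat_lit 116) (nat_lit 2) (nat_lit 128) (nat_lit 136) (nat_lit 126)) (PT.lf (nat_lit 8892) (nat_lit 6) (nat_lit 117) (nat_lit 2) (nat_lit 129) (nat_lit 136) (nat_lit 125)))) (PT.nd (nat_lit 78) (PT.lf (nat_lit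 8968) (nat_lit 6) (nat_lit 118) (nat_lit 2) (nat_lit 130) (nat_lit 136) (nat_lit 124)) (PT.nd (nat_lit 78) (PT.lf (nat_lit 8512) (nat_lit 6) (nat_lit 112) (nat_lit 2) (nat_lit 131) (nat_lit 136) (nat_lit 123)) (PT.lf (nat_lit 7980) (nat_lit 6) (nat_lit 105) (nat_lit 2) (nat_lit 132) (nat_lit 136) (nat_lit 122)))))) (PT.nd (nat_lit 468) (PT.nd (nat_lit 234) (PT.nd (nat_lit 78) (PT.lf (nat_lit 7372) (nat_lit 6) (nat_lit 97) (nat_lit 2) (nat_lit 133) (nat_lit 136) (nat_lit 121)) (PT.nd (nat_lit 78) (PT.lf (nat_lit 6688) (nat_lit 6) (nat_lit 88) (nat_lit 2) (nat_lit 134) (nat_lit 136) (nat_lit 120)) (PT.lf (nat_lit 6156) (nat_lit 6) (nat_lit 81) (nat_lit 2) (nat_lit 135) (nat_lit 136) (nat_lit 119)))) (PT.nd (nat_lit 78) (PT.lf (nat_lit 5776) (nat_lit 3) (nat_lit 76) (nat_lit 0) (nat_lit 136) (nat_lit 136) (nat_lit 118)) (PT.nd (nat_lit 78) (PT.lf (nat_lit 5396) (nat_lit 6) (nat_lit 71)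 (nat_lit 0) (nat_lit 137) (nat_lit 136) (nat_lit 117)) (PT.lf (nat_lit 5016) (nat_lit 6) (nat_lit 66) (nat_lit 0) (nat_lit 138) (nat_lit 136) (nat_lit 116))))) (PT.nd (nat_lit 234) (PT.nd (nat_lit 78) (PT.lf (nat_lit 4636) (nat_lit 6) (nat_lit 61) (nat_lit 0) (nat_lit 139) (nat_lit 136) (nat_lit 115)) (PT.nd (nat_lit 78) (PT.lf (nat_lit 4256) (nat_lit 6) (nat_lit 56) (nat_lit 0) (nat_lit 140) (nat_lit 136) (nat_lit 114)) (PT.lf (nat_lit 3952) (nat_lit 6) (nat_lit 52) (nat_lit 0) (nat_lit 141) (nat_lit 136) (nat_lit 113)))) (PT.nd (nat_lit 38220) (PT.lf (nat_lit 3648) (nat_lit 6) (nat_lit 48) (nat_lit 0) (nat_lit 142) (nat_lit 136) (nat_lit 112)) (PT.nd (nat_lit 78) (PT.lf (nat_lit 3420) (nat_lit 6) (nat_lit 45) (nat_lit 5) (nat_lit 111) (nat_lit 137) (nat_lit 142)) (PT.lf (nat_lit 3724) (nat_lit 6) (nat_lit 49) (nat_lit 5) (nat_lit 112) (nat_lit 137) (nat_lit 141))))))))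
noncomputable def pc10 : PT := (PT.nd (nat_lit 1794) (PT.nd (nat_lit 858) (PT.nd (nat_lit 390) (PT.nd (nat_lit 156) (PT.nd (nat_lit 78) (PT.lf (nat_lit 4028) (nat_lit 6) (nat_lit 53) (nat_lit 5) (nat_lit 113) (nat_lit 137) (nat_lit 140)) (PT.lf (nat_lit 4332) (nat_lit 6) (nat_lit 57) (nat_lit 5) (nat_lit 114) (nat_lit 137) (nat_lit 139))) (PT.nd (nat_lit 78) (PT.lf (nat_lit 4712) (nat_lit 6) (nat_lit 62) (nat_lit 5) (nat_lit 115) (nat_lit 137) (nat_lit 138)) (PT.nd (nat_lit 78) (PT.lf (nat_lit 5092) (nat_lit 3) (nat_lit 67) (nat_lit 4) (nat_lit 116) (nat_lit 137) (nat_lit 137)) (PT.lf (nat_lit 5396) (nat_lit 6) (nat_lit 71) (nat_lit 4) (nat_lit 117) (nat_lit 137) (nat_lit 136))))) (PT.nd (nat_lit 234) (PT.nd (nat_lit 78) (PT.lf (nat_lit 5700) (nat_lit 6) (nat_lit 75) (nat_lit 4) (nat_lit 118) (nat_lit 137) (nat_lit 135)) (PT.nd (nat_lit 78) (PT.lf (nat_lit 6080) (nat_lit 6) (nat_lit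 80) (nat_lit 4) (nat_lit 119) (nat_lit 137) (nat_lit 134)) (PT.lf (nat_lit 6612) (nat_lit 6) (nat_lit 87) (nat_lit 4) (nat_lit 120) (nat_lit 137) (nat_lit 133)))) (PT.nd (nat_lit 78) (PT.lf (nat_lit 7296) (nat_lit 6) (nat_lit 96) (nat_lit 4) (nat_lit 121) (nat_lit 137) (nat_lit 132)) (PT.nd (nat_lit 78) (PT.lf (nat_lit 7904) (nat_lit 6) (nat_lit 104) (nat_lit 4) (nat_lit 122) (nat_lit 137) (nat_lit 131)) (PT.lf (nat_lit 8436) (nat_lit 6) (nat_lit 111) (nat_lit 4) (nat_lit 123) (nat_lit 137) (nat_lit 130)))))) (PT.nd (nat_lit 468) (PT.nd (nat_lit 234) (PT.nd (nat_lit 78) (PT.lf (nat_lit 8360) (nat_lit 6) (nat_lit 110) (nat_lit 4) (nat_lit 124) (nat_lit 137) (nat_lit 129)) (PT.nd (nat_lit 78) (PT.lf (nat_lit 8284) (nat_lit 6) (nat_lit 109) (nat_lit 4) (nat_lit 125) (nat_lit 137) (nat_lit 128)) (PT.lf (nat_lit 8208) (nat_lit 6) (nat_lit 108) (nat_lit 4) (nat_lit 126) (nat_lit 137) (nat_lit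 127)))) (PT.nd (nat_lit 78) (PT.lf (nat_lit 8208) (nat_lit 6) (nat_lit 108) (nat_lit 2) (nat_lit 127) (nat_lit 137) (nat_lit 126)) (PT.nd (nat_lit 78) (PT.lf (nat_lit 8284) (nat_lit 6) (nat_lit 109) (nat_lit 2) (nat_lit 128) (nat_lit 137) (nat_lit 125)) (PT.lf (nat_lit 8360) (nat_lit 6) (nat_lit 110) (nat_lit 2) (nat_lit 129) (nat_lit 137) (nat_lit 124))))) (PT.nd (nat_lit 234) (PT.nd (nat_lit 78) (PT.lf (nat_lit 8436) (nat_lit 6) (nat_lit 111) (nat_lit 2) (nat_lit 130) (nat_lit 137) (nat_lit 123)) (PT.nd (nat_lit 78) (PT.lf (nat_lit 7904) (nat_lit 6) (nat_lit 104) (nat_lit 2) (nat_lit 131) (nat_lit 137) (nat_lit 122)) (PT.lf (nat_lit 7296) (nat_lit 6) (nat_lit 96) (nat_lit 2) (nat_lit 132) (nat_lit 137) (nat_lit 121)))) (PT.nd (nat_lit 78) (PT.lf (nat_lit 6612) (nat_lit 6) (nat_lit 87) (nat_lit 2) (nat_lit 133) (nat_lit 137) (nat_lit 120)) (PT.nd (nat_lit 78) (PT.lf (nat_lit 6080) (nat_lit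 6) (nat_lit 80) (nat_lit 2) (nat_lit 134) (nat_lit 137) (nat_lit 119)) (PT.lf (nat_lit 5700) (nat_lit 6) (nat_lit 75) (nat_lit 2) (nat_lit 135) (nat_lit 137) (nat_lit 118))))))) (PT.nd (nat_lit 38922) (PT.nd (nat_lit 468) (PT.nd (nat_lit 234) (PT.nd (nat_lit 78) (PT.lf (nat_lit 5396) (nat_lit 6) (nat_lit 71) (nat_lit 2) (nat_lit 136) (nat_lit 137) (nat_lit 117)) (PT.nd (nat_lit 78) (PT.lf (nat_lit 5092) (nat_lit 3) (nat_lit 67) (nat_lit 0) (nat_lit 137) (nat_lit 137) (nat_lit 116)) (PT.lf (nat_lit 4712) (nat_lit 6) (nat_lit 62) (nat_lit 0) (nat_lit 138) (nat_lit 137) (nat_lit 115)))) (PT.nd (nat_lit 78) (PT.lf (nat_lit 4332) (nat_lit 6) (nat_lit 57) (nat_lit 0) (nat_lit 139) (nat_lit 137) (nat_lit 114)) (PT.nd (nat_lit 78) (PT.lf (nat_lit 4028) (nat_lit 6) (nat_lit 53) (nat_lit 0) (nat_lit 140) (nat_lit 137) (nat_lit 113)) (PT.lf (nat_lit 3724) (nat_lit 6) (nat_lit 49) (nat_lit 0) (nat_lit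 141) (nat_lit 137) (nat_lit 112))))) (PT.nd (nat_lit 38220) (PT.nd (nat_lit 38064) (PT.lf (nat_lit 3420) (nat_lit 6) (nat_lit 45) (nat_lit 0) (nat_lit 142) (nat_lit 137) (nat_lit 111)) (PT.nd (nat_lit 78) (PT.lf (nat_lit 2964) (nat_lit 6) (nat_lit 39) (nat_lit 5) (nat_lit 109) (nat_lit 138) (nat_lit 143)) (PT.lf (nat_lit 3192) (nat_lit 6) (nat_lit 42) (nat_lit 5) (nat_lit 110) (nat_lit 138) (nat_lit 142)))) (PT.nd (nat_lit 78) (PT.lf (nat_lit 3496) (nat_lit 6) (nat_lit 46) (nat_lit 5) (nat_lit 111) (nat_lit 138) (nat_lit 141)) (PT.nd (nat_lit 78) (PT.lf (nat_lit 3800) (nat_lit 6) (nat_lit 50) (nat_lit 5) (nat_lit 112) (nat_lit 138) (nat_lit 140)) (PT.lf (nat_lit 4104) (nat_lit 6) (nat_lit 54) (nat_lit 5) (nat_lit 113) (nat_lit 138) (nat_lit 139)))))) (PT.nd (nat_lit 468) (PT.nd (nat_lit 234) (PT.nd (nat_lit 78) (PT.lf (nat_lit 4408) (nat_lit 3) (nat_lit 58) (nat_lit 4) (nat_lit 114)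 (nat_lit 138) (nat_lit 138)) (PT.nd (nat_lit 78) (PT.lf (nat_lit 4712) (nat_lit 6) (nat_lit 62) (nat_lit 4) (nat_lit 115) (nat_lit 138) (nat_lit 137)) (PT.lf (nat_lit 5016) (nat_lit 6) (nat_lit 66) (nat_lit 4) (nat_lit 116) (nat_lit 138) (nat_lit 136)))) (PT.nd (nat_lit 78) (PT.lf (nat_lit 5320) (nat_lit 6) (nat_lit 70) (nat_lit 4) (nat_lit 117) (nat_lit 138) (nat_lit 135)) (PT.nd (nat_lit 78) (PT.lf (nat_lit 5624) (nat_lit 6) (nat_lit 74) (nat_lit 4) (nat_lit 118) (nat_lit 138) (nat_lit 134)) (PT.lf (nat_lit 6004) (nat_lit 6) (nat_lit 79) (nat_lit 4) (nat_lit 119) (nat_lit 138) (nat_lit 133))))) (PT.nd (nat_lit 234) (PT.nd (nat_lit 78) (PT.lf (nat_lit 6536) (nat_lit 6) (nat_lit 86) (nat_lit 4) (nat_lit 120) (nat_lit 138) (nat_lit 132)) (PT.nd (nat_lit 78) (PT.lf (nat_lit 7220) (nat_lit 6) (nat_lit 95) (nat_lit 4) (nat_lit 121) (nat_lit 138) (nat_lit 131)) (PT.lf (nat_lit 7828) (nat_lit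 6) (nat_lit 103) (nat_lit 4) (nat_lit 122) (nat_lit 138) (nat_lit 130)))) (PT.nd (nat_lit 78) (PT.lf (nat_lit 7752) (nat_lit 6) (nat_lit 102) (nat_lit 4) (nat_lit 123) (nat_lit 138) (nat_lit 129)) (PT.nd (nat_lit 78) (PT.lf (nat_lit 7676) (nat_lit 6) (nat_lit 101) (nat_lit 4) (nat_lit 124) (nat_lit 138) (nat_lit 128)) (PT.lf (nat_lit 7600) (nat_lit 6) (nat_lit 100) (nat_lit 4) (nat_lit 125) (nat_lit 138) (nat_lit 127))))))))
noncomputable def pc11 : PT := (PT.nd (nat_lit 39624) (PT.nd (nat_lit 858) (PT.nd (nat_lit 390) (PT.nd (nat_lit 156) (PT.nd (nat_lit 78) (PT.lf (nat_lit 7524) (nat_lit 3) (nat_lit 99) (nat_lit 2) (nat_lit 126) (nat_lit 138) (nat_lit 126)) (PT.lf (nat_lit 7600) (nat_lit 6) (nat_lit 100) (nat_lit 2) (nat_lit 127) (nat_lit 138) (nat_lit 125))) (PT.nd (nat_lit 78) (PT.lf (nat_lit 7676) (nat_lit 6) (nat_lit 101) (nat_lit 2) (nat_lit 128) (nat_lit 138) (nat_lit 124)) (PT.nd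 (nat_lit 78) (PT.lf (nat_lit 7752) (nat_lit 6) (nat_lit 102) (nat_lit 2) (nat_lit 129) (nat_lit 138) (nat_lit 123)) (PT.lf (nat_lit 7828) (nat_lit 6) (nat_lit 103) (nat_lit 2) (nat_lit 130) (nat_lit 138) (nat_lit 122))))) (PT.nd (nat_lit 234) (PT.nd (nat_lit 78) (PT.lf (nat_lit 7220) (nat_lit 6) (nat_lit 95) (nat_lit 2) (nat_lit 131) (nat_lit 138) (nat_lit 121)) (PT.nd (nat_lit 78) (PT.lf (nat_lit 6536) (nat_lit 6) (nat_lit 86) (nat_lit 2) (nat_lit 132) (nat_lit 138) (nat_lit 120)) (PT.lf (nat_lit 6004) (nat_lit 6) (nat_lit 79) (nat_lit 2) (nat_lit 133) (nat_lit 138) (nat_lit 119)))) (PT.nd (nat_lit 78) (PT.lf (nat_lit 5624) (nat_lit 6) (nat_lit 74) (nat_lit 2) (nat_lit 134) (nat_lit 138) (nat_lit 118)) (PT.nd (nat_lit 78) (PT.lf (nat_lit 5320) (nat_lit 6) (nat_lit 70) (nat_lit 2) (nat_lit 135) (nat_lit 138) (nat_lit 117)) (PT.lf (nat_lit 5016) (nat_lit 6) (nat_lit 66) (nat_lit 2) (nat_lit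 136) (nat_lit 138) (nat_lit 116)))))) (PT.nd (nat_lit 468) (PT.nd (nat_lit 234) (PT.nd (nat_lit 78) (PT.lf (nat_lit 4712) (nat_lit 6) (nat_lit 62) (nat_lit 2) (nat_lit 137) (nat_lit 138) (nat_lit 115)) (PT.nd (nat_lit 78) (PT.lf (nat_lit 4408) (nat_lit 3) (nat_lit 58) (nat_lit 0) (nat_lit 138) (nat_lit 138) (nat_lit 114)) (PT.lf (nat_lit 4104) (nat_lit 6) (nat_lit 54) (nat_lit 0) (nat_lit 139) (nat_lit 138) (nat_lit 113)))) (PT.nd (nat_lit 78) (PT.lf (nat_lit 3800) (nat_lit 6) (nat_lit 50) (nat_lit 0) (nat_lit 140) (nat_lit 138) (nat_lit 112)) (PT.nd (nat_lit 78) (PT.lf (nat_lit 3496) (nat_lit 6) (nat_lit 46) (nat_lit 0) (nat_lit 141) (nat_lit 138) (nat_lit 111)) (PT.lf (nat_lit 3192) (nat_lit 6) (nat_lit 42) (nat_lit 0) (nat_lit 142) (nat_lit 138) (nat_lit 110))))) (PT.nd (nat_lit 38064) (PT.nd (nat_lit 37908) (PT.lf (nat_lit 2964) (nat_lit 6) (nat_lit 39) (nat_lit 0) (nat_lit 143)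 (nat_lit 138) (nat_lit 109)) (PT.nd (nat_lit 78) (PT.lf (nat_lit 2736) (nat_lit 6) (nat_lit 36) (nat_lit 5) (nat_lit 108) (nat_lit 139) (nat_lit 143)) (PT.lf (nat_lit 3040) (nat_lit 6) (nat_lit 40) (nat_lit 5) (nat_lit 109) (nat_lit 139) (nat_lit 142)))) (PT.nd (nat_lit 78) (PT.lf (nat_lit 3268) (nat_lit 6) (nat_lit 43) (nat_lit 5) (nat_lit 110) (nat_lit 139) (nat_lit 141)) (PT.nd (nat_lit 78) (PT.lf (nat_lit 3572) (nat_lit 6) (nat_lit 47) (nat_lit 5) (nat_lit 111) (nat_lit 139) (nat_lit 140)) (PT.lf (nat_lit 3876) (nat_lit 3) (nat_lit 51) (nat_lit 4) (nat_lit 112) (nat_lit 139) (nat_lit 139))))))) (PT.nd (nat_lit 936) (PT.nd (nat_lit 468) (PT.nd (nat_lit 234) (PT.nd (nat_lit 78) (PT.lf (nat_lit 4104) (nat_lit 6) (nat_lit 54) (nat_lit 4) (nat_lit 113) (nat_lit 139) (nat_lit 138)) (PT.nd (nat_lit 78) (PT.lf (nat_lit 4332) (nat_lit 6) (nat_lit 57) (nat_lit 4) (nat_lit 114) (nat_lit 139)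 (nat_lit 137)) (PT.lf (nat_lit 4636) (nat_lit 6) (nat_lit 61) (nat_lit 4) (nat_lit 115) (nat_lit 139) (nat_lit 136)))) (PT.nd (nat_lit 78) (PT.lf (nat_lit 4940) (nat_lit 6) (nat_lit 65) (nat_lit 4) (nat_lit 116) (nat_lit 139) (nat_lit 135)) (PT.nd (nat_lit 78) (PT.lf (nat_lit 5244) (nat_lit 6) (nat_lit 69) (nat_lit 4) (nat_lit 117) (nat_lit 139) (nat_lit 134)) (PT.lf (nat_lit 5548) (nat_lit 6) (nat_lit 73) (nat_lit 4) (nat_lit 118) (nat_lit 139) (nat_lit 133))))) (PT.nd (nat_lit 234) (PT.nd (nat_lit 78) (PT.lf (nat_lit 5928) (nat_lit 6) (nat_lit 78) (nat_lit 4) (nat_lit 119) (nat_lit 139) (nat_lit 132)) (PT.nd (nat_lit 78) (PT.lf (nat_lit 6460) (nat_lit 6) (nat_lit 85) (nat_lit 4) (nat_lit 120) (nat_lit 139) (nat_lit 131)) (PT.lf (nat_lit 7144) (nat_lit 6) (nat_lit 94) (nat_lit 4) (nat_lit 121) (nat_lit 139) (nat_lit 130)))) (PT.nd (nat_lit 78) (PT.lf (nat_lit 7068) (nat_lit 6) (nat_lit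 93) (nat_lit 4) (nat_lit 122) (nat_lit 139) (nat_lit 129)) (PT.nd (nat_lit 78) (PT.lf (nat_lit 6992) (nat_lit 6) (nat_lit 92) (nat_lit 4) (nat_lit 123) (nat_lit 139) (nat_lit 128)) (PT.lf (nat_lit 6916) (nat_lit 6) (nat_lit 91) (nat_lit 4) (nat_lit 124) (nat_lit 139) (nat_lit 127)))))) (PT.nd (nat_lit 468) (PT.nd (nat_lit 234) (PT.nd (nat_lit 78) (PT.lf (nat_lit 6840) (nat_lit 6) (nat_lit 90) (nat_lit 4) (nat_lit 125) (nat_lit 139) (nat_lit 126)) (PT.nd (nat_lit 78) (PT.lf (nat_lit 6840) (nat_lit 6) (nat_lit 90) (nat_lit 2) (nat_lit 126) (nat_lit 139) (nat_lit 125)) (PT.lf (nat_lit 6916) (nat_lit 6) (nat_lit 91) (nat_lit 2) (nat_lit 127) (nat_lit 139) (nat_lit 124)))) (PT.nd (nat_lit 78) (PT.lf (nat_lit 6992) (nat_lit 6) (nat_lit 92) (nat_lit 2) (nat_lit 128) (nat_lit 139) (nat_lit 123)) (PT.nd (nat_lit 78) (PT.lf (nat_lit 7068) (nat_lit 6) (nat_lit 93) (nat_lit 2) (nat_lit 129) (nat_lit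 139) (nat_lit 122)) (PT.lf (nat_lit 7144) (nat_lit 6) (nat_lit 94) (nat_lit 2) (nat_lit 130) (nat_lit 139) (nat_lit 121))))) (PT.nd (nat_lit 234) (PT.nd (nat_lit 78) (PT.lf (nat_lit 6460) (nat_lit 6) (nat_lit 85) (nat_lit 2) (nat_lit 131) (nat_lit 139) (nat_lit 120)) (PT.nd (nat_lit 78) (PT.lf (nat_lit 5928) (nat_lit 6) (nat_lit 78) (nat_lit 2) (nat_lit 132) (nat_lit 139) (nat_lit 119)) (PT.lf (nat_lit 5548) (nat_lit 6) (nat_lit 73) (nat_lit 2) (nat_lit 133) (nat_lit 139) (nat_lit 118)))) (PT.nd (nat_lit 78) (PT.lf (nat_lit 5244) (nat_lit 6) (nat_lit 69) (nat_lit 2) (nat_lit 134) (nat_lit 139) (nat_lit 117)) (PT.nd (nat_lit 78) (PT.lf (nat_lit 4940) (nat_lit 6) (nat_lit 65) (nat_lit 2) (nat_lit 135) (nat_lit 139) (nat_lit 116)) (PT.lf (nat_lit 4636) (nat_lit 6) (nat_lit 61) (nat_lit 2) (nat_lit 136) (nat_lit 139) (nat_lit 115))))))))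
noncomputable def pc12 : PT := (PT.nd (nat_lit 39468) (PT.nd (nat_lit 38532) (PT.nd (nat_lit 390) (PT.nd (nat_lit 156) (PT.nd (nat_lit 78) (PT.lf (nat_lit 4332) (nat_lit 6) (nat_lit 57) (nat_lit 2) (nat_lit 137) (nat_lit 139) (nat_lit 114)) (PT.lf (nat_lit 4104) (nat_lit 6) (nat_lit 54) (nat_lit 2) (nat_lit 138) (nat_lit 139) (nat_lit 113))) (PT.nd (nat_lit 78) (PT.lf (nat_lit 3876) (nat_lit 3) (nat_lit 51) (nat_lit 0) (nat_lit 139) (nat_lit 139) (nat_lit 112)) (PT.nd (nat_lit 78) (PT.lf (nat_lit 3572) (nat_lit 6) (nat_lit 47) (nat_lit 0) (nat_lit 140) (nat_lit 139) (nat_lit 111)) (PT.lf (nat_lit 3268) (nat_lit 6) (nat_lit 43) (nat_lit 0) (nat_lit 141) (nat_lit 139) (nat_lit 110))))) (PT.nd (nat_lit 37908) (PT.nd (nat_lit 78) (PT.lf (nat_lit 3040) (nat_lit 6) (nat_lit 40) (nat_lit 0) (nat_lit 142) (nat_lit 139) (nat_lit 109)) (PT.nd (nat_lit 37752) (PT.lf (nat_lit 2736) (nat_lit 6) (nat_lit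 36) (nat_lit 0) (nat_lit 143) (nat_lit 139) (nat_lit 108)) (PT.lf (nat_lit 2356) (nat_lit 6) (nat_lit 31) (nat_lit 5) (nat_lit 106) (nat_lit 140) (nat_lit 144)))) (PT.nd (nat_lit 78) (PT.lf (nat_lit 2584) (nat_lit 6) (nat_lit 34) (nat_lit 5) (nat_lit 107) (nat_lit 140) (nat_lit 143)) (PT.nd (nat_lit 78) (PT.lf (nat_lit 2812) (nat_lit 6) (nat_lit 37) (nat_lit 5) (nat_lit 108) (nat_lit 140) (nat_lit 142)) (PT.lf (nat_lit 3116) (nat_lit 6) (nat_lit 41) (nat_lit 5) (nat_lit 109) (nat_lit 140) (nat_lit 141)))))) (PT.nd (nat_lit 468) (PT.nd (nat_lit 234) (PT.nd (nat_lit 78) (PT.lf (nat_lit 3344) (nat_lit 3) (nat_lit 44) (nat_lit 4) (nat_lit 110) (nat_lit 140) (nat_lit 140)) (PT.nd (nat_lit 78) (PT.lf (nat_lit 3572) (nat_lit 6) (nat_lit 47) (nat_lit 4) (nat_lit 111) (nat_lit 140) (nat_lit 139)) (PT.lf (nat_lit 3800) (nat_lit 6) (nat_lit 50) (nat_lit 4) (nat_lit 112) (nat_lit 140) (nat_lit 138))))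 (PT.nd (nat_lit 78) (PT.lf (nat_lit 4028) (nat_lit 6) (nat_lit 53) (nat_lit 4) (nat_lit 113) (nat_lit 140) (nat_lit 137)) (PT.nd (nat_lit 78) (PT.lf (nat_lit 4256) (nat_lit 6) (nat_lit 56) (nat_lit 4) (nat_lit 114) (nat_lit 140) (nat_lit 136)) (PT.lf (nat_lit 4560) (nat_lit 6) (nat_lit 60) (nat_lit 4) (nat_lit 115) (nat_lit 140) (nat_lit 135))))) (PT.nd (nat_lit 234) (PT.nd (nat_lit 78) (PT.lf (nat_lit 4864) (nat_lit 6) (nat_lit 64) (nat_lit 4) (nat_lit 116) (nat_lit 140) (nat_lit 134)) (PT.nd (nat_lit 78) (PT.lf (nat_lit 5168) (nat_lit 6) (nat_lit 68) (nat_lit 4) (nat_lit 117) (nat_lit 140) (nat_lit 133)) (PT.lf (nat_lit 5472) (nat_lit 6) (nat_lit 72) (nat_lit 4) (nat_lit 118) (nat_lit 140) (nat_lit 132)))) (PT.nd (nat_lit 78) (PT.lf (nat_lit 5852) (nat_lit 6) (nat_lit 77) (nat_lit 4) (nat_lit 119) (nat_lit 140) (nat_lit 131)) (PT.nd (nat_lit 78) (PT.lf (nat_lit 6384) (nat_lit 6) (nat_lit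 84) (nat_lit 4) (nat_lit 120) (nat_lit 140) (nat_lit 130)) (PT.lf (nat_lit 6308) (nat_lit 6) (nat_lit 83) (nat_lit 4) (nat_lit 121) (nat_lit 140) (nat_lit 129))))))) (PT.nd (nat_lit 1326) (PT.nd (nat_lit 858) (PT.nd (nat_lit 624) (PT.nd (nat_lit 468) (PT.lf (nat_lit 6232) (nat_lit 6) (nat_lit 82) (nat_lit 4) (nat_lit 122) (nat_lit 140) (nat_lit 128)) (PT.nd (nat_lit 78) (PT.lf (nat_lit 6232) (nat_lit 6) (nat_lit 82) (nat_lit 2) (nat_lit 128) (nat_lit 140) (nat_lit 122)) (PT.lf (nat_lit 6308) (nat_lit 6) (nat_lit 83) (nat_lit 2) (nat_lit 129) (nat_lit 140) (nat_lit 121)))) (PT.nd (nat_lit 78) (PT.lf (nat_lit 6384) (nat_lit 6) (nat_lit 84) (nat_lit 2) (nat_lit 130) (nat_lit 140) (nat_lit 120)) (PT.nd (nat_lit 78) (PT.lf (nat_lit 5852) (nat_lit 6) (nat_lit 77) (nat_lit 2) (nat_lit 131) (nat_lit 140) (nat_lit 119)) (PT.lf (nat_lit 5472) (nat_lit 6) (nat_lit 72) (nat_lit 2) (nat_lit 132)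 (nat_lit 140) (nat_lit 118))))) (PT.nd (nat_lit 234) (PT.nd (nat_lit 78) (PT.lf (nat_lit 5168) (nat_lit 6) (nat_lit 68) (nat_lit 2) (nat_lit 133) (nat_lit 140) (nat_lit 117)) (PT.nd (nat_lit 78) (PT.lf (nat_lit 4864) (nat_lit 6) (nat_lit 64) (nat_lit 2) (nat_lit 134) (nat_lit 140) (nat_lit 116)) (PT.lf (nat_lit 4560) (nat_lit 6) (nat_lit 60) (nat_lit 2) (nat_lit 135) (nat_lit 140) (nat_lit 115)))) (PT.nd (nat_lit 78) (PT.lf (nat_lit 4256) (nat_lit 6) (nat_lit 56) (nat_lit 2) (nat_lit 136) (nat_lit 140) (nat_lit 114)) (PT.nd (nat_lit 78) (PT.lf (nat_lit 4028) (nat_lit 6) (nat_lit 53) (nat_lit 2) (nat_lit 137) (nat_lit 140) (nat_lit 113)) (PT.lf (nat_lit 3800) (nat_lit 6) (nat_lit 50) (nat_lit 2) (nat_lit 138) (nat_lit 140) (nat_lit 112)))))) (PT.nd (nat_lit 37986) (PT.nd (nat_lit 234) (PT.nd (nat_lit 78) (PT.lf (nat_lit 3572) (nat_lit 6) (nat_lit 47) (nat_lit 2) (nat_lit 139) (nat_lit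 140) (nat_lit 111)) (PT.nd (nat_lit 78) (PT.lf (nat_lit 3344) (nat_lit 3) (nat_lit 44) (nat_lit 0) (nat_lit 140) (nat_lit 140) (nat_lit 110)) (PT.lf (nat_lit 3116) (nat_lit 6) (nat_lit 41) (nat_lit 0) (nat_lit 141) (nat_lit 140) (nat_lit 109)))) (PT.nd (nat_lit 78) (PT.lf (nat_lit 2812) (nat_lit 6) (nat_lit 37) (nat_lit 0) (nat_lit 142) (nat_lit 140) (nat_lit 108)) (PT.nd (nat_lit 78) (PT.lf (nat_lit 2584) (nat_lit 6) (nat_lit 34) (nat_lit 0) (nat_lit 143) (nat_lit 140) (nat_lit 107)) (PT.lf (nat_lit 2356) (nat_lit 6) (nat_lit 31) (nat_lit 0) (nat_lit 144) (nat_lit 140) (nat_lit 106))))) (PT.nd (nat_lit 234) (PT.nd (nat_lit 78) (PT.lf (nat_lit 2204) (nat_lit 6) (nat_lit 29) (nat_lit 5) (nat_lit 105) (nat_lit 141) (nat_lit 144)) (PT.nd (nat_lit 78) (PT.lf (nat_lit 2432) (nat_lit 6) (nat_lit 32) (nat_lit 5) (nat_lit 106) (nat_lit 141) (nat_lit 143)) (PT.lf (nat_lit 2660) (nat_lit 6) (nat_lit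 35) (nat_lit 5) (nat_lit 107) (nat_lit 141) (nat_lit 142)))) (PT.nd (nat_lit 78) (PT.lf (nat_lit 2888) (nat_lit 3) (nat_lit 38) (nat_lit 4) (nat_lit 108) (nat_lit 141) (nat_lit 141)) (PT.nd (nat_lit 78) (PT.lf (nat_lit 3116) (nat_lit 6) (nat_lit 41) (nat_lit 4) (nat_lit 109) (nat_lit 141) (nat_lit 140)) (PT.lf (nat_lit 3268) (nat_lit 6) (nat_lit 43) (nat_lit 4) (nat_lit 110) (nat_lit 141) (nat_lit 139))))))))
noncomputable def pc13 : PT := (PT.nd (nat_lit 40404) (PT.nd (nat_lit 2106) (PT.nd (nat_lit 390) (PT.nd (nat_lit 156) (PT.nd (nat_lit 78) (PT.lf (nat_lit 3496) (nat_lit 6) (nat_lit 46) (nat_lit 4) (nat_lit 111) (nat_lit 141) (nat_lit 138)) (PT.lf (nat_lit 3724) (nat_lit 6) (nat_lit 49) (nat_lit 4) (nat_lit 112) (nat_lit 141) (nat_lit 137))) (PT.nd (nat_lit 78) (PT.lf (nat_lit 3952) (nat_lit 6) (nat_lit 52) (nat_lit 4) (nat_lit 113) (nat_lit 141) (nat_lit 136)) (PT.nd (nat_lit 78)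 (PT.lf (nat_lit 4180) (nat_lit 6) (nat_lit 55) (nat_lit 4) (nat_lit 114) (nat_lit 141) (nat_lit 135)) (PT.lf (nat_lit 4484) (nat_lit 6) (nat_lit 59) (nat_lit 4) (nat_lit 115) (nat_lit 141) (nat_lit 134))))) (PT.nd (nat_lit 1482) (PT.nd (nat_lit 1326) (PT.lf (nat_lit 4788) (nat_lit 6) (nat_lit 63) (nat_lit 4) (nat_lit 116) (nat_lit 141) (nat_lit 133)) (PT.nd (nat_lit 78) (PT.lf (nat_lit 4788) (nat_lit 6) (nat_lit 63) (nat_lit 2) (nat_lit 133) (nat_lit 141) (nat_lit 116)) (PT.lf (nat_lit 4484) (nat_lit 6) (nat_lit 59) (nat_lit 2) (nat_lit 134) (nat_lit 141) (nat_lit 115)))) (PT.nd (nat_lit 78) (PT.lf (nat_lit 4180) (nat_lit 6) (nat_lit 55) (nat_lit 2) (nat_lit 135) (nat_lit 141) (nat_lit 114)) (PT.nd (nat_lit 78) (PT.lf (nat_lit 3952) (nat_lit 6) (nat_lit 52) (nat_lit 2) (nat_lit 136) (nat_lit 141) (nat_lit 113)) (PT.lf (nat_lit 3724) (nat_lit 6) (nat_lit 49) (nat_lit 2) (nat_lit 137)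 (nat_lit 141) (nat_lit 112)))))) (PT.nd (nat_lit 468) (PT.nd (nat_lit 234) (PT.nd (nat_lit 78) (PT.lf (nat_lit 3496) (nat_lit 6) (nat_lit 46) (nat_lit 2) (nat_lit 138) (nat_lit 141) (nat_lit 111)) (PT.nd (nat_lit 78) (PT.lf (nat_lit 3268) (nat_lit 6) (nat_lit 43) (nat_lit 2) (nat_lit 139) (nat_lit 141) (nat_lit 110)) (PT.lf (nat_lit 3116) (nat_lit 6) (nat_lit 41) (nat_lit 2) (nat_lit 140) (nat_lit 141) (nat_lit 109)))) (PT.nd (nat_lit 78) (PT.lf (nat_lit 2888) (nat_lit 3) (nat_lit 38) (nat_lit 0) (nat_lit 141) (nat_lit 141) (nat_lit 108)) (PT.nd (nat_lit 78) (PT.lf (nat_lit 2660) (nat_lit 6) (nat_lit 35) (nat_lit 0) (nat_lit 142) (nat_lit 141) (nat_lit 107)) (PT.lf (nat_lit 2432) (nat_lit 6) (nat_lit 32) (nat_lit 0) (nat_lit 143) (nat_lit 141) (nat_lit 106))))) (PT.nd (nat_lit 37596) (PT.nd (nat_lit 37440) (PT.lf (nat_lit 2204) (nat_lit 6) (nat_lit 29) (nat_lit 0) (nat_lit 144) (nat_lit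 141) (nat_lit 105)) (PT.nd (nat_lit 78) (PT.lf (nat_lit 1900) (nat_lit 6) (nat_lit 25) (nat_lit 5) (nat_lit 103) (nat_lit 142) (nat_lit 145)) (PT.lf (nat_lit 2052) (nat_lit 6) (nat_lit 27) (nat_lit 5) (nat_lit 104) (nat_lit 142) (nat_lit 144)))) (PT.nd (nat_lit 78) (PT.lf (nat_lit 2280) (nat_lit 6) (nat_lit 30) (nat_lit 5) (nat_lit 105) (nat_lit 142) (nat_lit 143)) (PT.nd (nat_lit 78) (PT.lf (nat_lit 2508) (nat_lit 3) (nat_lit 33) (nat_lit 4) (nat_lit 106) (nat_lit 142) (nat_lit 142)) (PT.lf (nat_lit 2660) (nat_lit 6) (nat_lit 35) (nat_lit 4) (nat_lit 107) (nat_lit 142) (nat_lit 141))))))) (PT.nd (nat_lit 2730) (PT.nd (nat_lit 2262) (PT.nd (nat_lit 234) (PT.nd (nat_lit 78) (PT.lf (nat_lit 2812) (nat_lit 6) (nat_lit 37) (nat_lit 4) (nat_lit 108) (nat_lit 142) (nat_lit 140)) (PT.nd (nat_lit 78) (PT.lf (nat_lit 3040) (nat_lit 6) (nat_lit 40) (nat_lit 4) (nat_lit 109) (nat_lit 142) (nat_lit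 139)) (PT.lf (nat_lit 3192) (nat_lit 6) (nat_lit 42) (nat_lit 4) (nat_lit 110) (nat_lit 142) (nat_lit 138)))) (PT.nd (nat_lit 78) (PT.lf (nat_lit 3420) (nat_lit 6) (nat_lit 45) (nat_lit 4) (nat_lit 111) (nat_lit 142) (nat_lit 137)) (PT.nd (nat_lit 1872) (PT.lf (nat_lit 3648) (nat_lit 6) (nat_lit 48) (nat_lit 4) (nat_lit 112) (nat_lit 142) (nat_lit 136)) (PT.lf (nat_lit 3648) (nat_lit 6) (nat_lit 48) (nat_lit 2) (nat_lit 136) (nat_lit 142) (nat_lit 112))))) (PT.nd (nat_lit 234) (PT.nd (nat_lit 78) (PT.lf (nat_lit 3420) (nat_lit 6) (nat_lit 45) (nat_lit 2) (nat_lit 137) (nat_lit 142) (nat_lit 111)) (PT.nd (nat_lit 78) (PT.lf (nat_lit 3192) (nat_lit 6) (nat_lit 42) (nat_lit 2) (nat_lit 138) (nat_lit 142) (nat_lit 110)) (PT.lf (nat_lit 3040) (nat_lit 6) (nat_lit 40) (nat_lit 2) (nat_lit 139) (nat_lit 142) (nat_lit 109)))) (PT.nd (nat_lit 78) (PT.lf (nat_lit 2812) (nat_lit 6) (nat_lit 37)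 (nat_lit 2) (nat_lit 140) (nat_lit 142) (nat_lit 108)) (PT.nd (nat_lit 78) (PT.lf (nat_lit 2660) (nat_lit 6) (nat_lit 35) (nat_lit 2) (nat_lit 141) (nat_lit 142) (nat_lit 107)) (PT.lf (nat_lit 2508) (nat_lit 3) (nat_lit 33) (nat_lit 0) (nat_lit 142) (nat_lit 142) (nat_lit 106)))))) (PT.nd (nat_lit 37596) (PT.nd (nat_lit 37362) (PT.nd (nat_lit 78) (PT.lf (nat_lit 2280) (nat_lit 6) (nat_lit 30) (nat_lit 0) (nat_lit 143) (nat_lit 142) (nat_lit 105)) (PT.nd (nat_lit 78) (PT.lf (nat_lit 2052) (nat_lit 6) (nat_lit 27) (nat_lit 0) (nat_lit 144) (nat_lit 142) (nat_lit 104)) (PT.lf (nat_lit 1900) (nat_lit 6) (nat_lit 25) (nat_lit 0) (nat_lit 145) (nat_lit 142) (nat_lit 103)))) (PT.nd (nat_lit 78) (PT.lf (nat_lit 1596) (nat_lit 6) (nat_lit 21) (nat_lit 5) (nat_lit 101) (nat_lit 143) (nat_lit 146)) (PT.nd (nat_lit 78) (PT.lf (nat_lit 1748) (nat_lit 6) (nat_lit 23) (nat_lit 5) (nat_lit 102) (nat_lit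 143) (nat_lit 145)) (PT.lf (nat_lit 1976) (nat_lit 6) (nat_lit 26) (nat_lit 5) (nat_lit 103) (nat_lit 143) (nat_lit 144))))) (PT.nd (nat_lit 234) (PT.nd (nat_lit 78) (PT.lf (nat_lit 2128) (nat_lit 3) (nat_lit 28) (nat_lit 4) (nat_lit 104) (nat_lit 143) (nat_lit 143)) (PT.nd (nat_lit 78) (PT.lf (nat_lit 2280) (nat_lit 6) (nat_lit 30) (nat_lit 4) (nat_lit 105) (nat_lit 143) (nat_lit 142)) (PT.lf (nat_lit 2432) (nat_lit 6) (nat_lit 32) (nat_lit 4) (nat_lit 106) (nat_lit 143) (nat_lit 141)))) (PT.nd (nat_lit 78) (PT.lf (nat_lit 2584) (nat_lit 6) (nat_lit 34) (nat_lit 4) (nat_lit 107) (nat_lit 143) (nat_lit 140)) (PT.nd (nat_lit 78) (PT.lf (nat_lit 2736) (nat_lit 6) (nat_lit 36) (nat_lit 4) (nat_lit 108) (nat_lit 143) (nat_lit 139)) (PT.lf (nat_lit 2964) (nat_lit 6) (nat_lit 39) (nat_lit 4) (nat_lit 109) (nat_lit 143) (nat_lit 138))))))))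
noncomputable def pc14 : PT := (PT.nd (nat_lit 41262) (PT.nd (nat_lit 37752) (PT.nd (nat_lit 390) (PT.nd (nat_lit 156) (PT.nd (nat_lit 78) (PT.lf (nat_lit 2964) (nat_lit 6) (nat_lit 39) (nat_lit 2) (nat_lit 138) (nat_lit 143) (nat_lit 109)) (PT.lf (nat_lit 2736) (nat_lit 6) (nat_lit 36) (nat_lit 2) (nat_lit 139) (nat_lit 143) (nat_lit 108))) (PT.nd (nat_lit 78) (PT.lf (nat_lit 2584) (nat_lit 6) (nat_lit 34) (nat_lit 2) (nat_lit 140) (nat_lit 143) (nat_lit 107)) (PT.nd (nat_lit 78) (PT.lf (nat_lit 2432) (nat_lit 6) (nat_lit 32) (nat_lit 2) (nat_lit 141) (nat_lit 143) (nat_lit 106)) (PT.lf (nat_lit 2280) (nat_lit 6) (nat_lit 30) (nat_lit 2) (nat_lit 142) (nat_lit 143) (nat_lit 105))))) (PT.nd (nat_lit 234) (PT.nd (nat_lit 78) (PT.lf (nat_lit 2128) (nat_lit 3) (nat_lit 28) (nat_lit 0) (nat_lit 143) (nat_lit 143) (nat_lit 104)) (PT.nd (nat_lit 78) (PT.lf (nat_lit 1976) (nat_lit 6) (nat_lit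 26) (nat_lit 0) (nat_lit 144) (nat_lit 143) (nat_lit 103)) (PT.lf (nat_lit 1748) (nat_lit 6) (nat_lit 23) (nat_lit 0) (nat_lit 145) (nat_lit 143) (nat_lit 102)))) (PT.nd (nat_lit 36972) (PT.lf (nat_lit 1596) (nat_lit 6) (nat_lit 21) (nat_lit 0) (nat_lit 146) (nat_lit 143) (nat_lit 101)) (PT.nd (nat_lit 78) (PT.lf (nat_lit 1292) (nat_lit 6) (nat_lit 17) (nat_lit 5) (nat_lit 99) (nat_lit 144) (nat_lit 147)) (PT.lf (nat_lit 1444) (nat_lit 6) (nat_lit 19) (nat_lit 5) (nat_lit 100) (nat_lit 144) (nat_lit 146)))))) (PT.nd (nat_lit 3042) (PT.nd (nat_lit 234) (PT.nd (nat_lit 78) (PT.lf (nat_lit 1672) (nat_lit 6) (nat_lit 22) (nat_lit 5) (nat_lit 101) (nat_lit 144) (nat_lit 145)) (PT.nd (nat_lit 78) (PT.lf (nat_lit 1824) (nat_lit 3) (nat_lit 24) (nat_lit 4) (nat_lit 102) (nat_lit 144) (nat_lit 144)) (PT.lf (nat_lit 1976) (nat_lit 6) (nat_lit 26) (nat_lit 4) (nat_lit 103) (nat_lit 144) (nat_lit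 143)))) (PT.nd (nat_lit 78) (PT.lf (nat_lit 2052) (nat_lit 6) (nat_lit 27) (nat_lit 4) (nat_lit 104) (nat_lit 144) (nat_lit 142)) (PT.nd (nat_lit 78) (PT.lf (nat_lit 2204) (nat_lit 6) (nat_lit 29) (nat_lit 4) (nat_lit 105) (nat_lit 144) (nat_lit 141)) (PT.lf (nat_lit 2356) (nat_lit 6) (nat_lit 31) (nat_lit 4) (nat_lit 106) (nat_lit 144) (nat_lit 140))))) (PT.nd (nat_lit 234) (PT.nd (nat_lit 78) (PT.lf (nat_lit 2356) (nat_lit 6) (nat_lit 31) (nat_lit 2) (nat_lit 140) (nat_lit 144) (nat_lit 106)) (PT.nd (nat_lit 78) (PT.lf (nat_lit 2204) (nat_lit 6) (nat_lit 29) (nat_lit 2) (nat_lit 141) (nat_lit 144) (nat_lit 105)) (PT.lf (nat_lit 2052) (nat_lit 6) (nat_lit 27) (nat_lit 2) (nat_lit 142) (nat_lit 144) (nat_lit 104)))) (PT.nd (nat_lit 78) (PT.lf (nat_lit 1976) (nat_lit 6) (nat_lit 26) (nat_lit 2) (nat_lit 143) (nat_lit 144) (nat_lit 103)) (PT.nd (nat_lit 78) (PT.lf (nat_lit 1824) (nat_lit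 3) (nat_lit 24) (nat_lit 0) (nat_lit 144) (nat_lit 144) (nat_lit 102)) (PT.lf (nat_lit 1672) (nat_lit 6) (nat_lit 22) (nat_lit 0) (nat_lit 145) (nat_lit 144) (nat_lit 101))))))) (PT.nd (nat_lit 40638) (PT.nd (nat_lit 37206) (PT.nd (nat_lit 36972) (PT.nd (nat_lit 78) (PT.lf (nat_lit 1444) (nat_lit 6) (nat_lit 19) (nat_lit 0) (nat_lit 146) (nat_lit 144) (nat_lit 100)) (PT.nd (nat_lit 36816) (PT.lf (nat_lit 1292) (nat_lit 6) (nat_lit 17) (nat_lit 0) (nat_lit 147) (nat_lit 144) (nat_lit 99)) (PT.lf (nat_lit 1140) (nat_lit 6) (nat_lit 15) (nat_lit 5) (nat_lit 98) (nat_lit 145) (nat_lit 147)))) (PT.nd (nat_lit 78) (PT.lf (nat_lit 1368) (nat_lit 6) (nat_lit 18) (nat_lit 5) (nat_lit 99) (nat_lit 145) (nat_lit 146)) (PT.nd (nat_lit 78) (PT.lf (nat_lit 1520) (nat_lit 3) (nat_lit 20) (nat_lit 4) (nat_lit 100) (nat_lit 145) (nat_lit 145)) (PT.lf (nat_lit 1672) (nat_lit 6) (nat_lit 22) (nat_lit 4)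 (nat_lit 101) (nat_lit 145) (nat_lit 144))))) (PT.nd (nat_lit 3198) (PT.nd (nat_lit 78) (PT.lf (nat_lit 1748) (nat_lit 6) (nat_lit 23) (nat_lit 4) (nat_lit 102) (nat_lit 145) (nat_lit 143)) (PT.nd (nat_lit 3042) (PT.lf (nat_lit 1900) (nat_lit 6) (nat_lit 25) (nat_lit 4) (nat_lit 103) (nat_lit 145) (nat_lit 142)) (PT.lf (nat_lit 1900) (nat_lit 6) (nat_lit 25) (nat_lit 2) (nat_lit 142) (nat_lit 145) (nat_lit 103)))) (PT.nd (nat_lit 78) (PT.lf (nat_lit 1748) (nat_lit 6) (nat_lit 23) (nat_lit 2) (nat_lit 143) (nat_lit 145) (nat_lit 102)) (PT.nd (nat_lit 78) (PT.lf (nat_lit 1672) (nat_lit 6) (nat_lit 22) (nat_lit 2) (nat_lit 144) (nat_lit 145) (nat_lit 101)) (PT.lf (nat_lit 1520) (nat_lit 3) (nat_lit 20) (nat_lit 0) (nat_lit 145) (nat_lit 145) (nat_lit 100)))))) (PT.nd (nat_lit 37050) (PT.nd (nat_lit 36816) (PT.nd (nat_lit 78) (PT.lf (nat_lit 1368) (nat_lit 6) (nat_lit 18) (nat_lit 0) (nat_lit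 146) (nat_lit 145) (nat_lit 99)) (PT.nd (nat_lit 36660) (PT.lf (nat_lit 1140) (nat_lit 6) (nat_lit 15) (nat_lit 0) (nat_lit 147) (nat_lit 145) (nat_lit 98)) (PT.lf (nat_lit 912) (nat_lit 6) (nat_lit 12) (nat_lit 5) (nat_lit 96) (nat_lit 146) (nat_lit 148)))) (PT.nd (nat_lit 78) (PT.lf (nat_lit 1064) (nat_lit 6) (nat_lit 14) (nat_lit 5) (nat_lit 97) (nat_lit 146) (nat_lit 147)) (PT.nd (nat_lit 78) (PT.lf (nat_lit 1216) (nat_lit 3) (nat_lit 16) (nat_lit 4) (nat_lit 98) (nat_lit 146) (nat_lit 146)) (PT.lf (nat_lit 1368) (nat_lit 6) (nat_lit 18) (nat_lit 4) (nat_lit 99) (nat_lit 146) (nat_lit 145))))) (PT.nd (nat_lit 3432) (PT.nd (nat_lit 78) (PT.lf (nat_lit 1444) (nat_lit 6) (nat_lit 19) (nat_lit 4) (nat_lit 100) (nat_lit 146) (nat_lit 144)) (PT.nd (nat_lit 3276) (PT.lf (nat_lit 1596) (nat_lit 6) (nat_lit 21) (nat_lit 4) (nat_lit 101) (nat_lit 146) (nat_lit 143)) (PT.lf (nat_lit 1596) (nat_lit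 6) (nat_lit 21) (nat_lit 2) (nat_lit 143) (nat_lit 146) (nat_lit 101)))) (PT.nd (nat_lit 78) (PT.lf (nat_lit 1444) (nat_lit 6) (nat_lit 19) (nat_lit 2) (nat_lit 144) (nat_lit 146) (nat_lit 100)) (PT.nd (nat_lit 78) (PT.lf (nat_lit 1368) (nat_lit 6) (nat_lit 18) (nat_lit 2) (nat_lit 145) (nat_lit 146) (nat_lit 99)) (PT.lf (nat_lit 1216) (nat_lit 3) (nat_lit 16) (nat_lit 0) (nat_lit 146) (nat_lit 146) (nat_lit 98))))))))
noncomputable def pc15 : PT := (PT.nd (nat_lit 117468) (PT.nd (nat_lit 40716) (PT.nd (nat_lit 36816) (PT.nd (nat_lit 36582) (PT.nd (nat_lit 78) (PT.lf (nat_lit 1064) (nat_lit 6) (nat_lit 14) (nat_lit 0) (nat_lit 147) (nat_lit 146) (nat_lit 97)) (PT.nd (nat_lit 36426) (PT.lf (nat_lit 912) (nat_lit 6) (nat_lit 12) (nat_lit 0) (nat_lit 148) (nat_lit 146) (nat_lit 96)) (PT.lf (nat_lit 684) (nat_lit 6) (nat_lit 9) (nat_lit 5) (nat_lit 94) (nat_lit 147) (nat_lit 149)))) (PT.nd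 (nat_lit 78) (PT.lf (nat_lit 836) (nat_lit 6) (nat_lit 11) (nat_lit 5) (nat_lit 95) (nat_lit 147) (nat_lit 148)) (PT.nd (nat_lit 78) (PT.lf (nat_lit 988) (nat_lit 3) (nat_lit 13) (nat_lit 4) (nat_lit 96) (nat_lit 147) (nat_lit 147)) (PT.lf (nat_lit 1064) (nat_lit 6) (nat_lit 14) (nat_lit 4) (nat_lit 97) (nat_lit 147) (nat_lit 146))))) (PT.nd (nat_lit 3666) (PT.nd (nat_lit 78) (PT.lf (nat_lit 1140) (nat_lit 6) (nat_lit 15) (nat_lit 4) (nat_lit 98) (nat_lit 147) (nat_lit 145)) (PT.nd (nat_lit 3510) (PT.lf (nat_lit 1292) (nat_lit 6) (nat_lit 17) (nat_lit 4) (nat_lit 99) (nat_lit 147) (nat_lit 144)) (PT.lf (nat_lit 1292) (nat_lit 6) (nat_lit 17) (nat_lit 2) (nat_lit 144) (nat_lit 147) (nat_lit 99)))) (PT.nd (nat_lit 78) (PT.lf (nat_lit 1140) (nat_lit 6) (nat_lit 15) (nat_lit 2) (nat_lit 145) (nat_lit 147) (nat_lit 98)) (PT.nd (nat_lit 78) (PT.lf (nat_lit 1064) (nat_lit 6) (nat_lit 14) (nat_lit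 2) (nat_lit 146) (nat_lit 147) (nat_lit 97)) (PT.lf (nat_lit 988) (nat_lit 3) (nat_lit 13) (nat_lit 0) (nat_lit 147) (nat_lit 147) (nat_lit 96)))))) (PT.nd (nat_lit 36582) (PT.nd (nat_lit 36348) (PT.nd (nat_lit 78) (PT.lf (nat_lit 836) (nat_lit 6) (nat_lit 11) (nat_lit 0) (nat_lit 148) (nat_lit 147) (nat_lit 95)) (PT.nd (nat_lit 36192) (PT.lf (nat_lit 684) (nat_lit 6) (nat_lit 9) (nat_lit 0) (nat_lit 149) (nat_lit 147) (nat_lit 94)) (PT.lf (nat_lit 456) (nat_lit 6) (nat_lit 6) (nat_lit 5) (nat_lit 92) (nat_lit 148) (nat_lit 150)))) (PT.nd (nat_lit 78) (PT.lf (nat_lit 608) (nat_lit 6) (nat_lit 8) (nat_lit 5) (nat_lit 93) (nat_lit 148) (nat_lit 149)) (PT.nd (nat_lit 78) (PT.lf (nat_lit 760) (nat_lit 3) (nat_lit 10) (nat_lit 4) (nat_lit 94) (nat_lit 148) (nat_lit 148)) (PT.lf (nat_lit 836) (nat_lit 6) (nat_lit 11) (nat_lit 4) (nat_lit 95) (nat_lit 148) (nat_lit 147))))) (PT.nd (nat_lit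 4056) (PT.nd (nat_lit 3900) (PT.lf (nat_lit 912) (nat_lit 6) (nat_lit 12) (nat_lit 4) (nat_lit 96) (nat_lit 148) (nat_lit 146)) (PT.nd (nat_lit 78) (PT.lf (nat_lit 912) (nat_lit 6) (nat_lit 12) (nat_lit 2) (nat_lit 146) (nat_lit 148) (nat_lit 96)) (PT.lf (nat_lit 836) (nat_lit 6) (nat_lit 11) (nat_lit 2) (nat_lit 147) (nat_lit 148) (nat_lit 95)))) (PT.nd (nat_lit 78) (PT.lf (nat_lit 760) (nat_lit 3) (nat_lit 10) (nat_lit 0) (nat_lit 148) (nat_lit 148) (nat_lit 94)) (PT.nd (nat_lit 78) (PT.lf (nat_lit 608) (nat_lit 6) (nat_lit 8) (nat_lit 0) (nat_lit 149) (nat_lit 148) (nat_lit 93)) (PT.lf (nat_lit 456) (nat_lit 6) (nat_lit 6) (nat_lit 0) (nat_lit 150) (nat_lit 148) (nat_lit 92))))))) (PT.nd (nat_lit 40716) (PT.nd (nat_lit 4524) (PT.nd (nat_lit 234) (PT.nd (nat_lit 78) (PT.lf (nat_lit 228) (nat_lit 6) (nat_lit 3) (nat_lit 5) (nat_lit 90) (nat_lit 149) (nat_lit 151)) (PT.nd (nat_lit 78)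 (PT.lf (nat_lit 380) (nat_lit 6) (nat_lit 5) (nat_lit 5) (nat_lit 91) (nat_lit 149) (nat_lit 150)) (PT.lf (nat_lit 532) (nat_lit 3) (nat_lit 7) (nat_lit 4) (nat_lit 92) (nat_lit 149) (nat_lit 149)))) (PT.nd (nat_lit 78) (PT.lf (nat_lit 608) (nat_lit 6) (nat_lit 8) (nat_lit 4) (nat_lit 93) (nat_lit 149) (nat_lit 148)) (PT.nd (nat_lit 4134) (PT.lf (nat_lit 684) (nat_lit 6) (nat_lit 9) (nat_lit 4) (nat_lit 94) (nat_lit 149) (nat_lit 147)) (PT.lf (nat_lit 684) (nat_lit 6) (nat_lit 9) (nat_lit 2) (nat_lit 147) (nat_lit 149) (nat_lit 94))))) (PT.nd (nat_lit 234) (PT.nd (nat_lit 78) (PT.lf (nat_lit 608) (nat_lit 6) (nat_lit 8) (nat_lit 2) (nat_lit 148) (nat_lit 149) (nat_lit 93)) (PT.nd (nat_lit 78) (PT.lf (nat_lit 532) (nat_lit 3) (nat_lit 7) (nat_lit 0) (nat_lit 149) (nat_lit 149) (nat_lit 92)) (PT.lf (nat_lit 380) (nat_lit 6) (nat_lit 5) (nat_lit 0) (nat_lit 150) (nat_lit 149) (nat_lit 91))))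 (PT.nd (nat_lit 35802) (PT.lf (nat_lit 228) (nat_lit 6) (nat_lit 3) (nat_lit 0) (nat_lit 151) (nat_lit 149) (nat_lit 90)) (PT.nd (nat_lit 78) (PT.lf (nat_lit 152) (nat_lit 6) (nat_lit 2) (nat_lit 5) (nat_lit 89) (nat_lit 150) (nat_lit 151)) (PT.lf (nat_lit 304) (nat_lit 3) (nat_lit 4) (nat_lit 4) (nat_lit 90) (nat_lit 150) (nat_lit 150)))))) (PT.nd (nat_lit 40404) (PT.nd (nat_lit 4524) (PT.nd (nat_lit 78) (PT.lf (nat_lit 380) (nat_lit 6) (nat_lit 5) (nat_lit 4) (nat_lit 91) (nat_lit 150) (nat_lit 149)) (PT.nd (nat_lit 4368) (PT.lf (nat_lit 456) (nat_lit 6) (nat_lit 6) (nat_lit 4) (nat_lit 92) (nat_lit 150) (nat_lit 148)) (PT.lf (nat_lit 456) (nat_lit 6) (nat_lit 6) (nat_lit 2) (nat_lit 148) (nat_lit 150) (nat_lit 92)))) (PT.nd (nat_lit 78) (PT.lf (nat_lit 380) (nat_lit 6) (nat_lit 5) (nat_lit 2) (nat_lit 149) (nat_lit 150) (nat_lit 91)) (PT.nd (nat_lit 78) (PT.lf (nat_lit 304) (nat_lit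 3) (nat_lit 4) (nat_lit 0) (nat_lit 150) (nat_lit 150) (nat_lit 90)) (PT.lf (nat_lit 152) (nat_lit 6) (nat_lit 2) (nat_lit 0) (nat_lit 151) (nat_lit 150) (nat_lit 89))))) (PT.nd (nat_lit 4758) (PT.nd (nat_lit 78) (PT.lf (nat_lit 76) (nat_lit 3) (nat_lit 1) (nat_lit 4) (nat_lit 88) (nat_lit 151) (nat_lit 151)) (PT.nd (nat_lit 78) (PT.lf (nat_lit 152) (nat_lit 6) (nat_lit 2) (nat_lit 4) (nat_lit 89) (nat_lit 151) (nat_lit 150)) (PT.lf (nat_lit 228) (nat_lit 6) (nat_lit 3) (nat_lit 4) (nat_lit 90) (nat_lit 151) (nat_lit 149)))) (PT.nd (nat_lit 78) (PT.lf (nat_lit 228) (nat_lit 6) (nat_lit 3) (nat_lit 2) (nat_lit 149) (nat_lit 151) (nat_lit 90)) (PT.nd (nat_lit 78) (PT.lf (nat_lit 152) (nat_lit 6) (nat_lit 2) (nat_lit 2) (nat_lit 150) (nat_lit 151) (nat_lit 89)) (PT.lf (nat_lit 76) (nat_lit 3) (nat_lit 1) (nat_lit 0) (nat_lit 151) (nat_lit 151) (nat_lit 88))))))))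
noncomputable def xc0 : XT := (XT.nd (nat_lit 161928) (nat_lit 0) (nat_lit 0) (XT.nd (nat_lit 81276) (nat_lit 0) (nat_lit 0) (XT.nd (nat_lit 40716) (nat_lit 0) (nat_lit 0) (XT.nd (nat_lit 40482) (nat_lit 0) (nat_lit 0) (XT.nd (nat_lit 78) (nat_lit 0) (nat_lit 0) (XT.lf (nat_lit 0) (nat_lit 166781897217) (nat_lit 76) (nat_lit 78951771801) (nat_lit 76) (nat_lit 78951771801) (nat_lit 1) (nat_lit 4) (nat_lit 2) (nat_lit 5) (nat_lit 2) (nat_lit 4) (nat_lit 390) (nat_lit 195) (nat_lit 195)) (XT.lf (nat_lit 0) (nat_lit 352189632312) (nat_lit 76) (nat_lit 164821821064) (nat_lit 76) (nat_lit 164776716098) (nat_lit 1) (nat_lit 4) (nat_lit 2) (nat_lit 5) (nat_lit 2) (nat_lit 4) (nat_lit 391) (nat_lit 195) (nat_lit 194))) (XT.nd (nat_lit 78) (nat_lit 0) (nat_lit 0) (XT.lf (nat_lit 0) (nat_lit 149389780564) (nat_lit 76) (nat_lit 72579563837) (nat_lit 76) (nat_lit 72579563837) (nat_lit 1) (nat_lit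 4) (nat_lit 2) (nat_lit 5) (nat_lit 2) (nat_lit 4) (nat_lit 388) (nat_lit 196) (nat_lit 196)) (XT.nd (nat_lit 78) (nat_lit 0) (nat_lit 0) (XT.lf (nat_lit 0) (nat_lit 315763569749) (nat_lit 76) (nat_lit 151391339353) (nat_lit 76) (nat_lit 151343979139) (nat_lit 1) (nat_lit 4) (nat_lit 2) (nat_lit 5) (nat_lit 2) (nat_lit 4) (nat_lit 389) (nat_lit 196) (nat_lit 195)) (XT.lf (nat_lit 0) (nat_lit 333532380755) (nat_lit 76) (nat_lit 157965896389) (nat_lit 76) (nat_lit 157873431210) (nat_lit 1) (nat_lit 4) (nat_lit 2) (nat_lit 5) (nat_lit 2) (nat_lit 4) (nat_lit 390) (nat_lit 196) (nat_lit 194))))) (XT.nd (nat_lit 40326) (nat_lit 0) (nat_lit 0) (XT.nd (nat_lit 40248) (nat_lit 0) (nat_lit 0) (XT.lf (nat_lit 0) (nat_lit 352128300842) (nat_lit 76) (nat_lit 164898452490) (nat_lit 76) (nat_lit 164763030202) (nat_lit 1) (nat_lit 4) (nat_lit 2) (nat_lit 5) (nat_lit 2) (nat_lit 4) (nat_lit 391) (nat_lit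 196) (nat_lit 193)) (XT.lf (nat_lit 0) (nat_lit 133520302233) (nat_lit 76) (nat_lit 66848182342) (nat_lit 76) (nat_lit 66848182342) (nat_lit 1) (nat_lit 4) (nat_lit 2) (nat_lit 5) (nat_lit 2) (nat_lit 4) (nat_lit 386) (nat_lit 197) (nat_lit 197))) (XT.nd (nat_lit 78) (nat_lit 0) (nat_lit 0) (XT.lf (nat_lit 0) (nat_lit 282539916781) (nat_lit 76) (nat_lit 139304150979) (nat_lit 76) (nat_lit 139254422754) (nat_lit 1) (nat_lit 4) (nat_lit 2) (nat_lit 5) (nat_lit 2) (nat_lit 4) (nat_lit 387) (nat_lit 197) (nat_lit 196)) (XT.nd (nat_lit 78) (nat_lit 0) (nat_lit 0) (XT.lf (nat_lit 0) (nat_lit 298746576765) (nat_lit 76) (nat_lit 145224598100) (nat_lit 76) (nat_lit 145127509662) (nat_lit 1) (nat_lit 4) (nat_lit 2) (nat_lit 5) (nat_lit 2) (nat_lit 4) (nat_lit 388) (nat_lit 197) (nat_lit 195)) (XT.lf (nat_lit 0) (nat_lit 315699171705) (nat_lit 76) (nat_lit 151471802351) (nat_lit 76) (nat_lit 151329608948)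 (nat_lit 1) (nat_lit 4) (nat_lit 2) (nat_lit 5) (nat_lit 2) (nat_lit 4) (nat_lit 389) (nat_lit 197) (nat_lit 194)))))) (XT.nd (nat_lit 40404) (nat_lit 0) (nat_lit 0) (XT.nd (nat_lit 40170) (nat_lit 0) (nat_lit 0) (XT.nd (nat_lit 78) (nat_lit 0) (nat_lit 0) (XT.lf (nat_lit 0) (nat_lit 333438064921) (nat_lit 76) (nat_lit 158060638028) (nat_lit 76) (nat_lit 157875487515) (nat_lit 1) (nat_lit 4) (nat_lit 2) (nat_lit 5) (nat_lit 2) (nat_lit 4) (nat_lit 390) (nat_lit 197) (nat_lit 193)) (XT.lf (nat_lit 0) (nat_lit 352005491874) (nat_lit 76) (nat_lit 165006792835) (nat_lit 76) (nat_lit 164780730789) (nat_lit 1) (nat_lit 4) (nat_lit 2) (nat_lit 5) (nat_lit 2) (nat_lit 4) (nat_lit 391) (nat_lit 197) (nat_lit 192))) (XT.nd (nat_lit 78) (nat_lit 0) (nat_lit 0) (XT.lf (nat_lit 0) (nat_lit 119027185953) (nat_lit 76) (nat_lit 61700469295) (nat_lit 76) (nat_lit 61700469295) (nat_lit 1) (nat_lit 4)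 (nat_lit 2) (nat_lit 5) (nat_lit 2) (nat_lit 4) (nat_lit 384) (nat_lit 198) (nat_lit 198)) (XT.nd (nat_lit 78) (nat_lit 0) (nat_lit 0) (XT.lf (nat_lit 0) (nat_lit 252211736698) (nat_lit 76) (nat_lit 128440101982) (nat_lit 76) (nat_lit 128387887346) (nat_lit 1) (nat_lit 4) (nat_lit 2) (nat_lit 5) (nat_lit 2) (nat_lit 4) (nat_lit 385) (nat_lit 198) (nat_lit 197)) (XT.lf (nat_lit 0) (nat_lit 267005970885) (nat_lit 76) (nat_lit 133765108632) (nat_lit 76) (nat_lit 133663165772) (nat_lit 1) (nat_lit 4) (nat_lit 2) (nat_lit 5) (nat_lit 2) (nat_lit 4) (nat_lit 386) (nat_lit 198) (nat_lit 196))))) (XT.nd (nat_lit 156) (nat_lit 0) (nat_lit 0) (XT.nd (nat_lit 78) (nat_lit 0) (nat_lit 0) (XT.lf (nat_lit 0) (nat_lit 282472298835) (nat_lit 76) (nat_lit 139388637127) (nat_lit 76) (nat_lit 139239334053) (nat_lit 1) (nat_lit 4) (nat_lit 2) (nat_lit 5) (nat_lit 2) (nat_lit 4) (nat_lit 387) (nat_lit 198)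 (nat_lit 195)) (XT.lf (nat_lit 0) (nat_lit 298647545139) (nat_lit 76) (nat_lit 145324076821) (nat_lit 76) (nat_lit 145129668782) (nat_lit 1) (nat_lit 4) (nat_lit 2) (nat_lit 5) (nat_lit 2) (nat_lit 4) (nat_lit 388) (nat_lit 198) (nat_lit 194))) (XT.nd (nat_lit 78) (nat_lit 0) (nat_lit 0) (XT.lf (nat_lit 0) (nat_lit 315570222288) (nat_lit 76) (nat_lit 151585559712) (nat_lit 76) (nat_lit 151348194564) (nat_lit 1) (nat_lit 4) (nat_lit 2) (nat_lit 5) (nat_lit 2) (nat_lit 4) (nat_lit 389) (nat_lit 198) (nat_lit 193)) (XT.nd (nat_lit 78) (nat_lit 0) (nat_lit 0) (XT.lf (nat_lit 0) (nat_lit 333280622371) (nat_lit 76) (nat_lit 158187994095) (nat_lit 76) (nat_lit 157909717413) (nat_lit 1) (nat_lit 4) (nat_lit 2) (nat_lit 5) (nat_lit 2) (nat_lit 4) (nat_lit 390) (nat_lit 198) (nat_lit 192)) (XT.lf (nat_lit 0) (nat_lit 351820913006) (nat_lit 76) (nat_lit 165147100049) (nat_lit 76) (nat_lit 164829860003)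 (nat_lit 1) (nat_lit 4) (nat_lit 2) (nat_lit 5) (nat_lit 2) (nat_lit 4) (nat_lit 391) (nat_lit 198) (nat_lit 191))))))) (XT.nd (nat_lit 40482) (nat_lit 0) (nat_lit 0) (XT.nd (nat_lit 390) (nat_lit 0) (nat_lit 0) (XT.nd (nat_lit 156) (nat_lit 0) (nat_lit 0) (XT.nd (nat_lit 78) (nat_lit 0) (nat_lit 0) (XT.lf (nat_lit 0) (nat_lit 105777519045) (nat_lit 76) (nat_lit 57084701680) (nat_lit 76) (nat_lit 57084701680) (nat_lit 1) (nat_lit 4) (nat_lit 2) (nat_lit 5) (nat_lit 2) (nat_lit 4) (nat_lit 382) (nat_lit 199) (nat_lit 199)) (XT.lf (nat_lit 0) (nat_lit 224500168501) (nat_lit 76) (nat_lit 118690445815) (nat_lit 76) (nat_lit 118635620448) (nat_lit 1) (nat_lit 4) (nat_lit 2) (nat_lit 5) (nat_lit 2) (nat_lit 4) (nat_lit 383) (nat_lit 199) (nat_lit 198))) (XT.nd (nat_lit 78) (nat_lit 0) (nat_lit 0) (XT.lf (nat_lit 0) (nat_lit 238018006646) (nat_lit 76) (nat_lit 123473119734) (nat_lit 76) (nat_lit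 123366079731) (nat_lit 1) (nat_lit 4) (nat_lit 2) (nat_lit 5) (nat_lit 2) (nat_lit 4) (nat_lit 384) (nat_lit 199) (nat_lit 197)) (XT.nd (nat_lit 78) (nat_lit 0) (nat_lit 0) (XT.lf (nat_lit 0) (nat_lit 252140737854) (nat_lit 76) (nat_lit 128528812437) (nat_lit 76) (nat_lit 128372044211) (nat_lit 1) (nat_lit 4) (nat_lit 2) (nat_lit 5) (nat_lit 2) (nat_lit 4) (nat_lit 385) (nat_lit 199) (nat_lit 196)) (XT.lf (nat_lit 0) (nat_lit 266901987678) (nat_lit 76) (nat_lit 133869561289) (nat_lit 76) (nat_lit 133665432848) (nat_lit 1) (nat_lit 4) (nat_lit 2) (nat_lit 5) (nat_lit 2) (nat_lit 4) (nat_lit 386) (nat_lit 199) (nat_lit 195))))) (XT.nd (nat_lit 156) (nat_lit 0) (nat_lit 0) (XT.nd (nat_lit 78) (nat_lit 0) (nat_lit 0) (XT.lf (nat_lit 0) (nat_lit 282336901948) (nat_lit 76) (nat_lit 139508082356) (nat_lit 76) (nat_lit 139258848950) (nat_lit 1) (nat_lit 4) (nat_lit 2) (nat_lit 5) (nat_lit 2)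 (nat_lit 4) (nat_lit 387) (nat_lit 199) (nat_lit 194)) (XT.lf (nat_lit 0) (nat_lit 298482230462) (nat_lit 76) (nat_lit 145457800691) (nat_lit 76) (nat_lit 145165610175) (nat_lit 1) (nat_lit 4) (nat_lit 2) (nat_lit 5) (nat_lit 2) (nat_lit 4) (nat_lit 388) (nat_lit 199) (nat_lit 193))) (XT.nd (nat_lit 78) (nat_lit 0) (nat_lit 0) (XT.lf (nat_lit 0) (nat_lit 315376414477) (nat_lit 76) (nat_lit 151732882288) (nat_lit 76) (nat_lit 151399780239) (nat_lit 1) (nat_lit 4) (nat_lit 2) (nat_lit 5) (nat_lit 2) (nat_lit 4) (nat_lit 389) (nat_lit 199) (nat_lit 192)) (XT.nd (nat_lit 78) (nat_lit 0) (nat_lit 0) (XT.lf (nat_lit 0) (nat_lit 333059678242) (nat_lit 76) (nat_lit 158348267818) (nat_lit 76) (nat_lit 157976202404) (nat_lit 1) (nat_lit 4) (nat_lit 2) (nat_lit 5) (nat_lit 2) (nat_lit 4) (nat_lit 390) (nat_lit 199) (nat_lit 191)) (XT.lf (nat_lit 0) (nat_lit 351574124764) (nat_lit 76) (nat_lit 165319708200)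 (nat_lit 76) (nat_lit 164910534819) (nat_lit 1) (nat_lit 4) (nat_lit 2) (nat_lit 5) (nat_lit 2) (nat_lit 4) (nat_lit 391) (nat_lit 199) (nat_lit 190)))))) (XT.nd (nat_lit 390) (nat_lit 0) (nat_lit 0) (XT.nd (nat_lit 156) (nat_lit 0) (nat_lit 0) (XT.nd (nat_lit 78) (nat_lit 0) (nat_lit 0) (XT.lf (nat_lit 0) (nat_lit 93650498212) (nat_lit 76) (nat_lit 52954092248) (nat_lit 76) (nat_lit 52954092248) (nat_lit 1) (nat_lit 4) (nat_lit 2) (nat_lit 5) (nat_lit 2) (nat_lit 4) (nat_lit 380) (nat_lit 200) (nat_lit 200)) (XT.lf (nat_lit 0) (nat_lit 199151793677) (nat_lit 76) (nat_lit 109956794622) (nat_lit 76) (nat_lit 109899227986) (nat_lit 1) (nat_lit 4) (nat_lit 2) (nat_lit 5) (nat_lit 2) (nat_lit 4) (nat_lit 381) (nat_lit 200) (nat_lit 199))) (XT.nd (nat_lit 78) (nat_lit 0) (nat_lit 0) (XT.lf (nat_lit 0) (nat_lit 211516854566) (nat_lit 76) (nat_lit 114245193563) (nat_lit 76) (nat_lit 114132801560)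 (nat_lit 1) (nat_lit 4) (nat_lit 2) (nat_lit 5) (nat_lit 2) (nat_lit 4) (nat_lit 382) (nat_lit 200) (nat_lit 198)) (XT.nd (nat_lit 78) (nat_lit 0) (nat_lit 0) (XT.lf (nat_lit 0) (nat_lit 224425619715) (nat_lit 76) (nat_lit 118783591793) (nat_lit 76) (nat_lit 118618985155) (nat_lit 1) (nat_lit 4) (nat_lit 2) (nat_lit 5) (nat_lit 2) (nat_lit 4) (nat_lit 383) (nat_lit 200) (nat_lit 197)) (XT.lf (nat_lit 0) (nat_lit 237908824278) (nat_lit 76) (nat_lit 123582795024) (nat_lit 76) (nat_lit 123368460161) (nat_lit 1) (nat_lit 4) (nat_lit 2) (nat_lit 5) (nat_lit 2) (nat_lit 4) (nat_lit 384) (nat_lit 200) (nat_lit 196))))) (XT.nd (nat_lit 156) (nat_lit 0) (nat_lit 0) (XT.nd (nat_lit 78) (nat_lit 0) (nat_lit 0) (XT.lf (nat_lit 0) (nat_lit 251998571123) (nat_lit 76) (nat_lit 128654229928) (nat_lit 76) (nat_lit 128392534852) (nat_lit 1) (nat_lit 4) (nat_lit 2) (nat_lit 5) (nat_lit 2) (nat_lit 4) (nat_lit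 385) (nat_lit 200) (nat_lit 195)) (XT.lf (nat_lit 0) (nat_lit 266728407266) (nat_lit 76) (nat_lit 134009971352) (nat_lit 76) (nat_lit 133703171311) (nat_lit 1) (nat_lit 4) (nat_lit 2) (nat_lit 5) (nat_lit 2) (nat_lit 4) (nat_lit 386) (nat_lit 200) (nat_lit 194))) (XT.nd (nat_lit 78) (nat_lit 0) (nat_lit 0) (XT.lf (nat_lit 0) (nat_lit 282133403746) (nat_lit 76) (nat_lit 139662771061) (nat_lit 76) (nat_lit 139313013909) (nat_lit 1) (nat_lit 4) (nat_lit 2) (nat_lit 5) (nat_lit 2) (nat_lit 4) (nat_lit 387) (nat_lit 200) (nat_lit 193)) (XT.nd (nat_lit 78) (nat_lit 0) (nat_lit 0) (XT.lf (nat_lit 0) (nat_lit 298250239126) (nat_lit 76) (nat_lit 145626088100) (nat_lit 76) (nat_lit 145235419416) (nat_lit 1) (nat_lit 4) (nat_lit 2) (nat_lit 5) (nat_lit 2) (nat_lit 4) (nat_lit 388) (nat_lit 200) (nat_lit 192)) (XT.lf (nat_lit 0) (nat_lit 315117286824) (nat_lit 76) (nat_lit 151914120846) (nat_lit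 76) (nat_lit 151484488796) (nat_lit 1) (nat_lit 4) (nat_lit 2) (nat_lit 5) (nat_lit 2) (nat_lit 4) (nat_lit 389) (nat_lit 200) (nat_lit 191))))))))
noncomputable def xc1 : XT := (XT.nd (nat_lit 80496) (nat_lit 0) (nat_lit 0) (XT.nd (nat_lit 40326) (nat_lit 0) (nat_lit 0) (XT.nd (nat_lit 39936) (nat_lit 0) (nat_lit 0) (XT.nd (nat_lit 39702) (nat_lit 0) (nat_lit 0) (XT.nd (nat_lit 78) (nat_lit 0) (nat_lit 0) (XT.lf (nat_lit 0) (nat_lit 332774706476) (nat_lit 76) (nat_lit 158541840802) (nat_lit 76) (nat_lit 158075100787) (nat_lit 1) (nat_lit 4) (nat_lit 2) (nat_lit 5) (nat_lit 2) (nat_lit 4) (nat_lit 390) (nat_lit 200) (nat_lit 190)) (XT.lf (nat_lit 0) (nat_lit 351264539559) (nat_lit 76) (nat_lit 165525028257) (nat_lit 76) (nat_lit 165022947320) (nat_lit 1) (nat_lit 4) (nat_lit 2) (nat_lit 5) (nat_lit 2) (nat_lit 4) (nat_lit 391) (nat_lit 200) (nat_lit 189))) (XT.nd (nat_lit 78) (nat_lit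 0) (nat_lit 0) (XT.lf (nat_lit 0) (nat_lit 82536291345) (nat_lit 76) (nat_lit 49266336982) (nat_lit 76) (nat_lit 49266336982) (nat_lit 1) (nat_lit 4) (nat_lit 2) (nat_lit 5) (nat_lit 2) (nat_lit 4) (nat_lit 378) (nat_lit 201) (nat_lit 201)) (XT.nd (nat_lit 78) (nat_lit 0) (nat_lit 0) (XT.lf (nat_lit 0) (nat_lit 175936246627) (nat_lit 76) (nat_lit 102150168608) (nat_lit 76) (nat_lit 102089723641) (nat_lit 1) (nat_lit 4) (nat_lit 2) (nat_lit 5) (nat_lit 2) (nat_lit 4) (nat_lit 379) (nat_lit 201) (nat_lit 200)) (XT.lf (nat_lit 0) (nat_lit 187260903724) (nat_lit 76) (nat_lit 105987764209) (nat_lit 76) (nat_lit 105869752606) (nat_lit 1) (nat_lit 4) (nat_lit 2) (nat_lit 5) (nat_lit 2) (nat_lit 4) (nat_lit 380) (nat_lit 201) (nat_lit 199))))) (XT.nd (nat_lit 156) (nat_lit 0) (nat_lit 0) (XT.nd (nat_lit 78) (nat_lit 0) (nat_lit 0) (XT.lf (nat_lit 0) (nat_lit 199073517452) (nat_lit 76) (nat_lit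 110054597899) (nat_lit 76) (nat_lit 109881760929) (nat_lit 1) (nat_lit 4) (nat_lit 2) (nat_lit 5) (nat_lit 2) (nat_lit 4) (nat_lit 381) (nat_lit 201) (nat_lit 198)) (XT.lf (nat_lit 0) (nat_lit 211402213080) (nat_lit 76) (nat_lit 114360352617) (nat_lit 76) (nat_lit 114135301011) (nat_lit 1) (nat_lit 4) (nat_lit 2) (nat_lit 5) (nat_lit 2) (nat_lit 4) (nat_lit 382) (nat_lit 201) (nat_lit 197))) (XT.nd (nat_lit 78) (nat_lit 0) (nat_lit 0) (XT.lf (nat_lit 0) (nat_lit 224276344647) (nat_lit 76) (nat_lit 118915280159) (nat_lit 76) (nat_lit 118640500329) (nat_lit 1) (nat_lit 4) (nat_lit 2) (nat_lit 5) (nat_lit 2) (nat_lit 4) (nat_lit 383) (nat_lit 201) (nat_lit 196)) (XT.nd (nat_lit 78) (nat_lit 0) (nat_lit 0) (XT.lf (nat_lit 0) (nat_lit 237726564846) (nat_lit 76) (nat_lit 123730225591) (nat_lit 76) (nat_lit 123408085547) (nat_lit 1) (nat_lit 4) (nat_lit 2) (nat_lit 5) (nat_lit 2) (nat_lit 4)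 (nat_lit 384) (nat_lit 201) (nat_lit 195)) (XT.lf (nat_lit 0) (nat_lit 251784898011) (nat_lit 76) (nat_lit 128816653068) (nat_lit 76) (nat_lit 128449408059) (nat_lit 1) (nat_lit 4) (nat_lit 2) (nat_lit 5) (nat_lit 2) (nat_lit 4) (nat_lit 385) (nat_lit 201) (nat_lit 194)))))) (XT.nd (nat_lit 390) (nat_lit 0) (nat_lit 0) (XT.nd (nat_lit 156) (nat_lit 0) (nat_lit 0) (XT.nd (nat_lit 78) (nat_lit 0) (nat_lit 0) (XT.lf (nat_lit 0) (nat_lit 266484816364) (nat_lit 76) (nat_lit 134186673133) (nat_lit 76) (nat_lit 133776471014) (nat_lit 1) (nat_lit 4) (nat_lit 2) (nat_lit 5) (nat_lit 2) (nat_lit 4) (nat_lit 386) (nat_lit 201) (nat_lit 193)) (XT.lf (nat_lit 0) (nat_lit 281861319710) (nat_lit 76) (nat_lit 139853071546) (nat_lit 76) (nat_lit 139401957894) (nat_lit 1) (nat_lit 4) (nat_lit 2) (nat_lit 5) (nat_lit 2) (nat_lit 4) (nat_lit 387) (nat_lit 201) (nat_lit 192))) (XT.nd (nat_lit 78) (nat_lit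 0) (nat_lit 0) (XT.lf (nat_lit 0) (nat_lit 297951018772) (nat_lit 76) (nat_lit 145829339734) (nat_lit 76) (nat_lit 145339262717) (nat_lit 1) (nat_lit 4) (nat_lit 2) (nat_lit 5) (nat_lit 2) (nat_lit 4) (nat_lit 388) (nat_lit 201) (nat_lit 191)) (XT.nd (nat_lit 78) (nat_lit 0) (nat_lit 0) (XT.lf (nat_lit 0) (nat_lit 314792222358) (nat_lit 76) (nat_lit 152129706906) (nat_lit 76) (nat_lit 151602521922) (nat_lit 1) (nat_lit 4) (nat_lit 2) (nat_lit 5) (nat_lit 2) (nat_lit 4) (nat_lit 389) (nat_lit 201) (nat_lit 190)) (XT.lf (nat_lit 0) (nat_lit 332425028570) (nat_lit 76) (nat_lit 158769173936) (nat_lit 76) (nat_lit 158206648032) (nat_lit 1) (nat_lit 4) (nat_lit 2) (nat_lit 5) (nat_lit 2) (nat_lit 4) (nat_lit 390) (nat_lit 201) (nat_lit 189))))) (XT.nd (nat_lit 39546) (nat_lit 0) (nat_lit 0) (XT.nd (nat_lit 39468) (nat_lit 0) (nat_lit 0) (XT.lf (nat_lit 0) (nat_lit 350891420281) (nat_lit 76)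 (nat_lit 165763549079) (nat_lit 76) (nat_lit 165167365155) (nat_lit 1) (nat_lit 4) (nat_lit 2) (nat_lit 5) (nat_lit 2) (nat_lit 4) (nat_lit 391) (nat_lit 201) (nat_lit 188)) (XT.lf (nat_lit 0) (nat_lit 72335004526) (nat_lit 76) (nat_lit 45983204962) (nat_lit 76) (nat_lit 45983204962) (nat_lit 1) (nat_lit 4) (nat_lit 2) (nat_lit 5) (nat_lit 2) (nat_lit 4) (nat_lit 376) (nat_lit 202) (nat_lit 202))) (XT.nd (nat_lit 78) (nat_lit 0) (nat_lit 0) (XT.lf (nat_lit 0) (nat_lit 154644046048) (nat_lit 76) (nat_lit 95190134413) (nat_lit 76) (nat_lit 95126667197) (nat_lit 1) (nat_lit 4) (nat_lit 2) (nat_lit 5) (nat_lit 2) (nat_lit 4) (nat_lit 377) (nat_lit 202) (nat_lit 201)) (XT.nd (nat_lit 78) (nat_lit 0) (nat_lit 0) (XT.lf (nat_lit 0) (nat_lit 165030485355) (nat_lit 76) (nat_lit 98616232662) (nat_lit 76) (nat_lit 98492320479) (nat_lit 1) (nat_lit 4) (nat_lit 2) (nat_lit 5) (nat_lit 2) (nat_lit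 4) (nat_lit 378) (nat_lit 202) (nat_lit 200)) (XT.lf (nat_lit 0) (nat_lit 175854056591) (nat_lit 76) (nat_lit 102252862049) (nat_lit 76) (nat_lit 102071383231) (nat_lit 1) (nat_lit 4) (nat_lit 2) (nat_lit 5) (nat_lit 2) (nat_lit 4) (nat_lit 379) (nat_lit 202) (nat_lit 199))))))) (XT.nd (nat_lit 780) (nat_lit 0) (nat_lit 0) (XT.nd (nat_lit 390) (nat_lit 0) (nat_lit 0) (XT.nd (nat_lit 156) (nat_lit 0) (nat_lit 0) (XT.nd (nat_lit 78) (nat_lit 0) (nat_lit 0) (XT.lf (nat_lit 0) (nat_lit 187140530164) (nat_lit 76) (nat_lit 106108681216) (nat_lit 76) (nat_lit 105872377030) (nat_lit 1) (nat_lit 4) (nat_lit 2) (nat_lit 5) (nat_lit 2) (nat_lit 4) (nat_lit 380) (nat_lit 202) (nat_lit 198)) (XT.lf (nat_lit 0) (nat_lit 198916778630) (nat_lit 76) (nat_lit 110192870683) (nat_lit 76) (nat_lit 109904351862) (nat_lit 1) (nat_lit 4) (nat_lit 2) (nat_lit 5) (nat_lit 2) (nat_lit 4) (nat_lit 381) (nat_lit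 202) (nat_lit 197))) (XT.nd (nat_lit 78) (nat_lit 0) (nat_lit 0) (XT.lf (nat_lit 0) (nat_lit 211210840677) (nat_lit 76) (nat_lit 114515154712) (nat_lit 76) (nat_lit 114176907667) (nat_lit 1) (nat_lit 4) (nat_lit 2) (nat_lit 5) (nat_lit 2) (nat_lit 4) (nat_lit 382) (nat_lit 202) (nat_lit 196)) (XT.nd (nat_lit 78) (nat_lit 0) (nat_lit 0) (XT.lf (nat_lit 0) (nat_lit 224051987879) (nat_lit 76) (nat_lit 119085824456) (nat_lit 76) (nat_lit 118700217196) (nat_lit 1) (nat_lit 4) (nat_lit 2) (nat_lit 5) (nat_lit 2) (nat_lit 4) (nat_lit 383) (nat_lit 202) (nat_lit 195)) (XT.lf (nat_lit 0) (nat_lit 237470794398) (nat_lit 76) (nat_lit 123915762460) (nat_lit 76) (nat_lit 123485050235) (nat_lit 1) (nat_lit 4) (nat_lit 2) (nat_lit 5) (nat_lit 2) (nat_lit 4) (nat_lit 384) (nat_lit 202) (nat_lit 194))))) (XT.nd (nat_lit 156) (nat_lit 0) (nat_lit 0) (XT.nd (nat_lit 78) (nat_lit 0) (nat_lit 0) (XT.lf (nat_lit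 0) (nat_lit 251499209773) (nat_lit 76) (nat_lit 129016468578) (nat_lit 76) (nat_lit 128542799243) (nat_lit 1) (nat_lit 4) (nat_lit 2) (nat_lit 5) (nat_lit 2) (nat_lit 4) (nat_lit 385) (nat_lit 202) (nat_lit 193)) (XT.lf (nat_lit 0) (nat_lit 266170634992) (nat_lit 76) (nat_lit 134400087348) (nat_lit 76) (nat_lit 133885506480) (nat_lit 1) (nat_lit 4) (nat_lit 2) (nat_lit 5) (nat_lit 2) (nat_lit 4) (nat_lit 386) (nat_lit 202) (nat_lit 192))) (XT.nd (nat_lit 78) (nat_lit 0) (nat_lit 0) (XT.lf (nat_lit 0) (nat_lit 281520002021) (nat_lit 76) (nat_lit 140079436909) (nat_lit 76) (nat_lit 139525892677) (nat_lit 1) (nat_lit 4) (nat_lit 2) (nat_lit 5) (nat_lit 2) (nat_lit 4) (nat_lit 387) (nat_lit 202) (nat_lit 191)) (XT.nd (nat_lit 78) (nat_lit 0) (nat_lit 0) (XT.lf (nat_lit 0) (nat_lit 297583856971) (nat_lit 76) (nat_lit 146068039524) (nat_lit 76) (nat_lit 145477387325) (nat_lit 1) (nat_lit 4)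 (nat_lit 2) (nat_lit 5) (nat_lit 2) (nat_lit 4) (nat_lit 388) (nat_lit 202) (nat_lit 190)) (XT.lf (nat_lit 0) (nat_lit 314400447116) (nat_lit 76) (nat_lit 152380153769) (nat_lit 76) (nat_lit 151754160649) (nat_lit 1) (nat_lit 4) (nat_lit 2) (nat_lit 5) (nat_lit 2) (nat_lit 4) (nat_lit 389) (nat_lit 202) (nat_lit 189)))))) (XT.nd (nat_lit 39624) (nat_lit 0) (nat_lit 0) (XT.nd (nat_lit 39390) (nat_lit 0) (nat_lit 0) (XT.nd (nat_lit 78) (nat_lit 0) (nat_lit 0) (XT.lf (nat_lit 0) (nat_lit 332009811956) (nat_lit 76) (nat_lit 159030808487) (nat_lit 76) (nat_lit 158371157348) (nat_lit 1) (nat_lit 4) (nat_lit 2) (nat_lit 5) (nat_lit 2) (nat_lit 4) (nat_lit 390) (nat_lit 202) (nat_lit 188)) (XT.lf (nat_lit 0) (nat_lit 350453878551) (nat_lit 76) (nat_lit 166035838572) (nat_lit 76) (nat_lit 165344132176) (nat_lit 1) (nat_lit 4) (nat_lit 2) (nat_lit 5) (nat_lit 2) (nat_lit 4) (nat_lit 391) (nat_lit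 202) (nat_lit 187))) (XT.nd (nat_lit 78) (nat_lit 0) (nat_lit 0) (XT.lf (nat_lit 0) (nat_lit 62955744425) (nat_lit 76) (nat_lit 43070166689) (nat_lit 76) (nat_lit 43070166689) (nat_lit 1) (nat_lit 4) (nat_lit 2) (nat_lit 5) (nat_lit 2) (nat_lit 4) (nat_lit 374) (nat_lit 203) (nat_lit 203)) (XT.nd (nat_lit 78) (nat_lit 0) (nat_lit 0) (XT.lf (nat_lit 0) (nat_lit 135084626663) (nat_lit 76) (nat_lit 89004024239) (nat_lit 76) (nat_lit 88937383663) (nat_lit 1) (nat_lit 4) (nat_lit 2) (nat_lit 5) (nat_lit 2) (nat_lit 4) (nat_lit 375) (nat_lit 203) (nat_lit 202)) (XT.lf (nat_lit 0) (nat_lit 144625806851) (nat_lit 76) (nat_lit 92054146556) (nat_lit 76) (nat_lit 91924038764) (nat_lit 1) (nat_lit 4) (nat_lit 2) (nat_lit 5) (nat_lit 2) (nat_lit 4) (nat_lit 376) (nat_lit 203) (nat_lit 201))))) (XT.nd (nat_lit 156) (nat_lit 0) (nat_lit 0) (XT.nd (nat_lit 78) (nat_lit 0) (nat_lit 0) (XT.lf (nat_lit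 0) (nat_lit 154557746510) (nat_lit 76) (nat_lit 95297962526) (nat_lit 76) (nat_lit 95107409766) (nat_lit 1) (nat_lit 4) (nat_lit 2) (nat_lit 5) (nat_lit 2) (nat_lit 4) (nat_lit 377) (nat_lit 203) (nat_lit 200)) (XT.lf (nat_lit 0) (nat_lit 164904093116) (nat_lit 76) (nat_lit 98743195519) (nat_lit 76) (nat_lit 98495076124) (nat_lit 1) (nat_lit 4) (nat_lit 2) (nat_lit 5) (nat_lit 2) (nat_lit 4) (nat_lit 378) (nat_lit 203) (nat_lit 199))) (XT.nd (nat_lit 78) (nat_lit 0) (nat_lit 0) (XT.lf (nat_lit 0) (nat_lit 175689480828) (nat_lit 76) (nat_lit 102398048472) (nat_lit 76) (nat_lit 102095103710) (nat_lit 1) (nat_lit 4) (nat_lit 2) (nat_lit 5) (nat_lit 2) (nat_lit 4) (nat_lit 379) (nat_lit 203) (nat_lit 198)) (XT.nd (nat_lit 78) (nat_lit 0) (nat_lit 0) (XT.lf (nat_lit 0) (nat_lit 186939589140) (nat_lit 76) (nat_lit 106271223416) (nat_lit 76) (nat_lit 105916064018) (nat_lit 1) (nat_lit 4) (nat_lit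 2) (nat_lit 5) (nat_lit 2) (nat_lit 4) (nat_lit 380) (nat_lit 203) (nat_lit 197)) (XT.lf (nat_lit 0) (nat_lit 198681204025) (nat_lit 76) (nat_lit 110371942195) (nat_lit 76) (nat_lit 109967054572) (nat_lit 1) (nat_lit 4) (nat_lit 2) (nat_lit 5) (nat_lit 2) (nat_lit 4) (nat_lit 381) (nat_lit 203) (nat_lit 196))))))))
noncomputable def xc2 : XT := (XT.nd (nat_lit 40638) (nat_lit 0) (nat_lit 0) (XT.nd (nat_lit 39858) (nat_lit 0) (nat_lit 0) (XT.nd (nat_lit 390) (nat_lit 0) (nat_lit 0) (XT.nd (nat_lit 156) (nat_lit 0) (nat_lit 0) (XT.nd (nat_lit 78) (nat_lit 0) (nat_lit 0) (XT.lf (nat_lit 0) (nat_lit 210942281707) (nat_lit 76) (nat_lit 114709968425) (nat_lit 76) (nat_lit 114257720589) (nat_lit 1) (nat_lit 4) (nat_lit 2) (nat_lit 5) (nat_lit 2) (nat_lit 4) (nat_lit 382) (nat_lit 203) (nat_lit 195)) (XT.lf (nat_lit 0) (nat_lit 223752015230) (nat_lit 76) (nat_lit 119295630741) (nat_lit 76) (nat_lit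 118798277940) (nat_lit 1) (nat_lit 4) (nat_lit 2) (nat_lit 5) (nat_lit 2) (nat_lit 4) (nat_lit 383) (nat_lit 203) (nat_lit 194))) (XT.nd (nat_lit 78) (nat_lit 0) (nat_lit 0) (XT.lf (nat_lit 0) (nat_lit 237140903958) (nat_lit 76) (nat_lit 124139847386) (nat_lit 76) (nat_lit 123599537475) (nat_lit 1) (nat_lit 4) (nat_lit 2) (nat_lit 5) (nat_lit 2) (nat_lit 4) (nat_lit 384) (nat_lit 203) (nat_lit 193)) (XT.nd (nat_lit 78) (nat_lit 0) (nat_lit 0) (XT.lf (nat_lit 0) (nat_lit 251140826199) (nat_lit 76) (nat_lit 129254152209) (nat_lit 76) (nat_lit 128672930765) (nat_lit 1) (nat_lit 4) (nat_lit 2) (nat_lit 5) (nat_lit 2) (nat_lit 4) (nat_lit 385) (nat_lit 203) (nat_lit 192)) (XT.lf (nat_lit 0) (nat_lit 265785115100) (nat_lit 76) (nat_lit 134650722127) (nat_lit 76) (nat_lit 134030537318) (nat_lit 1) (nat_lit 4) (nat_lit 2) (nat_lit 5) (nat_lit 2) (nat_lit 4) (nat_lit 386) (nat_lit 203) (nat_lit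 191))))) (XT.nd (nat_lit 156) (nat_lit 0) (nat_lit 0) (XT.nd (nat_lit 78) (nat_lit 0) (nat_lit 0) (XT.lf (nat_lit 0) (nat_lit 281108638017) (nat_lit 76) (nat_lit 140342406115) (nat_lit 76) (nat_lit 139685113340) (nat_lit 1) (nat_lit 4) (nat_lit 2) (nat_lit 5) (nat_lit 2) (nat_lit 4) (nat_lit 387) (nat_lit 203) (nat_lit 190)) (XT.lf (nat_lit 0) (nat_lit 297147879527) (nat_lit 76) (nat_lit 146342755803) (nat_lit 76) (nat_lit 145650122107) (nat_lit 1) (nat_lit 4) (nat_lit 2) (nat_lit 5) (nat_lit 2) (nat_lit 4) (nat_lit 388) (nat_lit 203) (nat_lit 189))) (XT.nd (nat_lit 78) (nat_lit 0) (nat_lit 0) (XT.lf (nat_lit 0) (nat_lit 313941028300) (nat_lit 76) (nat_lit 152666057736) (nat_lit 76) (nat_lit 151939766020) (nat_lit 1) (nat_lit 4) (nat_lit 2) (nat_lit 5) (nat_lit 2) (nat_lit 4) (nat_lit 389) (nat_lit 203) (nat_lit 188)) (XT.nd (nat_lit 78) (nat_lit 0) (nat_lit 0) (XT.lf (nat_lit 0) (nat_lit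 331528068025) (nat_lit 76) (nat_lit 159327367396) (nat_lit 76) (nat_lit 158569020424) (nat_lit 1) (nat_lit 4) (nat_lit 2) (nat_lit 5) (nat_lit 2) (nat_lit 4) (nat_lit 390) (nat_lit 203) (nat_lit 187)) (XT.lf (nat_lit 0) (nat_lit 349950872605) (nat_lit 76) (nat_lit 166342545044) (nat_lit 76) (nat_lit 165553669255) (nat_lit 1) (nat_lit 4) (nat_lit 2) (nat_lit 5) (nat_lit 2) (nat_lit 4) (nat_lit 391) (nat_lit 203) (nat_lit 186)))))) (XT.nd (nat_lit 390) (nat_lit 0) (nat_lit 0) (XT.nd (nat_lit 156) (nat_lit 0) (nat_lit 0) (XT.nd (nat_lit 78) (nat_lit 0) (nat_lit 0) (XT.lf (nat_lit 0) (nat_lit 54315767177) (nat_lit 76) (nat_lit 40496057317) (nat_lit 76) (nat_lit 40496057317) (nat_lit 1) (nat_lit 4) (nat_lit 2) (nat_lit 5) (nat_lit 2) (nat_lit 4) (nat_lit 372) (nat_lit 204) (nat_lit 204)) (XT.lf (nat_lit 0) (nat_lit 117084552611) (nat_lit 76) (nat_lit 83526228268) (nat_lit 76) (nat_lit 83456255663)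 (nat_lit 1) (nat_lit 4) (nat_lit 2) (nat_lit 5) (nat_lit 2) (nat_lit 4) (nat_lit 373) (nat_lit 204) (nat_lit 203))) (XT.nd (nat_lit 78) (nat_lit 0) (nat_lit 0) (XT.lf (nat_lit 0) (nat_lit 125865076539) (nat_lit 76) (nat_lit 86232456842) (nat_lit 76) (nat_lit 86095843660) (nat_lit 1) (nat_lit 4) (nat_lit 2) (nat_lit 5) (nat_lit 2) (nat_lit 4) (nat_lit 374) (nat_lit 204) (nat_lit 202)) (XT.nd (nat_lit 78) (nat_lit 0) (nat_lit 0) (XT.lf (nat_lit 0) (nat_lit 134994012148) (nat_lit 76) (nat_lit 89117243758) (nat_lit 76) (nat_lit 88917163361) (nat_lit 1) (nat_lit 4) (nat_lit 2) (nat_lit 5) (nat_lit 2) (nat_lit 4) (nat_lit 375) (nat_lit 204) (nat_lit 201)) (XT.lf (nat_lit 0) (nat_lit 144493095000) (nat_lit 76) (nat_lit 92187457557) (nat_lit 76) (nat_lit 91926932192) (nat_lit 1) (nat_lit 4) (nat_lit 2) (nat_lit 5) (nat_lit 2) (nat_lit 4) (nat_lit 376) (nat_lit 204) (nat_lit 200))))) (XT.nd (nat_lit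 156) (nat_lit 0) (nat_lit 0) (XT.nd (nat_lit 78) (nat_lit 0) (nat_lit 0) (XT.lf (nat_lit 0) (nat_lit 154384941959) (nat_lit 76) (nat_lit 95450408270) (nat_lit 76) (nat_lit 95132316270) (nat_lit 1) (nat_lit 4) (nat_lit 2) (nat_lit 5) (nat_lit 2) (nat_lit 4) (nat_lit 377) (nat_lit 204) (nat_lit 199)) (XT.lf (nat_lit 0) (nat_lit 164693105041) (nat_lit 76) (nat_lit 98913864829) (nat_lit 76) (nat_lit 98540947462) (nat_lit 1) (nat_lit 4) (nat_lit 2) (nat_lit 5) (nat_lit 2) (nat_lit 4) (nat_lit 378) (nat_lit 204) (nat_lit 198))) (XT.nd (nat_lit 78) (nat_lit 0) (nat_lit 0) (XT.lf (nat_lit 0) (nat_lit 175442127492) (nat_lit 76) (nat_lit 102586073559) (nat_lit 76) (nat_lit 102160941556) (nat_lit 1) (nat_lit 4) (nat_lit 2) (nat_lit 5) (nat_lit 2) (nat_lit 4) (nat_lit 379) (nat_lit 204) (nat_lit 197)) (XT.nd (nat_lit 78) (nat_lit 0) (nat_lit 0) (XT.lf (nat_lit 0) (nat_lit 186657602222) (nat_lit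 76) (nat_lit 106475777814) (nat_lit 76) (nat_lit 106000917586) (nat_lit 1) (nat_lit 4) (nat_lit 2) (nat_lit 5) (nat_lit 2) (nat_lit 4) (nat_lit 380) (nat_lit 204) (nat_lit 196)) (XT.lf (nat_lit 0) (nat_lit 198366232742) (nat_lit 76) (nat_lit 110592238794) (nat_lit 76) (nat_lit 110070018353) (nat_lit 1) (nat_lit 4) (nat_lit 2) (nat_lit 5) (nat_lit 2) (nat_lit 4) (nat_lit 381) (nat_lit 204) (nat_lit 195))))))) (XT.nd (nat_lit 39702) (nat_lit 0) (nat_lit 0) (XT.nd (nat_lit 390) (nat_lit 0) (nat_lit 0) (XT.nd (nat_lit 156) (nat_lit 0) (nat_lit 0) (XT.nd (nat_lit 78) (nat_lit 0) (nat_lit 0) (XT.lf (nat_lit 0) (nat_lit 210595896745) (nat_lit 76) (nat_lit 114945257597) (nat_lit 76) (nat_lit 114377932191) (nat_lit 1) (nat_lit 4) (nat_lit 2) (nat_lit 5) (nat_lit 2) (nat_lit 4) (nat_lit 382) (nat_lit 204) (nat_lit 194)) (XT.lf (nat_lit 0) (nat_lit 223375712477) (nat_lit 76) (nat_lit 119545198554)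 (nat_lit 76) (nat_lit 118934916037) (nat_lit 1) (nat_lit 4) (nat_lit 2) (nat_lit 5) (nat_lit 2) (nat_lit 4) (nat_lit 383) (nat_lit 204) (nat_lit 193))) (XT.nd (nat_lit 78) (nat_lit 0) (nat_lit 0) (XT.lf (nat_lit 0) (nat_lit 236736108072) (nat_lit 76) (nat_lit 124403013904) (nat_lit 76) (nat_lit 123751819855) (nat_lit 1) (nat_lit 4) (nat_lit 2) (nat_lit 5) (nat_lit 2) (nat_lit 4) (nat_lit 384) (nat_lit 204) (nat_lit 192)) (XT.nd (nat_lit 78) (nat_lit 0) (nat_lit 0) (XT.lf (nat_lit 0) (nat_lit 250708893995) (nat_lit 76) (nat_lit 129530269875) (nat_lit 76) (nat_lit 128840112461) (nat_lit 1) (nat_lit 4) (nat_lit 2) (nat_lit 5) (nat_lit 2) (nat_lit 4) (nat_lit 385) (nat_lit 204) (nat_lit 191)) (XT.lf (nat_lit 0) (nat_lit 265327338784) (nat_lit 76) (nat_lit 134939174220) (nat_lit 76) (nat_lit 134211908839) (nat_lit 1) (nat_lit 4) (nat_lit 2) (nat_lit 5) (nat_lit 2) (nat_lit 4) (nat_lit 386)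 (nat_lit 204) (nat_lit 190))))) (XT.nd (nat_lit 156) (nat_lit 0) (nat_lit 0) (XT.nd (nat_lit 78) (nat_lit 0) (nat_lit 0) (XT.lf (nat_lit 0) (nat_lit 280626248260) (nat_lit 76) (nat_lit 140642605281) (nat_lit 76) (nat_lit 139879998980) (nat_lit 1) (nat_lit 4) (nat_lit 2) (nat_lit 5) (nat_lit 2) (nat_lit 4) (nat_lit 387) (nat_lit 204) (nat_lit 189)) (XT.lf (nat_lit 0) (nat_lit 296642048398) (nat_lit 76) (nat_lit 146654142657) (nat_lit 76) (nat_lit 145857878336) (nat_lit 1) (nat_lit 4) (nat_lit 2) (nat_lit 5) (nat_lit 2) (nat_lit 4) (nat_lit 388) (nat_lit 204) (nat_lit 188))) (XT.nd (nat_lit 78) (nat_lit 0) (nat_lit 0) (XT.lf (nat_lit 0) (nat_lit 313412872056) (nat_lit 76) (nat_lit 152988099532) (nat_lit 76) (nat_lit 152159779954) (nat_lit 1) (nat_lit 4) (nat_lit 2) (nat_lit 5) (nat_lit 2) (nat_lit 4) (nat_lit 389) (nat_lit 204) (nat_lit 187)) (XT.nd (nat_lit 78) (nat_lit 0) (nat_lit 0)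 (XT.lf (nat_lit 0) (nat_lit 330978649766) (nat_lit 76) (nat_lit 159659556755) (nat_lit 76) (nat_lit 158800708361) (nat_lit 1) (nat_lit 4) (nat_lit 2) (nat_lit 5) (nat_lit 2) (nat_lit 4) (nat_lit 390) (nat_lit 204) (nat_lit 186)) (XT.lf (nat_lit 0) (nat_lit 349381204808) (nat_lit 76) (nat_lit 166684398749) (nat_lit 76) (nat_lit 165796475293) (nat_lit 1) (nat_lit 4) (nat_lit 2) (nat_lit 5) (nat_lit 2) (nat_lit 4) (nat_lit 391) (nat_lit 204) (nat_lit 185)))))) (XT.nd (nat_lit 390) (nat_lit 0) (nat_lit 0) (XT.nd (nat_lit 156) (nat_lit 0) (nat_lit 0) (XT.nd (nat_lit 78) (nat_lit 0) (nat_lit 0) (XT.lf (nat_lit 0) (nat_lit 46339705677) (nat_lit 76) (nat_lit 38232771561) (nat_lit 76) (nat_lit 38232771561) (nat_lit 1) (nat_lit 4) (nat_lit 2) (nat_lit 5) (nat_lit 2) (nat_lit 4) (nat_lit 370) (nat_lit 205) (nat_lit 205)) (XT.lf (nat_lit 0) (nat_lit 100485895538) (nat_lit 76) (nat_lit 78697553575)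 (nat_lit 76) (nat_lit 78624082339) (nat_lit 1) (nat_lit 4) (nat_lit 2) (nat_lit 5) (nat_lit 2) (nat_lit 4) (nat_lit 371) (nat_lit 205) (nat_lit 204))) (XT.nd (nat_lit 78) (nat_lit 0) (nat_lit 0) (XT.lf (nat_lit 0) (nat_lit 108582801427) (nat_lit 76) (nat_lit 81088844272) (nat_lit 76) (nat_lit 80945400431) (nat_lit 1) (nat_lit 4) (nat_lit 2) (nat_lit 5) (nat_lit 2) (nat_lit 4) (nat_lit 372) (nat_lit 205) (nat_lit 203)) (XT.nd (nat_lit 78) (nat_lit 0) (nat_lit 0) (XT.lf (nat_lit 0) (nat_lit 116989407370) (nat_lit 76) (nat_lit 83645108763) (nat_lit 76) (nat_lit 83435024346) (nat_lit 1) (nat_lit 4) (nat_lit 2) (nat_lit 5) (nat_lit 2) (nat_lit 4) (nat_lit 373) (nat_lit 205) (nat_lit 202)) (XT.lf (nat_lit 0) (nat_lit 125725729096) (nat_lit 76) (nat_lit 86372433392) (nat_lit 76) (nat_lit 86098881759) (nat_lit 1) (nat_lit 4) (nat_lit 2) (nat_lit 5) (nat_lit 2) (nat_lit 4) (nat_lit 374) (nat_lit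 205) (nat_lit 201))))) (XT.nd (nat_lit 156) (nat_lit 0) (nat_lit 0) (XT.nd (nat_lit 78) (nat_lit 0) (nat_lit 0) (XT.lf (nat_lit 0) (nat_lit 134812567370) (nat_lit 76) (nat_lit 89277311790) (nat_lit 76) (nat_lit 88943315189) (nat_lit 1) (nat_lit 4) (nat_lit 2) (nat_lit 5) (nat_lit 2) (nat_lit 4) (nat_lit 375) (nat_lit 205) (nat_lit 200)) (XT.lf (nat_lit 0) (nat_lit 144271557522) (nat_lit 76) (nat_lit 92366660332) (nat_lit 76) (nat_lit 91975097096) (nat_lit 1) (nat_lit 4) (nat_lit 2) (nat_lit 5) (nat_lit 2) (nat_lit 4) (nat_lit 376) (nat_lit 205) (nat_lit 199))) (XT.nd (nat_lit 78) (nat_lit 0) (nat_lit 0) (XT.lf (nat_lit 0) (nat_lit 154125220956) (nat_lit 76) (nat_lit 95647834611) (nat_lit 76) (nat_lit 95201446008) (nat_lit 1) (nat_lit 4) (nat_lit 2) (nat_lit 5) (nat_lit 2) (nat_lit 4) (nat_lit 377) (nat_lit 205) (nat_lit 198)) (XT.nd (nat_lit 78) (nat_lit 0) (nat_lit 0) (XT.lf (nat_lit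 0) (nat_lit 164397018777) (nat_lit 76) (nat_lit 99128646948) (nat_lit 76) (nat_lit 98630043709) (nat_lit 1) (nat_lit 4) (nat_lit 2) (nat_lit 5) (nat_lit 2) (nat_lit 4) (nat_lit 378) (nat_lit 205) (nat_lit 197)) (XT.lf (nat_lit 0) (nat_lit 175111407646) (nat_lit 76) (nat_lit 102817384989) (nat_lit 76) (nat_lit 102269053526) (nat_lit 1) (nat_lit 4) (nat_lit 2) (nat_lit 5) (nat_lit 2) (nat_lit 4) (nat_lit 379) (nat_lit 205) (nat_lit 196))))))))
noncomputable def xc3 : XT := (XT.nd (nat_lit 40326) (nat_lit 0) (nat_lit 0) (XT.nd (nat_lit 780) (nat_lit 0) (nat_lit 0) (XT.nd (nat_lit 390) (nat_lit 0) (nat_lit 0) (XT.nd (nat_lit 156) (nat_lit 0) (nat_lit 0) (XT.nd (nat_lit 78) (nat_lit 0) (nat_lit 0) (XT.lf (nat_lit 0) (nat_lit 186293898012) (nat_lit 76) (nat_lit 106722831445) (nat_lit 76) (nat_lit 106127139768) (nat_lit 1) (nat_lit 4) (nat_lit 2) (nat_lit 5) (nat_lit 2) (nat_lit 4) (nat_lit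 380) (nat_lit 205) (nat_lit 195)) (XT.lf (nat_lit 0) (nat_lit 197971114852) (nat_lit 76) (nat_lit 110854284998) (nat_lit 76) (nat_lit 110213488356) (nat_lit 1) (nat_lit 4) (nat_lit 2) (nat_lit 5) (nat_lit 2) (nat_lit 4) (nat_lit 381) (nat_lit 205) (nat_lit 194))) (XT.nd (nat_lit 78) (nat_lit 0) (nat_lit 0) (XT.lf (nat_lit 0) (nat_lit 210170861064) (nat_lit 76) (nat_lit 115221582441) (nat_lit 76) (nat_lit 114537828689) (nat_lit 1) (nat_lit 4) (nat_lit 2) (nat_lit 5) (nat_lit 2) (nat_lit 4) (nat_lit 382) (nat_lit 205) (nat_lit 193)) (XT.nd (nat_lit 78) (nat_lit 0) (nat_lit 0) (XT.lf (nat_lit 0) (nat_lit 222922183663) (nat_lit 76) (nat_lit 119835122103) (nat_lit 76) (nat_lit 119110456818) (nat_lit 1) (nat_lit 4) (nat_lit 2) (nat_lit 5) (nat_lit 2) (nat_lit 4) (nat_lit 383) (nat_lit 205) (nat_lit 192)) (XT.lf (nat_lit 0) (nat_lit 236255442940) (nat_lit 76) (nat_lit 124705888602) (nat_lit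 76) (nat_lit 123942259952) (nat_lit 1) (nat_lit 4) (nat_lit 2) (nat_lit 5) (nat_lit 2) (nat_lit 4) (nat_lit 384) (nat_lit 205) (nat_lit 191))))) (XT.nd (nat_lit 156) (nat_lit 0) (nat_lit 0) (XT.nd (nat_lit 78) (nat_lit 0) (nat_lit 0) (XT.lf (nat_lit 0) (nat_lit 250202384751) (nat_lit 76) (nat_lit 129845479000) (nat_lit 76) (nat_lit 129044742383) (nat_lit 1) (nat_lit 4) (nat_lit 2) (nat_lit 5) (nat_lit 2) (nat_lit 4) (nat_lit 385) (nat_lit 205) (nat_lit 190)) (XT.lf (nat_lit 0) (nat_lit 264796216100) (nat_lit 76) (nat_lit 135266130417) (nat_lit 76) (nat_lit 134430052880) (nat_lit 1) (nat_lit 4) (nat_lit 2) (nat_lit 5) (nat_lit 2) (nat_lit 4) (nat_lit 386) (nat_lit 205) (nat_lit 189))) (XT.nd (nat_lit 78) (nat_lit 0) (nat_lit 0) (XT.lf (nat_lit 0) (nat_lit 280071684204) (nat_lit 76) (nat_lit 140980749167) (nat_lit 76) (nat_lit 140111013610) (nat_lit 1) (nat_lit 4) (nat_lit 2) (nat_lit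 5) (nat_lit 2) (nat_lit 4) (nat_lit 387) (nat_lit 205) (nat_lit 188)) (XT.nd (nat_lit 78) (nat_lit 0) (nat_lit 0) (XT.lf (nat_lit 0) (nat_lit 296065159226) (nat_lit 76) (nat_lit 147002941484) (nat_lit 76) (nat_lit 146101150671) (nat_lit 1) (nat_lit 4) (nat_lit 2) (nat_lit 5) (nat_lit 2) (nat_lit 4) (nat_lit 388) (nat_lit 205) (nat_lit 187)) (XT.lf (nat_lit 0) (nat_lit 312814720869) (nat_lit 76) (nat_lit 153347045923) (nat_lit 76) (nat_lit 152414726293) (nat_lit 1) (nat_lit 4) (nat_lit 2) (nat_lit 5) (nat_lit 2) (nat_lit 4) (nat_lit 389) (nat_lit 205) (nat_lit 186)))))) (XT.nd (nat_lit 39156) (nat_lit 0) (nat_lit 0) (XT.nd (nat_lit 38922) (nat_lit 0) (nat_lit 0) (XT.nd (nat_lit 78) (nat_lit 0) (nat_lit 0) (XT.lf (nat_lit 0) (nat_lit 330360249040) (nat_lit 76) (nat_lit 160028167492) (nat_lit 76) (nat_lit 159066772800) (nat_lit 1) (nat_lit 4) (nat_lit 2) (nat_lit 5) (nat_lit 2) (nat_lit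 4) (nat_lit 390) (nat_lit 205) (nat_lit 185)) (XT.lf (nat_lit 0) (nat_lit 348743518808) (nat_lit 76) (nat_lit 167062213625) (nat_lit 76) (nat_lit 166073128397) (nat_lit 1) (nat_lit 4) (nat_lit 2) (nat_lit 5) (nat_lit 2) (nat_lit 4) (nat_lit 391) (nat_lit 205) (nat_lit 184))) (XT.nd (nat_lit 78) (nat_lit 0) (nat_lit 0) (XT.lf (nat_lit 0) (nat_lit 38958867960) (nat_lit 76) (nat_lit 36254987352) (nat_lit 76) (nat_lit 36254987352) (nat_lit 1) (nat_lit 4) (nat_lit 2) (nat_lit 5) (nat_lit 2) (nat_lit 4) (nat_lit 368) (nat_lit 206) (nat_lit 206)) (XT.nd (nat_lit 78) (nat_lit 0) (nat_lit 0) (XT.lf (nat_lit 0) (nat_lit 85144762012) (nat_lit 76) (nat_lit 74464643402) (nat_lit 76) (nat_lit 74387498604) (nat_lit 1) (nat_lit 4) (nat_lit 2) (nat_lit 5) (nat_lit 2) (nat_lit 4) (nat_lit 369) (nat_lit 206) (nat_lit 205)) (XT.lf (nat_lit 0) (nat_lit 92628241781) (nat_lit 76) (nat_lit 76567109241) (nat_lit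 76) (nat_lit 76416493208) (nat_lit 1) (nat_lit 4) (nat_lit 2) (nat_lit 5) (nat_lit 2) (nat_lit 4) (nat_lit 370) (nat_lit 206) (nat_lit 204))))) (XT.nd (nat_lit 156) (nat_lit 0) (nat_lit 0) (XT.nd (nat_lit 78) (nat_lit 0) (nat_lit 0) (XT.lf (nat_lit 0) (nat_lit 100385993035) (nat_lit 76) (nat_lit 78822378094) (nat_lit 76) (nat_lit 78601789456) (nat_lit 1) (nat_lit 4) (nat_lit 2) (nat_lit 5) (nat_lit 2) (nat_lit 4) (nat_lit 371) (nat_lit 206) (nat_lit 203)) (XT.lf (nat_lit 0) (nat_lit 108436486612) (nat_lit 76) (nat_lit 81235819650) (nat_lit 76) (nat_lit 80948590435) (nat_lit 1) (nat_lit 4) (nat_lit 2) (nat_lit 5) (nat_lit 2) (nat_lit 4) (nat_lit 372) (nat_lit 206) (nat_lit 202))) (XT.nd (nat_lit 78) (nat_lit 0) (nat_lit 0) (XT.lf (nat_lit 0) (nat_lit 116798890353) (nat_lit 76) (nat_lit 83813180196) (nat_lit 76) (nat_lit 83462483765) (nat_lit 1) (nat_lit 4) (nat_lit 2) (nat_lit 5) (nat_lit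 2) (nat_lit 4) (nat_lit 373) (nat_lit 206) (nat_lit 201)) (XT.nd (nat_lit 78) (nat_lit 0) (nat_lit 0) (XT.lf (nat_lit 0) (nat_lit 125493114743) (nat_lit 76) (nat_lit 86560596307) (nat_lit 76) (nat_lit 86149454908) (nat_lit 1) (nat_lit 4) (nat_lit 2) (nat_lit 5) (nat_lit 2) (nat_lit 4) (nat_lit 374) (nat_lit 206) (nat_lit 200)) (XT.lf (nat_lit 0) (nat_lit 134539860317) (nat_lit 76) (nat_lit 89484609448) (nat_lit 76) (nat_lit 89015901414) (nat_lit 1) (nat_lit 4) (nat_lit 2) (nat_lit 5) (nat_lit 2) (nat_lit 4) (nat_lit 375) (nat_lit 206) (nat_lit 199))))))) (XT.nd (nat_lit 780) (nat_lit 0) (nat_lit 0) (XT.nd (nat_lit 390) (nat_lit 0) (nat_lit 0) (XT.nd (nat_lit 156) (nat_lit 0) (nat_lit 0) (XT.nd (nat_lit 78) (nat_lit 0) (nat_lit 0) (XT.lf (nat_lit 0) (nat_lit 143960666944) (nat_lit 76) (nat_lit 92592181556) (nat_lit 76) (nat_lit 92068648155) (nat_lit 1) (nat_lit 4) (nat_lit 2) (nat_lit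 5) (nat_lit 2) (nat_lit 4) (nat_lit 376) (nat_lit 206) (nat_lit 198)) (XT.lf (nat_lit 0) (nat_lit 153777965118) (nat_lit 76) (nat_lit 95890711613) (nat_lit 76) (nat_lit 95314963576) (nat_lit 1) (nat_lit 4) (nat_lit 2) (nat_lit 5) (nat_lit 2) (nat_lit 4) (nat_lit 377) (nat_lit 206) (nat_lit 197))) (XT.nd (nat_lit 78) (nat_lit 0) (nat_lit 0) (XT.lf (nat_lit 0) (nat_lit 164015129356) (nat_lit 76) (nat_lit 99388053260) (nat_lit 76) (nat_lit 98762576999) (nat_lit 1) (nat_lit 4) (nat_lit 2) (nat_lit 5) (nat_lit 2) (nat_lit 4) (nat_lit 378) (nat_lit 206) (nat_lit 196)) (XT.nd (nat_lit 78) (nat_lit 0) (nat_lit 0) (XT.lf (nat_lit 0) (nat_lit 174696533861) (nat_lit 76) (nat_lit 103092533503) (nat_lit 76) (nat_lit 102419697028) (nat_lit 1) (nat_lit 4) (nat_lit 2) (nat_lit 5) (nat_lit 2) (nat_lit 4) (nat_lit 379) (nat_lit 206) (nat_lit 195)) (XT.lf (nat_lit 0) (nat_lit 185847610547) (nat_lit 76)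 (nat_lit 107012972531) (nat_lit 76) (nat_lit 106295031092) (nat_lit 1) (nat_lit 4) (nat_lit 2) (nat_lit 5) (nat_lit 2) (nat_lit 4) (nat_lit 380) (nat_lit 206) (nat_lit 194))))) (XT.nd (nat_lit 156) (nat_lit 0) (nat_lit 0) (XT.nd (nat_lit 78) (nat_lit 0) (nat_lit 0) (XT.lf (nat_lit 0) (nat_lit 197494909597) (nat_lit 76) (nat_lit 111158704725) (nat_lit 76) (nat_lit 110397806175) (nat_lit 1) (nat_lit 4) (nat_lit 2) (nat_lit 5) (nat_lit 2) (nat_lit 4) (nat_lit 381) (nat_lit 206) (nat_lit 193)) (XT.lf (nat_lit 0) (nat_lit 209666162676) (nat_lit 76) (nat_lit 115539600874) (nat_lit 76) (nat_lit 114737790791) (nat_lit 1) (nat_lit 4) (nat_lit 2) (nat_lit 5) (nat_lit 2) (nat_lit 4) (nat_lit 382) (nat_lit 206) (nat_lit 192))) (XT.nd (nat_lit 78) (nat_lit 0) (nat_lit 0) (XT.lf (nat_lit 0) (nat_lit 222390348956) (nat_lit 76) (nat_lit 120166091684) (nat_lit 76) (nat_lit 119325318236) (nat_lit 1) (nat_lit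 4) (nat_lit 2) (nat_lit 5) (nat_lit 2) (nat_lit 4) (nat_lit 383) (nat_lit 206) (nat_lit 191)) (XT.nd (nat_lit 78) (nat_lit 0) (nat_lit 0) (XT.lf (nat_lit 0) (nat_lit 235697764121) (nat_lit 76) (nat_lit 125049192609) (nat_lit 76) (nat_lit 124171311195) (nat_lit 1) (nat_lit 4) (nat_lit 2) (nat_lit 5) (nat_lit 2) (nat_lit 4) (nat_lit 384) (nat_lit 206) (nat_lit 190)) (XT.lf (nat_lit 0) (nat_lit 249620092492) (nat_lit 76) (nat_lit 130200530080) (nat_lit 76) (nat_lit 129287307745) (nat_lit 1) (nat_lit 4) (nat_lit 2) (nat_lit 5) (nat_lit 2) (nat_lit 4) (nat_lit 385) (nat_lit 206) (nat_lit 189)))))) (XT.nd (nat_lit 390) (nat_lit 0) (nat_lit 0) (XT.nd (nat_lit 156) (nat_lit 0) (nat_lit 0) (XT.nd (nat_lit 78) (nat_lit 0) (nat_lit 0) (XT.lf (nat_lit 0) (nat_lit 264190482469) (nat_lit 76) (nat_lit 135632369186) (nat_lit 76) (nat_lit 134685488831) (nat_lit 1) (nat_lit 4) (nat_lit 2) (nat_lit 5)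 (nat_lit 2) (nat_lit 4) (nat_lit 386) (nat_lit 206) (nat_lit 188)) (XT.lf (nat_lit 0) (nat_lit 279443625458) (nat_lit 76) (nat_lit 141357642877) (nat_lit 76) (nat_lit 140378707266) (nat_lit 1) (nat_lit 4) (nat_lit 2) (nat_lit 5) (nat_lit 2) (nat_lit 4) (nat_lit 387) (nat_lit 206) (nat_lit 187))) (XT.nd (nat_lit 78) (nat_lit 0) (nat_lit 0) (XT.lf (nat_lit 0) (nat_lit 295415838465) (nat_lit 76) (nat_lit 147389982758) (nat_lit 76) (nat_lit 146380518331) (nat_lit 1) (nat_lit 4) (nat_lit 2) (nat_lit 5) (nat_lit 2) (nat_lit 4) (nat_lit 388) (nat_lit 206) (nat_lit 186)) (XT.nd (nat_lit 78) (nat_lit 0) (nat_lit 0) (XT.lf (nat_lit 0) (nat_lit 312145150569) (nat_lit 76) (nat_lit 153743751542) (nat_lit 76) (nat_lit 152705212052) (nat_lit 1) (nat_lit 4) (nat_lit 2) (nat_lit 5) (nat_lit 2) (nat_lit 4) (nat_lit 389) (nat_lit 206) (nat_lit 185)) (XT.lf (nat_lit 0) (nat_lit 329671393466) (nat_lit 76)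 (nat_lit 160434077250) (nat_lit 76) (nat_lit 159367847225) (nat_lit 1) (nat_lit 4) (nat_lit 2) (nat_lit 5) (nat_lit 2) (nat_lit 4) (nat_lit 390) (nat_lit 206) (nat_lit 184))))) (XT.nd (nat_lit 38844) (nat_lit 0) (nat_lit 0) (XT.nd (nat_lit 38688) (nat_lit 0) (nat_lit 0) (XT.lf (nat_lit 0) (nat_lit 348036296306) (nat_lit 76) (nat_lit 167476889230) (nat_lit 76) (nat_lit 166384287265) (nat_lit 1) (nat_lit 4) (nat_lit 2) (nat_lit 5) (nat_lit 2) (nat_lit 4) (nat_lit 391) (nat_lit 206) (nat_lit 183)) (XT.nd (nat_lit 78) (nat_lit 0) (nat_lit 0) (XT.lf (nat_lit 0) (nat_lit 32110600019) (nat_lit 76) (nat_lit 34539915598) (nat_lit 76) (nat_lit 34539915598) (nat_lit 1) (nat_lit 4) (nat_lit 2) (nat_lit 5) (nat_lit 2) (nat_lit 4) (nat_lit 366) (nat_lit 207) (nat_lit 207)) (XT.lf (nat_lit 0) (nat_lit 70929956301) (nat_lit 76) (nat_lit 70779451216) (nat_lit 76) (nat_lit 70698449179) (nat_lit 1) (nat_lit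 4) (nat_lit 2) (nat_lit 5) (nat_lit 2) (nat_lit 4) (nat_lit 367) (nat_lit 207) (nat_lit 206)))) (XT.nd (nat_lit 78) (nat_lit 0) (nat_lit 0) (XT.lf (nat_lit 0) (nat_lit 77864007868) (nat_lit 76) (nat_lit 72616619130) (nat_lit 76) (nat_lit 72458472295) (nat_lit 1) (nat_lit 4) (nat_lit 2) (nat_lit 5) (nat_lit 2) (nat_lit 4) (nat_lit 368) (nat_lit 207) (nat_lit 205)) (XT.nd (nat_lit 78) (nat_lit 0) (nat_lit 0) (XT.lf (nat_lit 0) (nat_lit 85039864385) (nat_lit 76) (nat_lit 74595709147) (nat_lit 76) (nat_lit 74364091077) (nat_lit 1) (nat_lit 4) (nat_lit 2) (nat_lit 5) (nat_lit 2) (nat_lit 4) (nat_lit 369) (nat_lit 207) (nat_lit 204)) (XT.lf (nat_lit 0) (nat_lit 92474611225) (nat_lit 76) (nat_lit 76721433387) (nat_lit 76) (nat_lit 76419842712) (nat_lit 1) (nat_lit 4) (nat_lit 2) (nat_lit 5) (nat_lit 2) (nat_lit 4) (nat_lit 370) (nat_lit 207) (nat_lit 203))))))))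
noncomputable def xc4 : XT := (XT.nd (nat_lit 1560) (nat_lit 0) (nat_lit 0) (XT.nd (nat_lit 780) (nat_lit 0) (nat_lit 0) (XT.nd (nat_lit 390) (nat_lit 0) (nat_lit 0) (XT.nd (nat_lit 156) (nat_lit 0) (nat_lit 0) (XT.nd (nat_lit 78) (nat_lit 0) (nat_lit 0) (XT.lf (nat_lit 0) (nat_lit 100185950167) (nat_lit 76) (nat_lit 78998853099) (nat_lit 76) (nat_lit 78630621847) (nat_lit 1) (nat_lit 4) (nat_lit 2) (nat_lit 5) (nat_lit 2) (nat_lit 4) (nat_lit 371) (nat_lit 207) (nat_lit 202)) (XT.lf (nat_lit 0) (nat_lit 108192241542) (nat_lit 76) (nat_lit 81433390710) (nat_lit 76) (nat_lit 81001692242) (nat_lit 1) (nat_lit 4) (nat_lit 2) (nat_lit 5) (nat_lit 2) (nat_lit 4) (nat_lit 372) (nat_lit 207) (nat_lit 201))) (XT.nd (nat_lit 78) (nat_lit 0) (nat_lit 0) (XT.lf (nat_lit 0) (nat_lit 116512547947) (nat_lit 76) (nat_lit 84030842737) (nat_lit 76) (nat_lit 83538699302) (nat_lit 1) (nat_lit 4) (nat_lit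 2) (nat_lit 5) (nat_lit 2) (nat_lit 4) (nat_lit 373) (nat_lit 207) (nat_lit 200)) (XT.nd (nat_lit 78) (nat_lit 0) (nat_lit 0) (XT.lf (nat_lit 0) (nat_lit 125166679637) (nat_lit 76) (nat_lit 86797393592) (nat_lit 76) (nat_lit 86247683521) (nat_lit 1) (nat_lit 4) (nat_lit 2) (nat_lit 5) (nat_lit 2) (nat_lit 4) (nat_lit 374) (nat_lit 207) (nat_lit 199)) (XT.lf (nat_lit 0) (nat_lit 134175241686) (nat_lit 76) (nat_lit 89739630299) (nat_lit 76) (nat_lit 89135094861) (nat_lit 1) (nat_lit 4) (nat_lit 2) (nat_lit 5) (nat_lit 2) (nat_lit 4) (nat_lit 375) (nat_lit 207) (nat_lit 198))))) (XT.nd (nat_lit 156) (nat_lit 0) (nat_lit 0) (XT.nd (nat_lit 78) (nat_lit 0) (nat_lit 0) (XT.lf (nat_lit 0) (nat_lit 143559683052) (nat_lit 76) (nat_lit 92864558184) (nat_lit 76) (nat_lit 92207808110) (nat_lit 1) (nat_lit 4) (nat_lit 2) (nat_lit 5) (nat_lit 2) (nat_lit 4) (nat_lit 376) (nat_lit 207) (nat_lit 197))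 (XT.lf (nat_lit 0) (nat_lit 153342347644) (nat_lit 76) (nat_lit 96179617552) (nat_lit 76) (nat_lit 95473139254) (nat_lit 1) (nat_lit 4) (nat_lit 2) (nat_lit 5) (nat_lit 2) (nat_lit 4) (nat_lit 377) (nat_lit 207) (nat_lit 196))) (XT.nd (nat_lit 78) (nat_lit 0) (nat_lit 0) (XT.lf (nat_lit 0) (nat_lit 163546527519) (nat_lit 76) (nat_lit 99692701401) (nat_lit 76) (nat_lit 98938862889) (nat_lit 1) (nat_lit 4) (nat_lit 2) (nat_lit 5) (nat_lit 2) (nat_lit 4) (nat_lit 378) (nat_lit 207) (nat_lit 195)) (XT.nd (nat_lit 78) (nat_lit 0) (nat_lit 0) (XT.lf (nat_lit 0) (nat_lit 174196518343) (nat_lit 76) (nat_lit 103412174216) (nat_lit 76) (nat_lit 102613230739) (nat_lit 1) (nat_lit 4) (nat_lit 2) (nat_lit 5) (nat_lit 2) (nat_lit 4) (nat_lit 379) (nat_lit 207) (nat_lit 194)) (XT.lf (nat_lit 0) (nat_lit 185317677239) (nat_lit 76) (nat_lit 107346891885) (nat_lit 76) (nat_lit 106504991299) (nat_lit 1)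 (nat_lit 4) (nat_lit 2) (nat_lit 5) (nat_lit 2) (nat_lit 4) (nat_lit 380) (nat_lit 207) (nat_lit 193)))))) (XT.nd (nat_lit 390) (nat_lit 0) (nat_lit 0) (XT.nd (nat_lit 156) (nat_lit 0) (nat_lit 0) (XT.nd (nat_lit 78) (nat_lit 0) (nat_lit 0) (XT.lf (nat_lit 0) (nat_lit 196936483155) (nat_lit 76) (nat_lit 111506222784) (nat_lit 76) (nat_lit 110623410664) (nat_lit 1) (nat_lit 4) (nat_lit 2) (nat_lit 5) (nat_lit 2) (nat_lit 4) (nat_lit 381) (nat_lit 207) (nat_lit 192)) (XT.lf (nat_lit 0) (nat_lit 209080599916) (nat_lit 76) (nat_lit 115900070081) (nat_lit 76) (nat_lit 114978294596) (nat_lit 1) (nat_lit 4) (nat_lit 2) (nat_lit 5) (nat_lit 2) (nat_lit 4) (nat_lit 382) (nat_lit 207) (nat_lit 191))) (XT.nd (nat_lit 78) (nat_lit 0) (nat_lit 0) (XT.lf (nat_lit 0) (nat_lit 221778942084) (nat_lit 76) (nat_lit 120538895318) (nat_lit 76) (nat_lit 119580011866) (nat_lit 1) (nat_lit 4) (nat_lit 2) (nat_lit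 5) (nat_lit 2) (nat_lit 4) (nat_lit 383) (nat_lit 207) (nat_lit 190)) (XT.nd (nat_lit 78) (nat_lit 0) (nat_lit 0) (XT.lf (nat_lit 0) (nat_lit 235061743809) (nat_lit 76) (nat_lit 125433743316) (nat_lit 76) (nat_lit 124439518944) (nat_lit 1) (nat_lit 4) (nat_lit 2) (nat_lit 5) (nat_lit 2) (nat_lit 4) (nat_lit 384) (nat_lit 207) (nat_lit 189)) (XT.lf (nat_lit 0) (nat_lit 248960630808) (nat_lit 76) (nat_lit 130596268475) (nat_lit 76) (nat_lit 129568386084) (nat_lit 1) (nat_lit 4) (nat_lit 2) (nat_lit 5) (nat_lit 2) (nat_lit 4) (nat_lit 385) (nat_lit 207) (nat_lit 188))))) (XT.nd (nat_lit 156) (nat_lit 0) (nat_lit 0) (XT.nd (nat_lit 78) (nat_lit 0) (nat_lit 0) (XT.lf (nat_lit 0) (nat_lit 263508695669) (nat_lit 76) (nat_lit 136038762523) (nat_lit 76) (nat_lit 134978824875) (nat_lit 1) (nat_lit 4) (nat_lit 2) (nat_lit 5) (nat_lit 2) (nat_lit 4) (nat_lit 386) (nat_lit 207) (nat_lit 187)) (XT.lf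 (nat_lit 0) (nat_lit 278740576643) (nat_lit 76) (nat_lit 141774183777) (nat_lit 76) (nat_lit 140683717313) (nat_lit 1) (nat_lit 4) (nat_lit 2) (nat_lit 5) (nat_lit 2) (nat_lit 4) (nat_lit 387) (nat_lit 207) (nat_lit 186))) (XT.nd (nat_lit 78) (nat_lit 0) (nat_lit 0) (XT.lf (nat_lit 0) (nat_lit 294692540112) (nat_lit 76) (nat_lit 147816188004) (nat_lit 76) (nat_lit 146696646477) (nat_lit 1) (nat_lit 4) (nat_lit 2) (nat_lit 5) (nat_lit 2) (nat_lit 4) (nat_lit 388) (nat_lit 207) (nat_lit 185)) (XT.nd (nat_lit 78) (nat_lit 0) (nat_lit 0) (XT.lf (nat_lit 0) (nat_lit 311402566942) (nat_lit 76) (nat_lit 154179160927) (nat_lit 76) (nat_lit 153031928864) (nat_lit 1) (nat_lit 4) (nat_lit 2) (nat_lit 5) (nat_lit 2) (nat_lit 4) (nat_lit 389) (nat_lit 207) (nat_lit 184)) (XT.lf (nat_lit 0) (nat_lit 328910442911) (nat_lit 76) (nat_lit 160878252483) (nat_lit 76) (nat_lit 159704648481) (nat_lit 1) (nat_lit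 4) (nat_lit 2) (nat_lit 5) (nat_lit 2) (nat_lit 4) (nat_lit 390) (nat_lit 207) (nat_lit 183))))))) (XT.nd (nat_lit 39234) (nat_lit 0) (nat_lit 0) (XT.nd (nat_lit 38844) (nat_lit 0) (nat_lit 0) (XT.nd (nat_lit 38610) (nat_lit 0) (nat_lit 0) (XT.nd (nat_lit 38532) (nat_lit 0) (nat_lit 0) (XT.lf (nat_lit 0) (nat_lit 347257853438) (nat_lit 76) (nat_lit 167929412888) (nat_lit 76) (nat_lit 166730692753) (nat_lit 1) (nat_lit 4) (nat_lit 2) (nat_lit 5) (nat_lit 2) (nat_lit 4) (nat_lit 391) (nat_lit 207) (nat_lit 182)) (XT.lf (nat_lit 0) (nat_lit 25737707037) (nat_lit 76) (nat_lit 33067073626) (nat_lit 76) (nat_lit 33067073626) (nat_lit 1) (nat_lit 4) (nat_lit 2) (nat_lit 5) (nat_lit 2) (nat_lit 4) (nat_lit 364) (nat_lit 208) (nat_lit 208))) (XT.nd (nat_lit 78) (nat_lit 0) (nat_lit 0) (XT.lf (nat_lit 0) (nat_lit 57721765852) (nat_lit 76) (nat_lit 67598764497) (nat_lit 76) (nat_lit 67513712358)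 (nat_lit 1) (nat_lit 4) (nat_lit 2) (nat_lit 5) (nat_lit 2) (nat_lit 4) (nat_lit 365) (nat_lit 208) (nat_lit 207)) (XT.nd (nat_lit 78) (nat_lit 0) (nat_lit 0) (XT.lf (nat_lit 0) (nat_lit 64164785583) (nat_lit 76) (nat_lit 69191807843) (nat_lit 76) (nat_lit 69025753666) (nat_lit 1) (nat_lit 4) (nat_lit 2) (nat_lit 5) (nat_lit 2) (nat_lit 4) (nat_lit 366) (nat_lit 208) (nat_lit 206)) (XT.lf (nat_lit 0) (nat_lit 70819813792) (nat_lit 76) (nat_lit 70917070249) (nat_lit 76) (nat_lit 70673871275) (nat_lit 1) (nat_lit 4) (nat_lit 2) (nat_lit 5) (nat_lit 2) (nat_lit 4) (nat_lit 367) (nat_lit 208) (nat_lit 205))))) (XT.nd (nat_lit 156) (nat_lit 0) (nat_lit 0) (XT.nd (nat_lit 78) (nat_lit 0) (nat_lit 0) (XT.lf (nat_lit 0) (nat_lit 77702695784) (nat_lit 76) (nat_lit 72778659483) (nat_lit 76) (nat_lit 72461989274) (nat_lit 1) (nat_lit 4) (nat_lit 2) (nat_lit 5) (nat_lit 2) (nat_lit 4) (nat_lit 368)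 (nat_lit 208) (nat_lit 204)) (XT.lf (nat_lit 0) (nat_lit 84829819373) (nat_lit 76) (nat_lit 74781007902) (nat_lit 76) (nat_lit 74394365087) (nat_lit 1) (nat_lit 4) (nat_lit 2) (nat_lit 5) (nat_lit 2) (nat_lit 4) (nat_lit 369) (nat_lit 208) (nat_lit 203))) (XT.nd (nat_lit 78) (nat_lit 0) (nat_lit 0) (XT.lf (nat_lit 0) (nat_lit 92218153901) (nat_lit 76) (nat_lit 76928883000) (nat_lit 76) (nat_lit 76475599609) (nat_lit 1) (nat_lit 4) (nat_lit 2) (nat_lit 5) (nat_lit 2) (nat_lit 4) (nat_lit 370) (nat_lit 208) (nat_lit 202)) (XT.nd (nat_lit 78) (nat_lit 0) (nat_lit 0) (XT.lf (nat_lit 0) (nat_lit 99885290641) (nat_lit 76) (nat_lit 79227398767) (nat_lit 76) (nat_lit 78710648160) (nat_lit 1) (nat_lit 4) (nat_lit 2) (nat_lit 5) (nat_lit 2) (nat_lit 4) (nat_lit 371) (nat_lit 208) (nat_lit 201)) (XT.lf (nat_lit 0) (nat_lit 107849484680) (nat_lit 76) (nat_lit 81682027859) (nat_lit 76) (nat_lit 81104832285)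 (nat_lit 1) (nat_lit 4) (nat_lit 2) (nat_lit 5) (nat_lit 2) (nat_lit 4) (nat_lit 372) (nat_lit 208) (nat_lit 200)))))) (XT.nd (nat_lit 390) (nat_lit 0) (nat_lit 0) (XT.nd (nat_lit 156) (nat_lit 0) (nat_lit 0) (XT.nd (nat_lit 78) (nat_lit 0) (nat_lit 0) (XT.lf (nat_lit 0) (nat_lit 116129698385) (nat_lit 76) (nat_lit 84298614631) (nat_lit 76) (nat_lit 83663852421) (nat_lit 1) (nat_lit 4) (nat_lit 2) (nat_lit 5) (nat_lit 2) (nat_lit 4) (nat_lit 373) (nat_lit 208) (nat_lit 199)) (XT.lf (nat_lit 0) (nat_lit 124745646550) (nat_lit 76) (nat_lit 87083389051) (nat_lit 76) (nat_lit 86393801474) (nat_lit 1) (nat_lit 4) (nat_lit 2) (nat_lit 5) (nat_lit 2) (nat_lit 4) (nat_lit 374) (nat_lit 208) (nat_lit 198))) (XT.nd (nat_lit 78) (nat_lit 0) (nat_lit 0) (XT.lf (nat_lit 0) (nat_lit 133717843339) (nat_lit 76) (nat_lit 90042981535) (nat_lit 76) (nat_lit 89301179323) (nat_lit 1) (nat_lit 4) (nat_lit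 2) (nat_lit 5) (nat_lit 2) (nat_lit 4) (nat_lit 375) (nat_lit 208) (nat_lit 197)) (XT.nd (nat_lit 78) (nat_lit 0) (nat_lit 0) (XT.lf (nat_lit 0) (nat_lit 143067651123) (nat_lit 76) (nat_lit 93184438732) (nat_lit 76) (nat_lit 92392908295) (nat_lit 1) (nat_lit 4) (nat_lit 2) (nat_lit 5) (nat_lit 2) (nat_lit 4) (nat_lit 376) (nat_lit 208) (nat_lit 196)) (XT.lf (nat_lit 0) (nat_lit 152817331350) (nat_lit 76) (nat_lit 96515240301) (nat_lit 76) (nat_lit 95676349650) (nat_lit 1) (nat_lit 4) (nat_lit 2) (nat_lit 5) (nat_lit 2) (nat_lit 4) (nat_lit 377) (nat_lit 208) (nat_lit 195))))) (XT.nd (nat_lit 156) (nat_lit 0) (nat_lit 0) (XT.nd (nat_lit 78) (nat_lit 0) (nat_lit 0) (XT.lf (nat_lit 0) (nat_lit 162990097545) (nat_lit 76) (nat_lit 100043316723) (nat_lit 76) (nat_lit 99159321106) (nat_lit 1) (nat_lit 4) (nat_lit 2) (nat_lit 5) (nat_lit 2) (nat_lit 4) (nat_lit 378) (nat_lit 208) (nat_lit 194))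 (XT.lf (nat_lit 0) (nat_lit 173610170579) (nat_lit 76) (nat_lit 103777068178) (nat_lit 76) (nat_lit 102850115453) (nat_lit 1) (nat_lit 4) (nat_lit 2) (nat_lit 5) (nat_lit 2) (nat_lit 4) (nat_lit 379) (nat_lit 208) (nat_lit 193))) (XT.nd (nat_lit 78) (nat_lit 0) (nat_lit 0) (XT.lf (nat_lit 0) (nat_lit 184702836341) (nat_lit 76) (nat_lit 107725384553) (nat_lit 76) (nat_lit 106757520294) (nat_lit 1) (nat_lit 4) (nat_lit 2) (nat_lit 5) (nat_lit 2) (nat_lit 4) (nat_lit 380) (nat_lit 208) (nat_lit 192)) (XT.nd (nat_lit 78) (nat_lit 0) (nat_lit 0) (XT.lf (nat_lit 0) (nat_lit 196294505940) (nat_lit 76) (nat_lit 111897666600) (nat_lit 76) (nat_lit 110890838976) (nat_lit 1) (nat_lit 4) (nat_lit 2) (nat_lit 5) (nat_lit 2) (nat_lit 4) (nat_lit 381) (nat_lit 208) (nat_lit 191)) (XT.lf (nat_lit 0) (nat_lit 208412778588) (nat_lit 76) (nat_lit 116303848324) (nat_lit 76) (nat_lit 115259912733) (nat_lit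 1) (nat_lit 4) (nat_lit 2) (nat_lit 5) (nat_lit 2) (nat_lit 4) (nat_lit 382) (nat_lit 208) (nat_lit 190))))))))
noncomputable def xc5 : XT := (XT.nd (nat_lit 39858) (nat_lit 0) (nat_lit 0) (XT.nd (nat_lit 39078) (nat_lit 0) (nat_lit 0) (XT.nd (nat_lit 390) (nat_lit 0) (nat_lit 0) (XT.nd (nat_lit 156) (nat_lit 0) (nat_lit 0) (XT.nd (nat_lit 78) (nat_lit 0) (nat_lit 0) (XT.lf (nat_lit 0) (nat_lit 221086507316) (nat_lit 76) (nat_lit 120954420633) (nat_lit 76) (nat_lit 119875144122) (nat_lit 1) (nat_lit 4) (nat_lit 2) (nat_lit 5) (nat_lit 2) (nat_lit 4) (nat_lit 383) (nat_lit 208) (nat_lit 189)) (XT.lf (nat_lit 0) (nat_lit 234345867669) (nat_lit 76) (nat_lit 125860456320) (nat_lit 76) (nat_lit 124747521789) (nat_lit 1) (nat_lit 4) (nat_lit 2) (nat_lit 5) (nat_lit 2) (nat_lit 4) (nat_lit 384) (nat_lit 208) (nat_lit 188))) (XT.nd (nat_lit 78) (nat_lit 0) (nat_lit 0) (XT.lf (nat_lit 0) (nat_lit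 248222429553) (nat_lit 76) (nat_lit 131033636421) (nat_lit 76) (nat_lit 129888646633) (nat_lit 1) (nat_lit 4) (nat_lit 2) (nat_lit 5) (nat_lit 2) (nat_lit 4) (nat_lit 385) (nat_lit 208) (nat_lit 187)) (XT.nd (nat_lit 78) (nat_lit 0) (nat_lit 0) (XT.lf (nat_lit 0) (nat_lit 262749232399) (nat_lit 76) (nat_lit 136486278032) (nat_lit 76) (nat_lit 135310759428) (nat_lit 1) (nat_lit 4) (nat_lit 2) (nat_lit 5) (nat_lit 2) (nat_lit 4) (nat_lit 386) (nat_lit 208) (nat_lit 186)) (XT.lf (nat_lit 0) (nat_lit 277960863834) (nat_lit 76) (nat_lit 142231363632) (nat_lit 76) (nat_lit 141026769966) (nat_lit 1) (nat_lit 4) (nat_lit 2) (nat_lit 5) (nat_lit 2) (nat_lit 4) (nat_lit 387) (nat_lit 208) (nat_lit 185))))) (XT.nd (nat_lit 156) (nat_lit 0) (nat_lit 0) (XT.nd (nat_lit 78) (nat_lit 0) (nat_lit 0) (XT.lf (nat_lit 0) (nat_lit 293893542029) (nat_lit 76) (nat_lit 148282571998) (nat_lit 76) (nat_lit 147050287796)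 (nat_lit 1) (nat_lit 4) (nat_lit 2) (nat_lit 5) (nat_lit 2) (nat_lit 4) (nat_lit 388) (nat_lit 208) (nat_lit 184)) (XT.lf (nat_lit 0) (nat_lit 310585201931) (nat_lit 76) (nat_lit 154654310768) (nat_lit 76) (nat_lit 153395654627) (nat_lit 1) (nat_lit 4) (nat_lit 2) (nat_lit 5) (nat_lit 2) (nat_lit 4) (nat_lit 389) (nat_lit 208) (nat_lit 183))) (XT.nd (nat_lit 78) (nat_lit 0) (nat_lit 0) (XT.lf (nat_lit 0) (nat_lit 328075585587) (nat_lit 76) (nat_lit 161361750749) (nat_lit 76) (nat_lit 160077978475) (nat_lit 1) (nat_lit 4) (nat_lit 2) (nat_lit 5) (nat_lit 2) (nat_lit 4) (nat_lit 390) (nat_lit 208) (nat_lit 182)) (XT.nd (nat_lit 38376) (nat_lit 0) (nat_lit 0) (XT.lf (nat_lit 0) (nat_lit 346406336769) (nat_lit 76) (nat_lit 168420862035) (nat_lit 76) (nat_lit 167113169635) (nat_lit 1) (nat_lit 4) (nat_lit 2) (nat_lit 5) (nat_lit 2) (nat_lit 4) (nat_lit 391) (nat_lit 208) (nat_lit 181)) (XT.lf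 (nat_lit 0) (nat_lit 19787927552) (nat_lit 76) (nat_lit 31818080140) (nat_lit 76) (nat_lit 31818080140) (nat_lit 1) (nat_lit 4) (nat_lit 2) (nat_lit 5) (nat_lit 2) (nat_lit 4) (nat_lit 362) (nat_lit 209) (nat_lit 209)))))) (XT.nd (nat_lit 390) (nat_lit 0) (nat_lit 0) (XT.nd (nat_lit 156) (nat_lit 0) (nat_lit 0) (XT.nd (nat_lit 78) (nat_lit 0) (nat_lit 0) (XT.lf (nat_lit 0) (nat_lit 45410857986) (nat_lit 76) (nat_lit 64883773671) (nat_lit 76) (nat_lit 64794468924) (nat_lit 1) (nat_lit 4) (nat_lit 2) (nat_lit 5) (nat_lit 2) (nat_lit 4) (nat_lit 363) (nat_lit 209) (nat_lit 208)) (XT.lf (nat_lit 0) (nat_lit 51416178896) (nat_lit 76) (nat_lit 66251722730) (nat_lit 76) (nat_lit 66077365845) (nat_lit 1) (nat_lit 4) (nat_lit 2) (nat_lit 5) (nat_lit 2) (nat_lit 4) (nat_lit 364) (nat_lit 209) (nat_lit 207))) (XT.nd (nat_lit 78) (nat_lit 0) (nat_lit 0) (XT.lf (nat_lit 0) (nat_lit 57606116218) (nat_lit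 76) (nat_lit 67743264482) (nat_lit 76) (nat_lit 67487905559) (nat_lit 1) (nat_lit 4) (nat_lit 2) (nat_lit 5) (nat_lit 2) (nat_lit 4) (nat_lit 365) (nat_lit 209) (nat_lit 206)) (XT.nd (nat_lit 78) (nat_lit 0) (nat_lit 0) (XT.lf (nat_lit 0) (nat_lit 63995407896) (nat_lit 76) (nat_lit 69361950214) (nat_lit 76) (nat_lit 69029446494) (nat_lit 1) (nat_lit 4) (nat_lit 2) (nat_lit 5) (nat_lit 2) (nat_lit 4) (nat_lit 366) (nat_lit 209) (nat_lit 205)) (XT.lf (nat_lit 0) (nat_lit 70599266530) (nat_lit 76) (nat_lit 71111633941) (nat_lit 76) (nat_lit 70705658986) (nat_lit 1) (nat_lit 4) (nat_lit 2) (nat_lit 5) (nat_lit 2) (nat_lit 4) (nat_lit 367) (nat_lit 209) (nat_lit 204))))) (XT.nd (nat_lit 156) (nat_lit 0) (nat_lit 0) (XT.nd (nat_lit 78) (nat_lit 0) (nat_lit 0) (XT.lf (nat_lit 0) (nat_lit 77433415594) (nat_lit 76) (nat_lit 72996481577) (nat_lit 76) (nat_lit 72520534016) (nat_lit 1) (nat_lit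 4) (nat_lit 2) (nat_lit 5) (nat_lit 2) (nat_lit 4) (nat_lit 368) (nat_lit 209) (nat_lit 203)) (XT.lf (nat_lit 0) (nat_lit 84514126871) (nat_lit 76) (nat_lit 75020980854) (nat_lit 76) (nat_lit 74478392716) (nat_lit 1) (nat_lit 4) (nat_lit 2) (nat_lit 5) (nat_lit 2) (nat_lit 4) (nat_lit 369) (nat_lit 209) (nat_lit 202))) (XT.nd (nat_lit 78) (nat_lit 0) (nat_lit 0) (XT.lf (nat_lit 0) (nat_lit 91858259197) (nat_lit 76) (nat_lit 77189952008) (nat_lit 76) (nat_lit 76583896654) (nat_lit 1) (nat_lit 4) (nat_lit 2) (nat_lit 5) (nat_lit 2) (nat_lit 4) (nat_lit 370) (nat_lit 209) (nat_lit 201)) (XT.nd (nat_lit 78) (nat_lit 0) (nat_lit 0) (XT.lf (nat_lit 0) (nat_lit 99483298601) (nat_lit 76) (nat_lit 79508559256) (nat_lit 76) (nat_lit 78842058935) (nat_lit 1) (nat_lit 4) (nat_lit 2) (nat_lit 5) (nat_lit 2) (nat_lit 4) (nat_lit 371) (nat_lit 209) (nat_lit 200)) (XT.lf (nat_lit 0) (nat_lit 107407399939)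 (nat_lit 76) (nat_lit 81982323092) (nat_lit 76) (nat_lit 81258256135) (nat_lit 1) (nat_lit 4) (nat_lit 2) (nat_lit 5) (nat_lit 2) (nat_lit 4) (nat_lit 372) (nat_lit 209) (nat_lit 199))))))) (XT.nd (nat_lit 780) (nat_lit 0) (nat_lit 0) (XT.nd (nat_lit 390) (nat_lit 0) (nat_lit 0) (XT.nd (nat_lit 156) (nat_lit 0) (nat_lit 0) (XT.nd (nat_lit 78) (nat_lit 0) (nat_lit 0) (XT.lf (nat_lit 0) (nat_lit 115649430120) (nat_lit 76) (nat_lit 84617133429) (nat_lit 76) (nat_lit 83838241106) (nat_lit 1) (nat_lit 4) (nat_lit 2) (nat_lit 5) (nat_lit 2) (nat_lit 4) (nat_lit 373) (nat_lit 209) (nat_lit 198)) (XT.lf (nat_lit 0) (nat_lit 124229013024) (nat_lit 76) (nat_lit 87419263627) (nat_lit 76) (nat_lit 86588156668) (nat_lit 1) (nat_lit 4) (nat_lit 2) (nat_lit 5) (nat_lit 2) (nat_lit 4) (nat_lit 374) (nat_lit 209) (nat_lit 197))) (XT.nd (nat_lit 78) (nat_lit 0) (nat_lit 0) (XT.lf (nat_lit 0) (nat_lit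 133166576230) (nat_lit 76) (nat_lit 90395385422) (nat_lit 76) (nat_lit 89514550239) (nat_lit 1) (nat_lit 4) (nat_lit 2) (nat_lit 5) (nat_lit 2) (nat_lit 4) (nat_lit 375) (nat_lit 209) (nat_lit 196)) (XT.nd (nat_lit 78) (nat_lit 0) (nat_lit 0) (XT.lf (nat_lit 0) (nat_lit 142483399650) (nat_lit 76) (nat_lit 93552584820) (nat_lit 76) (nat_lit 92624389423) (nat_lit 1) (nat_lit 4) (nat_lit 2) (nat_lit 5) (nat_lit 2) (nat_lit 4) (nat_lit 376) (nat_lit 209) (nat_lit 195)) (XT.lf (nat_lit 0) (nat_lit 152201666198) (nat_lit 76) (nat_lit 96898378962) (nat_lit 76) (nat_lit 95925078599) (nat_lit 1) (nat_lit 4) (nat_lit 2) (nat_lit 5) (nat_lit 2) (nat_lit 4) (nat_lit 377) (nat_lit 209) (nat_lit 194))))) (XT.nd (nat_lit 156) (nat_lit 0) (nat_lit 0) (XT.nd (nat_lit 78) (nat_lit 0) (nat_lit 0) (XT.lf (nat_lit 0) (nat_lit 162344514602) (nat_lit 76) (nat_lit 100440734024) (nat_lit 76) (nat_lit 99424476552)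 (nat_lit 1) (nat_lit 4) (nat_lit 2) (nat_lit 5) (nat_lit 2) (nat_lit 4) (nat_lit 378) (nat_lit 209) (nat_lit 193)) (XT.lf (nat_lit 0) (nat_lit 172936094503) (nat_lit 76) (nat_lit 104188084185) (nat_lit 76) (nat_lit 103130915180) (nat_lit 1) (nat_lit 4) (nat_lit 2) (nat_lit 5) (nat_lit 2) (nat_lit 4) (nat_lit 379) (nat_lit 209) (nat_lit 192))) (XT.nd (nat_lit 78) (nat_lit 0) (nat_lit 0) (XT.lf (nat_lit 0) (nat_lit 184001623947) (nat_lit 76) (nat_lit 108149351708) (nat_lit 76) (nat_lit 107053219338) (nat_lit 1) (nat_lit 4) (nat_lit 2) (nat_lit 5) (nat_lit 2) (nat_lit 4) (nat_lit 380) (nat_lit 209) (nat_lit 191)) (XT.nd (nat_lit 78) (nat_lit 0) (nat_lit 0) (XT.lf (nat_lit 0) (nat_lit 195567449433) (nat_lit 76) (nat_lit 112333968181) (nat_lit 76) (nat_lit 111200727844) (nat_lit 1) (nat_lit 4) (nat_lit 2) (nat_lit 5) (nat_lit 2) (nat_lit 4) (nat_lit 381) (nat_lit 209) (nat_lit 190)) (XT.lf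 (nat_lit 0) (nat_lit 207661108642) (nat_lit 76) (nat_lit 116751896978) (nat_lit 76) (nat_lit 115583315721) (nat_lit 1) (nat_lit 4) (nat_lit 2) (nat_lit 5) (nat_lit 2) (nat_lit 4) (nat_lit 382) (nat_lit 209) (nat_lit 189)))))) (XT.nd (nat_lit 390) (nat_lit 0) (nat_lit 0) (XT.nd (nat_lit 156) (nat_lit 0) (nat_lit 0) (XT.nd (nat_lit 78) (nat_lit 0) (nat_lit 0) (XT.lf (nat_lit 0) (nat_lit 220311395998) (nat_lit 76) (nat_lit 121413656976) (nat_lit 76) (nat_lit 120211417699) (nat_lit 1) (nat_lit 4) (nat_lit 2) (nat_lit 5) (nat_lit 2) (nat_lit 4) (nat_lit 383) (nat_lit 209) (nat_lit 188)) (XT.lf (nat_lit 0) (nat_lit 233548431235) (nat_lit 76) (nat_lit 126330347604) (nat_lit 76) (nat_lit 125096053070) (nat_lit 1) (nat_lit 4) (nat_lit 2) (nat_lit 5) (nat_lit 2) (nat_lit 4) (nat_lit 384) (nat_lit 209) (nat_lit 187))) (XT.nd (nat_lit 78) (nat_lit 0) (nat_lit 0) (XT.lf (nat_lit 0) (nat_lit 247403731103)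 (nat_lit 76) (nat_lit 131513675268) (nat_lit 76) (nat_lit 130248851919) (nat_lit 1) (nat_lit 4) (nat_lit 2) (nat_lit 5) (nat_lit 2) (nat_lit 4) (nat_lit 385) (nat_lit 209) (nat_lit 186)) (XT.nd (nat_lit 78) (nat_lit 0) (nat_lit 0) (XT.lf (nat_lit 0) (nat_lit 261910284412) (nat_lit 76) (nat_lit 136975981225) (nat_lit 76) (nat_lit 135682082813) (nat_lit 1) (nat_lit 4) (nat_lit 2) (nat_lit 5) (nat_lit 2) (nat_lit 4) (nat_lit 386) (nat_lit 209) (nat_lit 185)) (XT.lf (nat_lit 0) (nat_lit 277102630573) (nat_lit 76) (nat_lit 142730270965) (nat_lit 76) (nat_lit 141408682017) (nat_lit 1) (nat_lit 4) (nat_lit 2) (nat_lit 5) (nat_lit 2) (nat_lit 4) (nat_lit 387) (nat_lit 209) (nat_lit 184))))) (XT.nd (nat_lit 156) (nat_lit 0) (nat_lit 0) (XT.nd (nat_lit 78) (nat_lit 0) (nat_lit 0) (XT.lf (nat_lit 0) (nat_lit 293016941839) (nat_lit 76) (nat_lit 148790245177) (nat_lit 76) (nat_lit 147442284290) (nat_lit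 1) (nat_lit 4) (nat_lit 2) (nat_lit 5) (nat_lit 2) (nat_lit 4) (nat_lit 388) (nat_lit 209) (nat_lit 183)) (XT.lf (nat_lit 0) (nat_lit 309691109429) (nat_lit 76) (nat_lit 155170332373) (nat_lit 76) (nat_lit 153797255353) (nat_lit 1) (nat_lit 4) (nat_lit 2) (nat_lit 5) (nat_lit 2) (nat_lit 4) (nat_lit 389) (nat_lit 209) (nat_lit 182))) (XT.nd (nat_lit 78) (nat_lit 0) (nat_lit 0) (XT.lf (nat_lit 0) (nat_lit 327164833740) (nat_lit 76) (nat_lit 161885723235) (nat_lit 76) (nat_lit 160488726089) (nat_lit 1) (nat_lit 4) (nat_lit 2) (nat_lit 5) (nat_lit 2) (nat_lit 4) (nat_lit 390) (nat_lit 209) (nat_lit 181)) (XT.nd (nat_lit 38220) (nat_lit 0) (nat_lit 0) (XT.lf (nat_lit 0) (nat_lit 345479718879) (nat_lit 76) (nat_lit 168952406789) (nat_lit 76) (nat_lit 167532628571) (nat_lit 1) (nat_lit 4) (nat_lit 2) (nat_lit 5) (nat_lit 2) (nat_lit 4) (nat_lit 391) (nat_lit 209) (nat_lit 180)) (XT.lf (nat_lit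 0) (nat_lit 14213455596) (nat_lit 76) (nat_lit 30776469709) (nat_lit 76) (nat_lit 30776469709) (nat_lit 1) (nat_lit 4) (nat_lit 2) (nat_lit 5) (nat_lit 2) (nat_lit 4) (nat_lit 360) (nat_lit 210) (nat_lit 210))))))))
noncomputable def xc6 : XT := (XT.nd (nat_lit 1560) (nat_lit 0) (nat_lit 0) (XT.nd (nat_lit 780) (nat_lit 0) (nat_lit 0) (XT.nd (nat_lit 390) (nat_lit 0) (nat_lit 0) (XT.nd (nat_lit 156) (nat_lit 0) (nat_lit 0) (XT.nd (nat_lit 78) (nat_lit 0) (nat_lit 0) (XT.lf (nat_lit 0) (nat_lit 33897277386) (nat_lit 76) (nat_lit 62599682035) (nat_lit 76) (nat_lit 62505912052) (nat_lit 1) (nat_lit 4) (nat_lit 2) (nat_lit 5) (nat_lit 2) (nat_lit 4) (nat_lit 361) (nat_lit 210) (nat_lit 209)) (XT.lf (nat_lit 0) (nat_lit 39513658167) (nat_lit 76) (nat_lit 63759614532) (nat_lit 76) (nat_lit 63576539803) (nat_lit 1) (nat_lit 4) (nat_lit 2) (nat_lit 5) (nat_lit 2) (nat_lit 4) (nat_lit 362) (nat_lit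 210) (nat_lit 208))) (XT.nd (nat_lit 78) (nat_lit 0) (nat_lit 0) (XT.lf (nat_lit 0) (nat_lit 45289425870) (nat_lit 76) (nat_lit 65035498654) (nat_lit 76) (nat_lit 64767371785) (nat_lit 1) (nat_lit 4) (nat_lit 2) (nat_lit 5) (nat_lit 2) (nat_lit 4) (nat_lit 363) (nat_lit 210) (nat_lit 207)) (XT.nd (nat_lit 78) (nat_lit 0) (nat_lit 0) (XT.lf (nat_lit 0) (nat_lit 51238332324) (nat_lit 76) (nat_lit 66430372221) (nat_lit 76) (nat_lit 66081243315) (nat_lit 1) (nat_lit 4) (nat_lit 2) (nat_lit 5) (nat_lit 2) (nat_lit 4) (nat_lit 364) (nat_lit 210) (nat_lit 206)) (XT.lf (nat_lit 0) (nat_lit 57374541592) (nat_lit 76) (nat_lit 67947556359) (nat_lit 76) (nat_lit 67521282656) (nat_lit 1) (nat_lit 4) (nat_lit 2) (nat_lit 5) (nat_lit 2) (nat_lit 4) (nat_lit 365) (nat_lit 210) (nat_lit 205))))) (XT.nd (nat_lit 156) (nat_lit 0) (nat_lit 0) (XT.nd (nat_lit 78) (nat_lit 0) (nat_lit 0) (XT.lf (nat_lit 0)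 (nat_lit 63712663696) (nat_lit 76) (nat_lit 69590663412) (nat_lit 76) (nat_lit 69090918473) (nat_lit 1) (nat_lit 4) (nat_lit 2) (nat_lit 5) (nat_lit 2) (nat_lit 4) (nat_lit 366) (nat_lit 210) (nat_lit 204)) (XT.lf (nat_lit 0) (nat_lit 70267789403) (nat_lit 76) (nat_lit 71363605541) (nat_lit 76) (nat_lit 70793887996) (nat_lit 1) (nat_lit 4) (nat_lit 2) (nat_lit 5) (nat_lit 2) (nat_lit 4) (nat_lit 367) (nat_lit 210) (nat_lit 203))) (XT.nd (nat_lit 78) (nat_lit 0) (nat_lit 0) (XT.lf (nat_lit 0) (nat_lit 77055526154) (nat_lit 76) (nat_lit 73270604034) (nat_lit 76) (nat_lit 72634245914) (nat_lit 1) (nat_lit 4) (nat_lit 2) (nat_lit 5) (nat_lit 2) (nat_lit 4) (nat_lit 368) (nat_lit 210) (nat_lit 202)) (XT.nd (nat_lit 78) (nat_lit 0) (nat_lit 0) (XT.lf (nat_lit 0) (nat_lit 84092035229) (nat_lit 76) (nat_lit 75316199366) (nat_lit 76) (nat_lit 74616374030) (nat_lit 1) (nat_lit 4) (nat_lit 2) (nat_lit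 5) (nat_lit 2) (nat_lit 4) (nat_lit 369) (nat_lit 210) (nat_lit 201)) (XT.lf (nat_lit 0) (nat_lit 91394070219) (nat_lit 76) (nat_lit 77505262002) (nat_lit 76) (nat_lit 76744991697) (nat_lit 1) (nat_lit 4) (nat_lit 2) (nat_lit 5) (nat_lit 2) (nat_lit 4) (nat_lit 370) (nat_lit 210) (nat_lit 200)))))) (XT.nd (nat_lit 390) (nat_lit 0) (nat_lit 0) (XT.nd (nat_lit 156) (nat_lit 0) (nat_lit 0) (XT.nd (nat_lit 78) (nat_lit 0) (nat_lit 0) (XT.lf (nat_lit 0) (nat_lit 98979016923) (nat_lit 76) (nat_lit 79843003994) (nat_lit 76) (nat_lit 79025167054) (nat_lit 1) (nat_lit 4) (nat_lit 2) (nat_lit 5) (nat_lit 2) (nat_lit 4) (nat_lit 371) (nat_lit 210) (nat_lit 199)) (XT.lf (nat_lit 0) (nat_lit 106864934737) (nat_lit 76) (nat_lit 82334991396) (nat_lit 76) (nat_lit 81462329089) (nat_lit 1) (nat_lit 4) (nat_lit 2) (nat_lit 5) (nat_lit 2) (nat_lit 4) (nat_lit 372) (nat_lit 210) (nat_lit 198))) (XT.nd (nat_lit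 78) (nat_lit 0) (nat_lit 0) (XT.lf (nat_lit 0) (nat_lit 115070599656) (nat_lit 76) (nat_lit 84987157510) (nat_lit 76) (nat_lit 84062280568) (nat_lit 1) (nat_lit 4) (nat_lit 2) (nat_lit 5) (nat_lit 2) (nat_lit 4) (nat_lit 373) (nat_lit 210) (nat_lit 197)) (XT.nd (nat_lit 78) (nat_lit 0) (nat_lit 0) (XT.lf (nat_lit 0) (nat_lit 123615548978) (nat_lit 76) (nat_lit 87805817019) (nat_lit 76) (nat_lit 86831211852) (nat_lit 1) (nat_lit 4) (nat_lit 2) (nat_lit 5) (nat_lit 2) (nat_lit 4) (nat_lit 374) (nat_lit 210) (nat_lit 196)) (XT.lf (nat_lit 0) (nat_lit 132520127820) (nat_lit 76) (nat_lit 90797681015) (nat_lit 76) (nat_lit 89775715635) (nat_lit 1) (nat_lit 4) (nat_lit 2) (nat_lit 5) (nat_lit 2) (nat_lit 4) (nat_lit 375) (nat_lit 210) (nat_lit 195))))) (XT.nd (nat_lit 156) (nat_lit 0) (nat_lit 0) (XT.nd (nat_lit 78) (nat_lit 0) (nat_lit 0) (XT.lf (nat_lit 0) (nat_lit 141805537561) (nat_lit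 76) (nat_lit 93969872986) (nat_lit 76) (nat_lit 92902802640) (nat_lit 1) (nat_lit 4) (nat_lit 2) (nat_lit 5) (nat_lit 2) (nat_lit 4) (nat_lit 376) (nat_lit 210) (nat_lit 194)) (XT.lf (nat_lit 0) (nat_lit 151493886318) (nat_lit 76) (nat_lit 97329945768) (nat_lit 76) (nat_lit 96219918313) (nat_lit 1) (nat_lit 4) (nat_lit 2) (nat_lit 5) (nat_lit 2) (nat_lit 4) (nat_lit 377) (nat_lit 210) (nat_lit 193))) (XT.nd (nat_lit 78) (nat_lit 0) (nat_lit 0) (XT.lf (nat_lit 0) (nat_lit 161608241589) (nat_lit 76) (nat_lit 100885899536) (nat_lit 76) (nat_lit 99734960547) (nat_lit 1) (nat_lit 4) (nat_lit 2) (nat_lit 5) (nat_lit 2) (nat_lit 4) (nat_lit 378) (nat_lit 210) (nat_lit 192)) (XT.nd (nat_lit 78) (nat_lit 0) (nat_lit 0) (XT.lf (nat_lit 0) (nat_lit 172172685171) (nat_lit 76) (nat_lit 104646200845) (nat_lit 76) (nat_lit 103456298492) (nat_lit 1) (nat_lit 4) (nat_lit 2) (nat_lit 5) (nat_lit 2) (nat_lit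 4) (nat_lit 379) (nat_lit 210) (nat_lit 191)) (XT.lf (nat_lit 0) (nat_lit 183212370503) (nat_lit 76) (nat_lit 108619802794) (nat_lit 76) (nat_lit 107392792474) (nat_lit 1) (nat_lit 4) (nat_lit 2) (nat_lit 5) (nat_lit 2) (nat_lit 4) (nat_lit 380) (nat_lit 210) (nat_lit 190))))))) (XT.nd (nat_lit 780) (nat_lit 0) (nat_lit 0) (XT.nd (nat_lit 390) (nat_lit 0) (nat_lit 0) (XT.nd (nat_lit 156) (nat_lit 0) (nat_lit 0) (XT.nd (nat_lit 78) (nat_lit 0) (nat_lit 0) (XT.lf (nat_lit 0) (nat_lit 194753582549) (nat_lit 76) (nat_lit 112816166341) (nat_lit 76) (nat_lit 111553815100) (nat_lit 1) (nat_lit 4) (nat_lit 2) (nat_lit 5) (nat_lit 2) (nat_lit 4) (nat_lit 381) (nat_lit 210) (nat_lit 189)) (XT.lf (nat_lit 0) (nat_lit 206823800386) (nat_lit 76) (nat_lit 117245282826) (nat_lit 76) (nat_lit 115949273566) (nat_lit 1) (nat_lit 4) (nat_lit 2) (nat_lit 5) (nat_lit 2) (nat_lit 4) (nat_lit 382) (nat_lit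 210) (nat_lit 188))) (XT.nd (nat_lit 78) (nat_lit 0) (nat_lit 0) (XT.lf (nat_lit 0) (nat_lit 219451762627) (nat_lit 76) (nat_lit 121917697766) (nat_lit 76) (nat_lit 120589633249) (nat_lit 1) (nat_lit 4) (nat_lit 2) (nat_lit 5) (nat_lit 2) (nat_lit 4) (nat_lit 383) (nat_lit 210) (nat_lit 187)) (XT.nd (nat_lit 78) (nat_lit 0) (nat_lit 0) (XT.lf (nat_lit 0) (nat_lit 232667535849) (nat_lit 76) (nat_lit 126844535957) (nat_lit 76) (nat_lit 125485942624) (nat_lit 1) (nat_lit 4) (nat_lit 2) (nat_lit 5) (nat_lit 2) (nat_lit 4) (nat_lit 384) (nat_lit 210) (nat_lit 186)) (XT.lf (nat_lit 0) (nat_lit 246502586179) (nat_lit 76) (nat_lit 132037527967) (nat_lit 76) (nat_lit 130649859572) (nat_lit 1) (nat_lit 4) (nat_lit 2) (nat_lit 5) (nat_lit 2) (nat_lit 4) (nat_lit 385) (nat_lit 210) (nat_lit 185))))) (XT.nd (nat_lit 156) (nat_lit 0) (nat_lit 0) (XT.nd (nat_lit 78) (nat_lit 0) (nat_lit 0) (XT.lf (nat_lit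 0) (nat_lit 260989854212) (nat_lit 76) (nat_lit 137509038063) (nat_lit 76) (nat_lit 136093679132) (nat_lit 1) (nat_lit 4) (nat_lit 2) (nat_lit 5) (nat_lit 2) (nat_lit 4) (nat_lit 386) (nat_lit 210) (nat_lit 184)) (XT.lf (nat_lit 0) (nat_lit 276163833445) (nat_lit 76) (nat_lit 143272093650) (nat_lit 76) (nat_lit 141830362779) (nat_lit 1) (nat_lit 4) (nat_lit 2) (nat_lit 5) (nat_lit 2) (nat_lit 4) (nat_lit 387) (nat_lit 210) (nat_lit 183))) (XT.nd (nat_lit 78) (nat_lit 0) (nat_lit 0) (XT.lf (nat_lit 0) (nat_lit 292060652400) (nat_lit 76) (nat_lit 149340416288) (nat_lit 76) (nat_lit 147873569285) (nat_lit 1) (nat_lit 4) (nat_lit 2) (nat_lit 5) (nat_lit 2) (nat_lit 4) (nat_lit 388) (nat_lit 210) (nat_lit 182)) (XT.nd (nat_lit 78) (nat_lit 0) (nat_lit 0) (XT.lf (nat_lit 0) (nat_lit 308718160644) (nat_lit 76) (nat_lit 155728454365) (nat_lit 76) (nat_lit 154237687235) (nat_lit 1) (nat_lit 4)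 (nat_lit 2) (nat_lit 5) (nat_lit 2) (nat_lit 4) (nat_lit 389) (nat_lit 210) (nat_lit 181)) (XT.lf (nat_lit 0) (nat_lit 326176018912) (nat_lit 76) (nat_lit 162451417495) (nat_lit 76) (nat_lit 160937869293) (nat_lit 1) (nat_lit 4) (nat_lit 2) (nat_lit 5) (nat_lit 2) (nat_lit 4) (nat_lit 390) (nat_lit 210) (nat_lit 180)))))) (XT.nd (nat_lit 38376) (nat_lit 0) (nat_lit 0) (XT.nd (nat_lit 38142) (nat_lit 0) (nat_lit 0) (XT.nd (nat_lit 38064) (nat_lit 0) (nat_lit 0) (XT.lf (nat_lit 0) (nat_lit 344475793534) (nat_lit 76) (nat_lit 169525312733) (nat_lit 76) (nat_lit 167990068272) (nat_lit 1) (nat_lit 4) (nat_lit 2) (nat_lit 5) (nat_lit 2) (nat_lit 4) (nat_lit 391) (nat_lit 210) (nat_lit 179)) (XT.lf (nat_lit 0) (nat_lit 8970506305) (nat_lit 76) (nat_lit 29927524997) (nat_lit 76) (nat_lit 29927524997) (nat_lit 1) (nat_lit 4) (nat_lit 2) (nat_lit 5) (nat_lit 2) (nat_lit 4) (nat_lit 358) (nat_lit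 211) (nat_lit 211))) (XT.nd (nat_lit 78) (nat_lit 0) (nat_lit 0) (XT.lf (nat_lit 0) (nat_lit 23089534907) (nat_lit 76) (nat_lit 60715352922) (nat_lit 76) (nat_lit 60616894440) (nat_lit 1) (nat_lit 4) (nat_lit 2) (nat_lit 5) (nat_lit 2) (nat_lit 4) (nat_lit 359) (nat_lit 211) (nat_lit 210)) (XT.nd (nat_lit 78) (nat_lit 0) (nat_lit 0) (XT.lf (nat_lit 0) (nat_lit 28361604409) (nat_lit 76) (nat_lit 61682566383) (nat_lit 76) (nat_lit 61490337917) (nat_lit 1) (nat_lit 4) (nat_lit 2) (nat_lit 5) (nat_lit 2) (nat_lit 4) (nat_lit 360) (nat_lit 211) (nat_lit 209)) (XT.lf (nat_lit 0) (nat_lit 33769773664) (nat_lit 76) (nat_lit 62758993268) (nat_lit 76) (nat_lit 62477460056) (nat_lit 1) (nat_lit 4) (nat_lit 2) (nat_lit 5) (nat_lit 2) (nat_lit 4) (nat_lit 361) (nat_lit 211) (nat_lit 208))))) (XT.nd (nat_lit 156) (nat_lit 0) (nat_lit 0) (XT.nd (nat_lit 78) (nat_lit 0) (nat_lit 0) (XT.lf (nat_lit 0)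 (nat_lit 39326919266) (nat_lit 76) (nat_lit 63947196497) (nat_lit 76) (nat_lit 63580611145) (nat_lit 1) (nat_lit 4) (nat_lit 2) (nat_lit 5) (nat_lit 2) (nat_lit 4) (nat_lit 362) (nat_lit 211) (nat_lit 207)) (XT.lf (nat_lit 0) (nat_lit 45046272514) (nat_lit 76) (nat_lit 65250005125) (nat_lit 76) (nat_lit 64802417737) (nat_lit 1) (nat_lit 4) (nat_lit 2) (nat_lit 5) (nat_lit 2) (nat_lit 4) (nat_lit 363) (nat_lit 211) (nat_lit 206))) (XT.nd (nat_lit 78) (nat_lit 0) (nat_lit 0) (XT.lf (nat_lit 0) (nat_lit 50941450915) (nat_lit 76) (nat_lit 66670521079) (nat_lit 76) (nat_lit 66145788893) (nat_lit 1) (nat_lit 4) (nat_lit 2) (nat_lit 5) (nat_lit 2) (nat_lit 4) (nat_lit 364) (nat_lit 211) (nat_lit 205)) (XT.nd (nat_lit 78) (nat_lit 0) (nat_lit 0) (XT.lf (nat_lit 0) (nat_lit 57026490609) (nat_lit 76) (nat_lit 68212126538) (nat_lit 76) (nat_lit 67613923117) (nat_lit 1) (nat_lit 4) (nat_lit 2) (nat_lit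 5) (nat_lit 2) (nat_lit 4) (nat_lit 365) (nat_lit 211) (nat_lit 204)) (XT.lf (nat_lit 0) (nat_lit 63315879784) (nat_lit 76) (nat_lit 69878491993) (nat_lit 76) (nat_lit 69210315966) (nat_lit 1) (nat_lit 4) (nat_lit 2) (nat_lit 5) (nat_lit 2) (nat_lit 4) (nat_lit 366) (nat_lit 211) (nat_lit 203))))))))
noncomputable def xc7 : XT := (XT.nd (nat_lit 1560) (nat_lit 0) (nat_lit 0) (XT.nd (nat_lit 780) (nat_lit 0) (nat_lit 0) (XT.nd (nat_lit 390) (nat_lit 0) (nat_lit 0) (XT.nd (nat_lit 156) (nat_lit 0) (nat_lit 0) (XT.nd (nat_lit 78) (nat_lit 0) (nat_lit 0) (XT.lf (nat_lit 0) (nat_lit 69824593179) (nat_lit 76) (nat_lit 71673584979) (nat_lit 76) (nat_lit 70938768376) (nat_lit 1) (nat_lit 4) (nat_lit 2) (nat_lit 5) (nat_lit 2) (nat_lit 4) (nat_lit 367) (nat_lit 211) (nat_lit 202)) (XT.lf (nat_lit 0) (nat_lit 76568127728) (nat_lit 76) (nat_lit 73601679528) (nat_lit 76) (nat_lit 72803395709) (nat_lit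 1) (nat_lit 4) (nat_lit 2) (nat_lit 5) (nat_lit 2) (nat_lit 4) (nat_lit 368) (nat_lit 211) (nat_lit 201))) (XT.nd (nat_lit 78) (nat_lit 0) (nat_lit 0) (XT.lf (nat_lit 0) (nat_lit 83562539467) (nat_lit 76) (nat_lit 75667366341) (nat_lit 76) (nat_lit 74808637555) (nat_lit 1) (nat_lit 4) (nat_lit 2) (nat_lit 5) (nat_lit 2) (nat_lit 4) (nat_lit 369) (nat_lit 211) (nat_lit 200)) (XT.nd (nat_lit 78) (nat_lit 0) (nat_lit 0) (XT.lf (nat_lit 0) (nat_lit 90824481756) (nat_lit 76) (nat_lit 77875563721) (nat_lit 76) (nat_lit 76959268298) (nat_lit 1) (nat_lit 4) (nat_lit 2) (nat_lit 5) (nat_lit 2) (nat_lit 4) (nat_lit 370) (nat_lit 211) (nat_lit 199)) (XT.lf (nat_lit 0) (nat_lit 98371244936) (nat_lit 76) (nat_lit 80231529279) (nat_lit 76) (nat_lit 79260408489) (nat_lit 1) (nat_lit 4) (nat_lit 2) (nat_lit 5) (nat_lit 2) (nat_lit 4) (nat_lit 371) (nat_lit 211) (nat_lit 198))))) (XT.nd (nat_lit 156)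 (nat_lit 0) (nat_lit 0) (XT.nd (nat_lit 78) (nat_lit 0) (nat_lit 0) (XT.lf (nat_lit 0) (nat_lit 106220797489) (nat_lit 76) (nat_lit 82740872457) (nat_lit 76) (nat_lit 81717537032) (nat_lit 1) (nat_lit 4) (nat_lit 2) (nat_lit 5) (nat_lit 2) (nat_lit 4) (nat_lit 372) (nat_lit 211) (nat_lit 197)) (XT.lf (nat_lit 0) (nat_lit 114391828826) (nat_lit 76) (nat_lit 85409567883) (nat_lit 76) (nat_lit 84336504234) (nat_lit 1) (nat_lit 4) (nat_lit 2) (nat_lit 5) (nat_lit 2) (nat_lit 4) (nat_lit 373) (nat_lit 211) (nat_lit 196))) (XT.nd (nat_lit 78) (nat_lit 0) (nat_lit 0) (XT.lf (nat_lit 0) (nat_lit 122903793784) (nat_lit 76) (nat_lit 88243969593) (nat_lit 76) (nat_lit 87123545730) (nat_lit 1) (nat_lit 4) (nat_lit 2) (nat_lit 5) (nat_lit 2) (nat_lit 4) (nat_lit 374) (nat_lit 211) (nat_lit 195)) (XT.nd (nat_lit 78) (nat_lit 0) (nat_lit 0) (XT.lf (nat_lit 0) (nat_lit 131776958946) (nat_lit 76) (nat_lit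 91250826163) (nat_lit 76) (nat_lit 90085297334) (nat_lit 1) (nat_lit 4) (nat_lit 2) (nat_lit 5) (nat_lit 2) (nat_lit 4) (nat_lit 375) (nat_lit 211) (nat_lit 194)) (XT.lf (nat_lit 0) (nat_lit 141032450896) (nat_lit 76) (nat_lit 94437296774) (nat_lit 76) (nat_lit 93228810836) (nat_lit 1) (nat_lit 4) (nat_lit 2) (nat_lit 5) (nat_lit 2) (nat_lit 4) (nat_lit 376) (nat_lit 211) (nat_lit 193)))))) (XT.nd (nat_lit 390) (nat_lit 0) (nat_lit 0) (XT.nd (nat_lit 156) (nat_lit 0) (nat_lit 0) (XT.nd (nat_lit 78) (nat_lit 0) (nat_lit 0) (XT.lf (nat_lit 0) (nat_lit 150692306520) (nat_lit 76) (nat_lit 97810968262) (nat_lit 76) (nat_lit 96561570790) (nat_lit 1) (nat_lit 4) (nat_lit 2) (nat_lit 5) (nat_lit 2) (nat_lit 4) (nat_lit 377) (nat_lit 211) (nat_lit 192)) (XT.lf (nat_lit 0) (nat_lit 160779525472) (nat_lit 76) (nat_lit 101379873177) (nat_lit 76) (nat_lit 100091512341) (nat_lit 1) (nat_lit 4) (nat_lit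 2) (nat_lit 5) (nat_lit 2) (nat_lit 4) (nat_lit 378) (nat_lit 211) (nat_lit 191))) (XT.nd (nat_lit 78) (nat_lit 0) (nat_lit 0) (XT.lf (nat_lit 0) (nat_lit 171318124943) (nat_lit 76) (nat_lit 105152508913) (nat_lit 76) (nat_lit 103827040110) (nat_lit 1) (nat_lit 4) (nat_lit 2) (nat_lit 5) (nat_lit 2) (nat_lit 4) (nat_lit 379) (nat_lit 211) (nat_lit 190)) (XT.nd (nat_lit 78) (nat_lit 0) (nat_lit 0) (XT.lf (nat_lit 0) (nat_lit 182333196835) (nat_lit 76) (nat_lit 109137857935) (nat_lit 76) (nat_lit 107777048212) (nat_lit 1) (nat_lit 4) (nat_lit 2) (nat_lit 5) (nat_lit 2) (nat_lit 4) (nat_lit 380) (nat_lit 211) (nat_lit 189)) (XT.lf (nat_lit 0) (nat_lit 193850967509) (nat_lit 76) (nat_lit 113345409170) (nat_lit 76) (nat_lit 111950941427) (nat_lit 1) (nat_lit 4) (nat_lit 2) (nat_lit 5) (nat_lit 2) (nat_lit 4) (nat_lit 381) (nat_lit 211) (nat_lit 188))))) (XT.nd (nat_lit 156) (nat_lit 0) (nat_lit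 0) (XT.nd (nat_lit 78) (nat_lit 0) (nat_lit 0) (XT.lf (nat_lit 0) (nat_lit 205898860230) (nat_lit 76) (nat_lit 117785180597) (nat_lit 76) (nat_lit 116358657597) (nat_lit 1) (nat_lit 4) (nat_lit 2) (nat_lit 5) (nat_lit 2) (nat_lit 4) (nat_lit 382) (nat_lit 211) (nat_lit 187)) (XT.lf (nat_lit 0) (nat_lit 218505560456) (nat_lit 76) (nat_lit 122467743100) (nat_lit 76) (nat_lit 121010691284) (nat_lit 1) (nat_lit 4) (nat_lit 2) (nat_lit 5) (nat_lit 2) (nat_lit 4) (nat_lit 383) (nat_lit 211) (nat_lit 186))) (XT.nd (nat_lit 78) (nat_lit 0) (nat_lit 0) (XT.lf (nat_lit 0) (nat_lit 231701084140) (nat_lit 76) (nat_lit 127404245637) (nat_lit 76) (nat_lit 125918118759) (nat_lit 1) (nat_lit 4) (nat_lit 2) (nat_lit 5) (nat_lit 2) (nat_lit 4) (nat_lit 384) (nat_lit 211) (nat_lit 185)) (XT.nd (nat_lit 78) (nat_lit 0) (nat_lit 0) (XT.lf (nat_lit 0) (nat_lit 245516849195) (nat_lit 76) (nat_lit 132606441787)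 (nat_lit 76) (nat_lit 131092624372) (nat_lit 1) (nat_lit 4) (nat_lit 2) (nat_lit 5) (nat_lit 2) (nat_lit 4) (nat_lit 385) (nat_lit 211) (nat_lit 184)) (XT.lf (nat_lit 0) (nat_lit 259985750301) (nat_lit 76) (nat_lit 138086717729) (nat_lit 76) (nat_lit 136546528376) (nat_lit 1) (nat_lit 4) (nat_lit 2) (nat_lit 5) (nat_lit 2) (nat_lit 4) (nat_lit 386) (nat_lit 211) (nat_lit 183))))))) (XT.nd (nat_lit 38610) (nat_lit 0) (nat_lit 0) (XT.nd (nat_lit 38220) (nat_lit 0) (nat_lit 0) (XT.nd (nat_lit 156) (nat_lit 0) (nat_lit 0) (XT.nd (nat_lit 78) (nat_lit 0) (nat_lit 0) (XT.lf (nat_lit 0) (nat_lit 275142237221) (nat_lit 76) (nat_lit 143858121741) (nat_lit 76) (nat_lit 142292816256) (nat_lit 1) (nat_lit 4) (nat_lit 2) (nat_lit 5) (nat_lit 2) (nat_lit 4) (nat_lit 387) (nat_lit 211) (nat_lit 182)) (XT.lf (nat_lit 0) (nat_lit 291022396830) (nat_lit 76) (nat_lit 149934395261) (nat_lit 76) (nat_lit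 148345169649) (nat_lit 1) (nat_lit 4) (nat_lit 2) (nat_lit 5) (nat_lit 2) (nat_lit 4) (nat_lit 388) (nat_lit 211) (nat_lit 181))) (XT.nd (nat_lit 78) (nat_lit 0) (nat_lit 0) (XT.lf (nat_lit 0) (nat_lit 307664039032) (nat_lit 76) (nat_lit 156330005606) (nat_lit 76) (nat_lit 154717998921) (nat_lit 1) (nat_lit 4) (nat_lit 2) (nat_lit 5) (nat_lit 2) (nat_lit 4) (nat_lit 389) (nat_lit 211) (nat_lit 180)) (XT.nd (nat_lit 78) (nat_lit 0) (nat_lit 0) (XT.lf (nat_lit 0) (nat_lit 325106786783) (nat_lit 76) (nat_lit 163060180419) (nat_lit 76) (nat_lit 161426477475) (nat_lit 1) (nat_lit 4) (nat_lit 2) (nat_lit 5) (nat_lit 2) (nat_lit 4) (nat_lit 390) (nat_lit 211) (nat_lit 179)) (XT.lf (nat_lit 0) (nat_lit 343392170436) (nat_lit 76) (nat_lit 170140943928) (nat_lit 76) (nat_lit 168486577880) (nat_lit 1) (nat_lit 4) (nat_lit 2) (nat_lit 5) (nat_lit 2) (nat_lit 4) (nat_lit 391) (nat_lit 211) (nat_lit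 178))))) (XT.nd (nat_lit 156) (nat_lit 0) (nat_lit 0) (XT.nd (nat_lit 78) (nat_lit 0) (nat_lit 0) (XT.lf (nat_lit 0) (nat_lit 4018920899) (nat_lit 76) (nat_lit 29258125105) (nat_lit 76) (nat_lit 29258125105) (nat_lit 1) (nat_lit 4) (nat_lit 2) (nat_lit 5) (nat_lit 2) (nat_lit 4) (nat_lit 356) (nat_lit 212) (nat_lit 212)) (XT.lf (nat_lit 0) (nat_lit 12903779136) (nat_lit 76) (nat_lit 59202990669) (nat_lit 76) (nat_lit 59099609262) (nat_lit 1) (nat_lit 4) (nat_lit 2) (nat_lit 5) (nat_lit 2) (nat_lit 4) (nat_lit 357) (nat_lit 212) (nat_lit 211))) (XT.nd (nat_lit 78) (nat_lit 0) (nat_lit 0) (XT.lf (nat_lit 0) (nat_lit 17872440487) (nat_lit 76) (nat_lit 59991158308) (nat_lit 76) (nat_lit 59789318419) (nat_lit 1) (nat_lit 4) (nat_lit 2) (nat_lit 5) (nat_lit 2) (nat_lit 4) (nat_lit 358) (nat_lit 212) (nat_lit 210)) (XT.nd (nat_lit 78) (nat_lit 0) (nat_lit 0) (XT.lf (nat_lit 0) (nat_lit 22955655998)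 (nat_lit 76) (nat_lit 60882629717) (nat_lit 76) (nat_lit 60587019844) (nat_lit 1) (nat_lit 4) (nat_lit 2) (nat_lit 5) (nat_lit 2) (nat_lit 4) (nat_lit 359) (nat_lit 212) (nat_lit 209)) (XT.lf (nat_lit 0) (nat_lit 28165528563) (nat_lit 76) (nat_lit 61879527446) (nat_lit 76) (nat_lit 61494612827) (nat_lit 1) (nat_lit 4) (nat_lit 2) (nat_lit 5) (nat_lit 2) (nat_lit 4) (nat_lit 360) (nat_lit 212) (nat_lit 208)))))) (XT.nd (nat_lit 390) (nat_lit 0) (nat_lit 0) (XT.nd (nat_lit 156) (nat_lit 0) (nat_lit 0) (XT.nd (nat_lit 78) (nat_lit 0) (nat_lit 0) (XT.lf (nat_lit 0) (nat_lit 33514462640) (nat_lit 76) (nat_lit 62984225063) (nat_lit 76) (nat_lit 62514258304) (nat_lit 1) (nat_lit 4) (nat_lit 2) (nat_lit 5) (nat_lit 2) (nat_lit 4) (nat_lit 361) (nat_lit 212) (nat_lit 207)) (XT.lf (nat_lit 0) (nat_lit 39015193786) (nat_lit 76) (nat_lit 64199352798) (nat_lit 76) (nat_lit 63648384002) (nat_lit 1)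 (nat_lit 4) (nat_lit 2) (nat_lit 5) (nat_lit 2) (nat_lit 4) (nat_lit 362) (nat_lit 212) (nat_lit 206))) (XT.nd (nat_lit 78) (nat_lit 0) (nat_lit 0) (XT.lf (nat_lit 0) (nat_lit 44680818981) (nat_lit 76) (nat_lit 65527803813) (nat_lit 76) (nat_lit 64899690221) (nat_lit 1) (nat_lit 4) (nat_lit 2) (nat_lit 5) (nat_lit 2) (nat_lit 4) (nat_lit 363) (nat_lit 212) (nat_lit 205)) (XT.nd (nat_lit 78) (nat_lit 0) (nat_lit 0) (XT.lf (nat_lit 0) (nat_lit 50524827807) (nat_lit 76) (nat_lit 66972741088) (nat_lit 76) (nat_lit 66271156260) (nat_lit 1) (nat_lit 4) (nat_lit 2) (nat_lit 5) (nat_lit 2) (nat_lit 4) (nat_lit 364) (nat_lit 212) (nat_lit 204)) (XT.lf (nat_lit 0) (nat_lit 56561134573) (nat_lit 76) (nat_lit 68537604949) (nat_lit 76) (nat_lit 67766047515) (nat_lit 1) (nat_lit 4) (nat_lit 2) (nat_lit 5) (nat_lit 2) (nat_lit 4) (nat_lit 365) (nat_lit 212) (nat_lit 203))))) (XT.nd (nat_lit 234) (nat_lit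 0) (nat_lit 0) (XT.nd (nat_lit 78) (nat_lit 0) (nat_lit 0) (XT.lf (nat_lit 0) (nat_lit 62804111436) (nat_lit 76) (nat_lit 70226121261) (nat_lit 76) (nat_lit 69387923251) (nat_lit 1) (nat_lit 4) (nat_lit 2) (nat_lit 5) (nat_lit 2) (nat_lit 4) (nat_lit 366) (nat_lit 212) (nat_lit 202)) (XT.nd (nat_lit 78) (nat_lit 0) (nat_lit 0) (XT.lf (nat_lit 0) (nat_lit 69268622628) (nat_lit 76) (nat_lit 72042310303) (nat_lit 76) (nat_lit 71140645077) (nat_lit 1) (nat_lit 4) (nat_lit 2) (nat_lit 5) (nat_lit 2) (nat_lit 4) (nat_lit 367) (nat_lit 212) (nat_lit 201)) (XT.lf (nat_lit 0) (nat_lit 75970059842) (nat_lit 76) (nat_lit 73990496333) (nat_lit 76) (nat_lit 73028386140) (nat_lit 1) (nat_lit 4) (nat_lit 2) (nat_lit 5) (nat_lit 2) (nat_lit 4) (nat_lit 368) (nat_lit 212) (nat_lit 200)))) (XT.nd (nat_lit 78) (nat_lit 0) (nat_lit 0) (XT.lf (nat_lit 0) (nat_lit 82924378880) (nat_lit 76) (nat_lit 76075317891)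 (nat_lit 76) (nat_lit 75055641062) (nat_lit 1) (nat_lit 4) (nat_lit 2) (nat_lit 5) (nat_lit 2) (nat_lit 4) (nat_lit 369) (nat_lit 212) (nat_lit 199)) (XT.nd (nat_lit 78) (nat_lit 0) (nat_lit 0) (XT.lf (nat_lit 0) (nat_lit 90148137646) (nat_lit 76) (nat_lit 78301738836) (nat_lit 76) (nat_lit 77227236639) (nat_lit 1) (nat_lit 4) (nat_lit 2) (nat_lit 5) (nat_lit 2) (nat_lit 4) (nat_lit 370) (nat_lit 212) (nat_lit 198)) (XT.lf (nat_lit 0) (nat_lit 97658535564) (nat_lit 76) (nat_lit 80675060171) (nat_lit 76) (nat_lit 79548343339) (nat_lit 1) (nat_lit 4) (nat_lit 2) (nat_lit 5) (nat_lit 2) (nat_lit 4) (nat_lit 371) (nat_lit 212) (nat_lit 197))))))))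
noncomputable def xc8 : XT := (XT.nd (nat_lit 39234) (nat_lit 0) (nat_lit 0) (XT.nd (nat_lit 780) (nat_lit 0) (nat_lit 0) (XT.nd (nat_lit 390) (nat_lit 0) (nat_lit 0) (XT.nd (nat_lit 156) (nat_lit 0) (nat_lit 0) (XT.nd (nat_lit 78) (nat_lit 0) (nat_lit 0) (XT.lf (nat_lit 0) (nat_lit 105473454535) (nat_lit 76) (nat_lit 83200932661) (nat_lit 76) (nat_lit 82024487605) (nat_lit 1) (nat_lit 4) (nat_lit 2) (nat_lit 5) (nat_lit 2) (nat_lit 4) (nat_lit 372) (nat_lit 212) (nat_lit 196)) (XT.lf (nat_lit 0) (nat_lit 113611501508) (nat_lit 76) (nat_lit 85885370288) (nat_lit 76) (nat_lit 84661565018) (nat_lit 1) (nat_lit 4) (nat_lit 2) (nat_lit 5) (nat_lit 2) (nat_lit 4) (nat_lit 373) (nat_lit 212) (nat_lit 195))) (XT.nd (nat_lit 78) (nat_lit 0) (nat_lit 0) (XT.lf (nat_lit 0) (nat_lit 122092052786) (nat_lit 76) (nat_lit 88734764570) (nat_lit 76) (nat_lit 87465854336) (nat_lit 1) (nat_lit 4) (nat_lit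 2) (nat_lit 5) (nat_lit 2) (nat_lit 4) (nat_lit 374) (nat_lit 212) (nat_lit 194)) (XT.nd (nat_lit 78) (nat_lit 0) (nat_lit 0) (XT.lf (nat_lit 0) (nat_lit 130935300158) (nat_lit 76) (nat_lit 91755899781) (nat_lit 76) (nat_lit 90444032436) (nat_lit 1) (nat_lit 4) (nat_lit 2) (nat_lit 5) (nat_lit 2) (nat_lit 4) (nat_lit 375) (nat_lit 212) (nat_lit 193)) (XT.lf (nat_lit 0) (nat_lit 140162298974) (nat_lit 76) (nat_lit 94955969097) (nat_lit 76) (nat_lit 93603190219) (nat_lit 1) (nat_lit 4) (nat_lit 2) (nat_lit 5) (nat_lit 2) (nat_lit 4) (nat_lit 376) (nat_lit 212) (nat_lit 192))))) (XT.nd (nat_lit 156) (nat_lit 0) (nat_lit 0) (XT.nd (nat_lit 78) (nat_lit 0) (nat_lit 0) (XT.lf (nat_lit 0) (nat_lit 149795018280) (nat_lit 76) (nat_lit 98342591733) (nat_lit 76) (nat_lit 96950849490) (nat_lit 1) (nat_lit 4) (nat_lit 2) (nat_lit 5) (nat_lit 2) (nat_lit 4) (nat_lit 377) (nat_lit 212) (nat_lit 191))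 (XT.lf (nat_lit 0) (nat_lit 159856393121) (nat_lit 76) (nat_lit 101923831075) (nat_lit 76) (nat_lit 100494980866) (nat_lit 1) (nat_lit 4) (nat_lit 2) (nat_lit 5) (nat_lit 2) (nat_lit 4) (nat_lit 378) (nat_lit 212) (nat_lit 190))) (XT.nd (nat_lit 78) (nat_lit 0) (nat_lit 0) (XT.lf (nat_lit 0) (nat_lit 170370379151) (nat_lit 76) (nat_lit 105708213884) (nat_lit 76) (nat_lit 104244022754) (nat_lit 1) (nat_lit 4) (nat_lit 2) (nat_lit 5) (nat_lit 2) (nat_lit 4) (nat_lit 379) (nat_lit 212) (nat_lit 189)) (XT.nd (nat_lit 78) (nat_lit 0) (nat_lit 0) (XT.lf (nat_lit 0) (nat_lit 181362009671) (nat_lit 76) (nat_lit 109704750595) (nat_lit 76) (nat_lit 108206901445) (nat_lit 1) (nat_lit 4) (nat_lit 2) (nat_lit 5) (nat_lit 2) (nat_lit 4) (nat_lit 380) (nat_lit 212) (nat_lit 188)) (XT.lf (nat_lit 0) (nat_lit 192857455230) (nat_lit 76) (nat_lit 113922956771) (nat_lit 76) (nat_lit 112393052365) (nat_lit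 1) (nat_lit 4) (nat_lit 2) (nat_lit 5) (nat_lit 2) (nat_lit 4) (nat_lit 381) (nat_lit 212) (nat_lit 187)))))) (XT.nd (nat_lit 390) (nat_lit 0) (nat_lit 0) (XT.nd (nat_lit 156) (nat_lit 0) (nat_lit 0) (XT.nd (nat_lit 78) (nat_lit 0) (nat_lit 0) (XT.lf (nat_lit 0) (nat_lit 204884085935) (nat_lit 76) (nat_lit 118372875761) (nat_lit 76) (nat_lit 116812442539) (nat_lit 1) (nat_lit 4) (nat_lit 2) (nat_lit 5) (nat_lit 2) (nat_lit 4) (nat_lit 382) (nat_lit 212) (nat_lit 186)) (XT.lf (nat_lit 0) (nat_lit 217470536623) (nat_lit 76) (nat_lit 123065102610) (nat_lit 76) (nat_lit 121475594325) (nat_lit 1) (nat_lit 4) (nat_lit 2) (nat_lit 5) (nat_lit 2) (nat_lit 4) (nat_lit 383) (nat_lit 212) (nat_lit 185))) (XT.nd (nat_lit 78) (nat_lit 0) (nat_lit 0) (XT.lf (nat_lit 0) (nat_lit 230646775032) (nat_lit 76) (nat_lit 128010809287) (nat_lit 76) (nat_lit 126393610466) (nat_lit 1) (nat_lit 4) (nat_lit 2)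 (nat_lit 5) (nat_lit 2) (nat_lit 4) (nat_lit 384) (nat_lit 212) (nat_lit 184)) (XT.nd (nat_lit 78) (nat_lit 0) (nat_lit 0) (XT.lf (nat_lit 0) (nat_lit 244444173160) (nat_lit 76) (nat_lit 133221771283) (nat_lit 76) (nat_lit 131578200523) (nat_lit 1) (nat_lit 4) (nat_lit 2) (nat_lit 5) (nat_lit 2) (nat_lit 4) (nat_lit 385) (nat_lit 212) (nat_lit 183)) (XT.lf (nat_lit 0) (nat_lit 258895581953) (nat_lit 76) (nat_lit 138710395651) (nat_lit 76) (nat_lit 137041708758) (nat_lit 1) (nat_lit 4) (nat_lit 2) (nat_lit 5) (nat_lit 2) (nat_lit 4) (nat_lit 386) (nat_lit 212) (nat_lit 182))))) (XT.nd (nat_lit 156) (nat_lit 0) (nat_lit 0) (XT.nd (nat_lit 78) (nat_lit 0) (nat_lit 0) (XT.lf (nat_lit 0) (nat_lit 274035409529) (nat_lit 76) (nat_lit 144489750544) (nat_lit 76) (nat_lit 142797143526) (nat_lit 1) (nat_lit 4) (nat_lit 2) (nat_lit 5) (nat_lit 2) (nat_lit 4) (nat_lit 387) (nat_lit 212) (nat_lit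 181)) (XT.lf (nat_lit 0) (nat_lit 289899703095) (nat_lit 76) (nat_lit 150573596332) (nat_lit 76) (nat_lit 148858208241) (nat_lit 1) (nat_lit 4) (nat_lit 2) (nat_lit 5) (nat_lit 2) (nat_lit 4) (nat_lit 388) (nat_lit 212) (nat_lit 180))) (XT.nd (nat_lit 78) (nat_lit 0) (nat_lit 0) (XT.lf (nat_lit 0) (nat_lit 306526234779) (nat_lit 76) (nat_lit 156976418360) (nat_lit 76) (nat_lit 155239334010) (nat_lit 1) (nat_lit 4) (nat_lit 2) (nat_lit 5) (nat_lit 2) (nat_lit 4) (nat_lit 389) (nat_lit 212) (nat_lit 179)) (XT.nd (nat_lit 78) (nat_lit 0) (nat_lit 0) (XT.lf (nat_lit 0) (nat_lit 323954591561) (nat_lit 76) (nat_lit 163713461444) (nat_lit 76) (nat_lit 161955713989) (nat_lit 1) (nat_lit 4) (nat_lit 2) (nat_lit 5) (nat_lit 2) (nat_lit 4) (nat_lit 390) (nat_lit 212) (nat_lit 178)) (XT.lf (nat_lit 0) (nat_lit 342226269529) (nat_lit 76) (nat_lit 170800766163) (nat_lit 76) (nat_lit 169023339561)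 (nat_lit 1) (nat_lit 4) (nat_lit 2) (nat_lit 5) (nat_lit 2) (nat_lit 4) (nat_lit 391) (nat_lit 212) (nat_lit 177))))))) (XT.nd (nat_lit 780) (nat_lit 0) (nat_lit 0) (XT.nd (nat_lit 390) (nat_lit 0) (nat_lit 0) (XT.nd (nat_lit 156) (nat_lit 0) (nat_lit 0) (XT.nd (nat_lit 78) (nat_lit 76) (nat_lit 0) (XT.lf (nat_lit 0) (nat_lit 28089004375) (nat_lit 152) (nat_lit 656486266) (nat_lit 0) (nat_lit 28089004375) (nat_lit 2) (nat_lit 5) (nat_lit 4) (nat_lit 4) (nat_lit 2) (nat_lit 4) (nat_lit 354) (nat_lit 213) (nat_lit 213)) (XT.lf (nat_lit 0) (nat_lit 3263042908) (nat_lit 76) (nat_lit 58037852311) (nat_lit 76) (nat_lit 57929301834) (nat_lit 1) (nat_lit 4) (nat_lit 2) (nat_lit 5) (nat_lit 2) (nat_lit 4) (nat_lit 355) (nat_lit 213) (nat_lit 212))) (XT.nd (nat_lit 78) (nat_lit 0) (nat_lit 0) (XT.lf (nat_lit 0) (nat_lit 7965841068) (nat_lit 76) (nat_lit 58659163938) (nat_lit 76) (nat_lit 58447232054)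 (nat_lit 1) (nat_lit 4) (nat_lit 2) (nat_lit 5) (nat_lit 2) (nat_lit 4) (nat_lit 356) (nat_lit 213) (nat_lit 211)) (XT.nd (nat_lit 78) (nat_lit 0) (nat_lit 0) (XT.lf (nat_lit 0) (nat_lit 12763206282) (nat_lit 76) (nat_lit 59378631303) (nat_lit 76) (nat_lit 59068240936) (nat_lit 1) (nat_lit 4) (nat_lit 2) (nat_lit 5) (nat_lit 2) (nat_lit 4) (nat_lit 357) (nat_lit 213) (nat_lit 210)) (XT.lf (nat_lit 0) (nat_lit 17666560850) (nat_lit 76) (nat_lit 60197967424) (nat_lit 76) (nat_lit 59793807074) (nat_lit 1) (nat_lit 4) (nat_lit 2) (nat_lit 5) (nat_lit 2) (nat_lit 4) (nat_lit 358) (nat_lit 213) (nat_lit 209))))) (XT.nd (nat_lit 156) (nat_lit 0) (nat_lit 0) (XT.nd (nat_lit 78) (nat_lit 0) (nat_lit 0) (XT.lf (nat_lit 0) (nat_lit 22687579423) (nat_lit 76) (nat_lit 61119123101) (nat_lit 76) (nat_lit 60625658005) (nat_lit 1) (nat_lit 4) (nat_lit 2) (nat_lit 5) (nat_lit 2) (nat_lit 4) (nat_lit 359)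 (nat_lit 213) (nat_lit 208)) (XT.lf (nat_lit 0) (nat_lit 27838216809) (nat_lit 76) (nat_lit 62144291562) (nat_lit 76) (nat_lit 61565774327) (nat_lit 1) (nat_lit 4) (nat_lit 2) (nat_lit 5) (nat_lit 2) (nat_lit 4) (nat_lit 360) (nat_lit 213) (nat_lit 207))) (XT.nd (nat_lit 78) (nat_lit 0) (nat_lit 0) (XT.lf (nat_lit 0) (nat_lit 33130736430) (nat_lit 76) (nat_lit 63275913685) (nat_lit 76) (nat_lit 62616394413) (nat_lit 1) (nat_lit 4) (nat_lit 2) (nat_lit 5) (nat_lit 2) (nat_lit 4) (nat_lit 361) (nat_lit 213) (nat_lit 206)) (XT.nd (nat_lit 78) (nat_lit 0) (nat_lit 0) (XT.lf (nat_lit 0) (nat_lit 38577739523) (nat_lit 76) (nat_lit 64516683808) (nat_lit 76) (nat_lit 63780019738) (nat_lit 1) (nat_lit 4) (nat_lit 2) (nat_lit 5) (nat_lit 2) (nat_lit 4) (nat_lit 362) (nat_lit 213) (nat_lit 205)) (XT.lf (nat_lit 0) (nat_lit 44192195143) (nat_lit 76) (nat_lit 65869556144) (nat_lit 76) (nat_lit 65059420839)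 (nat_lit 1) (nat_lit 4) (nat_lit 2) (nat_lit 5) (nat_lit 2) (nat_lit 4) (nat_lit 363) (nat_lit 213) (nat_lit 204)))))) (XT.nd (nat_lit 390) (nat_lit 0) (nat_lit 0) (XT.nd (nat_lit 156) (nat_lit 0) (nat_lit 0) (XT.nd (nat_lit 78) (nat_lit 0) (nat_lit 0) (XT.lf (nat_lit 0) (nat_lit 49987471042) (nat_lit 76) (nat_lit 67337751820) (nat_lit 76) (nat_lit 66457643909) (nat_lit 1) (nat_lit 4) (nat_lit 2) (nat_lit 5) (nat_lit 2) (nat_lit 4) (nat_lit 364) (nat_lit 213) (nat_lit 203)) (XT.lf (nat_lit 0) (nat_lit 55977365495) (nat_lit 76) (nat_lit 68924766539) (nat_lit 76) (nat_lit 67978018051) (nat_lit 1) (nat_lit 4) (nat_lit 2) (nat_lit 5) (nat_lit 2) (nat_lit 4) (nat_lit 365) (nat_lit 213) (nat_lit 202))) (XT.nd (nat_lit 78) (nat_lit 0) (nat_lit 0) (XT.lf (nat_lit 0) (nat_lit 62176140156) (nat_lit 76) (nat_lit 70634378906) (nat_lit 76) (nat_lit 69624163203) (nat_lit 1) (nat_lit 4) (nat_lit 2)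 (nat_lit 5) (nat_lit 2) (nat_lit 4) (nat_lit 366) (nat_lit 213) (nat_lit 201)) (XT.nd (nat_lit 78) (nat_lit 0) (nat_lit 0) (XT.lf (nat_lit 0) (nat_lit 68598554013) (nat_lit 76) (nat_lit 72470659429) (nat_lit 76) (nat_lit 71399998759) (nat_lit 1) (nat_lit 4) (nat_lit 2) (nat_lit 5) (nat_lit 2) (nat_lit 4) (nat_lit 367) (nat_lit 213) (nat_lit 200)) (XT.lf (nat_lit 0) (nat_lit 75259898526) (nat_lit 76) (nat_lit 74437980204) (nat_lit 76) (nat_lit 73309752898) (nat_lit 1) (nat_lit 4) (nat_lit 2) (nat_lit 5) (nat_lit 2) (nat_lit 4) (nat_lit 368) (nat_lit 213) (nat_lit 199))))) (XT.nd (nat_lit 156) (nat_lit 0) (nat_lit 0) (XT.nd (nat_lit 78) (nat_lit 0) (nat_lit 0) (XT.lf (nat_lit 0) (nat_lit 82176034040) (nat_lit 76) (nat_lit 76541025327) (nat_lit 76) (nat_lit 75357972654) (nat_lit 1) (nat_lit 4) (nat_lit 2) (nat_lit 5) (nat_lit 2) (nat_lit 4) (nat_lit 369) (nat_lit 213) (nat_lit 198)) (XT.lf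 (nat_lit 0) (nat_lit 89363427544) (nat_lit 76) (nat_lit 78784802049) (nat_lit 76) (nat_lit 77549534740) (nat_lit 1) (nat_lit 4) (nat_lit 2) (nat_lit 5) (nat_lit 2) (nat_lit 4) (nat_lit 370) (nat_lit 213) (nat_lit 197))) (XT.nd (nat_lit 78) (nat_lit 0) (nat_lit 0) (XT.lf (nat_lit 0) (nat_lit 96839191880) (nat_lit 76) (nat_lit 81174652695) (nat_lit 76) (nat_lit 79889657162) (nat_lit 1) (nat_lit 4) (nat_lit 2) (nat_lit 5) (nat_lit 2) (nat_lit 4) (nat_lit 371) (nat_lit 213) (nat_lit 196)) (XT.nd (nat_lit 78) (nat_lit 0) (nat_lit 0) (XT.lf (nat_lit 0) (nat_lit 104621126487) (nat_lit 76) (nat_lit 83716267387) (nat_lit 76) (nat_lit 82383911640) (nat_lit 1) (nat_lit 4) (nat_lit 2) (nat_lit 5) (nat_lit 2) (nat_lit 4) (nat_lit 372) (nat_lit 213) (nat_lit 195)) (XT.lf (nat_lit 0) (nat_lit 112727759781) (nat_lit 76) (nat_lit 86415697587) (nat_lit 76) (nat_lit 85038236875) (nat_lit 1) (nat_lit 4)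 (nat_lit 2) (nat_lit 5) (nat_lit 2) (nat_lit 4) (nat_lit 373) (nat_lit 213) (nat_lit 194))))))))
noncomputable def xc9 : XT := (XT.nd (nat_lit 39078) (nat_lit 0) (nat_lit 0) (XT.nd (nat_lit 780) (nat_lit 0) (nat_lit 0) (XT.nd (nat_lit 390) (nat_lit 0) (nat_lit 0) (XT.nd (nat_lit 156) (nat_lit 0) (nat_lit 0) (XT.nd (nat_lit 78) (nat_lit 0) (nat_lit 0) (XT.lf (nat_lit 0) (nat_lit 121178393268) (nat_lit 76) (nat_lit 89279370510) (nat_lit 76) (nat_lit 87858952688) (nat_lit 1) (nat_lit 4) (nat_lit 2) (nat_lit 5) (nat_lit 2) (nat_lit 4) (nat_lit 374) (nat_lit 213) (nat_lit 193)) (XT.lf (nat_lit 0) (nat_lit 129993147506) (nat_lit 76) (nat_lit 92314104425) (nat_lit 76) (nat_lit 90852775070) (nat_lit 1) (nat_lit 4) (nat_lit 2) (nat_lit 5) (nat_lit 2) (nat_lit 4) (nat_lit 375) (nat_lit 213) (nat_lit 192))) (XT.nd (nat_lit 78) (nat_lit 0) (nat_lit 0) (XT.lf (nat_lit 0) (nat_lit 139193010005) (nat_lit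 76) (nat_lit 95527124890) (nat_lit 76) (nat_lit 94026832170) (nat_lit 1) (nat_lit 4) (nat_lit 2) (nat_lit 5) (nat_lit 2) (nat_lit 4) (nat_lit 376) (nat_lit 213) (nat_lit 191)) (XT.nd (nat_lit 78) (nat_lit 0) (nat_lit 0) (XT.lf (nat_lit 0) (nat_lit 148799885198) (nat_lit 76) (nat_lit 98926081952) (nat_lit 76) (nat_lit 97388681266) (nat_lit 1) (nat_lit 4) (nat_lit 2) (nat_lit 5) (nat_lit 2) (nat_lit 4) (nat_lit 377) (nat_lit 213) (nat_lit 190)) (XT.lf (nat_lit 0) (nat_lit 158836646599) (nat_lit 76) (nat_lit 102519068367) (nat_lit 76) (nat_lit 100946326760) (nat_lit 1) (nat_lit 4) (nat_lit 2) (nat_lit 5) (nat_lit 2) (nat_lit 4) (nat_lit 378) (nat_lit 213) (nat_lit 189))))) (XT.nd (nat_lit 156) (nat_lit 0) (nat_lit 0) (XT.nd (nat_lit 78) (nat_lit 0) (nat_lit 0) (XT.lf (nat_lit 0) (nat_lit 169327191257) (nat_lit 76) (nat_lit 106314638865) (nat_lit 76) (nat_lit 104708239238) (nat_lit 1) (nat_lit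 4) (nat_lit 2) (nat_lit 5) (nat_lit 2) (nat_lit 4) (nat_lit 379) (nat_lit 213) (nat_lit 188)) (XT.lf (nat_lit 0) (nat_lit 180296496662) (nat_lit 76) (nat_lit 110321830517) (nat_lit 76) (nat_lit 108683375634) (nat_lit 1) (nat_lit 4) (nat_lit 2) (nat_lit 5) (nat_lit 2) (nat_lit 4) (nat_lit 380) (nat_lit 213) (nat_lit 187))) (XT.nd (nat_lit 78) (nat_lit 0) (nat_lit 0) (XT.lf (nat_lit 0) (nat_lit 191770680205) (nat_lit 76) (nat_lit 114550184257) (nat_lit 76) (nat_lit 112881200558) (nat_lit 1) (nat_lit 4) (nat_lit 2) (nat_lit 5) (nat_lit 2) (nat_lit 4) (nat_lit 381) (nat_lit 213) (nat_lit 186)) (XT.nd (nat_lit 78) (nat_lit 0) (nat_lit 0) (XT.lf (nat_lit 0) (nat_lit 203777061373) (nat_lit 76) (nat_lit 119009767593) (nat_lit 76) (nat_lit 117311708831) (nat_lit 1) (nat_lit 4) (nat_lit 2) (nat_lit 5) (nat_lit 2) (nat_lit 4) (nat_lit 382) (nat_lit 213) (nat_lit 185)) (XT.lf (nat_lit 0) (nat_lit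 216344226786) (nat_lit 76) (nat_lit 123711198581) (nat_lit 76) (nat_lit 121985449283) (nat_lit 1) (nat_lit 4) (nat_lit 2) (nat_lit 5) (nat_lit 2) (nat_lit 4) (nat_lit 383) (nat_lit 213) (nat_lit 184)))))) (XT.nd (nat_lit 390) (nat_lit 0) (nat_lit 0) (XT.nd (nat_lit 156) (nat_lit 0) (nat_lit 0) (XT.nd (nat_lit 78) (nat_lit 0) (nat_lit 0) (XT.lf (nat_lit 0) (nat_lit 229502098267) (nat_lit 76) (nat_lit 128665671104) (nat_lit 76) (nat_lit 126913549867) (nat_lit 1) (nat_lit 4) (nat_lit 2) (nat_lit 5) (nat_lit 2) (nat_lit 4) (nat_lit 384) (nat_lit 213) (nat_lit 183)) (XT.lf (nat_lit 0) (nat_lit 243282004082) (nat_lit 76) (nat_lit 133884981526) (nat_lit 76) (nat_lit 132107744156) (nat_lit 1) (nat_lit 4) (nat_lit 2) (nat_lit 5) (nat_lit 2) (nat_lit 4) (nat_lit 385) (nat_lit 213) (nat_lit 182))) (XT.nd (nat_lit 78) (nat_lit 0) (nat_lit 0) (XT.lf (nat_lit 0) (nat_lit 257716753530) (nat_lit 76)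 (nat_lit 139381556775) (nat_lit 76) (nat_lit 137580399280) (nat_lit 1) (nat_lit 4) (nat_lit 2) (nat_lit 5) (nat_lit 2) (nat_lit 4) (nat_lit 386) (nat_lit 213) (nat_lit 181)) (XT.nd (nat_lit 78) (nat_lit 0) (nat_lit 0) (XT.lf (nat_lit 0) (nat_lit 272840715063) (nat_lit 76) (nat_lit 145168483937) (nat_lit 76) (nat_lit 143344545368) (nat_lit 1) (nat_lit 4) (nat_lit 2) (nat_lit 5) (nat_lit 2) (nat_lit 4) (nat_lit 387) (nat_lit 213) (nat_lit 180)) (XT.lf (nat_lit 0) (nat_lit 288689898112) (nat_lit 76) (nat_lit 151259541408) (nat_lit 76) (nat_lit 149413906580) (nat_lit 1) (nat_lit 4) (nat_lit 2) (nat_lit 5) (nat_lit 2) (nat_lit 4) (nat_lit 388) (nat_lit 213) (nat_lit 179))))) (XT.nd (nat_lit 156) (nat_lit 0) (nat_lit 0) (XT.nd (nat_lit 78) (nat_lit 0) (nat_lit 0) (XT.lf (nat_lit 0) (nat_lit 305302038827) (nat_lit 76) (nat_lit 157669231707) (nat_lit 76) (nat_lit 155802933775) (nat_lit 1) (nat_lit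 4) (nat_lit 2) (nat_lit 5) (nat_lit 2) (nat_lit 4) (nat_lit 389) (nat_lit 213) (nat_lit 178)) (XT.lf (nat_lit 0) (nat_lit 322716689925) (nat_lit 76) (nat_lit 164412816001) (nat_lit 76) (nat_lit 162526838922) (nat_lit 1) (nat_lit 4) (nat_lit 2) (nat_lit 5) (nat_lit 2) (nat_lit 4) (nat_lit 390) (nat_lit 213) (nat_lit 177))) (XT.nd (nat_lit 37596) (nat_lit 0) (nat_lit 76) (XT.lf (nat_lit 0) (nat_lit 340975314861) (nat_lit 76) (nat_lit 171506350443) (nat_lit 76) (nat_lit 169601631319) (nat_lit 1) (nat_lit 4) (nat_lit 2) (nat_lit 5) (nat_lit 2) (nat_lit 4) (nat_lit 391) (nat_lit 213) (nat_lit 176)) (XT.nd (nat_lit 78) (nat_lit 0) (nat_lit 0) (XT.lf (nat_lit 0) (nat_lit 23338343501) (nat_lit 152) (nat_lit 4989801387) (nat_lit 0) (nat_lit 23338343501) (nat_lit 2) (nat_lit 5) (nat_lit 4) (nat_lit 4) (nat_lit 2) (nat_lit 4) (nat_lit 352) (nat_lit 214) (nat_lit 214)) (XT.lf (nat_lit 0) (nat_lit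 51386714180) (nat_lit 152) (nat_lit 5714495280) (nat_lit 0) (nat_lit 51272736179) (nat_lit 2) (nat_lit 5) (nat_lit 4) (nat_lit 4) (nat_lit 2) (nat_lit 4) (nat_lit 353) (nat_lit 214) (nat_lit 213))))))) (XT.nd (nat_lit 780) (nat_lit 0) (nat_lit 0) (XT.nd (nat_lit 390) (nat_lit 0) (nat_lit 0) (XT.nd (nat_lit 156) (nat_lit 0) (nat_lit 0) (XT.nd (nat_lit 78) (nat_lit 76) (nat_lit 0) (XT.lf (nat_lit 0) (nat_lit 56253647739) (nat_lit 152) (nat_lit 1386153603) (nat_lit 0) (nat_lit 56031119261) (nat_lit 2) (nat_lit 5) (nat_lit 4) (nat_lit 4) (nat_lit 2) (nat_lit 4) (nat_lit 354) (nat_lit 214) (nat_lit 212)) (XT.lf (nat_lit 0) (nat_lit 3115441412) (nat_lit 76) (nat_lit 58222274977) (nat_lit 76) (nat_lit 57896365092) (nat_lit 1) (nat_lit 4) (nat_lit 2) (nat_lit 5) (nat_lit 2) (nat_lit 4) (nat_lit 355) (nat_lit 214) (nat_lit 211))) (XT.nd (nat_lit 78) (nat_lit 0) (nat_lit 0) (XT.lf (nat_lit 0)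 (nat_lit 7749667448) (nat_lit 76) (nat_lit 58876313510) (nat_lit 76) (nat_lit 58451945142) (nat_lit 1) (nat_lit 4) (nat_lit 2) (nat_lit 5) (nat_lit 2) (nat_lit 4) (nat_lit 356) (nat_lit 214) (nat_lit 210)) (XT.nd (nat_lit 78) (nat_lit 0) (nat_lit 0) (XT.lf (nat_lit 0) (nat_lit 12481725878) (nat_lit 76) (nat_lit 59626949356) (nat_lit 76) (nat_lit 59108811006) (nat_lit 1) (nat_lit 4) (nat_lit 2) (nat_lit 5) (nat_lit 2) (nat_lit 4) (nat_lit 357) (nat_lit 214) (nat_lit 209)) (XT.lf (nat_lit 0) (nat_lit 17322883508) (nat_lit 76) (nat_lit 60475969746) (nat_lit 76) (nat_lit 59868526649) (nat_lit 1) (nat_lit 4) (nat_lit 2) (nat_lit 5) (nat_lit 2) (nat_lit 4) (nat_lit 358) (nat_lit 214) (nat_lit 208))))) (XT.nd (nat_lit 156) (nat_lit 0) (nat_lit 0) (XT.nd (nat_lit 78) (nat_lit 0) (nat_lit 0) (XT.lf (nat_lit 0) (nat_lit 22284666903) (nat_lit 76) (nat_lit 61425396155) (nat_lit 76) (nat_lit 60732900919)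 (nat_lit 1) (nat_lit 4) (nat_lit 2) (nat_lit 5) (nat_lit 2) (nat_lit 4) (nat_lit 359) (nat_lit 214) (nat_lit 207)) (XT.lf (nat_lit 0) (nat_lit 27378889833) (nat_lit 76) (nat_lit 62477489123) (nat_lit 76) (nat_lit 61703991849) (nat_lit 1) (nat_lit 4) (nat_lit 2) (nat_lit 5) (nat_lit 2) (nat_lit 4) (nat_lit 360) (nat_lit 214) (nat_lit 206))) (XT.nd (nat_lit 78) (nat_lit 0) (nat_lit 0) (XT.lf (nat_lit 0) (nat_lit 32617681401) (nat_lit 76) (nat_lit 63634753633) (nat_lit 76) (nat_lit 62784111562) (nat_lit 1) (nat_lit 4) (nat_lit 2) (nat_lit 5) (nat_lit 2) (nat_lit 4) (nat_lit 361) (nat_lit 214) (nat_lit 205)) (XT.nd (nat_lit 78) (nat_lit 0) (nat_lit 0) (XT.lf (nat_lit 0) (nat_lit 38013514920) (nat_lit 76) (nat_lit 64899945076) (nat_lit 76) (nat_lit 63975831770) (nat_lit 1) (nat_lit 4) (nat_lit 2) (nat_lit 5) (nat_lit 2) (nat_lit 4) (nat_lit 362) (nat_lit 214) (nat_lit 204)) (XT.lf (nat_lit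 0) (nat_lit 43579237612) (nat_lit 76) (nat_lit 66276075814) (nat_lit 76) (nat_lit 65281989902) (nat_lit 1) (nat_lit 4) (nat_lit 2) (nat_lit 5) (nat_lit 2) (nat_lit 4) (nat_lit 363) (nat_lit 214) (nat_lit 203)))))) (XT.nd (nat_lit 390) (nat_lit 0) (nat_lit 0) (XT.nd (nat_lit 156) (nat_lit 0) (nat_lit 0) (XT.nd (nat_lit 78) (nat_lit 0) (nat_lit 0) (XT.lf (nat_lit 0) (nat_lit 49328101198) (nat_lit 76) (nat_lit 67766422348) (nat_lit 76) (nat_lit 66705695859) (nat_lit 1) (nat_lit 4) (nat_lit 2) (nat_lit 5) (nat_lit 2) (nat_lit 4) (nat_lit 364) (nat_lit 214) (nat_lit 202)) (XT.lf (nat_lit 0) (nat_lit 55273793449) (nat_lit 76) (nat_lit 69374533121) (nat_lit 76) (nat_lit 68250339417) (nat_lit 1) (nat_lit 4) (nat_lit 2) (nat_lit 5) (nat_lit 2) (nat_lit 4) (nat_lit 365) (nat_lit 214) (nat_lit 201))) (XT.nd (nat_lit 78) (nat_lit 0) (nat_lit 0) (XT.lf (nat_lit 0) (nat_lit 61430470774) (nat_lit 76)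 (nat_lit 71104236971) (nat_lit 76) (nat_lit 69919598299) (nat_lit 1) (nat_lit 4) (nat_lit 2) (nat_lit 5) (nat_lit 2) (nat_lit 4) (nat_lit 366) (nat_lit 214) (nat_lit 200)) (XT.nd (nat_lit 78) (nat_lit 0) (nat_lit 0) (XT.lf (nat_lit 0) (nat_lit 67812791930) (nat_lit 76) (nat_lit 72959652238) (nat_lit 76) (nat_lit 71717446931) (nat_lit 1) (nat_lit 4) (nat_lit 2) (nat_lit 5) (nat_lit 2) (nat_lit 4) (nat_lit 367) (nat_lit 214) (nat_lit 199)) (XT.lf (nat_lit 0) (nat_lit 74435952919) (nat_lit 76) (nat_lit 74945196578) (nat_lit 76) (nat_lit 73648165904) (nat_lit 1) (nat_lit 4) (nat_lit 2) (nat_lit 5) (nat_lit 2) (nat_lit 4) (nat_lit 368) (nat_lit 214) (nat_lit 198))))) (XT.nd (nat_lit 156) (nat_lit 0) (nat_lit 0) (XT.nd (nat_lit 78) (nat_lit 0) (nat_lit 0) (XT.lf (nat_lit 0) (nat_lit 81315723172) (nat_lit 76) (nat_lit 77065597478) (nat_lit 76) (nat_lit 75716352168) (nat_lit 1) (nat_lit 4) (nat_lit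 2) (nat_lit 5) (nat_lit 2) (nat_lit 4) (nat_lit 369) (nat_lit 214) (nat_lit 197)) (XT.lf (nat_lit 0) (nat_lit 88468483094) (nat_lit 76) (nat_lit 79325903511) (nat_lit 76) (nat_lit 77926929977) (nat_lit 1) (nat_lit 4) (nat_lit 2) (nat_lit 5) (nat_lit 2) (nat_lit 4) (nat_lit 370) (nat_lit 214) (nat_lit 196))) (XT.nd (nat_lit 78) (nat_lit 0) (nat_lit 0) (XT.lf (nat_lit 0) (nat_lit 95911263066) (nat_lit 76) (nat_lit 81731496359) (nat_lit 76) (nat_lit 80285162612) (nat_lit 1) (nat_lit 4) (nat_lit 2) (nat_lit 5) (nat_lit 2) (nat_lit 4) (nat_lit 371) (nat_lit 214) (nat_lit 195)) (XT.nd (nat_lit 78) (nat_lit 0) (nat_lit 0) (XT.lf (nat_lit 0) (nat_lit 103661783993) (nat_lit 76) (nat_lit 84288103623) (nat_lit 76) (nat_lit 82796664910) (nat_lit 1) (nat_lit 4) (nat_lit 2) (nat_lit 5) (nat_lit 2) (nat_lit 4) (nat_lit 372) (nat_lit 214) (nat_lit 194)) (XT.lf (nat_lit 0) (nat_lit 111738499496) (nat_lit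 76) (nat_lit 87001812464) (nat_lit 76) (nat_lit 85467416641) (nat_lit 1) (nat_lit 4) (nat_lit 2) (nat_lit 5) (nat_lit 2) (nat_lit 4) (nat_lit 373) (nat_lit 214) (nat_lit 193))))))))
noncomputable def xc10 : XT := (XT.nd (nat_lit 38922) (nat_lit 0) (nat_lit 0) (XT.nd (nat_lit 780) (nat_lit 0) (nat_lit 0) (XT.nd (nat_lit 390) (nat_lit 0) (nat_lit 0) (XT.nd (nat_lit 156) (nat_lit 0) (nat_lit 0) (XT.nd (nat_lit 78) (nat_lit 0) (nat_lit 0) (XT.lf (nat_lit 0) (nat_lit 120160639850) (nat_lit 76) (nat_lit 89879084092) (nat_lit 76) (nat_lit 88303776736) (nat_lit 1) (nat_lit 4) (nat_lit 2) (nat_lit 5) (nat_lit 2) (nat_lit 4) (nat_lit 374) (nat_lit 214) (nat_lit 192)) (XT.lf (nat_lit 0) (nat_lit 128948257771) (nat_lit 76) (nat_lit 92926769156) (nat_lit 76) (nat_lit 91312498435) (nat_lit 1) (nat_lit 4) (nat_lit 2) (nat_lit 5) (nat_lit 2) (nat_lit 4) (nat_lit 375) (nat_lit 214) (nat_lit 191))) (XT.nd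 (nat_lit 78) (nat_lit 0) (nat_lit 0) (XT.lf (nat_lit 0) (nat_lit 138122276157) (nat_lit 76) (nat_lit 96152124047) (nat_lit 76) (nat_lit 94500745359) (nat_lit 1) (nat_lit 4) (nat_lit 2) (nat_lit 5) (nat_lit 2) (nat_lit 4) (nat_lit 376) (nat_lit 214) (nat_lit 190)) (XT.nd (nat_lit 78) (nat_lit 0) (nat_lit 0) (XT.lf (nat_lit 0) (nat_lit 147704537910) (nat_lit 76) (nat_lit 99562828182) (nat_lit 76) (nat_lit 97876108574) (nat_lit 1) (nat_lit 4) (nat_lit 2) (nat_lit 5) (nat_lit 2) (nat_lit 4) (nat_lit 377) (nat_lit 214) (nat_lit 189)) (XT.lf (nat_lit 0) (nat_lit 157717857939) (nat_lit 76) (nat_lit 103167002286) (nat_lit 76) (nat_lit 101446624658) (nat_lit 1) (nat_lit 4) (nat_lit 2) (nat_lit 5) (nat_lit 2) (nat_lit 4) (nat_lit 378) (nat_lit 214) (nat_lit 188))))) (XT.nd (nat_lit 156) (nat_lit 0) (nat_lit 0) (XT.nd (nat_lit 78) (nat_lit 0) (nat_lit 0) (XT.lf (nat_lit 0) (nat_lit 168186077482)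 (nat_lit 76) (nat_lit 106973227725) (nat_lit 76) (nat_lit 105220794841) (nat_lit 1) (nat_lit 4) (nat_lit 2) (nat_lit 5) (nat_lit 2) (nat_lit 4) (nat_lit 379) (nat_lit 214) (nat_lit 187)) (XT.lf (nat_lit 0) (nat_lit 179134120871) (nat_lit 76) (nat_lit 110990566940) (nat_lit 76) (nat_lit 109207605240) (nat_lit 1) (nat_lit 4) (nat_lit 2) (nat_lit 5) (nat_lit 2) (nat_lit 4) (nat_lit 380) (nat_lit 214) (nat_lit 186))) (XT.nd (nat_lit 78) (nat_lit 0) (nat_lit 0) (XT.lf (nat_lit 0) (nat_lit 190588054876) (nat_lit 76) (nat_lit 115228585026) (nat_lit 76) (nat_lit 113416548263) (nat_lit 1) (nat_lit 4) (nat_lit 2) (nat_lit 5) (nat_lit 2) (nat_lit 4) (nat_lit 381) (nat_lit 214) (nat_lit 185)) (XT.nd (nat_lit 78) (nat_lit 0) (nat_lit 0) (XT.lf (nat_lit 0) (nat_lit 202575150769) (nat_lit 76) (nat_lit 119697372501) (nat_lit 76) (nat_lit 117857645202) (nat_lit 1) (nat_lit 4) (nat_lit 2) (nat_lit 5)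 (nat_lit 2) (nat_lit 4) (nat_lit 382) (nat_lit 214) (nat_lit 184)) (XT.lf (nat_lit 0) (nat_lit 215123949254) (nat_lit 76) (nat_lit 124407569336) (nat_lit 76) (nat_lit 122541470098) (nat_lit 1) (nat_lit 4) (nat_lit 2) (nat_lit 5) (nat_lit 2) (nat_lit 4) (nat_lit 383) (nat_lit 214) (nat_lit 183)))))) (XT.nd (nat_lit 390) (nat_lit 0) (nat_lit 0) (XT.nd (nat_lit 156) (nat_lit 0) (nat_lit 0) (XT.nd (nat_lit 78) (nat_lit 0) (nat_lit 0) (XT.lf (nat_lit 0) (nat_lit 228264328423) (nat_lit 76) (nat_lit 129370390285) (nat_lit 76) (nat_lit 127479174914) (nat_lit 1) (nat_lit 4) (nat_lit 2) (nat_lit 5) (nat_lit 2) (nat_lit 4) (nat_lit 384) (nat_lit 214) (nat_lit 182)) (XT.lf (nat_lit 0) (nat_lit 242027574893) (nat_lit 76) (nat_lit 134597651588) (nat_lit 76) (nat_lit 132682516091) (nat_lit 1) (nat_lit 4) (nat_lit 2) (nat_lit 5) (nat_lit 2) (nat_lit 4) (nat_lit 385) (nat_lit 214) (nat_lit 181))) (XT.nd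 (nat_lit 78) (nat_lit 0) (nat_lit 0) (XT.lf (nat_lit 0) (nat_lit 256446458298) (nat_lit 76) (nat_lit 140101799105) (nat_lit 76) (nat_lit 138163882536) (nat_lit 1) (nat_lit 4) (nat_lit 2) (nat_lit 5) (nat_lit 2) (nat_lit 4) (nat_lit 386) (nat_lit 214) (nat_lit 180)) (XT.nd (nat_lit 78) (nat_lit 0) (nat_lit 0) (XT.lf (nat_lit 0) (nat_lit 271555309314) (nat_lit 76) (nat_lit 145895937950) (nat_lit 76) (nat_lit 143936325122) (nat_lit 1) (nat_lit 4) (nat_lit 2) (nat_lit 5) (nat_lit 2) (nat_lit 4) (nat_lit 387) (nat_lit 214) (nat_lit 179)) (XT.lf (nat_lit 0) (nat_lit 287390101394) (nat_lit 76) (nat_lit 151993863692) (nat_lit 76) (nat_lit 150013587759) (nat_lit 1) (nat_lit 4) (nat_lit 2) (nat_lit 5) (nat_lit 2) (nat_lit 4) (nat_lit 388) (nat_lit 214) (nat_lit 178))))) (XT.nd (nat_lit 156) (nat_lit 0) (nat_lit 0) (XT.nd (nat_lit 78) (nat_lit 0) (nat_lit 0) (XT.lf (nat_lit 0) (nat_lit 303988536425)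 (nat_lit 76) (nat_lit 158410095201) (nat_lit 76) (nat_lit 156410140121) (nat_lit 1) (nat_lit 4) (nat_lit 2) (nat_lit 5) (nat_lit 2) (nat_lit 4) (nat_lit 389) (nat_lit 214) (nat_lit 177)) (XT.lf (nat_lit 0) (nat_lit 321390134490) (nat_lit 76) (nat_lit 165159909218) (nat_lit 76) (nat_lit 163141212094) (nat_lit 1) (nat_lit 4) (nat_lit 2) (nat_lit 5) (nat_lit 2) (nat_lit 4) (nat_lit 390) (nat_lit 214) (nat_lit 176))) (XT.nd (nat_lit 37440) (nat_lit 0) (nat_lit 76) (XT.lf (nat_lit 0) (nat_lit 339636327965) (nat_lit 76) (nat_lit 172259376730) (nat_lit 76) (nat_lit 170222830039) (nat_lit 1) (nat_lit 4) (nat_lit 2) (nat_lit 5) (nat_lit 2) (nat_lit 4) (nat_lit 391) (nat_lit 214) (nat_lit 175)) (XT.nd (nat_lit 78) (nat_lit 0) (nat_lit 0) (XT.lf (nat_lit 0) (nat_lit 18922393472) (nat_lit 152) (nat_lit 9139963391) (nat_lit 0) (nat_lit 18922393472) (nat_lit 2) (nat_lit 5) (nat_lit 4) (nat_lit 4)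 (nat_lit 2) (nat_lit 4) (nat_lit 350) (nat_lit 215) (nat_lit 215)) (XT.lf (nat_lit 0) (nat_lit 42232028760) (nat_lit 152) (nat_lit 14191631105) (nat_lit 0) (nat_lit 42112351859) (nat_lit 2) (nat_lit 5) (nat_lit 4) (nat_lit 4) (nat_lit 2) (nat_lit 4) (nat_lit 351) (nat_lit 215) (nat_lit 214))))))) (XT.nd (nat_lit 780) (nat_lit 0) (nat_lit 0) (XT.nd (nat_lit 390) (nat_lit 0) (nat_lit 0) (XT.nd (nat_lit 156) (nat_lit 76) (nat_lit 0) (XT.nd (nat_lit 78) (nat_lit 0) (nat_lit 0) (XT.lf (nat_lit 0) (nat_lit 46756107941) (nat_lit 152) (nat_lit 10056442898) (nat_lit 0) (nat_lit 46522453039) (nat_lit 2) (nat_lit 5) (nat_lit 4) (nat_lit 4) (nat_lit 2) (nat_lit 4) (nat_lit 352) (nat_lit 215) (nat_lit 213)) (XT.lf (nat_lit 0) (nat_lit 51427796105) (nat_lit 152) (nat_lit 5864516472) (nat_lit 0) (nat_lit 51085590726) (nat_lit 2) (nat_lit 5) (nat_lit 4) (nat_lit 4) (nat_lit 2) (nat_lit 4) (nat_lit 353)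 (nat_lit 215) (nat_lit 212))) (XT.nd (nat_lit 78) (nat_lit 76) (nat_lit 0) (XT.lf (nat_lit 0) (nat_lit 56258216319) (nat_lit 152) (nat_lit 1605871052) (nat_lit 0) (nat_lit 55812629533) (nat_lit 2) (nat_lit 5) (nat_lit 4) (nat_lit 4) (nat_lit 2) (nat_lit 4) (nat_lit 354) (nat_lit 215) (nat_lit 211)) (XT.nd (nat_lit 78) (nat_lit 0) (nat_lit 0) (XT.lf (nat_lit 0) (nat_lit 2819886988) (nat_lit 76) (nat_lit 58483008933) (nat_lit 76) (nat_lit 57938963665) (nat_lit 1) (nat_lit 4) (nat_lit 2) (nat_lit 5) (nat_lit 2) (nat_lit 4) (nat_lit 355) (nat_lit 215) (nat_lit 210)) (XT.lf (nat_lit 0) (nat_lit 7388806240) (nat_lit 76) (nat_lit 59168215948) (nat_lit 76) (nat_lit 58530400696) (nat_lit 1) (nat_lit 4) (nat_lit 2) (nat_lit 5) (nat_lit 2) (nat_lit 4) (nat_lit 356) (nat_lit 215) (nat_lit 209))))) (XT.nd (nat_lit 156) (nat_lit 0) (nat_lit 0) (XT.nd (nat_lit 78) (nat_lit 0) (nat_lit 0) (XT.lf (nat_lit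 0) (nat_lit 12058667732) (nat_lit 76) (nat_lit 59948536063) (nat_lit 76) (nat_lit 59221416065) (nat_lit 1) (nat_lit 4) (nat_lit 2) (nat_lit 5) (nat_lit 2) (nat_lit 4) (nat_lit 357) (nat_lit 215) (nat_lit 208)) (XT.lf (nat_lit 0) (nat_lit 16840590183) (nat_lit 76) (nat_lit 60825827184) (nat_lit 76) (nat_lit 60013655047) (nat_lit 1) (nat_lit 4) (nat_lit 2) (nat_lit 5) (nat_lit 2) (nat_lit 4) (nat_lit 358) (nat_lit 215) (nat_lit 207))) (XT.nd (nat_lit 78) (nat_lit 0) (nat_lit 0) (XT.lf (nat_lit 0) (nat_lit 21745959122) (nat_lit 76) (nat_lit 61802178100) (nat_lit 76) (nat_lit 60909003925) (nat_lit 1) (nat_lit 4) (nat_lit 2) (nat_lit 5) (nat_lit 2) (nat_lit 4) (nat_lit 359) (nat_lit 215) (nat_lit 206)) (XT.nd (nat_lit 78) (nat_lit 0) (nat_lit 0) (XT.lf (nat_lit 0) (nat_lit 26786453999) (nat_lit 76) (nat_lit 62879913455) (nat_lit 76) (nat_lit 61909594483) (nat_lit 1) (nat_lit 4) (nat_lit 2)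 (nat_lit 5) (nat_lit 2) (nat_lit 4) (nat_lit 360) (nat_lit 215) (nat_lit 205)) (XT.lf (nat_lit 0) (nat_lit 31974075993) (nat_lit 76) (nat_lit 64061599285) (nat_lit 76) (nat_lit 63017809078) (nat_lit 1) (nat_lit 4) (nat_lit 2) (nat_lit 5) (nat_lit 2) (nat_lit 4) (nat_lit 361) (nat_lit 215) (nat_lit 204)))))) (XT.nd (nat_lit 390) (nat_lit 0) (nat_lit 0) (XT.nd (nat_lit 156) (nat_lit 0) (nat_lit 0) (XT.nd (nat_lit 78) (nat_lit 0) (nat_lit 0) (XT.lf (nat_lit 0) (nat_lit 37321176583) (nat_lit 76) (nat_lit 65350049130) (nat_lit 76) (nat_lit 64236286317) (nat_lit 1) (nat_lit 4) (nat_lit 2) (nat_lit 5) (nat_lit 2) (nat_lit 4) (nat_lit 362) (nat_lit 215) (nat_lit 203)) (XT.lf (nat_lit 0) (nat_lit 42840486963) (nat_lit 76) (nat_lit 66748330726) (nat_lit 76) (nat_lit 65567927337) (nat_lit 1) (nat_lit 4) (nat_lit 2) (nat_lit 5) (nat_lit 2) (nat_lit 4) (nat_lit 363) (nat_lit 215) (nat_lit 202)))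 (XT.nd (nat_lit 78) (nat_lit 0) (nat_lit 0) (XT.lf (nat_lit 0) (nat_lit 48545148347) (nat_lit 76) (nat_lit 68259773315) (nat_lit 76) (nat_lit 67015902710) (nat_lit 1) (nat_lit 4) (nat_lit 2) (nat_lit 5) (nat_lit 2) (nat_lit 4) (nat_lit 364) (nat_lit 215) (nat_lit 201)) (XT.nd (nat_lit 78) (nat_lit 0) (nat_lit 0) (XT.lf (nat_lit 0) (nat_lit 54448743262) (nat_lit 76) (nat_lit 69887975570) (nat_lit 76) (nat_lit 68583659998) (nat_lit 1) (nat_lit 4) (nat_lit 2) (nat_lit 5) (nat_lit 2) (nat_lit 4) (nat_lit 365) (nat_lit 215) (nat_lit 200)) (XT.lf (nat_lit 0) (nat_lit 60565327887) (nat_lit 76) (nat_lit 71636814163) (nat_lit 76) (nat_lit 70274931956) (nat_lit 1) (nat_lit 4) (nat_lit 2) (nat_lit 5) (nat_lit 2) (nat_lit 4) (nat_lit 366) (nat_lit 215) (nat_lit 199))))) (XT.nd (nat_lit 156) (nat_lit 0) (nat_lit 0) (XT.nd (nat_lit 78) (nat_lit 0) (nat_lit 0) (XT.lf (nat_lit 0) (nat_lit 66909465519)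 (nat_lit 76) (nat_lit 73510452996) (nat_lit 76) (nat_lit 72093745421) (nat_lit 1) (nat_lit 4) (nat_lit 2) (nat_lit 5) (nat_lit 2) (nat_lit 4) (nat_lit 367) (nat_lit 215) (nat_lit 198)) (XT.lf (nat_lit 0) (nat_lit 73496261247) (nat_lit 76) (nat_lit 75513353114) (nat_lit 76) (nat_lit 74044430903) (nat_lit 1) (nat_lit 4) (nat_lit 2) (nat_lit 5) (nat_lit 2) (nat_lit 4) (nat_lit 368) (nat_lit 215) (nat_lit 197))) (XT.nd (nat_lit 78) (nat_lit 0) (nat_lit 0) (XT.lf (nat_lit 0) (nat_lit 80341397917) (nat_lit 76) (nat_lit 77650283325) (nat_lit 76) (nat_lit 76131632890) (nat_lit 1) (nat_lit 4) (nat_lit 2) (nat_lit 5) (nat_lit 2) (nat_lit 4) (nat_lit 369) (nat_lit 215) (nat_lit 196)) (XT.nd (nat_lit 78) (nat_lit 0) (nat_lit 0) (XT.lf (nat_lit 0) (nat_lit 87461173476) (nat_lit 76) (nat_lit 79926331560) (nat_lit 76) (nat_lit 78360320911) (nat_lit 1) (nat_lit 4) (nat_lit 2) (nat_lit 5) (nat_lit 2)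 (nat_lit 4) (nat_lit 370) (nat_lit 215) (nat_lit 195)) (XT.lf (nat_lit 0) (nat_lit 94872539768) (nat_lit 76) (nat_lit 82346916980) (nat_lit 76) (nat_lit 80735801366) (nat_lit 1) (nat_lit 4) (nat_lit 2) (nat_lit 5) (nat_lit 2) (nat_lit 4) (nat_lit 371) (nat_lit 215) (nat_lit 194))))))))
noncomputable def xc11 : XT := (XT.nd (nat_lit 38766) (nat_lit 0) (nat_lit 0) (XT.nd (nat_lit 780) (nat_lit 0) (nat_lit 0) (XT.nd (nat_lit 390) (nat_lit 0) (nat_lit 0) (XT.nd (nat_lit 156) (nat_lit 0) (nat_lit 0) (XT.nd (nat_lit 78) (nat_lit 0) (nat_lit 0) (XT.lf (nat_lit 0) (nat_lit 102593142904) (nat_lit 76) (nat_lit 84917802885) (nat_lit 76) (nat_lit 83263730161) (nat_lit 1) (nat_lit 4) (nat_lit 2) (nat_lit 5) (nat_lit 2) (nat_lit 4) (nat_lit 372) (nat_lit 215) (nat_lit 193)) (XT.lf (nat_lit 0) (nat_lit 110641365274) (nat_lit 76) (nat_lit 87645110431) (nat_lit 76) (nat_lit 85950126174) (nat_lit 1) (nat_lit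 4) (nat_lit 2) (nat_lit 5) (nat_lit 2) (nat_lit 4) (nat_lit 373) (nat_lit 215) (nat_lit 192))) (XT.nd (nat_lit 78) (nat_lit 0) (nat_lit 0) (XT.lf (nat_lit 0) (nat_lit 119036369310) (nat_lit 76) (nat_lit 90535333207) (nat_lit 76) (nat_lit 88801385585) (nat_lit 1) (nat_lit 4) (nat_lit 2) (nat_lit 5) (nat_lit 2) (nat_lit 4) (nat_lit 374) (nat_lit 215) (nat_lit 191)) (XT.nd (nat_lit 78) (nat_lit 0) (nat_lit 0) (XT.lf (nat_lit 0) (nat_lit 127798143118) (nat_lit 76) (nat_lit 93595352697) (nat_lit 76) (nat_lit 91824297109) (nat_lit 1) (nat_lit 4) (nat_lit 2) (nat_lit 5) (nat_lit 2) (nat_lit 4) (nat_lit 375) (nat_lit 215) (nat_lit 190)) (XT.lf (nat_lit 0) (nat_lit 136947548064) (nat_lit 76) (nat_lit 96832454661) (nat_lit 76) (nat_lit 95026058152) (nat_lit 1) (nat_lit 4) (nat_lit 2) (nat_lit 5) (nat_lit 2) (nat_lit 4) (nat_lit 376) (nat_lit 215) (nat_lit 189))))) (XT.nd (nat_lit 156) (nat_lit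 0) (nat_lit 0) (XT.nd (nat_lit 78) (nat_lit 0) (nat_lit 0) (XT.lf (nat_lit 0) (nat_lit 146506368445) (nat_lit 76) (nat_lit 100254346485) (nat_lit 76) (nat_lit 98414291957) (nat_lit 1) (nat_lit 4) (nat_lit 2) (nat_lit 5) (nat_lit 2) (nat_lit 4) (nat_lit 377) (nat_lit 215) (nat_lit 188)) (XT.lf (nat_lit 0) (nat_lit 156497363359) (nat_lit 76) (nat_lit 103869175530) (nat_lit 76) (nat_lit 101997065745) (nat_lit 1) (nat_lit 4) (nat_lit 2) (nat_lit 5) (nat_lit 2) (nat_lit 4) (nat_lit 378) (nat_lit 215) (nat_lit 187))) (XT.nd (nat_lit 78) (nat_lit 0) (nat_lit 0) (XT.lf (nat_lit 0) (nat_lit 166944320886) (nat_lit 76) (nat_lit 107685548533) (nat_lit 76) (nat_lit 105782909931) (nat_lit 1) (nat_lit 4) (nat_lit 2) (nat_lit 5) (nat_lit 2) (nat_lit 4) (nat_lit 379) (nat_lit 215) (nat_lit 186)) (XT.nd (nat_lit 78) (nat_lit 0) (nat_lit 0) (XT.lf (nat_lit 0) (nat_lit 177872114737) (nat_lit 76) (nat_lit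 111712552094) (nat_lit 76) (nat_lit 109780838430) (nat_lit 1) (nat_lit 4) (nat_lit 2) (nat_lit 5) (nat_lit 2) (nat_lit 4) (nat_lit 380) (nat_lit 215) (nat_lit 185)) (XT.lf (nat_lit 0) (nat_lit 189306763468) (nat_lit 76) (nat_lit 115959774319) (nat_lit 76) (nat_lit 114000370119) (nat_lit 1) (nat_lit 4) (nat_lit 2) (nat_lit 5) (nat_lit 2) (nat_lit 4) (nat_lit 381) (nat_lit 215) (nat_lit 184)))))) (XT.nd (nat_lit 390) (nat_lit 0) (nat_lit 0) (XT.nd (nat_lit 156) (nat_lit 0) (nat_lit 0) (XT.nd (nat_lit 78) (nat_lit 0) (nat_lit 0) (XT.lf (nat_lit 0) (nat_lit 201275492433) (nat_lit 76) (nat_lit 120437327641) (nat_lit 76) (nat_lit 118451551502) (nat_lit 1) (nat_lit 4) (nat_lit 2) (nat_lit 5) (nat_lit 2) (nat_lit 4) (nat_lit 382) (nat_lit 215) (nat_lit 183)) (XT.lf (nat_lit 0) (nat_lit 213806798606) (nat_lit 76) (nat_lit 125155872901) (nat_lit 76) (nat_lit 123144980630) (nat_lit 1) (nat_lit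 4) (nat_lit 2) (nat_lit 5) (nat_lit 2) (nat_lit 4) (nat_lit 383) (nat_lit 215) (nat_lit 182))) (XT.nd (nat_lit 78) (nat_lit 0) (nat_lit 0) (XT.lf (nat_lit 0) (nat_lit 226930518430) (nat_lit 76) (nat_lit 130126644731) (nat_lit 76) (nat_lit 128091832334) (nat_lit 1) (nat_lit 4) (nat_lit 2) (nat_lit 5) (nat_lit 2) (nat_lit 4) (nat_lit 384) (nat_lit 215) (nat_lit 181)) (XT.nd (nat_lit 78) (nat_lit 0) (nat_lit 0) (XT.lf (nat_lit 0) (nat_lit 240677898857) (nat_lit 76) (nat_lit 135361478302) (nat_lit 76) (nat_lit 133303884832) (nat_lit 1) (nat_lit 4) (nat_lit 2) (nat_lit 5) (nat_lit 2) (nat_lit 4) (nat_lit 385) (nat_lit 215) (nat_lit 180)) (XT.lf (nat_lit 0) (nat_lit 255081671745) (nat_lit 76) (nat_lit 140872837504) (nat_lit 76) (nat_lit 138793547774) (nat_lit 1) (nat_lit 4) (nat_lit 2) (nat_lit 5) (nat_lit 2) (nat_lit 4) (nat_lit 386) (nat_lit 215) (nat_lit 179))))) (XT.nd (nat_lit 156) (nat_lit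 0) (nat_lit 0) (XT.nd (nat_lit 78) (nat_lit 0) (nat_lit 0) (XT.lf (nat_lit 0) (nat_lit 270176131791) (nat_lit 76) (nat_lit 146673844619) (nat_lit 76) (nat_lit 144573891785) (nat_lit 1) (nat_lit 4) (nat_lit 2) (nat_lit 5) (nat_lit 2) (nat_lit 4) (nat_lit 387) (nat_lit 215) (nat_lit 178)) (XT.lf (nat_lit 0) (nat_lit 285997218187) (nat_lit 76) (nat_lit 152778311570) (nat_lit 76) (nat_lit 150658679590) (nat_lit 1) (nat_lit 4) (nat_lit 2) (nat_lit 5) (nat_lit 2) (nat_lit 4) (nat_lit 388) (nat_lit 215) (nat_lit 177))) (XT.nd (nat_lit 78) (nat_lit 0) (nat_lit 0) (XT.lf (nat_lit 0) (nat_lit 302582600185) (nat_lit 76) (nat_lit 159200772803) (nat_lit 76) (nat_lit 157062398777) (nat_lit 1) (nat_lit 4) (nat_lit 2) (nat_lit 5) (nat_lit 2) (nat_lit 4) (nat_lit 389) (nat_lit 215) (nat_lit 176)) (XT.nd (nat_lit 78) (nat_lit 0) (nat_lit 0) (XT.lf (nat_lit 0) (nat_lit 319971766790) (nat_lit 76) (nat_lit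 165956519890) (nat_lit 76) (nat_lit 163800296298) (nat_lit 1) (nat_lit 4) (nat_lit 2) (nat_lit 5) (nat_lit 2) (nat_lit 4) (nat_lit 390) (nat_lit 215) (nat_lit 175)) (XT.lf (nat_lit 0) (nat_lit 338206120780) (nat_lit 76) (nat_lit 173061637945) (nat_lit 76) (nat_lit 170888414766) (nat_lit 1) (nat_lit 4) (nat_lit 2) (nat_lit 5) (nat_lit 2) (nat_lit 4) (nat_lit 391) (nat_lit 215) (nat_lit 174))))))) (XT.nd (nat_lit 780) (nat_lit 0) (nat_lit 0) (XT.nd (nat_lit 390) (nat_lit 76) (nat_lit 0) (XT.nd (nat_lit 156) (nat_lit 0) (nat_lit 0) (XT.nd (nat_lit 78) (nat_lit 0) (nat_lit 0) (XT.lf (nat_lit 0) (nat_lit 14804688017) (nat_lit 152) (nat_lit 13134985990) (nat_lit 0) (nat_lit 14804688017) (nat_lit 2) (nat_lit 5) (nat_lit 4) (nat_lit 4) (nat_lit 2) (nat_lit 4) (nat_lit 348) (nat_lit 216) (nat_lit 216)) (XT.lf (nat_lit 0) (nat_lit 33709597428) (nat_lit 152) (nat_lit 22331063964) (nat_lit 0) (nat_lit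 33583936682) (nat_lit 2) (nat_lit 5) (nat_lit 4) (nat_lit 4) (nat_lit 2) (nat_lit 4) (nat_lit 349) (nat_lit 216) (nat_lit 215))) (XT.nd (nat_lit 78) (nat_lit 0) (nat_lit 0) (XT.lf (nat_lit 0) (nat_lit 37928178930) (nat_lit 152) (nat_lit 18360608911) (nat_lit 0) (nat_lit 37682841283) (nat_lit 2) (nat_lit 5) (nat_lit 4) (nat_lit 4) (nat_lit 2) (nat_lit 4) (nat_lit 350) (nat_lit 216) (nat_lit 214)) (XT.nd (nat_lit 78) (nat_lit 0) (nat_lit 0) (XT.lf (nat_lit 0) (nat_lit 42275164781) (nat_lit 152) (nat_lit 14349153358) (nat_lit 0) (nat_lit 41915849133) (nat_lit 2) (nat_lit 5) (nat_lit 4) (nat_lit 4) (nat_lit 2) (nat_lit 4) (nat_lit 351) (nat_lit 216) (nat_lit 213)) (XT.lf (nat_lit 0) (nat_lit 46760904949) (nat_lit 152) (nat_lit 10287146220) (nat_lit 0) (nat_lit 46293038824) (nat_lit 2) (nat_lit 5) (nat_lit 4) (nat_lit 4) (nat_lit 2) (nat_lit 4) (nat_lit 352) (nat_lit 216) (nat_lit 212)))))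 (XT.nd (nat_lit 156) (nat_lit 76) (nat_lit 0) (XT.nd (nat_lit 78) (nat_lit 0) (nat_lit 0) (XT.lf (nat_lit 0) (nat_lit 51396079768) (nat_lit 152) (nat_lit 6164916051) (nat_lit 0) (nat_lit 50824832236) (nat_lit 2) (nat_lit 5) (nat_lit 4) (nat_lit 4) (nat_lit 2) (nat_lit 4) (nat_lit 353) (nat_lit 216) (nat_lit 211)) (XT.lf (nat_lit 0) (nat_lit 56191725367) (nat_lit 152) (nat_lit 1972648019) (nat_lit 0) (nat_lit 55522019353) (nat_lit 2) (nat_lit 5) (nat_lit 4) (nat_lit 4) (nat_lit 2) (nat_lit 4) (nat_lit 354) (nat_lit 216) (nat_lit 210))) (XT.nd (nat_lit 78) (nat_lit 0) (nat_lit 0) (XT.lf (nat_lit 0) (nat_lit 2375675934) (nat_lit 76) (nat_lit 58820674975) (nat_lit 76) (nat_lit 58057198977) (nat_lit 1) (nat_lit 4) (nat_lit 2) (nat_lit 5) (nat_lit 2) (nat_lit 4) (nat_lit 355) (nat_lit 216) (nat_lit 209)) (XT.nd (nat_lit 78) (nat_lit 0) (nat_lit 0) (XT.lf (nat_lit 0) (nat_lit 6882398248) (nat_lit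 76) (nat_lit 59535566258) (nat_lit 76) (nat_lit 58682785514) (nat_lit 1) (nat_lit 4) (nat_lit 2) (nat_lit 5) (nat_lit 2) (nat_lit 4) (nat_lit 356) (nat_lit 216) (nat_lit 208)) (XT.lf (nat_lit 0) (nat_lit 11493024562) (nat_lit 76) (nat_lit 60344157105) (nat_lit 76) (nat_lit 59406324222) (nat_lit 1) (nat_lit 4) (nat_lit 2) (nat_lit 5) (nat_lit 2) (nat_lit 4) (nat_lit 357) (nat_lit 216) (nat_lit 207)))))) (XT.nd (nat_lit 390) (nat_lit 0) (nat_lit 0) (XT.nd (nat_lit 156) (nat_lit 0) (nat_lit 0) (XT.nd (nat_lit 78) (nat_lit 0) (nat_lit 0) (XT.lf (nat_lit 0) (nat_lit 16218532558) (nat_lit 76) (nat_lit 61248372733) (nat_lit 76) (nat_lit 60229537812) (nat_lit 1) (nat_lit 4) (nat_lit 2) (nat_lit 5) (nat_lit 2) (nat_lit 4) (nat_lit 358) (nat_lit 216) (nat_lit 206)) (XT.lf (nat_lit 0) (nat_lit 21070173443) (nat_lit 76) (nat_lit 62250366035) (nat_lit 76) (nat_lit 61154386318) (nat_lit 1) (nat_lit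 4) (nat_lit 2) (nat_lit 5) (nat_lit 2) (nat_lit 4) (nat_lit 359) (nat_lit 216) (nat_lit 205))) (XT.nd (nat_lit 78) (nat_lit 0) (nat_lit 0) (XT.lf (nat_lit 0) (nat_lit 26059498746) (nat_lit 76) (nat_lit 63352522711) (nat_lit 76) (nat_lit 62183071758) (nat_lit 1) (nat_lit 4) (nat_lit 2) (nat_lit 5) (nat_lit 2) (nat_lit 4) (nat_lit 360) (nat_lit 216) (nat_lit 204)) (XT.nd (nat_lit 78) (nat_lit 0) (nat_lit 0) (XT.lf (nat_lit 0) (nat_lit 31198387811) (nat_lit 76) (nat_lit 64557466943) (nat_lit 76) (nat_lit 63318043384) (nat_lit 1) (nat_lit 4) (nat_lit 2) (nat_lit 5) (nat_lit 2) (nat_lit 4) (nat_lit 361) (nat_lit 216) (nat_lit 203)) (XT.lf (nat_lit 0) (nat_lit 36499076090) (nat_lit 76) (nat_lit 65868067646) (nat_lit 76) (nat_lit 64562003511) (nat_lit 1) (nat_lit 4) (nat_lit 2) (nat_lit 5) (nat_lit 2) (nat_lit 4) (nat_lit 362) (nat_lit 216) (nat_lit 202))))) (XT.nd (nat_lit 234) (nat_lit 0)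 (nat_lit 0) (XT.nd (nat_lit 78) (nat_lit 0) (nat_lit 0) (XT.lf (nat_lit 0) (nat_lit 41974184267) (nat_lit 76) (nat_lit 67287445297) (nat_lit 76) (nat_lit 65917913946) (nat_lit 1) (nat_lit 4) (nat_lit 2) (nat_lit 5) (nat_lit 2) (nat_lit 4) (nat_lit 363) (nat_lit 216) (nat_lit 201)) (XT.nd (nat_lit 78) (nat_lit 0) (nat_lit 0) (XT.lf (nat_lit 0) (nat_lit 47636748316) (nat_lit 76) (nat_lit 68818979367) (nat_lit 76) (nat_lit 67389003049) (nat_lit 1) (nat_lit 4) (nat_lit 2) (nat_lit 5) (nat_lit 2) (nat_lit 4) (nat_lit 364) (nat_lit 216) (nat_lit 200)) (XT.lf (nat_lit 0) (nat_lit 53500250530) (nat_lit 76) (nat_lit 70466316367) (nat_lit 76) (nat_lit 68978773413) (nat_lit 1) (nat_lit 4) (nat_lit 2) (nat_lit 5) (nat_lit 2) (nat_lit 4) (nat_lit 365) (nat_lit 216) (nat_lit 199)))) (XT.nd (nat_lit 78) (nat_lit 0) (nat_lit 0) (XT.lf (nat_lit 0) (nat_lit 59578651631) (nat_lit 76) (nat_lit 72233378526)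 (nat_lit 76) (nat_lit 70691010205) (nat_lit 1) (nat_lit 4) (nat_lit 2) (nat_lit 5) (nat_lit 2) (nat_lit 4) (nat_lit 366) (nat_lit 216) (nat_lit 198)) (XT.nd (nat_lit 78) (nat_lit 0) (nat_lit 0) (XT.lf (nat_lit 0) (nat_lit 65886424002) (nat_lit 76) (nat_lit 74124373136) (nat_lit 76) (nat_lit 72529790179) (nat_lit 1) (nat_lit 4) (nat_lit 2) (nat_lit 5) (nat_lit 2) (nat_lit 4) (nat_lit 367) (nat_lit 216) (nat_lit 197)) (XT.lf (nat_lit 0) (nat_lit 72438586147) (nat_lit 76) (nat_lit 76143802564) (nat_lit 76) (nat_lit 74499491383) (nat_lit 1) (nat_lit 4) (nat_lit 2) (nat_lit 5) (nat_lit 2) (nat_lit 4) (nat_lit 368) (nat_lit 216) (nat_lit 196))))))))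
noncomputable def xc12 : XT := (XT.nd (nat_lit 1560) (nat_lit 0) (nat_lit 0) (XT.nd (nat_lit 780) (nat_lit 0) (nat_lit 0) (XT.nd (nat_lit 390) (nat_lit 0) (nat_lit 0) (XT.nd (nat_lit 156) (nat_lit 0) (nat_lit 0) (XT.nd (nat_lit 78) (nat_lit 0) (nat_lit 0) (XT.lf (nat_lit 0) (nat_lit 79250738454) (nat_lit 76) (nat_lit 78296474977) (nat_lit 76) (nat_lit 76604803582) (nat_lit 1) (nat_lit 4) (nat_lit 2) (nat_lit 5) (nat_lit 2) (nat_lit 4) (nat_lit 369) (nat_lit 216) (nat_lit 195)) (XT.lf (nat_lit 0) (nat_lit 86339100332) (nat_lit 76) (nat_lit 80587515784) (nat_lit 76) (nat_lit 78850739424) (nat_lit 1) (nat_lit 4) (nat_lit 2) (nat_lit 5) (nat_lit 2) (nat_lit 4) (nat_lit 370) (nat_lit 216) (nat_lit 194))) (XT.nd (nat_lit 78) (nat_lit 0) (nat_lit 0) (XT.lf (nat_lit 0) (nat_lit 93720548834) (nat_lit 76) (nat_lit 83022379845) (nat_lit 76) (nat_lit 81242646375) (nat_lit 1) (nat_lit 4) (nat_lit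 2) (nat_lit 5) (nat_lit 2) (nat_lit 4) (nat_lit 371) (nat_lit 216) (nat_lit 193)) (XT.nd (nat_lit 78) (nat_lit 0) (nat_lit 0) (XT.lf (nat_lit 0) (nat_lit 101412658837) (nat_lit 76) (nat_lit 85606864455) (nat_lit 76) (nat_lit 83786219452) (nat_lit 1) (nat_lit 4) (nat_lit 2) (nat_lit 5) (nat_lit 2) (nat_lit 4) (nat_lit 372) (nat_lit 216) (nat_lit 192)) (XT.lf (nat_lit 0) (nat_lit 109433744889) (nat_lit 76) (nat_lit 88347123149) (nat_lit 76) (nat_lit 86487514781) (nat_lit 1) (nat_lit 4) (nat_lit 2) (nat_lit 5) (nat_lit 2) (nat_lit 4) (nat_lit 373) (nat_lit 216) (nat_lit 191))))) (XT.nd (nat_lit 156) (nat_lit 0) (nat_lit 0) (XT.nd (nat_lit 78) (nat_lit 0) (nat_lit 0) (XT.lf (nat_lit 0) (nat_lit 117802904813) (nat_lit 76) (nat_lit 91249680352) (nat_lit 76) (nat_lit 89352964018) (nat_lit 1) (nat_lit 4) (nat_lit 2) (nat_lit 5) (nat_lit 2) (nat_lit 4) (nat_lit 374) (nat_lit 216) (nat_lit 190))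 (XT.lf (nat_lit 0) (nat_lit 126540065180) (nat_lit 76) (nat_lit 94321446915) (nat_lit 76) (nat_lit 92389389660) (nat_lit 1) (nat_lit 4) (nat_lit 2) (nat_lit 5) (nat_lit 2) (nat_lit 4) (nat_lit 375) (nat_lit 216) (nat_lit 189))) (XT.nd (nat_lit 78) (nat_lit 0) (nat_lit 0) (XT.lf (nat_lit 0) (nat_lit 135666028755) (nat_lit 76) (nat_lit 97569736568) (nat_lit 76) (nat_lit 95604021294) (nat_lit 1) (nat_lit 4) (nat_lit 2) (nat_lit 5) (nat_lit 2) (nat_lit 4) (nat_lit 376) (nat_lit 216) (nat_lit 188)) (XT.nd (nat_lit 78) (nat_lit 0) (nat_lit 0) (XT.lf (nat_lit 0) (nat_lit 145202524020) (nat_lit 76) (nat_lit 101002283333) (nat_lit 76) (nat_lit 99004512802) (nat_lit 1) (nat_lit 4) (nat_lit 2) (nat_lit 5) (nat_lit 2) (nat_lit 4) (nat_lit 377) (nat_lit 216) (nat_lit 187)) (XT.lf (nat_lit 0) (nat_lit 155172256918) (nat_lit 76) (nat_lit 104627259942) (nat_lit 76) (nat_lit 102598960595) (nat_lit 1)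 (nat_lit 4) (nat_lit 2) (nat_lit 5) (nat_lit 2) (nat_lit 4) (nat_lit 378) (nat_lit 216) (nat_lit 186)))))) (XT.nd (nat_lit 390) (nat_lit 0) (nat_lit 0) (XT.nd (nat_lit 156) (nat_lit 0) (nat_lit 0) (XT.nd (nat_lit 78) (nat_lit 0) (nat_lit 0) (XT.lf (nat_lit 0) (nat_lit 165598964908) (nat_lit 76) (nat_lit 108453297290) (nat_lit 76) (nat_lit 106395922880) (nat_lit 1) (nat_lit 4) (nat_lit 2) (nat_lit 5) (nat_lit 2) (nat_lit 4) (nat_lit 379) (nat_lit 216) (nat_lit 185)) (XT.lf (nat_lit 0) (nat_lit 176507473485) (nat_lit 76) (nat_lit 112489504991) (nat_lit 76) (nat_lit 110404440045) (nat_lit 1) (nat_lit 4) (nat_lit 2) (nat_lit 5) (nat_lit 2) (nat_lit 4) (nat_lit 380) (nat_lit 216) (nat_lit 184))) (XT.nd (nat_lit 78) (nat_lit 0) (nat_lit 0) (XT.lf (nat_lit 0) (nat_lit 187923755287) (nat_lit 76) (nat_lit 116745493063) (nat_lit 76) (nat_lit 114634056178) (nat_lit 1) (nat_lit 4) (nat_lit 2) (nat_lit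 5) (nat_lit 2) (nat_lit 4) (nat_lit 381) (nat_lit 216) (nat_lit 183)) (XT.nd (nat_lit 78) (nat_lit 0) (nat_lit 0) (XT.lf (nat_lit 0) (nat_lit 199874991940) (nat_lit 76) (nat_lit 121231394810) (nat_lit 76) (nat_lit 119094841793) (nat_lit 1) (nat_lit 4) (nat_lit 2) (nat_lit 5) (nat_lit 2) (nat_lit 4) (nat_lit 382) (nat_lit 216) (nat_lit 182)) (XT.lf (nat_lit 0) (nat_lit 212389638768) (nat_lit 76) (nat_lit 125957890952) (nat_lit 76) (nat_lit 123797417808) (nat_lit 1) (nat_lit 4) (nat_lit 2) (nat_lit 5) (nat_lit 2) (nat_lit 4) (nat_lit 383) (nat_lit 216) (nat_lit 181))))) (XT.nd (nat_lit 156) (nat_lit 0) (nat_lit 0) (XT.nd (nat_lit 78) (nat_lit 0) (nat_lit 0) (XT.lf (nat_lit 0) (nat_lit 225497492548) (nat_lit 76) (nat_lit 130936235050) (nat_lit 76) (nat_lit 128752980834) (nat_lit 1) (nat_lit 4) (nat_lit 2) (nat_lit 5) (nat_lit 2) (nat_lit 4) (nat_lit 384) (nat_lit 216) (nat_lit 180)) (XT.lf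 (nat_lit 0) (nat_lit 239229762458) (nat_lit 76) (nat_lit 136178280304) (nat_lit 76) (nat_lit 133973329829) (nat_lit 1) (nat_lit 4) (nat_lit 2) (nat_lit 5) (nat_lit 2) (nat_lit 4) (nat_lit 385) (nat_lit 216) (nat_lit 179))) (XT.nd (nat_lit 78) (nat_lit 0) (nat_lit 0) (XT.lf (nat_lit 0) (nat_lit 253619144377) (nat_lit 76) (nat_lit 141696507776) (nat_lit 76) (nat_lit 139470894196) (nat_lit 1) (nat_lit 4) (nat_lit 2) (nat_lit 5) (nat_lit 2) (nat_lit 4) (nat_lit 386) (nat_lit 216) (nat_lit 178)) (XT.nd (nat_lit 78) (nat_lit 0) (nat_lit 0) (XT.lf (nat_lit 0) (nat_lit 268699898739) (nat_lit 76) (nat_lit 147504056101) (nat_lit 76) (nat_lit 145258763374) (nat_lit 1) (nat_lit 4) (nat_lit 2) (nat_lit 5) (nat_lit 2) (nat_lit 4) (nat_lit 387) (nat_lit 216) (nat_lit 177)) (XT.lf (nat_lit 0) (nat_lit 284507932102) (nat_lit 76) (nat_lit 153614752776) (nat_lit 76) (nat_lit 151350718005) (nat_lit 1) (nat_lit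 4) (nat_lit 2) (nat_lit 5) (nat_lit 2) (nat_lit 4) (nat_lit 388) (nat_lit 216) (nat_lit 176))))))) (XT.nd (nat_lit 37830) (nat_lit 0) (nat_lit 0) (XT.nd (nat_lit 37440) (nat_lit 0) (nat_lit 76) (XT.nd (nat_lit 156) (nat_lit 0) (nat_lit 0) (XT.nd (nat_lit 78) (nat_lit 0) (nat_lit 0) (XT.lf (nat_lit 0) (nat_lit 301080882640) (nat_lit 76) (nat_lit 160043147078) (nat_lit 76) (nat_lit 157761262741) (nat_lit 1) (nat_lit 4) (nat_lit 2) (nat_lit 5) (nat_lit 2) (nat_lit 4) (nat_lit 389) (nat_lit 216) (nat_lit 175)) (XT.lf (nat_lit 0) (nat_lit 318458209760) (nat_lit 76) (nat_lit 166804544709) (nat_lit 76) (nat_lit 164505660784) (nat_lit 1) (nat_lit 4) (nat_lit 2) (nat_lit 5) (nat_lit 2) (nat_lit 4) (nat_lit 390) (nat_lit 216) (nat_lit 174))) (XT.nd (nat_lit 37128) (nat_lit 0) (nat_lit 76) (XT.lf (nat_lit 0) (nat_lit 336681288049) (nat_lit 76) (nat_lit 173915044234) (nat_lit 76) (nat_lit 171599970226)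 (nat_lit 1) (nat_lit 4) (nat_lit 2) (nat_lit 5) (nat_lit 2) (nat_lit 4) (nat_lit 391) (nat_lit 216) (nat_lit 173)) (XT.nd (nat_lit 78) (nat_lit 0) (nat_lit 0) (XT.lf (nat_lit 0) (nat_lit 10951883753) (nat_lit 152) (nat_lit 17000827743) (nat_lit 0) (nat_lit 10951883753) (nat_lit 2) (nat_lit 5) (nat_lit 4) (nat_lit 4) (nat_lit 2) (nat_lit 4) (nat_lit 346) (nat_lit 217) (nat_lit 217)) (XT.lf (nat_lit 0) (nat_lit 25749696103) (nat_lit 152) (nat_lit 30186711314) (nat_lit 0) (nat_lit 25617752319) (nat_lit 2) (nat_lit 5) (nat_lit 4) (nat_lit 4) (nat_lit 2) (nat_lit 4) (nat_lit 347) (nat_lit 217) (nat_lit 216))))) (XT.nd (nat_lit 156) (nat_lit 0) (nat_lit 0) (XT.nd (nat_lit 78) (nat_lit 0) (nat_lit 0) (XT.lf (nat_lit 0) (nat_lit 29696937619) (nat_lit 152) (nat_lit 26354688216) (nat_lit 0) (nat_lit 29439333090) (nat_lit 2) (nat_lit 5) (nat_lit 4) (nat_lit 4) (nat_lit 2) (nat_lit 4) (nat_lit 348)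 (nat_lit 217) (nat_lit 215)) (XT.lf (nat_lit 0) (nat_lit 33754890250) (nat_lit 152) (nat_lit 22496462329) (nat_lit 0) (nat_lit 33377608820) (nat_lit 2) (nat_lit 5) (nat_lit 4) (nat_lit 4) (nat_lit 2) (nat_lit 4) (nat_lit 349) (nat_lit 217) (nat_lit 214))) (XT.nd (nat_lit 78) (nat_lit 0) (nat_lit 0) (XT.lf (nat_lit 0) (nat_lit 37933215789) (nat_lit 152) (nat_lit 18602847399) (nat_lit 0) (nat_lit 37441956357) (nat_lit 2) (nat_lit 5) (nat_lit 4) (nat_lit 4) (nat_lit 2) (nat_lit 4) (nat_lit 350) (nat_lit 217) (nat_lit 213)) (XT.nd (nat_lit 78) (nat_lit 0) (nat_lit 0) (XT.lf (nat_lit 0) (nat_lit 42241862627) (nat_lit 152) (nat_lit 14664572915) (nat_lit 0) (nat_lit 41642052719) (nat_lit 2) (nat_lit 5) (nat_lit 4) (nat_lit 4) (nat_lit 2) (nat_lit 4) (nat_lit 351) (nat_lit 217) (nat_lit 212)) (XT.lf (nat_lit 0) (nat_lit 46691089450) (nat_lit 152) (nat_lit 10672262034) (nat_lit 0) (nat_lit 45987898135)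 (nat_lit 2) (nat_lit 5) (nat_lit 4) (nat_lit 4) (nat_lit 2) (nat_lit 4) (nat_lit 352) (nat_lit 217) (nat_lit 211)))))) (XT.nd (nat_lit 390) (nat_lit 0) (nat_lit 0) (XT.nd (nat_lit 156) (nat_lit 76) (nat_lit 0) (XT.nd (nat_lit 78) (nat_lit 0) (nat_lit 0) (XT.lf (nat_lit 0) (nat_lit 51291489654) (nat_lit 152) (nat_lit 6616409253) (nat_lit 0) (nat_lit 50489839856) (nat_lit 2) (nat_lit 5) (nat_lit 4) (nat_lit 4) (nat_lit 2) (nat_lit 4) (nat_lit 353) (nat_lit 217) (nat_lit 210)) (XT.lf (nat_lit 0) (nat_lit 56054016572) (nat_lit 152) (nat_lit 2487357780) (nat_lit 0) (nat_lit 55158596791) (nat_lit 2) (nat_lit 5) (nat_lit 4) (nat_lit 4) (nat_lit 2) (nat_lit 4) (nat_lit 354) (nat_lit 217) (nat_lit 209))) (XT.nd (nat_lit 78) (nat_lit 0) (nat_lit 0) (XT.lf (nat_lit 0) (nat_lit 1781750606) (nat_lit 76) (nat_lit 59236077069) (nat_lit 76) (nat_lit 58251352542) (nat_lit 1) (nat_lit 4) (nat_lit 2) (nat_lit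 5) (nat_lit 2) (nat_lit 4) (nat_lit 355) (nat_lit 217) (nat_lit 208)) (XT.nd (nat_lit 78) (nat_lit 0) (nat_lit 0) (XT.lf (nat_lit 0) (nat_lit 6229237742) (nat_lit 76) (nat_lit 59979239084) (nat_lit 76) (nat_lit 58909462417) (nat_lit 1) (nat_lit 4) (nat_lit 2) (nat_lit 5) (nat_lit 2) (nat_lit 4) (nat_lit 356) (nat_lit 217) (nat_lit 207)) (XT.lf (nat_lit 0) (nat_lit 10783449600) (nat_lit 76) (nat_lit 60814754437) (nat_lit 76) (nat_lit 59663975734) (nat_lit 1) (nat_lit 4) (nat_lit 2) (nat_lit 5) (nat_lit 2) (nat_lit 4) (nat_lit 357) (nat_lit 217) (nat_lit 206))))) (XT.nd (nat_lit 156) (nat_lit 0) (nat_lit 0) (XT.nd (nat_lit 78) (nat_lit 0) (nat_lit 0) (XT.lf (nat_lit 0) (nat_lit 15455229542) (nat_lit 76) (nat_lit 61744612452) (nat_lit 76) (nat_lit 60516688951) (nat_lit 1) (nat_lit 4) (nat_lit 2) (nat_lit 5) (nat_lit 2) (nat_lit 4) (nat_lit 358) (nat_lit 217) (nat_lit 205)) (XT.lf (nat_lit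 0) (nat_lit 20255700853) (nat_lit 76) (nat_lit 62771027076) (nat_lit 76) (nat_lit 61469632339) (nat_lit 1) (nat_lit 4) (nat_lit 2) (nat_lit 5) (nat_lit 2) (nat_lit 4) (nat_lit 359) (nat_lit 217) (nat_lit 204))) (XT.nd (nat_lit 78) (nat_lit 0) (nat_lit 0) (XT.lf (nat_lit 0) (nat_lit 25196293228) (nat_lit 76) (nat_lit 63896442153) (nat_lit 76) (nat_lit 62525074811) (nat_lit 1) (nat_lit 4) (nat_lit 2) (nat_lit 5) (nat_lit 2) (nat_lit 4) (nat_lit 360) (nat_lit 217) (nat_lit 203)) (XT.nd (nat_lit 78) (nat_lit 0) (nat_lit 0) (XT.lf (nat_lit 0) (nat_lit 30288769981) (nat_lit 76) (nat_lit 65123537243) (nat_lit 76) (nat_lit 63685529324) (nat_lit 1) (nat_lit 4) (nat_lit 2) (nat_lit 5) (nat_lit 2) (nat_lit 4) (nat_lit 361) (nat_lit 217) (nat_lit 202)) (XT.lf (nat_lit 0) (nat_lit 35545256057) (nat_lit 76) (nat_lit 66455234001) (nat_lit 76) (nat_lit 64953758867) (nat_lit 1) (nat_lit 4) (nat_lit 2)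 (nat_lit 5) (nat_lit 2) (nat_lit 4) (nat_lit 362) (nat_lit 217) (nat_lit 201))))))))
noncomputable def xc13 : XT := (XT.nd (nat_lit 1560) (nat_lit 0) (nat_lit 0) (XT.nd (nat_lit 780) (nat_lit 0) (nat_lit 0) (XT.nd (nat_lit 390) (nat_lit 0) (nat_lit 0) (XT.nd (nat_lit 156) (nat_lit 0) (nat_lit 0) (XT.nd (nat_lit 78) (nat_lit 0) (nat_lit 0) (XT.lf (nat_lit 0) (nat_lit 40978266899) (nat_lit 76) (nat_lit 67894703133) (nat_lit 76) (nat_lit 66332783032) (nat_lit 1) (nat_lit 4) (nat_lit 2) (nat_lit 5) (nat_lit 2) (nat_lit 4) (nat_lit 363) (nat_lit 217) (nat_lit 200)) (XT.lf (nat_lit 0) (nat_lit 46600738247) (nat_lit 76) (nat_lit 69445371948) (nat_lit 76) (nat_lit 67825885211) (nat_lit 1) (nat_lit 4) (nat_lit 2) (nat_lit 5) (nat_lit 2) (nat_lit 4) (nat_lit 364) (nat_lit 217) (nat_lit 199))) (XT.nd (nat_lit 78) (nat_lit 0) (nat_lit 0) (XT.lf (nat_lit 0) (nat_lit 52426056937) (nat_lit 76) (nat_lit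 71110932513) (nat_lit 76) (nat_lit 69436620408) (nat_lit 1) (nat_lit 4) (nat_lit 2) (nat_lit 5) (nat_lit 2) (nat_lit 4) (nat_lit 365) (nat_lit 217) (nat_lit 198)) (XT.nd (nat_lit 78) (nat_lit 0) (nat_lit 0) (XT.lf (nat_lit 0) (nat_lit 58468092777) (nat_lit 76) (nat_lit 72895350449) (nat_lit 76) (nat_lit 71168823709) (nat_lit 1) (nat_lit 4) (nat_lit 2) (nat_lit 5) (nat_lit 2) (nat_lit 4) (nat_lit 366) (nat_lit 217) (nat_lit 197)) (XT.lf (nat_lit 0) (nat_lit 64741231565) (nat_lit 76) (nat_lit 74802874370) (nat_lit 76) (nat_lit 73026619406) (nat_lit 1) (nat_lit 4) (nat_lit 2) (nat_lit 5) (nat_lit 2) (nat_lit 4) (nat_lit 367) (nat_lit 217) (nat_lit 196))))) (XT.nd (nat_lit 156) (nat_lit 0) (nat_lit 0) (XT.nd (nat_lit 78) (nat_lit 0) (nat_lit 0) (XT.lf (nat_lit 0) (nat_lit 71260409347) (nat_lit 76) (nat_lit 76838046000) (nat_lit 76) (nat_lit 75014430822) (nat_lit 1) (nat_lit 4) (nat_lit 2)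 (nat_lit 5) (nat_lit 2) (nat_lit 4) (nat_lit 368) (nat_lit 217) (nat_lit 195)) (XT.lf (nat_lit 0) (nat_lit 78041147974) (nat_lit 76) (nat_lit 79005710985) (nat_lit 76) (nat_lit 77136990842) (nat_lit 1) (nat_lit 4) (nat_lit 2) (nat_lit 5) (nat_lit 2) (nat_lit 4) (nat_lit 369) (nat_lit 217) (nat_lit 194))) (XT.nd (nat_lit 78) (nat_lit 0) (nat_lit 0) (XT.lf (nat_lit 0) (nat_lit 85099592061) (nat_lit 76) (nat_lit 81311030433) (nat_lit 76) (nat_lit 79399353180) (nat_lit 1) (nat_lit 4) (nat_lit 2) (nat_lit 5) (nat_lit 2) (nat_lit 4) (nat_lit 370) (nat_lit 217) (nat_lit 193)) (XT.nd (nat_lit 78) (nat_lit 0) (nat_lit 0) (XT.lf (nat_lit 0) (nat_lit 92452547430) (nat_lit 76) (nat_lit 83759493200) (nat_lit 76) (nat_lit 81806904414) (nat_lit 1) (nat_lit 4) (nat_lit 2) (nat_lit 5) (nat_lit 2) (nat_lit 4) (nat_lit 371) (nat_lit 217) (nat_lit 192)) (XT.lf (nat_lit 0) (nat_lit 100117521115) (nat_lit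 76) (nat_lit 86356928958) (nat_lit 76) (nat_lit 84365376807) (nat_lit 1) (nat_lit 4) (nat_lit 2) (nat_lit 5) (nat_lit 2) (nat_lit 4) (nat_lit 372) (nat_lit 217) (nat_lit 191)))))) (XT.nd (nat_lit 390) (nat_lit 0) (nat_lit 0) (XT.nd (nat_lit 156) (nat_lit 0) (nat_lit 0) (XT.nd (nat_lit 78) (nat_lit 0) (nat_lit 0) (XT.lf (nat_lit 0) (nat_lit 108112763054) (nat_lit 76) (nat_lit 89109522078) (nat_lit 76) (nat_lit 87080861961) (nat_lit 1) (nat_lit 4) (nat_lit 2) (nat_lit 5) (nat_lit 2) (nat_lit 4) (nat_lit 373) (nat_lit 217) (nat_lit 190)) (XT.lf (nat_lit 0) (nat_lit 116457309538) (nat_lit 76) (nat_lit 92023826354) (nat_lit 76) (nat_lit 89959825316) (nat_lit 1) (nat_lit 4) (nat_lit 2) (nat_lit 5) (nat_lit 2) (nat_lit 4) (nat_lit 374) (nat_lit 217) (nat_lit 189))) (XT.nd (nat_lit 78) (nat_lit 0) (nat_lit 0) (XT.lf (nat_lit 0) (nat_lit 125171028534) (nat_lit 76) (nat_lit 95106780606) (nat_lit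 76) (nat_lit 93009121548) (nat_lit 1) (nat_lit 4) (nat_lit 2) (nat_lit 5) (nat_lit 2) (nat_lit 4) (nat_lit 375) (nat_lit 217) (nat_lit 188)) (XT.nd (nat_lit 78) (nat_lit 0) (nat_lit 0) (XT.lf (nat_lit 0) (nat_lit 134274666992) (nat_lit 76) (nat_lit 98365725200) (nat_lit 76) (nat_lit 96236010886) (nat_lit 1) (nat_lit 4) (nat_lit 2) (nat_lit 5) (nat_lit 2) (nat_lit 4) (nat_lit 376) (nat_lit 217) (nat_lit 187)) (XT.lf (nat_lit 0) (nat_lit 143789900243) (nat_lit 76) (nat_lit 101808419529) (nat_lit 76) (nat_lit 99648176398) (nat_lit 1) (nat_lit 4) (nat_lit 2) (nat_lit 5) (nat_lit 2) (nat_lit 4) (nat_lit 377) (nat_lit 217) (nat_lit 186))))) (XT.nd (nat_lit 156) (nat_lit 0) (nat_lit 0) (XT.nd (nat_lit 78) (nat_lit 0) (nat_lit 0) (XT.lf (nat_lit 0) (nat_lit 153739383603) (nat_lit 76) (nat_lit 105443060483) (nat_lit 76) (nat_lit 103253742290) (nat_lit 1) (nat_lit 4) (nat_lit 2) (nat_lit 5) (nat_lit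 2) (nat_lit 4) (nat_lit 378) (nat_lit 217) (nat_lit 185)) (XT.lf (nat_lit 0) (nat_lit 164146806318) (nat_lit 76) (nat_lit 109278301971) (nat_lit 76) (nat_lit 107061293242) (nat_lit 1) (nat_lit 4) (nat_lit 2) (nat_lit 5) (nat_lit 2) (nat_lit 4) (nat_lit 379) (nat_lit 217) (nat_lit 184))) (XT.nd (nat_lit 78) (nat_lit 0) (nat_lit 0) (XT.lf (nat_lit 0) (nat_lit 175036947967) (nat_lit 76) (nat_lit 113323275518) (nat_lit 76) (nat_lit 111079894850) (nat_lit 1) (nat_lit 4) (nat_lit 2) (nat_lit 5) (nat_lit 2) (nat_lit 4) (nat_lit 380) (nat_lit 217) (nat_lit 183)) (XT.nd (nat_lit 78) (nat_lit 0) (nat_lit 0) (XT.lf (nat_lit 0) (nat_lit 186435737457) (nat_lit 76) (nat_lit 117587612015) (nat_lit 76) (nat_lit 115319115215) (nat_lit 1) (nat_lit 4) (nat_lit 2) (nat_lit 5) (nat_lit 2) (nat_lit 4) (nat_lit 381) (nat_lit 217) (nat_lit 182)) (XT.lf (nat_lit 0) (nat_lit 198370314764) (nat_lit 76) (nat_lit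 122081464644) (nat_lit 76) (nat_lit 119789047717) (nat_lit 1) (nat_lit 4) (nat_lit 2) (nat_lit 5) (nat_lit 2) (nat_lit 4) (nat_lit 382) (nat_lit 217) (nat_lit 181))))))) (XT.nd (nat_lit 37674) (nat_lit 0) (nat_lit 76) (XT.nd (nat_lit 390) (nat_lit 0) (nat_lit 0) (XT.nd (nat_lit 156) (nat_lit 0) (nat_lit 0) (XT.nd (nat_lit 78) (nat_lit 0) (nat_lit 0) (XT.lf (nat_lit 0) (nat_lit 210869095549) (nat_lit 76) (nat_lit 126815533054) (nat_lit 76) (nat_lit 124500335054) (nat_lit 1) (nat_lit 4) (nat_lit 2) (nat_lit 5) (nat_lit 2) (nat_lit 4) (nat_lit 383) (nat_lit 217) (nat_lit 180)) (XT.lf (nat_lit 0) (nat_lit 223961838813) (nat_lit 76) (nat_lit 131801088836) (nat_lit 76) (nat_lit 129464194577) (nat_lit 1) (nat_lit 4) (nat_lit 2) (nat_lit 5) (nat_lit 2) (nat_lit 4) (nat_lit 384) (nat_lit 217) (nat_lit 179))) (XT.nd (nat_lit 78) (nat_lit 0) (nat_lit 0) (XT.lf (nat_lit 0) (nat_lit 237679717754)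 (nat_lit 76) (nat_lit 137050002361) (nat_lit 76) (nat_lit 134692444997) (nat_lit 1) (nat_lit 4) (nat_lit 2) (nat_lit 5) (nat_lit 2) (nat_lit 4) (nat_lit 385) (nat_lit 217) (nat_lit 178)) (XT.nd (nat_lit 78) (nat_lit 0) (nat_lit 0) (XT.lf (nat_lit 0) (nat_lit 252055393988) (nat_lit 76) (nat_lit 142574771042) (nat_lit 76) (nat_lit 140197534532) (nat_lit 1) (nat_lit 4) (nat_lit 2) (nat_lit 5) (nat_lit 2) (nat_lit 4) (nat_lit 386) (nat_lit 217) (nat_lit 177)) (XT.lf (nat_lit 0) (nat_lit 267123095318) (nat_lit 76) (nat_lit 148388549091) (nat_lit 76) (nat_lit 145992570536) (nat_lit 1) (nat_lit 4) (nat_lit 2) (nat_lit 5) (nat_lit 2) (nat_lit 4) (nat_lit 387) (nat_lit 217) (nat_lit 176))))) (XT.nd (nat_lit 156) (nat_lit 0) (nat_lit 0) (XT.nd (nat_lit 78) (nat_lit 0) (nat_lit 0) (XT.lf (nat_lit 0) (nat_lit 282918697220) (nat_lit 76) (nat_lit 154505178836) (nat_lit 76) (nat_lit 152091350715) (nat_lit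 1) (nat_lit 4) (nat_lit 2) (nat_lit 5) (nat_lit 2) (nat_lit 4) (nat_lit 388) (nat_lit 217) (nat_lit 175)) (XT.lf (nat_lit 0) (nat_lit 299479808273) (nat_lit 76) (nat_lit 160939223681) (nat_lit 76) (nat_lit 158508395973) (nat_lit 1) (nat_lit 4) (nat_lit 2) (nat_lit 5) (nat_lit 2) (nat_lit 4) (nat_lit 389) (nat_lit 217) (nat_lit 174))) (XT.nd (nat_lit 78) (nat_lit 0) (nat_lit 0) (XT.lf (nat_lit 0) (nat_lit 316845859692) (nat_lit 76) (nat_lit 167706002781) (nat_lit 76) (nat_lit 165258984990) (nat_lit 1) (nat_lit 4) (nat_lit 2) (nat_lit 5) (nat_lit 2) (nat_lit 4) (nat_lit 390) (nat_lit 217) (nat_lit 173)) (XT.nd (nat_lit 36972) (nat_lit 0) (nat_lit 76) (XT.lf (nat_lit 0) (nat_lit 335058199219) (nat_lit 76) (nat_lit 174821627515) (nat_lit 76) (nat_lit 172359190597) (nat_lit 1) (nat_lit 4) (nat_lit 2) (nat_lit 5) (nat_lit 2) (nat_lit 4) (nat_lit 391) (nat_lit 217) (nat_lit 172)) (XT.lf (nat_lit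 0) (nat_lit 7333456476) (nat_lit 152) (nat_lit 20761610585) (nat_lit 0) (nat_lit 7333456476) (nat_lit 2) (nat_lit 5) (nat_lit 4) (nat_lit 4) (nat_lit 2) (nat_lit 4) (nat_lit 344) (nat_lit 218) (nat_lit 218)))))) (XT.nd (nat_lit 390) (nat_lit 0) (nat_lit 0) (XT.nd (nat_lit 156) (nat_lit 0) (nat_lit 0) (XT.nd (nat_lit 78) (nat_lit 0) (nat_lit 0) (XT.lf (nat_lit 0) (nat_lit 18288535831) (nat_lit 152) (nat_lit 37808603935) (nat_lit 0) (nat_lit 18149994859) (nat_lit 2) (nat_lit 5) (nat_lit 4) (nat_lit 4) (nat_lit 2) (nat_lit 4) (nat_lit 345) (nat_lit 218) (nat_lit 217)) (XT.lf (nat_lit 0) (nat_lit 21995707170) (nat_lit 152) (nat_lit 34090607534) (nat_lit 0) (nat_lit 21725222414) (nat_lit 2) (nat_lit 5) (nat_lit 4) (nat_lit 4) (nat_lit 2) (nat_lit 4) (nat_lit 346) (nat_lit 218) (nat_lit 216))) (XT.nd (nat_lit 78) (nat_lit 0) (nat_lit 0) (XT.lf (nat_lit 0) (nat_lit 25797253566) (nat_lit 152)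 (nat_lit 30360379598) (nat_lit 0) (nat_lit 25401108064) (nat_lit 2) (nat_lit 5) (nat_lit 4) (nat_lit 4) (nat_lit 2) (nat_lit 4) (nat_lit 347) (nat_lit 218) (nat_lit 215)) (XT.nd (nat_lit 78) (nat_lit 0) (nat_lit 0) (XT.lf (nat_lit 0) (nat_lit 29702226321) (nat_lit 152) (nat_lit 26609038629) (nat_lit 0) (nat_lit 29186403918) (nat_lit 2) (nat_lit 5) (nat_lit 4) (nat_lit 4) (nat_lit 2) (nat_lit 4) (nat_lit 348) (nat_lit 218) (nat_lit 214)) (XT.lf (nat_lit 0) (nat_lit 33719922989) (nat_lit 152) (nat_lit 22827652864) (nat_lit 0) (nat_lit 33090122585) (nat_lit 2) (nat_lit 5) (nat_lit 4) (nat_lit 4) (nat_lit 2) (nat_lit 4) (nat_lit 349) (nat_lit 218) (nat_lit 213))))) (XT.nd (nat_lit 156) (nat_lit 0) (nat_lit 0) (XT.nd (nat_lit 78) (nat_lit 0) (nat_lit 0) (XT.lf (nat_lit 0) (nat_lit 37859909514) (nat_lit 152) (nat_lit 19007219004) (nat_lit 0) (nat_lit 37121558634) (nat_lit 2) (nat_lit 5) (nat_lit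 4) (nat_lit 4) (nat_lit 2) (nat_lit 4) (nat_lit 350) (nat_lit 218) (nat_lit 212)) (XT.lf (nat_lit 0) (nat_lit 42132043008) (nat_lit 152) (nat_lit 15138640778) (nat_lit 0) (nat_lit 41290310720) (nat_lit 2) (nat_lit 5) (nat_lit 4) (nat_lit 4) (nat_lit 2) (nat_lit 4) (nat_lit 351) (nat_lit 218) (nat_lit 211))) (XT.nd (nat_lit 78) (nat_lit 0) (nat_lit 0) (XT.lf (nat_lit 0) (nat_lit 46546495216) (nat_lit 152) (nat_lit 11212707284) (nat_lit 0) (nat_lit 45606304446) (nat_lit 2) (nat_lit 5) (nat_lit 4) (nat_lit 4) (nat_lit 2) (nat_lit 4) (nat_lit 352) (nat_lit 218) (nat_lit 210)) (XT.nd (nat_lit 78) (nat_lit 0) (nat_lit 0) (XT.lf (nat_lit 0) (nat_lit 51113776739) (nat_lit 152) (nat_lit 7220071062) (nat_lit 0) (nat_lit 50079815985) (nat_lit 2) (nat_lit 5) (nat_lit 4) (nat_lit 4) (nat_lit 2) (nat_lit 4) (nat_lit 353) (nat_lit 218) (nat_lit 209)) (XT.lf (nat_lit 0) (nat_lit 55844762057) (nat_lit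 152) (nat_lit 3151225836) (nat_lit 0) (nat_lit 54721496557) (nat_lit 2) (nat_lit 5) (nat_lit 4) (nat_lit 4) (nat_lit 2) (nat_lit 4) (nat_lit 354) (nat_lit 218) (nat_lit 208))))))))
noncomputable def xc14 : XT := (XT.nd (nat_lit 1560) (nat_lit 0) (nat_lit 0) (XT.nd (nat_lit 780) (nat_lit 0) (nat_lit 0) (XT.nd (nat_lit 390) (nat_lit 0) (nat_lit 0) (XT.nd (nat_lit 156) (nat_lit 0) (nat_lit 0) (XT.nd (nat_lit 78) (nat_lit 0) (nat_lit 0) (XT.lf (nat_lit 0) (nat_lit 1036696895) (nat_lit 76) (nat_lit 59730204268) (nat_lit 76) (nat_lit 58521886629) (nat_lit 1) (nat_lit 4) (nat_lit 2) (nat_lit 5) (nat_lit 2) (nat_lit 4) (nat_lit 355) (nat_lit 218) (nat_lit 207)) (XT.lf (nat_lit 0) (nat_lit 5427769575) (nat_lit 76) (nat_lit 60500290789) (nat_lit 76) (nat_lit 59210971113) (nat_lit 1) (nat_lit 4) (nat_lit 2) (nat_lit 5) (nat_lit 2) (nat_lit 4) (nat_lit 356) (nat_lit 218) (nat_lit 206))) (XT.nd (nat_lit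 78) (nat_lit 0) (nat_lit 0) (XT.lf (nat_lit 0) (nat_lit 9928253380) (nat_lit 76) (nat_lit 61361448530) (nat_lit 76) (nat_lit 59994984056) (nat_lit 1) (nat_lit 4) (nat_lit 2) (nat_lit 5) (nat_lit 2) (nat_lit 4) (nat_lit 357) (nat_lit 218) (nat_lit 205)) (XT.nd (nat_lit 78) (nat_lit 0) (nat_lit 0) (XT.lf (nat_lit 0) (nat_lit 14548863748) (nat_lit 76) (nat_lit 62315727866) (nat_lit 76) (nat_lit 60875792157) (nat_lit 1) (nat_lit 4) (nat_lit 2) (nat_lit 5) (nat_lit 2) (nat_lit 4) (nat_lit 358) (nat_lit 218) (nat_lit 204)) (XT.lf (nat_lit 0) (nat_lit 19300602131) (nat_lit 76) (nat_lit 63365400890) (nat_lit 76) (nat_lit 61855492576) (nat_lit 1) (nat_lit 4) (nat_lit 2) (nat_lit 5) (nat_lit 2) (nat_lit 4) (nat_lit 359) (nat_lit 218) (nat_lit 203))))) (XT.nd (nat_lit 156) (nat_lit 0) (nat_lit 0) (XT.nd (nat_lit 78) (nat_lit 0) (nat_lit 0) (XT.lf (nat_lit 0) (nat_lit 24194782193) (nat_lit 76) (nat_lit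 64512966826) (nat_lit 76) (nat_lit 62936417935) (nat_lit 1) (nat_lit 4) (nat_lit 2) (nat_lit 5) (nat_lit 2) (nat_lit 4) (nat_lit 360) (nat_lit 218) (nat_lit 202)) (XT.lf (nat_lit 0) (nat_lit 29243056744) (nat_lit 76) (nat_lit 65761157971) (nat_lit 76) (nat_lit 64121141864) (nat_lit 1) (nat_lit 4) (nat_lit 2) (nat_lit 5) (nat_lit 2) (nat_lit 4) (nat_lit 361) (nat_lit 218) (nat_lit 201))) (XT.nd (nat_lit 78) (nat_lit 0) (nat_lit 0) (XT.lf (nat_lit 0) (nat_lit 34457445484) (nat_lit 76) (nat_lit 67112946210) (nat_lit 76) (nat_lit 65412485136) (nat_lit 1) (nat_lit 4) (nat_lit 2) (nat_lit 5) (nat_lit 2) (nat_lit 4) (nat_lit 362) (nat_lit 218) (nat_lit 200)) (XT.nd (nat_lit 78) (nat_lit 0) (nat_lit 0) (XT.lf (nat_lit 0) (nat_lit 39850363626) (nat_lit 76) (nat_lit 68571550087) (nat_lit 76) (nat_lit 66813522377) (nat_lit 1) (nat_lit 4) (nat_lit 2) (nat_lit 5) (nat_lit 2) (nat_lit 4) (nat_lit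 363) (nat_lit 218) (nat_lit 199)) (XT.lf (nat_lit 0) (nat_lit 45434651449) (nat_lit 76) (nat_lit 70140442467) (nat_lit 76) (nat_lit 68327589390) (nat_lit 1) (nat_lit 4) (nat_lit 2) (nat_lit 5) (nat_lit 2) (nat_lit 4) (nat_lit 364) (nat_lit 218) (nat_lit 198)))))) (XT.nd (nat_lit 390) (nat_lit 0) (nat_lit 0) (XT.nd (nat_lit 156) (nat_lit 0) (nat_lit 0) (XT.nd (nat_lit 78) (nat_lit 0) (nat_lit 0) (XT.lf (nat_lit 0) (nat_lit 51223604879) (nat_lit 76) (nat_lit 71823358809) (nat_lit 76) (nat_lit 69958291097) (nat_lit 1) (nat_lit 4) (nat_lit 2) (nat_lit 5) (nat_lit 2) (nat_lit 4) (nat_lit 365) (nat_lit 218) (nat_lit 197)) (XT.lf (nat_lit 0) (nat_lit 57231007136) (nat_lit 76) (nat_lit 73624306056) (nat_lit 76) (nat_lit 71709510120) (nat_lit 1) (nat_lit 4) (nat_lit 2) (nat_lit 5) (nat_lit 2) (nat_lit 4) (nat_lit 366) (nat_lit 218) (nat_lit 196))) (XT.nd (nat_lit 78) (nat_lit 0) (nat_lit 0) (XT.lf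 (nat_lit 0) (nat_lit 63471161561) (nat_lit 76) (nat_lit 75547572179) (nat_lit 76) (nat_lit 73585416029) (nat_lit 1) (nat_lit 4) (nat_lit 2) (nat_lit 5) (nat_lit 2) (nat_lit 4) (nat_lit 367) (nat_lit 218) (nat_lit 195)) (XT.nd (nat_lit 78) (nat_lit 0) (nat_lit 0) (XT.lf (nat_lit 0) (nat_lit 69958925662) (nat_lit 76) (nat_lit 77597736381) (nat_lit 76) (nat_lit 75590475266) (nat_lit 1) (nat_lit 4) (nat_lit 2) (nat_lit 5) (nat_lit 2) (nat_lit 4) (nat_lit 368) (nat_lit 218) (nat_lit 194)) (XT.lf (nat_lit 0) (nat_lit 76709746499) (nat_lit 76) (nat_lit 79779680008) (nat_lit 76) (nat_lit 77729461782) (nat_lit 1) (nat_lit 4) (nat_lit 2) (nat_lit 5) (nat_lit 2) (nat_lit 4) (nat_lit 369) (nat_lit 218) (nat_lit 193))))) (XT.nd (nat_lit 156) (nat_lit 0) (nat_lit 0) (XT.nd (nat_lit 78) (nat_lit 0) (nat_lit 0) (XT.lf (nat_lit 0) (nat_lit 83739697453) (nat_lit 76) (nat_lit 82098598161) (nat_lit 76)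 (nat_lit 80007468402) (nat_lit 1) (nat_lit 4) (nat_lit 2) (nat_lit 5) (nat_lit 2) (nat_lit 4) (nat_lit 370) (nat_lit 218) (nat_lit 192)) (XT.lf (nat_lit 0) (nat_lit 91065516503) (nat_lit 76) (nat_lit 84560012075) (nat_lit 76) (nat_lit 82429918952) (nat_lit 1) (nat_lit 4) (nat_lit 2) (nat_lit 5) (nat_lit 2) (nat_lit 4) (nat_lit 371) (nat_lit 218) (nat_lit 191))) (XT.nd (nat_lit 78) (nat_lit 0) (nat_lit 0) (XT.lf (nat_lit 0) (nat_lit 98704646076) (nat_lit 76) (nat_lit 87169782260) (nat_lit 76) (nat_lit 85002581170) (nat_lit 1) (nat_lit 4) (nat_lit 2) (nat_lit 5) (nat_lit 2) (nat_lit 4) (nat_lit 372) (nat_lit 218) (nat_lit 190)) (XT.nd (nat_lit 78) (nat_lit 0) (nat_lit 0) (XT.lf (nat_lit 0) (nat_lit 106675274575) (nat_lit 76) (nat_lit 89934122453) (nat_lit 76) (nat_lit 87731580443) (nat_lit 1) (nat_lit 4) (nat_lit 2) (nat_lit 5) (nat_lit 2) (nat_lit 4) (nat_lit 373) (nat_lit 218) (nat_lit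 189)) (XT.lf (nat_lit 0) (nat_lit 114996379687) (nat_lit 76) (nat_lit 92859614418) (nat_lit 76) (nat_lit 90623414388) (nat_lit 1) (nat_lit 4) (nat_lit 2) (nat_lit 5) (nat_lit 2) (nat_lit 4) (nat_lit 374) (nat_lit 218) (nat_lit 188))))))) (XT.nd (nat_lit 780) (nat_lit 0) (nat_lit 0) (XT.nd (nat_lit 390) (nat_lit 0) (nat_lit 0) (XT.nd (nat_lit 156) (nat_lit 0) (nat_lit 0) (XT.nd (nat_lit 78) (nat_lit 0) (nat_lit 0) (XT.lf (nat_lit 0) (nat_lit 123687773568) (nat_lit 76) (nat_lit 95953223611) (nat_lit 76) (nat_lit 93684968324) (nat_lit 1) (nat_lit 4) (nat_lit 2) (nat_lit 5) (nat_lit 2) (nat_lit 4) (nat_lit 375) (nat_lit 218) (nat_lit 187)) (XT.lf (nat_lit 0) (nat_lit 132770150011) (nat_lit 76) (nat_lit 99222315769) (nat_lit 76) (nat_lit 96923531666) (nat_lit 1) (nat_lit 4) (nat_lit 2) (nat_lit 5) (nat_lit 2) (nat_lit 4) (nat_lit 376) (nat_lit 218) (nat_lit 186))) (XT.nd (nat_lit 78) (nat_lit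 0) (nat_lit 0) (XT.lf (nat_lit 0) (nat_lit 142265133724) (nat_lit 76) (nat_lit 102674674444) (nat_lit 76) (nat_lit 100346815278) (nat_lit 1) (nat_lit 4) (nat_lit 2) (nat_lit 5) (nat_lit 2) (nat_lit 4) (nat_lit 377) (nat_lit 218) (nat_lit 185)) (XT.nd (nat_lit 78) (nat_lit 0) (nat_lit 0) (XT.lf (nat_lit 0) (nat_lit 152195331809) (nat_lit 76) (nat_lit 106318519537) (nat_lit 76) (nat_lit 103962969835) (nat_lit 1) (nat_lit 4) (nat_lit 2) (nat_lit 5) (nat_lit 2) (nat_lit 4) (nat_lit 378) (nat_lit 218) (nat_lit 184)) (XT.lf (nat_lit 0) (nat_lit 162584387596) (nat_lit 76) (nat_lit 110162526871) (nat_lit 76) (nat_lit 107780605230) (nat_lit 1) (nat_lit 4) (nat_lit 2) (nat_lit 5) (nat_lit 2) (nat_lit 4) (nat_lit 379) (nat_lit 218) (nat_lit 183))))) (XT.nd (nat_lit 156) (nat_lit 0) (nat_lit 0) (XT.nd (nat_lit 78) (nat_lit 0) (nat_lit 0) (XT.lf (nat_lit 0) (nat_lit 173457036932) (nat_lit 76) (nat_lit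 114215848844) (nat_lit 76) (nat_lit 111808811071) (nat_lit 1) (nat_lit 4) (nat_lit 2) (nat_lit 5) (nat_lit 2) (nat_lit 4) (nat_lit 380) (nat_lit 218) (nat_lit 182)) (XT.lf (nat_lit 0) (nat_lit 184839167078) (nat_lit 76) (nat_lit 118488136223) (nat_lit 76) (nat_lit 116057178323) (nat_lit 1) (nat_lit 4) (nat_lit 2) (nat_lit 5) (nat_lit 2) (nat_lit 4) (nat_lit 381) (nat_lit 218) (nat_lit 181))) (XT.nd (nat_lit 78) (nat_lit 0) (nat_lit 0) (XT.lf (nat_lit 0) (nat_lit 196757878342) (nat_lit 76) (nat_lit 122989561119) (nat_lit 76) (nat_lit 120535822148) (nat_lit 1) (nat_lit 4) (nat_lit 2) (nat_lit 5) (nat_lit 2) (nat_lit 4) (nat_lit 382) (nat_lit 218) (nat_lit 180)) (XT.nd (nat_lit 78) (nat_lit 0) (nat_lit 0) (XT.lf (nat_lit 0) (nat_lit 209241548609) (nat_lit 76) (nat_lit 127730841213) (nat_lit 76) (nat_lit 125255405981) (nat_lit 1) (nat_lit 4) (nat_lit 2) (nat_lit 5) (nat_lit 2) (nat_lit 4)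 (nat_lit 383) (nat_lit 218) (nat_lit 179)) (XT.lf (nat_lit 0) (nat_lit 222319900904) (nat_lit 76) (nat_lit 132723265265) (nat_lit 76) (nat_lit 130227166929) (nat_lit 1) (nat_lit 4) (nat_lit 2) (nat_lit 5) (nat_lit 2) (nat_lit 4) (nat_lit 384) (nat_lit 218) (nat_lit 178)))))) (XT.nd (nat_lit 390) (nat_lit 0) (nat_lit 0) (XT.nd (nat_lit 156) (nat_lit 0) (nat_lit 0) (XT.nd (nat_lit 78) (nat_lit 0) (nat_lit 0) (XT.lf (nat_lit 0) (nat_lit 236024074161) (nat_lit 76) (nat_lit 137978720000) (nat_lit 76) (nat_lit 135462942517) (nat_lit 1) (nat_lit 4) (nat_lit 2) (nat_lit 5) (nat_lit 2) (nat_lit 4) (nat_lit 385) (nat_lit 218) (nat_lit 177)) (XT.lf (nat_lit 0) (nat_lit 250386697363) (nat_lit 76) (nat_lit 143509718405) (nat_lit 76) (nat_lit 140975198877) (nat_lit 1) (nat_lit 4) (nat_lit 2) (nat_lit 5) (nat_lit 2) (nat_lit 4) (nat_lit 386) (nat_lit 218) (nat_lit 176))) (XT.nd (nat_lit 78) (nat_lit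 0) (nat_lit 0) (XT.lf (nat_lit 0) (nat_lit 265441967232) (nat_lit 76) (nat_lit 149329429524) (nat_lit 76) (nat_lit 146777060430) (nat_lit 1) (nat_lit 4) (nat_lit 2) (nat_lit 5) (nat_lit 2) (nat_lit 4) (nat_lit 387) (nat_lit 218) (nat_lit 175)) (XT.nd (nat_lit 78) (nat_lit 0) (nat_lit 0) (XT.lf (nat_lit 0) (nat_lit 281225729649) (nat_lit 76) (nat_lit 155451709812) (nat_lit 76) (nat_lit 152882341131) (nat_lit 1) (nat_lit 4) (nat_lit 2) (nat_lit 5) (nat_lit 2) (nat_lit 4) (nat_lit 388) (nat_lit 218) (nat_lit 174)) (XT.lf (nat_lit 0) (nat_lit 297775565001) (nat_lit 76) (nat_lit 161891136126) (nat_lit 76) (nat_lit 159305577363) (nat_lit 1) (nat_lit 4) (nat_lit 2) (nat_lit 5) (nat_lit 2) (nat_lit 4) (nat_lit 389) (nat_lit 218) (nat_lit 173))))) (XT.nd (nat_lit 36894) (nat_lit 0) (nat_lit 76) (XT.nd (nat_lit 78) (nat_lit 0) (nat_lit 0) (XT.lf (nat_lit 0) (nat_lit 315130877658) (nat_lit 76)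 (nat_lit 168663040436) (nat_lit 76) (nat_lit 166062062545) (nat_lit 1) (nat_lit 4) (nat_lit 2) (nat_lit 5) (nat_lit 2) (nat_lit 4) (nat_lit 390) (nat_lit 218) (nat_lit 172)) (XT.lf (nat_lit 0) (nat_lit 333332989792) (nat_lit 76) (nat_lit 175783546321) (nat_lit 76) (nat_lit 173167883548) (nat_lit 1) (nat_lit 4) (nat_lit 2) (nat_lit 5) (nat_lit 2) (nat_lit 4) (nat_lit 391) (nat_lit 218) (nat_lit 171))) (XT.nd (nat_lit 78) (nat_lit 0) (nat_lit 0) (XT.lf (nat_lit 0) (nat_lit 3921425023) (nat_lit 152) (nat_lit 24439819418) (nat_lit 0) (nat_lit 3921425023) (nat_lit 2) (nat_lit 5) (nat_lit 4) (nat_lit 4) (nat_lit 2) (nat_lit 4) (nat_lit 342) (nat_lit 219) (nat_lit 219)) (XT.nd (nat_lit 78) (nat_lit 0) (nat_lit 0) (XT.lf (nat_lit 0) (nat_lit 11267683641) (nat_lit 152) (nat_lit 45243303568) (nat_lit 0) (nat_lit 11122215620) (nat_lit 2) (nat_lit 5) (nat_lit 4) (nat_lit 4) (nat_lit 2) (nat_lit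 4) (nat_lit 343) (nat_lit 219) (nat_lit 218)) (XT.lf (nat_lit 0) (nat_lit 14763449598) (nat_lit 152) (nat_lit 41616620820) (nat_lit 0) (nat_lit 14479440604) (nat_lit 2) (nat_lit 5) (nat_lit 4) (nat_lit 4) (nat_lit 2) (nat_lit 4) (nat_lit 344) (nat_lit 219) (nat_lit 217))))))))
noncomputable def xc15 : XT := (XT.nd (nat_lit 1560) (nat_lit 0) (nat_lit 0) (XT.nd (nat_lit 780) (nat_lit 76) (nat_lit 0) (XT.nd (nat_lit 390) (nat_lit 0) (nat_lit 0) (XT.nd (nat_lit 156) (nat_lit 0) (nat_lit 0) (XT.nd (nat_lit 78) (nat_lit 0) (nat_lit 0) (XT.lf (nat_lit 0) (nat_lit 18338471167) (nat_lit 152) (nat_lit 37990955632) (nat_lit 0) (nat_lit 17922518391) (nat_lit 2) (nat_lit 5) (nat_lit 4) (nat_lit 4) (nat_lit 2) (nat_lit 4) (nat_lit 345) (nat_lit 219) (nat_lit 216)) (XT.lf (nat_lit 0) (nat_lit 22001260306) (nat_lit 152) (nat_lit 34357675468) (nat_lit 0) (nat_lit 21459646784) (nat_lit 2) (nat_lit 5)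 (nat_lit 4) (nat_lit 4) (nat_lit 2) (nat_lit 4) (nat_lit 346) (nat_lit 219) (nat_lit 215))) (XT.nd (nat_lit 78) (nat_lit 0) (nat_lit 0) (XT.lf (nat_lit 0) (nat_lit 25760537941) (nat_lit 152) (nat_lit 30708129660) (nat_lit 0) (nat_lit 25099247517) (nat_lit 2) (nat_lit 5) (nat_lit 4) (nat_lit 4) (nat_lit 2) (nat_lit 4) (nat_lit 347) (nat_lit 219) (nat_lit 214)) (XT.nd (nat_lit 78) (nat_lit 0) (nat_lit 0) (XT.lf (nat_lit 0) (nat_lit 29625254733) (nat_lit 152) (nat_lit 27033628815) (nat_lit 0) (nat_lit 28849986308) (nat_lit 2) (nat_lit 5) (nat_lit 4) (nat_lit 4) (nat_lit 2) (nat_lit 4) (nat_lit 348) (nat_lit 219) (nat_lit 213)) (XT.lf (nat_lit 0) (nat_lit 33604612388) (nat_lit 152) (nat_lit 23325424120) (nat_lit 0) (nat_lit 32720793486) (nat_lit 2) (nat_lit 5) (nat_lit 4) (nat_lit 4) (nat_lit 2) (nat_lit 4) (nat_lit 349) (nat_lit 219) (nat_lit 212))))) (XT.nd (nat_lit 156) (nat_lit 0) (nat_lit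 0) (XT.nd (nat_lit 78) (nat_lit 0) (nat_lit 0) (XT.lf (nat_lit 0) (nat_lit 37708085568) (nat_lit 152) (nat_lit 19574686516) (nat_lit 0) (nat_lit 36720885260) (nat_lit 2) (nat_lit 5) (nat_lit 4) (nat_lit 4) (nat_lit 2) (nat_lit 4) (nat_lit 350) (nat_lit 219) (nat_lit 211)) (XT.lf (nat_lit 0) (nat_lit 41945444447) (nat_lit 152) (nat_lit 15772485677) (nat_lit 0) (nat_lit 40859785656) (nat_lit 2) (nat_lit 5) (nat_lit 4) (nat_lit 4) (nat_lit 2) (nat_lit 4) (nat_lit 351) (nat_lit 219) (nat_lit 210))) (XT.nd (nat_lit 78) (nat_lit 0) (nat_lit 0) (XT.lf (nat_lit 0) (nat_lit 46326777974) (nat_lit 152) (nat_lit 11909768743) (nat_lit 0) (nat_lit 45147349200) (nat_lit 2) (nat_lit 5) (nat_lit 4) (nat_lit 4) (nat_lit 2) (nat_lit 4) (nat_lit 352) (nat_lit 219) (nat_lit 209)) (XT.nd (nat_lit 78) (nat_lit 0) (nat_lit 0) (XT.lf (nat_lit 0) (nat_lit 50862517897) (nat_lit 152) (nat_lit 7977338768) (nat_lit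 0) (nat_lit 49593784376) (nat_lit 2) (nat_lit 5) (nat_lit 4) (nat_lit 4) (nat_lit 2) (nat_lit 4) (nat_lit 353) (nat_lit 219) (nat_lit 208)) (XT.lf (nat_lit 0) (nat_lit 55563463595) (nat_lit 152) (nat_lit 3965832825) (nat_lit 0) (nat_lit 54209677935) (nat_lit 2) (nat_lit 5) (nat_lit 4) (nat_lit 4) (nat_lit 2) (nat_lit 4) (nat_lit 354) (nat_lit 219) (nat_lit 207)))))) (XT.nd (nat_lit 390) (nat_lit 0) (nat_lit 0) (XT.nd (nat_lit 156) (nat_lit 0) (nat_lit 0) (XT.nd (nat_lit 78) (nat_lit 0) (nat_lit 0) (XT.lf (nat_lit 0) (nat_lit 138740864) (nat_lit 76) (nat_lit 60304233065) (nat_lit 76) (nat_lit 58869445368) (nat_lit 1) (nat_lit 4) (nat_lit 2) (nat_lit 5) (nat_lit 2) (nat_lit 4) (nat_lit 355) (nat_lit 219) (nat_lit 206)) (XT.lf (nat_lit 0) (nat_lit 4476085491) (nat_lit 76) (nat_lit 61099961974) (nat_lit 76) (nat_lit 59588029479) (nat_lit 1) (nat_lit 4) (nat_lit 2) (nat_lit 5) (nat_lit 2)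 (nat_lit 4) (nat_lit 356) (nat_lit 219) (nat_lit 205))) (XT.nd (nat_lit 78) (nat_lit 0) (nat_lit 0) (XT.lf (nat_lit 0) (nat_lit 8925399722) (nat_lit 76) (nat_lit 61985541035) (nat_lit 76) (nat_lit 60400137305) (nat_lit 1) (nat_lit 4) (nat_lit 2) (nat_lit 5) (nat_lit 2) (nat_lit 4) (nat_lit 357) (nat_lit 219) (nat_lit 204)) (XT.nd (nat_lit 78) (nat_lit 0) (nat_lit 0) (XT.lf (nat_lit 0) (nat_lit 13497277161) (nat_lit 76) (nat_lit 62963078772) (nat_lit 76) (nat_lit 61307702437) (nat_lit 1) (nat_lit 4) (nat_lit 2) (nat_lit 5) (nat_lit 2) (nat_lit 4) (nat_lit 358) (nat_lit 219) (nat_lit 203)) (XT.lf (nat_lit 0) (nat_lit 18202603232) (nat_lit 76) (nat_lit 64034902655) (nat_lit 76) (nat_lit 62312885743) (nat_lit 1) (nat_lit 4) (nat_lit 2) (nat_lit 5) (nat_lit 2) (nat_lit 4) (nat_lit 359) (nat_lit 219) (nat_lit 202))))) (XT.nd (nat_lit 156) (nat_lit 0) (nat_lit 0) (XT.nd (nat_lit 78) (nat_lit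 0) (nat_lit 0) (XT.lf (nat_lit 0) (nat_lit 23052581092) (nat_lit 76) (nat_lit 65203564646) (nat_lit 76) (nat_lit 63418080518) (nat_lit 1) (nat_lit 4) (nat_lit 2) (nat_lit 5) (nat_lit 2) (nat_lit 4) (nat_lit 360) (nat_lit 219) (nat_lit 201)) (XT.lf (nat_lit 0) (nat_lit 28058758307) (nat_lit 76) (nat_lit 66471847272) (nat_lit 76) (nat_lit 64625918177) (nat_lit 1) (nat_lit 4) (nat_lit 2) (nat_lit 5) (nat_lit 2) (nat_lit 4) (nat_lit 361) (nat_lit 219) (nat_lit 200))) (XT.nd (nat_lit 78) (nat_lit 0) (nat_lit 0) (XT.lf (nat_lit 0) (nat_lit 33233054347) (nat_lit 76) (nat_lit 67842770255) (nat_lit 76) (nat_lit 65939274525) (nat_lit 1) (nat_lit 4) (nat_lit 2) (nat_lit 5) (nat_lit 2) (nat_lit 4) (nat_lit 362) (nat_lit 219) (nat_lit 199)) (XT.nd (nat_lit 78) (nat_lit 0) (nat_lit 0) (XT.lf (nat_lit 0) (nat_lit 38587788964) (nat_lit 76) (nat_lit 69319597698) (nat_lit 76) (nat_lit 67361276600) (nat_lit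 1) (nat_lit 4) (nat_lit 2) (nat_lit 5) (nat_lit 2) (nat_lit 4) (nat_lit 363) (nat_lit 219) (nat_lit 198)) (XT.lf (nat_lit 0) (nat_lit 44135711527) (nat_lit 76) (nat_lit 70905845855) (nat_lit 76) (nat_lit 68895310121) (nat_lit 1) (nat_lit 4) (nat_lit 2) (nat_lit 5) (nat_lit 2) (nat_lit 4) (nat_lit 364) (nat_lit 219) (nat_lit 197))))))) (XT.nd (nat_lit 780) (nat_lit 0) (nat_lit 0) (XT.nd (nat_lit 390) (nat_lit 0) (nat_lit 0) (XT.nd (nat_lit 156) (nat_lit 0) (nat_lit 0) (XT.nd (nat_lit 78) (nat_lit 0) (nat_lit 0) (XT.lf (nat_lit 0) (nat_lit 49890031374) (nat_lit 76) (nat_lit 72605291508) (nat_lit 76) (nat_lit 70545027551) (nat_lit 1) (nat_lit 4) (nat_lit 2) (nat_lit 5) (nat_lit 2) (nat_lit 4) (nat_lit 365) (nat_lit 219) (nat_lit 196)) (XT.lf (nat_lit 0) (nat_lit 55864449268) (nat_lit 76) (nat_lit 74421980957) (nat_lit 76) (nat_lit 72314356786) (nat_lit 1) (nat_lit 4) (nat_lit 2) (nat_lit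 5) (nat_lit 2) (nat_lit 4) (nat_lit 366) (nat_lit 219) (nat_lit 195))) (XT.nd (nat_lit 78) (nat_lit 0) (nat_lit 0) (XT.lf (nat_lit 0) (nat_lit 62073190012) (nat_lit 76) (nat_lit 76360239652) (nat_lit 76) (nat_lit 74207510516) (nat_lit 1) (nat_lit 4) (nat_lit 2) (nat_lit 5) (nat_lit 2) (nat_lit 4) (nat_lit 367) (nat_lit 219) (nat_lit 194)) (XT.nd (nat_lit 78) (nat_lit 0) (nat_lit 0) (XT.lf (nat_lit 0) (nat_lit 68531036323) (nat_lit 76) (nat_lit 78424682495) (nat_lit 76) (nat_lit 76228996249) (nat_lit 1) (nat_lit 4) (nat_lit 2) (nat_lit 5) (nat_lit 2) (nat_lit 4) (nat_lit 368) (nat_lit 219) (nat_lit 193)) (XT.lf (nat_lit 0) (nat_lit 75253364026) (nat_lit 76) (nat_lit 80620224827) (nat_lit 76) (nat_lit 78383627047) (nat_lit 1) (nat_lit 4) (nat_lit 2) (nat_lit 5) (nat_lit 2) (nat_lit 4) (nat_lit 369) (nat_lit 219) (nat_lit 192))))) (XT.nd (nat_lit 156) (nat_lit 0) (nat_lit 0) (XT.nd (nat_lit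 78) (nat_lit 0) (nat_lit 0) (XT.lf (nat_lit 0) (nat_lit 82256178663) (nat_lit 76) (nat_lit 82952094128) (nat_lit 76) (nat_lit 80676532984) (nat_lit 1) (nat_lit 4) (nat_lit 2) (nat_lit 5) (nat_lit 2) (nat_lit 4) (nat_lit 370) (nat_lit 219) (nat_lit 191)) (XT.lf (nat_lit 0) (nat_lit 89556153601) (nat_lit 76) (nat_lit 85425842469) (nat_lit 76) (nat_lit 83113173358) (nat_lit 1) (nat_lit 4) (nat_lit 2) (nat_lit 5) (nat_lit 2) (nat_lit 4) (nat_lit 371) (nat_lit 219) (nat_lit 190))) (XT.nd (nat_lit 78) (nat_lit 0) (nat_lit 0) (XT.lf (nat_lit 0) (nat_lit 97170669733) (nat_lit 76) (nat_lit 88047359727) (nat_lit 76) (nat_lit 85699349695) (nat_lit 1) (nat_lit 4) (nat_lit 2) (nat_lit 5) (nat_lit 2) (nat_lit 4) (nat_lit 372) (nat_lit 219) (nat_lit 189)) (XT.nd (nat_lit 78) (nat_lit 0) (nat_lit 0) (XT.lf (nat_lit 0) (nat_lit 105117856861) (nat_lit 76) (nat_lit 90822887609) (nat_lit 76) (nat_lit 88441219558)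 (nat_lit 1) (nat_lit 4) (nat_lit 2) (nat_lit 5) (nat_lit 2) (nat_lit 4) (nat_lit 373) (nat_lit 219) (nat_lit 188)) (XT.lf (nat_lit 0) (nat_lit 113416636857) (nat_lit 76) (nat_lit 93759034515) (nat_lit 76) (nat_lit 91345311207) (nat_lit 1) (nat_lit 4) (nat_lit 2) (nat_lit 5) (nat_lit 2) (nat_lit 4) (nat_lit 374) (nat_lit 219) (nat_lit 187)))))) (XT.nd (nat_lit 390) (nat_lit 0) (nat_lit 0) (XT.nd (nat_lit 156) (nat_lit 0) (nat_lit 0) (XT.nd (nat_lit 78) (nat_lit 0) (nat_lit 0) (XT.lf (nat_lit 0) (nat_lit 122086768722) (nat_lit 76) (nat_lit 96862791272) (nat_lit 76) (nat_lit 94418539148) (nat_lit 1) (nat_lit 4) (nat_lit 2) (nat_lit 5) (nat_lit 2) (nat_lit 4) (nat_lit 375) (nat_lit 219) (nat_lit 186)) (XT.lf (nat_lit 0) (nat_lit 131148895628) (nat_lit 76) (nat_lit 100141547775) (nat_lit 76) (nat_lit 97668220588) (nat_lit 1) (nat_lit 4) (nat_lit 2) (nat_lit 5) (nat_lit 2) (nat_lit 4) (nat_lit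 376) (nat_lit 219) (nat_lit 185))) (XT.nd (nat_lit 78) (nat_lit 0) (nat_lit 0) (XT.lf (nat_lit 0) (nat_lit 140624594066) (nat_lit 76) (nat_lit 103603110589) (nat_lit 76) (nat_lit 101102092866) (nat_lit 1) (nat_lit 4) (nat_lit 2) (nat_lit 5) (nat_lit 2) (nat_lit 4) (nat_lit 377) (nat_lit 219) (nat_lit 184)) (XT.nd (nat_lit 78) (nat_lit 0) (nat_lit 0) (XT.lf (nat_lit 0) (nat_lit 150536425223) (nat_lit 76) (nat_lit 107255721529) (nat_lit 76) (nat_lit 104728331867) (nat_lit 1) (nat_lit 4) (nat_lit 2) (nat_lit 5) (nat_lit 2) (nat_lit 4) (nat_lit 378) (nat_lit 219) (nat_lit 183)) (XT.lf (nat_lit 0) (nat_lit 160907988698) (nat_lit 76) (nat_lit 111108077289) (nat_lit 76) (nat_lit 108555571494) (nat_lit 1) (nat_lit 4) (nat_lit 2) (nat_lit 5) (nat_lit 2) (nat_lit 4) (nat_lit 379) (nat_lit 219) (nat_lit 182))))) (XT.nd (nat_lit 234) (nat_lit 0) (nat_lit 0) (XT.nd (nat_lit 78) (nat_lit 0) (nat_lit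 0) (XT.lf (nat_lit 0) (nat_lit 171763978689) (nat_lit 76) (nat_lit 115169350143) (nat_lit 76) (nat_lit 112592924223) (nat_lit 1) (nat_lit 4) (nat_lit 2) (nat_lit 5) (nat_lit 2) (nat_lit 4) (nat_lit 380) (nat_lit 219) (nat_lit 181)) (XT.nd (nat_lit 78) (nat_lit 0) (nat_lit 0) (XT.lf (nat_lit 0) (nat_lit 183130242791) (nat_lit 76) (nat_lit 119449209790) (nat_lit 76) (nat_lit 116850002797) (nat_lit 1) (nat_lit 4) (nat_lit 2) (nat_lit 5) (nat_lit 2) (nat_lit 4) (nat_lit 381) (nat_lit 219) (nat_lit 180)) (XT.lf (nat_lit 0) (nat_lit 195033843538) (nat_lit 76) (nat_lit 123957846370) (nat_lit 76) (nat_lit 121336943118) (nat_lit 1) (nat_lit 4) (nat_lit 2) (nat_lit 5) (nat_lit 2) (nat_lit 4) (nat_lit 382) (nat_lit 219) (nat_lit 179)))) (XT.nd (nat_lit 78) (nat_lit 0) (nat_lit 0) (XT.lf (nat_lit 0) (nat_lit 207503122837) (nat_lit 76) (nat_lit 128705994734) (nat_lit 76) (nat_lit 126064428377) (nat_lit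 1) (nat_lit 4) (nat_lit 2) (nat_lit 5) (nat_lit 2) (nat_lit 4) (nat_lit 383) (nat_lit 219) (nat_lit 178)) (XT.nd (nat_lit 78) (nat_lit 0) (nat_lit 0) (XT.lf (nat_lit 0) (nat_lit 220567769447) (nat_lit 76) (nat_lit 133704959996) (nat_lit 76) (nat_lit 131043714492) (nat_lit 1) (nat_lit 4) (nat_lit 2) (nat_lit 5) (nat_lit 2) (nat_lit 4) (nat_lit 384) (nat_lit 219) (nat_lit 177)) (XT.lf (nat_lit 0) (nat_lit 234258889671) (nat_lit 76) (nat_lit 138966644454) (nat_lit 76) (nat_lit 136286656906) (nat_lit 1) (nat_lit 4) (nat_lit 2) (nat_lit 5) (nat_lit 2) (nat_lit 4) (nat_lit 385) (nat_lit 219) (nat_lit 176))))))))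
noncomputable def xc16 : XT := (XT.nd (nat_lit 38142) (nat_lit 0) (nat_lit 0) (XT.nd (nat_lit 37362) (nat_lit 0) (nat_lit 76) (XT.nd (nat_lit 390) (nat_lit 0) (nat_lit 0) (XT.nd (nat_lit 156) (nat_lit 0) (nat_lit 0) (XT.nd (nat_lit 78) (nat_lit 0) (nat_lit 0) (XT.lf (nat_lit 0) (nat_lit 248609081413) (nat_lit 76) (nat_lit 144503575929) (nat_lit 76) (nat_lit 141805738814) (nat_lit 1) (nat_lit 4) (nat_lit 2) (nat_lit 5) (nat_lit 2) (nat_lit 4) (nat_lit 386) (nat_lit 219) (nat_lit 175)) (XT.lf (nat_lit 0) (nat_lit 263652511797) (nat_lit 76) (nat_lit 150328937591) (nat_lit 76) (nat_lit 147614100889) (nat_lit 1) (nat_lit 4) (nat_lit 2) (nat_lit 5) (nat_lit 2) (nat_lit 4) (nat_lit 387) (nat_lit 219) (nat_lit 174))) (XT.nd (nat_lit 78) (nat_lit 0) (nat_lit 0) (XT.lf (nat_lit 0) (nat_lit 279424998513) (nat_lit 76) (nat_lit 156456599349) (nat_lit 76) (nat_lit 153725572564) (nat_lit 1) (nat_lit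 4) (nat_lit 2) (nat_lit 5) (nat_lit 2) (nat_lit 4) (nat_lit 388) (nat_lit 219) (nat_lit 173)) (XT.nd (nat_lit 78) (nat_lit 0) (nat_lit 0) (XT.lf (nat_lit 0) (nat_lit 295964095103) (nat_lit 76) (nat_lit 162901150873) (nat_lit 76) (nat_lit 160154704961) (nat_lit 1) (nat_lit 4) (nat_lit 2) (nat_lit 5) (nat_lit 2) (nat_lit 4) (nat_lit 389) (nat_lit 219) (nat_lit 172)) (XT.lf (nat_lit 0) (nat_lit 313309180367) (nat_lit 76) (nat_lit 169677936333) (nat_lit 76) (nat_lit 166916805539) (nat_lit 1) (nat_lit 4) (nat_lit 2) (nat_lit 5) (nat_lit 2) (nat_lit 4) (nat_lit 390) (nat_lit 219) (nat_lit 171))))) (XT.nd (nat_lit 36738) (nat_lit 0) (nat_lit 76) (XT.nd (nat_lit 36660) (nat_lit 0) (nat_lit 76) (XT.lf (nat_lit 0) (nat_lit 331501552127) (nat_lit 76) (nat_lit 176803090934) (nat_lit 76) (nat_lit 174027974538) (nat_lit 1) (nat_lit 4) (nat_lit 2) (nat_lit 5) (nat_lit 2) (nat_lit 4) (nat_lit 391) (nat_lit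 219) (nat_lit 170)) (XT.lf (nat_lit 0) (nat_lit 690100104) (nat_lit 152) (nat_lit 28056484586) (nat_lit 0) (nat_lit 690100104) (nat_lit 2) (nat_lit 5) (nat_lit 4) (nat_lit 4) (nat_lit 2) (nat_lit 4) (nat_lit 340) (nat_lit 220) (nat_lit 220))) (XT.nd (nat_lit 78) (nat_lit 0) (nat_lit 0) (XT.lf (nat_lit 0) (nat_lit 4633535868) (nat_lit 152) (nat_lit 52534284563) (nat_lit 0) (nat_lit 4480794446) (nat_lit 2) (nat_lit 5) (nat_lit 4) (nat_lit 4) (nat_lit 2) (nat_lit 4) (nat_lit 341) (nat_lit 220) (nat_lit 219)) (XT.nd (nat_lit 78) (nat_lit 0) (nat_lit 0) (XT.lf (nat_lit 0) (nat_lit 7944213524) (nat_lit 152) (nat_lit 48977708468) (nat_lit 0) (nat_lit 7646004081) (nat_lit 2) (nat_lit 5) (nat_lit 4) (nat_lit 4) (nat_lit 2) (nat_lit 4) (nat_lit 342) (nat_lit 220) (nat_lit 218)) (XT.lf (nat_lit 0) (nat_lit 11320115745) (nat_lit 152) (nat_lit 45434772851) (nat_lit 0) (nat_lit 10883365329) (nat_lit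 2) (nat_lit 5) (nat_lit 4) (nat_lit 4) (nat_lit 2) (nat_lit 4) (nat_lit 343) (nat_lit 220) (nat_lit 217)))))) (XT.nd (nat_lit 390) (nat_lit 0) (nat_lit 0) (XT.nd (nat_lit 156) (nat_lit 0) (nat_lit 0) (XT.nd (nat_lit 78) (nat_lit 0) (nat_lit 0) (XT.lf (nat_lit 0) (nat_lit 14769280392) (nat_lit 152) (nat_lit 41897042150) (nat_lit 0) (nat_lit 14200586193) (nat_lit 2) (nat_lit 5) (nat_lit 4) (nat_lit 4) (nat_lit 2) (nat_lit 4) (nat_lit 344) (nat_lit 220) (nat_lit 216)) (XT.lf (nat_lit 0) (nat_lit 18299919762) (nat_lit 152) (nat_lit 38356093198) (nat_lit 0) (nat_lit 17605564817) (nat_lit 2) (nat_lit 5) (nat_lit 4) (nat_lit 4) (nat_lit 2) (nat_lit 4) (nat_lit 345) (nat_lit 220) (nat_lit 215))) (XT.nd (nat_lit 78) (nat_lit 0) (nat_lit 0) (XT.lf (nat_lit 0) (nat_lit 21920440139) (nat_lit 152) (nat_lit 34803495162) (nat_lit 0) (nat_lit 21106408293) (nat_lit 2) (nat_lit 5) (nat_lit 4) (nat_lit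 4) (nat_lit 2) (nat_lit 4) (nat_lit 346) (nat_lit 220) (nat_lit 214)) (XT.nd (nat_lit 78) (nat_lit 0) (nat_lit 0) (XT.lf (nat_lit 0) (nat_lit 25639461811) (nat_lit 152) (nat_lit 31230789478) (nat_lit 0) (nat_lit 24711451964) (nat_lit 2) (nat_lit 5) (nat_lit 4) (nat_lit 4) (nat_lit 2) (nat_lit 4) (nat_lit 347) (nat_lit 220) (nat_lit 213)) (XT.lf (nat_lit 0) (nat_lit 29465839590) (nat_lit 152) (nat_lit 27629469702) (nat_lit 0) (nat_lit 28429279266) (nat_lit 2) (nat_lit 5) (nat_lit 4) (nat_lit 4) (nat_lit 2) (nat_lit 4) (nat_lit 348) (nat_lit 220) (nat_lit 212))))) (XT.nd (nat_lit 156) (nat_lit 0) (nat_lit 0) (XT.nd (nat_lit 78) (nat_lit 0) (nat_lit 0) (XT.lf (nat_lit 0) (nat_lit 33408683899) (nat_lit 152) (nat_lit 23990961264) (nat_lit 0) (nat_lit 32268742169) (nat_lit 2) (nat_lit 5) (nat_lit 4) (nat_lit 4) (nat_lit 2) (nat_lit 4) (nat_lit 349) (nat_lit 220) (nat_lit 211)) (XT.lf (nat_lit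 0) (nat_lit 37477382465) (nat_lit 152) (nat_lit 20306601048) (nat_lit 0) (nat_lit 36238982251) (nat_lit 2) (nat_lit 5) (nat_lit 4) (nat_lit 4) (nat_lit 2) (nat_lit 4) (nat_lit 350) (nat_lit 220) (nat_lit 210))) (XT.nd (nat_lit 78) (nat_lit 0) (nat_lit 0) (XT.lf (nat_lit 0) (nat_lit 41681622663) (nat_lit 152) (nat_lit 16567616768) (nat_lit 0) (nat_lit 40349452466) (nat_lit 2) (nat_lit 5) (nat_lit 4) (nat_lit 4) (nat_lit 2) (nat_lit 4) (nat_lit 351) (nat_lit 220) (nat_lit 209)) (XT.nd (nat_lit 78) (nat_lit 0) (nat_lit 0) (XT.lf (nat_lit 0) (nat_lit 46031414589) (nat_lit 152) (nat_lit 12765106081) (nat_lit 0) (nat_lit 44609939647) (nat_lit 2) (nat_lit 5) (nat_lit 4) (nat_lit 4) (nat_lit 2) (nat_lit 4) (nat_lit 352) (nat_lit 220) (nat_lit 208)) (XT.lf (nat_lit 0) (nat_lit 50537114892) (nat_lit 152) (nat_lit 8890015390) (nat_lit 0) (nat_lit 49030587810) (nat_lit 2) (nat_lit 5) (nat_lit 4)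 (nat_lit 4) (nat_lit 2) (nat_lit 4) (nat_lit 353) (nat_lit 220) (nat_lit 207))))))) (XT.nd (nat_lit 780) (nat_lit 0) (nat_lit 0) (XT.nd (nat_lit 390) (nat_lit 0) (nat_lit 0) (XT.nd (nat_lit 156) (nat_lit 76) (nat_lit 0) (XT.nd (nat_lit 78) (nat_lit 0) (nat_lit 0) (XT.lf (nat_lit 0) (nat_lit 55209451429) (nat_lit 152) (nat_lit 4933118287) (nat_lit 0) (nat_lit 53621922309) (nat_lit 2) (nat_lit 5) (nat_lit 4) (nat_lit 4) (nat_lit 2) (nat_lit 4) (nat_lit 354) (nat_lit 220) (nat_lit 206)) (XT.lf (nat_lit 0) (nat_lit 60059548810) (nat_lit 152) (nat_lit 884993591) (nat_lit 0) (nat_lit 58394874893) (nat_lit 2) (nat_lit 5) (nat_lit 4) (nat_lit 4) (nat_lit 2) (nat_lit 4) (nat_lit 355) (nat_lit 220) (nat_lit 205))) (XT.nd (nat_lit 78) (nat_lit 0) (nat_lit 0) (XT.lf (nat_lit 0) (nat_lit 3371919576) (nat_lit 76) (nat_lit 61779680425) (nat_lit 76) (nat_lit 60041535273) (nat_lit 1) (nat_lit 4) (nat_lit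 2) (nat_lit 5) (nat_lit 2) (nat_lit 4) (nat_lit 356) (nat_lit 220) (nat_lit 204)) (XT.nd (nat_lit 78) (nat_lit 0) (nat_lit 0) (XT.lf (nat_lit 0) (nat_lit 7772500878) (nat_lit 76) (nat_lit 62688517888) (nat_lit 76) (nat_lit 60880400130) (nat_lit 1) (nat_lit 4) (nat_lit 2) (nat_lit 5) (nat_lit 2) (nat_lit 4) (nat_lit 357) (nat_lit 220) (nat_lit 203)) (XT.lf (nat_lit 0) (nat_lit 12297966005) (nat_lit 76) (nat_lit 63688206483) (nat_lit 76) (nat_lit 61813448149) (nat_lit 1) (nat_lit 4) (nat_lit 2) (nat_lit 5) (nat_lit 2) (nat_lit 4) (nat_lit 358) (nat_lit 220) (nat_lit 202))))) (XT.nd (nat_lit 156) (nat_lit 0) (nat_lit 0) (XT.nd (nat_lit 78) (nat_lit 0) (nat_lit 0) (XT.lf (nat_lit 0) (nat_lit 16959089874) (nat_lit 76) (nat_lit 64781126421) (nat_lit 76) (nat_lit 62842900871) (nat_lit 1) (nat_lit 4) (nat_lit 2) (nat_lit 5) (nat_lit 2) (nat_lit 4) (nat_lit 359) (nat_lit 220) (nat_lit 201)) (XT.lf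 (nat_lit 0) (nat_lit 21766970398) (nat_lit 76) (nat_lit 65969879893) (nat_lit 76) (nat_lit 63971209376) (nat_lit 1) (nat_lit 4) (nat_lit 2) (nat_lit 5) (nat_lit 2) (nat_lit 4) (nat_lit 360) (nat_lit 220) (nat_lit 200))) (XT.nd (nat_lit 78) (nat_lit 0) (nat_lit 0) (XT.lf (nat_lit 0) (nat_lit 26733054913) (nat_lit 76) (nat_lit 67257297264) (nat_lit 76) (nat_lit 65201060111) (nat_lit 1) (nat_lit 4) (nat_lit 2) (nat_lit 5) (nat_lit 2) (nat_lit 4) (nat_lit 361) (nat_lit 220) (nat_lit 199)) (XT.nd (nat_lit 78) (nat_lit 0) (nat_lit 0) (XT.lf (nat_lit 0) (nat_lit 31869167429) (nat_lit 76) (nat_lit 68646443813) (nat_lit 76) (nat_lit 66535381293) (nat_lit 1) (nat_lit 4) (nat_lit 2) (nat_lit 5) (nat_lit 2) (nat_lit 4) (nat_lit 362) (nat_lit 220) (nat_lit 198)) (XT.lf (nat_lit 0) (nat_lit 37187536785) (nat_lit 76) (nat_lit 70140627032) (nat_lit 76) (nat_lit 67977349876) (nat_lit 1) (nat_lit 4) (nat_lit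 2) (nat_lit 5) (nat_lit 2) (nat_lit 4) (nat_lit 363) (nat_lit 220) (nat_lit 197)))))) (XT.nd (nat_lit 390) (nat_lit 0) (nat_lit 0) (XT.nd (nat_lit 156) (nat_lit 0) (nat_lit 0) (XT.nd (nat_lit 78) (nat_lit 0) (nat_lit 0) (XT.lf (nat_lit 0) (nat_lit 42700825765) (nat_lit 76) (nat_lit 71743404501) (nat_lit 76) (nat_lit 69530399121) (nat_lit 1) (nat_lit 4) (nat_lit 2) (nat_lit 5) (nat_lit 2) (nat_lit 4) (nat_lit 364) (nat_lit 220) (nat_lit 196)) (XT.lf (nat_lit 0) (nat_lit 48422161248) (nat_lit 76) (nat_lit 73458592355) (nat_lit 76) (nat_lit 71198226762) (nat_lit 1) (nat_lit 4) (nat_lit 2) (nat_lit 5) (nat_lit 2) (nat_lit 4) (nat_lit 365) (nat_lit 220) (nat_lit 195))) (XT.nd (nat_lit 78) (nat_lit 0) (nat_lit 0) (XT.lf (nat_lit 0) (nat_lit 54365165462) (nat_lit 76) (nat_lit 75290274377) (nat_lit 76) (nat_lit 72984803818) (nat_lit 1) (nat_lit 4) (nat_lit 2) (nat_lit 5) (nat_lit 2) (nat_lit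 4) (nat_lit 366) (nat_lit 220) (nat_lit 194)) (XT.nd (nat_lit 78) (nat_lit 0) (nat_lit 0) (XT.lf (nat_lit 0) (nat_lit 60543988416) (nat_lit 76) (nat_lit 77242811713) (nat_lit 76) (nat_lit 74894384044) (nat_lit 1) (nat_lit 4) (nat_lit 2) (nat_lit 5) (nat_lit 2) (nat_lit 4) (nat_lit 367) (nat_lit 220) (nat_lit 193)) (XT.lf (nat_lit 0) (nat_lit 66973341593) (nat_lit 76) (nat_lit 79320853261) (nat_lit 76) (nat_lit 76931514059) (nat_lit 1) (nat_lit 4) (nat_lit 2) (nat_lit 5) (nat_lit 2) (nat_lit 4) (nat_lit 368) (nat_lit 220) (nat_lit 192))))) (XT.nd (nat_lit 156) (nat_lit 0) (nat_lit 0) (XT.nd (nat_lit 78) (nat_lit 0) (nat_lit 0) (XT.lf (nat_lit 0) (nat_lit 73668532978) (nat_lit 76) (nat_lit 81529346741) (nat_lit 76) (nat_lit 79101044174) (nat_lit 1) (nat_lit 4) (nat_lit 2) (nat_lit 5) (nat_lit 2) (nat_lit 4) (nat_lit 369) (nat_lit 220) (nat_lit 191)) (XT.lf (nat_lit 0) (nat_lit 80645503503)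 (nat_lit 76) (nat_lit 83873550468) (nat_lit 76) (nat_lit 81408139935) (nat_lit 1) (nat_lit 4) (nat_lit 2) (nat_lit 5) (nat_lit 2) (nat_lit 4) (nat_lit 370) (nat_lit 220) (nat_lit 190))) (XT.nd (nat_lit 78) (nat_lit 0) (nat_lit 0) (XT.lf (nat_lit 0) (nat_lit 87920865001) (nat_lit 76) (nat_lit 86359045882) (nat_lit 76) (nat_lit 83858294429) (nat_lit 1) (nat_lit 4) (nat_lit 2) (nat_lit 5) (nat_lit 2) (nat_lit 4) (nat_lit 371) (nat_lit 220) (nat_lit 189)) (XT.nd (nat_lit 78) (nat_lit 0) (nat_lit 0) (XT.lf (nat_lit 0) (nat_lit 95511939762) (nat_lit 76) (nat_lit 88991750829) (nat_lit 76) (nat_lit 86457341355) (nat_lit 1) (nat_lit 4) (nat_lit 2) (nat_lit 5) (nat_lit 2) (nat_lit 4) (nat_lit 372) (nat_lit 220) (nat_lit 188)) (XT.lf (nat_lit 0) (nat_lit 103436801773) (nat_lit 76) (nat_lit 91777933652) (nat_lit 76) (nat_lit 89211468922) (nat_lit 1) (nat_lit 4) (nat_lit 2) (nat_lit 5) (nat_lit 2)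 (nat_lit 4) (nat_lit 373) (nat_lit 220) (nat_lit 187))))))))
noncomputable def xc17 : XT := (XT.nd (nat_lit 37986) (nat_lit 0) (nat_lit 0) (XT.nd (nat_lit 780) (nat_lit 0) (nat_lit 0) (XT.nd (nat_lit 390) (nat_lit 0) (nat_lit 0) (XT.nd (nat_lit 156) (nat_lit 0) (nat_lit 0) (XT.nd (nat_lit 78) (nat_lit 0) (nat_lit 0) (XT.lf (nat_lit 0) (nat_lit 111714319754) (nat_lit 76) (nat_lit 94724228122) (nat_lit 76) (nat_lit 92127234576) (nat_lit 1) (nat_lit 4) (nat_lit 2) (nat_lit 5) (nat_lit 2) (nat_lit 4) (nat_lit 374) (nat_lit 220) (nat_lit 186)) (XT.lf (nat_lit 0) (nat_lit 120364202082) (nat_lit 76) (nat_lit 97837649224) (nat_lit 76) (nat_lit 95211580615) (nat_lit 1) (nat_lit 4) (nat_lit 2) (nat_lit 5) (nat_lit 2) (nat_lit 4) (nat_lit 375) (nat_lit 220) (nat_lit 185))) (XT.nd (nat_lit 78) (nat_lit 0) (nat_lit 0) (XT.lf (nat_lit 0) (nat_lit 129407043712) (nat_lit 76) (nat_lit 101125609867) (nat_lit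 76) (nat_lit 98471850722) (nat_lit 1) (nat_lit 4) (nat_lit 2) (nat_lit 5) (nat_lit 2) (nat_lit 4) (nat_lit 376) (nat_lit 220) (nat_lit 184)) (XT.nd (nat_lit 78) (nat_lit 0) (nat_lit 0) (XT.lf (nat_lit 0) (nat_lit 138864375222) (nat_lit 76) (nat_lit 104595938527) (nat_lit 76) (nat_lit 101915807443) (nat_lit 1) (nat_lit 4) (nat_lit 2) (nat_lit 5) (nat_lit 2) (nat_lit 4) (nat_lit 377) (nat_lit 220) (nat_lit 183)) (XT.lf (nat_lit 0) (nat_lit 148758714067) (nat_lit 76) (nat_lit 108256897893) (nat_lit 76) (nat_lit 105551650677) (nat_lit 1) (nat_lit 4) (nat_lit 2) (nat_lit 5) (nat_lit 2) (nat_lit 4) (nat_lit 378) (nat_lit 220) (nat_lit 182))))) (XT.nd (nat_lit 156) (nat_lit 0) (nat_lit 0) (XT.nd (nat_lit 78) (nat_lit 0) (nat_lit 0) (XT.lf (nat_lit 0) (nat_lit 159113618197) (nat_lit 76) (nat_lit 112117204534) (nat_lit 76) (nat_lit 109388037192) (nat_lit 1) (nat_lit 4) (nat_lit 2) (nat_lit 5)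 (nat_lit 2) (nat_lit 4) (nat_lit 379) (nat_lit 220) (nat_lit 181)) (XT.lf (nat_lit 0) (nat_lit 169953742145) (nat_lit 76) (nat_lit 116186049656) (nat_lit 76) (nat_lit 113434101241) (nat_lit 1) (nat_lit 4) (nat_lit 2) (nat_lit 5) (nat_lit 2) (nat_lit 4) (nat_lit 380) (nat_lit 220) (nat_lit 180))) (XT.nd (nat_lit 78) (nat_lit 0) (nat_lit 0) (XT.lf (nat_lit 0) (nat_lit 181304895730) (nat_lit 76) (nat_lit 120473120987) (nat_lit 76) (nat_lit 117699476312) (nat_lit 1) (nat_lit 4) (nat_lit 2) (nat_lit 5) (nat_lit 2) (nat_lit 4) (nat_lit 381) (nat_lit 220) (nat_lit 179)) (XT.nd (nat_lit 78) (nat_lit 0) (nat_lit 0) (XT.lf (nat_lit 0) (nat_lit 193194105508) (nat_lit 76) (nat_lit 124988625838) (nat_lit 76) (nat_lit 122194318059) (nat_lit 1) (nat_lit 4) (nat_lit 2) (nat_lit 5) (nat_lit 2) (nat_lit 4) (nat_lit 382) (nat_lit 220) (nat_lit 178)) (XT.lf (nat_lit 0) (nat_lit 205649679123) (nat_lit 76)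 (nat_lit 129743315411) (nat_lit 76) (nat_lit 126929328485) (nat_lit 1) (nat_lit 4) (nat_lit 2) (nat_lit 5) (nat_lit 2) (nat_lit 4) (nat_lit 383) (nat_lit 220) (nat_lit 177)))))) (XT.nd (nat_lit 390) (nat_lit 0) (nat_lit 0) (XT.nd (nat_lit 156) (nat_lit 0) (nat_lit 0) (XT.nd (nat_lit 78) (nat_lit 0) (nat_lit 0) (XT.lf (nat_lit 0) (nat_lit 218701272700) (nat_lit 76) (nat_lit 134748510397) (nat_lit 76) (nat_lit 131915781426) (nat_lit 1) (nat_lit 4) (nat_lit 2) (nat_lit 5) (nat_lit 2) (nat_lit 4) (nat_lit 384) (nat_lit 220) (nat_lit 176)) (XT.lf (nat_lit 0) (nat_lit 232379961464) (nat_lit 76) (nat_lit 140016127925) (nat_lit 76) (nat_lit 137165549388) (nat_lit 1) (nat_lit 4) (nat_lit 2) (nat_lit 5) (nat_lit 2) (nat_lit 4) (nat_lit 385) (nat_lit 220) (nat_lit 175))) (XT.nd (nat_lit 78) (nat_lit 0) (nat_lit 0) (XT.lf (nat_lit 0) (nat_lit 246718313720) (nat_lit 76) (nat_lit 145558709943) (nat_lit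 76) (nat_lit 142691131819) (nat_lit 1) (nat_lit 4) (nat_lit 2) (nat_lit 5) (nat_lit 2) (nat_lit 4) (nat_lit 386) (nat_lit 220) (nat_lit 174)) (XT.nd (nat_lit 78) (nat_lit 0) (nat_lit 0) (XT.lf (nat_lit 0) (nat_lit 261750468403) (nat_lit 76) (nat_lit 151389453075) (nat_lit 76) (nat_lit 148505684868) (nat_lit 1) (nat_lit 4) (nat_lit 2) (nat_lit 5) (nat_lit 2) (nat_lit 4) (nat_lit 387) (nat_lit 220) (nat_lit 173)) (XT.lf (nat_lit 0) (nat_lit 277512216358) (nat_lit 76) (nat_lit 157522240041) (nat_lit 76) (nat_lit 154623052708) (nat_lit 1) (nat_lit 4) (nat_lit 2) (nat_lit 5) (nat_lit 2) (nat_lit 4) (nat_lit 388) (nat_lit 220) (nat_lit 172))))) (XT.nd (nat_lit 156) (nat_lit 0) (nat_lit 0) (XT.nd (nat_lit 78) (nat_lit 0) (nat_lit 0) (XT.lf (nat_lit 0) (nat_lit 294041085555) (nat_lit 76) (nat_lit 163971672716) (nat_lit 76) (nat_lit 161057800500) (nat_lit 1) (nat_lit 4) (nat_lit 2) (nat_lit 5)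 (nat_lit 2) (nat_lit 4) (nat_lit 389) (nat_lit 220) (nat_lit 171)) (XT.lf (nat_lit 0) (nat_lit 311376430444) (nat_lit 76) (nat_lit 170753106893) (nat_lit 76) (nat_lit 167825249074) (nat_lit 1) (nat_lit 4) (nat_lit 2) (nat_lit 5) (nat_lit 2) (nat_lit 4) (nat_lit 390) (nat_lit 220) (nat_lit 170))) (XT.nd (nat_lit 36504) (nat_lit 0) (nat_lit 228) (XT.lf (nat_lit 0) (nat_lit 329559525658) (nat_lit 76) (nat_lit 177882688842) (nat_lit 76) (nat_lit 174941511402) (nat_lit 1) (nat_lit 4) (nat_lit 2) (nat_lit 5) (nat_lit 2) (nat_lit 4) (nat_lit 391) (nat_lit 220) (nat_lit 169)) (XT.nd (nat_lit 78) (nat_lit 0) (nat_lit 0) (XT.lf (nat_lit 0) (nat_lit 22164172111) (nat_lit 76) (nat_lit 2345690310) (nat_lit 76) (nat_lit 2345690310) (nat_lit 4) (nat_lit 4) (nat_lit 5) (nat_lit 5) (nat_lit 5) (nat_lit 4) (nat_lit 338) (nat_lit 221) (nat_lit 221)) (XT.lf (nat_lit 0) (nat_lit 52799629306) (nat_lit 76)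 (nat_lit 1799430397) (nat_lit 76) (nat_lit 1631032979) (nat_lit 4) (nat_lit 4) (nat_lit 5) (nat_lit 5) (nat_lit 5) (nat_lit 4) (nat_lit 339) (nat_lit 221) (nat_lit 220))))))) (XT.nd (nat_lit 780) (nat_lit 76) (nat_lit 0) (XT.nd (nat_lit 390) (nat_lit 0) (nat_lit 0) (XT.nd (nat_lit 156) (nat_lit 0) (nat_lit 0) (XT.nd (nat_lit 78) (nat_lit 0) (nat_lit 0) (XT.lf (nat_lit 0) (nat_lit 1486631862) (nat_lit 152) (nat_lit 56215942288) (nat_lit 0) (nat_lit 1173511946) (nat_lit 2) (nat_lit 5) (nat_lit 4) (nat_lit 4) (nat_lit 2) (nat_lit 4) (nat_lit 340) (nat_lit 221) (nat_lit 219)) (XT.lf (nat_lit 0) (nat_lit 4688589576) (nat_lit 152) (nat_lit 52735327309) (nat_lit 0) (nat_lit 4230001640) (nat_lit 2) (nat_lit 5) (nat_lit 4) (nat_lit 4) (nat_lit 2) (nat_lit 4) (nat_lit 341) (nat_lit 221) (nat_lit 218))) (XT.nd (nat_lit 78) (nat_lit 0) (nat_lit 0) (XT.lf (nat_lit 0) (nat_lit 7950335858) (nat_lit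 152) (nat_lit 49272150864) (nat_lit 0) (nat_lit 7353206949) (nat_lit 2) (nat_lit 5) (nat_lit 4) (nat_lit 4) (nat_lit 2) (nat_lit 4) (nat_lit 342) (nat_lit 221) (nat_lit 217)) (XT.nd (nat_lit 78) (nat_lit 0) (nat_lit 0) (XT.lf (nat_lit 0) (nat_lit 11279636769) (nat_lit 152) (nat_lit 45818167295) (nat_lit 0) (nat_lit 10550564076) (nat_lit 2) (nat_lit 5) (nat_lit 4) (nat_lit 4) (nat_lit 2) (nat_lit 4) (nat_lit 343) (nat_lit 221) (nat_lit 216)) (XT.lf (nat_lit 0) (nat_lit 14684419216) (nat_lit 152) (nat_lit 42365152830) (nat_lit 0) (nat_lit 13829685778) (nat_lit 2) (nat_lit 5) (nat_lit 4) (nat_lit 4) (nat_lit 2) (nat_lit 4) (nat_lit 344) (nat_lit 221) (nat_lit 215))))) (XT.nd (nat_lit 156) (nat_lit 0) (nat_lit 0) (XT.nd (nat_lit 78) (nat_lit 0) (nat_lit 0) (XT.lf (nat_lit 0) (nat_lit 18172789824) (nat_lit 152) (nat_lit 38904886006) (nat_lit 0) (nat_lit 17198379485) (nat_lit 2) (nat_lit 5)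 (nat_lit 4) (nat_lit 4) (nat_lit 2) (nat_lit 4) (nat_lit 345) (nat_lit 221) (nat_lit 214)) (XT.lf (nat_lit 0) (nat_lit 21753054239) (nat_lit 152) (nat_lit 35429128094) (nat_lit 0) (nat_lit 20664665898) (nat_lit 2) (nat_lit 5) (nat_lit 4) (nat_lit 4) (nat_lit 2) (nat_lit 4) (nat_lit 346) (nat_lit 221) (nat_lit 213))) (XT.nd (nat_lit 78) (nat_lit 0) (nat_lit 0) (XT.lf (nat_lit 0) (nat_lit 25433736897) (nat_lit 152) (nat_lit 31929603480) (nat_lit 0) (nat_lit 24236798080) (nat_lit 2) (nat_lit 5) (nat_lit 4) (nat_lit 4) (nat_lit 2) (nat_lit 4) (nat_lit 347) (nat_lit 221) (nat_lit 212)) (XT.nd (nat_lit 78) (nat_lit 0) (nat_lit 0) (XT.lf (nat_lit 0) (nat_lit 29223601331) (nat_lit 152) (nat_lit 28397979961) (nat_lit 0) (nat_lit 27923281107) (nat_lit 2) (nat_lit 5) (nat_lit 4) (nat_lit 4) (nat_lit 2) (nat_lit 4) (nat_lit 348) (nat_lit 221) (nat_lit 211)) (XT.lf (nat_lit 0) (nat_lit 33131671026)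 (nat_lit 152) (nat_lit 24825848910) (nat_lit 0) (nat_lit 31732892320) (nat_lit 2) (nat_lit 5) (nat_lit 4) (nat_lit 4) (nat_lit 2) (nat_lit 4) (nat_lit 349) (nat_lit 221) (nat_lit 210)))))) (XT.nd (nat_lit 390) (nat_lit 76) (nat_lit 0) (XT.nd (nat_lit 156) (nat_lit 0) (nat_lit 0) (XT.nd (nat_lit 78) (nat_lit 0) (nat_lit 0) (XT.lf (nat_lit 0) (nat_lit 37167250911) (nat_lit 152) (nat_lit 21204705253) (nat_lit 0) (nat_lit 35674702221) (nat_lit 2) (nat_lit 5) (nat_lit 4) (nat_lit 4) (nat_lit 2) (nat_lit 4) (nat_lit 350) (nat_lit 221) (nat_lit 209)) (XT.lf (nat_lit 0) (nat_lit 41339949508) (nat_lit 152) (nat_lit 17525927221) (nat_lit 0) (nat_lit 39758096072) (nat_lit 2) (nat_lit 5) (nat_lit 4) (nat_lit 4) (nat_lit 2) (nat_lit 4) (nat_lit 351) (nat_lit 221) (nat_lit 208))) (XT.nd (nat_lit 78) (nat_lit 0) (nat_lit 0) (XT.lf (nat_lit 0) (nat_lit 45659701815) (nat_lit 152) (nat_lit 13780755817)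 (nat_lit 0) (nat_lit 43992796240) (nat_lit 2) (nat_lit 5) (nat_lit 4) (nat_lit 4) (nat_lit 2) (nat_lit 4) (nat_lit 352) (nat_lit 221) (nat_lit 207)) (XT.nd (nat_lit 78) (nat_lit 0) (nat_lit 0) (XT.lf (nat_lit 0) (nat_lit 50136792956) (nat_lit 152) (nat_lit 9960273966) (nat_lit 0) (nat_lit 48388885344) (nat_lit 2) (nat_lit 5) (nat_lit 4) (nat_lit 4) (nat_lit 2) (nat_lit 4) (nat_lit 353) (nat_lit 221) (nat_lit 206)) (XT.lf (nat_lit 0) (nat_lit 54781882672) (nat_lit 152) (nat_lit 6055385284) (nat_lit 0) (nat_lit 52956830262) (nat_lit 2) (nat_lit 5) (nat_lit 4) (nat_lit 4) (nat_lit 2) (nat_lit 4) (nat_lit 354) (nat_lit 221) (nat_lit 205))))) (XT.nd (nat_lit 156) (nat_lit 0) (nat_lit 0) (XT.nd (nat_lit 78) (nat_lit 76) (nat_lit 0) (XT.lf (nat_lit 0) (nat_lit 59606030701) (nat_lit 152) (nat_lit 2056792416) (nat_lit 0) (nat_lit 57707507055) (nat_lit 2) (nat_lit 5) (nat_lit 4) (nat_lit 4) (nat_lit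 2) (nat_lit 4) (nat_lit 355) (nat_lit 221) (nat_lit 204)) (XT.lf (nat_lit 0) (nat_lit 2112642862) (nat_lit 76) (nat_lit 62541064522) (nat_lit 76) (nat_lit 60572568271) (nat_lit 1) (nat_lit 4) (nat_lit 2) (nat_lit 5) (nat_lit 2) (nat_lit 4) (nat_lit 356) (nat_lit 221) (nat_lit 203))) (XT.nd (nat_lit 78) (nat_lit 0) (nat_lit 0) (XT.lf (nat_lit 0) (nat_lit 6466811852) (nat_lit 76) (nat_lit 63472052843) (nat_lit 76) (nat_lit 61436916015) (nat_lit 1) (nat_lit 4) (nat_lit 2) (nat_lit 5) (nat_lit 2) (nat_lit 4) (nat_lit 357) (nat_lit 221) (nat_lit 202)) (XT.nd (nat_lit 78) (nat_lit 0) (nat_lit 0) (XT.lf (nat_lit 0) (nat_lit 10948074777) (nat_lit 76) (nat_lit 64492837493) (nat_lit 76) (nat_lit 62394233450) (nat_lit 1) (nat_lit 4) (nat_lit 2) (nat_lit 5) (nat_lit 2) (nat_lit 4) (nat_lit 358) (nat_lit 221) (nat_lit 201)) (XT.lf (nat_lit 0) (nat_lit 15567101310) (nat_lit 76) (nat_lit 65605848912)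 (nat_lit 76) (nat_lit 63446799902) (nat_lit 1) (nat_lit 4) (nat_lit 2) (nat_lit 5) (nat_lit 2) (nat_lit 4) (nat_lit 359) (nat_lit 221) (nat_lit 200))))))))
noncomputable def xc18 : XT := (XT.nd (nat_lit 1560) (nat_lit 0) (nat_lit 0) (XT.nd (nat_lit 780) (nat_lit 0) (nat_lit 0) (XT.nd (nat_lit 390) (nat_lit 0) (nat_lit 0) (XT.nd (nat_lit 156) (nat_lit 0) (nat_lit 0) (XT.nd (nat_lit 78) (nat_lit 0) (nat_lit 0) (XT.lf (nat_lit 0) (nat_lit 20334889134) (nat_lit 76) (nat_lit 66813737128) (nat_lit 76) (nat_lit 64597121482) (nat_lit 1) (nat_lit 4) (nat_lit 2) (nat_lit 5) (nat_lit 2) (nat_lit 4) (nat_lit 360) (nat_lit 221) (nat_lit 199)) (XT.lf (nat_lit 0) (nat_lit 25262790124) (nat_lit 76) (nat_lit 68119378065) (nat_lit 76) (nat_lit 65847937051) (nat_lit 1) (nat_lit 4) (nat_lit 2) (nat_lit 5) (nat_lit 2) (nat_lit 4) (nat_lit 361) (nat_lit 221) (nat_lit 198))) (XT.nd (nat_lit 78) (nat_lit 0)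 (nat_lit 0) (XT.lf (nat_lit 0) (nat_lit 30362537379) (nat_lit 76) (nat_lit 69525880391) (nat_lit 76) (nat_lit 67202224742) (nat_lit 1) (nat_lit 4) (nat_lit 2) (nat_lit 5) (nat_lit 2) (nat_lit 4) (nat_lit 362) (nat_lit 221) (nat_lit 197)) (XT.nd (nat_lit 78) (nat_lit 0) (nat_lit 0) (XT.lf (nat_lit 0) (nat_lit 35646273152) (nat_lit 76) (nat_lit 71036592921) (nat_lit 76) (nat_lit 68663209048) (nat_lit 1) (nat_lit 4) (nat_lit 2) (nat_lit 5) (nat_lit 2) (nat_lit 4) (nat_lit 363) (nat_lit 221) (nat_lit 196)) (XT.lf (nat_lit 0) (nat_lit 41126577769) (nat_lit 76) (nat_lit 72655112591) (nat_lit 76) (nat_lit 70234368505) (nat_lit 1) (nat_lit 4) (nat_lit 2) (nat_lit 5) (nat_lit 2) (nat_lit 4) (nat_lit 364) (nat_lit 221) (nat_lit 195))))) (XT.nd (nat_lit 156) (nat_lit 0) (nat_lit 0) (XT.nd (nat_lit 78) (nat_lit 0) (nat_lit 0) (XT.lf (nat_lit 0) (nat_lit 46816499572) (nat_lit 76) (nat_lit 74385293019)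 (nat_lit 76) (nat_lit 71919443967) (nat_lit 1) (nat_lit 4) (nat_lit 2) (nat_lit 5) (nat_lit 2) (nat_lit 4) (nat_lit 365) (nat_lit 221) (nat_lit 194)) (XT.lf (nat_lit 0) (nat_lit 52729585995) (nat_lit 76) (nat_lit 76231253681) (nat_lit 76) (nat_lit 73722447519) (nat_lit 1) (nat_lit 4) (nat_lit 2) (nat_lit 5) (nat_lit 2) (nat_lit 4) (nat_lit 366) (nat_lit 221) (nat_lit 193))) (XT.nd (nat_lit 78) (nat_lit 0) (nat_lit 0) (XT.lf (nat_lit 0) (nat_lit 58879915816) (nat_lit 76) (nat_lit 78197389722) (nat_lit 76) (nat_lit 75647672027) (nat_lit 1) (nat_lit 4) (nat_lit 2) (nat_lit 5) (nat_lit 2) (nat_lit 4) (nat_lit 367) (nat_lit 221) (nat_lit 192)) (XT.nd (nat_lit 78) (nat_lit 0) (nat_lit 0) (XT.lf (nat_lit 0) (nat_lit 65282132675) (nat_lit 76) (nat_lit 80288382418) (nat_lit 76) (nat_lit 77699701358) (nat_lit 1) (nat_lit 4) (nat_lit 2) (nat_lit 5) (nat_lit 2) (nat_lit 4) (nat_lit 368) (nat_lit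 221) (nat_lit 191)) (XT.lf (nat_lit 0) (nat_lit 71951479948) (nat_lit 76) (nat_lit 82509210324) (nat_lit 76) (nat_lit 79883421298) (nat_lit 1) (nat_lit 4) (nat_lit 2) (nat_lit 5) (nat_lit 2) (nat_lit 4) (nat_lit 369) (nat_lit 221) (nat_lit 190)))))) (XT.nd (nat_lit 390) (nat_lit 0) (nat_lit 0) (XT.nd (nat_lit 156) (nat_lit 0) (nat_lit 0) (XT.nd (nat_lit 78) (nat_lit 0) (nat_lit 0) (XT.lf (nat_lit 0) (nat_lit 78903837032) (nat_lit 76) (nat_lit 84865161125) (nat_lit 76) (nat_lit 82204031178) (nat_lit 1) (nat_lit 4) (nat_lit 2) (nat_lit 5) (nat_lit 2) (nat_lit 4) (nat_lit 370) (nat_lit 221) (nat_lit 189)) (XT.lf (nat_lit 0) (nat_lit 86155757159) (nat_lit 76) (nat_lit 87361844228) (nat_lit 76) (nat_lit 84667056261) (nat_lit 1) (nat_lit 4) (nat_lit 2) (nat_lit 5) (nat_lit 2) (nat_lit 4) (nat_lit 371) (nat_lit 221) (nat_lit 188))) (XT.nd (nat_lit 78) (nat_lit 0) (nat_lit 0) (XT.lf (nat_lit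 0) (nat_lit 93724506804) (nat_lit 76) (nat_lit 90005204116) (nat_lit 76) (nat_lit 87278360892) (nat_lit 1) (nat_lit 4) (nat_lit 2) (nat_lit 5) (nat_lit 2) (nat_lit 4) (nat_lit 372) (nat_lit 221) (nat_lit 187)) (XT.nd (nat_lit 78) (nat_lit 0) (nat_lit 0) (XT.lf (nat_lit 0) (nat_lit 101628106800) (nat_lit 76) (nat_lit 92801534503) (nat_lit 76) (nat_lit 90044162463) (nat_lit 1) (nat_lit 4) (nat_lit 2) (nat_lit 5) (nat_lit 2) (nat_lit 4) (nat_lit 373) (nat_lit 221) (nat_lit 186)) (XT.lf (nat_lit 0) (nat_lit 109885375243) (nat_lit 76) (nat_lit 95757493318) (nat_lit 76) (nat_lit 92971046216) (nat_lit 1) (nat_lit 4) (nat_lit 2) (nat_lit 5) (nat_lit 2) (nat_lit 4) (nat_lit 374) (nat_lit 221) (nat_lit 185))))) (XT.nd (nat_lit 156) (nat_lit 0) (nat_lit 0) (XT.nd (nat_lit 78) (nat_lit 0) (nat_lit 0) (XT.lf (nat_lit 0) (nat_lit 118515972296) (nat_lit 76) (nat_lit 98880118560) (nat_lit 76) (nat_lit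 96065980921) (nat_lit 1) (nat_lit 4) (nat_lit 2) (nat_lit 5) (nat_lit 2) (nat_lit 4) (nat_lit 375) (nat_lit 221) (nat_lit 184)) (XT.lf (nat_lit 0) (nat_lit 127540446999) (nat_lit 76) (nat_lit 102176845049) (nat_lit 76) (nat_lit 99336335472) (nat_lit 1) (nat_lit 4) (nat_lit 2) (nat_lit 5) (nat_lit 2) (nat_lit 4) (nat_lit 376) (nat_lit 221) (nat_lit 183))) (XT.nd (nat_lit 78) (nat_lit 0) (nat_lit 0) (XT.lf (nat_lit 0) (nat_lit 136980286196) (nat_lit 76) (nat_lit 105655522135) (nat_lit 76) (nat_lit 102789896425) (nat_lit 1) (nat_lit 4) (nat_lit 2) (nat_lit 5) (nat_lit 2) (nat_lit 4) (nat_lit 377) (nat_lit 221) (nat_lit 182)) (XT.nd (nat_lit 78) (nat_lit 0) (nat_lit 0) (XT.lf (nat_lit 0) (nat_lit 146857965696) (nat_lit 76) (nat_lit 109324432382) (nat_lit 76) (nat_lit 106434886546) (nat_lit 1) (nat_lit 4) (nat_lit 2) (nat_lit 5) (nat_lit 2) (nat_lit 4) (nat_lit 378) (nat_lit 221) (nat_lit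 181)) (XT.lf (nat_lit 0) (nat_lit 157197003783) (nat_lit 76) (nat_lit 113192311291) (nat_lit 76) (nat_lit 110279984383) (nat_lit 1) (nat_lit 4) (nat_lit 2) (nat_lit 5) (nat_lit 2) (nat_lit 4) (nat_lit 379) (nat_lit 221) (nat_lit 180))))))) (XT.nd (nat_lit 780) (nat_lit 0) (nat_lit 0) (XT.nd (nat_lit 390) (nat_lit 0) (nat_lit 0) (XT.nd (nat_lit 156) (nat_lit 0) (nat_lit 0) (XT.nd (nat_lit 78) (nat_lit 0) (nat_lit 0) (XT.lf (nat_lit 0) (nat_lit 168022017213) (nat_lit 76) (nat_lit 117268368097) (nat_lit 76) (nat_lit 114334344929) (nat_lit 1) (nat_lit 4) (nat_lit 2) (nat_lit 5) (nat_lit 2) (nat_lit 4) (nat_lit 380) (nat_lit 221) (nat_lit 179)) (XT.lf (nat_lit 0) (nat_lit 179358779830) (nat_lit 76) (nat_lit 121562307698) (nat_lit 76) (nat_lit 118607621426) (nat_lit 1) (nat_lit 4) (nat_lit 2) (nat_lit 5) (nat_lit 2) (nat_lit 4) (nat_lit 381) (nat_lit 221) (nat_lit 178))) (XT.nd (nat_lit 78)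 (nat_lit 0) (nat_lit 0) (XT.lf (nat_lit 0) (nat_lit 191234283924) (nat_lit 76) (nat_lit 126084353758) (nat_lit 76) (nat_lit 123109988339) (nat_lit 1) (nat_lit 4) (nat_lit 2) (nat_lit 5) (nat_lit 2) (nat_lit 4) (nat_lit 382) (nat_lit 221) (nat_lit 177)) (XT.nd (nat_lit 78) (nat_lit 0) (nat_lit 0) (XT.lf (nat_lit 0) (nat_lit 203676804505) (nat_lit 76) (nat_lit 130845273056) (nat_lit 76) (nat_lit 127852165592) (nat_lit 1) (nat_lit 4) (nat_lit 2) (nat_lit 5) (nat_lit 2) (nat_lit 4) (nat_lit 383) (nat_lit 221) (nat_lit 176)) (XT.lf (nat_lit 0) (nat_lit 216715966623) (nat_lit 76) (nat_lit 135856401111) (nat_lit 76) (nat_lit 132845444081) (nat_lit 1) (nat_lit 4) (nat_lit 2) (nat_lit 5) (nat_lit 2) (nat_lit 4) (nat_lit 384) (nat_lit 221) (nat_lit 175))))) (XT.nd (nat_lit 156) (nat_lit 0) (nat_lit 0) (XT.nd (nat_lit 78) (nat_lit 0) (nat_lit 0) (XT.lf (nat_lit 0) (nat_lit 230382815901) (nat_lit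 76) (nat_lit 141129669183) (nat_lit 76) (nat_lit 138101712565) (nat_lit 1) (nat_lit 4) (nat_lit 2) (nat_lit 5) (nat_lit 2) (nat_lit 4) (nat_lit 385) (nat_lit 221) (nat_lit 174)) (XT.lf (nat_lit 0) (nat_lit 244709892457) (nat_lit 76) (nat_lit 146677632670) (nat_lit 76) (nat_lit 143633485970) (nat_lit 1) (nat_lit 4) (nat_lit 2) (nat_lit 5) (nat_lit 2) (nat_lit 4) (nat_lit 386) (nat_lit 221) (nat_lit 173))) (XT.nd (nat_lit 78) (nat_lit 0) (nat_lit 0) (XT.lf (nat_lit 0) (nat_lit 259731308378) (nat_lit 76) (nat_lit 152513501011) (nat_lit 76) (nat_lit 149453935184) (nat_lit 1) (nat_lit 4) (nat_lit 2) (nat_lit 5) (nat_lit 2) (nat_lit 4) (nat_lit 387) (nat_lit 221) (nat_lit 172)) (XT.nd (nat_lit 78) (nat_lit 0) (nat_lit 0) (XT.lf (nat_lit 0) (nat_lit 275482828939) (nat_lit 76) (nat_lit 158651169129) (nat_lit 76) (nat_lit 155576918419) (nat_lit 1) (nat_lit 4) (nat_lit 2) (nat_lit 5) (nat_lit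 2) (nat_lit 4) (nat_lit 388) (nat_lit 221) (nat_lit 171)) (XT.lf (nat_lit 0) (nat_lit 292001957762) (nat_lit 76) (nat_lit 165105250520) (nat_lit 76) (nat_lit 162017014208) (nat_lit 1) (nat_lit 4) (nat_lit 2) (nat_lit 5) (nat_lit 2) (nat_lit 4) (nat_lit 389) (nat_lit 221) (nat_lit 170)))))) (XT.nd (nat_lit 36660) (nat_lit 0) (nat_lit 76) (XT.nd (nat_lit 36426) (nat_lit 0) (nat_lit 228) (XT.nd (nat_lit 78) (nat_lit 0) (nat_lit 0) (XT.lf (nat_lit 0) (nat_lit 309328026105) (nat_lit 76) (nat_lit 171891112044) (nat_lit 76) (nat_lit 168789556111) (nat_lit 1) (nat_lit 4) (nat_lit 2) (nat_lit 5) (nat_lit 2) (nat_lit 4) (nat_lit 390) (nat_lit 221) (nat_lit 169)) (XT.lf (nat_lit 0) (nat_lit 327502286512) (nat_lit 76) (nat_lit 179024910515) (nat_lit 76) (nat_lit 175910669229) (nat_lit 1) (nat_lit 4) (nat_lit 2) (nat_lit 5) (nat_lit 2) (nat_lit 4) (nat_lit 391) (nat_lit 221) (nat_lit 168))) (XT.nd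 (nat_lit 78) (nat_lit 0) (nat_lit 0) (XT.lf (nat_lit 0) (nat_lit 14045655483) (nat_lit 76) (nat_lit 5237222663) (nat_lit 76) (nat_lit 5237222663) (nat_lit 4) (nat_lit 4) (nat_lit 5) (nat_lit 5) (nat_lit 5) (nat_lit 4) (nat_lit 336) (nat_lit 222) (nat_lit 222)) (XT.nd (nat_lit 78) (nat_lit 0) (nat_lit 0) (XT.lf (nat_lit 0) (nat_lit 36063487781) (nat_lit 76) (nat_lit 7715322377) (nat_lit 76) (nat_lit 7538505088) (nat_lit 4) (nat_lit 4) (nat_lit 5) (nat_lit 5) (nat_lit 5) (nat_lit 4) (nat_lit 337) (nat_lit 222) (nat_lit 221)) (XT.lf (nat_lit 0) (nat_lit 44227459257) (nat_lit 76) (nat_lit 4915773747) (nat_lit 76) (nat_lit 4570559040) (nat_lit 4) (nat_lit 4) (nat_lit 5) (nat_lit 5) (nat_lit 5) (nat_lit 4) (nat_lit 338) (nat_lit 222) (nat_lit 220))))) (XT.nd (nat_lit 156) (nat_lit 0) (nat_lit 0) (XT.nd (nat_lit 78) (nat_lit 152) (nat_lit 0) (XT.lf (nat_lit 0) (nat_lit 52602663421) (nat_lit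 76) (nat_lit 2069133846) (nat_lit 76) (nat_lit 1563540646) (nat_lit 4) (nat_lit 4) (nat_lit 5) (nat_lit 5) (nat_lit 5) (nat_lit 4) (nat_lit 339) (nat_lit 222) (nat_lit 219)) (XT.lf (nat_lit 0) (nat_lit 1493060312) (nat_lit 152) (nat_lit 56525106804) (nat_lit 0) (nat_lit 866074957) (nat_lit 2) (nat_lit 5) (nat_lit 4) (nat_lit 4) (nat_lit 2) (nat_lit 4) (nat_lit 340) (nat_lit 222) (nat_lit 218))) (XT.nd (nat_lit 78) (nat_lit 0) (nat_lit 0) (XT.lf (nat_lit 0) (nat_lit 4646086651) (nat_lit 152) (nat_lit 53137891475) (nat_lit 0) (nat_lit 3880560324) (nat_lit 2) (nat_lit 5) (nat_lit 4) (nat_lit 4) (nat_lit 2) (nat_lit 4) (nat_lit 341) (nat_lit 222) (nat_lit 217)) (XT.nd (nat_lit 78) (nat_lit 0) (nat_lit 0) (XT.lf (nat_lit 0) (nat_lit 7861231623) (nat_lit 152) (nat_lit 49763667078) (nat_lit 0) (nat_lit 6963761513) (nat_lit 2) (nat_lit 5) (nat_lit 4) (nat_lit 4) (nat_lit 2) (nat_lit 4) (nat_lit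 342) (nat_lit 222) (nat_lit 216)) (XT.lf (nat_lit 0) (nat_lit 11146150334) (nat_lit 152) (nat_lit 46394399744) (nat_lit 0) (nat_lit 10123019478) (nat_lit 2) (nat_lit 5) (nat_lit 4) (nat_lit 4) (nat_lit 2) (nat_lit 4) (nat_lit 343) (nat_lit 222) (nat_lit 215))))))))
noncomputable def xc19 : XT := (XT.nd (nat_lit 1560) (nat_lit 0) (nat_lit 0) (XT.nd (nat_lit 780) (nat_lit 76) (nat_lit 0) (XT.nd (nat_lit 390) (nat_lit 0) (nat_lit 0) (XT.nd (nat_lit 156) (nat_lit 0) (nat_lit 0) (XT.nd (nat_lit 78) (nat_lit 0) (nat_lit 0) (XT.lf (nat_lit 0) (nat_lit 14508664020) (nat_lit 152) (nat_lit 43022067408) (nat_lit 0) (nat_lit 13365856263) (nat_lit 2) (nat_lit 5) (nat_lit 4) (nat_lit 4) (nat_lit 2) (nat_lit 4) (nat_lit 344) (nat_lit 222) (nat_lit 214)) (XT.lf (nat_lit 0) (nat_lit 17956778665) (nat_lit 152) (nat_lit 39638640708) (nat_lit 0) (nat_lit 16699992907) (nat_lit 2) (nat_lit 5) (nat_lit 4)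 (nat_lit 4) (nat_lit 2) (nat_lit 4) (nat_lit 345) (nat_lit 222) (nat_lit 213))) (XT.nd (nat_lit 78) (nat_lit 0) (nat_lit 0) (XT.lf (nat_lit 0) (nat_lit 21498704067) (nat_lit 152) (nat_lit 36236063866) (nat_lit 0) (nat_lit 20133367832) (nat_lit 2) (nat_lit 5) (nat_lit 4) (nat_lit 4) (nat_lit 2) (nat_lit 4) (nat_lit 346) (nat_lit 222) (nat_lit 212)) (XT.nd (nat_lit 78) (nat_lit 0) (nat_lit 0) (XT.lf (nat_lit 0) (nat_lit 25142873380) (nat_lit 152) (nat_lit 32806235508) (nat_lit 0) (nat_lit 23674155738) (nat_lit 2) (nat_lit 5) (nat_lit 4) (nat_lit 4) (nat_lit 2) (nat_lit 4) (nat_lit 347) (nat_lit 222) (nat_lit 211)) (XT.lf (nat_lit 0) (nat_lit 28897963199) (nat_lit 152) (nat_lit 29340989376) (nat_lit 0) (nat_lit 27330787075) (nat_lit 2) (nat_lit 5) (nat_lit 4) (nat_lit 4) (nat_lit 2) (nat_lit 4) (nat_lit 348) (nat_lit 222) (nat_lit 210))))) (XT.nd (nat_lit 156) (nat_lit 0) (nat_lit 0) (XT.nd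 (nat_lit 78) (nat_lit 0) (nat_lit 0) (XT.lf (nat_lit 0) (nat_lit 32772914214) (nat_lit 152) (nat_lit 25832074885) (nat_lit 0) (nat_lit 31111968106) (nat_lit 2) (nat_lit 5) (nat_lit 4) (nat_lit 4) (nat_lit 2) (nat_lit 4) (nat_lit 349) (nat_lit 222) (nat_lit 209)) (XT.lf (nat_lit 0) (nat_lit 36776952497) (nat_lit 152) (nat_lit 22271137476) (nat_lit 0) (nat_lit 35026701643) (nat_lit 2) (nat_lit 5) (nat_lit 4) (nat_lit 4) (nat_lit 2) (nat_lit 4) (nat_lit 350) (nat_lit 222) (nat_lit 208))) (XT.nd (nat_lit 78) (nat_lit 0) (nat_lit 0) (XT.lf (nat_lit 0) (nat_lit 40919611475) (nat_lit 152) (nat_lit 18649698726) (nat_lit 0) (nat_lit 39084308482) (nat_lit 2) (nat_lit 5) (nat_lit 4) (nat_lit 4) (nat_lit 2) (nat_lit 4) (nat_lit 351) (nat_lit 222) (nat_lit 207)) (XT.nd (nat_lit 78) (nat_lit 0) (nat_lit 0) (XT.lf (nat_lit 0) (nat_lit 45210754621) (nat_lit 152) (nat_lit 14959136163) (nat_lit 0) (nat_lit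 43294449590) (nat_lit 2) (nat_lit 5) (nat_lit 4) (nat_lit 4) (nat_lit 2) (nat_lit 4) (nat_lit 352) (nat_lit 222) (nat_lit 206)) (XT.lf (nat_lit 0) (nat_lit 49660598941) (nat_lit 152) (nat_lit 11190662732) (nat_lit 0) (nat_lit 47667149113) (nat_lit 2) (nat_lit 5) (nat_lit 4) (nat_lit 4) (nat_lit 2) (nat_lit 4) (nat_lit 353) (nat_lit 222) (nat_lit 205)))))) (XT.nd (nat_lit 390) (nat_lit 0) (nat_lit 0) (XT.nd (nat_lit 156) (nat_lit 76) (nat_lit 0) (XT.nd (nat_lit 78) (nat_lit 0) (nat_lit 0) (XT.lf (nat_lit 0) (nat_lit 54279739304) (nat_lit 152) (nat_lit 7335305878) (nat_lit 0) (nat_lit 52212818241) (nat_lit 2) (nat_lit 5) (nat_lit 4) (nat_lit 4) (nat_lit 2) (nat_lit 4) (nat_lit 354) (nat_lit 222) (nat_lit 204)) (XT.lf (nat_lit 0) (nat_lit 59079173663) (nat_lit 152) (nat_lit 3383886180) (nat_lit 0) (nat_lit 56942279995) (nat_lit 2) (nat_lit 5) (nat_lit 4) (nat_lit 4) (nat_lit 2) (nat_lit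 4) (nat_lit 355) (nat_lit 222) (nat_lit 203))) (XT.nd (nat_lit 78) (nat_lit 0) (nat_lit 0) (XT.lf (nat_lit 0) (nat_lit 695257072) (nat_lit 76) (nat_lit 63385927082) (nat_lit 76) (nat_lit 61182392837) (nat_lit 1) (nat_lit 4) (nat_lit 2) (nat_lit 5) (nat_lit 2) (nat_lit 4) (nat_lit 356) (nat_lit 222) (nat_lit 202)) (XT.nd (nat_lit 78) (nat_lit 0) (nat_lit 0) (XT.lf (nat_lit 0) (nat_lit 5005223859) (nat_lit 76) (nat_lit 64338011458) (nat_lit 76) (nat_lit 62071009997) (nat_lit 1) (nat_lit 4) (nat_lit 2) (nat_lit 5) (nat_lit 2) (nat_lit 4) (nat_lit 357) (nat_lit 222) (nat_lit 201)) (XT.lf (nat_lit 0) (nat_lit 9444389449) (nat_lit 76) (nat_lit 65378887590) (nat_lit 76) (nat_lit 63051441161) (nat_lit 1) (nat_lit 4) (nat_lit 2) (nat_lit 5) (nat_lit 2) (nat_lit 4) (nat_lit 358) (nat_lit 222) (nat_lit 200))))) (XT.nd (nat_lit 156) (nat_lit 0) (nat_lit 0) (XT.nd (nat_lit 78) (nat_lit 0) (nat_lit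 0) (XT.lf (nat_lit 0) (nat_lit 14023323282) (nat_lit 76) (nat_lit 66511033753) (nat_lit 76) (nat_lit 64126020689) (nat_lit 1) (nat_lit 4) (nat_lit 2) (nat_lit 5) (nat_lit 2) (nat_lit 4) (nat_lit 359) (nat_lit 222) (nat_lit 199)) (XT.lf (nat_lit 0) (nat_lit 18752927581) (nat_lit 76) (nat_lit 67737145535) (nat_lit 76) (nat_lit 65297307104) (nat_lit 1) (nat_lit 4) (nat_lit 2) (nat_lit 5) (nat_lit 2) (nat_lit 4) (nat_lit 360) (nat_lit 222) (nat_lit 198))) (XT.nd (nat_lit 78) (nat_lit 0) (nat_lit 0) (XT.lf (nat_lit 0) (nat_lit 23644463310) (nat_lit 76) (nat_lit 69060142249) (nat_lit 76) (nat_lit 66568089182) (nat_lit 1) (nat_lit 4) (nat_lit 2) (nat_lit 5) (nat_lit 2) (nat_lit 4) (nat_lit 361) (nat_lit 222) (nat_lit 197)) (XT.nd (nat_lit 78) (nat_lit 0) (nat_lit 0) (XT.lf (nat_lit 0) (nat_lit 28709576983) (nat_lit 76) (nat_lit 70483173886) (nat_lit 76) (nat_lit 67941392595) (nat_lit 1) (nat_lit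 4) (nat_lit 2) (nat_lit 5) (nat_lit 2) (nat_lit 4) (nat_lit 362) (nat_lit 222) (nat_lit 196)) (XT.lf (nat_lit 0) (nat_lit 33960328392) (nat_lit 76) (nat_lit 72009628618) (nat_lit 76) (nat_lit 69420487113) (nat_lit 1) (nat_lit 4) (nat_lit 2) (nat_lit 5) (nat_lit 2) (nat_lit 4) (nat_lit 363) (nat_lit 222) (nat_lit 195))))))) (XT.nd (nat_lit 780) (nat_lit 0) (nat_lit 0) (XT.nd (nat_lit 390) (nat_lit 0) (nat_lit 0) (XT.nd (nat_lit 156) (nat_lit 0) (nat_lit 0) (XT.nd (nat_lit 78) (nat_lit 0) (nat_lit 0) (XT.lf (nat_lit 0) (nat_lit 39409219329) (nat_lit 76) (nat_lit 73643140861) (nat_lit 76) (nat_lit 71008894391) (nat_lit 1) (nat_lit 4) (nat_lit 2) (nat_lit 5) (nat_lit 2) (nat_lit 4) (nat_lit 364) (nat_lit 222) (nat_lit 194)) (XT.lf (nat_lit 0) (nat_lit 45069223342) (nat_lit 76) (nat_lit 75387599929) (nat_lit 76) (nat_lit 72710396349) (nat_lit 1) (nat_lit 4) (nat_lit 2) (nat_lit 5) (nat_lit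 2) (nat_lit 4) (nat_lit 365) (nat_lit 222) (nat_lit 193))) (XT.nd (nat_lit 78) (nat_lit 0) (nat_lit 0) (XT.lf (nat_lit 0) (nat_lit 50953816632) (nat_lit 76) (nat_lit 77247159296) (nat_lit 76) (nat_lit 74529044183) (nat_lit 1) (nat_lit 4) (nat_lit 2) (nat_lit 5) (nat_lit 2) (nat_lit 4) (nat_lit 366) (nat_lit 222) (nat_lit 192)) (XT.nd (nat_lit 78) (nat_lit 0) (nat_lit 0) (XT.lf (nat_lit 0) (nat_lit 57077010134) (nat_lit 76) (nat_lit 79226246485) (nat_lit 76) (nat_lit 76469168007) (nat_lit 1) (nat_lit 4) (nat_lit 2) (nat_lit 5) (nat_lit 2) (nat_lit 4) (nat_lit 367) (nat_lit 222) (nat_lit 191)) (XT.lf (nat_lit 0) (nat_lit 63453382882) (nat_lit 76) (nat_lit 81329573608) (nat_lit 76) (nat_lit 78535387164) (nat_lit 1) (nat_lit 4) (nat_lit 2) (nat_lit 5) (nat_lit 2) (nat_lit 4) (nat_lit 368) (nat_lit 222) (nat_lit 190))))) (XT.nd (nat_lit 156) (nat_lit 0) (nat_lit 0) (XT.nd (nat_lit 78) (nat_lit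 0) (nat_lit 0) (XT.lf (nat_lit 0) (nat_lit 70098116714) (nat_lit 76) (nat_lit 83562148587) (nat_lit 76) (nat_lit 80732621222) (nat_lit 1) (nat_lit 4) (nat_lit 2) (nat_lit 5) (nat_lit 2) (nat_lit 4) (nat_lit 369) (nat_lit 222) (nat_lit 189)) (XT.lf (nat_lit 0) (nat_lit 77027032426) (nat_lit 76) (nat_lit 85929287077) (nat_lit 76) (nat_lit 83066101692) (nat_lit 1) (nat_lit 4) (nat_lit 2) (nat_lit 5) (nat_lit 2) (nat_lit 4) (nat_lit 370) (nat_lit 222) (nat_lit 188))) (XT.nd (nat_lit 78) (nat_lit 0) (nat_lit 0) (XT.lf (nat_lit 0) (nat_lit 84256627437) (nat_lit 76) (nat_lit 88436625121) (nat_lit 76) (nat_lit 85541384479) (nat_lit 1) (nat_lit 4) (nat_lit 2) (nat_lit 5) (nat_lit 2) (nat_lit 4) (nat_lit 371) (nat_lit 222) (nat_lit 187)) (XT.nd (nat_lit 78) (nat_lit 0) (nat_lit 0) (XT.lf (nat_lit 0) (nat_lit 91804115067) (nat_lit 76) (nat_lit 91090132572) (nat_lit 76) (nat_lit 88164363114) (nat_lit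 1) (nat_lit 4) (nat_lit 2) (nat_lit 5) (nat_lit 2) (nat_lit 4) (nat_lit 372) (nat_lit 222) (nat_lit 186)) (XT.lf (nat_lit 0) (nat_lit 99687465525) (nat_lit 76) (nat_lit 93896127305) (nat_lit 76) (nat_lit 90941282785) (nat_lit 1) (nat_lit 4) (nat_lit 2) (nat_lit 5) (nat_lit 2) (nat_lit 4) (nat_lit 373) (nat_lit 222) (nat_lit 185)))))) (XT.nd (nat_lit 390) (nat_lit 0) (nat_lit 0) (XT.nd (nat_lit 156) (nat_lit 0) (nat_lit 0) (XT.nd (nat_lit 78) (nat_lit 0) (nat_lit 0) (XT.lf (nat_lit 0) (nat_lit 107925448694) (nat_lit 76) (nat_lit 96861290259) (nat_lit 76) (nat_lit 93878755203) (nat_lit 1) (nat_lit 4) (nat_lit 2) (nat_lit 5) (nat_lit 2) (nat_lit 4) (nat_lit 374) (nat_lit 222) (nat_lit 184)) (XT.lf (nat_lit 0) (nat_lit 116537678819) (nat_lit 76) (nat_lit 99992681348) (nat_lit 76) (nat_lit 96983774352) (nat_lit 1) (nat_lit 4) (nat_lit 2) (nat_lit 5) (nat_lit 2) (nat_lit 4) (nat_lit 375) (nat_lit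 222) (nat_lit 183))) (XT.nd (nat_lit 78) (nat_lit 0) (nat_lit 0) (XT.lf (nat_lit 0) (nat_lit 125544661209) (nat_lit 76) (nat_lit 103297756262) (nat_lit 76) (nat_lit 100263733135) (nat_lit 1) (nat_lit 4) (nat_lit 2) (nat_lit 5) (nat_lit 2) (nat_lit 4) (nat_lit 376) (nat_lit 222) (nat_lit 182)) (XT.nd (nat_lit 78) (nat_lit 0) (nat_lit 0) (XT.lf (nat_lit 0) (nat_lit 134967841061) (nat_lit 76) (nat_lit 106784384230) (nat_lit 76) (nat_lit 103726440976) (nat_lit 1) (nat_lit 4) (nat_lit 2) (nat_lit 5) (nat_lit 2) (nat_lit 4) (nat_lit 377) (nat_lit 222) (nat_lit 181)) (XT.lf (nat_lit 0) (nat_lit 144829654518) (nat_lit 76) (nat_lit 110460866745) (nat_lit 76) (nat_lit 107380142419) (nat_lit 1) (nat_lit 4) (nat_lit 2) (nat_lit 5) (nat_lit 2) (nat_lit 4) (nat_lit 378) (nat_lit 222) (nat_lit 180))))) (XT.nd (nat_lit 234) (nat_lit 0) (nat_lit 0) (XT.nd (nat_lit 78) (nat_lit 0) (nat_lit 0) (XT.lf (nat_lit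 0) (nat_lit 155153582088) (nat_lit 76) (nat_lit 114335957338) (nat_lit 76) (nat_lit 111233536752) (nat_lit 1) (nat_lit 4) (nat_lit 2) (nat_lit 5) (nat_lit 2) (nat_lit 4) (nat_lit 379) (nat_lit 222) (nat_lit 179)) (XT.nd (nat_lit 78) (nat_lit 0) (nat_lit 0) (XT.lf (nat_lit 0) (nat_lit 165964204550) (nat_lit 76) (nat_lit 118418882414) (nat_lit 76) (nat_lit 115295798724) (nat_lit 1) (nat_lit 4) (nat_lit 2) (nat_lit 5) (nat_lit 2) (nat_lit 4) (nat_lit 380) (nat_lit 222) (nat_lit 178)) (XT.lf (nat_lit 0) (nat_lit 177287261481) (nat_lit 76) (nat_lit 122719363224) (nat_lit 76) (nat_lit 119576600387) (nat_lit 1) (nat_lit 4) (nat_lit 2) (nat_lit 5) (nat_lit 2) (nat_lit 4) (nat_lit 381) (nat_lit 222) (nat_lit 177)))) (XT.nd (nat_lit 78) (nat_lit 0) (nat_lit 0) (XT.lf (nat_lit 0) (nat_lit 189149712543) (nat_lit 76) (nat_lit 127247639009) (nat_lit 76) (nat_lit 124086134127) (nat_lit 1) (nat_lit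 4) (nat_lit 2) (nat_lit 5) (nat_lit 2) (nat_lit 4) (nat_lit 382) (nat_lit 222) (nat_lit 176)) (XT.nd (nat_lit 78) (nat_lit 0) (nat_lit 0) (XT.lf (nat_lit 0) (nat_lit 201579801664) (nat_lit 76) (nat_lit 132014491376) (nat_lit 76) (nat_lit 128835136928) (nat_lit 1) (nat_lit 4) (nat_lit 2) (nat_lit 5) (nat_lit 2) (nat_lit 4) (nat_lit 383) (nat_lit 222) (nat_lit 175)) (XT.lf (nat_lit 0) (nat_lit 214607124296) (nat_lit 76) (nat_lit 137031269975) (nat_lit 76) (nat_lit 133834915939) (nat_lit 1) (nat_lit 4) (nat_lit 2) (nat_lit 5) (nat_lit 2) (nat_lit 4) (nat_lit 384) (nat_lit 222) (nat_lit 174))))))))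
noncomputable def xc20 : XT := (XT.nd (nat_lit 37674) (nat_lit 0) (nat_lit 0) (XT.nd (nat_lit 36894) (nat_lit 0) (nat_lit 76) (XT.nd (nat_lit 390) (nat_lit 0) (nat_lit 0) (XT.nd (nat_lit 156) (nat_lit 0) (nat_lit 0) (XT.nd (nat_lit 78) (nat_lit 0) (nat_lit 0) (XT.lf (nat_lit 0) (nat_lit 228262697874) (nat_lit 76) (nat_lit 142309919516) (nat_lit 76) (nat_lit 139097375397) (nat_lit 1) (nat_lit 4) (nat_lit 2) (nat_lit 5) (nat_lit 2) (nat_lit 4) (nat_lit 385) (nat_lit 222) (nat_lit 173)) (XT.lf (nat_lit 0) (nat_lit 242579035667) (nat_lit 76) (nat_lit 147863008212) (nat_lit 76) (nat_lit 144635044967) (nat_lit 1) (nat_lit 4) (nat_lit 2) (nat_lit 5) (nat_lit 2) (nat_lit 4) (nat_lit 386) (nat_lit 222) (nat_lit 172))) (XT.nd (nat_lit 78) (nat_lit 0) (nat_lit 0) (XT.lf (nat_lit 0) (nat_lit 257590224195) (nat_lit 76) (nat_lit 153703757704) (nat_lit 76) (nat_lit 150461109577) (nat_lit 1) (nat_lit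 4) (nat_lit 2) (nat_lit 5) (nat_lit 2) (nat_lit 4) (nat_lit 387) (nat_lit 222) (nat_lit 171)) (XT.nd (nat_lit 78) (nat_lit 0) (nat_lit 0) (XT.lf (nat_lit 0) (nat_lit 273332004383) (nat_lit 76) (nat_lit 159846074538) (nat_lit 76) (nat_lit 156589440808) (nat_lit 1) (nat_lit 4) (nat_lit 2) (nat_lit 5) (nat_lit 2) (nat_lit 4) (nat_lit 388) (nat_lit 222) (nat_lit 170)) (XT.lf (nat_lit 0) (nat_lit 289841856659) (nat_lit 76) (nat_lit 166304583277) (nat_lit 76) (nat_lit 163034629926) (nat_lit 1) (nat_lit 4) (nat_lit 2) (nat_lit 5) (nat_lit 2) (nat_lit 4) (nat_lit 389) (nat_lit 222) (nat_lit 169))))) (XT.nd (nat_lit 36270) (nat_lit 0) (nat_lit 228) (XT.nd (nat_lit 78) (nat_lit 0) (nat_lit 0) (XT.lf (nat_lit 0) (nat_lit 307159090195) (nat_lit 76) (nat_lit 173094661324) (nat_lit 76) (nat_lit 169812022619) (nat_lit 1) (nat_lit 4) (nat_lit 2) (nat_lit 5) (nat_lit 2) (nat_lit 4) (nat_lit 390) (nat_lit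 222) (nat_lit 168)) (XT.lf (nat_lit 0) (nat_lit 325324936501) (nat_lit 76) (nat_lit 180232475530) (nat_lit 76) (nat_lit 176937755537) (nat_lit 1) (nat_lit 4) (nat_lit 2) (nat_lit 5) (nat_lit 2) (nat_lit 4) (nat_lit 391) (nat_lit 222) (nat_lit 167))) (XT.nd (nat_lit 78) (nat_lit 0) (nat_lit 0) (XT.lf (nat_lit 0) (nat_lit 6379026480) (nat_lit 76) (nat_lit 8015408366) (nat_lit 76) (nat_lit 8015408366) (nat_lit 4) (nat_lit 4) (nat_lit 5) (nat_lit 5) (nat_lit 5) (nat_lit 4) (nat_lit 334) (nat_lit 223) (nat_lit 223)) (XT.nd (nat_lit 78) (nat_lit 0) (nat_lit 0) (XT.lf (nat_lit 0) (nat_lit 20291947439) (nat_lit 76) (nat_lit 13385370091) (nat_lit 76) (nat_lit 13199711938) (nat_lit 4) (nat_lit 4) (nat_lit 5) (nat_lit 5) (nat_lit 5) (nat_lit 4) (nat_lit 335) (nat_lit 223) (nat_lit 222)) (XT.lf (nat_lit 0) (nat_lit 27985381752) (nat_lit 76) (nat_lit 10710058110) (nat_lit 76) (nat_lit 10347582668)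 (nat_lit 4) (nat_lit 4) (nat_lit 5) (nat_lit 5) (nat_lit 5) (nat_lit 4) (nat_lit 336) (nat_lit 223) (nat_lit 221)))))) (XT.nd (nat_lit 390) (nat_lit 0) (nat_lit 0) (XT.nd (nat_lit 156) (nat_lit 152) (nat_lit 0) (XT.nd (nat_lit 78) (nat_lit 0) (nat_lit 0) (XT.lf (nat_lit 0) (nat_lit 35856673601) (nat_lit 76) (nat_lit 7998510998) (nat_lit 76) (nat_lit 7467638138) (nat_lit 4) (nat_lit 4) (nat_lit 5) (nat_lit 5) (nat_lit 5) (nat_lit 4) (nat_lit 337) (nat_lit 223) (nat_lit 220)) (XT.lf (nat_lit 0) (nat_lit 43924564157) (nat_lit 76) (nat_lit 5244272690) (nat_lit 76) (nat_lit 4553021337) (nat_lit 4) (nat_lit 4) (nat_lit 5) (nat_lit 5) (nat_lit 5) (nat_lit 4) (nat_lit 338) (nat_lit 223) (nat_lit 219))) (XT.nd (nat_lit 78) (nat_lit 152) (nat_lit 0) (XT.lf (nat_lit 0) (nat_lit 52208262684) (nat_lit 76) (nat_lit 2440785477) (nat_lit 76) (nat_lit 1596792702) (nat_lit 4) (nat_lit 4) (nat_lit 5) (nat_lit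 5) (nat_lit 5) (nat_lit 4) (nat_lit 339) (nat_lit 223) (nat_lit 218)) (XT.nd (nat_lit 78) (nat_lit 0) (nat_lit 0) (XT.lf (nat_lit 0) (nat_lit 1399500866) (nat_lit 152) (nat_lit 57041198828) (nat_lit 0) (nat_lit 457157250) (nat_lit 2) (nat_lit 5) (nat_lit 4) (nat_lit 4) (nat_lit 2) (nat_lit 4) (nat_lit 340) (nat_lit 223) (nat_lit 217)) (XT.lf (nat_lit 0) (nat_lit 4505925896) (nat_lit 152) (nat_lit 53742935547) (nat_lit 0) (nat_lit 3431638497) (nat_lit 2) (nat_lit 5) (nat_lit 4) (nat_lit 4) (nat_lit 2) (nat_lit 4) (nat_lit 341) (nat_lit 223) (nat_lit 216))))) (XT.nd (nat_lit 156) (nat_lit 0) (nat_lit 0) (XT.nd (nat_lit 78) (nat_lit 0) (nat_lit 0) (XT.lf (nat_lit 0) (nat_lit 7676688668) (nat_lit 152) (nat_lit 50453427385) (nat_lit 0) (nat_lit 6476740523) (nat_lit 2) (nat_lit 5) (nat_lit 4) (nat_lit 4) (nat_lit 2) (nat_lit 4) (nat_lit 342) (nat_lit 223) (nat_lit 215)) (XT.lf (nat_lit 0)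 (nat_lit 10919338618) (nat_lit 152) (nat_lit 47164842181) (nat_lit 0) (nat_lit 9599713572) (nat_lit 2) (nat_lit 5) (nat_lit 4) (nat_lit 4) (nat_lit 2) (nat_lit 4) (nat_lit 343) (nat_lit 223) (nat_lit 214))) (XT.nd (nat_lit 78) (nat_lit 0) (nat_lit 0) (XT.lf (nat_lit 0) (nat_lit 14241596340) (nat_lit 152) (nat_lit 43869349968) (nat_lit 0) (nat_lit 12807993293) (nat_lit 2) (nat_lit 5) (nat_lit 4) (nat_lit 4) (nat_lit 2) (nat_lit 4) (nat_lit 344) (nat_lit 223) (nat_lit 213)) (XT.nd (nat_lit 78) (nat_lit 0) (nat_lit 0) (XT.lf (nat_lit 0) (nat_lit 17651371973) (nat_lit 152) (nat_lit 40559104338) (nat_lit 0) (nat_lit 16109218449) (nat_lit 2) (nat_lit 5) (nat_lit 4) (nat_lit 4) (nat_lit 2) (nat_lit 4) (nat_lit 345) (nat_lit 223) (nat_lit 212)) (XT.lf (nat_lit 0) (nat_lit 21156784029) (nat_lit 152) (nat_lit 37226223752) (nat_lit 0) (nat_lit 19511249098) (nat_lit 2) (nat_lit 5) (nat_lit 4) (nat_lit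 4) (nat_lit 2) (nat_lit 4) (nat_lit 346) (nat_lit 223) (nat_lit 211))))))) (XT.nd (nat_lit 780) (nat_lit 76) (nat_lit 0) (XT.nd (nat_lit 390) (nat_lit 0) (nat_lit 0) (XT.nd (nat_lit 156) (nat_lit 0) (nat_lit 0) (XT.nd (nat_lit 78) (nat_lit 0) (nat_lit 0) (XT.lf (nat_lit 0) (nat_lit 24766178727) (nat_lit 152) (nat_lit 33862772782) (nat_lit 0) (nat_lit 23022185314) (nat_lit 2) (nat_lit 5) (nat_lit 4) (nat_lit 4) (nat_lit 2) (nat_lit 4) (nat_lit 347) (nat_lit 223) (nat_lit 210)) (XT.lf (nat_lit 0) (nat_lit 28488149865) (nat_lit 152) (nat_lit 30460743210) (nat_lit 0) (nat_lit 26650386469) (nat_lit 2) (nat_lit 5) (nat_lit 4) (nat_lit 4) (nat_lit 2) (nat_lit 4) (nat_lit 348) (nat_lit 223) (nat_lit 209))) (XT.nd (nat_lit 78) (nat_lit 0) (nat_lit 0) (XT.lf (nat_lit 0) (nat_lit 32331559279) (nat_lit 152) (nat_lit 27012034965) (nat_lit 0) (nat_lit 30404491136) (nat_lit 2) (nat_lit 5) (nat_lit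 4) (nat_lit 4) (nat_lit 2) (nat_lit 4) (nat_lit 349) (nat_lit 223) (nat_lit 208)) (XT.nd (nat_lit 78) (nat_lit 0) (nat_lit 0) (XT.lf (nat_lit 0) (nat_lit 36305557943) (nat_lit 152) (nat_lit 23508436839) (nat_lit 0) (nat_lit 34293437661) (nat_lit 2) (nat_lit 5) (nat_lit 4) (nat_lit 4) (nat_lit 2) (nat_lit 4) (nat_lit 350) (nat_lit 223) (nat_lit 207)) (XT.lf (nat_lit 0) (nat_lit 40419607760) (nat_lit 152) (nat_lit 19941606930) (nat_lit 0) (nat_lit 38326485440) (nat_lit 2) (nat_lit 5) (nat_lit 4) (nat_lit 4) (nat_lit 2) (nat_lit 4) (nat_lit 351) (nat_lit 223) (nat_lit 206))))) (XT.nd (nat_lit 156) (nat_lit 0) (nat_lit 0) (XT.nd (nat_lit 78) (nat_lit 0) (nat_lit 0) (XT.lf (nat_lit 0) (nat_lit 44683504084) (nat_lit 152) (nat_lit 16303052787) (nat_lit 0) (nat_lit 42513236968) (nat_lit 2) (nat_lit 5) (nat_lit 4) (nat_lit 4) (nat_lit 2) (nat_lit 4) (nat_lit 352) (nat_lit 223) (nat_lit 205))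 (XT.lf (nat_lit 0) (nat_lit 49107399052) (nat_lit 152) (nat_lit 12584111185) (nat_lit 0) (nat_lit 46863660700) (nat_lit 2) (nat_lit 5) (nat_lit 4) (nat_lit 4) (nat_lit 2) (nat_lit 4) (nat_lit 353) (nat_lit 223) (nat_lit 204))) (XT.nd (nat_lit 78) (nat_lit 0) (nat_lit 0) (XT.lf (nat_lit 0) (nat_lit 53701825746) (nat_lit 152) (nat_lit 8775927501) (nat_lit 0) (nat_lit 51388114788) (nat_lit 2) (nat_lit 5) (nat_lit 4) (nat_lit 4) (nat_lit 2) (nat_lit 4) (nat_lit 354) (nat_lit 223) (nat_lit 203)) (XT.nd (nat_lit 78) (nat_lit 0) (nat_lit 0) (XT.lf (nat_lit 0) (nat_lit 58477723277) (nat_lit 152) (nat_lit 4869434631) (nat_lit 0) (nat_lit 56097371743) (nat_lit 2) (nat_lit 5) (nat_lit 4) (nat_lit 4) (nat_lit 2) (nat_lit 4) (nat_lit 355) (nat_lit 223) (nat_lit 202)) (XT.lf (nat_lit 0) (nat_lit 63446462830) (nat_lit 152) (nat_lit 855331403) (nat_lit 0) (nat_lit 61002644080) (nat_lit 2) (nat_lit 5)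 (nat_lit 4) (nat_lit 4) (nat_lit 2) (nat_lit 4) (nat_lit 356) (nat_lit 223) (nat_lit 201)))))) (XT.nd (nat_lit 390) (nat_lit 0) (nat_lit 0) (XT.nd (nat_lit 156) (nat_lit 0) (nat_lit 0) (XT.nd (nat_lit 78) (nat_lit 0) (nat_lit 0) (XT.lf (nat_lit 0) (nat_lit 3384256930) (nat_lit 76) (nat_lit 65288455541) (nat_lit 76) (nat_lit 62784191824) (nat_lit 1) (nat_lit 4) (nat_lit 2) (nat_lit 5) (nat_lit 2) (nat_lit 4) (nat_lit 357) (nat_lit 223) (nat_lit 200)) (XT.lf (nat_lit 0) (nat_lit 7783329819) (nat_lit 76) (nat_lit 66348466417) (nat_lit 76) (nat_lit 63786636064) (nat_lit 1) (nat_lit 4) (nat_lit 2) (nat_lit 5) (nat_lit 2) (nat_lit 4) (nat_lit 358) (nat_lit 223) (nat_lit 199))) (XT.nd (nat_lit 78) (nat_lit 0) (nat_lit 0) (XT.lf (nat_lit 0) (nat_lit 12324080127) (nat_lit 76) (nat_lit 67498836146) (nat_lit 76) (nat_lit 64882180426) (nat_lit 1) (nat_lit 4) (nat_lit 2) (nat_lit 5) (nat_lit 2) (nat_lit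 4) (nat_lit 359) (nat_lit 223) (nat_lit 198)) (XT.nd (nat_lit 78) (nat_lit 0) (nat_lit 0) (XT.lf (nat_lit 0) (nat_lit 17017319166) (nat_lit 76) (nat_lit 68742303705) (nat_lit 76) (nat_lit 66073433349) (nat_lit 1) (nat_lit 4) (nat_lit 2) (nat_lit 5) (nat_lit 2) (nat_lit 4) (nat_lit 360) (nat_lit 223) (nat_lit 197)) (XT.lf (nat_lit 0) (nat_lit 21874221313) (nat_lit 76) (nat_lit 70081829730) (nat_lit 76) (nat_lit 67363231150) (nat_lit 1) (nat_lit 4) (nat_lit 2) (nat_lit 5) (nat_lit 2) (nat_lit 4) (nat_lit 361) (nat_lit 223) (nat_lit 196))))) (XT.nd (nat_lit 156) (nat_lit 0) (nat_lit 0) (XT.nd (nat_lit 78) (nat_lit 0) (nat_lit 0) (XT.lf (nat_lit 0) (nat_lit 26906350621) (nat_lit 76) (nat_lit 71520603569) (nat_lit 76) (nat_lit 68754644775) (nat_lit 1) (nat_lit 4) (nat_lit 2) (nat_lit 5) (nat_lit 2) (nat_lit 4) (nat_lit 362) (nat_lit 223) (nat_lit 195)) (XT.lf (nat_lit 0) (nat_lit 32125688351)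 (nat_lit 76) (nat_lit 73062050873) (nat_lit 76) (nat_lit 70250987114) (nat_lit 1) (nat_lit 4) (nat_lit 2) (nat_lit 5) (nat_lit 2) (nat_lit 4) (nat_lit 363) (nat_lit 223) (nat_lit 194))) (XT.nd (nat_lit 78) (nat_lit 0) (nat_lit 0) (XT.lf (nat_lit 0) (nat_lit 37544661497) (nat_lit 76) (nat_lit 74709841756) (nat_lit 76) (nat_lit 71855820888) (nat_lit 1) (nat_lit 4) (nat_lit 2) (nat_lit 5) (nat_lit 2) (nat_lit 4) (nat_lit 364) (nat_lit 223) (nat_lit 193)) (XT.nd (nat_lit 78) (nat_lit 0) (nat_lit 0) (XT.lf (nat_lit 0) (nat_lit 43176172376) (nat_lit 76) (nat_lit 76467899530) (nat_lit 76) (nat_lit 73572967128) (nat_lit 1) (nat_lit 4) (nat_lit 2) (nat_lit 5) (nat_lit 2) (nat_lit 4) (nat_lit 365) (nat_lit 223) (nat_lit 192)) (XT.lf (nat_lit 0) (nat_lit 49033629348) (nat_lit 76) (nat_lit 78340410045) (nat_lit 76) (nat_lit 75406514278) (nat_lit 1) (nat_lit 4) (nat_lit 2) (nat_lit 5) (nat_lit 2)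 (nat_lit 4) (nat_lit 366) (nat_lit 223) (nat_lit 191))))))))
noncomputable def xc21 : XT := (XT.nd (nat_lit 1560) (nat_lit 0) (nat_lit 0) (XT.nd (nat_lit 780) (nat_lit 0) (nat_lit 0) (XT.nd (nat_lit 390) (nat_lit 0) (nat_lit 0) (XT.nd (nat_lit 156) (nat_lit 0) (nat_lit 0) (XT.nd (nat_lit 78) (nat_lit 0) (nat_lit 0) (XT.lf (nat_lit 0) (nat_lit 55130978738) (nat_lit 76) (nat_lit 80331831661) (nat_lit 76) (nat_lit 77360827928) (nat_lit 1) (nat_lit 4) (nat_lit 2) (nat_lit 5) (nat_lit 2) (nat_lit 4) (nat_lit 367) (nat_lit 223) (nat_lit 190)) (XT.lf (nat_lit 0) (nat_lit 61482738046) (nat_lit 76) (nat_lit 82446905857) (nat_lit 76) (nat_lit 79440561203) (nat_lit 1) (nat_lit 4) (nat_lit 2) (nat_lit 5) (nat_lit 2) (nat_lit 4) (nat_lit 368) (nat_lit 223) (nat_lit 189))) (XT.nd (nat_lit 78) (nat_lit 0) (nat_lit 0) (XT.lf (nat_lit 0) (nat_lit 68104030506) (nat_lit 76) (nat_lit 84690668525) (nat_lit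 76) (nat_lit 81650665851) (nat_lit 1) (nat_lit 4) (nat_lit 2) (nat_lit 5) (nat_lit 2) (nat_lit 4) (nat_lit 369) (nat_lit 223) (nat_lit 188)) (XT.nd (nat_lit 78) (nat_lit 0) (nat_lit 0) (XT.lf (nat_lit 0) (nat_lit 75010621103) (nat_lit 76) (nat_lit 87068461956) (nat_lit 76) (nat_lit 83996404026) (nat_lit 1) (nat_lit 4) (nat_lit 2) (nat_lit 5) (nat_lit 2) (nat_lit 4) (nat_lit 370) (nat_lit 223) (nat_lit 187)) (XT.lf (nat_lit 0) (nat_lit 82218954098) (nat_lit 76) (nat_lit 89585947563) (nat_lit 76) (nat_lit 86483360817) (nat_lit 1) (nat_lit 4) (nat_lit 2) (nat_lit 5) (nat_lit 2) (nat_lit 4) (nat_lit 371) (nat_lit 223) (nat_lit 186))))) (XT.nd (nat_lit 156) (nat_lit 0) (nat_lit 0) (XT.nd (nat_lit 78) (nat_lit 0) (nat_lit 0) (XT.lf (nat_lit 0) (nat_lit 89746192190) (nat_lit 76) (nat_lit 92249119360) (nat_lit 76) (nat_lit 89117457551) (nat_lit 1) (nat_lit 4) (nat_lit 2) (nat_lit 5) (nat_lit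 2) (nat_lit 4) (nat_lit 372) (nat_lit 223) (nat_lit 185)) (XT.lf (nat_lit 0) (nat_lit 97610257374) (nat_lit 76) (nat_lit 95064318232) (nat_lit 76) (nat_lit 91904965887) (nat_lit 1) (nat_lit 4) (nat_lit 2) (nat_lit 5) (nat_lit 2) (nat_lit 4) (nat_lit 373) (nat_lit 223) (nat_lit 184))) (XT.nd (nat_lit 78) (nat_lit 0) (nat_lit 0) (XT.lf (nat_lit 0) (nat_lit 105829873615) (nat_lit 76) (nat_lit 98038247034) (nat_lit 76) (nat_lit 94852522750) (nat_lit 1) (nat_lit 4) (nat_lit 2) (nat_lit 5) (nat_lit 2) (nat_lit 4) (nat_lit 374) (nat_lit 223) (nat_lit 183)) (XT.nd (nat_lit 78) (nat_lit 0) (nat_lit 0) (XT.lf (nat_lit 0) (nat_lit 114424611427) (nat_lit 76) (nat_lit 101177986547) (nat_lit 76) (nat_lit 97967146131) (nat_lit 1) (nat_lit 4) (nat_lit 2) (nat_lit 5) (nat_lit 2) (nat_lit 4) (nat_lit 375) (nat_lit 223) (nat_lit 182)) (XT.lf (nat_lit 0) (nat_lit 123414934472) (nat_lit 76) (nat_lit 104491012343)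 (nat_lit 76) (nat_lit 101256251801) (nat_lit 1) (nat_lit 4) (nat_lit 2) (nat_lit 5) (nat_lit 2) (nat_lit 4) (nat_lit 376) (nat_lit 223) (nat_lit 181)))))) (XT.nd (nat_lit 390) (nat_lit 0) (nat_lit 0) (XT.nd (nat_lit 156) (nat_lit 0) (nat_lit 0) (XT.nd (nat_lit 78) (nat_lit 0) (nat_lit 0) (XT.lf (nat_lit 0) (nat_lit 132822248282) (nat_lit 76) (nat_lit 107985212579) (nat_lit 76) (nat_lit 104727670964) (nat_lit 1) (nat_lit 4) (nat_lit 2) (nat_lit 5) (nat_lit 2) (nat_lit 4) (nat_lit 377) (nat_lit 223) (nat_lit 180)) (XT.lf (nat_lit 0) (nat_lit 142668951221) (nat_lit 76) (nat_lit 111668906778) (nat_lit 76) (nat_lit 108389668903) (nat_lit 1) (nat_lit 4) (nat_lit 2) (nat_lit 5) (nat_lit 2) (nat_lit 4) (nat_lit 378) (nat_lit 223) (nat_lit 179))) (XT.nd (nat_lit 78) (nat_lit 0) (nat_lit 0) (XT.lf (nat_lit 0) (nat_lit 152978487822) (nat_lit 76) (nat_lit 115550865641) (nat_lit 76) (nat_lit 112250964662)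 (nat_lit 1) (nat_lit 4) (nat_lit 2) (nat_lit 5) (nat_lit 2) (nat_lit 4) (nat_lit 379) (nat_lit 223) (nat_lit 178)) (XT.nd (nat_lit 78) (nat_lit 0) (nat_lit 0) (XT.lf (nat_lit 0) (nat_lit 163775404599) (nat_lit 76) (nat_lit 119640331927) (nat_lit 76) (nat_lit 116320751801) (nat_lit 1) (nat_lit 4) (nat_lit 2) (nat_lit 5) (nat_lit 2) (nat_lit 4) (nat_lit 380) (nat_lit 223) (nat_lit 177)) (XT.lf (nat_lit 0) (nat_lit 175085408498) (nat_lit 76) (nat_lit 123947042461) (nat_lit 76) (nat_lit 120608720290) (nat_lit 1) (nat_lit 4) (nat_lit 2) (nat_lit 5) (nat_lit 2) (nat_lit 4) (nat_lit 381) (nat_lit 223) (nat_lit 176))))) (XT.nd (nat_lit 156) (nat_lit 0) (nat_lit 0) (XT.nd (nat_lit 78) (nat_lit 0) (nat_lit 0) (XT.lf (nat_lit 0) (nat_lit 186935428100) (nat_lit 76) (nat_lit 128481251315) (nat_lit 76) (nat_lit 125125079578) (nat_lit 1) (nat_lit 4) (nat_lit 2) (nat_lit 5) (nat_lit 2) (nat_lit 4) (nat_lit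 382) (nat_lit 223) (nat_lit 175)) (XT.lf (nat_lit 0) (nat_lit 199353677736) (nat_lit 76) (nat_lit 133253754225) (nat_lit 76) (nat_lit 129880582901) (nat_lit 1) (nat_lit 4) (nat_lit 2) (nat_lit 5) (nat_lit 2) (nat_lit 4) (nat_lit 383) (nat_lit 223) (nat_lit 174))) (XT.nd (nat_lit 78) (nat_lit 0) (nat_lit 0) (XT.lf (nat_lit 0) (nat_lit 212369724667) (nat_lit 76) (nat_lit 138275914294) (nat_lit 76) (nat_lit 134886552887) (nat_lit 1) (nat_lit 4) (nat_lit 2) (nat_lit 5) (nat_lit 2) (nat_lit 4) (nat_lit 384) (nat_lit 223) (nat_lit 173)) (XT.nd (nat_lit 78) (nat_lit 0) (nat_lit 0) (XT.lf (nat_lit 0) (nat_lit 226014559482) (nat_lit 76) (nat_lit 143559689044) (nat_lit 76) (nat_lit 140154908510) (nat_lit 1) (nat_lit 4) (nat_lit 2) (nat_lit 5) (nat_lit 2) (nat_lit 4) (nat_lit 385) (nat_lit 223) (nat_lit 172)) (XT.lf (nat_lit 0) (nat_lit 240320669883) (nat_lit 76) (nat_lit 149117658892) (nat_lit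 76) (nat_lit 145698193476) (nat_lit 1) (nat_lit 4) (nat_lit 2) (nat_lit 5) (nat_lit 2) (nat_lit 4) (nat_lit 386) (nat_lit 223) (nat_lit 171))))))) (XT.nd (nat_lit 36738) (nat_lit 0) (nat_lit 76) (XT.nd (nat_lit 36348) (nat_lit 0) (nat_lit 228) (XT.nd (nat_lit 156) (nat_lit 0) (nat_lit 0) (XT.nd (nat_lit 78) (nat_lit 0) (nat_lit 0) (XT.lf (nat_lit 0) (nat_lit 255322118037) (nat_lit 76) (nat_lit 154963057099) (nat_lit 76) (nat_lit 151529606081) (nat_lit 1) (nat_lit 4) (nat_lit 2) (nat_lit 5) (nat_lit 2) (nat_lit 4) (nat_lit 387) (nat_lit 223) (nat_lit 170)) (XT.lf (nat_lit 0) (nat_lit 271054621678) (nat_lit 76) (nat_lit 161109801281) (nat_lit 76) (nat_lit 157663030642) (nat_lit 1) (nat_lit 4) (nat_lit 2) (nat_lit 5) (nat_lit 2) (nat_lit 4) (nat_lit 388) (nat_lit 223) (nat_lit 169))) (XT.nd (nat_lit 78) (nat_lit 0) (nat_lit 0) (XT.lf (nat_lit 0) (nat_lit 287555639147) (nat_lit 76) (nat_lit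 167572526543) (nat_lit 76) (nat_lit 164113070549) (nat_lit 1) (nat_lit 4) (nat_lit 2) (nat_lit 5) (nat_lit 2) (nat_lit 4) (nat_lit 389) (nat_lit 223) (nat_lit 168)) (XT.nd (nat_lit 78) (nat_lit 0) (nat_lit 0) (XT.lf (nat_lit 0) (nat_lit 304864458583) (nat_lit 76) (nat_lit 174366620325) (nat_lit 76) (nat_lit 170895083042) (nat_lit 1) (nat_lit 4) (nat_lit 2) (nat_lit 5) (nat_lit 2) (nat_lit 4) (nat_lit 390) (nat_lit 223) (nat_lit 167)) (XT.lf (nat_lit 0) (nat_lit 323022291458) (nat_lit 76) (nat_lit 181508259041) (nat_lit 76) (nat_lit 178025215769) (nat_lit 1) (nat_lit 4) (nat_lit 2) (nat_lit 5) (nat_lit 2) (nat_lit 4) (nat_lit 391) (nat_lit 223) (nat_lit 166))))) (XT.nd (nat_lit 156) (nat_lit 0) (nat_lit 0) (XT.nd (nat_lit 78) (nat_lit 76) (nat_lit 0) (XT.lf (nat_lit 0) (nat_lit 9819627699) (nat_lit 152) (nat_lit 864294402) (nat_lit 0) (nat_lit 9819627699) (nat_lit 5) (nat_lit 5) (nat_lit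 7) (nat_lit 4) (nat_lit 5) (nat_lit 4) (nat_lit 332) (nat_lit 224) (nat_lit 224)) (XT.lf (nat_lit 0) (nat_lit 5365760475) (nat_lit 76) (nat_lit 18847637776) (nat_lit 76) (nat_lit 18652696715) (nat_lit 4) (nat_lit 4) (nat_lit 5) (nat_lit 5) (nat_lit 5) (nat_lit 4) (nat_lit 333) (nat_lit 224) (nat_lit 223))) (XT.nd (nat_lit 78) (nat_lit 0) (nat_lit 0) (XT.lf (nat_lit 0) (nat_lit 12646827287) (nat_lit 76) (nat_lit 16278210155) (nat_lit 76) (nat_lit 15897610941) (nat_lit 4) (nat_lit 4) (nat_lit 5) (nat_lit 5) (nat_lit 5) (nat_lit 4) (nat_lit 334) (nat_lit 224) (nat_lit 222)) (XT.nd (nat_lit 78) (nat_lit 0) (nat_lit 0) (XT.lf (nat_lit 0) (nat_lit 20074792550) (nat_lit 76) (nat_lit 13682718144) (nat_lit 76) (nat_lit 13125301641) (nat_lit 4) (nat_lit 4) (nat_lit 5) (nat_lit 5) (nat_lit 5) (nat_lit 4) (nat_lit 335) (nat_lit 224) (nat_lit 221)) (XT.lf (nat_lit 0) (nat_lit 27667341898) (nat_lit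 76) (nat_lit 11054982001) (nat_lit 76) (nat_lit 10329168080) (nat_lit 4) (nat_lit 4) (nat_lit 5) (nat_lit 5) (nat_lit 5) (nat_lit 4) (nat_lit 336) (nat_lit 224) (nat_lit 220)))))) (XT.nd (nat_lit 390) (nat_lit 0) (nat_lit 0) (XT.nd (nat_lit 156) (nat_lit 152) (nat_lit 0) (XT.nd (nat_lit 78) (nat_lit 0) (nat_lit 0) (XT.lf (nat_lit 0) (nat_lit 35442552827) (nat_lit 76) (nat_lit 8388745211) (nat_lit 76) (nat_lit 7502552797) (nat_lit 4) (nat_lit 4) (nat_lit 5) (nat_lit 5) (nat_lit 5) (nat_lit 4) (nat_lit 337) (nat_lit 224) (nat_lit 219)) (XT.lf (nat_lit 0) (nat_lit 43418937745) (nat_lit 76) (nat_lit 5677659591) (nat_lit 76) (nat_lit 4638725755) (nat_lit 4) (nat_lit 4) (nat_lit 5) (nat_lit 5) (nat_lit 5) (nat_lit 4) (nat_lit 338) (nat_lit 224) (nat_lit 218))) (XT.nd (nat_lit 78) (nat_lit 152) (nat_lit 0) (XT.lf (nat_lit 0) (nat_lit 51615488045) (nat_lit 76) (nat_lit 2915270175) (nat_lit 76)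 (nat_lit 1730868318) (nat_lit 4) (nat_lit 4) (nat_lit 5) (nat_lit 5) (nat_lit 5) (nat_lit 4) (nat_lit 339) (nat_lit 224) (nat_lit 217)) (XT.nd (nat_lit 78) (nat_lit 0) (nat_lit 0) (XT.lf (nat_lit 0) (nat_lit 1150597819) (nat_lit 76) (nat_lit 56007375) (nat_lit 152) (nat_lit 57710314208) (nat_lit 2) (nat_lit 5) (nat_lit 3) (nat_lit 5) (nat_lit 4) (nat_lit 4) (nat_lit 340) (nat_lit 224) (nat_lit 216)) (XT.lf (nat_lit 0) (nat_lit 4267773593) (nat_lit 152) (nat_lit 54551900106) (nat_lit 0) (nat_lit 2882167295) (nat_lit 2) (nat_lit 5) (nat_lit 4) (nat_lit 4) (nat_lit 2) (nat_lit 4) (nat_lit 341) (nat_lit 224) (nat_lit 215))))) (XT.nd (nat_lit 156) (nat_lit 0) (nat_lit 0) (XT.nd (nat_lit 78) (nat_lit 0) (nat_lit 0) (XT.lf (nat_lit 0) (nat_lit 7396267604) (nat_lit 152) (nat_lit 51343074073) (nat_lit 0) (nat_lit 5890984404) (nat_lit 2) (nat_lit 5) (nat_lit 4) (nat_lit 4) (nat_lit 2) (nat_lit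 4) (nat_lit 342) (nat_lit 224) (nat_lit 214)) (XT.lf (nat_lit 0) (nat_lit 10598661590) (nat_lit 152) (nat_lit 48131328992) (nat_lit 0) (nat_lit 8979400390) (nat_lit 2) (nat_lit 5) (nat_lit 4) (nat_lit 4) (nat_lit 2) (nat_lit 4) (nat_lit 343) (nat_lit 224) (nat_lit 213))) (XT.nd (nat_lit 78) (nat_lit 0) (nat_lit 0) (XT.lf (nat_lit 0) (nat_lit 13882580300) (nat_lit 152) (nat_lit 44909017849) (nat_lit 0) (nat_lit 12154768623) (nat_lit 2) (nat_lit 5) (nat_lit 4) (nat_lit 4) (nat_lit 2) (nat_lit 4) (nat_lit 344) (nat_lit 224) (nat_lit 212)) (XT.nd (nat_lit 78) (nat_lit 0) (nat_lit 0) (XT.lf (nat_lit 0) (nat_lit 17255842587) (nat_lit 152) (nat_lit 41668468475) (nat_lit 0) (nat_lit 15424649503) (nat_lit 2) (nat_lit 5) (nat_lit 4) (nat_lit 4) (nat_lit 2) (nat_lit 4) (nat_lit 345) (nat_lit 224) (nat_lit 211)) (XT.lf (nat_lit 0) (nat_lit 20726480028) (nat_lit 152) (nat_lit 38401965277) (nat_lit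 0) (nat_lit 18796828462) (nat_lit 2) (nat_lit 5) (nat_lit 4) (nat_lit 4) (nat_lit 2) (nat_lit 4) (nat_lit 346) (nat_lit 224) (nat_lit 210))))))))
noncomputable def xc22 : XT := (XT.nd (nat_lit 1560) (nat_lit 0) (nat_lit 0) (XT.nd (nat_lit 780) (nat_lit 76) (nat_lit 0) (XT.nd (nat_lit 390) (nat_lit 0) (nat_lit 0) (XT.nd (nat_lit 156) (nat_lit 0) (nat_lit 0) (XT.nd (nat_lit 78) (nat_lit 0) (nat_lit 0) (XT.lf (nat_lit 0) (nat_lit 24302756046) (nat_lit 152) (nat_lit 35101730866) (nat_lit 0) (nat_lit 22279334496) (nat_lit 2) (nat_lit 5) (nat_lit 4) (nat_lit 4) (nat_lit 2) (nat_lit 4) (nat_lit 347) (nat_lit 224) (nat_lit 209)) (XT.lf (nat_lit 0) (nat_lit 27993185584) (nat_lit 152) (nat_lit 31759907541) (nat_lit 0) (nat_lit 25880459288) (nat_lit 2) (nat_lit 5) (nat_lit 4) (nat_lit 4) (nat_lit 2) (nat_lit 4) (nat_lit 348) (nat_lit 224) (nat_lit 208))) (XT.nd (nat_lit 78) (nat_lit 0) (nat_lit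 0) (XT.lf (nat_lit 0) (nat_lit 31806555378) (nat_lit 152) (nat_lit 28368538580) (nat_lit 0) (nat_lit 29608776943) (nat_lit 2) (nat_lit 5) (nat_lit 4) (nat_lit 4) (nat_lit 2) (nat_lit 4) (nat_lit 349) (nat_lit 224) (nat_lit 207)) (XT.nd (nat_lit 78) (nat_lit 0) (nat_lit 0) (XT.lf (nat_lit 0) (nat_lit 35751944880) (nat_lit 152) (nat_lit 24919549294) (nat_lit 0) (nat_lit 33473164408) (nat_lit 2) (nat_lit 5) (nat_lit 4) (nat_lit 4) (nat_lit 2) (nat_lit 4) (nat_lit 350) (nat_lit 224) (nat_lit 206)) (XT.lf (nat_lit 0) (nat_lit 39838747876) (nat_lit 152) (nat_lit 21404727805) (nat_lit 0) (nat_lit 37482822606) (nat_lit 2) (nat_lit 5) (nat_lit 4) (nat_lit 4) (nat_lit 2) (nat_lit 4) (nat_lit 351) (nat_lit 224) (nat_lit 205))))) (XT.nd (nat_lit 156) (nat_lit 0) (nat_lit 0) (XT.nd (nat_lit 78) (nat_lit 0) (nat_lit 0) (XT.lf (nat_lit 0) (nat_lit 44076694848) (nat_lit 152) (nat_lit 17815705490) (nat_lit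 0) (nat_lit 41647298343) (nat_lit 2) (nat_lit 5) (nat_lit 4) (nat_lit 4) (nat_lit 2) (nat_lit 4) (nat_lit 352) (nat_lit 224) (nat_lit 204)) (XT.lf (nat_lit 0) (nat_lit 48475876146) (nat_lit 152) (nat_lit 14143937058) (nat_lit 0) (nat_lit 45976507035) (nat_lit 2) (nat_lit 5) (nat_lit 4) (nat_lit 4) (nat_lit 2) (nat_lit 4) (nat_lit 353) (nat_lit 224) (nat_lit 203))) (XT.nd (nat_lit 78) (nat_lit 0) (nat_lit 0) (XT.lf (nat_lit 0) (nat_lit 53046766012) (nat_lit 152) (nat_lit 10380680203) (nat_lit 0) (nat_lit 50480756325) (nat_lit 2) (nat_lit 5) (nat_lit 4) (nat_lit 4) (nat_lit 2) (nat_lit 4) (nat_lit 354) (nat_lit 224) (nat_lit 202)) (XT.nd (nat_lit 78) (nat_lit 0) (nat_lit 0) (XT.lf (nat_lit 0) (nat_lit 57800247516) (nat_lit 152) (nat_lit 6516974789) (nat_lit 0) (nat_lit 55170770613) (nat_lit 2) (nat_lit 5) (nat_lit 4) (nat_lit 4) (nat_lit 2) (nat_lit 4) (nat_lit 355) (nat_lit 224) (nat_lit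 201)) (XT.lf (nat_lit 0) (nat_lit 62747638472) (nat_lit 152) (nat_lit 2543621519) (nat_lit 0) (nat_lit 60057716602) (nat_lit 2) (nat_lit 5) (nat_lit 4) (nat_lit 4) (nat_lit 2) (nat_lit 4) (nat_lit 356) (nat_lit 224) (nat_lit 200)))))) (XT.nd (nat_lit 390) (nat_lit 0) (nat_lit 0) (XT.nd (nat_lit 156) (nat_lit 0) (nat_lit 0) (XT.nd (nat_lit 78) (nat_lit 0) (nat_lit 0) (XT.lf (nat_lit 0) (nat_lit 1600051617) (nat_lit 76) (nat_lit 66325648054) (nat_lit 76) (nat_lit 63578159548) (nat_lit 1) (nat_lit 4) (nat_lit 2) (nat_lit 5) (nat_lit 2) (nat_lit 4) (nat_lit 357) (nat_lit 224) (nat_lit 199)) (XT.lf (nat_lit 0) (nat_lit 5960940982) (nat_lit 76) (nat_lit 67403882496) (nat_lit 76) (nat_lit 64601568622) (nat_lit 1) (nat_lit 4) (nat_lit 2) (nat_lit 5) (nat_lit 2) (nat_lit 4) (nat_lit 358) (nat_lit 224) (nat_lit 198))) (XT.nd (nat_lit 78) (nat_lit 0) (nat_lit 0) (XT.lf (nat_lit 0) (nat_lit 10465326029)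 (nat_lit 76) (nat_lit 68571608002) (nat_lit 76) (nat_lit 65717079493) (nat_lit 1) (nat_lit 4) (nat_lit 2) (nat_lit 5) (nat_lit 2) (nat_lit 4) (nat_lit 359) (nat_lit 224) (nat_lit 197)) (XT.nd (nat_lit 78) (nat_lit 0) (nat_lit 0) (XT.lf (nat_lit 0) (nat_lit 15123931486) (nat_lit 76) (nat_lit 69831604872) (nat_lit 76) (nat_lit 66927348139) (nat_lit 1) (nat_lit 4) (nat_lit 2) (nat_lit 5) (nat_lit 2) (nat_lit 4) (nat_lit 360) (nat_lit 224) (nat_lit 196)) (XT.lf (nat_lit 0) (nat_lit 19947849269) (nat_lit 76) (nat_lit 71186873098) (nat_lit 76) (nat_lit 68235256151) (nat_lit 1) (nat_lit 4) (nat_lit 2) (nat_lit 5) (nat_lit 2) (nat_lit 4) (nat_lit 361) (nat_lit 224) (nat_lit 195))))) (XT.nd (nat_lit 156) (nat_lit 0) (nat_lit 0) (XT.nd (nat_lit 78) (nat_lit 0) (nat_lit 0) (XT.lf (nat_lit 0) (nat_lit 24948564897) (nat_lit 76) (nat_lit 72640639509) (nat_lit 76) (nat_lit 69643917597) (nat_lit 1)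 (nat_lit 4) (nat_lit 2) (nat_lit 5) (nat_lit 2) (nat_lit 4) (nat_lit 362) (nat_lit 224) (nat_lit 194)) (XT.lf (nat_lit 0) (nat_lit 30137984837) (nat_lit 76) (nat_lit 74196365455) (nat_lit 76) (nat_lit 71156686433) (nat_lit 1) (nat_lit 4) (nat_lit 2) (nat_lit 5) (nat_lit 2) (nat_lit 4) (nat_lit 363) (nat_lit 224) (nat_lit 193))) (XT.nd (nat_lit 78) (nat_lit 0) (nat_lit 0) (XT.lf (nat_lit 0) (nat_lit 35528464849) (nat_lit 76) (nat_lit 75857755043) (nat_lit 76) (nat_lit 72777164488) (nat_lit 1) (nat_lit 4) (nat_lit 2) (nat_lit 5) (nat_lit 2) (nat_lit 4) (nat_lit 364) (nat_lit 224) (nat_lit 192)) (XT.nd (nat_lit 78) (nat_lit 0) (nat_lit 0) (XT.lf (nat_lit 0) (nat_lit 41132839411) (nat_lit 76) (nat_lit 77628763965) (nat_lit 76) (nat_lit 74509210045) (nat_lit 1) (nat_lit 4) (nat_lit 2) (nat_lit 5) (nat_lit 2) (nat_lit 4) (nat_lit 365) (nat_lit 224) (nat_lit 191)) (XT.lf (nat_lit 0) (nat_lit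 46964452270) (nat_lit 76) (nat_lit 79513608907) (nat_lit 76) (nat_lit 76356947020) (nat_lit 1) (nat_lit 4) (nat_lit 2) (nat_lit 5) (nat_lit 2) (nat_lit 4) (nat_lit 366) (nat_lit 224) (nat_lit 190))))))) (XT.nd (nat_lit 780) (nat_lit 0) (nat_lit 0) (XT.nd (nat_lit 390) (nat_lit 0) (nat_lit 0) (XT.nd (nat_lit 156) (nat_lit 0) (nat_lit 0) (XT.nd (nat_lit 78) (nat_lit 0) (nat_lit 0) (XT.lf (nat_lit 0) (nat_lit 53037188220) (nat_lit 76) (nat_lit 81516777595) (nat_lit 76) (nat_lit 78324774788) (nat_lit 1) (nat_lit 4) (nat_lit 2) (nat_lit 5) (nat_lit 2) (nat_lit 4) (nat_lit 367) (nat_lit 224) (nat_lit 189)) (XT.lf (nat_lit 0) (nat_lit 59365506156) (nat_lit 76) (nat_lit 83643039480) (nat_lit 76) (nat_lit 80417378653) (nat_lit 1) (nat_lit 4) (nat_lit 2) (nat_lit 5) (nat_lit 2) (nat_lit 4) (nat_lit 368) (nat_lit 224) (nat_lit 188))) (XT.nd (nat_lit 78) (nat_lit 0) (nat_lit 0) (XT.lf (nat_lit 0)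 (nat_lit 65964473501) (nat_lit 76) (nat_lit 85897457089) (nat_lit 76) (nat_lit 82639741006) (nat_lit 1) (nat_lit 4) (nat_lit 2) (nat_lit 5) (nat_lit 2) (nat_lit 4) (nat_lit 369) (nat_lit 224) (nat_lit 187)) (XT.nd (nat_lit 78) (nat_lit 0) (nat_lit 0) (XT.lf (nat_lit 0) (nat_lit 72849802082) (nat_lit 76) (nat_lit 88285398083) (nat_lit 76) (nat_lit 84997153184) (nat_lit 1) (nat_lit 4) (nat_lit 2) (nat_lit 5) (nat_lit 2) (nat_lit 4) (nat_lit 370) (nat_lit 224) (nat_lit 186)) (XT.lf (nat_lit 0) (nat_lit 80037885540) (nat_lit 76) (nat_lit 90812548037) (nat_lit 76) (nat_lit 87495228075) (nat_lit 1) (nat_lit 4) (nat_lit 2) (nat_lit 5) (nat_lit 2) (nat_lit 4) (nat_lit 371) (nat_lit 224) (nat_lit 185))))) (XT.nd (nat_lit 156) (nat_lit 0) (nat_lit 0) (XT.nd (nat_lit 78) (nat_lit 0) (nat_lit 0) (XT.lf (nat_lit 0) (nat_lit 87545838357) (nat_lit 76) (nat_lit 93484923973) (nat_lit 76) (nat_lit 90139913475)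 (nat_lit 1) (nat_lit 4) (nat_lit 2) (nat_lit 5) (nat_lit 2) (nat_lit 4) (nat_lit 372) (nat_lit 224) (nat_lit 184)) (XT.lf (nat_lit 0) (nat_lit 95391536613) (nat_lit 76) (nat_lit 96308888692) (nat_lit 76) (nat_lit 92937506254) (nat_lit 1) (nat_lit 4) (nat_lit 2) (nat_lit 5) (nat_lit 2) (nat_lit 4) (nat_lit 373) (nat_lit 224) (nat_lit 183))) (XT.nd (nat_lit 78) (nat_lit 0) (nat_lit 0) (XT.lf (nat_lit 0) (nat_lit 103593660541) (nat_lit 76) (nat_lit 99291165919) (nat_lit 76) (nat_lit 95894667349) (nat_lit 1) (nat_lit 4) (nat_lit 2) (nat_lit 5) (nat_lit 2) (nat_lit 4) (nat_lit 374) (nat_lit 224) (nat_lit 182)) (XT.nd (nat_lit 78) (nat_lit 0) (nat_lit 0) (XT.lf (nat_lit 0) (nat_lit 112171739008) (nat_lit 76) (nat_lit 102438856314) (nat_lit 76) (nat_lit 99018437618) (nat_lit 1) (nat_lit 4) (nat_lit 2) (nat_lit 5) (nat_lit 2) (nat_lit 4) (nat_lit 375) (nat_lit 224) (nat_lit 181)) (XT.lf (nat_lit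 0) (nat_lit 121146196010) (nat_lit 76) (nat_lit 105759454378) (nat_lit 76) (nat_lit 102316254609) (nat_lit 1) (nat_lit 4) (nat_lit 2) (nat_lit 5) (nat_lit 2) (nat_lit 4) (nat_lit 376) (nat_lit 224) (nat_lit 180)))))) (XT.nd (nat_lit 390) (nat_lit 0) (nat_lit 0) (XT.nd (nat_lit 156) (nat_lit 0) (nat_lit 0) (XT.nd (nat_lit 78) (nat_lit 0) (nat_lit 0) (XT.lf (nat_lit 0) (nat_lit 130538399303) (nat_lit 76) (nat_lit 109260866297) (nat_lit 76) (nat_lit 105795970269) (nat_lit 1) (nat_lit 4) (nat_lit 2) (nat_lit 5) (nat_lit 2) (nat_lit 4) (nat_lit 377) (nat_lit 224) (nat_lit 179)) (XT.lf (nat_lit 0) (nat_lit 140370711273) (nat_lit 76) (nat_lit 112951428766) (nat_lit 76) (nat_lit 109465869634) (nat_lit 1) (nat_lit 4) (nat_lit 2) (nat_lit 5) (nat_lit 2) (nat_lit 4) (nat_lit 378) (nat_lit 224) (nat_lit 178))) (XT.nd (nat_lit 78) (nat_lit 0) (nat_lit 0) (XT.lf (nat_lit 0) (nat_lit 150666542190)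 (nat_lit 76) (nat_lit 116839928839) (nat_lit 76) (nat_lit 113334690560) (nat_lit 1) (nat_lit 4) (nat_lit 2) (nat_lit 5) (nat_lit 2) (nat_lit 4) (nat_lit 379) (nat_lit 224) (nat_lit 177)) (XT.nd (nat_lit 78) (nat_lit 0) (nat_lit 0) (XT.lf (nat_lit 0) (nat_lit 161450405934) (nat_lit 76) (nat_lit 120935624849) (nat_lit 76) (nat_lit 117411644525) (nat_lit 1) (nat_lit 4) (nat_lit 2) (nat_lit 5) (nat_lit 2) (nat_lit 4) (nat_lit 380) (nat_lit 224) (nat_lit 176)) (XT.lf (nat_lit 0) (nat_lit 172747978374) (nat_lit 76) (nat_lit 125248268453) (nat_lit 76) (nat_lit 121706438563) (nat_lit 1) (nat_lit 4) (nat_lit 2) (nat_lit 5) (nat_lit 2) (nat_lit 4) (nat_lit 381) (nat_lit 224) (nat_lit 175))))) (XT.nd (nat_lit 156) (nat_lit 0) (nat_lit 0) (XT.nd (nat_lit 78) (nat_lit 0) (nat_lit 0) (XT.lf (nat_lit 0) (nat_lit 184586158489) (nat_lit 76) (nat_lit 129788127850) (nat_lit 76) (nat_lit 126229298373) (nat_lit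 1) (nat_lit 4) (nat_lit 2) (nat_lit 5) (nat_lit 2) (nat_lit 4) (nat_lit 382) (nat_lit 224) (nat_lit 174)) (XT.lf (nat_lit 0) (nat_lit 196993132425) (nat_lit 76) (nat_lit 134566012230) (nat_lit 76) (nat_lit 130990992670) (nat_lit 1) (nat_lit 4) (nat_lit 2) (nat_lit 5) (nat_lit 2) (nat_lit 4) (nat_lit 383) (nat_lit 224) (nat_lit 173))) (XT.nd (nat_lit 78) (nat_lit 0) (nat_lit 0) (XT.lf (nat_lit 0) (nat_lit 209998440594) (nat_lit 76) (nat_lit 139593297507) (nat_lit 76) (nat_lit 136002858820) (nat_lit 1) (nat_lit 4) (nat_lit 2) (nat_lit 5) (nat_lit 2) (nat_lit 4) (nat_lit 384) (nat_lit 224) (nat_lit 172)) (XT.nd (nat_lit 78) (nat_lit 0) (nat_lit 0) (XT.lf (nat_lit 0) (nat_lit 223633048016) (nat_lit 76) (nat_lit 144881953409) (nat_lit 76) (nat_lit 141276829839) (nat_lit 1) (nat_lit 4) (nat_lit 2) (nat_lit 5) (nat_lit 2) (nat_lit 4) (nat_lit 385) (nat_lit 224) (nat_lit 171)) (XT.lf (nat_lit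 0) (nat_lit 237929418043) (nat_lit 76) (nat_lit 150444571972) (nat_lit 76) (nat_lit 146825462801) (nat_lit 1) (nat_lit 4) (nat_lit 2) (nat_lit 5) (nat_lit 2) (nat_lit 4) (nat_lit 386) (nat_lit 224) (nat_lit 170))))))))
noncomputable def xc23 : XT := (XT.nd (nat_lit 37362) (nat_lit 0) (nat_lit 0) (XT.nd (nat_lit 36582) (nat_lit 0) (nat_lit 76) (XT.nd (nat_lit 36192) (nat_lit 0) (nat_lit 228) (XT.nd (nat_lit 156) (nat_lit 0) (nat_lit 0) (XT.nd (nat_lit 78) (nat_lit 0) (nat_lit 0) (XT.lf (nat_lit 0) (nat_lit 252921589650) (nat_lit 76) (nat_lit 156294397528) (nat_lit 76) (nat_lit 152661968735) (nat_lit 1) (nat_lit 4) (nat_lit 2) (nat_lit 5) (nat_lit 2) (nat_lit 4) (nat_lit 387) (nat_lit 224) (nat_lit 169)) (XT.lf (nat_lit 0) (nat_lit 268645258484) (nat_lit 76) (nat_lit 162445358232) (nat_lit 76) (nat_lit 158800244086) (nat_lit 1) (nat_lit 4) (nat_lit 2) (nat_lit 5) (nat_lit 2) (nat_lit 4)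 (nat_lit 388) (nat_lit 224) (nat_lit 168))) (XT.nd (nat_lit 78) (nat_lit 0) (nat_lit 0) (XT.lf (nat_lit 0) (nat_lit 285137861852) (nat_lit 76) (nat_lit 168912099229) (nat_lit 76) (nat_lit 165254903793) (nat_lit 1) (nat_lit 4) (nat_lit 2) (nat_lit 5) (nat_lit 2) (nat_lit 4) (nat_lit 389) (nat_lit 224) (nat_lit 167)) (XT.nd (nat_lit 78) (nat_lit 0) (nat_lit 0) (XT.lf (nat_lit 0) (nat_lit 302438667858) (nat_lit 76) (nat_lit 175710017521) (nat_lit 76) (nat_lit 172041316096) (nat_lit 1) (nat_lit 4) (nat_lit 2) (nat_lit 5) (nat_lit 2) (nat_lit 4) (nat_lit 390) (nat_lit 224) (nat_lit 166)) (XT.lf (nat_lit 0) (nat_lit 320588868896) (nat_lit 76) (nat_lit 182855298628) (nat_lit 76) (nat_lit 179175639117) (nat_lit 1) (nat_lit 4) (nat_lit 2) (nat_lit 5) (nat_lit 2) (nat_lit 4) (nat_lit 391) (nat_lit 224) (nat_lit 165))))) (XT.nd (nat_lit 156) (nat_lit 76) (nat_lit 0) (XT.nd (nat_lit 78) (nat_lit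 0) (nat_lit 0) (XT.lf (nat_lit 0) (nat_lit 5603167193) (nat_lit 152) (nat_lit 7572266572) (nat_lit 0) (nat_lit 5603167193) (nat_lit 5) (nat_lit 5) (nat_lit 7) (nat_lit 4) (nat_lit 5) (nat_lit 4) (nat_lit 330) (nat_lit 225) (nat_lit 225)) (XT.lf (nat_lit 0) (nat_lit 15450476906) (nat_lit 152) (nat_lit 8542266882) (nat_lit 0) (nat_lit 15245788792) (nat_lit 5) (nat_lit 5) (nat_lit 7) (nat_lit 4) (nat_lit 5) (nat_lit 4) (nat_lit 331) (nat_lit 225) (nat_lit 224))) (XT.nd (nat_lit 78) (nat_lit 76) (nat_lit 0) (XT.lf (nat_lit 0) (nat_lit 19784054906) (nat_lit 152) (nat_lit 1841637851) (nat_lit 0) (nat_lit 19384425731) (nat_lit 5) (nat_lit 5) (nat_lit 7) (nat_lit 4) (nat_lit 5) (nat_lit 4) (nat_lit 332) (nat_lit 225) (nat_lit 223)) (XT.nd (nat_lit 78) (nat_lit 0) (nat_lit 0) (XT.lf (nat_lit 0) (nat_lit 5137747842) (nat_lit 76) (nat_lit 19159853231) (nat_lit 76) (nat_lit 18574565903) (nat_lit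 4) (nat_lit 4) (nat_lit 5) (nat_lit 5) (nat_lit 5) (nat_lit 4) (nat_lit 333) (nat_lit 225) (nat_lit 222)) (XT.lf (nat_lit 0) (nat_lit 12312885440) (nat_lit 76) (nat_lit 16640380240) (nat_lit 76) (nat_lit 15878275623) (nat_lit 4) (nat_lit 4) (nat_lit 5) (nat_lit 5) (nat_lit 5) (nat_lit 4) (nat_lit 334) (nat_lit 225) (nat_lit 221)))))) (XT.nd (nat_lit 390) (nat_lit 152) (nat_lit 0) (XT.nd (nat_lit 156) (nat_lit 0) (nat_lit 0) (XT.nd (nat_lit 78) (nat_lit 0) (nat_lit 0) (XT.lf (nat_lit 0) (nat_lit 19639965738) (nat_lit 76) (nat_lit 14092464067) (nat_lit 76) (nat_lit 13161962032) (nat_lit 4) (nat_lit 4) (nat_lit 5) (nat_lit 5) (nat_lit 5) (nat_lit 4) (nat_lit 335) (nat_lit 225) (nat_lit 220)) (XT.lf (nat_lit 0) (nat_lit 27136434165) (nat_lit 76) (nat_lit 11510038246) (nat_lit 76) (nat_lit 10419157718) (nat_lit 4) (nat_lit 4) (nat_lit 5) (nat_lit 5) (nat_lit 5) (nat_lit 4) (nat_lit 336) (nat_lit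 225) (nat_lit 219))) (XT.nd (nat_lit 78) (nat_lit 0) (nat_lit 0) (XT.lf (nat_lit 0) (nat_lit 34820139457) (nat_lit 76) (nat_lit 8886954144) (nat_lit 76) (nat_lit 7643332194) (nat_lit 4) (nat_lit 4) (nat_lit 5) (nat_lit 5) (nat_lit 5) (nat_lit 4) (nat_lit 337) (nat_lit 225) (nat_lit 218)) (XT.nd (nat_lit 78) (nat_lit 0) (nat_lit 0) (XT.lf (nat_lit 0) (nat_lit 42709376149) (nat_lit 76) (nat_lit 6216966322) (nat_lit 76) (nat_lit 4827876350) (nat_lit 4) (nat_lit 4) (nat_lit 5) (nat_lit 5) (nat_lit 5) (nat_lit 4) (nat_lit 338) (nat_lit 225) (nat_lit 217)) (XT.lf (nat_lit 0) (nat_lit 50822928138) (nat_lit 76) (nat_lit 3493717666) (nat_lit 76) (nat_lit 1966086722) (nat_lit 4) (nat_lit 4) (nat_lit 5) (nat_lit 5) (nat_lit 5) (nat_lit 4) (nat_lit 339) (nat_lit 225) (nat_lit 216))))) (XT.nd (nat_lit 156) (nat_lit 0) (nat_lit 0) (XT.nd (nat_lit 78) (nat_lit 0) (nat_lit 0) (XT.lf (nat_lit 0) (nat_lit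 230695711) (nat_lit 76) (nat_lit 691387429) (nat_lit 152) (nat_lit 58018983239) (nat_lit 2) (nat_lit 5) (nat_lit 3) (nat_lit 5) (nat_lit 4) (nat_lit 4) (nat_lit 340) (nat_lit 225) (nat_lit 215)) (XT.lf (nat_lit 0) (nat_lit 3931062714) (nat_lit 152) (nat_lit 55566711257) (nat_lit 0) (nat_lit 2230838454) (nat_lit 2) (nat_lit 5) (nat_lit 4) (nat_lit 4) (nat_lit 2) (nat_lit 4) (nat_lit 341) (nat_lit 225) (nat_lit 214))) (XT.nd (nat_lit 78) (nat_lit 0) (nat_lit 0) (XT.lf (nat_lit 0) (nat_lit 7019300761) (nat_lit 152) (nat_lit 52434725348) (nat_lit 0) (nat_lit 5205098500) (nat_lit 2) (nat_lit 5) (nat_lit 4) (nat_lit 4) (nat_lit 2) (nat_lit 4) (nat_lit 342) (nat_lit 225) (nat_lit 213)) (XT.nd (nat_lit 78) (nat_lit 0) (nat_lit 0) (XT.lf (nat_lit 0) (nat_lit 10183355735) (nat_lit 152) (nat_lit 49296161336) (nat_lit 0) (nat_lit 8260602997) (nat_lit 2) (nat_lit 5) (nat_lit 4) (nat_lit 4) (nat_lit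 2) (nat_lit 4) (nat_lit 343) (nat_lit 225) (nat_lit 212)) (XT.lf (nat_lit 0) (nat_lit 13430761099) (nat_lit 152) (nat_lit 46143546450) (nat_lit 0) (nat_lit 11404626954) (nat_lit 2) (nat_lit 5) (nat_lit 4) (nat_lit 4) (nat_lit 2) (nat_lit 4) (nat_lit 344) (nat_lit 225) (nat_lit 211))))))) (XT.nd (nat_lit 780) (nat_lit 76) (nat_lit 0) (XT.nd (nat_lit 390) (nat_lit 0) (nat_lit 0) (XT.nd (nat_lit 156) (nat_lit 0) (nat_lit 0) (XT.nd (nat_lit 78) (nat_lit 0) (nat_lit 0) (XT.lf (nat_lit 0) (nat_lit 16769248772) (nat_lit 152) (nat_lit 42969374464) (nat_lit 0) (nat_lit 14644656144) (nat_lit 2) (nat_lit 5) (nat_lit 4) (nat_lit 4) (nat_lit 2) (nat_lit 4) (nat_lit 345) (nat_lit 225) (nat_lit 210)) (XT.lf (nat_lit 0) (nat_lit 20206767532) (nat_lit 152) (nat_lit 39766087825) (nat_lit 0) (nat_lit 17988404921) (nat_lit 2) (nat_lit 5) (nat_lit 4) (nat_lit 4) (nat_lit 2) (nat_lit 4) (nat_lit 346) (nat_lit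 225) (nat_lit 209))) (XT.nd (nat_lit 78) (nat_lit 0) (nat_lit 0) (XT.lf (nat_lit 0) (nat_lit 23751501950) (nat_lit 152) (nat_lit 36526059661) (nat_lit 0) (nat_lit 21443834593) (nat_lit 2) (nat_lit 5) (nat_lit 4) (nat_lit 4) (nat_lit 2) (nat_lit 4) (nat_lit 347) (nat_lit 225) (nat_lit 208)) (XT.nd (nat_lit 78) (nat_lit 0) (nat_lit 0) (XT.lf (nat_lit 0) (nat_lit 27411891868) (nat_lit 152) (nat_lit 33241575619) (nat_lit 0) (nat_lit 25019172371) (nat_lit 2) (nat_lit 5) (nat_lit 4) (nat_lit 4) (nat_lit 2) (nat_lit 4) (nat_lit 348) (nat_lit 225) (nat_lit 207)) (XT.lf (nat_lit 0) (nat_lit 31196652500) (nat_lit 152) (nat_lit 29904815499) (nat_lit 0) (nat_lit 28722930967) (nat_lit 2) (nat_lit 5) (nat_lit 4) (nat_lit 4) (nat_lit 2) (nat_lit 4) (nat_lit 349) (nat_lit 225) (nat_lit 206))))) (XT.nd (nat_lit 156) (nat_lit 0) (nat_lit 0) (XT.nd (nat_lit 78) (nat_lit 0) (nat_lit 0) (XT.lf (nat_lit 0)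 (nat_lit 35114795182) (nat_lit 152) (nat_lit 26507834633) (nat_lit 0) (nat_lit 32563928851) (nat_lit 2) (nat_lit 5) (nat_lit 4) (nat_lit 4) (nat_lit 2) (nat_lit 4) (nat_lit 350) (nat_lit 225) (nat_lit 205)) (XT.lf (nat_lit 0) (nat_lit 39175648825) (nat_lit 152) (nat_lit 23042544973) (nat_lit 0) (nat_lit 36551311258) (nat_lit 2) (nat_lit 5) (nat_lit 4) (nat_lit 4) (nat_lit 2) (nat_lit 4) (nat_lit 351) (nat_lit 225) (nat_lit 204))) (XT.nd (nat_lit 78) (nat_lit 0) (nat_lit 0) (XT.lf (nat_lit 0) (nat_lit 43388882128) (nat_lit 152) (nat_lit 19500695828) (nat_lit 0) (nat_lit 40694571956) (nat_lit 2) (nat_lit 5) (nat_lit 4) (nat_lit 4) (nat_lit 2) (nat_lit 4) (nat_lit 352) (nat_lit 225) (nat_lit 203)) (XT.nd (nat_lit 78) (nat_lit 0) (nat_lit 0) (XT.lf (nat_lit 0) (nat_lit 47764526598) (nat_lit 152) (nat_lit 15873854224) (nat_lit 0) (nat_lit 45003575849) (nat_lit 2) (nat_lit 5) (nat_lit 4) (nat_lit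 4) (nat_lit 2) (nat_lit 4) (nat_lit 353) (nat_lit 225) (nat_lit 202)) (XT.lf (nat_lit 0) (nat_lit 52313000437) (nat_lit 152) (nat_lit 12153384825) (nat_lit 0) (nat_lit 49488582473) (nat_lit 2) (nat_lit 5) (nat_lit 4) (nat_lit 4) (nat_lit 2) (nat_lit 4) (nat_lit 354) (nat_lit 225) (nat_lit 201)))))) (XT.nd (nat_lit 390) (nat_lit 0) (nat_lit 0) (XT.nd (nat_lit 156) (nat_lit 76) (nat_lit 0) (XT.nd (nat_lit 78) (nat_lit 0) (nat_lit 0) (XT.lf (nat_lit 0) (nat_lit 57045133344) (nat_lit 152) (nat_lit 8330429369) (nat_lit 0) (nat_lit 54160270413) (nat_lit 2) (nat_lit 5) (nat_lit 4) (nat_lit 4) (nat_lit 2) (nat_lit 4) (nat_lit 355) (nat_lit 225) (nat_lit 200)) (XT.lf (nat_lit 0) (nat_lit 61972192303) (nat_lit 152) (nat_lit 4395885582) (nat_lit 0) (nat_lit 59029762736) (nat_lit 2) (nat_lit 5) (nat_lit 4) (nat_lit 4) (nat_lit 2) (nat_lit 4) (nat_lit 356) (nat_lit 225) (nat_lit 199))) (XT.nd (nat_lit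 78) (nat_lit 76) (nat_lit 0) (XT.lf (nat_lit 0) (nat_lit 67105908406) (nat_lit 152) (nat_lit 340385502) (nat_lit 0) (nat_lit 64108653472) (nat_lit 2) (nat_lit 5) (nat_lit 4) (nat_lit 4) (nat_lit 2) (nat_lit 4) (nat_lit 357) (nat_lit 225) (nat_lit 198)) (XT.nd (nat_lit 78) (nat_lit 0) (nat_lit 0) (XT.lf (nat_lit 0) (nat_lit 3972883918) (nat_lit 76) (nat_lit 68547648721) (nat_lit 76) (nat_lit 65498179151) (nat_lit 1) (nat_lit 4) (nat_lit 2) (nat_lit 5) (nat_lit 2) (nat_lit 4) (nat_lit 358) (nat_lit 225) (nat_lit 197)) (XT.lf (nat_lit 0) (nat_lit 8442635383) (nat_lit 76) (nat_lit 69731903538) (nat_lit 76) (nat_lit 66632705744) (nat_lit 1) (nat_lit 4) (nat_lit 2) (nat_lit 5) (nat_lit 2) (nat_lit 4) (nat_lit 359) (nat_lit 225) (nat_lit 196))))) (XT.nd (nat_lit 234) (nat_lit 0) (nat_lit 0) (XT.nd (nat_lit 78) (nat_lit 0) (nat_lit 0) (XT.lf (nat_lit 0) (nat_lit 13068256476) (nat_lit 76) (nat_lit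 71007642610) (nat_lit 76) (nat_lit 67861084602) (nat_lit 1) (nat_lit 4) (nat_lit 2) (nat_lit 5) (nat_lit 2) (nat_lit 4) (nat_lit 360) (nat_lit 225) (nat_lit 195)) (XT.nd (nat_lit 78) (nat_lit 0) (nat_lit 0) (XT.lf (nat_lit 0) (nat_lit 17860760579) (nat_lit 76) (nat_lit 72377903408) (nat_lit 76) (nat_lit 69186240435) (nat_lit 1) (nat_lit 4) (nat_lit 2) (nat_lit 5) (nat_lit 2) (nat_lit 4) (nat_lit 361) (nat_lit 225) (nat_lit 194)) (XT.lf (nat_lit 0) (nat_lit 22831558417) (nat_lit 76) (nat_lit 73845948460) (nat_lit 76) (nat_lit 70611328378) (nat_lit 1) (nat_lit 4) (nat_lit 2) (nat_lit 5) (nat_lit 2) (nat_lit 4) (nat_lit 362) (nat_lit 225) (nat_lit 193)))) (XT.nd (nat_lit 78) (nat_lit 0) (nat_lit 0) (XT.lf (nat_lit 0) (nat_lit 27992485223) (nat_lit 76) (nat_lit 75415273111) (nat_lit 76) (nat_lit 72139741495) (nat_lit 1) (nat_lit 4) (nat_lit 2) (nat_lit 5) (nat_lit 2) (nat_lit 4) (nat_lit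 363) (nat_lit 225) (nat_lit 192)) (XT.nd (nat_lit 78) (nat_lit 0) (nat_lit 0) (XT.lf (nat_lit 0) (nat_lit 33355828917) (nat_lit 76) (nat_lit 77089613848) (nat_lit 76) (nat_lit 73775118867) (nat_lit 1) (nat_lit 4) (nat_lit 2) (nat_lit 5) (nat_lit 2) (nat_lit 4) (nat_lit 364) (nat_lit 225) (nat_lit 191)) (XT.lf (nat_lit 0) (nat_lit 38934359367) (nat_lit 76) (nat_lit 78872957196) (nat_lit 76) (nat_lit 75521354248) (nat_lit 1) (nat_lit 4) (nat_lit 2) (nat_lit 5) (nat_lit 2) (nat_lit 4) (nat_lit 365) (nat_lit 225) (nat_lit 190))))))))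
noncomputable def xc24 : XT := (XT.nd (nat_lit 1560) (nat_lit 0) (nat_lit 0) (XT.nd (nat_lit 780) (nat_lit 0) (nat_lit 0) (XT.nd (nat_lit 390) (nat_lit 0) (nat_lit 0) (XT.nd (nat_lit 156) (nat_lit 0) (nat_lit 0) (XT.nd (nat_lit 78) (nat_lit 0) (nat_lit 0) (XT.lf (nat_lit 0) (nat_lit 44741358786) (nat_lit 76) (nat_lit 80769549211) (nat_lit 76) (nat_lit 77382605343) (nat_lit 1) (nat_lit 4) (nat_lit 2) (nat_lit 5) (nat_lit 2) (nat_lit 4) (nat_lit 366) (nat_lit 225) (nat_lit 189)) (XT.lf (nat_lit 0) (nat_lit 50790653364) (nat_lit 76) (nat_lit 82783905588) (nat_lit 76) (nat_lit 79363303700) (nat_lit 1) (nat_lit 4) (nat_lit 2) (nat_lit 5) (nat_lit 2) (nat_lit 4) (nat_lit 367) (nat_lit 225) (nat_lit 188))) (XT.nd (nat_lit 78) (nat_lit 0) (nat_lit 0) (XT.lf (nat_lit 0) (nat_lit 57096646184) (nat_lit 76) (nat_lit 84920822414) (nat_lit 76) (nat_lit 81468165270) (nat_lit 1) (nat_lit 4) (nat_lit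 2) (nat_lit 5) (nat_lit 2) (nat_lit 4) (nat_lit 368) (nat_lit 225) (nat_lit 187)) (XT.nd (nat_lit 78) (nat_lit 0) (nat_lit 0) (XT.lf (nat_lit 0) (nat_lit 63674351514) (nat_lit 76) (nat_lit 87185387587) (nat_lit 76) (nat_lit 83702201626) (nat_lit 1) (nat_lit 4) (nat_lit 2) (nat_lit 5) (nat_lit 2) (nat_lit 4) (nat_lit 369) (nat_lit 225) (nat_lit 186)) (XT.lf (nat_lit 0) (nat_lit 70539430558) (nat_lit 76) (nat_lit 89582992927) (nat_lit 76) (nat_lit 86070731904) (nat_lit 1) (nat_lit 4) (nat_lit 2) (nat_lit 5) (nat_lit 2) (nat_lit 4) (nat_lit 370) (nat_lit 225) (nat_lit 185))))) (XT.nd (nat_lit 156) (nat_lit 0) (nat_lit 0) (XT.nd (nat_lit 78) (nat_lit 0) (nat_lit 0) (XT.lf (nat_lit 0) (nat_lit 77708228740) (nat_lit 76) (nat_lit 92119347019) (nat_lit 76) (nat_lit 88579395460) (nat_lit 1) (nat_lit 4) (nat_lit 2) (nat_lit 5) (nat_lit 2) (nat_lit 4) (nat_lit 371) (nat_lit 225) (nat_lit 184))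 (XT.lf (nat_lit 0) (nat_lit 85197814630) (nat_lit 76) (nat_lit 94800488802) (nat_lit 76) (nat_lit 91234165304) (nat_lit 1) (nat_lit 4) (nat_lit 2) (nat_lit 5) (nat_lit 2) (nat_lit 4) (nat_lit 372) (nat_lit 225) (nat_lit 183))) (XT.nd (nat_lit 78) (nat_lit 0) (nat_lit 0) (XT.lf (nat_lit 0) (nat_lit 93026020573) (nat_lit 76) (nat_lit 97632801946) (nat_lit 76) (nat_lit 94041362316) (nat_lit 1) (nat_lit 4) (nat_lit 2) (nat_lit 5) (nat_lit 2) (nat_lit 4) (nat_lit 373) (nat_lit 225) (nat_lit 182)) (XT.nd (nat_lit 78) (nat_lit 0) (nat_lit 0) (XT.lf (nat_lit 0) (nat_lit 101211485156) (nat_lit 76) (nat_lit 100623030055) (nat_lit 76) (nat_lit 97007670298) (nat_lit 1) (nat_lit 4) (nat_lit 2) (nat_lit 5) (nat_lit 2) (nat_lit 4) (nat_lit 374) (nat_lit 225) (nat_lit 181)) (XT.lf (nat_lit 0) (nat_lit 109773697580) (nat_lit 76) (nat_lit 103778292718) (nat_lit 76) (nat_lit 100140151888) (nat_lit 1) (nat_lit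 4) (nat_lit 2) (nat_lit 5) (nat_lit 2) (nat_lit 4) (nat_lit 375) (nat_lit 225) (nat_lit 180)))))) (XT.nd (nat_lit 390) (nat_lit 0) (nat_lit 0) (XT.nd (nat_lit 156) (nat_lit 0) (nat_lit 0) (XT.nd (nat_lit 78) (nat_lit 0) (nat_lit 0) (XT.lf (nat_lit 0) (nat_lit 118733044065) (nat_lit 76) (nat_lit 107106102466) (nat_lit 76) (nat_lit 103446265377) (nat_lit 1) (nat_lit 4) (nat_lit 2) (nat_lit 5) (nat_lit 2) (nat_lit 4) (nat_lit 376) (nat_lit 225) (nat_lit 179)) (XT.lf (nat_lit 0) (nat_lit 128110856389) (nat_lit 76) (nat_lit 110614382655) (nat_lit 76) (nat_lit 106933882462) (nat_lit 1) (nat_lit 4) (nat_lit 2) (nat_lit 5) (nat_lit 2) (nat_lit 4) (nat_lit 377) (nat_lit 225) (nat_lit 178))) (XT.nd (nat_lit 78) (nat_lit 0) (nat_lit 0) (XT.lf (nat_lit 0) (nat_lit 137929462675) (nat_lit 76) (nat_lit 114311486334) (nat_lit 76) (nat_lit 110611306994) (nat_lit 1) (nat_lit 4) (nat_lit 2) (nat_lit 5)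 (nat_lit 2) (nat_lit 4) (nat_lit 378) (nat_lit 225) (nat_lit 177)) (XT.nd (nat_lit 78) (nat_lit 0) (nat_lit 0) (XT.lf (nat_lit 0) (nat_lit 148212240559) (nat_lit 76) (nat_lit 118206216131) (nat_lit 76) (nat_lit 114487294746) (nat_lit 1) (nat_lit 4) (nat_lit 2) (nat_lit 5) (nat_lit 2) (nat_lit 4) (nat_lit 379) (nat_lit 225) (nat_lit 176)) (XT.lf (nat_lit 0) (nat_lit 158983672843) (nat_lit 76) (nat_lit 122307845211) (nat_lit 76) (nat_lit 118571074259) (nat_lit 1) (nat_lit 4) (nat_lit 2) (nat_lit 5) (nat_lit 2) (nat_lit 4) (nat_lit 380) (nat_lit 225) (nat_lit 175))))) (XT.nd (nat_lit 156) (nat_lit 0) (nat_lit 0) (XT.nd (nat_lit 78) (nat_lit 0) (nat_lit 0) (XT.lf (nat_lit 0) (nat_lit 170269405797) (nat_lit 76) (nat_lit 126626139358) (nat_lit 76) (nat_lit 122872368819) (nat_lit 1) (nat_lit 4) (nat_lit 2) (nat_lit 5) (nat_lit 2) (nat_lit 4) (nat_lit 381) (nat_lit 225) (nat_lit 174)) (XT.lf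 (nat_lit 0) (nat_lit 182096310212) (nat_lit 76) (nat_lit 131171380224) (nat_lit 76) (nat_lit 127401419603) (nat_lit 1) (nat_lit 4) (nat_lit 2) (nat_lit 5) (nat_lit 2) (nat_lit 4) (nat_lit 382) (nat_lit 225) (nat_lit 173))) (XT.nd (nat_lit 78) (nat_lit 0) (nat_lit 0) (XT.lf (nat_lit 0) (nat_lit 194492545385) (nat_lit 76) (nat_lit 135954389813) (nat_lit 76) (nat_lit 132169010065) (nat_lit 1) (nat_lit 4) (nat_lit 2) (nat_lit 5) (nat_lit 2) (nat_lit 4) (nat_lit 383) (nat_lit 225) (nat_lit 172)) (XT.nd (nat_lit 78) (nat_lit 0) (nat_lit 0) (XT.lf (nat_lit 0) (nat_lit 207487626161) (nat_lit 76) (nat_lit 140986556242) (nat_lit 76) (nat_lit 137186491612) (nat_lit 1) (nat_lit 4) (nat_lit 2) (nat_lit 5) (nat_lit 2) (nat_lit 4) (nat_lit 384) (nat_lit 225) (nat_lit 171)) (XT.lf (nat_lit 0) (nat_lit 221112493210) (nat_lit 76) (nat_lit 146279860859) (nat_lit 76) (nat_lit 142465810626) (nat_lit 1) (nat_lit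 4) (nat_lit 2) (nat_lit 5) (nat_lit 2) (nat_lit 4) (nat_lit 385) (nat_lit 225) (nat_lit 170))))))) (XT.nd (nat_lit 36426) (nat_lit 0) (nat_lit 76) (XT.nd (nat_lit 390) (nat_lit 0) (nat_lit 0) (XT.nd (nat_lit 156) (nat_lit 0) (nat_lit 0) (XT.nd (nat_lit 78) (nat_lit 0) (nat_lit 0) (XT.lf (nat_lit 0) (nat_lit 235399586690) (nat_lit 76) (nat_lit 151846906771) (nat_lit 76) (nat_lit 148019536917) (nat_lit 1) (nat_lit 4) (nat_lit 2) (nat_lit 5) (nat_lit 2) (nat_lit 4) (nat_lit 386) (nat_lit 225) (nat_lit 169)) (XT.lf (nat_lit 0) (nat_lit 250382923490) (nat_lit 76) (nat_lit 157700948849) (nat_lit 76) (nat_lit 153860893642) (nat_lit 1) (nat_lit 4) (nat_lit 2) (nat_lit 5) (nat_lit 2) (nat_lit 4) (nat_lit 387) (nat_lit 225) (nat_lit 168))) (XT.nd (nat_lit 78) (nat_lit 0) (nat_lit 0) (XT.lf (nat_lit 0) (nat_lit 266098178223) (nat_lit 76) (nat_lit 163855925288) (nat_lit 76) (nat_lit 160003788792)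 (nat_lit 1) (nat_lit 4) (nat_lit 2) (nat_lit 5) (nat_lit 2) (nat_lit 4) (nat_lit 388) (nat_lit 225) (nat_lit 167)) (XT.nd (nat_lit 78) (nat_lit 0) (nat_lit 0) (XT.lf (nat_lit 0) (nat_lit 282582768162) (nat_lit 76) (nat_lit 170326490795) (nat_lit 76) (nat_lit 166462848309) (nat_lit 1) (nat_lit 4) (nat_lit 2) (nat_lit 5) (nat_lit 2) (nat_lit 4) (nat_lit 389) (nat_lit 225) (nat_lit 166)) (XT.lf (nat_lit 0) (nat_lit 299875942329) (nat_lit 76) (nat_lit 177128051477) (nat_lit 76) (nat_lit 173253450906) (nat_lit 1) (nat_lit 4) (nat_lit 2) (nat_lit 5) (nat_lit 2) (nat_lit 4) (nat_lit 390) (nat_lit 225) (nat_lit 165))))) (XT.nd (nat_lit 35802) (nat_lit 0) (nat_lit 304) (XT.nd (nat_lit 35724) (nat_lit 0) (nat_lit 304) (XT.lf (nat_lit 0) (nat_lit 318018874950) (nat_lit 76) (nat_lit 184276801527) (nat_lit 76) (nat_lit 180391764684) (nat_lit 1) (nat_lit 4) (nat_lit 2) (nat_lit 5) (nat_lit 2) (nat_lit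 4) (nat_lit 391) (nat_lit 225) (nat_lit 164)) (XT.lf (nat_lit 0) (nat_lit 1613536989) (nat_lit 152) (nat_lit 13996011374) (nat_lit 0) (nat_lit 1613536989) (nat_lit 5) (nat_lit 5) (nat_lit 7) (nat_lit 4) (nat_lit 5) (nat_lit 4) (nat_lit 328) (nat_lit 226) (nat_lit 226))) (XT.nd (nat_lit 78) (nat_lit 0) (nat_lit 0) (XT.lf (nat_lit 0) (nat_lit 7256444768) (nat_lit 152) (nat_lit 21664156321) (nat_lit 0) (nat_lit 7041522248) (nat_lit 5) (nat_lit 5) (nat_lit 7) (nat_lit 4) (nat_lit 5) (nat_lit 4) (nat_lit 329) (nat_lit 226) (nat_lit 225)) (XT.nd (nat_lit 78) (nat_lit 0) (nat_lit 0) (XT.lf (nat_lit 0) (nat_lit 11358373869) (nat_lit 152) (nat_lit 15263234643) (nat_lit 0) (nat_lit 10938763235) (nat_lit 5) (nat_lit 5) (nat_lit 7) (nat_lit 4) (nat_lit 5) (nat_lit 4) (nat_lit 330) (nat_lit 226) (nat_lit 224)) (XT.lf (nat_lit 0) (nat_lit 15542627781) (nat_lit 152) (nat_lit 8774017427) (nat_lit 0)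 (nat_lit 14928076086) (nat_lit 5) (nat_lit 5) (nat_lit 7) (nat_lit 4) (nat_lit 5) (nat_lit 4) (nat_lit 331) (nat_lit 226) (nat_lit 223)))))) (XT.nd (nat_lit 390) (nat_lit 152) (nat_lit 0) (XT.nd (nat_lit 156) (nat_lit 0) (nat_lit 0) (XT.nd (nat_lit 78) (nat_lit 76) (nat_lit 0) (XT.lf (nat_lit 0) (nat_lit 19819169013) (nat_lit 152) (nat_lit 2181054155) (nat_lit 0) (nat_lit 19018959165) (nat_lit 5) (nat_lit 5) (nat_lit 7) (nat_lit 4) (nat_lit 5) (nat_lit 4) (nat_lit 332) (nat_lit 226) (nat_lit 222)) (XT.lf (nat_lit 0) (nat_lit 4681179688) (nat_lit 76) (nat_lit 19590086451) (nat_lit 76) (nat_lit 18613059314) (nat_lit 4) (nat_lit 4) (nat_lit 5) (nat_lit 5) (nat_lit 5) (nat_lit 4) (nat_lit 333) (nat_lit 226) (nat_lit 221))) (XT.nd (nat_lit 78) (nat_lit 0) (nat_lit 0) (XT.lf (nat_lit 0) (nat_lit 11755432321) (nat_lit 76) (nat_lit 17118189298) (nat_lit 76) (nat_lit 15972764743) (nat_lit 4)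 (nat_lit 4) (nat_lit 5) (nat_lit 5) (nat_lit 5) (nat_lit 4) (nat_lit 334) (nat_lit 226) (nat_lit 220)) (XT.nd (nat_lit 78) (nat_lit 0) (nat_lit 0) (XT.lf (nat_lit 0) (nat_lit 18986431699) (nat_lit 76) (nat_lit 14615583447) (nat_lit 76) (nat_lit 13309780399) (nat_lit 4) (nat_lit 4) (nat_lit 5) (nat_lit 5) (nat_lit 5) (nat_lit 4) (nat_lit 335) (nat_lit 226) (nat_lit 219)) (XT.lf (nat_lit 0) (nat_lit 26391394489) (nat_lit 76) (nat_lit 12076310314) (nat_lit 76) (nat_lit 10617765844) (nat_lit 4) (nat_lit 4) (nat_lit 5) (nat_lit 5) (nat_lit 5) (nat_lit 4) (nat_lit 336) (nat_lit 226) (nat_lit 218))))) (XT.nd (nat_lit 156) (nat_lit 152) (nat_lit 0) (XT.nd (nat_lit 78) (nat_lit 0) (nat_lit 0) (XT.lf (nat_lit 0) (nat_lit 33987951554) (nat_lit 76) (nat_lit 9494324009) (nat_lit 76) (nat_lit 7890311518) (nat_lit 4) (nat_lit 4) (nat_lit 5) (nat_lit 5) (nat_lit 5) (nat_lit 4) (nat_lit 337) (nat_lit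 226) (nat_lit 217)) (XT.lf (nat_lit 0) (nat_lit 41794189935) (nat_lit 76) (nat_lit 6863476947) (nat_lit 76) (nat_lit 5120923483) (nat_lit 4) (nat_lit 4) (nat_lit 5) (nat_lit 5) (nat_lit 5) (nat_lit 4) (nat_lit 338) (nat_lit 226) (nat_lit 216))) (XT.nd (nat_lit 78) (nat_lit 152) (nat_lit 0) (XT.lf (nat_lit 0) (nat_lit 49828695913) (nat_lit 76) (nat_lit 4177505205) (nat_lit 76) (nat_lit 2303007958) (nat_lit 4) (nat_lit 4) (nat_lit 5) (nat_lit 5) (nat_lit 5) (nat_lit 4) (nat_lit 339) (nat_lit 226) (nat_lit 215)) (XT.nd (nat_lit 78) (nat_lit 76) (nat_lit 0) (XT.lf (nat_lit 0) (nat_lit 551896198) (nat_lit 152) (nat_lit 868770786) (nat_lit 76) (nat_lit 57549356438) (nat_lit 3) (nat_lit 5) (nat_lit 5) (nat_lit 5) (nat_lit 4) (nat_lit 4) (nat_lit 340) (nat_lit 226) (nat_lit 214)) (XT.lf (nat_lit 0) (nat_lit 3494991566) (nat_lit 152) (nat_lit 56789785219) (nat_lit 0) (nat_lit 1476101191) (nat_lit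 2) (nat_lit 5) (nat_lit 4) (nat_lit 4) (nat_lit 2) (nat_lit 4) (nat_lit 341) (nat_lit 226) (nat_lit 213))))))))
noncomputable def xc25 : XT := (XT.nd (nat_lit 1560) (nat_lit 0) (nat_lit 0) (XT.nd (nat_lit 780) (nat_lit 76) (nat_lit 0) (XT.nd (nat_lit 390) (nat_lit 0) (nat_lit 0) (XT.nd (nat_lit 156) (nat_lit 0) (nat_lit 0) (XT.nd (nat_lit 78) (nat_lit 0) (nat_lit 0) (XT.lf (nat_lit 0) (nat_lit 6544890601) (nat_lit 152) (nat_lit 53730980379) (nat_lit 0) (nat_lit 4417449749) (nat_lit 2) (nat_lit 5) (nat_lit 4) (nat_lit 4) (nat_lit 2) (nat_lit 4) (nat_lit 342) (nat_lit 226) (nat_lit 212)) (XT.lf (nat_lit 0) (nat_lit 9672432229) (nat_lit 152) (nat_lit 50662112624) (nat_lit 0) (nat_lit 7441609970) (nat_lit 2) (nat_lit 5) (nat_lit 4) (nat_lit 4) (nat_lit 2) (nat_lit 4) (nat_lit 343) (nat_lit 226) (nat_lit 211))) (XT.nd (nat_lit 78) (nat_lit 0) (nat_lit 0) (XT.lf (nat_lit 0) (nat_lit 12885062979)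 (nat_lit 152) (nat_lit 47575875126) (nat_lit 0) (nat_lit 10555782237) (nat_lit 2) (nat_lit 5) (nat_lit 4) (nat_lit 4) (nat_lit 2) (nat_lit 4) (nat_lit 344) (nat_lit 226) (nat_lit 210)) (XT.nd (nat_lit 78) (nat_lit 0) (nat_lit 0) (XT.lf (nat_lit 0) (nat_lit 16190431970) (nat_lit 152) (nat_lit 44464919699) (nat_lit 0) (nat_lit 13767381246) (nat_lit 2) (nat_lit 5) (nat_lit 4) (nat_lit 4) (nat_lit 2) (nat_lit 4) (nat_lit 345) (nat_lit 226) (nat_lit 209)) (XT.lf (nat_lit 0) (nat_lit 19596409130) (nat_lit 152) (nat_lit 41321839307) (nat_lit 0) (nat_lit 17084053659) (nat_lit 2) (nat_lit 5) (nat_lit 4) (nat_lit 4) (nat_lit 2) (nat_lit 4) (nat_lit 346) (nat_lit 226) (nat_lit 208))))) (XT.nd (nat_lit 156) (nat_lit 0) (nat_lit 0) (XT.nd (nat_lit 78) (nat_lit 0) (nat_lit 0) (XT.lf (nat_lit 0) (nat_lit 23111103928) (nat_lit 152) (nat_lit 38139150426) (nat_lit 0) (nat_lit 20513696318) (nat_lit 2)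 (nat_lit 5) (nat_lit 4) (nat_lit 4) (nat_lit 2) (nat_lit 4) (nat_lit 347) (nat_lit 226) (nat_lit 207)) (XT.lf (nat_lit 0) (nat_lit 26742884684) (nat_lit 152) (nat_lit 34909275225) (nat_lit 0) (nat_lit 24064475037) (nat_lit 2) (nat_lit 5) (nat_lit 4) (nat_lit 4) (nat_lit 2) (nat_lit 4) (nat_lit 348) (nat_lit 226) (nat_lit 206))) (XT.nd (nat_lit 78) (nat_lit 0) (nat_lit 0) (XT.lf (nat_lit 0) (nat_lit 30500398496) (nat_lit 152) (nat_lit 31624523525) (nat_lit 0) (nat_lit 27744844052) (nat_lit 2) (nat_lit 5) (nat_lit 4) (nat_lit 4) (nat_lit 2) (nat_lit 4) (nat_lit 349) (nat_lit 226) (nat_lit 205)) (XT.nd (nat_lit 78) (nat_lit 0) (nat_lit 0) (XT.lf (nat_lit 0) (nat_lit 34392591826) (nat_lit 152) (nat_lit 28277074488) (nat_lit 0) (nat_lit 31563566145) (nat_lit 2) (nat_lit 5) (nat_lit 4) (nat_lit 4) (nat_lit 2) (nat_lit 4) (nat_lit 350) (nat_lit 226) (nat_lit 204)) (XT.lf (nat_lit 0) (nat_lit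 38428731799) (nat_lit 152) (nat_lit 24858957997) (nat_lit 0) (nat_lit 35529733513) (nat_lit 2) (nat_lit 5) (nat_lit 4) (nat_lit 4) (nat_lit 2) (nat_lit 4) (nat_lit 351) (nat_lit 226) (nat_lit 203)))))) (XT.nd (nat_lit 390) (nat_lit 76) (nat_lit 0) (XT.nd (nat_lit 156) (nat_lit 0) (nat_lit 0) (XT.nd (nat_lit 78) (nat_lit 0) (nat_lit 0) (XT.lf (nat_lit 0) (nat_lit 42618428273) (nat_lit 152) (nat_lit 21362035681) (nat_lit 0) (nat_lit 39652789411) (nat_lit 2) (nat_lit 5) (nat_lit 4) (nat_lit 4) (nat_lit 2) (nat_lit 4) (nat_lit 352) (nat_lit 226) (nat_lit 202)) (XT.lf (nat_lit 0) (nat_lit 46971656717) (nat_lit 152) (nat_lit 17777981533) (nat_lit 0) (nat_lit 43942550639) (nat_lit 2) (nat_lit 5) (nat_lit 4) (nat_lit 4) (nat_lit 2) (nat_lit 4) (nat_lit 353) (nat_lit 226) (nat_lit 201))) (XT.nd (nat_lit 78) (nat_lit 0) (nat_lit 0) (XT.lf (nat_lit 0) (nat_lit 51498781959) (nat_lit 152) (nat_lit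 14098262091) (nat_lit 0) (nat_lit 48409230914) (nat_lit 2) (nat_lit 5) (nat_lit 4) (nat_lit 4) (nat_lit 2) (nat_lit 4) (nat_lit 354) (nat_lit 226) (nat_lit 200)) (XT.nd (nat_lit 78) (nat_lit 0) (nat_lit 0) (XT.lf (nat_lit 0) (nat_lit 56210582870) (nat_lit 152) (nat_lit 10314116119) (nat_lit 0) (nat_lit 53063465188) (nat_lit 2) (nat_lit 5) (nat_lit 4) (nat_lit 4) (nat_lit 2) (nat_lit 4) (nat_lit 355) (nat_lit 226) (nat_lit 199)) (XT.lf (nat_lit 0) (nat_lit 61118278022) (nat_lit 152) (nat_lit 6416533745) (nat_lit 0) (nat_lit 57916334973) (nat_lit 2) (nat_lit 5) (nat_lit 4) (nat_lit 4) (nat_lit 2) (nat_lit 4) (nat_lit 356) (nat_lit 226) (nat_lit 198))))) (XT.nd (nat_lit 156) (nat_lit 0) (nat_lit 0) (XT.nd (nat_lit 78) (nat_lit 76) (nat_lit 0) (XT.lf (nat_lit 0) (nat_lit 66233552404) (nat_lit 152) (nat_lit 2396235011) (nat_lit 0) (nat_lit 62979394721) (nat_lit 2) (nat_lit 5) (nat_lit 4)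 (nat_lit 4) (nat_lit 2) (nat_lit 4) (nat_lit 357) (nat_lit 226) (nat_lit 197)) (XT.lf (nat_lit 0) (nat_lit 1814425158) (nat_lit 76) (nat_lit 69782488345) (nat_lit 76) (nat_lit 66478602437) (nat_lit 1) (nat_lit 4) (nat_lit 2) (nat_lit 5) (nat_lit 2) (nat_lit 4) (nat_lit 358) (nat_lit 226) (nat_lit 196))) (XT.nd (nat_lit 78) (nat_lit 0) (nat_lit 0) (XT.lf (nat_lit 0) (nat_lit 6251192259) (nat_lit 76) (nat_lit 70982485364) (nat_lit 76) (nat_lit 67631239243) (nat_lit 1) (nat_lit 4) (nat_lit 2) (nat_lit 5) (nat_lit 2) (nat_lit 4) (nat_lit 359) (nat_lit 226) (nat_lit 195)) (XT.nd (nat_lit 78) (nat_lit 0) (nat_lit 0) (XT.lf (nat_lit 0) (nat_lit 10845399672) (nat_lit 76) (nat_lit 72273217008) (nat_lit 76) (nat_lit 68876865921) (nat_lit 1) (nat_lit 4) (nat_lit 2) (nat_lit 5) (nat_lit 2) (nat_lit 4) (nat_lit 360) (nat_lit 226) (nat_lit 194)) (XT.lf (nat_lit 0) (nat_lit 15607985984) (nat_lit 76)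 (nat_lit 73657756448) (nat_lit 76) (nat_lit 70218448251) (nat_lit 1) (nat_lit 4) (nat_lit 2) (nat_lit 5) (nat_lit 2) (nat_lit 4) (nat_lit 361) (nat_lit 226) (nat_lit 193))))))) (XT.nd (nat_lit 780) (nat_lit 0) (nat_lit 0) (XT.nd (nat_lit 390) (nat_lit 0) (nat_lit 0) (XT.nd (nat_lit 156) (nat_lit 0) (nat_lit 0) (XT.nd (nat_lit 78) (nat_lit 0) (nat_lit 0) (XT.lf (nat_lit 0) (nat_lit 20550290689) (nat_lit 76) (nat_lit 75139400205) (nat_lit 76) (nat_lit 71659180475) (nat_lit 1) (nat_lit 4) (nat_lit 2) (nat_lit 5) (nat_lit 2) (nat_lit 4) (nat_lit 362) (nat_lit 226) (nat_lit 192)) (XT.lf (nat_lit 0) (nat_lit 25684081177) (nat_lit 76) (nat_lit 76721676004) (nat_lit 76) (nat_lit 73202492909) (nat_lit 1) (nat_lit 4) (nat_lit 2) (nat_lit 5) (nat_lit 2) (nat_lit 4) (nat_lit 363) (nat_lit 226) (nat_lit 191))) (XT.nd (nat_lit 78) (nat_lit 0) (nat_lit 0) (XT.lf (nat_lit 0) (nat_lit 31021580759) (nat_lit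 76) (nat_lit 78408351167) (nat_lit 76) (nat_lit 74852060105) (nat_lit 1) (nat_lit 4) (nat_lit 2) (nat_lit 5) (nat_lit 2) (nat_lit 4) (nat_lit 364) (nat_lit 226) (nat_lit 190)) (XT.nd (nat_lit 78) (nat_lit 0) (nat_lit 0) (XT.lf (nat_lit 0) (nat_lit 36575497768) (nat_lit 76) (nat_lit 80203441588) (nat_lit 76) (nat_lit 76611809606) (nat_lit 1) (nat_lit 4) (nat_lit 2) (nat_lit 5) (nat_lit 2) (nat_lit 4) (nat_lit 365) (nat_lit 226) (nat_lit 189)) (XT.lf (nat_lit 0) (nat_lit 42359055816) (nat_lit 76) (nat_lit 82111221291) (nat_lit 76) (nat_lit 78485931290) (nat_lit 1) (nat_lit 4) (nat_lit 2) (nat_lit 5) (nat_lit 2) (nat_lit 4) (nat_lit 366) (nat_lit 226) (nat_lit 188))))) (XT.nd (nat_lit 156) (nat_lit 0) (nat_lit 0) (XT.nd (nat_lit 78) (nat_lit 0) (nat_lit 0) (XT.lf (nat_lit 0) (nat_lit 48386025278) (nat_lit 76) (nat_lit 84136232610) (nat_lit 76) (nat_lit 80478887352) (nat_lit 1) (nat_lit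 4) (nat_lit 2) (nat_lit 5) (nat_lit 2) (nat_lit 4) (nat_lit 367) (nat_lit 226) (nat_lit 187)) (XT.lf (nat_lit 0) (nat_lit 54670756083) (nat_lit 76) (nat_lit 86283297000) (nat_lit 76) (nat_lit 82595422926) (nat_lit 1) (nat_lit 4) (nat_lit 2) (nat_lit 5) (nat_lit 2) (nat_lit 4) (nat_lit 368) (nat_lit 226) (nat_lit 186))) (XT.nd (nat_lit 78) (nat_lit 0) (nat_lit 0) (XT.lf (nat_lit 0) (nat_lit 61228211875) (nat_lit 76) (nat_lit 88557526518) (nat_lit 76) (nat_lit 84840577381) (nat_lit 1) (nat_lit 4) (nat_lit 2) (nat_lit 5) (nat_lit 2) (nat_lit 4) (nat_lit 369) (nat_lit 226) (nat_lit 185)) (XT.nd (nat_lit 78) (nat_lit 0) (nat_lit 0) (XT.lf (nat_lit 0) (nat_lit 68074005644) (nat_lit 76) (nat_lit 90964335998) (nat_lit 76) (nat_lit 87219696325) (nat_lit 1) (nat_lit 4) (nat_lit 2) (nat_lit 5) (nat_lit 2) (nat_lit 4) (nat_lit 370) (nat_lit 226) (nat_lit 184)) (XT.lf (nat_lit 0) (nat_lit 75224436899)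 (nat_lit 76) (nat_lit 93509455937) (nat_lit 76) (nat_lit 89738444325) (nat_lit 1) (nat_lit 4) (nat_lit 2) (nat_lit 5) (nat_lit 2) (nat_lit 4) (nat_lit 371) (nat_lit 226) (nat_lit 183)))))) (XT.nd (nat_lit 390) (nat_lit 0) (nat_lit 0) (XT.nd (nat_lit 156) (nat_lit 0) (nat_lit 0) (XT.nd (nat_lit 78) (nat_lit 0) (nat_lit 0) (XT.lf (nat_lit 0) (nat_lit 82696530476) (nat_lit 76) (nat_lit 96198946145) (nat_lit 76) (nat_lit 92402818401) (nat_lit 1) (nat_lit 4) (nat_lit 2) (nat_lit 5) (nat_lit 2) (nat_lit 4) (nat_lit 372) (nat_lit 226) (nat_lit 182)) (XT.lf (nat_lit 0) (nat_lit 90508077074) (nat_lit 76) (nat_lit 99039210171) (nat_lit 76) (nat_lit 95219162300) (nat_lit 1) (nat_lit 4) (nat_lit 2) (nat_lit 5) (nat_lit 2) (nat_lit 4) (nat_lit 373) (nat_lit 226) (nat_lit 181))) (XT.nd (nat_lit 78) (nat_lit 0) (nat_lit 0) (XT.lf (nat_lit 0) (nat_lit 98677675614) (nat_lit 76) (nat_lit 102037010547)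 (nat_lit 76) (nat_lit 98194181604) (nat_lit 1) (nat_lit 4) (nat_lit 2) (nat_lit 5) (nat_lit 2) (nat_lit 4) (nat_lit 374) (nat_lit 226) (nat_lit 180)) (XT.nd (nat_lit 78) (nat_lit 0) (nat_lit 0) (XT.lf (nat_lit 0) (nat_lit 107224777521) (nat_lit 76) (nat_lit 105199484894) (nat_lit 76) (nat_lit 101334959691) (nat_lit 1) (nat_lit 4) (nat_lit 2) (nat_lit 5) (nat_lit 2) (nat_lit 4) (nat_lit 375) (nat_lit 226) (nat_lit 179)) (XT.lf (nat_lit 0) (nat_lit 116169733037) (nat_lit 76) (nat_lit 108534162912) (nat_lit 76) (nat_lit 104648974605) (nat_lit 1) (nat_lit 4) (nat_lit 2) (nat_lit 5) (nat_lit 2) (nat_lit 4) (nat_lit 376) (nat_lit 226) (nat_lit 178))))) (XT.nd (nat_lit 156) (nat_lit 0) (nat_lit 0) (XT.nd (nat_lit 78) (nat_lit 0) (nat_lit 0) (XT.lf (nat_lit 0) (nat_lit 125533839676) (nat_lit 76) (nat_lit 112048984311) (nat_lit 76) (nat_lit 108144116857) (nat_lit 1) (nat_lit 4) (nat_lit 2) (nat_lit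 5) (nat_lit 2) (nat_lit 4) (nat_lit 377) (nat_lit 226) (nat_lit 177)) (XT.lf (nat_lit 0) (nat_lit 135339392930) (nat_lit 76) (nat_lit 115752317714) (nat_lit 76) (nat_lit 111828708215) (nat_lit 1) (nat_lit 4) (nat_lit 2) (nat_lit 5) (nat_lit 2) (nat_lit 4) (nat_lit 378) (nat_lit 226) (nat_lit 176))) (XT.nd (nat_lit 78) (nat_lit 0) (nat_lit 0) (XT.lf (nat_lit 0) (nat_lit 145609739353) (nat_lit 76) (nat_lit 119652980581) (nat_lit 76) (nat_lit 115711521515) (nat_lit 1) (nat_lit 4) (nat_lit 2) (nat_lit 5) (nat_lit 2) (nat_lit 4) (nat_lit 379) (nat_lit 226) (nat_lit 175)) (XT.nd (nat_lit 78) (nat_lit 0) (nat_lit 0) (XT.lf (nat_lit 0) (nat_lit 156369332152) (nat_lit 76) (nat_lit 123760260203) (nat_lit 76) (nat_lit 119801801551) (nat_lit 1) (nat_lit 4) (nat_lit 2) (nat_lit 5) (nat_lit 2) (nat_lit 4) (nat_lit 380) (nat_lit 226) (nat_lit 174)) (XT.lf (nat_lit 0) (nat_lit 167643789405) (nat_lit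 76) (nat_lit 128083935820) (nat_lit 76) (nat_lit 124109287085) (nat_lit 1) (nat_lit 4) (nat_lit 2) (nat_lit 5) (nat_lit 2) (nat_lit 4) (nat_lit 381) (nat_lit 226) (nat_lit 173))))))))
noncomputable def xc26 : XT := (XT.nd (nat_lit 37050) (nat_lit 0) (nat_lit 76) (XT.nd (nat_lit 36270) (nat_lit 0) (nat_lit 228) (XT.nd (nat_lit 390) (nat_lit 0) (nat_lit 0) (XT.nd (nat_lit 156) (nat_lit 0) (nat_lit 0) (XT.nd (nat_lit 78) (nat_lit 0) (nat_lit 0) (XT.lf (nat_lit 0) (nat_lit 179459955058) (nat_lit 76) (nat_lit 132634301896) (nat_lit 76) (nat_lit 128644234034) (nat_lit 1) (nat_lit 4) (nat_lit 2) (nat_lit 5) (nat_lit 2) (nat_lit 4) (nat_lit 382) (nat_lit 226) (nat_lit 172)) (XT.lf (nat_lit 0) (nat_lit 191845962838) (nat_lit 76) (nat_lit 137422192636) (nat_lit 76) (nat_lit 133417439892) (nat_lit 1) (nat_lit 4) (nat_lit 2) (nat_lit 5) (nat_lit 2) (nat_lit 4) (nat_lit 383) (nat_lit 226) (nat_lit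 171))) (XT.nd (nat_lit 78) (nat_lit 0) (nat_lit 0) (XT.lf (nat_lit 0) (nat_lit 204831303241) (nat_lit 76) (nat_lit 142459007780) (nat_lit 76) (nat_lit 138440269434) (nat_lit 1) (nat_lit 4) (nat_lit 2) (nat_lit 5) (nat_lit 2) (nat_lit 4) (nat_lit 384) (nat_lit 226) (nat_lit 170)) (XT.nd (nat_lit 78) (nat_lit 0) (nat_lit 0) (XT.lf (nat_lit 0) (nat_lit 218446893742) (nat_lit 76) (nat_lit 147756739746) (nat_lit 76) (nat_lit 143724681778) (nat_lit 1) (nat_lit 4) (nat_lit 2) (nat_lit 5) (nat_lit 2) (nat_lit 4) (nat_lit 385) (nat_lit 226) (nat_lit 169)) (XT.lf (nat_lit 0) (nat_lit 232725152416) (nat_lit 76) (nat_lit 153328002180) (nat_lit 76) (nat_lit 149283258859) (nat_lit 1) (nat_lit 4) (nat_lit 2) (nat_lit 5) (nat_lit 2) (nat_lit 4) (nat_lit 386) (nat_lit 226) (nat_lit 168))))) (XT.nd (nat_lit 156) (nat_lit 0) (nat_lit 0) (XT.nd (nat_lit 78) (nat_lit 0) (nat_lit 0) (XT.lf (nat_lit 0) (nat_lit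 247700075115) (nat_lit 76) (nat_lit 159186059993) (nat_lit 76) (nat_lit 155129235383) (nat_lit 1) (nat_lit 4) (nat_lit 2) (nat_lit 5) (nat_lit 2) (nat_lit 4) (nat_lit 387) (nat_lit 226) (nat_lit 167)) (XT.lf (nat_lit 0) (nat_lit 263407316418) (nat_lit 76) (nat_lit 165344860943) (nat_lit 76) (nat_lit 161276530342) (nat_lit 1) (nat_lit 4) (nat_lit 2) (nat_lit 5) (nat_lit 2) (nat_lit 4) (nat_lit 388) (nat_lit 226) (nat_lit 166))) (XT.nd (nat_lit 78) (nat_lit 0) (nat_lit 0) (XT.lf (nat_lit 0) (nat_lit 279884274518) (nat_lit 76) (nat_lit 171819068840) (nat_lit 76) (nat_lit 167739780154) (nat_lit 1) (nat_lit 4) (nat_lit 2) (nat_lit 5) (nat_lit 2) (nat_lit 4) (nat_lit 389) (nat_lit 226) (nat_lit 165)) (XT.nd (nat_lit 78) (nat_lit 0) (nat_lit 0) (XT.lf (nat_lit 0) (nat_lit 297170180269) (nat_lit 76) (nat_lit 178624098465) (nat_lit 76) (nat_lit 174534373508) (nat_lit 1) (nat_lit 4) (nat_lit 2)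 (nat_lit 5) (nat_lit 2) (nat_lit 4) (nat_lit 390) (nat_lit 226) (nat_lit 164)) (XT.lf (nat_lit 0) (nat_lit 315306190587) (nat_lit 76) (nat_lit 185776152271) (nat_lit 76) (nat_lit 181676488007) (nat_lit 1) (nat_lit 4) (nat_lit 2) (nat_lit 5) (nat_lit 2) (nat_lit 4) (nat_lit 391) (nat_lit 226) (nat_lit 163)))))) (XT.nd (nat_lit 390) (nat_lit 76) (nat_lit 0) (XT.nd (nat_lit 156) (nat_lit 152) (nat_lit 0) (XT.nd (nat_lit 78) (nat_lit 0) (nat_lit 0) (XT.lf (nat_lit 0) (nat_lit 11527900676) (nat_lit 76) (nat_lit 2143471379) (nat_lit 76) (nat_lit 2143471379) (nat_lit 7) (nat_lit 4) (nat_lit 8) (nat_lit 5) (nat_lit 8) (nat_lit 4) (nat_lit 326) (nat_lit 227) (nat_lit 227)) (XT.lf (nat_lit 0) (nat_lit 31774145391) (nat_lit 76) (nat_lit 734869147) (nat_lit 76) (nat_lit 497917069) (nat_lit 7) (nat_lit 4) (nat_lit 8) (nat_lit 5) (nat_lit 8) (nat_lit 4) (nat_lit 327) (nat_lit 227) (nat_lit 226)))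 (XT.nd (nat_lit 78) (nat_lit 0) (nat_lit 0) (XT.lf (nat_lit 0) (nat_lit 3386715436) (nat_lit 152) (nat_lit 28116659323) (nat_lit 0) (nat_lit 2946124270) (nat_lit 5) (nat_lit 5) (nat_lit 7) (nat_lit 4) (nat_lit 5) (nat_lit 4) (nat_lit 328) (nat_lit 227) (nat_lit 225)) (XT.nd (nat_lit 78) (nat_lit 0) (nat_lit 0) (XT.lf (nat_lit 0) (nat_lit 7353203187) (nat_lit 152) (nat_lit 21907494393) (nat_lit 0) (nat_lit 6707923907) (nat_lit 5) (nat_lit 5) (nat_lit 7) (nat_lit 4) (nat_lit 5) (nat_lit 4) (nat_lit 329) (nat_lit 227) (nat_lit 224)) (XT.lf (nat_lit 0) (nat_lit 11395243681) (nat_lit 152) (nat_lit 15619621762) (nat_lit 0) (nat_lit 10555023341) (nat_lit 5) (nat_lit 5) (nat_lit 7) (nat_lit 4) (nat_lit 5) (nat_lit 4) (nat_lit 330) (nat_lit 227) (nat_lit 223))))) (XT.nd (nat_lit 156) (nat_lit 76) (nat_lit 0) (XT.nd (nat_lit 78) (nat_lit 0) (nat_lit 0) (XT.lf (nat_lit 0) (nat_lit 15522460824)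 (nat_lit 152) (nat_lit 9238070304) (nat_lit 0) (nat_lit 14496582331) (nat_lit 5) (nat_lit 5) (nat_lit 7) (nat_lit 4) (nat_lit 5) (nat_lit 4) (nat_lit 331) (nat_lit 227) (nat_lit 222)) (XT.lf (nat_lit 0) (nat_lit 19744681324) (nat_lit 152) (nat_lit 2747645850) (nat_lit 0) (nat_lit 18541985542) (nat_lit 5) (nat_lit 5) (nat_lit 7) (nat_lit 4) (nat_lit 5) (nat_lit 4) (nat_lit 332) (nat_lit 227) (nat_lit 221))) (XT.nd (nat_lit 78) (nat_lit 0) (nat_lit 0) (XT.lf (nat_lit 0) (nat_lit 3994968948) (nat_lit 76) (nat_lit 20139361799) (nat_lit 76) (nat_lit 18768268599) (nat_lit 4) (nat_lit 4) (nat_lit 5) (nat_lit 5) (nat_lit 5) (nat_lit 4) (nat_lit 333) (nat_lit 227) (nat_lit 220)) (XT.nd (nat_lit 78) (nat_lit 0) (nat_lit 0) (XT.lf (nat_lit 0) (nat_lit 10973140660) (nat_lit 76) (nat_lit 17712774968) (nat_lit 76) (nat_lit 16181303275) (nat_lit 4) (nat_lit 4) (nat_lit 5) (nat_lit 5) (nat_lit 5) (nat_lit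 4) (nat_lit 334) (nat_lit 227) (nat_lit 219)) (XT.lf (nat_lit 0) (nat_lit 18112634401) (nat_lit 76) (nat_lit 15253321805) (nat_lit 76) (nat_lit 13569108690) (nat_lit 4) (nat_lit 4) (nat_lit 5) (nat_lit 5) (nat_lit 5) (nat_lit 4) (nat_lit 335) (nat_lit 227) (nat_lit 218))))))) (XT.nd (nat_lit 780) (nat_lit 0) (nat_lit 0) (XT.nd (nat_lit 390) (nat_lit 76) (nat_lit 0) (XT.nd (nat_lit 156) (nat_lit 76) (nat_lit 0) (XT.nd (nat_lit 78) (nat_lit 0) (nat_lit 0) (XT.lf (nat_lit 0) (nat_lit 25430448964) (nat_lit 76) (nat_lit 12755146470) (nat_lit 76) (nat_lit 10925465333) (nat_lit 4) (nat_lit 4) (nat_lit 5) (nat_lit 5) (nat_lit 5) (nat_lit 4) (nat_lit 336) (nat_lit 227) (nat_lit 217)) (XT.lf (nat_lit 0) (nat_lit 32944007718) (nat_lit 76) (nat_lit 10212300925) (nat_lit 76) (nat_lit 8244078816) (nat_lit 4) (nat_lit 4) (nat_lit 5) (nat_lit 5) (nat_lit 5) (nat_lit 4) (nat_lit 337) (nat_lit 227) (nat_lit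 216))) (XT.nd (nat_lit 78) (nat_lit 76) (nat_lit 0) (XT.lf (nat_lit 0) (nat_lit 40671200089) (nat_lit 76) (nat_lit 7618730777) (nat_lit 76) (nat_lit 5518564884) (nat_lit 4) (nat_lit 4) (nat_lit 5) (nat_lit 5) (nat_lit 5) (nat_lit 4) (nat_lit 338) (nat_lit 227) (nat_lit 215)) (XT.nd (nat_lit 78) (nat_lit 76) (nat_lit 0) (XT.lf (nat_lit 0) (nat_lit 48630424152) (nat_lit 76) (nat_lit 4968260858) (nat_lit 76) (nat_lit 2742434220) (nat_lit 4) (nat_lit 4) (nat_lit 5) (nat_lit 5) (nat_lit 5) (nat_lit 4) (nat_lit 339) (nat_lit 227) (nat_lit 214)) (XT.lf (nat_lit 0) (nat_lit 88012908) (nat_lit 152) (nat_lit 2165077077) (nat_lit 76) (nat_lit 56751126993) (nat_lit 3) (nat_lit 5) (nat_lit 5) (nat_lit 5) (nat_lit 4) (nat_lit 4) (nat_lit 340) (nat_lit 227) (nat_lit 213))))) (XT.nd (nat_lit 156) (nat_lit 0) (nat_lit 0) (XT.nd (nat_lit 78) (nat_lit 0) (nat_lit 0) (XT.lf (nat_lit 0) (nat_lit 2958521885)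 (nat_lit 152) (nat_lit 58224034071) (nat_lit 0) (nat_lit 616158513) (nat_lit 2) (nat_lit 5) (nat_lit 4) (nat_lit 4) (nat_lit 2) (nat_lit 4) (nat_lit 341) (nat_lit 227) (nat_lit 212)) (XT.lf (nat_lit 0) (nat_lit 5971907574) (nat_lit 152) (nat_lit 55234925489) (nat_lit 0) (nat_lit 3526162796) (nat_lit 2) (nat_lit 5) (nat_lit 4) (nat_lit 4) (nat_lit 2) (nat_lit 4) (nat_lit 342) (nat_lit 227) (nat_lit 211))) (XT.nd (nat_lit 78) (nat_lit 0) (nat_lit 0) (XT.lf (nat_lit 0) (nat_lit 9064674588) (nat_lit 152) (nat_lit 52232435121) (nat_lit 0) (nat_lit 6520471327) (nat_lit 2) (nat_lit 5) (nat_lit 4) (nat_lit 4) (nat_lit 2) (nat_lit 4) (nat_lit 343) (nat_lit 227) (nat_lit 210)) (XT.nd (nat_lit 78) (nat_lit 0) (nat_lit 0) (XT.lf (nat_lit 0) (nat_lit 12244186657) (nat_lit 152) (nat_lit 49209414182) (nat_lit 0) (nat_lit 9606213412) (nat_lit 2) (nat_lit 5) (nat_lit 4) (nat_lit 4) (nat_lit 2) (nat_lit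 4) (nat_lit 344) (nat_lit 227) (nat_lit 209)) (XT.lf (nat_lit 0) (nat_lit 15518014048) (nat_lit 152) (nat_lit 46158665002) (nat_lit 0) (nat_lit 12790736057) (nat_lit 2) (nat_lit 5) (nat_lit 4) (nat_lit 4) (nat_lit 2) (nat_lit 4) (nat_lit 345) (nat_lit 227) (nat_lit 208)))))) (XT.nd (nat_lit 390) (nat_lit 0) (nat_lit 0) (XT.nd (nat_lit 156) (nat_lit 0) (nat_lit 0) (XT.nd (nat_lit 78) (nat_lit 0) (nat_lit 0) (XT.lf (nat_lit 0) (nat_lit 18893951588) (nat_lit 152) (nat_lit 43072923894) (nat_lit 0) (nat_lit 16081621458) (nat_lit 2) (nat_lit 5) (nat_lit 4) (nat_lit 4) (nat_lit 2) (nat_lit 4) (nat_lit 346) (nat_lit 227) (nat_lit 207)) (XT.lf (nat_lit 0) (nat_lit 22380037224) (nat_lit 152) (nat_lit 39944843853) (nat_lit 0) (nat_lit 19486705057) (nat_lit 2) (nat_lit 5) (nat_lit 4) (nat_lit 4) (nat_lit 2) (nat_lit 4) (nat_lit 347) (nat_lit 227) (nat_lit 206))) (XT.nd (nat_lit 78) (nat_lit 0) (nat_lit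 0) (XT.lf (nat_lit 0) (nat_lit 25984571160) (nat_lit 152) (nat_lit 36766977072) (nat_lit 0) (nat_lit 23014094195) (nat_lit 2) (nat_lit 5) (nat_lit 4) (nat_lit 4) (nat_lit 2) (nat_lit 4) (nat_lit 348) (nat_lit 227) (nat_lit 205)) (XT.nd (nat_lit 78) (nat_lit 0) (nat_lit 0) (XT.lf (nat_lit 0) (nat_lit 29716135619) (nat_lit 152) (nat_lit 33531757200) (nat_lit 0) (nat_lit 26672187419) (nat_lit 2) (nat_lit 5) (nat_lit 4) (nat_lit 4) (nat_lit 2) (nat_lit 4) (nat_lit 349) (nat_lit 227) (nat_lit 204)) (XT.lf (nat_lit 0) (nat_lit 33583615279) (nat_lit 152) (nat_lit 30231481333) (nat_lit 0) (nat_lit 30469694473) (nat_lit 2) (nat_lit 5) (nat_lit 4) (nat_lit 4) (nat_lit 2) (nat_lit 4) (nat_lit 350) (nat_lit 227) (nat_lit 203))))) (XT.nd (nat_lit 156) (nat_lit 0) (nat_lit 0) (XT.nd (nat_lit 78) (nat_lit 0) (nat_lit 0) (XT.lf (nat_lit 0) (nat_lit 37596218424) (nat_lit 152) (nat_lit 26858291671) (nat_lit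 0) (nat_lit 34415657042) (nat_lit 2) (nat_lit 5) (nat_lit 4) (nat_lit 4) (nat_lit 2) (nat_lit 4) (nat_lit 351) (nat_lit 227) (nat_lit 202)) (XT.lf (nat_lit 0) (nat_lit 41763498872) (nat_lit 152) (nat_lit 23404156811) (nat_lit 0) (nat_lit 38519470274) (nat_lit 2) (nat_lit 5) (nat_lit 4) (nat_lit 4) (nat_lit 2) (nat_lit 4) (nat_lit 352) (nat_lit 227) (nat_lit 201))) (XT.nd (nat_lit 78) (nat_lit 0) (nat_lit 0) (XT.lf (nat_lit 0) (nat_lit 46095378719) (nat_lit 152) (nat_lit 19860852621) (nat_lit 0) (nat_lit 42790905154) (nat_lit 2) (nat_lit 5) (nat_lit 4) (nat_lit 4) (nat_lit 2) (nat_lit 4) (nat_lit 353) (nat_lit 227) (nat_lit 200)) (XT.nd (nat_lit 78) (nat_lit 0) (nat_lit 0) (XT.lf (nat_lit 0) (nat_lit 50602171964) (nat_lit 152) (nat_lit 16219942663) (nat_lit 0) (nat_lit 47240131763) (nat_lit 2) (nat_lit 5) (nat_lit 4) (nat_lit 4) (nat_lit 2) (nat_lit 4) (nat_lit 354) (nat_lit 227) (nat_lit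 199)) (XT.lf (nat_lit 0) (nat_lit 55294609068) (nat_lit 152) (nat_lit 12472758104) (nat_lit 0) (nat_lit 51877743500) (nat_lit 2) (nat_lit 5) (nat_lit 4) (nat_lit 4) (nat_lit 2) (nat_lit 4) (nat_lit 355) (nat_lit 227) (nat_lit 198))))))))
noncomputable def xc27 : XT := (XT.nd (nat_lit 1560) (nat_lit 0) (nat_lit 0) (XT.nd (nat_lit 780) (nat_lit 0) (nat_lit 0) (XT.nd (nat_lit 390) (nat_lit 0) (nat_lit 0) (XT.nd (nat_lit 156) (nat_lit 76) (nat_lit 0) (XT.nd (nat_lit 78) (nat_lit 0) (nat_lit 0) (XT.lf (nat_lit 0) (nat_lit 60183862499) (nat_lit 152) (nat_lit 8610377075) (nat_lit 0) (nat_lit 56714782296) (nat_lit 2) (nat_lit 5) (nat_lit 4) (nat_lit 4) (nat_lit 2) (nat_lit 4) (nat_lit 356) (nat_lit 227) (nat_lit 197)) (XT.lf (nat_lit 0) (nat_lit 65281573338) (nat_lit 152) (nat_lit 4623603433) (nat_lit 0) (nat_lit 61762764911) (nat_lit 2) (nat_lit 5) (nat_lit 4) (nat_lit 4) (nat_lit 2) (nat_lit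 4) (nat_lit 357) (nat_lit 227) (nat_lit 196))) (XT.nd (nat_lit 78) (nat_lit 76) (nat_lit 0) (XT.lf (nat_lit 0) (nat_lit 70599878992) (nat_lit 152) (nat_lit 502944857) (nat_lit 0) (nat_lit 67033710350) (nat_lit 2) (nat_lit 5) (nat_lit 4) (nat_lit 4) (nat_lit 2) (nat_lit 4) (nat_lit 358) (nat_lit 227) (nat_lit 195)) (XT.nd (nat_lit 78) (nat_lit 0) (nat_lit 0) (XT.lf (nat_lit 0) (nat_lit 3885778935) (nat_lit 76) (nat_lit 72326331056) (nat_lit 76) (nat_lit 68715057449) (nat_lit 1) (nat_lit 4) (nat_lit 2) (nat_lit 5) (nat_lit 2) (nat_lit 4) (nat_lit 359) (nat_lit 227) (nat_lit 194)) (XT.lf (nat_lit 0) (nat_lit 8450068557) (nat_lit 76) (nat_lit 73631341340) (nat_lit 76) (nat_lit 69977110624) (nat_lit 1) (nat_lit 4) (nat_lit 2) (nat_lit 5) (nat_lit 2) (nat_lit 4) (nat_lit 360) (nat_lit 227) (nat_lit 193))))) (XT.nd (nat_lit 156) (nat_lit 0) (nat_lit 0) (XT.nd (nat_lit 78) (nat_lit 0) (nat_lit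 0) (XT.lf (nat_lit 0) (nat_lit 13184161736) (nat_lit 76) (nat_lit 75029479485) (nat_lit 76) (nat_lit 71334337235) (nat_lit 1) (nat_lit 4) (nat_lit 2) (nat_lit 5) (nat_lit 2) (nat_lit 4) (nat_lit 361) (nat_lit 227) (nat_lit 192)) (XT.lf (nat_lit 0) (nat_lit 18099330122) (nat_lit 76) (nat_lit 76524074390) (nat_lit 76) (nat_lit 72789968776) (nat_lit 1) (nat_lit 4) (nat_lit 2) (nat_lit 5) (nat_lit 2) (nat_lit 4) (nat_lit 362) (nat_lit 227) (nat_lit 191))) (XT.nd (nat_lit 78) (nat_lit 0) (nat_lit 0) (XT.lf (nat_lit 0) (nat_lit 23207276498) (nat_lit 76) (nat_lit 78118684616) (nat_lit 76) (nat_lit 74347471034) (nat_lit 1) (nat_lit 4) (nat_lit 2) (nat_lit 5) (nat_lit 2) (nat_lit 4) (nat_lit 363) (nat_lit 227) (nat_lit 190)) (XT.nd (nat_lit 78) (nat_lit 0) (nat_lit 0) (XT.lf (nat_lit 0) (nat_lit 28520162640) (nat_lit 76) (nat_lit 79817106852) (nat_lit 76) (nat_lit 76010552350) (nat_lit 1) (nat_lit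 4) (nat_lit 2) (nat_lit 5) (nat_lit 2) (nat_lit 4) (nat_lit 364) (nat_lit 227) (nat_lit 189)) (XT.lf (nat_lit 0) (nat_lit 34050638278) (nat_lit 76) (nat_lit 81623384961) (nat_lit 76) (nat_lit 77783172440) (nat_lit 1) (nat_lit 4) (nat_lit 2) (nat_lit 5) (nat_lit 2) (nat_lit 4) (nat_lit 365) (nat_lit 227) (nat_lit 188)))))) (XT.nd (nat_lit 390) (nat_lit 0) (nat_lit 0) (XT.nd (nat_lit 156) (nat_lit 0) (nat_lit 0) (XT.nd (nat_lit 78) (nat_lit 0) (nat_lit 0) (XT.lf (nat_lit 0) (nat_lit 39811871210) (nat_lit 76) (nat_lit 83541819606) (nat_lit 76) (nat_lit 79669551828) (nat_lit 1) (nat_lit 4) (nat_lit 2) (nat_lit 5) (nat_lit 2) (nat_lit 4) (nat_lit 366) (nat_lit 227) (nat_lit 187)) (XT.lf (nat_lit 0) (nat_lit 45817578657) (nat_lit 76) (nat_lit 85576978489) (nat_lit 76) (nat_lit 81674181895) (nat_lit 1) (nat_lit 4) (nat_lit 2) (nat_lit 5) (nat_lit 2) (nat_lit 4) (nat_lit 367) (nat_lit 227) (nat_lit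 186))) (XT.nd (nat_lit 78) (nat_lit 0) (nat_lit 0) (XT.lf (nat_lit 0) (nat_lit 52082059924) (nat_lit 76) (nat_lit 87733707224) (nat_lit 76) (nat_lit 83801835567) (nat_lit 1) (nat_lit 4) (nat_lit 2) (nat_lit 5) (nat_lit 2) (nat_lit 4) (nat_lit 368) (nat_lit 227) (nat_lit 185)) (XT.nd (nat_lit 78) (nat_lit 0) (nat_lit 0) (XT.lf (nat_lit 0) (nat_lit 58620230441) (nat_lit 76) (nat_lit 90017140882) (nat_lit 76) (nat_lit 86057578689) (nat_lit 1) (nat_lit 4) (nat_lit 2) (nat_lit 5) (nat_lit 2) (nat_lit 4) (nat_lit 369) (nat_lit 227) (nat_lit 184)) (XT.lf (nat_lit 0) (nat_lit 65447657282) (nat_lit 76) (nat_lit 92432716208) (nat_lit 76) (nat_lit 88446782076) (nat_lit 1) (nat_lit 4) (nat_lit 2) (nat_lit 5) (nat_lit 2) (nat_lit 4) (nat_lit 370) (nat_lit 227) (nat_lit 183))))) (XT.nd (nat_lit 156) (nat_lit 0) (nat_lit 0) (XT.nd (nat_lit 78) (nat_lit 0) (nat_lit 0) (XT.lf (nat_lit 0) (nat_lit 72580596224)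 (nat_lit 76) (nat_lit 94986184572) (nat_lit 76) (nat_lit 90975134308) (nat_lit 1) (nat_lit 4) (nat_lit 2) (nat_lit 5) (nat_lit 2) (nat_lit 4) (nat_lit 371) (nat_lit 227) (nat_lit 182)) (XT.lf (nat_lit 0) (nat_lit 80036030456) (nat_lit 76) (nat_lit 97683625662) (nat_lit 76) (nat_lit 93648655272) (nat_lit 1) (nat_lit 4) (nat_lit 2) (nat_lit 5) (nat_lit 2) (nat_lit 4) (nat_lit 372) (nat_lit 227) (nat_lit 181))) (XT.nd (nat_lit 78) (nat_lit 0) (nat_lit 0) (XT.lf (nat_lit 0) (nat_lit 87831711011) (nat_lit 76) (nat_lit 100531461956) (nat_lit 76) (nat_lit 96473710493) (nat_lit 1) (nat_lit 4) (nat_lit 2) (nat_lit 5) (nat_lit 2) (nat_lit 4) (nat_lit 373) (nat_lit 227) (nat_lit 180)) (XT.nd (nat_lit 78) (nat_lit 0) (nat_lit 0) (XT.lf (nat_lit 0) (nat_lit 95986199034) (nat_lit 76) (nat_lit 103536474016) (nat_lit 76) (nat_lit 99457026293) (nat_lit 1) (nat_lit 4) (nat_lit 2) (nat_lit 5) (nat_lit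 2) (nat_lit 4) (nat_lit 374) (nat_lit 227) (nat_lit 179)) (XT.lf (nat_lit 0) (nat_lit 104518909972) (nat_lit 76) (nat_lit 106705816633) (nat_lit 76) (nat_lit 102605705806) (nat_lit 1) (nat_lit 4) (nat_lit 2) (nat_lit 5) (nat_lit 2) (nat_lit 4) (nat_lit 375) (nat_lit 227) (nat_lit 178))))))) (XT.nd (nat_lit 780) (nat_lit 0) (nat_lit 0) (XT.nd (nat_lit 390) (nat_lit 0) (nat_lit 0) (XT.nd (nat_lit 156) (nat_lit 0) (nat_lit 0) (XT.nd (nat_lit 78) (nat_lit 0) (nat_lit 0) (XT.lf (nat_lit 0) (nat_lit 113450159804) (nat_lit 76) (nat_lit 110047035861) (nat_lit 76) (nat_lit 105927245887) (nat_lit 1) (nat_lit 4) (nat_lit 2) (nat_lit 5) (nat_lit 2) (nat_lit 4) (nat_lit 376) (nat_lit 227) (nat_lit 177)) (XT.lf (nat_lit 0) (nat_lit 122801213410) (nat_lit 76) (nat_lit 113568086984) (nat_lit 76) (nat_lit 109429554965) (nat_lit 1) (nat_lit 4) (nat_lit 2) (nat_lit 5) (nat_lit 2) (nat_lit 4) (nat_lit 377)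 (nat_lit 227) (nat_lit 176))) (XT.nd (nat_lit 78) (nat_lit 0) (nat_lit 0) (XT.lf (nat_lit 0) (nat_lit 132594335204) (nat_lit 76) (nat_lit 117277353457) (nat_lit 76) (nat_lit 113120971872) (nat_lit 1) (nat_lit 4) (nat_lit 2) (nat_lit 5) (nat_lit 2) (nat_lit 4) (nat_lit 378) (nat_lit 227) (nat_lit 175)) (XT.nd (nat_lit 78) (nat_lit 0) (nat_lit 0) (XT.lf (nat_lit 0) (nat_lit 142852842142) (nat_lit 76) (nat_lit 121183666866) (nat_lit 76) (nat_lit 117010285694) (nat_lit 1) (nat_lit 4) (nat_lit 2) (nat_lit 5) (nat_lit 2) (nat_lit 4) (nat_lit 379) (nat_lit 227) (nat_lit 174)) (XT.lf (nat_lit 0) (nat_lit 153601159241) (nat_lit 76) (nat_lit 125296327958) (nat_lit 76) (nat_lit 121106756704) (nat_lit 1) (nat_lit 4) (nat_lit 2) (nat_lit 5) (nat_lit 2) (nat_lit 4) (nat_lit 380) (nat_lit 227) (nat_lit 173))))) (XT.nd (nat_lit 156) (nat_lit 0) (nat_lit 0) (XT.nd (nat_lit 78) (nat_lit 0) (nat_lit 0)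 (XT.lf (nat_lit 0) (nat_lit 164864877731) (nat_lit 76) (nat_lit 129625128784) (nat_lit 76) (nat_lit 125420138403) (nat_lit 1) (nat_lit 4) (nat_lit 2) (nat_lit 5) (nat_lit 2) (nat_lit 4) (nat_lit 381) (nat_lit 227) (nat_lit 172)) (XT.lf (nat_lit 0) (nat_lit 176670815991) (nat_lit 76) (nat_lit 134180376011) (nat_lit 76) (nat_lit 129960700748) (nat_lit 1) (nat_lit 4) (nat_lit 2) (nat_lit 5) (nat_lit 2) (nat_lit 4) (nat_lit 382) (nat_lit 227) (nat_lit 171))) (XT.nd (nat_lit 78) (nat_lit 0) (nat_lit 0) (XT.lf (nat_lit 0) (nat_lit 189047083397) (nat_lit 76) (nat_lit 138972915467) (nat_lit 76) (nat_lit 134739254601) (nat_lit 1) (nat_lit 4) (nat_lit 2) (nat_lit 5) (nat_lit 2) (nat_lit 4) (nat_lit 383) (nat_lit 227) (nat_lit 170)) (XT.nd (nat_lit 78) (nat_lit 0) (nat_lit 0) (XT.lf (nat_lit 0) (nat_lit 202023147253) (nat_lit 76) (nat_lit 144014157960) (nat_lit 76) (nat_lit 139767177472) (nat_lit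 1) (nat_lit 4) (nat_lit 2) (nat_lit 5) (nat_lit 2) (nat_lit 4) (nat_lit 384) (nat_lit 227) (nat_lit 169)) (XT.lf (nat_lit 0) (nat_lit 215629902948) (nat_lit 76) (nat_lit 149316106447) (nat_lit 76) (nat_lit 145056440606) (nat_lit 1) (nat_lit 4) (nat_lit 2) (nat_lit 5) (nat_lit 2) (nat_lit 4) (nat_lit 385) (nat_lit 227) (nat_lit 168)))))) (XT.nd (nat_lit 390) (nat_lit 0) (nat_lit 0) (XT.nd (nat_lit 156) (nat_lit 0) (nat_lit 0) (XT.nd (nat_lit 78) (nat_lit 0) (nat_lit 0) (XT.lf (nat_lit 0) (nat_lit 229899747520) (nat_lit 76) (nat_lit 154891384617) (nat_lit 76) (nat_lit 150619637487) (nat_lit 1) (nat_lit 4) (nat_lit 2) (nat_lit 5) (nat_lit 2) (nat_lit 4) (nat_lit 386) (nat_lit 227) (nat_lit 167)) (XT.lf (nat_lit 0) (nat_lit 244866656789) (nat_lit 76) (nat_lit 160753266940) (nat_lit 76) (nat_lit 156470013820) (nat_lit 1) (nat_lit 4) (nat_lit 2) (nat_lit 5) (nat_lit 2) (nat_lit 4) (nat_lit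 387) (nat_lit 227) (nat_lit 166))) (XT.nd (nat_lit 78) (nat_lit 0) (nat_lit 0) (XT.lf (nat_lit 0) (nat_lit 260566266255) (nat_lit 76) (nat_lit 166915710280) (nat_lit 76) (nat_lit 162621499075) (nat_lit 1) (nat_lit 4) (nat_lit 2) (nat_lit 5) (nat_lit 2) (nat_lit 4) (nat_lit 388) (nat_lit 227) (nat_lit 165)) (XT.nd (nat_lit 78) (nat_lit 0) (nat_lit 0) (XT.lf (nat_lit 0) (nat_lit 277035955938) (nat_lit 76) (nat_lit 173393387120) (nat_lit 76) (nat_lit 169088739643) (nat_lit 1) (nat_lit 4) (nat_lit 2) (nat_lit 5) (nat_lit 2) (nat_lit 4) (nat_lit 389) (nat_lit 227) (nat_lit 164)) (XT.lf (nat_lit 0) (nat_lit 294314939386) (nat_lit 76) (nat_lit 180201720501) (nat_lit 76) (nat_lit 175887133718) (nat_lit 1) (nat_lit 4) (nat_lit 2) (nat_lit 5) (nat_lit 2) (nat_lit 4) (nat_lit 390) (nat_lit 227) (nat_lit 163))))) (XT.nd (nat_lit 35568) (nat_lit 0) (nat_lit 304) (XT.nd (nat_lit 35412) (nat_lit 0)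 (nat_lit 456) (XT.lf (nat_lit 0) (nat_lit 312444357036) (nat_lit 76) (nat_lit 187356920740) (nat_lit 76) (nat_lit 183032867951) (nat_lit 1) (nat_lit 4) (nat_lit 2) (nat_lit 5) (nat_lit 2) (nat_lit 4) (nat_lit 391) (nat_lit 227) (nat_lit 162)) (XT.nd (nat_lit 78) (nat_lit 0) (nat_lit 0) (XT.lf (nat_lit 0) (nat_lit 3128831177) (nat_lit 76) (nat_lit 5706753056) (nat_lit 76) (nat_lit 5706753056) (nat_lit 7) (nat_lit 4) (nat_lit 8) (nat_lit 5) (nat_lit 8) (nat_lit 4) (nat_lit 324) (nat_lit 228) (nat_lit 228)) (XT.lf (nat_lit 0) (nat_lit 14514377142) (nat_lit 76) (nat_lit 8029439631) (nat_lit 76) (nat_lit 7780639949) (nat_lit 7) (nat_lit 4) (nat_lit 8) (nat_lit 5) (nat_lit 8) (nat_lit 4) (nat_lit 325) (nat_lit 228) (nat_lit 227)))) (XT.nd (nat_lit 78) (nat_lit 152) (nat_lit 0) (XT.lf (nat_lit 0) (nat_lit 22933776288) (nat_lit 76) (nat_lit 4592478264) (nat_lit 76) (nat_lit 4106726504) (nat_lit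 7) (nat_lit 4) (nat_lit 8) (nat_lit 5) (nat_lit 8) (nat_lit 4) (nat_lit 326) (nat_lit 228) (nat_lit 226)) (XT.nd (nat_lit 78) (nat_lit 152) (nat_lit 0) (XT.lf (nat_lit 0) (nat_lit 31535905981) (nat_lit 76) (nat_lit 1094438770) (nat_lit 76) (nat_lit 383018365) (nat_lit 7) (nat_lit 4) (nat_lit 8) (nat_lit 5) (nat_lit 8) (nat_lit 4) (nat_lit 327) (nat_lit 228) (nat_lit 225)) (XT.lf (nat_lit 0) (nat_lit 3425428738) (nat_lit 152) (nat_lit 28490865798) (nat_lit 0) (nat_lit 2543197381) (nat_lit 5) (nat_lit 5) (nat_lit 7) (nat_lit 4) (nat_lit 5) (nat_lit 4) (nat_lit 328) (nat_lit 228) (nat_lit 224))))))))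
noncomputable def xc28 : XT := (XT.nd (nat_lit 1560) (nat_lit 76) (nat_lit 0) (XT.nd (nat_lit 780) (nat_lit 152) (nat_lit 0) (XT.nd (nat_lit 390) (nat_lit 0) (nat_lit 0) (XT.nd (nat_lit 156) (nat_lit 76) (nat_lit 0) (XT.nd (nat_lit 78) (nat_lit 0) (nat_lit 0) (XT.lf (nat_lit 0) (nat_lit 7332027882) (nat_lit 152) (nat_lit 22394749914) (nat_lit 0) (nat_lit 6254855464) (nat_lit 5) (nat_lit 5) (nat_lit 7) (nat_lit 4) (nat_lit 5) (nat_lit 4) (nat_lit 329) (nat_lit 228) (nat_lit 223)) (XT.lf (nat_lit 0) (nat_lit 11317031608) (nat_lit 152) (nat_lit 16214543042) (nat_lit 0) (nat_lit 10054201036) (nat_lit 5) (nat_lit 5) (nat_lit 7) (nat_lit 4) (nat_lit 5) (nat_lit 4) (nat_lit 330) (nat_lit 228) (nat_lit 222))) (XT.nd (nat_lit 78) (nat_lit 76) (nat_lit 0) (XT.lf (nat_lit 0) (nat_lit 15389928019) (nat_lit 152) (nat_lit 9935530401) (nat_lit 0) (nat_lit 13950280159) (nat_lit 5) (nat_lit 5) (nat_lit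 7) (nat_lit 4) (nat_lit 5) (nat_lit 4) (nat_lit 331) (nat_lit 228) (nat_lit 221)) (XT.nd (nat_lit 78) (nat_lit 76) (nat_lit 0) (XT.lf (nat_lit 0) (nat_lit 19560414488) (nat_lit 152) (nat_lit 3542761964) (nat_lit 0) (nat_lit 17952369210) (nat_lit 5) (nat_lit 5) (nat_lit 7) (nat_lit 4) (nat_lit 5) (nat_lit 4) (nat_lit 332) (nat_lit 228) (nat_lit 220)) (XT.lf (nat_lit 0) (nat_lit 3077481785) (nat_lit 76) (nat_lit 20808987076) (nat_lit 76) (nat_lit 19040563304) (nat_lit 4) (nat_lit 4) (nat_lit 5) (nat_lit 5) (nat_lit 5) (nat_lit 4) (nat_lit 333) (nat_lit 228) (nat_lit 219))))) (XT.nd (nat_lit 156) (nat_lit 0) (nat_lit 0) (XT.nd (nat_lit 78) (nat_lit 0) (nat_lit 0) (XT.lf (nat_lit 0) (nat_lit 9964147859) (nat_lit 76) (nat_lit 18425552932) (nat_lit 76) (nat_lit 16504387739) (nat_lit 4) (nat_lit 4) (nat_lit 5) (nat_lit 5) (nat_lit 5) (nat_lit 4) (nat_lit 334) (nat_lit 228) (nat_lit 218)) (XT.lf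 (nat_lit 0) (nat_lit 17016493373) (nat_lit 76) (nat_lit 16007197567) (nat_lit 76) (nat_lit 13940564353) (nat_lit 4) (nat_lit 4) (nat_lit 5) (nat_lit 5) (nat_lit 5) (nat_lit 4) (nat_lit 335) (nat_lit 228) (nat_lit 217))) (XT.nd (nat_lit 78) (nat_lit 0) (nat_lit 0) (XT.lf (nat_lit 0) (nat_lit 24251309626) (nat_lit 76) (nat_lit 13548162991) (nat_lit 76) (nat_lit 11342988804) (nat_lit 4) (nat_lit 4) (nat_lit 5) (nat_lit 5) (nat_lit 5) (nat_lit 4) (nat_lit 336) (nat_lit 228) (nat_lit 216)) (XT.nd (nat_lit 78) (nat_lit 0) (nat_lit 0) (XT.lf (nat_lit 0) (nat_lit 31685822369) (nat_lit 76) (nat_lit 11042594361) (nat_lit 76) (nat_lit 8705476390) (nat_lit 4) (nat_lit 4) (nat_lit 5) (nat_lit 5) (nat_lit 5) (nat_lit 4) (nat_lit 337) (nat_lit 228) (nat_lit 215)) (XT.lf (nat_lit 0) (nat_lit 39337732825) (nat_lit 76) (nat_lit 8484526035) (nat_lit 76) (nat_lit 6021747319) (nat_lit 4) (nat_lit 4) (nat_lit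 5) (nat_lit 5) (nat_lit 5) (nat_lit 4) (nat_lit 338) (nat_lit 228) (nat_lit 214)))))) (XT.nd (nat_lit 390) (nat_lit 0) (nat_lit 0) (XT.nd (nat_lit 156) (nat_lit 152) (nat_lit 0) (XT.nd (nat_lit 78) (nat_lit 0) (nat_lit 0) (XT.lf (nat_lit 0) (nat_lit 47225259827) (nat_lit 76) (nat_lit 5867867377) (nat_lit 76) (nat_lit 3285411759) (nat_lit 4) (nat_lit 4) (nat_lit 5) (nat_lit 5) (nat_lit 5) (nat_lit 4) (nat_lit 339) (nat_lit 228) (nat_lit 213)) (XT.lf (nat_lit 0) (nat_lit 55367183202) (nat_lit 76) (nat_lit 3186388245) (nat_lit 76) (nat_lit 489954627) (nat_lit 4) (nat_lit 4) (nat_lit 5) (nat_lit 5) (nat_lit 5) (nat_lit 4) (nat_lit 340) (nat_lit 228) (nat_lit 212))) (XT.nd (nat_lit 78) (nat_lit 0) (nat_lit 0) (XT.lf (nat_lit 0) (nat_lit 1963394317) (nat_lit 76) (nat_lit 362643932) (nat_lit 152) (nat_lit 59515890648) (nat_lit 2) (nat_lit 5) (nat_lit 3) (nat_lit 5) (nat_lit 4) (nat_lit 4) (nat_lit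 341) (nat_lit 228) (nat_lit 211)) (XT.nd (nat_lit 78) (nat_lit 0) (nat_lit 0) (XT.lf (nat_lit 0) (nat_lit 5298987436) (nat_lit 152) (nat_lit 56950141498) (nat_lit 0) (nat_lit 2529115529) (nat_lit 2) (nat_lit 5) (nat_lit 4) (nat_lit 4) (nat_lit 2) (nat_lit 4) (nat_lit 342) (nat_lit 228) (nat_lit 210)) (XT.lf (nat_lit 0) (nat_lit 8358635769) (nat_lit 152) (nat_lit 54010867689) (nat_lit 0) (nat_lit 5494993879) (nat_lit 2) (nat_lit 5) (nat_lit 4) (nat_lit 4) (nat_lit 2) (nat_lit 4) (nat_lit 343) (nat_lit 228) (nat_lit 209))))) (XT.nd (nat_lit 156) (nat_lit 0) (nat_lit 0) (XT.nd (nat_lit 78) (nat_lit 0) (nat_lit 0) (XT.lf (nat_lit 0) (nat_lit 11506606237) (nat_lit 152) (nat_lit 51048052997) (nat_lit 0) (nat_lit 8553659601) (nat_lit 2) (nat_lit 5) (nat_lit 4) (nat_lit 4) (nat_lit 2) (nat_lit 4) (nat_lit 344) (nat_lit 228) (nat_lit 208)) (XT.lf (nat_lit 0) (nat_lit 14750394009) (nat_lit 152)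 (nat_lit 48054643101) (nat_lit 0) (nat_lit 11712395233) (nat_lit 2) (nat_lit 5) (nat_lit 4) (nat_lit 4) (nat_lit 2) (nat_lit 4) (nat_lit 345) (nat_lit 228) (nat_lit 207))) (XT.nd (nat_lit 78) (nat_lit 0) (nat_lit 0) (XT.lf (nat_lit 0) (nat_lit 18097722387) (nat_lit 152) (nat_lit 45023510833) (nat_lit 0) (nat_lit 14978721575) (nat_lit 2) (nat_lit 5) (nat_lit 4) (nat_lit 4) (nat_lit 2) (nat_lit 4) (nat_lit 346) (nat_lit 228) (nat_lit 206)) (XT.nd (nat_lit 78) (nat_lit 0) (nat_lit 0) (XT.lf (nat_lit 0) (nat_lit 21556561203) (nat_lit 152) (nat_lit 41947439213) (nat_lit 0) (nat_lit 18360415593) (nat_lit 2) (nat_lit 5) (nat_lit 4) (nat_lit 4) (nat_lit 2) (nat_lit 4) (nat_lit 347) (nat_lit 228) (nat_lit 205)) (XT.lf (nat_lit 0) (nat_lit 25135145786) (nat_lit 152) (nat_lit 38819104260) (nat_lit 0) (nat_lit 21865528940) (nat_lit 2) (nat_lit 5) (nat_lit 4) (nat_lit 4) (nat_lit 2) (nat_lit 4) (nat_lit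 348) (nat_lit 228) (nat_lit 204))))))) (XT.nd (nat_lit 780) (nat_lit 76) (nat_lit 0) (XT.nd (nat_lit 390) (nat_lit 0) (nat_lit 0) (XT.nd (nat_lit 156) (nat_lit 0) (nat_lit 0) (XT.nd (nat_lit 78) (nat_lit 0) (nat_lit 0) (XT.lf (nat_lit 0) (nat_lit 28841996576) (nat_lit 152) (nat_lit 35631057558) (nat_lit 0) (nat_lit 25502407124) (nat_lit 2) (nat_lit 5) (nat_lit 4) (nat_lit 4) (nat_lit 2) (nat_lit 4) (nat_lit 349) (nat_lit 228) (nat_lit 203)) (XT.lf (nat_lit 0) (nat_lit 32685939407) (nat_lit 152) (nat_lit 32375708519) (nat_lit 0) (nat_lit 29279709380) (nat_lit 2) (nat_lit 5) (nat_lit 4) (nat_lit 4) (nat_lit 2) (nat_lit 4) (nat_lit 350) (nat_lit 228) (nat_lit 202))) (XT.nd (nat_lit 78) (nat_lit 0) (nat_lit 0) (XT.lf (nat_lit 0) (nat_lit 36676126526) (nat_lit 152) (nat_lit 29045306313) (nat_lit 0) (nat_lit 33206429282) (nat_lit 2) (nat_lit 5) (nat_lit 4) (nat_lit 4) (nat_lit 2) (nat_lit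 4) (nat_lit 351) (nat_lit 228) (nat_lit 201)) (XT.nd (nat_lit 78) (nat_lit 0) (nat_lit 0) (XT.lf (nat_lit 0) (nat_lit 40822058377) (nat_lit 152) (nat_lit 25631921411) (nat_lit 0) (nat_lit 37291916166) (nat_lit 2) (nat_lit 5) (nat_lit 4) (nat_lit 4) (nat_lit 2) (nat_lit 4) (nat_lit 352) (nat_lit 228) (nat_lit 200)) (XT.lf (nat_lit 0) (nat_lit 45133606227) (nat_lit 152) (nat_lit 22127426704) (nat_lit 0) (nat_lit 41545897380) (nat_lit 2) (nat_lit 5) (nat_lit 4) (nat_lit 4) (nat_lit 2) (nat_lit 4) (nat_lit 353) (nat_lit 228) (nat_lit 199))))) (XT.nd (nat_lit 156) (nat_lit 0) (nat_lit 0) (XT.nd (nat_lit 78) (nat_lit 0) (nat_lit 0) (XT.lf (nat_lit 0) (nat_lit 49621035665) (nat_lit 152) (nat_lit 18523478159) (nat_lit 0) (nat_lit 45978501451) (nat_lit 2) (nat_lit 5) (nat_lit 4) (nat_lit 4) (nat_lit 2) (nat_lit 4) (nat_lit 354) (nat_lit 228) (nat_lit 198)) (XT.lf (nat_lit 0) (nat_lit 54295031048)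 (nat_lit 152) (nat_lit 14811494946) (nat_lit 0) (nat_lit 50600282199) (nat_lit 2) (nat_lit 5) (nat_lit 4) (nat_lit 4) (nat_lit 2) (nat_lit 4) (nat_lit 355) (nat_lit 228) (nat_lit 197))) (XT.nd (nat_lit 78) (nat_lit 0) (nat_lit 0) (XT.lf (nat_lit 0) (nat_lit 59166720936) (nat_lit 152) (nat_lit 10982639009) (nat_lit 0) (nat_lit 55422243863) (nat_lit 2) (nat_lit 5) (nat_lit 4) (nat_lit 4) (nat_lit 2) (nat_lit 4) (nat_lit 356) (nat_lit 228) (nat_lit 196)) (XT.nd (nat_lit 78) (nat_lit 0) (nat_lit 0) (XT.lf (nat_lit 0) (nat_lit 64247704591) (nat_lit 152) (nat_lit 7027794024) (nat_lit 0) (nat_lit 60455867304) (nat_lit 2) (nat_lit 5) (nat_lit 4) (nat_lit 4) (nat_lit 2) (nat_lit 4) (nat_lit 357) (nat_lit 228) (nat_lit 195)) (XT.lf (nat_lit 0) (nat_lit 69550079593) (nat_lit 152) (nat_lit 2937543695) (nat_lit 0) (nat_lit 65713137341) (nat_lit 2) (nat_lit 5) (nat_lit 4) (nat_lit 4) (nat_lit 2) (nat_lit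 4) (nat_lit 358) (nat_lit 228) (nat_lit 194)))))) (XT.nd (nat_lit 390) (nat_lit 0) (nat_lit 0) (XT.nd (nat_lit 156) (nat_lit 0) (nat_lit 0) (XT.nd (nat_lit 78) (nat_lit 0) (nat_lit 0) (XT.lf (nat_lit 0) (nat_lit 1340763474) (nat_lit 76) (nat_lit 73766640245) (nat_lit 76) (nat_lit 69886740883) (nat_lit 1) (nat_lit 4) (nat_lit 2) (nat_lit 5) (nat_lit 2) (nat_lit 4) (nat_lit 359) (nat_lit 228) (nat_lit 193)) (XT.lf (nat_lit 0) (nat_lit 5876559962) (nat_lit 76) (nat_lit 75085249235) (nat_lit 76) (nat_lit 71164438339) (nat_lit 1) (nat_lit 4) (nat_lit 2) (nat_lit 5) (nat_lit 2) (nat_lit 4) (nat_lit 360) (nat_lit 228) (nat_lit 192))) (XT.nd (nat_lit 78) (nat_lit 0) (nat_lit 0) (XT.lf (nat_lit 0) (nat_lit 10583516824) (nat_lit 76) (nat_lit 76496338527) (nat_lit 76) (nat_lit 72536564267) (nat_lit 1) (nat_lit 4) (nat_lit 2) (nat_lit 5) (nat_lit 2) (nat_lit 4) (nat_lit 361) (nat_lit 228) (nat_lit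 191)) (XT.nd (nat_lit 78) (nat_lit 0) (nat_lit 0) (XT.lf (nat_lit 0) (nat_lit 15472841098) (nat_lit 76) (nat_lit 78003267859) (nat_lit 76) (nat_lit 74006385633) (nat_lit 1) (nat_lit 4) (nat_lit 2) (nat_lit 5) (nat_lit 2) (nat_lit 4) (nat_lit 362) (nat_lit 228) (nat_lit 190)) (XT.lf (nat_lit 0) (nat_lit 20556174033) (nat_lit 76) (nat_lit 79609625158) (nat_lit 76) (nat_lit 75577402010) (nat_lit 1) (nat_lit 4) (nat_lit 2) (nat_lit 5) (nat_lit 2) (nat_lit 4) (nat_lit 363) (nat_lit 228) (nat_lit 189))))) (XT.nd (nat_lit 156) (nat_lit 0) (nat_lit 0) (XT.nd (nat_lit 78) (nat_lit 0) (nat_lit 0) (XT.lf (nat_lit 0) (nat_lit 25845618804) (nat_lit 76) (nat_lit 81319235082) (nat_lit 76) (nat_lit 77253353916) (nat_lit 1) (nat_lit 4) (nat_lit 2) (nat_lit 5) (nat_lit 2) (nat_lit 4) (nat_lit 364) (nat_lit 228) (nat_lit 188)) (XT.lf (nat_lit 0) (nat_lit 31353769326) (nat_lit 76) (nat_lit 83136168133)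 (nat_lit 76) (nat_lit 79038231710) (nat_lit 1) (nat_lit 4) (nat_lit 2) (nat_lit 5) (nat_lit 2) (nat_lit 4) (nat_lit 365) (nat_lit 228) (nat_lit 187))) (XT.nd (nat_lit 78) (nat_lit 0) (nat_lit 0) (XT.lf (nat_lit 0) (nat_lit 37093740242) (nat_lit 76) (nat_lit 85064750342) (nat_lit 76) (nat_lit 80936285102) (nat_lit 1) (nat_lit 4) (nat_lit 2) (nat_lit 5) (nat_lit 2) (nat_lit 4) (nat_lit 366) (nat_lit 228) (nat_lit 186)) (XT.nd (nat_lit 78) (nat_lit 0) (nat_lit 0) (XT.lf (nat_lit 0) (nat_lit 43079198152) (nat_lit 76) (nat_lit 87109573570) (nat_lit 76) (nat_lit 82952033268) (nat_lit 1) (nat_lit 4) (nat_lit 2) (nat_lit 5) (nat_lit 2) (nat_lit 4) (nat_lit 367) (nat_lit 228) (nat_lit 185)) (XT.lf (nat_lit 0) (nat_lit 49324394144) (nat_lit 76) (nat_lit 89275506445) (nat_lit 76) (nat_lit 85090275606) (nat_lit 1) (nat_lit 4) (nat_lit 2) (nat_lit 5) (nat_lit 2) (nat_lit 4) (nat_lit 368) (nat_lit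 228) (nat_lit 184))))))))
noncomputable def xc29 : XT := (XT.nd (nat_lit 1560) (nat_lit 0) (nat_lit 0) (XT.nd (nat_lit 780) (nat_lit 0) (nat_lit 0) (XT.nd (nat_lit 390) (nat_lit 0) (nat_lit 0) (XT.nd (nat_lit 156) (nat_lit 0) (nat_lit 0) (XT.nd (nat_lit 78) (nat_lit 0) (nat_lit 0) (XT.lf (nat_lit 0) (nat_lit 55844197733) (nat_lit 76) (nat_lit 91567705949) (nat_lit 76) (nat_lit 87356103171) (nat_lit 1) (nat_lit 4) (nat_lit 2) (nat_lit 5) (nat_lit 2) (nat_lit 4) (nat_lit 369) (nat_lit 228) (nat_lit 183)) (XT.lf (nat_lit 0) (nat_lit 62654132262) (nat_lit 76) (nat_lit 93991629700) (nat_lit 76) (nat_lit 89754910791) (nat_lit 1) (nat_lit 4) (nat_lit 2) (nat_lit 5) (nat_lit 2) (nat_lit 4) (nat_lit 370) (nat_lit 228) (nat_lit 182))) (XT.nd (nat_lit 78) (nat_lit 0) (nat_lit 0) (XT.lf (nat_lit 0) (nat_lit 69770411859) (nat_lit 76) (nat_lit 96553048946) (nat_lit 76) (nat_lit 92292409910) (nat_lit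 1) (nat_lit 4) (nat_lit 2) (nat_lit 5) (nat_lit 2) (nat_lit 4) (nat_lit 371) (nat_lit 228) (nat_lit 181)) (XT.nd (nat_lit 78) (nat_lit 0) (nat_lit 0) (XT.lf (nat_lit 0) (nat_lit 77209980048) (nat_lit 76) (nat_lit 99258062304) (nat_lit 76) (nat_lit 94974642196) (nat_lit 1) (nat_lit 4) (nat_lit 2) (nat_lit 5) (nat_lit 2) (nat_lit 4) (nat_lit 372) (nat_lit 228) (nat_lit 180)) (XT.lf (nat_lit 0) (nat_lit 84990550086) (nat_lit 76) (nat_lit 102113110282) (nat_lit 76) (nat_lit 97807993914) (nat_lit 1) (nat_lit 4) (nat_lit 2) (nat_lit 5) (nat_lit 2) (nat_lit 4) (nat_lit 373) (nat_lit 228) (nat_lit 179))))) (XT.nd (nat_lit 156) (nat_lit 0) (nat_lit 0) (XT.nd (nat_lit 78) (nat_lit 0) (nat_lit 0) (XT.lf (nat_lit 0) (nat_lit 93130647140) (nat_lit 76) (nat_lit 105124990612) (nat_lit 76) (nat_lit 100799211140) (nat_lit 1) (nat_lit 4) (nat_lit 2) (nat_lit 5) (nat_lit 2) (nat_lit 4) (nat_lit 374) (nat_lit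 228) (nat_lit 178)) (XT.lf (nat_lit 0) (nat_lit 101649652394) (nat_lit 76) (nat_lit 108300874439) (nat_lit 76) (nat_lit 103955415820) (nat_lit 1) (nat_lit 4) (nat_lit 2) (nat_lit 5) (nat_lit 2) (nat_lit 4) (nat_lit 375) (nat_lit 228) (nat_lit 177))) (XT.nd (nat_lit 78) (nat_lit 0) (nat_lit 0) (XT.lf (nat_lit 0) (nat_lit 110567849192) (nat_lit 76) (nat_lit 111648323391) (nat_lit 76) (nat_lit 107284122727) (nat_lit 1) (nat_lit 4) (nat_lit 2) (nat_lit 5) (nat_lit 2) (nat_lit 4) (nat_lit 376) (nat_lit 228) (nat_lit 176)) (XT.nd (nat_lit 78) (nat_lit 0) (nat_lit 0) (XT.lf (nat_lit 0) (nat_lit 119906471339) (nat_lit 76) (nat_lit 115175307584) (nat_lit 76) (nat_lit 110793257353) (nat_lit 1) (nat_lit 4) (nat_lit 2) (nat_lit 5) (nat_lit 2) (nat_lit 4) (nat_lit 377) (nat_lit 228) (nat_lit 175)) (XT.lf (nat_lit 0) (nat_lit 129687753647) (nat_lit 76) (nat_lit 118890224599) (nat_lit 76) (nat_lit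 114491174782) (nat_lit 1) (nat_lit 4) (nat_lit 2) (nat_lit 5) (nat_lit 2) (nat_lit 4) (nat_lit 378) (nat_lit 228) (nat_lit 174)))))) (XT.nd (nat_lit 390) (nat_lit 0) (nat_lit 0) (XT.nd (nat_lit 156) (nat_lit 0) (nat_lit 0) (XT.nd (nat_lit 78) (nat_lit 0) (nat_lit 0) (XT.lf (nat_lit 0) (nat_lit 139934984884) (nat_lit 76) (nat_lit 122801919478) (nat_lit 76) (nat_lit 118386679578) (nat_lit 1) (nat_lit 4) (nat_lit 2) (nat_lit 5) (nat_lit 2) (nat_lit 4) (nat_lit 379) (nat_lit 228) (nat_lit 173)) (XT.lf (nat_lit 0) (nat_lit 150672563220) (nat_lit 76) (nat_lit 126919705780) (nat_lit 76) (nat_lit 122489046753) (nat_lit 1) (nat_lit 4) (nat_lit 2) (nat_lit 5) (nat_lit 2) (nat_lit 4) (nat_lit 380) (nat_lit 228) (nat_lit 172))) (XT.nd (nat_lit 78) (nat_lit 0) (nat_lit 0) (XT.lf (nat_lit 0) (nat_lit 161926054318) (nat_lit 76) (nat_lit 131253387757) (nat_lit 76) (nat_lit 126808043847) (nat_lit 1)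 (nat_lit 4) (nat_lit 2) (nat_lit 5) (nat_lit 2) (nat_lit 4) (nat_lit 381) (nat_lit 228) (nat_lit 171)) (XT.nd (nat_lit 78) (nat_lit 0) (nat_lit 0) (XT.lf (nat_lit 0) (nat_lit 173722252204) (nat_lit 76) (nat_lit 135813283700) (nat_lit 76) (nat_lit 131353954188) (nat_lit 1) (nat_lit 4) (nat_lit 2) (nat_lit 5) (nat_lit 2) (nat_lit 4) (nat_lit 382) (nat_lit 228) (nat_lit 170)) (XT.lf (nat_lit 0) (nat_lit 186089243063) (nat_lit 76) (nat_lit 140610250504) (nat_lit 76) (nat_lit 136137601371) (nat_lit 1) (nat_lit 4) (nat_lit 2) (nat_lit 5) (nat_lit 2) (nat_lit 4) (nat_lit 383) (nat_lit 228) (nat_lit 169))))) (XT.nd (nat_lit 156) (nat_lit 0) (nat_lit 0) (XT.nd (nat_lit 78) (nat_lit 0) (nat_lit 0) (XT.lf (nat_lit 0) (nat_lit 199056472112) (nat_lit 76) (nat_lit 145655709518) (nat_lit 76) (nat_lit 141170375032) (nat_lit 1) (nat_lit 4) (nat_lit 2) (nat_lit 5) (nat_lit 2) (nat_lit 4) (nat_lit 384)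 (nat_lit 228) (nat_lit 168)) (XT.lf (nat_lit 0) (nat_lit 212654813706) (nat_lit 76) (nat_lit 150961673741) (nat_lit 76) (nat_lit 146464257966) (nat_lit 1) (nat_lit 4) (nat_lit 2) (nat_lit 5) (nat_lit 2) (nat_lit 4) (nat_lit 385) (nat_lit 228) (nat_lit 167))) (XT.nd (nat_lit 78) (nat_lit 0) (nat_lit 0) (XT.lf (nat_lit 0) (nat_lit 226916644848) (nat_lit 76) (nat_lit 156540776421) (nat_lit 76) (nat_lit 152031854655) (nat_lit 1) (nat_lit 4) (nat_lit 2) (nat_lit 5) (nat_lit 2) (nat_lit 4) (nat_lit 386) (nat_lit 228) (nat_lit 166)) (XT.nd (nat_lit 78) (nat_lit 0) (nat_lit 0) (XT.lf (nat_lit 0) (nat_lit 241875922280) (nat_lit 76) (nat_lit 162406301135) (nat_lit 76) (nat_lit 157886421284) (nat_lit 1) (nat_lit 4) (nat_lit 2) (nat_lit 5) (nat_lit 2) (nat_lit 4) (nat_lit 387) (nat_lit 228) (nat_lit 165)) (XT.lf (nat_lit 0) (nat_lit 257568263328) (nat_lit 76) (nat_lit 168572213417) (nat_lit 76)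 (nat_lit 164041897295) (nat_lit 1) (nat_lit 4) (nat_lit 2) (nat_lit 5) (nat_lit 2) (nat_lit 4) (nat_lit 388) (nat_lit 228) (nat_lit 164))))))) (XT.nd (nat_lit 35958) (nat_lit 0) (nat_lit 228) (XT.nd (nat_lit 35568) (nat_lit 0) (nat_lit 304) (XT.nd (nat_lit 156) (nat_lit 0) (nat_lit 0) (XT.nd (nat_lit 78) (nat_lit 0) (nat_lit 0) (XT.lf (nat_lit 0) (nat_lit 274031030709) (nat_lit 76) (nat_lit 175053194013) (nat_lit 76) (nat_lit 170512938584) (nat_lit 1) (nat_lit 4) (nat_lit 2) (nat_lit 5) (nat_lit 2) (nat_lit 4) (nat_lit 389) (nat_lit 228) (nat_lit 163)) (XT.lf (nat_lit 0) (nat_lit 291303421489) (nat_lit 76) (nat_lit 181864673828) (nat_lit 76) (nat_lit 177314952393) (nat_lit 1) (nat_lit 4) (nat_lit 2) (nat_lit 5) (nat_lit 2) (nat_lit 4) (nat_lit 390) (nat_lit 228) (nat_lit 162))) (XT.nd (nat_lit 35256) (nat_lit 0) (nat_lit 532) (XT.lf (nat_lit 0) (nat_lit 309426560407) (nat_lit 76) (nat_lit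 189022870671) (nat_lit 76) (nat_lit 184464133992) (nat_lit 1) (nat_lit 4) (nat_lit 2) (nat_lit 5) (nat_lit 2) (nat_lit 4) (nat_lit 391) (nat_lit 228) (nat_lit 161)) (XT.nd (nat_lit 78) (nat_lit 0) (nat_lit 0) (XT.lf (nat_lit 0) (nat_lit 4346956147) (nat_lit 152) (nat_lit 4700324231) (nat_lit 0) (nat_lit 4346956147) (nat_lit 8) (nat_lit 5) (nat_lit 10) (nat_lit 4) (nat_lit 8) (nat_lit 4) (nat_lit 322) (nat_lit 229) (nat_lit 229)) (XT.lf (nat_lit 0) (nat_lit 13186925538) (nat_lit 152) (nat_lit 1796622466) (nat_lit 0) (nat_lit 12925685872) (nat_lit 8) (nat_lit 5) (nat_lit 10) (nat_lit 4) (nat_lit 8) (nat_lit 4) (nat_lit 323) (nat_lit 229) (nat_lit 228))))) (XT.nd (nat_lit 156) (nat_lit 152) (nat_lit 0) (XT.nd (nat_lit 78) (nat_lit 0) (nat_lit 0) (XT.lf (nat_lit 0) (nat_lit 6129536037) (nat_lit 76) (nat_lit 11734318393) (nat_lit 76) (nat_lit 11224279045) (nat_lit 7) (nat_lit 4) (nat_lit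 8) (nat_lit 5) (nat_lit 8) (nat_lit 4) (nat_lit 324) (nat_lit 229) (nat_lit 227)) (XT.lf (nat_lit 0) (nat_lit 14264225761) (nat_lit 76) (nat_lit 8406987735) (nat_lit 76) (nat_lit 7659996310) (nat_lit 7) (nat_lit 4) (nat_lit 8) (nat_lit 5) (nat_lit 8) (nat_lit 4) (nat_lit 325) (nat_lit 229) (nat_lit 226))) (XT.nd (nat_lit 78) (nat_lit 152) (nat_lit 0) (XT.lf (nat_lit 0) (nat_lit 22567410560) (nat_lit 76) (nat_lit 5024060486) (nat_lit 76) (nat_lit 4051400415) (nat_lit 7) (nat_lit 4) (nat_lit 8) (nat_lit 5) (nat_lit 8) (nat_lit 4) (nat_lit 326) (nat_lit 229) (nat_lit 225)) (XT.nd (nat_lit 78) (nat_lit 152) (nat_lit 0) (XT.lf (nat_lit 0) (nat_lit 31058859922) (nat_lit 76) (nat_lit 1577482057) (nat_lit 76) (nat_lit 389899466) (nat_lit 7) (nat_lit 4) (nat_lit 8) (nat_lit 5) (nat_lit 8) (nat_lit 4) (nat_lit 327) (nat_lit 229) (nat_lit 224)) (XT.lf (nat_lit 0) (nat_lit 3343306061) (nat_lit 152)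 (nat_lit 29115533141) (nat_lit 0) (nat_lit 2017333961) (nat_lit 5) (nat_lit 5) (nat_lit 7) (nat_lit 4) (nat_lit 5) (nat_lit 4) (nat_lit 328) (nat_lit 229) (nat_lit 223)))))) (XT.nd (nat_lit 390) (nat_lit 0) (nat_lit 0) (XT.nd (nat_lit 156) (nat_lit 76) (nat_lit 0) (XT.nd (nat_lit 78) (nat_lit 0) (nat_lit 0) (XT.lf (nat_lit 0) (nat_lit 7192868437) (nat_lit 152) (nat_lit 23127083016) (nat_lit 0) (nat_lit 5681238184) (nat_lit 5) (nat_lit 5) (nat_lit 7) (nat_lit 4) (nat_lit 5) (nat_lit 4) (nat_lit 329) (nat_lit 229) (nat_lit 222)) (XT.lf (nat_lit 0) (nat_lit 11123551430) (nat_lit 152) (nat_lit 17049414961) (nat_lit 0) (nat_lit 9435103888) (nat_lit 5) (nat_lit 5) (nat_lit 7) (nat_lit 4) (nat_lit 5) (nat_lit 4) (nat_lit 330) (nat_lit 229) (nat_lit 221))) (XT.nd (nat_lit 78) (nat_lit 76) (nat_lit 0) (XT.lf (nat_lit 0) (nat_lit 15144713811) (nat_lit 152) (nat_lit 10868058338) (nat_lit 0) (nat_lit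 13287868851) (nat_lit 5) (nat_lit 5) (nat_lit 7) (nat_lit 4) (nat_lit 5) (nat_lit 4) (nat_lit 331) (nat_lit 229) (nat_lit 220)) (XT.nd (nat_lit 78) (nat_lit 76) (nat_lit 0) (XT.lf (nat_lit 0) (nat_lit 19265929775) (nat_lit 152) (nat_lit 4568295630) (nat_lit 0) (nat_lit 17248706322) (nat_lit 5) (nat_lit 5) (nat_lit 7) (nat_lit 4) (nat_lit 5) (nat_lit 4) (nat_lit 332) (nat_lit 229) (nat_lit 219)) (XT.lf (nat_lit 0) (nat_lit 1926533706) (nat_lit 76) (nat_lit 21600556626) (nat_lit 76) (nat_lit 19430591750) (nat_lit 4) (nat_lit 4) (nat_lit 5) (nat_lit 5) (nat_lit 5) (nat_lit 4) (nat_lit 333) (nat_lit 229) (nat_lit 218))))) (XT.nd (nat_lit 156) (nat_lit 0) (nat_lit 0) (XT.nd (nat_lit 78) (nat_lit 0) (nat_lit 0) (XT.lf (nat_lit 0) (nat_lit 8726051554) (nat_lit 76) (nat_lit 19258220280) (nat_lit 76) (nat_lit 16942787384) (nat_lit 4) (nat_lit 4) (nat_lit 5) (nat_lit 5) (nat_lit 5) (nat_lit 4)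 (nat_lit 334) (nat_lit 229) (nat_lit 217)) (XT.lf (nat_lit 0) (nat_lit 15695398757) (nat_lit 76) (nat_lit 16879005675) (nat_lit 76) (nat_lit 14425031806) (nat_lit 4) (nat_lit 4) (nat_lit 5) (nat_lit 5) (nat_lit 5) (nat_lit 4) (nat_lit 335) (nat_lit 229) (nat_lit 216))) (XT.nd (nat_lit 78) (nat_lit 0) (nat_lit 0) (XT.lf (nat_lit 0) (nat_lit 22851168999) (nat_lit 76) (nat_lit 14457248013) (nat_lit 76) (nat_lit 11871330361) (nat_lit 4) (nat_lit 4) (nat_lit 5) (nat_lit 5) (nat_lit 5) (nat_lit 4) (nat_lit 336) (nat_lit 229) (nat_lit 215)) (XT.nd (nat_lit 78) (nat_lit 0) (nat_lit 0) (XT.lf (nat_lit 0) (nat_lit 30210399828) (nat_lit 76) (nat_lit 11987181205) (nat_lit 76) (nat_lit 9275602807) (nat_lit 4) (nat_lit 4) (nat_lit 5) (nat_lit 5) (nat_lit 5) (nat_lit 4) (nat_lit 337) (nat_lit 229) (nat_lit 214)) (XT.lf (nat_lit 0) (nat_lit 37790613222) (nat_lit 76) (nat_lit 9462924140) (nat_lit 76)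 (nat_lit 6631668840) (nat_lit 4) (nat_lit 4) (nat_lit 5) (nat_lit 5) (nat_lit 5) (nat_lit 4) (nat_lit 338) (nat_lit 229) (nat_lit 213))))))))
noncomputable def xc30 : XT := (XT.nd (nat_lit 1560) (nat_lit 76) (nat_lit 0) (XT.nd (nat_lit 780) (nat_lit 0) (nat_lit 0) (XT.nd (nat_lit 390) (nat_lit 0) (nat_lit 0) (XT.nd (nat_lit 156) (nat_lit 152) (nat_lit 0) (XT.nd (nat_lit 78) (nat_lit 0) (nat_lit 0) (XT.lf (nat_lit 0) (nat_lit 45609857308) (nat_lit 76) (nat_lit 6878466681) (nat_lit 76) (nat_lit 3933233381) (nat_lit 4) (nat_lit 4) (nat_lit 5) (nat_lit 5) (nat_lit 5) (nat_lit 4) (nat_lit 339) (nat_lit 229) (nat_lit 212)) (XT.lf (nat_lit 0) (nat_lit 53686749335) (nat_lit 76) (nat_lit 4227655359) (nat_lit 76) (nat_lit 1173871581) (nat_lit 4) (nat_lit 4) (nat_lit 5) (nat_lit 5) (nat_lit 5) (nat_lit 4) (nat_lit 340) (nat_lit 229) (nat_lit 211))) (XT.nd (nat_lit 78) (nat_lit 0) (nat_lit 0) (XT.lf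 (nat_lit 0) (nat_lit 127066932) (nat_lit 76) (nat_lit 1474997514) (nat_lit 152) (nat_lit 60288258220) (nat_lit 2) (nat_lit 5) (nat_lit 3) (nat_lit 5) (nat_lit 4) (nat_lit 4) (nat_lit 341) (nat_lit 229) (nat_lit 210)) (XT.nd (nat_lit 78) (nat_lit 0) (nat_lit 0) (XT.lf (nat_lit 0) (nat_lit 4524527996) (nat_lit 152) (nat_lit 58880712254) (nat_lit 0) (nat_lit 1423934028) (nat_lit 2) (nat_lit 5) (nat_lit 4) (nat_lit 4) (nat_lit 2) (nat_lit 4) (nat_lit 342) (nat_lit 229) (nat_lit 209)) (XT.lf (nat_lit 0) (nat_lit 7552634728) (nat_lit 152) (nat_lit 56001644693) (nat_lit 0) (nat_lit 4362736014) (nat_lit 2) (nat_lit 5) (nat_lit 4) (nat_lit 4) (nat_lit 2) (nat_lit 4) (nat_lit 343) (nat_lit 229) (nat_lit 208))))) (XT.nd (nat_lit 156) (nat_lit 0) (nat_lit 0) (XT.nd (nat_lit 78) (nat_lit 0) (nat_lit 0) (XT.lf (nat_lit 0) (nat_lit 10670565577) (nat_lit 152) (nat_lit 53096169283) (nat_lit 0) (nat_lit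 7395614723) (nat_lit 2) (nat_lit 5) (nat_lit 4) (nat_lit 4) (nat_lit 2) (nat_lit 4) (nat_lit 344) (nat_lit 229) (nat_lit 207)) (XT.lf (nat_lit 0) (nat_lit 13885744186) (nat_lit 152) (nat_lit 50157368228) (nat_lit 0) (nat_lit 10529791296) (nat_lit 2) (nat_lit 5) (nat_lit 4) (nat_lit 4) (nat_lit 2) (nat_lit 4) (nat_lit 345) (nat_lit 229) (nat_lit 206))) (XT.nd (nat_lit 78) (nat_lit 0) (nat_lit 0) (XT.lf (nat_lit 0) (nat_lit 17205825745) (nat_lit 152) (nat_lit 47178244380) (nat_lit 0) (nat_lit 13772728057) (nat_lit 2) (nat_lit 5) (nat_lit 4) (nat_lit 4) (nat_lit 2) (nat_lit 4) (nat_lit 346) (nat_lit 229) (nat_lit 205)) (XT.nd (nat_lit 78) (nat_lit 0) (nat_lit 0) (XT.lf (nat_lit 0) (nat_lit 20638715207) (nat_lit 152) (nat_lit 44151704588) (nat_lit 0) (nat_lit 17132146284) (nat_lit 2) (nat_lit 5) (nat_lit 4) (nat_lit 4) (nat_lit 2) (nat_lit 4) (nat_lit 347) (nat_lit 229) (nat_lit 204)) (XT.lf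 (nat_lit 0) (nat_lit 24192586121) (nat_lit 152) (nat_lit 41070542806) (nat_lit 0) (nat_lit 20616044592) (nat_lit 2) (nat_lit 5) (nat_lit 4) (nat_lit 4) (nat_lit 2) (nat_lit 4) (nat_lit 348) (nat_lit 229) (nat_lit 203)))))) (XT.nd (nat_lit 390) (nat_lit 0) (nat_lit 0) (XT.nd (nat_lit 156) (nat_lit 0) (nat_lit 0) (XT.nd (nat_lit 78) (nat_lit 0) (nat_lit 0) (XT.lf (nat_lit 0) (nat_lit 27875900082) (nat_lit 152) (nat_lit 37927422932) (nat_lit 0) (nat_lit 24232717977) (nat_lit 2) (nat_lit 5) (nat_lit 4) (nat_lit 4) (nat_lit 2) (nat_lit 4) (nat_lit 349) (nat_lit 229) (nat_lit 202)) (XT.lf (nat_lit 0) (nat_lit 31697426887) (nat_lit 152) (nat_lit 34714861349) (nat_lit 0) (nat_lit 27990777566) (nat_lit 2) (nat_lit 5) (nat_lit 4) (nat_lit 4) (nat_lit 2) (nat_lit 4) (nat_lit 350) (nat_lit 229) (nat_lit 201))) (XT.nd (nat_lit 78) (nat_lit 0) (nat_lit 0) (XT.lf (nat_lit 0) (nat_lit 35666265409) (nat_lit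 152) (nat_lit 31425209101) (nat_lit 0) (nat_lit 31899171120) (nat_lit 2) (nat_lit 5) (nat_lit 4) (nat_lit 4) (nat_lit 2) (nat_lit 4) (nat_lit 351) (nat_lit 229) (nat_lit 200)) (XT.nd (nat_lit 78) (nat_lit 0) (nat_lit 0) (XT.lf (nat_lit 0) (nat_lit 39791865263) (nat_lit 152) (nat_lit 28050633682) (nat_lit 0) (nat_lit 35967204339) (nat_lit 2) (nat_lit 5) (nat_lit 4) (nat_lit 4) (nat_lit 2) (nat_lit 4) (nat_lit 352) (nat_lit 229) (nat_lit 199)) (XT.lf (nat_lit 0) (nat_lit 44084049306) (nat_lit 152) (nat_lit 24583100389) (nat_lit 0) (nat_lit 40204563015) (nat_lit 2) (nat_lit 5) (nat_lit 4) (nat_lit 4) (nat_lit 2) (nat_lit 4) (nat_lit 353) (nat_lit 229) (nat_lit 198))))) (XT.nd (nat_lit 156) (nat_lit 0) (nat_lit 0) (XT.nd (nat_lit 78) (nat_lit 0) (nat_lit 0) (XT.lf (nat_lit 0) (nat_lit 48553037024) (nat_lit 152) (nat_lit 21014353190) (nat_lit 0) (nat_lit 44621336097) (nat_lit 2) (nat_lit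 5) (nat_lit 4) (nat_lit 4) (nat_lit 2) (nat_lit 4) (nat_lit 354) (nat_lit 229) (nat_lit 197)) (XT.lf (nat_lit 0) (nat_lit 53209468864) (nat_lit 152) (nat_lit 17335895068) (nat_lit 0) (nat_lit 49228039712) (nat_lit 2) (nat_lit 5) (nat_lit 4) (nat_lit 4) (nat_lit 2) (nat_lit 4) (nat_lit 355) (nat_lit 229) (nat_lit 196))) (XT.nd (nat_lit 78) (nat_lit 0) (nat_lit 0) (XT.lf (nat_lit 0) (nat_lit 58064431568) (nat_lit 152) (nat_lit 13538967789) (nat_lit 0) (nat_lit 54035642203) (nat_lit 2) (nat_lit 5) (nat_lit 4) (nat_lit 4) (nat_lit 2) (nat_lit 4) (nat_lit 356) (nat_lit 229) (nat_lit 195)) (XT.nd (nat_lit 78) (nat_lit 0) (nat_lit 0) (XT.lf (nat_lit 0) (nat_lit 63129484571) (nat_lit 152) (nat_lit 9614531050) (nat_lit 0) (nat_lit 59055590241) (nat_lit 2) (nat_lit 5) (nat_lit 4) (nat_lit 4) (nat_lit 2) (nat_lit 4) (nat_lit 357) (nat_lit 229) (nat_lit 194)) (XT.lf (nat_lit 0) (nat_lit 68416687523)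 (nat_lit 152) (nat_lit 5553240955) (nat_lit 0) (nat_lit 64299836083) (nat_lit 2) (nat_lit 5) (nat_lit 4) (nat_lit 4) (nat_lit 2) (nat_lit 4) (nat_lit 358) (nat_lit 229) (nat_lit 193))))))) (XT.nd (nat_lit 780) (nat_lit 0) (nat_lit 0) (XT.nd (nat_lit 390) (nat_lit 0) (nat_lit 0) (XT.nd (nat_lit 156) (nat_lit 0) (nat_lit 0) (XT.nd (nat_lit 78) (nat_lit 76) (nat_lit 0) (XT.lf (nat_lit 0) (nat_lit 73938629003) (nat_lit 152) (nat_lit 1345427765) (nat_lit 0) (nat_lit 69780866030) (nat_lit 2) (nat_lit 5) (nat_lit 4) (nat_lit 4) (nat_lit 2) (nat_lit 4) (nat_lit 359) (nat_lit 229) (nat_lit 192)) (XT.lf (nat_lit 0) (nat_lit 3118746486) (nat_lit 76) (nat_lit 76638402377) (nat_lit 76) (nat_lit 72441676039) (nat_lit 1) (nat_lit 4) (nat_lit 2) (nat_lit 5) (nat_lit 2) (nat_lit 4) (nat_lit 360) (nat_lit 229) (nat_lit 191))) (XT.nd (nat_lit 78) (nat_lit 0) (nat_lit 0) (XT.lf (nat_lit 0) (nat_lit 7799859236)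 (nat_lit 76) (nat_lit 78061826097) (nat_lit 76) (nat_lit 73827991792) (nat_lit 1) (nat_lit 4) (nat_lit 2) (nat_lit 5) (nat_lit 2) (nat_lit 4) (nat_lit 361) (nat_lit 229) (nat_lit 190)) (XT.nd (nat_lit 78) (nat_lit 0) (nat_lit 0) (XT.lf (nat_lit 0) (nat_lit 12664570070) (nat_lit 76) (nat_lit 79580502502) (nat_lit 76) (nat_lit 75311327276) (nat_lit 1) (nat_lit 4) (nat_lit 2) (nat_lit 5) (nat_lit 2) (nat_lit 4) (nat_lit 362) (nat_lit 229) (nat_lit 189)) (XT.lf (nat_lit 0) (nat_lit 17724461634) (nat_lit 76) (nat_lit 81198047488) (nat_lit 76) (nat_lit 76895214244) (nat_lit 1) (nat_lit 4) (nat_lit 2) (nat_lit 5) (nat_lit 2) (nat_lit 4) (nat_lit 363) (nat_lit 229) (nat_lit 188))))) (XT.nd (nat_lit 156) (nat_lit 0) (nat_lit 0) (XT.nd (nat_lit 78) (nat_lit 0) (nat_lit 0) (XT.lf (nat_lit 0) (nat_lit 22991581288) (nat_lit 76) (nat_lit 82918312355) (nat_lit 76) (nat_lit 78583423853) (nat_lit 1)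 (nat_lit 4) (nat_lit 2) (nat_lit 5) (nat_lit 2) (nat_lit 4) (nat_lit 364) (nat_lit 229) (nat_lit 187)) (XT.lf (nat_lit 0) (nat_lit 28478469795) (nat_lit 76) (nat_lit 84745392969) (nat_lit 76) (nat_lit 80379975651) (nat_lit 1) (nat_lit 4) (nat_lit 2) (nat_lit 5) (nat_lit 2) (nat_lit 4) (nat_lit 365) (nat_lit 229) (nat_lit 186))) (XT.nd (nat_lit 78) (nat_lit 0) (nat_lit 0) (XT.lf (nat_lit 0) (nat_lit 34198191173) (nat_lit 76) (nat_lit 86683639523) (nat_lit 76) (nat_lit 82289147143) (nat_lit 1) (nat_lit 4) (nat_lit 2) (nat_lit 5) (nat_lit 2) (nat_lit 4) (nat_lit 366) (nat_lit 229) (nat_lit 185)) (XT.nd (nat_lit 78) (nat_lit 0) (nat_lit 0) (XT.lf (nat_lit 0) (nat_lit 40164363808) (nat_lit 76) (nat_lit 88737666891) (nat_lit 76) (nat_lit 84315483974) (nat_lit 1) (nat_lit 4) (nat_lit 2) (nat_lit 5) (nat_lit 2) (nat_lit 4) (nat_lit 367) (nat_lit 229) (nat_lit 184)) (XT.lf (nat_lit 0) (nat_lit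 46391192872) (nat_lit 76) (nat_lit 90912365612) (nat_lit 76) (nat_lit 86463810757) (nat_lit 1) (nat_lit 4) (nat_lit 2) (nat_lit 5) (nat_lit 2) (nat_lit 4) (nat_lit 368) (nat_lit 229) (nat_lit 183)))))) (XT.nd (nat_lit 390) (nat_lit 0) (nat_lit 0) (XT.nd (nat_lit 156) (nat_lit 0) (nat_lit 0) (XT.nd (nat_lit 78) (nat_lit 0) (nat_lit 0) (XT.lf (nat_lit 0) (nat_lit 52893504149) (nat_lit 76) (nat_lit 93212913542) (nat_lit 76) (nat_lit 88739242554) (nat_lit 1) (nat_lit 4) (nat_lit 2) (nat_lit 5) (nat_lit 2) (nat_lit 4) (nat_lit 369) (nat_lit 229) (nat_lit 182)) (XT.lf (nat_lit 0) (nat_lit 59686779333) (nat_lit 76) (nat_lit 95644788175) (nat_lit 76) (nat_lit 91147197061) (nat_lit 1) (nat_lit 4) (nat_lit 2) (nat_lit 5) (nat_lit 2) (nat_lit 4) (nat_lit 370) (nat_lit 229) (nat_lit 181))) (XT.nd (nat_lit 78) (nat_lit 0) (nat_lit 0) (XT.lf (nat_lit 0) (nat_lit 66787192887) (nat_lit 76) (nat_lit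 98213779689) (nat_lit 76) (nat_lit 93693407502) (nat_lit 1) (nat_lit 4) (nat_lit 2) (nat_lit 5) (nat_lit 2) (nat_lit 4) (nat_lit 371) (nat_lit 229) (nat_lit 180)) (XT.nd (nat_lit 78) (nat_lit 0) (nat_lit 0) (XT.lf (nat_lit 0) (nat_lit 74211650558) (nat_lit 76) (nat_lit 100926004730) (nat_lit 76) (nat_lit 96383936284) (nat_lit 1) (nat_lit 4) (nat_lit 2) (nat_lit 5) (nat_lit 2) (nat_lit 4) (nat_lit 372) (nat_lit 229) (nat_lit 179)) (XT.lf (nat_lit 0) (nat_lit 81977829628) (nat_lit 76) (nat_lit 103787920978) (nat_lit 76) (nat_lit 99225189428) (nat_lit 1) (nat_lit 4) (nat_lit 2) (nat_lit 5) (nat_lit 2) (nat_lit 4) (nat_lit 373) (nat_lit 229) (nat_lit 178))))) (XT.nd (nat_lit 156) (nat_lit 0) (nat_lit 0) (XT.nd (nat_lit 78) (nat_lit 0) (nat_lit 0) (XT.lf (nat_lit 0) (nat_lit 90104220997) (nat_lit 76) (nat_lit 106806342518) (nat_lit 76) (nat_lit 102223931821) (nat_lit 1) (nat_lit 4) (nat_lit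 2) (nat_lit 5) (nat_lit 2) (nat_lit 4) (nat_lit 374) (nat_lit 229) (nat_lit 177)) (XT.lf (nat_lit 0) (nat_lit 98610173218) (nat_lit 76) (nat_lit 109988456069) (nat_lit 76) (nat_lit 105387303327) (nat_lit 1) (nat_lit 4) (nat_lit 2) (nat_lit 5) (nat_lit 2) (nat_lit 4) (nat_lit 375) (nat_lit 229) (nat_lit 176))) (XT.nd (nat_lit 78) (nat_lit 0) (nat_lit 0) (XT.lf (nat_lit 0) (nat_lit 107515938557) (nat_lit 76) (nat_lit 113341838090) (nat_lit 76) (nat_lit 108722835782) (nat_lit 1) (nat_lit 4) (nat_lit 2) (nat_lit 5) (nat_lit 2) (nat_lit 4) (nat_lit 376) (nat_lit 229) (nat_lit 175)) (XT.nd (nat_lit 78) (nat_lit 0) (nat_lit 0) (XT.lf (nat_lit 0) (nat_lit 116842721218) (nat_lit 76) (nat_lit 116874472826) (nat_lit 76) (nat_lit 112238470931) (nat_lit 1) (nat_lit 4) (nat_lit 2) (nat_lit 5) (nat_lit 2) (nat_lit 4) (nat_lit 377) (nat_lit 229) (nat_lit 174)) (XT.lf (nat_lit 0) (nat_lit 126612727826)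 (nat_lit 76) (nat_lit 120594771312) (nat_lit 76) (nat_lit 115942579333) (nat_lit 1) (nat_lit 4) (nat_lit 2) (nat_lit 5) (nat_lit 2) (nat_lit 4) (nat_lit 378) (nat_lit 229) (nat_lit 173))))))))
noncomputable def xc31 : XT := (XT.nd (nat_lit 36582) (nat_lit 0) (nat_lit 76) (XT.nd (nat_lit 780) (nat_lit 0) (nat_lit 0) (XT.nd (nat_lit 390) (nat_lit 0) (nat_lit 0) (XT.nd (nat_lit 156) (nat_lit 0) (nat_lit 0) (XT.nd (nat_lit 78) (nat_lit 0) (nat_lit 0) (XT.lf (nat_lit 0) (nat_lit 136849220300) (nat_lit 76) (nat_lit 124511591400) (nat_lit 76) (nat_lit 119843980295) (nat_lit 1) (nat_lit 4) (nat_lit 2) (nat_lit 5) (nat_lit 2) (nat_lit 4) (nat_lit 379) (nat_lit 229) (nat_lit 172)) (XT.lf (nat_lit 0) (nat_lit 147576571244) (nat_lit 76) (nat_lit 128634258852) (nat_lit 76) (nat_lit 123951962865) (nat_lit 1) (nat_lit 4) (nat_lit 2) (nat_lit 5) (nat_lit 2) (nat_lit 4) (nat_lit 380) (nat_lit 229) (nat_lit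 171))) (XT.nd (nat_lit 78) (nat_lit 0) (nat_lit 0) (XT.lf (nat_lit 0) (nat_lit 158820321968) (nat_lit 76) (nat_lit 132972589545) (nat_lit 76) (nat_lit 128276307955) (nat_lit 1) (nat_lit 4) (nat_lit 2) (nat_lit 5) (nat_lit 2) (nat_lit 4) (nat_lit 381) (nat_lit 229) (nat_lit 170)) (XT.nd (nat_lit 78) (nat_lit 0) (nat_lit 0) (XT.lf (nat_lit 0) (nat_lit 170607243307) (nat_lit 76) (nat_lit 137536912836) (nat_lit 76) (nat_lit 132827311625) (nat_lit 1) (nat_lit 4) (nat_lit 2) (nat_lit 5) (nat_lit 2) (nat_lit 4) (nat_lit 382) (nat_lit 229) (nat_lit 169)) (XT.lf (nat_lit 0) (nat_lit 182965399360) (nat_lit 76) (nat_lit 142338096163) (nat_lit 76) (nat_lit 137615809598) (nat_lit 1) (nat_lit 4) (nat_lit 2) (nat_lit 5) (nat_lit 2) (nat_lit 4) (nat_lit 383) (nat_lit 229) (nat_lit 168))))) (XT.nd (nat_lit 156) (nat_lit 0) (nat_lit 0) (XT.nd (nat_lit 78) (nat_lit 0) (nat_lit 0) (XT.lf (nat_lit 0) (nat_lit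 195924214307) (nat_lit 76) (nat_lit 147387570913) (nat_lit 76) (nat_lit 142653203059) (nat_lit 1) (nat_lit 4) (nat_lit 2) (nat_lit 5) (nat_lit 2) (nat_lit 4) (nat_lit 384) (nat_lit 229) (nat_lit 167)) (XT.lf (nat_lit 0) (nat_lit 209514542471) (nat_lit 76) (nat_lit 152697359646) (nat_lit 76) (nat_lit 147951485802) (nat_lit 1) (nat_lit 4) (nat_lit 2) (nat_lit 5) (nat_lit 2) (nat_lit 4) (nat_lit 385) (nat_lit 229) (nat_lit 166))) (XT.nd (nat_lit 78) (nat_lit 0) (nat_lit 0) (XT.lf (nat_lit 0) (nat_lit 223768741775) (nat_lit 76) (nat_lit 158280104715) (nat_lit 76) (nat_lit 153523272787) (nat_lit 1) (nat_lit 4) (nat_lit 2) (nat_lit 5) (nat_lit 2) (nat_lit 4) (nat_lit 386) (nat_lit 229) (nat_lit 165)) (XT.nd (nat_lit 78) (nat_lit 0) (nat_lit 0) (XT.lf (nat_lit 0) (nat_lit 238720750790) (nat_lit 76) (nat_lit 164149098372) (nat_lit 76) (nat_lit 159381830172) (nat_lit 1) (nat_lit 4) (nat_lit 2)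 (nat_lit 5) (nat_lit 2) (nat_lit 4) (nat_lit 387) (nat_lit 229) (nat_lit 164)) (XT.lf (nat_lit 0) (nat_lit 254406169536) (nat_lit 76) (nat_lit 170318314411) (nat_lit 76) (nat_lit 165541106904) (nat_lit 1) (nat_lit 4) (nat_lit 2) (nat_lit 5) (nat_lit 2) (nat_lit 4) (nat_lit 388) (nat_lit 229) (nat_lit 163)))))) (XT.nd (nat_lit 35412) (nat_lit 0) (nat_lit 456) (XT.nd (nat_lit 156) (nat_lit 0) (nat_lit 0) (XT.nd (nat_lit 78) (nat_lit 0) (nat_lit 0) (XT.lf (nat_lit 0) (nat_lit 270862344248) (nat_lit 76) (nat_lit 176802441440) (nat_lit 76) (nat_lit 172015767927) (nat_lit 1) (nat_lit 4) (nat_lit 2) (nat_lit 5) (nat_lit 2) (nat_lit 4) (nat_lit 389) (nat_lit 229) (nat_lit 162)) (XT.lf (nat_lit 0) (nat_lit 288128456296) (nat_lit 76) (nat_lit 183616917858) (nat_lit 76) (nat_lit 178821229101) (nat_lit 1) (nat_lit 4) (nat_lit 2) (nat_lit 5) (nat_lit 2) (nat_lit 4) (nat_lit 390) (nat_lit 229) (nat_lit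 161))) (XT.nd (nat_lit 35100) (nat_lit 0) (nat_lit 532) (XT.lf (nat_lit 0) (nat_lit 306245615470) (nat_lit 76) (nat_lit 190777968609) (nat_lit 76) (nat_lit 185973693906) (nat_lit 1) (nat_lit 4) (nat_lit 2) (nat_lit 5) (nat_lit 2) (nat_lit 4) (nat_lit 391) (nat_lit 229) (nat_lit 160)) (XT.nd (nat_lit 78) (nat_lit 0) (nat_lit 0) (XT.lf (nat_lit 0) (nat_lit 138802835) (nat_lit 152) (nat_lit 12083138831) (nat_lit 0) (nat_lit 138802835) (nat_lit 8) (nat_lit 5) (nat_lit 10) (nat_lit 4) (nat_lit 8) (nat_lit 4) (nat_lit 320) (nat_lit 230) (nat_lit 230)) (XT.lf (nat_lit 0) (nat_lit 4552719465) (nat_lit 152) (nat_lit 16896830205) (nat_lit 0) (nat_lit 4278417815) (nat_lit 8) (nat_lit 5) (nat_lit 10) (nat_lit 4) (nat_lit 8) (nat_lit 4) (nat_lit 321) (nat_lit 230) (nat_lit 229))))) (XT.nd (nat_lit 156) (nat_lit 76) (nat_lit 0) (XT.nd (nat_lit 78) (nat_lit 0) (nat_lit 0) (XT.lf (nat_lit 0) (nat_lit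 8898332988) (nat_lit 152) (nat_lit 9530875211) (nat_lit 0) (nat_lit 8362791673) (nat_lit 8) (nat_lit 5) (nat_lit 10) (nat_lit 4) (nat_lit 8) (nat_lit 4) (nat_lit 322) (nat_lit 230) (nat_lit 228)) (XT.lf (nat_lit 0) (nat_lit 13324792939) (nat_lit 152) (nat_lit 2050874690) (nat_lit 0) (nat_lit 12540451942) (nat_lit 8) (nat_lit 5) (nat_lit 10) (nat_lit 4) (nat_lit 8) (nat_lit 4) (nat_lit 323) (nat_lit 230) (nat_lit 227))) (XT.nd (nat_lit 78) (nat_lit 0) (nat_lit 0) (XT.lf (nat_lit 0) (nat_lit 5744852023) (nat_lit 76) (nat_lit 12187479727) (nat_lit 76) (nat_lit 11166186652) (nat_lit 7) (nat_lit 4) (nat_lit 8) (nat_lit 5) (nat_lit 8) (nat_lit 4) (nat_lit 324) (nat_lit 230) (nat_lit 226)) (XT.nd (nat_lit 78) (nat_lit 0) (nat_lit 0) (XT.lf (nat_lit 0) (nat_lit 13763327400) (nat_lit 76) (nat_lit 8914183187) (nat_lit 76) (nat_lit 7667221466) (nat_lit 7) (nat_lit 4) (nat_lit 8) (nat_lit 5) (nat_lit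 8) (nat_lit 4) (nat_lit 325) (nat_lit 230) (nat_lit 225)) (XT.lf (nat_lit 0) (nat_lit 21955831869) (nat_lit 76) (nat_lit 5582717002) (nat_lit 76) (nat_lit 4120832762) (nat_lit 7) (nat_lit 4) (nat_lit 8) (nat_lit 5) (nat_lit 8) (nat_lit 4) (nat_lit 326) (nat_lit 230) (nat_lit 224))))))) (XT.nd (nat_lit 780) (nat_lit 152) (nat_lit 0) (XT.nd (nat_lit 390) (nat_lit 76) (nat_lit 0) (XT.nd (nat_lit 156) (nat_lit 0) (nat_lit 0) (XT.nd (nat_lit 78) (nat_lit 152) (nat_lit 0) (XT.lf (nat_lit 0) (nat_lit 30341871393) (nat_lit 76) (nat_lit 2185149110) (nat_lit 76) (nat_lit 518576756) (nat_lit 7) (nat_lit 4) (nat_lit 8) (nat_lit 5) (nat_lit 8) (nat_lit 4) (nat_lit 327) (nat_lit 230) (nat_lit 223)) (XT.lf (nat_lit 0) (nat_lit 3140151875) (nat_lit 152) (nat_lit 29992148657) (nat_lit 0) (nat_lit 1367281956) (nat_lit 5) (nat_lit 5) (nat_lit 7) (nat_lit 4) (nat_lit 5) (nat_lit 4) (nat_lit 328) (nat_lit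 230) (nat_lit 222))) (XT.nd (nat_lit 78) (nat_lit 0) (nat_lit 0) (XT.lf (nat_lit 0) (nat_lit 6935393518) (nat_lit 152) (nat_lit 24106237349) (nat_lit 0) (nat_lit 4985706310) (nat_lit 5) (nat_lit 5) (nat_lit 7) (nat_lit 4) (nat_lit 5) (nat_lit 4) (nat_lit 329) (nat_lit 230) (nat_lit 221)) (XT.nd (nat_lit 78) (nat_lit 0) (nat_lit 0) (XT.lf (nat_lit 0) (nat_lit 10814342481) (nat_lit 152) (nat_lit 18126225311) (nat_lit 0) (nat_lit 8696257856) (nat_lit 5) (nat_lit 5) (nat_lit 7) (nat_lit 4) (nat_lit 5) (nat_lit 4) (nat_lit 330) (nat_lit 230) (nat_lit 220)) (XT.lf (nat_lit 0) (nat_lit 14786234357) (nat_lit 152) (nat_lit 12037874418) (nat_lit 0) (nat_lit 12507771238) (nat_lit 5) (nat_lit 5) (nat_lit 7) (nat_lit 4) (nat_lit 5) (nat_lit 4) (nat_lit 331) (nat_lit 230) (nat_lit 219))))) (XT.nd (nat_lit 156) (nat_lit 0) (nat_lit 0) (XT.nd (nat_lit 78) (nat_lit 76) (nat_lit 0) (XT.lf (nat_lit 0)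 (nat_lit 18860526030) (nat_lit 152) (nat_lit 5826688596) (nat_lit 0) (nat_lit 16429321489) (nat_lit 5) (nat_lit 5) (nat_lit 7) (nat_lit 4) (nat_lit 5) (nat_lit 4) (nat_lit 332) (nat_lit 230) (nat_lit 218)) (XT.lf (nat_lit 0) (nat_lit 539384359) (nat_lit 76) (nat_lit 22515955138) (nat_lit 76) (nat_lit 19939282576) (nat_lit 4) (nat_lit 4) (nat_lit 5) (nat_lit 5) (nat_lit 5) (nat_lit 4) (nat_lit 333) (nat_lit 230) (nat_lit 217))) (XT.nd (nat_lit 78) (nat_lit 0) (nat_lit 0) (XT.lf (nat_lit 0) (nat_lit 7255903896) (nat_lit 76) (nat_lit 20212759553) (nat_lit 76) (nat_lit 17497546018) (nat_lit 4) (nat_lit 4) (nat_lit 5) (nat_lit 5) (nat_lit 5) (nat_lit 4) (nat_lit 334) (nat_lit 230) (nat_lit 216)) (XT.nd (nat_lit 78) (nat_lit 0) (nat_lit 0) (XT.lf (nat_lit 0) (nat_lit 14146205089) (nat_lit 76) (nat_lit 17870821861) (nat_lit 76) (nat_lit 15023664543) (nat_lit 4) (nat_lit 4) (nat_lit 5) (nat_lit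 5) (nat_lit 5) (nat_lit 4) (nat_lit 335) (nat_lit 230) (nat_lit 215)) (XT.lf (nat_lit 0) (nat_lit 21226693416) (nat_lit 76) (nat_lit 15484566022) (nat_lit 76) (nat_lit 12511747958) (nat_lit 4) (nat_lit 4) (nat_lit 5) (nat_lit 5) (nat_lit 5) (nat_lit 4) (nat_lit 336) (nat_lit 230) (nat_lit 214)))))) (XT.nd (nat_lit 390) (nat_lit 76) (nat_lit 0) (XT.nd (nat_lit 156) (nat_lit 76) (nat_lit 0) (XT.nd (nat_lit 78) (nat_lit 0) (nat_lit 0) (XT.lf (nat_lit 0) (nat_lit 28514227183) (nat_lit 76) (nat_lit 13048310474) (nat_lit 76) (nat_lit 9955815509) (nat_lit 4) (nat_lit 4) (nat_lit 5) (nat_lit 5) (nat_lit 5) (nat_lit 4) (nat_lit 337) (nat_lit 230) (nat_lit 213)) (XT.lf (nat_lit 0) (nat_lit 36026157662) (nat_lit 76) (nat_lit 10556254609) (nat_lit 76) (nat_lit 7349781643) (nat_lit 4) (nat_lit 4) (nat_lit 5) (nat_lit 5) (nat_lit 5) (nat_lit 4) (nat_lit 338) (nat_lit 230) (nat_lit 212))) (XT.nd (nat_lit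 78) (nat_lit 76) (nat_lit 0) (XT.lf (nat_lit 0) (nat_lit 43780370400) (nat_lit 76) (nat_lit 8002464960) (nat_lit 76) (nat_lit 4687441517) (nat_lit 4) (nat_lit 4) (nat_lit 5) (nat_lit 5) (nat_lit 5) (nat_lit 4) (nat_lit 339) (nat_lit 230) (nat_lit 211)) (XT.nd (nat_lit 78) (nat_lit 76) (nat_lit 0) (XT.lf (nat_lit 0) (nat_lit 51795327808) (nat_lit 76) (nat_lit 5380861075) (nat_lit 76) (nat_lit 1962456225) (nat_lit 4) (nat_lit 4) (nat_lit 5) (nat_lit 5) (nat_lit 5) (nat_lit 4) (nat_lit 340) (nat_lit 230) (nat_lit 210)) (XT.lf (nat_lit 0) (nat_lit 805043903) (nat_lit 152) (nat_lit 1866523329) (nat_lit 76) (nat_lit 59271435409) (nat_lit 3) (nat_lit 5) (nat_lit 5) (nat_lit 5) (nat_lit 4) (nat_lit 4) (nat_lit 341) (nat_lit 230) (nat_lit 209))))) (XT.nd (nat_lit 234) (nat_lit 0) (nat_lit 0) (XT.nd (nat_lit 78) (nat_lit 0) (nat_lit 0) (XT.lf (nat_lit 0) (nat_lit 3646685302) (nat_lit 152) (nat_lit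 61031234354) (nat_lit 0) (nat_lit 207986906) (nat_lit 2) (nat_lit 5) (nat_lit 4) (nat_lit 4) (nat_lit 2) (nat_lit 4) (nat_lit 342) (nat_lit 230) (nat_lit 208)) (XT.nd (nat_lit 78) (nat_lit 0) (nat_lit 0) (XT.lf (nat_lit 0) (nat_lit 6644752415) (nat_lit 152) (nat_lit 58209506076) (nat_lit 0) (nat_lit 3121001879) (nat_lit 2) (nat_lit 5) (nat_lit 4) (nat_lit 4) (nat_lit 2) (nat_lit 4) (nat_lit 343) (nat_lit 230) (nat_lit 207)) (XT.lf (nat_lit 0) (nat_lit 9734074102) (nat_lit 152) (nat_lit 55358639508) (nat_lit 0) (nat_lit 6129321529) (nat_lit 2) (nat_lit 5) (nat_lit 4) (nat_lit 4) (nat_lit 2) (nat_lit 4) (nat_lit 344) (nat_lit 230) (nat_lit 206)))) (XT.nd (nat_lit 78) (nat_lit 0) (nat_lit 0) (XT.lf (nat_lit 0) (nat_lit 12922005891) (nat_lit 152) (nat_lit 52471846872) (nat_lit 0) (nat_lit 9240108521) (nat_lit 2) (nat_lit 5) (nat_lit 4) (nat_lit 4) (nat_lit 2) (nat_lit 4) (nat_lit 345) (nat_lit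 230) (nat_lit 205)) (XT.nd (nat_lit 78) (nat_lit 0) (nat_lit 0) (XT.lf (nat_lit 0) (nat_lit 16216138096) (nat_lit 152) (nat_lit 49542254853) (nat_lit 0) (nat_lit 12460769491) (nat_lit 2) (nat_lit 5) (nat_lit 4) (nat_lit 4) (nat_lit 2) (nat_lit 4) (nat_lit 346) (nat_lit 230) (nat_lit 204)) (XT.lf (nat_lit 0) (nat_lit 19624313889) (nat_lit 152) (nat_lit 46562888231) (nat_lit 0) (nat_lit 15798972679) (nat_lit 2) (nat_lit 5) (nat_lit 4) (nat_lit 4) (nat_lit 2) (nat_lit 4) (nat_lit 347) (nat_lit 230) (nat_lit 203))))))))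
noncomputable def xc32 : XT := (XT.nd (nat_lit 1560) (nat_lit 0) (nat_lit 0) (XT.nd (nat_lit 780) (nat_lit 76) (nat_lit 0) (XT.nd (nat_lit 390) (nat_lit 0) (nat_lit 0) (XT.nd (nat_lit 156) (nat_lit 0) (nat_lit 0) (XT.nd (nat_lit 78) (nat_lit 0) (nat_lit 0) (XT.lf (nat_lit 0) (nat_lit 23154647975) (nat_lit 152) (nat_lit 43526653277) (nat_lit 0) (nat_lit 19262666187) (nat_lit 2) (nat_lit 5) (nat_lit 4) (nat_lit 4) (nat_lit 2) (nat_lit 4) (nat_lit 348) (nat_lit 230) (nat_lit 202)) (XT.lf (nat_lit 0) (nat_lit 26815545910) (nat_lit 152) (nat_lit 40426320859) (nat_lit 0) (nat_lit 22860096907) (nat_lit 2) (nat_lit 5) (nat_lit 4) (nat_lit 4) (nat_lit 2) (nat_lit 4) (nat_lit 349) (nat_lit 230) (nat_lit 201))) (XT.nd (nat_lit 78) (nat_lit 0) (nat_lit 0) (XT.lf (nat_lit 0) (nat_lit 30615724118) (nat_lit 152) (nat_lit 37254509235) (nat_lit 0) (nat_lit 26599830147) (nat_lit 2) (nat_lit 5) (nat_lit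 4) (nat_lit 4) (nat_lit 2) (nat_lit 4) (nat_lit 350) (nat_lit 230) (nat_lit 200)) (XT.nd (nat_lit 78) (nat_lit 0) (nat_lit 0) (XT.lf (nat_lit 0) (nat_lit 34564230643) (nat_lit 152) (nat_lit 34003666470) (nat_lit 0) (nat_lit 30490770037) (nat_lit 2) (nat_lit 5) (nat_lit 4) (nat_lit 4) (nat_lit 2) (nat_lit 4) (nat_lit 351) (nat_lit 230) (nat_lit 199)) (XT.lf (nat_lit 0) (nat_lit 38670466690) (nat_lit 152) (nat_lit 30666052464) (nat_lit 0) (nat_lit 34542180717) (nat_lit 2) (nat_lit 5) (nat_lit 4) (nat_lit 4) (nat_lit 2) (nat_lit 4) (nat_lit 352) (nat_lit 230) (nat_lit 198))))) (XT.nd (nat_lit 156) (nat_lit 0) (nat_lit 0) (XT.nd (nat_lit 78) (nat_lit 0) (nat_lit 0) (XT.lf (nat_lit 0) (nat_lit 42944209012) (nat_lit 152) (nat_lit 27233720516) (nat_lit 0) (nat_lit 38763708404) (nat_lit 2) (nat_lit 5) (nat_lit 4) (nat_lit 4) (nat_lit 2) (nat_lit 4) (nat_lit 353) (nat_lit 230) (nat_lit 197))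 (XT.lf (nat_lit 0) (nat_lit 47395633187) (nat_lit 152) (nat_lit 23698498408) (nat_lit 0) (nat_lit 43165404354) (nat_lit 2) (nat_lit 5) (nat_lit 4) (nat_lit 4) (nat_lit 2) (nat_lit 4) (nat_lit 354) (nat_lit 230) (nat_lit 196))) (XT.nd (nat_lit 78) (nat_lit 0) (nat_lit 0) (XT.lf (nat_lit 0) (nat_lit 52035337842) (nat_lit 152) (nat_lit 20051968945) (nat_lit 0) (nat_lit 47757748796) (nat_lit 2) (nat_lit 5) (nat_lit 4) (nat_lit 4) (nat_lit 2) (nat_lit 4) (nat_lit 355) (nat_lit 230) (nat_lit 195)) (XT.nd (nat_lit 78) (nat_lit 0) (nat_lit 0) (XT.lf (nat_lit 0) (nat_lit 56874369895) (nat_lit 152) (nat_lit 16285449912) (nat_lit 0) (nat_lit 52551675882) (nat_lit 2) (nat_lit 5) (nat_lit 4) (nat_lit 4) (nat_lit 2) (nat_lit 4) (nat_lit 356) (nat_lit 230) (nat_lit 194)) (XT.lf (nat_lit 0) (nat_lit 61924250848) (nat_lit 152) (nat_lit 12389973408) (nat_lit 0) (nat_lit 57558599727) (nat_lit 2) (nat_lit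 5) (nat_lit 4) (nat_lit 4) (nat_lit 2) (nat_lit 4) (nat_lit 357) (nat_lit 230) (nat_lit 193)))))) (XT.nd (nat_lit 390) (nat_lit 0) (nat_lit 0) (XT.nd (nat_lit 156) (nat_lit 76) (nat_lit 0) (XT.nd (nat_lit 78) (nat_lit 0) (nat_lit 0) (XT.lf (nat_lit 0) (nat_lit 67197004230) (nat_lit 152) (nat_lit 8356264488) (nat_lit 0) (nat_lit 62790441575) (nat_lit 2) (nat_lit 5) (nat_lit 4) (nat_lit 4) (nat_lit 2) (nat_lit 4) (nat_lit 358) (nat_lit 230) (nat_lit 192)) (XT.lf (nat_lit 0) (nat_lit 72705184215) (nat_lit 152) (nat_lit 4174719084) (nat_lit 0) (nat_lit 68259658195) (nat_lit 2) (nat_lit 5) (nat_lit 4) (nat_lit 4) (nat_lit 2) (nat_lit 4) (nat_lit 359) (nat_lit 230) (nat_lit 191))) (XT.nd (nat_lit 78) (nat_lit 0) (nat_lit 0) (XT.lf (nat_lit 0) (nat_lit 170061907) (nat_lit 76) (nat_lit 78294498751) (nat_lit 76) (nat_lit 73811864765) (nat_lit 1) (nat_lit 4) (nat_lit 2) (nat_lit 5) (nat_lit 2)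 (nat_lit 4) (nat_lit 360) (nat_lit 230) (nat_lit 190)) (XT.nd (nat_lit 78) (nat_lit 0) (nat_lit 0) (XT.lf (nat_lit 0) (nat_lit 4826561216) (nat_lit 76) (nat_lit 79729669544) (nat_lit 76) (nat_lit 75211694637) (nat_lit 1) (nat_lit 4) (nat_lit 2) (nat_lit 5) (nat_lit 2) (nat_lit 4) (nat_lit 361) (nat_lit 230) (nat_lit 189)) (XT.lf (nat_lit 0) (nat_lit 9667830678) (nat_lit 76) (nat_lit 81259533637) (nat_lit 76) (nat_lit 76707900711) (nat_lit 1) (nat_lit 4) (nat_lit 2) (nat_lit 5) (nat_lit 2) (nat_lit 4) (nat_lit 362) (nat_lit 230) (nat_lit 188))))) (XT.nd (nat_lit 156) (nat_lit 0) (nat_lit 0) (XT.nd (nat_lit 78) (nat_lit 0) (nat_lit 0) (XT.lf (nat_lit 0) (nat_lit 14705397126) (nat_lit 76) (nat_lit 82887733566) (nat_lit 76) (nat_lit 78304045382) (nat_lit 1) (nat_lit 4) (nat_lit 2) (nat_lit 5) (nat_lit 2) (nat_lit 4) (nat_lit 363) (nat_lit 230) (nat_lit 187)) (XT.lf (nat_lit 0) (nat_lit 19951254766)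 (nat_lit 76) (nat_lit 84618145995) (nat_lit 76) (nat_lit 80003928996) (nat_lit 1) (nat_lit 4) (nat_lit 2) (nat_lit 5) (nat_lit 2) (nat_lit 4) (nat_lit 364) (nat_lit 230) (nat_lit 186))) (XT.nd (nat_lit 78) (nat_lit 0) (nat_lit 0) (XT.lf (nat_lit 0) (nat_lit 25417893734) (nat_lit 76) (nat_lit 86454890956) (nat_lit 76) (nat_lit 81811598894) (nat_lit 1) (nat_lit 4) (nat_lit 2) (nat_lit 5) (nat_lit 2) (nat_lit 4) (nat_lit 365) (nat_lit 230) (nat_lit 185)) (XT.nd (nat_lit 78) (nat_lit 0) (nat_lit 0) (XT.lf (nat_lit 0) (nat_lit 31118329838) (nat_lit 76) (nat_lit 88402341649) (nat_lit 76) (nat_lit 83731359051) (nat_lit 1) (nat_lit 4) (nat_lit 2) (nat_lit 5) (nat_lit 2) (nat_lit 4) (nat_lit 366) (nat_lit 230) (nat_lit 184)) (XT.lf (nat_lit 0) (nat_lit 37066135545) (nat_lit 76) (nat_lit 90465134863) (nat_lit 76) (nat_lit 85767780326) (nat_lit 1) (nat_lit 4) (nat_lit 2) (nat_lit 5) (nat_lit 2)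 (nat_lit 4) (nat_lit 367) (nat_lit 230) (nat_lit 183))))))) (XT.nd (nat_lit 780) (nat_lit 0) (nat_lit 0) (XT.nd (nat_lit 390) (nat_lit 0) (nat_lit 0) (XT.nd (nat_lit 156) (nat_lit 0) (nat_lit 0) (XT.nd (nat_lit 78) (nat_lit 0) (nat_lit 0) (XT.lf (nat_lit 0) (nat_lit 43275472297) (nat_lit 76) (nat_lit 92648182010) (nat_lit 76) (nat_lit 87925711340) (nat_lit 1) (nat_lit 4) (nat_lit 2) (nat_lit 5) (nat_lit 2) (nat_lit 4) (nat_lit 368) (nat_lit 230) (nat_lit 182)) (XT.lf (nat_lit 0) (nat_lit 49761124229) (nat_lit 76) (nat_lit 94956680821) (nat_lit 76) (nat_lit 90210290025) (nat_lit 1) (nat_lit 4) (nat_lit 2) (nat_lit 5) (nat_lit 2) (nat_lit 4) (nat_lit 369) (nat_lit 230) (nat_lit 181))) (XT.nd (nat_lit 78) (nat_lit 0) (nat_lit 0) (XT.lf (nat_lit 0) (nat_lit 56538533369) (nat_lit 76) (nat_lit 97396127722) (nat_lit 76) (nat_lit 92626955854) (nat_lit 1) (nat_lit 4) (nat_lit 2) (nat_lit 5) (nat_lit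 2) (nat_lit 4) (nat_lit 370) (nat_lit 230) (nat_lit 180)) (XT.nd (nat_lit 78) (nat_lit 0) (nat_lit 0) (XT.lf (nat_lit 0) (nat_lit 63623836406) (nat_lit 76) (nat_lit 99972330920) (nat_lit 76) (nat_lit 95181462792) (nat_lit 1) (nat_lit 4) (nat_lit 2) (nat_lit 5) (nat_lit 2) (nat_lit 4) (nat_lit 371) (nat_lit 230) (nat_lit 179)) (XT.lf (nat_lit 0) (nat_lit 71033903109) (nat_lit 76) (nat_lit 102691424232) (nat_lit 76) (nat_lit 97879893000) (nat_lit 1) (nat_lit 4) (nat_lit 2) (nat_lit 5) (nat_lit 2) (nat_lit 4) (nat_lit 372) (nat_lit 230) (nat_lit 178))))) (XT.nd (nat_lit 156) (nat_lit 0) (nat_lit 0) (XT.nd (nat_lit 78) (nat_lit 0) (nat_lit 0) (XT.lf (nat_lit 0) (nat_lit 78786376494) (nat_lit 76) (nat_lit 105559881689) (nat_lit 76) (nat_lit 100728671310) (nat_lit 1) (nat_lit 4) (nat_lit 2) (nat_lit 5) (nat_lit 2) (nat_lit 4) (nat_lit 373) (nat_lit 230) (nat_lit 177)) (XT.lf (nat_lit 0) (nat_lit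 86899714831) (nat_lit 76) (nat_lit 108584532953) (nat_lit 76) (nat_lit 103734580529) (nat_lit 1) (nat_lit 4) (nat_lit 2) (nat_lit 5) (nat_lit 2) (nat_lit 4) (nat_lit 374) (nat_lit 230) (nat_lit 176))) (XT.nd (nat_lit 78) (nat_lit 0) (nat_lit 0) (XT.lf (nat_lit 0) (nat_lit 95393235591) (nat_lit 76) (nat_lit 111772579574) (nat_lit 76) (nat_lit 106904777583) (nat_lit 1) (nat_lit 4) (nat_lit 2) (nat_lit 5) (nat_lit 2) (nat_lit 4) (nat_lit 375) (nat_lit 230) (nat_lit 175)) (XT.nd (nat_lit 78) (nat_lit 0) (nat_lit 0) (XT.lf (nat_lit 0) (nat_lit 104287161445) (nat_lit 76) (nat_lit 115131612138) (nat_lit 76) (nat_lit 110246810561) (nat_lit 1) (nat_lit 4) (nat_lit 2) (nat_lit 5) (nat_lit 2) (nat_lit 4) (nat_lit 376) (nat_lit 230) (nat_lit 174)) (XT.lf (nat_lit 0) (nat_lit 113602668405) (nat_lit 76) (nat_lit 118669628344) (nat_lit 76) (nat_lit 113768636684) (nat_lit 1) (nat_lit 4) (nat_lit 2)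 (nat_lit 5) (nat_lit 2) (nat_lit 4) (nat_lit 377) (nat_lit 230) (nat_lit 173)))))) (XT.nd (nat_lit 390) (nat_lit 0) (nat_lit 0) (XT.nd (nat_lit 156) (nat_lit 0) (nat_lit 0) (XT.nd (nat_lit 78) (nat_lit 0) (nat_lit 0) (XT.lf (nat_lit 0) (nat_lit 123361936250) (nat_lit 76) (nat_lit 122395052038) (nat_lit 76) (nat_lit 117478641251) (nat_lit 1) (nat_lit 4) (nat_lit 2) (nat_lit 5) (nat_lit 2) (nat_lit 4) (nat_lit 378) (nat_lit 230) (nat_lit 172)) (XT.lf (nat_lit 0) (nat_lit 133588201332) (nat_lit 76) (nat_lit 126316753277) (nat_lit 76) (nat_lit 121385657608) (nat_lit 1) (nat_lit 4) (nat_lit 2) (nat_lit 5) (nat_lit 2) (nat_lit 4) (nat_lit 379) (nat_lit 230) (nat_lit 171))) (XT.nd (nat_lit 78) (nat_lit 0) (nat_lit 0) (XT.lf (nat_lit 0) (nat_lit 144305811902) (nat_lit 76) (nat_lit 130444069446) (nat_lit 76) (nat_lit 125498988175) (nat_lit 1) (nat_lit 4) (nat_lit 2) (nat_lit 5) (nat_lit 2) (nat_lit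 4) (nat_lit 380) (nat_lit 230) (nat_lit 170)) (XT.nd (nat_lit 78) (nat_lit 0) (nat_lit 0) (XT.lf (nat_lit 0) (nat_lit 155540286079) (nat_lit 76) (nat_lit 134786827487) (nat_lit 76) (nat_lit 129828426594) (nat_lit 1) (nat_lit 4) (nat_lit 2) (nat_lit 5) (nat_lit 2) (nat_lit 4) (nat_lit 381) (nat_lit 230) (nat_lit 169)) (XT.lf (nat_lit 0) (nat_lit 167318372611) (nat_lit 76) (nat_lit 139355367300) (nat_lit 76) (nat_lit 134384281054) (nat_lit 1) (nat_lit 4) (nat_lit 2) (nat_lit 5) (nat_lit 2) (nat_lit 4) (nat_lit 382) (nat_lit 230) (nat_lit 168))))) (XT.nd (nat_lit 156) (nat_lit 0) (nat_lit 0) (XT.nd (nat_lit 78) (nat_lit 0) (nat_lit 0) (XT.lf (nat_lit 0) (nat_lit 179668114563) (nat_lit 76) (nat_lit 144160566362) (nat_lit 76) (nat_lit 139177398827) (nat_lit 1) (nat_lit 4) (nat_lit 2) (nat_lit 5) (nat_lit 2) (nat_lit 4) (nat_lit 383) (nat_lit 230) (nat_lit 167)) (XT.lf (nat_lit 0) (nat_lit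 192618916081) (nat_lit 76) (nat_lit 149213865622) (nat_lit 76) (nat_lit 144219192097) (nat_lit 1) (nat_lit 4) (nat_lit 2) (nat_lit 5) (nat_lit 2) (nat_lit 4) (nat_lit 384) (nat_lit 230) (nat_lit 166))) (XT.nd (nat_lit 78) (nat_lit 0) (nat_lit 0) (XT.lf (nat_lit 0) (nat_lit 206201612407) (nat_lit 76) (nat_lit 154527296745) (nat_lit 76) (nat_lit 149521665135) (nat_lit 1) (nat_lit 4) (nat_lit 2) (nat_lit 5) (nat_lit 2) (nat_lit 4) (nat_lit 385) (nat_lit 230) (nat_lit 165)) (XT.nd (nat_lit 78) (nat_lit 0) (nat_lit 0) (XT.lf (nat_lit 0) (nat_lit 220448543294) (nat_lit 76) (nat_lit 160113510758) (nat_lit 76) (nat_lit 155097442876) (nat_lit 1) (nat_lit 4) (nat_lit 2) (nat_lit 5) (nat_lit 2) (nat_lit 4) (nat_lit 386) (nat_lit 230) (nat_lit 164)) (XT.lf (nat_lit 0) (nat_lit 235393630006) (nat_lit 76) (nat_lit 165985808171) (nat_lit 76) (nat_lit 160959800982) (nat_lit 1) (nat_lit 4) (nat_lit 2)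 (nat_lit 5) (nat_lit 2) (nat_lit 4) (nat_lit 387) (nat_lit 230) (nat_lit 163))))))))
noncomputable def xc33 : XT := (XT.nd (nat_lit 36426) (nat_lit 0) (nat_lit 76) (XT.nd (nat_lit 35646) (nat_lit 0) (nat_lit 304) (XT.nd (nat_lit 35256) (nat_lit 0) (nat_lit 532) (XT.nd (nat_lit 156) (nat_lit 0) (nat_lit 0) (XT.nd (nat_lit 78) (nat_lit 0) (nat_lit 0) (XT.lf (nat_lit 0) (nat_lit 251072456084) (nat_lit 76) (nat_lit 172158170643) (nat_lit 76) (nat_lit 167122697448) (nat_lit 1) (nat_lit 4) (nat_lit 2) (nat_lit 5) (nat_lit 2) (nat_lit 4) (nat_lit 388) (nat_lit 230) (nat_lit 162)) (XT.lf (nat_lit 0) (nat_lit 267522352064) (nat_lit 76) (nat_lit 178645294276) (nat_lit 76) (nat_lit 173600805837) (nat_lit 1) (nat_lit 4) (nat_lit 2) (nat_lit 5) (nat_lit 2) (nat_lit 4) (nat_lit 389) (nat_lit 230) (nat_lit 161))) (XT.nd (nat_lit 78) (nat_lit 0) (nat_lit 0) (XT.lf (nat_lit 0) (nat_lit 284782484367)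 (nat_lit 76) (nat_lit 185462624602) (nat_lit 76) (nat_lit 180409550217) (nat_lit 1) (nat_lit 4) (nat_lit 2) (nat_lit 5) (nat_lit 2) (nat_lit 4) (nat_lit 390) (nat_lit 230) (nat_lit 160)) (XT.nd (nat_lit 34944) (nat_lit 0) (nat_lit 684) (XT.lf (nat_lit 0) (nat_lit 302893948546) (nat_lit 76) (nat_lit 192626393361) (nat_lit 76) (nat_lit 187565141883) (nat_lit 1) (nat_lit 4) (nat_lit 2) (nat_lit 5) (nat_lit 2) (nat_lit 4) (nat_lit 391) (nat_lit 230) (nat_lit 159)) (XT.lf (nat_lit 0) (nat_lit 3809894723) (nat_lit 76) (nat_lit 3805924784) (nat_lit 76) (nat_lit 3805924784) (nat_lit 10) (nat_lit 4) (nat_lit 11) (nat_lit 5) (nat_lit 11) (nat_lit 4) (nat_lit 318) (nat_lit 231) (nat_lit 231))))) (XT.nd (nat_lit 156) (nat_lit 0) (nat_lit 0) (XT.nd (nat_lit 78) (nat_lit 152) (nat_lit 0) (XT.lf (nat_lit 0) (nat_lit 16294226198) (nat_lit 76) (nat_lit 3883207348) (nat_lit 76) (nat_lit 3580789779) (nat_lit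 10) (nat_lit 4) (nat_lit 11) (nat_lit 5) (nat_lit 11) (nat_lit 4) (nat_lit 319) (nat_lit 231) (nat_lit 230)) (XT.lf (nat_lit 0) (nat_lit 420989732) (nat_lit 76) (nat_lit 72387844) (nat_lit 152) (nat_lit 24231758081) (nat_lit 8) (nat_lit 5) (nat_lit 9) (nat_lit 5) (nat_lit 10) (nat_lit 4) (nat_lit 320) (nat_lit 231) (nat_lit 229))) (XT.nd (nat_lit 78) (nat_lit 0) (nat_lit 0) (XT.lf (nat_lit 0) (nat_lit 4697480236) (nat_lit 152) (nat_lit 17163795040) (nat_lit 0) (nat_lit 3873922190) (nat_lit 8) (nat_lit 5) (nat_lit 10) (nat_lit 4) (nat_lit 8) (nat_lit 4) (nat_lit 321) (nat_lit 231) (nat_lit 228)) (XT.nd (nat_lit 78) (nat_lit 0) (nat_lit 0) (XT.lf (nat_lit 0) (nat_lit 8976540468) (nat_lit 152) (nat_lit 9921865521) (nat_lit 0) (nat_lit 7904182739) (nat_lit 8) (nat_lit 5) (nat_lit 10) (nat_lit 4) (nat_lit 8) (nat_lit 4) (nat_lit 322) (nat_lit 231) (nat_lit 227)) (XT.lf (nat_lit 0) (nat_lit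 13339616332) (nat_lit 152) (nat_lit 2559984500) (nat_lit 0) (nat_lit 12030306526) (nat_lit 8) (nat_lit 5) (nat_lit 10) (nat_lit 4) (nat_lit 8) (nat_lit 4) (nat_lit 323) (nat_lit 231) (nat_lit 226)))))) (XT.nd (nat_lit 390) (nat_lit 0) (nat_lit 0) (XT.nd (nat_lit 156) (nat_lit 152) (nat_lit 0) (XT.nd (nat_lit 78) (nat_lit 0) (nat_lit 0) (XT.lf (nat_lit 0) (nat_lit 5102694397) (nat_lit 76) (nat_lit 12774069068) (nat_lit 76) (nat_lit 11239090616) (nat_lit 7) (nat_lit 4) (nat_lit 8) (nat_lit 5) (nat_lit 8) (nat_lit 4) (nat_lit 324) (nat_lit 231) (nat_lit 225)) (XT.lf (nat_lit 0) (nat_lit 13010489444) (nat_lit 76) (nat_lit 9552233593) (nat_lit 76) (nat_lit 7802332621) (nat_lit 7) (nat_lit 4) (nat_lit 8) (nat_lit 5) (nat_lit 8) (nat_lit 4) (nat_lit 325) (nat_lit 231) (nat_lit 224))) (XT.nd (nat_lit 78) (nat_lit 152) (nat_lit 0) (XT.lf (nat_lit 0) (nat_lit 21097584074) (nat_lit 76) (nat_lit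 6269777946) (nat_lit 76) (nat_lit 4315188860) (nat_lit 7) (nat_lit 4) (nat_lit 8) (nat_lit 5) (nat_lit 8) (nat_lit 4) (nat_lit 326) (nat_lit 231) (nat_lit 223)) (XT.nd (nat_lit 78) (nat_lit 152) (nat_lit 0) (XT.lf (nat_lit 0) (nat_lit 29383233276) (nat_lit 76) (nat_lit 2918886756) (nat_lit 76) (nat_lit 769356610) (nat_lit 7) (nat_lit 4) (nat_lit 8) (nat_lit 5) (nat_lit 8) (nat_lit 4) (nat_lit 327) (nat_lit 231) (nat_lit 222)) (XT.lf (nat_lit 0) (nat_lit 2815482479) (nat_lit 152) (nat_lit 31122799524) (nat_lit 0) (nat_lit 591493621) (nat_lit 5) (nat_lit 5) (nat_lit 7) (nat_lit 4) (nat_lit 5) (nat_lit 4) (nat_lit 328) (nat_lit 231) (nat_lit 221))))) (XT.nd (nat_lit 156) (nat_lit 0) (nat_lit 0) (XT.nd (nat_lit 78) (nat_lit 0) (nat_lit 0) (XT.lf (nat_lit 0) (nat_lit 6558990092) (nat_lit 152) (nat_lit 25334544233) (nat_lit 0) (nat_lit 4166603816) (nat_lit 5) (nat_lit 5) (nat_lit 7) (nat_lit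 4) (nat_lit 5) (nat_lit 4) (nat_lit 329) (nat_lit 231) (nat_lit 220)) (XT.lf (nat_lit 0) (nat_lit 10388668549) (nat_lit 152) (nat_lit 19447537925) (nat_lit 0) (nat_lit 7835903781) (nat_lit 5) (nat_lit 5) (nat_lit 7) (nat_lit 4) (nat_lit 5) (nat_lit 4) (nat_lit 330) (nat_lit 231) (nat_lit 219))) (XT.nd (nat_lit 78) (nat_lit 0) (nat_lit 0) (XT.lf (nat_lit 0) (nat_lit 14313636134) (nat_lit 152) (nat_lit 13447763918) (nat_lit 0) (nat_lit 11608129944) (nat_lit 5) (nat_lit 5) (nat_lit 7) (nat_lit 4) (nat_lit 5) (nat_lit 4) (nat_lit 331) (nat_lit 231) (nat_lit 218)) (XT.nd (nat_lit 78) (nat_lit 0) (nat_lit 0) (XT.lf (nat_lit 0) (nat_lit 18343238007) (nat_lit 152) (nat_lit 7320937035) (nat_lit 0) (nat_lit 15492263795) (nat_lit 5) (nat_lit 5) (nat_lit 7) (nat_lit 4) (nat_lit 5) (nat_lit 4) (nat_lit 332) (nat_lit 231) (nat_lit 217)) (XT.lf (nat_lit 0) (nat_lit 22487068458) (nat_lit 152) (nat_lit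 1052469594) (nat_lit 0) (nat_lit 19497553274) (nat_lit 5) (nat_lit 5) (nat_lit 7) (nat_lit 4) (nat_lit 5) (nat_lit 4) (nat_lit 333) (nat_lit 231) (nat_lit 216))))))) (XT.nd (nat_lit 780) (nat_lit 0) (nat_lit 0) (XT.nd (nat_lit 390) (nat_lit 152) (nat_lit 0) (XT.nd (nat_lit 156) (nat_lit 0) (nat_lit 0) (XT.nd (nat_lit 78) (nat_lit 0) (nat_lit 0) (XT.lf (nat_lit 0) (nat_lit 5550204534) (nat_lit 76) (nat_lit 21291443463) (nat_lit 76) (nat_lit 18169984495) (nat_lit 4) (nat_lit 4) (nat_lit 5) (nat_lit 5) (nat_lit 5) (nat_lit 4) (nat_lit 334) (nat_lit 231) (nat_lit 215)) (XT.lf (nat_lit 0) (nat_lit 12365223812) (nat_lit 76) (nat_lit 18985007594) (nat_lit 76) (nat_lit 15737887881) (nat_lit 4) (nat_lit 4) (nat_lit 5) (nat_lit 5) (nat_lit 5) (nat_lit 4) (nat_lit 335) (nat_lit 231) (nat_lit 214))) (XT.nd (nat_lit 78) (nat_lit 0) (nat_lit 0) (XT.lf (nat_lit 0) (nat_lit 19374015077) (nat_lit 76)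 (nat_lit 16632563015) (nat_lit 76) (nat_lit 13265766401) (nat_lit 4) (nat_lit 4) (nat_lit 5) (nat_lit 5) (nat_lit 5) (nat_lit 4) (nat_lit 336) (nat_lit 231) (nat_lit 213)) (XT.nd (nat_lit 78) (nat_lit 0) (nat_lit 0) (XT.lf (nat_lit 0) (nat_lit 26593265929) (nat_lit 76) (nat_lit 14228508667) (nat_lit 76) (nat_lit 10747734052) (nat_lit 4) (nat_lit 4) (nat_lit 5) (nat_lit 5) (nat_lit 5) (nat_lit 4) (nat_lit 337) (nat_lit 231) (nat_lit 212)) (XT.lf (nat_lit 0) (nat_lit 34040165059) (nat_lit 76) (nat_lit 11767120611) (nat_lit 76) (nat_lit 8177795519) (nat_lit 4) (nat_lit 4) (nat_lit 5) (nat_lit 5) (nat_lit 5) (nat_lit 4) (nat_lit 338) (nat_lit 231) (nat_lit 211))))) (XT.nd (nat_lit 156) (nat_lit 152) (nat_lit 0) (XT.nd (nat_lit 78) (nat_lit 0) (nat_lit 0) (XT.lf (nat_lit 0) (nat_lit 41732443179) (nat_lit 76) (nat_lit 9242538400) (nat_lit 76) (nat_lit 5549831901) (nat_lit 4) (nat_lit 4) (nat_lit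 5) (nat_lit 5) (nat_lit 5) (nat_lit 4) (nat_lit 339) (nat_lit 231) (nat_lit 210)) (XT.lf (nat_lit 0) (nat_lit 49688415238) (nat_lit 76) (nat_lit 6648751122) (nat_lit 76) (nat_lit 2857586141) (nat_lit 4) (nat_lit 4) (nat_lit 5) (nat_lit 5) (nat_lit 5) (nat_lit 4) (nat_lit 340) (nat_lit 231) (nat_lit 209))) (XT.nd (nat_lit 78) (nat_lit 152) (nat_lit 0) (XT.lf (nat_lit 0) (nat_lit 57927024026) (nat_lit 76) (nat_lit 3979583095) (nat_lit 76) (nat_lit 94648130) (nat_lit 4) (nat_lit 4) (nat_lit 5) (nat_lit 5) (nat_lit 5) (nat_lit 4) (nat_lit 341) (nat_lit 231) (nat_lit 208)) (XT.nd (nat_lit 78) (nat_lit 0) (nat_lit 0) (XT.lf (nat_lit 0) (nat_lit 1522753112) (nat_lit 76) (nat_lit 1158706801) (nat_lit 152) (nat_lit 62266211949) (nat_lit 2) (nat_lit 5) (nat_lit 3) (nat_lit 5) (nat_lit 4) (nat_lit 4) (nat_lit 342) (nat_lit 231) (nat_lit 207)) (XT.lf (nat_lit 0) (nat_lit 5632827204) (nat_lit 152)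 (nat_lit 60639708653) (nat_lit 0) (nat_lit 1766834966) (nat_lit 2) (nat_lit 5) (nat_lit 4) (nat_lit 4) (nat_lit 2) (nat_lit 4) (nat_lit 343) (nat_lit 231) (nat_lit 206)))))) (XT.nd (nat_lit 390) (nat_lit 0) (nat_lit 0) (XT.nd (nat_lit 156) (nat_lit 0) (nat_lit 0) (XT.nd (nat_lit 78) (nat_lit 0) (nat_lit 0) (XT.lf (nat_lit 0) (nat_lit 8694902071) (nat_lit 152) (nat_lit 57840850505) (nat_lit 0) (nat_lit 4751765035) (nat_lit 2) (nat_lit 5) (nat_lit 4) (nat_lit 4) (nat_lit 2) (nat_lit 4) (nat_lit 344) (nat_lit 231) (nat_lit 205)) (XT.lf (nat_lit 0) (nat_lit 11856884507) (nat_lit 152) (nat_lit 55003589697) (nat_lit 0) (nat_lit 7840276236) (nat_lit 2) (nat_lit 5) (nat_lit 4) (nat_lit 4) (nat_lit 2) (nat_lit 4) (nat_lit 345) (nat_lit 231) (nat_lit 204))) (XT.nd (nat_lit 78) (nat_lit 0) (nat_lit 0) (XT.lf (nat_lit 0) (nat_lit 15126303043) (nat_lit 152) (nat_lit 52121170848) (nat_lit 0) (nat_lit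 11039722166) (nat_lit 2) (nat_lit 5) (nat_lit 4) (nat_lit 4) (nat_lit 2) (nat_lit 4) (nat_lit 346) (nat_lit 231) (nat_lit 203)) (XT.nd (nat_lit 78) (nat_lit 0) (nat_lit 0) (XT.lf (nat_lit 0) (nat_lit 18510942008) (nat_lit 152) (nat_lit 49186731055) (nat_lit 0) (nat_lit 14357720555) (nat_lit 2) (nat_lit 5) (nat_lit 4) (nat_lit 4) (nat_lit 2) (nat_lit 4) (nat_lit 347) (nat_lit 231) (nat_lit 202)) (XT.lf (nat_lit 0) (nat_lit 22018860067) (nat_lit 152) (nat_lit 46193283556) (nat_lit 0) (nat_lit 17802171398) (nat_lit 2) (nat_lit 5) (nat_lit 4) (nat_lit 4) (nat_lit 2) (nat_lit 4) (nat_lit 348) (nat_lit 231) (nat_lit 201))))) (XT.nd (nat_lit 156) (nat_lit 0) (nat_lit 0) (XT.nd (nat_lit 78) (nat_lit 0) (nat_lit 0) (XT.lf (nat_lit 0) (nat_lit 25658409405) (nat_lit 152) (nat_lit 43133701097) (nat_lit 0) (nat_lit 21381275769) (nat_lit 2) (nat_lit 5) (nat_lit 4) (nat_lit 4) (nat_lit 2) (nat_lit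 4) (nat_lit 349) (nat_lit 231) (nat_lit 200)) (XT.lf (nat_lit 0) (nat_lit 29438255616) (nat_lit 152) (nat_lit 40000698955) (nat_lit 0) (nat_lit 25103555344) (nat_lit 2) (nat_lit 5) (nat_lit 4) (nat_lit 4) (nat_lit 2) (nat_lit 4) (nat_lit 350) (nat_lit 231) (nat_lit 199))) (XT.nd (nat_lit 78) (nat_lit 0) (nat_lit 0) (XT.lf (nat_lit 0) (nat_lit 33367398334) (nat_lit 152) (nat_lit 36786817604) (nat_lit 0) (nat_lit 28977872695) (nat_lit 2) (nat_lit 5) (nat_lit 4) (nat_lit 4) (nat_lit 2) (nat_lit 4) (nat_lit 351) (nat_lit 231) (nat_lit 198)) (XT.nd (nat_lit 78) (nat_lit 0) (nat_lit 0) (XT.lf (nat_lit 0) (nat_lit 37455192661) (nat_lit 152) (nat_lit 33484404944) (nat_lit 0) (nat_lit 33013452386) (nat_lit 2) (nat_lit 5) (nat_lit 4) (nat_lit 4) (nat_lit 2) (nat_lit 4) (nat_lit 352) (nat_lit 231) (nat_lit 197)) (XT.lf (nat_lit 0) (nat_lit 41711371440) (nat_lit 152) (nat_lit 30085598087) (nat_lit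 0) (nat_lit 37219902941) (nat_lit 2) (nat_lit 5) (nat_lit 4) (nat_lit 4) (nat_lit 2) (nat_lit 4) (nat_lit 353) (nat_lit 231) (nat_lit 196))))))))
noncomputable def xc34 : XT := (XT.nd (nat_lit 1560) (nat_lit 0) (nat_lit 0) (XT.nd (nat_lit 780) (nat_lit 0) (nat_lit 0) (XT.nd (nat_lit 390) (nat_lit 76) (nat_lit 0) (XT.nd (nat_lit 156) (nat_lit 0) (nat_lit 0) (XT.nd (nat_lit 78) (nat_lit 0) (nat_lit 0) (XT.lf (nat_lit 0) (nat_lit 46146068430) (nat_lit 152) (nat_lit 26582304638) (nat_lit 0) (nat_lit 41607239718) (nat_lit 2) (nat_lit 5) (nat_lit 4) (nat_lit 4) (nat_lit 2) (nat_lit 4) (nat_lit 354) (nat_lit 231) (nat_lit 195)) (XT.lf (nat_lit 0) (nat_lit 50769842434) (nat_lit 152) (nat_lit 22966183420) (nat_lit 0) (nat_lit 46185908756) (nat_lit 2) (nat_lit 5) (nat_lit 4) (nat_lit 4) (nat_lit 2) (nat_lit 4) (nat_lit 355) (nat_lit 231) (nat_lit 194))) (XT.nd (nat_lit 78) (nat_lit 0) (nat_lit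 0) (XT.lf (nat_lit 0) (nat_lit 55593702437) (nat_lit 152) (nat_lit 19228624621) (nat_lit 0) (nat_lit 50966811649) (nat_lit 2) (nat_lit 5) (nat_lit 4) (nat_lit 4) (nat_lit 2) (nat_lit 4) (nat_lit 356) (nat_lit 231) (nat_lit 193)) (XT.nd (nat_lit 78) (nat_lit 0) (nat_lit 0) (XT.lf (nat_lit 0) (nat_lit 60629133820) (nat_lit 152) (nat_lit 15360729293) (nat_lit 0) (nat_lit 55961331499) (nat_lit 2) (nat_lit 5) (nat_lit 4) (nat_lit 4) (nat_lit 2) (nat_lit 4) (nat_lit 357) (nat_lit 231) (nat_lit 192)) (XT.lf (nat_lit 0) (nat_lit 65888125706) (nat_lit 152) (nat_lit 11353288159) (nat_lit 0) (nat_lit 61181360020) (nat_lit 2) (nat_lit 5) (nat_lit 4) (nat_lit 4) (nat_lit 2) (nat_lit 4) (nat_lit 358) (nat_lit 231) (nat_lit 191))))) (XT.nd (nat_lit 156) (nat_lit 76) (nat_lit 0) (XT.nd (nat_lit 78) (nat_lit 0) (nat_lit 0) (XT.lf (nat_lit 0) (nat_lit 71383199504) (nat_lit 152) (nat_lit 7196759694) (nat_lit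 0) (nat_lit 66639325852) (nat_lit 2) (nat_lit 5) (nat_lit 4) (nat_lit 4) (nat_lit 2) (nat_lit 4) (nat_lit 359) (nat_lit 231) (nat_lit 190)) (XT.lf (nat_lit 0) (nat_lit 77127438723) (nat_lit 152) (nat_lit 2881247402) (nat_lit 0) (nat_lit 72348224150) (nat_lit 2) (nat_lit 5) (nat_lit 4) (nat_lit 4) (nat_lit 2) (nat_lit 4) (nat_lit 360) (nat_lit 231) (nat_lit 189))) (XT.nd (nat_lit 78) (nat_lit 0) (nat_lit 0) (XT.lf (nat_lit 0) (nat_lit 1656543483) (nat_lit 76) (nat_lit 81503839925) (nat_lit 76) (nat_lit 76690967333) (nat_lit 1) (nat_lit 4) (nat_lit 2) (nat_lit 5) (nat_lit 2) (nat_lit 4) (nat_lit 361) (nat_lit 231) (nat_lit 188)) (XT.nd (nat_lit 78) (nat_lit 0) (nat_lit 0) (XT.lf (nat_lit 0) (nat_lit 6475487830) (nat_lit 76) (nat_lit 83044358960) (nat_lit 76) (nat_lit 78199431111) (nat_lit 1) (nat_lit 4) (nat_lit 2) (nat_lit 5) (nat_lit 2) (nat_lit 4) (nat_lit 362) (nat_lit 231) (nat_lit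 187)) (XT.lf (nat_lit 0) (nat_lit 11491792263) (nat_lit 76) (nat_lit 84682706452) (nat_lit 76) (nat_lit 79807249787) (nat_lit 1) (nat_lit 4) (nat_lit 2) (nat_lit 5) (nat_lit 2) (nat_lit 4) (nat_lit 363) (nat_lit 231) (nat_lit 186)))))) (XT.nd (nat_lit 390) (nat_lit 0) (nat_lit 0) (XT.nd (nat_lit 156) (nat_lit 0) (nat_lit 0) (XT.nd (nat_lit 78) (nat_lit 0) (nat_lit 0) (XT.lf (nat_lit 0) (nat_lit 16717400364) (nat_lit 76) (nat_lit 86422783227) (nat_lit 76) (nat_lit 81518251499) (nat_lit 1) (nat_lit 4) (nat_lit 2) (nat_lit 5) (nat_lit 2) (nat_lit 4) (nat_lit 364) (nat_lit 231) (nat_lit 185)) (XT.lf (nat_lit 0) (nat_lit 22164754058) (nat_lit 76) (nat_lit 88268732327) (nat_lit 76) (nat_lit 83336510063) (nat_lit 1) (nat_lit 4) (nat_lit 2) (nat_lit 5) (nat_lit 2) (nat_lit 4) (nat_lit 365) (nat_lit 231) (nat_lit 184))) (XT.nd (nat_lit 78) (nat_lit 0) (nat_lit 0) (XT.lf (nat_lit 0) (nat_lit 27846823234)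 (nat_lit 76) (nat_lit 90224948867) (nat_lit 76) (nat_lit 85266354664) (nat_lit 1) (nat_lit 4) (nat_lit 2) (nat_lit 5) (nat_lit 2) (nat_lit 4) (nat_lit 366) (nat_lit 231) (nat_lit 183)) (XT.nd (nat_lit 78) (nat_lit 0) (nat_lit 0) (XT.lf (nat_lit 0) (nat_lit 33777136629) (nat_lit 76) (nat_lit 92296090506) (nat_lit 76) (nat_lit 87312380171) (nat_lit 1) (nat_lit 4) (nat_lit 2) (nat_lit 5) (nat_lit 2) (nat_lit 4) (nat_lit 367) (nat_lit 231) (nat_lit 182)) (XT.lf (nat_lit 0) (nat_lit 39969814035) (nat_lit 76) (nat_lit 94487088535) (nat_lit 76) (nat_lit 89479458073) (nat_lit 1) (nat_lit 4) (nat_lit 2) (nat_lit 5) (nat_lit 2) (nat_lit 4) (nat_lit 368) (nat_lit 231) (nat_lit 181))))) (XT.nd (nat_lit 156) (nat_lit 0) (nat_lit 0) (XT.nd (nat_lit 78) (nat_lit 0) (nat_lit 0) (XT.lf (nat_lit 0) (nat_lit 46439599924) (nat_lit 76) (nat_lit 96803159614) (nat_lit 76) (nat_lit 91772748080) (nat_lit 1)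 (nat_lit 4) (nat_lit 2) (nat_lit 5) (nat_lit 2) (nat_lit 4) (nat_lit 369) (nat_lit 231) (nat_lit 180)) (XT.lf (nat_lit 0) (nat_lit 53201898547) (nat_lit 76) (nat_lit 99249818199) (nat_lit 76) (nat_lit 94197710405) (nat_lit 1) (nat_lit 4) (nat_lit 2) (nat_lit 5) (nat_lit 2) (nat_lit 4) (nat_lit 370) (nat_lit 231) (nat_lit 179))) (XT.nd (nat_lit 78) (nat_lit 0) (nat_lit 0) (XT.lf (nat_lit 0) (nat_lit 60272810615) (nat_lit 76) (nat_lit 101832889667) (nat_lit 76) (nat_lit 96760118769) (nat_lit 1) (nat_lit 4) (nat_lit 2) (nat_lit 5) (nat_lit 2) (nat_lit 4) (nat_lit 371) (nat_lit 231) (nat_lit 178)) (XT.nd (nat_lit 78) (nat_lit 0) (nat_lit 0) (XT.lf (nat_lit 0) (nat_lit 67669171634) (nat_lit 76) (nat_lit 104558524188) (nat_lit 76) (nat_lit 99466074143) (nat_lit 1) (nat_lit 4) (nat_lit 2) (nat_lit 5) (nat_lit 2) (nat_lit 4) (nat_lit 372) (nat_lit 231) (nat_lit 177)) (XT.lf (nat_lit 0) (nat_lit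 75408591986) (nat_lit 76) (nat_lit 107433211369) (nat_lit 76) (nat_lit 102322019280) (nat_lit 1) (nat_lit 4) (nat_lit 2) (nat_lit 5) (nat_lit 2) (nat_lit 4) (nat_lit 373) (nat_lit 231) (nat_lit 176))))))) (XT.nd (nat_lit 780) (nat_lit 0) (nat_lit 0) (XT.nd (nat_lit 390) (nat_lit 0) (nat_lit 0) (XT.nd (nat_lit 156) (nat_lit 0) (nat_lit 0) (XT.nd (nat_lit 78) (nat_lit 0) (nat_lit 0) (XT.lf (nat_lit 0) (nat_lit 83509498863) (nat_lit 76) (nat_lit 110463795703) (nat_lit 76) (nat_lit 105334754047) (nat_lit 1) (nat_lit 4) (nat_lit 2) (nat_lit 5) (nat_lit 2) (nat_lit 4) (nat_lit 374) (nat_lit 231) (nat_lit 175)) (XT.lf (nat_lit 0) (nat_lit 91991180138) (nat_lit 76) (nat_lit 113657492867) (nat_lit 76) (nat_lit 108511451624) (nat_lit 1) (nat_lit 4) (nat_lit 2) (nat_lit 5) (nat_lit 2) (nat_lit 4) (nat_lit 375) (nat_lit 231) (nat_lit 174))) (XT.nd (nat_lit 78) (nat_lit 0) (nat_lit 0) (XT.lf (nat_lit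 0) (nat_lit 100873830291) (nat_lit 76) (nat_lit 117021906901) (nat_lit 76) (nat_lit 111859675575) (nat_lit 1) (nat_lit 4) (nat_lit 2) (nat_lit 5) (nat_lit 2) (nat_lit 4) (nat_lit 376) (nat_lit 231) (nat_lit 173)) (XT.nd (nat_lit 78) (nat_lit 0) (nat_lit 0) (XT.lf (nat_lit 0) (nat_lit 110178598489) (nat_lit 76) (nat_lit 120565048316) (nat_lit 76) (nat_lit 115387397863) (nat_lit 1) (nat_lit 4) (nat_lit 2) (nat_lit 5) (nat_lit 2) (nat_lit 4) (nat_lit 377) (nat_lit 231) (nat_lit 172)) (XT.lf (nat_lit 0) (nat_lit 119927638941) (nat_lit 76) (nat_lit 124295353161) (nat_lit 76) (nat_lit 119103017826) (nat_lit 1) (nat_lit 4) (nat_lit 2) (nat_lit 5) (nat_lit 2) (nat_lit 4) (nat_lit 378) (nat_lit 231) (nat_lit 171))))) (XT.nd (nat_lit 156) (nat_lit 0) (nat_lit 0) (XT.nd (nat_lit 78) (nat_lit 0) (nat_lit 0) (XT.lf (nat_lit 0) (nat_lit 130144163649) (nat_lit 76) (nat_lit 128221703116) (nat_lit 76)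 (nat_lit 123015382179) (nat_lit 1) (nat_lit 4) (nat_lit 2) (nat_lit 5) (nat_lit 2) (nat_lit 4) (nat_lit 379) (nat_lit 231) (nat_lit 170)) (XT.lf (nat_lit 0) (nat_lit 140852497672) (nat_lit 76) (nat_lit 132353446633) (nat_lit 76) (nat_lit 127133806075) (nat_lit 1) (nat_lit 4) (nat_lit 2) (nat_lit 5) (nat_lit 2) (nat_lit 4) (nat_lit 380) (nat_lit 231) (nat_lit 169))) (XT.nd (nat_lit 78) (nat_lit 0) (nat_lit 0) (XT.lf (nat_lit 0) (nat_lit 152078137042) (nat_lit 76) (nat_lit 136700421196) (nat_lit 76) (nat_lit 131468095284) (nat_lit 1) (nat_lit 4) (nat_lit 2) (nat_lit 5) (nat_lit 2) (nat_lit 4) (nat_lit 381) (nat_lit 231) (nat_lit 168)) (XT.nd (nat_lit 78) (nat_lit 0) (nat_lit 0) (XT.lf (nat_lit 0) (nat_lit 163847809473) (nat_lit 76) (nat_lit 141272976745) (nat_lit 76) (nat_lit 136028569544) (nat_lit 1) (nat_lit 4) (nat_lit 2) (nat_lit 5) (nat_lit 2) (nat_lit 4) (nat_lit 382) (nat_lit 231)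 (nat_lit 167)) (XT.lf (nat_lit 0) (nat_lit 176189537995) (nat_lit 76) (nat_lit 146082000317) (nat_lit 76) (nat_lit 140826087126) (nat_lit 1) (nat_lit 4) (nat_lit 2) (nat_lit 5) (nat_lit 2) (nat_lit 4) (nat_lit 383) (nat_lit 231) (nat_lit 166)))))) (XT.nd (nat_lit 390) (nat_lit 0) (nat_lit 0) (XT.nd (nat_lit 156) (nat_lit 0) (nat_lit 0) (XT.nd (nat_lit 78) (nat_lit 0) (nat_lit 0) (XT.lf (nat_lit 0) (nat_lit 189132707675) (nat_lit 76) (nat_lit 151138941967) (nat_lit 76) (nat_lit 145872070691) (nat_lit 1) (nat_lit 4) (nat_lit 2) (nat_lit 5) (nat_lit 2) (nat_lit 4) (nat_lit 384) (nat_lit 231) (nat_lit 165)) (XT.lf (nat_lit 0) (nat_lit 202708135584) (nat_lit 76) (nat_lit 156455842034) (nat_lit 76) (nat_lit 151178534485) (nat_lit 1) (nat_lit 4) (nat_lit 2) (nat_lit 5) (nat_lit 2) (nat_lit 4) (nat_lit 385) (nat_lit 231) (nat_lit 164))) (XT.nd (nat_lit 78) (nat_lit 0) (nat_lit 0) (XT.lf (nat_lit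 0) (nat_lit 216948144169) (nat_lit 76) (nat_lit 162045359802) (nat_lit 76) (nat_lit 156758112947) (nat_lit 1) (nat_lit 4) (nat_lit 2) (nat_lit 5) (nat_lit 2) (nat_lit 4) (nat_lit 386) (nat_lit 231) (nat_lit 163)) (XT.nd (nat_lit 78) (nat_lit 0) (nat_lit 0) (XT.lf (nat_lit 0) (nat_lit 231886638213) (nat_lit 76) (nat_lit 167920803648) (nat_lit 76) (nat_lit 162624090787) (nat_lit 1) (nat_lit 4) (nat_lit 2) (nat_lit 5) (nat_lit 2) (nat_lit 4) (nat_lit 387) (nat_lit 231) (nat_lit 162)) (XT.lf (nat_lit 0) (nat_lit 247559185558) (nat_lit 76) (nat_lit 174096162724) (nat_lit 76) (nat_lit 168790434619) (nat_lit 1) (nat_lit 4) (nat_lit 2) (nat_lit 5) (nat_lit 2) (nat_lit 4) (nat_lit 388) (nat_lit 231) (nat_lit 161))))) (XT.nd (nat_lit 34944) (nat_lit 0) (nat_lit 684) (XT.nd (nat_lit 78) (nat_lit 0) (nat_lit 0) (XT.lf (nat_lit 0) (nat_lit 264003101794) (nat_lit 76) (nat_lit 180586140265) (nat_lit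 76) (nat_lit 175271826213) (nat_lit 1) (nat_lit 4) (nat_lit 2) (nat_lit 5) (nat_lit 2) (nat_lit 4) (nat_lit 389) (nat_lit 231) (nat_lit 160)) (XT.lf (nat_lit 0) (nat_lit 281257539102) (nat_lit 76) (nat_lit 187406188599) (nat_lit 76) (nat_lit 182083697456) (nat_lit 1) (nat_lit 4) (nat_lit 2) (nat_lit 5) (nat_lit 2) (nat_lit 4) (nat_lit 390) (nat_lit 231) (nat_lit 159))) (XT.nd (nat_lit 78) (nat_lit 76) (nat_lit 0) (XT.lf (nat_lit 0) (nat_lit 3073221898) (nat_lit 152) (nat_lit 4430119902) (nat_lit 0) (nat_lit 3073221898) (nat_lit 11) (nat_lit 5) (nat_lit 13) (nat_lit 4) (nat_lit 11) (nat_lit 4) (nat_lit 316) (nat_lit 232) (nat_lit 232)) (XT.nd (nat_lit 78) (nat_lit 76) (nat_lit 0) (XT.lf (nat_lit 0) (nat_lit 10711231044) (nat_lit 152) (nat_lit 873846363) (nat_lit 0) (nat_lit 10393692597) (nat_lit 11) (nat_lit 5) (nat_lit 13) (nat_lit 4) (nat_lit 11) (nat_lit 4) (nat_lit 317) (nat_lit 232)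 (nat_lit 231)) (XT.lf (nat_lit 0) (nat_lit 7486024167) (nat_lit 76) (nat_lit 7990544407) (nat_lit 76) (nat_lit 7370588392) (nat_lit 10) (nat_lit 4) (nat_lit 11) (nat_lit 5) (nat_lit 11) (nat_lit 4) (nat_lit 318) (nat_lit 232) (nat_lit 230))))))))
noncomputable def xc35 : XT := (XT.nd (nat_lit 1560) (nat_lit 152) (nat_lit 0) (XT.nd (nat_lit 780) (nat_lit 76) (nat_lit 0) (XT.nd (nat_lit 390) (nat_lit 228) (nat_lit 0) (XT.nd (nat_lit 156) (nat_lit 0) (nat_lit 0) (XT.nd (nat_lit 78) (nat_lit 152) (nat_lit 0) (XT.lf (nat_lit 0) (nat_lit 16033065415) (nat_lit 76) (nat_lit 4320146368) (nat_lit 76) (nat_lit 3412173621) (nat_lit 10) (nat_lit 4) (nat_lit 11) (nat_lit 5) (nat_lit 11) (nat_lit 4) (nat_lit 319) (nat_lit 232) (nat_lit 229)) (XT.lf (nat_lit 0) (nat_lit 13413104) (nat_lit 76) (nat_lit 569849091) (nat_lit 152) (nat_lit 24152603424) (nat_lit 8) (nat_lit 5) (nat_lit 9) (nat_lit 5) (nat_lit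 10) (nat_lit 4) (nat_lit 320) (nat_lit 232) (nat_lit 228))) (XT.nd (nat_lit 78) (nat_lit 0) (nat_lit 0) (XT.lf (nat_lit 0) (nat_lit 4713044799) (nat_lit 152) (nat_lit 17698360340) (nat_lit 0) (nat_lit 3338269502) (nat_lit 8) (nat_lit 5) (nat_lit 10) (nat_lit 4) (nat_lit 8) (nat_lit 4) (nat_lit 321) (nat_lit 232) (nat_lit 227)) (XT.nd (nat_lit 78) (nat_lit 0) (nat_lit 0) (XT.lf (nat_lit 0) (nat_lit 8928720943) (nat_lit 152) (nat_lit 10574550321) (nat_lit 0) (nat_lit 7316993569) (nat_lit 8) (nat_lit 5) (nat_lit 10) (nat_lit 4) (nat_lit 8) (nat_lit 4) (nat_lit 322) (nat_lit 232) (nat_lit 226)) (XT.lf (nat_lit 0) (nat_lit 13231431011) (nat_lit 152) (nat_lit 3325164062) (nat_lit 0) (nat_lit 11394034990) (nat_lit 8) (nat_lit 5) (nat_lit 10) (nat_lit 4) (nat_lit 8) (nat_lit 4) (nat_lit 323) (nat_lit 232) (nat_lit 225))))) (XT.nd (nat_lit 156) (nat_lit 152) (nat_lit 0) (XT.nd (nat_lit 78) (nat_lit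 0) (nat_lit 0) (XT.lf (nat_lit 0) (nat_lit 4201534213) (nat_lit 76) (nat_lit 13495483059) (nat_lit 76) (nat_lit 11443164519) (nat_lit 7) (nat_lit 4) (nat_lit 8) (nat_lit 5) (nat_lit 8) (nat_lit 4) (nat_lit 324) (nat_lit 232) (nat_lit 224)) (XT.lf (nat_lit 0) (nat_lit 12003919421) (nat_lit 76) (nat_lit 10322658121) (nat_lit 76) (nat_lit 8065651467) (nat_lit 7) (nat_lit 4) (nat_lit 8) (nat_lit 5) (nat_lit 8) (nat_lit 4) (nat_lit 325) (nat_lit 232) (nat_lit 223))) (XT.nd (nat_lit 78) (nat_lit 152) (nat_lit 0) (XT.lf (nat_lit 0) (nat_lit 19990623730) (nat_lit 76) (nat_lit 7086879177) (nat_lit 76) (nat_lit 4634931462) (nat_lit 7) (nat_lit 4) (nat_lit 8) (nat_lit 5) (nat_lit 8) (nat_lit 4) (nat_lit 326) (nat_lit 232) (nat_lit 222)) (XT.nd (nat_lit 78) (nat_lit 152) (nat_lit 0) (XT.lf (nat_lit 0) (nat_lit 28180663101) (nat_lit 76) (nat_lit 3780441990) (nat_lit 76) (nat_lit 1142836122) (nat_lit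 7) (nat_lit 4) (nat_lit 8) (nat_lit 5) (nat_lit 8) (nat_lit 4) (nat_lit 327) (nat_lit 232) (nat_lit 221)) (XT.lf (nat_lit 0) (nat_lit 2051364886) (nat_lit 76) (nat_lit 322190256) (nat_lit 152) (nat_lit 32193017805) (nat_lit 5) (nat_lit 5) (nat_lit 6) (nat_lit 5) (nat_lit 7) (nat_lit 4) (nat_lit 328) (nat_lit 232) (nat_lit 220)))))) (XT.nd (nat_lit 390) (nat_lit 76) (nat_lit 0) (XT.nd (nat_lit 156) (nat_lit 0) (nat_lit 0) (XT.nd (nat_lit 78) (nat_lit 0) (nat_lit 0) (XT.lf (nat_lit 0) (nat_lit 6062761958) (nat_lit 152) (nat_lit 26814928209) (nat_lit 0) (nat_lit 3221980458) (nat_lit 5) (nat_lit 5) (nat_lit 7) (nat_lit 4) (nat_lit 5) (nat_lit 4) (nat_lit 329) (nat_lit 232) (nat_lit 219)) (XT.lf (nat_lit 0) (nat_lit 9845516125) (nat_lit 152) (nat_lit 21016498787) (nat_lit 0) (nat_lit 6851993203) (nat_lit 5) (nat_lit 5) (nat_lit 7) (nat_lit 4) (nat_lit 5) (nat_lit 4) (nat_lit 330) (nat_lit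 232) (nat_lit 218))) (XT.nd (nat_lit 78) (nat_lit 0) (nat_lit 0) (XT.lf (nat_lit 0) (nat_lit 13725793909) (nat_lit 152) (nat_lit 15101083718) (nat_lit 0) (nat_lit 10586802966) (nat_lit 5) (nat_lit 5) (nat_lit 7) (nat_lit 4) (nat_lit 5) (nat_lit 4) (nat_lit 331) (nat_lit 232) (nat_lit 217)) (XT.nd (nat_lit 78) (nat_lit 0) (nat_lit 0) (XT.lf (nat_lit 0) (nat_lit 17712834067) (nat_lit 152) (nat_lit 9054598682) (nat_lit 0) (nat_lit 14435302151) (nat_lit 5) (nat_lit 5) (nat_lit 7) (nat_lit 4) (nat_lit 5) (nat_lit 4) (nat_lit 332) (nat_lit 232) (nat_lit 216)) (XT.lf (nat_lit 0) (nat_lit 21816129551) (nat_lit 152) (nat_lit 2862647286) (nat_lit 0) (nat_lit 18406653852) (nat_lit 5) (nat_lit 5) (nat_lit 7) (nat_lit 4) (nat_lit 5) (nat_lit 4) (nat_lit 333) (nat_lit 232) (nat_lit 215))))) (XT.nd (nat_lit 156) (nat_lit 0) (nat_lit 0) (XT.nd (nat_lit 78) (nat_lit 0) (nat_lit 0) (XT.lf (nat_lit 0)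 (nat_lit 3604892278) (nat_lit 76) (nat_lit 22496840305) (nat_lit 76) (nat_lit 18961703860) (nat_lit 4) (nat_lit 4) (nat_lit 5) (nat_lit 5) (nat_lit 5) (nat_lit 4) (nat_lit 334) (nat_lit 232) (nat_lit 214)) (XT.lf (nat_lit 0) (nat_lit 10348214495) (nat_lit 76) (nat_lit 20224215697) (nat_lit 76) (nat_lit 16569402351) (nat_lit 4) (nat_lit 4) (nat_lit 5) (nat_lit 5) (nat_lit 5) (nat_lit 4) (nat_lit 335) (nat_lit 232) (nat_lit 213))) (XT.nd (nat_lit 78) (nat_lit 0) (nat_lit 0) (XT.lf (nat_lit 0) (nat_lit 17288722844) (nat_lit 76) (nat_lit 17903972318) (nat_lit 76) (nat_lit 14135180971) (nat_lit 4) (nat_lit 4) (nat_lit 5) (nat_lit 5) (nat_lit 5) (nat_lit 4) (nat_lit 336) (nat_lit 232) (nat_lit 212)) (XT.nd (nat_lit 78) (nat_lit 0) (nat_lit 0) (XT.lf (nat_lit 0) (nat_lit 24442942348) (nat_lit 76) (nat_lit 15530585779) (nat_lit 76) (nat_lit 11653243955) (nat_lit 4) (nat_lit 4) (nat_lit 5) (nat_lit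 5) (nat_lit 5) (nat_lit 4) (nat_lit 337) (nat_lit 232) (nat_lit 211)) (XT.lf (nat_lit 0) (nat_lit 31827906860) (nat_lit 76) (nat_lit 13098405161) (nat_lit 76) (nat_lit 9117681930) (nat_lit 4) (nat_lit 4) (nat_lit 5) (nat_lit 5) (nat_lit 5) (nat_lit 4) (nat_lit 338) (nat_lit 232) (nat_lit 210))))))) (XT.nd (nat_lit 780) (nat_lit 0) (nat_lit 0) (XT.nd (nat_lit 390) (nat_lit 0) (nat_lit 0) (XT.nd (nat_lit 156) (nat_lit 152) (nat_lit 0) (XT.nd (nat_lit 78) (nat_lit 0) (nat_lit 0) (XT.lf (nat_lit 0) (nat_lit 39461199630) (nat_lit 76) (nat_lit 10601639556) (nat_lit 76) (nat_lit 6522457843) (nat_lit 4) (nat_lit 4) (nat_lit 5) (nat_lit 5) (nat_lit 5) (nat_lit 4) (nat_lit 339) (nat_lit 232) (nat_lit 209)) (XT.lf (nat_lit 0) (nat_lit 47360995166) (nat_lit 76) (nat_lit 8034344286) (nat_lit 76) (nat_lit 3861392589) (nat_lit 4) (nat_lit 4) (nat_lit 5) (nat_lit 5) (nat_lit 5) (nat_lit 4) (nat_lit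 340) (nat_lit 232) (nat_lit 208))) (XT.nd (nat_lit 78) (nat_lit 152) (nat_lit 0) (XT.lf (nat_lit 0) (nat_lit 55546102502) (nat_lit 76) (nat_lit 5390406741) (nat_lit 76) (nat_lit 1128150299) (nat_lit 4) (nat_lit 4) (nat_lit 5) (nat_lit 5) (nat_lit 5) (nat_lit 4) (nat_lit 341) (nat_lit 232) (nat_lit 207)) (XT.nd (nat_lit 78) (nat_lit 76) (nat_lit 0) (XT.lf (nat_lit 0) (nat_lit 1629885376) (nat_lit 152) (nat_lit 1006043559) (nat_lit 76) (nat_lit 62378521717) (nat_lit 3) (nat_lit 5) (nat_lit 5) (nat_lit 5) (nat_lit 4) (nat_lit 4) (nat_lit 342) (nat_lit 232) (nat_lit 206)) (XT.lf (nat_lit 0) (nat_lit 4514449751) (nat_lit 152) (nat_lit 63298038619) (nat_lit 0) (nat_lit 297011066) (nat_lit 2) (nat_lit 5) (nat_lit 4) (nat_lit 4) (nat_lit 2) (nat_lit 4) (nat_lit 343) (nat_lit 232) (nat_lit 205))))) (XT.nd (nat_lit 156) (nat_lit 0) (nat_lit 0) (XT.nd (nat_lit 78) (nat_lit 0) (nat_lit 0) (XT.lf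 (nat_lit 0) (nat_lit 7550575265) (nat_lit 152) (nat_lit 60548712299) (nat_lit 0) (nat_lit 3259665344) (nat_lit 2) (nat_lit 5) (nat_lit 4) (nat_lit 4) (nat_lit 2) (nat_lit 4) (nat_lit 344) (nat_lit 232) (nat_lit 204)) (XT.lf (nat_lit 0) (nat_lit 10687844032) (nat_lit 152) (nat_lit 57758624662) (nat_lit 0) (nat_lit 6326961506) (nat_lit 2) (nat_lit 5) (nat_lit 4) (nat_lit 4) (nat_lit 2) (nat_lit 4) (nat_lit 345) (nat_lit 232) (nat_lit 203))) (XT.nd (nat_lit 78) (nat_lit 0) (nat_lit 0) (XT.lf (nat_lit 0) (nat_lit 13933725740) (nat_lit 152) (nat_lit 54921132641) (nat_lit 0) (nat_lit 9506202637) (nat_lit 2) (nat_lit 5) (nat_lit 4) (nat_lit 4) (nat_lit 2) (nat_lit 4) (nat_lit 346) (nat_lit 232) (nat_lit 202)) (XT.nd (nat_lit 78) (nat_lit 0) (nat_lit 0) (XT.lf (nat_lit 0) (nat_lit 17295948678) (nat_lit 152) (nat_lit 52029480304) (nat_lit 0) (nat_lit 12804958360) (nat_lit 2) (nat_lit 5) (nat_lit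 4) (nat_lit 4) (nat_lit 2) (nat_lit 4) (nat_lit 347) (nat_lit 232) (nat_lit 201)) (XT.lf (nat_lit 0) (nat_lit 20782518140) (nat_lit 152) (nat_lit 49076782763) (nat_lit 0) (nat_lit 16231082855) (nat_lit 2) (nat_lit 5) (nat_lit 4) (nat_lit 4) (nat_lit 2) (nat_lit 4) (nat_lit 348) (nat_lit 232) (nat_lit 200)))))) (XT.nd (nat_lit 390) (nat_lit 0) (nat_lit 0) (XT.nd (nat_lit 156) (nat_lit 0) (nat_lit 0) (XT.nd (nat_lit 78) (nat_lit 0) (nat_lit 0) (XT.lf (nat_lit 0) (nat_lit 24401735481) (nat_lit 152) (nat_lit 46056009787) (nat_lit 0) (nat_lit 19792733560) (nat_lit 2) (nat_lit 5) (nat_lit 4) (nat_lit 4) (nat_lit 2) (nat_lit 4) (nat_lit 349) (nat_lit 232) (nat_lit 199)) (XT.lf (nat_lit 0) (nat_lit 28162217886) (nat_lit 152) (nat_lit 42959969059) (nat_lit 0) (nat_lit 23498390597) (nat_lit 2) (nat_lit 5) (nat_lit 4) (nat_lit 4) (nat_lit 2) (nat_lit 4) (nat_lit 350) (nat_lit 232) (nat_lit 198)))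 (XT.nd (nat_lit 78) (nat_lit 0) (nat_lit 0) (XT.lf (nat_lit 0) (nat_lit 32072918883) (nat_lit 152) (nat_lit 39781289053) (nat_lit 0) (nat_lit 27356876959) (nat_lit 2) (nat_lit 5) (nat_lit 4) (nat_lit 4) (nat_lit 2) (nat_lit 4) (nat_lit 351) (nat_lit 232) (nat_lit 197)) (XT.nd (nat_lit 78) (nat_lit 0) (nat_lit 0) (XT.lf (nat_lit 0) (nat_lit 36143149666) (nat_lit 152) (nat_lit 36512401484) (nat_lit 0) (nat_lit 31377379518) (nat_lit 2) (nat_lit 5) (nat_lit 4) (nat_lit 4) (nat_lit 2) (nat_lit 4) (nat_lit 352) (nat_lit 232) (nat_lit 196)) (XT.lf (nat_lit 0) (nat_lit 40382601261) (nat_lit 152) (nat_lit 33145523286) (nat_lit 0) (nat_lit 35569470899) (nat_lit 2) (nat_lit 5) (nat_lit 4) (nat_lit 4) (nat_lit 2) (nat_lit 4) (nat_lit 353) (nat_lit 232) (nat_lit 195))))) (XT.nd (nat_lit 234) (nat_lit 0) (nat_lit 0) (XT.nd (nat_lit 78) (nat_lit 0) (nat_lit 0) (XT.lf (nat_lit 0) (nat_lit 44801367600)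 (nat_lit 152) (nat_lit 29672638083) (nat_lit 0) (nat_lit 39943132272) (nat_lit 2) (nat_lit 5) (nat_lit 4) (nat_lit 4) (nat_lit 2) (nat_lit 4) (nat_lit 354) (nat_lit 232) (nat_lit 194)) (XT.nd (nat_lit 78) (nat_lit 0) (nat_lit 0) (XT.lf (nat_lit 0) (nat_lit 49409969554) (nat_lit 152) (nat_lit 26085477099) (nat_lit 0) (nat_lit 44508777117) (nat_lit 2) (nat_lit 5) (nat_lit 4) (nat_lit 4) (nat_lit 2) (nat_lit 4) (nat_lit 355) (nat_lit 232) (nat_lit 193)) (XT.lf (nat_lit 0) (nat_lit 54219379987) (nat_lit 152) (nat_lit 22375499476) (nat_lit 0) (nat_lit 49277276016) (nat_lit 2) (nat_lit 5) (nat_lit 4) (nat_lit 4) (nat_lit 2) (nat_lit 4) (nat_lit 356) (nat_lit 232) (nat_lit 192)))) (XT.nd (nat_lit 78) (nat_lit 0) (nat_lit 0) (XT.lf (nat_lit 0) (nat_lit 59241049874) (nat_lit 152) (nat_lit 18533871933) (nat_lit 0) (nat_lit 54259982539) (nat_lit 2) (nat_lit 5) (nat_lit 4) (nat_lit 4) (nat_lit 2)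 (nat_lit 4) (nat_lit 357) (nat_lit 232) (nat_lit 191)) (XT.nd (nat_lit 78) (nat_lit 0) (nat_lit 0) (XT.lf (nat_lit 0) (nat_lit 64486935573) (nat_lit 152) (nat_lit 14551447739) (nat_lit 0) (nat_lit 59468760272) (nat_lit 2) (nat_lit 5) (nat_lit 4) (nat_lit 4) (nat_lit 2) (nat_lit 4) (nat_lit 358) (nat_lit 232) (nat_lit 190)) (XT.lf (nat_lit 0) (nat_lit 69969527289) (nat_lit 152) (nat_lit 10418744931) (nat_lit 0) (nat_lit 64916011067) (nat_lit 2) (nat_lit 5) (nat_lit 4) (nat_lit 4) (nat_lit 2) (nat_lit 4) (nat_lit 359) (nat_lit 232) (nat_lit 189))))))))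
noncomputable def xc36 : XT := (XT.nd (nat_lit 1560) (nat_lit 0) (nat_lit 0) (XT.nd (nat_lit 780) (nat_lit 0) (nat_lit 0) (XT.nd (nat_lit 390) (nat_lit 0) (nat_lit 0) (XT.nd (nat_lit 156) (nat_lit 76) (nat_lit 0) (XT.nd (nat_lit 78) (nat_lit 0) (nat_lit 0) (XT.lf (nat_lit 0) (nat_lit 75701878810) (nat_lit 152) (nat_lit 6125923740) (nat_lit 0) (nat_lit 70614704568) (nat_lit 2) (nat_lit 5) (nat_lit 4) (nat_lit 4) (nat_lit 2) (nat_lit 4) (nat_lit 360) (nat_lit 232) (nat_lit 188)) (XT.lf (nat_lit 0) (nat_lit 81697638593) (nat_lit 152) (nat_lit 1662763163) (nat_lit 0) (nat_lit 76578409094) (nat_lit 2) (nat_lit 5) (nat_lit 4) (nat_lit 4) (nat_lit 2) (nat_lit 4) (nat_lit 361) (nat_lit 232) (nat_lit 187))) (XT.nd (nat_lit 78) (nat_lit 0) (nat_lit 0) (XT.lf (nat_lit 0) (nat_lit 3079940708) (nat_lit 76) (nat_lit 84939228054) (nat_lit 76) (nat_lit 79789469739) (nat_lit 1) (nat_lit 4) (nat_lit 2)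 (nat_lit 5) (nat_lit 2) (nat_lit 4) (nat_lit 362) (nat_lit 232) (nat_lit 186)) (XT.nd (nat_lit 78) (nat_lit 0) (nat_lit 0) (XT.lf (nat_lit 0) (nat_lit 8075995603) (nat_lit 76) (nat_lit 86587239891) (nat_lit 76) (nat_lit 81408406514) (nat_lit 1) (nat_lit 4) (nat_lit 2) (nat_lit 5) (nat_lit 2) (nat_lit 4) (nat_lit 363) (nat_lit 232) (nat_lit 185)) (XT.lf (nat_lit 0) (nat_lit 13282318430) (nat_lit 76) (nat_lit 88336520806) (nat_lit 76) (nat_lit 83129996893) (nat_lit 1) (nat_lit 4) (nat_lit 2) (nat_lit 5) (nat_lit 2) (nat_lit 4) (nat_lit 364) (nat_lit 232) (nat_lit 184))))) (XT.nd (nat_lit 156) (nat_lit 0) (nat_lit 0) (XT.nd (nat_lit 78) (nat_lit 0) (nat_lit 0) (XT.lf (nat_lit 0) (nat_lit 18711305195) (nat_lit 76) (nat_lit 90191235752) (nat_lit 76) (nat_lit 84958339900) (nat_lit 1) (nat_lit 4) (nat_lit 2) (nat_lit 5) (nat_lit 2) (nat_lit 4) (nat_lit 365) (nat_lit 232) (nat_lit 183)) (XT.lf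 (nat_lit 0) (nat_lit 24375882059) (nat_lit 76) (nat_lit 92155800718) (nat_lit 76) (nat_lit 86897788733) (nat_lit 1) (nat_lit 4) (nat_lit 2) (nat_lit 5) (nat_lit 2) (nat_lit 4) (nat_lit 366) (nat_lit 232) (nat_lit 182))) (XT.nd (nat_lit 78) (nat_lit 0) (nat_lit 0) (XT.lf (nat_lit 0) (nat_lit 30289536108) (nat_lit 76) (nat_lit 94234893239) (nat_lit 76) (nat_lit 88952961128) (nat_lit 1) (nat_lit 4) (nat_lit 2) (nat_lit 5) (nat_lit 2) (nat_lit 4) (nat_lit 367) (nat_lit 232) (nat_lit 181)) (XT.nd (nat_lit 78) (nat_lit 0) (nat_lit 0) (XT.lf (nat_lit 0) (nat_lit 36466347472) (nat_lit 76) (nat_lit 96433463535) (nat_lit 76) (nat_lit 91128750352) (nat_lit 1) (nat_lit 4) (nat_lit 2) (nat_lit 5) (nat_lit 2) (nat_lit 4) (nat_lit 368) (nat_lit 232) (nat_lit 180)) (XT.lf (nat_lit 0) (nat_lit 42921022844) (nat_lit 76) (nat_lit 98756746298) (nat_lit 76) (nat_lit 93430336855) (nat_lit 1) (nat_lit 4) (nat_lit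 2) (nat_lit 5) (nat_lit 2) (nat_lit 4) (nat_lit 369) (nat_lit 232) (nat_lit 179)))))) (XT.nd (nat_lit 390) (nat_lit 0) (nat_lit 0) (XT.nd (nat_lit 156) (nat_lit 0) (nat_lit 0) (XT.nd (nat_lit 78) (nat_lit 0) (nat_lit 0) (XT.lf (nat_lit 0) (nat_lit 49668930498) (nat_lit 76) (nat_lit 101210273153) (nat_lit 76) (nat_lit 95863200606) (nat_lit 1) (nat_lit 4) (nat_lit 2) (nat_lit 5) (nat_lit 2) (nat_lit 4) (nat_lit 370) (nat_lit 232) (nat_lit 178)) (XT.lf (nat_lit 0) (nat_lit 56726136882) (nat_lit 76) (nat_lit 103799885831) (nat_lit 76) (nat_lit 98433134137) (nat_lit 1) (nat_lit 4) (nat_lit 2) (nat_lit 5) (nat_lit 2) (nat_lit 4) (nat_lit 371) (nat_lit 232) (nat_lit 177))) (XT.nd (nat_lit 78) (nat_lit 0) (nat_lit 0) (XT.lf (nat_lit 0) (nat_lit 64109444867) (nat_lit 76) (nat_lit 106531750076) (nat_lit 76) (nat_lit 101146256337) (nat_lit 1) (nat_lit 4) (nat_lit 2) (nat_lit 5) (nat_lit 2) (nat_lit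 4) (nat_lit 372) (nat_lit 232) (nat_lit 176)) (XT.nd (nat_lit 78) (nat_lit 0) (nat_lit 0) (XT.lf (nat_lit 0) (nat_lit 71836433759) (nat_lit 76) (nat_lit 109412370327) (nat_lit 76) (nat_lit 104009027022) (nat_lit 1) (nat_lit 4) (nat_lit 2) (nat_lit 5) (nat_lit 2) (nat_lit 4) (nat_lit 373) (nat_lit 232) (nat_lit 175)) (XT.lf (nat_lit 0) (nat_lit 79925501151) (nat_lit 76) (nat_lit 112448605204) (nat_lit 76) (nat_lit 107028262312) (nat_lit 1) (nat_lit 4) (nat_lit 2) (nat_lit 5) (nat_lit 2) (nat_lit 4) (nat_lit 374) (nat_lit 232) (nat_lit 174))))) (XT.nd (nat_lit 156) (nat_lit 0) (nat_lit 0) (XT.nd (nat_lit 78) (nat_lit 0) (nat_lit 0) (XT.lf (nat_lit 0) (nat_lit 88395906726) (nat_lit 76) (nat_lit 115647683837) (nat_lit 76) (nat_lit 110211150862) (nat_lit 1) (nat_lit 4) (nat_lit 2) (nat_lit 5) (nat_lit 2) (nat_lit 4) (nat_lit 375) (nat_lit 232) (nat_lit 173)) (XT.lf (nat_lit 0) (nat_lit 97267818116)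 (nat_lit 76) (nat_lit 119017223080) (nat_lit 76) (nat_lit 113565270979) (nat_lit 1) (nat_lit 4) (nat_lit 2) (nat_lit 5) (nat_lit 2) (nat_lit 4) (nat_lit 376) (nat_lit 232) (nat_lit 172))) (XT.nd (nat_lit 78) (nat_lit 0) (nat_lit 0) (XT.lf (nat_lit 0) (nat_lit 106562358921) (nat_lit 76) (nat_lit 122565245646) (nat_lit 76) (nat_lit 117098608662) (nat_lit 1) (nat_lit 4) (nat_lit 2) (nat_lit 5) (nat_lit 2) (nat_lit 4) (nat_lit 377) (nat_lit 232) (nat_lit 171)) (XT.nd (nat_lit 78) (nat_lit 0) (nat_lit 0) (XT.lf (nat_lit 0) (nat_lit 116301658999) (nat_lit 76) (nat_lit 126300199208) (nat_lit 76) (nat_lit 120819576621) (nat_lit 1) (nat_lit 4) (nat_lit 2) (nat_lit 5) (nat_lit 2) (nat_lit 4) (nat_lit 378) (nat_lit 232) (nat_lit 170)) (XT.lf (nat_lit 0) (nat_lit 126508907161) (nat_lit 76) (nat_lit 130230976511) (nat_lit 76) (nat_lit 124737034303) (nat_lit 1) (nat_lit 4) (nat_lit 2) (nat_lit 5)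 (nat_lit 2) (nat_lit 4) (nat_lit 379) (nat_lit 232) (nat_lit 169))))))) (XT.nd (nat_lit 780) (nat_lit 0) (nat_lit 0) (XT.nd (nat_lit 390) (nat_lit 0) (nat_lit 0) (XT.nd (nat_lit 156) (nat_lit 0) (nat_lit 0) (XT.nd (nat_lit 78) (nat_lit 0) (nat_lit 0) (XT.lf (nat_lit 0) (nat_lit 137208406377) (nat_lit 76) (nat_lit 134366936550) (nat_lit 76) (nat_lit 128860308989) (nat_lit 1) (nat_lit 4) (nat_lit 2) (nat_lit 5) (nat_lit 2) (nat_lit 4) (nat_lit 380) (nat_lit 232) (nat_lit 168)) (XT.lf (nat_lit 0) (nat_lit 148425631646) (nat_lit 76) (nat_lit 138717926849) (nat_lit 76) (nat_lit 133199217998) (nat_lit 1) (nat_lit 4) (nat_lit 2) (nat_lit 5) (nat_lit 2) (nat_lit 4) (nat_lit 381) (nat_lit 232) (nat_lit 167))) (XT.nd (nat_lit 78) (nat_lit 0) (nat_lit 0) (XT.lf (nat_lit 0) (nat_lit 160187290647) (nat_lit 76) (nat_lit 143294306907) (nat_lit 76) (nat_lit 137764092067) (nat_lit 1) (nat_lit 4) (nat_lit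 2) (nat_lit 5) (nat_lit 2) (nat_lit 4) (nat_lit 382) (nat_lit 232) (nat_lit 166)) (XT.nd (nat_lit 78) (nat_lit 0) (nat_lit 0) (XT.lf (nat_lit 0) (nat_lit 172521387331) (nat_lit 76) (nat_lit 148106972869) (nat_lit 76) (nat_lit 142565799944) (nat_lit 1) (nat_lit 4) (nat_lit 2) (nat_lit 5) (nat_lit 2) (nat_lit 4) (nat_lit 383) (nat_lit 232) (nat_lit 165)) (XT.lf (nat_lit 0) (nat_lit 185457288594) (nat_lit 76) (nat_lit 153167383463) (nat_lit 76) (nat_lit 147615774265) (nat_lit 1) (nat_lit 4) (nat_lit 2) (nat_lit 5) (nat_lit 2) (nat_lit 4) (nat_lit 384) (nat_lit 232) (nat_lit 164))))) (XT.nd (nat_lit 156) (nat_lit 0) (nat_lit 0) (XT.nd (nat_lit 78) (nat_lit 0) (nat_lit 0) (XT.lf (nat_lit 0) (nat_lit 199025794201) (nat_lit 76) (nat_lit 158487587285) (nat_lit 76) (nat_lit 152926038781) (nat_lit 1) (nat_lit 4) (nat_lit 2) (nat_lit 5) (nat_lit 2) (nat_lit 4) (nat_lit 385) (nat_lit 232) (nat_lit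 163)) (XT.lf (nat_lit 0) (nat_lit 213259210117) (nat_lit 76) (nat_lit 164080251487) (nat_lit 76) (nat_lit 158509236977) (nat_lit 1) (nat_lit 4) (nat_lit 2) (nat_lit 5) (nat_lit 2) (nat_lit 4) (nat_lit 386) (nat_lit 232) (nat_lit 162))) (XT.nd (nat_lit 78) (nat_lit 0) (nat_lit 0) (XT.lf (nat_lit 0) (nat_lit 228191425429) (nat_lit 76) (nat_lit 169958691937) (nat_lit 76) (nat_lit 164378662183) (nat_lit 1) (nat_lit 4) (nat_lit 2) (nat_lit 5) (nat_lit 2) (nat_lit 4) (nat_lit 387) (nat_lit 232) (nat_lit 161)) (XT.nd (nat_lit 78) (nat_lit 0) (nat_lit 0) (XT.lf (nat_lit 0) (nat_lit 243857993030) (nat_lit 76) (nat_lit 176136904921) (nat_lit 76) (nat_lit 170548289220) (nat_lit 1) (nat_lit 4) (nat_lit 2) (nat_lit 5) (nat_lit 2) (nat_lit 4) (nat_lit 388) (nat_lit 232) (nat_lit 160)) (XT.lf (nat_lit 0) (nat_lit 260296214271) (nat_lit 76) (nat_lit 182629600470) (nat_lit 76) (nat_lit 177032807677)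 (nat_lit 1) (nat_lit 4) (nat_lit 2) (nat_lit 5) (nat_lit 2) (nat_lit 4) (nat_lit 389) (nat_lit 232) (nat_lit 159)))))) (XT.nd (nat_lit 35022) (nat_lit 0) (nat_lit 532) (XT.nd (nat_lit 34788) (nat_lit 0) (nat_lit 760) (XT.nd (nat_lit 34710) (nat_lit 0) (nat_lit 912) (XT.lf (nat_lit 0) (nat_lit 277545227774) (nat_lit 76) (nat_lit 189452237383) (nat_lit 76) (nat_lit 183847656883) (nat_lit 1) (nat_lit 4) (nat_lit 2) (nat_lit 5) (nat_lit 2) (nat_lit 4) (nat_lit 390) (nat_lit 232) (nat_lit 158)) (XT.lf (nat_lit 0) (nat_lit 7488123290) (nat_lit 76) (nat_lit 1163058450) (nat_lit 76) (nat_lit 1163058450) (nat_lit 13) (nat_lit 4) (nat_lit 14) (nat_lit 5) (nat_lit 14) (nat_lit 4) (nat_lit 314) (nat_lit 233) (nat_lit 233))) (XT.nd (nat_lit 78) (nat_lit 0) (nat_lit 0) (XT.lf (nat_lit 0) (nat_lit 1987875846) (nat_lit 152) (nat_lit 16731770902) (nat_lit 0) (nat_lit 1654460477) (nat_lit 11) (nat_lit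 5) (nat_lit 13) (nat_lit 4) (nat_lit 11) (nat_lit 4) (nat_lit 315) (nat_lit 233) (nat_lit 232)) (XT.nd (nat_lit 78) (nat_lit 0) (nat_lit 0) (XT.lf (nat_lit 0) (nat_lit 6405812708) (nat_lit 152) (nat_lit 8996197956) (nat_lit 0) (nat_lit 5754858892) (nat_lit 11) (nat_lit 5) (nat_lit 13) (nat_lit 4) (nat_lit 11) (nat_lit 4) (nat_lit 316) (nat_lit 233) (nat_lit 231)) (XT.lf (nat_lit 0) (nat_lit 10900079518) (nat_lit 152) (nat_lit 1139288469) (nat_lit 0) (nat_lit 9946708134) (nat_lit 11) (nat_lit 5) (nat_lit 13) (nat_lit 4) (nat_lit 11) (nat_lit 4) (nat_lit 317) (nat_lit 233) (nat_lit 230))))) (XT.nd (nat_lit 156) (nat_lit 152) (nat_lit 0) (XT.nd (nat_lit 78) (nat_lit 0) (nat_lit 0) (XT.lf (nat_lit 0) (nat_lit 7084409842) (nat_lit 76) (nat_lit 8507574560) (nat_lit 76) (nat_lit 7266186444) (nat_lit 10) (nat_lit 4) (nat_lit 11) (nat_lit 5) (nat_lit 11) (nat_lit 4) (nat_lit 318) (nat_lit 233)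 (nat_lit 229)) (XT.lf (nat_lit 0) (nat_lit 15510122040) (nat_lit 76) (nat_lit 4892647170) (nat_lit 76) (nat_lit 3376957405) (nat_lit 10) (nat_lit 4) (nat_lit 11) (nat_lit 5) (nat_lit 11) (nat_lit 4) (nat_lit 319) (nat_lit 233) (nat_lit 228))) (XT.nd (nat_lit 78) (nat_lit 76) (nat_lit 0) (XT.lf (nat_lit 0) (nat_lit 553359611) (nat_lit 152) (nat_lit 642542227) (nat_lit 76) (nat_lit 23557508294) (nat_lit 9) (nat_lit 5) (nat_lit 11) (nat_lit 5) (nat_lit 10) (nat_lit 4) (nat_lit 320) (nat_lit 233) (nat_lit 227)) (XT.nd (nat_lit 78) (nat_lit 0) (nat_lit 0) (XT.lf (nat_lit 0) (nat_lit 4599450211) (nat_lit 152) (nat_lit 18501798880) (nat_lit 0) (nat_lit 2670184390) (nat_lit 8) (nat_lit 5) (nat_lit 10) (nat_lit 4) (nat_lit 8) (nat_lit 4) (nat_lit 321) (nat_lit 233) (nat_lit 226)) (XT.lf (nat_lit 0) (nat_lit 8754760558) (nat_lit 152) (nat_lit 11490483623) (nat_lit 0) (nat_lit 6599826091) (nat_lit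 8) (nat_lit 5) (nat_lit 10) (nat_lit 4) (nat_lit 8) (nat_lit 4) (nat_lit 322) (nat_lit 233) (nat_lit 225))))))))
noncomputable def xc37 : XT := (XT.nd (nat_lit 1560) (nat_lit 76) (nat_lit 0) (XT.nd (nat_lit 780) (nat_lit 152) (nat_lit 0) (XT.nd (nat_lit 390) (nat_lit 152) (nat_lit 0) (XT.nd (nat_lit 156) (nat_lit 0) (nat_lit 0) (XT.nd (nat_lit 78) (nat_lit 76) (nat_lit 0) (XT.lf (nat_lit 0) (nat_lit 12999979390) (nat_lit 152) (nat_lit 4348235232) (nat_lit 0) (nat_lit 10630122403) (nat_lit 8) (nat_lit 5) (nat_lit 10) (nat_lit 4) (nat_lit 8) (nat_lit 4) (nat_lit 323) (nat_lit 233) (nat_lit 224)) (XT.lf (nat_lit 0) (nat_lit 3039225851) (nat_lit 76) (nat_lit 14353439352) (nat_lit 76) (nat_lit 11778894251) (nat_lit 7) (nat_lit 4) (nat_lit 8) (nat_lit 5) (nat_lit 8) (nat_lit 4) (nat_lit 324) (nat_lit 233) (nat_lit 223))) (XT.nd (nat_lit 78) (nat_lit 0) (nat_lit 0) (XT.lf (nat_lit 0) (nat_lit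 10741220737) (nat_lit 76) (nat_lit 11227291116) (nat_lit 76) (nat_lit 8457804955) (nat_lit 7) (nat_lit 4) (nat_lit 8) (nat_lit 5) (nat_lit 8) (nat_lit 4) (nat_lit 325) (nat_lit 233) (nat_lit 222)) (XT.nd (nat_lit 78) (nat_lit 0) (nat_lit 0) (XT.lf (nat_lit 0) (nat_lit 18632315215) (nat_lit 76) (nat_lit 8035966174) (nat_lit 76) (nat_lit 5080821859) (nat_lit 7) (nat_lit 4) (nat_lit 8) (nat_lit 5) (nat_lit 8) (nat_lit 4) (nat_lit 326) (nat_lit 233) (nat_lit 221)) (XT.lf (nat_lit 0) (nat_lit 26731297604) (nat_lit 76) (nat_lit 4771866133) (nat_lit 76) (nat_lit 1639904529) (nat_lit 7) (nat_lit 4) (nat_lit 8) (nat_lit 5) (nat_lit 8) (nat_lit 4) (nat_lit 327) (nat_lit 233) (nat_lit 220))))) (XT.nd (nat_lit 156) (nat_lit 0) (nat_lit 0) (XT.nd (nat_lit 78) (nat_lit 0) (nat_lit 0) (XT.lf (nat_lit 0) (nat_lit 430452581) (nat_lit 76) (nat_lit 1389455517) (nat_lit 152) (nat_lit 32789824450) (nat_lit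 5) (nat_lit 5) (nat_lit 6) (nat_lit 5) (nat_lit 7) (nat_lit 4) (nat_lit 328) (nat_lit 233) (nat_lit 219)) (XT.lf (nat_lit 0) (nat_lit 5445527621) (nat_lit 152) (nat_lit 28550913999) (nat_lit 0) (nat_lit 2149587131) (nat_lit 5) (nat_lit 5) (nat_lit 7) (nat_lit 4) (nat_lit 5) (nat_lit 4) (nat_lit 329) (nat_lit 233) (nat_lit 218))) (XT.nd (nat_lit 78) (nat_lit 0) (nat_lit 0) (XT.lf (nat_lit 0) (nat_lit 9183591988) (nat_lit 152) (nat_lit 22836843516) (nat_lit 0) (nat_lit 5742183476) (nat_lit 5) (nat_lit 5) (nat_lit 7) (nat_lit 4) (nat_lit 5) (nat_lit 4) (nat_lit 330) (nat_lit 233) (nat_lit 217)) (XT.nd (nat_lit 78) (nat_lit 0) (nat_lit 0) (XT.lf (nat_lit 0) (nat_lit 13021308057) (nat_lit 152) (nat_lit 17001770294) (nat_lit 0) (nat_lit 9441358573) (nat_lit 5) (nat_lit 5) (nat_lit 7) (nat_lit 4) (nat_lit 5) (nat_lit 4) (nat_lit 331) (nat_lit 233) (nat_lit 216)) (XT.lf (nat_lit 0) (nat_lit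 16967813248) (nat_lit 152) (nat_lit 11031801303) (nat_lit 0) (nat_lit 13255919981) (nat_lit 5) (nat_lit 5) (nat_lit 7) (nat_lit 4) (nat_lit 5) (nat_lit 4) (nat_lit 332) (nat_lit 233) (nat_lit 215)))))) (XT.nd (nat_lit 390) (nat_lit 76) (nat_lit 0) (XT.nd (nat_lit 156) (nat_lit 0) (nat_lit 0) (XT.nd (nat_lit 78) (nat_lit 76) (nat_lit 0) (XT.lf (nat_lit 0) (nat_lit 21032504002) (nat_lit 152) (nat_lit 4912722329) (nat_lit 0) (nat_lit 17194949989) (nat_lit 5) (nat_lit 5) (nat_lit 7) (nat_lit 4) (nat_lit 5) (nat_lit 4) (nat_lit 333) (nat_lit 233) (nat_lit 214)) (XT.lf (nat_lit 0) (nat_lit 1415335434) (nat_lit 76) (nat_lit 23831820073) (nat_lit 76) (nat_lit 19874589159) (nat_lit 4) (nat_lit 4) (nat_lit 5) (nat_lit 5) (nat_lit 5) (nat_lit 4) (nat_lit 334) (nat_lit 233) (nat_lit 213))) (XT.nd (nat_lit 78) (nat_lit 0) (nat_lit 0) (XT.lf (nat_lit 0) (nat_lit 8090374734) (nat_lit 76) (nat_lit 21591396664)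 (nat_lit 76) (nat_lit 17520187749) (nat_lit 4) (nat_lit 4) (nat_lit 5) (nat_lit 5) (nat_lit 5) (nat_lit 4) (nat_lit 335) (nat_lit 233) (nat_lit 212)) (XT.nd (nat_lit 78) (nat_lit 0) (nat_lit 0) (XT.lf (nat_lit 0) (nat_lit 14965851736) (nat_lit 76) (nat_lit 19301821095) (nat_lit 76) (nat_lit 15122061703) (nat_lit 4) (nat_lit 4) (nat_lit 5) (nat_lit 5) (nat_lit 5) (nat_lit 4) (nat_lit 336) (nat_lit 233) (nat_lit 211)) (XT.lf (nat_lit 0) (nat_lit 22058136621) (nat_lit 76) (nat_lit 16957641994) (nat_lit 76) (nat_lit 12674501195) (nat_lit 4) (nat_lit 4) (nat_lit 5) (nat_lit 5) (nat_lit 5) (nat_lit 4) (nat_lit 337) (nat_lit 233) (nat_lit 210))))) (XT.nd (nat_lit 156) (nat_lit 76) (nat_lit 0) (XT.nd (nat_lit 78) (nat_lit 0) (nat_lit 0) (XT.lf (nat_lit 0) (nat_lit 29384115784) (nat_lit 76) (nat_lit 14553277983) (nat_lit 76) (nat_lit 10171678701) (nat_lit 4) (nat_lit 4) (nat_lit 5) (nat_lit 5)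 (nat_lit 5) (nat_lit 4) (nat_lit 338) (nat_lit 233) (nat_lit 209)) (XT.lf (nat_lit 0) (nat_lit 36961232030) (nat_lit 76) (nat_lit 12083004385) (nat_lit 76) (nat_lit 7607635120) (nat_lit 4) (nat_lit 4) (nat_lit 5) (nat_lit 5) (nat_lit 5) (nat_lit 4) (nat_lit 339) (nat_lit 233) (nat_lit 208))) (XT.nd (nat_lit 78) (nat_lit 76) (nat_lit 0) (XT.lf (nat_lit 0) (nat_lit 44807526114) (nat_lit 76) (nat_lit 9540939597) (nat_lit 76) (nat_lit 4976265586) (nat_lit 4) (nat_lit 4) (nat_lit 5) (nat_lit 5) (nat_lit 5) (nat_lit 4) (nat_lit 340) (nat_lit 233) (nat_lit 207)) (XT.nd (nat_lit 78) (nat_lit 76) (nat_lit 0) (XT.lf (nat_lit 0) (nat_lit 52941679688) (nat_lit 76) (nat_lit 6921031084) (nat_lit 76) (nat_lit 2271304934) (nat_lit 4) (nat_lit 4) (nat_lit 5) (nat_lit 5) (nat_lit 5) (nat_lit 4) (nat_lit 341) (nat_lit 233) (nat_lit 206)) (XT.lf (nat_lit 0) (nat_lit 497246020) (nat_lit 152) (nat_lit 3711373846)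 (nat_lit 76) (nat_lit 60877392661) (nat_lit 3) (nat_lit 5) (nat_lit 5) (nat_lit 5) (nat_lit 4) (nat_lit 4) (nat_lit 342) (nat_lit 233) (nat_lit 205))))))) (XT.nd (nat_lit 780) (nat_lit 0) (nat_lit 0) (XT.nd (nat_lit 390) (nat_lit 0) (nat_lit 0) (XT.nd (nat_lit 156) (nat_lit 0) (nat_lit 0) (XT.nd (nat_lit 78) (nat_lit 0) (nat_lit 0) (XT.lf (nat_lit 0) (nat_lit 1973107726) (nat_lit 76) (nat_lit 1334687742) (nat_lit 152) (nat_lit 64876975806) (nat_lit 2) (nat_lit 5) (nat_lit 3) (nat_lit 5) (nat_lit 4) (nat_lit 4) (nat_lit 343) (nat_lit 233) (nat_lit 204)) (XT.lf (nat_lit 0) (nat_lit 6298369097) (nat_lit 152) (nat_lit 63488672182) (nat_lit 0) (nat_lit 1649469839) (nat_lit 2) (nat_lit 5) (nat_lit 4) (nat_lit 4) (nat_lit 2) (nat_lit 4) (nat_lit 344) (nat_lit 233) (nat_lit 203))) (XT.nd (nat_lit 78) (nat_lit 0) (nat_lit 0) (XT.lf (nat_lit 0) (nat_lit 9412101035) (nat_lit 152) (nat_lit 60743511374)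 (nat_lit 0) (nat_lit 4696561201) (nat_lit 2) (nat_lit 5) (nat_lit 4) (nat_lit 4) (nat_lit 2) (nat_lit 4) (nat_lit 345) (nat_lit 233) (nat_lit 202)) (XT.nd (nat_lit 78) (nat_lit 0) (nat_lit 0) (XT.lf (nat_lit 0) (nat_lit 12635566717) (nat_lit 152) (nat_lit 57948806809) (nat_lit 0) (nat_lit 7856559667) (nat_lit 2) (nat_lit 5) (nat_lit 4) (nat_lit 4) (nat_lit 2) (nat_lit 4) (nat_lit 346) (nat_lit 233) (nat_lit 201)) (XT.lf (nat_lit 0) (nat_lit 15976441058) (nat_lit 152) (nat_lit 55097904429) (nat_lit 0) (nat_lit 11136989041) (nat_lit 2) (nat_lit 5) (nat_lit 4) (nat_lit 4) (nat_lit 2) (nat_lit 4) (nat_lit 347) (nat_lit 233) (nat_lit 200))))) (XT.nd (nat_lit 156) (nat_lit 0) (nat_lit 0) (XT.nd (nat_lit 78) (nat_lit 0) (nat_lit 0) (XT.lf (nat_lit 0) (nat_lit 19442678523) (nat_lit 152) (nat_lit 52184016372) (nat_lit 0) (nat_lit 14545659870) (nat_lit 2) (nat_lit 5) (nat_lit 4) (nat_lit 4) (nat_lit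 2) (nat_lit 4) (nat_lit 348) (nat_lit 233) (nat_lit 199)) (XT.lf (nat_lit 0) (nat_lit 23042532058) (nat_lit 152) (nat_lit 49200204809) (nat_lit 0) (nat_lit 18090688037) (nat_lit 2) (nat_lit 5) (nat_lit 4) (nat_lit 4) (nat_lit 2) (nat_lit 4) (nat_lit 349) (nat_lit 233) (nat_lit 198))) (XT.nd (nat_lit 78) (nat_lit 0) (nat_lit 0) (XT.lf (nat_lit 0) (nat_lit 26784572742) (nat_lit 152) (nat_lit 46139365427) (nat_lit 0) (nat_lit 21780514086) (nat_lit 2) (nat_lit 5) (nat_lit 4) (nat_lit 4) (nat_lit 2) (nat_lit 4) (nat_lit 350) (nat_lit 233) (nat_lit 197)) (XT.nd (nat_lit 78) (nat_lit 0) (nat_lit 0) (XT.lf (nat_lit 0) (nat_lit 30677710196) (nat_lit 152) (nat_lit 42994210512) (nat_lit 0) (nat_lit 25623923316) (nat_lit 2) (nat_lit 5) (nat_lit 4) (nat_lit 4) (nat_lit 2) (nat_lit 4) (nat_lit 351) (nat_lit 233) (nat_lit 196)) (XT.lf (nat_lit 0) (nat_lit 34731213794) (nat_lit 152) (nat_lit 39757251602)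 (nat_lit 0) (nat_lit 29630066701) (nat_lit 2) (nat_lit 5) (nat_lit 4) (nat_lit 4) (nat_lit 2) (nat_lit 4) (nat_lit 352) (nat_lit 233) (nat_lit 195)))))) (XT.nd (nat_lit 390) (nat_lit 0) (nat_lit 0) (XT.nd (nat_lit 156) (nat_lit 0) (nat_lit 0) (XT.nd (nat_lit 78) (nat_lit 0) (nat_lit 0) (XT.lf (nat_lit 0) (nat_lit 38954734737) (nat_lit 152) (nat_lit 36420781650) (nat_lit 0) (nat_lit 33808482679) (nat_lit 2) (nat_lit 5) (nat_lit 4) (nat_lit 4) (nat_lit 2) (nat_lit 4) (nat_lit 353) (nat_lit 233) (nat_lit 194)) (XT.lf (nat_lit 0) (nat_lit 43358329027) (nat_lit 152) (nat_lit 32976856680) (nat_lit 0) (nat_lit 38169119858) (nat_lit 2) (nat_lit 5) (nat_lit 4) (nat_lit 4) (nat_lit 2) (nat_lit 4) (nat_lit 354) (nat_lit 233) (nat_lit 193))) (XT.nd (nat_lit 78) (nat_lit 0) (nat_lit 0) (XT.lf (nat_lit 0) (nat_lit 47952481411) (nat_lit 152) (nat_lit 29417276872) (nat_lit 0) (nat_lit 42722360709) (nat_lit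 2) (nat_lit 5) (nat_lit 4) (nat_lit 4) (nat_lit 2) (nat_lit 4) (nat_lit 355) (nat_lit 233) (nat_lit 192)) (XT.nd (nat_lit 78) (nat_lit 0) (nat_lit 0) (XT.lf (nat_lit 0) (nat_lit 52748130347) (nat_lit 152) (nat_lit 25733567035) (nat_lit 0) (nat_lit 47479046280) (nat_lit 2) (nat_lit 5) (nat_lit 4) (nat_lit 4) (nat_lit 2) (nat_lit 4) (nat_lit 356) (nat_lit 233) (nat_lit 191)) (XT.lf (nat_lit 0) (nat_lit 57756694048) (nat_lit 152) (nat_lit 21916956432) (nat_lit 0) (nat_lit 52450502015) (nat_lit 2) (nat_lit 5) (nat_lit 4) (nat_lit 4) (nat_lit 2) (nat_lit 4) (nat_lit 357) (nat_lit 233) (nat_lit 190))))) (XT.nd (nat_lit 156) (nat_lit 0) (nat_lit 0) (XT.nd (nat_lit 78) (nat_lit 0) (nat_lit 0) (XT.lf (nat_lit 0) (nat_lit 62990097665) (nat_lit 152) (nat_lit 17958357894) (nat_lit 0) (nat_lit 57648564711) (nat_lit 2) (nat_lit 5) (nat_lit 4) (nat_lit 4) (nat_lit 2) (nat_lit 4) (nat_lit 358) (nat_lit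 233) (nat_lit 189)) (XT.lf (nat_lit 0) (nat_lit 68460801683) (nat_lit 152) (nat_lit 13848346187) (nat_lit 0) (nat_lit 63085610709) (nat_lit 2) (nat_lit 5) (nat_lit 4) (nat_lit 4) (nat_lit 2) (nat_lit 4) (nat_lit 359) (nat_lit 233) (nat_lit 188))) (XT.nd (nat_lit 78) (nat_lit 0) (nat_lit 0) (XT.lf (nat_lit 0) (nat_lit 74181831587) (nat_lit 152) (nat_lit 9577135569) (nat_lit 0) (nat_lit 68774585357) (nat_lit 2) (nat_lit 5) (nat_lit 4) (nat_lit 4) (nat_lit 2) (nat_lit 4) (nat_lit 360) (nat_lit 233) (nat_lit 187)) (XT.nd (nat_lit 78) (nat_lit 0) (nat_lit 0) (XT.lf (nat_lit 0) (nat_lit 80166808878) (nat_lit 152) (nat_lit 5134556490) (nat_lit 0) (nat_lit 74729033832) (nat_lit 2) (nat_lit 5) (nat_lit 4) (nat_lit 4) (nat_lit 2) (nat_lit 4) (nat_lit 361) (nat_lit 233) (nat_lit 186)) (XT.lf (nat_lit 0) (nat_lit 86429983501) (nat_lit 152) (nat_lit 510031382) (nat_lit 0) (nat_lit 80963133392) (nat_lit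 2) (nat_lit 5) (nat_lit 4) (nat_lit 4) (nat_lit 2) (nat_lit 4) (nat_lit 362) (nat_lit 233) (nat_lit 185))))))))
noncomputable def xc38 : XT := (XT.nd (nat_lit 1560) (nat_lit 0) (nat_lit 0) (XT.nd (nat_lit 780) (nat_lit 0) (nat_lit 0) (XT.nd (nat_lit 390) (nat_lit 0) (nat_lit 0) (XT.nd (nat_lit 156) (nat_lit 0) (nat_lit 0) (XT.nd (nat_lit 78) (nat_lit 0) (nat_lit 0) (XT.lf (nat_lit 0) (nat_lit 4449874297) (nat_lit 76) (nat_lit 88605868488) (nat_lit 76) (nat_lit 83111327843) (nat_lit 1) (nat_lit 4) (nat_lit 2) (nat_lit 5) (nat_lit 2) (nat_lit 4) (nat_lit 363) (nat_lit 233) (nat_lit 184)) (XT.lf (nat_lit 0) (nat_lit 9637830196) (nat_lit 76) (nat_lit 90363915250) (nat_lit 76) (nat_lit 84843002666) (nat_lit 1) (nat_lit 4) (nat_lit 2) (nat_lit 5) (nat_lit 2) (nat_lit 4) (nat_lit 364) (nat_lit 233) (nat_lit 183))) (XT.nd (nat_lit 78) (nat_lit 0) (nat_lit 0) (XT.lf (nat_lit 0) (nat_lit 15049324649)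 (nat_lit 76) (nat_lit 92226978621) (nat_lit 76) (nat_lit 86680949905) (nat_lit 1) (nat_lit 4) (nat_lit 2) (nat_lit 5) (nat_lit 2) (nat_lit 4) (nat_lit 365) (nat_lit 233) (nat_lit 182)) (XT.nd (nat_lit 78) (nat_lit 0) (nat_lit 0) (XT.lf (nat_lit 0) (nat_lit 20697242168) (nat_lit 76) (nat_lit 94199494468) (nat_lit 76) (nat_lit 88629545626) (nat_lit 1) (nat_lit 4) (nat_lit 2) (nat_lit 5) (nat_lit 2) (nat_lit 4) (nat_lit 366) (nat_lit 233) (nat_lit 181)) (XT.lf (nat_lit 0) (nat_lit 26595030174) (nat_lit 76) (nat_lit 96286159257) (nat_lit 76) (nat_lit 90693429342) (nat_lit 1) (nat_lit 4) (nat_lit 2) (nat_lit 5) (nat_lit 2) (nat_lit 4) (nat_lit 367) (nat_lit 233) (nat_lit 180))))) (XT.nd (nat_lit 156) (nat_lit 0) (nat_lit 0) (XT.nd (nat_lit 78) (nat_lit 0) (nat_lit 0) (XT.lf (nat_lit 0) (nat_lit 32756731021) (nat_lit 76) (nat_lit 98491941237) (nat_lit 76) (nat_lit 92877515063) (nat_lit 1)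 (nat_lit 4) (nat_lit 2) (nat_lit 5) (nat_lit 2) (nat_lit 4) (nat_lit 368) (nat_lit 233) (nat_lit 179)) (XT.lf (nat_lit 0) (nat_lit 39197015423) (nat_lit 76) (nat_lit 100822092270) (nat_lit 76) (nat_lit 95187002991) (nat_lit 1) (nat_lit 4) (nat_lit 2) (nat_lit 5) (nat_lit 2) (nat_lit 4) (nat_lit 369) (nat_lit 233) (nat_lit 178))) (XT.nd (nat_lit 78) (nat_lit 0) (nat_lit 0) (XT.lf (nat_lit 0) (nat_lit 45931217393) (nat_lit 76) (nat_lit 103282160335) (nat_lit 76) (nat_lit 97627391909) (nat_lit 1) (nat_lit 4) (nat_lit 2) (nat_lit 5) (nat_lit 2) (nat_lit 4) (nat_lit 370) (nat_lit 233) (nat_lit 177)) (XT.nd (nat_lit 78) (nat_lit 0) (nat_lit 0) (XT.lf (nat_lit 0) (nat_lit 52975370744) (nat_lit 76) (nat_lit 105878002737) (nat_lit 76) (nat_lit 100204492266) (nat_lit 1) (nat_lit 4) (nat_lit 2) (nat_lit 5) (nat_lit 2) (nat_lit 4) (nat_lit 371) (nat_lit 233) (nat_lit 176)) (XT.lf (nat_lit 0) (nat_lit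 60346247270) (nat_lit 76) (nat_lit 108615800052) (nat_lit 76) (nat_lit 102924440015) (nat_lit 1) (nat_lit 4) (nat_lit 2) (nat_lit 5) (nat_lit 2) (nat_lit 4) (nat_lit 372) (nat_lit 233) (nat_lit 175)))))) (XT.nd (nat_lit 390) (nat_lit 0) (nat_lit 0) (XT.nd (nat_lit 156) (nat_lit 0) (nat_lit 0) (XT.nd (nat_lit 78) (nat_lit 0) (nat_lit 0) (XT.lf (nat_lit 0) (nat_lit 68061396677) (nat_lit 76) (nat_lit 111502070846) (nat_lit 76) (nat_lit 105793711222) (nat_lit 1) (nat_lit 4) (nat_lit 2) (nat_lit 5) (nat_lit 2) (nat_lit 4) (nat_lit 373) (nat_lit 233) (nat_lit 174)) (XT.lf (nat_lit 0) (nat_lit 76139188367) (nat_lit 76) (nat_lit 114543687192) (nat_lit 76) (nat_lit 108819137485) (nat_lit 1) (nat_lit 4) (nat_lit 2) (nat_lit 5) (nat_lit 2) (nat_lit 4) (nat_lit 374) (nat_lit 233) (nat_lit 173))) (XT.nd (nat_lit 78) (nat_lit 0) (nat_lit 0) (XT.lf (nat_lit 0) (nat_lit 84598855180) (nat_lit 76) (nat_lit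 117747891035) (nat_lit 76) (nat_lit 112007922201) (nat_lit 1) (nat_lit 4) (nat_lit 2) (nat_lit 5) (nat_lit 2) (nat_lit 4) (nat_lit 375) (nat_lit 233) (nat_lit 172)) (XT.nd (nat_lit 78) (nat_lit 0) (nat_lit 0) (XT.lf (nat_lit 0) (nat_lit 93460539177) (nat_lit 76) (nat_lit 121122311429) (nat_lit 76) (nat_lit 115367657713) (nat_lit 1) (nat_lit 4) (nat_lit 2) (nat_lit 5) (nat_lit 2) (nat_lit 4) (nat_lit 376) (nat_lit 233) (nat_lit 171)) (XT.lf (nat_lit 0) (nat_lit 102745339608) (nat_lit 76) (nat_lit 124674982711) (nat_lit 76) (nat_lit 118906343393) (nat_lit 1) (nat_lit 4) (nat_lit 2) (nat_lit 5) (nat_lit 2) (nat_lit 4) (nat_lit 377) (nat_lit 233) (nat_lit 170))))) (XT.nd (nat_lit 156) (nat_lit 0) (nat_lit 0) (XT.nd (nat_lit 78) (nat_lit 0) (nat_lit 0) (XT.lf (nat_lit 0) (nat_lit 112475363140) (nat_lit 76) (nat_lit 128414363621) (nat_lit 76) (nat_lit 122632404681) (nat_lit 1) (nat_lit 4)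 (nat_lit 2) (nat_lit 5) (nat_lit 2) (nat_lit 4) (nat_lit 378) (nat_lit 233) (nat_lit 169)) (XT.lf (nat_lit 0) (nat_lit 122673776495) (nat_lit 76) (nat_lit 132349357446) (nat_lit 76) (nat_lit 126554713153) (nat_lit 1) (nat_lit 4) (nat_lit 2) (nat_lit 5) (nat_lit 2) (nat_lit 4) (nat_lit 379) (nat_lit 233) (nat_lit 168))) (XT.nd (nat_lit 78) (nat_lit 0) (nat_lit 0) (XT.lf (nat_lit 0) (nat_lit 133364861609) (nat_lit 76) (nat_lit 136489333221) (nat_lit 76) (nat_lit 130682607638) (nat_lit 1) (nat_lit 4) (nat_lit 2) (nat_lit 5) (nat_lit 2) (nat_lit 4) (nat_lit 380) (nat_lit 233) (nat_lit 167)) (XT.nd (nat_lit 78) (nat_lit 0) (nat_lit 0) (XT.lf (nat_lit 0) (nat_lit 144574073449) (nat_lit 76) (nat_lit 140844148029) (nat_lit 76) (nat_lit 135025916457) (nat_lit 1) (nat_lit 4) (nat_lit 2) (nat_lit 5) (nat_lit 2) (nat_lit 4) (nat_lit 381) (nat_lit 233) (nat_lit 166)) (XT.lf (nat_lit 0) (nat_lit 156328100612)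 (nat_lit 76) (nat_lit 145424170478) (nat_lit 76) (nat_lit 139594980821) (nat_lit 1) (nat_lit 4) (nat_lit 2) (nat_lit 5) (nat_lit 2) (nat_lit 4) (nat_lit 382) (nat_lit 233) (nat_lit 165))))))) (XT.nd (nat_lit 35256) (nat_lit 0) (nat_lit 532) (XT.nd (nat_lit 390) (nat_lit 0) (nat_lit 0) (XT.nd (nat_lit 156) (nat_lit 0) (nat_lit 0) (XT.nd (nat_lit 78) (nat_lit 0) (nat_lit 0) (XT.lf (nat_lit 0) (nat_lit 168654928879) (nat_lit 76) (nat_lit 150240305383) (nat_lit 76) (nat_lit 144400679454) (nat_lit 1) (nat_lit 4) (nat_lit 2) (nat_lit 5) (nat_lit 2) (nat_lit 4) (nat_lit 383) (nat_lit 233) (nat_lit 164)) (XT.lf (nat_lit 0) (nat_lit 181583907840) (nat_lit 76) (nat_lit 155304019732) (nat_lit 76) (nat_lit 149454454497) (nat_lit 1) (nat_lit 4) (nat_lit 2) (nat_lit 5) (nat_lit 2) (nat_lit 4) (nat_lit 384) (nat_lit 233) (nat_lit 163))) (XT.nd (nat_lit 78) (nat_lit 0) (nat_lit 0) (XT.lf (nat_lit 0)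 (nat_lit 195145820778) (nat_lit 76) (nat_lit 160627369988) (nat_lit 76) (nat_lit 154768338746) (nat_lit 1) (nat_lit 4) (nat_lit 2) (nat_lit 5) (nat_lit 2) (nat_lit 4) (nat_lit 385) (nat_lit 233) (nat_lit 162)) (XT.nd (nat_lit 78) (nat_lit 0) (nat_lit 0) (XT.lf (nat_lit 0) (nat_lit 209372957962) (nat_lit 76) (nat_lit 166223030794) (nat_lit 76) (nat_lit 160354984308) (nat_lit 1) (nat_lit 4) (nat_lit 2) (nat_lit 5) (nat_lit 2) (nat_lit 4) (nat_lit 386) (nat_lit 233) (nat_lit 161)) (XT.lf (nat_lit 0) (nat_lit 224299193529) (nat_lit 76) (nat_lit 172104325151) (nat_lit 76) (nat_lit 166227692719) (nat_lit 1) (nat_lit 4) (nat_lit 2) (nat_lit 5) (nat_lit 2) (nat_lit 4) (nat_lit 387) (nat_lit 233) (nat_lit 160))))) (XT.nd (nat_lit 156) (nat_lit 0) (nat_lit 0) (XT.nd (nat_lit 78) (nat_lit 0) (nat_lit 0) (XT.lf (nat_lit 0) (nat_lit 239960066135) (nat_lit 76) (nat_lit 178285256143) (nat_lit 76) (nat_lit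 172400446619) (nat_lit 1) (nat_lit 4) (nat_lit 2) (nat_lit 5) (nat_lit 2) (nat_lit 4) (nat_lit 388) (nat_lit 233) (nat_lit 159)) (XT.lf (nat_lit 0) (nat_lit 256392863571) (nat_lit 76) (nat_lit 184780540271) (nat_lit 76) (nat_lit 178887943040) (nat_lit 1) (nat_lit 4) (nat_lit 2) (nat_lit 5) (nat_lit 2) (nat_lit 4) (nat_lit 389) (nat_lit 233) (nat_lit 158))) (XT.nd (nat_lit 34554) (nat_lit 0) (nat_lit 912) (XT.lf (nat_lit 0) (nat_lit 273636711546) (nat_lit 76) (nat_lit 191605642497) (nat_lit 76) (nat_lit 185705628403) (nat_lit 1) (nat_lit 4) (nat_lit 2) (nat_lit 5) (nat_lit 2) (nat_lit 4) (nat_lit 390) (nat_lit 233) (nat_lit 157)) (XT.nd (nat_lit 78) (nat_lit 76) (nat_lit 0) (XT.lf (nat_lit 0) (nat_lit 3987345199) (nat_lit 152) (nat_lit 1149005793) (nat_lit 0) (nat_lit 3987345199) (nat_lit 14) (nat_lit 5) (nat_lit 16) (nat_lit 4) (nat_lit 14) (nat_lit 4) (nat_lit 312) (nat_lit 234) (nat_lit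 234)) (XT.lf (nat_lit 0) (nat_lit 6157596809) (nat_lit 76) (nat_lit 6565068053) (nat_lit 76) (nat_lit 6197477608) (nat_lit 13) (nat_lit 4) (nat_lit 14) (nat_lit 5) (nat_lit 14) (nat_lit 4) (nat_lit 313) (nat_lit 234) (nat_lit 233)))))) (XT.nd (nat_lit 390) (nat_lit 152) (nat_lit 0) (XT.nd (nat_lit 156) (nat_lit 76) (nat_lit 0) (XT.nd (nat_lit 78) (nat_lit 152) (nat_lit 0) (XT.lf (nat_lit 0) (nat_lit 14843369610) (nat_lit 76) (nat_lit 2753249018) (nat_lit 76) (nat_lit 2035572436) (nat_lit 13) (nat_lit 4) (nat_lit 14) (nat_lit 5) (nat_lit 14) (nat_lit 4) (nat_lit 314) (nat_lit 234) (nat_lit 232)) (XT.lf (nat_lit 0) (nat_lit 2186166743) (nat_lit 152) (nat_lit 17010485114) (nat_lit 0) (nat_lit 1185126790) (nat_lit 11) (nat_lit 5) (nat_lit 13) (nat_lit 4) (nat_lit 11) (nat_lit 4) (nat_lit 315) (nat_lit 234) (nat_lit 231))) (XT.nd (nat_lit 78) (nat_lit 76) (nat_lit 0) (XT.lf (nat_lit 0) (nat_lit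 6533583169) (nat_lit 152) (nat_lit 9404396123) (nat_lit 0) (nat_lit 5230125647) (nat_lit 11) (nat_lit 5) (nat_lit 13) (nat_lit 4) (nat_lit 11) (nat_lit 4) (nat_lit 316) (nat_lit 234) (nat_lit 230)) (XT.nd (nat_lit 78) (nat_lit 76) (nat_lit 0) (XT.lf (nat_lit 0) (nat_lit 10960687658) (nat_lit 152) (nat_lit 1670804688) (nat_lit 0) (nat_lit 9369213405) (nat_lit 11) (nat_lit 5) (nat_lit 13) (nat_lit 4) (nat_lit 11) (nat_lit 4) (nat_lit 317) (nat_lit 234) (nat_lit 229)) (XT.lf (nat_lit 0) (nat_lit 6413990247) (nat_lit 76) (nat_lit 9164171052) (nat_lit 76) (nat_lit 7298395150) (nat_lit 10) (nat_lit 4) (nat_lit 11) (nat_lit 5) (nat_lit 11) (nat_lit 4) (nat_lit 318) (nat_lit 234) (nat_lit 228))))) (XT.nd (nat_lit 156) (nat_lit 76) (nat_lit 0) (XT.nd (nat_lit 78) (nat_lit 76) (nat_lit 0) (XT.lf (nat_lit 0) (nat_lit 14724150967) (nat_lit 76) (nat_lit 5602072853) (nat_lit 76) (nat_lit 3475057284)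 (nat_lit 10) (nat_lit 4) (nat_lit 11) (nat_lit 5) (nat_lit 11) (nat_lit 4) (nat_lit 319) (nat_lit 234) (nat_lit 227)) (XT.lf (nat_lit 0) (nat_lit 397654546) (nat_lit 152) (nat_lit 1560623429) (nat_lit 76) (nat_lit 22819830201) (nat_lit 9) (nat_lit 5) (nat_lit 11) (nat_lit 5) (nat_lit 10) (nat_lit 4) (nat_lit 320) (nat_lit 234) (nat_lit 226))) (XT.nd (nat_lit 78) (nat_lit 0) (nat_lit 0) (XT.lf (nat_lit 0) (nat_lit 4356426009) (nat_lit 152) (nat_lit 19576023609) (nat_lit 0) (nat_lit 1868076173) (nat_lit 8) (nat_lit 5) (nat_lit 10) (nat_lit 4) (nat_lit 8) (nat_lit 4) (nat_lit 321) (nat_lit 234) (nat_lit 225)) (XT.nd (nat_lit 78) (nat_lit 0) (nat_lit 0) (XT.lf (nat_lit 0) (nat_lit 8454245121) (nat_lit 152) (nat_lit 12671846220) (nat_lit 0) (nat_lit 5750972765) (nat_lit 8) (nat_lit 5) (nat_lit 10) (nat_lit 4) (nat_lit 8) (nat_lit 4) (nat_lit 322) (nat_lit 234) (nat_lit 224)) (XT.lf (nat_lit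 0) (nat_lit 12644710395) (nat_lit 152) (nat_lit 5631633895) (nat_lit 0) (nat_lit 9736749925) (nat_lit 8) (nat_lit 5) (nat_lit 10) (nat_lit 4) (nat_lit 8) (nat_lit 4) (nat_lit 323) (nat_lit 234) (nat_lit 223))))))))
noncomputable def xc39 : XT := (XT.nd (nat_lit 1560) (nat_lit 152) (nat_lit 0) (XT.nd (nat_lit 780) (nat_lit 152) (nat_lit 0) (XT.nd (nat_lit 390) (nat_lit 76) (nat_lit 0) (XT.nd (nat_lit 156) (nat_lit 76) (nat_lit 0) (XT.nd (nat_lit 78) (nat_lit 0) (nat_lit 0) (XT.lf (nat_lit 0) (nat_lit 1613001910) (nat_lit 76) (nat_lit 15349980699) (nat_lit 76) (nat_lit 12247079168) (nat_lit 7) (nat_lit 4) (nat_lit 8) (nat_lit 5) (nat_lit 8) (nat_lit 4) (nat_lit 324) (nat_lit 234) (nat_lit 222)) (XT.lf (nat_lit 0) (nat_lit 9219386966) (nat_lit 76) (nat_lit 12268286466) (nat_lit 76) (nat_lit 8979726782) (nat_lit 7) (nat_lit 4) (nat_lit 8) (nat_lit 5) (nat_lit 8) (nat_lit 4) (nat_lit 325)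 (nat_lit 234) (nat_lit 221))) (XT.nd (nat_lit 78) (nat_lit 76) (nat_lit 0) (XT.lf (nat_lit 0) (nat_lit 17019424462) (nat_lit 76) (nat_lit 9119298669) (nat_lit 76) (nat_lit 5653921697) (nat_lit 7) (nat_lit 4) (nat_lit 8) (nat_lit 5) (nat_lit 8) (nat_lit 4) (nat_lit 326) (nat_lit 234) (nat_lit 220)) (XT.nd (nat_lit 78) (nat_lit 76) (nat_lit 0) (XT.lf (nat_lit 0) (nat_lit 25031685917) (nat_lit 76) (nat_lit 5895519718) (nat_lit 76) (nat_lit 2261745328) (nat_lit 7) (nat_lit 4) (nat_lit 8) (nat_lit 5) (nat_lit 8) (nat_lit 4) (nat_lit 327) (nat_lit 234) (nat_lit 219)) (XT.lf (nat_lit 0) (nat_lit 1166315283) (nat_lit 152) (nat_lit 1403206552) (nat_lit 76) (nat_lit 32089180746) (nat_lit 6) (nat_lit 5) (nat_lit 8) (nat_lit 5) (nat_lit 7) (nat_lit 4) (nat_lit 328) (nat_lit 234) (nat_lit 218))))) (XT.nd (nat_lit 156) (nat_lit 0) (nat_lit 0) (XT.nd (nat_lit 78) (nat_lit 0) (nat_lit 0) (XT.lf (nat_lit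 0) (nat_lit 4705817476) (nat_lit 152) (nat_lit 30546634904) (nat_lit 0) (nat_lit 946870518) (nat_lit 5) (nat_lit 5) (nat_lit 7) (nat_lit 4) (nat_lit 5) (nat_lit 4) (nat_lit 329) (nat_lit 234) (nat_lit 217)) (XT.lf (nat_lit 0) (nat_lit 8401320128) (nat_lit 152) (nat_lit 24912906267) (nat_lit 0) (nat_lit 4503832197) (nat_lit 5) (nat_lit 5) (nat_lit 7) (nat_lit 4) (nat_lit 5) (nat_lit 4) (nat_lit 330) (nat_lit 234) (nat_lit 216))) (XT.nd (nat_lit 78) (nat_lit 0) (nat_lit 0) (XT.lf (nat_lit 0) (nat_lit 12198501231) (nat_lit 152) (nat_lit 19154349090) (nat_lit 0) (nat_lit 8169069517) (nat_lit 5) (nat_lit 5) (nat_lit 7) (nat_lit 4) (nat_lit 5) (nat_lit 4) (nat_lit 331) (nat_lit 234) (nat_lit 215)) (XT.nd (nat_lit 78) (nat_lit 0) (nat_lit 0) (XT.lf (nat_lit 0) (nat_lit 16106401692) (nat_lit 152) (nat_lit 13257252522) (nat_lit 0) (nat_lit 11951309232) (nat_lit 5) (nat_lit 5) (nat_lit 7) (nat_lit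 4) (nat_lit 5) (nat_lit 4) (nat_lit 332) (nat_lit 234) (nat_lit 214)) (XT.lf (nat_lit 0) (nat_lit 20134326036) (nat_lit 152) (nat_lit 7207575856) (nat_lit 0) (nat_lit 15859556675) (nat_lit 5) (nat_lit 5) (nat_lit 7) (nat_lit 4) (nat_lit 5) (nat_lit 4) (nat_lit 333) (nat_lit 234) (nat_lit 213)))))) (XT.nd (nat_lit 390) (nat_lit 76) (nat_lit 0) (XT.nd (nat_lit 156) (nat_lit 0) (nat_lit 0) (XT.nd (nat_lit 78) (nat_lit 76) (nat_lit 0) (XT.lf (nat_lit 0) (nat_lit 24291864560) (nat_lit 152) (nat_lit 990915101) (nat_lit 0) (nat_lit 19903117198) (nat_lit 5) (nat_lit 5) (nat_lit 7) (nat_lit 4) (nat_lit 5) (nat_lit 4) (nat_lit 334) (nat_lit 234) (nat_lit 212)) (XT.lf (nat_lit 0) (nat_lit 5586328722) (nat_lit 76) (nat_lit 23089805690) (nat_lit 76) (nat_lit 18592507851) (nat_lit 4) (nat_lit 4) (nat_lit 5) (nat_lit 5) (nat_lit 5) (nat_lit 4) (nat_lit 335) (nat_lit 234) (nat_lit 211))) (XT.nd (nat_lit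 78) (nat_lit 0) (nat_lit 0) (XT.lf (nat_lit 0) (nat_lit 12399871106) (nat_lit 76) (nat_lit 20829437558) (nat_lit 76) (nat_lit 16228758312) (nat_lit 4) (nat_lit 4) (nat_lit 5) (nat_lit 5) (nat_lit 5) (nat_lit 4) (nat_lit 336) (nat_lit 234) (nat_lit 210)) (XT.nd (nat_lit 78) (nat_lit 0) (nat_lit 0) (XT.lf (nat_lit 0) (nat_lit 19433170641) (nat_lit 76) (nat_lit 18513075064) (nat_lit 76) (nat_lit 13813937336) (nat_lit 4) (nat_lit 4) (nat_lit 5) (nat_lit 5) (nat_lit 5) (nat_lit 4) (nat_lit 337) (nat_lit 234) (nat_lit 209)) (XT.lf (nat_lit 0) (nat_lit 26702973280) (nat_lit 76) (nat_lit 16135203060) (nat_lit 76) (nat_lit 11342295348) (nat_lit 4) (nat_lit 4) (nat_lit 5) (nat_lit 5) (nat_lit 5) (nat_lit 4) (nat_lit 338) (nat_lit 234) (nat_lit 208))))) (XT.nd (nat_lit 156) (nat_lit 76) (nat_lit 0) (XT.nd (nat_lit 78) (nat_lit 0) (nat_lit 0) (XT.lf (nat_lit 0) (nat_lit 34226588075) (nat_lit 76)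 (nat_lit 13690159945) (nat_lit 76) (nat_lit 8807947487) (nat_lit 4) (nat_lit 4) (nat_lit 5) (nat_lit 5) (nat_lit 5) (nat_lit 4) (nat_lit 339) (nat_lit 234) (nat_lit 207)) (XT.lf (nat_lit 0) (nat_lit 42021928396) (nat_lit 76) (nat_lit 11172124188) (nat_lit 76) (nat_lit 6204859591) (nat_lit 4) (nat_lit 4) (nat_lit 5) (nat_lit 5) (nat_lit 5) (nat_lit 4) (nat_lit 340) (nat_lit 234) (nat_lit 206))) (XT.nd (nat_lit 78) (nat_lit 76) (nat_lit 0) (XT.lf (nat_lit 0) (nat_lit 50107554576) (nat_lit 76) (nat_lit 8575100466) (nat_lit 76) (nat_lit 3526833832) (nat_lit 4) (nat_lit 4) (nat_lit 5) (nat_lit 5) (nat_lit 5) (nat_lit 4) (nat_lit 341) (nat_lit 234) (nat_lit 205)) (XT.nd (nat_lit 78) (nat_lit 76) (nat_lit 0) (XT.lf (nat_lit 0) (nat_lit 58502718107) (nat_lit 76) (nat_lit 5892905390) (nat_lit 76) (nat_lit 767493958) (nat_lit 4) (nat_lit 4) (nat_lit 5) (nat_lit 5) (nat_lit 5) (nat_lit 4) (nat_lit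 342) (nat_lit 234) (nat_lit 204)) (XT.lf (nat_lit 0) (nat_lit 2013165542) (nat_lit 152) (nat_lit 1071893305) (nat_lit 76) (nat_lit 65180147997) (nat_lit 3) (nat_lit 5) (nat_lit 5) (nat_lit 5) (nat_lit 4) (nat_lit 4) (nat_lit 343) (nat_lit 234) (nat_lit 203))))))) (XT.nd (nat_lit 780) (nat_lit 76) (nat_lit 0) (XT.nd (nat_lit 390) (nat_lit 0) (nat_lit 0) (XT.nd (nat_lit 156) (nat_lit 0) (nat_lit 0) (XT.nd (nat_lit 78) (nat_lit 0) (nat_lit 0) (XT.lf (nat_lit 0) (nat_lit 4851247035) (nat_lit 76) (nat_lit 85388236) (nat_lit 152) (nat_lit 66583674971) (nat_lit 2) (nat_lit 5) (nat_lit 3) (nat_lit 5) (nat_lit 4) (nat_lit 4) (nat_lit 344) (nat_lit 234) (nat_lit 202)) (XT.lf (nat_lit 0) (nat_lit 8026618034) (nat_lit 152) (nat_lit 63965356705) (nat_lit 0) (nat_lit 2945193416) (nat_lit 2) (nat_lit 5) (nat_lit 4) (nat_lit 4) (nat_lit 2) (nat_lit 4) (nat_lit 345) (nat_lit 234) (nat_lit 201))) (XT.nd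 (nat_lit 78) (nat_lit 0) (nat_lit 0) (XT.lf (nat_lit 0) (nat_lit 11228735119) (nat_lit 152) (nat_lit 61211402098) (nat_lit 0) (nat_lit 6086865533) (nat_lit 2) (nat_lit 5) (nat_lit 4) (nat_lit 4) (nat_lit 2) (nat_lit 4) (nat_lit 346) (nat_lit 234) (nat_lit 200)) (XT.nd (nat_lit 78) (nat_lit 0) (nat_lit 0) (XT.lf (nat_lit 0) (nat_lit 14549277463) (nat_lit 152) (nat_lit 58399309202) (nat_lit 0) (nat_lit 9349841242) (nat_lit 2) (nat_lit 5) (nat_lit 4) (nat_lit 4) (nat_lit 2) (nat_lit 4) (nat_lit 347) (nat_lit 234) (nat_lit 199)) (XT.lf (nat_lit 0) (nat_lit 17996151122) (nat_lit 152) (nat_lit 55522382558) (nat_lit 0) (nat_lit 12741889533) (nat_lit 2) (nat_lit 5) (nat_lit 4) (nat_lit 4) (nat_lit 2) (nat_lit 4) (nat_lit 348) (nat_lit 234) (nat_lit 198))))) (XT.nd (nat_lit 156) (nat_lit 0) (nat_lit 0) (XT.nd (nat_lit 78) (nat_lit 0) (nat_lit 0) (XT.lf (nat_lit 0) (nat_lit 21577562935) (nat_lit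 152) (nat_lit 52573772341) (nat_lit 0) (nat_lit 16271086712) (nat_lit 2) (nat_lit 5) (nat_lit 4) (nat_lit 4) (nat_lit 2) (nat_lit 4) (nat_lit 349) (nat_lit 234) (nat_lit 197)) (XT.lf (nat_lit 0) (nat_lit 25302040076) (nat_lit 152) (nat_lit 49546458050) (nat_lit 0) (nat_lit 19945835628) (nat_lit 2) (nat_lit 5) (nat_lit 4) (nat_lit 4) (nat_lit 2) (nat_lit 4) (nat_lit 350) (nat_lit 234) (nat_lit 196))) (XT.nd (nat_lit 78) (nat_lit 0) (nat_lit 0) (XT.lf (nat_lit 0) (nat_lit 29178450346) (nat_lit 152) (nat_lit 46433231794) (nat_lit 0) (nat_lit 23774885684) (nat_lit 2) (nat_lit 5) (nat_lit 4) (nat_lit 4) (nat_lit 2) (nat_lit 4) (nat_lit 351) (nat_lit 234) (nat_lit 195)) (XT.nd (nat_lit 78) (nat_lit 0) (nat_lit 0) (XT.lf (nat_lit 0) (nat_lit 33216023293) (nat_lit 152) (nat_lit 43226681129) (nat_lit 0) (nat_lit 27767353666) (nat_lit 2) (nat_lit 5) (nat_lit 4) (nat_lit 4) (nat_lit 2) (nat_lit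 4) (nat_lit 352) (nat_lit 234) (nat_lit 194)) (XT.lf (nat_lit 0) (nat_lit 37424372187) (nat_lit 152) (nat_lit 39919171411) (nat_lit 0) (nat_lit 31932745450) (nat_lit 2) (nat_lit 5) (nat_lit 4) (nat_lit 4) (nat_lit 2) (nat_lit 4) (nat_lit 353) (nat_lit 234) (nat_lit 193)))))) (XT.nd (nat_lit 390) (nat_lit 76) (nat_lit 0) (XT.nd (nat_lit 156) (nat_lit 0) (nat_lit 0) (XT.nd (nat_lit 78) (nat_lit 0) (nat_lit 0) (XT.lf (nat_lit 0) (nat_lit 41813516905) (nat_lit 152) (nat_lit 36502827617) (nat_lit 0) (nat_lit 36280978635) (nat_lit 2) (nat_lit 5) (nat_lit 4) (nat_lit 4) (nat_lit 2) (nat_lit 4) (nat_lit 354) (nat_lit 234) (nat_lit 192)) (XT.lf (nat_lit 0) (nat_lit 46393907793) (nat_lit 152) (nat_lit 32969515595) (nat_lit 0) (nat_lit 40822406158) (nat_lit 2) (nat_lit 5) (nat_lit 4) (nat_lit 4) (nat_lit 2) (nat_lit 4) (nat_lit 355) (nat_lit 234) (nat_lit 191))) (XT.nd (nat_lit 78) (nat_lit 0)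 (nat_lit 0) (XT.lf (nat_lit 0) (nat_lit 51176450543) (nat_lit 152) (nat_lit 29310822698) (nat_lit 0) (nat_lit 45567840942) (nat_lit 2) (nat_lit 5) (nat_lit 4) (nat_lit 4) (nat_lit 2) (nat_lit 4) (nat_lit 356) (nat_lit 234) (nat_lit 190)) (XT.nd (nat_lit 78) (nat_lit 0) (nat_lit 0) (XT.lf (nat_lit 0) (nat_lit 56172532162) (nat_lit 152) (nat_lit 25518037751) (nat_lit 0) (nat_lit 50528581640) (nat_lit 2) (nat_lit 5) (nat_lit 4) (nat_lit 4) (nat_lit 2) (nat_lit 4) (nat_lit 357) (nat_lit 234) (nat_lit 189)) (XT.lf (nat_lit 0) (nat_lit 61394048081) (nat_lit 152) (nat_lit 21582130314) (nat_lit 0) (nat_lit 55716439539) (nat_lit 2) (nat_lit 5) (nat_lit 4) (nat_lit 4) (nat_lit 2) (nat_lit 4) (nat_lit 358) (nat_lit 234) (nat_lit 188))))) (XT.nd (nat_lit 234) (nat_lit 76) (nat_lit 0) (XT.nd (nat_lit 78) (nat_lit 0) (nat_lit 0) (XT.lf (nat_lit 0) (nat_lit 66853430482) (nat_lit 152) (nat_lit 17493729180)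 (nat_lit 0) (nat_lit 61143766684) (nat_lit 2) (nat_lit 5) (nat_lit 4) (nat_lit 4) (nat_lit 2) (nat_lit 4) (nat_lit 359) (nat_lit 234) (nat_lit 187)) (XT.nd (nat_lit 78) (nat_lit 0) (nat_lit 0) (XT.lf (nat_lit 0) (nat_lit 72563677894) (nat_lit 152) (nat_lit 13243100059) (nat_lit 0) (nat_lit 66823485280) (nat_lit 2) (nat_lit 5) (nat_lit 4) (nat_lit 4) (nat_lit 2) (nat_lit 4) (nat_lit 360) (nat_lit 234) (nat_lit 186)) (XT.lf (nat_lit 0) (nat_lit 78538386145) (nat_lit 152) (nat_lit 8820122407) (nat_lit 0) (nat_lit 72769118468) (nat_lit 2) (nat_lit 5) (nat_lit 4) (nat_lit 4) (nat_lit 2) (nat_lit 4) (nat_lit 361) (nat_lit 234) (nat_lit 185)))) (XT.nd (nat_lit 78) (nat_lit 76) (nat_lit 0) (XT.lf (nat_lit 0) (nat_lit 84791780730) (nat_lit 152) (nat_lit 4214265324) (nat_lit 0) (nat_lit 78994822517) (nat_lit 2) (nat_lit 5) (nat_lit 4) (nat_lit 4) (nat_lit 2) (nat_lit 4) (nat_lit 362) (nat_lit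 234) (nat_lit 184)) (XT.nd (nat_lit 78) (nat_lit 0) (nat_lit 0) (XT.lf (nat_lit 0) (nat_lit 604794724) (nat_lit 76) (nat_lit 90743398501) (nat_lit 76) (nat_lit 84920068348) (nat_lit 1) (nat_lit 4) (nat_lit 2) (nat_lit 5) (nat_lit 2) (nat_lit 4) (nat_lit 363) (nat_lit 234) (nat_lit 183)) (XT.lf (nat_lit 0) (nat_lit 5775258310) (nat_lit 76) (nat_lit 92509793687) (nat_lit 76) (nat_lit 86661347403) (nat_lit 1) (nat_lit 4) (nat_lit 2) (nat_lit 5) (nat_lit 2) (nat_lit 4) (nat_lit 364) (nat_lit 234) (nat_lit 182))))))))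
noncomputable def xc40 : XT := (XT.nd (nat_lit 1560) (nat_lit 0) (nat_lit 0) (XT.nd (nat_lit 780) (nat_lit 0) (nat_lit 0) (XT.nd (nat_lit 390) (nat_lit 0) (nat_lit 0) (XT.nd (nat_lit 156) (nat_lit 0) (nat_lit 0) (XT.nd (nat_lit 78) (nat_lit 0) (nat_lit 0) (XT.lf (nat_lit 0) (nat_lit 11170093418) (nat_lit 76) (nat_lit 94380807941) (nat_lit 76) (nat_lit 88508441530) (nat_lit 1) (nat_lit 4) (nat_lit 2) (nat_lit 5) (nat_lit 2) (nat_lit 4) (nat_lit 365) (nat_lit 234) (nat_lit 181)) (XT.lf (nat_lit 0) (nat_lit 16802144894) (nat_lit 76) (nat_lit 96360896056) (nat_lit 76) (nat_lit 90465748572) (nat_lit 1) (nat_lit 4) (nat_lit 2) (nat_lit 5) (nat_lit 2) (nat_lit 4) (nat_lit 366) (nat_lit 234) (nat_lit 180))) (XT.nd (nat_lit 78) (nat_lit 0) (nat_lit 0) (XT.lf (nat_lit 0) (nat_lit 22684822383) (nat_lit 76) (nat_lit 98454772528) (nat_lit 76) (nat_lit 92537928785) (nat_lit 1) (nat_lit 4) (nat_lit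 2) (nat_lit 5) (nat_lit 2) (nat_lit 4) (nat_lit 367) (nat_lit 234) (nat_lit 179)) (XT.nd (nat_lit 78) (nat_lit 0) (nat_lit 0) (XT.lf (nat_lit 0) (nat_lit 28832132261) (nat_lit 76) (nat_lit 100667422778) (nat_lit 76) (nat_lit 94729915931) (nat_lit 1) (nat_lit 4) (nat_lit 2) (nat_lit 5) (nat_lit 2) (nat_lit 4) (nat_lit 368) (nat_lit 234) (nat_lit 178)) (XT.lf (nat_lit 0) (nat_lit 35258710979) (nat_lit 76) (nat_lit 103004115021) (nat_lit 76) (nat_lit 97046929027) (nat_lit 1) (nat_lit 4) (nat_lit 2) (nat_lit 5) (nat_lit 2) (nat_lit 4) (nat_lit 369) (nat_lit 234) (nat_lit 177))))) (XT.nd (nat_lit 156) (nat_lit 0) (nat_lit 0) (XT.nd (nat_lit 78) (nat_lit 0) (nat_lit 0) (XT.lf (nat_lit 0) (nat_lit 41979859916) (nat_lit 76) (nat_lit 105470412810) (nat_lit 76) (nat_lit 99494484771) (nat_lit 1) (nat_lit 4) (nat_lit 2) (nat_lit 5) (nat_lit 2) (nat_lit 4) (nat_lit 370) (nat_lit 234) (nat_lit 176))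 (XT.lf (nat_lit 0) (nat_lit 49011581807) (nat_lit 76) (nat_lit 108072188281) (nat_lit 76) (nat_lit 102078410676) (nat_lit 1) (nat_lit 4) (nat_lit 2) (nat_lit 5) (nat_lit 2) (nat_lit 4) (nat_lit 371) (nat_lit 234) (nat_lit 175))) (XT.nd (nat_lit 78) (nat_lit 0) (nat_lit 0) (XT.lf (nat_lit 0) (nat_lit 56370618847) (nat_lit 76) (nat_lit 110815636140) (nat_lit 76) (nat_lit 104804858947) (nat_lit 1) (nat_lit 4) (nat_lit 2) (nat_lit 5) (nat_lit 2) (nat_lit 4) (nat_lit 372) (nat_lit 234) (nat_lit 174)) (XT.nd (nat_lit 78) (nat_lit 0) (nat_lit 0) (XT.lf (nat_lit 0) (nat_lit 64074492553) (nat_lit 76) (nat_lit 113707288403) (nat_lit 76) (nat_lit 107680321128) (nat_lit 1) (nat_lit 4) (nat_lit 2) (nat_lit 5) (nat_lit 2) (nat_lit 4) (nat_lit 373) (nat_lit 234) (nat_lit 173)) (XT.lf (nat_lit 0) (nat_lit 72141545482) (nat_lit 76) (nat_lit 116754029959) (nat_lit 76) (nat_lit 110711643557) (nat_lit 1)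 (nat_lit 4) (nat_lit 2) (nat_lit 5) (nat_lit 2) (nat_lit 4) (nat_lit 374) (nat_lit 234) (nat_lit 172)))))) (XT.nd (nat_lit 390) (nat_lit 0) (nat_lit 0) (XT.nd (nat_lit 156) (nat_lit 0) (nat_lit 0) (XT.nd (nat_lit 78) (nat_lit 0) (nat_lit 0) (XT.lf (nat_lit 0) (nat_lit 80590984901) (nat_lit 76) (nat_lit 119963114952) (nat_lit 76) (nat_lit 113906043668) (nat_lit 1) (nat_lit 4) (nat_lit 2) (nat_lit 5) (nat_lit 2) (nat_lit 4) (nat_lit 375) (nat_lit 234) (nat_lit 171)) (XT.lf (nat_lit 0) (nat_lit 89442928525) (nat_lit 76) (nat_lit 123342184063) (nat_lit 76) (nat_lit 117271127176) (nat_lit 1) (nat_lit 4) (nat_lit 2) (nat_lit 5) (nat_lit 2) (nat_lit 4) (nat_lit 376) (nat_lit 234) (nat_lit 170))) (XT.nd (nat_lit 78) (nat_lit 0) (nat_lit 0) (XT.lf (nat_lit 0) (nat_lit 98718452409) (nat_lit 76) (nat_lit 126899282693) (nat_lit 76) (nat_lit 120814906185) (nat_lit 1) (nat_lit 4) (nat_lit 2) (nat_lit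 5) (nat_lit 2) (nat_lit 4) (nat_lit 377) (nat_lit 234) (nat_lit 169)) (XT.nd (nat_lit 78) (nat_lit 0) (nat_lit 0) (XT.lf (nat_lit 0) (nat_lit 108439641134) (nat_lit 76) (nat_lit 130642880125) (nat_lit 76) (nat_lit 124545818263) (nat_lit 1) (nat_lit 4) (nat_lit 2) (nat_lit 5) (nat_lit 2) (nat_lit 4) (nat_lit 378) (nat_lit 234) (nat_lit 168)) (XT.lf (nat_lit 0) (nat_lit 118629640387) (nat_lit 76) (nat_lit 134581889685) (nat_lit 76) (nat_lit 128472746535) (nat_lit 1) (nat_lit 4) (nat_lit 2) (nat_lit 5) (nat_lit 2) (nat_lit 4) (nat_lit 379) (nat_lit 234) (nat_lit 167))))) (XT.nd (nat_lit 156) (nat_lit 0) (nat_lit 0) (XT.nd (nat_lit 78) (nat_lit 0) (nat_lit 0) (XT.lf (nat_lit 0) (nat_lit 129312712072) (nat_lit 76) (nat_lit 138725689970) (nat_lit 76) (nat_lit 132605040830) (nat_lit 1) (nat_lit 4) (nat_lit 2) (nat_lit 5) (nat_lit 2) (nat_lit 4) (nat_lit 380) (nat_lit 234) (nat_lit 166)) (XT.lf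 (nat_lit 0) (nat_lit 140514292074) (nat_lit 76) (nat_lit 143084147168) (nat_lit 76) (nat_lit 136952539943) (nat_lit 1) (nat_lit 4) (nat_lit 2) (nat_lit 5) (nat_lit 2) (nat_lit 4) (nat_lit 381) (nat_lit 234) (nat_lit 165))) (XT.nd (nat_lit 78) (nat_lit 0) (nat_lit 0) (XT.lf (nat_lit 0) (nat_lit 152261050820) (nat_lit 76) (nat_lit 147667638561) (nat_lit 76) (nat_lit 141525595063) (nat_lit 1) (nat_lit 4) (nat_lit 2) (nat_lit 5) (nat_lit 2) (nat_lit 4) (nat_lit 382) (nat_lit 234) (nat_lit 164)) (XT.nd (nat_lit 78) (nat_lit 0) (nat_lit 0) (XT.lf (nat_lit 0) (nat_lit 164580956785) (nat_lit 76) (nat_lit 152487077221) (nat_lit 76) (nat_lit 146335094417) (nat_lit 1) (nat_lit 4) (nat_lit 2) (nat_lit 5) (nat_lit 2) (nat_lit 4) (nat_lit 383) (nat_lit 234) (nat_lit 163)) (XT.lf (nat_lit 0) (nat_lit 177503343077) (nat_lit 76) (nat_lit 157553938004) (nat_lit 76) (nat_lit 151392489194) (nat_lit 1) (nat_lit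 4) (nat_lit 2) (nat_lit 5) (nat_lit 2) (nat_lit 4) (nat_lit 384) (nat_lit 234) (nat_lit 162))))))) (XT.nd (nat_lit 35100) (nat_lit 0) (nat_lit 532) (XT.nd (nat_lit 390) (nat_lit 0) (nat_lit 0) (XT.nd (nat_lit 156) (nat_lit 0) (nat_lit 0) (XT.nd (nat_lit 78) (nat_lit 0) (nat_lit 0) (XT.lf (nat_lit 0) (nat_lit 191058977283) (nat_lit 76) (nat_lit 162880284863) (nat_lit 76) (nat_lit 156709820809) (nat_lit 1) (nat_lit 4) (nat_lit 2) (nat_lit 5) (nat_lit 2) (nat_lit 4) (nat_lit 385) (nat_lit 234) (nat_lit 161)) (XT.lf (nat_lit 0) (nat_lit 205280134723) (nat_lit 76) (nat_lit 168478799577) (nat_lit 76) (nat_lit 162299749577) (nat_lit 1) (nat_lit 4) (nat_lit 2) (nat_lit 5) (nat_lit 2) (nat_lit 4) (nat_lit 386) (nat_lit 234) (nat_lit 160))) (XT.nd (nat_lit 78) (nat_lit 0) (nat_lit 0) (XT.lf (nat_lit 0) (nat_lit 220200675295) (nat_lit 76) (nat_lit 174362811943) (nat_lit 76) (nat_lit 168175584850)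 (nat_lit 1) (nat_lit 4) (nat_lit 2) (nat_lit 5) (nat_lit 2) (nat_lit 4) (nat_lit 387) (nat_lit 234) (nat_lit 159)) (XT.nd (nat_lit 78) (nat_lit 0) (nat_lit 0) (XT.lf (nat_lit 0) (nat_lit 235856124096) (nat_lit 76) (nat_lit 180546331513) (nat_lit 76) (nat_lit 174351316714) (nat_lit 1) (nat_lit 4) (nat_lit 2) (nat_lit 5) (nat_lit 2) (nat_lit 4) (nat_lit 388) (nat_lit 234) (nat_lit 158)) (XT.lf (nat_lit 0) (nat_lit 252283756004) (nat_lit 76) (nat_lit 187044080954) (nat_lit 76) (nat_lit 180841649292) (nat_lit 1) (nat_lit 4) (nat_lit 2) (nat_lit 5) (nat_lit 2) (nat_lit 4) (nat_lit 389) (nat_lit 234) (nat_lit 157))))) (XT.nd (nat_lit 34476) (nat_lit 0) (nat_lit 912) (XT.nd (nat_lit 34398) (nat_lit 0) (nat_lit 1140) (XT.lf (nat_lit 0) (nat_lit 269522684428) (nat_lit 76) (nat_lit 193871531098) (nat_lit 76) (nat_lit 187662035756) (nat_lit 1) (nat_lit 4) (nat_lit 2) (nat_lit 5) (nat_lit 2) (nat_lit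 4) (nat_lit 390) (nat_lit 234) (nat_lit 156)) (XT.lf (nat_lit 0) (nat_lit 7863276052) (nat_lit 152) (nat_lit 319290913) (nat_lit 152) (nat_lit 319290913) (nat_lit 16) (nat_lit 4) (nat_lit 18) (nat_lit 5) (nat_lit 18) (nat_lit 4) (nat_lit 310) (nat_lit 235) (nat_lit 235))) (XT.nd (nat_lit 78) (nat_lit 76) (nat_lit 0) (XT.lf (nat_lit 0) (nat_lit 3784254830) (nat_lit 152) (nat_lit 10426954606) (nat_lit 0) (nat_lit 3398284864) (nat_lit 14) (nat_lit 5) (nat_lit 16) (nat_lit 4) (nat_lit 14) (nat_lit 4) (nat_lit 311) (nat_lit 235) (nat_lit 234)) (XT.nd (nat_lit 78) (nat_lit 76) (nat_lit 0) (XT.lf (nat_lit 0) (nat_lit 8285836613) (nat_lit 152) (nat_lit 2433066868) (nat_lit 0) (nat_lit 7532276203) (nat_lit 14) (nat_lit 5) (nat_lit 16) (nat_lit 4) (nat_lit 14) (nat_lit 4) (nat_lit 312) (nat_lit 235) (nat_lit 233)) (XT.lf (nat_lit 0) (nat_lit 5885199020) (nat_lit 76) (nat_lit 7073098449) (nat_lit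 76) (nat_lit 5969451900) (nat_lit 13) (nat_lit 4) (nat_lit 14) (nat_lit 5) (nat_lit 14) (nat_lit 4) (nat_lit 313) (nat_lit 235) (nat_lit 232)))))) (XT.nd (nat_lit 390) (nat_lit 152) (nat_lit 0) (XT.nd (nat_lit 156) (nat_lit 76) (nat_lit 0) (XT.nd (nat_lit 78) (nat_lit 152) (nat_lit 0) (XT.lf (nat_lit 0) (nat_lit 14444422326) (nat_lit 76) (nat_lit 3317985769) (nat_lit 76) (nat_lit 1880923851) (nat_lit 13) (nat_lit 4) (nat_lit 14) (nat_lit 5) (nat_lit 14) (nat_lit 4) (nat_lit 314) (nat_lit 235) (nat_lit 231)) (XT.lf (nat_lit 0) (nat_lit 2249805291) (nat_lit 152) (nat_lit 17568577143) (nat_lit 0) (nat_lit 578757325) (nat_lit 11) (nat_lit 5) (nat_lit 13) (nat_lit 4) (nat_lit 11) (nat_lit 4) (nat_lit 315) (nat_lit 235) (nat_lit 230))) (XT.nd (nat_lit 78) (nat_lit 76) (nat_lit 0) (XT.lf (nat_lit 0) (nat_lit 6530059395) (nat_lit 152) (nat_lit 10085806203) (nat_lit 0) (nat_lit 4570994698) (nat_lit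 11) (nat_lit 5) (nat_lit 13) (nat_lit 4) (nat_lit 11) (nat_lit 4) (nat_lit 316) (nat_lit 235) (nat_lit 229)) (XT.nd (nat_lit 78) (nat_lit 76) (nat_lit 0) (XT.lf (nat_lit 0) (nat_lit 10893199770) (nat_lit 152) (nat_lit 2469660532) (nat_lit 0) (nat_lit 8659833423) (nat_lit 11) (nat_lit 5) (nat_lit 13) (nat_lit 4) (nat_lit 11) (nat_lit 4) (nat_lit 317) (nat_lit 235) (nat_lit 228)) (XT.lf (nat_lit 0) (nat_lit 5473169143) (nat_lit 76) (nat_lit 9961897208) (nat_lit 76) (nat_lit 7467291196) (nat_lit 10) (nat_lit 4) (nat_lit 11) (nat_lit 5) (nat_lit 11) (nat_lit 4) (nat_lit 318) (nat_lit 235) (nat_lit 227))))) (XT.nd (nat_lit 156) (nat_lit 76) (nat_lit 0) (XT.nd (nat_lit 78) (nat_lit 76) (nat_lit 0) (XT.lf (nat_lit 0) (nat_lit 13673280838) (nat_lit 76) (nat_lit 6450112524) (nat_lit 76) (nat_lit 3706706829) (nat_lit 10) (nat_lit 4) (nat_lit 11) (nat_lit 5) (nat_lit 11) (nat_lit 4) (nat_lit 319)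 (nat_lit 235) (nat_lit 226)) (XT.lf (nat_lit 0) (nat_lit 115566858) (nat_lit 152) (nat_lit 2743445713) (nat_lit 76) (nat_lit 21951016456) (nat_lit 9) (nat_lit 5) (nat_lit 11) (nat_lit 5) (nat_lit 10) (nat_lit 4) (nat_lit 320) (nat_lit 235) (nat_lit 225))) (XT.nd (nat_lit 78) (nat_lit 0) (nat_lit 0) (XT.lf (nat_lit 0) (nat_lit 3983393565) (nat_lit 152) (nat_lit 20923592205) (nat_lit 0) (nat_lit 930035072) (nat_lit 8) (nat_lit 5) (nat_lit 10) (nat_lit 4) (nat_lit 8) (nat_lit 4) (nat_lit 321) (nat_lit 235) (nat_lit 224)) (XT.nd (nat_lit 78) (nat_lit 0) (nat_lit 0) (XT.lf (nat_lit 0) (nat_lit 8026459119) (nat_lit 152) (nat_lit 14121450881) (nat_lit 0) (nat_lit 4768412512) (nat_lit 8) (nat_lit 5) (nat_lit 10) (nat_lit 4) (nat_lit 8) (nat_lit 4) (nat_lit 322) (nat_lit 235) (nat_lit 223)) (XT.lf (nat_lit 0) (nat_lit 12164778147) (nat_lit 152) (nat_lit 7178415760) (nat_lit 0) (nat_lit 8711790479)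 (nat_lit 8) (nat_lit 5) (nat_lit 10) (nat_lit 4) (nat_lit 8) (nat_lit 4) (nat_lit 323) (nat_lit 235) (nat_lit 222))))))))
noncomputable def xc41 : XT := (XT.nd (nat_lit 1560) (nat_lit 76) (nat_lit 0) (XT.nd (nat_lit 780) (nat_lit 152) (nat_lit 0) (XT.nd (nat_lit 390) (nat_lit 76) (nat_lit 0) (XT.nd (nat_lit 156) (nat_lit 76) (nat_lit 0) (XT.nd (nat_lit 78) (nat_lit 76) (nat_lit 0) (XT.lf (nat_lit 0) (nat_lit 16408203791) (nat_lit 152) (nat_lit 77955808) (nat_lit 0) (nat_lit 12769557970) (nat_lit 8) (nat_lit 5) (nat_lit 10) (nat_lit 4) (nat_lit 8) (nat_lit 4) (nat_lit 324) (nat_lit 235) (nat_lit 221)) (XT.lf (nat_lit 0) (nat_lit 7434794694) (nat_lit 76) (nat_lit 13448122731) (nat_lit 76) (nat_lit 9632659621) (nat_lit 7) (nat_lit 4) (nat_lit 8) (nat_lit 5) (nat_lit 8) (nat_lit 4) (nat_lit 325) (nat_lit 235) (nat_lit 220))) (XT.nd (nat_lit 78) (nat_lit 76) (nat_lit 0) (XT.lf (nat_lit 0)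 (nat_lit 15148111256) (nat_lit 76) (nat_lit 10339456025) (nat_lit 76) (nat_lit 6355595497) (nat_lit 7) (nat_lit 4) (nat_lit 8) (nat_lit 5) (nat_lit 8) (nat_lit 4) (nat_lit 326) (nat_lit 235) (nat_lit 219)) (XT.nd (nat_lit 78) (nat_lit 76) (nat_lit 0) (XT.lf (nat_lit 0) (nat_lit 23077781344) (nat_lit 76) (nat_lit 7154078113) (nat_lit 76) (nat_lit 3009839091) (nat_lit 7) (nat_lit 4) (nat_lit 8) (nat_lit 5) (nat_lit 8) (nat_lit 4) (nat_lit 327) (nat_lit 235) (nat_lit 218)) (XT.lf (nat_lit 0) (nat_lit 399370683) (nat_lit 152) (nat_lit 3478270543) (nat_lit 76) (nat_lit 30836550907) (nat_lit 6) (nat_lit 5) (nat_lit 8) (nat_lit 5) (nat_lit 7) (nat_lit 4) (nat_lit 328) (nat_lit 235) (nat_lit 217))))) (XT.nd (nat_lit 156) (nat_lit 0) (nat_lit 0) (XT.nd (nat_lit 78) (nat_lit 0) (nat_lit 0) (XT.lf (nat_lit 0) (nat_lit 3446248857) (nat_lit 76) (nat_lit 401896177) (nat_lit 152) (nat_lit 32411221187)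 (nat_lit 5) (nat_lit 5) (nat_lit 6) (nat_lit 5) (nat_lit 7) (nat_lit 4) (nat_lit 329) (nat_lit 235) (nat_lit 216)) (XT.lf (nat_lit 0) (nat_lit 7496837994) (nat_lit 152) (nat_lit 27249630047) (nat_lit 0) (nat_lit 3133990911) (nat_lit 5) (nat_lit 5) (nat_lit 7) (nat_lit 4) (nat_lit 5) (nat_lit 4) (nat_lit 330) (nat_lit 235) (nat_lit 215))) (XT.nd (nat_lit 78) (nat_lit 0) (nat_lit 0) (XT.lf (nat_lit 0) (nat_lit 11255414366) (nat_lit 152) (nat_lit 21563945293) (nat_lit 0) (nat_lit 6766906538) (nat_lit 5) (nat_lit 5) (nat_lit 7) (nat_lit 4) (nat_lit 5) (nat_lit 4) (nat_lit 331) (nat_lit 235) (nat_lit 214)) (XT.nd (nat_lit 78) (nat_lit 0) (nat_lit 0) (XT.lf (nat_lit 0) (nat_lit 15126548418) (nat_lit 152) (nat_lit 15736251033) (nat_lit 0) (nat_lit 10518363688) (nat_lit 5) (nat_lit 5) (nat_lit 7) (nat_lit 4) (nat_lit 5) (nat_lit 4) (nat_lit 332) (nat_lit 235) (nat_lit 213)) (XT.lf (nat_lit 0)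 (nat_lit 19119457134) (nat_lit 152) (nat_lit 9752671803) (nat_lit 0) (nat_lit 14397294403) (nat_lit 5) (nat_lit 5) (nat_lit 7) (nat_lit 4) (nat_lit 5) (nat_lit 4) (nat_lit 333) (nat_lit 235) (nat_lit 212)))))) (XT.nd (nat_lit 390) (nat_lit 76) (nat_lit 0) (XT.nd (nat_lit 156) (nat_lit 0) (nat_lit 0) (XT.nd (nat_lit 78) (nat_lit 76) (nat_lit 0) (XT.lf (nat_lit 0) (nat_lit 23243647441) (nat_lit 152) (nat_lit 3598960988) (nat_lit 0) (nat_lit 18412934233) (nat_lit 5) (nat_lit 5) (nat_lit 7) (nat_lit 4) (nat_lit 5) (nat_lit 4) (nat_lit 334) (nat_lit 235) (nat_lit 211)) (XT.lf (nat_lit 0) (nat_lit 2830114443) (nat_lit 76) (nat_lit 24723010413) (nat_lit 76) (nat_lit 19788915799) (nat_lit 4) (nat_lit 4) (nat_lit 5) (nat_lit 5) (nat_lit 5) (nat_lit 4) (nat_lit 335) (nat_lit 235) (nat_lit 210))) (XT.nd (nat_lit 78) (nat_lit 0) (nat_lit 0) (XT.lf (nat_lit 0) (nat_lit 9584671476) (nat_lit 76) (nat_lit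 22490458888) (nat_lit 76) (nat_lit 17457905791) (nat_lit 4) (nat_lit 4) (nat_lit 5) (nat_lit 5) (nat_lit 5) (nat_lit 4) (nat_lit 336) (nat_lit 235) (nat_lit 209)) (XT.nd (nat_lit 78) (nat_lit 0) (nat_lit 0) (XT.lf (nat_lit 0) (nat_lit 16561794488) (nat_lit 76) (nat_lit 20200588402) (nat_lit 76) (nat_lit 15074265321) (nat_lit 4) (nat_lit 4) (nat_lit 5) (nat_lit 5) (nat_lit 5) (nat_lit 4) (nat_lit 337) (nat_lit 235) (nat_lit 208)) (XT.lf (nat_lit 0) (nat_lit 23778095675) (nat_lit 76) (nat_lit 17847946880) (nat_lit 76) (nat_lit 12632319053) (nat_lit 4) (nat_lit 4) (nat_lit 5) (nat_lit 5) (nat_lit 5) (nat_lit 4) (nat_lit 338) (nat_lit 235) (nat_lit 207))))) (XT.nd (nat_lit 156) (nat_lit 76) (nat_lit 0) (XT.nd (nat_lit 78) (nat_lit 0) (nat_lit 0) (XT.lf (nat_lit 0) (nat_lit 31250756708) (nat_lit 76) (nat_lit 15426932796) (nat_lit 76) (nat_lit 10126252831) (nat_lit 4) (nat_lit 4) (nat_lit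 5) (nat_lit 5) (nat_lit 5) (nat_lit 4) (nat_lit 339) (nat_lit 235) (nat_lit 206)) (XT.lf (nat_lit 0) (nat_lit 38997569635) (nat_lit 76) (nat_lit 12931781831) (nat_lit 76) (nat_lit 7550099828) (nat_lit 4) (nat_lit 4) (nat_lit 5) (nat_lit 5) (nat_lit 5) (nat_lit 4) (nat_lit 340) (nat_lit 235) (nat_lit 205))) (XT.nd (nat_lit 78) (nat_lit 76) (nat_lit 0) (XT.lf (nat_lit 0) (nat_lit 47036979250) (nat_lit 76) (nat_lit 10356553149) (nat_lit 76) (nat_lit 4897726349) (nat_lit 4) (nat_lit 4) (nat_lit 5) (nat_lit 5) (nat_lit 5) (nat_lit 4) (nat_lit 341) (nat_lit 235) (nat_lit 204)) (XT.nd (nat_lit 78) (nat_lit 76) (nat_lit 0) (XT.lf (nat_lit 0) (nat_lit 55388127004) (nat_lit 76) (nat_lit 7695115253) (nat_lit 76) (nat_lit 2162817217) (nat_lit 4) (nat_lit 4) (nat_lit 5) (nat_lit 5) (nat_lit 5) (nat_lit 4) (nat_lit 342) (nat_lit 235) (nat_lit 203)) (XT.lf (nat_lit 0) (nat_lit 639978669) (nat_lit 152)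 (nat_lit 4290314369) (nat_lit 76) (nat_lit 63420079565) (nat_lit 3) (nat_lit 5) (nat_lit 5) (nat_lit 5) (nat_lit 4) (nat_lit 4) (nat_lit 343) (nat_lit 235) (nat_lit 202))))))) (XT.nd (nat_lit 780) (nat_lit 0) (nat_lit 0) (XT.nd (nat_lit 390) (nat_lit 0) (nat_lit 0) (XT.nd (nat_lit 156) (nat_lit 0) (nat_lit 0) (XT.nd (nat_lit 78) (nat_lit 0) (nat_lit 0) (XT.lf (nat_lit 0) (nat_lit 1484425860) (nat_lit 76) (nat_lit 2005006860) (nat_lit 152) (nat_lit 68119752027) (nat_lit 2) (nat_lit 5) (nat_lit 3) (nat_lit 5) (nat_lit 4) (nat_lit 4) (nat_lit 344) (nat_lit 235) (nat_lit 201)) (XT.lf (nat_lit 0) (nat_lit 6528096260) (nat_lit 152) (nat_lit 67431831717) (nat_lit 0) (nat_lit 1068688228) (nat_lit 2) (nat_lit 5) (nat_lit 4) (nat_lit 4) (nat_lit 2) (nat_lit 4) (nat_lit 345) (nat_lit 235) (nat_lit 200))) (XT.nd (nat_lit 78) (nat_lit 0) (nat_lit 0) (XT.lf (nat_lit 0) (nat_lit 9709881347) (nat_lit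 152) (nat_lit 64716686593) (nat_lit 0) (nat_lit 4192906679) (nat_lit 2) (nat_lit 5) (nat_lit 4) (nat_lit 4) (nat_lit 2) (nat_lit 4) (nat_lit 346) (nat_lit 235) (nat_lit 199)) (XT.nd (nat_lit 78) (nat_lit 0) (nat_lit 0) (XT.lf (nat_lit 0) (nat_lit 13011059885) (nat_lit 152) (nat_lit 61941555111) (nat_lit 0) (nat_lit 7439259850) (nat_lit 2) (nat_lit 5) (nat_lit 4) (nat_lit 4) (nat_lit 2) (nat_lit 4) (nat_lit 347) (nat_lit 235) (nat_lit 198)) (XT.lf (nat_lit 0) (nat_lit 16439491823) (nat_lit 152) (nat_lit 59099829813) (nat_lit 0) (nat_lit 10815477152) (nat_lit 2) (nat_lit 5) (nat_lit 4) (nat_lit 4) (nat_lit 2) (nat_lit 4) (nat_lit 348) (nat_lit 235) (nat_lit 197))))) (XT.nd (nat_lit 156) (nat_lit 0) (nat_lit 0) (XT.nd (nat_lit 78) (nat_lit 0) (nat_lit 0) (XT.lf (nat_lit 0) (nat_lit 20003340093) (nat_lit 152) (nat_lit 56184744687) (nat_lit 0) (nat_lit 14329597198) (nat_lit 2) (nat_lit 5)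 (nat_lit 4) (nat_lit 4) (nat_lit 2) (nat_lit 4) (nat_lit 349) (nat_lit 235) (nat_lit 196)) (XT.lf (nat_lit 0) (nat_lit 23711090049) (nat_lit 152) (nat_lit 53189359054) (nat_lit 0) (nat_lit 17989986941) (nat_lit 2) (nat_lit 5) (nat_lit 4) (nat_lit 4) (nat_lit 2) (nat_lit 4) (nat_lit 350) (nat_lit 235) (nat_lit 195))) (XT.nd (nat_lit 78) (nat_lit 0) (nat_lit 0) (XT.lf (nat_lit 0) (nat_lit 27571569667) (nat_lit 152) (nat_lit 50106541043) (nat_lit 0) (nat_lit 21805361594) (nat_lit 2) (nat_lit 5) (nat_lit 4) (nat_lit 4) (nat_lit 2) (nat_lit 4) (nat_lit 351) (nat_lit 235) (nat_lit 194)) (XT.nd (nat_lit 78) (nat_lit 0) (nat_lit 0) (XT.lf (nat_lit 0) (nat_lit 31593970565) (nat_lit 152) (nat_lit 46928950613) (nat_lit 0) (nat_lit 25784805382) (nat_lit 2) (nat_lit 5) (nat_lit 4) (nat_lit 4) (nat_lit 2) (nat_lit 4) (nat_lit 352) (nat_lit 235) (nat_lit 193)) (XT.lf (nat_lit 0) (nat_lit 35787869889)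 (nat_lit 152) (nat_lit 43649022070) (nat_lit 0) (nat_lit 29937793172) (nat_lit 2) (nat_lit 5) (nat_lit 4) (nat_lit 4) (nat_lit 2) (nat_lit 4) (nat_lit 353) (nat_lit 235) (nat_lit 192)))))) (XT.nd (nat_lit 390) (nat_lit 0) (nat_lit 0) (XT.nd (nat_lit 156) (nat_lit 0) (nat_lit 0) (XT.nd (nat_lit 78) (nat_lit 0) (nat_lit 0) (XT.lf (nat_lit 0) (nat_lit 40163253111) (nat_lit 152) (nat_lit 40258946063) (nat_lit 0) (nat_lit 34274213030) (nat_lit 2) (nat_lit 5) (nat_lit 4) (nat_lit 4) (nat_lit 2) (nat_lit 4) (nat_lit 354) (nat_lit 235) (nat_lit 191)) (XT.lf (nat_lit 0) (nat_lit 44730537813) (nat_lit 152) (nat_lit 36750650980) (nat_lit 0) (nat_lit 38804389764) (nat_lit 2) (nat_lit 5) (nat_lit 4) (nat_lit 4) (nat_lit 2) (nat_lit 4) (nat_lit 355) (nat_lit 235) (nat_lit 190))) (XT.nd (nat_lit 78) (nat_lit 0) (nat_lit 0) (XT.lf (nat_lit 0) (nat_lit 49500598480) (nat_lit 152) (nat_lit 33115783739)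 (nat_lit 0) (nat_lit 43539109511) (nat_lit 2) (nat_lit 5) (nat_lit 4) (nat_lit 4) (nat_lit 2) (nat_lit 4) (nat_lit 356) (nat_lit 235) (nat_lit 189)) (XT.nd (nat_lit 78) (nat_lit 0) (nat_lit 0) (XT.lf (nat_lit 0) (nat_lit 54484792401) (nat_lit 152) (nat_lit 29345689893) (nat_lit 0) (nat_lit 48489645413) (nat_lit 2) (nat_lit 5) (nat_lit 4) (nat_lit 4) (nat_lit 2) (nat_lit 4) (nat_lit 357) (nat_lit 235) (nat_lit 188)) (XT.lf (nat_lit 0) (nat_lit 59694986704) (nat_lit 152) (nat_lit 25431393029) (nat_lit 0) (nat_lit 53667784459) (nat_lit 2) (nat_lit 5) (nat_lit 4) (nat_lit 4) (nat_lit 2) (nat_lit 4) (nat_lit 358) (nat_lit 235) (nat_lit 187))))) (XT.nd (nat_lit 156) (nat_lit 0) (nat_lit 0) (XT.nd (nat_lit 78) (nat_lit 0) (nat_lit 0) (XT.lf (nat_lit 0) (nat_lit 65143586613) (nat_lit 152) (nat_lit 21363573393) (nat_lit 0) (nat_lit 59085855552) (nat_lit 2) (nat_lit 5) (nat_lit 4) (nat_lit 4)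 (nat_lit 2) (nat_lit 4) (nat_lit 359) (nat_lit 235) (nat_lit 186)) (XT.lf (nat_lit 0) (nat_lit 70843564985) (nat_lit 152) (nat_lit 17132545699) (nat_lit 0) (nat_lit 64756758861) (nat_lit 2) (nat_lit 5) (nat_lit 4) (nat_lit 4) (nat_lit 2) (nat_lit 4) (nat_lit 360) (nat_lit 235) (nat_lit 185))) (XT.nd (nat_lit 78) (nat_lit 0) (nat_lit 0) (XT.lf (nat_lit 0) (nat_lit 76808493197) (nat_lit 152) (nat_lit 12728236072) (nat_lit 0) (nat_lit 70693996538) (nat_lit 2) (nat_lit 5) (nat_lit 4) (nat_lit 4) (nat_lit 2) (nat_lit 4) (nat_lit 361) (nat_lit 235) (nat_lit 184)) (XT.nd (nat_lit 78) (nat_lit 0) (nat_lit 0) (XT.lf (nat_lit 0) (nat_lit 83052573460) (nat_lit 152) (nat_lit 8140158061) (nat_lit 0) (nat_lit 76911704861) (nat_lit 2) (nat_lit 5) (nat_lit 4) (nat_lit 4) (nat_lit 2) (nat_lit 4) (nat_lit 362) (nat_lit 235) (nat_lit 183)) (XT.lf (nat_lit 0) (nat_lit 89590672631) (nat_lit 152) (nat_lit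 3357387669) (nat_lit 0) (nat_lit 83424687900) (nat_lit 2) (nat_lit 5) (nat_lit 4) (nat_lit 4) (nat_lit 2) (nat_lit 4) (nat_lit 363) (nat_lit 235) (nat_lit 182))))))))
noncomputable def xc42 : XT := (XT.nd (nat_lit 1560) (nat_lit 0) (nat_lit 0) (XT.nd (nat_lit 780) (nat_lit 0) (nat_lit 0) (XT.nd (nat_lit 390) (nat_lit 0) (nat_lit 0) (XT.nd (nat_lit 156) (nat_lit 0) (nat_lit 0) (XT.nd (nat_lit 78) (nat_lit 0) (nat_lit 0) (XT.lf (nat_lit 0) (nat_lit 1685406172) (nat_lit 76) (nat_lit 94779265354) (nat_lit 76) (nat_lit 88589360497) (nat_lit 1) (nat_lit 4) (nat_lit 2) (nat_lit 5) (nat_lit 2) (nat_lit 4) (nat_lit 364) (nat_lit 235) (nat_lit 181)) (XT.lf (nat_lit 0) (nat_lit 7064375238) (nat_lit 76) (nat_lit 96657851875) (nat_lit 76) (nat_lit 90445165945) (nat_lit 1) (nat_lit 4) (nat_lit 2) (nat_lit 5) (nat_lit 2) (nat_lit 4) (nat_lit 365) (nat_lit 235) (nat_lit 180))) (XT.nd (nat_lit 78) (nat_lit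 0) (nat_lit 0) (XT.lf (nat_lit 0) (nat_lit 12681316196) (nat_lit 76) (nat_lit 98645151674) (nat_lit 76) (nat_lit 92410769484) (nat_lit 1) (nat_lit 4) (nat_lit 2) (nat_lit 5) (nat_lit 2) (nat_lit 4) (nat_lit 366) (nat_lit 235) (nat_lit 179)) (XT.nd (nat_lit 78) (nat_lit 0) (nat_lit 0) (XT.lf (nat_lit 0) (nat_lit 18549602716) (nat_lit 76) (nat_lit 100745896417) (nat_lit 76) (nat_lit 94490851123) (nat_lit 1) (nat_lit 4) (nat_lit 2) (nat_lit 5) (nat_lit 2) (nat_lit 4) (nat_lit 367) (nat_lit 235) (nat_lit 178)) (XT.lf (nat_lit 0) (nat_lit 24683206910) (nat_lit 76) (nat_lit 102965087877) (nat_lit 76) (nat_lit 96690363436) (nat_lit 1) (nat_lit 4) (nat_lit 2) (nat_lit 5) (nat_lit 2) (nat_lit 4) (nat_lit 368) (nat_lit 235) (nat_lit 177))))) (XT.nd (nat_lit 156) (nat_lit 0) (nat_lit 0) (XT.nd (nat_lit 78) (nat_lit 0) (nat_lit 0) (XT.lf (nat_lit 0) (nat_lit 31096732595) (nat_lit 76) (nat_lit 105308009843)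 (nat_lit 76) (nat_lit 99014543358) (nat_lit 1) (nat_lit 4) (nat_lit 2) (nat_lit 5) (nat_lit 2) (nat_lit 4) (nat_lit 369) (nat_lit 235) (nat_lit 176)) (XT.lf (nat_lit 0) (nat_lit 37805450072) (nat_lit 76) (nat_lit 107780240702) (nat_lit 76) (nat_lit 101468924650) (nat_lit 1) (nat_lit 4) (nat_lit 2) (nat_lit 5) (nat_lit 2) (nat_lit 4) (nat_lit 370) (nat_lit 235) (nat_lit 175))) (XT.nd (nat_lit 78) (nat_lit 0) (nat_lit 0) (XT.lf (nat_lit 0) (nat_lit 44825332478) (nat_lit 76) (nat_lit 110387666717) (nat_lit 76) (nat_lit 104059351078) (nat_lit 1) (nat_lit 4) (nat_lit 2) (nat_lit 5) (nat_lit 2) (nat_lit 4) (nat_lit 371) (nat_lit 235) (nat_lit 174)) (XT.nd (nat_lit 78) (nat_lit 0) (nat_lit 0) (XT.lf (nat_lit 0) (nat_lit 52173093817) (nat_lit 76) (nat_lit 113136496044) (nat_lit 76) (nat_lit 106791990323) (nat_lit 1) (nat_lit 4) (nat_lit 2) (nat_lit 5) (nat_lit 2) (nat_lit 4) (nat_lit 372) (nat_lit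 235) (nat_lit 173)) (XT.lf (nat_lit 0) (nat_lit 59866228761) (nat_lit 76) (nat_lit 116033273517) (nat_lit 76) (nat_lit 109673348669) (nat_lit 1) (nat_lit 4) (nat_lit 2) (nat_lit 5) (nat_lit 2) (nat_lit 4) (nat_lit 373) (nat_lit 235) (nat_lit 172)))))) (XT.nd (nat_lit 390) (nat_lit 0) (nat_lit 0) (XT.nd (nat_lit 156) (nat_lit 0) (nat_lit 0) (XT.nd (nat_lit 78) (nat_lit 0) (nat_lit 0) (XT.lf (nat_lit 0) (nat_lit 67923054296) (nat_lit 76) (nat_lit 119084896224) (nat_lit 76) (nat_lit 112710286493) (nat_lit 1) (nat_lit 4) (nat_lit 2) (nat_lit 5) (nat_lit 2) (nat_lit 4) (nat_lit 374) (nat_lit 235) (nat_lit 171)) (XT.lf (nat_lit 0) (nat_lit 76362753342) (nat_lit 76) (nat_lit 122298629933) (nat_lit 76) (nat_lit 115910034600) (nat_lit 1) (nat_lit 4) (nat_lit 2) (nat_lit 5) (nat_lit 2) (nat_lit 4) (nat_lit 375) (nat_lit 235) (nat_lit 170))) (XT.nd (nat_lit 78) (nat_lit 0) (nat_lit 0) (XT.lf (nat_lit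 0) (nat_lit 85205420419) (nat_lit 76) (nat_lit 125682126392) (nat_lit 76) (nat_lit 119280211437) (nat_lit 1) (nat_lit 4) (nat_lit 2) (nat_lit 5) (nat_lit 2) (nat_lit 4) (nat_lit 376) (nat_lit 235) (nat_lit 169)) (XT.nd (nat_lit 78) (nat_lit 0) (nat_lit 0) (XT.lf (nat_lit 0) (nat_lit 94472109497) (nat_lit 76) (nat_lit 129243441544) (nat_lit 76) (nat_lit 122828841236) (nat_lit 1) (nat_lit 4) (nat_lit 2) (nat_lit 5) (nat_lit 2) (nat_lit 4) (nat_lit 377) (nat_lit 235) (nat_lit 168)) (XT.lf (nat_lit 0) (nat_lit 104184884120) (nat_lit 76) (nat_lit 132991054711) (nat_lit 76) (nat_lit 126564373114) (nat_lit 1) (nat_lit 4) (nat_lit 2) (nat_lit 5) (nat_lit 2) (nat_lit 4) (nat_lit 378) (nat_lit 235) (nat_lit 167))))) (XT.nd (nat_lit 156) (nat_lit 0) (nat_lit 0) (XT.nd (nat_lit 78) (nat_lit 0) (nat_lit 0) (XT.lf (nat_lit 0) (nat_lit 114366869944) (nat_lit 76) (nat_lit 136933888782) (nat_lit 76)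 (nat_lit 130495701195) (nat_lit 1) (nat_lit 4) (nat_lit 2) (nat_lit 5) (nat_lit 2) (nat_lit 4) (nat_lit 379) (nat_lit 235) (nat_lit 166)) (XT.lf (nat_lit 0) (nat_lit 125042309791) (nat_lit 76) (nat_lit 141081331457) (nat_lit 76) (nat_lit 134632185784) (nat_lit 1) (nat_lit 4) (nat_lit 2) (nat_lit 5) (nat_lit 2) (nat_lit 4) (nat_lit 380) (nat_lit 235) (nat_lit 165))) (XT.nd (nat_lit 78) (nat_lit 0) (nat_lit 0) (XT.lf (nat_lit 0) (nat_lit 136236621375) (nat_lit 76) (nat_lit 145443257599) (nat_lit 76) (nat_lit 138983675655) (nat_lit 1) (nat_lit 4) (nat_lit 2) (nat_lit 5) (nat_lit 2) (nat_lit 4) (nat_lit 381) (nat_lit 235) (nat_lit 164)) (XT.nd (nat_lit 78) (nat_lit 0) (nat_lit 0) (XT.lf (nat_lit 0) (nat_lit 147976457819) (nat_lit 76) (nat_lit 150030052746) (nat_lit 76) (nat_lit 143560531496) (nat_lit 1) (nat_lit 4) (nat_lit 2) (nat_lit 5) (nat_lit 2) (nat_lit 4) (nat_lit 382) (nat_lit 235)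 (nat_lit 163)) (XT.lf (nat_lit 0) (nat_lit 160289771115) (nat_lit 76) (nat_lit 154852637841) (nat_lit 76) (nat_lit 148373650584) (nat_lit 1) (nat_lit 4) (nat_lit 2) (nat_lit 5) (nat_lit 2) (nat_lit 4) (nat_lit 383) (nat_lit 235) (nat_lit 162))))))) (XT.nd (nat_lit 34944) (nat_lit 0) (nat_lit 684) (XT.nd (nat_lit 390) (nat_lit 0) (nat_lit 0) (XT.nd (nat_lit 156) (nat_lit 0) (nat_lit 0) (XT.nd (nat_lit 78) (nat_lit 0) (nat_lit 0) (XT.lf (nat_lit 0) (nat_lit 173205878676) (nat_lit 76) (nat_lit 159922495227) (nat_lit 76) (nat_lit 153434492726) (nat_lit 1) (nat_lit 4) (nat_lit 2) (nat_lit 5) (nat_lit 2) (nat_lit 4) (nat_lit 384) (nat_lit 235) (nat_lit 161)) (XT.lf (nat_lit 0) (nat_lit 186755533137) (nat_lit 76) (nat_lit 165251695994) (nat_lit 76) (nat_lit 158755107547) (nat_lit 1) (nat_lit 4) (nat_lit 2) (nat_lit 5) (nat_lit 2) (nat_lit 4) (nat_lit 385) (nat_lit 235) (nat_lit 160))) (XT.nd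 (nat_lit 78) (nat_lit 0) (nat_lit 0) (XT.lf (nat_lit 0) (nat_lit 200970995582) (nat_lit 76) (nat_lit 170852928716) (nat_lit 76) (nat_lit 164348163177) (nat_lit 1) (nat_lit 4) (nat_lit 2) (nat_lit 5) (nat_lit 2) (nat_lit 4) (nat_lit 386) (nat_lit 235) (nat_lit 159)) (XT.nd (nat_lit 78) (nat_lit 0) (nat_lit 0) (XT.lf (nat_lit 0) (nat_lit 215886112349) (nat_lit 76) (nat_lit 176739529661) (nat_lit 76) (nat_lit 170226976415) (nat_lit 1) (nat_lit 4) (nat_lit 2) (nat_lit 5) (nat_lit 2) (nat_lit 4) (nat_lit 387) (nat_lit 235) (nat_lit 158)) (XT.lf (nat_lit 0) (nat_lit 231536395622) (nat_lit 76) (nat_lit 182925514544) (nat_lit 76) (nat_lit 176405544435) (nat_lit 1) (nat_lit 4) (nat_lit 2) (nat_lit 5) (nat_lit 2) (nat_lit 4) (nat_lit 388) (nat_lit 235) (nat_lit 157))))) (XT.nd (nat_lit 34320) (nat_lit 0) (nat_lit 1140) (XT.nd (nat_lit 78) (nat_lit 0) (nat_lit 0) (XT.lf (nat_lit 0) (nat_lit 247959107979)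 (nat_lit 76) (nat_lit 189425611903) (nat_lit 76) (nat_lit 182898578114) (nat_lit 1) (nat_lit 4) (nat_lit 2) (nat_lit 5) (nat_lit 2) (nat_lit 4) (nat_lit 389) (nat_lit 235) (nat_lit 156)) (XT.lf (nat_lit 0) (nat_lit 265193351116) (nat_lit 76) (nat_lit 196255298158) (nat_lit 76) (nat_lit 189721537055) (nat_lit 1) (nat_lit 4) (nat_lit 2) (nat_lit 5) (nat_lit 2) (nat_lit 4) (nat_lit 390) (nat_lit 235) (nat_lit 155))) (XT.nd (nat_lit 78) (nat_lit 152) (nat_lit 0) (XT.lf (nat_lit 0) (nat_lit 3588365614) (nat_lit 152) (nat_lit 759849767) (nat_lit 0) (nat_lit 3588365614) (nat_lit 18) (nat_lit 5) (nat_lit 20) (nat_lit 4) (nat_lit 18) (nat_lit 4) (nat_lit 308) (nat_lit 236) (nat_lit 236)) (XT.nd (nat_lit 78) (nat_lit 0) (nat_lit 0) (XT.lf (nat_lit 0) (nat_lit 6934901526) (nat_lit 152) (nat_lit 4956992024) (nat_lit 152) (nat_lit 4531460136) (nat_lit 16) (nat_lit 4) (nat_lit 18) (nat_lit 5) (nat_lit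 18) (nat_lit 4) (nat_lit 309) (nat_lit 236) (nat_lit 235)) (XT.lf (nat_lit 0) (nat_lit 15594703463) (nat_lit 152) (nat_lit 1121786149) (nat_lit 152) (nat_lit 290985796) (nat_lit 16) (nat_lit 4) (nat_lit 18) (nat_lit 5) (nat_lit 18) (nat_lit 4) (nat_lit 310) (nat_lit 236) (nat_lit 234)))))) (XT.nd (nat_lit 390) (nat_lit 76) (nat_lit 0) (XT.nd (nat_lit 156) (nat_lit 228) (nat_lit 0) (XT.nd (nat_lit 78) (nat_lit 0) (nat_lit 0) (XT.lf (nat_lit 0) (nat_lit 4036134606) (nat_lit 152) (nat_lit 10703817932) (nat_lit 0) (nat_lit 2877305730) (nat_lit 14) (nat_lit 5) (nat_lit 16) (nat_lit 4) (nat_lit 14) (nat_lit 4) (nat_lit 311) (nat_lit 236) (nat_lit 233)) (XT.lf (nat_lit 0) (nat_lit 8466455673) (nat_lit 152) (nat_lit 2838554271) (nat_lit 0) (nat_lit 6957540660) (nat_lit 14) (nat_lit 5) (nat_lit 16) (nat_lit 4) (nat_lit 14) (nat_lit 4) (nat_lit 312) (nat_lit 236) (nat_lit 232))) (XT.nd (nat_lit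 78) (nat_lit 152) (nat_lit 0) (XT.lf (nat_lit 0) (nat_lit 5339754877) (nat_lit 76) (nat_lit 7722778392) (nat_lit 76) (nat_lit 5880448010) (nat_lit 13) (nat_lit 4) (nat_lit 14) (nat_lit 5) (nat_lit 14) (nat_lit 4) (nat_lit 313) (nat_lit 236) (nat_lit 231)) (XT.nd (nat_lit 78) (nat_lit 152) (nat_lit 0) (XT.lf (nat_lit 0) (nat_lit 13778454854) (nat_lit 76) (nat_lit 4021671764) (nat_lit 76) (nat_lit 1861802936) (nat_lit 13) (nat_lit 4) (nat_lit 14) (nat_lit 5) (nat_lit 14) (nat_lit 4) (nat_lit 314) (nat_lit 236) (nat_lit 230)) (XT.lf (nat_lit 0) (nat_lit 2010038510) (nat_lit 76) (nat_lit 171583395) (nat_lit 152) (nat_lit 18238471282) (nat_lit 11) (nat_lit 5) (nat_lit 12) (nat_lit 5) (nat_lit 13) (nat_lit 4) (nat_lit 315) (nat_lit 236) (nat_lit 229))))) (XT.nd (nat_lit 156) (nat_lit 76) (nat_lit 0) (XT.nd (nat_lit 78) (nat_lit 0) (nat_lit 0) (XT.lf (nat_lit 0) (nat_lit 6395232998) (nat_lit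 152) (nat_lit 11042050604) (nat_lit 0) (nat_lit 3775896685) (nat_lit 11) (nat_lit 5) (nat_lit 13) (nat_lit 4) (nat_lit 11) (nat_lit 4) (nat_lit 316) (nat_lit 236) (nat_lit 228)) (XT.lf (nat_lit 0) (nat_lit 10697455168) (nat_lit 152) (nat_lit 3537758040) (nat_lit 0) (nat_lit 7816879189) (nat_lit 11) (nat_lit 5) (nat_lit 13) (nat_lit 4) (nat_lit 11) (nat_lit 4) (nat_lit 317) (nat_lit 236) (nat_lit 227))) (XT.nd (nat_lit 78) (nat_lit 0) (nat_lit 0) (XT.lf (nat_lit 0) (nat_lit 4259706482) (nat_lit 76) (nat_lit 10902652377) (nat_lit 76) (nat_lit 7773276716) (nat_lit 10) (nat_lit 4) (nat_lit 11) (nat_lit 5) (nat_lit 11) (nat_lit 4) (nat_lit 318) (nat_lit 236) (nat_lit 226)) (XT.nd (nat_lit 78) (nat_lit 0) (nat_lit 0) (XT.lf (nat_lit 0) (nat_lit 12355009580) (nat_lit 76) (nat_lit 7438785325) (nat_lit 76) (nat_lit 4072457586) (nat_lit 10) (nat_lit 4) (nat_lit 11) (nat_lit 5) (nat_lit 11) (nat_lit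 4) (nat_lit 319) (nat_lit 236) (nat_lit 225)) (XT.lf (nat_lit 0) (nat_lit 20650451526) (nat_lit 76) (nat_lit 3895278394) (nat_lit 76) (nat_lit 303282009) (nat_lit 10) (nat_lit 4) (nat_lit 11) (nat_lit 5) (nat_lit 11) (nat_lit 4) (nat_lit 320) (nat_lit 236) (nat_lit 224))))))))
noncomputable def xc43 : XT := (XT.nd (nat_lit 1560) (nat_lit 152) (nat_lit 0) (XT.nd (nat_lit 780) (nat_lit 76) (nat_lit 0) (XT.nd (nat_lit 390) (nat_lit 152) (nat_lit 0) (XT.nd (nat_lit 156) (nat_lit 76) (nat_lit 0) (XT.nd (nat_lit 78) (nat_lit 0) (nat_lit 0) (XT.lf (nat_lit 0) (nat_lit 3330816859) (nat_lit 76) (nat_lit 151005464) (nat_lit 152) (nat_lit 22399065318) (nat_lit 8) (nat_lit 5) (nat_lit 9) (nat_lit 5) (nat_lit 10) (nat_lit 4) (nat_lit 321) (nat_lit 236) (nat_lit 223)) (XT.lf (nat_lit 0) (nat_lit 7470384013) (nat_lit 152) (nat_lit 15842749045) (nat_lit 0) (nat_lit 3649805901) (nat_lit 8) (nat_lit 5)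 (nat_lit 10) (nat_lit 4) (nat_lit 8) (nat_lit 4) (nat_lit 322) (nat_lit 236) (nat_lit 222))) (XT.nd (nat_lit 78) (nat_lit 76) (nat_lit 0) (XT.lf (nat_lit 0) (nat_lit 11559039951) (nat_lit 152) (nat_lit 8992263643) (nat_lit 0) (nat_lit 7552803686) (nat_lit 8) (nat_lit 5) (nat_lit 10) (nat_lit 4) (nat_lit 8) (nat_lit 4) (nat_lit 323) (nat_lit 236) (nat_lit 221)) (XT.nd (nat_lit 78) (nat_lit 76) (nat_lit 0) (XT.lf (nat_lit 0) (nat_lit 15755167413) (nat_lit 152) (nat_lit 1979946280) (nat_lit 0) (nat_lit 11572113859) (nat_lit 8) (nat_lit 5) (nat_lit 10) (nat_lit 4) (nat_lit 8) (nat_lit 4) (nat_lit 324) (nat_lit 236) (nat_lit 220)) (XT.lf (nat_lit 0) (nat_lit 5383194892) (nat_lit 76) (nat_lit 14769609045) (nat_lit 76) (nat_lit 10418158073) (nat_lit 7) (nat_lit 4) (nat_lit 8) (nat_lit 5) (nat_lit 8) (nat_lit 4) (nat_lit 325) (nat_lit 236) (nat_lit 219))))) (XT.nd (nat_lit 156) (nat_lit 152)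 (nat_lit 0) (XT.nd (nat_lit 78) (nat_lit 0) (nat_lit 0) (XT.lf (nat_lit 0) (nat_lit 13013920087) (nat_lit 76) (nat_lit 11699343378) (nat_lit 76) (nat_lit 7187513912) (nat_lit 7) (nat_lit 4) (nat_lit 8) (nat_lit 5) (nat_lit 8) (nat_lit 4) (nat_lit 326) (nat_lit 236) (nat_lit 218)) (XT.lf (nat_lit 0) (nat_lit 20864931731) (nat_lit 76) (nat_lit 8550537883) (nat_lit 76) (nat_lit 3885966996) (nat_lit 7) (nat_lit 4) (nat_lit 8) (nat_lit 5) (nat_lit 8) (nat_lit 4) (nat_lit 327) (nat_lit 236) (nat_lit 217))) (XT.nd (nat_lit 78) (nat_lit 152) (nat_lit 0) (XT.lf (nat_lit 0) (nat_lit 28954922709) (nat_lit 76) (nat_lit 5315695406) (nat_lit 76) (nat_lit 505656497) (nat_lit 7) (nat_lit 4) (nat_lit 8) (nat_lit 5) (nat_lit 8) (nat_lit 4) (nat_lit 328) (nat_lit 236) (nat_lit 216)) (XT.nd (nat_lit 78) (nat_lit 0) (nat_lit 0) (XT.lf (nat_lit 0) (nat_lit 958802897) (nat_lit 76) (nat_lit 1922847238) (nat_lit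 152) (nat_lit 33444092448) (nat_lit 5) (nat_lit 5) (nat_lit 6) (nat_lit 5) (nat_lit 7) (nat_lit 4) (nat_lit 329) (nat_lit 236) (nat_lit 215)) (XT.lf (nat_lit 0) (nat_lit 6467992056) (nat_lit 152) (nat_lit 29852578484) (nat_lit 0) (nat_lit 1629398090) (nat_lit 5) (nat_lit 5) (nat_lit 7) (nat_lit 4) (nat_lit 5) (nat_lit 4) (nat_lit 330) (nat_lit 236) (nat_lit 214)))))) (XT.nd (nat_lit 390) (nat_lit 76) (nat_lit 0) (XT.nd (nat_lit 156) (nat_lit 0) (nat_lit 0) (XT.nd (nat_lit 78) (nat_lit 0) (nat_lit 0) (XT.lf (nat_lit 0) (nat_lit 10189802019) (nat_lit 152) (nat_lit 24236296038) (nat_lit 0) (nat_lit 5231531152) (nat_lit 5) (nat_lit 5) (nat_lit 7) (nat_lit 4) (nat_lit 5) (nat_lit 4) (nat_lit 331) (nat_lit 236) (nat_lit 213)) (XT.lf (nat_lit 0) (nat_lit 14025920443) (nat_lit 152) (nat_lit 18474699214) (nat_lit 0) (nat_lit 8953671574) (nat_lit 5) (nat_lit 5) (nat_lit 7) (nat_lit 4) (nat_lit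 5) (nat_lit 4) (nat_lit 332) (nat_lit 236) (nat_lit 212))) (XT.nd (nat_lit 78) (nat_lit 0) (nat_lit 0) (XT.lf (nat_lit 0) (nat_lit 17985480942) (nat_lit 152) (nat_lit 12554069923) (nat_lit 0) (nat_lit 12804681596) (nat_lit 5) (nat_lit 5) (nat_lit 7) (nat_lit 4) (nat_lit 5) (nat_lit 4) (nat_lit 333) (nat_lit 236) (nat_lit 211)) (XT.nd (nat_lit 78) (nat_lit 0) (nat_lit 0) (XT.lf (nat_lit 0) (nat_lit 22077911041) (nat_lit 152) (nat_lit 6460311430) (nat_lit 0) (nat_lit 16793730289) (nat_lit 5) (nat_lit 5) (nat_lit 7) (nat_lit 4) (nat_lit 5) (nat_lit 4) (nat_lit 334) (nat_lit 236) (nat_lit 210)) (XT.lf (nat_lit 0) (nat_lit 26312954623) (nat_lit 152) (nat_lit 178914786) (nat_lit 0) (nat_lit 20930315388) (nat_lit 5) (nat_lit 5) (nat_lit 7) (nat_lit 4) (nat_lit 5) (nat_lit 4) (nat_lit 335) (nat_lit 236) (nat_lit 209))))) (XT.nd (nat_lit 156) (nat_lit 0) (nat_lit 0) (XT.nd (nat_lit 78) (nat_lit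 0) (nat_lit 0) (XT.lf (nat_lit 0) (nat_lit 6513549992) (nat_lit 76) (nat_lit 24288839900) (nat_lit 76) (nat_lit 18812430682) (nat_lit 4) (nat_lit 4) (nat_lit 5) (nat_lit 5) (nat_lit 5) (nat_lit 4) (nat_lit 336) (nat_lit 236) (nat_lit 208)) (XT.lf (nat_lit 0) (nat_lit 13437171552) (nat_lit 76) (nat_lit 22024199896) (nat_lit 76) (nat_lit 16458485932) (nat_lit 4) (nat_lit 4) (nat_lit 5) (nat_lit 5) (nat_lit 5) (nat_lit 4) (nat_lit 337) (nat_lit 236) (nat_lit 207))) (XT.nd (nat_lit 78) (nat_lit 0) (nat_lit 0) (XT.lf (nat_lit 0) (nat_lit 20602518977) (nat_lit 76) (nat_lit 19695587406) (nat_lit 76) (nat_lit 14044821302) (nat_lit 4) (nat_lit 4) (nat_lit 5) (nat_lit 5) (nat_lit 5) (nat_lit 4) (nat_lit 338) (nat_lit 236) (nat_lit 206)) (XT.nd (nat_lit 78) (nat_lit 0) (nat_lit 0) (XT.lf (nat_lit 0) (nat_lit 28026652615) (nat_lit 76) (nat_lit 17297458113) (nat_lit 76) (nat_lit 11565689973) (nat_lit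 4) (nat_lit 4) (nat_lit 5) (nat_lit 5) (nat_lit 5) (nat_lit 4) (nat_lit 339) (nat_lit 236) (nat_lit 205)) (XT.lf (nat_lit 0) (nat_lit 35727248978) (nat_lit 76) (nat_lit 14824102188) (nat_lit 76) (nat_lit 9015189250) (nat_lit 4) (nat_lit 4) (nat_lit 5) (nat_lit 5) (nat_lit 5) (nat_lit 4) (nat_lit 340) (nat_lit 236) (nat_lit 204))))))) (XT.nd (nat_lit 780) (nat_lit 0) (nat_lit 0) (XT.nd (nat_lit 390) (nat_lit 0) (nat_lit 0) (XT.nd (nat_lit 156) (nat_lit 152) (nat_lit 0) (XT.nd (nat_lit 78) (nat_lit 0) (nat_lit 0) (XT.lf (nat_lit 0) (nat_lit 43722642816) (nat_lit 76) (nat_lit 12269630687) (nat_lit 76) (nat_lit 6387246513) (nat_lit 4) (nat_lit 4) (nat_lit 5) (nat_lit 5) (nat_lit 5) (nat_lit 4) (nat_lit 341) (nat_lit 236) (nat_lit 203)) (XT.lf (nat_lit 0) (nat_lit 52031870784) (nat_lit 76) (nat_lit 9627961534) (nat_lit 76) (nat_lit 3675604755) (nat_lit 4) (nat_lit 4) (nat_lit 5) (nat_lit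 5) (nat_lit 5) (nat_lit 4) (nat_lit 342) (nat_lit 236) (nat_lit 202))) (XT.nd (nat_lit 78) (nat_lit 152) (nat_lit 0) (XT.lf (nat_lit 0) (nat_lit 60674716756) (nat_lit 76) (nat_lit 6892805042) (nat_lit 76) (nat_lit 873807686) (nat_lit 4) (nat_lit 4) (nat_lit 5) (nat_lit 5) (nat_lit 5) (nat_lit 4) (nat_lit 343) (nat_lit 236) (nat_lit 201)) (XT.nd (nat_lit 78) (nat_lit 76) (nat_lit 0) (XT.lf (nat_lit 0) (nat_lit 1960008892) (nat_lit 152) (nat_lit 2064446342) (nat_lit 76) (nat_lit 67678556346) (nat_lit 3) (nat_lit 5) (nat_lit 5) (nat_lit 5) (nat_lit 4) (nat_lit 4) (nat_lit 344) (nat_lit 236) (nat_lit 200)) (XT.lf (nat_lit 0) (nat_lit 3959669870) (nat_lit 76) (nat_lit 968417646) (nat_lit 152) (nat_lit 70197891988) (nat_lit 2) (nat_lit 5) (nat_lit 3) (nat_lit 5) (nat_lit 4) (nat_lit 4) (nat_lit 345) (nat_lit 236) (nat_lit 199))))) (XT.nd (nat_lit 156) (nat_lit 0) (nat_lit 0) (XT.nd (nat_lit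 78) (nat_lit 0) (nat_lit 0) (XT.lf (nat_lit 0) (nat_lit 8075389083) (nat_lit 152) (nat_lit 68473006210) (nat_lit 0) (nat_lit 2170173679) (nat_lit 2) (nat_lit 5) (nat_lit 4) (nat_lit 4) (nat_lit 2) (nat_lit 4) (nat_lit 346) (nat_lit 236) (nat_lit 198)) (XT.lf (nat_lit 0) (nat_lit 11358125901) (nat_lit 152) (nat_lit 65733076073) (nat_lit 0) (nat_lit 5400695861) (nat_lit 2) (nat_lit 5) (nat_lit 4) (nat_lit 4) (nat_lit 2) (nat_lit 4) (nat_lit 347) (nat_lit 236) (nat_lit 197))) (XT.nd (nat_lit 78) (nat_lit 0) (nat_lit 0) (XT.lf (nat_lit 0) (nat_lit 14768994295) (nat_lit 152) (nat_lit 62924875866) (nat_lit 0) (nat_lit 8761836031) (nat_lit 2) (nat_lit 5) (nat_lit 4) (nat_lit 4) (nat_lit 2) (nat_lit 4) (nat_lit 348) (nat_lit 236) (nat_lit 196)) (XT.nd (nat_lit 78) (nat_lit 0) (nat_lit 0) (XT.lf (nat_lit 0) (nat_lit 18316115381) (nat_lit 152) (nat_lit 60041719399) (nat_lit 0) (nat_lit 12261596904)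 (nat_lit 2) (nat_lit 5) (nat_lit 4) (nat_lit 4) (nat_lit 2) (nat_lit 4) (nat_lit 349) (nat_lit 236) (nat_lit 195)) (XT.lf (nat_lit 0) (nat_lit 22007934685) (nat_lit 152) (nat_lit 57076742012) (nat_lit 0) (nat_lit 15908311243) (nat_lit 2) (nat_lit 5) (nat_lit 4) (nat_lit 4) (nat_lit 2) (nat_lit 4) (nat_lit 350) (nat_lit 236) (nat_lit 194)))))) (XT.nd (nat_lit 390) (nat_lit 0) (nat_lit 0) (XT.nd (nat_lit 156) (nat_lit 0) (nat_lit 0) (XT.nd (nat_lit 78) (nat_lit 0) (nat_lit 0) (XT.lf (nat_lit 0) (nat_lit 25853242254) (nat_lit 152) (nat_lit 54022884236) (nat_lit 0) (nat_lit 19710661702) (nat_lit 2) (nat_lit 5) (nat_lit 4) (nat_lit 4) (nat_lit 2) (nat_lit 4) (nat_lit 351) (nat_lit 236) (nat_lit 193)) (XT.lf (nat_lit 0) (nat_lit 29861193582) (nat_lit 152) (nat_lit 50872874981) (nat_lit 0) (nat_lit 23677701496) (nat_lit 2) (nat_lit 5) (nat_lit 4) (nat_lit 4) (nat_lit 2) (nat_lit 4) (nat_lit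 352) (nat_lit 236) (nat_lit 192))) (XT.nd (nat_lit 78) (nat_lit 0) (nat_lit 0) (XT.lf (nat_lit 0) (nat_lit 34041331409) (nat_lit 152) (nat_lit 47619214225) (nat_lit 0) (nat_lit 27818875958) (nat_lit 2) (nat_lit 5) (nat_lit 4) (nat_lit 4) (nat_lit 2) (nat_lit 4) (nat_lit 353) (nat_lit 236) (nat_lit 191)) (XT.nd (nat_lit 78) (nat_lit 0) (nat_lit 0) (XT.lf (nat_lit 0) (nat_lit 38403608445) (nat_lit 152) (nat_lit 44254155156) (nat_lit 0) (nat_lit 32144045028) (nat_lit 2) (nat_lit 5) (nat_lit 4) (nat_lit 4) (nat_lit 2) (nat_lit 4) (nat_lit 354) (nat_lit 236) (nat_lit 190)) (XT.lf (nat_lit 0) (nat_lit 42958411064) (nat_lit 152) (nat_lit 40769685730) (nat_lit 0) (nat_lit 36663506726) (nat_lit 2) (nat_lit 5) (nat_lit 4) (nat_lit 4) (nat_lit 2) (nat_lit 4) (nat_lit 355) (nat_lit 236) (nat_lit 189))))) (XT.nd (nat_lit 234) (nat_lit 0) (nat_lit 0) (XT.nd (nat_lit 78) (nat_lit 0) (nat_lit 0) (XT.lf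 (nat_lit 0) (nat_lit 47716584034) (nat_lit 152) (nat_lit 37157509590) (nat_lit 0) (nat_lit 41388021677) (nat_lit 2) (nat_lit 5) (nat_lit 4) (nat_lit 4) (nat_lit 2) (nat_lit 4) (nat_lit 356) (nat_lit 236) (nat_lit 188)) (XT.nd (nat_lit 78) (nat_lit 0) (nat_lit 0) (XT.lf (nat_lit 0) (nat_lit 52689456338) (nat_lit 152) (nat_lit 33409026317) (nat_lit 0) (nat_lit 46328838724) (nat_lit 2) (nat_lit 5) (nat_lit 4) (nat_lit 4) (nat_lit 2) (nat_lit 4) (nat_lit 357) (nat_lit 236) (nat_lit 187)) (XT.lf (nat_lit 0) (nat_lit 57888868149) (nat_lit 152) (nat_lit 29515310951) (nat_lit 0) (nat_lit 51497721719) (nat_lit 2) (nat_lit 5) (nat_lit 4) (nat_lit 4) (nat_lit 2) (nat_lit 4) (nat_lit 358) (nat_lit 236) (nat_lit 186)))) (XT.nd (nat_lit 78) (nat_lit 0) (nat_lit 0) (XT.lf (nat_lit 0) (nat_lit 63327199018) (nat_lit 152) (nat_lit 25467092741) (nat_lit 0) (nat_lit 56906977525) (nat_lit 2) (nat_lit 5)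 (nat_lit 4) (nat_lit 4) (nat_lit 2) (nat_lit 4) (nat_lit 359) (nat_lit 236) (nat_lit 185)) (XT.nd (nat_lit 78) (nat_lit 0) (nat_lit 0) (XT.lf (nat_lit 0) (nat_lit 69017397352) (nat_lit 152) (nat_lit 21254733072) (nat_lit 0) (nat_lit 62569485323) (nat_lit 2) (nat_lit 5) (nat_lit 4) (nat_lit 4) (nat_lit 2) (nat_lit 4) (nat_lit 360) (nat_lit 236) (nat_lit 184)) (XT.lf (nat_lit 0) (nat_lit 74973011242) (nat_lit 152) (nat_lit 16868202517) (nat_lit 0) (nat_lit 68498727274) (nat_lit 2) (nat_lit 5) (nat_lit 4) (nat_lit 4) (nat_lit 2) (nat_lit 4) (nat_lit 361) (nat_lit 236) (nat_lit 183))))))))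
noncomputable def xc44 : XT := (XT.nd (nat_lit 1560) (nat_lit 0) (nat_lit 0) (XT.nd (nat_lit 780) (nat_lit 0) (nat_lit 0) (XT.nd (nat_lit 390) (nat_lit 0) (nat_lit 0) (XT.nd (nat_lit 156) (nat_lit 76) (nat_lit 0) (XT.nd (nat_lit 78) (nat_lit 0) (nat_lit 0) (XT.lf (nat_lit 0) (nat_lit 81208220722) (nat_lit 152) (nat_lit 12297056955) (nat_lit 0) (nat_lit 74708820622) (nat_lit 2) (nat_lit 5) (nat_lit 4) (nat_lit 4) (nat_lit 2) (nat_lit 4) (nat_lit 362) (nat_lit 236) (nat_lit 182)) (XT.lf (nat_lit 0) (nat_lit 87737871528) (nat_lit 152) (nat_lit 7530412705) (nat_lit 0) (nat_lit 81214551302) (nat_lit 2) (nat_lit 5) (nat_lit 4) (nat_lit 4) (nat_lit 2) (nat_lit 4) (nat_lit 363) (nat_lit 236) (nat_lit 181))) (XT.nd (nat_lit 78) (nat_lit 76) (nat_lit 0) (XT.lf (nat_lit 0) (nat_lit 94577510449) (nat_lit 152) (nat_lit 2556920616) (nat_lit 0) (nat_lit 88031409150) (nat_lit 2) (nat_lit 5) (nat_lit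 4) (nat_lit 4) (nat_lit 2) (nat_lit 4) (nat_lit 364) (nat_lit 236) (nat_lit 180)) (XT.nd (nat_lit 78) (nat_lit 0) (nat_lit 0) (XT.lf (nat_lit 0) (nat_lit 2722394588) (nat_lit 76) (nat_lit 99063531958) (nat_lit 76) (nat_lit 92495734400) (nat_lit 1) (nat_lit 4) (nat_lit 2) (nat_lit 5) (nat_lit 2) (nat_lit 4) (nat_lit 365) (nat_lit 236) (nat_lit 179)) (XT.lf (nat_lit 0) (nat_lit 8324944577) (nat_lit 76) (nat_lit 101057700027) (nat_lit 76) (nat_lit 94469239365) (nat_lit 1) (nat_lit 4) (nat_lit 2) (nat_lit 5) (nat_lit 2) (nat_lit 4) (nat_lit 366) (nat_lit 236) (nat_lit 178))))) (XT.nd (nat_lit 156) (nat_lit 0) (nat_lit 0) (XT.nd (nat_lit 78) (nat_lit 0) (nat_lit 0) (XT.lf (nat_lit 0) (nat_lit 14179525413) (nat_lit 76) (nat_lit 103164985980) (nat_lit 76) (nat_lit 96556846170) (nat_lit 1) (nat_lit 4) (nat_lit 2) (nat_lit 5) (nat_lit 2) (nat_lit 4) (nat_lit 367) (nat_lit 236) (nat_lit 177))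 (XT.lf (nat_lit 0) (nat_lit 20300076574) (nat_lit 76) (nat_lit 105390407164) (nat_lit 76) (nat_lit 98763525309) (nat_lit 1) (nat_lit 4) (nat_lit 2) (nat_lit 5) (nat_lit 2) (nat_lit 4) (nat_lit 368) (nat_lit 236) (nat_lit 176))) (XT.nd (nat_lit 78) (nat_lit 0) (nat_lit 0) (XT.lf (nat_lit 0) (nat_lit 26701170799) (nat_lit 76) (nat_lit 107739262200) (nat_lit 76) (nat_lit 101094530779) (nat_lit 1) (nat_lit 4) (nat_lit 2) (nat_lit 5) (nat_lit 2) (nat_lit 4) (nat_lit 369) (nat_lit 236) (nat_lit 175)) (XT.nd (nat_lit 78) (nat_lit 0) (nat_lit 0) (XT.lf (nat_lit 0) (nat_lit 33398048791) (nat_lit 76) (nat_lit 110217143602) (nat_lit 76) (nat_lit 103555412594) (nat_lit 1) (nat_lit 4) (nat_lit 2) (nat_lit 5) (nat_lit 2) (nat_lit 4) (nat_lit 370) (nat_lit 236) (nat_lit 174)) (XT.lf (nat_lit 0) (nat_lit 40406655496) (nat_lit 76) (nat_lit 112829951086) (nat_lit 76) (nat_lit 106152029995) (nat_lit 1)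 (nat_lit 4) (nat_lit 2) (nat_lit 5) (nat_lit 2) (nat_lit 4) (nat_lit 371) (nat_lit 236) (nat_lit 173)))))) (XT.nd (nat_lit 390) (nat_lit 0) (nat_lit 0) (XT.nd (nat_lit 156) (nat_lit 0) (nat_lit 0) (XT.nd (nat_lit 78) (nat_lit 0) (nat_lit 0) (XT.lf (nat_lit 0) (nat_lit 47743678073) (nat_lit 76) (nat_lit 115583905623) (nat_lit 76) (nat_lit 108890565405) (nat_lit 1) (nat_lit 4) (nat_lit 2) (nat_lit 5) (nat_lit 2) (nat_lit 4) (nat_lit 372) (nat_lit 236) (nat_lit 172)) (XT.lf (nat_lit 0) (nat_lit 55426585624) (nat_lit 76) (nat_lit 118485564247) (nat_lit 76) (nat_lit 111777539147) (nat_lit 1) (nat_lit 4) (nat_lit 2) (nat_lit 5) (nat_lit 2) (nat_lit 4) (nat_lit 373) (nat_lit 236) (nat_lit 171))) (XT.nd (nat_lit 78) (nat_lit 0) (nat_lit 0) (XT.lf (nat_lit 0) (nat_lit 63473670785) (nat_lit 76) (nat_lit 121541835669) (nat_lit 76) (nat_lit 114819824967) (nat_lit 1) (nat_lit 4) (nat_lit 2) (nat_lit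 5) (nat_lit 2) (nat_lit 4) (nat_lit 374) (nat_lit 236) (nat_lit 170)) (XT.nd (nat_lit 78) (nat_lit 0) (nat_lit 0) (XT.lf (nat_lit 0) (nat_lit 71904093284) (nat_lit 76) (nat_lit 124759996727) (nat_lit 76) (nat_lit 118024666403) (nat_lit 1) (nat_lit 4) (nat_lit 2) (nat_lit 5) (nat_lit 2) (nat_lit 4) (nat_lit 375) (nat_lit 236) (nat_lit 169)) (XT.lf (nat_lit 0) (nat_lit 80737925554) (nat_lit 76) (nat_lit 128147709708) (nat_lit 76) (nat_lit 121399694031) (nat_lit 1) (nat_lit 4) (nat_lit 2) (nat_lit 5) (nat_lit 2) (nat_lit 4) (nat_lit 376) (nat_lit 236) (nat_lit 168))))) (XT.nd (nat_lit 156) (nat_lit 0) (nat_lit 0) (XT.nd (nat_lit 78) (nat_lit 0) (nat_lit 0) (XT.lf (nat_lit 0) (nat_lit 89996200531) (nat_lit 76) (nat_lit 131713040595) (nat_lit 76) (nat_lit 124952943629) (nat_lit 1) (nat_lit 4) (nat_lit 2) (nat_lit 5) (nat_lit 2) (nat_lit 4) (nat_lit 377) (nat_lit 236) (nat_lit 167)) (XT.lf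 (nat_lit 0) (nat_lit 99700961724) (nat_lit 76) (nat_lit 135464478272) (nat_lit 76) (nat_lit 128692875316) (nat_lit 1) (nat_lit 4) (nat_lit 2) (nat_lit 5) (nat_lit 2) (nat_lit 4) (nat_lit 378) (nat_lit 236) (nat_lit 166))) (XT.nd (nat_lit 78) (nat_lit 0) (nat_lit 0) (XT.lf (nat_lit 0) (nat_lit 109875315710) (nat_lit 76) (nat_lit 139410954734) (nat_lit 76) (nat_lit 132628393692) (nat_lit 1) (nat_lit 4) (nat_lit 2) (nat_lit 5) (nat_lit 2) (nat_lit 4) (nat_lit 379) (nat_lit 236) (nat_lit 165)) (XT.nd (nat_lit 78) (nat_lit 0) (nat_lit 0) (XT.lf (nat_lit 0) (nat_lit 120543487140) (nat_lit 76) (nat_lit 143561866351) (nat_lit 76) (nat_lit 136768869038) (nat_lit 1) (nat_lit 4) (nat_lit 2) (nat_lit 5) (nat_lit 2) (nat_lit 4) (nat_lit 380) (nat_lit 236) (nat_lit 164)) (XT.lf (nat_lit 0) (nat_lit 131730876422) (nat_lit 76) (nat_lit 147927096249) (nat_lit 76) (nat_lit 141124159629) (nat_lit 1) (nat_lit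 4) (nat_lit 2) (nat_lit 5) (nat_lit 2) (nat_lit 4) (nat_lit 381) (nat_lit 236) (nat_lit 163))))))) (XT.nd (nat_lit 34788) (nat_lit 0) (nat_lit 760) (XT.nd (nat_lit 390) (nat_lit 0) (nat_lit 0) (XT.nd (nat_lit 156) (nat_lit 0) (nat_lit 0) (XT.nd (nat_lit 78) (nat_lit 0) (nat_lit 0) (XT.lf (nat_lit 0) (nat_lit 143464120198) (nat_lit 76) (nat_lit 152517037830) (nat_lit 76) (nat_lit 145704635205) (nat_lit 1) (nat_lit 4) (nat_lit 2) (nat_lit 5) (nat_lit 2) (nat_lit 4) (nat_lit 382) (nat_lit 236) (nat_lit 162)) (XT.lf (nat_lit 0) (nat_lit 155771154762) (nat_lit 76) (nat_lit 157342619528) (nat_lit 76) (nat_lit 150521201659) (nat_lit 1) (nat_lit 4) (nat_lit 2) (nat_lit 5) (nat_lit 2) (nat_lit 4) (nat_lit 383) (nat_lit 236) (nat_lit 161))) (XT.nd (nat_lit 78) (nat_lit 0) (nat_lit 0) (XT.lf (nat_lit 0) (nat_lit 168681282577) (nat_lit 76) (nat_lit 162415330823) (nat_lit 76) (nat_lit 155585327006)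 (nat_lit 1) (nat_lit 4) (nat_lit 2) (nat_lit 5) (nat_lit 2) (nat_lit 4) (nat_lit 384) (nat_lit 236) (nat_lit 160)) (XT.nd (nat_lit 78) (nat_lit 0) (nat_lit 0) (XT.lf (nat_lit 0) (nat_lit 182225242044) (nat_lit 76) (nat_lit 167747249598) (nat_lit 76) (nat_lit 160909068690) (nat_lit 1) (nat_lit 4) (nat_lit 2) (nat_lit 5) (nat_lit 2) (nat_lit 4) (nat_lit 385) (nat_lit 236) (nat_lit 159)) (XT.lf (nat_lit 0) (nat_lit 196435280684) (nat_lit 76) (nat_lit 173351070899) (nat_lit 76) (nat_lit 166505102284) (nat_lit 1) (nat_lit 4) (nat_lit 2) (nat_lit 5) (nat_lit 2) (nat_lit 4) (nat_lit 386) (nat_lit 236) (nat_lit 158))))) (XT.nd (nat_lit 156) (nat_lit 0) (nat_lit 0) (XT.nd (nat_lit 78) (nat_lit 0) (nat_lit 0) (XT.lf (nat_lit 0) (nat_lit 211345231923) (nat_lit 76) (nat_lit 179240137156) (nat_lit 76) (nat_lit 172386751678) (nat_lit 1) (nat_lit 4) (nat_lit 2) (nat_lit 5) (nat_lit 2) (nat_lit 4) (nat_lit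 387) (nat_lit 236) (nat_lit 157)) (XT.lf (nat_lit 0) (nat_lit 226990595645) (nat_lit 76) (nat_lit 185428469957) (nat_lit 76) (nat_lit 178568020799) (nat_lit 1) (nat_lit 4) (nat_lit 2) (nat_lit 5) (nat_lit 2) (nat_lit 4) (nat_lit 388) (nat_lit 236) (nat_lit 156))) (XT.nd (nat_lit 78) (nat_lit 0) (nat_lit 0) (XT.lf (nat_lit 0) (nat_lit 243408622715) (nat_lit 76) (nat_lit 191930803427) (nat_lit 76) (nat_lit 185063626955) (nat_lit 1) (nat_lit 4) (nat_lit 2) (nat_lit 5) (nat_lit 2) (nat_lit 4) (nat_lit 389) (nat_lit 236) (nat_lit 155)) (XT.nd (nat_lit 34086) (nat_lit 0) (nat_lit 1444) (XT.lf (nat_lit 0) (nat_lit 260638403675) (nat_lit 76) (nat_lit 198762619313) (nat_lit 76) (nat_lit 191889035875) (nat_lit 1) (nat_lit 4) (nat_lit 2) (nat_lit 5) (nat_lit 2) (nat_lit 4) (nat_lit 390) (nat_lit 236) (nat_lit 154)) (XT.lf (nat_lit 0) (nat_lit 6141367161) (nat_lit 152) (nat_lit 642922233) (nat_lit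 152) (nat_lit 642922233) (nat_lit 20) (nat_lit 4) (nat_lit 22) (nat_lit 5) (nat_lit 22) (nat_lit 4) (nat_lit 306) (nat_lit 237) (nat_lit 237)))))) (XT.nd (nat_lit 390) (nat_lit 228) (nat_lit 0) (XT.nd (nat_lit 156) (nat_lit 304) (nat_lit 0) (XT.nd (nat_lit 78) (nat_lit 0) (nat_lit 0) (XT.lf (nat_lit 0) (nat_lit 3088185061) (nat_lit 152) (nat_lit 9621948677) (nat_lit 0) (nat_lit 2641376578) (nat_lit 18) (nat_lit 5) (nat_lit 20) (nat_lit 4) (nat_lit 18) (nat_lit 4) (nat_lit 307) (nat_lit 237) (nat_lit 236)) (XT.lf (nat_lit 0) (nat_lit 7547816146) (nat_lit 152) (nat_lit 1653709630) (nat_lit 0) (nat_lit 6675475776) (nat_lit 18) (nat_lit 5) (nat_lit 20) (nat_lit 4) (nat_lit 18) (nat_lit 4) (nat_lit 308) (nat_lit 237) (nat_lit 235))) (XT.nd (nat_lit 78) (nat_lit 152) (nat_lit 0) (XT.lf (nat_lit 0) (nat_lit 6664611811) (nat_lit 152) (nat_lit 5522028997) (nat_lit 152) (nat_lit 4244420162) (nat_lit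 16) (nat_lit 4) (nat_lit 18) (nat_lit 5) (nat_lit 18) (nat_lit 4) (nat_lit 309) (nat_lit 237) (nat_lit 234)) (XT.nd (nat_lit 78) (nat_lit 152) (nat_lit 0) (XT.lf (nat_lit 0) (nat_lit 15198843612) (nat_lit 152) (nat_lit 1741749250) (nat_lit 152) (nat_lit 78170448) (nat_lit 16) (nat_lit 4) (nat_lit 18) (nat_lit 5) (nat_lit 18) (nat_lit 4) (nat_lit 310) (nat_lit 237) (nat_lit 233)) (XT.lf (nat_lit 0) (nat_lit 4154523903) (nat_lit 152) (nat_lit 11258203783) (nat_lit 0) (nat_lit 2220077002) (nat_lit 14) (nat_lit 5) (nat_lit 16) (nat_lit 4) (nat_lit 14) (nat_lit 4) (nat_lit 311) (nat_lit 237) (nat_lit 232))))) (XT.nd (nat_lit 156) (nat_lit 152) (nat_lit 0) (XT.nd (nat_lit 78) (nat_lit 76) (nat_lit 0) (XT.lf (nat_lit 0) (nat_lit 8516977623) (nat_lit 152) (nat_lit 3515439243) (nat_lit 0) (nat_lit 6249115352) (nat_lit 14) (nat_lit 5) (nat_lit 16) (nat_lit 4) (nat_lit 14) (nat_lit 4) (nat_lit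 312) (nat_lit 237) (nat_lit 231)) (XT.lf (nat_lit 0) (nat_lit 4519965702) (nat_lit 76) (nat_lit 8515654740) (nat_lit 76) (nat_lit 5930254023) (nat_lit 13) (nat_lit 4) (nat_lit 14) (nat_lit 5) (nat_lit 14) (nat_lit 4) (nat_lit 313) (nat_lit 237) (nat_lit 230))) (XT.nd (nat_lit 78) (nat_lit 152) (nat_lit 0) (XT.lf (nat_lit 0) (nat_lit 12843881556) (nat_lit 76) (nat_lit 4865982448) (nat_lit 76) (nat_lit 1978164163) (nat_lit 13) (nat_lit 4) (nat_lit 14) (nat_lit 5) (nat_lit 14) (nat_lit 4) (nat_lit 314) (nat_lit 237) (nat_lit 229)) (XT.nd (nat_lit 78) (nat_lit 0) (nat_lit 0) (XT.lf (nat_lit 0) (nat_lit 904415102) (nat_lit 76) (nat_lit 1085950809) (nat_lit 152) (nat_lit 18459882090) (nat_lit 11) (nat_lit 5) (nat_lit 12) (nat_lit 5) (nat_lit 13) (nat_lit 4) (nat_lit 315) (nat_lit 237) (nat_lit 228)) (XT.lf (nat_lit 0) (nat_lit 6128782961) (nat_lit 152) (nat_lit 12275406096) (nat_lit 0) (nat_lit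 2842938517) (nat_lit 11) (nat_lit 5) (nat_lit 13) (nat_lit 4) (nat_lit 11) (nat_lit 4) (nat_lit 316) (nat_lit 237) (nat_lit 227))))))))
noncomputable def xc45 : XT := (XT.nd (nat_lit 1560) (nat_lit 152) (nat_lit 0) (XT.nd (nat_lit 780) (nat_lit 228) (nat_lit 0) (XT.nd (nat_lit 390) (nat_lit 76) (nat_lit 0) (XT.nd (nat_lit 156) (nat_lit 152) (nat_lit 0) (XT.nd (nat_lit 78) (nat_lit 76) (nat_lit 0) (XT.lf (nat_lit 0) (nat_lit 10372987793) (nat_lit 152) (nat_lit 4877640302) (nat_lit 0) (nat_lit 6838343667) (nat_lit 11) (nat_lit 5) (nat_lit 13) (nat_lit 4) (nat_lit 11) (nat_lit 4) (nat_lit 317) (nat_lit 237) (nat_lit 226)) (XT.lf (nat_lit 0) (nat_lit 2770713065) (nat_lit 76) (nat_lit 11988676452) (nat_lit 76) (nat_lit 8217080248) (nat_lit 10) (nat_lit 4) (nat_lit 11) (nat_lit 5) (nat_lit 11) (nat_lit 4) (nat_lit 318) (nat_lit 237) (nat_lit 225))) (XT.nd (nat_lit 78) (nat_lit 152) (nat_lit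 0) (XT.lf (nat_lit 0) (nat_lit 10766198453) (nat_lit 76) (nat_lit 8570445240) (nat_lit 76) (nat_lit 4573180391) (nat_lit 10) (nat_lit 4) (nat_lit 11) (nat_lit 5) (nat_lit 11) (nat_lit 4) (nat_lit 319) (nat_lit 237) (nat_lit 224)) (XT.nd (nat_lit 78) (nat_lit 152) (nat_lit 0) (XT.lf (nat_lit 0) (nat_lit 18966575913) (nat_lit 76) (nat_lit 5070401014) (nat_lit 76) (nat_lit 858213645) (nat_lit 10) (nat_lit 4) (nat_lit 11) (nat_lit 5) (nat_lit 11) (nat_lit 4) (nat_lit 320) (nat_lit 237) (nat_lit 223)) (XT.lf (nat_lit 0) (nat_lit 1457246218) (nat_lit 76) (nat_lit 1408179001) (nat_lit 152) (nat_lit 23066060060) (nat_lit 8) (nat_lit 5) (nat_lit 9) (nat_lit 5) (nat_lit 10) (nat_lit 4) (nat_lit 321) (nat_lit 237) (nat_lit 222))))) (XT.nd (nat_lit 156) (nat_lit 76) (nat_lit 0) (XT.nd (nat_lit 78) (nat_lit 0) (nat_lit 0) (XT.lf (nat_lit 0) (nat_lit 6784695817) (nat_lit 152) (nat_lit 17839839041)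 (nat_lit 0) (nat_lit 2392489584) (nat_lit 8) (nat_lit 5) (nat_lit 10) (nat_lit 4) (nat_lit 8) (nat_lit 4) (nat_lit 322) (nat_lit 237) (nat_lit 221)) (XT.lf (nat_lit 0) (nat_lit 10826053573) (nat_lit 152) (nat_lit 11077496229) (nat_lit 0) (nat_lit 6257030052) (nat_lit 8) (nat_lit 5) (nat_lit 10) (nat_lit 4) (nat_lit 8) (nat_lit 4) (nat_lit 323) (nat_lit 237) (nat_lit 220))) (XT.nd (nat_lit 78) (nat_lit 76) (nat_lit 0) (XT.lf (nat_lit 0) (nat_lit 14977135147) (nat_lit 152) (nat_lit 4149124189) (nat_lit 0) (nat_lit 10239714208) (nat_lit 8) (nat_lit 5) (nat_lit 10) (nat_lit 4) (nat_lit 8) (nat_lit 4) (nat_lit 324) (nat_lit 237) (nat_lit 219)) (XT.nd (nat_lit 78) (nat_lit 0) (nat_lit 0) (XT.lf (nat_lit 0) (nat_lit 3059702799) (nat_lit 76) (nat_lit 16235891805) (nat_lit 76) (nat_lit 11338092372) (nat_lit 7) (nat_lit 4) (nat_lit 8) (nat_lit 5) (nat_lit 8) (nat_lit 4) (nat_lit 325) (nat_lit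 237) (nat_lit 218)) (XT.lf (nat_lit 0) (nat_lit 10611769550) (nat_lit 76) (nat_lit 13202198555) (nat_lit 76) (nat_lit 8151657700) (nat_lit 7) (nat_lit 4) (nat_lit 8) (nat_lit 5) (nat_lit 8) (nat_lit 4) (nat_lit 326) (nat_lit 237) (nat_lit 217)))))) (XT.nd (nat_lit 390) (nat_lit 76) (nat_lit 0) (XT.nd (nat_lit 156) (nat_lit 152) (nat_lit 0) (XT.nd (nat_lit 78) (nat_lit 0) (nat_lit 0) (XT.lf (nat_lit 0) (nat_lit 18387868389) (nat_lit 76) (nat_lit 10088223934) (nat_lit 76) (nat_lit 4892215059) (nat_lit 7) (nat_lit 4) (nat_lit 8) (nat_lit 5) (nat_lit 8) (nat_lit 4) (nat_lit 327) (nat_lit 237) (nat_lit 216)) (XT.lf (nat_lit 0) (nat_lit 26406513839) (nat_lit 76) (nat_lit 6886553718) (nat_lit 76) (nat_lit 1552003870) (nat_lit 7) (nat_lit 4) (nat_lit 8) (nat_lit 5) (nat_lit 8) (nat_lit 4) (nat_lit 328) (nat_lit 237) (nat_lit 215))) (XT.nd (nat_lit 78) (nat_lit 76) (nat_lit 0) (XT.lf (nat_lit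 0) (nat_lit 1816855307) (nat_lit 152) (nat_lit 1741940251) (nat_lit 76) (nat_lit 32839173281) (nat_lit 6) (nat_lit 5) (nat_lit 8) (nat_lit 5) (nat_lit 7) (nat_lit 4) (nat_lit 329) (nat_lit 237) (nat_lit 214)) (XT.nd (nat_lit 78) (nat_lit 0) (nat_lit 0) (XT.lf (nat_lit 0) (nat_lit 5298574939) (nat_lit 76) (nat_lit 13975946) (nat_lit 152) (nat_lit 32714191331) (nat_lit 5) (nat_lit 5) (nat_lit 6) (nat_lit 5) (nat_lit 7) (nat_lit 4) (nat_lit 330) (nat_lit 237) (nat_lit 213)) (XT.lf (nat_lit 0) (nat_lit 8999127017) (nat_lit 152) (nat_lit 27177764064) (nat_lit 0) (nat_lit 3559287704) (nat_lit 5) (nat_lit 5) (nat_lit 7) (nat_lit 4) (nat_lit 5) (nat_lit 4) (nat_lit 331) (nat_lit 237) (nat_lit 212))))) (XT.nd (nat_lit 156) (nat_lit 76) (nat_lit 0) (XT.nd (nat_lit 78) (nat_lit 0) (nat_lit 0) (XT.lf (nat_lit 0) (nat_lit 12801897223) (nat_lit 152) (nat_lit 21479117178) (nat_lit 0) (nat_lit 7253507433)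 (nat_lit 5) (nat_lit 5) (nat_lit 7) (nat_lit 4) (nat_lit 5) (nat_lit 4) (nat_lit 332) (nat_lit 237) (nat_lit 211)) (XT.lf (nat_lit 0) (nat_lit 16729697515) (nat_lit 152) (nat_lit 15618440211) (nat_lit 0) (nat_lit 11077926319) (nat_lit 5) (nat_lit 5) (nat_lit 7) (nat_lit 4) (nat_lit 5) (nat_lit 4) (nat_lit 333) (nat_lit 237) (nat_lit 210))) (XT.nd (nat_lit 78) (nat_lit 76) (nat_lit 0) (XT.lf (nat_lit 0) (nat_lit 20791879798) (nat_lit 152) (nat_lit 9581779169) (nat_lit 0) (nat_lit 15041650119) (nat_lit 5) (nat_lit 5) (nat_lit 7) (nat_lit 4) (nat_lit 5) (nat_lit 4) (nat_lit 334) (nat_lit 237) (nat_lit 209)) (XT.nd (nat_lit 78) (nat_lit 76) (nat_lit 0) (XT.lf (nat_lit 0) (nat_lit 24998115936) (nat_lit 152) (nat_lit 3354761049) (nat_lit 0) (nat_lit 19154116273) (nat_lit 5) (nat_lit 5) (nat_lit 7) (nat_lit 4) (nat_lit 5) (nat_lit 4) (nat_lit 335) (nat_lit 237) (nat_lit 208)) (XT.lf (nat_lit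 0) (nat_lit 3179194458) (nat_lit 76) (nat_lit 26228862452) (nat_lit 76) (nat_lit 20295558043) (nat_lit 4) (nat_lit 4) (nat_lit 5) (nat_lit 5) (nat_lit 5) (nat_lit 4) (nat_lit 336) (nat_lit 237) (nat_lit 207))))))) (XT.nd (nat_lit 780) (nat_lit 0) (nat_lit 0) (XT.nd (nat_lit 390) (nat_lit 152) (nat_lit 0) (XT.nd (nat_lit 156) (nat_lit 0) (nat_lit 0) (XT.nd (nat_lit 78) (nat_lit 0) (nat_lit 0) (XT.lf (nat_lit 0) (nat_lit 10051862256) (nat_lit 76) (nat_lit 23988251479) (nat_lit 76) (nat_lit 17969894931) (nat_lit 4) (nat_lit 4) (nat_lit 5) (nat_lit 5) (nat_lit 5) (nat_lit 4) (nat_lit 337) (nat_lit 237) (nat_lit 206)) (XT.lf (nat_lit 0) (nat_lit 17168682286) (nat_lit 76) (nat_lit 21682523780) (nat_lit 76) (nat_lit 15583165195) (nat_lit 4) (nat_lit 4) (nat_lit 5) (nat_lit 5) (nat_lit 5) (nat_lit 4) (nat_lit 338) (nat_lit 237) (nat_lit 205))) (XT.nd (nat_lit 78) (nat_lit 0) (nat_lit 0) (XT.lf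 (nat_lit 0) (nat_lit 24546599360) (nat_lit 76) (nat_lit 19306189528) (nat_lit 76) (nat_lit 13129686145) (nat_lit 4) (nat_lit 4) (nat_lit 5) (nat_lit 5) (nat_lit 5) (nat_lit 4) (nat_lit 339) (nat_lit 237) (nat_lit 204)) (XT.nd (nat_lit 78) (nat_lit 0) (nat_lit 0) (XT.lf (nat_lit 0) (nat_lit 32203179946) (nat_lit 76) (nat_lit 16853590783) (nat_lit 76) (nat_lit 10603616165) (nat_lit 4) (nat_lit 4) (nat_lit 5) (nat_lit 5) (nat_lit 5) (nat_lit 4) (nat_lit 340) (nat_lit 237) (nat_lit 203)) (XT.lf (nat_lit 0) (nat_lit 40156653997) (nat_lit 76) (nat_lit 14318888025) (nat_lit 76) (nat_lit 7998940801) (nat_lit 4) (nat_lit 4) (nat_lit 5) (nat_lit 5) (nat_lit 5) (nat_lit 4) (nat_lit 341) (nat_lit 237) (nat_lit 202))))) (XT.nd (nat_lit 156) (nat_lit 152) (nat_lit 0) (XT.nd (nat_lit 78) (nat_lit 0) (nat_lit 0) (XT.lf (nat_lit 0) (nat_lit 48425958358) (nat_lit 76) (nat_lit 11696046247) (nat_lit 76)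 (nat_lit 5309458447) (nat_lit 4) (nat_lit 4) (nat_lit 5) (nat_lit 5) (nat_lit 5) (nat_lit 4) (nat_lit 342) (nat_lit 237) (nat_lit 201)) (XT.lf (nat_lit 0) (nat_lit 57030781847) (nat_lit 76) (nat_lit 8978820588) (nat_lit 76) (nat_lit 2528765572) (nat_lit 4) (nat_lit 4) (nat_lit 5) (nat_lit 5) (nat_lit 5) (nat_lit 4) (nat_lit 343) (nat_lit 237) (nat_lit 200))) (XT.nd (nat_lit 78) (nat_lit 76) (nat_lit 0) (XT.lf (nat_lit 0) (nat_lit 338564062) (nat_lit 152) (nat_lit 5816443653) (nat_lit 76) (nat_lit 65647314331) (nat_lit 3) (nat_lit 5) (nat_lit 5) (nat_lit 5) (nat_lit 4) (nat_lit 4) (nat_lit 344) (nat_lit 237) (nat_lit 199)) (XT.nd (nat_lit 78) (nat_lit 0) (nat_lit 0) (XT.lf (nat_lit 0) (nat_lit 47346727) (nat_lit 76) (nat_lit 3179684173) (nat_lit 152) (nat_lit 72002246539) (nat_lit 2) (nat_lit 5) (nat_lit 3) (nat_lit 5) (nat_lit 4) (nat_lit 4) (nat_lit 345) (nat_lit 237) (nat_lit 198))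 (XT.lf (nat_lit 0) (nat_lit 6321366679) (nat_lit 152) (nat_lit 72489304567) (nat_lit 0) (nat_lit 13850502) (nat_lit 2) (nat_lit 5) (nat_lit 4) (nat_lit 4) (nat_lit 2) (nat_lit 4) (nat_lit 346) (nat_lit 237) (nat_lit 197)))))) (XT.nd (nat_lit 390) (nat_lit 0) (nat_lit 0) (XT.nd (nat_lit 156) (nat_lit 0) (nat_lit 0) (XT.nd (nat_lit 78) (nat_lit 0) (nat_lit 0) (XT.lf (nat_lit 0) (nat_lit 9586539953) (nat_lit 152) (nat_lit 69782899521) (nat_lit 0) (nat_lit 3229295552) (nat_lit 2) (nat_lit 5) (nat_lit 4) (nat_lit 4) (nat_lit 2) (nat_lit 4) (nat_lit 347) (nat_lit 237) (nat_lit 196)) (XT.lf (nat_lit 0) (nat_lit 12980681163) (nat_lit 152) (nat_lit 67006627972) (nat_lit 0) (nat_lit 6576076548) (nat_lit 2) (nat_lit 5) (nat_lit 4) (nat_lit 4) (nat_lit 2) (nat_lit 4) (nat_lit 348) (nat_lit 237) (nat_lit 195))) (XT.nd (nat_lit 78) (nat_lit 0) (nat_lit 0) (XT.lf (nat_lit 0) (nat_lit 16511871597) (nat_lit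 152) (nat_lit 64153879751) (nat_lit 0) (nat_lit 10062162017) (nat_lit 2) (nat_lit 5) (nat_lit 4) (nat_lit 4) (nat_lit 2) (nat_lit 4) (nat_lit 349) (nat_lit 237) (nat_lit 194)) (XT.nd (nat_lit 78) (nat_lit 0) (nat_lit 0) (XT.lf (nat_lit 0) (nat_lit 20188518852) (nat_lit 152) (nat_lit 61217862598) (nat_lit 0) (nat_lit 13695852163) (nat_lit 2) (nat_lit 5) (nat_lit 4) (nat_lit 4) (nat_lit 2) (nat_lit 4) (nat_lit 350) (nat_lit 237) (nat_lit 193)) (XT.lf (nat_lit 0) (nat_lit 24019376851) (nat_lit 152) (nat_lit 58191585997) (nat_lit 0) (nat_lit 17485798628) (nat_lit 2) (nat_lit 5) (nat_lit 4) (nat_lit 4) (nat_lit 2) (nat_lit 4) (nat_lit 351) (nat_lit 237) (nat_lit 192))))) (XT.nd (nat_lit 156) (nat_lit 0) (nat_lit 0) (XT.nd (nat_lit 78) (nat_lit 0) (nat_lit 0) (XT.lf (nat_lit 0) (nat_lit 28013566682) (nat_lit 152) (nat_lit 55067844529) (nat_lit 0) (nat_lit 21441025094) (nat_lit 2) (nat_lit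 5) (nat_lit 4) (nat_lit 4) (nat_lit 2) (nat_lit 4) (nat_lit 352) (nat_lit 237) (nat_lit 191)) (XT.lf (nat_lit 0) (nat_lit 32180598323) (nat_lit 152) (nat_lit 51839200712) (nat_lit 0) (nat_lit 25570948768) (nat_lit 2) (nat_lit 5) (nat_lit 4) (nat_lit 4) (nat_lit 2) (nat_lit 4) (nat_lit 353) (nat_lit 237) (nat_lit 190))) (XT.nd (nat_lit 78) (nat_lit 0) (nat_lit 0) (XT.lf (nat_lit 0) (nat_lit 36530393277) (nat_lit 152) (nat_lit 48497967300) (nat_lit 0) (nat_lit 29885402801) (nat_lit 2) (nat_lit 5) (nat_lit 4) (nat_lit 4) (nat_lit 2) (nat_lit 4) (nat_lit 354) (nat_lit 237) (nat_lit 189)) (XT.nd (nat_lit 78) (nat_lit 0) (nat_lit 0) (XT.lf (nat_lit 0) (nat_lit 41073308198) (nat_lit 152) (nat_lit 45036188975) (nat_lit 0) (nat_lit 34394659703) (nat_lit 2) (nat_lit 5) (nat_lit 4) (nat_lit 4) (nat_lit 2) (nat_lit 4) (nat_lit 355) (nat_lit 237) (nat_lit 188)) (XT.lf (nat_lit 0) (nat_lit 45820159551)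 (nat_lit 152) (nat_lit 41445623407) (nat_lit 0) (nat_lit 39109455800) (nat_lit 2) (nat_lit 5) (nat_lit 4) (nat_lit 4) (nat_lit 2) (nat_lit 4) (nat_lit 356) (nat_lit 237) (nat_lit 187))))))))
noncomputable def xc46 : XT := (XT.nd (nat_lit 1560) (nat_lit 0) (nat_lit 0) (XT.nd (nat_lit 780) (nat_lit 0) (nat_lit 0) (XT.nd (nat_lit 390) (nat_lit 76) (nat_lit 0) (XT.nd (nat_lit 156) (nat_lit 0) (nat_lit 0) (XT.nd (nat_lit 78) (nat_lit 0) (nat_lit 0) (XT.lf (nat_lit 0) (nat_lit 50782249363) (nat_lit 152) (nat_lit 37717721632) (nat_lit 0) (nat_lit 44041016796) (nat_lit 2) (nat_lit 5) (nat_lit 4) (nat_lit 4) (nat_lit 2) (nat_lit 4) (nat_lit 357) (nat_lit 237) (nat_lit 186)) (XT.lf (nat_lit 0) (nat_lit 55971392134) (nat_lit 152) (nat_lit 33843607693) (nat_lit 0) (nat_lit 49201084504) (nat_lit 2) (nat_lit 5) (nat_lit 4) (nat_lit 4) (nat_lit 2) (nat_lit 4) (nat_lit 358) (nat_lit 237) (nat_lit 185)))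 (XT.nd (nat_lit 78) (nat_lit 0) (nat_lit 0) (XT.lf (nat_lit 0) (nat_lit 61399942965) (nat_lit 152) (nat_lit 29814057508) (nat_lit 0) (nat_lit 54601944798) (nat_lit 2) (nat_lit 5) (nat_lit 4) (nat_lit 4) (nat_lit 2) (nat_lit 4) (nat_lit 359) (nat_lit 237) (nat_lit 184)) (XT.nd (nat_lit 78) (nat_lit 0) (nat_lit 0) (XT.lf (nat_lit 0) (nat_lit 67080826976) (nat_lit 152) (nat_lit 25619476911) (nat_lit 0) (nat_lit 60256456871) (nat_lit 2) (nat_lit 5) (nat_lit 4) (nat_lit 4) (nat_lit 2) (nat_lit 4) (nat_lit 360) (nat_lit 237) (nat_lit 183)) (XT.lf (nat_lit 0) (nat_lit 73027570084) (nat_lit 152) (nat_lit 21249878805) (nat_lit 0) (nat_lit 66178083846) (nat_lit 2) (nat_lit 5) (nat_lit 4) (nat_lit 4) (nat_lit 2) (nat_lit 4) (nat_lit 361) (nat_lit 237) (nat_lit 182))))) (XT.nd (nat_lit 156) (nat_lit 76) (nat_lit 0) (XT.nd (nat_lit 78) (nat_lit 0) (nat_lit 0) (XT.lf (nat_lit 0) (nat_lit 79254331199)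 (nat_lit 152) (nat_lit 16694859385) (nat_lit 0) (nat_lit 72380924835) (nat_lit 2) (nat_lit 5) (nat_lit 4) (nat_lit 4) (nat_lit 2) (nat_lit 4) (nat_lit 362) (nat_lit 237) (nat_lit 181)) (XT.lf (nat_lit 0) (nat_lit 85775935944) (nat_lit 152) (nat_lit 11943573366) (nat_lit 0) (nat_lit 78879748507) (nat_lit 2) (nat_lit 5) (nat_lit 4) (nat_lit 4) (nat_lit 2) (nat_lit 4) (nat_lit 363) (nat_lit 237) (nat_lit 180))) (XT.nd (nat_lit 78) (nat_lit 76) (nat_lit 0) (XT.lf (nat_lit 0) (nat_lit 92607911948) (nat_lit 152) (nat_lit 6984708163) (nat_lit 0) (nat_lit 85690028252) (nat_lit 2) (nat_lit 5) (nat_lit 4) (nat_lit 4) (nat_lit 2) (nat_lit 4) (nat_lit 364) (nat_lit 237) (nat_lit 179)) (XT.nd (nat_lit 78) (nat_lit 76) (nat_lit 0) (XT.lf (nat_lit 0) (nat_lit 99766525822) (nat_lit 152) (nat_lit 1806456955) (nat_lit 0) (nat_lit 92827979022) (nat_lit 2) (nat_lit 5) (nat_lit 4) (nat_lit 4) (nat_lit 2)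 (nat_lit 4) (nat_lit 365) (nat_lit 237) (nat_lit 178)) (XT.lf (nat_lit 0) (nat_lit 3722657724) (nat_lit 76) (nat_lit 103604285278) (nat_lit 76) (nat_lit 96646059331) (nat_lit 1) (nat_lit 4) (nat_lit 2) (nat_lit 5) (nat_lit 2) (nat_lit 4) (nat_lit 366) (nat_lit 237) (nat_lit 177)))))) (XT.nd (nat_lit 390) (nat_lit 0) (nat_lit 0) (XT.nd (nat_lit 156) (nat_lit 0) (nat_lit 0) (XT.nd (nat_lit 78) (nat_lit 0) (nat_lit 0) (XT.lf (nat_lit 0) (nat_lit 9564185528) (nat_lit 76) (nat_lit 105717800955) (nat_lit 76) (nat_lit 98740832963) (nat_lit 1) (nat_lit 4) (nat_lit 2) (nat_lit 5) (nat_lit 2) (nat_lit 4) (nat_lit 367) (nat_lit 237) (nat_lit 176)) (XT.lf (nat_lit 0) (nat_lit 15672305228) (nat_lit 76) (nat_lit 107949155209) (nat_lit 76) (nat_lit 100954337650) (nat_lit 1) (nat_lit 4) (nat_lit 2) (nat_lit 5) (nat_lit 2) (nat_lit 4) (nat_lit 368) (nat_lit 237) (nat_lit 175))) (XT.nd (nat_lit 78) (nat_lit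 0) (nat_lit 0) (XT.lf (nat_lit 0) (nat_lit 22061559968) (nat_lit 76) (nat_lit 110303660788) (nat_lit 76) (nat_lit 103291843643) (nat_lit 1) (nat_lit 4) (nat_lit 2) (nat_lit 5) (nat_lit 2) (nat_lit 4) (nat_lit 369) (nat_lit 237) (nat_lit 174)) (XT.nd (nat_lit 78) (nat_lit 0) (nat_lit 0) (XT.lf (nat_lit 0) (nat_lit 28747162259) (nat_lit 76) (nat_lit 112786923659) (nat_lit 76) (nat_lit 105758916431) (nat_lit 1) (nat_lit 4) (nat_lit 2) (nat_lit 5) (nat_lit 2) (nat_lit 4) (nat_lit 370) (nat_lit 237) (nat_lit 173)) (XT.lf (nat_lit 0) (nat_lit 35745030202) (nat_lit 76) (nat_lit 115404856352) (nat_lit 76) (nat_lit 108361429997) (nat_lit 1) (nat_lit 4) (nat_lit 2) (nat_lit 5) (nat_lit 2) (nat_lit 4) (nat_lit 371) (nat_lit 237) (nat_lit 172))))) (XT.nd (nat_lit 156) (nat_lit 0) (nat_lit 0) (XT.nd (nat_lit 78) (nat_lit 0) (nat_lit 0) (XT.lf (nat_lit 0) (nat_lit 43071825386) (nat_lit 76) (nat_lit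 118163692041) (nat_lit 76) (nat_lit 111105580803) (nat_lit 1) (nat_lit 4) (nat_lit 2) (nat_lit 5) (nat_lit 2) (nat_lit 4) (nat_lit 372) (nat_lit 237) (nat_lit 171)) (XT.lf (nat_lit 0) (nat_lit 50744992563) (nat_lit 76) (nat_lit 121069999380) (nat_lit 76) (nat_lit 113997902541) (nat_lit 1) (nat_lit 4) (nat_lit 2) (nat_lit 5) (nat_lit 2) (nat_lit 4) (nat_lit 373) (nat_lit 237) (nat_lit 170))) (XT.nd (nat_lit 78) (nat_lit 0) (nat_lit 0) (XT.lf (nat_lit 0) (nat_lit 58782801177) (nat_lit 76) (nat_lit 124130698151) (nat_lit 76) (nat_lit 117045281690) (nat_lit 1) (nat_lit 4) (nat_lit 2) (nat_lit 5) (nat_lit 2) (nat_lit 4) (nat_lit 374) (nat_lit 237) (nat_lit 169)) (XT.nd (nat_lit 78) (nat_lit 0) (nat_lit 0) (XT.lf (nat_lit 0) (nat_lit 67204388870) (nat_lit 76) (nat_lit 127353075731) (nat_lit 76) (nat_lit 120254973916) (nat_lit 1) (nat_lit 4) (nat_lit 2) (nat_lit 5) (nat_lit 2) (nat_lit 4) (nat_lit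 375) (nat_lit 237) (nat_lit 168)) (XT.lf (nat_lit 0) (nat_lit 76029807039) (nat_lit 76) (nat_lit 130744804447) (nat_lit 76) (nat_lit 123634621343) (nat_lit 1) (nat_lit 4) (nat_lit 2) (nat_lit 5) (nat_lit 2) (nat_lit 4) (nat_lit 376) (nat_lit 237) (nat_lit 167))))))) (XT.nd (nat_lit 780) (nat_lit 0) (nat_lit 0) (XT.nd (nat_lit 390) (nat_lit 0) (nat_lit 0) (XT.nd (nat_lit 156) (nat_lit 0) (nat_lit 0) (XT.nd (nat_lit 78) (nat_lit 0) (nat_lit 0) (XT.lf (nat_lit 0) (nat_lit 85280068585) (nat_lit 76) (nat_lit 134313959844) (nat_lit 76) (nat_lit 127192270751) (nat_lit 1) (nat_lit 4) (nat_lit 2) (nat_lit 5) (nat_lit 2) (nat_lit 4) (nat_lit 377) (nat_lit 237) (nat_lit 166)) (XT.lf (nat_lit 0) (nat_lit 94977197941) (nat_lit 76) (nat_lit 138069039912) (nat_lit 76) (nat_lit 130936392733) (nat_lit 1) (nat_lit 4) (nat_lit 2) (nat_lit 5) (nat_lit 2) (nat_lit 4) (nat_lit 378) (nat_lit 237) (nat_lit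 165))) (XT.nd (nat_lit 78) (nat_lit 0) (nat_lit 0) (XT.lf (nat_lit 0) (nat_lit 105144283510) (nat_lit 76) (nat_lit 142018985316) (nat_lit 76) (nat_lit 134875901866) (nat_lit 1) (nat_lit 4) (nat_lit 2) (nat_lit 5) (nat_lit 2) (nat_lit 4) (nat_lit 379) (nat_lit 237) (nat_lit 164)) (XT.nd (nat_lit 78) (nat_lit 0) (nat_lit 0) (XT.lf (nat_lit 0) (nat_lit 115805532638) (nat_lit 76) (nat_lit 146173200690) (nat_lit 76) (nat_lit 139020177933) (nat_lit 1) (nat_lit 4) (nat_lit 2) (nat_lit 5) (nat_lit 2) (nat_lit 4) (nat_lit 380) (nat_lit 237) (nat_lit 163)) (XT.lf (nat_lit 0) (nat_lit 126986329251) (nat_lit 76) (nat_lit 150541577021) (nat_lit 76) (nat_lit 143379088258) (nat_lit 1) (nat_lit 4) (nat_lit 2) (nat_lit 5) (nat_lit 2) (nat_lit 4) (nat_lit 381) (nat_lit 237) (nat_lit 162))))) (XT.nd (nat_lit 156) (nat_lit 0) (nat_lit 0) (XT.nd (nat_lit 78) (nat_lit 0) (nat_lit 0) (XT.lf (nat_lit 0) (nat_lit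 138713294295) (nat_lit 76) (nat_lit 155134515206) (nat_lit 76) (nat_lit 147963011199) (nat_lit 1) (nat_lit 4) (nat_lit 2) (nat_lit 5) (nat_lit 2) (nat_lit 4) (nat_lit 382) (nat_lit 237) (nat_lit 161)) (XT.lf (nat_lit 0) (nat_lit 151014349114) (nat_lit 76) (nat_lit 159962950812) (nat_lit 76) (nat_lit 152782860858) (nat_lit 1) (nat_lit 4) (nat_lit 2) (nat_lit 5) (nat_lit 2) (nat_lit 4) (nat_lit 383) (nat_lit 237) (nat_lit 160))) (XT.nd (nat_lit 78) (nat_lit 0) (nat_lit 0) (XT.lf (nat_lit 0) (nat_lit 163918781935) (nat_lit 76) (nat_lit 165038380114) (nat_lit 76) (nat_lit 157850113068) (nat_lit 1) (nat_lit 4) (nat_lit 2) (nat_lit 5) (nat_lit 2) (nat_lit 4) (nat_lit 384) (nat_lit 237) (nat_lit 159)) (XT.nd (nat_lit 78) (nat_lit 0) (nat_lit 0) (XT.lf (nat_lit 0) (nat_lit 177457317596) (nat_lit 76) (nat_lit 170372887468) (nat_lit 76) (nat_lit 163176832716) (nat_lit 1) (nat_lit 4) (nat_lit 2)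 (nat_lit 5) (nat_lit 2) (nat_lit 4) (nat_lit 385) (nat_lit 237) (nat_lit 158)) (XT.lf (nat_lit 0) (nat_lit 191662190708) (nat_lit 76) (nat_lit 175979174082) (nat_lit 76) (nat_lit 168775702466) (nat_lit 1) (nat_lit 4) (nat_lit 2) (nat_lit 5) (nat_lit 2) (nat_lit 4) (nat_lit 386) (nat_lit 237) (nat_lit 157)))))) (XT.nd (nat_lit 34242) (nat_lit 0) (nat_lit 1140) (XT.nd (nat_lit 156) (nat_lit 0) (nat_lit 0) (XT.nd (nat_lit 78) (nat_lit 0) (nat_lit 0) (XT.lf (nat_lit 0) (nat_lit 206567222396) (nat_lit 76) (nat_lit 181870588257) (nat_lit 76) (nat_lit 174660052961) (nat_lit 1) (nat_lit 4) (nat_lit 2) (nat_lit 5) (nat_lit 2) (nat_lit 4) (nat_lit 387) (nat_lit 237) (nat_lit 156)) (XT.lf (nat_lit 0) (nat_lit 222207900832) (nat_lit 76) (nat_lit 188061157170) (nat_lit 76) (nat_lit 180843894560) (nat_lit 1) (nat_lit 4) (nat_lit 2) (nat_lit 5) (nat_lit 2) (nat_lit 4) (nat_lit 388) (nat_lit 237) (nat_lit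 155))) (XT.nd (nat_lit 78) (nat_lit 0) (nat_lit 0) (XT.lf (nat_lit 0) (nat_lit 238621465725) (nat_lit 76) (nat_lit 194565620270) (nat_lit 76) (nat_lit 187341950695) (nat_lit 1) (nat_lit 4) (nat_lit 2) (nat_lit 5) (nat_lit 2) (nat_lit 4) (nat_lit 389) (nat_lit 237) (nat_lit 154)) (XT.nd (nat_lit 33930) (nat_lit 0) (nat_lit 1596) (XT.lf (nat_lit 0) (nat_lit 255846996992) (nat_lit 76) (nat_lit 201399464375) (nat_lit 76) (nat_lit 194169692928) (nat_lit 1) (nat_lit 4) (nat_lit 2) (nat_lit 5) (nat_lit 2) (nat_lit 4) (nat_lit 390) (nat_lit 237) (nat_lit 153)) (XT.lf (nat_lit 0) (nat_lit 2380797874) (nat_lit 152) (nat_lit 2202489893) (nat_lit 0) (nat_lit 2380797874) (nat_lit 22) (nat_lit 5) (nat_lit 24) (nat_lit 4) (nat_lit 22) (nat_lit 4) (nat_lit 304) (nat_lit 238) (nat_lit 238))))) (XT.nd (nat_lit 156) (nat_lit 304) (nat_lit 0) (XT.nd (nat_lit 78) (nat_lit 0) (nat_lit 0) (XT.lf (nat_lit 0)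 (nat_lit 3727690599) (nat_lit 152) (nat_lit 5572391040) (nat_lit 152) (nat_lit 5079784688) (nat_lit 20) (nat_lit 4) (nat_lit 22) (nat_lit 5) (nat_lit 22) (nat_lit 4) (nat_lit 305) (nat_lit 238) (nat_lit 237)) (XT.lf (nat_lit 0) (nat_lit 12152076098) (nat_lit 152) (nat_lit 1833959375) (nat_lit 152) (nat_lit 872204116) (nat_lit 20) (nat_lit 4) (nat_lit 22) (nat_lit 5) (nat_lit 22) (nat_lit 4) (nat_lit 306) (nat_lit 238) (nat_lit 236))) (XT.nd (nat_lit 78) (nat_lit 152) (nat_lit 0) (XT.lf (nat_lit 0) (nat_lit 3402100661) (nat_lit 152) (nat_lit 9896669372) (nat_lit 0) (nat_lit 2060611383) (nat_lit 18) (nat_lit 5) (nat_lit 20) (nat_lit 4) (nat_lit 18) (nat_lit 4) (nat_lit 307) (nat_lit 238) (nat_lit 235)) (XT.nd (nat_lit 78) (nat_lit 152) (nat_lit 0) (XT.lf (nat_lit 0) (nat_lit 7789614065) (nat_lit 152) (nat_lit 2056058986) (nat_lit 0) (nat_lit 6042856323) (nat_lit 18) (nat_lit 5) (nat_lit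 20) (nat_lit 4) (nat_lit 18) (nat_lit 4) (nat_lit 308) (nat_lit 238) (nat_lit 234)) (XT.lf (nat_lit 0) (nat_lit 6123388833) (nat_lit 152) (nat_lit 6227916382) (nat_lit 152) (nat_lit 4095188673) (nat_lit 16) (nat_lit 4) (nat_lit 18) (nat_lit 5) (nat_lit 18) (nat_lit 4) (nat_lit 309) (nat_lit 238) (nat_lit 233))))))))
noncomputable def xc47 : XT := (XT.nd (nat_lit 1560) (nat_lit 304) (nat_lit 0) (XT.nd (nat_lit 780) (nat_lit 304) (nat_lit 0) (XT.nd (nat_lit 390) (nat_lit 228) (nat_lit 0) (XT.nd (nat_lit 156) (nat_lit 76) (nat_lit 0) (XT.nd (nat_lit 78) (nat_lit 76) (nat_lit 0) (XT.lf (nat_lit 0) (nat_lit 359048) (nat_lit 228) (nat_lit 2499582104) (nat_lit 76) (nat_lit 14537664901) (nat_lit 15) (nat_lit 5) (nat_lit 18) (nat_lit 5) (nat_lit 16) (nat_lit 4) (nat_lit 310) (nat_lit 238) (nat_lit 232)) (XT.lf (nat_lit 0) (nat_lit 4139704602) (nat_lit 152) (nat_lit 12091432124) (nat_lit 0) (nat_lit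 1425033849) (nat_lit 14) (nat_lit 5) (nat_lit 16) (nat_lit 4) (nat_lit 14) (nat_lit 4) (nat_lit 311) (nat_lit 238) (nat_lit 231))) (XT.nd (nat_lit 78) (nat_lit 76) (nat_lit 0) (XT.lf (nat_lit 0) (nat_lit 8437522752) (nat_lit 152) (nat_lit 4465333414) (nat_lit 0) (nat_lit 5405313553) (nat_lit 14) (nat_lit 5) (nat_lit 16) (nat_lit 4) (nat_lit 14) (nat_lit 4) (nat_lit 312) (nat_lit 238) (nat_lit 230)) (XT.nd (nat_lit 78) (nat_lit 0) (nat_lit 0) (XT.lf (nat_lit 0) (nat_lit 3423879617) (nat_lit 76) (nat_lit 9453615294) (nat_lit 76) (nat_lit 6118988526) (nat_lit 13) (nat_lit 4) (nat_lit 14) (nat_lit 5) (nat_lit 14) (nat_lit 4) (nat_lit 313) (nat_lit 238) (nat_lit 229)) (XT.lf (nat_lit 0) (nat_lit 11638477260) (nat_lit 76) (nat_lit 5852928084) (nat_lit 76) (nat_lit 2230284584) (nat_lit 13) (nat_lit 4) (nat_lit 14) (nat_lit 5) (nat_lit 14) (nat_lit 4) (nat_lit 314) (nat_lit 238) (nat_lit 228)))))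 (XT.nd (nat_lit 156) (nat_lit 76) (nat_lit 0) (XT.nd (nat_lit 78) (nat_lit 76) (nat_lit 0) (XT.lf (nat_lit 0) (nat_lit 1673759061) (nat_lit 152) (nat_lit 465739072) (nat_lit 76) (nat_lit 18348269008) (nat_lit 12) (nat_lit 5) (nat_lit 14) (nat_lit 5) (nat_lit 13) (nat_lit 4) (nat_lit 315) (nat_lit 238) (nat_lit 227)) (XT.lf (nat_lit 0) (nat_lit 5730074880) (nat_lit 152) (nat_lit 13788809240) (nat_lit 0) (nat_lit 1769898866) (nat_lit 11) (nat_lit 5) (nat_lit 13) (nat_lit 4) (nat_lit 11) (nat_lit 4) (nat_lit 316) (nat_lit 238) (nat_lit 226))) (XT.nd (nat_lit 78) (nat_lit 76) (nat_lit 0) (XT.lf (nat_lit 0) (nat_lit 9919025105) (nat_lit 152) (nat_lit 6492497513) (nat_lit 0) (nat_lit 5721897013) (nat_lit 11) (nat_lit 5) (nat_lit 13) (nat_lit 4) (nat_lit 11) (nat_lit 4) (nat_lit 317) (nat_lit 238) (nat_lit 225)) (XT.nd (nat_lit 78) (nat_lit 0) (nat_lit 0) (XT.lf (nat_lit 0) (nat_lit 1002643671)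 (nat_lit 76) (nat_lit 13222555203) (nat_lit 76) (nat_lit 8799758466) (nat_lit 10) (nat_lit 4) (nat_lit 11) (nat_lit 5) (nat_lit 11) (nat_lit 4) (nat_lit 318) (nat_lit 238) (nat_lit 224)) (XT.lf (nat_lit 0) (nat_lit 8903064573) (nat_lit 76) (nat_lit 9847786697) (nat_lit 76) (nat_lit 5210067440) (nat_lit 10) (nat_lit 4) (nat_lit 11) (nat_lit 5) (nat_lit 11) (nat_lit 4) (nat_lit 319) (nat_lit 238) (nat_lit 223)))))) (XT.nd (nat_lit 390) (nat_lit 152) (nat_lit 0) (XT.nd (nat_lit 156) (nat_lit 76) (nat_lit 0) (XT.nd (nat_lit 78) (nat_lit 76) (nat_lit 0) (XT.lf (nat_lit 0) (nat_lit 17012904427) (nat_lit 76) (nat_lit 6389135524) (nat_lit 76) (nat_lit 1546728153) (nat_lit 10) (nat_lit 4) (nat_lit 11) (nat_lit 5) (nat_lit 11) (nat_lit 4) (nat_lit 320) (nat_lit 238) (nat_lit 222)) (XT.lf (nat_lit 0) (nat_lit 2128600486) (nat_lit 152) (nat_lit 673717435) (nat_lit 76) (nat_lit 23186823012) (nat_lit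 9) (nat_lit 5) (nat_lit 11) (nat_lit 5) (nat_lit 10) (nat_lit 4) (nat_lit 321) (nat_lit 238) (nat_lit 221))) (XT.nd (nat_lit 78) (nat_lit 0) (nat_lit 0) (XT.lf (nat_lit 0) (nat_lit 5967761937) (nat_lit 152) (nat_lit 20117475845) (nat_lit 0) (nat_lit 993469951) (nat_lit 8) (nat_lit 5) (nat_lit 10) (nat_lit 4) (nat_lit 8) (nat_lit 4) (nat_lit 322) (nat_lit 238) (nat_lit 220)) (XT.nd (nat_lit 78) (nat_lit 0) (nat_lit 0) (XT.lf (nat_lit 0) (nat_lit 9964073806) (nat_lit 152) (nat_lit 13439078356) (nat_lit 0) (nat_lit 4821384402) (nat_lit 8) (nat_lit 5) (nat_lit 10) (nat_lit 4) (nat_lit 8) (nat_lit 4) (nat_lit 323) (nat_lit 238) (nat_lit 219)) (XT.lf (nat_lit 0) (nat_lit 14072254536) (nat_lit 152) (nat_lit 6590654244) (nat_lit 0) (nat_lit 8769186639) (nat_lit 8) (nat_lit 5) (nat_lit 10) (nat_lit 4) (nat_lit 8) (nat_lit 4) (nat_lit 324) (nat_lit 238) (nat_lit 218))))) (XT.nd (nat_lit 156) (nat_lit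 76) (nat_lit 0) (XT.nd (nat_lit 78) (nat_lit 0) (nat_lit 0) (XT.lf (nat_lit 0) (nat_lit 458786290) (nat_lit 76) (nat_lit 17850462158) (nat_lit 76) (nat_lit 12394652839) (nat_lit 7) (nat_lit 4) (nat_lit 8) (nat_lit 5) (nat_lit 8) (nat_lit 4) (nat_lit 325) (nat_lit 238) (nat_lit 217)) (XT.lf (nat_lit 0) (nat_lit 7935940237) (nat_lit 76) (nat_lit 14851599782) (nat_lit 76) (nat_lit 9250322442) (nat_lit 7) (nat_lit 4) (nat_lit 8) (nat_lit 5) (nat_lit 8) (nat_lit 4) (nat_lit 326) (nat_lit 238) (nat_lit 216))) (XT.nd (nat_lit 78) (nat_lit 76) (nat_lit 0) (XT.lf (nat_lit 0) (nat_lit 15640693549) (nat_lit 76) (nat_lit 11770797423) (nat_lit 76) (nat_lit 6030979110) (nat_lit 7) (nat_lit 4) (nat_lit 8) (nat_lit 5) (nat_lit 8) (nat_lit 4) (nat_lit 327) (nat_lit 238) (nat_lit 215)) (XT.nd (nat_lit 78) (nat_lit 76) (nat_lit 0) (XT.lf (nat_lit 0) (nat_lit 23591390877) (nat_lit 76) (nat_lit 8600719837)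 (nat_lit 76) (nat_lit 2728957741) (nat_lit 7) (nat_lit 4) (nat_lit 8) (nat_lit 5) (nat_lit 8) (nat_lit 4) (nat_lit 328) (nat_lit 238) (nat_lit 214)) (XT.lf (nat_lit 0) (nat_lit 642364162) (nat_lit 152) (nat_lit 4680576308) (nat_lit 76) (nat_lit 31153719543) (nat_lit 6) (nat_lit 5) (nat_lit 8) (nat_lit 5) (nat_lit 7) (nat_lit 4) (nat_lit 329) (nat_lit 238) (nat_lit 213))))))) (XT.nd (nat_lit 780) (nat_lit 152) (nat_lit 0) (XT.nd (nat_lit 390) (nat_lit 76) (nat_lit 0) (XT.nd (nat_lit 156) (nat_lit 0) (nat_lit 0) (XT.nd (nat_lit 78) (nat_lit 0) (nat_lit 0) (XT.lf (nat_lit 0) (nat_lit 2197945453) (nat_lit 76) (nat_lit 1858174154) (nat_lit 152) (nat_lit 34053425088) (nat_lit 5) (nat_lit 5) (nat_lit 6) (nat_lit 5) (nat_lit 7) (nat_lit 4) (nat_lit 330) (nat_lit 238) (nat_lit 212)) (XT.lf (nat_lit 0) (nat_lit 7680554419) (nat_lit 152) (nat_lit 30395352866) (nat_lit 0) (nat_lit 1746194663) (nat_lit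 5) (nat_lit 5) (nat_lit 7) (nat_lit 4) (nat_lit 5) (nat_lit 4) (nat_lit 331) (nat_lit 238) (nat_lit 211))) (XT.nd (nat_lit 78) (nat_lit 0) (nat_lit 0) (XT.lf (nat_lit 0) (nat_lit 11451564418) (nat_lit 152) (nat_lit 24756658304) (nat_lit 0) (nat_lit 5413823255) (nat_lit 5) (nat_lit 5) (nat_lit 7) (nat_lit 4) (nat_lit 5) (nat_lit 4) (nat_lit 332) (nat_lit 238) (nat_lit 210)) (XT.nd (nat_lit 78) (nat_lit 0) (nat_lit 0) (XT.lf (nat_lit 0) (nat_lit 15349116894) (nat_lit 152) (nat_lit 18953078787) (nat_lit 0) (nat_lit 9212917248) (nat_lit 5) (nat_lit 5) (nat_lit 7) (nat_lit 4) (nat_lit 5) (nat_lit 4) (nat_lit 333) (nat_lit 238) (nat_lit 209)) (XT.lf (nat_lit 0) (nat_lit 19382491733) (nat_lit 152) (nat_lit 12970796268) (nat_lit 0) (nat_lit 13152522104) (nat_lit 5) (nat_lit 5) (nat_lit 7) (nat_lit 4) (nat_lit 5) (nat_lit 4) (nat_lit 334) (nat_lit 238) (nat_lit 208))))) (XT.nd (nat_lit 156) (nat_lit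 76) (nat_lit 0) (XT.nd (nat_lit 78) (nat_lit 0) (nat_lit 0) (XT.lf (nat_lit 0) (nat_lit 23561292210) (nat_lit 152) (nat_lit 6795567219) (nat_lit 0) (nat_lit 17242017835) (nat_lit 5) (nat_lit 5) (nat_lit 7) (nat_lit 4) (nat_lit 5) (nat_lit 4) (nat_lit 335) (nat_lit 238) (nat_lit 207)) (XT.lf (nat_lit 0) (nat_lit 27895467848) (nat_lit 152) (nat_lit 412688713) (nat_lit 0) (nat_lit 21491141334) (nat_lit 5) (nat_lit 5) (nat_lit 7) (nat_lit 4) (nat_lit 5) (nat_lit 4) (nat_lit 336) (nat_lit 238) (nat_lit 206))) (XT.nd (nat_lit 78) (nat_lit 0) (nat_lit 0) (XT.lf (nat_lit 0) (nat_lit 6397806337) (nat_lit 76) (nat_lit 26097419464) (nat_lit 76) (nat_lit 19612090912) (nat_lit 4) (nat_lit 4) (nat_lit 5) (nat_lit 5) (nat_lit 5) (nat_lit 4) (nat_lit 337) (nat_lit 238) (nat_lit 205)) (XT.nd (nat_lit 78) (nat_lit 0) (nat_lit 0) (XT.lf (nat_lit 0) (nat_lit 13468409803) (nat_lit 76) (nat_lit 23813486804)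 (nat_lit 76) (nat_lit 17251013456) (nat_lit 4) (nat_lit 4) (nat_lit 5) (nat_lit 5) (nat_lit 5) (nat_lit 4) (nat_lit 338) (nat_lit 238) (nat_lit 204)) (XT.lf (nat_lit 0) (nat_lit 20802311100) (nat_lit 76) (nat_lit 21457909733) (nat_lit 76) (nat_lit 14821965148) (nat_lit 4) (nat_lit 4) (nat_lit 5) (nat_lit 5) (nat_lit 5) (nat_lit 4) (nat_lit 339) (nat_lit 238) (nat_lit 203)))))) (XT.nd (nat_lit 390) (nat_lit 152) (nat_lit 0) (XT.nd (nat_lit 156) (nat_lit 0) (nat_lit 0) (XT.nd (nat_lit 78) (nat_lit 0) (nat_lit 0) (XT.lf (nat_lit 0) (nat_lit 28416971899) (nat_lit 76) (nat_lit 19025079731) (nat_lit 76) (nat_lit 12319162541) (nat_lit 4) (nat_lit 4) (nat_lit 5) (nat_lit 5) (nat_lit 5) (nat_lit 4) (nat_lit 340) (nat_lit 238) (nat_lit 202)) (XT.lf (nat_lit 0) (nat_lit 36330522344) (nat_lit 76) (nat_lit 16509204348) (nat_lit 76) (nat_lit 9736646581) (nat_lit 4) (nat_lit 4) (nat_lit 5) (nat_lit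 5) (nat_lit 5) (nat_lit 4) (nat_lit 341) (nat_lit 238) (nat_lit 201))) (XT.nd (nat_lit 78) (nat_lit 0) (nat_lit 0) (XT.lf (nat_lit 0) (nat_lit 44561804222) (nat_lit 76) (nat_lit 13904293403) (nat_lit 76) (nat_lit 7068268421) (nat_lit 4) (nat_lit 4) (nat_lit 5) (nat_lit 5) (nat_lit 5) (nat_lit 4) (nat_lit 342) (nat_lit 238) (nat_lit 200)) (XT.nd (nat_lit 78) (nat_lit 0) (nat_lit 0) (XT.lf (nat_lit 0) (nat_lit 53130415823) (nat_lit 76) (nat_lit 11204144728) (nat_lit 76) (nat_lit 4307674778) (nat_lit 4) (nat_lit 4) (nat_lit 5) (nat_lit 5) (nat_lit 5) (nat_lit 4) (nat_lit 343) (nat_lit 238) (nat_lit 199)) (XT.lf (nat_lit 0) (nat_lit 62056758604) (nat_lit 76) (nat_lit 8402329397) (nat_lit 76) (nat_lit 1448292812) (nat_lit 4) (nat_lit 4) (nat_lit 5) (nat_lit 5) (nat_lit 5) (nat_lit 4) (nat_lit 344) (nat_lit 238) (nat_lit 198))))) (XT.nd (nat_lit 234) (nat_lit 0) (nat_lit 0) (XT.nd (nat_lit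 78) (nat_lit 76) (nat_lit 0) (XT.lf (nat_lit 0) (nat_lit 1468142121) (nat_lit 152) (nat_lit 3999170602) (nat_lit 76) (nat_lit 69869079942) (nat_lit 3) (nat_lit 5) (nat_lit 5) (nat_lit 5) (nat_lit 4) (nat_lit 4) (nat_lit 345) (nat_lit 238) (nat_lit 197)) (XT.nd (nat_lit 78) (nat_lit 0) (nat_lit 0) (XT.lf (nat_lit 0) (nat_lit 2123807761) (nat_lit 76) (nat_lit 2356623628) (nat_lit 152) (nat_lit 74455314149) (nat_lit 2) (nat_lit 5) (nat_lit 3) (nat_lit 5) (nat_lit 4) (nat_lit 4) (nat_lit 346) (nat_lit 238) (nat_lit 196)) (XT.lf (nat_lit 0) (nat_lit 7692083980) (nat_lit 152) (nat_lit 74100667891) (nat_lit 0) (nat_lit 919888921) (nat_lit 2) (nat_lit 5) (nat_lit 4) (nat_lit 4) (nat_lit 2) (nat_lit 4) (nat_lit 347) (nat_lit 238) (nat_lit 195)))) (XT.nd (nat_lit 78) (nat_lit 0) (nat_lit 0) (XT.lf (nat_lit 0) (nat_lit 11070294538) (nat_lit 152) (nat_lit 71354804588) (nat_lit 0) (nat_lit 4252994514)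 (nat_lit 2) (nat_lit 5) (nat_lit 4) (nat_lit 4) (nat_lit 2) (nat_lit 4) (nat_lit 348) (nat_lit 238) (nat_lit 194)) (XT.nd (nat_lit 78) (nat_lit 0) (nat_lit 0) (XT.lf (nat_lit 0) (nat_lit 14586312923) (nat_lit 152) (nat_lit 68531016600) (nat_lit 0) (nat_lit 7726055789) (nat_lit 2) (nat_lit 5) (nat_lit 4) (nat_lit 4) (nat_lit 2) (nat_lit 4) (nat_lit 349) (nat_lit 238) (nat_lit 193)) (XT.lf (nat_lit 0) (nat_lit 18248510608) (nat_lit 152) (nat_lit 65622580623) (nat_lit 0) (nat_lit 11347341941) (nat_lit 2) (nat_lit 5) (nat_lit 4) (nat_lit 4) (nat_lit 2) (nat_lit 4) (nat_lit 350) (nat_lit 238) (nat_lit 192))))))))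
noncomputable def xc48 : XT := (XT.nd (nat_lit 1560) (nat_lit 0) (nat_lit 0) (XT.nd (nat_lit 780) (nat_lit 76) (nat_lit 0) (XT.nd (nat_lit 390) (nat_lit 0) (nat_lit 0) (XT.nd (nat_lit 156) (nat_lit 0) (nat_lit 0) (XT.nd (nat_lit 78) (nat_lit 0) (nat_lit 0) (XT.lf (nat_lit 0) (nat_lit 22065607110) (nat_lit 152) (nat_lit 62622571809) (nat_lit 0) (nat_lit 15125475078) (nat_lit 2) (nat_lit 5) (nat_lit 4) (nat_lit 4) (nat_lit 2) (nat_lit 4) (nat_lit 351) (nat_lit 238) (nat_lit 191)) (XT.lf (nat_lit 0) (nat_lit 26046690755) (nat_lit 152) (nat_lit 59523847279) (nat_lit 0) (nat_lit 19069450756) (nat_lit 2) (nat_lit 5) (nat_lit 4) (nat_lit 4) (nat_lit 2) (nat_lit 4) (nat_lit 352) (nat_lit 238) (nat_lit 190))) (XT.nd (nat_lit 78) (nat_lit 0) (nat_lit 0) (XT.lf (nat_lit 0) (nat_lit 30201240314) (nat_lit 152) (nat_lit 56319029119) (nat_lit 0) (nat_lit 23188659394) (nat_lit 2) (nat_lit 5) (nat_lit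 4) (nat_lit 4) (nat_lit 2) (nat_lit 4) (nat_lit 353) (nat_lit 238) (nat_lit 189)) (XT.nd (nat_lit 78) (nat_lit 0) (nat_lit 0) (XT.lf (nat_lit 0) (nat_lit 34539147570) (nat_lit 152) (nat_lit 53000486808) (nat_lit 0) (nat_lit 27492908631) (nat_lit 2) (nat_lit 5) (nat_lit 4) (nat_lit 4) (nat_lit 2) (nat_lit 4) (nat_lit 354) (nat_lit 238) (nat_lit 188)) (XT.lf (nat_lit 0) (nat_lit 39070740874) (nat_lit 152) (nat_lit 49560319056) (nat_lit 0) (nat_lit 31992446679) (nat_lit 2) (nat_lit 5) (nat_lit 4) (nat_lit 4) (nat_lit 2) (nat_lit 4) (nat_lit 355) (nat_lit 238) (nat_lit 187))))) (XT.nd (nat_lit 156) (nat_lit 0) (nat_lit 0) (XT.nd (nat_lit 78) (nat_lit 0) (nat_lit 0) (XT.lf (nat_lit 0) (nat_lit 43806809736) (nat_lit 152) (nat_lit 45990334986) (nat_lit 0) (nat_lit 36697986724) (nat_lit 2) (nat_lit 5) (nat_lit 4) (nat_lit 4) (nat_lit 2) (nat_lit 4) (nat_lit 356) (nat_lit 238) (nat_lit 186))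 (XT.lf (nat_lit 0) (nat_lit 48758630508) (nat_lit 152) (nat_lit 42282034638) (nat_lit 0) (nat_lit 41620732433) (nat_lit 2) (nat_lit 5) (nat_lit 4) (nat_lit 4) (nat_lit 2) (nat_lit 4) (nat_lit 357) (nat_lit 238) (nat_lit 185))) (XT.nd (nat_lit 78) (nat_lit 0) (nat_lit 0) (XT.lf (nat_lit 0) (nat_lit 53937993240) (nat_lit 152) (nat_lit 38426588724) (nat_lit 0) (nat_lit 46772404629) (nat_lit 2) (nat_lit 5) (nat_lit 4) (nat_lit 4) (nat_lit 2) (nat_lit 4) (nat_lit 358) (nat_lit 238) (nat_lit 184)) (XT.nd (nat_lit 78) (nat_lit 0) (nat_lit 0) (XT.lf (nat_lit 0) (nat_lit 59357229748) (nat_lit 152) (nat_lit 34414817610) (nat_lit 0) (nat_lit 52165269199) (nat_lit 2) (nat_lit 5) (nat_lit 4) (nat_lit 4) (nat_lit 2) (nat_lit 4) (nat_lit 359) (nat_lit 238) (nat_lit 183)) (XT.lf (nat_lit 0) (nat_lit 65029242977) (nat_lit 152) (nat_lit 30237169463) (nat_lit 0) (nat_lit 57812166295) (nat_lit 2) (nat_lit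 5) (nat_lit 4) (nat_lit 4) (nat_lit 2) (nat_lit 4) (nat_lit 360) (nat_lit 238) (nat_lit 182)))))) (XT.nd (nat_lit 390) (nat_lit 76) (nat_lit 0) (XT.nd (nat_lit 156) (nat_lit 0) (nat_lit 0) (XT.nd (nat_lit 78) (nat_lit 0) (nat_lit 0) (XT.lf (nat_lit 0) (nat_lit 70967537720) (nat_lit 152) (nat_lit 25883697498) (nat_lit 0) (nat_lit 63726540912) (nat_lit 2) (nat_lit 5) (nat_lit 4) (nat_lit 4) (nat_lit 2) (nat_lit 4) (nat_lit 361) (nat_lit 238) (nat_lit 181)) (XT.lf (nat_lit 0) (nat_lit 77186252774) (nat_lit 152) (nat_lit 21344036309) (nat_lit 0) (nat_lit 69922474893) (nat_lit 2) (nat_lit 5) (nat_lit 4) (nat_lit 4) (nat_lit 2) (nat_lit 4) (nat_lit 362) (nat_lit 238) (nat_lit 180))) (XT.nd (nat_lit 78) (nat_lit 0) (nat_lit 0) (XT.lf (nat_lit 0) (nat_lit 83700194603) (nat_lit 152) (nat_lit 16607377176) (nat_lit 0) (nat_lit 76414720462) (nat_lit 2) (nat_lit 5) (nat_lit 4) (nat_lit 4) (nat_lit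 2) (nat_lit 4) (nat_lit 363) (nat_lit 238) (nat_lit 179)) (XT.nd (nat_lit 78) (nat_lit 0) (nat_lit 0) (XT.lf (nat_lit 0) (nat_lit 90524872592) (nat_lit 152) (nat_lit 11662442342) (nat_lit 0) (nat_lit 83218735347) (nat_lit 2) (nat_lit 5) (nat_lit 4) (nat_lit 4) (nat_lit 2) (nat_lit 4) (nat_lit 364) (nat_lit 238) (nat_lit 178)) (XT.lf (nat_lit 0) (nat_lit 97676535975) (nat_lit 152) (nat_lit 6497458150) (nat_lit 0) (nat_lit 90350719583) (nat_lit 2) (nat_lit 5) (nat_lit 4) (nat_lit 4) (nat_lit 2) (nat_lit 4) (nat_lit 365) (nat_lit 238) (nat_lit 177))))) (XT.nd (nat_lit 156) (nat_lit 0) (nat_lit 0) (XT.nd (nat_lit 78) (nat_lit 76) (nat_lit 0) (XT.lf (nat_lit 0) (nat_lit 105172212522) (nat_lit 152) (nat_lit 1100127020) (nat_lit 0) (nat_lit 97827654086) (nat_lit 2) (nat_lit 5) (nat_lit 4) (nat_lit 4) (nat_lit 2) (nat_lit 4) (nat_lit 366) (nat_lit 238) (nat_lit 176)) (XT.lf (nat_lit 0) (nat_lit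 4692594155) (nat_lit 76) (nat_lit 108410419472) (nat_lit 76) (nat_lit 101048011469) (nat_lit 1) (nat_lit 4) (nat_lit 2) (nat_lit 5) (nat_lit 2) (nat_lit 4) (nat_lit 367) (nat_lit 238) (nat_lit 175))) (XT.nd (nat_lit 78) (nat_lit 0) (nat_lit 0) (XT.lf (nat_lit 0) (nat_lit 10788874370) (nat_lit 76) (nat_lit 110647424269) (nat_lit 76) (nat_lit 103268016679) (nat_lit 1) (nat_lit 4) (nat_lit 2) (nat_lit 5) (nat_lit 2) (nat_lit 4) (nat_lit 368) (nat_lit 238) (nat_lit 174)) (XT.nd (nat_lit 78) (nat_lit 0) (nat_lit 0) (XT.lf (nat_lit 0) (nat_lit 17166853409) (nat_lit 76) (nat_lit 113007311318) (nat_lit 76) (nat_lit 105611713645) (nat_lit 1) (nat_lit 4) (nat_lit 2) (nat_lit 5) (nat_lit 2) (nat_lit 4) (nat_lit 369) (nat_lit 238) (nat_lit 173)) (XT.lf (nat_lit 0) (nat_lit 23841716938) (nat_lit 76) (nat_lit 115495699398) (nat_lit 76) (nat_lit 108084682599) (nat_lit 1) (nat_lit 4) (nat_lit 2) (nat_lit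 5) (nat_lit 2) (nat_lit 4) (nat_lit 370) (nat_lit 238) (nat_lit 172))))))) (XT.nd (nat_lit 780) (nat_lit 0) (nat_lit 0) (XT.nd (nat_lit 390) (nat_lit 0) (nat_lit 0) (XT.nd (nat_lit 156) (nat_lit 0) (nat_lit 0) (XT.nd (nat_lit 78) (nat_lit 0) (nat_lit 0) (XT.lf (nat_lit 0) (nat_lit 30829357488) (nat_lit 76) (nat_lit 118118513243) (nat_lit 76) (nat_lit 110692811561) (nat_lit 1) (nat_lit 4) (nat_lit 2) (nat_lit 5) (nat_lit 2) (nat_lit 4) (nat_lit 371) (nat_lit 238) (nat_lit 171)) (XT.lf (nat_lit 0) (nat_lit 38146412298) (nat_lit 76) (nat_lit 120881997646) (nat_lit 76) (nat_lit 113442310362) (nat_lit 1) (nat_lit 4) (nat_lit 2) (nat_lit 5) (nat_lit 2) (nat_lit 4) (nat_lit 372) (nat_lit 238) (nat_lit 170))) (XT.nd (nat_lit 78) (nat_lit 0) (nat_lit 0) (XT.lf (nat_lit 0) (nat_lit 45810302928) (nat_lit 76) (nat_lit 123792732335) (nat_lit 76) (nat_lit 116339725429) (nat_lit 1) (nat_lit 4) (nat_lit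 2) (nat_lit 5) (nat_lit 2) (nat_lit 4) (nat_lit 373) (nat_lit 238) (nat_lit 169)) (XT.nd (nat_lit 78) (nat_lit 0) (nat_lit 0) (XT.lf (nat_lit 0) (nat_lit 53839276736) (nat_lit 76) (nat_lit 126857647627) (nat_lit 76) (nat_lit 119391955369) (nat_lit 1) (nat_lit 4) (nat_lit 2) (nat_lit 5) (nat_lit 2) (nat_lit 4) (nat_lit 374) (nat_lit 238) (nat_lit 168)) (XT.lf (nat_lit 0) (nat_lit 62252450327) (nat_lit 76) (nat_lit 130084040943) (nat_lit 76) (nat_lit 122606267395) (nat_lit 1) (nat_lit 4) (nat_lit 2) (nat_lit 5) (nat_lit 2) (nat_lit 4) (nat_lit 375) (nat_lit 238) (nat_lit 167))))) (XT.nd (nat_lit 156) (nat_lit 0) (nat_lit 0) (XT.nd (nat_lit 78) (nat_lit 0) (nat_lit 0) (XT.lf (nat_lit 0) (nat_lit 71069855066) (nat_lit 76) (nat_lit 133479594169) (nat_lit 76) (nat_lit 125990314631) (nat_lit 1) (nat_lit 4) (nat_lit 2) (nat_lit 5) (nat_lit 2) (nat_lit 4) (nat_lit 376) (nat_lit 238) (nat_lit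 166)) (XT.lf (nat_lit 0) (nat_lit 80312484775) (nat_lit 76) (nat_lit 137052391956) (nat_lit 76) (nat_lit 129552154333) (nat_lit 1) (nat_lit 4) (nat_lit 2) (nat_lit 5) (nat_lit 2) (nat_lit 4) (nat_lit 377) (nat_lit 238) (nat_lit 165))) (XT.nd (nat_lit 78) (nat_lit 0) (nat_lit 0) (XT.lf (nat_lit 0) (nat_lit 90002345714) (nat_lit 76) (nat_lit 140810940967) (nat_lit 76) (nat_lit 133300267072) (nat_lit 1) (nat_lit 4) (nat_lit 2) (nat_lit 5) (nat_lit 2) (nat_lit 4) (nat_lit 378) (nat_lit 238) (nat_lit 164)) (XT.nd (nat_lit 78) (nat_lit 0) (nat_lit 0) (XT.lf (nat_lit 0) (nat_lit 100162508980) (nat_lit 76) (nat_lit 144764190127) (nat_lit 76) (nat_lit 137243576926) (nat_lit 1) (nat_lit 4) (nat_lit 2) (nat_lit 5) (nat_lit 2) (nat_lit 4) (nat_lit 379) (nat_lit 238) (nat_lit 163)) (XT.lf (nat_lit 0) (nat_lit 110817165439) (nat_lit 76) (nat_lit 148921551934) (nat_lit 76) (nat_lit 141391472727) (nat_lit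 1) (nat_lit 4) (nat_lit 2) (nat_lit 5) (nat_lit 2) (nat_lit 4) (nat_lit 380) (nat_lit 238) (nat_lit 162)))))) (XT.nd (nat_lit 390) (nat_lit 0) (nat_lit 0) (XT.nd (nat_lit 156) (nat_lit 0) (nat_lit 0) (XT.nd (nat_lit 78) (nat_lit 0) (nat_lit 0) (XT.lf (nat_lit 0) (nat_lit 121991683321) (nat_lit 76) (nat_lit 153292924869) (nat_lit 76) (nat_lit 145753830417) (nat_lit 1) (nat_lit 4) (nat_lit 2) (nat_lit 5) (nat_lit 2) (nat_lit 4) (nat_lit 381) (nat_lit 238) (nat_lit 161)) (XT.lf (nat_lit 0) (nat_lit 133712668620) (nat_lit 76) (nat_lit 157888716962) (nat_lit 76) (nat_lit 150341036564) (nat_lit 1) (nat_lit 4) (nat_lit 2) (nat_lit 5) (nat_lit 2) (nat_lit 4) (nat_lit 382) (nat_lit 238) (nat_lit 160))) (XT.nd (nat_lit 78) (nat_lit 0) (nat_lit 0) (XT.lf (nat_lit 0) (nat_lit 146008028444) (nat_lit 76) (nat_lit 162719870576) (nat_lit 76) (nat_lit 155164013086) (nat_lit 1) (nat_lit 4) (nat_lit 2)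 (nat_lit 5) (nat_lit 2) (nat_lit 4) (nat_lit 383) (nat_lit 238) (nat_lit 159)) (XT.nd (nat_lit 78) (nat_lit 0) (nat_lit 0) (XT.lf (nat_lit 0) (nat_lit 158907037460) (nat_lit 76) (nat_lit 167797888457) (nat_lit 76) (nat_lit 160234243260) (nat_lit 1) (nat_lit 4) (nat_lit 2) (nat_lit 5) (nat_lit 2) (nat_lit 4) (nat_lit 384) (nat_lit 238) (nat_lit 158)) (XT.lf (nat_lit 0) (nat_lit 172440407593) (nat_lit 76) (nat_lit 173134861124) (nat_lit 76) (nat_lit 165563799064) (nat_lit 1) (nat_lit 4) (nat_lit 2) (nat_lit 5) (nat_lit 2) (nat_lit 4) (nat_lit 385) (nat_lit 238) (nat_lit 157))))) (XT.nd (nat_lit 156) (nat_lit 0) (nat_lit 0) (XT.nd (nat_lit 78) (nat_lit 0) (nat_lit 0) (XT.lf (nat_lit 0) (nat_lit 186640361154) (nat_lit 76) (nat_lit 178743495655) (nat_lit 76) (nat_lit 171165369915) (nat_lit 1) (nat_lit 4) (nat_lit 2) (nat_lit 5) (nat_lit 2) (nat_lit 4) (nat_lit 386) (nat_lit 238) (nat_lit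 156)) (XT.lf (nat_lit 0) (nat_lit 201540707556) (nat_lit 76) (nat_lit 184637145942) (nat_lit 76) (nat_lit 177052292888) (nat_lit 1) (nat_lit 4) (nat_lit 2) (nat_lit 5) (nat_lit 2) (nat_lit 4) (nat_lit 387) (nat_lit 238) (nat_lit 155))) (XT.nd (nat_lit 78) (nat_lit 0) (nat_lit 0) (XT.lf (nat_lit 0) (nat_lit 217176923814) (nat_lit 76) (nat_lit 190829844485) (nat_lit 76) (nat_lit 183238584466) (nat_lit 1) (nat_lit 4) (nat_lit 2) (nat_lit 5) (nat_lit 2) (nat_lit 4) (nat_lit 388) (nat_lit 238) (nat_lit 154)) (XT.nd (nat_lit 78) (nat_lit 0) (nat_lit 0) (XT.lf (nat_lit 0) (nat_lit 233586239014) (nat_lit 76) (nat_lit 197336335804) (nat_lit 76) (nat_lit 189738973913) (nat_lit 1) (nat_lit 4) (nat_lit 2) (nat_lit 5) (nat_lit 2) (nat_lit 4) (nat_lit 389) (nat_lit 238) (nat_lit 153)) (XT.lf (nat_lit 0) (nat_lit 250807722954) (nat_lit 76) (nat_lit 204172111546) (nat_lit 76) (nat_lit 196568938349)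 (nat_lit 1) (nat_lit 4) (nat_lit 2) (nat_lit 5) (nat_lit 2) (nat_lit 4) (nat_lit 390) (nat_lit 238) (nat_lit 152))))))))
noncomputable def xc49 : XT := (XT.nd (nat_lit 1560) (nat_lit 380) (nat_lit 0) (XT.nd (nat_lit 780) (nat_lit 380) (nat_lit 0) (XT.nd (nat_lit 390) (nat_lit 456) (nat_lit 0) (XT.nd (nat_lit 156) (nat_lit 152) (nat_lit 0) (XT.nd (nat_lit 78) (nat_lit 152) (nat_lit 0) (XT.lf (nat_lit 0) (nat_lit 3179377961) (nat_lit 152) (nat_lit 1683027703) (nat_lit 152) (nat_lit 1683027703) (nat_lit 24) (nat_lit 4) (nat_lit 26) (nat_lit 5) (nat_lit 26) (nat_lit 4) (nat_lit 302) (nat_lit 239) (nat_lit 239)) (XT.lf (nat_lit 0) (nat_lit 862018251) (nat_lit 152) (nat_lit 12296028679) (nat_lit 0) (nat_lit 344781582) (nat_lit 22) (nat_lit 5) (nat_lit 24) (nat_lit 4) (nat_lit 22) (nat_lit 4) (nat_lit 303) (nat_lit 239) (nat_lit 238))) (XT.nd (nat_lit 78) (nat_lit 152) (nat_lit 0) (XT.lf (nat_lit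 0) (nat_lit 5202067208) (nat_lit 152) (nat_lit 4537779947) (nat_lit 0) (nat_lit 4192224186) (nat_lit 22) (nat_lit 5) (nat_lit 24) (nat_lit 4) (nat_lit 22) (nat_lit 4) (nat_lit 304) (nat_lit 239) (nat_lit 237)) (XT.nd (nat_lit 78) (nat_lit 0) (nat_lit 0) (XT.lf (nat_lit 0) (nat_lit 3459841242) (nat_lit 152) (nat_lit 6203420252) (nat_lit 152) (nat_lit 4724428324) (nat_lit 20) (nat_lit 4) (nat_lit 22) (nat_lit 5) (nat_lit 22) (nat_lit 4) (nat_lit 305) (nat_lit 239) (nat_lit 236)) (XT.lf (nat_lit 0) (nat_lit 11759790338) (nat_lit 152) (nat_lit 2517853880) (nat_lit 152) (nat_lit 592053469) (nat_lit 20) (nat_lit 4) (nat_lit 22) (nat_lit 5) (nat_lit 22) (nat_lit 4) (nat_lit 306) (nat_lit 239) (nat_lit 235))))) (XT.nd (nat_lit 156) (nat_lit 304) (nat_lit 0) (XT.nd (nat_lit 78) (nat_lit 0) (nat_lit 0) (XT.lf (nat_lit 0) (nat_lit 3583870795) (nat_lit 152) (nat_lit 10446764857) (nat_lit 0) (nat_lit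 1344506701) (nat_lit 18) (nat_lit 5) (nat_lit 20) (nat_lit 4) (nat_lit 18) (nat_lit 4) (nat_lit 307) (nat_lit 239) (nat_lit 234)) (XT.lf (nat_lit 0) (nat_lit 7902700695) (nat_lit 152) (nat_lit 2727705579) (nat_lit 0) (nat_lit 5277366634) (nat_lit 18) (nat_lit 5) (nat_lit 20) (nat_lit 4) (nat_lit 18) (nat_lit 4) (nat_lit 308) (nat_lit 239) (nat_lit 233))) (XT.nd (nat_lit 78) (nat_lit 152) (nat_lit 0) (XT.lf (nat_lit 0) (nat_lit 5309943966) (nat_lit 152) (nat_lit 7076334862) (nat_lit 152) (nat_lit 4083410357) (nat_lit 16) (nat_lit 4) (nat_lit 18) (nat_lit 5) (nat_lit 18) (nat_lit 4) (nat_lit 309) (nat_lit 239) (nat_lit 232)) (XT.nd (nat_lit 78) (nat_lit 152) (nat_lit 0) (XT.lf (nat_lit 0) (nat_lit 13610689349) (nat_lit 152) (nat_lit 3398185330) (nat_lit 152) (nat_lit 55174687) (nat_lit 16) (nat_lit 4) (nat_lit 18) (nat_lit 5) (nat_lit 18) (nat_lit 4) (nat_lit 310) (nat_lit 239) (nat_lit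 231)) (XT.lf (nat_lit 0) (nat_lit 3991641419) (nat_lit 152) (nat_lit 13205486833) (nat_lit 0) (nat_lit 490283313) (nat_lit 14) (nat_lit 5) (nat_lit 16) (nat_lit 4) (nat_lit 14) (nat_lit 4) (nat_lit 311) (nat_lit 239) (nat_lit 230)))))) (XT.nd (nat_lit 390) (nat_lit 152) (nat_lit 0) (XT.nd (nat_lit 156) (nat_lit 152) (nat_lit 0) (XT.nd (nat_lit 78) (nat_lit 76) (nat_lit 0) (XT.lf (nat_lit 0) (nat_lit 8227901884) (nat_lit 152) (nat_lit 5690498437) (nat_lit 0) (nat_lit 4424126209) (nat_lit 14) (nat_lit 5) (nat_lit 16) (nat_lit 4) (nat_lit 14) (nat_lit 4) (nat_lit 312) (nat_lit 239) (nat_lit 229)) (XT.lf (nat_lit 0) (nat_lit 2048886894) (nat_lit 76) (nat_lit 10538893293) (nat_lit 76) (nat_lit 6447100887) (nat_lit 13) (nat_lit 4) (nat_lit 14) (nat_lit 5) (nat_lit 14) (nat_lit 4) (nat_lit 313) (nat_lit 239) (nat_lit 228))) (XT.nd (nat_lit 78) (nat_lit 152) (nat_lit 0) (XT.lf (nat_lit 0) (nat_lit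 10159371953) (nat_lit 76) (nat_lit 6984858541) (nat_lit 76) (nat_lit 2618764486) (nat_lit 13) (nat_lit 4) (nat_lit 14) (nat_lit 5) (nat_lit 14) (nat_lit 4) (nat_lit 314) (nat_lit 239) (nat_lit 227)) (XT.nd (nat_lit 78) (nat_lit 76) (nat_lit 0) (XT.lf (nat_lit 0) (nat_lit 1242060178) (nat_lit 152) (nat_lit 2081110354) (nat_lit 76) (nat_lit 17209018772) (nat_lit 12) (nat_lit 5) (nat_lit 14) (nat_lit 5) (nat_lit 13) (nat_lit 4) (nat_lit 315) (nat_lit 239) (nat_lit 226)) (XT.lf (nat_lit 0) (nat_lit 5198159450) (nat_lit 152) (nat_lit 15585863378) (nat_lit 0) (nat_lit 554222876) (nat_lit 11) (nat_lit 5) (nat_lit 13) (nat_lit 4) (nat_lit 11) (nat_lit 4) (nat_lit 316) (nat_lit 239) (nat_lit 225))))) (XT.nd (nat_lit 156) (nat_lit 152) (nat_lit 0) (XT.nd (nat_lit 78) (nat_lit 0) (nat_lit 0) (XT.lf (nat_lit 0) (nat_lit 9334486239) (nat_lit 152) (nat_lit 8386174572) (nat_lit 0) (nat_lit 4464881019)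 (nat_lit 11) (nat_lit 5) (nat_lit 13) (nat_lit 4) (nat_lit 11) (nat_lit 4) (nat_lit 317) (nat_lit 239) (nat_lit 224)) (XT.lf (nat_lit 0) (nat_lit 13574888374) (nat_lit 152) (nat_lit 1015146074) (nat_lit 0) (nat_lit 8490360634) (nat_lit 11) (nat_lit 5) (nat_lit 13) (nat_lit 4) (nat_lit 11) (nat_lit 4) (nat_lit 318) (nat_lit 239) (nat_lit 223))) (XT.nd (nat_lit 78) (nat_lit 76) (nat_lit 0) (XT.lf (nat_lit 0) (nat_lit 6761171907) (nat_lit 76) (nat_lit 11273850985) (nat_lit 76) (nat_lit 5984635132) (nat_lit 10) (nat_lit 4) (nat_lit 11) (nat_lit 5) (nat_lit 11) (nat_lit 4) (nat_lit 319) (nat_lit 239) (nat_lit 222)) (XT.nd (nat_lit 78) (nat_lit 76) (nat_lit 0) (XT.lf (nat_lit 0) (nat_lit 14784785470) (nat_lit 76) (nat_lit 7854621767) (nat_lit 76) (nat_lit 2370464853) (nat_lit 10) (nat_lit 4) (nat_lit 11) (nat_lit 5) (nat_lit 11) (nat_lit 4) (nat_lit 320) (nat_lit 239) (nat_lit 221)) (XT.lf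 (nat_lit 0) (nat_lit 1285899655) (nat_lit 152) (nat_lit 3033720774) (nat_lit 76) (nat_lit 21733556154) (nat_lit 9) (nat_lit 5) (nat_lit 11) (nat_lit 5) (nat_lit 10) (nat_lit 4) (nat_lit 321) (nat_lit 239) (nat_lit 220))))))) (XT.nd (nat_lit 780) (nat_lit 76) (nat_lit 0) (XT.nd (nat_lit 390) (nat_lit 152) (nat_lit 0) (XT.nd (nat_lit 156) (nat_lit 76) (nat_lit 0) (XT.nd (nat_lit 78) (nat_lit 0) (nat_lit 0) (XT.lf (nat_lit 0) (nat_lit 4457728892) (nat_lit 76) (nat_lit 568788789) (nat_lit 152) (nat_lit 22121174000) (nat_lit 8) (nat_lit 5) (nat_lit 9) (nat_lit 5) (nat_lit 10) (nat_lit 4) (nat_lit 322) (nat_lit 239) (nat_lit 219)) (XT.lf (nat_lit 0) (nat_lit 8971048319) (nat_lit 152) (nat_lit 16082632841) (nat_lit 0) (nat_lit 3242448534) (nat_lit 8) (nat_lit 5) (nat_lit 10) (nat_lit 4) (nat_lit 8) (nat_lit 4) (nat_lit 323) (nat_lit 239) (nat_lit 218))) (XT.nd (nat_lit 78) (nat_lit 76) (nat_lit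 0) (XT.lf (nat_lit 0) (nat_lit 13038371101) (nat_lit 152) (nat_lit 9310349611) (nat_lit 0) (nat_lit 7157029893) (nat_lit 8) (nat_lit 5) (nat_lit 10) (nat_lit 4) (nat_lit 8) (nat_lit 4) (nat_lit 324) (nat_lit 239) (nat_lit 217)) (XT.nd (nat_lit 78) (nat_lit 76) (nat_lit 0) (XT.lf (nat_lit 0) (nat_lit 17229289743) (nat_lit 152) (nat_lit 2348108229) (nat_lit 0) (nat_lit 11202480514) (nat_lit 8) (nat_lit 5) (nat_lit 10) (nat_lit 4) (nat_lit 8) (nat_lit 4) (nat_lit 325) (nat_lit 239) (nat_lit 216)) (XT.lf (nat_lit 0) (nat_lit 4980061126) (nat_lit 76) (nat_lit 16651474207) (nat_lit 76) (nat_lit 10486124006) (nat_lit 7) (nat_lit 4) (nat_lit 8) (nat_lit 5) (nat_lit 8) (nat_lit 4) (nat_lit 326) (nat_lit 239) (nat_lit 215))))) (XT.nd (nat_lit 156) (nat_lit 152) (nat_lit 0) (XT.nd (nat_lit 78) (nat_lit 0) (nat_lit 0) (XT.lf (nat_lit 0) (nat_lit 12616866317) (nat_lit 76) (nat_lit 13602264477) (nat_lit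 76) (nat_lit 7304970493) (nat_lit 7) (nat_lit 4) (nat_lit 8) (nat_lit 5) (nat_lit 8) (nat_lit 4) (nat_lit 327) (nat_lit 239) (nat_lit 214)) (XT.lf (nat_lit 0) (nat_lit 20502851148) (nat_lit 76) (nat_lit 10462275109) (nat_lit 76) (nat_lit 4039320379) (nat_lit 7) (nat_lit 4) (nat_lit 8) (nat_lit 5) (nat_lit 8) (nat_lit 4) (nat_lit 328) (nat_lit 239) (nat_lit 213))) (XT.nd (nat_lit 78) (nat_lit 152) (nat_lit 0) (XT.lf (nat_lit 0) (nat_lit 28656791775) (nat_lit 76) (nat_lit 7224029938) (nat_lit 76) (nat_lit 681398307) (nat_lit 7) (nat_lit 4) (nat_lit 8) (nat_lit 5) (nat_lit 8) (nat_lit 4) (nat_lit 329) (nat_lit 239) (nat_lit 212)) (XT.nd (nat_lit 78) (nat_lit 76) (nat_lit 0) (XT.lf (nat_lit 0) (nat_lit 2687916130) (nat_lit 152) (nat_lit 1146381565) (nat_lit 76) (nat_lit 34364665052) (nat_lit 6) (nat_lit 5) (nat_lit 8) (nat_lit 5) (nat_lit 7) (nat_lit 4) (nat_lit 330) (nat_lit 239) (nat_lit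 211)) (XT.lf (nat_lit 0) (nat_lit 6015288486) (nat_lit 76) (nat_lit 219076682) (nat_lit 152) (nat_lit 33681067089) (nat_lit 5) (nat_lit 5) (nat_lit 6) (nat_lit 5) (nat_lit 7) (nat_lit 4) (nat_lit 331) (nat_lit 239) (nat_lit 210)))))) (XT.nd (nat_lit 390) (nat_lit 76) (nat_lit 0) (XT.nd (nat_lit 156) (nat_lit 0) (nat_lit 0) (XT.nd (nat_lit 78) (nat_lit 0) (nat_lit 0) (XT.lf (nat_lit 0) (nat_lit 9971706950) (nat_lit 152) (nat_lit 28315126259) (nat_lit 0) (nat_lit 3430238839) (nat_lit 5) (nat_lit 5) (nat_lit 7) (nat_lit 4) (nat_lit 5) (nat_lit 4) (nat_lit 332) (nat_lit 239) (nat_lit 209)) (XT.lf (nat_lit 0) (nat_lit 13840451982) (nat_lit 152) (nat_lit 22565925266) (nat_lit 0) (nat_lit 7205213888) (nat_lit 5) (nat_lit 5) (nat_lit 7) (nat_lit 4) (nat_lit 5) (nat_lit 4) (nat_lit 333) (nat_lit 239) (nat_lit 208))) (XT.nd (nat_lit 78) (nat_lit 0) (nat_lit 0) (XT.lf (nat_lit 0) (nat_lit 17846391160)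 (nat_lit 152) (nat_lit 16635431818) (nat_lit 0) (nat_lit 11121848320) (nat_lit 5) (nat_lit 5) (nat_lit 7) (nat_lit 4) (nat_lit 5) (nat_lit 4) (nat_lit 334) (nat_lit 239) (nat_lit 207)) (XT.nd (nat_lit 78) (nat_lit 0) (nat_lit 0) (XT.lf (nat_lit 0) (nat_lit 21999062436) (nat_lit 152) (nat_lit 10509525694) (nat_lit 0) (nat_lit 15189467457) (nat_lit 5) (nat_lit 5) (nat_lit 7) (nat_lit 4) (nat_lit 5) (nat_lit 4) (nat_lit 335) (nat_lit 239) (nat_lit 206)) (XT.lf (nat_lit 0) (nat_lit 26308353121) (nat_lit 152) (nat_lit 4173621401) (nat_lit 0) (nat_lit 19417756105) (nat_lit 5) (nat_lit 5) (nat_lit 7) (nat_lit 4) (nat_lit 5) (nat_lit 4) (nat_lit 336) (nat_lit 239) (nat_lit 205))))) (XT.nd (nat_lit 156) (nat_lit 0) (nat_lit 0) (XT.nd (nat_lit 78) (nat_lit 0) (nat_lit 0) (XT.lf (nat_lit 0) (nat_lit 2466303665) (nat_lit 76) (nat_lit 28356725679) (nat_lit 76) (nat_lit 21388983865) (nat_lit 4) (nat_lit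 4) (nat_lit 5) (nat_lit 5) (nat_lit 5) (nat_lit 4) (nat_lit 337) (nat_lit 239) (nat_lit 204)) (XT.lf (nat_lit 0) (nat_lit 9492891354) (nat_lit 76) (nat_lit 26093550200) (nat_lit 76) (nat_lit 19052337151) (nat_lit 4) (nat_lit 4) (nat_lit 5) (nat_lit 5) (nat_lit 5) (nat_lit 4) (nat_lit 338) (nat_lit 239) (nat_lit 203))) (XT.nd (nat_lit 78) (nat_lit 0) (nat_lit 0) (XT.lf (nat_lit 0) (nat_lit 16784872864) (nat_lit 76) (nat_lit 23757741872) (nat_lit 76) (nat_lit 16646556217) (nat_lit 4) (nat_lit 4) (nat_lit 5) (nat_lit 5) (nat_lit 5) (nat_lit 4) (nat_lit 339) (nat_lit 239) (nat_lit 202)) (XT.nd (nat_lit 78) (nat_lit 0) (nat_lit 0) (XT.lf (nat_lit 0) (nat_lit 24359610056) (nat_lit 76) (nat_lit 21343739245) (nat_lit 76) (nat_lit 14165913014) (nat_lit 4) (nat_lit 4) (nat_lit 5) (nat_lit 5) (nat_lit 5) (nat_lit 4) (nat_lit 340) (nat_lit 239) (nat_lit 201)) (XT.lf (nat_lit 0) (nat_lit 32235138019)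 (nat_lit 76) (nat_lit 18845794695) (nat_lit 76) (nat_lit 11604501248) (nat_lit 4) (nat_lit 4) (nat_lit 5) (nat_lit 5) (nat_lit 5) (nat_lit 4) (nat_lit 341) (nat_lit 239) (nat_lit 200))))))))
noncomputable def xc50 : XT := (XT.nd (nat_lit 1560) (nat_lit 76) (nat_lit 0) (XT.nd (nat_lit 780) (nat_lit 0) (nat_lit 0) (XT.nd (nat_lit 390) (nat_lit 76) (nat_lit 0) (XT.nd (nat_lit 156) (nat_lit 76) (nat_lit 0) (XT.nd (nat_lit 78) (nat_lit 0) (nat_lit 0) (XT.lf (nat_lit 0) (nat_lit 40430208008) (nat_lit 76) (nat_lit 16257960734) (nat_lit 76) (nat_lit 8956222319) (nat_lit 4) (nat_lit 4) (nat_lit 5) (nat_lit 5) (nat_lit 5) (nat_lit 4) (nat_lit 342) (nat_lit 239) (nat_lit 199)) (XT.lf (nat_lit 0) (nat_lit 48964332097) (nat_lit 76) (nat_lit 13574075853) (nat_lit 76) (nat_lit 6214770803) (nat_lit 4) (nat_lit 4) (nat_lit 5) (nat_lit 5) (nat_lit 5) (nat_lit 4) (nat_lit 343) (nat_lit 239) (nat_lit 198)))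 (XT.nd (nat_lit 78) (nat_lit 76) (nat_lit 0) (XT.lf (nat_lit 0) (nat_lit 57857829628) (nat_lit 76) (nat_lit 10787749850) (nat_lit 76) (nat_lit 3373619432) (nat_lit 4) (nat_lit 4) (nat_lit 5) (nat_lit 5) (nat_lit 5) (nat_lit 4) (nat_lit 344) (nat_lit 239) (nat_lit 197)) (XT.nd (nat_lit 78) (nat_lit 76) (nat_lit 0) (XT.lf (nat_lit 0) (nat_lit 67131875595) (nat_lit 76) (nat_lit 7892348615) (nat_lit 76) (nat_lit 426003562) (nat_lit 4) (nat_lit 4) (nat_lit 5) (nat_lit 5) (nat_lit 5) (nat_lit 4) (nat_lit 345) (nat_lit 239) (nat_lit 196)) (XT.lf (nat_lit 0) (nat_lit 2550755446) (nat_lit 152) (nat_lit 2287024611) (nat_lit 76) (nat_lit 74214597335) (nat_lit 3) (nat_lit 5) (nat_lit 5) (nat_lit 5) (nat_lit 4) (nat_lit 4) (nat_lit 346) (nat_lit 239) (nat_lit 195))))) (XT.nd (nat_lit 156) (nat_lit 0) (nat_lit 0) (XT.nd (nat_lit 78) (nat_lit 0) (nat_lit 0) (XT.lf (nat_lit 0) (nat_lit 4111262275) (nat_lit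 76) (nat_lit 1583711269) (nat_lit 152) (nat_lit 77137676485) (nat_lit 2) (nat_lit 5) (nat_lit 3) (nat_lit 5) (nat_lit 4) (nat_lit 4) (nat_lit 347) (nat_lit 239) (nat_lit 194)) (XT.lf (nat_lit 0) (nat_lit 9033285881) (nat_lit 152) (nat_lit 75979758515) (nat_lit 0) (nat_lit 1787058781) (nat_lit 2) (nat_lit 5) (nat_lit 4) (nat_lit 4) (nat_lit 2) (nat_lit 4) (nat_lit 348) (nat_lit 239) (nat_lit 193))) (XT.nd (nat_lit 78) (nat_lit 0) (nat_lit 0) (XT.lf (nat_lit 0) (nat_lit 12534854696) (nat_lit 152) (nat_lit 73183551703) (nat_lit 0) (nat_lit 5247716062) (nat_lit 2) (nat_lit 5) (nat_lit 4) (nat_lit 4) (nat_lit 2) (nat_lit 4) (nat_lit 349) (nat_lit 239) (nat_lit 192)) (XT.nd (nat_lit 78) (nat_lit 0) (nat_lit 0) (XT.lf (nat_lit 0) (nat_lit 16183290885) (nat_lit 152) (nat_lit 70301383512) (nat_lit 0) (nat_lit 8857188886) (nat_lit 2) (nat_lit 5) (nat_lit 4) (nat_lit 4) (nat_lit 2) (nat_lit 4)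 (nat_lit 350) (nat_lit 239) (nat_lit 191)) (XT.lf (nat_lit 0) (nat_lit 19987281201) (nat_lit 152) (nat_lit 67326391637) (nat_lit 0) (nat_lit 12624071235) (nat_lit 2) (nat_lit 5) (nat_lit 4) (nat_lit 4) (nat_lit 2) (nat_lit 4) (nat_lit 351) (nat_lit 239) (nat_lit 190)))))) (XT.nd (nat_lit 390) (nat_lit 0) (nat_lit 0) (XT.nd (nat_lit 156) (nat_lit 0) (nat_lit 0) (XT.nd (nat_lit 78) (nat_lit 0) (nat_lit 0) (XT.lf (nat_lit 0) (nat_lit 23955882763) (nat_lit 152) (nat_lit 64251492763) (nat_lit 0) (nat_lit 16557331877) (nat_lit 2) (nat_lit 5) (nat_lit 4) (nat_lit 4) (nat_lit 2) (nat_lit 4) (nat_lit 352) (nat_lit 239) (nat_lit 189)) (XT.lf (nat_lit 0) (nat_lit 28098544624) (nat_lit 152) (nat_lit 61069365704) (nat_lit 0) (nat_lit 20666335718) (nat_lit 2) (nat_lit 5) (nat_lit 4) (nat_lit 4) (nat_lit 2) (nat_lit 4) (nat_lit 353) (nat_lit 239) (nat_lit 188))) (XT.nd (nat_lit 78) (nat_lit 0) (nat_lit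 0) (XT.lf (nat_lit 0) (nat_lit 32425130263) (nat_lit 152) (nat_lit 57772433966) (nat_lit 0) (nat_lit 24960866101) (nat_lit 2) (nat_lit 5) (nat_lit 4) (nat_lit 4) (nat_lit 2) (nat_lit 4) (nat_lit 354) (nat_lit 239) (nat_lit 187)) (XT.nd (nat_lit 78) (nat_lit 0) (nat_lit 0) (XT.lf (nat_lit 0) (nat_lit 36945941076) (nat_lit 152) (nat_lit 54352847712) (nat_lit 0) (nat_lit 29451148098) (nat_lit 2) (nat_lit 5) (nat_lit 4) (nat_lit 4) (nat_lit 2) (nat_lit 4) (nat_lit 355) (nat_lit 239) (nat_lit 186)) (XT.lf (nat_lit 0) (nat_lit 41671740897) (nat_lit 152) (nat_lit 50802465069) (nat_lit 0) (nat_lit 34147872856) (nat_lit 2) (nat_lit 5) (nat_lit 4) (nat_lit 4) (nat_lit 2) (nat_lit 4) (nat_lit 356) (nat_lit 239) (nat_lit 185))))) (XT.nd (nat_lit 156) (nat_lit 0) (nat_lit 0) (XT.nd (nat_lit 78) (nat_lit 0) (nat_lit 0) (XT.lf (nat_lit 0) (nat_lit 46613781631) (nat_lit 152) (nat_lit 47112832745) (nat_lit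 0) (nat_lit 39062223054) (nat_lit 2) (nat_lit 5) (nat_lit 4) (nat_lit 4) (nat_lit 2) (nat_lit 4) (nat_lit 357) (nat_lit 239) (nat_lit 184)) (XT.lf (nat_lit 0) (nat_lit 51783830041) (nat_lit 152) (nat_lit 43275165903) (nat_lit 0) (nat_lit 44205899525) (nat_lit 2) (nat_lit 5) (nat_lit 4) (nat_lit 4) (nat_lit 2) (nat_lit 4) (nat_lit 358) (nat_lit 239) (nat_lit 183))) (XT.nd (nat_lit 78) (nat_lit 0) (nat_lit 0) (XT.lf (nat_lit 0) (nat_lit 57194195766) (nat_lit 152) (nat_lit 39280327239) (nat_lit 0) (nat_lit 49591149118) (nat_lit 2) (nat_lit 5) (nat_lit 4) (nat_lit 4) (nat_lit 2) (nat_lit 4) (nat_lit 359) (nat_lit 239) (nat_lit 182)) (XT.nd (nat_lit 78) (nat_lit 0) (nat_lit 0) (XT.lf (nat_lit 0) (nat_lit 62857760631) (nat_lit 152) (nat_lit 35118805233) (nat_lit 0) (nat_lit 55230793856) (nat_lit 2) (nat_lit 5) (nat_lit 4) (nat_lit 4) (nat_lit 2) (nat_lit 4) (nat_lit 360) (nat_lit 239) (nat_lit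 181)) (XT.lf (nat_lit 0) (nat_lit 68788009312) (nat_lit 152) (nat_lit 30780691499) (nat_lit 0) (nat_lit 61138261465) (nat_lit 2) (nat_lit 5) (nat_lit 4) (nat_lit 4) (nat_lit 2) (nat_lit 4) (nat_lit 361) (nat_lit 239) (nat_lit 180))))))) (XT.nd (nat_lit 780) (nat_lit 0) (nat_lit 0) (XT.nd (nat_lit 390) (nat_lit 76) (nat_lit 0) (XT.nd (nat_lit 156) (nat_lit 0) (nat_lit 0) (XT.nd (nat_lit 78) (nat_lit 0) (nat_lit 0) (XT.lf (nat_lit 0) (nat_lit 74999061450) (nat_lit 152) (nat_lit 26255657196) (nat_lit 0) (nat_lit 67327617343) (nat_lit 2) (nat_lit 5) (nat_lit 4) (nat_lit 4) (nat_lit 2) (nat_lit 4) (nat_lit 362) (nat_lit 239) (nat_lit 179)) (XT.lf (nat_lit 0) (nat_lit 81505705263) (nat_lit 152) (nat_lit 21532928431) (nat_lit 0) (nat_lit 73813598052) (nat_lit 2) (nat_lit 5) (nat_lit 4) (nat_lit 4) (nat_lit 2) (nat_lit 4) (nat_lit 363) (nat_lit 239) (nat_lit 178))) (XT.nd (nat_lit 78) (nat_lit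 0) (nat_lit 0) (XT.lf (nat_lit 0) (nat_lit 88323432762) (nat_lit 152) (nat_lit 16601260614) (nat_lit 0) (nat_lit 80611646404) (nat_lit 2) (nat_lit 5) (nat_lit 4) (nat_lit 4) (nat_lit 2) (nat_lit 4) (nat_lit 364) (nat_lit 239) (nat_lit 177)) (XT.nd (nat_lit 78) (nat_lit 0) (nat_lit 0) (XT.lf (nat_lit 0) (nat_lit 95468476630) (nat_lit 152) (nat_lit 11448911676) (nat_lit 0) (nat_lit 87737948228) (nat_lit 2) (nat_lit 5) (nat_lit 4) (nat_lit 4) (nat_lit 2) (nat_lit 4) (nat_lit 365) (nat_lit 239) (nat_lit 176)) (XT.lf (nat_lit 0) (nat_lit 102957848878) (nat_lit 152) (nat_lit 6063614122) (nat_lit 0) (nat_lit 95209470908) (nat_lit 2) (nat_lit 5) (nat_lit 4) (nat_lit 4) (nat_lit 2) (nat_lit 4) (nat_lit 366) (nat_lit 239) (nat_lit 175))))) (XT.nd (nat_lit 156) (nat_lit 0) (nat_lit 0) (XT.nd (nat_lit 78) (nat_lit 76) (nat_lit 0) (XT.lf (nat_lit 0) (nat_lit 110809381342) (nat_lit 152) (nat_lit 432545813)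 (nat_lit 0) (nat_lit 103044003786) (nat_lit 2) (nat_lit 5) (nat_lit 4) (nat_lit 4) (nat_lit 2) (nat_lit 4) (nat_lit 367) (nat_lit 239) (nat_lit 174)) (XT.lf (nat_lit 0) (nat_lit 5638156783) (nat_lit 76) (nat_lit 113491638794) (nat_lit 76) (nat_lit 105710071155) (nat_lit 1) (nat_lit 4) (nat_lit 2) (nat_lit 5) (nat_lit 2) (nat_lit 4) (nat_lit 368) (nat_lit 239) (nat_lit 173))) (XT.nd (nat_lit 78) (nat_lit 0) (nat_lit 0) (XT.lf (nat_lit 0) (nat_lit 12005397060) (nat_lit 76) (nat_lit 115856651053) (nat_lit 76) (nat_lit 108059664287) (nat_lit 1) (nat_lit 4) (nat_lit 2) (nat_lit 5) (nat_lit 2) (nat_lit 4) (nat_lit 369) (nat_lit 239) (nat_lit 172)) (XT.nd (nat_lit 78) (nat_lit 0) (nat_lit 0) (XT.lf (nat_lit 0) (nat_lit 18670033195) (nat_lit 76) (nat_lit 118349920284) (nat_lit 76) (nat_lit 110538248636) (nat_lit 1) (nat_lit 4) (nat_lit 2) (nat_lit 5) (nat_lit 2) (nat_lit 4) (nat_lit 370) (nat_lit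 239) (nat_lit 171)) (XT.lf (nat_lit 0) (nat_lit 25647933371) (nat_lit 76) (nat_lit 120977382844) (nat_lit 76) (nat_lit 113151725594) (nat_lit 1) (nat_lit 4) (nat_lit 2) (nat_lit 5) (nat_lit 2) (nat_lit 4) (nat_lit 371) (nat_lit 239) (nat_lit 170)))))) (XT.nd (nat_lit 390) (nat_lit 0) (nat_lit 0) (XT.nd (nat_lit 156) (nat_lit 0) (nat_lit 0) (XT.nd (nat_lit 78) (nat_lit 0) (nat_lit 0) (XT.lf (nat_lit 0) (nat_lit 32955711635) (nat_lit 76) (nat_lit 123745294597) (nat_lit 76) (nat_lit 115906317725) (nat_lit 1) (nat_lit 4) (nat_lit 2) (nat_lit 5) (nat_lit 2) (nat_lit 4) (nat_lit 372) (nat_lit 239) (nat_lit 169)) (XT.lf (nat_lit 0) (nat_lit 40610767458) (nat_lit 76) (nat_lit 126660245807) (nat_lit 76) (nat_lit 118808583581) (nat_lit 1) (nat_lit 4) (nat_lit 2) (nat_lit 5) (nat_lit 2) (nat_lit 4) (nat_lit 373) (nat_lit 239) (nat_lit 168))) (XT.nd (nat_lit 78) (nat_lit 0) (nat_lit 0) (XT.lf (nat_lit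 0) (nat_lit 48631327165) (nat_lit 76) (nat_lit 129729176835) (nat_lit 76) (nat_lit 121865433321) (nat_lit 1) (nat_lit 4) (nat_lit 2) (nat_lit 5) (nat_lit 2) (nat_lit 4) (nat_lit 374) (nat_lit 239) (nat_lit 167)) (XT.nd (nat_lit 78) (nat_lit 0) (nat_lit 0) (XT.lf (nat_lit 0) (nat_lit 57036487326) (nat_lit 76) (nat_lit 132959394660) (nat_lit 76) (nat_lit 125084145156) (nat_lit 1) (nat_lit 4) (nat_lit 2) (nat_lit 5) (nat_lit 2) (nat_lit 4) (nat_lit 375) (nat_lit 239) (nat_lit 166)) (XT.lf (nat_lit 0) (nat_lit 65846260227) (nat_lit 76) (nat_lit 136358590277) (nat_lit 76) (nat_lit 128472382687) (nat_lit 1) (nat_lit 4) (nat_lit 2) (nat_lit 5) (nat_lit 2) (nat_lit 4) (nat_lit 376) (nat_lit 239) (nat_lit 165))))) (XT.nd (nat_lit 156) (nat_lit 0) (nat_lit 0) (XT.nd (nat_lit 78) (nat_lit 0) (nat_lit 0) (XT.lf (nat_lit 0) (nat_lit 75081621519) (nat_lit 76) (nat_lit 139934857008) (nat_lit 76) (nat_lit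 132038213146) (nat_lit 1) (nat_lit 4) (nat_lit 2) (nat_lit 5) (nat_lit 2) (nat_lit 4) (nat_lit 377) (nat_lit 239) (nat_lit 164)) (XT.lf (nat_lit 0) (nat_lit 84764560155) (nat_lit 76) (nat_lit 143696709774) (nat_lit 76) (nat_lit 135790126606) (nat_lit 1) (nat_lit 4) (nat_lit 2) (nat_lit 5) (nat_lit 2) (nat_lit 4) (nat_lit 378) (nat_lit 239) (nat_lit 163))) (XT.nd (nat_lit 78) (nat_lit 0) (nat_lit 0) (XT.lf (nat_lit 0) (nat_lit 94918130753) (nat_lit 76) (nat_lit 147653105367) (nat_lit 76) (nat_lit 139737056193) (nat_lit 1) (nat_lit 4) (nat_lit 2) (nat_lit 5) (nat_lit 2) (nat_lit 4) (nat_lit 379) (nat_lit 239) (nat_lit 162)) (XT.nd (nat_lit 78) (nat_lit 0) (nat_lit 0) (XT.lf (nat_lit 0) (nat_lit 105566508481) (nat_lit 76) (nat_lit 151813463778) (nat_lit 76) (nat_lit 143888399360) (nat_lit 1) (nat_lit 4) (nat_lit 2) (nat_lit 5) (nat_lit 2) (nat_lit 4) (nat_lit 380) (nat_lit 239) (nat_lit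 161)) (XT.lf (nat_lit 0) (nat_lit 116735046618) (nat_lit 76) (nat_lit 156187690621) (nat_lit 76) (nat_lit 148254040256) (nat_lit 1) (nat_lit 4) (nat_lit 2) (nat_lit 5) (nat_lit 2) (nat_lit 4) (nat_lit 381) (nat_lit 239) (nat_lit 160))))))))
noncomputable def xc51 : XT := (XT.nd (nat_lit 35100) (nat_lit 0) (nat_lit 304) (XT.nd (nat_lit 34320) (nat_lit 0) (nat_lit 1140) (XT.nd (nat_lit 390) (nat_lit 0) (nat_lit 0) (XT.nd (nat_lit 156) (nat_lit 0) (nat_lit 0) (XT.nd (nat_lit 78) (nat_lit 0) (nat_lit 0) (XT.lf (nat_lit 0) (nat_lit 128450336922) (nat_lit 76) (nat_lit 160786200722) (nat_lit 76) (nat_lit 152844373265) (nat_lit 1) (nat_lit 4) (nat_lit 2) (nat_lit 5) (nat_lit 2) (nat_lit 4) (nat_lit 382) (nat_lit 239) (nat_lit 159)) (XT.lf (nat_lit 0) (nat_lit 140740272941) (nat_lit 76) (nat_lit 165619942914) (nat_lit 76) (nat_lit 157670327751) (nat_lit 1) (nat_lit 4) (nat_lit 2) (nat_lit 5)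 (nat_lit 2) (nat_lit 4) (nat_lit 383) (nat_lit 239) (nat_lit 158))) (XT.nd (nat_lit 78) (nat_lit 0) (nat_lit 0) (XT.lf (nat_lit 0) (nat_lit 153634116429) (nat_lit 76) (nat_lit 170700426109) (nat_lit 76) (nat_lit 162743394082) (nat_lit 1) (nat_lit 4) (nat_lit 2) (nat_lit 5) (nat_lit 2) (nat_lit 4) (nat_lit 384) (nat_lit 239) (nat_lit 157)) (XT.nd (nat_lit 78) (nat_lit 0) (nat_lit 0) (XT.lf (nat_lit 0) (nat_lit 167162567011) (nat_lit 76) (nat_lit 176039746693) (nat_lit 76) (nat_lit 168075650987) (nat_lit 1) (nat_lit 4) (nat_lit 2) (nat_lit 5) (nat_lit 2) (nat_lit 4) (nat_lit 385) (nat_lit 239) (nat_lit 156)) (XT.lf (nat_lit 0) (nat_lit 181357835286) (nat_lit 76) (nat_lit 181650617336) (nat_lit 76) (nat_lit 173679794316) (nat_lit 1) (nat_lit 4) (nat_lit 2) (nat_lit 5) (nat_lit 2) (nat_lit 4) (nat_lit 386) (nat_lit 239) (nat_lit 155))))) (XT.nd (nat_lit 156) (nat_lit 0) (nat_lit 0) (XT.nd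 (nat_lit 78) (nat_lit 0) (nat_lit 0) (XT.lf (nat_lit 0) (nat_lit 196253719510) (nat_lit 76) (nat_lit 187546397253) (nat_lit 76) (nat_lit 179569167267) (nat_lit 1) (nat_lit 4) (nat_lit 2) (nat_lit 5) (nat_lit 2) (nat_lit 4) (nat_lit 387) (nat_lit 239) (nat_lit 154)) (XT.lf (nat_lit 0) (nat_lit 211885686074) (nat_lit 76) (nat_lit 193741124015) (nat_lit 76) (nat_lit 185757792157) (nat_lit 1) (nat_lit 4) (nat_lit 2) (nat_lit 5) (nat_lit 2) (nat_lit 4) (nat_lit 388) (nat_lit 239) (nat_lit 153))) (XT.nd (nat_lit 78) (nat_lit 0) (nat_lit 0) (XT.lf (nat_lit 0) (nat_lit 228290953948) (nat_lit 76) (nat_lit 200249546972) (nat_lit 76) (nat_lit 192260403808) (nat_lit 1) (nat_lit 4) (nat_lit 2) (nat_lit 5) (nat_lit 2) (nat_lit 4) (nat_lit 389) (nat_lit 239) (nat_lit 152)) (XT.nd (nat_lit 33618) (nat_lit 0) (nat_lit 1900) (XT.lf (nat_lit 0) (nat_lit 245508583291) (nat_lit 76) (nat_lit 207087162369)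 (nat_lit 76) (nat_lit 199092484627) (nat_lit 1) (nat_lit 4) (nat_lit 2) (nat_lit 5) (nat_lit 2) (nat_lit 4) (nat_lit 390) (nat_lit 239) (nat_lit 151)) (XT.lf (nat_lit 0) (nat_lit 721591044) (nat_lit 152) (nat_lit 4723012433) (nat_lit 0) (nat_lit 721591044) (nat_lit 26) (nat_lit 5) (nat_lit 28) (nat_lit 4) (nat_lit 26) (nat_lit 4) (nat_lit 300) (nat_lit 240) (nat_lit 240)))))) (XT.nd (nat_lit 390) (nat_lit 304) (nat_lit 0) (XT.nd (nat_lit 156) (nat_lit 304) (nat_lit 0) (XT.nd (nat_lit 78) (nat_lit 152) (nat_lit 0) (XT.lf (nat_lit 0) (nat_lit 5750779999) (nat_lit 152) (nat_lit 1771556378) (nat_lit 0) (nat_lit 5180526571) (nat_lit 26) (nat_lit 5) (nat_lit 28) (nat_lit 4) (nat_lit 26) (nat_lit 4) (nat_lit 301) (nat_lit 240) (nat_lit 239)) (XT.lf (nat_lit 0) (nat_lit 6229475759) (nat_lit 152) (nat_lit 3989312433) (nat_lit 152) (nat_lit 2875960502) (nat_lit 24) (nat_lit 4) (nat_lit 26) (nat_lit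 5) (nat_lit 26) (nat_lit 4) (nat_lit 302) (nat_lit 240) (nat_lit 238))) (XT.nd (nat_lit 78) (nat_lit 152) (nat_lit 0) (XT.lf (nat_lit 0) (nat_lit 937386021) (nat_lit 76) (nat_lit 315284525) (nat_lit 152) (nat_lit 12257906959) (nat_lit 22) (nat_lit 5) (nat_lit 23) (nat_lit 5) (nat_lit 24) (nat_lit 4) (nat_lit 303) (nat_lit 240) (nat_lit 237)) (XT.nd (nat_lit 78) (nat_lit 152) (nat_lit 0) (XT.lf (nat_lit 0) (nat_lit 5514687304) (nat_lit 152) (nat_lit 4936496622) (nat_lit 0) (nat_lit 3492596872) (nat_lit 22) (nat_lit 5) (nat_lit 24) (nat_lit 4) (nat_lit 22) (nat_lit 4) (nat_lit 304) (nat_lit 240) (nat_lit 236)) (XT.lf (nat_lit 0) (nat_lit 2923504790) (nat_lit 152) (nat_lit 6974374776) (nat_lit 152) (nat_lit 4505475862) (nat_lit 20) (nat_lit 4) (nat_lit 22) (nat_lit 5) (nat_lit 22) (nat_lit 4) (nat_lit 305) (nat_lit 240) (nat_lit 235))))) (XT.nd (nat_lit 156) (nat_lit 152) (nat_lit 0) (XT.nd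 (nat_lit 78) (nat_lit 152) (nat_lit 0) (XT.lf (nat_lit 0) (nat_lit 11104943027) (nat_lit 152) (nat_lit 3339156301) (nat_lit 152) (nat_lit 444725499) (nat_lit 20) (nat_lit 4) (nat_lit 22) (nat_lit 5) (nat_lit 22) (nat_lit 4) (nat_lit 306) (nat_lit 240) (nat_lit 234)) (XT.lf (nat_lit 0) (nat_lit 3633928251) (nat_lit 152) (nat_lit 11273544886) (nat_lit 0) (nat_lit 491357521) (nat_lit 18) (nat_lit 5) (nat_lit 20) (nat_lit 4) (nat_lit 18) (nat_lit 4) (nat_lit 307) (nat_lit 240) (nat_lit 233))) (XT.nd (nat_lit 78) (nat_lit 152) (nat_lit 0) (XT.lf (nat_lit 0) (nat_lit 7887345288) (nat_lit 152) (nat_lit 3670248566) (nat_lit 0) (nat_lit 4377184114) (nat_lit 18) (nat_lit 5) (nat_lit 20) (nat_lit 4) (nat_lit 18) (nat_lit 4) (nat_lit 308) (nat_lit 240) (nat_lit 232)) (XT.nd (nat_lit 78) (nat_lit 0) (nat_lit 0) (XT.lf (nat_lit 0) (nat_lit 4222340438) (nat_lit 152) (nat_lit 8069304481) (nat_lit 152)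 (nat_lit 4209057169) (nat_lit 16) (nat_lit 4) (nat_lit 18) (nat_lit 5) (nat_lit 18) (nat_lit 4) (nat_lit 309) (nat_lit 240) (nat_lit 231)) (XT.lf (nat_lit 0) (nat_lit 12414613617) (nat_lit 152) (nat_lit 4438602204) (nat_lit 152) (nat_lit 244939523) (nat_lit 16) (nat_lit 4) (nat_lit 18) (nat_lit 5) (nat_lit 18) (nat_lit 4) (nat_lit 310) (nat_lit 240) (nat_lit 230))))))) (XT.nd (nat_lit 780) (nat_lit 380) (nat_lit 0) (XT.nd (nat_lit 390) (nat_lit 152) (nat_lit 0) (XT.nd (nat_lit 156) (nat_lit 152) (nat_lit 0) (XT.nd (nat_lit 78) (nat_lit 0) (nat_lit 0) (XT.lf (nat_lit 0) (nat_lit 3113650646) (nat_lit 76) (nat_lit 605789243) (nat_lit 152) (nat_lit 14006689246) (nat_lit 14) (nat_lit 5) (nat_lit 15) (nat_lit 5) (nat_lit 16) (nat_lit 4) (nat_lit 311) (nat_lit 240) (nat_lit 229)) (XT.lf (nat_lit 0) (nat_lit 7887615920) (nat_lit 152) (nat_lit 7193851372) (nat_lit 0) (nat_lit 3303217162) (nat_lit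 14) (nat_lit 5) (nat_lit 16) (nat_lit 4) (nat_lit 14) (nat_lit 4) (nat_lit 312) (nat_lit 240) (nat_lit 228))) (XT.nd (nat_lit 78) (nat_lit 76) (nat_lit 0) (XT.lf (nat_lit 0) (nat_lit 391713738) (nat_lit 76) (nat_lit 11774072731) (nat_lit 76) (nat_lit 6915372324) (nat_lit 13) (nat_lit 4) (nat_lit 14) (nat_lit 5) (nat_lit 14) (nat_lit 4) (nat_lit 313) (nat_lit 240) (nat_lit 227)) (XT.nd (nat_lit 78) (nat_lit 76) (nat_lit 0) (XT.lf (nat_lit 0) (nat_lit 8403043957) (nat_lit 76) (nat_lit 8264468893) (nat_lit 76) (nat_lit 3144528819) (nat_lit 13) (nat_lit 4) (nat_lit 14) (nat_lit 5) (nat_lit 14) (nat_lit 4) (nat_lit 314) (nat_lit 240) (nat_lit 226)) (XT.lf (nat_lit 0) (nat_lit 680120954) (nat_lit 152) (nat_lit 3974491799) (nat_lit 76) (nat_lit 15929713532) (nat_lit 12) (nat_lit 5) (nat_lit 14) (nat_lit 5) (nat_lit 13) (nat_lit 4) (nat_lit 315) (nat_lit 240) (nat_lit 225))))) (XT.nd (nat_lit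 156) (nat_lit 76) (nat_lit 0) (XT.nd (nat_lit 78) (nat_lit 0) (nat_lit 0) (XT.lf (nat_lit 0) (nat_lit 3711119621) (nat_lit 76) (nat_lit 833666453) (nat_lit 152) (nat_lit 16850196626) (nat_lit 11) (nat_lit 5) (nat_lit 12) (nat_lit 5) (nat_lit 13) (nat_lit 4) (nat_lit 316) (nat_lit 240) (nat_lit 224)) (XT.lf (nat_lit 0) (nat_lit 8617979436) (nat_lit 152) (nat_lit 10563180232) (nat_lit 0) (nat_lit 3064302790) (nat_lit 11) (nat_lit 5) (nat_lit 13) (nat_lit 4) (nat_lit 11) (nat_lit 4) (nat_lit 317) (nat_lit 240) (nat_lit 223))) (XT.nd (nat_lit 78) (nat_lit 76) (nat_lit 0) (XT.lf (nat_lit 0) (nat_lit 12810650564) (nat_lit 152) (nat_lit 3279791572) (nat_lit 0) (nat_lit 7052285804) (nat_lit 11) (nat_lit 5) (nat_lit 13) (nat_lit 4) (nat_lit 11) (nat_lit 4) (nat_lit 318) (nat_lit 240) (nat_lit 222)) (XT.nd (nat_lit 78) (nat_lit 0) (nat_lit 0) (XT.lf (nat_lit 0) (nat_lit 4335420710) (nat_lit 76)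 (nat_lit 12852033496) (nat_lit 76) (nat_lit 6898727675) (nat_lit 10) (nat_lit 4) (nat_lit 11) (nat_lit 5) (nat_lit 11) (nat_lit 4) (nat_lit 319) (nat_lit 240) (nat_lit 221)) (XT.lf (nat_lit 0) (nat_lit 12276913996) (nat_lit 76) (nat_lit 9470348997) (nat_lit 76) (nat_lit 3331385022) (nat_lit 10) (nat_lit 4) (nat_lit 11) (nat_lit 5) (nat_lit 11) (nat_lit 4) (nat_lit 320) (nat_lit 240) (nat_lit 220)))))) (XT.nd (nat_lit 390) (nat_lit 228) (nat_lit 0) (XT.nd (nat_lit 156) (nat_lit 0) (nat_lit 0) (XT.nd (nat_lit 78) (nat_lit 76) (nat_lit 0) (XT.lf (nat_lit 0) (nat_lit 312564598) (nat_lit 152) (nat_lit 5675023836) (nat_lit 76) (nat_lit 20137293849) (nat_lit 9) (nat_lit 5) (nat_lit 11) (nat_lit 5) (nat_lit 10) (nat_lit 4) (nat_lit 321) (nat_lit 240) (nat_lit 219)) (XT.lf (nat_lit 0) (nat_lit 1650718916) (nat_lit 76) (nat_lit 2317523814) (nat_lit 152) (nat_lit 23255421765) (nat_lit 8) (nat_lit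 5) (nat_lit 9) (nat_lit 5) (nat_lit 10) (nat_lit 4) (nat_lit 322) (nat_lit 240) (nat_lit 218))) (XT.nd (nat_lit 78) (nat_lit 0) (nat_lit 0) (XT.lf (nat_lit 0) (nat_lit 7844612764) (nat_lit 152) (nat_lit 19014453859) (nat_lit 0) (nat_lit 1516463074) (nat_lit 8) (nat_lit 5) (nat_lit 10) (nat_lit 4) (nat_lit 8) (nat_lit 4) (nat_lit 323) (nat_lit 240) (nat_lit 217)) (XT.nd (nat_lit 78) (nat_lit 0) (nat_lit 0) (XT.lf (nat_lit 0) (nat_lit 11873023215) (nat_lit 152) (nat_lit 12314685756) (nat_lit 0) (nat_lit 5399405504) (nat_lit 8) (nat_lit 5) (nat_lit 10) (nat_lit 4) (nat_lit 8) (nat_lit 4) (nat_lit 324) (nat_lit 240) (nat_lit 216)) (XT.lf (nat_lit 0) (nat_lit 16026882494) (nat_lit 152) (nat_lit 5421506399) (nat_lit 0) (nat_lit 9414723811) (nat_lit 8) (nat_lit 5) (nat_lit 10) (nat_lit 4) (nat_lit 8) (nat_lit 4) (nat_lit 325) (nat_lit 240) (nat_lit 215))))) (XT.nd (nat_lit 234) (nat_lit 152)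 (nat_lit 0) (XT.nd (nat_lit 78) (nat_lit 0) (nat_lit 0) (XT.lf (nat_lit 0) (nat_lit 1737094411) (nat_lit 76) (nat_lit 18606107243) (nat_lit 76) (nat_lit 11862004776) (nat_lit 7) (nat_lit 4) (nat_lit 8) (nat_lit 5) (nat_lit 8) (nat_lit 4) (nat_lit 326) (nat_lit 240) (nat_lit 214)) (XT.nd (nat_lit 78) (nat_lit 0) (nat_lit 0) (XT.lf (nat_lit 0) (nat_lit 9309187105) (nat_lit 76) (nat_lit 15586985732) (nat_lit 76) (nat_lit 8717222519) (nat_lit 7) (nat_lit 4) (nat_lit 8) (nat_lit 5) (nat_lit 8) (nat_lit 4) (nat_lit 327) (nat_lit 240) (nat_lit 213)) (XT.lf (nat_lit 0) (nat_lit 17133540987) (nat_lit 76) (nat_lit 12475651810) (nat_lit 76) (nat_lit 5486211696) (nat_lit 7) (nat_lit 4) (nat_lit 8) (nat_lit 5) (nat_lit 8) (nat_lit 4) (nat_lit 328) (nat_lit 240) (nat_lit 212)))) (XT.nd (nat_lit 78) (nat_lit 152) (nat_lit 0) (XT.lf (nat_lit 0) (nat_lit 25228785472) (nat_lit 76) (nat_lit 9264697540)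 (nat_lit 76) (nat_lit 2161279425) (nat_lit 7) (nat_lit 4) (nat_lit 8) (nat_lit 5) (nat_lit 8) (nat_lit 4) (nat_lit 329) (nat_lit 240) (nat_lit 211)) (XT.nd (nat_lit 78) (nat_lit 76) (nat_lit 0) (XT.lf (nat_lit 0) (nat_lit 1224987190) (nat_lit 152) (nat_lit 4700744851) (nat_lit 76) (nat_lit 32368462010) (nat_lit 6) (nat_lit 5) (nat_lit 8) (nat_lit 5) (nat_lit 7) (nat_lit 4) (nat_lit 330) (nat_lit 240) (nat_lit 210)) (XT.lf (nat_lit 0) (nat_lit 2287400300) (nat_lit 76) (nat_lit 2396868138) (nat_lit 152) (nat_lit 35330765864) (nat_lit 5) (nat_lit 5) (nat_lit 6) (nat_lit 5) (nat_lit 7) (nat_lit 4) (nat_lit 331) (nat_lit 240) (nat_lit 209))))))))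
noncomputable def xc52 : XT := (XT.nd (nat_lit 1560) (nat_lit 76) (nat_lit 0) (XT.nd (nat_lit 780) (nat_lit 152) (nat_lit 0) (XT.nd (nat_lit 390) (nat_lit 76) (nat_lit 0) (XT.nd (nat_lit 156) (nat_lit 0) (nat_lit 0) (XT.nd (nat_lit 78) (nat_lit 0) (nat_lit 0) (XT.lf (nat_lit 0) (nat_lit 8358801348) (nat_lit 152) (nat_lit 32162993586) (nat_lit 0) (nat_lit 1298031366) (nat_lit 5) (nat_lit 5) (nat_lit 7) (nat_lit 4) (nat_lit 5) (nat_lit 4) (nat_lit 332) (nat_lit 240) (nat_lit 208)) (XT.lf (nat_lit 0) (nat_lit 12200110719) (nat_lit 152) (nat_lit 26465581664) (nat_lit 0) (nat_lit 5050035991) (nat_lit 5) (nat_lit 5) (nat_lit 7) (nat_lit 4) (nat_lit 5) (nat_lit 4) (nat_lit 333) (nat_lit 240) (nat_lit 207))) (XT.nd (nat_lit 78) (nat_lit 0) (nat_lit 0) (XT.lf (nat_lit 0) (nat_lit 16179920696) (nat_lit 152) (nat_lit 20584411141) (nat_lit 0) (nat_lit 8944793829) (nat_lit 5) (nat_lit 5) (nat_lit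 7) (nat_lit 4) (nat_lit 5) (nat_lit 4) (nat_lit 334) (nat_lit 240) (nat_lit 206)) (XT.nd (nat_lit 78) (nat_lit 0) (nat_lit 0) (XT.lf (nat_lit 0) (nat_lit 20307707019) (nat_lit 152) (nat_lit 14505479230) (nat_lit 0) (nat_lit 12991578114) (nat_lit 5) (nat_lit 5) (nat_lit 7) (nat_lit 4) (nat_lit 5) (nat_lit 4) (nat_lit 335) (nat_lit 240) (nat_lit 205)) (XT.lf (nat_lit 0) (nat_lit 24593297749) (nat_lit 152) (nat_lit 8214312284) (nat_lit 0) (nat_lit 17200024047) (nat_lit 5) (nat_lit 5) (nat_lit 7) (nat_lit 4) (nat_lit 5) (nat_lit 4) (nat_lit 336) (nat_lit 240) (nat_lit 204))))) (XT.nd (nat_lit 156) (nat_lit 0) (nat_lit 0) (XT.nd (nat_lit 78) (nat_lit 76) (nat_lit 0) (XT.lf (nat_lit 0) (nat_lit 29046896673) (nat_lit 152) (nat_lit 1695931333) (nat_lit 0) (nat_lit 21580151736) (nat_lit 5) (nat_lit 5) (nat_lit 7) (nat_lit 4) (nat_lit 5) (nat_lit 4) (nat_lit 337) (nat_lit 240) (nat_lit 203)) (XT.lf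 (nat_lit 0) (nat_lit 5232661419) (nat_lit 76) (nat_lit 28528142690) (nat_lit 76) (nat_lit 20991425147) (nat_lit 4) (nat_lit 4) (nat_lit 5) (nat_lit 5) (nat_lit 5) (nat_lit 4) (nat_lit 338) (nat_lit 240) (nat_lit 202))) (XT.nd (nat_lit 78) (nat_lit 0) (nat_lit 0) (XT.lf (nat_lit 0) (nat_lit 12484719322) (nat_lit 76) (nat_lit 26211161736) (nat_lit 76) (nat_lit 18607803617) (nat_lit 4) (nat_lit 4) (nat_lit 5) (nat_lit 5) (nat_lit 5) (nat_lit 4) (nat_lit 339) (nat_lit 240) (nat_lit 201)) (XT.nd (nat_lit 78) (nat_lit 0) (nat_lit 0) (XT.lf (nat_lit 0) (nat_lit 20021434032) (nat_lit 76) (nat_lit 23815089943) (nat_lit 76) (nat_lit 16148264607) (nat_lit 4) (nat_lit 4) (nat_lit 5) (nat_lit 5) (nat_lit 5) (nat_lit 4) (nat_lit 340) (nat_lit 240) (nat_lit 200)) (XT.lf (nat_lit 0) (nat_lit 27860750106) (nat_lit 76) (nat_lit 21334222376) (nat_lit 76) (nat_lit 13606952074) (nat_lit 4) (nat_lit 4) (nat_lit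 5) (nat_lit 5) (nat_lit 5) (nat_lit 4) (nat_lit 341) (nat_lit 240) (nat_lit 199)))))) (XT.nd (nat_lit 390) (nat_lit 76) (nat_lit 0) (XT.nd (nat_lit 156) (nat_lit 76) (nat_lit 0) (XT.nd (nat_lit 78) (nat_lit 0) (nat_lit 0) (XT.lf (nat_lit 0) (nat_lit 36021332584) (nat_lit 76) (nat_lit 18762652209) (nat_lit 76) (nat_lit 10977815271) (nat_lit 4) (nat_lit 4) (nat_lit 5) (nat_lit 5) (nat_lit 5) (nat_lit 4) (nat_lit 342) (nat_lit 240) (nat_lit 198)) (XT.lf (nat_lit 0) (nat_lit 44522611422) (nat_lit 76) (nat_lit 16094256656) (nat_lit 76) (nat_lit 8254594351) (nat_lit 4) (nat_lit 4) (nat_lit 5) (nat_lit 5) (nat_lit 5) (nat_lit 4) (nat_lit 343) (nat_lit 240) (nat_lit 197))) (XT.nd (nat_lit 78) (nat_lit 76) (nat_lit 0) (XT.lf (nat_lit 0) (nat_lit 53384827763) (nat_lit 76) (nat_lit 13322682393) (nat_lit 76) (nat_lit 5430805453) (nat_lit 4) (nat_lit 4) (nat_lit 5) (nat_lit 5) (nat_lit 5) (nat_lit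 4) (nat_lit 344) (nat_lit 240) (nat_lit 196)) (XT.nd (nat_lit 78) (nat_lit 76) (nat_lit 0) (XT.lf (nat_lit 0) (nat_lit 62629082119) (nat_lit 76) (nat_lit 10441330435) (nat_lit 76) (nat_lit 2499725270) (nat_lit 4) (nat_lit 4) (nat_lit 5) (nat_lit 5) (nat_lit 5) (nat_lit 4) (nat_lit 345) (nat_lit 240) (nat_lit 195)) (XT.lf (nat_lit 0) (nat_lit 528161552) (nat_lit 152) (nat_lit 6906234196) (nat_lit 76) (nat_lit 71740278398) (nat_lit 3) (nat_lit 5) (nat_lit 5) (nat_lit 5) (nat_lit 4) (nat_lit 4) (nat_lit 346) (nat_lit 240) (nat_lit 194))))) (XT.nd (nat_lit 156) (nat_lit 0) (nat_lit 0) (XT.nd (nat_lit 78) (nat_lit 76) (nat_lit 0) (XT.lf (nat_lit 0) (nat_lit 3593673008) (nat_lit 152) (nat_lit 667040676) (nat_lit 76) (nat_lit 78698173819) (nat_lit 3) (nat_lit 5) (nat_lit 5) (nat_lit 5) (nat_lit 4) (nat_lit 4) (nat_lit 347) (nat_lit 240) (nat_lit 193)) (XT.lf (nat_lit 0) (nat_lit 6023187407)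 (nat_lit 76) (nat_lit 854966183) (nat_lit 152) (nat_lit 80050883782) (nat_lit 2) (nat_lit 5) (nat_lit 3) (nat_lit 5) (nat_lit 4) (nat_lit 4) (nat_lit 348) (nat_lit 240) (nat_lit 192))) (XT.nd (nat_lit 78) (nat_lit 0) (nat_lit 0) (XT.lf (nat_lit 0) (nat_lit 10352612491) (nat_lit 152) (nat_lit 78122562521) (nat_lit 0) (nat_lit 2621242027) (nat_lit 2) (nat_lit 5) (nat_lit 4) (nat_lit 4) (nat_lit 2) (nat_lit 4) (nat_lit 349) (nat_lit 240) (nat_lit 191)) (XT.nd (nat_lit 78) (nat_lit 0) (nat_lit 0) (XT.lf (nat_lit 0) (nat_lit 13987942493) (nat_lit 152) (nat_lit 75265411270) (nat_lit 0) (nat_lit 6219464063) (nat_lit 2) (nat_lit 5) (nat_lit 4) (nat_lit 4) (nat_lit 2) (nat_lit 4) (nat_lit 350) (nat_lit 240) (nat_lit 190)) (XT.lf (nat_lit 0) (nat_lit 17779450726) (nat_lit 152) (nat_lit 72314245051) (nat_lit 0) (nat_lit 9975631375) (nat_lit 2) (nat_lit 5) (nat_lit 4) (nat_lit 4) (nat_lit 2) (nat_lit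 4) (nat_lit 351) (nat_lit 240) (nat_lit 189))))))) (XT.nd (nat_lit 780) (nat_lit 76) (nat_lit 0) (XT.nd (nat_lit 390) (nat_lit 0) (nat_lit 0) (XT.nd (nat_lit 156) (nat_lit 0) (nat_lit 0) (XT.nd (nat_lit 78) (nat_lit 0) (nat_lit 0) (XT.lf (nat_lit 0) (nat_lit 21736164591) (nat_lit 152) (nat_lit 69262037279) (nat_lit 0) (nat_lit 13898687221) (nat_lit 2) (nat_lit 5) (nat_lit 4) (nat_lit 4) (nat_lit 2) (nat_lit 4) (nat_lit 352) (nat_lit 240) (nat_lit 188)) (XT.lf (nat_lit 0) (nat_lit 25867504835) (nat_lit 152) (nat_lit 66101520793) (nat_lit 0) (nat_lit 17997972208) (nat_lit 2) (nat_lit 5) (nat_lit 4) (nat_lit 4) (nat_lit 2) (nat_lit 4) (nat_lit 353) (nat_lit 240) (nat_lit 187))) (XT.nd (nat_lit 78) (nat_lit 0) (nat_lit 0) (XT.lf (nat_lit 0) (nat_lit 30183307983) (nat_lit 152) (nat_lit 62825170552) (nat_lit 0) (nat_lit 22283246539) (nat_lit 2) (nat_lit 5) (nat_lit 4) (nat_lit 4) (nat_lit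 2) (nat_lit 4) (nat_lit 354) (nat_lit 240) (nat_lit 186)) (XT.nd (nat_lit 78) (nat_lit 0) (nat_lit 0) (XT.lf (nat_lit 0) (nat_lit 34693849755) (nat_lit 152) (nat_lit 59425185724) (nat_lit 0) (nat_lit 26764713249) (nat_lit 2) (nat_lit 5) (nat_lit 4) (nat_lit 4) (nat_lit 2) (nat_lit 4) (nat_lit 355) (nat_lit 240) (nat_lit 185)) (XT.lf (nat_lit 0) (nat_lit 39409869538) (nat_lit 152) (nat_lit 55893471107) (nat_lit 0) (nat_lit 31453042496) (nat_lit 2) (nat_lit 5) (nat_lit 4) (nat_lit 4) (nat_lit 2) (nat_lit 4) (nat_lit 356) (nat_lit 240) (nat_lit 184))))) (XT.nd (nat_lit 156) (nat_lit 0) (nat_lit 0) (XT.nd (nat_lit 78) (nat_lit 0) (nat_lit 0) (XT.lf (nat_lit 0) (nat_lit 44342595950) (nat_lit 152) (nat_lit 52221617855) (nat_lit 0) (nat_lit 36359396969) (nat_lit 2) (nat_lit 5) (nat_lit 4) (nat_lit 4) (nat_lit 2) (nat_lit 4) (nat_lit 357) (nat_lit 240) (nat_lit 183)) (XT.lf (nat_lit 0) (nat_lit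 49503773577) (nat_lit 152) (nat_lit 48400883462) (nat_lit 0) (nat_lit 41495458463) (nat_lit 2) (nat_lit 5) (nat_lit 4) (nat_lit 4) (nat_lit 2) (nat_lit 4) (nat_lit 358) (nat_lit 240) (nat_lit 182))) (XT.nd (nat_lit 78) (nat_lit 0) (nat_lit 0) (XT.lf (nat_lit 0) (nat_lit 54905690938) (nat_lit 152) (nat_lit 44422170940) (nat_lit 0) (nat_lit 46873455698) (nat_lit 2) (nat_lit 5) (nat_lit 4) (nat_lit 4) (nat_lit 2) (nat_lit 4) (nat_lit 359) (nat_lit 240) (nat_lit 181)) (XT.nd (nat_lit 78) (nat_lit 0) (nat_lit 0) (XT.lf (nat_lit 0) (nat_lit 60561209740) (nat_lit 152) (nat_lit 40276007164) (nat_lit 0) (nat_lit 52506193428) (nat_lit 2) (nat_lit 5) (nat_lit 4) (nat_lit 4) (nat_lit 2) (nat_lit 4) (nat_lit 360) (nat_lit 240) (nat_lit 180)) (XT.lf (nat_lit 0) (nat_lit 66483795506) (nat_lit 152) (nat_lit 35952520317) (nat_lit 0) (nat_lit 58407082934) (nat_lit 2) (nat_lit 5) (nat_lit 4) (nat_lit 4)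 (nat_lit 2) (nat_lit 4) (nat_lit 361) (nat_lit 240) (nat_lit 179)))))) (XT.nd (nat_lit 390) (nat_lit 76) (nat_lit 0) (XT.nd (nat_lit 156) (nat_lit 0) (nat_lit 0) (XT.nd (nat_lit 78) (nat_lit 0) (nat_lit 0) (XT.lf (nat_lit 0) (nat_lit 72687549628) (nat_lit 152) (nat_lit 31441416382) (nat_lit 0) (nat_lit 64590173952) (nat_lit 2) (nat_lit 5) (nat_lit 4) (nat_lit 4) (nat_lit 2) (nat_lit 4) (nat_lit 362) (nat_lit 240) (nat_lit 178)) (XT.lf (nat_lit 0) (nat_lit 79187242952) (nat_lit 152) (nat_lit 26731954634) (nat_lit 0) (nat_lit 71070188129) (nat_lit 2) (nat_lit 5) (nat_lit 4) (nat_lit 4) (nat_lit 2) (nat_lit 4) (nat_lit 363) (nat_lit 240) (nat_lit 177))) (XT.nd (nat_lit 78) (nat_lit 0) (nat_lit 0) (XT.lf (nat_lit 0) (nat_lit 85998350936) (nat_lit 152) (nat_lit 21812922070) (nat_lit 0) (nat_lit 77862554068) (nat_lit 2) (nat_lit 5) (nat_lit 4) (nat_lit 4) (nat_lit 2) (nat_lit 4) (nat_lit 364)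 (nat_lit 240) (nat_lit 176)) (XT.nd (nat_lit 78) (nat_lit 0) (nat_lit 0) (XT.lf (nat_lit 0) (nat_lit 93137090504) (nat_lit 152) (nat_lit 16672606709) (nat_lit 0) (nat_lit 84983444070) (nat_lit 2) (nat_lit 5) (nat_lit 4) (nat_lit 4) (nat_lit 2) (nat_lit 4) (nat_lit 365) (nat_lit 240) (nat_lit 175)) (XT.lf (nat_lit 0) (nat_lit 100620458656) (nat_lit 152) (nat_lit 11298769702) (nat_lit 0) (nat_lit 92449812635) (nat_lit 2) (nat_lit 5) (nat_lit 4) (nat_lit 4) (nat_lit 2) (nat_lit 4) (nat_lit 366) (nat_lit 240) (nat_lit 174))))) (XT.nd (nat_lit 156) (nat_lit 0) (nat_lit 0) (XT.nd (nat_lit 78) (nat_lit 76) (nat_lit 0) (XT.lf (nat_lit 0) (nat_lit 108466272935) (nat_lit 152) (nat_lit 5678616201) (nat_lit 0) (nat_lit 100279436831) (nat_lit 2) (nat_lit 5) (nat_lit 4) (nat_lit 4) (nat_lit 2) (nat_lit 4) (nat_lit 367) (nat_lit 240) (nat_lit 173)) (XT.lf (nat_lit 0) (nat_lit 207888853) (nat_lit 76)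 (nat_lit 116488570725) (nat_lit 76) (nat_lit 108286315494) (nat_lit 1) (nat_lit 4) (nat_lit 2) (nat_lit 5) (nat_lit 2) (nat_lit 4) (nat_lit 368) (nat_lit 240) (nat_lit 172))) (XT.nd (nat_lit 78) (nat_lit 0) (nat_lit 0) (XT.lf (nat_lit 0) (nat_lit 6564901737) (nat_lit 76) (nat_lit 118858464134) (nat_lit 76) (nat_lit 110641524021) (nat_lit 1) (nat_lit 4) (nat_lit 2) (nat_lit 5) (nat_lit 2) (nat_lit 4) (nat_lit 369) (nat_lit 240) (nat_lit 171)) (XT.nd (nat_lit 78) (nat_lit 0) (nat_lit 0) (XT.lf (nat_lit 0) (nat_lit 13219797499) (nat_lit 76) (nat_lit 121356382082) (nat_lit 76) (nat_lit 113125456366) (nat_lit 1) (nat_lit 4) (nat_lit 2) (nat_lit 5) (nat_lit 2) (nat_lit 4) (nat_lit 370) (nat_lit 240) (nat_lit 170)) (XT.lf (nat_lit 0) (nat_lit 20188421128) (nat_lit 76) (nat_lit 123988271990) (nat_lit 76) (nat_lit 115744026654) (nat_lit 1) (nat_lit 4) (nat_lit 2) (nat_lit 5) (nat_lit 2) (nat_lit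 4) (nat_lit 371) (nat_lit 240) (nat_lit 169))))))))
noncomputable def xc53 : XT := (XT.nd (nat_lit 34944) (nat_lit 0) (nat_lit 760) (XT.nd (nat_lit 780) (nat_lit 0) (nat_lit 0) (XT.nd (nat_lit 390) (nat_lit 0) (nat_lit 0) (XT.nd (nat_lit 156) (nat_lit 0) (nat_lit 0) (XT.nd (nat_lit 78) (nat_lit 0) (nat_lit 0) (XT.lf (nat_lit 0) (nat_lit 27487364585) (nat_lit 76) (nat_lit 126760400265) (nat_lit 76) (nat_lit 118503469574) (nat_lit 1) (nat_lit 4) (nat_lit 2) (nat_lit 5) (nat_lit 2) (nat_lit 4) (nat_lit 372) (nat_lit 240) (nat_lit 168)) (XT.lf (nat_lit 0) (nat_lit 35134006307) (nat_lit 76) (nat_lit 129679367210) (nat_lit 76) (nat_lit 121410355231) (nat_lit 1) (nat_lit 4) (nat_lit 2) (nat_lit 5) (nat_lit 2) (nat_lit 4) (nat_lit 373) (nat_lit 240) (nat_lit 167))) (XT.nd (nat_lit 78) (nat_lit 0) (nat_lit 0) (XT.lf (nat_lit 0) (nat_lit 43146552584) (nat_lit 76) (nat_lit 132752122748) (nat_lit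 76) (nat_lit 124471604779) (nat_lit 1) (nat_lit 4) (nat_lit 2) (nat_lit 5) (nat_lit 2) (nat_lit 4) (nat_lit 374) (nat_lit 240) (nat_lit 166)) (XT.nd (nat_lit 78) (nat_lit 0) (nat_lit 0) (XT.lf (nat_lit 0) (nat_lit 51544080907) (nat_lit 76) (nat_lit 135985982964) (nat_lit 76) (nat_lit 127694506909) (nat_lit 1) (nat_lit 4) (nat_lit 2) (nat_lit 5) (nat_lit 2) (nat_lit 4) (nat_lit 375) (nat_lit 240) (nat_lit 165)) (XT.lf (nat_lit 0) (nat_lit 60346585391) (nat_lit 76) (nat_lit 139388647523) (nat_lit 76) (nat_lit 131086735197) (nat_lit 1) (nat_lit 4) (nat_lit 2) (nat_lit 5) (nat_lit 2) (nat_lit 4) (nat_lit 376) (nat_lit 240) (nat_lit 164))))) (XT.nd (nat_lit 156) (nat_lit 0) (nat_lit 0) (XT.nd (nat_lit 78) (nat_lit 0) (nat_lit 0) (XT.lf (nat_lit 0) (nat_lit 69575024381) (nat_lit 76) (nat_lit 142968218010) (nat_lit 76) (nat_lit 134656366377) (nat_lit 1) (nat_lit 4) (nat_lit 2) (nat_lit 5) (nat_lit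 2) (nat_lit 4) (nat_lit 377) (nat_lit 240) (nat_lit 163)) (XT.lf (nat_lit 0) (nat_lit 79251370349) (nat_lit 76) (nat_lit 146733217210) (nat_lit 76) (nat_lit 138411899571) (nat_lit 1) (nat_lit 4) (nat_lit 2) (nat_lit 5) (nat_lit 2) (nat_lit 4) (nat_lit 378) (nat_lit 240) (nat_lit 162))) (XT.nd (nat_lit 78) (nat_lit 0) (nat_lit 0) (XT.lf (nat_lit 0) (nat_lit 89398662215) (nat_lit 76) (nat_lit 150692609407) (nat_lit 76) (nat_lit 142362276524) (nat_lit 1) (nat_lit 4) (nat_lit 2) (nat_lit 5) (nat_lit 2) (nat_lit 4) (nat_lit 379) (nat_lit 240) (nat_lit 161)) (XT.nd (nat_lit 78) (nat_lit 0) (nat_lit 0) (XT.lf (nat_lit 0) (nat_lit 100041060197) (nat_lit 76) (nat_lit 154855821726) (nat_lit 76) (nat_lit 146516902896) (nat_lit 1) (nat_lit 4) (nat_lit 2) (nat_lit 5) (nat_lit 2) (nat_lit 4) (nat_lit 380) (nat_lit 240) (nat_lit 160)) (XT.lf (nat_lit 0) (nat_lit 111203903339) (nat_lit 76) (nat_lit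 159232766576) (nat_lit 76) (nat_lit 150885670655) (nat_lit 1) (nat_lit 4) (nat_lit 2) (nat_lit 5) (nat_lit 2) (nat_lit 4) (nat_lit 381) (nat_lit 240) (nat_lit 159)))))) (XT.nd (nat_lit 390) (nat_lit 0) (nat_lit 0) (XT.nd (nat_lit 156) (nat_lit 0) (nat_lit 0) (XT.nd (nat_lit 78) (nat_lit 0) (nat_lit 0) (XT.lf (nat_lit 0) (nat_lit 122913769839) (nat_lit 76) (nat_lit 163833865256) (nat_lit 76) (nat_lit 155478981628) (nat_lit 1) (nat_lit 4) (nat_lit 2) (nat_lit 5) (nat_lit 2) (nat_lit 4) (nat_lit 382) (nat_lit 240) (nat_lit 158)) (XT.lf (nat_lit 0) (nat_lit 135198540330) (nat_lit 76) (nat_lit 168670072762) (nat_lit 76) (nat_lit 160307772270) (nat_lit 1) (nat_lit 4) (nat_lit 2) (nat_lit 5) (nat_lit 2) (nat_lit 4) (nat_lit 383) (nat_lit 240) (nat_lit 157))) (XT.nd (nat_lit 78) (nat_lit 0) (nat_lit 0) (XT.lf (nat_lit 0) (nat_lit 148087464266) (nat_lit 76) (nat_lit 173752903874) (nat_lit 76)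 (nat_lit 165383539702) (nat_lit 1) (nat_lit 4) (nat_lit 2) (nat_lit 5) (nat_lit 2) (nat_lit 4) (nat_lit 384) (nat_lit 240) (nat_lit 156)) (XT.nd (nat_lit 78) (nat_lit 0) (nat_lit 0) (XT.lf (nat_lit 0) (nat_lit 161611229562) (nat_lit 76) (nat_lit 179094460570) (nat_lit 76) (nat_lit 170718369085) (nat_lit 1) (nat_lit 4) (nat_lit 2) (nat_lit 5) (nat_lit 2) (nat_lit 4) (nat_lit 385) (nat_lit 240) (nat_lit 155)) (XT.lf (nat_lit 0) (nat_lit 175802035659) (nat_lit 76) (nat_lit 184707460843) (nat_lit 76) (nat_lit 176324962392) (nat_lit 1) (nat_lit 4) (nat_lit 2) (nat_lit 5) (nat_lit 2) (nat_lit 4) (nat_lit 386) (nat_lit 240) (nat_lit 154))))) (XT.nd (nat_lit 156) (nat_lit 0) (nat_lit 0) (XT.nd (nat_lit 78) (nat_lit 0) (nat_lit 0) (XT.lf (nat_lit 0) (nat_lit 190693670190) (nat_lit 76) (nat_lit 190605268979) (nat_lit 76) (nat_lit 182216668656) (nat_lit 1) (nat_lit 4) (nat_lit 2) (nat_lit 5) (nat_lit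 2) (nat_lit 4) (nat_lit 387) (nat_lit 240) (nat_lit 153)) (XT.lf (nat_lit 0) (nat_lit 206321589428) (nat_lit 76) (nat_lit 196801927379) (nat_lit 76) (nat_lit 188407515749) (nat_lit 1) (nat_lit 4) (nat_lit 2) (nat_lit 5) (nat_lit 2) (nat_lit 4) (nat_lit 388) (nat_lit 240) (nat_lit 152))) (XT.nd (nat_lit 78) (nat_lit 0) (nat_lit 0) (XT.lf (nat_lit 0) (nat_lit 222723002705) (nat_lit 76) (nat_lit 203312189990) (nat_lit 76) (nat_lit 194912243783) (nat_lit 1) (nat_lit 4) (nat_lit 2) (nat_lit 5) (nat_lit 2) (nat_lit 4) (nat_lit 389) (nat_lit 240) (nat_lit 151)) (XT.nd (nat_lit 33462) (nat_lit 0) (nat_lit 2204) (XT.lf (nat_lit 0) (nat_lit 239936961004) (nat_lit 76) (nat_lit 210151557439) (nat_lit 76) (nat_lit 201746340206) (nat_lit 1) (nat_lit 4) (nat_lit 2) (nat_lit 5) (nat_lit 2) (nat_lit 4) (nat_lit 390) (nat_lit 240) (nat_lit 150)) (XT.lf (nat_lit 0) (nat_lit 2707612082) (nat_lit 228) (nat_lit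 405776439) (nat_lit 0) (nat_lit 2707612082) (nat_lit 30) (nat_lit 5) (nat_lit 33) (nat_lit 4) (nat_lit 30) (nat_lit 4) (nat_lit 298) (nat_lit 241) (nat_lit 241))))))) (XT.nd (nat_lit 780) (nat_lit 532) (nat_lit 0) (XT.nd (nat_lit 390) (nat_lit 304) (nat_lit 0) (XT.nd (nat_lit 156) (nat_lit 304) (nat_lit 0) (XT.nd (nat_lit 78) (nat_lit 152) (nat_lit 0) (XT.lf (nat_lit 0) (nat_lit 7036157380) (nat_lit 152) (nat_lit 2785972091) (nat_lit 152) (nat_lit 2157267686) (nat_lit 28) (nat_lit 4) (nat_lit 30) (nat_lit 5) (nat_lit 30) (nat_lit 4) (nat_lit 299) (nat_lit 241) (nat_lit 240)) (XT.lf (nat_lit 0) (nat_lit 1963977142) (nat_lit 152) (nat_lit 9577424379) (nat_lit 0) (nat_lit 794957614) (nat_lit 26) (nat_lit 5) (nat_lit 28) (nat_lit 4) (nat_lit 26) (nat_lit 4) (nat_lit 300) (nat_lit 241) (nat_lit 239))) (XT.nd (nat_lit 78) (nat_lit 304) (nat_lit 0) (XT.lf (nat_lit 0) (nat_lit 6197316912) (nat_lit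 152) (nat_lit 2028098282) (nat_lit 0) (nat_lit 4485198881) (nat_lit 26) (nat_lit 5) (nat_lit 28) (nat_lit 4) (nat_lit 26) (nat_lit 4) (nat_lit 301) (nat_lit 241) (nat_lit 238)) (XT.nd (nat_lit 78) (nat_lit 152) (nat_lit 0) (XT.lf (nat_lit 0) (nat_lit 5841327454) (nat_lit 152) (nat_lit 4747215530) (nat_lit 152) (nat_lit 2517860829) (nat_lit 24) (nat_lit 4) (nat_lit 26) (nat_lit 5) (nat_lit 26) (nat_lit 4) (nat_lit 302) (nat_lit 241) (nat_lit 237)) (XT.lf (nat_lit 0) (nat_lit 394984600) (nat_lit 76) (nat_lit 1125476693) (nat_lit 152) (nat_lit 12005493013) (nat_lit 22) (nat_lit 5) (nat_lit 23) (nat_lit 5) (nat_lit 24) (nat_lit 4) (nat_lit 303) (nat_lit 241) (nat_lit 236))))) (XT.nd (nat_lit 156) (nat_lit 152) (nat_lit 0) (XT.nd (nat_lit 78) (nat_lit 152) (nat_lit 0) (XT.lf (nat_lit 0) (nat_lit 5700200371) (nat_lit 152) (nat_lit 5602079135) (nat_lit 0) (nat_lit 2661048029) (nat_lit 22) (nat_lit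 5) (nat_lit 24) (nat_lit 4) (nat_lit 22) (nat_lit 4) (nat_lit 304) (nat_lit 241) (nat_lit 235)) (XT.lf (nat_lit 0) (nat_lit 2117404253) (nat_lit 152) (nat_lit 7887090216) (nat_lit 152) (nat_lit 4422405986) (nat_lit 20) (nat_lit 4) (nat_lit 22) (nat_lit 5) (nat_lit 22) (nat_lit 4) (nat_lit 305) (nat_lit 241) (nat_lit 234))) (XT.nd (nat_lit 78) (nat_lit 152) (nat_lit 0) (XT.lf (nat_lit 0) (nat_lit 10185975004) (nat_lit 152) (nat_lit 4299822120) (nat_lit 152) (nat_lit 429869425) (nat_lit 20) (nat_lit 4) (nat_lit 22) (nat_lit 5) (nat_lit 22) (nat_lit 4) (nat_lit 306) (nat_lit 241) (nat_lit 233)) (XT.nd (nat_lit 78) (nat_lit 0) (nat_lit 0) (XT.lf (nat_lit 0) (nat_lit 3043042314) (nat_lit 76) (nat_lit 517428405) (nat_lit 152) (nat_lit 11869628083) (nat_lit 18) (nat_lit 5) (nat_lit 19) (nat_lit 5) (nat_lit 20) (nat_lit 4) (nat_lit 307) (nat_lit 241) (nat_lit 232)) (XT.lf (nat_lit 0) (nat_lit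 7743511286) (nat_lit 152) (nat_lit 4885932097) (nat_lit 0) (nat_lit 3340165471) (nat_lit 18) (nat_lit 5) (nat_lit 20) (nat_lit 4) (nat_lit 18) (nat_lit 4) (nat_lit 308) (nat_lit 241) (nat_lit 231)))))) (XT.nd (nat_lit 390) (nat_lit 228) (nat_lit 0) (XT.nd (nat_lit 156) (nat_lit 152) (nat_lit 0) (XT.nd (nat_lit 78) (nat_lit 0) (nat_lit 0) (XT.lf (nat_lit 0) (nat_lit 2857988715) (nat_lit 152) (nat_lit 9209189453) (nat_lit 152) (nat_lit 4472428269) (nat_lit 16) (nat_lit 4) (nat_lit 18) (nat_lit 5) (nat_lit 18) (nat_lit 4) (nat_lit 309) (nat_lit 241) (nat_lit 230)) (XT.lf (nat_lit 0) (nat_lit 10946955033) (nat_lit 152) (nat_lit 5623675038) (nat_lit 152) (nat_lit 569375407) (nat_lit 16) (nat_lit 4) (nat_lit 18) (nat_lit 5) (nat_lit 18) (nat_lit 4) (nat_lit 310) (nat_lit 241) (nat_lit 229))) (XT.nd (nat_lit 78) (nat_lit 0) (nat_lit 0) (XT.lf (nat_lit 0) (nat_lit 1455862712) (nat_lit 76) (nat_lit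 1867347000) (nat_lit 152) (nat_lit 14449167869) (nat_lit 14) (nat_lit 5) (nat_lit 15) (nat_lit 5) (nat_lit 16) (nat_lit 4) (nat_lit 311) (nat_lit 241) (nat_lit 228)) (XT.nd (nat_lit 78) (nat_lit 0) (nat_lit 0) (XT.lf (nat_lit 0) (nat_lit 7415854656) (nat_lit 152) (nat_lit 8978971630) (nat_lit 0) (nat_lit 2039917579) (nat_lit 14) (nat_lit 5) (nat_lit 16) (nat_lit 4) (nat_lit 14) (nat_lit 4) (nat_lit 312) (nat_lit 241) (nat_lit 227)) (XT.lf (nat_lit 0) (nat_lit 11634733614) (nat_lit 152) (nat_lit 1501925071) (nat_lit 0) (nat_lit 5997556871) (nat_lit 14) (nat_lit 5) (nat_lit 16) (nat_lit 4) (nat_lit 14) (nat_lit 4) (nat_lit 313) (nat_lit 241) (nat_lit 226))))) (XT.nd (nat_lit 156) (nat_lit 152) (nat_lit 0) (XT.nd (nat_lit 78) (nat_lit 0) (nat_lit 0) (XT.lf (nat_lit 0) (nat_lit 6365311538) (nat_lit 76) (nat_lit 9694805830) (nat_lit 76) (nat_lit 3808829406) (nat_lit 13) (nat_lit 4) (nat_lit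 14) (nat_lit 5) (nat_lit 14) (nat_lit 4) (nat_lit 314) (nat_lit 241) (nat_lit 225)) (XT.lf (nat_lit 0) (nat_lit 14493683881) (nat_lit 76) (nat_lit 6136768016) (nat_lit 76) (nat_lit 13839513) (nat_lit 13) (nat_lit 4) (nat_lit 14) (nat_lit 5) (nat_lit 14) (nat_lit 4) (nat_lit 315) (nat_lit 241) (nat_lit 224))) (XT.nd (nat_lit 78) (nat_lit 0) (nat_lit 0) (XT.lf (nat_lit 0) (nat_lit 1373119131) (nat_lit 76) (nat_lit 2393571736) (nat_lit 152) (nat_lit 17692523609) (nat_lit 11) (nat_lit 5) (nat_lit 12) (nat_lit 5) (nat_lit 13) (nat_lit 4) (nat_lit 316) (nat_lit 241) (nat_lit 223)) (XT.nd (nat_lit 78) (nat_lit 0) (nat_lit 0) (XT.lf (nat_lit 0) (nat_lit 7767798729) (nat_lit 152) (nat_lit 13028697842) (nat_lit 0) (nat_lit 1516827617) (nat_lit 11) (nat_lit 5) (nat_lit 13) (nat_lit 4) (nat_lit 11) (nat_lit 4) (nat_lit 317) (nat_lit 241) (nat_lit 222)) (XT.lf (nat_lit 0) (nat_lit 11915011754) (nat_lit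 152) (nat_lit 5828775693) (nat_lit 0) (nat_lit 5469099581) (nat_lit 11) (nat_lit 5) (nat_lit 13) (nat_lit 4) (nat_lit 11) (nat_lit 4) (nat_lit 318) (nat_lit 241) (nat_lit 221))))))))
noncomputable def xc54 : XT := (XT.nd (nat_lit 1560) (nat_lit 152) (nat_lit 0) (XT.nd (nat_lit 780) (nat_lit 228) (nat_lit 0) (XT.nd (nat_lit 390) (nat_lit 76) (nat_lit 0) (XT.nd (nat_lit 156) (nat_lit 152) (nat_lit 0) (XT.nd (nat_lit 78) (nat_lit 0) (nat_lit 0) (XT.lf (nat_lit 0) (nat_lit 1620035385) (nat_lit 76) (nat_lit 14586091805) (nat_lit 76) (nat_lit 7954521479) (nat_lit 10) (nat_lit 4) (nat_lit 11) (nat_lit 5) (nat_lit 11) (nat_lit 4) (nat_lit 319) (nat_lit 241) (nat_lit 220)) (XT.lf (nat_lit 0) (nat_lit 9483318882) (nat_lit 76) (nat_lit 11240164182) (nat_lit 76) (nat_lit 4431776567) (nat_lit 10) (nat_lit 4) (nat_lit 11) (nat_lit 5) (nat_lit 11) (nat_lit 4) (nat_lit 320) (nat_lit 241) (nat_lit 219)))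 (XT.nd (nat_lit 78) (nat_lit 152) (nat_lit 0) (XT.lf (nat_lit 0) (nat_lit 17587071254) (nat_lit 76) (nat_lit 7796751219) (nat_lit 76) (nat_lit 819966186) (nat_lit 10) (nat_lit 4) (nat_lit 11) (nat_lit 5) (nat_lit 11) (nat_lit 4) (nat_lit 321) (nat_lit 241) (nat_lit 218)) (XT.nd (nat_lit 78) (nat_lit 76) (nat_lit 0) (XT.lf (nat_lit 0) (nat_lit 2797026870) (nat_lit 152) (nat_lit 1403258441) (nat_lit 76) (nat_lit 23106191275) (nat_lit 9) (nat_lit 5) (nat_lit 11) (nat_lit 5) (nat_lit 10) (nat_lit 4) (nat_lit 322) (nat_lit 241) (nat_lit 217)) (XT.lf (nat_lit 0) (nat_lit 6215295374) (nat_lit 76) (nat_lit 372607222) (nat_lit 152) (nat_lit 21874732158) (nat_lit 8) (nat_lit 5) (nat_lit 9) (nat_lit 5) (nat_lit 10) (nat_lit 4) (nat_lit 323) (nat_lit 241) (nat_lit 216))))) (XT.nd (nat_lit 156) (nat_lit 76) (nat_lit 0) (XT.nd (nat_lit 78) (nat_lit 0) (nat_lit 0) (XT.lf (nat_lit 0) (nat_lit 10573436241)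 (nat_lit 152) (nat_lit 15610815860) (nat_lit 0) (nat_lit 3492128651) (nat_lit 8) (nat_lit 5) (nat_lit 10) (nat_lit 4) (nat_lit 8) (nat_lit 4) (nat_lit 324) (nat_lit 241) (nat_lit 215)) (XT.lf (nat_lit 0) (nat_lit 14692000888) (nat_lit 152) (nat_lit 8783409861) (nat_lit 0) (nat_lit 7478749515) (nat_lit 8) (nat_lit 5) (nat_lit 10) (nat_lit 4) (nat_lit 8) (nat_lit 4) (nat_lit 325) (nat_lit 241) (nat_lit 214))) (XT.nd (nat_lit 78) (nat_lit 76) (nat_lit 0) (XT.lf (nat_lit 0) (nat_lit 18947585202) (nat_lit 152) (nat_lit 1743048211) (nat_lit 0) (nat_lit 11608673083) (nat_lit 8) (nat_lit 5) (nat_lit 10) (nat_lit 4) (nat_lit 8) (nat_lit 4) (nat_lit 326) (nat_lit 241) (nat_lit 213)) (XT.nd (nat_lit 78) (nat_lit 0) (nat_lit 0) (XT.lf (nat_lit 0) (nat_lit 5709780486) (nat_lit 76) (nat_lit 17729686714) (nat_lit 76) (nat_lit 10271097694) (nat_lit 7) (nat_lit 4) (nat_lit 8) (nat_lit 5) (nat_lit 8)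 (nat_lit 4) (nat_lit 327) (nat_lit 241) (nat_lit 212)) (XT.lf (nat_lit 0) (nat_lit 13475438226) (nat_lit 76) (nat_lit 14645643694) (nat_lit 76) (nat_lit 7073076673) (nat_lit 7) (nat_lit 4) (nat_lit 8) (nat_lit 5) (nat_lit 8) (nat_lit 4) (nat_lit 328) (nat_lit 241) (nat_lit 211)))))) (XT.nd (nat_lit 390) (nat_lit 76) (nat_lit 0) (XT.nd (nat_lit 156) (nat_lit 152) (nat_lit 0) (XT.nd (nat_lit 78) (nat_lit 0) (nat_lit 0) (XT.lf (nat_lit 0) (nat_lit 21514781623) (nat_lit 76) (nat_lit 11460680758) (nat_lit 76) (nat_lit 3779563260) (nat_lit 7) (nat_lit 4) (nat_lit 8) (nat_lit 5) (nat_lit 8) (nat_lit 4) (nat_lit 329) (nat_lit 241) (nat_lit 210)) (XT.lf (nat_lit 0) (nat_lit 29846951971) (nat_lit 76) (nat_lit 8167214662) (nat_lit 76) (nat_lit 382715757) (nat_lit 7) (nat_lit 4) (nat_lit 8) (nat_lit 5) (nat_lit 8) (nat_lit 4) (nat_lit 330) (nat_lit 241) (nat_lit 209))) (XT.nd (nat_lit 78) (nat_lit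 76) (nat_lit 0) (XT.lf (nat_lit 0) (nat_lit 3025516333) (nat_lit 152) (nat_lit 1680648904) (nat_lit 76) (nat_lit 35415032854) (nat_lit 6) (nat_lit 5) (nat_lit 8) (nat_lit 5) (nat_lit 7) (nat_lit 4) (nat_lit 331) (nat_lit 241) (nat_lit 208)) (XT.nd (nat_lit 78) (nat_lit 0) (nat_lit 0) (XT.lf (nat_lit 0) (nat_lit 5604401357) (nat_lit 76) (nat_lit 1020539485) (nat_lit 152) (nat_lit 35304815870) (nat_lit 5) (nat_lit 5) (nat_lit 6) (nat_lit 5) (nat_lit 7) (nat_lit 4) (nat_lit 332) (nat_lit 241) (nat_lit 207)) (XT.lf (nat_lit 0) (nat_lit 10424187531) (nat_lit 152) (nat_lit 30661332877) (nat_lit 0) (nat_lit 2742252181) (nat_lit 5) (nat_lit 5) (nat_lit 7) (nat_lit 4) (nat_lit 5) (nat_lit 4) (nat_lit 333) (nat_lit 241) (nat_lit 206))))) (XT.nd (nat_lit 156) (nat_lit 76) (nat_lit 0) (XT.nd (nat_lit 78) (nat_lit 0) (nat_lit 0) (XT.lf (nat_lit 0) (nat_lit 14379112555) (nat_lit 152) (nat_lit 24827136568)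 (nat_lit 0) (nat_lit 6616175168) (nat_lit 5) (nat_lit 5) (nat_lit 7) (nat_lit 4) (nat_lit 5) (nat_lit 4) (nat_lit 334) (nat_lit 241) (nat_lit 205)) (XT.lf (nat_lit 0) (nat_lit 18483198922) (nat_lit 152) (nat_lit 18792942003) (nat_lit 0) (nat_lit 10643116738) (nat_lit 5) (nat_lit 5) (nat_lit 7) (nat_lit 4) (nat_lit 5) (nat_lit 4) (nat_lit 335) (nat_lit 241) (nat_lit 204))) (XT.nd (nat_lit 78) (nat_lit 76) (nat_lit 0) (XT.lf (nat_lit 0) (nat_lit 22746218266) (nat_lit 152) (nat_lit 12544382054) (nat_lit 0) (nat_lit 14832664846) (nat_lit 5) (nat_lit 5) (nat_lit 7) (nat_lit 4) (nat_lit 5) (nat_lit 4) (nat_lit 336) (nat_lit 241) (nat_lit 203)) (XT.nd (nat_lit 78) (nat_lit 76) (nat_lit 0) (XT.lf (nat_lit 0) (nat_lit 27178320633) (nat_lit 152) (nat_lit 6066579195) (nat_lit 0) (nat_lit 19194794607) (nat_lit 5) (nat_lit 5) (nat_lit 7) (nat_lit 4) (nat_lit 5) (nat_lit 4) (nat_lit 337) (nat_lit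 241) (nat_lit 202)) (XT.lf (nat_lit 0) (nat_lit 677576593) (nat_lit 76) (nat_lit 31123060922) (nat_lit 76) (nat_lit 23072894320) (nat_lit 4) (nat_lit 4) (nat_lit 5) (nat_lit 5) (nat_lit 5) (nat_lit 4) (nat_lit 338) (nat_lit 241) (nat_lit 201))))))) (XT.nd (nat_lit 780) (nat_lit 0) (nat_lit 0) (XT.nd (nat_lit 390) (nat_lit 152) (nat_lit 0) (XT.nd (nat_lit 156) (nat_lit 0) (nat_lit 0) (XT.nd (nat_lit 78) (nat_lit 0) (nat_lit 0) (XT.lf (nat_lit 0) (nat_lit 7891612014) (nat_lit 76) (nat_lit 28824010802) (nat_lit 76) (nat_lit 20710376984) (nat_lit 4) (nat_lit 4) (nat_lit 5) (nat_lit 5) (nat_lit 5) (nat_lit 4) (nat_lit 339) (nat_lit 241) (nat_lit 200)) (XT.lf (nat_lit 0) (nat_lit 15392114836) (nat_lit 76) (nat_lit 26445015992) (nat_lit 76) (nat_lit 18270937207) (nat_lit 4) (nat_lit 4) (nat_lit 5) (nat_lit 5) (nat_lit 5) (nat_lit 4) (nat_lit 340) (nat_lit 241) (nat_lit 199))) (XT.nd (nat_lit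 78) (nat_lit 0) (nat_lit 0) (XT.lf (nat_lit 0) (nat_lit 23196943398) (nat_lit 76) (nat_lit 23980412219) (nat_lit 76) (nat_lit 15748766799) (nat_lit 4) (nat_lit 4) (nat_lit 5) (nat_lit 5) (nat_lit 5) (nat_lit 4) (nat_lit 341) (nat_lit 241) (nat_lit 198)) (XT.nd (nat_lit 78) (nat_lit 0) (nat_lit 0) (XT.lf (nat_lit 0) (nat_lit 31324680625) (nat_lit 76) (nat_lit 21424331380) (nat_lit 76) (nat_lit 13137860592) (nat_lit 4) (nat_lit 4) (nat_lit 5) (nat_lit 5) (nat_lit 5) (nat_lit 4) (nat_lit 342) (nat_lit 241) (nat_lit 197)) (XT.lf (nat_lit 0) (nat_lit 39794678273) (nat_lit 76) (nat_lit 18770687568) (nat_lit 76) (nat_lit 10432002144) (nat_lit 4) (nat_lit 4) (nat_lit 5) (nat_lit 5) (nat_lit 5) (nat_lit 4) (nat_lit 343) (nat_lit 241) (nat_lit 196))))) (XT.nd (nat_lit 156) (nat_lit 152) (nat_lit 0) (XT.nd (nat_lit 78) (nat_lit 0) (nat_lit 0) (XT.lf (nat_lit 0) (nat_lit 48627103003) (nat_lit 76)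 (nat_lit 16013162582) (nat_lit 76) (nat_lit 7624748934) (nat_lit 4) (nat_lit 4) (nat_lit 5) (nat_lit 5) (nat_lit 5) (nat_lit 4) (nat_lit 344) (nat_lit 241) (nat_lit 195)) (XT.lf (nat_lit 0) (nat_lit 57842984398) (nat_lit 76) (nat_lit 13145190888) (nat_lit 76) (nat_lit 4709417026) (nat_lit 4) (nat_lit 4) (nat_lit 5) (nat_lit 5) (nat_lit 5) (nat_lit 4) (nat_lit 345) (nat_lit 241) (nat_lit 194))) (XT.nd (nat_lit 78) (nat_lit 152) (nat_lit 0) (XT.lf (nat_lit 0) (nat_lit 67464265032) (nat_lit 76) (nat_lit 10159943981) (nat_lit 76) (nat_lit 1679065154) (nat_lit 4) (nat_lit 4) (nat_lit 5) (nat_lit 5) (nat_lit 5) (nat_lit 4) (nat_lit 346) (nat_lit 241) (nat_lit 193)) (XT.nd (nat_lit 78) (nat_lit 76) (nat_lit 0) (XT.lf (nat_lit 0) (nat_lit 1426359905) (nat_lit 152) (nat_lit 5599798129) (nat_lit 76) (nat_lit 76063336716) (nat_lit 3) (nat_lit 5) (nat_lit 5) (nat_lit 5) (nat_lit 4) (nat_lit 4) (nat_lit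 347) (nat_lit 241) (nat_lit 192)) (XT.lf (nat_lit 0) (nat_lit 901555827) (nat_lit 76) (nat_lit 3716153097) (nat_lit 152) (nat_lit 82446597160) (nat_lit 2) (nat_lit 5) (nat_lit 3) (nat_lit 5) (nat_lit 4) (nat_lit 4) (nat_lit 348) (nat_lit 241) (nat_lit 191)))))) (XT.nd (nat_lit 390) (nat_lit 0) (nat_lit 0) (XT.nd (nat_lit 156) (nat_lit 0) (nat_lit 0) (XT.nd (nat_lit 78) (nat_lit 0) (nat_lit 0) (XT.lf (nat_lit 0) (nat_lit 7872067429) (nat_lit 76) (nat_lit 164897577) (nat_lit 152) (nat_lit 83197485543) (nat_lit 2) (nat_lit 5) (nat_lit 3) (nat_lit 5) (nat_lit 4) (nat_lit 4) (nat_lit 349) (nat_lit 241) (nat_lit 190)) (XT.lf (nat_lit 0) (nat_lit 11657238413) (nat_lit 152) (nat_lit 80526483011) (nat_lit 0) (nat_lit 3427887174) (nat_lit 2) (nat_lit 5) (nat_lit 4) (nat_lit 4) (nat_lit 2) (nat_lit 4) (nat_lit 350) (nat_lit 241) (nat_lit 189))) (XT.nd (nat_lit 78) (nat_lit 0) (nat_lit 0) (XT.lf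 (nat_lit 0) (nat_lit 15436858948) (nat_lit 152) (nat_lit 77598007894) (nat_lit 0) (nat_lit 7173849690) (nat_lit 2) (nat_lit 5) (nat_lit 4) (nat_lit 4) (nat_lit 2) (nat_lit 4) (nat_lit 351) (nat_lit 241) (nat_lit 188)) (XT.nd (nat_lit 78) (nat_lit 0) (nat_lit 0) (XT.lf (nat_lit 0) (nat_lit 19382251197) (nat_lit 152) (nat_lit 74567410695) (nat_lit 0) (nat_lit 11087186681) (nat_lit 2) (nat_lit 5) (nat_lit 4) (nat_lit 4) (nat_lit 2) (nat_lit 4) (nat_lit 352) (nat_lit 241) (nat_lit 187)) (XT.lf (nat_lit 0) (nat_lit 23502808948) (nat_lit 152) (nat_lit 71427475706) (nat_lit 0) (nat_lit 15177215617) (nat_lit 2) (nat_lit 5) (nat_lit 4) (nat_lit 4) (nat_lit 2) (nat_lit 4) (nat_lit 353) (nat_lit 241) (nat_lit 186))))) (XT.nd (nat_lit 156) (nat_lit 0) (nat_lit 0) (XT.nd (nat_lit 78) (nat_lit 0) (nat_lit 0) (XT.lf (nat_lit 0) (nat_lit 27808343056) (nat_lit 152) (nat_lit 68170726892) (nat_lit 0) (nat_lit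 19453674662) (nat_lit 2) (nat_lit 5) (nat_lit 4) (nat_lit 4) (nat_lit 2) (nat_lit 4) (nat_lit 354) (nat_lit 241) (nat_lit 185)) (XT.lf (nat_lit 0) (nat_lit 32309104790) (nat_lit 152) (nat_lit 64789410090) (nat_lit 0) (nat_lit 23926745860) (nat_lit 2) (nat_lit 5) (nat_lit 4) (nat_lit 4) (nat_lit 2) (nat_lit 4) (nat_lit 355) (nat_lit 241) (nat_lit 184))) (XT.nd (nat_lit 78) (nat_lit 0) (nat_lit 0) (XT.lf (nat_lit 0) (nat_lit 37015810251) (nat_lit 152) (nat_lit 61275474544) (nat_lit 0) (nat_lit 28607079382) (nat_lit 2) (nat_lit 5) (nat_lit 4) (nat_lit 4) (nat_lit 2) (nat_lit 4) (nat_lit 356) (nat_lit 241) (nat_lit 183)) (XT.nd (nat_lit 78) (nat_lit 0) (nat_lit 0) (XT.lf (nat_lit 0) (nat_lit 41939665880) (nat_lit 152) (nat_lit 57620553741) (nat_lit 0) (nat_lit 33505818878) (nat_lit 2) (nat_lit 5) (nat_lit 4) (nat_lit 4) (nat_lit 2) (nat_lit 4) (nat_lit 357) (nat_lit 241) (nat_lit 182)) (XT.lf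 (nat_lit 0) (nat_lit 47092395142) (nat_lit 152) (nat_lit 53815945490) (nat_lit 0) (nat_lit 38634628014) (nat_lit 2) (nat_lit 5) (nat_lit 4) (nat_lit 4) (nat_lit 2) (nat_lit 4) (nat_lit 358) (nat_lit 241) (nat_lit 181))))))))
noncomputable def xc55 : XT := (XT.nd (nat_lit 1560) (nat_lit 0) (nat_lit 0) (XT.nd (nat_lit 780) (nat_lit 76) (nat_lit 0) (XT.nd (nat_lit 390) (nat_lit 0) (nat_lit 0) (XT.nd (nat_lit 156) (nat_lit 0) (nat_lit 0) (XT.nd (nat_lit 78) (nat_lit 0) (nat_lit 0) (XT.lf (nat_lit 0) (nat_lit 52486266441) (nat_lit 152) (nat_lit 49852591198) (nat_lit 0) (nat_lit 44005718241) (nat_lit 2) (nat_lit 5) (nat_lit 4) (nat_lit 4) (nat_lit 2) (nat_lit 4) (nat_lit 359) (nat_lit 241) (nat_lit 180)) (XT.lf (nat_lit 0) (nat_lit 58134122328) (nat_lit 152) (nat_lit 45721054309) (nat_lit 0) (nat_lit 49631877868) (nat_lit 2) (nat_lit 5) (nat_lit 4) (nat_lit 4) (nat_lit 2) (nat_lit 4) (nat_lit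 360) (nat_lit 241) (nat_lit 179))) (XT.nd (nat_lit 78) (nat_lit 0) (nat_lit 0) (XT.lf (nat_lit 0) (nat_lit 64049410078) (nat_lit 152) (nat_lit 41411497830) (nat_lit 0) (nat_lit 55526502514) (nat_lit 2) (nat_lit 5) (nat_lit 4) (nat_lit 4) (nat_lit 2) (nat_lit 4) (nat_lit 361) (nat_lit 241) (nat_lit 178)) (XT.nd (nat_lit 78) (nat_lit 0) (nat_lit 0) (XT.lf (nat_lit 0) (nat_lit 70246213711) (nat_lit 152) (nat_lit 36913660911) (nat_lit 0) (nat_lit 61703626999) (nat_lit 2) (nat_lit 5) (nat_lit 4) (nat_lit 4) (nat_lit 2) (nat_lit 4) (nat_lit 362) (nat_lit 241) (nat_lit 177)) (XT.lf (nat_lit 0) (nat_lit 76739287519) (nat_lit 152) (nat_lit 32216834418) (nat_lit 0) (nat_lit 68177958763) (nat_lit 2) (nat_lit 5) (nat_lit 4) (nat_lit 4) (nat_lit 2) (nat_lit 4) (nat_lit 363) (nat_lit 241) (nat_lit 176))))) (XT.nd (nat_lit 156) (nat_lit 0) (nat_lit 0) (XT.nd (nat_lit 78) (nat_lit 0) (nat_lit 0) (XT.lf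 (nat_lit 0) (nat_lit 83544091203) (nat_lit 152) (nat_lit 27309835430) (nat_lit 0) (nat_lit 74964912881) (nat_lit 2) (nat_lit 5) (nat_lit 4) (nat_lit 4) (nat_lit 2) (nat_lit 4) (nat_lit 364) (nat_lit 241) (nat_lit 175)) (XT.lf (nat_lit 0) (nat_lit 90676826676) (nat_lit 152) (nat_lit 22180980616) (nat_lit 0) (nat_lit 82080648767) (nat_lit 2) (nat_lit 5) (nat_lit 4) (nat_lit 4) (nat_lit 2) (nat_lit 4) (nat_lit 365) (nat_lit 241) (nat_lit 174))) (XT.nd (nat_lit 78) (nat_lit 0) (nat_lit 0) (XT.lf (nat_lit 0) (nat_lit 98154476643) (nat_lit 152) (nat_lit 16818058417) (nat_lit 0) (nat_lit 89542108651) (nat_lit 2) (nat_lit 5) (nat_lit 4) (nat_lit 4) (nat_lit 2) (nat_lit 4) (nat_lit 366) (nat_lit 241) (nat_lit 173)) (XT.nd (nat_lit 78) (nat_lit 0) (nat_lit 0) (XT.lf (nat_lit 0) (nat_lit 105994845030) (nat_lit 152) (nat_lit 11208299971) (nat_lit 0) (nat_lit 97367057912) (nat_lit 2) (nat_lit 5)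 (nat_lit 4) (nat_lit 4) (nat_lit 2) (nat_lit 4) (nat_lit 367) (nat_lit 241) (nat_lit 172)) (XT.lf (nat_lit 0) (nat_lit 114216599383) (nat_lit 152) (nat_lit 5338348710) (nat_lit 0) (nat_lit 105574127382) (nat_lit 2) (nat_lit 5) (nat_lit 4) (nat_lit 4) (nat_lit 2) (nat_lit 4) (nat_lit 368) (nat_lit 241) (nat_lit 171)))))) (XT.nd (nat_lit 390) (nat_lit 0) (nat_lit 0) (XT.nd (nat_lit 156) (nat_lit 0) (nat_lit 0) (XT.nd (nat_lit 78) (nat_lit 0) (nat_lit 0) (XT.lf (nat_lit 0) (nat_lit 832413882) (nat_lit 76) (nat_lit 122019897738) (nat_lit 76) (nat_lit 113363440134) (nat_lit 1) (nat_lit 4) (nat_lit 2) (nat_lit 5) (nat_lit 2) (nat_lit 4) (nat_lit 369) (nat_lit 241) (nat_lit 170)) (XT.lf (nat_lit 0) (nat_lit 7478033097) (nat_lit 76) (nat_lit 124522243033) (nat_lit 76) (nat_lit 115852465808) (nat_lit 1) (nat_lit 4) (nat_lit 2) (nat_lit 5) (nat_lit 2) (nat_lit 4) (nat_lit 370) (nat_lit 241) (nat_lit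 169))) (XT.nd (nat_lit 78) (nat_lit 0) (nat_lit 0) (XT.lf (nat_lit 0) (nat_lit 14437821919) (nat_lit 76) (nat_lit 127158349464) (nat_lit 76) (nat_lit 118475886885) (nat_lit 1) (nat_lit 4) (nat_lit 2) (nat_lit 5) (nat_lit 2) (nat_lit 4) (nat_lit 371) (nat_lit 241) (nat_lit 168)) (XT.nd (nat_lit 78) (nat_lit 0) (nat_lit 0) (XT.lf (nat_lit 0) (nat_lit 21728351275) (nat_lit 76) (nat_lit 129934493474) (nat_lit 76) (nat_lit 121239949606) (nat_lit 1) (nat_lit 4) (nat_lit 2) (nat_lit 5) (nat_lit 2) (nat_lit 4) (nat_lit 372) (nat_lit 241) (nat_lit 167)) (XT.lf (nat_lit 0) (nat_lit 29366979567) (nat_lit 76) (nat_lit 132857284929) (nat_lit 76) (nat_lit 124151235072) (nat_lit 1) (nat_lit 4) (nat_lit 2) (nat_lit 5) (nat_lit 2) (nat_lit 4) (nat_lit 373) (nat_lit 241) (nat_lit 166))))) (XT.nd (nat_lit 156) (nat_lit 0) (nat_lit 0) (XT.nd (nat_lit 78) (nat_lit 0) (nat_lit 0) (XT.lf (nat_lit 0) (nat_lit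 37371894006) (nat_lit 76) (nat_lit 135933682858) (nat_lit 76) (nat_lit 127216674915) (nat_lit 1) (nat_lit 4) (nat_lit 2) (nat_lit 5) (nat_lit 2) (nat_lit 4) (nat_lit 374) (nat_lit 241) (nat_lit 165)) (XT.lf (nat_lit 0) (nat_lit 45762153912) (nat_lit 76) (nat_lit 139171012016) (nat_lit 76) (nat_lit 130443567802) (nat_lit 1) (nat_lit 4) (nat_lit 2) (nat_lit 5) (nat_lit 2) (nat_lit 4) (nat_lit 375) (nat_lit 241) (nat_lit 164))) (XT.nd (nat_lit 78) (nat_lit 0) (nat_lit 0) (XT.lf (nat_lit 0) (nat_lit 54557736095) (nat_lit 76) (nat_lit 142576980331) (nat_lit 76) (nat_lit 133839596811) (nat_lit 1) (nat_lit 4) (nat_lit 2) (nat_lit 5) (nat_lit 2) (nat_lit 4) (nat_lit 376) (nat_lit 241) (nat_lit 163)) (XT.nd (nat_lit 78) (nat_lit 0) (nat_lit 0) (XT.lf (nat_lit 0) (nat_lit 63779582415) (nat_lit 76) (nat_lit 146159697251) (nat_lit 76) (nat_lit 137412847724) (nat_lit 1) (nat_lit 4) (nat_lit 2) (nat_lit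 5) (nat_lit 2) (nat_lit 4) (nat_lit 377) (nat_lit 241) (nat_lit 162)) (XT.lf (nat_lit 0) (nat_lit 73449649651) (nat_lit 76) (nat_lit 149927693055) (nat_lit 76) (nat_lit 141171828284) (nat_lit 1) (nat_lit 4) (nat_lit 2) (nat_lit 5) (nat_lit 2) (nat_lit 4) (nat_lit 378) (nat_lit 241) (nat_lit 161))))))) (XT.nd (nat_lit 780) (nat_lit 0) (nat_lit 0) (XT.nd (nat_lit 390) (nat_lit 0) (nat_lit 0) (XT.nd (nat_lit 156) (nat_lit 0) (nat_lit 0) (XT.nd (nat_lit 78) (nat_lit 0) (nat_lit 0) (XT.lf (nat_lit 0) (nat_lit 83590961773) (nat_lit 76) (nat_lit 153889939160) (nat_lit 76) (nat_lit 145125488443) (nat_lit 1) (nat_lit 4) (nat_lit 2) (nat_lit 5) (nat_lit 2) (nat_lit 4) (nat_lit 379) (nat_lit 241) (nat_lit 160)) (XT.lf (nat_lit 0) (nat_lit 94227664760) (nat_lit 76) (nat_lit 158055869487) (nat_lit 76) (nat_lit 149283241677) (nat_lit 1) (nat_lit 4) (nat_lit 2) (nat_lit 5) (nat_lit 2) (nat_lit 4) (nat_lit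 380) (nat_lit 241) (nat_lit 159))) (XT.nd (nat_lit 78) (nat_lit 0) (nat_lit 0) (XT.lf (nat_lit 0) (nat_lit 105385084097) (nat_lit 76) (nat_lit 162435402916) (nat_lit 76) (nat_lit 153654987400) (nat_lit 1) (nat_lit 4) (nat_lit 2) (nat_lit 5) (nat_lit 2) (nat_lit 4) (nat_lit 381) (nat_lit 241) (nat_lit 158)) (XT.nd (nat_lit 78) (nat_lit 0) (nat_lit 0) (XT.lf (nat_lit 0) (nat_lit 117089785068) (nat_lit 76) (nat_lit 167038966909) (nat_lit 76) (nat_lit 158251134530) (nat_lit 1) (nat_lit 4) (nat_lit 2) (nat_lit 5) (nat_lit 2) (nat_lit 4) (nat_lit 382) (nat_lit 241) (nat_lit 157)) (XT.lf (nat_lit 0) (nat_lit 129369636009) (nat_lit 76) (nat_lit 171877522333) (nat_lit 76) (nat_lit 163082626273) (nat_lit 1) (nat_lit 4) (nat_lit 2) (nat_lit 5) (nat_lit 2) (nat_lit 4) (nat_lit 383) (nat_lit 241) (nat_lit 156))))) (XT.nd (nat_lit 156) (nat_lit 0) (nat_lit 0) (XT.nd (nat_lit 78) (nat_lit 0) (nat_lit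 0) (XT.lf (nat_lit 0) (nat_lit 142253874659) (nat_lit 76) (nat_lit 176962589556) (nat_lit 76) (nat_lit 168160966183) (nat_lit 1) (nat_lit 4) (nat_lit 2) (nat_lit 5) (nat_lit 2) (nat_lit 4) (nat_lit 384) (nat_lit 241) (nat_lit 155)) (XT.lf (nat_lit 0) (nat_lit 155773177777) (nat_lit 76) (nat_lit 182306275882) (nat_lit 76) (nat_lit 173498245544) (nat_lit 1) (nat_lit 4) (nat_lit 2) (nat_lit 5) (nat_lit 2) (nat_lit 4) (nat_lit 385) (nat_lit 241) (nat_lit 154))) (XT.nd (nat_lit 78) (nat_lit 0) (nat_lit 0) (XT.lf (nat_lit 0) (nat_lit 169959734181) (nat_lit 76) (nat_lit 187921304375) (nat_lit 76) (nat_lit 179107172164) (nat_lit 1) (nat_lit 4) (nat_lit 2) (nat_lit 5) (nat_lit 2) (nat_lit 4) (nat_lit 386) (nat_lit 241) (nat_lit 153)) (XT.nd (nat_lit 78) (nat_lit 0) (nat_lit 0) (XT.lf (nat_lit 0) (nat_lit 184847321386) (nat_lit 76) (nat_lit 193821044148) (nat_lit 76) (nat_lit 185001100631) (nat_lit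 1) (nat_lit 4) (nat_lit 2) (nat_lit 5) (nat_lit 2) (nat_lit 4) (nat_lit 387) (nat_lit 241) (nat_lit 152)) (XT.lf (nat_lit 0) (nat_lit 200471386027) (nat_lit 76) (nat_lit 200019542202) (nat_lit 76) (nat_lit 191194064107) (nat_lit 1) (nat_lit 4) (nat_lit 2) (nat_lit 5) (nat_lit 2) (nat_lit 4) (nat_lit 388) (nat_lit 241) (nat_lit 151)))))) (XT.nd (nat_lit 33618) (nat_lit 0) (nat_lit 1596) (XT.nd (nat_lit 33384) (nat_lit 0) (nat_lit 2204) (XT.nd (nat_lit 78) (nat_lit 0) (nat_lit 0) (XT.lf (nat_lit 0) (nat_lit 216869128259) (nat_lit 76) (nat_lit 206531556866) (nat_lit 76) (nat_lit 197700807744) (nat_lit 1) (nat_lit 4) (nat_lit 2) (nat_lit 5) (nat_lit 2) (nat_lit 4) (nat_lit 389) (nat_lit 241) (nat_lit 150)) (XT.lf (nat_lit 0) (nat_lit 234079590325) (nat_lit 76) (nat_lit 213372592936) (nat_lit 76) (nat_lit 204536823789) (nat_lit 1) (nat_lit 4) (nat_lit 2) (nat_lit 5) (nat_lit 2) (nat_lit 4)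 (nat_lit 390) (nat_lit 241) (nat_lit 149))) (XT.nd (nat_lit 78) (nat_lit 228) (nat_lit 0) (XT.lf (nat_lit 0) (nat_lit 3266328173) (nat_lit 152) (nat_lit 1120791183) (nat_lit 152) (nat_lit 1120791183) (nat_lit 33) (nat_lit 4) (nat_lit 35) (nat_lit 5) (nat_lit 35) (nat_lit 4) (nat_lit 296) (nat_lit 242) (nat_lit 242)) (XT.nd (nat_lit 78) (nat_lit 0) (nat_lit 0) (XT.lf (nat_lit 0) (nat_lit 1835358361) (nat_lit 228) (nat_lit 8312396253) (nat_lit 0) (nat_lit 1175218736) (nat_lit 30) (nat_lit 5) (nat_lit 33) (nat_lit 4) (nat_lit 30) (nat_lit 4) (nat_lit 297) (nat_lit 242) (nat_lit 241)) (XT.lf (nat_lit 0) (nat_lit 5999776214) (nat_lit 228) (nat_lit 935151055) (nat_lit 0) (nat_lit 4710932185) (nat_lit 30) (nat_lit 5) (nat_lit 33) (nat_lit 4) (nat_lit 30) (nat_lit 4) (nat_lit 298) (nat_lit 242) (nat_lit 240))))) (XT.nd (nat_lit 234) (nat_lit 304) (nat_lit 0) (XT.nd (nat_lit 78) (nat_lit 152)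 (nat_lit 0) (XT.lf (nat_lit 0) (nat_lit 6786867833) (nat_lit 152) (nat_lit 3543933415) (nat_lit 152) (nat_lit 1656323286) (nat_lit 28) (nat_lit 4) (nat_lit 30) (nat_lit 5) (nat_lit 30) (nat_lit 4) (nat_lit 299) (nat_lit 242) (nat_lit 239)) (XT.nd (nat_lit 78) (nat_lit 0) (nat_lit 0) (XT.lf (nat_lit 0) (nat_lit 2358582760) (nat_lit 152) (nat_lit 9971935771) (nat_lit 0) (nat_lit 17760325) (nat_lit 26) (nat_lit 5) (nat_lit 28) (nat_lit 4) (nat_lit 26) (nat_lit 4) (nat_lit 300) (nat_lit 242) (nat_lit 238)) (XT.lf (nat_lit 0) (nat_lit 6521200492) (nat_lit 152) (nat_lit 2541792904) (nat_lit 0) (nat_lit 3663141387) (nat_lit 26) (nat_lit 5) (nat_lit 28) (nat_lit 4) (nat_lit 26) (nat_lit 4) (nat_lit 301) (nat_lit 242) (nat_lit 237)))) (XT.nd (nat_lit 78) (nat_lit 152) (nat_lit 0) (XT.lf (nat_lit 0) (nat_lit 5193386847) (nat_lit 152) (nat_lit 5641569227) (nat_lit 152) (nat_lit 2290903770) (nat_lit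 24) (nat_lit 4) (nat_lit 26) (nat_lit 5) (nat_lit 26) (nat_lit 4) (nat_lit 302) (nat_lit 242) (nat_lit 236)) (XT.nd (nat_lit 78) (nat_lit 76) (nat_lit 0) (XT.lf (nat_lit 0) (nat_lit 1666959785) (nat_lit 228) (nat_lit 402546803) (nat_lit 76) (nat_lit 11479442354) (nat_lit 23) (nat_lit 5) (nat_lit 26) (nat_lit 5) (nat_lit 24) (nat_lit 4) (nat_lit 303) (nat_lit 242) (nat_lit 235)) (XT.lf (nat_lit 0) (nat_lit 5759048106) (nat_lit 152) (nat_lit 6536112207) (nat_lit 0) (nat_lit 1695597777) (nat_lit 22) (nat_lit 5) (nat_lit 24) (nat_lit 4) (nat_lit 22) (nat_lit 4) (nat_lit 304) (nat_lit 242) (nat_lit 234))))))))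
noncomputable def xc56 : XT := (XT.nd (nat_lit 1560) (nat_lit 304) (nat_lit 0) (XT.nd (nat_lit 780) (nat_lit 380) (nat_lit 0) (XT.nd (nat_lit 390) (nat_lit 228) (nat_lit 0) (XT.nd (nat_lit 156) (nat_lit 304) (nat_lit 0) (XT.nd (nat_lit 78) (nat_lit 0) (nat_lit 0) (XT.lf (nat_lit 0) (nat_lit 1039620343) (nat_lit 152) (nat_lit 8943739705) (nat_lit 152) (nat_lit 4475020910) (nat_lit 20) (nat_lit 4) (nat_lit 22) (nat_lit 5) (nat_lit 22) (nat_lit 4) (nat_lit 305) (nat_lit 242) (nat_lit 233)) (XT.lf (nat_lit 0) (nat_lit 9000698251) (nat_lit 152) (nat_lit 5402138637) (nat_lit 152) (nat_lit 547449876) (nat_lit 20) (nat_lit 4) (nat_lit 22) (nat_lit 5) (nat_lit 22) (nat_lit 4) (nat_lit 306) (nat_lit 242) (nat_lit 232))) (XT.nd (nat_lit 78) (nat_lit 152) (nat_lit 0) (XT.lf (nat_lit 0) (nat_lit 1676856280) (nat_lit 76) (nat_lit 1688575663) (nat_lit 152) (nat_lit 12103483860) (nat_lit 18) (nat_lit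 5) (nat_lit 19) (nat_lit 5) (nat_lit 20) (nat_lit 4) (nat_lit 307) (nat_lit 242) (nat_lit 231)) (XT.nd (nat_lit 78) (nat_lit 152) (nat_lit 0) (XT.lf (nat_lit 0) (nat_lit 7470856225) (nat_lit 152) (nat_lit 6377650657) (nat_lit 0) (nat_lit 2163841613) (nat_lit 18) (nat_lit 5) (nat_lit 20) (nat_lit 4) (nat_lit 18) (nat_lit 4) (nat_lit 308) (nat_lit 242) (nat_lit 230)) (XT.lf (nat_lit 0) (nat_lit 1213640341) (nat_lit 152) (nat_lit 10498703790) (nat_lit 152) (nat_lit 4874150731) (nat_lit 16) (nat_lit 4) (nat_lit 18) (nat_lit 5) (nat_lit 18) (nat_lit 4) (nat_lit 309) (nat_lit 242) (nat_lit 229))))) (XT.nd (nat_lit 156) (nat_lit 152) (nat_lit 0) (XT.nd (nat_lit 78) (nat_lit 76) (nat_lit 0) (XT.lf (nat_lit 0) (nat_lit 9204219173) (nat_lit 152) (nat_lit 6956225433) (nat_lit 152) (nat_lit 1029254806) (nat_lit 16) (nat_lit 4) (nat_lit 18) (nat_lit 5) (nat_lit 18) (nat_lit 4) (nat_lit 310) (nat_lit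 242) (nat_lit 228)) (XT.lf (nat_lit 0) (nat_lit 2801704418) (nat_lit 228) (nat_lit 471493301) (nat_lit 76) (nat_lit 14553084453) (nat_lit 15) (nat_lit 5) (nat_lit 18) (nat_lit 5) (nat_lit 16) (nat_lit 4) (nat_lit 311) (nat_lit 242) (nat_lit 227))) (XT.nd (nat_lit 78) (nat_lit 76) (nat_lit 0) (XT.lf (nat_lit 0) (nat_lit 6811494850) (nat_lit 152) (nat_lit 11050109498) (nat_lit 0) (nat_lit 631219604) (nat_lit 14) (nat_lit 5) (nat_lit 16) (nat_lit 4) (nat_lit 14) (nat_lit 4) (nat_lit 312) (nat_lit 242) (nat_lit 226)) (XT.nd (nat_lit 78) (nat_lit 76) (nat_lit 0) (XT.lf (nat_lit 0) (nat_lit 10979730149) (nat_lit 152) (nat_lit 3664473670) (nat_lit 0) (nat_lit 4550655221) (nat_lit 14) (nat_lit 5) (nat_lit 16) (nat_lit 4) (nat_lit 14) (nat_lit 4) (nat_lit 313) (nat_lit 242) (nat_lit 225)) (XT.lf (nat_lit 0) (nat_lit 4041322954) (nat_lit 76) (nat_lit 11279274918) (nat_lit 76) (nat_lit 4613247912)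 (nat_lit 13) (nat_lit 4) (nat_lit 14) (nat_lit 5) (nat_lit 14) (nat_lit 4) (nat_lit 314) (nat_lit 242) (nat_lit 224)))))) (XT.nd (nat_lit 390) (nat_lit 228) (nat_lit 0) (XT.nd (nat_lit 156) (nat_lit 76) (nat_lit 0) (XT.nd (nat_lit 78) (nat_lit 76) (nat_lit 0) (XT.lf (nat_lit 0) (nat_lit 12084041617) (nat_lit 76) (nat_lit 7759618196) (nat_lit 76) (nat_lit 867922545) (nat_lit 13) (nat_lit 4) (nat_lit 14) (nat_lit 5) (nat_lit 14) (nat_lit 4) (nat_lit 315) (nat_lit 242) (nat_lit 223)) (XT.lf (nat_lit 0) (nat_lit 2872719921) (nat_lit 152) (nat_lit 1217542330) (nat_lit 76) (nat_lit 17440296777) (nat_lit 12) (nat_lit 5) (nat_lit 14) (nat_lit 5) (nat_lit 13) (nat_lit 4) (nat_lit 316) (nat_lit 242) (nat_lit 222))) (XT.nd (nat_lit 78) (nat_lit 0) (nat_lit 0) (XT.lf (nat_lit 0) (nat_lit 6597621710) (nat_lit 76) (nat_lit 187221214) (nat_lit 152) (nat_lit 15604299515) (nat_lit 11) (nat_lit 5) (nat_lit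 12) (nat_lit 5) (nat_lit 13) (nat_lit 4) (nat_lit 317) (nat_lit 242) (nat_lit 221)) (XT.nd (nat_lit 78) (nat_lit 0) (nat_lit 0) (XT.lf (nat_lit 0) (nat_lit 10885839471) (nat_lit 152) (nat_lit 8668167448) (nat_lit 0) (nat_lit 3737032475) (nat_lit 11) (nat_lit 5) (nat_lit 13) (nat_lit 4) (nat_lit 11) (nat_lit 4) (nat_lit 318) (nat_lit 242) (nat_lit 220)) (XT.lf (nat_lit 0) (nat_lit 15110429776) (nat_lit 152) (nat_lit 1346914205) (nat_lit 0) (nat_lit 7784805491) (nat_lit 11) (nat_lit 5) (nat_lit 13) (nat_lit 4) (nat_lit 11) (nat_lit 4) (nat_lit 319) (nat_lit 242) (nat_lit 219))))) (XT.nd (nat_lit 156) (nat_lit 152) (nat_lit 0) (XT.nd (nat_lit 78) (nat_lit 0) (nat_lit 0) (XT.lf (nat_lit 0) (nat_lit 6397348713) (nat_lit 76) (nat_lit 13168281169) (nat_lit 76) (nat_lit 5674259466) (nat_lit 10) (nat_lit 4) (nat_lit 11) (nat_lit 5) (nat_lit 11) (nat_lit 4) (nat_lit 320) (nat_lit 242) (nat_lit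 218)) (XT.lf (nat_lit 0) (nat_lit 14430162502) (nat_lit 76) (nat_lit 9757300746) (nat_lit 76) (nat_lit 2102900550) (nat_lit 10) (nat_lit 4) (nat_lit 11) (nat_lit 5) (nat_lit 11) (nat_lit 4) (nat_lit 321) (nat_lit 242) (nat_lit 217))) (XT.nd (nat_lit 78) (nat_lit 76) (nat_lit 0) (XT.lf (nat_lit 0) (nat_lit 1517862260) (nat_lit 152) (nat_lit 4695523983) (nat_lit 76) (nat_lit 21182549848) (nat_lit 9) (nat_lit 5) (nat_lit 11) (nat_lit 5) (nat_lit 10) (nat_lit 4) (nat_lit 322) (nat_lit 242) (nat_lit 216)) (XT.nd (nat_lit 78) (nat_lit 0) (nat_lit 0) (XT.lf (nat_lit 0) (nat_lit 2746470683) (nat_lit 76) (nat_lit 2472592888) (nat_lit 152) (nat_lit 23337531788) (nat_lit 8) (nat_lit 5) (nat_lit 9) (nat_lit 5) (nat_lit 10) (nat_lit 4) (nat_lit 323) (nat_lit 242) (nat_lit 215)) (XT.lf (nat_lit 0) (nat_lit 9136515923) (nat_lit 152) (nat_lit 19206587852) (nat_lit 0) (nat_lit 1430658198) (nat_lit 8)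 (nat_lit 5) (nat_lit 10) (nat_lit 4) (nat_lit 8) (nat_lit 4) (nat_lit 324) (nat_lit 242) (nat_lit 214))))))) (XT.nd (nat_lit 780) (nat_lit 76) (nat_lit 0) (XT.nd (nat_lit 390) (nat_lit 152) (nat_lit 0) (XT.nd (nat_lit 156) (nat_lit 76) (nat_lit 0) (XT.nd (nat_lit 78) (nat_lit 0) (nat_lit 0) (XT.lf (nat_lit 0) (nat_lit 13221466636) (nat_lit 152) (nat_lit 12441823145) (nat_lit 0) (nat_lit 5389948165) (nat_lit 8) (nat_lit 5) (nat_lit 10) (nat_lit 4) (nat_lit 8) (nat_lit 4) (nat_lit 325) (nat_lit 242) (nat_lit 213)) (XT.lf (nat_lit 0) (nat_lit 17445037679) (nat_lit 152) (nat_lit 5461119870) (nat_lit 0) (nat_lit 9493842307) (nat_lit 8) (nat_lit 5) (nat_lit 10) (nat_lit 4) (nat_lit 8) (nat_lit 4) (nat_lit 326) (nat_lit 242) (nat_lit 212))) (XT.nd (nat_lit 78) (nat_lit 0) (nat_lit 0) (XT.lf (nat_lit 0) (nat_lit 1810076445) (nat_lit 76) (nat_lit 20035469093) (nat_lit 76) (nat_lit 11970295720)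 (nat_lit 7) (nat_lit 4) (nat_lit 8) (nat_lit 5) (nat_lit 8) (nat_lit 4) (nat_lit 327) (nat_lit 242) (nat_lit 211)) (XT.nd (nat_lit 78) (nat_lit 0) (nat_lit 0) (XT.lf (nat_lit 0) (nat_lit 9519833097) (nat_lit 76) (nat_lit 16977417407) (nat_lit 76) (nat_lit 8803693557) (nat_lit 7) (nat_lit 4) (nat_lit 8) (nat_lit 5) (nat_lit 8) (nat_lit 4) (nat_lit 328) (nat_lit 242) (nat_lit 210)) (XT.lf (nat_lit 0) (nat_lit 17505937363) (nat_lit 76) (nat_lit 13817208124) (nat_lit 76) (nat_lit 5540102867) (nat_lit 7) (nat_lit 4) (nat_lit 8) (nat_lit 5) (nat_lit 8) (nat_lit 4) (nat_lit 329) (nat_lit 242) (nat_lit 209))))) (XT.nd (nat_lit 156) (nat_lit 76) (nat_lit 0) (XT.nd (nat_lit 78) (nat_lit 76) (nat_lit 0) (XT.lf (nat_lit 0) (nat_lit 25787403776) (nat_lit 76) (nat_lit 10547316935) (nat_lit 76) (nat_lit 2171753195) (nat_lit 7) (nat_lit 4) (nat_lit 8) (nat_lit 5) (nat_lit 8) (nat_lit 4) (nat_lit 330)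 (nat_lit 242) (nat_lit 208)) (XT.lf (nat_lit 0) (nat_lit 1267467150) (nat_lit 152) (nat_lit 5871026065) (nat_lit 76) (nat_lit 33095017795) (nat_lit 6) (nat_lit 5) (nat_lit 8) (nat_lit 5) (nat_lit 7) (nat_lit 4) (nat_lit 331) (nat_lit 242) (nat_lit 207))) (XT.nd (nat_lit 78) (nat_lit 0) (nat_lit 0) (XT.lf (nat_lit 0) (nat_lit 1227095117) (nat_lit 76) (nat_lit 3546433461) (nat_lit 152) (nat_lit 37273219876) (nat_lit 5) (nat_lit 5) (nat_lit 6) (nat_lit 5) (nat_lit 7) (nat_lit 4) (nat_lit 332) (nat_lit 242) (nat_lit 206)) (XT.nd (nat_lit 78) (nat_lit 0) (nat_lit 0) (XT.lf (nat_lit 0) (nat_lit 8508454030) (nat_lit 152) (nat_lit 35163168789) (nat_lit 0) (nat_lit 276367736) (nat_lit 5) (nat_lit 5) (nat_lit 7) (nat_lit 4) (nat_lit 5) (nat_lit 4) (nat_lit 333) (nat_lit 242) (nat_lit 205)) (XT.lf (nat_lit 0) (nat_lit 12439679099) (nat_lit 152) (nat_lit 29373709826) (nat_lit 0) (nat_lit 4130448008)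 (nat_lit 5) (nat_lit 5) (nat_lit 7) (nat_lit 4) (nat_lit 5) (nat_lit 4) (nat_lit 334) (nat_lit 242) (nat_lit 204)))))) (XT.nd (nat_lit 390) (nat_lit 0) (nat_lit 0) (XT.nd (nat_lit 156) (nat_lit 76) (nat_lit 0) (XT.nd (nat_lit 78) (nat_lit 0) (nat_lit 0) (XT.lf (nat_lit 0) (nat_lit 16521194079) (nat_lit 152) (nat_lit 23382122258) (nat_lit 0) (nat_lit 8138491753) (nat_lit 5) (nat_lit 5) (nat_lit 7) (nat_lit 4) (nat_lit 5) (nat_lit 4) (nat_lit 335) (nat_lit 242) (nat_lit 203)) (XT.lf (nat_lit 0) (nat_lit 20762716865) (nat_lit 152) (nat_lit 17174140401) (nat_lit 0) (nat_lit 12310041933) (nat_lit 5) (nat_lit 5) (nat_lit 7) (nat_lit 4) (nat_lit 5) (nat_lit 4) (nat_lit 336) (nat_lit 242) (nat_lit 202))) (XT.nd (nat_lit 78) (nat_lit 76) (nat_lit 0) (XT.lf (nat_lit 0) (nat_lit 25174346319) (nat_lit 152) (nat_lit 10734983345) (nat_lit 0) (nat_lit 16655030810) (nat_lit 5) (nat_lit 5) (nat_lit 7)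 (nat_lit 4) (nat_lit 5) (nat_lit 4) (nat_lit 337) (nat_lit 242) (nat_lit 201)) (XT.nd (nat_lit 78) (nat_lit 76) (nat_lit 0) (XT.lf (nat_lit 0) (nat_lit 29766586321) (nat_lit 152) (nat_lit 4049319763) (nat_lit 0) (nat_lit 21183803597) (nat_lit 5) (nat_lit 5) (nat_lit 7) (nat_lit 4) (nat_lit 5) (nat_lit 4) (nat_lit 338) (nat_lit 242) (nat_lit 200)) (XT.lf (nat_lit 0) (nat_lit 2994614970) (nat_lit 76) (nat_lit 31602510137) (nat_lit 76) (nat_lit 22959282445) (nat_lit 4) (nat_lit 4) (nat_lit 5) (nat_lit 5) (nat_lit 5) (nat_lit 4) (nat_lit 339) (nat_lit 242) (nat_lit 199))))) (XT.nd (nat_lit 156) (nat_lit 0) (nat_lit 0) (XT.nd (nat_lit 78) (nat_lit 0) (nat_lit 0) (XT.lf (nat_lit 0) (nat_lit 10460630279) (nat_lit 76) (nat_lit 29239779121) (nat_lit 76) (nat_lit 20538984794) (nat_lit 4) (nat_lit 4) (nat_lit 5) (nat_lit 5) (nat_lit 5) (nat_lit 4) (nat_lit 340) (nat_lit 242) (nat_lit 198)) (XT.lf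 (nat_lit 0) (nat_lit 18232613591) (nat_lit 76) (nat_lit 26790664677) (nat_lit 76) (nat_lit 18035044982) (nat_lit 4) (nat_lit 4) (nat_lit 5) (nat_lit 5) (nat_lit 5) (nat_lit 4) (nat_lit 341) (nat_lit 242) (nat_lit 197))) (XT.nd (nat_lit 78) (nat_lit 0) (nat_lit 0) (XT.lf (nat_lit 0) (nat_lit 26329069628) (nat_lit 76) (nat_lit 24249335578) (nat_lit 76) (nat_lit 15441501248) (nat_lit 4) (nat_lit 4) (nat_lit 5) (nat_lit 5) (nat_lit 5) (nat_lit 4) (nat_lit 342) (nat_lit 242) (nat_lit 196)) (XT.nd (nat_lit 78) (nat_lit 0) (nat_lit 0) (XT.lf (nat_lit 0) (nat_lit 34769275666) (nat_lit 76) (nat_lit 21609741043) (nat_lit 76) (nat_lit 12752178488) (nat_lit 4) (nat_lit 4) (nat_lit 5) (nat_lit 5) (nat_lit 5) (nat_lit 4) (nat_lit 343) (nat_lit 242) (nat_lit 195)) (XT.lf (nat_lit 0) (nat_lit 43573327434) (nat_lit 76) (nat_lit 18865596321) (nat_lit 76) (nat_lit 9960673553) (nat_lit 4) (nat_lit 4) (nat_lit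 5) (nat_lit 5) (nat_lit 5) (nat_lit 4) (nat_lit 344) (nat_lit 242) (nat_lit 194))))))))
noncomputable def xc57 : XT := (XT.nd (nat_lit 1560) (nat_lit 76) (nat_lit 0) (XT.nd (nat_lit 780) (nat_lit 0) (nat_lit 0) (XT.nd (nat_lit 390) (nat_lit 0) (nat_lit 0) (XT.nd (nat_lit 156) (nat_lit 152) (nat_lit 0) (XT.nd (nat_lit 78) (nat_lit 0) (nat_lit 0) (XT.lf (nat_lit 0) (nat_lit 52762186961) (nat_lit 76) (nat_lit 16010367735) (nat_lit 76) (nat_lit 7060340001) (nat_lit 4) (nat_lit 4) (nat_lit 5) (nat_lit 5) (nat_lit 5) (nat_lit 4) (nat_lit 345) (nat_lit 242) (nat_lit 193)) (XT.lf (nat_lit 0) (nat_lit 62357732482) (nat_lit 76) (nat_lit 13037257121) (nat_lit 76) (nat_lit 4044272278) (nat_lit 4) (nat_lit 4) (nat_lit 5) (nat_lit 5) (nat_lit 5) (nat_lit 4) (nat_lit 346) (nat_lit 242) (nat_lit 192))) (XT.nd (nat_lit 78) (nat_lit 152) (nat_lit 0) (XT.lf (nat_lit 0) (nat_lit 72382810535) (nat_lit 76)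 (nat_lit 9939185645) (nat_lit 76) (nat_lit 905289269) (nat_lit 4) (nat_lit 4) (nat_lit 5) (nat_lit 5) (nat_lit 5) (nat_lit 4) (nat_lit 347) (nat_lit 242) (nat_lit 191)) (XT.nd (nat_lit 78) (nat_lit 76) (nat_lit 0) (XT.lf (nat_lit 0) (nat_lit 2288417380) (nat_lit 152) (nat_lit 4381604110) (nat_lit 76) (nat_lit 80534117518) (nat_lit 3) (nat_lit 5) (nat_lit 5) (nat_lit 5) (nat_lit 4) (nat_lit 4) (nat_lit 348) (nat_lit 242) (nat_lit 190)) (XT.lf (nat_lit 0) (nat_lit 2420653287) (nat_lit 76) (nat_lit 3204039880) (nat_lit 152) (nat_lit 85753743753) (nat_lit 2) (nat_lit 5) (nat_lit 3) (nat_lit 5) (nat_lit 4) (nat_lit 4) (nat_lit 349) (nat_lit 242) (nat_lit 189))))) (XT.nd (nat_lit 156) (nat_lit 0) (nat_lit 0) (XT.nd (nat_lit 78) (nat_lit 0) (nat_lit 0) (XT.lf (nat_lit 0) (nat_lit 9185629348) (nat_lit 152) (nat_lit 86097125098) (nat_lit 0) (nat_lit 475811607) (nat_lit 2) (nat_lit 5) (nat_lit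 4) (nat_lit 4) (nat_lit 2) (nat_lit 4) (nat_lit 350) (nat_lit 242) (nat_lit 188)) (XT.lf (nat_lit 0) (nat_lit 12953928267) (nat_lit 152) (nat_lit 83190260553) (nat_lit 0) (nat_lit 4212055269) (nat_lit 2) (nat_lit 5) (nat_lit 4) (nat_lit 4) (nat_lit 2) (nat_lit 4) (nat_lit 351) (nat_lit 242) (nat_lit 187))) (XT.nd (nat_lit 78) (nat_lit 0) (nat_lit 0) (XT.lf (nat_lit 0) (nat_lit 16888538023) (nat_lit 152) (nat_lit 80180244852) (nat_lit 0) (nat_lit 8116136210) (nat_lit 2) (nat_lit 5) (nat_lit 4) (nat_lit 4) (nat_lit 2) (nat_lit 4) (nat_lit 352) (nat_lit 242) (nat_lit 186)) (XT.nd (nat_lit 78) (nat_lit 0) (nat_lit 0) (XT.lf (nat_lit 0) (nat_lit 20998826735) (nat_lit 152) (nat_lit 77059911290) (nat_lit 0) (nat_lit 12197349859) (nat_lit 2) (nat_lit 5) (nat_lit 4) (nat_lit 4) (nat_lit 2) (nat_lit 4) (nat_lit 353) (nat_lit 242) (nat_lit 185)) (XT.lf (nat_lit 0) (nat_lit 25294580804) (nat_lit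 152) (nat_lit 73821830501) (nat_lit 0) (nat_lit 16465413392) (nat_lit 2) (nat_lit 5) (nat_lit 4) (nat_lit 4) (nat_lit 2) (nat_lit 4) (nat_lit 354) (nat_lit 242) (nat_lit 184)))))) (XT.nd (nat_lit 390) (nat_lit 0) (nat_lit 0) (XT.nd (nat_lit 156) (nat_lit 0) (nat_lit 0) (XT.nd (nat_lit 78) (nat_lit 0) (nat_lit 0) (XT.lf (nat_lit 0) (nat_lit 29786028216) (nat_lit 152) (nat_lit 70458292770) (nat_lit 0) (nat_lit 20930488865) (nat_lit 2) (nat_lit 5) (nat_lit 4) (nat_lit 4) (nat_lit 2) (nat_lit 4) (nat_lit 355) (nat_lit 242) (nat_lit 183)) (XT.lf (nat_lit 0) (nat_lit 34483862894) (nat_lit 152) (nat_lit 66961289673) (nat_lit 0) (nat_lit 25603207410) (nat_lit 2) (nat_lit 5) (nat_lit 4) (nat_lit 4) (nat_lit 2) (nat_lit 4) (nat_lit 356) (nat_lit 242) (nat_lit 182))) (XT.nd (nat_lit 78) (nat_lit 0) (nat_lit 0) (XT.lf (nat_lit 0) (nat_lit 39399270158) (nat_lit 152) (nat_lit 63322495013) (nat_lit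 0) (nat_lit 30494694548) (nat_lit 2) (nat_lit 5) (nat_lit 4) (nat_lit 4) (nat_lit 2) (nat_lit 4) (nat_lit 357) (nat_lit 242) (nat_lit 181)) (XT.nd (nat_lit 78) (nat_lit 0) (nat_lit 0) (XT.lf (nat_lit 0) (nat_lit 44543953359) (nat_lit 152) (nat_lit 59533244992) (nat_lit 0) (nat_lit 35616596676) (nat_lit 2) (nat_lit 5) (nat_lit 4) (nat_lit 4) (nat_lit 2) (nat_lit 4) (nat_lit 358) (nat_lit 242) (nat_lit 180)) (XT.lf (nat_lit 0) (nat_lit 49930161743) (nat_lit 152) (nat_lit 55584517587) (nat_lit 0) (nat_lit 40981108800) (nat_lit 2) (nat_lit 5) (nat_lit 4) (nat_lit 4) (nat_lit 2) (nat_lit 4) (nat_lit 359) (nat_lit 242) (nat_lit 179))))) (XT.nd (nat_lit 156) (nat_lit 0) (nat_lit 0) (XT.nd (nat_lit 78) (nat_lit 0) (nat_lit 0) (XT.lf (nat_lit 0) (nat_lit 55570719614) (nat_lit 152) (nat_lit 51466911066) (nat_lit 0) (nat_lit 46601003568) (nat_lit 2) (nat_lit 5) (nat_lit 4) (nat_lit 4) (nat_lit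 2) (nat_lit 4) (nat_lit 360) (nat_lit 242) (nat_lit 178)) (XT.lf (nat_lit 0) (nat_lit 61479056874) (nat_lit 152) (nat_lit 47170621603) (nat_lit 0) (nat_lit 52489661680) (nat_lit 2) (nat_lit 5) (nat_lit 4) (nat_lit 4) (nat_lit 2) (nat_lit 4) (nat_lit 361) (nat_lit 242) (nat_lit 177))) (XT.nd (nat_lit 78) (nat_lit 0) (nat_lit 0) (XT.lf (nat_lit 0) (nat_lit 67669240991) (nat_lit 152) (nat_lit 42685419939) (nat_lit 0) (nat_lit 58661103753) (nat_lit 2) (nat_lit 5) (nat_lit 4) (nat_lit 4) (nat_lit 2) (nat_lit 4) (nat_lit 362) (nat_lit 242) (nat_lit 176)) (XT.nd (nat_lit 78) (nat_lit 0) (nat_lit 0) (XT.lf (nat_lit 0) (nat_lit 74156010500) (nat_lit 152) (nat_lit 38000627021) (nat_lit 0) (nat_lit 65130023695) (nat_lit 2) (nat_lit 5) (nat_lit 4) (nat_lit 4) (nat_lit 2) (nat_lit 4) (nat_lit 363) (nat_lit 242) (nat_lit 175)) (XT.lf (nat_lit 0) (nat_lit 80954810089) (nat_lit 152) (nat_lit 33105088581)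 (nat_lit 0) (nat_lit 71911823697) (nat_lit 2) (nat_lit 5) (nat_lit 4) (nat_lit 4) (nat_lit 2) (nat_lit 4) (nat_lit 364) (nat_lit 242) (nat_lit 174))))))) (XT.nd (nat_lit 780) (nat_lit 0) (nat_lit 0) (XT.nd (nat_lit 390) (nat_lit 76) (nat_lit 0) (XT.nd (nat_lit 156) (nat_lit 0) (nat_lit 0) (XT.nd (nat_lit 78) (nat_lit 0) (nat_lit 0) (XT.lf (nat_lit 0) (nat_lit 88081827377) (nat_lit 152) (nat_lit 27987148575) (nat_lit 0) (nat_lit 79022650902) (nat_lit 2) (nat_lit 5) (nat_lit 4) (nat_lit 4) (nat_lit 2) (nat_lit 4) (nat_lit 365) (nat_lit 242) (nat_lit 173)) (XT.lf (nat_lit 0) (nat_lit 95554031452) (nat_lit 152) (nat_lit 22634621431) (nat_lit 0) (nat_lit 86479435850) (nat_lit 2) (nat_lit 5) (nat_lit 4) (nat_lit 4) (nat_lit 2) (nat_lit 4) (nat_lit 366) (nat_lit 242) (nat_lit 172))) (XT.nd (nat_lit 78) (nat_lit 0) (nat_lit 0) (XT.lf (nat_lit 0) (nat_lit 103389213276) (nat_lit 152) (nat_lit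 17034763038) (nat_lit 0) (nat_lit 94299932792) (nat_lit 2) (nat_lit 5) (nat_lit 4) (nat_lit 4) (nat_lit 2) (nat_lit 4) (nat_lit 367) (nat_lit 242) (nat_lit 171)) (XT.nd (nat_lit 78) (nat_lit 0) (nat_lit 0) (XT.lf (nat_lit 0) (nat_lit 111606028045) (nat_lit 152) (nat_lit 11174240398) (nat_lit 0) (nat_lit 102502761959) (nat_lit 2) (nat_lit 5) (nat_lit 4) (nat_lit 4) (nat_lit 2) (nat_lit 4) (nat_lit 368) (nat_lit 242) (nat_lit 170)) (XT.lf (nat_lit 0) (nat_lit 120224039603) (nat_lit 152) (nat_lit 5039099887) (nat_lit 0) (nat_lit 111107453895) (nat_lit 2) (nat_lit 5) (nat_lit 4) (nat_lit 4) (nat_lit 2) (nat_lit 4) (nat_lit 369) (nat_lit 242) (nat_lit 169))))) (XT.nd (nat_lit 156) (nat_lit 0) (nat_lit 0) (XT.nd (nat_lit 78) (nat_lit 0) (nat_lit 0) (XT.lf (nat_lit 0) (nat_lit 1431069121) (nat_lit 76) (nat_lit 127855040903) (nat_lit 76) (nat_lit 118725769842) (nat_lit 1) (nat_lit 4) (nat_lit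 2) (nat_lit 5) (nat_lit 2) (nat_lit 4) (nat_lit 370) (nat_lit 242) (nat_lit 168)) (XT.lf (nat_lit 0) (nat_lit 8382443842) (nat_lit 76) (nat_lit 130495163069) (nat_lit 76) (nat_lit 121353810719) (nat_lit 1) (nat_lit 4) (nat_lit 2) (nat_lit 5) (nat_lit 2) (nat_lit 4) (nat_lit 371) (nat_lit 242) (nat_lit 167))) (XT.nd (nat_lit 78) (nat_lit 0) (nat_lit 0) (XT.lf (nat_lit 0) (nat_lit 15664959768) (nat_lit 76) (nat_lit 133275131588) (nat_lit 76) (nat_lit 124122273249) (nat_lit 1) (nat_lit 4) (nat_lit 2) (nat_lit 5) (nat_lit 2) (nat_lit 4) (nat_lit 372) (nat_lit 242) (nat_lit 166)) (XT.nd (nat_lit 78) (nat_lit 0) (nat_lit 0) (XT.lf (nat_lit 0) (nat_lit 23295956223) (nat_lit 76) (nat_lit 136201565434) (nat_lit 76) (nat_lit 127037749009) (nat_lit 1) (nat_lit 4) (nat_lit 2) (nat_lit 5) (nat_lit 2) (nat_lit 4) (nat_lit 373) (nat_lit 242) (nat_lit 165)) (XT.lf (nat_lit 0) (nat_lit 31293602245) (nat_lit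 76) (nat_lit 139281432306) (nat_lit 76) (nat_lit 130107179609) (nat_lit 1) (nat_lit 4) (nat_lit 2) (nat_lit 5) (nat_lit 2) (nat_lit 4) (nat_lit 374) (nat_lit 242) (nat_lit 164)))))) (XT.nd (nat_lit 390) (nat_lit 0) (nat_lit 0) (XT.nd (nat_lit 156) (nat_lit 0) (nat_lit 0) (XT.nd (nat_lit 78) (nat_lit 0) (nat_lit 0) (XT.lf (nat_lit 0) (nat_lit 39676939849) (nat_lit 76) (nat_lit 142522065220) (nat_lit 76) (nat_lit 133337873217) (nat_lit 1) (nat_lit 4) (nat_lit 2) (nat_lit 5) (nat_lit 2) (nat_lit 4) (nat_lit 375) (nat_lit 242) (nat_lit 163)) (XT.lf (nat_lit 0) (nat_lit 48465929362) (nat_lit 76) (nat_lit 145931179969) (nat_lit 76) (nat_lit 136737521959) (nat_lit 1) (nat_lit 4) (nat_lit 2) (nat_lit 5) (nat_lit 2) (nat_lit 4) (nat_lit 376) (nat_lit 242) (nat_lit 162))) (XT.nd (nat_lit 78) (nat_lit 0) (nat_lit 0) (XT.lf (nat_lit 0) (nat_lit 57681496951) (nat_lit 76) (nat_lit 149516893493) (nat_lit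 76) (nat_lit 140314220239) (nat_lit 1) (nat_lit 4) (nat_lit 2) (nat_lit 5) (nat_lit 2) (nat_lit 4) (nat_lit 377) (nat_lit 242) (nat_lit 161)) (XT.nd (nat_lit 78) (nat_lit 0) (nat_lit 0) (XT.lf (nat_lit 0) (nat_lit 67345584442) (nat_lit 76) (nat_lit 153287743204) (nat_lit 76) (nat_lit 144076484004) (nat_lit 1) (nat_lit 4) (nat_lit 2) (nat_lit 5) (nat_lit 2) (nat_lit 4) (nat_lit 378) (nat_lit 242) (nat_lit 160)) (XT.lf (nat_lit 0) (nat_lit 77481201569) (nat_lit 76) (nat_lit 157252707317) (nat_lit 76) (nat_lit 148033271025) (nat_lit 1) (nat_lit 4) (nat_lit 2) (nat_lit 5) (nat_lit 2) (nat_lit 4) (nat_lit 379) (nat_lit 242) (nat_lit 159))))) (XT.nd (nat_lit 156) (nat_lit 0) (nat_lit 0) (XT.nd (nat_lit 78) (nat_lit 0) (nat_lit 0) (XT.lf (nat_lit 0) (nat_lit 88112480751) (nat_lit 76) (nat_lit 161421226223) (nat_lit 76) (nat_lit 152194002224) (nat_lit 1) (nat_lit 4) (nat_lit 2) (nat_lit 5) (nat_lit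 2) (nat_lit 4) (nat_lit 380) (nat_lit 242) (nat_lit 158)) (XT.lf (nat_lit 0) (nat_lit 99264734560) (nat_lit 76) (nat_lit 165803224965) (nat_lit 76) (nat_lit 156568584103) (nat_lit 1) (nat_lit 4) (nat_lit 2) (nat_lit 5) (nat_lit 2) (nat_lit 4) (nat_lit 381) (nat_lit 242) (nat_lit 157))) (XT.nd (nat_lit 78) (nat_lit 0) (nat_lit 0) (XT.lf (nat_lit 0) (nat_lit 110964515980) (nat_lit 76) (nat_lit 170409136876) (nat_lit 76) (nat_lit 161167432334) (nat_lit 1) (nat_lit 4) (nat_lit 2) (nat_lit 5) (nat_lit 2) (nat_lit 4) (nat_lit 382) (nat_lit 242) (nat_lit 156)) (XT.nd (nat_lit 78) (nat_lit 0) (nat_lit 0) (XT.lf (nat_lit 0) (nat_lit 123239681634) (nat_lit 76) (nat_lit 175249928411) (nat_lit 76) (nat_lit 166001496555) (nat_lit 1) (nat_lit 4) (nat_lit 2) (nat_lit 5) (nat_lit 2) (nat_lit 4) (nat_lit 383) (nat_lit 242) (nat_lit 155)) (XT.lf (nat_lit 0) (nat_lit 136119458107) (nat_lit 76) (nat_lit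 180337125264) (nat_lit 76) (nat_lit 171082286443) (nat_lit 1) (nat_lit 4) (nat_lit 2) (nat_lit 5) (nat_lit 2) (nat_lit 4) (nat_lit 384) (nat_lit 242) (nat_lit 154))))))))
noncomputable def xc58 : XT := (XT.nd (nat_lit 34632) (nat_lit 0) (nat_lit 532) (XT.nd (nat_lit 33852) (nat_lit 0) (nat_lit 1292) (XT.nd (nat_lit 390) (nat_lit 0) (nat_lit 0) (XT.nd (nat_lit 156) (nat_lit 0) (nat_lit 0) (XT.nd (nat_lit 78) (nat_lit 0) (nat_lit 0) (XT.lf (nat_lit 0) (nat_lit 149634511532) (nat_lit 76) (nat_lit 185682839810) (nat_lit 76) (nat_lit 176421899117) (nat_lit 1) (nat_lit 4) (nat_lit 2) (nat_lit 5) (nat_lit 2) (nat_lit 4) (nat_lit 385) (nat_lit 242) (nat_lit 153)) (XT.lf (nat_lit 0) (nat_lit 163817020609) (nat_lit 76) (nat_lit 191299799940) (nat_lit 76) (nat_lit 182033047940) (nat_lit 1) (nat_lit 4) (nat_lit 2) (nat_lit 5) (nat_lit 2) (nat_lit 4) (nat_lit 386) (nat_lit 242) (nat_lit 152))) (XT.nd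 (nat_lit 78) (nat_lit 0) (nat_lit 0) (XT.lf (nat_lit 0) (nat_lit 178700753217) (nat_lit 76) (nat_lit 197201379368) (nat_lit 76) (nat_lit 187929092790) (nat_lit 1) (nat_lit 4) (nat_lit 2) (nat_lit 5) (nat_lit 2) (nat_lit 4) (nat_lit 387) (nat_lit 242) (nat_lit 151)) (XT.nd (nat_lit 78) (nat_lit 0) (nat_lit 0) (XT.lf (nat_lit 0) (nat_lit 194321146814) (nat_lit 76) (nat_lit 203401629474) (nat_lit 76) (nat_lit 194124071870) (nat_lit 1) (nat_lit 4) (nat_lit 2) (nat_lit 5) (nat_lit 2) (nat_lit 4) (nat_lit 388) (nat_lit 242) (nat_lit 150)) (XT.lf (nat_lit 0) (nat_lit 210715392813) (nat_lit 76) (nat_lit 209915312759) (nat_lit 76) (nat_lit 200632735129) (nat_lit 1) (nat_lit 4) (nat_lit 2) (nat_lit 5) (nat_lit 2) (nat_lit 4) (nat_lit 389) (nat_lit 242) (nat_lit 149))))) (XT.nd (nat_lit 33228) (nat_lit 0) (nat_lit 2204) (XT.nd (nat_lit 33150) (nat_lit 0) (nat_lit 2584) (XT.lf (nat_lit 0) (nat_lit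 227922525134) (nat_lit 76) (nat_lit 216757937991) (nat_lit 76) (nat_lit 207470579386) (nat_lit 1) (nat_lit 4) (nat_lit 2) (nat_lit 5) (nat_lit 2) (nat_lit 4) (nat_lit 390) (nat_lit 242) (nat_lit 148)) (XT.lf (nat_lit 0) (nat_lit 562806488) (nat_lit 228) (nat_lit 4098294880) (nat_lit 0) (nat_lit 562806488) (nat_lit 35) (nat_lit 5) (nat_lit 38) (nat_lit 4) (nat_lit 35) (nat_lit 4) (nat_lit 294) (nat_lit 243) (nat_lit 243))) (XT.nd (nat_lit 78) (nat_lit 380) (nat_lit 0) (XT.lf (nat_lit 0) (nat_lit 5199546227) (nat_lit 228) (nat_lit 1054164950) (nat_lit 0) (nat_lit 4471742290) (nat_lit 35) (nat_lit 5) (nat_lit 38) (nat_lit 4) (nat_lit 35) (nat_lit 4) (nat_lit 295) (nat_lit 243) (nat_lit 242)) (XT.nd (nat_lit 78) (nat_lit 228) (nat_lit 0) (XT.lf (nat_lit 0) (nat_lit 6412810480) (nat_lit 152) (nat_lit 3013907174) (nat_lit 152) (nat_lit 1592956631) (nat_lit 33) (nat_lit 4) (nat_lit 35) (nat_lit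 5) (nat_lit 35) (nat_lit 4) (nat_lit 296) (nat_lit 243) (nat_lit 241)) (XT.lf (nat_lit 0) (nat_lit 2373550440) (nat_lit 228) (nat_lit 8565772514) (nat_lit 0) (nat_lit 391559805) (nat_lit 30) (nat_lit 5) (nat_lit 33) (nat_lit 4) (nat_lit 30) (nat_lit 4) (nat_lit 297) (nat_lit 243) (nat_lit 240)))))) (XT.nd (nat_lit 390) (nat_lit 456) (nat_lit 0) (XT.nd (nat_lit 156) (nat_lit 304) (nat_lit 0) (XT.nd (nat_lit 78) (nat_lit 152) (nat_lit 0) (XT.lf (nat_lit 0) (nat_lit 6465980128) (nat_lit 228) (nat_lit 1306239865) (nat_lit 0) (nat_lit 3885223393) (nat_lit 30) (nat_lit 5) (nat_lit 33) (nat_lit 4) (nat_lit 30) (nat_lit 4) (nat_lit 298) (nat_lit 243) (nat_lit 239)) (XT.lf (nat_lit 0) (nat_lit 6287695192) (nat_lit 152) (nat_lit 4432956328) (nat_lit 152) (nat_lit 1281946164) (nat_lit 28) (nat_lit 4) (nat_lit 30) (nat_lit 5) (nat_lit 30) (nat_lit 4) (nat_lit 299) (nat_lit 243) (nat_lit 238))) (XT.nd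 (nat_lit 78) (nat_lit 152) (nat_lit 0) (XT.lf (nat_lit 0) (nat_lit 1722601247) (nat_lit 76) (nat_lit 919696271) (nat_lit 152) (nat_lit 9725161119) (nat_lit 26) (nat_lit 5) (nat_lit 27) (nat_lit 5) (nat_lit 28) (nat_lit 4) (nat_lit 300) (nat_lit 243) (nat_lit 237)) (XT.nd (nat_lit 78) (nat_lit 152) (nat_lit 0) (XT.lf (nat_lit 0) (nat_lit 6723201892) (nat_lit 152) (nat_lit 3313863327) (nat_lit 0) (nat_lit 2712396811) (nat_lit 26) (nat_lit 5) (nat_lit 28) (nat_lit 4) (nat_lit 26) (nat_lit 4) (nat_lit 301) (nat_lit 243) (nat_lit 236)) (XT.lf (nat_lit 0) (nat_lit 4284111223) (nat_lit 152) (nat_lit 6674502937) (nat_lit 152) (nat_lit 2194548949) (nat_lit 24) (nat_lit 4) (nat_lit 26) (nat_lit 5) (nat_lit 26) (nat_lit 4) (nat_lit 302) (nat_lit 243) (nat_lit 235))))) (XT.nd (nat_lit 156) (nat_lit 304) (nat_lit 0) (XT.nd (nat_lit 78) (nat_lit 76) (nat_lit 0) (XT.lf (nat_lit 0) (nat_lit 1696394737)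 (nat_lit 228) (nat_lit 1449153259) (nat_lit 76) (nat_lit 10433874171) (nat_lit 23) (nat_lit 5) (nat_lit 26) (nat_lit 5) (nat_lit 24) (nat_lit 4) (nat_lit 303) (nat_lit 243) (nat_lit 234)) (XT.lf (nat_lit 0) (nat_lit 5691370624) (nat_lit 152) (nat_lit 7740819727) (nat_lit 0) (nat_lit 593947425) (nat_lit 22) (nat_lit 5) (nat_lit 24) (nat_lit 4) (nat_lit 22) (nat_lit 4) (nat_lit 304) (nat_lit 243) (nat_lit 233))) (XT.nd (nat_lit 78) (nat_lit 304) (nat_lit 0) (XT.lf (nat_lit 0) (nat_lit 9839303628) (nat_lit 152) (nat_lit 302413920) (nat_lit 0) (nat_lit 4355910463) (nat_lit 22) (nat_lit 5) (nat_lit 24) (nat_lit 4) (nat_lit 22) (nat_lit 4) (nat_lit 305) (nat_lit 243) (nat_lit 232)) (XT.nd (nat_lit 78) (nat_lit 152) (nat_lit 0) (XT.lf (nat_lit 0) (nat_lit 7546290680) (nat_lit 152) (nat_lit 6648730414) (nat_lit 152) (nat_lit 797746804) (nat_lit 20) (nat_lit 4) (nat_lit 22) (nat_lit 5) (nat_lit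 22) (nat_lit 4) (nat_lit 306) (nat_lit 243) (nat_lit 231)) (XT.lf (nat_lit 0) (nat_lit 31796223) (nat_lit 76) (nat_lit 3008626201) (nat_lit 152) (nat_lit 12475347915) (nat_lit 18) (nat_lit 5) (nat_lit 19) (nat_lit 5) (nat_lit 20) (nat_lit 4) (nat_lit 307) (nat_lit 243) (nat_lit 230))))))) (XT.nd (nat_lit 780) (nat_lit 228) (nat_lit 0) (XT.nd (nat_lit 390) (nat_lit 228) (nat_lit 0) (XT.nd (nat_lit 156) (nat_lit 304) (nat_lit 0) (XT.nd (nat_lit 78) (nat_lit 0) (nat_lit 0) (XT.lf (nat_lit 0) (nat_lit 7068730927) (nat_lit 152) (nat_lit 8148955958) (nat_lit 0) (nat_lit 845411769) (nat_lit 18) (nat_lit 5) (nat_lit 20) (nat_lit 4) (nat_lit 18) (nat_lit 4) (nat_lit 308) (nat_lit 243) (nat_lit 229)) (XT.lf (nat_lit 0) (nat_lit 11237455183) (nat_lit 152) (nat_lit 691747501) (nat_lit 0) (nat_lit 4711718457) (nat_lit 18) (nat_lit 5) (nat_lit 20) (nat_lit 4) (nat_lit 18) (nat_lit 4) (nat_lit 309)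 (nat_lit 243) (nat_lit 228))) (XT.nd (nat_lit 78) (nat_lit 152) (nat_lit 0) (XT.lf (nat_lit 0) (nat_lit 7182256665) (nat_lit 152) (nat_lit 8439426129) (nat_lit 152) (nat_lit 1625672671) (nat_lit 16) (nat_lit 4) (nat_lit 18) (nat_lit 5) (nat_lit 18) (nat_lit 4) (nat_lit 310) (nat_lit 243) (nat_lit 227)) (XT.nd (nat_lit 78) (nat_lit 76) (nat_lit 0) (XT.lf (nat_lit 0) (nat_lit 2173313924) (nat_lit 228) (nat_lit 2632761561) (nat_lit 76) (nat_lit 13080914185) (nat_lit 15) (nat_lit 5) (nat_lit 18) (nat_lit 5) (nat_lit 16) (nat_lit 4) (nat_lit 311) (nat_lit 243) (nat_lit 226)) (XT.lf (nat_lit 0) (nat_lit 5131180581) (nat_lit 76) (nat_lit 956856177) (nat_lit 152) (nat_lit 12470279286) (nat_lit 14) (nat_lit 5) (nat_lit 15) (nat_lit 5) (nat_lit 16) (nat_lit 4) (nat_lit 312) (nat_lit 243) (nat_lit 225))))) (XT.nd (nat_lit 156) (nat_lit 152) (nat_lit 0) (XT.nd (nat_lit 78) (nat_lit 76) (nat_lit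 0) (XT.lf (nat_lit 0) (nat_lit 10193100793) (nat_lit 152) (nat_lit 6113618266) (nat_lit 0) (nat_lit 2956820359) (nat_lit 14) (nat_lit 5) (nat_lit 16) (nat_lit 4) (nat_lit 14) (nat_lit 4) (nat_lit 313) (nat_lit 243) (nat_lit 224)) (XT.lf (nat_lit 0) (nat_lit 1425544896) (nat_lit 76) (nat_lit 13021648701) (nat_lit 76) (nat_lit 5559699621) (nat_lit 13) (nat_lit 4) (nat_lit 14) (nat_lit 5) (nat_lit 14) (nat_lit 4) (nat_lit 314) (nat_lit 243) (nat_lit 223))) (XT.nd (nat_lit 78) (nat_lit 152) (nat_lit 0) (XT.lf (nat_lit 0) (nat_lit 9386688626) (nat_lit 76) (nat_lit 9538545401) (nat_lit 76) (nat_lit 1861673802) (nat_lit 13) (nat_lit 4) (nat_lit 14) (nat_lit 5) (nat_lit 14) (nat_lit 4) (nat_lit 315) (nat_lit 243) (nat_lit 222)) (XT.nd (nat_lit 78) (nat_lit 76) (nat_lit 0) (XT.lf (nat_lit 0) (nat_lit 1867169513) (nat_lit 152) (nat_lit 4053862209) (nat_lit 76) (nat_lit 15687833265) (nat_lit 12)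 (nat_lit 5) (nat_lit 14) (nat_lit 5) (nat_lit 13) (nat_lit 4) (nat_lit 316) (nat_lit 243) (nat_lit 221)) (XT.lf (nat_lit 0) (nat_lit 3589640348) (nat_lit 76) (nat_lit 2101160198) (nat_lit 152) (nat_lit 16781095739) (nat_lit 11) (nat_lit 5) (nat_lit 12) (nat_lit 5) (nat_lit 13) (nat_lit 4) (nat_lit 317) (nat_lit 243) (nat_lit 220)))))) (XT.nd (nat_lit 390) (nat_lit 76) (nat_lit 0) (XT.nd (nat_lit 156) (nat_lit 152) (nat_lit 0) (XT.nd (nat_lit 78) (nat_lit 0) (nat_lit 0) (XT.lf (nat_lit 0) (nat_lit 9720683304) (nat_lit 152) (nat_lit 11804727292) (nat_lit 0) (nat_lit 1851960516) (nat_lit 11) (nat_lit 5) (nat_lit 13) (nat_lit 4) (nat_lit 11) (nat_lit 4) (nat_lit 318) (nat_lit 243) (nat_lit 219)) (XT.lf (nat_lit 0) (nat_lit 13906005191) (nat_lit 152) (nat_lit 4555575560) (nat_lit 0) (nat_lit 5868884986) (nat_lit 11) (nat_lit 5) (nat_lit 13) (nat_lit 4) (nat_lit 11) (nat_lit 4) (nat_lit 319)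 (nat_lit 243) (nat_lit 218))) (XT.nd (nat_lit 78) (nat_lit 76) (nat_lit 0) (XT.lf (nat_lit 0) (nat_lit 3011655939) (nat_lit 76) (nat_lit 15259290712) (nat_lit 76) (nat_lit 7061792013) (nat_lit 10) (nat_lit 4) (nat_lit 11) (nat_lit 5) (nat_lit 11) (nat_lit 4) (nat_lit 320) (nat_lit 243) (nat_lit 217)) (XT.nd (nat_lit 78) (nat_lit 76) (nat_lit 0) (XT.lf (nat_lit 0) (nat_lit 10976909172) (nat_lit 76) (nat_lit 11879198422) (nat_lit 76) (nat_lit 3528958301) (nat_lit 10) (nat_lit 4) (nat_lit 11) (nat_lit 5) (nat_lit 11) (nat_lit 4) (nat_lit 321) (nat_lit 243) (nat_lit 216)) (XT.lf (nat_lit 0) (nat_lit 101930923) (nat_lit 152) (nat_lit 8286749749) (nat_lit 76) (nat_lit 19104863953) (nat_lit 9) (nat_lit 5) (nat_lit 11) (nat_lit 5) (nat_lit 10) (nat_lit 4) (nat_lit 322) (nat_lit 243) (nat_lit 215))))) (XT.nd (nat_lit 156) (nat_lit 0) (nat_lit 0) (XT.nd (nat_lit 78) (nat_lit 76) (nat_lit 0) (XT.lf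 (nat_lit 0) (nat_lit 3726427044) (nat_lit 152) (nat_lit 995073674) (nat_lit 76) (nat_lit 23936554986) (nat_lit 9) (nat_lit 5) (nat_lit 11) (nat_lit 5) (nat_lit 10) (nat_lit 4) (nat_lit 323) (nat_lit 243) (nat_lit 214)) (XT.lf (nat_lit 0) (nat_lit 6755549329) (nat_lit 76) (nat_lit 816032244) (nat_lit 152) (nat_lit 22307271399) (nat_lit 8) (nat_lit 5) (nat_lit 9) (nat_lit 5) (nat_lit 10) (nat_lit 4) (nat_lit 324) (nat_lit 243) (nat_lit 213))) (XT.nd (nat_lit 78) (nat_lit 0) (nat_lit 0) (XT.lf (nat_lit 0) (nat_lit 11611778466) (nat_lit 152) (nat_lit 16405456761) (nat_lit 0) (nat_lit 3143346424) (nat_lit 8) (nat_lit 5) (nat_lit 10) (nat_lit 4) (nat_lit 8) (nat_lit 4) (nat_lit 325) (nat_lit 243) (nat_lit 212)) (XT.nd (nat_lit 78) (nat_lit 0) (nat_lit 0) (XT.lf (nat_lit 0) (nat_lit 15804860679) (nat_lit 152) (nat_lit 9481570985) (nat_lit 0) (nat_lit 7222450636) (nat_lit 8) (nat_lit 5) (nat_lit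 10) (nat_lit 4) (nat_lit 8) (nat_lit 4) (nat_lit 326) (nat_lit 243) (nat_lit 211)) (XT.lf (nat_lit 0) (nat_lit 20148071192) (nat_lit 152) (nat_lit 2322420323) (nat_lit 0) (nat_lit 11457110672) (nat_lit 8) (nat_lit 5) (nat_lit 10) (nat_lit 4) (nat_lit 8) (nat_lit 4) (nat_lit 327) (nat_lit 243) (nat_lit 210))))))))
noncomputable def xc59 : XT := (XT.nd (nat_lit 1560) (nat_lit 152) (nat_lit 0) (XT.nd (nat_lit 780) (nat_lit 76) (nat_lit 0) (XT.nd (nat_lit 390) (nat_lit 76) (nat_lit 0) (XT.nd (nat_lit 156) (nat_lit 76) (nat_lit 0) (XT.nd (nat_lit 78) (nat_lit 0) (nat_lit 0) (XT.lf (nat_lit 0) (nat_lit 5257307493) (nat_lit 76) (nat_lit 19476524793) (nat_lit 76) (nat_lit 10682182867) (nat_lit 7) (nat_lit 4) (nat_lit 8) (nat_lit 5) (nat_lit 8) (nat_lit 4) (nat_lit 328) (nat_lit 243) (nat_lit 209)) (XT.lf (nat_lit 0) (nat_lit 13192707824) (nat_lit 76) (nat_lit 16339890416) (nat_lit 76) (nat_lit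 7447090007) (nat_lit 7) (nat_lit 4) (nat_lit 8) (nat_lit 5) (nat_lit 8) (nat_lit 4) (nat_lit 329) (nat_lit 243) (nat_lit 208))) (XT.nd (nat_lit 78) (nat_lit 76) (nat_lit 0) (XT.lf (nat_lit 0) (nat_lit 21425884776) (nat_lit 76) (nat_lit 13092451519) (nat_lit 76) (nat_lit 4105881126) (nat_lit 7) (nat_lit 4) (nat_lit 8) (nat_lit 5) (nat_lit 8) (nat_lit 4) (nat_lit 330) (nat_lit 243) (nat_lit 207)) (XT.nd (nat_lit 78) (nat_lit 76) (nat_lit 0) (XT.lf (nat_lit 0) (nat_lit 29976441151) (nat_lit 76) (nat_lit 9726476104) (nat_lit 76) (nat_lit 650600965) (nat_lit 7) (nat_lit 4) (nat_lit 8) (nat_lit 5) (nat_lit 8) (nat_lit 4) (nat_lit 331) (nat_lit 243) (nat_lit 206)) (XT.lf (nat_lit 0) (nat_lit 2833295778) (nat_lit 152) (nat_lit 3352670930) (nat_lit 76) (nat_lit 35983456402) (nat_lit 6) (nat_lit 5) (nat_lit 8) (nat_lit 5) (nat_lit 7) (nat_lit 4) (nat_lit 332) (nat_lit 243) (nat_lit 205))))) (XT.nd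 (nat_lit 156) (nat_lit 0) (nat_lit 0) (XT.nd (nat_lit 78) (nat_lit 0) (nat_lit 0) (XT.lf (nat_lit 0) (nat_lit 4055002981) (nat_lit 76) (nat_lit 2431305456) (nat_lit 152) (nat_lit 37588462093) (nat_lit 5) (nat_lit 5) (nat_lit 6) (nat_lit 5) (nat_lit 7) (nat_lit 4) (nat_lit 333) (nat_lit 243) (nat_lit 204)) (XT.lf (nat_lit 0) (nat_lit 10357002628) (nat_lit 152) (nat_lit 34234956091) (nat_lit 0) (nat_lit 1481693949) (nat_lit 5) (nat_lit 5) (nat_lit 7) (nat_lit 4) (nat_lit 5) (nat_lit 4) (nat_lit 334) (nat_lit 243) (nat_lit 203))) (XT.nd (nat_lit 78) (nat_lit 0) (nat_lit 0) (XT.lf (nat_lit 0) (nat_lit 14417021050) (nat_lit 152) (nat_lit 28283946615) (nat_lit 0) (nat_lit 5471739766) (nat_lit 5) (nat_lit 5) (nat_lit 7) (nat_lit 4) (nat_lit 5) (nat_lit 4) (nat_lit 335) (nat_lit 243) (nat_lit 202)) (XT.nd (nat_lit 78) (nat_lit 0) (nat_lit 0) (XT.lf (nat_lit 0) (nat_lit 18638070923) (nat_lit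 152) (nat_lit 22114610559) (nat_lit 0) (nat_lit 9626149062) (nat_lit 5) (nat_lit 5) (nat_lit 7) (nat_lit 4) (nat_lit 5) (nat_lit 4) (nat_lit 336) (nat_lit 243) (nat_lit 201)) (XT.lf (nat_lit 0) (nat_lit 23030202365) (nat_lit 152) (nat_lit 15712259029) (nat_lit 0) (nat_lit 13954813289) (nat_lit 5) (nat_lit 5) (nat_lit 7) (nat_lit 4) (nat_lit 5) (nat_lit 4) (nat_lit 337) (nat_lit 243) (nat_lit 200)))))) (XT.nd (nat_lit 390) (nat_lit 0) (nat_lit 0) (XT.nd (nat_lit 156) (nat_lit 76) (nat_lit 0) (XT.nd (nat_lit 78) (nat_lit 0) (nat_lit 0) (XT.lf (nat_lit 0) (nat_lit 27603872832) (nat_lit 152) (nat_lit 9061648329) (nat_lit 0) (nat_lit 18468038788) (nat_lit 5) (nat_lit 5) (nat_lit 7) (nat_lit 4) (nat_lit 5) (nat_lit 4) (nat_lit 338) (nat_lit 243) (nat_lit 199)) (XT.lf (nat_lit 0) (nat_lit 32369972015) (nat_lit 152) (nat_lit 2146943672) (nat_lit 0) (nat_lit 23176571336) (nat_lit 5) (nat_lit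 5) (nat_lit 7) (nat_lit 4) (nat_lit 5) (nat_lit 4) (nat_lit 339) (nat_lit 243) (nat_lit 198))) (XT.nd (nat_lit 78) (nat_lit 0) (nat_lit 0) (XT.lf (nat_lit 0) (nat_lit 5215238732) (nat_lit 76) (nat_lit 32206033529) (nat_lit 76) (nat_lit 22957807483) (nat_lit 4) (nat_lit 4) (nat_lit 5) (nat_lit 5) (nat_lit 5) (nat_lit 4) (nat_lit 340) (nat_lit 243) (nat_lit 197)) (XT.nd (nat_lit 78) (nat_lit 0) (nat_lit 0) (XT.lf (nat_lit 0) (nat_lit 12955940854) (nat_lit 76) (nat_lit 29771670825) (nat_lit 76) (nat_lit 20471230143) (nat_lit 4) (nat_lit 4) (nat_lit 5) (nat_lit 5) (nat_lit 5) (nat_lit 4) (nat_lit 341) (nat_lit 243) (nat_lit 196)) (XT.lf (nat_lit 0) (nat_lit 21022605280) (nat_lit 76) (nat_lit 27244391004) (nat_lit 76) (nat_lit 17894222098) (nat_lit 4) (nat_lit 4) (nat_lit 5) (nat_lit 5) (nat_lit 5) (nat_lit 4) (nat_lit 342) (nat_lit 243) (nat_lit 195))))) (XT.nd (nat_lit 156) (nat_lit 0)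 (nat_lit 0) (XT.nd (nat_lit 78) (nat_lit 0) (nat_lit 0) (XT.lf (nat_lit 0) (nat_lit 29434438357) (nat_lit 76) (nat_lit 24618176732) (nat_lit 76) (nat_lit 15220647612) (nat_lit 4) (nat_lit 4) (nat_lit 5) (nat_lit 5) (nat_lit 5) (nat_lit 4) (nat_lit 343) (nat_lit 243) (nat_lit 194)) (XT.lf (nat_lit 0) (nat_lit 38211468257) (nat_lit 76) (nat_lit 21886775118) (nat_lit 76) (nat_lit 12444141033) (nat_lit 4) (nat_lit 4) (nat_lit 5) (nat_lit 5) (nat_lit 5) (nat_lit 4) (nat_lit 344) (nat_lit 243) (nat_lit 193))) (XT.nd (nat_lit 78) (nat_lit 0) (nat_lit 0) (XT.lf (nat_lit 0) (nat_lit 47374592670) (nat_lit 76) (nat_lit 19043682826) (nat_lit 76) (nat_lit 9558091631) (nat_lit 4) (nat_lit 4) (nat_lit 5) (nat_lit 5) (nat_lit 5) (nat_lit 4) (nat_lit 345) (nat_lit 243) (nat_lit 192)) (XT.nd (nat_lit 78) (nat_lit 0) (nat_lit 0) (XT.lf (nat_lit 0) (nat_lit 56945628560) (nat_lit 76) (nat_lit 16082130587)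 (nat_lit 76) (nat_lit 6555627859) (nat_lit 4) (nat_lit 4) (nat_lit 5) (nat_lit 5) (nat_lit 5) (nat_lit 4) (nat_lit 346) (nat_lit 243) (nat_lit 191)) (XT.lf (nat_lit 0) (nat_lit 66947364108) (nat_lit 76) (nat_lit 12995067087) (nat_lit 76) (nat_lit 3429600994) (nat_lit 4) (nat_lit 4) (nat_lit 5) (nat_lit 5) (nat_lit 5) (nat_lit 4) (nat_lit 347) (nat_lit 243) (nat_lit 190))))))) (XT.nd (nat_lit 780) (nat_lit 0) (nat_lit 0) (XT.nd (nat_lit 390) (nat_lit 0) (nat_lit 0) (XT.nd (nat_lit 156) (nat_lit 76) (nat_lit 0) (XT.nd (nat_lit 78) (nat_lit 76) (nat_lit 0) (XT.lf (nat_lit 0) (nat_lit 77403612968) (nat_lit 76) (nat_lit 9775142175) (nat_lit 76) (nat_lit 172568116) (nat_lit 4) (nat_lit 4) (nat_lit 5) (nat_lit 5) (nat_lit 5) (nat_lit 4) (nat_lit 348) (nat_lit 243) (nat_lit 189)) (XT.lf (nat_lit 0) (nat_lit 3120062267) (nat_lit 152) (nat_lit 3241787332) (nat_lit 76) (nat_lit 85166368941) (nat_lit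 3) (nat_lit 5) (nat_lit 5) (nat_lit 5) (nat_lit 4) (nat_lit 4) (nat_lit 349) (nat_lit 243) (nat_lit 188))) (XT.nd (nat_lit 78) (nat_lit 0) (nat_lit 0) (XT.lf (nat_lit 0) (nat_lit 3878665242) (nat_lit 76) (nat_lit 2731207070) (nat_lit 152) (nat_lit 89302035689) (nat_lit 2) (nat_lit 5) (nat_lit 3) (nat_lit 5) (nat_lit 4) (nat_lit 4) (nat_lit 350) (nat_lit 243) (nat_lit 187)) (XT.nd (nat_lit 78) (nat_lit 0) (nat_lit 0) (XT.lf (nat_lit 0) (nat_lit 10324746943) (nat_lit 152) (nat_lit 89104317916) (nat_lit 0) (nat_lit 1083196223) (nat_lit 2) (nat_lit 5) (nat_lit 4) (nat_lit 4) (nat_lit 2) (nat_lit 4) (nat_lit 351) (nat_lit 243) (nat_lit 186)) (XT.lf (nat_lit 0) (nat_lit 14249087659) (nat_lit 152) (nat_lit 86113903641) (nat_lit 0) (nat_lit 4978461876) (nat_lit 2) (nat_lit 5) (nat_lit 4) (nat_lit 4) (nat_lit 2) (nat_lit 4) (nat_lit 352) (nat_lit 243) (nat_lit 185))))) (XT.nd (nat_lit 156) (nat_lit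 0) (nat_lit 0) (XT.nd (nat_lit 78) (nat_lit 0) (nat_lit 0) (XT.lf (nat_lit 0) (nat_lit 18349596333) (nat_lit 152) (nat_lit 83012238104) (nat_lit 0) (nat_lit 9051280014) (nat_lit 2) (nat_lit 5) (nat_lit 4) (nat_lit 4) (nat_lit 2) (nat_lit 4) (nat_lit 353) (nat_lit 243) (nat_lit 184)) (XT.lf (nat_lit 0) (nat_lit 22636036080) (nat_lit 152) (nat_lit 79791936387) (nat_lit 0) (nat_lit 13311347821) (nat_lit 2) (nat_lit 5) (nat_lit 4) (nat_lit 4) (nat_lit 2) (nat_lit 4) (nat_lit 354) (nat_lit 243) (nat_lit 183))) (XT.nd (nat_lit 78) (nat_lit 0) (nat_lit 0) (XT.lf (nat_lit 0) (nat_lit 27118612709) (nat_lit 152) (nat_lit 76445331105) (nat_lit 0) (nat_lit 17768808318) (nat_lit 2) (nat_lit 5) (nat_lit 4) (nat_lit 4) (nat_lit 2) (nat_lit 4) (nat_lit 355) (nat_lit 243) (nat_lit 182)) (XT.nd (nat_lit 78) (nat_lit 0) (nat_lit 0) (XT.lf (nat_lit 0) (nat_lit 31807999022) (nat_lit 152) (nat_lit 72964454150)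 (nat_lit 0) (nat_lit 22434274505) (nat_lit 2) (nat_lit 5) (nat_lit 4) (nat_lit 4) (nat_lit 2) (nat_lit 4) (nat_lit 356) (nat_lit 243) (nat_lit 181)) (XT.lf (nat_lit 0) (nat_lit 36715360225) (nat_lit 152) (nat_lit 69341017721) (nat_lit 0) (nat_lit 27318854635) (nat_lit 2) (nat_lit 5) (nat_lit 4) (nat_lit 4) (nat_lit 2) (nat_lit 4) (nat_lit 357) (nat_lit 243) (nat_lit 180)))))) (XT.nd (nat_lit 390) (nat_lit 0) (nat_lit 0) (XT.nd (nat_lit 156) (nat_lit 0) (nat_lit 0) (XT.nd (nat_lit 78) (nat_lit 0) (nat_lit 0) (XT.lf (nat_lit 0) (nat_lit 41852380510) (nat_lit 152) (nat_lit 65566394586) (nat_lit 0) (nat_lit 32434178661) (nat_lit 2) (nat_lit 5) (nat_lit 4) (nat_lit 4) (nat_lit 2) (nat_lit 4) (nat_lit 358) (nat_lit 243) (nat_lit 179)) (XT.lf (nat_lit 0) (nat_lit 47231290878) (nat_lit 152) (nat_lit 61631597549) (nat_lit 0) (nat_lit 37792425925) (nat_lit 2) (nat_lit 5) (nat_lit 4) (nat_lit 4)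 (nat_lit 2) (nat_lit 4) (nat_lit 359) (nat_lit 243) (nat_lit 178))) (XT.nd (nat_lit 78) (nat_lit 0) (nat_lit 0) (XT.lf (nat_lit 0) (nat_lit 52864898259) (nat_lit 152) (nat_lit 57527258044) (nat_lit 0) (nat_lit 43406354159) (nat_lit 2) (nat_lit 5) (nat_lit 4) (nat_lit 4) (nat_lit 2) (nat_lit 4) (nat_lit 360) (nat_lit 243) (nat_lit 177)) (XT.nd (nat_lit 78) (nat_lit 0) (nat_lit 0) (XT.lf (nat_lit 0) (nat_lit 58766616004) (nat_lit 152) (nat_lit 53243603836) (nat_lit 0) (nat_lit 49289329859) (nat_lit 2) (nat_lit 5) (nat_lit 4) (nat_lit 4) (nat_lit 2) (nat_lit 4) (nat_lit 361) (nat_lit 243) (nat_lit 176)) (XT.lf (nat_lit 0) (nat_lit 64950495822) (nat_lit 152) (nat_lit 48770435748) (nat_lit 0) (nat_lit 55455360110) (nat_lit 2) (nat_lit 5) (nat_lit 4) (nat_lit 4) (nat_lit 2) (nat_lit 4) (nat_lit 362) (nat_lit 243) (nat_lit 175))))) (XT.nd (nat_lit 234) (nat_lit 0) (nat_lit 0) (XT.nd (nat_lit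 78) (nat_lit 0) (nat_lit 0) (XT.lf (nat_lit 0) (nat_lit 71431261235) (nat_lit 152) (nat_lit 44097103378) (nat_lit 0) (nat_lit 61919125937) (nat_lit 2) (nat_lit 5) (nat_lit 4) (nat_lit 4) (nat_lit 2) (nat_lit 4) (nat_lit 363) (nat_lit 243) (nat_lit 174)) (XT.nd (nat_lit 78) (nat_lit 0) (nat_lit 0) (XT.lf (nat_lit 0) (nat_lit 78224342638) (nat_lit 152) (nat_lit 39212479746) (nat_lit 0) (nat_lit 68696017257) (nat_lit 2) (nat_lit 5) (nat_lit 4) (nat_lit 4) (nat_lit 2) (nat_lit 4) (nat_lit 364) (nat_lit 243) (nat_lit 173)) (XT.lf (nat_lit 0) (nat_lit 85345914035) (nat_lit 152) (nat_lit 34104934794) (nat_lit 0) (nat_lit 75802169527) (nat_lit 2) (nat_lit 5) (nat_lit 4) (nat_lit 4) (nat_lit 2) (nat_lit 4) (nat_lit 365) (nat_lit 243) (nat_lit 172)))) (XT.nd (nat_lit 78) (nat_lit 0) (nat_lit 0) (XT.lf (nat_lit 0) (nat_lit 92812931547) (nat_lit 152) (nat_lit 28762307703) (nat_lit 0) (nat_lit 83254502156)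 (nat_lit 2) (nat_lit 5) (nat_lit 4) (nat_lit 4) (nat_lit 2) (nat_lit 4) (nat_lit 366) (nat_lit 243) (nat_lit 171)) (XT.nd (nat_lit 78) (nat_lit 0) (nat_lit 0) (XT.lf (nat_lit 0) (nat_lit 100643173787) (nat_lit 152) (nat_lit 23171877931) (nat_lit 0) (nat_lit 91070758795) (nat_lit 2) (nat_lit 5) (nat_lit 4) (nat_lit 4) (nat_lit 2) (nat_lit 4) (nat_lit 367) (nat_lit 243) (nat_lit 170)) (XT.lf (nat_lit 0) (nat_lit 108855284191) (nat_lit 152) (nat_lit 17320334930) (nat_lit 0) (nat_lit 99269549577) (nat_lit 2) (nat_lit 5) (nat_lit 4) (nat_lit 4) (nat_lit 2) (nat_lit 4) (nat_lit 368) (nat_lit 243) (nat_lit 169))))))))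
noncomputable def xc60 : XT := (XT.nd (nat_lit 1560) (nat_lit 0) (nat_lit 0) (XT.nd (nat_lit 780) (nat_lit 0) (nat_lit 0) (XT.nd (nat_lit 390) (nat_lit 0) (nat_lit 0) (XT.nd (nat_lit 156) (nat_lit 76) (nat_lit 0) (XT.nd (nat_lit 78) (nat_lit 0) (nat_lit 0) (XT.lf (nat_lit 0) (nat_lit 117468815400) (nat_lit 152) (nat_lit 11193746457) (nat_lit 0) (nat_lit 107870395433) (nat_lit 2) (nat_lit 5) (nat_lit 4) (nat_lit 4) (nat_lit 2) (nat_lit 4) (nat_lit 369) (nat_lit 243) (nat_lit 168)) (XT.lf (nat_lit 0) (nat_lit 126504275824) (nat_lit 152) (nat_lit 4777525394) (nat_lit 0) (nat_lit 116893774567) (nat_lit 2) (nat_lit 5) (nat_lit 4) (nat_lit 4) (nat_lit 2) (nat_lit 4) (nat_lit 370) (nat_lit 243) (nat_lit 167))) (XT.nd (nat_lit 78) (nat_lit 0) (nat_lit 0) (XT.lf (nat_lit 0) (nat_lit 2007869330) (nat_lit 76) (nat_lit 134006657599) (nat_lit 76) (nat_lit 124384650353) (nat_lit 1) (nat_lit 4) (nat_lit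 2) (nat_lit 5) (nat_lit 2) (nat_lit 4) (nat_lit 371) (nat_lit 243) (nat_lit 166)) (XT.nd (nat_lit 78) (nat_lit 0) (nat_lit 0) (XT.lf (nat_lit 0) (nat_lit 9282753418) (nat_lit 76) (nat_lit 136790268509) (nat_lit 76) (nat_lit 127157303177) (nat_lit 1) (nat_lit 4) (nat_lit 2) (nat_lit 5) (nat_lit 2) (nat_lit 4) (nat_lit 372) (nat_lit 243) (nat_lit 165)) (XT.lf (nat_lit 0) (nat_lit 16906481456) (nat_lit 76) (nat_lit 139720171298) (nat_lit 76) (nat_lit 130076769694) (nat_lit 1) (nat_lit 4) (nat_lit 2) (nat_lit 5) (nat_lit 2) (nat_lit 4) (nat_lit 373) (nat_lit 243) (nat_lit 164))))) (XT.nd (nat_lit 156) (nat_lit 0) (nat_lit 0) (XT.nd (nat_lit 78) (nat_lit 0) (nat_lit 0) (XT.lf (nat_lit 0) (nat_lit 24897205176) (nat_lit 76) (nat_lit 142803341925) (nat_lit 76) (nat_lit 133150001015) (nat_lit 1) (nat_lit 4) (nat_lit 2) (nat_lit 5) (nat_lit 2) (nat_lit 4) (nat_lit 374) (nat_lit 243) (nat_lit 163))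 (XT.lf (nat_lit 0) (nat_lit 33273950111) (nat_lit 76) (nat_lit 146047121273) (nat_lit 76) (nat_lit 136384314357) (nat_lit 1) (nat_lit 4) (nat_lit 2) (nat_lit 5) (nat_lit 2) (nat_lit 4) (nat_lit 375) (nat_lit 243) (nat_lit 162))) (XT.nd (nat_lit 78) (nat_lit 0) (nat_lit 0) (XT.lf (nat_lit 0) (nat_lit 42056660893) (nat_lit 76) (nat_lit 149459232625) (nat_lit 76) (nat_lit 139787410465) (nat_lit 1) (nat_lit 4) (nat_lit 2) (nat_lit 5) (nat_lit 2) (nat_lit 4) (nat_lit 376) (nat_lit 243) (nat_lit 161)) (XT.nd (nat_lit 78) (nat_lit 0) (nat_lit 0) (XT.lf (nat_lit 0) (nat_lit 51266248737) (nat_lit 76) (nat_lit 153047800057) (nat_lit 76) (nat_lit 143367391951) (nat_lit 1) (nat_lit 4) (nat_lit 2) (nat_lit 5) (nat_lit 2) (nat_lit 4) (nat_lit 377) (nat_lit 243) (nat_lit 160)) (XT.lf (nat_lit 0) (nat_lit 60924641233) (nat_lit 76) (nat_lit 156821367777) (nat_lit 76) (nat_lit 147132782578) (nat_lit 1)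 (nat_lit 4) (nat_lit 2) (nat_lit 5) (nat_lit 2) (nat_lit 4) (nat_lit 378) (nat_lit 243) (nat_lit 159)))))) (XT.nd (nat_lit 390) (nat_lit 0) (nat_lit 0) (XT.nd (nat_lit 156) (nat_lit 0) (nat_lit 0) (XT.nd (nat_lit 78) (nat_lit 0) (nat_lit 0) (XT.lf (nat_lit 0) (nat_lit 71054834554) (nat_lit 76) (nat_lit 160788920469) (nat_lit 76) (nat_lit 151092547563) (nat_lit 1) (nat_lit 4) (nat_lit 2) (nat_lit 5) (nat_lit 2) (nat_lit 4) (nat_lit 379) (nat_lit 243) (nat_lit 158)) (XT.lf (nat_lit 0) (nat_lit 81680948209) (nat_lit 76) (nat_lit 164959904687) (nat_lit 76) (nat_lit 155256114918) (nat_lit 1) (nat_lit 4) (nat_lit 2) (nat_lit 5) (nat_lit 2) (nat_lit 4) (nat_lit 380) (nat_lit 243) (nat_lit 157))) (XT.nd (nat_lit 78) (nat_lit 0) (nat_lit 0) (XT.lf (nat_lit 0) (nat_lit 92828282467) (nat_lit 76) (nat_lit 169344251347) (nat_lit 76) (nat_lit 159633397899) (nat_lit 1) (nat_lit 4) (nat_lit 2) (nat_lit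 5) (nat_lit 2) (nat_lit 4) (nat_lit 381) (nat_lit 243) (nat_lit 156)) (XT.nd (nat_lit 78) (nat_lit 0) (nat_lit 0) (XT.lf (nat_lit 0) (nat_lit 104523378601) (nat_lit 76) (nat_lit 173952399369) (nat_lit 76) (nat_lit 164234818607) (nat_lit 1) (nat_lit 4) (nat_lit 2) (nat_lit 5) (nat_lit 2) (nat_lit 4) (nat_lit 382) (nat_lit 243) (nat_lit 155)) (XT.lf (nat_lit 0) (nat_lit 116794082077) (nat_lit 76) (nat_lit 178795320535) (nat_lit 76) (nat_lit 169071332807) (nat_lit 1) (nat_lit 4) (nat_lit 2) (nat_lit 5) (nat_lit 2) (nat_lit 4) (nat_lit 383) (nat_lit 243) (nat_lit 154))))) (XT.nd (nat_lit 156) (nat_lit 0) (nat_lit 0) (XT.nd (nat_lit 78) (nat_lit 0) (nat_lit 0) (XT.lf (nat_lit 0) (nat_lit 129669608856) (nat_lit 76) (nat_lit 183884545607) (nat_lit 76) (nat_lit 174154456007) (nat_lit 1) (nat_lit 4) (nat_lit 2) (nat_lit 5) (nat_lit 2) (nat_lit 4) (nat_lit 384) (nat_lit 243) (nat_lit 153)) (XT.lf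 (nat_lit 0) (nat_lit 143180614955) (nat_lit 76) (nat_lit 189232191790) (nat_lit 76) (nat_lit 179496290884) (nat_lit 1) (nat_lit 4) (nat_lit 2) (nat_lit 5) (nat_lit 2) (nat_lit 4) (nat_lit 385) (nat_lit 243) (nat_lit 152))) (XT.nd (nat_lit 78) (nat_lit 0) (nat_lit 0) (XT.lf (nat_lit 0) (nat_lit 157359269436) (nat_lit 76) (nat_lit 194850991575) (nat_lit 76) (nat_lit 185109556090) (nat_lit 1) (nat_lit 4) (nat_lit 2) (nat_lit 5) (nat_lit 2) (nat_lit 4) (nat_lit 386) (nat_lit 243) (nat_lit 151)) (XT.nd (nat_lit 78) (nat_lit 0) (nat_lit 0) (XT.lf (nat_lit 0) (nat_lit 172239330999) (nat_lit 76) (nat_lit 200754323055) (nat_lit 76) (nat_lit 191007616544) (nat_lit 1) (nat_lit 4) (nat_lit 2) (nat_lit 5) (nat_lit 2) (nat_lit 4) (nat_lit 387) (nat_lit 243) (nat_lit 150)) (XT.lf (nat_lit 0) (nat_lit 187856228363) (nat_lit 76) (nat_lit 206956241782) (nat_lit 76) (nat_lit 197204515246) (nat_lit 1) (nat_lit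 4) (nat_lit 2) (nat_lit 5) (nat_lit 2) (nat_lit 4) (nat_lit 388) (nat_lit 243) (nat_lit 149))))))) (XT.nd (nat_lit 33774) (nat_lit 0) (nat_lit 1140) (XT.nd (nat_lit 33384) (nat_lit 0) (nat_lit 1900) (XT.nd (nat_lit 33150) (nat_lit 0) (nat_lit 2584) (XT.nd (nat_lit 33072) (nat_lit 0) (nat_lit 3040) (XT.lf (nat_lit 0) (nat_lit 204247144616) (nat_lit 76) (nat_lit 213471514230) (nat_lit 76) (nat_lit 203715006717) (nat_lit 1) (nat_lit 4) (nat_lit 2) (nat_lit 5) (nat_lit 2) (nat_lit 4) (nat_lit 389) (nat_lit 243) (nat_lit 148)) (XT.lf (nat_lit 0) (nat_lit 2001881943) (nat_lit 228) (nat_lit 961209277) (nat_lit 0) (nat_lit 2001881943) (nat_lit 41) (nat_lit 5) (nat_lit 44) (nat_lit 4) (nat_lit 41) (nat_lit 4) (nat_lit 292) (nat_lit 244) (nat_lit 244))) (XT.nd (nat_lit 78) (nat_lit 228) (nat_lit 0) (XT.lf (nat_lit 0) (nat_lit 5218929007) (nat_lit 228) (nat_lit 2883318298) (nat_lit 228) (nat_lit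 2080914458) (nat_lit 38) (nat_lit 4) (nat_lit 41) (nat_lit 5) (nat_lit 41) (nat_lit 4) (nat_lit 293) (nat_lit 244) (nat_lit 243)) (XT.nd (nat_lit 78) (nat_lit 0) (nat_lit 0) (XT.lf (nat_lit 0) (nat_lit 1812680550) (nat_lit 228) (nat_lit 8318400313) (nat_lit 0) (nat_lit 320682481) (nat_lit 35) (nat_lit 5) (nat_lit 38) (nat_lit 4) (nat_lit 35) (nat_lit 4) (nat_lit 294) (nat_lit 244) (nat_lit 242)) (XT.lf (nat_lit 0) (nat_lit 5813159933) (nat_lit 228) (nat_lit 1291985554) (nat_lit 0) (nat_lit 3628015257) (nat_lit 35) (nat_lit 5) (nat_lit 38) (nat_lit 4) (nat_lit 35) (nat_lit 4) (nat_lit 295) (nat_lit 244) (nat_lit 241))))) (XT.nd (nat_lit 156) (nat_lit 304) (nat_lit 0) (XT.nd (nat_lit 78) (nat_lit 228) (nat_lit 0) (XT.lf (nat_lit 0) (nat_lit 6052987532) (nat_lit 152) (nat_lit 3911769920) (nat_lit 152) (nat_lit 1066485619) (nat_lit 33) (nat_lit 4) (nat_lit 35) (nat_lit 5) (nat_lit 35) (nat_lit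 4) (nat_lit 296) (nat_lit 244) (nat_lit 240)) (XT.lf (nat_lit 0) (nat_lit 2264828250) (nat_lit 152) (nat_lit 534594654) (nat_lit 228) (nat_lit 8546880180) (nat_lit 30) (nat_lit 5) (nat_lit 32) (nat_lit 5) (nat_lit 33) (nat_lit 4) (nat_lit 297) (nat_lit 244) (nat_lit 239))) (XT.nd (nat_lit 78) (nat_lit 304) (nat_lit 0) (XT.lf (nat_lit 0) (nat_lit 6814945914) (nat_lit 228) (nat_lit 1925702854) (nat_lit 0) (nat_lit 2936131814) (nat_lit 30) (nat_lit 5) (nat_lit 33) (nat_lit 4) (nat_lit 30) (nat_lit 4) (nat_lit 298) (nat_lit 244) (nat_lit 238)) (XT.nd (nat_lit 78) (nat_lit 152) (nat_lit 0) (XT.lf (nat_lit 0) (nat_lit 5537450950) (nat_lit 152) (nat_lit 5455157551) (nat_lit 152) (nat_lit 1033244949) (nat_lit 28) (nat_lit 4) (nat_lit 30) (nat_lit 5) (nat_lit 30) (nat_lit 4) (nat_lit 299) (nat_lit 244) (nat_lit 237)) (XT.lf (nat_lit 0) (nat_lit 808712648) (nat_lit 76) (nat_lit 1995122435) (nat_lit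 152) (nat_lit 9590707154) (nat_lit 26) (nat_lit 5) (nat_lit 27) (nat_lit 5) (nat_lit 28) (nat_lit 4) (nat_lit 300) (nat_lit 244) (nat_lit 236)))))) (XT.nd (nat_lit 390) (nat_lit 456) (nat_lit 0) (XT.nd (nat_lit 156) (nat_lit 152) (nat_lit 0) (XT.nd (nat_lit 78) (nat_lit 152) (nat_lit 0) (XT.lf (nat_lit 0) (nat_lit 6803802067) (nat_lit 152) (nat_lit 4346147813) (nat_lit 0) (nat_lit 1630701473) (nat_lit 26) (nat_lit 5) (nat_lit 28) (nat_lit 4) (nat_lit 26) (nat_lit 4) (nat_lit 301) (nat_lit 244) (nat_lit 235)) (XT.lf (nat_lit 0) (nat_lit 3111335638) (nat_lit 152) (nat_lit 7848476028) (nat_lit 152) (nat_lit 2228566951) (nat_lit 24) (nat_lit 4) (nat_lit 26) (nat_lit 5) (nat_lit 26) (nat_lit 4) (nat_lit 302) (nat_lit 244) (nat_lit 234))) (XT.nd (nat_lit 78) (nat_lit 76) (nat_lit 0) (XT.lf (nat_lit 0) (nat_lit 1602669416) (nat_lit 228) (nat_lit 2759968661) (nat_lit 76) (nat_lit 9255116799)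 (nat_lit 23) (nat_lit 5) (nat_lit 26) (nat_lit 5) (nat_lit 24) (nat_lit 4) (nat_lit 303) (nat_lit 244) (nat_lit 233)) (XT.nd (nat_lit 78) (nat_lit 0) (nat_lit 0) (XT.lf (nat_lit 0) (nat_lit 4839531556) (nat_lit 76) (nat_lit 667903071) (nat_lit 152) (nat_lit 8561594813) (nat_lit 22) (nat_lit 5) (nat_lit 23) (nat_lit 5) (nat_lit 24) (nat_lit 4) (nat_lit 304) (nat_lit 244) (nat_lit 232)) (XT.lf (nat_lit 0) (nat_lit 9587656409) (nat_lit 152) (nat_lit 1879761763) (nat_lit 0) (nat_lit 3076533175) (nat_lit 22) (nat_lit 5) (nat_lit 24) (nat_lit 4) (nat_lit 22) (nat_lit 4) (nat_lit 305) (nat_lit 244) (nat_lit 231))))) (XT.nd (nat_lit 156) (nat_lit 228) (nat_lit 0) (XT.nd (nat_lit 78) (nat_lit 76) (nat_lit 0) (XT.lf (nat_lit 0) (nat_lit 5819289416) (nat_lit 152) (nat_lit 8042565528) (nat_lit 152) (nat_lit 1181356156) (nat_lit 20) (nat_lit 4) (nat_lit 22) (nat_lit 5) (nat_lit 22) (nat_lit 4) (nat_lit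 306) (nat_lit 244) (nat_lit 230)) (XT.lf (nat_lit 0) (nat_lit 2614271056) (nat_lit 228) (nat_lit 1835369076) (nat_lit 76) (nat_lit 11119653699) (nat_lit 19) (nat_lit 5) (nat_lit 22) (nat_lit 5) (nat_lit 20) (nat_lit 4) (nat_lit 307) (nat_lit 244) (nat_lit 229))) (XT.nd (nat_lit 78) (nat_lit 152) (nat_lit 0) (XT.lf (nat_lit 0) (nat_lit 5907444186) (nat_lit 76) (nat_lit 638705752) (nat_lit 152) (nat_lit 9575331627) (nat_lit 18) (nat_lit 5) (nat_lit 19) (nat_lit 5) (nat_lit 20) (nat_lit 4) (nat_lit 308) (nat_lit 244) (nat_lit 228)) (XT.nd (nat_lit 78) (nat_lit 152) (nat_lit 0) (XT.lf (nat_lit 0) (nat_lit 10653649519) (nat_lit 152) (nat_lit 2837560243) (nat_lit 0) (nat_lit 3211191656) (nat_lit 18) (nat_lit 5) (nat_lit 20) (nat_lit 4) (nat_lit 18) (nat_lit 4) (nat_lit 309) (nat_lit 244) (nat_lit 227)) (XT.lf (nat_lit 0) (nat_lit 4876253313) (nat_lit 152) (nat_lit 10076808557) (nat_lit 152)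 (nat_lit 2360049044) (nat_lit 16) (nat_lit 4) (nat_lit 18) (nat_lit 5) (nat_lit 18) (nat_lit 4) (nat_lit 310) (nat_lit 244) (nat_lit 226))))))))
noncomputable def xc61 : XT := (XT.nd (nat_lit 1560) (nat_lit 380) (nat_lit 0) (XT.nd (nat_lit 780) (nat_lit 304) (nat_lit 0) (XT.nd (nat_lit 390) (nat_lit 152) (nat_lit 0) (XT.nd (nat_lit 156) (nat_lit 76) (nat_lit 0) (XT.nd (nat_lit 78) (nat_lit 76) (nat_lit 0) (XT.lf (nat_lit 0) (nat_lit 1413811967) (nat_lit 228) (nat_lit 5079684645) (nat_lit 76) (nat_lit 11462284514) (nat_lit 15) (nat_lit 5) (nat_lit 18) (nat_lit 5) (nat_lit 16) (nat_lit 4) (nat_lit 311) (nat_lit 244) (nat_lit 225)) (XT.lf (nat_lit 0) (nat_lit 2518118471) (nat_lit 76) (nat_lit 2723304616) (nat_lit 152) (nat_lit 13390069721) (nat_lit 14) (nat_lit 5) (nat_lit 15) (nat_lit 5) (nat_lit 16) (nat_lit 4) (nat_lit 312) (nat_lit 244) (nat_lit 224))) (XT.nd (nat_lit 78) (nat_lit 76)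 (nat_lit 0) (XT.lf (nat_lit 0) (nat_lit 9272972620) (nat_lit 152) (nat_lit 8855190158) (nat_lit 0) (nat_lit 1212257441) (nat_lit 14) (nat_lit 5) (nat_lit 16) (nat_lit 4) (nat_lit 14) (nat_lit 4) (nat_lit 313) (nat_lit 244) (nat_lit 223)) (XT.nd (nat_lit 78) (nat_lit 76) (nat_lit 0) (XT.lf (nat_lit 0) (nat_lit 13461060776) (nat_lit 152) (nat_lit 1440617360) (nat_lit 0) (nat_lit 5185423077) (nat_lit 14) (nat_lit 5) (nat_lit 16) (nat_lit 4) (nat_lit 14) (nat_lit 4) (nat_lit 314) (nat_lit 244) (nat_lit 222)) (XT.lf (nat_lit 0) (nat_lit 6395202641) (nat_lit 76) (nat_lit 11477785172) (nat_lit 76) (nat_lit 2997459359) (nat_lit 13) (nat_lit 4) (nat_lit 14) (nat_lit 5) (nat_lit 14) (nat_lit 4) (nat_lit 315) (nat_lit 244) (nat_lit 221))))) (XT.nd (nat_lit 156) (nat_lit 0) (nat_lit 0) (XT.nd (nat_lit 78) (nat_lit 76) (nat_lit 0) (XT.lf (nat_lit 0) (nat_lit 726207238) (nat_lit 152) (nat_lit 7186542035)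 (nat_lit 76) (nat_lit 13782641435) (nat_lit 12) (nat_lit 5) (nat_lit 14) (nat_lit 5) (nat_lit 13) (nat_lit 4) (nat_lit 316) (nat_lit 244) (nat_lit 220)) (XT.lf (nat_lit 0) (nat_lit 279208610) (nat_lit 76) (nat_lit 4179393163) (nat_lit 152) (nat_lit 18104404238) (nat_lit 11) (nat_lit 5) (nat_lit 12) (nat_lit 5) (nat_lit 13) (nat_lit 4) (nat_lit 317) (nat_lit 244) (nat_lit 219))) (XT.nd (nat_lit 78) (nat_lit 0) (nat_lit 0) (XT.lf (nat_lit 0) (nat_lit 8222936530) (nat_lit 76) (nat_lit 196906808) (nat_lit 152) (nat_lit 15052090684) (nat_lit 11) (nat_lit 5) (nat_lit 12) (nat_lit 5) (nat_lit 13) (nat_lit 4) (nat_lit 318) (nat_lit 244) (nat_lit 218)) (XT.nd (nat_lit 78) (nat_lit 0) (nat_lit 0) (XT.lf (nat_lit 0) (nat_lit 12564692466) (nat_lit 152) (nat_lit 8065439600) (nat_lit 0) (nat_lit 3796940339) (nat_lit 11) (nat_lit 5) (nat_lit 13) (nat_lit 4) (nat_lit 11) (nat_lit 4) (nat_lit 319) (nat_lit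 244) (nat_lit 217)) (XT.lf (nat_lit 0) (nat_lit 16846995924) (nat_lit 152) (nat_lit 659998093) (nat_lit 0) (nat_lit 7926502375) (nat_lit 11) (nat_lit 5) (nat_lit 13) (nat_lit 4) (nat_lit 11) (nat_lit 4) (nat_lit 320) (nat_lit 244) (nat_lit 216)))))) (XT.nd (nat_lit 390) (nat_lit 76) (nat_lit 0) (XT.nd (nat_lit 156) (nat_lit 152) (nat_lit 0) (XT.nd (nat_lit 78) (nat_lit 0) (nat_lit 0) (XT.lf (nat_lit 0) (nat_lit 7219089235) (nat_lit 76) (nat_lit 14167496385) (nat_lit 76) (nat_lit 5101534815) (nat_lit 10) (nat_lit 4) (nat_lit 11) (nat_lit 5) (nat_lit 11) (nat_lit 4) (nat_lit 321) (nat_lit 244) (nat_lit 215)) (XT.lf (nat_lit 0) (nat_lit 15389421773) (nat_lit 76) (nat_lit 10706721332) (nat_lit 76) (nat_lit 1502218789) (nat_lit 10) (nat_lit 4) (nat_lit 11) (nat_lit 5) (nat_lit 11) (nat_lit 4) (nat_lit 322) (nat_lit 244) (nat_lit 214))) (XT.nd (nat_lit 78) (nat_lit 76) (nat_lit 0) (XT.lf (nat_lit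 0) (nat_lit 2138143345) (nat_lit 152) (nat_lit 4953252467) (nat_lit 76) (nat_lit 21674276336) (nat_lit 9) (nat_lit 5) (nat_lit 11) (nat_lit 5) (nat_lit 10) (nat_lit 4) (nat_lit 323) (nat_lit 244) (nat_lit 213)) (XT.nd (nat_lit 78) (nat_lit 0) (nat_lit 0) (XT.lf (nat_lit 0) (nat_lit 2608011752) (nat_lit 76) (nat_lit 3279851088) (nat_lit 152) (nat_lit 24103393342) (nat_lit 8) (nat_lit 5) (nat_lit 9) (nat_lit 5) (nat_lit 10) (nat_lit 4) (nat_lit 324) (nat_lit 244) (nat_lit 212)) (XT.lf (nat_lit 0) (nat_lit 9859103786) (nat_lit 152) (nat_lit 20683747930) (nat_lit 0) (nat_lit 733595240) (nat_lit 8) (nat_lit 5) (nat_lit 10) (nat_lit 4) (nat_lit 8) (nat_lit 4) (nat_lit 325) (nat_lit 244) (nat_lit 211))))) (XT.nd (nat_lit 156) (nat_lit 76) (nat_lit 0) (XT.nd (nat_lit 78) (nat_lit 0) (nat_lit 0) (XT.lf (nat_lit 0) (nat_lit 14023149018) (nat_lit 152) (nat_lit 13813974058) (nat_lit 0) (nat_lit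 4789089995) (nat_lit 8) (nat_lit 5) (nat_lit 10) (nat_lit 4) (nat_lit 8) (nat_lit 4) (nat_lit 326) (nat_lit 244) (nat_lit 210)) (XT.lf (nat_lit 0) (nat_lit 18338705264) (nat_lit 152) (nat_lit 6706358543) (nat_lit 0) (nat_lit 9001264835) (nat_lit 8) (nat_lit 5) (nat_lit 10) (nat_lit 4) (nat_lit 8) (nat_lit 4) (nat_lit 327) (nat_lit 244) (nat_lit 209))) (XT.nd (nat_lit 78) (nat_lit 0) (nat_lit 0) (XT.lf (nat_lit 0) (nat_lit 677712543) (nat_lit 76) (nat_lit 22148916107) (nat_lit 76) (nat_lit 12713017195) (nat_lit 7) (nat_lit 4) (nat_lit 8) (nat_lit 5) (nat_lit 8) (nat_lit 4) (nat_lit 328) (nat_lit 244) (nat_lit 208)) (XT.nd (nat_lit 78) (nat_lit 0) (nat_lit 0) (XT.lf (nat_lit 0) (nat_lit 8564823412) (nat_lit 76) (nat_lit 19034734022) (nat_lit 76) (nat_lit 9505065126) (nat_lit 7) (nat_lit 4) (nat_lit 8) (nat_lit 5) (nat_lit 8) (nat_lit 4) (nat_lit 329) (nat_lit 244) (nat_lit 207)) (XT.lf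 (nat_lit 0) (nat_lit 16752010401) (nat_lit 76) (nat_lit 15808678260) (nat_lit 76) (nat_lit 6189704618) (nat_lit 7) (nat_lit 4) (nat_lit 8) (nat_lit 5) (nat_lit 8) (nat_lit 4) (nat_lit 330) (nat_lit 244) (nat_lit 206))))))) (XT.nd (nat_lit 780) (nat_lit 228) (nat_lit 0) (XT.nd (nat_lit 390) (nat_lit 0) (nat_lit 0) (XT.nd (nat_lit 156) (nat_lit 76) (nat_lit 0) (XT.nd (nat_lit 78) (nat_lit 76) (nat_lit 0) (XT.lf (nat_lit 0) (nat_lit 25258766810) (nat_lit 76) (nat_lit 12463067736) (nat_lit 76) (nat_lit 2759041955) (nat_lit 7) (nat_lit 4) (nat_lit 8) (nat_lit 5) (nat_lit 8) (nat_lit 4) (nat_lit 331) (nat_lit 244) (nat_lit 205)) (XT.lf (nat_lit 0) (nat_lit 769643226) (nat_lit 152) (nat_lit 8207259203) (nat_lit 76) (nat_lit 33322669316) (nat_lit 6) (nat_lit 5) (nat_lit 8) (nat_lit 5) (nat_lit 7) (nat_lit 4) (nat_lit 332) (nat_lit 244) (nat_lit 204))) (XT.nd (nat_lit 78) (nat_lit 76) (nat_lit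 0) (XT.lf (nat_lit 0) (nat_lit 4337731789) (nat_lit 152) (nat_lit 969822447) (nat_lit 76) (nat_lit 38901620349) (nat_lit 6) (nat_lit 5) (nat_lit 8) (nat_lit 5) (nat_lit 7) (nat_lit 4) (nat_lit 333) (nat_lit 244) (nat_lit 203)) (XT.nd (nat_lit 78) (nat_lit 0) (nat_lit 0) (XT.lf (nat_lit 0) (nat_lit 6767098352) (nat_lit 76) (nat_lit 1380580771) (nat_lit 152) (nat_lit 38063423721) (nat_lit 5) (nat_lit 5) (nat_lit 6) (nat_lit 5) (nat_lit 7) (nat_lit 4) (nat_lit 334) (nat_lit 244) (nat_lit 202)) (XT.lf (nat_lit 0) (nat_lit 12165669898) (nat_lit 152) (nat_lit 33510086083) (nat_lit 0) (nat_lit 2636511368) (nat_lit 5) (nat_lit 5) (nat_lit 7) (nat_lit 4) (nat_lit 5) (nat_lit 4) (nat_lit 335) (nat_lit 244) (nat_lit 201))))) (XT.nd (nat_lit 156) (nat_lit 0) (nat_lit 0) (XT.nd (nat_lit 78) (nat_lit 0) (nat_lit 0) (XT.lf (nat_lit 0) (nat_lit 16367221759) (nat_lit 152) (nat_lit 27377555553) (nat_lit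 0) (nat_lit 6774596014) (nat_lit 5) (nat_lit 5) (nat_lit 7) (nat_lit 4) (nat_lit 5) (nat_lit 4) (nat_lit 336) (nat_lit 244) (nat_lit 200)) (XT.lf (nat_lit 0) (nat_lit 20740783666) (nat_lit 152) (nat_lit 21010256904) (nat_lit 0) (nat_lit 11087712953) (nat_lit 5) (nat_lit 5) (nat_lit 7) (nat_lit 4) (nat_lit 5) (nat_lit 4) (nat_lit 337) (nat_lit 244) (nat_lit 199))) (XT.nd (nat_lit 78) (nat_lit 0) (nat_lit 0) (XT.lf (nat_lit 0) (nat_lit 25296768861) (nat_lit 152) (nat_lit 14393029901) (nat_lit 0) (nat_lit 15586131512) (nat_lit 5) (nat_lit 5) (nat_lit 7) (nat_lit 4) (nat_lit 5) (nat_lit 4) (nat_lit 338) (nat_lit 244) (nat_lit 198)) (XT.nd (nat_lit 78) (nat_lit 0) (nat_lit 0) (XT.lf (nat_lit 0) (nat_lit 30046024928) (nat_lit 152) (nat_lit 7510119241) (nat_lit 0) (nat_lit 20280562212) (nat_lit 5) (nat_lit 5) (nat_lit 7) (nat_lit 4) (nat_lit 5) (nat_lit 4) (nat_lit 339) (nat_lit 244) (nat_lit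 197)) (XT.lf (nat_lit 0) (nat_lit 34999859621) (nat_lit 152) (nat_lit 345137042) (nat_lit 0) (nat_lit 25182182269) (nat_lit 5) (nat_lit 5) (nat_lit 7) (nat_lit 4) (nat_lit 5) (nat_lit 4) (nat_lit 340) (nat_lit 244) (nat_lit 196)))))) (XT.nd (nat_lit 390) (nat_lit 152) (nat_lit 0) (XT.nd (nat_lit 156) (nat_lit 0) (nat_lit 0) (XT.nd (nat_lit 78) (nat_lit 0) (nat_lit 0) (XT.lf (nat_lit 0) (nat_lit 7354361679) (nat_lit 76) (nat_lit 32930528299) (nat_lit 76) (nat_lit 23063122723) (nat_lit 4) (nat_lit 4) (nat_lit 5) (nat_lit 5) (nat_lit 5) (nat_lit 4) (nat_lit 341) (nat_lit 244) (nat_lit 195)) (XT.lf (nat_lit 0) (nat_lit 15392653144) (nat_lit 76) (nat_lit 30416628741) (nat_lit 76) (nat_lit 20501862952) (nat_lit 4) (nat_lit 4) (nat_lit 5) (nat_lit 5) (nat_lit 5) (nat_lit 4) (nat_lit 342) (nat_lit 244) (nat_lit 194))) (XT.nd (nat_lit 78) (nat_lit 0) (nat_lit 0) (XT.lf (nat_lit 0) (nat_lit 23777464352)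 (nat_lit 76) (nat_lit 27803157577) (nat_lit 76) (nat_lit 17843286823) (nat_lit 4) (nat_lit 4) (nat_lit 5) (nat_lit 5) (nat_lit 5) (nat_lit 4) (nat_lit 343) (nat_lit 244) (nat_lit 193)) (XT.nd (nat_lit 78) (nat_lit 0) (nat_lit 0) (XT.lf (nat_lit 0) (nat_lit 32528759139) (nat_lit 76) (nat_lit 25083892257) (nat_lit 76) (nat_lit 15081064393) (nat_lit 4) (nat_lit 4) (nat_lit 5) (nat_lit 5) (nat_lit 5) (nat_lit 4) (nat_lit 344) (nat_lit 244) (nat_lit 192)) (XT.lf (nat_lit 0) (nat_lit 41667373921) (nat_lit 76) (nat_lit 22252358340) (nat_lit 76) (nat_lit 12208618942) (nat_lit 4) (nat_lit 4) (nat_lit 5) (nat_lit 5) (nat_lit 5) (nat_lit 4) (nat_lit 345) (nat_lit 244) (nat_lit 191))))) (XT.nd (nat_lit 234) (nat_lit 152) (nat_lit 0) (XT.nd (nat_lit 78) (nat_lit 0) (nat_lit 0) (XT.lf (nat_lit 0) (nat_lit 51215067305) (nat_lit 76) (nat_lit 19301814077) (nat_lit 76) (nat_lit 9219111315) (nat_lit 4)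 (nat_lit 4) (nat_lit 5) (nat_lit 5) (nat_lit 5) (nat_lit 4) (nat_lit 346) (nat_lit 244) (nat_lit 190)) (XT.nd (nat_lit 78) (nat_lit 0) (nat_lit 0) (XT.lf (nat_lit 0) (nat_lit 61194571894) (nat_lit 76) (nat_lit 16225234364) (nat_lit 76) (nat_lit 6105423635) (nat_lit 4) (nat_lit 4) (nat_lit 5) (nat_lit 5) (nat_lit 5) (nat_lit 4) (nat_lit 347) (nat_lit 244) (nat_lit 189)) (XT.lf (nat_lit 0) (nat_lit 71629648414) (nat_lit 76) (nat_lit 13015294011) (nat_lit 76) (nat_lit 2860142361) (nat_lit 4) (nat_lit 4) (nat_lit 5) (nat_lit 5) (nat_lit 5) (nat_lit 4) (nat_lit 348) (nat_lit 244) (nat_lit 188)))) (XT.nd (nat_lit 78) (nat_lit 76) (nat_lit 0) (XT.lf (nat_lit 0) (nat_lit 507673391) (nat_lit 152) (nat_lit 9148079217) (nat_lit 76) (nat_lit 82028871198) (nat_lit 3) (nat_lit 5) (nat_lit 5) (nat_lit 5) (nat_lit 4) (nat_lit 4) (nat_lit 349) (nat_lit 244) (nat_lit 187)) (XT.nd (nat_lit 78) (nat_lit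 76) (nat_lit 0) (XT.lf (nat_lit 0) (nat_lit 3926608707) (nat_lit 152) (nat_lit 2171317076) (nat_lit 76) (nat_lit 89973935051) (nat_lit 3) (nat_lit 5) (nat_lit 5) (nat_lit 5) (nat_lit 4) (nat_lit 4) (nat_lit 350) (nat_lit 244) (nat_lit 186)) (XT.lf (nat_lit 0) (nat_lit 5285278133) (nat_lit 76) (nat_lit 2293586195) (nat_lit 152) (nat_lit 93096484183) (nat_lit 2) (nat_lit 5) (nat_lit 3) (nat_lit 5) (nat_lit 4) (nat_lit 4) (nat_lit 351) (nat_lit 244) (nat_lit 185))))))))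
noncomputable def xc62 : XT := (XT.nd (nat_lit 1560) (nat_lit 76) (nat_lit 0) (XT.nd (nat_lit 780) (nat_lit 0) (nat_lit 0) (XT.nd (nat_lit 390) (nat_lit 0) (nat_lit 0) (XT.nd (nat_lit 156) (nat_lit 0) (nat_lit 0) (XT.nd (nat_lit 78) (nat_lit 0) (nat_lit 0) (XT.lf (nat_lit 0) (nat_lit 11457615699) (nat_lit 152) (nat_lit 92382514821) (nat_lit 0) (nat_lit 1666693027) (nat_lit 2) (nat_lit 5) (nat_lit 4) (nat_lit 4) (nat_lit 2) (nat_lit 4) (nat_lit 352) (nat_lit 244) (nat_lit 184)) (XT.lf (nat_lit 0) (nat_lit 15548810050) (nat_lit 152) (nat_lit 89298628356) (nat_lit 0) (nat_lit 5731515440) (nat_lit 2) (nat_lit 5) (nat_lit 4) (nat_lit 4) (nat_lit 2) (nat_lit 4) (nat_lit 353) (nat_lit 244) (nat_lit 183))) (XT.nd (nat_lit 78) (nat_lit 0) (nat_lit 0) (XT.lf (nat_lit 0) (nat_lit 19826379014) (nat_lit 152) (nat_lit 86095259088) (nat_lit 0) (nat_lit 9983968271) (nat_lit 2) (nat_lit 5) (nat_lit 4)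 (nat_lit 4) (nat_lit 2) (nat_lit 4) (nat_lit 354) (nat_lit 244) (nat_lit 182)) (XT.nd (nat_lit 78) (nat_lit 0) (nat_lit 0) (XT.lf (nat_lit 0) (nat_lit 24300507279) (nat_lit 152) (nat_lit 82764779948) (nat_lit 0) (nat_lit 14434176410) (nat_lit 2) (nat_lit 5) (nat_lit 4) (nat_lit 4) (nat_lit 2) (nat_lit 4) (nat_lit 355) (nat_lit 244) (nat_lit 181)) (XT.lf (nat_lit 0) (nat_lit 28981847530) (nat_lit 152) (nat_lit 79299261224) (nat_lit 0) (nat_lit 19092735589) (nat_lit 2) (nat_lit 5) (nat_lit 4) (nat_lit 4) (nat_lit 2) (nat_lit 4) (nat_lit 356) (nat_lit 244) (nat_lit 180))))) (XT.nd (nat_lit 156) (nat_lit 0) (nat_lit 0) (XT.nd (nat_lit 78) (nat_lit 0) (nat_lit 0) (XT.lf (nat_lit 0) (nat_lit 33881545817) (nat_lit 152) (nat_lit 75690451681) (nat_lit 0) (nat_lit 23970737616) (nat_lit 2) (nat_lit 5) (nat_lit 4) (nat_lit 4) (nat_lit 2) (nat_lit 4) (nat_lit 357) (nat_lit 244) (nat_lit 179)) (XT.lf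 (nat_lit 0) (nat_lit 39011268087) (nat_lit 152) (nat_lit 71929758914) (nat_lit 0) (nat_lit 29079796782) (nat_lit 2) (nat_lit 5) (nat_lit 4) (nat_lit 4) (nat_lit 2) (nat_lit 4) (nat_lit 358) (nat_lit 244) (nat_lit 178))) (XT.nd (nat_lit 78) (nat_lit 0) (nat_lit 0) (XT.lf (nat_lit 0) (nat_lit 44383227965) (nat_lit 152) (nat_lit 68008228894) (nat_lit 0) (nat_lit 34432077512) (nat_lit 2) (nat_lit 5) (nat_lit 4) (nat_lit 4) (nat_lit 2) (nat_lit 4) (nat_lit 359) (nat_lit 244) (nat_lit 177)) (XT.nd (nat_lit 78) (nat_lit 0) (nat_lit 0) (XT.lf (nat_lit 0) (nat_lit 50010215831) (nat_lit 152) (nat_lit 63916524644) (nat_lit 0) (nat_lit 40040323334) (nat_lit 2) (nat_lit 5) (nat_lit 4) (nat_lit 4) (nat_lit 2) (nat_lit 4) (nat_lit 360) (nat_lit 244) (nat_lit 176)) (XT.lf (nat_lit 0) (nat_lit 55905629276) (nat_lit 152) (nat_lit 59644904011) (nat_lit 0) (nat_lit 45917887213) (nat_lit 2) (nat_lit 5) (nat_lit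 4) (nat_lit 4) (nat_lit 2) (nat_lit 4) (nat_lit 361) (nat_lit 244) (nat_lit 175)))))) (XT.nd (nat_lit 390) (nat_lit 0) (nat_lit 0) (XT.nd (nat_lit 156) (nat_lit 0) (nat_lit 0) (XT.nd (nat_lit 78) (nat_lit 0) (nat_lit 0) (XT.lf (nat_lit 0) (nat_lit 62083504998) (nat_lit 152) (nat_lit 55183196470) (nat_lit 0) (nat_lit 52078763348) (nat_lit 2) (nat_lit 5) (nat_lit 4) (nat_lit 4) (nat_lit 2) (nat_lit 4) (nat_lit 362) (nat_lit 244) (nat_lit 174)) (XT.lf (nat_lit 0) (nat_lit 68558552226) (nat_lit 152) (nat_lit 50520778908) (nat_lit 0) (nat_lit 58537620493) (nat_lit 2) (nat_lit 5) (nat_lit 4) (nat_lit 4) (nat_lit 2) (nat_lit 4) (nat_lit 363) (nat_lit 244) (nat_lit 173))) (XT.nd (nat_lit 78) (nat_lit 0) (nat_lit 0) (XT.lf (nat_lit 0) (nat_lit 75346187738) (nat_lit 152) (nat_lit 45646550331) (nat_lit 0) (nat_lit 65309836878) (nat_lit 2) (nat_lit 5) (nat_lit 4) (nat_lit 4) (nat_lit 2) (nat_lit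 4) (nat_lit 364) (nat_lit 244) (nat_lit 172)) (XT.nd (nat_lit 78) (nat_lit 0) (nat_lit 0) (XT.lf (nat_lit 0) (nat_lit 82462572571) (nat_lit 152) (nat_lit 40548905432) (nat_lit 0) (nat_lit 72411536829) (nat_lit 2) (nat_lit 5) (nat_lit 4) (nat_lit 4) (nat_lit 2) (nat_lit 4) (nat_lit 365) (nat_lit 244) (nat_lit 171)) (XT.lf (nat_lit 0) (nat_lit 89924650500) (nat_lit 152) (nat_lit 35215706962) (nat_lit 0) (nat_lit 79859629155) (nat_lit 2) (nat_lit 5) (nat_lit 4) (nat_lit 4) (nat_lit 2) (nat_lit 4) (nat_lit 366) (nat_lit 244) (nat_lit 170))))) (XT.nd (nat_lit 156) (nat_lit 0) (nat_lit 0) (XT.nd (nat_lit 78) (nat_lit 0) (nat_lit 0) (XT.lf (nat_lit 0) (nat_lit 97750188375) (nat_lit 152) (nat_lit 29634256829) (nat_lit 0) (nat_lit 87671847409) (nat_lit 2) (nat_lit 5) (nat_lit 4) (nat_lit 4) (nat_lit 2) (nat_lit 4) (nat_lit 367) (nat_lit 244) (nat_lit 169)) (XT.lf (nat_lit 0) (nat_lit 105957818430)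 (nat_lit 152) (nat_lit 23791265866) (nat_lit 0) (nat_lit 95866792110) (nat_lit 2) (nat_lit 5) (nat_lit 4) (nat_lit 4) (nat_lit 2) (nat_lit 4) (nat_lit 368) (nat_lit 244) (nat_lit 168))) (XT.nd (nat_lit 78) (nat_lit 0) (nat_lit 0) (XT.lf (nat_lit 0) (nat_lit 114567082641) (nat_lit 152) (nat_lit 17672822190) (nat_lit 0) (nat_lit 104463975032) (nat_lit 2) (nat_lit 5) (nat_lit 4) (nat_lit 4) (nat_lit 2) (nat_lit 4) (nat_lit 369) (nat_lit 244) (nat_lit 167)) (XT.nd (nat_lit 78) (nat_lit 0) (nat_lit 0) (XT.lf (nat_lit 0) (nat_lit 123598479257) (nat_lit 152) (nat_lit 11264358078) (nat_lit 0) (nat_lit 113483865658) (nat_lit 2) (nat_lit 5) (nat_lit 4) (nat_lit 4) (nat_lit 2) (nat_lit 4) (nat_lit 370) (nat_lit 244) (nat_lit 166)) (XT.lf (nat_lit 0) (nat_lit 133073511602) (nat_lit 152) (nat_lit 4550615282) (nat_lit 0) (nat_lit 122947939919) (nat_lit 2) (nat_lit 5) (nat_lit 4) (nat_lit 4) (nat_lit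 2) (nat_lit 4) (nat_lit 371) (nat_lit 244) (nat_lit 165))))))) (XT.nd (nat_lit 780) (nat_lit 0) (nat_lit 0) (XT.nd (nat_lit 390) (nat_lit 0) (nat_lit 0) (XT.nd (nat_lit 156) (nat_lit 0) (nat_lit 0) (XT.nd (nat_lit 78) (nat_lit 0) (nat_lit 0) (XT.lf (nat_lit 0) (nat_lit 2566536496) (nat_lit 76) (nat_lit 140488273609) (nat_lit 76) (nat_lit 130352265654) (nat_lit 1) (nat_lit 4) (nat_lit 2) (nat_lit 5) (nat_lit 2) (nat_lit 4) (nat_lit 372) (nat_lit 244) (nat_lit 164)) (XT.lf (nat_lit 0) (nat_lit 10183342231) (nat_lit 76) (nat_lit 143421480154) (nat_lit 76) (nat_lit 133275532892) (nat_lit 1) (nat_lit 4) (nat_lit 2) (nat_lit 5) (nat_lit 2) (nat_lit 4) (nat_lit 373) (nat_lit 244) (nat_lit 163))) (XT.nd (nat_lit 78) (nat_lit 0) (nat_lit 0) (XT.lf (nat_lit 0) (nat_lit 18167473283) (nat_lit 76) (nat_lit 146507797215) (nat_lit 76) (nat_lit 136352383947) (nat_lit 1) (nat_lit 4) (nat_lit 2) (nat_lit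 5) (nat_lit 2) (nat_lit 4) (nat_lit 374) (nat_lit 244) (nat_lit 162)) (XT.nd (nat_lit 78) (nat_lit 0) (nat_lit 0) (XT.lf (nat_lit 0) (nat_lit 26537939486) (nat_lit 76) (nat_lit 149754573166) (nat_lit 76) (nat_lit 139590144654) (nat_lit 1) (nat_lit 4) (nat_lit 2) (nat_lit 5) (nat_lit 2) (nat_lit 4) (nat_lit 375) (nat_lit 244) (nat_lit 161)) (XT.lf (nat_lit 0) (nat_lit 35314670523) (nat_lit 76) (nat_lit 153169538427) (nat_lit 76) (nat_lit 142996523968) (nat_lit 1) (nat_lit 4) (nat_lit 2) (nat_lit 5) (nat_lit 2) (nat_lit 4) (nat_lit 376) (nat_lit 244) (nat_lit 160))))) (XT.nd (nat_lit 156) (nat_lit 0) (nat_lit 0) (XT.nd (nat_lit 78) (nat_lit 0) (nat_lit 0) (XT.lf (nat_lit 0) (nat_lit 44518563372) (nat_lit 76) (nat_lit 156760823866) (nat_lit 76) (nat_lit 146579632316) (nat_lit 1) (nat_lit 4) (nat_lit 2) (nat_lit 5) (nat_lit 2) (nat_lit 4) (nat_lit 377) (nat_lit 244) (nat_lit 159)) (XT.lf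 (nat_lit 0) (nat_lit 54171532063) (nat_lit 76) (nat_lit 160536980165) (nat_lit 76) (nat_lit 150348000907) (nat_lit 1) (nat_lit 4) (nat_lit 2) (nat_lit 5) (nat_lit 2) (nat_lit 4) (nat_lit 378) (nat_lit 244) (nat_lit 158))) (XT.nd (nat_lit 78) (nat_lit 0) (nat_lit 0) (XT.lf (nat_lit 0) (nat_lit 64296559857) (nat_lit 76) (nat_lit 164506998170) (nat_lit 76) (nat_lit 154310602049) (nat_lit 1) (nat_lit 4) (nat_lit 2) (nat_lit 5) (nat_lit 2) (nat_lit 4) (nat_lit 379) (nat_lit 244) (nat_lit 157)) (XT.nd (nat_lit 78) (nat_lit 0) (nat_lit 0) (XT.lf (nat_lit 0) (nat_lit 74917753960) (nat_lit 76) (nat_lit 168680330306) (nat_lit 76) (nat_lit 158476870505) (nat_lit 1) (nat_lit 4) (nat_lit 2) (nat_lit 5) (nat_lit 2) (nat_lit 4) (nat_lit 380) (nat_lit 244) (nat_lit 156)) (XT.lf (nat_lit 0) (nat_lit 86060402932) (nat_lit 76) (nat_lit 173066913077) (nat_lit 76) (nat_lit 162856725963) (nat_lit 1) (nat_lit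 4) (nat_lit 2) (nat_lit 5) (nat_lit 2) (nat_lit 4) (nat_lit 381) (nat_lit 244) (nat_lit 155)))))) (XT.nd (nat_lit 390) (nat_lit 0) (nat_lit 0) (XT.nd (nat_lit 156) (nat_lit 0) (nat_lit 0) (XT.nd (nat_lit 78) (nat_lit 0) (nat_lit 0) (XT.lf (nat_lit 0) (nat_lit 97751036888) (nat_lit 76) (nat_lit 177677190730) (nat_lit 76) (nat_lit 167460596650) (nat_lit 1) (nat_lit 4) (nat_lit 2) (nat_lit 5) (nat_lit 2) (nat_lit 4) (nat_lit 382) (nat_lit 244) (nat_lit 154)) (XT.lf (nat_lit 0) (nat_lit 110017490671) (nat_lit 76) (nat_lit 182522140114) (nat_lit 76) (nat_lit 172299444162) (nat_lit 1) (nat_lit 4) (nat_lit 2) (nat_lit 5) (nat_lit 2) (nat_lit 4) (nat_lit 383) (nat_lit 244) (nat_lit 153))) (XT.nd (nat_lit 78) (nat_lit 0) (nat_lit 0) (XT.lf (nat_lit 0) (nat_lit 122888970124) (nat_lit 76) (nat_lit 187613296824) (nat_lit 76) (nat_lit 177384789566) (nat_lit 1) (nat_lit 4) (nat_lit 2) (nat_lit 5)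 (nat_lit 2) (nat_lit 4) (nat_lit 384) (nat_lit 244) (nat_lit 152)) (XT.nd (nat_lit 78) (nat_lit 0) (nat_lit 0) (XT.lf (nat_lit 0) (nat_lit 136396121626) (nat_lit 76) (nat_lit 192962782662) (nat_lit 76) (nat_lit 182728740826) (nat_lit 1) (nat_lit 4) (nat_lit 2) (nat_lit 5) (nat_lit 2) (nat_lit 4) (nat_lit 385) (nat_lit 244) (nat_lit 151)) (XT.lf (nat_lit 0) (nat_lit 150571105062) (nat_lit 76) (nat_lit 198583334498) (nat_lit 76) (nat_lit 188344021636) (nat_lit 1) (nat_lit 4) (nat_lit 2) (nat_lit 5) (nat_lit 2) (nat_lit 4) (nat_lit 386) (nat_lit 244) (nat_lit 150))))) (XT.nd (nat_lit 156) (nat_lit 0) (nat_lit 0) (XT.nd (nat_lit 78) (nat_lit 0) (nat_lit 0) (XT.lf (nat_lit 0) (nat_lit 165447670392) (nat_lit 76) (nat_lit 204488334600) (nat_lit 76) (nat_lit 194244001712) (nat_lit 1) (nat_lit 4) (nat_lit 2) (nat_lit 5) (nat_lit 2) (nat_lit 4) (nat_lit 387) (nat_lit 244) (nat_lit 149)) (XT.lf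 (nat_lit 0) (nat_lit 181061238011) (nat_lit 76) (nat_lit 210691842490) (nat_lit 76) (nat_lit 200442728625) (nat_lit 1) (nat_lit 4) (nat_lit 2) (nat_lit 5) (nat_lit 2) (nat_lit 4) (nat_lit 388) (nat_lit 244) (nat_lit 148))) (XT.nd (nat_lit 32916) (nat_lit 0) (nat_lit 3040) (XT.lf (nat_lit 0) (nat_lit 197448983078) (nat_lit 76) (nat_lit 217208628426) (nat_lit 76) (nat_lit 206954961250) (nat_lit 1) (nat_lit 4) (nat_lit 2) (nat_lit 5) (nat_lit 2) (nat_lit 4) (nat_lit 389) (nat_lit 244) (nat_lit 147)) (XT.nd (nat_lit 78) (nat_lit 228) (nat_lit 0) (XT.lf (nat_lit 0) (nat_lit 1793916008) (nat_lit 228) (nat_lit 1468218457) (nat_lit 228) (nat_lit 1468218457) (nat_lit 44) (nat_lit 4) (nat_lit 47) (nat_lit 5) (nat_lit 47) (nat_lit 4) (nat_lit 290) (nat_lit 245) (nat_lit 245)) (XT.lf (nat_lit 0) (nat_lit 873849786) (nat_lit 228) (nat_lit 8787265787) (nat_lit 0) (nat_lit 31325754) (nat_lit 41) (nat_lit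 5) (nat_lit 44) (nat_lit 4) (nat_lit 41) (nat_lit 4) (nat_lit 291) (nat_lit 245) (nat_lit 244))))))))
noncomputable def xc63 : XT := (XT.nd (nat_lit 1560) (nat_lit 608) (nat_lit 0) (XT.nd (nat_lit 780) (nat_lit 836) (nat_lit 0) (XT.nd (nat_lit 390) (nat_lit 532) (nat_lit 0) (XT.nd (nat_lit 156) (nat_lit 380) (nat_lit 0) (XT.nd (nat_lit 78) (nat_lit 228) (nat_lit 0) (XT.lf (nat_lit 0) (nat_lit 4771137319) (nat_lit 228) (nat_lit 2036457751) (nat_lit 0) (nat_lit 3126209447) (nat_lit 41) (nat_lit 5) (nat_lit 44) (nat_lit 4) (nat_lit 41) (nat_lit 4) (nat_lit 292) (nat_lit 245) (nat_lit 243)) (XT.lf (nat_lit 0) (nat_lit 4988919305) (nat_lit 228) (nat_lit 3805538337) (nat_lit 228) (nat_lit 1396416332) (nat_lit 38) (nat_lit 4) (nat_lit 41) (nat_lit 5) (nat_lit 41) (nat_lit 4) (nat_lit 293) (nat_lit 245) (nat_lit 242))) (XT.nd (nat_lit 78) (nat_lit 152) (nat_lit 0) (XT.lf (nat_lit 0) (nat_lit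 1769264137) (nat_lit 152) (nat_lit 623999315) (nat_lit 228) (nat_lit 8069865061) (nat_lit 35) (nat_lit 5) (nat_lit 37) (nat_lit 5) (nat_lit 38) (nat_lit 4) (nat_lit 294) (nat_lit 245) (nat_lit 241)) (XT.nd (nat_lit 78) (nat_lit 152) (nat_lit 0) (XT.lf (nat_lit 0) (nat_lit 6314044393) (nat_lit 228) (nat_lit 1768193001) (nat_lit 0) (nat_lit 2666356253) (nat_lit 35) (nat_lit 5) (nat_lit 38) (nat_lit 4) (nat_lit 35) (nat_lit 4) (nat_lit 295) (nat_lit 245) (nat_lit 240)) (XT.lf (nat_lit 0) (nat_lit 5452330782) (nat_lit 152) (nat_lit 4937308373) (nat_lit 152) (nat_lit 660915828) (nat_lit 33) (nat_lit 4) (nat_lit 35) (nat_lit 5) (nat_lit 35) (nat_lit 4) (nat_lit 296) (nat_lit 245) (nat_lit 239))))) (XT.nd (nat_lit 156) (nat_lit 304) (nat_lit 0) (XT.nd (nat_lit 78) (nat_lit 0) (nat_lit 0) (XT.lf (nat_lit 0) (nat_lit 1508533308) (nat_lit 152) (nat_lit 1605462766) (nat_lit 228) (nat_lit 8255274648)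 (nat_lit 30) (nat_lit 5) (nat_lit 32) (nat_lit 5) (nat_lit 33) (nat_lit 4) (nat_lit 297) (nat_lit 245) (nat_lit 238)) (XT.lf (nat_lit 0) (nat_lit 7047504442) (nat_lit 228) (nat_lit 2795014933) (nat_lit 0) (nat_lit 1861397707) (nat_lit 30) (nat_lit 5) (nat_lit 33) (nat_lit 4) (nat_lit 30) (nat_lit 4) (nat_lit 298) (nat_lit 245) (nat_lit 237))) (XT.nd (nat_lit 78) (nat_lit 152) (nat_lit 0) (XT.lf (nat_lit 0) (nat_lit 4534348813) (nat_lit 152) (nat_lit 6612970898) (nat_lit 152) (nat_lit 909627492) (nat_lit 28) (nat_lit 4) (nat_lit 30) (nat_lit 5) (nat_lit 30) (nat_lit 4) (nat_lit 299) (nat_lit 245) (nat_lit 236)) (XT.nd (nat_lit 78) (nat_lit 76) (nat_lit 0) (XT.lf (nat_lit 0) (nat_lit 2849026597) (nat_lit 228) (nat_lit 355445232) (nat_lit 76) (nat_lit 9224849984) (nat_lit 27) (nat_lit 5) (nat_lit 30) (nat_lit 5) (nat_lit 28) (nat_lit 4) (nat_lit 300) (nat_lit 245) (nat_lit 235)) (XT.lf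 (nat_lit 0) (nat_lit 6763192922) (nat_lit 152) (nat_lit 5641104183) (nat_lit 0) (nat_lit 415479909) (nat_lit 26) (nat_lit 5) (nat_lit 28) (nat_lit 4) (nat_lit 26) (nat_lit 4) (nat_lit 301) (nat_lit 245) (nat_lit 234)))))) (XT.nd (nat_lit 390) (nat_lit 380) (nat_lit 0) (XT.nd (nat_lit 156) (nat_lit 228) (nat_lit 0) (XT.nd (nat_lit 78) (nat_lit 76) (nat_lit 0) (XT.lf (nat_lit 0) (nat_lit 1672267771) (nat_lit 152) (nat_lit 9166283672) (nat_lit 152) (nat_lit 2393038770) (nat_lit 24) (nat_lit 4) (nat_lit 26) (nat_lit 5) (nat_lit 26) (nat_lit 4) (nat_lit 302) (nat_lit 245) (nat_lit 233)) (XT.lf (nat_lit 0) (nat_lit 1385560667) (nat_lit 228) (nat_lit 4338113998) (nat_lit 76) (nat_lit 7940363673) (nat_lit 23) (nat_lit 5) (nat_lit 26) (nat_lit 5) (nat_lit 24) (nat_lit 4) (nat_lit 303) (nat_lit 245) (nat_lit 232))) (XT.nd (nat_lit 78) (nat_lit 152) (nat_lit 0) (XT.lf (nat_lit 0) (nat_lit 3112359508)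 (nat_lit 76) (nat_lit 2095856511) (nat_lit 152) (nat_lit 8911248488) (nat_lit 22) (nat_lit 5) (nat_lit 23) (nat_lit 5) (nat_lit 24) (nat_lit 4) (nat_lit 304) (nat_lit 245) (nat_lit 231)) (XT.nd (nat_lit 78) (nat_lit 152) (nat_lit 0) (XT.lf (nat_lit 0) (nat_lit 9211587845) (nat_lit 152) (nat_lit 3729453118) (nat_lit 0) (nat_lit 1657231867) (nat_lit 22) (nat_lit 5) (nat_lit 24) (nat_lit 4) (nat_lit 22) (nat_lit 4) (nat_lit 305) (nat_lit 245) (nat_lit 230)) (XT.lf (nat_lit 0) (nat_lit 3815582551) (nat_lit 152) (nat_lit 9586962633) (nat_lit 152) (nat_lit 1699191285) (nat_lit 20) (nat_lit 4) (nat_lit 22) (nat_lit 5) (nat_lit 22) (nat_lit 4) (nat_lit 306) (nat_lit 245) (nat_lit 229))))) (XT.nd (nat_lit 156) (nat_lit 228) (nat_lit 0) (XT.nd (nat_lit 78) (nat_lit 76) (nat_lit 0) (XT.lf (nat_lit 0) (nat_lit 2061273232) (nat_lit 228) (nat_lit 3979699666) (nat_lit 76) (nat_lit 9589875315) (nat_lit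 19) (nat_lit 5) (nat_lit 22) (nat_lit 5) (nat_lit 20) (nat_lit 4) (nat_lit 307) (nat_lit 245) (nat_lit 228)) (XT.lf (nat_lit 0) (nat_lit 3603483697) (nat_lit 76) (nat_lit 2304424136) (nat_lit 152) (nat_lit 10279426460) (nat_lit 18) (nat_lit 5) (nat_lit 19) (nat_lit 5) (nat_lit 20) (nat_lit 4) (nat_lit 308) (nat_lit 245) (nat_lit 227))) (XT.nd (nat_lit 78) (nat_lit 228) (nat_lit 0) (XT.lf (nat_lit 0) (nat_lit 9940588797) (nat_lit 152) (nat_lit 5267751030) (nat_lit 0) (nat_lit 1563689660) (nat_lit 18) (nat_lit 5) (nat_lit 20) (nat_lit 4) (nat_lit 18) (nat_lit 4) (nat_lit 309) (nat_lit 245) (nat_lit 226)) (XT.nd (nat_lit 78) (nat_lit 76) (nat_lit 0) (XT.lf (nat_lit 0) (nat_lit 2280718633) (nat_lit 152) (nat_lit 11872271244) (nat_lit 152) (nat_lit 3234132441) (nat_lit 16) (nat_lit 4) (nat_lit 18) (nat_lit 5) (nat_lit 18) (nat_lit 4) (nat_lit 310) (nat_lit 245) (nat_lit 225)) (XT.lf (nat_lit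 0) (nat_lit 521390207) (nat_lit 228) (nat_lit 7818088558) (nat_lit 76) (nat_lit 9693341559) (nat_lit 15) (nat_lit 5) (nat_lit 18) (nat_lit 5) (nat_lit 16) (nat_lit 4) (nat_lit 311) (nat_lit 245) (nat_lit 224))))))) (XT.nd (nat_lit 780) (nat_lit 228) (nat_lit 0) (XT.nd (nat_lit 390) (nat_lit 228) (nat_lit 0) (XT.nd (nat_lit 156) (nat_lit 76) (nat_lit 0) (XT.nd (nat_lit 78) (nat_lit 76) (nat_lit 0) (XT.lf (nat_lit 0) (nat_lit 4265577404) (nat_lit 228) (nat_lit 379456882) (nat_lit 76) (nat_lit 14067697228) (nat_lit 15) (nat_lit 5) (nat_lit 18) (nat_lit 5) (nat_lit 16) (nat_lit 4) (nat_lit 312) (nat_lit 245) (nat_lit 223)) (XT.lf (nat_lit 0) (nat_lit 7518329745) (nat_lit 76) (nat_lit 709908768) (nat_lit 152) (nat_lit 11196891794) (nat_lit 14) (nat_lit 5) (nat_lit 15) (nat_lit 5) (nat_lit 16) (nat_lit 4) (nat_lit 313) (nat_lit 245) (nat_lit 222))) (XT.nd (nat_lit 78) (nat_lit 76) (nat_lit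 0) (XT.lf (nat_lit 0) (nat_lit 12363578340) (nat_lit 152) (nat_lit 4556347933) (nat_lit 0) (nat_lit 3254548123) (nat_lit 14) (nat_lit 5) (nat_lit 16) (nat_lit 4) (nat_lit 14) (nat_lit 4) (nat_lit 314) (nat_lit 245) (nat_lit 221)) (XT.nd (nat_lit 78) (nat_lit 0) (nat_lit 0) (XT.lf (nat_lit 0) (nat_lit 3102461075) (nat_lit 76) (nat_lit 13581954745) (nat_lit 76) (nat_lit 4277983467) (nat_lit 13) (nat_lit 4) (nat_lit 14) (nat_lit 5) (nat_lit 14) (nat_lit 4) (nat_lit 315) (nat_lit 245) (nat_lit 220)) (XT.lf (nat_lit 0) (nat_lit 11157938284) (nat_lit 76) (nat_lit 10060793737) (nat_lit 76) (nat_lit 571164306) (nat_lit 13) (nat_lit 4) (nat_lit 14) (nat_lit 5) (nat_lit 14) (nat_lit 4) (nat_lit 316) (nat_lit 245) (nat_lit 219))))) (XT.nd (nat_lit 156) (nat_lit 76) (nat_lit 0) (XT.nd (nat_lit 78) (nat_lit 76) (nat_lit 0) (XT.lf (nat_lit 0) (nat_lit 3137483843) (nat_lit 152) (nat_lit 3234604840)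 (nat_lit 76) (nat_lit 16287991308) (nat_lit 12) (nat_lit 5) (nat_lit 14) (nat_lit 5) (nat_lit 13) (nat_lit 4) (nat_lit 317) (nat_lit 245) (nat_lit 218)) (XT.lf (nat_lit 0) (nat_lit 4534896817) (nat_lit 76) (nat_lit 2474732917) (nat_lit 152) (nat_lit 16563853172) (nat_lit 11) (nat_lit 5) (nat_lit 12) (nat_lit 5) (nat_lit 13) (nat_lit 4) (nat_lit 318) (nat_lit 245) (nat_lit 217))) (XT.nd (nat_lit 78) (nat_lit 76) (nat_lit 0) (XT.lf (nat_lit 0) (nat_lit 11083297999) (nat_lit 152) (nat_lit 11884863142) (nat_lit 0) (nat_lit 1564038350) (nat_lit 11) (nat_lit 5) (nat_lit 13) (nat_lit 4) (nat_lit 11) (nat_lit 4) (nat_lit 319) (nat_lit 245) (nat_lit 216)) (XT.nd (nat_lit 78) (nat_lit 76) (nat_lit 0) (XT.lf (nat_lit 0) (nat_lit 15331679921) (nat_lit 152) (nat_lit 4541705632) (nat_lit 0) (nat_lit 5666952251) (nat_lit 11) (nat_lit 5) (nat_lit 13) (nat_lit 4) (nat_lit 11) (nat_lit 4) (nat_lit 320)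 (nat_lit 245) (nat_lit 215)) (XT.lf (nat_lit 0) (nat_lit 3147755499) (nat_lit 76) (nat_lit 16627642964) (nat_lit 76) (nat_lit 6824374322) (nat_lit 10) (nat_lit 4) (nat_lit 11) (nat_lit 5) (nat_lit 11) (nat_lit 4) (nat_lit 321) (nat_lit 245) (nat_lit 214)))))) (XT.nd (nat_lit 390) (nat_lit 76) (nat_lit 0) (XT.nd (nat_lit 156) (nat_lit 76) (nat_lit 0) (XT.nd (nat_lit 78) (nat_lit 76) (nat_lit 0) (XT.lf (nat_lit 0) (nat_lit 11259726689) (nat_lit 76) (nat_lit 13193550242) (nat_lit 76) (nat_lit 3258337816) (nat_lit 10) (nat_lit 4) (nat_lit 11) (nat_lit 5) (nat_lit 11) (nat_lit 4) (nat_lit 322) (nat_lit 245) (nat_lit 213)) (XT.lf (nat_lit 0) (nat_lit 407550745) (nat_lit 152) (nat_lit 9225394144) (nat_lit 76) (nat_lit 19248900040) (nat_lit 9) (nat_lit 5) (nat_lit 11) (nat_lit 5) (nat_lit 10) (nat_lit 4) (nat_lit 323) (nat_lit 245) (nat_lit 212))) (XT.nd (nat_lit 78) (nat_lit 76) (nat_lit 0)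 (XT.lf (nat_lit 0) (nat_lit 4087332487) (nat_lit 152) (nat_lit 1801518474) (nat_lit 76) (nat_lit 24222089188) (nat_lit 9) (nat_lit 5) (nat_lit 11) (nat_lit 5) (nat_lit 10) (nat_lit 4) (nat_lit 324) (nat_lit 245) (nat_lit 211)) (XT.nd (nat_lit 78) (nat_lit 0) (nat_lit 0) (XT.lf (nat_lit 0) (nat_lit 6082979978) (nat_lit 76) (nat_lit 1906048339) (nat_lit 152) (nat_lit 23410593478) (nat_lit 8) (nat_lit 5) (nat_lit 9) (nat_lit 5) (nat_lit 10) (nat_lit 4) (nat_lit 325) (nat_lit 245) (nat_lit 210)) (XT.lf (nat_lit 0) (nat_lit 12095660526) (nat_lit 152) (nat_lit 18468644335) (nat_lit 0) (nat_lit 2187966669) (nat_lit 8) (nat_lit 5) (nat_lit 10) (nat_lit 4) (nat_lit 8) (nat_lit 4) (nat_lit 326) (nat_lit 245) (nat_lit 209))))) (XT.nd (nat_lit 234) (nat_lit 0) (nat_lit 0) (XT.nd (nat_lit 78) (nat_lit 76) (nat_lit 0) (XT.lf (nat_lit 0) (nat_lit 16384879375) (nat_lit 152) (nat_lit 11410109912) (nat_lit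 0) (nat_lit 6378727035) (nat_lit 8) (nat_lit 5) (nat_lit 10) (nat_lit 4) (nat_lit 8) (nat_lit 4) (nat_lit 327) (nat_lit 245) (nat_lit 208)) (XT.nd (nat_lit 78) (nat_lit 76) (nat_lit 0) (XT.lf (nat_lit 0) (nat_lit 20837138533) (nat_lit 152) (nat_lit 4094473757) (nat_lit 0) (nat_lit 10737216210) (nat_lit 8) (nat_lit 5) (nat_lit 10) (nat_lit 4) (nat_lit 8) (nat_lit 4) (nat_lit 328) (nat_lit 245) (nat_lit 207)) (XT.lf (nat_lit 0) (nat_lit 3611265355) (nat_lit 76) (nat_lit 21908155235) (nat_lit 76) (nat_lit 11718928165) (nat_lit 7) (nat_lit 4) (nat_lit 8) (nat_lit 5) (nat_lit 8) (nat_lit 4) (nat_lit 329) (nat_lit 245) (nat_lit 206)))) (XT.nd (nat_lit 78) (nat_lit 0) (nat_lit 0) (XT.lf (nat_lit 0) (nat_lit 11754652379) (nat_lit 76) (nat_lit 18702464364) (nat_lit 76) (nat_lit 8428185155) (nat_lit 7) (nat_lit 4) (nat_lit 8) (nat_lit 5) (nat_lit 8) (nat_lit 4) (nat_lit 330) (nat_lit 245) (nat_lit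 205)) (XT.nd (nat_lit 78) (nat_lit 0) (nat_lit 0) (XT.lf (nat_lit 0) (nat_lit 20219694536) (nat_lit 76) (nat_lit 15376248974) (nat_lit 76) (nat_lit 5020967727) (nat_lit 7) (nat_lit 4) (nat_lit 8) (nat_lit 5) (nat_lit 8) (nat_lit 4) (nat_lit 331) (nat_lit 245) (nat_lit 204)) (XT.lf (nat_lit 0) (nat_lit 29026546689) (nat_lit 76) (nat_lit 11921589504) (nat_lit 76) (nat_lit 1489163460) (nat_lit 7) (nat_lit 4) (nat_lit 8) (nat_lit 5) (nat_lit 8) (nat_lit 4) (nat_lit 332) (nat_lit 245) (nat_lit 203))))))))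
noncomputable def xc64 : XT := (XT.nd (nat_lit 1560) (nat_lit 0) (nat_lit 0) (XT.nd (nat_lit 780) (nat_lit 152) (nat_lit 0) (XT.nd (nat_lit 390) (nat_lit 76) (nat_lit 0) (XT.nd (nat_lit 156) (nat_lit 0) (nat_lit 0) (XT.nd (nat_lit 78) (nat_lit 76) (nat_lit 0) (XT.lf (nat_lit 0) (nat_lit 2106002741) (nat_lit 152) (nat_lit 6188591659) (nat_lit 76) (nat_lit 36054508617) (nat_lit 6) (nat_lit 5) (nat_lit 8) (nat_lit 5) (nat_lit 7) (nat_lit 4) (nat_lit 333) (nat_lit 245) (nat_lit 202)) (XT.lf (nat_lit 0) (nat_lit 1337868977) (nat_lit 76) (nat_lit 4473710955) (nat_lit 152) (nat_lit 40544678211) (nat_lit 5) (nat_lit 5) (nat_lit 6) (nat_lit 5) (nat_lit 7) (nat_lit 4) (nat_lit 334) (nat_lit 245) (nat_lit 201))) (XT.nd (nat_lit 78) (nat_lit 0) (nat_lit 0) (XT.lf (nat_lit 0) (nat_lit 9381503359) (nat_lit 76) (nat_lit 386308260) (nat_lit 152) (nat_lit 38692706947) (nat_lit 5) (nat_lit 5) (nat_lit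 6) (nat_lit 5) (nat_lit 7) (nat_lit 4) (nat_lit 335) (nat_lit 245) (nat_lit 200)) (XT.nd (nat_lit 78) (nat_lit 0) (nat_lit 0) (XT.lf (nat_lit 0) (nat_lit 13944762590) (nat_lit 152) (nat_lit 32975506204) (nat_lit 0) (nat_lit 3748593374) (nat_lit 5) (nat_lit 5) (nat_lit 7) (nat_lit 4) (nat_lit 5) (nat_lit 4) (nat_lit 336) (nat_lit 245) (nat_lit 199)) (XT.lf (nat_lit 0) (nat_lit 18300639225) (nat_lit 152) (nat_lit 26641591252) (nat_lit 0) (nat_lit 8046903373) (nat_lit 5) (nat_lit 5) (nat_lit 7) (nat_lit 4) (nat_lit 5) (nat_lit 4) (nat_lit 337) (nat_lit 245) (nat_lit 198))))) (XT.nd (nat_lit 156) (nat_lit 76) (nat_lit 0) (XT.nd (nat_lit 78) (nat_lit 0) (nat_lit 0) (XT.lf (nat_lit 0) (nat_lit 22839781305) (nat_lit 152) (nat_lit 20056158245) (nat_lit 0) (nat_lit 12531220085) (nat_lit 5) (nat_lit 5) (nat_lit 7) (nat_lit 4) (nat_lit 5) (nat_lit 4) (nat_lit 338) (nat_lit 245) (nat_lit 197)) (XT.lf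 (nat_lit 0) (nat_lit 27572996309) (nat_lit 152) (nat_lit 13203527583) (nat_lit 0) (nat_lit 17212220455) (nat_lit 5) (nat_lit 5) (nat_lit 7) (nat_lit 4) (nat_lit 5) (nat_lit 4) (nat_lit 339) (nat_lit 245) (nat_lit 196))) (XT.nd (nat_lit 78) (nat_lit 76) (nat_lit 0) (XT.lf (nat_lit 0) (nat_lit 32511553799) (nat_lit 152) (nat_lit 6067383476) (nat_lit 0) (nat_lit 22101049720) (nat_lit 5) (nat_lit 5) (nat_lit 7) (nat_lit 4) (nat_lit 5) (nat_lit 4) (nat_lit 340) (nat_lit 245) (nat_lit 195)) (XT.nd (nat_lit 78) (nat_lit 0) (nat_lit 0) (XT.lf (nat_lit 0) (nat_lit 1414538973) (nat_lit 76) (nat_lit 36274758187) (nat_lit 76) (nat_lit 25816893895) (nat_lit 4) (nat_lit 4) (nat_lit 5) (nat_lit 5) (nat_lit 5) (nat_lit 4) (nat_lit 341) (nat_lit 245) (nat_lit 194)) (XT.lf (nat_lit 0) (nat_lit 9425808570) (nat_lit 76) (nat_lit 33773601737) (nat_lit 76) (nat_lit 23270632480) (nat_lit 4) (nat_lit 4) (nat_lit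 5) (nat_lit 5) (nat_lit 5) (nat_lit 4) (nat_lit 342) (nat_lit 245) (nat_lit 193)))))) (XT.nd (nat_lit 390) (nat_lit 152) (nat_lit 0) (XT.nd (nat_lit 156) (nat_lit 0) (nat_lit 0) (XT.nd (nat_lit 78) (nat_lit 0) (nat_lit 0) (XT.lf (nat_lit 0) (nat_lit 17784884665) (nat_lit 76) (nat_lit 31172266867) (nat_lit 76) (nat_lit 20626340500) (nat_lit 4) (nat_lit 4) (nat_lit 5) (nat_lit 5) (nat_lit 5) (nat_lit 4) (nat_lit 343) (nat_lit 245) (nat_lit 192)) (XT.lf (nat_lit 0) (nat_lit 26511669821) (nat_lit 76) (nat_lit 28464559922) (nat_lit 76) (nat_lit 17877722021) (nat_lit 4) (nat_lit 4) (nat_lit 5) (nat_lit 5) (nat_lit 5) (nat_lit 4) (nat_lit 344) (nat_lit 245) (nat_lit 191))) (XT.nd (nat_lit 78) (nat_lit 0) (nat_lit 0) (XT.lf (nat_lit 0) (nat_lit 35626942097) (nat_lit 76) (nat_lit 25644033980) (nat_lit 76) (nat_lit 15018232715) (nat_lit 4) (nat_lit 4) (nat_lit 5) (nat_lit 5) (nat_lit 5) (nat_lit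 4) (nat_lit 345) (nat_lit 245) (nat_lit 190)) (XT.nd (nat_lit 78) (nat_lit 0) (nat_lit 0) (XT.lf (nat_lit 0) (nat_lit 45152404523) (nat_lit 76) (nat_lit 22703973505) (nat_lit 76) (nat_lit 12041064272) (nat_lit 4) (nat_lit 4) (nat_lit 5) (nat_lit 5) (nat_lit 5) (nat_lit 4) (nat_lit 346) (nat_lit 245) (nat_lit 189)) (XT.lf (nat_lit 0) (nat_lit 55110736771) (nat_lit 76) (nat_lit 19637378350) (nat_lit 76) (nat_lit 8939128197) (nat_lit 4) (nat_lit 4) (nat_lit 5) (nat_lit 5) (nat_lit 5) (nat_lit 4) (nat_lit 347) (nat_lit 245) (nat_lit 188))))) (XT.nd (nat_lit 156) (nat_lit 152) (nat_lit 0) (XT.nd (nat_lit 78) (nat_lit 0) (nat_lit 0) (XT.lf (nat_lit 0) (nat_lit 65525649157) (nat_lit 76) (nat_lit 16436947101) (nat_lit 76) (nat_lit 5705038928) (nat_lit 4) (nat_lit 4) (nat_lit 5) (nat_lit 5) (nat_lit 5) (nat_lit 4) (nat_lit 348) (nat_lit 245) (nat_lit 187)) (XT.lf (nat_lit 0) (nat_lit 76421939090)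 (nat_lit 76) (nat_lit 13095059681) (nat_lit 76) (nat_lit 2331096252) (nat_lit 4) (nat_lit 4) (nat_lit 5) (nat_lit 5) (nat_lit 5) (nat_lit 4) (nat_lit 349) (nat_lit 245) (nat_lit 186))) (XT.nd (nat_lit 78) (nat_lit 76) (nat_lit 0) (XT.lf (nat_lit 0) (nat_lit 1152622133) (nat_lit 152) (nat_lit 8431616870) (nat_lit 76) (nat_lit 86653407770) (nat_lit 3) (nat_lit 5) (nat_lit 5) (nat_lit 5) (nat_lit 4) (nat_lit 4) (nat_lit 350) (nat_lit 245) (nat_lit 185)) (XT.nd (nat_lit 78) (nat_lit 76) (nat_lit 0) (XT.lf (nat_lit 0) (nat_lit 4713001116) (nat_lit 152) (nat_lit 1161915018) (nat_lit 76) (nat_lit 94970815624) (nat_lit 3) (nat_lit 5) (nat_lit 5) (nat_lit 5) (nat_lit 4) (nat_lit 4) (nat_lit 351) (nat_lit 245) (nat_lit 184)) (XT.lf (nat_lit 0) (nat_lit 6649478211) (nat_lit 76) (nat_lit 1887466205) (nat_lit 152) (nat_lit 97143006089) (nat_lit 2) (nat_lit 5) (nat_lit 3) (nat_lit 5) (nat_lit 4) (nat_lit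 4) (nat_lit 352) (nat_lit 245) (nat_lit 183))))))) (XT.nd (nat_lit 780) (nat_lit 0) (nat_lit 0) (XT.nd (nat_lit 390) (nat_lit 0) (nat_lit 0) (XT.nd (nat_lit 156) (nat_lit 0) (nat_lit 0) (XT.nd (nat_lit 78) (nat_lit 0) (nat_lit 0) (XT.lf (nat_lit 0) (nat_lit 12589799348) (nat_lit 152) (nat_lit 95934049641) (nat_lit 0) (nat_lit 2230151936) (nat_lit 2) (nat_lit 5) (nat_lit 4) (nat_lit 4) (nat_lit 2) (nat_lit 4) (nat_lit 353) (nat_lit 245) (nat_lit 182)) (XT.lf (nat_lit 0) (nat_lit 16858919948) (nat_lit 152) (nat_lit 92746806516) (nat_lit 0) (nat_lit 6475352409) (nat_lit 2) (nat_lit 5) (nat_lit 4) (nat_lit 4) (nat_lit 2) (nat_lit 4) (nat_lit 354) (nat_lit 245) (nat_lit 181))) (XT.nd (nat_lit 78) (nat_lit 0) (nat_lit 0) (XT.lf (nat_lit 0) (nat_lit 21325002151) (nat_lit 152) (nat_lit 89431685606) (nat_lit 0) (nat_lit 10918653540) (nat_lit 2) (nat_lit 5) (nat_lit 4) (nat_lit 4) (nat_lit 2)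 (nat_lit 4) (nat_lit 355) (nat_lit 245) (nat_lit 180)) (XT.nd (nat_lit 78) (nat_lit 0) (nat_lit 0) (XT.lf (nat_lit 0) (nat_lit 25998679486) (nat_lit 152) (nat_lit 85980793768) (nat_lit 0) (nat_lit 15570634616) (nat_lit 2) (nat_lit 5) (nat_lit 4) (nat_lit 4) (nat_lit 2) (nat_lit 4) (nat_lit 356) (nat_lit 245) (nat_lit 179)) (XT.lf (nat_lit 0) (nat_lit 30891079758) (nat_lit 152) (nat_lit 82385914593) (nat_lit 0) (nat_lit 20442371783) (nat_lit 2) (nat_lit 5) (nat_lit 4) (nat_lit 4) (nat_lit 2) (nat_lit 4) (nat_lit 357) (nat_lit 245) (nat_lit 178))))) (XT.nd (nat_lit 156) (nat_lit 0) (nat_lit 0) (XT.nd (nat_lit 78) (nat_lit 0) (nat_lit 0) (XT.lf (nat_lit 0) (nat_lit 36013851537) (nat_lit 152) (nat_lit 78638488843) (nat_lit 0) (nat_lit 25545464415) (nat_lit 2) (nat_lit 5) (nat_lit 4) (nat_lit 4) (nat_lit 2) (nat_lit 4) (nat_lit 358) (nat_lit 245) (nat_lit 177)) (XT.lf (nat_lit 0) (nat_lit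 41379191900) (nat_lit 152) (nat_lit 74729594077) (nat_lit 0) (nat_lit 30892062734) (nat_lit 2) (nat_lit 5) (nat_lit 4) (nat_lit 4) (nat_lit 2) (nat_lit 4) (nat_lit 359) (nat_lit 245) (nat_lit 176))) (XT.nd (nat_lit 78) (nat_lit 0) (nat_lit 0) (XT.lf (nat_lit 0) (nat_lit 46999875467) (nat_lit 152) (nat_lit 70649923402) (nat_lit 0) (nat_lit 36494896734) (nat_lit 2) (nat_lit 5) (nat_lit 4) (nat_lit 4) (nat_lit 2) (nat_lit 4) (nat_lit 360) (nat_lit 245) (nat_lit 175)) (XT.nd (nat_lit 78) (nat_lit 0) (nat_lit 0) (XT.lf (nat_lit 0) (nat_lit 52889284817) (nat_lit 152) (nat_lit 66389763318) (nat_lit 0) (nat_lit 42367306497) (nat_lit 2) (nat_lit 5) (nat_lit 4) (nat_lit 4) (nat_lit 2) (nat_lit 4) (nat_lit 361) (nat_lit 245) (nat_lit 174)) (XT.lf (nat_lit 0) (nat_lit 59061442353) (nat_lit 152) (nat_lit 61938970585) (nat_lit 0) (nat_lit 48523273950) (nat_lit 2) (nat_lit 5) (nat_lit 4) (nat_lit 4)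 (nat_lit 2) (nat_lit 4) (nat_lit 362) (nat_lit 245) (nat_lit 173)))))) (XT.nd (nat_lit 390) (nat_lit 0) (nat_lit 0) (XT.nd (nat_lit 156) (nat_lit 0) (nat_lit 0) (XT.nd (nat_lit 78) (nat_lit 0) (nat_lit 0) (XT.lf (nat_lit 0) (nat_lit 65531043690) (nat_lit 152) (nat_lit 57286948078) (nat_lit 0) (nat_lit 54977456160) (nat_lit 2) (nat_lit 5) (nat_lit 4) (nat_lit 4) (nat_lit 2) (nat_lit 4) (nat_lit 363) (nat_lit 245) (nat_lit 172)) (XT.lf (nat_lit 0) (nat_lit 72313492639) (nat_lit 152) (nat_lit 52422619553) (nat_lit 0) (nat_lit 61745220227) (nat_lit 2) (nat_lit 5) (nat_lit 4) (nat_lit 4) (nat_lit 2) (nat_lit 4) (nat_lit 364) (nat_lit 245) (nat_lit 171))) (XT.nd (nat_lit 78) (nat_lit 0) (nat_lit 0) (XT.lf (nat_lit 0) (nat_lit 79424937888) (nat_lit 152) (nat_lit 47334403276) (nat_lit 0) (nat_lit 68842679874) (nat_lit 2) (nat_lit 5) (nat_lit 4) (nat_lit 4) (nat_lit 2) (nat_lit 4) (nat_lit 365)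 (nat_lit 245) (nat_lit 170)) (XT.nd (nat_lit 78) (nat_lit 0) (nat_lit 0) (XT.lf (nat_lit 0) (nat_lit 86882311451) (nat_lit 152) (nat_lit 42010184445) (nat_lit 0) (nat_lit 76286733815) (nat_lit 2) (nat_lit 5) (nat_lit 4) (nat_lit 4) (nat_lit 2) (nat_lit 4) (nat_lit 366) (nat_lit 245) (nat_lit 169)) (XT.lf (nat_lit 0) (nat_lit 94703368978) (nat_lit 152) (nat_lit 36437286349) (nat_lit 0) (nat_lit 84095105988) (nat_lit 2) (nat_lit 5) (nat_lit 4) (nat_lit 4) (nat_lit 2) (nat_lit 4) (nat_lit 367) (nat_lit 245) (nat_lit 168))))) (XT.nd (nat_lit 156) (nat_lit 0) (nat_lit 0) (XT.nd (nat_lit 78) (nat_lit 0) (nat_lit 0) (XT.lf (nat_lit 0) (nat_lit 102906732034) (nat_lit 152) (nat_lit 30602440184) (nat_lit 0) (nat_lit 92286387756) (nat_lit 2) (nat_lit 5) (nat_lit 4) (nat_lit 4) (nat_lit 2) (nat_lit 4) (nat_lit 368) (nat_lit 245) (nat_lit 167)) (XT.lf (nat_lit 0) (nat_lit 111511932438) (nat_lit 152)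 (nat_lit 24491753458) (nat_lit 0) (nat_lit 100880082170) (nat_lit 2) (nat_lit 5) (nat_lit 4) (nat_lit 4) (nat_lit 2) (nat_lit 4) (nat_lit 369) (nat_lit 245) (nat_lit 166))) (XT.nd (nat_lit 78) (nat_lit 0) (nat_lit 0) (XT.lf (nat_lit 0) (nat_lit 120539458760) (nat_lit 152) (nat_lit 18090676917) (nat_lit 0) (nat_lit 109896650407) (nat_lit 2) (nat_lit 5) (nat_lit 4) (nat_lit 4) (nat_lit 2) (nat_lit 4) (nat_lit 370) (nat_lit 245) (nat_lit 165)) (XT.nd (nat_lit 78) (nat_lit 0) (nat_lit 0) (XT.lf (nat_lit 0) (nat_lit 130010805112) (nat_lit 152) (nat_lit 11383969903) (nat_lit 0) (nat_lit 119357560487) (nat_lit 2) (nat_lit 5) (nat_lit 4) (nat_lit 4) (nat_lit 2) (nat_lit 4) (nat_lit 371) (nat_lit 245) (nat_lit 164)) (XT.lf (nat_lit 0) (nat_lit 139948522318) (nat_lit 152) (nat_lit 4355664066) (nat_lit 0) (nat_lit 129285338387) (nat_lit 2) (nat_lit 5) (nat_lit 4) (nat_lit 4) (nat_lit 2) (nat_lit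 4) (nat_lit 372) (nat_lit 245) (nat_lit 163))))))))
noncomputable def xc65 : XT := (XT.nd (nat_lit 34242) (nat_lit 0) (nat_lit 1292) (XT.nd (nat_lit 780) (nat_lit 0) (nat_lit 0) (XT.nd (nat_lit 390) (nat_lit 0) (nat_lit 0) (XT.nd (nat_lit 156) (nat_lit 0) (nat_lit 0) (XT.nd (nat_lit 78) (nat_lit 0) (nat_lit 0) (XT.lf (nat_lit 0) (nat_lit 3110531075) (nat_lit 76) (nat_lit 147314304641) (nat_lit 76) (nat_lit 136641654704) (nat_lit 1) (nat_lit 4) (nat_lit 2) (nat_lit 5) (nat_lit 2) (nat_lit 4) (nat_lit 373) (nat_lit 245) (nat_lit 162)) (XT.lf (nat_lit 0) (nat_lit 11088383394) (nat_lit 76) (nat_lit 150403618306) (nat_lit 76) (nat_lit 139721953124) (nat_lit 1) (nat_lit 4) (nat_lit 2) (nat_lit 5) (nat_lit 2) (nat_lit 4) (nat_lit 374) (nat_lit 245) (nat_lit 161))) (XT.nd (nat_lit 78) (nat_lit 0) (nat_lit 0) (XT.lf (nat_lit 0) (nat_lit 19452869853) (nat_lit 76) (nat_lit 153653248166) (nat_lit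 76) (nat_lit 142962997037) (nat_lit 1) (nat_lit 4) (nat_lit 2) (nat_lit 5) (nat_lit 2) (nat_lit 4) (nat_lit 375) (nat_lit 245) (nat_lit 160)) (XT.nd (nat_lit 78) (nat_lit 0) (nat_lit 0) (XT.lf (nat_lit 0) (nat_lit 28223905895) (nat_lit 76) (nat_lit 157070931434) (nat_lit 76) (nat_lit 146372503214) (nat_lit 1) (nat_lit 4) (nat_lit 2) (nat_lit 5) (nat_lit 2) (nat_lit 4) (nat_lit 376) (nat_lit 245) (nat_lit 159)) (XT.lf (nat_lit 0) (nat_lit 37422374939) (nat_lit 76) (nat_lit 160664805452) (nat_lit 76) (nat_lit 149958589525) (nat_lit 1) (nat_lit 4) (nat_lit 2) (nat_lit 5) (nat_lit 2) (nat_lit 4) (nat_lit 377) (nat_lit 245) (nat_lit 158))))) (XT.nd (nat_lit 156) (nat_lit 0) (nat_lit 0) (XT.nd (nat_lit 78) (nat_lit 0) (nat_lit 0) (XT.lf (nat_lit 0) (nat_lit 47070178102) (nat_lit 76) (nat_lit 164443427064) (nat_lit 76) (nat_lit 153729794273) (nat_lit 1) (nat_lit 4) (nat_lit 2) (nat_lit 5) (nat_lit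 2) (nat_lit 4) (nat_lit 378) (nat_lit 245) (nat_lit 157)) (XT.lf (nat_lit 0) (nat_lit 57190286345) (nat_lit 76) (nat_lit 168415792986) (nat_lit 76) (nat_lit 157695096516) (nat_lit 1) (nat_lit 4) (nat_lit 2) (nat_lit 5) (nat_lit 2) (nat_lit 4) (nat_lit 379) (nat_lit 245) (nat_lit 156))) (XT.nd (nat_lit 78) (nat_lit 0) (nat_lit 0) (XT.lf (nat_lit 0) (nat_lit 67806795162) (nat_lit 76) (nat_lit 172591361234) (nat_lit 76) (nat_lit 161863937450) (nat_lit 1) (nat_lit 4) (nat_lit 2) (nat_lit 5) (nat_lit 2) (nat_lit 4) (nat_lit 380) (nat_lit 245) (nat_lit 155)) (XT.nd (nat_lit 78) (nat_lit 0) (nat_lit 0) (XT.lf (nat_lit 0) (nat_lit 78944981956) (nat_lit 76) (nat_lit 176980073636) (nat_lit 76) (nat_lit 166246242886) (nat_lit 1) (nat_lit 4) (nat_lit 2) (nat_lit 5) (nat_lit 2) (nat_lit 4) (nat_lit 381) (nat_lit 245) (nat_lit 154)) (XT.lf (nat_lit 0) (nat_lit 90631366219) (nat_lit 76) (nat_lit 181592379507)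 (nat_lit 76) (nat_lit 170852446886) (nat_lit 1) (nat_lit 4) (nat_lit 2) (nat_lit 5) (nat_lit 2) (nat_lit 4) (nat_lit 382) (nat_lit 245) (nat_lit 153)))))) (XT.nd (nat_lit 390) (nat_lit 0) (nat_lit 0) (XT.nd (nat_lit 156) (nat_lit 0) (nat_lit 0) (XT.nd (nat_lit 78) (nat_lit 0) (nat_lit 0) (XT.lf (nat_lit 0) (nat_lit 102893772676) (nat_lit 76) (nat_lit 186439260529) (nat_lit 76) (nat_lit 175693516601) (nat_lit 1) (nat_lit 4) (nat_lit 2) (nat_lit 5) (nat_lit 2) (nat_lit 4) (nat_lit 383) (nat_lit 245) (nat_lit 152)) (XT.lf (nat_lit 0) (nat_lit 115761397532) (nat_lit 76) (nat_lit 191532256894) (nat_lit 76) (nat_lit 180780978388) (nat_lit 1) (nat_lit 4) (nat_lit 2) (nat_lit 5) (nat_lit 2) (nat_lit 4) (nat_lit 384) (nat_lit 245) (nat_lit 151))) (XT.nd (nat_lit 78) (nat_lit 0) (nat_lit 0) (XT.lf (nat_lit 0) (nat_lit 129264877989) (nat_lit 76) (nat_lit 196883494784) (nat_lit 76) (nat_lit 186126945252)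 (nat_lit 1) (nat_lit 4) (nat_lit 2) (nat_lit 5) (nat_lit 2) (nat_lit 4) (nat_lit 385) (nat_lit 245) (nat_lit 150)) (XT.nd (nat_lit 78) (nat_lit 0) (nat_lit 0) (XT.lf (nat_lit 0) (nat_lit 143436365192) (nat_lit 76) (nat_lit 202505715241) (nat_lit 76) (nat_lit 191744145684) (nat_lit 1) (nat_lit 4) (nat_lit 2) (nat_lit 5) (nat_lit 2) (nat_lit 4) (nat_lit 386) (nat_lit 245) (nat_lit 149)) (XT.lf (nat_lit 0) (nat_lit 158309600777) (nat_lit 76) (nat_lit 208412304505) (nat_lit 76) (nat_lit 197645953971) (nat_lit 1) (nat_lit 4) (nat_lit 2) (nat_lit 5) (nat_lit 2) (nat_lit 4) (nat_lit 387) (nat_lit 245) (nat_lit 148))))) (XT.nd (nat_lit 32838) (nat_lit 0) (nat_lit 3268) (XT.nd (nat_lit 78) (nat_lit 0) (nat_lit 0) (XT.lf (nat_lit 0) (nat_lit 173919997209) (nat_lit 76) (nat_lit 214617325884) (nat_lit 76) (nat_lit 203846422039) (nat_lit 1) (nat_lit 4) (nat_lit 2) (nat_lit 5) (nat_lit 2) (nat_lit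 4) (nat_lit 388) (nat_lit 245) (nat_lit 147)) (XT.lf (nat_lit 0) (nat_lit 190304722099) (nat_lit 76) (nat_lit 221135553237) (nat_lit 76) (nat_lit 210360312906) (nat_lit 1) (nat_lit 4) (nat_lit 2) (nat_lit 5) (nat_lit 2) (nat_lit 4) (nat_lit 389) (nat_lit 245) (nat_lit 146))) (XT.nd (nat_lit 78) (nat_lit 532) (nat_lit 0) (XT.lf (nat_lit 0) (nat_lit 4226172376) (nat_lit 228) (nat_lit 146183121) (nat_lit 228) (nat_lit 146183121) (nat_lit 51) (nat_lit 4) (nat_lit 54) (nat_lit 5) (nat_lit 54) (nat_lit 4) (nat_lit 288) (nat_lit 246) (nat_lit 246)) (XT.nd (nat_lit 78) (nat_lit 228) (nat_lit 0) (XT.lf (nat_lit 0) (nat_lit 3493772318) (nat_lit 304) (nat_lit 3184971293) (nat_lit 0) (nat_lit 2564889573) (nat_lit 47) (nat_lit 5) (nat_lit 51) (nat_lit 4) (nat_lit 47) (nat_lit 4) (nat_lit 289) (nat_lit 246) (nat_lit 245)) (XT.lf (nat_lit 0) (nat_lit 3477876874) (nat_lit 228) (nat_lit 3900115448) (nat_lit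 228) (nat_lit 2086582469) (nat_lit 44) (nat_lit 4) (nat_lit 47) (nat_lit 5) (nat_lit 47) (nat_lit 4) (nat_lit 290) (nat_lit 246) (nat_lit 244))))))) (XT.nd (nat_lit 780) (nat_lit 684) (nat_lit 0) (XT.nd (nat_lit 390) (nat_lit 608) (nat_lit 0) (XT.nd (nat_lit 156) (nat_lit 456) (nat_lit 0) (XT.nd (nat_lit 78) (nat_lit 0) (nat_lit 0) (XT.lf (nat_lit 0) (nat_lit 663636837) (nat_lit 152) (nat_lit 955726014) (nat_lit 228) (nat_lit 8080241686) (nat_lit 41) (nat_lit 5) (nat_lit 43) (nat_lit 5) (nat_lit 44) (nat_lit 4) (nat_lit 291) (nat_lit 246) (nat_lit 243)) (XT.lf (nat_lit 0) (nat_lit 5430156825) (nat_lit 228) (nat_lit 2378846862) (nat_lit 0) (nat_lit 2136384587) (nat_lit 41) (nat_lit 5) (nat_lit 44) (nat_lit 4) (nat_lit 41) (nat_lit 4) (nat_lit 292) (nat_lit 246) (nat_lit 242))) (XT.nd (nat_lit 78) (nat_lit 228) (nat_lit 0) (XT.lf (nat_lit 0) (nat_lit 4528352260) (nat_lit 228) (nat_lit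 4849770337) (nat_lit 228) (nat_lit 828194162) (nat_lit 38) (nat_lit 4) (nat_lit 41) (nat_lit 5) (nat_lit 41) (nat_lit 4) (nat_lit 293) (nat_lit 246) (nat_lit 241)) (XT.nd (nat_lit 78) (nat_lit 0) (nat_lit 0) (XT.lf (nat_lit 0) (nat_lit 1160819502) (nat_lit 152) (nat_lit 1705298684) (nat_lit 228) (nat_lit 7615951388) (nat_lit 35) (nat_lit 5) (nat_lit 37) (nat_lit 5) (nat_lit 38) (nat_lit 4) (nat_lit 294) (nat_lit 246) (nat_lit 240)) (XT.lf (nat_lit 0) (nat_lit 6703392191) (nat_lit 228) (nat_lit 2483921119) (nat_lit 0) (nat_lit 1584475614) (nat_lit 35) (nat_lit 5) (nat_lit 38) (nat_lit 4) (nat_lit 35) (nat_lit 4) (nat_lit 295) (nat_lit 246) (nat_lit 239))))) (XT.nd (nat_lit 156) (nat_lit 228) (nat_lit 0) (XT.nd (nat_lit 78) (nat_lit 228) (nat_lit 0) (XT.lf (nat_lit 0) (nat_lit 4609410095) (nat_lit 152) (nat_lit 6092964292) (nat_lit 152) (nat_lit 375281616) (nat_lit 33) (nat_lit 4) (nat_lit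 35) (nat_lit 5) (nat_lit 35) (nat_lit 4) (nat_lit 296) (nat_lit 246) (nat_lit 238)) (XT.lf (nat_lit 0) (nat_lit 501055972) (nat_lit 152) (nat_lit 2810647479) (nat_lit 228) (nat_lit 8088452680) (nat_lit 30) (nat_lit 5) (nat_lit 32) (nat_lit 5) (nat_lit 33) (nat_lit 4) (nat_lit 297) (nat_lit 246) (nat_lit 237))) (XT.nd (nat_lit 78) (nat_lit 228) (nat_lit 0) (XT.lf (nat_lit 0) (nat_lit 7164209425) (nat_lit 228) (nat_lit 3916245893) (nat_lit 0) (nat_lit 658462180) (nat_lit 30) (nat_lit 5) (nat_lit 33) (nat_lit 4) (nat_lit 30) (nat_lit 4) (nat_lit 298) (nat_lit 246) (nat_lit 236)) (XT.nd (nat_lit 78) (nat_lit 76) (nat_lit 0) (XT.lf (nat_lit 0) (nat_lit 3276000441) (nat_lit 152) (nat_lit 7909153066) (nat_lit 152) (nat_lit 910799468) (nat_lit 28) (nat_lit 4) (nat_lit 30) (nat_lit 5) (nat_lit 30) (nat_lit 4) (nat_lit 299) (nat_lit 246) (nat_lit 235)) (XT.lf (nat_lit 0) (nat_lit 2788993903) (nat_lit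 228) (nat_lit 1750065001) (nat_lit 76) (nat_lit 7932270558) (nat_lit 27) (nat_lit 5) (nat_lit 30) (nat_lit 5) (nat_lit 28) (nat_lit 4) (nat_lit 300) (nat_lit 246) (nat_lit 234)))))) (XT.nd (nat_lit 390) (nat_lit 304) (nat_lit 0) (XT.nd (nat_lit 156) (nat_lit 304) (nat_lit 0) (XT.nd (nat_lit 78) (nat_lit 0) (nat_lit 0) (XT.lf (nat_lit 0) (nat_lit 5649262159) (nat_lit 76) (nat_lit 967114984) (nat_lit 152) (nat_lit 6249800056) (nat_lit 26) (nat_lit 5) (nat_lit 27) (nat_lit 5) (nat_lit 28) (nat_lit 4) (nat_lit 301) (nat_lit 246) (nat_lit 233)) (XT.lf (nat_lit 0) (nat_lit 10595114936) (nat_lit 152) (nat_lit 35349903) (nat_lit 0) (nat_lit 2652407436) (nat_lit 26) (nat_lit 5) (nat_lit 28) (nat_lit 4) (nat_lit 26) (nat_lit 4) (nat_lit 302) (nat_lit 246) (nat_lit 232))) (XT.nd (nat_lit 78) (nat_lit 76) (nat_lit 0) (XT.lf (nat_lit 0) (nat_lit 1044551564) (nat_lit 228) (nat_lit 6187346759) (nat_lit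 76) (nat_lit 6486484428) (nat_lit 23) (nat_lit 5) (nat_lit 26) (nat_lit 5) (nat_lit 24) (nat_lit 4) (nat_lit 303) (nat_lit 246) (nat_lit 231)) (XT.nd (nat_lit 78) (nat_lit 0) (nat_lit 0) (XT.lf (nat_lit 0) (nat_lit 1109748382) (nat_lit 76) (nat_lit 3673674199) (nat_lit 152) (nat_lit 9394619474) (nat_lit 22) (nat_lit 5) (nat_lit 23) (nat_lit 5) (nat_lit 24) (nat_lit 4) (nat_lit 304) (nat_lit 246) (nat_lit 230)) (XT.lf (nat_lit 0) (nat_lit 8710202534) (nat_lit 152) (nat_lit 5855892013) (nat_lit 0) (nat_lit 94627251) (nat_lit 22) (nat_lit 5) (nat_lit 24) (nat_lit 4) (nat_lit 22) (nat_lit 4) (nat_lit 305) (nat_lit 246) (nat_lit 229))))) (XT.nd (nat_lit 156) (nat_lit 76) (nat_lit 0) (XT.nd (nat_lit 78) (nat_lit 76) (nat_lit 0) (XT.lf (nat_lit 0) (nat_lit 1530399354) (nat_lit 152) (nat_lit 11285598865) (nat_lit 152) (nat_lit 2352485135) (nat_lit 20) (nat_lit 4) (nat_lit 22) (nat_lit 5) (nat_lit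 22) (nat_lit 4) (nat_lit 306) (nat_lit 246) (nat_lit 228)) (XT.lf (nat_lit 0) (nat_lit 1379615865) (nat_lit 228) (nat_lit 6407318775) (nat_lit 76) (nat_lit 7913670228) (nat_lit 19) (nat_lit 5) (nat_lit 22) (nat_lit 5) (nat_lit 20) (nat_lit 4) (nat_lit 307) (nat_lit 246) (nat_lit 227))) (XT.nd (nat_lit 78) (nat_lit 0) (nat_lit 0) (XT.lf (nat_lit 0) (nat_lit 1011093066) (nat_lit 76) (nat_lit 4127756249) (nat_lit 152) (nat_lit 11122646100) (nat_lit 18) (nat_lit 5) (nat_lit 19) (nat_lit 5) (nat_lit 20) (nat_lit 4) (nat_lit 308) (nat_lit 246) (nat_lit 226)) (XT.nd (nat_lit 78) (nat_lit 0) (nat_lit 0) (XT.lf (nat_lit 0) (nat_lit 8857890170) (nat_lit 76) (nat_lit 242470732) (nat_lit 152) (nat_lit 7749420948) (nat_lit 18) (nat_lit 5) (nat_lit 19) (nat_lit 5) (nat_lit 20) (nat_lit 4) (nat_lit 309) (nat_lit 246) (nat_lit 225)) (XT.lf (nat_lit 0) (nat_lit 13229093926) (nat_lit 152) (nat_lit 590986535)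 (nat_lit 0) (nat_lit 3649008835) (nat_lit 18) (nat_lit 5) (nat_lit 20) (nat_lit 4) (nat_lit 18) (nat_lit 4) (nat_lit 310) (nat_lit 246) (nat_lit 224))))))))
noncomputable def xc66 : XT := (XT.nd (nat_lit 1560) (nat_lit 228) (nat_lit 0) (XT.nd (nat_lit 780) (nat_lit 304) (nat_lit 0) (XT.nd (nat_lit 390) (nat_lit 228) (nat_lit 0) (XT.nd (nat_lit 156) (nat_lit 76) (nat_lit 0) (XT.nd (nat_lit 78) (nat_lit 76) (nat_lit 0) (XT.lf (nat_lit 0) (nat_lit 7255226740) (nat_lit 152) (nat_lit 10339846499) (nat_lit 152) (nat_lit 522809330) (nat_lit 16) (nat_lit 4) (nat_lit 18) (nat_lit 5) (nat_lit 18) (nat_lit 4) (nat_lit 311) (nat_lit 246) (nat_lit 223)) (XT.lf (nat_lit 0) (nat_lit 3196102422) (nat_lit 228) (nat_lit 3490695848) (nat_lit 76) (nat_lit 12113531007) (nat_lit 15) (nat_lit 5) (nat_lit 18) (nat_lit 5) (nat_lit 16) (nat_lit 4) (nat_lit 312) (nat_lit 246) (nat_lit 222))) (XT.nd (nat_lit 78)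 (nat_lit 0) (nat_lit 0) (XT.lf (nat_lit 0) (nat_lit 4230591958) (nat_lit 76) (nat_lit 2836832574) (nat_lit 152) (nat_lit 12449896165) (nat_lit 14) (nat_lit 5) (nat_lit 15) (nat_lit 5) (nat_lit 16) (nat_lit 4) (nat_lit 313) (nat_lit 246) (nat_lit 221)) (XT.nd (nat_lit 78) (nat_lit 0) (nat_lit 0) (XT.lf (nat_lit 0) (nat_lit 11129876485) (nat_lit 152) (nat_lit 7974691568) (nat_lit 0) (nat_lit 1165765582) (nat_lit 14) (nat_lit 5) (nat_lit 16) (nat_lit 4) (nat_lit 14) (nat_lit 4) (nat_lit 314) (nat_lit 246) (nat_lit 220)) (XT.lf (nat_lit 0) (nat_lit 15364484775) (nat_lit 152) (nat_lit 483392782) (nat_lit 0) (nat_lit 5214715719) (nat_lit 14) (nat_lit 5) (nat_lit 16) (nat_lit 4) (nat_lit 14) (nat_lit 4) (nat_lit 315) (nat_lit 246) (nat_lit 219))))) (XT.nd (nat_lit 156) (nat_lit 76) (nat_lit 0) (XT.nd (nat_lit 78) (nat_lit 76) (nat_lit 0) (XT.lf (nat_lit 0) (nat_lit 7488989377) (nat_lit 76)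 (nat_lit 12364975632) (nat_lit 76) (nat_lit 2038389287) (nat_lit 13) (nat_lit 4) (nat_lit 14) (nat_lit 5) (nat_lit 14) (nat_lit 4) (nat_lit 316) (nat_lit 246) (nat_lit 218)) (XT.lf (nat_lit 0) (nat_lit 1681344957) (nat_lit 152) (nat_lit 7048226600) (nat_lit 76) (nat_lit 14035925610) (nat_lit 12) (nat_lit 5) (nat_lit 14) (nat_lit 5) (nat_lit 13) (nat_lit 4) (nat_lit 317) (nat_lit 246) (nat_lit 217))) (XT.nd (nat_lit 78) (nat_lit 0) (nat_lit 0) (XT.lf (nat_lit 0) (nat_lit 531107480) (nat_lit 76) (nat_lit 4925707025) (nat_lit 152) (nat_lit 18226938555) (nat_lit 11) (nat_lit 5) (nat_lit 12) (nat_lit 5) (nat_lit 13) (nat_lit 4) (nat_lit 318) (nat_lit 246) (nat_lit 216)) (XT.nd (nat_lit 78) (nat_lit 0) (nat_lit 0) (XT.lf (nat_lit 0) (nat_lit 8609013790) (nat_lit 76) (nat_lit 862750828) (nat_lit 152) (nat_lit 15173659184) (nat_lit 11) (nat_lit 5) (nat_lit 12) (nat_lit 5) (nat_lit 13) (nat_lit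 4) (nat_lit 319) (nat_lit 246) (nat_lit 215)) (XT.lf (nat_lit 0) (nat_lit 13674370358) (nat_lit 152) (nat_lit 8739100635) (nat_lit 0) (nat_lit 3242397311) (nat_lit 11) (nat_lit 5) (nat_lit 13) (nat_lit 4) (nat_lit 11) (nat_lit 4) (nat_lit 320) (nat_lit 246) (nat_lit 214)))))) (XT.nd (nat_lit 390) (nat_lit 76) (nat_lit 0) (XT.nd (nat_lit 156) (nat_lit 152) (nat_lit 0) (XT.nd (nat_lit 78) (nat_lit 76) (nat_lit 0) (XT.lf (nat_lit 0) (nat_lit 18038175783) (nat_lit 152) (nat_lit 1206880757) (nat_lit 0) (nat_lit 7474258952) (nat_lit 11) (nat_lit 5) (nat_lit 13) (nat_lit 4) (nat_lit 11) (nat_lit 4) (nat_lit 321) (nat_lit 246) (nat_lit 213)) (XT.lf (nat_lit 0) (nat_lit 6809603267) (nat_lit 76) (nat_lit 15856814671) (nat_lit 76) (nat_lit 5167237095) (nat_lit 10) (nat_lit 4) (nat_lit 11) (nat_lit 5) (nat_lit 11) (nat_lit 4) (nat_lit 322) (nat_lit 246) (nat_lit 212))) (XT.nd (nat_lit 78) (nat_lit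 152) (nat_lit 0) (XT.lf (nat_lit 0) (nat_lit 15160293969) (nat_lit 76) (nat_lit 12327313048) (nat_lit 76) (nat_lit 1518058571) (nat_lit 10) (nat_lit 4) (nat_lit 11) (nat_lit 5) (nat_lit 11) (nat_lit 4) (nat_lit 323) (nat_lit 246) (nat_lit 211)) (XT.nd (nat_lit 78) (nat_lit 76) (nat_lit 0) (XT.lf (nat_lit 0) (nat_lit 2182482543) (nat_lit 152) (nat_lit 6449143264) (nat_lit 76) (nat_lit 21605725075) (nat_lit 9) (nat_lit 5) (nat_lit 11) (nat_lit 5) (nat_lit 10) (nat_lit 4) (nat_lit 324) (nat_lit 246) (nat_lit 210)) (XT.lf (nat_lit 0) (nat_lit 1231163461) (nat_lit 76) (nat_lit 4750761619) (nat_lit 152) (nat_lit 25549233082) (nat_lit 8) (nat_lit 5) (nat_lit 9) (nat_lit 5) (nat_lit 10) (nat_lit 4) (nat_lit 325) (nat_lit 246) (nat_lit 209))))) (XT.nd (nat_lit 156) (nat_lit 76) (nat_lit 0) (XT.nd (nat_lit 78) (nat_lit 0) (nat_lit 0) (XT.lf (nat_lit 0) (nat_lit 9420750418) (nat_lit 76) (nat_lit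 606525084) (nat_lit 152) (nat_lit 22859608837) (nat_lit 8) (nat_lit 5) (nat_lit 9) (nat_lit 5) (nat_lit 10) (nat_lit 4) (nat_lit 326) (nat_lit 246) (nat_lit 208)) (XT.lf (nat_lit 0) (nat_lit 14281941559) (nat_lit 152) (nat_lit 16444873839) (nat_lit 0) (nat_lit 3583253135) (nat_lit 8) (nat_lit 5) (nat_lit 10) (nat_lit 4) (nat_lit 8) (nat_lit 4) (nat_lit 327) (nat_lit 246) (nat_lit 207))) (XT.nd (nat_lit 78) (nat_lit 76) (nat_lit 0) (XT.lf (nat_lit 0) (nat_lit 18710311921) (nat_lit 152) (nat_lit 9173755681) (nat_lit 0) (nat_lit 7922318752) (nat_lit 8) (nat_lit 5) (nat_lit 10) (nat_lit 4) (nat_lit 8) (nat_lit 4) (nat_lit 328) (nat_lit 246) (nat_lit 206)) (XT.nd (nat_lit 78) (nat_lit 76) (nat_lit 0) (XT.lf (nat_lit 0) (nat_lit 23313460772) (nat_lit 152) (nat_lit 1625997705) (nat_lit 0) (nat_lit 12440415463) (nat_lit 8) (nat_lit 5) (nat_lit 10) (nat_lit 4) (nat_lit 8) (nat_lit 4) (nat_lit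 329) (nat_lit 246) (nat_lit 205)) (XT.lf (nat_lit 0) (nat_lit 6421912238) (nat_lit 76) (nat_lit 21780699798) (nat_lit 76) (nat_lit 10826652452) (nat_lit 7) (nat_lit 4) (nat_lit 8) (nat_lit 5) (nat_lit 8) (nat_lit 4) (nat_lit 330) (nat_lit 246) (nat_lit 204))))))) (XT.nd (nat_lit 780) (nat_lit 76) (nat_lit 0) (XT.nd (nat_lit 390) (nat_lit 0) (nat_lit 0) (XT.nd (nat_lit 156) (nat_lit 152) (nat_lit 0) (XT.nd (nat_lit 78) (nat_lit 0) (nat_lit 0) (XT.lf (nat_lit 0) (nat_lit 14847226536) (nat_lit 76) (nat_lit 18472955964) (nat_lit 76) (nat_lit 7441763820) (nat_lit 7) (nat_lit 4) (nat_lit 8) (nat_lit 5) (nat_lit 8) (nat_lit 4) (nat_lit 331) (nat_lit 246) (nat_lit 203)) (XT.lf (nat_lit 0) (nat_lit 23616242632) (nat_lit 76) (nat_lit 15035888452) (nat_lit 76) (nat_lit 3931225073) (nat_lit 7) (nat_lit 4) (nat_lit 8) (nat_lit 5) (nat_lit 8) (nat_lit 4) (nat_lit 332) (nat_lit 246) (nat_lit 202)))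 (XT.nd (nat_lit 78) (nat_lit 152) (nat_lit 0) (XT.lf (nat_lit 0) (nat_lit 32749839137) (nat_lit 76) (nat_lit 11461313770) (nat_lit 76) (nat_lit 286677786) (nat_lit 7) (nat_lit 4) (nat_lit 8) (nat_lit 5) (nat_lit 8) (nat_lit 4) (nat_lit 333) (nat_lit 246) (nat_lit 201)) (XT.nd (nat_lit 78) (nat_lit 76) (nat_lit 0) (XT.lf (nat_lit 0) (nat_lit 3388515897) (nat_lit 152) (nat_lit 4294818970) (nat_lit 76) (nat_lit 38823860655) (nat_lit 6) (nat_lit 5) (nat_lit 8) (nat_lit 5) (nat_lit 7) (nat_lit 4) (nat_lit 334) (nat_lit 246) (nat_lit 200)) (XT.lf (nat_lit 0) (nat_lit 3572429177) (nat_lit 76) (nat_lit 3684728361) (nat_lit 152) (nat_lit 41358685493) (nat_lit 5) (nat_lit 5) (nat_lit 6) (nat_lit 5) (nat_lit 7) (nat_lit 4) (nat_lit 335) (nat_lit 246) (nat_lit 199))))) (XT.nd (nat_lit 156) (nat_lit 0) (nat_lit 0) (XT.nd (nat_lit 78) (nat_lit 0) (nat_lit 0) (XT.lf (nat_lit 0) (nat_lit 11364925656)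 (nat_lit 152) (nat_lit 38921790966) (nat_lit 0) (nat_lit 540936376) (nat_lit 5) (nat_lit 5) (nat_lit 7) (nat_lit 4) (nat_lit 5) (nat_lit 4) (nat_lit 336) (nat_lit 246) (nat_lit 198)) (XT.lf (nat_lit 0) (nat_lit 15703959175) (nat_lit 152) (nat_lit 32619670011) (nat_lit 0) (nat_lit 4825144528) (nat_lit 5) (nat_lit 5) (nat_lit 7) (nat_lit 4) (nat_lit 5) (nat_lit 4) (nat_lit 337) (nat_lit 246) (nat_lit 197))) (XT.nd (nat_lit 78) (nat_lit 0) (nat_lit 0) (XT.lf (nat_lit 0) (nat_lit 20227060191) (nat_lit 152) (nat_lit 26064517001) (nat_lit 0) (nat_lit 9296030909) (nat_lit 5) (nat_lit 5) (nat_lit 7) (nat_lit 4) (nat_lit 5) (nat_lit 4) (nat_lit 338) (nat_lit 246) (nat_lit 196)) (XT.nd (nat_lit 78) (nat_lit 0) (nat_lit 0) (XT.lf (nat_lit 0) (nat_lit 24944997994) (nat_lit 152) (nat_lit 19240724431) (nat_lit 0) (nat_lit 13964240486) (nat_lit 5) (nat_lit 5) (nat_lit 7) (nat_lit 4) (nat_lit 5) (nat_lit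 4) (nat_lit 339) (nat_lit 246) (nat_lit 195)) (XT.lf (nat_lit 0) (nat_lit 29869005766) (nat_lit 152) (nat_lit 12132045174) (nat_lit 0) (nat_lit 18840888046) (nat_lit 5) (nat_lit 5) (nat_lit 7) (nat_lit 4) (nat_lit 5) (nat_lit 4) (nat_lit 340) (nat_lit 246) (nat_lit 194)))))) (XT.nd (nat_lit 390) (nat_lit 0) (nat_lit 0) (XT.nd (nat_lit 156) (nat_lit 0) (nat_lit 0) (XT.nd (nat_lit 78) (nat_lit 76) (nat_lit 0) (XT.lf (nat_lit 0) (nat_lit 35010807338) (nat_lit 152) (nat_lit 4721553805) (nat_lit 0) (nat_lit 23937584652) (nat_lit 5) (nat_lit 5) (nat_lit 7) (nat_lit 4) (nat_lit 5) (nat_lit 4) (nat_lit 341) (nat_lit 246) (nat_lit 193)) (XT.lf (nat_lit 0) (nat_lit 3107864786) (nat_lit 76) (nat_lit 37323302785) (nat_lit 76) (nat_lit 26207122990) (nat_lit 4) (nat_lit 4) (nat_lit 5) (nat_lit 5) (nat_lit 5) (nat_lit 4) (nat_lit 342) (nat_lit 246) (nat_lit 192))) (XT.nd (nat_lit 78) (nat_lit 0) (nat_lit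 0) (XT.lf (nat_lit 0) (nat_lit 11442431250) (nat_lit 76) (nat_lit 34733526290) (nat_lit 76) (nat_lit 23576434961) (nat_lit 4) (nat_lit 4) (nat_lit 5) (nat_lit 5) (nat_lit 5) (nat_lit 4) (nat_lit 343) (nat_lit 246) (nat_lit 191)) (XT.nd (nat_lit 78) (nat_lit 0) (nat_lit 0) (XT.lf (nat_lit 0) (nat_lit 20145873900) (nat_lit 76) (nat_lit 32036827321) (nat_lit 76) (nat_lit 20840772627) (nat_lit 4) (nat_lit 4) (nat_lit 5) (nat_lit 5) (nat_lit 5) (nat_lit 4) (nat_lit 344) (nat_lit 246) (nat_lit 190)) (XT.lf (nat_lit 0) (nat_lit 29238915218) (nat_lit 76) (nat_lit 29226785166) (nat_lit 76) (nat_lit 17993622505) (nat_lit 4) (nat_lit 4) (nat_lit 5) (nat_lit 5) (nat_lit 5) (nat_lit 4) (nat_lit 345) (nat_lit 246) (nat_lit 189))))) (XT.nd (nat_lit 156) (nat_lit 0) (nat_lit 0) (XT.nd (nat_lit 78) (nat_lit 0) (nat_lit 0) (XT.lf (nat_lit 0) (nat_lit 38743205303) (nat_lit 76) (nat_lit 26296709249) (nat_lit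 76) (nat_lit 15028205668) (nat_lit 4) (nat_lit 4) (nat_lit 5) (nat_lit 5) (nat_lit 5) (nat_lit 4) (nat_lit 346) (nat_lit 246) (nat_lit 188)) (XT.lf (nat_lit 0) (nat_lit 48681373417) (nat_lit 76) (nat_lit 23239623198) (nat_lit 76) (nat_lit 11937461598) (nat_lit 4) (nat_lit 4) (nat_lit 5) (nat_lit 5) (nat_lit 5) (nat_lit 4) (nat_lit 347) (nat_lit 246) (nat_lit 187))) (XT.nd (nat_lit 78) (nat_lit 0) (nat_lit 0) (XT.lf (nat_lit 0) (nat_lit 59077081865) (nat_lit 76) (nat_lit 20048248238) (nat_lit 76) (nat_lit 8714031380) (nat_lit 4) (nat_lit 4) (nat_lit 5) (nat_lit 5) (nat_lit 5) (nat_lit 4) (nat_lit 348) (nat_lit 246) (nat_lit 186)) (XT.nd (nat_lit 78) (nat_lit 0) (nat_lit 0) (XT.lf (nat_lit 0) (nat_lit 69955082333) (nat_lit 76) (nat_lit 16714985856) (nat_lit 76) (nat_lit 5350240182) (nat_lit 4) (nat_lit 4) (nat_lit 5) (nat_lit 5) (nat_lit 5) (nat_lit 4) (nat_lit 349) (nat_lit 246) (nat_lit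 185)) (XT.lf (nat_lit 0) (nat_lit 81341274824) (nat_lit 76) (nat_lit 13231899713) (nat_lit 76) (nat_lit 1838078977) (nat_lit 4) (nat_lit 4) (nat_lit 5) (nat_lit 5) (nat_lit 5) (nat_lit 4) (nat_lit 350) (nat_lit 246) (nat_lit 184))))))))
noncomputable def xc67 : XT := (XT.nd (nat_lit 1560) (nat_lit 76) (nat_lit 0) (XT.nd (nat_lit 780) (nat_lit 0) (nat_lit 0) (XT.nd (nat_lit 390) (nat_lit 0) (nat_lit 0) (XT.nd (nat_lit 156) (nat_lit 76) (nat_lit 0) (XT.nd (nat_lit 78) (nat_lit 0) (nat_lit 0) (XT.lf (nat_lit 0) (nat_lit 1772217025) (nat_lit 152) (nat_lit 7788466369) (nat_lit 76) (nat_lit 91460538940) (nat_lit 3) (nat_lit 5) (nat_lit 5) (nat_lit 5) (nat_lit 4) (nat_lit 4) (nat_lit 351) (nat_lit 246) (nat_lit 183)) (XT.lf (nat_lit 0) (nat_lit 5483854777) (nat_lit 152) (nat_lit 205980917) (nat_lit 76) (nat_lit 100171223816) (nat_lit 3) (nat_lit 5) (nat_lit 5) (nat_lit 5) (nat_lit 4) (nat_lit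 4) (nat_lit 352) (nat_lit 246) (nat_lit 182))) (XT.nd (nat_lit 78) (nat_lit 0) (nat_lit 0) (XT.lf (nat_lit 0) (nat_lit 7979626654) (nat_lit 76) (nat_lit 1509459198) (nat_lit 152) (nat_lit 101448408272) (nat_lit 2) (nat_lit 5) (nat_lit 3) (nat_lit 5) (nat_lit 4) (nat_lit 4) (nat_lit 353) (nat_lit 246) (nat_lit 181)) (XT.nd (nat_lit 78) (nat_lit 0) (nat_lit 0) (XT.lf (nat_lit 0) (nat_lit 13726593501) (nat_lit 152) (nat_lit 99762415687) (nat_lit 0) (nat_lit 2777146387) (nat_lit 2) (nat_lit 5) (nat_lit 4) (nat_lit 4) (nat_lit 2) (nat_lit 4) (nat_lit 354) (nat_lit 246) (nat_lit 180)) (XT.lf (nat_lit 0) (nat_lit 18185012788) (nat_lit 152) (nat_lit 96461921664) (nat_lit 0) (nat_lit 7213869415) (nat_lit 2) (nat_lit 5) (nat_lit 4) (nat_lit 4) (nat_lit 2) (nat_lit 4) (nat_lit 355) (nat_lit 246) (nat_lit 179))))) (XT.nd (nat_lit 156) (nat_lit 0) (nat_lit 0) (XT.nd (nat_lit 78) (nat_lit 0) (nat_lit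 0) (XT.lf (nat_lit 0) (nat_lit 22851392109) (nat_lit 152) (nat_lit 93024960194) (nat_lit 0) (nat_lit 11859585631) (nat_lit 2) (nat_lit 5) (nat_lit 4) (nat_lit 4) (nat_lit 2) (nat_lit 4) (nat_lit 356) (nat_lit 246) (nat_lit 178)) (XT.lf (nat_lit 0) (nat_lit 27736841890) (nat_lit 152) (nat_lit 89443348035) (nat_lit 0) (nat_lit 16725356265) (nat_lit 2) (nat_lit 5) (nat_lit 4) (nat_lit 4) (nat_lit 2) (nat_lit 4) (nat_lit 357) (nat_lit 246) (nat_lit 177))) (XT.nd (nat_lit 78) (nat_lit 0) (nat_lit 0) (XT.lf (nat_lit 0) (nat_lit 32852994154) (nat_lit 152) (nat_lit 85708557540) (nat_lit 0) (nat_lit 21822766485) (nat_lit 2) (nat_lit 5) (nat_lit 4) (nat_lit 4) (nat_lit 2) (nat_lit 4) (nat_lit 358) (nat_lit 246) (nat_lit 176)) (XT.nd (nat_lit 78) (nat_lit 0) (nat_lit 0) (XT.lf (nat_lit 0) (nat_lit 38212030218) (nat_lit 152) (nat_lit 81811696349) (nat_lit 0) (nat_lit 27163952982) (nat_lit 2) (nat_lit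 5) (nat_lit 4) (nat_lit 4) (nat_lit 2) (nat_lit 4) (nat_lit 359) (nat_lit 246) (nat_lit 175)) (XT.lf (nat_lit 0) (nat_lit 43826709689) (nat_lit 152) (nat_lit 77743486223) (nat_lit 0) (nat_lit 32761632866) (nat_lit 2) (nat_lit 5) (nat_lit 4) (nat_lit 4) (nat_lit 2) (nat_lit 4) (nat_lit 360) (nat_lit 246) (nat_lit 174)))))) (XT.nd (nat_lit 390) (nat_lit 0) (nat_lit 0) (XT.nd (nat_lit 156) (nat_lit 0) (nat_lit 0) (XT.nd (nat_lit 78) (nat_lit 0) (nat_lit 0) (XT.lf (nat_lit 0) (nat_lit 49710400853) (nat_lit 152) (nat_lit 73494240946) (nat_lit 0) (nat_lit 38629133947) (nat_lit 2) (nat_lit 5) (nat_lit 4) (nat_lit 4) (nat_lit 2) (nat_lit 4) (nat_lit 361) (nat_lit 246) (nat_lit 173)) (XT.lf (nat_lit 0) (nat_lit 55877112499) (nat_lit 152) (nat_lit 69053843268) (nat_lit 0) (nat_lit 44780426466) (nat_lit 2) (nat_lit 5) (nat_lit 4) (nat_lit 4) (nat_lit 2) (nat_lit 4) (nat_lit 362) (nat_lit 246) (nat_lit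 172))) (XT.nd (nat_lit 78) (nat_lit 0) (nat_lit 0) (XT.lf (nat_lit 0) (nat_lit 62341527272) (nat_lit 152) (nat_lit 64411720813) (nat_lit 0) (nat_lit 51230156357) (nat_lit 2) (nat_lit 5) (nat_lit 4) (nat_lit 4) (nat_lit 2) (nat_lit 4) (nat_lit 363) (nat_lit 246) (nat_lit 171)) (XT.nd (nat_lit 78) (nat_lit 0) (nat_lit 0) (XT.lf (nat_lit 0) (nat_lit 69119036637) (nat_lit 152) (nat_lit 59556820910) (nat_lit 0) (nat_lit 57993680120) (nat_lit 2) (nat_lit 5) (nat_lit 4) (nat_lit 4) (nat_lit 2) (nat_lit 4) (nat_lit 364) (nat_lit 246) (nat_lit 170)) (XT.lf (nat_lit 0) (nat_lit 76225777521) (nat_lit 152) (nat_lit 54477584272) (nat_lit 0) (nat_lit 65087101383) (nat_lit 2) (nat_lit 5) (nat_lit 4) (nat_lit 4) (nat_lit 2) (nat_lit 4) (nat_lit 365) (nat_lit 246) (nat_lit 169))))) (XT.nd (nat_lit 156) (nat_lit 0) (nat_lit 0) (XT.nd (nat_lit 78) (nat_lit 0) (nat_lit 0) (XT.lf (nat_lit 0) (nat_lit 83678670736)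 (nat_lit 152) (nat_lit 49161917478) (nat_lit 0) (nat_lit 72527309243) (nat_lit 2) (nat_lit 5) (nat_lit 4) (nat_lit 4) (nat_lit 2) (nat_lit 4) (nat_lit 366) (nat_lit 246) (nat_lit 168)) (XT.lf (nat_lit 0) (nat_lit 91495461264) (nat_lit 152) (nat_lit 43597164180) (nat_lit 0) (nat_lit 80332018483) (nat_lit 2) (nat_lit 5) (nat_lit 4) (nat_lit 4) (nat_lit 2) (nat_lit 4) (nat_lit 367) (nat_lit 246) (nat_lit 167))) (XT.nd (nat_lit 78) (nat_lit 0) (nat_lit 0) (XT.lf (nat_lit 0) (nat_lit 99694760513) (nat_lit 152) (nat_lit 37770074965) (nat_lit 0) (nat_lit 88519811742) (nat_lit 2) (nat_lit 5) (nat_lit 4) (nat_lit 4) (nat_lit 2) (nat_lit 4) (nat_lit 368) (nat_lit 246) (nat_lit 166)) (XT.nd (nat_lit 78) (nat_lit 0) (nat_lit 0) (XT.lf (nat_lit 0) (nat_lit 108296090623) (nat_lit 152) (nat_lit 31666775810) (nat_lit 0) (nat_lit 97110183767) (nat_lit 2) (nat_lit 5) (nat_lit 4) (nat_lit 4) (nat_lit 2)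 (nat_lit 4) (nat_lit 369) (nat_lit 246) (nat_lit 165)) (XT.lf (nat_lit 0) (nat_lit 117319930952) (nat_lit 152) (nat_lit 25272735052) (nat_lit 0) (nat_lit 106123587824) (nat_lit 2) (nat_lit 5) (nat_lit 4) (nat_lit 4) (nat_lit 2) (nat_lit 4) (nat_lit 370) (nat_lit 246) (nat_lit 164))))))) (XT.nd (nat_lit 780) (nat_lit 0) (nat_lit 0) (XT.nd (nat_lit 390) (nat_lit 0) (nat_lit 0) (XT.nd (nat_lit 156) (nat_lit 76) (nat_lit 0) (XT.nd (nat_lit 78) (nat_lit 0) (nat_lit 0) (XT.lf (nat_lit 0) (nat_lit 126787766834) (nat_lit 152) (nat_lit 18572728783) (nat_lit 0) (nat_lit 115581484400) (nat_lit 2) (nat_lit 5) (nat_lit 4) (nat_lit 4) (nat_lit 2) (nat_lit 4) (nat_lit 371) (nat_lit 246) (nat_lit 163)) (XT.lf (nat_lit 0) (nat_lit 136722140735) (nat_lit 152) (nat_lit 11550804608) (nat_lit 0) (nat_lit 125506392295) (nat_lit 2) (nat_lit 5) (nat_lit 4) (nat_lit 4) (nat_lit 2) (nat_lit 4) (nat_lit 372) (nat_lit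 246) (nat_lit 162))) (XT.nd (nat_lit 78) (nat_lit 76) (nat_lit 0) (XT.lf (nat_lit 0) (nat_lit 147146705927) (nat_lit 152) (nat_lit 4190243660) (nat_lit 0) (nat_lit 135921942242) (nat_lit 2) (nat_lit 5) (nat_lit 4) (nat_lit 4) (nat_lit 2) (nat_lit 4) (nat_lit 373) (nat_lit 246) (nat_lit 161)) (XT.nd (nat_lit 78) (nat_lit 0) (nat_lit 0) (XT.lf (nat_lit 0) (nat_lit 3643080535) (nat_lit 76) (nat_lit 154500080964) (nat_lit 76) (nat_lit 143266731332) (nat_lit 1) (nat_lit 4) (nat_lit 2) (nat_lit 5) (nat_lit 2) (nat_lit 4) (nat_lit 374) (nat_lit 246) (nat_lit 160)) (XT.lf (nat_lit 0) (nat_lit 12001871999) (nat_lit 76) (nat_lit 157752428831) (nat_lit 76) (nat_lit 146510902108) (nat_lit 1) (nat_lit 4) (nat_lit 2) (nat_lit 5) (nat_lit 2) (nat_lit 4) (nat_lit 375) (nat_lit 246) (nat_lit 159))))) (XT.nd (nat_lit 156) (nat_lit 0) (nat_lit 0) (XT.nd (nat_lit 78) (nat_lit 0) (nat_lit 0) (XT.lf (nat_lit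 0) (nat_lit 20767484236) (nat_lit 76) (nat_lit 161172700678) (nat_lit 76) (nat_lit 149923386248) (nat_lit 1) (nat_lit 4) (nat_lit 2) (nat_lit 5) (nat_lit 2) (nat_lit 4) (nat_lit 376) (nat_lit 246) (nat_lit 158)) (XT.lf (nat_lit 0) (nat_lit 29960787752) (nat_lit 76) (nat_lit 164769040010) (nat_lit 76) (nat_lit 153512308716) (nat_lit 1) (nat_lit 4) (nat_lit 2) (nat_lit 5) (nat_lit 2) (nat_lit 4) (nat_lit 377) (nat_lit 246) (nat_lit 157))) (XT.nd (nat_lit 78) (nat_lit 0) (nat_lit 0) (XT.lf (nat_lit 0) (nat_lit 39603671364) (nat_lit 76) (nat_lit 168550009539) (nat_lit 76) (nat_lit 157286214565) (nat_lit 1) (nat_lit 4) (nat_lit 2) (nat_lit 5) (nat_lit 2) (nat_lit 4) (nat_lit 378) (nat_lit 246) (nat_lit 156)) (XT.nd (nat_lit 78) (nat_lit 0) (nat_lit 0) (XT.lf (nat_lit 0) (nat_lit 49719094320) (nat_lit 76) (nat_lit 172524611573) (nat_lit 76) (nat_lit 161254089286) (nat_lit 1) (nat_lit 4) (nat_lit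 2) (nat_lit 5) (nat_lit 2) (nat_lit 4) (nat_lit 379) (nat_lit 246) (nat_lit 155)) (XT.lf (nat_lit 0) (nat_lit 60331140960) (nat_lit 76) (nat_lit 176702309451) (nat_lit 76) (nat_lit 165425380198) (nat_lit 1) (nat_lit 4) (nat_lit 2) (nat_lit 5) (nat_lit 2) (nat_lit 4) (nat_lit 380) (nat_lit 246) (nat_lit 154)))))) (XT.nd (nat_lit 390) (nat_lit 0) (nat_lit 0) (XT.nd (nat_lit 156) (nat_lit 0) (nat_lit 0) (XT.nd (nat_lit 78) (nat_lit 0) (nat_lit 0) (XT.lf (nat_lit 0) (nat_lit 71465078061) (nat_lit 76) (nat_lit 181093050072) (nat_lit 76) (nat_lit 169810018947) (nat_lit 1) (nat_lit 4) (nat_lit 2) (nat_lit 5) (nat_lit 2) (nat_lit 4) (nat_lit 381) (nat_lit 246) (nat_lit 153)) (XT.lf (nat_lit 0) (nat_lit 83147414997) (nat_lit 76) (nat_lit 185707287581) (nat_lit 76) (nat_lit 174418445150) (nat_lit 1) (nat_lit 4) (nat_lit 2) (nat_lit 5) (nat_lit 2) (nat_lit 4) (nat_lit 382) (nat_lit 246) (nat_lit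 152))) (XT.nd (nat_lit 78) (nat_lit 0) (nat_lit 0) (XT.lf (nat_lit 0) (nat_lit 95405966857) (nat_lit 76) (nat_lit 190556008257) (nat_lit 76) (nat_lit 179261631248) (nat_lit 1) (nat_lit 4) (nat_lit 2) (nat_lit 5) (nat_lit 2) (nat_lit 4) (nat_lit 383) (nat_lit 246) (nat_lit 151)) (XT.nd (nat_lit 78) (nat_lit 0) (nat_lit 0) (XT.lf (nat_lit 0) (nat_lit 108269920669) (nat_lit 76) (nat_lit 195650756674) (nat_lit 76) (nat_lit 184351108639) (nat_lit 1) (nat_lit 4) (nat_lit 2) (nat_lit 5) (nat_lit 2) (nat_lit 4) (nat_lit 384) (nat_lit 246) (nat_lit 150)) (XT.lf (nat_lit 0) (nat_lit 121769904893) (nat_lit 76) (nat_lit 201003663185) (nat_lit 76) (nat_lit 189698995124) (nat_lit 1) (nat_lit 4) (nat_lit 2) (nat_lit 5) (nat_lit 2) (nat_lit 4) (nat_lit 385) (nat_lit 246) (nat_lit 149))))) (XT.nd (nat_lit 234) (nat_lit 0) (nat_lit 0) (XT.nd (nat_lit 78) (nat_lit 0) (nat_lit 0) (XT.lf (nat_lit 0) (nat_lit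 135938062351) (nat_lit 76) (nat_lit 206627472805) (nat_lit 76) (nat_lit 195318023768) (nat_lit 1) (nat_lit 4) (nat_lit 2) (nat_lit 5) (nat_lit 2) (nat_lit 4) (nat_lit 386) (nat_lit 246) (nat_lit 148)) (XT.nd (nat_lit 78) (nat_lit 0) (nat_lit 0) (XT.lf (nat_lit 0) (nat_lit 150808126749) (nat_lit 76) (nat_lit 212535575558) (nat_lit 76) (nat_lit 201221573210) (nat_lit 1) (nat_lit 4) (nat_lit 2) (nat_lit 5) (nat_lit 2) (nat_lit 4) (nat_lit 387) (nat_lit 246) (nat_lit 147)) (XT.lf (nat_lit 0) (nat_lit 166415503003) (nat_lit 76) (nat_lit 218742038354) (nat_lit 76) (nat_lit 207423699519) (nat_lit 1) (nat_lit 4) (nat_lit 2) (nat_lit 5) (nat_lit 2) (nat_lit 4) (nat_lit 388) (nat_lit 246) (nat_lit 146)))) (XT.nd (nat_lit 32604) (nat_lit 0) (nat_lit 3800) (XT.lf (nat_lit 0) (nat_lit 182797351534) (nat_lit 76) (nat_lit 225261638486) (nat_lit 76) (nat_lit 213939169664) (nat_lit 1) (nat_lit 4) (nat_lit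 2) (nat_lit 5) (nat_lit 2) (nat_lit 4) (nat_lit 389) (nat_lit 246) (nat_lit 145)) (XT.nd (nat_lit 78) (nat_lit 228) (nat_lit 0) (XT.lf (nat_lit 0) (nat_lit 1046263852) (nat_lit 304) (nat_lit 2232454163) (nat_lit 0) (nat_lit 1046263852) (nat_lit 54) (nat_lit 5) (nat_lit 58) (nat_lit 4) (nat_lit 54) (nat_lit 4) (nat_lit 286) (nat_lit 247) (nat_lit 247)) (XT.lf (nat_lit 0) (nat_lit 1812944429) (nat_lit 228) (nat_lit 4024922507) (nat_lit 228) (nat_lit 3000829281) (nat_lit 51) (nat_lit 4) (nat_lit 54) (nat_lit 5) (nat_lit 54) (nat_lit 4) (nat_lit 287) (nat_lit 247) (nat_lit 246))))))))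
noncomputable def xc68 : XT := (XT.nd (nat_lit 1560) (nat_lit 836) (nat_lit 0) (XT.nd (nat_lit 780) (nat_lit 988) (nat_lit 0) (XT.nd (nat_lit 390) (nat_lit 684) (nat_lit 0) (XT.nd (nat_lit 156) (nat_lit 456) (nat_lit 0) (XT.nd (nat_lit 78) (nat_lit 228) (nat_lit 0) (XT.lf (nat_lit 0) (nat_lit 633378000) (nat_lit 304) (nat_lit 700995208) (nat_lit 76) (nat_lit 7705995800) (nat_lit 50) (nat_lit 5) (nat_lit 54) (nat_lit 5) (nat_lit 51) (nat_lit 4) (nat_lit 288) (nat_lit 247) (nat_lit 245)) (XT.lf (nat_lit 0) (nat_lit 4318541775) (nat_lit 304) (nat_lit 3403164870) (nat_lit 0) (nat_lit 1529681914) (nat_lit 47) (nat_lit 5) (nat_lit 51) (nat_lit 4) (nat_lit 47) (nat_lit 4) (nat_lit 289) (nat_lit 247) (nat_lit 244))) (XT.nd (nat_lit 78) (nat_lit 228) (nat_lit 0) (XT.lf (nat_lit 0) (nat_lit 3147749648) (nat_lit 228) (nat_lit 4979912542) (nat_lit 228) (nat_lit 1348528649) (nat_lit 44) (nat_lit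 4) (nat_lit 47) (nat_lit 5) (nat_lit 47) (nat_lit 4) (nat_lit 290) (nat_lit 247) (nat_lit 243)) (XT.nd (nat_lit 78) (nat_lit 0) (nat_lit 0) (XT.lf (nat_lit 0) (nat_lit 193190595) (nat_lit 152) (nat_lit 2063872003) (nat_lit 228) (nat_lit 7457514287) (nat_lit 41) (nat_lit 5) (nat_lit 43) (nat_lit 5) (nat_lit 44) (nat_lit 4) (nat_lit 291) (nat_lit 247) (nat_lit 242)) (XT.lf (nat_lit 0) (nat_lit 5982391498) (nat_lit 228) (nat_lit 2950401099) (nat_lit 0) (nat_lit 1031932578) (nat_lit 41) (nat_lit 5) (nat_lit 44) (nat_lit 4) (nat_lit 41) (nat_lit 4) (nat_lit 292) (nat_lit 247) (nat_lit 241))))) (XT.nd (nat_lit 156) (nat_lit 228) (nat_lit 0) (XT.nd (nat_lit 78) (nat_lit 228) (nat_lit 0) (XT.lf (nat_lit 0) (nat_lit 3836131283) (nat_lit 228) (nat_lit 6018500565) (nat_lit 228) (nat_lit 374895039) (nat_lit 38) (nat_lit 4) (nat_lit 41) (nat_lit 5) (nat_lit 41) (nat_lit 4) (nat_lit 293) (nat_lit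 247) (nat_lit 240)) (XT.lf (nat_lit 0) (nat_lit 312011360) (nat_lit 152) (nat_lit 2915186937) (nat_lit 228) (nat_lit 7281691940) (nat_lit 35) (nat_lit 5) (nat_lit 37) (nat_lit 5) (nat_lit 38) (nat_lit 4) (nat_lit 294) (nat_lit 247) (nat_lit 239))) (XT.nd (nat_lit 78) (nat_lit 228) (nat_lit 0) (XT.lf (nat_lit 0) (nat_lit 6982130344) (nat_lit 228) (nat_lit 3440874022) (nat_lit 0) (nat_lit 379797434) (nat_lit 35) (nat_lit 5) (nat_lit 38) (nat_lit 4) (nat_lit 35) (nat_lit 4) (nat_lit 295) (nat_lit 247) (nat_lit 238)) (XT.nd (nat_lit 78) (nat_lit 76) (nat_lit 0) (XT.lf (nat_lit 0) (nat_lit 3522218515) (nat_lit 152) (nat_lit 7381489238) (nat_lit 152) (nat_lit 208902901) (nat_lit 33) (nat_lit 4) (nat_lit 35) (nat_lit 5) (nat_lit 35) (nat_lit 4) (nat_lit 296) (nat_lit 247) (nat_lit 237)) (XT.lf (nat_lit 0) (nat_lit 3404881539) (nat_lit 228) (nat_lit 735677685) (nat_lit 76) (nat_lit 7297880338)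 (nat_lit 32) (nat_lit 5) (nat_lit 35) (nat_lit 5) (nat_lit 33) (nat_lit 4) (nat_lit 297) (nat_lit 247) (nat_lit 236)))))) (XT.nd (nat_lit 390) (nat_lit 532) (nat_lit 0) (XT.nd (nat_lit 156) (nat_lit 152) (nat_lit 0) (XT.nd (nat_lit 78) (nat_lit 152) (nat_lit 0) (XT.lf (nat_lit 0) (nat_lit 6478359254) (nat_lit 152) (nat_lit 697875264) (nat_lit 228) (nat_lit 4605085856) (nat_lit 30) (nat_lit 5) (nat_lit 32) (nat_lit 5) (nat_lit 33) (nat_lit 4) (nat_lit 298) (nat_lit 247) (nat_lit 235)) (XT.lf (nat_lit 0) (nat_lit 1759409767) (nat_lit 152) (nat_lit 9346790203) (nat_lit 152) (nat_lit 1036763667) (nat_lit 28) (nat_lit 4) (nat_lit 30) (nat_lit 5) (nat_lit 30) (nat_lit 4) (nat_lit 299) (nat_lit 247) (nat_lit 234))) (XT.nd (nat_lit 78) (nat_lit 76) (nat_lit 0) (XT.lf (nat_lit 0) (nat_lit 2610967794) (nat_lit 228) (nat_lit 3404351039) (nat_lit 76) (nat_lit 6505977684) (nat_lit 27) (nat_lit 5)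 (nat_lit 30) (nat_lit 5) (nat_lit 28) (nat_lit 4) (nat_lit 300) (nat_lit 247) (nat_lit 233)) (XT.nd (nat_lit 78) (nat_lit 0) (nat_lit 0) (XT.lf (nat_lit 0) (nat_lit 3849120975) (nat_lit 76) (nat_lit 2507702381) (nat_lit 152) (nat_lit 6563448121) (nat_lit 26) (nat_lit 5) (nat_lit 27) (nat_lit 5) (nat_lit 28) (nat_lit 4) (nat_lit 301) (nat_lit 247) (nat_lit 232)) (XT.lf (nat_lit 0) (nat_lit 10258734388) (nat_lit 152) (nat_lit 1954468840) (nat_lit 0) (nat_lit 1127653082) (nat_lit 26) (nat_lit 5) (nat_lit 28) (nat_lit 4) (nat_lit 26) (nat_lit 4) (nat_lit 302) (nat_lit 247) (nat_lit 231))))) (XT.nd (nat_lit 156) (nat_lit 304) (nat_lit 0) (XT.nd (nat_lit 78) (nat_lit 0) (nat_lit 0) (XT.lf (nat_lit 0) (nat_lit 578830180) (nat_lit 228) (nat_lit 8312069879) (nat_lit 76) (nat_lit 4890017448) (nat_lit 23) (nat_lit 5) (nat_lit 26) (nat_lit 5) (nat_lit 24) (nat_lit 4) (nat_lit 303) (nat_lit 247)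 (nat_lit 230)) (XT.lf (nat_lit 0) (nat_lit 4250357808) (nat_lit 228) (nat_lit 1135524381) (nat_lit 76) (nat_lit 8858103619) (nat_lit 23) (nat_lit 5) (nat_lit 26) (nat_lit 5) (nat_lit 24) (nat_lit 4) (nat_lit 304) (nat_lit 247) (nat_lit 229))) (XT.nd (nat_lit 78) (nat_lit 228) (nat_lit 0) (XT.lf (nat_lit 0) (nat_lit 6439954715) (nat_lit 76) (nat_lit 1668400392) (nat_lit 152) (nat_lit 6621789410) (nat_lit 22) (nat_lit 5) (nat_lit 23) (nat_lit 5) (nat_lit 24) (nat_lit 4) (nat_lit 305) (nat_lit 247) (nat_lit 228)) (XT.nd (nat_lit 78) (nat_lit 228) (nat_lit 0) (XT.lf (nat_lit 0) (nat_lit 12117081384) (nat_lit 152) (nat_lit 1008360145) (nat_lit 0) (nat_lit 2117355952) (nat_lit 22) (nat_lit 5) (nat_lit 24) (nat_lit 4) (nat_lit 22) (nat_lit 4) (nat_lit 306) (nat_lit 247) (nat_lit 227)) (XT.lf (nat_lit 0) (nat_lit 567675959) (nat_lit 228) (nat_lit 9124006446) (nat_lit 76) (nat_lit 6087047473)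 (nat_lit 19) (nat_lit 5) (nat_lit 22) (nat_lit 5) (nat_lit 20) (nat_lit 4) (nat_lit 307) (nat_lit 247) (nat_lit 226))))))) (XT.nd (nat_lit 780) (nat_lit 304) (nat_lit 0) (XT.nd (nat_lit 390) (nat_lit 228) (nat_lit 0) (XT.nd (nat_lit 156) (nat_lit 228) (nat_lit 0) (XT.nd (nat_lit 78) (nat_lit 76) (nat_lit 0) (XT.lf (nat_lit 0) (nat_lit 4266431348) (nat_lit 228) (nat_lit 1815859548) (nat_lit 76) (nat_lit 10260386205) (nat_lit 19) (nat_lit 5) (nat_lit 22) (nat_lit 5) (nat_lit 20) (nat_lit 4) (nat_lit 308) (nat_lit 247) (nat_lit 225)) (XT.lf (nat_lit 0) (nat_lit 5894249898) (nat_lit 76) (nat_lit 2260644431) (nat_lit 152) (nat_lit 8779752848) (nat_lit 18) (nat_lit 5) (nat_lit 19) (nat_lit 5) (nat_lit 20) (nat_lit 4) (nat_lit 309) (nat_lit 247) (nat_lit 224))) (XT.nd (nat_lit 78) (nat_lit 228) (nat_lit 0) (XT.lf (nat_lit 0) (nat_lit 12209952292) (nat_lit 152) (nat_lit 3682604623) (nat_lit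 0) (nat_lit 1665111187) (nat_lit 18) (nat_lit 5) (nat_lit 20) (nat_lit 4) (nat_lit 18) (nat_lit 4) (nat_lit 310) (nat_lit 247) (nat_lit 223)) (XT.nd (nat_lit 78) (nat_lit 76) (nat_lit 0) (XT.lf (nat_lit 0) (nat_lit 3987967539) (nat_lit 152) (nat_lit 12496795171) (nat_lit 152) (nat_lit 1726285421) (nat_lit 16) (nat_lit 4) (nat_lit 18) (nat_lit 5) (nat_lit 18) (nat_lit 4) (nat_lit 311) (nat_lit 247) (nat_lit 222)) (XT.lf (nat_lit 0) (nat_lit 1991136885) (nat_lit 228) (nat_lit 6903601655) (nat_lit 76) (nat_lit 10001721867) (nat_lit 15) (nat_lit 5) (nat_lit 18) (nat_lit 5) (nat_lit 16) (nat_lit 4) (nat_lit 312) (nat_lit 247) (nat_lit 221))))) (XT.nd (nat_lit 156) (nat_lit 152) (nat_lit 0) (XT.nd (nat_lit 78) (nat_lit 0) (nat_lit 0) (XT.lf (nat_lit 0) (nat_lit 634718920) (nat_lit 76) (nat_lit 5133495374) (nat_lit 152) (nat_lit 13849974223) (nat_lit 14) (nat_lit 5) (nat_lit 15) (nat_lit 5)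 (nat_lit 16) (nat_lit 4) (nat_lit 313) (nat_lit 247) (nat_lit 220)) (XT.lf (nat_lit 0) (nat_lit 8652729783) (nat_lit 76) (nat_lit 1121802523) (nat_lit 152) (nat_lit 10599499136) (nat_lit 14) (nat_lit 5) (nat_lit 15) (nat_lit 5) (nat_lit 16) (nat_lit 4) (nat_lit 314) (nat_lit 247) (nat_lit 219))) (XT.nd (nat_lit 78) (nat_lit 152) (nat_lit 0) (XT.lf (nat_lit 0) (nat_lit 13955634612) (nat_lit 152) (nat_lit 4277452291) (nat_lit 0) (nat_lit 2935901661) (nat_lit 14) (nat_lit 5) (nat_lit 16) (nat_lit 4) (nat_lit 14) (nat_lit 4) (nat_lit 315) (nat_lit 247) (nat_lit 218)) (XT.nd (nat_lit 78) (nat_lit 76) (nat_lit 0) (XT.lf (nat_lit 0) (nat_lit 3505565032) (nat_lit 76) (nat_lit 14843079774) (nat_lit 76) (nat_lit 3654949405) (nat_lit 13) (nat_lit 4) (nat_lit 14) (nat_lit 5) (nat_lit 14) (nat_lit 4) (nat_lit 316) (nat_lit 247) (nat_lit 217)) (XT.lf (nat_lit 0) (nat_lit 82358888) (nat_lit 152) (nat_lit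 11179673140) (nat_lit 76) (nat_lit 11617694465) (nat_lit 12) (nat_lit 5) (nat_lit 14) (nat_lit 5) (nat_lit 13) (nat_lit 4) (nat_lit 317) (nat_lit 247) (nat_lit 216)))))) (XT.nd (nat_lit 390) (nat_lit 152) (nat_lit 0) (XT.nd (nat_lit 156) (nat_lit 76) (nat_lit 0) (XT.nd (nat_lit 78) (nat_lit 76) (nat_lit 0) (XT.lf (nat_lit 0) (nat_lit 3816997341) (nat_lit 152) (nat_lit 3676405733) (nat_lit 76) (nat_lit 16306639115) (nat_lit 12) (nat_lit 5) (nat_lit 14) (nat_lit 5) (nat_lit 13) (nat_lit 4) (nat_lit 318) (nat_lit 247) (nat_lit 215)) (XT.lf (nat_lit 0) (nat_lit 4221826790) (nat_lit 76) (nat_lit 3518926914) (nat_lit 152) (nat_lit 17025536295) (nat_lit 11) (nat_lit 5) (nat_lit 12) (nat_lit 5) (nat_lit 13) (nat_lit 4) (nat_lit 319) (nat_lit 247) (nat_lit 214))) (XT.nd (nat_lit 78) (nat_lit 76) (nat_lit 0) (XT.lf (nat_lit 0) (nat_lit 11871121258) (nat_lit 152) (nat_lit 13262176901) (nat_lit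 0) (nat_lit 647064803) (nat_lit 11) (nat_lit 5) (nat_lit 13) (nat_lit 4) (nat_lit 11) (nat_lit 4) (nat_lit 320) (nat_lit 247) (nat_lit 213)) (XT.nd (nat_lit 78) (nat_lit 76) (nat_lit 0) (XT.lf (nat_lit 0) (nat_lit 16205623985) (nat_lit 152) (nat_lit 5783760280) (nat_lit 0) (nat_lit 4855906784) (nat_lit 11) (nat_lit 5) (nat_lit 13) (nat_lit 4) (nat_lit 11) (nat_lit 4) (nat_lit 321) (nat_lit 247) (nat_lit 212)) (XT.lf (nat_lit 0) (nat_lit 2028455974) (nat_lit 76) (nat_lit 18702855727) (nat_lit 76) (nat_lit 7233461625) (nat_lit 10) (nat_lit 4) (nat_lit 11) (nat_lit 5) (nat_lit 11) (nat_lit 4) (nat_lit 322) (nat_lit 247) (nat_lit 211))))) (XT.nd (nat_lit 156) (nat_lit 76) (nat_lit 0) (XT.nd (nat_lit 78) (nat_lit 76) (nat_lit 0) (XT.lf (nat_lit 0) (nat_lit 10328731950) (nat_lit 76) (nat_lit 15196403304) (nat_lit 76) (nat_lit 3613031201) (nat_lit 10) (nat_lit 4) (nat_lit 11) (nat_lit 5) (nat_lit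 11) (nat_lit 4) (nat_lit 323) (nat_lit 247) (nat_lit 210)) (XT.lf (nat_lit 0) (nat_lit 128059280) (nat_lit 152) (nat_lit 11429401055) (nat_lit 76) (nat_lit 18815364945) (nat_lit 9) (nat_lit 5) (nat_lit 11) (nat_lit 5) (nat_lit 10) (nat_lit 4) (nat_lit 324) (nat_lit 247) (nat_lit 209))) (XT.nd (nat_lit 78) (nat_lit 76) (nat_lit 0) (XT.lf (nat_lit 0) (nat_lit 3883039106) (nat_lit 152) (nat_lit 3835073818) (nat_lit 76) (nat_lit 23950755123) (nat_lit 9) (nat_lit 5) (nat_lit 11) (nat_lit 5) (nat_lit 10) (nat_lit 4) (nat_lit 325) (nat_lit 247) (nat_lit 208)) (XT.nd (nat_lit 78) (nat_lit 0) (nat_lit 0) (XT.lf (nat_lit 0) (nat_lit 4181884911) (nat_lit 76) (nat_lit 3659894298) (nat_lit 152) (nat_lit 25187157294) (nat_lit 8) (nat_lit 5) (nat_lit 9) (nat_lit 5) (nat_lit 10) (nat_lit 4) (nat_lit 326) (nat_lit 247) (nat_lit 207)) (XT.lf (nat_lit 0) (nat_lit 12024884820) (nat_lit 152) (nat_lit 21822637857)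 (nat_lit 0) (nat_lit 608187246) (nat_lit 8) (nat_lit 5) (nat_lit 10) (nat_lit 4) (nat_lit 8) (nat_lit 4) (nat_lit 327) (nat_lit 247) (nat_lit 206))))))))
noncomputable def xc69 : XT := (XT.nd (nat_lit 1560) (nat_lit 152) (nat_lit 0) (XT.nd (nat_lit 780) (nat_lit 76) (nat_lit 0) (XT.nd (nat_lit 390) (nat_lit 152) (nat_lit 0) (XT.nd (nat_lit 156) (nat_lit 76) (nat_lit 0) (XT.nd (nat_lit 78) (nat_lit 0) (nat_lit 0) (XT.lf (nat_lit 0) (nat_lit 16430503948) (nat_lit 152) (nat_lit 14593917791) (nat_lit 0) (nat_lit 4928754235) (nat_lit 8) (nat_lit 5) (nat_lit 10) (nat_lit 4) (nat_lit 8) (nat_lit 4) (nat_lit 328) (nat_lit 247) (nat_lit 205)) (XT.lf (nat_lit 0) (nat_lit 21011984957) (nat_lit 152) (nat_lit 7086538951) (nat_lit 0) (nat_lit 9429233206) (nat_lit 8) (nat_lit 5) (nat_lit 10) (nat_lit 4) (nat_lit 8) (nat_lit 4) (nat_lit 329) (nat_lit 247) (nat_lit 204))) (XT.nd (nat_lit 78) (nat_lit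 0) (nat_lit 0) (XT.lf (nat_lit 0) (nat_lit 741092978) (nat_lit 76) (nat_lit 25050713693) (nat_lit 76) (nat_lit 13390817145) (nat_lit 7) (nat_lit 4) (nat_lit 8) (nat_lit 5) (nat_lit 8) (nat_lit 4) (nat_lit 330) (nat_lit 247) (nat_lit 203)) (XT.nd (nat_lit 78) (nat_lit 0) (nat_lit 0) (XT.lf (nat_lit 0) (nat_lit 9128571219) (nat_lit 76) (nat_lit 21760561818) (nat_lit 76) (nat_lit 10027194034) (nat_lit 7) (nat_lit 4) (nat_lit 8) (nat_lit 5) (nat_lit 8) (nat_lit 4) (nat_lit 331) (nat_lit 247) (nat_lit 202)) (XT.lf (nat_lit 0) (nat_lit 17861552976) (nat_lit 76) (nat_lit 18340248552) (nat_lit 76) (nat_lit 6536908163) (nat_lit 7) (nat_lit 4) (nat_lit 8) (nat_lit 5) (nat_lit 8) (nat_lit 4) (nat_lit 332) (nat_lit 247) (nat_lit 201))))) (XT.nd (nat_lit 156) (nat_lit 76) (nat_lit 0) (XT.nd (nat_lit 78) (nat_lit 76) (nat_lit 0) (XT.lf (nat_lit 0) (nat_lit 26960831063) (nat_lit 76) (nat_lit 14781630295)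 (nat_lit 76) (nat_lit 2911649329) (nat_lit 7) (nat_lit 4) (nat_lit 8) (nat_lit 5) (nat_lit 8) (nat_lit 4) (nat_lit 333) (nat_lit 247) (nat_lit 200)) (XT.lf (nat_lit 0) (nat_lit 829777834) (nat_lit 152) (nat_lit 10232403620) (nat_lit 76) (nat_lit 35604239903) (nat_lit 6) (nat_lit 5) (nat_lit 8) (nat_lit 5) (nat_lit 7) (nat_lit 4) (nat_lit 334) (nat_lit 247) (nat_lit 199))) (XT.nd (nat_lit 78) (nat_lit 76) (nat_lit 0) (XT.lf (nat_lit 0) (nat_lit 4625708603) (nat_lit 152) (nat_lit 2511190511) (nat_lit 76) (nat_lit 41641812516) (nat_lit 6) (nat_lit 5) (nat_lit 8) (nat_lit 5) (nat_lit 7) (nat_lit 4) (nat_lit 335) (nat_lit 247) (nat_lit 198)) (XT.nd (nat_lit 78) (nat_lit 0) (nat_lit 0) (XT.lf (nat_lit 0) (nat_lit 5717188278) (nat_lit 76) (nat_lit 2950444922) (nat_lit 152) (nat_lit 42326187451) (nat_lit 5) (nat_lit 5) (nat_lit 6) (nat_lit 5) (nat_lit 7) (nat_lit 4) (nat_lit 336) (nat_lit 247)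 (nat_lit 197)) (XT.lf (nat_lit 0) (nat_lit 12944560944) (nat_lit 152) (nat_lit 38958726701) (nat_lit 0) (nat_lit 1414765561) (nat_lit 5) (nat_lit 5) (nat_lit 7) (nat_lit 4) (nat_lit 5) (nat_lit 4) (nat_lit 337) (nat_lit 247) (nat_lit 196)))))) (XT.nd (nat_lit 390) (nat_lit 76) (nat_lit 0) (XT.nd (nat_lit 156) (nat_lit 0) (nat_lit 0) (XT.nd (nat_lit 78) (nat_lit 0) (nat_lit 0) (XT.lf (nat_lit 0) (nat_lit 17452384757) (nat_lit 152) (nat_lit 32432411784) (nat_lit 0) (nat_lit 5872861151) (nat_lit 5) (nat_lit 5) (nat_lit 7) (nat_lit 4) (nat_lit 5) (nat_lit 4) (nat_lit 338) (nat_lit 247) (nat_lit 195)) (XT.lf (nat_lit 0) (nat_lit 22155772843) (nat_lit 152) (nat_lit 25636084064) (nat_lit 0) (nat_lit 10528889023) (nat_lit 5) (nat_lit 5) (nat_lit 7) (nat_lit 4) (nat_lit 5) (nat_lit 4) (nat_lit 339) (nat_lit 247) (nat_lit 194))) (XT.nd (nat_lit 78) (nat_lit 0) (nat_lit 0) (XT.lf (nat_lit 0) (nat_lit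 27065923742) (nat_lit 152) (nat_lit 18553561807) (nat_lit 0) (nat_lit 15393934957) (nat_lit 5) (nat_lit 5) (nat_lit 7) (nat_lit 4) (nat_lit 5) (nat_lit 4) (nat_lit 340) (nat_lit 247) (nat_lit 193)) (XT.nd (nat_lit 78) (nat_lit 0) (nat_lit 0) (XT.lf (nat_lit 0) (nat_lit 32194528292) (nat_lit 152) (nat_lit 11167981866) (nat_lit 0) (nat_lit 20479582397) (nat_lit 5) (nat_lit 5) (nat_lit 7) (nat_lit 4) (nat_lit 5) (nat_lit 4) (nat_lit 341) (nat_lit 247) (nat_lit 192)) (XT.lf (nat_lit 0) (nat_lit 37553797455) (nat_lit 152) (nat_lit 3461759526) (nat_lit 0) (nat_lit 25797940026) (nat_lit 5) (nat_lit 5) (nat_lit 7) (nat_lit 4) (nat_lit 5) (nat_lit 4) (nat_lit 342) (nat_lit 247) (nat_lit 191))))) (XT.nd (nat_lit 156) (nat_lit 0) (nat_lit 0) (XT.nd (nat_lit 78) (nat_lit 0) (nat_lit 0) (XT.lf (nat_lit 0) (nat_lit 4735003027) (nat_lit 76) (nat_lit 38495415035) (nat_lit 76) (nat_lit 26700594241) (nat_lit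 4) (nat_lit 4) (nat_lit 5) (nat_lit 5) (nat_lit 5) (nat_lit 4) (nat_lit 343) (nat_lit 247) (nat_lit 190)) (XT.lf (nat_lit 0) (nat_lit 13416214718) (nat_lit 76) (nat_lit 35809199852) (nat_lit 76) (nat_lit 23977271092) (nat_lit 4) (nat_lit 4) (nat_lit 5) (nat_lit 5) (nat_lit 5) (nat_lit 4) (nat_lit 344) (nat_lit 247) (nat_lit 189))) (XT.nd (nat_lit 78) (nat_lit 0) (nat_lit 0) (XT.lf (nat_lit 0) (nat_lit 22488083696) (nat_lit 76) (nat_lit 33009142256) (nat_lit 76) (nat_lit 21141872576) (nat_lit 4) (nat_lit 4) (nat_lit 5) (nat_lit 5) (nat_lit 5) (nat_lit 4) (nat_lit 345) (nat_lit 247) (nat_lit 188)) (XT.nd (nat_lit 78) (nat_lit 0) (nat_lit 0) (XT.lf (nat_lit 0) (nat_lit 31972209646) (nat_lit 76) (nat_lit 30088575443) (nat_lit 76) (nat_lit 18187647742) (nat_lit 4) (nat_lit 4) (nat_lit 5) (nat_lit 5) (nat_lit 5) (nat_lit 4) (nat_lit 346) (nat_lit 247) (nat_lit 187)) (XT.lf (nat_lit 0) (nat_lit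 41891173823) (nat_lit 76) (nat_lit 27040545681) (nat_lit 76) (nat_lit 15107562724) (nat_lit 4) (nat_lit 4) (nat_lit 5) (nat_lit 5) (nat_lit 5) (nat_lit 4) (nat_lit 347) (nat_lit 247) (nat_lit 186))))))) (XT.nd (nat_lit 780) (nat_lit 0) (nat_lit 0) (XT.nd (nat_lit 390) (nat_lit 76) (nat_lit 0) (XT.nd (nat_lit 156) (nat_lit 76) (nat_lit 0) (XT.nd (nat_lit 78) (nat_lit 0) (nat_lit 0) (XT.lf (nat_lit 0) (nat_lit 52268592807) (nat_lit 76) (nat_lit 23857795758) (nat_lit 76) (nat_lit 11894283985) (nat_lit 4) (nat_lit 4) (nat_lit 5) (nat_lit 5) (nat_lit 5) (nat_lit 4) (nat_lit 348) (nat_lit 247) (nat_lit 185)) (XT.lf (nat_lit 0) (nat_lit 63129174738) (nat_lit 76) (nat_lit 20532747697) (nat_lit 76) (nat_lit 8540160861) (nat_lit 4) (nat_lit 4) (nat_lit 5) (nat_lit 5) (nat_lit 5) (nat_lit 4) (nat_lit 349) (nat_lit 247) (nat_lit 184))) (XT.nd (nat_lit 78) (nat_lit 76) (nat_lit 0) (XT.lf (nat_lit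 0) (nat_lit 74498778145) (nat_lit 76) (nat_lit 17057484718) (nat_lit 76) (nat_lit 5037207346) (nat_lit 4) (nat_lit 4) (nat_lit 5) (nat_lit 5) (nat_lit 5) (nat_lit 4) (nat_lit 350) (nat_lit 247) (nat_lit 183)) (XT.nd (nat_lit 78) (nat_lit 76) (nat_lit 0) (XT.lf (nat_lit 0) (nat_lit 86404473513) (nat_lit 76) (nat_lit 13423732384) (nat_lit 76) (nat_lit 1377083073) (nat_lit 4) (nat_lit 4) (nat_lit 5) (nat_lit 5) (nat_lit 5) (nat_lit 4) (nat_lit 351) (nat_lit 247) (nat_lit 182)) (XT.lf (nat_lit 0) (nat_lit 2370545595) (nat_lit 152) (nat_lit 7212146971) (nat_lit 76) (nat_lit 96463915802) (nat_lit 3) (nat_lit 5) (nat_lit 5) (nat_lit 5) (nat_lit 4) (nat_lit 4) (nat_lit 352) (nat_lit 247) (nat_lit 181))))) (XT.nd (nat_lit 156) (nat_lit 0) (nat_lit 0) (XT.nd (nat_lit 78) (nat_lit 0) (nat_lit 0) (XT.lf (nat_lit 0) (nat_lit 726735065) (nat_lit 76) (nat_lit 5528104268) (nat_lit 152) (nat_lit 104874253374)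 (nat_lit 2) (nat_lit 5) (nat_lit 3) (nat_lit 5) (nat_lit 4) (nat_lit 4) (nat_lit 353) (nat_lit 247) (nat_lit 180)) (XT.lf (nat_lit 0) (nat_lit 9283528196) (nat_lit 76) (nat_lit 1156469285) (nat_lit 152) (nat_lit 106020376875) (nat_lit 2) (nat_lit 5) (nat_lit 3) (nat_lit 5) (nat_lit 4) (nat_lit 4) (nat_lit 354) (nat_lit 247) (nat_lit 179))) (XT.nd (nat_lit 78) (nat_lit 0) (nat_lit 0) (XT.lf (nat_lit 0) (nat_lit 14873063027) (nat_lit 152) (nat_lit 103872226779) (nat_lit 0) (nat_lit 3311003121) (nat_lit 2) (nat_lit 5) (nat_lit 4) (nat_lit 4) (nat_lit 2) (nat_lit 4) (nat_lit 355) (nat_lit 247) (nat_lit 178)) (XT.nd (nat_lit 78) (nat_lit 0) (nat_lit 0) (XT.lf (nat_lit 0) (nat_lit 19532491857) (nat_lit 152) (nat_lit 100448532326) (nat_lit 0) (nat_lit 7950752804) (nat_lit 2) (nat_lit 5) (nat_lit 4) (nat_lit 4) (nat_lit 2) (nat_lit 4) (nat_lit 356) (nat_lit 247) (nat_lit 177)) (XT.lf (nat_lit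 0) (nat_lit 24411322123) (nat_lit 152) (nat_lit 96879555421) (nat_lit 0) (nat_lit 12810841026) (nat_lit 2) (nat_lit 5) (nat_lit 4) (nat_lit 4) (nat_lit 2) (nat_lit 4) (nat_lit 357) (nat_lit 247) (nat_lit 176)))))) (XT.nd (nat_lit 390) (nat_lit 0) (nat_lit 0) (XT.nd (nat_lit 156) (nat_lit 0) (nat_lit 0) (XT.nd (nat_lit 78) (nat_lit 0) (nat_lit 0) (XT.lf (nat_lit 0) (nat_lit 29521170088) (nat_lit 152) (nat_lit 93156798501) (nat_lit 0) (nat_lit 17902839424) (nat_lit 2) (nat_lit 5) (nat_lit 4) (nat_lit 4) (nat_lit 2) (nat_lit 4) (nat_lit 358) (nat_lit 247) (nat_lit 175)) (XT.lf (nat_lit 0) (nat_lit 34874202056) (nat_lit 152) (nat_lit 89271397859) (nat_lit 0) (nat_lit 23238871805) (nat_lit 2) (nat_lit 5) (nat_lit 4) (nat_lit 4) (nat_lit 2) (nat_lit 4) (nat_lit 359) (nat_lit 247) (nat_lit 174))) (XT.nd (nat_lit 78) (nat_lit 0) (nat_lit 0) (XT.lf (nat_lit 0) (nat_lit 40483163342) (nat_lit 152)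 (nat_lit 85214102540) (nat_lit 0) (nat_lit 28831643008) (nat_lit 2) (nat_lit 5) (nat_lit 4) (nat_lit 4) (nat_lit 2) (nat_lit 4) (nat_lit 360) (nat_lit 247) (nat_lit 173)) (XT.nd (nat_lit 78) (nat_lit 0) (nat_lit 0) (XT.lf (nat_lit 0) (nat_lit 46361408615) (nat_lit 152) (nat_lit 80975252318) (nat_lit 0) (nat_lit 34694469154) (nat_lit 2) (nat_lit 5) (nat_lit 4) (nat_lit 4) (nat_lit 2) (nat_lit 4) (nat_lit 361) (nat_lit 247) (nat_lit 172)) (XT.lf (nat_lit 0) (nat_lit 52522933697) (nat_lit 152) (nat_lit 76544754693) (nat_lit 0) (nat_lit 40841309354) (nat_lit 2) (nat_lit 5) (nat_lit 4) (nat_lit 4) (nat_lit 2) (nat_lit 4) (nat_lit 362) (nat_lit 247) (nat_lit 171))))) (XT.nd (nat_lit 156) (nat_lit 0) (nat_lit 0) (XT.nd (nat_lit 78) (nat_lit 0) (nat_lit 0) (XT.lf (nat_lit 0) (nat_lit 58982408887) (nat_lit 152) (nat_lit 71912060859) (nat_lit 0) (nat_lit 47286798941) (nat_lit 2) (nat_lit 5) (nat_lit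 4) (nat_lit 4) (nat_lit 2) (nat_lit 4) (nat_lit 363) (nat_lit 247) (nat_lit 170)) (XT.lf (nat_lit 0) (nat_lit 65755213886) (nat_lit 152) (nat_lit 67066140595) (nat_lit 0) (nat_lit 54046284320) (nat_lit 2) (nat_lit 5) (nat_lit 4) (nat_lit 4) (nat_lit 2) (nat_lit 4) (nat_lit 364) (nat_lit 247) (nat_lit 169))) (XT.nd (nat_lit 78) (nat_lit 0) (nat_lit 0) (XT.lf (nat_lit 0) (nat_lit 72857474422) (nat_lit 152) (nat_lit 61995455994) (nat_lit 0) (nat_lit 61135859502) (nat_lit 2) (nat_lit 5) (nat_lit 4) (nat_lit 4) (nat_lit 2) (nat_lit 4) (nat_lit 365) (nat_lit 247) (nat_lit 168)) (XT.nd (nat_lit 78) (nat_lit 0) (nat_lit 0) (XT.lf (nat_lit 0) (nat_lit 80306100638) (nat_lit 152) (nat_lit 56687933998) (nat_lit 0) (nat_lit 68572404429) (nat_lit 2) (nat_lit 5) (nat_lit 4) (nat_lit 4) (nat_lit 2) (nat_lit 4) (nat_lit 366) (nat_lit 247) (nat_lit 167)) (XT.lf (nat_lit 0) (nat_lit 88118827359) (nat_lit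 152) (nat_lit 51130937650) (nat_lit 0) (nat_lit 76373625160) (nat_lit 2) (nat_lit 5) (nat_lit 4) (nat_lit 4) (nat_lit 2) (nat_lit 4) (nat_lit 367) (nat_lit 247) (nat_lit 166))))))))
noncomputable def xc70 : XT := (XT.nd (nat_lit 1560) (nat_lit 0) (nat_lit 0) (XT.nd (nat_lit 780) (nat_lit 0) (nat_lit 0) (XT.nd (nat_lit 390) (nat_lit 76) (nat_lit 0) (XT.nd (nat_lit 156) (nat_lit 0) (nat_lit 0) (XT.nd (nat_lit 78) (nat_lit 0) (nat_lit 0) (XT.lf (nat_lit 0) (nat_lit 96314256315) (nat_lit 152) (nat_lit 45311236007) (nat_lit 0) (nat_lit 84558096030) (nat_lit 2) (nat_lit 5) (nat_lit 4) (nat_lit 4) (nat_lit 2) (nat_lit 4) (nat_lit 368) (nat_lit 247) (nat_lit 165)) (XT.lf (nat_lit 0) (nat_lit 104911900431) (nat_lit 152) (nat_lit 39214972635) (nat_lit 0) (nat_lit 93145303875) (nat_lit 2) (nat_lit 5) (nat_lit 4) (nat_lit 4) (nat_lit 2) (nat_lit 4) (nat_lit 369) (nat_lit 247) (nat_lit 164))) (XT.nd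 (nat_lit 78) (nat_lit 0) (nat_lit 0) (XT.lf (nat_lit 0) (nat_lit 113932230290) (nat_lit 152) (nat_lit 32827632621) (nat_lit 0) (nat_lit 102155694427) (nat_lit 2) (nat_lit 5) (nat_lit 4) (nat_lit 4) (nat_lit 2) (nat_lit 4) (nat_lit 370) (nat_lit 247) (nat_lit 163)) (XT.nd (nat_lit 78) (nat_lit 0) (nat_lit 0) (XT.lf (nat_lit 0) (nat_lit 123396722867) (nat_lit 152) (nat_lit 26134008014) (nat_lit 0) (nat_lit 111610720998) (nat_lit 2) (nat_lit 5) (nat_lit 4) (nat_lit 4) (nat_lit 2) (nat_lit 4) (nat_lit 371) (nat_lit 247) (nat_lit 162)) (XT.lf (nat_lit 0) (nat_lit 133327912669) (nat_lit 152) (nat_lit 19118161613) (nat_lit 0) (nat_lit 121532895556) (nat_lit 2) (nat_lit 5) (nat_lit 4) (nat_lit 4) (nat_lit 2) (nat_lit 4) (nat_lit 372) (nat_lit 247) (nat_lit 161))))) (XT.nd (nat_lit 156) (nat_lit 76) (nat_lit 0) (XT.nd (nat_lit 78) (nat_lit 0) (nat_lit 0) (XT.lf (nat_lit 0) (nat_lit 143749445384)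 (nat_lit 152) (nat_lit 11763389020) (nat_lit 0) (nat_lit 131945842325) (nat_lit 2) (nat_lit 5) (nat_lit 4) (nat_lit 4) (nat_lit 2) (nat_lit 4) (nat_lit 373) (nat_lit 247) (nat_lit 160)) (XT.lf (nat_lit 0) (nat_lit 154686134187) (nat_lit 152) (nat_lit 4052178872) (nat_lit 0) (nat_lit 142874354036) (nat_lit 2) (nat_lit 5) (nat_lit 4) (nat_lit 4) (nat_lit 2) (nat_lit 4) (nat_lit 374) (nat_lit 247) (nat_lit 159))) (XT.nd (nat_lit 78) (nat_lit 0) (nat_lit 0) (XT.lf (nat_lit 0) (nat_lit 4167205452) (nat_lit 76) (nat_lit 162061875116) (nat_lit 76) (nat_lit 150242307258) (nat_lit 1) (nat_lit 4) (nat_lit 2) (nat_lit 5) (nat_lit 2) (nat_lit 4) (nat_lit 375) (nat_lit 247) (nat_lit 158)) (XT.nd (nat_lit 78) (nat_lit 0) (nat_lit 0) (XT.lf (nat_lit 0) (nat_lit 12927652161) (nat_lit 76) (nat_lit 165484612277) (nat_lit 76) (nat_lit 153657627555) (nat_lit 1) (nat_lit 4) (nat_lit 2) (nat_lit 5) (nat_lit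 2) (nat_lit 4) (nat_lit 376) (nat_lit 247) (nat_lit 157)) (XT.lf (nat_lit 0) (nat_lit 22116036126) (nat_lit 76) (nat_lit 169083299526) (nat_lit 76) (nat_lit 157249251124) (nat_lit 1) (nat_lit 4) (nat_lit 2) (nat_lit 5) (nat_lit 2) (nat_lit 4) (nat_lit 377) (nat_lit 247) (nat_lit 156)))))) (XT.nd (nat_lit 390) (nat_lit 0) (nat_lit 0) (XT.nd (nat_lit 156) (nat_lit 0) (nat_lit 0) (XT.nd (nat_lit 78) (nat_lit 0) (nat_lit 0) (XT.lf (nat_lit 0) (nat_lit 31754234452) (nat_lit 76) (nat_lit 172866505166) (nat_lit 76) (nat_lit 161025729451) (nat_lit 1) (nat_lit 4) (nat_lit 2) (nat_lit 5) (nat_lit 2) (nat_lit 4) (nat_lit 378) (nat_lit 247) (nat_lit 155)) (XT.lf (nat_lit 0) (nat_lit 41865195230) (nat_lit 76) (nat_lit 176843236831) (nat_lit 76) (nat_lit 164996054150) (nat_lit 1) (nat_lit 4) (nat_lit 2) (nat_lit 5) (nat_lit 2) (nat_lit 4) (nat_lit 379) (nat_lit 247) (nat_lit 154))) (XT.nd (nat_lit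 78) (nat_lit 0) (nat_lit 0) (XT.lf (nat_lit 0) (nat_lit 52472992177) (nat_lit 76) (nat_lit 181022962928) (nat_lit 76) (nat_lit 169169678375) (nat_lit 1) (nat_lit 4) (nat_lit 2) (nat_lit 5) (nat_lit 2) (nat_lit 4) (nat_lit 380) (nat_lit 247) (nat_lit 153)) (XT.nd (nat_lit 78) (nat_lit 0) (nat_lit 0) (XT.lf (nat_lit 0) (nat_lit 63602881951) (nat_lit 76) (nat_lit 185415635186) (nat_lit 76) (nat_lit 173556539327) (nat_lit 1) (nat_lit 4) (nat_lit 2) (nat_lit 5) (nat_lit 2) (nat_lit 4) (nat_lit 381) (nat_lit 247) (nat_lit 152)) (XT.lf (nat_lit 0) (nat_lit 75281364291) (nat_lit 76) (nat_lit 190031712350) (nat_lit 76) (nat_lit 178167081913) (nat_lit 1) (nat_lit 4) (nat_lit 2) (nat_lit 5) (nat_lit 2) (nat_lit 4) (nat_lit 382) (nat_lit 247) (nat_lit 151))))) (XT.nd (nat_lit 156) (nat_lit 0) (nat_lit 0) (XT.nd (nat_lit 78) (nat_lit 0) (nat_lit 0) (XT.lf (nat_lit 0) (nat_lit 87536245106) (nat_lit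 76) (nat_lit 194882185078) (nat_lit 76) (nat_lit 183012283615) (nat_lit 1) (nat_lit 4) (nat_lit 2) (nat_lit 5) (nat_lit 2) (nat_lit 4) (nat_lit 383) (nat_lit 247) (nat_lit 150)) (XT.lf (nat_lit 0) (nat_lit 100396702685) (nat_lit 76) (nat_lit 199978602116) (nat_lit 76) (nat_lit 188103680627) (nat_lit 1) (nat_lit 4) (nat_lit 2) (nat_lit 5) (nat_lit 2) (nat_lit 4) (nat_lit 384) (nat_lit 247) (nat_lit 149))) (XT.nd (nat_lit 78) (nat_lit 0) (nat_lit 0) (XT.lf (nat_lit 0) (nat_lit 113893357164) (nat_lit 76) (nat_lit 205333097790) (nat_lit 76) (nat_lit 193453395325) (nat_lit 1) (nat_lit 4) (nat_lit 2) (nat_lit 5) (nat_lit 2) (nat_lit 4) (nat_lit 385) (nat_lit 247) (nat_lit 148)) (XT.nd (nat_lit 78) (nat_lit 0) (nat_lit 0) (XT.lf (nat_lit 0) (nat_lit 128058343435) (nat_lit 76) (nat_lit 210958420898) (nat_lit 76) (nat_lit 199074165122) (nat_lit 1) (nat_lit 4) (nat_lit 2) (nat_lit 5) (nat_lit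 2) (nat_lit 4) (nat_lit 386) (nat_lit 247) (nat_lit 147)) (XT.lf (nat_lit 0) (nat_lit 142925387656) (nat_lit 76) (nat_lit 216867965068) (nat_lit 76) (nat_lit 204979372806) (nat_lit 1) (nat_lit 4) (nat_lit 2) (nat_lit 5) (nat_lit 2) (nat_lit 4) (nat_lit 387) (nat_lit 247) (nat_lit 146))))))) (XT.nd (nat_lit 33150) (nat_lit 0) (nat_lit 1900) (XT.nd (nat_lit 32760) (nat_lit 0) (nat_lit 3192) (XT.nd (nat_lit 32526) (nat_lit 0) (nat_lit 4028) (XT.nd (nat_lit 78) (nat_lit 0) (nat_lit 0) (XT.lf (nat_lit 0) (nat_lit 158529887551) (nat_lit 76) (nat_lit 223075800643) (nat_lit 76) (nat_lit 211183078394) (nat_lit 1) (nat_lit 4) (nat_lit 2) (nat_lit 5) (nat_lit 2) (nat_lit 4) (nat_lit 388) (nat_lit 247) (nat_lit 145)) (XT.lf (nat_lit 0) (nat_lit 174908996691) (nat_lit 76) (nat_lit 229596708183) (nat_lit 76) (nat_lit 217700052613) (nat_lit 1) (nat_lit 4) (nat_lit 2) (nat_lit 5) (nat_lit 2) (nat_lit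 4) (nat_lit 389) (nat_lit 247) (nat_lit 144))) (XT.nd (nat_lit 78) (nat_lit 304) (nat_lit 0) (XT.lf (nat_lit 0) (nat_lit 109910252) (nat_lit 304) (nat_lit 2020613700) (nat_lit 304) (nat_lit 2020613700) (nat_lit 58) (nat_lit 4) (nat_lit 62) (nat_lit 5) (nat_lit 62) (nat_lit 4) (nat_lit 284) (nat_lit 248) (nat_lit 248)) (XT.nd (nat_lit 78) (nat_lit 304) (nat_lit 0) (XT.lf (nat_lit 0) (nat_lit 6392340811) (nat_lit 304) (nat_lit 1604947132) (nat_lit 304) (nat_lit 475884350) (nat_lit 58) (nat_lit 4) (nat_lit 62) (nat_lit 5) (nat_lit 62) (nat_lit 4) (nat_lit 285) (nat_lit 248) (nat_lit 247)) (XT.lf (nat_lit 0) (nat_lit 3092217438) (nat_lit 304) (nat_lit 4568828853) (nat_lit 0) (nat_lit 992826324) (nat_lit 54) (nat_lit 5) (nat_lit 58) (nat_lit 4) (nat_lit 54) (nat_lit 4) (nat_lit 286) (nat_lit 248) (nat_lit 246))))) (XT.nd (nat_lit 156) (nat_lit 532) (nat_lit 0) (XT.nd (nat_lit 78) (nat_lit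 76) (nat_lit 0) (XT.lf (nat_lit 0) (nat_lit 1603343433) (nat_lit 228) (nat_lit 5158933012) (nat_lit 228) (nat_lit 2084215016) (nat_lit 51) (nat_lit 4) (nat_lit 54) (nat_lit 5) (nat_lit 54) (nat_lit 4) (nat_lit 287) (nat_lit 248) (nat_lit 245)) (XT.lf (nat_lit 0) (nat_lit 1449293790) (nat_lit 304) (nat_lit 1032548470) (nat_lit 76) (nat_lit 6569285475) (nat_lit 50) (nat_lit 5) (nat_lit 54) (nat_lit 5) (nat_lit 51) (nat_lit 4) (nat_lit 288) (nat_lit 248) (nat_lit 244))) (XT.nd (nat_lit 78) (nat_lit 304) (nat_lit 0) (XT.lf (nat_lit 0) (nat_lit 5041161681) (nat_lit 304) (nat_lit 3840071534) (nat_lit 0) (nat_lit 385684562) (nat_lit 47) (nat_lit 5) (nat_lit 51) (nat_lit 4) (nat_lit 47) (nat_lit 4) (nat_lit 289) (nat_lit 248) (nat_lit 243)) (XT.nd (nat_lit 78) (nat_lit 76) (nat_lit 0) (XT.lf (nat_lit 0) (nat_lit 2596664322) (nat_lit 228) (nat_lit 6178399142) (nat_lit 228) (nat_lit 720518183)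 (nat_lit 44) (nat_lit 4) (nat_lit 47) (nat_lit 5) (nat_lit 47) (nat_lit 4) (nat_lit 290) (nat_lit 248) (nat_lit 242)) (XT.lf (nat_lit 0) (nat_lit 2795873935) (nat_lit 304) (nat_lit 490533525) (nat_lit 76) (nat_lit 6450616229) (nat_lit 43) (nat_lit 5) (nat_lit 47) (nat_lit 5) (nat_lit 44) (nat_lit 4) (nat_lit 291) (nat_lit 248) (nat_lit 241)))))) (XT.nd (nat_lit 390) (nat_lit 532) (nat_lit 0) (XT.nd (nat_lit 156) (nat_lit 380) (nat_lit 0) (XT.nd (nat_lit 78) (nat_lit 228) (nat_lit 0) (XT.lf (nat_lit 0) (nat_lit 6236166007) (nat_lit 152) (nat_lit 196051083) (nat_lit 228) (nat_lit 3559491130) (nat_lit 41) (nat_lit 5) (nat_lit 43) (nat_lit 5) (nat_lit 44) (nat_lit 4) (nat_lit 292) (nat_lit 248) (nat_lit 240)) (XT.lf (nat_lit 0) (nat_lit 2910608229) (nat_lit 228) (nat_lit 7314511711) (nat_lit 228) (nat_lit 35439678) (nat_lit 38) (nat_lit 4) (nat_lit 41) (nat_lit 5) (nat_lit 41) (nat_lit 4)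 (nat_lit 293) (nat_lit 248) (nat_lit 239))) (XT.nd (nat_lit 78) (nat_lit 304) (nat_lit 0) (XT.lf (nat_lit 0) (nat_lit 3489528704) (nat_lit 304) (nat_lit 754242592) (nat_lit 76) (nat_lit 6299274808) (nat_lit 37) (nat_lit 5) (nat_lit 41) (nat_lit 5) (nat_lit 38) (nat_lit 4) (nat_lit 294) (nat_lit 248) (nat_lit 238)) (XT.nd (nat_lit 78) (nat_lit 152) (nat_lit 0) (XT.lf (nat_lit 0) (nat_lit 6184277981) (nat_lit 152) (nat_lit 981975930) (nat_lit 228) (nat_lit 3674685636) (nat_lit 35) (nat_lit 5) (nat_lit 37) (nat_lit 5) (nat_lit 38) (nat_lit 4) (nat_lit 295) (nat_lit 248) (nat_lit 237)) (XT.lf (nat_lit 0) (nat_lit 2188167494) (nat_lit 152) (nat_lit 8805951129) (nat_lit 152) (nat_lit 161383543) (nat_lit 33) (nat_lit 4) (nat_lit 35) (nat_lit 5) (nat_lit 35) (nat_lit 4) (nat_lit 296) (nat_lit 248) (nat_lit 236))))) (XT.nd (nat_lit 156) (nat_lit 304) (nat_lit 0) (XT.nd (nat_lit 78) (nat_lit 152)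 (nat_lit 0) (XT.lf (nat_lit 0) (nat_lit 3393687044) (nat_lit 228) (nat_lit 2204745813) (nat_lit 76) (nat_lit 5885782563) (nat_lit 32) (nat_lit 5) (nat_lit 35) (nat_lit 5) (nat_lit 33) (nat_lit 4) (nat_lit 297) (nat_lit 248) (nat_lit 235)) (XT.lf (nat_lit 0) (nat_lit 4870807346) (nat_lit 152) (nat_lit 2214664826) (nat_lit 228) (nat_lit 4745661308) (nat_lit 30) (nat_lit 5) (nat_lit 32) (nat_lit 5) (nat_lit 33) (nat_lit 4) (nat_lit 298) (nat_lit 248) (nat_lit 234))) (XT.nd (nat_lit 78) (nat_lit 304) (nat_lit 0) (XT.lf (nat_lit 0) (nat_lit 10910568292) (nat_lit 228) (nat_lit 18424927) (nat_lit 0) (nat_lit 1269083041) (nat_lit 30) (nat_lit 5) (nat_lit 33) (nat_lit 4) (nat_lit 30) (nat_lit 4) (nat_lit 299) (nat_lit 248) (nat_lit 233)) (XT.nd (nat_lit 78) (nat_lit 76) (nat_lit 0) (XT.lf (nat_lit 0) (nat_lit 2314524399) (nat_lit 228) (nat_lit 5322242120) (nat_lit 76) (nat_lit 4942575426) (nat_lit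 27) (nat_lit 5) (nat_lit 30) (nat_lit 5) (nat_lit 28) (nat_lit 4) (nat_lit 300) (nat_lit 248) (nat_lit 232)) (XT.lf (nat_lit 0) (nat_lit 1780999582) (nat_lit 76) (nat_lit 4196212703) (nat_lit 152) (nat_lit 7005311423) (nat_lit 26) (nat_lit 5) (nat_lit 27) (nat_lit 5) (nat_lit 28) (nat_lit 4) (nat_lit 301) (nat_lit 248) (nat_lit 231))))))))
noncomputable def xc71 : XT := (XT.nd (nat_lit 1560) (nat_lit 456) (nat_lit 0) (XT.nd (nat_lit 780) (nat_lit 380) (nat_lit 0) (XT.nd (nat_lit 390) (nat_lit 456) (nat_lit 0) (XT.nd (nat_lit 156) (nat_lit 152) (nat_lit 0) (XT.nd (nat_lit 78) (nat_lit 152) (nat_lit 0) (XT.lf (nat_lit 0) (nat_lit 9254681362) (nat_lit 76) (nat_lit 556507385) (nat_lit 152) (nat_lit 3595362637) (nat_lit 26) (nat_lit 5) (nat_lit 27) (nat_lit 5) (nat_lit 28) (nat_lit 4) (nat_lit 302) (nat_lit 248) (nat_lit 230)) (XT.lf (nat_lit 0) (nat_lit 3134233987) (nat_lit 152) (nat_lit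 10704414590) (nat_lit 152) (nat_lit 13132670) (nat_lit 24) (nat_lit 4) (nat_lit 26) (nat_lit 5) (nat_lit 26) (nat_lit 4) (nat_lit 303) (nat_lit 248) (nat_lit 229))) (XT.nd (nat_lit 78) (nat_lit 76) (nat_lit 0) (XT.lf (nat_lit 0) (nat_lit 3611179942) (nat_lit 228) (nat_lit 3621778405) (nat_lit 76) (nat_lit 7084323053) (nat_lit 23) (nat_lit 5) (nat_lit 26) (nat_lit 5) (nat_lit 24) (nat_lit 4) (nat_lit 304) (nat_lit 248) (nat_lit 228)) (XT.nd (nat_lit 78) (nat_lit 0) (nat_lit 0) (XT.lf (nat_lit 0) (nat_lit 3791818380) (nat_lit 76) (nat_lit 3590647041) (nat_lit 152) (nat_lit 7425348219) (nat_lit 22) (nat_lit 5) (nat_lit 23) (nat_lit 5) (nat_lit 24) (nat_lit 4) (nat_lit 305) (nat_lit 248) (nat_lit 227)) (XT.lf (nat_lit 0) (nat_lit 11316297012) (nat_lit 152) (nat_lit 3781799449) (nat_lit 0) (nat_lit 226151008) (nat_lit 22) (nat_lit 5) (nat_lit 24) (nat_lit 4) (nat_lit 22) (nat_lit 4) (nat_lit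 306) (nat_lit 248) (nat_lit 226))))) (XT.nd (nat_lit 156) (nat_lit 228) (nat_lit 0) (XT.nd (nat_lit 78) (nat_lit 76) (nat_lit 0) (XT.lf (nat_lit 0) (nat_lit 3722802410) (nat_lit 152) (nat_lit 11753375445) (nat_lit 152) (nat_lit 388927792) (nat_lit 20) (nat_lit 4) (nat_lit 22) (nat_lit 5) (nat_lit 22) (nat_lit 4) (nat_lit 307) (nat_lit 248) (nat_lit 225)) (XT.lf (nat_lit 0) (nat_lit 3279711843) (nat_lit 228) (nat_lit 4902278039) (nat_lit 76) (nat_lit 8249526005) (nat_lit 19) (nat_lit 5) (nat_lit 22) (nat_lit 5) (nat_lit 20) (nat_lit 4) (nat_lit 308) (nat_lit 248) (nat_lit 224))) (XT.nd (nat_lit 78) (nat_lit 152) (nat_lit 0) (XT.lf (nat_lit 0) (nat_lit 2632783196) (nat_lit 76) (nat_lit 4443933972) (nat_lit 152) (nat_lit 9951371403) (nat_lit 18) (nat_lit 5) (nat_lit 19) (nat_lit 5) (nat_lit 20) (nat_lit 4) (nat_lit 309) (nat_lit 248) (nat_lit 223)) (XT.nd (nat_lit 78) (nat_lit 152) (nat_lit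 0) (XT.lf (nat_lit 0) (nat_lit 10572275027) (nat_lit 76) (nat_lit 492951365) (nat_lit 152) (nat_lit 6589238851) (nat_lit 18) (nat_lit 5) (nat_lit 19) (nat_lit 5) (nat_lit 20) (nat_lit 4) (nat_lit 310) (nat_lit 248) (nat_lit 222)) (XT.lf (nat_lit 0) (nat_lit 414004970) (nat_lit 152) (nat_lit 14824290370) (nat_lit 152) (nat_lit 3074663966) (nat_lit 16) (nat_lit 4) (nat_lit 18) (nat_lit 5) (nat_lit 18) (nat_lit 4) (nat_lit 311) (nat_lit 248) (nat_lit 221)))))) (XT.nd (nat_lit 390) (nat_lit 228) (nat_lit 0) (XT.nd (nat_lit 156) (nat_lit 76) (nat_lit 0) (XT.nd (nat_lit 78) (nat_lit 0) (nat_lit 0) (XT.lf (nat_lit 0) (nat_lit 647811828) (nat_lit 228) (nat_lit 10626300269) (nat_lit 76) (nat_lit 7727241692) (nat_lit 15) (nat_lit 5) (nat_lit 18) (nat_lit 5) (nat_lit 16) (nat_lit 4) (nat_lit 312) (nat_lit 248) (nat_lit 220)) (XT.lf (nat_lit 0) (nat_lit 4378690882) (nat_lit 228) (nat_lit 3172939269)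 (nat_lit 76) (nat_lit 12173784956) (nat_lit 15) (nat_lit 5) (nat_lit 18) (nat_lit 5) (nat_lit 16) (nat_lit 4) (nat_lit 313) (nat_lit 248) (nat_lit 219))) (XT.nd (nat_lit 78) (nat_lit 0) (nat_lit 0) (XT.lf (nat_lit 0) (nat_lit 4676557940) (nat_lit 76) (nat_lit 3621720924) (nat_lit 152) (nat_lit 12187337851) (nat_lit 14) (nat_lit 5) (nat_lit 15) (nat_lit 5) (nat_lit 16) (nat_lit 4) (nat_lit 314) (nat_lit 248) (nat_lit 218)) (XT.nd (nat_lit 78) (nat_lit 0) (nat_lit 0) (XT.lf (nat_lit 0) (nat_lit 12406072815) (nat_lit 152) (nat_lit 8388049056) (nat_lit 0) (nat_lit 490138509) (nat_lit 14) (nat_lit 5) (nat_lit 16) (nat_lit 4) (nat_lit 14) (nat_lit 4) (nat_lit 315) (nat_lit 248) (nat_lit 217)) (XT.lf (nat_lit 0) (nat_lit 16711705960) (nat_lit 152) (nat_lit 776155877) (nat_lit 0) (nat_lit 4635393161) (nat_lit 14) (nat_lit 5) (nat_lit 16) (nat_lit 4) (nat_lit 14) (nat_lit 4) (nat_lit 316) (nat_lit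 248) (nat_lit 216))))) (XT.nd (nat_lit 156) (nat_lit 76) (nat_lit 0) (XT.nd (nat_lit 78) (nat_lit 76) (nat_lit 0) (XT.lf (nat_lit 0) (nat_lit 7336090231) (nat_lit 76) (nat_lit 13947331290) (nat_lit 76) (nat_lit 1718277069) (nat_lit 13) (nat_lit 4) (nat_lit 14) (nat_lit 5) (nat_lit 14) (nat_lit 4) (nat_lit 317) (nat_lit 248) (nat_lit 215)) (XT.lf (nat_lit 0) (nat_lit 2040367439) (nat_lit 152) (nat_lit 8191768991) (nat_lit 76) (nat_lit 13692786069) (nat_lit 12) (nat_lit 5) (nat_lit 14) (nat_lit 5) (nat_lit 13) (nat_lit 4) (nat_lit 318) (nat_lit 248) (nat_lit 214))) (XT.nd (nat_lit 78) (nat_lit 76) (nat_lit 0) (XT.lf (nat_lit 0) (nat_lit 5868695405) (nat_lit 152) (nat_lit 482237633) (nat_lit 76) (nat_lit 18545025243) (nat_lit 12) (nat_lit 5) (nat_lit 14) (nat_lit 5) (nat_lit 13) (nat_lit 4) (nat_lit 319) (nat_lit 248) (nat_lit 213)) (XT.nd (nat_lit 78) (nat_lit 0) (nat_lit 0) (XT.lf (nat_lit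 0) (nat_lit 7756422833) (nat_lit 76) (nat_lit 2195494157) (nat_lit 152) (nat_lit 15960487316) (nat_lit 11) (nat_lit 5) (nat_lit 12) (nat_lit 5) (nat_lit 13) (nat_lit 4) (nat_lit 320) (nat_lit 248) (nat_lit 212)) (XT.lf (nat_lit 0) (nat_lit 14224234569) (nat_lit 152) (nat_lit 10694528234) (nat_lit 0) (nat_lit 2061693861) (nat_lit 11) (nat_lit 5) (nat_lit 13) (nat_lit 4) (nat_lit 11) (nat_lit 4) (nat_lit 321) (nat_lit 248) (nat_lit 211))))))) (XT.nd (nat_lit 780) (nat_lit 152) (nat_lit 0) (XT.nd (nat_lit 390) (nat_lit 152) (nat_lit 0) (XT.nd (nat_lit 156) (nat_lit 76) (nat_lit 0) (XT.nd (nat_lit 78) (nat_lit 76) (nat_lit 0) (XT.lf (nat_lit 0) (nat_lit 18691673992) (nat_lit 152) (nat_lit 2996036378) (nat_lit 0) (nat_lit 6415155283) (nat_lit 11) (nat_lit 5) (nat_lit 13) (nat_lit 4) (nat_lit 11) (nat_lit 4) (nat_lit 322) (nat_lit 248) (nat_lit 210)) (XT.lf (nat_lit 0) (nat_lit 5157163077)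 (nat_lit 76) (nat_lit 18253948894) (nat_lit 76) (nat_lit 5868879708) (nat_lit 10) (nat_lit 4) (nat_lit 11) (nat_lit 5) (nat_lit 11) (nat_lit 4) (nat_lit 323) (nat_lit 248) (nat_lit 209))) (XT.nd (nat_lit 78) (nat_lit 76) (nat_lit 0) (XT.lf (nat_lit 0) (nat_lit 13728296456) (nat_lit 76) (nat_lit 14638080975) (nat_lit 76) (nat_lit 2149630382) (nat_lit 10) (nat_lit 4) (nat_lit 11) (nat_lit 5) (nat_lit 11) (nat_lit 4) (nat_lit 324) (nat_lit 248) (nat_lit 208)) (XT.nd (nat_lit 78) (nat_lit 0) (nat_lit 0) (XT.lf (nat_lit 0) (nat_lit 1650112183) (nat_lit 152) (nat_lit 9204179099) (nat_lit 76) (nat_lit 20960651092) (nat_lit 9) (nat_lit 5) (nat_lit 11) (nat_lit 5) (nat_lit 10) (nat_lit 4) (nat_lit 325) (nat_lit 248) (nat_lit 207)) (XT.lf (nat_lit 0) (nat_lit 5520667194) (nat_lit 152) (nat_lit 1363311310) (nat_lit 76) (nat_lit 26295452784) (nat_lit 9) (nat_lit 5) (nat_lit 11) (nat_lit 5) (nat_lit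 10) (nat_lit 4) (nat_lit 326) (nat_lit 248) (nat_lit 206))))) (XT.nd (nat_lit 156) (nat_lit 76) (nat_lit 0) (XT.nd (nat_lit 78) (nat_lit 0) (nat_lit 0) (XT.lf (nat_lit 0) (nat_lit 7011535417) (nat_lit 76) (nat_lit 2637986154) (nat_lit 152) (nat_lit 24959406368) (nat_lit 8) (nat_lit 5) (nat_lit 9) (nat_lit 5) (nat_lit 10) (nat_lit 4) (nat_lit 327) (nat_lit 248) (nat_lit 205)) (XT.lf (nat_lit 0) (nat_lit 13992286501) (nat_lit 152) (nat_lit 20367865236) (nat_lit 0) (nat_lit 1749395125) (nat_lit 8) (nat_lit 5) (nat_lit 10) (nat_lit 4) (nat_lit 8) (nat_lit 4) (nat_lit 328) (nat_lit 248) (nat_lit 204))) (XT.nd (nat_lit 78) (nat_lit 76) (nat_lit 0) (XT.lf (nat_lit 0) (nat_lit 18553131469) (nat_lit 152) (nat_lit 12898942715) (nat_lit 0) (nat_lit 6233095296) (nat_lit 8) (nat_lit 5) (nat_lit 10) (nat_lit 4) (nat_lit 8) (nat_lit 4) (nat_lit 329) (nat_lit 248) (nat_lit 203)) (XT.nd (nat_lit 78)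 (nat_lit 76) (nat_lit 0) (XT.lf (nat_lit 0) (nat_lit 23301729275) (nat_lit 152) (nat_lit 5131655455) (nat_lit 0) (nat_lit 10908221866) (nat_lit 8) (nat_lit 5) (nat_lit 10) (nat_lit 4) (nat_lit 8) (nat_lit 4) (nat_lit 330) (nat_lit 248) (nat_lit 202)) (XT.lf (nat_lit 0) (nat_lit 3050112741) (nat_lit 76) (nat_lit 25246894169) (nat_lit 76) (nat_lit 12783414155) (nat_lit 7) (nat_lit 4) (nat_lit 8) (nat_lit 5) (nat_lit 8) (nat_lit 4) (nat_lit 331) (nat_lit 248) (nat_lit 201)))))) (XT.nd (nat_lit 390) (nat_lit 76) (nat_lit 0) (XT.nd (nat_lit 156) (nat_lit 76) (nat_lit 0) (XT.nd (nat_lit 78) (nat_lit 0) (nat_lit 0) (XT.lf (nat_lit 0) (nat_lit 11748776079) (nat_lit 76) (nat_lit 21842537328) (nat_lit 76) (nat_lit 9312416738) (nat_lit 7) (nat_lit 4) (nat_lit 8) (nat_lit 5) (nat_lit 8) (nat_lit 4) (nat_lit 332) (nat_lit 248) (nat_lit 200)) (XT.lf (nat_lit 0) (nat_lit 20815369957) (nat_lit 76) (nat_lit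 18299115665) (nat_lit 76) (nat_lit 5705527859) (nat_lit 7) (nat_lit 4) (nat_lit 8) (nat_lit 5) (nat_lit 8) (nat_lit 4) (nat_lit 333) (nat_lit 248) (nat_lit 199))) (XT.nd (nat_lit 78) (nat_lit 76) (nat_lit 0) (XT.lf (nat_lit 0) (nat_lit 30271481504) (nat_lit 76) (nat_lit 14608192462) (nat_lit 76) (nat_lit 1954159689) (nat_lit 7) (nat_lit 4) (nat_lit 8) (nat_lit 5) (nat_lit 8) (nat_lit 4) (nat_lit 334) (nat_lit 248) (nat_lit 198)) (XT.nd (nat_lit 78) (nat_lit 0) (nat_lit 0) (XT.lf (nat_lit 0) (nat_lit 1888187593) (nat_lit 152) (nat_lit 8840814842) (nat_lit 76) (nat_lit 38219460306) (nat_lit 6) (nat_lit 5) (nat_lit 8) (nat_lit 5) (nat_lit 7) (nat_lit 4) (nat_lit 335) (nat_lit 248) (nat_lit 197)) (XT.lf (nat_lit 0) (nat_lit 5825490097) (nat_lit 152) (nat_lit 824170075) (nat_lit 76) (nat_lit 44519149244) (nat_lit 6) (nat_lit 5) (nat_lit 8) (nat_lit 5) (nat_lit 7) (nat_lit 4) (nat_lit 336)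 (nat_lit 248) (nat_lit 196))))) (XT.nd (nat_lit 234) (nat_lit 0) (nat_lit 0) (XT.nd (nat_lit 78) (nat_lit 0) (nat_lit 0) (XT.lf (nat_lit 0) (nat_lit 7786392493) (nat_lit 76) (nat_lit 2264842582) (nat_lit 152) (nat_lit 43444372273) (nat_lit 5) (nat_lit 5) (nat_lit 6) (nat_lit 5) (nat_lit 7) (nat_lit 4) (nat_lit 337) (nat_lit 248) (nat_lit 195)) (XT.nd (nat_lit 78) (nat_lit 0) (nat_lit 0) (XT.lf (nat_lit 0) (nat_lit 14509148632) (nat_lit 152) (nat_lit 39175004248) (nat_lit 0) (nat_lit 2253560408) (nat_lit 5) (nat_lit 5) (nat_lit 7) (nat_lit 4) (nat_lit 5) (nat_lit 4) (nat_lit 338) (nat_lit 248) (nat_lit 194)) (XT.lf (nat_lit 0) (nat_lit 19198679845) (nat_lit 152) (nat_lit 32404833528) (nat_lit 0) (nat_lit 6897986654) (nat_lit 5) (nat_lit 5) (nat_lit 7) (nat_lit 4) (nat_lit 5) (nat_lit 4) (nat_lit 339) (nat_lit 248) (nat_lit 193)))) (XT.nd (nat_lit 78) (nat_lit 0) (nat_lit 0) (XT.lf (nat_lit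 0) (nat_lit 24095633722) (nat_lit 152) (nat_lit 25347222700) (nat_lit 0) (nat_lit 11751983422) (nat_lit 5) (nat_lit 5) (nat_lit 7) (nat_lit 4) (nat_lit 5) (nat_lit 4) (nat_lit 340) (nat_lit 248) (nat_lit 192)) (XT.nd (nat_lit 78) (nat_lit 0) (nat_lit 0) (XT.lf (nat_lit 0) (nat_lit 29211669679) (nat_lit 152) (nat_lit 17985367929) (nat_lit 0) (nat_lit 16827107846) (nat_lit 5) (nat_lit 5) (nat_lit 7) (nat_lit 4) (nat_lit 5) (nat_lit 4) (nat_lit 341) (nat_lit 248) (nat_lit 191)) (XT.lf (nat_lit 0) (nat_lit 34558968754) (nat_lit 152) (nat_lit 10301740989) (nat_lit 0) (nat_lit 22135443556) (nat_lit 5) (nat_lit 5) (nat_lit 7) (nat_lit 4) (nat_lit 5) (nat_lit 4) (nat_lit 342) (nat_lit 248) (nat_lit 190))))))))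
noncomputable def xc72 : XT := (XT.nd (nat_lit 1560) (nat_lit 76) (nat_lit 0) (XT.nd (nat_lit 780) (nat_lit 152) (nat_lit 0) (XT.nd (nat_lit 390) (nat_lit 0) (nat_lit 0) (XT.nd (nat_lit 156) (nat_lit 0) (nat_lit 0) (XT.nd (nat_lit 78) (nat_lit 76) (nat_lit 0) (XT.lf (nat_lit 0) (nat_lit 40150262611) (nat_lit 152) (nat_lit 2278047531) (nat_lit 0) (nat_lit 27689629446) (nat_lit 5) (nat_lit 5) (nat_lit 7) (nat_lit 4) (nat_lit 5) (nat_lit 4) (nat_lit 343) (nat_lit 248) (nat_lit 189)) (XT.lf (nat_lit 0) (nat_lit 6306669279) (nat_lit 76) (nat_lit 39790659356) (nat_lit 76) (nat_lit 27294685271) (nat_lit 4) (nat_lit 4) (nat_lit 5) (nat_lit 5) (nat_lit 5) (nat_lit 4) (nat_lit 344) (nat_lit 248) (nat_lit 188))) (XT.nd (nat_lit 78) (nat_lit 0) (nat_lit 0) (XT.lf (nat_lit 0) (nat_lit 15358374122) (nat_lit 76) (nat_lit 37000110863) (nat_lit 76) (nat_lit 24470478759) (nat_lit 4) (nat_lit 4) (nat_lit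 5) (nat_lit 5) (nat_lit 5) (nat_lit 4) (nat_lit 345) (nat_lit 248) (nat_lit 187)) (XT.nd (nat_lit 78) (nat_lit 0) (nat_lit 0) (XT.lf (nat_lit 0) (nat_lit 24823296135) (nat_lit 76) (nat_lit 34088600339) (nat_lit 76) (nat_lit 21526912977) (nat_lit 4) (nat_lit 4) (nat_lit 5) (nat_lit 5) (nat_lit 5) (nat_lit 4) (nat_lit 346) (nat_lit 248) (nat_lit 186)) (XT.lf (nat_lit 0) (nat_lit 34723970848) (nat_lit 76) (nat_lit 31049195615) (nat_lit 76) (nat_lit 18456979437) (nat_lit 4) (nat_lit 4) (nat_lit 5) (nat_lit 5) (nat_lit 5) (nat_lit 4) (nat_lit 347) (nat_lit 248) (nat_lit 185))))) (XT.nd (nat_lit 156) (nat_lit 0) (nat_lit 0) (XT.nd (nat_lit 78) (nat_lit 0) (nat_lit 0) (XT.lf (nat_lit 0) (nat_lit 45083971294) (nat_lit 76) (nat_lit 27874660013) (nat_lit 76) (nat_lit 15253368772) (nat_lit 4) (nat_lit 4) (nat_lit 5) (nat_lit 5) (nat_lit 5) (nat_lit 4) (nat_lit 348) (nat_lit 248) (nat_lit 184))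 (XT.lf (nat_lit 0) (nat_lit 55927964142) (nat_lit 76) (nat_lit 24557435115) (nat_lit 76) (nat_lit 11908453339) (nat_lit 4) (nat_lit 4) (nat_lit 5) (nat_lit 5) (nat_lit 5) (nat_lit 4) (nat_lit 349) (nat_lit 248) (nat_lit 183))) (XT.nd (nat_lit 78) (nat_lit 0) (nat_lit 0) (XT.lf (nat_lit 0) (nat_lit 67281768423) (nat_lit 76) (nat_lit 21089622767) (nat_lit 76) (nat_lit 8414269052) (nat_lit 4) (nat_lit 4) (nat_lit 5) (nat_lit 5) (nat_lit 5) (nat_lit 4) (nat_lit 350) (nat_lit 248) (nat_lit 182)) (XT.nd (nat_lit 78) (nat_lit 0) (nat_lit 0) (XT.lf (nat_lit 0) (nat_lit 79172417003) (nat_lit 76) (nat_lit 17462966272) (nat_lit 76) (nat_lit 4762496425) (nat_lit 4) (nat_lit 4) (nat_lit 5) (nat_lit 5) (nat_lit 5) (nat_lit 4) (nat_lit 351) (nat_lit 248) (nat_lit 181)) (XT.lf (nat_lit 0) (nat_lit 91628220951) (nat_lit 76) (nat_lit 13668830735) (nat_lit 76) (nat_lit 944440761) (nat_lit 4) (nat_lit 4)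 (nat_lit 5) (nat_lit 5) (nat_lit 5) (nat_lit 4) (nat_lit 352) (nat_lit 248) (nat_lit 180)))))) (XT.nd (nat_lit 390) (nat_lit 0) (nat_lit 0) (XT.nd (nat_lit 156) (nat_lit 0) (nat_lit 0) (XT.nd (nat_lit 78) (nat_lit 76) (nat_lit 0) (XT.lf (nat_lit 0) (nat_lit 2951401872) (nat_lit 152) (nat_lit 6696797208) (nat_lit 76) (nat_lit 101677451651) (nat_lit 3) (nat_lit 5) (nat_lit 5) (nat_lit 5) (nat_lit 4) (nat_lit 4) (nat_lit 353) (nat_lit 248) (nat_lit 179)) (XT.lf (nat_lit 0) (nat_lit 1624900590) (nat_lit 76) (nat_lit 5396449602) (nat_lit 152) (nat_lit 109641345271) (nat_lit 2) (nat_lit 5) (nat_lit 3) (nat_lit 5) (nat_lit 4) (nat_lit 4) (nat_lit 354) (nat_lit 248) (nat_lit 178))) (XT.nd (nat_lit 78) (nat_lit 0) (nat_lit 0) (XT.lf (nat_lit 0) (nat_lit 10568493913) (nat_lit 76) (nat_lit 825664293) (nat_lit 152) (nat_lit 110867471174) (nat_lit 2) (nat_lit 5) (nat_lit 3) (nat_lit 5) (nat_lit 4)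 (nat_lit 4) (nat_lit 355) (nat_lit 248) (nat_lit 177)) (XT.nd (nat_lit 78) (nat_lit 0) (nat_lit 0) (XT.lf (nat_lit 0) (nat_lit 16034076588) (nat_lit 152) (nat_lit 108269185335) (nat_lit 0) (nat_lit 3834829390) (nat_lit 2) (nat_lit 5) (nat_lit 4) (nat_lit 4) (nat_lit 2) (nat_lit 4) (nat_lit 356) (nat_lit 248) (nat_lit 176)) (XT.lf (nat_lit 0) (nat_lit 20906602554) (nat_lit 152) (nat_lit 104712242006) (nat_lit 0) (nat_lit 8689505790) (nat_lit 2) (nat_lit 5) (nat_lit 4) (nat_lit 4) (nat_lit 2) (nat_lit 4) (nat_lit 357) (nat_lit 248) (nat_lit 175))))) (XT.nd (nat_lit 156) (nat_lit 0) (nat_lit 0) (XT.nd (nat_lit 78) (nat_lit 0) (nat_lit 0) (XT.lf (nat_lit 0) (nat_lit 26010446424) (nat_lit 152) (nat_lit 101000945634) (nat_lit 0) (nat_lit 13776350073) (nat_lit 2) (nat_lit 5) (nat_lit 4) (nat_lit 4) (nat_lit 2) (nat_lit 4) (nat_lit 358) (nat_lit 248) (nat_lit 174)) (XT.lf (nat_lit 0) (nat_lit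 31357760206) (nat_lit 152) (nat_lit 97126459800) (nat_lit 0) (nat_lit 19107473772) (nat_lit 2) (nat_lit 5) (nat_lit 4) (nat_lit 4) (nat_lit 2) (nat_lit 4) (nat_lit 359) (nat_lit 248) (nat_lit 173))) (XT.nd (nat_lit 78) (nat_lit 0) (nat_lit 0) (XT.lf (nat_lit 0) (nat_lit 36961275601) (nat_lit 152) (nat_lit 93079559536) (nat_lit 0) (nat_lit 24695570040) (nat_lit 2) (nat_lit 5) (nat_lit 4) (nat_lit 4) (nat_lit 2) (nat_lit 4) (nat_lit 360) (nat_lit 248) (nat_lit 172)) (XT.nd (nat_lit 78) (nat_lit 0) (nat_lit 0) (XT.lf (nat_lit 0) (nat_lit 42834334310) (nat_lit 152) (nat_lit 88850609366) (nat_lit 0) (nat_lit 30553943868) (nat_lit 2) (nat_lit 5) (nat_lit 4) (nat_lit 4) (nat_lit 2) (nat_lit 4) (nat_lit 361) (nat_lit 248) (nat_lit 171)) (XT.lf (nat_lit 0) (nat_lit 48990919809) (nat_lit 152) (nat_lit 84429540362) (nat_lit 0) (nat_lit 36696543764) (nat_lit 2) (nat_lit 5) (nat_lit 4) (nat_lit 4)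 (nat_lit 2) (nat_lit 4) (nat_lit 362) (nat_lit 248) (nat_lit 170))))))) (XT.nd (nat_lit 780) (nat_lit 76) (nat_lit 0) (XT.nd (nat_lit 390) (nat_lit 0) (nat_lit 0) (XT.nd (nat_lit 156) (nat_lit 0) (nat_lit 0) (XT.nd (nat_lit 78) (nat_lit 0) (nat_lit 0) (XT.lf (nat_lit 0) (nat_lit 55445690633) (nat_lit 152) (nat_lit 79805826168) (nat_lit 0) (nat_lit 43137994966) (nat_lit 2) (nat_lit 5) (nat_lit 4) (nat_lit 4) (nat_lit 2) (nat_lit 4) (nat_lit 363) (nat_lit 248) (nat_lit 169)) (XT.lf (nat_lit 0) (nat_lit 62214015284) (nat_lit 152) (nat_lit 74968457941) (nat_lit 0) (nat_lit 49893634264) (nat_lit 2) (nat_lit 5) (nat_lit 4) (nat_lit 4) (nat_lit 2) (nat_lit 4) (nat_lit 364) (nat_lit 248) (nat_lit 168))) (XT.nd (nat_lit 78) (nat_lit 0) (nat_lit 0) (XT.lf (nat_lit 0) (nat_lit 69312008822) (nat_lit 152) (nat_lit 69905918138) (nat_lit 0) (nat_lit 56979546513) (nat_lit 2) (nat_lit 5) (nat_lit 4)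 (nat_lit 4) (nat_lit 2) (nat_lit 4) (nat_lit 365) (nat_lit 248) (nat_lit 167)) (XT.nd (nat_lit 78) (nat_lit 0) (nat_lit 0) (XT.lf (nat_lit 0) (nat_lit 76756571230) (nat_lit 152) (nat_lit 64606153092) (nat_lit 0) (nat_lit 64412602931) (nat_lit 2) (nat_lit 5) (nat_lit 4) (nat_lit 4) (nat_lit 2) (nat_lit 4) (nat_lit 366) (nat_lit 248) (nat_lit 166)) (XT.lf (nat_lit 0) (nat_lit 84565427657) (nat_lit 152) (nat_lit 59056544316) (nat_lit 0) (nat_lit 72210501273) (nat_lit 2) (nat_lit 5) (nat_lit 4) (nat_lit 4) (nat_lit 2) (nat_lit 4) (nat_lit 367) (nat_lit 248) (nat_lit 165))))) (XT.nd (nat_lit 156) (nat_lit 0) (nat_lit 0) (XT.nd (nat_lit 78) (nat_lit 0) (nat_lit 0) (XT.lf (nat_lit 0) (nat_lit 92757170619) (nat_lit 152) (nat_lit 53243878454) (nat_lit 0) (nat_lit 80391807964) (nat_lit 2) (nat_lit 5) (nat_lit 4) (nat_lit 4) (nat_lit 2) (nat_lit 4) (nat_lit 368) (nat_lit 248) (nat_lit 164)) (XT.lf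 (nat_lit 0) (nat_lit 101351304266) (nat_lit 152) (nat_lit 47154315827) (nat_lit 0) (nat_lit 88976002304) (nat_lit 2) (nat_lit 5) (nat_lit 4) (nat_lit 4) (nat_lit 2) (nat_lit 4) (nat_lit 369) (nat_lit 248) (nat_lit 163))) (XT.nd (nat_lit 78) (nat_lit 0) (nat_lit 0) (XT.lf (nat_lit 0) (nat_lit 110368290820) (nat_lit 152) (nat_lit 40773357476) (nat_lit 0) (nat_lit 97983522852) (nat_lit 2) (nat_lit 5) (nat_lit 4) (nat_lit 4) (nat_lit 2) (nat_lit 4) (nat_lit 370) (nat_lit 248) (nat_lit 162)) (XT.nd (nat_lit 78) (nat_lit 0) (nat_lit 0) (XT.lf (nat_lit 0) (nat_lit 119829599298) (nat_lit 152) (nat_lit 34085810643) (nat_lit 0) (nat_lit 107435816085) (nat_lit 2) (nat_lit 5) (nat_lit 4) (nat_lit 4) (nat_lit 2) (nat_lit 4) (nat_lit 371) (nat_lit 248) (nat_lit 161)) (XT.lf (nat_lit 0) (nat_lit 129757756623) (nat_lit 152) (nat_lit 27075752597) (nat_lit 0) (nat_lit 117355387464) (nat_lit 2) (nat_lit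 5) (nat_lit 4) (nat_lit 4) (nat_lit 2) (nat_lit 4) (nat_lit 372) (nat_lit 248) (nat_lit 160)))))) (XT.nd (nat_lit 390) (nat_lit 0) (nat_lit 0) (XT.nd (nat_lit 156) (nat_lit 76) (nat_lit 0) (XT.nd (nat_lit 78) (nat_lit 0) (nat_lit 0) (XT.lf (nat_lit 0) (nat_lit 140176401266) (nat_lit 152) (nat_lit 19726492723) (nat_lit 0) (nat_lit 127765855015) (nat_lit 2) (nat_lit 5) (nat_lit 4) (nat_lit 4) (nat_lit 2) (nat_lit 4) (nat_lit 373) (nat_lit 248) (nat_lit 159)) (XT.lf (nat_lit 0) (nat_lit 151110339524) (nat_lit 152) (nat_lit 12020532785) (nat_lit 0) (nat_lit 138692005566) (nat_lit 2) (nat_lit 5) (nat_lit 4) (nat_lit 4) (nat_lit 2) (nat_lit 4) (nat_lit 374) (nat_lit 248) (nat_lit 158))) (XT.nd (nat_lit 78) (nat_lit 76) (nat_lit 0) (XT.lf (nat_lit 0) (nat_lit 162585604583) (nat_lit 152) (nat_lit 3939525258) (nat_lit 0) (nat_lit 150159853761) (nat_lit 2) (nat_lit 5) (nat_lit 4) (nat_lit 4) (nat_lit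 2) (nat_lit 4) (nat_lit 375) (nat_lit 248) (nat_lit 157)) (XT.nd (nat_lit 78) (nat_lit 0) (nat_lit 0) (XT.lf (nat_lit 0) (nat_lit 4685743402) (nat_lit 76) (nat_lit 170016932686) (nat_lit 76) (nat_lit 157584118185) (nat_lit 1) (nat_lit 4) (nat_lit 2) (nat_lit 5) (nat_lit 2) (nat_lit 4) (nat_lit 376) (nat_lit 248) (nat_lit 156)) (XT.lf (nat_lit 0) (nat_lit 13869442081) (nat_lit 76) (nat_lit 173617856046) (nat_lit 76) (nat_lit 161178314231) (nat_lit 1) (nat_lit 4) (nat_lit 2) (nat_lit 5) (nat_lit 2) (nat_lit 4) (nat_lit 377) (nat_lit 248) (nat_lit 155))))) (XT.nd (nat_lit 156) (nat_lit 0) (nat_lit 0) (XT.nd (nat_lit 78) (nat_lit 0) (nat_lit 0) (XT.lf (nat_lit 0) (nat_lit 23503178229) (nat_lit 76) (nat_lit 177403191317) (nat_lit 76) (nat_lit 164957242537) (nat_lit 1) (nat_lit 4) (nat_lit 2) (nat_lit 5) (nat_lit 2) (nat_lit 4) (nat_lit 378) (nat_lit 248) (nat_lit 154)) (XT.lf (nat_lit 0)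 (nat_lit 33609889315) (nat_lit 76) (nat_lit 181381951201) (nat_lit 76) (nat_lit 168929900548) (nat_lit 1) (nat_lit 4) (nat_lit 2) (nat_lit 5) (nat_lit 2) (nat_lit 4) (nat_lit 379) (nat_lit 248) (nat_lit 153))) (XT.nd (nat_lit 78) (nat_lit 0) (nat_lit 0) (XT.lf (nat_lit 0) (nat_lit 44213638935) (nat_lit 76) (nat_lit 185563608935) (nat_lit 76) (nat_lit 173105746976) (nat_lit 1) (nat_lit 4) (nat_lit 2) (nat_lit 5) (nat_lit 2) (nat_lit 4) (nat_lit 380) (nat_lit 248) (nat_lit 152)) (XT.nd (nat_lit 78) (nat_lit 0) (nat_lit 0) (XT.lf (nat_lit 0) (nat_lit 55339674112) (nat_lit 76) (nat_lit 189958120848) (nat_lit 76) (nat_lit 177494724312) (nat_lit 1) (nat_lit 4) (nat_lit 2) (nat_lit 5) (nat_lit 2) (nat_lit 4) (nat_lit 381) (nat_lit 248) (nat_lit 151)) (XT.lf (nat_lit 0) (nat_lit 67014485408) (nat_lit 76) (nat_lit 194575950064) (nat_lit 76) (nat_lit 182107282501) (nat_lit 1) (nat_lit 4) (nat_lit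 2) (nat_lit 5) (nat_lit 2) (nat_lit 4) (nat_lit 382) (nat_lit 248) (nat_lit 150))))))))
noncomputable def xc73 : XT := (XT.nd (nat_lit 33774) (nat_lit 0) (nat_lit 988) (XT.nd (nat_lit 32994) (nat_lit 0) (nat_lit 2736) (XT.nd (nat_lit 390) (nat_lit 0) (nat_lit 0) (XT.nd (nat_lit 156) (nat_lit 0) (nat_lit 0) (XT.nd (nat_lit 78) (nat_lit 0) (nat_lit 0) (XT.lf (nat_lit 0) (nat_lit 79265869990) (nat_lit 76) (nat_lit 199428091413) (nat_lit 76) (nat_lit 186954403825) (nat_lit 1) (nat_lit 4) (nat_lit 2) (nat_lit 5) (nat_lit 2) (nat_lit 4) (nat_lit 383) (nat_lit 248) (nat_lit 149)) (XT.lf (nat_lit 0) (nat_lit 92122997823) (nat_lit 76) (nat_lit 204526097614) (nat_lit 76) (nat_lit 192047629049) (nat_lit 1) (nat_lit 4) (nat_lit 2) (nat_lit 5) (nat_lit 2) (nat_lit 4) (nat_lit 384) (nat_lit 248) (nat_lit 148))) (XT.nd (nat_lit 78) (nat_lit 0) (nat_lit 0) (XT.lf (nat_lit 0) (nat_lit 105616481116) (nat_lit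 76) (nat_lit 209882106776) (nat_lit 76) (nat_lit 197399084901) (nat_lit 1) (nat_lit 4) (nat_lit 2) (nat_lit 5) (nat_lit 2) (nat_lit 4) (nat_lit 385) (nat_lit 248) (nat_lit 147)) (XT.nd (nat_lit 78) (nat_lit 0) (nat_lit 0) (XT.lf (nat_lit 0) (nat_lit 119778447209) (nat_lit 76) (nat_lit 215508871302) (nat_lit 76) (nat_lit 203021512940) (nat_lit 1) (nat_lit 4) (nat_lit 2) (nat_lit 5) (nat_lit 2) (nat_lit 4) (nat_lit 386) (nat_lit 248) (nat_lit 146)) (XT.lf (nat_lit 0) (nat_lit 134642615071) (nat_lit 76) (nat_lit 221419788251) (nat_lit 76) (nat_lit 208928299902) (nat_lit 1) (nat_lit 4) (nat_lit 2) (nat_lit 5) (nat_lit 2) (nat_lit 4) (nat_lit 387) (nat_lit 248) (nat_lit 145))))) (XT.nd (nat_lit 32370) (nat_lit 0) (nat_lit 4332) (XT.nd (nat_lit 78) (nat_lit 0) (nat_lit 0) (XT.lf (nat_lit 0) (nat_lit 150244375576) (nat_lit 76) (nat_lit 227628931234) (nat_lit 76) (nat_lit 215133509564) (nat_lit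 1) (nat_lit 4) (nat_lit 2) (nat_lit 5) (nat_lit 2) (nat_lit 4) (nat_lit 388) (nat_lit 248) (nat_lit 144)) (XT.lf (nat_lit 0) (nat_lit 166620875773) (nat_lit 76) (nat_lit 234151083925) (nat_lit 76) (nat_lit 221651916235) (nat_lit 1) (nat_lit 4) (nat_lit 2) (nat_lit 5) (nat_lit 2) (nat_lit 4) (nat_lit 389) (nat_lit 248) (nat_lit 143))) (XT.nd (nat_lit 78) (nat_lit 684) (nat_lit 0) (XT.lf (nat_lit 0) (nat_lit 2338788873) (nat_lit 304) (nat_lit 827855715) (nat_lit 304) (nat_lit 827855715) (nat_lit 67) (nat_lit 4) (nat_lit 71) (nat_lit 5) (nat_lit 71) (nat_lit 4) (nat_lit 282) (nat_lit 249) (nat_lit 249)) (XT.nd (nat_lit 78) (nat_lit 304) (nat_lit 0) (XT.lf (nat_lit 0) (nat_lit 1831341395) (nat_lit 380) (nat_lit 5665470863) (nat_lit 0) (nat_lit 645825474) (nat_lit 62) (nat_lit 5) (nat_lit 67) (nat_lit 4) (nat_lit 62) (nat_lit 4) (nat_lit 283) (nat_lit 249) (nat_lit 248)) (XT.lf (nat_lit 0)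 (nat_lit 120440999) (nat_lit 304) (nat_lit 5250175995) (nat_lit 304) (nat_lit 2935597291) (nat_lit 58) (nat_lit 4) (nat_lit 62) (nat_lit 5) (nat_lit 62) (nat_lit 4) (nat_lit 284) (nat_lit 249) (nat_lit 247)))))) (XT.nd (nat_lit 390) (nat_lit 760) (nat_lit 0) (XT.nd (nat_lit 156) (nat_lit 532) (nat_lit 0) (XT.nd (nat_lit 78) (nat_lit 228) (nat_lit 0) (XT.lf (nat_lit 0) (nat_lit 535943326) (nat_lit 380) (nat_lit 2291192772) (nat_lit 76) (nat_lit 5653294373) (nat_lit 57) (nat_lit 5) (nat_lit 62) (nat_lit 5) (nat_lit 58) (nat_lit 4) (nat_lit 285) (nat_lit 249) (nat_lit 246)) (XT.lf (nat_lit 0) (nat_lit 3781222626) (nat_lit 228) (nat_lit 216432224) (nat_lit 304) (nat_lit 4667784751) (nat_lit 54) (nat_lit 5) (nat_lit 57) (nat_lit 5) (nat_lit 58) (nat_lit 4) (nat_lit 286) (nat_lit 249) (nat_lit 245))) (XT.nd (nat_lit 78) (nat_lit 304) (nat_lit 0) (XT.lf (nat_lit 0) (nat_lit 1183642389) (nat_lit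 228) (nat_lit 6405560820) (nat_lit 228) (nat_lit 1272897296) (nat_lit 51) (nat_lit 4) (nat_lit 54) (nat_lit 5) (nat_lit 54) (nat_lit 4) (nat_lit 287) (nat_lit 249) (nat_lit 244)) (XT.nd (nat_lit 78) (nat_lit 228) (nat_lit 0) (XT.lf (nat_lit 0) (nat_lit 2166681329) (nat_lit 304) (nat_lit 1575617032) (nat_lit 76) (nat_lit 5327308913) (nat_lit 50) (nat_lit 5) (nat_lit 54) (nat_lit 5) (nat_lit 51) (nat_lit 4) (nat_lit 288) (nat_lit 249) (nat_lit 243)) (XT.lf (nat_lit 0) (nat_lit 4778795342) (nat_lit 228) (nat_lit 898586673) (nat_lit 304) (nat_lit 3612174320) (nat_lit 47) (nat_lit 5) (nat_lit 50) (nat_lit 5) (nat_lit 51) (nat_lit 4) (nat_lit 289) (nat_lit 249) (nat_lit 242))))) (XT.nd (nat_lit 156) (nat_lit 456) (nat_lit 0) (XT.nd (nat_lit 78) (nat_lit 76) (nat_lit 0) (XT.lf (nat_lit 0) (nat_lit 1823308787) (nat_lit 228) (nat_lit 7498428788) (nat_lit 228) (nat_lit 201055808) (nat_lit 44)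 (nat_lit 4) (nat_lit 47) (nat_lit 5) (nat_lit 47) (nat_lit 4) (nat_lit 290) (nat_lit 249) (nat_lit 241)) (XT.lf (nat_lit 0) (nat_lit 3235774435) (nat_lit 304) (nat_lit 1391839324) (nat_lit 76) (nat_lit 5139449898) (nat_lit 43) (nat_lit 5) (nat_lit 47) (nat_lit 5) (nat_lit 44) (nat_lit 4) (nat_lit 291) (nat_lit 249) (nat_lit 240))) (XT.nd (nat_lit 78) (nat_lit 304) (nat_lit 0) (XT.lf (nat_lit 0) (nat_lit 5213924707) (nat_lit 152) (nat_lit 1582293941) (nat_lit 228) (nat_lit 3229407301) (nat_lit 41) (nat_lit 5) (nat_lit 43) (nat_lit 5) (nat_lit 44) (nat_lit 4) (nat_lit 292) (nat_lit 249) (nat_lit 239)) (XT.nd (nat_lit 78) (nat_lit 0) (nat_lit 0) (XT.lf (nat_lit 0) (nat_lit 184867588) (nat_lit 304) (nat_lit 8552891107) (nat_lit 76) (nat_lit 1561581061) (nat_lit 37) (nat_lit 5) (nat_lit 41) (nat_lit 5) (nat_lit 38) (nat_lit 4) (nat_lit 293) (nat_lit 249) (nat_lit 238)) (XT.lf (nat_lit 0)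 (nat_lit 3650236070) (nat_lit 304) (nat_lit 2047651818) (nat_lit 76) (nat_lit 4886905505) (nat_lit 37) (nat_lit 5) (nat_lit 41) (nat_lit 5) (nat_lit 38) (nat_lit 4) (nat_lit 294) (nat_lit 249) (nat_lit 237))))))) (XT.nd (nat_lit 780) (nat_lit 684) (nat_lit 0) (XT.nd (nat_lit 390) (nat_lit 532) (nat_lit 0) (XT.nd (nat_lit 156) (nat_lit 228) (nat_lit 0) (XT.nd (nat_lit 78) (nat_lit 152) (nat_lit 0) (XT.lf (nat_lit 0) (nat_lit 4759636870) (nat_lit 152) (nat_lit 2489400233) (nat_lit 228) (nat_lit 3637614072) (nat_lit 35) (nat_lit 5) (nat_lit 37) (nat_lit 5) (nat_lit 38) (nat_lit 4) (nat_lit 295) (nat_lit 249) (nat_lit 236)) (XT.lf (nat_lit 0) (nat_lit 604080717) (nat_lit 152) (nat_lit 10369741540) (nat_lit 152) (nat_lit 232610402) (nat_lit 33) (nat_lit 4) (nat_lit 35) (nat_lit 5) (nat_lit 35) (nat_lit 4) (nat_lit 296) (nat_lit 249) (nat_lit 235))) (XT.nd (nat_lit 78) (nat_lit 152) (nat_lit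 0) (XT.lf (nat_lit 0) (nat_lit 3270270427) (nat_lit 228) (nat_lit 3925683112) (nat_lit 76) (nat_lit 4342030304) (nat_lit 32) (nat_lit 5) (nat_lit 35) (nat_lit 5) (nat_lit 33) (nat_lit 4) (nat_lit 297) (nat_lit 249) (nat_lit 234)) (XT.nd (nat_lit 78) (nat_lit 0) (nat_lit 0) (XT.lf (nat_lit 0) (nat_lit 3007339751) (nat_lit 152) (nat_lit 3873746174) (nat_lit 228) (nat_lit 5007920510) (nat_lit 30) (nat_lit 5) (nat_lit 32) (nat_lit 5) (nat_lit 33) (nat_lit 4) (nat_lit 298) (nat_lit 249) (nat_lit 233)) (XT.lf (nat_lit 0) (nat_lit 10256125477) (nat_lit 152) (nat_lit 378908843) (nat_lit 228) (nat_lit 1624525664) (nat_lit 30) (nat_lit 5) (nat_lit 32) (nat_lit 5) (nat_lit 33) (nat_lit 4) (nat_lit 299) (nat_lit 249) (nat_lit 232))))) (XT.nd (nat_lit 156) (nat_lit 304) (nat_lit 0) (XT.nd (nat_lit 78) (nat_lit 0) (nat_lit 0) (XT.lf (nat_lit 0) (nat_lit 1898957900) (nat_lit 228) (nat_lit 7508304653)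 (nat_lit 76) (nat_lit 3238341397) (nat_lit 27) (nat_lit 5) (nat_lit 30) (nat_lit 5) (nat_lit 28) (nat_lit 4) (nat_lit 300) (nat_lit 249) (nat_lit 231)) (XT.lf (nat_lit 0) (nat_lit 5485383674) (nat_lit 228) (nat_lit 542101784) (nat_lit 76) (nat_lit 7025159476) (nat_lit 27) (nat_lit 5) (nat_lit 30) (nat_lit 5) (nat_lit 28) (nat_lit 4) (nat_lit 301) (nat_lit 249) (nat_lit 230))) (XT.nd (nat_lit 78) (nat_lit 228) (nat_lit 0) (XT.lf (nat_lit 0) (nat_lit 6834910836) (nat_lit 76) (nat_lit 2428327991) (nat_lit 152) (nat_lit 4216283766) (nat_lit 26) (nat_lit 5) (nat_lit 27) (nat_lit 5) (nat_lit 28) (nat_lit 4) (nat_lit 302) (nat_lit 249) (nat_lit 229)) (XT.nd (nat_lit 78) (nat_lit 76) (nat_lit 0) (XT.lf (nat_lit 0) (nat_lit 509894802) (nat_lit 152) (nat_lit 12665018144) (nat_lit 152) (nat_lit 755670622) (nat_lit 24) (nat_lit 4) (nat_lit 26) (nat_lit 5) (nat_lit 26) (nat_lit 4) (nat_lit 303) (nat_lit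 249) (nat_lit 228)) (XT.lf (nat_lit 0) (nat_lit 2847040851) (nat_lit 228) (nat_lit 6390452222) (nat_lit 76) (nat_lit 5161476589) (nat_lit 23) (nat_lit 5) (nat_lit 26) (nat_lit 5) (nat_lit 24) (nat_lit 4) (nat_lit 304) (nat_lit 249) (nat_lit 227)))))) (XT.nd (nat_lit 390) (nat_lit 380) (nat_lit 0) (XT.nd (nat_lit 156) (nat_lit 228) (nat_lit 0) (XT.nd (nat_lit 78) (nat_lit 0) (nat_lit 0) (XT.lf (nat_lit 0) (nat_lit 855718251) (nat_lit 76) (nat_lit 5673560669) (nat_lit 152) (nat_lit 8364711483) (nat_lit 22) (nat_lit 5) (nat_lit 23) (nat_lit 5) (nat_lit 24) (nat_lit 4) (nat_lit 305) (nat_lit 249) (nat_lit 226)) (XT.lf (nat_lit 0) (nat_lit 8537909819) (nat_lit 76) (nat_lit 1879275589) (nat_lit 152) (nat_lit 4995569490) (nat_lit 22) (nat_lit 5) (nat_lit 23) (nat_lit 5) (nat_lit 24) (nat_lit 4) (nat_lit 306) (nat_lit 249) (nat_lit 225))) (XT.nd (nat_lit 78) (nat_lit 76) (nat_lit 0) (XT.lf (nat_lit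 0) (nat_lit 485042231) (nat_lit 152) (nat_lit 13971422521) (nat_lit 152) (nat_lit 1503211171) (nat_lit 20) (nat_lit 4) (nat_lit 22) (nat_lit 5) (nat_lit 22) (nat_lit 4) (nat_lit 307) (nat_lit 249) (nat_lit 224)) (XT.nd (nat_lit 78) (nat_lit 0) (nat_lit 0) (XT.lf (nat_lit 0) (nat_lit 2160555471) (nat_lit 228) (nat_lit 8287872316) (nat_lit 76) (nat_lit 6080584808) (nat_lit 19) (nat_lit 5) (nat_lit 22) (nat_lit 5) (nat_lit 20) (nat_lit 4) (nat_lit 308) (nat_lit 249) (nat_lit 223)) (XT.lf (nat_lit 0) (nat_lit 5877848987) (nat_lit 228) (nat_lit 904372686) (nat_lit 76) (nat_lit 10347377506) (nat_lit 19) (nat_lit 5) (nat_lit 22) (nat_lit 5) (nat_lit 20) (nat_lit 4) (nat_lit 309) (nat_lit 249) (nat_lit 222))))) (XT.nd (nat_lit 156) (nat_lit 304) (nat_lit 0) (XT.nd (nat_lit 78) (nat_lit 0) (nat_lit 0) (XT.lf (nat_lit 0) (nat_lit 6939005817) (nat_lit 76) (nat_lit 2874963730) (nat_lit 152) (nat_lit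 7944652698) (nat_lit 18) (nat_lit 5) (nat_lit 19) (nat_lit 5) (nat_lit 20) (nat_lit 4) (nat_lit 310) (nat_lit 249) (nat_lit 221)) (XT.lf (nat_lit 0) (nat_lit 13906960500) (nat_lit 152) (nat_lit 3363943243) (nat_lit 0) (nat_lit 1150242143) (nat_lit 18) (nat_lit 5) (nat_lit 20) (nat_lit 4) (nat_lit 18) (nat_lit 4) (nat_lit 311) (nat_lit 249) (nat_lit 220))) (XT.nd (nat_lit 78) (nat_lit 152) (nat_lit 0) (XT.lf (nat_lit 0) (nat_lit 4433427706) (nat_lit 152) (nat_lit 13816407911) (nat_lit 152) (nat_lit 864748493) (nat_lit 16) (nat_lit 4) (nat_lit 18) (nat_lit 5) (nat_lit 18) (nat_lit 4) (nat_lit 312) (nat_lit 249) (nat_lit 219)) (XT.nd (nat_lit 78) (nat_lit 76) (nat_lit 0) (XT.lf (nat_lit 0) (nat_lit 2859247327) (nat_lit 228) (nat_lit 7275860550) (nat_lit 76) (nat_lit 9705962820) (nat_lit 15) (nat_lit 5) (nat_lit 18) (nat_lit 5) (nat_lit 16) (nat_lit 4) (nat_lit 313) (nat_lit 249) (nat_lit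 218)) (XT.lf (nat_lit 0) (nat_lit 377402264) (nat_lit 76) (nat_lit 6301396332) (nat_lit 152) (nat_lit 13927496668) (nat_lit 14) (nat_lit 5) (nat_lit 15) (nat_lit 5) (nat_lit 16) (nat_lit 4) (nat_lit 314) (nat_lit 249) (nat_lit 217))))))))
noncomputable def xc74 : XT := (XT.nd (nat_lit 1560) (nat_lit 304) (nat_lit 0) (XT.nd (nat_lit 780) (nat_lit 228) (nat_lit 0) (XT.nd (nat_lit 390) (nat_lit 152) (nat_lit 0) (XT.nd (nat_lit 156) (nat_lit 152) (nat_lit 0) (XT.nd (nat_lit 78) (nat_lit 0) (nat_lit 0) (XT.lf (nat_lit 0) (nat_lit 8547667537) (nat_lit 76) (nat_lit 2198771397) (nat_lit 152) (nat_lit 10660527797) (nat_lit 14) (nat_lit 5) (nat_lit 15) (nat_lit 5) (nat_lit 16) (nat_lit 4) (nat_lit 315) (nat_lit 249) (nat_lit 216)) (XT.lf (nat_lit 0) (nat_lit 14986652282) (nat_lit 152) (nat_lit 5269195291) (nat_lit 0) (nat_lit 1993403928) (nat_lit 14) (nat_lit 5) (nat_lit 16) (nat_lit 4) (nat_lit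 14) (nat_lit 4) (nat_lit 316) (nat_lit 249) (nat_lit 215))) (XT.nd (nat_lit 78) (nat_lit 76) (nat_lit 0) (XT.lf (nat_lit 0) (nat_lit 2639277518) (nat_lit 76) (nat_lit 16816149616) (nat_lit 76) (nat_lit 3677433241) (nat_lit 13) (nat_lit 4) (nat_lit 14) (nat_lit 5) (nat_lit 14) (nat_lit 4) (nat_lit 317) (nat_lit 249) (nat_lit 214)) (XT.nd (nat_lit 78) (nat_lit 0) (nat_lit 0) (XT.lf (nat_lit 0) (nat_lit 114402650) (nat_lit 152) (nat_lit 13042731914) (nat_lit 76) (nat_lit 10901971361) (nat_lit 12) (nat_lit 5) (nat_lit 14) (nat_lit 5) (nat_lit 13) (nat_lit 4) (nat_lit 318) (nat_lit 249) (nat_lit 213)) (XT.lf (nat_lit 0) (nat_lit 3914622188) (nat_lit 152) (nat_lit 5384225643) (nat_lit 76) (nat_lit 15732715060) (nat_lit 12) (nat_lit 5) (nat_lit 14) (nat_lit 5) (nat_lit 13) (nat_lit 4) (nat_lit 319) (nat_lit 249) (nat_lit 212))))) (XT.nd (nat_lit 156) (nat_lit 76) (nat_lit 0) (XT.nd (nat_lit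 78) (nat_lit 0) (nat_lit 0) (XT.lf (nat_lit 0) (nat_lit 2642150858) (nat_lit 76) (nat_lit 5249074866) (nat_lit 152) (nat_lit 18162129109) (nat_lit 11) (nat_lit 5) (nat_lit 12) (nat_lit 5) (nat_lit 13) (nat_lit 4) (nat_lit 320) (nat_lit 249) (nat_lit 211)) (XT.lf (nat_lit 0) (nat_lit 11158760712) (nat_lit 76) (nat_lit 945287819) (nat_lit 152) (nat_lit 15020347697) (nat_lit 11) (nat_lit 5) (nat_lit 12) (nat_lit 5) (nat_lit 13) (nat_lit 4) (nat_lit 321) (nat_lit 249) (nat_lit 210))) (XT.nd (nat_lit 78) (nat_lit 76) (nat_lit 0) (XT.lf (nat_lit 0) (nat_lit 16531416590) (nat_lit 152) (nat_lit 8298862345) (nat_lit 0) (nat_lit 3418543468) (nat_lit 11) (nat_lit 5) (nat_lit 13) (nat_lit 4) (nat_lit 11) (nat_lit 4) (nat_lit 322) (nat_lit 249) (nat_lit 209)) (XT.nd (nat_lit 78) (nat_lit 76) (nat_lit 0) (XT.lf (nat_lit 0) (nat_lit 21146229399) (nat_lit 152) (nat_lit 354988387) (nat_lit 0) (nat_lit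 7929974870) (nat_lit 11) (nat_lit 5) (nat_lit 13) (nat_lit 4) (nat_lit 11) (nat_lit 4) (nat_lit 323) (nat_lit 249) (nat_lit 208)) (XT.lf (nat_lit 0) (nat_lit 8160857335) (nat_lit 76) (nat_lit 17911272534) (nat_lit 76) (nat_lit 4596559522) (nat_lit 10) (nat_lit 4) (nat_lit 11) (nat_lit 5) (nat_lit 11) (nat_lit 4) (nat_lit 324) (nat_lit 249) (nat_lit 207)))))) (XT.nd (nat_lit 390) (nat_lit 76) (nat_lit 0) (XT.nd (nat_lit 156) (nat_lit 76) (nat_lit 0) (XT.nd (nat_lit 78) (nat_lit 76) (nat_lit 0) (XT.lf (nat_lit 0) (nat_lit 17029793282) (nat_lit 76) (nat_lit 14174390924) (nat_lit 76) (nat_lit 765907929) (nat_lit 10) (nat_lit 4) (nat_lit 11) (nat_lit 5) (nat_lit 11) (nat_lit 4) (nat_lit 325) (nat_lit 249) (nat_lit 206)) (XT.lf (nat_lit 0) (nat_lit 3107356966) (nat_lit 152) (nat_lit 7127705959) (nat_lit 76) (nat_lit 23101216889) (nat_lit 9) (nat_lit 5) (nat_lit 11) (nat_lit 5) (nat_lit 10)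 (nat_lit 4) (nat_lit 326) (nat_lit 249) (nat_lit 205))) (XT.nd (nat_lit 78) (nat_lit 0) (nat_lit 0) (XT.lf (nat_lit 0) (nat_lit 1016959900) (nat_lit 76) (nat_lit 6104893651) (nat_lit 152) (nat_lit 27649650965) (nat_lit 8) (nat_lit 5) (nat_lit 9) (nat_lit 5) (nat_lit 10) (nat_lit 4) (nat_lit 327) (nat_lit 249) (nat_lit 204)) (XT.nd (nat_lit 78) (nat_lit 0) (nat_lit 0) (XT.lf (nat_lit 0) (nat_lit 9739033966) (nat_lit 76) (nat_lit 1677003050) (nat_lit 152) (nat_lit 24858525175) (nat_lit 8) (nat_lit 5) (nat_lit 9) (nat_lit 5) (nat_lit 10) (nat_lit 4) (nat_lit 328) (nat_lit 249) (nat_lit 203)) (XT.lf (nat_lit 0) (nat_lit 15931045896) (nat_lit 152) (nat_lit 19077048054) (nat_lit 0) (nat_lit 2844391881) (nat_lit 8) (nat_lit 5) (nat_lit 10) (nat_lit 4) (nat_lit 8) (nat_lit 4) (nat_lit 329) (nat_lit 249) (nat_lit 202))))) (XT.nd (nat_lit 156) (nat_lit 76) (nat_lit 0) (XT.nd (nat_lit 78) (nat_lit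 0) (nat_lit 0) (XT.lf (nat_lit 0) (nat_lit 20660926204) (nat_lit 152) (nat_lit 11344641810) (nat_lit 0) (nat_lit 7504299585) (nat_lit 8) (nat_lit 5) (nat_lit 10) (nat_lit 4) (nat_lit 8) (nat_lit 4) (nat_lit 330) (nat_lit 249) (nat_lit 201)) (XT.lf (nat_lit 0) (nat_lit 25590756845) (nat_lit 152) (nat_lit 3293716284) (nat_lit 0) (nat_lit 12367489648) (nat_lit 8) (nat_lit 5) (nat_lit 10) (nat_lit 4) (nat_lit 8) (nat_lit 4) (nat_lit 331) (nat_lit 249) (nat_lit 200))) (XT.nd (nat_lit 78) (nat_lit 0) (nat_lit 0) (XT.lf (nat_lit 0) (nat_lit 5263357710) (nat_lit 76) (nat_lit 25551093562) (nat_lit 76) (nat_lit 12264359150) (nat_lit 7) (nat_lit 4) (nat_lit 8) (nat_lit 5) (nat_lit 8) (nat_lit 4) (nat_lit 332) (nat_lit 249) (nat_lit 199)) (XT.nd (nat_lit 78) (nat_lit 0) (nat_lit 0) (XT.lf (nat_lit 0) (nat_lit 14298823771) (nat_lit 76) (nat_lit 22022144847) (nat_lit 76) (nat_lit 8674965468) (nat_lit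 7) (nat_lit 4) (nat_lit 8) (nat_lit 5) (nat_lit 8) (nat_lit 4) (nat_lit 333) (nat_lit 249) (nat_lit 198)) (XT.lf (nat_lit 0) (nat_lit 23725289777) (nat_lit 76) (nat_lit 18345005404) (nat_lit 76) (nat_lit 4940259389) (nat_lit 7) (nat_lit 4) (nat_lit 8) (nat_lit 5) (nat_lit 8) (nat_lit 4) (nat_lit 334) (nat_lit 249) (nat_lit 197))))))) (XT.nd (nat_lit 780) (nat_lit 152) (nat_lit 0) (XT.nd (nat_lit 390) (nat_lit 0) (nat_lit 0) (XT.nd (nat_lit 156) (nat_lit 76) (nat_lit 0) (XT.nd (nat_lit 78) (nat_lit 76) (nat_lit 0) (XT.lf (nat_lit 0) (nat_lit 33565199695) (nat_lit 76) (nat_lit 14510920138) (nat_lit 76) (nat_lit 1051348755) (nat_lit 7) (nat_lit 4) (nat_lit 8) (nat_lit 5) (nat_lit 8) (nat_lit 4) (nat_lit 335) (nat_lit 249) (nat_lit 196)) (XT.lf (nat_lit 0) (nat_lit 2904974177) (nat_lit 152) (nat_lit 7556588954) (nat_lit 76) (nat_lit 40887810561) (nat_lit 6) (nat_lit 5) (nat_lit 8) (nat_lit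 5) (nat_lit 7) (nat_lit 4) (nat_lit 336) (nat_lit 249) (nat_lit 195))) (XT.nd (nat_lit 78) (nat_lit 0) (nat_lit 0) (XT.lf (nat_lit 0) (nat_lit 804431715) (nat_lit 76) (nat_lit 6203346800) (nat_lit 152) (nat_lit 46674546081) (nat_lit 5) (nat_lit 5) (nat_lit 6) (nat_lit 5) (nat_lit 7) (nat_lit 4) (nat_lit 337) (nat_lit 249) (nat_lit 194)) (XT.nd (nat_lit 78) (nat_lit 0) (nat_lit 0) (XT.lf (nat_lit 0) (nat_lit 9793258422) (nat_lit 76) (nat_lit 1622416152) (nat_lit 152) (nat_lit 44711262497) (nat_lit 5) (nat_lit 5) (nat_lit 6) (nat_lit 5) (nat_lit 7) (nat_lit 4) (nat_lit 338) (nat_lit 249) (nat_lit 193)) (XT.lf (nat_lit 0) (nat_lit 16066678301) (nat_lit 152) (nat_lit 39563088894) (nat_lit 0) (nat_lit 3062888377) (nat_lit 5) (nat_lit 5) (nat_lit 7) (nat_lit 4) (nat_lit 5) (nat_lit 4) (nat_lit 339) (nat_lit 249) (nat_lit 192))))) (XT.nd (nat_lit 156) (nat_lit 0) (nat_lit 0) (XT.nd (nat_lit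 78) (nat_lit 0) (nat_lit 0) (XT.lf (nat_lit 0) (nat_lit 20951063587) (nat_lit 152) (nat_lit 32529203236) (nat_lit 0) (nat_lit 7906362129) (nat_lit 5) (nat_lit 5) (nat_lit 7) (nat_lit 4) (nat_lit 5) (nat_lit 4) (nat_lit 340) (nat_lit 249) (nat_lit 191)) (XT.lf (nat_lit 0) (nat_lit 26055129456) (nat_lit 152) (nat_lit 25189943865) (nat_lit 0) (nat_lit 12971464633) (nat_lit 5) (nat_lit 5) (nat_lit 7) (nat_lit 4) (nat_lit 5) (nat_lit 4) (nat_lit 341) (nat_lit 249) (nat_lit 190))) (XT.nd (nat_lit 78) (nat_lit 0) (nat_lit 0) (XT.lf (nat_lit 0) (nat_lit 31391028447) (nat_lit 152) (nat_lit 17527836354) (nat_lit 0) (nat_lit 18270255657) (nat_lit 5) (nat_lit 5) (nat_lit 7) (nat_lit 4) (nat_lit 5) (nat_lit 4) (nat_lit 342) (nat_lit 249) (nat_lit 189)) (XT.nd (nat_lit 78) (nat_lit 0) (nat_lit 0) (XT.lf (nat_lit 0) (nat_lit 36971465081) (nat_lit 152) (nat_lit 9524637590) (nat_lit 0) (nat_lit 23815351371)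 (nat_lit 5) (nat_lit 5) (nat_lit 7) (nat_lit 4) (nat_lit 5) (nat_lit 4) (nat_lit 343) (nat_lit 249) (nat_lit 188)) (XT.lf (nat_lit 0) (nat_lit 42809726112) (nat_lit 152) (nat_lit 1161292337) (nat_lit 0) (nat_lit 29619954382) (nat_lit 5) (nat_lit 5) (nat_lit 7) (nat_lit 4) (nat_lit 5) (nat_lit 4) (nat_lit 344) (nat_lit 249) (nat_lit 187)))))) (XT.nd (nat_lit 390) (nat_lit 76) (nat_lit 0) (XT.nd (nat_lit 156) (nat_lit 0) (nat_lit 0) (XT.nd (nat_lit 78) (nat_lit 0) (nat_lit 0) (XT.lf (nat_lit 0) (nat_lit 7832810998) (nat_lit 76) (nat_lit 41209193294) (nat_lit 76) (nat_lit 27987366307) (nat_lit 4) (nat_lit 4) (nat_lit 5) (nat_lit 5) (nat_lit 5) (nat_lit 4) (nat_lit 345) (nat_lit 249) (nat_lit 186)) (XT.lf (nat_lit 0) (nat_lit 17279443547) (nat_lit 76) (nat_lit 38306307806) (nat_lit 76) (nat_lit 25053952004) (nat_lit 4) (nat_lit 4) (nat_lit 5) (nat_lit 5) (nat_lit 5) (nat_lit 4) (nat_lit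 346) (nat_lit 249) (nat_lit 185))) (XT.nd (nat_lit 78) (nat_lit 0) (nat_lit 0) (XT.lf (nat_lit 0) (nat_lit 27162699722) (nat_lit 76) (nat_lit 35275117403) (nat_lit 76) (nat_lit 21993686538) (nat_lit 4) (nat_lit 4) (nat_lit 5) (nat_lit 5) (nat_lit 5) (nat_lit 4) (nat_lit 347) (nat_lit 249) (nat_lit 184)) (XT.nd (nat_lit 78) (nat_lit 0) (nat_lit 0) (XT.lf (nat_lit 0) (nat_lit 37506111085) (nat_lit 76) (nat_lit 32108404965) (nat_lit 76) (nat_lit 18799283563) (nat_lit 4) (nat_lit 4) (nat_lit 5) (nat_lit 5) (nat_lit 5) (nat_lit 4) (nat_lit 348) (nat_lit 249) (nat_lit 183)) (XT.lf (nat_lit 0) (nat_lit 48334304806) (nat_lit 76) (nat_lit 28798630698) (nat_lit 76) (nat_lit 15463137358) (nat_lit 4) (nat_lit 4) (nat_lit 5) (nat_lit 5) (nat_lit 5) (nat_lit 4) (nat_lit 349) (nat_lit 249) (nat_lit 182))))) (XT.nd (nat_lit 156) (nat_lit 76) (nat_lit 0) (XT.nd (nat_lit 78) (nat_lit 0) (nat_lit 0) (XT.lf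 (nat_lit 0) (nat_lit 59673062300) (nat_lit 76) (nat_lit 25337914190) (nat_lit 76) (nat_lit 11977304717) (nat_lit 4) (nat_lit 4) (nat_lit 5) (nat_lit 5) (nat_lit 5) (nat_lit 4) (nat_lit 350) (nat_lit 249) (nat_lit 181)) (XT.lf (nat_lit 0) (nat_lit 71549380606) (nat_lit 76) (nat_lit 21718015638) (nat_lit 76) (nat_lit 8333486039) (nat_lit 4) (nat_lit 4) (nat_lit 5) (nat_lit 5) (nat_lit 5) (nat_lit 4) (nat_lit 351) (nat_lit 249) (nat_lit 180))) (XT.nd (nat_lit 78) (nat_lit 76) (nat_lit 0) (XT.lf (nat_lit 0) (nat_lit 83991536674) (nat_lit 76) (nat_lit 17930316236) (nat_lit 76) (nat_lit 4523005565) (nat_lit 4) (nat_lit 4) (nat_lit 5) (nat_lit 5) (nat_lit 5) (nat_lit 4) (nat_lit 352) (nat_lit 249) (nat_lit 179)) (XT.nd (nat_lit 78) (nat_lit 76) (nat_lit 0) (XT.lf (nat_lit 0) (nat_lit 97029154685) (nat_lit 76) (nat_lit 13965797653) (nat_lit 76) (nat_lit 536790722) (nat_lit 4) (nat_lit 4) (nat_lit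 5) (nat_lit 5) (nat_lit 5) (nat_lit 4) (nat_lit 353) (nat_lit 249) (nat_lit 178)) (XT.lf (nat_lit 0) (nat_lit 3518317994) (nat_lit 152) (nat_lit 6237118146) (nat_lit 76) (nat_lit 107115374174) (nat_lit 3) (nat_lit 5) (nat_lit 5) (nat_lit 5) (nat_lit 4) (nat_lit 4) (nat_lit 354) (nat_lit 249) (nat_lit 177))))))))
noncomputable def xc75 : XT := (XT.nd (nat_lit 1560) (nat_lit 76) (nat_lit 0) (XT.nd (nat_lit 780) (nat_lit 0) (nat_lit 0) (XT.nd (nat_lit 390) (nat_lit 0) (nat_lit 0) (XT.nd (nat_lit 156) (nat_lit 0) (nat_lit 0) (XT.nd (nat_lit 78) (nat_lit 0) (nat_lit 0) (XT.lf (nat_lit 0) (nat_lit 2487849721) (nat_lit 76) (nat_lit 5296149743) (nat_lit 152) (nat_lit 114691103444) (nat_lit 2) (nat_lit 5) (nat_lit 3) (nat_lit 5) (nat_lit 4) (nat_lit 4) (nat_lit 355) (nat_lit 249) (nat_lit 176)) (XT.lf (nat_lit 0) (nat_lit 11841398705) (nat_lit 76) (nat_lit 514450042) (nat_lit 152) (nat_lit 115999121790)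 (nat_lit 2) (nat_lit 5) (nat_lit 3) (nat_lit 5) (nat_lit 4) (nat_lit 4) (nat_lit 356) (nat_lit 249) (nat_lit 175))) (XT.nd (nat_lit 78) (nat_lit 0) (nat_lit 0) (XT.lf (nat_lit 0) (nat_lit 17214338611) (nat_lit 152) (nat_lit 112960057044) (nat_lit 0) (nat_lit 4351537856) (nat_lit 2) (nat_lit 5) (nat_lit 4) (nat_lit 4) (nat_lit 2) (nat_lit 4) (nat_lit 357) (nat_lit 249) (nat_lit 174)) (XT.nd (nat_lit 78) (nat_lit 0) (nat_lit 0) (XT.lf (nat_lit 0) (nat_lit 22312464295) (nat_lit 152) (nat_lit 109259675480) (nat_lit 0) (nat_lit 9433473457) (nat_lit 2) (nat_lit 5) (nat_lit 4) (nat_lit 4) (nat_lit 2) (nat_lit 4) (nat_lit 358) (nat_lit 249) (nat_lit 173)) (XT.lf (nat_lit 0) (nat_lit 27654332186) (nat_lit 152) (nat_lit 105395584700) (nat_lit 0) (nat_lit 14759922221) (nat_lit 2) (nat_lit 5) (nat_lit 4) (nat_lit 4) (nat_lit 2) (nat_lit 4) (nat_lit 359) (nat_lit 249) (nat_lit 172))))) (XT.nd (nat_lit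 156) (nat_lit 0) (nat_lit 0) (XT.nd (nat_lit 78) (nat_lit 0) (nat_lit 0) (XT.lf (nat_lit 0) (nat_lit 33252661018) (nat_lit 152) (nat_lit 101358584489) (nat_lit 0) (nat_lit 20343566170) (nat_lit 2) (nat_lit 5) (nat_lit 4) (nat_lit 4) (nat_lit 2) (nat_lit 4) (nat_lit 360) (nat_lit 249) (nat_lit 171)) (XT.lf (nat_lit 0) (nat_lit 39120780144) (nat_lit 152) (nat_lit 97139062941) (nat_lit 0) (nat_lit 26197699694) (nat_lit 2) (nat_lit 5) (nat_lit 4) (nat_lit 4) (nat_lit 2) (nat_lit 4) (nat_lit 361) (nat_lit 249) (nat_lit 170))) (XT.nd (nat_lit 78) (nat_lit 0) (nat_lit 0) (XT.lf (nat_lit 0) (nat_lit 45272661277) (nat_lit 152) (nat_lit 92726973576) (nat_lit 0) (nat_lit 32336261206) (nat_lit 2) (nat_lit 5) (nat_lit 4) (nat_lit 4) (nat_lit 2) (nat_lit 4) (nat_lit 362) (nat_lit 249) (nat_lit 169)) (XT.nd (nat_lit 78) (nat_lit 0) (nat_lit 0) (XT.lf (nat_lit 0) (nat_lit 51722951752) (nat_lit 152)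 (nat_lit 88111811419) (nat_lit 0) (nat_lit 38773866328) (nat_lit 2) (nat_lit 5) (nat_lit 4) (nat_lit 4) (nat_lit 2) (nat_lit 4) (nat_lit 363) (nat_lit 249) (nat_lit 168)) (XT.lf (nat_lit 0) (nat_lit 58487009405) (nat_lit 152) (nat_lit 83282587990) (nat_lit 0) (nat_lit 45525842692) (nat_lit 2) (nat_lit 5) (nat_lit 4) (nat_lit 4) (nat_lit 2) (nat_lit 4) (nat_lit 364) (nat_lit 249) (nat_lit 167)))))) (XT.nd (nat_lit 390) (nat_lit 0) (nat_lit 0) (XT.nd (nat_lit 156) (nat_lit 0) (nat_lit 0) (XT.nd (nat_lit 78) (nat_lit 0) (nat_lit 0) (XT.lf (nat_lit 0) (nat_lit 65580939135) (nat_lit 152) (nat_lit 78227805137) (nat_lit 0) (nat_lit 52608266432) (nat_lit 2) (nat_lit 5) (nat_lit 4) (nat_lit 4) (nat_lit 2) (nat_lit 4) (nat_lit 365) (nat_lit 249) (nat_lit 166)) (XT.lf (nat_lit 0) (nat_lit 73021631250) (nat_lit 152) (nat_lit 72935427662) (nat_lit 0) (nat_lit 60038000461) (nat_lit 2) (nat_lit 5)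 (nat_lit 4) (nat_lit 4) (nat_lit 2) (nat_lit 4) (nat_lit 366) (nat_lit 249) (nat_lit 165))) (XT.nd (nat_lit 78) (nat_lit 0) (nat_lit 0) (XT.lf (nat_lit 0) (nat_lit 80826801684) (nat_lit 152) (nat_lit 67392854668) (nat_lit 0) (nat_lit 67832734623) (nat_lit 2) (nat_lit 5) (nat_lit 4) (nat_lit 4) (nat_lit 2) (nat_lit 4) (nat_lit 367) (nat_lit 249) (nat_lit 164)) (XT.nd (nat_lit 78) (nat_lit 0) (nat_lit 0) (XT.lf (nat_lit 0) (nat_lit 89015034176) (nat_lit 152) (nat_lit 61586889552) (nat_lit 0) (nat_lit 76011027809) (nat_lit 2) (nat_lit 5) (nat_lit 4) (nat_lit 4) (nat_lit 2) (nat_lit 4) (nat_lit 368) (nat_lit 249) (nat_lit 163)) (XT.lf (nat_lit 0) (nat_lit 97605824518) (nat_lit 152) (nat_lit 55503708587) (nat_lit 0) (nat_lit 84592352145) (nat_lit 2) (nat_lit 5) (nat_lit 4) (nat_lit 4) (nat_lit 2) (nat_lit 4) (nat_lit 369) (nat_lit 249) (nat_lit 162))))) (XT.nd (nat_lit 156) (nat_lit 0) (nat_lit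 0) (XT.nd (nat_lit 78) (nat_lit 0) (nat_lit 0) (XT.lf (nat_lit 0) (nat_lit 106619626972) (nat_lit 152) (nat_lit 49128828009) (nat_lit 0) (nat_lit 93597139355) (nat_lit 2) (nat_lit 5) (nat_lit 4) (nat_lit 4) (nat_lit 2) (nat_lit 4) (nat_lit 370) (nat_lit 249) (nat_lit 161)) (XT.lf (nat_lit 0) (nat_lit 116077902974) (nat_lit 152) (nat_lit 42447069531) (nat_lit 0) (nat_lit 103046829410) (nat_lit 2) (nat_lit 5) (nat_lit 4) (nat_lit 4) (nat_lit 2) (nat_lit 4) (nat_lit 371) (nat_lit 249) (nat_lit 160))) (XT.nd (nat_lit 78) (nat_lit 0) (nat_lit 0) (XT.lf (nat_lit 0) (nat_lit 126003172226) (nat_lit 152) (nat_lit 35442524205) (nat_lit 0) (nat_lit 112963921571) (nat_lit 2) (nat_lit 5) (nat_lit 4) (nat_lit 4) (nat_lit 2) (nat_lit 4) (nat_lit 372) (nat_lit 249) (nat_lit 159)) (XT.nd (nat_lit 78) (nat_lit 0) (nat_lit 0) (XT.lf (nat_lit 0) (nat_lit 136419066325) (nat_lit 152) (nat_lit 28098514540)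 (nat_lit 0) (nat_lit 123372027962) (nat_lit 2) (nat_lit 5) (nat_lit 4) (nat_lit 4) (nat_lit 2) (nat_lit 4) (nat_lit 373) (nat_lit 249) (nat_lit 158)) (XT.lf (nat_lit 0) (nat_lit 147350385016) (nat_lit 152) (nat_lit 20397554801) (nat_lit 0) (nat_lit 134295929790) (nat_lit 2) (nat_lit 5) (nat_lit 4) (nat_lit 4) (nat_lit 2) (nat_lit 4) (nat_lit 374) (nat_lit 249) (nat_lit 157))))))) (XT.nd (nat_lit 780) (nat_lit 0) (nat_lit 0) (XT.nd (nat_lit 390) (nat_lit 0) (nat_lit 0) (XT.nd (nat_lit 156) (nat_lit 76) (nat_lit 0) (XT.nd (nat_lit 78) (nat_lit 0) (nat_lit 0) (XT.lf (nat_lit 0) (nat_lit 158823155249) (nat_lit 152) (nat_lit 12321309369) (nat_lit 0) (nat_lit 145761636343) (nat_lit 2) (nat_lit 5) (nat_lit 4) (nat_lit 4) (nat_lit 2) (nat_lit 4) (nat_lit 375) (nat_lit 249) (nat_lit 156)) (XT.lf (nat_lit 0) (nat_lit 170864693144) (nat_lit 152) (nat_lit 3850549087) (nat_lit 0) (nat_lit 157796446925)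 (nat_lit 2) (nat_lit 5) (nat_lit 4) (nat_lit 4) (nat_lit 2) (nat_lit 4) (nat_lit 376) (nat_lit 249) (nat_lit 155))) (XT.nd (nat_lit 78) (nat_lit 0) (nat_lit 0) (XT.lf (nat_lit 0) (nat_lit 5201370870) (nat_lit 76) (nat_lit 178383506135) (nat_lit 76) (nat_lit 165308852950) (nat_lit 1) (nat_lit 4) (nat_lit 2) (nat_lit 5) (nat_lit 2) (nat_lit 4) (nat_lit 377) (nat_lit 249) (nat_lit 154)) (XT.nd (nat_lit 78) (nat_lit 0) (nat_lit 0) (XT.lf (nat_lit 0) (nat_lit 14830857326) (nat_lit 76) (nat_lit 182170869625) (nat_lit 76) (nat_lit 169090114568) (nat_lit 1) (nat_lit 4) (nat_lit 2) (nat_lit 5) (nat_lit 2) (nat_lit 4) (nat_lit 378) (nat_lit 249) (nat_lit 153)) (XT.lf (nat_lit 0) (nat_lit 24933521084) (nat_lit 76) (nat_lit 186151561146) (nat_lit 76) (nat_lit 173064994782) (nat_lit 1) (nat_lit 4) (nat_lit 2) (nat_lit 5) (nat_lit 2) (nat_lit 4) (nat_lit 379) (nat_lit 249) (nat_lit 152))))) (XT.nd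 (nat_lit 156) (nat_lit 0) (nat_lit 0) (XT.nd (nat_lit 78) (nat_lit 0) (nat_lit 0) (XT.lf (nat_lit 0) (nat_lit 35533416108) (nat_lit 76) (nat_lit 190335058535) (nat_lit 76) (nat_lit 177242957594) (nat_lit 1) (nat_lit 4) (nat_lit 2) (nat_lit 5) (nat_lit 2) (nat_lit 4) (nat_lit 380) (nat_lit 249) (nat_lit 151)) (XT.lf (nat_lit 0) (nat_lit 46655780241) (nat_lit 76) (nat_lit 194731322500) (nat_lit 76) (nat_lit 181633950532) (nat_lit 1) (nat_lit 4) (nat_lit 2) (nat_lit 5) (nat_lit 2) (nat_lit 4) (nat_lit 381) (nat_lit 249) (nat_lit 150))) (XT.nd (nat_lit 78) (nat_lit 0) (nat_lit 0) (XT.lf (nat_lit 0) (nat_lit 58327095303) (nat_lit 76) (nat_lit 199350820337) (nat_lit 76) (nat_lit 186248428344) (nat_lit 1) (nat_lit 4) (nat_lit 2) (nat_lit 5) (nat_lit 2) (nat_lit 4) (nat_lit 382) (nat_lit 249) (nat_lit 149)) (XT.nd (nat_lit 78) (nat_lit 0) (nat_lit 0) (XT.lf (nat_lit 0) (nat_lit 70575150140)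 (nat_lit 76) (nat_lit 204204550849) (nat_lit 76) (nat_lit 191097377880) (nat_lit 1) (nat_lit 4) (nat_lit 2) (nat_lit 5) (nat_lit 2) (nat_lit 4) (nat_lit 383) (nat_lit 249) (nat_lit 148)) (XT.lf (nat_lit 0) (nat_lit 83429106786) (nat_lit 76) (nat_lit 209304070538) (nat_lit 76) (nat_lit 196192344258) (nat_lit 1) (nat_lit 4) (nat_lit 2) (nat_lit 5) (nat_lit 2) (nat_lit 4) (nat_lit 384) (nat_lit 249) (nat_lit 147)))))) (XT.nd (nat_lit 32448) (nat_lit 0) (nat_lit 4256) (XT.nd (nat_lit 156) (nat_lit 0) (nat_lit 0) (XT.nd (nat_lit 78) (nat_lit 0) (nat_lit 0) (XT.lf (nat_lit 0) (nat_lit 96919569902) (nat_lit 76) (nat_lit 214661521118) (nat_lit 76) (nat_lit 201545458351) (nat_lit 1) (nat_lit 4) (nat_lit 2) (nat_lit 5) (nat_lit 2) (nat_lit 4) (nat_lit 385) (nat_lit 249) (nat_lit 146)) (XT.lf (nat_lit 0) (nat_lit 111078659636) (nat_lit 76) (nat_lit 220289658423) (nat_lit 76) (nat_lit 207169465669)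 (nat_lit 1) (nat_lit 4) (nat_lit 2) (nat_lit 5) (nat_lit 2) (nat_lit 4) (nat_lit 386) (nat_lit 249) (nat_lit 145))) (XT.nd (nat_lit 78) (nat_lit 0) (nat_lit 0) (XT.lf (nat_lit 0) (nat_lit 125940088107) (nat_lit 76) (nat_lit 226201882780) (nat_lit 76) (nat_lit 213077756705) (nat_lit 1) (nat_lit 4) (nat_lit 2) (nat_lit 5) (nat_lit 2) (nat_lit 4) (nat_lit 387) (nat_lit 249) (nat_lit 144)) (XT.nd (nat_lit 78) (nat_lit 0) (nat_lit 0) (XT.lf (nat_lit 0) (nat_lit 141539239670) (nat_lit 76) (nat_lit 232412270913) (nat_lit 76) (nat_lit 219284398818) (nat_lit 1) (nat_lit 4) (nat_lit 2) (nat_lit 5) (nat_lit 2) (nat_lit 4) (nat_lit 388) (nat_lit 249) (nat_lit 143)) (XT.lf (nat_lit 0) (nat_lit 157913255160) (nat_lit 76) (nat_lit 238935609462) (nat_lit 76) (nat_lit 225804169729) (nat_lit 1) (nat_lit 4) (nat_lit 2) (nat_lit 5) (nat_lit 2) (nat_lit 4) (nat_lit 389) (nat_lit 249) (nat_lit 142))))) (XT.nd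 (nat_lit 234) (nat_lit 760) (nat_lit 0) (XT.nd (nat_lit 78) (nat_lit 304) (nat_lit 0) (XT.lf (nat_lit 0) (nat_lit 295202117) (nat_lit 380) (nat_lit 3264387495) (nat_lit 0) (nat_lit 295202117) (nat_lit 71) (nat_lit 5) (nat_lit 76) (nat_lit 4) (nat_lit 71) (nat_lit 4) (nat_lit 280) (nat_lit 250) (nat_lit 250)) (XT.nd (nat_lit 78) (nat_lit 304) (nat_lit 0) (XT.lf (nat_lit 0) (nat_lit 4031401887) (nat_lit 380) (nat_lit 1089931349) (nat_lit 0) (nat_lit 2724370583) (nat_lit 71) (nat_lit 5) (nat_lit 76) (nat_lit 4) (nat_lit 71) (nat_lit 4) (nat_lit 281) (nat_lit 250) (nat_lit 249)) (XT.lf (nat_lit 0) (nat_lit 4586089134) (nat_lit 304) (nat_lit 2979318155) (nat_lit 304) (nat_lit 427495134) (nat_lit 67) (nat_lit 4) (nat_lit 71) (nat_lit 5) (nat_lit 71) (nat_lit 4) (nat_lit 282) (nat_lit 250) (nat_lit 248)))) (XT.nd (nat_lit 78) (nat_lit 380) (nat_lit 0) (XT.lf (nat_lit 0) (nat_lit 2277108631)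 (nat_lit 304) (nat_lit 656768233) (nat_lit 380) (nat_lit 5216164039) (nat_lit 62) (nat_lit 5) (nat_lit 66) (nat_lit 5) (nat_lit 67) (nat_lit 4) (nat_lit 283) (nat_lit 250) (nat_lit 247)) (XT.nd (nat_lit 78) (nat_lit 380) (nat_lit 0) (XT.lf (nat_lit 0) (nat_lit 6390165442) (nat_lit 380) (nat_lit 172239128) (nat_lit 0) (nat_lit 1755497133) (nat_lit 62) (nat_lit 5) (nat_lit 67) (nat_lit 4) (nat_lit 62) (nat_lit 4) (nat_lit 284) (nat_lit 250) (nat_lit 246)) (XT.lf (nat_lit 0) (nat_lit 1438583264) (nat_lit 380) (nat_lit 2709665843) (nat_lit 76) (nat_lit 4346852519) (nat_lit 57) (nat_lit 5) (nat_lit 62) (nat_lit 5) (nat_lit 58) (nat_lit 4) (nat_lit 285) (nat_lit 250) (nat_lit 245))))))))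
noncomputable def xc76 : XT := (XT.nd (nat_lit 1560) (nat_lit 988) (nat_lit 0) (XT.nd (nat_lit 780) (nat_lit 912) (nat_lit 0) (XT.nd (nat_lit 390) (nat_lit 608) (nat_lit 0) (XT.nd (nat_lit 156) (nat_lit 608) (nat_lit 0) (XT.nd (nat_lit 78) (nat_lit 228) (nat_lit 0) (XT.lf (nat_lit 0) (nat_lit 3257824571) (nat_lit 228) (nat_lit 1567498837) (nat_lit 304) (nat_lit 3858652444) (nat_lit 54) (nat_lit 5) (nat_lit 57) (nat_lit 5) (nat_lit 58) (nat_lit 4) (nat_lit 286) (nat_lit 250) (nat_lit 244)) (XT.lf (nat_lit 0) (nat_lit 552842009) (nat_lit 228) (nat_lit 7767774093) (nat_lit 228) (nat_lit 564944414) (nat_lit 51) (nat_lit 4) (nat_lit 54) (nat_lit 5) (nat_lit 54) (nat_lit 4) (nat_lit 287) (nat_lit 250) (nat_lit 243))) (XT.nd (nat_lit 78) (nat_lit 532) (nat_lit 0) (XT.lf (nat_lit 0) (nat_lit 2787248681) (nat_lit 304) (nat_lit 2331493913) (nat_lit 76) (nat_lit 3977109026) (nat_lit 50) (nat_lit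 5) (nat_lit 54) (nat_lit 5) (nat_lit 51) (nat_lit 4) (nat_lit 288) (nat_lit 250) (nat_lit 242)) (XT.nd (nat_lit 78) (nat_lit 304) (nat_lit 0) (XT.lf (nat_lit 0) (nat_lit 3908823096) (nat_lit 228) (nat_lit 2313899170) (nat_lit 304) (nat_lit 3096935636) (nat_lit 47) (nat_lit 5) (nat_lit 50) (nat_lit 5) (nat_lit 51) (nat_lit 4) (nat_lit 289) (nat_lit 250) (nat_lit 241)) (XT.lf (nat_lit 0) (nat_lit 204338923) (nat_lit 304) (nat_lit 8735344905) (nat_lit 76) (nat_lit 618042219) (nat_lit 43) (nat_lit 5) (nat_lit 47) (nat_lit 5) (nat_lit 44) (nat_lit 4) (nat_lit 290) (nat_lit 250) (nat_lit 240))))) (XT.nd (nat_lit 156) (nat_lit 456) (nat_lit 0) (XT.nd (nat_lit 78) (nat_lit 152) (nat_lit 0) (XT.lf (nat_lit 0) (nat_lit 3574795235) (nat_lit 304) (nat_lit 2519056072) (nat_lit 76) (nat_lit 3711067820) (nat_lit 43) (nat_lit 5) (nat_lit 47) (nat_lit 5) (nat_lit 44) (nat_lit 4) (nat_lit 291) (nat_lit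 250) (nat_lit 239)) (XT.lf (nat_lit 0) (nat_lit 3962642548) (nat_lit 152) (nat_lit 3095976221) (nat_lit 228) (nat_lit 3008772553) (nat_lit 41) (nat_lit 5) (nat_lit 43) (nat_lit 5) (nat_lit 44) (nat_lit 4) (nat_lit 292) (nat_lit 250) (nat_lit 238))) (XT.nd (nat_lit 78) (nat_lit 152) (nat_lit 0) (XT.lf (nat_lit 0) (nat_lit 295144712) (nat_lit 304) (nat_lit 10000886989) (nat_lit 76) (nat_lit 50137525) (nat_lit 37) (nat_lit 5) (nat_lit 41) (nat_lit 5) (nat_lit 38) (nat_lit 4) (nat_lit 293) (nat_lit 250) (nat_lit 237)) (XT.nd (nat_lit 78) (nat_lit 152) (nat_lit 0) (XT.lf (nat_lit 0) (nat_lit 3704831661) (nat_lit 304) (nat_lit 3581282173) (nat_lit 76) (nat_lit 3348361238) (nat_lit 37) (nat_lit 5) (nat_lit 41) (nat_lit 5) (nat_lit 38) (nat_lit 4) (nat_lit 294) (nat_lit 250) (nat_lit 236)) (XT.lf (nat_lit 0) (nat_lit 3091044498) (nat_lit 152) (nat_lit 4133506760) (nat_lit 228) (nat_lit 3715800553)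 (nat_lit 35) (nat_lit 5) (nat_lit 37) (nat_lit 5) (nat_lit 38) (nat_lit 4) (nat_lit 295) (nat_lit 250) (nat_lit 235)))))) (XT.nd (nat_lit 390) (nat_lit 304) (nat_lit 0) (XT.nd (nat_lit 156) (nat_lit 380) (nat_lit 0) (XT.nd (nat_lit 78) (nat_lit 228) (nat_lit 0) (XT.lf (nat_lit 0) (nat_lit 10056827052) (nat_lit 152) (nat_lit 817977486) (nat_lit 228) (nat_lit 389117148) (nat_lit 35) (nat_lit 5) (nat_lit 37) (nat_lit 5) (nat_lit 38) (nat_lit 4) (nat_lit 296) (nat_lit 250) (nat_lit 234)) (XT.lf (nat_lit 0) (nat_lit 3034337839) (nat_lit 228) (nat_lit 5902587052) (nat_lit 76) (nat_lit 2662947958) (nat_lit 32) (nat_lit 5) (nat_lit 35) (nat_lit 5) (nat_lit 33) (nat_lit 4) (nat_lit 297) (nat_lit 250) (nat_lit 233))) (XT.nd (nat_lit 78) (nat_lit 228) (nat_lit 0) (XT.lf (nat_lit 0) (nat_lit 883519642) (nat_lit 152) (nat_lit 5679069503) (nat_lit 228) (nat_lit 5392487888) (nat_lit 30) (nat_lit 5)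 (nat_lit 32) (nat_lit 5) (nat_lit 33) (nat_lit 4) (nat_lit 298) (nat_lit 250) (nat_lit 232)) (XT.nd (nat_lit 78) (nat_lit 228) (nat_lit 0) (XT.lf (nat_lit 0) (nat_lit 8054637942) (nat_lit 152) (nat_lit 2213634221) (nat_lit 228) (nat_lit 2059822526) (nat_lit 30) (nat_lit 5) (nat_lit 32) (nat_lit 5) (nat_lit 33) (nat_lit 4) (nat_lit 299) (nat_lit 250) (nat_lit 231)) (XT.lf (nat_lit 0) (nat_lit 1363278853) (nat_lit 228) (nat_lit 9967743549) (nat_lit 76) (nat_lit 1389217899) (nat_lit 27) (nat_lit 5) (nat_lit 30) (nat_lit 5) (nat_lit 28) (nat_lit 4) (nat_lit 300) (nat_lit 250) (nat_lit 230))))) (XT.nd (nat_lit 156) (nat_lit 228) (nat_lit 0) (XT.nd (nat_lit 78) (nat_lit 76) (nat_lit 0) (XT.lf (nat_lit 0) (nat_lit 4903556323) (nat_lit 228) (nat_lit 3077765179) (nat_lit 76) (nat_lit 5148311114) (nat_lit 27) (nat_lit 5) (nat_lit 30) (nat_lit 5) (nat_lit 28) (nat_lit 4) (nat_lit 301) (nat_lit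 250) (nat_lit 229)) (XT.lf (nat_lit 0) (nat_lit 4140411885) (nat_lit 76) (nat_lit 4454980146) (nat_lit 152) (nat_lit 4965461042) (nat_lit 26) (nat_lit 5) (nat_lit 27) (nat_lit 5) (nat_lit 28) (nat_lit 4) (nat_lit 302) (nat_lit 250) (nat_lit 228))) (XT.nd (nat_lit 78) (nat_lit 228) (nat_lit 0) (XT.lf (nat_lit 0) (nat_lit 11679931909) (nat_lit 76) (nat_lit 755916411) (nat_lit 152) (nat_lit 1579666454) (nat_lit 26) (nat_lit 5) (nat_lit 27) (nat_lit 5) (nat_lit 28) (nat_lit 4) (nat_lit 303) (nat_lit 250) (nat_lit 227)) (XT.nd (nat_lit 78) (nat_lit 0) (nat_lit 0) (XT.lf (nat_lit 0) (nat_lit 1956121156) (nat_lit 228) (nat_lit 9448137911) (nat_lit 76) (nat_lit 3084986022) (nat_lit 23) (nat_lit 5) (nat_lit 26) (nat_lit 5) (nat_lit 24) (nat_lit 4) (nat_lit 304) (nat_lit 250) (nat_lit 226)) (XT.lf (nat_lit 0) (nat_lit 5583849867) (nat_lit 228) (nat_lit 2299310786) (nat_lit 76) (nat_lit 7103865057)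 (nat_lit 23) (nat_lit 5) (nat_lit 26) (nat_lit 5) (nat_lit 24) (nat_lit 4) (nat_lit 305) (nat_lit 250) (nat_lit 225))))))) (XT.nd (nat_lit 780) (nat_lit 304) (nat_lit 0) (XT.nd (nat_lit 390) (nat_lit 304) (nat_lit 0) (XT.nd (nat_lit 156) (nat_lit 304) (nat_lit 0) (XT.nd (nat_lit 78) (nat_lit 0) (nat_lit 0) (XT.lf (nat_lit 0) (nat_lit 5238028469) (nat_lit 76) (nat_lit 4156377936) (nat_lit 152) (nat_lit 6115284068) (nat_lit 22) (nat_lit 5) (nat_lit 23) (nat_lit 5) (nat_lit 24) (nat_lit 4) (nat_lit 306) (nat_lit 250) (nat_lit 224)) (XT.lf (nat_lit 0) (nat_lit 13097685600) (nat_lit 76) (nat_lit 258133877) (nat_lit 152) (nat_lit 2704716546) (nat_lit 22) (nat_lit 5) (nat_lit 23) (nat_lit 5) (nat_lit 24) (nat_lit 4) (nat_lit 307) (nat_lit 250) (nat_lit 223))) (XT.nd (nat_lit 78) (nat_lit 76) (nat_lit 0) (XT.lf (nat_lit 0) (nat_lit 906297574) (nat_lit 228) (nat_lit 11980703316) (nat_lit 76)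 (nat_lit 3748398467) (nat_lit 19) (nat_lit 5) (nat_lit 22) (nat_lit 5) (nat_lit 20) (nat_lit 4) (nat_lit 308) (nat_lit 250) (nat_lit 222)) (XT.nd (nat_lit 78) (nat_lit 76) (nat_lit 0) (XT.lf (nat_lit 0) (nat_lit 4586822817) (nat_lit 228) (nat_lit 4661295212) (nat_lit 76) (nat_lit 7989733287) (nat_lit 19) (nat_lit 5) (nat_lit 22) (nat_lit 5) (nat_lit 20) (nat_lit 4) (nat_lit 309) (nat_lit 250) (nat_lit 221)) (XT.lf (nat_lit 0) (nat_lit 2994804674) (nat_lit 76) (nat_lit 5431541268) (nat_lit 152) (nat_lit 9445383990) (nat_lit 18) (nat_lit 5) (nat_lit 19) (nat_lit 5) (nat_lit 20) (nat_lit 4) (nat_lit 310) (nat_lit 250) (nat_lit 220))))) (XT.nd (nat_lit 156) (nat_lit 152) (nat_lit 0) (XT.nd (nat_lit 78) (nat_lit 152) (nat_lit 0) (XT.lf (nat_lit 0) (nat_lit 11072426367) (nat_lit 76) (nat_lit 1394070700) (nat_lit 152) (nat_lit 6070422951) (nat_lit 18) (nat_lit 5) (nat_lit 19) (nat_lit 5) (nat_lit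 20) (nat_lit 4) (nat_lit 311) (nat_lit 250) (nat_lit 219)) (XT.lf (nat_lit 0) (nat_lit 159378211) (nat_lit 152) (nat_lit 16528460793) (nat_lit 152) (nat_lit 2548619189) (nat_lit 16) (nat_lit 4) (nat_lit 18) (nat_lit 5) (nat_lit 18) (nat_lit 4) (nat_lit 312) (nat_lit 250) (nat_lit 218))) (XT.nd (nat_lit 78) (nat_lit 76) (nat_lit 0) (XT.lf (nat_lit 0) (nat_lit 1196356165) (nat_lit 228) (nat_lit 11704128751) (nat_lit 76) (nat_lit 7065441227) (nat_lit 15) (nat_lit 5) (nat_lit 18) (nat_lit 5) (nat_lit 16) (nat_lit 4) (nat_lit 313) (nat_lit 250) (nat_lit 217)) (XT.nd (nat_lit 78) (nat_lit 76) (nat_lit 0) (XT.lf (nat_lit 0) (nat_lit 4978667659) (nat_lit 228) (nat_lit 4118787607) (nat_lit 76) (nat_lit 11635577553) (nat_lit 15) (nat_lit 5) (nat_lit 18) (nat_lit 5) (nat_lit 16) (nat_lit 4) (nat_lit 314) (nat_lit 250) (nat_lit 216)) (XT.lf (nat_lit 0) (nat_lit 3860350187) (nat_lit 76) (nat_lit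 5088813222) (nat_lit 152) (nat_lit 12589417267) (nat_lit 14) (nat_lit 5) (nat_lit 15) (nat_lit 5) (nat_lit 16) (nat_lit 4) (nat_lit 315) (nat_lit 250) (nat_lit 215)))))) (XT.nd (nat_lit 390) (nat_lit 152) (nat_lit 0) (XT.nd (nat_lit 156) (nat_lit 152) (nat_lit 0) (XT.nd (nat_lit 78) (nat_lit 0) (nat_lit 0) (XT.lf (nat_lit 0) (nat_lit 12274172637) (nat_lit 76) (nat_lit 853802417) (nat_lit 152) (nat_lit 9255978725) (nat_lit 14) (nat_lit 5) (nat_lit 15) (nat_lit 5) (nat_lit 16) (nat_lit 4) (nat_lit 316) (nat_lit 250) (nat_lit 214)) (XT.lf (nat_lit 0) (nat_lit 17514012856) (nat_lit 152) (nat_lit 2323352363) (nat_lit 0) (nat_lit 3434351668) (nat_lit 14) (nat_lit 5) (nat_lit 16) (nat_lit 4) (nat_lit 14) (nat_lit 4) (nat_lit 317) (nat_lit 250) (nat_lit 213))) (XT.nd (nat_lit 78) (nat_lit 76) (nat_lit 0) (XT.lf (nat_lit 0) (nat_lit 5928781139) (nat_lit 76) (nat_lit 16242075358) (nat_lit 76)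 (nat_lit 2030470387) (nat_lit 13) (nat_lit 4) (nat_lit 14) (nat_lit 5) (nat_lit 14) (nat_lit 4) (nat_lit 318) (nat_lit 250) (nat_lit 212)) (XT.nd (nat_lit 78) (nat_lit 0) (nat_lit 0) (XT.lf (nat_lit 0) (nat_lit 1807966952) (nat_lit 152) (nat_lit 10630933464) (nat_lit 76) (nat_lit 12737822012) (nat_lit 12) (nat_lit 5) (nat_lit 14) (nat_lit 5) (nat_lit 13) (nat_lit 4) (nat_lit 319) (nat_lit 250) (nat_lit 211)) (XT.lf (nat_lit 0) (nat_lit 5717823935) (nat_lit 152) (nat_lit 2735403549) (nat_lit 76) (nat_lit 17748638511) (nat_lit 12) (nat_lit 5) (nat_lit 14) (nat_lit 5) (nat_lit 13) (nat_lit 4) (nat_lit 320) (nat_lit 250) (nat_lit 210))))) (XT.nd (nat_lit 156) (nat_lit 76) (nat_lit 0) (XT.nd (nat_lit 78) (nat_lit 0) (nat_lit 0) (XT.lf (nat_lit 0) (nat_lit 5645226722) (nat_lit 76) (nat_lit 4216308565) (nat_lit 152) (nat_lit 17414841293) (nat_lit 11) (nat_lit 5) (nat_lit 12) (nat_lit 5) (nat_lit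 13) (nat_lit 4) (nat_lit 321) (nat_lit 250) (nat_lit 209)) (XT.lf (nat_lit 0) (nat_lit 14213726144) (nat_lit 152) (nat_lit 13957570960) (nat_lit 0) (nat_lit 233277481) (nat_lit 11) (nat_lit 5) (nat_lit 13) (nat_lit 4) (nat_lit 11) (nat_lit 4) (nat_lit 322) (nat_lit 250) (nat_lit 208))) (XT.nd (nat_lit 78) (nat_lit 76) (nat_lit 0) (XT.lf (nat_lit 0) (nat_lit 18805579522) (nat_lit 152) (nat_lit 6055853262) (nat_lit 0) (nat_lit 4726672377) (nat_lit 11) (nat_lit 5) (nat_lit 13) (nat_lit 4) (nat_lit 11) (nat_lit 4) (nat_lit 323) (nat_lit 250) (nat_lit 207)) (XT.nd (nat_lit 78) (nat_lit 0) (nat_lit 0) (XT.lf (nat_lit 0) (nat_lit 2230019801) (nat_lit 76) (nat_lit 21386997071) (nat_lit 76) (nat_lit 7214319943) (nat_lit 10) (nat_lit 4) (nat_lit 11) (nat_lit 5) (nat_lit 11) (nat_lit 4) (nat_lit 324) (nat_lit 250) (nat_lit 206)) (XT.lf (nat_lit 0) (nat_lit 11059454490) (nat_lit 76) (nat_lit 17668175113)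 (nat_lit 76) (nat_lit 3406193239) (nat_lit 10) (nat_lit 4) (nat_lit 11) (nat_lit 5) (nat_lit 11) (nat_lit 4) (nat_lit 325) (nat_lit 250) (nat_lit 205))))))))
noncomputable def xc77 : XT := (XT.nd (nat_lit 1560) (nat_lit 228) (nat_lit 0) (XT.nd (nat_lit 780) (nat_lit 152) (nat_lit 0) (XT.nd (nat_lit 390) (nat_lit 76) (nat_lit 0) (XT.nd (nat_lit 156) (nat_lit 76) (nat_lit 0) (XT.nd (nat_lit 78) (nat_lit 0) (nat_lit 0) (XT.lf (nat_lit 0) (nat_lit 530811606) (nat_lit 152) (nat_lit 13258870219) (nat_lit 76) (nat_lit 19713438254) (nat_lit 9) (nat_lit 5) (nat_lit 11) (nat_lit 5) (nat_lit 10) (nat_lit 4) (nat_lit 326) (nat_lit 250) (nat_lit 204)) (XT.lf (nat_lit 0) (nat_lit 4509653770) (nat_lit 152) (nat_lit 5183245820) (nat_lit 76) (nat_lit 25247237590) (nat_lit 9) (nat_lit 5) (nat_lit 11) (nat_lit 5) (nat_lit 10) (nat_lit 4) (nat_lit 327) (nat_lit 250) (nat_lit 203))) (XT.nd (nat_lit 78) (nat_lit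 0) (nat_lit 0) (XT.lf (nat_lit 0) (nat_lit 3331542922) (nat_lit 76) (nat_lit 5369297941) (nat_lit 152) (nat_lit 27747513027) (nat_lit 8) (nat_lit 5) (nat_lit 9) (nat_lit 5) (nat_lit 10) (nat_lit 4) (nat_lit 328) (nat_lit 250) (nat_lit 202)) (XT.nd (nat_lit 78) (nat_lit 0) (nat_lit 0) (XT.lf (nat_lit 0) (nat_lit 12381923785) (nat_lit 76) (nat_lit 769576638) (nat_lit 152) (nat_lit 24878003351) (nat_lit 8) (nat_lit 5) (nat_lit 9) (nat_lit 5) (nat_lit 10) (nat_lit 4) (nat_lit 329) (nat_lit 250) (nat_lit 201)) (XT.lf (nat_lit 0) (nat_lit 17851539297) (nat_lit 152) (nat_lit 17936378512) (nat_lit 0) (nat_lit 3900468164) (nat_lit 8) (nat_lit 5) (nat_lit 10) (nat_lit 4) (nat_lit 8) (nat_lit 4) (nat_lit 330) (nat_lit 250) (nat_lit 200))))) (XT.nd (nat_lit 156) (nat_lit 76) (nat_lit 0) (XT.nd (nat_lit 78) (nat_lit 0) (nat_lit 0) (XT.lf (nat_lit 0) (nat_lit 22764392616) (nat_lit 152) (nat_lit 9917091096)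 (nat_lit 0) (nat_lit 8749854268) (nat_lit 8) (nat_lit 5) (nat_lit 10) (nat_lit 4) (nat_lit 8) (nat_lit 4) (nat_lit 331) (nat_lit 250) (nat_lit 199)) (XT.lf (nat_lit 0) (nat_lit 27889742403) (nat_lit 152) (nat_lit 1558608951) (nat_lit 0) (nat_lit 13814759087) (nat_lit 8) (nat_lit 5) (nat_lit 10) (nat_lit 4) (nat_lit 8) (nat_lit 4) (nat_lit 332) (nat_lit 250) (nat_lit 198))) (XT.nd (nat_lit 78) (nat_lit 0) (nat_lit 0) (XT.lf (nat_lit 0) (nat_lit 7395676917) (nat_lit 76) (nat_lit 25959582196) (nat_lit 76) (nat_lit 11827032244) (nat_lit 7) (nat_lit 4) (nat_lit 8) (nat_lit 5) (nat_lit 8) (nat_lit 4) (nat_lit 333) (nat_lit 250) (nat_lit 197)) (XT.nd (nat_lit 78) (nat_lit 0) (nat_lit 0) (XT.lf (nat_lit 0) (nat_lit 16793909075) (nat_lit 76) (nat_lit 22295570142) (nat_lit 76) (nat_lit 8108194823) (nat_lit 7) (nat_lit 4) (nat_lit 8) (nat_lit 5) (nat_lit 8) (nat_lit 4) (nat_lit 334) (nat_lit 250)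 (nat_lit 196)) (XT.lf (nat_lit 0) (nat_lit 26606929614) (nat_lit 76) (nat_lit 18473987152) (nat_lit 76) (nat_lit 4234397198) (nat_lit 7) (nat_lit 4) (nat_lit 8) (nat_lit 5) (nat_lit 8) (nat_lit 4) (nat_lit 335) (nat_lit 250) (nat_lit 195)))))) (XT.nd (nat_lit 390) (nat_lit 0) (nat_lit 0) (XT.nd (nat_lit 156) (nat_lit 76) (nat_lit 0) (XT.nd (nat_lit 78) (nat_lit 76) (nat_lit 0) (XT.lf (nat_lit 0) (nat_lit 36858102869) (nat_lit 76) (nat_lit 14485734219) (nat_lit 76) (nat_lit 196416041) (nat_lit 7) (nat_lit 4) (nat_lit 8) (nat_lit 5) (nat_lit 8) (nat_lit 4) (nat_lit 336) (nat_lit 250) (nat_lit 194)) (XT.lf (nat_lit 0) (nat_lit 3886846200) (nat_lit 152) (nat_lit 6368643681) (nat_lit 76) (nat_lit 43619164573) (nat_lit 6) (nat_lit 5) (nat_lit 8) (nat_lit 5) (nat_lit 7) (nat_lit 4) (nat_lit 337) (nat_lit 250) (nat_lit 193))) (XT.nd (nat_lit 78) (nat_lit 0) (nat_lit 0) (XT.lf (nat_lit 0) (nat_lit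 2385173591) (nat_lit 76) (nat_lit 5793829798) (nat_lit 152) (nat_lit 48146055871) (nat_lit 5) (nat_lit 5) (nat_lit 6) (nat_lit 5) (nat_lit 7) (nat_lit 4) (nat_lit 338) (nat_lit 250) (nat_lit 192)) (XT.nd (nat_lit 78) (nat_lit 0) (nat_lit 0) (XT.lf (nat_lit 0) (nat_lit 11750083524) (nat_lit 76) (nat_lit 1018123300) (nat_lit 152) (nat_lit 46125666084) (nat_lit 5) (nat_lit 5) (nat_lit 6) (nat_lit 5) (nat_lit 7) (nat_lit 4) (nat_lit 339) (nat_lit 250) (nat_lit 191)) (XT.lf (nat_lit 0) (nat_lit 17624726264) (nat_lit 152) (nat_lit 40116603369) (nat_lit 0) (nat_lit 3847914835) (nat_lit 5) (nat_lit 5) (nat_lit 7) (nat_lit 4) (nat_lit 5) (nat_lit 4) (nat_lit 340) (nat_lit 250) (nat_lit 190))))) (XT.nd (nat_lit 156) (nat_lit 0) (nat_lit 0) (XT.nd (nat_lit 78) (nat_lit 0) (nat_lit 0) (XT.lf (nat_lit 0) (nat_lit 22717392049) (nat_lit 152) (nat_lit 32798863426) (nat_lit 0) (nat_lit 8903472654) (nat_lit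 5) (nat_lit 5) (nat_lit 7) (nat_lit 4) (nat_lit 5) (nat_lit 4) (nat_lit 341) (nat_lit 250) (nat_lit 189)) (XT.lf (nat_lit 0) (nat_lit 28042433818) (nat_lit 152) (nat_lit 25157250609) (nat_lit 0) (nat_lit 14193173501) (nat_lit 5) (nat_lit 5) (nat_lit 7) (nat_lit 4) (nat_lit 5) (nat_lit 4) (nat_lit 342) (nat_lit 250) (nat_lit 188))) (XT.nd (nat_lit 78) (nat_lit 0) (nat_lit 0) (XT.lf (nat_lit 0) (nat_lit 33612530239) (nat_lit 152) (nat_lit 17173570601) (nat_lit 0) (nat_lit 19729611904) (nat_lit 5) (nat_lit 5) (nat_lit 7) (nat_lit 4) (nat_lit 5) (nat_lit 4) (nat_lit 343) (nat_lit 250) (nat_lit 187)) (XT.nd (nat_lit 78) (nat_lit 0) (nat_lit 0) (XT.lf (nat_lit 0) (nat_lit 39440943449) (nat_lit 152) (nat_lit 8828814640) (nat_lit 0) (nat_lit 25525969857) (nat_lit 5) (nat_lit 5) (nat_lit 7) (nat_lit 4) (nat_lit 5) (nat_lit 4) (nat_lit 344) (nat_lit 250) (nat_lit 186)) (XT.lf (nat_lit 0) (nat_lit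 45541550622) (nat_lit 152) (nat_lit 103114260) (nat_lit 0) (nat_lit 31596048213) (nat_lit 5) (nat_lit 5) (nat_lit 7) (nat_lit 4) (nat_lit 5) (nat_lit 4) (nat_lit 345) (nat_lit 250) (nat_lit 185))))))) (XT.nd (nat_lit 780) (nat_lit 76) (nat_lit 0) (XT.nd (nat_lit 390) (nat_lit 76) (nat_lit 0) (XT.nd (nat_lit 156) (nat_lit 0) (nat_lit 0) (XT.nd (nat_lit 78) (nat_lit 0) (nat_lit 0) (XT.lf (nat_lit 0) (nat_lit 9322690328) (nat_lit 76) (nat_lit 42751740006) (nat_lit 76) (nat_lit 28777162535) (nat_lit 4) (nat_lit 4) (nat_lit 5) (nat_lit 5) (nat_lit 5) (nat_lit 4) (nat_lit 346) (nat_lit 250) (nat_lit 184)) (XT.lf (nat_lit 0) (nat_lit 19189357420) (nat_lit 76) (nat_lit 39728372766) (nat_lit 76) (nat_lit 25726104759) (nat_lit 4) (nat_lit 4) (nat_lit 5) (nat_lit 5) (nat_lit 5) (nat_lit 4) (nat_lit 347) (nat_lit 250) (nat_lit 183))) (XT.nd (nat_lit 78) (nat_lit 0) (nat_lit 0) (XT.lf (nat_lit 0)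 (nat_lit 29516969656) (nat_lit 76) (nat_lit 36569110958) (nat_lit 76) (nat_lit 22540471012) (nat_lit 4) (nat_lit 4) (nat_lit 5) (nat_lit 5) (nat_lit 5) (nat_lit 4) (nat_lit 348) (nat_lit 250) (nat_lit 182)) (XT.nd (nat_lit 78) (nat_lit 0) (nat_lit 0) (XT.lf (nat_lit 0) (nat_lit 40330116590) (nat_lit 76) (nat_lit 33266432532) (nat_lit 76) (nat_lit 19212676453) (nat_lit 4) (nat_lit 4) (nat_lit 5) (nat_lit 5) (nat_lit 5) (nat_lit 4) (nat_lit 349) (nat_lit 250) (nat_lit 181)) (XT.lf (nat_lit 0) (nat_lit 51654543809) (nat_lit 76) (nat_lit 29812473965) (nat_lit 76) (nat_lit 15734797761) (nat_lit 4) (nat_lit 4) (nat_lit 5) (nat_lit 5) (nat_lit 5) (nat_lit 4) (nat_lit 350) (nat_lit 250) (nat_lit 180))))) (XT.nd (nat_lit 156) (nat_lit 76) (nat_lit 0) (XT.nd (nat_lit 78) (nat_lit 0) (nat_lit 0) (XT.lf (nat_lit 0) (nat_lit 63517214236) (nat_lit 76) (nat_lit 26199011549) (nat_lit 76) (nat_lit 12098554272)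 (nat_lit 4) (nat_lit 4) (nat_lit 5) (nat_lit 5) (nat_lit 5) (nat_lit 4) (nat_lit 351) (nat_lit 250) (nat_lit 179)) (XT.lf (nat_lit 0) (nat_lit 75946372323) (nat_lit 76) (nat_lit 22417441800) (nat_lit 76) (nat_lit 8295288263) (nat_lit 4) (nat_lit 4) (nat_lit 5) (nat_lit 5) (nat_lit 5) (nat_lit 4) (nat_lit 352) (nat_lit 250) (nat_lit 178))) (XT.nd (nat_lit 78) (nat_lit 76) (nat_lit 0) (XT.lf (nat_lit 0) (nat_lit 88971611305) (nat_lit 76) (nat_lit 18458760982) (nat_lit 76) (nat_lit 4315944341) (nat_lit 4) (nat_lit 4) (nat_lit 5) (nat_lit 5) (nat_lit 5) (nat_lit 4) (nat_lit 353) (nat_lit 250) (nat_lit 177)) (XT.nd (nat_lit 78) (nat_lit 76) (nat_lit 0) (XT.lf (nat_lit 0) (nat_lit 102623943655) (nat_lit 76) (nat_lit 14313543663) (nat_lit 76) (nat_lit 151047875) (nat_lit 4) (nat_lit 4) (nat_lit 5) (nat_lit 5) (nat_lit 5) (nat_lit 4) (nat_lit 354) (nat_lit 250) (nat_lit 176)) (XT.lf (nat_lit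 0) (nat_lit 4074593104) (nat_lit 152) (nat_lit 5828321969) (nat_lit 76) (nat_lit 112792276616) (nat_lit 3) (nat_lit 5) (nat_lit 5) (nat_lit 5) (nat_lit 4) (nat_lit 4) (nat_lit 355) (nat_lit 250) (nat_lit 175)))))) (XT.nd (nat_lit 390) (nat_lit 0) (nat_lit 0) (XT.nd (nat_lit 156) (nat_lit 0) (nat_lit 0) (XT.nd (nat_lit 78) (nat_lit 0) (nat_lit 0) (XT.lf (nat_lit 0) (nat_lit 3321270870) (nat_lit 76) (nat_lit 5225245358) (nat_lit 152) (nat_lit 120033541528) (nat_lit 2) (nat_lit 5) (nat_lit 3) (nat_lit 5) (nat_lit 4) (nat_lit 4) (nat_lit 356) (nat_lit 250) (nat_lit 174)) (XT.lf (nat_lit 0) (nat_lit 13108734034) (nat_lit 76) (nat_lit 220446951) (nat_lit 152) (nat_lit 121425633033) (nat_lit 2) (nat_lit 5) (nat_lit 3) (nat_lit 5) (nat_lit 4) (nat_lit 4) (nat_lit 357) (nat_lit 250) (nat_lit 173))) (XT.nd (nat_lit 78) (nat_lit 0) (nat_lit 0) (XT.lf (nat_lit 0) (nat_lit 18418418983) (nat_lit 152)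 (nat_lit 117952651680) (nat_lit 0) (nat_lit 4863869393) (nat_lit 2) (nat_lit 5) (nat_lit 4) (nat_lit 4) (nat_lit 2) (nat_lit 4) (nat_lit 358) (nat_lit 250) (nat_lit 172)) (XT.nd (nat_lit 78) (nat_lit 0) (nat_lit 0) (XT.lf (nat_lit 0) (nat_lit 23755100311) (nat_lit 152) (nat_lit 114098460953) (nat_lit 0) (nat_lit 10185865839) (nat_lit 2) (nat_lit 5) (nat_lit 4) (nat_lit 4) (nat_lit 2) (nat_lit 4) (nat_lit 359) (nat_lit 250) (nat_lit 171)) (XT.lf (nat_lit 0) (nat_lit 29348489559) (nat_lit 152) (nat_lit 110070889363) (nat_lit 0) (nat_lit 15765269484) (nat_lit 2) (nat_lit 5) (nat_lit 4) (nat_lit 4) (nat_lit 2) (nat_lit 4) (nat_lit 360) (nat_lit 250) (nat_lit 170))))) (XT.nd (nat_lit 156) (nat_lit 0) (nat_lit 0) (XT.nd (nat_lit 78) (nat_lit 0) (nat_lit 0) (XT.lf (nat_lit 0) (nat_lit 35211904319) (nat_lit 152) (nat_lit 105860347454) (nat_lit 0) (nat_lit 21615364623) (nat_lit 2) (nat_lit 5)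 (nat_lit 4) (nat_lit 4) (nat_lit 2) (nat_lit 4) (nat_lit 361) (nat_lit 250) (nat_lit 169)) (XT.lf (nat_lit 0) (nat_lit 41359305104) (nat_lit 152) (nat_lit 101456810127) (nat_lit 0) (nat_lit 27750080055) (nat_lit 2) (nat_lit 5) (nat_lit 4) (nat_lit 4) (nat_lit 2) (nat_lit 4) (nat_lit 362) (nat_lit 250) (nat_lit 168))) (XT.nd (nat_lit 78) (nat_lit 0) (nat_lit 0) (XT.lf (nat_lit 0) (nat_lit 47805328581) (nat_lit 152) (nat_lit 96849792768) (nat_lit 0) (nat_lit 34184022243) (nat_lit 2) (nat_lit 5) (nat_lit 4) (nat_lit 4) (nat_lit 2) (nat_lit 4) (nat_lit 363) (nat_lit 250) (nat_lit 167)) (XT.nd (nat_lit 78) (nat_lit 0) (nat_lit 0) (XT.lf (nat_lit 0) (nat_lit 54565322427) (nat_lit 152) (nat_lit 92028326288) (nat_lit 0) (nat_lit 40932510098) (nat_lit 2) (nat_lit 5) (nat_lit 4) (nat_lit 4) (nat_lit 2) (nat_lit 4) (nat_lit 364) (nat_lit 250) (nat_lit 166)) (XT.lf (nat_lit 0) (nat_lit 61655381863)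 (nat_lit 152) (nat_lit 86980931007) (nat_lit 0) (nat_lit 48011611449) (nat_lit 2) (nat_lit 5) (nat_lit 4) (nat_lit 4) (nat_lit 2) (nat_lit 4) (nat_lit 365) (nat_lit 250) (nat_lit 165))))))))
noncomputable def xc78 : XT := (XT.nd (nat_lit 1560) (nat_lit 0) (nat_lit 0) (XT.nd (nat_lit 780) (nat_lit 76) (nat_lit 0) (XT.nd (nat_lit 390) (nat_lit 0) (nat_lit 0) (XT.nd (nat_lit 156) (nat_lit 0) (nat_lit 0) (XT.nd (nat_lit 78) (nat_lit 0) (nat_lit 0) (XT.lf (nat_lit 0) (nat_lit 69092387984) (nat_lit 152) (nat_lit 81695589315) (nat_lit 0) (nat_lit 55438181299) (nat_lit 2) (nat_lit 5) (nat_lit 4) (nat_lit 4) (nat_lit 2) (nat_lit 4) (nat_lit 366) (nat_lit 250) (nat_lit 164)) (XT.lf (nat_lit 0) (nat_lit 76894047948) (nat_lit 152) (nat_lit 76159717066) (nat_lit 0) (nat_lit 63229901956) (nat_lit 2) (nat_lit 5) (nat_lit 4) (nat_lit 4) (nat_lit 2) (nat_lit 4) (nat_lit 367) (nat_lit 250) (nat_lit 163)))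 (XT.nd (nat_lit 78) (nat_lit 0) (nat_lit 0) (XT.lf (nat_lit 0) (nat_lit 85078937136) (nat_lit 152) (nat_lit 70360133612) (nat_lit 0) (nat_lit 71405325138) (nat_lit 2) (nat_lit 5) (nat_lit 4) (nat_lit 4) (nat_lit 2) (nat_lit 4) (nat_lit 368) (nat_lit 250) (nat_lit 162)) (XT.nd (nat_lit 78) (nat_lit 0) (nat_lit 0) (XT.lf (nat_lit 0) (nat_lit 93666543378) (nat_lit 152) (nat_lit 64283030420) (nat_lit 0) (nat_lit 79983916136) (nat_lit 2) (nat_lit 5) (nat_lit 4) (nat_lit 4) (nat_lit 2) (nat_lit 4) (nat_lit 369) (nat_lit 250) (nat_lit 161)) (XT.lf (nat_lit 0) (nat_lit 102677313356) (nat_lit 152) (nat_lit 57913938198) (nat_lit 0) (nat_lit 88986100167) (nat_lit 2) (nat_lit 5) (nat_lit 4) (nat_lit 4) (nat_lit 2) (nat_lit 4) (nat_lit 370) (nat_lit 250) (nat_lit 160))))) (XT.nd (nat_lit 156) (nat_lit 0) (nat_lit 0) (XT.nd (nat_lit 78) (nat_lit 0) (nat_lit 0) (XT.lf (nat_lit 0) (nat_lit 112132701285)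 (nat_lit 152) (nat_lit 51237692439) (nat_lit 0) (nat_lit 98433311004) (nat_lit 2) (nat_lit 5) (nat_lit 4) (nat_lit 4) (nat_lit 2) (nat_lit 4) (nat_lit 371) (nat_lit 250) (nat_lit 159)) (XT.lf (nat_lit 0) (nat_lit 122055219993) (nat_lit 152) (nat_lit 44238397322) (nat_lit 0) (nat_lit 108348042005) (nat_lit 2) (nat_lit 5) (nat_lit 4) (nat_lit 4) (nat_lit 2) (nat_lit 4) (nat_lit 372) (nat_lit 250) (nat_lit 158))) (XT.nd (nat_lit 78) (nat_lit 0) (nat_lit 0) (XT.lf (nat_lit 0) (nat_lit 132468494524) (nat_lit 152) (nat_lit 36899387857) (nat_lit 0) (nat_lit 118753899673) (nat_lit 2) (nat_lit 5) (nat_lit 4) (nat_lit 4) (nat_lit 2) (nat_lit 4) (nat_lit 373) (nat_lit 250) (nat_lit 157)) (XT.nd (nat_lit 78) (nat_lit 0) (nat_lit 0) (XT.lf (nat_lit 0) (nat_lit 143397318389) (nat_lit 152) (nat_lit 29203190212) (nat_lit 0) (nat_lit 129675659859) (nat_lit 2) (nat_lit 5) (nat_lit 4) (nat_lit 4) (nat_lit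 2) (nat_lit 4) (nat_lit 374) (nat_lit 250) (nat_lit 156)) (XT.lf (nat_lit 0) (nat_lit 154867712598) (nat_lit 152) (nat_lit 21131480108) (nat_lit 0) (nat_lit 141139326754) (nat_lit 2) (nat_lit 5) (nat_lit 4) (nat_lit 4) (nat_lit 2) (nat_lit 4) (nat_lit 375) (nat_lit 250) (nat_lit 155)))))) (XT.nd (nat_lit 390) (nat_lit 0) (nat_lit 0) (XT.nd (nat_lit 156) (nat_lit 76) (nat_lit 0) (XT.nd (nat_lit 78) (nat_lit 0) (nat_lit 0) (XT.lf (nat_lit 0) (nat_lit 166906987613) (nat_lit 152) (nat_lit 12665039186) (nat_lit 0) (nat_lit 153172194804) (nat_lit 2) (nat_lit 5) (nat_lit 4) (nat_lit 4) (nat_lit 2) (nat_lit 4) (nat_lit 376) (nat_lit 250) (nat_lit 154)) (XT.lf (nat_lit 0) (nat_lit 179543808375) (nat_lit 152) (nat_lit 3783709255) (nat_lit 0) (nat_lit 165802913693) (nat_lit 2) (nat_lit 5) (nat_lit 4) (nat_lit 4) (nat_lit 2) (nat_lit 4) (nat_lit 377) (nat_lit 250) (nat_lit 153))) (XT.nd (nat_lit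 78) (nat_lit 0) (nat_lit 0) (XT.lf (nat_lit 0) (nat_lit 5716623357) (nat_lit 76) (nat_lit 187180891705) (nat_lit 76) (nat_lit 173434185716) (nat_lit 1) (nat_lit 4) (nat_lit 2) (nat_lit 5) (nat_lit 2) (nat_lit 4) (nat_lit 378) (nat_lit 250) (nat_lit 152)) (XT.nd (nat_lit 78) (nat_lit 0) (nat_lit 0) (XT.lf (nat_lit 0) (nat_lit 15815432519) (nat_lit 76) (nat_lit 191163422880) (nat_lit 76) (nat_lit 177411182314) (nat_lit 1) (nat_lit 4) (nat_lit 2) (nat_lit 5) (nat_lit 2) (nat_lit 4) (nat_lit 379) (nat_lit 250) (nat_lit 151)) (XT.lf (nat_lit 0) (nat_lit 26411656498) (nat_lit 76) (nat_lit 195348672321) (nat_lit 76) (nat_lit 181591160729) (nat_lit 1) (nat_lit 4) (nat_lit 2) (nat_lit 5) (nat_lit 2) (nat_lit 4) (nat_lit 380) (nat_lit 250) (nat_lit 150))))) (XT.nd (nat_lit 156) (nat_lit 0) (nat_lit 0) (XT.nd (nat_lit 78) (nat_lit 0) (nat_lit 0) (XT.lf (nat_lit 0) (nat_lit 37530524398) (nat_lit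 76) (nat_lit 199746604908) (nat_lit 76) (nat_lit 185984073290) (nat_lit 1) (nat_lit 4) (nat_lit 2) (nat_lit 5) (nat_lit 2) (nat_lit 4) (nat_lit 381) (nat_lit 250) (nat_lit 149)) (XT.lf (nat_lit 0) (nat_lit 49198509714) (nat_lit 76) (nat_lit 204367691907) (nat_lit 76) (nat_lit 190600379313) (nat_lit 1) (nat_lit 4) (nat_lit 2) (nat_lit 5) (nat_lit 2) (nat_lit 4) (nat_lit 382) (nat_lit 250) (nat_lit 148))) (XT.nd (nat_lit 78) (nat_lit 0) (nat_lit 0) (XT.lf (nat_lit 0) (nat_lit 61443393365) (nat_lit 76) (nat_lit 209222935908) (nat_lit 76) (nat_lit 195451070003) (nat_lit 1) (nat_lit 4) (nat_lit 2) (nat_lit 5) (nat_lit 2) (nat_lit 4) (nat_lit 383) (nat_lit 250) (nat_lit 147)) (XT.nd (nat_lit 78) (nat_lit 0) (nat_lit 0) (XT.lf (nat_lit 0) (nat_lit 74294329834) (nat_lit 76) (nat_lit 214323897015) (nat_lit 76) (nat_lit 200547694623) (nat_lit 1) (nat_lit 4) (nat_lit 2) (nat_lit 5) (nat_lit 2)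 (nat_lit 4) (nat_lit 384) (nat_lit 250) (nat_lit 146)) (XT.lf (nat_lit 0) (nat_lit 87781916590) (nat_lit 76) (nat_lit 219682720373) (nat_lit 76) (nat_lit 205902387994) (nat_lit 1) (nat_lit 4) (nat_lit 2) (nat_lit 5) (nat_lit 2) (nat_lit 4) (nat_lit 385) (nat_lit 250) (nat_lit 145))))))) (XT.nd (nat_lit 32682) (nat_lit 0) (nat_lit 2964) (XT.nd (nat_lit 32292) (nat_lit 0) (nat_lit 4636) (XT.nd (nat_lit 156) (nat_lit 0) (nat_lit 0) (XT.nd (nat_lit 78) (nat_lit 0) (nat_lit 0) (XT.lf (nat_lit 0) (nat_lit 101938266934) (nat_lit 76) (nat_lit 225312165086) (nat_lit 76) (nat_lit 211527899386) (nat_lit 1) (nat_lit 4) (nat_lit 2) (nat_lit 5) (nat_lit 2) (nat_lit 4) (nat_lit 386) (nat_lit 250) (nat_lit 144)) (XT.lf (nat_lit 0) (nat_lit 116797086463) (nat_lit 76) (nat_lit 231225634594) (nat_lit 76) (nat_lit 217437622874) (nat_lit 1) (nat_lit 4) (nat_lit 2) (nat_lit 5) (nat_lit 2) (nat_lit 4) (nat_lit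 387) (nat_lit 250) (nat_lit 143))) (XT.nd (nat_lit 78) (nat_lit 0) (nat_lit 0) (XT.lf (nat_lit 0) (nat_lit 132393753318) (nat_lit 76) (nat_lit 237437208585) (nat_lit 76) (nat_lit 223645629227) (nat_lit 1) (nat_lit 4) (nat_lit 2) (nat_lit 5) (nat_lit 2) (nat_lit 4) (nat_lit 388) (nat_lit 250) (nat_lit 142)) (XT.nd (nat_lit 31980) (nat_lit 0) (nat_lit 6080) (XT.lf (nat_lit 0) (nat_lit 148765402420) (nat_lit 76) (nat_lit 243961676522) (nat_lit 76) (nat_lit 230166699414) (nat_lit 1) (nat_lit 4) (nat_lit 2) (nat_lit 5) (nat_lit 2) (nat_lit 4) (nat_lit 389) (nat_lit 250) (nat_lit 141)) (XT.lf (nat_lit 0) (nat_lit 1381350020) (nat_lit 608) (nat_lit 966868288) (nat_lit 0) (nat_lit 1381350020) (nat_lit 81) (nat_lit 5) (nat_lit 89) (nat_lit 4) (nat_lit 81) (nat_lit 4) (nat_lit 278) (nat_lit 251) (nat_lit 251))))) (XT.nd (nat_lit 156) (nat_lit 684) (nat_lit 0) (XT.nd (nat_lit 78) (nat_lit 380)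 (nat_lit 0) (XT.lf (nat_lit 0) (nat_lit 3348038858) (nat_lit 380) (nat_lit 2836993197) (nat_lit 380) (nat_lit 1395991185) (nat_lit 76) (nat_lit 4) (nat_lit 81) (nat_lit 5) (nat_lit 81) (nat_lit 4) (nat_lit 279) (nat_lit 251) (nat_lit 250)) (XT.lf (nat_lit 0) (nat_lit 1078398810) (nat_lit 304) (nat_lit 820032258) (nat_lit 380) (nat_lit 5814534159) (nat_lit 71) (nat_lit 5) (nat_lit 75) (nat_lit 5) (nat_lit 76) (nat_lit 4) (nat_lit 280) (nat_lit 251) (nat_lit 249))) (XT.nd (nat_lit 78) (nat_lit 684) (nat_lit 0) (XT.lf (nat_lit 0) (nat_lit 5253140920) (nat_lit 380) (nat_lit 1271480180) (nat_lit 0) (nat_lit 1328935031) (nat_lit 71) (nat_lit 5) (nat_lit 76) (nat_lit 4) (nat_lit 71) (nat_lit 4) (nat_lit 281) (nat_lit 251) (nat_lit 248)) (XT.nd (nat_lit 78) (nat_lit 304) (nat_lit 0) (XT.lf (nat_lit 0) (nat_lit 685586472) (nat_lit 380) (nat_lit 3704269542) (nat_lit 76) (nat_lit 3614208256) (nat_lit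 66) (nat_lit 5) (nat_lit 71) (nat_lit 5) (nat_lit 67) (nat_lit 4) (nat_lit 282) (nat_lit 251) (nat_lit 247)) (XT.lf (nat_lit 0) (nat_lit 1874692338) (nat_lit 304) (nat_lit 2083101286) (nat_lit 380) (nat_lit 4206984416) (nat_lit 62) (nat_lit 5) (nat_lit 66) (nat_lit 5) (nat_lit 67) (nat_lit 4) (nat_lit 283) (nat_lit 251) (nat_lit 246)))))) (XT.nd (nat_lit 390) (nat_lit 760) (nat_lit 0) (XT.nd (nat_lit 156) (nat_lit 532) (nat_lit 0) (XT.nd (nat_lit 78) (nat_lit 380) (nat_lit 0) (XT.lf (nat_lit 0) (nat_lit 7324334470) (nat_lit 380) (nat_lit 654378595) (nat_lit 0) (nat_lit 358541632) (nat_lit 62) (nat_lit 5) (nat_lit 67) (nat_lit 4) (nat_lit 62) (nat_lit 4) (nat_lit 284) (nat_lit 251) (nat_lit 245)) (XT.lf (nat_lit 0) (nat_lit 2249415877) (nat_lit 380) (nat_lit 3329817172) (nat_lit 76) (nat_lit 2938359136) (nat_lit 57) (nat_lit 5) (nat_lit 62) (nat_lit 5) (nat_lit 58) (nat_lit 4) (nat_lit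 285) (nat_lit 251) (nat_lit 244))) (XT.nd (nat_lit 78) (nat_lit 304) (nat_lit 0) (XT.lf (nat_lit 0) (nat_lit 2530417405) (nat_lit 228) (nat_lit 3030763019) (nat_lit 304) (nat_lit 3149145744) (nat_lit 54) (nat_lit 5) (nat_lit 57) (nat_lit 5) (nat_lit 58) (nat_lit 4) (nat_lit 286) (nat_lit 251) (nat_lit 243)) (XT.nd (nat_lit 78) (nat_lit 228) (nat_lit 0) (XT.lf (nat_lit 0) (nat_lit 49983689) (nat_lit 304) (nat_lit 287345953) (nat_lit 76) (nat_lit 8579066584) (nat_lit 53) (nat_lit 5) (nat_lit 57) (nat_lit 5) (nat_lit 54) (nat_lit 5) (nat_lit 287) (nat_lit 251) (nat_lit 242)) (XT.lf (nat_lit 0) (nat_lit 3312473389) (nat_lit 304) (nat_lit 3301978819) (nat_lit 76) (nat_lit 2515471052) (nat_lit 50) (nat_lit 5) (nat_lit 54) (nat_lit 5) (nat_lit 51) (nat_lit 4) (nat_lit 288) (nat_lit 251) (nat_lit 241))))) (XT.nd (nat_lit 156) (nat_lit 456) (nat_lit 0) (XT.nd (nat_lit 78) (nat_lit 76) (nat_lit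 0) (XT.lf (nat_lit 0) (nat_lit 2821389897) (nat_lit 228) (nat_lit 3850870248) (nat_lit 304) (nat_lit 2685345041) (nat_lit 47) (nat_lit 5) (nat_lit 50) (nat_lit 5) (nat_lit 51) (nat_lit 4) (nat_lit 289) (nat_lit 251) (nat_lit 240)) (XT.lf (nat_lit 0) (nat_lit 521587976) (nat_lit 304) (nat_lit 408440709) (nat_lit 76) (nat_lit 8669464558) (nat_lit 46) (nat_lit 5) (nat_lit 50) (nat_lit 5) (nat_lit 47) (nat_lit 5) (nat_lit 290) (nat_lit 251) (nat_lit 239))) (XT.nd (nat_lit 78) (nat_lit 228) (nat_lit 0) (XT.lf (nat_lit 0) (nat_lit 3813743526) (nat_lit 304) (nat_lit 3874867620) (nat_lit 76) (nat_lit 2162069084) (nat_lit 43) (nat_lit 5) (nat_lit 47) (nat_lit 5) (nat_lit 44) (nat_lit 4) (nat_lit 291) (nat_lit 251) (nat_lit 238)) (XT.nd (nat_lit 78) (nat_lit 76) (nat_lit 0) (XT.lf (nat_lit 0) (nat_lit 2479340287) (nat_lit 152) (nat_lit 4740701928) (nat_lit 228) (nat_lit 2897061567) (nat_lit 41)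 (nat_lit 5) (nat_lit 43) (nat_lit 5) (nat_lit 44) (nat_lit 4) (nat_lit 292) (nat_lit 251) (nat_lit 237)) (XT.lf (nat_lit 0) (nat_lit 343122703) (nat_lit 228) (nat_lit 1280282856) (nat_lit 76) (nat_lit 8775464930) (nat_lit 40) (nat_lit 5) (nat_lit 43) (nat_lit 5) (nat_lit 41) (nat_lit 5) (nat_lit 293) (nat_lit 251) (nat_lit 236))))))))
noncomputable def xc79 : XT := (XT.nd (nat_lit 1560) (nat_lit 684) (nat_lit 0) (XT.nd (nat_lit 780) (nat_lit 760) (nat_lit 0) (XT.nd (nat_lit 390) (nat_lit 456) (nat_lit 0) (XT.nd (nat_lit 156) (nat_lit 228) (nat_lit 0) (XT.nd (nat_lit 78) (nat_lit 152) (nat_lit 0) (XT.lf (nat_lit 0) (nat_lit 3653445465) (nat_lit 304) (nat_lit 5358785159) (nat_lit 76) (nat_lit 1679978805) (nat_lit 37) (nat_lit 5) (nat_lit 41) (nat_lit 5) (nat_lit 38) (nat_lit 4) (nat_lit 294) (nat_lit 251) (nat_lit 235)) (XT.lf (nat_lit 0) (nat_lit 1174528025) (nat_lit 152) (nat_lit 5918210052)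 (nat_lit 228) (nat_lit 3909431238) (nat_lit 35) (nat_lit 5) (nat_lit 37) (nat_lit 5) (nat_lit 38) (nat_lit 4) (nat_lit 295) (nat_lit 251) (nat_lit 234))) (XT.nd (nat_lit 78) (nat_lit 228) (nat_lit 0) (XT.lf (nat_lit 0) (nat_lit 8063890378) (nat_lit 152) (nat_lit 2629808043) (nat_lit 228) (nat_lit 634564269) (nat_lit 35) (nat_lit 5) (nat_lit 37) (nat_lit 5) (nat_lit 38) (nat_lit 4) (nat_lit 296) (nat_lit 251) (nat_lit 233)) (XT.nd (nat_lit 78) (nat_lit 0) (nat_lit 0) (XT.lf (nat_lit 0) (nat_lit 2685327534) (nat_lit 228) (nat_lit 8140164546) (nat_lit 76) (nat_lit 844537711) (nat_lit 32) (nat_lit 5) (nat_lit 35) (nat_lit 5) (nat_lit 33) (nat_lit 4) (nat_lit 297) (nat_lit 251) (nat_lit 232)) (XT.lf (nat_lit 0) (nat_lit 6152731853) (nat_lit 228) (nat_lit 1457517581) (nat_lit 76) (nat_lit 4418077730) (nat_lit 32) (nat_lit 5) (nat_lit 35) (nat_lit 5) (nat_lit 33) (nat_lit 4) (nat_lit 298) (nat_lit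 251) (nat_lit 231))))) (XT.nd (nat_lit 156) (nat_lit 76) (nat_lit 0) (XT.nd (nat_lit 78) (nat_lit 228) (nat_lit 0) (XT.lf (nat_lit 0) (nat_lit 5591439627) (nat_lit 152) (nat_lit 4197499871) (nat_lit 228) (nat_lit 2615927511) (nat_lit 30) (nat_lit 5) (nat_lit 32) (nat_lit 5) (nat_lit 33) (nat_lit 4) (nat_lit 299) (nat_lit 251) (nat_lit 230)) (XT.lf (nat_lit 0) (nat_lit 86697029) (nat_lit 152) (nat_lit 629340572) (nat_lit 228) (nat_lit 12086899811) (nat_lit 27) (nat_lit 5) (nat_lit 29) (nat_lit 5) (nat_lit 30) (nat_lit 5) (nat_lit 300) (nat_lit 251) (nat_lit 229))) (XT.nd (nat_lit 78) (nat_lit 76) (nat_lit 0) (XT.lf (nat_lit 0) (nat_lit 4202538537) (nat_lit 228) (nat_lit 5889031005) (nat_lit 76) (nat_lit 3123490839) (nat_lit 27) (nat_lit 5) (nat_lit 30) (nat_lit 5) (nat_lit 28) (nat_lit 4) (nat_lit 301) (nat_lit 251) (nat_lit 228)) (XT.nd (nat_lit 78) (nat_lit 0) (nat_lit 0) (XT.lf (nat_lit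 0) (nat_lit 1164769036) (nat_lit 76) (nat_lit 6641289213) (nat_lit 152) (nat_lit 5844678223) (nat_lit 26) (nat_lit 5) (nat_lit 27) (nat_lit 5) (nat_lit 28) (nat_lit 4) (nat_lit 302) (nat_lit 251) (nat_lit 227)) (XT.lf (nat_lit 0) (nat_lit 8636266319) (nat_lit 76) (nat_lit 2969321554) (nat_lit 152) (nat_lit 2501894571) (nat_lit 26) (nat_lit 5) (nat_lit 27) (nat_lit 5) (nat_lit 28) (nat_lit 4) (nat_lit 303) (nat_lit 251) (nat_lit 226)))))) (XT.nd (nat_lit 390) (nat_lit 304) (nat_lit 0) (XT.nd (nat_lit 156) (nat_lit 228) (nat_lit 0) (XT.nd (nat_lit 78) (nat_lit 0) (nat_lit 0) (XT.lf (nat_lit 0) (nat_lit 936299618) (nat_lit 228) (nat_lit 12802115677) (nat_lit 76) (nat_lit 849907326) (nat_lit 23) (nat_lit 5) (nat_lit 26) (nat_lit 5) (nat_lit 24) (nat_lit 4) (nat_lit 304) (nat_lit 251) (nat_lit 225)) (XT.lf (nat_lit 0) (nat_lit 4524838616) (nat_lit 228) (nat_lit 5719912381) (nat_lit 76) (nat_lit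 4843344502) (nat_lit 23) (nat_lit 5) (nat_lit 26) (nat_lit 5) (nat_lit 24) (nat_lit 4) (nat_lit 305) (nat_lit 251) (nat_lit 224))) (XT.nd (nat_lit 78) (nat_lit 152) (nat_lit 0) (XT.lf (nat_lit 0) (nat_lit 1638777086) (nat_lit 76) (nat_lit 6603100131) (nat_lit 152) (nat_lit 7373590153) (nat_lit 22) (nat_lit 5) (nat_lit 23) (nat_lit 5) (nat_lit 24) (nat_lit 4) (nat_lit 306) (nat_lit 251) (nat_lit 223)) (XT.nd (nat_lit 78) (nat_lit 152) (nat_lit 0) (XT.lf (nat_lit 0) (nat_lit 9436006359) (nat_lit 76) (nat_lit 2730763031) (nat_lit 152) (nat_lit 4001399300) (nat_lit 22) (nat_lit 5) (nat_lit 23) (nat_lit 5) (nat_lit 24) (nat_lit 4) (nat_lit 307) (nat_lit 251) (nat_lit 222)) (XT.lf (nat_lit 0) (nat_lit 753134521) (nat_lit 152) (nat_lit 15495283857) (nat_lit 152) (nat_lit 502119123) (nat_lit 20) (nat_lit 4) (nat_lit 22) (nat_lit 5) (nat_lit 22) (nat_lit 4) (nat_lit 308) (nat_lit 251) (nat_lit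 221))))) (XT.nd (nat_lit 156) (nat_lit 228) (nat_lit 0) (XT.nd (nat_lit 78) (nat_lit 0) (nat_lit 0) (XT.lf (nat_lit 0) (nat_lit 3159459665) (nat_lit 228) (nat_lit 8731194939) (nat_lit 76) (nat_lit 5464503379) (nat_lit 19) (nat_lit 5) (nat_lit 22) (nat_lit 5) (nat_lit 20) (nat_lit 4) (nat_lit 309) (nat_lit 251) (nat_lit 220)) (XT.lf (nat_lit 0) (nat_lit 6918875589) (nat_lit 228) (nat_lit 1229080409) (nat_lit 76) (nat_lit 9845110417) (nat_lit 19) (nat_lit 5) (nat_lit 22) (nat_lit 5) (nat_lit 20) (nat_lit 4) (nat_lit 310) (nat_lit 251) (nat_lit 219))) (XT.nd (nat_lit 78) (nat_lit 152) (nat_lit 0) (XT.lf (nat_lit 0) (nat_lit 6750707059) (nat_lit 76) (nat_lit 4155840983) (nat_lit 152) (nat_lit 7754355683) (nat_lit 18) (nat_lit 5) (nat_lit 19) (nat_lit 5) (nat_lit 20) (nat_lit 4) (nat_lit 311) (nat_lit 251) (nat_lit 218)) (XT.nd (nat_lit 78) (nat_lit 152) (nat_lit 0) (XT.lf (nat_lit 0) (nat_lit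 15050817959) (nat_lit 152) (nat_lit 4303990889) (nat_lit 0) (nat_lit 9508834) (nat_lit 18) (nat_lit 5) (nat_lit 20) (nat_lit 4) (nat_lit 18) (nat_lit 4) (nat_lit 312) (nat_lit 251) (nat_lit 217)) (XT.lf (nat_lit 0) (nat_lit 3621593952) (nat_lit 152) (nat_lit 15843948100) (nat_lit 152) (nat_lit 634241557) (nat_lit 16) (nat_lit 4) (nat_lit 18) (nat_lit 5) (nat_lit 18) (nat_lit 4) (nat_lit 313) (nat_lit 251) (nat_lit 216))))))) (XT.nd (nat_lit 780) (nat_lit 304) (nat_lit 0) (XT.nd (nat_lit 390) (nat_lit 152) (nat_lit 0) (XT.nd (nat_lit 156) (nat_lit 152) (nat_lit 0) (XT.nd (nat_lit 78) (nat_lit 0) (nat_lit 0) (XT.lf (nat_lit 0) (nat_lit 3138514894) (nat_lit 228) (nat_lit 8936129503) (nat_lit 76) (nat_lit 8794252900) (nat_lit 15) (nat_lit 5) (nat_lit 18) (nat_lit 5) (nat_lit 16) (nat_lit 4) (nat_lit 314) (nat_lit 251) (nat_lit 215)) (XT.lf (nat_lit 0) (nat_lit 7020306680) (nat_lit 228) (nat_lit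 1131197763) (nat_lit 76) (nat_lit 13527394157) (nat_lit 15) (nat_lit 5) (nat_lit 18) (nat_lit 5) (nat_lit 16) (nat_lit 4) (nat_lit 315) (nat_lit 251) (nat_lit 214))) (XT.nd (nat_lit 78) (nat_lit 76) (nat_lit 0) (XT.lf (nat_lit 0) (nat_lit 7195388385) (nat_lit 76) (nat_lit 3957627646) (nat_lit 152) (nat_lit 11373578167) (nat_lit 14) (nat_lit 5) (nat_lit 15) (nat_lit 5) (nat_lit 16) (nat_lit 4) (nat_lit 316) (nat_lit 251) (nat_lit 213)) (XT.nd (nat_lit 78) (nat_lit 76) (nat_lit 0) (XT.lf (nat_lit 0) (nat_lit 15463737008) (nat_lit 152) (nat_lit 7544794685) (nat_lit 0) (nat_lit 409608006) (nat_lit 14) (nat_lit 5) (nat_lit 16) (nat_lit 4) (nat_lit 14) (nat_lit 4) (nat_lit 317) (nat_lit 251) (nat_lit 212)) (XT.lf (nat_lit 0) (nat_lit 486999180) (nat_lit 76) (nat_lit 19523041513) (nat_lit 76) (nat_lit 4343251765) (nat_lit 13) (nat_lit 4) (nat_lit 14) (nat_lit 5) (nat_lit 14) (nat_lit 4) (nat_lit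 318) (nat_lit 251) (nat_lit 211))))) (XT.nd (nat_lit 156) (nat_lit 76) (nat_lit 0) (XT.nd (nat_lit 78) (nat_lit 76) (nat_lit 0) (XT.lf (nat_lit 0) (nat_lit 9089201825) (nat_lit 76) (nat_lit 15770839680) (nat_lit 76) (nat_lit 471373031) (nat_lit 13) (nat_lit 4) (nat_lit 14) (nat_lit 5) (nat_lit 14) (nat_lit 4) (nat_lit 319) (nat_lit 251) (nat_lit 210)) (XT.lf (nat_lit 0) (nat_lit 3429289716) (nat_lit 152) (nat_lit 8383400732) (nat_lit 76) (nat_lit 14545463302) (nat_lit 12) (nat_lit 5) (nat_lit 14) (nat_lit 5) (nat_lit 13) (nat_lit 4) (nat_lit 320) (nat_lit 251) (nat_lit 209))) (XT.nd (nat_lit 78) (nat_lit 76) (nat_lit 0) (XT.lf (nat_lit 0) (nat_lit 7461738386) (nat_lit 152) (nat_lit 225431436) (nat_lit 76) (nat_lit 19751070616) (nat_lit 12) (nat_lit 5) (nat_lit 14) (nat_lit 5) (nat_lit 13) (nat_lit 4) (nat_lit 321) (nat_lit 251) (nat_lit 208)) (XT.nd (nat_lit 78) (nat_lit 0) (nat_lit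 0) (XT.lf (nat_lit 0) (nat_lit 8531540958) (nat_lit 76) (nat_lit 3252321233) (nat_lit 152) (nat_lit 16784091955) (nat_lit 11) (nat_lit 5) (nat_lit 12) (nat_lit 5) (nat_lit 13) (nat_lit 4) (nat_lit 322) (nat_lit 251) (nat_lit 207)) (XT.lf (nat_lit 0) (nat_lit 16303071596) (nat_lit 152) (nat_lit 12124066460) (nat_lit 0) (nat_lit 1327990627) (nat_lit 11) (nat_lit 5) (nat_lit 13) (nat_lit 4) (nat_lit 11) (nat_lit 4) (nat_lit 323) (nat_lit 251) (nat_lit 206)))))) (XT.nd (nat_lit 390) (nat_lit 152) (nat_lit 0) (XT.nd (nat_lit 156) (nat_lit 76) (nat_lit 0) (XT.nd (nat_lit 78) (nat_lit 76) (nat_lit 0) (XT.lf (nat_lit 0) (nat_lit 21058867207) (nat_lit 152) (nat_lit 3947804928) (nat_lit 0) (nat_lit 5994481493) (nat_lit 11) (nat_lit 5) (nat_lit 13) (nat_lit 4) (nat_lit 11) (nat_lit 4) (nat_lit 324) (nat_lit 251) (nat_lit 205)) (XT.lf (nat_lit 0) (nat_lit 4713477256) (nat_lit 76) (nat_lit 21371907832)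 (nat_lit 76) (nat_lit 6222469979) (nat_lit 10) (nat_lit 4) (nat_lit 11) (nat_lit 5) (nat_lit 11) (nat_lit 4) (nat_lit 325) (nat_lit 251) (nat_lit 204))) (XT.nd (nat_lit 78) (nat_lit 76) (nat_lit 0) (XT.lf (nat_lit 0) (nat_lit 13871433373) (nat_lit 76) (nat_lit 17518784733) (nat_lit 76) (nat_lit 2288344842) (nat_lit 10) (nat_lit 4) (nat_lit 11) (nat_lit 5) (nat_lit 11) (nat_lit 4) (nat_lit 326) (nat_lit 251) (nat_lit 203)) (XT.nd (nat_lit 78) (nat_lit 0) (nat_lit 0) (XT.lf (nat_lit 0) (nat_lit 1744903573) (nat_lit 152) (nat_lit 11730532362) (nat_lit 76) (nat_lit 21642881459) (nat_lit 9) (nat_lit 5) (nat_lit 11) (nat_lit 5) (nat_lit 10) (nat_lit 4) (nat_lit 327) (nat_lit 251) (nat_lit 202)) (XT.lf (nat_lit 0) (nat_lit 5866137779) (nat_lit 152) (nat_lit 3355473475) (nat_lit 76) (nat_lit 27408429271) (nat_lit 9) (nat_lit 5) (nat_lit 11) (nat_lit 5) (nat_lit 10) (nat_lit 4) (nat_lit 328)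 (nat_lit 251) (nat_lit 201))))) (XT.nd (nat_lit 234) (nat_lit 76) (nat_lit 0) (XT.nd (nat_lit 78) (nat_lit 0) (nat_lit 0) (XT.lf (nat_lit 0) (nat_lit 5551394469) (nat_lit 76) (nat_lit 4693689920) (nat_lit 152) (nat_lit 27969700028) (nat_lit 8) (nat_lit 5) (nat_lit 9) (nat_lit 5) (nat_lit 10) (nat_lit 4) (nat_lit 329) (nat_lit 251) (nat_lit 200)) (XT.nd (nat_lit 78) (nat_lit 0) (nat_lit 0) (XT.lf (nat_lit 0) (nat_lit 14866879536) (nat_lit 152) (nat_lit 24922560175) (nat_lit 0) (nat_lit 88147054) (nat_lit 8) (nat_lit 5) (nat_lit 10) (nat_lit 4) (nat_lit 8) (nat_lit 4) (nat_lit 330) (nat_lit 251) (nat_lit 199)) (XT.lf (nat_lit 0) (nat_lit 19763563977) (nat_lit 152) (nat_lit 16933404291) (nat_lit 0) (nat_lit 4924386528) (nat_lit 8) (nat_lit 5) (nat_lit 10) (nat_lit 4) (nat_lit 8) (nat_lit 4) (nat_lit 331) (nat_lit 251) (nat_lit 198)))) (XT.nd (nat_lit 78) (nat_lit 76) (nat_lit 0) (XT.lf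 (nat_lit 0) (nat_lit 24873514833) (nat_lit 152) (nat_lit 8603618844) (nat_lit 0) (nat_lit 9976770749) (nat_lit 8) (nat_lit 5) (nat_lit 10) (nat_lit 4) (nat_lit 8) (nat_lit 4) (nat_lit 332) (nat_lit 251) (nat_lit 197)) (XT.nd (nat_lit 78) (nat_lit 0) (nat_lit 0) (XT.lf (nat_lit 0) (nat_lit 89493333) (nat_lit 76) (nat_lit 30120802561) (nat_lit 76) (nat_lit 15169233109) (nat_lit 7) (nat_lit 4) (nat_lit 8) (nat_lit 5) (nat_lit 8) (nat_lit 4) (nat_lit 333) (nat_lit 251) (nat_lit 196)) (XT.lf (nat_lit 0) (nat_lit 9460836112) (nat_lit 76) (nat_lit 26469292784) (nat_lit 76) (nat_lit 11465508696) (nat_lit 7) (nat_lit 4) (nat_lit 8) (nat_lit 5) (nat_lit 8) (nat_lit 4) (nat_lit 334) (nat_lit 251) (nat_lit 195))))))))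
noncomputable def xc80 : XT := (XT.nd (nat_lit 1560) (nat_lit 152) (nat_lit 0) (XT.nd (nat_lit 780) (nat_lit 76) (nat_lit 0) (XT.nd (nat_lit 390) (nat_lit 0) (nat_lit 0) (XT.nd (nat_lit 156) (nat_lit 152) (nat_lit 0) (XT.nd (nat_lit 78) (nat_lit 0) (nat_lit 0) (XT.lf (nat_lit 0) (nat_lit 19248247718) (nat_lit 76) (nat_lit 22659616724) (nat_lit 76) (nat_lit 7606104412) (nat_lit 7) (nat_lit 4) (nat_lit 8) (nat_lit 5) (nat_lit 8) (nat_lit 4) (nat_lit 335) (nat_lit 251) (nat_lit 194)) (XT.lf (nat_lit 0) (nat_lit 29475031513) (nat_lit 76) (nat_lit 18682703724) (nat_lit 76) (nat_lit 3581831199) (nat_lit 7) (nat_lit 4) (nat_lit 8) (nat_lit 5) (nat_lit 8) (nat_lit 4) (nat_lit 336) (nat_lit 251) (nat_lit 193))) (XT.nd (nat_lit 78) (nat_lit 76) (nat_lit 0) (XT.lf (nat_lit 0) (nat_lit 597148132) (nat_lit 152) (nat_lit 13921823819) (nat_lit 76) (nat_lit 39558275857) (nat_lit 6) (nat_lit 5) (nat_lit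 8) (nat_lit 5) (nat_lit 7) (nat_lit 4) (nat_lit 337) (nat_lit 251) (nat_lit 192)) (XT.nd (nat_lit 78) (nat_lit 76) (nat_lit 0) (XT.lf (nat_lit 0) (nat_lit 4840030518) (nat_lit 152) (nat_lit 5266872037) (nat_lit 76) (nat_lit 46423218931) (nat_lit 6) (nat_lit 5) (nat_lit 8) (nat_lit 5) (nat_lit 7) (nat_lit 4) (nat_lit 338) (nat_lit 251) (nat_lit 191)) (XT.lf (nat_lit 0) (nat_lit 3901729586) (nat_lit 76) (nat_lit 5430746374) (nat_lit 152) (nat_lit 49771301962) (nat_lit 5) (nat_lit 5) (nat_lit 6) (nat_lit 5) (nat_lit 7) (nat_lit 4) (nat_lit 339) (nat_lit 251) (nat_lit 190))))) (XT.nd (nat_lit 156) (nat_lit 0) (nat_lit 0) (XT.nd (nat_lit 78) (nat_lit 0) (nat_lit 0) (XT.lf (nat_lit 0) (nat_lit 13668347048) (nat_lit 76) (nat_lit 447339072) (nat_lit 152) (nat_lit 47687133481) (nat_lit 5) (nat_lit 5) (nat_lit 6) (nat_lit 5) (nat_lit 7) (nat_lit 4) (nat_lit 340) (nat_lit 251) (nat_lit 189)) (XT.lf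 (nat_lit 0) (nat_lit 19190510466) (nat_lit 152) (nat_lit 40830243088) (nat_lit 0) (nat_lit 4613446214) (nat_lit 5) (nat_lit 5) (nat_lit 7) (nat_lit 4) (nat_lit 5) (nat_lit 4) (nat_lit 341) (nat_lit 251) (nat_lit 188))) (XT.nd (nat_lit 78) (nat_lit 0) (nat_lit 0) (XT.lf (nat_lit 0) (nat_lit 24505212022) (nat_lit 152) (nat_lit 33208149027) (nat_lit 0) (nat_lit 9894489750) (nat_lit 5) (nat_lit 5) (nat_lit 7) (nat_lit 4) (nat_lit 5) (nat_lit 4) (nat_lit 342) (nat_lit 251) (nat_lit 187)) (XT.nd (nat_lit 78) (nat_lit 0) (nat_lit 0) (XT.lf (nat_lit 0) (nat_lit 30065460623) (nat_lit 152) (nat_lit 25243058310) (nat_lit 0) (nat_lit 15422683094) (nat_lit 5) (nat_lit 5) (nat_lit 7) (nat_lit 4) (nat_lit 5) (nat_lit 4) (nat_lit 343) (nat_lit 251) (nat_lit 186)) (XT.lf (nat_lit 0) (nat_lit 35884494956) (nat_lit 152) (nat_lit 16916006437) (nat_lit 0) (nat_lit 21211188611) (nat_lit 5) (nat_lit 5) (nat_lit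 7) (nat_lit 4) (nat_lit 5) (nat_lit 4) (nat_lit 344) (nat_lit 251) (nat_lit 185)))))) (XT.nd (nat_lit 390) (nat_lit 0) (nat_lit 0) (XT.nd (nat_lit 156) (nat_lit 0) (nat_lit 0) (XT.nd (nat_lit 78) (nat_lit 76) (nat_lit 0) (XT.lf (nat_lit 0) (nat_lit 41976169864) (nat_lit 152) (nat_lit 8207167092) (nat_lit 0) (nat_lit 27273788457) (nat_lit 5) (nat_lit 5) (nat_lit 7) (nat_lit 4) (nat_lit 5) (nat_lit 4) (nat_lit 345) (nat_lit 251) (nat_lit 184)) (XT.lf (nat_lit 0) (nat_lit 934091827) (nat_lit 76) (nat_lit 47435481299) (nat_lit 76) (nat_lit 32705409356) (nat_lit 4) (nat_lit 4) (nat_lit 5) (nat_lit 5) (nat_lit 5) (nat_lit 4) (nat_lit 346) (nat_lit 251) (nat_lit 183))) (XT.nd (nat_lit 78) (nat_lit 0) (nat_lit 0) (XT.lf (nat_lit 0) (nat_lit 10784959792) (nat_lit 76) (nat_lit 44419564691) (nat_lit 76) (nat_lit 29663120808) (nat_lit 4) (nat_lit 4) (nat_lit 5) (nat_lit 5) (nat_lit 5) (nat_lit 4)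 (nat_lit 347) (nat_lit 251) (nat_lit 182)) (XT.nd (nat_lit 78) (nat_lit 0) (nat_lit 0) (XT.lf (nat_lit 0) (nat_lit 21097525241) (nat_lit 76) (nat_lit 41267398723) (nat_lit 76) (nat_lit 26485838708) (nat_lit 4) (nat_lit 4) (nat_lit 5) (nat_lit 5) (nat_lit 5) (nat_lit 4) (nat_lit 348) (nat_lit 251) (nat_lit 181)) (XT.lf (nat_lit 0) (nat_lit 31896341901) (nat_lit 76) (nat_lit 37971478239) (nat_lit 76) (nat_lit 23165998097) (nat_lit 4) (nat_lit 4) (nat_lit 5) (nat_lit 5) (nat_lit 5) (nat_lit 4) (nat_lit 349) (nat_lit 251) (nat_lit 180))))) (XT.nd (nat_lit 156) (nat_lit 0) (nat_lit 0) (XT.nd (nat_lit 78) (nat_lit 0) (nat_lit 0) (XT.lf (nat_lit 0) (nat_lit 43207121240) (nat_lit 76) (nat_lit 34523955808) (nat_lit 76) (nat_lit 19695694594) (nat_lit 4) (nat_lit 4) (nat_lit 5) (nat_lit 5) (nat_lit 5) (nat_lit 4) (nat_lit 350) (nat_lit 251) (nat_lit 179)) (XT.lf (nat_lit 0) (nat_lit 55056793686)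 (nat_lit 76) (nat_lit 30916623044) (nat_lit 76) (nat_lit 16066665571) (nat_lit 4) (nat_lit 4) (nat_lit 5) (nat_lit 5) (nat_lit 5) (nat_lit 4) (nat_lit 351) (nat_lit 251) (nat_lit 178))) (XT.nd (nat_lit 78) (nat_lit 0) (nat_lit 0) (XT.lf (nat_lit 0) (nat_lit 67473572744) (nat_lit 76) (nat_lit 27140891060) (nat_lit 76) (nat_lit 12270270483) (nat_lit 4) (nat_lit 4) (nat_lit 5) (nat_lit 5) (nat_lit 5) (nat_lit 4) (nat_lit 352) (nat_lit 251) (nat_lit 177)) (XT.nd (nat_lit 78) (nat_lit 0) (nat_lit 0) (XT.lf (nat_lit 0) (nat_lit 80487022174) (nat_lit 76) (nat_lit 23187770018) (nat_lit 76) (nat_lit 8297470293) (nat_lit 4) (nat_lit 4) (nat_lit 5) (nat_lit 5) (nat_lit 5) (nat_lit 4) (nat_lit 353) (nat_lit 251) (nat_lit 176)) (XT.lf (nat_lit 0) (nat_lit 94128126380) (nat_lit 76) (nat_lit 19047847724) (nat_lit 76) (nat_lit 4138805955) (nat_lit 4) (nat_lit 4) (nat_lit 5) (nat_lit 5) (nat_lit 5) (nat_lit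 4) (nat_lit 354) (nat_lit 251) (nat_lit 175))))))) (XT.nd (nat_lit 780) (nat_lit 0) (nat_lit 0) (XT.nd (nat_lit 390) (nat_lit 0) (nat_lit 0) (XT.nd (nat_lit 156) (nat_lit 76) (nat_lit 0) (XT.nd (nat_lit 78) (nat_lit 0) (nat_lit 0) (XT.lf (nat_lit 0) (nat_lit 208722796) (nat_lit 152) (nat_lit 14499009602) (nat_lit 76) (nat_lit 108217106562) (nat_lit 3) (nat_lit 5) (nat_lit 5) (nat_lit 5) (nat_lit 4) (nat_lit 4) (nat_lit 355) (nat_lit 251) (nat_lit 174)) (XT.lf (nat_lit 0) (nat_lit 4623319775) (nat_lit 152) (nat_lit 5466085383) (nat_lit 76) (nat_lit 118723168209) (nat_lit 3) (nat_lit 5) (nat_lit 5) (nat_lit 5) (nat_lit 4) (nat_lit 4) (nat_lit 356) (nat_lit 251) (nat_lit 173))) (XT.nd (nat_lit 78) (nat_lit 0) (nat_lit 0) (XT.lf (nat_lit 0) (nat_lit 4130444312) (nat_lit 76) (nat_lit 5182007061) (nat_lit 152) (nat_lit 125679556846) (nat_lit 2) (nat_lit 5) (nat_lit 3) (nat_lit 5) (nat_lit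 4) (nat_lit 4) (nat_lit 357) (nat_lit 251) (nat_lit 172)) (XT.nd (nat_lit 78) (nat_lit 0) (nat_lit 0) (XT.lf (nat_lit 0) (nat_lit 14319038951) (nat_lit 152) (nat_lit 127100571798) (nat_lit 0) (nat_lit 56657873) (nat_lit 2) (nat_lit 5) (nat_lit 4) (nat_lit 4) (nat_lit 2) (nat_lit 4) (nat_lit 358) (nat_lit 251) (nat_lit 171)) (XT.lf (nat_lit 0) (nat_lit 19650780695) (nat_lit 152) (nat_lit 123255809692) (nat_lit 0) (nat_lit 5374414015) (nat_lit 2) (nat_lit 5) (nat_lit 4) (nat_lit 4) (nat_lit 2) (nat_lit 4) (nat_lit 359) (nat_lit 251) (nat_lit 170))))) (XT.nd (nat_lit 156) (nat_lit 0) (nat_lit 0) (XT.nd (nat_lit 78) (nat_lit 0) (nat_lit 0) (XT.lf (nat_lit 0) (nat_lit 25239465577) (nat_lit 152) (nat_lit 119237217742) (nat_lit 0) (nat_lit 10949779276) (nat_lit 2) (nat_lit 5) (nat_lit 4) (nat_lit 4) (nat_lit 2) (nat_lit 4) (nat_lit 360) (nat_lit 251) (nat_lit 169)) (XT.lf (nat_lit 0) (nat_lit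 31098399990) (nat_lit 152) (nat_lit 115035227870) (nat_lit 0) (nat_lit 16796028334) (nat_lit 2) (nat_lit 5) (nat_lit 4) (nat_lit 4) (nat_lit 2) (nat_lit 4) (nat_lit 361) (nat_lit 251) (nat_lit 168))) (XT.nd (nat_lit 78) (nat_lit 0) (nat_lit 0) (XT.lf (nat_lit 0) (nat_lit 37241533776) (nat_lit 152) (nat_lit 110639835340) (nat_lit 0) (nat_lit 22927080831) (nat_lit 2) (nat_lit 5) (nat_lit 4) (nat_lit 4) (nat_lit 2) (nat_lit 4) (nat_lit 362) (nat_lit 251) (nat_lit 167)) (XT.nd (nat_lit 78) (nat_lit 0) (nat_lit 0) (XT.lf (nat_lit 0) (nat_lit 43683493446) (nat_lit 152) (nat_lit 106040574931) (nat_lit 0) (nat_lit 29357534511) (nat_lit 2) (nat_lit 5) (nat_lit 4) (nat_lit 4) (nat_lit 2) (nat_lit 4) (nat_lit 363) (nat_lit 251) (nat_lit 166)) (XT.lf (nat_lit 0) (nat_lit 50439616998) (nat_lit 152) (nat_lit 101226496023) (nat_lit 0) (nat_lit 36102699978) (nat_lit 2) (nat_lit 5) (nat_lit 4) (nat_lit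 4) (nat_lit 2) (nat_lit 4) (nat_lit 364) (nat_lit 251) (nat_lit 165)))))) (XT.nd (nat_lit 390) (nat_lit 0) (nat_lit 0) (XT.nd (nat_lit 156) (nat_lit 0) (nat_lit 0) (XT.nd (nat_lit 78) (nat_lit 0) (nat_lit 0) (XT.lf (nat_lit 0) (nat_lit 57525990440) (nat_lit 152) (nat_lit 96186136524) (nat_lit 0) (nat_lit 43178637149) (nat_lit 2) (nat_lit 5) (nat_lit 4) (nat_lit 4) (nat_lit 2) (nat_lit 4) (nat_lit 365) (nat_lit 251) (nat_lit 164)) (XT.lf (nat_lit 0) (nat_lit 64959486092) (nat_lit 152) (nat_lit 90907495577) (nat_lit 0) (nat_lit 50602193494) (nat_lit 2) (nat_lit 5) (nat_lit 4) (nat_lit 4) (nat_lit 2) (nat_lit 4) (nat_lit 366) (nat_lit 251) (nat_lit 163))) (XT.nd (nat_lit 78) (nat_lit 0) (nat_lit 0) (XT.lf (nat_lit 0) (nat_lit 72757802751) (nat_lit 152) (nat_lit 85378004990) (nat_lit 0) (nat_lit 58391044147) (nat_lit 2) (nat_lit 5) (nat_lit 4) (nat_lit 4) (nat_lit 2) (nat_lit 4) (nat_lit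 367) (nat_lit 251) (nat_lit 162)) (XT.nd (nat_lit 78) (nat_lit 0) (nat_lit 0) (XT.lf (nat_lit 0) (nat_lit 80939507839) (nat_lit 152) (nat_lit 79584499310) (nat_lit 0) (nat_lit 66563733991) (nat_lit 2) (nat_lit 5) (nat_lit 4) (nat_lit 4) (nat_lit 2) (nat_lit 4) (nat_lit 368) (nat_lit 251) (nat_lit 161)) (XT.lf (nat_lit 0) (nat_lit 89524081605) (nat_lit 152) (nat_lit 73513184473) (nat_lit 0) (nat_lit 75139721810) (nat_lit 2) (nat_lit 5) (nat_lit 4) (nat_lit 4) (nat_lit 2) (nat_lit 4) (nat_lit 369) (nat_lit 251) (nat_lit 160))))) (XT.nd (nat_lit 156) (nat_lit 0) (nat_lit 0) (XT.nd (nat_lit 78) (nat_lit 0) (nat_lit 0) (XT.lf (nat_lit 0) (nat_lit 98531963511) (nat_lit 152) (nat_lit 67149604971) (nat_lit 0) (nat_lit 84139426624) (nat_lit 2) (nat_lit 5) (nat_lit 4) (nat_lit 4) (nat_lit 2) (nat_lit 4) (nat_lit 370) (nat_lit 251) (nat_lit 159)) (XT.lf (nat_lit 0) (nat_lit 107984600894) (nat_lit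 152) (nat_lit 60478609422) (nat_lit 0) (nat_lit 93584276301) (nat_lit 2) (nat_lit 5) (nat_lit 4) (nat_lit 4) (nat_lit 2) (nat_lit 4) (nat_lit 371) (nat_lit 251) (nat_lit 158))) (XT.nd (nat_lit 78) (nat_lit 0) (nat_lit 0) (XT.lf (nat_lit 0) (nat_lit 117904500035) (nat_lit 152) (nat_lit 53484314503) (nat_lit 0) (nat_lit 103496758578) (nat_lit 2) (nat_lit 5) (nat_lit 4) (nat_lit 4) (nat_lit 2) (nat_lit 4) (nat_lit 372) (nat_lit 251) (nat_lit 157)) (XT.nd (nat_lit 78) (nat_lit 0) (nat_lit 0) (XT.lf (nat_lit 0) (nat_lit 128315279741) (nat_lit 152) (nat_lit 46150067133) (nat_lit 0) (nat_lit 113900474605) (nat_lit 2) (nat_lit 5) (nat_lit 4) (nat_lit 4) (nat_lit 2) (nat_lit 4) (nat_lit 373) (nat_lit 251) (nat_lit 156)) (XT.lf (nat_lit 0) (nat_lit 139241727582) (nat_lit 152) (nat_lit 38458404816) (nat_lit 0) (nat_lit 124820195132) (nat_lit 2) (nat_lit 5) (nat_lit 4) (nat_lit 4) (nat_lit 2) (nat_lit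 4) (nat_lit 374) (nat_lit 251) (nat_lit 155))))))))
noncomputable def xc81 : XT := (XT.nd (nat_lit 33384) (nat_lit 0) (nat_lit 1976) (XT.nd (nat_lit 780) (nat_lit 0) (nat_lit 0) (XT.nd (nat_lit 390) (nat_lit 0) (nat_lit 0) (XT.nd (nat_lit 156) (nat_lit 76) (nat_lit 0) (XT.nd (nat_lit 78) (nat_lit 0) (nat_lit 0) (XT.lf (nat_lit 0) (nat_lit 150709858911) (nat_lit 152) (nat_lit 30391014072) (nat_lit 0) (nat_lit 136281919495) (nat_lit 2) (nat_lit 5) (nat_lit 4) (nat_lit 4) (nat_lit 2) (nat_lit 4) (nat_lit 375) (nat_lit 251) (nat_lit 154)) (XT.lf (nat_lit 0) (nat_lit 162746978802) (nat_lit 152) (nat_lit 21928686827) (nat_lit 0) (nat_lit 148312937514) (nat_lit 2) (nat_lit 5) (nat_lit 4) (nat_lit 4) (nat_lit 2) (nat_lit 4) (nat_lit 376) (nat_lit 251) (nat_lit 153))) (XT.nd (nat_lit 78) (nat_lit 76) (nat_lit 0) (XT.lf (nat_lit 0) (nat_lit 175381747064) (nat_lit 152) (nat_lit 13051274682) (nat_lit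 0) (nat_lit 160941894469) (nat_lit 2) (nat_lit 5) (nat_lit 4) (nat_lit 4) (nat_lit 2) (nat_lit 4) (nat_lit 377) (nat_lit 251) (nat_lit 152)) (XT.nd (nat_lit 78) (nat_lit 76) (nat_lit 0) (XT.lf (nat_lit 0) (nat_lit 188644246479) (nat_lit 152) (nat_lit 3737640943) (nat_lit 0) (nat_lit 174198859307) (nat_lit 2) (nat_lit 5) (nat_lit 4) (nat_lit 4) (nat_lit 2) (nat_lit 4) (nat_lit 378) (nat_lit 251) (nat_lit 151)) (XT.lf (nat_lit 0) (nat_lit 6233913884) (nat_lit 76) (nat_lit 196429469408) (nat_lit 76) (nat_lit 181978811210) (nat_lit 1) (nat_lit 4) (nat_lit 2) (nat_lit 5) (nat_lit 2) (nat_lit 4) (nat_lit 379) (nat_lit 251) (nat_lit 150))))) (XT.nd (nat_lit 156) (nat_lit 0) (nat_lit 0) (XT.nd (nat_lit 78) (nat_lit 0) (nat_lit 0) (XT.lf (nat_lit 0) (nat_lit 16826641630) (nat_lit 76) (nat_lit 200616387470) (nat_lit 76) (nat_lit 186160709247) (nat_lit 1) (nat_lit 4) (nat_lit 2) (nat_lit 5) (nat_lit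 2) (nat_lit 4) (nat_lit 380) (nat_lit 251) (nat_lit 149)) (XT.lf (nat_lit 0) (nat_lit 27942179784) (nat_lit 76) (nat_lit 205015909220) (nat_lit 76) (nat_lit 190555450019) (nat_lit 1) (nat_lit 4) (nat_lit 2) (nat_lit 5) (nat_lit 2) (nat_lit 4) (nat_lit 381) (nat_lit 251) (nat_lit 148))) (XT.nd (nat_lit 78) (nat_lit 0) (nat_lit 0) (XT.lf (nat_lit 0) (nat_lit 39606993915) (nat_lit 76) (nat_lit 209638509707) (nat_lit 76) (nat_lit 195173497196) (nat_lit 1) (nat_lit 4) (nat_lit 2) (nat_lit 5) (nat_lit 2) (nat_lit 4) (nat_lit 382) (nat_lit 251) (nat_lit 147)) (XT.nd (nat_lit 78) (nat_lit 0) (nat_lit 0) (XT.lf (nat_lit 0) (nat_lit 51848857388) (nat_lit 76) (nat_lit 214495195126) (nat_lit 76) (nat_lit 200025846128) (nat_lit 1) (nat_lit 4) (nat_lit 2) (nat_lit 5) (nat_lit 2) (nat_lit 4) (nat_lit 383) (nat_lit 251) (nat_lit 146)) (XT.lf (nat_lit 0) (nat_lit 64696917497) (nat_lit 76) (nat_lit 219597529011)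 (nat_lit 76) (nat_lit 205124050026) (nat_lit 1) (nat_lit 4) (nat_lit 2) (nat_lit 5) (nat_lit 2) (nat_lit 4) (nat_lit 384) (nat_lit 251) (nat_lit 145)))))) (XT.nd (nat_lit 32214) (nat_lit 0) (nat_lit 5320) (XT.nd (nat_lit 156) (nat_lit 0) (nat_lit 0) (XT.nd (nat_lit 78) (nat_lit 0) (nat_lit 0) (XT.lf (nat_lit 0) (nat_lit 78181764863) (nat_lit 76) (nat_lit 224957659778) (nat_lit 76) (nat_lit 210480247472) (nat_lit 1) (nat_lit 4) (nat_lit 2) (nat_lit 5) (nat_lit 2) (nat_lit 4) (nat_lit 385) (nat_lit 251) (nat_lit 144)) (XT.lf (nat_lit 0) (nat_lit 92335506265) (nat_lit 76) (nat_lit 230588349641) (nat_lit 76) (nat_lit 216107191315) (nat_lit 1) (nat_lit 4) (nat_lit 2) (nat_lit 5) (nat_lit 2) (nat_lit 4) (nat_lit 386) (nat_lit 251) (nat_lit 143))) (XT.nd (nat_lit 78) (nat_lit 0) (nat_lit 0) (XT.lf (nat_lit 0) (nat_lit 107191841086) (nat_lit 76) (nat_lit 236503005007) (nat_lit 76) (nat_lit 222018279043)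 (nat_lit 1) (nat_lit 4) (nat_lit 2) (nat_lit 5) (nat_lit 2) (nat_lit 4) (nat_lit 387) (nat_lit 251) (nat_lit 142)) (XT.nd (nat_lit 31902) (nat_lit 0) (nat_lit 6688) (XT.lf (nat_lit 0) (nat_lit 122786141553) (nat_lit 76) (nat_lit 242715708386) (nat_lit 76) (nat_lit 228227584672) (nat_lit 1) (nat_lit 4) (nat_lit 2) (nat_lit 5) (nat_lit 2) (nat_lit 4) (nat_lit 388) (nat_lit 251) (nat_lit 141)) (XT.lf (nat_lit 0) (nat_lit 1298965224) (nat_lit 684) (nat_lit 1160390974) (nat_lit 684) (nat_lit 1160390974) (nat_lit 89) (nat_lit 4) (nat_lit 98) (nat_lit 5) (nat_lit 98) (nat_lit 4) (nat_lit 276) (nat_lit 252) (nat_lit 252))))) (XT.nd (nat_lit 156) (nat_lit 760) (nat_lit 0) (XT.nd (nat_lit 78) (nat_lit 0) (nat_lit 0) (XT.lf (nat_lit 0) (nat_lit 310353354) (nat_lit 532) (nat_lit 616016436) (nat_lit 608) (nat_lit 6421538266) (nat_lit 81) (nat_lit 5) (nat_lit 88) (nat_lit 5) (nat_lit 89) (nat_lit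 4) (nat_lit 277) (nat_lit 252) (nat_lit 251)) (XT.lf (nat_lit 0) (nat_lit 4199220268) (nat_lit 608) (nat_lit 2018757611) (nat_lit 0) (nat_lit 1245166143) (nat_lit 81) (nat_lit 5) (nat_lit 89) (nat_lit 4) (nat_lit 81) (nat_lit 4) (nat_lit 278) (nat_lit 252) (nat_lit 250))) (XT.nd (nat_lit 78) (nat_lit 380) (nat_lit 0) (XT.lf (nat_lit 0) (nat_lit 3176556917) (nat_lit 380) (nat_lit 4369430542) (nat_lit 380) (nat_lit 42993549) (nat_lit 76) (nat_lit 4) (nat_lit 81) (nat_lit 5) (nat_lit 81) (nat_lit 4) (nat_lit 279) (nat_lit 252) (nat_lit 249)) (XT.nd (nat_lit 78) (nat_lit 0) (nat_lit 0) (XT.lf (nat_lit 0) (nat_lit 786283019) (nat_lit 304) (nat_lit 2345302987) (nat_lit 380) (nat_lit 4592263858) (nat_lit 71) (nat_lit 5) (nat_lit 75) (nat_lit 5) (nat_lit 76) (nat_lit 4) (nat_lit 280) (nat_lit 252) (nat_lit 248)) (XT.lf (nat_lit 0) (nat_lit 6231589698) (nat_lit 304) (nat_lit 163458941) (nat_lit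 380) (nat_lit 1474103212) (nat_lit 71) (nat_lit 5) (nat_lit 75) (nat_lit 5) (nat_lit 76) (nat_lit 4) (nat_lit 281) (nat_lit 252) (nat_lit 247))))))) (XT.nd (nat_lit 780) (nat_lit 1216) (nat_lit 0) (XT.nd (nat_lit 390) (nat_lit 836) (nat_lit 0) (XT.nd (nat_lit 156) (nat_lit 608) (nat_lit 0) (XT.nd (nat_lit 78) (nat_lit 304) (nat_lit 0) (XT.lf (nat_lit 0) (nat_lit 1698096570) (nat_lit 380) (nat_lit 4198688634) (nat_lit 76) (nat_lit 2126018079) (nat_lit 66) (nat_lit 5) (nat_lit 71) (nat_lit 5) (nat_lit 67) (nat_lit 4) (nat_lit 282) (nat_lit 252) (nat_lit 246)) (XT.lf (nat_lit 0) (nat_lit 1279897221) (nat_lit 304) (nat_lit 3615215809) (nat_lit 380) (nat_lit 3292292028) (nat_lit 62) (nat_lit 5) (nat_lit 66) (nat_lit 5) (nat_lit 67) (nat_lit 4) (nat_lit 283) (nat_lit 252) (nat_lit 245))) (XT.nd (nat_lit 78) (nat_lit 608) (nat_lit 0) (XT.lf (nat_lit 0) (nat_lit 7014126112) (nat_lit 304) (nat_lit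 1177729414) (nat_lit 380) (nat_lit 171638459) (nat_lit 62) (nat_lit 5) (nat_lit 66) (nat_lit 5) (nat_lit 67) (nat_lit 4) (nat_lit 284) (nat_lit 252) (nat_lit 244)) (XT.nd (nat_lit 78) (nat_lit 228) (nat_lit 0) (XT.lf (nat_lit 0) (nat_lit 2970371719) (nat_lit 380) (nat_lit 4153123309) (nat_lit 76) (nat_lit 1424460667) (nat_lit 57) (nat_lit 5) (nat_lit 62) (nat_lit 5) (nat_lit 58) (nat_lit 4) (nat_lit 285) (nat_lit 252) (nat_lit 243)) (XT.lf (nat_lit 0) (nat_lit 1597269207) (nat_lit 228) (nat_lit 4609708731) (nat_lit 304) (nat_lit 2537575349) (nat_lit 54) (nat_lit 5) (nat_lit 57) (nat_lit 5) (nat_lit 58) (nat_lit 4) (nat_lit 286) (nat_lit 252) (nat_lit 242))))) (XT.nd (nat_lit 156) (nat_lit 532) (nat_lit 0) (XT.nd (nat_lit 78) (nat_lit 228) (nat_lit 0) (XT.lf (nat_lit 0) (nat_lit 581983897) (nat_lit 304) (nat_lit 1345034771) (nat_lit 76) (nat_lit 7026222934) (nat_lit 53) (nat_lit 5) (nat_lit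 57) (nat_lit 5) (nat_lit 54) (nat_lit 5) (nat_lit 287) (nat_lit 252) (nat_lit 241)) (XT.lf (nat_lit 0) (nat_lit 3743605987) (nat_lit 304) (nat_lit 4489382430) (nat_lit 76) (nat_lit 938914901) (nat_lit 50) (nat_lit 5) (nat_lit 54) (nat_lit 5) (nat_lit 51) (nat_lit 4) (nat_lit 288) (nat_lit 252) (nat_lit 240))) (XT.nd (nat_lit 78) (nat_lit 304) (nat_lit 0) (XT.lf (nat_lit 0) (nat_lit 1513906619) (nat_lit 228) (nat_lit 5513159360) (nat_lit 304) (nat_lit 2376422556) (nat_lit 47) (nat_lit 5) (nat_lit 50) (nat_lit 5) (nat_lit 51) (nat_lit 4) (nat_lit 289) (nat_lit 252) (nat_lit 239)) (XT.nd (nat_lit 78) (nat_lit 228) (nat_lit 0) (XT.lf (nat_lit 0) (nat_lit 765197718) (nat_lit 304) (nat_lit 1845512193) (nat_lit 76) (nat_lit 7037275660) (nat_lit 46) (nat_lit 5) (nat_lit 50) (nat_lit 5) (nat_lit 47) (nat_lit 5) (nat_lit 290) (nat_lit 252) (nat_lit 238)) (XT.lf (nat_lit 0) (nat_lit 3953188235)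 (nat_lit 304) (nat_lit 5462502090) (nat_lit 76) (nat_lit 488765598) (nat_lit 43) (nat_lit 5) (nat_lit 47) (nat_lit 5) (nat_lit 44) (nat_lit 4) (nat_lit 291) (nat_lit 252) (nat_lit 237)))))) (XT.nd (nat_lit 390) (nat_lit 608) (nat_lit 0) (XT.nd (nat_lit 156) (nat_lit 380) (nat_lit 0) (XT.nd (nat_lit 78) (nat_lit 76) (nat_lit 0) (XT.lf (nat_lit 0) (nat_lit 760486251) (nat_lit 152) (nat_lit 6520387077) (nat_lit 228) (nat_lit 2894008365) (nat_lit 41) (nat_lit 5) (nat_lit 43) (nat_lit 5) (nat_lit 44) (nat_lit 4) (nat_lit 292) (nat_lit 252) (nat_lit 236)) (XT.lf (nat_lit 0) (nat_lit 294702188) (nat_lit 228) (nat_lit 3133702461) (nat_lit 76) (nat_lit 7030875052) (nat_lit 40) (nat_lit 5) (nat_lit 43) (nat_lit 5) (nat_lit 41) (nat_lit 5) (nat_lit 293) (nat_lit 252) (nat_lit 235))) (XT.nd (nat_lit 78) (nat_lit 152) (nat_lit 0) (XT.lf (nat_lit 0) (nat_lit 3371671249) (nat_lit 228) (nat_lit 126255082)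 (nat_lit 304) (nat_lit 7260109039) (nat_lit 37) (nat_lit 5) (nat_lit 40) (nat_lit 5) (nat_lit 41) (nat_lit 5) (nat_lit 294) (nat_lit 252) (nat_lit 234)) (XT.nd (nat_lit 78) (nat_lit 152) (nat_lit 0) (XT.lf (nat_lit 0) (nat_lit 6868810271) (nat_lit 304) (nat_lit 962646250) (nat_lit 76) (nat_lit 3240018021) (nat_lit 37) (nat_lit 5) (nat_lit 41) (nat_lit 5) (nat_lit 38) (nat_lit 4) (nat_lit 295) (nat_lit 252) (nat_lit 233)) (XT.lf (nat_lit 0) (nat_lit 5822105527) (nat_lit 152) (nat_lit 4585192883) (nat_lit 228) (nat_lit 993449169) (nat_lit 35) (nat_lit 5) (nat_lit 37) (nat_lit 5) (nat_lit 38) (nat_lit 4) (nat_lit 296) (nat_lit 252) (nat_lit 232))))) (XT.nd (nat_lit 156) (nat_lit 380) (nat_lit 0) (XT.nd (nat_lit 78) (nat_lit 0) (nat_lit 0) (XT.lf (nat_lit 0) (nat_lit 1085952642) (nat_lit 152) (nat_lit 1154480572) (nat_lit 228) (nat_lit 9507287266) (nat_lit 32) (nat_lit 5) (nat_lit 34) (nat_lit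 5) (nat_lit 35) (nat_lit 5) (nat_lit 297) (nat_lit 252) (nat_lit 231)) (XT.lf (nat_lit 0) (nat_lit 5645000694) (nat_lit 228) (nat_lit 4032697704) (nat_lit 76) (nat_lit 2431509715) (nat_lit 32) (nat_lit 5) (nat_lit 35) (nat_lit 5) (nat_lit 33) (nat_lit 4) (nat_lit 298) (nat_lit 252) (nat_lit 230))) (XT.nd (nat_lit 78) (nat_lit 228) (nat_lit 0) (XT.lf (nat_lit 0) (nat_lit 2860665775) (nat_lit 152) (nat_lit 6335229283) (nat_lit 228) (nat_lit 3294164679) (nat_lit 30) (nat_lit 5) (nat_lit 32) (nat_lit 5) (nat_lit 33) (nat_lit 4) (nat_lit 299) (nat_lit 252) (nat_lit 229)) (XT.nd (nat_lit 78) (nat_lit 152) (nat_lit 0) (XT.lf (nat_lit 0) (nat_lit 15735218) (nat_lit 228) (nat_lit 2789991660) (nat_lit 76) (nat_lit 10085163197) (nat_lit 29) (nat_lit 5) (nat_lit 32) (nat_lit 5) (nat_lit 30) (nat_lit 5) (nat_lit 300) (nat_lit 252) (nat_lit 228)) (XT.lf (nat_lit 0) (nat_lit 3380661224) (nat_lit 228)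 (nat_lit 8982592753) (nat_lit 76) (nat_lit 945877649) (nat_lit 27) (nat_lit 5) (nat_lit 30) (nat_lit 5) (nat_lit 28) (nat_lit 4) (nat_lit 301) (nat_lit 252) (nat_lit 227))))))))
noncomputable def xc82 : XT := (XT.nd (nat_lit 1560) (nat_lit 532) (nat_lit 0) (XT.nd (nat_lit 780) (nat_lit 456) (nat_lit 0) (XT.nd (nat_lit 390) (nat_lit 380) (nat_lit 0) (XT.nd (nat_lit 156) (nat_lit 228) (nat_lit 0) (XT.nd (nat_lit 78) (nat_lit 76) (nat_lit 0) (XT.lf (nat_lit 0) (nat_lit 6926130988) (nat_lit 228) (nat_lit 2031918183) (nat_lit 76) (nat_lit 4789698981) (nat_lit 27) (nat_lit 5) (nat_lit 30) (nat_lit 5) (nat_lit 28) (nat_lit 4) (nat_lit 302) (nat_lit 252) (nat_lit 226)) (XT.lf (nat_lit 0) (nat_lit 5307611145) (nat_lit 76) (nat_lit 5346298817) (nat_lit 152) (nat_lit 3554207826) (nat_lit 26) (nat_lit 5) (nat_lit 27) (nat_lit 5) (nat_lit 28) (nat_lit 4) (nat_lit 303) (nat_lit 252) (nat_lit 225)))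 (XT.nd (nat_lit 78) (nat_lit 228) (nat_lit 0) (XT.lf (nat_lit 0) (nat_lit 12958178356) (nat_lit 76) (nat_lit 1568211578) (nat_lit 152) (nat_lit 167270910) (nat_lit 26) (nat_lit 5) (nat_lit 27) (nat_lit 5) (nat_lit 28) (nat_lit 4) (nat_lit 304) (nat_lit 252) (nat_lit 224)) (XT.nd (nat_lit 78) (nat_lit 0) (nat_lit 0) (XT.lf (nat_lit 0) (nat_lit 3336363554) (nat_lit 228) (nat_lit 9441619150) (nat_lit 76) (nat_lit 2420125720) (nat_lit 23) (nat_lit 5) (nat_lit 26) (nat_lit 5) (nat_lit 24) (nat_lit 4) (nat_lit 305) (nat_lit 252) (nat_lit 223)) (XT.lf (nat_lit 0) (nat_lit 6992270028) (nat_lit 228) (nat_lit 2195810561) (nat_lit 76) (nat_lit 6540486039) (nat_lit 23) (nat_lit 5) (nat_lit 26) (nat_lit 5) (nat_lit 24) (nat_lit 4) (nat_lit 306) (nat_lit 252) (nat_lit 222))))) (XT.nd (nat_lit 156) (nat_lit 304) (nat_lit 0) (XT.nd (nat_lit 78) (nat_lit 0) (nat_lit 0) (XT.lf (nat_lit 0) (nat_lit 5469360194)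 (nat_lit 76) (nat_lit 5377603898) (nat_lit 152) (nat_lit 5437842070) (nat_lit 22) (nat_lit 5) (nat_lit 23) (nat_lit 5) (nat_lit 24) (nat_lit 4) (nat_lit 307) (nat_lit 252) (nat_lit 221)) (XT.lf (nat_lit 0) (nat_lit 13477944062) (nat_lit 76) (nat_lit 1385728574) (nat_lit 152) (nat_lit 2006776322) (nat_lit 22) (nat_lit 5) (nat_lit 23) (nat_lit 5) (nat_lit 24) (nat_lit 4) (nat_lit 308) (nat_lit 252) (nat_lit 220))) (XT.nd (nat_lit 78) (nat_lit 76) (nat_lit 0) (XT.lf (nat_lit 0) (nat_lit 1592361046) (nat_lit 228) (nat_lit 13123762105) (nat_lit 76) (nat_lit 2765675332) (nat_lit 19) (nat_lit 5) (nat_lit 22) (nat_lit 5) (nat_lit 20) (nat_lit 4) (nat_lit 309) (nat_lit 252) (nat_lit 219)) (XT.nd (nat_lit 78) (nat_lit 76) (nat_lit 0) (XT.lf (nat_lit 0) (nat_lit 5320015154) (nat_lit 228) (nat_lit 5677012244) (nat_lit 76) (nat_lit 7124290896) (nat_lit 19) (nat_lit 5) (nat_lit 22) (nat_lit 5) (nat_lit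 20) (nat_lit 4) (nat_lit 310) (nat_lit 252) (nat_lit 218)) (XT.lf (nat_lit 0) (nat_lit 2101234818) (nat_lit 76) (nat_lit 7103612148) (nat_lit 152) (nat_lit 9589472853) (nat_lit 18) (nat_lit 5) (nat_lit 19) (nat_lit 5) (nat_lit 20) (nat_lit 4) (nat_lit 311) (nat_lit 252) (nat_lit 217)))))) (XT.nd (nat_lit 390) (nat_lit 152) (nat_lit 0) (XT.nd (nat_lit 156) (nat_lit 304) (nat_lit 0) (XT.nd (nat_lit 78) (nat_lit 0) (nat_lit 0) (XT.lf (nat_lit 0) (nat_lit 10359137788) (nat_lit 76) (nat_lit 2960206866) (nat_lit 152) (nat_lit 6179898859) (nat_lit 18) (nat_lit 5) (nat_lit 19) (nat_lit 5) (nat_lit 20) (nat_lit 4) (nat_lit 312) (nat_lit 252) (nat_lit 216)) (XT.lf (nat_lit 0) (nat_lit 17602768976) (nat_lit 152) (nat_lit 1334724377) (nat_lit 0) (nat_lit 1303801194) (nat_lit 18) (nat_lit 5) (nat_lit 20) (nat_lit 4) (nat_lit 18) (nat_lit 4) (nat_lit 313) (nat_lit 252) (nat_lit 215))) (XT.nd (nat_lit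 78) (nat_lit 76) (nat_lit 0) (XT.lf (nat_lit 0) (nat_lit 1148066678) (nat_lit 228) (nat_lit 14098172513) (nat_lit 76) (nat_lit 5768267608) (nat_lit 15) (nat_lit 5) (nat_lit 18) (nat_lit 5) (nat_lit 16) (nat_lit 4) (nat_lit 314) (nat_lit 252) (nat_lit 214)) (XT.nd (nat_lit 78) (nat_lit 76) (nat_lit 0) (XT.lf (nat_lit 0) (nat_lit 5002779341) (nat_lit 228) (nat_lit 6341479574) (nat_lit 76) (nat_lit 10481620522) (nat_lit 15) (nat_lit 5) (nat_lit 18) (nat_lit 5) (nat_lit 16) (nat_lit 4) (nat_lit 315) (nat_lit 252) (nat_lit 213)) (XT.lf (nat_lit 0) (nat_lit 1765370372) (nat_lit 76) (nat_lit 7259550881) (nat_lit 152) (nat_lit 13654198706) (nat_lit 14) (nat_lit 5) (nat_lit 15) (nat_lit 5) (nat_lit 16) (nat_lit 4) (nat_lit 316) (nat_lit 252) (nat_lit 212))))) (XT.nd (nat_lit 156) (nat_lit 152) (nat_lit 0) (XT.nd (nat_lit 78) (nat_lit 0) (nat_lit 0) (XT.lf (nat_lit 0) (nat_lit 10405063191) (nat_lit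 76) (nat_lit 2898705185) (nat_lit 152) (nat_lit 10268506541) (nat_lit 14) (nat_lit 5) (nat_lit 15) (nat_lit 5) (nat_lit 16) (nat_lit 4) (nat_lit 317) (nat_lit 252) (nat_lit 211)) (XT.lf (nat_lit 0) (nat_lit 17772851262) (nat_lit 152) (nat_lit 5149718088) (nat_lit 0) (nat_lit 1588734379) (nat_lit 14) (nat_lit 5) (nat_lit 16) (nat_lit 4) (nat_lit 14) (nat_lit 4) (nat_lit 318) (nat_lit 252) (nat_lit 210))) (XT.nd (nat_lit 78) (nat_lit 76) (nat_lit 0) (XT.lf (nat_lit 0) (nat_lit 3238950690) (nat_lit 76) (nat_lit 19276965545) (nat_lit 76) (nat_lit 2978870662) (nat_lit 13) (nat_lit 4) (nat_lit 14) (nat_lit 5) (nat_lit 14) (nat_lit 4) (nat_lit 319) (nat_lit 252) (nat_lit 209)) (XT.nd (nat_lit 78) (nat_lit 0) (nat_lit 0) (XT.lf (nat_lit 0) (nat_lit 978922795) (nat_lit 152) (nat_lit 14399853629) (nat_lit 76) (nat_lit 11145876352) (nat_lit 12) (nat_lit 5) (nat_lit 14) (nat_lit 5) (nat_lit 13)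 (nat_lit 4) (nat_lit 320) (nat_lit 252) (nat_lit 208)) (XT.lf (nat_lit 0) (nat_lit 4989347776) (nat_lit 152) (nat_lit 6281863824) (nat_lit 76) (nat_lit 16334641400) (nat_lit 12) (nat_lit 5) (nat_lit 14) (nat_lit 5) (nat_lit 13) (nat_lit 4) (nat_lit 321) (nat_lit 252) (nat_lit 207))))))) (XT.nd (nat_lit 780) (nat_lit 228) (nat_lit 0) (XT.nd (nat_lit 390) (nat_lit 152) (nat_lit 0) (XT.nd (nat_lit 156) (nat_lit 76) (nat_lit 0) (XT.nd (nat_lit 78) (nat_lit 0) (nat_lit 0) (XT.lf (nat_lit 0) (nat_lit 2235520902) (nat_lit 76) (nat_lit 6956677220) (nat_lit 152) (nat_lit 19549344023) (nat_lit 11) (nat_lit 5) (nat_lit 12) (nat_lit 5) (nat_lit 13) (nat_lit 4) (nat_lit 322) (nat_lit 252) (nat_lit 206)) (XT.lf (nat_lit 0) (nat_lit 11320070749) (nat_lit 76) (nat_lit 2349356559) (nat_lit 152) (nat_lit 16261399589) (nat_lit 11) (nat_lit 5) (nat_lit 12) (nat_lit 5) (nat_lit 13) (nat_lit 4) (nat_lit 323)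 (nat_lit 252) (nat_lit 205))) (XT.nd (nat_lit 78) (nat_lit 76) (nat_lit 0) (XT.lf (nat_lit 0) (nat_lit 18368709661) (nat_lit 152) (nat_lit 10434230738) (nat_lit 0) (nat_lit 2376747775) (nat_lit 11) (nat_lit 5) (nat_lit 13) (nat_lit 4) (nat_lit 11) (nat_lit 4) (nat_lit 324) (nat_lit 252) (nat_lit 204)) (XT.nd (nat_lit 78) (nat_lit 76) (nat_lit 0) (XT.lf (nat_lit 0) (nat_lit 23302748173) (nat_lit 152) (nat_lit 1958491321) (nat_lit 0) (nat_lit 7229784250) (nat_lit 11) (nat_lit 5) (nat_lit 13) (nat_lit 4) (nat_lit 11) (nat_lit 4) (nat_lit 325) (nat_lit 252) (nat_lit 203)) (XT.lf (nat_lit 0) (nat_lit 7100585555) (nat_lit 76) (nat_lit 21456884999) (nat_lit 76) (nat_lit 5306776279) (nat_lit 10) (nat_lit 4) (nat_lit 11) (nat_lit 5) (nat_lit 11) (nat_lit 4) (nat_lit 326) (nat_lit 252) (nat_lit 202))))) (XT.nd (nat_lit 156) (nat_lit 76) (nat_lit 0) (XT.nd (nat_lit 78) (nat_lit 76) (nat_lit 0)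 (XT.lf (nat_lit 0) (nat_lit 16613990219) (nat_lit 76) (nat_lit 17457944708) (nat_lit 76) (nat_lit 1234364752) (nat_lit 10) (nat_lit 4) (nat_lit 11) (nat_lit 5) (nat_lit 11) (nat_lit 4) (nat_lit 327) (nat_lit 252) (nat_lit 201)) (XT.lf (nat_lit 0) (nat_lit 2909292867) (nat_lit 152) (nat_lit 10329502183) (nat_lit 76) (nat_lit 23581053914) (nat_lit 9) (nat_lit 5) (nat_lit 11) (nat_lit 5) (nat_lit 10) (nat_lit 4) (nat_lit 328) (nat_lit 252) (nat_lit 200))) (XT.nd (nat_lit 78) (nat_lit 76) (nat_lit 0) (XT.lf (nat_lit 0) (nat_lit 7185296206) (nat_lit 152) (nat_lit 1630335913) (nat_lit 76) (nat_lit 29594115861) (nat_lit 9) (nat_lit 5) (nat_lit 11) (nat_lit 5) (nat_lit 10) (nat_lit 4) (nat_lit 329) (nat_lit 252) (nat_lit 199)) (XT.nd (nat_lit 78) (nat_lit 0) (nat_lit 0) (XT.lf (nat_lit 0) (nat_lit 7691344601) (nat_lit 76) (nat_lit 4072072449) (nat_lit 152) (nat_lit 28311324576) (nat_lit 8) (nat_lit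 5) (nat_lit 9) (nat_lit 5) (nat_lit 10) (nat_lit 4) (nat_lit 330) (nat_lit 252) (nat_lit 198)) (XT.lf (nat_lit 0) (nat_lit 16581126099) (nat_lit 152) (nat_lit 24359361377) (nat_lit 0) (nat_lit 881978174) (nat_lit 8) (nat_lit 5) (nat_lit 10) (nat_lit 4) (nat_lit 8) (nat_lit 4) (nat_lit 331) (nat_lit 252) (nat_lit 197)))))) (XT.nd (nat_lit 390) (nat_lit 152) (nat_lit 0) (XT.nd (nat_lit 156) (nat_lit 76) (nat_lit 0) (XT.nd (nat_lit 78) (nat_lit 0) (nat_lit 0) (XT.lf (nat_lit 0) (nat_lit 21676411306) (nat_lit 152) (nat_lit 16056906119) (nat_lit 0) (nat_lit 5922438014) (nat_lit 8) (nat_lit 5) (nat_lit 10) (nat_lit 4) (nat_lit 8) (nat_lit 4) (nat_lit 332) (nat_lit 252) (nat_lit 196)) (XT.lf (nat_lit 0) (nat_lit 26997827841) (nat_lit 152) (nat_lit 7392687037) (nat_lit 0) (nat_lit 11191639914) (nat_lit 8) (nat_lit 5) (nat_lit 10) (nat_lit 4) (nat_lit 8) (nat_lit 4) (nat_lit 333) (nat_lit 252)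 (nat_lit 195))) (XT.nd (nat_lit 78) (nat_lit 0) (nat_lit 0) (XT.lf (nat_lit 0) (nat_lit 1708611189) (nat_lit 76) (nat_lit 30876110764) (nat_lit 76) (nat_lit 15020194612) (nat_lit 7) (nat_lit 4) (nat_lit 8) (nat_lit 5) (nat_lit 8) (nat_lit 4) (nat_lit 334) (nat_lit 252) (nat_lit 194)) (XT.nd (nat_lit 78) (nat_lit 0) (nat_lit 0) (XT.lf (nat_lit 0) (nat_lit 11471633336) (nat_lit 76) (nat_lit 27077774637) (nat_lit 76) (nat_lit 11174498272) (nat_lit 7) (nat_lit 4) (nat_lit 8) (nat_lit 5) (nat_lit 8) (nat_lit 4) (nat_lit 335) (nat_lit 252) (nat_lit 193)) (XT.lf (nat_lit 0) (nat_lit 21675189074) (nat_lit 76) (nat_lit 23111661573) (nat_lit 76) (nat_lit 7163280243) (nat_lit 7) (nat_lit 4) (nat_lit 8) (nat_lit 5) (nat_lit 8) (nat_lit 4) (nat_lit 336) (nat_lit 252) (nat_lit 192))))) (XT.nd (nat_lit 156) (nat_lit 76) (nat_lit 0) (XT.nd (nat_lit 78) (nat_lit 76) (nat_lit 0) (XT.lf (nat_lit 0) (nat_lit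 32343572584) (nat_lit 76) (nat_lit 18968328447) (nat_lit 76) (nat_lit 2976990006) (nat_lit 7) (nat_lit 4) (nat_lit 8) (nat_lit 5) (nat_lit 8) (nat_lit 4) (nat_lit 337) (nat_lit 252) (nat_lit 191)) (XT.lf (nat_lit 0) (nat_lit 1349712213) (nat_lit 152) (nat_lit 13265339935) (nat_lit 76) (nat_lit 42129614535) (nat_lit 6) (nat_lit 5) (nat_lit 8) (nat_lit 5) (nat_lit 7) (nat_lit 4) (nat_lit 338) (nat_lit 252) (nat_lit 190))) (XT.nd (nat_lit 78) (nat_lit 76) (nat_lit 0) (XT.lf (nat_lit 0) (nat_lit 5770324115) (nat_lit 152) (nat_lit 4242048901) (nat_lit 76) (nat_lit 49309546436) (nat_lit 6) (nat_lit 5) (nat_lit 8) (nat_lit 5) (nat_lit 7) (nat_lit 4) (nat_lit 339) (nat_lit 252) (nat_lit 189)) (XT.nd (nat_lit 78) (nat_lit 0) (nat_lit 0) (XT.lf (nat_lit 0) (nat_lit 5364205920) (nat_lit 76) (nat_lit 5110197604) (nat_lit 152) (nat_lit 51550518577) (nat_lit 5) (nat_lit 5) (nat_lit 6) (nat_lit 5)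 (nat_lit 7) (nat_lit 4) (nat_lit 340) (nat_lit 252) (nat_lit 188)) (XT.lf (nat_lit 0) (nat_lit 15466087369) (nat_lit 152) (nat_lit 49303205183) (nat_lit 0) (nat_lit 91170964) (nat_lit 5) (nat_lit 5) (nat_lit 7) (nat_lit 4) (nat_lit 5) (nat_lit 4) (nat_lit 341) (nat_lit 252) (nat_lit 187))))))))
noncomputable def xc83 : XT := (XT.nd (nat_lit 1560) (nat_lit 76) (nat_lit 0) (XT.nd (nat_lit 780) (nat_lit 152) (nat_lit 0) (XT.nd (nat_lit 390) (nat_lit 76) (nat_lit 0) (XT.nd (nat_lit 156) (nat_lit 0) (nat_lit 0) (XT.nd (nat_lit 78) (nat_lit 0) (nat_lit 0) (XT.lf (nat_lit 0) (nat_lit 20770941104) (nat_lit 152) (nat_lit 41699700413) (nat_lit 0) (nat_lit 5363969442) (nat_lit 5) (nat_lit 5) (nat_lit 7) (nat_lit 4) (nat_lit 5) (nat_lit 4) (nat_lit 342) (nat_lit 252) (nat_lit 186)) (XT.lf (nat_lit 0) (nat_lit 26321810828) (nat_lit 152) (nat_lit 33752313784) (nat_lit 0) (nat_lit 10884310350) (nat_lit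 5) (nat_lit 5) (nat_lit 7) (nat_lit 4) (nat_lit 5) (nat_lit 4) (nat_lit 343) (nat_lit 252) (nat_lit 185))) (XT.nd (nat_lit 78) (nat_lit 0) (nat_lit 0) (XT.lf (nat_lit 0) (nat_lit 32131912896) (nat_lit 152) (nat_lit 25442122946) (nat_lit 0) (nat_lit 16665337356) (nat_lit 5) (nat_lit 5) (nat_lit 7) (nat_lit 4) (nat_lit 5) (nat_lit 4) (nat_lit 344) (nat_lit 252) (nat_lit 184)) (XT.nd (nat_lit 78) (nat_lit 0) (nat_lit 0) (XT.lf (nat_lit 0) (nat_lit 38215080887) (nat_lit 152) (nat_lit 16749341730) (nat_lit 0) (nat_lit 22720814810) (nat_lit 5) (nat_lit 5) (nat_lit 7) (nat_lit 4) (nat_lit 5) (nat_lit 4) (nat_lit 345) (nat_lit 252) (nat_lit 183)) (XT.lf (nat_lit 0) (nat_lit 44585798532) (nat_lit 152) (nat_lit 7653273038) (nat_lit 0) (nat_lit 29065160516) (nat_lit 5) (nat_lit 5) (nat_lit 7) (nat_lit 4) (nat_lit 5) (nat_lit 4) (nat_lit 346) (nat_lit 252) (nat_lit 182))))) (XT.nd (nat_lit 156)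 (nat_lit 0) (nat_lit 0) (XT.nd (nat_lit 78) (nat_lit 0) (nat_lit 0) (XT.lf (nat_lit 0) (nat_lit 1929496369) (nat_lit 76) (nat_lit 49359862683) (nat_lit 76) (nat_lit 33814108535) (nat_lit 4) (nat_lit 4) (nat_lit 5) (nat_lit 5) (nat_lit 5) (nat_lit 4) (nat_lit 347) (nat_lit 252) (nat_lit 181)) (XT.lf (nat_lit 0) (nat_lit 12227731544) (nat_lit 76) (nat_lit 46214454658) (nat_lit 76) (nat_lit 30644780383) (nat_lit 4) (nat_lit 4) (nat_lit 5) (nat_lit 5) (nat_lit 5) (nat_lit 4) (nat_lit 348) (nat_lit 252) (nat_lit 180))) (XT.nd (nat_lit 78) (nat_lit 0) (nat_lit 0) (XT.lf (nat_lit 0) (nat_lit 23012900324) (nat_lit 76) (nat_lit 42924970309) (nat_lit 76) (nat_lit 27332514962) (nat_lit 4) (nat_lit 4) (nat_lit 5) (nat_lit 5) (nat_lit 5) (nat_lit 4) (nat_lit 349) (nat_lit 252) (nat_lit 179)) (XT.nd (nat_lit 78) (nat_lit 0) (nat_lit 0) (XT.lf (nat_lit 0) (nat_lit 34310681683) (nat_lit 76) (nat_lit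 39483577531) (nat_lit 76) (nat_lit 23869425925) (nat_lit 4) (nat_lit 4) (nat_lit 5) (nat_lit 5) (nat_lit 5) (nat_lit 4) (nat_lit 350) (nat_lit 252) (nat_lit 178)) (XT.lf (nat_lit 0) (nat_lit 46147975099) (nat_lit 76) (nat_lit 35882082533) (nat_lit 76) (nat_lit 20247267822) (nat_lit 4) (nat_lit 4) (nat_lit 5) (nat_lit 5) (nat_lit 5) (nat_lit 4) (nat_lit 351) (nat_lit 252) (nat_lit 177)))))) (XT.nd (nat_lit 390) (nat_lit 76) (nat_lit 0) (XT.nd (nat_lit 156) (nat_lit 76) (nat_lit 0) (XT.nd (nat_lit 78) (nat_lit 0) (nat_lit 0) (XT.lf (nat_lit 0) (nat_lit 58552964606) (nat_lit 76) (nat_lit 32111910324) (nat_lit 76) (nat_lit 16457416467) (nat_lit 4) (nat_lit 4) (nat_lit 5) (nat_lit 5) (nat_lit 5) (nat_lit 4) (nat_lit 352) (nat_lit 252) (nat_lit 176)) (XT.lf (nat_lit 0) (nat_lit 71555185891) (nat_lit 76) (nat_lit 28164084307) (nat_lit 76) (nat_lit 12490848404) (nat_lit 4) (nat_lit 4) (nat_lit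 5) (nat_lit 5) (nat_lit 5) (nat_lit 4) (nat_lit 353) (nat_lit 252) (nat_lit 175))) (XT.nd (nat_lit 78) (nat_lit 76) (nat_lit 0) (XT.lf (nat_lit 0) (nat_lit 85185596626) (nat_lit 76) (nat_lit 24029204893) (nat_lit 76) (nat_lit 8338119424) (nat_lit 4) (nat_lit 4) (nat_lit 5) (nat_lit 5) (nat_lit 5) (nat_lit 4) (nat_lit 354) (nat_lit 252) (nat_lit 174)) (XT.nd (nat_lit 78) (nat_lit 76) (nat_lit 0) (XT.lf (nat_lit 0) (nat_lit 99476650168) (nat_lit 76) (nat_lit 19697427133) (nat_lit 76) (nat_lit 3989342077) (nat_lit 4) (nat_lit 4) (nat_lit 5) (nat_lit 5) (nat_lit 5) (nat_lit 4) (nat_lit 355) (nat_lit 252) (nat_lit 173)) (XT.lf (nat_lit 0) (nat_lit 547727522) (nat_lit 152) (nat_lit 14601433717) (nat_lit 76) (nat_lit 113905369282) (nat_lit 3) (nat_lit 5) (nat_lit 5) (nat_lit 5) (nat_lit 4) (nat_lit 4) (nat_lit 356) (nat_lit 252) (nat_lit 172))))) (XT.nd (nat_lit 156) (nat_lit 0) (nat_lit 0)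 (XT.nd (nat_lit 78) (nat_lit 76) (nat_lit 0) (XT.lf (nat_lit 0) (nat_lit 5167408226) (nat_lit 152) (nat_lit 5146507400) (nat_lit 76) (nat_lit 124923524136) (nat_lit 3) (nat_lit 5) (nat_lit 5) (nat_lit 5) (nat_lit 4) (nat_lit 4) (nat_lit 357) (nat_lit 252) (nat_lit 171)) (XT.lf (nat_lit 0) (nat_lit 4920286164) (nat_lit 76) (nat_lit 5164916426) (nat_lit 152) (nat_lit 131640938989) (nat_lit 2) (nat_lit 5) (nat_lit 3) (nat_lit 5) (nat_lit 4) (nat_lit 4) (nat_lit 358) (nat_lit 252) (nat_lit 170))) (XT.nd (nat_lit 78) (nat_lit 0) (nat_lit 0) (XT.lf (nat_lit 0) (nat_lit 15331601149) (nat_lit 152) (nat_lit 132889434129) (nat_lit 0) (nat_lit 314110911) (nat_lit 2) (nat_lit 5) (nat_lit 4) (nat_lit 4) (nat_lit 2) (nat_lit 4) (nat_lit 359) (nat_lit 252) (nat_lit 169)) (XT.nd (nat_lit 78) (nat_lit 0) (nat_lit 0) (XT.lf (nat_lit 0) (nat_lit 20915805683) (nat_lit 152) (nat_lit 128879394216) (nat_lit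 0) (nat_lit 5885630091) (nat_lit 2) (nat_lit 5) (nat_lit 4) (nat_lit 4) (nat_lit 2) (nat_lit 4) (nat_lit 360) (nat_lit 252) (nat_lit 168)) (XT.lf (nat_lit 0) (nat_lit 26770473097) (nat_lit 152) (nat_lit 124685549142) (nat_lit 0) (nat_lit 11728216216) (nat_lit 2) (nat_lit 5) (nat_lit 4) (nat_lit 4) (nat_lit 2) (nat_lit 4) (nat_lit 361) (nat_lit 252) (nat_lit 167))))))) (XT.nd (nat_lit 780) (nat_lit 76) (nat_lit 0) (XT.nd (nat_lit 390) (nat_lit 0) (nat_lit 0) (XT.nd (nat_lit 156) (nat_lit 0) (nat_lit 0) (XT.nd (nat_lit 78) (nat_lit 0) (nat_lit 0) (XT.lf (nat_lit 0) (nat_lit 32909543076) (nat_lit 152) (nat_lit 120297913562) (nat_lit 0) (nat_lit 17855780205) (nat_lit 2) (nat_lit 5) (nat_lit 4) (nat_lit 4) (nat_lit 2) (nat_lit 4) (nat_lit 362) (nat_lit 252) (nat_lit 166)) (XT.lf (nat_lit 0) (nat_lit 39347632452) (nat_lit 152) (nat_lit 115706040725) (nat_lit 0) (nat_lit 24282911496) (nat_lit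 2) (nat_lit 5) (nat_lit 4) (nat_lit 4) (nat_lit 2) (nat_lit 4) (nat_lit 363) (nat_lit 252) (nat_lit 165))) (XT.nd (nat_lit 78) (nat_lit 0) (nat_lit 0) (XT.lf (nat_lit 0) (nat_lit 46100070011) (nat_lit 152) (nat_lit 110898997599) (nat_lit 0) (nat_lit 31024912783) (nat_lit 2) (nat_lit 5) (nat_lit 4) (nat_lit 4) (nat_lit 2) (nat_lit 4) (nat_lit 364) (nat_lit 252) (nat_lit 164)) (XT.nd (nat_lit 78) (nat_lit 0) (nat_lit 0) (XT.lf (nat_lit 0) (nat_lit 53182932983) (nat_lit 152) (nat_lit 105865338845) (nat_lit 0) (nat_lit 38097836449) (nat_lit 2) (nat_lit 5) (nat_lit 4) (nat_lit 4) (nat_lit 2) (nat_lit 4) (nat_lit 365) (nat_lit 252) (nat_lit 163)) (XT.lf (nat_lit 0) (nat_lit 60613085330) (nat_lit 152) (nat_lit 100593079560) (nat_lit 0) (nat_lit 45518522790) (nat_lit 2) (nat_lit 5) (nat_lit 4) (nat_lit 4) (nat_lit 2) (nat_lit 4) (nat_lit 366) (nat_lit 252) (nat_lit 162))))) (XT.nd (nat_lit 156)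 (nat_lit 0) (nat_lit 0) (XT.nd (nat_lit 78) (nat_lit 0) (nat_lit 0) (XT.lf (nat_lit 0) (nat_lit 68408217889) (nat_lit 152) (nat_lit 95069666747) (nat_lit 0) (nat_lit 53304640105) (nat_lit 2) (nat_lit 5) (nat_lit 4) (nat_lit 4) (nat_lit 2) (nat_lit 4) (nat_lit 367) (nat_lit 252) (nat_lit 161)) (XT.lf (nat_lit 0) (nat_lit 76586890501) (nat_lit 152) (nat_lit 89281949421) (nat_lit 0) (nat_lit 61474726770) (nat_lit 2) (nat_lit 5) (nat_lit 4) (nat_lit 4) (nat_lit 2) (nat_lit 4) (nat_lit 368) (nat_lit 252) (nat_lit 160))) (XT.nd (nat_lit 78) (nat_lit 0) (nat_lit 0) (XT.lf (nat_lit 0) (nat_lit 85168576194) (nat_lit 152) (nat_lit 83216147305) (nat_lit 0) (nat_lit 70048235371) (nat_lit 2) (nat_lit 5) (nat_lit 4) (nat_lit 4) (nat_lit 2) (nat_lit 4) (nat_lit 369) (nat_lit 252) (nat_lit 159)) (XT.nd (nat_lit 78) (nat_lit 0) (nat_lit 0) (XT.lf (nat_lit 0) (nat_lit 94173707555) (nat_lit 152) (nat_lit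 76857818011) (nat_lit 0) (nat_lit 79045579026) (nat_lit 2) (nat_lit 5) (nat_lit 4) (nat_lit 4) (nat_lit 2) (nat_lit 4) (nat_lit 370) (nat_lit 252) (nat_lit 158)) (XT.lf (nat_lit 0) (nat_lit 103623725372) (nat_lit 152) (nat_lit 70191822661) (nat_lit 0) (nat_lit 88488179979) (nat_lit 2) (nat_lit 5) (nat_lit 4) (nat_lit 4) (nat_lit 2) (nat_lit 4) (nat_lit 371) (nat_lit 252) (nat_lit 157)))))) (XT.nd (nat_lit 390) (nat_lit 76) (nat_lit 0) (XT.nd (nat_lit 156) (nat_lit 0) (nat_lit 0) (XT.nd (nat_lit 78) (nat_lit 0) (nat_lit 0) (XT.lf (nat_lit 0) (nat_lit 113541129688) (nat_lit 152) (nat_lit 63202289837) (nat_lit 0) (nat_lit 98398520615) (nat_lit 2) (nat_lit 5) (nat_lit 4) (nat_lit 4) (nat_lit 2) (nat_lit 4) (nat_lit 372) (nat_lit 252) (nat_lit 156)) (XT.lf (nat_lit 0) (nat_lit 123949533369) (nat_lit 152) (nat_lit 55872577795) (nat_lit 0) (nat_lit 108800196983) (nat_lit 2) (nat_lit 5) (nat_lit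 4) (nat_lit 4) (nat_lit 2) (nat_lit 4) (nat_lit 373) (nat_lit 252) (nat_lit 155))) (XT.nd (nat_lit 78) (nat_lit 0) (nat_lit 0) (XT.lf (nat_lit 0) (nat_lit 134873718330) (nat_lit 152) (nat_lit 48185234838) (nat_lit 0) (nat_lit 119717974978) (nat_lit 2) (nat_lit 5) (nat_lit 4) (nat_lit 4) (nat_lit 2) (nat_lit 4) (nat_lit 374) (nat_lit 252) (nat_lit 154)) (XT.nd (nat_lit 78) (nat_lit 0) (nat_lit 0) (XT.lf (nat_lit 0) (nat_lit 146339694535) (nat_lit 152) (nat_lit 40121957770) (nat_lit 0) (nat_lit 131177849311) (nat_lit 2) (nat_lit 5) (nat_lit 4) (nat_lit 4) (nat_lit 2) (nat_lit 4) (nat_lit 375) (nat_lit 252) (nat_lit 153)) (XT.lf (nat_lit 0) (nat_lit 158374761926) (nat_lit 152) (nat_lit 31663548312) (nat_lit 0) (nat_lit 143207105396) (nat_lit 2) (nat_lit 5) (nat_lit 4) (nat_lit 4) (nat_lit 2) (nat_lit 4) (nat_lit 376) (nat_lit 252) (nat_lit 152))))) (XT.nd (nat_lit 234) (nat_lit 76) (nat_lit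 0) (XT.nd (nat_lit 78) (nat_lit 0) (nat_lit 0) (XT.lf (nat_lit 0) (nat_lit 171007575427) (nat_lit 152) (nat_lit 22789867393) (nat_lit 0) (nat_lit 155834384319) (nat_lit 2) (nat_lit 5) (nat_lit 4) (nat_lit 4) (nat_lit 2) (nat_lit 4) (nat_lit 377) (nat_lit 252) (nat_lit 151)) (XT.nd (nat_lit 78) (nat_lit 0) (nat_lit 0) (XT.lf (nat_lit 0) (nat_lit 184268213165) (nat_lit 152) (nat_lit 13479787202) (nat_lit 0) (nat_lit 169089751030) (nat_lit 2) (nat_lit 5) (nat_lit 4) (nat_lit 4) (nat_lit 2) (nat_lit 4) (nat_lit 378) (nat_lit 252) (nat_lit 150)) (XT.lf (nat_lit 0) (nat_lit 198188248087) (nat_lit 152) (nat_lit 3711140882) (nat_lit 0) (nat_lit 183004765927) (nat_lit 2) (nat_lit 5) (nat_lit 4) (nat_lit 4) (nat_lit 2) (nat_lit 4) (nat_lit 379) (nat_lit 252) (nat_lit 149)))) (XT.nd (nat_lit 78) (nat_lit 0) (nat_lit 0) (XT.lf (nat_lit 0) (nat_lit 6755550040) (nat_lit 76) (nat_lit 206150746161)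 (nat_lit 76) (nat_lit 190962483024) (nat_lit 1) (nat_lit 4) (nat_lit 2) (nat_lit 5) (nat_lit 2) (nat_lit 4) (nat_lit 380) (nat_lit 252) (nat_lit 148)) (XT.nd (nat_lit 78) (nat_lit 0) (nat_lit 0) (XT.lf (nat_lit 0) (nat_lit 17867917008) (nat_lit 76) (nat_lit 210551781398) (nat_lit 76) (nat_lit 195358964951) (nat_lit 1) (nat_lit 4) (nat_lit 2) (nat_lit 5) (nat_lit 2) (nat_lit 4) (nat_lit 381) (nat_lit 252) (nat_lit 147)) (XT.lf (nat_lit 0) (nat_lit 29529710961) (nat_lit 76) (nat_lit 215175823304) (nat_lit 76) (nat_lit 199978670370) (nat_lit 1) (nat_lit 4) (nat_lit 2) (nat_lit 5) (nat_lit 2) (nat_lit 4) (nat_lit 382) (nat_lit 252) (nat_lit 146))))))))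
noncomputable def xc84 : XT := (XT.nd (nat_lit 33228) (nat_lit 0) (nat_lit 1596) (XT.nd (nat_lit 32448) (nat_lit 0) (nat_lit 3952) (XT.nd (nat_lit 390) (nat_lit 0) (nat_lit 0) (XT.nd (nat_lit 156) (nat_lit 0) (nat_lit 0) (XT.nd (nat_lit 78) (nat_lit 0) (nat_lit 0) (XT.lf (nat_lit 0) (nat_lit 41768698075) (nat_lit 76) (nat_lit 220033881501) (nat_lit 76) (nat_lit 204832598580) (nat_lit 1) (nat_lit 4) (nat_lit 2) (nat_lit 5) (nat_lit 2) (nat_lit 4) (nat_lit 383) (nat_lit 252) (nat_lit 145)) (XT.lf (nat_lit 0) (nat_lit 54614018794) (nat_lit 76) (nat_lit 225137522794) (nat_lit 76) (nat_lit 209932306552) (nat_lit 1) (nat_lit 4) (nat_lit 2) (nat_lit 5) (nat_lit 2) (nat_lit 4) (nat_lit 384) (nat_lit 252) (nat_lit 144))) (XT.nd (nat_lit 78) (nat_lit 0) (nat_lit 0) (XT.lf (nat_lit 0) (nat_lit 68096257218) (nat_lit 76) (nat_lit 230498898711) (nat_lit 76) (nat_lit 215289936449) (nat_lit 1) (nat_lit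 4) (nat_lit 2) (nat_lit 5) (nat_lit 2) (nat_lit 4) (nat_lit 385) (nat_lit 252) (nat_lit 143)) (XT.nd (nat_lit 78) (nat_lit 0) (nat_lit 0) (XT.lf (nat_lit 0) (nat_lit 82247513911) (nat_lit 76) (nat_lit 236130774433) (nat_lit 76) (nat_lit 220918244532) (nat_lit 1) (nat_lit 4) (nat_lit 2) (nat_lit 5) (nat_lit 2) (nat_lit 4) (nat_lit 386) (nat_lit 252) (nat_lit 142)) (XT.lf (nat_lit 0) (nat_lit 97101482345) (nat_lit 76) (nat_lit 242046559186) (nat_lit 76) (nat_lit 226830631536) (nat_lit 1) (nat_lit 4) (nat_lit 2) (nat_lit 5) (nat_lit 2) (nat_lit 4) (nat_lit 387) (nat_lit 252) (nat_lit 141))))) (XT.nd (nat_lit 31824) (nat_lit 0) (nat_lit 6080) (XT.nd (nat_lit 31746) (nat_lit 0) (nat_lit 7372) (XT.lf (nat_lit 0) (nat_lit 112693529108) (nat_lit 76) (nat_lit 248260338174) (nat_lit 76) (nat_lit 233041174570) (nat_lit 1) (nat_lit 4) (nat_lit 2) (nat_lit 5) (nat_lit 2) (nat_lit 4) (nat_lit 388)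 (nat_lit 252) (nat_lit 140)) (XT.lf (nat_lit 0) (nat_lit 18815765) (nat_lit 684) (nat_lit 3487395403) (nat_lit 0) (nat_lit 18815765) (nat_lit 98) (nat_lit 5) (nat_lit 107) (nat_lit 4) (nat_lit 98) (nat_lit 4) (nat_lit 274) (nat_lit 253) (nat_lit 253))) (XT.nd (nat_lit 78) (nat_lit 1292) (nat_lit 0) (XT.lf (nat_lit 0) (nat_lit 3251640855) (nat_lit 684) (nat_lit 2306256647) (nat_lit 0) (nat_lit 1583500901) (nat_lit 98) (nat_lit 5) (nat_lit 107) (nat_lit 4) (nat_lit 98) (nat_lit 4) (nat_lit 275) (nat_lit 253) (nat_lit 252)) (XT.nd (nat_lit 78) (nat_lit 608) (nat_lit 0) (XT.lf (nat_lit 0) (nat_lit 2518311901) (nat_lit 684) (nat_lit 3991050458) (nat_lit 684) (nat_lit 734205786) (nat_lit 89) (nat_lit 4) (nat_lit 98) (nat_lit 5) (nat_lit 98) (nat_lit 4) (nat_lit 276) (nat_lit 253) (nat_lit 251)) (XT.lf (nat_lit 0) (nat_lit 117214252) (nat_lit 532) (nat_lit 2266742350) (nat_lit 608) (nat_lit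 4970877930) (nat_lit 81) (nat_lit 5) (nat_lit 88) (nat_lit 5) (nat_lit 89) (nat_lit 4) (nat_lit 277) (nat_lit 253) (nat_lit 250)))))) (XT.nd (nat_lit 390) (nat_lit 988) (nat_lit 0) (XT.nd (nat_lit 156) (nat_lit 684) (nat_lit 0) (XT.nd (nat_lit 78) (nat_lit 456) (nat_lit 0) (XT.lf (nat_lit 0) (nat_lit 5195106639) (nat_lit 532) (nat_lit 368798451) (nat_lit 608) (nat_lit 1910982670) (nat_lit 81) (nat_lit 5) (nat_lit 88) (nat_lit 5) (nat_lit 89) (nat_lit 4) (nat_lit 278) (nat_lit 253) (nat_lit 249)) (XT.lf (nat_lit 0) (nat_lit 1186006404) (nat_lit 456) (nat_lit 4790859884) (nat_lit 76) (nat_lit 1627092749) (nat_lit 75) (nat_lit 5) (nat_lit 81) (nat_lit 5) (nat_lit 76) (nat_lit 4) (nat_lit 279) (nat_lit 253) (nat_lit 248))) (XT.nd (nat_lit 78) (nat_lit 380) (nat_lit 0) (XT.lf (nat_lit 0) (nat_lit 313764366) (nat_lit 304) (nat_lit 3969518120) (nat_lit 380) (nat_lit 3459456936) (nat_lit 71)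 (nat_lit 5) (nat_lit 75) (nat_lit 5) (nat_lit 76) (nat_lit 4) (nat_lit 280) (nat_lit 253) (nat_lit 247)) (XT.nd (nat_lit 78) (nat_lit 380) (nat_lit 0) (XT.lf (nat_lit 0) (nat_lit 5682045691) (nat_lit 304) (nat_lit 1798211061) (nat_lit 380) (nat_lit 411250713) (nat_lit 71) (nat_lit 5) (nat_lit 75) (nat_lit 5) (nat_lit 76) (nat_lit 4) (nat_lit 281) (nat_lit 253) (nat_lit 246)) (XT.lf (nat_lit 0) (nat_lit 2626128413) (nat_lit 380) (nat_lit 4884573357) (nat_lit 76) (nat_lit 538796030) (nat_lit 66) (nat_lit 5) (nat_lit 71) (nat_lit 5) (nat_lit 67) (nat_lit 4) (nat_lit 282) (nat_lit 253) (nat_lit 245))))) (XT.nd (nat_lit 156) (nat_lit 608) (nat_lit 0) (XT.nd (nat_lit 78) (nat_lit 76) (nat_lit 0) (XT.lf (nat_lit 0) (nat_lit 491307102) (nat_lit 304) (nat_lit 5256759694) (nat_lit 380) (nat_lit 2469909035) (nat_lit 62) (nat_lit 5) (nat_lit 66) (nat_lit 5) (nat_lit 67) (nat_lit 4) (nat_lit 283)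 (nat_lit 253) (nat_lit 244)) (XT.lf (nat_lit 0) (nat_lit 567837321) (nat_lit 380) (nat_lit 2257068454) (nat_lit 76) (nat_lit 5571865930) (nat_lit 61) (nat_lit 5) (nat_lit 66) (nat_lit 5) (nat_lit 62) (nat_lit 5) (nat_lit 284) (nat_lit 253) (nat_lit 243))) (XT.nd (nat_lit 78) (nat_lit 304) (nat_lit 0) (XT.lf (nat_lit 0) (nat_lit 3401359140) (nat_lit 304) (nat_lit 205008975) (nat_lit 380) (nat_lit 4979736298) (nat_lit 57) (nat_lit 5) (nat_lit 61) (nat_lit 5) (nat_lit 62) (nat_lit 5) (nat_lit 285) (nat_lit 253) (nat_lit 242)) (XT.nd (nat_lit 78) (nat_lit 76) (nat_lit 0) (XT.lf (nat_lit 0) (nat_lit 456158196) (nat_lit 228) (nat_lit 6308095368) (nat_lit 304) (nat_lit 2022485141) (nat_lit 54) (nat_lit 5) (nat_lit 57) (nat_lit 5) (nat_lit 58) (nat_lit 4) (nat_lit 286) (nat_lit 253) (nat_lit 241)) (XT.lf (nat_lit 0) (nat_lit 1023448846) (nat_lit 304) (nat_lit 2613292412) (nat_lit 76) (nat_lit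 5361231920) (nat_lit 53) (nat_lit 5) (nat_lit 57) (nat_lit 5) (nat_lit 54) (nat_lit 5) (nat_lit 287) (nat_lit 253) (nat_lit 240))))))) (XT.nd (nat_lit 780) (nat_lit 912) (nat_lit 0) (XT.nd (nat_lit 390) (nat_lit 684) (nat_lit 0) (XT.nd (nat_lit 156) (nat_lit 532) (nat_lit 0) (XT.nd (nat_lit 78) (nat_lit 0) (nat_lit 0) (XT.lf (nat_lit 0) (nat_lit 3312551321) (nat_lit 228) (nat_lit 781320258) (nat_lit 304) (nat_lit 5127410237) (nat_lit 50) (nat_lit 5) (nat_lit 53) (nat_lit 5) (nat_lit 54) (nat_lit 5) (nat_lit 288) (nat_lit 253) (nat_lit 239)) (XT.lf (nat_lit 0) (nat_lit 7288245902) (nat_lit 304) (nat_lit 16204015) (nat_lit 76) (nat_lit 2152954214) (nat_lit 50) (nat_lit 5) (nat_lit 54) (nat_lit 5) (nat_lit 51) (nat_lit 4) (nat_lit 289) (nat_lit 253) (nat_lit 238))) (XT.nd (nat_lit 78) (nat_lit 228) (nat_lit 0) (XT.lf (nat_lit 0) (nat_lit 912776658) (nat_lit 304) (nat_lit 3508444399) (nat_lit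 76) (nat_lit 5283246006) (nat_lit 46) (nat_lit 5) (nat_lit 50) (nat_lit 5) (nat_lit 47) (nat_lit 5) (nat_lit 290) (nat_lit 253) (nat_lit 237)) (XT.nd (nat_lit 78) (nat_lit 0) (nat_lit 0) (XT.lf (nat_lit 0) (nat_lit 2658401324) (nat_lit 228) (nat_lit 1356234671) (nat_lit 304) (nat_lit 5950679516) (nat_lit 43) (nat_lit 5) (nat_lit 46) (nat_lit 5) (nat_lit 47) (nat_lit 5) (nat_lit 291) (nat_lit 253) (nat_lit 236)) (XT.lf (nat_lit 0) (nat_lit 7259961269) (nat_lit 304) (nat_lit 1159668201) (nat_lit 76) (nat_lit 1820297932) (nat_lit 43) (nat_lit 5) (nat_lit 47) (nat_lit 5) (nat_lit 44) (nat_lit 4) (nat_lit 292) (nat_lit 253) (nat_lit 235))))) (XT.nd (nat_lit 156) (nat_lit 228) (nat_lit 0) (XT.nd (nat_lit 78) (nat_lit 228) (nat_lit 0) (XT.lf (nat_lit 0) (nat_lit 143555130) (nat_lit 228) (nat_lit 5229618742) (nat_lit 76) (nat_lit 5154677460) (nat_lit 40) (nat_lit 5) (nat_lit 43) (nat_lit 5)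 (nat_lit 41) (nat_lit 5) (nat_lit 293) (nat_lit 253) (nat_lit 234)) (XT.lf (nat_lit 0) (nat_lit 1134547606) (nat_lit 228) (nat_lit 2130704355) (nat_lit 304) (nat_lit 7565490260) (nat_lit 37) (nat_lit 5) (nat_lit 40) (nat_lit 5) (nat_lit 41) (nat_lit 5) (nat_lit 294) (nat_lit 253) (nat_lit 233))) (XT.nd (nat_lit 78) (nat_lit 228) (nat_lit 0) (XT.lf (nat_lit 0) (nat_lit 6559031495) (nat_lit 304) (nat_lit 3311633365) (nat_lit 76) (nat_lit 1277427805) (nat_lit 37) (nat_lit 5) (nat_lit 41) (nat_lit 5) (nat_lit 38) (nat_lit 4) (nat_lit 295) (nat_lit 253) (nat_lit 232)) (XT.nd (nat_lit 78) (nat_lit 76) (nat_lit 0) (XT.lf (nat_lit 0) (nat_lit 3326134914) (nat_lit 152) (nat_lit 6688787684) (nat_lit 228) (nat_lit 1466626337) (nat_lit 35) (nat_lit 5) (nat_lit 37) (nat_lit 5) (nat_lit 38) (nat_lit 4) (nat_lit 296) (nat_lit 253) (nat_lit 231)) (XT.lf (nat_lit 0) (nat_lit 1722117552) (nat_lit 228)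 (nat_lit 1585684664) (nat_lit 76) (nat_lit 8524151576) (nat_lit 34) (nat_lit 5) (nat_lit 37) (nat_lit 5) (nat_lit 35) (nat_lit 5) (nat_lit 297) (nat_lit 253) (nat_lit 230)))))) (XT.nd (nat_lit 390) (nat_lit 380) (nat_lit 0) (XT.nd (nat_lit 156) (nat_lit 380) (nat_lit 0) (XT.nd (nat_lit 78) (nat_lit 0) (nat_lit 0) (XT.lf (nat_lit 0) (nat_lit 5024392567) (nat_lit 228) (nat_lit 6876430253) (nat_lit 76) (nat_lit 297779343) (nat_lit 32) (nat_lit 5) (nat_lit 35) (nat_lit 5) (nat_lit 33) (nat_lit 4) (nat_lit 298) (nat_lit 253) (nat_lit 229)) (XT.lf (nat_lit 0) (nat_lit 8489977970) (nat_lit 228) (nat_lit 139570621) (nat_lit 76) (nat_lit 3954214561) (nat_lit 32) (nat_lit 5) (nat_lit 35) (nat_lit 5) (nat_lit 33) (nat_lit 4) (nat_lit 299) (nat_lit 253) (nat_lit 228))) (XT.nd (nat_lit 78) (nat_lit 228) (nat_lit 0) (XT.lf (nat_lit 0) (nat_lit 7032416484) (nat_lit 152) (nat_lit 5126865507) (nat_lit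 228) (nat_lit 827463976) (nat_lit 30) (nat_lit 5) (nat_lit 32) (nat_lit 5) (nat_lit 33) (nat_lit 4) (nat_lit 300) (nat_lit 253) (nat_lit 227)) (XT.nd (nat_lit 78) (nat_lit 0) (nat_lit 0) (XT.lf (nat_lit 0) (nat_lit 1022718820) (nat_lit 152) (nat_lit 1435663444) (nat_lit 228) (nat_lit 10952567330) (nat_lit 27) (nat_lit 5) (nat_lit 29) (nat_lit 5) (nat_lit 30) (nat_lit 5) (nat_lit 301) (nat_lit 253) (nat_lit 226)) (XT.lf (nat_lit 0) (nat_lit 5943470976) (nat_lit 228) (nat_lit 5477851559) (nat_lit 76) (nat_lit 2431298770) (nat_lit 27) (nat_lit 5) (nat_lit 30) (nat_lit 5) (nat_lit 28) (nat_lit 4) (nat_lit 302) (nat_lit 253) (nat_lit 225))))) (XT.nd (nat_lit 156) (nat_lit 304) (nat_lit 0) (XT.nd (nat_lit 78) (nat_lit 0) (nat_lit 0) (XT.lf (nat_lit 0) (nat_lit 1686041017) (nat_lit 76) (nat_lit 7892507670) (nat_lit 152) (nat_lit 4739111727) (nat_lit 26) (nat_lit 5) (nat_lit 27) (nat_lit 5)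 (nat_lit 28) (nat_lit 4) (nat_lit 303) (nat_lit 253) (nat_lit 224)) (XT.lf (nat_lit 0) (nat_lit 9277847627) (nat_lit 76) (nat_lit 4137827040) (nat_lit 152) (nat_lit 1389329275) (nat_lit 26) (nat_lit 5) (nat_lit 27) (nat_lit 5) (nat_lit 28) (nat_lit 4) (nat_lit 304) (nat_lit 253) (nat_lit 223))) (XT.nd (nat_lit 78) (nat_lit 76) (nat_lit 0) (XT.lf (nat_lit 0) (nat_lit 1841128653) (nat_lit 152) (nat_lit 177233435) (nat_lit 228) (nat_lit 13298825977) (nat_lit 23) (nat_lit 5) (nat_lit 25) (nat_lit 5) (nat_lit 26) (nat_lit 5) (nat_lit 305) (nat_lit 253) (nat_lit 222)) (XT.nd (nat_lit 78) (nat_lit 76) (nat_lit 0) (XT.lf (nat_lit 0) (nat_lit 5637647904) (nat_lit 228) (nat_lit 6285035881) (nat_lit 76) (nat_lit 3926821826) (nat_lit 23) (nat_lit 5) (nat_lit 26) (nat_lit 5) (nat_lit 24) (nat_lit 4) (nat_lit 306) (nat_lit 253) (nat_lit 221)) (XT.lf (nat_lit 0) (nat_lit 1188302710) (nat_lit 76) (nat_lit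 8204958480) (nat_lit 152) (nat_lit 7017464957) (nat_lit 22) (nat_lit 5) (nat_lit 23) (nat_lit 5) (nat_lit 24) (nat_lit 4) (nat_lit 307) (nat_lit 253) (nat_lit 220))))))))
noncomputable def xc85 : XT := (XT.nd (nat_lit 1560) (nat_lit 380) (nat_lit 0) (XT.nd (nat_lit 780) (nat_lit 304) (nat_lit 0) (XT.nd (nat_lit 390) (nat_lit 304) (nat_lit 0) (XT.nd (nat_lit 156) (nat_lit 304) (nat_lit 0) (XT.nd (nat_lit 78) (nat_lit 0) (nat_lit 0) (XT.lf (nat_lit 0) (nat_lit 9142959047) (nat_lit 76) (nat_lit 4235462561) (nat_lit 152) (nat_lit 3619550418) (nat_lit 22) (nat_lit 5) (nat_lit 23) (nat_lit 5) (nat_lit 24) (nat_lit 4) (nat_lit 308) (nat_lit 253) (nat_lit 219)) (XT.lf (nat_lit 0) (nat_lit 17390061115) (nat_lit 76) (nat_lit 111184972) (nat_lit 152) (nat_lit 116463941) (nat_lit 22) (nat_lit 5) (nat_lit 23) (nat_lit 5) (nat_lit 24) (nat_lit 4) (nat_lit 309) (nat_lit 253) (nat_lit 218))) (XT.nd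 (nat_lit 78) (nat_lit 76) (nat_lit 0) (XT.lf (nat_lit 0) (nat_lit 3579200532) (nat_lit 228) (nat_lit 10455433599) (nat_lit 76) (nat_lit 4224494668) (nat_lit 19) (nat_lit 5) (nat_lit 22) (nat_lit 5) (nat_lit 20) (nat_lit 4) (nat_lit 310) (nat_lit 253) (nat_lit 217)) (XT.nd (nat_lit 78) (nat_lit 76) (nat_lit 0) (XT.lf (nat_lit 0) (nat_lit 7402417277) (nat_lit 228) (nat_lit 2794656560) (nat_lit 76) (nat_lit 8738158365) (nat_lit 19) (nat_lit 5) (nat_lit 22) (nat_lit 5) (nat_lit 20) (nat_lit 4) (nat_lit 311) (nat_lit 253) (nat_lit 216)) (XT.lf (nat_lit 0) (nat_lit 5321435012) (nat_lit 76) (nat_lit 6122196406) (nat_lit 152) (nat_lit 8200208773) (nat_lit 18) (nat_lit 5) (nat_lit 19) (nat_lit 5) (nat_lit 20) (nat_lit 4) (nat_lit 312) (nat_lit 253) (nat_lit 215))))) (XT.nd (nat_lit 156) (nat_lit 152) (nat_lit 0) (XT.nd (nat_lit 78) (nat_lit 152) (nat_lit 0) (XT.lf (nat_lit 0) (nat_lit 13843893204)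 (nat_lit 76) (nat_lit 1835268305) (nat_lit 152) (nat_lit 4709143590) (nat_lit 18) (nat_lit 5) (nat_lit 19) (nat_lit 5) (nat_lit 20) (nat_lit 4) (nat_lit 313) (nat_lit 253) (nat_lit 214)) (XT.lf (nat_lit 0) (nat_lit 1536109074) (nat_lit 152) (nat_lit 18602899340) (nat_lit 152) (nat_lit 1030395232) (nat_lit 16) (nat_lit 4) (nat_lit 18) (nat_lit 5) (nat_lit 18) (nat_lit 4) (nat_lit 314) (nat_lit 253) (nat_lit 213))) (XT.nd (nat_lit 78) (nat_lit 76) (nat_lit 0) (XT.lf (nat_lit 0) (nat_lit 2831506872) (nat_lit 228) (nat_lit 11906455992) (nat_lit 76) (nat_lit 7244923823) (nat_lit 15) (nat_lit 5) (nat_lit 18) (nat_lit 5) (nat_lit 16) (nat_lit 4) (nat_lit 315) (nat_lit 253) (nat_lit 212)) (XT.nd (nat_lit 78) (nat_lit 76) (nat_lit 0) (XT.lf (nat_lit 0) (nat_lit 6801524842) (nat_lit 228) (nat_lit 3899862936) (nat_lit 76) (nat_lit 12137361391) (nat_lit 15) (nat_lit 5) (nat_lit 18) (nat_lit 5) (nat_lit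 16) (nat_lit 4) (nat_lit 316) (nat_lit 253) (nat_lit 211)) (XT.lf (nat_lit 0) (nat_lit 4567834497) (nat_lit 76) (nat_lit 6425572384) (nat_lit 152) (nat_lit 12742860514) (nat_lit 14) (nat_lit 5) (nat_lit 15) (nat_lit 5) (nat_lit 16) (nat_lit 4) (nat_lit 317) (nat_lit 253) (nat_lit 210)))))) (XT.nd (nat_lit 390) (nat_lit 152) (nat_lit 0) (XT.nd (nat_lit 156) (nat_lit 152) (nat_lit 0) (XT.nd (nat_lit 78) (nat_lit 0) (nat_lit 0) (XT.lf (nat_lit 0) (nat_lit 13510264547) (nat_lit 76) (nat_lit 1903682309) (nat_lit 152) (nat_lit 9263790794) (nat_lit 14) (nat_lit 5) (nat_lit 15) (nat_lit 5) (nat_lit 16) (nat_lit 4) (nat_lit 318) (nat_lit 253) (nat_lit 209)) (XT.lf (nat_lit 0) (nat_lit 20054625257) (nat_lit 152) (nat_lit 2892631357) (nat_lit 0) (nat_lit 2719097151) (nat_lit 14) (nat_lit 5) (nat_lit 16) (nat_lit 4) (nat_lit 14) (nat_lit 4) (nat_lit 319) (nat_lit 253) (nat_lit 208))) (XT.nd (nat_lit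 78) (nat_lit 76) (nat_lit 0) (XT.lf (nat_lit 0) (nat_lit 5874913237) (nat_lit 76) (nat_lit 19132216958) (nat_lit 76) (nat_lit 1693307445) (nat_lit 13) (nat_lit 4) (nat_lit 14) (nat_lit 5) (nat_lit 14) (nat_lit 4) (nat_lit 320) (nat_lit 253) (nat_lit 207)) (XT.nd (nat_lit 78) (nat_lit 0) (nat_lit 0) (XT.lf (nat_lit 0) (nat_lit 2350339007) (nat_lit 152) (nat_lit 12719173030) (nat_lit 76) (nat_lit 12714508201) (nat_lit 12) (nat_lit 5) (nat_lit 14) (nat_lit 5) (nat_lit 13) (nat_lit 4) (nat_lit 321) (nat_lit 253) (nat_lit 206)) (XT.lf (nat_lit 0) (nat_lit 6498310471) (nat_lit 152) (nat_lit 4309601511) (nat_lit 76) (nat_lit 18114552548) (nat_lit 12) (nat_lit 5) (nat_lit 14) (nat_lit 5) (nat_lit 13) (nat_lit 4) (nat_lit 322) (nat_lit 253) (nat_lit 205))))) (XT.nd (nat_lit 156) (nat_lit 76) (nat_lit 0) (XT.nd (nat_lit 78) (nat_lit 0) (nat_lit 0) (XT.lf (nat_lit 0) (nat_lit 4596775750) (nat_lit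 76) (nat_lit 6289672286) (nat_lit 152) (nat_lit 19229766496) (nat_lit 11) (nat_lit 5) (nat_lit 12) (nat_lit 5) (nat_lit 13) (nat_lit 4) (nat_lit 323) (nat_lit 253) (nat_lit 204)) (XT.lf (nat_lit 0) (nat_lit 14028435052) (nat_lit 76) (nat_lit 1500311248) (nat_lit 152) (nat_lit 15839188875) (nat_lit 11) (nat_lit 5) (nat_lit 12) (nat_lit 5) (nat_lit 13) (nat_lit 4) (nat_lit 324) (nat_lit 253) (nat_lit 203))) (XT.nd (nat_lit 78) (nat_lit 76) (nat_lit 0) (XT.lf (nat_lit 0) (nat_lit 20421371434) (nat_lit 152) (nat_lit 8873367177) (nat_lit 0) (nat_lit 3386612481) (nat_lit 11) (nat_lit 5) (nat_lit 13) (nat_lit 4) (nat_lit 11) (nat_lit 4) (nat_lit 325) (nat_lit 253) (nat_lit 202)) (XT.nd (nat_lit 78) (nat_lit 76) (nat_lit 0) (XT.lf (nat_lit 0) (nat_lit 25548101096) (nat_lit 152) (nat_lit 73011032) (nat_lit 0) (nat_lit 8439870907) (nat_lit 11) (nat_lit 5) (nat_lit 13) (nat_lit 4) (nat_lit 11)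 (nat_lit 4) (nat_lit 326) (nat_lit 253) (nat_lit 201)) (XT.lf (nat_lit 0) (nat_lit 9407029287) (nat_lit 76) (nat_lit 21637558524) (nat_lit 76) (nat_lit 4459355729) (nat_lit 10) (nat_lit 4) (nat_lit 11) (nat_lit 5) (nat_lit 11) (nat_lit 4) (nat_lit 327) (nat_lit 253) (nat_lit 200))))))) (XT.nd (nat_lit 780) (nat_lit 152) (nat_lit 0) (XT.nd (nat_lit 390) (nat_lit 76) (nat_lit 0) (XT.nd (nat_lit 156) (nat_lit 76) (nat_lit 0) (XT.nd (nat_lit 78) (nat_lit 76) (nat_lit 0) (XT.lf (nat_lit 0) (nat_lit 19303179686) (nat_lit 76) (nat_lit 17481155539) (nat_lit 76) (nat_lit 236312167) (nat_lit 10) (nat_lit 4) (nat_lit 11) (nat_lit 5) (nat_lit 11) (nat_lit 4) (nat_lit 328) (nat_lit 253) (nat_lit 199)) (XT.lf (nat_lit 0) (nat_lit 4031758975) (nat_lit 152) (nat_lit 9043204687) (nat_lit 76) (nat_lit 25536549588) (nat_lit 9) (nat_lit 5) (nat_lit 11) (nat_lit 5) (nat_lit 10) (nat_lit 4) (nat_lit 329)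 (nat_lit 253) (nat_lit 198))) (XT.nd (nat_lit 78) (nat_lit 0) (nat_lit 0) (XT.lf (nat_lit 0) (nat_lit 5241336) (nat_lit 76) (nat_lit 8469879098) (nat_lit 152) (nat_lit 31808131652) (nat_lit 8) (nat_lit 5) (nat_lit 9) (nat_lit 5) (nat_lit 10) (nat_lit 4) (nat_lit 330) (nat_lit 253) (nat_lit 197)) (XT.nd (nat_lit 78) (nat_lit 0) (nat_lit 0) (XT.lf (nat_lit 0) (nat_lit 9765145762) (nat_lit 76) (nat_lit 3498984945) (nat_lit 152) (nat_lit 28768287219) (nat_lit 8) (nat_lit 5) (nat_lit 9) (nat_lit 5) (nat_lit 10) (nat_lit 4) (nat_lit 331) (nat_lit 253) (nat_lit 196)) (XT.lf (nat_lit 0) (nat_lit 18290819670) (nat_lit 152) (nat_lit 23936216697) (nat_lit 0) (nat_lit 1642107711) (nat_lit 8) (nat_lit 5) (nat_lit 10) (nat_lit 4) (nat_lit 8) (nat_lit 4) (nat_lit 332) (nat_lit 253) (nat_lit 195))))) (XT.nd (nat_lit 156) (nat_lit 76) (nat_lit 0) (XT.nd (nat_lit 78) (nat_lit 0) (nat_lit 0) (XT.lf (nat_lit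 0) (nat_lit 23598934030) (nat_lit 152) (nat_lit 15296786901) (nat_lit 0) (nat_lit 6900493847) (nat_lit 8) (nat_lit 5) (nat_lit 10) (nat_lit 4) (nat_lit 8) (nat_lit 4) (nat_lit 333) (nat_lit 253) (nat_lit 194)) (XT.lf (nat_lit 0) (nat_lit 29146483194) (nat_lit 152) (nat_lit 6273783748) (nat_lit 0) (nat_lit 12400682797) (nat_lit 8) (nat_lit 5) (nat_lit 10) (nat_lit 4) (nat_lit 8) (nat_lit 4) (nat_lit 334) (nat_lit 253) (nat_lit 193))) (XT.nd (nat_lit 78) (nat_lit 0) (nat_lit 0) (XT.lf (nat_lit 0) (nat_lit 3258570718) (nat_lit 76) (nat_lit 31738980315) (nat_lit 76) (nat_lit 14948074953) (nat_lit 7) (nat_lit 4) (nat_lit 8) (nat_lit 5) (nat_lit 8) (nat_lit 4) (nat_lit 335) (nat_lit 253) (nat_lit 192)) (XT.nd (nat_lit 78) (nat_lit 0) (nat_lit 0) (XT.lf (nat_lit 0) (nat_lit 13440004497) (nat_lit 76) (nat_lit 27783152905) (nat_lit 76) (nat_lit 10949290433) (nat_lit 7) (nat_lit 4) (nat_lit 8)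 (nat_lit 5) (nat_lit 8) (nat_lit 4) (nat_lit 336) (nat_lit 253) (nat_lit 191)) (XT.lf (nat_lit 0) (nat_lit 24087319475) (nat_lit 76) (nat_lit 23649615639) (nat_lit 76) (nat_lit 6774841634) (nat_lit 7) (nat_lit 4) (nat_lit 8) (nat_lit 5) (nat_lit 8) (nat_lit 4) (nat_lit 337) (nat_lit 253) (nat_lit 190)))))) (XT.nd (nat_lit 390) (nat_lit 0) (nat_lit 0) (XT.nd (nat_lit 156) (nat_lit 76) (nat_lit 0) (XT.nd (nat_lit 78) (nat_lit 76) (nat_lit 0) (XT.lf (nat_lit 0) (nat_lit 35225866401) (nat_lit 76) (nat_lit 19328526762) (nat_lit 76) (nat_lit 2414789391) (nat_lit 7) (nat_lit 4) (nat_lit 8) (nat_lit 5) (nat_lit 8) (nat_lit 4) (nat_lit 338) (nat_lit 253) (nat_lit 189)) (XT.lf (nat_lit 0) (nat_lit 2072714082) (nat_lit 152) (nat_lit 12701781467) (nat_lit 76) (nat_lit 44774349127) (nat_lit 6) (nat_lit 5) (nat_lit 8) (nat_lit 5) (nat_lit 7) (nat_lit 4) (nat_lit 339) (nat_lit 253) (nat_lit 188)))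 (XT.nd (nat_lit 78) (nat_lit 76) (nat_lit 0) (XT.lf (nat_lit 0) (nat_lit 6683141519) (nat_lit 152) (nat_lit 3285746141) (nat_lit 76) (nat_lit 52287646486) (nat_lit 6) (nat_lit 5) (nat_lit 8) (nat_lit 5) (nat_lit 7) (nat_lit 4) (nat_lit 340) (nat_lit 253) (nat_lit 187)) (XT.nd (nat_lit 78) (nat_lit 0) (nat_lit 0) (XT.lf (nat_lit 0) (nat_lit 6781976175) (nat_lit 76) (nat_lit 4828667947) (nat_lit 152) (nat_lit 53484644522) (nat_lit 5) (nat_lit 5) (nat_lit 6) (nat_lit 5) (nat_lit 7) (nat_lit 4) (nat_lit 341) (nat_lit 253) (nat_lit 186)) (XT.lf (nat_lit 0) (nat_lit 16830729942) (nat_lit 152) (nat_lit 50652122748) (nat_lit 0) (nat_lit 590825624) (nat_lit 5) (nat_lit 5) (nat_lit 7) (nat_lit 4) (nat_lit 5) (nat_lit 4) (nat_lit 342) (nat_lit 253) (nat_lit 185))))) (XT.nd (nat_lit 156) (nat_lit 0) (nat_lit 0) (XT.nd (nat_lit 78) (nat_lit 0) (nat_lit 0) (XT.lf (nat_lit 0) (nat_lit 22372667402)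 (nat_lit 152) (nat_lit 42721597154) (nat_lit 0) (nat_lit 6103688021) (nat_lit 5) (nat_lit 5) (nat_lit 7) (nat_lit 4) (nat_lit 5) (nat_lit 4) (nat_lit 343) (nat_lit 253) (nat_lit 184)) (XT.lf (nat_lit 0) (nat_lit 28174262552) (nat_lit 152) (nat_lit 34427464444) (nat_lit 0) (nat_lit 11877592636) (nat_lit 5) (nat_lit 5) (nat_lit 7) (nat_lit 4) (nat_lit 5) (nat_lit 4) (nat_lit 344) (nat_lit 253) (nat_lit 183))) (XT.nd (nat_lit 78) (nat_lit 0) (nat_lit 0) (XT.lf (nat_lit 0) (nat_lit 34249328716) (nat_lit 152) (nat_lit 25749976684) (nat_lit 0) (nat_lit 17926286860) (nat_lit 5) (nat_lit 5) (nat_lit 7) (nat_lit 4) (nat_lit 5) (nat_lit 4) (nat_lit 345) (nat_lit 253) (nat_lit 182)) (XT.nd (nat_lit 78) (nat_lit 0) (nat_lit 0) (XT.lf (nat_lit 0) (nat_lit 40612330335) (nat_lit 152) (nat_lit 16668473189) (nat_lit 0) (nat_lit 24264172347) (nat_lit 5) (nat_lit 5) (nat_lit 7) (nat_lit 4) (nat_lit 5)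 (nat_lit 4) (nat_lit 346) (nat_lit 253) (nat_lit 181)) (XT.lf (nat_lit 0) (nat_lit 47278417415) (nat_lit 152) (nat_lit 7161331331) (nat_lit 0) (nat_lit 30906339300) (nat_lit 5) (nat_lit 5) (nat_lit 7) (nat_lit 4) (nat_lit 5) (nat_lit 4) (nat_lit 347) (nat_lit 253) (nat_lit 180))))))))
noncomputable def xc86 : XT := (XT.nd (nat_lit 1560) (nat_lit 76) (nat_lit 0) (XT.nd (nat_lit 780) (nat_lit 76) (nat_lit 0) (XT.nd (nat_lit 390) (nat_lit 76) (nat_lit 0) (XT.nd (nat_lit 156) (nat_lit 0) (nat_lit 0) (XT.nd (nat_lit 78) (nat_lit 0) (nat_lit 0) (XT.lf (nat_lit 0) (nat_lit 2886470008) (nat_lit 76) (nat_lit 51422057467) (nat_lit 76) (nat_lit 35027198281) (nat_lit 4) (nat_lit 4) (nat_lit 5) (nat_lit 5) (nat_lit 5) (nat_lit 4) (nat_lit 348) (nat_lit 253) (nat_lit 179)) (XT.lf (nat_lit 0) (nat_lit 13658640808) (nat_lit 76) (nat_lit 48138702771) (nat_lit 76) (nat_lit 31722147325) (nat_lit 4) (nat_lit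 4) (nat_lit 5) (nat_lit 5) (nat_lit 5) (nat_lit 4) (nat_lit 349) (nat_lit 253) (nat_lit 178))) (XT.nd (nat_lit 78) (nat_lit 0) (nat_lit 0) (XT.lf (nat_lit 0) (nat_lit 24944043137) (nat_lit 76) (nat_lit 44703147758) (nat_lit 76) (nat_lit 28265929208) (nat_lit 4) (nat_lit 4) (nat_lit 5) (nat_lit 5) (nat_lit 5) (nat_lit 4) (nat_lit 350) (nat_lit 253) (nat_lit 177)) (XT.nd (nat_lit 78) (nat_lit 0) (nat_lit 0) (XT.lf (nat_lit 0) (nat_lit 36769547002) (nat_lit 76) (nat_lit 41107212536) (nat_lit 76) (nat_lit 24650314838) (nat_lit 4) (nat_lit 4) (nat_lit 5) (nat_lit 5) (nat_lit 5) (nat_lit 4) (nat_lit 351) (nat_lit 253) (nat_lit 176)) (XT.lf (nat_lit 0) (nat_lit 49163308364) (nat_lit 76) (nat_lit 37342335352) (nat_lit 76) (nat_lit 20866695610) (nat_lit 4) (nat_lit 4) (nat_lit 5) (nat_lit 5) (nat_lit 5) (nat_lit 4) (nat_lit 352) (nat_lit 253) (nat_lit 175))))) (XT.nd (nat_lit 156) (nat_lit 76)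 (nat_lit 0) (XT.nd (nat_lit 78) (nat_lit 0) (nat_lit 0) (XT.lf (nat_lit 0) (nat_lit 62154836179) (nat_lit 76) (nat_lit 33399552215) (nat_lit 76) (nat_lit 16906062906) (nat_lit 4) (nat_lit 4) (nat_lit 5) (nat_lit 5) (nat_lit 5) (nat_lit 4) (nat_lit 353) (nat_lit 253) (nat_lit 174)) (XT.lf (nat_lit 0) (nat_lit 75775062655) (nat_lit 76) (nat_lit 29269475545) (nat_lit 76) (nat_lit 12758986649) (nat_lit 4) (nat_lit 4) (nat_lit 5) (nat_lit 5) (nat_lit 5) (nat_lit 4) (nat_lit 354) (nat_lit 253) (nat_lit 173))) (XT.nd (nat_lit 78) (nat_lit 76) (nat_lit 0) (XT.lf (nat_lit 0) (nat_lit 90056416904) (nat_lit 76) (nat_lit 24942271826) (nat_lit 76) (nat_lit 8415592848) (nat_lit 4) (nat_lit 4) (nat_lit 5) (nat_lit 5) (nat_lit 5) (nat_lit 4) (nat_lit 355) (nat_lit 253) (nat_lit 172)) (XT.nd (nat_lit 78) (nat_lit 76) (nat_lit 0) (XT.lf (nat_lit 0) (nat_lit 105032902149) (nat_lit 76) (nat_lit 20407638193)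 (nat_lit 76) (nat_lit 3865540088) (nat_lit 4) (nat_lit 4) (nat_lit 5) (nat_lit 5) (nat_lit 5) (nat_lit 4) (nat_lit 356) (nat_lit 253) (nat_lit 171)) (XT.lf (nat_lit 0) (nat_lit 873135292) (nat_lit 152) (nat_lit 14766855638) (nat_lit 76) (nat_lit 119852254429) (nat_lit 3) (nat_lit 5) (nat_lit 5) (nat_lit 5) (nat_lit 4) (nat_lit 4) (nat_lit 357) (nat_lit 253) (nat_lit 170)))))) (XT.nd (nat_lit 390) (nat_lit 0) (nat_lit 0) (XT.nd (nat_lit 156) (nat_lit 0) (nat_lit 0) (XT.nd (nat_lit 78) (nat_lit 76) (nat_lit 0) (XT.lf (nat_lit 0) (nat_lit 5709608536) (nat_lit 152) (nat_lit 4866071089) (nat_lit 76) (nat_lit 131409335278) (nat_lit 3) (nat_lit 5) (nat_lit 5) (nat_lit 5) (nat_lit 4) (nat_lit 4) (nat_lit 358) (nat_lit 253) (nat_lit 169)) (XT.lf (nat_lit 0) (nat_lit 5695388578) (nat_lit 76) (nat_lit 5172648880) (nat_lit 152) (nat_lit 137930382130) (nat_lit 2) (nat_lit 5) (nat_lit 3) (nat_lit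 5) (nat_lit 4) (nat_lit 4) (nat_lit 359) (nat_lit 253) (nat_lit 168))) (XT.nd (nat_lit 78) (nat_lit 0) (nat_lit 0) (XT.lf (nat_lit 0) (nat_lit 16367215448) (nat_lit 152) (nat_lit 139020376349) (nat_lit 0) (nat_lit 560764434) (nat_lit 2) (nat_lit 5) (nat_lit 4) (nat_lit 4) (nat_lit 2) (nat_lit 4) (nat_lit 360) (nat_lit 253) (nat_lit 167)) (XT.nd (nat_lit 78) (nat_lit 0) (nat_lit 0) (XT.lf (nat_lit 0) (nat_lit 22217819054) (nat_lit 152) (nat_lit 134834288225) (nat_lit 0) (nat_lit 6399862050) (nat_lit 2) (nat_lit 5) (nat_lit 4) (nat_lit 4) (nat_lit 2) (nat_lit 4) (nat_lit 361) (nat_lit 253) (nat_lit 166)) (XT.lf (nat_lit 0) (nat_lit 28353018739) (nat_lit 152) (nat_lit 130454040216) (nat_lit 0) (nat_lit 12524103650) (nat_lit 2) (nat_lit 5) (nat_lit 4) (nat_lit 4) (nat_lit 2) (nat_lit 4) (nat_lit 362) (nat_lit 253) (nat_lit 165))))) (XT.nd (nat_lit 156) (nat_lit 0) (nat_lit 0) (XT.nd (nat_lit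 78) (nat_lit 0) (nat_lit 0) (XT.lf (nat_lit 0) (nat_lit 34787422122) (nat_lit 152) (nat_lit 125869203161) (nat_lit 0) (nat_lit 18948070761) (nat_lit 2) (nat_lit 5) (nat_lit 4) (nat_lit 4) (nat_lit 2) (nat_lit 4) (nat_lit 363) (nat_lit 253) (nat_lit 164)) (XT.lf (nat_lit 0) (nat_lit 41536349211) (nat_lit 152) (nat_lit 121068860781) (nat_lit 0) (nat_lit 25687058543) (nat_lit 2) (nat_lit 5) (nat_lit 4) (nat_lit 4) (nat_lit 2) (nat_lit 4) (nat_lit 364) (nat_lit 253) (nat_lit 163))) (XT.nd (nat_lit 78) (nat_lit 0) (nat_lit 0) (XT.lf (nat_lit 0) (nat_lit 48615868879) (nat_lit 152) (nat_lit 116041583689) (nat_lit 0) (nat_lit 32757112205) (nat_lit 2) (nat_lit 5) (nat_lit 4) (nat_lit 4) (nat_lit 2) (nat_lit 4) (nat_lit 365) (nat_lit 253) (nat_lit 162)) (XT.nd (nat_lit 78) (nat_lit 0) (nat_lit 0) (XT.lf (nat_lit 0) (nat_lit 56042837125) (nat_lit 152) (nat_lit 110775402178) (nat_lit 0) (nat_lit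 40175065208) (nat_lit 2) (nat_lit 5) (nat_lit 4) (nat_lit 4) (nat_lit 2) (nat_lit 4) (nat_lit 366) (nat_lit 253) (nat_lit 161)) (XT.lf (nat_lit 0) (nat_lit 63834937209) (nat_lit 152) (nat_lit 105257777720) (nat_lit 0) (nat_lit 47958579344) (nat_lit 2) (nat_lit 5) (nat_lit 4) (nat_lit 4) (nat_lit 2) (nat_lit 4) (nat_lit 367) (nat_lit 253) (nat_lit 160))))))) (XT.nd (nat_lit 780) (nat_lit 76) (nat_lit 0) (XT.nd (nat_lit 390) (nat_lit 0) (nat_lit 0) (XT.nd (nat_lit 156) (nat_lit 0) (nat_lit 0) (XT.nd (nat_lit 78) (nat_lit 0) (nat_lit 0) (XT.lf (nat_lit 0) (nat_lit 72010721748) (nat_lit 152) (nat_lit 99475573114) (nat_lit 0) (nat_lit 56126186792) (nat_lit 2) (nat_lit 5) (nat_lit 4) (nat_lit 4) (nat_lit 2) (nat_lit 4) (nat_lit 368) (nat_lit 253) (nat_lit 159)) (XT.lf (nat_lit 0) (nat_lit 80589656896) (nat_lit 152) (nat_lit 93415021206) (nat_lit 0) (nat_lit 64697334233) (nat_lit 2) (nat_lit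 5) (nat_lit 4) (nat_lit 4) (nat_lit 2) (nat_lit 4) (nat_lit 369) (nat_lit 253) (nat_lit 158))) (XT.nd (nat_lit 78) (nat_lit 0) (nat_lit 0) (XT.lf (nat_lit 0) (nat_lit 89592168690) (nat_lit 152) (nat_lit 87061692112) (nat_lit 0) (nat_lit 73692429164) (nat_lit 2) (nat_lit 5) (nat_lit 4) (nat_lit 4) (nat_lit 2) (nat_lit 4) (nat_lit 370) (nat_lit 253) (nat_lit 157)) (XT.nd (nat_lit 78) (nat_lit 0) (nat_lit 0) (XT.lf (nat_lit 0) (nat_lit 99039691682) (nat_lit 152) (nat_lit 80400458857) (nat_lit 0) (nat_lit 83132888476) (nat_lit 2) (nat_lit 5) (nat_lit 4) (nat_lit 4) (nat_lit 2) (nat_lit 4) (nat_lit 371) (nat_lit 253) (nat_lit 156)) (XT.lf (nat_lit 0) (nat_lit 108954719973) (nat_lit 152) (nat_lit 73415461361) (nat_lit 0) (nat_lit 93041189453) (nat_lit 2) (nat_lit 5) (nat_lit 4) (nat_lit 4) (nat_lit 2) (nat_lit 4) (nat_lit 372) (nat_lit 253) (nat_lit 155))))) (XT.nd (nat_lit 156) (nat_lit 0)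 (nat_lit 0) (XT.nd (nat_lit 78) (nat_lit 0) (nat_lit 0) (XT.lf (nat_lit 0) (nat_lit 119360860774) (nat_lit 152) (nat_lit 66090068678) (nat_lit 0) (nat_lit 103440923289) (nat_lit 2) (nat_lit 5) (nat_lit 4) (nat_lit 4) (nat_lit 2) (nat_lit 4) (nat_lit 373) (nat_lit 253) (nat_lit 154)) (XT.lf (nat_lit 0) (nat_lit 130282890611) (nat_lit 152) (nat_lit 58406839398) (nat_lit 0) (nat_lit 114356851254) (nat_lit 2) (nat_lit 5) (nat_lit 4) (nat_lit 4) (nat_lit 2) (nat_lit 4) (nat_lit 374) (nat_lit 253) (nat_lit 153))) (XT.nd (nat_lit 78) (nat_lit 0) (nat_lit 0) (XT.lf (nat_lit 0) (nat_lit 141746814317) (nat_lit 152) (nat_lit 50347480117) (nat_lit 0) (nat_lit 125814963653) (nat_lit 2) (nat_lit 5) (nat_lit 4) (nat_lit 4) (nat_lit 2) (nat_lit 4) (nat_lit 375) (nat_lit 253) (nat_lit 152)) (XT.nd (nat_lit 78) (nat_lit 0) (nat_lit 0) (XT.lf (nat_lit 0) (nat_lit 153779926947) (nat_lit 152) (nat_lit 41892801884)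 (nat_lit 0) (nat_lit 137842541705) (nat_lit 2) (nat_lit 5) (nat_lit 4) (nat_lit 4) (nat_lit 2) (nat_lit 4) (nat_lit 376) (nat_lit 253) (nat_lit 151)) (XT.lf (nat_lit 0) (nat_lit 166410878771) (nat_lit 152) (nat_lit 33022674514) (nat_lit 0) (nat_lit 150468222503) (nat_lit 2) (nat_lit 5) (nat_lit 4) (nat_lit 4) (nat_lit 2) (nat_lit 4) (nat_lit 377) (nat_lit 253) (nat_lit 150)))))) (XT.nd (nat_lit 390) (nat_lit 0) (nat_lit 0) (XT.nd (nat_lit 156) (nat_lit 76) (nat_lit 0) (XT.nd (nat_lit 78) (nat_lit 0) (nat_lit 0) (XT.lf (nat_lit 0) (nat_lit 179669743483) (nat_lit 152) (nat_lit 23715978654) (nat_lit 0) (nat_lit 163722067189) (nat_lit 2) (nat_lit 5) (nat_lit 4) (nat_lit 4) (nat_lit 2) (nat_lit 4) (nat_lit 378) (nat_lit 253) (nat_lit 149)) (XT.lf (nat_lit 0) (nat_lit 193588089808) (nat_lit 152) (nat_lit 13950555507) (nat_lit 0) (nat_lit 177635632539) (nat_lit 2) (nat_lit 5) (nat_lit 4) (nat_lit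 4) (nat_lit 2) (nat_lit 4) (nat_lit 379) (nat_lit 253) (nat_lit 148))) (XT.nd (nat_lit 78) (nat_lit 76) (nat_lit 0) (XT.lf (nat_lit 0) (nat_lit 208199056667) (nat_lit 152) (nat_lit 3703154063) (nat_lit 0) (nat_lit 192242046087) (nat_lit 2) (nat_lit 5) (nat_lit 4) (nat_lit 4) (nat_lit 2) (nat_lit 4) (nat_lit 380) (nat_lit 253) (nat_lit 147)) (XT.nd (nat_lit 78) (nat_lit 0) (nat_lit 0) (XT.lf (nat_lit 0) (nat_lit 7283749729) (nat_lit 76) (nat_lit 216367402092) (nat_lit 76) (nat_lit 200406055025) (nat_lit 1) (nat_lit 4) (nat_lit 2) (nat_lit 5) (nat_lit 2) (nat_lit 4) (nat_lit 381) (nat_lit 253) (nat_lit 146)) (XT.lf (nat_lit 0) (nat_lit 18942667323) (nat_lit 76) (nat_lit 220992816776) (nat_lit 76) (nat_lit 205027339722) (nat_lit 1) (nat_lit 4) (nat_lit 2) (nat_lit 5) (nat_lit 2) (nat_lit 4) (nat_lit 382) (nat_lit 253) (nat_lit 145))))) (XT.nd (nat_lit 156) (nat_lit 0) (nat_lit 0) (XT.nd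 (nat_lit 78) (nat_lit 0) (nat_lit 0) (XT.lf (nat_lit 0) (nat_lit 31178915046) (nat_lit 76) (nat_lit 225852182381) (nat_lit 76) (nat_lit 209882772006) (nat_lit 1) (nat_lit 4) (nat_lit 2) (nat_lit 5) (nat_lit 2) (nat_lit 4) (nat_lit 383) (nat_lit 253) (nat_lit 144)) (XT.lf (nat_lit 0) (nat_lit 44021626824) (nat_lit 76) (nat_lit 230957068825) (nat_lit 76) (nat_lit 214983912430) (nat_lit 1) (nat_lit 4) (nat_lit 2) (nat_lit 5) (nat_lit 2) (nat_lit 4) (nat_lit 384) (nat_lit 253) (nat_lit 143))) (XT.nd (nat_lit 78) (nat_lit 0) (nat_lit 0) (XT.lf (nat_lit 0) (nat_lit 57501380539) (nat_lit 76) (nat_lit 236319630600) (nat_lit 76) (nat_lit 220342906567) (nat_lit 1) (nat_lit 4) (nat_lit 2) (nat_lit 5) (nat_lit 2) (nat_lit 4) (nat_lit 385) (nat_lit 253) (nat_lit 142)) (XT.nd (nat_lit 78) (nat_lit 0) (nat_lit 0) (XT.lf (nat_lit 0) (nat_lit 71650270845) (nat_lit 76) (nat_lit 241952635710) (nat_lit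 76) (nat_lit 225972513926) (nat_lit 1) (nat_lit 4) (nat_lit 2) (nat_lit 5) (nat_lit 2) (nat_lit 4) (nat_lit 386) (nat_lit 253) (nat_lit 141)) (XT.lf (nat_lit 0) (nat_lit 86501985575) (nat_lit 76) (nat_lit 247869496072) (nat_lit 76) (nat_lit 231886138335) (nat_lit 1) (nat_lit 4) (nat_lit 2) (nat_lit 5) (nat_lit 2) (nat_lit 4) (nat_lit 387) (nat_lit 253) (nat_lit 140))))))))
noncomputable def xc87 : XT := (XT.nd (nat_lit 33072) (nat_lit 0) (nat_lit 1368) (XT.nd (nat_lit 32292) (nat_lit 0) (nat_lit 3420) (XT.nd (nat_lit 31902) (nat_lit 0) (nat_lit 5624) (XT.nd (nat_lit 31668) (nat_lit 0) (nat_lit 7372) (XT.nd (nat_lit 31590) (nat_lit 0) (nat_lit 8588) (XT.lf (nat_lit 0) (nat_lit 102091885955) (nat_lit 76) (nat_lit 254084299448) (nat_lit 76) (nat_lit 238097859851) (nat_lit 1) (nat_lit 4) (nat_lit 2) (nat_lit 5) (nat_lit 2) (nat_lit 4) (nat_lit 388) (nat_lit 253) (nat_lit 139)) (XT.lf (nat_lit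 0) (nat_lit 1210283307) (nat_lit 532) (nat_lit 1021648147) (nat_lit 0) (nat_lit 1210283307) (nat_lit 114) (nat_lit 5) (nat_lit 121) (nat_lit 4) (nat_lit 114) (nat_lit 4) (nat_lit 272) (nat_lit 254) (nat_lit 254))) (XT.nd (nat_lit 78) (nat_lit 684) (nat_lit 0) (XT.lf (nat_lit 0) (nat_lit 2430621326) (nat_lit 532) (nat_lit 3186265525) (nat_lit 532) (nat_lit 1347141226) (nat_lit 107) (nat_lit 4) (nat_lit 114) (nat_lit 5) (nat_lit 114) (nat_lit 4) (nat_lit 273) (nat_lit 254) (nat_lit 253)) (XT.nd (nat_lit 78) (nat_lit 608) (nat_lit 0) (XT.lf (nat_lit 0) (nat_lit 1737183920) (nat_lit 608) (nat_lit 29444212) (nat_lit 76) (nat_lit 5286234726) (nat_lit 106) (nat_lit 5) (nat_lit 114) (nat_lit 5) (nat_lit 107) (nat_lit 4) (nat_lit 274) (nat_lit 254) (nat_lit 252)) (XT.lf (nat_lit 0) (nat_lit 4682636355) (nat_lit 608) (nat_lit 166850259) (nat_lit 684) (nat_lit 2300005413) (nat_lit 98) (nat_lit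 5) (nat_lit 106) (nat_lit 5) (nat_lit 107) (nat_lit 4) (nat_lit 275) (nat_lit 254) (nat_lit 251))))) (XT.nd (nat_lit 156) (nat_lit 988) (nat_lit 0) (XT.nd (nat_lit 78) (nat_lit 0) (nat_lit 0) (XT.lf (nat_lit 0) (nat_lit 747732188) (nat_lit 760) (nat_lit 4988592748) (nat_lit 76) (nat_lit 1518871296) (nat_lit 88) (nat_lit 5) (nat_lit 98) (nat_lit 5) (nat_lit 89) (nat_lit 4) (nat_lit 276) (nat_lit 254) (nat_lit 250)) (XT.lf (nat_lit 0) (nat_lit 3768952448) (nat_lit 760) (nat_lit 236093228) (nat_lit 76) (nat_lit 3364688105) (nat_lit 88) (nat_lit 5) (nat_lit 98) (nat_lit 5) (nat_lit 89) (nat_lit 4) (nat_lit 277) (nat_lit 254) (nat_lit 249))) (XT.nd (nat_lit 78) (nat_lit 456) (nat_lit 0) (XT.lf (nat_lit 0) (nat_lit 4760442219) (nat_lit 532) (nat_lit 2115299651) (nat_lit 608) (nat_lit 617867056) (nat_lit 81) (nat_lit 5) (nat_lit 88) (nat_lit 5) (nat_lit 89) (nat_lit 4) (nat_lit 278) (nat_lit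 254) (nat_lit 248)) (XT.nd (nat_lit 78) (nat_lit 0) (nat_lit 0) (XT.lf (nat_lit 0) (nat_lit 2276605300) (nat_lit 380) (nat_lit 58796519) (nat_lit 456) (nat_lit 5291534268) (nat_lit 75) (nat_lit 5) (nat_lit 80) (nat_lit 5) (nat_lit 81) (nat_lit 5) (nat_lit 279) (nat_lit 254) (nat_lit 247)) (XT.lf (nat_lit 0) (nat_lit 5361575398) (nat_lit 456) (nat_lit 329391038) (nat_lit 76) (nat_lit 2078446799) (nat_lit 75) (nat_lit 5) (nat_lit 81) (nat_lit 5) (nat_lit 76) (nat_lit 4) (nat_lit 280) (nat_lit 254) (nat_lit 246)))))) (XT.nd (nat_lit 390) (nat_lit 836) (nat_lit 0) (XT.nd (nat_lit 156) (nat_lit 684) (nat_lit 0) (XT.nd (nat_lit 78) (nat_lit 304) (nat_lit 0) (XT.lf (nat_lit 0) (nat_lit 549981845) (nat_lit 380) (nat_lit 2975976947) (nat_lit 76) (nat_lit 4395345598) (nat_lit 70) (nat_lit 5) (nat_lit 75) (nat_lit 5) (nat_lit 71) (nat_lit 5) (nat_lit 281) (nat_lit 254) (nat_lit 245)) (XT.lf (nat_lit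 0) (nat_lit 2301157852) (nat_lit 304) (nat_lit 1189302085) (nat_lit 380) (nat_lit 4592823023) (nat_lit 66) (nat_lit 5) (nat_lit 70) (nat_lit 5) (nat_lit 71) (nat_lit 5) (nat_lit 282) (nat_lit 254) (nat_lit 244))) (XT.nd (nat_lit 78) (nat_lit 684) (nat_lit 0) (XT.lf (nat_lit 0) (nat_lit 6526382183) (nat_lit 380) (nat_lit 477177955) (nat_lit 76) (nat_lit 1252618188) (nat_lit 66) (nat_lit 5) (nat_lit 71) (nat_lit 5) (nat_lit 67) (nat_lit 4) (nat_lit 283) (nat_lit 254) (nat_lit 243)) (XT.nd (nat_lit 78) (nat_lit 304) (nat_lit 0) (XT.lf (nat_lit 0) (nat_lit 1217316224) (nat_lit 380) (nat_lit 3365994925) (nat_lit 76) (nat_lit 3854538269) (nat_lit 61) (nat_lit 5) (nat_lit 66) (nat_lit 5) (nat_lit 62) (nat_lit 5) (nat_lit 284) (nat_lit 254) (nat_lit 242)) (XT.lf (nat_lit 0) (nat_lit 2182323168) (nat_lit 304) (nat_lit 1998183505) (nat_lit 380) (nat_lit 4450543130) (nat_lit 57) (nat_lit 5) (nat_lit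 61) (nat_lit 5) (nat_lit 62) (nat_lit 5) (nat_lit 285) (nat_lit 254) (nat_lit 241))))) (XT.nd (nat_lit 156) (nat_lit 532) (nat_lit 0) (XT.nd (nat_lit 78) (nat_lit 304) (nat_lit 0) (XT.lf (nat_lit 0) (nat_lit 7248317482) (nat_lit 380) (nat_lit 866966724) (nat_lit 76) (nat_lit 720999488) (nat_lit 57) (nat_lit 5) (nat_lit 62) (nat_lit 5) (nat_lit 58) (nat_lit 4) (nat_lit 286) (nat_lit 254) (nat_lit 240)) (XT.lf (nat_lit 0) (nat_lit 1375429642) (nat_lit 304) (nat_lit 4095138539) (nat_lit 76) (nat_lit 3580129278) (nat_lit 53) (nat_lit 5) (nat_lit 57) (nat_lit 5) (nat_lit 54) (nat_lit 5) (nat_lit 287) (nat_lit 254) (nat_lit 239))) (XT.nd (nat_lit 78) (nat_lit 304) (nat_lit 0) (XT.lf (nat_lit 0) (nat_lit 1709633832) (nat_lit 228) (nat_lit 2659365610) (nat_lit 304) (nat_lit 4908932114) (nat_lit 50) (nat_lit 5) (nat_lit 53) (nat_lit 5) (nat_lit 54) (nat_lit 5) (nat_lit 288) (nat_lit 254) (nat_lit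 238)) (XT.nd (nat_lit 78) (nat_lit 304) (nat_lit 0) (XT.lf (nat_lit 0) (nat_lit 7483337216) (nat_lit 304) (nat_lit 1717408457) (nat_lit 76) (nat_lit 317388895) (nat_lit 50) (nat_lit 5) (nat_lit 54) (nat_lit 5) (nat_lit 51) (nat_lit 4) (nat_lit 289) (nat_lit 254) (nat_lit 237)) (XT.lf (nat_lit 0) (nat_lit 964676174) (nat_lit 304) (nat_lit 5401196689) (nat_lit 76) (nat_lit 3403199335) (nat_lit 46) (nat_lit 5) (nat_lit 50) (nat_lit 5) (nat_lit 47) (nat_lit 5) (nat_lit 290) (nat_lit 254) (nat_lit 236))))))) (XT.nd (nat_lit 780) (nat_lit 836) (nat_lit 0) (XT.nd (nat_lit 390) (nat_lit 532) (nat_lit 0) (XT.nd (nat_lit 156) (nat_lit 456) (nat_lit 0) (XT.nd (nat_lit 78) (nat_lit 0) (nat_lit 0) (XT.lf (nat_lit 0) (nat_lit 632672059) (nat_lit 228) (nat_lit 3354357688) (nat_lit 304) (nat_lit 6046934319) (nat_lit 43) (nat_lit 5) (nat_lit 46) (nat_lit 5) (nat_lit 47) (nat_lit 5) (nat_lit 291) (nat_lit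 254) (nat_lit 235)) (XT.lf (nat_lit 0) (nat_lit 7018315625) (nat_lit 228) (nat_lit 138034513) (nat_lit 304) (nat_lit 3156090949) (nat_lit 43) (nat_lit 5) (nat_lit 46) (nat_lit 5) (nat_lit 47) (nat_lit 5) (nat_lit 292) (nat_lit 254) (nat_lit 234))) (XT.nd (nat_lit 78) (nat_lit 304) (nat_lit 0) (XT.lf (nat_lit 0) (nat_lit 3029852283) (nat_lit 152) (nat_lit 7460469242) (nat_lit 228) (nat_lit 114337868) (nat_lit 41) (nat_lit 5) (nat_lit 43) (nat_lit 5) (nat_lit 44) (nat_lit 4) (nat_lit 293) (nat_lit 254) (nat_lit 233)) (XT.nd (nat_lit 78) (nat_lit 228) (nat_lit 0) (XT.lf (nat_lit 0) (nat_lit 2948924503) (nat_lit 228) (nat_lit 1311459125) (nat_lit 76) (nat_lit 6650416661) (nat_lit 40) (nat_lit 5) (nat_lit 43) (nat_lit 5) (nat_lit 41) (nat_lit 5) (nat_lit 294) (nat_lit 254) (nat_lit 232)) (XT.lf (nat_lit 0) (nat_lit 5303501984) (nat_lit 228) (nat_lit 854160359) (nat_lit 304) (nat_lit 5074793856)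 (nat_lit 37) (nat_lit 5) (nat_lit 40) (nat_lit 5) (nat_lit 41) (nat_lit 5) (nat_lit 295) (nat_lit 254) (nat_lit 231))))) (XT.nd (nat_lit 156) (nat_lit 304) (nat_lit 0) (XT.nd (nat_lit 78) (nat_lit 76) (nat_lit 0) (XT.lf (nat_lit 0) (nat_lit 570035753) (nat_lit 152) (nat_lit 8945601006) (nat_lit 228) (nat_lit 2055222384) (nat_lit 35) (nat_lit 5) (nat_lit 37) (nat_lit 5) (nat_lit 38) (nat_lit 4) (nat_lit 296) (nat_lit 254) (nat_lit 230)) (XT.lf (nat_lit 0) (nat_lit 1111095154) (nat_lit 228) (nat_lit 4486186011) (nat_lit 76) (nat_lit 6326551685) (nat_lit 34) (nat_lit 5) (nat_lit 37) (nat_lit 5) (nat_lit 35) (nat_lit 5) (nat_lit 297) (nat_lit 254) (nat_lit 229))) (XT.nd (nat_lit 78) (nat_lit 152) (nat_lit 0) (XT.lf (nat_lit 0) (nat_lit 2267565115) (nat_lit 152) (nat_lit 2053932358) (nat_lit 228) (nat_lit 7973621302) (nat_lit 32) (nat_lit 5) (nat_lit 34) (nat_lit 5) (nat_lit 35) (nat_lit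 5) (nat_lit 298) (nat_lit 254) (nat_lit 228)) (XT.nd (nat_lit 78) (nat_lit 152) (nat_lit 0) (XT.lf (nat_lit 0) (nat_lit 7716304805) (nat_lit 228) (nat_lit 3320478463) (nat_lit 76) (nat_lit 1647077224) (nat_lit 32) (nat_lit 5) (nat_lit 35) (nat_lit 5) (nat_lit 33) (nat_lit 4) (nat_lit 299) (nat_lit 254) (nat_lit 227)) (XT.lf (nat_lit 0) (nat_lit 3685479003) (nat_lit 152) (nat_lit 7611007673) (nat_lit 228) (nat_lit 1794852573) (nat_lit 30) (nat_lit 5) (nat_lit 32) (nat_lit 5) (nat_lit 33) (nat_lit 4) (nat_lit 300) (nat_lit 254) (nat_lit 226)))))) (XT.nd (nat_lit 390) (nat_lit 456) (nat_lit 0) (XT.nd (nat_lit 156) (nat_lit 152) (nat_lit 0) (XT.nd (nat_lit 78) (nat_lit 152) (nat_lit 0) (XT.lf (nat_lit 0) (nat_lit 1469345115) (nat_lit 228) (nat_lit 2505646045) (nat_lit 76) (nat_lit 9543973582) (nat_lit 29) (nat_lit 5) (nat_lit 32) (nat_lit 5) (nat_lit 30) (nat_lit 5) (nat_lit 301) (nat_lit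 254) (nat_lit 225)) (XT.lf (nat_lit 0) (nat_lit 4746482675) (nat_lit 152) (nat_lit 92514978) (nat_lit 228) (nat_lit 9127445018) (nat_lit 27) (nat_lit 5) (nat_lit 29) (nat_lit 5) (nat_lit 30) (nat_lit 5) (nat_lit 302) (nat_lit 254) (nat_lit 224))) (XT.nd (nat_lit 78) (nat_lit 152) (nat_lit 0) (XT.lf (nat_lit 0) (nat_lit 8411870548) (nat_lit 228) (nat_lit 2165466739) (nat_lit 76) (nat_lit 3857287507) (nat_lit 27) (nat_lit 5) (nat_lit 30) (nat_lit 5) (nat_lit 28) (nat_lit 4) (nat_lit 303) (nat_lit 254) (nat_lit 223)) (XT.nd (nat_lit 78) (nat_lit 76) (nat_lit 0) (XT.lf (nat_lit 0) (nat_lit 5298777282) (nat_lit 76) (nat_lit 6881621893) (nat_lit 152) (nat_lit 2745030226) (nat_lit 26) (nat_lit 5) (nat_lit 27) (nat_lit 5) (nat_lit 28) (nat_lit 4) (nat_lit 304) (nat_lit 254) (nat_lit 222)) (XT.lf (nat_lit 0) (nat_lit 644685279) (nat_lit 152) (nat_lit 2350532998) (nat_lit 76) (nat_lit 12446550209)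 (nat_lit 25) (nat_lit 5) (nat_lit 27) (nat_lit 5) (nat_lit 26) (nat_lit 5) (nat_lit 305) (nat_lit 254) (nat_lit 221))))) (XT.nd (nat_lit 234) (nat_lit 228) (nat_lit 0) (XT.nd (nat_lit 78) (nat_lit 76) (nat_lit 0) (XT.lf (nat_lit 0) (nat_lit 4149199652) (nat_lit 228) (nat_lit 10691086224) (nat_lit 76) (nat_lit 1139565689) (nat_lit 23) (nat_lit 5) (nat_lit 26) (nat_lit 5) (nat_lit 24) (nat_lit 4) (nat_lit 306) (nat_lit 254) (nat_lit 220)) (XT.nd (nat_lit 78) (nat_lit 76) (nat_lit 0) (XT.lf (nat_lit 0) (nat_lit 7855554038) (nat_lit 228) (nat_lit 3307982253) (nat_lit 76) (nat_lit 5380024433) (nat_lit 23) (nat_lit 5) (nat_lit 26) (nat_lit 5) (nat_lit 24) (nat_lit 4) (nat_lit 307) (nat_lit 254) (nat_lit 219)) (XT.lf (nat_lit 0) (nat_lit 4485937696) (nat_lit 76) (nat_lit 7271376373) (nat_lit 152) (nat_lit 5377687008) (nat_lit 22) (nat_lit 5) (nat_lit 23) (nat_lit 5) (nat_lit 24) (nat_lit 4)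 (nat_lit 308) (nat_lit 254) (nat_lit 218)))) (XT.nd (nat_lit 78) (nat_lit 228) (nat_lit 0) (XT.lf (nat_lit 0) (nat_lit 12684125904) (nat_lit 76) (nat_lit 3167397564) (nat_lit 152) (nat_lit 1904669656) (nat_lit 22) (nat_lit 5) (nat_lit 23) (nat_lit 5) (nat_lit 24) (nat_lit 4) (nat_lit 309) (nat_lit 254) (nat_lit 217)) (XT.nd (nat_lit 78) (nat_lit 0) (nat_lit 0) (XT.lf (nat_lit 0) (nat_lit 1692286927) (nat_lit 228) (nat_lit 15575721666) (nat_lit 76) (nat_lit 1138817455) (nat_lit 19) (nat_lit 5) (nat_lit 22) (nat_lit 5) (nat_lit 20) (nat_lit 4) (nat_lit 310) (nat_lit 254) (nat_lit 216)) (XT.lf (nat_lit 0) (nat_lit 5488066621) (nat_lit 228) (nat_lit 7962770710) (nat_lit 76) (nat_lit 5633484091) (nat_lit 19) (nat_lit 5) (nat_lit 22) (nat_lit 5) (nat_lit 20) (nat_lit 4) (nat_lit 311) (nat_lit 254) (nat_lit 215))))))))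
noncomputable def xc88 : XT := (XT.nd (nat_lit 1560) (nat_lit 304) (nat_lit 0) (XT.nd (nat_lit 780) (nat_lit 380) (nat_lit 0) (XT.nd (nat_lit 390) (nat_lit 152) (nat_lit 0) (XT.nd (nat_lit 156) (nat_lit 228) (nat_lit 0) (XT.nd (nat_lit 78) (nat_lit 76) (nat_lit 0) (XT.lf (nat_lit 0) (nat_lit 9420067724) (nat_lit 228) (nat_lit 62546942) (nat_lit 76) (nat_lit 10315794559) (nat_lit 19) (nat_lit 5) (nat_lit 22) (nat_lit 5) (nat_lit 20) (nat_lit 4) (nat_lit 312) (nat_lit 254) (nat_lit 214)) (XT.lf (nat_lit 0) (nat_lit 8413029169) (nat_lit 76) (nat_lit 5215973937) (nat_lit 152) (nat_lit 6915219010) (nat_lit 18) (nat_lit 5) (nat_lit 19) (nat_lit 5) (nat_lit 20) (nat_lit 4) (nat_lit 313) (nat_lit 254) (nat_lit 213))) (XT.nd (nat_lit 78) (nat_lit 228) (nat_lit 0) (XT.lf (nat_lit 0) (nat_lit 17227061585) (nat_lit 76) (nat_lit 772429540) (nat_lit 152) (nat_lit 3330314863) (nat_lit 18) (nat_lit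 5) (nat_lit 19) (nat_lit 5) (nat_lit 20) (nat_lit 4) (nat_lit 314) (nat_lit 254) (nat_lit 212)) (XT.nd (nat_lit 78) (nat_lit 0) (nat_lit 0) (XT.lf (nat_lit 0) (nat_lit 501319575) (nat_lit 228) (nat_lit 17839376960) (nat_lit 76) (nat_lit 3809597640) (nat_lit 15) (nat_lit 5) (nat_lit 18) (nat_lit 5) (nat_lit 16) (nat_lit 4) (nat_lit 315) (nat_lit 254) (nat_lit 211)) (XT.lf (nat_lit 0) (nat_lit 4447945580) (nat_lit 228) (nat_lit 9874454395) (nat_lit 76) (nat_lit 8684941293) (nat_lit 15) (nat_lit 5) (nat_lit 18) (nat_lit 5) (nat_lit 16) (nat_lit 4) (nat_lit 316) (nat_lit 254) (nat_lit 210))))) (XT.nd (nat_lit 156) (nat_lit 76) (nat_lit 0) (XT.nd (nat_lit 78) (nat_lit 76) (nat_lit 0) (XT.lf (nat_lit 0) (nat_lit 8546232860) (nat_lit 228) (nat_lit 1592642372) (nat_lit 76) (nat_lit 13770678298) (nat_lit 15) (nat_lit 5) (nat_lit 18) (nat_lit 5) (nat_lit 16) (nat_lit 4) (nat_lit 317) (nat_lit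 254) (nat_lit 209)) (XT.lf (nat_lit 0) (nat_lit 7258081647) (nat_lit 76) (nat_lit 5661176589) (nat_lit 152) (nat_lit 11934154899) (nat_lit 14) (nat_lit 5) (nat_lit 15) (nat_lit 5) (nat_lit 16) (nat_lit 4) (nat_lit 318) (nat_lit 254) (nat_lit 208))) (XT.nd (nat_lit 78) (nat_lit 76) (nat_lit 0) (XT.lf (nat_lit 0) (nat_lit 16530401989) (nat_lit 76) (nat_lit 964890792) (nat_lit 152) (nat_lit 8349981628) (nat_lit 14) (nat_lit 5) (nat_lit 15) (nat_lit 5) (nat_lit 16) (nat_lit 4) (nat_lit 319) (nat_lit 254) (nat_lit 207)) (XT.nd (nat_lit 78) (nat_lit 76) (nat_lit 0) (XT.lf (nat_lit 0) (nat_lit 22320967795) (nat_lit 152) (nat_lit 756471419) (nat_lit 0) (nat_lit 3808272918) (nat_lit 14) (nat_lit 5) (nat_lit 16) (nat_lit 4) (nat_lit 14) (nat_lit 4) (nat_lit 320) (nat_lit 254) (nat_lit 206)) (XT.lf (nat_lit 0) (nat_lit 8412663445) (nat_lit 76) (nat_lit 19083297769) (nat_lit 76) (nat_lit 476832908)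 (nat_lit 13) (nat_lit 4) (nat_lit 14) (nat_lit 5) (nat_lit 14) (nat_lit 4) (nat_lit 321) (nat_lit 254) (nat_lit 205)))))) (XT.nd (nat_lit 390) (nat_lit 228) (nat_lit 0) (XT.nd (nat_lit 156) (nat_lit 76) (nat_lit 0) (XT.nd (nat_lit 78) (nat_lit 0) (nat_lit 0) (XT.lf (nat_lit 0) (nat_lit 3667375296) (nat_lit 152) (nat_lit 11177650249) (nat_lit 76) (nat_lit 14267547019) (nat_lit 12) (nat_lit 5) (nat_lit 14) (nat_lit 5) (nat_lit 13) (nat_lit 4) (nat_lit 322) (nat_lit 254) (nat_lit 204)) (XT.lf (nat_lit 0) (nat_lit 7965625366) (nat_lit 152) (nat_lit 2451289745) (nat_lit 76) (nat_lit 19893911991) (nat_lit 12) (nat_lit 5) (nat_lit 14) (nat_lit 5) (nat_lit 13) (nat_lit 4) (nat_lit 323) (nat_lit 254) (nat_lit 203))) (XT.nd (nat_lit 78) (nat_lit 0) (nat_lit 0) (XT.lf (nat_lit 0) (nat_lit 6866958123) (nat_lit 76) (nat_lit 5683667196) (nat_lit 152) (nat_lit 19014797019) (nat_lit 11) (nat_lit 5)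 (nat_lit 12) (nat_lit 5) (nat_lit 13) (nat_lit 4) (nat_lit 324) (nat_lit 254) (nat_lit 202)) (XT.nd (nat_lit 78) (nat_lit 0) (nat_lit 0) (XT.lf (nat_lit 0) (nat_lit 16673041171) (nat_lit 76) (nat_lit 698670902) (nat_lit 152) (nat_lit 15510712317) (nat_lit 11) (nat_lit 5) (nat_lit 12) (nat_lit 5) (nat_lit 13) (nat_lit 4) (nat_lit 325) (nat_lit 254) (nat_lit 201)) (XT.lf (nat_lit 0) (nat_lit 22471216686) (nat_lit 152) (nat_lit 7428078531) (nat_lit 0) (nat_lit 4364131147) (nat_lit 11) (nat_lit 5) (nat_lit 13) (nat_lit 4) (nat_lit 11) (nat_lit 4) (nat_lit 326) (nat_lit 254) (nat_lit 200))))) (XT.nd (nat_lit 156) (nat_lit 152) (nat_lit 0) (XT.nd (nat_lit 78) (nat_lit 0) (nat_lit 0) (XT.lf (nat_lit 0) (nat_lit 1779293594) (nat_lit 76) (nat_lit 26053779630) (nat_lit 76) (nat_lit 7880053514) (nat_lit 10) (nat_lit 4) (nat_lit 11) (nat_lit 5) (nat_lit 11) (nat_lit 4) (nat_lit 327) (nat_lit 254)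 (nat_lit 199)) (XT.lf (nat_lit 0) (nat_lit 11647371187) (nat_lit 76) (nat_lit 21910211302) (nat_lit 76) (nat_lit 3673017971) (nat_lit 10) (nat_lit 4) (nat_lit 11) (nat_lit 5) (nat_lit 11) (nat_lit 4) (nat_lit 328) (nat_lit 254) (nat_lit 198))) (XT.nd (nat_lit 78) (nat_lit 76) (nat_lit 0) (XT.lf (nat_lit 0) (nat_lit 690291447) (nat_lit 152) (nat_lit 16882540831) (nat_lit 76) (nat_lit 21252061979) (nat_lit 9) (nat_lit 5) (nat_lit 11) (nat_lit 5) (nat_lit 10) (nat_lit 4) (nat_lit 329) (nat_lit 254) (nat_lit 197)) (XT.nd (nat_lit 78) (nat_lit 76) (nat_lit 0) (XT.lf (nat_lit 0) (nat_lit 5119516052) (nat_lit 152) (nat_lit 7860197026) (nat_lit 76) (nat_lit 27517633736) (nat_lit 9) (nat_lit 5) (nat_lit 11) (nat_lit 5) (nat_lit 10) (nat_lit 4) (nat_lit 330) (nat_lit 254) (nat_lit 196)) (XT.lf (nat_lit 0) (nat_lit 1614297623) (nat_lit 76) (nat_lit 8153667218) (nat_lit 152) (nat_lit 32485582439)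 (nat_lit 8) (nat_lit 5) (nat_lit 9) (nat_lit 5) (nat_lit 10) (nat_lit 4) (nat_lit 331) (nat_lit 254) (nat_lit 195))))))) (XT.nd (nat_lit 780) (nat_lit 152) (nat_lit 0) (XT.nd (nat_lit 390) (nat_lit 76) (nat_lit 0) (XT.nd (nat_lit 156) (nat_lit 76) (nat_lit 0) (XT.nd (nat_lit 78) (nat_lit 0) (nat_lit 0) (XT.lf (nat_lit 0) (nat_lit 11785588021) (nat_lit 76) (nat_lit 2969452446) (nat_lit 152) (nat_lit 29337219869) (nat_lit 8) (nat_lit 5) (nat_lit 9) (nat_lit 5) (nat_lit 10) (nat_lit 4) (nat_lit 332) (nat_lit 254) (nat_lit 194)) (XT.lf (nat_lit 0) (nat_lit 20004124614) (nat_lit 152) (nat_lit 23644489890) (nat_lit 0) (nat_lit 2373673984) (nat_lit 8) (nat_lit 5) (nat_lit 10) (nat_lit 4) (nat_lit 8) (nat_lit 4) (nat_lit 333) (nat_lit 254) (nat_lit 193))) (XT.nd (nat_lit 78) (nat_lit 76) (nat_lit 0) (XT.lf (nat_lit 0) (nat_lit 25539608313) (nat_lit 152) (nat_lit 14643971350) (nat_lit 0) (nat_lit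 7864052717) (nat_lit 8) (nat_lit 5) (nat_lit 10) (nat_lit 4) (nat_lit 8) (nat_lit 4) (nat_lit 334) (nat_lit 254) (nat_lit 192)) (XT.nd (nat_lit 78) (nat_lit 76) (nat_lit 0) (XT.lf (nat_lit 0) (nat_lit 31328309812) (nat_lit 152) (nat_lit 5237325415) (nat_lit 0) (nat_lit 13609797107) (nat_lit 8) (nat_lit 5) (nat_lit 10) (nat_lit 4) (nat_lit 8) (nat_lit 4) (nat_lit 335) (nat_lit 254) (nat_lit 191)) (XT.lf (nat_lit 0) (nat_lit 4749870201) (nat_lit 76) (nat_lit 32708300318) (nat_lit 76) (nat_lit 14948876080) (nat_lit 7) (nat_lit 4) (nat_lit 8) (nat_lit 5) (nat_lit 8) (nat_lit 4) (nat_lit 336) (nat_lit 254) (nat_lit 190))))) (XT.nd (nat_lit 156) (nat_lit 76) (nat_lit 0) (XT.nd (nat_lit 78) (nat_lit 0) (nat_lit 0) (XT.lf (nat_lit 0) (nat_lit 15377119911) (nat_lit 76) (nat_lit 28584092443) (nat_lit 76) (nat_lit 10785704840) (nat_lit 7) (nat_lit 4) (nat_lit 8) (nat_lit 5) (nat_lit 8) (nat_lit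 4) (nat_lit 337) (nat_lit 254) (nat_lit 189)) (XT.lf (nat_lit 0) (nat_lit 26496557057) (nat_lit 76) (nat_lit 24271888700) (nat_lit 76) (nat_lit 6436393130) (nat_lit 7) (nat_lit 4) (nat_lit 8) (nat_lit 5) (nat_lit 8) (nat_lit 4) (nat_lit 338) (nat_lit 254) (nat_lit 188))) (XT.nd (nat_lit 78) (nat_lit 76) (nat_lit 0) (XT.lf (nat_lit 0) (nat_lit 38134656491) (nat_lit 76) (nat_lit 19761421936) (nat_lit 76) (nat_lit 1890585446) (nat_lit 7) (nat_lit 4) (nat_lit 8) (nat_lit 5) (nat_lit 8) (nat_lit 4) (nat_lit 339) (nat_lit 254) (nat_lit 187)) (XT.nd (nat_lit 78) (nat_lit 0) (nat_lit 0) (XT.lf (nat_lit 0) (nat_lit 2770922356) (nat_lit 152) (nat_lit 12224103679) (nat_lit 76) (nat_lit 47501278705) (nat_lit 6) (nat_lit 5) (nat_lit 8) (nat_lit 5) (nat_lit 7) (nat_lit 4) (nat_lit 340) (nat_lit 254) (nat_lit 186)) (XT.lf (nat_lit 0) (nat_lit 7583558185) (nat_lit 152) (nat_lit 2390255485) (nat_lit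 76) (nat_lit 55366992736) (nat_lit 6) (nat_lit 5) (nat_lit 8) (nat_lit 5) (nat_lit 7) (nat_lit 4) (nat_lit 341) (nat_lit 254) (nat_lit 185)))))) (XT.nd (nat_lit 390) (nat_lit 76) (nat_lit 0) (XT.nd (nat_lit 156) (nat_lit 0) (nat_lit 0) (XT.nd (nat_lit 78) (nat_lit 0) (nat_lit 0) (XT.lf (nat_lit 0) (nat_lit 8163759754) (nat_lit 76) (nat_lit 4582990653) (nat_lit 152) (nat_lit 55575293995) (nat_lit 5) (nat_lit 5) (nat_lit 6) (nat_lit 5) (nat_lit 7) (nat_lit 4) (nat_lit 342) (nat_lit 254) (nat_lit 184)) (XT.lf (nat_lit 0) (nat_lit 18208627622) (nat_lit 152) (nat_lit 52172263856) (nat_lit 0) (nat_lit 1069433674) (nat_lit 5) (nat_lit 5) (nat_lit 7) (nat_lit 4) (nat_lit 5) (nat_lit 4) (nat_lit 343) (nat_lit 254) (nat_lit 183))) (XT.nd (nat_lit 78) (nat_lit 0) (nat_lit 0) (XT.lf (nat_lit 0) (nat_lit 24002120946) (nat_lit 152) (nat_lit 43893424603) (nat_lit 0) (nat_lit 6836555059) (nat_lit 5)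 (nat_lit 5) (nat_lit 7) (nat_lit 4) (nat_lit 5) (nat_lit 4) (nat_lit 344) (nat_lit 254) (nat_lit 182)) (XT.nd (nat_lit 78) (nat_lit 0) (nat_lit 0) (XT.lf (nat_lit 0) (nat_lit 30069471084) (nat_lit 152) (nat_lit 35230502039) (nat_lit 0) (nat_lit 12878789064) (nat_lit 5) (nat_lit 5) (nat_lit 7) (nat_lit 4) (nat_lit 5) (nat_lit 4) (nat_lit 345) (nat_lit 254) (nat_lit 181)) (XT.lf (nat_lit 0) (nat_lit 36425124108) (nat_lit 152) (nat_lit 26162870160) (nat_lit 0) (nat_lit 19210521962) (nat_lit 5) (nat_lit 5) (nat_lit 7) (nat_lit 4) (nat_lit 5) (nat_lit 4) (nat_lit 346) (nat_lit 254) (nat_lit 180))))) (XT.nd (nat_lit 156) (nat_lit 76) (nat_lit 0) (XT.nd (nat_lit 78) (nat_lit 0) (nat_lit 0) (XT.lf (nat_lit 0) (nat_lit 43084212525) (nat_lit 152) (nat_lit 16668939364) (nat_lit 0) (nat_lit 25846829306) (nat_lit 5) (nat_lit 5) (nat_lit 7) (nat_lit 4) (nat_lit 5) (nat_lit 4) (nat_lit 347) (nat_lit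 254) (nat_lit 179)) (XT.lf (nat_lit 0) (nat_lit 50062591307) (nat_lit 152) (nat_lit 6726105054) (nat_lit 0) (nat_lit 32803511829) (nat_lit 5) (nat_lit 5) (nat_lit 7) (nat_lit 4) (nat_lit 5) (nat_lit 4) (nat_lit 348) (nat_lit 254) (nat_lit 178))) (XT.nd (nat_lit 78) (nat_lit 0) (nat_lit 0) (XT.lf (nat_lit 0) (nat_lit 3811291306) (nat_lit 76) (nat_lit 53625089275) (nat_lit 76) (nat_lit 36345346692) (nat_lit 4) (nat_lit 4) (nat_lit 5) (nat_lit 5) (nat_lit 5) (nat_lit 4) (nat_lit 349) (nat_lit 254) (nat_lit 177)) (XT.nd (nat_lit 78) (nat_lit 0) (nat_lit 0) (XT.lf (nat_lit 0) (nat_lit 15084904083) (nat_lit 76) (nat_lit 50195094038) (nat_lit 76) (nat_lit 32895672308) (nat_lit 4) (nat_lit 4) (nat_lit 5) (nat_lit 5) (nat_lit 5) (nat_lit 4) (nat_lit 350) (nat_lit 254) (nat_lit 176)) (XT.lf (nat_lit 0) (nat_lit 26899179804) (nat_lit 76) (nat_lit 46604453839) (nat_lit 76) (nat_lit 29286290065)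 (nat_lit 4) (nat_lit 4) (nat_lit 5) (nat_lit 5) (nat_lit 5) (nat_lit 4) (nat_lit 351) (nat_lit 254) (nat_lit 175))))))))
noncomputable def xc89 : XT := (XT.nd (nat_lit 1560) (nat_lit 76) (nat_lit 0) (XT.nd (nat_lit 780) (nat_lit 0) (nat_lit 0) (XT.nd (nat_lit 390) (nat_lit 152) (nat_lit 0) (XT.nd (nat_lit 156) (nat_lit 0) (nat_lit 0) (XT.nd (nat_lit 78) (nat_lit 0) (nat_lit 0) (XT.lf (nat_lit 0) (nat_lit 39282247695) (nat_lit 76) (nat_lit 42844619537) (nat_lit 76) (nat_lit 25508606196) (nat_lit 4) (nat_lit 4) (nat_lit 5) (nat_lit 5) (nat_lit 5) (nat_lit 4) (nat_lit 352) (nat_lit 254) (nat_lit 174)) (XT.lf (nat_lit 0) (nat_lit 52263591251) (nat_lit 76) (nat_lit 38906639143) (nat_lit 76) (nat_lit 21553626215) (nat_lit 4) (nat_lit 4) (nat_lit 5) (nat_lit 5) (nat_lit 5) (nat_lit 4) (nat_lit 353) (nat_lit 254) (nat_lit 173))) (XT.nd (nat_lit 78) (nat_lit 0) (nat_lit 0) (XT.lf (nat_lit 0)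 (nat_lit 65874118434) (nat_lit 76) (nat_lit 34781136514) (nat_lit 76) (nat_lit 17411933504) (nat_lit 4) (nat_lit 4) (nat_lit 5) (nat_lit 5) (nat_lit 5) (nat_lit 4) (nat_lit 354) (nat_lit 254) (nat_lit 172)) (XT.nd (nat_lit 78) (nat_lit 0) (nat_lit 0) (XT.lf (nat_lit 0) (nat_lit 80146235261) (nat_lit 76) (nat_lit 30458289026) (nat_lit 76) (nat_lit 13073666889) (nat_lit 4) (nat_lit 4) (nat_lit 5) (nat_lit 5) (nat_lit 5) (nat_lit 4) (nat_lit 355) (nat_lit 254) (nat_lit 171)) (XT.lf (nat_lit 0) (nat_lit 95113922961) (nat_lit 76) (nat_lit 25927804183) (nat_lit 76) (nat_lit 8528497164) (nat_lit 4) (nat_lit 4) (nat_lit 5) (nat_lit 5) (nat_lit 5) (nat_lit 4) (nat_lit 356) (nat_lit 254) (nat_lit 170))))) (XT.nd (nat_lit 156) (nat_lit 76) (nat_lit 0) (XT.nd (nat_lit 78) (nat_lit 76) (nat_lit 0) (XT.lf (nat_lit 0) (nat_lit 110812818888) (nat_lit 76) (nat_lit 21178895118) (nat_lit 76) (nat_lit 3765602496)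 (nat_lit 4) (nat_lit 4) (nat_lit 5) (nat_lit 5) (nat_lit 5) (nat_lit 4) (nat_lit 357) (nat_lit 254) (nat_lit 169)) (XT.lf (nat_lit 0) (nat_lit 1187106246) (nat_lit 152) (nat_lit 14993044438) (nat_lit 76) (nat_lit 126073090899) (nat_lit 3) (nat_lit 5) (nat_lit 5) (nat_lit 5) (nat_lit 4) (nat_lit 4) (nat_lit 358) (nat_lit 254) (nat_lit 168))) (XT.nd (nat_lit 78) (nat_lit 76) (nat_lit 0) (XT.lf (nat_lit 0) (nat_lit 6252531048) (nat_lit 152) (nat_lit 4621608947) (nat_lit 76) (nat_lit 138197157993) (nat_lit 3) (nat_lit 5) (nat_lit 5) (nat_lit 5) (nat_lit 4) (nat_lit 4) (nat_lit 359) (nat_lit 254) (nat_lit 167)) (XT.nd (nat_lit 78) (nat_lit 0) (nat_lit 0) (XT.lf (nat_lit 0) (nat_lit 6460056515) (nat_lit 76) (nat_lit 5204058314) (nat_lit 152) (nat_lit 144561500956) (nat_lit 2) (nat_lit 5) (nat_lit 3) (nat_lit 5) (nat_lit 4) (nat_lit 4) (nat_lit 360) (nat_lit 254) (nat_lit 166)) (XT.lf (nat_lit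 0) (nat_lit 17429598207) (nat_lit 152) (nat_lit 145505608784) (nat_lit 0) (nat_lit 798279278) (nat_lit 2) (nat_lit 5) (nat_lit 4) (nat_lit 4) (nat_lit 2) (nat_lit 4) (nat_lit 361) (nat_lit 254) (nat_lit 165)))))) (XT.nd (nat_lit 390) (nat_lit 0) (nat_lit 0) (XT.nd (nat_lit 156) (nat_lit 0) (nat_lit 0) (XT.nd (nat_lit 78) (nat_lit 0) (nat_lit 0) (XT.lf (nat_lit 0) (nat_lit 23561111899) (nat_lit 152) (nat_lit 141132396558) (nat_lit 0) (nat_lit 6919356698) (nat_lit 2) (nat_lit 5) (nat_lit 4) (nat_lit 4) (nat_lit 2) (nat_lit 4) (nat_lit 362) (nat_lit 254) (nat_lit 164)) (XT.lf (nat_lit 0) (nat_lit 29992004812) (nat_lit 152) (nat_lit 136554260248) (nat_lit 0) (nat_lit 13340310305) (nat_lit 2) (nat_lit 5) (nat_lit 4) (nat_lit 4) (nat_lit 2) (nat_lit 4) (nat_lit 363) (nat_lit 254) (nat_lit 163))) (XT.nd (nat_lit 78) (nat_lit 0) (nat_lit 0) (XT.lf (nat_lit 0) (nat_lit 36737588596) (nat_lit 152)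 (nat_lit 131760299529) (nat_lit 0) (nat_lit 20076428082) (nat_lit 2) (nat_lit 5) (nat_lit 4) (nat_lit 4) (nat_lit 2) (nat_lit 4) (nat_lit 364) (nat_lit 254) (nat_lit 162)) (XT.nd (nat_lit 78) (nat_lit 0) (nat_lit 0) (XT.lf (nat_lit 0) (nat_lit 43813924164) (nat_lit 152) (nat_lit 126739100211) (nat_lit 0) (nat_lit 27143748406) (nat_lit 2) (nat_lit 5) (nat_lit 4) (nat_lit 4) (nat_lit 2) (nat_lit 4) (nat_lit 365) (nat_lit 254) (nat_lit 161)) (XT.lf (nat_lit 0) (nat_lit 51237859935) (nat_lit 152) (nat_lit 121478707055) (nat_lit 0) (nat_lit 34559098231) (nat_lit 2) (nat_lit 5) (nat_lit 4) (nat_lit 4) (nat_lit 2) (nat_lit 4) (nat_lit 366) (nat_lit 254) (nat_lit 160))))) (XT.nd (nat_lit 156) (nat_lit 0) (nat_lit 0) (XT.nd (nat_lit 78) (nat_lit 0) (nat_lit 0) (XT.lf (nat_lit 0) (nat_lit 59027071946) (nat_lit 152) (nat_lit 115966595316) (nat_lit 0) (nat_lit 42340133150) (nat_lit 2) (nat_lit 5)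 (nat_lit 4) (nat_lit 4) (nat_lit 2) (nat_lit 4) (nat_lit 367) (nat_lit 254) (nat_lit 159)) (XT.lf (nat_lit 0) (nat_lit 67200105940) (nat_lit 152) (nat_lit 110189640920) (nat_lit 0) (nat_lit 50505379437) (nat_lit 2) (nat_lit 5) (nat_lit 4) (nat_lit 4) (nat_lit 2) (nat_lit 4) (nat_lit 368) (nat_lit 254) (nat_lit 158))) (XT.nd (nat_lit 78) (nat_lit 0) (nat_lit 0) (XT.lf (nat_lit 0) (nat_lit 75776421521) (nat_lit 152) (nat_lit 104134089212) (nat_lit 0) (nat_lit 59074278155) (nat_lit 2) (nat_lit 5) (nat_lit 4) (nat_lit 4) (nat_lit 2) (nat_lit 4) (nat_lit 369) (nat_lit 254) (nat_lit 157)) (XT.nd (nat_lit 78) (nat_lit 0) (nat_lit 0) (XT.lf (nat_lit 0) (nat_lit 84776438490) (nat_lit 152) (nat_lit 97785522212) (nat_lit 0) (nat_lit 68067231444) (nat_lit 2) (nat_lit 5) (nat_lit 4) (nat_lit 4) (nat_lit 2) (nat_lit 4) (nat_lit 370) (nat_lit 254) (nat_lit 156)) (XT.lf (nat_lit 0) (nat_lit 94221585457)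 (nat_lit 152) (nat_lit 91128824284) (nat_lit 0) (nat_lit 77505651097) (nat_lit 2) (nat_lit 5) (nat_lit 4) (nat_lit 4) (nat_lit 2) (nat_lit 4) (nat_lit 371) (nat_lit 254) (nat_lit 155))))))) (XT.nd (nat_lit 780) (nat_lit 76) (nat_lit 0) (XT.nd (nat_lit 390) (nat_lit 0) (nat_lit 0) (XT.nd (nat_lit 156) (nat_lit 0) (nat_lit 0) (XT.nd (nat_lit 78) (nat_lit 0) (nat_lit 0) (XT.lf (nat_lit 0) (nat_lit 104134350868) (nat_lit 152) (nat_lit 84148146148) (nat_lit 0) (nat_lit 87412009543) (nat_lit 2) (nat_lit 5) (nat_lit 4) (nat_lit 4) (nat_lit 2) (nat_lit 4) (nat_lit 372) (nat_lit 254) (nat_lit 154)) (XT.lf (nat_lit 0) (nat_lit 114538336545) (nat_lit 152) (nat_lit 76826867142) (nat_lit 0) (nat_lit 97809893348) (nat_lit 2) (nat_lit 5) (nat_lit 4) (nat_lit 4) (nat_lit 2) (nat_lit 4) (nat_lit 373) (nat_lit 254) (nat_lit 153))) (XT.nd (nat_lit 78) (nat_lit 0) (nat_lit 0) (XT.lf (nat_lit 0) (nat_lit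 125458313883) (nat_lit 152) (nat_lit 69147555649) (nat_lit 0) (nat_lit 108724059379) (nat_lit 2) (nat_lit 5) (nat_lit 4) (nat_lit 4) (nat_lit 2) (nat_lit 4) (nat_lit 374) (nat_lit 254) (nat_lit 152)) (XT.nd (nat_lit 78) (nat_lit 0) (nat_lit 0) (XT.lf (nat_lit 0) (nat_lit 136920282827) (nat_lit 152) (nat_lit 61091927593) (nat_lit 0) (nat_lit 120180493746) (nat_lit 2) (nat_lit 5) (nat_lit 4) (nat_lit 4) (nat_lit 2) (nat_lit 4) (nat_lit 375) (nat_lit 254) (nat_lit 151)) (XT.lf (nat_lit 0) (nat_lit 148951533781) (nat_lit 152) (nat_lit 52640802909) (nat_lit 0) (nat_lit 132206473672) (nat_lit 2) (nat_lit 5) (nat_lit 4) (nat_lit 4) (nat_lit 2) (nat_lit 4) (nat_lit 376) (nat_lit 254) (nat_lit 150))))) (XT.nd (nat_lit 156) (nat_lit 0) (nat_lit 0) (XT.nd (nat_lit 78) (nat_lit 0) (nat_lit 0) (XT.lf (nat_lit 0) (nat_lit 161580712578) (nat_lit 152) (nat_lit 43774059870) (nat_lit 0) (nat_lit 144830632445)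 (nat_lit 2) (nat_lit 5) (nat_lit 4) (nat_lit 4) (nat_lit 2) (nat_lit 4) (nat_lit 377) (nat_lit 254) (nat_lit 149)) (XT.lf (nat_lit 0) (nat_lit 174837888694) (nat_lit 152) (nat_lit 34470587183) (nat_lit 0) (nat_lit 158083027585) (nat_lit 2) (nat_lit 5) (nat_lit 4) (nat_lit 4) (nat_lit 2) (nat_lit 4) (nat_lit 378) (nat_lit 254) (nat_lit 148))) (XT.nd (nat_lit 78) (nat_lit 0) (nat_lit 0) (XT.lf (nat_lit 0) (nat_lit 188754626833) (nat_lit 152) (nat_lit 24708233724) (nat_lit 0) (nat_lit 171995212413) (nat_lit 2) (nat_lit 5) (nat_lit 4) (nat_lit 4) (nat_lit 2) (nat_lit 4) (nat_lit 379) (nat_lit 254) (nat_lit 147)) (XT.nd (nat_lit 78) (nat_lit 0) (nat_lit 0) (XT.lf (nat_lit 0) (nat_lit 203364062085) (nat_lit 152) (nat_lit 14463755794) (nat_lit 0) (nat_lit 186600311178) (nat_lit 2) (nat_lit 5) (nat_lit 4) (nat_lit 4) (nat_lit 2) (nat_lit 4) (nat_lit 380) (nat_lit 254) (nat_lit 146)) (XT.lf (nat_lit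 0) (nat_lit 218700978821) (nat_lit 152) (nat_lit 3712761777) (nat_lit 0) (nat_lit 201933097927) (nat_lit 2) (nat_lit 5) (nat_lit 4) (nat_lit 4) (nat_lit 2) (nat_lit 4) (nat_lit 381) (nat_lit 254) (nat_lit 145)))))) (XT.nd (nat_lit 390) (nat_lit 0) (nat_lit 0) (XT.nd (nat_lit 156) (nat_lit 0) (nat_lit 0) (XT.nd (nat_lit 78) (nat_lit 0) (nat_lit 0) (XT.lf (nat_lit 0) (nat_lit 7820655753) (nat_lit 76) (nat_lit 227103340108) (nat_lit 76) (nat_lit 210331525893) (nat_lit 1) (nat_lit 4) (nat_lit 2) (nat_lit 5) (nat_lit 2) (nat_lit 4) (nat_lit 382) (nat_lit 254) (nat_lit 144)) (XT.lf (nat_lit 0) (nat_lit 20054294534) (nat_lit 76) (nat_lit 231963950864) (nat_lit 76) (nat_lit 215188390629) (nat_lit 1) (nat_lit 4) (nat_lit 2) (nat_lit 5) (nat_lit 2) (nat_lit 4) (nat_lit 383) (nat_lit 254) (nat_lit 143))) (XT.nd (nat_lit 78) (nat_lit 0) (nat_lit 0) (XT.lf (nat_lit 0) (nat_lit 32894521604) (nat_lit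 76) (nat_lit 237070023166) (nat_lit 76) (nat_lit 220290895293) (nat_lit 1) (nat_lit 4) (nat_lit 2) (nat_lit 5) (nat_lit 2) (nat_lit 4) (nat_lit 384) (nat_lit 254) (nat_lit 142)) (XT.nd (nat_lit 78) (nat_lit 0) (nat_lit 0) (XT.lf (nat_lit 0) (nat_lit 46371908931) (nat_lit 76) (nat_lit 242433714330) (nat_lit 76) (nat_lit 225651188706) (nat_lit 1) (nat_lit 4) (nat_lit 2) (nat_lit 5) (nat_lit 2) (nat_lit 4) (nat_lit 385) (nat_lit 254) (nat_lit 141)) (XT.lf (nat_lit 0) (nat_lit 60518545534) (nat_lit 76) (nat_lit 248067795047) (nat_lit 76) (nat_lit 231282033471) (nat_lit 1) (nat_lit 4) (nat_lit 2) (nat_lit 5) (nat_lit 2) (nat_lit 4) (nat_lit 386) (nat_lit 254) (nat_lit 140))))) (XT.nd (nat_lit 31512) (nat_lit 0) (nat_lit 8588) (XT.nd (nat_lit 78) (nat_lit 0) (nat_lit 0) (XT.lf (nat_lit 0) (nat_lit 75368113881) (nat_lit 76) (nat_lit 253985679798) (nat_lit 76) (nat_lit 237196836361) (nat_lit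 1) (nat_lit 4) (nat_lit 2) (nat_lit 5) (nat_lit 2) (nat_lit 4) (nat_lit 387) (nat_lit 254) (nat_lit 139)) (XT.lf (nat_lit 0) (nat_lit 90955970086) (nat_lit 76) (nat_lit 260201458782) (nat_lit 76) (nat_lit 243409680240) (nat_lit 1) (nat_lit 4) (nat_lit 2) (nat_lit 5) (nat_lit 2) (nat_lit 4) (nat_lit 388) (nat_lit 254) (nat_lit 138))) (XT.nd (nat_lit 78) (nat_lit 532) (nat_lit 0) (XT.lf (nat_lit 0) (nat_lit 1497734324) (nat_lit 380) (nat_lit 937953075) (nat_lit 380) (nat_lit 937953075) (nat_lit 121) (nat_lit 4) (nat_lit 126) (nat_lit 5) (nat_lit 126) (nat_lit 4) (nat_lit 270) (nat_lit 255) (nat_lit 255)) (XT.nd (nat_lit 78) (nat_lit 0) (nat_lit 0) (XT.lf (nat_lit 0) (nat_lit 430759034) (nat_lit 456) (nat_lit 768457343) (nat_lit 532) (nat_lit 5615271253) (nat_lit 114) (nat_lit 5) (nat_lit 120) (nat_lit 5) (nat_lit 121) (nat_lit 4) (nat_lit 271) (nat_lit 255) (nat_lit 254)) (XT.lf (nat_lit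 0) (nat_lit 4271511263) (nat_lit 532) (nat_lit 2115849317) (nat_lit 0) (nat_lit 501306450) (nat_lit 114) (nat_lit 5) (nat_lit 121) (nat_lit 4) (nat_lit 114) (nat_lit 4) (nat_lit 272) (nat_lit 255) (nat_lit 253))))))))
noncomputable def xc90 : XT := (XT.nd (nat_lit 1560) (nat_lit 1824) (nat_lit 0) (XT.nd (nat_lit 780) (nat_lit 1748) (nat_lit 0) (XT.nd (nat_lit 390) (nat_lit 1672) (nat_lit 0) (XT.nd (nat_lit 156) (nat_lit 1368) (nat_lit 0) (XT.nd (nat_lit 78) (nat_lit 0) (nat_lit 0) (XT.lf (nat_lit 0) (nat_lit 403470824) (nat_lit 608) (nat_lit 4694636575) (nat_lit 76) (nat_lit 1873982763) (nat_lit 106) (nat_lit 5) (nat_lit 114) (nat_lit 5) (nat_lit 107) (nat_lit 4) (nat_lit 273) (nat_lit 255) (nat_lit 252)) (XT.lf (nat_lit 0) (nat_lit 3369520498) (nat_lit 608) (nat_lit 282374697) (nat_lit 76) (nat_lit 3411935344) (nat_lit 106) (nat_lit 5) (nat_lit 114) (nat_lit 5) (nat_lit 107) (nat_lit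 4) (nat_lit 274) (nat_lit 255) (nat_lit 251))) (XT.nd (nat_lit 78) (nat_lit 760) (nat_lit 0) (XT.lf (nat_lit 0) (nat_lit 4351814642) (nat_lit 608) (nat_lit 2053263932) (nat_lit 684) (nat_lit 759408172) (nat_lit 98) (nat_lit 5) (nat_lit 106) (nat_lit 5) (nat_lit 107) (nat_lit 4) (nat_lit 275) (nat_lit 255) (nat_lit 250)) (XT.nd (nat_lit 78) (nat_lit 0) (nat_lit 0) (XT.lf (nat_lit 0) (nat_lit 1839234027) (nat_lit 684) (nat_lit 297700363) (nat_lit 760) (nat_lit 5137330388) (nat_lit 88) (nat_lit 5) (nat_lit 97) (nat_lit 5) (nat_lit 98) (nat_lit 5) (nat_lit 276) (nat_lit 255) (nat_lit 249)) (XT.lf (nat_lit 0) (nat_lit 5085303936) (nat_lit 760) (nat_lit 749079845) (nat_lit 76) (nat_lit 1558225045) (nat_lit 88) (nat_lit 5) (nat_lit 98) (nat_lit 5) (nat_lit 89) (nat_lit 4) (nat_lit 277) (nat_lit 255) (nat_lit 248))))) (XT.nd (nat_lit 156) (nat_lit 684) (nat_lit 0) (XT.nd (nat_lit 78) (nat_lit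 380) (nat_lit 0) (XT.lf (nat_lit 0) (nat_lit 578293451) (nat_lit 608) (nat_lit 3369237846) (nat_lit 76) (nat_lit 3572358598) (nat_lit 80) (nat_lit 5) (nat_lit 88) (nat_lit 5) (nat_lit 81) (nat_lit 5) (nat_lit 278) (nat_lit 255) (nat_lit 247)) (XT.lf (nat_lit 0) (nat_lit 1538283663) (nat_lit 380) (nat_lit 1897897123) (nat_lit 456) (nat_lit 4220475874) (nat_lit 75) (nat_lit 5) (nat_lit 80) (nat_lit 5) (nat_lit 81) (nat_lit 5) (nat_lit 279) (nat_lit 255) (nat_lit 246))) (XT.nd (nat_lit 78) (nat_lit 684) (nat_lit 0) (XT.lf (nat_lit 0) (nat_lit 6371463913) (nat_lit 456) (nat_lit 1139729316) (nat_lit 76) (nat_lit 292619995) (nat_lit 75) (nat_lit 5) (nat_lit 81) (nat_lit 5) (nat_lit 76) (nat_lit 4) (nat_lit 280) (nat_lit 255) (nat_lit 245)) (XT.nd (nat_lit 78) (nat_lit 304) (nat_lit 0) (XT.lf (nat_lit 0) (nat_lit 1419544508) (nat_lit 380) (nat_lit 3935195442) (nat_lit 76) (nat_lit 2604060484)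 (nat_lit 70) (nat_lit 5) (nat_lit 75) (nat_lit 5) (nat_lit 71) (nat_lit 5) (nat_lit 281) (nat_lit 255) (nat_lit 244)) (XT.lf (nat_lit 0) (nat_lit 1239367396) (nat_lit 304) (nat_lit 3045582533) (nat_lit 380) (nat_lit 3839699235) (nat_lit 66) (nat_lit 5) (nat_lit 70) (nat_lit 5) (nat_lit 71) (nat_lit 5) (nat_lit 282) (nat_lit 255) (nat_lit 243)))))) (XT.nd (nat_lit 390) (nat_lit 760) (nat_lit 0) (XT.nd (nat_lit 156) (nat_lit 608) (nat_lit 0) (XT.nd (nat_lit 78) (nat_lit 380) (nat_lit 0) (XT.lf (nat_lit 0) (nat_lit 6670941832) (nat_lit 304) (nat_lit 572963580) (nat_lit 380) (nat_lit 1057598433) (nat_lit 66) (nat_lit 5) (nat_lit 70) (nat_lit 5) (nat_lit 71) (nat_lit 5) (nat_lit 283) (nat_lit 255) (nat_lit 242)) (XT.lf (nat_lit 0) (nat_lit 1783838130) (nat_lit 380) (nat_lit 4676107830) (nat_lit 76) (nat_lit 2027012956) (nat_lit 61) (nat_lit 5) (nat_lit 66) (nat_lit 5) (nat_lit 62) (nat_lit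 5) (nat_lit 284) (nat_lit 255) (nat_lit 241))) (XT.nd (nat_lit 78) (nat_lit 304) (nat_lit 0) (XT.lf (nat_lit 0) (nat_lit 758945933) (nat_lit 304) (nat_lit 3912233285) (nat_lit 380) (nat_lit 4012868419) (nat_lit 57) (nat_lit 5) (nat_lit 61) (nat_lit 5) (nat_lit 62) (nat_lit 5) (nat_lit 285) (nat_lit 255) (nat_lit 240)) (XT.nd (nat_lit 78) (nat_lit 304) (nat_lit 0) (XT.lf (nat_lit 0) (nat_lit 6491534896) (nat_lit 304) (nat_lit 1183713241) (nat_lit 380) (nat_lit 1217311786) (nat_lit 57) (nat_lit 5) (nat_lit 61) (nat_lit 5) (nat_lit 62) (nat_lit 5) (nat_lit 286) (nat_lit 255) (nat_lit 239)) (XT.lf (nat_lit 0) (nat_lit 1638764335) (nat_lit 304) (nat_lit 5794101356) (nat_lit 76) (nat_lit 1678674286) (nat_lit 53) (nat_lit 5) (nat_lit 57) (nat_lit 5) (nat_lit 54) (nat_lit 5) (nat_lit 287) (nat_lit 255) (nat_lit 238))))) (XT.nd (nat_lit 156) (nat_lit 532) (nat_lit 0) (XT.nd (nat_lit 78) (nat_lit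 228) (nat_lit 0) (XT.lf (nat_lit 0) (nat_lit 4556283009) (nat_lit 304) (nat_lit 110493651) (nat_lit 76) (nat_lit 4675878842) (nat_lit 53) (nat_lit 5) (nat_lit 57) (nat_lit 5) (nat_lit 54) (nat_lit 5) (nat_lit 288) (nat_lit 255) (nat_lit 237)) (XT.lf (nat_lit 0) (nat_lit 5916946342) (nat_lit 228) (nat_lit 1698743913) (nat_lit 304) (nat_lit 1969989899) (nat_lit 50) (nat_lit 5) (nat_lit 53) (nat_lit 5) (nat_lit 54) (nat_lit 5) (nat_lit 289) (nat_lit 255) (nat_lit 236))) (XT.nd (nat_lit 78) (nat_lit 228) (nat_lit 0) (XT.lf (nat_lit 0) (nat_lit 921019837) (nat_lit 304) (nat_lit 7528275617) (nat_lit 76) (nat_lit 1392659346) (nat_lit 46) (nat_lit 5) (nat_lit 50) (nat_lit 5) (nat_lit 47) (nat_lit 5) (nat_lit 290) (nat_lit 255) (nat_lit 235)) (XT.nd (nat_lit 78) (nat_lit 228) (nat_lit 0) (XT.lf (nat_lit 0) (nat_lit 3887897100) (nat_lit 304) (nat_lit 1579552502) (nat_lit 76) (nat_lit 4642235767)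 (nat_lit 46) (nat_lit 5) (nat_lit 50) (nat_lit 5) (nat_lit 47) (nat_lit 5) (nat_lit 291) (nat_lit 255) (nat_lit 234)) (XT.lf (nat_lit 0) (nat_lit 4690014457) (nat_lit 228) (nat_lit 2297302342) (nat_lit 304) (nat_lit 3404402422) (nat_lit 43) (nat_lit 5) (nat_lit 46) (nat_lit 5) (nat_lit 47) (nat_lit 5) (nat_lit 292) (nat_lit 255) (nat_lit 233))))))) (XT.nd (nat_lit 780) (nat_lit 608) (nat_lit 0) (XT.nd (nat_lit 390) (nat_lit 532) (nat_lit 0) (XT.nd (nat_lit 156) (nat_lit 456) (nat_lit 0) (XT.nd (nat_lit 78) (nat_lit 76) (nat_lit 0) (XT.lf (nat_lit 0) (nat_lit 512727019) (nat_lit 152) (nat_lit 9692952116) (nat_lit 228) (nat_lit 484097700) (nat_lit 41) (nat_lit 5) (nat_lit 43) (nat_lit 5) (nat_lit 44) (nat_lit 4) (nat_lit 293) (nat_lit 255) (nat_lit 232)) (XT.lf (nat_lit 0) (nat_lit 2548732135) (nat_lit 228) (nat_lit 3971063023) (nat_lit 76) (nat_lit 4478577961) (nat_lit 40) (nat_lit 5)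 (nat_lit 43) (nat_lit 5) (nat_lit 41) (nat_lit 5) (nat_lit 294) (nat_lit 255) (nat_lit 231))) (XT.nd (nat_lit 78) (nat_lit 228) (nat_lit 0) (XT.lf (nat_lit 0) (nat_lit 2493843683) (nat_lit 228) (nat_lit 3179505215) (nat_lit 304) (nat_lit 5650937026) (nat_lit 37) (nat_lit 5) (nat_lit 40) (nat_lit 5) (nat_lit 41) (nat_lit 5) (nat_lit 295) (nat_lit 255) (nat_lit 230)) (XT.nd (nat_lit 78) (nat_lit 228) (nat_lit 0) (XT.lf (nat_lit 0) (nat_lit 8946546483) (nat_lit 304) (nat_lit 2374250646) (nat_lit 76) (nat_lit 346178999) (nat_lit 37) (nat_lit 5) (nat_lit 41) (nat_lit 5) (nat_lit 38) (nat_lit 4) (nat_lit 296) (nat_lit 255) (nat_lit 229)) (XT.lf (nat_lit 0) (nat_lit 388956442) (nat_lit 228) (nat_lit 7657214622) (nat_lit 76) (nat_lit 3978253090) (nat_lit 34) (nat_lit 5) (nat_lit 37) (nat_lit 5) (nat_lit 35) (nat_lit 5) (nat_lit 297) (nat_lit 255) (nat_lit 228))))) (XT.nd (nat_lit 156) (nat_lit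 380) (nat_lit 0) (XT.nd (nat_lit 78) (nat_lit 152) (nat_lit 0) (XT.lf (nat_lit 0) (nat_lit 3526527052) (nat_lit 228) (nat_lit 1034345057) (nat_lit 76) (nat_lit 7838521380) (nat_lit 34) (nat_lit 5) (nat_lit 37) (nat_lit 5) (nat_lit 35) (nat_lit 5) (nat_lit 298) (nat_lit 255) (nat_lit 227)) (XT.lf (nat_lit 0) (nat_lit 5997800880) (nat_lit 152) (nat_lit 843742786) (nat_lit 228) (nat_lit 5950620912) (nat_lit 32) (nat_lit 5) (nat_lit 34) (nat_lit 5) (nat_lit 35) (nat_lit 5) (nat_lit 299) (nat_lit 255) (nat_lit 226))) (XT.nd (nat_lit 78) (nat_lit 228) (nat_lit 0) (XT.lf (nat_lit 0) (nat_lit 52383559) (nat_lit 152) (nat_lit 10264334486) (nat_lit 228) (nat_lit 2888213601) (nat_lit 30) (nat_lit 5) (nat_lit 32) (nat_lit 5) (nat_lit 33) (nat_lit 4) (nat_lit 300) (nat_lit 255) (nat_lit 225)) (XT.nd (nat_lit 78) (nat_lit 152) (nat_lit 0) (XT.lf (nat_lit 0) (nat_lit 376079875) (nat_lit 228) (nat_lit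 6291648562) (nat_lit 76) (nat_lit 6967461564) (nat_lit 29) (nat_lit 5) (nat_lit 32) (nat_lit 5) (nat_lit 30) (nat_lit 5) (nat_lit 301) (nat_lit 255) (nat_lit 224)) (XT.lf (nat_lit 0) (nat_lit 779822149) (nat_lit 152) (nat_lit 2870742822) (nat_lit 228) (nat_lit 10436894103) (nat_lit 27) (nat_lit 5) (nat_lit 29) (nat_lit 5) (nat_lit 30) (nat_lit 5) (nat_lit 302) (nat_lit 255) (nat_lit 223)))))) (XT.nd (nat_lit 390) (nat_lit 304) (nat_lit 0) (XT.nd (nat_lit 156) (nat_lit 228) (nat_lit 0) (XT.nd (nat_lit 78) (nat_lit 76) (nat_lit 0) (XT.lf (nat_lit 0) (nat_lit 7147265205) (nat_lit 228) (nat_lit 6263939074) (nat_lit 76) (nat_lit 1148276762) (nat_lit 27) (nat_lit 5) (nat_lit 30) (nat_lit 5) (nat_lit 28) (nat_lit 4) (nat_lit 303) (nat_lit 255) (nat_lit 222)) (XT.lf (nat_lit 0) (nat_lit 1011493345) (nat_lit 76) (nat_lit 9806128983) (nat_lit 152) (nat_lit 4237601621) (nat_lit 26) (nat_lit 5)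 (nat_lit 27) (nat_lit 5) (nat_lit 28) (nat_lit 4) (nat_lit 304) (nat_lit 255) (nat_lit 221))) (XT.nd (nat_lit 78) (nat_lit 228) (nat_lit 0) (XT.lf (nat_lit 0) (nat_lit 8764109992) (nat_lit 76) (nat_lit 5950862933) (nat_lit 152) (nat_lit 858665331) (nat_lit 26) (nat_lit 5) (nat_lit 27) (nat_lit 5) (nat_lit 28) (nat_lit 4) (nat_lit 305) (nat_lit 255) (nat_lit 220)) (XT.nd (nat_lit 78) (nat_lit 0) (nat_lit 0) (XT.lf (nat_lit 0) (nat_lit 664505966) (nat_lit 152) (nat_lit 1888357942) (nat_lit 228) (nat_lit 13565576803) (nat_lit 23) (nat_lit 5) (nat_lit 25) (nat_lit 5) (nat_lit 26) (nat_lit 5) (nat_lit 306) (nat_lit 255) (nat_lit 219)) (XT.lf (nat_lit 0) (nat_lit 6200491767) (nat_lit 228) (nat_lit 8091063943) (nat_lit 76) (nat_lit 2393554941) (nat_lit 23) (nat_lit 5) (nat_lit 26) (nat_lit 5) (nat_lit 24) (nat_lit 4) (nat_lit 307) (nat_lit 255) (nat_lit 218))))) (XT.nd (nat_lit 156) (nat_lit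 228) (nat_lit 0) (XT.nd (nat_lit 78) (nat_lit 76) (nat_lit 0) (XT.lf (nat_lit 0) (nat_lit 10004362342) (nat_lit 228) (nat_lit 488070326) (nat_lit 76) (nat_lit 6789036100) (nat_lit 23) (nat_lit 5) (nat_lit 26) (nat_lit 5) (nat_lit 24) (nat_lit 4) (nat_lit 308) (nat_lit 255) (nat_lit 217)) (XT.lf (nat_lit 0) (nat_lit 7647395443) (nat_lit 76) (nat_lit 6416051739) (nat_lit 152) (nat_lit 3840992042) (nat_lit 22) (nat_lit 5) (nat_lit 23) (nat_lit 5) (nat_lit 24) (nat_lit 4) (nat_lit 309) (nat_lit 255) (nat_lit 216))) (XT.nd (nat_lit 78) (nat_lit 228) (nat_lit 0) (XT.lf (nat_lit 0) (nat_lit 16115628259) (nat_lit 76) (nat_lit 2164916536) (nat_lit 152) (nat_lit 280303790) (nat_lit 22) (nat_lit 5) (nat_lit 23) (nat_lit 5) (nat_lit 24) (nat_lit 4) (nat_lit 310) (nat_lit 255) (nat_lit 215)) (XT.nd (nat_lit 78) (nat_lit 0) (nat_lit 0) (XT.lf (nat_lit 0) (nat_lit 3424430857) (nat_lit 228) (nat_lit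 13482665303) (nat_lit 76) (nat_lit 2336486603) (nat_lit 19) (nat_lit 5) (nat_lit 22) (nat_lit 5) (nat_lit 20) (nat_lit 4) (nat_lit 311) (nat_lit 255) (nat_lit 214)) (XT.lf (nat_lit 0) (nat_lit 7331545746) (nat_lit 228) (nat_lit 5625821202) (nat_lit 76) (nat_lit 7001566177) (nat_lit 19) (nat_lit 5) (nat_lit 22) (nat_lit 5) (nat_lit 20) (nat_lit 4) (nat_lit 312) (nat_lit 255) (nat_lit 213))))))))
noncomputable def xc91 : XT := (XT.nd (nat_lit 1560) (nat_lit 304) (nat_lit 0) (XT.nd (nat_lit 780) (nat_lit 304) (nat_lit 0) (XT.nd (nat_lit 390) (nat_lit 228) (nat_lit 0) (XT.nd (nat_lit 156) (nat_lit 228) (nat_lit 0) (XT.nd (nat_lit 78) (nat_lit 0) (nat_lit 0) (XT.lf (nat_lit 0) (nat_lit 2623127942) (nat_lit 76) (nat_lit 8803255446) (nat_lit 152) (nat_lit 9284084895) (nat_lit 18) (nat_lit 5) (nat_lit 19) (nat_lit 5) (nat_lit 20) (nat_lit 4) (nat_lit 313) (nat_lit 255) (nat_lit 212)) (XT.lf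 (nat_lit 0) (nat_lit 11396512742) (nat_lit 76) (nat_lit 4377151510) (nat_lit 152) (nat_lit 5723564811) (nat_lit 18) (nat_lit 5) (nat_lit 19) (nat_lit 5) (nat_lit 20) (nat_lit 4) (nat_lit 314) (nat_lit 255) (nat_lit 211))) (XT.nd (nat_lit 78) (nat_lit 228) (nat_lit 0) (XT.lf (nat_lit 0) (nat_lit 20296687814) (nat_lit 152) (nat_lit 1800106362) (nat_lit 0) (nat_lit 228647090) (nat_lit 18) (nat_lit 5) (nat_lit 20) (nat_lit 4) (nat_lit 18) (nat_lit 4) (nat_lit 315) (nat_lit 255) (nat_lit 210)) (XT.nd (nat_lit 78) (nat_lit 0) (nat_lit 0) (XT.lf (nat_lit 0) (nat_lit 1931017330) (nat_lit 228) (nat_lit 16229132097) (nat_lit 76) (nat_lit 5026526359) (nat_lit 15) (nat_lit 5) (nat_lit 18) (nat_lit 5) (nat_lit 16) (nat_lit 4) (nat_lit 316) (nat_lit 255) (nat_lit 209)) (XT.lf (nat_lit 0) (nat_lit 6008087408) (nat_lit 228) (nat_lit 7985116437) (nat_lit 76) (nat_lit 10096758679) (nat_lit 15) (nat_lit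 5) (nat_lit 18) (nat_lit 5) (nat_lit 16) (nat_lit 4) (nat_lit 317) (nat_lit 255) (nat_lit 208))))) (XT.nd (nat_lit 156) (nat_lit 152) (nat_lit 0) (XT.nd (nat_lit 78) (nat_lit 0) (nat_lit 0) (XT.lf (nat_lit 0) (nat_lit 617056776) (nat_lit 76) (nat_lit 9640164140) (nat_lit 152) (nat_lit 14782808776) (nat_lit 14) (nat_lit 5) (nat_lit 15) (nat_lit 5) (nat_lit 16) (nat_lit 4) (nat_lit 318) (nat_lit 255) (nat_lit 207)) (XT.lf (nat_lit 0) (nat_lit 9853961171) (nat_lit 76) (nat_lit 4959496721) (nat_lit 152) (nat_lit 11219435304) (nat_lit 14) (nat_lit 5) (nat_lit 15) (nat_lit 5) (nat_lit 16) (nat_lit 4) (nat_lit 319) (nat_lit 255) (nat_lit 206))) (XT.nd (nat_lit 78) (nat_lit 152) (nat_lit 0) (XT.lf (nat_lit 0) (nat_lit 19483565367) (nat_lit 76) (nat_lit 75288954) (nat_lit 152) (nat_lit 7518502291) (nat_lit 14) (nat_lit 5) (nat_lit 15) (nat_lit 5) (nat_lit 16) (nat_lit 4) (nat_lit 320) (nat_lit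 255) (nat_lit 205)) (XT.nd (nat_lit 78) (nat_lit 76) (nat_lit 0) (XT.lf (nat_lit 0) (nat_lit 1316589216) (nat_lit 76) (nat_lit 23287115292) (nat_lit 76) (nat_lit 3567252459) (nat_lit 13) (nat_lit 4) (nat_lit 14) (nat_lit 5) (nat_lit 14) (nat_lit 4) (nat_lit 321) (nat_lit 255) (nat_lit 204)) (XT.lf (nat_lit 0) (nat_lit 657749528) (nat_lit 152) (nat_lit 18456528438) (nat_lit 76) (nat_lit 10199786055) (nat_lit 12) (nat_lit 5) (nat_lit 14) (nat_lit 5) (nat_lit 13) (nat_lit 4) (nat_lit 322) (nat_lit 255) (nat_lit 203)))))) (XT.nd (nat_lit 390) (nat_lit 228) (nat_lit 0) (XT.nd (nat_lit 156) (nat_lit 76) (nat_lit 0) (XT.nd (nat_lit 78) (nat_lit 0) (nat_lit 0) (XT.lf (nat_lit 0) (nat_lit 4938743462) (nat_lit 152) (nat_lit 9761492912) (nat_lit 76) (nat_lit 15812954671) (nat_lit 12) (nat_lit 5) (nat_lit 14) (nat_lit 5) (nat_lit 13) (nat_lit 4) (nat_lit 323) (nat_lit 255) (nat_lit 202)) (XT.lf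 (nat_lit 0) (nat_lit 9400096539) (nat_lit 152) (nat_lit 692863900) (nat_lit 76) (nat_lit 21681017402) (nat_lit 12) (nat_lit 5) (nat_lit 14) (nat_lit 5) (nat_lit 13) (nat_lit 4) (nat_lit 324) (nat_lit 255) (nat_lit 201))) (XT.nd (nat_lit 78) (nat_lit 0) (nat_lit 0) (XT.lf (nat_lit 0) (nat_lit 9060957808) (nat_lit 76) (nat_lit 5132940168) (nat_lit 152) (nat_lit 18898454962) (nat_lit 11) (nat_lit 5) (nat_lit 12) (nat_lit 5) (nat_lit 13) (nat_lit 4) (nat_lit 325) (nat_lit 255) (nat_lit 200)) (XT.nd (nat_lit 78) (nat_lit 0) (nat_lit 0) (XT.lf (nat_lit 0) (nat_lit 19208631371) (nat_lit 152) (nat_lit 15209392087) (nat_lit 0) (nat_lit 59578373) (nat_lit 11) (nat_lit 5) (nat_lit 13) (nat_lit 4) (nat_lit 11) (nat_lit 4) (nat_lit 326) (nat_lit 255) (nat_lit 199)) (XT.lf (nat_lit 0) (nat_lit 24527908297) (nat_lit 152) (nat_lit 6086142770) (nat_lit 0) (nat_lit 5315388083) (nat_lit 11) (nat_lit 5)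 (nat_lit 13) (nat_lit 4) (nat_lit 11) (nat_lit 4) (nat_lit 327) (nat_lit 255) (nat_lit 198))))) (XT.nd (nat_lit 156) (nat_lit 152) (nat_lit 0) (XT.nd (nat_lit 78) (nat_lit 0) (nat_lit 0) (XT.lf (nat_lit 0) (nat_lit 3553963450) (nat_lit 76) (nat_lit 26585777995) (nat_lit 76) (nat_lit 7312812814) (nat_lit 10) (nat_lit 4) (nat_lit 11) (nat_lit 5) (nat_lit 11) (nat_lit 4) (nat_lit 328) (nat_lit 255) (nat_lit 197)) (XT.lf (nat_lit 0) (nat_lit 13835173247) (nat_lit 76) (nat_lit 22271730804) (nat_lit 76) (nat_lit 2941198987) (nat_lit 10) (nat_lit 4) (nat_lit 11) (nat_lit 5) (nat_lit 11) (nat_lit 4) (nat_lit 329) (nat_lit 255) (nat_lit 196))) (XT.nd (nat_lit 78) (nat_lit 76) (nat_lit 0) (XT.lf (nat_lit 0) (nat_lit 1568776618) (nat_lit 152) (nat_lit 16169365115) (nat_lit 76) (nat_lit 22985385715) (nat_lit 9) (nat_lit 5) (nat_lit 11) (nat_lit 5) (nat_lit 10) (nat_lit 4) (nat_lit 330) (nat_lit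 255) (nat_lit 195)) (XT.nd (nat_lit 78) (nat_lit 76) (nat_lit 0) (XT.lf (nat_lit 0) (nat_lit 6179273378) (nat_lit 152) (nat_lit 6770061394) (nat_lit 76) (nat_lit 29532296982) (nat_lit 9) (nat_lit 5) (nat_lit 11) (nat_lit 5) (nat_lit 10) (nat_lit 4) (nat_lit 331) (nat_lit 255) (nat_lit 194)) (XT.lf (nat_lit 0) (nat_lit 3154236286) (nat_lit 76) (nat_lit 7890415582) (nat_lit 152) (nat_lit 33281783741) (nat_lit 8) (nat_lit 5) (nat_lit 9) (nat_lit 5) (nat_lit 10) (nat_lit 4) (nat_lit 332) (nat_lit 255) (nat_lit 193))))))) (XT.nd (nat_lit 780) (nat_lit 152) (nat_lit 0) (XT.nd (nat_lit 390) (nat_lit 76) (nat_lit 0) (XT.nd (nat_lit 156) (nat_lit 76) (nat_lit 0) (XT.nd (nat_lit 78) (nat_lit 0) (nat_lit 0) (XT.lf (nat_lit 0) (nat_lit 13764604358) (nat_lit 76) (nat_lit 2478939356) (nat_lit 152) (nat_lit 30015435320) (nat_lit 8) (nat_lit 5) (nat_lit 9) (nat_lit 5) (nat_lit 10) (nat_lit 4) (nat_lit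 333) (nat_lit 255) (nat_lit 192)) (XT.lf (nat_lit 0) (nat_lit 21728833304) (nat_lit 152) (nat_lit 23476566864) (nat_lit 0) (nat_lit 3081437853) (nat_lit 8) (nat_lit 5) (nat_lit 10) (nat_lit 4) (nat_lit 8) (nat_lit 4) (nat_lit 334) (nat_lit 255) (nat_lit 191))) (XT.nd (nat_lit 78) (nat_lit 76) (nat_lit 0) (XT.lf (nat_lit 0) (nat_lit 27506591070) (nat_lit 152) (nat_lit 14090315136) (nat_lit 0) (nat_lit 8818284087) (nat_lit 8) (nat_lit 5) (nat_lit 10) (nat_lit 4) (nat_lit 8) (nat_lit 4) (nat_lit 335) (nat_lit 255) (nat_lit 190)) (XT.nd (nat_lit 78) (nat_lit 76) (nat_lit 0) (XT.lf (nat_lit 0) (nat_lit 33551870390) (nat_lit 152) (nat_lit 4274568084) (nat_lit 0) (nat_lit 14824600041) (nat_lit 8) (nat_lit 5) (nat_lit 10) (nat_lit 4) (nat_lit 8) (nat_lit 4) (nat_lit 336) (nat_lit 255) (nat_lit 189)) (XT.lf (nat_lit 0) (nat_lit 6192235319) (nat_lit 76) (nat_lit 33783507613) (nat_lit 76) (nat_lit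 15019129297) (nat_lit 7) (nat_lit 4) (nat_lit 8) (nat_lit 5) (nat_lit 8) (nat_lit 4) (nat_lit 337) (nat_lit 255) (nat_lit 188))))) (XT.nd (nat_lit 156) (nat_lit 76) (nat_lit 0) (XT.nd (nat_lit 78) (nat_lit 0) (nat_lit 0) (XT.lf (nat_lit 0) (nat_lit 17293472675) (nat_lit 76) (nat_lit 29479765902) (nat_lit 76) (nat_lit 10680046666) (nat_lit 7) (nat_lit 4) (nat_lit 8) (nat_lit 5) (nat_lit 8) (nat_lit 4) (nat_lit 338) (nat_lit 255) (nat_lit 187)) (XT.lf (nat_lit 0) (nat_lit 28914238976) (nat_lit 76) (nat_lit 24977358217) (nat_lit 76) (nat_lit 6143980962) (nat_lit 7) (nat_lit 4) (nat_lit 8) (nat_lit 5) (nat_lit 8) (nat_lit 4) (nat_lit 339) (nat_lit 255) (nat_lit 186))) (XT.nd (nat_lit 78) (nat_lit 76) (nat_lit 0) (XT.lf (nat_lit 0) (nat_lit 41082202711) (nat_lit 76) (nat_lit 20265564541) (nat_lit 76) (nat_lit 1400132028) (nat_lit 7) (nat_lit 4) (nat_lit 8) (nat_lit 5) (nat_lit 8) (nat_lit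 4) (nat_lit 340) (nat_lit 255) (nat_lit 185)) (XT.nd (nat_lit 78) (nat_lit 0) (nat_lit 0) (XT.lf (nat_lit 0) (nat_lit 3448763322) (nat_lit 152) (nat_lit 11825996517) (nat_lit 76) (nat_lit 50319165427) (nat_lit 6) (nat_lit 5) (nat_lit 8) (nat_lit 5) (nat_lit 7) (nat_lit 4) (nat_lit 341) (nat_lit 255) (nat_lit 184)) (XT.lf (nat_lit 0) (nat_lit 8476350236) (nat_lit 152) (nat_lit 1548518406) (nat_lit 76) (nat_lit 58557078360) (nat_lit 6) (nat_lit 5) (nat_lit 8) (nat_lit 5) (nat_lit 7) (nat_lit 4) (nat_lit 342) (nat_lit 255) (nat_lit 183)))))) (XT.nd (nat_lit 390) (nat_lit 76) (nat_lit 0) (XT.nd (nat_lit 156) (nat_lit 0) (nat_lit 0) (XT.nd (nat_lit 78) (nat_lit 0) (nat_lit 0) (XT.lf (nat_lit 0) (nat_lit 9517693565) (nat_lit 76) (nat_lit 4370316430) (nat_lit 152) (nat_lit 57824731936) (nat_lit 5) (nat_lit 5) (nat_lit 6) (nat_lit 5) (nat_lit 7) (nat_lit 4) (nat_lit 343) (nat_lit 255) (nat_lit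 182)) (XT.lf (nat_lit 0) (nat_lit 19605554407) (nat_lit 152) (nat_lit 53862541422) (nat_lit 0) (nat_lit 1530222154) (nat_lit 5) (nat_lit 5) (nat_lit 7) (nat_lit 4) (nat_lit 5) (nat_lit 4) (nat_lit 344) (nat_lit 255) (nat_lit 181))) (XT.nd (nat_lit 78) (nat_lit 0) (nat_lit 0) (XT.lf (nat_lit 0) (nat_lit 25665555950) (nat_lit 152) (nat_lit 45213490474) (nat_lit 0) (nat_lit 7566303570) (nat_lit 5) (nat_lit 5) (nat_lit 7) (nat_lit 4) (nat_lit 5) (nat_lit 4) (nat_lit 345) (nat_lit 255) (nat_lit 180)) (XT.nd (nat_lit 78) (nat_lit 0) (nat_lit 0) (XT.lf (nat_lit 0) (nat_lit 32014210311) (nat_lit 152) (nat_lit 36159069657) (nat_lit 0) (nat_lit 13892176859) (nat_lit 5) (nat_lit 5) (nat_lit 7) (nat_lit 4) (nat_lit 5) (nat_lit 4) (nat_lit 346) (nat_lit 255) (nat_lit 179)) (XT.lf (nat_lit 0) (nat_lit 38666633335) (nat_lit 152) (nat_lit 26677720825) (nat_lit 0) (nat_lit 20522903624) (nat_lit 5) (nat_lit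 5) (nat_lit 7) (nat_lit 4) (nat_lit 5) (nat_lit 4) (nat_lit 347) (nat_lit 255) (nat_lit 178))))) (XT.nd (nat_lit 234) (nat_lit 0) (nat_lit 0) (XT.nd (nat_lit 78) (nat_lit 76) (nat_lit 0) (XT.lf (nat_lit 0) (nat_lit 45638664124) (nat_lit 152) (nat_lit 16746869339) (nat_lit 0) (nat_lit 27474271308) (nat_lit 5) (nat_lit 5) (nat_lit 7) (nat_lit 4) (nat_lit 5) (nat_lit 4) (nat_lit 348) (nat_lit 255) (nat_lit 177)) (XT.nd (nat_lit 78) (nat_lit 76) (nat_lit 0) (XT.lf (nat_lit 0) (nat_lit 52946902751) (nat_lit 152) (nat_lit 6342870314) (nat_lit 0) (nat_lit 34762830789) (nat_lit 5) (nat_lit 5) (nat_lit 7) (nat_lit 4) (nat_lit 5) (nat_lit 4) (nat_lit 349) (nat_lit 255) (nat_lit 176)) (XT.lf (nat_lit 0) (nat_lit 4709790381) (nat_lit 76) (nat_lit 55972492431) (nat_lit 76) (nat_lit 37769678424) (nat_lit 4) (nat_lit 4) (nat_lit 5) (nat_lit 5) (nat_lit 5) (nat_lit 4) (nat_lit 350) (nat_lit 255) (nat_lit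 175)))) (XT.nd (nat_lit 78) (nat_lit 0) (nat_lit 0) (XT.lf (nat_lit 0) (nat_lit 16513372630) (nat_lit 76) (nat_lit 52386895114) (nat_lit 76) (nat_lit 34166231540) (nat_lit 4) (nat_lit 4) (nat_lit 5) (nat_lit 5) (nat_lit 5) (nat_lit 4) (nat_lit 351) (nat_lit 255) (nat_lit 174)) (XT.nd (nat_lit 78) (nat_lit 0) (nat_lit 0) (XT.lf (nat_lit 0) (nat_lit 28886256263) (nat_lit 76) (nat_lit 48631863555) (nat_lit 76) (nat_lit 30394200394) (nat_lit 4) (nat_lit 4) (nat_lit 5) (nat_lit 5) (nat_lit 5) (nat_lit 4) (nat_lit 352) (nat_lit 255) (nat_lit 173)) (XT.lf (nat_lit 0) (nat_lit 41857900526) (nat_lit 76) (nat_lit 44698457202) (nat_lit 76) (nat_lit 26444603958) (nat_lit 4) (nat_lit 4) (nat_lit 5) (nat_lit 5) (nat_lit 5) (nat_lit 4) (nat_lit 353) (nat_lit 255) (nat_lit 172))))))))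
noncomputable def xc92 : XT := (XT.nd (nat_lit 1560) (nat_lit 76) (nat_lit 0) (XT.nd (nat_lit 780) (nat_lit 0) (nat_lit 0) (XT.nd (nat_lit 390) (nat_lit 152) (nat_lit 0) (XT.nd (nat_lit 156) (nat_lit 0) (nat_lit 0) (XT.nd (nat_lit 78) (nat_lit 0) (nat_lit 0) (XT.lf (nat_lit 0) (nat_lit 55459190287) (nat_lit 76) (nat_lit 40577310804) (nat_lit 76) (nat_lit 22308038433) (nat_lit 4) (nat_lit 4) (nat_lit 5) (nat_lit 5) (nat_lit 5) (nat_lit 4) (nat_lit 354) (nat_lit 255) (nat_lit 171)) (XT.lf (nat_lit 0) (nat_lit 69722509568) (nat_lit 76) (nat_lit 36258612105) (nat_lit 76) (nat_lit 17974654853) (nat_lit 4) (nat_lit 4) (nat_lit 5) (nat_lit 5) (nat_lit 5) (nat_lit 4) (nat_lit 355) (nat_lit 255) (nat_lit 170))) (XT.nd (nat_lit 78) (nat_lit 0) (nat_lit 0) (XT.lf (nat_lit 0) (nat_lit 84681818655) (nat_lit 76) (nat_lit 31732078492) (nat_lit 76) (nat_lit 13434135636) (nat_lit 4) (nat_lit 4) (nat_lit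 5) (nat_lit 5) (nat_lit 5) (nat_lit 4) (nat_lit 356) (nat_lit 255) (nat_lit 169)) (XT.nd (nat_lit 78) (nat_lit 0) (nat_lit 0) (XT.lf (nat_lit 0) (nat_lit 100372734948) (nat_lit 76) (nat_lit 26986932501) (nat_lit 76) (nat_lit 8675670025) (nat_lit 4) (nat_lit 4) (nat_lit 5) (nat_lit 5) (nat_lit 5) (nat_lit 4) (nat_lit 357) (nat_lit 255) (nat_lit 168)) (XT.lf (nat_lit 0) (nat_lit 116832617774) (nat_lit 76) (nat_lit 22011876168) (nat_lit 76) (nat_lit 3687928338) (nat_lit 4) (nat_lit 4) (nat_lit 5) (nat_lit 5) (nat_lit 5) (nat_lit 4) (nat_lit 358) (nat_lit 255) (nat_lit 167))))) (XT.nd (nat_lit 156) (nat_lit 76) (nat_lit 0) (XT.nd (nat_lit 78) (nat_lit 0) (nat_lit 0) (XT.lf (nat_lit 0) (nat_lit 1491644496) (nat_lit 152) (nat_lit 15278157901) (nat_lit 76) (nat_lit 132583751111) (nat_lit 3) (nat_lit 5) (nat_lit 5) (nat_lit 5) (nat_lit 4) (nat_lit 4) (nat_lit 359) (nat_lit 255) (nat_lit 166))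 (XT.lf (nat_lit 0) (nat_lit 6798665160) (nat_lit 152) (nat_lit 4410271528) (nat_lit 76) (nat_lit 145304164147) (nat_lit 3) (nat_lit 5) (nat_lit 5) (nat_lit 5) (nat_lit 4) (nat_lit 4) (nat_lit 360) (nat_lit 255) (nat_lit 165))) (XT.nd (nat_lit 78) (nat_lit 0) (nat_lit 0) (XT.lf (nat_lit 0) (nat_lit 7218341434) (nat_lit 76) (nat_lit 5258163262) (nat_lit 152) (nat_lit 151548850126) (nat_lit 2) (nat_lit 5) (nat_lit 3) (nat_lit 5) (nat_lit 4) (nat_lit 4) (nat_lit 361) (nat_lit 255) (nat_lit 164)) (XT.nd (nat_lit 78) (nat_lit 0) (nat_lit 0) (XT.lf (nat_lit 0) (nat_lit 18522413254) (nat_lit 152) (nat_lit 152358407243) (nat_lit 0) (nat_lit 1028194715) (nat_lit 2) (nat_lit 5) (nat_lit 4) (nat_lit 4) (nat_lit 2) (nat_lit 4) (nat_lit 362) (nat_lit 255) (nat_lit 163)) (XT.lf (nat_lit 0) (nat_lit 24949962862) (nat_lit 152) (nat_lit 147786652595) (nat_lit 0) (nat_lit 7446278316) (nat_lit 2) (nat_lit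 5) (nat_lit 4) (nat_lit 4) (nat_lit 2) (nat_lit 4) (nat_lit 363) (nat_lit 255) (nat_lit 162)))))) (XT.nd (nat_lit 390) (nat_lit 0) (nat_lit 0) (XT.nd (nat_lit 156) (nat_lit 0) (nat_lit 0) (XT.nd (nat_lit 78) (nat_lit 0) (nat_lit 0) (XT.lf (nat_lit 0) (nat_lit 31692362545) (nat_lit 152) (nat_lit 142998769650) (nat_lit 0) (nat_lit 14179662756) (nat_lit 2) (nat_lit 5) (nat_lit 4) (nat_lit 4) (nat_lit 2) (nat_lit 4) (nat_lit 364) (nat_lit 255) (nat_lit 161)) (XT.lf (nat_lit 0) (nat_lit 38765665638) (nat_lit 152) (nat_lit 137983358687) (nat_lit 0) (nat_lit 21244379902) (nat_lit 2) (nat_lit 5) (nat_lit 4) (nat_lit 4) (nat_lit 2) (nat_lit 4) (nat_lit 365) (nat_lit 255) (nat_lit 160))) (XT.nd (nat_lit 78) (nat_lit 0) (nat_lit 0) (XT.lf (nat_lit 0) (nat_lit 46186713336) (nat_lit 152) (nat_lit 132728478251) (nat_lit 0) (nat_lit 28657250508) (nat_lit 2) (nat_lit 5) (nat_lit 4) (nat_lit 4) (nat_lit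 2) (nat_lit 4) (nat_lit 366) (nat_lit 255) (nat_lit 159)) (XT.nd (nat_lit 78) (nat_lit 0) (nat_lit 0) (XT.lf (nat_lit 0) (nat_lit 53973174802) (nat_lit 152) (nat_lit 127221616722) (nat_lit 0) (nat_lit 36435924267) (nat_lit 2) (nat_lit 5) (nat_lit 4) (nat_lit 4) (nat_lit 2) (nat_lit 4) (nat_lit 367) (nat_lit 255) (nat_lit 158)) (XT.lf (nat_lit 0) (nat_lit 62143589229) (nat_lit 152) (nat_lit 121449662524) (nat_lit 0) (nat_lit 44598921831) (nat_lit 2) (nat_lit 5) (nat_lit 4) (nat_lit 4) (nat_lit 2) (nat_lit 4) (nat_lit 368) (nat_lit 255) (nat_lit 157))))) (XT.nd (nat_lit 156) (nat_lit 0) (nat_lit 0) (XT.nd (nat_lit 78) (nat_lit 0) (nat_lit 0) (XT.lf (nat_lit 0) (nat_lit 70717409985) (nat_lit 152) (nat_lit 115398872910) (nat_lit 0) (nat_lit 53165678908) (nat_lit 2) (nat_lit 5) (nat_lit 4) (nat_lit 4) (nat_lit 2) (nat_lit 4) (nat_lit 369) (nat_lit 255) (nat_lit 156)) (XT.lf (nat_lit 0) (nat_lit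 79715050929) (nat_lit 152) (nat_lit 109054841239) (nat_lit 0) (nat_lit 62156592538) (nat_lit 2) (nat_lit 5) (nat_lit 4) (nat_lit 4) (nat_lit 2) (nat_lit 4) (nat_lit 370) (nat_lit 255) (nat_lit 155))) (XT.nd (nat_lit 78) (nat_lit 0) (nat_lit 0) (XT.lf (nat_lit 0) (nat_lit 89157935016) (nat_lit 152) (nat_lit 102402462671) (nat_lit 0) (nat_lit 71593069659) (nat_lit 2) (nat_lit 5) (nat_lit 4) (nat_lit 4) (nat_lit 2) (nat_lit 4) (nat_lit 371) (nat_lit 255) (nat_lit 154)) (XT.nd (nat_lit 78) (nat_lit 0) (nat_lit 0) (XT.lf (nat_lit 0) (nat_lit 99068545303) (nat_lit 152) (nat_lit 95425898212) (nat_lit 0) (nat_lit 81497578074) (nat_lit 2) (nat_lit 5) (nat_lit 4) (nat_lit 4) (nat_lit 2) (nat_lit 4) (nat_lit 372) (nat_lit 255) (nat_lit 153)) (XT.lf (nat_lit 0) (nat_lit 109470478481) (nat_lit 152) (nat_lit 88108536992) (nat_lit 0) (nat_lit 91893699945) (nat_lit 2) (nat_lit 5) (nat_lit 4) (nat_lit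 4) (nat_lit 2) (nat_lit 4) (nat_lit 373) (nat_lit 255) (nat_lit 152))))))) (XT.nd (nat_lit 780) (nat_lit 0) (nat_lit 0) (XT.nd (nat_lit 390) (nat_lit 76) (nat_lit 0) (XT.nd (nat_lit 156) (nat_lit 0) (nat_lit 0) (XT.nd (nat_lit 78) (nat_lit 0) (nat_lit 0) (XT.lf (nat_lit 0) (nat_lit 120388501058) (nat_lit 152) (nat_lit 80432956725) (nat_lit 0) (nat_lit 102806187944) (nat_lit 2) (nat_lit 5) (nat_lit 4) (nat_lit 4) (nat_lit 2) (nat_lit 4) (nat_lit 374) (nat_lit 255) (nat_lit 151)) (XT.lf (nat_lit 0) (nat_lit 131848608325) (nat_lit 152) (nat_lit 72380882217) (nat_lit 0) (nat_lit 114261024185) (nat_lit 2) (nat_lit 5) (nat_lit 4) (nat_lit 4) (nat_lit 2) (nat_lit 4) (nat_lit 375) (nat_lit 255) (nat_lit 150))) (XT.nd (nat_lit 78) (nat_lit 0) (nat_lit 0) (XT.lf (nat_lit 0) (nat_lit 143878086252) (nat_lit 152) (nat_lit 63933141864) (nat_lit 0) (nat_lit 126285482087) (nat_lit 2) (nat_lit 5) (nat_lit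 4) (nat_lit 4) (nat_lit 2) (nat_lit 4) (nat_lit 376) (nat_lit 255) (nat_lit 149)) (XT.nd (nat_lit 78) (nat_lit 0) (nat_lit 0) (XT.lf (nat_lit 0) (nat_lit 156505576454) (nat_lit 152) (nat_lit 55069621998) (nat_lit 0) (nat_lit 138908191313) (nat_lit 2) (nat_lit 5) (nat_lit 4) (nat_lit 4) (nat_lit 2) (nat_lit 4) (nat_lit 377) (nat_lit 255) (nat_lit 148)) (XT.lf (nat_lit 0) (nat_lit 169761144383) (nat_lit 152) (nat_lit 45769219000) (nat_lit 0) (nat_lit 152159205931) (nat_lit 2) (nat_lit 5) (nat_lit 4) (nat_lit 4) (nat_lit 2) (nat_lit 4) (nat_lit 378) (nat_lit 255) (nat_lit 147))))) (XT.nd (nat_lit 156) (nat_lit 76) (nat_lit 0) (XT.nd (nat_lit 78) (nat_lit 0) (nat_lit 0) (XT.lf (nat_lit 0) (nat_lit 183676350916) (nat_lit 152) (nat_lit 36009789054) (nat_lit 0) (nat_lit 166070075977) (nat_lit 2) (nat_lit 5) (nat_lit 4) (nat_lit 4) (nat_lit 2) (nat_lit 4) (nat_lit 379) (nat_lit 255) (nat_lit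 146)) (XT.lf (nat_lit 0) (nat_lit 198284327495) (nat_lit 152) (nat_lit 25768095422) (nat_lit 0) (nat_lit 180673922569) (nat_lit 2) (nat_lit 5) (nat_lit 4) (nat_lit 4) (nat_lit 2) (nat_lit 4) (nat_lit 380) (nat_lit 255) (nat_lit 145))) (XT.nd (nat_lit 78) (nat_lit 76) (nat_lit 0) (XT.lf (nat_lit 0) (nat_lit 213619855019) (nat_lit 152) (nat_lit 15019753118) (nat_lit 0) (nat_lit 196005516772) (nat_lit 2) (nat_lit 5) (nat_lit 4) (nat_lit 4) (nat_lit 2) (nat_lit 4) (nat_lit 381) (nat_lit 255) (nat_lit 144)) (XT.nd (nat_lit 78) (nat_lit 76) (nat_lit 0) (XT.lf (nat_lit 0) (nat_lit 229719446647) (nat_lit 152) (nat_lit 3739170851) (nat_lit 0) (nat_lit 212101362380) (nat_lit 2) (nat_lit 5) (nat_lit 4) (nat_lit 4) (nat_lit 2) (nat_lit 4) (nat_lit 382) (nat_lit 255) (nat_lit 143)) (XT.lf (nat_lit 0) (nat_lit 8368349346) (nat_lit 76) (nat_lit 238383738780) (nat_lit 76) (nat_lit 220762086875) (nat_lit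 1) (nat_lit 4) (nat_lit 2) (nat_lit 5) (nat_lit 2) (nat_lit 4) (nat_lit 383) (nat_lit 255) (nat_lit 142)))))) (XT.nd (nat_lit 31590) (nat_lit 0) (nat_lit 8588) (XT.nd (nat_lit 156) (nat_lit 0) (nat_lit 0) (XT.nd (nat_lit 78) (nat_lit 0) (nat_lit 0) (XT.lf (nat_lit 0) (nat_lit 21206210027) (nat_lit 76) (nat_lit 243490940471) (nat_lit 76) (nat_lit 225865890815) (nat_lit 1) (nat_lit 4) (nat_lit 2) (nat_lit 5) (nat_lit 2) (nat_lit 4) (nat_lit 384) (nat_lit 255) (nat_lit 141)) (XT.lf (nat_lit 0) (nat_lit 34681343652) (nat_lit 76) (nat_lit 248855707242) (nat_lit 76) (nat_lit 231227421633) (nat_lit 1) (nat_lit 4) (nat_lit 2) (nat_lit 5) (nat_lit 2) (nat_lit 4) (nat_lit 385) (nat_lit 255) (nat_lit 140))) (XT.nd (nat_lit 78) (nat_lit 0) (nat_lit 0) (XT.lf (nat_lit 0) (nat_lit 48825833871) (nat_lit 76) (nat_lit 254490812348) (nat_lit 76) (nat_lit 236859444880) (nat_lit 1) (nat_lit 4) (nat_lit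 2) (nat_lit 5) (nat_lit 2) (nat_lit 4) (nat_lit 386) (nat_lit 255) (nat_lit 139)) (XT.nd (nat_lit 78) (nat_lit 0) (nat_lit 0) (XT.lf (nat_lit 0) (nat_lit 63673358043) (nat_lit 76) (nat_lit 260409672707) (nat_lit 76) (nat_lit 242775370133) (nat_lit 1) (nat_lit 4) (nat_lit 2) (nat_lit 5) (nat_lit 2) (nat_lit 4) (nat_lit 387) (nat_lit 255) (nat_lit 138)) (XT.lf (nat_lit 0) (nat_lit 79259267415) (nat_lit 76) (nat_lit 266626380842) (nat_lit 76) (nat_lit 248989282930) (nat_lit 1) (nat_lit 4) (nat_lit 2) (nat_lit 5) (nat_lit 2) (nat_lit 4) (nat_lit 388) (nat_lit 255) (nat_lit 137))))) (XT.nd (nat_lit 156) (nat_lit 912) (nat_lit 0) (XT.nd (nat_lit 78) (nat_lit 0) (nat_lit 0) (XT.lf (nat_lit 0) (nat_lit 391611912) (nat_lit 380) (nat_lit 2535116114) (nat_lit 0) (nat_lit 391611912) (nat_lit 126) (nat_lit 5) (nat_lit 131) (nat_lit 4) (nat_lit 126) (nat_lit 4) (nat_lit 268) (nat_lit 256) (nat_lit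 256)) (XT.lf (nat_lit 0) (nat_lit 3834461572) (nat_lit 380) (nat_lit 1149670798) (nat_lit 0) (nat_lit 1705445306) (nat_lit 126) (nat_lit 5) (nat_lit 131) (nat_lit 4) (nat_lit 126) (nat_lit 4) (nat_lit 269) (nat_lit 256) (nat_lit 255))) (XT.nd (nat_lit 78) (nat_lit 456) (nat_lit 0) (XT.lf (nat_lit 0) (nat_lit 161782814) (nat_lit 456) (nat_lit 3824996036) (nat_lit 76) (nat_lit 2764708072) (nat_lit 120) (nat_lit 5) (nat_lit 126) (nat_lit 5) (nat_lit 121) (nat_lit 4) (nat_lit 270) (nat_lit 256) (nat_lit 254)) (XT.nd (nat_lit 78) (nat_lit 0) (nat_lit 0) (XT.lf (nat_lit 0) (nat_lit 256783633) (nat_lit 456) (nat_lit 2838101710) (nat_lit 532) (nat_lit 3726673530) (nat_lit 114) (nat_lit 5) (nat_lit 120) (nat_lit 5) (nat_lit 121) (nat_lit 4) (nat_lit 271) (nat_lit 256) (nat_lit 253)) (XT.lf (nat_lit 0) (nat_lit 4542460437) (nat_lit 456) (nat_lit 1540132761) (nat_lit 532) (nat_lit 817594156) (nat_lit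 114) (nat_lit 5) (nat_lit 120) (nat_lit 5) (nat_lit 121) (nat_lit 4) (nat_lit 272) (nat_lit 256) (nat_lit 252))))))))
noncomputable def xc93 : XT := (XT.nd (nat_lit 1560) (nat_lit 1824) (nat_lit 0) (XT.nd (nat_lit 780) (nat_lit 2052) (nat_lit 0) (XT.nd (nat_lit 390) (nat_lit 1368) (nat_lit 0) (XT.nd (nat_lit 156) (nat_lit 1368) (nat_lit 0) (XT.nd (nat_lit 78) (nat_lit 0) (nat_lit 0) (XT.lf (nat_lit 0) (nat_lit 1955232454) (nat_lit 532) (nat_lit 88413619) (nat_lit 608) (nat_lit 4943848360) (nat_lit 106) (nat_lit 5) (nat_lit 113) (nat_lit 5) (nat_lit 114) (nat_lit 5) (nat_lit 273) (nat_lit 256) (nat_lit 251)) (XT.lf (nat_lit 0) (nat_lit 4936735801) (nat_lit 608) (nat_lit 685922584) (nat_lit 76) (nat_lit 1460414231) (nat_lit 106) (nat_lit 5) (nat_lit 114) (nat_lit 5) (nat_lit 107) (nat_lit 4) (nat_lit 274) (nat_lit 256) (nat_lit 250))) (XT.nd (nat_lit 78) (nat_lit 684) (nat_lit 0) (XT.lf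 (nat_lit 0) (nat_lit 686196165) (nat_lit 684) (nat_lit 3330056659) (nat_lit 76) (nat_lit 3170889071) (nat_lit 97) (nat_lit 5) (nat_lit 106) (nat_lit 5) (nat_lit 98) (nat_lit 5) (nat_lit 275) (nat_lit 256) (nat_lit 249)) (XT.nd (nat_lit 78) (nat_lit 0) (nat_lit 0) (XT.lf (nat_lit 0) (nat_lit 1224881266) (nat_lit 684) (nat_lit 2256603376) (nat_lit 760) (nat_lit 3818843840) (nat_lit 88) (nat_lit 5) (nat_lit 97) (nat_lit 5) (nat_lit 98) (nat_lit 5) (nat_lit 276) (nat_lit 256) (nat_lit 248)) (XT.lf (nat_lit 0) (nat_lit 5991172544) (nat_lit 684) (nat_lit 348585039) (nat_lit 760) (nat_lit 1083575933) (nat_lit 88) (nat_lit 5) (nat_lit 97) (nat_lit 5) (nat_lit 98) (nat_lit 5) (nat_lit 277) (nat_lit 256) (nat_lit 247))))) (XT.nd (nat_lit 156) (nat_lit 380) (nat_lit 0) (XT.nd (nat_lit 78) (nat_lit 380) (nat_lit 0) (XT.lf (nat_lit 0) (nat_lit 1682136333) (nat_lit 608) (nat_lit 4188636076) (nat_lit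 76) (nat_lit 1683064477) (nat_lit 80) (nat_lit 5) (nat_lit 88) (nat_lit 5) (nat_lit 81) (nat_lit 5) (nat_lit 278) (nat_lit 256) (nat_lit 246)) (XT.lf (nat_lit 0) (nat_lit 623931935) (nat_lit 380) (nat_lit 3840788840) (nat_lit 456) (nat_lit 3229782916) (nat_lit 75) (nat_lit 5) (nat_lit 80) (nat_lit 5) (nat_lit 81) (nat_lit 5) (nat_lit 279) (nat_lit 256) (nat_lit 245))) (XT.nd (nat_lit 78) (nat_lit 380) (nat_lit 0) (XT.lf (nat_lit 0) (nat_lit 5690058803) (nat_lit 380) (nat_lit 1646095142) (nat_lit 456) (nat_lit 508827279) (nat_lit 75) (nat_lit 5) (nat_lit 80) (nat_lit 5) (nat_lit 81) (nat_lit 5) (nat_lit 280) (nat_lit 256) (nat_lit 244)) (XT.nd (nat_lit 78) (nat_lit 0) (nat_lit 0) (XT.lf (nat_lit 0) (nat_lit 2212670253) (nat_lit 380) (nat_lit 5082980336) (nat_lit 76) (nat_lit 708755322) (nat_lit 70) (nat_lit 5) (nat_lit 75) (nat_lit 5) (nat_lit 71) (nat_lit 5) (nat_lit 281) (nat_lit 256)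 (nat_lit 243)) (XT.lf (nat_lit 0) (nat_lit 5003016013) (nat_lit 380) (nat_lit 13406934) (nat_lit 76) (nat_lit 3157695655) (nat_lit 70) (nat_lit 5) (nat_lit 75) (nat_lit 5) (nat_lit 71) (nat_lit 5) (nat_lit 282) (nat_lit 256) (nat_lit 242)))))) (XT.nd (nat_lit 390) (nat_lit 760) (nat_lit 0) (XT.nd (nat_lit 156) (nat_lit 608) (nat_lit 0) (XT.nd (nat_lit 78) (nat_lit 380) (nat_lit 0) (XT.lf (nat_lit 0) (nat_lit 5353455848) (nat_lit 304) (nat_lit 2554239175) (nat_lit 380) (nat_lit 446097777) (nat_lit 66) (nat_lit 5) (nat_lit 70) (nat_lit 5) (nat_lit 71) (nat_lit 5) (nat_lit 283) (nat_lit 256) (nat_lit 241)) (XT.lf (nat_lit 0) (nat_lit 2268751901) (nat_lit 380) (nat_lit 6190526487) (nat_lit 76) (nat_lit 84938740) (nat_lit 61) (nat_lit 5) (nat_lit 66) (nat_lit 5) (nat_lit 62) (nat_lit 5) (nat_lit 284) (nat_lit 256) (nat_lit 240))) (XT.nd (nat_lit 78) (nat_lit 608) (nat_lit 0) (XT.lf (nat_lit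 0) (nat_lit 5093170904) (nat_lit 380) (nat_lit 844246941) (nat_lit 76) (nat_lit 2807125410) (nat_lit 61) (nat_lit 5) (nat_lit 66) (nat_lit 5) (nat_lit 62) (nat_lit 5) (nat_lit 285) (nat_lit 256) (nat_lit 239)) (XT.nd (nat_lit 78) (nat_lit 304) (nat_lit 0) (XT.lf (nat_lit 0) (nat_lit 4796984248) (nat_lit 304) (nat_lit 3237007388) (nat_lit 380) (nat_lit 922313268) (nat_lit 57) (nat_lit 5) (nat_lit 61) (nat_lit 5) (nat_lit 62) (nat_lit 5) (nat_lit 286) (nat_lit 256) (nat_lit 238)) (XT.lf (nat_lit 0) (nat_lit 1460531790) (nat_lit 228) (nat_lit 359155547) (nat_lit 304) (nat_lit 7360677890) (nat_lit 53) (nat_lit 5) (nat_lit 56) (nat_lit 5) (nat_lit 57) (nat_lit 5) (nat_lit 287) (nat_lit 256) (nat_lit 237))))) (XT.nd (nat_lit 156) (nat_lit 532) (nat_lit 0) (XT.nd (nat_lit 78) (nat_lit 228) (nat_lit 0) (XT.lf (nat_lit 0) (nat_lit 4684590061) (nat_lit 304) (nat_lit 2093899933) (nat_lit 76) (nat_lit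 2635696667) (nat_lit 53) (nat_lit 5) (nat_lit 57) (nat_lit 5) (nat_lit 54) (nat_lit 5) (nat_lit 288) (nat_lit 256) (nat_lit 236)) (XT.lf (nat_lit 0) (nat_lit 3805698736) (nat_lit 228) (nat_lit 3860566055) (nat_lit 304) (nat_lit 1994904686) (nat_lit 50) (nat_lit 5) (nat_lit 53) (nat_lit 5) (nat_lit 54) (nat_lit 5) (nat_lit 289) (nat_lit 256) (nat_lit 235))) (XT.nd (nat_lit 78) (nat_lit 228) (nat_lit 0) (XT.lf (nat_lit 0) (nat_lit 15787598) (nat_lit 228) (nat_lit 778063863) (nat_lit 304) (nat_lit 9128829549) (nat_lit 46) (nat_lit 5) (nat_lit 49) (nat_lit 5) (nat_lit 50) (nat_lit 5) (nat_lit 290) (nat_lit 256) (nat_lit 234)) (XT.nd (nat_lit 78) (nat_lit 228) (nat_lit 0) (XT.lf (nat_lit 0) (nat_lit 3705153798) (nat_lit 304) (nat_lit 4007828425) (nat_lit 76) (nat_lit 2480269899) (nat_lit 46) (nat_lit 5) (nat_lit 50) (nat_lit 5) (nat_lit 47) (nat_lit 5) (nat_lit 291) (nat_lit 256) (nat_lit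 233)) (XT.lf (nat_lit 0) (nat_lit 2120639751) (nat_lit 228) (nat_lit 4602459398) (nat_lit 304) (nat_lit 3756319397) (nat_lit 43) (nat_lit 5) (nat_lit 46) (nat_lit 5) (nat_lit 47) (nat_lit 5) (nat_lit 292) (nat_lit 256) (nat_lit 232))))))) (XT.nd (nat_lit 780) (nat_lit 760) (nat_lit 0) (XT.nd (nat_lit 390) (nat_lit 456) (nat_lit 0) (XT.nd (nat_lit 156) (nat_lit 380) (nat_lit 0) (XT.nd (nat_lit 78) (nat_lit 228) (nat_lit 0) (XT.lf (nat_lit 0) (nat_lit 8575951729) (nat_lit 228) (nat_lit 1301262035) (nat_lit 304) (nat_lit 903530832) (nat_lit 43) (nat_lit 5) (nat_lit 46) (nat_lit 5) (nat_lit 47) (nat_lit 5) (nat_lit 293) (nat_lit 256) (nat_lit 231)) (XT.lf (nat_lit 0) (nat_lit 2046008553) (nat_lit 228) (nat_lit 6886909086) (nat_lit 76) (nat_lit 2161637254) (nat_lit 40) (nat_lit 5) (nat_lit 43) (nat_lit 5) (nat_lit 41) (nat_lit 5) (nat_lit 294) (nat_lit 256) (nat_lit 230))) (XT.nd (nat_lit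 78) (nat_lit 380) (nat_lit 0) (XT.lf (nat_lit 0) (nat_lit 5093351868) (nat_lit 228) (nat_lit 559085514) (nat_lit 76) (nat_lit 5771942408) (nat_lit 40) (nat_lit 5) (nat_lit 43) (nat_lit 5) (nat_lit 41) (nat_lit 5) (nat_lit 295) (nat_lit 256) (nat_lit 229)) (XT.nd (nat_lit 78) (nat_lit 152) (nat_lit 0) (XT.lf (nat_lit 0) (nat_lit 6170832161) (nat_lit 228) (nat_lit 2143724649) (nat_lit 304) (nat_lit 3455158930) (nat_lit 37) (nat_lit 5) (nat_lit 40) (nat_lit 5) (nat_lit 41) (nat_lit 5) (nat_lit 296) (nat_lit 256) (nat_lit 228)) (XT.lf (nat_lit 0) (nat_lit 1020093110) (nat_lit 152) (nat_lit 10652749070) (nat_lit 228) (nat_lit 460765331) (nat_lit 35) (nat_lit 5) (nat_lit 37) (nat_lit 5) (nat_lit 38) (nat_lit 4) (nat_lit 297) (nat_lit 256) (nat_lit 227))))) (XT.nd (nat_lit 156) (nat_lit 228) (nat_lit 0) (XT.nd (nat_lit 78) (nat_lit 152) (nat_lit 0) (XT.lf (nat_lit 0) (nat_lit 2655906302) (nat_lit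 228) (nat_lit 4538979872) (nat_lit 76) (nat_lit 5315872516) (nat_lit 34) (nat_lit 5) (nat_lit 37) (nat_lit 5) (nat_lit 35) (nat_lit 5) (nat_lit 298) (nat_lit 256) (nat_lit 226)) (XT.lf (nat_lit 0) (nat_lit 2322653764) (nat_lit 152) (nat_lit 3556940906) (nat_lit 228) (nat_lit 7028539459) (nat_lit 32) (nat_lit 5) (nat_lit 34) (nat_lit 5) (nat_lit 35) (nat_lit 5) (nat_lit 299) (nat_lit 256) (nat_lit 225))) (XT.nd (nat_lit 78) (nat_lit 228) (nat_lit 0) (XT.lf (nat_lit 0) (nat_lit 9278151044) (nat_lit 228) (nat_lit 3751479230) (nat_lit 76) (nat_lit 295137955) (nat_lit 32) (nat_lit 5) (nat_lit 35) (nat_lit 5) (nat_lit 33) (nat_lit 4) (nat_lit 300) (nat_lit 256) (nat_lit 224)) (XT.nd (nat_lit 78) (nat_lit 76) (nat_lit 0) (XT.lf (nat_lit 0) (nat_lit 3369438528) (nat_lit 152) (nat_lit 9522826901) (nat_lit 228) (nat_lit 867757637) (nat_lit 30) (nat_lit 5) (nat_lit 32) (nat_lit 5) (nat_lit 33)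 (nat_lit 4) (nat_lit 301) (nat_lit 256) (nat_lit 223)) (XT.lf (nat_lit 0) (nat_lit 2390671861) (nat_lit 228) (nat_lit 3381667829) (nat_lit 76) (nat_lit 8442852530) (nat_lit 29) (nat_lit 5) (nat_lit 32) (nat_lit 5) (nat_lit 30) (nat_lit 5) (nat_lit 302) (nat_lit 256) (nat_lit 222)))))) (XT.nd (nat_lit 390) (nat_lit 304) (nat_lit 0) (XT.nd (nat_lit 156) (nat_lit 304) (nat_lit 0) (XT.nd (nat_lit 78) (nat_lit 0) (nat_lit 0) (XT.lf (nat_lit 0) (nat_lit 3991367334) (nat_lit 152) (nat_lit 1792008815) (nat_lit 228) (nat_lit 8909067561) (nat_lit 27) (nat_lit 5) (nat_lit 29) (nat_lit 5) (nat_lit 30) (nat_lit 5) (nat_lit 303) (nat_lit 256) (nat_lit 221)) (XT.lf (nat_lit 0) (nat_lit 9380215139) (nat_lit 228) (nat_lit 3479174772) (nat_lit 76) (nat_lit 2332500922) (nat_lit 27) (nat_lit 5) (nat_lit 30) (nat_lit 5) (nat_lit 28) (nat_lit 4) (nat_lit 304) (nat_lit 256) (nat_lit 220))) (XT.nd (nat_lit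 78) (nat_lit 228) (nat_lit 0) (XT.lf (nat_lit 0) (nat_lit 4110062150) (nat_lit 76) (nat_lit 9082302046) (nat_lit 152) (nat_lit 2522227983) (nat_lit 26) (nat_lit 5) (nat_lit 27) (nat_lit 5) (nat_lit 28) (nat_lit 4) (nat_lit 305) (nat_lit 256) (nat_lit 219)) (XT.nd (nat_lit 78) (nat_lit 152) (nat_lit 0) (XT.lf (nat_lit 0) (nat_lit 903991106) (nat_lit 152) (nat_lit 4172787937) (nat_lit 76) (nat_lit 11185866418) (nat_lit 25) (nat_lit 5) (nat_lit 27) (nat_lit 5) (nat_lit 26) (nat_lit 5) (nat_lit 306) (nat_lit 256) (nat_lit 218)) (XT.lf (nat_lit 0) (nat_lit 3613078940) (nat_lit 152) (nat_lit 805071501) (nat_lit 228) (nat_lit 12417861677) (nat_lit 23) (nat_lit 5) (nat_lit 25) (nat_lit 5) (nat_lit 26) (nat_lit 5) (nat_lit 307) (nat_lit 256) (nat_lit 217))))) (XT.nd (nat_lit 234) (nat_lit 228) (nat_lit 0) (XT.nd (nat_lit 78) (nat_lit 76) (nat_lit 0) (XT.lf (nat_lit 0) (nat_lit 8182926453) (nat_lit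 228) (nat_lit 5652463769) (nat_lit 76) (nat_lit 3598956921) (nat_lit 23) (nat_lit 5) (nat_lit 26) (nat_lit 5) (nat_lit 24) (nat_lit 4) (nat_lit 308) (nat_lit 256) (nat_lit 216)) (XT.nd (nat_lit 78) (nat_lit 0) (nat_lit 0) (XT.lf (nat_lit 0) (nat_lit 2267877516) (nat_lit 76) (nat_lit 9864882388) (nat_lit 152) (nat_lit 5930041391) (nat_lit 22) (nat_lit 5) (nat_lit 23) (nat_lit 5) (nat_lit 24) (nat_lit 4) (nat_lit 309) (nat_lit 256) (nat_lit 215)) (XT.lf (nat_lit 0) (nat_lit 10693856700) (nat_lit 76) (nat_lit 5631282034) (nat_lit 152) (nat_lit 2395327979) (nat_lit 22) (nat_lit 5) (nat_lit 23) (nat_lit 5) (nat_lit 24) (nat_lit 4) (nat_lit 310) (nat_lit 256) (nat_lit 214)))) (XT.nd (nat_lit 78) (nat_lit 0) (nat_lit 0) (XT.lf (nat_lit 0) (nat_lit 26255726) (nat_lit 152) (nat_lit 1199061549) (nat_lit 228) (nat_lit 18187142105) (nat_lit 19) (nat_lit 5) (nat_lit 21) (nat_lit 5) (nat_lit 22) (nat_lit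 5) (nat_lit 311) (nat_lit 256) (nat_lit 213)) (XT.nd (nat_lit 78) (nat_lit 0) (nat_lit 0) (XT.lf (nat_lit 0) (nat_lit 5090010298) (nat_lit 228) (nat_lit 11551952812) (nat_lit 76) (nat_lit 3487985106) (nat_lit 19) (nat_lit 5) (nat_lit 22) (nat_lit 5) (nat_lit 20) (nat_lit 4) (nat_lit 312) (nat_lit 256) (nat_lit 212)) (XT.lf (nat_lit 0) (nat_lit 9121321032) (nat_lit 228) (nat_lit 3426306781) (nat_lit 76) (nat_lit 8337048459) (nat_lit 19) (nat_lit 5) (nat_lit 22) (nat_lit 5) (nat_lit 20) (nat_lit 4) (nat_lit 313) (nat_lit 256) (nat_lit 211))))))))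
noncomputable def xc94 : XT := (XT.nd (nat_lit 1560) (nat_lit 304) (nat_lit 0) (XT.nd (nat_lit 780) (nat_lit 304) (nat_lit 0) (XT.nd (nat_lit 390) (nat_lit 228) (nat_lit 0) (XT.nd (nat_lit 156) (nat_lit 228) (nat_lit 0) (XT.nd (nat_lit 78) (nat_lit 0) (nat_lit 0) (XT.lf (nat_lit 0) (nat_lit 5195076829) (nat_lit 76) (nat_lit 8196160004) (nat_lit 152) (nat_lit 8284084236) (nat_lit 18) (nat_lit 5) (nat_lit 19) (nat_lit 5) (nat_lit 20) (nat_lit 4) (nat_lit 314) (nat_lit 256) (nat_lit 210)) (XT.lf (nat_lit 0) (nat_lit 14290902656) (nat_lit 76) (nat_lit 3598620311) (nat_lit 152) (nat_lit 4615262191) (nat_lit 18) (nat_lit 5) (nat_lit 19) (nat_lit 5) (nat_lit 20) (nat_lit 4) (nat_lit 315) (nat_lit 256) (nat_lit 209))) (XT.nd (nat_lit 78) (nat_lit 76) (nat_lit 0) (XT.lf (nat_lit 0) (nat_lit 385362912) (nat_lit 152) (nat_lit 22210983064) (nat_lit 152) (nat_lit 780224657) (nat_lit 16) (nat_lit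 4) (nat_lit 18) (nat_lit 5) (nat_lit 18) (nat_lit 4) (nat_lit 316) (nat_lit 256) (nat_lit 208)) (XT.nd (nat_lit 78) (nat_lit 0) (nat_lit 0) (XT.lf (nat_lit 0) (nat_lit 3301610624) (nat_lit 228) (nat_lit 14771007105) (nat_lit 76) (nat_lit 6208872030) (nat_lit 15) (nat_lit 5) (nat_lit 18) (nat_lit 5) (nat_lit 16) (nat_lit 4) (nat_lit 317) (nat_lit 256) (nat_lit 207)) (XT.lf (nat_lit 0) (nat_lit 7521865519) (nat_lit 228) (nat_lit 6222865976) (nat_lit 76) (nat_lit 11488281712) (nat_lit 15) (nat_lit 5) (nat_lit 18) (nat_lit 5) (nat_lit 16) (nat_lit 4) (nat_lit 318) (nat_lit 256) (nat_lit 206))))) (XT.nd (nat_lit 156) (nat_lit 152) (nat_lit 0) (XT.nd (nat_lit 78) (nat_lit 0) (nat_lit 0) (XT.lf (nat_lit 0) (nat_lit 2774552893) (nat_lit 76) (nat_lit 9184325968) (nat_lit 152) (nat_lit 14272970796) (nat_lit 14) (nat_lit 5) (nat_lit 15) (nat_lit 5) (nat_lit 16) (nat_lit 4) (nat_lit 319) (nat_lit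 256) (nat_lit 205)) (XT.lf (nat_lit 0) (nat_lit 12372033781) (nat_lit 76) (nat_lit 4314284530) (nat_lit 152) (nat_lit 10590903814) (nat_lit 14) (nat_lit 5) (nat_lit 15) (nat_lit 5) (nat_lit 16) (nat_lit 4) (nat_lit 320) (nat_lit 256) (nat_lit 204))) (XT.nd (nat_lit 78) (nat_lit 152) (nat_lit 0) (XT.lf (nat_lit 0) (nat_lit 21627117722) (nat_lit 152) (nat_lit 6002013105) (nat_lit 0) (nat_lit 746904862) (nat_lit 14) (nat_lit 5) (nat_lit 16) (nat_lit 4) (nat_lit 14) (nat_lit 4) (nat_lit 321) (nat_lit 256) (nat_lit 203)) (XT.nd (nat_lit 78) (nat_lit 76) (nat_lit 0) (XT.lf (nat_lit 0) (nat_lit 3320874175) (nat_lit 76) (nat_lit 23582856405) (nat_lit 76) (nat_lit 2621641507) (nat_lit 13) (nat_lit 4) (nat_lit 14) (nat_lit 5) (nat_lit 14) (nat_lit 4) (nat_lit 322) (nat_lit 256) (nat_lit 202)) (XT.lf (nat_lit 0) (nat_lit 1726826910) (nat_lit 152) (nat_lit 17498364528) (nat_lit 76) (nat_lit 11502185169)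 (nat_lit 12) (nat_lit 5) (nat_lit 14) (nat_lit 5) (nat_lit 13) (nat_lit 4) (nat_lit 323) (nat_lit 256) (nat_lit 201)))))) (XT.nd (nat_lit 390) (nat_lit 228) (nat_lit 0) (XT.nd (nat_lit 156) (nat_lit 0) (nat_lit 0) (XT.nd (nat_lit 78) (nat_lit 76) (nat_lit 0) (XT.lf (nat_lit 0) (nat_lit 6172528164) (nat_lit 152) (nat_lit 8458148194) (nat_lit 76) (nat_lit 17358278415) (nat_lit 12) (nat_lit 5) (nat_lit 14) (nat_lit 5) (nat_lit 13) (nat_lit 4) (nat_lit 324) (nat_lit 256) (nat_lit 200)) (XT.lf (nat_lit 0) (nat_lit 1010963737) (nat_lit 76) (nat_lit 9814776396) (nat_lit 152) (nat_lit 22488627569) (nat_lit 11) (nat_lit 5) (nat_lit 12) (nat_lit 5) (nat_lit 13) (nat_lit 4) (nat_lit 325) (nat_lit 256) (nat_lit 199))) (XT.nd (nat_lit 78) (nat_lit 0) (nat_lit 0) (XT.lf (nat_lit 0) (nat_lit 11192601415) (nat_lit 76) (nat_lit 4632298841) (nat_lit 152) (nat_lit 18875502965) (nat_lit 11) (nat_lit 5)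 (nat_lit 12) (nat_lit 5) (nat_lit 13) (nat_lit 4) (nat_lit 326) (nat_lit 256) (nat_lit 198)) (XT.nd (nat_lit 78) (nat_lit 0) (nat_lit 0) (XT.lf (nat_lit 0) (nat_lit 21057758917) (nat_lit 152) (nat_lit 14338109609) (nat_lit 0) (nat_lit 760700509) (nat_lit 11) (nat_lit 5) (nat_lit 13) (nat_lit 4) (nat_lit 11) (nat_lit 4) (nat_lit 327) (nat_lit 256) (nat_lit 197)) (XT.lf (nat_lit 0) (nat_lit 26600680833) (nat_lit 152) (nat_lit 4836400306) (nat_lit 0) (nat_lit 6246055789) (nat_lit 11) (nat_lit 5) (nat_lit 13) (nat_lit 4) (nat_lit 11) (nat_lit 4) (nat_lit 328) (nat_lit 256) (nat_lit 196))))) (XT.nd (nat_lit 156) (nat_lit 152) (nat_lit 0) (XT.nd (nat_lit 78) (nat_lit 0) (nat_lit 0) (XT.lf (nat_lit 0) (nat_lit 5260645909) (nat_lit 76) (nat_lit 27216027787) (nat_lit 76) (nat_lit 6806577376) (nat_lit 10) (nat_lit 4) (nat_lit 11) (nat_lit 5) (nat_lit 11) (nat_lit 4) (nat_lit 329) (nat_lit 256)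 (nat_lit 195)) (XT.lf (nat_lit 0) (nat_lit 15983107420) (nat_lit 76) (nat_lit 22719565813) (nat_lit 76) (nat_lit 2257900766) (nat_lit 10) (nat_lit 4) (nat_lit 11) (nat_lit 5) (nat_lit 11) (nat_lit 4) (nat_lit 330) (nat_lit 256) (nat_lit 194))) (XT.nd (nat_lit 78) (nat_lit 76) (nat_lit 0) (XT.lf (nat_lit 0) (nat_lit 2412721662) (nat_lit 152) (nat_lit 15565313863) (nat_lit 76) (nat_lit 24743018391) (nat_lit 9) (nat_lit 5) (nat_lit 11) (nat_lit 5) (nat_lit 10) (nat_lit 4) (nat_lit 331) (nat_lit 256) (nat_lit 193)) (XT.nd (nat_lit 78) (nat_lit 76) (nat_lit 0) (XT.lf (nat_lit 0) (nat_lit 7217290582) (nat_lit 152) (nat_lit 5763307789) (nat_lit 76) (nat_lit 31588305536) (nat_lit 9) (nat_lit 5) (nat_lit 11) (nat_lit 5) (nat_lit 10) (nat_lit 4) (nat_lit 332) (nat_lit 256) (nat_lit 192)) (XT.lf (nat_lit 0) (nat_lit 4635507086) (nat_lit 76) (nat_lit 7676378540) (nat_lit 152) (nat_lit 34194781935)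 (nat_lit 8) (nat_lit 5) (nat_lit 9) (nat_lit 5) (nat_lit 10) (nat_lit 4) (nat_lit 333) (nat_lit 256) (nat_lit 191))))))) (XT.nd (nat_lit 780) (nat_lit 152) (nat_lit 0) (XT.nd (nat_lit 390) (nat_lit 76) (nat_lit 0) (XT.nd (nat_lit 156) (nat_lit 76) (nat_lit 0) (XT.nd (nat_lit 78) (nat_lit 0) (nat_lit 0) (XT.lf (nat_lit 0) (nat_lit 15713366943) (nat_lit 76) (nat_lit 2023307447) (nat_lit 152) (nat_lit 30800882331) (nat_lit 8) (nat_lit 5) (nat_lit 9) (nat_lit 5) (nat_lit 10) (nat_lit 4) (nat_lit 334) (nat_lit 256) (nat_lit 190)) (XT.lf (nat_lit 0) (nat_lit 23472420056) (nat_lit 152) (nat_lit 23425771606) (nat_lit 0) (nat_lit 3769822825) (nat_lit 8) (nat_lit 5) (nat_lit 10) (nat_lit 4) (nat_lit 8) (nat_lit 4) (nat_lit 335) (nat_lit 256) (nat_lit 189))) (XT.nd (nat_lit 78) (nat_lit 76) (nat_lit 0) (XT.lf (nat_lit 0) (nat_lit 29507773088) (nat_lit 152) (nat_lit 13628522701) (nat_lit 0) (nat_lit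 9768067890) (nat_lit 8) (nat_lit 5) (nat_lit 10) (nat_lit 4) (nat_lit 8) (nat_lit 4) (nat_lit 336) (nat_lit 256) (nat_lit 188)) (XT.nd (nat_lit 78) (nat_lit 76) (nat_lit 0) (XT.lf (nat_lit 0) (nat_lit 35825513875) (nat_lit 152) (nat_lit 3377526782) (nat_lit 0) (nat_lit 16050467757) (nat_lit 8) (nat_lit 5) (nat_lit 10) (nat_lit 4) (nat_lit 8) (nat_lit 4) (nat_lit 337) (nat_lit 256) (nat_lit 187)) (XT.lf (nat_lit 0) (nat_lit 7594701151) (nat_lit 76) (nat_lit 34964558076) (nat_lit 76) (nat_lit 15155853938) (nat_lit 7) (nat_lit 4) (nat_lit 8) (nat_lit 5) (nat_lit 8) (nat_lit 4) (nat_lit 338) (nat_lit 256) (nat_lit 186))))) (XT.nd (nat_lit 156) (nat_lit 76) (nat_lit 0) (XT.nd (nat_lit 78) (nat_lit 0) (nat_lit 0) (XT.lf (nat_lit 0) (nat_lit 19198959705) (nat_lit 76) (nat_lit 30469825705) (nat_lit 76) (nat_lit 10629066310) (nat_lit 7) (nat_lit 4) (nat_lit 8) (nat_lit 5) (nat_lit 8) (nat_lit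 4) (nat_lit 339) (nat_lit 256) (nat_lit 185)) (XT.lf (nat_lit 0) (nat_lit 31351201778) (nat_lit 76) (nat_lit 25765341850) (nat_lit 76) (nat_lit 5894053639) (nat_lit 7) (nat_lit 4) (nat_lit 8) (nat_lit 5) (nat_lit 8) (nat_lit 4) (nat_lit 340) (nat_lit 256) (nat_lit 184))) (XT.nd (nat_lit 78) (nat_lit 76) (nat_lit 0) (XT.lf (nat_lit 0) (nat_lit 44080361279) (nat_lit 76) (nat_lit 20839905359) (nat_lit 76) (nat_lit 939542086) (nat_lit 7) (nat_lit 4) (nat_lit 8) (nat_lit 5) (nat_lit 8) (nat_lit 4) (nat_lit 341) (nat_lit 256) (nat_lit 183)) (XT.nd (nat_lit 78) (nat_lit 0) (nat_lit 0) (XT.lf (nat_lit 0) (nat_lit 4110357812) (nat_lit 152) (nat_lit 11501820292) (nat_lit 76) (nat_lit 53236777019) (nat_lit 6) (nat_lit 5) (nat_lit 8) (nat_lit 5) (nat_lit 7) (nat_lit 4) (nat_lit 342) (nat_lit 256) (nat_lit 182)) (XT.lf (nat_lit 0) (nat_lit 9366030914) (nat_lit 152) (nat_lit 754062374) (nat_lit 76)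 (nat_lit 61867459250) (nat_lit 6) (nat_lit 5) (nat_lit 8) (nat_lit 5) (nat_lit 7) (nat_lit 4) (nat_lit 343) (nat_lit 256) (nat_lit 181)))))) (XT.nd (nat_lit 390) (nat_lit 76) (nat_lit 0) (XT.nd (nat_lit 156) (nat_lit 0) (nat_lit 0) (XT.nd (nat_lit 78) (nat_lit 0) (nat_lit 0) (XT.lf (nat_lit 0) (nat_lit 10851397585) (nat_lit 76) (nat_lit 4188085081) (nat_lit 152) (nat_lit 60235853558) (nat_lit 5) (nat_lit 5) (nat_lit 6) (nat_lit 5) (nat_lit 7) (nat_lit 4) (nat_lit 344) (nat_lit 256) (nat_lit 180)) (XT.lf (nat_lit 0) (nat_lit 21027097800) (nat_lit 152) (nat_lit 55722711008) (nat_lit 0) (nat_lit 1976181603) (nat_lit 5) (nat_lit 5) (nat_lit 7) (nat_lit 4) (nat_lit 5) (nat_lit 4) (nat_lit 345) (nat_lit 256) (nat_lit 179))) (XT.nd (nat_lit 78) (nat_lit 0) (nat_lit 0) (XT.lf (nat_lit 0) (nat_lit 27369086769) (nat_lit 152) (nat_lit 46680872155) (nat_lit 0) (nat_lit 8296474312) (nat_lit 5) (nat_lit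 5) (nat_lit 7) (nat_lit 4) (nat_lit 5) (nat_lit 4) (nat_lit 346) (nat_lit 256) (nat_lit 178)) (XT.nd (nat_lit 78) (nat_lit 0) (nat_lit 0) (XT.lf (nat_lit 0) (nat_lit 34015161800) (nat_lit 152) (nat_lit 37211506146) (nat_lit 0) (nat_lit 14921886239) (nat_lit 5) (nat_lit 5) (nat_lit 7) (nat_lit 4) (nat_lit 5) (nat_lit 4) (nat_lit 347) (nat_lit 256) (nat_lit 177)) (XT.lf (nat_lit 0) (nat_lit 40981146881) (nat_lit 152) (nat_lit 27292066873) (nat_lit 0) (nat_lit 21868192173) (nat_lit 5) (nat_lit 5) (nat_lit 7) (nat_lit 4) (nat_lit 5) (nat_lit 4) (nat_lit 348) (nat_lit 256) (nat_lit 176))))) (XT.nd (nat_lit 156) (nat_lit 76) (nat_lit 0) (XT.nd (nat_lit 78) (nat_lit 0) (nat_lit 0) (XT.lf (nat_lit 0) (nat_lit 48283627691) (nat_lit 152) (nat_lit 16898936621) (nat_lit 0) (nat_lit 29151930939) (nat_lit 5) (nat_lit 5) (nat_lit 7) (nat_lit 4) (nat_lit 5) (nat_lit 4) (nat_lit 349) (nat_lit 256) (nat_lit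 175)) (XT.lf (nat_lit 0) (nat_lit 55939991090) (nat_lit 152) (nat_lit 6007369845) (nat_lit 0) (nat_lit 36790444771) (nat_lit 5) (nat_lit 5) (nat_lit 7) (nat_lit 4) (nat_lit 5) (nat_lit 4) (nat_lit 350) (nat_lit 256) (nat_lit 174))) (XT.nd (nat_lit 78) (nat_lit 0) (nat_lit 0) (XT.lf (nat_lit 0) (nat_lit 5587397369) (nat_lit 76) (nat_lit 58468304076) (nat_lit 76) (nat_lit 39301758170) (nat_lit 4) (nat_lit 4) (nat_lit 5) (nat_lit 5) (nat_lit 5) (nat_lit 4) (nat_lit 351) (nat_lit 256) (nat_lit 173)) (XT.nd (nat_lit 78) (nat_lit 0) (nat_lit 0) (XT.lf (nat_lit 0) (nat_lit 17950581708) (nat_lit 76) (nat_lit 54717846558) (nat_lit 76) (nat_lit 35535110569) (nat_lit 4) (nat_lit 4) (nat_lit 5) (nat_lit 5) (nat_lit 5) (nat_lit 4) (nat_lit 352) (nat_lit 256) (nat_lit 172)) (XT.lf (nat_lit 0) (nat_lit 30912988549) (nat_lit 76) (nat_lit 50788796436) (nat_lit 76) (nat_lit 31590641320) (nat_lit 4) (nat_lit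 4) (nat_lit 5) (nat_lit 5) (nat_lit 5) (nat_lit 4) (nat_lit 353) (nat_lit 256) (nat_lit 171))))))))
noncomputable def xc95 : XT := (XT.nd (nat_lit 1560) (nat_lit 76) (nat_lit 0) (XT.nd (nat_lit 780) (nat_lit 0) (nat_lit 0) (XT.nd (nat_lit 390) (nat_lit 152) (nat_lit 0) (XT.nd (nat_lit 156) (nat_lit 0) (nat_lit 0) (XT.nd (nat_lit 78) (nat_lit 0) (nat_lit 0) (XT.lf (nat_lit 0) (nat_lit 44505480765) (nat_lit 76) (nat_lit 46671798828) (nat_lit 76) (nat_lit 27458958830) (nat_lit 4) (nat_lit 4) (nat_lit 5) (nat_lit 5) (nat_lit 5) (nat_lit 4) (nat_lit 354) (nat_lit 256) (nat_lit 170)) (XT.lf (nat_lit 0) (nat_lit 58760421432) (nat_lit 76) (nat_lit 42357051358) (nat_lit 76) (nat_lit 23130225758) (nat_lit 4) (nat_lit 4) (nat_lit 5) (nat_lit 5) (nat_lit 5) (nat_lit 4) (nat_lit 355) (nat_lit 256) (nat_lit 169))) (XT.nd (nat_lit 78) (nat_lit 0) (nat_lit 0) (XT.lf (nat_lit 0) (nat_lit 73711750886)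 (nat_lit 76) (nat_lit 37834280820) (nat_lit 76) (nat_lit 18594135598) (nat_lit 4) (nat_lit 4) (nat_lit 5) (nat_lit 5) (nat_lit 5) (nat_lit 4) (nat_lit 356) (nat_lit 256) (nat_lit 168)) (XT.nd (nat_lit 78) (nat_lit 0) (nat_lit 0) (XT.lf (nat_lit 0) (nat_lit 89395067529) (nat_lit 76) (nat_lit 33092718711) (nat_lit 76) (nat_lit 13839888135) (nat_lit 4) (nat_lit 4) (nat_lit 5) (nat_lit 5) (nat_lit 5) (nat_lit 4) (nat_lit 357) (nat_lit 256) (nat_lit 167)) (XT.lf (nat_lit 0) (nat_lit 105847712593) (nat_lit 76) (nat_lit 28121075597) (nat_lit 76) (nat_lit 8856163733) (nat_lit 4) (nat_lit 4) (nat_lit 5) (nat_lit 5) (nat_lit 5) (nat_lit 4) (nat_lit 358) (nat_lit 256) (nat_lit 166))))) (XT.nd (nat_lit 156) (nat_lit 76) (nat_lit 0) (XT.nd (nat_lit 78) (nat_lit 76) (nat_lit 0) (XT.lf (nat_lit 0) (nat_lit 123108859041) (nat_lit 76) (nat_lit 22907514234) (nat_lit 76) (nat_lit 3631096380) (nat_lit 4)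 (nat_lit 4) (nat_lit 5) (nat_lit 5) (nat_lit 5) (nat_lit 4) (nat_lit 359) (nat_lit 256) (nat_lit 165)) (XT.lf (nat_lit 0) (nat_lit 1788614873) (nat_lit 152) (nat_lit 15620715448) (nat_lit 76) (nat_lit 139400698909) (nat_lit 3) (nat_lit 5) (nat_lit 5) (nat_lit 5) (nat_lit 4) (nat_lit 4) (nat_lit 360) (nat_lit 256) (nat_lit 164))) (XT.nd (nat_lit 78) (nat_lit 76) (nat_lit 0) (XT.lf (nat_lit 0) (nat_lit 7350396659) (nat_lit 152) (nat_lit 4229499059) (nat_lit 76) (nat_lit 152748191633) (nat_lit 3) (nat_lit 5) (nat_lit 5) (nat_lit 5) (nat_lit 4) (nat_lit 4) (nat_lit 361) (nat_lit 256) (nat_lit 163)) (XT.nd (nat_lit 78) (nat_lit 0) (nat_lit 0) (XT.lf (nat_lit 0) (nat_lit 7974072196) (nat_lit 76) (nat_lit 5334134493) (nat_lit 152) (nat_lit 158907947165) (nat_lit 2) (nat_lit 5) (nat_lit 3) (nat_lit 5) (nat_lit 4) (nat_lit 4) (nat_lit 362) (nat_lit 256) (nat_lit 162)) (XT.lf (nat_lit 0) (nat_lit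 19649291409) (nat_lit 152) (nat_lit 159593123996) (nat_lit 0) (nat_lit 1251941386) (nat_lit 2) (nat_lit 5) (nat_lit 4) (nat_lit 4) (nat_lit 2) (nat_lit 4) (nat_lit 363) (nat_lit 256) (nat_lit 161)))))) (XT.nd (nat_lit 390) (nat_lit 0) (nat_lit 0) (XT.nd (nat_lit 156) (nat_lit 0) (nat_lit 0) (XT.nd (nat_lit 78) (nat_lit 0) (nat_lit 0) (XT.lf (nat_lit 0) (nat_lit 26388658617) (nat_lit 152) (nat_lit 154811029406) (nat_lit 0) (nat_lit 7982722648) (nat_lit 2) (nat_lit 5) (nat_lit 4) (nat_lit 4) (nat_lit 2) (nat_lit 4) (nat_lit 364) (nat_lit 256) (nat_lit 160)) (XT.lf (nat_lit 0) (nat_lit 33459073637) (nat_lit 152) (nat_lit 149801131163) (nat_lit 0) (nat_lit 15044960575) (nat_lit 2) (nat_lit 5) (nat_lit 4) (nat_lit 4) (nat_lit 2) (nat_lit 4) (nat_lit 365) (nat_lit 256) (nat_lit 159))) (XT.nd (nat_lit 78) (nat_lit 0) (nat_lit 0) (XT.lf (nat_lit 0) (nat_lit 40877370790) (nat_lit 152) (nat_lit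 144551500936) (nat_lit 0) (nat_lit 22455470022) (nat_lit 2) (nat_lit 5) (nat_lit 4) (nat_lit 4) (nat_lit 2) (nat_lit 4) (nat_lit 366) (nat_lit 256) (nat_lit 158)) (XT.nd (nat_lit 78) (nat_lit 0) (nat_lit 0) (XT.lf (nat_lit 0) (nat_lit 48661212689) (nat_lit 152) (nat_lit 139049639606) (nat_lit 0) (nat_lit 30231895057) (nat_lit 2) (nat_lit 5) (nat_lit 4) (nat_lit 4) (nat_lit 2) (nat_lit 4) (nat_lit 367) (nat_lit 256) (nat_lit 157)) (XT.lf (nat_lit 0) (nat_lit 56829132291) (nat_lit 152) (nat_lit 133282447502) (nat_lit 0) (nat_lit 38392750980) (nat_lit 2) (nat_lit 5) (nat_lit 4) (nat_lit 4) (nat_lit 2) (nat_lit 4) (nat_lit 368) (nat_lit 256) (nat_lit 156))))) (XT.nd (nat_lit 156) (nat_lit 0) (nat_lit 0) (XT.nd (nat_lit 78) (nat_lit 0) (nat_lit 0) (XT.lf (nat_lit 0) (nat_lit 65400577023) (nat_lit 152) (nat_lit 127236193217) (nat_lit 0) (nat_lit 46957468398) (nat_lit 2) (nat_lit 5) (nat_lit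 4) (nat_lit 4) (nat_lit 2) (nat_lit 4) (nat_lit 369) (nat_lit 256) (nat_lit 155)) (XT.lf (nat_lit 0) (nat_lit 74395955087) (nat_lit 152) (nat_lit 120896480905) (nat_lit 0) (nat_lit 55946439496) (nat_lit 2) (nat_lit 5) (nat_lit 4) (nat_lit 4) (nat_lit 2) (nat_lit 4) (nat_lit 370) (nat_lit 256) (nat_lit 154))) (XT.nd (nat_lit 78) (nat_lit 0) (nat_lit 0) (XT.lf (nat_lit 0) (nat_lit 83836684049) (nat_lit 152) (nat_lit 114248216014) (nat_lit 0) (nat_lit 65381066587) (nat_lit 2) (nat_lit 5) (nat_lit 4) (nat_lit 4) (nat_lit 2) (nat_lit 4) (nat_lit 371) (nat_lit 256) (nat_lit 153)) (XT.nd (nat_lit 78) (nat_lit 0) (nat_lit 0) (XT.lf (nat_lit 0) (nat_lit 93745241837) (nat_lit 152) (nat_lit 107275569341) (nat_lit 0) (nat_lit 75283813068) (nat_lit 2) (nat_lit 5) (nat_lit 4) (nat_lit 4) (nat_lit 2) (nat_lit 4) (nat_lit 372) (nat_lit 256) (nat_lit 152)) (XT.lf (nat_lit 0) (nat_lit 104145220254) (nat_lit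 152) (nat_lit 99961939347) (nat_lit 0) (nat_lit 85678256907) (nat_lit 2) (nat_lit 5) (nat_lit 4) (nat_lit 4) (nat_lit 2) (nat_lit 4) (nat_lit 373) (nat_lit 256) (nat_lit 151))))))) (XT.nd (nat_lit 780) (nat_lit 76) (nat_lit 0) (XT.nd (nat_lit 390) (nat_lit 0) (nat_lit 0) (XT.nd (nat_lit 156) (nat_lit 0) (nat_lit 0) (XT.nd (nat_lit 78) (nat_lit 0) (nat_lit 0) (XT.lf (nat_lit 0) (nat_lit 115061381153) (nat_lit 152) (nat_lit 92289912628) (nat_lit 0) (nat_lit 96589146780) (nat_lit 2) (nat_lit 5) (nat_lit 4) (nat_lit 4) (nat_lit 2) (nat_lit 4) (nat_lit 374) (nat_lit 256) (nat_lit 150)) (XT.lf (nat_lit 0) (nat_lit 126519715395) (nat_lit 152) (nat_lit 84241222452) (nat_lit 0) (nat_lit 108042460996) (nat_lit 2) (nat_lit 5) (nat_lit 4) (nat_lit 4) (nat_lit 2) (nat_lit 4) (nat_lit 375) (nat_lit 256) (nat_lit 149))) (XT.nd (nat_lit 78) (nat_lit 0) (nat_lit 0) (XT.lf (nat_lit 0) (nat_lit 138547504726)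 (nat_lit 152) (nat_lit 75796705272) (nat_lit 0) (nat_lit 120065469351) (nat_lit 2) (nat_lit 5) (nat_lit 4) (nat_lit 4) (nat_lit 2) (nat_lit 4) (nat_lit 376) (nat_lit 256) (nat_lit 148)) (XT.nd (nat_lit 78) (nat_lit 0) (nat_lit 0) (XT.lf (nat_lit 0) (nat_lit 151173386741) (nat_lit 152) (nat_lit 66936255095) (nat_lit 0) (nat_lit 132686798055) (nat_lit 2) (nat_lit 5) (nat_lit 4) (nat_lit 4) (nat_lit 2) (nat_lit 4) (nat_lit 377) (nat_lit 256) (nat_lit 147)) (XT.lf (nat_lit 0) (nat_lit 164427423064) (nat_lit 152) (nat_lit 57638775610) (nat_lit 0) (nat_lit 145936497892) (nat_lit 2) (nat_lit 5) (nat_lit 4) (nat_lit 4) (nat_lit 2) (nat_lit 4) (nat_lit 378) (nat_lit 256) (nat_lit 146))))) (XT.nd (nat_lit 156) (nat_lit 0) (nat_lit 0) (XT.nd (nat_lit 78) (nat_lit 0) (nat_lit 0) (XT.lf (nat_lit 0) (nat_lit 178341170923) (nat_lit 152) (nat_lit 47882129962) (nat_lit 0) (nat_lit 159846115764) (nat_lit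 2) (nat_lit 5) (nat_lit 4) (nat_lit 4) (nat_lit 2) (nat_lit 4) (nat_lit 379) (nat_lit 256) (nat_lit 145)) (XT.lf (nat_lit 0) (nat_lit 192947758290) (nat_lit 152) (nat_lit 37643088041) (nat_lit 0) (nat_lit 174448769810) (nat_lit 2) (nat_lit 5) (nat_lit 4) (nat_lit 4) (nat_lit 2) (nat_lit 4) (nat_lit 380) (nat_lit 256) (nat_lit 144))) (XT.nd (nat_lit 78) (nat_lit 0) (nat_lit 0) (XT.lf (nat_lit 0) (nat_lit 208281962755) (nat_lit 152) (nat_lit 26897271178) (nat_lit 0) (nat_lit 189779228254) (nat_lit 2) (nat_lit 5) (nat_lit 4) (nat_lit 4) (nat_lit 2) (nat_lit 4) (nat_lit 381) (nat_lit 256) (nat_lit 143)) (XT.nd (nat_lit 78) (nat_lit 0) (nat_lit 0) (XT.lf (nat_lit 0) (nat_lit 224380294327) (nat_lit 152) (nat_lit 15619094093) (nat_lit 0) (nat_lit 205873992188) (nat_lit 2) (nat_lit 5) (nat_lit 4) (nat_lit 4) (nat_lit 2) (nat_lit 4) (nat_lit 382) (nat_lit 256) (nat_lit 142)) (XT.lf (nat_lit 0)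 (nat_lit 241281082367) (nat_lit 152) (nat_lit 3781703984) (nat_lit 0) (nat_lit 222771382478) (nat_lit 2) (nat_lit 5) (nat_lit 4) (nat_lit 4) (nat_lit 2) (nat_lit 4) (nat_lit 383) (nat_lit 256) (nat_lit 141)))))) (XT.nd (nat_lit 31434) (nat_lit 0) (nat_lit 9044) (XT.nd (nat_lit 156) (nat_lit 0) (nat_lit 0) (XT.nd (nat_lit 78) (nat_lit 0) (nat_lit 0) (XT.lf (nat_lit 0) (nat_lit 8928862781) (nat_lit 76) (nat_lit 250235108637) (nat_lit 76) (nat_lit 231722172794) (nat_lit 1) (nat_lit 4) (nat_lit 2) (nat_lit 5) (nat_lit 2) (nat_lit 4) (nat_lit 384) (nat_lit 256) (nat_lit 140)) (XT.lf (nat_lit 0) (nat_lit 22401850022) (nat_lit 76) (nat_lit 255600899796) (nat_lit 76) (nat_lit 237084882094) (nat_lit 1) (nat_lit 4) (nat_lit 2) (nat_lit 5) (nat_lit 2) (nat_lit 4) (nat_lit 385) (nat_lit 256) (nat_lit 139))) (XT.nd (nat_lit 78) (nat_lit 0) (nat_lit 0) (XT.lf (nat_lit 0) (nat_lit 36544296067) (nat_lit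 76) (nat_lit 261236980511) (nat_lit 76) (nat_lit 242718027704) (nat_lit 1) (nat_lit 4) (nat_lit 2) (nat_lit 5) (nat_lit 2) (nat_lit 4) (nat_lit 386) (nat_lit 256) (nat_lit 138)) (XT.nd (nat_lit 78) (nat_lit 0) (nat_lit 0) (XT.lf (nat_lit 0) (nat_lit 51389873405) (nat_lit 76) (nat_lit 267156770020) (nat_lit 76) (nat_lit 248635021875) (nat_lit 1) (nat_lit 4) (nat_lit 2) (nat_lit 5) (nat_lit 2) (nat_lit 4) (nat_lit 387) (nat_lit 256) (nat_lit 137)) (XT.lf (nat_lit 0) (nat_lit 66973928650) (nat_lit 76) (nat_lit 273374363060) (nat_lit 76) (nat_lit 254849952689) (nat_lit 1) (nat_lit 4) (nat_lit 2) (nat_lit 5) (nat_lit 2) (nat_lit 4) (nat_lit 388) (nat_lit 256) (nat_lit 136))))) (XT.nd (nat_lit 234) (nat_lit 456) (nat_lit 0) (XT.nd (nat_lit 78) (nat_lit 380) (nat_lit 0) (XT.lf (nat_lit 0) (nat_lit 262479829) (nat_lit 228) (nat_lit 1506341786) (nat_lit 228) (nat_lit 1506341786) (nat_lit 131)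 (nat_lit 4) (nat_lit 134) (nat_lit 5) (nat_lit 134) (nat_lit 4) (nat_lit 266) (nat_lit 257) (nat_lit 257)) (XT.nd (nat_lit 78) (nat_lit 304) (nat_lit 0) (XT.lf (nat_lit 0) (nat_lit 21553634) (nat_lit 304) (nat_lit 2303055482) (nat_lit 76) (nat_lit 4266773180) (nat_lit 130) (nat_lit 5) (nat_lit 134) (nat_lit 5) (nat_lit 131) (nat_lit 4) (nat_lit 267) (nat_lit 257) (nat_lit 256)) (XT.lf (nat_lit 0) (nat_lit 1479397834) (nat_lit 304) (nat_lit 1477726725) (nat_lit 380) (nat_lit 3682900718) (nat_lit 126) (nat_lit 5) (nat_lit 130) (nat_lit 5) (nat_lit 131) (nat_lit 4) (nat_lit 268) (nat_lit 257) (nat_lit 255)))) (XT.nd (nat_lit 78) (nat_lit 456) (nat_lit 0) (XT.lf (nat_lit 0) (nat_lit 5408994021) (nat_lit 304) (nat_lit 503551248) (nat_lit 380) (nat_lit 785423020) (nat_lit 126) (nat_lit 5) (nat_lit 130) (nat_lit 5) (nat_lit 131) (nat_lit 4) (nat_lit 269) (nat_lit 257) (nat_lit 254)) (XT.nd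 (nat_lit 78) (nat_lit 0) (nat_lit 0) (XT.lf (nat_lit 0) (nat_lit 2075824240) (nat_lit 456) (nat_lit 4067758707) (nat_lit 76) (nat_lit 619380045) (nat_lit 120) (nat_lit 5) (nat_lit 126) (nat_lit 5) (nat_lit 121) (nat_lit 4) (nat_lit 270) (nat_lit 257) (nat_lit 253)) (XT.lf (nat_lit 0) (nat_lit 4929429043) (nat_lit 456) (nat_lit 56993160) (nat_lit 76) (nat_lit 1850807353) (nat_lit 120) (nat_lit 5) (nat_lit 126) (nat_lit 5) (nat_lit 121) (nat_lit 4) (nat_lit 271) (nat_lit 257) (nat_lit 252))))))))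
noncomputable def xc96 : XT := (XT.nd (nat_lit 1560) (nat_lit 1824) (nat_lit 0) (XT.nd (nat_lit 780) (nat_lit 1824) (nat_lit 0) (XT.nd (nat_lit 390) (nat_lit 1368) (nat_lit 0) (XT.nd (nat_lit 156) (nat_lit 1368) (nat_lit 0) (XT.nd (nat_lit 78) (nat_lit 532) (nat_lit 0) (XT.lf (nat_lit 0) (nat_lit 894041882) (nat_lit 532) (nat_lit 2769159643) (nat_lit 76) (nat_lit 3255833663) (nat_lit 113) (nat_lit 5) (nat_lit 120) (nat_lit 5) (nat_lit 114) (nat_lit 5) (nat_lit 272) (nat_lit 257) (nat_lit 251)) (XT.lf (nat_lit 0) (nat_lit 1453611075) (nat_lit 532) (nat_lit 2196951691) (nat_lit 608) (nat_lit 3359258626) (nat_lit 106) (nat_lit 5) (nat_lit 113) (nat_lit 5) (nat_lit 114) (nat_lit 5) (nat_lit 273) (nat_lit 257) (nat_lit 250))) (XT.nd (nat_lit 78) (nat_lit 1368) (nat_lit 0) (XT.lf (nat_lit 0) (nat_lit 5859882592) (nat_lit 532) (nat_lit 591920234) (nat_lit 608) (nat_lit 658370002) (nat_lit 106)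 (nat_lit 5) (nat_lit 113) (nat_lit 5) (nat_lit 114) (nat_lit 5) (nat_lit 274) (nat_lit 257) (nat_lit 249)) (XT.nd (nat_lit 78) (nat_lit 684) (nat_lit 0) (XT.lf (nat_lit 0) (nat_lit 2040888770) (nat_lit 684) (nat_lit 4019929371) (nat_lit 76) (nat_lit 1156708865) (nat_lit 97) (nat_lit 5) (nat_lit 106) (nat_lit 5) (nat_lit 98) (nat_lit 5) (nat_lit 275) (nat_lit 257) (nat_lit 248)) (XT.lf (nat_lit 0) (nat_lit 447805275) (nat_lit 684) (nat_lit 4312281050) (nat_lit 760) (nat_lit 2574587969) (nat_lit 88) (nat_lit 5) (nat_lit 97) (nat_lit 5) (nat_lit 98) (nat_lit 5) (nat_lit 276) (nat_lit 257) (nat_lit 247))))) (XT.nd (nat_lit 156) (nat_lit 760) (nat_lit 0) (XT.nd (nat_lit 78) (nat_lit 532) (nat_lit 0) (XT.lf (nat_lit 0) (nat_lit 92508527) (nat_lit 760) (nat_lit 2309643729) (nat_lit 76) (nat_lit 5058694711) (nat_lit 87) (nat_lit 5) (nat_lit 97) (nat_lit 5) (nat_lit 88) (nat_lit 5) (nat_lit 277)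 (nat_lit 257) (nat_lit 246)) (XT.lf (nat_lit 0) (nat_lit 2407203738) (nat_lit 532) (nat_lit 313760332) (nat_lit 608) (nat_lit 4874804055) (nat_lit 80) (nat_lit 5) (nat_lit 87) (nat_lit 5) (nat_lit 88) (nat_lit 5) (nat_lit 278) (nat_lit 257) (nat_lit 245))) (XT.nd (nat_lit 78) (nat_lit 760) (nat_lit 0) (XT.lf (nat_lit 0) (nat_lit 5430787270) (nat_lit 608) (nat_lit 453627922) (nat_lit 76) (nat_lit 1855786270) (nat_lit 80) (nat_lit 5) (nat_lit 88) (nat_lit 5) (nat_lit 81) (nat_lit 5) (nat_lit 279) (nat_lit 257) (nat_lit 244)) (XT.nd (nat_lit 78) (nat_lit 304) (nat_lit 0) (XT.lf (nat_lit 0) (nat_lit 333576846) (nat_lit 456) (nat_lit 3363414685) (nat_lit 76) (nat_lit 4196722359) (nat_lit 74) (nat_lit 5) (nat_lit 80) (nat_lit 5) (nat_lit 75) (nat_lit 5) (nat_lit 280) (nat_lit 257) (nat_lit 243)) (XT.lf (nat_lit 0) (nat_lit 1614232108) (nat_lit 304) (nat_lit 1337903795) (nat_lit 380) (nat_lit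 5105049083) (nat_lit 70) (nat_lit 5) (nat_lit 74) (nat_lit 5) (nat_lit 75) (nat_lit 5) (nat_lit 281) (nat_lit 257) (nat_lit 242)))))) (XT.nd (nat_lit 390) (nat_lit 836) (nat_lit 0) (XT.nd (nat_lit 156) (nat_lit 608) (nat_lit 0) (XT.nd (nat_lit 78) (nat_lit 380) (nat_lit 0) (XT.lf (nat_lit 0) (nat_lit 5668536413) (nat_lit 380) (nat_lit 1414702419) (nat_lit 76) (nat_lit 1147461800) (nat_lit 70) (nat_lit 5) (nat_lit 75) (nat_lit 5) (nat_lit 71) (nat_lit 5) (nat_lit 282) (nat_lit 257) (nat_lit 241)) (XT.lf (nat_lit 0) (nat_lit 82229215) (nat_lit 380) (nat_lit 4570886898) (nat_lit 76) (nat_lit 3760997436) (nat_lit 65) (nat_lit 5) (nat_lit 70) (nat_lit 5) (nat_lit 66) (nat_lit 5) (nat_lit 283) (nat_lit 257) (nat_lit 240))) (XT.nd (nat_lit 78) (nat_lit 304) (nat_lit 0) (XT.lf (nat_lit 0) (nat_lit 663433990) (nat_lit 304) (nat_lit 2041654045) (nat_lit 380) (nat_lit 5903078550) (nat_lit 61) (nat_lit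 5) (nat_lit 65) (nat_lit 5) (nat_lit 66) (nat_lit 5) (nat_lit 284) (nat_lit 257) (nat_lit 239)) (XT.nd (nat_lit 78) (nat_lit 304) (nat_lit 0) (XT.lf (nat_lit 0) (nat_lit 5448990323) (nat_lit 380) (nat_lit 2627989687) (nat_lit 76) (nat_lit 735625492) (nat_lit 61) (nat_lit 5) (nat_lit 66) (nat_lit 5) (nat_lit 62) (nat_lit 5) (nat_lit 285) (nat_lit 257) (nat_lit 238)) (XT.lf (nat_lit 0) (nat_lit 2893840858) (nat_lit 304) (nat_lit 5419932248) (nat_lit 380) (nat_lit 714478755) (nat_lit 57) (nat_lit 5) (nat_lit 61) (nat_lit 5) (nat_lit 62) (nat_lit 5) (nat_lit 286) (nat_lit 257) (nat_lit 237))))) (XT.nd (nat_lit 156) (nat_lit 532) (nat_lit 0) (XT.nd (nat_lit 78) (nat_lit 228) (nat_lit 0) (XT.lf (nat_lit 0) (nat_lit 1952235471) (nat_lit 380) (nat_lit 623684895) (nat_lit 76) (nat_lit 6679736408) (nat_lit 56) (nat_lit 5) (nat_lit 61) (nat_lit 5) (nat_lit 57) (nat_lit 5) (nat_lit 287) (nat_lit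 257) (nat_lit 236)) (XT.lf (nat_lit 0) (nat_lit 4727533917) (nat_lit 304) (nat_lit 4300026370) (nat_lit 76) (nat_lit 466469672) (nat_lit 53) (nat_lit 5) (nat_lit 57) (nat_lit 5) (nat_lit 54) (nat_lit 5) (nat_lit 288) (nat_lit 257) (nat_lit 235))) (XT.nd (nat_lit 78) (nat_lit 304) (nat_lit 0) (XT.lf (nat_lit 0) (nat_lit 1467331649) (nat_lit 228) (nat_lit 6162730416) (nat_lit 304) (nat_lit 2114976168) (nat_lit 50) (nat_lit 5) (nat_lit 53) (nat_lit 5) (nat_lit 54) (nat_lit 5) (nat_lit 289) (nat_lit 257) (nat_lit 234)) (XT.nd (nat_lit 78) (nat_lit 228) (nat_lit 0) (XT.lf (nat_lit 0) (nat_lit 635144138) (nat_lit 304) (nat_lit 2463009606) (nat_lit 76) (nat_lit 6910675497) (nat_lit 49) (nat_lit 5) (nat_lit 53) (nat_lit 5) (nat_lit 50) (nat_lit 5) (nat_lit 290) (nat_lit 257) (nat_lit 233)) (XT.lf (nat_lit 0) (nat_lit 3428486954) (nat_lit 304) (nat_lit 6678186774) (nat_lit 76) (nat_lit 178683453)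 (nat_lit 46) (nat_lit 5) (nat_lit 50) (nat_lit 5) (nat_lit 47) (nat_lit 5) (nat_lit 291) (nat_lit 257) (nat_lit 232))))))) (XT.nd (nat_lit 780) (nat_lit 760) (nat_lit 0) (XT.nd (nat_lit 390) (nat_lit 380) (nat_lit 0) (XT.nd (nat_lit 156) (nat_lit 456) (nat_lit 0) (XT.nd (nat_lit 78) (nat_lit 228) (nat_lit 0) (XT.lf (nat_lit 0) (nat_lit 6373933455) (nat_lit 304) (nat_lit 673652071) (nat_lit 76) (nat_lit 3527619073) (nat_lit 46) (nat_lit 5) (nat_lit 50) (nat_lit 5) (nat_lit 47) (nat_lit 5) (nat_lit 292) (nat_lit 257) (nat_lit 231)) (XT.lf (nat_lit 0) (nat_lit 5704230357) (nat_lit 228) (nat_lit 3774577203) (nat_lit 304) (nat_lit 1400238498) (nat_lit 43) (nat_lit 5) (nat_lit 46) (nat_lit 5) (nat_lit 47) (nat_lit 5) (nat_lit 293) (nat_lit 257) (nat_lit 230))) (XT.nd (nat_lit 78) (nat_lit 228) (nat_lit 0) (XT.lf (nat_lit 0) (nat_lit 1128453873) (nat_lit 152) (nat_lit 316037147) (nat_lit 228)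 (nat_lit 9754836885) (nat_lit 40) (nat_lit 5) (nat_lit 42) (nat_lit 5) (nat_lit 43) (nat_lit 5) (nat_lit 294) (nat_lit 257) (nat_lit 229)) (XT.nd (nat_lit 78) (nat_lit 228) (nat_lit 0) (XT.lf (nat_lit 0) (nat_lit 4450388148) (nat_lit 228) (nat_lit 3792653913) (nat_lit 76) (nat_lit 3288229163) (nat_lit 40) (nat_lit 5) (nat_lit 43) (nat_lit 5) (nat_lit 41) (nat_lit 5) (nat_lit 295) (nat_lit 257) (nat_lit 228)) (XT.lf (nat_lit 0) (nat_lit 2776689350) (nat_lit 228) (nat_lit 4807138362) (nat_lit 304) (nat_lit 4297211649) (nat_lit 37) (nat_lit 5) (nat_lit 40) (nat_lit 5) (nat_lit 41) (nat_lit 5) (nat_lit 296) (nat_lit 257) (nat_lit 227))))) (XT.nd (nat_lit 156) (nat_lit 152) (nat_lit 0) (XT.nd (nat_lit 78) (nat_lit 228) (nat_lit 0) (XT.lf (nat_lit 0) (nat_lit 9701411224) (nat_lit 228) (nat_lit 1167232127) (nat_lit 304) (nat_lit 1380003093) (nat_lit 37) (nat_lit 5) (nat_lit 40) (nat_lit 5)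 (nat_lit 41) (nat_lit 5) (nat_lit 297) (nat_lit 257) (nat_lit 226)) (XT.lf (nat_lit 0) (nat_lit 1672159270) (nat_lit 228) (nat_lit 8327259943) (nat_lit 76) (nat_lit 2631830473) (nat_lit 34) (nat_lit 5) (nat_lit 37) (nat_lit 5) (nat_lit 35) (nat_lit 5) (nat_lit 298) (nat_lit 257) (nat_lit 225))) (XT.nd (nat_lit 78) (nat_lit 152) (nat_lit 0) (XT.lf (nat_lit 0) (nat_lit 4827252218) (nat_lit 228) (nat_lit 1590332057) (nat_lit 76) (nat_lit 6614506751) (nat_lit 34) (nat_lit 5) (nat_lit 37) (nat_lit 5) (nat_lit 35) (nat_lit 5) (nat_lit 299) (nat_lit 257) (nat_lit 224)) (XT.nd (nat_lit 78) (nat_lit 0) (nat_lit 0) (XT.lf (nat_lit 0) (nat_lit 5563163957) (nat_lit 152) (nat_lit 2600667499) (nat_lit 228) (nat_lit 5288026939) (nat_lit 32) (nat_lit 5) (nat_lit 34) (nat_lit 5) (nat_lit 35) (nat_lit 5) (nat_lit 300) (nat_lit 257) (nat_lit 223)) (XT.lf (nat_lit 0) (nat_lit 11654405120) (nat_lit 228)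 (nat_lit 883478765) (nat_lit 76) (nat_lit 1355439154) (nat_lit 32) (nat_lit 5) (nat_lit 35) (nat_lit 5) (nat_lit 33) (nat_lit 4) (nat_lit 301) (nat_lit 257) (nat_lit 222)))))) (XT.nd (nat_lit 390) (nat_lit 304) (nat_lit 0) (XT.nd (nat_lit 156) (nat_lit 228) (nat_lit 0) (XT.nd (nat_lit 78) (nat_lit 0) (nat_lit 0) (XT.lf (nat_lit 0) (nat_lit 1018767296) (nat_lit 228) (nat_lit 7824875696) (nat_lit 76) (nat_lit 5508180809) (nat_lit 29) (nat_lit 5) (nat_lit 32) (nat_lit 5) (nat_lit 30) (nat_lit 5) (nat_lit 302) (nat_lit 257) (nat_lit 221)) (XT.lf (nat_lit 0) (nat_lit 4320443996) (nat_lit 228) (nat_lit 625977379) (nat_lit 76) (nat_lit 9887233604) (nat_lit 29) (nat_lit 5) (nat_lit 32) (nat_lit 5) (nat_lit 30) (nat_lit 5) (nat_lit 303) (nat_lit 257) (nat_lit 220))) (XT.nd (nat_lit 78) (nat_lit 76) (nat_lit 0) (XT.lf (nat_lit 0) (nat_lit 7068535771) (nat_lit 152) (nat_lit 772973294) (nat_lit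 228) (nat_lit 7495408696) (nat_lit 27) (nat_lit 5) (nat_lit 29) (nat_lit 5) (nat_lit 30) (nat_lit 5) (nat_lit 304) (nat_lit 257) (nat_lit 219)) (XT.nd (nat_lit 78) (nat_lit 76) (nat_lit 0) (XT.lf (nat_lit 0) (nat_lit 11550438298) (nat_lit 228) (nat_lit 843191329) (nat_lit 76) (nat_lit 3471176147) (nat_lit 27) (nat_lit 5) (nat_lit 30) (nat_lit 5) (nat_lit 28) (nat_lit 4) (nat_lit 305) (nat_lit 257) (nat_lit 218)) (XT.lf (nat_lit 0) (nat_lit 7080185792) (nat_lit 76) (nat_lit 8435162378) (nat_lit 152) (nat_lit 900263445) (nat_lit 26) (nat_lit 5) (nat_lit 27) (nat_lit 5) (nat_lit 28) (nat_lit 4) (nat_lit 306) (nat_lit 257) (nat_lit 217))))) (XT.nd (nat_lit 156) (nat_lit 76) (nat_lit 0) (XT.nd (nat_lit 78) (nat_lit 152) (nat_lit 0) (XT.lf (nat_lit 0) (nat_lit 2560739794) (nat_lit 152) (nat_lit 1693771769) (nat_lit 76) (nat_lit 12739290179) (nat_lit 25) (nat_lit 5) (nat_lit 27) (nat_lit 5)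 (nat_lit 26) (nat_lit 5) (nat_lit 307) (nat_lit 257) (nat_lit 216)) (XT.lf (nat_lit 0) (nat_lit 6218631591) (nat_lit 228) (nat_lit 11163116828) (nat_lit 76) (nat_lit 215753684) (nat_lit 23) (nat_lit 5) (nat_lit 26) (nat_lit 5) (nat_lit 24) (nat_lit 4) (nat_lit 308) (nat_lit 257) (nat_lit 215))) (XT.nd (nat_lit 78) (nat_lit 76) (nat_lit 0) (XT.lf (nat_lit 0) (nat_lit 10108998034) (nat_lit 228) (nat_lit 3356263038) (nat_lit 76) (nat_lit 4763688652) (nat_lit 23) (nat_lit 5) (nat_lit 26) (nat_lit 5) (nat_lit 24) (nat_lit 4) (nat_lit 309) (nat_lit 257) (nat_lit 214)) (XT.nd (nat_lit 78) (nat_lit 0) (nat_lit 0) (XT.lf (nat_lit 0) (nat_lit 4918501378) (nat_lit 76) (nat_lit 9305200514) (nat_lit 152) (nat_lit 4666816160) (nat_lit 22) (nat_lit 5) (nat_lit 23) (nat_lit 5) (nat_lit 24) (nat_lit 4) (nat_lit 310) (nat_lit 257) (nat_lit 213)) (XT.lf (nat_lit 0) (nat_lit 13644959045) (nat_lit 76) (nat_lit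 4910059476) (nat_lit 152) (nat_lit 1029639806) (nat_lit 22) (nat_lit 5) (nat_lit 23) (nat_lit 5) (nat_lit 24) (nat_lit 4) (nat_lit 311) (nat_lit 257) (nat_lit 212))))))))
noncomputable def xc97 : XT := (XT.nd (nat_lit 1560) (nat_lit 380) (nat_lit 0) (XT.nd (nat_lit 780) (nat_lit 304) (nat_lit 0) (XT.nd (nat_lit 390) (nat_lit 304) (nat_lit 0) (XT.nd (nat_lit 156) (nat_lit 76) (nat_lit 0) (XT.nd (nat_lit 78) (nat_lit 0) (nat_lit 0) (XT.lf (nat_lit 0) (nat_lit 2452858779) (nat_lit 152) (nat_lit 241028747) (nat_lit 228) (nat_lit 17617785996) (nat_lit 19) (nat_lit 5) (nat_lit 21) (nat_lit 5) (nat_lit 22) (nat_lit 5) (nat_lit 312) (nat_lit 257) (nat_lit 211)) (XT.lf (nat_lit 0) (nat_lit 6699937479) (nat_lit 228) (nat_lit 9766878566) (nat_lit 76) (nat_lit 4600864336) (nat_lit 19) (nat_lit 5) (nat_lit 22) (nat_lit 5) (nat_lit 20) (nat_lit 4) (nat_lit 313) (nat_lit 257) (nat_lit 210))) (XT.nd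 (nat_lit 78) (nat_lit 76) (nat_lit 0) (XT.lf (nat_lit 0) (nat_lit 10868269622) (nat_lit 228) (nat_lit 1347458417) (nat_lit 76) (nat_lit 9647691335) (nat_lit 19) (nat_lit 5) (nat_lit 22) (nat_lit 5) (nat_lit 20) (nat_lit 4) (nat_lit 314) (nat_lit 257) (nat_lit 209)) (XT.nd (nat_lit 78) (nat_lit 0) (nat_lit 0) (XT.lf (nat_lit 0) (nat_lit 7668701410) (nat_lit 76) (nat_lit 7656073933) (nat_lit 152) (nat_lit 7370211438) (nat_lit 18) (nat_lit 5) (nat_lit 19) (nat_lit 5) (nat_lit 20) (nat_lit 4) (nat_lit 315) (nat_lit 257) (nat_lit 208)) (XT.lf (nat_lit 0) (nat_lit 17113896112) (nat_lit 76) (nat_lit 2873890306) (nat_lit 152) (nat_lit 3581190053) (nat_lit 18) (nat_lit 5) (nat_lit 19) (nat_lit 5) (nat_lit 20) (nat_lit 4) (nat_lit 316) (nat_lit 257) (nat_lit 207))))) (XT.nd (nat_lit 156) (nat_lit 76) (nat_lit 0) (XT.nd (nat_lit 78) (nat_lit 0) (nat_lit 0) (XT.lf (nat_lit 0) (nat_lit 420358514)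 (nat_lit 228) (nat_lit 21966471256) (nat_lit 76) (nat_lit 2097761478) (nat_lit 15) (nat_lit 5) (nat_lit 18) (nat_lit 5) (nat_lit 16) (nat_lit 4) (nat_lit 317) (nat_lit 257) (nat_lit 206)) (XT.lf (nat_lit 0) (nat_lit 4622285193) (nat_lit 228) (nat_lit 13450980047) (nat_lit 76) (nat_lit 7363777630) (nat_lit 15) (nat_lit 5) (nat_lit 18) (nat_lit 5) (nat_lit 16) (nat_lit 4) (nat_lit 318) (nat_lit 257) (nat_lit 205))) (XT.nd (nat_lit 78) (nat_lit 76) (nat_lit 0) (XT.lf (nat_lit 0) (nat_lit 8998524546) (nat_lit 228) (nat_lit 4573459358) (nat_lit 76) (nat_lit 12866945320) (nat_lit 15) (nat_lit 5) (nat_lit 18) (nat_lit 5) (nat_lit 16) (nat_lit 4) (nat_lit 319) (nat_lit 257) (nat_lit 204)) (XT.nd (nat_lit 78) (nat_lit 0) (nat_lit 0) (XT.lf (nat_lit 0) (nat_lit 4842208681) (nat_lit 76) (nat_lit 8792887955) (nat_lit 152) (nat_lit 13853759092) (nat_lit 14) (nat_lit 5) (nat_lit 15) (nat_lit 5) (nat_lit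 16) (nat_lit 4) (nat_lit 320) (nat_lit 257) (nat_lit 203)) (XT.lf (nat_lit 0) (nat_lit 14827709893) (nat_lit 76) (nat_lit 3719851793) (nat_lit 152) (nat_lit 10041534487) (nat_lit 14) (nat_lit 5) (nat_lit 15) (nat_lit 5) (nat_lit 16) (nat_lit 4) (nat_lit 321) (nat_lit 257) (nat_lit 202)))))) (XT.nd (nat_lit 390) (nat_lit 76) (nat_lit 0) (XT.nd (nat_lit 156) (nat_lit 152) (nat_lit 0) (XT.nd (nat_lit 78) (nat_lit 76) (nat_lit 0) (XT.lf (nat_lit 0) (nat_lit 23698546107) (nat_lit 152) (nat_lit 4515053935) (nat_lit 0) (nat_lit 1531123630) (nat_lit 14) (nat_lit 5) (nat_lit 16) (nat_lit 4) (nat_lit 14) (nat_lit 4) (nat_lit 322) (nat_lit 257) (nat_lit 201)) (XT.lf (nat_lit 0) (nat_lit 5245154164) (nat_lit 76) (nat_lit 23974140131) (nat_lit 76) (nat_lit 1733246418) (nat_lit 13) (nat_lit 4) (nat_lit 14) (nat_lit 5) (nat_lit 14) (nat_lit 4) (nat_lit 323) (nat_lit 257) (nat_lit 200))) (XT.nd (nat_lit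 78) (nat_lit 76) (nat_lit 0) (XT.lf (nat_lit 0) (nat_lit 2753023045) (nat_lit 152) (nat_lit 16667169075) (nat_lit 76) (nat_lit 12796033485) (nat_lit 12) (nat_lit 5) (nat_lit 14) (nat_lit 5) (nat_lit 13) (nat_lit 4) (nat_lit 324) (nat_lit 257) (nat_lit 199)) (XT.nd (nat_lit 78) (nat_lit 76) (nat_lit 0) (XT.lf (nat_lit 0) (nat_lit 7376254371) (nat_lit 152) (nat_lit 7256185432) (nat_lit 76) (nat_lit 18910705724) (nat_lit 12) (nat_lit 5) (nat_lit 14) (nat_lit 5) (nat_lit 13) (nat_lit 4) (nat_lit 325) (nat_lit 257) (nat_lit 198)) (XT.lf (nat_lit 0) (nat_lit 2660174512) (nat_lit 76) (nat_lit 9584288230) (nat_lit 152) (nat_lit 22691273476) (nat_lit 11) (nat_lit 5) (nat_lit 12) (nat_lit 5) (nat_lit 13) (nat_lit 4) (nat_lit 326) (nat_lit 257) (nat_lit 197))))) (XT.nd (nat_lit 156) (nat_lit 76) (nat_lit 0) (XT.nd (nat_lit 78) (nat_lit 0) (nat_lit 0) (XT.lf (nat_lit 0) (nat_lit 13274767284) (nat_lit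 76) (nat_lit 4177030941) (nat_lit 152) (nat_lit 18941387187) (nat_lit 11) (nat_lit 5) (nat_lit 12) (nat_lit 5) (nat_lit 13) (nat_lit 4) (nat_lit 327) (nat_lit 257) (nat_lit 196)) (XT.lf (nat_lit 0) (nat_lit 22916720312) (nat_lit 152) (nat_lit 13574967849) (nat_lit 0) (nat_lit 1431972013) (nat_lit 11) (nat_lit 5) (nat_lit 13) (nat_lit 4) (nat_lit 11) (nat_lit 4) (nat_lit 328) (nat_lit 257) (nat_lit 195))) (XT.nd (nat_lit 78) (nat_lit 76) (nat_lit 0) (XT.lf (nat_lit 0) (nat_lit 28698403873) (nat_lit 152) (nat_lit 3668651520) (nat_lit 0) (nat_lit 7161440939) (nat_lit 11) (nat_lit 5) (nat_lit 13) (nat_lit 4) (nat_lit 11) (nat_lit 4) (nat_lit 329) (nat_lit 257) (nat_lit 194)) (XT.nd (nat_lit 78) (nat_lit 0) (nat_lit 0) (XT.lf (nat_lit 0) (nat_lit 6910512025) (nat_lit 76) (nat_lit 27942780098) (nat_lit 76) (nat_lit 6356088940) (nat_lit 10) (nat_lit 4) (nat_lit 11) (nat_lit 5) (nat_lit 11)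 (nat_lit 4) (nat_lit 330) (nat_lit 257) (nat_lit 193)) (XT.lf (nat_lit 0) (nat_lit 18103056906) (nat_lit 76) (nat_lit 23251687839) (nat_lit 76) (nat_lit 1617636467) (nat_lit 10) (nat_lit 4) (nat_lit 11) (nat_lit 5) (nat_lit 11) (nat_lit 4) (nat_lit 331) (nat_lit 257) (nat_lit 192))))))) (XT.nd (nat_lit 780) (nat_lit 152) (nat_lit 0) (XT.nd (nat_lit 390) (nat_lit 76) (nat_lit 0) (XT.nd (nat_lit 156) (nat_lit 76) (nat_lit 0) (XT.nd (nat_lit 78) (nat_lit 0) (nat_lit 0) (XT.lf (nat_lit 0) (nat_lit 3227694445) (nat_lit 152) (nat_lit 15062382723) (nat_lit 76) (nat_lit 26531972839) (nat_lit 9) (nat_lit 5) (nat_lit 11) (nat_lit 5) (nat_lit 10) (nat_lit 4) (nat_lit 332) (nat_lit 257) (nat_lit 191)) (XT.lf (nat_lit 0) (nat_lit 8239428159) (nat_lit 152) (nat_lit 4831285719) (nat_lit 76) (nat_lit 33693247982) (nat_lit 9) (nat_lit 5) (nat_lit 11) (nat_lit 5) (nat_lit 10) (nat_lit 4) (nat_lit 333)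 (nat_lit 257) (nat_lit 190))) (XT.nd (nat_lit 78) (nat_lit 0) (nat_lit 0) (XT.lf (nat_lit 0) (nat_lit 6067789457) (nat_lit 76) (nat_lit 7508217585) (nat_lit 152) (nat_lit 35223259360) (nat_lit 8) (nat_lit 5) (nat_lit 9) (nat_lit 5) (nat_lit 10) (nat_lit 4) (nat_lit 334) (nat_lit 257) (nat_lit 189)) (XT.nd (nat_lit 78) (nat_lit 0) (nat_lit 0) (XT.lf (nat_lit 0) (nat_lit 17642375307) (nat_lit 76) (nat_lit 1598777693) (nat_lit 152) (nat_lit 31692105808) (nat_lit 8) (nat_lit 5) (nat_lit 9) (nat_lit 5) (nat_lit 10) (nat_lit 4) (nat_lit 335) (nat_lit 257) (nat_lit 188)) (XT.lf (nat_lit 0) (nat_lit 25242091024) (nat_lit 152) (nat_lit 23486290480) (nat_lit 0) (nat_lit 4442951680) (nat_lit 8) (nat_lit 5) (nat_lit 10) (nat_lit 4) (nat_lit 8) (nat_lit 4) (nat_lit 336) (nat_lit 257) (nat_lit 187))))) (XT.nd (nat_lit 156) (nat_lit 76) (nat_lit 0) (XT.nd (nat_lit 78) (nat_lit 0) (nat_lit 0) (XT.lf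 (nat_lit 0) (nat_lit 31550828376) (nat_lit 152) (nat_lit 13252072925) (nat_lit 0) (nat_lit 10718031012) (nat_lit 8) (nat_lit 5) (nat_lit 10) (nat_lit 4) (nat_lit 8) (nat_lit 4) (nat_lit 337) (nat_lit 257) (nat_lit 186)) (XT.lf (nat_lit 0) (nat_lit 38157424459) (nat_lit 152) (nat_lit 2538902253) (nat_lit 0) (nat_lit 17292571838) (nat_lit 8) (nat_lit 5) (nat_lit 10) (nat_lit 4) (nat_lit 8) (nat_lit 4) (nat_lit 338) (nat_lit 257) (nat_lit 185))) (XT.nd (nat_lit 78) (nat_lit 0) (nat_lit 0) (XT.lf (nat_lit 0) (nat_lit 8965687062) (nat_lit 76) (nat_lit 36251901701) (nat_lit 76) (nat_lit 15356520264) (nat_lit 7) (nat_lit 4) (nat_lit 8) (nat_lit 5) (nat_lit 8) (nat_lit 4) (nat_lit 339) (nat_lit 257) (nat_lit 184)) (XT.nd (nat_lit 78) (nat_lit 0) (nat_lit 0) (XT.lf (nat_lit 0) (nat_lit 21102956123) (nat_lit 76) (nat_lit 31554379581) (nat_lit 76) (nat_lit 10629923082) (nat_lit 7) (nat_lit 4) (nat_lit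 8) (nat_lit 5) (nat_lit 8) (nat_lit 4) (nat_lit 340) (nat_lit 257) (nat_lit 183)) (XT.lf (nat_lit 0) (nat_lit 33817855612) (nat_lit 76) (nat_lit 26635573315) (nat_lit 76) (nat_lit 5683426279) (nat_lit 7) (nat_lit 4) (nat_lit 8) (nat_lit 5) (nat_lit 8) (nat_lit 4) (nat_lit 341) (nat_lit 257) (nat_lit 182)))))) (XT.nd (nat_lit 390) (nat_lit 0) (nat_lit 0) (XT.nd (nat_lit 156) (nat_lit 76) (nat_lit 0) (XT.nd (nat_lit 78) (nat_lit 76) (nat_lit 0) (XT.lf (nat_lit 0) (nat_lit 47140659100) (nat_lit 76) (nat_lit 21483771459) (nat_lit 76) (nat_lit 505252484) (nat_lit 7) (nat_lit 4) (nat_lit 8) (nat_lit 5) (nat_lit 8) (nat_lit 4) (nat_lit 342) (nat_lit 257) (nat_lit 181)) (XT.lf (nat_lit 0) (nat_lit 4759554909) (nat_lit 152) (nat_lit 11246547542) (nat_lit 76) (nat_lit 56262927273) (nat_lit 6) (nat_lit 5) (nat_lit 8) (nat_lit 5) (nat_lit 7) (nat_lit 4) (nat_lit 343) (nat_lit 257) (nat_lit 180)))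 (XT.nd (nat_lit 78) (nat_lit 76) (nat_lit 0) (XT.lf (nat_lit 0) (nat_lit 10256884084) (nat_lit 152) (nat_lit 942859) (nat_lit 76) (nat_lit 65307795453) (nat_lit 6) (nat_lit 5) (nat_lit 8) (nat_lit 5) (nat_lit 7) (nat_lit 4) (nat_lit 344) (nat_lit 257) (nat_lit 179)) (XT.nd (nat_lit 78) (nat_lit 0) (nat_lit 0) (XT.lf (nat_lit 0) (nat_lit 12172034893) (nat_lit 76) (nat_lit 4033999837) (nat_lit 152) (nat_lit 62812167801) (nat_lit 5) (nat_lit 5) (nat_lit 6) (nat_lit 5) (nat_lit 7) (nat_lit 4) (nat_lit 345) (nat_lit 257) (nat_lit 178)) (XT.lf (nat_lit 0) (nat_lit 22478693663) (nat_lit 152) (nat_lit 57753329566) (nat_lit 0) (nat_lit 2410091220) (nat_lit 5) (nat_lit 5) (nat_lit 7) (nat_lit 4) (nat_lit 5) (nat_lit 4) (nat_lit 346) (nat_lit 257) (nat_lit 177))))) (XT.nd (nat_lit 156) (nat_lit 0) (nat_lit 0) (XT.nd (nat_lit 78) (nat_lit 0) (nat_lit 0) (XT.lf (nat_lit 0) (nat_lit 29118722986) (nat_lit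 152) (nat_lit 48295375769) (nat_lit 0) (nat_lit 9030441396) (nat_lit 5) (nat_lit 5) (nat_lit 7) (nat_lit 4) (nat_lit 5) (nat_lit 4) (nat_lit 347) (nat_lit 257) (nat_lit 176)) (XT.lf (nat_lit 0) (nat_lit 36078950251) (nat_lit 152) (nat_lit 38386805269) (nat_lit 0) (nat_lit 15971926616) (nat_lit 5) (nat_lit 5) (nat_lit 7) (nat_lit 4) (nat_lit 5) (nat_lit 4) (nat_lit 348) (nat_lit 257) (nat_lit 175))) (XT.nd (nat_lit 78) (nat_lit 0) (nat_lit 0) (XT.lf (nat_lit 0) (nat_lit 43375947426) (nat_lit 152) (nat_lit 28004026231) (nat_lit 0) (nat_lit 23251074225) (nat_lit 5) (nat_lit 5) (nat_lit 7) (nat_lit 4) (nat_lit 5) (nat_lit 4) (nat_lit 349) (nat_lit 257) (nat_lit 174)) (XT.nd (nat_lit 78) (nat_lit 0) (nat_lit 0) (XT.lf (nat_lit 0) (nat_lit 51027088315) (nat_lit 152) (nat_lit 17122317753) (nat_lit 0) (nat_lit 30885215527) (nat_lit 5) (nat_lit 5) (nat_lit 7) (nat_lit 4) (nat_lit 5) (nat_lit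 4) (nat_lit 350) (nat_lit 257) (nat_lit 173)) (XT.lf (nat_lit 0) (nat_lit 59050589920) (nat_lit 152) (nat_lit 5715771003) (nat_lit 0) (nat_lit 38892527049) (nat_lit 5) (nat_lit 5) (nat_lit 7) (nat_lit 4) (nat_lit 5) (nat_lit 4) (nat_lit 351) (nat_lit 257) (nat_lit 172))))))))
noncomputable def xc98 : XT := (XT.nd (nat_lit 1560) (nat_lit 76) (nat_lit 0) (XT.nd (nat_lit 780) (nat_lit 76) (nat_lit 0) (XT.nd (nat_lit 390) (nat_lit 76) (nat_lit 0) (XT.nd (nat_lit 156) (nat_lit 0) (nat_lit 0) (XT.nd (nat_lit 78) (nat_lit 0) (nat_lit 0) (XT.lf (nat_lit 0) (nat_lit 6449186710) (nat_lit 76) (nat_lit 61117058983) (nat_lit 76) (nat_lit 40943576986) (nat_lit 4) (nat_lit 4) (nat_lit 5) (nat_lit 5) (nat_lit 5) (nat_lit 4) (nat_lit 352) (nat_lit 257) (nat_lit 171)) (XT.lf (nat_lit 0) (nat_lit 19402796006) (nat_lit 76) (nat_lit 57192157651) (nat_lit 76) (nat_lit 37003990771) (nat_lit 4) (nat_lit 4)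 (nat_lit 5) (nat_lit 5) (nat_lit 5) (nat_lit 4) (nat_lit 353) (nat_lit 257) (nat_lit 170))) (XT.nd (nat_lit 78) (nat_lit 0) (nat_lit 0) (XT.lf (nat_lit 0) (nat_lit 32986909608) (nat_lit 76) (nat_lit 53079111272) (nat_lit 76) (nat_lit 32876958790) (nat_lit 4) (nat_lit 4) (nat_lit 5) (nat_lit 5) (nat_lit 5) (nat_lit 4) (nat_lit 354) (nat_lit 257) (nat_lit 169)) (XT.nd (nat_lit 78) (nat_lit 0) (nat_lit 0) (XT.lf (nat_lit 0) (nat_lit 47233870642) (nat_lit 76) (nat_lit 48768126878) (nat_lit 76) (nat_lit 28552654774) (nat_lit 4) (nat_lit 4) (nat_lit 5) (nat_lit 5) (nat_lit 5) (nat_lit 4) (nat_lit 355) (nat_lit 257) (nat_lit 168)) (XT.lf (nat_lit 0) (nat_lit 62177600446) (nat_lit 76) (nat_lit 44248940221) (nat_lit 76) (nat_lit 24020782763) (nat_lit 4) (nat_lit 4) (nat_lit 5) (nat_lit 5) (nat_lit 5) (nat_lit 4) (nat_lit 356) (nat_lit 257) (nat_lit 167))))) (XT.nd (nat_lit 156) (nat_lit 76) (nat_lit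 0) (XT.nd (nat_lit 78) (nat_lit 0) (nat_lit 0) (XT.lf (nat_lit 0) (nat_lit 77853679327) (nat_lit 76) (nat_lit 39510791332) (nat_lit 76) (nat_lit 19270552585) (nat_lit 4) (nat_lit 4) (nat_lit 5) (nat_lit 5) (nat_lit 5) (nat_lit 4) (nat_lit 357) (nat_lit 257) (nat_lit 166)) (XT.lf (nat_lit 0) (nat_lit 94299431284) (nat_lit 76) (nat_lit 34542398904) (nat_lit 76) (nat_lit 14290654168) (nat_lit 4) (nat_lit 4) (nat_lit 5) (nat_lit 5) (nat_lit 5) (nat_lit 4) (nat_lit 358) (nat_lit 257) (nat_lit 165))) (XT.nd (nat_lit 78) (nat_lit 76) (nat_lit 0) (XT.lf (nat_lit 0) (nat_lit 111554012868) (nat_lit 76) (nat_lit 29331933432) (nat_lit 76) (nat_lit 9069230611) (nat_lit 4) (nat_lit 4) (nat_lit 5) (nat_lit 5) (nat_lit 5) (nat_lit 4) (nat_lit 359) (nat_lit 257) (nat_lit 164)) (XT.nd (nat_lit 78) (nat_lit 76) (nat_lit 0) (XT.lf (nat_lit 0) (nat_lit 129658506418) (nat_lit 76) (nat_lit 23866989046) (nat_lit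 76) (nat_lit 3593849953) (nat_lit 4) (nat_lit 4) (nat_lit 5) (nat_lit 5) (nat_lit 5) (nat_lit 4) (nat_lit 360) (nat_lit 257) (nat_lit 163)) (XT.lf (nat_lit 0) (nat_lit 2079758226) (nat_lit 152) (nat_lit 16019574034) (nat_lit 76) (nat_lit 146541037929) (nat_lit 3) (nat_lit 5) (nat_lit 5) (nat_lit 5) (nat_lit 4) (nat_lit 4) (nat_lit 361) (nat_lit 257) (nat_lit 162)))))) (XT.nd (nat_lit 390) (nat_lit 0) (nat_lit 0) (XT.nd (nat_lit 156) (nat_lit 0) (nat_lit 0) (XT.nd (nat_lit 78) (nat_lit 76) (nat_lit 0) (XT.lf (nat_lit 0) (nat_lit 7910023739) (nat_lit 152) (nat_lit 4076995739) (nat_lit 76) (nat_lit 160547795572) (nat_lit 3) (nat_lit 5) (nat_lit 5) (nat_lit 5) (nat_lit 4) (nat_lit 4) (nat_lit 362) (nat_lit 257) (nat_lit 161)) (XT.lf (nat_lit 0) (nat_lit 8730883461) (nat_lit 76) (nat_lit 5431283909) (nat_lit 152) (nat_lit 166655298748) (nat_lit 2) (nat_lit 5) (nat_lit 3) (nat_lit 5) (nat_lit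 4) (nat_lit 4) (nat_lit 363) (nat_lit 257) (nat_lit 160))) (XT.nd (nat_lit 78) (nat_lit 0) (nat_lit 0) (XT.lf (nat_lit 0) (nat_lit 20813848944) (nat_lit 152) (nat_lit 167225203225) (nat_lit 0) (nat_lit 1470853137) (nat_lit 2) (nat_lit 5) (nat_lit 4) (nat_lit 4) (nat_lit 2) (nat_lit 4) (nat_lit 364) (nat_lit 257) (nat_lit 159)) (XT.nd (nat_lit 78) (nat_lit 0) (nat_lit 0) (XT.lf (nat_lit 0) (nat_lit 27881513418) (nat_lit 152) (nat_lit 162220555191) (nat_lit 0) (nat_lit 8530729905) (nat_lit 2) (nat_lit 5) (nat_lit 4) (nat_lit 4) (nat_lit 2) (nat_lit 4) (nat_lit 365) (nat_lit 257) (nat_lit 158)) (XT.lf (nat_lit 0) (nat_lit 35297191005) (nat_lit 152) (nat_lit 156975925163) (nat_lit 0) (nat_lit 15938990628) (nat_lit 2) (nat_lit 5) (nat_lit 4) (nat_lit 4) (nat_lit 2) (nat_lit 4) (nat_lit 366) (nat_lit 257) (nat_lit 157))))) (XT.nd (nat_lit 156) (nat_lit 0) (nat_lit 0) (XT.nd (nat_lit 78) (nat_lit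 0) (nat_lit 0) (XT.lf (nat_lit 0) (nat_lit 43078538078) (nat_lit 152) (nat_lit 151478825927) (nat_lit 0) (nat_lit 23713274022) (nat_lit 2) (nat_lit 5) (nat_lit 4) (nat_lit 4) (nat_lit 2) (nat_lit 4) (nat_lit 367) (nat_lit 257) (nat_lit 156)) (XT.lf (nat_lit 0) (nat_lit 51244081656) (nat_lit 152) (nat_lit 145716169152) (nat_lit 0) (nat_lit 31872090286) (nat_lit 2) (nat_lit 5) (nat_lit 4) (nat_lit 4) (nat_lit 2) (nat_lit 4) (nat_lit 368) (nat_lit 257) (nat_lit 155))) (XT.nd (nat_lit 78) (nat_lit 0) (nat_lit 0) (XT.lf (nat_lit 0) (nat_lit 59813263507) (nat_lit 152) (nat_lit 139674234227) (nat_lit 0) (nat_lit 40434865172) (nat_lit 2) (nat_lit 5) (nat_lit 4) (nat_lit 4) (nat_lit 2) (nat_lit 4) (nat_lit 369) (nat_lit 257) (nat_lit 154)) (XT.nd (nat_lit 78) (nat_lit 0) (nat_lit 0) (XT.lf (nat_lit 0) (nat_lit 68806486447) (nat_lit 152) (nat_lit 133338635591) (nat_lit 0) (nat_lit 49421986240)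 (nat_lit 2) (nat_lit 5) (nat_lit 4) (nat_lit 4) (nat_lit 2) (nat_lit 4) (nat_lit 370) (nat_lit 257) (nat_lit 153)) (XT.lf (nat_lit 0) (nat_lit 78245162911) (nat_lit 152) (nat_lit 126694288487) (nat_lit 0) (nat_lit 58854851397) (nat_lit 2) (nat_lit 5) (nat_lit 4) (nat_lit 4) (nat_lit 2) (nat_lit 4) (nat_lit 371) (nat_lit 257) (nat_lit 152))))))) (XT.nd (nat_lit 780) (nat_lit 76) (nat_lit 0) (XT.nd (nat_lit 390) (nat_lit 0) (nat_lit 0) (XT.nd (nat_lit 156) (nat_lit 0) (nat_lit 0) (XT.nd (nat_lit 78) (nat_lit 0) (nat_lit 0) (XT.lf (nat_lit 0) (nat_lit 88151765937) (nat_lit 152) (nat_lit 119725373040) (nat_lit 0) (nat_lit 68755919845) (nat_lit 2) (nat_lit 5) (nat_lit 4) (nat_lit 4) (nat_lit 2) (nat_lit 4) (nat_lit 372) (nat_lit 257) (nat_lit 151)) (XT.lf (nat_lit 0) (nat_lit 98549882677) (nat_lit 152) (nat_lit 112415296594) (nat_lit 0) (nat_lit 79148765559) (nat_lit 2) (nat_lit 5) (nat_lit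 4) (nat_lit 4) (nat_lit 2) (nat_lit 4) (nat_lit 373) (nat_lit 257) (nat_lit 150))) (XT.nd (nat_lit 78) (nat_lit 0) (nat_lit 0) (XT.lf (nat_lit 0) (nat_lit 109464270551) (nat_lit 152) (nat_lit 104746654206) (nat_lit 0) (nat_lit 90058133407) (nat_lit 2) (nat_lit 5) (nat_lit 4) (nat_lit 4) (nat_lit 2) (nat_lit 4) (nat_lit 374) (nat_lit 257) (nat_lit 149)) (XT.nd (nat_lit 78) (nat_lit 0) (nat_lit 0) (XT.lf (nat_lit 0) (nat_lit 120920916196) (nat_lit 152) (nat_lit 96701187203) (nat_lit 0) (nat_lit 101509998076) (nat_lit 2) (nat_lit 5) (nat_lit 4) (nat_lit 4) (nat_lit 2) (nat_lit 4) (nat_lit 375) (nat_lit 257) (nat_lit 148)) (XT.lf (nat_lit 0) (nat_lit 132947097340) (nat_lit 152) (nat_lit 88259739712) (nat_lit 0) (nat_lit 113531625910) (nat_lit 2) (nat_lit 5) (nat_lit 4) (nat_lit 4) (nat_lit 2) (nat_lit 4) (nat_lit 376) (nat_lit 257) (nat_lit 147))))) (XT.nd (nat_lit 156) (nat_lit 0) (nat_lit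 0) (XT.nd (nat_lit 78) (nat_lit 0) (nat_lit 0) (XT.lf (nat_lit 0) (nat_lit 145571447749) (nat_lit 152) (nat_lit 79402213048) (nat_lit 0) (nat_lit 126151639832) (nat_lit 2) (nat_lit 5) (nat_lit 4) (nat_lit 4) (nat_lit 2) (nat_lit 4) (nat_lit 377) (nat_lit 257) (nat_lit 146)) (XT.lf (nat_lit 0) (nat_lit 158824025399) (nat_lit 152) (nat_lit 70107517861) (nat_lit 0) (nat_lit 139400087494) (nat_lit 2) (nat_lit 5) (nat_lit 4) (nat_lit 4) (nat_lit 2) (nat_lit 4) (nat_lit 378) (nat_lit 257) (nat_lit 145))) (XT.nd (nat_lit 78) (nat_lit 0) (nat_lit 0) (XT.lf (nat_lit 0) (nat_lit 172736384046) (nat_lit 152) (nat_lit 60353523925) (nat_lit 0) (nat_lit 153308512821) (nat_lit 2) (nat_lit 5) (nat_lit 4) (nat_lit 4) (nat_lit 2) (nat_lit 4) (nat_lit 379) (nat_lit 257) (nat_lit 144)) (XT.nd (nat_lit 78) (nat_lit 0) (nat_lit 0) (XT.lf (nat_lit 0) (nat_lit 187341648354) (nat_lit 152) (nat_lit 50117007445)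 (nat_lit 0) (nat_lit 167910031109) (nat_lit 2) (nat_lit 5) (nat_lit 4) (nat_lit 4) (nat_lit 2) (nat_lit 4) (nat_lit 380) (nat_lit 257) (nat_lit 143)) (XT.lf (nat_lit 0) (nat_lit 202674592762) (nat_lit 152) (nat_lit 39373595763) (nat_lit 0) (nat_lit 183239407878) (nat_lit 2) (nat_lit 5) (nat_lit 4) (nat_lit 4) (nat_lit 2) (nat_lit 4) (nat_lit 381) (nat_lit 257) (nat_lit 142)))))) (XT.nd (nat_lit 390) (nat_lit 0) (nat_lit 0) (XT.nd (nat_lit 156) (nat_lit 76) (nat_lit 0) (XT.nd (nat_lit 78) (nat_lit 0) (nat_lit 0) (XT.lf (nat_lit 0) (nat_lit 218771724280) (nat_lit 152) (nat_lit 28097709327) (nat_lit 0) (nat_lit 199333141646) (nat_lit 2) (nat_lit 5) (nat_lit 4) (nat_lit 4) (nat_lit 2) (nat_lit 4) (nat_lit 382) (nat_lit 257) (nat_lit 141)) (XT.lf (nat_lit 0) (nat_lit 235671369412) (nat_lit 152) (nat_lit 16262500788) (nat_lit 0) (nat_lit 216229550825) (nat_lit 2) (nat_lit 5) (nat_lit 4) (nat_lit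 4) (nat_lit 2) (nat_lit 4) (nat_lit 383) (nat_lit 257) (nat_lit 140))) (XT.nd (nat_lit 78) (nat_lit 76) (nat_lit 0) (XT.lf (nat_lit 0) (nat_lit 253413765408) (nat_lit 152) (nat_lit 3839791078) (nat_lit 0) (nat_lit 233968864961) (nat_lit 2) (nat_lit 5) (nat_lit 4) (nat_lit 4) (nat_lit 2) (nat_lit 4) (nat_lit 384) (nat_lit 257) (nat_lit 139)) (XT.nd (nat_lit 78) (nat_lit 0) (nat_lit 0) (XT.lf (nat_lit 0) (nat_lit 9504191152) (nat_lit 76) (nat_lit 262685351975) (nat_lit 76) (nat_lit 243237516423) (nat_lit 1) (nat_lit 4) (nat_lit 2) (nat_lit 5) (nat_lit 2) (nat_lit 4) (nat_lit 385) (nat_lit 257) (nat_lit 138)) (XT.lf (nat_lit 0) (nat_lit 23644690363) (nat_lit 76) (nat_lit 268322361840) (nat_lit 76) (nat_lit 248871730950) (nat_lit 1) (nat_lit 4) (nat_lit 2) (nat_lit 5) (nat_lit 2) (nat_lit 4) (nat_lit 386) (nat_lit 257) (nat_lit 137))))) (XT.nd (nat_lit 31044) (nat_lit 0) (nat_lit 9880) (XT.nd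 (nat_lit 78) (nat_lit 0) (nat_lit 0) (XT.lf (nat_lit 0) (nat_lit 38488413575) (nat_lit 76) (nat_lit 274243036255) (nat_lit 76) (nat_lit 254789743138) (nat_lit 1) (nat_lit 4) (nat_lit 2) (nat_lit 5) (nat_lit 2) (nat_lit 4) (nat_lit 387) (nat_lit 257) (nat_lit 136)) (XT.lf (nat_lit 0) (nat_lit 54070702984) (nat_lit 76) (nat_lit 280461472062) (nat_lit 76) (nat_lit 261005643492) (nat_lit 1) (nat_lit 4) (nat_lit 2) (nat_lit 5) (nat_lit 2) (nat_lit 4) (nat_lit 388) (nat_lit 257) (nat_lit 135))) (XT.nd (nat_lit 78) (nat_lit 456) (nat_lit 0) (XT.lf (nat_lit 0) (nat_lit 3217836448) (nat_lit 76) (nat_lit 13786317) (nat_lit 76) (nat_lit 13786317) (nat_lit 137) (nat_lit 4) (nat_lit 138) (nat_lit 5) (nat_lit 138) (nat_lit 4) (nat_lit 264) (nat_lit 258) (nat_lit 258)) (XT.nd (nat_lit 78) (nat_lit 228) (nat_lit 0) (XT.lf (nat_lit 0) (nat_lit 2953401498) (nat_lit 228) (nat_lit 3075549068) (nat_lit 0)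 (nat_lit 488799043) (nat_lit 134) (nat_lit 5) (nat_lit 137) (nat_lit 4) (nat_lit 134) (nat_lit 4) (nat_lit 265) (nat_lit 258) (nat_lit 257)) (XT.lf (nat_lit 0) (nat_lit 464677656) (nat_lit 228) (nat_lit 5451056047) (nat_lit 228) (nat_lit 639213157) (nat_lit 131) (nat_lit 4) (nat_lit 134) (nat_lit 5) (nat_lit 134) (nat_lit 4) (nat_lit 266) (nat_lit 258) (nat_lit 256))))))))
noncomputable def xc99 : XT := (XT.nd (nat_lit 1560) (nat_lit 2432) (nat_lit 0) (XT.nd (nat_lit 780) (nat_lit 3040) (nat_lit 0) (XT.nd (nat_lit 390) (nat_lit 1748) (nat_lit 0) (XT.nd (nat_lit 156) (nat_lit 456) (nat_lit 0) (XT.nd (nat_lit 78) (nat_lit 304) (nat_lit 0) (XT.lf (nat_lit 0) (nat_lit 2235043654) (nat_lit 304) (nat_lit 2465470478) (nat_lit 76) (nat_lit 1898103201) (nat_lit 130) (nat_lit 5) (nat_lit 134) (nat_lit 5) (nat_lit 131) (nat_lit 4) (nat_lit 267) (nat_lit 258) (nat_lit 255)) (XT.lf (nat_lit 0) (nat_lit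 1252131357) (nat_lit 304) (nat_lit 3834921127) (nat_lit 380) (nat_lit 1564640297) (nat_lit 126) (nat_lit 5) (nat_lit 130) (nat_lit 5) (nat_lit 131) (nat_lit 4) (nat_lit 268) (nat_lit 258) (nat_lit 254))) (XT.nd (nat_lit 78) (nat_lit 380) (nat_lit 0) (XT.lf (nat_lit 0) (nat_lit 1211591949) (nat_lit 380) (nat_lit 1608195576) (nat_lit 76) (nat_lit 3892967833) (nat_lit 125) (nat_lit 5) (nat_lit 130) (nat_lit 5) (nat_lit 126) (nat_lit 5) (nat_lit 269) (nat_lit 258) (nat_lit 253)) (XT.nd (nat_lit 78) (nat_lit 0) (nat_lit 0) (XT.lf (nat_lit 0) (nat_lit 2304730791) (nat_lit 380) (nat_lit 1651875697) (nat_lit 456) (nat_lit 2825304882) (nat_lit 120) (nat_lit 5) (nat_lit 125) (nat_lit 5) (nat_lit 126) (nat_lit 5) (nat_lit 270) (nat_lit 258) (nat_lit 252)) (XT.lf (nat_lit 0) (nat_lit 6354885648) (nat_lit 380) (nat_lit 363313661) (nat_lit 456) (nat_lit 142788490) (nat_lit 120) (nat_lit 5) (nat_lit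 125) (nat_lit 5) (nat_lit 126) (nat_lit 5) (nat_lit 271) (nat_lit 258) (nat_lit 251))))) (XT.nd (nat_lit 156) (nat_lit 684) (nat_lit 0) (XT.nd (nat_lit 78) (nat_lit 532) (nat_lit 0) (XT.lf (nat_lit 0) (nat_lit 2518808201) (nat_lit 532) (nat_lit 3340373024) (nat_lit 76) (nat_lit 1086611892) (nat_lit 113) (nat_lit 5) (nat_lit 120) (nat_lit 5) (nat_lit 114) (nat_lit 5) (nat_lit 272) (nat_lit 258) (nat_lit 250)) (XT.lf (nat_lit 0) (nat_lit 803131919) (nat_lit 532) (nat_lit 4394689448) (nat_lit 608) (nat_lit 1842814109) (nat_lit 106) (nat_lit 5) (nat_lit 113) (nat_lit 5) (nat_lit 114) (nat_lit 5) (nat_lit 273) (nat_lit 258) (nat_lit 249))) (XT.nd (nat_lit 78) (nat_lit 608) (nat_lit 0) (XT.lf (nat_lit 0) (nat_lit 764335373) (nat_lit 608) (nat_lit 2004839451) (nat_lit 76) (nat_lit 4374619977) (nat_lit 105) (nat_lit 5) (nat_lit 113) (nat_lit 5) (nat_lit 106) (nat_lit 5) (nat_lit 274) (nat_lit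 258) (nat_lit 248)) (XT.nd (nat_lit 78) (nat_lit 0) (nat_lit 0) (XT.lf (nat_lit 0) (nat_lit 2368176612) (nat_lit 608) (nat_lit 979314128) (nat_lit 684) (nat_lit 3908052015) (nat_lit 97) (nat_lit 5) (nat_lit 105) (nat_lit 5) (nat_lit 106) (nat_lit 5) (nat_lit 275) (nat_lit 258) (nat_lit 247)) (XT.lf (nat_lit 0) (nat_lit 5983494024) (nat_lit 684) (nat_lit 478038027) (nat_lit 76) (nat_lit 915466427) (nat_lit 97) (nat_lit 5) (nat_lit 106) (nat_lit 5) (nat_lit 98) (nat_lit 5) (nat_lit 276) (nat_lit 258) (nat_lit 246)))))) (XT.nd (nat_lit 390) (nat_lit 988) (nat_lit 0) (XT.nd (nat_lit 156) (nat_lit 760) (nat_lit 0) (XT.nd (nat_lit 78) (nat_lit 532) (nat_lit 0) (XT.lf (nat_lit 0) (nat_lit 1167926018) (nat_lit 760) (nat_lit 3372842443) (nat_lit 76) (nat_lit 2965008782) (nat_lit 87) (nat_lit 5) (nat_lit 97) (nat_lit 5) (nat_lit 88) (nat_lit 5) (nat_lit 277) (nat_lit 258) (nat_lit 245)) (XT.lf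 (nat_lit 0) (nat_lit 1249301109) (nat_lit 532) (nat_lit 2471833504) (nat_lit 608) (nat_lit 3923454606) (nat_lit 80) (nat_lit 5) (nat_lit 87) (nat_lit 5) (nat_lit 88) (nat_lit 5) (nat_lit 278) (nat_lit 258) (nat_lit 244))) (XT.nd (nat_lit 78) (nat_lit 760) (nat_lit 0) (XT.lf (nat_lit 0) (nat_lit 6103385488) (nat_lit 532) (nat_lit 242308305) (nat_lit 608) (nat_lit 1447714317) (nat_lit 80) (nat_lit 5) (nat_lit 87) (nat_lit 5) (nat_lit 88) (nat_lit 5) (nat_lit 279) (nat_lit 258) (nat_lit 243)) (XT.nd (nat_lit 78) (nat_lit 304) (nat_lit 0) (XT.lf (nat_lit 0) (nat_lit 1089020136) (nat_lit 456) (nat_lit 4764775009) (nat_lit 76) (nat_lit 2096497534) (nat_lit 74) (nat_lit 5) (nat_lit 80) (nat_lit 5) (nat_lit 75) (nat_lit 5) (nat_lit 280) (nat_lit 258) (nat_lit 242)) (XT.lf (nat_lit 0) (nat_lit 106975326) (nat_lit 304) (nat_lit 3525047620) (nat_lit 380) (nat_lit 4485624333) (nat_lit 70) (nat_lit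 5) (nat_lit 74) (nat_lit 5) (nat_lit 75) (nat_lit 5) (nat_lit 281) (nat_lit 258) (nat_lit 241))))) (XT.nd (nat_lit 156) (nat_lit 608) (nat_lit 0) (XT.nd (nat_lit 78) (nat_lit 380) (nat_lit 0) (XT.lf (nat_lit 0) (nat_lit 5271449342) (nat_lit 304) (nat_lit 1008034608) (nat_lit 380) (nat_lit 2015226612) (nat_lit 70) (nat_lit 5) (nat_lit 74) (nat_lit 5) (nat_lit 75) (nat_lit 5) (nat_lit 282) (nat_lit 258) (nat_lit 240)) (XT.lf (nat_lit 0) (nat_lit 519622480) (nat_lit 380) (nat_lit 6350350273) (nat_lit 76) (nat_lit 1612417012) (nat_lit 65) (nat_lit 5) (nat_lit 70) (nat_lit 5) (nat_lit 66) (nat_lit 5) (nat_lit 283) (nat_lit 258) (nat_lit 239))) (XT.nd (nat_lit 78) (nat_lit 608) (nat_lit 0) (XT.lf (nat_lit 0) (nat_lit 3084570035) (nat_lit 380) (nat_lit 1194440117) (nat_lit 76) (nat_lit 4400415165) (nat_lit 65) (nat_lit 5) (nat_lit 70) (nat_lit 5) (nat_lit 66) (nat_lit 5) (nat_lit 284) (nat_lit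 258) (nat_lit 238)) (XT.nd (nat_lit 78) (nat_lit 304) (nat_lit 0) (XT.lf (nat_lit 0) (nat_lit 4243451798) (nat_lit 304) (nat_lit 1507723380) (nat_lit 380) (nat_lit 3136636727) (nat_lit 61) (nat_lit 5) (nat_lit 65) (nat_lit 5) (nat_lit 66) (nat_lit 5) (nat_lit 285) (nat_lit 258) (nat_lit 237)) (XT.lf (nat_lit 0) (nat_lit 777573431) (nat_lit 304) (nat_lit 7737685262) (nat_lit 380) (nat_lit 593313405) (nat_lit 57) (nat_lit 5) (nat_lit 61) (nat_lit 5) (nat_lit 62) (nat_lit 5) (nat_lit 286) (nat_lit 258) (nat_lit 236))))))) (XT.nd (nat_lit 780) (nat_lit 1140) (nat_lit 0) (XT.nd (nat_lit 390) (nat_lit 456) (nat_lit 0) (XT.nd (nat_lit 156) (nat_lit 532) (nat_lit 0) (XT.nd (nat_lit 78) (nat_lit 228) (nat_lit 0) (XT.lf (nat_lit 0) (nat_lit 2025873838) (nat_lit 380) (nat_lit 2878483640) (nat_lit 76) (nat_lit 4433778928) (nat_lit 56) (nat_lit 5) (nat_lit 61) (nat_lit 5) (nat_lit 57) (nat_lit 5)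 (nat_lit 287) (nat_lit 258) (nat_lit 235)) (XT.lf (nat_lit 0) (nat_lit 2817139928) (nat_lit 228) (nat_lit 1897705395) (nat_lit 304) (nat_lit 4866048748) (nat_lit 53) (nat_lit 5) (nat_lit 56) (nat_lit 5) (nat_lit 57) (nat_lit 5) (nat_lit 288) (nat_lit 258) (nat_lit 234))) (XT.nd (nat_lit 78) (nat_lit 532) (nat_lit 0) (XT.lf (nat_lit 0) (nat_lit 7524228082) (nat_lit 304) (nat_lit 1068396447) (nat_lit 76) (nat_lit 1243999972) (nat_lit 53) (nat_lit 5) (nat_lit 57) (nat_lit 5) (nat_lit 54) (nat_lit 5) (nat_lit 289) (nat_lit 258) (nat_lit 233)) (XT.nd (nat_lit 78) (nat_lit 228) (nat_lit 0) (XT.lf (nat_lit 0) (nat_lit 386306547) (nat_lit 304) (nat_lit 5178318919) (nat_lit 76) (nat_lit 4538889810) (nat_lit 49) (nat_lit 5) (nat_lit 53) (nat_lit 5) (nat_lit 50) (nat_lit 5) (nat_lit 290) (nat_lit 258) (nat_lit 232)) (XT.lf (nat_lit 0) (nat_lit 750824564) (nat_lit 228) (nat_lit 2342993977) (nat_lit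 304) (nat_lit 7290572271) (nat_lit 46) (nat_lit 5) (nat_lit 49) (nat_lit 5) (nat_lit 50) (nat_lit 5) (nat_lit 291) (nat_lit 258) (nat_lit 231))))) (XT.nd (nat_lit 156) (nat_lit 228) (nat_lit 0) (XT.nd (nat_lit 78) (nat_lit 228) (nat_lit 0) (XT.lf (nat_lit 0) (nat_lit 5965170318) (nat_lit 304) (nat_lit 3645841089) (nat_lit 76) (nat_lit 1066984940) (nat_lit 46) (nat_lit 5) (nat_lit 50) (nat_lit 5) (nat_lit 47) (nat_lit 5) (nat_lit 292) (nat_lit 258) (nat_lit 230)) (XT.lf (nat_lit 0) (nat_lit 2581238234) (nat_lit 228) (nat_lit 6404319891) (nat_lit 304) (nat_lit 2000554835) (nat_lit 43) (nat_lit 5) (nat_lit 46) (nat_lit 5) (nat_lit 47) (nat_lit 5) (nat_lit 293) (nat_lit 258) (nat_lit 229))) (XT.nd (nat_lit 78) (nat_lit 152) (nat_lit 0) (XT.lf (nat_lit 0) (nat_lit 810345349) (nat_lit 304) (nat_lit 2179595249) (nat_lit 76) (nat_lit 8319621114) (nat_lit 42) (nat_lit 5) (nat_lit 46) (nat_lit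 5) (nat_lit 43) (nat_lit 5) (nat_lit 294) (nat_lit 258) (nat_lit 228)) (XT.nd (nat_lit 78) (nat_lit 0) (nat_lit 0) (XT.lf (nat_lit 0) (nat_lit 3703990984) (nat_lit 228) (nat_lit 7294379055) (nat_lit 76) (nat_lit 648791484) (nat_lit 40) (nat_lit 5) (nat_lit 43) (nat_lit 5) (nat_lit 41) (nat_lit 5) (nat_lit 295) (nat_lit 258) (nat_lit 227)) (XT.lf (nat_lit 0) (nat_lit 6760961221) (nat_lit 228) (nat_lit 863374474) (nat_lit 76) (nat_lit 4376459258) (nat_lit 40) (nat_lit 5) (nat_lit 43) (nat_lit 5) (nat_lit 41) (nat_lit 5) (nat_lit 296) (nat_lit 258) (nat_lit 226)))))) (XT.nd (nat_lit 390) (nat_lit 532) (nat_lit 0) (XT.nd (nat_lit 156) (nat_lit 152) (nat_lit 0) (XT.nd (nat_lit 78) (nat_lit 228) (nat_lit 0) (XT.lf (nat_lit 0) (nat_lit 5984130918) (nat_lit 228) (nat_lit 4015420276) (nat_lit 304) (nat_lit 2371201961) (nat_lit 37) (nat_lit 5) (nat_lit 40) (nat_lit 5) (nat_lit 41) (nat_lit 5)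 (nat_lit 297) (nat_lit 258) (nat_lit 225)) (XT.lf (nat_lit 0) (nat_lit 349222648) (nat_lit 152) (nat_lit 227269364) (nat_lit 228) (nat_lit 12184483932) (nat_lit 34) (nat_lit 5) (nat_lit 36) (nat_lit 5) (nat_lit 37) (nat_lit 5) (nat_lit 298) (nat_lit 258) (nat_lit 224))) (XT.nd (nat_lit 78) (nat_lit 152) (nat_lit 0) (XT.lf (nat_lit 0) (nat_lit 3697243996) (nat_lit 228) (nat_lit 5719245027) (nat_lit 76) (nat_lit 3747079720) (nat_lit 34) (nat_lit 5) (nat_lit 37) (nat_lit 5) (nat_lit 35) (nat_lit 5) (nat_lit 299) (nat_lit 258) (nat_lit 223)) (XT.nd (nat_lit 78) (nat_lit 0) (nat_lit 0) (XT.lf (nat_lit 0) (nat_lit 1250536224) (nat_lit 152) (nat_lit 5686628468) (nat_lit 228) (nat_lit 6651037118) (nat_lit 32) (nat_lit 5) (nat_lit 34) (nat_lit 5) (nat_lit 35) (nat_lit 5) (nat_lit 300) (nat_lit 258) (nat_lit 222)) (XT.lf (nat_lit 0) (nat_lit 8675224653) (nat_lit 152) (nat_lit 1702020191) (nat_lit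 228) (nat_lit 3654977498) (nat_lit 32) (nat_lit 5) (nat_lit 34) (nat_lit 5) (nat_lit 35) (nat_lit 5) (nat_lit 301) (nat_lit 258) (nat_lit 221))))) (XT.nd (nat_lit 234) (nat_lit 152) (nat_lit 0) (XT.nd (nat_lit 78) (nat_lit 228) (nat_lit 0) (XT.lf (nat_lit 0) (nat_lit 1904809162) (nat_lit 152) (nat_lit 12096610294) (nat_lit 228) (nat_lit 496480859) (nat_lit 30) (nat_lit 5) (nat_lit 32) (nat_lit 5) (nat_lit 33) (nat_lit 4) (nat_lit 302) (nat_lit 258) (nat_lit 220)) (XT.nd (nat_lit 78) (nat_lit 152) (nat_lit 0) (XT.lf (nat_lit 0) (nat_lit 2793742367) (nat_lit 228) (nat_lit 5430620584) (nat_lit 76) (nat_lit 6757150275) (nat_lit 29) (nat_lit 5) (nat_lit 32) (nat_lit 5) (nat_lit 30) (nat_lit 5) (nat_lit 303) (nat_lit 258) (nat_lit 219)) (XT.lf (nat_lit 0) (nat_lit 2061562726) (nat_lit 152) (nat_lit 4149029962) (nat_lit 228) (nat_lit 9279419735) (nat_lit 27) (nat_lit 5) (nat_lit 29) (nat_lit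 5) (nat_lit 30) (nat_lit 5) (nat_lit 304) (nat_lit 258) (nat_lit 218)))) (XT.nd (nat_lit 78) (nat_lit 152) (nat_lit 0) (XT.lf (nat_lit 0) (nat_lit 9841115113) (nat_lit 228) (nat_lit 5992993985) (nat_lit 76) (nat_lit 187736135) (nat_lit 27) (nat_lit 5) (nat_lit 30) (nat_lit 5) (nat_lit 28) (nat_lit 4) (nat_lit 305) (nat_lit 258) (nat_lit 217)) (XT.nd (nat_lit 78) (nat_lit 76) (nat_lit 0) (XT.lf (nat_lit 0) (nat_lit 1718347341) (nat_lit 76) (nat_lit 11979490888) (nat_lit 152) (nat_lit 2880245472) (nat_lit 26) (nat_lit 5) (nat_lit 27) (nat_lit 5) (nat_lit 28) (nat_lit 4) (nat_lit 306) (nat_lit 258) (nat_lit 216)) (XT.lf (nat_lit 0) (nat_lit 619786834) (nat_lit 152) (nat_lit 7227766731) (nat_lit 76) (nat_lit 9311504177) (nat_lit 25) (nat_lit 5) (nat_lit 27) (nat_lit 5) (nat_lit 26) (nat_lit 5) (nat_lit 307) (nat_lit 258) (nat_lit 215))))))))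
noncomputable def xc100 : XT := (XT.nd (nat_lit 1560) (nat_lit 456) (nat_lit 0) (XT.nd (nat_lit 780) (nat_lit 532) (nat_lit 0) (XT.nd (nat_lit 390) (nat_lit 228) (nat_lit 0) (XT.nd (nat_lit 156) (nat_lit 152) (nat_lit 0) (XT.nd (nat_lit 78) (nat_lit 0) (nat_lit 0) (XT.lf (nat_lit 0) (nat_lit 681122645) (nat_lit 152) (nat_lit 3480010941) (nat_lit 228) (nat_lit 13607471889) (nat_lit 23) (nat_lit 5) (nat_lit 25) (nat_lit 5) (nat_lit 26) (nat_lit 5) (nat_lit 308) (nat_lit 258) (nat_lit 214)) (XT.lf (nat_lit 0) (nat_lit 7974253893) (nat_lit 228) (nat_lit 9265249889) (nat_lit 76) (nat_lit 1164430782) (nat_lit 23) (nat_lit 5) (nat_lit 26) (nat_lit 5) (nat_lit 24) (nat_lit 4) (nat_lit 309) (nat_lit 258) (nat_lit 213))) (XT.nd (nat_lit 78) (nat_lit 152) (nat_lit 0) (XT.lf (nat_lit 0) (nat_lit 11990343862) (nat_lit 228) (nat_lit 1185006875) (nat_lit 76) (nat_lit 5895101099) (nat_lit 23) (nat_lit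 5) (nat_lit 26) (nat_lit 5) (nat_lit 24) (nat_lit 4) (nat_lit 310) (nat_lit 258) (nat_lit 212)) (XT.nd (nat_lit 78) (nat_lit 76) (nat_lit 0) (XT.lf (nat_lit 0) (nat_lit 7465768837) (nat_lit 76) (nat_lit 8815425626) (nat_lit 152) (nat_lit 3485438328) (nat_lit 22) (nat_lit 5) (nat_lit 23) (nat_lit 5) (nat_lit 24) (nat_lit 4) (nat_lit 311) (nat_lit 258) (nat_lit 211)) (XT.lf (nat_lit 0) (nat_lit 257708289) (nat_lit 152) (nat_lit 3983932685) (nat_lit 76) (nat_lit 16256888951) (nat_lit 21) (nat_lit 5) (nat_lit 23) (nat_lit 5) (nat_lit 22) (nat_lit 5) (nat_lit 312) (nat_lit 258) (nat_lit 210))))) (XT.nd (nat_lit 156) (nat_lit 76) (nat_lit 0) (XT.nd (nat_lit 78) (nat_lit 0) (nat_lit 0) (XT.lf (nat_lit 0) (nat_lit 4115513150) (nat_lit 228) (nat_lit 16497640488) (nat_lit 76) (nat_lit 648810413) (nat_lit 19) (nat_lit 5) (nat_lit 22) (nat_lit 5) (nat_lit 20) (nat_lit 4) (nat_lit 313) (nat_lit 258)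 (nat_lit 209)) (XT.lf (nat_lit 0) (nat_lit 8264346294) (nat_lit 228) (nat_lit 8112209444) (nat_lit 76) (nat_lit 5682136556) (nat_lit 19) (nat_lit 5) (nat_lit 22) (nat_lit 5) (nat_lit 20) (nat_lit 4) (nat_lit 314) (nat_lit 258) (nat_lit 208))) (XT.nd (nat_lit 78) (nat_lit 0) (nat_lit 0) (XT.lf (nat_lit 0) (nat_lit 646836270) (nat_lit 76) (nat_lit 11945814275) (nat_lit 152) (nat_lit 10304032846) (nat_lit 18) (nat_lit 5) (nat_lit 19) (nat_lit 5) (nat_lit 20) (nat_lit 4) (nat_lit 315) (nat_lit 258) (nat_lit 207)) (XT.nd (nat_lit 78) (nat_lit 0) (nat_lit 0) (XT.lf (nat_lit 0) (nat_lit 10060182503) (nat_lit 76) (nat_lit 7177295706) (nat_lit 152) (nat_lit 6534117012) (nat_lit 18) (nat_lit 5) (nat_lit 19) (nat_lit 5) (nat_lit 20) (nat_lit 4) (nat_lit 316) (nat_lit 258) (nat_lit 206)) (XT.lf (nat_lit 0) (nat_lit 19882015701) (nat_lit 76) (nat_lit 2197030608) (nat_lit 152) (nat_lit 2613006700)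 (nat_lit 18) (nat_lit 5) (nat_lit 19) (nat_lit 5) (nat_lit 20) (nat_lit 4) (nat_lit 317) (nat_lit 258) (nat_lit 205)))))) (XT.nd (nat_lit 390) (nat_lit 228) (nat_lit 0) (XT.nd (nat_lit 156) (nat_lit 76) (nat_lit 0) (XT.nd (nat_lit 78) (nat_lit 0) (nat_lit 0) (XT.lf (nat_lit 0) (nat_lit 1541942191) (nat_lit 228) (nat_lit 21104244903) (nat_lit 76) (nat_lit 3006899074) (nat_lit 15) (nat_lit 5) (nat_lit 18) (nat_lit 5) (nat_lit 16) (nat_lit 4) (nat_lit 318) (nat_lit 258) (nat_lit 204)) (XT.lf (nat_lit 0) (nat_lit 5901557311) (nat_lit 228) (nat_lit 12256338653) (nat_lit 76) (nat_lit 8497918438) (nat_lit 15) (nat_lit 5) (nat_lit 18) (nat_lit 5) (nat_lit 16) (nat_lit 4) (nat_lit 319) (nat_lit 258) (nat_lit 203))) (XT.nd (nat_lit 78) (nat_lit 76) (nat_lit 0) (XT.lf (nat_lit 0) (nat_lit 10446696352) (nat_lit 228) (nat_lit 3023855758) (nat_lit 76) (nat_lit 14239770611) (nat_lit 15) (nat_lit 5)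 (nat_lit 18) (nat_lit 5) (nat_lit 16) (nat_lit 4) (nat_lit 320) (nat_lit 258) (nat_lit 202)) (XT.nd (nat_lit 78) (nat_lit 0) (nat_lit 0) (XT.lf (nat_lit 0) (nat_lit 6833913804) (nat_lit 76) (nat_lit 8460963816) (nat_lit 152) (nat_lit 13518909411) (nat_lit 14) (nat_lit 5) (nat_lit 15) (nat_lit 5) (nat_lit 16) (nat_lit 4) (nat_lit 321) (nat_lit 258) (nat_lit 201)) (XT.lf (nat_lit 0) (nat_lit 17235376043) (nat_lit 76) (nat_lit 3171017205) (nat_lit 152) (nat_lit 9565003939) (nat_lit 14) (nat_lit 5) (nat_lit 15) (nat_lit 5) (nat_lit 16) (nat_lit 4) (nat_lit 322) (nat_lit 258) (nat_lit 200))))) (XT.nd (nat_lit 156) (nat_lit 152) (nat_lit 0) (XT.nd (nat_lit 78) (nat_lit 76) (nat_lit 0) (XT.lf (nat_lit 0) (nat_lit 25781498355) (nat_lit 152) (nat_lit 3119890690) (nat_lit 0) (nat_lit 2285116115) (nat_lit 14) (nat_lit 5) (nat_lit 16) (nat_lit 4) (nat_lit 14) (nat_lit 4) (nat_lit 323) (nat_lit 258)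 (nat_lit 199)) (XT.lf (nat_lit 0) (nat_lit 7102184008) (nat_lit 76) (nat_lit 24458235714) (nat_lit 76) (nat_lit 895212897) (nat_lit 13) (nat_lit 4) (nat_lit 14) (nat_lit 5) (nat_lit 14) (nat_lit 4) (nat_lit 324) (nat_lit 258) (nat_lit 198))) (XT.nd (nat_lit 78) (nat_lit 76) (nat_lit 0) (XT.lf (nat_lit 0) (nat_lit 3743150197) (nat_lit 152) (nat_lit 15953032127) (nat_lit 76) (nat_lit 14087752672) (nat_lit 12) (nat_lit 5) (nat_lit 14) (nat_lit 5) (nat_lit 13) (nat_lit 4) (nat_lit 325) (nat_lit 258) (nat_lit 197)) (XT.nd (nat_lit 78) (nat_lit 76) (nat_lit 0) (XT.lf (nat_lit 0) (nat_lit 8556948994) (nat_lit 152) (nat_lit 6145189560) (nat_lit 76) (nat_lit 20477114832) (nat_lit 12) (nat_lit 5) (nat_lit 14) (nat_lit 5) (nat_lit 13) (nat_lit 4) (nat_lit 326) (nat_lit 258) (nat_lit 196)) (XT.lf (nat_lit 0) (nat_lit 4243217331) (nat_lit 76) (nat_lit 9409328506) (nat_lit 152) (nat_lit 22989750553)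 (nat_lit 11) (nat_lit 5) (nat_lit 12) (nat_lit 5) (nat_lit 13) (nat_lit 4) (nat_lit 327) (nat_lit 258) (nat_lit 195))))))) (XT.nd (nat_lit 780) (nat_lit 228) (nat_lit 0) (XT.nd (nat_lit 390) (nat_lit 152) (nat_lit 0) (XT.nd (nat_lit 156) (nat_lit 76) (nat_lit 0) (XT.nd (nat_lit 78) (nat_lit 0) (nat_lit 0) (XT.lf (nat_lit 0) (nat_lit 15319490499) (nat_lit 76) (nat_lit 3762859501) (nat_lit 152) (nat_lit 19092183597) (nat_lit 11) (nat_lit 5) (nat_lit 12) (nat_lit 5) (nat_lit 13) (nat_lit 4) (nat_lit 328) (nat_lit 258) (nat_lit 194)) (XT.lf (nat_lit 0) (nat_lit 24793688707) (nat_lit 152) (nat_lit 12911269764) (nat_lit 0) (nat_lit 2077934766) (nat_lit 11) (nat_lit 5) (nat_lit 13) (nat_lit 4) (nat_lit 11) (nat_lit 4) (nat_lit 329) (nat_lit 258) (nat_lit 193))) (XT.nd (nat_lit 78) (nat_lit 76) (nat_lit 0) (XT.lf (nat_lit 0) (nat_lit 30829640619) (nat_lit 152) (nat_lit 2573563642) (nat_lit 0)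 (nat_lit 8066526465) (nat_lit 11) (nat_lit 5) (nat_lit 13) (nat_lit 4) (nat_lit 11) (nat_lit 4) (nat_lit 330) (nat_lit 258) (nat_lit 192)) (XT.nd (nat_lit 78) (nat_lit 0) (nat_lit 0) (XT.lf (nat_lit 0) (nat_lit 8513936782) (nat_lit 76) (nat_lit 28764817899) (nat_lit 76) (nat_lit 5956598779) (nat_lit 10) (nat_lit 4) (nat_lit 11) (nat_lit 5) (nat_lit 11) (nat_lit 4) (nat_lit 331) (nat_lit 258) (nat_lit 191)) (XT.lf (nat_lit 0) (nat_lit 20206208948) (nat_lit 76) (nat_lit 23866556798) (nat_lit 76) (nat_lit 1015380568) (nat_lit 10) (nat_lit 4) (nat_lit 11) (nat_lit 5) (nat_lit 11) (nat_lit 4) (nat_lit 332) (nat_lit 258) (nat_lit 190))))) (XT.nd (nat_lit 156) (nat_lit 76) (nat_lit 0) (XT.nd (nat_lit 78) (nat_lit 0) (nat_lit 0) (XT.lf (nat_lit 0) (nat_lit 4018863023) (nat_lit 152) (nat_lit 14653418565) (nat_lit 76) (nat_lit 28359073547) (nat_lit 9) (nat_lit 5) (nat_lit 11) (nat_lit 5) (nat_lit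 10) (nat_lit 4) (nat_lit 333) (nat_lit 258) (nat_lit 189)) (XT.lf (nat_lit 0) (nat_lit 9251193715) (nat_lit 152) (nat_lit 3966104010) (nat_lit 76) (nat_lit 35854579016) (nat_lit 9) (nat_lit 5) (nat_lit 11) (nat_lit 5) (nat_lit 10) (nat_lit 4) (nat_lit 334) (nat_lit 258) (nat_lit 188))) (XT.nd (nat_lit 78) (nat_lit 0) (nat_lit 0) (XT.lf (nat_lit 0) (nat_lit 7460074184) (nat_lit 76) (nat_lit 7382966439) (nat_lit 152) (nat_lit 36366497910) (nat_lit 8) (nat_lit 5) (nat_lit 9) (nat_lit 5) (nat_lit 10) (nat_lit 4) (nat_lit 335) (nat_lit 258) (nat_lit 187)) (XT.nd (nat_lit 78) (nat_lit 0) (nat_lit 0) (XT.lf (nat_lit 0) (nat_lit 19561537171) (nat_lit 76) (nat_lit 1201895602) (nat_lit 152) (nat_lit 32688211652) (nat_lit 8) (nat_lit 5) (nat_lit 9) (nat_lit 5) (nat_lit 10) (nat_lit 4) (nat_lit 336) (nat_lit 258) (nat_lit 186)) (XT.lf (nat_lit 0) (nat_lit 27044830465) (nat_lit 152) (nat_lit 23653104136)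 (nat_lit 0) (nat_lit 5104679956) (nat_lit 8) (nat_lit 5) (nat_lit 10) (nat_lit 4) (nat_lit 8) (nat_lit 4) (nat_lit 337) (nat_lit 258) (nat_lit 185)))))) (XT.nd (nat_lit 390) (nat_lit 152) (nat_lit 0) (XT.nd (nat_lit 156) (nat_lit 76) (nat_lit 0) (XT.nd (nat_lit 78) (nat_lit 0) (nat_lit 0) (XT.lf (nat_lit 0) (nat_lit 33643260166) (nat_lit 152) (nat_lit 12955151936) (nat_lit 0) (nat_lit 11672580841) (nat_lit 8) (nat_lit 5) (nat_lit 10) (nat_lit 4) (nat_lit 8) (nat_lit 4) (nat_lit 338) (nat_lit 258) (nat_lit 184)) (XT.lf (nat_lit 0) (nat_lit 40555667463) (nat_lit 152) (nat_lit 1752014380) (nat_lit 0) (nat_lit 18555913076) (nat_lit 8) (nat_lit 5) (nat_lit 10) (nat_lit 4) (nat_lit 8) (nat_lit 4) (nat_lit 339) (nat_lit 258) (nat_lit 183))) (XT.nd (nat_lit 78) (nat_lit 0) (nat_lit 0) (XT.lf (nat_lit 0) (nat_lit 10313065160) (nat_lit 76) (nat_lit 37646461159) (nat_lit 76) (nat_lit 15619016236)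 (nat_lit 7) (nat_lit 4) (nat_lit 8) (nat_lit 5) (nat_lit 8) (nat_lit 4) (nat_lit 340) (nat_lit 258) (nat_lit 182)) (XT.nd (nat_lit 78) (nat_lit 0) (nat_lit 0) (XT.lf (nat_lit 0) (nat_lit 23014383686) (nat_lit 76) (nat_lit 32733969392) (nat_lit 76) (nat_lit 10680152529) (nat_lit 7) (nat_lit 4) (nat_lit 8) (nat_lit 5) (nat_lit 8) (nat_lit 4) (nat_lit 341) (nat_lit 258) (nat_lit 181)) (XT.lf (nat_lit 0) (nat_lit 36324252923) (nat_lit 76) (nat_lit 27588181344) (nat_lit 76) (nat_lit 5509248349) (nat_lit 7) (nat_lit 4) (nat_lit 8) (nat_lit 5) (nat_lit 8) (nat_lit 4) (nat_lit 342) (nat_lit 258) (nat_lit 180))))) (XT.nd (nat_lit 156) (nat_lit 76) (nat_lit 0) (XT.nd (nat_lit 78) (nat_lit 76) (nat_lit 0) (XT.lf (nat_lit 0) (nat_lit 50274363036) (nat_lit 76) (nat_lit 22196845139) (nat_lit 76) (nat_lit 93992018) (nat_lit 7) (nat_lit 4) (nat_lit 8) (nat_lit 5) (nat_lit 8) (nat_lit 4) (nat_lit 343)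 (nat_lit 258) (nat_lit 179)) (XT.lf (nat_lit 0) (nat_lit 5399962773) (nat_lit 152) (nat_lit 11055710507) (nat_lit 76) (nat_lit 59406514818) (nat_lit 6) (nat_lit 5) (nat_lit 8) (nat_lit 5) (nat_lit 7) (nat_lit 4) (nat_lit 344) (nat_lit 258) (nat_lit 178))) (XT.nd (nat_lit 78) (nat_lit 0) (nat_lit 0) (XT.lf (nat_lit 0) (nat_lit 739993862) (nat_lit 76) (nat_lit 10424554584) (nat_lit 152) (nat_lit 68159450628) (nat_lit 5) (nat_lit 5) (nat_lit 6) (nat_lit 5) (nat_lit 7) (nat_lit 4) (nat_lit 345) (nat_lit 258) (nat_lit 177)) (XT.nd (nat_lit 78) (nat_lit 0) (nat_lit 0) (XT.lf (nat_lit 0) (nat_lit 13486366733) (nat_lit 76) (nat_lit 3906004140) (nat_lit 152) (nat_lit 65557784413) (nat_lit 5) (nat_lit 5) (nat_lit 6) (nat_lit 5) (nat_lit 7) (nat_lit 4) (nat_lit 346) (nat_lit 258) (nat_lit 176)) (XT.lf (nat_lit 0) (nat_lit 23965658708) (nat_lit 152) (nat_lit 59955719860) (nat_lit 0) (nat_lit 2834541846)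 (nat_lit 5) (nat_lit 5) (nat_lit 7) (nat_lit 4) (nat_lit 5) (nat_lit 4) (nat_lit 347) (nat_lit 258) (nat_lit 175))))))))
noncomputable def xc101 : XT := (XT.nd (nat_lit 1560) (nat_lit 76) (nat_lit 0) (XT.nd (nat_lit 780) (nat_lit 152) (nat_lit 0) (XT.nd (nat_lit 390) (nat_lit 76) (nat_lit 0) (XT.nd (nat_lit 156) (nat_lit 0) (nat_lit 0) (XT.nd (nat_lit 78) (nat_lit 0) (nat_lit 0) (XT.lf (nat_lit 0) (nat_lit 30920402337) (nat_lit 152) (nat_lit 50057500573) (nat_lit 0) (nat_lit 9771435909) (nat_lit 5) (nat_lit 5) (nat_lit 7) (nat_lit 4) (nat_lit 5) (nat_lit 4) (nat_lit 348) (nat_lit 258) (nat_lit 174)) (XT.lf (nat_lit 0) (nat_lit 38212177002) (nat_lit 152) (nat_lit 39684579833) (nat_lit 0) (nat_lit 17046210987) (nat_lit 5) (nat_lit 5) (nat_lit 7) (nat_lit 4) (nat_lit 5) (nat_lit 4) (nat_lit 349) (nat_lit 258) (nat_lit 173))) (XT.nd (nat_lit 78) (nat_lit 0) (nat_lit 0) (XT.lf (nat_lit 0)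 (nat_lit 45858344072) (nat_lit 152) (nat_lit 28812260210) (nat_lit 0) (nat_lit 24676187975) (nat_lit 5) (nat_lit 5) (nat_lit 7) (nat_lit 4) (nat_lit 5) (nat_lit 4) (nat_lit 350) (nat_lit 258) (nat_lit 172)) (XT.nd (nat_lit 78) (nat_lit 0) (nat_lit 0) (XT.lf (nat_lit 0) (nat_lit 53877108707) (nat_lit 152) (nat_lit 17414655228) (nat_lit 0) (nat_lit 32679533483) (nat_lit 5) (nat_lit 5) (nat_lit 7) (nat_lit 4) (nat_lit 5) (nat_lit 4) (nat_lit 351) (nat_lit 258) (nat_lit 171)) (XT.lf (nat_lit 0) (nat_lit 62287563203) (nat_lit 152) (nat_lit 5464627732) (nat_lit 0) (nat_lit 41075303096) (nat_lit 5) (nat_lit 5) (nat_lit 7) (nat_lit 4) (nat_lit 5) (nat_lit 4) (nat_lit 352) (nat_lit 258) (nat_lit 170))))) (XT.nd (nat_lit 156) (nat_lit 0) (nat_lit 0) (XT.nd (nat_lit 78) (nat_lit 0) (nat_lit 0) (XT.lf (nat_lit 0) (nat_lit 7299917677) (nat_lit 76) (nat_lit 63923786947) (nat_lit 76) (nat_lit 42697541238)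 (nat_lit 4) (nat_lit 4) (nat_lit 5) (nat_lit 5) (nat_lit 5) (nat_lit 4) (nat_lit 353) (nat_lit 258) (nat_lit 169)) (XT.lf (nat_lit 0) (nat_lit 20876051646) (nat_lit 76) (nat_lit 59814503643) (nat_lit 76) (nat_lit 38574938313) (nat_lit 4) (nat_lit 4) (nat_lit 5) (nat_lit 5) (nat_lit 5) (nat_lit 4) (nat_lit 354) (nat_lit 258) (nat_lit 168))) (XT.nd (nat_lit 78) (nat_lit 0) (nat_lit 0) (XT.lf (nat_lit 0) (nat_lit 35115413030) (nat_lit 76) (nat_lit 55507103130) (nat_lit 76) (nat_lit 34254852446) (nat_lit 4) (nat_lit 4) (nat_lit 5) (nat_lit 5) (nat_lit 5) (nat_lit 4) (nat_lit 355) (nat_lit 258) (nat_lit 167)) (XT.nd (nat_lit 78) (nat_lit 0) (nat_lit 0) (XT.lf (nat_lit 0) (nat_lit 50051905071) (nat_lit 76) (nat_lit 50991329693) (nat_lit 76) (nat_lit 29726997720) (nat_lit 4) (nat_lit 4) (nat_lit 5) (nat_lit 5) (nat_lit 5) (nat_lit 4) (nat_lit 356) (nat_lit 258) (nat_lit 166)) (XT.lf (nat_lit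 0) (nat_lit 65721090846) (nat_lit 76) (nat_lit 46256431490) (nat_lit 76) (nat_lit 24980593527) (nat_lit 4) (nat_lit 4) (nat_lit 5) (nat_lit 5) (nat_lit 5) (nat_lit 4) (nat_lit 357) (nat_lit 258) (nat_lit 165)))))) (XT.nd (nat_lit 390) (nat_lit 76) (nat_lit 0) (XT.nd (nat_lit 156) (nat_lit 76) (nat_lit 0) (XT.nd (nat_lit 78) (nat_lit 0) (nat_lit 0) (XT.lf (nat_lit 0) (nat_lit 82160277939) (nat_lit 76) (nat_lit 41291134953) (nat_lit 76) (nat_lit 20004338905) (nat_lit 4) (nat_lit 4) (nat_lit 5) (nat_lit 5) (nat_lit 5) (nat_lit 4) (nat_lit 358) (nat_lit 258) (nat_lit 164)) (XT.lf (nat_lit 0) (nat_lit 99408607273) (nat_lit 76) (nat_lit 36083617949) (nat_lit 76) (nat_lit 14786385630) (nat_lit 4) (nat_lit 4) (nat_lit 5) (nat_lit 5) (nat_lit 5) (nat_lit 4) (nat_lit 359) (nat_lit 258) (nat_lit 163))) (XT.nd (nat_lit 78) (nat_lit 76) (nat_lit 0) (XT.lf (nat_lit 0) (nat_lit 117507146297) (nat_lit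 76) (nat_lit 30621481628) (nat_lit 76) (nat_lit 9314310001) (nat_lit 4) (nat_lit 4) (nat_lit 5) (nat_lit 5) (nat_lit 5) (nat_lit 4) (nat_lit 360) (nat_lit 258) (nat_lit 162)) (XT.nd (nat_lit 78) (nat_lit 76) (nat_lit 0) (XT.lf (nat_lit 0) (nat_lit 136498986772) (nat_lit 76) (nat_lit 24891720902) (nat_lit 76) (nat_lit 3575083270) (nat_lit 4) (nat_lit 4) (nat_lit 5) (nat_lit 5) (nat_lit 5) (nat_lit 4) (nat_lit 361) (nat_lit 258) (nat_lit 161)) (XT.lf (nat_lit 0) (nat_lit 2366705421) (nat_lit 152) (nat_lit 16473906762) (nat_lit 76) (nat_lit 154022560642) (nat_lit 3) (nat_lit 5) (nat_lit 5) (nat_lit 5) (nat_lit 4) (nat_lit 4) (nat_lit 362) (nat_lit 258) (nat_lit 160))))) (XT.nd (nat_lit 156) (nat_lit 0) (nat_lit 0) (XT.nd (nat_lit 78) (nat_lit 76) (nat_lit 0) (XT.lf (nat_lit 0) (nat_lit 8479771863) (nat_lit 152) (nat_lit 3950706503) (nat_lit 76) (nat_lit 168722300413) (nat_lit 3) (nat_lit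 5) (nat_lit 5) (nat_lit 5) (nat_lit 4) (nat_lit 4) (nat_lit 363) (nat_lit 258) (nat_lit 159)) (XT.lf (nat_lit 0) (nat_lit 9492241834) (nat_lit 76) (nat_lit 5549054628) (nat_lit 152) (nat_lit 174808430329) (nat_lit 2) (nat_lit 5) (nat_lit 3) (nat_lit 5) (nat_lit 4) (nat_lit 4) (nat_lit 364) (nat_lit 258) (nat_lit 158))) (XT.nd (nat_lit 78) (nat_lit 0) (nat_lit 0) (XT.lf (nat_lit 0) (nat_lit 22019705077) (nat_lit 152) (nat_lit 175271200829) (nat_lit 0) (nat_lit 1686177818) (nat_lit 2) (nat_lit 5) (nat_lit 4) (nat_lit 4) (nat_lit 2) (nat_lit 4) (nat_lit 365) (nat_lit 258) (nat_lit 157)) (XT.nd (nat_lit 78) (nat_lit 0) (nat_lit 0) (XT.lf (nat_lit 0) (nat_lit 29432887838) (nat_lit 152) (nat_lit 170031332895) (nat_lit 0) (nat_lit 9092296899) (nat_lit 2) (nat_lit 5) (nat_lit 4) (nat_lit 4) (nat_lit 2) (nat_lit 4) (nat_lit 366) (nat_lit 258) (nat_lit 156)) (XT.lf (nat_lit 0) (nat_lit 37211858887)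 (nat_lit 152) (nat_lit 164538768988) (nat_lit 0) (nat_lit 16864540635) (nat_lit 2) (nat_lit 5) (nat_lit 4) (nat_lit 4) (nat_lit 2) (nat_lit 4) (nat_lit 367) (nat_lit 258) (nat_lit 155))))))) (XT.nd (nat_lit 780) (nat_lit 76) (nat_lit 0) (XT.nd (nat_lit 390) (nat_lit 0) (nat_lit 0) (XT.nd (nat_lit 156) (nat_lit 0) (nat_lit 0) (XT.nd (nat_lit 78) (nat_lit 0) (nat_lit 0) (XT.lf (nat_lit 0) (nat_lit 45375139584) (nat_lit 152) (nat_lit 158780431573) (nat_lit 0) (nat_lit 25021414366) (nat_lit 2) (nat_lit 5) (nat_lit 4) (nat_lit 4) (nat_lit 2) (nat_lit 4) (nat_lit 368) (nat_lit 258) (nat_lit 154)) (XT.lf (nat_lit 0) (nat_lit 53942166312) (nat_lit 152) (nat_lit 152742610323) (nat_lit 0) (nat_lit 33582339222) (nat_lit 2) (nat_lit 5) (nat_lit 4) (nat_lit 4) (nat_lit 2) (nat_lit 4) (nat_lit 369) (nat_lit 258) (nat_lit 153))) (XT.nd (nat_lit 78) (nat_lit 0) (nat_lit 0) (XT.lf (nat_lit 0) (nat_lit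 62933336752) (nat_lit 152) (nat_lit 146410929474) (nat_lit 0) (nat_lit 42567698356) (nat_lit 2) (nat_lit 5) (nat_lit 4) (nat_lit 4) (nat_lit 2) (nat_lit 4) (nat_lit 370) (nat_lit 258) (nat_lit 152)) (XT.nd (nat_lit 78) (nat_lit 0) (nat_lit 0) (XT.lf (nat_lit 0) (nat_lit 72370058455) (nat_lit 152) (nat_lit 139770313596) (nat_lit 0) (nat_lit 51998885481) (nat_lit 2) (nat_lit 5) (nat_lit 4) (nat_lit 4) (nat_lit 2) (nat_lit 4) (nat_lit 371) (nat_lit 258) (nat_lit 151)) (XT.lf (nat_lit 0) (nat_lit 82274799804) (nat_lit 152) (nat_lit 132804951697) (nat_lit 0) (nat_lit 61898355804) (nat_lit 2) (nat_lit 5) (nat_lit 4) (nat_lit 4) (nat_lit 2) (nat_lit 4) (nat_lit 372) (nat_lit 258) (nat_lit 150))))) (XT.nd (nat_lit 156) (nat_lit 0) (nat_lit 0) (XT.nd (nat_lit 78) (nat_lit 0) (nat_lit 0) (XT.lf (nat_lit 0) (nat_lit 92671143518) (nat_lit 152) (nat_lit 125498259583) (nat_lit 0) (nat_lit 72289679492)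 (nat_lit 2) (nat_lit 5) (nat_lit 4) (nat_lit 4) (nat_lit 2) (nat_lit 4) (nat_lit 373) (nat_lit 258) (nat_lit 149)) (XT.lf (nat_lit 0) (nat_lit 103583842796) (nat_lit 152) (nat_lit 117832840368) (nat_lit 0) (nat_lit 83197597793) (nat_lit 2) (nat_lit 5) (nat_lit 4) (nat_lit 4) (nat_lit 2) (nat_lit 4) (nat_lit 374) (nat_lit 258) (nat_lit 148))) (XT.nd (nat_lit 78) (nat_lit 0) (nat_lit 0) (XT.lf (nat_lit 0) (nat_lit 115038880254) (nat_lit 152) (nat_lit 109790443054) (nat_lit 0) (nat_lit 94648081941) (nat_lit 2) (nat_lit 5) (nat_lit 4) (nat_lit 4) (nat_lit 2) (nat_lit 4) (nat_lit 375) (nat_lit 258) (nat_lit 147)) (XT.nd (nat_lit 78) (nat_lit 0) (nat_lit 0) (XT.lf (nat_lit 0) (nat_lit 127063529792) (nat_lit 152) (nat_lit 101351919075) (nat_lit 0) (nat_lit 106668394993) (nat_lit 2) (nat_lit 5) (nat_lit 4) (nat_lit 4) (nat_lit 2) (nat_lit 4) (nat_lit 376) (nat_lit 258) (nat_lit 146)) (XT.lf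 (nat_lit 0) (nat_lit 139686421528) (nat_lit 152) (nat_lit 92497176709) (nat_lit 0) (nat_lit 119287156741) (nat_lit 2) (nat_lit 5) (nat_lit 4) (nat_lit 4) (nat_lit 2) (nat_lit 4) (nat_lit 377) (nat_lit 258) (nat_lit 145)))))) (XT.nd (nat_lit 390) (nat_lit 76) (nat_lit 0) (XT.nd (nat_lit 156) (nat_lit 0) (nat_lit 0) (XT.nd (nat_lit 78) (nat_lit 0) (nat_lit 0) (XT.lf (nat_lit 0) (nat_lit 152937609966) (nat_lit 152) (nat_lit 83205133234) (nat_lit 0) (nat_lit 132534411858) (nat_lit 2) (nat_lit 5) (nat_lit 4) (nat_lit 4) (nat_lit 2) (nat_lit 4) (nat_lit 378) (nat_lit 258) (nat_lit 144)) (XT.lf (nat_lit 0) (nat_lit 166848645554) (nat_lit 152) (nat_lit 73453664739) (nat_lit 0) (nat_lit 146441701426) (nat_lit 2) (nat_lit 5) (nat_lit 4) (nat_lit 4) (nat_lit 2) (nat_lit 4) (nat_lit 379) (nat_lit 258) (nat_lit 143))) (XT.nd (nat_lit 78) (nat_lit 0) (nat_lit 0) (XT.lf (nat_lit 0) (nat_lit 181452649805)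 (nat_lit 152) (nat_lit 63219553440) (nat_lit 0) (nat_lit 161042138039) (nat_lit 2) (nat_lit 5) (nat_lit 4) (nat_lit 4) (nat_lit 2) (nat_lit 4) (nat_lit 380) (nat_lit 258) (nat_lit 142)) (XT.nd (nat_lit 78) (nat_lit 0) (nat_lit 0) (XT.lf (nat_lit 0) (nat_lit 196784394159) (nat_lit 152) (nat_lit 52478432407) (nat_lit 0) (nat_lit 176370484643) (nat_lit 2) (nat_lit 5) (nat_lit 4) (nat_lit 4) (nat_lit 2) (nat_lit 4) (nat_lit 381) (nat_lit 258) (nat_lit 141)) (XT.lf (nat_lit 0) (nat_lit 212880382769) (nat_lit 152) (nat_lit 41204727541) (nat_lit 0) (nat_lit 192463237300) (nat_lit 2) (nat_lit 5) (nat_lit 4) (nat_lit 4) (nat_lit 2) (nat_lit 4) (nat_lit 382) (nat_lit 258) (nat_lit 140))))) (XT.nd (nat_lit 156) (nat_lit 76) (nat_lit 0) (XT.nd (nat_lit 78) (nat_lit 0) (nat_lit 0) (XT.lf (nat_lit 0) (nat_lit 229778939417) (nat_lit 152) (nat_lit 29371596688) (nat_lit 0) (nat_lit 209358712088) (nat_lit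 2) (nat_lit 5) (nat_lit 4) (nat_lit 4) (nat_lit 2) (nat_lit 4) (nat_lit 383) (nat_lit 258) (nat_lit 139)) (XT.lf (nat_lit 0) (nat_lit 247520298762) (nat_lit 152) (nat_lit 16950865728) (nat_lit 0) (nat_lit 227097136328) (nat_lit 2) (nat_lit 5) (nat_lit 4) (nat_lit 4) (nat_lit 2) (nat_lit 4) (nat_lit 384) (nat_lit 258) (nat_lit 138))) (XT.nd (nat_lit 78) (nat_lit 76) (nat_lit 0) (XT.lf (nat_lit 0) (nat_lit 266146702135) (nat_lit 152) (nat_lit 3912961490) (nat_lit 0) (nat_lit 245720744363) (nat_lit 2) (nat_lit 5) (nat_lit 4) (nat_lit 4) (nat_lit 2) (nat_lit 4) (nat_lit 385) (nat_lit 258) (nat_lit 137)) (XT.nd (nat_lit 78) (nat_lit 0) (nat_lit 0) (XT.lf (nat_lit 0) (nat_lit 10096303415) (nat_lit 76) (nat_lit 275763826292) (nat_lit 76) (nat_lit 255335206293) (nat_lit 1) (nat_lit 4) (nat_lit 2) (nat_lit 5) (nat_lit 2) (nat_lit 4) (nat_lit 386) (nat_lit 258) (nat_lit 136)) (XT.lf (nat_lit 0)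 (nat_lit 24938260791) (nat_lit 76) (nat_lit 281685343474) (nat_lit 76) (nat_lit 261254188021) (nat_lit 1) (nat_lit 4) (nat_lit 2) (nat_lit 5) (nat_lit 2) (nat_lit 4) (nat_lit 387) (nat_lit 258) (nat_lit 135))))))))
noncomputable def xc102 : XT := (XT.nd (nat_lit 32292) (nat_lit 0) (nat_lit 2508) (XT.nd (nat_lit 31512) (nat_lit 0) (nat_lit 5548) (XT.nd (nat_lit 31122) (nat_lit 0) (nat_lit 9044) (XT.nd (nat_lit 30888) (nat_lit 0) (nat_lit 10108) (XT.nd (nat_lit 30810) (nat_lit 0) (nat_lit 10412) (XT.lf (nat_lit 0) (nat_lit 40518868453) (nat_lit 76) (nat_lit 287904581916) (nat_lit 76) (nat_lit 267471011746) (nat_lit 1) (nat_lit 4) (nat_lit 2) (nat_lit 5) (nat_lit 2) (nat_lit 4) (nat_lit 388) (nat_lit 258) (nat_lit 134)) (XT.lf (nat_lit 0) (nat_lit 1548208093) (nat_lit 76) (nat_lit 130149222) (nat_lit 0) (nat_lit 1548208093) (nat_lit 138) (nat_lit 5) (nat_lit 139) (nat_lit 0) (nat_lit 138)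 (nat_lit 4) (nat_lit 262) (nat_lit 259) (nat_lit 259))) (XT.nd (nat_lit 78) (nat_lit 228) (nat_lit 0) (XT.lf (nat_lit 0) (nat_lit 3027663352) (nat_lit 76) (nat_lit 3079384712) (nat_lit 76) (nat_lit 362160505) (nat_lit 137) (nat_lit 4) (nat_lit 138) (nat_lit 5) (nat_lit 138) (nat_lit 4) (nat_lit 263) (nat_lit 259) (nat_lit 258)) (XT.nd (nat_lit 78) (nat_lit 152) (nat_lit 0) (XT.lf (nat_lit 0) (nat_lit 2514050977) (nat_lit 152) (nat_lit 151252282) (nat_lit 76) (nat_lit 3828200185) (nat_lit 136) (nat_lit 5) (nat_lit 138) (nat_lit 5) (nat_lit 137) (nat_lit 4) (nat_lit 264) (nat_lit 259) (nat_lit 257)) (XT.lf (nat_lit 0) (nat_lit 3297507921) (nat_lit 152) (nat_lit 2101110207) (nat_lit 228) (nat_lit 1126865915) (nat_lit 134) (nat_lit 5) (nat_lit 136) (nat_lit 5) (nat_lit 137) (nat_lit 4) (nat_lit 265) (nat_lit 259) (nat_lit 256))))) (XT.nd (nat_lit 156) (nat_lit 760) (nat_lit 0) (XT.nd (nat_lit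 78) (nat_lit 0) (nat_lit 0) (XT.lf (nat_lit 0) (nat_lit 233109240) (nat_lit 228) (nat_lit 1410305232) (nat_lit 304) (nat_lit 4922995038) (nat_lit 130) (nat_lit 5) (nat_lit 133) (nat_lit 5) (nat_lit 134) (nat_lit 5) (nat_lit 266) (nat_lit 259) (nat_lit 255)) (XT.lf (nat_lit 0) (nat_lit 3851848471) (nat_lit 228) (nat_lit 551948823) (nat_lit 304) (nat_lit 2210708815) (nat_lit 130) (nat_lit 5) (nat_lit 133) (nat_lit 5) (nat_lit 134) (nat_lit 5) (nat_lit 267) (nat_lit 259) (nat_lit 254))) (XT.nd (nat_lit 78) (nat_lit 380) (nat_lit 0) (XT.lf (nat_lit 0) (nat_lit 477321988) (nat_lit 380) (nat_lit 5782669164) (nat_lit 76) (nat_lit 411965714) (nat_lit 125) (nat_lit 5) (nat_lit 130) (nat_lit 5) (nat_lit 126) (nat_lit 5) (nat_lit 268) (nat_lit 259) (nat_lit 253)) (XT.nd (nat_lit 78) (nat_lit 380) (nat_lit 0) (XT.lf (nat_lit 0) (nat_lit 3128631851) (nat_lit 380) (nat_lit 2072377447) (nat_lit 76)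 (nat_lit 1534750657) (nat_lit 125) (nat_lit 5) (nat_lit 130) (nat_lit 5) (nat_lit 126) (nat_lit 5) (nat_lit 269) (nat_lit 259) (nat_lit 252)) (XT.lf (nat_lit 0) (nat_lit 1769468898) (nat_lit 380) (nat_lit 4024540436) (nat_lit 456) (nat_lit 1015097752) (nat_lit 120) (nat_lit 5) (nat_lit 125) (nat_lit 5) (nat_lit 126) (nat_lit 5) (nat_lit 270) (nat_lit 259) (nat_lit 251)))))) (XT.nd (nat_lit 390) (nat_lit 1748) (nat_lit 0) (XT.nd (nat_lit 156) (nat_lit 1216) (nat_lit 0) (XT.nd (nat_lit 78) (nat_lit 456) (nat_lit 0) (XT.lf (nat_lit 0) (nat_lit 1544016915) (nat_lit 456) (nat_lit 1150176450) (nat_lit 76) (nat_lit 4196380001) (nat_lit 119) (nat_lit 5) (nat_lit 125) (nat_lit 5) (nat_lit 120) (nat_lit 5) (nat_lit 271) (nat_lit 259) (nat_lit 250)) (XT.lf (nat_lit 0) (nat_lit 2901461947) (nat_lit 456) (nat_lit 1204078502) (nat_lit 532) (nat_lit 2874682691) (nat_lit 113) (nat_lit 5) (nat_lit 119)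 (nat_lit 5) (nat_lit 120) (nat_lit 5) (nat_lit 272) (nat_lit 259) (nat_lit 249))) (XT.nd (nat_lit 78) (nat_lit 684) (nat_lit 0) (XT.lf (nat_lit 0) (nat_lit 2246226) (nat_lit 532) (nat_lit 6686859598) (nat_lit 608) (nat_lit 390904227) (nat_lit 106) (nat_lit 5) (nat_lit 113) (nat_lit 5) (nat_lit 114) (nat_lit 5) (nat_lit 273) (nat_lit 259) (nat_lit 248)) (XT.nd (nat_lit 78) (nat_lit 608) (nat_lit 0) (XT.lf (nat_lit 0) (nat_lit 2106655644) (nat_lit 608) (nat_lit 2924776698) (nat_lit 76) (nat_lit 2153915742) (nat_lit 105) (nat_lit 5) (nat_lit 113) (nat_lit 5) (nat_lit 106) (nat_lit 5) (nat_lit 274) (nat_lit 259) (nat_lit 247)) (XT.lf (nat_lit 0) (nat_lit 1361732983) (nat_lit 608) (nat_lit 3252250884) (nat_lit 684) (nat_lit 2687052250) (nat_lit 97) (nat_lit 5) (nat_lit 105) (nat_lit 5) (nat_lit 106) (nat_lit 5) (nat_lit 275) (nat_lit 259) (nat_lit 246))))) (XT.nd (nat_lit 156) (nat_lit 988)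 (nat_lit 0) (XT.nd (nat_lit 78) (nat_lit 760) (nat_lit 0) (XT.lf (nat_lit 0) (nat_lit 5854602497) (nat_lit 608) (nat_lit 1322533879) (nat_lit 684) (nat_lit 249139643) (nat_lit 97) (nat_lit 5) (nat_lit 105) (nat_lit 5) (nat_lit 106) (nat_lit 5) (nat_lit 276) (nat_lit 259) (nat_lit 245)) (XT.lf (nat_lit 0) (nat_lit 2179918255) (nat_lit 760) (nat_lit 4607370883) (nat_lit 76) (nat_lit 771788066) (nat_lit 87) (nat_lit 5) (nat_lit 97) (nat_lit 5) (nat_lit 88) (nat_lit 5) (nat_lit 277) (nat_lit 259) (nat_lit 244))) (XT.nd (nat_lit 78) (nat_lit 988) (nat_lit 0) (XT.lf (nat_lit 0) (nat_lit 4659175241) (nat_lit 760) (nat_lit 80111624) (nat_lit 76) (nat_lit 2962422247) (nat_lit 87) (nat_lit 5) (nat_lit 97) (nat_lit 5) (nat_lit 88) (nat_lit 5) (nat_lit 278) (nat_lit 259) (nat_lit 243)) (XT.nd (nat_lit 78) (nat_lit 456) (nat_lit 0) (XT.lf (nat_lit 0) (nat_lit 4717310509) (nat_lit 532) (nat_lit 2512434662)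 (nat_lit 608) (nat_lit 623598821) (nat_lit 80) (nat_lit 5) (nat_lit 87) (nat_lit 5) (nat_lit 88) (nat_lit 5) (nat_lit 279) (nat_lit 259) (nat_lit 242)) (XT.lf (nat_lit 0) (nat_lit 1658910704) (nat_lit 380) (nat_lit 118526744) (nat_lit 456) (nat_lit 6237719536) (nat_lit 74) (nat_lit 5) (nat_lit 79) (nat_lit 5) (nat_lit 80) (nat_lit 5) (nat_lit 280) (nat_lit 259) (nat_lit 241))))))) (XT.nd (nat_lit 780) (nat_lit 1140) (nat_lit 0) (XT.nd (nat_lit 390) (nat_lit 912) (nat_lit 0) (XT.nd (nat_lit 156) (nat_lit 684) (nat_lit 0) (XT.nd (nat_lit 78) (nat_lit 304) (nat_lit 0) (XT.lf (nat_lit 0) (nat_lit 4267373117) (nat_lit 456) (nat_lit 1540978647) (nat_lit 76) (nat_lit 2376913838) (nat_lit 74) (nat_lit 5) (nat_lit 80) (nat_lit 5) (nat_lit 75) (nat_lit 5) (nat_lit 281) (nat_lit 259) (nat_lit 240)) (XT.lf (nat_lit 0) (nat_lit 3518519929) (nat_lit 304) (nat_lit 3323429165) (nat_lit 380) (nat_lit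 1524119907) (nat_lit 70) (nat_lit 5) (nat_lit 74) (nat_lit 5) (nat_lit 75) (nat_lit 5) (nat_lit 282) (nat_lit 259) (nat_lit 239))) (XT.nd (nat_lit 78) (nat_lit 304) (nat_lit 0) (XT.lf (nat_lit 0) (nat_lit 211985102) (nat_lit 304) (nat_lit 680033471) (nat_lit 380) (nat_lit 7666582815) (nat_lit 65) (nat_lit 5) (nat_lit 69) (nat_lit 5) (nat_lit 70) (nat_lit 5) (nat_lit 283) (nat_lit 259) (nat_lit 238)) (XT.nd (nat_lit 78) (nat_lit 304) (nat_lit 0) (XT.lf (nat_lit 0) (nat_lit 3401060137) (nat_lit 380) (nat_lit 3234542905) (nat_lit 76) (nat_lit 2122912011) (nat_lit 65) (nat_lit 5) (nat_lit 70) (nat_lit 5) (nat_lit 66) (nat_lit 5) (nat_lit 284) (nat_lit 259) (nat_lit 237)) (XT.lf (nat_lit 0) (nat_lit 2082318286) (nat_lit 304) (nat_lit 3908473487) (nat_lit 380) (nat_lit 2980032412) (nat_lit 61) (nat_lit 5) (nat_lit 65) (nat_lit 5) (nat_lit 66) (nat_lit 5) (nat_lit 285) (nat_lit 259) (nat_lit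 236))))) (XT.nd (nat_lit 156) (nat_lit 532) (nat_lit 0) (XT.nd (nat_lit 78) (nat_lit 380) (nat_lit 0) (XT.lf (nat_lit 0) (nat_lit 7672718363) (nat_lit 304) (nat_lit 1006226676) (nat_lit 380) (nat_lit 516510966) (nat_lit 61) (nat_lit 5) (nat_lit 65) (nat_lit 5) (nat_lit 66) (nat_lit 5) (nat_lit 286) (nat_lit 259) (nat_lit 235)) (XT.lf (nat_lit 0) (nat_lit 2017974775) (nat_lit 380) (nat_lit 5355979154) (nat_lit 76) (nat_lit 2055186729) (nat_lit 56) (nat_lit 5) (nat_lit 61) (nat_lit 5) (nat_lit 57) (nat_lit 5) (nat_lit 287) (nat_lit 259) (nat_lit 234))) (XT.nd (nat_lit 78) (nat_lit 304) (nat_lit 0) (XT.lf (nat_lit 0) (nat_lit 204954867) (nat_lit 228) (nat_lit 4421616992) (nat_lit 304) (nat_lit 5049410069) (nat_lit 53) (nat_lit 5) (nat_lit 56) (nat_lit 5) (nat_lit 57) (nat_lit 5) (nat_lit 288) (nat_lit 259) (nat_lit 233)) (XT.nd (nat_lit 78) (nat_lit 304) (nat_lit 0) (XT.lf (nat_lit 0) (nat_lit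 6126851347) (nat_lit 228) (nat_lit 1250548474) (nat_lit 304) (nat_lit 2557302074) (nat_lit 53) (nat_lit 5) (nat_lit 56) (nat_lit 5) (nat_lit 57) (nat_lit 5) (nat_lit 289) (nat_lit 259) (nat_lit 232)) (XT.lf (nat_lit 0) (nat_lit 46499731) (nat_lit 304) (nat_lit 8137110667) (nat_lit 76) (nat_lit 2023366490) (nat_lit 49) (nat_lit 5) (nat_lit 53) (nat_lit 5) (nat_lit 50) (nat_lit 5) (nat_lit 290) (nat_lit 259) (nat_lit 231)))))) (XT.nd (nat_lit 390) (nat_lit 456) (nat_lit 0) (XT.nd (nat_lit 156) (nat_lit 456) (nat_lit 0) (XT.nd (nat_lit 78) (nat_lit 228) (nat_lit 0) (XT.lf (nat_lit 0) (nat_lit 2705807323) (nat_lit 304) (nat_lit 2282040984) (nat_lit 76) (nat_lit 5502467718) (nat_lit 49) (nat_lit 5) (nat_lit 53) (nat_lit 5) (nat_lit 50) (nat_lit 5) (nat_lit 291) (nat_lit 259) (nat_lit 230)) (XT.lf (nat_lit 0) (nat_lit 3892669450) (nat_lit 228) (nat_lit 1594959706) (nat_lit 304) (nat_lit 5300819742)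 (nat_lit 46) (nat_lit 5) (nat_lit 49) (nat_lit 5) (nat_lit 50) (nat_lit 5) (nat_lit 292) (nat_lit 259) (nat_lit 229))) (XT.nd (nat_lit 78) (nat_lit 456) (nat_lit 0) (XT.lf (nat_lit 0) (nat_lit 8408788486) (nat_lit 304) (nat_lit 774840605) (nat_lit 76) (nat_lit 1917946262) (nat_lit 46) (nat_lit 5) (nat_lit 50) (nat_lit 5) (nat_lit 47) (nat_lit 5) (nat_lit 293) (nat_lit 259) (nat_lit 228)) (XT.nd (nat_lit 78) (nat_lit 152) (nat_lit 0) (XT.lf (nat_lit 0) (nat_lit 93828781) (nat_lit 304) (nat_lit 5715173427) (nat_lit 76) (nat_lit 5618928214) (nat_lit 42) (nat_lit 5) (nat_lit 46) (nat_lit 5) (nat_lit 43) (nat_lit 5) (nat_lit 294) (nat_lit 259) (nat_lit 227)) (XT.lf (nat_lit 0) (nat_lit 663271981) (nat_lit 152) (nat_lit 2223831501) (nat_lit 228) (nat_lit 8883487124) (nat_lit 40) (nat_lit 5) (nat_lit 42) (nat_lit 5) (nat_lit 43) (nat_lit 5) (nat_lit 295) (nat_lit 259) (nat_lit 226))))) (XT.nd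 (nat_lit 156) (nat_lit 228) (nat_lit 0) (XT.nd (nat_lit 78) (nat_lit 228) (nat_lit 0) (XT.lf (nat_lit 0) (nat_lit 5877813072) (nat_lit 228) (nat_lit 4688705499) (nat_lit 76) (nat_lit 1561058331) (nat_lit 40) (nat_lit 5) (nat_lit 43) (nat_lit 5) (nat_lit 41) (nat_lit 5) (nat_lit 296) (nat_lit 259) (nat_lit 225)) (XT.lf (nat_lit 0) (nat_lit 1985965342) (nat_lit 228) (nat_lit 7037976653) (nat_lit 304) (nat_lit 3478254100) (nat_lit 37) (nat_lit 5) (nat_lit 40) (nat_lit 5) (nat_lit 41) (nat_lit 5) (nat_lit 297) (nat_lit 259) (nat_lit 224))) (XT.nd (nat_lit 78) (nat_lit 228) (nat_lit 0) (XT.lf (nat_lit 0) (nat_lit 9066654561) (nat_lit 228) (nat_lit 3280068837) (nat_lit 304) (nat_lit 547929614) (nat_lit 37) (nat_lit 5) (nat_lit 40) (nat_lit 5) (nat_lit 41) (nat_lit 5) (nat_lit 298) (nat_lit 259) (nat_lit 223)) (XT.nd (nat_lit 78) (nat_lit 0) (nat_lit 0) (XT.lf (nat_lit 0) (nat_lit 2450616374)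 (nat_lit 228) (nat_lit 10148255317) (nat_lit 76) (nat_lit 705821787) (nat_lit 34) (nat_lit 5) (nat_lit 37) (nat_lit 5) (nat_lit 35) (nat_lit 5) (nat_lit 299) (nat_lit 259) (nat_lit 222)) (XT.lf (nat_lit 0) (nat_lit 5643082852) (nat_lit 228) (nat_lit 3262007358) (nat_lit 76) (nat_lit 4826640257) (nat_lit 34) (nat_lit 5) (nat_lit 37) (nat_lit 5) (nat_lit 35) (nat_lit 5) (nat_lit 300) (nat_lit 259) (nat_lit 221))))))))
noncomputable def xc103 : XT := (XT.nd (nat_lit 1560) (nat_lit 608) (nat_lit 0) (XT.nd (nat_lit 780) (nat_lit 608) (nat_lit 0) (XT.nd (nat_lit 390) (nat_lit 304) (nat_lit 0) (XT.nd (nat_lit 156) (nat_lit 380) (nat_lit 0) (XT.nd (nat_lit 78) (nat_lit 0) (nat_lit 0) (XT.lf (nat_lit 0) (nat_lit 4012017796) (nat_lit 152) (nat_lit 4991264003) (nat_lit 228) (nat_lit 5176492986) (nat_lit 32) (nat_lit 5) (nat_lit 34) (nat_lit 5) (nat_lit 35) (nat_lit 5) (nat_lit 301) (nat_lit 259)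 (nat_lit 220)) (XT.lf (nat_lit 0) (nat_lit 11679418991) (nat_lit 152) (nat_lit 854077497) (nat_lit 228) (nat_lit 2116682575) (nat_lit 32) (nat_lit 5) (nat_lit 34) (nat_lit 5) (nat_lit 35) (nat_lit 5) (nat_lit 302) (nat_lit 259) (nat_lit 219))) (XT.nd (nat_lit 78) (nat_lit 152) (nat_lit 0) (XT.lf (nat_lit 0) (nat_lit 1137319830) (nat_lit 228) (nat_lit 10561750588) (nat_lit 76) (nat_lit 3440415899) (nat_lit 29) (nat_lit 5) (nat_lit 32) (nat_lit 5) (nat_lit 30) (nat_lit 5) (nat_lit 303) (nat_lit 259) (nat_lit 218)) (XT.nd (nat_lit 78) (nat_lit 152) (nat_lit 0) (XT.lf (nat_lit 0) (nat_lit 4497181601) (nat_lit 228) (nat_lit 3175622001) (nat_lit 76) (nat_lit 7978055794) (nat_lit 29) (nat_lit 5) (nat_lit 32) (nat_lit 5) (nat_lit 30) (nat_lit 5) (nat_lit 304) (nat_lit 259) (nat_lit 217)) (XT.lf (nat_lit 0) (nat_lit 4650419996) (nat_lit 152) (nat_lit 3398800033) (nat_lit 228) (nat_lit 8137419667)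 (nat_lit 27) (nat_lit 5) (nat_lit 29) (nat_lit 5) (nat_lit 30) (nat_lit 5) (nat_lit 305) (nat_lit 259) (nat_lit 216))))) (XT.nd (nat_lit 156) (nat_lit 228) (nat_lit 0) (XT.nd (nat_lit 78) (nat_lit 76) (nat_lit 0) (XT.lf (nat_lit 0) (nat_lit 11802742105) (nat_lit 228) (nat_lit 3865309978) (nat_lit 76) (nat_lit 1080008314) (nat_lit 27) (nat_lit 5) (nat_lit 30) (nat_lit 5) (nat_lit 28) (nat_lit 4) (nat_lit 306) (nat_lit 259) (nat_lit 215)) (XT.lf (nat_lit 0) (nat_lit 4192447870) (nat_lit 76) (nat_lit 11627160155) (nat_lit 152) (nat_lit 1514204027) (nat_lit 26) (nat_lit 5) (nat_lit 27) (nat_lit 5) (nat_lit 28) (nat_lit 4) (nat_lit 307) (nat_lit 259) (nat_lit 214))) (XT.nd (nat_lit 78) (nat_lit 152) (nat_lit 0) (XT.lf (nat_lit 0) (nat_lit 2042892909) (nat_lit 152) (nat_lit 5267457139) (nat_lit 76) (nat_lit 10635846637) (nat_lit 25) (nat_lit 5) (nat_lit 27) (nat_lit 5) (nat_lit 26) (nat_lit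 5) (nat_lit 308) (nat_lit 259) (nat_lit 213)) (XT.nd (nat_lit 78) (nat_lit 0) (nat_lit 0) (XT.lf (nat_lit 0) (nat_lit 2999429966) (nat_lit 152) (nat_lit 2731249322) (nat_lit 228) (nat_lit 12857131431) (nat_lit 23) (nat_lit 5) (nat_lit 25) (nat_lit 5) (nat_lit 26) (nat_lit 5) (nat_lit 309) (nat_lit 259) (nat_lit 212)) (XT.lf (nat_lit 0) (nat_lit 9683343660) (nat_lit 228) (nat_lit 7500827322) (nat_lit 76) (nat_lit 2073345668) (nat_lit 23) (nat_lit 5) (nat_lit 26) (nat_lit 5) (nat_lit 24) (nat_lit 4) (nat_lit 310) (nat_lit 259) (nat_lit 211)))))) (XT.nd (nat_lit 390) (nat_lit 304) (nat_lit 0) (XT.nd (nat_lit 156) (nat_lit 228) (nat_lit 0) (XT.nd (nat_lit 78) (nat_lit 0) (nat_lit 0) (XT.lf (nat_lit 0) (nat_lit 906356675) (nat_lit 76) (nat_lit 12945633311) (nat_lit 152) (nat_lit 6107834385) (nat_lit 22) (nat_lit 5) (nat_lit 23) (nat_lit 5) (nat_lit 24) (nat_lit 4) (nat_lit 311) (nat_lit 259)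 (nat_lit 210)) (XT.lf (nat_lit 0) (nat_lit 9926442667) (nat_lit 76) (nat_lit 8389952088) (nat_lit 152) (nat_lit 2376518734) (nat_lit 22) (nat_lit 5) (nat_lit 23) (nat_lit 5) (nat_lit 24) (nat_lit 4) (nat_lit 312) (nat_lit 259) (nat_lit 209))) (XT.nd (nat_lit 78) (nat_lit 152) (nat_lit 0) (XT.lf (nat_lit 0) (nat_lit 1453566435) (nat_lit 152) (nat_lit 2155127306) (nat_lit 76) (nat_lit 17854712536) (nat_lit 21) (nat_lit 5) (nat_lit 23) (nat_lit 5) (nat_lit 22) (nat_lit 5) (nat_lit 313) (nat_lit 259) (nat_lit 208)) (XT.nd (nat_lit 78) (nat_lit 0) (nat_lit 0) (XT.lf (nat_lit 0) (nat_lit 5492157324) (nat_lit 228) (nat_lit 15281557703) (nat_lit 76) (nat_lit 1491945222) (nat_lit 19) (nat_lit 5) (nat_lit 22) (nat_lit 5) (nat_lit 20) (nat_lit 4) (nat_lit 314) (nat_lit 259) (nat_lit 207)) (XT.lf (nat_lit 0) (nat_lit 9792676481) (nat_lit 228) (nat_lit 6574043907) (nat_lit 76) (nat_lit 6738333181)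 (nat_lit 19) (nat_lit 5) (nat_lit 22) (nat_lit 5) (nat_lit 20) (nat_lit 4) (nat_lit 315) (nat_lit 259) (nat_lit 206))))) (XT.nd (nat_lit 156) (nat_lit 228) (nat_lit 0) (XT.nd (nat_lit 78) (nat_lit 0) (nat_lit 0) (XT.lf (nat_lit 0) (nat_lit 2591602867) (nat_lit 76) (nat_lit 11722550776) (nat_lit 152) (nat_lit 9671991633) (nat_lit 18) (nat_lit 5) (nat_lit 19) (nat_lit 5) (nat_lit 20) (nat_lit 4) (nat_lit 316) (nat_lit 259) (nat_lit 205)) (XT.lf (nat_lit 0) (nat_lit 12384548564) (nat_lit 76) (nat_lit 6754680288) (nat_lit 152) (nat_lit 5768210619) (nat_lit 18) (nat_lit 5) (nat_lit 19) (nat_lit 5) (nat_lit 20) (nat_lit 4) (nat_lit 317) (nat_lit 259) (nat_lit 204))) (XT.nd (nat_lit 78) (nat_lit 228) (nat_lit 0) (XT.lf (nat_lit 0) (nat_lit 22610742139) (nat_lit 76) (nat_lit 1562615278) (nat_lit 152) (nat_lit 1703073946) (nat_lit 18) (nat_lit 5) (nat_lit 19) (nat_lit 5) (nat_lit 20) (nat_lit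 4) (nat_lit 318) (nat_lit 259) (nat_lit 203)) (XT.nd (nat_lit 78) (nat_lit 0) (nat_lit 0) (XT.lf (nat_lit 0) (nat_lit 2617284880) (nat_lit 228) (nat_lit 20381180580) (nat_lit 76) (nat_lit 3886722053) (nat_lit 15) (nat_lit 5) (nat_lit 18) (nat_lit 5) (nat_lit 16) (nat_lit 4) (nat_lit 319) (nat_lit 259) (nat_lit 202)) (XT.lf (nat_lit 0) (nat_lit 7147345252) (nat_lit 228) (nat_lit 11175558854) (nat_lit 76) (nat_lit 9617555336) (nat_lit 15) (nat_lit 5) (nat_lit 18) (nat_lit 5) (nat_lit 16) (nat_lit 4) (nat_lit 320) (nat_lit 259) (nat_lit 201))))))) (XT.nd (nat_lit 780) (nat_lit 304) (nat_lit 0) (XT.nd (nat_lit 390) (nat_lit 152) (nat_lit 0) (XT.nd (nat_lit 156) (nat_lit 76) (nat_lit 0) (XT.nd (nat_lit 78) (nat_lit 76) (nat_lit 0) (XT.lf (nat_lit 0) (nat_lit 11874469337) (nat_lit 228) (nat_lit 1562099278) (nat_lit 76) (nat_lit 15613417214) (nat_lit 15) (nat_lit 5) (nat_lit 18) (nat_lit 5)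 (nat_lit 16) (nat_lit 4) (nat_lit 321) (nat_lit 259) (nat_lit 200)) (XT.lf (nat_lit 0) (nat_lit 8762543451) (nat_lit 76) (nat_lit 8184176600) (nat_lit 152) (nat_lit 13262847956) (nat_lit 14) (nat_lit 5) (nat_lit 15) (nat_lit 5) (nat_lit 16) (nat_lit 4) (nat_lit 322) (nat_lit 259) (nat_lit 199))) (XT.nd (nat_lit 78) (nat_lit 76) (nat_lit 0) (XT.lf (nat_lit 0) (nat_lit 19608510519) (nat_lit 76) (nat_lit 2663058153) (nat_lit 152) (nat_lit 9155628492) (nat_lit 14) (nat_lit 5) (nat_lit 15) (nat_lit 5) (nat_lit 16) (nat_lit 4) (nat_lit 323) (nat_lit 259) (nat_lit 198)) (XT.nd (nat_lit 78) (nat_lit 76) (nat_lit 0) (XT.lf (nat_lit 0) (nat_lit 27885108367) (nat_lit 152) (nat_lit 1805666684) (nat_lit 0) (nat_lit 3013826618) (nat_lit 14) (nat_lit 5) (nat_lit 16) (nat_lit 4) (nat_lit 14) (nat_lit 4) (nat_lit 324) (nat_lit 259) (nat_lit 197)) (XT.lf (nat_lit 0) (nat_lit 8903798547) (nat_lit 76) (nat_lit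 25032973872) (nat_lit 76) (nat_lit 101247156) (nat_lit 13) (nat_lit 4) (nat_lit 14) (nat_lit 5) (nat_lit 14) (nat_lit 4) (nat_lit 325) (nat_lit 259) (nat_lit 196))))) (XT.nd (nat_lit 156) (nat_lit 76) (nat_lit 0) (XT.nd (nat_lit 78) (nat_lit 0) (nat_lit 0) (XT.lf (nat_lit 0) (nat_lit 4703528568) (nat_lit 152) (nat_lit 15347059787) (nat_lit 76) (nat_lit 15383448707) (nat_lit 12) (nat_lit 5) (nat_lit 14) (nat_lit 5) (nat_lit 13) (nat_lit 4) (nat_lit 326) (nat_lit 259) (nat_lit 195)) (XT.lf (nat_lit 0) (nat_lit 9721197264) (nat_lit 152) (nat_lit 5115664327) (nat_lit 76) (nat_lit 22064121432) (nat_lit 12) (nat_lit 5) (nat_lit 14) (nat_lit 5) (nat_lit 13) (nat_lit 4) (nat_lit 327) (nat_lit 259) (nat_lit 194))) (XT.nd (nat_lit 78) (nat_lit 0) (nat_lit 0) (XT.lf (nat_lit 0) (nat_lit 5770601865) (nat_lit 76) (nat_lit 9286439705) (nat_lit 152) (nat_lit 23380882892) (nat_lit 11) (nat_lit 5) (nat_lit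 12) (nat_lit 5) (nat_lit 13) (nat_lit 4) (nat_lit 328) (nat_lit 259) (nat_lit 193)) (XT.nd (nat_lit 78) (nat_lit 0) (nat_lit 0) (XT.lf (nat_lit 0) (nat_lit 17338058993) (nat_lit 76) (nat_lit 3385902261) (nat_lit 152) (nat_lit 19324549740) (nat_lit 11) (nat_lit 5) (nat_lit 12) (nat_lit 5) (nat_lit 13) (nat_lit 4) (nat_lit 329) (nat_lit 259) (nat_lit 192)) (XT.lf (nat_lit 0) (nat_lit 26696531764) (nat_lit 152) (nat_lit 12339194725) (nat_lit 0) (nat_lit 2702796723) (nat_lit 11) (nat_lit 5) (nat_lit 13) (nat_lit 4) (nat_lit 11) (nat_lit 4) (nat_lit 330) (nat_lit 259) (nat_lit 191)))))) (XT.nd (nat_lit 390) (nat_lit 152) (nat_lit 0) (XT.nd (nat_lit 156) (nat_lit 76) (nat_lit 0) (XT.nd (nat_lit 78) (nat_lit 76) (nat_lit 0) (XT.lf (nat_lit 0) (nat_lit 33002702289) (nat_lit 152) (nat_lit 1542586083) (nat_lit 0) (nat_lit 8966010139) (nat_lit 11) (nat_lit 5) (nat_lit 13) (nat_lit 4) (nat_lit 11)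 (nat_lit 4) (nat_lit 331) (nat_lit 259) (nat_lit 190)) (XT.lf (nat_lit 0) (nat_lit 10080585237) (nat_lit 76) (nat_lit 29681425048) (nat_lit 76) (nat_lit 5603821365) (nat_lit 10) (nat_lit 4) (nat_lit 11) (nat_lit 5) (nat_lit 11) (nat_lit 4) (nat_lit 332) (nat_lit 259) (nat_lit 189))) (XT.nd (nat_lit 78) (nat_lit 76) (nat_lit 0) (XT.lf (nat_lit 0) (nat_lit 22303139982) (nat_lit 76) (nat_lit 24563090595) (nat_lit 76) (nat_lit 446523546) (nat_lit 10) (nat_lit 4) (nat_lit 11) (nat_lit 5) (nat_lit 11) (nat_lit 4) (nat_lit 333) (nat_lit 259) (nat_lit 188)) (XT.nd (nat_lit 78) (nat_lit 0) (nat_lit 0) (XT.lf (nat_lit 0) (nat_lit 4791038696) (nat_lit 152) (nat_lit 14332045688) (nat_lit 76) (nat_lit 30230997352) (nat_lit 9) (nat_lit 5) (nat_lit 11) (nat_lit 5) (nat_lit 10) (nat_lit 4) (nat_lit 334) (nat_lit 259) (nat_lit 187)) (XT.lf (nat_lit 0) (nat_lit 10257784374) (nat_lit 152) (nat_lit 3160557967)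 (nat_lit 76) (nat_lit 38079660470) (nat_lit 9) (nat_lit 5) (nat_lit 11) (nat_lit 5) (nat_lit 10) (nat_lit 4) (nat_lit 335) (nat_lit 259) (nat_lit 186))))) (XT.nd (nat_lit 234) (nat_lit 76) (nat_lit 0) (XT.nd (nat_lit 78) (nat_lit 0) (nat_lit 0) (XT.lf (nat_lit 0) (nat_lit 8820737987) (nat_lit 76) (nat_lit 7297999545) (nat_lit 152) (nat_lit 37624347142) (nat_lit 8) (nat_lit 5) (nat_lit 9) (nat_lit 5) (nat_lit 10) (nat_lit 4) (nat_lit 336) (nat_lit 259) (nat_lit 185)) (XT.nd (nat_lit 78) (nat_lit 0) (nat_lit 0) (XT.lf (nat_lit 0) (nat_lit 21480242690) (nat_lit 76) (nat_lit 829499701) (nat_lit 152) (nat_lit 33788835889) (nat_lit 8) (nat_lit 5) (nat_lit 9) (nat_lit 5) (nat_lit 10) (nat_lit 4) (nat_lit 337) (nat_lit 259) (nat_lit 184)) (XT.lf (nat_lit 0) (nat_lit 28887443770) (nat_lit 152) (nat_lit 23921926357) (nat_lit 0) (nat_lit 5758626601) (nat_lit 8) (nat_lit 5) (nat_lit 10) (nat_lit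 4) (nat_lit 8) (nat_lit 4) (nat_lit 338) (nat_lit 259) (nat_lit 183)))) (XT.nd (nat_lit 78) (nat_lit 76) (nat_lit 0) (XT.lf (nat_lit 0) (nat_lit 35792443919) (nat_lit 152) (nat_lit 12732592403) (nat_lit 0) (nat_lit 12635936213) (nat_lit 8) (nat_lit 5) (nat_lit 10) (nat_lit 4) (nat_lit 8) (nat_lit 4) (nat_lit 339) (nat_lit 259) (nat_lit 182)) (XT.nd (nat_lit 78) (nat_lit 76) (nat_lit 0) (XT.lf (nat_lit 0) (nat_lit 43028232498) (nat_lit 152) (nat_lit 1010741642) (nat_lit 0) (nat_lit 19845352853) (nat_lit 8) (nat_lit 5) (nat_lit 10) (nat_lit 4) (nat_lit 8) (nat_lit 4) (nat_lit 340) (nat_lit 259) (nat_lit 181)) (XT.lf (nat_lit 0) (nat_lit 11644222949) (nat_lit 76) (nat_lit 39149613580) (nat_lit 76) (nat_lit 15941617803) (nat_lit 7) (nat_lit 4) (nat_lit 8) (nat_lit 5) (nat_lit 8) (nat_lit 4) (nat_lit 341) (nat_lit 259) (nat_lit 180))))))))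
noncomputable def xc104 : XT := (XT.nd (nat_lit 1560) (nat_lit 152) (nat_lit 0) (XT.nd (nat_lit 780) (nat_lit 76) (nat_lit 0) (XT.nd (nat_lit 390) (nat_lit 0) (nat_lit 0) (XT.nd (nat_lit 156) (nat_lit 152) (nat_lit 0) (XT.nd (nat_lit 78) (nat_lit 0) (nat_lit 0) (XT.lf (nat_lit 0) (nat_lit 24941773851) (nat_lit 76) (nat_lit 34009552969) (nat_lit 76) (nat_lit 10777637066) (nat_lit 7) (nat_lit 4) (nat_lit 8) (nat_lit 5) (nat_lit 8) (nat_lit 4) (nat_lit 342) (nat_lit 259) (nat_lit 179)) (XT.lf (nat_lit 0) (nat_lit 38880152218) (nat_lit 76) (nat_lit 28623671466) (nat_lit 76) (nat_lit 5368974491) (nat_lit 7) (nat_lit 4) (nat_lit 8) (nat_lit 5) (nat_lit 8) (nat_lit 4) (nat_lit 343) (nat_lit 259) (nat_lit 178))) (XT.nd (nat_lit 78) (nat_lit 76) (nat_lit 0) (XT.lf (nat_lit 0) (nat_lit 287733908) (nat_lit 152) (nat_lit 22686538723) (nat_lit 76) (nat_lit 53199937842) (nat_lit 6) (nat_lit 5) (nat_lit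 8) (nat_lit 5) (nat_lit 7) (nat_lit 4) (nat_lit 344) (nat_lit 259) (nat_lit 177)) (XT.nd (nat_lit 78) (nat_lit 76) (nat_lit 0) (XT.lf (nat_lit 0) (nat_lit 6034976893) (nat_lit 152) (nat_lit 10925353708) (nat_lit 76) (nat_lit 62676560451) (nat_lit 6) (nat_lit 5) (nat_lit 8) (nat_lit 5) (nat_lit 7) (nat_lit 4) (nat_lit 345) (nat_lit 259) (nat_lit 176)) (XT.lf (nat_lit 0) (nat_lit 1449117455) (nat_lit 76) (nat_lit 10631786418) (nat_lit 152) (nat_lit 71191240514) (nat_lit 5) (nat_lit 5) (nat_lit 6) (nat_lit 5) (nat_lit 7) (nat_lit 4) (nat_lit 346) (nat_lit 259) (nat_lit 175))))) (XT.nd (nat_lit 156) (nat_lit 0) (nat_lit 0) (XT.nd (nat_lit 78) (nat_lit 0) (nat_lit 0) (XT.lf (nat_lit 0) (nat_lit 14800803069) (nat_lit 76) (nat_lit 3802260638) (nat_lit 152) (nat_lit 68477404447) (nat_lit 5) (nat_lit 5) (nat_lit 6) (nat_lit 5) (nat_lit 7) (nat_lit 4) (nat_lit 347) (nat_lit 259) (nat_lit 174))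 (XT.lf (nat_lit 0) (nat_lit 25493220882) (nat_lit 152) (nat_lit 62331940153) (nat_lit 0) (nat_lit 3251956979) (nat_lit 5) (nat_lit 5) (nat_lit 7) (nat_lit 4) (nat_lit 5) (nat_lit 4) (nat_lit 348) (nat_lit 259) (nat_lit 173))) (XT.nd (nat_lit 78) (nat_lit 0) (nat_lit 0) (XT.lf (nat_lit 0) (nat_lit 32780021729) (nat_lit 152) (nat_lit 51968408268) (nat_lit 0) (nat_lit 10522567743) (nat_lit 5) (nat_lit 5) (nat_lit 7) (nat_lit 4) (nat_lit 5) (nat_lit 4) (nat_lit 349) (nat_lit 259) (nat_lit 172)) (XT.nd (nat_lit 78) (nat_lit 0) (nat_lit 0) (XT.lf (nat_lit 0) (nat_lit 40421451829) (nat_lit 152) (nat_lit 41105030412) (nat_lit 0) (nat_lit 18148578717) (nat_lit 5) (nat_lit 5) (nat_lit 7) (nat_lit 4) (nat_lit 5) (nat_lit 4) (nat_lit 350) (nat_lit 259) (nat_lit 171)) (XT.lf (nat_lit 0) (nat_lit 48435705063) (nat_lit 152) (nat_lit 29715941398) (nat_lit 0) (nat_lit 26148147069) (nat_lit 5) (nat_lit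 5) (nat_lit 7) (nat_lit 4) (nat_lit 5) (nat_lit 4) (nat_lit 351) (nat_lit 259) (nat_lit 170)))))) (XT.nd (nat_lit 390) (nat_lit 0) (nat_lit 0) (XT.nd (nat_lit 156) (nat_lit 76) (nat_lit 0) (XT.nd (nat_lit 78) (nat_lit 0) (nat_lit 0) (XT.lf (nat_lit 0) (nat_lit 56841862987) (nat_lit 152) (nat_lit 17774024349) (nat_lit 0) (nat_lit 34540319390) (nat_lit 5) (nat_lit 5) (nat_lit 7) (nat_lit 4) (nat_lit 5) (nat_lit 4) (nat_lit 352) (nat_lit 259) (nat_lit 169)) (XT.lf (nat_lit 0) (nat_lit 65659940263) (nat_lit 152) (nat_lit 5250846129) (nat_lit 0) (nat_lit 43345077045) (nat_lit 5) (nat_lit 5) (nat_lit 7) (nat_lit 4) (nat_lit 5) (nat_lit 4) (nat_lit 353) (nat_lit 259) (nat_lit 168))) (XT.nd (nat_lit 78) (nat_lit 0) (nat_lit 0) (XT.lf (nat_lit 0) (nat_lit 8144071503) (nat_lit 76) (nat_lit 66894012589) (nat_lit 76) (nat_lit 44566464017) (nat_lit 4) (nat_lit 4) (nat_lit 5) (nat_lit 5) (nat_lit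 5) (nat_lit 4) (nat_lit 354) (nat_lit 259) (nat_lit 167)) (XT.nd (nat_lit 78) (nat_lit 0) (nat_lit 0) (XT.lf (nat_lit 0) (nat_lit 22376195125) (nat_lit 76) (nat_lit 62590025296) (nat_lit 76) (nat_lit 40250395435) (nat_lit 4) (nat_lit 4) (nat_lit 5) (nat_lit 5) (nat_lit 5) (nat_lit 4) (nat_lit 355) (nat_lit 259) (nat_lit 166)) (XT.lf (nat_lit 0) (nat_lit 37305794060) (nat_lit 76) (nat_lit 58077502545) (nat_lit 76) (nat_lit 35726366694) (nat_lit 4) (nat_lit 4) (nat_lit 5) (nat_lit 5) (nat_lit 5) (nat_lit 4) (nat_lit 356) (nat_lit 259) (nat_lit 165))))) (XT.nd (nat_lit 156) (nat_lit 0) (nat_lit 0) (XT.nd (nat_lit 78) (nat_lit 0) (nat_lit 0) (XT.lf (nat_lit 0) (nat_lit 52968414971) (nat_lit 76) (nat_lit 53345700233) (nat_lit 76) (nat_lit 30983606297) (nat_lit 4) (nat_lit 4) (nat_lit 5) (nat_lit 5) (nat_lit 5) (nat_lit 4) (nat_lit 357) (nat_lit 259) (nat_lit 164)) (XT.lf (nat_lit 0) (nat_lit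 69401349813) (nat_lit 76) (nat_lit 48383352164) (nat_lit 76) (nat_lit 26010821957) (nat_lit 4) (nat_lit 4) (nat_lit 5) (nat_lit 5) (nat_lit 5) (nat_lit 4) (nat_lit 358) (nat_lit 259) (nat_lit 163))) (XT.nd (nat_lit 78) (nat_lit 0) (nat_lit 0) (XT.lf (nat_lit 0) (nat_lit 86643724622) (nat_lit 76) (nat_lit 43178643225) (nat_lit 76) (nat_lit 20796173711) (nat_lit 4) (nat_lit 4) (nat_lit 5) (nat_lit 5) (nat_lit 5) (nat_lit 4) (nat_lit 359) (nat_lit 259) (nat_lit 162)) (XT.nd (nat_lit 78) (nat_lit 0) (nat_lit 0) (XT.lf (nat_lit 0) (nat_lit 104736592670) (nat_lit 76) (nat_lit 37719181251) (nat_lit 76) (nat_lit 15327245730) (nat_lit 4) (nat_lit 4) (nat_lit 5) (nat_lit 5) (nat_lit 5) (nat_lit 4) (nat_lit 360) (nat_lit 259) (nat_lit 161)) (XT.lf (nat_lit 0) (nat_lit 123723032216) (nat_lit 76) (nat_lit 31991967522) (nat_lit 76) (nat_lit 9591016758) (nat_lit 4) (nat_lit 4) (nat_lit 5) (nat_lit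 5) (nat_lit 5) (nat_lit 4) (nat_lit 361) (nat_lit 259) (nat_lit 160))))))) (XT.nd (nat_lit 780) (nat_lit 0) (nat_lit 0) (XT.nd (nat_lit 390) (nat_lit 0) (nat_lit 0) (XT.nd (nat_lit 156) (nat_lit 76) (nat_lit 0) (XT.nd (nat_lit 78) (nat_lit 76) (nat_lit 0) (XT.lf (nat_lit 0) (nat_lit 143648249066) (nat_lit 76) (nat_lit 25983365817) (nat_lit 76) (nat_lit 3573829106) (nat_lit 4) (nat_lit 4) (nat_lit 5) (nat_lit 5) (nat_lit 5) (nat_lit 4) (nat_lit 362) (nat_lit 259) (nat_lit 159)) (XT.lf (nat_lit 0) (nat_lit 2650990156) (nat_lit 152) (nat_lit 16983183983) (nat_lit 76) (nat_lit 161863798258) (nat_lit 3) (nat_lit 5) (nat_lit 5) (nat_lit 5) (nat_lit 4) (nat_lit 4) (nat_lit 363) (nat_lit 259) (nat_lit 158))) (XT.nd (nat_lit 78) (nat_lit 76) (nat_lit 0) (XT.lf (nat_lit 0) (nat_lit 9061807564) (nat_lit 152) (nat_lit 3848796002) (nat_lit 76) (nat_lit 177291853133) (nat_lit 3) (nat_lit 5) (nat_lit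 5) (nat_lit 5) (nat_lit 4) (nat_lit 4) (nat_lit 364) (nat_lit 259) (nat_lit 157)) (XT.nd (nat_lit 78) (nat_lit 0) (nat_lit 0) (XT.lf (nat_lit 0) (nat_lit 10261469981) (nat_lit 76) (nat_lit 5687012142) (nat_lit 152) (nat_lit 183385919096) (nat_lit 2) (nat_lit 5) (nat_lit 3) (nat_lit 5) (nat_lit 4) (nat_lit 4) (nat_lit 365) (nat_lit 259) (nat_lit 156)) (XT.lf (nat_lit 0) (nat_lit 23270498663) (nat_lit 152) (nat_lit 183748808436) (nat_lit 0) (nat_lit 1899087184) (nat_lit 2) (nat_lit 5) (nat_lit 4) (nat_lit 4) (nat_lit 2) (nat_lit 4) (nat_lit 366) (nat_lit 259) (nat_lit 155))))) (XT.nd (nat_lit 156) (nat_lit 0) (nat_lit 0) (XT.nd (nat_lit 78) (nat_lit 0) (nat_lit 0) (XT.lf (nat_lit 0) (nat_lit 31047206832) (nat_lit 152) (nat_lit 178260563889) (nat_lit 0) (nat_lit 9669388387) (nat_lit 2) (nat_lit 5) (nat_lit 4) (nat_lit 4) (nat_lit 2) (nat_lit 4) (nat_lit 367) (nat_lit 259) (nat_lit 154))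 (XT.lf (nat_lit 0) (nat_lit 39208332405) (nat_lit 152) (nat_lit 172506340150) (nat_lit 0) (nat_lit 17824412088) (nat_lit 2) (nat_lit 5) (nat_lit 4) (nat_lit 4) (nat_lit 2) (nat_lit 4) (nat_lit 368) (nat_lit 259) (nat_lit 153))) (XT.nd (nat_lit 78) (nat_lit 0) (nat_lit 0) (XT.lf (nat_lit 0) (nat_lit 47773306633) (nat_lit 152) (nat_lit 166472436688) (nat_lit 0) (nat_lit 26383575010) (nat_lit 2) (nat_lit 5) (nat_lit 4) (nat_lit 4) (nat_lit 2) (nat_lit 4) (nat_lit 369) (nat_lit 259) (nat_lit 152)) (XT.nd (nat_lit 78) (nat_lit 0) (nat_lit 0) (XT.lf (nat_lit 0) (nat_lit 56762522313) (nat_lit 152) (nat_lit 160144487065) (nat_lit 0) (nat_lit 35367256112) (nat_lit 2) (nat_lit 5) (nat_lit 4) (nat_lit 4) (nat_lit 2) (nat_lit 4) (nat_lit 370) (nat_lit 259) (nat_lit 151)) (XT.lf (nat_lit 0) (nat_lit 66197382338) (nat_lit 152) (nat_lit 153507424734) (nat_lit 0) (nat_lit 44796845111) (nat_lit 2) (nat_lit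 5) (nat_lit 4) (nat_lit 4) (nat_lit 2) (nat_lit 4) (nat_lit 371) (nat_lit 259) (nat_lit 150)))))) (XT.nd (nat_lit 390) (nat_lit 0) (nat_lit 0) (XT.nd (nat_lit 156) (nat_lit 0) (nat_lit 0) (XT.nd (nat_lit 78) (nat_lit 0) (nat_lit 0) (XT.lf (nat_lit 0) (nat_lit 76100350662) (nat_lit 152) (nat_lit 146545447167) (nat_lit 0) (nat_lit 54694793409) (nat_lit 2) (nat_lit 5) (nat_lit 4) (nat_lit 4) (nat_lit 2) (nat_lit 4) (nat_lit 372) (nat_lit 259) (nat_lit 149)) (XT.lf (nat_lit 0) (nat_lit 86495005779) (nat_lit 152) (nat_lit 139241978226) (nat_lit 0) (nat_lit 65084667551) (nat_lit 2) (nat_lit 5) (nat_lit 4) (nat_lit 4) (nat_lit 2) (nat_lit 4) (nat_lit 373) (nat_lit 259) (nat_lit 148))) (XT.nd (nat_lit 78) (nat_lit 0) (nat_lit 0) (XT.lf (nat_lit 0) (nat_lit 97406096870) (nat_lit 152) (nat_lit 131579628700) (nat_lit 0) (nat_lit 75991205331) (nat_lit 2) (nat_lit 5) (nat_lit 4) (nat_lit 4) (nat_lit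 2) (nat_lit 4) (nat_lit 374) (nat_lit 259) (nat_lit 147)) (XT.nd (nat_lit 78) (nat_lit 0) (nat_lit 0) (XT.lf (nat_lit 0) (nat_lit 108859602722) (nat_lit 152) (nat_lit 123540154898) (nat_lit 0) (nat_lit 87440374696) (nat_lit 2) (nat_lit 5) (nat_lit 4) (nat_lit 4) (nat_lit 2) (nat_lit 4) (nat_lit 375) (nat_lit 259) (nat_lit 146)) (XT.lf (nat_lit 0) (nat_lit 120882793587) (nat_lit 152) (nat_lit 115104415218) (nat_lit 0) (nat_lit 99459435574) (nat_lit 2) (nat_lit 5) (nat_lit 4) (nat_lit 4) (nat_lit 2) (nat_lit 4) (nat_lit 376) (nat_lit 259) (nat_lit 145))))) (XT.nd (nat_lit 156) (nat_lit 0) (nat_lit 0) (XT.nd (nat_lit 78) (nat_lit 0) (nat_lit 0) (XT.lf (nat_lit 0) (nat_lit 133504296111) (nat_lit 152) (nat_lit 106252324564) (nat_lit 0) (nat_lit 112077004777) (nat_lit 2) (nat_lit 5) (nat_lit 4) (nat_lit 4) (nat_lit 2) (nat_lit 4) (nat_lit 377) (nat_lit 259) (nat_lit 144)) (XT.lf (nat_lit 0)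 (nat_lit 146754161489) (nat_lit 152) (nat_lit 96962806529) (nat_lit 0) (nat_lit 125323124135) (nat_lit 2) (nat_lit 5) (nat_lit 4) (nat_lit 4) (nat_lit 2) (nat_lit 4) (nat_lit 378) (nat_lit 259) (nat_lit 143))) (XT.nd (nat_lit 78) (nat_lit 0) (nat_lit 0) (XT.lf (nat_lit 0) (nat_lit 160663937021) (nat_lit 152) (nat_lit 87213743215) (nat_lit 0) (nat_lit 139229332028) (nat_lit 2) (nat_lit 5) (nat_lit 4) (nat_lit 4) (nat_lit 2) (nat_lit 4) (nat_lit 379) (nat_lit 259) (nat_lit 142)) (XT.nd (nat_lit 78) (nat_lit 0) (nat_lit 0) (XT.lf (nat_lit 0) (nat_lit 175266741219) (nat_lit 152) (nat_lit 76981922566) (nat_lit 0) (nat_lit 153828738476) (nat_lit 2) (nat_lit 5) (nat_lit 4) (nat_lit 4) (nat_lit 2) (nat_lit 4) (nat_lit 380) (nat_lit 259) (nat_lit 141)) (XT.lf (nat_lit 0) (nat_lit 190597342665) (nat_lit 152) (nat_lit 66242983103) (nat_lit 0) (nat_lit 169156103969) (nat_lit 2) (nat_lit 5) (nat_lit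 4) (nat_lit 4) (nat_lit 2) (nat_lit 4) (nat_lit 381) (nat_lit 259) (nat_lit 140))))))))
noncomputable def xc105 : XT := (XT.nd (nat_lit 32214) (nat_lit 0) (nat_lit 3420) (XT.nd (nat_lit 31434) (nat_lit 0) (nat_lit 8436) (XT.nd (nat_lit 390) (nat_lit 76) (nat_lit 0) (XT.nd (nat_lit 156) (nat_lit 0) (nat_lit 0) (XT.nd (nat_lit 78) (nat_lit 0) (nat_lit 0) (XT.lf (nat_lit 0) (nat_lit 206692242791) (nat_lit 152) (nat_lit 54971355923) (nat_lit 0) (nat_lit 185247922234) (nat_lit 2) (nat_lit 5) (nat_lit 4) (nat_lit 4) (nat_lit 2) (nat_lit 4) (nat_lit 382) (nat_lit 259) (nat_lit 139)) (XT.lf (nat_lit 0) (nat_lit 223589762787) (nat_lit 152) (nat_lit 43140203819) (nat_lit 0) (nat_lit 202142507126) (nat_lit 2) (nat_lit 5) (nat_lit 4) (nat_lit 4) (nat_lit 2) (nat_lit 4) (nat_lit 383) (nat_lit 259) (nat_lit 138))) (XT.nd (nat_lit 78) (nat_lit 0) (nat_lit 0) (XT.lf (nat_lit 0) (nat_lit 241330134844)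 (nat_lit 152) (nat_lit 30721357380) (nat_lit 0) (nat_lit 219880083846) (nat_lit 2) (nat_lit 5) (nat_lit 4) (nat_lit 4) (nat_lit 2) (nat_lit 4) (nat_lit 384) (nat_lit 259) (nat_lit 137)) (XT.nd (nat_lit 78) (nat_lit 0) (nat_lit 0) (XT.lf (nat_lit 0) (nat_lit 259955597944) (nat_lit 152) (nat_lit 17685247926) (nat_lit 0) (nat_lit 238502884719) (nat_lit 2) (nat_lit 5) (nat_lit 4) (nat_lit 4) (nat_lit 2) (nat_lit 4) (nat_lit 385) (nat_lit 259) (nat_lit 136)) (XT.lf (nat_lit 0) (nat_lit 279510498427) (nat_lit 152) (nat_lit 4000837100) (nat_lit 0) (nat_lit 258055249748) (nat_lit 2) (nat_lit 5) (nat_lit 4) (nat_lit 4) (nat_lit 2) (nat_lit 4) (nat_lit 386) (nat_lit 259) (nat_lit 135))))) (XT.nd (nat_lit 30810) (nat_lit 0) (nat_lit 10260) (XT.nd (nat_lit 30732) (nat_lit 0) (nat_lit 10488) (XT.lf (nat_lit 0) (nat_lit 10707152785) (nat_lit 76) (nat_lit 289501411456) (nat_lit 76) (nat_lit 268043748059)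 (nat_lit 1) (nat_lit 4) (nat_lit 2) (nat_lit 5) (nat_lit 2) (nat_lit 4) (nat_lit 387) (nat_lit 259) (nat_lit 134)) (XT.lf (nat_lit 0) (nat_lit 1073741823) (nat_lit 0) (nat_lit 0) (nat_lit 0) (nat_lit 0) (nat_lit 139) (nat_lit 0) (nat_lit 1) (nat_lit 0) (nat_lit 1) (nat_lit 0) (nat_lit 260) (nat_lit 260) (nat_lit 260))) (XT.nd (nat_lit 78) (nat_lit 152) (nat_lit 0) (XT.lf (nat_lit 0) (nat_lit 2948967796) (nat_lit 76) (nat_lit 3400297276) (nat_lit 0) (nat_lit 95882378) (nat_lit 138) (nat_lit 5) (nat_lit 139) (nat_lit 0) (nat_lit 138) (nat_lit 4) (nat_lit 261) (nat_lit 260) (nat_lit 259)) (XT.nd (nat_lit 78) (nat_lit 152) (nat_lit 0) (XT.lf (nat_lit 0) (nat_lit 5858185053) (nat_lit 76) (nat_lit 311977036) (nat_lit 0) (nat_lit 287875427) (nat_lit 138) (nat_lit 5) (nat_lit 139) (nat_lit 0) (nat_lit 138) (nat_lit 4) (nat_lit 262) (nat_lit 260) (nat_lit 258)) (XT.lf (nat_lit 0) (nat_lit 2227694118)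 (nat_lit 152) (nat_lit 3591369261) (nat_lit 76) (nat_lit 658009773) (nat_lit 136) (nat_lit 5) (nat_lit 138) (nat_lit 5) (nat_lit 137) (nat_lit 4) (nat_lit 263) (nat_lit 260) (nat_lit 257)))))) (XT.nd (nat_lit 390) (nat_lit 988) (nat_lit 0) (XT.nd (nat_lit 156) (nat_lit 608) (nat_lit 0) (XT.nd (nat_lit 78) (nat_lit 228) (nat_lit 0) (XT.lf (nat_lit 0) (nat_lit 5007061872) (nat_lit 152) (nat_lit 358267821) (nat_lit 76) (nat_lit 1140312691) (nat_lit 136) (nat_lit 5) (nat_lit 138) (nat_lit 5) (nat_lit 137) (nat_lit 4) (nat_lit 264) (nat_lit 260) (nat_lit 256)) (XT.lf (nat_lit 0) (nat_lit 1223675870) (nat_lit 228) (nat_lit 3528964689) (nat_lit 76) (nat_lit 1788542190) (nat_lit 133) (nat_lit 5) (nat_lit 136) (nat_lit 5) (nat_lit 134) (nat_lit 5) (nat_lit 265) (nat_lit 260) (nat_lit 255))) (XT.nd (nat_lit 78) (nat_lit 608) (nat_lit 0) (XT.lf (nat_lit 0) (nat_lit 3874631145) (nat_lit 228) (nat_lit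 144112078) (nat_lit 76) (nat_lit 2566902598) (nat_lit 133) (nat_lit 5) (nat_lit 136) (nat_lit 5) (nat_lit 134) (nat_lit 5) (nat_lit 266) (nat_lit 260) (nat_lit 254)) (XT.nd (nat_lit 78) (nat_lit 380) (nat_lit 0) (XT.lf (nat_lit 0) (nat_lit 3419509347) (nat_lit 228) (nat_lit 3136566580) (nat_lit 304) (nat_lit 81855645) (nat_lit 130) (nat_lit 5) (nat_lit 133) (nat_lit 5) (nat_lit 134) (nat_lit 5) (nat_lit 267) (nat_lit 260) (nat_lit 253)) (XT.lf (nat_lit 0) (nat_lit 338785495) (nat_lit 304) (nat_lit 2109519781) (nat_lit 380) (nat_lit 4250121576) (nat_lit 125) (nat_lit 5) (nat_lit 129) (nat_lit 5) (nat_lit 130) (nat_lit 5) (nat_lit 268) (nat_lit 260) (nat_lit 252))))) (XT.nd (nat_lit 156) (nat_lit 532) (nat_lit 0) (XT.nd (nat_lit 78) (nat_lit 456) (nat_lit 0) (XT.lf (nat_lit 0) (nat_lit 4082077605) (nat_lit 304) (nat_lit 927807577) (nat_lit 380) (nat_lit 1757040522) (nat_lit 125) (nat_lit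 5) (nat_lit 129) (nat_lit 5) (nat_lit 130) (nat_lit 5) (nat_lit 269) (nat_lit 260) (nat_lit 251)) (XT.lf (nat_lit 0) (nat_lit 713704847) (nat_lit 456) (nat_lit 5757992087) (nat_lit 76) (nat_lit 372841889) (nat_lit 119) (nat_lit 5) (nat_lit 125) (nat_lit 5) (nat_lit 120) (nat_lit 5) (nat_lit 270) (nat_lit 260) (nat_lit 250))) (XT.nd (nat_lit 78) (nat_lit 532) (nat_lit 0) (XT.lf (nat_lit 0) (nat_lit 3173631082) (nat_lit 456) (nat_lit 1937315641) (nat_lit 76) (nat_lit 1817781672) (nat_lit 119) (nat_lit 5) (nat_lit 125) (nat_lit 5) (nat_lit 120) (nat_lit 5) (nat_lit 271) (nat_lit 260) (nat_lit 249)) (XT.nd (nat_lit 78) (nat_lit 76) (nat_lit 0) (XT.lf (nat_lit 0) (nat_lit 2036213425) (nat_lit 456) (nat_lit 3621909412) (nat_lit 532) (nat_lit 1364279084) (nat_lit 113) (nat_lit 5) (nat_lit 119) (nat_lit 5) (nat_lit 120) (nat_lit 5) (nat_lit 272) (nat_lit 260) (nat_lit 248)) (XT.lf (nat_lit 0)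 (nat_lit 1014752700) (nat_lit 532) (nat_lit 968109774) (nat_lit 76) (nat_lit 5142054375) (nat_lit 112) (nat_lit 5) (nat_lit 119) (nat_lit 5) (nat_lit 113) (nat_lit 5) (nat_lit 273) (nat_lit 260) (nat_lit 247))))))) (XT.nd (nat_lit 780) (nat_lit 1748) (nat_lit 0) (XT.nd (nat_lit 390) (nat_lit 1368) (nat_lit 0) (XT.nd (nat_lit 156) (nat_lit 760) (nat_lit 0) (XT.nd (nat_lit 78) (nat_lit 608) (nat_lit 0) (XT.lf (nat_lit 0) (nat_lit 3230732300) (nat_lit 532) (nat_lit 164697859) (nat_lit 608) (nat_lit 3839886839) (nat_lit 105) (nat_lit 5) (nat_lit 112) (nat_lit 5) (nat_lit 113) (nat_lit 5) (nat_lit 274) (nat_lit 260) (nat_lit 246)) (XT.lf (nat_lit 0) (nat_lit 195459878) (nat_lit 608) (nat_lit 5629267138) (nat_lit 684) (nat_lit 1530321223) (nat_lit 97) (nat_lit 5) (nat_lit 105) (nat_lit 5) (nat_lit 106) (nat_lit 5) (nat_lit 275) (nat_lit 260) (nat_lit 245))) (XT.nd (nat_lit 78) (nat_lit 684)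 (nat_lit 0) (XT.lf (nat_lit 0) (nat_lit 822186115) (nat_lit 684) (nat_lit 2858995140) (nat_lit 76) (nat_lit 3801344686) (nat_lit 96) (nat_lit 5) (nat_lit 105) (nat_lit 5) (nat_lit 97) (nat_lit 5) (nat_lit 276) (nat_lit 260) (nat_lit 244)) (XT.nd (nat_lit 78) (nat_lit 0) (nat_lit 0) (XT.lf (nat_lit 0) (nat_lit 1578858597) (nat_lit 684) (nat_lit 1576652103) (nat_lit 760) (nat_lit 4464132256) (nat_lit 87) (nat_lit 5) (nat_lit 96) (nat_lit 5) (nat_lit 97) (nat_lit 5) (nat_lit 277) (nat_lit 260) (nat_lit 243)) (XT.lf (nat_lit 0) (nat_lit 5558297903) (nat_lit 760) (nat_lit 1541193769) (nat_lit 76) (nat_lit 666723208) (nat_lit 87) (nat_lit 5) (nat_lit 97) (nat_lit 5) (nat_lit 88) (nat_lit 5) (nat_lit 278) (nat_lit 260) (nat_lit 242))))) (XT.nd (nat_lit 156) (nat_lit 760) (nat_lit 0) (XT.nd (nat_lit 78) (nat_lit 0) (nat_lit 0) (XT.lf (nat_lit 0) (nat_lit 129194095) (nat_lit 608) (nat_lit 4767255128)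 (nat_lit 76) (nat_lit 3025095006) (nat_lit 79) (nat_lit 5) (nat_lit 87) (nat_lit 5) (nat_lit 80) (nat_lit 5) (nat_lit 279) (nat_lit 260) (nat_lit 241)) (XT.lf (nat_lit 0) (nat_lit 2435687334) (nat_lit 608) (nat_lit 85844670) (nat_lit 76) (nat_lit 5565168267) (nat_lit 79) (nat_lit 5) (nat_lit 87) (nat_lit 5) (nat_lit 80) (nat_lit 5) (nat_lit 280) (nat_lit 260) (nat_lit 240))) (XT.nd (nat_lit 78) (nat_lit 380) (nat_lit 0) (XT.lf (nat_lit 0) (nat_lit 4839510997) (nat_lit 456) (nat_lit 3374939236) (nat_lit 76) (nat_lit 46760124) (nat_lit 74) (nat_lit 5) (nat_lit 80) (nat_lit 5) (nat_lit 75) (nat_lit 5) (nat_lit 281) (nat_lit 260) (nat_lit 239)) (XT.nd (nat_lit 78) (nat_lit 76) (nat_lit 0) (XT.lf (nat_lit 0) (nat_lit 1572469155) (nat_lit 304) (nat_lit 5766294447) (nat_lit 380) (nat_lit 1107107625) (nat_lit 70) (nat_lit 5) (nat_lit 74) (nat_lit 5) (nat_lit 75) (nat_lit 5) (nat_lit 282) (nat_lit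 260) (nat_lit 238)) (XT.lf (nat_lit 0) (nat_lit 1248010716) (nat_lit 380) (nat_lit 1877714254) (nat_lit 76) (nat_lit 5514819577) (nat_lit 69) (nat_lit 5) (nat_lit 74) (nat_lit 5) (nat_lit 70) (nat_lit 5) (nat_lit 283) (nat_lit 260) (nat_lit 237)))))) (XT.nd (nat_lit 390) (nat_lit 760) (nat_lit 0) (XT.nd (nat_lit 156) (nat_lit 684) (nat_lit 0) (XT.nd (nat_lit 78) (nat_lit 0) (nat_lit 0) (XT.lf (nat_lit 0) (nat_lit 3358404175) (nat_lit 304) (nat_lit 291094449) (nat_lit 380) (nat_lit 5196416141) (nat_lit 65) (nat_lit 5) (nat_lit 69) (nat_lit 5) (nat_lit 70) (nat_lit 5) (nat_lit 284) (nat_lit 260) (nat_lit 236)) (XT.lf (nat_lit 0) (nat_lit 6161096394) (nat_lit 380) (nat_lit 282143174) (nat_lit 76) (nat_lit 2618966137) (nat_lit 65) (nat_lit 5) (nat_lit 70) (nat_lit 5) (nat_lit 66) (nat_lit 5) (nat_lit 285) (nat_lit 260) (nat_lit 235))) (XT.nd (nat_lit 78) (nat_lit 380) (nat_lit 0) (XT.lf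 (nat_lit 0) (nat_lit 5250333224) (nat_lit 304) (nat_lit 3554484902) (nat_lit 380) (nat_lit 484312512) (nat_lit 61) (nat_lit 5) (nat_lit 65) (nat_lit 5) (nat_lit 66) (nat_lit 5) (nat_lit 286) (nat_lit 260) (nat_lit 234)) (XT.nd (nat_lit 78) (nat_lit 0) (nat_lit 0) (XT.lf (nat_lit 0) (nat_lit 1458996796) (nat_lit 304) (nat_lit 476969507) (nat_lit 380) (nat_lit 7592547557) (nat_lit 56) (nat_lit 5) (nat_lit 60) (nat_lit 5) (nat_lit 61) (nat_lit 5) (nat_lit 287) (nat_lit 260) (nat_lit 233)) (XT.lf (nat_lit 0) (nat_lit 4496211046) (nat_lit 380) (nat_lit 2556346821) (nat_lit 76) (nat_lit 2725276677) (nat_lit 56) (nat_lit 5) (nat_lit 61) (nat_lit 5) (nat_lit 57) (nat_lit 5) (nat_lit 288) (nat_lit 260) (nat_lit 232))))) (XT.nd (nat_lit 156) (nat_lit 532) (nat_lit 0) (XT.nd (nat_lit 78) (nat_lit 0) (nat_lit 0) (XT.lf (nat_lit 0) (nat_lit 3233159203) (nat_lit 228) (nat_lit 3935990993) (nat_lit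 304) (nat_lit 2871357609) (nat_lit 53) (nat_lit 5) (nat_lit 56) (nat_lit 5) (nat_lit 57) (nat_lit 5) (nat_lit 289) (nat_lit 260) (nat_lit 231)) (XT.lf (nat_lit 0) (nat_lit 9307438288) (nat_lit 228) (nat_lit 640021756) (nat_lit 304) (nat_lit 370383403) (nat_lit 53) (nat_lit 5) (nat_lit 56) (nat_lit 5) (nat_lit 57) (nat_lit 5) (nat_lit 290) (nat_lit 260) (nat_lit 230))) (XT.nd (nat_lit 78) (nat_lit 228) (nat_lit 0) (XT.lf (nat_lit 0) (nat_lit 2239477526) (nat_lit 304) (nat_lit 5539019647) (nat_lit 76) (nat_lit 2826090449) (nat_lit 49) (nat_lit 5) (nat_lit 53) (nat_lit 5) (nat_lit 50) (nat_lit 5) (nat_lit 291) (nat_lit 260) (nat_lit 229)) (XT.nd (nat_lit 78) (nat_lit 0) (nat_lit 0) (XT.lf (nat_lit 0) (nat_lit 481109330) (nat_lit 228) (nat_lit 4453835832) (nat_lit 304) (nat_lit 5972141462) (nat_lit 46) (nat_lit 5) (nat_lit 49) (nat_lit 5) (nat_lit 50) (nat_lit 5) (nat_lit 292) (nat_lit 260)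 (nat_lit 228)) (XT.lf (nat_lit 0) (nat_lit 6902997850) (nat_lit 228) (nat_lit 889960327) (nat_lit 304) (nat_lit 3430458332) (nat_lit 46) (nat_lit 5) (nat_lit 49) (nat_lit 5) (nat_lit 50) (nat_lit 5) (nat_lit 293) (nat_lit 260) (nat_lit 227))))))))
noncomputable def xc106 : XT := (XT.nd (nat_lit 1560) (nat_lit 912) (nat_lit 0) (XT.nd (nat_lit 780) (nat_lit 760) (nat_lit 0) (XT.nd (nat_lit 390) (nat_lit 380) (nat_lit 0) (XT.nd (nat_lit 156) (nat_lit 380) (nat_lit 0) (XT.nd (nat_lit 78) (nat_lit 76) (nat_lit 0) (XT.lf (nat_lit 0) (nat_lit 2020512729) (nat_lit 228) (nat_lit 8786165493) (nat_lit 304) (nat_lit 748334377) (nat_lit 43) (nat_lit 5) (nat_lit 46) (nat_lit 5) (nat_lit 47) (nat_lit 5) (nat_lit 294) (nat_lit 260) (nat_lit 226)) (XT.lf (nat_lit 0) (nat_lit 2027934821) (nat_lit 304) (nat_lit 3209867196) (nat_lit 76) (nat_lit 6662542626) (nat_lit 42) (nat_lit 5) (nat_lit 46) (nat_lit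 5) (nat_lit 43) (nat_lit 5) (nat_lit 295) (nat_lit 260) (nat_lit 225))) (XT.nd (nat_lit 78) (nat_lit 228) (nat_lit 0) (XT.lf (nat_lit 0) (nat_lit 3442483306) (nat_lit 152) (nat_lit 1469386565) (nat_lit 228) (nat_lit 7350837732) (nat_lit 40) (nat_lit 5) (nat_lit 42) (nat_lit 5) (nat_lit 43) (nat_lit 5) (nat_lit 296) (nat_lit 260) (nat_lit 224)) (XT.nd (nat_lit 78) (nat_lit 228) (nat_lit 0) (XT.lf (nat_lit 0) (nat_lit 7975442991) (nat_lit 228) (nat_lit 2228907206) (nat_lit 76) (nat_lit 2437140520) (nat_lit 40) (nat_lit 5) (nat_lit 43) (nat_lit 5) (nat_lit 41) (nat_lit 5) (nat_lit 297) (nat_lit 260) (nat_lit 223)) (XT.lf (nat_lit 0) (nat_lit 4736041797) (nat_lit 228) (nat_lit 6498330292) (nat_lit 304) (nat_lit 1802802572) (nat_lit 37) (nat_lit 5) (nat_lit 40) (nat_lit 5) (nat_lit 41) (nat_lit 5) (nat_lit 298) (nat_lit 260) (nat_lit 222))))) (XT.nd (nat_lit 156) (nat_lit 152) (nat_lit 0)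 (XT.nd (nat_lit 78) (nat_lit 152) (nat_lit 0) (XT.lf (nat_lit 0) (nat_lit 1148014626) (nat_lit 304) (nat_lit 1427524810) (nat_lit 76) (nat_lit 10877081135) (nat_lit 36) (nat_lit 5) (nat_lit 40) (nat_lit 5) (nat_lit 37) (nat_lit 5) (nat_lit 299) (nat_lit 260) (nat_lit 221)) (XT.lf (nat_lit 0) (nat_lit 4250267818) (nat_lit 228) (nat_lit 8043096729) (nat_lit 76) (nat_lit 1590833402) (nat_lit 34) (nat_lit 5) (nat_lit 37) (nat_lit 5) (nat_lit 35) (nat_lit 5) (nat_lit 300) (nat_lit 260) (nat_lit 220))) (XT.nd (nat_lit 78) (nat_lit 152) (nat_lit 0) (XT.lf (nat_lit 0) (nat_lit 7522494732) (nat_lit 228) (nat_lit 936944533) (nat_lit 76) (nat_lit 5877229913) (nat_lit 34) (nat_lit 5) (nat_lit 37) (nat_lit 5) (nat_lit 35) (nat_lit 5) (nat_lit 301) (nat_lit 260) (nat_lit 219)) (XT.nd (nat_lit 78) (nat_lit 0) (nat_lit 0) (XT.lf (nat_lit 0) (nat_lit 6660650215) (nat_lit 152) (nat_lit 4352214152) (nat_lit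 228) (nat_lit 3796228303) (nat_lit 32) (nat_lit 5) (nat_lit 34) (nat_lit 5) (nat_lit 35) (nat_lit 5) (nat_lit 302) (nat_lit 260) (nat_lit 218)) (XT.lf (nat_lit 0) (nat_lit 14594848540) (nat_lit 152) (nat_lit 50483228) (nat_lit 228) (nat_lit 661479245) (nat_lit 32) (nat_lit 5) (nat_lit 34) (nat_lit 5) (nat_lit 35) (nat_lit 5) (nat_lit 303) (nat_lit 260) (nat_lit 217)))))) (XT.nd (nat_lit 390) (nat_lit 304) (nat_lit 0) (XT.nd (nat_lit 156) (nat_lit 228) (nat_lit 0) (XT.nd (nat_lit 78) (nat_lit 0) (nat_lit 0) (XT.lf (nat_lit 0) (nat_lit 2683473550) (nat_lit 228) (nat_lit 8683619440) (nat_lit 76) (nat_lit 4453434794) (nat_lit 29) (nat_lit 5) (nat_lit 32) (nat_lit 5) (nat_lit 30) (nat_lit 5) (nat_lit 304) (nat_lit 260) (nat_lit 216)) (XT.lf (nat_lit 0) (nat_lit 6140409946) (nat_lit 228) (nat_lit 1042766265) (nat_lit 76) (nat_lit 9177909156) (nat_lit 29) (nat_lit 5) (nat_lit 32) (nat_lit 5)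 (nat_lit 30) (nat_lit 5) (nat_lit 305) (nat_lit 260) (nat_lit 215))) (XT.nd (nat_lit 78) (nat_lit 76) (nat_lit 0) (XT.lf (nat_lit 0) (nat_lit 7137615948) (nat_lit 152) (nat_lit 2700094749) (nat_lit 228) (nat_lit 7087627562) (nat_lit 27) (nat_lit 5) (nat_lit 29) (nat_lit 5) (nat_lit 30) (nat_lit 5) (nat_lit 306) (nat_lit 260) (nat_lit 214)) (XT.nd (nat_lit 78) (nat_lit 76) (nat_lit 0) (XT.lf (nat_lit 0) (nat_lit 13725823642) (nat_lit 228) (nat_lit 1856912251) (nat_lit 76) (nat_lit 1934811788) (nat_lit 27) (nat_lit 5) (nat_lit 30) (nat_lit 5) (nat_lit 28) (nat_lit 4) (nat_lit 307) (nat_lit 260) (nat_lit 213)) (XT.lf (nat_lit 0) (nat_lit 6568222792) (nat_lit 76) (nat_lit 11345656234) (nat_lit 152) (nat_lit 220250991) (nat_lit 26) (nat_lit 5) (nat_lit 27) (nat_lit 5) (nat_lit 28) (nat_lit 4) (nat_lit 308) (nat_lit 260) (nat_lit 212))))) (XT.nd (nat_lit 156) (nat_lit 76) (nat_lit 0) (XT.nd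 (nat_lit 78) (nat_lit 152) (nat_lit 0) (XT.lf (nat_lit 0) (nat_lit 3407728469) (nat_lit 152) (nat_lit 3424981534) (nat_lit 76) (nat_lit 11946566181) (nat_lit 25) (nat_lit 5) (nat_lit 27) (nat_lit 5) (nat_lit 26) (nat_lit 5) (nat_lit 309) (nat_lit 260) (nat_lit 211)) (XT.lf (nat_lit 0) (nat_lit 5221284628) (nat_lit 152) (nat_lit 2030839302) (nat_lit 228) (nat_lit 12202288181) (nat_lit 23) (nat_lit 5) (nat_lit 25) (nat_lit 5) (nat_lit 26) (nat_lit 5) (nat_lit 310) (nat_lit 260) (nat_lit 210))) (XT.nd (nat_lit 78) (nat_lit 76) (nat_lit 0) (XT.lf (nat_lit 0) (nat_lit 11356061475) (nat_lit 228) (nat_lit 5855292668) (nat_lit 76) (nat_lit 2948616893) (nat_lit 23) (nat_lit 5) (nat_lit 26) (nat_lit 5) (nat_lit 24) (nat_lit 4) (nat_lit 311) (nat_lit 260) (nat_lit 209)) (XT.nd (nat_lit 78) (nat_lit 0) (nat_lit 0) (XT.lf (nat_lit 0) (nat_lit 2939660593) (nat_lit 76) (nat_lit 12767919910) (nat_lit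 152) (nat_lit 5191138952) (nat_lit 22) (nat_lit 5) (nat_lit 23) (nat_lit 5) (nat_lit 24) (nat_lit 4) (nat_lit 312) (nat_lit 260) (nat_lit 208)) (XT.lf (nat_lit 0) (nat_lit 12316084880) (nat_lit 76) (nat_lit 8023740105) (nat_lit 152) (nat_lit 1331452145) (nat_lit 22) (nat_lit 5) (nat_lit 23) (nat_lit 5) (nat_lit 24) (nat_lit 4) (nat_lit 313) (nat_lit 260) (nat_lit 207))))))) (XT.nd (nat_lit 780) (nat_lit 304) (nat_lit 0) (XT.nd (nat_lit 390) (nat_lit 304) (nat_lit 0) (XT.nd (nat_lit 156) (nat_lit 76) (nat_lit 0) (XT.nd (nat_lit 78) (nat_lit 152) (nat_lit 0) (XT.lf (nat_lit 0) (nat_lit 2599235896) (nat_lit 152) (nat_lit 423426063) (nat_lit 76) (nat_lit 19459447379) (nat_lit 21) (nat_lit 5) (nat_lit 23) (nat_lit 5) (nat_lit 22) (nat_lit 5) (nat_lit 314) (nat_lit 260) (nat_lit 206)) (XT.lf (nat_lit 0) (nat_lit 6828777449) (nat_lit 228) (nat_lit 14194420341) (nat_lit 76) (nat_lit 2301866101)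 (nat_lit 19) (nat_lit 5) (nat_lit 22) (nat_lit 5) (nat_lit 20) (nat_lit 4) (nat_lit 315) (nat_lit 260) (nat_lit 205))) (XT.nd (nat_lit 78) (nat_lit 76) (nat_lit 0) (XT.lf (nat_lit 0) (nat_lit 11293750552) (nat_lit 228) (nat_lit 5139683963) (nat_lit 76) (nat_lit 7775558048) (nat_lit 19) (nat_lit 5) (nat_lit 22) (nat_lit 5) (nat_lit 20) (nat_lit 4) (nat_lit 316) (nat_lit 260) (nat_lit 204)) (XT.nd (nat_lit 78) (nat_lit 0) (nat_lit 0) (XT.lf (nat_lit 0) (nat_lit 4455808664) (nat_lit 76) (nat_lit 11564411454) (nat_lit 152) (nat_lit 9115008126) (nat_lit 18) (nat_lit 5) (nat_lit 19) (nat_lit 5) (nat_lit 20) (nat_lit 4) (nat_lit 317) (nat_lit 260) (nat_lit 203)) (XT.lf (nat_lit 0) (nat_lit 14655800424) (nat_lit 76) (nat_lit 6383588721) (nat_lit 152) (nat_lit 5065589637) (nat_lit 18) (nat_lit 5) (nat_lit 19) (nat_lit 5) (nat_lit 20) (nat_lit 4) (nat_lit 318) (nat_lit 260) (nat_lit 202))))) (XT.nd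 (nat_lit 156) (nat_lit 76) (nat_lit 0) (XT.nd (nat_lit 78) (nat_lit 228) (nat_lit 0) (XT.lf (nat_lit 0) (nat_lit 25314635848) (nat_lit 76) (nat_lit 965674060) (nat_lit 152) (nat_lit 844388107) (nat_lit 18) (nat_lit 5) (nat_lit 19) (nat_lit 5) (nat_lit 20) (nat_lit 4) (nat_lit 319) (nat_lit 260) (nat_lit 201)) (XT.lf (nat_lit 0) (nat_lit 3653587291) (nat_lit 228) (nat_lit 19787290340) (nat_lit 76) (nat_lit 4742716228) (nat_lit 15) (nat_lit 5) (nat_lit 18) (nat_lit 5) (nat_lit 16) (nat_lit 4) (nat_lit 320) (nat_lit 260) (nat_lit 200))) (XT.nd (nat_lit 78) (nat_lit 76) (nat_lit 0) (XT.lf (nat_lit 0) (nat_lit 8367034578) (nat_lit 228) (nat_lit 10198194636) (nat_lit 76) (nat_lit 10728583648) (nat_lit 15) (nat_lit 5) (nat_lit 18) (nat_lit 5) (nat_lit 16) (nat_lit 4) (nat_lit 321) (nat_lit 260) (nat_lit 199)) (XT.nd (nat_lit 78) (nat_lit 76) (nat_lit 0) (XT.lf (nat_lit 0) (nat_lit 13289451912)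 (nat_lit 228) (nat_lit 177211708) (nat_lit 76) (nat_lit 16994231451) (nat_lit 15) (nat_lit 5) (nat_lit 18) (nat_lit 5) (nat_lit 16) (nat_lit 4) (nat_lit 322) (nat_lit 260) (nat_lit 198)) (XT.lf (nat_lit 0) (nat_lit 10640066504) (nat_lit 76) (nat_lit 7958614085) (nat_lit 152) (nat_lit 13080632598) (nat_lit 14) (nat_lit 5) (nat_lit 15) (nat_lit 5) (nat_lit 16) (nat_lit 4) (nat_lit 323) (nat_lit 260) (nat_lit 197)))))) (XT.nd (nat_lit 390) (nat_lit 152) (nat_lit 0) (XT.nd (nat_lit 156) (nat_lit 152) (nat_lit 0) (XT.nd (nat_lit 78) (nat_lit 0) (nat_lit 0) (XT.lf (nat_lit 0) (nat_lit 21959789264) (nat_lit 76) (nat_lit 2191666923) (nat_lit 152) (nat_lit 8808307292) (nat_lit 14) (nat_lit 5) (nat_lit 15) (nat_lit 5) (nat_lit 16) (nat_lit 4) (nat_lit 324) (nat_lit 260) (nat_lit 196)) (XT.lf (nat_lit 0) (nat_lit 30018171128) (nat_lit 152) (nat_lit 562418462) (nat_lit 0) (nat_lit 3721846472) (nat_lit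 14) (nat_lit 5) (nat_lit 16) (nat_lit 4) (nat_lit 14) (nat_lit 4) (nat_lit 325) (nat_lit 260) (nat_lit 195))) (XT.nd (nat_lit 78) (nat_lit 0) (nat_lit 0) (XT.lf (nat_lit 0) (nat_lit 633493874) (nat_lit 152) (nat_lit 25052487579) (nat_lit 76) (nat_lit 10016789057) (nat_lit 12) (nat_lit 5) (nat_lit 14) (nat_lit 5) (nat_lit 13) (nat_lit 4) (nat_lit 326) (nat_lit 260) (nat_lit 194)) (XT.nd (nat_lit 78) (nat_lit 0) (nat_lit 0) (XT.lf (nat_lit 0) (nat_lit 5640039111) (nat_lit 152) (nat_lit 14841284480) (nat_lit 76) (nat_lit 16688955293) (nat_lit 12) (nat_lit 5) (nat_lit 14) (nat_lit 5) (nat_lit 13) (nat_lit 4) (nat_lit 327) (nat_lit 260) (nat_lit 193)) (XT.lf (nat_lit 0) (nat_lit 10875194379) (nat_lit 152) (nat_lit 4158944404) (nat_lit 76) (nat_lit 23678121933) (nat_lit 12) (nat_lit 5) (nat_lit 14) (nat_lit 5) (nat_lit 13) (nat_lit 4) (nat_lit 328) (nat_lit 260) (nat_lit 192))))) (XT.nd (nat_lit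 156) (nat_lit 76) (nat_lit 0) (XT.nd (nat_lit 78) (nat_lit 0) (nat_lit 0) (XT.lf (nat_lit 0) (nat_lit 7252078595) (nat_lit 76) (nat_lit 9212571010) (nat_lit 152) (nat_lit 23862076525) (nat_lit 11) (nat_lit 5) (nat_lit 12) (nat_lit 5) (nat_lit 13) (nat_lit 4) (nat_lit 329) (nat_lit 260) (nat_lit 191)) (XT.lf (nat_lit 0) (nat_lit 19341101597) (nat_lit 76) (nat_lit 3042634821) (nat_lit 152) (nat_lit 19635681502) (nat_lit 11) (nat_lit 5) (nat_lit 12) (nat_lit 5) (nat_lit 13) (nat_lit 4) (nat_lit 330) (nat_lit 260) (nat_lit 190))) (XT.nd (nat_lit 78) (nat_lit 76) (nat_lit 0) (XT.lf (nat_lit 0) (nat_lit 28632862770) (nat_lit 152) (nat_lit 11851720422) (nat_lit 0) (nat_lit 3310467369) (nat_lit 11) (nat_lit 5) (nat_lit 13) (nat_lit 4) (nat_lit 11) (nat_lit 4) (nat_lit 331) (nat_lit 260) (nat_lit 189)) (XT.nd (nat_lit 78) (nat_lit 76) (nat_lit 0) (XT.lf (nat_lit 0) (nat_lit 35225698754) (nat_lit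 152) (nat_lit 567873446) (nat_lit 0) (nat_lit 9864339988) (nat_lit 11) (nat_lit 5) (nat_lit 13) (nat_lit 4) (nat_lit 11) (nat_lit 4) (nat_lit 332) (nat_lit 260) (nat_lit 188)) (XT.lf (nat_lit 0) (nat_lit 11619491248) (nat_lit 76) (nat_lit 30692359117) (nat_lit 76) (nat_lit 5293892384) (nat_lit 10) (nat_lit 4) (nat_lit 11) (nat_lit 5) (nat_lit 11) (nat_lit 4) (nat_lit 333) (nat_lit 260) (nat_lit 187))))))))
noncomputable def xc107 : XT := (XT.nd (nat_lit 1560) (nat_lit 228) (nat_lit 0) (XT.nd (nat_lit 780) (nat_lit 152) (nat_lit 0) (XT.nd (nat_lit 390) (nat_lit 76) (nat_lit 0) (XT.nd (nat_lit 156) (nat_lit 76) (nat_lit 0) (XT.nd (nat_lit 78) (nat_lit 0) (nat_lit 0) (XT.lf (nat_lit 0) (nat_lit 90187368) (nat_lit 152) (nat_lit 25248923547) (nat_lit 76) (nat_lit 24312179149) (nat_lit 9) (nat_lit 5) (nat_lit 11) (nat_lit 5) (nat_lit 10) (nat_lit 4) (nat_lit 334) (nat_lit 260) (nat_lit 186))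 (XT.lf (nat_lit 0) (nat_lit 5548715367) (nat_lit 152) (nat_lit 14092599170) (nat_lit 76) (nat_lit 32154311509) (nat_lit 9) (nat_lit 5) (nat_lit 11) (nat_lit 5) (nat_lit 10) (nat_lit 4) (nat_lit 335) (nat_lit 260) (nat_lit 185))) (XT.nd (nat_lit 78) (nat_lit 76) (nat_lit 0) (XT.lf (nat_lit 0) (nat_lit 11264125723) (nat_lit 152) (nat_lit 2408063196) (nat_lit 76) (nat_lit 40375799959) (nat_lit 9) (nat_lit 5) (nat_lit 11) (nat_lit 5) (nat_lit 10) (nat_lit 4) (nat_lit 336) (nat_lit 260) (nat_lit 184)) (XT.nd (nat_lit 78) (nat_lit 0) (nat_lit 0) (XT.lf (nat_lit 0) (nat_lit 10157611706) (nat_lit 76) (nat_lit 7251003636) (nat_lit 152) (nat_lit 38997196551) (nat_lit 8) (nat_lit 5) (nat_lit 9) (nat_lit 5) (nat_lit 10) (nat_lit 4) (nat_lit 337) (nat_lit 260) (nat_lit 183)) (XT.lf (nat_lit 0) (nat_lit 23407432748) (nat_lit 76) (nat_lit 478692889) (nat_lit 152) (nat_lit 34994117732) (nat_lit 8) (nat_lit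 5) (nat_lit 9) (nat_lit 5) (nat_lit 10) (nat_lit 4) (nat_lit 338) (nat_lit 260) (nat_lit 182))))) (XT.nd (nat_lit 156) (nat_lit 76) (nat_lit 0) (XT.nd (nat_lit 78) (nat_lit 0) (nat_lit 0) (XT.lf (nat_lit 0) (nat_lit 30776597620) (nat_lit 152) (nat_lit 24289149218) (nat_lit 0) (nat_lit 6408202054) (nat_lit 8) (nat_lit 5) (nat_lit 10) (nat_lit 4) (nat_lit 8) (nat_lit 4) (nat_lit 339) (nat_lit 260) (nat_lit 181)) (XT.lf (nat_lit 0) (nat_lit 38005667697) (nat_lit 152) (nat_lit 12579818731) (nat_lit 0) (nat_lit 13612155999) (nat_lit 8) (nat_lit 5) (nat_lit 10) (nat_lit 4) (nat_lit 8) (nat_lit 4) (nat_lit 340) (nat_lit 260) (nat_lit 180))) (XT.nd (nat_lit 78) (nat_lit 76) (nat_lit 0) (XT.lf (nat_lit 0) (nat_lit 45583074201) (nat_lit 152) (nat_lit 309466064) (nat_lit 0) (nat_lit 21165642377) (nat_lit 8) (nat_lit 5) (nat_lit 10) (nat_lit 4) (nat_lit 8) (nat_lit 4) (nat_lit 341) (nat_lit 260)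 (nat_lit 179)) (XT.nd (nat_lit 78) (nat_lit 0) (nat_lit 0) (XT.lf (nat_lit 0) (nat_lit 12966120745) (nat_lit 76) (nat_lit 40763175314) (nat_lit 76) (nat_lit 16322962417) (nat_lit 7) (nat_lit 4) (nat_lit 8) (nat_lit 5) (nat_lit 8) (nat_lit 4) (nat_lit 342) (nat_lit 260) (nat_lit 178)) (XT.lf (nat_lit 0) (nat_lit 26893326019) (nat_lit 76) (nat_lit 35382488766) (nat_lit 76) (nat_lit 10920579609) (nat_lit 7) (nat_lit 4) (nat_lit 8) (nat_lit 5) (nat_lit 8) (nat_lit 4) (nat_lit 343) (nat_lit 260) (nat_lit 177)))))) (XT.nd (nat_lit 390) (nat_lit 0) (nat_lit 0) (XT.nd (nat_lit 156) (nat_lit 76) (nat_lit 0) (XT.nd (nat_lit 78) (nat_lit 76) (nat_lit 0) (XT.lf (nat_lit 0) (nat_lit 41495077424) (nat_lit 76) (nat_lit 29742910418) (nat_lit 76) (nat_lit 5260338158) (nat_lit 7) (nat_lit 4) (nat_lit 8) (nat_lit 5) (nat_lit 8) (nat_lit 4) (nat_lit 344) (nat_lit 260) (nat_lit 176)) (XT.lf (nat_lit 0) (nat_lit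 649754871) (nat_lit 152) (nat_lit 23170253922) (nat_lit 76) (nat_lit 56145382250) (nat_lit 6) (nat_lit 5) (nat_lit 8) (nat_lit 5) (nat_lit 7) (nat_lit 4) (nat_lit 345) (nat_lit 260) (nat_lit 175))) (XT.nd (nat_lit 78) (nat_lit 76) (nat_lit 0) (XT.lf (nat_lit 0) (nat_lit 6667805992) (nat_lit 152) (nat_lit 10851991167) (nat_lit 76) (nat_lit 66082243251) (nat_lit 6) (nat_lit 5) (nat_lit 8) (nat_lit 5) (nat_lit 7) (nat_lit 4) (nat_lit 346) (nat_lit 260) (nat_lit 174)) (XT.nd (nat_lit 78) (nat_lit 0) (nat_lit 0) (XT.lf (nat_lit 0) (nat_lit 2131209518) (nat_lit 76) (nat_lit 10878572207) (nat_lit 152) (nat_lit 74409593791) (nat_lit 5) (nat_lit 5) (nat_lit 6) (nat_lit 5) (nat_lit 7) (nat_lit 4) (nat_lit 347) (nat_lit 260) (nat_lit 173)) (XT.lf (nat_lit 0) (nat_lit 16121449118) (nat_lit 76) (nat_lit 3721132210) (nat_lit 152) (nat_lit 71576313957) (nat_lit 5) (nat_lit 5) (nat_lit 6) (nat_lit 5)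 (nat_lit 7) (nat_lit 4) (nat_lit 348) (nat_lit 260) (nat_lit 172))))) (XT.nd (nat_lit 156) (nat_lit 0) (nat_lit 0) (XT.nd (nat_lit 78) (nat_lit 0) (nat_lit 0) (XT.lf (nat_lit 0) (nat_lit 27066547903) (nat_lit 152) (nat_lit 64884758748) (nat_lit 0) (nat_lit 3664612008) (nat_lit 5) (nat_lit 5) (nat_lit 7) (nat_lit 4) (nat_lit 5) (nat_lit 4) (nat_lit 349) (nat_lit 260) (nat_lit 171)) (XT.lf (nat_lit 0) (nat_lit 34703466602) (nat_lit 152) (nat_lit 54029896860) (nat_lit 0) (nat_lit 11286845826) (nat_lit 5) (nat_lit 5) (nat_lit 7) (nat_lit 4) (nat_lit 5) (nat_lit 4) (nat_lit 350) (nat_lit 260) (nat_lit 170))) (XT.nd (nat_lit 78) (nat_lit 0) (nat_lit 0) (XT.lf (nat_lit 0) (nat_lit 42713423265) (nat_lit 152) (nat_lit 42648918293) (nat_lit 0) (nat_lit 19282816886) (nat_lit 5) (nat_lit 5) (nat_lit 7) (nat_lit 4) (nat_lit 5) (nat_lit 4) (nat_lit 351) (nat_lit 260) (nat_lit 169)) (XT.nd (nat_lit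 78) (nat_lit 0) (nat_lit 0) (XT.lf (nat_lit 0) (nat_lit 51115489216) (nat_lit 152) (nat_lit 30714725478) (nat_lit 0) (nat_lit 27671563216) (nat_lit 5) (nat_lit 5) (nat_lit 7) (nat_lit 4) (nat_lit 5) (nat_lit 4) (nat_lit 352) (nat_lit 260) (nat_lit 168)) (XT.lf (nat_lit 0) (nat_lit 59929669375) (nat_lit 152) (nat_lit 18198903671) (nat_lit 0) (nat_lit 36473058021) (nat_lit 5) (nat_lit 5) (nat_lit 7) (nat_lit 4) (nat_lit 5) (nat_lit 4) (nat_lit 353) (nat_lit 260) (nat_lit 167))))))) (XT.nd (nat_lit 780) (nat_lit 152) (nat_lit 0) (XT.nd (nat_lit 390) (nat_lit 0) (nat_lit 0) (XT.nd (nat_lit 156) (nat_lit 0) (nat_lit 0) (XT.nd (nat_lit 78) (nat_lit 76) (nat_lit 0) (XT.lf (nat_lit 0) (nat_lit 69176949884) (nat_lit 152) (nat_lit 5071653297) (nat_lit 0) (nat_lit 45708257241) (nat_lit 5) (nat_lit 5) (nat_lit 7) (nat_lit 4) (nat_lit 5) (nat_lit 4) (nat_lit 354) (nat_lit 260) (nat_lit 166)) (XT.lf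 (nat_lit 0) (nat_lit 8985885456) (nat_lit 76) (nat_lit 70033757476) (nat_lit 76) (nat_lit 46553558844) (nat_lit 4) (nat_lit 4) (nat_lit 5) (nat_lit 5) (nat_lit 5) (nat_lit 4) (nat_lit 355) (nat_lit 260) (nat_lit 165))) (XT.nd (nat_lit 78) (nat_lit 0) (nat_lit 0) (XT.lf (nat_lit 0) (nat_lit 23908919527) (nat_lit 76) (nat_lit 65524330616) (nat_lit 76) (nat_lit 42033173898) (nat_lit 4) (nat_lit 4) (nat_lit 5) (nat_lit 5) (nat_lit 5) (nat_lit 4) (nat_lit 356) (nat_lit 260) (nat_lit 164)) (XT.nd (nat_lit 78) (nat_lit 0) (nat_lit 0) (XT.lf (nat_lit 0) (nat_lit 39565288187) (nat_lit 76) (nat_lit 60795476772) (nat_lit 76) (nat_lit 37293883782) (nat_lit 4) (nat_lit 4) (nat_lit 5) (nat_lit 5) (nat_lit 5) (nat_lit 4) (nat_lit 357) (nat_lit 260) (nat_lit 163)) (XT.lf (nat_lit 0) (nat_lit 55992268505) (nat_lit 76) (nat_lit 55835936768) (nat_lit 76) (nat_lit 32324404472) (nat_lit 4) (nat_lit 4) (nat_lit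 5) (nat_lit 5) (nat_lit 5) (nat_lit 4) (nat_lit 358) (nat_lit 260) (nat_lit 162))))) (XT.nd (nat_lit 156) (nat_lit 0) (nat_lit 0) (XT.nd (nat_lit 78) (nat_lit 0) (nat_lit 0) (XT.lf (nat_lit 0) (nat_lit 73228972338) (nat_lit 76) (nat_lit 50633902176) (nat_lit 76) (nat_lit 27112903874) (nat_lit 4) (nat_lit 4) (nat_lit 5) (nat_lit 5) (nat_lit 5) (nat_lit 4) (nat_lit 359) (nat_lit 260) (nat_lit 161)) (XT.lf (nat_lit 0) (nat_lit 91316439456) (nat_lit 76) (nat_lit 45176987199) (nat_lit 76) (nat_lit 21646973653) (nat_lit 4) (nat_lit 4) (nat_lit 5) (nat_lit 5) (nat_lit 5) (nat_lit 4) (nat_lit 360) (nat_lit 260) (nat_lit 160))) (XT.nd (nat_lit 78) (nat_lit 0) (nat_lit 0) (XT.lf (nat_lit 0) (nat_lit 110297735259) (nat_lit 76) (nat_lit 39452199183) (nat_lit 76) (nat_lit 15913599690) (nat_lit 4) (nat_lit 4) (nat_lit 5) (nat_lit 5) (nat_lit 5) (nat_lit 4) (nat_lit 361) (nat_lit 260) (nat_lit 159))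 (XT.nd (nat_lit 78) (nat_lit 0) (nat_lit 0) (XT.lf (nat_lit 0) (nat_lit 130218053308) (nat_lit 76) (nat_lit 33445907679) (nat_lit 76) (nat_lit 9899131094) (nat_lit 4) (nat_lit 4) (nat_lit 5) (nat_lit 5) (nat_lit 5) (nat_lit 4) (nat_lit 362) (nat_lit 260) (nat_lit 158)) (XT.lf (nat_lit 0) (nat_lit 151124822931) (nat_lit 76) (nat_lit 27143811994) (nat_lit 76) (nat_lit 3589247702) (nat_lit 4) (nat_lit 4) (nat_lit 5) (nat_lit 5) (nat_lit 5) (nat_lit 4) (nat_lit 363) (nat_lit 260) (nat_lit 157)))))) (XT.nd (nat_lit 390) (nat_lit 0) (nat_lit 0) (XT.nd (nat_lit 156) (nat_lit 76) (nat_lit 0) (XT.nd (nat_lit 78) (nat_lit 0) (nat_lit 0) (XT.lf (nat_lit 0) (nat_lit 2934060719) (nat_lit 152) (nat_lit 17547156681) (nat_lit 76) (nat_lit 170084071694) (nat_lit 3) (nat_lit 5) (nat_lit 5) (nat_lit 5) (nat_lit 4) (nat_lit 4) (nat_lit 364) (nat_lit 260) (nat_lit 156)) (XT.lf (nat_lit 0) (nat_lit 9658251328)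 (nat_lit 152) (nat_lit 3769629611) (nat_lit 76) (nat_lit 186277477716) (nat_lit 3) (nat_lit 5) (nat_lit 5) (nat_lit 5) (nat_lit 4) (nat_lit 4) (nat_lit 365) (nat_lit 260) (nat_lit 155))) (XT.nd (nat_lit 78) (nat_lit 0) (nat_lit 0) (XT.lf (nat_lit 0) (nat_lit 11041768926) (nat_lit 76) (nat_lit 5844836476) (nat_lit 152) (nat_lit 192407430244) (nat_lit 2) (nat_lit 5) (nat_lit 3) (nat_lit 5) (nat_lit 4) (nat_lit 4) (nat_lit 366) (nat_lit 260) (nat_lit 154)) (XT.nd (nat_lit 78) (nat_lit 0) (nat_lit 0) (XT.lf (nat_lit 0) (nat_lit 24569904169) (nat_lit 152) (nat_lit 192676881572) (nat_lit 0) (nat_lit 2110685965) (nat_lit 2) (nat_lit 5) (nat_lit 4) (nat_lit 4) (nat_lit 2) (nat_lit 4) (nat_lit 367) (nat_lit 260) (nat_lit 153)) (XT.lf (nat_lit 0) (nat_lit 32728977243) (nat_lit 152) (nat_lit 186926575620) (nat_lit 0) (nat_lit 10263947732) (nat_lit 2) (nat_lit 5) (nat_lit 4) (nat_lit 4) (nat_lit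 2) (nat_lit 4) (nat_lit 368) (nat_lit 260) (nat_lit 152))))) (XT.nd (nat_lit 234) (nat_lit 0) (nat_lit 0) (XT.nd (nat_lit 78) (nat_lit 0) (nat_lit 0) (XT.lf (nat_lit 0) (nat_lit 41291996711) (nat_lit 152) (nat_lit 180896403383) (nat_lit 0) (nat_lit 18821432622) (nat_lit 2) (nat_lit 5) (nat_lit 4) (nat_lit 4) (nat_lit 2) (nat_lit 4) (nat_lit 369) (nat_lit 260) (nat_lit 151)) (XT.nd (nat_lit 78) (nat_lit 0) (nat_lit 0) (XT.lf (nat_lit 0) (nat_lit 50279350713) (nat_lit 152) (nat_lit 174572007308) (nat_lit 0) (nat_lit 27803515598) (nat_lit 2) (nat_lit 5) (nat_lit 4) (nat_lit 4) (nat_lit 2) (nat_lit 4) (nat_lit 370) (nat_lit 260) (nat_lit 150)) (XT.lf (nat_lit 0) (nat_lit 59712437713) (nat_lit 152) (nat_lit 167938329309) (nat_lit 0) (nat_lit 37231582572) (nat_lit 2) (nat_lit 5) (nat_lit 4) (nat_lit 4) (nat_lit 2) (nat_lit 4) (nat_lit 371) (nat_lit 260) (nat_lit 149)))) (XT.nd (nat_lit 78)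 (nat_lit 0) (nat_lit 0) (XT.lf (nat_lit 0) (nat_lit 69613717440) (nat_lit 152) (nat_lit 160979574915) (nat_lit 0) (nat_lit 47128081323) (nat_lit 2) (nat_lit 5) (nat_lit 4) (nat_lit 4) (nat_lit 2) (nat_lit 4) (nat_lit 372) (nat_lit 260) (nat_lit 148)) (XT.nd (nat_lit 78) (nat_lit 0) (nat_lit 0) (XT.lf (nat_lit 0) (nat_lit 80006764371) (nat_lit 152) (nat_lit 153679175663) (nat_lit 0) (nat_lit 57516574943) (nat_lit 2) (nat_lit 5) (nat_lit 4) (nat_lit 4) (nat_lit 2) (nat_lit 4) (nat_lit 373) (nat_lit 260) (nat_lit 147)) (XT.lf (nat_lit 0) (nat_lit 90916323855) (nat_lit 152) (nat_lit 146019749649) (nat_lit 0) (nat_lit 68421797941) (nat_lit 2) (nat_lit 5) (nat_lit 4) (nat_lit 4) (nat_lit 2) (nat_lit 4) (nat_lit 374) (nat_lit 260) (nat_lit 146))))))))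
noncomputable def xc108 : XT := (XT.nd (nat_lit 32292) (nat_lit 0) (nat_lit 4408) (XT.nd (nat_lit 780) (nat_lit 0) (nat_lit 0) (XT.nd (nat_lit 390) (nat_lit 0) (nat_lit 0) (XT.nd (nat_lit 156) (nat_lit 0) (nat_lit 0) (XT.nd (nat_lit 78) (nat_lit 0) (nat_lit 0) (XT.lf (nat_lit 0) (nat_lit 102368371034) (nat_lit 152) (nat_lit 137983060146) (nat_lit 0) (nat_lit 79869715133) (nat_lit 2) (nat_lit 5) (nat_lit 4) (nat_lit 4) (nat_lit 2) (nat_lit 4) (nat_lit 375) (nat_lit 260) (nat_lit 145)) (XT.lf (nat_lit 0) (nat_lit 114390172687) (nat_lit 152) (nat_lit 129549972178) (nat_lit 0) (nat_lit 91887583465) (nat_lit 2) (nat_lit 5) (nat_lit 4) (nat_lit 4) (nat_lit 2) (nat_lit 4) (nat_lit 376) (nat_lit 260) (nat_lit 144))) (XT.nd (nat_lit 78) (nat_lit 0) (nat_lit 0) (XT.lf (nat_lit 0) (nat_lit 127010352152) (nat_lit 152) (nat_lit 120700406964) (nat_lit 0) (nat_lit 104504016910) (nat_lit 2) (nat_lit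 5) (nat_lit 4) (nat_lit 4) (nat_lit 2) (nat_lit 4) (nat_lit 377) (nat_lit 260) (nat_lit 143)) (XT.nd (nat_lit 78) (nat_lit 0) (nat_lit 0) (XT.lf (nat_lit 0) (nat_lit 140258957474) (nat_lit 152) (nat_lit 111413294111) (nat_lit 0) (nat_lit 117749054593) (nat_lit 2) (nat_lit 5) (nat_lit 4) (nat_lit 4) (nat_lit 2) (nat_lit 4) (nat_lit 378) (nat_lit 260) (nat_lit 142)) (XT.lf (nat_lit 0) (nat_lit 154167532951) (nat_lit 152) (nat_lit 101666521446) (nat_lit 0) (nat_lit 131654232320) (nat_lit 2) (nat_lit 5) (nat_lit 4) (nat_lit 4) (nat_lit 2) (nat_lit 4) (nat_lit 379) (nat_lit 260) (nat_lit 141))))) (XT.nd (nat_lit 156) (nat_lit 0) (nat_lit 0) (XT.nd (nat_lit 78) (nat_lit 0) (nat_lit 0) (XT.lf (nat_lit 0) (nat_lit 168769194241) (nat_lit 152) (nat_lit 91436882366) (nat_lit 0) (nat_lit 146252657657) (nat_lit 2) (nat_lit 5) (nat_lit 4) (nat_lit 4) (nat_lit 2) (nat_lit 4) (nat_lit 380) (nat_lit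 260) (nat_lit 140)) (XT.lf (nat_lit 0) (nat_lit 184098707203) (nat_lit 152) (nat_lit 80700020589) (nat_lit 0) (nat_lit 161579088759) (nat_lit 2) (nat_lit 5) (nat_lit 4) (nat_lit 4) (nat_lit 2) (nat_lit 4) (nat_lit 381) (nat_lit 260) (nat_lit 139))) (XT.nd (nat_lit 78) (nat_lit 0) (nat_lit 0) (XT.lf (nat_lit 0) (nat_lit 200192570677) (nat_lit 152) (nat_lit 69430372158) (nat_lit 0) (nat_lit 177670017128) (nat_lit 2) (nat_lit 5) (nat_lit 4) (nat_lit 4) (nat_lit 2) (nat_lit 4) (nat_lit 382) (nat_lit 260) (nat_lit 138)) (XT.nd (nat_lit 78) (nat_lit 0) (nat_lit 0) (XT.lf (nat_lit 0) (nat_lit 217089103386) (nat_lit 152) (nat_lit 57601104576) (nat_lit 0) (nat_lit 194563754500) (nat_lit 2) (nat_lit 5) (nat_lit 4) (nat_lit 4) (nat_lit 2) (nat_lit 4) (nat_lit 383) (nat_lit 260) (nat_lit 137)) (XT.lf (nat_lit 0) (nat_lit 234828535170) (nat_lit 152) (nat_lit 45184052921) (nat_lit 0) (nat_lit 212300524057)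 (nat_lit 2) (nat_lit 5) (nat_lit 4) (nat_lit 4) (nat_lit 2) (nat_lit 4) (nat_lit 384) (nat_lit 260) (nat_lit 136)))))) (XT.nd (nat_lit 31122) (nat_lit 0) (nat_lit 9652) (XT.nd (nat_lit 156) (nat_lit 0) (nat_lit 0) (XT.nd (nat_lit 78) (nat_lit 0) (nat_lit 0) (XT.lf (nat_lit 0) (nat_lit 253453102771) (nat_lit 152) (nat_lit 32149652785) (nat_lit 0) (nat_lit 230922556205) (nat_lit 2) (nat_lit 5) (nat_lit 4) (nat_lit 4) (nat_lit 2) (nat_lit 4) (nat_lit 385) (nat_lit 260) (nat_lit 135)) (XT.lf (nat_lit 0) (nat_lit 273007150398) (nat_lit 152) (nat_lit 18466869880) (nat_lit 0) (nat_lit 250474189114) (nat_lit 2) (nat_lit 5) (nat_lit 4) (nat_lit 4) (nat_lit 2) (nat_lit 4) (nat_lit 386) (nat_lit 260) (nat_lit 134))) (XT.nd (nat_lit 30810) (nat_lit 0) (nat_lit 10108) (XT.lf (nat_lit 0) (nat_lit 293537235307) (nat_lit 152) (nat_lit 4103126152) (nat_lit 0) (nat_lit 271001974291) (nat_lit 2) (nat_lit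 5) (nat_lit 4) (nat_lit 4) (nat_lit 2) (nat_lit 4) (nat_lit 387) (nat_lit 260) (nat_lit 133)) (XT.nd (nat_lit 78) (nat_lit 228) (nat_lit 0) (XT.lf (nat_lit 0) (nat_lit 1450701900) (nat_lit 0) (nat_lit 1450701900) (nat_lit 76) (nat_lit 325066815) (nat_lit 138) (nat_lit 5) (nat_lit 138) (nat_lit 3) (nat_lit 139) (nat_lit 0) (nat_lit 261) (nat_lit 261) (nat_lit 258)) (XT.lf (nat_lit 0) (nat_lit 2081750345) (nat_lit 228) (nat_lit 542230601) (nat_lit 228) (nat_lit 3845033608) (nat_lit 135) (nat_lit 3) (nat_lit 138) (nat_lit 3) (nat_lit 138) (nat_lit 5) (nat_lit 262) (nat_lit 261) (nat_lit 257))))) (XT.nd (nat_lit 156) (nat_lit 228) (nat_lit 0) (XT.nd (nat_lit 78) (nat_lit 228) (nat_lit 0) (XT.lf (nat_lit 76) (nat_lit 2598098545) (nat_lit 0) (nat_lit 2196295001) (nat_lit 228) (nat_lit 1698268050) (nat_lit 136) (nat_lit 5) (nat_lit 135) (nat_lit 3) (nat_lit 138) (nat_lit 5) (nat_lit 263) (nat_lit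 261) (nat_lit 256)) (XT.lf (nat_lit 0) (nat_lit 927543598) (nat_lit 228) (nat_lit 717138018) (nat_lit 304) (nat_lit 4880559612) (nat_lit 132) (nat_lit 5) (nat_lit 135) (nat_lit 3) (nat_lit 136) (nat_lit 5) (nat_lit 264) (nat_lit 261) (nat_lit 255))) (XT.nd (nat_lit 78) (nat_lit 228) (nat_lit 0) (XT.lf (nat_lit 76) (nat_lit 2581899844) (nat_lit 0) (nat_lit 923169377) (nat_lit 304) (nat_lit 3059635223) (nat_lit 133) (nat_lit 5) (nat_lit 132) (nat_lit 5) (nat_lit 136) (nat_lit 5) (nat_lit 265) (nat_lit 261) (nat_lit 254)) (XT.nd (nat_lit 78) (nat_lit 228) (nat_lit 0) (XT.lf (nat_lit 76) (nat_lit 5980216888) (nat_lit 0) (nat_lit 86923971) (nat_lit 304) (nat_lit 546713089) (nat_lit 133) (nat_lit 5) (nat_lit 132) (nat_lit 5) (nat_lit 136) (nat_lit 5) (nat_lit 266) (nat_lit 261) (nat_lit 253)) (XT.lf (nat_lit 0) (nat_lit 1932027672) (nat_lit 304) (nat_lit 3834396561) (nat_lit 76) (nat_lit 902497904)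 (nat_lit 129) (nat_lit 5) (nat_lit 133) (nat_lit 5) (nat_lit 130) (nat_lit 5) (nat_lit 267) (nat_lit 261) (nat_lit 252))))))) (XT.nd (nat_lit 780) (nat_lit 2052) (nat_lit 0) (XT.nd (nat_lit 390) (nat_lit 1900) (nat_lit 0) (XT.nd (nat_lit 156) (nat_lit 912) (nat_lit 0) (XT.nd (nat_lit 78) (nat_lit 380) (nat_lit 0) (XT.lf (nat_lit 0) (nat_lit 4383436582) (nat_lit 304) (nat_lit 337533215) (nat_lit 76) (nat_lit 2012399592) (nat_lit 129) (nat_lit 5) (nat_lit 133) (nat_lit 5) (nat_lit 130) (nat_lit 5) (nat_lit 268) (nat_lit 261) (nat_lit 251)) (XT.lf (nat_lit 0) (nat_lit 63512137) (nat_lit 380) (nat_lit 3459621450) (nat_lit 76) (nat_lit 3282565439) (nat_lit 124) (nat_lit 5) (nat_lit 129) (nat_lit 5) (nat_lit 125) (nat_lit 5) (nat_lit 269) (nat_lit 261) (nat_lit 250))) (XT.nd (nat_lit 78) (nat_lit 532) (nat_lit 0) (XT.lf (nat_lit 0) (nat_lit 215002331) (nat_lit 380) (nat_lit 2177088885) (nat_lit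 456) (nat_lit 4494326584) (nat_lit 119) (nat_lit 5) (nat_lit 124) (nat_lit 5) (nat_lit 125) (nat_lit 5) (nat_lit 270) (nat_lit 261) (nat_lit 249)) (XT.nd (nat_lit 78) (nat_lit 532) (nat_lit 0) (XT.lf (nat_lit 0) (nat_lit 4097550110) (nat_lit 380) (nat_lit 667373630) (nat_lit 456) (nat_lit 2210210481) (nat_lit 119) (nat_lit 5) (nat_lit 124) (nat_lit 5) (nat_lit 125) (nat_lit 5) (nat_lit 271) (nat_lit 261) (nat_lit 248)) (XT.lf (nat_lit 0) (nat_lit 86557814) (nat_lit 532) (nat_lit 6048685570) (nat_lit 76) (nat_lit 937992997) (nat_lit 112) (nat_lit 5) (nat_lit 119) (nat_lit 5) (nat_lit 113) (nat_lit 5) (nat_lit 272) (nat_lit 261) (nat_lit 247))))) (XT.nd (nat_lit 156) (nat_lit 1368) (nat_lit 0) (XT.nd (nat_lit 78) (nat_lit 532) (nat_lit 0) (XT.lf (nat_lit 0) (nat_lit 2362461720) (nat_lit 532) (nat_lit 2101262659) (nat_lit 76) (nat_lit 2714083761) (nat_lit 112) (nat_lit 5) (nat_lit 119)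 (nat_lit 5) (nat_lit 113) (nat_lit 5) (nat_lit 273) (nat_lit 261) (nat_lit 246)) (XT.lf (nat_lit 0) (nat_lit 2011552730) (nat_lit 532) (nat_lit 2655920756) (nat_lit 608) (nat_lit 2624659727) (nat_lit 105) (nat_lit 5) (nat_lit 112) (nat_lit 5) (nat_lit 113) (nat_lit 5) (nat_lit 274) (nat_lit 261) (nat_lit 245))) (XT.nd (nat_lit 78) (nat_lit 1368) (nat_lit 0) (XT.lf (nat_lit 0) (nat_lit 6308153277) (nat_lit 532) (nat_lit 703123209) (nat_lit 608) (nat_lit 404997555) (nat_lit 105) (nat_lit 5) (nat_lit 112) (nat_lit 5) (nat_lit 113) (nat_lit 5) (nat_lit 275) (nat_lit 261) (nat_lit 244)) (XT.nd (nat_lit 78) (nat_lit 684) (nat_lit 0) (XT.lf (nat_lit 0) (nat_lit 1828675736) (nat_lit 684) (nat_lit 4317982343) (nat_lit 76) (nat_lit 1400478378) (nat_lit 96) (nat_lit 5) (nat_lit 105) (nat_lit 5) (nat_lit 97) (nat_lit 5) (nat_lit 276) (nat_lit 261) (nat_lit 243)) (XT.lf (nat_lit 0) (nat_lit 22093867)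 (nat_lit 684) (nat_lit 4064483828) (nat_lit 760) (nat_lit 3601563434) (nat_lit 87) (nat_lit 5) (nat_lit 96) (nat_lit 5) (nat_lit 97) (nat_lit 5) (nat_lit 277) (nat_lit 261) (nat_lit 242)))))) (XT.nd (nat_lit 390) (nat_lit 1064) (nat_lit 0) (XT.nd (nat_lit 156) (nat_lit 380) (nat_lit 0) (XT.nd (nat_lit 78) (nat_lit 608) (nat_lit 0) (XT.lf (nat_lit 0) (nat_lit 4632369736) (nat_lit 684) (nat_lit 1796821966) (nat_lit 760) (nat_lit 1408640989) (nat_lit 87) (nat_lit 5) (nat_lit 96) (nat_lit 5) (nat_lit 97) (nat_lit 5) (nat_lit 278) (nat_lit 261) (nat_lit 241)) (XT.lf (nat_lit 0) (nat_lit 798868004) (nat_lit 608) (nat_lit 6594200096) (nat_lit 76) (nat_lit 604771664) (nat_lit 79) (nat_lit 5) (nat_lit 87) (nat_lit 5) (nat_lit 80) (nat_lit 5) (nat_lit 279) (nat_lit 261) (nat_lit 240))) (XT.nd (nat_lit 78) (nat_lit 380) (nat_lit 0) (XT.lf (nat_lit 0) (nat_lit 3058995788) (nat_lit 608) (nat_lit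 1961077355) (nat_lit 76) (nat_lit 3145336805) (nat_lit 79) (nat_lit 5) (nat_lit 87) (nat_lit 5) (nat_lit 80) (nat_lit 5) (nat_lit 280) (nat_lit 261) (nat_lit 239)) (XT.nd (nat_lit 78) (nat_lit 0) (nat_lit 0) (XT.lf (nat_lit 0) (nat_lit 2902317799) (nat_lit 380) (nat_lit 2484602444) (nat_lit 456) (nat_lit 2956886052) (nat_lit 74) (nat_lit 5) (nat_lit 79) (nat_lit 5) (nat_lit 80) (nat_lit 5) (nat_lit 281) (nat_lit 261) (nat_lit 238)) (XT.lf (nat_lit 0) (nat_lit 7780030527) (nat_lit 456) (nat_lit 553050100) (nat_lit 76) (nat_lit 200780607) (nat_lit 74) (nat_lit 5) (nat_lit 80) (nat_lit 5) (nat_lit 75) (nat_lit 5) (nat_lit 282) (nat_lit 261) (nat_lit 237))))) (XT.nd (nat_lit 156) (nat_lit 380) (nat_lit 0) (XT.nd (nat_lit 78) (nat_lit 304) (nat_lit 0) (XT.lf (nat_lit 0) (nat_lit 1538663256) (nat_lit 380) (nat_lit 4163468870) (nat_lit 76) (nat_lit 3028771381) (nat_lit 69) (nat_lit 5) (nat_lit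 74) (nat_lit 5) (nat_lit 70) (nat_lit 5) (nat_lit 283) (nat_lit 261) (nat_lit 236)) (XT.lf (nat_lit 0) (nat_lit 949705098) (nat_lit 304) (nat_lit 2912600557) (nat_lit 380) (nat_lit 5077935460) (nat_lit 65) (nat_lit 5) (nat_lit 69) (nat_lit 5) (nat_lit 70) (nat_lit 5) (nat_lit 284) (nat_lit 261) (nat_lit 235))) (XT.nd (nat_lit 78) (nat_lit 380) (nat_lit 0) (XT.lf (nat_lit 0) (nat_lit 6293852230) (nat_lit 380) (nat_lit 2791278959) (nat_lit 76) (nat_lit 75474962) (nat_lit 65) (nat_lit 5) (nat_lit 70) (nat_lit 5) (nat_lit 66) (nat_lit 5) (nat_lit 285) (nat_lit 261) (nat_lit 234)) (XT.nd (nat_lit 78) (nat_lit 76) (nat_lit 0) (XT.lf (nat_lit 0) (nat_lit 2611953363) (nat_lit 304) (nat_lit 6247168918) (nat_lit 380) (nat_lit 532399518) (nat_lit 61) (nat_lit 5) (nat_lit 65) (nat_lit 5) (nat_lit 66) (nat_lit 5) (nat_lit 286) (nat_lit 261) (nat_lit 233)) (XT.lf (nat_lit 0) (nat_lit 1829810446) (nat_lit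 380) (nat_lit 1373076859) (nat_lit 76) (nat_lit 6431097447) (nat_lit 60) (nat_lit 5) (nat_lit 65) (nat_lit 5) (nat_lit 61) (nat_lit 5) (nat_lit 287) (nat_lit 261) (nat_lit 232))))))))
noncomputable def xc109 : XT := (XT.nd (nat_lit 1560) (nat_lit 1140) (nat_lit 0) (XT.nd (nat_lit 780) (nat_lit 988) (nat_lit 0) (XT.nd (nat_lit 390) (nat_lit 684) (nat_lit 0) (XT.nd (nat_lit 156) (nat_lit 304) (nat_lit 0) (XT.nd (nat_lit 78) (nat_lit 228) (nat_lit 0) (XT.lf (nat_lit 0) (nat_lit 4289076429) (nat_lit 380) (nat_lit 5543810611) (nat_lit 76) (nat_lit 55526189) (nat_lit 56) (nat_lit 5) (nat_lit 61) (nat_lit 5) (nat_lit 57) (nat_lit 5) (nat_lit 288) (nat_lit 261) (nat_lit 231)) (XT.lf (nat_lit 0) (nat_lit 101329621) (nat_lit 228) (nat_lit 6777589238) (nat_lit 304) (nat_lit 3276378518) (nat_lit 53) (nat_lit 5) (nat_lit 56) (nat_lit 5) (nat_lit 57) (nat_lit 5) (nat_lit 289) (nat_lit 261) (nat_lit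 230))) (XT.nd (nat_lit 78) (nat_lit 304) (nat_lit 0) (XT.lf (nat_lit 0) (nat_lit 6132192757) (nat_lit 228) (nat_lit 3491786598) (nat_lit 304) (nat_lit 810369514) (nat_lit 53) (nat_lit 5) (nat_lit 56) (nat_lit 5) (nat_lit 57) (nat_lit 5) (nat_lit 290) (nat_lit 261) (nat_lit 229)) (XT.nd (nat_lit 78) (nat_lit 0) (nat_lit 0) (XT.lf (nat_lit 0) (nat_lit 1676067863) (nat_lit 228) (nat_lit 6022530) (nat_lit 304) (nat_lit 9045968708) (nat_lit 49) (nat_lit 5) (nat_lit 52) (nat_lit 5) (nat_lit 53) (nat_lit 5) (nat_lit 291) (nat_lit 261) (nat_lit 228)) (XT.lf (nat_lit 0) (nat_lit 4338438076) (nat_lit 304) (nat_lit 3090395523) (nat_lit 76) (nat_lit 3603726614) (nat_lit 49) (nat_lit 5) (nat_lit 53) (nat_lit 5) (nat_lit 50) (nat_lit 5) (nat_lit 292) (nat_lit 261) (nat_lit 227))))) (XT.nd (nat_lit 156) (nat_lit 456) (nat_lit 0) (XT.nd (nat_lit 78) (nat_lit 0) (nat_lit 0) (XT.lf (nat_lit 0) (nat_lit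 3186779013) (nat_lit 228) (nat_lit 3929149181) (nat_lit 304) (nat_lit 4237031967) (nat_lit 46) (nat_lit 5) (nat_lit 49) (nat_lit 5) (nat_lit 50) (nat_lit 5) (nat_lit 293) (nat_lit 261) (nat_lit 226)) (XT.lf (nat_lit 0) (nat_lit 9802066044) (nat_lit 228) (nat_lit 222669350) (nat_lit 304) (nat_lit 1665108326) (nat_lit 46) (nat_lit 5) (nat_lit 49) (nat_lit 5) (nat_lit 50) (nat_lit 5) (nat_lit 294) (nat_lit 261) (nat_lit 225))) (XT.nd (nat_lit 78) (nat_lit 152) (nat_lit 0) (XT.lf (nat_lit 0) (nat_lit 1076935560) (nat_lit 304) (nat_lit 7340800038) (nat_lit 76) (nat_lit 3621372163) (nat_lit 42) (nat_lit 5) (nat_lit 46) (nat_lit 5) (nat_lit 43) (nat_lit 5) (nat_lit 295) (nat_lit 261) (nat_lit 224)) (XT.nd (nat_lit 78) (nat_lit 152) (nat_lit 0) (XT.lf (nat_lit 0) (nat_lit 3879367481) (nat_lit 304) (nat_lit 838782413) (nat_lit 76) (nat_lit 7687432117) (nat_lit 42) (nat_lit 5) (nat_lit 46) (nat_lit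 5) (nat_lit 43) (nat_lit 5) (nat_lit 296) (nat_lit 261) (nat_lit 223)) (XT.lf (nat_lit 0) (nat_lit 6105353709) (nat_lit 152) (nat_lit 757698061) (nat_lit 228) (nat_lit 5925342206) (nat_lit 40) (nat_lit 5) (nat_lit 42) (nat_lit 5) (nat_lit 43) (nat_lit 5) (nat_lit 297) (nat_lit 261) (nat_lit 222)))))) (XT.nd (nat_lit 390) (nat_lit 380) (nat_lit 0) (XT.nd (nat_lit 156) (nat_lit 380) (nat_lit 0) (XT.nd (nat_lit 78) (nat_lit 0) (nat_lit 0) (XT.lf (nat_lit 0) (nat_lit 106815463) (nat_lit 228) (nat_lit 9905112050) (nat_lit 304) (nat_lit 3177685847) (nat_lit 37) (nat_lit 5) (nat_lit 40) (nat_lit 5) (nat_lit 41) (nat_lit 5) (nat_lit 298) (nat_lit 261) (nat_lit 221)) (XT.lf (nat_lit 0) (nat_lit 7377177844) (nat_lit 228) (nat_lit 6014589036) (nat_lit 304) (nat_lit 215514824) (nat_lit 37) (nat_lit 5) (nat_lit 40) (nat_lit 5) (nat_lit 41) (nat_lit 5) (nat_lit 299) (nat_lit 261) (nat_lit 220))) (XT.nd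 (nat_lit 78) (nat_lit 152) (nat_lit 0) (XT.lf (nat_lit 0) (nat_lit 871759061) (nat_lit 152) (nat_lit 1893685667) (nat_lit 228) (nat_lit 11280020476) (nat_lit 34) (nat_lit 5) (nat_lit 36) (nat_lit 5) (nat_lit 37) (nat_lit 5) (nat_lit 300) (nat_lit 261) (nat_lit 219)) (XT.nd (nat_lit 78) (nat_lit 152) (nat_lit 0) (XT.lf (nat_lit 0) (nat_lit 5983979054) (nat_lit 228) (nat_lit 6075572334) (nat_lit 76) (nat_lit 2441096637) (nat_lit 34) (nat_lit 5) (nat_lit 37) (nat_lit 5) (nat_lit 35) (nat_lit 5) (nat_lit 301) (nat_lit 261) (nat_lit 218)) (XT.lf (nat_lit 0) (nat_lit 1315138240) (nat_lit 152) (nat_lit 8052774075) (nat_lit 228) (nat_lit 5610506699) (nat_lit 32) (nat_lit 5) (nat_lit 34) (nat_lit 5) (nat_lit 35) (nat_lit 5) (nat_lit 302) (nat_lit 261) (nat_lit 217))))) (XT.nd (nat_lit 156) (nat_lit 152) (nat_lit 0) (XT.nd (nat_lit 78) (nat_lit 228) (nat_lit 0) (XT.lf (nat_lit 0) (nat_lit 9214119487)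 (nat_lit 152) (nat_lit 3763826628) (nat_lit 228) (nat_lit 2499337377) (nat_lit 32) (nat_lit 5) (nat_lit 34) (nat_lit 5) (nat_lit 35) (nat_lit 5) (nat_lit 303) (nat_lit 261) (nat_lit 216)) (XT.lf (nat_lit 0) (nat_lit 732963411) (nat_lit 228) (nat_lit 14541526750) (nat_lit 76) (nat_lit 726540735) (nat_lit 29) (nat_lit 5) (nat_lit 32) (nat_lit 5) (nat_lit 30) (nat_lit 5) (nat_lit 304) (nat_lit 261) (nat_lit 215))) (XT.nd (nat_lit 78) (nat_lit 152) (nat_lit 0) (XT.lf (nat_lit 0) (nat_lit 4168475099) (nat_lit 228) (nat_lit 6935289139) (nat_lit 76) (nat_lit 5438916602) (nat_lit 29) (nat_lit 5) (nat_lit 32) (nat_lit 5) (nat_lit 30) (nat_lit 5) (nat_lit 305) (nat_lit 261) (nat_lit 214)) (XT.nd (nat_lit 78) (nat_lit 0) (nat_lit 0) (XT.lf (nat_lit 0) (nat_lit 1016202408) (nat_lit 152) (nat_lit 6733596537) (nat_lit 228) (nat_lit 9362953751) (nat_lit 27) (nat_lit 5) (nat_lit 29) (nat_lit 5) (nat_lit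 30) (nat_lit 5) (nat_lit 306) (nat_lit 261) (nat_lit 213)) (XT.lf (nat_lit 0) (nat_lit 9539553391) (nat_lit 152) (nat_lit 2047212606) (nat_lit 228) (nat_lit 6120772578) (nat_lit 27) (nat_lit 5) (nat_lit 29) (nat_lit 5) (nat_lit 30) (nat_lit 5) (nat_lit 307) (nat_lit 261) (nat_lit 212))))))) (XT.nd (nat_lit 780) (nat_lit 532) (nat_lit 0) (XT.nd (nat_lit 390) (nat_lit 304) (nat_lit 0) (XT.nd (nat_lit 156) (nat_lit 152) (nat_lit 0) (XT.nd (nat_lit 78) (nat_lit 76) (nat_lit 0) (XT.lf (nat_lit 0) (nat_lit 48776743) (nat_lit 76) (nat_lit 15573119516) (nat_lit 152) (nat_lit 2709889157) (nat_lit 26) (nat_lit 5) (nat_lit 27) (nat_lit 5) (nat_lit 28) (nat_lit 4) (nat_lit 308) (nat_lit 261) (nat_lit 211)) (XT.lf (nat_lit 0) (nat_lit 978701112) (nat_lit 152) (nat_lit 10135021951) (nat_lit 76) (nat_lit 7866122241) (nat_lit 25) (nat_lit 5) (nat_lit 27) (nat_lit 5) (nat_lit 26) (nat_lit 5) (nat_lit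 309) (nat_lit 261) (nat_lit 210))) (XT.nd (nat_lit 78) (nat_lit 152) (nat_lit 0) (XT.lf (nat_lit 0) (nat_lit 4723412773) (nat_lit 152) (nat_lit 1686163979) (nat_lit 76) (nat_lit 13250404433) (nat_lit 25) (nat_lit 5) (nat_lit 27) (nat_lit 5) (nat_lit 26) (nat_lit 5) (nat_lit 310) (nat_lit 261) (nat_lit 209)) (XT.nd (nat_lit 78) (nat_lit 0) (nat_lit 0) (XT.lf (nat_lit 0) (nat_lit 7361607965) (nat_lit 152) (nat_lit 1373222550) (nat_lit 228) (nat_lit 11635350599) (nat_lit 23) (nat_lit 5) (nat_lit 25) (nat_lit 5) (nat_lit 26) (nat_lit 5) (nat_lit 311) (nat_lit 261) (nat_lit 208)) (XT.lf (nat_lit 0) (nat_lit 13001915009) (nat_lit 228) (nat_lit 4315335288) (nat_lit 76) (nat_lit 3795915259) (nat_lit 23) (nat_lit 5) (nat_lit 26) (nat_lit 5) (nat_lit 24) (nat_lit 4) (nat_lit 312) (nat_lit 261) (nat_lit 207))))) (XT.nd (nat_lit 156) (nat_lit 228) (nat_lit 0) (XT.nd (nat_lit 78) (nat_lit 0) (nat_lit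 0) (XT.lf (nat_lit 0) (nat_lit 4889805604) (nat_lit 76) (nat_lit 12658021061) (nat_lit 152) (nat_lit 4342226827) (nat_lit 22) (nat_lit 5) (nat_lit 23) (nat_lit 5) (nat_lit 24) (nat_lit 4) (nat_lit 313) (nat_lit 261) (nat_lit 206)) (XT.lf (nat_lit 0) (nat_lit 14649186249) (nat_lit 76) (nat_lit 7712265353) (nat_lit 152) (nat_lit 342339921) (nat_lit 22) (nat_lit 5) (nat_lit 23) (nat_lit 5) (nat_lit 24) (nat_lit 4) (nat_lit 314) (nat_lit 261) (nat_lit 205))) (XT.nd (nat_lit 78) (nat_lit 0) (nat_lit 0) (XT.lf (nat_lit 0) (nat_lit 1264310749) (nat_lit 152) (nat_lit 2457860970) (nat_lit 228) (nat_lit 19833652712) (nat_lit 19) (nat_lit 5) (nat_lit 21) (nat_lit 5) (nat_lit 22) (nat_lit 5) (nat_lit 315) (nat_lit 261) (nat_lit 204)) (XT.nd (nat_lit 78) (nat_lit 0) (nat_lit 0) (XT.lf (nat_lit 0) (nat_lit 8133492747) (nat_lit 228) (nat_lit 13225034559) (nat_lit 76) (nat_lit 3083919603) (nat_lit 19)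 (nat_lit 5) (nat_lit 22) (nat_lit 5) (nat_lit 20) (nat_lit 4) (nat_lit 316) (nat_lit 261) (nat_lit 203)) (XT.lf (nat_lit 0) (nat_lit 12775844199) (nat_lit 228) (nat_lit 3797518828) (nat_lit 76) (nat_lit 8799536138) (nat_lit 19) (nat_lit 5) (nat_lit 22) (nat_lit 5) (nat_lit 20) (nat_lit 4) (nat_lit 317) (nat_lit 261) (nat_lit 202)))))) (XT.nd (nat_lit 390) (nat_lit 228) (nat_lit 0) (XT.nd (nat_lit 156) (nat_lit 228) (nat_lit 0) (XT.nd (nat_lit 78) (nat_lit 0) (nat_lit 0) (XT.lf (nat_lit 0) (nat_lit 6251955699) (nat_lit 76) (nat_lit 11467560045) (nat_lit 152) (nat_lit 8626918996) (nat_lit 18) (nat_lit 5) (nat_lit 19) (nat_lit 5) (nat_lit 20) (nat_lit 4) (nat_lit 318) (nat_lit 261) (nat_lit 201)) (XT.lf (nat_lit 0) (nat_lit 16887025304) (nat_lit 76) (nat_lit 6059842460) (nat_lit 152) (nat_lit 4419974323) (nat_lit 18) (nat_lit 5) (nat_lit 19) (nat_lit 5) (nat_lit 20) (nat_lit 4) (nat_lit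 319) (nat_lit 261) (nat_lit 200))) (XT.nd (nat_lit 78) (nat_lit 228) (nat_lit 0) (XT.lf (nat_lit 0) (nat_lit 28007448458) (nat_lit 76) (nat_lit 401647575) (nat_lit 152) (nat_lit 30517231) (nat_lit 18) (nat_lit 5) (nat_lit 19) (nat_lit 5) (nat_lit 20) (nat_lit 4) (nat_lit 320) (nat_lit 261) (nat_lit 199)) (XT.nd (nat_lit 78) (nat_lit 0) (nat_lit 0) (XT.lf (nat_lit 0) (nat_lit 4657525764) (nat_lit 228) (nat_lit 19313662324) (nat_lit 76) (nat_lit 5579995415) (nat_lit 15) (nat_lit 5) (nat_lit 18) (nat_lit 5) (nat_lit 16) (nat_lit 4) (nat_lit 321) (nat_lit 261) (nat_lit 198)) (XT.lf (nat_lit 0) (nat_lit 9567537839) (nat_lit 228) (nat_lit 9314778146) (nat_lit 76) (nat_lit 11836577951) (nat_lit 15) (nat_lit 5) (nat_lit 18) (nat_lit 5) (nat_lit 16) (nat_lit 4) (nat_lit 322) (nat_lit 261) (nat_lit 197))))) (XT.nd (nat_lit 156) (nat_lit 152) (nat_lit 0) (XT.nd (nat_lit 78) (nat_lit 0) (nat_lit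 0) (XT.lf (nat_lit 0) (nat_lit 1178628534) (nat_lit 76) (nat_lit 13538603888) (nat_lit 152) (nat_lit 17228063917) (nat_lit 14) (nat_lit 5) (nat_lit 15) (nat_lit 5) (nat_lit 16) (nat_lit 4) (nat_lit 323) (nat_lit 261) (nat_lit 196)) (XT.lf (nat_lit 0) (nat_lit 12477644323) (nat_lit 76) (nat_lit 7780788468) (nat_lit 152) (nat_lit 12967899823) (nat_lit 14) (nat_lit 5) (nat_lit 15) (nat_lit 5) (nat_lit 16) (nat_lit 4) (nat_lit 324) (nat_lit 261) (nat_lit 195))) (XT.nd (nat_lit 78) (nat_lit 152) (nat_lit 0) (XT.lf (nat_lit 0) (nat_lit 24301183007) (nat_lit 76) (nat_lit 1752910915) (nat_lit 152) (nat_lit 8518470843) (nat_lit 14) (nat_lit 5) (nat_lit 15) (nat_lit 5) (nat_lit 16) (nat_lit 4) (nat_lit 325) (nat_lit 261) (nat_lit 194)) (XT.nd (nat_lit 78) (nat_lit 76) (nat_lit 0) (XT.lf (nat_lit 0) (nat_lit 639480413) (nat_lit 76) (nat_lit 31559703391) (nat_lit 76) (nat_lit 3783955864) (nat_lit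 13) (nat_lit 4) (nat_lit 14) (nat_lit 5) (nat_lit 14) (nat_lit 4) (nat_lit 326) (nat_lit 261) (nat_lit 193)) (XT.lf (nat_lit 0) (nat_lit 1333105820) (nat_lit 152) (nat_lit 25092608819) (nat_lit 76) (nat_lit 11028422939) (nat_lit 12) (nat_lit 5) (nat_lit 14) (nat_lit 5) (nat_lit 13) (nat_lit 4) (nat_lit 327) (nat_lit 261) (nat_lit 192))))))))
noncomputable def xc110 : XT := (XT.nd (nat_lit 1560) (nat_lit 304) (nat_lit 0) (XT.nd (nat_lit 780) (nat_lit 228) (nat_lit 0) (XT.nd (nat_lit 390) (nat_lit 152) (nat_lit 0) (XT.nd (nat_lit 156) (nat_lit 76) (nat_lit 0) (XT.nd (nat_lit 78) (nat_lit 0) (nat_lit 0) (XT.lf (nat_lit 0) (nat_lit 6558171782) (nat_lit 152) (nat_lit 14428583809) (nat_lit 76) (nat_lit 18009873943) (nat_lit 12) (nat_lit 5) (nat_lit 14) (nat_lit 5) (nat_lit 13) (nat_lit 4) (nat_lit 328) (nat_lit 261) (nat_lit 191)) (XT.lf (nat_lit 0) (nat_lit 12024792875) (nat_lit 152) (nat_lit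 3267115534) (nat_lit 76) (nat_lit 25325333634) (nat_lit 12) (nat_lit 5) (nat_lit 14) (nat_lit 5) (nat_lit 13) (nat_lit 4) (nat_lit 329) (nat_lit 261) (nat_lit 190))) (XT.nd (nat_lit 78) (nat_lit 0) (nat_lit 0) (XT.lf (nat_lit 0) (nat_lit 8696720291) (nat_lit 76) (nat_lit 9185044748) (nat_lit 152) (nat_lit 24431279660) (nat_lit 11) (nat_lit 5) (nat_lit 12) (nat_lit 5) (nat_lit 13) (nat_lit 4) (nat_lit 330) (nat_lit 261) (nat_lit 189)) (XT.nd (nat_lit 78) (nat_lit 0) (nat_lit 0) (XT.lf (nat_lit 0) (nat_lit 21338668836) (nat_lit 76) (nat_lit 2729857217) (nat_lit 152) (nat_lit 20023274442) (nat_lit 11) (nat_lit 5) (nat_lit 12) (nat_lit 5) (nat_lit 13) (nat_lit 4) (nat_lit 331) (nat_lit 261) (nat_lit 188)) (XT.lf (nat_lit 0) (nat_lit 30610088147) (nat_lit 152) (nat_lit 11442552213) (nat_lit 0) (nat_lit 3904590112) (nat_lit 11) (nat_lit 5) (nat_lit 13) (nat_lit 4) (nat_lit 11) (nat_lit 4)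 (nat_lit 332) (nat_lit 261) (nat_lit 187))))) (XT.nd (nat_lit 156) (nat_lit 76) (nat_lit 0) (XT.nd (nat_lit 78) (nat_lit 0) (nat_lit 0) (XT.lf (nat_lit 0) (nat_lit 369614501) (nat_lit 76) (nat_lit 37142742041) (nat_lit 76) (nat_lit 10401903085) (nat_lit 10) (nat_lit 4) (nat_lit 11) (nat_lit 5) (nat_lit 11) (nat_lit 4) (nat_lit 333) (nat_lit 261) (nat_lit 186)) (XT.lf (nat_lit 0) (nat_lit 13139129529) (nat_lit 76) (nat_lit 31797827699) (nat_lit 76) (nat_lit 5023330723) (nat_lit 10) (nat_lit 4) (nat_lit 11) (nat_lit 5) (nat_lit 11) (nat_lit 4) (nat_lit 334) (nat_lit 261) (nat_lit 185))) (XT.nd (nat_lit 78) (nat_lit 0) (nat_lit 0) (XT.lf (nat_lit 0) (nat_lit 588148866) (nat_lit 152) (nat_lit 25600847055) (nat_lit 76) (nat_lit 25919944572) (nat_lit 9) (nat_lit 5) (nat_lit 11) (nat_lit 5) (nat_lit 10) (nat_lit 4) (nat_lit 335) (nat_lit 261) (nat_lit 184)) (XT.nd (nat_lit 78) (nat_lit 0) (nat_lit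 0) (XT.lf (nat_lit 0) (nat_lit 6296105544) (nat_lit 152) (nat_lit 13930064681) (nat_lit 76) (nat_lit 34135509432) (nat_lit 9) (nat_lit 5) (nat_lit 11) (nat_lit 5) (nat_lit 10) (nat_lit 4) (nat_lit 336) (nat_lit 261) (nat_lit 183)) (XT.lf (nat_lit 0) (nat_lit 12274907637) (nat_lit 152) (nat_lit 1702595454) (nat_lit 76) (nat_lit 42750287431) (nat_lit 9) (nat_lit 5) (nat_lit 11) (nat_lit 5) (nat_lit 10) (nat_lit 4) (nat_lit 337) (nat_lit 261) (nat_lit 182)))))) (XT.nd (nat_lit 390) (nat_lit 76) (nat_lit 0) (XT.nd (nat_lit 156) (nat_lit 76) (nat_lit 0) (XT.nd (nat_lit 78) (nat_lit 0) (nat_lit 0) (XT.lf (nat_lit 0) (nat_lit 11478042695) (nat_lit 76) (nat_lit 7239952106) (nat_lit 152) (nat_lit 40485951663) (nat_lit 8) (nat_lit 5) (nat_lit 9) (nat_lit 5) (nat_lit 10) (nat_lit 4) (nat_lit 338) (nat_lit 261) (nat_lit 181)) (XT.lf (nat_lit 0) (nat_lit 25351661912) (nat_lit 76) (nat_lit 146816379)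 (nat_lit 152) (nat_lit 36304676271) (nat_lit 8) (nat_lit 5) (nat_lit 9) (nat_lit 5) (nat_lit 10) (nat_lit 4) (nat_lit 339) (nat_lit 261) (nat_lit 180))) (XT.nd (nat_lit 78) (nat_lit 76) (nat_lit 0) (XT.lf (nat_lit 0) (nat_lit 32718857580) (nat_lit 152) (nat_lit 24751794019) (nat_lit 0) (nat_lit 7056634038) (nat_lit 8) (nat_lit 5) (nat_lit 10) (nat_lit 4) (nat_lit 8) (nat_lit 4) (nat_lit 340) (nat_lit 261) (nat_lit 179)) (XT.nd (nat_lit 78) (nat_lit 76) (nat_lit 0) (XT.lf (nat_lit 0) (nat_lit 40290170204) (nat_lit 152) (nat_lit 12492797610) (nat_lit 0) (nat_lit 14605165590) (nat_lit 8) (nat_lit 5) (nat_lit 10) (nat_lit 4) (nat_lit 8) (nat_lit 4) (nat_lit 341) (nat_lit 261) (nat_lit 178)) (XT.lf (nat_lit 0) (nat_lit 368780144) (nat_lit 76) (nat_lit 47865128433) (nat_lit 76) (nat_lit 22158427559) (nat_lit 7) (nat_lit 4) (nat_lit 8) (nat_lit 5) (nat_lit 8) (nat_lit 4) (nat_lit 342) (nat_lit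 261) (nat_lit 177))))) (XT.nd (nat_lit 156) (nat_lit 76) (nat_lit 0) (XT.nd (nat_lit 78) (nat_lit 0) (nat_lit 0) (XT.lf (nat_lit 0) (nat_lit 14285344377) (nat_lit 76) (nat_lit 42489389459) (nat_lit 76) (nat_lit 16762025481) (nat_lit 7) (nat_lit 4) (nat_lit 8) (nat_lit 5) (nat_lit 8) (nat_lit 4) (nat_lit 343) (nat_lit 261) (nat_lit 176)) (XT.lf (nat_lit 0) (nat_lit 28876961458) (nat_lit 76) (nat_lit 36854523088) (nat_lit 76) (nat_lit 11107479963) (nat_lit 7) (nat_lit 4) (nat_lit 8) (nat_lit 5) (nat_lit 8) (nat_lit 4) (nat_lit 344) (nat_lit 261) (nat_lit 175))) (XT.nd (nat_lit 78) (nat_lit 76) (nat_lit 0) (XT.lf (nat_lit 0) (nat_lit 44178373332) (nat_lit 76) (nat_lit 30947112972) (nat_lit 76) (nat_lit 5181327802) (nat_lit 7) (nat_lit 4) (nat_lit 8) (nat_lit 5) (nat_lit 8) (nat_lit 4) (nat_lit 345) (nat_lit 261) (nat_lit 174)) (XT.nd (nat_lit 78) (nat_lit 0) (nat_lit 0) (XT.lf (nat_lit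 0) (nat_lit 997557142) (nat_lit 152) (nat_lit 23738642593) (nat_lit 76) (nat_lit 59211560675) (nat_lit 6) (nat_lit 5) (nat_lit 8) (nat_lit 5) (nat_lit 7) (nat_lit 4) (nat_lit 346) (nat_lit 261) (nat_lit 173)) (XT.lf (nat_lit 0) (nat_lit 7301495843) (nat_lit 152) (nat_lit 10832567845) (nat_lit 76) (nat_lit 69632935711) (nat_lit 6) (nat_lit 5) (nat_lit 8) (nat_lit 5) (nat_lit 7) (nat_lit 4) (nat_lit 347) (nat_lit 261) (nat_lit 172))))))) (XT.nd (nat_lit 780) (nat_lit 152) (nat_lit 0) (XT.nd (nat_lit 390) (nat_lit 76) (nat_lit 0) (XT.nd (nat_lit 156) (nat_lit 0) (nat_lit 0) (XT.nd (nat_lit 78) (nat_lit 0) (nat_lit 0) (XT.lf (nat_lit 0) (nat_lit 2790727989) (nat_lit 76) (nat_lit 11164175617) (nat_lit 152) (nat_lit 77820587087) (nat_lit 5) (nat_lit 5) (nat_lit 6) (nat_lit 5) (nat_lit 7) (nat_lit 4) (nat_lit 348) (nat_lit 261) (nat_lit 171)) (XT.lf (nat_lit 0) (nat_lit 17454148236) (nat_lit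 76) (nat_lit 3661164821) (nat_lit 152) (nat_lit 74860380708) (nat_lit 5) (nat_lit 5) (nat_lit 6) (nat_lit 5) (nat_lit 7) (nat_lit 4) (nat_lit 349) (nat_lit 261) (nat_lit 170))) (XT.nd (nat_lit 78) (nat_lit 0) (nat_lit 0) (XT.lf (nat_lit 0) (nat_lit 28690774143) (nat_lit 152) (nat_lit 67617633045) (nat_lit 0) (nat_lit 4074651842) (nat_lit 5) (nat_lit 5) (nat_lit 7) (nat_lit 4) (nat_lit 5) (nat_lit 4) (nat_lit 350) (nat_lit 261) (nat_lit 169)) (XT.nd (nat_lit 78) (nat_lit 0) (nat_lit 0) (XT.lf (nat_lit 0) (nat_lit 36696638832) (nat_lit 152) (nat_lit 56244378713) (nat_lit 0) (nat_lit 12067196911) (nat_lit 5) (nat_lit 5) (nat_lit 7) (nat_lit 4) (nat_lit 5) (nat_lit 4) (nat_lit 351) (nat_lit 261) (nat_lit 168)) (XT.lf (nat_lit 0) (nat_lit 45094807666) (nat_lit 152) (nat_lit 44317542312) (nat_lit 0) (nat_lit 20452680391) (nat_lit 5) (nat_lit 5) (nat_lit 7) (nat_lit 4) (nat_lit 5) (nat_lit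 4) (nat_lit 352) (nat_lit 261) (nat_lit 167))))) (XT.nd (nat_lit 156) (nat_lit 76) (nat_lit 0) (XT.nd (nat_lit 78) (nat_lit 0) (nat_lit 0) (XT.lf (nat_lit 0) (nat_lit 53905276285) (nat_lit 152) (nat_lit 31808726614) (nat_lit 0) (nat_lit 29251067720) (nat_lit 5) (nat_lit 5) (nat_lit 7) (nat_lit 4) (nat_lit 5) (nat_lit 4) (nat_lit 353) (nat_lit 261) (nat_lit 166)) (XT.lf (nat_lit 0) (nat_lit 63149021993) (nat_lit 152) (nat_lit 18688148723) (nat_lit 0) (nat_lit 38483307439) (nat_lit 5) (nat_lit 5) (nat_lit 7) (nat_lit 4) (nat_lit 5) (nat_lit 4) (nat_lit 354) (nat_lit 261) (nat_lit 165))) (XT.nd (nat_lit 78) (nat_lit 76) (nat_lit 0) (XT.lf (nat_lit 0) (nat_lit 72848053711) (nat_lit 152) (nat_lit 4924569169) (nat_lit 0) (nat_lit 48171381072) (nat_lit 5) (nat_lit 5) (nat_lit 7) (nat_lit 4) (nat_lit 5) (nat_lit 4) (nat_lit 355) (nat_lit 261) (nat_lit 164)) (XT.nd (nat_lit 78) (nat_lit 0) (nat_lit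 0) (XT.lf (nat_lit 0) (nat_lit 9829384153) (nat_lit 76) (nat_lit 73349544450) (nat_lit 76) (nat_lit 48662435539) (nat_lit 4) (nat_lit 4) (nat_lit 5) (nat_lit 5) (nat_lit 5) (nat_lit 4) (nat_lit 356) (nat_lit 261) (nat_lit 163)) (XT.lf (nat_lit 0) (nat_lit 25479798289) (nat_lit 76) (nat_lit 68623498671) (nat_lit 76) (nat_lit 43926450453) (nat_lit 4) (nat_lit 4) (nat_lit 5) (nat_lit 5) (nat_lit 5) (nat_lit 4) (nat_lit 357) (nat_lit 261) (nat_lit 162)))))) (XT.nd (nat_lit 390) (nat_lit 152) (nat_lit 0) (XT.nd (nat_lit 156) (nat_lit 0) (nat_lit 0) (XT.nd (nat_lit 78) (nat_lit 0) (nat_lit 0) (XT.lf (nat_lit 0) (nat_lit 41901107630) (nat_lit 76) (nat_lit 63666633015) (nat_lit 76) (nat_lit 38960118791) (nat_lit 4) (nat_lit 4) (nat_lit 5) (nat_lit 5) (nat_lit 5) (nat_lit 4) (nat_lit 358) (nat_lit 261) (nat_lit 161)) (XT.lf (nat_lit 0) (nat_lit 59132410534) (nat_lit 76) (nat_lit 58467145420)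 (nat_lit 76) (nat_lit 33751615952) (nat_lit 4) (nat_lit 4) (nat_lit 5) (nat_lit 5) (nat_lit 5) (nat_lit 4) (nat_lit 359) (nat_lit 261) (nat_lit 160))) (XT.nd (nat_lit 78) (nat_lit 0) (nat_lit 0) (XT.lf (nat_lit 0) (nat_lit 77214733910) (nat_lit 76) (nat_lit 53012656155) (nat_lit 76) (nat_lit 28288540740) (nat_lit 4) (nat_lit 4) (nat_lit 5) (nat_lit 5) (nat_lit 5) (nat_lit 4) (nat_lit 360) (nat_lit 261) (nat_lit 159)) (XT.nd (nat_lit 78) (nat_lit 0) (nat_lit 0) (XT.lf (nat_lit 0) (nat_lit 96191130911) (nat_lit 76) (nat_lit 47290178340) (nat_lit 76) (nat_lit 22557885834) (nat_lit 4) (nat_lit 4) (nat_lit 5) (nat_lit 5) (nat_lit 5) (nat_lit 4) (nat_lit 361) (nat_lit 261) (nat_lit 158)) (XT.lf (nat_lit 0) (nat_lit 116106783434) (nat_lit 76) (nat_lit 41286087028) (nat_lit 76) (nat_lit 16546006815) (nat_lit 4) (nat_lit 4) (nat_lit 5) (nat_lit 5) (nat_lit 5) (nat_lit 4) (nat_lit 362) (nat_lit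 261) (nat_lit 157))))) (XT.nd (nat_lit 156) (nat_lit 152) (nat_lit 0) (XT.nd (nat_lit 78) (nat_lit 0) (nat_lit 0) (XT.lf (nat_lit 0) (nat_lit 137009109698) (nat_lit 76) (nat_lit 34986086764) (nat_lit 76) (nat_lit 10238589688) (nat_lit 4) (nat_lit 4) (nat_lit 5) (nat_lit 5) (nat_lit 5) (nat_lit 4) (nat_lit 363) (nat_lit 261) (nat_lit 156)) (XT.lf (nat_lit 0) (nat_lit 158947877149) (nat_lit 76) (nat_lit 28375177547) (nat_lit 76) (nat_lit 3620616791) (nat_lit 4) (nat_lit 4) (nat_lit 5) (nat_lit 5) (nat_lit 5) (nat_lit 4) (nat_lit 364) (nat_lit 261) (nat_lit 155))) (XT.nd (nat_lit 78) (nat_lit 76) (nat_lit 0) (XT.lf (nat_lit 0) (nat_lit 3217290789) (nat_lit 152) (nat_lit 18165841952) (nat_lit 76) (nat_lit 178703543780) (nat_lit 3) (nat_lit 5) (nat_lit 5) (nat_lit 5) (nat_lit 4) (nat_lit 4) (nat_lit 365) (nat_lit 261) (nat_lit 154)) (XT.nd (nat_lit 78) (nat_lit 76) (nat_lit 0) (XT.lf (nat_lit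 0) (nat_lit 10271189641) (nat_lit 152) (nat_lit 3711756270) (nat_lit 76) (nat_lit 195701131127) (nat_lit 3) (nat_lit 5) (nat_lit 5) (nat_lit 5) (nat_lit 4) (nat_lit 4) (nat_lit 366) (nat_lit 261) (nat_lit 153)) (XT.lf (nat_lit 0) (nat_lit 11836238729) (nat_lit 76) (nat_lit 6022315239) (nat_lit 152) (nat_lit 201893756580) (nat_lit 2) (nat_lit 5) (nat_lit 3) (nat_lit 5) (nat_lit 4) (nat_lit 4) (nat_lit 367) (nat_lit 261) (nat_lit 152))))))))
noncomputable def xc111 : XT := (XT.nd (nat_lit 32370) (nat_lit 0) (nat_lit 5472) (XT.nd (nat_lit 780) (nat_lit 0) (nat_lit 0) (XT.nd (nat_lit 390) (nat_lit 0) (nat_lit 0) (XT.nd (nat_lit 156) (nat_lit 0) (nat_lit 0) (XT.nd (nat_lit 78) (nat_lit 0) (nat_lit 0) (XT.lf (nat_lit 0) (nat_lit 25921647063) (nat_lit 152) (nat_lit 202075471875) (nat_lit 0) (nat_lit 2322020193) (nat_lit 2) (nat_lit 5) (nat_lit 4) (nat_lit 4) (nat_lit 2) (nat_lit 4) (nat_lit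 368) (nat_lit 261) (nat_lit 151)) (XT.lf (nat_lit 0) (nat_lit 34482804854) (nat_lit 152) (nat_lit 196048853187) (nat_lit 0) (nat_lit 10877906956) (nat_lit 2) (nat_lit 5) (nat_lit 4) (nat_lit 4) (nat_lit 2) (nat_lit 4) (nat_lit 369) (nat_lit 261) (nat_lit 150))) (XT.nd (nat_lit 78) (nat_lit 0) (nat_lit 0) (XT.lf (nat_lit 0) (nat_lit 43468385830) (nat_lit 152) (nat_lit 189727841444) (nat_lit 0) (nat_lit 19858467908) (nat_lit 2) (nat_lit 5) (nat_lit 4) (nat_lit 4) (nat_lit 2) (nat_lit 4) (nat_lit 370) (nat_lit 261) (nat_lit 149)) (XT.nd (nat_lit 78) (nat_lit 0) (nat_lit 0) (XT.lf (nat_lit 0) (nat_lit 52899784233) (nat_lit 152) (nat_lit 183097386618) (nat_lit 0) (nat_lit 29285085335) (nat_lit 2) (nat_lit 5) (nat_lit 4) (nat_lit 4) (nat_lit 2) (nat_lit 4) (nat_lit 371) (nat_lit 261) (nat_lit 148)) (XT.lf (nat_lit 0) (nat_lit 62799455774) (nat_lit 152) (nat_lit 176141701912) (nat_lit 0) (nat_lit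 39180203565) (nat_lit 2) (nat_lit 5) (nat_lit 4) (nat_lit 4) (nat_lit 2) (nat_lit 4) (nat_lit 372) (nat_lit 261) (nat_lit 147))))) (XT.nd (nat_lit 156) (nat_lit 0) (nat_lit 0) (XT.nd (nat_lit 78) (nat_lit 0) (nat_lit 0) (XT.lf (nat_lit 0) (nat_lit 73190971099) (nat_lit 152) (nat_lit 168844226173) (nat_lit 0) (nat_lit 49567382403) (nat_lit 2) (nat_lit 5) (nat_lit 4) (nat_lit 4) (nat_lit 2) (nat_lit 4) (nat_lit 373) (nat_lit 261) (nat_lit 146)) (XT.lf (nat_lit 0) (nat_lit 84099071910) (nat_lit 152) (nat_lit 161187584457) (nat_lit 0) (nat_lit 60471353227) (nat_lit 2) (nat_lit 5) (nat_lit 4) (nat_lit 4) (nat_lit 2) (nat_lit 4) (nat_lit 374) (nat_lit 261) (nat_lit 145))) (XT.nd (nat_lit 78) (nat_lit 0) (nat_lit 0) (XT.lf (nat_lit 0) (nat_lit 95549729877) (nat_lit 152) (nat_lit 153153546666) (nat_lit 0) (nat_lit 71918077873) (nat_lit 2) (nat_lit 5) (nat_lit 4) (nat_lit 4) (nat_lit 2) (nat_lit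 4) (nat_lit 375) (nat_lit 261) (nat_lit 144)) (XT.nd (nat_lit 78) (nat_lit 0) (nat_lit 0) (XT.lf (nat_lit 0) (nat_lit 107570208471) (nat_lit 152) (nat_lit 144722984138) (nat_lit 0) (nat_lit 83934810447) (nat_lit 2) (nat_lit 5) (nat_lit 4) (nat_lit 4) (nat_lit 2) (nat_lit 4) (nat_lit 376) (nat_lit 261) (nat_lit 143)) (XT.lf (nat_lit 0) (nat_lit 120189127879) (nat_lit 152) (nat_lit 135875824106) (nat_lit 0) (nat_lit 96550162216) (nat_lit 2) (nat_lit 5) (nat_lit 4) (nat_lit 4) (nat_lit 2) (nat_lit 4) (nat_lit 377) (nat_lit 261) (nat_lit 142)))))) (XT.nd (nat_lit 390) (nat_lit 0) (nat_lit 0) (XT.nd (nat_lit 156) (nat_lit 0) (nat_lit 0) (XT.nd (nat_lit 78) (nat_lit 0) (nat_lit 0) (XT.lf (nat_lit 0) (nat_lit 133436533147) (nat_lit 152) (nat_lit 126591001902) (nat_lit 0) (nat_lit 109794169734) (nat_lit 2) (nat_lit 5) (nat_lit 4) (nat_lit 4) (nat_lit 2) (nat_lit 4) (nat_lit 378) (nat_lit 261)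 (nat_lit 141)) (XT.lf (nat_lit 0) (nat_lit 147343965716) (nat_lit 152) (nat_lit 116846410807) (nat_lit 0) (nat_lit 123698366350) (nat_lit 2) (nat_lit 5) (nat_lit 4) (nat_lit 4) (nat_lit 2) (nat_lit 4) (nat_lit 379) (nat_lit 261) (nat_lit 140))) (XT.nd (nat_lit 78) (nat_lit 0) (nat_lit 0) (XT.lf (nat_lit 0) (nat_lit 161944538522) (nat_lit 152) (nat_lit 106618849413) (nat_lit 0) (nat_lit 138295857296) (nat_lit 2) (nat_lit 5) (nat_lit 4) (nat_lit 4) (nat_lit 2) (nat_lit 4) (nat_lit 380) (nat_lit 261) (nat_lit 139)) (XT.nd (nat_lit 78) (nat_lit 0) (nat_lit 0) (XT.lf (nat_lit 0) (nat_lit 177273014832) (nat_lit 152) (nat_lit 95883966385) (nat_lit 0) (nat_lit 153621398501) (nat_lit 2) (nat_lit 5) (nat_lit 4) (nat_lit 4) (nat_lit 2) (nat_lit 4) (nat_lit 381) (nat_lit 261) (nat_lit 138)) (XT.lf (nat_lit 0) (nat_lit 193365891019) (nat_lit 152) (nat_lit 84616202476) (nat_lit 0) (nat_lit 169711479351)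 (nat_lit 2) (nat_lit 5) (nat_lit 4) (nat_lit 4) (nat_lit 2) (nat_lit 4) (nat_lit 382) (nat_lit 261) (nat_lit 137))))) (XT.nd (nat_lit 156) (nat_lit 0) (nat_lit 0) (XT.nd (nat_lit 78) (nat_lit 0) (nat_lit 0) (XT.lf (nat_lit 0) (nat_lit 210261483455) (nat_lit 152) (nat_lit 72788729678) (nat_lit 0) (nat_lit 186604409560) (nat_lit 2) (nat_lit 5) (nat_lit 4) (nat_lit 4) (nat_lit 2) (nat_lit 4) (nat_lit 383) (nat_lit 261) (nat_lit 136)) (XT.lf (nat_lit 0) (nat_lit 228000019740) (nat_lit 152) (nat_lit 60373387340) (nat_lit 0) (nat_lit 204340410391) (nat_lit 2) (nat_lit 5) (nat_lit 4) (nat_lit 4) (nat_lit 2) (nat_lit 4) (nat_lit 384) (nat_lit 261) (nat_lit 135))) (XT.nd (nat_lit 78) (nat_lit 0) (nat_lit 0) (XT.lf (nat_lit 0) (nat_lit 246623734486) (nat_lit 152) (nat_lit 47340615125) (nat_lit 0) (nat_lit 222961710419) (nat_lit 2) (nat_lit 5) (nat_lit 4) (nat_lit 4) (nat_lit 2) (nat_lit 4) (nat_lit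 385) (nat_lit 261) (nat_lit 134)) (XT.nd (nat_lit 78) (nat_lit 0) (nat_lit 0) (XT.lf (nat_lit 0) (nat_lit 266176969869) (nat_lit 152) (nat_lit 33659382621) (nat_lit 0) (nat_lit 242512646071) (nat_lit 2) (nat_lit 5) (nat_lit 4) (nat_lit 4) (nat_lit 2) (nat_lit 4) (nat_lit 386) (nat_lit 261) (nat_lit 133)) (XT.lf (nat_lit 0) (nat_lit 286706281213) (nat_lit 152) (nat_lit 19297115466) (nat_lit 0) (nat_lit 263039767194) (nat_lit 2) (nat_lit 5) (nat_lit 4) (nat_lit 4) (nat_lit 2) (nat_lit 4) (nat_lit 387) (nat_lit 261) (nat_lit 132))))))) (XT.nd (nat_lit 780) (nat_lit 3420) (nat_lit 0) (XT.nd (nat_lit 390) (nat_lit 684) (nat_lit 0) (XT.nd (nat_lit 156) (nat_lit 304) (nat_lit 0) (XT.nd (nat_lit 78) (nat_lit 228) (nat_lit 0) (XT.lf (nat_lit 0) (nat_lit 2353839866) (nat_lit 228) (nat_lit 445363099) (nat_lit 228) (nat_lit 445363099) (nat_lit 135) (nat_lit 3) (nat_lit 138) (nat_lit 3) (nat_lit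 138) (nat_lit 5) (nat_lit 262) (nat_lit 262) (nat_lit 256)) (XT.lf (nat_lit 0) (nat_lit 789390931) (nat_lit 228) (nat_lit 4336207323) (nat_lit 304) (nat_lit 1391194821) (nat_lit 132) (nat_lit 5) (nat_lit 135) (nat_lit 3) (nat_lit 136) (nat_lit 5) (nat_lit 263) (nat_lit 262) (nat_lit 255))) (XT.nd (nat_lit 78) (nat_lit 304) (nat_lit 0) (XT.lf (nat_lit 0) (nat_lit 3281425759) (nat_lit 228) (nat_lit 1230201834) (nat_lit 304) (nat_lit 2040644822) (nat_lit 132) (nat_lit 5) (nat_lit 135) (nat_lit 3) (nat_lit 136) (nat_lit 5) (nat_lit 264) (nat_lit 262) (nat_lit 254)) (XT.nd (nat_lit 78) (nat_lit 304) (nat_lit 0) (XT.lf (nat_lit 76) (nat_lit 2007691273) (nat_lit 0) (nat_lit 3766655449) (nat_lit 304) (nat_lit 821861393) (nat_lit 133) (nat_lit 5) (nat_lit 132) (nat_lit 5) (nat_lit 136) (nat_lit 5) (nat_lit 265) (nat_lit 262) (nat_lit 253)) (XT.lf (nat_lit 0) (nat_lit 1562826487) (nat_lit 304)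 (nat_lit 1310498343) (nat_lit 380) (nat_lit 3774637894) (nat_lit 128) (nat_lit 5) (nat_lit 132) (nat_lit 5) (nat_lit 133) (nat_lit 5) (nat_lit 266) (nat_lit 262) (nat_lit 252))))) (XT.nd (nat_lit 156) (nat_lit 684) (nat_lit 0) (XT.nd (nat_lit 78) (nat_lit 0) (nat_lit 0) (XT.lf (nat_lit 76) (nat_lit 2097725368) (nat_lit 0) (nat_lit 1829464371) (nat_lit 380) (nat_lit 2780467616) (nat_lit 129) (nat_lit 5) (nat_lit 128) (nat_lit 5) (nat_lit 133) (nat_lit 5) (nat_lit 267) (nat_lit 262) (nat_lit 251)) (XT.lf (nat_lit 76) (nat_lit 5635904001) (nat_lit 0) (nat_lit 656918656) (nat_lit 380) (nat_lit 483770049) (nat_lit 129) (nat_lit 5) (nat_lit 128) (nat_lit 5) (nat_lit 133) (nat_lit 5) (nat_lit 268) (nat_lit 262) (nat_lit 250))) (XT.nd (nat_lit 78) (nat_lit 380) (nat_lit 0) (XT.lf (nat_lit 0) (nat_lit 1780312599) (nat_lit 380) (nat_lit 4399427265) (nat_lit 76) (nat_lit 672388120) (nat_lit 124)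 (nat_lit 5) (nat_lit 129) (nat_lit 5) (nat_lit 125) (nat_lit 5) (nat_lit 269) (nat_lit 262) (nat_lit 249)) (XT.nd (nat_lit 78) (nat_lit 380) (nat_lit 0) (XT.lf (nat_lit 0) (nat_lit 4042477167) (nat_lit 380) (nat_lit 776976354) (nat_lit 76) (nat_lit 2116886126) (nat_lit 124) (nat_lit 5) (nat_lit 129) (nat_lit 5) (nat_lit 125) (nat_lit 5) (nat_lit 270) (nat_lit 262) (nat_lit 248)) (XT.lf (nat_lit 0) (nat_lit 3035320130) (nat_lit 380) (nat_lit 3306706989) (nat_lit 456) (nat_lit 686857042) (nat_lit 119) (nat_lit 5) (nat_lit 124) (nat_lit 5) (nat_lit 125) (nat_lit 5) (nat_lit 271) (nat_lit 262) (nat_lit 247)))))) (XT.nd (nat_lit 390) (nat_lit 1672) (nat_lit 0) (XT.nd (nat_lit 156) (nat_lit 1216) (nat_lit 0) (XT.nd (nat_lit 78) (nat_lit 456) (nat_lit 0) (XT.lf (nat_lit 0) (nat_lit 1470823932) (nat_lit 456) (nat_lit 177165131) (nat_lit 76) (nat_lit 5482473313) (nat_lit 118) (nat_lit 5) (nat_lit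 124) (nat_lit 5) (nat_lit 119) (nat_lit 5) (nat_lit 272) (nat_lit 262) (nat_lit 246)) (XT.lf (nat_lit 0) (nat_lit 3661462882) (nat_lit 532) (nat_lit 3387434104) (nat_lit 76) (nat_lit 190542036) (nat_lit 112) (nat_lit 5) (nat_lit 119) (nat_lit 5) (nat_lit 113) (nat_lit 5) (nat_lit 273) (nat_lit 262) (nat_lit 245))) (XT.nd (nat_lit 78) (nat_lit 684) (nat_lit 0) (XT.lf (nat_lit 0) (nat_lit 636607474) (nat_lit 532) (nat_lit 5254466251) (nat_lit 608) (nat_lit 1466595310) (nat_lit 105) (nat_lit 5) (nat_lit 112) (nat_lit 5) (nat_lit 113) (nat_lit 5) (nat_lit 274) (nat_lit 262) (nat_lit 244)) (XT.nd (nat_lit 78) (nat_lit 608) (nat_lit 0) (XT.lf (nat_lit 0) (nat_lit 675932778) (nat_lit 608) (nat_lit 2606280060) (nat_lit 76) (nat_lit 4201783065) (nat_lit 104) (nat_lit 5) (nat_lit 112) (nat_lit 5) (nat_lit 105) (nat_lit 5) (nat_lit 275) (nat_lit 262) (nat_lit 243)) (XT.lf (nat_lit 0) (nat_lit 1653464391)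 (nat_lit 608) (nat_lit 1145113689) (nat_lit 684) (nat_lit 4820983884) (nat_lit 96) (nat_lit 5) (nat_lit 104) (nat_lit 5) (nat_lit 105) (nat_lit 5) (nat_lit 276) (nat_lit 262) (nat_lit 242))))) (XT.nd (nat_lit 234) (nat_lit 912) (nat_lit 0) (XT.nd (nat_lit 78) (nat_lit 760) (nat_lit 0) (XT.lf (nat_lit 0) (nat_lit 4989573644) (nat_lit 684) (nat_lit 1654518009) (nat_lit 76) (nat_lit 1119931281) (nat_lit 96) (nat_lit 5) (nat_lit 105) (nat_lit 5) (nat_lit 97) (nat_lit 5) (nat_lit 277) (nat_lit 262) (nat_lit 241)) (XT.nd (nat_lit 78) (nat_lit 76) (nat_lit 0) (XT.lf (nat_lit 0) (nat_lit 2856120664) (nat_lit 684) (nat_lit 4402314931) (nat_lit 760) (nat_lit 659072197) (nat_lit 87) (nat_lit 5) (nat_lit 96) (nat_lit 5) (nat_lit 97) (nat_lit 5) (nat_lit 278) (nat_lit 262) (nat_lit 240)) (XT.lf (nat_lit 0) (nat_lit 1446959571) (nat_lit 760) (nat_lit 543395591) (nat_lit 76) (nat_lit 6090544744) (nat_lit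 86) (nat_lit 5) (nat_lit 96) (nat_lit 5) (nat_lit 87) (nat_lit 5) (nat_lit 279) (nat_lit 262) (nat_lit 239)))) (XT.nd (nat_lit 78) (nat_lit 380) (nat_lit 0) (XT.lf (nat_lit 0) (nat_lit 3622946631) (nat_lit 608) (nat_lit 4024347692) (nat_lit 76) (nat_lit 605474104) (nat_lit 79) (nat_lit 5) (nat_lit 87) (nat_lit 5) (nat_lit 80) (nat_lit 5) (nat_lit 280) (nat_lit 262) (nat_lit 238)) (XT.nd (nat_lit 78) (nat_lit 0) (nat_lit 0) (XT.lf (nat_lit 0) (nat_lit 725579872) (nat_lit 380) (nat_lit 5149251399) (nat_lit 456) (nat_lit 2560222447) (nat_lit 74) (nat_lit 5) (nat_lit 79) (nat_lit 5) (nat_lit 80) (nat_lit 5) (nat_lit 281) (nat_lit 262) (nat_lit 237)) (XT.lf (nat_lit 0) (nat_lit 5764381568) (nat_lit 380) (nat_lit 2459596580) (nat_lit 456) (nat_lit 403411493) (nat_lit 74) (nat_lit 5) (nat_lit 79) (nat_lit 5) (nat_lit 80) (nat_lit 5) (nat_lit 282) (nat_lit 262) (nat_lit 236))))))))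
noncomputable def xc112 : XT := (XT.nd (nat_lit 1560) (nat_lit 1444) (nat_lit 0) (XT.nd (nat_lit 780) (nat_lit 1140) (nat_lit 0) (XT.nd (nat_lit 390) (nat_lit 836) (nat_lit 0) (XT.nd (nat_lit 156) (nat_lit 684) (nat_lit 0) (XT.nd (nat_lit 78) (nat_lit 0) (nat_lit 0) (XT.lf (nat_lit 0) (nat_lit 1761358541) (nat_lit 380) (nat_lit 6657505866) (nat_lit 76) (nat_lit 411194487) (nat_lit 69) (nat_lit 5) (nat_lit 74) (nat_lit 5) (nat_lit 70) (nat_lit 5) (nat_lit 283) (nat_lit 262) (nat_lit 235)) (XT.lf (nat_lit 0) (nat_lit 4031850557) (nat_lit 380) (nat_lit 1618396055) (nat_lit 76) (nat_lit 3391878946) (nat_lit 69) (nat_lit 5) (nat_lit 74) (nat_lit 5) (nat_lit 70) (nat_lit 5) (nat_lit 284) (nat_lit 262) (nat_lit 234))) (XT.nd (nat_lit 78) (nat_lit 380) (nat_lit 0) (XT.lf (nat_lit 0) (nat_lit 3706029413) (nat_lit 304) (nat_lit 2692878510) (nat_lit 380) (nat_lit 2866875261) (nat_lit 65) (nat_lit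 5) (nat_lit 69) (nat_lit 5) (nat_lit 70) (nat_lit 5) (nat_lit 285) (nat_lit 262) (nat_lit 233)) (XT.nd (nat_lit 78) (nat_lit 380) (nat_lit 0) (XT.lf (nat_lit 0) (nat_lit 8845869752) (nat_lit 380) (nat_lit 240743024) (nat_lit 76) (nat_lit 416066354) (nat_lit 65) (nat_lit 5) (nat_lit 70) (nat_lit 5) (nat_lit 66) (nat_lit 5) (nat_lit 286) (nat_lit 262) (nat_lit 232)) (XT.lf (nat_lit 0) (nat_lit 1670360723) (nat_lit 380) (nat_lit 4386275306) (nat_lit 76) (nat_lit 3690613116) (nat_lit 60) (nat_lit 5) (nat_lit 65) (nat_lit 5) (nat_lit 61) (nat_lit 5) (nat_lit 287) (nat_lit 262) (nat_lit 231))))) (XT.nd (nat_lit 156) (nat_lit 532) (nat_lit 0) (XT.nd (nat_lit 78) (nat_lit 0) (nat_lit 0) (XT.lf (nat_lit 0) (nat_lit 1190214736) (nat_lit 304) (nat_lit 2855847966) (nat_lit 380) (nat_lit 5959849171) (nat_lit 56) (nat_lit 5) (nat_lit 60) (nat_lit 5) (nat_lit 61) (nat_lit 5) (nat_lit 288) (nat_lit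 262) (nat_lit 230)) (XT.lf (nat_lit 0) (nat_lit 6557163796) (nat_lit 380) (nat_lit 3171238662) (nat_lit 76) (nat_lit 548384012) (nat_lit 56) (nat_lit 5) (nat_lit 61) (nat_lit 5) (nat_lit 57) (nat_lit 5) (nat_lit 289) (nat_lit 262) (nat_lit 229))) (XT.nd (nat_lit 78) (nat_lit 304) (nat_lit 0) (XT.lf (nat_lit 0) (nat_lit 2713420478) (nat_lit 228) (nat_lit 6505988753) (nat_lit 304) (nat_lit 1340620324) (nat_lit 53) (nat_lit 5) (nat_lit 56) (nat_lit 5) (nat_lit 57) (nat_lit 5) (nat_lit 290) (nat_lit 262) (nat_lit 228)) (XT.nd (nat_lit 78) (nat_lit 228) (nat_lit 0) (XT.lf (nat_lit 0) (nat_lit 1111943396) (nat_lit 304) (nat_lit 1954191759) (nat_lit 76) (nat_lit 7790908056) (nat_lit 52) (nat_lit 5) (nat_lit 56) (nat_lit 5) (nat_lit 53) (nat_lit 5) (nat_lit 291) (nat_lit 262) (nat_lit 227)) (XT.lf (nat_lit 0) (nat_lit 3658464444) (nat_lit 304) (nat_lit 6908706255) (nat_lit 76) (nat_lit 599908875)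 (nat_lit 49) (nat_lit 5) (nat_lit 53) (nat_lit 5) (nat_lit 50) (nat_lit 5) (nat_lit 292) (nat_lit 262) (nat_lit 226)))))) (XT.nd (nat_lit 390) (nat_lit 456) (nat_lit 0) (XT.nd (nat_lit 156) (nat_lit 456) (nat_lit 0) (XT.nd (nat_lit 78) (nat_lit 228) (nat_lit 0) (XT.lf (nat_lit 0) (nat_lit 6357615467) (nat_lit 304) (nat_lit 772738333) (nat_lit 76) (nat_lit 4361084502) (nat_lit 49) (nat_lit 5) (nat_lit 53) (nat_lit 5) (nat_lit 50) (nat_lit 5) (nat_lit 293) (nat_lit 262) (nat_lit 225)) (XT.lf (nat_lit 0) (nat_lit 5778421108) (nat_lit 228) (nat_lit 3447712361) (nat_lit 304) (nat_lit 2604242687) (nat_lit 46) (nat_lit 5) (nat_lit 49) (nat_lit 5) (nat_lit 50) (nat_lit 5) (nat_lit 294) (nat_lit 262) (nat_lit 224))) (XT.nd (nat_lit 78) (nat_lit 152) (nat_lit 0) (XT.lf (nat_lit 0) (nat_lit 21485883) (nat_lit 304) (nat_lit 11760590945) (nat_lit 76) (nat_lit 405651300) (nat_lit 42) (nat_lit 5) (nat_lit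 46) (nat_lit 5) (nat_lit 43) (nat_lit 5) (nat_lit 295) (nat_lit 262) (nat_lit 223)) (XT.nd (nat_lit 78) (nat_lit 152) (nat_lit 0) (XT.lf (nat_lit 0) (nat_lit 2797483214) (nat_lit 304) (nat_lit 5296813238) (nat_lit 76) (nat_lit 4461262066) (nat_lit 42) (nat_lit 5) (nat_lit 46) (nat_lit 5) (nat_lit 43) (nat_lit 5) (nat_lit 296) (nat_lit 262) (nat_lit 222)) (XT.lf (nat_lit 0) (nat_lit 1462297107) (nat_lit 152) (nat_lit 4221203470) (nat_lit 228) (nat_lit 7259786023) (nat_lit 40) (nat_lit 5) (nat_lit 42) (nat_lit 5) (nat_lit 43) (nat_lit 5) (nat_lit 297) (nat_lit 262) (nat_lit 221))))) (XT.nd (nat_lit 156) (nat_lit 228) (nat_lit 0) (XT.nd (nat_lit 78) (nat_lit 228) (nat_lit 0) (XT.lf (nat_lit 0) (nat_lit 8669801655) (nat_lit 152) (nat_lit 83421665) (nat_lit 228) (nat_lit 4595271527) (nat_lit 40) (nat_lit 5) (nat_lit 42) (nat_lit 5) (nat_lit 43) (nat_lit 5) (nat_lit 298) (nat_lit 262) (nat_lit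 220)) (XT.lf (nat_lit 0) (nat_lit 2401998100) (nat_lit 228) (nat_lit 9630217394) (nat_lit 304) (nat_lit 1739019781) (nat_lit 37) (nat_lit 5) (nat_lit 40) (nat_lit 5) (nat_lit 41) (nat_lit 5) (nat_lit 299) (nat_lit 262) (nat_lit 219))) (XT.nd (nat_lit 78) (nat_lit 152) (nat_lit 0) (XT.lf (nat_lit 0) (nat_lit 1253731925) (nat_lit 304) (nat_lit 4306877568) (nat_lit 76) (nat_lit 8651874029) (nat_lit 36) (nat_lit 5) (nat_lit 40) (nat_lit 5) (nat_lit 37) (nat_lit 5) (nat_lit 300) (nat_lit 262) (nat_lit 218)) (XT.nd (nat_lit 78) (nat_lit 0) (nat_lit 0) (XT.lf (nat_lit 0) (nat_lit 3110558398) (nat_lit 152) (nat_lit 1230079379) (nat_lit 228) (nat_lit 10333635667) (nat_lit 34) (nat_lit 5) (nat_lit 36) (nat_lit 5) (nat_lit 37) (nat_lit 5) (nat_lit 301) (nat_lit 262) (nat_lit 217)) (XT.lf (nat_lit 0) (nat_lit 7662949295) (nat_lit 228) (nat_lit 4229982033) (nat_lit 76) (nat_lit 3262218647) (nat_lit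 34) (nat_lit 5) (nat_lit 37) (nat_lit 5) (nat_lit 35) (nat_lit 5) (nat_lit 302) (nat_lit 262) (nat_lit 216))))))) (XT.nd (nat_lit 780) (nat_lit 608) (nat_lit 0) (XT.nd (nat_lit 390) (nat_lit 304) (nat_lit 0) (XT.nd (nat_lit 156) (nat_lit 380) (nat_lit 0) (XT.nd (nat_lit 78) (nat_lit 0) (nat_lit 0) (XT.lf (nat_lit 0) (nat_lit 3495596829) (nat_lit 152) (nat_lit 7687795415) (nat_lit 228) (nat_lit 4475125043) (nat_lit 32) (nat_lit 5) (nat_lit 34) (nat_lit 5) (nat_lit 35) (nat_lit 5) (nat_lit 303) (nat_lit 262) (nat_lit 215)) (XT.lf (nat_lit 0) (nat_lit 11688827059) (nat_lit 152) (nat_lit 3220953803) (nat_lit 228) (nat_lit 1275821397) (nat_lit 32) (nat_lit 5) (nat_lit 34) (nat_lit 5) (nat_lit 35) (nat_lit 5) (nat_lit 304) (nat_lit 262) (nat_lit 214))) (XT.nd (nat_lit 78) (nat_lit 152) (nat_lit 0) (XT.lf (nat_lit 0) (nat_lit 2056114316) (nat_lit 228) (nat_lit 13190020924) (nat_lit 76) (nat_lit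 1489353551) (nat_lit 29) (nat_lit 5) (nat_lit 32) (nat_lit 5) (nat_lit 30) (nat_lit 5) (nat_lit 305) (nat_lit 262) (nat_lit 213)) (XT.nd (nat_lit 78) (nat_lit 152) (nat_lit 0) (XT.lf (nat_lit 0) (nat_lit 5602139553) (nat_lit 228) (nat_lit 5302451535) (nat_lit 76) (nat_lit 6402753650) (nat_lit 29) (nat_lit 5) (nat_lit 32) (nat_lit 5) (nat_lit 30) (nat_lit 5) (nat_lit 306) (nat_lit 262) (nat_lit 212)) (XT.lf (nat_lit 0) (nat_lit 3014685525) (nat_lit 152) (nat_lit 6319907906) (nat_lit 228) (nat_lit 8572781095) (nat_lit 27) (nat_lit 5) (nat_lit 29) (nat_lit 5) (nat_lit 30) (nat_lit 5) (nat_lit 307) (nat_lit 262) (nat_lit 211))))) (XT.nd (nat_lit 156) (nat_lit 228) (nat_lit 0) (XT.nd (nat_lit 78) (nat_lit 76) (nat_lit 0) (XT.lf (nat_lit 0) (nat_lit 11871457723) (nat_lit 152) (nat_lit 1434936611) (nat_lit 228) (nat_lit 5228410879) (nat_lit 27) (nat_lit 5) (nat_lit 29) (nat_lit 5) (nat_lit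 30) (nat_lit 5) (nat_lit 308) (nat_lit 262) (nat_lit 210)) (XT.lf (nat_lit 0) (nat_lit 1922419578) (nat_lit 76) (nat_lit 15606402915) (nat_lit 152) (nat_lit 1662217013) (nat_lit 26) (nat_lit 5) (nat_lit 27) (nat_lit 5) (nat_lit 28) (nat_lit 4) (nat_lit 309) (nat_lit 262) (nat_lit 209))) (XT.nd (nat_lit 78) (nat_lit 152) (nat_lit 0) (XT.lf (nat_lit 0) (nat_lit 2118396054) (nat_lit 152) (nat_lit 8822661971) (nat_lit 76) (nat_lit 8932294965) (nat_lit 25) (nat_lit 5) (nat_lit 27) (nat_lit 5) (nat_lit 26) (nat_lit 5) (nat_lit 310) (nat_lit 262) (nat_lit 208)) (XT.nd (nat_lit 78) (nat_lit 152) (nat_lit 0) (XT.lf (nat_lit 0) (nat_lit 5998402352) (nat_lit 152) (nat_lit 37985437) (nat_lit 76) (nat_lit 14553750000) (nat_lit 25) (nat_lit 5) (nat_lit 27) (nat_lit 5) (nat_lit 26) (nat_lit 5) (nat_lit 311) (nat_lit 262) (nat_lit 207)) (XT.lf (nat_lit 0) (nat_lit 9434231770) (nat_lit 152) (nat_lit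 753304342) (nat_lit 228) (nat_lit 11149497274) (nat_lit 23) (nat_lit 5) (nat_lit 25) (nat_lit 5) (nat_lit 26) (nat_lit 5) (nat_lit 312) (nat_lit 262) (nat_lit 206)))))) (XT.nd (nat_lit 390) (nat_lit 304) (nat_lit 0) (XT.nd (nat_lit 156) (nat_lit 228) (nat_lit 0) (XT.nd (nat_lit 78) (nat_lit 76) (nat_lit 0) (XT.lf (nat_lit 0) (nat_lit 14629834307) (nat_lit 228) (nat_lit 2868769161) (nat_lit 76) (nat_lit 4620511495) (nat_lit 23) (nat_lit 5) (nat_lit 26) (nat_lit 5) (nat_lit 24) (nat_lit 4) (nat_lit 313) (nat_lit 262) (nat_lit 205)) (XT.lf (nat_lit 0) (nat_lit 6769816955) (nat_lit 76) (nat_lit 12612196631) (nat_lit 152) (nat_lit 3553924043) (nat_lit 22) (nat_lit 5) (nat_lit 23) (nat_lit 5) (nat_lit 24) (nat_lit 4) (nat_lit 314) (nat_lit 262) (nat_lit 204))) (XT.nd (nat_lit 78) (nat_lit 152) (nat_lit 0) (XT.lf (nat_lit 0) (nat_lit 578938038) (nat_lit 152) (nat_lit 6862730765) (nat_lit 76)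 (nat_lit 16350542043) (nat_lit 21) (nat_lit 5) (nat_lit 23) (nat_lit 5) (nat_lit 22) (nat_lit 5) (nat_lit 315) (nat_lit 262) (nat_lit 203)) (XT.nd (nat_lit 78) (nat_lit 0) (nat_lit 0) (XT.lf (nat_lit 0) (nat_lit 2890890016) (nat_lit 152) (nat_lit 1924551244) (nat_lit 228) (nat_lit 19872143625) (nat_lit 19) (nat_lit 5) (nat_lit 21) (nat_lit 5) (nat_lit 22) (nat_lit 5) (nat_lit 316) (nat_lit 262) (nat_lit 202)) (XT.lf (nat_lit 0) (nat_lit 9413887498) (nat_lit 228) (nat_lit 12363286922) (nat_lit 76) (nat_lit 3843068143) (nat_lit 19) (nat_lit 5) (nat_lit 22) (nat_lit 5) (nat_lit 20) (nat_lit 4) (nat_lit 317) (nat_lit 262) (nat_lit 201))))) (XT.nd (nat_lit 156) (nat_lit 228) (nat_lit 0) (XT.nd (nat_lit 78) (nat_lit 76) (nat_lit 0) (XT.lf (nat_lit 0) (nat_lit 14246750803) (nat_lit 228) (nat_lit 2536919184) (nat_lit 76) (nat_lit 9815658239) (nat_lit 19) (nat_lit 5) (nat_lit 22) (nat_lit 5)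 (nat_lit 20) (nat_lit 4) (nat_lit 318) (nat_lit 262) (nat_lit 200)) (XT.lf (nat_lit 0) (nat_lit 7991634302) (nat_lit 76) (nat_lit 11428627859) (nat_lit 152) (nat_lit 8202174663) (nat_lit 18) (nat_lit 5) (nat_lit 19) (nat_lit 5) (nat_lit 20) (nat_lit 4) (nat_lit 319) (nat_lit 262) (nat_lit 199))) (XT.nd (nat_lit 78) (nat_lit 228) (nat_lit 0) (XT.lf (nat_lit 0) (nat_lit 19090501158) (nat_lit 76) (nat_lit 5779682023) (nat_lit 152) (nat_lit 3825648960) (nat_lit 18) (nat_lit 5) (nat_lit 19) (nat_lit 5) (nat_lit 20) (nat_lit 4) (nat_lit 320) (nat_lit 262) (nat_lit 198)) (XT.nd (nat_lit 78) (nat_lit 0) (nat_lit 0) (XT.lf (nat_lit 0) (nat_lit 737110729) (nat_lit 228) (nat_lit 28930205834) (nat_lit 76) (nat_lit 155393973) (nat_lit 15) (nat_lit 5) (nat_lit 18) (nat_lit 5) (nat_lit 16) (nat_lit 4) (nat_lit 321) (nat_lit 262) (nat_lit 197)) (XT.lf (nat_lit 0) (nat_lit 5635308273) (nat_lit 228) (nat_lit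 18952368085) (nat_lit 76) (nat_lit 6403342920) (nat_lit 15) (nat_lit 5) (nat_lit 18) (nat_lit 5) (nat_lit 16) (nat_lit 4) (nat_lit 322) (nat_lit 262) (nat_lit 196))))))))
noncomputable def xc113 : XT := (XT.nd (nat_lit 1560) (nat_lit 304) (nat_lit 0) (XT.nd (nat_lit 780) (nat_lit 228) (nat_lit 0) (XT.nd (nat_lit 390) (nat_lit 152) (nat_lit 0) (XT.nd (nat_lit 156) (nat_lit 76) (nat_lit 0) (XT.nd (nat_lit 78) (nat_lit 76) (nat_lit 0) (XT.lf (nat_lit 0) (nat_lit 10755349227) (nat_lit 228) (nat_lit 8516729096) (nat_lit 76) (nat_lit 12946833261) (nat_lit 15) (nat_lit 5) (nat_lit 18) (nat_lit 5) (nat_lit 16) (nat_lit 4) (nat_lit 323) (nat_lit 262) (nat_lit 195)) (XT.lf (nat_lit 0) (nat_lit 2480964241) (nat_lit 76) (nat_lit 13667194728) (nat_lit 152) (nat_lit 17359215299) (nat_lit 14) (nat_lit 5) (nat_lit 15) (nat_lit 5) (nat_lit 16) (nat_lit 4) (nat_lit 324) (nat_lit 262) (nat_lit 194))) (XT.nd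 (nat_lit 78) (nat_lit 76) (nat_lit 0) (XT.lf (nat_lit 0) (nat_lit 14285721092) (nat_lit 76) (nat_lit 7647599935) (nat_lit 152) (nat_lit 12920816896) (nat_lit 14) (nat_lit 5) (nat_lit 15) (nat_lit 5) (nat_lit 16) (nat_lit 4) (nat_lit 325) (nat_lit 262) (nat_lit 193)) (XT.nd (nat_lit 78) (nat_lit 76) (nat_lit 0) (XT.lf (nat_lit 0) (nat_lit 26644046493) (nat_lit 76) (nat_lit 1343196503) (nat_lit 152) (nat_lit 8282034463) (nat_lit 14) (nat_lit 5) (nat_lit 15) (nat_lit 5) (nat_lit 16) (nat_lit 4) (nat_lit 326) (nat_lit 262) (nat_lit 192)) (XT.lf (nat_lit 0) (nat_lit 1804829216) (nat_lit 76) (nat_lit 32629827563) (nat_lit 76) (nat_lit 3315989587) (nat_lit 13) (nat_lit 4) (nat_lit 14) (nat_lit 5) (nat_lit 14) (nat_lit 4) (nat_lit 327) (nat_lit 262) (nat_lit 191))))) (XT.nd (nat_lit 156) (nat_lit 76) (nat_lit 0) (XT.nd (nat_lit 78) (nat_lit 0) (nat_lit 0) (XT.lf (nat_lit 0) (nat_lit 2005599888)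 (nat_lit 152) (nat_lit 25247463170) (nat_lit 76) (nat_lit 12043149691) (nat_lit 12) (nat_lit 5) (nat_lit 14) (nat_lit 5) (nat_lit 13) (nat_lit 4) (nat_lit 328) (nat_lit 262) (nat_lit 190)) (XT.lf (nat_lit 0) (nat_lit 7463069683) (nat_lit 152) (nat_lit 14102607199) (nat_lit 76) (nat_lit 19351611073) (nat_lit 12) (nat_lit 5) (nat_lit 14) (nat_lit 5) (nat_lit 13) (nat_lit 4) (nat_lit 329) (nat_lit 262) (nat_lit 189))) (XT.nd (nat_lit 78) (nat_lit 76) (nat_lit 0) (XT.lf (nat_lit 0) (nat_lit 13175546149) (nat_lit 152) (nat_lit 2432941977) (nat_lit 76) (nat_lit 27011832157) (nat_lit 12) (nat_lit 5) (nat_lit 14) (nat_lit 5) (nat_lit 13) (nat_lit 4) (nat_lit 330) (nat_lit 262) (nat_lit 188)) (XT.nd (nat_lit 78) (nat_lit 0) (nat_lit 0) (XT.lf (nat_lit 0) (nat_lit 10112996456) (nat_lit 76) (nat_lit 9201526180) (nat_lit 152) (nat_lit 25086947325) (nat_lit 11) (nat_lit 5) (nat_lit 12) (nat_lit 5)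 (nat_lit 13) (nat_lit 4) (nat_lit 331) (nat_lit 262) (nat_lit 187)) (XT.lf (nat_lit 0) (nat_lit 23340307183) (nat_lit 76) (nat_lit 2444663596) (nat_lit 152) (nat_lit 20485489290) (nat_lit 11) (nat_lit 5) (nat_lit 12) (nat_lit 5) (nat_lit 13) (nat_lit 4) (nat_lit 332) (nat_lit 262) (nat_lit 186)))))) (XT.nd (nat_lit 390) (nat_lit 76) (nat_lit 0) (XT.nd (nat_lit 156) (nat_lit 76) (nat_lit 0) (XT.nd (nat_lit 78) (nat_lit 76) (nat_lit 0) (XT.lf (nat_lit 0) (nat_lit 32635451728) (nat_lit 152) (nat_lit 11106059207) (nat_lit 0) (nat_lit 4488571884) (nat_lit 11) (nat_lit 5) (nat_lit 13) (nat_lit 4) (nat_lit 11) (nat_lit 4) (nat_lit 333) (nat_lit 262) (nat_lit 185)) (XT.lf (nat_lit 0) (nat_lit 1282060672) (nat_lit 76) (nat_lit 38591165454) (nat_lit 76) (nat_lit 10412230353) (nat_lit 10) (nat_lit 4) (nat_lit 11) (nat_lit 5) (nat_lit 11) (nat_lit 4) (nat_lit 334) (nat_lit 262) (nat_lit 184))) (XT.nd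 (nat_lit 78) (nat_lit 76) (nat_lit 0) (XT.lf (nat_lit 0) (nat_lit 14647481668) (nat_lit 76) (nat_lit 32998467952) (nat_lit 76) (nat_lit 4789004035) (nat_lit 10) (nat_lit 4) (nat_lit 11) (nat_lit 5) (nat_lit 11) (nat_lit 4) (nat_lit 335) (nat_lit 262) (nat_lit 183)) (XT.nd (nat_lit 78) (nat_lit 0) (nat_lit 0) (XT.lf (nat_lit 0) (nat_lit 1065131938) (nat_lit 152) (nat_lit 26055018506) (nat_lit 76) (nat_lit 27571639275) (nat_lit 9) (nat_lit 5) (nat_lit 11) (nat_lit 5) (nat_lit 10) (nat_lit 4) (nat_lit 336) (nat_lit 262) (nat_lit 182)) (XT.lf (nat_lit 0) (nat_lit 7037173324) (nat_lit 152) (nat_lit 13840024199) (nat_lit 76) (nat_lit 36181044403) (nat_lit 9) (nat_lit 5) (nat_lit 11) (nat_lit 5) (nat_lit 10) (nat_lit 4) (nat_lit 337) (nat_lit 262) (nat_lit 181))))) (XT.nd (nat_lit 156) (nat_lit 0) (nat_lit 0) (XT.nd (nat_lit 78) (nat_lit 76) (nat_lit 0) (XT.lf (nat_lit 0) (nat_lit 13294617307)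 (nat_lit 152) (nat_lit 1038635974) (nat_lit 76) (nat_lit 45210429897) (nat_lit 9) (nat_lit 5) (nat_lit 11) (nat_lit 5) (nat_lit 10) (nat_lit 4) (nat_lit 338) (nat_lit 262) (nat_lit 180)) (XT.lf (nat_lit 0) (nat_lit 12788951998) (nat_lit 76) (nat_lit 7263081945) (nat_lit 152) (nat_lit 42092013677) (nat_lit 8) (nat_lit 5) (nat_lit 9) (nat_lit 5) (nat_lit 10) (nat_lit 4) (nat_lit 339) (nat_lit 262) (nat_lit 179))) (XT.nd (nat_lit 78) (nat_lit 0) (nat_lit 0) (XT.lf (nat_lit 0) (nat_lit 27155214503) (nat_lit 152) (nat_lit 37555648400) (nat_lit 0) (nat_lit 163178585) (nat_lit 8) (nat_lit 5) (nat_lit 10) (nat_lit 4) (nat_lit 8) (nat_lit 4) (nat_lit 340) (nat_lit 262) (nat_lit 178)) (XT.nd (nat_lit 78) (nat_lit 0) (nat_lit 0) (XT.lf (nat_lit 0) (nat_lit 34720723433) (nat_lit 152) (nat_lit 25307467476) (nat_lit 0) (nat_lit 7706991255) (nat_lit 8) (nat_lit 5) (nat_lit 10) (nat_lit 4) (nat_lit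 8) (nat_lit 4) (nat_lit 341) (nat_lit 262) (nat_lit 177)) (XT.lf (nat_lit 0) (nat_lit 42653176785) (nat_lit 152) (nat_lit 12467993449) (nat_lit 0) (nat_lit 15618781503) (nat_lit 8) (nat_lit 5) (nat_lit 10) (nat_lit 4) (nat_lit 8) (nat_lit 4) (nat_lit 342) (nat_lit 262) (nat_lit 176))))))) (XT.nd (nat_lit 780) (nat_lit 76) (nat_lit 0) (XT.nd (nat_lit 390) (nat_lit 76) (nat_lit 0) (XT.nd (nat_lit 156) (nat_lit 76) (nat_lit 0) (XT.nd (nat_lit 78) (nat_lit 0) (nat_lit 0) (XT.lf (nat_lit 0) (nat_lit 1026188289) (nat_lit 76) (nat_lit 49961294739) (nat_lit 76) (nat_lit 22907220310) (nat_lit 7) (nat_lit 4) (nat_lit 8) (nat_lit 5) (nat_lit 8) (nat_lit 4) (nat_lit 343) (nat_lit 262) (nat_lit 175)) (XT.lf (nat_lit 0) (nat_lit 15608153633) (nat_lit 76) (nat_lit 44330915965) (nat_lit 76) (nat_lit 17258099492) (nat_lit 7) (nat_lit 4) (nat_lit 8) (nat_lit 5) (nat_lit 8) (nat_lit 4) (nat_lit 344) (nat_lit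 262) (nat_lit 174))) (XT.nd (nat_lit 78) (nat_lit 76) (nat_lit 0) (XT.lf (nat_lit 0) (nat_lit 30900373376) (nat_lit 76) (nat_lit 38427779750) (nat_lit 76) (nat_lit 11337113711) (nat_lit 7) (nat_lit 4) (nat_lit 8) (nat_lit 5) (nat_lit 8) (nat_lit 4) (nat_lit 345) (nat_lit 262) (nat_lit 173)) (XT.nd (nat_lit 78) (nat_lit 76) (nat_lit 0) (XT.lf (nat_lit 0) (nat_lit 46939257564) (nat_lit 76) (nat_lit 32237831009) (nat_lit 76) (nat_lit 5130165382) (nat_lit 7) (nat_lit 4) (nat_lit 8) (nat_lit 5) (nat_lit 8) (nat_lit 4) (nat_lit 346) (nat_lit 262) (nat_lit 172)) (XT.lf (nat_lit 0) (nat_lit 1333434572) (nat_lit 152) (nat_lit 24390314836) (nat_lit 76) (nat_lit 62406977087) (nat_lit 6) (nat_lit 5) (nat_lit 8) (nat_lit 5) (nat_lit 7) (nat_lit 4) (nat_lit 347) (nat_lit 262) (nat_lit 171))))) (XT.nd (nat_lit 156) (nat_lit 0) (nat_lit 0) (XT.nd (nat_lit 78) (nat_lit 76) (nat_lit 0) (XT.lf (nat_lit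 0) (nat_lit 7938951180) (nat_lit 152) (nat_lit 10864424916) (nat_lit 76) (nat_lit 73338238094) (nat_lit 6) (nat_lit 5) (nat_lit 8) (nat_lit 5) (nat_lit 7) (nat_lit 4) (nat_lit 348) (nat_lit 262) (nat_lit 170)) (XT.lf (nat_lit 0) (nat_lit 3431813591) (nat_lit 76) (nat_lit 11488075827) (nat_lit 152) (nat_lit 81430903159) (nat_lit 5) (nat_lit 5) (nat_lit 6) (nat_lit 5) (nat_lit 7) (nat_lit 4) (nat_lit 349) (nat_lit 262) (nat_lit 169))) (XT.nd (nat_lit 78) (nat_lit 0) (nat_lit 0) (XT.lf (nat_lit 0) (nat_lit 18804521555) (nat_lit 76) (nat_lit 3621072042) (nat_lit 152) (nat_lit 78336053761) (nat_lit 5) (nat_lit 5) (nat_lit 6) (nat_lit 5) (nat_lit 7) (nat_lit 4) (nat_lit 350) (nat_lit 262) (nat_lit 168)) (XT.nd (nat_lit 78) (nat_lit 0) (nat_lit 0) (XT.lf (nat_lit 0) (nat_lit 30371026088) (nat_lit 152) (nat_lit 70534692802) (nat_lit 0) (nat_lit 4484107095) (nat_lit 5) (nat_lit 5) (nat_lit 7)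 (nat_lit 4) (nat_lit 5) (nat_lit 4) (nat_lit 351) (nat_lit 262) (nat_lit 167)) (XT.lf (nat_lit 0) (nat_lit 38765483381) (nat_lit 152) (nat_lit 58614862510) (nat_lit 0) (nat_lit 12866483100) (nat_lit 5) (nat_lit 5) (nat_lit 7) (nat_lit 4) (nat_lit 5) (nat_lit 4) (nat_lit 352) (nat_lit 262) (nat_lit 166)))))) (XT.nd (nat_lit 390) (nat_lit 0) (nat_lit 0) (XT.nd (nat_lit 156) (nat_lit 76) (nat_lit 0) (XT.nd (nat_lit 78) (nat_lit 0) (nat_lit 0) (XT.lf (nat_lit 0) (nat_lit 47572417200) (nat_lit 152) (nat_lit 46112719296) (nat_lit 0) (nat_lit 21661910928) (nat_lit 5) (nat_lit 5) (nat_lit 7) (nat_lit 4) (nat_lit 5) (nat_lit 4) (nat_lit 353) (nat_lit 262) (nat_lit 165)) (XT.lf (nat_lit 0) (nat_lit 56812796432) (nat_lit 152) (nat_lit 32998496152) (nat_lit 0) (nat_lit 30891332075) (nat_lit 5) (nat_lit 5) (nat_lit 7) (nat_lit 4) (nat_lit 5) (nat_lit 4) (nat_lit 354) (nat_lit 262) (nat_lit 164)))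 (XT.nd (nat_lit 78) (nat_lit 76) (nat_lit 0) (XT.lf (nat_lit 0) (nat_lit 66508621982) (nat_lit 152) (nat_lit 19240968738) (nat_lit 0) (nat_lit 40576721353) (nat_lit 5) (nat_lit 5) (nat_lit 7) (nat_lit 4) (nat_lit 5) (nat_lit 4) (nat_lit 355) (nat_lit 262) (nat_lit 163)) (XT.nd (nat_lit 78) (nat_lit 76) (nat_lit 0) (XT.lf (nat_lit 0) (nat_lit 76682979148) (nat_lit 152) (nat_lit 4807381036) (nat_lit 0) (nat_lit 50741139213) (nat_lit 5) (nat_lit 5) (nat_lit 7) (nat_lit 4) (nat_lit 5) (nat_lit 4) (nat_lit 356) (nat_lit 262) (nat_lit 162)) (XT.lf (nat_lit 0) (nat_lit 10678408395) (nat_lit 76) (nat_lit 76848404077) (nat_lit 76) (nat_lit 50897098135) (nat_lit 4) (nat_lit 4) (nat_lit 5) (nat_lit 5) (nat_lit 5) (nat_lit 4) (nat_lit 357) (nat_lit 262) (nat_lit 161))))) (XT.nd (nat_lit 156) (nat_lit 0) (nat_lit 0) (XT.nd (nat_lit 78) (nat_lit 0) (nat_lit 0) (XT.lf (nat_lit 0) (nat_lit 27094316807)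 (nat_lit 76) (nat_lit 71894085418) (nat_lit 76) (nat_lit 45933764232) (nat_lit 4) (nat_lit 4) (nat_lit 5) (nat_lit 5) (nat_lit 5) (nat_lit 4) (nat_lit 358) (nat_lit 262) (nat_lit 160)) (XT.lf (nat_lit 0) (nat_lit 44320475968) (nat_lit 76) (nat_lit 66697023535) (nat_lit 76) (nat_lit 40728116403) (nat_lit 4) (nat_lit 4) (nat_lit 5) (nat_lit 5) (nat_lit 5) (nat_lit 4) (nat_lit 359) (nat_lit 262) (nat_lit 159))) (XT.nd (nat_lit 78) (nat_lit 0) (nat_lit 0) (XT.lf (nat_lit 0) (nat_lit 62397900542) (nat_lit 76) (nat_lit 61244844472) (nat_lit 76) (nat_lit 35267760248) (nat_lit 4) (nat_lit 4) (nat_lit 5) (nat_lit 5) (nat_lit 5) (nat_lit 4) (nat_lit 360) (nat_lit 262) (nat_lit 158)) (XT.nd (nat_lit 78) (nat_lit 0) (nat_lit 0) (XT.lf (nat_lit 0) (nat_lit 81369632017) (nat_lit 76) (nat_lit 55524566849) (nat_lit 76) (nat_lit 29539694918) (nat_lit 4) (nat_lit 4) (nat_lit 5) (nat_lit 5) (nat_lit 5)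 (nat_lit 4) (nat_lit 361) (nat_lit 262) (nat_lit 157)) (XT.lf (nat_lit 0) (nat_lit 101280841181) (nat_lit 76) (nat_lit 49522570958) (nat_lit 76) (nat_lit 23530282164) (nat_lit 4) (nat_lit 4) (nat_lit 5) (nat_lit 5) (nat_lit 5) (nat_lit 4) (nat_lit 362) (nat_lit 262) (nat_lit 156))))))))
noncomputable def xc114 : XT := (XT.nd (nat_lit 1560) (nat_lit 0) (nat_lit 0) (XT.nd (nat_lit 780) (nat_lit 0) (nat_lit 0) (XT.nd (nat_lit 390) (nat_lit 76) (nat_lit 0) (XT.nd (nat_lit 156) (nat_lit 76) (nat_lit 0) (XT.nd (nat_lit 78) (nat_lit 0) (nat_lit 0) (XT.lf (nat_lit 0) (nat_lit 122178935676) (nat_lit 76) (nat_lit 43224566333) (nat_lit 76) (nat_lit 17225213860) (nat_lit 4) (nat_lit 4) (nat_lit 5) (nat_lit 5) (nat_lit 5) (nat_lit 4) (nat_lit 363) (nat_lit 262) (nat_lit 155)) (XT.lf (nat_lit 0) (nat_lit 144113672870) (nat_lit 76) (nat_lit 36615557725) (nat_lit 76) (nat_lit 10609477938) (nat_lit 4)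 (nat_lit 4) (nat_lit 5) (nat_lit 5) (nat_lit 5) (nat_lit 4) (nat_lit 364) (nat_lit 262) (nat_lit 154))) (XT.nd (nat_lit 78) (nat_lit 76) (nat_lit 0) (XT.lf (nat_lit 0) (nat_lit 167137278327) (nat_lit 76) (nat_lit 29679809398) (nat_lit 76) (nat_lit 3667322645) (nat_lit 4) (nat_lit 4) (nat_lit 5) (nat_lit 5) (nat_lit 5) (nat_lit 4) (nat_lit 365) (nat_lit 262) (nat_lit 153)) (XT.nd (nat_lit 78) (nat_lit 0) (nat_lit 0) (XT.lf (nat_lit 0) (nat_lit 3501989373) (nat_lit 152) (nat_lit 18839510409) (nat_lit 76) (nat_lit 187743272898) (nat_lit 3) (nat_lit 5) (nat_lit 5) (nat_lit 5) (nat_lit 4) (nat_lit 4) (nat_lit 366) (nat_lit 262) (nat_lit 152)) (XT.lf (nat_lit 0) (nat_lit 10902686309) (nat_lit 152) (nat_lit 3673892997) (nat_lit 76) (nat_lit 205585760949) (nat_lit 3) (nat_lit 5) (nat_lit 5) (nat_lit 5) (nat_lit 4) (nat_lit 4) (nat_lit 367) (nat_lit 262) (nat_lit 151))))) (XT.nd (nat_lit 156)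 (nat_lit 0) (nat_lit 0) (XT.nd (nat_lit 78) (nat_lit 0) (nat_lit 0) (XT.lf (nat_lit 0) (nat_lit 12647897702) (nat_lit 76) (nat_lit 6219337522) (nat_lit 152) (nat_lit 211866861483) (nat_lit 2) (nat_lit 5) (nat_lit 3) (nat_lit 5) (nat_lit 4) (nat_lit 4) (nat_lit 368) (nat_lit 262) (nat_lit 150)) (XT.lf (nat_lit 0) (nat_lit 27329518701) (nat_lit 152) (nat_lit 211965863361) (nat_lit 0) (nat_lit 2534084857) (nat_lit 2) (nat_lit 5) (nat_lit 4) (nat_lit 4) (nat_lit 2) (nat_lit 4) (nat_lit 369) (nat_lit 262) (nat_lit 149))) (XT.nd (nat_lit 78) (nat_lit 0) (nat_lit 0) (XT.lf (nat_lit 0) (nat_lit 36313411081) (nat_lit 152) (nat_lit 205648074790) (nat_lit 0) (nat_lit 11513196261) (nat_lit 2) (nat_lit 5) (nat_lit 4) (nat_lit 4) (nat_lit 2) (nat_lit 4) (nat_lit 370) (nat_lit 262) (nat_lit 148)) (XT.nd (nat_lit 78) (nat_lit 0) (nat_lit 0) (XT.lf (nat_lit 0) (nat_lit 45743201298) (nat_lit 152) (nat_lit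 199020689653) (nat_lit 0) (nat_lit 20938433167) (nat_lit 2) (nat_lit 5) (nat_lit 4) (nat_lit 4) (nat_lit 2) (nat_lit 4) (nat_lit 371) (nat_lit 262) (nat_lit 147)) (XT.lf (nat_lit 0) (nat_lit 55641341232) (nat_lit 152) (nat_lit 192067928460) (nat_lit 0) (nat_lit 30832236614) (nat_lit 2) (nat_lit 5) (nat_lit 4) (nat_lit 4) (nat_lit 2) (nat_lit 4) (nat_lit 372) (nat_lit 262) (nat_lit 146)))))) (XT.nd (nat_lit 390) (nat_lit 0) (nat_lit 0) (XT.nd (nat_lit 156) (nat_lit 0) (nat_lit 0) (XT.nd (nat_lit 78) (nat_lit 0) (nat_lit 0) (XT.lf (nat_lit 0) (nat_lit 66031397883) (nat_lit 152) (nat_lit 184773237019) (nat_lit 0) (nat_lit 41218163279) (nat_lit 2) (nat_lit 5) (nat_lit 4) (nat_lit 4) (nat_lit 2) (nat_lit 4) (nat_lit 373) (nat_lit 262) (nat_lit 145)) (XT.lf (nat_lit 0) (nat_lit 76938109483) (nat_lit 152) (nat_lit 177119247016) (nat_lit 0) (nat_lit 52120941557) (nat_lit 2) (nat_lit 5) (nat_lit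 4) (nat_lit 4) (nat_lit 2) (nat_lit 4) (nat_lit 374) (nat_lit 262) (nat_lit 144))) (XT.nd (nat_lit 78) (nat_lit 0) (nat_lit 0) (XT.lf (nat_lit 0) (nat_lit 88387444390) (nat_lit 152) (nat_lit 169087734665) (nat_lit 0) (nat_lit 63566530445) (nat_lit 2) (nat_lit 5) (nat_lit 4) (nat_lit 4) (nat_lit 2) (nat_lit 4) (nat_lit 375) (nat_lit 262) (nat_lit 143)) (XT.nd (nat_lit 78) (nat_lit 0) (nat_lit 0) (XT.lf (nat_lit 0) (nat_lit 100406662928) (nat_lit 152) (nat_lit 160659577319) (nat_lit 0) (nat_lit 75582181344) (nat_lit 2) (nat_lit 5) (nat_lit 4) (nat_lit 4) (nat_lit 2) (nat_lit 4) (nat_lit 376) (nat_lit 262) (nat_lit 142)) (XT.lf (nat_lit 0) (nat_lit 113024382282) (nat_lit 152) (nat_lit 151814707935) (nat_lit 0) (nat_lit 88196502948) (nat_lit 2) (nat_lit 5) (nat_lit 4) (nat_lit 4) (nat_lit 2) (nat_lit 4) (nat_lit 377) (nat_lit 262) (nat_lit 141))))) (XT.nd (nat_lit 156) (nat_lit 0) (nat_lit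 0) (XT.nd (nat_lit 78) (nat_lit 0) (nat_lit 0) (XT.lf (nat_lit 0) (nat_lit 126270644642) (nat_lit 152) (nat_lit 142532067301) (nat_lit 0) (nat_lit 101439529354) (nat_lit 2) (nat_lit 5) (nat_lit 4) (nat_lit 4) (nat_lit 2) (nat_lit 4) (nat_lit 378) (nat_lit 262) (nat_lit 140)) (XT.lf (nat_lit 0) (nat_lit 140176988727) (nat_lit 152) (nat_lit 132789553892) (nat_lit 0) (nat_lit 115342791580) (nat_lit 2) (nat_lit 5) (nat_lit 4) (nat_lit 4) (nat_lit 2) (nat_lit 4) (nat_lit 379) (nat_lit 262) (nat_lit 139))) (XT.nd (nat_lit 78) (nat_lit 0) (nat_lit 0) (XT.lf (nat_lit 0) (nat_lit 154776524881) (nat_lit 152) (nat_lit 122563971248) (nat_lit 0) (nat_lit 129939392629) (nat_lit 2) (nat_lit 5) (nat_lit 4) (nat_lit 4) (nat_lit 2) (nat_lit 4) (nat_lit 380) (nat_lit 262) (nat_lit 138)) (XT.nd (nat_lit 78) (nat_lit 0) (nat_lit 0) (XT.lf (nat_lit 0) (nat_lit 170104013904) (nat_lit 152) (nat_lit 111830972742)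 (nat_lit 0) (nat_lit 145264086314) (nat_lit 2) (nat_lit 5) (nat_lit 4) (nat_lit 4) (nat_lit 2) (nat_lit 4) (nat_lit 381) (nat_lit 262) (nat_lit 137)) (XT.lf (nat_lit 0) (nat_lit 186195949818) (nat_lit 152) (nat_lit 100565003616) (nat_lit 0) (nat_lit 161353360001) (nat_lit 2) (nat_lit 5) (nat_lit 4) (nat_lit 4) (nat_lit 2) (nat_lit 4) (nat_lit 382) (nat_lit 262) (nat_lit 136))))))) (XT.nd (nat_lit 31668) (nat_lit 0) (nat_lit 7144) (XT.nd (nat_lit 31278) (nat_lit 0) (nat_lit 9500) (XT.nd (nat_lit 156) (nat_lit 0) (nat_lit 0) (XT.nd (nat_lit 78) (nat_lit 0) (nat_lit 0) (XT.lf (nat_lit 0) (nat_lit 203090646755) (nat_lit 152) (nat_lit 88739240135) (nat_lit 0) (nat_lit 178245521485) (nat_lit 2) (nat_lit 5) (nat_lit 4) (nat_lit 4) (nat_lit 2) (nat_lit 4) (nat_lit 383) (nat_lit 262) (nat_lit 135)) (XT.lf (nat_lit 0) (nat_lit 220828330185) (nat_lit 152) (nat_lit 76325525719) (nat_lit 0) (nat_lit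 195980790196) (nat_lit 2) (nat_lit 5) (nat_lit 4) (nat_lit 4) (nat_lit 2) (nat_lit 4) (nat_lit 384) (nat_lit 262) (nat_lit 134))) (XT.nd (nat_lit 78) (nat_lit 0) (nat_lit 0) (XT.lf (nat_lit 0) (nat_lit 239451232687) (nat_lit 152) (nat_lit 63294303905) (nat_lit 0) (nat_lit 214601392967) (nat_lit 2) (nat_lit 5) (nat_lit 4) (nat_lit 4) (nat_lit 2) (nat_lit 4) (nat_lit 385) (nat_lit 262) (nat_lit 133)) (XT.nd (nat_lit 78) (nat_lit 0) (nat_lit 0) (XT.lf (nat_lit 0) (nat_lit 259003694504) (nat_lit 152) (nat_lit 49614547974) (nat_lit 0) (nat_lit 234151664564) (nat_lit 2) (nat_lit 5) (nat_lit 4) (nat_lit 4) (nat_lit 2) (nat_lit 4) (nat_lit 386) (nat_lit 262) (nat_lit 132)) (XT.lf (nat_lit 0) (nat_lit 279532269119) (nat_lit 152) (nat_lit 35253687079) (nat_lit 0) (nat_lit 254678153255) (nat_lit 2) (nat_lit 5) (nat_lit 4) (nat_lit 4) (nat_lit 2) (nat_lit 4) (nat_lit 387) (nat_lit 262) (nat_lit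 131))))) (XT.nd (nat_lit 156) (nat_lit 380) (nat_lit 0) (XT.nd (nat_lit 78) (nat_lit 0) (nat_lit 0) (XT.lf (nat_lit 0) (nat_lit 801644347) (nat_lit 0) (nat_lit 801644347) (nat_lit 228) (nat_lit 1670786141) (nat_lit 132) (nat_lit 5) (nat_lit 132) (nat_lit 3) (nat_lit 135) (nat_lit 3) (nat_lit 263) (nat_lit 263) (nat_lit 254)) (XT.lf (nat_lit 0) (nat_lit 4717654888) (nat_lit 0) (nat_lit 894247557) (nat_lit 228) (nat_lit 976304308) (nat_lit 132) (nat_lit 5) (nat_lit 132) (nat_lit 3) (nat_lit 135) (nat_lit 3) (nat_lit 264) (nat_lit 263) (nat_lit 253))) (XT.nd (nat_lit 78) (nat_lit 0) (nat_lit 76) (XT.lf (nat_lit 76) (nat_lit 1295518116) (nat_lit 0) (nat_lit 31957800) (nat_lit 380) (nat_lit 5308640133) (nat_lit 128) (nat_lit 5) (nat_lit 127) (nat_lit 3) (nat_lit 132) (nat_lit 5) (nat_lit 265) (nat_lit 263) (nat_lit 252)) (XT.nd (nat_lit 78) (nat_lit 0) (nat_lit 0) (XT.lf (nat_lit 0) (nat_lit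 3614779436) (nat_lit 304) (nat_lit 2117528086) (nat_lit 380) (nat_lit 958684807) (nat_lit 128) (nat_lit 5) (nat_lit 132) (nat_lit 5) (nat_lit 133) (nat_lit 5) (nat_lit 266) (nat_lit 263) (nat_lit 251)) (XT.lf (nat_lit 76) (nat_lit 1222082891) (nat_lit 0) (nat_lit 4676168837) (nat_lit 380) (nat_lit 856679079) (nat_lit 129) (nat_lit 5) (nat_lit 128) (nat_lit 5) (nat_lit 133) (nat_lit 5) (nat_lit 267) (nat_lit 263) (nat_lit 250)))))) (XT.nd (nat_lit 390) (nat_lit 1672) (nat_lit 0) (XT.nd (nat_lit 156) (nat_lit 380) (nat_lit 0) (XT.nd (nat_lit 78) (nat_lit 0) (nat_lit 0) (XT.lf (nat_lit 0) (nat_lit 1328043220) (nat_lit 380) (nat_lit 2128378691) (nat_lit 456) (nat_lit 3369795166) (nat_lit 123) (nat_lit 5) (nat_lit 128) (nat_lit 5) (nat_lit 129) (nat_lit 5) (nat_lit 268) (nat_lit 263) (nat_lit 249)) (XT.lf (nat_lit 76) (nat_lit 1394328505) (nat_lit 0) (nat_lit 2092018519) (nat_lit 456) (nat_lit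 3419714604) (nat_lit 124) (nat_lit 5) (nat_lit 123) (nat_lit 5) (nat_lit 129) (nat_lit 5) (nat_lit 269) (nat_lit 263) (nat_lit 248))) (XT.nd (nat_lit 78) (nat_lit 380) (nat_lit 0) (XT.lf (nat_lit 76) (nat_lit 5085826528) (nat_lit 0) (nat_lit 579007751) (nat_lit 456) (nat_lit 1329786841) (nat_lit 124) (nat_lit 5) (nat_lit 123) (nat_lit 5) (nat_lit 129) (nat_lit 5) (nat_lit 270) (nat_lit 263) (nat_lit 247)) (XT.nd (nat_lit 78) (nat_lit 0) (nat_lit 0) (XT.lf (nat_lit 0) (nat_lit 762590340) (nat_lit 456) (nat_lit 5270893282) (nat_lit 76) (nat_lit 1057473531) (nat_lit 118) (nat_lit 5) (nat_lit 124) (nat_lit 5) (nat_lit 119) (nat_lit 5) (nat_lit 271) (nat_lit 263) (nat_lit 246)) (XT.lf (nat_lit 0) (nat_lit 2842137646) (nat_lit 456) (nat_lit 1507634446) (nat_lit 76) (nat_lit 2845176223) (nat_lit 118) (nat_lit 5) (nat_lit 124) (nat_lit 5) (nat_lit 119) (nat_lit 5) (nat_lit 272) (nat_lit 263)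 (nat_lit 245))))) (XT.nd (nat_lit 156) (nat_lit 1216) (nat_lit 0) (XT.nd (nat_lit 78) (nat_lit 0) (nat_lit 0) (XT.lf (nat_lit 0) (nat_lit 2439039032) (nat_lit 456) (nat_lit 2515077418) (nat_lit 532) (nat_lit 2353876412) (nat_lit 112) (nat_lit 5) (nat_lit 118) (nat_lit 5) (nat_lit 119) (nat_lit 5) (nat_lit 273) (nat_lit 263) (nat_lit 244)) (XT.lf (nat_lit 0) (nat_lit 6553910759) (nat_lit 456) (nat_lit 537638058) (nat_lit 532) (nat_lit 339411453) (nat_lit 112) (nat_lit 5) (nat_lit 118) (nat_lit 5) (nat_lit 119) (nat_lit 5) (nat_lit 274) (nat_lit 263) (nat_lit 243))) (XT.nd (nat_lit 78) (nat_lit 608) (nat_lit 0) (XT.lf (nat_lit 0) (nat_lit 1693761871) (nat_lit 608) (nat_lit 4275641390) (nat_lit 76) (nat_lit 1590784371) (nat_lit 104) (nat_lit 5) (nat_lit 112) (nat_lit 5) (nat_lit 105) (nat_lit 5) (nat_lit 275) (nat_lit 263) (nat_lit 242)) (XT.nd (nat_lit 78) (nat_lit 608) (nat_lit 0) (XT.lf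 (nat_lit 0) (nat_lit 3742491063) (nat_lit 608) (nat_lit 110469583) (nat_lit 76) (nat_lit 3846599831) (nat_lit 104) (nat_lit 5) (nat_lit 112) (nat_lit 5) (nat_lit 105) (nat_lit 5) (nat_lit 276) (nat_lit 263) (nat_lit 241)) (XT.lf (nat_lit 0) (nat_lit 4319905244) (nat_lit 608) (nat_lit 1547286019) (nat_lit 684) (nat_lit 1980250644) (nat_lit 96) (nat_lit 5) (nat_lit 104) (nat_lit 5) (nat_lit 105) (nat_lit 5) (nat_lit 277) (nat_lit 263) (nat_lit 240))))))))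
noncomputable def xc115 : XT := (XT.nd (nat_lit 1560) (nat_lit 1748) (nat_lit 0) (XT.nd (nat_lit 780) (nat_lit 1368) (nat_lit 0) (XT.nd (nat_lit 390) (nat_lit 1064) (nat_lit 0) (XT.nd (nat_lit 156) (nat_lit 912) (nat_lit 0) (XT.nd (nat_lit 78) (nat_lit 0) (nat_lit 0) (XT.lf (nat_lit 0) (nat_lit 30281560) (nat_lit 760) (nat_lit 7103119968) (nat_lit 76) (nat_lit 872541619) (nat_lit 86) (nat_lit 5) (nat_lit 96) (nat_lit 5) (nat_lit 87) (nat_lit 5) (nat_lit 278) (nat_lit 263) (nat_lit 239)) (XT.lf (nat_lit 0) (nat_lit 2071735755) (nat_lit 760) (nat_lit 2637701512) (nat_lit 76) (nat_lit 3461648954) (nat_lit 86) (nat_lit 5) (nat_lit 96) (nat_lit 5) (nat_lit 87) (nat_lit 5) (nat_lit 279) (nat_lit 263) (nat_lit 238))) (XT.nd (nat_lit 78) (nat_lit 380) (nat_lit 0) (XT.lf (nat_lit 0) (nat_lit 2033520469) (nat_lit 532) (nat_lit 2128595475) (nat_lit 608) (nat_lit 4185206094) (nat_lit 79) (nat_lit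 5) (nat_lit 86) (nat_lit 5) (nat_lit 87) (nat_lit 5) (nat_lit 280) (nat_lit 263) (nat_lit 237)) (XT.nd (nat_lit 78) (nat_lit 380) (nat_lit 0) (XT.lf (nat_lit 0) (nat_lit 6329386686) (nat_lit 608) (nat_lit 1595576497) (nat_lit 76) (nat_lit 608957656) (nat_lit 79) (nat_lit 5) (nat_lit 87) (nat_lit 5) (nat_lit 80) (nat_lit 5) (nat_lit 281) (nat_lit 263) (nat_lit 236)) (XT.lf (nat_lit 0) (nat_lit 3349428274) (nat_lit 380) (nat_lit 5264584459) (nat_lit 456) (nat_lit 115548940) (nat_lit 74) (nat_lit 5) (nat_lit 79) (nat_lit 5) (nat_lit 80) (nat_lit 5) (nat_lit 282) (nat_lit 263) (nat_lit 235))))) (XT.nd (nat_lit 156) (nat_lit 684) (nat_lit 0) (XT.nd (nat_lit 78) (nat_lit 304) (nat_lit 0) (XT.lf (nat_lit 0) (nat_lit 1961730112) (nat_lit 456) (nat_lit 452262010) (nat_lit 76) (nat_lit 6521999503) (nat_lit 73) (nat_lit 5) (nat_lit 79) (nat_lit 5) (nat_lit 74) (nat_lit 5) (nat_lit 283) (nat_lit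 263) (nat_lit 234)) (XT.lf (nat_lit 0) (nat_lit 4150620885) (nat_lit 380) (nat_lit 4368241865) (nat_lit 76) (nat_lit 633343731) (nat_lit 69) (nat_lit 5) (nat_lit 74) (nat_lit 5) (nat_lit 70) (nat_lit 5) (nat_lit 284) (nat_lit 263) (nat_lit 233))) (XT.nd (nat_lit 78) (nat_lit 380) (nat_lit 0) (XT.lf (nat_lit 0) (nat_lit 824343809) (nat_lit 304) (nat_lit 5613583323) (nat_lit 380) (nat_lit 2941989419) (nat_lit 65) (nat_lit 5) (nat_lit 69) (nat_lit 5) (nat_lit 70) (nat_lit 5) (nat_lit 285) (nat_lit 263) (nat_lit 232)) (XT.nd (nat_lit 78) (nat_lit 380) (nat_lit 0) (XT.lf (nat_lit 0) (nat_lit 6348327765) (nat_lit 304) (nat_lit 2496137334) (nat_lit 380) (nat_lit 774430387) (nat_lit 65) (nat_lit 5) (nat_lit 69) (nat_lit 5) (nat_lit 70) (nat_lit 5) (nat_lit 286) (nat_lit 263) (nat_lit 231)) (XT.lf (nat_lit 0) (nat_lit 1434458462) (nat_lit 380) (nat_lit 7634469834) (nat_lit 76) (nat_lit 800787368)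 (nat_lit 60) (nat_lit 5) (nat_lit 65) (nat_lit 5) (nat_lit 61) (nat_lit 5) (nat_lit 287) (nat_lit 263) (nat_lit 230)))))) (XT.nd (nat_lit 390) (nat_lit 532) (nat_lit 0) (XT.nd (nat_lit 156) (nat_lit 532) (nat_lit 0) (XT.nd (nat_lit 78) (nat_lit 304) (nat_lit 0) (XT.lf (nat_lit 0) (nat_lit 3759763660) (nat_lit 380) (nat_lit 2135254657) (nat_lit 76) (nat_lit 4235933296) (nat_lit 60) (nat_lit 5) (nat_lit 65) (nat_lit 5) (nat_lit 61) (nat_lit 5) (nat_lit 288) (nat_lit 263) (nat_lit 229)) (XT.lf (nat_lit 0) (nat_lit 3680215783) (nat_lit 304) (nat_lit 2516463391) (nat_lit 380) (nat_lit 4208907155) (nat_lit 56) (nat_lit 5) (nat_lit 60) (nat_lit 5) (nat_lit 61) (nat_lit 5) (nat_lit 289) (nat_lit 263) (nat_lit 228))) (XT.nd (nat_lit 78) (nat_lit 532) (nat_lit 0) (XT.lf (nat_lit 0) (nat_lit 8747728149) (nat_lit 380) (nat_lit 926387915) (nat_lit 76) (nat_lit 1020321592) (nat_lit 56) (nat_lit 5)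 (nat_lit 61) (nat_lit 5) (nat_lit 57) (nat_lit 5) (nat_lit 290) (nat_lit 263) (nat_lit 227)) (XT.nd (nat_lit 78) (nat_lit 228) (nat_lit 0) (XT.lf (nat_lit 0) (nat_lit 480828633) (nat_lit 304) (nat_lit 5788593184) (nat_lit 76) (nat_lit 4724767762) (nat_lit 52) (nat_lit 5) (nat_lit 56) (nat_lit 5) (nat_lit 53) (nat_lit 5) (nat_lit 291) (nat_lit 263) (nat_lit 226)) (XT.lf (nat_lit 0) (nat_lit 269455250) (nat_lit 228) (nat_lit 2657936400) (nat_lit 304) (nat_lit 8381874019) (nat_lit 49) (nat_lit 5) (nat_lit 52) (nat_lit 5) (nat_lit 53) (nat_lit 5) (nat_lit 292) (nat_lit 263) (nat_lit 225))))) (XT.nd (nat_lit 156) (nat_lit 304) (nat_lit 0) (XT.nd (nat_lit 78) (nat_lit 228) (nat_lit 0) (XT.lf (nat_lit 0) (nat_lit 5557821463) (nat_lit 304) (nat_lit 4899687314) (nat_lit 76) (nat_lit 1179591516) (nat_lit 49) (nat_lit 5) (nat_lit 53) (nat_lit 5) (nat_lit 50) (nat_lit 5) (nat_lit 293) (nat_lit 263)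 (nat_lit 224)) (XT.lf (nat_lit 0) (nat_lit 1478276204) (nat_lit 228) (nat_lit 6854998924) (nat_lit 304) (nat_lit 3647454173) (nat_lit 46) (nat_lit 5) (nat_lit 49) (nat_lit 5) (nat_lit 50) (nat_lit 5) (nat_lit 294) (nat_lit 263) (nat_lit 223))) (XT.nd (nat_lit 78) (nat_lit 304) (nat_lit 0) (XT.lf (nat_lit 0) (nat_lit 8273512816) (nat_lit 228) (nat_lit 3005227884) (nat_lit 304) (nat_lit 1061311167) (nat_lit 46) (nat_lit 5) (nat_lit 49) (nat_lit 5) (nat_lit 50) (nat_lit 5) (nat_lit 295) (nat_lit 263) (nat_lit 222)) (XT.nd (nat_lit 78) (nat_lit 0) (nat_lit 0) (XT.lf (nat_lit 0) (nat_lit 1609894344) (nat_lit 304) (nat_lit 10052404490) (nat_lit 76) (nat_lit 1053382717) (nat_lit 42) (nat_lit 5) (nat_lit 46) (nat_lit 5) (nat_lit 43) (nat_lit 5) (nat_lit 296) (nat_lit 263) (nat_lit 221)) (XT.lf (nat_lit 0) (nat_lit 4449104200) (nat_lit 304) (nat_lit 3374781516) (nat_lit 76) (nat_lit 5281895505)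 (nat_lit 42) (nat_lit 5) (nat_lit 46) (nat_lit 5) (nat_lit 43) (nat_lit 5) (nat_lit 297) (nat_lit 263) (nat_lit 220))))))) (XT.nd (nat_lit 780) (nat_lit 760) (nat_lit 0) (XT.nd (nat_lit 390) (nat_lit 380) (nat_lit 0) (XT.nd (nat_lit 156) (nat_lit 456) (nat_lit 0) (XT.nd (nat_lit 78) (nat_lit 0) (nat_lit 0) (XT.lf (nat_lit 0) (nat_lit 3687012211) (nat_lit 152) (nat_lit 3754014787) (nat_lit 228) (nat_lit 6073882191) (nat_lit 40) (nat_lit 5) (nat_lit 42) (nat_lit 5) (nat_lit 43) (nat_lit 5) (nat_lit 298) (nat_lit 263) (nat_lit 219)) (XT.lf (nat_lit 0) (nat_lit 10602793829) (nat_lit 228) (nat_lit 2800257784) (nat_lit 76) (nat_lit 540487583) (nat_lit 40) (nat_lit 5) (nat_lit 43) (nat_lit 5) (nat_lit 41) (nat_lit 5) (nat_lit 299) (nat_lit 263) (nat_lit 218))) (XT.nd (nat_lit 78) (nat_lit 228) (nat_lit 0) (XT.lf (nat_lit 0) (nat_lit 4599052077) (nat_lit 228) (nat_lit 9413179277) (nat_lit 304)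 (nat_lit 376945502) (nat_lit 37) (nat_lit 5) (nat_lit 40) (nat_lit 5) (nat_lit 41) (nat_lit 5) (nat_lit 300) (nat_lit 263) (nat_lit 217)) (XT.nd (nat_lit 78) (nat_lit 152) (nat_lit 0) (XT.lf (nat_lit 0) (nat_lit 2652273198) (nat_lit 304) (nat_lit 2498458675) (nat_lit 76) (nat_lit 9704041206) (nat_lit 36) (nat_lit 5) (nat_lit 40) (nat_lit 5) (nat_lit 37) (nat_lit 5) (nat_lit 301) (nat_lit 263) (nat_lit 216)) (XT.lf (nat_lit 0) (nat_lit 5257207755) (nat_lit 152) (nat_lit 603791446) (nat_lit 228) (nat_lit 9480352976) (nat_lit 34) (nat_lit 5) (nat_lit 36) (nat_lit 5) (nat_lit 37) (nat_lit 5) (nat_lit 302) (nat_lit 263) (nat_lit 215))))) (XT.nd (nat_lit 156) (nat_lit 228) (nat_lit 0) (XT.nd (nat_lit 78) (nat_lit 152) (nat_lit 0) (XT.lf (nat_lit 0) (nat_lit 9297589992) (nat_lit 228) (nat_lit 2491940166) (nat_lit 76) (nat_lit 4059404119) (nat_lit 34) (nat_lit 5) (nat_lit 37) (nat_lit 5) (nat_lit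 35) (nat_lit 5) (nat_lit 303) (nat_lit 263) (nat_lit 214)) (XT.lf (nat_lit 0) (nat_lit 5588473430) (nat_lit 152) (nat_lit 7375933608) (nat_lit 228) (nat_lit 3414611914) (nat_lit 32) (nat_lit 5) (nat_lit 34) (nat_lit 5) (nat_lit 35) (nat_lit 5) (nat_lit 304) (nat_lit 263) (nat_lit 213))) (XT.nd (nat_lit 78) (nat_lit 228) (nat_lit 0) (XT.lf (nat_lit 0) (nat_lit 14100027230) (nat_lit 152) (nat_lit 2718904753) (nat_lit 228) (nat_lit 116498771) (nat_lit 32) (nat_lit 5) (nat_lit 34) (nat_lit 5) (nat_lit 35) (nat_lit 5) (nat_lit 305) (nat_lit 263) (nat_lit 212)) (XT.nd (nat_lit 78) (nat_lit 0) (nat_lit 0) (XT.lf (nat_lit 0) (nat_lit 3325815937) (nat_lit 228) (nat_lit 11964186673) (nat_lit 76) (nat_lit 2222765246) (nat_lit 29) (nat_lit 5) (nat_lit 32) (nat_lit 5) (nat_lit 30) (nat_lit 5) (nat_lit 306) (nat_lit 263) (nat_lit 211)) (XT.lf (nat_lit 0) (nat_lit 6993575964) (nat_lit 228) (nat_lit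 3772016686) (nat_lit 76) (nat_lit 7350457064) (nat_lit 29) (nat_lit 5) (nat_lit 32) (nat_lit 5) (nat_lit 30) (nat_lit 5) (nat_lit 307) (nat_lit 263) (nat_lit 210)))))) (XT.nd (nat_lit 390) (nat_lit 304) (nat_lit 0) (XT.nd (nat_lit 156) (nat_lit 304) (nat_lit 0) (XT.nd (nat_lit 78) (nat_lit 0) (nat_lit 0) (XT.lf (nat_lit 0) (nat_lit 4932016622) (nat_lit 152) (nat_lit 5955296991) (nat_lit 228) (nat_lit 7860086504) (nat_lit 27) (nat_lit 5) (nat_lit 29) (nat_lit 5) (nat_lit 30) (nat_lit 5) (nat_lit 308) (nat_lit 263) (nat_lit 209)) (XT.lf (nat_lit 0) (nat_lit 14147503773) (nat_lit 152) (nat_lit 858486955) (nat_lit 228) (nat_lit 4402846998) (nat_lit 27) (nat_lit 5) (nat_lit 29) (nat_lit 5) (nat_lit 30) (nat_lit 5) (nat_lit 309) (nat_lit 263) (nat_lit 208))) (XT.nd (nat_lit 78) (nat_lit 228) (nat_lit 0) (XT.lf (nat_lit 0) (nat_lit 3715777743) (nat_lit 76) (nat_lit 15710648161) (nat_lit 152)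 (nat_lit 672160878) (nat_lit 26) (nat_lit 5) (nat_lit 27) (nat_lit 5) (nat_lit 28) (nat_lit 4) (nat_lit 310) (nat_lit 263) (nat_lit 207)) (XT.nd (nat_lit 78) (nat_lit 152) (nat_lit 0) (XT.lf (nat_lit 0) (nat_lit 3213667228) (nat_lit 152) (nat_lit 7613807697) (nat_lit 76) (nat_lit 9989219566) (nat_lit 25) (nat_lit 5) (nat_lit 27) (nat_lit 5) (nat_lit 26) (nat_lit 5) (nat_lit 311) (nat_lit 263) (nat_lit 206)) (XT.lf (nat_lit 0) (nat_lit 1582171194) (nat_lit 152) (nat_lit 5683092802) (nat_lit 228) (nat_lit 14305215910) (nat_lit 23) (nat_lit 5) (nat_lit 25) (nat_lit 5) (nat_lit 26) (nat_lit 5) (nat_lit 312) (nat_lit 263) (nat_lit 205))))) (XT.nd (nat_lit 234) (nat_lit 228) (nat_lit 0) (XT.nd (nat_lit 78) (nat_lit 76) (nat_lit 0) (XT.lf (nat_lit 0) (nat_lit 11452014475) (nat_lit 152) (nat_lit 166407804) (nat_lit 228) (nat_lit 10738608551) (nat_lit 23) (nat_lit 5) (nat_lit 25) (nat_lit 5)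 (nat_lit 26) (nat_lit 5) (nat_lit 313) (nat_lit 263) (nat_lit 204)) (XT.nd (nat_lit 78) (nat_lit 76) (nat_lit 0) (XT.lf (nat_lit 0) (nat_lit 16248240804) (nat_lit 228) (nat_lit 1504422683) (nat_lit 76) (nat_lit 5427319812) (nat_lit 23) (nat_lit 5) (nat_lit 26) (nat_lit 5) (nat_lit 24) (nat_lit 4) (nat_lit 314) (nat_lit 263) (nat_lit 203)) (XT.lf (nat_lit 0) (nat_lit 8591773627) (nat_lit 76) (nat_lit 12627182442) (nat_lit 152) (nat_lit 2819679996) (nat_lit 22) (nat_lit 5) (nat_lit 23) (nat_lit 5) (nat_lit 24) (nat_lit 4) (nat_lit 315) (nat_lit 263) (nat_lit 202)))) (XT.nd (nat_lit 78) (nat_lit 152) (nat_lit 0) (XT.lf (nat_lit 0) (nat_lit 1448601574) (nat_lit 152) (nat_lit 5764604135) (nat_lit 76) (nat_lit 17725939162) (nat_lit 21) (nat_lit 5) (nat_lit 23) (nat_lit 5) (nat_lit 22) (nat_lit 5) (nat_lit 316) (nat_lit 263) (nat_lit 201)) (XT.nd (nat_lit 78) (nat_lit 0) (nat_lit 0) (XT.lf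 (nat_lit 0) (nat_lit 4453451505) (nat_lit 152) (nat_lit 1425583546) (nat_lit 228) (nat_lit 20001177815) (nat_lit 19) (nat_lit 5) (nat_lit 21) (nat_lit 5) (nat_lit 22) (nat_lit 5) (nat_lit 317) (nat_lit 263) (nat_lit 200)) (XT.lf (nat_lit 0) (nat_lit 10677071772) (nat_lit 228) (nat_lit 11600045949) (nat_lit 76) (nat_lit 4583931354) (nat_lit 19) (nat_lit 5) (nat_lit 22) (nat_lit 5) (nat_lit 20) (nat_lit 4) (nat_lit 318) (nat_lit 263) (nat_lit 199))))))))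
noncomputable def xc116 : XT := (XT.nd (nat_lit 1560) (nat_lit 380) (nat_lit 0) (XT.nd (nat_lit 780) (nat_lit 304) (nat_lit 0) (XT.nd (nat_lit 390) (nat_lit 152) (nat_lit 0) (XT.nd (nat_lit 156) (nat_lit 228) (nat_lit 0) (XT.nd (nat_lit 78) (nat_lit 76) (nat_lit 0) (XT.lf (nat_lit 0) (nat_lit 15713840628) (nat_lit 228) (nat_lit 1348141030) (nat_lit 76) (nat_lit 10829021918) (nat_lit 19) (nat_lit 5) (nat_lit 22) (nat_lit 5) (nat_lit 20) (nat_lit 4) (nat_lit 319) (nat_lit 263) (nat_lit 198)) (XT.lf (nat_lit 0) (nat_lit 9685620387) (nat_lit 76) (nat_lit 11444675862) (nat_lit 152) (nat_lit 7835784274) (nat_lit 18) (nat_lit 5) (nat_lit 19) (nat_lit 5) (nat_lit 20) (nat_lit 4) (nat_lit 320) (nat_lit 263) (nat_lit 197))) (XT.nd (nat_lit 78) (nat_lit 228) (nat_lit 0) (XT.lf (nat_lit 0) (nat_lit 21277792283) (nat_lit 76) (nat_lit 5539729563) (nat_lit 152) (nat_lit 3277408435) (nat_lit 18) (nat_lit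 5) (nat_lit 19) (nat_lit 5) (nat_lit 20) (nat_lit 4) (nat_lit 321) (nat_lit 263) (nat_lit 196)) (XT.nd (nat_lit 78) (nat_lit 0) (nat_lit 0) (XT.lf (nat_lit 0) (nat_lit 1483400761) (nat_lit 228) (nat_lit 29112928169) (nat_lit 76) (nat_lit 681590084) (nat_lit 15) (nat_lit 5) (nat_lit 18) (nat_lit 5) (nat_lit 16) (nat_lit 4) (nat_lit 322) (nat_lit 263) (nat_lit 195)) (XT.lf (nat_lit 0) (nat_lit 6592725587) (nat_lit 228) (nat_lit 18696378911) (nat_lit 76) (nat_lit 7217249507) (nat_lit 15) (nat_lit 5) (nat_lit 18) (nat_lit 5) (nat_lit 16) (nat_lit 4) (nat_lit 323) (nat_lit 263) (nat_lit 194))))) (XT.nd (nat_lit 156) (nat_lit 76) (nat_lit 0) (XT.nd (nat_lit 78) (nat_lit 76) (nat_lit 0) (XT.lf (nat_lit 0) (nat_lit 11936594689) (nat_lit 228) (nat_lit 7796272619) (nat_lit 76) (nat_lit 14064402963) (nat_lit 15) (nat_lit 5) (nat_lit 18) (nat_lit 5) (nat_lit 16) (nat_lit 4) (nat_lit 324) (nat_lit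 263) (nat_lit 193)) (XT.lf (nat_lit 0) (nat_lit 3732816789) (nat_lit 76) (nat_lit 13853194507) (nat_lit 152) (nat_lit 17564816142) (nat_lit 14) (nat_lit 5) (nat_lit 15) (nat_lit 5) (nat_lit 16) (nat_lit 4) (nat_lit 325) (nat_lit 263) (nat_lit 192))) (XT.nd (nat_lit 78) (nat_lit 76) (nat_lit 0) (XT.lf (nat_lit 0) (nat_lit 16074106514) (nat_lit 76) (nat_lit 7556303781) (nat_lit 152) (nat_lit 12936038768) (nat_lit 14) (nat_lit 5) (nat_lit 15) (nat_lit 5) (nat_lit 16) (nat_lit 4) (nat_lit 326) (nat_lit 263) (nat_lit 191)) (XT.nd (nat_lit 78) (nat_lit 76) (nat_lit 0) (XT.lf (nat_lit 0) (nat_lit 28999200596) (nat_lit 76) (nat_lit 959236185) (nat_lit 152) (nat_lit 8095356212) (nat_lit 14) (nat_lit 5) (nat_lit 15) (nat_lit 5) (nat_lit 16) (nat_lit 4) (nat_lit 327) (nat_lit 263) (nat_lit 190)) (XT.lf (nat_lit 0) (nat_lit 2923075015) (nat_lit 76) (nat_lit 33800674046) (nat_lit 76) (nat_lit 2885721882)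 (nat_lit 13) (nat_lit 4) (nat_lit 14) (nat_lit 5) (nat_lit 14) (nat_lit 4) (nat_lit 328) (nat_lit 263) (nat_lit 189)))))) (XT.nd (nat_lit 390) (nat_lit 152) (nat_lit 0) (XT.nd (nat_lit 156) (nat_lit 76) (nat_lit 0) (XT.nd (nat_lit 78) (nat_lit 0) (nat_lit 0) (XT.lf (nat_lit 0) (nat_lit 2655393513) (nat_lit 152) (nat_lit 25512306995) (nat_lit 76) (nat_lit 13065539017) (nat_lit 12) (nat_lit 5) (nat_lit 14) (nat_lit 5) (nat_lit 13) (nat_lit 4) (nat_lit 329) (nat_lit 263) (nat_lit 188)) (XT.lf (nat_lit 0) (nat_lit 8359569482) (nat_lit 152) (nat_lit 13857709623) (nat_lit 76) (nat_lit 20719412428) (nat_lit 12) (nat_lit 5) (nat_lit 14) (nat_lit 5) (nat_lit 13) (nat_lit 4) (nat_lit 330) (nat_lit 263) (nat_lit 187))) (XT.nd (nat_lit 78) (nat_lit 76) (nat_lit 0) (XT.lf (nat_lit 0) (nat_lit 14332748518) (nat_lit 152) (nat_lit 1649800565) (nat_lit 76) (nat_lit 28743586433) (nat_lit 12) (nat_lit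 5) (nat_lit 14) (nat_lit 5) (nat_lit 13) (nat_lit 4) (nat_lit 331) (nat_lit 263) (nat_lit 186)) (XT.nd (nat_lit 78) (nat_lit 0) (nat_lit 0) (XT.lf (nat_lit 0) (nat_lit 11508841427) (nat_lit 76) (nat_lit 9259996317) (nat_lit 152) (nat_lit 25828010048) (nat_lit 11) (nat_lit 5) (nat_lit 12) (nat_lit 5) (nat_lit 13) (nat_lit 4) (nat_lit 332) (nat_lit 263) (nat_lit 185)) (XT.lf (nat_lit 0) (nat_lit 25355127445) (nat_lit 76) (nat_lit 2184414707) (nat_lit 152) (nat_lit 21020921238) (nat_lit 11) (nat_lit 5) (nat_lit 12) (nat_lit 5) (nat_lit 13) (nat_lit 4) (nat_lit 333) (nat_lit 263) (nat_lit 184))))) (XT.nd (nat_lit 156) (nat_lit 76) (nat_lit 0) (XT.nd (nat_lit 78) (nat_lit 76) (nat_lit 0) (XT.lf (nat_lit 0) (nat_lit 34716076173) (nat_lit 152) (nat_lit 10837216483) (nat_lit 0) (nat_lit 5065610244) (nat_lit 11) (nat_lit 5) (nat_lit 13) (nat_lit 4) (nat_lit 11) (nat_lit 4) (nat_lit 334) (nat_lit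 263) (nat_lit 183)) (XT.lf (nat_lit 0) (nat_lit 2157016717) (nat_lit 76) (nat_lit 40150008363) (nat_lit 76) (nat_lit 10470467371) (nat_lit 10) (nat_lit 4) (nat_lit 11) (nat_lit 5) (nat_lit 11) (nat_lit 4) (nat_lit 335) (nat_lit 263) (nat_lit 182))) (XT.nd (nat_lit 78) (nat_lit 76) (nat_lit 0) (XT.lf (nat_lit 0) (nat_lit 16152096715) (nat_lit 76) (nat_lit 34295329098) (nat_lit 76) (nat_lit 4588097571) (nat_lit 10) (nat_lit 4) (nat_lit 11) (nat_lit 5) (nat_lit 11) (nat_lit 4) (nat_lit 336) (nat_lit 263) (nat_lit 181)) (XT.nd (nat_lit 78) (nat_lit 0) (nat_lit 0) (XT.lf (nat_lit 0) (nat_lit 1524352823) (nat_lit 152) (nat_lit 26608680178) (nat_lit 76) (nat_lit 29272849333) (nat_lit 9) (nat_lit 5) (nat_lit 11) (nat_lit 5) (nat_lit 10) (nat_lit 4) (nat_lit 337) (nat_lit 263) (nat_lit 180)) (XT.lf (nat_lit 0) (nat_lit 7775664646) (nat_lit 152) (nat_lit 13818607073) (nat_lit 76) (nat_lit 38297361475)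 (nat_lit 9) (nat_lit 5) (nat_lit 11) (nat_lit 5) (nat_lit 10) (nat_lit 4) (nat_lit 338) (nat_lit 263) (nat_lit 179))))))) (XT.nd (nat_lit 780) (nat_lit 152) (nat_lit 0) (XT.nd (nat_lit 390) (nat_lit 152) (nat_lit 0) (XT.nd (nat_lit 156) (nat_lit 0) (nat_lit 0) (XT.nd (nat_lit 78) (nat_lit 76) (nat_lit 0) (XT.lf (nat_lit 0) (nat_lit 14327569749) (nat_lit 152) (nat_lit 411121738) (nat_lit 76) (nat_lit 47763584584) (nat_lit 9) (nat_lit 5) (nat_lit 11) (nat_lit 5) (nat_lit 10) (nat_lit 4) (nat_lit 339) (nat_lit 263) (nat_lit 178)) (XT.lf (nat_lit 0) (nat_lit 14096886826) (nat_lit 76) (nat_lit 7318872990) (nat_lit 152) (nat_lit 43817262371) (nat_lit 8) (nat_lit 5) (nat_lit 9) (nat_lit 5) (nat_lit 10) (nat_lit 4) (nat_lit 340) (nat_lit 263) (nat_lit 177))) (XT.nd (nat_lit 78) (nat_lit 0) (nat_lit 0) (XT.lf (nat_lit 0) (nat_lit 28861473298) (nat_lit 152) (nat_lit 38783986778) (nat_lit 0) (nat_lit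 454695149) (nat_lit 8) (nat_lit 5) (nat_lit 10) (nat_lit 4) (nat_lit 8) (nat_lit 4) (nat_lit 341) (nat_lit 263) (nat_lit 176)) (XT.nd (nat_lit 78) (nat_lit 0) (nat_lit 0) (XT.lf (nat_lit 0) (nat_lit 36788662528) (nat_lit 152) (nat_lit 25954322714) (nat_lit 0) (nat_lit 8362205231) (nat_lit 8) (nat_lit 5) (nat_lit 10) (nat_lit 4) (nat_lit 8) (nat_lit 4) (nat_lit 342) (nat_lit 263) (nat_lit 175)) (XT.lf (nat_lit 0) (nat_lit 45101933647) (nat_lit 152) (nat_lit 12502328230) (nat_lit 0) (nat_lit 16656734305) (nat_lit 8) (nat_lit 5) (nat_lit 10) (nat_lit 4) (nat_lit 8) (nat_lit 4) (nat_lit 343) (nat_lit 263) (nat_lit 174))))) (XT.nd (nat_lit 156) (nat_lit 76) (nat_lit 0) (XT.nd (nat_lit 78) (nat_lit 0) (nat_lit 0) (XT.lf (nat_lit 0) (nat_lit 1657061548) (nat_lit 76) (nat_lit 52189889983) (nat_lit 76) (nat_lit 23726841075) (nat_lit 7) (nat_lit 4) (nat_lit 8) (nat_lit 5) (nat_lit 8) (nat_lit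 4) (nat_lit 344) (nat_lit 263) (nat_lit 173)) (XT.lf (nat_lit 0) (nat_lit 16940526881) (nat_lit 76) (nat_lit 46290824151) (nat_lit 76) (nat_lit 17810775656) (nat_lit 7) (nat_lit 4) (nat_lit 8) (nat_lit 5) (nat_lit 8) (nat_lit 4) (nat_lit 345) (nat_lit 263) (nat_lit 172))) (XT.nd (nat_lit 78) (nat_lit 76) (nat_lit 0) (XT.lf (nat_lit 0) (nat_lit 32971073536) (nat_lit 76) (nat_lit 40104751965) (nat_lit 76) (nat_lit 11608513387) (nat_lit 7) (nat_lit 4) (nat_lit 8) (nat_lit 5) (nat_lit 8) (nat_lit 4) (nat_lit 346) (nat_lit 263) (nat_lit 171)) (XT.nd (nat_lit 78) (nat_lit 76) (nat_lit 0) (XT.lf (nat_lit 0) (nat_lit 49786869482) (nat_lit 76) (nat_lit 33616944680) (nat_lit 76) (nat_lit 5105286976) (nat_lit 7) (nat_lit 4) (nat_lit 8) (nat_lit 5) (nat_lit 8) (nat_lit 4) (nat_lit 347) (nat_lit 263) (nat_lit 170)) (XT.lf (nat_lit 0) (nat_lit 1659516343) (nat_lit 152) (nat_lit 25124334082) (nat_lit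 76) (nat_lit 65740331273) (nat_lit 6) (nat_lit 5) (nat_lit 8) (nat_lit 5) (nat_lit 7) (nat_lit 4) (nat_lit 348) (nat_lit 263) (nat_lit 169)))))) (XT.nd (nat_lit 390) (nat_lit 76) (nat_lit 0) (XT.nd (nat_lit 156) (nat_lit 0) (nat_lit 0) (XT.nd (nat_lit 78) (nat_lit 76) (nat_lit 0) (XT.lf (nat_lit 0) (nat_lit 8582955922) (nat_lit 152) (nat_lit 10945268547) (nat_lit 76) (nat_lit 77208012220) (nat_lit 6) (nat_lit 5) (nat_lit 8) (nat_lit 5) (nat_lit 7) (nat_lit 4) (nat_lit 349) (nat_lit 263) (nat_lit 168)) (XT.lf (nat_lit 0) (nat_lit 4058324182) (nat_lit 76) (nat_lit 11849954838) (nat_lit 152) (nat_lit 85247833095) (nat_lit 5) (nat_lit 5) (nat_lit 6) (nat_lit 5) (nat_lit 7) (nat_lit 4) (nat_lit 350) (nat_lit 263) (nat_lit 167))) (XT.nd (nat_lit 78) (nat_lit 0) (nat_lit 0) (XT.lf (nat_lit 0) (nat_lit 20178004692) (nat_lit 76) (nat_lit 3599721091) (nat_lit 152) (nat_lit 82010365762) (nat_lit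 5) (nat_lit 5) (nat_lit 6) (nat_lit 5) (nat_lit 7) (nat_lit 4) (nat_lit 351) (nat_lit 263) (nat_lit 166)) (XT.nd (nat_lit 78) (nat_lit 0) (nat_lit 0) (XT.lf (nat_lit 0) (nat_lit 32112446542) (nat_lit 152) (nat_lit 73640727311) (nat_lit 0) (nat_lit 4894908968) (nat_lit 5) (nat_lit 5) (nat_lit 7) (nat_lit 4) (nat_lit 5) (nat_lit 4) (nat_lit 352) (nat_lit 263) (nat_lit 165)) (XT.lf (nat_lit 0) (nat_lit 40916013884) (nat_lit 152) (nat_lit 61144938843) (nat_lit 0) (nat_lit 13687518224) (nat_lit 5) (nat_lit 5) (nat_lit 7) (nat_lit 4) (nat_lit 5) (nat_lit 4) (nat_lit 353) (nat_lit 263) (nat_lit 164))))) (XT.nd (nat_lit 156) (nat_lit 76) (nat_lit 0) (XT.nd (nat_lit 78) (nat_lit 0) (nat_lit 0) (XT.lf (nat_lit 0) (nat_lit 50153186949) (nat_lit 152) (nat_lit 48036767840) (nat_lit 0) (nat_lit 22914255017) (nat_lit 5) (nat_lit 5) (nat_lit 7) (nat_lit 4) (nat_lit 5) (nat_lit 4) (nat_lit 354) (nat_lit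 263) (nat_lit 163)) (XT.lf (nat_lit 0) (nat_lit 59845959005) (nat_lit 152) (nat_lit 34285004368) (nat_lit 0) (nat_lit 32597087767) (nat_lit 5) (nat_lit 5) (nat_lit 7) (nat_lit 4) (nat_lit 5) (nat_lit 4) (nat_lit 355) (nat_lit 263) (nat_lit 162))) (XT.nd (nat_lit 78) (nat_lit 76) (nat_lit 0) (XT.lf (nat_lit 0) (nat_lit 70017408082) (nat_lit 152) (nat_lit 19856906136) (nat_lit 0) (nat_lit 42759070838) (nat_lit 5) (nat_lit 5) (nat_lit 7) (nat_lit 4) (nat_lit 5) (nat_lit 4) (nat_lit 356) (nat_lit 263) (nat_lit 161)) (XT.nd (nat_lit 78) (nat_lit 76) (nat_lit 0) (XT.lf (nat_lit 0) (nat_lit 80691751916) (nat_lit 152) (nat_lit 4718120526) (nat_lit 0) (nat_lit 53424399428) (nat_lit 5) (nat_lit 5) (nat_lit 7) (nat_lit 4) (nat_lit 5) (nat_lit 4) (nat_lit 357) (nat_lit 263) (nat_lit 160)) (XT.lf (nat_lit 0) (nat_lit 11536641770) (nat_lit 76) (nat_lit 80537883150) (nat_lit 76) (nat_lit 53261944715)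 (nat_lit 4) (nat_lit 4) (nat_lit 5) (nat_lit 5) (nat_lit 5) (nat_lit 4) (nat_lit 358) (nat_lit 263) (nat_lit 159))))))))
noncomputable def xc117 : XT := (XT.nd (nat_lit 1560) (nat_lit 0) (nat_lit 0) (XT.nd (nat_lit 780) (nat_lit 76) (nat_lit 0) (XT.nd (nat_lit 390) (nat_lit 76) (nat_lit 0) (XT.nd (nat_lit 156) (nat_lit 0) (nat_lit 0) (XT.nd (nat_lit 78) (nat_lit 0) (nat_lit 0) (XT.lf (nat_lit 0) (nat_lit 28757902129) (nat_lit 76) (nat_lit 75343131469) (nat_lit 76) (nat_lit 48059015942) (nat_lit 4) (nat_lit 4) (nat_lit 5) (nat_lit 5) (nat_lit 5) (nat_lit 4) (nat_lit 359) (nat_lit 263) (nat_lit 158)) (XT.lf (nat_lit 0) (nat_lit 46830661177) (nat_lit 76) (nat_lit 69893152598) (nat_lit 76) (nat_lit 42601249364) (nat_lit 4) (nat_lit 4) (nat_lit 5) (nat_lit 5) (nat_lit 5) (nat_lit 4) (nat_lit 360) (nat_lit 263) (nat_lit 157))) (XT.nd (nat_lit 78) (nat_lit 0) (nat_lit 0) (XT.lf (nat_lit 0)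 (nat_lit 65797949294) (nat_lit 76) (nat_lit 64174970396) (nat_lit 76) (nat_lit 36875650299) (nat_lit 4) (nat_lit 4) (nat_lit 5) (nat_lit 5) (nat_lit 5) (nat_lit 4) (nat_lit 361) (nat_lit 263) (nat_lit 156)) (XT.nd (nat_lit 78) (nat_lit 0) (nat_lit 0) (XT.lf (nat_lit 0) (nat_lit 85704926689) (nat_lit 76) (nat_lit 58174970145) (nat_lit 76) (nat_lit 30868586368) (nat_lit 4) (nat_lit 4) (nat_lit 5) (nat_lit 5) (nat_lit 5) (nat_lit 4) (nat_lit 362) (nat_lit 263) (nat_lit 155)) (XT.lf (nat_lit 0) (nat_lit 106598990927) (nat_lit 76) (nat_lit 51878866129) (nat_lit 76) (nat_lit 24565755038) (nat_lit 4) (nat_lit 4) (nat_lit 5) (nat_lit 5) (nat_lit 5) (nat_lit 4) (nat_lit 363) (nat_lit 263) (nat_lit 154))))) (XT.nd (nat_lit 156) (nat_lit 76) (nat_lit 0) (XT.nd (nat_lit 78) (nat_lit 0) (nat_lit 0) (XT.lf (nat_lit 0) (nat_lit 128529889781) (nat_lit 76) (nat_lit 45271667624) (nat_lit 76) (nat_lit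 17952149568) (nat_lit 4) (nat_lit 4) (nat_lit 5) (nat_lit 5) (nat_lit 5) (nat_lit 4) (nat_lit 364) (nat_lit 263) (nat_lit 153)) (XT.lf (nat_lit 0) (nat_lit 151549839676) (nat_lit 76) (nat_lit 38337643205) (nat_lit 76) (nat_lit 11012023277) (nat_lit 4) (nat_lit 4) (nat_lit 5) (nat_lit 5) (nat_lit 5) (nat_lit 4) (nat_lit 365) (nat_lit 263) (nat_lit 152))) (XT.nd (nat_lit 78) (nat_lit 76) (nat_lit 0) (XT.lf (nat_lit 0) (nat_lit 175713650017) (nat_lit 76) (nat_lit 31060283291) (nat_lit 76) (nat_lit 3728852056) (nat_lit 4) (nat_lit 4) (nat_lit 5) (nat_lit 5) (nat_lit 5) (nat_lit 4) (nat_lit 366) (nat_lit 263) (nat_lit 151)) (XT.nd (nat_lit 78) (nat_lit 0) (nat_lit 0) (XT.lf (nat_lit 0) (nat_lit 3789409970) (nat_lit 152) (nat_lit 19568675372) (nat_lit 76) (nat_lit 197225268224) (nat_lit 3) (nat_lit 5) (nat_lit 5) (nat_lit 5) (nat_lit 4) (nat_lit 4) (nat_lit 367) (nat_lit 263) (nat_lit 150))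 (XT.lf (nat_lit 0) (nat_lit 11554793128) (nat_lit 152) (nat_lit 3654910926) (nat_lit 76) (nat_lit 215955364883) (nat_lit 3) (nat_lit 5) (nat_lit 5) (nat_lit 5) (nat_lit 4) (nat_lit 4) (nat_lit 368) (nat_lit 263) (nat_lit 149)))))) (XT.nd (nat_lit 390) (nat_lit 0) (nat_lit 0) (XT.nd (nat_lit 156) (nat_lit 0) (nat_lit 0) (XT.nd (nat_lit 78) (nat_lit 0) (nat_lit 0) (XT.lf (nat_lit 0) (nat_lit 13479700329) (nat_lit 76) (nat_lit 6435888545) (nat_lit 152) (nat_lit 222349925259) (nat_lit 2) (nat_lit 5) (nat_lit 3) (nat_lit 5) (nat_lit 4) (nat_lit 4) (nat_lit 369) (nat_lit 263) (nat_lit 148)) (XT.lf (nat_lit 0) (nat_lit 28797390812) (nat_lit 152) (nat_lit 222370612666) (nat_lit 0) (nat_lit 2747830963) (nat_lit 2) (nat_lit 5) (nat_lit 4) (nat_lit 4) (nat_lit 2) (nat_lit 4) (nat_lit 370) (nat_lit 263) (nat_lit 147))) (XT.nd (nat_lit 78) (nat_lit 0) (nat_lit 0) (XT.lf (nat_lit 0) (nat_lit 38225649422)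 (nat_lit 152) (nat_lit 215746151042) (nat_lit 0) (nat_lit 12171753087) (nat_lit 2) (nat_lit 5) (nat_lit 4) (nat_lit 4) (nat_lit 2) (nat_lit 4) (nat_lit 371) (nat_lit 263) (nat_lit 146)) (XT.nd (nat_lit 78) (nat_lit 0) (nat_lit 0) (XT.lf (nat_lit 0) (nat_lit 48122330683) (nat_lit 152) (nat_lit 208796174147) (nat_lit 0) (nat_lit 22064304361) (nat_lit 2) (nat_lit 5) (nat_lit 4) (nat_lit 4) (nat_lit 2) (nat_lit 4) (nat_lit 372) (nat_lit 263) (nat_lit 145)) (XT.lf (nat_lit 0) (nat_lit 58510998123) (nat_lit 152) (nat_lit 201504134418) (nat_lit 0) (nat_lit 32449038480) (nat_lit 2) (nat_lit 5) (nat_lit 4) (nat_lit 4) (nat_lit 2) (nat_lit 4) (nat_lit 373) (nat_lit 263) (nat_lit 144))))) (XT.nd (nat_lit 156) (nat_lit 0) (nat_lit 0) (XT.nd (nat_lit 78) (nat_lit 0) (nat_lit 0) (XT.lf (nat_lit 0) (nat_lit 69416386662) (nat_lit 152) (nat_lit 193852669855) (nat_lit 0) (nat_lit 43350681000) (nat_lit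 2) (nat_lit 5) (nat_lit 4) (nat_lit 4) (nat_lit 2) (nat_lit 4) (nat_lit 374) (nat_lit 263) (nat_lit 143)) (XT.lf (nat_lit 0) (nat_lit 80864461514) (nat_lit 152) (nat_lit 185823562686) (nat_lit 0) (nat_lit 54795188213) (nat_lit 2) (nat_lit 5) (nat_lit 4) (nat_lit 4) (nat_lit 2) (nat_lit 4) (nat_lit 375) (nat_lit 263) (nat_lit 142))) (XT.nd (nat_lit 78) (nat_lit 0) (nat_lit 0) (XT.lf (nat_lit 0) (nat_lit 92882479998) (nat_lit 152) (nat_lit 177397695988) (nat_lit 0) (nat_lit 66809808946) (nat_lit 2) (nat_lit 5) (nat_lit 4) (nat_lit 4) (nat_lit 2) (nat_lit 4) (nat_lit 376) (nat_lit 263) (nat_lit 141)) (XT.nd (nat_lit 78) (nat_lit 0) (nat_lit 0) (XT.lf (nat_lit 0) (nat_lit 105499056443) (nat_lit 152) (nat_lit 168555008175) (nat_lit 0) (nat_lit 79423149439) (nat_lit 2) (nat_lit 5) (nat_lit 4) (nat_lit 4) (nat_lit 2) (nat_lit 4) (nat_lit 377) (nat_lit 263) (nat_lit 140)) (XT.lf (nat_lit 0)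 (nat_lit 118744230319) (nat_lit 152) (nat_lit 159274445227) (nat_lit 0) (nat_lit 92665241454) (nat_lit 2) (nat_lit 5) (nat_lit 4) (nat_lit 4) (nat_lit 2) (nat_lit 4) (nat_lit 378) (nat_lit 263) (nat_lit 139))))))) (XT.nd (nat_lit 31746) (nat_lit 0) (nat_lit 8284) (XT.nd (nat_lit 390) (nat_lit 0) (nat_lit 0) (XT.nd (nat_lit 156) (nat_lit 0) (nat_lit 0) (XT.nd (nat_lit 78) (nat_lit 0) (nat_lit 0) (XT.lf (nat_lit 0) (nat_lit 132649537753) (nat_lit 152) (nat_lit 149533910567) (nat_lit 0) (nat_lit 106567613784) (nat_lit 2) (nat_lit 5) (nat_lit 4) (nat_lit 4) (nat_lit 2) (nat_lit 4) (nat_lit 379) (nat_lit 263) (nat_lit 138)) (XT.lf (nat_lit 0) (nat_lit 147248086620) (nat_lit 152) (nat_lit 139310212444) (nat_lit 0) (nat_lit 121163367313) (nat_lit 2) (nat_lit 5) (nat_lit 4) (nat_lit 4) (nat_lit 2) (nat_lit 4) (nat_lit 380) (nat_lit 263) (nat_lit 137))) (XT.nd (nat_lit 78) (nat_lit 0) (nat_lit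 0) (XT.lf (nat_lit 0) (nat_lit 162574635370) (nat_lit 152) (nat_lit 128579008722) (nat_lit 0) (nat_lit 136487253836) (nat_lit 2) (nat_lit 5) (nat_lit 4) (nat_lit 4) (nat_lit 2) (nat_lit 4) (nat_lit 381) (nat_lit 263) (nat_lit 136)) (XT.nd (nat_lit 78) (nat_lit 0) (nat_lit 0) (XT.lf (nat_lit 0) (nat_lit 178665675785) (nat_lit 152) (nat_lit 117314748914) (nat_lit 0) (nat_lit 152575758797) (nat_lit 2) (nat_lit 5) (nat_lit 4) (nat_lit 4) (nat_lit 2) (nat_lit 4) (nat_lit 382) (nat_lit 263) (nat_lit 135)) (XT.lf (nat_lit 0) (nat_lit 195559519866) (nat_lit 152) (nat_lit 105490613354) (nat_lit 0) (nat_lit 169467188160) (nat_lit 2) (nat_lit 5) (nat_lit 4) (nat_lit 4) (nat_lit 2) (nat_lit 4) (nat_lit 383) (nat_lit 263) (nat_lit 134))))) (XT.nd (nat_lit 156) (nat_lit 0) (nat_lit 0) (XT.nd (nat_lit 78) (nat_lit 0) (nat_lit 0) (XT.lf (nat_lit 0) (nat_lit 213296391052) (nat_lit 152) (nat_lit 93078449340)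 (nat_lit 0) (nat_lit 187201759615) (nat_lit 2) (nat_lit 5) (nat_lit 4) (nat_lit 4) (nat_lit 2) (nat_lit 4) (nat_lit 384) (nat_lit 263) (nat_lit 133)) (XT.lf (nat_lit 0) (nat_lit 231918519988) (nat_lit 152) (nat_lit 80048704098) (nat_lit 0) (nat_lit 205821698331) (nat_lit 2) (nat_lit 5) (nat_lit 4) (nat_lit 4) (nat_lit 2) (nat_lit 4) (nat_lit 385) (nat_lit 263) (nat_lit 132))) (XT.nd (nat_lit 78) (nat_lit 0) (nat_lit 0) (XT.lf (nat_lit 0) (nat_lit 251470245077) (nat_lit 152) (nat_lit 66370354427) (nat_lit 0) (nat_lit 225371337496) (nat_lit 2) (nat_lit 5) (nat_lit 4) (nat_lit 4) (nat_lit 2) (nat_lit 4) (nat_lit 386) (nat_lit 263) (nat_lit 131)) (XT.nd (nat_lit 31044) (nat_lit 0) (nat_lit 9500) (XT.lf (nat_lit 0) (nat_lit 271998118045) (nat_lit 152) (nat_lit 52010832826) (nat_lit 0) (nat_lit 245897223869) (nat_lit 2) (nat_lit 5) (nat_lit 4) (nat_lit 4) (nat_lit 2) (nat_lit 4) (nat_lit 387)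 (nat_lit 263) (nat_lit 130)) (XT.lf (nat_lit 0) (nat_lit 635245019) (nat_lit 380) (nat_lit 1340152536) (nat_lit 380) (nat_lit 1340152536) (nat_lit 127) (nat_lit 3) (nat_lit 132) (nat_lit 3) (nat_lit 132) (nat_lit 5) (nat_lit 264) (nat_lit 264) (nat_lit 252)))))) (XT.nd (nat_lit 390) (nat_lit 836) (nat_lit 0) (XT.nd (nat_lit 156) (nat_lit 380) (nat_lit 0) (XT.nd (nat_lit 78) (nat_lit 0) (nat_lit 0) (XT.lf (nat_lit 76) (nat_lit 404903131) (nat_lit 0) (nat_lit 3053720859) (nat_lit 380) (nat_lit 3224052536) (nat_lit 128) (nat_lit 5) (nat_lit 127) (nat_lit 3) (nat_lit 132) (nat_lit 5) (nat_lit 265) (nat_lit 264) (nat_lit 251)) (XT.lf (nat_lit 76) (nat_lit 3662569967) (nat_lit 0) (nat_lit 2000188168) (nat_lit 380) (nat_lit 1079152439) (nat_lit 128) (nat_lit 5) (nat_lit 127) (nat_lit 3) (nat_lit 132) (nat_lit 5) (nat_lit 266) (nat_lit 264) (nat_lit 250))) (XT.nd (nat_lit 78) (nat_lit 0) (nat_lit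 76) (XT.lf (nat_lit 76) (nat_lit 190686461) (nat_lit 0) (nat_lit 813007266) (nat_lit 456) (nat_lit 5806455285) (nat_lit 123) (nat_lit 5) (nat_lit 122) (nat_lit 5) (nat_lit 128) (nat_lit 5) (nat_lit 267) (nat_lit 264) (nat_lit 249)) (XT.nd (nat_lit 78) (nat_lit 0) (nat_lit 0) (XT.lf (nat_lit 0) (nat_lit 3085555356) (nat_lit 380) (nat_lit 3255952623) (nat_lit 456) (nat_lit 543202787) (nat_lit 123) (nat_lit 5) (nat_lit 128) (nat_lit 5) (nat_lit 129) (nat_lit 5) (nat_lit 268) (nat_lit 264) (nat_lit 248)) (XT.lf (nat_lit 76) (nat_lit 189844064) (nat_lit 0) (nat_lit 4975449462) (nat_lit 456) (nat_lit 1803354037) (nat_lit 124) (nat_lit 5) (nat_lit 123) (nat_lit 5) (nat_lit 129) (nat_lit 5) (nat_lit 269) (nat_lit 264) (nat_lit 247))))) (XT.nd (nat_lit 156) (nat_lit 456) (nat_lit 0) (XT.nd (nat_lit 78) (nat_lit 0) (nat_lit 0) (XT.lf (nat_lit 0) (nat_lit 218803964) (nat_lit 456) (nat_lit 3220166192)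 (nat_lit 532) (nat_lit 3621091789) (nat_lit 117) (nat_lit 5) (nat_lit 123) (nat_lit 5) (nat_lit 124) (nat_lit 5) (nat_lit 270) (nat_lit 264) (nat_lit 246)) (XT.lf (nat_lit 76) (nat_lit 422608421) (nat_lit 0) (nat_lit 1751050163) (nat_lit 532) (nat_lit 4986591001) (nat_lit 118) (nat_lit 5) (nat_lit 117) (nat_lit 5) (nat_lit 124) (nat_lit 5) (nat_lit 271) (nat_lit 264) (nat_lit 245))) (XT.nd (nat_lit 78) (nat_lit 532) (nat_lit 0) (XT.lf (nat_lit 0) (nat_lit 4172390943) (nat_lit 456) (nat_lit 2987440006) (nat_lit 76) (nat_lit 108585439) (nat_lit 118) (nat_lit 5) (nat_lit 124) (nat_lit 5) (nat_lit 119) (nat_lit 5) (nat_lit 272) (nat_lit 264) (nat_lit 244)) (XT.nd (nat_lit 78) (nat_lit 76) (nat_lit 0) (XT.lf (nat_lit 0) (nat_lit 870559495) (nat_lit 456) (nat_lit 5338392227) (nat_lit 532) (nat_lit 1176408586) (nat_lit 112) (nat_lit 5) (nat_lit 118) (nat_lit 5) (nat_lit 119) (nat_lit 5) (nat_lit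 273) (nat_lit 264) (nat_lit 243)) (XT.lf (nat_lit 0) (nat_lit 761214632) (nat_lit 532) (nat_lit 2575603580) (nat_lit 76) (nat_lit 4173472744) (nat_lit 111) (nat_lit 5) (nat_lit 118) (nat_lit 5) (nat_lit 112) (nat_lit 5) (nat_lit 274) (nat_lit 264) (nat_lit 242))))))))
noncomputable def xc118 : XT := (XT.nd (nat_lit 1560) (nat_lit 1976) (nat_lit 0) (XT.nd (nat_lit 780) (nat_lit 1520) (nat_lit 0) (XT.nd (nat_lit 390) (nat_lit 1292) (nat_lit 0) (XT.nd (nat_lit 156) (nat_lit 1368) (nat_lit 0) (XT.nd (nat_lit 78) (nat_lit 0) (nat_lit 0) (XT.lf (nat_lit 0) (nat_lit 1512313028) (nat_lit 532) (nat_lit 1169826824) (nat_lit 608) (nat_lit 4962293727) (nat_lit 104) (nat_lit 5) (nat_lit 111) (nat_lit 5) (nat_lit 112) (nat_lit 5) (nat_lit 275) (nat_lit 264) (nat_lit 241)) (XT.lf (nat_lit 0) (nat_lit 4666794389) (nat_lit 608) (nat_lit 1988352526) (nat_lit 76) (nat_lit 1131968934) (nat_lit 104) (nat_lit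 5) (nat_lit 112) (nat_lit 5) (nat_lit 105) (nat_lit 5) (nat_lit 276) (nat_lit 264) (nat_lit 240))) (XT.nd (nat_lit 78) (nat_lit 760) (nat_lit 0) (XT.lf (nat_lit 0) (nat_lit 2340902762) (nat_lit 608) (nat_lit 4376065120) (nat_lit 684) (nat_lit 1221856394) (nat_lit 96) (nat_lit 5) (nat_lit 104) (nat_lit 5) (nat_lit 105) (nat_lit 5) (nat_lit 277) (nat_lit 264) (nat_lit 239)) (XT.nd (nat_lit 78) (nat_lit 684) (nat_lit 0) (XT.lf (nat_lit 0) (nat_lit 693087727) (nat_lit 684) (nat_lit 1232674381) (nat_lit 76) (nat_lit 6174628412) (nat_lit 95) (nat_lit 5) (nat_lit 104) (nat_lit 5) (nat_lit 96) (nat_lit 5) (nat_lit 278) (nat_lit 264) (nat_lit 238)) (XT.lf (nat_lit 0) (nat_lit 2642855081) (nat_lit 760) (nat_lit 4919275480) (nat_lit 76) (nat_lit 708074329) (nat_lit 86) (nat_lit 5) (nat_lit 96) (nat_lit 5) (nat_lit 87) (nat_lit 5) (nat_lit 279) (nat_lit 264) (nat_lit 237))))) (XT.nd (nat_lit 156)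 (nat_lit 760) (nat_lit 0) (XT.nd (nat_lit 78) (nat_lit 532) (nat_lit 0) (XT.lf (nat_lit 0) (nat_lit 4662045821) (nat_lit 760) (nat_lit 351490886) (nat_lit 76) (nat_lit 3436546287) (nat_lit 86) (nat_lit 5) (nat_lit 96) (nat_lit 5) (nat_lit 87) (nat_lit 5) (nat_lit 280) (nat_lit 264) (nat_lit 236)) (XT.lf (nat_lit 0) (nat_lit 4514290651) (nat_lit 532) (nat_lit 2261383303) (nat_lit 608) (nat_lit 1863768840) (nat_lit 79) (nat_lit 5) (nat_lit 86) (nat_lit 5) (nat_lit 87) (nat_lit 5) (nat_lit 281) (nat_lit 264) (nat_lit 235))) (XT.nd (nat_lit 78) (nat_lit 304) (nat_lit 0) (XT.lf (nat_lit 0) (nat_lit 103616010) (nat_lit 456) (nat_lit 8108852060) (nat_lit 76) (nat_lit 628230884) (nat_lit 73) (nat_lit 5) (nat_lit 79) (nat_lit 5) (nat_lit 74) (nat_lit 5) (nat_lit 282) (nat_lit 264) (nat_lit 234)) (XT.nd (nat_lit 78) (nat_lit 304) (nat_lit 0) (XT.lf (nat_lit 0) (nat_lit 2141371014) (nat_lit 456)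 (nat_lit 3221261858) (nat_lit 76) (nat_lit 3686265250) (nat_lit 73) (nat_lit 5) (nat_lit 79) (nat_lit 5) (nat_lit 74) (nat_lit 5) (nat_lit 283) (nat_lit 264) (nat_lit 233)) (XT.lf (nat_lit 0) (nat_lit 1896278565) (nat_lit 304) (nat_lit 2344395893) (nat_lit 380) (nat_lit 5028982773) (nat_lit 69) (nat_lit 5) (nat_lit 73) (nat_lit 5) (nat_lit 74) (nat_lit 5) (nat_lit 284) (nat_lit 264) (nat_lit 232)))))) (XT.nd (nat_lit 390) (nat_lit 836) (nat_lit 0) (XT.nd (nat_lit 156) (nat_lit 380) (nat_lit 0) (XT.nd (nat_lit 78) (nat_lit 304) (nat_lit 0) (XT.lf (nat_lit 0) (nat_lit 6445403102) (nat_lit 380) (nat_lit 2208296322) (nat_lit 76) (nat_lit 847858554) (nat_lit 69) (nat_lit 5) (nat_lit 74) (nat_lit 5) (nat_lit 70) (nat_lit 5) (nat_lit 285) (nat_lit 264) (nat_lit 231)) (XT.lf (nat_lit 0) (nat_lit 3205558028) (nat_lit 304) (nat_lit 5578657631) (nat_lit 380) (nat_lit 959766378) (nat_lit 65) (nat_lit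 5) (nat_lit 69) (nat_lit 5) (nat_lit 70) (nat_lit 5) (nat_lit 286) (nat_lit 264) (nat_lit 230))) (XT.nd (nat_lit 78) (nat_lit 304) (nat_lit 0) (XT.lf (nat_lit 0) (nat_lit 1175893930) (nat_lit 380) (nat_lit 1124559882) (nat_lit 76) (nat_lit 7698504489) (nat_lit 64) (nat_lit 5) (nat_lit 69) (nat_lit 5) (nat_lit 65) (nat_lit 5) (nat_lit 287) (nat_lit 264) (nat_lit 229)) (XT.nd (nat_lit 78) (nat_lit 0) (nat_lit 0) (XT.lf (nat_lit 0) (nat_lit 3416547958) (nat_lit 380) (nat_lit 5663493884) (nat_lit 76) (nat_lit 1184435807) (nat_lit 60) (nat_lit 5) (nat_lit 65) (nat_lit 5) (nat_lit 61) (nat_lit 5) (nat_lit 288) (nat_lit 264) (nat_lit 228)) (XT.lf (nat_lit 0) (nat_lit 5767148579) (nat_lit 380) (nat_lit 1351255) (nat_lit 76) (nat_lit 4774976695) (nat_lit 60) (nat_lit 5) (nat_lit 65) (nat_lit 5) (nat_lit 61) (nat_lit 5) (nat_lit 289) (nat_lit 264) (nat_lit 227))))) (XT.nd (nat_lit 156) (nat_lit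 304) (nat_lit 0) (XT.nd (nat_lit 78) (nat_lit 228) (nat_lit 0) (XT.lf (nat_lit 0) (nat_lit 6068752932) (nat_lit 304) (nat_lit 2204937833) (nat_lit 380) (nat_lit 2560908544) (nat_lit 56) (nat_lit 5) (nat_lit 60) (nat_lit 5) (nat_lit 61) (nat_lit 5) (nat_lit 290) (nat_lit 264) (nat_lit 226)) (XT.lf (nat_lit 0) (nat_lit 1247176267) (nat_lit 228) (nat_lit 9646939606) (nat_lit 304) (nat_lit 246824595) (nat_lit 53) (nat_lit 5) (nat_lit 56) (nat_lit 5) (nat_lit 57) (nat_lit 5) (nat_lit 291) (nat_lit 264) (nat_lit 225))) (XT.nd (nat_lit 78) (nat_lit 228) (nat_lit 0) (XT.lf (nat_lit 0) (nat_lit 2176912096) (nat_lit 304) (nat_lit 3875420608) (nat_lit 76) (nat_lit 5405452682) (nat_lit 52) (nat_lit 5) (nat_lit 56) (nat_lit 5) (nat_lit 53) (nat_lit 5) (nat_lit 292) (nat_lit 264) (nat_lit 224)) (XT.nd (nat_lit 78) (nat_lit 0) (nat_lit 0) (XT.lf (nat_lit 0) (nat_lit 2450004406) (nat_lit 228) (nat_lit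 2250011945) (nat_lit 304) (nat_lit 7091007874) (nat_lit 49) (nat_lit 5) (nat_lit 52) (nat_lit 5) (nat_lit 53) (nat_lit 5) (nat_lit 293) (nat_lit 264) (nat_lit 223)) (XT.lf (nat_lit 0) (nat_lit 7392568587) (nat_lit 304) (nat_lit 3009112266) (nat_lit 76) (nat_lit 1737153583) (nat_lit 49) (nat_lit 5) (nat_lit 53) (nat_lit 5) (nat_lit 50) (nat_lit 5) (nat_lit 294) (nat_lit 264) (nat_lit 222))))))) (XT.nd (nat_lit 780) (nat_lit 836) (nat_lit 0) (XT.nd (nat_lit 390) (nat_lit 456) (nat_lit 0) (XT.nd (nat_lit 156) (nat_lit 380) (nat_lit 0) (XT.nd (nat_lit 78) (nat_lit 76) (nat_lit 0) (XT.lf (nat_lit 0) (nat_lit 3653304922) (nat_lit 228) (nat_lit 6612158304) (nat_lit 304) (nat_lit 2236356735) (nat_lit 46) (nat_lit 5) (nat_lit 49) (nat_lit 5) (nat_lit 50) (nat_lit 5) (nat_lit 295) (nat_lit 264) (nat_lit 221)) (XT.lf (nat_lit 0) (nat_lit 390308527) (nat_lit 304) (nat_lit 2200865387) (nat_lit 76)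 (nat_lit 10291331683) (nat_lit 45) (nat_lit 5) (nat_lit 49) (nat_lit 5) (nat_lit 46) (nat_lit 5) (nat_lit 296) (nat_lit 264) (nat_lit 220))) (XT.nd (nat_lit 78) (nat_lit 152) (nat_lit 0) (XT.lf (nat_lit 0) (nat_lit 3130147943) (nat_lit 304) (nat_lit 8472289111) (nat_lit 76) (nat_lit 1675166458) (nat_lit 42) (nat_lit 5) (nat_lit 46) (nat_lit 5) (nat_lit 43) (nat_lit 5) (nat_lit 297) (nat_lit 264) (nat_lit 219)) (XT.nd (nat_lit 78) (nat_lit 152) (nat_lit 0) (XT.lf (nat_lit 0) (nat_lit 6042758346) (nat_lit 304) (nat_lit 1559962875) (nat_lit 76) (nat_lit 6088004190) (nat_lit 42) (nat_lit 5) (nat_lit 46) (nat_lit 5) (nat_lit 43) (nat_lit 5) (nat_lit 298) (nat_lit 264) (nat_lit 218)) (XT.lf (nat_lit 0) (nat_lit 5822927672) (nat_lit 152) (nat_lit 3326523820) (nat_lit 228) (nat_lit 4972684570) (nat_lit 40) (nat_lit 5) (nat_lit 42) (nat_lit 5) (nat_lit 43) (nat_lit 5) (nat_lit 299) (nat_lit 264)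 (nat_lit 217))))) (XT.nd (nat_lit 156) (nat_lit 152) (nat_lit 0) (XT.nd (nat_lit 78) (nat_lit 304) (nat_lit 0) (XT.lf (nat_lit 0) (nat_lit 12414817340) (nat_lit 228) (nat_lit 1025529177) (nat_lit 76) (nat_lit 1134656467) (nat_lit 40) (nat_lit 5) (nat_lit 43) (nat_lit 5) (nat_lit 41) (nat_lit 5) (nat_lit 300) (nat_lit 264) (nat_lit 216)) (XT.lf (nat_lit 0) (nat_lit 889117612) (nat_lit 304) (nat_lit 8346058468) (nat_lit 76) (nat_lit 5808688001) (nat_lit 36) (nat_lit 5) (nat_lit 40) (nat_lit 5) (nat_lit 37) (nat_lit 5) (nat_lit 301) (nat_lit 264) (nat_lit 215))) (XT.nd (nat_lit 78) (nat_lit 152) (nat_lit 0) (XT.lf (nat_lit 0) (nat_lit 3996546428) (nat_lit 304) (nat_lit 787769117) (nat_lit 76) (nat_lit 10751214673) (nat_lit 36) (nat_lit 5) (nat_lit 40) (nat_lit 5) (nat_lit 37) (nat_lit 5) (nat_lit 302) (nat_lit 264) (nat_lit 214)) (XT.nd (nat_lit 78) (nat_lit 0) (nat_lit 0) (XT.lf (nat_lit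 0) (nat_lit 7326073980) (nat_lit 152) (nat_lit 10133488) (nat_lit 228) (nat_lit 8711772463) (nat_lit 34) (nat_lit 5) (nat_lit 36) (nat_lit 5) (nat_lit 37) (nat_lit 5) (nat_lit 303) (nat_lit 264) (nat_lit 213)) (XT.lf (nat_lit 0) (nat_lit 10897610745) (nat_lit 228) (nat_lit 848246047) (nat_lit 76) (nat_lit 4837498623) (nat_lit 34) (nat_lit 5) (nat_lit 37) (nat_lit 5) (nat_lit 35) (nat_lit 5) (nat_lit 304) (nat_lit 264) (nat_lit 212)))))) (XT.nd (nat_lit 390) (nat_lit 304) (nat_lit 0) (XT.nd (nat_lit 156) (nat_lit 304) (nat_lit 0) (XT.nd (nat_lit 78) (nat_lit 76) (nat_lit 0) (XT.lf (nat_lit 0) (nat_lit 7607667405) (nat_lit 152) (nat_lit 7113209584) (nat_lit 228) (nat_lit 2420472324) (nat_lit 32) (nat_lit 5) (nat_lit 34) (nat_lit 5) (nat_lit 35) (nat_lit 5) (nat_lit 305) (nat_lit 264) (nat_lit 211)) (XT.lf (nat_lit 0) (nat_lit 955483855) (nat_lit 228) (nat_lit 1281736263) (nat_lit 76) (nat_lit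 15490287253) (nat_lit 31) (nat_lit 5) (nat_lit 34) (nat_lit 5) (nat_lit 32) (nat_lit 5) (nat_lit 306) (nat_lit 264) (nat_lit 210))) (XT.nd (nat_lit 78) (nat_lit 152) (nat_lit 0) (XT.lf (nat_lit 0) (nat_lit 4550515717) (nat_lit 228) (nat_lit 10852341316) (nat_lit 76) (nat_lit 2931585157) (nat_lit 29) (nat_lit 5) (nat_lit 32) (nat_lit 5) (nat_lit 30) (nat_lit 5) (nat_lit 307) (nat_lit 264) (nat_lit 209)) (XT.nd (nat_lit 78) (nat_lit 152) (nat_lit 0) (XT.lf (nat_lit 0) (nat_lit 8351263318) (nat_lit 228) (nat_lit 2331994006) (nat_lit 76) (nat_lit 8287200535) (nat_lit 29) (nat_lit 5) (nat_lit 32) (nat_lit 5) (nat_lit 30) (nat_lit 5) (nat_lit 308) (nat_lit 264) (nat_lit 208)) (XT.lf (nat_lit 0) (nat_lit 6780972847) (nat_lit 152) (nat_lit 5635731854) (nat_lit 228) (nat_lit 7217867567) (nat_lit 27) (nat_lit 5) (nat_lit 29) (nat_lit 5) (nat_lit 30) (nat_lit 5) (nat_lit 309) (nat_lit 264) (nat_lit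 207))))) (XT.nd (nat_lit 156) (nat_lit 152) (nat_lit 0) (XT.nd (nat_lit 78) (nat_lit 152) (nat_lit 0) (XT.lf (nat_lit 0) (nat_lit 16380931717) (nat_lit 152) (nat_lit 313477982) (nat_lit 228) (nat_lit 3637062433) (nat_lit 27) (nat_lit 5) (nat_lit 29) (nat_lit 5) (nat_lit 30) (nat_lit 5) (nat_lit 310) (nat_lit 264) (nat_lit 206)) (XT.lf (nat_lit 0) (nat_lit 259059492) (nat_lit 152) (nat_lit 15619513916) (nat_lit 76) (nat_lit 5177564001) (nat_lit 25) (nat_lit 5) (nat_lit 27) (nat_lit 5) (nat_lit 26) (nat_lit 5) (nat_lit 311) (nat_lit 264) (nat_lit 205))) (XT.nd (nat_lit 78) (nat_lit 152) (nat_lit 0) (XT.lf (nat_lit 0) (nat_lit 4271721448) (nat_lit 152) (nat_lit 6497910896) (nat_lit 76) (nat_lit 11042249572) (nat_lit 25) (nat_lit 5) (nat_lit 27) (nat_lit 5) (nat_lit 26) (nat_lit 5) (nat_lit 312) (nat_lit 264) (nat_lit 204)) (XT.nd (nat_lit 78) (nat_lit 0) (nat_lit 0) (XT.lf (nat_lit 0) (nat_lit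 3133728437) (nat_lit 152) (nat_lit 5372426723) (nat_lit 228) (nat_lit 14098225671) (nat_lit 23) (nat_lit 5) (nat_lit 25) (nat_lit 5) (nat_lit 26) (nat_lit 5) (nat_lit 313) (nat_lit 264) (nat_lit 203)) (XT.lf (nat_lit 0) (nat_lit 13041296141) (nat_lit 228) (nat_lit 10011553524) (nat_lit 76) (nat_lit 379228714) (nat_lit 23) (nat_lit 5) (nat_lit 26) (nat_lit 5) (nat_lit 24) (nat_lit 4) (nat_lit 314) (nat_lit 264) (nat_lit 202))))))))
noncomputable def xc119 : XT := (XT.nd (nat_lit 1560) (nat_lit 456) (nat_lit 0) (XT.nd (nat_lit 780) (nat_lit 304) (nat_lit 0) (XT.nd (nat_lit 390) (nat_lit 304) (nat_lit 0) (XT.nd (nat_lit 156) (nat_lit 228) (nat_lit 0) (XT.nd (nat_lit 78) (nat_lit 76) (nat_lit 0) (XT.lf (nat_lit 0) (nat_lit 17865110696) (nat_lit 228) (nat_lit 212038433) (nat_lit 76) (nat_lit 6220937722) (nat_lit 23) (nat_lit 5) (nat_lit 26) (nat_lit 5) (nat_lit 24) (nat_lit 4) (nat_lit 315)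 (nat_lit 264) (nat_lit 201)) (XT.lf (nat_lit 0) (nat_lit 10366909541) (nat_lit 76) (nat_lit 12700152429) (nat_lit 152) (nat_lit 2133507307) (nat_lit 22) (nat_lit 5) (nat_lit 23) (nat_lit 5) (nat_lit 24) (nat_lit 4) (nat_lit 316) (nat_lit 264) (nat_lit 200))) (XT.nd (nat_lit 78) (nat_lit 152) (nat_lit 0) (XT.lf (nat_lit 0) (nat_lit 2283586423) (nat_lit 152) (nat_lit 4745566161) (nat_lit 76) (nat_lit 19118240671) (nat_lit 21) (nat_lit 5) (nat_lit 23) (nat_lit 5) (nat_lit 22) (nat_lit 5) (nat_lit 317) (nat_lit 264) (nat_lit 199)) (XT.nd (nat_lit 78) (nat_lit 0) (nat_lit 0) (XT.lf (nat_lit 0) (nat_lit 5962307290) (nat_lit 152) (nat_lit 957003076) (nat_lit 228) (nat_lit 20217043516) (nat_lit 19) (nat_lit 5) (nat_lit 21) (nat_lit 5) (nat_lit 22) (nat_lit 5) (nat_lit 318) (nat_lit 264) (nat_lit 198)) (XT.lf (nat_lit 0) (nat_lit 11929737061) (nat_lit 228) (nat_lit 10927072900) (nat_lit 76) (nat_lit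 5310823890) (nat_lit 19) (nat_lit 5) (nat_lit 22) (nat_lit 5) (nat_lit 20) (nat_lit 4) (nat_lit 319) (nat_lit 264) (nat_lit 197))))) (XT.nd (nat_lit 156) (nat_lit 228) (nat_lit 0) (XT.nd (nat_lit 78) (nat_lit 76) (nat_lit 0) (XT.lf (nat_lit 0) (nat_lit 17184115231) (nat_lit 228) (nat_lit 222238228) (nat_lit 76) (nat_lit 11844469174) (nat_lit 19) (nat_lit 5) (nat_lit 22) (nat_lit 5) (nat_lit 20) (nat_lit 4) (nat_lit 320) (nat_lit 264) (nat_lit 196)) (XT.lf (nat_lit 0) (nat_lit 11343964327) (nat_lit 76) (nat_lit 11513160548) (nat_lit 152) (nat_lit 7523265894) (nat_lit 18) (nat_lit 5) (nat_lit 19) (nat_lit 5) (nat_lit 20) (nat_lit 4) (nat_lit 321) (nat_lit 264) (nat_lit 195))) (XT.nd (nat_lit 78) (nat_lit 228) (nat_lit 0) (XT.lf (nat_lit 0) (nat_lit 23459837059) (nat_lit 76) (nat_lit 5336954987) (nat_lit 152) (nat_lit 2770509720) (nat_lit 18) (nat_lit 5) (nat_lit 19) (nat_lit 5) (nat_lit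 20) (nat_lit 4) (nat_lit 322) (nat_lit 264) (nat_lit 194)) (XT.nd (nat_lit 78) (nat_lit 0) (nat_lit 0) (XT.lf (nat_lit 0) (nat_lit 2201048800) (nat_lit 228) (nat_lit 29422281646) (nat_lit 76) (nat_lit 1185897628) (nat_lit 15) (nat_lit 5) (nat_lit 18) (nat_lit 5) (nat_lit 16) (nat_lit 4) (nat_lit 323) (nat_lit 264) (nat_lit 193)) (XT.lf (nat_lit 0) (nat_lit 7535198058) (nat_lit 228) (nat_lit 18539490303) (nat_lit 76) (nat_lit 8025948210) (nat_lit 15) (nat_lit 5) (nat_lit 18) (nat_lit 5) (nat_lit 16) (nat_lit 4) (nat_lit 324) (nat_lit 264) (nat_lit 192)))))) (XT.nd (nat_lit 390) (nat_lit 152) (nat_lit 0) (XT.nd (nat_lit 156) (nat_lit 76) (nat_lit 0) (XT.nd (nat_lit 78) (nat_lit 76) (nat_lit 0) (XT.lf (nat_lit 0) (nat_lit 13117077939) (nat_lit 228) (nat_lit 7146364771) (nat_lit 76) (nat_lit 15194133805) (nat_lit 15) (nat_lit 5) (nat_lit 18) (nat_lit 5) (nat_lit 16) (nat_lit 4) (nat_lit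 325) (nat_lit 264) (nat_lit 191)) (XT.lf (nat_lit 0) (nat_lit 4942409407) (nat_lit 76) (nat_lit 14094734089) (nat_lit 152) (nat_lit 17842276975) (nat_lit 14) (nat_lit 5) (nat_lit 15) (nat_lit 5) (nat_lit 16) (nat_lit 4) (nat_lit 326) (nat_lit 264) (nat_lit 190))) (XT.nd (nat_lit 78) (nat_lit 76) (nat_lit 0) (XT.lf (nat_lit 0) (nat_lit 17852051629) (nat_lit 76) (nat_lit 7504480739) (nat_lit 152) (nat_lit 13010669302) (nat_lit 14) (nat_lit 5) (nat_lit 15) (nat_lit 5) (nat_lit 16) (nat_lit 4) (nat_lit 327) (nat_lit 264) (nat_lit 189)) (XT.nd (nat_lit 78) (nat_lit 76) (nat_lit 0) (XT.lf (nat_lit 0) (nat_lit 31377008044) (nat_lit 76) (nat_lit 598018726) (nat_lit 152) (nat_lit 7955198876) (nat_lit 14) (nat_lit 5) (nat_lit 15) (nat_lit 5) (nat_lit 16) (nat_lit 4) (nat_lit 328) (nat_lit 264) (nat_lit 188)) (XT.lf (nat_lit 0) (nat_lit 4001659005) (nat_lit 76) (nat_lit 35072889249) (nat_lit 76)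 (nat_lit 2489357469) (nat_lit 13) (nat_lit 4) (nat_lit 14) (nat_lit 5) (nat_lit 14) (nat_lit 4) (nat_lit 329) (nat_lit 264) (nat_lit 187))))) (XT.nd (nat_lit 156) (nat_lit 76) (nat_lit 0) (XT.nd (nat_lit 78) (nat_lit 0) (nat_lit 0) (XT.lf (nat_lit 0) (nat_lit 3286588250) (nat_lit 152) (nat_lit 25883133833) (nat_lit 76) (nat_lit 14099978636) (nat_lit 12) (nat_lit 5) (nat_lit 14) (nat_lit 5) (nat_lit 13) (nat_lit 4) (nat_lit 330) (nat_lit 264) (nat_lit 186)) (XT.lf (nat_lit 0) (nat_lit 9252238491) (nat_lit 152) (nat_lit 13688891760) (nat_lit 76) (nat_lit 22118395114) (nat_lit 12) (nat_lit 5) (nat_lit 14) (nat_lit 5) (nat_lit 13) (nat_lit 4) (nat_lit 331) (nat_lit 264) (nat_lit 185))) (XT.nd (nat_lit 78) (nat_lit 76) (nat_lit 0) (XT.lf (nat_lit 0) (nat_lit 15501472167) (nat_lit 152) (nat_lit 911620742) (nat_lit 76) (nat_lit 30526491530) (nat_lit 12) (nat_lit 5) (nat_lit 14) (nat_lit 5)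 (nat_lit 13) (nat_lit 4) (nat_lit 332) (nat_lit 264) (nat_lit 184)) (XT.nd (nat_lit 78) (nat_lit 0) (nat_lit 0) (XT.lf (nat_lit 0) (nat_lit 12891716739) (nat_lit 76) (nat_lit 9358727495) (nat_lit 152) (nat_lit 26653846249) (nat_lit 11) (nat_lit 5) (nat_lit 12) (nat_lit 5) (nat_lit 13) (nat_lit 4) (nat_lit 333) (nat_lit 264) (nat_lit 183)) (XT.lf (nat_lit 0) (nat_lit 27391867856) (nat_lit 76) (nat_lit 1946712931) (nat_lit 152) (nat_lit 21628572727) (nat_lit 11) (nat_lit 5) (nat_lit 12) (nat_lit 5) (nat_lit 13) (nat_lit 4) (nat_lit 334) (nat_lit 264) (nat_lit 182))))))) (XT.nd (nat_lit 780) (nat_lit 228) (nat_lit 0) (XT.nd (nat_lit 390) (nat_lit 76) (nat_lit 0) (XT.nd (nat_lit 156) (nat_lit 76) (nat_lit 0) (XT.nd (nat_lit 78) (nat_lit 76) (nat_lit 0) (XT.lf (nat_lit 0) (nat_lit 36859001848) (nat_lit 152) (nat_lit 10631552876) (nat_lit 0) (nat_lit 5638718208) (nat_lit 11) (nat_lit 5) (nat_lit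 13) (nat_lit 4) (nat_lit 11) (nat_lit 4) (nat_lit 335) (nat_lit 264) (nat_lit 181)) (XT.lf (nat_lit 0) (nat_lit 3000335138) (nat_lit 76) (nat_lit 41821259018) (nat_lit 76) (nat_lit 10574603439) (nat_lit 10) (nat_lit 4) (nat_lit 11) (nat_lit 5) (nat_lit 11) (nat_lit 4) (nat_lit 336) (nat_lit 264) (nat_lit 180))) (XT.nd (nat_lit 78) (nat_lit 76) (nat_lit 0) (XT.lf (nat_lit 0) (nat_lit 17660146870) (nat_lit 76) (nat_lit 35689857684) (nat_lit 76) (nat_lit 4418085972) (nat_lit 10) (nat_lit 4) (nat_lit 11) (nat_lit 5) (nat_lit 11) (nat_lit 4) (nat_lit 337) (nat_lit 264) (nat_lit 179)) (XT.nd (nat_lit 78) (nat_lit 0) (nat_lit 0) (XT.lf (nat_lit 0) (nat_lit 1968792041) (nat_lit 152) (nat_lit 27259668152) (nat_lit 76) (nat_lit 31029124992) (nat_lit 9) (nat_lit 5) (nat_lit 11) (nat_lit 5) (nat_lit 10) (nat_lit 4) (nat_lit 338) (nat_lit 264) (nat_lit 178)) (XT.lf (nat_lit 0) (nat_lit 8515135095)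 (nat_lit 152) (nat_lit 13862445965) (nat_lit 76) (nat_lit 40490927827) (nat_lit 9) (nat_lit 5) (nat_lit 11) (nat_lit 5) (nat_lit 10) (nat_lit 4) (nat_lit 339) (nat_lit 264) (nat_lit 177))))) (XT.nd (nat_lit 156) (nat_lit 0) (nat_lit 0) (XT.nd (nat_lit 78) (nat_lit 0) (nat_lit 0) (XT.lf (nat_lit 0) (nat_lit 190703459) (nat_lit 76) (nat_lit 15190210018) (nat_lit 152) (nat_lit 50229464701) (nat_lit 8) (nat_lit 5) (nat_lit 9) (nat_lit 5) (nat_lit 10) (nat_lit 4) (nat_lit 340) (nat_lit 264) (nat_lit 176)) (XT.lf (nat_lit 0) (nat_lit 15408068789) (nat_lit 76) (nat_lit 7406029290) (nat_lit 152) (nat_lit 45664042051) (nat_lit 8) (nat_lit 5) (nat_lit 9) (nat_lit 5) (nat_lit 10) (nat_lit 4) (nat_lit 341) (nat_lit 264) (nat_lit 175))) (XT.nd (nat_lit 78) (nat_lit 0) (nat_lit 0) (XT.lf (nat_lit 0) (nat_lit 30620644986) (nat_lit 152) (nat_lit 40134121226) (nat_lit 0) (nat_lit 734443633) (nat_lit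 8) (nat_lit 5) (nat_lit 10) (nat_lit 4) (nat_lit 8) (nat_lit 4) (nat_lit 342) (nat_lit 264) (nat_lit 174)) (XT.nd (nat_lit 78) (nat_lit 0) (nat_lit 0) (XT.lf (nat_lit 0) (nat_lit 38929141391) (nat_lit 152) (nat_lit 26691024668) (nat_lit 0) (nat_lit 9025090471) (nat_lit 8) (nat_lit 5) (nat_lit 10) (nat_lit 4) (nat_lit 8) (nat_lit 4) (nat_lit 343) (nat_lit 264) (nat_lit 173)) (XT.lf (nat_lit 0) (nat_lit 47643740554) (nat_lit 152) (nat_lit 12593145421) (nat_lit 0) (nat_lit 17722690047) (nat_lit 8) (nat_lit 5) (nat_lit 10) (nat_lit 4) (nat_lit 8) (nat_lit 4) (nat_lit 344) (nat_lit 264) (nat_lit 172)))))) (XT.nd (nat_lit 390) (nat_lit 76) (nat_lit 0) (XT.nd (nat_lit 156) (nat_lit 76) (nat_lit 0) (XT.nd (nat_lit 78) (nat_lit 0) (nat_lit 0) (XT.lf (nat_lit 0) (nat_lit 2265596117) (nat_lit 76) (nat_lit 54554967709) (nat_lit 76) (nat_lit 24617727119) (nat_lit 7) (nat_lit 4) (nat_lit 8) (nat_lit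 5) (nat_lit 8) (nat_lit 4) (nat_lit 345) (nat_lit 264) (nat_lit 171)) (XT.lf (nat_lit 0) (nat_lit 18288202264) (nat_lit 76) (nat_lit 48372587480) (nat_lit 76) (nat_lit 18419927763) (nat_lit 7) (nat_lit 4) (nat_lit 8) (nat_lit 5) (nat_lit 8) (nat_lit 4) (nat_lit 346) (nat_lit 264) (nat_lit 170))) (XT.nd (nat_lit 78) (nat_lit 76) (nat_lit 0) (XT.lf (nat_lit 0) (nat_lit 35096435822) (nat_lit 76) (nat_lit 41888296345) (nat_lit 76) (nat_lit 11920951746) (nat_lit 7) (nat_lit 4) (nat_lit 8) (nat_lit 5) (nat_lit 8) (nat_lit 4) (nat_lit 347) (nat_lit 264) (nat_lit 169)) (XT.nd (nat_lit 78) (nat_lit 76) (nat_lit 0) (XT.lf (nat_lit 0) (nat_lit 52730316393) (nat_lit 76) (nat_lit 35086655516) (nat_lit 76) (nat_lit 5105325315) (nat_lit 7) (nat_lit 4) (nat_lit 8) (nat_lit 5) (nat_lit 8) (nat_lit 4) (nat_lit 348) (nat_lit 264) (nat_lit 168)) (XT.lf (nat_lit 0) (nat_lit 1977784716) (nat_lit 152) (nat_lit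 25940191153) (nat_lit 76) (nat_lit 69220549951) (nat_lit 6) (nat_lit 5) (nat_lit 8) (nat_lit 5) (nat_lit 7) (nat_lit 4) (nat_lit 349) (nat_lit 264) (nat_lit 167))))) (XT.nd (nat_lit 234) (nat_lit 0) (nat_lit 0) (XT.nd (nat_lit 78) (nat_lit 76) (nat_lit 0) (XT.lf (nat_lit 0) (nat_lit 9236191867) (nat_lit 152) (nat_lit 11073141848) (nat_lit 76) (nat_lit 81252414845) (nat_lit 6) (nat_lit 5) (nat_lit 8) (nat_lit 5) (nat_lit 7) (nat_lit 4) (nat_lit 350) (nat_lit 264) (nat_lit 166)) (XT.nd (nat_lit 78) (nat_lit 0) (nat_lit 0) (XT.lf (nat_lit 0) (nat_lit 4673866162) (nat_lit 76) (nat_lit 12249686338) (nat_lit 152) (nat_lit 89279281238) (nat_lit 5) (nat_lit 5) (nat_lit 6) (nat_lit 5) (nat_lit 7) (nat_lit 4) (nat_lit 351) (nat_lit 264) (nat_lit 165)) (XT.lf (nat_lit 0) (nat_lit 21579881850) (nat_lit 76) (nat_lit 3596120249) (nat_lit 152) (nat_lit 85890937848) (nat_lit 5) (nat_lit 5) (nat_lit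 6) (nat_lit 5) (nat_lit 7) (nat_lit 4) (nat_lit 352) (nat_lit 264) (nat_lit 164)))) (XT.nd (nat_lit 78) (nat_lit 0) (nat_lit 0) (XT.lf (nat_lit 0) (nat_lit 33920217758) (nat_lit 152) (nat_lit 76941176255) (nat_lit 0) (nat_lit 5308902958) (nat_lit 5) (nat_lit 5) (nat_lit 7) (nat_lit 4) (nat_lit 5) (nat_lit 4) (nat_lit 353) (nat_lit 264) (nat_lit 163)) (XT.nd (nat_lit 78) (nat_lit 0) (nat_lit 0) (XT.lf (nat_lit 0) (nat_lit 43154337330) (nat_lit 152) (nat_lit 63838769194) (nat_lit 0) (nat_lit 14533083223) (nat_lit 5) (nat_lit 5) (nat_lit 7) (nat_lit 4) (nat_lit 5) (nat_lit 4) (nat_lit 354) (nat_lit 264) (nat_lit 162)) (XT.lf (nat_lit 0) (nat_lit 52844201297) (nat_lit 152) (nat_lit 50092495192) (nat_lit 0) (nat_lit 24213481185) (nat_lit 5) (nat_lit 5) (nat_lit 7) (nat_lit 4) (nat_lit 5) (nat_lit 4) (nat_lit 355) (nat_lit 264) (nat_lit 161))))))))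
noncomputable def xc120 : XT := (XT.nd (nat_lit 1560) (nat_lit 0) (nat_lit 0) (XT.nd (nat_lit 780) (nat_lit 152) (nat_lit 0) (XT.nd (nat_lit 390) (nat_lit 0) (nat_lit 0) (XT.nd (nat_lit 156) (nat_lit 76) (nat_lit 0) (XT.nd (nat_lit 78) (nat_lit 0) (nat_lit 0) (XT.lf (nat_lit 0) (nat_lit 63012880766) (nat_lit 152) (nat_lit 35669625025) (nat_lit 0) (nat_lit 34373145409) (nat_lit 5) (nat_lit 5) (nat_lit 7) (nat_lit 4) (nat_lit 5) (nat_lit 4) (nat_lit 356) (nat_lit 264) (nat_lit 160)) (XT.lf (nat_lit 0) (nat_lit 73684586878) (nat_lit 152) (nat_lit 20535818527) (nat_lit 0) (nat_lit 45036265574) (nat_lit 5) (nat_lit 5) (nat_lit 7) (nat_lit 4) (nat_lit 5) (nat_lit 4) (nat_lit 357) (nat_lit 264) (nat_lit 159))) (XT.nd (nat_lit 78) (nat_lit 76) (nat_lit 0) (XT.lf (nat_lit 0) (nat_lit 84884728456) (nat_lit 152) (nat_lit 4655042824) (nat_lit 0) (nat_lit 56228230061) (nat_lit 5) (nat_lit 5) (nat_lit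 7) (nat_lit 4) (nat_lit 5) (nat_lit 4) (nat_lit 358) (nat_lit 264) (nat_lit 158)) (XT.nd (nat_lit 78) (nat_lit 0) (nat_lit 0) (XT.lf (nat_lit 0) (nat_lit 12407635270) (nat_lit 76) (nat_lit 84426055194) (nat_lit 76) (nat_lit 55761769092) (nat_lit 4) (nat_lit 4) (nat_lit 5) (nat_lit 5) (nat_lit 5) (nat_lit 4) (nat_lit 359) (nat_lit 264) (nat_lit 157)) (XT.lf (nat_lit 0) (nat_lit 30475950960) (nat_lit 76) (nat_lit 78978171744) (nat_lit 76) (nat_lit 50306468778) (nat_lit 4) (nat_lit 4) (nat_lit 5) (nat_lit 5) (nat_lit 5) (nat_lit 4) (nat_lit 360) (nat_lit 264) (nat_lit 156))))) (XT.nd (nat_lit 156) (nat_lit 0) (nat_lit 0) (XT.nd (nat_lit 78) (nat_lit 0) (nat_lit 0) (XT.lf (nat_lit 0) (nat_lit 49439007307) (nat_lit 76) (nat_lit 73261985181) (nat_lit 76) (nat_lit 44583218536) (nat_lit 4) (nat_lit 4) (nat_lit 5) (nat_lit 5) (nat_lit 5) (nat_lit 4) (nat_lit 361) (nat_lit 264) (nat_lit 155))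 (XT.lf (nat_lit 0) (nat_lit 69341954445) (nat_lit 76) (nat_lit 67263885539) (nat_lit 76) (nat_lit 38578391580) (nat_lit 4) (nat_lit 4) (nat_lit 5) (nat_lit 5) (nat_lit 5) (nat_lit 4) (nat_lit 362) (nat_lit 264) (nat_lit 154))) (XT.nd (nat_lit 78) (nat_lit 0) (nat_lit 0) (XT.lf (nat_lit 0) (nat_lit 90232180344) (nat_lit 76) (nat_lit 60969591626) (nat_lit 76) (nat_lit 32277690701) (nat_lit 4) (nat_lit 4) (nat_lit 5) (nat_lit 5) (nat_lit 5) (nat_lit 4) (nat_lit 363) (nat_lit 264) (nat_lit 153)) (XT.nd (nat_lit 78) (nat_lit 0) (nat_lit 0) (XT.lf (nat_lit 0) (nat_lit 112159423636) (nat_lit 76) (nat_lit 54364117029) (nat_lit 76) (nat_lit 25666114233) (nat_lit 4) (nat_lit 4) (nat_lit 5) (nat_lit 5) (nat_lit 5) (nat_lit 4) (nat_lit 364) (nat_lit 264) (nat_lit 152)) (XT.lf (nat_lit 0) (nat_lit 135175892044) (nat_lit 76) (nat_lit 47431734428) (nat_lit 76) (nat_lit 18727920325) (nat_lit 4) (nat_lit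 4) (nat_lit 5) (nat_lit 5) (nat_lit 5) (nat_lit 4) (nat_lit 365) (nat_lit 264) (nat_lit 151)))))) (XT.nd (nat_lit 390) (nat_lit 0) (nat_lit 0) (XT.nd (nat_lit 156) (nat_lit 152) (nat_lit 0) (XT.nd (nat_lit 78) (nat_lit 0) (nat_lit 0) (XT.lf (nat_lit 0) (nat_lit 159336386683) (nat_lit 76) (nat_lit 40155938149) (nat_lit 76) (nat_lit 11446589468) (nat_lit 4) (nat_lit 4) (nat_lit 5) (nat_lit 5) (nat_lit 5) (nat_lit 4) (nat_lit 366) (nat_lit 264) (nat_lit 150)) (XT.lf (nat_lit 0) (nat_lit 184698432540) (nat_lit 76) (nat_lit 32519404869) (nat_lit 76) (nat_lit 3804785162) (nat_lit 4) (nat_lit 4) (nat_lit 5) (nat_lit 5) (nat_lit 5) (nat_lit 4) (nat_lit 367) (nat_lit 264) (nat_lit 149))) (XT.nd (nat_lit 78) (nat_lit 76) (nat_lit 0) (XT.lf (nat_lit 0) (nat_lit 4080759044) (nat_lit 152) (nat_lit 20354083691) (nat_lit 76) (nat_lit 207172546765) (nat_lit 3) (nat_lit 5) (nat_lit 5) (nat_lit 5) (nat_lit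 4) (nat_lit 4) (nat_lit 368) (nat_lit 264) (nat_lit 148)) (XT.nd (nat_lit 78) (nat_lit 76) (nat_lit 0) (XT.lf (nat_lit 0) (nat_lit 12229559998) (nat_lit 152) (nat_lit 3653822711) (nat_lit 76) (nat_lit 226835052299) (nat_lit 3) (nat_lit 5) (nat_lit 5) (nat_lit 5) (nat_lit 4) (nat_lit 4) (nat_lit 369) (nat_lit 264) (nat_lit 147)) (XT.lf (nat_lit 0) (nat_lit 14334554046) (nat_lit 76) (nat_lit 6672045009) (nat_lit 152) (nat_lit 233367394948) (nat_lit 2) (nat_lit 5) (nat_lit 3) (nat_lit 5) (nat_lit 4) (nat_lit 4) (nat_lit 370) (nat_lit 264) (nat_lit 146))))) (XT.nd (nat_lit 156) (nat_lit 0) (nat_lit 0) (XT.nd (nat_lit 78) (nat_lit 0) (nat_lit 0) (XT.lf (nat_lit 0) (nat_lit 30329229673) (nat_lit 152) (nat_lit 233313593310) (nat_lit 0) (nat_lit 2964172048) (nat_lit 2) (nat_lit 5) (nat_lit 4) (nat_lit 4) (nat_lit 2) (nat_lit 4) (nat_lit 371) (nat_lit 264) (nat_lit 145)) (XT.lf (nat_lit 0) (nat_lit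 40224521722) (nat_lit 152) (nat_lit 226366268128) (nat_lit 0) (nat_lit 12855530776) (nat_lit 2) (nat_lit 5) (nat_lit 4) (nat_lit 4) (nat_lit 2) (nat_lit 4) (nat_lit 372) (nat_lit 264) (nat_lit 144))) (XT.nd (nat_lit 78) (nat_lit 0) (nat_lit 0) (XT.lf (nat_lit 0) (nat_lit 50611866102) (nat_lit 152) (nat_lit 219076753839) (nat_lit 0) (nat_lit 23239129136) (nat_lit 2) (nat_lit 5) (nat_lit 4) (nat_lit 4) (nat_lit 2) (nat_lit 4) (nat_lit 373) (nat_lit 264) (nat_lit 143)) (XT.nd (nat_lit 78) (nat_lit 0) (nat_lit 0) (XT.lf (nat_lit 0) (nat_lit 61515994586) (nat_lit 152) (nat_lit 211427694458) (nat_lit 0) (nat_lit 34139689981) (nat_lit 2) (nat_lit 5) (nat_lit 4) (nat_lit 4) (nat_lit 2) (nat_lit 4) (nat_lit 374) (nat_lit 264) (nat_lit 142)) (XT.lf (nat_lit 0) (nat_lit 72962869383) (nat_lit 152) (nat_lit 203400877937) (nat_lit 0) (nat_lit 45583167028) (nat_lit 2) (nat_lit 5) (nat_lit 4) (nat_lit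 4) (nat_lit 2) (nat_lit 4) (nat_lit 375) (nat_lit 264) (nat_lit 141))))))) (XT.nd (nat_lit 780) (nat_lit 0) (nat_lit 0) (XT.nd (nat_lit 390) (nat_lit 0) (nat_lit 0) (XT.nd (nat_lit 156) (nat_lit 0) (nat_lit 0) (XT.nd (nat_lit 78) (nat_lit 0) (nat_lit 0) (XT.lf (nat_lit 0) (nat_lit 84979744959) (nat_lit 152) (nat_lit 194977192810) (nat_lit 0) (nat_lit 57596806651) (nat_lit 2) (nat_lit 5) (nat_lit 4) (nat_lit 4) (nat_lit 2) (nat_lit 4) (nat_lit 376) (nat_lit 264) (nat_lit 140)) (XT.lf (nat_lit 0) (nat_lit 97595232920) (nat_lit 152) (nat_lit 186136582683) (nat_lit 0) (nat_lit 70209212753) (nat_lit 2) (nat_lit 5) (nat_lit 4) (nat_lit 4) (nat_lit 2) (nat_lit 4) (nat_lit 377) (nat_lit 264) (nat_lit 139))) (XT.nd (nat_lit 78) (nat_lit 0) (nat_lit 0) (XT.lf (nat_lit 0) (nat_lit 110839370145) (nat_lit 152) (nat_lit 176857998484) (nat_lit 0) (nat_lit 83450414872) (nat_lit 2) (nat_lit 5) (nat_lit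 4) (nat_lit 4) (nat_lit 2) (nat_lit 4) (nat_lit 378) (nat_lit 264) (nat_lit 138)) (XT.nd (nat_lit 78) (nat_lit 0) (nat_lit 0) (XT.lf (nat_lit 0) (nat_lit 124743690291) (nat_lit 152) (nat_lit 167119348346) (nat_lit 0) (nat_lit 97351939681) (nat_lit 2) (nat_lit 5) (nat_lit 4) (nat_lit 4) (nat_lit 2) (nat_lit 4) (nat_lit 379) (nat_lit 264) (nat_lit 137)) (XT.lf (nat_lit 0) (nat_lit 139341298885) (nat_lit 152) (nat_lit 156897445007) (nat_lit 0) (nat_lit 111946886048) (nat_lit 2) (nat_lit 5) (nat_lit 4) (nat_lit 4) (nat_lit 2) (nat_lit 4) (nat_lit 380) (nat_lit 264) (nat_lit 136))))) (XT.nd (nat_lit 156) (nat_lit 0) (nat_lit 0) (XT.nd (nat_lit 78) (nat_lit 0) (nat_lit 0) (XT.lf (nat_lit 0) (nat_lit 154666952136) (nat_lit 152) (nat_lit 146167950602) (nat_lit 0) (nat_lit 127270003845) (nat_lit 2) (nat_lit 5) (nat_lit 4) (nat_lit 4) (nat_lit 2) (nat_lit 4) (nat_lit 381) (nat_lit 264) (nat_lit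 135)) (XT.lf (nat_lit 0) (nat_lit 170757139695) (nat_lit 152) (nat_lit 134905318715) (nat_lit 0) (nat_lit 143357776686) (nat_lit 2) (nat_lit 5) (nat_lit 4) (nat_lit 4) (nat_lit 2) (nat_lit 4) (nat_lit 382) (nat_lit 264) (nat_lit 134))) (XT.nd (nat_lit 78) (nat_lit 0) (nat_lit 0) (XT.lf (nat_lit 0) (nat_lit 187650171533) (nat_lit 152) (nat_lit 123082733557) (nat_lit 0) (nat_lit 160248508793) (nat_lit 2) (nat_lit 5) (nat_lit 4) (nat_lit 4) (nat_lit 2) (nat_lit 4) (nat_lit 383) (nat_lit 264) (nat_lit 133)) (XT.nd (nat_lit 78) (nat_lit 0) (nat_lit 0) (XT.lf (nat_lit 0) (nat_lit 205386269154) (nat_lit 152) (nat_lit 110672046115) (nat_lit 0) (nat_lit 177982416193) (nat_lit 2) (nat_lit 5) (nat_lit 4) (nat_lit 4) (nat_lit 2) (nat_lit 4) (nat_lit 384) (nat_lit 264) (nat_lit 132)) (XT.lf (nat_lit 0) (nat_lit 224007661361) (nat_lit 152) (nat_lit 97643707133) (nat_lit 0) (nat_lit 196601722476) (nat_lit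 2) (nat_lit 5) (nat_lit 4) (nat_lit 4) (nat_lit 2) (nat_lit 4) (nat_lit 385) (nat_lit 264) (nat_lit 131)))))) (XT.nd (nat_lit 31434) (nat_lit 0) (nat_lit 8740) (XT.nd (nat_lit 31200) (nat_lit 0) (nat_lit 9120) (XT.nd (nat_lit 78) (nat_lit 0) (nat_lit 0) (XT.lf (nat_lit 0) (nat_lit 243558684804) (nat_lit 152) (nat_lit 83966696757) (nat_lit 0) (nat_lit 216150759324) (nat_lit 2) (nat_lit 5) (nat_lit 4) (nat_lit 4) (nat_lit 2) (nat_lit 4) (nat_lit 386) (nat_lit 264) (nat_lit 130)) (XT.lf (nat_lit 0) (nat_lit 264085889537) (nat_lit 152) (nat_lit 69608450676) (nat_lit 0) (nat_lit 236676072063) (nat_lit 2) (nat_lit 5) (nat_lit 4) (nat_lit 4) (nat_lit 2) (nat_lit 4) (nat_lit 387) (nat_lit 264) (nat_lit 129))) (XT.nd (nat_lit 78) (nat_lit 380) (nat_lit 0) (XT.lf (nat_lit 0) (nat_lit 2783488992) (nat_lit 380) (nat_lit 292865795) (nat_lit 380) (nat_lit 292865795) (nat_lit 127) (nat_lit 3) (nat_lit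 132) (nat_lit 3) (nat_lit 132) (nat_lit 5) (nat_lit 265) (nat_lit 265) (nat_lit 250)) (XT.nd (nat_lit 78) (nat_lit 0) (nat_lit 0) (XT.lf (nat_lit 0) (nat_lit 866955285) (nat_lit 380) (nat_lit 4197752622) (nat_lit 456) (nat_lit 1736154451) (nat_lit 122) (nat_lit 5) (nat_lit 127) (nat_lit 3) (nat_lit 128) (nat_lit 5) (nat_lit 266) (nat_lit 265) (nat_lit 249)) (XT.lf (nat_lit 0) (nat_lit 2849690958) (nat_lit 380) (nat_lit 986039354) (nat_lit 456) (nat_lit 3035978761) (nat_lit 122) (nat_lit 5) (nat_lit 127) (nat_lit 3) (nat_lit 128) (nat_lit 5) (nat_lit 267) (nat_lit 265) (nat_lit 248))))) (XT.nd (nat_lit 156) (nat_lit 380) (nat_lit 0) (XT.nd (nat_lit 78) (nat_lit 0) (nat_lit 0) (XT.lf (nat_lit 76) (nat_lit 2393837121) (nat_lit 0) (nat_lit 2452894002) (nat_lit 456) (nat_lit 2103944743) (nat_lit 123) (nat_lit 5) (nat_lit 122) (nat_lit 5) (nat_lit 128) (nat_lit 5) (nat_lit 268) (nat_lit 265)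 (nat_lit 247)) (XT.lf (nat_lit 76) (nat_lit 5909013838) (nat_lit 0) (nat_lit 933860558) (nat_lit 456) (nat_lit 196074166) (nat_lit 123) (nat_lit 5) (nat_lit 122) (nat_lit 5) (nat_lit 128) (nat_lit 5) (nat_lit 269) (nat_lit 265) (nat_lit 246))) (XT.nd (nat_lit 78) (nat_lit 0) (nat_lit 0) (XT.lf (nat_lit 0) (nat_lit 1685729890) (nat_lit 456) (nat_lit 4696663643) (nat_lit 532) (nat_lit 751301891) (nat_lit 117) (nat_lit 5) (nat_lit 123) (nat_lit 5) (nat_lit 124) (nat_lit 5) (nat_lit 270) (nat_lit 265) (nat_lit 245)) (XT.nd (nat_lit 78) (nat_lit 0) (nat_lit 0) (XT.lf (nat_lit 0) (nat_lit 3580836647) (nat_lit 456) (nat_lit 1103539406) (nat_lit 532) (nat_lit 2552629299) (nat_lit 117) (nat_lit 5) (nat_lit 123) (nat_lit 5) (nat_lit 124) (nat_lit 5) (nat_lit 271) (nat_lit 265) (nat_lit 244)) (XT.lf (nat_lit 76) (nat_lit 2684637887) (nat_lit 0) (nat_lit 2824206992) (nat_lit 532) (nat_lit 1839991953)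 (nat_lit 118) (nat_lit 5) (nat_lit 117) (nat_lit 5) (nat_lit 124) (nat_lit 5) (nat_lit 272) (nat_lit 265) (nat_lit 243))))))))
noncomputable def xc121 : XT := (XT.nd (nat_lit 1560) (nat_lit 2052) (nat_lit 0) (XT.nd (nat_lit 780) (nat_lit 1976) (nat_lit 0) (XT.nd (nat_lit 390) (nat_lit 1368) (nat_lit 0) (XT.nd (nat_lit 156) (nat_lit 1140) (nat_lit 0) (XT.nd (nat_lit 78) (nat_lit 456) (nat_lit 0) (XT.lf (nat_lit 76) (nat_lit 6631145664) (nat_lit 0) (nat_lit 820886228) (nat_lit 532) (nat_lit 18539900) (nat_lit 118) (nat_lit 5) (nat_lit 117) (nat_lit 5) (nat_lit 124) (nat_lit 5) (nat_lit 273) (nat_lit 265) (nat_lit 242)) (XT.lf (nat_lit 0) (nat_lit 1807810010) (nat_lit 532) (nat_lit 4442008036) (nat_lit 76) (nat_lit 1348602208) (nat_lit 111) (nat_lit 5) (nat_lit 118) (nat_lit 5) (nat_lit 112) (nat_lit 5) (nat_lit 274) (nat_lit 265) (nat_lit 241))) (XT.nd (nat_lit 78) (nat_lit 1140) (nat_lit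 0) (XT.lf (nat_lit 0) (nat_lit 3659755348) (nat_lit 532) (nat_lit 438433824) (nat_lit 76) (nat_lit 3637928390) (nat_lit 111) (nat_lit 5) (nat_lit 118) (nat_lit 5) (nat_lit 112) (nat_lit 5) (nat_lit 275) (nat_lit 265) (nat_lit 240)) (XT.nd (nat_lit 78) (nat_lit 608) (nat_lit 0) (XT.lf (nat_lit 0) (nat_lit 3817331034) (nat_lit 532) (nat_lit 1757989680) (nat_lit 608) (nat_lit 2307034237) (nat_lit 104) (nat_lit 5) (nat_lit 111) (nat_lit 5) (nat_lit 112) (nat_lit 5) (nat_lit 276) (nat_lit 265) (nat_lit 239)) (XT.lf (nat_lit 0) (nat_lit 186752146) (nat_lit 608) (nat_lit 7336111223) (nat_lit 684) (nat_lit 516427417) (nat_lit 96) (nat_lit 5) (nat_lit 104) (nat_lit 5) (nat_lit 105) (nat_lit 5) (nat_lit 277) (nat_lit 265) (nat_lit 238))))) (XT.nd (nat_lit 156) (nat_lit 608) (nat_lit 0) (XT.nd (nat_lit 78) (nat_lit 684) (nat_lit 0) (XT.lf (nat_lit 0) (nat_lit 1335066979) (nat_lit 684) (nat_lit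 3535143356) (nat_lit 76) (nat_lit 3332226543) (nat_lit 95) (nat_lit 5) (nat_lit 104) (nat_lit 5) (nat_lit 96) (nat_lit 5) (nat_lit 278) (nat_lit 265) (nat_lit 237)) (XT.lf (nat_lit 0) (nat_lit 948078032) (nat_lit 684) (nat_lit 2248707957) (nat_lit 760) (nat_lit 5179950490) (nat_lit 86) (nat_lit 5) (nat_lit 95) (nat_lit 5) (nat_lit 96) (nat_lit 5) (nat_lit 279) (nat_lit 265) (nat_lit 236))) (XT.nd (nat_lit 78) (nat_lit 608) (nat_lit 0) (XT.lf (nat_lit 0) (nat_lit 5143305719) (nat_lit 760) (nat_lit 2862290967) (nat_lit 76) (nat_lit 554730318) (nat_lit 86) (nat_lit 5) (nat_lit 96) (nat_lit 5) (nat_lit 87) (nat_lit 5) (nat_lit 280) (nat_lit 265) (nat_lit 235)) (XT.nd (nat_lit 78) (nat_lit 76) (nat_lit 0) (XT.lf (nat_lit 0) (nat_lit 1884535559) (nat_lit 532) (nat_lit 5295566753) (nat_lit 608) (nat_lit 1573501183) (nat_lit 79) (nat_lit 5) (nat_lit 86) (nat_lit 5) (nat_lit 87) (nat_lit 5) (nat_lit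 281) (nat_lit 265) (nat_lit 234)) (XT.lf (nat_lit 0) (nat_lit 327627169) (nat_lit 608) (nat_lit 2065184306) (nat_lit 76) (nat_lit 6564738022) (nat_lit 78) (nat_lit 5) (nat_lit 86) (nat_lit 5) (nat_lit 79) (nat_lit 5) (nat_lit 282) (nat_lit 265) (nat_lit 233)))))) (XT.nd (nat_lit 390) (nat_lit 912) (nat_lit 0) (XT.nd (nat_lit 156) (nat_lit 684) (nat_lit 0) (XT.nd (nat_lit 78) (nat_lit 0) (nat_lit 0) (XT.lf (nat_lit 0) (nat_lit 2260048429) (nat_lit 456) (nat_lit 6203833743) (nat_lit 76) (nat_lit 707198067) (nat_lit 73) (nat_lit 5) (nat_lit 79) (nat_lit 5) (nat_lit 74) (nat_lit 5) (nat_lit 283) (nat_lit 265) (nat_lit 232)) (XT.lf (nat_lit 0) (nat_lit 4297250630) (nat_lit 456) (nat_lit 1181885979) (nat_lit 76) (nat_lit 3915869597) (nat_lit 73) (nat_lit 5) (nat_lit 79) (nat_lit 5) (nat_lit 74) (nat_lit 5) (nat_lit 284) (nat_lit 265) (nat_lit 231))) (XT.nd (nat_lit 78) (nat_lit 380) (nat_lit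 0) (XT.lf (nat_lit 0) (nat_lit 4156040514) (nat_lit 304) (nat_lit 2281717207) (nat_lit 380) (nat_lit 3192419162) (nat_lit 69) (nat_lit 5) (nat_lit 73) (nat_lit 5) (nat_lit 74) (nat_lit 5) (nat_lit 285) (nat_lit 265) (nat_lit 230)) (XT.nd (nat_lit 78) (nat_lit 380) (nat_lit 0) (XT.lf (nat_lit 0) (nat_lit 8660871599) (nat_lit 380) (nat_lit 161470652) (nat_lit 76) (nat_lit 1056099678) (nat_lit 69) (nat_lit 5) (nat_lit 74) (nat_lit 5) (nat_lit 70) (nat_lit 5) (nat_lit 286) (nat_lit 265) (nat_lit 229)) (XT.lf (nat_lit 0) (nat_lit 894042506) (nat_lit 380) (nat_lit 4662144053) (nat_lit 76) (nat_lit 4579098666) (nat_lit 64) (nat_lit 5) (nat_lit 69) (nat_lit 5) (nat_lit 65) (nat_lit 5) (nat_lit 287) (nat_lit 265) (nat_lit 228))))) (XT.nd (nat_lit 156) (nat_lit 608) (nat_lit 0) (XT.nd (nat_lit 78) (nat_lit 0) (nat_lit 0) (XT.lf (nat_lit 0) (nat_lit 932355494) (nat_lit 304) (nat_lit 2097406729)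 (nat_lit 380) (nat_lit 7376337484) (nat_lit 60) (nat_lit 5) (nat_lit 64) (nat_lit 5) (nat_lit 65) (nat_lit 5) (nat_lit 288) (nat_lit 265) (nat_lit 227)) (XT.lf (nat_lit 0) (nat_lit 5320134151) (nat_lit 380) (nat_lit 3812700830) (nat_lit 76) (nat_lit 1555321154) (nat_lit 60) (nat_lit 5) (nat_lit 65) (nat_lit 5) (nat_lit 61) (nat_lit 5) (nat_lit 289) (nat_lit 265) (nat_lit 226))) (XT.nd (nat_lit 78) (nat_lit 304) (nat_lit 0) (XT.lf (nat_lit 0) (nat_lit 2098083182) (nat_lit 304) (nat_lit 5640426256) (nat_lit 380) (nat_lit 3245221740) (nat_lit 56) (nat_lit 5) (nat_lit 60) (nat_lit 5) (nat_lit 61) (nat_lit 5) (nat_lit 290) (nat_lit 265) (nat_lit 225)) (XT.nd (nat_lit 78) (nat_lit 304) (nat_lit 0) (XT.lf (nat_lit 0) (nat_lit 8371760972) (nat_lit 304) (nat_lit 1918496535) (nat_lit 380) (nat_lit 1003290509) (nat_lit 56) (nat_lit 5) (nat_lit 60) (nat_lit 5) (nat_lit 61) (nat_lit 5) (nat_lit 291)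 (nat_lit 265) (nat_lit 224)) (XT.lf (nat_lit 0) (nat_lit 1341550082) (nat_lit 304) (nat_lit 8286689692) (nat_lit 76) (nat_lit 1987937013) (nat_lit 52) (nat_lit 5) (nat_lit 56) (nat_lit 5) (nat_lit 53) (nat_lit 5) (nat_lit 292) (nat_lit 265) (nat_lit 223))))))) (XT.nd (nat_lit 780) (nat_lit 836) (nat_lit 0) (XT.nd (nat_lit 390) (nat_lit 684) (nat_lit 0) (XT.nd (nat_lit 156) (nat_lit 304) (nat_lit 0) (XT.nd (nat_lit 78) (nat_lit 228) (nat_lit 0) (XT.lf (nat_lit 0) (nat_lit 3802349113) (nat_lit 304) (nat_lit 2071366481) (nat_lit 76) (nat_lit 6078851423) (nat_lit 52) (nat_lit 5) (nat_lit 56) (nat_lit 5) (nat_lit 53) (nat_lit 5) (nat_lit 293) (nat_lit 265) (nat_lit 222)) (XT.lf (nat_lit 0) (nat_lit 4538106797) (nat_lit 228) (nat_lit 1871971704) (nat_lit 304) (nat_lit 5894574281) (nat_lit 49) (nat_lit 5) (nat_lit 52) (nat_lit 5) (nat_lit 53) (nat_lit 5) (nat_lit 294) (nat_lit 265) (nat_lit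 221))) (XT.nd (nat_lit 78) (nat_lit 304) (nat_lit 0) (XT.lf (nat_lit 0) (nat_lit 9174311349) (nat_lit 304) (nat_lit 1222552538) (nat_lit 76) (nat_lit 2276240280) (nat_lit 49) (nat_lit 5) (nat_lit 53) (nat_lit 5) (nat_lit 50) (nat_lit 5) (nat_lit 295) (nat_lit 265) (nat_lit 220)) (XT.nd (nat_lit 78) (nat_lit 76) (nat_lit 0) (XT.lf (nat_lit 0) (nat_lit 5741743326) (nat_lit 228) (nat_lit 6411618313) (nat_lit 304) (nat_lit 902850176) (nat_lit 46) (nat_lit 5) (nat_lit 49) (nat_lit 5) (nat_lit 50) (nat_lit 5) (nat_lit 296) (nat_lit 265) (nat_lit 219)) (XT.lf (nat_lit 0) (nat_lit 1742266800) (nat_lit 304) (nat_lit 450045097) (nat_lit 76) (nat_lit 11265911911) (nat_lit 45) (nat_lit 5) (nat_lit 49) (nat_lit 5) (nat_lit 46) (nat_lit 5) (nat_lit 297) (nat_lit 265) (nat_lit 218))))) (XT.nd (nat_lit 156) (nat_lit 304) (nat_lit 0) (XT.nd (nat_lit 78) (nat_lit 152) (nat_lit 0) (XT.lf (nat_lit 0) (nat_lit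 4592559088) (nat_lit 304) (nat_lit 7006800979) (nat_lit 76) (nat_lit 2275128505) (nat_lit 42) (nat_lit 5) (nat_lit 46) (nat_lit 5) (nat_lit 43) (nat_lit 5) (nat_lit 298) (nat_lit 265) (nat_lit 217)) (XT.lf (nat_lit 0) (nat_lit 166513783) (nat_lit 152) (nat_lit 7424700081) (nat_lit 228) (nat_lit 6720112956) (nat_lit 40) (nat_lit 5) (nat_lit 42) (nat_lit 5) (nat_lit 43) (nat_lit 5) (nat_lit 299) (nat_lit 265) (nat_lit 216))) (XT.nd (nat_lit 78) (nat_lit 304) (nat_lit 0) (XT.lf (nat_lit 0) (nat_lit 7884200905) (nat_lit 152) (nat_lit 2934852998) (nat_lit 228) (nat_lit 3947040585) (nat_lit 40) (nat_lit 5) (nat_lit 42) (nat_lit 5) (nat_lit 43) (nat_lit 5) (nat_lit 300) (nat_lit 265) (nat_lit 215)) (XT.nd (nat_lit 78) (nat_lit 76) (nat_lit 0) (XT.lf (nat_lit 0) (nat_lit 681741323) (nat_lit 228) (nat_lit 13527167189) (nat_lit 304) (nat_lit 1034708643) (nat_lit 37) (nat_lit 5) (nat_lit 40) (nat_lit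 5) (nat_lit 41) (nat_lit 5) (nat_lit 301) (nat_lit 265) (nat_lit 214)) (XT.lf (nat_lit 0) (nat_lit 2087534988) (nat_lit 304) (nat_lit 7015159019) (nat_lit 76) (nat_lit 6634333264) (nat_lit 36) (nat_lit 5) (nat_lit 40) (nat_lit 5) (nat_lit 37) (nat_lit 5) (nat_lit 302) (nat_lit 265) (nat_lit 213)))))) (XT.nd (nat_lit 390) (nat_lit 304) (nat_lit 0) (XT.nd (nat_lit 156) (nat_lit 380) (nat_lit 0) (XT.nd (nat_lit 78) (nat_lit 0) (nat_lit 0) (XT.lf (nat_lit 0) (nat_lit 865498421) (nat_lit 152) (nat_lit 4443399133) (nat_lit 228) (nat_lit 10946514472) (nat_lit 34) (nat_lit 5) (nat_lit 36) (nat_lit 5) (nat_lit 37) (nat_lit 5) (nat_lit 303) (nat_lit 265) (nat_lit 212)) (XT.lf (nat_lit 0) (nat_lit 8783938628) (nat_lit 228) (nat_lit 7473748338) (nat_lit 76) (nat_lit 537437815) (nat_lit 34) (nat_lit 5) (nat_lit 37) (nat_lit 5) (nat_lit 35) (nat_lit 5) (nat_lit 304) (nat_lit 265) (nat_lit 211))) (XT.nd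 (nat_lit 78) (nat_lit 228) (nat_lit 0) (XT.lf (nat_lit 0) (nat_lit 736816561) (nat_lit 152) (nat_lit 11746785072) (nat_lit 228) (nat_lit 4875715456) (nat_lit 32) (nat_lit 5) (nat_lit 34) (nat_lit 5) (nat_lit 35) (nat_lit 5) (nat_lit 305) (nat_lit 265) (nat_lit 210)) (XT.nd (nat_lit 78) (nat_lit 228) (nat_lit 0) (XT.lf (nat_lit 0) (nat_lit 9566073726) (nat_lit 152) (nat_lit 6896062167) (nat_lit 228) (nat_lit 1484924342) (nat_lit 32) (nat_lit 5) (nat_lit 34) (nat_lit 5) (nat_lit 35) (nat_lit 5) (nat_lit 306) (nat_lit 265) (nat_lit 209)) (XT.lf (nat_lit 0) (nat_lit 196547134) (nat_lit 152) (nat_lit 1783831668) (nat_lit 228) (nat_lit 16583653987) (nat_lit 29) (nat_lit 5) (nat_lit 31) (nat_lit 5) (nat_lit 32) (nat_lit 5) (nat_lit 307) (nat_lit 265) (nat_lit 208))))) (XT.nd (nat_lit 156) (nat_lit 304) (nat_lit 0) (XT.nd (nat_lit 78) (nat_lit 0) (nat_lit 0) (XT.lf (nat_lit 0) (nat_lit 5738049652)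 (nat_lit 228) (nat_lit 9843888368) (nat_lit 76) (nat_lit 3620279288) (nat_lit 29) (nat_lit 5) (nat_lit 32) (nat_lit 5) (nat_lit 30) (nat_lit 5) (nat_lit 308) (nat_lit 265) (nat_lit 207)) (XT.lf (nat_lit 0) (nat_lit 9683119959) (nat_lit 228) (nat_lit 971384169) (nat_lit 76) (nat_lit 9217860442) (nat_lit 29) (nat_lit 5) (nat_lit 32) (nat_lit 5) (nat_lit 30) (nat_lit 5) (nat_lit 309) (nat_lit 265) (nat_lit 206))) (XT.nd (nat_lit 78) (nat_lit 152) (nat_lit 0) (XT.lf (nat_lit 0) (nat_lit 8573405067) (nat_lit 152) (nat_lit 5357581950) (nat_lit 228) (nat_lit 6639782931) (nat_lit 27) (nat_lit 5) (nat_lit 29) (nat_lit 5) (nat_lit 30) (nat_lit 5) (nat_lit 310) (nat_lit 265) (nat_lit 205)) (XT.nd (nat_lit 78) (nat_lit 152) (nat_lit 0) (XT.lf (nat_lit 0) (nat_lit 18383219067) (nat_lit 228) (nat_lit 2723716707) (nat_lit 76) (nat_lit 197587825) (nat_lit 27) (nat_lit 5) (nat_lit 30) (nat_lit 5) (nat_lit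 28) (nat_lit 4) (nat_lit 311) (nat_lit 265) (nat_lit 204)) (XT.lf (nat_lit 0) (nat_lit 1126651379) (nat_lit 152) (nat_lit 14975168483) (nat_lit 76) (nat_lit 5963650798) (nat_lit 25) (nat_lit 5) (nat_lit 27) (nat_lit 5) (nat_lit 26) (nat_lit 5) (nat_lit 312) (nat_lit 265) (nat_lit 203))))))))
noncomputable def xc122 : XT := (XT.nd (nat_lit 1560) (nat_lit 532) (nat_lit 0) (XT.nd (nat_lit 780) (nat_lit 456) (nat_lit 0) (XT.nd (nat_lit 390) (nat_lit 304) (nat_lit 0) (XT.nd (nat_lit 156) (nat_lit 76) (nat_lit 0) (XT.nd (nat_lit 78) (nat_lit 152) (nat_lit 0) (XT.lf (nat_lit 0) (nat_lit 5299249342) (nat_lit 152) (nat_lit 5465357747) (nat_lit 76) (nat_lit 12096465476) (nat_lit 25) (nat_lit 5) (nat_lit 27) (nat_lit 5) (nat_lit 26) (nat_lit 5) (nat_lit 313) (nat_lit 265) (nat_lit 202)) (XT.lf (nat_lit 0) (nat_lit 4625969220) (nat_lit 152) (nat_lit 5101528132) (nat_lit 228) (nat_lit 13966628079)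 (nat_lit 23) (nat_lit 5) (nat_lit 25) (nat_lit 5) (nat_lit 26) (nat_lit 5) (nat_lit 314) (nat_lit 265) (nat_lit 201))) (XT.nd (nat_lit 78) (nat_lit 76) (nat_lit 0) (XT.lf (nat_lit 0) (nat_lit 14459511283) (nat_lit 228) (nat_lit 9209649882) (nat_lit 76) (nat_lit 895572931) (nat_lit 23) (nat_lit 5) (nat_lit 26) (nat_lit 5) (nat_lit 24) (nat_lit 4) (nat_lit 315) (nat_lit 265) (nat_lit 200)) (XT.nd (nat_lit 78) (nat_lit 0) (nat_lit 0) (XT.lf (nat_lit 0) (nat_lit 1051471704) (nat_lit 76) (nat_lit 18452977932) (nat_lit 152) (nat_lit 5970627210) (nat_lit 22) (nat_lit 5) (nat_lit 23) (nat_lit 5) (nat_lit 24) (nat_lit 4) (nat_lit 316) (nat_lit 265) (nat_lit 199)) (XT.lf (nat_lit 0) (nat_lit 12105706023) (nat_lit 76) (nat_lit 12828684645) (nat_lit 152) (nat_lit 1489927173) (nat_lit 22) (nat_lit 5) (nat_lit 23) (nat_lit 5) (nat_lit 24) (nat_lit 4) (nat_lit 317) (nat_lit 265) (nat_lit 198))))) (XT.nd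 (nat_lit 156) (nat_lit 76) (nat_lit 0) (XT.nd (nat_lit 78) (nat_lit 152) (nat_lit 0) (XT.lf (nat_lit 0) (nat_lit 3089425400) (nat_lit 152) (nat_lit 3797113694) (nat_lit 76) (nat_lit 20533113748) (nat_lit 21) (nat_lit 5) (nat_lit 23) (nat_lit 5) (nat_lit 22) (nat_lit 5) (nat_lit 318) (nat_lit 265) (nat_lit 197)) (XT.lf (nat_lit 0) (nat_lit 7427028740) (nat_lit 152) (nat_lit 515184616) (nat_lit 228) (nat_lit 20516609353) (nat_lit 19) (nat_lit 5) (nat_lit 21) (nat_lit 5) (nat_lit 22) (nat_lit 5) (nat_lit 319) (nat_lit 265) (nat_lit 196))) (XT.nd (nat_lit 78) (nat_lit 76) (nat_lit 0) (XT.lf (nat_lit 0) (nat_lit 13178207316) (nat_lit 228) (nat_lit 10336940970) (nat_lit 76) (nat_lit 6027789999) (nat_lit 19) (nat_lit 5) (nat_lit 22) (nat_lit 5) (nat_lit 20) (nat_lit 4) (nat_lit 320) (nat_lit 265) (nat_lit 195)) (XT.nd (nat_lit 78) (nat_lit 0) (nat_lit 0) (XT.lf (nat_lit 0) (nat_lit 877089413)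 (nat_lit 76) (nat_lit 17800861976) (nat_lit 152) (nat_lit 12003225532) (nat_lit 18) (nat_lit 5) (nat_lit 19) (nat_lit 5) (nat_lit 20) (nat_lit 4) (nat_lit 321) (nat_lit 265) (nat_lit 194)) (XT.lf (nat_lit 0) (nat_lit 12976072222) (nat_lit 76) (nat_lit 11631903286) (nat_lit 152) (nat_lit 7260601439) (nat_lit 18) (nat_lit 5) (nat_lit 19) (nat_lit 5) (nat_lit 20) (nat_lit 4) (nat_lit 322) (nat_lit 265) (nat_lit 193)))))) (XT.nd (nat_lit 390) (nat_lit 152) (nat_lit 0) (XT.nd (nat_lit 156) (nat_lit 76) (nat_lit 0) (XT.nd (nat_lit 78) (nat_lit 228) (nat_lit 0) (XT.lf (nat_lit 0) (nat_lit 25647028606) (nat_lit 76) (nat_lit 5168645317) (nat_lit 152) (nat_lit 2300627825) (nat_lit 18) (nat_lit 5) (nat_lit 19) (nat_lit 5) (nat_lit 20) (nat_lit 4) (nat_lit 323) (nat_lit 265) (nat_lit 192)) (XT.lf (nat_lit 0) (nat_lit 2894754756) (nat_lit 228) (nat_lit 29853674248) (nat_lit 76) (nat_lit 1671703202)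 (nat_lit 15) (nat_lit 5) (nat_lit 18) (nat_lit 5) (nat_lit 16) (nat_lit 4) (nat_lit 324) (nat_lit 265) (nat_lit 191))) (XT.nd (nat_lit 78) (nat_lit 76) (nat_lit 0) (XT.lf (nat_lit 0) (nat_lit 8467818452) (nat_lit 228) (nat_lit 18476253885) (nat_lit 76) (nat_lit 8833446280) (nat_lit 15) (nat_lit 5) (nat_lit 18) (nat_lit 5) (nat_lit 16) (nat_lit 4) (nat_lit 325) (nat_lit 265) (nat_lit 190)) (XT.nd (nat_lit 78) (nat_lit 76) (nat_lit 0) (XT.lf (nat_lit 0) (nat_lit 14302322780) (nat_lit 228) (nat_lit 6560624978) (nat_lit 76) (nat_lit 16340698266) (nat_lit 15) (nat_lit 5) (nat_lit 18) (nat_lit 5) (nat_lit 16) (nat_lit 4) (nat_lit 326) (nat_lit 265) (nat_lit 189)) (XT.lf (nat_lit 0) (nat_lit 6117377295) (nat_lit 76) (nat_lit 14390291525) (nat_lit 152) (nat_lit 18189465677) (nat_lit 14) (nat_lit 5) (nat_lit 15) (nat_lit 5) (nat_lit 16) (nat_lit 4) (nat_lit 327) (nat_lit 265) (nat_lit 188)))))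 (XT.nd (nat_lit 156) (nat_lit 152) (nat_lit 0) (XT.nd (nat_lit 78) (nat_lit 0) (nat_lit 0) (XT.lf (nat_lit 0) (nat_lit 19628318418) (nat_lit 76) (nat_lit 7490010234) (nat_lit 152) (nat_lit 13142226437) (nat_lit 14) (nat_lit 5) (nat_lit 15) (nat_lit 5) (nat_lit 16) (nat_lit 4) (nat_lit 328) (nat_lit 265) (nat_lit 187)) (XT.lf (nat_lit 0) (nat_lit 33787443406) (nat_lit 76) (nat_lit 256782004) (nat_lit 152) (nat_lit 7858695648) (nat_lit 14) (nat_lit 5) (nat_lit 15) (nat_lit 5) (nat_lit 16) (nat_lit 4) (nat_lit 329) (nat_lit 265) (nat_lit 186))) (XT.nd (nat_lit 78) (nat_lit 76) (nat_lit 0) (XT.lf (nat_lit 0) (nat_lit 5047483668) (nat_lit 76) (nat_lit 36447560016) (nat_lit 76) (nat_lit 2123439395) (nat_lit 13) (nat_lit 4) (nat_lit 14) (nat_lit 5) (nat_lit 14) (nat_lit 4) (nat_lit 330) (nat_lit 265) (nat_lit 185)) (XT.nd (nat_lit 78) (nat_lit 0) (nat_lit 0) (XT.lf (nat_lit 0) (nat_lit 3903003885)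 (nat_lit 152) (nat_lit 26356620674) (nat_lit 76) (nat_lit 15150703343) (nat_lit 12) (nat_lit 5) (nat_lit 14) (nat_lit 5) (nat_lit 13) (nat_lit 4) (nat_lit 331) (nat_lit 265) (nat_lit 184)) (XT.lf (nat_lit 0) (nat_lit 10145408723) (nat_lit 152) (nat_lit 13591746013) (nat_lit 76) (nat_lit 23553577513) (nat_lit 12) (nat_lit 5) (nat_lit 14) (nat_lit 5) (nat_lit 13) (nat_lit 4) (nat_lit 332) (nat_lit 265) (nat_lit 183))))))) (XT.nd (nat_lit 780) (nat_lit 228) (nat_lit 0) (XT.nd (nat_lit 390) (nat_lit 152) (nat_lit 0) (XT.nd (nat_lit 156) (nat_lit 76) (nat_lit 0) (XT.nd (nat_lit 78) (nat_lit 76) (nat_lit 0) (XT.lf (nat_lit 0) (nat_lit 16686601307) (nat_lit 152) (nat_lit 212830032) (nat_lit 76) (nat_lit 32366399576) (nat_lit 12) (nat_lit 5) (nat_lit 14) (nat_lit 5) (nat_lit 13) (nat_lit 4) (nat_lit 333) (nat_lit 265) (nat_lit 182)) (XT.lf (nat_lit 0) (nat_lit 14268668327) (nat_lit 76) (nat_lit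 9496261478) (nat_lit 152) (nat_lit 27564258016) (nat_lit 11) (nat_lit 5) (nat_lit 12) (nat_lit 5) (nat_lit 13) (nat_lit 4) (nat_lit 334) (nat_lit 265) (nat_lit 181))) (XT.nd (nat_lit 78) (nat_lit 76) (nat_lit 0) (XT.lf (nat_lit 0) (nat_lit 29458952441) (nat_lit 76) (nat_lit 1729379633) (nat_lit 152) (nat_lit 22307829415) (nat_lit 11) (nat_lit 5) (nat_lit 12) (nat_lit 5) (nat_lit 13) (nat_lit 4) (nat_lit 335) (nat_lit 265) (nat_lit 180)) (XT.nd (nat_lit 78) (nat_lit 76) (nat_lit 0) (XT.lf (nat_lit 0) (nat_lit 39071223475) (nat_lit 152) (nat_lit 10485103826) (nat_lit 0) (nat_lit 6210747045) (nat_lit 11) (nat_lit 5) (nat_lit 13) (nat_lit 4) (nat_lit 11) (nat_lit 4) (nat_lit 336) (nat_lit 265) (nat_lit 179)) (XT.lf (nat_lit 0) (nat_lit 3817442674) (nat_lit 76) (nat_lit 43607333521) (nat_lit 76) (nat_lit 10722936966) (nat_lit 10) (nat_lit 4) (nat_lit 11) (nat_lit 5) (nat_lit 11) (nat_lit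 4) (nat_lit 337) (nat_lit 265) (nat_lit 178))))) (XT.nd (nat_lit 156) (nat_lit 76) (nat_lit 0) (XT.nd (nat_lit 78) (nat_lit 76) (nat_lit 0) (XT.lf (nat_lit 0) (nat_lit 19178478765) (nat_lit 76) (nat_lit 37183885380) (nat_lit 76) (nat_lit 4276707751) (nat_lit 10) (nat_lit 4) (nat_lit 11) (nat_lit 5) (nat_lit 11) (nat_lit 4) (nat_lit 338) (nat_lit 265) (nat_lit 177)) (XT.lf (nat_lit 0) (nat_lit 2401219468) (nat_lit 152) (nat_lit 28006373977) (nat_lit 76) (nat_lit 32846008174) (nat_lit 9) (nat_lit 5) (nat_lit 11) (nat_lit 5) (nat_lit 10) (nat_lit 4) (nat_lit 339) (nat_lit 265) (nat_lit 176))) (XT.nd (nat_lit 78) (nat_lit 76) (nat_lit 0) (XT.lf (nat_lit 0) (nat_lit 9258975492) (nat_lit 152) (nat_lit 13968637232) (nat_lit 76) (nat_lit 42768261773) (nat_lit 9) (nat_lit 5) (nat_lit 11) (nat_lit 5) (nat_lit 10) (nat_lit 4) (nat_lit 340) (nat_lit 265) (nat_lit 175)) (XT.nd (nat_lit 78) (nat_lit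 0) (nat_lit 0) (XT.lf (nat_lit 0) (nat_lit 777703033) (nat_lit 76) (nat_lit 15684208757) (nat_lit 152) (nat_lit 52413239424) (nat_lit 8) (nat_lit 5) (nat_lit 9) (nat_lit 5) (nat_lit 10) (nat_lit 4) (nat_lit 341) (nat_lit 265) (nat_lit 174)) (XT.lf (nat_lit 0) (nat_lit 16728438325) (nat_lit 76) (nat_lit 7523462410) (nat_lit 152) (nat_lit 47635150332) (nat_lit 8) (nat_lit 5) (nat_lit 9) (nat_lit 5) (nat_lit 10) (nat_lit 4) (nat_lit 342) (nat_lit 265) (nat_lit 173)))))) (XT.nd (nat_lit 390) (nat_lit 152) (nat_lit 0) (XT.nd (nat_lit 156) (nat_lit 76) (nat_lit 0) (XT.nd (nat_lit 78) (nat_lit 0) (nat_lit 0) (XT.lf (nat_lit 0) (nat_lit 32438387460) (nat_lit 152) (nat_lit 41606528067) (nat_lit 0) (nat_lit 1004284841) (nat_lit 8) (nat_lit 5) (nat_lit 10) (nat_lit 4) (nat_lit 8) (nat_lit 4) (nat_lit 343) (nat_lit 265) (nat_lit 172)) (XT.lf (nat_lit 0) (nat_lit 41148655817) (nat_lit 152) (nat_lit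 27516719500) (nat_lit 0) (nat_lit 9698363115) (nat_lit 8) (nat_lit 5) (nat_lit 10) (nat_lit 4) (nat_lit 8) (nat_lit 4) (nat_lit 344) (nat_lit 265) (nat_lit 171))) (XT.nd (nat_lit 78) (nat_lit 76) (nat_lit 0) (XT.lf (nat_lit 0) (nat_lit 50285982207) (nat_lit 152) (nat_lit 12738177548) (nat_lit 0) (nat_lit 18820270379) (nat_lit 8) (nat_lit 5) (nat_lit 10) (nat_lit 4) (nat_lit 8) (nat_lit 4) (nat_lit 345) (nat_lit 265) (nat_lit 170)) (XT.nd (nat_lit 78) (nat_lit 0) (nat_lit 0) (XT.lf (nat_lit 0) (nat_lit 2855684532) (nat_lit 76) (nat_lit 57061022876) (nat_lit 76) (nat_lit 25580626165) (nat_lit 7) (nat_lit 4) (nat_lit 8) (nat_lit 5) (nat_lit 8) (nat_lit 4) (nat_lit 346) (nat_lit 265) (nat_lit 169)) (XT.lf (nat_lit 0) (nat_lit 19656715815) (nat_lit 76) (nat_lit 50580080455) (nat_lit 76) (nat_lit 19085698142) (nat_lit 7) (nat_lit 4) (nat_lit 8) (nat_lit 5) (nat_lit 8) (nat_lit 4) (nat_lit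 347) (nat_lit 265) (nat_lit 168))))) (XT.nd (nat_lit 156) (nat_lit 152) (nat_lit 0) (XT.nd (nat_lit 78) (nat_lit 0) (nat_lit 0) (XT.lf (nat_lit 0) (nat_lit 37283737077) (nat_lit 76) (nat_lit 43781628878) (nat_lit 76) (nat_lit 12273926943) (nat_lit 7) (nat_lit 4) (nat_lit 8) (nat_lit 5) (nat_lit 8) (nat_lit 4) (nat_lit 348) (nat_lit 265) (nat_lit 167)) (XT.lf (nat_lit 0) (nat_lit 55778717417) (nat_lit 76) (nat_lit 36649481354) (nat_lit 76) (nat_lit 5129094066) (nat_lit 7) (nat_lit 4) (nat_lit 8) (nat_lit 5) (nat_lit 8) (nat_lit 4) (nat_lit 349) (nat_lit 265) (nat_lit 166))) (XT.nd (nat_lit 78) (nat_lit 76) (nat_lit 0) (XT.lf (nat_lit 0) (nat_lit 2290091236) (nat_lit 152) (nat_lit 26837781542) (nat_lit 76) (nat_lit 72856817463) (nat_lit 6) (nat_lit 5) (nat_lit 8) (nat_lit 5) (nat_lit 7) (nat_lit 4) (nat_lit 350) (nat_lit 265) (nat_lit 165)) (XT.nd (nat_lit 78) (nat_lit 76) (nat_lit 0)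 (XT.lf (nat_lit 0) (nat_lit 9901256016) (nat_lit 152) (nat_lit 11246399732) (nat_lit 76) (nat_lit 85481930838) (nat_lit 6) (nat_lit 5) (nat_lit 8) (nat_lit 5) (nat_lit 7) (nat_lit 4) (nat_lit 351) (nat_lit 265) (nat_lit 164)) (XT.lf (nat_lit 0) (nat_lit 5281823207) (nat_lit 76) (nat_lit 12687325992) (nat_lit 152) (nat_lit 93533772727) (nat_lit 5) (nat_lit 5) (nat_lit 6) (nat_lit 5) (nat_lit 7) (nat_lit 4) (nat_lit 352) (nat_lit 265) (nat_lit 163))))))))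
noncomputable def xc123 : XT := (XT.nd (nat_lit 1560) (nat_lit 0) (nat_lit 0) (XT.nd (nat_lit 780) (nat_lit 152) (nat_lit 0) (XT.nd (nat_lit 390) (nat_lit 76) (nat_lit 0) (XT.nd (nat_lit 156) (nat_lit 0) (nat_lit 0) (XT.nd (nat_lit 78) (nat_lit 0) (nat_lit 0) (XT.lf (nat_lit 0) (nat_lit 23015317597) (nat_lit 76) (nat_lit 3609407535) (nat_lit 152) (nat_lit 89985987052) (nat_lit 5) (nat_lit 5) (nat_lit 6) (nat_lit 5) (nat_lit 7) (nat_lit 4) (nat_lit 353) (nat_lit 265) (nat_lit 162)) (XT.lf (nat_lit 0) (nat_lit 35799583648) (nat_lit 152) (nat_lit 80442124028) (nat_lit 0) (nat_lit 5727861523) (nat_lit 5) (nat_lit 5) (nat_lit 7) (nat_lit 4) (nat_lit 5) (nat_lit 4) (nat_lit 354) (nat_lit 265) (nat_lit 161))) (XT.nd (nat_lit 78) (nat_lit 0) (nat_lit 0) (XT.lf (nat_lit 0) (nat_lit 45486678007) (nat_lit 152) (nat_lit 66701078092) (nat_lit 0) (nat_lit 15405940638) (nat_lit 5) (nat_lit 5) (nat_lit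 7) (nat_lit 4) (nat_lit 5) (nat_lit 4) (nat_lit 355) (nat_lit 265) (nat_lit 160)) (XT.nd (nat_lit 78) (nat_lit 0) (nat_lit 0) (XT.lf (nat_lit 0) (nat_lit 55652719753) (nat_lit 152) (nat_lit 52283187036) (nat_lit 0) (nat_lit 25563396438) (nat_lit 5) (nat_lit 5) (nat_lit 7) (nat_lit 4) (nat_lit 5) (nat_lit 4) (nat_lit 356) (nat_lit 265) (nat_lit 159)) (XT.lf (nat_lit 0) (nat_lit 66321913749) (nat_lit 152) (nat_lit 37154122547) (nat_lit 0) (nat_lit 36224413341) (nat_lit 5) (nat_lit 5) (nat_lit 7) (nat_lit 4) (nat_lit 5) (nat_lit 4) (nat_lit 357) (nat_lit 265) (nat_lit 158))))) (XT.nd (nat_lit 156) (nat_lit 76) (nat_lit 0) (XT.nd (nat_lit 78) (nat_lit 0) (nat_lit 0) (XT.lf (nat_lit 0) (nat_lit 77519662835) (nat_lit 152) (nat_lit 21277863044) (nat_lit 0) (nat_lit 47414374721) (nat_lit 5) (nat_lit 5) (nat_lit 7) (nat_lit 4) (nat_lit 5) (nat_lit 4) (nat_lit 358) (nat_lit 265) (nat_lit 157))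 (XT.lf (nat_lit 0) (nat_lit 89272628320) (nat_lit 152) (nat_lit 4616607909) (nat_lit 0) (nat_lit 59159923343) (nat_lit 5) (nat_lit 5) (nat_lit 7) (nat_lit 4) (nat_lit 5) (nat_lit 4) (nat_lit 359) (nat_lit 265) (nat_lit 156))) (XT.nd (nat_lit 78) (nat_lit 0) (nat_lit 0) (XT.lf (nat_lit 0) (nat_lit 13294830104) (nat_lit 76) (nat_lit 88521532907) (nat_lit 76) (nat_lit 58401764250) (nat_lit 4) (nat_lit 4) (nat_lit 5) (nat_lit 5) (nat_lit 5) (nat_lit 4) (nat_lit 360) (nat_lit 265) (nat_lit 155)) (XT.nd (nat_lit 78) (nat_lit 0) (nat_lit 0) (XT.lf (nat_lit 0) (nat_lit 32253856195) (nat_lit 76) (nat_lit 82807246954) (nat_lit 76) (nat_lit 52680750983) (nat_lit 4) (nat_lit 4) (nat_lit 5) (nat_lit 5) (nat_lit 5) (nat_lit 4) (nat_lit 361) (nat_lit 265) (nat_lit 154)) (XT.lf (nat_lit 0) (nat_lit 52152964993) (nat_lit 76) (nat_lit 76810957414) (nat_lit 76) (nat_lit 46678054478) (nat_lit 4) (nat_lit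 4) (nat_lit 5) (nat_lit 5) (nat_lit 5) (nat_lit 4) (nat_lit 362) (nat_lit 265) (nat_lit 153)))))) (XT.nd (nat_lit 390) (nat_lit 152) (nat_lit 0) (XT.nd (nat_lit 156) (nat_lit 0) (nat_lit 0) (XT.nd (nat_lit 78) (nat_lit 0) (nat_lit 0) (XT.lf (nat_lit 0) (nat_lit 73039535330) (nat_lit 76) (nat_lit 70518387410) (nat_lit 76) (nat_lit 40379382601) (nat_lit 4) (nat_lit 4) (nat_lit 5) (nat_lit 5) (nat_lit 5) (nat_lit 4) (nat_lit 363) (nat_lit 265) (nat_lit 152)) (XT.lf (nat_lit 0) (nat_lit 94963297135) (nat_lit 76) (nat_lit 63914554630) (nat_lit 76) (nat_lit 33769738515) (nat_lit 4) (nat_lit 4) (nat_lit 5) (nat_lit 5) (nat_lit 5) (nat_lit 4) (nat_lit 364) (nat_lit 265) (nat_lit 151))) (XT.nd (nat_lit 78) (nat_lit 0) (nat_lit 0) (XT.lf (nat_lit 0) (nat_lit 117976449841) (nat_lit 76) (nat_lit 56983735664) (nat_lit 76) (nat_lit 26833384972) (nat_lit 4) (nat_lit 4) (nat_lit 5) (nat_lit 5) (nat_lit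 5) (nat_lit 4) (nat_lit 365) (nat_lit 265) (nat_lit 150)) (XT.nd (nat_lit 78) (nat_lit 0) (nat_lit 0) (XT.lf (nat_lit 0) (nat_lit 142133786668) (nat_lit 76) (nat_lit 49709428562) (nat_lit 76) (nat_lit 19553806843) (nat_lit 4) (nat_lit 4) (nat_lit 5) (nat_lit 5) (nat_lit 5) (nat_lit 4) (nat_lit 366) (nat_lit 265) (nat_lit 149)) (XT.lf (nat_lit 0) (nat_lit 167492825086) (nat_lit 76) (nat_lit 42074313546) (nat_lit 76) (nat_lit 11913671801) (nat_lit 4) (nat_lit 4) (nat_lit 5) (nat_lit 5) (nat_lit 5) (nat_lit 4) (nat_lit 367) (nat_lit 265) (nat_lit 148))))) (XT.nd (nat_lit 156) (nat_lit 76) (nat_lit 0) (XT.nd (nat_lit 78) (nat_lit 76) (nat_lit 0) (XT.lf (nat_lit 0) (nat_lit 194113943756) (nat_lit 76) (nat_lit 34060211768) (nat_lit 76) (nat_lit 3894789048) (nat_lit 4) (nat_lit 4) (nat_lit 5) (nat_lit 5) (nat_lit 5) (nat_lit 4) (nat_lit 368) (nat_lit 265) (nat_lit 147)) (XT.lf (nat_lit 0) (nat_lit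 4377203867) (nat_lit 152) (nat_lit 21196708103) (nat_lit 76) (nat_lit 217609192363) (nat_lit 3) (nat_lit 5) (nat_lit 5) (nat_lit 5) (nat_lit 4) (nat_lit 4) (nat_lit 369) (nat_lit 265) (nat_lit 146))) (XT.nd (nat_lit 78) (nat_lit 76) (nat_lit 0) (XT.lf (nat_lit 0) (nat_lit 12929044542) (nat_lit 152) (nat_lit 3669771206) (nat_lit 76) (nat_lit 238251108018) (nat_lit 3) (nat_lit 5) (nat_lit 5) (nat_lit 5) (nat_lit 4) (nat_lit 4) (nat_lit 370) (nat_lit 265) (nat_lit 145)) (XT.nd (nat_lit 78) (nat_lit 0) (nat_lit 0) (XT.lf (nat_lit 0) (nat_lit 15215334992) (nat_lit 76) (nat_lit 6927971103) (nat_lit 152) (nat_lit 244945037644) (nat_lit 2) (nat_lit 5) (nat_lit 3) (nat_lit 5) (nat_lit 4) (nat_lit 4) (nat_lit 371) (nat_lit 265) (nat_lit 144)) (XT.lf (nat_lit 0) (nat_lit 31929110041) (nat_lit 152) (nat_lit 244820043961) (nat_lit 0) (nat_lit 3183990207) (nat_lit 2) (nat_lit 5) (nat_lit 4) (nat_lit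 4) (nat_lit 2) (nat_lit 4) (nat_lit 372) (nat_lit 265) (nat_lit 143))))))) (XT.nd (nat_lit 780) (nat_lit 0) (nat_lit 0) (XT.nd (nat_lit 390) (nat_lit 0) (nat_lit 0) (XT.nd (nat_lit 156) (nat_lit 0) (nat_lit 0) (XT.nd (nat_lit 78) (nat_lit 0) (nat_lit 0) (XT.lf (nat_lit 0) (nat_lit 42315194365) (nat_lit 152) (nat_lit 237532934854) (nat_lit 0) (nat_lit 13566506892) (nat_lit 2) (nat_lit 5) (nat_lit 4) (nat_lit 4) (nat_lit 2) (nat_lit 4) (nat_lit 373) (nat_lit 265) (nat_lit 142)) (XT.lf (nat_lit 0) (nat_lit 53218122795) (nat_lit 152) (nat_lit 229886166121) (nat_lit 0) (nat_lit 24466037572) (nat_lit 2) (nat_lit 5) (nat_lit 4) (nat_lit 4) (nat_lit 2) (nat_lit 4) (nat_lit 374) (nat_lit 265) (nat_lit 141))) (XT.nd (nat_lit 78) (nat_lit 0) (nat_lit 0) (XT.lf (nat_lit 0) (nat_lit 64663854684) (nat_lit 152) (nat_lit 221861531171) (nat_lit 0) (nat_lit 35908533508) (nat_lit 2) (nat_lit 5) (nat_lit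 4) (nat_lit 4) (nat_lit 2) (nat_lit 4) (nat_lit 375) (nat_lit 265) (nat_lit 140)) (XT.nd (nat_lit 78) (nat_lit 0) (nat_lit 0) (XT.lf (nat_lit 0) (nat_lit 76679641775) (nat_lit 152) (nat_lit 213439923730) (nat_lit 0) (nat_lit 47921238739) (nat_lit 2) (nat_lit 5) (nat_lit 4) (nat_lit 4) (nat_lit 2) (nat_lit 4) (nat_lit 376) (nat_lit 265) (nat_lit 139)) (XT.lf (nat_lit 0) (nat_lit 89294093086) (nat_lit 152) (nat_lit 204601292351) (nat_lit 0) (nat_lit 60532754945) (nat_lit 2) (nat_lit 5) (nat_lit 4) (nat_lit 4) (nat_lit 2) (nat_lit 4) (nat_lit 377) (nat_lit 265) (nat_lit 138))))) (XT.nd (nat_lit 156) (nat_lit 0) (nat_lit 0) (XT.nd (nat_lit 78) (nat_lit 0) (nat_lit 0) (XT.lf (nat_lit 0) (nat_lit 102537243023) (nat_lit 152) (nat_lit 195324592675) (nat_lit 0) (nat_lit 73773109544) (nat_lit 2) (nat_lit 5) (nat_lit 4) (nat_lit 4) (nat_lit 2) (nat_lit 4) (nat_lit 378) (nat_lit 265) (nat_lit 137))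 (XT.lf (nat_lit 0) (nat_lit 116440622896) (nat_lit 152) (nat_lit 185587737320) (nat_lit 0) (nat_lit 87673827191) (nat_lit 2) (nat_lit 5) (nat_lit 4) (nat_lit 4) (nat_lit 2) (nat_lit 4) (nat_lit 379) (nat_lit 265) (nat_lit 136))) (XT.nd (nat_lit 78) (nat_lit 0) (nat_lit 0) (XT.lf (nat_lit 0) (nat_lit 131037335991) (nat_lit 152) (nat_lit 175367543298) (nat_lit 0) (nat_lit 102268004832) (nat_lit 2) (nat_lit 5) (nat_lit 4) (nat_lit 4) (nat_lit 2) (nat_lit 4) (nat_lit 380) (nat_lit 265) (nat_lit 135)) (XT.nd (nat_lit 78) (nat_lit 0) (nat_lit 0) (XT.lf (nat_lit 0) (nat_lit 146362136386) (nat_lit 152) (nat_lit 164639676815) (nat_lit 0) (nat_lit 117590390509) (nat_lit 2) (nat_lit 5) (nat_lit 4) (nat_lit 4) (nat_lit 2) (nat_lit 4) (nat_lit 381) (nat_lit 265) (nat_lit 134)) (XT.lf (nat_lit 0) (nat_lit 162451511702) (nat_lit 152) (nat_lit 153378595329) (nat_lit 0) (nat_lit 133677466093) (nat_lit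 2) (nat_lit 5) (nat_lit 4) (nat_lit 4) (nat_lit 2) (nat_lit 4) (nat_lit 382) (nat_lit 265) (nat_lit 133)))))) (XT.nd (nat_lit 31512) (nat_lit 0) (nat_lit 8664) (XT.nd (nat_lit 156) (nat_lit 0) (nat_lit 0) (XT.nd (nat_lit 78) (nat_lit 0) (nat_lit 0) (XT.lf (nat_lit 0) (nat_lit 179343769974) (nat_lit 152) (nat_lit 141557486744) (nat_lit 0) (nat_lit 150567534145) (nat_lit 2) (nat_lit 5) (nat_lit 4) (nat_lit 4) (nat_lit 2) (nat_lit 4) (nat_lit 383) (nat_lit 265) (nat_lit 132)) (XT.lf (nat_lit 0) (nat_lit 197079130866) (nat_lit 152) (nat_lit 129148205561) (nat_lit 0) (nat_lit 168300809113) (nat_lit 2) (nat_lit 5) (nat_lit 4) (nat_lit 4) (nat_lit 2) (nat_lit 4) (nat_lit 384) (nat_lit 265) (nat_lit 131))) (XT.nd (nat_lit 78) (nat_lit 0) (nat_lit 0) (XT.lf (nat_lit 0) (nat_lit 215699821427) (nat_lit 152) (nat_lit 116121205875) (nat_lit 0) (nat_lit 186919513079) (nat_lit 2) (nat_lit 5) (nat_lit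 4) (nat_lit 4) (nat_lit 2) (nat_lit 4) (nat_lit 385) (nat_lit 265) (nat_lit 130)) (XT.nd (nat_lit 78) (nat_lit 0) (nat_lit 0) (XT.lf (nat_lit 0) (nat_lit 235250176635) (nat_lit 152) (nat_lit 102445471017) (nat_lit 0) (nat_lit 206467976292) (nat_lit 2) (nat_lit 5) (nat_lit 4) (nat_lit 4) (nat_lit 2) (nat_lit 4) (nat_lit 386) (nat_lit 265) (nat_lit 129)) (XT.lf (nat_lit 0) (nat_lit 255776744954) (nat_lit 152) (nat_lit 88088439716) (nat_lit 0) (nat_lit 226992742712) (nat_lit 2) (nat_lit 5) (nat_lit 4) (nat_lit 4) (nat_lit 2) (nat_lit 4) (nat_lit 387) (nat_lit 265) (nat_lit 128))))) (XT.nd (nat_lit 234) (nat_lit 456) (nat_lit 0) (XT.nd (nat_lit 78) (nat_lit 0) (nat_lit 0) (XT.lf (nat_lit 0) (nat_lit 691847000) (nat_lit 0) (nat_lit 691847000) (nat_lit 380) (nat_lit 2050088902) (nat_lit 122) (nat_lit 5) (nat_lit 122) (nat_lit 3) (nat_lit 127) (nat_lit 3) (nat_lit 266) (nat_lit 266) (nat_lit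 248)) (XT.nd (nat_lit 78) (nat_lit 0) (nat_lit 0) (XT.lf (nat_lit 0) (nat_lit 4658226087) (nat_lit 0) (nat_lit 10850580) (nat_lit 380) (nat_lit 2273552166) (nat_lit 122) (nat_lit 5) (nat_lit 122) (nat_lit 3) (nat_lit 127) (nat_lit 3) (nat_lit 267) (nat_lit 266) (nat_lit 247)) (XT.lf (nat_lit 76) (nat_lit 1019584033) (nat_lit 0) (nat_lit 5568133094) (nat_lit 456) (nat_lit 437954640) (nat_lit 123) (nat_lit 5) (nat_lit 122) (nat_lit 5) (nat_lit 128) (nat_lit 5) (nat_lit 268) (nat_lit 266) (nat_lit 246)))) (XT.nd (nat_lit 78) (nat_lit 0) (nat_lit 0) (XT.lf (nat_lit 0) (nat_lit 1367267493) (nat_lit 456) (nat_lit 2635670405) (nat_lit 532) (nat_lit 3112780829) (nat_lit 116) (nat_lit 5) (nat_lit 122) (nat_lit 5) (nat_lit 123) (nat_lit 5) (nat_lit 269) (nat_lit 266) (nat_lit 245)) (XT.nd (nat_lit 78) (nat_lit 0) (nat_lit 0) (XT.lf (nat_lit 76) (nat_lit 858074594) (nat_lit 0) (nat_lit 2294798746)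 (nat_lit 532) (nat_lit 4062070209) (nat_lit 117) (nat_lit 5) (nat_lit 116) (nat_lit 5) (nat_lit 123) (nat_lit 5) (nat_lit 270) (nat_lit 266) (nat_lit 244)) (XT.lf (nat_lit 76) (nat_lit 4553590099) (nat_lit 0) (nat_lit 414413086) (nat_lit 532) (nat_lit 2354377606) (nat_lit 117) (nat_lit 5) (nat_lit 116) (nat_lit 5) (nat_lit 123) (nat_lit 5) (nat_lit 271) (nat_lit 266) (nat_lit 243))))))))
noncomputable def xc124 : XT := (XT.nd (nat_lit 1560) (nat_lit 2204) (nat_lit 0) (XT.nd (nat_lit 780) (nat_lit 2280) (nat_lit 0) (XT.nd (nat_lit 390) (nat_lit 1368) (nat_lit 0) (XT.nd (nat_lit 156) (nat_lit 456) (nat_lit 0) (XT.nd (nat_lit 78) (nat_lit 532) (nat_lit 0) (XT.lf (nat_lit 76) (nat_lit 937160794) (nat_lit 0) (nat_lit 5876889060) (nat_lit 532) (nat_lit 624382850) (nat_lit 118) (nat_lit 5) (nat_lit 117) (nat_lit 5) (nat_lit 124) (nat_lit 5) (nat_lit 272) (nat_lit 266) (nat_lit 242)) (XT.lf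 (nat_lit 0) (nat_lit 1111465717) (nat_lit 532) (nat_lit 2729100587) (nat_lit 608) (nat_lit 3721142347) (nat_lit 110) (nat_lit 5) (nat_lit 117) (nat_lit 5) (nat_lit 118) (nat_lit 5) (nat_lit 273) (nat_lit 266) (nat_lit 241))) (XT.nd (nat_lit 78) (nat_lit 456) (nat_lit 0) (XT.lf (nat_lit 76) (nat_lit 1193431868) (nat_lit 0) (nat_lit 1645996612) (nat_lit 608) (nat_lit 4855109540) (nat_lit 111) (nat_lit 5) (nat_lit 110) (nat_lit 5) (nat_lit 118) (nat_lit 5) (nat_lit 274) (nat_lit 266) (nat_lit 240)) (XT.nd (nat_lit 78) (nat_lit 532) (nat_lit 0) (XT.lf (nat_lit 0) (nat_lit 4622467163) (nat_lit 532) (nat_lit 2506060880) (nat_lit 76) (nat_lit 707253279) (nat_lit 111) (nat_lit 5) (nat_lit 118) (nat_lit 5) (nat_lit 112) (nat_lit 5) (nat_lit 275) (nat_lit 266) (nat_lit 239)) (XT.lf (nat_lit 0) (nat_lit 1647663389) (nat_lit 532) (nat_lit 4815344037) (nat_lit 608) (nat_lit 1522858406) (nat_lit 104)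 (nat_lit 5) (nat_lit 111) (nat_lit 5) (nat_lit 112) (nat_lit 5) (nat_lit 276) (nat_lit 266) (nat_lit 238))))) (XT.nd (nat_lit 156) (nat_lit 684) (nat_lit 0) (XT.nd (nat_lit 78) (nat_lit 608) (nat_lit 0) (XT.lf (nat_lit 0) (nat_lit 204304776) (nat_lit 608) (nat_lit 2118552066) (nat_lit 76) (nat_lit 5822566465) (nat_lit 103) (nat_lit 5) (nat_lit 111) (nat_lit 5) (nat_lit 104) (nat_lit 5) (nat_lit 277) (nat_lit 266) (nat_lit 237)) (XT.lf (nat_lit 0) (nat_lit 1929348279) (nat_lit 684) (nat_lit 6024657835) (nat_lit 76) (nat_lit 359739054) (nat_lit 95) (nat_lit 5) (nat_lit 104) (nat_lit 5) (nat_lit 96) (nat_lit 5) (nat_lit 278) (nat_lit 266) (nat_lit 236))) (XT.nd (nat_lit 78) (nat_lit 684) (nat_lit 0) (XT.lf (nat_lit 0) (nat_lit 3739193396) (nat_lit 684) (nat_lit 1605194129) (nat_lit 76) (nat_lit 3146329807) (nat_lit 95) (nat_lit 5) (nat_lit 104) (nat_lit 5) (nat_lit 96) (nat_lit 5) (nat_lit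 279) (nat_lit 266) (nat_lit 235)) (XT.nd (nat_lit 78) (nat_lit 0) (nat_lit 0) (XT.lf (nat_lit 0) (nat_lit 3068209193) (nat_lit 684) (nat_lit 2546846764) (nat_lit 760) (nat_lit 3062859873) (nat_lit 86) (nat_lit 5) (nat_lit 95) (nat_lit 5) (nat_lit 96) (nat_lit 5) (nat_lit 280) (nat_lit 266) (nat_lit 234)) (XT.lf (nat_lit 0) (nat_lit 7548596070) (nat_lit 760) (nat_lit 916563531) (nat_lit 76) (nat_lit 411267081) (nat_lit 86) (nat_lit 5) (nat_lit 96) (nat_lit 5) (nat_lit 87) (nat_lit 5) (nat_lit 281) (nat_lit 266) (nat_lit 233)))))) (XT.nd (nat_lit 390) (nat_lit 988) (nat_lit 0) (XT.nd (nat_lit 156) (nat_lit 684) (nat_lit 0) (XT.nd (nat_lit 78) (nat_lit 0) (nat_lit 0) (XT.lf (nat_lit 0) (nat_lit 516846190) (nat_lit 608) (nat_lit 5057514938) (nat_lit 76) (nat_lit 3508314090) (nat_lit 78) (nat_lit 5) (nat_lit 86) (nat_lit 5) (nat_lit 79) (nat_lit 5) (nat_lit 282) (nat_lit 266) (nat_lit 232))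 (XT.lf (nat_lit 0) (nat_lit 2359382313) (nat_lit 608) (nat_lit 140623241) (nat_lit 76) (nat_lit 6800756459) (nat_lit 78) (nat_lit 5) (nat_lit 86) (nat_lit 5) (nat_lit 79) (nat_lit 5) (nat_lit 283) (nat_lit 266) (nat_lit 231))) (XT.nd (nat_lit 78) (nat_lit 304) (nat_lit 0) (XT.lf (nat_lit 0) (nat_lit 4324299484) (nat_lit 456) (nat_lit 4418369267) (nat_lit 76) (nat_lit 785692336) (nat_lit 73) (nat_lit 5) (nat_lit 79) (nat_lit 5) (nat_lit 74) (nat_lit 5) (nat_lit 284) (nat_lit 266) (nat_lit 230)) (XT.nd (nat_lit 78) (nat_lit 0) (nat_lit 0) (XT.lf (nat_lit 0) (nat_lit 779842566) (nat_lit 304) (nat_lit 5602778156) (nat_lit 380) (nat_lit 3385076386) (nat_lit 69) (nat_lit 5) (nat_lit 73) (nat_lit 5) (nat_lit 74) (nat_lit 5) (nat_lit 285) (nat_lit 266) (nat_lit 229)) (XT.lf (nat_lit 0) (nat_lit 6327514214) (nat_lit 304) (nat_lit 2232629842) (nat_lit 380) (nat_lit 1458151006) (nat_lit 69) (nat_lit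 5) (nat_lit 73) (nat_lit 5) (nat_lit 74) (nat_lit 5) (nat_lit 286) (nat_lit 266) (nat_lit 228))))) (XT.nd (nat_lit 156) (nat_lit 608) (nat_lit 0) (XT.nd (nat_lit 78) (nat_lit 0) (nat_lit 0) (XT.lf (nat_lit 0) (nat_lit 540207001) (nat_lit 380) (nat_lit 8444343666) (nat_lit 76) (nat_lit 1296871663) (nat_lit 64) (nat_lit 5) (nat_lit 69) (nat_lit 5) (nat_lit 65) (nat_lit 5) (nat_lit 287) (nat_lit 266) (nat_lit 227)) (XT.lf (nat_lit 0) (nat_lit 2634475026) (nat_lit 380) (nat_lit 2911153948) (nat_lit 76) (nat_lit 5008726536) (nat_lit 64) (nat_lit 5) (nat_lit 69) (nat_lit 5) (nat_lit 65) (nat_lit 5) (nat_lit 288) (nat_lit 266) (nat_lit 226))) (XT.nd (nat_lit 78) (nat_lit 304) (nat_lit 0) (XT.lf (nat_lit 0) (nat_lit 2931069008) (nat_lit 304) (nat_lit 1895640340) (nat_lit 380) (nat_lit 6014653389) (nat_lit 60) (nat_lit 5) (nat_lit 64) (nat_lit 5) (nat_lit 65) (nat_lit 5) (nat_lit 289) (nat_lit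 266) (nat_lit 225)) (XT.nd (nat_lit 78) (nat_lit 304) (nat_lit 0) (XT.lf (nat_lit 0) (nat_lit 7157804166) (nat_lit 380) (nat_lit 2067764218) (nat_lit 76) (nat_lit 1915775245) (nat_lit 60) (nat_lit 5) (nat_lit 65) (nat_lit 5) (nat_lit 61) (nat_lit 5) (nat_lit 290) (nat_lit 266) (nat_lit 224)) (XT.lf (nat_lit 0) (nat_lit 4107340097) (nat_lit 304) (nat_lit 5544649294) (nat_lit 380) (nat_lit 1802089052) (nat_lit 56) (nat_lit 5) (nat_lit 60) (nat_lit 5) (nat_lit 61) (nat_lit 5) (nat_lit 291) (nat_lit 266) (nat_lit 223))))))) (XT.nd (nat_lit 780) (nat_lit 988) (nat_lit 0) (XT.nd (nat_lit 390) (nat_lit 456) (nat_lit 0) (XT.nd (nat_lit 156) (nat_lit 456) (nat_lit 0) (XT.nd (nat_lit 78) (nat_lit 228) (nat_lit 0) (XT.lf (nat_lit 0) (nat_lit 460272722) (nat_lit 380) (nat_lit 1186545817) (nat_lit 76) (nat_lit 10135950648) (nat_lit 55) (nat_lit 5) (nat_lit 60) (nat_lit 5) (nat_lit 56) (nat_lit 5)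 (nat_lit 292) (nat_lit 266) (nat_lit 222)) (XT.lf (nat_lit 0) (nat_lit 2853000359) (nat_lit 304) (nat_lit 6798333551) (nat_lit 76) (nat_lit 2471263489) (nat_lit 52) (nat_lit 5) (nat_lit 56) (nat_lit 5) (nat_lit 53) (nat_lit 5) (nat_lit 293) (nat_lit 266) (nat_lit 221))) (XT.nd (nat_lit 78) (nat_lit 456) (nat_lit 0) (XT.lf (nat_lit 0) (nat_lit 5368059686) (nat_lit 304) (nat_lit 362848495) (nat_lit 76) (nat_lit 6748441257) (nat_lit 52) (nat_lit 5) (nat_lit 56) (nat_lit 5) (nat_lit 53) (nat_lit 5) (nat_lit 294) (nat_lit 266) (nat_lit 220)) (XT.nd (nat_lit 78) (nat_lit 228) (nat_lit 0) (XT.lf (nat_lit 0) (nat_lit 6547871249) (nat_lit 228) (nat_lit 1520635288) (nat_lit 304) (nat_lit 4782514798) (nat_lit 49) (nat_lit 5) (nat_lit 52) (nat_lit 5) (nat_lit 53) (nat_lit 5) (nat_lit 295) (nat_lit 266) (nat_lit 219)) (XT.lf (nat_lit 0) (nat_lit 488897627) (nat_lit 228) (nat_lit 10432591678) (nat_lit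 304) (nat_lit 2318972779) (nat_lit 46) (nat_lit 5) (nat_lit 49) (nat_lit 5) (nat_lit 50) (nat_lit 5) (nat_lit 296) (nat_lit 266) (nat_lit 218))))) (XT.nd (nat_lit 156) (nat_lit 152) (nat_lit 0) (XT.nd (nat_lit 78) (nat_lit 228) (nat_lit 0) (XT.lf (nat_lit 0) (nat_lit 351342188) (nat_lit 304) (nat_lit 5893140083) (nat_lit 76) (nat_lit 7400130588) (nat_lit 45) (nat_lit 5) (nat_lit 49) (nat_lit 5) (nat_lit 46) (nat_lit 5) (nat_lit 297) (nat_lit 266) (nat_lit 217)) (XT.lf (nat_lit 0) (nat_lit 1255494413) (nat_lit 228) (nat_lit 1802052453) (nat_lit 304) (nat_lit 11010560815) (nat_lit 42) (nat_lit 5) (nat_lit 45) (nat_lit 5) (nat_lit 46) (nat_lit 5) (nat_lit 298) (nat_lit 266) (nat_lit 216))) (XT.nd (nat_lit 78) (nat_lit 152) (nat_lit 0) (XT.lf (nat_lit 0) (nat_lit 6006680238) (nat_lit 304) (nat_lit 5643669293) (nat_lit 76) (nat_lit 2857096924) (nat_lit 42) (nat_lit 5) (nat_lit 46) (nat_lit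 5) (nat_lit 43) (nat_lit 5) (nat_lit 299) (nat_lit 266) (nat_lit 215)) (XT.nd (nat_lit 78) (nat_lit 0) (nat_lit 0) (XT.lf (nat_lit 0) (nat_lit 1860674567) (nat_lit 152) (nat_lit 7264509358) (nat_lit 228) (nat_lit 5842520305) (nat_lit 40) (nat_lit 5) (nat_lit 42) (nat_lit 5) (nat_lit 43) (nat_lit 5) (nat_lit 300) (nat_lit 266) (nat_lit 214)) (XT.lf (nat_lit 0) (nat_lit 9883968183) (nat_lit 152) (nat_lit 2575475908) (nat_lit 228) (nat_lit 2988584711) (nat_lit 40) (nat_lit 5) (nat_lit 42) (nat_lit 5) (nat_lit 43) (nat_lit 5) (nat_lit 301) (nat_lit 266) (nat_lit 213)))))) (XT.nd (nat_lit 390) (nat_lit 380) (nat_lit 0) (XT.nd (nat_lit 156) (nat_lit 304) (nat_lit 0) (XT.nd (nat_lit 78) (nat_lit 0) (nat_lit 0) (XT.lf (nat_lit 0) (nat_lit 47339867) (nat_lit 304) (nat_lit 13608052547) (nat_lit 76) (nat_lit 2295034660) (nat_lit 36) (nat_lit 5) (nat_lit 40) (nat_lit 5) (nat_lit 37) (nat_lit 5)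 (nat_lit 302) (nat_lit 266) (nat_lit 212)) (XT.lf (nat_lit 0) (nat_lit 3238588831) (nat_lit 304) (nat_lit 5780245883) (nat_lit 76) (nat_lit 7451501957) (nat_lit 36) (nat_lit 5) (nat_lit 40) (nat_lit 5) (nat_lit 37) (nat_lit 5) (nat_lit 303) (nat_lit 266) (nat_lit 211))) (XT.nd (nat_lit 78) (nat_lit 152) (nat_lit 0) (XT.lf (nat_lit 0) (nat_lit 2468869088) (nat_lit 152) (nat_lit 4126666137) (nat_lit 228) (nat_lit 10420437183) (nat_lit 34) (nat_lit 5) (nat_lit 36) (nat_lit 5) (nat_lit 37) (nat_lit 5) (nat_lit 304) (nat_lit 266) (nat_lit 210)) (XT.nd (nat_lit 78) (nat_lit 152) (nat_lit 0) (XT.lf (nat_lit 0) (nat_lit 10203713254) (nat_lit 228) (nat_lit 6319919393) (nat_lit 76) (nat_lit 1061123698) (nat_lit 34) (nat_lit 5) (nat_lit 37) (nat_lit 5) (nat_lit 35) (nat_lit 5) (nat_lit 305) (nat_lit 266) (nat_lit 209)) (XT.lf (nat_lit 0) (nat_lit 2276536390) (nat_lit 152) (nat_lit 11788592997)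 (nat_lit 228) (nat_lit 4113242565) (nat_lit 32) (nat_lit 5) (nat_lit 34) (nat_lit 5) (nat_lit 35) (nat_lit 5) (nat_lit 306) (nat_lit 266) (nat_lit 208))))) (XT.nd (nat_lit 156) (nat_lit 152) (nat_lit 0) (XT.nd (nat_lit 78) (nat_lit 228) (nat_lit 0) (XT.lf (nat_lit 0) (nat_lit 11475690746) (nat_lit 152) (nat_lit 6721311629) (nat_lit 228) (nat_lit 600828975) (nat_lit 32) (nat_lit 5) (nat_lit 34) (nat_lit 5) (nat_lit 35) (nat_lit 5) (nat_lit 307) (nat_lit 266) (nat_lit 207)) (XT.lf (nat_lit 0) (nat_lit 1645711634) (nat_lit 152) (nat_lit 1339652166) (nat_lit 228) (nat_lit 16460670817) (nat_lit 29) (nat_lit 5) (nat_lit 31) (nat_lit 5) (nat_lit 32) (nat_lit 5) (nat_lit 308) (nat_lit 266) (nat_lit 206))) (XT.nd (nat_lit 78) (nat_lit 152) (nat_lit 0) (XT.lf (nat_lit 0) (nat_lit 6895707825) (nat_lit 228) (nat_lit 8929216561) (nat_lit 76) (nat_lit 4293007424) (nat_lit 29) (nat_lit 5) (nat_lit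 32) (nat_lit 5) (nat_lit 30) (nat_lit 5) (nat_lit 309) (nat_lit 266) (nat_lit 205)) (XT.nd (nat_lit 78) (nat_lit 0) (nat_lit 0) (XT.lf (nat_lit 0) (nat_lit 330497192) (nat_lit 152) (nat_lit 10671229885) (nat_lit 228) (nat_lit 9821715470) (nat_lit 27) (nat_lit 5) (nat_lit 29) (nat_lit 5) (nat_lit 30) (nat_lit 5) (nat_lit 310) (nat_lit 266) (nat_lit 204)) (XT.lf (nat_lit 0) (nat_lit 10320337068) (nat_lit 152) (nat_lit 5117582140) (nat_lit 228) (nat_lit 6120091338) (nat_lit 27) (nat_lit 5) (nat_lit 29) (nat_lit 5) (nat_lit 30) (nat_lit 5) (nat_lit 311) (nat_lit 266) (nat_lit 203))))))))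
noncomputable def xc125 : XT := (XT.nd (nat_lit 1560) (nat_lit 532) (nat_lit 0) (XT.nd (nat_lit 780) (nat_lit 456) (nat_lit 0) (XT.nd (nat_lit 390) (nat_lit 304) (nat_lit 0) (XT.nd (nat_lit 156) (nat_lit 152) (nat_lit 0) (XT.nd (nat_lit 78) (nat_lit 152) (nat_lit 0) (XT.lf (nat_lit 0) (nat_lit 20081725023) (nat_lit 228) (nat_lit 1572635653) (nat_lit 76) (nat_lit 675680180) (nat_lit 27) (nat_lit 5) (nat_lit 30) (nat_lit 5) (nat_lit 28) (nat_lit 4) (nat_lit 312) (nat_lit 266) (nat_lit 202)) (XT.lf (nat_lit 0) (nat_lit 1958166635) (nat_lit 152) (nat_lit 14431118626) (nat_lit 76) (nat_lit 6740027077) (nat_lit 25) (nat_lit 5) (nat_lit 27) (nat_lit 5) (nat_lit 26) (nat_lit 5) (nat_lit 313) (nat_lit 266) (nat_lit 201))) (XT.nd (nat_lit 78) (nat_lit 152) (nat_lit 0) (XT.lf (nat_lit 0) (nat_lit 6302481035) (nat_lit 152) (nat_lit 4507379652) (nat_lit 76) (nat_lit 13156711359) (nat_lit 25) (nat_lit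 5) (nat_lit 27) (nat_lit 5) (nat_lit 26) (nat_lit 5) (nat_lit 314) (nat_lit 266) (nat_lit 200)) (XT.nd (nat_lit 78) (nat_lit 0) (nat_lit 0) (XT.lf (nat_lit 0) (nat_lit 6068654856) (nat_lit 152) (nat_lit 4867244061) (nat_lit 228) (nat_lit 13906221274) (nat_lit 23) (nat_lit 5) (nat_lit 25) (nat_lit 5) (nat_lit 26) (nat_lit 5) (nat_lit 315) (nat_lit 266) (nat_lit 199)) (XT.lf (nat_lit 0) (nat_lit 15877407786) (nat_lit 228) (nat_lit 8488743425) (nat_lit 76) (nat_lit 1391492422) (nat_lit 23) (nat_lit 5) (nat_lit 26) (nat_lit 5) (nat_lit 24) (nat_lit 4) (nat_lit 316) (nat_lit 266) (nat_lit 198))))) (XT.nd (nat_lit 156) (nat_lit 228) (nat_lit 0) (XT.nd (nat_lit 78) (nat_lit 0) (nat_lit 0) (XT.lf (nat_lit 0) (nat_lit 2266379580) (nat_lit 76) (nat_lit 18893269300) (nat_lit 152) (nat_lit 5554629523) (nat_lit 22) (nat_lit 5) (nat_lit 23) (nat_lit 5) (nat_lit 24) (nat_lit 4) (nat_lit 317) (nat_lit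 266) (nat_lit 197)) (XT.lf (nat_lit 0) (nat_lit 13817976362) (nat_lit 76) (nat_lit 13010730755) (nat_lit 152) (nat_lit 883919676) (nat_lit 22) (nat_lit 5) (nat_lit 23) (nat_lit 5) (nat_lit 24) (nat_lit 4) (nat_lit 318) (nat_lit 266) (nat_lit 196))) (XT.nd (nat_lit 78) (nat_lit 152) (nat_lit 0) (XT.lf (nat_lit 0) (nat_lit 3871252367) (nat_lit 152) (nat_lit 2911476612) (nat_lit 76) (nat_lit 21976060632) (nat_lit 21) (nat_lit 5) (nat_lit 23) (nat_lit 5) (nat_lit 22) (nat_lit 5) (nat_lit 319) (nat_lit 266) (nat_lit 195)) (XT.nd (nat_lit 78) (nat_lit 0) (nat_lit 0) (XT.lf (nat_lit 0) (nat_lit 8856526287) (nat_lit 152) (nat_lit 96799980) (nat_lit 228) (nat_lit 20897282143) (nat_lit 19) (nat_lit 5) (nat_lit 21) (nat_lit 5) (nat_lit 22) (nat_lit 5) (nat_lit 320) (nat_lit 266) (nat_lit 194)) (XT.lf (nat_lit 0) (nat_lit 14428485846) (nat_lit 228) (nat_lit 9822962100) (nat_lit 76) (nat_lit 6738635204)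 (nat_lit 19) (nat_lit 5) (nat_lit 22) (nat_lit 5) (nat_lit 20) (nat_lit 4) (nat_lit 321) (nat_lit 266) (nat_lit 193)))))) (XT.nd (nat_lit 390) (nat_lit 152) (nat_lit 0) (XT.nd (nat_lit 156) (nat_lit 228) (nat_lit 0) (XT.nd (nat_lit 78) (nat_lit 0) (nat_lit 0) (XT.lf (nat_lit 0) (nat_lit 1935143578) (nat_lit 76) (nat_lit 18255747656) (nat_lit 152) (nat_lit 11994979429) (nat_lit 18) (nat_lit 5) (nat_lit 19) (nat_lit 5) (nat_lit 20) (nat_lit 4) (nat_lit 322) (nat_lit 266) (nat_lit 192)) (XT.lf (nat_lit 0) (nat_lit 14590780303) (nat_lit 76) (nat_lit 11799062813) (nat_lit 152) (nat_lit 7044195911) (nat_lit 18) (nat_lit 5) (nat_lit 19) (nat_lit 5) (nat_lit 20) (nat_lit 4) (nat_lit 323) (nat_lit 266) (nat_lit 191))) (XT.nd (nat_lit 78) (nat_lit 228) (nat_lit 0) (XT.lf (nat_lit 0) (nat_lit 27849289056) (nat_lit 76) (nat_lit 5032376976) (nat_lit 152) (nat_lit 1863815787) (nat_lit 18) (nat_lit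 5) (nat_lit 19) (nat_lit 5) (nat_lit 20) (nat_lit 4) (nat_lit 324) (nat_lit 266) (nat_lit 190)) (XT.nd (nat_lit 78) (nat_lit 0) (nat_lit 0) (XT.lf (nat_lit 0) (nat_lit 3568883437) (nat_lit 228) (nat_lit 30403299929) (nat_lit 76) (nat_lit 2142146134) (nat_lit 15) (nat_lit 5) (nat_lit 18) (nat_lit 5) (nat_lit 16) (nat_lit 4) (nat_lit 325) (nat_lit 266) (nat_lit 189)) (XT.lf (nat_lit 0) (nat_lit 9395391225) (nat_lit 228) (nat_lit 18501916073) (nat_lit 76) (nat_lit 9643554567) (nat_lit 15) (nat_lit 5) (nat_lit 18) (nat_lit 5) (nat_lit 16) (nat_lit 4) (nat_lit 326) (nat_lit 266) (nat_lit 188))))) (XT.nd (nat_lit 156) (nat_lit 76) (nat_lit 0) (XT.nd (nat_lit 78) (nat_lit 76) (nat_lit 0) (XT.lf (nat_lit 0) (nat_lit 15497612110) (nat_lit 228) (nat_lit 6033274792) (nat_lit 76) (nat_lit 17508624582) (nat_lit 15) (nat_lit 5) (nat_lit 18) (nat_lit 5) (nat_lit 16) (nat_lit 4) (nat_lit 327) (nat_lit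 266) (nat_lit 187)) (XT.lf (nat_lit 0) (nat_lit 7264831120) (nat_lit 76) (nat_lit 14738668442) (nat_lit 152) (nat_lit 18604675789) (nat_lit 14) (nat_lit 5) (nat_lit 15) (nat_lit 5) (nat_lit 16) (nat_lit 4) (nat_lit 328) (nat_lit 266) (nat_lit 186))) (XT.nd (nat_lit 78) (nat_lit 76) (nat_lit 0) (XT.lf (nat_lit 0) (nat_lit 21411243825) (nat_lit 76) (nat_lit 7511046309) (nat_lit 152) (nat_lit 13328610929) (nat_lit 14) (nat_lit 5) (nat_lit 15) (nat_lit 5) (nat_lit 16) (nat_lit 4) (nat_lit 329) (nat_lit 266) (nat_lit 185)) (XT.nd (nat_lit 78) (nat_lit 76) (nat_lit 0) (XT.lf (nat_lit 0) (nat_lit 36174192492) (nat_lit 152) (nat_lit 7737353711) (nat_lit 0) (nat_lit 64866899) (nat_lit 14) (nat_lit 5) (nat_lit 16) (nat_lit 4) (nat_lit 14) (nat_lit 4) (nat_lit 330) (nat_lit 266) (nat_lit 184)) (XT.lf (nat_lit 0) (nat_lit 6066970516) (nat_lit 76) (nat_lit 37926197704) (nat_lit 76) (nat_lit 1784816855)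 (nat_lit 13) (nat_lit 4) (nat_lit 14) (nat_lit 5) (nat_lit 14) (nat_lit 4) (nat_lit 331) (nat_lit 266) (nat_lit 183))))))) (XT.nd (nat_lit 780) (nat_lit 228) (nat_lit 0) (XT.nd (nat_lit 390) (nat_lit 152) (nat_lit 0) (XT.nd (nat_lit 156) (nat_lit 76) (nat_lit 0) (XT.nd (nat_lit 78) (nat_lit 0) (nat_lit 0) (XT.lf (nat_lit 0) (nat_lit 4508209611) (nat_lit 152) (nat_lit 26930079960) (nat_lit 76) (nat_lit 16221821980) (nat_lit 12) (nat_lit 5) (nat_lit 14) (nat_lit 5) (nat_lit 13) (nat_lit 4) (nat_lit 332) (nat_lit 266) (nat_lit 182)) (XT.lf (nat_lit 0) (nat_lit 11043208237) (nat_lit 152) (nat_lit 13562407840) (nat_lit 76) (nat_lit 25029907312) (nat_lit 12) (nat_lit 5) (nat_lit 14) (nat_lit 5) (nat_lit 13) (nat_lit 4) (nat_lit 333) (nat_lit 266) (nat_lit 181))) (XT.nd (nat_lit 78) (nat_lit 0) (nat_lit 0) (XT.lf (nat_lit 0) (nat_lit 466630679) (nat_lit 76) (nat_lit 17433518561) (nat_lit 152)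 (nat_lit 33809803740) (nat_lit 11) (nat_lit 5) (nat_lit 12) (nat_lit 5) (nat_lit 13) (nat_lit 4) (nat_lit 334) (nat_lit 266) (nat_lit 180)) (XT.nd (nat_lit 78) (nat_lit 0) (nat_lit 0) (XT.lf (nat_lit 0) (nat_lit 15646379069) (nat_lit 76) (nat_lit 9671389843) (nat_lit 152) (nat_lit 28559450014) (nat_lit 11) (nat_lit 5) (nat_lit 12) (nat_lit 5) (nat_lit 13) (nat_lit 4) (nat_lit 335) (nat_lit 266) (nat_lit 179)) (XT.lf (nat_lit 0) (nat_lit 31564545134) (nat_lit 76) (nat_lit 1530434606) (nat_lit 152) (nat_lit 23058439073) (nat_lit 11) (nat_lit 5) (nat_lit 12) (nat_lit 5) (nat_lit 13) (nat_lit 4) (nat_lit 336) (nat_lit 266) (nat_lit 178))))) (XT.nd (nat_lit 156) (nat_lit 76) (nat_lit 0) (XT.nd (nat_lit 78) (nat_lit 76) (nat_lit 0) (XT.lf (nat_lit 0) (nat_lit 41359724816) (nat_lit 152) (nat_lit 10394368819) (nat_lit 0) (nat_lit 6784407234) (nat_lit 11) (nat_lit 5) (nat_lit 13) (nat_lit 4)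 (nat_lit 11) (nat_lit 4) (nat_lit 337) (nat_lit 266) (nat_lit 177)) (XT.lf (nat_lit 0) (nat_lit 4613385810) (nat_lit 76) (nat_lit 45511066685) (nat_lit 76) (nat_lit 10914052843) (nat_lit 10) (nat_lit 4) (nat_lit 11) (nat_lit 5) (nat_lit 11) (nat_lit 4) (nat_lit 338) (nat_lit 266) (nat_lit 176))) (XT.nd (nat_lit 78) (nat_lit 76) (nat_lit 0) (XT.lf (nat_lit 0) (nat_lit 20713660801) (nat_lit 76) (nat_lit 38779619161) (nat_lit 76) (nat_lit 4161942215) (nat_lit 10) (nat_lit 4) (nat_lit 11) (nat_lit 5) (nat_lit 11) (nat_lit 4) (nat_lit 339) (nat_lit 266) (nat_lit 175)) (XT.nd (nat_lit 78) (nat_lit 0) (nat_lit 0) (XT.lf (nat_lit 0) (nat_lit 2824217244) (nat_lit 152) (nat_lit 28847710742) (nat_lit 76) (nat_lit 34729058634) (nat_lit 9) (nat_lit 5) (nat_lit 11) (nat_lit 5) (nat_lit 10) (nat_lit 4) (nat_lit 340) (nat_lit 266) (nat_lit 174)) (XT.lf (nat_lit 0) (nat_lit 10010435507) (nat_lit 152)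 (nat_lit 14134705347) (nat_lit 76) (nat_lit 45135960625) (nat_lit 9) (nat_lit 5) (nat_lit 11) (nat_lit 5) (nat_lit 10) (nat_lit 4) (nat_lit 341) (nat_lit 266) (nat_lit 173)))))) (XT.nd (nat_lit 390) (nat_lit 152) (nat_lit 0) (XT.nd (nat_lit 156) (nat_lit 0) (nat_lit 0) (XT.nd (nat_lit 78) (nat_lit 0) (nat_lit 0) (XT.lf (nat_lit 0) (nat_lit 1340365420) (nat_lit 76) (nat_lit 16227592201) (nat_lit 152) (nat_lit 54736669185) (nat_lit 8) (nat_lit 5) (nat_lit 9) (nat_lit 5) (nat_lit 10) (nat_lit 4) (nat_lit 342) (nat_lit 266) (nat_lit 172)) (XT.lf (nat_lit 0) (nat_lit 18063695703) (nat_lit 76) (nat_lit 7670276489) (nat_lit 152) (nat_lit 49733829553) (nat_lit 8) (nat_lit 5) (nat_lit 9) (nat_lit 5) (nat_lit 10) (nat_lit 4) (nat_lit 343) (nat_lit 266) (nat_lit 171))) (XT.nd (nat_lit 78) (nat_lit 0) (nat_lit 0) (XT.lf (nat_lit 0) (nat_lit 34320361459) (nat_lit 152) (nat_lit 43202229326) (nat_lit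 0) (nat_lit 1265944912) (nat_lit 8) (nat_lit 5) (nat_lit 10) (nat_lit 4) (nat_lit 8) (nat_lit 4) (nat_lit 344) (nat_lit 266) (nat_lit 170)) (XT.nd (nat_lit 78) (nat_lit 0) (nat_lit 0) (XT.lf (nat_lit 0) (nat_lit 43453759680) (nat_lit 152) (nat_lit 28431007720) (nat_lit 0) (nat_lit 10384658251) (nat_lit 8) (nat_lit 5) (nat_lit 10) (nat_lit 4) (nat_lit 8) (nat_lit 4) (nat_lit 345) (nat_lit 266) (nat_lit 169)) (XT.lf (nat_lit 0) (nat_lit 53036158529) (nat_lit 152) (nat_lit 12935517135) (nat_lit 0) (nat_lit 19953071498) (nat_lit 8) (nat_lit 5) (nat_lit 10) (nat_lit 4) (nat_lit 8) (nat_lit 4) (nat_lit 346) (nat_lit 266) (nat_lit 168))))) (XT.nd (nat_lit 234) (nat_lit 76) (nat_lit 0) (XT.nd (nat_lit 78) (nat_lit 0) (nat_lit 0) (XT.lf (nat_lit 0) (nat_lit 3430948223) (nat_lit 76) (nat_lit 59712991736) (nat_lit 76) (nat_lit 26616585083) (nat_lit 7) (nat_lit 4) (nat_lit 8) (nat_lit 5) (nat_lit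 8) (nat_lit 4) (nat_lit 347) (nat_lit 266) (nat_lit 167)) (XT.nd (nat_lit 78) (nat_lit 0) (nat_lit 0) (XT.lf (nat_lit 0) (nat_lit 21051436809) (nat_lit 76) (nat_lit 52917577541) (nat_lit 76) (nat_lit 19808485534) (nat_lit 7) (nat_lit 4) (nat_lit 8) (nat_lit 5) (nat_lit 8) (nat_lit 4) (nat_lit 348) (nat_lit 266) (nat_lit 166)) (XT.lf (nat_lit 0) (nat_lit 39540195553) (nat_lit 76) (nat_lit 45788322762) (nat_lit 76) (nat_lit 12667149467) (nat_lit 7) (nat_lit 4) (nat_lit 8) (nat_lit 5) (nat_lit 8) (nat_lit 4) (nat_lit 349) (nat_lit 266) (nat_lit 165)))) (XT.nd (nat_lit 78) (nat_lit 76) (nat_lit 0) (XT.lf (nat_lit 0) (nat_lit 58941245309) (nat_lit 76) (nat_lit 38308252985) (nat_lit 76) (nat_lit 5175573699) (nat_lit 7) (nat_lit 4) (nat_lit 8) (nat_lit 5) (nat_lit 8) (nat_lit 4) (nat_lit 350) (nat_lit 266) (nat_lit 164)) (XT.nd (nat_lit 78) (nat_lit 0) (nat_lit 0) (XT.lf (nat_lit 0) (nat_lit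 2598171566) (nat_lit 152) (nat_lit 27817385659) (nat_lit 76) (nat_lit 76658606194) (nat_lit 6) (nat_lit 5) (nat_lit 8) (nat_lit 5) (nat_lit 7) (nat_lit 4) (nat_lit 351) (nat_lit 266) (nat_lit 163)) (XT.lf (nat_lit 0) (nat_lit 10580676691) (nat_lit 152) (nat_lit 11463686423) (nat_lit 76) (nat_lit 89907406293) (nat_lit 6) (nat_lit 5) (nat_lit 8) (nat_lit 5) (nat_lit 7) (nat_lit 4) (nat_lit 352) (nat_lit 266) (nat_lit 162))))))))
noncomputable def xc126 : XT := (XT.nd (nat_lit 1560) (nat_lit 0) (nat_lit 0) (XT.nd (nat_lit 780) (nat_lit 152) (nat_lit 0) (XT.nd (nat_lit 390) (nat_lit 76) (nat_lit 0) (XT.nd (nat_lit 156) (nat_lit 0) (nat_lit 0) (XT.nd (nat_lit 78) (nat_lit 0) (nat_lit 0) (XT.lf (nat_lit 0) (nat_lit 5885382609) (nat_lit 76) (nat_lit 13163103028) (nat_lit 152) (nat_lit 98020463564) (nat_lit 5) (nat_lit 5) (nat_lit 6) (nat_lit 5) (nat_lit 7) (nat_lit 4) (nat_lit 353) (nat_lit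 266) (nat_lit 161)) (XT.lf (nat_lit 0) (nat_lit 24489386564) (nat_lit 76) (nat_lit 3638840517) (nat_lit 152) (nat_lit 94304336120) (nat_lit 5) (nat_lit 5) (nat_lit 6) (nat_lit 5) (nat_lit 7) (nat_lit 4) (nat_lit 354) (nat_lit 266) (nat_lit 160))) (XT.nd (nat_lit 78) (nat_lit 0) (nat_lit 0) (XT.lf (nat_lit 0) (nat_lit 37755871221) (nat_lit 152) (nat_lit 84150297314) (nat_lit 0) (nat_lit 6153495793) (nat_lit 5) (nat_lit 5) (nat_lit 7) (nat_lit 4) (nat_lit 5) (nat_lit 4) (nat_lit 355) (nat_lit 266) (nat_lit 159)) (XT.nd (nat_lit 78) (nat_lit 0) (nat_lit 0) (XT.lf (nat_lit 0) (nat_lit 47919400851) (nat_lit 152) (nat_lit 69737148268) (nat_lit 0) (nat_lit 16308848332) (nat_lit 5) (nat_lit 5) (nat_lit 7) (nat_lit 4) (nat_lit 5) (nat_lit 4) (nat_lit 356) (nat_lit 266) (nat_lit 158)) (XT.lf (nat_lit 0) (nat_lit 58586202354) (nat_lit 152) (nat_lit 54612599979) (nat_lit 0) (nat_lit 26967862128)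 (nat_lit 5) (nat_lit 5) (nat_lit 7) (nat_lit 4) (nat_lit 5) (nat_lit 4) (nat_lit 357) (nat_lit 266) (nat_lit 157))))) (XT.nd (nat_lit 156) (nat_lit 76) (nat_lit 0) (XT.nd (nat_lit 78) (nat_lit 0) (nat_lit 0) (XT.lf (nat_lit 0) (nat_lit 69781672877) (nat_lit 152) (nat_lit 38740641619) (nat_lit 0) (nat_lit 38155915787) (nat_lit 5) (nat_lit 5) (nat_lit 7) (nat_lit 4) (nat_lit 5) (nat_lit 4) (nat_lit 358) (nat_lit 266) (nat_lit 156)) (XT.lf (nat_lit 0) (nat_lit 81532468302) (nat_lit 152) (nat_lit 22083482810) (nat_lit 0) (nat_lit 49899647532) (nat_lit 5) (nat_lit 5) (nat_lit 7) (nat_lit 4) (nat_lit 5) (nat_lit 4) (nat_lit 359) (nat_lit 266) (nat_lit 155))) (XT.nd (nat_lit 78) (nat_lit 76) (nat_lit 0) (XT.lf (nat_lit 0) (nat_lit 93866566713) (nat_lit 152) (nat_lit 4601463650) (nat_lit 0) (nat_lit 62227018629) (nat_lit 5) (nat_lit 5) (nat_lit 7) (nat_lit 4) (nat_lit 5) (nat_lit 4) (nat_lit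 360) (nat_lit 266) (nat_lit 154)) (XT.nd (nat_lit 78) (nat_lit 0) (nat_lit 0) (XT.lf (nat_lit 0) (nat_lit 14201578931) (nat_lit 76) (nat_lit 92833482526) (nat_lit 76) (nat_lit 61187527478) (nat_lit 4) (nat_lit 4) (nat_lit 5) (nat_lit 5) (nat_lit 5) (nat_lit 4) (nat_lit 361) (nat_lit 266) (nat_lit 153)) (XT.lf (nat_lit 0) (nat_lit 34097032167) (nat_lit 76) (nat_lit 86838916895) (nat_lit 76) (nat_lit 55186859974) (nat_lit 4) (nat_lit 4) (nat_lit 5) (nat_lit 5) (nat_lit 5) (nat_lit 4) (nat_lit 362) (nat_lit 266) (nat_lit 152)))))) (XT.nd (nat_lit 390) (nat_lit 152) (nat_lit 0) (XT.nd (nat_lit 156) (nat_lit 0) (nat_lit 0) (XT.nd (nat_lit 78) (nat_lit 0) (nat_lit 0) (XT.lf (nat_lit 0) (nat_lit 54980121017) (nat_lit 76) (nat_lit 80547988708) (nat_lit 76) (nat_lit 48890120480) (nat_lit 4) (nat_lit 4) (nat_lit 5) (nat_lit 5) (nat_lit 5) (nat_lit 4) (nat_lit 363) (nat_lit 266) (nat_lit 151))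 (XT.lf (nat_lit 0) (nat_lit 76900567120) (nat_lit 76) (nat_lit 73945719564) (nat_lit 76) (nat_lit 42282316759) (nat_lit 4) (nat_lit 4) (nat_lit 5) (nat_lit 5) (nat_lit 5) (nat_lit 4) (nat_lit 364) (nat_lit 266) (nat_lit 150))) (XT.nd (nat_lit 78) (nat_lit 0) (nat_lit 0) (XT.lf (nat_lit 0) (nat_lit 99910562014) (nat_lit 76) (nat_lit 67016389775) (nat_lit 76) (nat_lit 35347715943) (nat_lit 4) (nat_lit 4) (nat_lit 5) (nat_lit 5) (nat_lit 5) (nat_lit 4) (nat_lit 365) (nat_lit 266) (nat_lit 149)) (XT.nd (nat_lit 78) (nat_lit 0) (nat_lit 0) (XT.lf (nat_lit 0) (nat_lit 124064891402) (nat_lit 76) (nat_lit 59743500936) (nat_lit 76) (nat_lit 28069807079) (nat_lit 4) (nat_lit 4) (nat_lit 5) (nat_lit 5) (nat_lit 5) (nat_lit 4) (nat_lit 366) (nat_lit 266) (nat_lit 148)) (XT.lf (nat_lit 0) (nat_lit 149421065591) (nat_lit 76) (nat_lit 52109736646) (nat_lit 76) (nat_lit 20431261813) (nat_lit 4) (nat_lit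 4) (nat_lit 5) (nat_lit 5) (nat_lit 5) (nat_lit 4) (nat_lit 367) (nat_lit 266) (nat_lit 147))))) (XT.nd (nat_lit 156) (nat_lit 152) (nat_lit 0) (XT.nd (nat_lit 78) (nat_lit 0) (nat_lit 0) (XT.lf (nat_lit 0) (nat_lit 176039456425) (nat_lit 76) (nat_lit 44096921276) (nat_lit 76) (nat_lit 12413893132) (nat_lit 4) (nat_lit 4) (nat_lit 5) (nat_lit 5) (nat_lit 5) (nat_lit 4) (nat_lit 368) (nat_lit 266) (nat_lit 146)) (XT.lf (nat_lit 0) (nat_lit 203983441025) (nat_lit 76) (nat_lit 35685976693) (nat_lit 76) (nat_lit 3998612063) (nat_lit 4) (nat_lit 4) (nat_lit 5) (nat_lit 5) (nat_lit 5) (nat_lit 4) (nat_lit 369) (nat_lit 266) (nat_lit 145))) (XT.nd (nat_lit 78) (nat_lit 76) (nat_lit 0) (XT.lf (nat_lit 0) (nat_lit 4679879816) (nat_lit 152) (nat_lit 22097740994) (nat_lit 76) (nat_lit 228560416842) (nat_lit 3) (nat_lit 5) (nat_lit 5) (nat_lit 5) (nat_lit 4) (nat_lit 4) (nat_lit 370) (nat_lit 266)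 (nat_lit 144)) (XT.nd (nat_lit 78) (nat_lit 76) (nat_lit 0) (XT.lf (nat_lit 0) (nat_lit 13655321298) (nat_lit 152) (nat_lit 3702019276) (nat_lit 76) (nat_lit 250231058524) (nat_lit 3) (nat_lit 5) (nat_lit 5) (nat_lit 5) (nat_lit 4) (nat_lit 4) (nat_lit 371) (nat_lit 266) (nat_lit 143)) (XT.lf (nat_lit 0) (nat_lit 16124902869) (nat_lit 76) (nat_lit 7203915095) (nat_lit 152) (nat_lit 257109997416) (nat_lit 2) (nat_lit 5) (nat_lit 3) (nat_lit 5) (nat_lit 4) (nat_lit 4) (nat_lit 372) (nat_lit 266) (nat_lit 142))))))) (XT.nd (nat_lit 780) (nat_lit 0) (nat_lit 0) (XT.nd (nat_lit 390) (nat_lit 0) (nat_lit 0) (XT.nd (nat_lit 156) (nat_lit 0) (nat_lit 0) (XT.nd (nat_lit 78) (nat_lit 0) (nat_lit 0) (XT.lf (nat_lit 0) (nat_lit 33601228931) (nat_lit 152) (nat_lit 256916620749) (nat_lit 0) (nat_lit 3408141696) (nat_lit 2) (nat_lit 5) (nat_lit 4) (nat_lit 4) (nat_lit 2) (nat_lit 4) (nat_lit 373) (nat_lit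 266) (nat_lit 141)) (XT.lf (nat_lit 0) (nat_lit 44503014453) (nat_lit 152) (nat_lit 249272033587) (nat_lit 0) (nat_lit 14306691264) (nat_lit 2) (nat_lit 5) (nat_lit 4) (nat_lit 4) (nat_lit 2) (nat_lit 4) (nat_lit 374) (nat_lit 266) (nat_lit 140))) (XT.nd (nat_lit 78) (nat_lit 0) (nat_lit 0) (XT.lf (nat_lit 0) (nat_lit 55947657858) (nat_lit 152) (nat_lit 241249476323) (nat_lit 0) (nat_lit 25748252810) (nat_lit 2) (nat_lit 5) (nat_lit 4) (nat_lit 4) (nat_lit 2) (nat_lit 4) (nat_lit 375) (nat_lit 266) (nat_lit 139)) (XT.nd (nat_lit 78) (nat_lit 0) (nat_lit 0) (XT.lf (nat_lit 0) (nat_lit 67962408297) (nat_lit 152) (nat_lit 232829847630) (nat_lit 0) (nat_lit 37760068145) (nat_lit 2) (nat_lit 5) (nat_lit 4) (nat_lit 4) (nat_lit 2) (nat_lit 4) (nat_lit 376) (nat_lit 266) (nat_lit 138)) (XT.lf (nat_lit 0) (nat_lit 80575872321) (nat_lit 152) (nat_lit 223993100774) (nat_lit 0) (nat_lit 50370736830)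 (nat_lit 2) (nat_lit 5) (nat_lit 4) (nat_lit 4) (nat_lit 2) (nat_lit 4) (nat_lit 377) (nat_lit 266) (nat_lit 137))))) (XT.nd (nat_lit 156) (nat_lit 0) (nat_lit 0) (XT.nd (nat_lit 78) (nat_lit 0) (nat_lit 0) (XT.lf (nat_lit 0) (nat_lit 93818081984) (nat_lit 152) (nat_lit 214718195881) (nat_lit 0) (nat_lit 63610284267) (nat_lit 2) (nat_lit 5) (nat_lit 4) (nat_lit 4) (nat_lit 2) (nat_lit 4) (nat_lit 378) (nat_lit 266) (nat_lit 136)) (XT.lf (nat_lit 0) (nat_lit 107720566359) (nat_lit 152) (nat_lit 204983049843) (nat_lit 0) (nat_lit 77510233188) (nat_lit 2) (nat_lit 5) (nat_lit 4) (nat_lit 4) (nat_lit 2) (nat_lit 4) (nat_lit 379) (nat_lit 266) (nat_lit 135))) (XT.nd (nat_lit 78) (nat_lit 0) (nat_lit 0) (XT.lf (nat_lit 0) (nat_lit 122316426598) (nat_lit 152) (nat_lit 194764483743) (nat_lit 0) (nat_lit 92103678709) (nat_lit 2) (nat_lit 5) (nat_lit 4) (nat_lit 4) (nat_lit 2) (nat_lit 4) (nat_lit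 380) (nat_lit 266) (nat_lit 134)) (XT.nd (nat_lit 78) (nat_lit 0) (nat_lit 0) (XT.lf (nat_lit 0) (nat_lit 137640414749) (nat_lit 152) (nat_lit 184038167661) (nat_lit 0) (nat_lit 107425367129) (nat_lit 2) (nat_lit 5) (nat_lit 4) (nat_lit 4) (nat_lit 2) (nat_lit 4) (nat_lit 381) (nat_lit 266) (nat_lit 133)) (XT.lf (nat_lit 0) (nat_lit 153729016500) (nat_lit 152) (nat_lit 172778562748) (nat_lit 0) (nat_lit 123511778659) (nat_lit 2) (nat_lit 5) (nat_lit 4) (nat_lit 4) (nat_lit 2) (nat_lit 4) (nat_lit 382) (nat_lit 266) (nat_lit 132)))))) (XT.nd (nat_lit 31668) (nat_lit 0) (nat_lit 8132) (XT.nd (nat_lit 156) (nat_lit 0) (nat_lit 0) (XT.nd (nat_lit 78) (nat_lit 0) (nat_lit 0) (XT.lf (nat_lit 0) (nat_lit 170620538043) (nat_lit 152) (nat_lit 160958860422) (nat_lit 0) (nat_lit 140401214278) (nat_lit 2) (nat_lit 5) (nat_lit 4) (nat_lit 4) (nat_lit 2) (nat_lit 4) (nat_lit 383) (nat_lit 266) (nat_lit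 131)) (XT.lf (nat_lit 0) (nat_lit 188355197289) (nat_lit 152) (nat_lit 148550918535) (nat_lit 0) (nat_lit 158133886929) (nat_lit 2) (nat_lit 5) (nat_lit 4) (nat_lit 4) (nat_lit 2) (nat_lit 4) (nat_lit 384) (nat_lit 266) (nat_lit 130))) (XT.nd (nat_lit 78) (nat_lit 0) (nat_lit 0) (XT.lf (nat_lit 0) (nat_lit 206975219615) (nat_lit 152) (nat_lit 135525194367) (nat_lit 0) (nat_lit 176752017261) (nat_lit 2) (nat_lit 5) (nat_lit 4) (nat_lit 4) (nat_lit 2) (nat_lit 4) (nat_lit 385) (nat_lit 266) (nat_lit 129)) (XT.nd (nat_lit 31356) (nat_lit 0) (nat_lit 9120) (XT.lf (nat_lit 0) (nat_lit 226524938408) (nat_lit 152) (nat_lit 121850674290) (nat_lit 0) (nat_lit 196299934154) (nat_lit 2) (nat_lit 5) (nat_lit 4) (nat_lit 4) (nat_lit 2) (nat_lit 4) (nat_lit 386) (nat_lit 266) (nat_lit 128)) (XT.lf (nat_lit 0) (nat_lit 1628386072) (nat_lit 0) (nat_lit 1628386072) (nat_lit 380) (nat_lit 253582391) (nat_lit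 122) (nat_lit 5) (nat_lit 122) (nat_lit 3) (nat_lit 127) (nat_lit 3) (nat_lit 267) (nat_lit 267) (nat_lit 246))))) (XT.nd (nat_lit 156) (nat_lit 456) (nat_lit 0) (XT.nd (nat_lit 78) (nat_lit 0) (nat_lit 76) (XT.lf (nat_lit 0) (nat_lit 1190568384) (nat_lit 532) (nat_lit 518655631) (nat_lit 532) (nat_lit 5398399913) (nat_lit 115) (nat_lit 3) (nat_lit 122) (nat_lit 3) (nat_lit 122) (nat_lit 5) (nat_lit 268) (nat_lit 267) (nat_lit 245)) (XT.lf (nat_lit 0) (nat_lit 2893630664) (nat_lit 456) (nat_lit 4285384557) (nat_lit 532) (nat_lit 22855803) (nat_lit 116) (nat_lit 5) (nat_lit 122) (nat_lit 5) (nat_lit 123) (nat_lit 5) (nat_lit 269) (nat_lit 267) (nat_lit 244))) (XT.nd (nat_lit 78) (nat_lit 532) (nat_lit 0) (XT.lf (nat_lit 0) (nat_lit 4615406952) (nat_lit 456) (nat_lit 849522515) (nat_lit 532) (nat_lit 1839486327) (nat_lit 116) (nat_lit 5) (nat_lit 122) (nat_lit 5) (nat_lit 123) (nat_lit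 5) (nat_lit 270) (nat_lit 267) (nat_lit 243)) (XT.nd (nat_lit 78) (nat_lit 532) (nat_lit 0) (XT.lf (nat_lit 76) (nat_lit 2787975357) (nat_lit 0) (nat_lit 3580361139) (nat_lit 532) (nat_lit 1046748911) (nat_lit 117) (nat_lit 5) (nat_lit 116) (nat_lit 5) (nat_lit 123) (nat_lit 5) (nat_lit 271) (nat_lit 267) (nat_lit 242)) (XT.lf (nat_lit 0) (nat_lit 574088053) (nat_lit 532) (nat_lit 966392233) (nat_lit 608) (nat_lit 5994599122) (nat_lit 109) (nat_lit 5) (nat_lit 116) (nat_lit 5) (nat_lit 117) (nat_lit 5) (nat_lit 272) (nat_lit 267) (nat_lit 241))))))))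
noncomputable def xc127 : XT := (XT.nd (nat_lit 1560) (nat_lit 2204) (nat_lit 0) (XT.nd (nat_lit 780) (nat_lit 1672) (nat_lit 0) (XT.nd (nat_lit 390) (nat_lit 1900) (nat_lit 0) (XT.nd (nat_lit 156) (nat_lit 532) (nat_lit 0) (XT.nd (nat_lit 78) (nat_lit 0) (nat_lit 0) (XT.lf (nat_lit 0) (nat_lit 2205020863) (nat_lit 532) (nat_lit 4779771623) (nat_lit 608) (nat_lit 677427725) (nat_lit 110) (nat_lit 5) (nat_lit 117) (nat_lit 5) (nat_lit 118) (nat_lit 5) (nat_lit 273) (nat_lit 267) (nat_lit 240)) (XT.lf (nat_lit 0) (nat_lit 3871457574) (nat_lit 532) (nat_lit 926195522) (nat_lit 608) (nat_lit 3000573447) (nat_lit 110) (nat_lit 5) (nat_lit 117) (nat_lit 5) (nat_lit 118) (nat_lit 5) (nat_lit 274) (nat_lit 267) (nat_lit 239))) (XT.nd (nat_lit 78) (nat_lit 532) (nat_lit 0) (XT.lf (nat_lit 76) (nat_lit 3161183554) (nat_lit 0) (nat_lit 2425643562) (nat_lit 608) (nat_lit 2356122053) (nat_lit 111)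 (nat_lit 5) (nat_lit 110) (nat_lit 5) (nat_lit 118) (nat_lit 5) (nat_lit 275) (nat_lit 267) (nat_lit 238)) (XT.nd (nat_lit 78) (nat_lit 608) (nat_lit 0) (XT.lf (nat_lit 0) (nat_lit 7324580681) (nat_lit 532) (nat_lit 673951174) (nat_lit 76) (nat_lit 99732461) (nat_lit 111) (nat_lit 5) (nat_lit 118) (nat_lit 5) (nat_lit 112) (nat_lit 5) (nat_lit 276) (nat_lit 267) (nat_lit 237)) (XT.lf (nat_lit 0) (nat_lit 879947412) (nat_lit 608) (nat_lit 4618811661) (nat_lit 76) (nat_lit 2761038388) (nat_lit 103) (nat_lit 5) (nat_lit 111) (nat_lit 5) (nat_lit 104) (nat_lit 5) (nat_lit 277) (nat_lit 267) (nat_lit 236))))) (XT.nd (nat_lit 156) (nat_lit 1292) (nat_lit 0) (XT.nd (nat_lit 78) (nat_lit 608) (nat_lit 0) (XT.lf (nat_lit 0) (nat_lit 2526682597) (nat_lit 608) (nat_lit 308921561) (nat_lit 76) (nat_lit 5596509449) (nat_lit 103) (nat_lit 5) (nat_lit 111) (nat_lit 5) (nat_lit 104) (nat_lit 5) (nat_lit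 278) (nat_lit 267) (nat_lit 235)) (XT.lf (nat_lit 0) (nat_lit 4251885281) (nat_lit 684) (nat_lit 4319503684) (nat_lit 76) (nat_lit 42004042) (nat_lit 95) (nat_lit 5) (nat_lit 104) (nat_lit 5) (nat_lit 96) (nat_lit 5) (nat_lit 279) (nat_lit 267) (nat_lit 234))) (XT.nd (nat_lit 78) (nat_lit 608) (nat_lit 0) (XT.lf (nat_lit 0) (nat_lit 232843409) (nat_lit 684) (nat_lit 5817011269) (nat_lit 760) (nat_lit 2754703023) (nat_lit 86) (nat_lit 5) (nat_lit 95) (nat_lit 5) (nat_lit 96) (nat_lit 5) (nat_lit 280) (nat_lit 267) (nat_lit 233)) (XT.nd (nat_lit 78) (nat_lit 608) (nat_lit 0) (XT.lf (nat_lit 0) (nat_lit 5101644377) (nat_lit 684) (nat_lit 2842627569) (nat_lit 760) (nat_lit 1060820878) (nat_lit 86) (nat_lit 5) (nat_lit 95) (nat_lit 5) (nat_lit 96) (nat_lit 5) (nat_lit 281) (nat_lit 267) (nat_lit 232)) (XT.lf (nat_lit 0) (nat_lit 649998544) (nat_lit 608) (nat_lit 8265394403) (nat_lit 76) (nat_lit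 302067342) (nat_lit 78) (nat_lit 5) (nat_lit 86) (nat_lit 5) (nat_lit 79) (nat_lit 5) (nat_lit 282) (nat_lit 267) (nat_lit 231)))))) (XT.nd (nat_lit 390) (nat_lit 912) (nat_lit 0) (XT.nd (nat_lit 156) (nat_lit 380) (nat_lit 0) (XT.nd (nat_lit 78) (nat_lit 380) (nat_lit 0) (XT.lf (nat_lit 0) (nat_lit 2462092105) (nat_lit 608) (nat_lit 3379133276) (nat_lit 76) (nat_lit 3595902686) (nat_lit 78) (nat_lit 5) (nat_lit 86) (nat_lit 5) (nat_lit 79) (nat_lit 5) (nat_lit 283) (nat_lit 267) (nat_lit 230)) (XT.lf (nat_lit 0) (nat_lit 1747571570) (nat_lit 380) (nat_lit 2585067782) (nat_lit 456) (nat_lit 5336862335) (nat_lit 73) (nat_lit 5) (nat_lit 78) (nat_lit 5) (nat_lit 79) (nat_lit 5) (nat_lit 284) (nat_lit 267) (nat_lit 229))) (XT.nd (nat_lit 78) (nat_lit 380) (nat_lit 0) (XT.lf (nat_lit 0) (nat_lit 6310354489) (nat_lit 456) (nat_lit 2738465813) (nat_lit 76) (nat_lit 864101094) (nat_lit 73)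 (nat_lit 5) (nat_lit 79) (nat_lit 5) (nat_lit 74) (nat_lit 5) (nat_lit 285) (nat_lit 267) (nat_lit 228)) (XT.nd (nat_lit 78) (nat_lit 76) (nat_lit 0) (XT.lf (nat_lit 0) (nat_lit 2688998193) (nat_lit 304) (nat_lit 5727513992) (nat_lit 380) (nat_lit 1750626287) (nat_lit 69) (nat_lit 5) (nat_lit 73) (nat_lit 5) (nat_lit 74) (nat_lit 5) (nat_lit 286) (nat_lit 267) (nat_lit 227)) (XT.lf (nat_lit 0) (nat_lit 180777382) (nat_lit 380) (nat_lit 2012419474) (nat_lit 76) (nat_lit 8241159084) (nat_lit 68) (nat_lit 5) (nat_lit 73) (nat_lit 5) (nat_lit 69) (nat_lit 5) (nat_lit 287) (nat_lit 267) (nat_lit 226))))) (XT.nd (nat_lit 156) (nat_lit 608) (nat_lit 0) (XT.nd (nat_lit 78) (nat_lit 0) (nat_lit 0) (XT.lf (nat_lit 0) (nat_lit 2182198679) (nat_lit 380) (nat_lit 6976944365) (nat_lit 76) (nat_lit 1552832330) (nat_lit 64) (nat_lit 5) (nat_lit 69) (nat_lit 5) (nat_lit 65) (nat_lit 5) (nat_lit 288)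 (nat_lit 267) (nat_lit 225)) (XT.lf (nat_lit 0) (nat_lit 4304276233) (nat_lit 380) (nat_lit 1257076899) (nat_lit 76) (nat_lit 5441179133) (nat_lit 64) (nat_lit 5) (nat_lit 69) (nat_lit 5) (nat_lit 65) (nat_lit 5) (nat_lit 289) (nat_lit 267) (nat_lit 224))) (XT.nd (nat_lit 78) (nat_lit 304) (nat_lit 0) (XT.lf (nat_lit 0) (nat_lit 4848230837) (nat_lit 304) (nat_lit 1712293809) (nat_lit 380) (nat_lit 4745770666) (nat_lit 60) (nat_lit 5) (nat_lit 64) (nat_lit 5) (nat_lit 65) (nat_lit 5) (nat_lit 290) (nat_lit 267) (nat_lit 223)) (XT.nd (nat_lit 78) (nat_lit 304) (nat_lit 0) (XT.lf (nat_lit 0) (nat_lit 8941239324) (nat_lit 380) (nat_lit 415531882) (nat_lit 76) (nat_lit 2267970386) (nat_lit 60) (nat_lit 5) (nat_lit 65) (nat_lit 5) (nat_lit 61) (nat_lit 5) (nat_lit 291) (nat_lit 267) (nat_lit 222)) (XT.lf (nat_lit 0) (nat_lit 6040011189) (nat_lit 304) (nat_lit 5479207586) (nat_lit 380) (nat_lit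 436054027) (nat_lit 56) (nat_lit 5) (nat_lit 60) (nat_lit 5) (nat_lit 61) (nat_lit 5) (nat_lit 292) (nat_lit 267) (nat_lit 221))))))) (XT.nd (nat_lit 780) (nat_lit 988) (nat_lit 0) (XT.nd (nat_lit 390) (nat_lit 456) (nat_lit 0) (XT.nd (nat_lit 156) (nat_lit 456) (nat_lit 0) (XT.nd (nat_lit 78) (nat_lit 0) (nat_lit 0) (XT.lf (nat_lit 0) (nat_lit 460365492) (nat_lit 228) (nat_lit 1372521719) (nat_lit 304) (nat_lit 10469474118) (nat_lit 52) (nat_lit 5) (nat_lit 55) (nat_lit 5) (nat_lit 56) (nat_lit 5) (nat_lit 293) (nat_lit 267) (nat_lit 220)) (XT.lf (nat_lit 0) (nat_lit 4305739061) (nat_lit 304) (nat_lit 5412453742) (nat_lit 76) (nat_lit 2943062151) (nat_lit 52) (nat_lit 5) (nat_lit 56) (nat_lit 5) (nat_lit 53) (nat_lit 5) (nat_lit 294) (nat_lit 267) (nat_lit 219))) (XT.nd (nat_lit 78) (nat_lit 228) (nat_lit 0) (XT.lf (nat_lit 0) (nat_lit 1304372858) (nat_lit 228) (nat_lit 5600158236)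 (nat_lit 304) (nat_lit 6133508223) (nat_lit 49) (nat_lit 5) (nat_lit 52) (nat_lit 5) (nat_lit 53) (nat_lit 5) (nat_lit 295) (nat_lit 267) (nat_lit 218)) (XT.nd (nat_lit 78) (nat_lit 228) (nat_lit 0) (XT.lf (nat_lit 0) (nat_lit 8492370582) (nat_lit 228) (nat_lit 1193097890) (nat_lit 304) (nat_lit 3745642174) (nat_lit 49) (nat_lit 5) (nat_lit 52) (nat_lit 5) (nat_lit 53) (nat_lit 5) (nat_lit 296) (nat_lit 267) (nat_lit 217)) (XT.lf (nat_lit 0) (nat_lit 2159621016) (nat_lit 228) (nat_lit 10495395731) (nat_lit 304) (nat_lit 1186395863) (nat_lit 46) (nat_lit 5) (nat_lit 49) (nat_lit 5) (nat_lit 50) (nat_lit 5) (nat_lit 297) (nat_lit 267) (nat_lit 216))))) (XT.nd (nat_lit 156) (nat_lit 152) (nat_lit 0) (XT.nd (nat_lit 78) (nat_lit 228) (nat_lit 0) (XT.lf (nat_lit 0) (nat_lit 1519923526) (nat_lit 304) (nat_lit 4580313178) (nat_lit 76) (nat_lit 8167514200) (nat_lit 45) (nat_lit 5) (nat_lit 49)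 (nat_lit 5) (nat_lit 46) (nat_lit 5) (nat_lit 298) (nat_lit 267) (nat_lit 215)) (XT.lf (nat_lit 0) (nat_lit 2899825883) (nat_lit 228) (nat_lit 1431494888) (nat_lit 304) (nat_lit 10382679005) (nat_lit 42) (nat_lit 5) (nat_lit 45) (nat_lit 5) (nat_lit 46) (nat_lit 5) (nat_lit 299) (nat_lit 267) (nat_lit 214))) (XT.nd (nat_lit 78) (nat_lit 152) (nat_lit 0) (XT.lf (nat_lit 0) (nat_lit 7381384495) (nat_lit 304) (nat_lit 4371683383) (nat_lit 76) (nat_lit 3424633852) (nat_lit 42) (nat_lit 5) (nat_lit 46) (nat_lit 5) (nat_lit 43) (nat_lit 5) (nat_lit 300) (nat_lit 267) (nat_lit 213)) (XT.nd (nat_lit 78) (nat_lit 0) (nat_lit 0) (XT.lf (nat_lit 0) (nat_lit 3482810421) (nat_lit 152) (nat_lit 7145716027) (nat_lit 228) (nat_lit 5033876889) (nat_lit 40) (nat_lit 5) (nat_lit 42) (nat_lit 5) (nat_lit 43) (nat_lit 5) (nat_lit 301) (nat_lit 267) (nat_lit 212)) (XT.lf (nat_lit 0) (nat_lit 11834454331)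 (nat_lit 152) (nat_lit 2245184180) (nat_lit 228) (nat_lit 2089662106) (nat_lit 40) (nat_lit 5) (nat_lit 42) (nat_lit 5) (nat_lit 43) (nat_lit 5) (nat_lit 302) (nat_lit 267) (nat_lit 211)))))) (XT.nd (nat_lit 390) (nat_lit 380) (nat_lit 0) (XT.nd (nat_lit 156) (nat_lit 304) (nat_lit 0) (XT.nd (nat_lit 78) (nat_lit 0) (nat_lit 0) (XT.lf (nat_lit 0) (nat_lit 1046542188) (nat_lit 304) (nat_lit 12778292235) (nat_lit 76) (nat_lit 2872121660) (nat_lit 36) (nat_lit 5) (nat_lit 40) (nat_lit 5) (nat_lit 37) (nat_lit 5) (nat_lit 303) (nat_lit 267) (nat_lit 210)) (XT.lf (nat_lit 0) (nat_lit 4349885250) (nat_lit 304) (nat_lit 4631007759) (nat_lit 76) (nat_lit 8264396356) (nat_lit 36) (nat_lit 5) (nat_lit 40) (nat_lit 5) (nat_lit 37) (nat_lit 5) (nat_lit 304) (nat_lit 267) (nat_lit 209))) (XT.nd (nat_lit 78) (nat_lit 152) (nat_lit 0) (XT.lf (nat_lit 0) (nat_lit 4007365373) (nat_lit 152) (nat_lit 3844198580)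 (nat_lit 228) (nat_lit 9967850868) (nat_lit 34) (nat_lit 5) (nat_lit 36) (nat_lit 5) (nat_lit 37) (nat_lit 5) (nat_lit 305) (nat_lit 267) (nat_lit 208)) (XT.nd (nat_lit 78) (nat_lit 152) (nat_lit 0) (XT.lf (nat_lit 0) (nat_lit 11603311792) (nat_lit 228) (nat_lit 5250412994) (nat_lit 76) (nat_lit 1564804820) (nat_lit 34) (nat_lit 5) (nat_lit 37) (nat_lit 5) (nat_lit 35) (nat_lit 5) (nat_lit 306) (nat_lit 267) (nat_lit 207)) (XT.lf (nat_lit 0) (nat_lit 3753518765) (nat_lit 152) (nat_lit 11883209649) (nat_lit 228) (nat_lit 3406198421) (nat_lit 32) (nat_lit 5) (nat_lit 34) (nat_lit 5) (nat_lit 35) (nat_lit 5) (nat_lit 307) (nat_lit 267) (nat_lit 206))))) (XT.nd (nat_lit 234) (nat_lit 152) (nat_lit 0) (XT.nd (nat_lit 78) (nat_lit 152) (nat_lit 0) (XT.lf (nat_lit 0) (nat_lit 230744199) (nat_lit 228) (nat_lit 6351474774) (nat_lit 76) (nat_lit 13113066707) (nat_lit 31) (nat_lit 5) (nat_lit 34)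 (nat_lit 5) (nat_lit 32) (nat_lit 5) (nat_lit 308) (nat_lit 267) (nat_lit 205)) (XT.nd (nat_lit 78) (nat_lit 0) (nat_lit 0) (XT.lf (nat_lit 0) (nat_lit 3033518434) (nat_lit 152) (nat_lit 922851477) (nat_lit 228) (nat_lit 16420061846) (nat_lit 29) (nat_lit 5) (nat_lit 31) (nat_lit 5) (nat_lit 32) (nat_lit 5) (nat_lit 309) (nat_lit 267) (nat_lit 204)) (XT.lf (nat_lit 0) (nat_lit 8030294296) (nat_lit 228) (nat_lit 8099608249) (nat_lit 76) (nat_lit 4953657044) (nat_lit 29) (nat_lit 5) (nat_lit 32) (nat_lit 5) (nat_lit 30) (nat_lit 5) (nat_lit 310) (nat_lit 267) (nat_lit 203)))) (XT.nd (nat_lit 78) (nat_lit 0) (nat_lit 0) (XT.lf (nat_lit 0) (nat_lit 1602509431) (nat_lit 152) (nat_lit 10721097182) (nat_lit 228) (nat_lit 9501676730) (nat_lit 27) (nat_lit 5) (nat_lit 29) (nat_lit 5) (nat_lit 30) (nat_lit 5) (nat_lit 311) (nat_lit 267) (nat_lit 202)) (XT.nd (nat_lit 78) (nat_lit 0) (nat_lit 0)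 (XT.lf (nat_lit 0) (nat_lit 12032056187) (nat_lit 152) (nat_lit 4912800106) (nat_lit 228) (nat_lit 5653596369) (nat_lit 27) (nat_lit 5) (nat_lit 29) (nat_lit 5) (nat_lit 30) (nat_lit 5) (nat_lit 312) (nat_lit 267) (nat_lit 201)) (XT.lf (nat_lit 0) (nat_lit 21792700166) (nat_lit 228) (nat_lit 483678420) (nat_lit 76) (nat_lit 1134147148) (nat_lit 27) (nat_lit 5) (nat_lit 30) (nat_lit 5) (nat_lit 28) (nat_lit 4) (nat_lit 313) (nat_lit 267) (nat_lit 200))))))))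
noncomputable def xc128 : XT := (XT.nd (nat_lit 1560) (nat_lit 456) (nat_lit 0) (XT.nd (nat_lit 780) (nat_lit 456) (nat_lit 0) (XT.nd (nat_lit 390) (nat_lit 304) (nat_lit 0) (XT.nd (nat_lit 156) (nat_lit 228) (nat_lit 0) (XT.nd (nat_lit 78) (nat_lit 0) (nat_lit 0) (XT.lf (nat_lit 0) (nat_lit 2759188516) (nat_lit 152) (nat_lit 13980059337) (nat_lit 76) (nat_lit 7510764249) (nat_lit 25) (nat_lit 5) (nat_lit 27) (nat_lit 5) (nat_lit 26) (nat_lit 5) (nat_lit 314) (nat_lit 267) (nat_lit 199)) (XT.lf (nat_lit 0) (nat_lit 7287237038) (nat_lit 152) (nat_lit 3615972235) (nat_lit 76) (nat_lit 14227628658) (nat_lit 25) (nat_lit 5) (nat_lit 27) (nat_lit 5) (nat_lit 26) (nat_lit 5) (nat_lit 315) (nat_lit 267) (nat_lit 198))) (XT.nd (nat_lit 78) (nat_lit 76) (nat_lit 0) (XT.lf (nat_lit 0) (nat_lit 7470851477) (nat_lit 152) (nat_lit 4666741885) (nat_lit 228) (nat_lit 13913334416) (nat_lit 23) (nat_lit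 5) (nat_lit 25) (nat_lit 5) (nat_lit 26) (nat_lit 5) (nat_lit 316) (nat_lit 267) (nat_lit 197)) (XT.nd (nat_lit 78) (nat_lit 76) (nat_lit 0) (XT.lf (nat_lit 0) (nat_lit 17301591953) (nat_lit 228) (nat_lit 7841625992) (nat_lit 76) (nat_lit 1870265088) (nat_lit 23) (nat_lit 5) (nat_lit 26) (nat_lit 5) (nat_lit 24) (nat_lit 4) (nat_lit 317) (nat_lit 267) (nat_lit 196)) (XT.lf (nat_lit 0) (nat_lit 3433970024) (nat_lit 76) (nat_lit 19400420267) (nat_lit 152) (nat_lit 5184262090) (nat_lit 22) (nat_lit 5) (nat_lit 23) (nat_lit 5) (nat_lit 24) (nat_lit 4) (nat_lit 318) (nat_lit 267) (nat_lit 195))))) (XT.nd (nat_lit 156) (nat_lit 228) (nat_lit 0) (XT.nd (nat_lit 78) (nat_lit 76) (nat_lit 0) (XT.lf (nat_lit 0) (nat_lit 15512943243) (nat_lit 76) (nat_lit 13244588723) (nat_lit 152) (nat_lit 310878604) (nat_lit 22) (nat_lit 5) (nat_lit 23) (nat_lit 5) (nat_lit 24) (nat_lit 4) (nat_lit 319) (nat_lit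 267) (nat_lit 194)) (XT.lf (nat_lit 0) (nat_lit 4633845096) (nat_lit 152) (nat_lit 2081546799) (nat_lit 76) (nat_lit 23452452050) (nat_lit 21) (nat_lit 5) (nat_lit 23) (nat_lit 5) (nat_lit 22) (nat_lit 5) (nat_lit 320) (nat_lit 267) (nat_lit 193))) (XT.nd (nat_lit 78) (nat_lit 76) (nat_lit 0) (XT.lf (nat_lit 0) (nat_lit 9962613471) (nat_lit 228) (nat_lit 21060460375) (nat_lit 76) (nat_lit 291570948) (nat_lit 19) (nat_lit 5) (nat_lit 22) (nat_lit 5) (nat_lit 20) (nat_lit 4) (nat_lit 321) (nat_lit 267) (nat_lit 192)) (XT.nd (nat_lit 78) (nat_lit 76) (nat_lit 0) (XT.lf (nat_lit 0) (nat_lit 15686298496) (nat_lit 228) (nat_lit 9379120710) (nat_lit 76) (nat_lit 7446955358) (nat_lit 19) (nat_lit 5) (nat_lit 22) (nat_lit 5) (nat_lit 20) (nat_lit 4) (nat_lit 322) (nat_lit 267) (nat_lit 191)) (XT.lf (nat_lit 0) (nat_lit 2951809776) (nat_lit 76) (nat_lit 18773834432) (nat_lit 152) (nat_lit 12042884971)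 (nat_lit 18) (nat_lit 5) (nat_lit 19) (nat_lit 5) (nat_lit 20) (nat_lit 4) (nat_lit 323) (nat_lit 267) (nat_lit 190)))))) (XT.nd (nat_lit 390) (nat_lit 228) (nat_lit 0) (XT.nd (nat_lit 156) (nat_lit 228) (nat_lit 0) (XT.nd (nat_lit 78) (nat_lit 0) (nat_lit 0) (XT.lf (nat_lit 0) (nat_lit 16196423147) (nat_lit 76) (nat_lit 12013110615) (nat_lit 152) (nat_lit 6870840536) (nat_lit 18) (nat_lit 5) (nat_lit 19) (nat_lit 5) (nat_lit 20) (nat_lit 4) (nat_lit 324) (nat_lit 267) (nat_lit 189)) (XT.lf (nat_lit 0) (nat_lit 30076138107) (nat_lit 76) (nat_lit 4925990740) (nat_lit 152) (nat_lit 1456468319) (nat_lit 18) (nat_lit 5) (nat_lit 19) (nat_lit 5) (nat_lit 20) (nat_lit 4) (nat_lit 325) (nat_lit 267) (nat_lit 188))) (XT.nd (nat_lit 78) (nat_lit 0) (nat_lit 0) (XT.lf (nat_lit 0) (nat_lit 4227500801) (nat_lit 228) (nat_lit 31068083491) (nat_lit 76) (nat_lit 2600144843) (nat_lit 15) (nat_lit 5)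 (nat_lit 18) (nat_lit 5) (nat_lit 16) (nat_lit 4) (nat_lit 326) (nat_lit 267) (nat_lit 187)) (XT.nd (nat_lit 78) (nat_lit 0) (nat_lit 0) (XT.lf (nat_lit 0) (nat_lit 10322468588) (nat_lit 228) (nat_lit 18612362892) (nat_lit 76) (nat_lit 10459914584) (nat_lit 15) (nat_lit 5) (nat_lit 18) (nat_lit 5) (nat_lit 16) (nat_lit 4) (nat_lit 327) (nat_lit 267) (nat_lit 186)) (XT.lf (nat_lit 0) (nat_lit 16708023955) (nat_lit 228) (nat_lit 5559082355) (nat_lit 76) (nat_lit 18702324657) (nat_lit 15) (nat_lit 5) (nat_lit 18) (nat_lit 5) (nat_lit 16) (nat_lit 4) (nat_lit 328) (nat_lit 267) (nat_lit 185))))) (XT.nd (nat_lit 156) (nat_lit 152) (nat_lit 0) (XT.nd (nat_lit 78) (nat_lit 0) (nat_lit 0) (XT.lf (nat_lit 0) (nat_lit 8391415043) (nat_lit 76) (nat_lit 15138969068) (nat_lit 152) (nat_lit 19086598311) (nat_lit 14) (nat_lit 5) (nat_lit 15) (nat_lit 5) (nat_lit 16) (nat_lit 4) (nat_lit 329) (nat_lit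 267) (nat_lit 184)) (XT.lf (nat_lit 0) (nat_lit 23208798746) (nat_lit 76) (nat_lit 7565995961) (nat_lit 152) (nat_lit 13568078364) (nat_lit 14) (nat_lit 5) (nat_lit 15) (nat_lit 5) (nat_lit 16) (nat_lit 4) (nat_lit 330) (nat_lit 267) (nat_lit 183))) (XT.nd (nat_lit 78) (nat_lit 152) (nat_lit 0) (XT.lf (nat_lit 0) (nat_lit 38374707424) (nat_lit 152) (nat_lit 7417021141) (nat_lit 0) (nat_lit 363673460) (nat_lit 14) (nat_lit 5) (nat_lit 16) (nat_lit 4) (nat_lit 14) (nat_lit 4) (nat_lit 331) (nat_lit 267) (nat_lit 182)) (XT.nd (nat_lit 78) (nat_lit 76) (nat_lit 0) (XT.lf (nat_lit 0) (nat_lit 7066112842) (nat_lit 76) (nat_lit 39510724992) (nat_lit 76) (nat_lit 1470615965) (nat_lit 13) (nat_lit 4) (nat_lit 14) (nat_lit 5) (nat_lit 14) (nat_lit 4) (nat_lit 332) (nat_lit 267) (nat_lit 181)) (XT.lf (nat_lit 0) (nat_lit 5105552547) (nat_lit 152) (nat_lit 27601416841) (nat_lit 76) (nat_lit 17317342531)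 (nat_lit 12) (nat_lit 5) (nat_lit 14) (nat_lit 5) (nat_lit 13) (nat_lit 4) (nat_lit 333) (nat_lit 267) (nat_lit 180))))))) (XT.nd (nat_lit 780) (nat_lit 152) (nat_lit 0) (XT.nd (nat_lit 390) (nat_lit 228) (nat_lit 0) (XT.nd (nat_lit 156) (nat_lit 0) (nat_lit 0) (XT.nd (nat_lit 78) (nat_lit 76) (nat_lit 0) (XT.lf (nat_lit 0) (nat_lit 11949590034) (nat_lit 152) (nat_lit 13597511930) (nat_lit 76) (nat_lit 26552287870) (nat_lit 12) (nat_lit 5) (nat_lit 14) (nat_lit 5) (nat_lit 13) (nat_lit 4) (nat_lit 334) (nat_lit 267) (nat_lit 179)) (XT.lf (nat_lit 0) (nat_lit 1122607285) (nat_lit 76) (nat_lit 18019780480) (nat_lit 152) (nat_lit 35135512114) (nat_lit 11) (nat_lit 5) (nat_lit 12) (nat_lit 5) (nat_lit 13) (nat_lit 4) (nat_lit 335) (nat_lit 267) (nat_lit 178))) (XT.nd (nat_lit 78) (nat_lit 0) (nat_lit 0) (XT.lf (nat_lit 0) (nat_lit 17031217139) (nat_lit 76) (nat_lit 9883136470) (nat_lit 152)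 (nat_lit 29640011265) (nat_lit 11) (nat_lit 5) (nat_lit 12) (nat_lit 5) (nat_lit 13) (nat_lit 4) (nat_lit 336) (nat_lit 267) (nat_lit 177)) (XT.nd (nat_lit 78) (nat_lit 0) (nat_lit 0) (XT.lf (nat_lit 0) (nat_lit 33716600121) (nat_lit 76) (nat_lit 1348077417) (nat_lit 152) (nat_lit 23880493170) (nat_lit 11) (nat_lit 5) (nat_lit 12) (nat_lit 5) (nat_lit 13) (nat_lit 4) (nat_lit 337) (nat_lit 267) (nat_lit 176)) (XT.lf (nat_lit 0) (nat_lit 43731511662) (nat_lit 152) (nat_lit 10356273021) (nat_lit 0) (nat_lit 7362287765) (nat_lit 11) (nat_lit 5) (nat_lit 13) (nat_lit 4) (nat_lit 11) (nat_lit 4) (nat_lit 338) (nat_lit 267) (nat_lit 175))))) (XT.nd (nat_lit 156) (nat_lit 152) (nat_lit 0) (XT.nd (nat_lit 78) (nat_lit 0) (nat_lit 0) (XT.lf (nat_lit 0) (nat_lit 5392872336) (nat_lit 76) (nat_lit 47535705269) (nat_lit 76) (nat_lit 11146802224) (nat_lit 10) (nat_lit 4) (nat_lit 11) (nat_lit 5) (nat_lit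 11) (nat_lit 4) (nat_lit 339) (nat_lit 267) (nat_lit 174)) (XT.lf (nat_lit 0) (nat_lit 22272026922) (nat_lit 76) (nat_lit 40479633690) (nat_lit 76) (nat_lit 4071988600) (nat_lit 10) (nat_lit 4) (nat_lit 11) (nat_lit 5) (nat_lit 11) (nat_lit 4) (nat_lit 340) (nat_lit 267) (nat_lit 173))) (XT.nd (nat_lit 78) (nat_lit 76) (nat_lit 0) (XT.lf (nat_lit 0) (nat_lit 3240200716) (nat_lit 152) (nat_lit 29783083186) (nat_lit 76) (nat_lit 36683878959) (nat_lit 9) (nat_lit 5) (nat_lit 11) (nat_lit 5) (nat_lit 10) (nat_lit 4) (nat_lit 341) (nat_lit 267) (nat_lit 172)) (XT.nd (nat_lit 78) (nat_lit 76) (nat_lit 0) (XT.lf (nat_lit 0) (nat_lit 10772645482) (nat_lit 152) (nat_lit 14358571002) (nat_lit 76) (nat_lit 47600727602) (nat_lit 9) (nat_lit 5) (nat_lit 11) (nat_lit 5) (nat_lit 10) (nat_lit 4) (nat_lit 342) (nat_lit 267) (nat_lit 171)) (XT.lf (nat_lit 0) (nat_lit 1882465083) (nat_lit 76) (nat_lit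 16820534628) (nat_lit 152) (nat_lit 57203904267) (nat_lit 8) (nat_lit 5) (nat_lit 9) (nat_lit 5) (nat_lit 10) (nat_lit 4) (nat_lit 343) (nat_lit 267) (nat_lit 170)))))) (XT.nd (nat_lit 390) (nat_lit 76) (nat_lit 0) (XT.nd (nat_lit 156) (nat_lit 76) (nat_lit 0) (XT.nd (nat_lit 78) (nat_lit 0) (nat_lit 0) (XT.lf (nat_lit 0) (nat_lit 19419338957) (nat_lit 76) (nat_lit 7845754901) (nat_lit 152) (nat_lit 51963760672) (nat_lit 8) (nat_lit 5) (nat_lit 9) (nat_lit 5) (nat_lit 10) (nat_lit 4) (nat_lit 344) (nat_lit 267) (nat_lit 169)) (XT.lf (nat_lit 0) (nat_lit 36272256743) (nat_lit 152) (nat_lit 44922771501) (nat_lit 0) (nat_lit 1521029758) (nat_lit 8) (nat_lit 5) (nat_lit 10) (nat_lit 4) (nat_lit 8) (nat_lit 4) (nat_lit 345) (nat_lit 267) (nat_lit 168))) (XT.nd (nat_lit 78) (nat_lit 76) (nat_lit 0) (XT.lf (nat_lit 0) (nat_lit 45851092627) (nat_lit 152) (nat_lit 29433920685) (nat_lit 0) (nat_lit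 11086546021) (nat_lit 8) (nat_lit 5) (nat_lit 10) (nat_lit 4) (nat_lit 8) (nat_lit 4) (nat_lit 346) (nat_lit 267) (nat_lit 167)) (XT.nd (nat_lit 78) (nat_lit 76) (nat_lit 0) (XT.lf (nat_lit 0) (nat_lit 55901914040) (nat_lit 152) (nat_lit 13183590686) (nat_lit 0) (nat_lit 21124682080) (nat_lit 8) (nat_lit 5) (nat_lit 10) (nat_lit 4) (nat_lit 8) (nat_lit 4) (nat_lit 347) (nat_lit 267) (nat_lit 166)) (XT.lf (nat_lit 0) (nat_lit 3994767256) (nat_lit 76) (nat_lit 62516253763) (nat_lit 76) (nat_lit 27726940514) (nat_lit 7) (nat_lit 4) (nat_lit 8) (nat_lit 5) (nat_lit 8) (nat_lit 4) (nat_lit 348) (nat_lit 267) (nat_lit 165))))) (XT.nd (nat_lit 156) (nat_lit 76) (nat_lit 0) (XT.nd (nat_lit 78) (nat_lit 0) (nat_lit 0) (XT.lf (nat_lit 0) (nat_lit 22477600671) (nat_lit 76) (nat_lit 55389753980) (nat_lit 76) (nat_lit 20588934741) (nat_lit 7) (nat_lit 4) (nat_lit 8) (nat_lit 5) (nat_lit 8) (nat_lit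 4) (nat_lit 349) (nat_lit 267) (nat_lit 164)) (XT.lf (nat_lit 0) (nat_lit 41873007256) (nat_lit 76) (nat_lit 47912308007) (nat_lit 76) (nat_lit 13100530683) (nat_lit 7) (nat_lit 4) (nat_lit 8) (nat_lit 5) (nat_lit 8) (nat_lit 4) (nat_lit 350) (nat_lit 267) (nat_lit 163))) (XT.nd (nat_lit 78) (nat_lit 76) (nat_lit 0) (XT.lf (nat_lit 0) (nat_lit 62227166551) (nat_lit 76) (nat_lit 40066112403) (nat_lit 76) (nat_lit 5243898806) (nat_lit 7) (nat_lit 4) (nat_lit 8) (nat_lit 5) (nat_lit 8) (nat_lit 4) (nat_lit 351) (nat_lit 267) (nat_lit 162)) (XT.nd (nat_lit 78) (nat_lit 0) (nat_lit 0) (XT.lf (nat_lit 0) (nat_lit 2903659072) (nat_lit 152) (nat_lit 28879651804) (nat_lit 76) (nat_lit 80635706896) (nat_lit 6) (nat_lit 5) (nat_lit 8) (nat_lit 5) (nat_lit 7) (nat_lit 4) (nat_lit 352) (nat_lit 267) (nat_lit 161)) (XT.lf (nat_lit 0) (nat_lit 11276928553) (nat_lit 152) (nat_lit 11723915375) (nat_lit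 76) (nat_lit 94540081743) (nat_lit 6) (nat_lit 5) (nat_lit 8) (nat_lit 5) (nat_lit 7) (nat_lit 4) (nat_lit 353) (nat_lit 267) (nat_lit 160))))))))
noncomputable def xc129 : XT := (XT.nd (nat_lit 1560) (nat_lit 0) (nat_lit 0) (XT.nd (nat_lit 780) (nat_lit 152) (nat_lit 0) (XT.nd (nat_lit 390) (nat_lit 76) (nat_lit 0) (XT.nd (nat_lit 156) (nat_lit 0) (nat_lit 0) (XT.nd (nat_lit 78) (nat_lit 0) (nat_lit 0) (XT.lf (nat_lit 0) (nat_lit 6487559442) (nat_lit 76) (nat_lit 13677413042) (nat_lit 152) (nat_lit 102749153138) (nat_lit 5) (nat_lit 5) (nat_lit 6) (nat_lit 5) (nat_lit 7) (nat_lit 4) (nat_lit 354) (nat_lit 267) (nat_lit 159)) (XT.lf (nat_lit 0) (nat_lit 26007101324) (nat_lit 76) (nat_lit 3683787175) (nat_lit 152) (nat_lit 98855425684) (nat_lit 5) (nat_lit 5) (nat_lit 6) (nat_lit 5) (nat_lit 7) (nat_lit 4) (nat_lit 355) (nat_lit 267) (nat_lit 158))) (XT.nd (nat_lit 78) (nat_lit 0) (nat_lit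 0) (XT.lf (nat_lit 0) (nat_lit 39794511396) (nat_lit 152) (nat_lit 88073065771) (nat_lit 0) (nat_lit 6587466451) (nat_lit 5) (nat_lit 5) (nat_lit 7) (nat_lit 4) (nat_lit 5) (nat_lit 4) (nat_lit 356) (nat_lit 267) (nat_lit 157)) (XT.nd (nat_lit 78) (nat_lit 0) (nat_lit 0) (XT.lf (nat_lit 0) (nat_lit 50459034335) (nat_lit 152) (nat_lit 72952818625) (nat_lit 0) (nat_lit 17244572527) (nat_lit 5) (nat_lit 5) (nat_lit 7) (nat_lit 4) (nat_lit 5) (nat_lit 4) (nat_lit 357) (nat_lit 267) (nat_lit 156)) (XT.lf (nat_lit 0) (nat_lit 61652334797) (nat_lit 152) (nat_lit 57084956591) (nat_lit 0) (nat_lit 28430809310) (nat_lit 5) (nat_lit 5) (nat_lit 7) (nat_lit 4) (nat_lit 5) (nat_lit 4) (nat_lit 358) (nat_lit 267) (nat_lit 155))))) (XT.nd (nat_lit 156) (nat_lit 76) (nat_lit 0) (XT.nd (nat_lit 78) (nat_lit 0) (nat_lit 0) (XT.lf (nat_lit 0) (nat_lit 73401063497) (nat_lit 152) (nat_lit 40431699046) (nat_lit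 0) (nat_lit 40172810696) (nat_lit 5) (nat_lit 5) (nat_lit 7) (nat_lit 4) (nat_lit 5) (nat_lit 4) (nat_lit 359) (nat_lit 267) (nat_lit 154)) (XT.lf (nat_lit 0) (nat_lit 85733193599) (nat_lit 152) (nat_lit 22953395375) (nat_lit 0) (nat_lit 52498533832) (nat_lit 5) (nat_lit 5) (nat_lit 7) (nat_lit 4) (nat_lit 5) (nat_lit 4) (nat_lit 360) (nat_lit 267) (nat_lit 153))) (XT.nd (nat_lit 78) (nat_lit 76) (nat_lit 0) (XT.lf (nat_lit 0) (nat_lit 98678087317) (nat_lit 152) (nat_lit 4608430571) (nat_lit 0) (nat_lit 65437325678) (nat_lit 5) (nat_lit 5) (nat_lit 7) (nat_lit 4) (nat_lit 5) (nat_lit 4) (nat_lit 361) (nat_lit 267) (nat_lit 152)) (XT.nd (nat_lit 78) (nat_lit 0) (nat_lit 0) (XT.lf (nat_lit 0) (nat_lit 15131165651) (nat_lit 76) (nat_lit 97371640076) (nat_lit 76) (nat_lit 64125067130) (nat_lit 4) (nat_lit 4) (nat_lit 5) (nat_lit 5) (nat_lit 5) (nat_lit 4) (nat_lit 362) (nat_lit 267) (nat_lit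 151)) (XT.lf (nat_lit 0) (nat_lit 36010938799) (nat_lit 76) (nat_lit 91082275524) (nat_lit 76) (nat_lit 57830168001) (nat_lit 4) (nat_lit 4) (nat_lit 5) (nat_lit 5) (nat_lit 5) (nat_lit 4) (nat_lit 363) (nat_lit 267) (nat_lit 150)))))) (XT.nd (nat_lit 390) (nat_lit 152) (nat_lit 0) (XT.nd (nat_lit 156) (nat_lit 0) (nat_lit 0) (XT.nd (nat_lit 78) (nat_lit 0) (nat_lit 0) (XT.lf (nat_lit 0) (nat_lit 57928227090) (nat_lit 76) (nat_lit 84481495556) (nat_lit 76) (nat_lit 51224117007) (nat_lit 4) (nat_lit 4) (nat_lit 5) (nat_lit 5) (nat_lit 5) (nat_lit 4) (nat_lit 364) (nat_lit 267) (nat_lit 149)) (XT.lf (nat_lit 0) (nat_lit 80935214544) (nat_lit 76) (nat_lit 77553584031) (nat_lit 76) (nat_lit 44291185456) (nat_lit 4) (nat_lit 4) (nat_lit 5) (nat_lit 5) (nat_lit 5) (nat_lit 4) (nat_lit 365) (nat_lit 267) (nat_lit 148))) (XT.nd (nat_lit 78) (nat_lit 0) (nat_lit 0) (XT.lf (nat_lit 0) (nat_lit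 105086679704) (nat_lit 76) (nat_lit 70282045919) (nat_lit 76) (nat_lit 37014866368) (nat_lit 4) (nat_lit 4) (nat_lit 5) (nat_lit 5) (nat_lit 5) (nat_lit 4) (nat_lit 366) (nat_lit 267) (nat_lit 147)) (XT.nd (nat_lit 78) (nat_lit 0) (nat_lit 0) (XT.lf (nat_lit 0) (nat_lit 130440126056) (nat_lit 76) (nat_lit 62649568036) (nat_lit 76) (nat_lit 29377835174) (nat_lit 4) (nat_lit 4) (nat_lit 5) (nat_lit 5) (nat_lit 5) (nat_lit 4) (nat_lit 367) (nat_lit 267) (nat_lit 146)) (XT.lf (nat_lit 0) (nat_lit 157055918951) (nat_lit 76) (nat_lit 54637977815) (nat_lit 76) (nat_lit 21361908467) (nat_lit 4) (nat_lit 4) (nat_lit 5) (nat_lit 5) (nat_lit 5) (nat_lit 4) (nat_lit 368) (nat_lit 267) (nat_lit 145))))) (XT.nd (nat_lit 156) (nat_lit 152) (nat_lit 0) (XT.nd (nat_lit 78) (nat_lit 0) (nat_lit 0) (XT.lf (nat_lit 0) (nat_lit 184997429323) (nat_lit 76) (nat_lit 46228200041) (nat_lit 76) (nat_lit 12948000705)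 (nat_lit 4) (nat_lit 4) (nat_lit 5) (nat_lit 5) (nat_lit 5) (nat_lit 4) (nat_lit 369) (nat_lit 267) (nat_lit 144)) (XT.lf (nat_lit 0) (nat_lit 214331184578) (nat_lit 76) (nat_lit 37400211434) (nat_lit 76) (nat_lit 4116078777) (nat_lit 4) (nat_lit 4) (nat_lit 5) (nat_lit 5) (nat_lit 5) (nat_lit 4) (nat_lit 370) (nat_lit 267) (nat_lit 143))) (XT.nd (nat_lit 78) (nat_lit 76) (nat_lit 0) (XT.lf (nat_lit 0) (nat_lit 4989897168) (nat_lit 152) (nat_lit 23058589481) (nat_lit 76) (nat_lit 240052623498) (nat_lit 3) (nat_lit 5) (nat_lit 5) (nat_lit 5) (nat_lit 4) (nat_lit 4) (nat_lit 371) (nat_lit 267) (nat_lit 142)) (XT.nd (nat_lit 78) (nat_lit 76) (nat_lit 0) (XT.lf (nat_lit 0) (nat_lit 14410490564) (nat_lit 152) (nat_lit 3749940656) (nat_lit 76) (nat_lit 262803740798) (nat_lit 3) (nat_lit 5) (nat_lit 5) (nat_lit 5) (nat_lit 4) (nat_lit 4) (nat_lit 372) (nat_lit 267) (nat_lit 141)) (XT.lf (nat_lit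 0) (nat_lit 17066115022) (nat_lit 76) (nat_lit 7500206484) (nat_lit 152) (nat_lit 269890855917) (nat_lit 2) (nat_lit 5) (nat_lit 3) (nat_lit 5) (nat_lit 4) (nat_lit 4) (nat_lit 373) (nat_lit 267) (nat_lit 140))))))) (XT.nd (nat_lit 780) (nat_lit 0) (nat_lit 0) (XT.nd (nat_lit 390) (nat_lit 0) (nat_lit 0) (XT.nd (nat_lit 156) (nat_lit 0) (nat_lit 0) (XT.nd (nat_lit 78) (nat_lit 0) (nat_lit 0) (XT.lf (nat_lit 0) (nat_lit 35349919301) (nat_lit 152) (nat_lit 269631453682) (nat_lit 0) (nat_lit 3637462140) (nat_lit 2) (nat_lit 5) (nat_lit 4) (nat_lit 4) (nat_lit 2) (nat_lit 4) (nat_lit 374) (nat_lit 267) (nat_lit 139)) (XT.lf (nat_lit 0) (nat_lit 46793526054) (nat_lit 152) (nat_lit 261610875166) (nat_lit 0) (nat_lit 15078133789) (nat_lit 2) (nat_lit 5) (nat_lit 4) (nat_lit 4) (nat_lit 2) (nat_lit 4) (nat_lit 375) (nat_lit 267) (nat_lit 138))) (XT.nd (nat_lit 78) (nat_lit 0) (nat_lit 0) (XT.lf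 (nat_lit 0) (nat_lit 58807289207) (nat_lit 152) (nat_lit 253193130996) (nat_lit 0) (nat_lit 27089101604) (nat_lit 2) (nat_lit 5) (nat_lit 4) (nat_lit 4) (nat_lit 2) (nat_lit 4) (nat_lit 376) (nat_lit 267) (nat_lit 137)) (XT.nd (nat_lit 78) (nat_lit 0) (nat_lit 0) (XT.lf (nat_lit 0) (nat_lit 71419812956) (nat_lit 152) (nat_lit 244358178923) (nat_lit 0) (nat_lit 39698963127) (nat_lit 2) (nat_lit 5) (nat_lit 4) (nat_lit 4) (nat_lit 2) (nat_lit 4) (nat_lit 377) (nat_lit 267) (nat_lit 136)) (XT.lf (nat_lit 0) (nat_lit 84661127121) (nat_lit 152) (nat_lit 235084983348) (nat_lit 0) (nat_lit 52937741838) (nat_lit 2) (nat_lit 5) (nat_lit 4) (nat_lit 4) (nat_lit 2) (nat_lit 4) (nat_lit 378) (nat_lit 267) (nat_lit 135))))) (XT.nd (nat_lit 156) (nat_lit 0) (nat_lit 0) (XT.nd (nat_lit 78) (nat_lit 0) (nat_lit 0) (XT.lf (nat_lit 0) (nat_lit 98562758640) (nat_lit 152) (nat_lit 225351465232) (nat_lit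 0) (nat_lit 66836958639) (nat_lit 2) (nat_lit 5) (nat_lit 4) (nat_lit 4) (nat_lit 2) (nat_lit 4) (nat_lit 379) (nat_lit 267) (nat_lit 134)) (XT.lf (nat_lit 0) (nat_lit 113157806636) (nat_lit 152) (nat_lit 215134449533) (nat_lit 0) (nat_lit 81429706903) (nat_lit 2) (nat_lit 5) (nat_lit 4) (nat_lit 4) (nat_lit 2) (nat_lit 4) (nat_lit 380) (nat_lit 267) (nat_lit 133))) (XT.nd (nat_lit 78) (nat_lit 0) (nat_lit 0) (XT.lf (nat_lit 0) (nat_lit 128481021222) (nat_lit 152) (nat_lit 204409610023) (nat_lit 0) (nat_lit 96750731269) (nat_lit 2) (nat_lit 5) (nat_lit 4) (nat_lit 4) (nat_lit 2) (nat_lit 4) (nat_lit 381) (nat_lit 267) (nat_lit 132)) (XT.nd (nat_lit 78) (nat_lit 0) (nat_lit 0) (XT.lf (nat_lit 0) (nat_lit 144568886243) (nat_lit 152) (nat_lit 193151411370) (nat_lit 0) (nat_lit 112836510366) (nat_lit 2) (nat_lit 5) (nat_lit 4) (nat_lit 4) (nat_lit 2) (nat_lit 4) (nat_lit 382) (nat_lit 267)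 (nat_lit 131)) (XT.lf (nat_lit 0) (nat_lit 161459706140) (nat_lit 152) (nat_lit 181333048340) (nat_lit 0) (nat_lit 129725343669) (nat_lit 2) (nat_lit 5) (nat_lit 4) (nat_lit 4) (nat_lit 2) (nat_lit 4) (nat_lit 383) (nat_lit 267) (nat_lit 130)))))) (XT.nd (nat_lit 31746) (nat_lit 0) (nat_lit 8132) (XT.nd (nat_lit 156) (nat_lit 0) (nat_lit 0) (XT.nd (nat_lit 78) (nat_lit 0) (nat_lit 0) (XT.lf (nat_lit 0) (nat_lit 179193697151) (nat_lit 152) (nat_lit 168926381971) (nat_lit 0) (nat_lit 147457442684) (nat_lit 2) (nat_lit 5) (nat_lit 4) (nat_lit 4) (nat_lit 2) (nat_lit 4) (nat_lit 384) (nat_lit 267) (nat_lit 129)) (XT.lf (nat_lit 0) (nat_lit 197813083063) (nat_lit 152) (nat_lit 155901872583) (nat_lit 0) (nat_lit 166075026697) (nat_lit 2) (nat_lit 5) (nat_lit 4) (nat_lit 4) (nat_lit 2) (nat_lit 4) (nat_lit 385) (nat_lit 267) (nat_lit 128))) (XT.nd (nat_lit 31434) (nat_lit 0) (nat_lit 8588)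 (XT.lf (nat_lit 0) (nat_lit 217362195748) (nat_lit 152) (nat_lit 142228509439) (nat_lit 0) (nat_lit 185622423287) (nat_lit 2) (nat_lit 5) (nat_lit 4) (nat_lit 4) (nat_lit 2) (nat_lit 4) (nat_lit 386) (nat_lit 267) (nat_lit 127)) (XT.nd (nat_lit 78) (nat_lit 0) (nat_lit 0) (XT.lf (nat_lit 0) (nat_lit 1409589995) (nat_lit 532) (nat_lit 1094435557) (nat_lit 532) (nat_lit 1094435557) (nat_lit 115) (nat_lit 3) (nat_lit 122) (nat_lit 3) (nat_lit 122) (nat_lit 5) (nat_lit 268) (nat_lit 268) (nat_lit 244)) (XT.lf (nat_lit 76) (nat_lit 1164047896) (nat_lit 0) (nat_lit 3280088623) (nat_lit 532) (nat_lit 2851066556) (nat_lit 116) (nat_lit 5) (nat_lit 115) (nat_lit 3) (nat_lit 122) (nat_lit 5) (nat_lit 269) (nat_lit 268) (nat_lit 243))))) (XT.nd (nat_lit 156) (nat_lit 0) (nat_lit 0) (XT.nd (nat_lit 78) (nat_lit 456) (nat_lit 0) (XT.lf (nat_lit 76) (nat_lit 4707138992) (nat_lit 0) (nat_lit 1381094132)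 (nat_lit 532) (nat_lit 1313521059) (nat_lit 116) (nat_lit 5) (nat_lit 115) (nat_lit 3) (nat_lit 122) (nat_lit 5) (nat_lit 270) (nat_lit 268) (nat_lit 242)) (XT.lf (nat_lit 0) (nat_lit 219348130) (nat_lit 532) (nat_lit 6645288479) (nat_lit 608) (nat_lit 652584988) (nat_lit 109) (nat_lit 5) (nat_lit 116) (nat_lit 5) (nat_lit 117) (nat_lit 5) (nat_lit 271) (nat_lit 268) (nat_lit 241))) (XT.nd (nat_lit 78) (nat_lit 0) (nat_lit 0) (XT.lf (nat_lit 0) (nat_lit 1761864618) (nat_lit 532) (nat_lit 3029647029) (nat_lit 608) (nat_lit 2847233411) (nat_lit 109) (nat_lit 5) (nat_lit 116) (nat_lit 5) (nat_lit 117) (nat_lit 5) (nat_lit 272) (nat_lit 268) (nat_lit 240)) (XT.nd (nat_lit 78) (nat_lit 0) (nat_lit 0) (XT.lf (nat_lit 76) (nat_lit 734175601) (nat_lit 0) (nat_lit 2571292105) (nat_lit 608) (nat_lit 4464885299) (nat_lit 110) (nat_lit 5) (nat_lit 109) (nat_lit 5) (nat_lit 117) (nat_lit 5) (nat_lit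 273) (nat_lit 268) (nat_lit 239)) (XT.lf (nat_lit 76) (nat_lit 4736177596) (nat_lit 0) (nat_lit 157185144) (nat_lit 608) (nat_lit 3017019548) (nat_lit 110) (nat_lit 5) (nat_lit 109) (nat_lit 5) (nat_lit 117) (nat_lit 5) (nat_lit 274) (nat_lit 268) (nat_lit 238))))))))
noncomputable def xc130 : XT := (XT.nd (nat_lit 1560) (nat_lit 1976) (nat_lit 0) (XT.nd (nat_lit 780) (nat_lit 1976) (nat_lit 0) (XT.nd (nat_lit 390) (nat_lit 1292) (nat_lit 0) (XT.nd (nat_lit 156) (nat_lit 532) (nat_lit 0) (XT.nd (nat_lit 78) (nat_lit 608) (nat_lit 0) (XT.lf (nat_lit 76) (nat_lit 812558419) (nat_lit 0) (nat_lit 5718145713) (nat_lit 608) (nat_lit 1528393491) (nat_lit 111) (nat_lit 5) (nat_lit 110) (nat_lit 5) (nat_lit 118) (nat_lit 5) (nat_lit 275) (nat_lit 268) (nat_lit 237)) (XT.lf (nat_lit 0) (nat_lit 12500220) (nat_lit 608) (nat_lit 3166728216) (nat_lit 684) (nat_lit 5037215704) (nat_lit 102) (nat_lit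 5) (nat_lit 110) (nat_lit 5) (nat_lit 111) (nat_lit 5) (nat_lit 276) (nat_lit 268) (nat_lit 236))) (XT.nd (nat_lit 78) (nat_lit 532) (nat_lit 0) (XT.lf (nat_lit 76) (nat_lit 1070047838) (nat_lit 0) (nat_lit 451191332) (nat_lit 684) (nat_lit 6862219486) (nat_lit 103) (nat_lit 5) (nat_lit 102) (nat_lit 5) (nat_lit 111) (nat_lit 5) (nat_lit 277) (nat_lit 268) (nat_lit 235)) (XT.nd (nat_lit 78) (nat_lit 608) (nat_lit 0) (XT.lf (nat_lit 0) (nat_lit 3126004386) (nat_lit 608) (nat_lit 3025411188) (nat_lit 76) (nat_lit 2406532841) (nat_lit 103) (nat_lit 5) (nat_lit 111) (nat_lit 5) (nat_lit 104) (nat_lit 5) (nat_lit 278) (nat_lit 268) (nat_lit 234)) (XT.lf (nat_lit 0) (nat_lit 1459823501) (nat_lit 608) (nat_lit 3313184783) (nat_lit 684) (nat_lit 3970201007) (nat_lit 95) (nat_lit 5) (nat_lit 103) (nat_lit 5) (nat_lit 104) (nat_lit 5) (nat_lit 279) (nat_lit 268) (nat_lit 233))))) (XT.nd (nat_lit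 156) (nat_lit 608) (nat_lit 0) (XT.nd (nat_lit 78) (nat_lit 684) (nat_lit 0) (XT.lf (nat_lit 0) (nat_lit 6218774717) (nat_lit 608) (nat_lit 269015654) (nat_lit 684) (nat_lit 2450811110) (nat_lit 95) (nat_lit 5) (nat_lit 103) (nat_lit 5) (nat_lit 104) (nat_lit 5) (nat_lit 280) (nat_lit 268) (nat_lit 232)) (XT.lf (nat_lit 0) (nat_lit 2034985318) (nat_lit 684) (nat_lit 6268279420) (nat_lit 760) (nat_lit 839883899) (nat_lit 86) (nat_lit 5) (nat_lit 95) (nat_lit 5) (nat_lit 96) (nat_lit 5) (nat_lit 281) (nat_lit 268) (nat_lit 231))) (XT.nd (nat_lit 78) (nat_lit 532) (nat_lit 0) (XT.lf (nat_lit 0) (nat_lit 814035966) (nat_lit 760) (nat_lit 2309715543) (nat_lit 76) (nat_lit 6234142382) (nat_lit 85) (nat_lit 5) (nat_lit 95) (nat_lit 5) (nat_lit 86) (nat_lit 5) (nat_lit 282) (nat_lit 268) (nat_lit 230)) (XT.nd (nat_lit 78) (nat_lit 0) (nat_lit 0) (XT.lf (nat_lit 0) (nat_lit 2510501905) (nat_lit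 608) (nat_lit 6839371353) (nat_lit 76) (nat_lit 233525844) (nat_lit 78) (nat_lit 5) (nat_lit 86) (nat_lit 5) (nat_lit 79) (nat_lit 5) (nat_lit 283) (nat_lit 268) (nat_lit 229)) (XT.lf (nat_lit 0) (nat_lit 4326152361) (nat_lit 608) (nat_lit 1796382539) (nat_lit 76) (nat_lit 3696036044) (nat_lit 78) (nat_lit 5) (nat_lit 86) (nat_lit 5) (nat_lit 79) (nat_lit 5) (nat_lit 284) (nat_lit 268) (nat_lit 228)))))) (XT.nd (nat_lit 390) (nat_lit 912) (nat_lit 0) (XT.nd (nat_lit 156) (nat_lit 684) (nat_lit 0) (XT.nd (nat_lit 78) (nat_lit 0) (nat_lit 0) (XT.lf (nat_lit 0) (nat_lit 3558404204) (nat_lit 380) (nat_lit 2675828064) (nat_lit 456) (nat_lit 3831290986) (nat_lit 73) (nat_lit 5) (nat_lit 78) (nat_lit 5) (nat_lit 79) (nat_lit 5) (nat_lit 285) (nat_lit 268) (nat_lit 227)) (XT.lf (nat_lit 0) (nat_lit 8231169293) (nat_lit 456) (nat_lit 1151287592) (nat_lit 76) (nat_lit 942792898) (nat_lit 73) (nat_lit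 5) (nat_lit 79) (nat_lit 5) (nat_lit 74) (nat_lit 5) (nat_lit 286) (nat_lit 268) (nat_lit 226))) (XT.nd (nat_lit 78) (nat_lit 380) (nat_lit 0) (XT.lf (nat_lit 0) (nat_lit 4519741526) (nat_lit 304) (nat_lit 5872934524) (nat_lit 380) (nat_lit 202144976) (nat_lit 69) (nat_lit 5) (nat_lit 73) (nat_lit 5) (nat_lit 74) (nat_lit 5) (nat_lit 287) (nat_lit 268) (nat_lit 225)) (XT.nd (nat_lit 78) (nat_lit 304) (nat_lit 0) (XT.lf (nat_lit 0) (nat_lit 1698054350) (nat_lit 380) (nat_lit 445016590) (nat_lit 76) (nat_lit 8734953743) (nat_lit 68) (nat_lit 5) (nat_lit 73) (nat_lit 5) (nat_lit 69) (nat_lit 5) (nat_lit 288) (nat_lit 268) (nat_lit 224)) (XT.lf (nat_lit 0) (nat_lit 3756144286) (nat_lit 380) (nat_lit 5611853730) (nat_lit 76) (nat_lit 1803822774) (nat_lit 64) (nat_lit 5) (nat_lit 69) (nat_lit 5) (nat_lit 65) (nat_lit 5) (nat_lit 289) (nat_lit 268) (nat_lit 223))))) (XT.nd (nat_lit 156) (nat_lit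 608) (nat_lit 0) (XT.nd (nat_lit 78) (nat_lit 0) (nat_lit 0) (XT.lf (nat_lit 0) (nat_lit 322720078) (nat_lit 304) (nat_lit 5596890124) (nat_lit 380) (nat_lit 5560650698) (nat_lit 60) (nat_lit 5) (nat_lit 64) (nat_lit 5) (nat_lit 65) (nat_lit 5) (nat_lit 290) (nat_lit 268) (nat_lit 222)) (XT.lf (nat_lit 0) (nat_lit 6696636374) (nat_lit 304) (nat_lit 1545637707) (nat_lit 380) (nat_lit 3559371768) (nat_lit 60) (nat_lit 5) (nat_lit 64) (nat_lit 5) (nat_lit 65) (nat_lit 5) (nat_lit 291) (nat_lit 268) (nat_lit 221))) (XT.nd (nat_lit 78) (nat_lit 304) (nat_lit 0) (XT.lf (nat_lit 0) (nat_lit 1194316706) (nat_lit 304) (nat_lit 9505642507) (nat_lit 380) (nat_lit 1438266974) (nat_lit 56) (nat_lit 5) (nat_lit 60) (nat_lit 5) (nat_lit 61) (nat_lit 5) (nat_lit 292) (nat_lit 268) (nat_lit 220)) (XT.nd (nat_lit 78) (nat_lit 228) (nat_lit 0) (XT.lf (nat_lit 0) (nat_lit 835286362) (nat_lit 380) (nat_lit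 4592920048) (nat_lit 76) (nat_lit 7059295132) (nat_lit 55) (nat_lit 5) (nat_lit 60) (nat_lit 5) (nat_lit 56) (nat_lit 5) (nat_lit 293) (nat_lit 268) (nat_lit 219)) (XT.lf (nat_lit 0) (nat_lit 2068356822) (nat_lit 228) (nat_lit 1098529018) (nat_lit 304) (nat_lit 9686601670) (nat_lit 52) (nat_lit 5) (nat_lit 55) (nat_lit 5) (nat_lit 56) (nat_lit 5) (nat_lit 294) (nat_lit 268) (nat_lit 218))))))) (XT.nd (nat_lit 780) (nat_lit 760) (nat_lit 0) (XT.nd (nat_lit 390) (nat_lit 684) (nat_lit 0) (XT.nd (nat_lit 156) (nat_lit 304) (nat_lit 0) (XT.nd (nat_lit 78) (nat_lit 228) (nat_lit 0) (XT.lf (nat_lit 0) (nat_lit 5709315069) (nat_lit 304) (nat_lit 4117728143) (nat_lit 76) (nat_lit 3406075111) (nat_lit 52) (nat_lit 5) (nat_lit 56) (nat_lit 5) (nat_lit 53) (nat_lit 5) (nat_lit 295) (nat_lit 268) (nat_lit 217)) (XT.lf (nat_lit 0) (nat_lit 2909692234) (nat_lit 228) (nat_lit 5495814565) (nat_lit 304)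 (nat_lit 5224947096) (nat_lit 49) (nat_lit 5) (nat_lit 52) (nat_lit 5) (nat_lit 53) (nat_lit 5) (nat_lit 296) (nat_lit 268) (nat_lit 216))) (XT.nd (nat_lit 78) (nat_lit 304) (nat_lit 0) (XT.lf (nat_lit 0) (nat_lit 10383751714) (nat_lit 228) (nat_lit 886703658) (nat_lit 304) (nat_lit 2775556152) (nat_lit 49) (nat_lit 5) (nat_lit 52) (nat_lit 5) (nat_lit 53) (nat_lit 5) (nat_lit 297) (nat_lit 268) (nat_lit 215)) (XT.nd (nat_lit 78) (nat_lit 76) (nat_lit 0) (XT.lf (nat_lit 0) (nat_lit 3760825204) (nat_lit 228) (nat_lit 10603997235) (nat_lit 304) (nat_lit 113266173) (nat_lit 46) (nat_lit 5) (nat_lit 49) (nat_lit 5) (nat_lit 50) (nat_lit 5) (nat_lit 298) (nat_lit 268) (nat_lit 214)) (XT.lf (nat_lit 0) (nat_lit 2639923539) (nat_lit 304) (nat_lit 3351293546) (nat_lit 76) (nat_lit 8936322637) (nat_lit 45) (nat_lit 5) (nat_lit 49) (nat_lit 5) (nat_lit 46) (nat_lit 5) (nat_lit 299) (nat_lit 268)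 (nat_lit 213))))) (XT.nd (nat_lit 156) (nat_lit 456) (nat_lit 0) (XT.nd (nat_lit 78) (nat_lit 0) (nat_lit 0) (XT.lf (nat_lit 0) (nat_lit 4479335770) (nat_lit 228) (nat_lit 1085237262) (nat_lit 304) (nat_lit 9832960482) (nat_lit 42) (nat_lit 5) (nat_lit 45) (nat_lit 5) (nat_lit 46) (nat_lit 5) (nat_lit 300) (nat_lit 268) (nat_lit 212)) (XT.lf (nat_lit 0) (nat_lit 8724939202) (nat_lit 304) (nat_lit 3180590116) (nat_lit 76) (nat_lit 3981064711) (nat_lit 42) (nat_lit 5) (nat_lit 46) (nat_lit 5) (nat_lit 43) (nat_lit 5) (nat_lit 301) (nat_lit 268) (nat_lit 211))) (XT.nd (nat_lit 78) (nat_lit 304) (nat_lit 0) (XT.lf (nat_lit 0) (nat_lit 5043891646) (nat_lit 152) (nat_lit 7065796568) (nat_lit 228) (nat_lit 4287140409) (nat_lit 40) (nat_lit 5) (nat_lit 42) (nat_lit 5) (nat_lit 43) (nat_lit 5) (nat_lit 302) (nat_lit 268) (nat_lit 210)) (XT.nd (nat_lit 78) (nat_lit 304) (nat_lit 0) (XT.lf (nat_lit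 0) (nat_lit 13747072956) (nat_lit 152) (nat_lit 1941057427) (nat_lit 228) (nat_lit 1243259189) (nat_lit 40) (nat_lit 5) (nat_lit 42) (nat_lit 5) (nat_lit 43) (nat_lit 5) (nat_lit 303) (nat_lit 268) (nat_lit 209)) (XT.lf (nat_lit 0) (nat_lit 2003028324) (nat_lit 304) (nat_lit 12047444543) (nat_lit 76) (nat_lit 3435079459) (nat_lit 36) (nat_lit 5) (nat_lit 40) (nat_lit 5) (nat_lit 37) (nat_lit 5) (nat_lit 304) (nat_lit 268) (nat_lit 208)))))) (XT.nd (nat_lit 390) (nat_lit 380) (nat_lit 0) (XT.nd (nat_lit 156) (nat_lit 228) (nat_lit 0) (XT.nd (nat_lit 78) (nat_lit 152) (nat_lit 0) (XT.lf (nat_lit 0) (nat_lit 5428483348) (nat_lit 304) (nat_lit 3558022620) (nat_lit 76) (nat_lit 9076998761) (nat_lit 36) (nat_lit 5) (nat_lit 40) (nat_lit 5) (nat_lit 37) (nat_lit 5) (nat_lit 305) (nat_lit 268) (nat_lit 207)) (XT.lf (nat_lit 0) (nat_lit 5491228273) (nat_lit 152) (nat_lit 3593051717) (nat_lit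 228) (nat_lit 9583152096) (nat_lit 34) (nat_lit 5) (nat_lit 36) (nat_lit 5) (nat_lit 37) (nat_lit 5) (nat_lit 306) (nat_lit 268) (nat_lit 206))) (XT.nd (nat_lit 78) (nat_lit 228) (nat_lit 0) (XT.lf (nat_lit 0) (nat_lit 12990201077) (nat_lit 228) (nat_lit 4256242153) (nat_lit 76) (nat_lit 2051775162) (nat_lit 34) (nat_lit 5) (nat_lit 37) (nat_lit 5) (nat_lit 35) (nat_lit 5) (nat_lit 307) (nat_lit 268) (nat_lit 205)) (XT.nd (nat_lit 78) (nat_lit 76) (nat_lit 0) (XT.lf (nat_lit 0) (nat_lit 5177616977) (nat_lit 152) (nat_lit 12028560157) (nat_lit 228) (nat_lit 2748656849) (nat_lit 32) (nat_lit 5) (nat_lit 34) (nat_lit 5) (nat_lit 35) (nat_lit 5) (nat_lit 308) (nat_lit 268) (nat_lit 204)) (XT.lf (nat_lit 0) (nat_lit 1005476719) (nat_lit 228) (nat_lit 5465490049) (nat_lit 76) (nat_lit 14170144673) (nat_lit 31) (nat_lit 5) (nat_lit 34) (nat_lit 5) (nat_lit 32) (nat_lit 5) (nat_lit 309) (nat_lit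 268) (nat_lit 203))))) (XT.nd (nat_lit 156) (nat_lit 228) (nat_lit 0) (XT.nd (nat_lit 78) (nat_lit 0) (nat_lit 0) (XT.lf (nat_lit 0) (nat_lit 4369340585) (nat_lit 152) (nat_lit 530188338) (nat_lit 228) (nat_lit 16457715722) (nat_lit 29) (nat_lit 5) (nat_lit 31) (nat_lit 5) (nat_lit 32) (nat_lit 5) (nat_lit 310) (nat_lit 268) (nat_lit 202)) (XT.lf (nat_lit 0) (nat_lit 9148181872) (nat_lit 228) (nat_lit 7347156336) (nat_lit 76) (nat_lit 5605874362) (nat_lit 29) (nat_lit 5) (nat_lit 32) (nat_lit 5) (nat_lit 30) (nat_lit 5) (nat_lit 311) (nat_lit 268) (nat_lit 201))) (XT.nd (nat_lit 78) (nat_lit 76) (nat_lit 0) (XT.lf (nat_lit 0) (nat_lit 2821398965) (nat_lit 152) (nat_lit 10818427145) (nat_lit 228) (nat_lit 9241046722) (nat_lit 27) (nat_lit 5) (nat_lit 29) (nat_lit 5) (nat_lit 30) (nat_lit 5) (nat_lit 312) (nat_lit 268) (nat_lit 200)) (XT.nd (nat_lit 78) (nat_lit 76) (nat_lit 0) (XT.lf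 (nat_lit 0) (nat_lit 13718196199) (nat_lit 152) (nat_lit 4740606877) (nat_lit 228) (nat_lit 5235596335) (nat_lit 27) (nat_lit 5) (nat_lit 29) (nat_lit 5) (nat_lit 30) (nat_lit 5) (nat_lit 313) (nat_lit 268) (nat_lit 199)) (XT.lf (nat_lit 0) (nat_lit 569399659) (nat_lit 76) (nat_lit 22962994502) (nat_lit 152) (nat_lit 1015544734) (nat_lit 26) (nat_lit 5) (nat_lit 27) (nat_lit 5) (nat_lit 28) (nat_lit 4) (nat_lit 314) (nat_lit 268) (nat_lit 198))))))))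
noncomputable def xc131 : XT := (XT.nd (nat_lit 1560) (nat_lit 532) (nat_lit 0) (XT.nd (nat_lit 780) (nat_lit 456) (nat_lit 0) (XT.nd (nat_lit 390) (nat_lit 304) (nat_lit 0) (XT.nd (nat_lit 156) (nat_lit 228) (nat_lit 0) (XT.nd (nat_lit 78) (nat_lit 0) (nat_lit 0) (XT.lf (nat_lit 0) (nat_lit 3534892657) (nat_lit 152) (nat_lit 13615465732) (nat_lit 76) (nat_lit 8279713634) (nat_lit 25) (nat_lit 5) (nat_lit 27) (nat_lit 5) (nat_lit 26) (nat_lit 5) (nat_lit 315) (nat_lit 268) (nat_lit 197)) (XT.lf (nat_lit 0) (nat_lit 8258974810) (nat_lit 152) (nat_lit 2783821730) (nat_lit 76) (nat_lit 15313687398) (nat_lit 25) (nat_lit 5) (nat_lit 27) (nat_lit 5) (nat_lit 26) (nat_lit 5) (nat_lit 316) (nat_lit 268) (nat_lit 196))) (XT.nd (nat_lit 78) (nat_lit 76) (nat_lit 0) (XT.lf (nat_lit 0) (nat_lit 8841005278) (nat_lit 152) (nat_lit 4497480903) (nat_lit 228) (nat_lit 13984785335) (nat_lit 23) (nat_lit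 5) (nat_lit 25) (nat_lit 5) (nat_lit 26) (nat_lit 5) (nat_lit 317) (nat_lit 268) (nat_lit 195)) (XT.nd (nat_lit 78) (nat_lit 76) (nat_lit 0) (XT.lf (nat_lit 0) (nat_lit 18738384726) (nat_lit 228) (nat_lit 7261775678) (nat_lit 76) (nat_lit 2334933031) (nat_lit 23) (nat_lit 5) (nat_lit 26) (nat_lit 5) (nat_lit 24) (nat_lit 4) (nat_lit 318) (nat_lit 268) (nat_lit 194)) (XT.lf (nat_lit 0) (nat_lit 4561923822) (nat_lit 76) (nat_lit 19973604547) (nat_lit 152) (nat_lit 4855630379) (nat_lit 22) (nat_lit 5) (nat_lit 23) (nat_lit 5) (nat_lit 24) (nat_lit 4) (nat_lit 319) (nat_lit 268) (nat_lit 193))))) (XT.nd (nat_lit 156) (nat_lit 228) (nat_lit 0) (XT.nd (nat_lit 78) (nat_lit 0) (nat_lit 0) (XT.lf (nat_lit 0) (nat_lit 225958463) (nat_lit 152) (nat_lit 13299093234) (nat_lit 76) (nat_lit 16969524556) (nat_lit 21) (nat_lit 5) (nat_lit 23) (nat_lit 5) (nat_lit 22) (nat_lit 5) (nat_lit 320) (nat_lit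 268) (nat_lit 192)) (XT.lf (nat_lit 0) (nat_lit 5381664435) (nat_lit 152) (nat_lit 1300813578) (nat_lit 76) (nat_lit 24967558449) (nat_lit 21) (nat_lit 5) (nat_lit 23) (nat_lit 5) (nat_lit 22) (nat_lit 5) (nat_lit 321) (nat_lit 268) (nat_lit 191))) (XT.nd (nat_lit 78) (nat_lit 76) (nat_lit 0) (XT.lf (nat_lit 0) (nat_lit 10971590200) (nat_lit 228) (nat_lit 21223017207) (nat_lit 76) (nat_lit 659852728) (nat_lit 19) (nat_lit 5) (nat_lit 22) (nat_lit 5) (nat_lit 20) (nat_lit 4) (nat_lit 322) (nat_lit 268) (nat_lit 190)) (XT.nd (nat_lit 78) (nat_lit 76) (nat_lit 0) (XT.lf (nat_lit 0) (nat_lit 16957133473) (nat_lit 228) (nat_lit 9000013711) (nat_lit 76) (nat_lit 8156163347) (nat_lit 19) (nat_lit 5) (nat_lit 22) (nat_lit 5) (nat_lit 20) (nat_lit 4) (nat_lit 323) (nat_lit 268) (nat_lit 189)) (XT.lf (nat_lit 0) (nat_lit 3933784863) (nat_lit 76) (nat_lit 19354521068) (nat_lit 152) (nat_lit 12144490962)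 (nat_lit 18) (nat_lit 5) (nat_lit 19) (nat_lit 5) (nat_lit 20) (nat_lit 4) (nat_lit 324) (nat_lit 268) (nat_lit 188)))))) (XT.nd (nat_lit 390) (nat_lit 228) (nat_lit 0) (XT.nd (nat_lit 156) (nat_lit 228) (nat_lit 0) (XT.nd (nat_lit 78) (nat_lit 0) (nat_lit 0) (XT.lf (nat_lit 0) (nat_lit 17800896302) (nat_lit 76) (nat_lit 12272808921) (nat_lit 152) (nat_lit 6737679460) (nat_lit 18) (nat_lit 5) (nat_lit 19) (nat_lit 5) (nat_lit 20) (nat_lit 4) (nat_lit 325) (nat_lit 268) (nat_lit 187)) (XT.lf (nat_lit 0) (nat_lit 32336756439) (nat_lit 76) (nat_lit 4847569111) (nat_lit 152) (nat_lit 1075288780) (nat_lit 18) (nat_lit 5) (nat_lit 19) (nat_lit 5) (nat_lit 20) (nat_lit 4) (nat_lit 326) (nat_lit 268) (nat_lit 186))) (XT.nd (nat_lit 78) (nat_lit 0) (nat_lit 0) (XT.lf (nat_lit 0) (nat_lit 4874407080) (nat_lit 228) (nat_lit 31845631489) (nat_lit 76) (nat_lit 3048420931) (nat_lit 15) (nat_lit 5)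 (nat_lit 18) (nat_lit 5) (nat_lit 16) (nat_lit 4) (nat_lit 327) (nat_lit 268) (nat_lit 185)) (XT.nd (nat_lit 78) (nat_lit 0) (nat_lit 0) (XT.lf (nat_lit 0) (nat_lit 11253383674) (nat_lit 228) (nat_lit 18804070392) (nat_lit 76) (nat_lit 11286023500) (nat_lit 15) (nat_lit 5) (nat_lit 18) (nat_lit 5) (nat_lit 16) (nat_lit 4) (nat_lit 328) (nat_lit 268) (nat_lit 184)) (XT.lf (nat_lit 0) (nat_lit 17938464826) (nat_lit 228) (nat_lit 5133312050) (nat_lit 76) (nat_lit 19926120116) (nat_lit 15) (nat_lit 5) (nat_lit 18) (nat_lit 5) (nat_lit 16) (nat_lit 4) (nat_lit 329) (nat_lit 268) (nat_lit 183))))) (XT.nd (nat_lit 156) (nat_lit 152) (nat_lit 0) (XT.nd (nat_lit 78) (nat_lit 0) (nat_lit 0) (XT.lf (nat_lit 0) (nat_lit 9503359825) (nat_lit 76) (nat_lit 15590581651) (nat_lit 152) (nat_lit 19634296692) (nat_lit 14) (nat_lit 5) (nat_lit 15) (nat_lit 5) (nat_lit 16) (nat_lit 4) (nat_lit 330) (nat_lit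 268) (nat_lit 182)) (XT.lf (nat_lit 0) (nat_lit 25028642521) (nat_lit 76) (nat_lit 7653499692) (nat_lit 152) (nat_lit 13859214154) (nat_lit 14) (nat_lit 5) (nat_lit 15) (nat_lit 5) (nat_lit 16) (nat_lit 4) (nat_lit 331) (nat_lit 268) (nat_lit 181))) (XT.nd (nat_lit 78) (nat_lit 152) (nat_lit 0) (XT.lf (nat_lit 0) (nat_lit 40648821759) (nat_lit 152) (nat_lit 7146420718) (nat_lit 0) (nat_lit 649941682) (nat_lit 14) (nat_lit 5) (nat_lit 16) (nat_lit 4) (nat_lit 14) (nat_lit 4) (nat_lit 332) (nat_lit 268) (nat_lit 180)) (XT.nd (nat_lit 78) (nat_lit 76) (nat_lit 0) (XT.lf (nat_lit 0) (nat_lit 8050523972) (nat_lit 76) (nat_lit 41203465235) (nat_lit 76) (nat_lit 1178213219) (nat_lit 13) (nat_lit 4) (nat_lit 14) (nat_lit 5) (nat_lit 14) (nat_lit 4) (nat_lit 333) (nat_lit 268) (nat_lit 179)) (XT.lf (nat_lit 0) (nat_lit 5698183875) (nat_lit 152) (nat_lit 28369091204) (nat_lit 76) (nat_lit 18441195554)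 (nat_lit 12) (nat_lit 5) (nat_lit 14) (nat_lit 5) (nat_lit 13) (nat_lit 4) (nat_lit 334) (nat_lit 268) (nat_lit 178))))))) (XT.nd (nat_lit 780) (nat_lit 228) (nat_lit 0) (XT.nd (nat_lit 390) (nat_lit 228) (nat_lit 0) (XT.nd (nat_lit 156) (nat_lit 0) (nat_lit 0) (XT.nd (nat_lit 78) (nat_lit 76) (nat_lit 0) (XT.lf (nat_lit 0) (nat_lit 12868358775) (nat_lit 152) (nat_lit 13694152785) (nat_lit 76) (nat_lit 28125603117) (nat_lit 12) (nat_lit 5) (nat_lit 14) (nat_lit 5) (nat_lit 13) (nat_lit 4) (nat_lit 335) (nat_lit 268) (nat_lit 177)) (XT.lf (nat_lit 0) (nat_lit 1752565379) (nat_lit 76) (nat_lit 18661890584) (nat_lit 152) (nat_lit 36561419863) (nat_lit 11) (nat_lit 5) (nat_lit 12) (nat_lit 5) (nat_lit 13) (nat_lit 4) (nat_lit 336) (nat_lit 268) (nat_lit 176))) (XT.nd (nat_lit 78) (nat_lit 0) (nat_lit 0) (XT.lf (nat_lit 0) (nat_lit 18429280595) (nat_lit 76) (nat_lit 10130741941) (nat_lit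 152) (nat_lit 30806899583) (nat_lit 11) (nat_lit 5) (nat_lit 12) (nat_lit 5) (nat_lit 13) (nat_lit 4) (nat_lit 337) (nat_lit 268) (nat_lit 175)) (XT.nd (nat_lit 78) (nat_lit 0) (nat_lit 0) (XT.lf (nat_lit 0) (nat_lit 35922908793) (nat_lit 76) (nat_lit 1180670476) (nat_lit 152) (nat_lit 24774410929) (nat_lit 11) (nat_lit 5) (nat_lit 12) (nat_lit 5) (nat_lit 13) (nat_lit 4) (nat_lit 338) (nat_lit 268) (nat_lit 174)) (XT.lf (nat_lit 0) (nat_lit 46193643350) (nat_lit 152) (nat_lit 10368132713) (nat_lit 0) (nat_lit 7946873961) (nat_lit 11) (nat_lit 5) (nat_lit 13) (nat_lit 4) (nat_lit 11) (nat_lit 4) (nat_lit 339) (nat_lit 268) (nat_lit 173))))) (XT.nd (nat_lit 156) (nat_lit 152) (nat_lit 0) (XT.nd (nat_lit 78) (nat_lit 0) (nat_lit 0) (XT.lf (nat_lit 0) (nat_lit 6160309364) (nat_lit 76) (nat_lit 49684903457) (nat_lit 76) (nat_lit 11420284502) (nat_lit 10) (nat_lit 4) (nat_lit 11) (nat_lit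 5) (nat_lit 11) (nat_lit 4) (nat_lit 340) (nat_lit 268) (nat_lit 172)) (XT.lf (nat_lit 0) (nat_lit 23859717231) (nat_lit 76) (nat_lit 42286865779) (nat_lit 76) (nat_lit 4005247237) (nat_lit 10) (nat_lit 4) (nat_lit 11) (nat_lit 5) (nat_lit 11) (nat_lit 4) (nat_lit 341) (nat_lit 268) (nat_lit 171))) (XT.nd (nat_lit 78) (nat_lit 76) (nat_lit 0) (XT.lf (nat_lit 0) (nat_lit 3651437609) (nat_lit 152) (nat_lit 30812361525) (nat_lit 76) (nat_lit 38716138571) (nat_lit 9) (nat_lit 5) (nat_lit 11) (nat_lit 5) (nat_lit 10) (nat_lit 4) (nat_lit 342) (nat_lit 268) (nat_lit 170)) (XT.nd (nat_lit 78) (nat_lit 76) (nat_lit 0) (XT.lf (nat_lit 0) (nat_lit 11548636668) (nat_lit 152) (nat_lit 14638522580) (nat_lit 76) (nat_lit 50169397948) (nat_lit 9) (nat_lit 5) (nat_lit 11) (nat_lit 5) (nat_lit 10) (nat_lit 4) (nat_lit 343) (nat_lit 268) (nat_lit 169)) (XT.lf (nat_lit 0) (nat_lit 2407501165) (nat_lit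 76) (nat_lit 17463432395) (nat_lit 152) (nat_lit 59819565805) (nat_lit 8) (nat_lit 5) (nat_lit 9) (nat_lit 5) (nat_lit 10) (nat_lit 4) (nat_lit 344) (nat_lit 268) (nat_lit 168)))))) (XT.nd (nat_lit 390) (nat_lit 152) (nat_lit 0) (XT.nd (nat_lit 156) (nat_lit 76) (nat_lit 0) (XT.nd (nat_lit 78) (nat_lit 0) (nat_lit 0) (XT.lf (nat_lit 0) (nat_lit 20800699073) (nat_lit 76) (nat_lit 8049348394) (nat_lit 152) (nat_lit 54329059491) (nat_lit 8) (nat_lit 5) (nat_lit 9) (nat_lit 5) (nat_lit 10) (nat_lit 4) (nat_lit 345) (nat_lit 268) (nat_lit 167)) (XT.lf (nat_lit 0) (nat_lit 38299817165) (nat_lit 152) (nat_lit 46770207772) (nat_lit 0) (nat_lit 1771038253) (nat_lit 8) (nat_lit 5) (nat_lit 10) (nat_lit 4) (nat_lit 8) (nat_lit 4) (nat_lit 346) (nat_lit 268) (nat_lit 166))) (XT.nd (nat_lit 78) (nat_lit 76) (nat_lit 0) (XT.lf (nat_lit 0) (nat_lit 48347406863) (nat_lit 152) (nat_lit 30525900239) (nat_lit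 0) (nat_lit 11806546662) (nat_lit 8) (nat_lit 5) (nat_lit 10) (nat_lit 4) (nat_lit 8) (nat_lit 4) (nat_lit 347) (nat_lit 268) (nat_lit 165)) (XT.nd (nat_lit 78) (nat_lit 76) (nat_lit 0) (XT.lf (nat_lit 0) (nat_lit 58891066508) (nat_lit 152) (nat_lit 13481135477) (nat_lit 0) (nat_lit 22338700317) (nat_lit 8) (nat_lit 5) (nat_lit 10) (nat_lit 4) (nat_lit 8) (nat_lit 4) (nat_lit 348) (nat_lit 268) (nat_lit 164)) (XT.lf (nat_lit 0) (nat_lit 4550307545) (nat_lit 76) (nat_lit 65476635559) (nat_lit 76) (nat_lit 28913311283) (nat_lit 7) (nat_lit 4) (nat_lit 8) (nat_lit 5) (nat_lit 8) (nat_lit 4) (nat_lit 349) (nat_lit 268) (nat_lit 163))))) (XT.nd (nat_lit 234) (nat_lit 152) (nat_lit 0) (XT.nd (nat_lit 78) (nat_lit 0) (nat_lit 0) (XT.lf (nat_lit 0) (nat_lit 23940339681) (nat_lit 76) (nat_lit 58001688448) (nat_lit 76) (nat_lit 21427927900) (nat_lit 7) (nat_lit 4) (nat_lit 8) (nat_lit 5) (nat_lit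 8) (nat_lit 4) (nat_lit 350) (nat_lit 268) (nat_lit 162)) (XT.nd (nat_lit 78) (nat_lit 0) (nat_lit 0) (XT.lf (nat_lit 0) (nat_lit 44289380454) (nat_lit 76) (nat_lit 50157872711) (nat_lit 76) (nat_lit 13574172857) (nat_lit 7) (nat_lit 4) (nat_lit 8) (nat_lit 5) (nat_lit 8) (nat_lit 4) (nat_lit 351) (nat_lit 268) (nat_lit 161)) (XT.lf (nat_lit 0) (nat_lit 65645879960) (nat_lit 76) (nat_lit 41926512598) (nat_lit 76) (nat_lit 5333346737) (nat_lit 7) (nat_lit 4) (nat_lit 8) (nat_lit 5) (nat_lit 8) (nat_lit 4) (nat_lit 352) (nat_lit 268) (nat_lit 160)))) (XT.nd (nat_lit 78) (nat_lit 76) (nat_lit 0) (XT.lf (nat_lit 0) (nat_lit 3208097289) (nat_lit 152) (nat_lit 30025581661) (nat_lit 76) (nat_lit 84798259037) (nat_lit 6) (nat_lit 5) (nat_lit 8) (nat_lit 5) (nat_lit 7) (nat_lit 4) (nat_lit 353) (nat_lit 268) (nat_lit 159)) (XT.nd (nat_lit 78) (nat_lit 76) (nat_lit 0) (XT.lf (nat_lit 0) (nat_lit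 11992446660) (nat_lit 152) (nat_lit 12026251397) (nat_lit 76) (nat_lit 99391625636) (nat_lit 6) (nat_lit 5) (nat_lit 8) (nat_lit 5) (nat_lit 7) (nat_lit 4) (nat_lit 354) (nat_lit 268) (nat_lit 158)) (XT.lf (nat_lit 0) (nat_lit 7091218778) (nat_lit 76) (nat_lit 14230811915) (nat_lit 152) (nat_lit 107730299136) (nat_lit 5) (nat_lit 5) (nat_lit 6) (nat_lit 5) (nat_lit 7) (nat_lit 4) (nat_lit 355) (nat_lit 268) (nat_lit 157))))))))
noncomputable def xc132 : XT := (XT.nd (nat_lit 1560) (nat_lit 0) (nat_lit 0) (XT.nd (nat_lit 780) (nat_lit 152) (nat_lit 0) (XT.nd (nat_lit 390) (nat_lit 76) (nat_lit 0) (XT.nd (nat_lit 156) (nat_lit 0) (nat_lit 0) (XT.nd (nat_lit 78) (nat_lit 0) (nat_lit 0) (XT.lf (nat_lit 0) (nat_lit 27573438640) (nat_lit 76) (nat_lit 3743717696) (nat_lit 152) (nat_lit 103649328721) (nat_lit 5) (nat_lit 5) (nat_lit 6) (nat_lit 5) (nat_lit 7) (nat_lit 4) (nat_lit 356) (nat_lit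 268) (nat_lit 156)) (XT.lf (nat_lit 0) (nat_lit 41921059290) (nat_lit 152) (nat_lit 92218445673) (nat_lit 0) (nat_lit 7031393849) (nat_lit 5) (nat_lit 5) (nat_lit 7) (nat_lit 4) (nat_lit 5) (nat_lit 4) (nat_lit 357) (nat_lit 268) (nat_lit 155))) (XT.nd (nat_lit 78) (nat_lit 0) (nat_lit 0) (XT.lf (nat_lit 0) (nat_lit 53112293028) (nat_lit 152) (nat_lit 76354484902) (nat_lit 0) (nat_lit 18215900273) (nat_lit 5) (nat_lit 5) (nat_lit 7) (nat_lit 4) (nat_lit 5) (nat_lit 4) (nat_lit 358) (nat_lit 268) (nat_lit 154)) (XT.nd (nat_lit 78) (nat_lit 0) (nat_lit 0) (XT.lf (nat_lit 0) (nat_lit 64859053419) (nat_lit 152) (nat_lit 59704942846) (nat_lit 0) (nat_lit 29956253698) (nat_lit 5) (nat_lit 5) (nat_lit 7) (nat_lit 4) (nat_lit 5) (nat_lit 4) (nat_lit 359) (nat_lit 268) (nat_lit 153)) (XT.lf (nat_lit 0) (nat_lit 77189308941) (nat_lit 152) (nat_lit 42230177736) (nat_lit 0) (nat_lit 42280407348)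 (nat_lit 5) (nat_lit 5) (nat_lit 7) (nat_lit 4) (nat_lit 5) (nat_lit 4) (nat_lit 360) (nat_lit 268) (nat_lit 152))))) (XT.nd (nat_lit 156) (nat_lit 76) (nat_lit 0) (XT.nd (nat_lit 78) (nat_lit 0) (nat_lit 0) (XT.lf (nat_lit 0) (nat_lit 90132417345) (nat_lit 152) (nat_lit 23888582989) (nat_lit 0) (nat_lit 55217704445) (nat_lit 5) (nat_lit 5) (nat_lit 7) (nat_lit 4) (nat_lit 5) (nat_lit 4) (nat_lit 361) (nat_lit 268) (nat_lit 151)) (XT.lf (nat_lit 0) (nat_lit 103719195555) (nat_lit 152) (nat_lit 4636488143) (nat_lit 0) (nat_lit 68798948077) (nat_lit 5) (nat_lit 5) (nat_lit 7) (nat_lit 4) (nat_lit 5) (nat_lit 4) (nat_lit 362) (nat_lit 268) (nat_lit 150))) (XT.nd (nat_lit 78) (nat_lit 0) (nat_lit 0) (XT.lf (nat_lit 0) (nat_lit 16086823955) (nat_lit 76) (nat_lit 102146329493) (nat_lit 76) (nat_lit 67220810989) (nat_lit 4) (nat_lit 4) (nat_lit 5) (nat_lit 5) (nat_lit 5) (nat_lit 4) (nat_lit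 363) (nat_lit 268) (nat_lit 149)) (XT.nd (nat_lit 78) (nat_lit 0) (nat_lit 0) (XT.lf (nat_lit 0) (nat_lit 38001104807) (nat_lit 76) (nat_lit 95546967789) (nat_lit 76) (nat_lit 60616429260) (nat_lit 4) (nat_lit 4) (nat_lit 5) (nat_lit 5) (nat_lit 5) (nat_lit 4) (nat_lit 364) (nat_lit 268) (nat_lit 148)) (XT.lf (nat_lit 0) (nat_lit 61005228033) (nat_lit 76) (nat_lit 88620406990) (nat_lit 76) (nat_lit 53685087485) (nat_lit 4) (nat_lit 4) (nat_lit 5) (nat_lit 5) (nat_lit 5) (nat_lit 4) (nat_lit 365) (nat_lit 268) (nat_lit 147)))))) (XT.nd (nat_lit 390) (nat_lit 152) (nat_lit 0) (XT.nd (nat_lit 156) (nat_lit 0) (nat_lit 0) (XT.nd (nat_lit 78) (nat_lit 0) (nat_lit 0) (XT.lf (nat_lit 0) (nat_lit 85153965356) (nat_lit 76) (nat_lit 81350155285) (nat_lit 76) (nat_lit 46410282470) (nat_lit 4) (nat_lit 4) (nat_lit 5) (nat_lit 5) (nat_lit 5) (nat_lit 4) (nat_lit 366) (nat_lit 268) (nat_lit 146))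 (XT.lf (nat_lit 0) (nat_lit 110504813770) (nat_lit 76) (nat_lit 73718902552) (nat_lit 76) (nat_lit 38774693249) (nat_lit 4) (nat_lit 4) (nat_lit 5) (nat_lit 5) (nat_lit 5) (nat_lit 4) (nat_lit 367) (nat_lit 268) (nat_lit 145))) (XT.nd (nat_lit 78) (nat_lit 0) (nat_lit 0) (XT.lf (nat_lit 0) (nat_lit 137118132436) (nat_lit 76) (nat_lit 65708479139) (nat_lit 76) (nat_lit 30760139850) (nat_lit 4) (nat_lit 4) (nat_lit 5) (nat_lit 5) (nat_lit 5) (nat_lit 4) (nat_lit 368) (nat_lit 268) (nat_lit 144)) (XT.nd (nat_lit 78) (nat_lit 0) (nat_lit 0) (XT.lf (nat_lit 0) (nat_lit 165057286400) (nat_lit 76) (nat_lit 57299812612) (nat_lit 76) (nat_lit 22347540001) (nat_lit 4) (nat_lit 4) (nat_lit 5) (nat_lit 5) (nat_lit 5) (nat_lit 4) (nat_lit 369) (nat_lit 268) (nat_lit 143)) (XT.lf (nat_lit 0) (nat_lit 194388797457) (nat_lit 76) (nat_lit 48472882335) (nat_lit 76) (nat_lit 13516863704) (nat_lit 4) (nat_lit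 4) (nat_lit 5) (nat_lit 5) (nat_lit 5) (nat_lit 4) (nat_lit 370) (nat_lit 268) (nat_lit 142))))) (XT.nd (nat_lit 156) (nat_lit 76) (nat_lit 0) (XT.nd (nat_lit 78) (nat_lit 76) (nat_lit 0) (XT.lf (nat_lit 0) (nat_lit 225182502538) (nat_lit 76) (nat_lit 39206671807) (nat_lit 76) (nat_lit 4247085538) (nat_lit 4) (nat_lit 4) (nat_lit 5) (nat_lit 5) (nat_lit 5) (nat_lit 4) (nat_lit 371) (nat_lit 268) (nat_lit 141)) (XT.lf (nat_lit 0) (nat_lit 5308347456) (nat_lit 152) (nat_lit 24080871733) (nat_lit 76) (nat_lit 252113473099) (nat_lit 3) (nat_lit 5) (nat_lit 5) (nat_lit 5) (nat_lit 4) (nat_lit 4) (nat_lit 372) (nat_lit 268) (nat_lit 140))) (XT.nd (nat_lit 78) (nat_lit 76) (nat_lit 0) (XT.lf (nat_lit 0) (nat_lit 15196686930) (nat_lit 152) (nat_lit 3813011764) (nat_lit 76) (nat_lit 275999373958) (nat_lit 3) (nat_lit 5) (nat_lit 5) (nat_lit 5) (nat_lit 4) (nat_lit 4) (nat_lit 373) (nat_lit 268)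 (nat_lit 139)) (XT.nd (nat_lit 78) (nat_lit 0) (nat_lit 0) (XT.lf (nat_lit 0) (nat_lit 18041839829) (nat_lit 76) (nat_lit 7817253664) (nat_lit 152) (nat_lit 283317696790) (nat_lit 2) (nat_lit 5) (nat_lit 3) (nat_lit 5) (nat_lit 4) (nat_lit 4) (nat_lit 374) (nat_lit 268) (nat_lit 138)) (XT.lf (nat_lit 0) (nat_lit 37179663722) (nat_lit 152) (nat_lit 282994207224) (nat_lit 0) (nat_lit 3872771401) (nat_lit 2) (nat_lit 5) (nat_lit 4) (nat_lit 4) (nat_lit 2) (nat_lit 4) (nat_lit 375) (nat_lit 268) (nat_lit 137))))))) (XT.nd (nat_lit 780) (nat_lit 0) (nat_lit 0) (XT.nd (nat_lit 390) (nat_lit 0) (nat_lit 0) (XT.nd (nat_lit 156) (nat_lit 0) (nat_lit 0) (XT.nd (nat_lit 78) (nat_lit 0) (nat_lit 0) (XT.lf (nat_lit 0) (nat_lit 49192486601) (nat_lit 152) (nat_lit 274578257837) (nat_lit 0) (nat_lit 15882932053) (nat_lit 2) (nat_lit 5) (nat_lit 4) (nat_lit 4) (nat_lit 2) (nat_lit 4) (nat_lit 376) (nat_lit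 268) (nat_lit 136)) (XT.lf (nat_lit 0) (nat_lit 61804114852) (nat_lit 152) (nat_lit 265745015081) (nat_lit 0) (nat_lit 28492024851) (nat_lit 2) (nat_lit 5) (nat_lit 4) (nat_lit 4) (nat_lit 2) (nat_lit 4) (nat_lit 377) (nat_lit 268) (nat_lit 135))) (XT.nd (nat_lit 78) (nat_lit 0) (nat_lit 0) (XT.lf (nat_lit 0) (nat_lit 75044576161) (nat_lit 152) (nat_lit 256473447427) (nat_lit 0) (nat_lit 41730071442) (nat_lit 2) (nat_lit 5) (nat_lit 4) (nat_lit 4) (nat_lit 2) (nat_lit 4) (nat_lit 378) (nat_lit 268) (nat_lit 134)) (XT.nd (nat_lit 78) (nat_lit 0) (nat_lit 0) (XT.lf (nat_lit 0) (nat_lit 88945395437) (nat_lit 152) (nat_lit 246741479713) (nat_lit 0) (nat_lit 55628590986) (nat_lit 2) (nat_lit 5) (nat_lit 4) (nat_lit 4) (nat_lit 2) (nat_lit 4) (nat_lit 379) (nat_lit 268) (nat_lit 133)) (XT.lf (nat_lit 0) (nat_lit 103539669867) (nat_lit 152) (nat_lit 236525940586) (nat_lit 0) (nat_lit 70220675195)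 (nat_lit 2) (nat_lit 5) (nat_lit 4) (nat_lit 4) (nat_lit 2) (nat_lit 4) (nat_lit 380) (nat_lit 268) (nat_lit 132))))) (XT.nd (nat_lit 156) (nat_lit 0) (nat_lit 0) (XT.nd (nat_lit 78) (nat_lit 0) (nat_lit 0) (XT.lf (nat_lit 0) (nat_lit 118862147724) (nat_lit 152) (nat_lit 225802507336) (nat_lit 0) (nat_lit 85541067129) (nat_lit 2) (nat_lit 5) (nat_lit 4) (nat_lit 4) (nat_lit 2) (nat_lit 4) (nat_lit 381) (nat_lit 268) (nat_lit 131)) (XT.lf (nat_lit 0) (nat_lit 134949311099) (nat_lit 152) (nat_lit 214545647978) (nat_lit 0) (nat_lit 101626243909) (nat_lit 2) (nat_lit 5) (nat_lit 4) (nat_lit 4) (nat_lit 2) (nat_lit 4) (nat_lit 382) (nat_lit 268) (nat_lit 130))) (XT.nd (nat_lit 78) (nat_lit 0) (nat_lit 0) (XT.lf (nat_lit 0) (nat_lit 151839462761) (nat_lit 152) (nat_lit 202728560466) (nat_lit 0) (nat_lit 118514503577) (nat_lit 2) (nat_lit 5) (nat_lit 4) (nat_lit 4) (nat_lit 2) (nat_lit 4) (nat_lit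 383) (nat_lit 268) (nat_lit 129)) (XT.nd (nat_lit 78) (nat_lit 0) (nat_lit 0) (XT.lf (nat_lit 0) (nat_lit 169572817357) (nat_lit 152) (nat_lit 190323108878) (nat_lit 0) (nat_lit 136246056273) (nat_lit 2) (nat_lit 5) (nat_lit 4) (nat_lit 4) (nat_lit 2) (nat_lit 4) (nat_lit 384) (nat_lit 268) (nat_lit 128)) (XT.lf (nat_lit 0) (nat_lit 188191597161) (nat_lit 152) (nat_lit 177299756423) (nat_lit 0) (nat_lit 154863119982) (nat_lit 2) (nat_lit 5) (nat_lit 4) (nat_lit 4) (nat_lit 2) (nat_lit 4) (nat_lit 385) (nat_lit 268) (nat_lit 127)))))) (XT.nd (nat_lit 31824) (nat_lit 0) (nat_lit 7600) (XT.nd (nat_lit 31590) (nat_lit 0) (nat_lit 8056) (XT.nd (nat_lit 31512) (nat_lit 0) (nat_lit 8588) (XT.lf (nat_lit 0) (nat_lit 207740132599) (nat_lit 152) (nat_lit 163627495120) (nat_lit 0) (nat_lit 174410021044) (nat_lit 2) (nat_lit 5) (nat_lit 4) (nat_lit 4) (nat_lit 2) (nat_lit 4) (nat_lit 386) (nat_lit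 268) (nat_lit 126)) (XT.lf (nat_lit 0) (nat_lit 2992386479) (nat_lit 532) (nat_lit 353262332) (nat_lit 532) (nat_lit 353262332) (nat_lit 115) (nat_lit 3) (nat_lit 122) (nat_lit 3) (nat_lit 122) (nat_lit 5) (nat_lit 269) (nat_lit 269) (nat_lit 242))) (XT.nd (nat_lit 78) (nat_lit 0) (nat_lit 0) (XT.lf (nat_lit 0) (nat_lit 61985588) (nat_lit 532) (nat_lit 4719996974) (nat_lit 608) (nat_lit 2725330920) (nat_lit 108) (nat_lit 5) (nat_lit 115) (nat_lit 3) (nat_lit 116) (nat_lit 5) (nat_lit 270) (nat_lit 269) (nat_lit 241)) (XT.nd (nat_lit 78) (nat_lit 0) (nat_lit 0) (XT.lf (nat_lit 0) (nat_lit 1483794323) (nat_lit 532) (nat_lit 1216405992) (nat_lit 608) (nat_lit 4925111865) (nat_lit 108) (nat_lit 5) (nat_lit 115) (nat_lit 3) (nat_lit 116) (nat_lit 5) (nat_lit 271) (nat_lit 269) (nat_lit 240)) (XT.lf (nat_lit 76) (nat_lit 2492873184) (nat_lit 0) (nat_lit 435453716) (nat_lit 608) (nat_lit 4823508596)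 (nat_lit 109) (nat_lit 5) (nat_lit 108) (nat_lit 5) (nat_lit 116) (nat_lit 5) (nat_lit 272) (nat_lit 269) (nat_lit 239))))) (XT.nd (nat_lit 156) (nat_lit 532) (nat_lit 0) (XT.nd (nat_lit 78) (nat_lit 0) (nat_lit 0) (XT.lf (nat_lit 0) (nat_lit 4413017574) (nat_lit 532) (nat_lit 1537901530) (nat_lit 608) (nat_lit 1935565828) (nat_lit 109) (nat_lit 5) (nat_lit 116) (nat_lit 5) (nat_lit 117) (nat_lit 5) (nat_lit 273) (nat_lit 269) (nat_lit 238)) (XT.lf (nat_lit 76) (nat_lit 2387608556) (nat_lit 0) (nat_lit 3549383393) (nat_lit 608) (nat_lit 2092809600) (nat_lit 110) (nat_lit 5) (nat_lit 109) (nat_lit 5) (nat_lit 117) (nat_lit 5) (nat_lit 274) (nat_lit 269) (nat_lit 237))) (XT.nd (nat_lit 78) (nat_lit 532) (nat_lit 0) (XT.lf (nat_lit 76) (nat_lit 6512723786) (nat_lit 0) (nat_lit 974117432) (nat_lit 608) (nat_lit 696137226) (nat_lit 110) (nat_lit 5) (nat_lit 109) (nat_lit 5) (nat_lit 117)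 (nat_lit 5) (nat_lit 275) (nat_lit 269) (nat_lit 236)) (XT.nd (nat_lit 78) (nat_lit 0) (nat_lit 0) (XT.lf (nat_lit 0) (nat_lit 739167282) (nat_lit 608) (nat_lit 5854762220) (nat_lit 684) (nat_lit 1749772226) (nat_lit 102) (nat_lit 5) (nat_lit 110) (nat_lit 5) (nat_lit 111) (nat_lit 5) (nat_lit 276) (nat_lit 269) (nat_lit 235)) (XT.lf (nat_lit 0) (nat_lit 2196569427) (nat_lit 608) (nat_lit 1678351947) (nat_lit 684) (nat_lit 4638436824) (nat_lit 102) (nat_lit 5) (nat_lit 110) (nat_lit 5) (nat_lit 111) (nat_lit 5) (nat_lit 277) (nat_lit 269) (nat_lit 234))))))))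
noncomputable def xc133 : XT := (XT.nd (nat_lit 1560) (nat_lit 1824) (nat_lit 0) (XT.nd (nat_lit 780) (nat_lit 1520) (nat_lit 0) (XT.nd (nat_lit 390) (nat_lit 1216) (nat_lit 0) (XT.nd (nat_lit 156) (nat_lit 1292) (nat_lit 0) (XT.nd (nat_lit 78) (nat_lit 0) (nat_lit 76) (XT.lf (nat_lit 76) (nat_lit 2743703027) (nat_lit 0) (nat_lit 958363890) (nat_lit 684) (nat_lit 4990815964) (nat_lit 103) (nat_lit 5) (nat_lit 102) (nat_lit 5) (nat_lit 111) (nat_lit 5) (nat_lit 278) (nat_lit 269) (nat_lit 233)) (XT.lf (nat_lit 0) (nat_lit 5279637578) (nat_lit 608) (nat_lit 1521950631) (nat_lit 76) (nat_lit 2080095341) (nat_lit 103) (nat_lit 5) (nat_lit 111) (nat_lit 5) (nat_lit 104) (nat_lit 5) (nat_lit 279) (nat_lit 269) (nat_lit 232))) (XT.nd (nat_lit 78) (nat_lit 760) (nat_lit 0) (XT.lf (nat_lit 0) (nat_lit 3160856581) (nat_lit 608) (nat_lit 3778442293) (nat_lit 684) (nat_lit 2140597791) (nat_lit 95)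 (nat_lit 5) (nat_lit 103) (nat_lit 5) (nat_lit 104) (nat_lit 5) (nat_lit 280) (nat_lit 269) (nat_lit 231)) (XT.nd (nat_lit 78) (nat_lit 760) (nat_lit 0) (XT.lf (nat_lit 0) (nat_lit 8080229552) (nat_lit 608) (nat_lit 567798123) (nat_lit 684) (nat_lit 641815221) (nat_lit 95) (nat_lit 5) (nat_lit 103) (nat_lit 5) (nat_lit 104) (nat_lit 5) (nat_lit 281) (nat_lit 269) (nat_lit 230)) (XT.lf (nat_lit 0) (nat_lit 948487846) (nat_lit 760) (nat_lit 5762645924) (nat_lit 76) (nat_lit 2796219680) (nat_lit 85) (nat_lit 5) (nat_lit 95) (nat_lit 5) (nat_lit 86) (nat_lit 5) (nat_lit 282) (nat_lit 269) (nat_lit 229))))) (XT.nd (nat_lit 156) (nat_lit 684) (nat_lit 0) (XT.nd (nat_lit 78) (nat_lit 532) (nat_lit 0) (XT.lf (nat_lit 0) (nat_lit 2571061893) (nat_lit 760) (nat_lit 818385156) (nat_lit 76) (nat_lit 6347159587) (nat_lit 85) (nat_lit 5) (nat_lit 95) (nat_lit 5) (nat_lit 86) (nat_lit 5) (nat_lit 283)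 (nat_lit 269) (nat_lit 228)) (XT.lf (nat_lit 0) (nat_lit 4294080001) (nat_lit 608) (nat_lit 5513047158) (nat_lit 76) (nat_lit 169333777) (nat_lit 78) (nat_lit 5) (nat_lit 86) (nat_lit 5) (nat_lit 79) (nat_lit 5) (nat_lit 284) (nat_lit 269) (nat_lit 227))) (XT.nd (nat_lit 78) (nat_lit 684) (nat_lit 0) (XT.lf (nat_lit 0) (nat_lit 6121558075) (nat_lit 608) (nat_lit 297351416) (nat_lit 76) (nat_lit 3808582266) (nat_lit 78) (nat_lit 5) (nat_lit 86) (nat_lit 5) (nat_lit 79) (nat_lit 5) (nat_lit 285) (nat_lit 269) (nat_lit 226)) (XT.nd (nat_lit 78) (nat_lit 304) (nat_lit 0) (XT.lf (nat_lit 0) (nat_lit 5299548047) (nat_lit 380) (nat_lit 2774705085) (nat_lit 456) (nat_lit 2415223366) (nat_lit 73) (nat_lit 5) (nat_lit 78) (nat_lit 5) (nat_lit 79) (nat_lit 5) (nat_lit 286) (nat_lit 269) (nat_lit 225)) (XT.lf (nat_lit 0) (nat_lit 366695468) (nat_lit 304) (nat_lit 9737809206) (nat_lit 380) (nat_lit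 661149746) (nat_lit 69) (nat_lit 5) (nat_lit 73) (nat_lit 5) (nat_lit 74) (nat_lit 5) (nat_lit 287) (nat_lit 269) (nat_lit 224)))))) (XT.nd (nat_lit 390) (nat_lit 836) (nat_lit 0) (XT.nd (nat_lit 156) (nat_lit 304) (nat_lit 0) (XT.nd (nat_lit 78) (nat_lit 304) (nat_lit 0) (XT.lf (nat_lit 0) (nat_lit 1230958407) (nat_lit 380) (nat_lit 4786925475) (nat_lit 76) (nat_lit 5032511457) (nat_lit 68) (nat_lit 5) (nat_lit 73) (nat_lit 5) (nat_lit 69) (nat_lit 5) (nat_lit 288) (nat_lit 269) (nat_lit 223)) (XT.lf (nat_lit 0) (nat_lit 1080254271) (nat_lit 304) (nat_lit 2087585009) (nat_lit 380) (nat_lit 8182450556) (nat_lit 64) (nat_lit 5) (nat_lit 68) (nat_lit 5) (nat_lit 69) (nat_lit 5) (nat_lit 289) (nat_lit 269) (nat_lit 222))) (XT.nd (nat_lit 78) (nat_lit 304) (nat_lit 0) (XT.lf (nat_lit 0) (nat_lit 5272600635) (nat_lit 380) (nat_lit 4337854259) (nat_lit 76) (nat_lit 2051246410) (nat_lit 64)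 (nat_lit 5) (nat_lit 69) (nat_lit 5) (nat_lit 65) (nat_lit 5) (nat_lit 290) (nat_lit 269) (nat_lit 221)) (XT.nd (nat_lit 78) (nat_lit 0) (nat_lit 0) (XT.lf (nat_lit 0) (nat_lit 1868374172) (nat_lit 304) (nat_lit 5636476733) (nat_lit 380) (nat_lit 4482790442) (nat_lit 60) (nat_lit 5) (nat_lit 64) (nat_lit 5) (nat_lit 65) (nat_lit 5) (nat_lit 291) (nat_lit 269) (nat_lit 220)) (XT.lf (nat_lit 0) (nat_lit 8488152089) (nat_lit 304) (nat_lit 1394102548) (nat_lit 380) (nat_lit 2446013889) (nat_lit 60) (nat_lit 5) (nat_lit 64) (nat_lit 5) (nat_lit 65) (nat_lit 5) (nat_lit 292) (nat_lit 269) (nat_lit 219))))) (XT.nd (nat_lit 156) (nat_lit 456) (nat_lit 0) (XT.nd (nat_lit 78) (nat_lit 76) (nat_lit 0) (XT.lf (nat_lit 0) (nat_lit 2746142755) (nat_lit 304) (nat_lit 9684909798) (nat_lit 380) (nat_lit 252312293) (nat_lit 56) (nat_lit 5) (nat_lit 60) (nat_lit 5) (nat_lit 61) (nat_lit 5) (nat_lit 293)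 (nat_lit 269) (nat_lit 218)) (XT.lf (nat_lit 0) (nat_lit 2036677725) (nat_lit 380) (nat_lit 3361381271) (nat_lit 76) (nat_lit 7654051345) (nat_lit 55) (nat_lit 5) (nat_lit 60) (nat_lit 5) (nat_lit 56) (nat_lit 5) (nat_lit 294) (nat_lit 269) (nat_lit 217))) (XT.nd (nat_lit 78) (nat_lit 228) (nat_lit 0) (XT.lf (nat_lit 0) (nat_lit 3609391946) (nat_lit 228) (nat_lit 842690130) (nat_lit 304) (nat_lit 8986037283) (nat_lit 52) (nat_lit 5) (nat_lit 55) (nat_lit 5) (nat_lit 56) (nat_lit 5) (nat_lit 295) (nat_lit 269) (nat_lit 216)) (XT.nd (nat_lit 78) (nat_lit 228) (nat_lit 0) (XT.lf (nat_lit 0) (nat_lit 7072594024) (nat_lit 304) (nat_lit 2903797510) (nat_lit 76) (nat_lit 3862873065) (nat_lit 52) (nat_lit 5) (nat_lit 56) (nat_lit 5) (nat_lit 53) (nat_lit 5) (nat_lit 296) (nat_lit 269) (nat_lit 215)) (XT.lf (nat_lit 0) (nat_lit 4452093611) (nat_lit 228) (nat_lit 5421987078) (nat_lit 304) (nat_lit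 4383939088) (nat_lit 49) (nat_lit 5) (nat_lit 52) (nat_lit 5) (nat_lit 53) (nat_lit 5) (nat_lit 297) (nat_lit 269) (nat_lit 214))))))) (XT.nd (nat_lit 780) (nat_lit 684) (nat_lit 0) (XT.nd (nat_lit 390) (nat_lit 608) (nat_lit 0) (XT.nd (nat_lit 156) (nat_lit 228) (nat_lit 0) (XT.nd (nat_lit 78) (nat_lit 304) (nat_lit 0) (XT.lf (nat_lit 0) (nat_lit 12233336219) (nat_lit 228) (nat_lit 599021492) (nat_lit 304) (nat_lit 1864566947) (nat_lit 49) (nat_lit 5) (nat_lit 52) (nat_lit 5) (nat_lit 53) (nat_lit 5) (nat_lit 298) (nat_lit 269) (nat_lit 213)) (XT.lf (nat_lit 0) (nat_lit 879166371) (nat_lit 304) (nat_lit 9862664717) (nat_lit 76) (nat_lit 4409208388) (nat_lit 45) (nat_lit 5) (nat_lit 49) (nat_lit 5) (nat_lit 46) (nat_lit 5) (nat_lit 299) (nat_lit 269) (nat_lit 212))) (XT.nd (nat_lit 78) (nat_lit 228) (nat_lit 0) (XT.lf (nat_lit 0) (nat_lit 3718861970) (nat_lit 304) (nat_lit 2196377234)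 (nat_lit 76) (nat_lit 9710061878) (nat_lit 45) (nat_lit 5) (nat_lit 49) (nat_lit 5) (nat_lit 46) (nat_lit 5) (nat_lit 300) (nat_lit 269) (nat_lit 211)) (XT.nd (nat_lit 78) (nat_lit 0) (nat_lit 0) (XT.lf (nat_lit 0) (nat_lit 6004453209) (nat_lit 228) (nat_lit 760512849) (nat_lit 304) (nat_lit 9355127805) (nat_lit 42) (nat_lit 5) (nat_lit 45) (nat_lit 5) (nat_lit 46) (nat_lit 5) (nat_lit 301) (nat_lit 269) (nat_lit 210)) (XT.lf (nat_lit 0) (nat_lit 10045073222) (nat_lit 304) (nat_lit 2061000631) (nat_lit 76) (nat_lit 4529504945) (nat_lit 42) (nat_lit 5) (nat_lit 46) (nat_lit 5) (nat_lit 43) (nat_lit 5) (nat_lit 302) (nat_lit 269) (nat_lit 209))))) (XT.nd (nat_lit 156) (nat_lit 456) (nat_lit 0) (XT.nd (nat_lit 78) (nat_lit 0) (nat_lit 0) (XT.lf (nat_lit 0) (nat_lit 6554082332) (nat_lit 152) (nat_lit 7022528337) (nat_lit 228) (nat_lit 3595891694) (nat_lit 40) (nat_lit 5) (nat_lit 42) (nat_lit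 5) (nat_lit 43) (nat_lit 5) (nat_lit 303) (nat_lit 269) (nat_lit 208)) (XT.lf (nat_lit 0) (nat_lit 15632518131) (nat_lit 152) (nat_lit 1660435956) (nat_lit 228) (nat_lit 442940495) (nat_lit 40) (nat_lit 5) (nat_lit 42) (nat_lit 5) (nat_lit 43) (nat_lit 5) (nat_lit 304) (nat_lit 269) (nat_lit 207))) (XT.nd (nat_lit 78) (nat_lit 152) (nat_lit 0) (XT.lf (nat_lit 0) (nat_lit 2923278631) (nat_lit 304) (nat_lit 11407401983) (nat_lit 76) (nat_lit 3987197800) (nat_lit 36) (nat_lit 5) (nat_lit 40) (nat_lit 5) (nat_lit 37) (nat_lit 5) (nat_lit 305) (nat_lit 269) (nat_lit 206)) (XT.nd (nat_lit 78) (nat_lit 152) (nat_lit 0) (XT.lf (nat_lit 0) (nat_lit 6480954078) (nat_lit 304) (nat_lit 2552671573) (nat_lit 76) (nat_lit 9893100478) (nat_lit 36) (nat_lit 5) (nat_lit 40) (nat_lit 5) (nat_lit 37) (nat_lit 5) (nat_lit 306) (nat_lit 269) (nat_lit 205)) (XT.lf (nat_lit 0) (nat_lit 6929957153) (nat_lit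 152) (nat_lit 3370566623) (nat_lit 228) (nat_lit 9261319846) (nat_lit 34) (nat_lit 5) (nat_lit 36) (nat_lit 5) (nat_lit 37) (nat_lit 5) (nat_lit 307) (nat_lit 269) (nat_lit 204)))))) (XT.nd (nat_lit 390) (nat_lit 304) (nat_lit 0) (XT.nd (nat_lit 156) (nat_lit 228) (nat_lit 0) (XT.nd (nat_lit 78) (nat_lit 152) (nat_lit 0) (XT.lf (nat_lit 0) (nat_lit 14371433304) (nat_lit 228) (nat_lit 3329198033) (nat_lit 76) (nat_lit 2525094171) (nat_lit 34) (nat_lit 5) (nat_lit 37) (nat_lit 5) (nat_lit 35) (nat_lit 5) (nat_lit 308) (nat_lit 269) (nat_lit 203)) (XT.lf (nat_lit 0) (nat_lit 6557969276) (nat_lit 152) (nat_lit 12222904288) (nat_lit 228) (nat_lit 2135203983) (nat_lit 32) (nat_lit 5) (nat_lit 34) (nat_lit 5) (nat_lit 35) (nat_lit 5) (nat_lit 309) (nat_lit 269) (nat_lit 202))) (XT.nd (nat_lit 78) (nat_lit 152) (nat_lit 0) (XT.lf (nat_lit 0) (nat_lit 1747991199) (nat_lit 228) (nat_lit 4647101547)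 (nat_lit 76) (nat_lit 15242755879) (nat_lit 31) (nat_lit 5) (nat_lit 34) (nat_lit 5) (nat_lit 32) (nat_lit 5) (nat_lit 310) (nat_lit 269) (nat_lit 201)) (XT.nd (nat_lit 78) (nat_lit 0) (nat_lit 0) (XT.lf (nat_lit 0) (nat_lit 5661863151) (nat_lit 152) (nat_lit 158688039) (nat_lit 228) (nat_lit 16570080676) (nat_lit 29) (nat_lit 5) (nat_lit 31) (nat_lit 5) (nat_lit 32) (nat_lit 5) (nat_lit 311) (nat_lit 269) (nat_lit 200)) (XT.lf (nat_lit 0) (nat_lit 10255362268) (nat_lit 228) (nat_lit 6664688914) (nat_lit 76) (nat_lit 6253092766) (nat_lit 29) (nat_lit 5) (nat_lit 32) (nat_lit 5) (nat_lit 30) (nat_lit 5) (nat_lit 312) (nat_lit 269) (nat_lit 199))))) (XT.nd (nat_lit 156) (nat_lit 152) (nat_lit 0) (XT.nd (nat_lit 78) (nat_lit 0) (nat_lit 0) (XT.lf (nat_lit 0) (nat_lit 3995361487) (nat_lit 152) (nat_lit 10961412088) (nat_lit 228) (nat_lit 9035784913) (nat_lit 27) (nat_lit 5) (nat_lit 29)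 (nat_lit 5) (nat_lit 30) (nat_lit 5) (nat_lit 313) (nat_lit 269) (nat_lit 198)) (XT.lf (nat_lit 0) (nat_lit 15387813222) (nat_lit 152) (nat_lit 4598650160) (nat_lit 228) (nat_lit 4861838872) (nat_lit 27) (nat_lit 5) (nat_lit 29) (nat_lit 5) (nat_lit 30) (nat_lit 5) (nat_lit 314) (nat_lit 269) (nat_lit 197))) (XT.nd (nat_lit 78) (nat_lit 76) (nat_lit 0) (XT.lf (nat_lit 0) (nat_lit 1590209073) (nat_lit 76) (nat_lit 23715857236) (nat_lit 152) (nat_lit 438863461) (nat_lit 26) (nat_lit 5) (nat_lit 27) (nat_lit 5) (nat_lit 28) (nat_lit 4) (nat_lit 315) (nat_lit 269) (nat_lit 196)) (XT.nd (nat_lit 78) (nat_lit 0) (nat_lit 0) (XT.lf (nat_lit 0) (nat_lit 4290090546) (nat_lit 152) (nat_lit 13331525575) (nat_lit 76) (nat_lit 9050534846) (nat_lit 25) (nat_lit 5) (nat_lit 27) (nat_lit 5) (nat_lit 26) (nat_lit 5) (nat_lit 316) (nat_lit 269) (nat_lit 195)) (XT.lf (nat_lit 0) (nat_lit 9222831413) (nat_lit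 152) (nat_lit 2004238108) (nat_lit 76) (nat_lit 16419215131) (nat_lit 25) (nat_lit 5) (nat_lit 27) (nat_lit 5) (nat_lit 26) (nat_lit 5) (nat_lit 317) (nat_lit 269) (nat_lit 194))))))))
noncomputable def xc134 : XT := (XT.nd (nat_lit 1560) (nat_lit 456) (nat_lit 0) (XT.nd (nat_lit 780) (nat_lit 532) (nat_lit 0) (XT.nd (nat_lit 390) (nat_lit 228) (nat_lit 0) (XT.nd (nat_lit 156) (nat_lit 152) (nat_lit 0) (XT.nd (nat_lit 78) (nat_lit 0) (nat_lit 0) (XT.lf (nat_lit 0) (nat_lit 10187011303) (nat_lit 152) (nat_lit 4357186625) (nat_lit 228) (nat_lit 14117842469) (nat_lit 23) (nat_lit 5) (nat_lit 25) (nat_lit 5) (nat_lit 26) (nat_lit 5) (nat_lit 318) (nat_lit 269) (nat_lit 193)) (XT.lf (nat_lit 0) (nat_lit 20193864667) (nat_lit 228) (nat_lit 6743293838) (nat_lit 76) (nat_lit 2788327927) (nat_lit 23) (nat_lit 5) (nat_lit 26) (nat_lit 5) (nat_lit 24) (nat_lit 4) (nat_lit 319) (nat_lit 269) (nat_lit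 192))) (XT.nd (nat_lit 78) (nat_lit 76) (nat_lit 0) (XT.lf (nat_lit 0) (nat_lit 5657371757) (nat_lit 76) (nat_lit 20612342160) (nat_lit 152) (nat_lit 4565219321) (nat_lit 22) (nat_lit 5) (nat_lit 23) (nat_lit 5) (nat_lit 24) (nat_lit 4) (nat_lit 320) (nat_lit 269) (nat_lit 191)) (XT.nd (nat_lit 78) (nat_lit 0) (nat_lit 0) (XT.lf (nat_lit 0) (nat_lit 728805991) (nat_lit 152) (nat_lit 13121371171) (nat_lit 76) (nat_lit 18144175829) (nat_lit 21) (nat_lit 5) (nat_lit 23) (nat_lit 5) (nat_lit 22) (nat_lit 5) (nat_lit 321) (nat_lit 269) (nat_lit 190)) (XT.lf (nat_lit 0) (nat_lit 6118890136) (nat_lit 152) (nat_lit 563304995) (nat_lit 76) (nat_lit 26526579272) (nat_lit 21) (nat_lit 5) (nat_lit 23) (nat_lit 5) (nat_lit 22) (nat_lit 5) (nat_lit 322) (nat_lit 269) (nat_lit 189))))) (XT.nd (nat_lit 156) (nat_lit 76) (nat_lit 0) (XT.nd (nat_lit 78) (nat_lit 0) (nat_lit 0) (XT.lf (nat_lit 0) (nat_lit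 11983522141) (nat_lit 228) (nat_lit 21476488988) (nat_lit 76) (nat_lit 1013664623) (nat_lit 19) (nat_lit 5) (nat_lit 22) (nat_lit 5) (nat_lit 20) (nat_lit 4) (nat_lit 323) (nat_lit 269) (nat_lit 188)) (XT.lf (nat_lit 0) (nat_lit 18246278176) (nat_lit 228) (nat_lit 8680796225) (nat_lit 76) (nat_lit 8869513666) (nat_lit 19) (nat_lit 5) (nat_lit 22) (nat_lit 5) (nat_lit 20) (nat_lit 4) (nat_lit 324) (nat_lit 269) (nat_lit 187))) (XT.nd (nat_lit 78) (nat_lit 0) (nat_lit 0) (XT.lf (nat_lit 0) (nat_lit 4887285533) (nat_lit 76) (nat_lit 19997525956) (nat_lit 152) (nat_lit 12297712555) (nat_lit 18) (nat_lit 5) (nat_lit 19) (nat_lit 5) (nat_lit 20) (nat_lit 4) (nat_lit 325) (nat_lit 269) (nat_lit 186)) (XT.nd (nat_lit 78) (nat_lit 0) (nat_lit 0) (XT.lf (nat_lit 0) (nat_lit 19411713905) (nat_lit 76) (nat_lit 12577191114) (nat_lit 152) (nat_lit 6642179667) (nat_lit 18) (nat_lit 5) (nat_lit 19)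 (nat_lit 5) (nat_lit 20) (nat_lit 4) (nat_lit 326) (nat_lit 269) (nat_lit 185)) (XT.lf (nat_lit 0) (nat_lit 34640044535) (nat_lit 76) (nat_lit 4795415897) (nat_lit 152) (nat_lit 717259156) (nat_lit 18) (nat_lit 5) (nat_lit 19) (nat_lit 5) (nat_lit 20) (nat_lit 4) (nat_lit 327) (nat_lit 269) (nat_lit 184)))))) (XT.nd (nat_lit 390) (nat_lit 228) (nat_lit 0) (XT.nd (nat_lit 156) (nat_lit 76) (nat_lit 0) (XT.nd (nat_lit 78) (nat_lit 0) (nat_lit 0) (XT.lf (nat_lit 0) (nat_lit 5513167107) (nat_lit 228) (nat_lit 32734188641) (nat_lit 76) (nat_lit 3489521203) (nat_lit 15) (nat_lit 5) (nat_lit 18) (nat_lit 5) (nat_lit 16) (nat_lit 4) (nat_lit 328) (nat_lit 269) (nat_lit 183)) (XT.lf (nat_lit 0) (nat_lit 12192281118) (nat_lit 228) (nat_lit 19074060175) (nat_lit 76) (nat_lit 12125257270) (nat_lit 15) (nat_lit 5) (nat_lit 18) (nat_lit 5) (nat_lit 16) (nat_lit 4) (nat_lit 329) (nat_lit 269) (nat_lit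 182))) (XT.nd (nat_lit 78) (nat_lit 76) (nat_lit 0) (XT.lf (nat_lit 0) (nat_lit 19193700696) (nat_lit 228) (nat_lit 4751678856) (nat_lit 76) (nat_lit 21184266689) (nat_lit 15) (nat_lit 5) (nat_lit 18) (nat_lit 5) (nat_lit 16) (nat_lit 4) (nat_lit 330) (nat_lit 269) (nat_lit 181)) (XT.nd (nat_lit 78) (nat_lit 0) (nat_lit 0) (XT.lf (nat_lit 0) (nat_lit 10606531470) (nat_lit 76) (nat_lit 16093162099) (nat_lit 152) (nat_lit 20247184738) (nat_lit 14) (nat_lit 5) (nat_lit 15) (nat_lit 5) (nat_lit 16) (nat_lit 4) (nat_lit 331) (nat_lit 269) (nat_lit 180)) (XT.lf (nat_lit 0) (nat_lit 26878173366) (nat_lit 76) (nat_lit 7772414072) (nat_lit 152) (nat_lit 14200911253) (nat_lit 14) (nat_lit 5) (nat_lit 15) (nat_lit 5) (nat_lit 16) (nat_lit 4) (nat_lit 332) (nat_lit 269) (nat_lit 179))))) (XT.nd (nat_lit 156) (nat_lit 152) (nat_lit 0) (XT.nd (nat_lit 78) (nat_lit 76) (nat_lit 0) (XT.lf (nat_lit 0)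 (nat_lit 43003602043) (nat_lit 152) (nat_lit 6921926353) (nat_lit 0) (nat_lit 925599355) (nat_lit 14) (nat_lit 5) (nat_lit 16) (nat_lit 4) (nat_lit 14) (nat_lit 4) (nat_lit 333) (nat_lit 269) (nat_lit 178)) (XT.lf (nat_lit 0) (nat_lit 9025481452) (nat_lit 76) (nat_lit 43007134183) (nat_lit 76) (nat_lit 905211368) (nat_lit 13) (nat_lit 4) (nat_lit 14) (nat_lit 5) (nat_lit 14) (nat_lit 4) (nat_lit 334) (nat_lit 269) (nat_lit 177))) (XT.nd (nat_lit 78) (nat_lit 76) (nat_lit 0) (XT.lf (nat_lit 0) (nat_lit 6289082819) (nat_lit 152) (nat_lit 29232084106) (nat_lit 76) (nat_lit 19597256145) (nat_lit 12) (nat_lit 5) (nat_lit 14) (nat_lit 5) (nat_lit 13) (nat_lit 4) (nat_lit 335) (nat_lit 269) (nat_lit 176)) (XT.nd (nat_lit 78) (nat_lit 76) (nat_lit 0) (XT.lf (nat_lit 0) (nat_lit 13803195524) (nat_lit 152) (nat_lit 13849849321) (nat_lit 76) (nat_lit 29754741191) (nat_lit 12) (nat_lit 5) (nat_lit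 14) (nat_lit 5) (nat_lit 13) (nat_lit 4) (nat_lit 336) (nat_lit 269) (nat_lit 175)) (XT.lf (nat_lit 0) (nat_lit 2360672314) (nat_lit 76) (nat_lit 19360174302) (nat_lit 152) (nat_lit 38089383956) (nat_lit 11) (nat_lit 5) (nat_lit 12) (nat_lit 5) (nat_lit 13) (nat_lit 4) (nat_lit 337) (nat_lit 269) (nat_lit 174))))))) (XT.nd (nat_lit 780) (nat_lit 228) (nat_lit 0) (XT.nd (nat_lit 390) (nat_lit 152) (nat_lit 0) (XT.nd (nat_lit 156) (nat_lit 76) (nat_lit 0) (XT.nd (nat_lit 78) (nat_lit 0) (nat_lit 0) (XT.lf (nat_lit 0) (nat_lit 19846438593) (nat_lit 76) (nat_lit 10413649694) (nat_lit 152) (nat_lit 32061428467) (nat_lit 11) (nat_lit 5) (nat_lit 12) (nat_lit 5) (nat_lit 13) (nat_lit 4) (nat_lit 338) (nat_lit 269) (nat_lit 173)) (XT.lf (nat_lit 0) (nat_lit 38191143726) (nat_lit 76) (nat_lit 1026723673) (nat_lit 152) (nat_lit 25740925670) (nat_lit 11) (nat_lit 5) (nat_lit 12) (nat_lit 5) (nat_lit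 13) (nat_lit 4) (nat_lit 339) (nat_lit 269) (nat_lit 172))) (XT.nd (nat_lit 78) (nat_lit 76) (nat_lit 0) (XT.lf (nat_lit 0) (nat_lit 48753263027) (nat_lit 152) (nat_lit 10427624194) (nat_lit 0) (nat_lit 8540563971) (nat_lit 11) (nat_lit 5) (nat_lit 13) (nat_lit 4) (nat_lit 11) (nat_lit 4) (nat_lit 340) (nat_lit 269) (nat_lit 171)) (XT.nd (nat_lit 78) (nat_lit 0) (nat_lit 0) (XT.lf (nat_lit 0) (nat_lit 6919838130) (nat_lit 76) (nat_lit 51962720444) (nat_lit 76) (nat_lit 11733831305) (nat_lit 10) (nat_lit 4) (nat_lit 11) (nat_lit 5) (nat_lit 11) (nat_lit 4) (nat_lit 341) (nat_lit 269) (nat_lit 170)) (XT.lf (nat_lit 0) (nat_lit 25482715757) (nat_lit 76) (nat_lit 44204610795) (nat_lit 76) (nat_lit 3960302530) (nat_lit 10) (nat_lit 4) (nat_lit 11) (nat_lit 5) (nat_lit 11) (nat_lit 4) (nat_lit 342) (nat_lit 269) (nat_lit 169))))) (XT.nd (nat_lit 156) (nat_lit 76) (nat_lit 0) (XT.nd (nat_lit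 78) (nat_lit 0) (nat_lit 0) (XT.lf (nat_lit 0) (nat_lit 4060065596) (nat_lit 152) (nat_lit 31935858676) (nat_lit 76) (nat_lit 40831596894) (nat_lit 9) (nat_lit 5) (nat_lit 11) (nat_lit 5) (nat_lit 10) (nat_lit 4) (nat_lit 343) (nat_lit 269) (nat_lit 168)) (XT.lf (nat_lit 0) (nat_lit 12341360031) (nat_lit 152) (nat_lit 14973190685) (nat_lit 76) (nat_lit 52848964412) (nat_lit 9) (nat_lit 5) (nat_lit 11) (nat_lit 5) (nat_lit 10) (nat_lit 4) (nat_lit 344) (nat_lit 269) (nat_lit 167))) (XT.nd (nat_lit 78) (nat_lit 0) (nat_lit 0) (XT.lf (nat_lit 0) (nat_lit 2918726860) (nat_lit 76) (nat_lit 18156895204) (nat_lit 152) (nat_lit 62588744843) (nat_lit 8) (nat_lit 5) (nat_lit 9) (nat_lit 5) (nat_lit 10) (nat_lit 4) (nat_lit 345) (nat_lit 269) (nat_lit 166)) (XT.nd (nat_lit 78) (nat_lit 0) (nat_lit 0) (XT.lf (nat_lit 0) (nat_lit 22212972729) (nat_lit 76) (nat_lit 8280664565) (nat_lit 152) (nat_lit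 56834275082) (nat_lit 8) (nat_lit 5) (nat_lit 9) (nat_lit 5) (nat_lit 10) (nat_lit 4) (nat_lit 346) (nat_lit 269) (nat_lit 165)) (XT.lf (nat_lit 0) (nat_lit 40408864789) (nat_lit 152) (nat_lit 48747083416) (nat_lit 0) (nat_lit 2017374299) (nat_lit 8) (nat_lit 5) (nat_lit 10) (nat_lit 4) (nat_lit 8) (nat_lit 4) (nat_lit 347) (nat_lit 269) (nat_lit 164)))))) (XT.nd (nat_lit 390) (nat_lit 152) (nat_lit 0) (XT.nd (nat_lit 156) (nat_lit 76) (nat_lit 0) (XT.nd (nat_lit 78) (nat_lit 0) (nat_lit 0) (XT.lf (nat_lit 0) (nat_lit 50949593173) (nat_lit 152) (nat_lit 31707781209) (nat_lit 0) (nat_lit 12547144598) (nat_lit 8) (nat_lit 5) (nat_lit 10) (nat_lit 4) (nat_lit 8) (nat_lit 4) (nat_lit 348) (nat_lit 269) (nat_lit 163)) (XT.lf (nat_lit 0) (nat_lit 62011635040) (nat_lit 152) (nat_lit 13827178878) (nat_lit 0) (nat_lit 23598750193) (nat_lit 8) (nat_lit 5) (nat_lit 10) (nat_lit 4) (nat_lit 8) (nat_lit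 4) (nat_lit 349) (nat_lit 269) (nat_lit 162))) (XT.nd (nat_lit 78) (nat_lit 0) (nat_lit 0) (XT.lf (nat_lit 0) (nat_lit 5100545757) (nat_lit 76) (nat_lit 68600416640) (nat_lit 76) (nat_lit 30177592487) (nat_lit 7) (nat_lit 4) (nat_lit 8) (nat_lit 5) (nat_lit 8) (nat_lit 4) (nat_lit 350) (nat_lit 269) (nat_lit 161)) (XT.nd (nat_lit 78) (nat_lit 0) (nat_lit 0) (XT.lf (nat_lit 0) (nat_lit 25444711746) (nat_lit 76) (nat_lit 60758867445) (nat_lit 76) (nat_lit 22326577285) (nat_lit 7) (nat_lit 4) (nat_lit 8) (nat_lit 5) (nat_lit 8) (nat_lit 4) (nat_lit 351) (nat_lit 269) (nat_lit 160)) (XT.lf (nat_lit 0) (nat_lit 46796568601) (nat_lit 76) (nat_lit 52529665942) (nat_lit 76) (nat_lit 14088360538) (nat_lit 7) (nat_lit 4) (nat_lit 8) (nat_lit 5) (nat_lit 8) (nat_lit 4) (nat_lit 352) (nat_lit 269) (nat_lit 159))))) (XT.nd (nat_lit 156) (nat_lit 76) (nat_lit 0) (XT.nd (nat_lit 78) (nat_lit 76) (nat_lit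 0) (XT.lf (nat_lit 0) (nat_lit 69206954076) (nat_lit 76) (nat_lit 43893218794) (nat_lit 76) (nat_lit 5443327444) (nat_lit 7) (nat_lit 4) (nat_lit 8) (nat_lit 5) (nat_lit 8) (nat_lit 4) (nat_lit 353) (nat_lit 269) (nat_lit 158)) (XT.lf (nat_lit 0) (nat_lit 3512951372) (nat_lit 152) (nat_lit 31256518129) (nat_lit 76) (nat_lit 89156781328) (nat_lit 6) (nat_lit 5) (nat_lit 8) (nat_lit 5) (nat_lit 7) (nat_lit 4) (nat_lit 354) (nat_lit 269) (nat_lit 157))) (XT.nd (nat_lit 78) (nat_lit 76) (nat_lit 0) (XT.lf (nat_lit 0) (nat_lit 12729639677) (nat_lit 152) (nat_lit 12370094810) (nat_lit 76) (nat_lit 104474168194) (nat_lit 6) (nat_lit 5) (nat_lit 8) (nat_lit 5) (nat_lit 7) (nat_lit 4) (nat_lit 355) (nat_lit 269) (nat_lit 156)) (XT.nd (nat_lit 78) (nat_lit 0) (nat_lit 0) (XT.lf (nat_lit 0) (nat_lit 7699096145) (nat_lit 76) (nat_lit 14824010760) (nat_lit 152) (nat_lit 112975034810) (nat_lit 5)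 (nat_lit 5) (nat_lit 6) (nat_lit 5) (nat_lit 7) (nat_lit 4) (nat_lit 356) (nat_lit 269) (nat_lit 155)) (XT.lf (nat_lit 0) (nat_lit 29193364314) (nat_lit 76) (nat_lit 3818197151) (nat_lit 152) (nat_lit 108696767269) (nat_lit 5) (nat_lit 5) (nat_lit 6) (nat_lit 5) (nat_lit 7) (nat_lit 4) (nat_lit 357) (nat_lit 269) (nat_lit 154))))))))
noncomputable def xc135 : XT := (XT.nd (nat_lit 1560) (nat_lit 0) (nat_lit 0) (XT.nd (nat_lit 780) (nat_lit 152) (nat_lit 0) (XT.nd (nat_lit 390) (nat_lit 76) (nat_lit 0) (XT.nd (nat_lit 156) (nat_lit 0) (nat_lit 0) (XT.nd (nat_lit 78) (nat_lit 0) (nat_lit 0) (XT.lf (nat_lit 0) (nat_lit 44141214137) (nat_lit 152) (nat_lit 96595106381) (nat_lit 0) (nat_lit 7486867465) (nat_lit 5) (nat_lit 5) (nat_lit 7) (nat_lit 4) (nat_lit 5) (nat_lit 4) (nat_lit 358) (nat_lit 269) (nat_lit 153)) (XT.lf (nat_lit 0) (nat_lit 55886099948) (nat_lit 152) (nat_lit 79949102885)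 (nat_lit 0) (nat_lit 19225651404) (nat_lit 5) (nat_lit 5) (nat_lit 7) (nat_lit 4) (nat_lit 5) (nat_lit 4) (nat_lit 359) (nat_lit 269) (nat_lit 152))) (XT.nd (nat_lit 78) (nat_lit 0) (nat_lit 0) (XT.lf (nat_lit 0) (nat_lit 68214570156) (nat_lit 152) (nat_lit 62477707833) (nat_lit 0) (nat_lit 31548310305) (nat_lit 5) (nat_lit 5) (nat_lit 7) (nat_lit 4) (nat_lit 5) (nat_lit 4) (nat_lit 360) (nat_lit 269) (nat_lit 151)) (XT.nd (nat_lit 78) (nat_lit 0) (nat_lit 0) (XT.lf (nat_lit 0) (nat_lit 81155978260) (nat_lit 152) (nat_lit 44139322666) (nat_lit 0) (nat_lit 44484183831) (nat_lit 5) (nat_lit 5) (nat_lit 7) (nat_lit 4) (nat_lit 5) (nat_lit 4) (nat_lit 361) (nat_lit 269) (nat_lit 150)) (XT.lf (nat_lit 0) (nat_lit 94741137137) (nat_lit 152) (nat_lit 24890284561) (nat_lit 0) (nat_lit 58064071682) (nat_lit 5) (nat_lit 5) (nat_lit 7) (nat_lit 4) (nat_lit 5) (nat_lit 4) (nat_lit 362) (nat_lit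 269) (nat_lit 149))))) (XT.nd (nat_lit 156) (nat_lit 0) (nat_lit 0) (XT.nd (nat_lit 78) (nat_lit 76) (nat_lit 0) (XT.lf (nat_lit 0) (nat_lit 109002392404) (nat_lit 152) (nat_lit 4684762476) (nat_lit 0) (nat_lit 72320306924) (nat_lit 5) (nat_lit 5) (nat_lit 7) (nat_lit 4) (nat_lit 5) (nat_lit 4) (nat_lit 363) (nat_lit 269) (nat_lit 148)) (XT.lf (nat_lit 0) (nat_lit 17071754742) (nat_lit 76) (nat_lit 107168482623) (nat_lit 76) (nat_lit 70481616166) (nat_lit 4) (nat_lit 4) (nat_lit 5) (nat_lit 5) (nat_lit 5) (nat_lit 4) (nat_lit 364) (nat_lit 269) (nat_lit 147))) (XT.nd (nat_lit 78) (nat_lit 0) (nat_lit 0) (XT.lf (nat_lit 0) (nat_lit 40073150132) (nat_lit 76) (nat_lit 100243208231) (nat_lit 76) (nat_lit 63551788464) (nat_lit 4) (nat_lit 4) (nat_lit 5) (nat_lit 5) (nat_lit 5) (nat_lit 4) (nat_lit 365) (nat_lit 269) (nat_lit 146)) (XT.nd (nat_lit 78) (nat_lit 0) (nat_lit 0) (XT.lf (nat_lit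 0) (nat_lit 64219289516) (nat_lit 76) (nat_lit 92974181676) (nat_lit 76) (nat_lit 56278425422) (nat_lit 4) (nat_lit 4) (nat_lit 5) (nat_lit 5) (nat_lit 5) (nat_lit 4) (nat_lit 366) (nat_lit 269) (nat_lit 145)) (XT.lf (nat_lit 0) (nat_lit 89567663701) (nat_lit 76) (nat_lit 85344095751) (nat_lit 76) (nat_lit 48644209510) (nat_lit 4) (nat_lit 4) (nat_lit 5) (nat_lit 5) (nat_lit 5) (nat_lit 4) (nat_lit 367) (nat_lit 269) (nat_lit 144)))))) (XT.nd (nat_lit 390) (nat_lit 152) (nat_lit 0) (XT.nd (nat_lit 156) (nat_lit 0) (nat_lit 0) (XT.nd (nat_lit 78) (nat_lit 0) (nat_lit 0) (XT.lf (nat_lit 0) (nat_lit 116178625960) (nat_lit 76) (nat_lit 77334783585) (nat_lit 76) (nat_lit 40630964023) (nat_lit 4) (nat_lit 4) (nat_lit 5) (nat_lit 5) (nat_lit 5) (nat_lit 4) (nat_lit 368) (nat_lit 269) (nat_lit 143)) (XT.lf (nat_lit 0) (nat_lit 144115535726) (nat_lit 76) (nat_lit 68927175388) (nat_lit 76) (nat_lit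 32219609806) (nat_lit 4) (nat_lit 4) (nat_lit 5) (nat_lit 5) (nat_lit 5) (nat_lit 4) (nat_lit 369) (nat_lit 269) (nat_lit 142))) (XT.nd (nat_lit 78) (nat_lit 0) (nat_lit 0) (XT.lf (nat_lit 0) (nat_lit 173444909452) (nat_lit 76) (nat_lit 60101253044) (nat_lit 76) (nat_lit 23390119823) (nat_lit 4) (nat_lit 4) (nat_lit 5) (nat_lit 5) (nat_lit 5) (nat_lit 4) (nat_lit 370) (nat_lit 269) (nat_lit 141)) (XT.nd (nat_lit 78) (nat_lit 0) (nat_lit 0) (XT.lf (nat_lit 0) (nat_lit 204236578979) (nat_lit 76) (nat_lit 50836002453) (nat_lit 76) (nat_lit 14121471482) (nat_lit 4) (nat_lit 4) (nat_lit 5) (nat_lit 5) (nat_lit 5) (nat_lit 4) (nat_lit 371) (nat_lit 269) (nat_lit 140)) (XT.lf (nat_lit 0) (nat_lit 236563857807) (nat_lit 76) (nat_lit 41109363494) (nat_lit 76) (nat_lit 4391596570) (nat_lit 4) (nat_lit 4) (nat_lit 5) (nat_lit 5) (nat_lit 5) (nat_lit 4) (nat_lit 372) (nat_lit 269) (nat_lit 139)))))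 (XT.nd (nat_lit 156) (nat_lit 76) (nat_lit 0) (XT.nd (nat_lit 78) (nat_lit 0) (nat_lit 0) (XT.lf (nat_lit 0) (nat_lit 5636309436) (nat_lit 152) (nat_lit 25166414439) (nat_lit 76) (nat_lit 264771952583) (nat_lit 3) (nat_lit 5) (nat_lit 5) (nat_lit 5) (nat_lit 4) (nat_lit 4) (nat_lit 373) (nat_lit 269) (nat_lit 138)) (XT.lf (nat_lit 0) (nat_lit 16016087570) (nat_lit 152) (nat_lit 3890804369) (nat_lit 76) (nat_lit 289849633921) (nat_lit 3) (nat_lit 5) (nat_lit 5) (nat_lit 5) (nat_lit 4) (nat_lit 4) (nat_lit 374) (nat_lit 269) (nat_lit 137))) (XT.nd (nat_lit 78) (nat_lit 0) (nat_lit 0) (XT.lf (nat_lit 0) (nat_lit 19054969513) (nat_lit 76) (nat_lit 8155542067) (nat_lit 152) (nat_lit 297422173990) (nat_lit 2) (nat_lit 5) (nat_lit 3) (nat_lit 5) (nat_lit 4) (nat_lit 4) (nat_lit 375) (nat_lit 269) (nat_lit 136)) (XT.nd (nat_lit 78) (nat_lit 0) (nat_lit 0) (XT.lf (nat_lit 0) (nat_lit 39095108093)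 (nat_lit 152) (nat_lit 297036145120) (nat_lit 0) (nat_lit 4114878137) (nat_lit 2) (nat_lit 5) (nat_lit 4) (nat_lit 4) (nat_lit 2) (nat_lit 4) (nat_lit 376) (nat_lit 269) (nat_lit 135)) (XT.lf (nat_lit 0) (nat_lit 51705883488) (nat_lit 152) (nat_lit 288204530286) (nat_lit 0) (nat_lit 16723238815) (nat_lit 2) (nat_lit 5) (nat_lit 4) (nat_lit 4) (nat_lit 2) (nat_lit 4) (nat_lit 377) (nat_lit 269) (nat_lit 134))))))) (XT.nd (nat_lit 32292) (nat_lit 0) (nat_lit 7068) (XT.nd (nat_lit 390) (nat_lit 0) (nat_lit 0) (XT.nd (nat_lit 156) (nat_lit 0) (nat_lit 0) (XT.nd (nat_lit 78) (nat_lit 0) (nat_lit 0) (XT.lf (nat_lit 0) (nat_lit 64945532554) (nat_lit 152) (nat_lit 278934513033) (nat_lit 0) (nat_lit 29960588149) (nat_lit 2) (nat_lit 5) (nat_lit 4) (nat_lit 4) (nat_lit 2) (nat_lit 4) (nat_lit 378) (nat_lit 269) (nat_lit 133)) (XT.lf (nat_lit 0) (nat_lit 78845578264) (nat_lit 152) (nat_lit 269204021891)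 (nat_lit 0) (nat_lit 43858443639) (nat_lit 2) (nat_lit 5) (nat_lit 4) (nat_lit 4) (nat_lit 2) (nat_lit 4) (nat_lit 379) (nat_lit 269) (nat_lit 132))) (XT.nd (nat_lit 78) (nat_lit 0) (nat_lit 0) (XT.lf (nat_lit 0) (nat_lit 93439115965) (nat_lit 152) (nat_lit 258989889025) (nat_lit 0) (nat_lit 58449895416) (nat_lit 2) (nat_lit 5) (nat_lit 4) (nat_lit 4) (nat_lit 2) (nat_lit 4) (nat_lit 380) (nat_lit 269) (nat_lit 131)) (XT.nd (nat_lit 78) (nat_lit 0) (nat_lit 0) (XT.lf (nat_lit 0) (nat_lit 108760892176) (nat_lit 152) (nat_lit 248267795069) (nat_lit 0) (nat_lit 73769685032) (nat_lit 2) (nat_lit 5) (nat_lit 4) (nat_lit 4) (nat_lit 2) (nat_lit 4) (nat_lit 381) (nat_lit 269) (nat_lit 130)) (XT.lf (nat_lit 0) (nat_lit 124847387316) (nat_lit 152) (nat_lit 237012211231) (nat_lit 0) (nat_lit 89854288177) (nat_lit 2) (nat_lit 5) (nat_lit 4) (nat_lit 4) (nat_lit 2) (nat_lit 4) (nat_lit 382) (nat_lit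 269) (nat_lit 129))))) (XT.nd (nat_lit 156) (nat_lit 0) (nat_lit 0) (XT.nd (nat_lit 78) (nat_lit 0) (nat_lit 0) (XT.lf (nat_lit 0) (nat_lit 141736902564) (nat_lit 152) (nat_lit 225196338499) (nat_lit 0) (nat_lit 106742001526) (nat_lit 2) (nat_lit 5) (nat_lit 4) (nat_lit 4) (nat_lit 2) (nat_lit 4) (nat_lit 383) (nat_lit 269) (nat_lit 128)) (XT.lf (nat_lit 0) (nat_lit 159469651051) (nat_lit 152) (nat_lit 212792043843) (nat_lit 0) (nat_lit 124473033918) (nat_lit 2) (nat_lit 5) (nat_lit 4) (nat_lit 4) (nat_lit 2) (nat_lit 4) (nat_lit 384) (nat_lit 269) (nat_lit 127))) (XT.nd (nat_lit 78) (nat_lit 0) (nat_lit 0) (XT.lf (nat_lit 0) (nat_lit 178087853608) (nat_lit 152) (nat_lit 199769793230) (nat_lit 0) (nat_lit 143089602099) (nat_lit 2) (nat_lit 5) (nat_lit 4) (nat_lit 4) (nat_lit 2) (nat_lit 4) (nat_lit 385) (nat_lit 269) (nat_lit 126)) (XT.nd (nat_lit 31590) (nat_lit 0) (nat_lit 8056) (XT.lf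 (nat_lit 0) (nat_lit 197635839288) (nat_lit 152) (nat_lit 186098581300) (nat_lit 0) (nat_lit 162636031231) (nat_lit 2) (nat_lit 5) (nat_lit 4) (nat_lit 4) (nat_lit 2) (nat_lit 4) (nat_lit 386) (nat_lit 269) (nat_lit 125)) (XT.lf (nat_lit 0) (nat_lit 345313897) (nat_lit 0) (nat_lit 345313897) (nat_lit 532) (nat_lit 3120039312) (nat_lit 108) (nat_lit 5) (nat_lit 108) (nat_lit 3) (nat_lit 115) (nat_lit 3) (nat_lit 270) (nat_lit 270) (nat_lit 240)))))) (XT.nd (nat_lit 390) (nat_lit 456) (nat_lit 0) (XT.nd (nat_lit 156) (nat_lit 532) (nat_lit 0) (XT.nd (nat_lit 78) (nat_lit 0) (nat_lit 0) (XT.lf (nat_lit 0) (nat_lit 2749702502) (nat_lit 532) (nat_lit 3440371273) (nat_lit 608) (nat_lit 1552027888) (nat_lit 108) (nat_lit 5) (nat_lit 115) (nat_lit 3) (nat_lit 116) (nat_lit 5) (nat_lit 271) (nat_lit 270) (nat_lit 239)) (XT.lf (nat_lit 76) (nat_lit 171722815) (nat_lit 0) (nat_lit 3945720997) (nat_lit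 608) (nat_lit 3755116596) (nat_lit 109) (nat_lit 5) (nat_lit 108) (nat_lit 5) (nat_lit 116) (nat_lit 5) (nat_lit 272) (nat_lit 270) (nat_lit 238))) (XT.nd (nat_lit 78) (nat_lit 532) (nat_lit 0) (XT.lf (nat_lit 76) (nat_lit 4037688250) (nat_lit 0) (nat_lit 1494255184) (nat_lit 608) (nat_lit 2478867264) (nat_lit 109) (nat_lit 5) (nat_lit 108) (nat_lit 5) (nat_lit 116) (nat_lit 5) (nat_lit 273) (nat_lit 270) (nat_lit 237)) (XT.nd (nat_lit 78) (nat_lit 608) (nat_lit 0) (XT.lf (nat_lit 0) (nat_lit 6958439179) (nat_lit 532) (nat_lit 124340507) (nat_lit 608) (nat_lit 1076308515) (nat_lit 109) (nat_lit 5) (nat_lit 116) (nat_lit 5) (nat_lit 117) (nat_lit 5) (nat_lit 274) (nat_lit 270) (nat_lit 236)) (XT.lf (nat_lit 0) (nat_lit 151570043) (nat_lit 608) (nat_lit 4343261351) (nat_lit 684) (nat_lit 3819268514) (nat_lit 101) (nat_lit 5) (nat_lit 109) (nat_lit 5) (nat_lit 110) (nat_lit 5) (nat_lit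 275) (nat_lit 270) (nat_lit 235))))) (XT.nd (nat_lit 234) (nat_lit 456) (nat_lit 0) (XT.nd (nat_lit 78) (nat_lit 0) (nat_lit 76) (XT.lf (nat_lit 0) (nat_lit 1462629733) (nat_lit 608) (nat_lit 269276317) (nat_lit 684) (nat_lit 6747547029) (nat_lit 101) (nat_lit 5) (nat_lit 109) (nat_lit 5) (nat_lit 110) (nat_lit 5) (nat_lit 276) (nat_lit 270) (nat_lit 234)) (XT.nd (nat_lit 78) (nat_lit 0) (nat_lit 0) (XT.lf (nat_lit 0) (nat_lit 2855596309) (nat_lit 608) (nat_lit 4579202542) (nat_lit 684) (nat_lit 1217604013) (nat_lit 102) (nat_lit 5) (nat_lit 110) (nat_lit 5) (nat_lit 111) (nat_lit 5) (nat_lit 277) (nat_lit 270) (nat_lit 233)) (XT.lf (nat_lit 0) (nat_lit 4286846149) (nat_lit 608) (nat_lit 268652602) (nat_lit 684) (nat_lit 4280209308) (nat_lit 102) (nat_lit 5) (nat_lit 110) (nat_lit 5) (nat_lit 111) (nat_lit 5) (nat_lit 278) (nat_lit 270) (nat_lit 232)))) (XT.nd (nat_lit 78) (nat_lit 532)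 (nat_lit 0) (XT.lf (nat_lit 76) (nat_lit 4350414525) (nat_lit 0) (nat_lit 1445840353) (nat_lit 684) (nat_lit 3231726833) (nat_lit 103) (nat_lit 5) (nat_lit 102) (nat_lit 5) (nat_lit 111) (nat_lit 5) (nat_lit 279) (nat_lit 270) (nat_lit 231)) (XT.nd (nat_lit 78) (nat_lit 608) (nat_lit 0) (XT.lf (nat_lit 0) (nat_lit 7355259341) (nat_lit 608) (nat_lit 97158261) (nat_lit 76) (nat_lit 1778871862) (nat_lit 103) (nat_lit 5) (nat_lit 111) (nat_lit 5) (nat_lit 104) (nat_lit 5) (nat_lit 280) (nat_lit 270) (nat_lit 230)) (XT.lf (nat_lit 0) (nat_lit 4795581410) (nat_lit 608) (nat_lit 4239108871) (nat_lit 684) (nat_lit 408069161) (nat_lit 95) (nat_lit 5) (nat_lit 103) (nat_lit 5) (nat_lit 104) (nat_lit 5) (nat_lit 281) (nat_lit 270) (nat_lit 229))))))))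
noncomputable def xc136 : XT := (XT.nd (nat_lit 1560) (nat_lit 1748) (nat_lit 0) (XT.nd (nat_lit 780) (nat_lit 1444) (nat_lit 0) (XT.nd (nat_lit 390) (nat_lit 684) (nat_lit 0) (XT.nd (nat_lit 156) (nat_lit 912) (nat_lit 0) (XT.nd (nat_lit 78) (nat_lit 0) (nat_lit 0) (XT.lf (nat_lit 0) (nat_lit 213049700) (nat_lit 684) (nat_lit 833826637) (nat_lit 760) (nat_lit 8619658382) (nat_lit 85) (nat_lit 5) (nat_lit 94) (nat_lit 5) (nat_lit 95) (nat_lit 5) (nat_lit 282) (nat_lit 270) (nat_lit 228)) (XT.lf (nat_lit 0) (nat_lit 2630506647) (nat_lit 760) (nat_lit 4520477111) (nat_lit 76) (nat_lit 2746802174) (nat_lit 85) (nat_lit 5) (nat_lit 95) (nat_lit 5) (nat_lit 86) (nat_lit 5) (nat_lit 283) (nat_lit 270) (nat_lit 227))) (XT.nd (nat_lit 78) (nat_lit 380) (nat_lit 0) (XT.lf (nat_lit 0) (nat_lit 617901934) (nat_lit 532) (nat_lit 3648116813) (nat_lit 608) (nat_lit 5876045204) (nat_lit 78) (nat_lit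 5) (nat_lit 85) (nat_lit 5) (nat_lit 86) (nat_lit 5) (nat_lit 284) (nat_lit 270) (nat_lit 226)) (XT.nd (nat_lit 78) (nat_lit 380) (nat_lit 0) (XT.lf (nat_lit 0) (nat_lit 6012686950) (nat_lit 608) (nat_lit 4275508802) (nat_lit 76) (nat_lit 108985628) (nat_lit 78) (nat_lit 5) (nat_lit 86) (nat_lit 5) (nat_lit 79) (nat_lit 5) (nat_lit 285) (nat_lit 270) (nat_lit 225)) (XT.lf (nat_lit 0) (nat_lit 1166242054) (nat_lit 380) (nat_lit 6711890753) (nat_lit 456) (nat_lit 2785439691) (nat_lit 73) (nat_lit 5) (nat_lit 78) (nat_lit 5) (nat_lit 79) (nat_lit 5) (nat_lit 286) (nat_lit 270) (nat_lit 224))))) (XT.nd (nat_lit 156) (nat_lit 304) (nat_lit 0) (XT.nd (nat_lit 78) (nat_lit 380) (nat_lit 0) (XT.lf (nat_lit 0) (nat_lit 6982415366) (nat_lit 380) (nat_lit 2881771965) (nat_lit 456) (nat_lit 1077814766) (nat_lit 73) (nat_lit 5) (nat_lit 78) (nat_lit 5) (nat_lit 79) (nat_lit 5) (nat_lit 287) (nat_lit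 270) (nat_lit 223)) (XT.lf (nat_lit 0) (nat_lit 696028149) (nat_lit 380) (nat_lit 9395121571) (nat_lit 76) (nat_lit 1142536556) (nat_lit 68) (nat_lit 5) (nat_lit 73) (nat_lit 5) (nat_lit 69) (nat_lit 5) (nat_lit 288) (nat_lit 270) (nat_lit 222))) (XT.nd (nat_lit 78) (nat_lit 304) (nat_lit 0) (XT.lf (nat_lit 0) (nat_lit 2595379105) (nat_lit 380) (nat_lit 3585370025) (nat_lit 76) (nat_lit 5354744269) (nat_lit 68) (nat_lit 5) (nat_lit 73) (nat_lit 5) (nat_lit 69) (nat_lit 5) (nat_lit 289) (nat_lit 270) (nat_lit 221)) (XT.nd (nat_lit 78) (nat_lit 0) (nat_lit 0) (XT.lf (nat_lit 0) (nat_lit 2551928358) (nat_lit 304) (nat_lit 2037267770) (nat_lit 380) (nat_lit 7263290368) (nat_lit 64) (nat_lit 5) (nat_lit 68) (nat_lit 5) (nat_lit 69) (nat_lit 5) (nat_lit 290) (nat_lit 270) (nat_lit 220)) (XT.lf (nat_lit 0) (nat_lit 6741354600) (nat_lit 380) (nat_lit 3144686058) (nat_lit 76) (nat_lit 2296423241)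 (nat_lit 64) (nat_lit 5) (nat_lit 69) (nat_lit 5) (nat_lit 65) (nat_lit 5) (nat_lit 291) (nat_lit 270) (nat_lit 219)))))) (XT.nd (nat_lit 390) (nat_lit 532) (nat_lit 0) (XT.nd (nat_lit 156) (nat_lit 608) (nat_lit 0) (XT.nd (nat_lit 78) (nat_lit 0) (nat_lit 0) (XT.lf (nat_lit 0) (nat_lit 3349110877) (nat_lit 304) (nat_lit 5700379574) (nat_lit 380) (nat_lit 3477095233) (nat_lit 60) (nat_lit 5) (nat_lit 64) (nat_lit 5) (nat_lit 65) (nat_lit 5) (nat_lit 292) (nat_lit 270) (nat_lit 218)) (XT.lf (nat_lit 0) (nat_lit 10233814927) (nat_lit 304) (nat_lit 1256263870) (nat_lit 380) (nat_lit 1397043411) (nat_lit 60) (nat_lit 5) (nat_lit 64) (nat_lit 5) (nat_lit 65) (nat_lit 5) (nat_lit 293) (nat_lit 270) (nat_lit 217))) (XT.nd (nat_lit 78) (nat_lit 228) (nat_lit 0) (XT.lf (nat_lit 0) (nat_lit 847958148) (nat_lit 380) (nat_lit 9038342377) (nat_lit 76) (nat_lit 3374519112) (nat_lit 55) (nat_lit 5)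 (nat_lit 60) (nat_lit 5) (nat_lit 56) (nat_lit 5) (nat_lit 294) (nat_lit 270) (nat_lit 216)) (XT.nd (nat_lit 78) (nat_lit 228) (nat_lit 0) (XT.lf (nat_lit 0) (nat_lit 3190327525) (nat_lit 380) (nat_lit 2204112665) (nat_lit 76) (nat_lit 8256065891) (nat_lit 55) (nat_lit 5) (nat_lit 60) (nat_lit 5) (nat_lit 56) (nat_lit 5) (nat_lit 295) (nat_lit 270) (nat_lit 215)) (XT.lf (nat_lit 0) (nat_lit 5093822798) (nat_lit 228) (nat_lit 602951313) (nat_lit 304) (nat_lit 8360604933) (nat_lit 52) (nat_lit 5) (nat_lit 55) (nat_lit 5) (nat_lit 56) (nat_lit 5) (nat_lit 296) (nat_lit 270) (nat_lit 214))))) (XT.nd (nat_lit 156) (nat_lit 304) (nat_lit 0) (XT.nd (nat_lit 78) (nat_lit 228) (nat_lit 0) (XT.lf (nat_lit 0) (nat_lit 8403832072) (nat_lit 304) (nat_lit 1761171476) (nat_lit 76) (nat_lit 4315875401) (nat_lit 52) (nat_lit 5) (nat_lit 56) (nat_lit 5) (nat_lit 53) (nat_lit 5) (nat_lit 297) (nat_lit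 270) (nat_lit 213)) (XT.lf (nat_lit 0) (nat_lit 5941742977) (nat_lit 228) (nat_lit 5376879433) (nat_lit 304) (nat_lit 3603357936) (nat_lit 49) (nat_lit 5) (nat_lit 52) (nat_lit 5) (nat_lit 53) (nat_lit 5) (nat_lit 298) (nat_lit 270) (nat_lit 212))) (XT.nd (nat_lit 78) (nat_lit 304) (nat_lit 0) (XT.lf (nat_lit 0) (nat_lit 14051712254) (nat_lit 228) (nat_lit 327823045) (nat_lit 304) (nat_lit 1005625669) (nat_lit 49) (nat_lit 5) (nat_lit 52) (nat_lit 5) (nat_lit 53) (nat_lit 5) (nat_lit 299) (nat_lit 270) (nat_lit 211)) (XT.nd (nat_lit 78) (nat_lit 0) (nat_lit 0) (XT.lf (nat_lit 0) (nat_lit 1824974456) (nat_lit 304) (nat_lit 9096292249) (nat_lit 76) (nat_lit 4941024150) (nat_lit 45) (nat_lit 5) (nat_lit 49) (nat_lit 5) (nat_lit 46) (nat_lit 5) (nat_lit 300) (nat_lit 270) (nat_lit 210)) (XT.lf (nat_lit 0) (nat_lit 4763709608) (nat_lit 304) (nat_lit 1106666853) (nat_lit 76) (nat_lit 10492093869)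 (nat_lit 45) (nat_lit 5) (nat_lit 49) (nat_lit 5) (nat_lit 46) (nat_lit 5) (nat_lit 301) (nat_lit 270) (nat_lit 209))))))) (XT.nd (nat_lit 780) (nat_lit 684) (nat_lit 0) (XT.nd (nat_lit 390) (nat_lit 380) (nat_lit 0) (XT.nd (nat_lit 156) (nat_lit 456) (nat_lit 0) (XT.nd (nat_lit 78) (nat_lit 0) (nat_lit 0) (XT.lf (nat_lit 0) (nat_lit 7484857866) (nat_lit 228) (nat_lit 454786766) (nat_lit 304) (nat_lit 8943536620) (nat_lit 42) (nat_lit 5) (nat_lit 45) (nat_lit 5) (nat_lit 46) (nat_lit 5) (nat_lit 302) (nat_lit 270) (nat_lit 208)) (XT.lf (nat_lit 0) (nat_lit 11349038502) (nat_lit 304) (nat_lit 1004305547) (nat_lit 76) (nat_lit 5072884500) (nat_lit 42) (nat_lit 5) (nat_lit 46) (nat_lit 5) (nat_lit 43) (nat_lit 5) (nat_lit 303) (nat_lit 270) (nat_lit 207))) (XT.nd (nat_lit 78) (nat_lit 304) (nat_lit 0) (XT.lf (nat_lit 0) (nat_lit 8022825998) (nat_lit 152) (nat_lit 7013964904) (nat_lit 228)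 (nat_lit 2954275180) (nat_lit 40) (nat_lit 5) (nat_lit 42) (nat_lit 5) (nat_lit 43) (nat_lit 5) (nat_lit 304) (nat_lit 270) (nat_lit 206)) (XT.nd (nat_lit 78) (nat_lit 228) (nat_lit 0) (XT.lf (nat_lit 0) (nat_lit 307056102) (nat_lit 228) (nat_lit 1088639746) (nat_lit 76) (nat_lit 17188592124) (nat_lit 39) (nat_lit 5) (nat_lit 42) (nat_lit 5) (nat_lit 40) (nat_lit 5) (nat_lit 305) (nat_lit 270) (nat_lit 205)) (XT.lf (nat_lit 0) (nat_lit 3813296431) (nat_lit 304) (nat_lit 10850865246) (nat_lit 76) (nat_lit 4531559384) (nat_lit 36) (nat_lit 5) (nat_lit 40) (nat_lit 5) (nat_lit 37) (nat_lit 5) (nat_lit 306) (nat_lit 270) (nat_lit 204))))) (XT.nd (nat_lit 156) (nat_lit 228) (nat_lit 0) (XT.nd (nat_lit 78) (nat_lit 152) (nat_lit 0) (XT.lf (nat_lit 0) (nat_lit 7513434038) (nat_lit 304) (nat_lit 1607060545) (nat_lit 76) (nat_lit 10716328544) (nat_lit 36) (nat_lit 5) (nat_lit 40) (nat_lit 5)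 (nat_lit 37) (nat_lit 5) (nat_lit 307) (nat_lit 270) (nat_lit 203)) (XT.lf (nat_lit 0) (nat_lit 8332389220) (nat_lit 152) (nat_lit 3174344223) (nat_lit 228) (nat_lit 8997864428) (nat_lit 34) (nat_lit 5) (nat_lit 36) (nat_lit 5) (nat_lit 37) (nat_lit 5) (nat_lit 308) (nat_lit 270) (nat_lit 202))) (XT.nd (nat_lit 78) (nat_lit 228) (nat_lit 0) (XT.lf (nat_lit 0) (nat_lit 15753698551) (nat_lit 228) (nat_lit 2461774735) (nat_lit 76) (nat_lit 2987612145) (nat_lit 34) (nat_lit 5) (nat_lit 37) (nat_lit 5) (nat_lit 35) (nat_lit 5) (nat_lit 309) (nat_lit 270) (nat_lit 201)) (XT.nd (nat_lit 78) (nat_lit 76) (nat_lit 0) (XT.lf (nat_lit 0) (nat_lit 7903075403) (nat_lit 152) (nat_lit 12464812426) (nat_lit 228) (nat_lit 1560888710) (nat_lit 32) (nat_lit 5) (nat_lit 34) (nat_lit 5) (nat_lit 35) (nat_lit 5) (nat_lit 310) (nat_lit 270) (nat_lit 200)) (XT.lf (nat_lit 0) (nat_lit 2463273429) (nat_lit 228)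 (nat_lit 3889286098) (nat_lit 76) (nat_lit 16335146710) (nat_lit 31) (nat_lit 5) (nat_lit 34) (nat_lit 5) (nat_lit 32) (nat_lit 5) (nat_lit 311) (nat_lit 270) (nat_lit 199)))))) (XT.nd (nat_lit 390) (nat_lit 228) (nat_lit 0) (XT.nd (nat_lit 156) (nat_lit 304) (nat_lit 0) (XT.nd (nat_lit 78) (nat_lit 0) (nat_lit 0) (XT.lf (nat_lit 0) (nat_lit 6727807119) (nat_lit 228) (nat_lit 16562772148) (nat_lit 76) (nat_lit 188162598) (nat_lit 29) (nat_lit 5) (nat_lit 32) (nat_lit 5) (nat_lit 30) (nat_lit 5) (nat_lit 312) (nat_lit 270) (nat_lit 198)) (XT.lf (nat_lit 0) (nat_lit 11357492107) (nat_lit 228) (nat_lit 6045700921) (nat_lit 76) (nat_lit 6898558910) (nat_lit 29) (nat_lit 5) (nat_lit 32) (nat_lit 5) (nat_lit 30) (nat_lit 5) (nat_lit 313) (nat_lit 270) (nat_lit 197))) (XT.nd (nat_lit 78) (nat_lit 152) (nat_lit 0) (XT.lf (nat_lit 0) (nat_lit 5131993573) (nat_lit 152) (nat_lit 11148542635) (nat_lit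 228) (nat_lit 8882300558) (nat_lit 27) (nat_lit 5) (nat_lit 29) (nat_lit 5) (nat_lit 30) (nat_lit 5) (nat_lit 314) (nat_lit 270) (nat_lit 196)) (XT.nd (nat_lit 78) (nat_lit 152) (nat_lit 0) (XT.lf (nat_lit 0) (nat_lit 17049455323) (nat_lit 152) (nat_lit 4484830232) (nat_lit 228) (nat_lit 4528479767) (nat_lit 27) (nat_lit 5) (nat_lit 29) (nat_lit 5) (nat_lit 30) (nat_lit 5) (nat_lit 315) (nat_lit 270) (nat_lit 195)) (XT.lf (nat_lit 0) (nat_lit 104849918) (nat_lit 152) (nat_lit 24436487541) (nat_lit 76) (nat_lit 2463175041) (nat_lit 25) (nat_lit 5) (nat_lit 27) (nat_lit 5) (nat_lit 26) (nat_lit 5) (nat_lit 316) (nat_lit 270) (nat_lit 194))))) (XT.nd (nat_lit 156) (nat_lit 228) (nat_lit 0) (XT.nd (nat_lit 78) (nat_lit 0) (nat_lit 0) (XT.lf (nat_lit 0) (nat_lit 5029269229) (nat_lit 152) (nat_lit 13123078322) (nat_lit 76) (nat_lit 9826721934) (nat_lit 25) (nat_lit 5) (nat_lit 27) (nat_lit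 5) (nat_lit 26) (nat_lit 5) (nat_lit 317) (nat_lit 270) (nat_lit 193)) (XT.lf (nat_lit 0) (nat_lit 10183662656) (nat_lit 152) (nat_lit 1271094269) (nat_lit 76) (nat_lit 17548423835) (nat_lit 25) (nat_lit 5) (nat_lit 27) (nat_lit 5) (nat_lit 26) (nat_lit 5) (nat_lit 318) (nat_lit 270) (nat_lit 192))) (XT.nd (nat_lit 78) (nat_lit 76) (nat_lit 0) (XT.lf (nat_lit 0) (nat_lit 11516276391) (nat_lit 152) (nat_lit 4243827522) (nat_lit 228) (nat_lit 14310190707) (nat_lit 23) (nat_lit 5) (nat_lit 25) (nat_lit 5) (nat_lit 26) (nat_lit 5) (nat_lit 319) (nat_lit 270) (nat_lit 191)) (XT.nd (nat_lit 78) (nat_lit 76) (nat_lit 0) (XT.lf (nat_lit 0) (nat_lit 21673907745) (nat_lit 228) (nat_lit 6280847986) (nat_lit 76) (nat_lit 3233094205) (nat_lit 23) (nat_lit 5) (nat_lit 26) (nat_lit 5) (nat_lit 24) (nat_lit 4) (nat_lit 320) (nat_lit 270) (nat_lit 190)) (XT.lf (nat_lit 0) (nat_lit 6726953944) (nat_lit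 76) (nat_lit 21316480706) (nat_lit 152) (nat_lit 4309858903) (nat_lit 22) (nat_lit 5) (nat_lit 23) (nat_lit 5) (nat_lit 24) (nat_lit 4) (nat_lit 321) (nat_lit 270) (nat_lit 189))))))))
noncomputable def xc137 : XT := (XT.nd (nat_lit 1560) (nat_lit 456) (nat_lit 0) (XT.nd (nat_lit 780) (nat_lit 304) (nat_lit 0) (XT.nd (nat_lit 390) (nat_lit 228) (nat_lit 0) (XT.nd (nat_lit 156) (nat_lit 76) (nat_lit 0) (XT.nd (nat_lit 78) (nat_lit 152) (nat_lit 0) (XT.lf (nat_lit 0) (nat_lit 1211096271) (nat_lit 152) (nat_lit 13013107099) (nat_lit 76) (nat_lit 19347235001) (nat_lit 21) (nat_lit 5) (nat_lit 23) (nat_lit 5) (nat_lit 22) (nat_lit 5) (nat_lit 322) (nat_lit 270) (nat_lit 188)) (XT.lf (nat_lit 0) (nat_lit 140977762) (nat_lit 152) (nat_lit 6710676969) (nat_lit 228) (nat_lit 27995893799) (nat_lit 19) (nat_lit 5) (nat_lit 21) (nat_lit 5) (nat_lit 22) (nat_lit 5) (nat_lit 323) (nat_lit 270) (nat_lit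 187))) (XT.nd (nat_lit 78) (nat_lit 76) (nat_lit 0) (XT.lf (nat_lit 0) (nat_lit 13002972562) (nat_lit 228) (nat_lit 21817724702) (nat_lit 76) (nat_lit 1355340379) (nat_lit 19) (nat_lit 5) (nat_lit 22) (nat_lit 5) (nat_lit 20) (nat_lit 4) (nat_lit 324) (nat_lit 270) (nat_lit 186)) (XT.nd (nat_lit 78) (nat_lit 76) (nat_lit 0) (XT.lf (nat_lit 0) (nat_lit 19558853336) (nat_lit 228) (nat_lit 8417132479) (nat_lit 76) (nat_lit 9590125087) (nat_lit 19) (nat_lit 5) (nat_lit 22) (nat_lit 5) (nat_lit 20) (nat_lit 4) (nat_lit 325) (nat_lit 270) (nat_lit 185)) (XT.lf (nat_lit 0) (nat_lit 5818100084) (nat_lit 76) (nat_lit 20702870584) (nat_lit 152) (nat_lit 12500804120) (nat_lit 18) (nat_lit 5) (nat_lit 19) (nat_lit 5) (nat_lit 20) (nat_lit 4) (nat_lit 326) (nat_lit 270) (nat_lit 184))))) (XT.nd (nat_lit 156) (nat_lit 228) (nat_lit 0) (XT.nd (nat_lit 78) (nat_lit 0) (nat_lit 0) (XT.lf (nat_lit 0)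 (nat_lit 21036061766) (nat_lit 76) (nat_lit 12925544318) (nat_lit 152) (nat_lit 6582103828) (nat_lit 18) (nat_lit 5) (nat_lit 19) (nat_lit 5) (nat_lit 20) (nat_lit 4) (nat_lit 327) (nat_lit 270) (nat_lit 183)) (XT.lf (nat_lit 0) (nat_lit 36994677395) (nat_lit 76) (nat_lit 4768037785) (nat_lit 152) (nat_lit 379612759) (nat_lit 18) (nat_lit 5) (nat_lit 19) (nat_lit 5) (nat_lit 20) (nat_lit 4) (nat_lit 328) (nat_lit 270) (nat_lit 182))) (XT.nd (nat_lit 78) (nat_lit 0) (nat_lit 0) (XT.lf (nat_lit 0) (nat_lit 6147138091) (nat_lit 228) (nat_lit 33732599276) (nat_lit 76) (nat_lit 3925837831) (nat_lit 15) (nat_lit 5) (nat_lit 18) (nat_lit 5) (nat_lit 16) (nat_lit 4) (nat_lit 329) (nat_lit 270) (nat_lit 181)) (XT.nd (nat_lit 78) (nat_lit 0) (nat_lit 0) (XT.lf (nat_lit 0) (nat_lit 13143145297) (nat_lit 228) (nat_lit 19419859569) (nat_lit 76) (nat_lit 12980892103) (nat_lit 15) (nat_lit 5) (nat_lit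 18) (nat_lit 5) (nat_lit 16) (nat_lit 4) (nat_lit 330) (nat_lit 270) (nat_lit 180)) (XT.lf (nat_lit 0) (nat_lit 20478385848) (nat_lit 228) (nat_lit 4410306975) (nat_lit 76) (nat_lit 22480977136) (nat_lit 15) (nat_lit 5) (nat_lit 18) (nat_lit 5) (nat_lit 16) (nat_lit 4) (nat_lit 331) (nat_lit 270) (nat_lit 179)))))) (XT.nd (nat_lit 390) (nat_lit 76) (nat_lit 0) (XT.nd (nat_lit 156) (nat_lit 152) (nat_lit 0) (XT.nd (nat_lit 78) (nat_lit 0) (nat_lit 0) (XT.lf (nat_lit 0) (nat_lit 11706475871) (nat_lit 76) (nat_lit 16646619628) (nat_lit 152) (nat_lit 20925007205) (nat_lit 14) (nat_lit 5) (nat_lit 15) (nat_lit 5) (nat_lit 16) (nat_lit 4) (nat_lit 332) (nat_lit 270) (nat_lit 178)) (XT.lf (nat_lit 0) (nat_lit 28764575203) (nat_lit 76) (nat_lit 7921796132) (nat_lit 152) (nat_lit 14592350368) (nat_lit 14) (nat_lit 5) (nat_lit 15) (nat_lit 5) (nat_lit 16) (nat_lit 4) (nat_lit 333) (nat_lit 270)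 (nat_lit 177))) (XT.nd (nat_lit 78) (nat_lit 152) (nat_lit 0) (XT.lf (nat_lit 0) (nat_lit 45446153299) (nat_lit 152) (nat_lit 6740298952) (nat_lit 0) (nat_lit 1192433145) (nat_lit 14) (nat_lit 5) (nat_lit 16) (nat_lit 4) (nat_lit 14) (nat_lit 4) (nat_lit 334) (nat_lit 270) (nat_lit 176)) (XT.nd (nat_lit 78) (nat_lit 76) (nat_lit 0) (XT.lf (nat_lit 0) (nat_lit 9995967572) (nat_lit 76) (nat_lit 44924833918) (nat_lit 76) (nat_lit 649417504) (nat_lit 13) (nat_lit 4) (nat_lit 14) (nat_lit 5) (nat_lit 14) (nat_lit 4) (nat_lit 335) (nat_lit 270) (nat_lit 175)) (XT.lf (nat_lit 0) (nat_lit 6881078685) (nat_lit 152) (nat_lit 30189868213) (nat_lit 76) (nat_lit 20789364588) (nat_lit 12) (nat_lit 5) (nat_lit 14) (nat_lit 5) (nat_lit 13) (nat_lit 4) (nat_lit 336) (nat_lit 270) (nat_lit 174))))) (XT.nd (nat_lit 156) (nat_lit 0) (nat_lit 0) (XT.nd (nat_lit 78) (nat_lit 76) (nat_lit 0) (XT.lf (nat_lit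 0) (nat_lit 14757680752) (nat_lit 152) (nat_lit 14062513122) (nat_lit 76) (nat_lit 31444616951) (nat_lit 12) (nat_lit 5) (nat_lit 14) (nat_lit 5) (nat_lit 13) (nat_lit 4) (nat_lit 337) (nat_lit 270) (nat_lit 173)) (XT.lf (nat_lit 0) (nat_lit 2950795423) (nat_lit 76) (nat_lit 20115202690) (nat_lit 152) (nat_lit 39721647349) (nat_lit 11) (nat_lit 5) (nat_lit 12) (nat_lit 5) (nat_lit 13) (nat_lit 4) (nat_lit 338) (nat_lit 270) (nat_lit 172))) (XT.nd (nat_lit 78) (nat_lit 0) (nat_lit 0) (XT.lf (nat_lit 0) (nat_lit 21288369564) (nat_lit 76) (nat_lit 10731493772) (nat_lit 152) (nat_lit 33405256267) (nat_lit 11) (nat_lit 5) (nat_lit 12) (nat_lit 5) (nat_lit 13) (nat_lit 4) (nat_lit 339) (nat_lit 270) (nat_lit 171)) (XT.nd (nat_lit 78) (nat_lit 0) (nat_lit 0) (XT.lf (nat_lit 0) (nat_lit 40528899999) (nat_lit 76) (nat_lit 884880421) (nat_lit 152) (nat_lit 26781073264) (nat_lit 11) (nat_lit 5)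 (nat_lit 12) (nat_lit 5) (nat_lit 13) (nat_lit 4) (nat_lit 340) (nat_lit 270) (nat_lit 170)) (XT.lf (nat_lit 0) (nat_lit 51417626868) (nat_lit 152) (nat_lit 10532755830) (nat_lit 0) (nat_lit 9145684062) (nat_lit 11) (nat_lit 5) (nat_lit 13) (nat_lit 4) (nat_lit 11) (nat_lit 4) (nat_lit 341) (nat_lit 270) (nat_lit 169))))))) (XT.nd (nat_lit 780) (nat_lit 152) (nat_lit 0) (XT.nd (nat_lit 390) (nat_lit 76) (nat_lit 0) (XT.nd (nat_lit 156) (nat_lit 152) (nat_lit 0) (XT.nd (nat_lit 78) (nat_lit 0) (nat_lit 0) (XT.lf (nat_lit 0) (nat_lit 7675365907) (nat_lit 76) (nat_lit 54373620016) (nat_lit 76) (nat_lit 12086992328) (nat_lit 10) (nat_lit 4) (nat_lit 11) (nat_lit 5) (nat_lit 11) (nat_lit 4) (nat_lit 342) (nat_lit 270) (nat_lit 168)) (XT.lf (nat_lit 0) (nat_lit 27146885707) (nat_lit 76) (nat_lit 46236520906) (nat_lit 76) (nat_lit 3935907616) (nat_lit 10) (nat_lit 4) (nat_lit 11) (nat_lit 5)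 (nat_lit 11) (nat_lit 4) (nat_lit 343) (nat_lit 270) (nat_lit 167))) (XT.nd (nat_lit 78) (nat_lit 76) (nat_lit 0) (XT.lf (nat_lit 0) (nat_lit 4468108428) (nat_lit 152) (nat_lit 33154310634) (nat_lit 76) (nat_lit 43036125850) (nat_lit 9) (nat_lit 5) (nat_lit 11) (nat_lit 5) (nat_lit 10) (nat_lit 4) (nat_lit 344) (nat_lit 270) (nat_lit 166)) (XT.nd (nat_lit 78) (nat_lit 76) (nat_lit 0) (XT.lf (nat_lit 0) (nat_lit 13153703797) (nat_lit 152) (nat_lit 15361525480) (nat_lit 76) (nat_lit 55646602262) (nat_lit 9) (nat_lit 5) (nat_lit 11) (nat_lit 5) (nat_lit 10) (nat_lit 4) (nat_lit 345) (nat_lit 270) (nat_lit 165)) (XT.lf (nat_lit 0) (nat_lit 3419176252) (nat_lit 76) (nat_lit 18901738774) (nat_lit 152) (nat_lit 65517003626) (nat_lit 8) (nat_lit 5) (nat_lit 9) (nat_lit 5) (nat_lit 10) (nat_lit 4) (nat_lit 346) (nat_lit 270) (nat_lit 164))))) (XT.nd (nat_lit 156) (nat_lit 76) (nat_lit 0) (XT.nd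 (nat_lit 78) (nat_lit 0) (nat_lit 0) (XT.lf (nat_lit 0) (nat_lit 23661252841) (nat_lit 76) (nat_lit 8539458565) (nat_lit 152) (nat_lit 59484390303) (nat_lit 8) (nat_lit 5) (nat_lit 9) (nat_lit 5) (nat_lit 10) (nat_lit 4) (nat_lit 347) (nat_lit 270) (nat_lit 163)) (XT.lf (nat_lit 0) (nat_lit 42605323235) (nat_lit 152) (nat_lit 50856424214) (nat_lit 0) (nat_lit 2261357874) (nat_lit 8) (nat_lit 5) (nat_lit 10) (nat_lit 4) (nat_lit 8) (nat_lit 4) (nat_lit 348) (nat_lit 270) (nat_lit 162))) (XT.nd (nat_lit 78) (nat_lit 76) (nat_lit 0) (XT.lf (nat_lit 0) (nat_lit 53664706362) (nat_lit 152) (nat_lit 32980776581) (nat_lit 0) (nat_lit 13310801694) (nat_lit 8) (nat_lit 5) (nat_lit 10) (nat_lit 4) (nat_lit 8) (nat_lit 4) (nat_lit 349) (nat_lit 270) (nat_lit 161)) (XT.nd (nat_lit 78) (nat_lit 76) (nat_lit 0) (XT.lf (nat_lit 0) (nat_lit 65271867773) (nat_lit 152) (nat_lit 14221020023) (nat_lit 0)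 (nat_lit 24908497099) (nat_lit 8) (nat_lit 5) (nat_lit 10) (nat_lit 4) (nat_lit 8) (nat_lit 4) (nat_lit 350) (nat_lit 270) (nat_lit 160)) (XT.lf (nat_lit 0) (nat_lit 5648292169) (nat_lit 76) (nat_lit 71894337067) (nat_lit 76) (nat_lit 31521951149) (nat_lit 7) (nat_lit 4) (nat_lit 8) (nat_lit 5) (nat_lit 8) (nat_lit 4) (nat_lit 351) (nat_lit 270) (nat_lit 159)))))) (XT.nd (nat_lit 390) (nat_lit 76) (nat_lit 0) (XT.nd (nat_lit 156) (nat_lit 76) (nat_lit 0) (XT.nd (nat_lit 78) (nat_lit 0) (nat_lit 0) (XT.lf (nat_lit 0) (nat_lit 26995727452) (nat_lit 76) (nat_lit 63667191384) (nat_lit 76) (nat_lit 23286219519) (nat_lit 7) (nat_lit 4) (nat_lit 8) (nat_lit 5) (nat_lit 8) (nat_lit 4) (nat_lit 352) (nat_lit 270) (nat_lit 158)) (XT.lf (nat_lit 0) (nat_lit 49401901906) (nat_lit 76) (nat_lit 55032702160) (nat_lit 76) (nat_lit 14643553203) (nat_lit 7) (nat_lit 4) (nat_lit 8) (nat_lit 5) (nat_lit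 8) (nat_lit 4) (nat_lit 353) (nat_lit 270) (nat_lit 157))) (XT.nd (nat_lit 78) (nat_lit 76) (nat_lit 0) (XT.lf (nat_lit 0) (nat_lit 72920163566) (nat_lit 76) (nat_lit 45970311087) (nat_lit 76) (nat_lit 5573374424) (nat_lit 7) (nat_lit 4) (nat_lit 8) (nat_lit 5) (nat_lit 8) (nat_lit 4) (nat_lit 354) (nat_lit 270) (nat_lit 156)) (XT.nd (nat_lit 78) (nat_lit 0) (nat_lit 0) (XT.lf (nat_lit 0) (nat_lit 3819618640) (nat_lit 152) (nat_lit 32574135314) (nat_lit 76) (nat_lit 93722202562) (nat_lit 6) (nat_lit 5) (nat_lit 8) (nat_lit 5) (nat_lit 7) (nat_lit 4) (nat_lit 355) (nat_lit 270) (nat_lit 155)) (XT.lf (nat_lit 0) (nat_lit 13490902327) (nat_lit 152) (nat_lit 12755067435) (nat_lit 76) (nat_lit 109800335810) (nat_lit 6) (nat_lit 5) (nat_lit 8) (nat_lit 5) (nat_lit 7) (nat_lit 4) (nat_lit 356) (nat_lit 270) (nat_lit 154))))) (XT.nd (nat_lit 156) (nat_lit 0) (nat_lit 0) (XT.nd (nat_lit 78) (nat_lit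 0) (nat_lit 0) (XT.lf (nat_lit 0) (nat_lit 8313816421) (nat_lit 76) (nat_lit 15457871842) (nat_lit 152) (nat_lit 118495188562) (nat_lit 5) (nat_lit 5) (nat_lit 6) (nat_lit 5) (nat_lit 7) (nat_lit 4) (nat_lit 357) (nat_lit 270) (nat_lit 153)) (XT.lf (nat_lit 0) (nat_lit 30871856786) (nat_lit 76) (nat_lit 3906878956) (nat_lit 152) (nat_lit 114009131357) (nat_lit 5) (nat_lit 5) (nat_lit 6) (nat_lit 5) (nat_lit 7) (nat_lit 4) (nat_lit 358) (nat_lit 270) (nat_lit 152))) (XT.nd (nat_lit 78) (nat_lit 0) (nat_lit 0) (XT.lf (nat_lit 0) (nat_lit 46460838909) (nat_lit 152) (nat_lit 101212379546) (nat_lit 0) (nat_lit 7955454759) (nat_lit 5) (nat_lit 5) (nat_lit 7) (nat_lit 4) (nat_lit 5) (nat_lit 4) (nat_lit 359) (nat_lit 270) (nat_lit 151)) (XT.nd (nat_lit 78) (nat_lit 0) (nat_lit 0) (XT.lf (nat_lit 0) (nat_lit 58787608817) (nat_lit 152) (nat_lit 83744194073) (nat_lit 0) (nat_lit 20276690089) (nat_lit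 5) (nat_lit 5) (nat_lit 7) (nat_lit 4) (nat_lit 5) (nat_lit 4) (nat_lit 360) (nat_lit 270) (nat_lit 150)) (XT.lf (nat_lit 0) (nat_lit 71727397589) (nat_lit 152) (nat_lit 65408865647) (nat_lit 0) (nat_lit 33211207835) (nat_lit 5) (nat_lit 5) (nat_lit 7) (nat_lit 4) (nat_lit 5) (nat_lit 4) (nat_lit 361) (nat_lit 270) (nat_lit 149))))))))
noncomputable def xc138 : XT := (XT.nd (nat_lit 1560) (nat_lit 0) (nat_lit 0) (XT.nd (nat_lit 780) (nat_lit 152) (nat_lit 0) (XT.nd (nat_lit 390) (nat_lit 0) (nat_lit 0) (XT.nd (nat_lit 156) (nat_lit 76) (nat_lit 0) (XT.nd (nat_lit 78) (nat_lit 0) (nat_lit 0) (XT.lf (nat_lit 0) (nat_lit 85311014245) (nat_lit 152) (nat_lit 46162738725) (nat_lit 0) (nat_lit 46789804465) (nat_lit 5) (nat_lit 5) (nat_lit 7) (nat_lit 4) (nat_lit 5) (nat_lit 4) (nat_lit 362) (nat_lit 270) (nat_lit 148)) (XT.lf (nat_lit 0) (nat_lit 99570800729) (nat_lit 152) (nat_lit 25959989195)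 (nat_lit 0) (nat_lit 61044809973) (nat_lit 5) (nat_lit 5) (nat_lit 7) (nat_lit 4) (nat_lit 5) (nat_lit 4) (nat_lit 363) (nat_lit 270) (nat_lit 147))) (XT.nd (nat_lit 78) (nat_lit 76) (nat_lit 0) (XT.lf (nat_lit 0) (nat_lit 114540708915) (nat_lit 152) (nat_lit 4752515272) (nat_lit 0) (nat_lit 76010164848) (nat_lit 5) (nat_lit 5) (nat_lit 7) (nat_lit 4) (nat_lit 5) (nat_lit 4) (nat_lit 364) (nat_lit 270) (nat_lit 146)) (XT.nd (nat_lit 78) (nat_lit 0) (nat_lit 0) (XT.lf (nat_lit 0) (nat_lit 18089142560) (nat_lit 76) (nat_lit 112449661091) (nat_lit 76) (nat_lit 73914780537) (nat_lit 4) (nat_lit 4) (nat_lit 5) (nat_lit 5) (nat_lit 5) (nat_lit 4) (nat_lit 365) (nat_lit 270) (nat_lit 145)) (XT.lf (nat_lit 0) (nat_lit 42232807716) (nat_lit 76) (nat_lit 105181801344) (nat_lit 76) (nat_lit 66642790804) (nat_lit 4) (nat_lit 4) (nat_lit 5) (nat_lit 5) (nat_lit 5) (nat_lit 4) (nat_lit 366) (nat_lit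 270) (nat_lit 144))))) (XT.nd (nat_lit 156) (nat_lit 0) (nat_lit 0) (XT.nd (nat_lit 78) (nat_lit 0) (nat_lit 0) (XT.lf (nat_lit 0) (nat_lit 67578825493) (nat_lit 76) (nat_lit 97552826666) (nat_lit 76) (nat_lit 59009882804) (nat_lit 4) (nat_lit 4) (nat_lit 5) (nat_lit 5) (nat_lit 5) (nat_lit 4) (nat_lit 367) (nat_lit 270) (nat_lit 143)) (XT.lf (nat_lit 0) (nat_lit 94187543554) (nat_lit 76) (nat_lit 89544572830) (nat_lit 76) (nat_lit 50997882949) (nat_lit 4) (nat_lit 4) (nat_lit 5) (nat_lit 5) (nat_lit 5) (nat_lit 4) (nat_lit 368) (nat_lit 270) (nat_lit 142))) (XT.nd (nat_lit 78) (nat_lit 0) (nat_lit 0) (XT.lf (nat_lit 0) (nat_lit 122122315990) (nat_lit 76) (nat_lit 81137972566) (nat_lit 76) (nat_lit 42587715046) (nat_lit 4) (nat_lit 4) (nat_lit 5) (nat_lit 5) (nat_lit 5) (nat_lit 4) (nat_lit 369) (nat_lit 270) (nat_lit 141)) (XT.nd (nat_lit 78) (nat_lit 0) (nat_lit 0) (XT.lf (nat_lit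 0) (nat_lit 151449654162) (nat_lit 76) (nat_lit 72313010159) (nat_lit 76) (nat_lit 33759354888) (nat_lit 4) (nat_lit 4) (nat_lit 5) (nat_lit 5) (nat_lit 5) (nat_lit 4) (nat_lit 370) (nat_lit 270) (nat_lit 140)) (XT.lf (nat_lit 0) (nat_lit 182239385067) (nat_lit 76) (nat_lit 63048673793) (nat_lit 76) (nat_lit 24491782569) (nat_lit 4) (nat_lit 4) (nat_lit 5) (nat_lit 5) (nat_lit 5) (nat_lit 4) (nat_lit 371) (nat_lit 270) (nat_lit 139)))))) (XT.nd (nat_lit 390) (nat_lit 0) (nat_lit 0) (XT.nd (nat_lit 156) (nat_lit 152) (nat_lit 0) (XT.nd (nat_lit 78) (nat_lit 0) (nat_lit 0) (XT.lf (nat_lit 0) (nat_lit 214564817588) (nat_lit 76) (nat_lit 53322905524) (nat_lit 76) (nat_lit 14762932441) (nat_lit 4) (nat_lit 4) (nat_lit 5) (nat_lit 5) (nat_lit 5) (nat_lit 4) (nat_lit 372) (nat_lit 270) (nat_lit 138)) (XT.lf (nat_lit 0) (nat_lit 248502917040) (nat_lit 76) (nat_lit 43112548763) (nat_lit 76) (nat_lit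 4549640575) (nat_lit 4) (nat_lit 4) (nat_lit 5) (nat_lit 5) (nat_lit 5) (nat_lit 4) (nat_lit 373) (nat_lit 270) (nat_lit 137))) (XT.nd (nat_lit 78) (nat_lit 76) (nat_lit 0) (XT.lf (nat_lit 0) (nat_lit 5974854711) (nat_lit 152) (nat_lit 26317251368) (nat_lit 76) (nat_lit 278058446655) (nat_lit 3) (nat_lit 5) (nat_lit 5) (nat_lit 5) (nat_lit 4) (nat_lit 4) (nat_lit 374) (nat_lit 270) (nat_lit 136)) (XT.nd (nat_lit 78) (nat_lit 76) (nat_lit 0) (XT.lf (nat_lit 0) (nat_lit 16870920332) (nat_lit 152) (nat_lit 3982979071) (nat_lit 76) (nat_lit 304387731277) (nat_lit 3) (nat_lit 5) (nat_lit 5) (nat_lit 5) (nat_lit 4) (nat_lit 4) (nat_lit 375) (nat_lit 270) (nat_lit 135)) (XT.lf (nat_lit 0) (nat_lit 20108432449) (nat_lit 76) (nat_lit 8515632748) (nat_lit 152) (nat_lit 312237584150) (nat_lit 2) (nat_lit 5) (nat_lit 3) (nat_lit 5) (nat_lit 4) (nat_lit 4) (nat_lit 376) (nat_lit 270) (nat_lit 134)))))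 (XT.nd (nat_lit 156) (nat_lit 0) (nat_lit 0) (XT.nd (nat_lit 78) (nat_lit 0) (nat_lit 0) (XT.lf (nat_lit 0) (nat_lit 41101075457) (nat_lit 152) (nat_lit 311790199573) (nat_lit 0) (nat_lit 4364584100) (nat_lit 2) (nat_lit 5) (nat_lit 4) (nat_lit 4) (nat_lit 2) (nat_lit 4) (nat_lit 377) (nat_lit 270) (nat_lit 133)) (XT.lf (nat_lit 0) (nat_lit 54339950957) (nat_lit 152) (nat_lit 302521658893) (nat_lit 0) (nat_lit 17601269380) (nat_lit 2) (nat_lit 5) (nat_lit 4) (nat_lit 4) (nat_lit 2) (nat_lit 4) (nat_lit 378) (nat_lit 270) (nat_lit 132))) (XT.nd (nat_lit 78) (nat_lit 0) (nat_lit 0) (XT.lf (nat_lit 0) (nat_lit 68239259938) (nat_lit 152) (nat_lit 292792574011) (nat_lit 0) (nat_lit 31498492437) (nat_lit 2) (nat_lit 5) (nat_lit 4) (nat_lit 4) (nat_lit 2) (nat_lit 4) (nat_lit 379) (nat_lit 270) (nat_lit 131)) (XT.nd (nat_lit 78) (nat_lit 0) (nat_lit 0) (XT.lf (nat_lit 0) (nat_lit 82832095993)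 (nat_lit 152) (nat_lit 282579780439) (nat_lit 0) (nat_lit 46089341897) (nat_lit 2) (nat_lit 5) (nat_lit 4) (nat_lit 4) (nat_lit 2) (nat_lit 4) (nat_lit 380) (nat_lit 270) (nat_lit 130)) (XT.lf (nat_lit 0) (nat_lit 98153203969) (nat_lit 152) (nat_lit 271858962003) (nat_lit 0) (nat_lit 61408557879) (nat_lit 2) (nat_lit 5) (nat_lit 4) (nat_lit 4) (nat_lit 2) (nat_lit 4) (nat_lit 381) (nat_lit 270) (nat_lit 129))))))) (XT.nd (nat_lit 32370) (nat_lit 0) (nat_lit 5776) (XT.nd (nat_lit 31980) (nat_lit 0) (nat_lit 7524) (XT.nd (nat_lit 156) (nat_lit 0) (nat_lit 0) (XT.nd (nat_lit 78) (nat_lit 0) (nat_lit 0) (XT.lf (nat_lit 0) (nat_lit 114239062694) (nat_lit 152) (nat_lit 260604592944) (nat_lit 0) (nat_lit 77492614705) (nat_lit 2) (nat_lit 5) (nat_lit 4) (nat_lit 4) (nat_lit 2) (nat_lit 4) (nat_lit 382) (nat_lit 270) (nat_lit 128)) (XT.lf (nat_lit 0) (nat_lit 131127971834) (nat_lit 152) (nat_lit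 248789877146) (nat_lit 0) (nat_lit 94379807749) (nat_lit 2) (nat_lit 5) (nat_lit 4) (nat_lit 4) (nat_lit 2) (nat_lit 4) (nat_lit 383) (nat_lit 270) (nat_lit 127))) (XT.nd (nat_lit 78) (nat_lit 0) (nat_lit 0) (XT.lf (nat_lit 0) (nat_lit 148860143075) (nat_lit 152) (nat_lit 236386684332) (nat_lit 0) (nat_lit 112110344614) (nat_lit 2) (nat_lit 5) (nat_lit 4) (nat_lit 4) (nat_lit 2) (nat_lit 4) (nat_lit 384) (nat_lit 270) (nat_lit 126)) (XT.nd (nat_lit 78) (nat_lit 0) (nat_lit 0) (XT.lf (nat_lit 0) (nat_lit 167477795874) (nat_lit 152) (nat_lit 223365483091) (nat_lit 0) (nat_lit 130726440864) (nat_lit 2) (nat_lit 5) (nat_lit 4) (nat_lit 4) (nat_lit 2) (nat_lit 4) (nat_lit 385) (nat_lit 270) (nat_lit 125)) (XT.lf (nat_lit 0) (nat_lit 187025257974) (nat_lit 152) (nat_lit 209695270563) (nat_lit 0) (nat_lit 150272420537) (nat_lit 2) (nat_lit 5) (nat_lit 4) (nat_lit 4) (nat_lit 2) (nat_lit 4)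 (nat_lit 386) (nat_lit 270) (nat_lit 124))))) (XT.nd (nat_lit 156) (nat_lit 532) (nat_lit 0) (XT.nd (nat_lit 78) (nat_lit 0) (nat_lit 0) (XT.lf (nat_lit 0) (nat_lit 1006803335) (nat_lit 0) (nat_lit 1006803335) (nat_lit 532) (nat_lit 1920149220) (nat_lit 108) (nat_lit 5) (nat_lit 108) (nat_lit 3) (nat_lit 115) (nat_lit 3) (nat_lit 271) (nat_lit 271) (nat_lit 238)) (XT.lf (nat_lit 0) (nat_lit 5322214959) (nat_lit 532) (nat_lit 2237672784) (nat_lit 608) (nat_lit 441811072) (nat_lit 108) (nat_lit 5) (nat_lit 115) (nat_lit 3) (nat_lit 116) (nat_lit 5) (nat_lit 272) (nat_lit 271) (nat_lit 237))) (XT.nd (nat_lit 78) (nat_lit 532) (nat_lit 0) (XT.lf (nat_lit 76) (nat_lit 1532853152) (nat_lit 0) (nat_lit 5130653506) (nat_lit 608) (nat_lit 1480189796) (nat_lit 109) (nat_lit 5) (nat_lit 108) (nat_lit 5) (nat_lit 116) (nat_lit 5) (nat_lit 273) (nat_lit 271) (nat_lit 236)) (XT.nd (nat_lit 78) (nat_lit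 532) (nat_lit 0) (XT.lf (nat_lit 76) (nat_lit 5527709992) (nat_lit 0) (nat_lit 2509583619) (nat_lit 608) (nat_lit 257398599) (nat_lit 109) (nat_lit 5) (nat_lit 108) (nat_lit 5) (nat_lit 116) (nat_lit 5) (nat_lit 274) (nat_lit 271) (nat_lit 235)) (XT.lf (nat_lit 0) (nat_lit 947706964) (nat_lit 608) (nat_lit 7209225974) (nat_lit 684) (nat_lit 297955933) (nat_lit 101) (nat_lit 5) (nat_lit 109) (nat_lit 5) (nat_lit 110) (nat_lit 5) (nat_lit 275) (nat_lit 271) (nat_lit 234)))))) (XT.nd (nat_lit 390) (nat_lit 1748) (nat_lit 0) (XT.nd (nat_lit 156) (nat_lit 0) (nat_lit 76) (XT.nd (nat_lit 78) (nat_lit 0) (nat_lit 0) (XT.lf (nat_lit 0) (nat_lit 2225985731) (nat_lit 608) (nat_lit 3157492049) (nat_lit 684) (nat_lit 3238474846) (nat_lit 101) (nat_lit 5) (nat_lit 109) (nat_lit 5) (nat_lit 110) (nat_lit 5) (nat_lit 276) (nat_lit 271) (nat_lit 233)) (XT.lf (nat_lit 76) (nat_lit 1088215629) (nat_lit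 0) (nat_lit 2432952054) (nat_lit 684) (nat_lit 5278692090) (nat_lit 102) (nat_lit 5) (nat_lit 101) (nat_lit 5) (nat_lit 110) (nat_lit 5) (nat_lit 277) (nat_lit 271) (nat_lit 232))) (XT.nd (nat_lit 78) (nat_lit 0) (nat_lit 0) (XT.lf (nat_lit 0) (nat_lit 4884517316) (nat_lit 608) (nat_lit 3385670342) (nat_lit 684) (nat_lit 716437207) (nat_lit 102) (nat_lit 5) (nat_lit 110) (nat_lit 5) (nat_lit 111) (nat_lit 5) (nat_lit 278) (nat_lit 271) (nat_lit 231)) (XT.nd (nat_lit 78) (nat_lit 0) (nat_lit 0) (XT.lf (nat_lit 76) (nat_lit 1108136657) (nat_lit 0) (nat_lit 5206677861) (nat_lit 684) (nat_lit 2868101372) (nat_lit 103) (nat_lit 5) (nat_lit 102) (nat_lit 5) (nat_lit 111) (nat_lit 5) (nat_lit 279) (nat_lit 271) (nat_lit 230)) (XT.lf (nat_lit 76) (nat_lit 5900838967) (nat_lit 0) (nat_lit 1916824678) (nat_lit 684) (nat_lit 1571426619) (nat_lit 103) (nat_lit 5) (nat_lit 102) (nat_lit 5) (nat_lit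 111) (nat_lit 5) (nat_lit 280) (nat_lit 271) (nat_lit 229))))) (XT.nd (nat_lit 156) (nat_lit 1216) (nat_lit 0) (XT.nd (nat_lit 78) (nat_lit 76) (nat_lit 0) (XT.lf (nat_lit 0) (nat_lit 1300974519) (nat_lit 608) (nat_lit 8085570427) (nat_lit 684) (nat_lit 219598829) (nat_lit 95) (nat_lit 5) (nat_lit 103) (nat_lit 5) (nat_lit 104) (nat_lit 5) (nat_lit 281) (nat_lit 271) (nat_lit 228)) (XT.lf (nat_lit 0) (nat_lit 1200371481) (nat_lit 684) (nat_lit 3476844200) (nat_lit 76) (nat_lit 5154054231) (nat_lit 94) (nat_lit 5) (nat_lit 103) (nat_lit 5) (nat_lit 95) (nat_lit 5) (nat_lit 282) (nat_lit 271) (nat_lit 227))) (XT.nd (nat_lit 78) (nat_lit 532) (nat_lit 0) (XT.lf (nat_lit 0) (nat_lit 1597189083) (nat_lit 684) (nat_lit 1061694386) (nat_lit 760) (nat_lit 7409941992) (nat_lit 85) (nat_lit 5) (nat_lit 94) (nat_lit 5) (nat_lit 95) (nat_lit 5) (nat_lit 283) (nat_lit 271) (nat_lit 226)) (XT.nd (nat_lit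 78) (nat_lit 532) (nat_lit 0) (XT.lf (nat_lit 0) (nat_lit 4244657292) (nat_lit 760) (nat_lit 3358472750) (nat_lit 76) (nat_lit 2712506465) (nat_lit 85) (nat_lit 5) (nat_lit 95) (nat_lit 5) (nat_lit 86) (nat_lit 5) (nat_lit 284) (nat_lit 271) (nat_lit 225)) (XT.lf (nat_lit 0) (nat_lit 2014437696) (nat_lit 532) (nat_lit 3898227575) (nat_lit 608) (nat_lit 4662065593) (nat_lit 78) (nat_lit 5) (nat_lit 85) (nat_lit 5) (nat_lit 86) (nat_lit 5) (nat_lit 285) (nat_lit 271) (nat_lit 224))))))))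
noncomputable def xc139 : XT := (XT.nd (nat_lit 1560) (nat_lit 1596) (nat_lit 0) (XT.nd (nat_lit 780) (nat_lit 1140) (nat_lit 0) (XT.nd (nat_lit 390) (nat_lit 988) (nat_lit 0) (XT.nd (nat_lit 156) (nat_lit 380) (nat_lit 0) (XT.nd (nat_lit 78) (nat_lit 380) (nat_lit 0) (XT.lf (nat_lit 0) (nat_lit 7677405604) (nat_lit 608) (nat_lit 3116775658) (nat_lit 76) (nat_lit 52017823) (nat_lit 78) (nat_lit 5) (nat_lit 86) (nat_lit 5) (nat_lit 79) (nat_lit 5) (nat_lit 286) (nat_lit 271) (nat_lit 223)) (XT.lf (nat_lit 0) (nat_lit 2574925506) (nat_lit 380) (nat_lit 7017324934) (nat_lit 456) (nat_lit 1535978563) (nat_lit 73) (nat_lit 5) (nat_lit 78) (nat_lit 5) (nat_lit 79) (nat_lit 5) (nat_lit 287) (nat_lit 271) (nat_lit 222))) (XT.nd (nat_lit 78) (nat_lit 304) (nat_lit 0) (XT.lf (nat_lit 0) (nat_lit 184787547) (nat_lit 456) (nat_lit 2809219400) (nat_lit 76) (nat_lit 8429687072) (nat_lit 72) (nat_lit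 5) (nat_lit 78) (nat_lit 5) (nat_lit 73) (nat_lit 5) (nat_lit 288) (nat_lit 271) (nat_lit 221)) (XT.nd (nat_lit 78) (nat_lit 0) (nat_lit 0) (XT.lf (nat_lit 0) (nat_lit 1971660773) (nat_lit 380) (nat_lit 8492590294) (nat_lit 76) (nat_lit 1266908373) (nat_lit 68) (nat_lit 5) (nat_lit 73) (nat_lit 5) (nat_lit 69) (nat_lit 5) (nat_lit 289) (nat_lit 271) (nat_lit 220)) (XT.lf (nat_lit 0) (nat_lit 3906892076) (nat_lit 380) (nat_lit 2457698188) (nat_lit 76) (nat_lit 5686524330) (nat_lit 68) (nat_lit 5) (nat_lit 73) (nat_lit 5) (nat_lit 69) (nat_lit 5) (nat_lit 290) (nat_lit 271) (nat_lit 219))))) (XT.nd (nat_lit 156) (nat_lit 684) (nat_lit 0) (XT.nd (nat_lit 78) (nat_lit 0) (nat_lit 0) (XT.lf (nat_lit 0) (nat_lit 3965385431) (nat_lit 304) (nat_lit 1998816883) (nat_lit 380) (nat_lit 6421663307) (nat_lit 64) (nat_lit 5) (nat_lit 68) (nat_lit 5) (nat_lit 69) (nat_lit 5) (nat_lit 291) (nat_lit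 271) (nat_lit 218)) (XT.lf (nat_lit 0) (nat_lit 8171505262) (nat_lit 380) (nat_lit 2022953546) (nat_lit 76) (nat_lit 2540599967) (nat_lit 64) (nat_lit 5) (nat_lit 69) (nat_lit 5) (nat_lit 65) (nat_lit 5) (nat_lit 292) (nat_lit 271) (nat_lit 217))) (XT.nd (nat_lit 78) (nat_lit 380) (nat_lit 0) (XT.lf (nat_lit 0) (nat_lit 4774904739) (nat_lit 304) (nat_lit 5787737786) (nat_lit 380) (nat_lit 2535453639) (nat_lit 60) (nat_lit 5) (nat_lit 64) (nat_lit 5) (nat_lit 65) (nat_lit 5) (nat_lit 293) (nat_lit 271) (nat_lit 216)) (XT.nd (nat_lit 78) (nat_lit 380) (nat_lit 0) (XT.lf (nat_lit 0) (nat_lit 11943923119) (nat_lit 304) (nat_lit 1130828714) (nat_lit 380) (nat_lit 404518101) (nat_lit 60) (nat_lit 5) (nat_lit 64) (nat_lit 5) (nat_lit 65) (nat_lit 5) (nat_lit 294) (nat_lit 271) (nat_lit 215)) (XT.lf (nat_lit 0) (nat_lit 1892085497) (nat_lit 380) (nat_lit 8228033145) (nat_lit 76) (nat_lit 3752113619)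 (nat_lit 55) (nat_lit 5) (nat_lit 60) (nat_lit 5) (nat_lit 56) (nat_lit 5) (nat_lit 295) (nat_lit 271) (nat_lit 214)))))) (XT.nd (nat_lit 390) (nat_lit 684) (nat_lit 0) (XT.nd (nat_lit 156) (nat_lit 228) (nat_lit 0) (XT.nd (nat_lit 78) (nat_lit 228) (nat_lit 0) (XT.lf (nat_lit 0) (nat_lit 4303871941) (nat_lit 380) (nat_lit 1112197964) (nat_lit 76) (nat_lit 8867791616) (nat_lit 55) (nat_lit 5) (nat_lit 60) (nat_lit 5) (nat_lit 56) (nat_lit 5) (nat_lit 296) (nat_lit 271) (nat_lit 213)) (XT.lf (nat_lit 0) (nat_lit 6531245235) (nat_lit 228) (nat_lit 377431465) (nat_lit 304) (nat_lit 7803819567) (nat_lit 52) (nat_lit 5) (nat_lit 55) (nat_lit 5) (nat_lit 56) (nat_lit 5) (nat_lit 297) (nat_lit 271) (nat_lit 212))) (XT.nd (nat_lit 78) (nat_lit 228) (nat_lit 0) (XT.lf (nat_lit 0) (nat_lit 9710743264) (nat_lit 304) (nat_lit 681143057) (nat_lit 76) (nat_lit 4767368656) (nat_lit 52) (nat_lit 5)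 (nat_lit 56) (nat_lit 5) (nat_lit 53) (nat_lit 5) (nat_lit 298) (nat_lit 271) (nat_lit 211)) (XT.nd (nat_lit 78) (nat_lit 0) (nat_lit 0) (XT.lf (nat_lit 0) (nat_lit 7388077005) (nat_lit 228) (nat_lit 5358914336) (nat_lit 304) (nat_lit 2876697618) (nat_lit 49) (nat_lit 5) (nat_lit 52) (nat_lit 5) (nat_lit 53) (nat_lit 5) (nat_lit 299) (nat_lit 271) (nat_lit 210)) (XT.lf (nat_lit 0) (nat_lit 15848818704) (nat_lit 228) (nat_lit 71062703) (nat_lit 304) (nat_lit 192261034) (nat_lit 49) (nat_lit 5) (nat_lit 52) (nat_lit 5) (nat_lit 53) (nat_lit 5) (nat_lit 300) (nat_lit 271) (nat_lit 209))))) (XT.nd (nat_lit 156) (nat_lit 380) (nat_lit 0) (XT.nd (nat_lit 78) (nat_lit 0) (nat_lit 0) (XT.lf (nat_lit 0) (nat_lit 2734227502) (nat_lit 304) (nat_lit 8408698059) (nat_lit 76) (nat_lit 5470483830) (nat_lit 45) (nat_lit 5) (nat_lit 49) (nat_lit 5) (nat_lit 46) (nat_lit 5) (nat_lit 301) (nat_lit 271)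 (nat_lit 208)) (XT.lf (nat_lit 0) (nat_lit 5780946825) (nat_lit 304) (nat_lit 73991813) (nat_lit 76) (nat_lit 11285659013) (nat_lit 45) (nat_lit 5) (nat_lit 49) (nat_lit 5) (nat_lit 46) (nat_lit 5) (nat_lit 302) (nat_lit 271) (nat_lit 207))) (XT.nd (nat_lit 78) (nat_lit 152) (nat_lit 0) (XT.lf (nat_lit 0) (nat_lit 8929560620) (nat_lit 228) (nat_lit 165733157) (nat_lit 304) (nat_lit 8593119279) (nat_lit 42) (nat_lit 5) (nat_lit 45) (nat_lit 5) (nat_lit 46) (nat_lit 5) (nat_lit 303) (nat_lit 271) (nat_lit 206)) (XT.nd (nat_lit 78) (nat_lit 152) (nat_lit 0) (XT.lf (nat_lit 0) (nat_lit 12643666498) (nat_lit 304) (nat_lit 2597816) (nat_lit 76) (nat_lit 5613970274) (nat_lit 42) (nat_lit 5) (nat_lit 46) (nat_lit 5) (nat_lit 43) (nat_lit 5) (nat_lit 304) (nat_lit 271) (nat_lit 205)) (XT.lf (nat_lit 0) (nat_lit 9458923806) (nat_lit 152) (nat_lit 7038413852) (nat_lit 228) (nat_lit 2356944859)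 (nat_lit 40) (nat_lit 5) (nat_lit 42) (nat_lit 5) (nat_lit 43) (nat_lit 5) (nat_lit 305) (nat_lit 271) (nat_lit 204))))))) (XT.nd (nat_lit 780) (nat_lit 608) (nat_lit 0) (XT.nd (nat_lit 390) (nat_lit 532) (nat_lit 0) (XT.nd (nat_lit 156) (nat_lit 152) (nat_lit 0) (XT.nd (nat_lit 78) (nat_lit 228) (nat_lit 0) (XT.lf (nat_lit 0) (nat_lit 1009264161) (nat_lit 228) (nat_lit 133870637) (nat_lit 76) (nat_lit 18335207115) (nat_lit 39) (nat_lit 5) (nat_lit 42) (nat_lit 5) (nat_lit 40) (nat_lit 5) (nat_lit 306) (nat_lit 271) (nat_lit 203)) (XT.lf (nat_lit 0) (nat_lit 4678658640) (nat_lit 304) (nat_lit 10371270788) (nat_lit 76) (nat_lit 5071064060) (nat_lit 36) (nat_lit 5) (nat_lit 40) (nat_lit 5) (nat_lit 37) (nat_lit 5) (nat_lit 307) (nat_lit 271) (nat_lit 202))) (XT.nd (nat_lit 78) (nat_lit 152) (nat_lit 0) (XT.lf (nat_lit 0) (nat_lit 8531674680) (nat_lit 304) (nat_lit 713949077) (nat_lit 76)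 (nat_lit 11550170407) (nat_lit 36) (nat_lit 5) (nat_lit 40) (nat_lit 5) (nat_lit 37) (nat_lit 5) (nat_lit 308) (nat_lit 271) (nat_lit 201)) (XT.nd (nat_lit 78) (nat_lit 0) (nat_lit 0) (XT.lf (nat_lit 0) (nat_lit 9706772136) (nat_lit 152) (nat_lit 3002221770) (nat_lit 228) (nat_lit 8788781314) (nat_lit 34) (nat_lit 5) (nat_lit 36) (nat_lit 5) (nat_lit 37) (nat_lit 5) (nat_lit 309) (nat_lit 271) (nat_lit 200)) (XT.lf (nat_lit 0) (nat_lit 17143373121) (nat_lit 228) (nat_lit 1647100933) (nat_lit 76) (nat_lit 3441993447) (nat_lit 34) (nat_lit 5) (nat_lit 37) (nat_lit 5) (nat_lit 35) (nat_lit 5) (nat_lit 310) (nat_lit 271) (nat_lit 199))))) (XT.nd (nat_lit 156) (nat_lit 304) (nat_lit 0) (XT.nd (nat_lit 78) (nat_lit 76) (nat_lit 0) (XT.lf (nat_lit 0) (nat_lit 9220866511) (nat_lit 152) (nat_lit 12753144134) (nat_lit 228) (nat_lit 1021177615) (nat_lit 32) (nat_lit 5) (nat_lit 34) (nat_lit 5)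 (nat_lit 35) (nat_lit 5) (nat_lit 311) (nat_lit 271) (nat_lit 198)) (XT.lf (nat_lit 0) (nat_lit 3155945191) (nat_lit 228) (nat_lit 3185636547) (nat_lit 76) (nat_lit 17451453285) (nat_lit 31) (nat_lit 5) (nat_lit 34) (nat_lit 5) (nat_lit 32) (nat_lit 5) (nat_lit 312) (nat_lit 271) (nat_lit 197))) (XT.nd (nat_lit 78) (nat_lit 152) (nat_lit 0) (XT.lf (nat_lit 0) (nat_lit 7625494357) (nat_lit 228) (nat_lit 16484032242) (nat_lit 76) (nat_lit 514534067) (nat_lit 29) (nat_lit 5) (nat_lit 32) (nat_lit 5) (nat_lit 30) (nat_lit 5) (nat_lit 313) (nat_lit 271) (nat_lit 196)) (XT.nd (nat_lit 78) (nat_lit 152) (nat_lit 0) (XT.lf (nat_lit 0) (nat_lit 12459935172) (nat_lit 228) (nat_lit 5484292145) (nat_lit 76) (nat_lit 7545356702) (nat_lit 29) (nat_lit 5) (nat_lit 32) (nat_lit 5) (nat_lit 30) (nat_lit 5) (nat_lit 314) (nat_lit 271) (nat_lit 195)) (XT.lf (nat_lit 0) (nat_lit 6238356529) (nat_lit 152)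 (nat_lit 11378586494) (nat_lit 228) (nat_lit 8777414588) (nat_lit 27) (nat_lit 5) (nat_lit 29) (nat_lit 5) (nat_lit 30) (nat_lit 5) (nat_lit 315) (nat_lit 271) (nat_lit 194)))))) (XT.nd (nat_lit 390) (nat_lit 304) (nat_lit 0) (XT.nd (nat_lit 156) (nat_lit 152) (nat_lit 0) (XT.nd (nat_lit 78) (nat_lit 152) (nat_lit 0) (XT.lf (nat_lit 0) (nat_lit 18711226448) (nat_lit 152) (nat_lit 4397278151) (nat_lit 228) (nat_lit 4232045662) (nat_lit 27) (nat_lit 5) (nat_lit 29) (nat_lit 5) (nat_lit 30) (nat_lit 5) (nat_lit 316) (nat_lit 271) (nat_lit 193)) (XT.lf (nat_lit 0) (nat_lit 609782086) (nat_lit 152) (nat_lit 24824956173) (nat_lit 76) (nat_lit 2894581741) (nat_lit 25) (nat_lit 5) (nat_lit 27) (nat_lit 5) (nat_lit 26) (nat_lit 5) (nat_lit 317) (nat_lit 271) (nat_lit 192))) (XT.nd (nat_lit 78) (nat_lit 152) (nat_lit 0) (XT.lf (nat_lit 0) (nat_lit 5756627616) (nat_lit 152) (nat_lit 12985560100)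 (nat_lit 76) (nat_lit 10611627505) (nat_lit 25) (nat_lit 5) (nat_lit 27) (nat_lit 5) (nat_lit 26) (nat_lit 5) (nat_lit 318) (nat_lit 271) (nat_lit 191)) (XT.nd (nat_lit 78) (nat_lit 152) (nat_lit 0) (XT.lf (nat_lit 0) (nat_lit 11146079051) (nat_lit 152) (nat_lit 578770756) (nat_lit 76) (nat_lit 18705435002) (nat_lit 25) (nat_lit 5) (nat_lit 27) (nat_lit 5) (nat_lit 26) (nat_lit 5) (nat_lit 319) (nat_lit 271) (nat_lit 190)) (XT.lf (nat_lit 0) (nat_lit 12835776853) (nat_lit 152) (nat_lit 4155594015) (nat_lit 228) (nat_lit 14559900800) (nat_lit 23) (nat_lit 5) (nat_lit 25) (nat_lit 5) (nat_lit 26) (nat_lit 5) (nat_lit 320) (nat_lit 271) (nat_lit 189))))) (XT.nd (nat_lit 234) (nat_lit 152) (nat_lit 0) (XT.nd (nat_lit 78) (nat_lit 152) (nat_lit 0) (XT.lf (nat_lit 0) (nat_lit 23184224307) (nat_lit 228) (nat_lit 5869620051) (nat_lit 76) (nat_lit 3671710258) (nat_lit 23) (nat_lit 5) (nat_lit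 26) (nat_lit 5) (nat_lit 24) (nat_lit 4) (nat_lit 321) (nat_lit 271) (nat_lit 188)) (XT.nd (nat_lit 78) (nat_lit 76) (nat_lit 0) (XT.lf (nat_lit 0) (nat_lit 7776874067) (nat_lit 76) (nat_lit 22086179061) (nat_lit 152) (nat_lit 4086692996) (nat_lit 22) (nat_lit 5) (nat_lit 23) (nat_lit 5) (nat_lit 24) (nat_lit 4) (nat_lit 322) (nat_lit 271) (nat_lit 187)) (XT.lf (nat_lit 0) (nat_lit 1676050160) (nat_lit 152) (nat_lit 12970490227) (nat_lit 76) (nat_lit 20582941768) (nat_lit 21) (nat_lit 5) (nat_lit 23) (nat_lit 5) (nat_lit 22) (nat_lit 5) (nat_lit 323) (nat_lit 271) (nat_lit 186)))) (XT.nd (nat_lit 78) (nat_lit 0) (nat_lit 0) (XT.lf (nat_lit 0) (nat_lit 830117067) (nat_lit 152) (nat_lit 6759911720) (nat_lit 228) (nat_lit 28979814098) (nat_lit 19) (nat_lit 5) (nat_lit 21) (nat_lit 5) (nat_lit 22) (nat_lit 5) (nat_lit 324) (nat_lit 271) (nat_lit 185)) (XT.nd (nat_lit 78) (nat_lit 0) (nat_lit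 0) (XT.lf (nat_lit 0) (nat_lit 14034322381) (nat_lit 228) (nat_lit 22244131359) (nat_lit 76) (nat_lit 1687046196) (nat_lit 19) (nat_lit 5) (nat_lit 22) (nat_lit 5) (nat_lit 20) (nat_lit 4) (nat_lit 325) (nat_lit 271) (nat_lit 184)) (XT.lf (nat_lit 0) (nat_lit 20899844757) (nat_lit 228) (nat_lit 8205151410) (nat_lit 76) (nat_lit 10321001625) (nat_lit 19) (nat_lit 5) (nat_lit 22) (nat_lit 5) (nat_lit 20) (nat_lit 4) (nat_lit 326) (nat_lit 271) (nat_lit 183))))))))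
noncomputable def xc140 : XT := (XT.nd (nat_lit 1560) (nat_lit 380) (nat_lit 0) (XT.nd (nat_lit 780) (nat_lit 304) (nat_lit 0) (XT.nd (nat_lit 390) (nat_lit 152) (nat_lit 0) (XT.nd (nat_lit 156) (nat_lit 228) (nat_lit 0) (XT.nd (nat_lit 78) (nat_lit 0) (nat_lit 0) (XT.lf (nat_lit 0) (nat_lit 6731635722) (nat_lit 76) (nat_lit 21470865206) (nat_lit 152) (nat_lit 12752334971) (nat_lit 18) (nat_lit 5) (nat_lit 19) (nat_lit 5) (nat_lit 20) (nat_lit 4) (nat_lit 327) (nat_lit 271) (nat_lit 182)) (XT.lf (nat_lit 0) (nat_lit 22680846410) (nat_lit 76) (nat_lit 13317394004) (nat_lit 152) (nat_lit 6555485825) (nat_lit 18) (nat_lit 5) (nat_lit 19) (nat_lit 5) (nat_lit 20) (nat_lit 4) (nat_lit 328) (nat_lit 271) (nat_lit 181))) (XT.nd (nat_lit 78) (nat_lit 228) (nat_lit 0) (XT.lf (nat_lit 0) (nat_lit 39409155604) (nat_lit 76) (nat_lit 4764127741) (nat_lit 152) (nat_lit 59809402) (nat_lit 18) (nat_lit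 5) (nat_lit 19) (nat_lit 5) (nat_lit 20) (nat_lit 4) (nat_lit 329) (nat_lit 271) (nat_lit 180)) (XT.nd (nat_lit 78) (nat_lit 0) (nat_lit 0) (XT.lf (nat_lit 0) (nat_lit 6779495113) (nat_lit 228) (nat_lit 34840273416) (nat_lit 76) (nat_lit 4359626835) (nat_lit 15) (nat_lit 5) (nat_lit 18) (nat_lit 5) (nat_lit 16) (nat_lit 4) (nat_lit 330) (nat_lit 271) (nat_lit 179)) (XT.lf (nat_lit 0) (nat_lit 14109826482) (nat_lit 228) (nat_lit 19839466048) (nat_lit 76) (nat_lit 13856124434) (nat_lit 15) (nat_lit 5) (nat_lit 18) (nat_lit 5) (nat_lit 16) (nat_lit 4) (nat_lit 331) (nat_lit 271) (nat_lit 178))))) (XT.nd (nat_lit 156) (nat_lit 76) (nat_lit 0) (XT.nd (nat_lit 78) (nat_lit 76) (nat_lit 0) (XT.lf (nat_lit 0) (nat_lit 21797089826) (nat_lit 228) (nat_lit 4105692324) (nat_lit 76) (nat_lit 23820442876) (nat_lit 15) (nat_lit 5) (nat_lit 18) (nat_lit 5) (nat_lit 16) (nat_lit 4) (nat_lit 332) (nat_lit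 271) (nat_lit 177)) (XT.lf (nat_lit 0) (nat_lit 12808459825) (nat_lit 76) (nat_lit 17251104282) (nat_lit 152) (nat_lit 21667822854) (nat_lit 14) (nat_lit 5) (nat_lit 15) (nat_lit 5) (nat_lit 16) (nat_lit 4) (nat_lit 333) (nat_lit 271) (nat_lit 176))) (XT.nd (nat_lit 78) (nat_lit 76) (nat_lit 0) (XT.lf (nat_lit 0) (nat_lit 30694861259) (nat_lit 76) (nat_lit 8100889436) (nat_lit 152) (nat_lit 15032982447) (nat_lit 14) (nat_lit 5) (nat_lit 15) (nat_lit 5) (nat_lit 16) (nat_lit 4) (nat_lit 334) (nat_lit 271) (nat_lit 175)) (XT.nd (nat_lit 78) (nat_lit 76) (nat_lit 0) (XT.lf (nat_lit 0) (nat_lit 47983650218) (nat_lit 152) (nat_lit 6598652929) (nat_lit 0) (nat_lit 1452103620) (nat_lit 14) (nat_lit 5) (nat_lit 16) (nat_lit 4) (nat_lit 14) (nat_lit 4) (nat_lit 335) (nat_lit 271) (nat_lit 174)) (XT.lf (nat_lit 0) (nat_lit 10966706582) (nat_lit 76) (nat_lit 46960048879) (nat_lit 76) (nat_lit 408823135)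 (nat_lit 13) (nat_lit 4) (nat_lit 14) (nat_lit 5) (nat_lit 14) (nat_lit 4) (nat_lit 336) (nat_lit 271) (nat_lit 173)))))) (XT.nd (nat_lit 390) (nat_lit 152) (nat_lit 0) (XT.nd (nat_lit 156) (nat_lit 76) (nat_lit 0) (XT.nd (nat_lit 78) (nat_lit 0) (nat_lit 0) (XT.lf (nat_lit 0) (nat_lit 7476871144) (nat_lit 152) (nat_lit 31242381942) (nat_lit 76) (nat_lit 22021345866) (nat_lit 12) (nat_lit 5) (nat_lit 14) (nat_lit 5) (nat_lit 13) (nat_lit 4) (nat_lit 337) (nat_lit 271) (nat_lit 172)) (XT.lf (nat_lit 0) (nat_lit 15735315766) (nat_lit 152) (nat_lit 14330420034) (nat_lit 76) (nat_lit 33200193559) (nat_lit 12) (nat_lit 5) (nat_lit 14) (nat_lit 5) (nat_lit 13) (nat_lit 4) (nat_lit 338) (nat_lit 271) (nat_lit 171))) (XT.nd (nat_lit 78) (nat_lit 0) (nat_lit 0) (XT.lf (nat_lit 0) (nat_lit 3526534281) (nat_lit 76) (nat_lit 20927783389) (nat_lit 152) (nat_lit 41460831027) (nat_lit 11) (nat_lit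 5) (nat_lit 12) (nat_lit 5) (nat_lit 13) (nat_lit 4) (nat_lit 339) (nat_lit 271) (nat_lit 170)) (XT.nd (nat_lit 78) (nat_lit 0) (nat_lit 0) (XT.lf (nat_lit 0) (nat_lit 22760596696) (nat_lit 76) (nat_lit 11084088045) (nat_lit 152) (nat_lit 34840377472) (nat_lit 11) (nat_lit 5) (nat_lit 12) (nat_lit 5) (nat_lit 13) (nat_lit 4) (nat_lit 340) (nat_lit 271) (nat_lit 169)) (XT.lf (nat_lit 0) (nat_lit 42943734194) (nat_lit 76) (nat_lit 753904999) (nat_lit 152) (nat_lit 27896182538) (nat_lit 11) (nat_lit 5) (nat_lit 12) (nat_lit 5) (nat_lit 13) (nat_lit 4) (nat_lit 341) (nat_lit 271) (nat_lit 168))))) (XT.nd (nat_lit 156) (nat_lit 76) (nat_lit 0) (XT.nd (nat_lit 78) (nat_lit 76) (nat_lit 0) (XT.lf (nat_lit 0) (nat_lit 54194132419) (nat_lit 152) (nat_lit 10681842987) (nat_lit 0) (nat_lit 9764502862) (nat_lit 11) (nat_lit 5) (nat_lit 13) (nat_lit 4) (nat_lit 11) (nat_lit 4) (nat_lit 342) (nat_lit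 271) (nat_lit 167)) (XT.lf (nat_lit 0) (nat_lit 8430595310) (nat_lit 76) (nat_lit 56922472037) (nat_lit 76) (nat_lit 12479522859) (nat_lit 10) (nat_lit 4) (nat_lit 11) (nat_lit 5) (nat_lit 11) (nat_lit 4) (nat_lit 343) (nat_lit 271) (nat_lit 166))) (XT.nd (nat_lit 78) (nat_lit 76) (nat_lit 0) (XT.lf (nat_lit 0) (nat_lit 28858002476) (nat_lit 76) (nat_lit 48386605066) (nat_lit 76) (nat_lit 3930970534) (nat_lit 10) (nat_lit 4) (nat_lit 11) (nat_lit 5) (nat_lit 11) (nat_lit 4) (nat_lit 344) (nat_lit 271) (nat_lit 165)) (XT.nd (nat_lit 78) (nat_lit 0) (nat_lit 0) (XT.lf (nat_lit 0) (nat_lit 4877490767) (nat_lit 152) (nat_lit 34468859747) (nat_lit 76) (nat_lit 45335731790) (nat_lit 9) (nat_lit 5) (nat_lit 11) (nat_lit 5) (nat_lit 10) (nat_lit 4) (nat_lit 345) (nat_lit 271) (nat_lit 164)) (XT.lf (nat_lit 0) (nat_lit 13988509861) (nat_lit 152) (nat_lit 15802776594) (nat_lit 76) (nat_lit 58569693944)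 (nat_lit 9) (nat_lit 5) (nat_lit 11) (nat_lit 5) (nat_lit 10) (nat_lit 4) (nat_lit 346) (nat_lit 271) (nat_lit 163))))))) (XT.nd (nat_lit 780) (nat_lit 152) (nat_lit 0) (XT.nd (nat_lit 390) (nat_lit 152) (nat_lit 0) (XT.nd (nat_lit 156) (nat_lit 0) (nat_lit 0) (XT.nd (nat_lit 78) (nat_lit 0) (nat_lit 0) (XT.lf (nat_lit 0) (nat_lit 3911688851) (nat_lit 76) (nat_lit 19698978830) (nat_lit 152) (nat_lit 68610379013) (nat_lit 8) (nat_lit 5) (nat_lit 9) (nat_lit 5) (nat_lit 10) (nat_lit 4) (nat_lit 347) (nat_lit 271) (nat_lit 162)) (XT.lf (nat_lit 0) (nat_lit 25150557185) (nat_lit 76) (nat_lit 8825624938) (nat_lit 152) (nat_lit 62284824301) (nat_lit 8) (nat_lit 5) (nat_lit 9) (nat_lit 5) (nat_lit 10) (nat_lit 4) (nat_lit 348) (nat_lit 271) (nat_lit 161))) (XT.nd (nat_lit 78) (nat_lit 0) (nat_lit 0) (XT.lf (nat_lit 0) (nat_lit 44895240378) (nat_lit 152) (nat_lit 53101727626) (nat_lit 0) (nat_lit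 2504235164) (nat_lit 8) (nat_lit 5) (nat_lit 10) (nat_lit 4) (nat_lit 8) (nat_lit 4) (nat_lit 349) (nat_lit 271) (nat_lit 160)) (XT.nd (nat_lit 78) (nat_lit 0) (nat_lit 0) (XT.lf (nat_lit 0) (nat_lit 56499990234) (nat_lit 152) (nat_lit 34346465125) (nat_lit 0) (nat_lit 14099969776) (nat_lit 8) (nat_lit 5) (nat_lit 10) (nat_lit 4) (nat_lit 8) (nat_lit 4) (nat_lit 350) (nat_lit 271) (nat_lit 159)) (XT.lf (nat_lit 0) (nat_lit 68680269308) (nat_lit 152) (nat_lit 14662213610) (nat_lit 0) (nat_lit 26271662904) (nat_lit 8) (nat_lit 5) (nat_lit 10) (nat_lit 4) (nat_lit 8) (nat_lit 4) (nat_lit 351) (nat_lit 271) (nat_lit 158))))) (XT.nd (nat_lit 156) (nat_lit 76) (nat_lit 0) (XT.nd (nat_lit 78) (nat_lit 0) (nat_lit 0) (XT.lf (nat_lit 0) (nat_lit 6196211652) (nat_lit 76) (nat_lit 75365606841) (nat_lit 76) (nat_lit 32948823345) (nat_lit 7) (nat_lit 4) (nat_lit 8) (nat_lit 5) (nat_lit 8) (nat_lit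 4) (nat_lit 352) (nat_lit 271) (nat_lit 157)) (XT.lf (nat_lit 0) (nat_lit 28598375610) (nat_lit 76) (nat_lit 66732982306) (nat_lit 76) (nat_lit 24308411103) (nat_lit 7) (nat_lit 4) (nat_lit 8) (nat_lit 5) (nat_lit 8) (nat_lit 4) (nat_lit 353) (nat_lit 271) (nat_lit 156))) (XT.nd (nat_lit 78) (nat_lit 76) (nat_lit 0) (XT.lf (nat_lit 0) (nat_lit 52112817749) (nat_lit 76) (nat_lit 57672367128) (nat_lit 76) (nat_lit 15240379061) (nat_lit 7) (nat_lit 4) (nat_lit 8) (nat_lit 5) (nat_lit 8) (nat_lit 4) (nat_lit 354) (nat_lit 271) (nat_lit 155)) (XT.nd (nat_lit 78) (nat_lit 76) (nat_lit 0) (XT.lf (nat_lit 0) (nat_lit 76795524837) (nat_lit 76) (nat_lit 48162188413) (nat_lit 76) (nat_lit 5723136667) (nat_lit 7) (nat_lit 4) (nat_lit 8) (nat_lit 5) (nat_lit 8) (nat_lit 4) (nat_lit 355) (nat_lit 271) (nat_lit 154)) (XT.lf (nat_lit 0) (nat_lit 4129438301) (nat_lit 152) (nat_lit 33980430541) (nat_lit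 76) (nat_lit 98505892886) (nat_lit 6) (nat_lit 5) (nat_lit 8) (nat_lit 5) (nat_lit 7) (nat_lit 4) (nat_lit 356) (nat_lit 271) (nat_lit 153)))))) (XT.nd (nat_lit 390) (nat_lit 76) (nat_lit 0) (XT.nd (nat_lit 156) (nat_lit 0) (nat_lit 0) (XT.nd (nat_lit 78) (nat_lit 76) (nat_lit 0) (XT.lf (nat_lit 0) (nat_lit 14278627185) (nat_lit 152) (nat_lit 13181000294) (nat_lit 76) (nat_lit 115383286121) (nat_lit 6) (nat_lit 5) (nat_lit 8) (nat_lit 5) (nat_lit 7) (nat_lit 4) (nat_lit 357) (nat_lit 271) (nat_lit 152)) (XT.lf (nat_lit 0) (nat_lit 8937911295) (nat_lit 76) (nat_lit 16133405383) (nat_lit 152) (nat_lit 124303305823) (nat_lit 5) (nat_lit 5) (nat_lit 6) (nat_lit 5) (nat_lit 7) (nat_lit 4) (nat_lit 358) (nat_lit 271) (nat_lit 151))) (XT.nd (nat_lit 78) (nat_lit 0) (nat_lit 0) (XT.lf (nat_lit 0) (nat_lit 32613929676) (nat_lit 76) (nat_lit 4009499046) (nat_lit 152) (nat_lit 119598500147) (nat_lit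 5) (nat_lit 5) (nat_lit 6) (nat_lit 5) (nat_lit 7) (nat_lit 4) (nat_lit 359) (nat_lit 271) (nat_lit 150)) (XT.nd (nat_lit 78) (nat_lit 0) (nat_lit 0) (XT.lf (nat_lit 0) (nat_lit 48885979780) (nat_lit 152) (nat_lit 106080270945) (nat_lit 0) (nat_lit 8438709512) (nat_lit 5) (nat_lit 5) (nat_lit 7) (nat_lit 4) (nat_lit 5) (nat_lit 4) (nat_lit 360) (nat_lit 271) (nat_lit 149)) (XT.lf (nat_lit 0) (nat_lit 61824226330) (nat_lit 152) (nat_lit 87747853703) (nat_lit 0) (nat_lit 21371936037) (nat_lit 5) (nat_lit 5) (nat_lit 7) (nat_lit 4) (nat_lit 5) (nat_lit 4) (nat_lit 361) (nat_lit 271) (nat_lit 148))))) (XT.nd (nat_lit 156) (nat_lit 76) (nat_lit 0) (XT.nd (nat_lit 78) (nat_lit 0) (nat_lit 0) (XT.lf (nat_lit 0) (nat_lit 75406374204) (nat_lit 152) (nat_lit 68504499336) (nat_lit 0) (nat_lit 34949302934) (nat_lit 5) (nat_lit 5) (nat_lit 7) (nat_lit 4) (nat_lit 5) (nat_lit 4) (nat_lit 362) (nat_lit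 271) (nat_lit 147)) (XT.lf (nat_lit 0) (nat_lit 89664761848) (nat_lit 152) (nat_lit 48304390334) (nat_lit 0) (nat_lit 49203137267) (nat_lit 5) (nat_lit 5) (nat_lit 7) (nat_lit 4) (nat_lit 5) (nat_lit 4) (nat_lit 363) (nat_lit 271) (nat_lit 146))) (XT.nd (nat_lit 78) (nat_lit 76) (nat_lit 0) (XT.lf (nat_lit 0) (nat_lit 104633337805) (nat_lit 152) (nat_lit 27099431200) (nat_lit 0) (nat_lit 64167376737) (nat_lit 5) (nat_lit 5) (nat_lit 7) (nat_lit 4) (nat_lit 5) (nat_lit 4) (nat_lit 364) (nat_lit 271) (nat_lit 145)) (XT.nd (nat_lit 78) (nat_lit 76) (nat_lit 0) (XT.lf (nat_lit 0) (nat_lit 120347741541) (nat_lit 152) (nat_lit 4839133935) (nat_lit 0) (nat_lit 79877650486) (nat_lit 5) (nat_lit 5) (nat_lit 7) (nat_lit 4) (nat_lit 5) (nat_lit 4) (nat_lit 365) (nat_lit 271) (nat_lit 144)) (XT.lf (nat_lit 0) (nat_lit 19142171190) (nat_lit 76) (nat_lit 118002080051) (nat_lit 76) (nat_lit 77528055676)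 (nat_lit 4) (nat_lit 4) (nat_lit 5) (nat_lit 5) (nat_lit 5) (nat_lit 4) (nat_lit 366) (nat_lit 271) (nat_lit 143))))))))
noncomputable def xc141 : XT := (XT.nd (nat_lit 33228) (nat_lit 0) (nat_lit 5016) (XT.nd (nat_lit 780) (nat_lit 76) (nat_lit 0) (XT.nd (nat_lit 390) (nat_lit 76) (nat_lit 0) (XT.nd (nat_lit 156) (nat_lit 0) (nat_lit 0) (XT.nd (nat_lit 78) (nat_lit 0) (nat_lit 0) (XT.lf (nat_lit 0) (nat_lit 44485944770) (nat_lit 76) (nat_lit 110374163703) (nat_lit 76) (nat_lit 69896393307) (nat_lit 4) (nat_lit 4) (nat_lit 5) (nat_lit 5) (nat_lit 5) (nat_lit 4) (nat_lit 367) (nat_lit 271) (nat_lit 142)) (XT.lf (nat_lit 0) (nat_lit 71092525500) (nat_lit 76) (nat_lit 102366917800) (nat_lit 76) (nat_lit 61885579767) (nat_lit 4) (nat_lit 4) (nat_lit 5) (nat_lit 5) (nat_lit 5) (nat_lit 4) (nat_lit 368) (nat_lit 271) (nat_lit 141))) (XT.nd (nat_lit 78) (nat_lit 0) (nat_lit 0) (XT.lf (nat_lit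 0) (nat_lit 99025262381) (nat_lit 76) (nat_lit 93961277473) (nat_lit 76) (nat_lit 53476541688) (nat_lit 4) (nat_lit 4) (nat_lit 5) (nat_lit 5) (nat_lit 5) (nat_lit 4) (nat_lit 369) (nat_lit 271) (nat_lit 140)) (XT.nd (nat_lit 78) (nat_lit 0) (nat_lit 0) (XT.lf (nat_lit 0) (nat_lit 128350661931) (nat_lit 76) (nat_lit 85137229291) (nat_lit 76) (nat_lit 44649257553) (nat_lit 4) (nat_lit 4) (nat_lit 5) (nat_lit 5) (nat_lit 5) (nat_lit 4) (nat_lit 370) (nat_lit 271) (nat_lit 139)) (XT.lf (nat_lit 0) (nat_lit 159138546529) (nat_lit 76) (nat_lit 75873763616) (nat_lit 76) (nat_lit 35382710018) (nat_lit 4) (nat_lit 4) (nat_lit 5) (nat_lit 5) (nat_lit 5) (nat_lit 4) (nat_lit 371) (nat_lit 271) (nat_lit 138))))) (XT.nd (nat_lit 156) (nat_lit 76) (nat_lit 0) (XT.nd (nat_lit 78) (nat_lit 0) (nat_lit 0) (XT.lf (nat_lit 0) (nat_lit 191462220662) (nat_lit 76) (nat_lit 66148824577) (nat_lit 76) (nat_lit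 25654835874) (nat_lit 4) (nat_lit 4) (nat_lit 5) (nat_lit 5) (nat_lit 5) (nat_lit 4) (nat_lit 372) (nat_lit 271) (nat_lit 137)) (XT.lf (nat_lit 0) (nat_lit 225398645459) (nat_lit 76) (nat_lit 55939257557) (nat_lit 76) (nat_lit 15442473517) (nat_lit 4) (nat_lit 4) (nat_lit 5) (nat_lit 5) (nat_lit 5) (nat_lit 4) (nat_lit 373) (nat_lit 271) (nat_lit 136))) (XT.nd (nat_lit 78) (nat_lit 76) (nat_lit 0) (XT.lf (nat_lit 0) (nat_lit 261028621932) (nat_lit 76) (nat_lit 45220754064) (nat_lit 76) (nat_lit 4721307798) (nat_lit 4) (nat_lit 4) (nat_lit 5) (nat_lit 5) (nat_lit 5) (nat_lit 4) (nat_lit 374) (nat_lit 271) (nat_lit 135)) (XT.nd (nat_lit 78) (nat_lit 0) (nat_lit 0) (XT.lf (nat_lit 0) (nat_lit 6325053049) (nat_lit 152) (nat_lit 27535622968) (nat_lit 76) (nat_lit 292004812474) (nat_lit 3) (nat_lit 5) (nat_lit 5) (nat_lit 5) (nat_lit 4) (nat_lit 4) (nat_lit 375) (nat_lit 271) (nat_lit 134))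 (XT.lf (nat_lit 0) (nat_lit 17763471685) (nat_lit 152) (nat_lit 4089279483) (nat_lit 76) (nat_lit 319648492590) (nat_lit 3) (nat_lit 5) (nat_lit 5) (nat_lit 5) (nat_lit 4) (nat_lit 4) (nat_lit 376) (nat_lit 271) (nat_lit 133)))))) (XT.nd (nat_lit 390) (nat_lit 0) (nat_lit 0) (XT.nd (nat_lit 156) (nat_lit 0) (nat_lit 0) (XT.nd (nat_lit 78) (nat_lit 0) (nat_lit 0) (XT.lf (nat_lit 0) (nat_lit 21205205055) (nat_lit 76) (nat_lit 8898161395) (nat_lit 152) (nat_lit 327798943140) (nat_lit 2) (nat_lit 5) (nat_lit 3) (nat_lit 5) (nat_lit 4) (nat_lit 4) (nat_lit 377) (nat_lit 271) (nat_lit 132)) (XT.lf (nat_lit 0) (nat_lit 43202579986) (nat_lit 152) (nat_lit 327291044879) (nat_lit 0) (nat_lit 4622688186) (nat_lit 2) (nat_lit 5) (nat_lit 4) (nat_lit 4) (nat_lit 2) (nat_lit 4) (nat_lit 378) (nat_lit 271) (nat_lit 131))) (XT.nd (nat_lit 78) (nat_lit 0) (nat_lit 0) (XT.lf (nat_lit 0) (nat_lit 57101187320)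 (nat_lit 152) (nat_lit 317563299291) (nat_lit 0) (nat_lit 18519308926) (nat_lit 2) (nat_lit 5) (nat_lit 4) (nat_lit 4) (nat_lit 2) (nat_lit 4) (nat_lit 379) (nat_lit 271) (nat_lit 130)) (XT.nd (nat_lit 78) (nat_lit 0) (nat_lit 0) (XT.lf (nat_lit 0) (nat_lit 71693355140) (nat_lit 152) (nat_lit 307351781239) (nat_lit 0) (nat_lit 33109584751) (nat_lit 2) (nat_lit 5) (nat_lit 4) (nat_lit 4) (nat_lit 2) (nat_lit 4) (nat_lit 380) (nat_lit 271) (nat_lit 129)) (XT.lf (nat_lit 0) (nat_lit 87013826702) (nat_lit 152) (nat_lit 296632177583) (nat_lit 0) (nat_lit 48428254413) (nat_lit 2) (nat_lit 5) (nat_lit 4) (nat_lit 4) (nat_lit 2) (nat_lit 4) (nat_lit 381) (nat_lit 271) (nat_lit 128))))) (XT.nd (nat_lit 156) (nat_lit 0) (nat_lit 0) (XT.nd (nat_lit 78) (nat_lit 0) (nat_lit 0) (XT.lf (nat_lit 0) (nat_lit 103099079319) (nat_lit 152) (nat_lit 285378965457) (nat_lit 0) (nat_lit 64511790935) (nat_lit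 2) (nat_lit 5) (nat_lit 4) (nat_lit 4) (nat_lit 2) (nat_lit 4) (nat_lit 382) (nat_lit 271) (nat_lit 127)) (XT.lf (nat_lit 0) (nat_lit 119987411212) (nat_lit 152) (nat_lit 273565351500) (nat_lit 0) (nat_lit 81398488452) (nat_lit 2) (nat_lit 5) (nat_lit 4) (nat_lit 4) (nat_lit 2) (nat_lit 4) (nat_lit 383) (nat_lit 271) (nat_lit 126))) (XT.nd (nat_lit 78) (nat_lit 0) (nat_lit 0) (XT.lf (nat_lit 0) (nat_lit 137719032695) (nat_lit 152) (nat_lit 261163208059) (nat_lit 0) (nat_lit 99128553386) (nat_lit 2) (nat_lit 5) (nat_lit 4) (nat_lit 4) (nat_lit 2) (nat_lit 4) (nat_lit 384) (nat_lit 271) (nat_lit 125)) (XT.nd (nat_lit 78) (nat_lit 0) (nat_lit 0) (XT.lf (nat_lit 0) (nat_lit 156336161914) (nat_lit 152) (nat_lit 248143006220) (nat_lit 0) (nat_lit 117744200178) (nat_lit 2) (nat_lit 5) (nat_lit 4) (nat_lit 4) (nat_lit 2) (nat_lit 4) (nat_lit 385) (nat_lit 271) (nat_lit 124)) (XT.lf (nat_lit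 0) (nat_lit 175883125368) (nat_lit 152) (nat_lit 234473745505) (nat_lit 0) (nat_lit 137289751796) (nat_lit 2) (nat_lit 5) (nat_lit 4) (nat_lit 4) (nat_lit 2) (nat_lit 4) (nat_lit 386) (nat_lit 271) (nat_lit 123))))))) (XT.nd (nat_lit 780) (nat_lit 1900) (nat_lit 0) (XT.nd (nat_lit 390) (nat_lit 532) (nat_lit 0) (XT.nd (nat_lit 156) (nat_lit 608) (nat_lit 0) (XT.nd (nat_lit 78) (nat_lit 0) (nat_lit 0) (XT.lf (nat_lit 0) (nat_lit 1641473428) (nat_lit 0) (nat_lit 1641473428) (nat_lit 532) (nat_lit 786322615) (nat_lit 108) (nat_lit 5) (nat_lit 108) (nat_lit 3) (nat_lit 115) (nat_lit 3) (nat_lit 272) (nat_lit 272) (nat_lit 236)) (XT.lf (nat_lit 0) (nat_lit 7173093115) (nat_lit 0) (nat_lit 633769075) (nat_lit 532) (nat_lit 478773369) (nat_lit 108) (nat_lit 5) (nat_lit 108) (nat_lit 3) (nat_lit 115) (nat_lit 3) (nat_lit 273) (nat_lit 272) (nat_lit 235))) (XT.nd (nat_lit 78) (nat_lit 0) (nat_lit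 0) (XT.lf (nat_lit 0) (nat_lit 657777364) (nat_lit 608) (nat_lit 5614093492) (nat_lit 684) (nat_lit 2167376124) (nat_lit 100) (nat_lit 5) (nat_lit 108) (nat_lit 5) (nat_lit 109) (nat_lit 5) (nat_lit 274) (nat_lit 272) (nat_lit 234)) (XT.nd (nat_lit 78) (nat_lit 0) (nat_lit 0) (XT.lf (nat_lit 0) (nat_lit 1797650863) (nat_lit 608) (nat_lit 1660133994) (nat_lit 684) (nat_lit 5144379072) (nat_lit 100) (nat_lit 5) (nat_lit 108) (nat_lit 5) (nat_lit 109) (nat_lit 5) (nat_lit 275) (nat_lit 272) (nat_lit 233)) (XT.lf (nat_lit 76) (nat_lit 2534206289) (nat_lit 0) (nat_lit 436111311) (nat_lit 684) (nat_lit 5804258815) (nat_lit 101) (nat_lit 5) (nat_lit 100) (nat_lit 5) (nat_lit 109) (nat_lit 5) (nat_lit 276) (nat_lit 272) (nat_lit 232))))) (XT.nd (nat_lit 156) (nat_lit 608) (nat_lit 0) (XT.nd (nat_lit 78) (nat_lit 0) (nat_lit 0) (XT.lf (nat_lit 0) (nat_lit 4211967273) (nat_lit 608) (nat_lit 2042865635)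 (nat_lit 684) (nat_lit 2700392154) (nat_lit 101) (nat_lit 5) (nat_lit 109) (nat_lit 5) (nat_lit 110) (nat_lit 5) (nat_lit 277) (nat_lit 272) (nat_lit 231)) (XT.lf (nat_lit 76) (nat_lit 2394603217) (nat_lit 0) (nat_lit 3107581388) (nat_lit 684) (nat_lit 3643523960) (nat_lit 102) (nat_lit 5) (nat_lit 101) (nat_lit 5) (nat_lit 110) (nat_lit 5) (nat_lit 278) (nat_lit 272) (nat_lit 230))) (XT.nd (nat_lit 78) (nat_lit 684) (nat_lit 0) (XT.lf (nat_lit 0) (nat_lit 6839528842) (nat_lit 608) (nat_lit 2264711387) (nat_lit 684) (nat_lit 242465864) (nat_lit 102) (nat_lit 5) (nat_lit 110) (nat_lit 5) (nat_lit 111) (nat_lit 5) (nat_lit 279) (nat_lit 272) (nat_lit 229)) (XT.nd (nat_lit 78) (nat_lit 684) (nat_lit 0) (XT.lf (nat_lit 76) (nat_lit 2432975600) (nat_lit 0) (nat_lit 5846718714) (nat_lit 684) (nat_lit 1276376387) (nat_lit 103) (nat_lit 5) (nat_lit 102) (nat_lit 5) (nat_lit 111) (nat_lit 5)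 (nat_lit 280) (nat_lit 272) (nat_lit 228)) (XT.lf (nat_lit 0) (nat_lit 2426627) (nat_lit 684) (nat_lit 2371823863) (nat_lit 760) (nat_lit 7402396154) (nat_lit 93) (nat_lit 5) (nat_lit 102) (nat_lit 5) (nat_lit 103) (nat_lit 5) (nat_lit 281) (nat_lit 272) (nat_lit 227)))))) (XT.nd (nat_lit 390) (nat_lit 760) (nat_lit 0) (XT.nd (nat_lit 156) (nat_lit 1216) (nat_lit 0) (XT.nd (nat_lit 78) (nat_lit 0) (nat_lit 0) (XT.lf (nat_lit 0) (nat_lit 1315020525) (nat_lit 684) (nat_lit 7387300999) (nat_lit 76) (nat_lit 1304345643) (nat_lit 94) (nat_lit 5) (nat_lit 103) (nat_lit 5) (nat_lit 95) (nat_lit 5) (nat_lit 282) (nat_lit 272) (nat_lit 226)) (XT.lf (nat_lit 0) (nat_lit 2725360851) (nat_lit 684) (nat_lit 2384470468) (nat_lit 76) (nat_lit 5136846093) (nat_lit 94) (nat_lit 5) (nat_lit 103) (nat_lit 5) (nat_lit 95) (nat_lit 5) (nat_lit 283) (nat_lit 272) (nat_lit 225))) (XT.nd (nat_lit 78) (nat_lit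 532) (nat_lit 0) (XT.lf (nat_lit 0) (nat_lit 2922841641) (nat_lit 684) (nat_lit 1283646604) (nat_lit 760) (nat_lit 6292276453) (nat_lit 85) (nat_lit 5) (nat_lit 94) (nat_lit 5) (nat_lit 95) (nat_lit 5) (nat_lit 284) (nat_lit 272) (nat_lit 224)) (XT.nd (nat_lit 78) (nat_lit 532) (nat_lit 0) (XT.lf (nat_lit 0) (nat_lit 5801675022) (nat_lit 760) (nat_lit 2267413878) (nat_lit 76) (nat_lit 2692453041) (nat_lit 85) (nat_lit 5) (nat_lit 95) (nat_lit 5) (nat_lit 86) (nat_lit 5) (nat_lit 285) (nat_lit 272) (nat_lit 223)) (XT.lf (nat_lit 0) (nat_lit 3353835921) (nat_lit 532) (nat_lit 4154549313) (nat_lit 608) (nat_lit 3527566269) (nat_lit 78) (nat_lit 5) (nat_lit 85) (nat_lit 5) (nat_lit 86) (nat_lit 5) (nat_lit 286) (nat_lit 272) (nat_lit 222))))) (XT.nd (nat_lit 156) (nat_lit 380) (nat_lit 0) (XT.nd (nat_lit 78) (nat_lit 380) (nat_lit 0) (XT.lf (nat_lit 0) (nat_lit 9296511346) (nat_lit 532)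 (nat_lit 2061400) (nat_lit 608) (nat_lit 2025679479) (nat_lit 78) (nat_lit 5) (nat_lit 85) (nat_lit 5) (nat_lit 86) (nat_lit 5) (nat_lit 287) (nat_lit 272) (nat_lit 221)) (XT.lf (nat_lit 0) (nat_lit 3928498402) (nat_lit 380) (nat_lit 7340834849) (nat_lit 456) (nat_lit 353155621) (nat_lit 73) (nat_lit 5) (nat_lit 78) (nat_lit 5) (nat_lit 79) (nat_lit 5) (nat_lit 288) (nat_lit 272) (nat_lit 220))) (XT.nd (nat_lit 78) (nat_lit 304) (nat_lit 0) (XT.lf (nat_lit 0) (nat_lit 1355270833) (nat_lit 456) (nat_lit 1742716584) (nat_lit 76) (nat_lit 8836762832) (nat_lit 72) (nat_lit 5) (nat_lit 78) (nat_lit 5) (nat_lit 73) (nat_lit 5) (nat_lit 289) (nat_lit 272) (nat_lit 219)) (XT.nd (nat_lit 78) (nat_lit 0) (nat_lit 0) (XT.lf (nat_lit 0) (nat_lit 3195714303) (nat_lit 380) (nat_lit 7672514725) (nat_lit 76) (nat_lit 1391246980) (nat_lit 68) (nat_lit 5) (nat_lit 73) (nat_lit 5) (nat_lit 69) (nat_lit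 5) (nat_lit 290) (nat_lit 272) (nat_lit 218)) (XT.lf (nat_lit 0) (nat_lit 5174113338) (nat_lit 380) (nat_lit 1395149684) (nat_lit 76) (nat_lit 6028939297) (nat_lit 68) (nat_lit 5) (nat_lit 73) (nat_lit 5) (nat_lit 69) (nat_lit 5) (nat_lit 291) (nat_lit 272) (nat_lit 217))))))))
noncomputable def xc142 : XT := (XT.nd (nat_lit 1560) (nat_lit 1444) (nat_lit 0) (XT.nd (nat_lit 780) (nat_lit 836) (nat_lit 0) (XT.nd (nat_lit 390) (nat_lit 760) (nat_lit 0) (XT.nd (nat_lit 156) (nat_lit 684) (nat_lit 0) (XT.nd (nat_lit 78) (nat_lit 0) (nat_lit 0) (XT.lf (nat_lit 0) (nat_lit 5329968222) (nat_lit 304) (nat_lit 1971488542) (nat_lit 380) (nat_lit 5649964995) (nat_lit 64) (nat_lit 5) (nat_lit 68) (nat_lit 5) (nat_lit 69) (nat_lit 5) (nat_lit 292) (nat_lit 272) (nat_lit 216)) (XT.lf (nat_lit 0) (nat_lit 9571538967) (nat_lit 380) (nat_lit 964040620) (nat_lit 76) (nat_lit 2784959276) (nat_lit 64) (nat_lit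 5) (nat_lit 69) (nat_lit 5) (nat_lit 65) (nat_lit 5) (nat_lit 293) (nat_lit 272) (nat_lit 215))) (XT.nd (nat_lit 78) (nat_lit 380) (nat_lit 0) (XT.lf (nat_lit 0) (nat_lit 6154999924) (nat_lit 304) (nat_lit 5897840533) (nat_lit 380) (nat_lit 1650438244) (nat_lit 60) (nat_lit 5) (nat_lit 64) (nat_lit 5) (nat_lit 65) (nat_lit 5) (nat_lit 294) (nat_lit 272) (nat_lit 214)) (XT.nd (nat_lit 78) (nat_lit 304) (nat_lit 0) (XT.lf (nat_lit 0) (nat_lit 521616682) (nat_lit 380) (nat_lit 486172834) (nat_lit 76) (nat_lit 13097668713) (nat_lit 59) (nat_lit 5) (nat_lit 64) (nat_lit 5) (nat_lit 60) (nat_lit 5) (nat_lit 295) (nat_lit 272) (nat_lit 213)) (XT.lf (nat_lit 0) (nat_lit 2895287905) (nat_lit 380) (nat_lit 7494558293) (nat_lit 76) (nat_lit 4129169234) (nat_lit 55) (nat_lit 5) (nat_lit 60) (nat_lit 5) (nat_lit 56) (nat_lit 5) (nat_lit 296) (nat_lit 272) (nat_lit 212))))) (XT.nd (nat_lit 156) (nat_lit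 532) (nat_lit 0) (XT.nd (nat_lit 78) (nat_lit 228) (nat_lit 0) (XT.lf (nat_lit 0) (nat_lit 5384397094) (nat_lit 380) (nat_lit 77449282) (nat_lit 76) (nat_lit 9491609705) (nat_lit 55) (nat_lit 5) (nat_lit 60) (nat_lit 5) (nat_lit 56) (nat_lit 5) (nat_lit 297) (nat_lit 272) (nat_lit 211)) (XT.lf (nat_lit 0) (nat_lit 7930579648) (nat_lit 228) (nat_lit 164405157) (nat_lit 304) (nat_lit 7309824048) (nat_lit 52) (nat_lit 5) (nat_lit 55) (nat_lit 5) (nat_lit 56) (nat_lit 5) (nat_lit 298) (nat_lit 272) (nat_lit 210))) (XT.nd (nat_lit 78) (nat_lit 304) (nat_lit 0) (XT.lf (nat_lit 0) (nat_lit 355672878) (nat_lit 228) (nat_lit 10650441406) (nat_lit 304) (nat_lit 4869403643) (nat_lit 49) (nat_lit 5) (nat_lit 52) (nat_lit 5) (nat_lit 53) (nat_lit 5) (nat_lit 299) (nat_lit 272) (nat_lit 209)) (XT.nd (nat_lit 78) (nat_lit 304) (nat_lit 0) (XT.lf (nat_lit 0) (nat_lit 8799881654) (nat_lit 228) (nat_lit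 5366715772) (nat_lit 304) (nat_lit 2198012576) (nat_lit 49) (nat_lit 5) (nat_lit 52) (nat_lit 5) (nat_lit 53) (nat_lit 5) (nat_lit 300) (nat_lit 272) (nat_lit 208)) (XT.lf (nat_lit 0) (nat_lit 577941298) (nat_lit 304) (nat_lit 16111206197) (nat_lit 76) (nat_lit 189048343) (nat_lit 45) (nat_lit 5) (nat_lit 49) (nat_lit 5) (nat_lit 46) (nat_lit 5) (nat_lit 301) (nat_lit 272) (nat_lit 207)))))) (XT.nd (nat_lit 390) (nat_lit 456) (nat_lit 0) (XT.nd (nat_lit 156) (nat_lit 152) (nat_lit 0) (XT.nd (nat_lit 78) (nat_lit 228) (nat_lit 0) (XT.lf (nat_lit 0) (nat_lit 3612892912) (nat_lit 304) (nat_lit 7792934502) (nat_lit 76) (nat_lit 6000160832) (nat_lit 45) (nat_lit 5) (nat_lit 49) (nat_lit 5) (nat_lit 46) (nat_lit 5) (nat_lit 302) (nat_lit 272) (nat_lit 206)) (XT.lf (nat_lit 0) (nat_lit 939225348) (nat_lit 228) (nat_lit 5852055648) (nat_lit 304) (nat_lit 11169335612) (nat_lit 42) (nat_lit 5)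 (nat_lit 45) (nat_lit 5) (nat_lit 46) (nat_lit 5) (nat_lit 303) (nat_lit 272) (nat_lit 205))) (XT.nd (nat_lit 78) (nat_lit 152) (nat_lit 0) (XT.lf (nat_lit 0) (nat_lit 10239890169) (nat_lit 304) (nat_lit 8192246685) (nat_lit 76) (nat_lit 105303761) (nat_lit 42) (nat_lit 5) (nat_lit 46) (nat_lit 5) (nat_lit 43) (nat_lit 5) (nat_lit 304) (nat_lit 272) (nat_lit 204)) (XT.nd (nat_lit 78) (nat_lit 0) (nat_lit 0) (XT.lf (nat_lit 0) (nat_lit 982854966) (nat_lit 152) (nat_lit 12967910109) (nat_lit 228) (nat_lit 5187876899) (nat_lit 40) (nat_lit 5) (nat_lit 42) (nat_lit 5) (nat_lit 43) (nat_lit 5) (nat_lit 305) (nat_lit 272) (nat_lit 203)) (XT.lf (nat_lit 0) (nat_lit 10870606058) (nat_lit 152) (nat_lit 7094416815) (nat_lit 228) (nat_lit 1799015159) (nat_lit 40) (nat_lit 5) (nat_lit 42) (nat_lit 5) (nat_lit 43) (nat_lit 5) (nat_lit 306) (nat_lit 272) (nat_lit 202))))) (XT.nd (nat_lit 156) (nat_lit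 152) (nat_lit 0) (XT.nd (nat_lit 78) (nat_lit 0) (nat_lit 0) (XT.lf (nat_lit 0) (nat_lit 800429723) (nat_lit 228) (nat_lit 894792559) (nat_lit 304) (nat_lit 18724520307) (nat_lit 36) (nat_lit 5) (nat_lit 39) (nat_lit 5) (nat_lit 40) (nat_lit 5) (nat_lit 307) (nat_lit 272) (nat_lit 201)) (XT.lf (nat_lit 0) (nat_lit 5524561991) (nat_lit 304) (nat_lit 9962725284) (nat_lit 76) (nat_lit 5608451011) (nat_lit 36) (nat_lit 5) (nat_lit 40) (nat_lit 5) (nat_lit 37) (nat_lit 5) (nat_lit 308) (nat_lit 272) (nat_lit 200))) (XT.nd (nat_lit 78) (nat_lit 0) (nat_lit 0) (XT.lf (nat_lit 0) (nat_lit 137722440) (nat_lit 152) (nat_lit 9405515177) (nat_lit 228) (nat_lit 12262424575) (nat_lit 34) (nat_lit 5) (nat_lit 36) (nat_lit 5) (nat_lit 37) (nat_lit 5) (nat_lit 309) (nat_lit 272) (nat_lit 199)) (XT.nd (nat_lit 78) (nat_lit 0) (nat_lit 0) (XT.lf (nat_lit 0) (nat_lit 11060830430) (nat_lit 152) (nat_lit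 2852251530) (nat_lit 228) (nat_lit 8630509417) (nat_lit 34) (nat_lit 5) (nat_lit 36) (nat_lit 5) (nat_lit 37) (nat_lit 5) (nat_lit 310) (nat_lit 272) (nat_lit 198)) (XT.lf (nat_lit 0) (nat_lit 18546564129) (nat_lit 228) (nat_lit 878877713) (nat_lit 76) (nat_lit 3890737740) (nat_lit 34) (nat_lit 5) (nat_lit 37) (nat_lit 5) (nat_lit 35) (nat_lit 5) (nat_lit 311) (nat_lit 272) (nat_lit 197))))))) (XT.nd (nat_lit 780) (nat_lit 608) (nat_lit 0) (XT.nd (nat_lit 390) (nat_lit 304) (nat_lit 0) (XT.nd (nat_lit 156) (nat_lit 304) (nat_lit 0) (XT.nd (nat_lit 78) (nat_lit 76) (nat_lit 0) (XT.lf (nat_lit 0) (nat_lit 10518769099) (nat_lit 152) (nat_lit 13087029084) (nat_lit 228) (nat_lit 511914019) (nat_lit 32) (nat_lit 5) (nat_lit 34) (nat_lit 5) (nat_lit 35) (nat_lit 5) (nat_lit 312) (nat_lit 272) (nat_lit 196)) (XT.lf (nat_lit 0) (nat_lit 3830303078) (nat_lit 228) (nat_lit 2530302633) (nat_lit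 76) (nat_lit 18595725940) (nat_lit 31) (nat_lit 5) (nat_lit 34) (nat_lit 5) (nat_lit 32) (nat_lit 5) (nat_lit 313) (nat_lit 272) (nat_lit 195))) (XT.nd (nat_lit 78) (nat_lit 152) (nat_lit 0) (XT.lf (nat_lit 0) (nat_lit 8515881893) (nat_lit 228) (nat_lit 16485668309) (nat_lit 76) (nat_lit 827755863) (nat_lit 29) (nat_lit 5) (nat_lit 32) (nat_lit 5) (nat_lit 30) (nat_lit 5) (nat_lit 314) (nat_lit 272) (nat_lit 194)) (XT.nd (nat_lit 78) (nat_lit 152) (nat_lit 0) (XT.lf (nat_lit 0) (nat_lit 13567801281) (nat_lit 228) (nat_lit 4975110995) (nat_lit 76) (nat_lit 8196429387) (nat_lit 29) (nat_lit 5) (nat_lit 32) (nat_lit 5) (nat_lit 30) (nat_lit 5) (nat_lit 315) (nat_lit 272) (nat_lit 193)) (XT.lf (nat_lit 0) (nat_lit 7321034697) (nat_lit 152) (nat_lit 11650569540) (nat_lit 228) (nat_lit 8718325229) (nat_lit 27) (nat_lit 5) (nat_lit 29) (nat_lit 5) (nat_lit 30) (nat_lit 5) (nat_lit 316) (nat_lit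 272) (nat_lit 192))))) (XT.nd (nat_lit 156) (nat_lit 152) (nat_lit 0) (XT.nd (nat_lit 78) (nat_lit 152) (nat_lit 0) (XT.lf (nat_lit 0) (nat_lit 20380845239) (nat_lit 152) (nat_lit 4334336078) (nat_lit 228) (nat_lit 3969400241) (nat_lit 27) (nat_lit 5) (nat_lit 29) (nat_lit 5) (nat_lit 30) (nat_lit 5) (nat_lit 317) (nat_lit 272) (nat_lit 191)) (XT.lf (nat_lit 0) (nat_lit 1093504453) (nat_lit 152) (nat_lit 25310325755) (nat_lit 76) (nat_lit 3318900804) (nat_lit 25) (nat_lit 5) (nat_lit 27) (nat_lit 5) (nat_lit 26) (nat_lit 5) (nat_lit 318) (nat_lit 272) (nat_lit 190))) (XT.nd (nat_lit 78) (nat_lit 152) (nat_lit 0) (XT.lf (nat_lit 0) (nat_lit 6476109723) (nat_lit 152) (nat_lit 12914954080) (nat_lit 76) (nat_lit 11408485047) (nat_lit 25) (nat_lit 5) (nat_lit 27) (nat_lit 5) (nat_lit 26) (nat_lit 5) (nat_lit 319) (nat_lit 272) (nat_lit 189)) (XT.nd (nat_lit 78) (nat_lit 0) (nat_lit 0) (XT.lf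 (nat_lit 0) (nat_lit 80470083) (nat_lit 152) (nat_lit 12035265213) (nat_lit 228) (nat_lit 19815089382) (nat_lit 23) (nat_lit 5) (nat_lit 25) (nat_lit 5) (nat_lit 26) (nat_lit 5) (nat_lit 320) (nat_lit 272) (nat_lit 188)) (XT.lf (nat_lit 0) (nat_lit 14152111402) (nat_lit 152) (nat_lit 4090879491) (nat_lit 228) (nat_lit 14865402015) (nat_lit 23) (nat_lit 5) (nat_lit 25) (nat_lit 5) (nat_lit 26) (nat_lit 5) (nat_lit 321) (nat_lit 272) (nat_lit 187)))))) (XT.nd (nat_lit 390) (nat_lit 304) (nat_lit 0) (XT.nd (nat_lit 156) (nat_lit 228) (nat_lit 0) (XT.nd (nat_lit 78) (nat_lit 76) (nat_lit 0) (XT.lf (nat_lit 0) (nat_lit 24730393504) (nat_lit 228) (nat_lit 5505259480) (nat_lit 76) (nat_lit 4106507874) (nat_lit 23) (nat_lit 5) (nat_lit 26) (nat_lit 5) (nat_lit 24) (nat_lit 4) (nat_lit 322) (nat_lit 272) (nat_lit 186)) (XT.lf (nat_lit 0) (nat_lit 8812948996) (nat_lit 76) (nat_lit 22921893293)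 (nat_lit 152) (nat_lit 3893151135) (nat_lit 22) (nat_lit 5) (nat_lit 23) (nat_lit 5) (nat_lit 24) (nat_lit 4) (nat_lit 323) (nat_lit 272) (nat_lit 185))) (XT.nd (nat_lit 78) (nat_lit 152) (nat_lit 0) (XT.lf (nat_lit 0) (nat_lit 2126654551) (nat_lit 152) (nat_lit 12990196392) (nat_lit 76) (nat_lit 21855485697) (nat_lit 21) (nat_lit 5) (nat_lit 23) (nat_lit 5) (nat_lit 22) (nat_lit 5) (nat_lit 324) (nat_lit 272) (nat_lit 184)) (XT.nd (nat_lit 78) (nat_lit 0) (nat_lit 0) (XT.lf (nat_lit 0) (nat_lit 1490299035) (nat_lit 152) (nat_lit 6838225586) (nat_lit 228) (nat_lit 30051594470) (nat_lit 19) (nat_lit 5) (nat_lit 21) (nat_lit 5) (nat_lit 22) (nat_lit 5) (nat_lit 325) (nat_lit 272) (nat_lit 183)) (XT.lf (nat_lit 0) (nat_lit 15081799218) (nat_lit 228) (nat_lit 22753635362) (nat_lit 76) (nat_lit 2010798776) (nat_lit 19) (nat_lit 5) (nat_lit 22) (nat_lit 5) (nat_lit 20) (nat_lit 4) (nat_lit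 326) (nat_lit 272) (nat_lit 182))))) (XT.nd (nat_lit 156) (nat_lit 228) (nat_lit 0) (XT.nd (nat_lit 78) (nat_lit 76) (nat_lit 0) (XT.lf (nat_lit 0) (nat_lit 22274132917) (nat_lit 228) (nat_lit 8041406537) (nat_lit 76) (nat_lit 11065051964) (nat_lit 19) (nat_lit 5) (nat_lit 22) (nat_lit 5) (nat_lit 20) (nat_lit 4) (nat_lit 327) (nat_lit 272) (nat_lit 181)) (XT.lf (nat_lit 0) (nat_lit 7632961847) (nat_lit 76) (nat_lit 22302096533) (nat_lit 152) (nat_lit 13051167725) (nat_lit 18) (nat_lit 5) (nat_lit 19) (nat_lit 5) (nat_lit 20) (nat_lit 4) (nat_lit 328) (nat_lit 272) (nat_lit 180))) (XT.nd (nat_lit 78) (nat_lit 228) (nat_lit 0) (XT.lf (nat_lit 0) (nat_lit 24352740482) (nat_lit 76) (nat_lit 13752490434) (nat_lit 152) (nat_lit 6560608692) (nat_lit 18) (nat_lit 5) (nat_lit 19) (nat_lit 5) (nat_lit 20) (nat_lit 4) (nat_lit 329) (nat_lit 272) (nat_lit 179)) (XT.nd (nat_lit 78) (nat_lit 152)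 (nat_lit 0) (XT.lf (nat_lit 0) (nat_lit 236662079) (nat_lit 152) (nat_lit 4541879995) (nat_lit 76) (nat_lit 41651183081) (nat_lit 17) (nat_lit 5) (nat_lit 19) (nat_lit 5) (nat_lit 18) (nat_lit 5) (nat_lit 330) (nat_lit 272) (nat_lit 178)) (XT.lf (nat_lit 0) (nat_lit 7413254555) (nat_lit 228) (nat_lit 36057157087) (nat_lit 76) (nat_lit 4793025060) (nat_lit 15) (nat_lit 5) (nat_lit 18) (nat_lit 5) (nat_lit 16) (nat_lit 4) (nat_lit 331) (nat_lit 272) (nat_lit 177))))))))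
noncomputable def xc143 : XT := (XT.nd (nat_lit 1560) (nat_lit 304) (nat_lit 0) (XT.nd (nat_lit 780) (nat_lit 228) (nat_lit 0) (XT.nd (nat_lit 390) (nat_lit 228) (nat_lit 0) (XT.nd (nat_lit 156) (nat_lit 76) (nat_lit 0) (XT.nd (nat_lit 78) (nat_lit 0) (nat_lit 0) (XT.lf (nat_lit 0) (nat_lit 15096065126) (nat_lit 228) (nat_lit 20331315541) (nat_lit 76) (nat_lit 14754089592) (nat_lit 15) (nat_lit 5) (nat_lit 18) (nat_lit 5) (nat_lit 16) (nat_lit 4) (nat_lit 332) (nat_lit 272) (nat_lit 176)) (XT.lf (nat_lit 0) (nat_lit 23154322718) (nat_lit 228) (nat_lit 3834668550) (nat_lit 76) (nat_lit 25206854482) (nat_lit 15) (nat_lit 5) (nat_lit 18) (nat_lit 5) (nat_lit 16) (nat_lit 4) (nat_lit 333) (nat_lit 272) (nat_lit 175))) (XT.nd (nat_lit 78) (nat_lit 0) (nat_lit 0) (XT.lf (nat_lit 0) (nat_lit 13917508813) (nat_lit 76) (nat_lit 17906996160) (nat_lit 152) (nat_lit 22475989768) (nat_lit 14) (nat_lit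 5) (nat_lit 15) (nat_lit 5) (nat_lit 16) (nat_lit 4) (nat_lit 334) (nat_lit 272) (nat_lit 174)) (XT.nd (nat_lit 78) (nat_lit 0) (nat_lit 0) (XT.lf (nat_lit 0) (nat_lit 32675914795) (nat_lit 76) (nat_lit 8309111684) (nat_lit 152) (nat_lit 15522513257) (nat_lit 14) (nat_lit 5) (nat_lit 15) (nat_lit 5) (nat_lit 16) (nat_lit 4) (nat_lit 335) (nat_lit 272) (nat_lit 173)) (XT.lf (nat_lit 0) (nat_lit 50623367200) (nat_lit 152) (nat_lit 6494425965) (nat_lit 0) (nat_lit 1706158976) (nat_lit 14) (nat_lit 5) (nat_lit 16) (nat_lit 4) (nat_lit 14) (nat_lit 4) (nat_lit 336) (nat_lit 272) (nat_lit 172))))) (XT.nd (nat_lit 156) (nat_lit 76) (nat_lit 0) (XT.nd (nat_lit 78) (nat_lit 76) (nat_lit 0) (XT.lf (nat_lit 0) (nat_lit 11942198947) (nat_lit 76) (nat_lit 49116643855) (nat_lit 76) (nat_lit 181586065) (nat_lit 13) (nat_lit 4) (nat_lit 14) (nat_lit 5) (nat_lit 14) (nat_lit 4) (nat_lit 337) (nat_lit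 272) (nat_lit 171)) (XT.lf (nat_lit 0) (nat_lit 8079048965) (nat_lit 152) (nat_lit 32390006997) (nat_lit 76) (nat_lit 23297028169) (nat_lit 12) (nat_lit 5) (nat_lit 14) (nat_lit 5) (nat_lit 13) (nat_lit 4) (nat_lit 338) (nat_lit 272) (nat_lit 170))) (XT.nd (nat_lit 78) (nat_lit 76) (nat_lit 0) (XT.lf (nat_lit 0) (nat_lit 16739542758) (nat_lit 152) (nat_lit 14652184805) (nat_lit 76) (nat_lit 35026503246) (nat_lit 12) (nat_lit 5) (nat_lit 14) (nat_lit 5) (nat_lit 13) (nat_lit 4) (nat_lit 339) (nat_lit 272) (nat_lit 169)) (XT.nd (nat_lit 78) (nat_lit 0) (nat_lit 0) (XT.lf (nat_lit 0) (nat_lit 4091250190) (nat_lit 76) (nat_lit 21798953115) (nat_lit 152) (nat_lit 43309928189) (nat_lit 11) (nat_lit 5) (nat_lit 12) (nat_lit 5) (nat_lit 13) (nat_lit 4) (nat_lit 340) (nat_lit 272) (nat_lit 168)) (XT.lf (nat_lit 0) (nat_lit 24268521002) (nat_lit 76) (nat_lit 11471416788) (nat_lit 152) (nat_lit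 36369115974) (nat_lit 11) (nat_lit 5) (nat_lit 12) (nat_lit 5) (nat_lit 13) (nat_lit 4) (nat_lit 341) (nat_lit 272) (nat_lit 167)))))) (XT.nd (nat_lit 390) (nat_lit 76) (nat_lit 0) (XT.nd (nat_lit 156) (nat_lit 152) (nat_lit 0) (XT.nd (nat_lit 78) (nat_lit 0) (nat_lit 0) (XT.lf (nat_lit 0) (nat_lit 45443201352) (nat_lit 76) (nat_lit 632671049) (nat_lit 152) (nat_lit 29087867503) (nat_lit 11) (nat_lit 5) (nat_lit 12) (nat_lit 5) (nat_lit 13) (nat_lit 4) (nat_lit 342) (nat_lit 272) (nat_lit 166)) (XT.lf (nat_lit 0) (nat_lit 57090346258) (nat_lit 152) (nat_lit 10873485582) (nat_lit 0) (nat_lit 10399244646) (nat_lit 11) (nat_lit 5) (nat_lit 13) (nat_lit 4) (nat_lit 11) (nat_lit 4) (nat_lit 343) (nat_lit 272) (nat_lit 165))) (XT.nd (nat_lit 78) (nat_lit 76) (nat_lit 0) (XT.lf (nat_lit 0) (nat_lit 9189051250) (nat_lit 76) (nat_lit 59614555748) (nat_lit 76) (nat_lit 12911372847) (nat_lit 10)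 (nat_lit 4) (nat_lit 11) (nat_lit 5) (nat_lit 11) (nat_lit 4) (nat_lit 344) (nat_lit 272) (nat_lit 164)) (XT.nd (nat_lit 78) (nat_lit 76) (nat_lit 0) (XT.lf (nat_lit 0) (nat_lit 30621784671) (nat_lit 76) (nat_lit 50659230662) (nat_lit 76) (nat_lit 3944541771) (nat_lit 10) (nat_lit 4) (nat_lit 11) (nat_lit 5) (nat_lit 11) (nat_lit 4) (nat_lit 345) (nat_lit 272) (nat_lit 163)) (XT.lf (nat_lit 0) (nat_lit 5290051852) (nat_lit 152) (nat_lit 35881040678) (nat_lit 76) (nat_lit 47736577017) (nat_lit 9) (nat_lit 5) (nat_lit 11) (nat_lit 5) (nat_lit 10) (nat_lit 4) (nat_lit 346) (nat_lit 272) (nat_lit 162))))) (XT.nd (nat_lit 156) (nat_lit 0) (nat_lit 0) (XT.nd (nat_lit 78) (nat_lit 76) (nat_lit 0) (XT.lf (nat_lit 0) (nat_lit 14848589208) (nat_lit 152) (nat_lit 16296475369) (nat_lit 76) (nat_lit 61625853534) (nat_lit 9) (nat_lit 5) (nat_lit 11) (nat_lit 5) (nat_lit 10) (nat_lit 4) (nat_lit 347)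 (nat_lit 272) (nat_lit 161)) (XT.lf (nat_lit 0) (nat_lit 4398932057) (nat_lit 76) (nat_lit 20549826289) (nat_lit 152) (nat_lit 71875387947) (nat_lit 8) (nat_lit 5) (nat_lit 9) (nat_lit 5) (nat_lit 10) (nat_lit 4) (nat_lit 348) (nat_lit 272) (nat_lit 160))) (XT.nd (nat_lit 78) (nat_lit 0) (nat_lit 0) (XT.lf (nat_lit 0) (nat_lit 26685855295) (nat_lit 76) (nat_lit 9139190488) (nat_lit 152) (nat_lit 65241436929) (nat_lit 8) (nat_lit 5) (nat_lit 9) (nat_lit 5) (nat_lit 10) (nat_lit 4) (nat_lit 349) (nat_lit 272) (nat_lit 159)) (XT.nd (nat_lit 78) (nat_lit 0) (nat_lit 0) (XT.lf (nat_lit 0) (nat_lit 47284810543) (nat_lit 152) (nat_lit 55486956594) (nat_lit 0) (nat_lit 2747187872) (nat_lit 8) (nat_lit 5) (nat_lit 10) (nat_lit 4) (nat_lit 8) (nat_lit 4) (nat_lit 350) (nat_lit 272) (nat_lit 158)) (XT.lf (nat_lit 0) (nat_lit 59462902266) (nat_lit 152) (nat_lit 35806781321) (nat_lit 0) (nat_lit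 14917102503) (nat_lit 8) (nat_lit 5) (nat_lit 10) (nat_lit 4) (nat_lit 8) (nat_lit 4) (nat_lit 351) (nat_lit 272) (nat_lit 157))))))) (XT.nd (nat_lit 780) (nat_lit 76) (nat_lit 0) (XT.nd (nat_lit 390) (nat_lit 152) (nat_lit 0) (XT.nd (nat_lit 156) (nat_lit 0) (nat_lit 0) (XT.nd (nat_lit 78) (nat_lit 76) (nat_lit 0) (XT.lf (nat_lit 0) (nat_lit 72245628031) (nat_lit 152) (nat_lit 15150555662) (nat_lit 0) (nat_lit 27692040561) (nat_lit 8) (nat_lit 5) (nat_lit 10) (nat_lit 4) (nat_lit 8) (nat_lit 4) (nat_lit 352) (nat_lit 272) (nat_lit 156)) (XT.lf (nat_lit 0) (nat_lit 6746842983) (nat_lit 76) (nat_lit 79021917044) (nat_lit 76) (nat_lit 34460912710) (nat_lit 7) (nat_lit 4) (nat_lit 8) (nat_lit 5) (nat_lit 8) (nat_lit 4) (nat_lit 353) (nat_lit 272) (nat_lit 155))) (XT.nd (nat_lit 78) (nat_lit 0) (nat_lit 0) (XT.lf (nat_lit 0) (nat_lit 30257647484) (nat_lit 76) (nat_lit 69962993193) (nat_lit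 76) (nat_lit 25394925180) (nat_lit 7) (nat_lit 4) (nat_lit 8) (nat_lit 5) (nat_lit 8) (nat_lit 4) (nat_lit 354) (nat_lit 272) (nat_lit 154)) (XT.nd (nat_lit 78) (nat_lit 0) (nat_lit 0) (XT.lf (nat_lit 0) (nat_lit 54936890155) (nat_lit 76) (nat_lit 60454425266) (nat_lit 76) (nat_lit 15879629940) (nat_lit 7) (nat_lit 4) (nat_lit 8) (nat_lit 5) (nat_lit 8) (nat_lit 4) (nat_lit 355) (nat_lit 272) (nat_lit 153)) (XT.lf (nat_lit 0) (nat_lit 80843331096) (nat_lit 76) (nat_lit 50473573817) (nat_lit 76) (nat_lit 5892371524) (nat_lit 7) (nat_lit 4) (nat_lit 8) (nat_lit 5) (nat_lit 8) (nat_lit 4) (nat_lit 356) (nat_lit 272) (nat_lit 152))))) (XT.nd (nat_lit 156) (nat_lit 76) (nat_lit 0) (XT.nd (nat_lit 78) (nat_lit 0) (nat_lit 0) (XT.lf (nat_lit 0) (nat_lit 4443700447) (nat_lit 152) (nat_lit 35477718246) (nat_lit 76) (nat_lit 103519695646) (nat_lit 6) (nat_lit 5) (nat_lit 8) (nat_lit 5) (nat_lit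 7) (nat_lit 4) (nat_lit 357) (nat_lit 272) (nat_lit 151)) (XT.lf (nat_lit 0) (nat_lit 15095215907) (nat_lit 152) (nat_lit 13647922859) (nat_lit 76) (nat_lit 121236743870) (nat_lit 6) (nat_lit 5) (nat_lit 8) (nat_lit 5) (nat_lit 7) (nat_lit 4) (nat_lit 358) (nat_lit 272) (nat_lit 150))) (XT.nd (nat_lit 78) (nat_lit 0) (nat_lit 0) (XT.lf (nat_lit 0) (nat_lit 9573835480) (nat_lit 76) (nat_lit 16851767216) (nat_lit 152) (nat_lit 130412673231) (nat_lit 5) (nat_lit 5) (nat_lit 6) (nat_lit 5) (nat_lit 7) (nat_lit 4) (nat_lit 359) (nat_lit 272) (nat_lit 149)) (XT.nd (nat_lit 78) (nat_lit 0) (nat_lit 0) (XT.lf (nat_lit 0) (nat_lit 34424653416) (nat_lit 76) (nat_lit 4125870725) (nat_lit 152) (nat_lit 125477665265) (nat_lit 5) (nat_lit 5) (nat_lit 6) (nat_lit 5) (nat_lit 7) (nat_lit 4) (nat_lit 360) (nat_lit 272) (nat_lit 148)) (XT.lf (nat_lit 0) (nat_lit 51422885505) (nat_lit 152) (nat_lit 111209474898)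 (nat_lit 0) (nat_lit 8938179695) (nat_lit 5) (nat_lit 5) (nat_lit 7) (nat_lit 4) (nat_lit 5) (nat_lit 4) (nat_lit 361) (nat_lit 272) (nat_lit 147)))))) (XT.nd (nat_lit 390) (nat_lit 76) (nat_lit 0) (XT.nd (nat_lit 156) (nat_lit 0) (nat_lit 0) (XT.nd (nat_lit 78) (nat_lit 0) (nat_lit 0) (XT.lf (nat_lit 0) (nat_lit 65003634537) (nat_lit 152) (nat_lit 91968761060) (nat_lit 0) (nat_lit 22514375417) (nat_lit 5) (nat_lit 5) (nat_lit 7) (nat_lit 4) (nat_lit 5) (nat_lit 4) (nat_lit 362) (nat_lit 272) (nat_lit 146)) (XT.lf (nat_lit 0) (nat_lit 79260689953) (nat_lit 152) (nat_lit 71771166847) (nat_lit 0) (nat_lit 36767094345) (nat_lit 5) (nat_lit 5) (nat_lit 7) (nat_lit 4) (nat_lit 5) (nat_lit 4) (nat_lit 363) (nat_lit 272) (nat_lit 145))) (XT.nd (nat_lit 78) (nat_lit 0) (nat_lit 0) (XT.lf (nat_lit 0) (nat_lit 94227997120) (nat_lit 152) (nat_lit 50568602750) (nat_lit 0) (nat_lit 51730271526) (nat_lit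 5) (nat_lit 5) (nat_lit 7) (nat_lit 4) (nat_lit 5) (nat_lit 4) (nat_lit 364) (nat_lit 272) (nat_lit 144)) (XT.nd (nat_lit 78) (nat_lit 0) (nat_lit 0) (XT.lf (nat_lit 0) (nat_lit 109941192485) (nat_lit 152) (nat_lit 28310586474) (nat_lit 0) (nat_lit 67439533570) (nat_lit 5) (nat_lit 5) (nat_lit 7) (nat_lit 4) (nat_lit 5) (nat_lit 4) (nat_lit 365) (nat_lit 272) (nat_lit 143)) (XT.lf (nat_lit 0) (nat_lit 126437688418) (nat_lit 152) (nat_lit 4944122741) (nat_lit 0) (nat_lit 83932283482) (nat_lit 5) (nat_lit 5) (nat_lit 7) (nat_lit 4) (nat_lit 5) (nat_lit 4) (nat_lit 366) (nat_lit 272) (nat_lit 142))))) (XT.nd (nat_lit 234) (nat_lit 0) (nat_lit 0) (XT.nd (nat_lit 78) (nat_lit 0) (nat_lit 0) (XT.lf (nat_lit 0) (nat_lit 20234038481) (nat_lit 76) (nat_lit 123838633855) (nat_lit 76) (nat_lit 81329661281) (nat_lit 4) (nat_lit 4) (nat_lit 5) (nat_lit 5) (nat_lit 5) (nat_lit 4) (nat_lit 367) (nat_lit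 272) (nat_lit 141)) (XT.nd (nat_lit 78) (nat_lit 0) (nat_lit 0) (XT.lf (nat_lit 0) (nat_lit 46838583657) (nat_lit 76) (nat_lit 115832347889) (nat_lit 76) (nat_lit 73319977565) (nat_lit 4) (nat_lit 4) (nat_lit 5) (nat_lit 5) (nat_lit 5) (nat_lit 4) (nat_lit 368) (nat_lit 272) (nat_lit 140)) (XT.lf (nat_lit 0) (nat_lit 74769381917) (nat_lit 76) (nat_lit 107427621787) (nat_lit 76) (nat_lit 64912015510) (nat_lit 4) (nat_lit 4) (nat_lit 5) (nat_lit 5) (nat_lit 5) (nat_lit 4) (nat_lit 369) (nat_lit 272) (nat_lit 139)))) (XT.nd (nat_lit 78) (nat_lit 0) (nat_lit 0) (XT.lf (nat_lit 0) (nat_lit 104092935160) (nat_lit 76) (nat_lit 98604444296) (nat_lit 76) (nat_lit 56085756158) (nat_lit 4) (nat_lit 4) (nat_lit 5) (nat_lit 5) (nat_lit 5) (nat_lit 4) (nat_lit 370) (nat_lit 272) (nat_lit 138)) (XT.nd (nat_lit 78) (nat_lit 0) (nat_lit 0) (XT.lf (nat_lit 0) (nat_lit 134879061370) (nat_lit 76) (nat_lit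 89341807850) (nat_lit 76) (nat_lit 46820184608) (nat_lit 4) (nat_lit 4) (nat_lit 5) (nat_lit 5) (nat_lit 5) (nat_lit 4) (nat_lit 371) (nat_lit 272) (nat_lit 137)) (XT.lf (nat_lit 0) (nat_lit 167201060848) (nat_lit 76) (nat_lit 79617658553) (nat_lit 76) (nat_lit 37093239973) (nat_lit 4) (nat_lit 4) (nat_lit 5) (nat_lit 5) (nat_lit 5) (nat_lit 4) (nat_lit 372) (nat_lit 272) (nat_lit 136))))))))
noncomputable def xc144 : XT := (XT.nd (nat_lit 33384) (nat_lit 0) (nat_lit 3800) (XT.nd (nat_lit 780) (nat_lit 0) (nat_lit 0) (XT.nd (nat_lit 390) (nat_lit 76) (nat_lit 0) (XT.nd (nat_lit 156) (nat_lit 76) (nat_lit 0) (XT.nd (nat_lit 78) (nat_lit 0) (nat_lit 0) (XT.lf (nat_lit 0) (nat_lit 201135890736) (nat_lit 76) (nat_lit 69408843669) (nat_lit 76) (nat_lit 26881762862) (nat_lit 4) (nat_lit 4) (nat_lit 5) (nat_lit 5) (nat_lit 5) (nat_lit 4) (nat_lit 373) (nat_lit 272) (nat_lit 135)) (XT.lf (nat_lit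 0) (nat_lit 236764348247) (nat_lit 76) (nat_lit 58691056495) (nat_lit 76) (nat_lit 16161440235) (nat_lit 4) (nat_lit 4) (nat_lit 5) (nat_lit 5) (nat_lit 5) (nat_lit 4) (nat_lit 374) (nat_lit 272) (nat_lit 134))) (XT.nd (nat_lit 78) (nat_lit 76) (nat_lit 0) (XT.lf (nat_lit 0) (nat_lit 274171263043) (nat_lit 76) (nat_lit 47438778491) (nat_lit 76) (nat_lit 4906747513) (nat_lit 4) (nat_lit 4) (nat_lit 5) (nat_lit 5) (nat_lit 5) (nat_lit 4) (nat_lit 375) (nat_lit 272) (nat_lit 133)) (XT.nd (nat_lit 78) (nat_lit 0) (nat_lit 0) (XT.lf (nat_lit 0) (nat_lit 6687977451) (nat_lit 152) (nat_lit 28823976934) (nat_lit 76) (nat_lit 306644457620) (nat_lit 3) (nat_lit 5) (nat_lit 5) (nat_lit 5) (nat_lit 4) (nat_lit 4) (nat_lit 376) (nat_lit 272) (nat_lit 132)) (XT.lf (nat_lit 0) (nat_lit 18696094554) (nat_lit 152) (nat_lit 4209527093) (nat_lit 76) (nat_lit 335668445336) (nat_lit 3) (nat_lit 5) (nat_lit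 5) (nat_lit 5) (nat_lit 4) (nat_lit 4) (nat_lit 377) (nat_lit 272) (nat_lit 131))))) (XT.nd (nat_lit 156) (nat_lit 0) (nat_lit 0) (XT.nd (nat_lit 78) (nat_lit 0) (nat_lit 0) (XT.lf (nat_lit 0) (nat_lit 22348323344) (nat_lit 76) (nat_lit 9303837728) (nat_lit 152) (nat_lit 344143066971) (nat_lit 2) (nat_lit 5) (nat_lit 3) (nat_lit 5) (nat_lit 4) (nat_lit 4) (nat_lit 378) (nat_lit 272) (nat_lit 130)) (XT.lf (nat_lit 0) (nat_lit 45404841191) (nat_lit 152) (nat_lit 343575175650) (nat_lit 0) (nat_lit 4889990287) (nat_lit 2) (nat_lit 5) (nat_lit 4) (nat_lit 4) (nat_lit 2) (nat_lit 4) (nat_lit 379) (nat_lit 272) (nat_lit 129))) (XT.nd (nat_lit 78) (nat_lit 0) (nat_lit 0) (XT.lf (nat_lit 0) (nat_lit 59996372596) (nat_lit 152) (nat_lit 333364872377) (nat_lit 0) (nat_lit 19479719793) (nat_lit 2) (nat_lit 5) (nat_lit 4) (nat_lit 4) (nat_lit 2) (nat_lit 4) (nat_lit 380) (nat_lit 272) (nat_lit 128))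 (XT.nd (nat_lit 78) (nat_lit 0) (nat_lit 0) (XT.lf (nat_lit 0) (nat_lit 75316238050) (nat_lit 152) (nat_lit 322646425655) (nat_lit 0) (nat_lit 34797869152) (nat_lit 2) (nat_lit 5) (nat_lit 4) (nat_lit 4) (nat_lit 2) (nat_lit 4) (nat_lit 381) (nat_lit 272) (nat_lit 127)) (XT.lf (nat_lit 0) (nat_lit 91400913420) (nat_lit 152) (nat_lit 311394315370) (nat_lit 0) (nat_lit 50880910146) (nat_lit 2) (nat_lit 5) (nat_lit 4) (nat_lit 4) (nat_lit 2) (nat_lit 4) (nat_lit 382) (nat_lit 272) (nat_lit 126)))))) (XT.nd (nat_lit 32214) (nat_lit 0) (nat_lit 7448) (XT.nd (nat_lit 156) (nat_lit 0) (nat_lit 0) (XT.nd (nat_lit 78) (nat_lit 0) (nat_lit 0) (XT.lf (nat_lit 0) (nat_lit 108288695555) (nat_lit 152) (nat_lit 299581750786) (nat_lit 0) (nat_lit 67767135732) (nat_lit 2) (nat_lit 5) (nat_lit 4) (nat_lit 4) (nat_lit 2) (nat_lit 4) (nat_lit 383) (nat_lit 272) (nat_lit 125)) (XT.lf (nat_lit 0) (nat_lit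 126019793458) (nat_lit 152) (nat_lit 287180606747) (nat_lit 0) (nat_lit 85496751208) (nat_lit 2) (nat_lit 5) (nat_lit 4) (nat_lit 4) (nat_lit 2) (nat_lit 4) (nat_lit 384) (nat_lit 272) (nat_lit 124))) (XT.nd (nat_lit 31902) (nat_lit 0) (nat_lit 7372) (XT.lf (nat_lit 0) (nat_lit 144636424030) (nat_lit 152) (nat_lit 274161356720) (nat_lit 0) (nat_lit 104111969945) (nat_lit 2) (nat_lit 5) (nat_lit 4) (nat_lit 4) (nat_lit 2) (nat_lit 4) (nat_lit 385) (nat_lit 272) (nat_lit 123)) (XT.nd (nat_lit 78) (nat_lit 0) (nat_lit 0) (XT.lf (nat_lit 0) (nat_lit 280579771) (nat_lit 684) (nat_lit 1968220043) (nat_lit 684) (nat_lit 1968220043) (nat_lit 99) (nat_lit 3) (nat_lit 108) (nat_lit 3) (nat_lit 108) (nat_lit 5) (nat_lit 273) (nat_lit 273) (nat_lit 234)) (XT.lf (nat_lit 0) (nat_lit 1570126308) (nat_lit 684) (nat_lit 78272692) (nat_lit 684) (nat_lit 6944562935) (nat_lit 99) (nat_lit 3) (nat_lit 108)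 (nat_lit 3) (nat_lit 108) (nat_lit 5) (nat_lit 274) (nat_lit 273) (nat_lit 233))))) (XT.nd (nat_lit 156) (nat_lit 0) (nat_lit 0) (XT.nd (nat_lit 78) (nat_lit 0) (nat_lit 0) (XT.lf (nat_lit 0) (nat_lit 2651874910) (nat_lit 608) (nat_lit 4712914656) (nat_lit 684) (nat_lit 1394063692) (nat_lit 100) (nat_lit 5) (nat_lit 108) (nat_lit 5) (nat_lit 109) (nat_lit 5) (nat_lit 275) (nat_lit 273) (nat_lit 232)) (XT.lf (nat_lit 0) (nat_lit 3755351195) (nat_lit 608) (nat_lit 617537351) (nat_lit 684) (nat_lit 4561901607) (nat_lit 100) (nat_lit 5) (nat_lit 108) (nat_lit 5) (nat_lit 109) (nat_lit 5) (nat_lit 276) (nat_lit 273) (nat_lit 231))) (XT.nd (nat_lit 78) (nat_lit 0) (nat_lit 76) (XT.lf (nat_lit 76) (nat_lit 3768365054) (nat_lit 0) (nat_lit 1146632884) (nat_lit 684) (nat_lit 4204602805) (nat_lit 101) (nat_lit 5) (nat_lit 100) (nat_lit 5) (nat_lit 109) (nat_lit 5) (nat_lit 277) (nat_lit 273) (nat_lit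 230)) (XT.nd (nat_lit 78) (nat_lit 0) (nat_lit 0) (XT.lf (nat_lit 0) (nat_lit 6122957705) (nat_lit 608) (nat_lit 990812984) (nat_lit 684) (nat_lit 2200485290) (nat_lit 101) (nat_lit 5) (nat_lit 109) (nat_lit 5) (nat_lit 110) (nat_lit 5) (nat_lit 278) (nat_lit 273) (nat_lit 229)) (XT.lf (nat_lit 76) (nat_lit 3649913247) (nat_lit 0) (nat_lit 3764531190) (nat_lit 684) (nat_lit 2103157996) (nat_lit 102) (nat_lit 5) (nat_lit 101) (nat_lit 5) (nat_lit 110) (nat_lit 5) (nat_lit 279) (nat_lit 273) (nat_lit 228))))))) (XT.nd (nat_lit 780) (nat_lit 1520) (nat_lit 0) (XT.nd (nat_lit 390) (nat_lit 1596) (nat_lit 0) (XT.nd (nat_lit 156) (nat_lit 0) (nat_lit 0) (XT.nd (nat_lit 78) (nat_lit 608) (nat_lit 0) (XT.lf (nat_lit 76) (nat_lit 8521910670) (nat_lit 0) (nat_lit 214679386) (nat_lit 684) (nat_lit 996331359) (nat_lit 102) (nat_lit 5) (nat_lit 101) (nat_lit 5) (nat_lit 110) (nat_lit 5) (nat_lit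 280) (nat_lit 273) (nat_lit 227)) (XT.lf (nat_lit 0) (nat_lit 226141637) (nat_lit 684) (nat_lit 6253488599) (nat_lit 760) (nat_lit 3476065269) (nat_lit 93) (nat_lit 5) (nat_lit 102) (nat_lit 5) (nat_lit 103) (nat_lit 5) (nat_lit 281) (nat_lit 273) (nat_lit 226))) (XT.nd (nat_lit 78) (nat_lit 0) (nat_lit 76) (XT.lf (nat_lit 0) (nat_lit 1453445319) (nat_lit 684) (nat_lit 1342951195) (nat_lit 760) (nat_lit 7393630139) (nat_lit 93) (nat_lit 5) (nat_lit 102) (nat_lit 5) (nat_lit 103) (nat_lit 5) (nat_lit 282) (nat_lit 273) (nat_lit 225)) (XT.nd (nat_lit 78) (nat_lit 0) (nat_lit 0) (XT.lf (nat_lit 0) (nat_lit 2775981832) (nat_lit 684) (nat_lit 6550746105) (nat_lit 76) (nat_lit 1107743069) (nat_lit 94) (nat_lit 5) (nat_lit 103) (nat_lit 5) (nat_lit 95) (nat_lit 5) (nat_lit 283) (nat_lit 273) (nat_lit 224)) (XT.lf (nat_lit 0) (nat_lit 4190400590) (nat_lit 684) (nat_lit 1355198806) (nat_lit 76)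 (nat_lit 5144336154) (nat_lit 94) (nat_lit 5) (nat_lit 103) (nat_lit 5) (nat_lit 95) (nat_lit 5) (nat_lit 284) (nat_lit 273) (nat_lit 223))))) (XT.nd (nat_lit 156) (nat_lit 988) (nat_lit 0) (XT.nd (nat_lit 78) (nat_lit 0) (nat_lit 0) (XT.lf (nat_lit 0) (nat_lit 4198954793) (nat_lit 684) (nat_lit 1500996734) (nat_lit 760) (nat_lit 5257082893) (nat_lit 85) (nat_lit 5) (nat_lit 94) (nat_lit 5) (nat_lit 95) (nat_lit 5) (nat_lit 285) (nat_lit 273) (nat_lit 222)) (XT.lf (nat_lit 0) (nat_lit 7311518288) (nat_lit 760) (nat_lit 1238850323) (nat_lit 76) (nat_lit 2685870481) (nat_lit 85) (nat_lit 5) (nat_lit 95) (nat_lit 5) (nat_lit 86) (nat_lit 5) (nat_lit 286) (nat_lit 273) (nat_lit 221))) (XT.nd (nat_lit 78) (nat_lit 456) (nat_lit 0) (XT.lf (nat_lit 0) (nat_lit 4645043671) (nat_lit 532) (nat_lit 4417977785) (nat_lit 608) (nat_lit 2463488705) (nat_lit 78) (nat_lit 5) (nat_lit 85) (nat_lit 5)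 (nat_lit 86) (nat_lit 5) (nat_lit 287) (nat_lit 273) (nat_lit 220)) (XT.nd (nat_lit 78) (nat_lit 456) (nat_lit 0) (XT.lf (nat_lit 0) (nat_lit 10831352109) (nat_lit 532) (nat_lit 55213047) (nat_lit 608) (nat_lit 945576904) (nat_lit 78) (nat_lit 5) (nat_lit 85) (nat_lit 5) (nat_lit 86) (nat_lit 5) (nat_lit 288) (nat_lit 273) (nat_lit 219)) (XT.lf (nat_lit 0) (nat_lit 747001522) (nat_lit 456) (nat_lit 6923411237) (nat_lit 76) (nat_lit 4476224819) (nat_lit 72) (nat_lit 5) (nat_lit 78) (nat_lit 5) (nat_lit 73) (nat_lit 5) (nat_lit 289) (nat_lit 273) (nat_lit 218)))))) (XT.nd (nat_lit 390) (nat_lit 608) (nat_lit 0) (XT.nd (nat_lit 156) (nat_lit 608) (nat_lit 0) (XT.nd (nat_lit 78) (nat_lit 304) (nat_lit 0) (XT.lf (nat_lit 0) (nat_lit 2476316832) (nat_lit 456) (nat_lit 735100680) (nat_lit 76) (nat_lit 9265531956) (nat_lit 72) (nat_lit 5) (nat_lit 78) (nat_lit 5) (nat_lit 73) (nat_lit 5) (nat_lit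 290) (nat_lit 273) (nat_lit 217)) (XT.lf (nat_lit 0) (nat_lit 4376334930) (nat_lit 380) (nat_lit 6927156258) (nat_lit 76) (nat_lit 1516131948) (nat_lit 68) (nat_lit 5) (nat_lit 73) (nat_lit 5) (nat_lit 69) (nat_lit 5) (nat_lit 291) (nat_lit 273) (nat_lit 216))) (XT.nd (nat_lit 78) (nat_lit 608) (nat_lit 0) (XT.lf (nat_lit 0) (nat_lit 6405042731) (nat_lit 380) (nat_lit 389684118) (nat_lit 76) (nat_lit 6383074470) (nat_lit 68) (nat_lit 5) (nat_lit 73) (nat_lit 5) (nat_lit 69) (nat_lit 5) (nat_lit 292) (nat_lit 273) (nat_lit 215)) (XT.nd (nat_lit 78) (nat_lit 304) (nat_lit 0) (XT.lf (nat_lit 0) (nat_lit 6654347377) (nat_lit 304) (nat_lit 1954626067) (nat_lit 380) (nat_lit 4941278231) (nat_lit 64) (nat_lit 5) (nat_lit 68) (nat_lit 5) (nat_lit 69) (nat_lit 5) (nat_lit 293) (nat_lit 273) (nat_lit 214)) (XT.lf (nat_lit 0) (nat_lit 41287985) (nat_lit 304) (nat_lit 10908754584) (nat_lit 380)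 (nat_lit 2989985018) (nat_lit 60) (nat_lit 5) (nat_lit 64) (nat_lit 5) (nat_lit 65) (nat_lit 5) (nat_lit 294) (nat_lit 273) (nat_lit 213))))) (XT.nd (nat_lit 156) (nat_lit 228) (nat_lit 0) (XT.nd (nat_lit 78) (nat_lit 380) (nat_lit 0) (XT.lf (nat_lit 0) (nat_lit 7497987969) (nat_lit 304) (nat_lit 6030116558) (nat_lit 380) (nat_lit 815238545) (nat_lit 60) (nat_lit 5) (nat_lit 64) (nat_lit 5) (nat_lit 65) (nat_lit 5) (nat_lit 295) (nat_lit 273) (nat_lit 212)) (XT.lf (nat_lit 0) (nat_lit 521455407) (nat_lit 304) (nat_lit 880429954) (nat_lit 380) (nat_lit 13364804448) (nat_lit 55) (nat_lit 5) (nat_lit 59) (nat_lit 5) (nat_lit 60) (nat_lit 5) (nat_lit 296) (nat_lit 273) (nat_lit 211))) (XT.nd (nat_lit 78) (nat_lit 228) (nat_lit 0) (XT.lf (nat_lit 0) (nat_lit 3864177592) (nat_lit 380) (nat_lit 6830849465) (nat_lit 76) (nat_lit 4507464369) (nat_lit 55) (nat_lit 5) (nat_lit 60) (nat_lit 5) (nat_lit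 56) (nat_lit 5) (nat_lit 297) (nat_lit 273) (nat_lit 210)) (XT.nd (nat_lit 78) (nat_lit 0) (nat_lit 0) (XT.lf (nat_lit 0) (nat_lit 937677151) (nat_lit 228) (nat_lit 5515460794) (nat_lit 304) (nat_lit 9206806782) (nat_lit 52) (nat_lit 5) (nat_lit 55) (nat_lit 5) (nat_lit 56) (nat_lit 5) (nat_lit 298) (nat_lit 273) (nat_lit 209)) (XT.lf (nat_lit 0) (nat_lit 9263020600) (nat_lit 304) (nat_lit 6836208037) (nat_lit 76) (nat_lit 36505753) (nat_lit 52) (nat_lit 5) (nat_lit 56) (nat_lit 5) (nat_lit 53) (nat_lit 5) (nat_lit 299) (nat_lit 273) (nat_lit 208))))))))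
noncomputable def xc145 : XT := (XT.nd (nat_lit 1560) (nat_lit 988) (nat_lit 0) (XT.nd (nat_lit 780) (nat_lit 836) (nat_lit 0) (XT.nd (nat_lit 390) (nat_lit 456) (nat_lit 0) (XT.nd (nat_lit 156) (nat_lit 532) (nat_lit 0) (XT.nd (nat_lit 78) (nat_lit 0) (nat_lit 0) (XT.lf (nat_lit 0) (nat_lit 1366219186) (nat_lit 228) (nat_lit 10935207019) (nat_lit 304) (nat_lit 4329521517) (nat_lit 49) (nat_lit 5) (nat_lit 52) (nat_lit 5) (nat_lit 53) (nat_lit 5) (nat_lit 300) (nat_lit 273) (nat_lit 207)) (XT.lf (nat_lit 0) (nat_lit 10185363988) (nat_lit 228) (nat_lit 5399093030) (nat_lit 304) (nat_lit 1561863389) (nat_lit 49) (nat_lit 5) (nat_lit 52) (nat_lit 5) (nat_lit 53) (nat_lit 5) (nat_lit 301) (nat_lit 273) (nat_lit 206))) (XT.nd (nat_lit 78) (nat_lit 228) (nat_lit 0) (XT.lf (nat_lit 0) (nat_lit 1313461253) (nat_lit 304) (nat_lit 15929910831) (nat_lit 76) (nat_lit 442455817) (nat_lit 45) (nat_lit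 5) (nat_lit 49) (nat_lit 5) (nat_lit 46) (nat_lit 5) (nat_lit 302) (nat_lit 273) (nat_lit 205)) (XT.nd (nat_lit 78) (nat_lit 228) (nat_lit 0) (XT.lf (nat_lit 0) (nat_lit 4466511738) (nat_lit 304) (nat_lit 7242718679) (nat_lit 76) (nat_lit 6532507023) (nat_lit 45) (nat_lit 5) (nat_lit 49) (nat_lit 5) (nat_lit 46) (nat_lit 5) (nat_lit 303) (nat_lit 273) (nat_lit 204)) (XT.lf (nat_lit 0) (nat_lit 1910890091) (nat_lit 228) (nat_lit 5875319959) (nat_lit 304) (nat_lit 11038810558) (nat_lit 42) (nat_lit 5) (nat_lit 45) (nat_lit 5) (nat_lit 46) (nat_lit 5) (nat_lit 304) (nat_lit 273) (nat_lit 203))))) (XT.nd (nat_lit 156) (nat_lit 304) (nat_lit 0) (XT.nd (nat_lit 78) (nat_lit 152) (nat_lit 0) (XT.lf (nat_lit 0) (nat_lit 11380046708) (nat_lit 304) (nat_lit 7693168375) (nat_lit 76) (nat_lit 358871766) (nat_lit 42) (nat_lit 5) (nat_lit 46) (nat_lit 5) (nat_lit 43) (nat_lit 5) (nat_lit 305) (nat_lit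 273) (nat_lit 202)) (XT.lf (nat_lit 0) (nat_lit 1926032058) (nat_lit 152) (nat_lit 13334479206) (nat_lit 228) (nat_lit 4803673655) (nat_lit 40) (nat_lit 5) (nat_lit 42) (nat_lit 5) (nat_lit 43) (nat_lit 5) (nat_lit 306) (nat_lit 273) (nat_lit 201))) (XT.nd (nat_lit 78) (nat_lit 304) (nat_lit 0) (XT.lf (nat_lit 0) (nat_lit 12265597641) (nat_lit 152) (nat_lit 7180731552) (nat_lit 228) (nat_lit 1276016308) (nat_lit 40) (nat_lit 5) (nat_lit 42) (nat_lit 5) (nat_lit 43) (nat_lit 5) (nat_lit 307) (nat_lit 273) (nat_lit 200)) (XT.nd (nat_lit 78) (nat_lit 0) (nat_lit 0) (XT.lf (nat_lit 0) (nat_lit 1698175999) (nat_lit 228) (nat_lit 660276403) (nat_lit 304) (nat_lit 19052681148) (nat_lit 36) (nat_lit 5) (nat_lit 39) (nat_lit 5) (nat_lit 40) (nat_lit 5) (nat_lit 308) (nat_lit 273) (nat_lit 199)) (XT.lf (nat_lit 0) (nat_lit 6355865300) (nat_lit 304) (nat_lit 9619946316) (nat_lit 76) (nat_lit 6146319138)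 (nat_lit 36) (nat_lit 5) (nat_lit 40) (nat_lit 5) (nat_lit 37) (nat_lit 5) (nat_lit 309) (nat_lit 273) (nat_lit 198)))))) (XT.nd (nat_lit 390) (nat_lit 456) (nat_lit 0) (XT.nd (nat_lit 156) (nat_lit 228) (nat_lit 0) (XT.nd (nat_lit 78) (nat_lit 0) (nat_lit 0) (XT.lf (nat_lit 0) (nat_lit 971960645) (nat_lit 152) (nat_lit 9589999194) (nat_lit 228) (nat_lit 12306297268) (nat_lit 34) (nat_lit 5) (nat_lit 36) (nat_lit 5) (nat_lit 37) (nat_lit 5) (nat_lit 310) (nat_lit 273) (nat_lit 197)) (XT.lf (nat_lit 0) (nat_lit 12401826317) (nat_lit 152) (nat_lit 2722681495) (nat_lit 228) (nat_lit 8519893426) (nat_lit 34) (nat_lit 5) (nat_lit 36) (nat_lit 5) (nat_lit 37) (nat_lit 5) (nat_lit 311) (nat_lit 273) (nat_lit 196))) (XT.nd (nat_lit 78) (nat_lit 228) (nat_lit 0) (XT.lf (nat_lit 0) (nat_lit 19969150704) (nat_lit 228) (nat_lit 151322037) (nat_lit 76) (nat_lit 4336199453) (nat_lit 34) (nat_lit 5)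 (nat_lit 37) (nat_lit 5) (nat_lit 35) (nat_lit 5) (nat_lit 312) (nat_lit 273) (nat_lit 195)) (XT.nd (nat_lit 78) (nat_lit 76) (nat_lit 0) (XT.lf (nat_lit 0) (nat_lit 11803763574) (nat_lit 152) (nat_lit 13465850146) (nat_lit 228) (nat_lit 29280716) (nat_lit 32) (nat_lit 5) (nat_lit 34) (nat_lit 5) (nat_lit 35) (nat_lit 5) (nat_lit 313) (nat_lit 273) (nat_lit 194)) (XT.lf (nat_lit 0) (nat_lit 4490353948) (nat_lit 228) (nat_lit 1917937272) (nat_lit 76) (nat_lit 19771952138) (nat_lit 31) (nat_lit 5) (nat_lit 34) (nat_lit 5) (nat_lit 32) (nat_lit 5) (nat_lit 314) (nat_lit 273) (nat_lit 193))))) (XT.nd (nat_lit 156) (nat_lit 304) (nat_lit 0) (XT.nd (nat_lit 78) (nat_lit 0) (nat_lit 0) (XT.lf (nat_lit 0) (nat_lit 9403456322) (nat_lit 228) (nat_lit 16563860527) (nat_lit 76) (nat_lit 1129910179) (nat_lit 29) (nat_lit 5) (nat_lit 32) (nat_lit 5) (nat_lit 30) (nat_lit 5) (nat_lit 315) (nat_lit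 273) (nat_lit 192)) (XT.lf (nat_lit 0) (nat_lit 14685982139) (nat_lit 228) (nat_lit 4513303500) (nat_lit 76) (nat_lit 8854599926) (nat_lit 29) (nat_lit 5) (nat_lit 32) (nat_lit 5) (nat_lit 30) (nat_lit 5) (nat_lit 316) (nat_lit 273) (nat_lit 191))) (XT.nd (nat_lit 78) (nat_lit 152) (nat_lit 0) (XT.lf (nat_lit 0) (nat_lit 8386188782) (nat_lit 152) (nat_lit 11963758989) (nat_lit 228) (nat_lit 8702577010) (nat_lit 27) (nat_lit 5) (nat_lit 29) (nat_lit 5) (nat_lit 30) (nat_lit 5) (nat_lit 317) (nat_lit 273) (nat_lit 190)) (XT.nd (nat_lit 78) (nat_lit 152) (nat_lit 0) (XT.lf (nat_lit 0) (nat_lit 22065699263) (nat_lit 152) (nat_lit 4294539522) (nat_lit 228) (nat_lit 3737713606) (nat_lit 27) (nat_lit 5) (nat_lit 29) (nat_lit 5) (nat_lit 30) (nat_lit 5) (nat_lit 318) (nat_lit 273) (nat_lit 189)) (XT.lf (nat_lit 0) (nat_lit 1559275605) (nat_lit 152) (nat_lit 25890238210) (nat_lit 76) (nat_lit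 3738442193) (nat_lit 25) (nat_lit 5) (nat_lit 27) (nat_lit 5) (nat_lit 26) (nat_lit 5) (nat_lit 319) (nat_lit 273) (nat_lit 188))))))) (XT.nd (nat_lit 780) (nat_lit 456) (nat_lit 0) (XT.nd (nat_lit 390) (nat_lit 304) (nat_lit 0) (XT.nd (nat_lit 156) (nat_lit 76) (nat_lit 0) (XT.nd (nat_lit 78) (nat_lit 152) (nat_lit 0) (XT.lf (nat_lit 0) (nat_lit 7191435142) (nat_lit 152) (nat_lit 12907745752) (nat_lit 76) (nat_lit 12220429633) (nat_lit 25) (nat_lit 5) (nat_lit 27) (nat_lit 5) (nat_lit 26) (nat_lit 5) (nat_lit 320) (nat_lit 273) (nat_lit 187)) (XT.lf (nat_lit 0) (nat_lit 726918071) (nat_lit 152) (nat_lit 12377510164) (nat_lit 228) (nat_lit 20403468779) (nat_lit 23) (nat_lit 5) (nat_lit 25) (nat_lit 5) (nat_lit 26) (nat_lit 5) (nat_lit 321) (nat_lit 273) (nat_lit 186))) (XT.nd (nat_lit 78) (nat_lit 76) (nat_lit 0) (XT.lf (nat_lit 0) (nat_lit 15471549814) (nat_lit 152) (nat_lit 4048263170)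 (nat_lit 228) (nat_lit 15225457761) (nat_lit 23) (nat_lit 5) (nat_lit 25) (nat_lit 5) (nat_lit 26) (nat_lit 5) (nat_lit 322) (nat_lit 273) (nat_lit 185)) (XT.nd (nat_lit 78) (nat_lit 76) (nat_lit 0) (XT.lf (nat_lit 0) (nat_lit 26317895475) (nat_lit 228) (nat_lit 5183840755) (nat_lit 76) (nat_lit 4539690051) (nat_lit 23) (nat_lit 5) (nat_lit 26) (nat_lit 5) (nat_lit 24) (nat_lit 4) (nat_lit 323) (nat_lit 273) (nat_lit 184)) (XT.lf (nat_lit 0) (nat_lit 9840654246) (nat_lit 76) (nat_lit 23824364628) (nat_lit 152) (nat_lit 3726922969) (nat_lit 22) (nat_lit 5) (nat_lit 23) (nat_lit 5) (nat_lit 24) (nat_lit 4) (nat_lit 324) (nat_lit 273) (nat_lit 183))))) (XT.nd (nat_lit 156) (nat_lit 76) (nat_lit 0) (XT.nd (nat_lit 78) (nat_lit 152) (nat_lit 0) (XT.lf (nat_lit 0) (nat_lit 2565687399) (nat_lit 152) (nat_lit 13069349435) (nat_lit 76) (nat_lit 23169028091) (nat_lit 21) (nat_lit 5) (nat_lit 23)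 (nat_lit 5) (nat_lit 22) (nat_lit 5) (nat_lit 325) (nat_lit 273) (nat_lit 182)) (XT.lf (nat_lit 0) (nat_lit 2125971461) (nat_lit 152) (nat_lit 6944597889) (nat_lit 228) (nat_lit 31212033303) (nat_lit 19) (nat_lit 5) (nat_lit 21) (nat_lit 5) (nat_lit 22) (nat_lit 5) (nat_lit 326) (nat_lit 273) (nat_lit 181))) (XT.nd (nat_lit 78) (nat_lit 76) (nat_lit 0) (XT.lf (nat_lit 0) (nat_lit 16149504343) (nat_lit 228) (nat_lit 23344648137) (nat_lit 76) (nat_lit 2328481817) (nat_lit 19) (nat_lit 5) (nat_lit 22) (nat_lit 5) (nat_lit 20) (nat_lit 4) (nat_lit 327) (nat_lit 273) (nat_lit 180)) (XT.nd (nat_lit 78) (nat_lit 76) (nat_lit 0) (XT.lf (nat_lit 0) (nat_lit 23686520671) (nat_lit 228) (nat_lit 7922839728) (nat_lit 76) (nat_lit 11825107516) (nat_lit 19) (nat_lit 5) (nat_lit 22) (nat_lit 5) (nat_lit 20) (nat_lit 4) (nat_lit 328) (nat_lit 273) (nat_lit 179)) (XT.lf (nat_lit 0) (nat_lit 8526849703)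 (nat_lit 76) (nat_lit 23197417293) (nat_lit 152) (nat_lit 13396439041) (nat_lit 18) (nat_lit 5) (nat_lit 19) (nat_lit 5) (nat_lit 20) (nat_lit 4) (nat_lit 329) (nat_lit 273) (nat_lit 178)))))) (XT.nd (nat_lit 390) (nat_lit 228) (nat_lit 0) (XT.nd (nat_lit 156) (nat_lit 152) (nat_lit 0) (XT.nd (nat_lit 78) (nat_lit 76) (nat_lit 0) (XT.lf (nat_lit 0) (nat_lit 26058224900) (nat_lit 76) (nat_lit 14230796797) (nat_lit 152) (nat_lit 6595984774) (nat_lit 18) (nat_lit 5) (nat_lit 19) (nat_lit 5) (nat_lit 20) (nat_lit 4) (nat_lit 330) (nat_lit 273) (nat_lit 177)) (XT.lf (nat_lit 0) (nat_lit 518292884) (nat_lit 152) (nat_lit 4295256512) (nat_lit 76) (nat_lit 43923991945) (nat_lit 17) (nat_lit 5) (nat_lit 19) (nat_lit 5) (nat_lit 18) (nat_lit 5) (nat_lit 331) (nat_lit 273) (nat_lit 176))) (XT.nd (nat_lit 78) (nat_lit 0) (nat_lit 0) (XT.lf (nat_lit 0) (nat_lit 8051295683) (nat_lit 228) (nat_lit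 37383706552) (nat_lit 76) (nat_lit 5228065775) (nat_lit 15) (nat_lit 5) (nat_lit 18) (nat_lit 5) (nat_lit 16) (nat_lit 4) (nat_lit 332) (nat_lit 273) (nat_lit 175)) (XT.nd (nat_lit 78) (nat_lit 0) (nat_lit 0) (XT.lf (nat_lit 0) (nat_lit 16105514478) (nat_lit 228) (nat_lit 20894254280) (nat_lit 76) (nat_lit 15677879274) (nat_lit 15) (nat_lit 5) (nat_lit 18) (nat_lit 5) (nat_lit 16) (nat_lit 4) (nat_lit 333) (nat_lit 273) (nat_lit 174)) (XT.lf (nat_lit 0) (nat_lit 24554558945) (nat_lit 228) (nat_lit 3594376228) (nat_lit 76) (nat_lit 26644421209) (nat_lit 15) (nat_lit 5) (nat_lit 18) (nat_lit 5) (nat_lit 16) (nat_lit 4) (nat_lit 334) (nat_lit 273) (nat_lit 173))))) (XT.nd (nat_lit 156) (nat_lit 152) (nat_lit 0) (XT.nd (nat_lit 78) (nat_lit 0) (nat_lit 0) (XT.lf (nat_lit 0) (nat_lit 15038441847) (nat_lit 76) (nat_lit 18614896231) (nat_lit 152) (nat_lit 23350152768) (nat_lit 14) (nat_lit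 5) (nat_lit 15) (nat_lit 5) (nat_lit 16) (nat_lit 4) (nat_lit 335) (nat_lit 273) (nat_lit 172)) (XT.lf (nat_lit 0) (nat_lit 34714527289) (nat_lit 76) (nat_lit 8546043709) (nat_lit 152) (nat_lit 16060889883) (nat_lit 14) (nat_lit 5) (nat_lit 15) (nat_lit 5) (nat_lit 16) (nat_lit 4) (nat_lit 336) (nat_lit 273) (nat_lit 171))) (XT.nd (nat_lit 78) (nat_lit 152) (nat_lit 0) (XT.lf (nat_lit 0) (nat_lit 53372707416) (nat_lit 152) (nat_lit 6425351699) (nat_lit 0) (nat_lit 1956047583) (nat_lit 14) (nat_lit 5) (nat_lit 16) (nat_lit 4) (nat_lit 14) (nat_lit 4) (nat_lit 337) (nat_lit 273) (nat_lit 170)) (XT.nd (nat_lit 78) (nat_lit 0) (nat_lit 0) (XT.lf (nat_lit 0) (nat_lit 32898317) (nat_lit 152) (nat_lit 51365408365) (nat_lit 76) (nat_lit 12893297452) (nat_lit 12) (nat_lit 5) (nat_lit 14) (nat_lit 5) (nat_lit 13) (nat_lit 4) (nat_lit 338) (nat_lit 273) (nat_lit 169)) (XT.lf (nat_lit 0) (nat_lit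 8690107321) (nat_lit 152) (nat_lit 33633549032) (nat_lit 76) (nat_lit 24620260539) (nat_lit 12) (nat_lit 5) (nat_lit 14) (nat_lit 5) (nat_lit 13) (nat_lit 4) (nat_lit 339) (nat_lit 273) (nat_lit 168))))))))
noncomputable def xc146 : XT := (XT.nd (nat_lit 1560) (nat_lit 304) (nat_lit 0) (XT.nd (nat_lit 780) (nat_lit 152) (nat_lit 0) (XT.nd (nat_lit 390) (nat_lit 228) (nat_lit 0) (XT.nd (nat_lit 156) (nat_lit 0) (nat_lit 0) (XT.nd (nat_lit 78) (nat_lit 76) (nat_lit 0) (XT.lf (nat_lit 0) (nat_lit 17773763618) (nat_lit 152) (nat_lit 15026738508) (nat_lit 76) (nat_lit 36928667420) (nat_lit 12) (nat_lit 5) (nat_lit 14) (nat_lit 5) (nat_lit 13) (nat_lit 4) (nat_lit 340) (nat_lit 273) (nat_lit 167)) (XT.lf (nat_lit 0) (nat_lit 4648093147) (nat_lit 76) (nat_lit 22729971571) (nat_lit 152) (nat_lit 45272300436) (nat_lit 11) (nat_lit 5) (nat_lit 12) (nat_lit 5) (nat_lit 13) (nat_lit 4) (nat_lit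 341) (nat_lit 273) (nat_lit 166))) (XT.nd (nat_lit 78) (nat_lit 0) (nat_lit 0) (XT.lf (nat_lit 0) (nat_lit 25817452241) (nat_lit 76) (nat_lit 11893626485) (nat_lit 152) (nat_lit 37994120190) (nat_lit 11) (nat_lit 5) (nat_lit 12) (nat_lit 5) (nat_lit 13) (nat_lit 4) (nat_lit 342) (nat_lit 273) (nat_lit 165)) (XT.nd (nat_lit 78) (nat_lit 0) (nat_lit 0) (XT.lf (nat_lit 0) (nat_lit 48034890171) (nat_lit 76) (nat_lit 520151132) (nat_lit 152) (nat_lit 30358021275) (nat_lit 11) (nat_lit 5) (nat_lit 12) (nat_lit 5) (nat_lit 13) (nat_lit 4) (nat_lit 343) (nat_lit 273) (nat_lit 164)) (XT.lf (nat_lit 0) (nat_lit 60114031116) (nat_lit 152) (nat_lit 11106548021) (nat_lit 0) (nat_lit 11052101790) (nat_lit 11) (nat_lit 5) (nat_lit 13) (nat_lit 4) (nat_lit 11) (nat_lit 4) (nat_lit 344) (nat_lit 273) (nat_lit 163))))) (XT.nd (nat_lit 156) (nat_lit 152) (nat_lit 0) (XT.nd (nat_lit 78) (nat_lit 0) (nat_lit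 0) (XT.lf (nat_lit 0) (nat_lit 9954105785) (nat_lit 76) (nat_lit 62455564814) (nat_lit 76) (nat_lit 13382677403) (nat_lit 10) (nat_lit 4) (nat_lit 11) (nat_lit 5) (nat_lit 11) (nat_lit 4) (nat_lit 345) (nat_lit 273) (nat_lit 162)) (XT.lf (nat_lit 0) (nat_lit 32443923402) (nat_lit 76) (nat_lit 53059126745) (nat_lit 76) (nat_lit 3975803063) (nat_lit 10) (nat_lit 4) (nat_lit 11) (nat_lit 5) (nat_lit 11) (nat_lit 4) (nat_lit 346) (nat_lit 273) (nat_lit 161))) (XT.nd (nat_lit 78) (nat_lit 76) (nat_lit 0) (XT.lf (nat_lit 0) (nat_lit 5707558116) (nat_lit 152) (nat_lit 37392768850) (nat_lit 76) (nat_lit 50245001004) (nat_lit 9) (nat_lit 5) (nat_lit 11) (nat_lit 5) (nat_lit 10) (nat_lit 4) (nat_lit 347) (nat_lit 273) (nat_lit 160)) (XT.nd (nat_lit 78) (nat_lit 76) (nat_lit 0) (XT.lf (nat_lit 0) (nat_lit 15736736450) (nat_lit 152) (nat_lit 16842419270) (nat_lit 76) (nat_lit 64822951102) (nat_lit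 9) (nat_lit 5) (nat_lit 11) (nat_lit 5) (nat_lit 10) (nat_lit 4) (nat_lit 348) (nat_lit 273) (nat_lit 159)) (XT.lf (nat_lit 0) (nat_lit 4883421756) (nat_lit 76) (nat_lit 21455683607) (nat_lit 152) (nat_lit 75319034880) (nat_lit 8) (nat_lit 5) (nat_lit 9) (nat_lit 5) (nat_lit 10) (nat_lit 4) (nat_lit 349) (nat_lit 273) (nat_lit 158)))))) (XT.nd (nat_lit 390) (nat_lit 76) (nat_lit 0) (XT.nd (nat_lit 156) (nat_lit 76) (nat_lit 0) (XT.nd (nat_lit 78) (nat_lit 0) (nat_lit 0) (XT.lf (nat_lit 0) (nat_lit 28272093865) (nat_lit 76) (nat_lit 9480308110) (nat_lit 152) (nat_lit 68360535000) (nat_lit 8) (nat_lit 5) (nat_lit 9) (nat_lit 5) (nat_lit 10) (nat_lit 4) (nat_lit 350) (nat_lit 273) (nat_lit 157)) (XT.lf (nat_lit 0) (nat_lit 49780396328) (nat_lit 152) (nat_lit 58016535794) (nat_lit 0) (nat_lit 2991341778) (nat_lit 8) (nat_lit 5) (nat_lit 10) (nat_lit 4) (nat_lit 8) (nat_lit 4) (nat_lit 351)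 (nat_lit 273) (nat_lit 156))) (XT.nd (nat_lit 78) (nat_lit 76) (nat_lit 0) (XT.lf (nat_lit 0) (nat_lit 62561138101) (nat_lit 152) (nat_lit 37364007407) (nat_lit 0) (nat_lit 15764666687) (nat_lit 8) (nat_lit 5) (nat_lit 10) (nat_lit 4) (nat_lit 8) (nat_lit 4) (nat_lit 352) (nat_lit 273) (nat_lit 155)) (XT.nd (nat_lit 78) (nat_lit 76) (nat_lit 0) (XT.lf (nat_lit 0) (nat_lit 75977043453) (nat_lit 152) (nat_lit 15686071083) (nat_lit 0) (nat_lit 29173508360) (nat_lit 8) (nat_lit 5) (nat_lit 10) (nat_lit 4) (nat_lit 8) (nat_lit 4) (nat_lit 353) (nat_lit 273) (nat_lit 154)) (XT.lf (nat_lit 0) (nat_lit 7302616650) (nat_lit 76) (nat_lit 82871452678) (nat_lit 76) (nat_lit 36061190271) (nat_lit 7) (nat_lit 4) (nat_lit 8) (nat_lit 5) (nat_lit 8) (nat_lit 4) (nat_lit 354) (nat_lit 273) (nat_lit 153))))) (XT.nd (nat_lit 156) (nat_lit 76) (nat_lit 0) (XT.nd (nat_lit 78) (nat_lit 0) (nat_lit 0) (XT.lf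 (nat_lit 0) (nat_lit 31978559875) (nat_lit 76) (nat_lit 73364418836) (nat_lit 76) (nat_lit 26547749463) (nat_lit 7) (nat_lit 4) (nat_lit 8) (nat_lit 5) (nat_lit 8) (nat_lit 4) (nat_lit 355) (nat_lit 273) (nat_lit 152)) (XT.lf (nat_lit 0) (nat_lit 57881858488) (nat_lit 76) (nat_lit 63385028419) (nat_lit 76) (nat_lit 16562257174) (nat_lit 7) (nat_lit 4) (nat_lit 8) (nat_lit 5) (nat_lit 8) (nat_lit 4) (nat_lit 356) (nat_lit 273) (nat_lit 151))) (XT.nd (nat_lit 78) (nat_lit 76) (nat_lit 0) (XT.lf (nat_lit 0) (nat_lit 85074187008) (nat_lit 76) (nat_lit 52909520973) (nat_lit 76) (nat_lit 6080938422) (nat_lit 7) (nat_lit 4) (nat_lit 8) (nat_lit 5) (nat_lit 8) (nat_lit 4) (nat_lit 357) (nat_lit 273) (nat_lit 150)) (XT.nd (nat_lit 78) (nat_lit 0) (nat_lit 0) (XT.lf (nat_lit 0) (nat_lit 4763654386) (nat_lit 152) (nat_lit 37068625635) (nat_lit 76) (nat_lit 108775959897) (nat_lit 6) (nat_lit 5)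 (nat_lit 8) (nat_lit 5) (nat_lit 7) (nat_lit 4) (nat_lit 358) (nat_lit 273) (nat_lit 149)) (XT.lf (nat_lit 0) (nat_lit 15943089957) (nat_lit 152) (nat_lit 14156053742) (nat_lit 76) (nat_lit 127375037701) (nat_lit 6) (nat_lit 5) (nat_lit 8) (nat_lit 5) (nat_lit 7) (nat_lit 4) (nat_lit 359) (nat_lit 273) (nat_lit 148))))))) (XT.nd (nat_lit 780) (nat_lit 152) (nat_lit 0) (XT.nd (nat_lit 390) (nat_lit 76) (nat_lit 0) (XT.nd (nat_lit 156) (nat_lit 0) (nat_lit 0) (XT.nd (nat_lit 78) (nat_lit 0) (nat_lit 0) (XT.lf (nat_lit 0) (nat_lit 10223981784) (nat_lit 76) (nat_lit 17614257222) (nat_lit 152) (nat_lit 136837345093) (nat_lit 5) (nat_lit 5) (nat_lit 6) (nat_lit 5) (nat_lit 7) (nat_lit 4) (nat_lit 360) (nat_lit 273) (nat_lit 147)) (XT.lf (nat_lit 0) (nat_lit 36309176116) (nat_lit 76) (nat_lit 4255880114) (nat_lit 152) (nat_lit 131660156339) (nat_lit 5) (nat_lit 5) (nat_lit 6) (nat_lit 5) (nat_lit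 7) (nat_lit 4) (nat_lit 361) (nat_lit 273) (nat_lit 146))) (XT.nd (nat_lit 78) (nat_lit 0) (nat_lit 0) (XT.lf (nat_lit 0) (nat_lit 54078026819) (nat_lit 152) (nat_lit 116611391188) (nat_lit 0) (nat_lit 9455414944) (nat_lit 5) (nat_lit 5) (nat_lit 7) (nat_lit 4) (nat_lit 5) (nat_lit 4) (nat_lit 362) (nat_lit 273) (nat_lit 145)) (XT.nd (nat_lit 78) (nat_lit 0) (nat_lit 0) (XT.lf (nat_lit 0) (nat_lit 68333813444) (nat_lit 152) (nat_lit 96416192013) (nat_lit 0) (nat_lit 23707071583) (nat_lit 5) (nat_lit 5) (nat_lit 7) (nat_lit 4) (nat_lit 5) (nat_lit 4) (nat_lit 363) (nat_lit 273) (nat_lit 144)) (XT.lf (nat_lit 0) (nat_lit 83299912240) (nat_lit 152) (nat_lit 75215908904) (nat_lit 0) (nat_lit 38669237058) (nat_lit 5) (nat_lit 5) (nat_lit 7) (nat_lit 4) (nat_lit 5) (nat_lit 4) (nat_lit 364) (nat_lit 273) (nat_lit 143))))) (XT.nd (nat_lit 156) (nat_lit 76) (nat_lit 0) (XT.nd (nat_lit 78) (nat_lit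 0) (nat_lit 0) (XT.lf (nat_lit 0) (nat_lit 99011956776) (nat_lit 152) (nat_lit 52960064997) (nat_lit 0) (nat_lit 54377535574) (nat_lit 5) (nat_lit 5) (nat_lit 7) (nat_lit 4) (nat_lit 5) (nat_lit 4) (nat_lit 365) (nat_lit 273) (nat_lit 142)) (XT.lf (nat_lit 0) (nat_lit 115507356681) (nat_lit 152) (nat_lit 29595670187) (nat_lit 0) (nat_lit 70869367840) (nat_lit 5) (nat_lit 5) (nat_lit 7) (nat_lit 4) (nat_lit 5) (nat_lit 4) (nat_lit 366) (nat_lit 273) (nat_lit 141))) (XT.nd (nat_lit 78) (nat_lit 76) (nat_lit 0) (XT.lf (nat_lit 0) (nat_lit 132825386717) (nat_lit 152) (nat_lit 5067094963) (nat_lit 0) (nat_lit 88184000125) (nat_lit 5) (nat_lit 5) (nat_lit 7) (nat_lit 4) (nat_lit 5) (nat_lit 4) (nat_lit 367) (nat_lit 273) (nat_lit 140)) (XT.nd (nat_lit 78) (nat_lit 0) (nat_lit 0) (XT.lf (nat_lit 0) (nat_lit 21367970547) (nat_lit 76) (nat_lit 129972923644) (nat_lit 76) (nat_lit 85328301100)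 (nat_lit 4) (nat_lit 4) (nat_lit 5) (nat_lit 5) (nat_lit 5) (nat_lit 4) (nat_lit 368) (nat_lit 273) (nat_lit 139)) (XT.lf (nat_lit 0) (nat_lit 49296922500) (nat_lit 76) (nat_lit 121569068233) (nat_lit 76) (nat_lit 76921363829) (nat_lit 4) (nat_lit 4) (nat_lit 5) (nat_lit 5) (nat_lit 5) (nat_lit 4) (nat_lit 369) (nat_lit 273) (nat_lit 138)))))) (XT.nd (nat_lit 390) (nat_lit 152) (nat_lit 0) (XT.nd (nat_lit 156) (nat_lit 0) (nat_lit 0) (XT.nd (nat_lit 78) (nat_lit 0) (nat_lit 0) (XT.lf (nat_lit 0) (nat_lit 78618717355) (nat_lit 76) (nat_lit 112746719971) (nat_lit 76) (nat_lit 68096080462) (nat_lit 4) (nat_lit 4) (nat_lit 5) (nat_lit 5) (nat_lit 5) (nat_lit 4) (nat_lit 370) (nat_lit 273) (nat_lit 137)) (XT.lf (nat_lit 0) (nat_lit 109403168910) (nat_lit 76) (nat_lit 103484873267) (nat_lit 76) (nat_lit 58831438420) (nat_lit 4) (nat_lit 4) (nat_lit 5) (nat_lit 5) (nat_lit 5) (nat_lit 4) (nat_lit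 371) (nat_lit 273) (nat_lit 136))) (XT.nd (nat_lit 78) (nat_lit 0) (nat_lit 0) (XT.lf (nat_lit 0) (nat_lit 141723573479) (nat_lit 76) (nat_lit 93761476105) (nat_lit 76) (nat_lit 49105379032) (nat_lit 4) (nat_lit 4) (nat_lit 5) (nat_lit 5) (nat_lit 5) (nat_lit 4) (nat_lit 372) (nat_lit 273) (nat_lit 135)) (XT.nd (nat_lit 78) (nat_lit 0) (nat_lit 0) (XT.lf (nat_lit 0) (nat_lit 175656884405) (nat_lit 76) (nat_lit 83553377541) (nat_lit 76) (nat_lit 38894745014) (nat_lit 4) (nat_lit 4) (nat_lit 5) (nat_lit 5) (nat_lit 5) (nat_lit 4) (nat_lit 373) (nat_lit 273) (nat_lit 134)) (XT.lf (nat_lit 0) (nat_lit 211283895287) (nat_lit 76) (nat_lit 72836272576) (nat_lit 76) (nat_lit 28175225331) (nat_lit 4) (nat_lit 4) (nat_lit 5) (nat_lit 5) (nat_lit 5) (nat_lit 4) (nat_lit 374) (nat_lit 273) (nat_lit 133))))) (XT.nd (nat_lit 156) (nat_lit 152) (nat_lit 0) (XT.nd (nat_lit 78) (nat_lit 0) (nat_lit 0)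 (XT.lf (nat_lit 0) (nat_lit 248689432340) (nat_lit 76) (nat_lit 61584644295) (nat_lit 76) (nat_lit 16921297319) (nat_lit 4) (nat_lit 4) (nat_lit 5) (nat_lit 5) (nat_lit 5) (nat_lit 4) (nat_lit 375) (nat_lit 273) (nat_lit 132)) (XT.lf (nat_lit 0) (nat_lit 287962556366) (nat_lit 76) (nat_lit 49771703107) (nat_lit 76) (nat_lit 5106165910) (nat_lit 4) (nat_lit 4) (nat_lit 5) (nat_lit 5) (nat_lit 5) (nat_lit 4) (nat_lit 376) (nat_lit 273) (nat_lit 131))) (XT.nd (nat_lit 78) (nat_lit 76) (nat_lit 0) (XT.lf (nat_lit 0) (nat_lit 7064708976) (nat_lit 152) (nat_lit 30184969719) (nat_lit 76) (nat_lit 322012421564) (nat_lit 3) (nat_lit 5) (nat_lit 5) (nat_lit 5) (nat_lit 4) (nat_lit 4) (nat_lit 377) (nat_lit 273) (nat_lit 130)) (XT.nd (nat_lit 78) (nat_lit 76) (nat_lit 0) (XT.lf (nat_lit 0) (nat_lit 19671216093) (nat_lit 152) (nat_lit 4343616723) (nat_lit 76) (nat_lit 352485906710) (nat_lit 3) (nat_lit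 5) (nat_lit 5) (nat_lit 5) (nat_lit 4) (nat_lit 4) (nat_lit 378) (nat_lit 273) (nat_lit 129)) (XT.lf (nat_lit 0) (nat_lit 23540894192) (nat_lit 76) (nat_lit 9733445272) (nat_lit 152) (nat_lit 361308657212) (nat_lit 2) (nat_lit 5) (nat_lit 3) (nat_lit 5) (nat_lit 4) (nat_lit 4) (nat_lit 379) (nat_lit 273) (nat_lit 128))))))))
noncomputable def xc147 : XT := (XT.nd (nat_lit 33462) (nat_lit 0) (nat_lit 2888) (XT.nd (nat_lit 32682) (nat_lit 0) (nat_lit 6308) (XT.nd (nat_lit 390) (nat_lit 0) (nat_lit 0) (XT.nd (nat_lit 156) (nat_lit 0) (nat_lit 0) (XT.nd (nat_lit 78) (nat_lit 0) (nat_lit 0) (XT.lf (nat_lit 0) (nat_lit 47713298403) (nat_lit 152) (nat_lit 360680989786) (nat_lit 0) (nat_lit 5167294965) (nat_lit 2) (nat_lit 5) (nat_lit 4) (nat_lit 4) (nat_lit 2) (nat_lit 4) (nat_lit 380) (nat_lit 273) (nat_lit 127)) (XT.lf (nat_lit 0) (nat_lit 63032586609) (nat_lit 152) (nat_lit 349963644905)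 (nat_lit 0) (nat_lit 20484948795) (nat_lit 2) (nat_lit 5) (nat_lit 4) (nat_lit 4) (nat_lit 2) (nat_lit 4) (nat_lit 381) (nat_lit 273) (nat_lit 126))) (XT.nd (nat_lit 78) (nat_lit 0) (nat_lit 0) (XT.lf (nat_lit 0) (nat_lit 79116712222) (nat_lit 152) (nat_lit 338712583993) (nat_lit 0) (nat_lit 36567517859) (nat_lit 2) (nat_lit 5) (nat_lit 4) (nat_lit 4) (nat_lit 2) (nat_lit 4) (nat_lit 382) (nat_lit 273) (nat_lit 125)) (XT.nd (nat_lit 78) (nat_lit 0) (nat_lit 0) (XT.lf (nat_lit 0) (nat_lit 96003970777) (nat_lit 152) (nat_lit 326901018811) (nat_lit 0) (nat_lit 53453293987) (nat_lit 2) (nat_lit 5) (nat_lit 4) (nat_lit 4) (nat_lit 2) (nat_lit 4) (nat_lit 383) (nat_lit 273) (nat_lit 124)) (XT.lf (nat_lit 0) (nat_lit 113734570033) (nat_lit 152) (nat_lit 314500826584) (nat_lit 0) (nat_lit 71182481407) (nat_lit 2) (nat_lit 5) (nat_lit 4) (nat_lit 4) (nat_lit 2) (nat_lit 4) (nat_lit 384) (nat_lit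 273) (nat_lit 123))))) (XT.nd (nat_lit 32058) (nat_lit 0) (nat_lit 7372) (XT.nd (nat_lit 31980) (nat_lit 0) (nat_lit 7372) (XT.lf (nat_lit 0) (nat_lit 132350725703) (nat_lit 152) (nat_lit 301482483045) (nat_lit 0) (nat_lit 89797292472) (nat_lit 2) (nat_lit 5) (nat_lit 4) (nat_lit 4) (nat_lit 2) (nat_lit 4) (nat_lit 385) (nat_lit 273) (nat_lit 122)) (XT.lf (nat_lit 0) (nat_lit 1274012769) (nat_lit 684) (nat_lit 1551370030) (nat_lit 684) (nat_lit 1551370030) (nat_lit 99) (nat_lit 3) (nat_lit 108) (nat_lit 3) (nat_lit 108) (nat_lit 5) (nat_lit 274) (nat_lit 274) (nat_lit 232))) (XT.nd (nat_lit 78) (nat_lit 0) (nat_lit 76) (XT.lf (nat_lit 76) (nat_lit 928996927) (nat_lit 0) (nat_lit 2599671389) (nat_lit 684) (nat_lit 5395848848) (nat_lit 100) (nat_lit 5) (nat_lit 99) (nat_lit 3) (nat_lit 108) (nat_lit 5) (nat_lit 275) (nat_lit 274) (nat_lit 231)) (XT.nd (nat_lit 78) (nat_lit 0) (nat_lit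 0) (XT.lf (nat_lit 0) (nat_lit 4563342740) (nat_lit 608) (nat_lit 3876557205) (nat_lit 684) (nat_lit 664056002) (nat_lit 100) (nat_lit 5) (nat_lit 108) (nat_lit 5) (nat_lit 109) (nat_lit 5) (nat_lit 276) (nat_lit 274) (nat_lit 230)) (XT.lf (nat_lit 76) (nat_lit 384859088) (nat_lit 0) (nat_lit 5258434190) (nat_lit 684) (nat_lit 3649516924) (nat_lit 101) (nat_lit 5) (nat_lit 100) (nat_lit 5) (nat_lit 109) (nat_lit 5) (nat_lit 277) (nat_lit 274) (nat_lit 229)))))) (XT.nd (nat_lit 390) (nat_lit 532) (nat_lit 0) (XT.nd (nat_lit 156) (nat_lit 608) (nat_lit 0) (XT.nd (nat_lit 78) (nat_lit 0) (nat_lit 76) (XT.lf (nat_lit 76) (nat_lit 4961271697) (nat_lit 0) (nat_lit 1828650250) (nat_lit 684) (nat_lit 2700666097) (nat_lit 101) (nat_lit 5) (nat_lit 100) (nat_lit 5) (nat_lit 109) (nat_lit 5) (nat_lit 278) (nat_lit 274) (nat_lit 228)) (XT.lf (nat_lit 76) (nat_lit 6752214) (nat_lit 0) (nat_lit 7964764528)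 (nat_lit 684) (nat_lit 1727965736) (nat_lit 102) (nat_lit 5) (nat_lit 101) (nat_lit 5) (nat_lit 110) (nat_lit 5) (nat_lit 279) (nat_lit 274) (nat_lit 227))) (XT.nd (nat_lit 78) (nat_lit 684) (nat_lit 0) (XT.lf (nat_lit 76) (nat_lit 4862413326) (nat_lit 0) (nat_lit 4407697189) (nat_lit 684) (nat_lit 645919377) (nat_lit 102) (nat_lit 5) (nat_lit 101) (nat_lit 5) (nat_lit 110) (nat_lit 5) (nat_lit 280) (nat_lit 274) (nat_lit 226)) (XT.nd (nat_lit 78) (nat_lit 0) (nat_lit 76) (XT.lf (nat_lit 0) (nat_lit 427706837) (nat_lit 684) (nat_lit 223738752) (nat_lit 760) (nat_lit 9494012531) (nat_lit 92) (nat_lit 5) (nat_lit 101) (nat_lit 5) (nat_lit 102) (nat_lit 5) (nat_lit 281) (nat_lit 274) (nat_lit 225)) (XT.lf (nat_lit 0) (nat_lit 1619255728) (nat_lit 684) (nat_lit 5473340304) (nat_lit 760) (nat_lit 3289024892) (nat_lit 93) (nat_lit 5) (nat_lit 102) (nat_lit 5) (nat_lit 103) (nat_lit 5) (nat_lit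 282) (nat_lit 274) (nat_lit 224))))) (XT.nd (nat_lit 156) (nat_lit 608) (nat_lit 0) (XT.nd (nat_lit 78) (nat_lit 0) (nat_lit 76) (XT.lf (nat_lit 0) (nat_lit 2842124260) (nat_lit 684) (nat_lit 369315208) (nat_lit 760) (nat_lit 7419651035) (nat_lit 93) (nat_lit 5) (nat_lit 102) (nat_lit 5) (nat_lit 103) (nat_lit 5) (nat_lit 283) (nat_lit 274) (nat_lit 223)) (XT.lf (nat_lit 0) (nat_lit 4180277778) (nat_lit 684) (nat_lit 5784478471) (nat_lit 76) (nat_lit 925651895) (nat_lit 94) (nat_lit 5) (nat_lit 103) (nat_lit 5) (nat_lit 95) (nat_lit 5) (nat_lit 284) (nat_lit 274) (nat_lit 222))) (XT.nd (nat_lit 78) (nat_lit 684) (nat_lit 0) (XT.lf (nat_lit 0) (nat_lit 5605155718) (nat_lit 684) (nat_lit 381239757) (nat_lit 76) (nat_lit 5175383126) (nat_lit 94) (nat_lit 5) (nat_lit 103) (nat_lit 5) (nat_lit 95) (nat_lit 5) (nat_lit 285) (nat_lit 274) (nat_lit 221)) (XT.nd (nat_lit 78) (nat_lit 0) (nat_lit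 0) (XT.lf (nat_lit 0) (nat_lit 5433819603) (nat_lit 684) (nat_lit 1714974279) (nat_lit 760) (nat_lit 4295621952) (nat_lit 85) (nat_lit 5) (nat_lit 94) (nat_lit 5) (nat_lit 95) (nat_lit 5) (nat_lit 286) (nat_lit 274) (nat_lit 220)) (XT.lf (nat_lit 0) (nat_lit 8783452039) (nat_lit 760) (nat_lit 265024813) (nat_lit 76) (nat_lit 2692086715) (nat_lit 85) (nat_lit 5) (nat_lit 95) (nat_lit 5) (nat_lit 86) (nat_lit 5) (nat_lit 287) (nat_lit 274) (nat_lit 219))))))) (XT.nd (nat_lit 780) (nat_lit 1140) (nat_lit 0) (XT.nd (nat_lit 390) (nat_lit 988) (nat_lit 0) (XT.nd (nat_lit 156) (nat_lit 684) (nat_lit 0) (XT.nd (nat_lit 78) (nat_lit 76) (nat_lit 0) (XT.lf (nat_lit 0) (nat_lit 5896357945) (nat_lit 532) (nat_lit 4689399129) (nat_lit 608) (nat_lit 1461533094) (nat_lit 78) (nat_lit 5) (nat_lit 85) (nat_lit 5) (nat_lit 86) (nat_lit 5) (nat_lit 288) (nat_lit 274) (nat_lit 218)) (XT.lf (nat_lit 0)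 (nat_lit 76177891) (nat_lit 608) (nat_lit 28622322) (nat_lit 76) (nat_lit 12265987038) (nat_lit 77) (nat_lit 5) (nat_lit 85) (nat_lit 5) (nat_lit 78) (nat_lit 5) (nat_lit 289) (nat_lit 274) (nat_lit 217))) (XT.nd (nat_lit 78) (nat_lit 304) (nat_lit 0) (XT.lf (nat_lit 0) (nat_lit 1787477747) (nat_lit 456) (nat_lit 6226961101) (nat_lit 76) (nat_lit 4687589375) (nat_lit 72) (nat_lit 5) (nat_lit 78) (nat_lit 5) (nat_lit 73) (nat_lit 5) (nat_lit 290) (nat_lit 274) (nat_lit 216)) (XT.nd (nat_lit 78) (nat_lit 0) (nat_lit 0) (XT.lf (nat_lit 0) (nat_lit 228427485) (nat_lit 304) (nat_lit 3330629819) (nat_lit 380) (nat_lit 9492093476) (nat_lit 68) (nat_lit 5) (nat_lit 72) (nat_lit 5) (nat_lit 73) (nat_lit 5) (nat_lit 291) (nat_lit 274) (nat_lit 215)) (XT.lf (nat_lit 0) (nat_lit 5521079035) (nat_lit 380) (nat_lit 6249492117) (nat_lit 76) (nat_lit 1642117792) (nat_lit 68) (nat_lit 5) (nat_lit 73)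 (nat_lit 5) (nat_lit 69) (nat_lit 5) (nat_lit 292) (nat_lit 274) (nat_lit 214))))) (XT.nd (nat_lit 156) (nat_lit 684) (nat_lit 0) (XT.nd (nat_lit 78) (nat_lit 0) (nat_lit 0) (XT.lf (nat_lit 0) (nat_lit 584808193) (nat_lit 304) (nat_lit 7031452749) (nat_lit 380) (nat_lit 6174340254) (nat_lit 64) (nat_lit 5) (nat_lit 68) (nat_lit 5) (nat_lit 69) (nat_lit 5) (nat_lit 293) (nat_lit 274) (nat_lit 213)) (XT.lf (nat_lit 0) (nat_lit 7946593765) (nat_lit 304) (nat_lit 1947652698) (nat_lit 380) (nat_lit 4289308116) (nat_lit 64) (nat_lit 5) (nat_lit 68) (nat_lit 5) (nat_lit 69) (nat_lit 5) (nat_lit 294) (nat_lit 274) (nat_lit 212))) (XT.nd (nat_lit 78) (nat_lit 380) (nat_lit 0) (XT.lf (nat_lit 0) (nat_lit 1029293383) (nat_lit 304) (nat_lit 11299319930) (nat_lit 380) (nat_lit 2265463686) (nat_lit 60) (nat_lit 5) (nat_lit 64) (nat_lit 5) (nat_lit 65) (nat_lit 5) (nat_lit 295) (nat_lit 274) (nat_lit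 211)) (XT.nd (nat_lit 78) (nat_lit 380) (nat_lit 0) (XT.lf (nat_lit 0) (nat_lit 8811878795) (nat_lit 304) (nat_lit 6184124878) (nat_lit 380) (nat_lit 23599917) (nat_lit 60) (nat_lit 5) (nat_lit 64) (nat_lit 5) (nat_lit 65) (nat_lit 5) (nat_lit 296) (nat_lit 274) (nat_lit 210)) (XT.lf (nat_lit 0) (nat_lit 1498834942) (nat_lit 304) (nat_lit 755386337) (nat_lit 380) (nat_lit 13210482831) (nat_lit 55) (nat_lit 5) (nat_lit 59) (nat_lit 5) (nat_lit 60) (nat_lit 5) (nat_lit 297) (nat_lit 274) (nat_lit 209)))))) (XT.nd (nat_lit 390) (nat_lit 684) (nat_lit 0) (XT.nd (nat_lit 156) (nat_lit 228) (nat_lit 0) (XT.nd (nat_lit 78) (nat_lit 228) (nat_lit 0) (XT.lf (nat_lit 0) (nat_lit 4804892404) (nat_lit 380) (nat_lit 6230499201) (nat_lit 76) (nat_lit 4888698517) (nat_lit 55) (nat_lit 5) (nat_lit 60) (nat_lit 5) (nat_lit 56) (nat_lit 5) (nat_lit 298) (nat_lit 274) (nat_lit 208)) (XT.lf (nat_lit 0)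 (nat_lit 1911261928) (nat_lit 228) (nat_lit 5590911725) (nat_lit 304) (nat_lit 8903353580) (nat_lit 52) (nat_lit 5) (nat_lit 55) (nat_lit 5) (nat_lit 56) (nat_lit 5) (nat_lit 299) (nat_lit 274) (nat_lit 207))) (XT.nd (nat_lit 78) (nat_lit 228) (nat_lit 0) (XT.lf (nat_lit 0) (nat_lit 10420939630) (nat_lit 304) (nat_lit 6262791715) (nat_lit 76) (nat_lit 223007754) (nat_lit 52) (nat_lit 5) (nat_lit 56) (nat_lit 5) (nat_lit 53) (nat_lit 5) (nat_lit 300) (nat_lit 274) (nat_lit 206)) (XT.nd (nat_lit 78) (nat_lit 0) (nat_lit 0) (XT.lf (nat_lit 0) (nat_lit 2334995148) (nat_lit 228) (nat_lit 11257244959) (nat_lit 304) (nat_lit 3835473959) (nat_lit 49) (nat_lit 5) (nat_lit 52) (nat_lit 5) (nat_lit 53) (nat_lit 5) (nat_lit 301) (nat_lit 274) (nat_lit 205)) (XT.lf (nat_lit 0) (nat_lit 11552217904) (nat_lit 228) (nat_lit 5455026339) (nat_lit 304) (nat_lit 963267382) (nat_lit 49) (nat_lit 5) (nat_lit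 52) (nat_lit 5) (nat_lit 53) (nat_lit 5) (nat_lit 302) (nat_lit 274) (nat_lit 204))))) (XT.nd (nat_lit 234) (nat_lit 152) (nat_lit 0) (XT.nd (nat_lit 78) (nat_lit 228) (nat_lit 0) (XT.lf (nat_lit 0) (nat_lit 2020062107) (nat_lit 304) (nat_lit 15831299183) (nat_lit 76) (nat_lit 685853036) (nat_lit 45) (nat_lit 5) (nat_lit 49) (nat_lit 5) (nat_lit 46) (nat_lit 5) (nat_lit 303) (nat_lit 274) (nat_lit 203)) (XT.nd (nat_lit 78) (nat_lit 228) (nat_lit 0) (XT.lf (nat_lit 0) (nat_lit 5300244746) (nat_lit 304) (nat_lit 6752371575) (nat_lit 76) (nat_lit 7069869925) (nat_lit 45) (nat_lit 5) (nat_lit 49) (nat_lit 5) (nat_lit 46) (nat_lit 5) (nat_lit 304) (nat_lit 274) (nat_lit 202)) (XT.lf (nat_lit 0) (nat_lit 2845167906) (nat_lit 228) (nat_lit 5924788024) (nat_lit 304) (nat_lit 10965815182) (nat_lit 42) (nat_lit 5) (nat_lit 45) (nat_lit 5) (nat_lit 46) (nat_lit 5) (nat_lit 305) (nat_lit 274) (nat_lit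 201)))) (XT.nd (nat_lit 78) (nat_lit 152) (nat_lit 0) (XT.lf (nat_lit 0) (nat_lit 12518810523) (nat_lit 304) (nat_lit 7253617592) (nat_lit 76) (nat_lit 602033329) (nat_lit 42) (nat_lit 5) (nat_lit 46) (nat_lit 5) (nat_lit 43) (nat_lit 5) (nat_lit 306) (nat_lit 274) (nat_lit 200)) (XT.nd (nat_lit 78) (nat_lit 0) (nat_lit 0) (XT.lf (nat_lit 0) (nat_lit 2833249166) (nat_lit 152) (nat_lit 13745578305) (nat_lit 228) (nat_lit 4460095806) (nat_lit 40) (nat_lit 5) (nat_lit 42) (nat_lit 5) (nat_lit 43) (nat_lit 5) (nat_lit 307) (nat_lit 274) (nat_lit 199)) (XT.lf (nat_lit 0) (nat_lit 13651178003) (nat_lit 152) (nat_lit 7296315881) (nat_lit 228) (nat_lit 783853760) (nat_lit 40) (nat_lit 5) (nat_lit 42) (nat_lit 5) (nat_lit 43) (nat_lit 5) (nat_lit 308) (nat_lit 274) (nat_lit 198))))))))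
noncomputable def xc148 : XT := (XT.nd (nat_lit 1560) (nat_lit 760) (nat_lit 0) (XT.nd (nat_lit 780) (nat_lit 608) (nat_lit 0) (XT.nd (nat_lit 390) (nat_lit 380) (nat_lit 0) (XT.nd (nat_lit 156) (nat_lit 304) (nat_lit 0) (XT.nd (nat_lit 78) (nat_lit 0) (nat_lit 0) (XT.lf (nat_lit 0) (nat_lit 2561066467) (nat_lit 228) (nat_lit 439996995) (nat_lit 304) (nat_lit 19453782167) (nat_lit 36) (nat_lit 5) (nat_lit 39) (nat_lit 5) (nat_lit 40) (nat_lit 5) (nat_lit 309) (nat_lit 274) (nat_lit 197)) (XT.lf (nat_lit 0) (nat_lit 7177128143) (nat_lit 304) (nat_lit 9338208727) (nat_lit 76) (nat_lit 6687145822) (nat_lit 36) (nat_lit 5) (nat_lit 40) (nat_lit 5) (nat_lit 37) (nat_lit 5) (nat_lit 310) (nat_lit 274) (nat_lit 196))) (XT.nd (nat_lit 78) (nat_lit 152) (nat_lit 0) (XT.lf (nat_lit 0) (nat_lit 1770991406) (nat_lit 152) (nat_lit 9810277620) (nat_lit 228) (nat_lit 12405286929) (nat_lit 34) (nat_lit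 5) (nat_lit 36) (nat_lit 5) (nat_lit 37) (nat_lit 5) (nat_lit 311) (nat_lit 274) (nat_lit 195)) (XT.nd (nat_lit 78) (nat_lit 152) (nat_lit 0) (XT.lf (nat_lit 0) (nat_lit 13736615470) (nat_lit 152) (nat_lit 2611937919) (nat_lit 228) (nat_lit 8454149810) (nat_lit 34) (nat_lit 5) (nat_lit 36) (nat_lit 5) (nat_lit 37) (nat_lit 5) (nat_lit 312) (nat_lit 274) (nat_lit 194)) (XT.lf (nat_lit 0) (nat_lit 558768797) (nat_lit 152) (nat_lit 20866777329) (nat_lit 228) (nat_lit 4230560790) (nat_lit 32) (nat_lit 5) (nat_lit 34) (nat_lit 5) (nat_lit 35) (nat_lit 5) (nat_lit 313) (nat_lit 274) (nat_lit 193))))) (XT.nd (nat_lit 156) (nat_lit 304) (nat_lit 0) (XT.nd (nat_lit 78) (nat_lit 0) (nat_lit 0) (XT.lf (nat_lit 0) (nat_lit 416463762) (nat_lit 228) (nat_lit 13465711688) (nat_lit 76) (nat_lit 12658921161) (nat_lit 31) (nat_lit 5) (nat_lit 34) (nat_lit 5) (nat_lit 32) (nat_lit 5) (nat_lit 314) (nat_lit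 274) (nat_lit 192)) (XT.lf (nat_lit 0) (nat_lit 5139847351) (nat_lit 228) (nat_lit 1343647749) (nat_lit 76) (nat_lit 20984077999) (nat_lit 31) (nat_lit 5) (nat_lit 34) (nat_lit 5) (nat_lit 32) (nat_lit 5) (nat_lit 315) (nat_lit 274) (nat_lit 191))) (XT.nd (nat_lit 78) (nat_lit 152) (nat_lit 0) (XT.lf (nat_lit 0) (nat_lit 10292477513) (nat_lit 228) (nat_lit 16715326844) (nat_lit 76) (nat_lit 1422928612) (nat_lit 29) (nat_lit 5) (nat_lit 32) (nat_lit 5) (nat_lit 30) (nat_lit 5) (nat_lit 316) (nat_lit 274) (nat_lit 190)) (XT.nd (nat_lit 78) (nat_lit 152) (nat_lit 0) (XT.lf (nat_lit 0) (nat_lit 15819184460) (nat_lit 228) (nat_lit 4094467047) (nat_lit 76) (nat_lit 9522589850) (nat_lit 29) (nat_lit 5) (nat_lit 32) (nat_lit 5) (nat_lit 30) (nat_lit 5) (nat_lit 317) (nat_lit 274) (nat_lit 189)) (XT.lf (nat_lit 0) (nat_lit 9439604662) (nat_lit 152) (nat_lit 12317648499) (nat_lit 228) (nat_lit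 8728032863) (nat_lit 27) (nat_lit 5) (nat_lit 29) (nat_lit 5) (nat_lit 30) (nat_lit 5) (nat_lit 318) (nat_lit 274) (nat_lit 188)))))) (XT.nd (nat_lit 390) (nat_lit 304) (nat_lit 0) (XT.nd (nat_lit 156) (nat_lit 152) (nat_lit 0) (XT.nd (nat_lit 78) (nat_lit 152) (nat_lit 0) (XT.lf (nat_lit 0) (nat_lit 23772895122) (nat_lit 152) (nat_lit 4276601318) (nat_lit 228) (nat_lit 3534434526) (nat_lit 27) (nat_lit 5) (nat_lit 29) (nat_lit 5) (nat_lit 30) (nat_lit 5) (nat_lit 319) (nat_lit 274) (nat_lit 187)) (XT.lf (nat_lit 0) (nat_lit 2010115513) (nat_lit 152) (nat_lit 26562887233) (nat_lit 76) (nat_lit 4155383668) (nat_lit 25) (nat_lit 5) (nat_lit 27) (nat_lit 5) (nat_lit 26) (nat_lit 5) (nat_lit 320) (nat_lit 274) (nat_lit 186))) (XT.nd (nat_lit 78) (nat_lit 152) (nat_lit 0) (XT.lf (nat_lit 0) (nat_lit 7906127020) (nat_lit 152) (nat_lit 12960882671) (nat_lit 76) (nat_lit 13050517176) (nat_lit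 25) (nat_lit 5) (nat_lit 27) (nat_lit 5) (nat_lit 26) (nat_lit 5) (nat_lit 321) (nat_lit 274) (nat_lit 185)) (XT.nd (nat_lit 78) (nat_lit 0) (nat_lit 0) (XT.lf (nat_lit 0) (nat_lit 1345961918) (nat_lit 152) (nat_lit 12760994916) (nat_lit 228) (nat_lit 21058676167) (nat_lit 23) (nat_lit 5) (nat_lit 25) (nat_lit 5) (nat_lit 26) (nat_lit 5) (nat_lit 322) (nat_lit 274) (nat_lit 184)) (XT.lf (nat_lit 0) (nat_lit 16800077727) (nat_lit 152) (nat_lit 4026494656) (nat_lit 228) (nat_lit 15639143934) (nat_lit 23) (nat_lit 5) (nat_lit 25) (nat_lit 5) (nat_lit 26) (nat_lit 5) (nat_lit 323) (nat_lit 274) (nat_lit 183))))) (XT.nd (nat_lit 156) (nat_lit 228) (nat_lit 0) (XT.nd (nat_lit 78) (nat_lit 76) (nat_lit 0) (XT.lf (nat_lit 0) (nat_lit 27952141538) (nat_lit 228) (nat_lit 4901824903) (nat_lit 76) (nat_lit 4973347372) (nat_lit 23) (nat_lit 5) (nat_lit 26) (nat_lit 5) (nat_lit 24) (nat_lit 4) (nat_lit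 324) (nat_lit 274) (nat_lit 182)) (XT.lf (nat_lit 0) (nat_lit 10865165689) (nat_lit 76) (nat_lit 24794609317) (nat_lit 152) (nat_lit 3585935128) (nat_lit 22) (nat_lit 5) (nat_lit 23) (nat_lit 5) (nat_lit 24) (nat_lit 4) (nat_lit 325) (nat_lit 274) (nat_lit 181))) (XT.nd (nat_lit 78) (nat_lit 152) (nat_lit 0) (XT.lf (nat_lit 0) (nat_lit 2995740586) (nat_lit 152) (nat_lit 13205486497) (nat_lit 76) (nat_lit 24527722679) (nat_lit 21) (nat_lit 5) (nat_lit 23) (nat_lit 5) (nat_lit 22) (nat_lit 5) (nat_lit 326) (nat_lit 274) (nat_lit 180)) (XT.nd (nat_lit 78) (nat_lit 0) (nat_lit 0) (XT.lf (nat_lit 0) (nat_lit 2741256405) (nat_lit 152) (nat_lit 7078186990) (nat_lit 228) (nat_lit 32462303094) (nat_lit 19) (nat_lit 5) (nat_lit 21) (nat_lit 5) (nat_lit 22) (nat_lit 5) (nat_lit 327) (nat_lit 274) (nat_lit 179)) (XT.lf (nat_lit 0) (nat_lit 17241437759) (nat_lit 228) (nat_lit 24016035652) (nat_lit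 76) (nat_lit 2641861103) (nat_lit 19) (nat_lit 5) (nat_lit 22) (nat_lit 5) (nat_lit 20) (nat_lit 4) (nat_lit 328) (nat_lit 274) (nat_lit 178))))))) (XT.nd (nat_lit 780) (nat_lit 380) (nat_lit 0) (XT.nd (nat_lit 390) (nat_lit 76) (nat_lit 0) (XT.nd (nat_lit 156) (nat_lit 228) (nat_lit 0) (XT.nd (nat_lit 78) (nat_lit 76) (nat_lit 0) (XT.lf (nat_lit 0) (nat_lit 25141759274) (nat_lit 228) (nat_lit 7846748484) (nat_lit 76) (nat_lit 12603939268) (nat_lit 19) (nat_lit 5) (nat_lit 22) (nat_lit 5) (nat_lit 20) (nat_lit 4) (nat_lit 329) (nat_lit 274) (nat_lit 177)) (XT.lf (nat_lit 0) (nat_lit 9417808753) (nat_lit 76) (nat_lit 24157937531) (nat_lit 152) (nat_lit 13787542562) (nat_lit 18) (nat_lit 5) (nat_lit 19) (nat_lit 5) (nat_lit 20) (nat_lit 4) (nat_lit 330) (nat_lit 274) (nat_lit 176))) (XT.nd (nat_lit 78) (nat_lit 228) (nat_lit 0) (XT.lf (nat_lit 0) (nat_lit 27803628112) (nat_lit 76) (nat_lit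 14752478896) (nat_lit 152) (nat_lit 6660337888) (nat_lit 18) (nat_lit 5) (nat_lit 19) (nat_lit 5) (nat_lit 20) (nat_lit 4) (nat_lit 331) (nat_lit 274) (nat_lit 175)) (XT.nd (nat_lit 78) (nat_lit 152) (nat_lit 0) (XT.lf (nat_lit 0) (nat_lit 788921996) (nat_lit 152) (nat_lit 4080343616) (nat_lit 76) (nat_lit 46292753638) (nat_lit 17) (nat_lit 5) (nat_lit 19) (nat_lit 5) (nat_lit 18) (nat_lit 5) (nat_lit 332) (nat_lit 274) (nat_lit 174)) (XT.lf (nat_lit 0) (nat_lit 8696380558) (nat_lit 228) (nat_lit 38820866129) (nat_lit 76) (nat_lit 5666693067) (nat_lit 15) (nat_lit 5) (nat_lit 18) (nat_lit 5) (nat_lit 16) (nat_lit 4) (nat_lit 333) (nat_lit 274) (nat_lit 173))))) (XT.nd (nat_lit 156) (nat_lit 76) (nat_lit 0) (XT.nd (nat_lit 78) (nat_lit 0) (nat_lit 0) (XT.lf (nat_lit 0) (nat_lit 17141761717) (nat_lit 228) (nat_lit 21527513899) (nat_lit 76) (nat_lit 16630558002) (nat_lit 15) (nat_lit 5)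 (nat_lit 18) (nat_lit 5) (nat_lit 16) (nat_lit 4) (nat_lit 334) (nat_lit 274) (nat_lit 172)) (XT.lf (nat_lit 0) (nat_lit 26002259764) (nat_lit 228) (nat_lit 3382234948) (nat_lit 76) (nat_lit 28137389664) (nat_lit 15) (nat_lit 5) (nat_lit 18) (nat_lit 5) (nat_lit 16) (nat_lit 4) (nat_lit 335) (nat_lit 274) (nat_lit 171))) (XT.nd (nat_lit 78) (nat_lit 0) (nat_lit 0) (XT.lf (nat_lit 0) (nat_lit 16175903706) (nat_lit 76) (nat_lit 19375618605) (nat_lit 152) (nat_lit 24291232753) (nat_lit 14) (nat_lit 5) (nat_lit 15) (nat_lit 5) (nat_lit 16) (nat_lit 4) (nat_lit 336) (nat_lit 274) (nat_lit 170)) (XT.nd (nat_lit 78) (nat_lit 0) (nat_lit 0) (XT.lf (nat_lit 0) (nat_lit 36817434384) (nat_lit 76) (nat_lit 8811419763) (nat_lit 152) (nat_lit 16648288992) (nat_lit 14) (nat_lit 5) (nat_lit 15) (nat_lit 5) (nat_lit 16) (nat_lit 4) (nat_lit 337) (nat_lit 274) (nat_lit 169)) (XT.lf (nat_lit 0) (nat_lit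 56239231092) (nat_lit 152) (nat_lit 6389435098) (nat_lit 0) (nat_lit 2203129470) (nat_lit 14) (nat_lit 5) (nat_lit 16) (nat_lit 4) (nat_lit 14) (nat_lit 4) (nat_lit 338) (nat_lit 274) (nat_lit 168)))))) (XT.nd (nat_lit 390) (nat_lit 152) (nat_lit 0) (XT.nd (nat_lit 156) (nat_lit 76) (nat_lit 0) (XT.nd (nat_lit 78) (nat_lit 0) (nat_lit 0) (XT.lf (nat_lit 0) (nat_lit 231786955) (nat_lit 152) (nat_lit 53575623245) (nat_lit 76) (nat_lit 13688801335) (nat_lit 12) (nat_lit 5) (nat_lit 14) (nat_lit 5) (nat_lit 13) (nat_lit 4) (nat_lit 339) (nat_lit 274) (nat_lit 167)) (XT.lf (nat_lit 0) (nat_lit 9312463851) (nat_lit 152) (nat_lit 34974221210) (nat_lit 76) (nat_lit 25994929767) (nat_lit 12) (nat_lit 5) (nat_lit 14) (nat_lit 5) (nat_lit 13) (nat_lit 4) (nat_lit 340) (nat_lit 274) (nat_lit 166))) (XT.nd (nat_lit 78) (nat_lit 76) (nat_lit 0) (XT.lf (nat_lit 0) (nat_lit 18841357669) (nat_lit 152)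 (nat_lit 15453308505) (nat_lit 76) (nat_lit 38911916220) (nat_lit 12) (nat_lit 5) (nat_lit 14) (nat_lit 5) (nat_lit 13) (nat_lit 4) (nat_lit 341) (nat_lit 274) (nat_lit 165)) (XT.nd (nat_lit 78) (nat_lit 0) (nat_lit 0) (XT.lf (nat_lit 0) (nat_lit 5200026556) (nat_lit 76) (nat_lit 23722316681) (nat_lit 152) (nat_lit 47351675855) (nat_lit 11) (nat_lit 5) (nat_lit 12) (nat_lit 5) (nat_lit 13) (nat_lit 4) (nat_lit 342) (nat_lit 274) (nat_lit 164)) (XT.lf (nat_lit 0) (nat_lit 27412637950) (nat_lit 76) (nat_lit 12351018791) (nat_lit 152) (nat_lit 39718359910) (nat_lit 11) (nat_lit 5) (nat_lit 12) (nat_lit 5) (nat_lit 13) (nat_lit 4) (nat_lit 343) (nat_lit 274) (nat_lit 163))))) (XT.nd (nat_lit 156) (nat_lit 152) (nat_lit 0) (XT.nd (nat_lit 78) (nat_lit 0) (nat_lit 0) (XT.lf (nat_lit 0) (nat_lit 50726456676) (nat_lit 76) (nat_lit 415407243) (nat_lit 152) (nat_lit 31708811587) (nat_lit 11) (nat_lit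 5) (nat_lit 12) (nat_lit 5) (nat_lit 13) (nat_lit 4) (nat_lit 344) (nat_lit 274) (nat_lit 162)) (XT.lf (nat_lit 0) (nat_lit 63273172621) (nat_lit 152) (nat_lit 11380141326) (nat_lit 0) (nat_lit 11725246483) (nat_lit 11) (nat_lit 5) (nat_lit 13) (nat_lit 4) (nat_lit 11) (nat_lit 4) (nat_lit 345) (nat_lit 274) (nat_lit 161))) (XT.nd (nat_lit 78) (nat_lit 76) (nat_lit 0) (XT.lf (nat_lit 0) (nat_lit 10729001072) (nat_lit 76) (nat_lit 65451614055) (nat_lit 76) (nat_lit 13893748610) (nat_lit 10) (nat_lit 4) (nat_lit 11) (nat_lit 5) (nat_lit 11) (nat_lit 4) (nat_lit 346) (nat_lit 274) (nat_lit 160)) (XT.nd (nat_lit 78) (nat_lit 76) (nat_lit 0) (XT.lf (nat_lit 0) (nat_lit 34330110046) (nat_lit 76) (nat_lit 55591388798) (nat_lit 76) (nat_lit 4024057347) (nat_lit 10) (nat_lit 4) (nat_lit 11) (nat_lit 5) (nat_lit 11) (nat_lit 4) (nat_lit 347) (nat_lit 274) (nat_lit 159)) (XT.lf (nat_lit 0) (nat_lit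 6131714861) (nat_lit 152) (nat_lit 39006331228) (nat_lit 76) (nat_lit 52867541426) (nat_lit 9) (nat_lit 5) (nat_lit 11) (nat_lit 5) (nat_lit 10) (nat_lit 4) (nat_lit 348) (nat_lit 274) (nat_lit 158))))))))
noncomputable def xc149 : XT := (XT.nd (nat_lit 1560) (nat_lit 228) (nat_lit 0) (XT.nd (nat_lit 780) (nat_lit 152) (nat_lit 0) (XT.nd (nat_lit 390) (nat_lit 76) (nat_lit 0) (XT.nd (nat_lit 156) (nat_lit 0) (nat_lit 0) (XT.nd (nat_lit 78) (nat_lit 76) (nat_lit 0) (XT.lf (nat_lit 0) (nat_lit 16655743597) (nat_lit 152) (nat_lit 17440658267) (nat_lit 76) (nat_lit 68169137107) (nat_lit 9) (nat_lit 5) (nat_lit 11) (nat_lit 5) (nat_lit 10) (nat_lit 4) (nat_lit 349) (nat_lit 274) (nat_lit 157)) (XT.lf (nat_lit 0) (nat_lit 5367541230) (nat_lit 76) (nat_lit 22418142166) (nat_lit 152) (nat_lit 78948821124) (nat_lit 8) (nat_lit 5) (nat_lit 9) (nat_lit 5) (nat_lit 10) (nat_lit 4) (nat_lit 350)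 (nat_lit 274) (nat_lit 156))) (XT.nd (nat_lit 78) (nat_lit 0) (nat_lit 0) (XT.lf (nat_lit 0) (nat_lit 29914220831) (nat_lit 76) (nat_lit 9849251496) (nat_lit 152) (nat_lit 71648880321) (nat_lit 8) (nat_lit 5) (nat_lit 9) (nat_lit 5) (nat_lit 10) (nat_lit 4) (nat_lit 351) (nat_lit 274) (nat_lit 155)) (XT.nd (nat_lit 78) (nat_lit 0) (nat_lit 0) (XT.lf (nat_lit 0) (nat_lit 52388550165) (nat_lit 152) (nat_lit 60695350222) (nat_lit 0) (nat_lit 3237774637) (nat_lit 8) (nat_lit 5) (nat_lit 10) (nat_lit 4) (nat_lit 8) (nat_lit 4) (nat_lit 352) (nat_lit 274) (nat_lit 154)) (XT.lf (nat_lit 0) (nat_lit 65802655978) (nat_lit 152) (nat_lit 39020767432) (nat_lit 0) (nat_lit 16645153136) (nat_lit 8) (nat_lit 5) (nat_lit 10) (nat_lit 4) (nat_lit 8) (nat_lit 4) (nat_lit 353) (nat_lit 274) (nat_lit 153))))) (XT.nd (nat_lit 156) (nat_lit 0) (nat_lit 0) (XT.nd (nat_lit 78) (nat_lit 76) (nat_lit 0) (XT.lf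 (nat_lit 0) (nat_lit 79883953694) (nat_lit 152) (nat_lit 16269002880) (nat_lit 0) (nat_lit 30720043887) (nat_lit 8) (nat_lit 5) (nat_lit 10) (nat_lit 4) (nat_lit 8) (nat_lit 4) (nat_lit 354) (nat_lit 274) (nat_lit 152)) (XT.lf (nat_lit 0) (nat_lit 7865871308) (nat_lit 76) (nat_lit 86922907201) (nat_lit 76) (nat_lit 37752895522) (nat_lit 7) (nat_lit 4) (nat_lit 8) (nat_lit 5) (nat_lit 8) (nat_lit 4) (nat_lit 355) (nat_lit 274) (nat_lit 151))) (XT.nd (nat_lit 78) (nat_lit 0) (nat_lit 0) (XT.lf (nat_lit 0) (nat_lit 33766177226) (nat_lit 76) (nat_lit 76944908243) (nat_lit 76) (nat_lit 27769085258) (nat_lit 7) (nat_lit 4) (nat_lit 8) (nat_lit 5) (nat_lit 8) (nat_lit 4) (nat_lit 356) (nat_lit 274) (nat_lit 150)) (XT.nd (nat_lit 78) (nat_lit 0) (nat_lit 0) (XT.lf (nat_lit 0) (nat_lit 60955655562) (nat_lit 76) (nat_lit 66470725997) (nat_lit 76) (nat_lit 17289368434) (nat_lit 7) (nat_lit 4) (nat_lit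 8) (nat_lit 5) (nat_lit 8) (nat_lit 4) (nat_lit 357) (nat_lit 274) (nat_lit 149)) (XT.lf (nat_lit 0) (nat_lit 89499043168) (nat_lit 76) (nat_lit 55475421933) (nat_lit 76) (nat_lit 6288793344) (nat_lit 7) (nat_lit 4) (nat_lit 8) (nat_lit 5) (nat_lit 8) (nat_lit 4) (nat_lit 358) (nat_lit 274) (nat_lit 148)))))) (XT.nd (nat_lit 390) (nat_lit 0) (nat_lit 0) (XT.nd (nat_lit 156) (nat_lit 76) (nat_lit 0) (XT.nd (nat_lit 78) (nat_lit 0) (nat_lit 0) (XT.lf (nat_lit 0) (nat_lit 5090516395) (nat_lit 152) (nat_lit 38756090003) (nat_lit 76) (nat_lit 114287573737) (nat_lit 6) (nat_lit 5) (nat_lit 8) (nat_lit 5) (nat_lit 7) (nat_lit 4) (nat_lit 359) (nat_lit 274) (nat_lit 147)) (XT.lf (nat_lit 0) (nat_lit 16824700921) (nat_lit 152) (nat_lit 14705792701) (nat_lit 76) (nat_lit 133813138010) (nat_lit 6) (nat_lit 5) (nat_lit 8) (nat_lit 5) (nat_lit 7) (nat_lit 4) (nat_lit 360) (nat_lit 274) (nat_lit 146)))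 (XT.nd (nat_lit 78) (nat_lit 0) (nat_lit 0) (XT.lf (nat_lit 0) (nat_lit 10890695186) (nat_lit 76) (nat_lit 18422318515) (nat_lit 152) (nat_lit 143592172167) (nat_lit 5) (nat_lit 5) (nat_lit 6) (nat_lit 5) (nat_lit 7) (nat_lit 4) (nat_lit 361) (nat_lit 274) (nat_lit 145)) (XT.nd (nat_lit 78) (nat_lit 0) (nat_lit 0) (XT.lf (nat_lit 0) (nat_lit 38272743791) (nat_lit 76) (nat_lit 4399482149) (nat_lit 152) (nat_lit 138160268745) (nat_lit 5) (nat_lit 5) (nat_lit 6) (nat_lit 5) (nat_lit 7) (nat_lit 4) (nat_lit 362) (nat_lit 274) (nat_lit 144)) (XT.lf (nat_lit 0) (nat_lit 56858115950) (nat_lit 152) (nat_lit 122298144462) (nat_lit 0) (nat_lit 9991973687) (nat_lit 5) (nat_lit 5) (nat_lit 7) (nat_lit 4) (nat_lit 5) (nat_lit 4) (nat_lit 363) (nat_lit 274) (nat_lit 143))))) (XT.nd (nat_lit 156) (nat_lit 0) (nat_lit 0) (XT.nd (nat_lit 78) (nat_lit 0) (nat_lit 0) (XT.lf (nat_lit 0) (nat_lit 71823063917)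 (nat_lit 152) (nat_lit 101100033722) (nat_lit 0) (nat_lit 24953175634) (nat_lit 5) (nat_lit 5) (nat_lit 7) (nat_lit 4) (nat_lit 5) (nat_lit 4) (nat_lit 364) (nat_lit 274) (nat_lit 142)) (XT.lf (nat_lit 0) (nat_lit 87534012424) (nat_lit 152) (nat_lit 78846258738) (nat_lit 0) (nat_lit 40660556503) (nat_lit 5) (nat_lit 5) (nat_lit 7) (nat_lit 4) (nat_lit 5) (nat_lit 4) (nat_lit 365) (nat_lit 274) (nat_lit 141))) (XT.nd (nat_lit 78) (nat_lit 0) (nat_lit 0) (XT.lf (nat_lit 0) (nat_lit 104028368493) (nat_lit 152) (nat_lit 55483834331) (nat_lit 0) (nat_lit 57151514821) (nat_lit 5) (nat_lit 5) (nat_lit 7) (nat_lit 4) (nat_lit 5) (nat_lit 4) (nat_lit 366) (nat_lit 274) (nat_lit 140)) (XT.nd (nat_lit 78) (nat_lit 0) (nat_lit 0) (XT.lf (nat_lit 0) (nat_lit 121345404399) (nat_lit 152) (nat_lit 30957135682) (nat_lit 0) (nat_lit 74465314774) (nat_lit 5) (nat_lit 5) (nat_lit 7) (nat_lit 4) (nat_lit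 5) (nat_lit 4) (nat_lit 367) (nat_lit 274) (nat_lit 139)) (XT.lf (nat_lit 0) (nat_lit 139526351180) (nat_lit 152) (nat_lit 5207765888) (nat_lit 0) (nat_lit 92643179695) (nat_lit 5) (nat_lit 5) (nat_lit 7) (nat_lit 4) (nat_lit 5) (nat_lit 4) (nat_lit 368) (nat_lit 274) (nat_lit 138))))))) (XT.nd (nat_lit 780) (nat_lit 76) (nat_lit 0) (XT.nd (nat_lit 390) (nat_lit 76) (nat_lit 0) (XT.nd (nat_lit 156) (nat_lit 0) (nat_lit 0) (XT.nd (nat_lit 78) (nat_lit 0) (nat_lit 0) (XT.lf (nat_lit 0) (nat_lit 22547235417) (nat_lit 76) (nat_lit 136419286921) (nat_lit 76) (nat_lit 89533180332) (nat_lit 4) (nat_lit 4) (nat_lit 5) (nat_lit 5) (nat_lit 5) (nat_lit 4) (nat_lit 369) (nat_lit 274) (nat_lit 137)) (XT.lf (nat_lit 0) (nat_lit 51867355617) (nat_lit 76) (nat_lit 127597728401) (nat_lit 76) (nat_lit 80708826474) (nat_lit 4) (nat_lit 4) (nat_lit 5) (nat_lit 5) (nat_lit 5) (nat_lit 4) (nat_lit 370) (nat_lit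 274) (nat_lit 136))) (XT.nd (nat_lit 78) (nat_lit 0) (nat_lit 0) (XT.lf (nat_lit 0) (nat_lit 82650212263) (nat_lit 76) (nat_lit 118336633832) (nat_lit 76) (nat_lit 71445069679) (nat_lit 4) (nat_lit 4) (nat_lit 5) (nat_lit 5) (nat_lit 5) (nat_lit 4) (nat_lit 371) (nat_lit 274) (nat_lit 135)) (XT.nd (nat_lit 78) (nat_lit 0) (nat_lit 0) (XT.lf (nat_lit 0) (nat_lit 114969097870) (nat_lit 76) (nat_lit 108613952990) (nat_lit 76) (nat_lit 61719853383) (nat_lit 4) (nat_lit 4) (nat_lit 5) (nat_lit 5) (nat_lit 5) (nat_lit 4) (nat_lit 372) (nat_lit 274) (nat_lit 134)) (XT.lf (nat_lit 0) (nat_lit 148900962167) (nat_lit 76) (nat_lit 98406536635) (nat_lit 76) (nat_lit 51510022310) (nat_lit 4) (nat_lit 4) (nat_lit 5) (nat_lit 5) (nat_lit 5) (nat_lit 4) (nat_lit 373) (nat_lit 274) (nat_lit 133))))) (XT.nd (nat_lit 156) (nat_lit 76) (nat_lit 0) (XT.nd (nat_lit 78) (nat_lit 0) (nat_lit 0) (XT.lf (nat_lit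 0) (nat_lit 184526595306) (nat_lit 76) (nat_lit 87690081393) (nat_lit 76) (nat_lit 40791267337) (nat_lit 4) (nat_lit 4) (nat_lit 5) (nat_lit 5) (nat_lit 5) (nat_lit 4) (nat_lit 374) (nat_lit 274) (nat_lit 132)) (XT.lf (nat_lit 0) (nat_lit 221930820222) (nat_lit 76) (nat_lit 76439071896) (nat_lit 76) (nat_lit 29538067619) (nat_lit 4) (nat_lit 4) (nat_lit 5) (nat_lit 5) (nat_lit 5) (nat_lit 4) (nat_lit 375) (nat_lit 274) (nat_lit 131))) (XT.nd (nat_lit 78) (nat_lit 76) (nat_lit 0) (XT.lf (nat_lit 0) (nat_lit 261202694596) (nat_lit 76) (nat_lit 64626720025) (nat_lit 76) (nat_lit 17723629824) (nat_lit 4) (nat_lit 4) (nat_lit 5) (nat_lit 5) (nat_lit 5) (nat_lit 4) (nat_lit 376) (nat_lit 274) (nat_lit 130)) (XT.nd (nat_lit 78) (nat_lit 76) (nat_lit 0) (XT.lf (nat_lit 0) (nat_lit 302435722889) (nat_lit 76) (nat_lit 52224901134) (nat_lit 76) (nat_lit 5319824338) (nat_lit 4) (nat_lit 4) (nat_lit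 5) (nat_lit 5) (nat_lit 5) (nat_lit 4) (nat_lit 377) (nat_lit 274) (nat_lit 129)) (XT.lf (nat_lit 0) (nat_lit 7456341388) (nat_lit 152) (nat_lit 31621468943) (nat_lit 76) (nat_lit 338145460841) (nat_lit 3) (nat_lit 5) (nat_lit 5) (nat_lit 5) (nat_lit 4) (nat_lit 4) (nat_lit 378) (nat_lit 274) (nat_lit 128)))))) (XT.nd (nat_lit 390) (nat_lit 0) (nat_lit 0) (XT.nd (nat_lit 156) (nat_lit 0) (nat_lit 0) (XT.nd (nat_lit 78) (nat_lit 76) (nat_lit 0) (XT.lf (nat_lit 0) (nat_lit 20691345435) (nat_lit 152) (nat_lit 4491512548) (nat_lit 76) (nat_lit 370141076520) (nat_lit 3) (nat_lit 5) (nat_lit 5) (nat_lit 5) (nat_lit 4) (nat_lit 4) (nat_lit 379) (nat_lit 274) (nat_lit 127)) (XT.lf (nat_lit 0) (nat_lit 24786106413) (nat_lit 76) (nat_lit 10187841488) (nat_lit 152) (nat_lit 379336391109) (nat_lit 2) (nat_lit 5) (nat_lit 3) (nat_lit 5) (nat_lit 4) (nat_lit 4) (nat_lit 380) (nat_lit 274) (nat_lit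 126))) (XT.nd (nat_lit 78) (nat_lit 0) (nat_lit 0) (XT.lf (nat_lit 0) (nat_lit 50133625592) (nat_lit 152) (nat_lit 378648876331) (nat_lit 0) (nat_lit 5455414963) (nat_lit 2) (nat_lit 5) (nat_lit 4) (nat_lit 4) (nat_lit 2) (nat_lit 4) (nat_lit 381) (nat_lit 274) (nat_lit 125)) (XT.nd (nat_lit 78) (nat_lit 0) (nat_lit 0) (XT.lf (nat_lit 0) (nat_lit 66217227625) (nat_lit 152) (nat_lit 367398814822) (nat_lit 0) (nat_lit 21537534568) (nat_lit 2) (nat_lit 5) (nat_lit 4) (nat_lit 4) (nat_lit 2) (nat_lit 4) (nat_lit 382) (nat_lit 274) (nat_lit 124)) (XT.lf (nat_lit 0) (nat_lit 83103987533) (nat_lit 152) (nat_lit 355588201451) (nat_lit 0) (nat_lit 38422882641) (nat_lit 2) (nat_lit 5) (nat_lit 4) (nat_lit 4) (nat_lit 2) (nat_lit 4) (nat_lit 383) (nat_lit 274) (nat_lit 123))))) (XT.nd (nat_lit 32136) (nat_lit 0) (nat_lit 7372) (XT.nd (nat_lit 78) (nat_lit 0) (nat_lit 0) (XT.lf (nat_lit 0) (nat_lit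 100834111888) (nat_lit 152) (nat_lit 343188915712) (nat_lit 0) (nat_lit 56151662390) (nat_lit 2) (nat_lit 5) (nat_lit 4) (nat_lit 4) (nat_lit 2) (nat_lit 4) (nat_lit 384) (nat_lit 274) (nat_lit 122)) (XT.lf (nat_lit 0) (nat_lit 119449815270) (nat_lit 152) (nat_lit 330171435495) (nat_lit 0) (nat_lit 74766085196) (nat_lit 2) (nat_lit 5) (nat_lit 4) (nat_lit 4) (nat_lit 2) (nat_lit 4) (nat_lit 385) (nat_lit 274) (nat_lit 121))) (XT.nd (nat_lit 78) (nat_lit 0) (nat_lit 0) (XT.lf (nat_lit 0) (nat_lit 2226061716) (nat_lit 684) (nat_lit 1161581603) (nat_lit 684) (nat_lit 1161581603) (nat_lit 99) (nat_lit 3) (nat_lit 108) (nat_lit 3) (nat_lit 108) (nat_lit 5) (nat_lit 275) (nat_lit 275) (nat_lit 230)) (XT.nd (nat_lit 78) (nat_lit 0) (nat_lit 0) (XT.lf (nat_lit 76) (nat_lit 1895084602) (nat_lit 0) (nat_lit 3516467270) (nat_lit 684) (nat_lit 3870157911) (nat_lit 100) (nat_lit 5) (nat_lit 99) (nat_lit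 3) (nat_lit 108) (nat_lit 5) (nat_lit 276) (nat_lit 275) (nat_lit 229)) (XT.lf (nat_lit 76) (nat_lit 6376422647) (nat_lit 0) (nat_lit 29031730) (nat_lit 684) (nat_lit 3069468113) (nat_lit 100) (nat_lit 5) (nat_lit 99) (nat_lit 3) (nat_lit 108) (nat_lit 5) (nat_lit 277) (nat_lit 275) (nat_lit 228))))))))
noncomputable def xc150 : XT := (XT.nd (nat_lit 1560) (nat_lit 2280) (nat_lit 0) (XT.nd (nat_lit 780) (nat_lit 1976) (nat_lit 0) (XT.nd (nat_lit 390) (nat_lit 532) (nat_lit 0) (XT.nd (nat_lit 156) (nat_lit 608) (nat_lit 0) (XT.nd (nat_lit 78) (nat_lit 0) (nat_lit 0) (XT.lf (nat_lit 76) (nat_lit 1360757652) (nat_lit 0) (nat_lit 6116294682) (nat_lit 684) (nat_lit 2199452915) (nat_lit 101) (nat_lit 5) (nat_lit 100) (nat_lit 5) (nat_lit 109) (nat_lit 5) (nat_lit 278) (nat_lit 275) (nat_lit 227)) (XT.lf (nat_lit 76) (nat_lit 6120435863) (nat_lit 0) (nat_lit 2486691127) (nat_lit 684) (nat_lit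 1280899540) (nat_lit 101) (nat_lit 5) (nat_lit 100) (nat_lit 5) (nat_lit 109) (nat_lit 5) (nat_lit 279) (nat_lit 275) (nat_lit 226))) (XT.nd (nat_lit 78) (nat_lit 684) (nat_lit 0) (XT.lf (nat_lit 76) (nat_lit 988046412) (nat_lit 0) (nat_lit 8796278411) (nat_lit 684) (nat_lit 326367338) (nat_lit 102) (nat_lit 5) (nat_lit 101) (nat_lit 5) (nat_lit 110) (nat_lit 5) (nat_lit 280) (nat_lit 275) (nat_lit 225)) (XT.nd (nat_lit 78) (nat_lit 0) (nat_lit 0) (XT.lf (nat_lit 0) (nat_lit 715274159) (nat_lit 684) (nat_lit 4313337857) (nat_lit 760) (nat_lit 5312390687) (nat_lit 92) (nat_lit 5) (nat_lit 101) (nat_lit 5) (nat_lit 102) (nat_lit 5) (nat_lit 281) (nat_lit 275) (nat_lit 224)) (XT.lf (nat_lit 76) (nat_lit 723832611) (nat_lit 0) (nat_lit 1043020032) (nat_lit 760) (nat_lit 8817353212) (nat_lit 93) (nat_lit 5) (nat_lit 92) (nat_lit 5) (nat_lit 102) (nat_lit 5) (nat_lit 282) (nat_lit 275) (nat_lit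 223))))) (XT.nd (nat_lit 156) (nat_lit 608) (nat_lit 0) (XT.nd (nat_lit 78) (nat_lit 0) (nat_lit 0) (XT.lf (nat_lit 0) (nat_lit 2953558205) (nat_lit 684) (nat_lit 4755784894) (nat_lit 760) (nat_lit 3126180317) (nat_lit 93) (nat_lit 5) (nat_lit 102) (nat_lit 5) (nat_lit 103) (nat_lit 5) (nat_lit 283) (nat_lit 275) (nat_lit 222)) (XT.lf (nat_lit 76) (nat_lit 574632208) (nat_lit 0) (nat_lit 3612226732) (nat_lit 760) (nat_lit 6913262693) (nat_lit 94) (nat_lit 5) (nat_lit 93) (nat_lit 5) (nat_lit 103) (nat_lit 5) (nat_lit 284) (nat_lit 275) (nat_lit 221))) (XT.nd (nat_lit 78) (nat_lit 684) (nat_lit 0) (XT.lf (nat_lit 0) (nat_lit 5537134618) (nat_lit 684) (nat_lit 5081589072) (nat_lit 76) (nat_lit 756534646) (nat_lit 94) (nat_lit 5) (nat_lit 103) (nat_lit 5) (nat_lit 95) (nat_lit 5) (nat_lit 285) (nat_lit 275) (nat_lit 220)) (XT.nd (nat_lit 78) (nat_lit 0) (nat_lit 0) (XT.lf (nat_lit 0) (nat_lit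 562573966) (nat_lit 684) (nat_lit 6424806657) (nat_lit 760) (nat_lit 4675218964) (nat_lit 85) (nat_lit 5) (nat_lit 94) (nat_lit 5) (nat_lit 95) (nat_lit 5) (nat_lit 286) (nat_lit 275) (nat_lit 219)) (XT.lf (nat_lit 0) (nat_lit 6635140578) (nat_lit 684) (nat_lit 1926734521) (nat_lit 760) (nat_lit 3399913176) (nat_lit 85) (nat_lit 5) (nat_lit 94) (nat_lit 5) (nat_lit 95) (nat_lit 5) (nat_lit 287) (nat_lit 275) (nat_lit 218)))))) (XT.nd (nat_lit 390) (nat_lit 684) (nat_lit 0) (XT.nd (nat_lit 156) (nat_lit 760) (nat_lit 0) (XT.nd (nat_lit 78) (nat_lit 0) (nat_lit 0) (XT.lf (nat_lit 0) (nat_lit 683058207) (nat_lit 532) (nat_lit 9553730057) (nat_lit 608) (nat_lit 2038127418) (nat_lit 78) (nat_lit 5) (nat_lit 85) (nat_lit 5) (nat_lit 86) (nat_lit 5) (nat_lit 288) (nat_lit 275) (nat_lit 217)) (XT.lf (nat_lit 0) (nat_lit 7115495199) (nat_lit 532) (nat_lit 4969694441) (nat_lit 608) (nat_lit 514083629)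 (nat_lit 78) (nat_lit 5) (nat_lit 85) (nat_lit 5) (nat_lit 86) (nat_lit 5) (nat_lit 289) (nat_lit 275) (nat_lit 216))) (XT.nd (nat_lit 78) (nat_lit 304) (nat_lit 0) (XT.lf (nat_lit 0) (nat_lit 912256358) (nat_lit 380) (nat_lit 122795125) (nat_lit 456) (nat_lit 11904821966) (nat_lit 72) (nat_lit 5) (nat_lit 77) (nat_lit 5) (nat_lit 78) (nat_lit 5) (nat_lit 290) (nat_lit 275) (nat_lit 215)) (XT.nd (nat_lit 78) (nat_lit 304) (nat_lit 0) (XT.lf (nat_lit 0) (nat_lit 2786716623) (nat_lit 456) (nat_lit 5592621448) (nat_lit 76) (nat_lit 4910679335) (nat_lit 72) (nat_lit 5) (nat_lit 78) (nat_lit 5) (nat_lit 73) (nat_lit 5) (nat_lit 291) (nat_lit 275) (nat_lit 214)) (XT.lf (nat_lit 0) (nat_lit 1170283540) (nat_lit 304) (nat_lit 3447791406) (nat_lit 380) (nat_lit 9040038249) (nat_lit 68) (nat_lit 5) (nat_lit 72) (nat_lit 5) (nat_lit 73) (nat_lit 5) (nat_lit 292) (nat_lit 275) (nat_lit 213)))))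 (XT.nd (nat_lit 156) (nat_lit 380) (nat_lit 0) (XT.nd (nat_lit 78) (nat_lit 304) (nat_lit 0) (XT.lf (nat_lit 0) (nat_lit 6636976396) (nat_lit 380) (nat_lit 5633148625) (nat_lit 76) (nat_lit 1769737738) (nat_lit 68) (nat_lit 5) (nat_lit 73) (nat_lit 5) (nat_lit 69) (nat_lit 5) (nat_lit 293) (nat_lit 275) (nat_lit 212)) (XT.lf (nat_lit 0) (nat_lit 1527885763) (nat_lit 304) (nat_lit 7283306650) (nat_lit 380) (nat_lit 5626834385) (nat_lit 64) (nat_lit 5) (nat_lit 68) (nat_lit 5) (nat_lit 69) (nat_lit 5) (nat_lit 294) (nat_lit 275) (nat_lit 211))) (XT.nd (nat_lit 78) (nat_lit 380) (nat_lit 0) (XT.lf (nat_lit 0) (nat_lit 9214244559) (nat_lit 304) (nat_lit 1950065108) (nat_lit 380) (nat_lit 3688323158) (nat_lit 64) (nat_lit 5) (nat_lit 68) (nat_lit 5) (nat_lit 69) (nat_lit 5) (nat_lit 295) (nat_lit 275) (nat_lit 210)) (XT.nd (nat_lit 78) (nat_lit 76) (nat_lit 0) (XT.lf (nat_lit 0) (nat_lit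 1975035602) (nat_lit 304) (nat_lit 11723812110) (nat_lit 380) (nat_lit 1585974438) (nat_lit 60) (nat_lit 5) (nat_lit 64) (nat_lit 5) (nat_lit 65) (nat_lit 5) (nat_lit 296) (nat_lit 275) (nat_lit 209)) (XT.lf (nat_lit 0) (nat_lit 706859945) (nat_lit 380) (nat_lit 5640715575) (nat_lit 76) (nat_lit 9385334678) (nat_lit 59) (nat_lit 5) (nat_lit 64) (nat_lit 5) (nat_lit 60) (nat_lit 5) (nat_lit 297) (nat_lit 275) (nat_lit 208))))))) (XT.nd (nat_lit 780) (nat_lit 988) (nat_lit 0) (XT.nd (nat_lit 390) (nat_lit 532) (nat_lit 0) (XT.nd (nat_lit 156) (nat_lit 456) (nat_lit 0) (XT.nd (nat_lit 78) (nat_lit 0) (nat_lit 0) (XT.lf (nat_lit 0) (nat_lit 2436639967) (nat_lit 304) (nat_lit 639808611) (nat_lit 380) (nat_lit 13124919136) (nat_lit 55) (nat_lit 5) (nat_lit 59) (nat_lit 5) (nat_lit 60) (nat_lit 5) (nat_lit 298) (nat_lit 275) (nat_lit 207)) (XT.lf (nat_lit 0) (nat_lit 5723146940) (nat_lit 380)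 (nat_lit 5687699682) (nat_lit 76) (nat_lit 5274503900) (nat_lit 55) (nat_lit 5) (nat_lit 60) (nat_lit 5) (nat_lit 56) (nat_lit 5) (nat_lit 299) (nat_lit 275) (nat_lit 206))) (XT.nd (nat_lit 78) (nat_lit 228) (nat_lit 0) (XT.lf (nat_lit 0) (nat_lit 2847370076) (nat_lit 228) (nat_lit 5688759254) (nat_lit 304) (nat_lit 8655738002) (nat_lit 52) (nat_lit 5) (nat_lit 55) (nat_lit 5) (nat_lit 56) (nat_lit 5) (nat_lit 300) (nat_lit 275) (nat_lit 205)) (XT.nd (nat_lit 78) (nat_lit 228) (nat_lit 0) (XT.lf (nat_lit 0) (nat_lit 11572161668) (nat_lit 304) (nat_lit 5745793683) (nat_lit 76) (nat_lit 401665366) (nat_lit 52) (nat_lit 5) (nat_lit 56) (nat_lit 5) (nat_lit 53) (nat_lit 5) (nat_lit 301) (nat_lit 275) (nat_lit 204)) (XT.lf (nat_lit 0) (nat_lit 3268493206) (nat_lit 228) (nat_lit 11616277357) (nat_lit 304) (nat_lit 3382781775) (nat_lit 49) (nat_lit 5) (nat_lit 52) (nat_lit 5) (nat_lit 53) (nat_lit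 5) (nat_lit 302) (nat_lit 275) (nat_lit 203))))) (XT.nd (nat_lit 156) (nat_lit 228) (nat_lit 0) (XT.nd (nat_lit 78) (nat_lit 304) (nat_lit 0) (XT.lf (nat_lit 0) (nat_lit 12907684324) (nat_lit 228) (nat_lit 5533653988) (nat_lit 304) (nat_lit 397653721) (nat_lit 49) (nat_lit 5) (nat_lit 52) (nat_lit 5) (nat_lit 53) (nat_lit 5) (nat_lit 303) (nat_lit 275) (nat_lit 202)) (XT.lf (nat_lit 0) (nat_lit 2702405613) (nat_lit 304) (nat_lit 15810975535) (nat_lit 76) (nat_lit 920848118) (nat_lit 45) (nat_lit 5) (nat_lit 49) (nat_lit 5) (nat_lit 46) (nat_lit 5) (nat_lit 304) (nat_lit 275) (nat_lit 201))) (XT.nd (nat_lit 78) (nat_lit 228) (nat_lit 0) (XT.lf (nat_lit 0) (nat_lit 6118914508) (nat_lit 304) (nat_lit 6316762909) (nat_lit 76) (nat_lit 7614508593) (nat_lit 45) (nat_lit 5) (nat_lit 49) (nat_lit 5) (nat_lit 46) (nat_lit 5) (nat_lit 305) (nat_lit 275) (nat_lit 200)) (XT.nd (nat_lit 78) (nat_lit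 0) (nat_lit 0) (XT.lf (nat_lit 0) (nat_lit 3748182139) (nat_lit 228) (nat_lit 5999441998) (nat_lit 304) (nat_lit 10947270654) (nat_lit 42) (nat_lit 5) (nat_lit 45) (nat_lit 5) (nat_lit 46) (nat_lit 5) (nat_lit 306) (nat_lit 275) (nat_lit 199)) (XT.lf (nat_lit 0) (nat_lit 13661541507) (nat_lit 304) (nat_lit 6868716429) (nat_lit 76) (nat_lit 836414338) (nat_lit 42) (nat_lit 5) (nat_lit 46) (nat_lit 5) (nat_lit 43) (nat_lit 5) (nat_lit 307) (nat_lit 275) (nat_lit 198)))))) (XT.nd (nat_lit 390) (nat_lit 380) (nat_lit 0) (XT.nd (nat_lit 156) (nat_lit 456) (nat_lit 0) (XT.nd (nat_lit 78) (nat_lit 0) (nat_lit 0) (XT.lf (nat_lit 0) (nat_lit 3710435892) (nat_lit 152) (nat_lit 14200997937) (nat_lit 228) (nat_lit 4153611679) (nat_lit 40) (nat_lit 5) (nat_lit 42) (nat_lit 5) (nat_lit 43) (nat_lit 5) (nat_lit 308) (nat_lit 275) (nat_lit 197)) (XT.lf (nat_lit 0) (nat_lit 15034236206) (nat_lit 152)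 (nat_lit 7440313310) (nat_lit 228) (nat_lit 318771288) (nat_lit 40) (nat_lit 5) (nat_lit 42) (nat_lit 5) (nat_lit 43) (nat_lit 5) (nat_lit 309) (nat_lit 275) (nat_lit 196))) (XT.nd (nat_lit 78) (nat_lit 152) (nat_lit 0) (XT.lf (nat_lit 0) (nat_lit 3394772097) (nat_lit 228) (nat_lit 232252420) (nat_lit 304) (nat_lit 19926214551) (nat_lit 36) (nat_lit 5) (nat_lit 39) (nat_lit 5) (nat_lit 40) (nat_lit 5) (nat_lit 310) (nat_lit 275) (nat_lit 195)) (XT.nd (nat_lit 78) (nat_lit 152) (nat_lit 0) (XT.lf (nat_lit 0) (nat_lit 7992646300) (nat_lit 304) (nat_lit 9113296121) (nat_lit 76) (nat_lit 7233304225) (nat_lit 36) (nat_lit 5) (nat_lit 40) (nat_lit 5) (nat_lit 37) (nat_lit 5) (nat_lit 311) (nat_lit 275) (nat_lit 194)) (XT.lf (nat_lit 0) (nat_lit 2540205583) (nat_lit 152) (nat_lit 10065669928) (nat_lit 228) (nat_lit 12557229097) (nat_lit 34) (nat_lit 5) (nat_lit 36) (nat_lit 5) (nat_lit 37)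 (nat_lit 5) (nat_lit 312) (nat_lit 275) (nat_lit 193))))) (XT.nd (nat_lit 156) (nat_lit 228) (nat_lit 0) (XT.nd (nat_lit 78) (nat_lit 152) (nat_lit 0) (XT.lf (nat_lit 0) (nat_lit 15071698249) (nat_lit 152) (nat_lit 2518609507) (nat_lit 228) (nat_lit 8430836177) (nat_lit 34) (nat_lit 5) (nat_lit 36) (nat_lit 5) (nat_lit 37) (nat_lit 5) (nat_lit 313) (nat_lit 275) (nat_lit 192)) (XT.lf (nat_lit 0) (nat_lit 1242408367) (nat_lit 152) (nat_lit 21672102684) (nat_lit 228) (nat_lit 4003061507) (nat_lit 32) (nat_lit 5) (nat_lit 34) (nat_lit 5) (nat_lit 35) (nat_lit 5) (nat_lit 314) (nat_lit 275) (nat_lit 191))) (XT.nd (nat_lit 78) (nat_lit 152) (nat_lit 0) (XT.lf (nat_lit 0) (nat_lit 842025718) (nat_lit 228) (nat_lit 13500724523) (nat_lit 76) (nat_lit 13504751271) (nat_lit 31) (nat_lit 5) (nat_lit 34) (nat_lit 5) (nat_lit 32) (nat_lit 5) (nat_lit 315) (nat_lit 275) (nat_lit 190)) (XT.nd (nat_lit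 78) (nat_lit 152) (nat_lit 0) (XT.lf (nat_lit 0) (nat_lit 5782305212) (nat_lit 228) (nat_lit 802951327) (nat_lit 76) (nat_lit 22236028615) (nat_lit 31) (nat_lit 5) (nat_lit 34) (nat_lit 5) (nat_lit 32) (nat_lit 5) (nat_lit 316) (nat_lit 275) (nat_lit 189)) (XT.lf (nat_lit 0) (nat_lit 11187009212) (nat_lit 228) (nat_lit 16937282112) (nat_lit 76) (nat_lit 1708608307) (nat_lit 29) (nat_lit 5) (nat_lit 32) (nat_lit 5) (nat_lit 30) (nat_lit 5) (nat_lit 317) (nat_lit 275) (nat_lit 188))))))))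
noncomputable def xc151 : XT := (XT.nd (nat_lit 1560) (nat_lit 532) (nat_lit 0) (XT.nd (nat_lit 780) (nat_lit 532) (nat_lit 0) (XT.nd (nat_lit 390) (nat_lit 304) (nat_lit 0) (XT.nd (nat_lit 156) (nat_lit 152) (nat_lit 0) (XT.nd (nat_lit 78) (nat_lit 152) (nat_lit 0) (XT.lf (nat_lit 0) (nat_lit 16971960658) (nat_lit 228) (nat_lit 3714608424) (nat_lit 76) (nat_lit 10203036737) (nat_lit 29) (nat_lit 5) (nat_lit 32) (nat_lit 5) (nat_lit 30) (nat_lit 5) (nat_lit 318) (nat_lit 275) (nat_lit 187)) (XT.lf (nat_lit 0) (nat_lit 10486738129) (nat_lit 152) (nat_lit 12711945039) (nat_lit 228) (nat_lit 8792849021) (nat_lit 27) (nat_lit 5) (nat_lit 29) (nat_lit 5) (nat_lit 30) (nat_lit 5) (nat_lit 319) (nat_lit 275) (nat_lit 186))) (XT.nd (nat_lit 78) (nat_lit 152) (nat_lit 0) (XT.lf (nat_lit 0) (nat_lit 25509304863) (nat_lit 152) (nat_lit 4279397208) (nat_lit 228) (nat_lit 3357265314) (nat_lit 27)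 (nat_lit 5) (nat_lit 29) (nat_lit 5) (nat_lit 30) (nat_lit 5) (nat_lit 320) (nat_lit 275) (nat_lit 185)) (XT.nd (nat_lit 78) (nat_lit 0) (nat_lit 0) (XT.lf (nat_lit 0) (nat_lit 2448830927) (nat_lit 152) (nat_lit 27326983624) (nat_lit 76) (nat_lit 4571787196) (nat_lit 25) (nat_lit 5) (nat_lit 27) (nat_lit 5) (nat_lit 26) (nat_lit 5) (nat_lit 321) (nat_lit 275) (nat_lit 184)) (XT.lf (nat_lit 0) (nat_lit 8623537789) (nat_lit 152) (nat_lit 13071738261) (nat_lit 76) (nat_lit 13901742410) (nat_lit 25) (nat_lit 5) (nat_lit 27) (nat_lit 5) (nat_lit 26) (nat_lit 5) (nat_lit 322) (nat_lit 275) (nat_lit 183))))) (XT.nd (nat_lit 156) (nat_lit 152) (nat_lit 0) (XT.nd (nat_lit 78) (nat_lit 0) (nat_lit 0) (XT.lf (nat_lit 0) (nat_lit 1941784226) (nat_lit 152) (nat_lit 13185538306) (nat_lit 228) (nat_lit 21780575008) (nat_lit 23) (nat_lit 5) (nat_lit 25) (nat_lit 5) (nat_lit 26) (nat_lit 5) (nat_lit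 323) (nat_lit 275) (nat_lit 182)) (XT.lf (nat_lit 0) (nat_lit 18143438006) (nat_lit 152) (nat_lit 4024480002) (nat_lit 228) (nat_lit 16105829733) (nat_lit 23) (nat_lit 5) (nat_lit 25) (nat_lit 5) (nat_lit 26) (nat_lit 5) (nat_lit 324) (nat_lit 275) (nat_lit 181))) (XT.nd (nat_lit 78) (nat_lit 152) (nat_lit 0) (XT.lf (nat_lit 0) (nat_lit 29638502618) (nat_lit 228) (nat_lit 4656024637) (nat_lit 76) (nat_lit 5409473080) (nat_lit 23) (nat_lit 5) (nat_lit 26) (nat_lit 5) (nat_lit 24) (nat_lit 4) (nat_lit 325) (nat_lit 275) (nat_lit 180)) (XT.nd (nat_lit 78) (nat_lit 76) (nat_lit 0) (XT.lf (nat_lit 0) (nat_lit 11891397879) (nat_lit 76) (nat_lit 25833910267) (nat_lit 152) (nat_lit 3468330306) (nat_lit 22) (nat_lit 5) (nat_lit 23) (nat_lit 5) (nat_lit 24) (nat_lit 4) (nat_lit 326) (nat_lit 275) (nat_lit 179)) (XT.lf (nat_lit 0) (nat_lit 3419240828) (nat_lit 152) (nat_lit 13396526890) (nat_lit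 76) (nat_lit 25935735282) (nat_lit 21) (nat_lit 5) (nat_lit 23) (nat_lit 5) (nat_lit 22) (nat_lit 5) (nat_lit 327) (nat_lit 275) (nat_lit 178)))))) (XT.nd (nat_lit 390) (nat_lit 304) (nat_lit 0) (XT.nd (nat_lit 156) (nat_lit 76) (nat_lit 0) (XT.nd (nat_lit 78) (nat_lit 0) (nat_lit 0) (XT.lf (nat_lit 0) (nat_lit 3339984868) (nat_lit 152) (nat_lit 7238317841) (nat_lit 228) (nat_lit 33803938091) (nat_lit 19) (nat_lit 5) (nat_lit 21) (nat_lit 5) (nat_lit 22) (nat_lit 5) (nat_lit 328) (nat_lit 275) (nat_lit 177)) (XT.lf (nat_lit 0) (nat_lit 18361521618) (nat_lit 228) (nat_lit 24767091501) (nat_lit 76) (nat_lit 2952598325) (nat_lit 19) (nat_lit 5) (nat_lit 22) (nat_lit 5) (nat_lit 20) (nat_lit 4) (nat_lit 329) (nat_lit 275) (nat_lit 176))) (XT.nd (nat_lit 78) (nat_lit 76) (nat_lit 0) (XT.lf (nat_lit 0) (nat_lit 26644572925) (nat_lit 228) (nat_lit 7810756447) (nat_lit 76) (nat_lit 13404273534)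 (nat_lit 19) (nat_lit 5) (nat_lit 22) (nat_lit 5) (nat_lit 20) (nat_lit 4) (nat_lit 330) (nat_lit 275) (nat_lit 175)) (XT.nd (nat_lit 78) (nat_lit 0) (nat_lit 0) (XT.lf (nat_lit 0) (nat_lit 10310120112) (nat_lit 76) (nat_lit 25185017512) (nat_lit 152) (nat_lit 14224113857) (nat_lit 18) (nat_lit 5) (nat_lit 19) (nat_lit 5) (nat_lit 20) (nat_lit 4) (nat_lit 331) (nat_lit 275) (nat_lit 174)) (XT.lf (nat_lit 0) (nat_lit 29595162776) (nat_lit 76) (nat_lit 15317896274) (nat_lit 152) (nat_lit 6752587322) (nat_lit 18) (nat_lit 5) (nat_lit 19) (nat_lit 5) (nat_lit 20) (nat_lit 4) (nat_lit 332) (nat_lit 275) (nat_lit 173))))) (XT.nd (nat_lit 156) (nat_lit 76) (nat_lit 0) (XT.nd (nat_lit 78) (nat_lit 152) (nat_lit 0) (XT.lf (nat_lit 0) (nat_lit 1050331332) (nat_lit 152) (nat_lit 3894632252) (nat_lit 76) (nat_lit 48763910227) (nat_lit 17) (nat_lit 5) (nat_lit 19) (nat_lit 5) (nat_lit 18) (nat_lit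 5) (nat_lit 333) (nat_lit 275) (nat_lit 172)) (XT.lf (nat_lit 0) (nat_lit 9351172457) (nat_lit 228) (nat_lit 40370049345) (nat_lit 76) (nat_lit 6110775114) (nat_lit 15) (nat_lit 5) (nat_lit 18) (nat_lit 5) (nat_lit 16) (nat_lit 4) (nat_lit 334) (nat_lit 275) (nat_lit 171))) (XT.nd (nat_lit 78) (nat_lit 76) (nat_lit 0) (XT.lf (nat_lit 0) (nat_lit 18208347776) (nat_lit 228) (nat_lit 22230689507) (nat_lit 76) (nat_lit 17615178659) (nat_lit 15) (nat_lit 5) (nat_lit 18) (nat_lit 5) (nat_lit 16) (nat_lit 4) (nat_lit 335) (nat_lit 275) (nat_lit 170)) (XT.nd (nat_lit 78) (nat_lit 76) (nat_lit 0) (XT.lf (nat_lit 0) (nat_lit 27501894631) (nat_lit 228) (nat_lit 3195918042) (nat_lit 76) (nat_lit 29690061772) (nat_lit 15) (nat_lit 5) (nat_lit 18) (nat_lit 5) (nat_lit 16) (nat_lit 4) (nat_lit 336) (nat_lit 275) (nat_lit 169)) (XT.lf (nat_lit 0) (nat_lit 17334394825) (nat_lit 76) (nat_lit 20190184172)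 (nat_lit 152) (nat_lit 25300417833) (nat_lit 14) (nat_lit 5) (nat_lit 15) (nat_lit 5) (nat_lit 16) (nat_lit 4) (nat_lit 337) (nat_lit 275) (nat_lit 168))))))) (XT.nd (nat_lit 780) (nat_lit 228) (nat_lit 0) (XT.nd (nat_lit 390) (nat_lit 152) (nat_lit 0) (XT.nd (nat_lit 156) (nat_lit 152) (nat_lit 0) (XT.nd (nat_lit 78) (nat_lit 0) (nat_lit 0) (XT.lf (nat_lit 0) (nat_lit 38991349850) (nat_lit 76) (nat_lit 9105118977) (nat_lit 152) (nat_lit 17285106721) (nat_lit 14) (nat_lit 5) (nat_lit 15) (nat_lit 5) (nat_lit 16) (nat_lit 4) (nat_lit 338) (nat_lit 275) (nat_lit 167)) (XT.lf (nat_lit 0) (nat_lit 59230683172) (nat_lit 152) (nat_lit 6384930268) (nat_lit 0) (nat_lit 2448686858) (nat_lit 14) (nat_lit 5) (nat_lit 16) (nat_lit 4) (nat_lit 14) (nat_lit 4) (nat_lit 339) (nat_lit 275) (nat_lit 166))) (XT.nd (nat_lit 78) (nat_lit 0) (nat_lit 0) (XT.lf (nat_lit 0) (nat_lit 422282172) (nat_lit 152)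 (nat_lit 55929637480) (nat_lit 76) (nat_lit 14510056831) (nat_lit 12) (nat_lit 5) (nat_lit 14) (nat_lit 5) (nat_lit 13) (nat_lit 4) (nat_lit 340) (nat_lit 275) (nat_lit 165)) (XT.nd (nat_lit 78) (nat_lit 0) (nat_lit 0) (XT.lf (nat_lit 0) (nat_lit 9948473587) (nat_lit 152) (nat_lit 36413630435) (nat_lit 76) (nat_lit 27424976664) (nat_lit 12) (nat_lit 5) (nat_lit 14) (nat_lit 5) (nat_lit 13) (nat_lit 4) (nat_lit 341) (nat_lit 275) (nat_lit 164)) (XT.lf (nat_lit 0) (nat_lit 19945698450) (nat_lit 152) (nat_lit 15931400754) (nat_lit 76) (nat_lit 40981607658) (nat_lit 12) (nat_lit 5) (nat_lit 14) (nat_lit 5) (nat_lit 13) (nat_lit 4) (nat_lit 342) (nat_lit 275) (nat_lit 163))))) (XT.nd (nat_lit 156) (nat_lit 76) (nat_lit 0) (XT.nd (nat_lit 78) (nat_lit 0) (nat_lit 0) (XT.lf (nat_lit 0) (nat_lit 5749849881) (nat_lit 76) (nat_lit 24777681069) (nat_lit 152) (nat_lit 49552148896) (nat_lit 11) (nat_lit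 5) (nat_lit 12) (nat_lit 5) (nat_lit 13) (nat_lit 4) (nat_lit 343) (nat_lit 275) (nat_lit 162)) (XT.lf (nat_lit 0) (nat_lit 29059290797) (nat_lit 76) (nat_lit 12844044544) (nat_lit 152) (nat_lit 41545124809) (nat_lit 11) (nat_lit 5) (nat_lit 12) (nat_lit 5) (nat_lit 13) (nat_lit 4) (nat_lit 344) (nat_lit 275) (nat_lit 161))) (XT.nd (nat_lit 78) (nat_lit 76) (nat_lit 0) (XT.lf (nat_lit 0) (nat_lit 53525656604) (nat_lit 76) (nat_lit 317582189) (nat_lit 152) (nat_lit 33142677789) (nat_lit 11) (nat_lit 5) (nat_lit 12) (nat_lit 5) (nat_lit 13) (nat_lit 4) (nat_lit 345) (nat_lit 275) (nat_lit 160)) (XT.nd (nat_lit 78) (nat_lit 76) (nat_lit 0) (XT.lf (nat_lit 0) (nat_lit 66576005810) (nat_lit 152) (nat_lit 11693607262) (nat_lit 0) (nat_lit 12420841780) (nat_lit 11) (nat_lit 5) (nat_lit 13) (nat_lit 4) (nat_lit 11) (nat_lit 4) (nat_lit 346) (nat_lit 275) (nat_lit 159)) (XT.lf (nat_lit 0) (nat_lit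 11516870624) (nat_lit 76) (nat_lit 68609247820) (nat_lit 76) (nat_lit 14445068546) (nat_lit 10) (nat_lit 4) (nat_lit 11) (nat_lit 5) (nat_lit 11) (nat_lit 4) (nat_lit 347) (nat_lit 275) (nat_lit 158)))))) (XT.nd (nat_lit 390) (nat_lit 76) (nat_lit 0) (XT.nd (nat_lit 156) (nat_lit 76) (nat_lit 0) (XT.nd (nat_lit 78) (nat_lit 76) (nat_lit 0) (XT.lf (nat_lit 0) (nat_lit 36286062690) (nat_lit 76) (nat_lit 58261484963) (nat_lit 76) (nat_lit 4088719743) (nat_lit 10) (nat_lit 4) (nat_lit 11) (nat_lit 5) (nat_lit 11) (nat_lit 4) (nat_lit 348) (nat_lit 275) (nat_lit 157)) (XT.lf (nat_lit 0) (nat_lit 6564177103) (nat_lit 152) (nat_lit 40724379250) (nat_lit 76) (nat_lit 55610955117) (nat_lit 9) (nat_lit 5) (nat_lit 11) (nat_lit 5) (nat_lit 10) (nat_lit 4) (nat_lit 349) (nat_lit 275) (nat_lit 156))) (XT.nd (nat_lit 78) (nat_lit 76) (nat_lit 0) (XT.lf (nat_lit 0) (nat_lit 17608413156) (nat_lit 152)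 (nat_lit 18091483048) (nat_lit 76) (nat_lit 71672866933) (nat_lit 9) (nat_lit 5) (nat_lit 11) (nat_lit 5) (nat_lit 10) (nat_lit 4) (nat_lit 350) (nat_lit 275) (nat_lit 155)) (XT.nd (nat_lit 78) (nat_lit 0) (nat_lit 0) (XT.lf (nat_lit 0) (nat_lit 5853558551) (nat_lit 76) (nat_lit 23438980684) (nat_lit 152) (nat_lit 82772756057) (nat_lit 8) (nat_lit 5) (nat_lit 9) (nat_lit 5) (nat_lit 10) (nat_lit 4) (nat_lit 351) (nat_lit 275) (nat_lit 154)) (XT.lf (nat_lit 0) (nat_lit 31617208310) (nat_lit 76) (nat_lit 10246410651) (nat_lit 152) (nat_lit 75113699458) (nat_lit 8) (nat_lit 5) (nat_lit 9) (nat_lit 5) (nat_lit 10) (nat_lit 4) (nat_lit 352) (nat_lit 275) (nat_lit 153))))) (XT.nd (nat_lit 234) (nat_lit 76) (nat_lit 0) (XT.nd (nat_lit 78) (nat_lit 0) (nat_lit 0) (XT.lf (nat_lit 0) (nat_lit 55116035742) (nat_lit 152) (nat_lit 63528745976) (nat_lit 0) (nat_lit 3487523479) (nat_lit 8) (nat_lit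 5) (nat_lit 10) (nat_lit 4) (nat_lit 8) (nat_lit 4) (nat_lit 353) (nat_lit 275) (nat_lit 152)) (XT.nd (nat_lit 78) (nat_lit 0) (nat_lit 0) (XT.lf (nat_lit 0) (nat_lit 69195701223) (nat_lit 152) (nat_lit 40780023178) (nat_lit 0) (nat_lit 17561087088) (nat_lit 8) (nat_lit 5) (nat_lit 10) (nat_lit 4) (nat_lit 8) (nat_lit 4) (nat_lit 354) (nat_lit 275) (nat_lit 151)) (XT.lf (nat_lit 0) (nat_lit 83976163232) (nat_lit 152) (nat_lit 16899802904) (nat_lit 0) (nat_lit 32335737791) (nat_lit 8) (nat_lit 5) (nat_lit 10) (nat_lit 4) (nat_lit 8) (nat_lit 4) (nat_lit 355) (nat_lit 275) (nat_lit 150)))) (XT.nd (nat_lit 78) (nat_lit 0) (nat_lit 0) (XT.lf (nat_lit 0) (nat_lit 8438869023) (nat_lit 76) (nat_lit 91185498718) (nat_lit 76) (nat_lit 39539538699) (nat_lit 7) (nat_lit 4) (nat_lit 8) (nat_lit 5) (nat_lit 8) (nat_lit 4) (nat_lit 356) (nat_lit 275) (nat_lit 149)) (XT.nd (nat_lit 78) (nat_lit 0)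 (nat_lit 0) (XT.lf (nat_lit 0) (nat_lit 35625632897) (nat_lit 76) (nat_lit 80712578567) (nat_lit 76) (nat_lit 29061347522) (nat_lit 7) (nat_lit 4) (nat_lit 8) (nat_lit 5) (nat_lit 8) (nat_lit 4) (nat_lit 357) (nat_lit 275) (nat_lit 148)) (XT.lf (nat_lit 0) (nat_lit 64166435302) (nat_lit 76) (nat_lit 69718476499) (nat_lit 76) (nat_lit 18062225428) (nat_lit 7) (nat_lit 4) (nat_lit 8) (nat_lit 5) (nat_lit 8) (nat_lit 4) (nat_lit 358) (nat_lit 275) (nat_lit 147))))))))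
noncomputable def xc152 : XT := (XT.nd (nat_lit 1560) (nat_lit 152) (nat_lit 0) (XT.nd (nat_lit 780) (nat_lit 76) (nat_lit 0) (XT.nd (nat_lit 390) (nat_lit 0) (nat_lit 0) (XT.nd (nat_lit 156) (nat_lit 76) (nat_lit 0) (XT.nd (nat_lit 78) (nat_lit 76) (nat_lit 0) (XT.lf (nat_lit 0) (nat_lit 94129230528) (nat_lit 76) (nat_lit 58177016080) (nat_lit 76) (nat_lit 6515984033) (nat_lit 7) (nat_lit 4) (nat_lit 8) (nat_lit 5) (nat_lit 8) (nat_lit 4) (nat_lit 359) (nat_lit 275) (nat_lit 146)) (XT.lf (nat_lit 0) (nat_lit 5425476945) (nat_lit 152) (nat_lit 40543357619) (nat_lit 76) (nat_lit 120067998542) (nat_lit 6) (nat_lit 5) (nat_lit 8) (nat_lit 5) (nat_lit 7) (nat_lit 4) (nat_lit 360) (nat_lit 275) (nat_lit 145))) (XT.nd (nat_lit 78) (nat_lit 76) (nat_lit 0) (XT.lf (nat_lit 0) (nat_lit 17742540472) (nat_lit 152) (nat_lit 15297713875) (nat_lit 76) (nat_lit 140566695975) (nat_lit 6) (nat_lit 5)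 (nat_lit 8) (nat_lit 5) (nat_lit 7) (nat_lit 4) (nat_lit 361) (nat_lit 275) (nat_lit 144)) (XT.nd (nat_lit 78) (nat_lit 0) (nat_lit 0) (XT.lf (nat_lit 0) (nat_lit 11576286012) (nat_lit 76) (nat_lit 19277537326) (nat_lit 152) (nat_lit 150692832766) (nat_lit 5) (nat_lit 5) (nat_lit 6) (nat_lit 5) (nat_lit 7) (nat_lit 4) (nat_lit 362) (nat_lit 275) (nat_lit 143)) (XT.lf (nat_lit 0) (nat_lit 40320720091) (nat_lit 76) (nat_lit 4556697100) (nat_lit 152) (nat_lit 144993093602) (nat_lit 5) (nat_lit 5) (nat_lit 6) (nat_lit 5) (nat_lit 7) (nat_lit 4) (nat_lit 363) (nat_lit 275) (nat_lit 142))))) (XT.nd (nat_lit 156) (nat_lit 0) (nat_lit 0) (XT.nd (nat_lit 78) (nat_lit 0) (nat_lit 0) (XT.lf (nat_lit 0) (nat_lit 59770126319) (nat_lit 152) (nat_lit 128282606074) (nat_lit 0) (nat_lit 10549429964) (nat_lit 5) (nat_lit 5) (nat_lit 7) (nat_lit 4) (nat_lit 5) (nat_lit 4) (nat_lit 364) (nat_lit 275) (nat_lit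 141)) (XT.lf (nat_lit 0) (nat_lit 75480030990) (nat_lit 152) (nat_lit 106030801493) (nat_lit 0) (nat_lit 26255936885) (nat_lit 5) (nat_lit 5) (nat_lit 7) (nat_lit 4) (nat_lit 5) (nat_lit 4) (nat_lit 365) (nat_lit 275) (nat_lit 140))) (XT.nd (nat_lit 78) (nat_lit 0) (nat_lit 0) (XT.lf (nat_lit 0) (nat_lit 91973392929) (nat_lit 152) (nat_lit 82670253661) (nat_lit 0) (nat_lit 42746062870) (nat_lit 5) (nat_lit 5) (nat_lit 7) (nat_lit 4) (nat_lit 5) (nat_lit 4) (nat_lit 366) (nat_lit 275) (nat_lit 139)) (XT.nd (nat_lit 78) (nat_lit 0) (nat_lit 0) (XT.lf (nat_lit 0) (nat_lit 109289482045) (nat_lit 152) (nat_lit 58145342225) (nat_lit 0) (nat_lit 60059070126) (nat_lit 5) (nat_lit 5) (nat_lit 7) (nat_lit 4) (nat_lit 5) (nat_lit 4) (nat_lit 367) (nat_lit 275) (nat_lit 138)) (XT.lf (nat_lit 0) (nat_lit 127469527121) (nat_lit 152) (nat_lit 32397674539) (nat_lit 0) (nat_lit 78236180097) (nat_lit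 5) (nat_lit 5) (nat_lit 7) (nat_lit 4) (nat_lit 5) (nat_lit 4) (nat_lit 368) (nat_lit 275) (nat_lit 137)))))) (XT.nd (nat_lit 390) (nat_lit 0) (nat_lit 0) (XT.nd (nat_lit 156) (nat_lit 0) (nat_lit 0) (XT.nd (nat_lit 78) (nat_lit 76) (nat_lit 0) (XT.lf (nat_lit 0) (nat_lit 146556813979) (nat_lit 152) (nat_lit 5365946633) (nat_lit 0) (nat_lit 97320671618) (nat_lit 5) (nat_lit 5) (nat_lit 7) (nat_lit 4) (nat_lit 5) (nat_lit 4) (nat_lit 369) (nat_lit 275) (nat_lit 136)) (XT.lf (nat_lit 0) (nat_lit 23775156228) (nat_lit 76) (nat_lit 143192829130) (nat_lit 76) (nat_lit 93954024543) (nat_lit 4) (nat_lit 4) (nat_lit 5) (nat_lit 5) (nat_lit 5) (nat_lit 4) (nat_lit 370) (nat_lit 275) (nat_lit 135))) (XT.nd (nat_lit 78) (nat_lit 0) (nat_lit 0) (XT.lf (nat_lit 0) (nat_lit 54556493913) (nat_lit 76) (nat_lit 133932450881) (nat_lit 76) (nat_lit 84691110840) (nat_lit 4) (nat_lit 4) (nat_lit 5) (nat_lit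 5) (nat_lit 5) (nat_lit 4) (nat_lit 371) (nat_lit 275) (nat_lit 134)) (XT.nd (nat_lit 78) (nat_lit 0) (nat_lit 0) (XT.lf (nat_lit 0) (nat_lit 86873932890) (nat_lit 76) (nat_lit 124210452248) (nat_lit 76) (nat_lit 74966697489) (nat_lit 4) (nat_lit 4) (nat_lit 5) (nat_lit 5) (nat_lit 5) (nat_lit 4) (nat_lit 372) (nat_lit 275) (nat_lit 133)) (XT.lf (nat_lit 0) (nat_lit 120804419444) (nat_lit 76) (nat_lit 114003685615) (nat_lit 76) (nat_lit 64757631125) (nat_lit 4) (nat_lit 4) (nat_lit 5) (nat_lit 5) (nat_lit 5) (nat_lit 4) (nat_lit 373) (nat_lit 275) (nat_lit 132))))) (XT.nd (nat_lit 156) (nat_lit 0) (nat_lit 0) (XT.nd (nat_lit 78) (nat_lit 0) (nat_lit 0) (XT.lf (nat_lit 0) (nat_lit 156428740447) (nat_lit 76) (nat_lit 103287849157) (nat_lit 76) (nat_lit 54039604446) (nat_lit 4) (nat_lit 4) (nat_lit 5) (nat_lit 5) (nat_lit 5) (nat_lit 4) (nat_lit 374) (nat_lit 275) (nat_lit 131)) (XT.lf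 (nat_lit 0) (nat_lit 193831715710) (nat_lit 76) (nat_lit 92037428978) (nat_lit 76) (nat_lit 42787098343) (nat_lit 4) (nat_lit 4) (nat_lit 5) (nat_lit 5) (nat_lit 5) (nat_lit 4) (nat_lit 375) (nat_lit 275) (nat_lit 130))) (XT.nd (nat_lit 78) (nat_lit 0) (nat_lit 0) (XT.lf (nat_lit 0) (nat_lit 233102399938) (nat_lit 76) (nat_lit 80225638362) (nat_lit 76) (nat_lit 30973321132) (nat_lit 4) (nat_lit 4) (nat_lit 5) (nat_lit 5) (nat_lit 5) (nat_lit 4) (nat_lit 376) (nat_lit 275) (nat_lit 129)) (XT.nd (nat_lit 78) (nat_lit 0) (nat_lit 0) (XT.lf (nat_lit 0) (nat_lit 274334294759) (nat_lit 76) (nat_lit 67824353999) (nat_lit 76) (nat_lit 18570144775) (nat_lit 4) (nat_lit 4) (nat_lit 5) (nat_lit 5) (nat_lit 5) (nat_lit 4) (nat_lit 377) (nat_lit 275) (nat_lit 128)) (XT.lf (nat_lit 0) (nat_lit 317625571350) (nat_lit 76) (nat_lit 54804049022) (nat_lit 76) (nat_lit 5548037897) (nat_lit 4) (nat_lit 4)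 (nat_lit 5) (nat_lit 5) (nat_lit 5) (nat_lit 4) (nat_lit 378) (nat_lit 275) (nat_lit 127))))))) (XT.nd (nat_lit 32838) (nat_lit 0) (nat_lit 6308) (XT.nd (nat_lit 390) (nat_lit 0) (nat_lit 0) (XT.nd (nat_lit 156) (nat_lit 76) (nat_lit 0) (XT.nd (nat_lit 78) (nat_lit 0) (nat_lit 0) (XT.lf (nat_lit 0) (nat_lit 7863985635) (nat_lit 152) (nat_lit 33136556666) (nat_lit 76) (nat_lit 355082138144) (nat_lit 3) (nat_lit 5) (nat_lit 5) (nat_lit 5) (nat_lit 4) (nat_lit 4) (nat_lit 379) (nat_lit 275) (nat_lit 126)) (XT.lf (nat_lit 0) (nat_lit 21759081447) (nat_lit 152) (nat_lit 4653244627) (nat_lit 76) (nat_lit 388676134405) (nat_lit 3) (nat_lit 5) (nat_lit 5) (nat_lit 5) (nat_lit 4) (nat_lit 4) (nat_lit 380) (nat_lit 275) (nat_lit 125))) (XT.nd (nat_lit 78) (nat_lit 0) (nat_lit 0) (XT.lf (nat_lit 0) (nat_lit 26087241675) (nat_lit 76) (nat_lit 10667958236) (nat_lit 152) (nat_lit 398269016592) (nat_lit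 2) (nat_lit 5) (nat_lit 3) (nat_lit 5) (nat_lit 4) (nat_lit 4) (nat_lit 381) (nat_lit 275) (nat_lit 124)) (XT.nd (nat_lit 78) (nat_lit 0) (nat_lit 0) (XT.lf (nat_lit 0) (nat_lit 52671746572) (nat_lit 152) (nat_lit 397521308406) (nat_lit 0) (nat_lit 5755174600) (nat_lit 2) (nat_lit 5) (nat_lit 4) (nat_lit 4) (nat_lit 2) (nat_lit 4) (nat_lit 382) (nat_lit 275) (nat_lit 123)) (XT.lf (nat_lit 0) (nat_lit 69558031578) (nat_lit 152) (nat_lit 385711601524) (nat_lit 0) (nat_lit 22640115000) (nat_lit 2) (nat_lit 5) (nat_lit 4) (nat_lit 4) (nat_lit 2) (nat_lit 4) (nat_lit 383) (nat_lit 275) (nat_lit 122))))) (XT.nd (nat_lit 32214) (nat_lit 0) (nat_lit 7372) (XT.nd (nat_lit 78) (nat_lit 0) (nat_lit 0) (XT.lf (nat_lit 0) (nat_lit 87287703645) (nat_lit 152) (nat_lit 373313179106) (nat_lit 0) (nat_lit 40368506490) (nat_lit 2) (nat_lit 5) (nat_lit 4) (nat_lit 4) (nat_lit 2) (nat_lit 4) (nat_lit 384)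 (nat_lit 275) (nat_lit 121)) (XT.lf (nat_lit 0) (nat_lit 105902976277) (nat_lit 152) (nat_lit 360296521099) (nat_lit 0) (nat_lit 58982559526) (nat_lit 2) (nat_lit 5) (nat_lit 4) (nat_lit 4) (nat_lit 2) (nat_lit 4) (nat_lit 385) (nat_lit 275) (nat_lit 120))) (XT.nd (nat_lit 78) (nat_lit 0) (nat_lit 0) (XT.lf (nat_lit 0) (nat_lit 3143122905) (nat_lit 684) (nat_lit 795754171) (nat_lit 684) (nat_lit 795754171) (nat_lit 99) (nat_lit 3) (nat_lit 108) (nat_lit 3) (nat_lit 108) (nat_lit 5) (nat_lit 276) (nat_lit 276) (nat_lit 228)) (XT.nd (nat_lit 78) (nat_lit 0) (nat_lit 0) (XT.lf (nat_lit 76) (nat_lit 2823977452) (nat_lit 0) (nat_lit 4405952594) (nat_lit 684) (nat_lit 2435109453) (nat_lit 100) (nat_lit 5) (nat_lit 99) (nat_lit 3) (nat_lit 108) (nat_lit 5) (nat_lit 277) (nat_lit 276) (nat_lit 227)) (XT.lf (nat_lit 76) (nat_lit 7489661512) (nat_lit 0) (nat_lit 710161374) (nat_lit 684) (nat_lit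 1671935468) (nat_lit 100) (nat_lit 5) (nat_lit 99) (nat_lit 3) (nat_lit 108) (nat_lit 5) (nat_lit 278) (nat_lit 276) (nat_lit 226)))))) (XT.nd (nat_lit 390) (nat_lit 456) (nat_lit 0) (XT.nd (nat_lit 156) (nat_lit 0) (nat_lit 76) (XT.nd (nat_lit 78) (nat_lit 684) (nat_lit 0) (XT.lf (nat_lit 76) (nat_lit 2296510374) (nat_lit 0) (nat_lit 6961736430) (nat_lit 684) (nat_lit 828663787) (nat_lit 101) (nat_lit 5) (nat_lit 100) (nat_lit 5) (nat_lit 109) (nat_lit 5) (nat_lit 279) (nat_lit 276) (nat_lit 225)) (XT.lf (nat_lit 0) (nat_lit 63214630) (nat_lit 684) (nat_lit 3060670972) (nat_lit 760) (nat_lit 7188567540) (nat_lit 91) (nat_lit 5) (nat_lit 100) (nat_lit 5) (nat_lit 101) (nat_lit 5) (nat_lit 280) (nat_lit 276) (nat_lit 224))) (XT.nd (nat_lit 78) (nat_lit 0) (nat_lit 0) (XT.lf (nat_lit 0) (nat_lit 974741786) (nat_lit 684) (nat_lit 8637836614) (nat_lit 760) (nat_lit 935955764) (nat_lit 92)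 (nat_lit 5) (nat_lit 101) (nat_lit 5) (nat_lit 102) (nat_lit 5) (nat_lit 281) (nat_lit 276) (nat_lit 223)) (XT.nd (nat_lit 78) (nat_lit 0) (nat_lit 0) (XT.lf (nat_lit 0) (nat_lit 1995284923) (nat_lit 684) (nat_lit 3637965571) (nat_lit 760) (nat_lit 5160078422) (nat_lit 92) (nat_lit 5) (nat_lit 101) (nat_lit 5) (nat_lit 102) (nat_lit 5) (nat_lit 282) (nat_lit 276) (nat_lit 222)) (XT.lf (nat_lit 76) (nat_lit 1636691822) (nat_lit 0) (nat_lit 1417187888) (nat_lit 760) (nat_lit 7997210245) (nat_lit 93) (nat_lit 5) (nat_lit 92) (nat_lit 5) (nat_lit 102) (nat_lit 5) (nat_lit 283) (nat_lit 276) (nat_lit 221))))) (XT.nd (nat_lit 156) (nat_lit 608) (nat_lit 0) (XT.nd (nat_lit 78) (nat_lit 0) (nat_lit 0) (XT.lf (nat_lit 0) (nat_lit 4238052162) (nat_lit 684) (nat_lit 4094506178) (nat_lit 760) (nat_lit 2985622377) (nat_lit 93) (nat_lit 5) (nat_lit 102) (nat_lit 5) (nat_lit 103) (nat_lit 5) (nat_lit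 284) (nat_lit 276) (nat_lit 220)) (XT.lf (nat_lit 76) (nat_lit 1487930682) (nat_lit 0) (nat_lit 4004763721) (nat_lit 760) (nat_lit 6105439097) (nat_lit 94) (nat_lit 5) (nat_lit 93) (nat_lit 5) (nat_lit 103) (nat_lit 5) (nat_lit 285) (nat_lit 276) (nat_lit 219))) (XT.nd (nat_lit 78) (nat_lit 684) (nat_lit 0) (XT.lf (nat_lit 0) (nat_lit 6855118742) (nat_lit 684) (nat_lit 4435792495) (nat_lit 76) (nat_lit 598987370) (nat_lit 94) (nat_lit 5) (nat_lit 103) (nat_lit 5) (nat_lit 95) (nat_lit 5) (nat_lit 286) (nat_lit 276) (nat_lit 218)) (XT.nd (nat_lit 78) (nat_lit 0) (nat_lit 0) (XT.lf (nat_lit 0) (nat_lit 1476064565) (nat_lit 684) (nat_lit 6866057968) (nat_lit 760) (nat_lit 3851370508) (nat_lit 85) (nat_lit 5) (nat_lit 94) (nat_lit 5) (nat_lit 95) (nat_lit 5) (nat_lit 287) (nat_lit 276) (nat_lit 217)) (XT.lf (nat_lit 0) (nat_lit 7810099417) (nat_lit 684) (nat_lit 2137367417) (nat_lit 760)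 (nat_lit 2562661783) (nat_lit 85) (nat_lit 5) (nat_lit 94) (nat_lit 5) (nat_lit 95) (nat_lit 5) (nat_lit 288) (nat_lit 276) (nat_lit 216))))))))
noncomputable def xc153 : XT := (XT.nd (nat_lit 1560) (nat_lit 1596) (nat_lit 0) (XT.nd (nat_lit 780) (nat_lit 1292) (nat_lit 0) (XT.nd (nat_lit 390) (nat_lit 684) (nat_lit 0) (XT.nd (nat_lit 156) (nat_lit 684) (nat_lit 0) (XT.nd (nat_lit 78) (nat_lit 76) (nat_lit 0) (XT.lf (nat_lit 0) (nat_lit 1597515266) (nat_lit 532) (nat_lit 10075059756) (nat_lit 608) (nat_lit 1168104151) (nat_lit 78) (nat_lit 5) (nat_lit 85) (nat_lit 5) (nat_lit 86) (nat_lit 5) (nat_lit 289) (nat_lit 276) (nat_lit 215)) (XT.lf (nat_lit 0) (nat_lit 373509550) (nat_lit 608) (nat_lit 4879908996) (nat_lit 76) (nat_lit 7929819747) (nat_lit 77) (nat_lit 5) (nat_lit 85) (nat_lit 5) (nat_lit 78) (nat_lit 5) (nat_lit 290) (nat_lit 276) (nat_lit 214))) (XT.nd (nat_lit 78) (nat_lit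 304) (nat_lit 0) (XT.lf (nat_lit 0) (nat_lit 1813473257) (nat_lit 380) (nat_lit 140042302) (nat_lit 456) (nat_lit 11588474102) (nat_lit 72) (nat_lit 5) (nat_lit 77) (nat_lit 5) (nat_lit 78) (nat_lit 5) (nat_lit 291) (nat_lit 276) (nat_lit 213)) (XT.nd (nat_lit 78) (nat_lit 304) (nat_lit 0) (XT.lf (nat_lit 0) (nat_lit 3751326820) (nat_lit 456) (nat_lit 5014485891) (nat_lit 76) (nat_lit 5145973383) (nat_lit 72) (nat_lit 5) (nat_lit 78) (nat_lit 5) (nat_lit 73) (nat_lit 5) (nat_lit 292) (nat_lit 276) (nat_lit 212)) (XT.lf (nat_lit 0) (nat_lit 2072729400) (nat_lit 304) (nat_lit 3575401019) (nat_lit 380) (nat_lit 8651532314) (nat_lit 68) (nat_lit 5) (nat_lit 72) (nat_lit 5) (nat_lit 73) (nat_lit 5) (nat_lit 293) (nat_lit 276) (nat_lit 211))))) (XT.nd (nat_lit 156) (nat_lit 380) (nat_lit 0) (XT.nd (nat_lit 78) (nat_lit 304) (nat_lit 0) (XT.lf (nat_lit 0) (nat_lit 7730587945) (nat_lit 380)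 (nat_lit 5072340661) (nat_lit 76) (nat_lit 1899507215) (nat_lit 68) (nat_lit 5) (nat_lit 73) (nat_lit 5) (nat_lit 69) (nat_lit 5) (nat_lit 294) (nat_lit 276) (nat_lit 210)) (XT.lf (nat_lit 0) (nat_lit 2433157295) (nat_lit 304) (nat_lit 7557024149) (nat_lit 380) (nat_lit 5131556710) (nat_lit 64) (nat_lit 5) (nat_lit 68) (nat_lit 5) (nat_lit 69) (nat_lit 5) (nat_lit 295) (nat_lit 276) (nat_lit 209))) (XT.nd (nat_lit 78) (nat_lit 380) (nat_lit 0) (XT.lf (nat_lit 0) (nat_lit 10464363685) (nat_lit 304) (nat_lit 1961427569) (nat_lit 380) (nat_lit 3133101798) (nat_lit 64) (nat_lit 5) (nat_lit 68) (nat_lit 5) (nat_lit 69) (nat_lit 5) (nat_lit 296) (nat_lit 276) (nat_lit 208)) (XT.nd (nat_lit 78) (nat_lit 76) (nat_lit 0) (XT.lf (nat_lit 0) (nat_lit 2884923482) (nat_lit 304) (nat_lit 12182588823) (nat_lit 380) (nat_lit 946214263) (nat_lit 60) (nat_lit 5) (nat_lit 64) (nat_lit 5) (nat_lit 65) (nat_lit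 5) (nat_lit 297) (nat_lit 276) (nat_lit 207)) (XT.lf (nat_lit 0) (nat_lit 1405102486) (nat_lit 380) (nat_lit 5127278721) (nat_lit 76) (nat_lit 9952985915) (nat_lit 59) (nat_lit 5) (nat_lit 64) (nat_lit 5) (nat_lit 60) (nat_lit 5) (nat_lit 298) (nat_lit 276) (nat_lit 206)))))) (XT.nd (nat_lit 390) (nat_lit 532) (nat_lit 0) (XT.nd (nat_lit 156) (nat_lit 456) (nat_lit 0) (XT.nd (nat_lit 78) (nat_lit 0) (nat_lit 0) (XT.lf (nat_lit 0) (nat_lit 3341114394) (nat_lit 304) (nat_lit 532708753) (nat_lit 380) (nat_lit 13104441432) (nat_lit 55) (nat_lit 5) (nat_lit 59) (nat_lit 5) (nat_lit 60) (nat_lit 5) (nat_lit 299) (nat_lit 276) (nat_lit 205)) (XT.lf (nat_lit 0) (nat_lit 6624279268) (nat_lit 380) (nat_lit 5197187180) (nat_lit 76) (nat_lit 5666456267) (nat_lit 55) (nat_lit 5) (nat_lit 60) (nat_lit 5) (nat_lit 56) (nat_lit 5) (nat_lit 300) (nat_lit 276) (nat_lit 204))) (XT.nd (nat_lit 78) (nat_lit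 228) (nat_lit 0) (XT.lf (nat_lit 0) (nat_lit 3752137719) (nat_lit 228) (nat_lit 5808391722) (nat_lit 304) (nat_lit 8460150066) (nat_lit 52) (nat_lit 5) (nat_lit 55) (nat_lit 5) (nat_lit 56) (nat_lit 5) (nat_lit 301) (nat_lit 276) (nat_lit 203)) (XT.nd (nat_lit 78) (nat_lit 228) (nat_lit 0) (XT.lf (nat_lit 0) (nat_lit 12722357105) (nat_lit 304) (nat_lit 5280124077) (nat_lit 76) (nat_lit 573682624) (nat_lit 52) (nat_lit 5) (nat_lit 56) (nat_lit 5) (nat_lit 53) (nat_lit 5) (nat_lit 302) (nat_lit 276) (nat_lit 202)) (XT.lf (nat_lit 0) (nat_lit 4172732652) (nat_lit 228) (nat_lit 12012211541) (nat_lit 304) (nat_lit 2967371311) (nat_lit 49) (nat_lit 5) (nat_lit 52) (nat_lit 5) (nat_lit 53) (nat_lit 5) (nat_lit 303) (nat_lit 276) (nat_lit 201))))) (XT.nd (nat_lit 156) (nat_lit 228) (nat_lit 0) (XT.nd (nat_lit 78) (nat_lit 228) (nat_lit 0) (XT.lf (nat_lit 0) (nat_lit 134722904) (nat_lit 304)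 (nat_lit 5497256297) (nat_lit 76) (nat_lit 14121601929) (nat_lit 48) (nat_lit 5) (nat_lit 52) (nat_lit 5) (nat_lit 49) (nat_lit 5) (nat_lit 304) (nat_lit 276) (nat_lit 200)) (XT.lf (nat_lit 0) (nat_lit 3364818774) (nat_lit 304) (nat_lit 15865117412) (nat_lit 76) (nat_lit 1148933543) (nat_lit 45) (nat_lit 5) (nat_lit 49) (nat_lit 5) (nat_lit 46) (nat_lit 5) (nat_lit 305) (nat_lit 276) (nat_lit 199))) (XT.nd (nat_lit 78) (nat_lit 228) (nat_lit 0) (XT.lf (nat_lit 0) (nat_lit 6927043928) (nat_lit 304) (nat_lit 5931261150) (nat_lit 76) (nat_lit 8168608327) (nat_lit 45) (nat_lit 5) (nat_lit 49) (nat_lit 5) (nat_lit 46) (nat_lit 5) (nat_lit 306) (nat_lit 276) (nat_lit 198)) (XT.nd (nat_lit 78) (nat_lit 0) (nat_lit 0) (XT.lf (nat_lit 0) (nat_lit 4625619217) (nat_lit 228) (nat_lit 6098429584) (nat_lit 304) (nat_lit 10980497872) (nat_lit 42) (nat_lit 5) (nat_lit 45) (nat_lit 5) (nat_lit 46) (nat_lit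 5) (nat_lit 307) (nat_lit 276) (nat_lit 197)) (XT.lf (nat_lit 0) (nat_lit 14813362761) (nat_lit 304) (nat_lit 6534073301) (nat_lit 76) (nat_lit 1063522440) (nat_lit 42) (nat_lit 5) (nat_lit 46) (nat_lit 5) (nat_lit 43) (nat_lit 5) (nat_lit 308) (nat_lit 276) (nat_lit 196))))))) (XT.nd (nat_lit 780) (nat_lit 608) (nat_lit 0) (XT.nd (nat_lit 390) (nat_lit 380) (nat_lit 0) (XT.nd (nat_lit 156) (nat_lit 380) (nat_lit 0) (XT.nd (nat_lit 78) (nat_lit 76) (nat_lit 0) (XT.lf (nat_lit 0) (nat_lit 4563099879) (nat_lit 152) (nat_lit 14700744628) (nat_lit 228) (nat_lit 3881030206) (nat_lit 40) (nat_lit 5) (nat_lit 42) (nat_lit 5) (nat_lit 43) (nat_lit 5) (nat_lit 309) (nat_lit 276) (nat_lit 195)) (XT.lf (nat_lit 0) (nat_lit 118755973) (nat_lit 228) (nat_lit 7491273044) (nat_lit 76) (nat_lit 16300554369) (nat_lit 39) (nat_lit 5) (nat_lit 42) (nat_lit 5) (nat_lit 40) (nat_lit 5) (nat_lit 310) (nat_lit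 276) (nat_lit 194))) (XT.nd (nat_lit 78) (nat_lit 152) (nat_lit 0) (XT.lf (nat_lit 0) (nat_lit 4204558145) (nat_lit 228) (nat_lit 35480076) (nat_lit 304) (nat_lit 20468777683) (nat_lit 36) (nat_lit 5) (nat_lit 39) (nat_lit 5) (nat_lit 40) (nat_lit 5) (nat_lit 311) (nat_lit 276) (nat_lit 193)) (XT.nd (nat_lit 78) (nat_lit 152) (nat_lit 0) (XT.lf (nat_lit 0) (nat_lit 8806484282) (nat_lit 304) (nat_lit 8941457034) (nat_lit 76) (nat_lit 7787079290) (nat_lit 36) (nat_lit 5) (nat_lit 40) (nat_lit 5) (nat_lit 37) (nat_lit 5) (nat_lit 312) (nat_lit 276) (nat_lit 192)) (XT.lf (nat_lit 0) (nat_lit 3284598725) (nat_lit 152) (nat_lit 10355691227) (nat_lit 228) (nat_lit 12760308530) (nat_lit 34) (nat_lit 5) (nat_lit 36) (nat_lit 5) (nat_lit 37) (nat_lit 5) (nat_lit 313) (nat_lit 276) (nat_lit 191))))) (XT.nd (nat_lit 156) (nat_lit 228) (nat_lit 0) (XT.nd (nat_lit 78) (nat_lit 152) (nat_lit 0) (XT.lf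 (nat_lit 0) (nat_lit 16413266841) (nat_lit 152) (nat_lit 2441433127) (nat_lit 228) (nat_lit 8447823680) (nat_lit 34) (nat_lit 5) (nat_lit 36) (nat_lit 5) (nat_lit 37) (nat_lit 5) (nat_lit 314) (nat_lit 276) (nat_lit 190)) (XT.lf (nat_lit 0) (nat_lit 1899269039) (nat_lit 152) (nat_lit 22539822546) (nat_lit 228) (nat_lit 3805003860) (nat_lit 32) (nat_lit 5) (nat_lit 34) (nat_lit 5) (nat_lit 35) (nat_lit 5) (nat_lit 315) (nat_lit 276) (nat_lit 189))) (XT.nd (nat_lit 78) (nat_lit 152) (nat_lit 0) (XT.lf (nat_lit 0) (nat_lit 1251236997) (nat_lit 228) (nat_lit 13596828550) (nat_lit 76) (nat_lit 14373080946) (nat_lit 31) (nat_lit 5) (nat_lit 34) (nat_lit 5) (nat_lit 32) (nat_lit 5) (nat_lit 316) (nat_lit 276) (nat_lit 188)) (XT.nd (nat_lit 78) (nat_lit 152) (nat_lit 0) (XT.lf (nat_lit 0) (nat_lit 6421049037) (nat_lit 228) (nat_lit 291734894) (nat_lit 76) (nat_lit 23531727294) (nat_lit 31) (nat_lit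 5) (nat_lit 34) (nat_lit 5) (nat_lit 32) (nat_lit 5) (nat_lit 317) (nat_lit 276) (nat_lit 187)) (XT.lf (nat_lit 0) (nat_lit 12090947267) (nat_lit 228) (nat_lit 17227401479) (nat_lit 76) (nat_lit 1988626717) (nat_lit 29) (nat_lit 5) (nat_lit 32) (nat_lit 5) (nat_lit 30) (nat_lit 5) (nat_lit 318) (nat_lit 276) (nat_lit 186)))))) (XT.nd (nat_lit 390) (nat_lit 304) (nat_lit 0) (XT.nd (nat_lit 156) (nat_lit 152) (nat_lit 0) (XT.nd (nat_lit 78) (nat_lit 152) (nat_lit 0) (XT.lf (nat_lit 0) (nat_lit 18148737353) (nat_lit 228) (nat_lit 3370105760) (nat_lit 76) (nat_lit 10898510474) (nat_lit 29) (nat_lit 5) (nat_lit 32) (nat_lit 5) (nat_lit 30) (nat_lit 5) (nat_lit 319) (nat_lit 276) (nat_lit 185)) (XT.lf (nat_lit 0) (nat_lit 11532755973) (nat_lit 152) (nat_lit 13146557361) (nat_lit 228) (nat_lit 8895452483) (nat_lit 27) (nat_lit 5) (nat_lit 29) (nat_lit 5) (nat_lit 30) (nat_lit 5) (nat_lit 320)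 (nat_lit 276) (nat_lit 184))) (XT.nd (nat_lit 78) (nat_lit 152) (nat_lit 0) (XT.lf (nat_lit 0) (nat_lit 27281609095) (nat_lit 152) (nat_lit 4301952849) (nat_lit 228) (nat_lit 3204139067) (nat_lit 27) (nat_lit 5) (nat_lit 29) (nat_lit 5) (nat_lit 30) (nat_lit 5) (nat_lit 321) (nat_lit 276) (nat_lit 183)) (XT.nd (nat_lit 78) (nat_lit 0) (nat_lit 0) (XT.lf (nat_lit 0) (nat_lit 2878038586) (nat_lit 152) (nat_lit 28181724669) (nat_lit 76) (nat_lit 4989614056) (nat_lit 25) (nat_lit 5) (nat_lit 27) (nat_lit 5) (nat_lit 26) (nat_lit 5) (nat_lit 322) (nat_lit 276) (nat_lit 182)) (XT.lf (nat_lit 0) (nat_lit 9346872881) (nat_lit 152) (nat_lit 13238079330) (nat_lit 76) (nat_lit 14777055722) (nat_lit 25) (nat_lit 5) (nat_lit 27) (nat_lit 5) (nat_lit 26) (nat_lit 5) (nat_lit 323) (nat_lit 276) (nat_lit 181))))) (XT.nd (nat_lit 156) (nat_lit 152) (nat_lit 0) (XT.nd (nat_lit 78) (nat_lit 0) (nat_lit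 0) (XT.lf (nat_lit 0) (nat_lit 2518260477) (nat_lit 152) (nat_lit 13651158663) (nat_lit 228) (nat_lit 22569345285) (nat_lit 23) (nat_lit 5) (nat_lit 25) (nat_lit 5) (nat_lit 26) (nat_lit 5) (nat_lit 324) (nat_lit 276) (nat_lit 180)) (XT.lf (nat_lit 0) (nat_lit 19507168992) (nat_lit 152) (nat_lit 4041269185) (nat_lit 228) (nat_lit 16625160769) (nat_lit 23) (nat_lit 5) (nat_lit 25) (nat_lit 5) (nat_lit 26) (nat_lit 5) (nat_lit 325) (nat_lit 276) (nat_lit 179))) (XT.nd (nat_lit 78) (nat_lit 152) (nat_lit 0) (XT.lf (nat_lit 0) (nat_lit 31382336142) (nat_lit 228) (nat_lit 4443572798) (nat_lit 76) (nat_lit 5849976974) (nat_lit 23) (nat_lit 5) (nat_lit 26) (nat_lit 5) (nat_lit 24) (nat_lit 4) (nat_lit 326) (nat_lit 276) (nat_lit 178)) (XT.nd (nat_lit 78) (nat_lit 76) (nat_lit 0) (XT.lf (nat_lit 0) (nat_lit 12924039343) (nat_lit 76) (nat_lit 26943810301) (nat_lit 152) (nat_lit 3372448338) (nat_lit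 22) (nat_lit 5) (nat_lit 23) (nat_lit 5) (nat_lit 24) (nat_lit 4) (nat_lit 327) (nat_lit 276) (nat_lit 177)) (XT.lf (nat_lit 0) (nat_lit 3838468822) (nat_lit 152) (nat_lit 13640744226) (nat_lit 76) (nat_lit 27397262609) (nat_lit 21) (nat_lit 5) (nat_lit 23) (nat_lit 5) (nat_lit 22) (nat_lit 5) (nat_lit 328) (nat_lit 276) (nat_lit 176))))))))
noncomputable def xc154 : XT := (XT.nd (nat_lit 1560) (nat_lit 380) (nat_lit 0) (XT.nd (nat_lit 780) (nat_lit 304) (nat_lit 0) (XT.nd (nat_lit 390) (nat_lit 304) (nat_lit 0) (XT.nd (nat_lit 156) (nat_lit 76) (nat_lit 0) (XT.nd (nat_lit 78) (nat_lit 0) (nat_lit 0) (XT.lf (nat_lit 0) (nat_lit 3925728458) (nat_lit 152) (nat_lit 7424470923) (nat_lit 228) (nat_lit 35238824195) (nat_lit 19) (nat_lit 5) (nat_lit 21) (nat_lit 5) (nat_lit 22) (nat_lit 5) (nat_lit 329) (nat_lit 276) (nat_lit 175)) (XT.lf (nat_lit 0) (nat_lit 19513622162) (nat_lit 228) (nat_lit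 25597513256) (nat_lit 76) (nat_lit 3262263768) (nat_lit 19) (nat_lit 5) (nat_lit 22) (nat_lit 5) (nat_lit 20) (nat_lit 4) (nat_lit 330) (nat_lit 276) (nat_lit 174))) (XT.nd (nat_lit 78) (nat_lit 76) (nat_lit 0) (XT.lf (nat_lit 0) (nat_lit 28199682013) (nat_lit 228) (nat_lit 7812786822) (nat_lit 76) (nat_lit 14228806760) (nat_lit 19) (nat_lit 5) (nat_lit 22) (nat_lit 5) (nat_lit 20) (nat_lit 4) (nat_lit 331) (nat_lit 276) (nat_lit 173)) (XT.nd (nat_lit 78) (nat_lit 0) (nat_lit 0) (XT.lf (nat_lit 0) (nat_lit 11207867315) (nat_lit 76) (nat_lit 26280262133) (nat_lit 152) (nat_lit 14706017207) (nat_lit 18) (nat_lit 5) (nat_lit 19) (nat_lit 5) (nat_lit 20) (nat_lit 4) (nat_lit 332) (nat_lit 276) (nat_lit 172)) (XT.lf (nat_lit 0) (nat_lit 31438960151) (nat_lit 76) (nat_lit 15927594655) (nat_lit 152) (nat_lit 6871833505) (nat_lit 18) (nat_lit 5) (nat_lit 19) (nat_lit 5) (nat_lit 20) (nat_lit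 4) (nat_lit 333) (nat_lit 276) (nat_lit 171))))) (XT.nd (nat_lit 156) (nat_lit 76) (nat_lit 0) (XT.nd (nat_lit 78) (nat_lit 152) (nat_lit 0) (XT.lf (nat_lit 0) (nat_lit 1304175097) (nat_lit 152) (nat_lit 3735868585) (nat_lit 76) (nat_lit 51344073001) (nat_lit 17) (nat_lit 5) (nat_lit 19) (nat_lit 5) (nat_lit 18) (nat_lit 5) (nat_lit 334) (nat_lit 276) (nat_lit 170)) (XT.lf (nat_lit 0) (nat_lit 10018252959) (nat_lit 228) (nat_lit 42033123158) (nat_lit 76) (nat_lit 6562116496) (nat_lit 15) (nat_lit 5) (nat_lit 18) (nat_lit 5) (nat_lit 16) (nat_lit 4) (nat_lit 335) (nat_lit 276) (nat_lit 169))) (XT.nd (nat_lit 78) (nat_lit 76) (nat_lit 0) (XT.lf (nat_lit 0) (nat_lit 19308786002) (nat_lit 228) (nat_lit 23003720503) (nat_lit 76) (nat_lit 18634797235) (nat_lit 15) (nat_lit 5) (nat_lit 18) (nat_lit 5) (nat_lit 16) (nat_lit 4) (nat_lit 336) (nat_lit 276) (nat_lit 168)) (XT.nd (nat_lit 78) (nat_lit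 76) (nat_lit 0) (XT.lf (nat_lit 0) (nat_lit 29057961589) (nat_lit 228) (nat_lit 3033329678) (nat_lit 76) (nat_lit 31306812140) (nat_lit 15) (nat_lit 5) (nat_lit 18) (nat_lit 5) (nat_lit 16) (nat_lit 4) (nat_lit 337) (nat_lit 276) (nat_lit 167)) (XT.lf (nat_lit 0) (nat_lit 18518299086) (nat_lit 76) (nat_lit 21059815501) (nat_lit 152) (nat_lit 26379156134) (nat_lit 14) (nat_lit 5) (nat_lit 15) (nat_lit 5) (nat_lit 16) (nat_lit 4) (nat_lit 338) (nat_lit 276) (nat_lit 166)))))) (XT.nd (nat_lit 390) (nat_lit 152) (nat_lit 0) (XT.nd (nat_lit 156) (nat_lit 152) (nat_lit 0) (XT.nd (nat_lit 78) (nat_lit 0) (nat_lit 0) (XT.lf (nat_lit 0) (nat_lit 41242997838) (nat_lit 76) (nat_lit 9427157897) (nat_lit 152) (nat_lit 17971950066) (nat_lit 14) (nat_lit 5) (nat_lit 15) (nat_lit 5) (nat_lit 16) (nat_lit 4) (nat_lit 339) (nat_lit 276) (nat_lit 165)) (XT.lf (nat_lit 0) (nat_lit 62355020529) (nat_lit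 152) (nat_lit 6410320467) (nat_lit 0) (nat_lit 2693933822) (nat_lit 14) (nat_lit 5) (nat_lit 16) (nat_lit 4) (nat_lit 14) (nat_lit 4) (nat_lit 340) (nat_lit 276) (nat_lit 164))) (XT.nd (nat_lit 78) (nat_lit 0) (nat_lit 0) (XT.lf (nat_lit 0) (nat_lit 605669179) (nat_lit 152) (nat_lit 58431546177) (nat_lit 76) (nat_lit 15359655300) (nat_lit 12) (nat_lit 5) (nat_lit 14) (nat_lit 5) (nat_lit 13) (nat_lit 4) (nat_lit 341) (nat_lit 276) (nat_lit 163)) (XT.nd (nat_lit 78) (nat_lit 0) (nat_lit 0) (XT.lf (nat_lit 0) (nat_lit 10600442883) (nat_lit 152) (nat_lit 37953766074) (nat_lit 76) (nat_lit 28914411809) (nat_lit 12) (nat_lit 5) (nat_lit 14) (nat_lit 5) (nat_lit 13) (nat_lit 4) (nat_lit 342) (nat_lit 276) (nat_lit 162)) (XT.lf (nat_lit 0) (nat_lit 21090169675) (nat_lit 152) (nat_lit 16460784236) (nat_lit 76) (nat_lit 43143246433) (nat_lit 12) (nat_lit 5) (nat_lit 14) (nat_lit 5) (nat_lit 13)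 (nat_lit 4) (nat_lit 343) (nat_lit 276) (nat_lit 161))))) (XT.nd (nat_lit 156) (nat_lit 76) (nat_lit 0) (XT.nd (nat_lit 78) (nat_lit 0) (nat_lit 0) (XT.lf (nat_lit 0) (nat_lit 6300219469) (nat_lit 76) (nat_lit 25897969706) (nat_lit 152) (nat_lit 51878181964) (nat_lit 11) (nat_lit 5) (nat_lit 12) (nat_lit 5) (nat_lit 13) (nat_lit 4) (nat_lit 344) (nat_lit 276) (nat_lit 160)) (XT.lf (nat_lit 0) (nat_lit 30762614474) (nat_lit 76) (nat_lit 13373298756) (nat_lit 152) (nat_lit 43478024500) (nat_lit 11) (nat_lit 5) (nat_lit 12) (nat_lit 5) (nat_lit 13) (nat_lit 4) (nat_lit 345) (nat_lit 276) (nat_lit 159))) (XT.nd (nat_lit 78) (nat_lit 76) (nat_lit 0) (XT.lf (nat_lit 0) (nat_lit 56440376709) (nat_lit 76) (nat_lit 225891761) (nat_lit 152) (nat_lit 34662329250) (nat_lit 11) (nat_lit 5) (nat_lit 12) (nat_lit 5) (nat_lit 13) (nat_lit 4) (nat_lit 346) (nat_lit 276) (nat_lit 158)) (XT.nd (nat_lit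 78) (nat_lit 76) (nat_lit 0) (XT.lf (nat_lit 0) (nat_lit 70031041527) (nat_lit 152) (nat_lit 12046504287) (nat_lit 0) (nat_lit 13141052099) (nat_lit 11) (nat_lit 5) (nat_lit 13) (nat_lit 4) (nat_lit 11) (nat_lit 4) (nat_lit 347) (nat_lit 276) (nat_lit 157)) (XT.lf (nat_lit 0) (nat_lit 12320759053) (nat_lit 76) (nat_lit 71935449949) (nat_lit 76) (nat_lit 15037283429) (nat_lit 10) (nat_lit 4) (nat_lit 11) (nat_lit 5) (nat_lit 11) (nat_lit 4) (nat_lit 348) (nat_lit 276) (nat_lit 156))))))) (XT.nd (nat_lit 780) (nat_lit 152) (nat_lit 0) (XT.nd (nat_lit 390) (nat_lit 76) (nat_lit 0) (XT.nd (nat_lit 156) (nat_lit 76) (nat_lit 0) (XT.nd (nat_lit 78) (nat_lit 76) (nat_lit 0) (XT.lf (nat_lit 0) (nat_lit 38317551441) (nat_lit 76) (nat_lit 61075263724) (nat_lit 76) (nat_lit 4169309497) (nat_lit 10) (nat_lit 4) (nat_lit 11) (nat_lit 5) (nat_lit 11) (nat_lit 4) (nat_lit 349) (nat_lit 276) (nat_lit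 155)) (XT.lf (nat_lit 0) (nat_lit 7006559653) (nat_lit 152) (nat_lit 42549923800) (nat_lit 76) (nat_lit 58482239035) (nat_lit 9) (nat_lit 5) (nat_lit 11) (nat_lit 5) (nat_lit 10) (nat_lit 4) (nat_lit 350) (nat_lit 276) (nat_lit 154))) (XT.nd (nat_lit 78) (nat_lit 76) (nat_lit 0) (XT.lf (nat_lit 0) (nat_lit 18597570666) (nat_lit 152) (nat_lit 18795414903) (nat_lit 76) (nat_lit 75342925672) (nat_lit 9) (nat_lit 5) (nat_lit 11) (nat_lit 5) (nat_lit 10) (nat_lit 4) (nat_lit 351) (nat_lit 276) (nat_lit 153)) (XT.nd (nat_lit 78) (nat_lit 0) (nat_lit 0) (XT.lf (nat_lit 0) (nat_lit 6343642610) (nat_lit 76) (nat_lit 24520164557) (nat_lit 152) (nat_lit 86799370166) (nat_lit 8) (nat_lit 5) (nat_lit 9) (nat_lit 5) (nat_lit 10) (nat_lit 4) (nat_lit 352) (nat_lit 276) (nat_lit 152)) (XT.lf (nat_lit 0) (nat_lit 33386074565) (nat_lit 76) (nat_lit 10672288173) (nat_lit 152) (nat_lit 78762695198) (nat_lit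 8) (nat_lit 5) (nat_lit 9) (nat_lit 5) (nat_lit 10) (nat_lit 4) (nat_lit 353) (nat_lit 276) (nat_lit 151))))) (XT.nd (nat_lit 156) (nat_lit 76) (nat_lit 0) (XT.nd (nat_lit 78) (nat_lit 0) (nat_lit 0) (XT.lf (nat_lit 0) (nat_lit 57969849382) (nat_lit 152) (nat_lit 66522533155) (nat_lit 0) (nat_lit 3741591362) (nat_lit 8) (nat_lit 5) (nat_lit 10) (nat_lit 4) (nat_lit 8) (nat_lit 4) (nat_lit 354) (nat_lit 276) (nat_lit 150)) (XT.lf (nat_lit 0) (nat_lit 72748830906) (nat_lit 152) (nat_lit 42645071842) (nat_lit 0) (nat_lit 18515038308) (nat_lit 8) (nat_lit 5) (nat_lit 10) (nat_lit 4) (nat_lit 8) (nat_lit 4) (nat_lit 355) (nat_lit 276) (nat_lit 149))) (XT.nd (nat_lit 78) (nat_lit 76) (nat_lit 0) (XT.lf (nat_lit 0) (nat_lit 88263871034) (nat_lit 152) (nat_lit 17579124006) (nat_lit 0) (nat_lit 34024807410) (nat_lit 8) (nat_lit 5) (nat_lit 10) (nat_lit 4) (nat_lit 8) (nat_lit 4) (nat_lit 356)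 (nat_lit 276) (nat_lit 148)) (XT.nd (nat_lit 78) (nat_lit 0) (nat_lit 0) (XT.lf (nat_lit 0) (nat_lit 9023809436) (nat_lit 76) (nat_lit 95668987856) (nat_lit 76) (nat_lit 41424904207) (nat_lit 7) (nat_lit 4) (nat_lit 8) (nat_lit 5) (nat_lit 8) (nat_lit 4) (nat_lit 357) (nat_lit 276) (nat_lit 147)) (XT.lf (nat_lit 0) (nat_lit 37562149744) (nat_lit 76) (nat_lit 84676030545) (nat_lit 76) (nat_lit 30427165919) (nat_lit 7) (nat_lit 4) (nat_lit 8) (nat_lit 5) (nat_lit 8) (nat_lit 4) (nat_lit 358) (nat_lit 276) (nat_lit 146)))))) (XT.nd (nat_lit 390) (nat_lit 0) (nat_lit 0) (XT.nd (nat_lit 156) (nat_lit 152) (nat_lit 0) (XT.nd (nat_lit 78) (nat_lit 0) (nat_lit 0) (XT.lf (nat_lit 0) (nat_lit 67522600116) (nat_lit 76) (nat_lit 73135660371) (nat_lit 76) (nat_lit 18882242434) (nat_lit 7) (nat_lit 4) (nat_lit 8) (nat_lit 5) (nat_lit 8) (nat_lit 4) (nat_lit 359) (nat_lit 276) (nat_lit 145)) (XT.lf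 (nat_lit 0) (nat_lit 98976494959) (nat_lit 76) (nat_lit 61020400262) (nat_lit 76) (nat_lit 6762645839) (nat_lit 7) (nat_lit 4) (nat_lit 8) (nat_lit 5) (nat_lit 8) (nat_lit 4) (nat_lit 360) (nat_lit 276) (nat_lit 144))) (XT.nd (nat_lit 78) (nat_lit 76) (nat_lit 0) (XT.lf (nat_lit 0) (nat_lit 5769707463) (nat_lit 152) (nat_lit 42433984109) (nat_lit 76) (nat_lit 126131304246) (nat_lit 6) (nat_lit 5) (nat_lit 8) (nat_lit 5) (nat_lit 7) (nat_lit 4) (nat_lit 361) (nat_lit 276) (nat_lit 143)) (XT.nd (nat_lit 78) (nat_lit 76) (nat_lit 0) (XT.lf (nat_lit 0) (nat_lit 18699150039) (nat_lit 152) (nat_lit 15932560149) (nat_lit 76) (nat_lit 147652083894) (nat_lit 6) (nat_lit 5) (nat_lit 8) (nat_lit 5) (nat_lit 7) (nat_lit 4) (nat_lit 362) (nat_lit 276) (nat_lit 142)) (XT.lf (nat_lit 0) (nat_lit 12283042323) (nat_lit 76) (nat_lit 20181643566) (nat_lit 152) (nat_lit 158155866232) (nat_lit 5) (nat_lit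 5) (nat_lit 6) (nat_lit 5) (nat_lit 7) (nat_lit 4) (nat_lit 363) (nat_lit 276) (nat_lit 141))))) (XT.nd (nat_lit 156) (nat_lit 0) (nat_lit 0) (XT.nd (nat_lit 78) (nat_lit 0) (nat_lit 0) (XT.lf (nat_lit 0) (nat_lit 42458605630) (nat_lit 76) (nat_lit 4727607550) (nat_lit 152) (nat_lit 152174550023) (nat_lit 5) (nat_lit 5) (nat_lit 6) (nat_lit 5) (nat_lit 7) (nat_lit 4) (nat_lit 364) (nat_lit 276) (nat_lit 140)) (XT.lf (nat_lit 0) (nat_lit 62821312518) (nat_lit 152) (nat_lit 134578418364) (nat_lit 0) (nat_lit 11129380004) (nat_lit 5) (nat_lit 5) (nat_lit 7) (nat_lit 4) (nat_lit 5) (nat_lit 4) (nat_lit 365) (nat_lit 276) (nat_lit 139))) (XT.nd (nat_lit 78) (nat_lit 0) (nat_lit 0) (XT.lf (nat_lit 0) (nat_lit 79313727667) (nat_lit 152) (nat_lit 111219657745) (nat_lit 0) (nat_lit 27618713292) (nat_lit 5) (nat_lit 5) (nat_lit 7) (nat_lit 4) (nat_lit 5) (nat_lit 4) (nat_lit 366) (nat_lit 276)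 (nat_lit 138)) (XT.nd (nat_lit 78) (nat_lit 0) (nat_lit 0) (XT.lf (nat_lit 0) (nat_lit 96628915077) (nat_lit 152) (nat_lit 86696448417) (nat_lit 0) (nat_lit 44930965598) (nat_lit 5) (nat_lit 5) (nat_lit 7) (nat_lit 4) (nat_lit 5) (nat_lit 4) (nat_lit 367) (nat_lit 276) (nat_lit 137)) (XT.lf (nat_lit 0) (nat_lit 114808101387) (nat_lit 152) (nat_lit 60950401787) (nat_lit 0) (nat_lit 63107356570) (nat_lit 5) (nat_lit 5) (nat_lit 7) (nat_lit 4) (nat_lit 5) (nat_lit 4) (nat_lit 368) (nat_lit 276) (nat_lit 136))))))))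
noncomputable def xc155 : XT := (XT.nd (nat_lit 33696) (nat_lit 0) (nat_lit 4028) (XT.nd (nat_lit 780) (nat_lit 152) (nat_lit 0) (XT.nd (nat_lit 390) (nat_lit 0) (nat_lit 0) (XT.nd (nat_lit 156) (nat_lit 76) (nat_lit 0) (XT.nd (nat_lit 78) (nat_lit 0) (nat_lit 0) (XT.lf (nat_lit 0) (nat_lit 133894570372) (nat_lit 152) (nat_lit 33920217743) (nat_lit 0) (nat_lit 82191163328) (nat_lit 5) (nat_lit 5) (nat_lit 7) (nat_lit 4) (nat_lit 5) (nat_lit 4) (nat_lit 369) (nat_lit 276) (nat_lit 135)) (XT.lf (nat_lit 0) (nat_lit 153933766007) (nat_lit 152) (nat_lit 5541538704) (nat_lit 0) (nat_lit 102227823509) (nat_lit 5) (nat_lit 5) (nat_lit 7) (nat_lit 4) (nat_lit 5) (nat_lit 4) (nat_lit 370) (nat_lit 276) (nat_lit 134))) (XT.nd (nat_lit 78) (nat_lit 0) (nat_lit 0) (XT.lf (nat_lit 0) (nat_lit 25055124053) (nat_lit 76) (nat_lit 150309457311) (nat_lit 76) (nat_lit 98601100095) (nat_lit 4) (nat_lit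 4) (nat_lit 5) (nat_lit 5) (nat_lit 5) (nat_lit 4) (nat_lit 371) (nat_lit 276) (nat_lit 133)) (XT.nd (nat_lit 78) (nat_lit 0) (nat_lit 0) (XT.lf (nat_lit 0) (nat_lit 57371185288) (nat_lit 76) (nat_lit 140588108401) (nat_lit 76) (nat_lit 88877451454) (nat_lit 4) (nat_lit 4) (nat_lit 5) (nat_lit 5) (nat_lit 5) (nat_lit 4) (nat_lit 372) (nat_lit 276) (nat_lit 132)) (XT.lf (nat_lit 0) (nat_lit 91300359706) (nat_lit 76) (nat_lit 130381960551) (nat_lit 76) (nat_lit 78669113384) (nat_lit 4) (nat_lit 4) (nat_lit 5) (nat_lit 5) (nat_lit 5) (nat_lit 4) (nat_lit 373) (nat_lit 276) (nat_lit 131))))) (XT.nd (nat_lit 156) (nat_lit 0) (nat_lit 0) (XT.nd (nat_lit 78) (nat_lit 0) (nat_lit 0) (XT.lf (nat_lit 0) (nat_lit 126923431056) (nat_lit 76) (nat_lit 119666713411) (nat_lit 76) (nat_lit 67951780320) (nat_lit 4) (nat_lit 4) (nat_lit 5) (nat_lit 5) (nat_lit 5) (nat_lit 4) (nat_lit 374) (nat_lit 276)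 (nat_lit 130)) (XT.lf (nat_lit 0) (nat_lit 164325216173) (nat_lit 76) (nat_lit 108416854487) (nat_lit 76) (nat_lit 56699934801) (nat_lit 4) (nat_lit 4) (nat_lit 5) (nat_lit 5) (nat_lit 5) (nat_lit 4) (nat_lit 375) (nat_lit 276) (nat_lit 129))) (XT.nd (nat_lit 78) (nat_lit 0) (nat_lit 0) (XT.lf (nat_lit 0) (nat_lit 203594766928) (nat_lit 76) (nat_lit 96605598400) (nat_lit 76) (nat_lit 44886786719) (nat_lit 4) (nat_lit 4) (nat_lit 5) (nat_lit 5) (nat_lit 5) (nat_lit 4) (nat_lit 376) (nat_lit 276) (nat_lit 128)) (XT.nd (nat_lit 78) (nat_lit 0) (nat_lit 0) (XT.lf (nat_lit 0) (nat_lit 244825582252) (nat_lit 76) (nat_lit 84204823112) (nat_lit 76) (nat_lit 32484209531) (nat_lit 4) (nat_lit 4) (nat_lit 5) (nat_lit 5) (nat_lit 5) (nat_lit 4) (nat_lit 377) (nat_lit 276) (nat_lit 127)) (XT.lf (nat_lit 0) (nat_lit 288115830751) (nat_lit 76) (nat_lit 71185002967) (nat_lit 76) (nat_lit 19462673292)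 (nat_lit 4) (nat_lit 4) (nat_lit 5) (nat_lit 5) (nat_lit 5) (nat_lit 4) (nat_lit 378) (nat_lit 276) (nat_lit 126)))))) (XT.nd (nat_lit 390) (nat_lit 0) (nat_lit 0) (XT.nd (nat_lit 156) (nat_lit 76) (nat_lit 0) (XT.nd (nat_lit 78) (nat_lit 76) (nat_lit 0) (XT.lf (nat_lit 0) (nat_lit 333568584446) (nat_lit 76) (nat_lit 57515138395) (nat_lit 76) (nat_lit 5791174343) (nat_lit 4) (nat_lit 4) (nat_lit 5) (nat_lit 5) (nat_lit 5) (nat_lit 4) (nat_lit 379) (nat_lit 276) (nat_lit 125)) (XT.lf (nat_lit 0) (nat_lit 8288774194) (nat_lit 152) (nat_lit 34733533501) (nat_lit 76) (nat_lit 372862915583) (nat_lit 3) (nat_lit 5) (nat_lit 5) (nat_lit 5) (nat_lit 4) (nat_lit 4) (nat_lit 380) (nat_lit 276) (nat_lit 124))) (XT.nd (nat_lit 78) (nat_lit 76) (nat_lit 0) (XT.lf (nat_lit 0) (nat_lit 22877120545) (nat_lit 152) (nat_lit 4828905909) (nat_lit 76) (nat_lit 408135341631) (nat_lit 3) (nat_lit 5) (nat_lit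 5) (nat_lit 5) (nat_lit 4) (nat_lit 4) (nat_lit 381) (nat_lit 276) (nat_lit 123)) (XT.nd (nat_lit 78) (nat_lit 0) (nat_lit 0) (XT.lf (nat_lit 0) (nat_lit 27447685339) (nat_lit 76) (nat_lit 11174802564) (nat_lit 152) (nat_lit 418151452391) (nat_lit 2) (nat_lit 5) (nat_lit 3) (nat_lit 5) (nat_lit 4) (nat_lit 4) (nat_lit 382) (nat_lit 276) (nat_lit 122)) (XT.lf (nat_lit 0) (nat_lit 55333850636) (nat_lit 152) (nat_lit 417342941409) (nat_lit 0) (nat_lit 6067413047) (nat_lit 2) (nat_lit 5) (nat_lit 4) (nat_lit 4) (nat_lit 2) (nat_lit 4) (nat_lit 383) (nat_lit 276) (nat_lit 121))))) (XT.nd (nat_lit 32292) (nat_lit 0) (nat_lit 7372) (XT.nd (nat_lit 78) (nat_lit 0) (nat_lit 0) (XT.lf (nat_lit 0) (nat_lit 73063091953) (nat_lit 152) (nat_lit 404945341202) (nat_lit 0) (nat_lit 23795434767) (nat_lit 2) (nat_lit 5) (nat_lit 4) (nat_lit 4) (nat_lit 2) (nat_lit 4) (nat_lit 384) (nat_lit 276) (nat_lit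 120)) (XT.lf (nat_lit 0) (nat_lit 91677954347) (nat_lit 152) (nat_lit 391929466253) (nat_lit 0) (nat_lit 42409135641) (nat_lit 2) (nat_lit 5) (nat_lit 4) (nat_lit 4) (nat_lit 2) (nat_lit 4) (nat_lit 385) (nat_lit 276) (nat_lit 119))) (XT.nd (nat_lit 78) (nat_lit 0) (nat_lit 0) (XT.lf (nat_lit 0) (nat_lit 4031125402) (nat_lit 684) (nat_lit 451046177) (nat_lit 684) (nat_lit 451046177) (nat_lit 99) (nat_lit 3) (nat_lit 108) (nat_lit 3) (nat_lit 108) (nat_lit 5) (nat_lit 277) (nat_lit 277) (nat_lit 226)) (XT.nd (nat_lit 78) (nat_lit 0) (nat_lit 0) (XT.lf (nat_lit 76) (nat_lit 3721764642) (nat_lit 0) (nat_lit 5273562660) (nat_lit 684) (nat_lit 1079716306) (nat_lit 100) (nat_lit 5) (nat_lit 99) (nat_lit 3) (nat_lit 108) (nat_lit 5) (nat_lit 278) (nat_lit 277) (nat_lit 225)) (XT.lf (nat_lit 76) (nat_lit 8584704890) (nat_lit 0) (nat_lit 1362157477) (nat_lit 684) (nat_lit 348724032) (nat_lit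 100) (nat_lit 5) (nat_lit 99) (nat_lit 3) (nat_lit 108) (nat_lit 5) (nat_lit 279) (nat_lit 277) (nat_lit 224))))))) (XT.nd (nat_lit 780) (nat_lit 2280) (nat_lit 0) (XT.nd (nat_lit 390) (nat_lit 456) (nat_lit 0) (XT.nd (nat_lit 156) (nat_lit 0) (nat_lit 76) (XT.nd (nat_lit 78) (nat_lit 0) (nat_lit 0) (XT.lf (nat_lit 0) (nat_lit 457858725) (nat_lit 684) (nat_lit 7333668075) (nat_lit 760) (nat_lit 2732766046) (nat_lit 91) (nat_lit 5) (nat_lit 100) (nat_lit 5) (nat_lit 101) (nat_lit 5) (nat_lit 280) (nat_lit 277) (nat_lit 223)) (XT.lf (nat_lit 0) (nat_lit 1304572661) (nat_lit 684) (nat_lit 2420687853) (nat_lit 760) (nat_lit 7038393849) (nat_lit 91) (nat_lit 5) (nat_lit 100) (nat_lit 5) (nat_lit 101) (nat_lit 5) (nat_lit 281) (nat_lit 277) (nat_lit 222))) (XT.nd (nat_lit 78) (nat_lit 0) (nat_lit 0) (XT.lf (nat_lit 0) (nat_lit 2208476072) (nat_lit 684) (nat_lit 8221119702) (nat_lit 760) (nat_lit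 584723267) (nat_lit 92) (nat_lit 5) (nat_lit 101) (nat_lit 5) (nat_lit 102) (nat_lit 5) (nat_lit 282) (nat_lit 277) (nat_lit 221)) (XT.nd (nat_lit 78) (nat_lit 0) (nat_lit 0) (XT.lf (nat_lit 0) (nat_lit 3223617928) (nat_lit 684) (nat_lit 3011665048) (nat_lit 760) (nat_lit 5039005881) (nat_lit 92) (nat_lit 5) (nat_lit 101) (nat_lit 5) (nat_lit 102) (nat_lit 5) (nat_lit 283) (nat_lit 277) (nat_lit 220)) (XT.lf (nat_lit 76) (nat_lit 2513689750) (nat_lit 0) (nat_lit 1780126062) (nat_lit 760) (nat_lit 7253296946) (nat_lit 93) (nat_lit 5) (nat_lit 92) (nat_lit 5) (nat_lit 102) (nat_lit 5) (nat_lit 284) (nat_lit 277) (nat_lit 219))))) (XT.nd (nat_lit 156) (nat_lit 608) (nat_lit 0) (XT.nd (nat_lit 78) (nat_lit 0) (nat_lit 0) (XT.lf (nat_lit 0) (nat_lit 5481080436) (nat_lit 684) (nat_lit 3483750344) (nat_lit 760) (nat_lit 2865636415) (nat_lit 93) (nat_lit 5) (nat_lit 102) (nat_lit 5) (nat_lit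 103) (nat_lit 5) (nat_lit 285) (nat_lit 277) (nat_lit 218)) (XT.lf (nat_lit 76) (nat_lit 2364655438) (nat_lit 0) (nat_lit 4397224722) (nat_lit 760) (nat_lit 5364464585) (nat_lit 94) (nat_lit 5) (nat_lit 93) (nat_lit 5) (nat_lit 103) (nat_lit 5) (nat_lit 286) (nat_lit 277) (nat_lit 217))) (XT.nd (nat_lit 78) (nat_lit 684) (nat_lit 0) (XT.lf (nat_lit 0) (nat_lit 8142207916) (nat_lit 684) (nat_lit 3841368034) (nat_lit 76) (nat_lit 451726755) (nat_lit 94) (nat_lit 5) (nat_lit 103) (nat_lit 5) (nat_lit 95) (nat_lit 5) (nat_lit 287) (nat_lit 277) (nat_lit 216)) (XT.nd (nat_lit 78) (nat_lit 0) (nat_lit 0) (XT.lf (nat_lit 0) (nat_lit 2352917136) (nat_lit 684) (nat_lit 7318214362) (nat_lit 760) (nat_lit 3084656128) (nat_lit 85) (nat_lit 5) (nat_lit 94) (nat_lit 5) (nat_lit 95) (nat_lit 5) (nat_lit 288) (nat_lit 277) (nat_lit 215)) (XT.lf (nat_lit 0) (nat_lit 8965413286) (nat_lit 684) (nat_lit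 2347905783) (nat_lit 760) (nat_lit 1777192105) (nat_lit 85) (nat_lit 5) (nat_lit 94) (nat_lit 5) (nat_lit 95) (nat_lit 5) (nat_lit 289) (nat_lit 277) (nat_lit 214)))))) (XT.nd (nat_lit 390) (nat_lit 988) (nat_lit 0) (XT.nd (nat_lit 156) (nat_lit 684) (nat_lit 0) (XT.nd (nat_lit 78) (nat_lit 76) (nat_lit 0) (XT.lf (nat_lit 0) (nat_lit 2475852843) (nat_lit 532) (nat_lit 10618398409) (nat_lit 608) (nat_lit 344940526) (nat_lit 78) (nat_lit 5) (nat_lit 85) (nat_lit 5) (nat_lit 86) (nat_lit 5) (nat_lit 290) (nat_lit 277) (nat_lit 213)) (XT.lf (nat_lit 0) (nat_lit 1204902289) (nat_lit 608) (nat_lit 4335124058) (nat_lit 76) (nat_lit 8260269535) (nat_lit 77) (nat_lit 5) (nat_lit 85) (nat_lit 5) (nat_lit 78) (nat_lit 5) (nat_lit 291) (nat_lit 277) (nat_lit 212))) (XT.nd (nat_lit 78) (nat_lit 304) (nat_lit 0) (XT.lf (nat_lit 0) (nat_lit 2680205043) (nat_lit 380) (nat_lit 157119175) (nat_lit 456)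 (nat_lit 11341059745) (nat_lit 72) (nat_lit 5) (nat_lit 77) (nat_lit 5) (nat_lit 78) (nat_lit 5) (nat_lit 292) (nat_lit 277) (nat_lit 211)) (XT.nd (nat_lit 78) (nat_lit 304) (nat_lit 0) (XT.lf (nat_lit 0) (nat_lit 4687441338) (nat_lit 456) (nat_lit 4487190568) (nat_lit 76) (nat_lit 5393984145) (nat_lit 72) (nat_lit 5) (nat_lit 78) (nat_lit 5) (nat_lit 73) (nat_lit 5) (nat_lit 293) (nat_lit 277) (nat_lit 210)) (XT.lf (nat_lit 0) (nat_lit 2941836784) (nat_lit 304) (nat_lit 3713554327) (nat_lit 380) (nat_lit 8321743535) (nat_lit 68) (nat_lit 5) (nat_lit 72) (nat_lit 5) (nat_lit 73) (nat_lit 5) (nat_lit 294) (nat_lit 277) (nat_lit 209))))) (XT.nd (nat_lit 234) (nat_lit 684) (nat_lit 0) (XT.nd (nat_lit 78) (nat_lit 304) (nat_lit 0) (XT.lf (nat_lit 0) (nat_lit 8808058593) (nat_lit 380) (nat_lit 4561816747) (nat_lit 76) (nat_lit 2031927102) (nat_lit 68) (nat_lit 5) (nat_lit 73) (nat_lit 5)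 (nat_lit 69) (nat_lit 5) (nat_lit 295) (nat_lit 277) (nat_lit 208)) (XT.nd (nat_lit 78) (nat_lit 0) (nat_lit 0) (XT.lf (nat_lit 0) (nat_lit 3306631254) (nat_lit 304) (nat_lit 7852836506) (nat_lit 380) (nat_lit 4683717861) (nat_lit 64) (nat_lit 5) (nat_lit 68) (nat_lit 5) (nat_lit 69) (nat_lit 5) (nat_lit 296) (nat_lit 277) (nat_lit 207)) (XT.lf (nat_lit 0) (nat_lit 11703597197) (nat_lit 304) (nat_lit 1981366709) (nat_lit 380) (nat_lit 2618883856) (nat_lit 64) (nat_lit 5) (nat_lit 68) (nat_lit 5) (nat_lit 69) (nat_lit 5) (nat_lit 297) (nat_lit 277) (nat_lit 206)))) (XT.nd (nat_lit 78) (nat_lit 380) (nat_lit 0) (XT.lf (nat_lit 0) (nat_lit 3764894009) (nat_lit 304) (nat_lit 12676150108) (nat_lit 380) (nat_lit 341317361) (nat_lit 60) (nat_lit 5) (nat_lit 64) (nat_lit 5) (nat_lit 65) (nat_lit 5) (nat_lit 298) (nat_lit 277) (nat_lit 205)) (XT.nd (nat_lit 78) (nat_lit 304) (nat_lit 0) (XT.lf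 (nat_lit 0) (nat_lit 2076627038) (nat_lit 380) (nat_lit 4662125529) (nat_lit 76) (nat_lit 10539872855) (nat_lit 59) (nat_lit 5) (nat_lit 64) (nat_lit 5) (nat_lit 60) (nat_lit 5) (nat_lit 299) (nat_lit 277) (nat_lit 204)) (XT.lf (nat_lit 0) (nat_lit 4218049868) (nat_lit 304) (nat_lit 433185199) (nat_lit 380) (nat_lit 13145855194) (nat_lit 55) (nat_lit 5) (nat_lit 59) (nat_lit 5) (nat_lit 60) (nat_lit 5) (nat_lit 300) (nat_lit 277) (nat_lit 203))))))))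
noncomputable def xc156 : XT := (XT.nd (nat_lit 1560) (nat_lit 1140) (nat_lit 0) (XT.nd (nat_lit 780) (nat_lit 836) (nat_lit 0) (XT.nd (nat_lit 390) (nat_lit 608) (nat_lit 0) (XT.nd (nat_lit 156) (nat_lit 304) (nat_lit 0) (XT.nd (nat_lit 78) (nat_lit 228) (nat_lit 0) (XT.lf (nat_lit 0) (nat_lit 7513293667) (nat_lit 380) (nat_lit 4754191677) (nat_lit 76) (nat_lit 6066084905) (nat_lit 55) (nat_lit 5) (nat_lit 60) (nat_lit 5) (nat_lit 56) (nat_lit 5) (nat_lit 301) (nat_lit 277) (nat_lit 202)) (XT.lf (nat_lit 0) (nat_lit 4631263099) (nat_lit 228) (nat_lit 5949327867) (nat_lit 304) (nat_lit 8313203070) (nat_lit 52) (nat_lit 5) (nat_lit 55) (nat_lit 5) (nat_lit 56) (nat_lit 5) (nat_lit 302) (nat_lit 277) (nat_lit 201))) (XT.nd (nat_lit 78) (nat_lit 304) (nat_lit 0) (XT.lf (nat_lit 0) (nat_lit 13876921539) (nat_lit 304) (nat_lit 4861174009) (nat_lit 76) (nat_lit 740175363) (nat_lit 52) (nat_lit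 5) (nat_lit 56) (nat_lit 5) (nat_lit 53) (nat_lit 5) (nat_lit 303) (nat_lit 277) (nat_lit 200)) (XT.nd (nat_lit 78) (nat_lit 76) (nat_lit 0) (XT.lf (nat_lit 0) (nat_lit 5053310134) (nat_lit 228) (nat_lit 12445130796) (nat_lit 304) (nat_lit 2585536200) (nat_lit 49) (nat_lit 5) (nat_lit 52) (nat_lit 5) (nat_lit 53) (nat_lit 5) (nat_lit 304) (nat_lit 277) (nat_lit 199)) (XT.lf (nat_lit 0) (nat_lit 630253190) (nat_lit 304) (nat_lit 5115340985) (nat_lit 76) (nat_lit 14970553586) (nat_lit 48) (nat_lit 5) (nat_lit 52) (nat_lit 5) (nat_lit 49) (nat_lit 5) (nat_lit 305) (nat_lit 277) (nat_lit 198))))) (XT.nd (nat_lit 156) (nat_lit 380) (nat_lit 0) (XT.nd (nat_lit 78) (nat_lit 0) (nat_lit 0) (XT.lf (nat_lit 0) (nat_lit 4011329898) (nat_lit 304) (nat_lit 15990430516) (nat_lit 76) (nat_lit 1371498606) (nat_lit 45) (nat_lit 5) (nat_lit 49) (nat_lit 5) (nat_lit 46) (nat_lit 5) (nat_lit 306) (nat_lit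 277) (nat_lit 197)) (XT.lf (nat_lit 0) (nat_lit 7728891540) (nat_lit 304) (nat_lit 5591688240) (nat_lit 76) (nat_lit 8734294348) (nat_lit 45) (nat_lit 5) (nat_lit 49) (nat_lit 5) (nat_lit 46) (nat_lit 5) (nat_lit 307) (nat_lit 277) (nat_lit 196))) (XT.nd (nat_lit 78) (nat_lit 152) (nat_lit 0) (XT.lf (nat_lit 0) (nat_lit 5482775888) (nat_lit 228) (nat_lit 6221052184) (nat_lit 304) (nat_lit 11063185972) (nat_lit 42) (nat_lit 5) (nat_lit 45) (nat_lit 5) (nat_lit 46) (nat_lit 5) (nat_lit 308) (nat_lit 277) (nat_lit 195)) (XT.nd (nat_lit 78) (nat_lit 152) (nat_lit 0) (XT.lf (nat_lit 0) (nat_lit 15979195688) (nat_lit 304) (nat_lit 6245739370) (nat_lit 76) (nat_lit 1284759682) (nat_lit 42) (nat_lit 5) (nat_lit 46) (nat_lit 5) (nat_lit 43) (nat_lit 5) (nat_lit 309) (nat_lit 277) (nat_lit 194)) (XT.lf (nat_lit 0) (nat_lit 5396372508) (nat_lit 152) (nat_lit 15245030652) (nat_lit 228) (nat_lit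 3639469873) (nat_lit 40) (nat_lit 5) (nat_lit 42) (nat_lit 5) (nat_lit 43) (nat_lit 5) (nat_lit 310) (nat_lit 277) (nat_lit 193)))))) (XT.nd (nat_lit 390) (nat_lit 380) (nat_lit 0) (XT.nd (nat_lit 156) (nat_lit 152) (nat_lit 0) (XT.nd (nat_lit 78) (nat_lit 228) (nat_lit 0) (XT.lf (nat_lit 0) (nat_lit 526283814) (nat_lit 228) (nat_lit 7275777717) (nat_lit 76) (nat_lit 17283493434) (nat_lit 39) (nat_lit 5) (nat_lit 42) (nat_lit 5) (nat_lit 40) (nat_lit 5) (nat_lit 311) (nat_lit 277) (nat_lit 192)) (XT.lf (nat_lit 0) (nat_lit 4845940081) (nat_lit 304) (nat_lit 20931266250) (nat_lit 76) (nat_lit 146900047) (nat_lit 36) (nat_lit 5) (nat_lit 40) (nat_lit 5) (nat_lit 37) (nat_lit 5) (nat_lit 312) (nat_lit 277) (nat_lit 191))) (XT.nd (nat_lit 78) (nat_lit 152) (nat_lit 0) (XT.lf (nat_lit 0) (nat_lit 9622505248) (nat_lit 304) (nat_lit 8819365356) (nat_lit 76) (nat_lit 8350682554) (nat_lit 36)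 (nat_lit 5) (nat_lit 40) (nat_lit 5) (nat_lit 37) (nat_lit 5) (nat_lit 313) (nat_lit 277) (nat_lit 190)) (XT.nd (nat_lit 78) (nat_lit 0) (nat_lit 0) (XT.lf (nat_lit 0) (nat_lit 4008813117) (nat_lit 152) (nat_lit 10680040688) (nat_lit 228) (nat_lit 13013034141) (nat_lit 34) (nat_lit 5) (nat_lit 36) (nat_lit 5) (nat_lit 37) (nat_lit 5) (nat_lit 314) (nat_lit 277) (nat_lit 189)) (XT.lf (nat_lit 0) (nat_lit 17767248712) (nat_lit 152) (nat_lit 2379280879) (nat_lit 228) (nat_lit 8503272182) (nat_lit 34) (nat_lit 5) (nat_lit 36) (nat_lit 5) (nat_lit 37) (nat_lit 5) (nat_lit 315) (nat_lit 277) (nat_lit 188))))) (XT.nd (nat_lit 156) (nat_lit 152) (nat_lit 0) (XT.nd (nat_lit 78) (nat_lit 76) (nat_lit 0) (XT.lf (nat_lit 0) (nat_lit 2533679433) (nat_lit 152) (nat_lit 23470999368) (nat_lit 228) (nat_lit 3634065188) (nat_lit 32) (nat_lit 5) (nat_lit 34) (nat_lit 5) (nat_lit 35) (nat_lit 5) (nat_lit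 316) (nat_lit 277) (nat_lit 187)) (XT.lf (nat_lit 0) (nat_lit 1646778433) (nat_lit 228) (nat_lit 13751561407) (nat_lit 76) (nat_lit 15266875229) (nat_lit 31) (nat_lit 5) (nat_lit 34) (nat_lit 5) (nat_lit 32) (nat_lit 5) (nat_lit 317) (nat_lit 277) (nat_lit 186))) (XT.nd (nat_lit 78) (nat_lit 0) (nat_lit 0) (XT.lf (nat_lit 0) (nat_lit 200189061) (nat_lit 152) (nat_lit 6862161355) (nat_lit 228) (nat_lit 24678050335) (nat_lit 29) (nat_lit 5) (nat_lit 31) (nat_lit 5) (nat_lit 32) (nat_lit 5) (nat_lit 318) (nat_lit 277) (nat_lit 185)) (XT.nd (nat_lit 78) (nat_lit 0) (nat_lit 0) (XT.lf (nat_lit 0) (nat_lit 13008045737) (nat_lit 228) (nat_lit 17583787663) (nat_lit 76) (nat_lit 2264555100) (nat_lit 29) (nat_lit 5) (nat_lit 32) (nat_lit 5) (nat_lit 30) (nat_lit 5) (nat_lit 319) (nat_lit 277) (nat_lit 184)) (XT.lf (nat_lit 0) (nat_lit 19353841941) (nat_lit 228) (nat_lit 3057674010) (nat_lit 76)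 (nat_lit 11611528424) (nat_lit 29) (nat_lit 5) (nat_lit 32) (nat_lit 5) (nat_lit 30) (nat_lit 5) (nat_lit 320) (nat_lit 277) (nat_lit 183))))))) (XT.nd (nat_lit 780) (nat_lit 380) (nat_lit 0) (XT.nd (nat_lit 390) (nat_lit 304) (nat_lit 0) (XT.nd (nat_lit 156) (nat_lit 304) (nat_lit 0) (XT.nd (nat_lit 78) (nat_lit 0) (nat_lit 0) (XT.lf (nat_lit 0) (nat_lit 12582573761) (nat_lit 152) (nat_lit 13621585973) (nat_lit 228) (nat_lit 9034520809) (nat_lit 27) (nat_lit 5) (nat_lit 29) (nat_lit 5) (nat_lit 30) (nat_lit 5) (nat_lit 321) (nat_lit 277) (nat_lit 182)) (XT.lf (nat_lit 0) (nat_lit 29096337158) (nat_lit 152) (nat_lit 4343432153) (nat_lit 228) (nat_lit 3073199069) (nat_lit 27) (nat_lit 5) (nat_lit 29) (nat_lit 5) (nat_lit 30) (nat_lit 5) (nat_lit 322) (nat_lit 277) (nat_lit 181))) (XT.nd (nat_lit 78) (nat_lit 152) (nat_lit 0) (XT.lf (nat_lit 0) (nat_lit 3300186422) (nat_lit 152) (nat_lit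 29126767241) (nat_lit 76) (nat_lit 5410738750) (nat_lit 25) (nat_lit 5) (nat_lit 27) (nat_lit 5) (nat_lit 26) (nat_lit 5) (nat_lit 323) (nat_lit 277) (nat_lit 180)) (XT.nd (nat_lit 78) (nat_lit 152) (nat_lit 0) (XT.lf (nat_lit 0) (nat_lit 10079212626) (nat_lit 152) (nat_lit 13458036953) (nat_lit 76) (nat_lit 15679378976) (nat_lit 25) (nat_lit 5) (nat_lit 27) (nat_lit 5) (nat_lit 26) (nat_lit 5) (nat_lit 324) (nat_lit 277) (nat_lit 179)) (XT.lf (nat_lit 0) (nat_lit 3078991679) (nat_lit 152) (nat_lit 14158064389) (nat_lit 228) (nat_lit 23425469262) (nat_lit 23) (nat_lit 5) (nat_lit 25) (nat_lit 5) (nat_lit 26) (nat_lit 5) (nat_lit 325) (nat_lit 277) (nat_lit 178))))) (XT.nd (nat_lit 156) (nat_lit 304) (nat_lit 0) (XT.nd (nat_lit 78) (nat_lit 0) (nat_lit 0) (XT.lf (nat_lit 0) (nat_lit 20896639991) (nat_lit 152) (nat_lit 4076044828) (nat_lit 228) (nat_lit 17197044248) (nat_lit 23) (nat_lit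 5) (nat_lit 25) (nat_lit 5) (nat_lit 26) (nat_lit 5) (nat_lit 326) (nat_lit 277) (nat_lit 177)) (XT.lf (nat_lit 0) (nat_lit 33189011583) (nat_lit 228) (nat_lit 4261893778) (nat_lit 76) (nat_lit 6296698262) (nat_lit 23) (nat_lit 5) (nat_lit 26) (nat_lit 5) (nat_lit 24) (nat_lit 4) (nat_lit 327) (nat_lit 277) (nat_lit 176))) (XT.nd (nat_lit 78) (nat_lit 228) (nat_lit 0) (XT.lf (nat_lit 0) (nat_lit 13967585137) (nat_lit 76) (nat_lit 28126106957) (nat_lit 152) (nat_lit 3296809093) (nat_lit 22) (nat_lit 5) (nat_lit 23) (nat_lit 5) (nat_lit 24) (nat_lit 4) (nat_lit 328) (nat_lit 277) (nat_lit 175)) (XT.nd (nat_lit 78) (nat_lit 152) (nat_lit 0) (XT.lf (nat_lit 0) (nat_lit 4255576800) (nat_lit 152) (nat_lit 13936741521) (nat_lit 76) (nat_lit 28916550286) (nat_lit 21) (nat_lit 5) (nat_lit 23) (nat_lit 5) (nat_lit 22) (nat_lit 5) (nat_lit 329) (nat_lit 277) (nat_lit 174)) (XT.lf (nat_lit 0) (nat_lit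 4501828348) (nat_lit 152) (nat_lit 7636272419) (nat_lit 228) (nat_lit 36769190983) (nat_lit 19) (nat_lit 5) (nat_lit 21) (nat_lit 5) (nat_lit 22) (nat_lit 5) (nat_lit 330) (nat_lit 277) (nat_lit 173)))))) (XT.nd (nat_lit 390) (nat_lit 228) (nat_lit 0) (XT.nd (nat_lit 156) (nat_lit 152) (nat_lit 0) (XT.nd (nat_lit 78) (nat_lit 0) (nat_lit 0) (XT.lf (nat_lit 0) (nat_lit 20701570358) (nat_lit 228) (nat_lit 26507381826) (nat_lit 76) (nat_lit 3572347955) (nat_lit 19) (nat_lit 5) (nat_lit 22) (nat_lit 5) (nat_lit 20) (nat_lit 4) (nat_lit 331) (nat_lit 277) (nat_lit 172)) (XT.lf (nat_lit 0) (nat_lit 29811825244) (nat_lit 228) (nat_lit 7851038456) (nat_lit 76) (nat_lit 15080219478) (nat_lit 19) (nat_lit 5) (nat_lit 22) (nat_lit 5) (nat_lit 20) (nat_lit 4) (nat_lit 332) (nat_lit 277) (nat_lit 171))) (XT.nd (nat_lit 78) (nat_lit 76) (nat_lit 0) (XT.lf (nat_lit 0) (nat_lit 12114964716) (nat_lit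 76) (nat_lit 27445516732) (nat_lit 152) (nat_lit 15233334082) (nat_lit 18) (nat_lit 5) (nat_lit 19) (nat_lit 5) (nat_lit 20) (nat_lit 4) (nat_lit 333) (nat_lit 277) (nat_lit 170)) (XT.nd (nat_lit 78) (nat_lit 76) (nat_lit 0) (XT.lf (nat_lit 0) (nat_lit 33341102477) (nat_lit 76) (nat_lit 16582299618) (nat_lit 152) (nat_lit 7017345195) (nat_lit 18) (nat_lit 5) (nat_lit 19) (nat_lit 5) (nat_lit 20) (nat_lit 4) (nat_lit 334) (nat_lit 277) (nat_lit 169)) (XT.lf (nat_lit 0) (nat_lit 1551993555) (nat_lit 152) (nat_lit 3602031376) (nat_lit 76) (nat_lit 54040045144) (nat_lit 17) (nat_lit 5) (nat_lit 19) (nat_lit 5) (nat_lit 18) (nat_lit 5) (nat_lit 335) (nat_lit 277) (nat_lit 168))))) (XT.nd (nat_lit 156) (nat_lit 76) (nat_lit 0) (XT.nd (nat_lit 78) (nat_lit 0) (nat_lit 0) (XT.lf (nat_lit 0) (nat_lit 10700137833) (nat_lit 228) (nat_lit 43812395050) (nat_lit 76) (nat_lit 7022469600) (nat_lit 15)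 (nat_lit 5) (nat_lit 18) (nat_lit 5) (nat_lit 16) (nat_lit 4) (nat_lit 336) (nat_lit 277) (nat_lit 167)) (XT.lf (nat_lit 0) (nat_lit 20446579803) (nat_lit 228) (nat_lit 23846873893) (nat_lit 76) (nat_lit 19692486887) (nat_lit 15) (nat_lit 5) (nat_lit 18) (nat_lit 5) (nat_lit 16) (nat_lit 4) (nat_lit 337) (nat_lit 277) (nat_lit 166))) (XT.nd (nat_lit 78) (nat_lit 76) (nat_lit 0) (XT.lf (nat_lit 0) (nat_lit 30675006812) (nat_lit 228) (nat_lit 2892584129) (nat_lit 76) (nat_lit 32992104928) (nat_lit 15) (nat_lit 5) (nat_lit 18) (nat_lit 5) (nat_lit 16) (nat_lit 4) (nat_lit 338) (nat_lit 277) (nat_lit 165)) (XT.nd (nat_lit 78) (nat_lit 0) (nat_lit 0) (XT.lf (nat_lit 0) (nat_lit 19731909750) (nat_lit 76) (nat_lit 21985932915) (nat_lit 152) (nat_lit 27529150139) (nat_lit 14) (nat_lit 5) (nat_lit 15) (nat_lit 5) (nat_lit 16) (nat_lit 4) (nat_lit 339) (nat_lit 277) (nat_lit 164)) (XT.lf (nat_lit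 0) (nat_lit 43579143644) (nat_lit 76) (nat_lit 9777684020) (nat_lit 152) (nat_lit 18709629663) (nat_lit 14) (nat_lit 5) (nat_lit 15) (nat_lit 5) (nat_lit 16) (nat_lit 4) (nat_lit 340) (nat_lit 277) (nat_lit 163))))))))
noncomputable def xc157 : XT := (XT.nd (nat_lit 1560) (nat_lit 228) (nat_lit 0) (XT.nd (nat_lit 780) (nat_lit 228) (nat_lit 0) (XT.nd (nat_lit 390) (nat_lit 76) (nat_lit 0) (XT.nd (nat_lit 156) (nat_lit 76) (nat_lit 0) (XT.nd (nat_lit 78) (nat_lit 152) (nat_lit 0) (XT.lf (nat_lit 0) (nat_lit 65620438855) (nat_lit 152) (nat_lit 6464300152) (nat_lit 0) (nat_lit 2940025180) (nat_lit 14) (nat_lit 5) (nat_lit 16) (nat_lit 4) (nat_lit 14) (nat_lit 4) (nat_lit 341) (nat_lit 277) (nat_lit 162)) (XT.lf (nat_lit 0) (nat_lit 783138940) (nat_lit 152) (nat_lit 61085936931) (nat_lit 76) (nat_lit 16240196457) (nat_lit 12) (nat_lit 5) (nat_lit 14) (nat_lit 5) (nat_lit 13) (nat_lit 4)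 (nat_lit 342) (nat_lit 277) (nat_lit 161))) (XT.nd (nat_lit 78) (nat_lit 76) (nat_lit 0) (XT.lf (nat_lit 0) (nat_lit 11270642458) (nat_lit 152) (nat_lit 39596990991) (nat_lit 76) (nat_lit 30467330868) (nat_lit 12) (nat_lit 5) (nat_lit 14) (nat_lit 5) (nat_lit 13) (nat_lit 4) (nat_lit 343) (nat_lit 277) (nat_lit 160)) (XT.nd (nat_lit 78) (nat_lit 76) (nat_lit 0) (XT.lf (nat_lit 0) (nat_lit 22278180473) (nat_lit 152) (nat_lit 17041477366) (nat_lit 76) (nat_lit 45402502535) (nat_lit 12) (nat_lit 5) (nat_lit 14) (nat_lit 5) (nat_lit 13) (nat_lit 4) (nat_lit 344) (nat_lit 277) (nat_lit 159)) (XT.lf (nat_lit 0) (nat_lit 6853667717) (nat_lit 76) (nat_lit 27085298654) (nat_lit 152) (nat_lit 54334608633) (nat_lit 11) (nat_lit 5) (nat_lit 12) (nat_lit 5) (nat_lit 13) (nat_lit 4) (nat_lit 345) (nat_lit 277) (nat_lit 158))))) (XT.nd (nat_lit 156) (nat_lit 76) (nat_lit 0) (XT.nd (nat_lit 78) (nat_lit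 0) (nat_lit 0) (XT.lf (nat_lit 0) (nat_lit 32527828316) (nat_lit 76) (nat_lit 13939516515) (nat_lit 152) (nat_lit 45520990078) (nat_lit 11) (nat_lit 5) (nat_lit 12) (nat_lit 5) (nat_lit 13) (nat_lit 4) (nat_lit 346) (nat_lit 277) (nat_lit 157)) (XT.lf (nat_lit 0) (nat_lit 59478665180) (nat_lit 76) (nat_lit 139617607) (nat_lit 152) (nat_lit 36270745097) (nat_lit 11) (nat_lit 5) (nat_lit 12) (nat_lit 5) (nat_lit 13) (nat_lit 4) (nat_lit 347) (nat_lit 277) (nat_lit 156))) (XT.nd (nat_lit 78) (nat_lit 76) (nat_lit 0) (XT.lf (nat_lit 0) (nat_lit 73647092856) (nat_lit 152) (nat_lit 12438595182) (nat_lit 0) (nat_lit 13888053212) (nat_lit 11) (nat_lit 5) (nat_lit 13) (nat_lit 4) (nat_lit 11) (nat_lit 4) (nat_lit 348) (nat_lit 277) (nat_lit 155)) (XT.nd (nat_lit 78) (nat_lit 0) (nat_lit 0) (XT.lf (nat_lit 0) (nat_lit 13143640449) (nat_lit 76) (nat_lit 75437655316) (nat_lit 76) (nat_lit 15671198808)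 (nat_lit 10) (nat_lit 4) (nat_lit 11) (nat_lit 5) (nat_lit 11) (nat_lit 4) (nat_lit 349) (nat_lit 277) (nat_lit 154)) (XT.lf (nat_lit 0) (nat_lit 40430422769) (nat_lit 76) (nat_lit 64038962976) (nat_lit 76) (nat_lit 4265442789) (nat_lit 10) (nat_lit 4) (nat_lit 11) (nat_lit 5) (nat_lit 11) (nat_lit 4) (nat_lit 350) (nat_lit 277) (nat_lit 153)))))) (XT.nd (nat_lit 390) (nat_lit 76) (nat_lit 0) (XT.nd (nat_lit 156) (nat_lit 76) (nat_lit 0) (XT.nd (nat_lit 78) (nat_lit 0) (nat_lit 0) (XT.lf (nat_lit 0) (nat_lit 7460446542) (nat_lit 152) (nat_lit 44486332088) (nat_lit 76) (nat_lit 61488651361) (nat_lit 9) (nat_lit 5) (nat_lit 11) (nat_lit 5) (nat_lit 10) (nat_lit 4) (nat_lit 351) (nat_lit 277) (nat_lit 152)) (XT.lf (nat_lit 0) (nat_lit 19626076730) (nat_lit 152) (nat_lit 19553197170) (nat_lit 76) (nat_lit 79188453265) (nat_lit 9) (nat_lit 5) (nat_lit 11) (nat_lit 5) (nat_lit 10) (nat_lit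 4) (nat_lit 352) (nat_lit 277) (nat_lit 151))) (XT.nd (nat_lit 78) (nat_lit 0) (nat_lit 0) (XT.lf (nat_lit 0) (nat_lit 6839877921) (nat_lit 76) (nat_lit 25663846108) (nat_lit 152) (nat_lit 91037729881) (nat_lit 8) (nat_lit 5) (nat_lit 9) (nat_lit 5) (nat_lit 10) (nat_lit 4) (nat_lit 353) (nat_lit 277) (nat_lit 150)) (XT.nd (nat_lit 78) (nat_lit 0) (nat_lit 0) (XT.lf (nat_lit 0) (nat_lit 35225905132) (nat_lit 76) (nat_lit 11127496222) (nat_lit 152) (nat_lit 82604059679) (nat_lit 8) (nat_lit 5) (nat_lit 9) (nat_lit 5) (nat_lit 10) (nat_lit 4) (nat_lit 354) (nat_lit 277) (nat_lit 149)) (XT.lf (nat_lit 0) (nat_lit 60957241491) (nat_lit 152) (nat_lit 69682990770) (nat_lit 0) (nat_lit 4000953659) (nat_lit 8) (nat_lit 5) (nat_lit 10) (nat_lit 4) (nat_lit 8) (nat_lit 4) (nat_lit 355) (nat_lit 277) (nat_lit 148))))) (XT.nd (nat_lit 156) (nat_lit 76) (nat_lit 0) (XT.nd (nat_lit 78) (nat_lit 0)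 (nat_lit 0) (XT.lf (nat_lit 0) (nat_lit 76470938775) (nat_lit 152) (nat_lit 44619545393) (nat_lit 0) (nat_lit 19509630918) (nat_lit 8) (nat_lit 5) (nat_lit 10) (nat_lit 4) (nat_lit 8) (nat_lit 4) (nat_lit 356) (nat_lit 277) (nat_lit 147)) (XT.lf (nat_lit 0) (nat_lit 92757699180) (nat_lit 152) (nat_lit 18307813501) (nat_lit 0) (nat_lit 35791610347) (nat_lit 8) (nat_lit 5) (nat_lit 10) (nat_lit 4) (nat_lit 8) (nat_lit 4) (nat_lit 357) (nat_lit 277) (nat_lit 146))) (XT.nd (nat_lit 78) (nat_lit 0) (nat_lit 0) (XT.lf (nat_lit 0) (nat_lit 9622842957) (nat_lit 76) (nat_lit 100383697296) (nat_lit 76) (nat_lit 43413055152) (nat_lit 7) (nat_lit 4) (nat_lit 8) (nat_lit 5) (nat_lit 8) (nat_lit 4) (nat_lit 358) (nat_lit 277) (nat_lit 145)) (XT.nd (nat_lit 78) (nat_lit 0) (nat_lit 0) (XT.lf (nat_lit 0) (nat_lit 39581060135) (nat_lit 76) (nat_lit 88844365451) (nat_lit 76) (nat_lit 31869386820) (nat_lit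 7) (nat_lit 4) (nat_lit 8) (nat_lit 5) (nat_lit 8) (nat_lit 4) (nat_lit 359) (nat_lit 277) (nat_lit 144)) (XT.lf (nat_lit 0) (nat_lit 71032828126) (nat_lit 76) (nat_lit 76730094226) (nat_lit 76) (nat_lit 19750985608) (nat_lit 7) (nat_lit 4) (nat_lit 8) (nat_lit 5) (nat_lit 8) (nat_lit 4) (nat_lit 360) (nat_lit 277) (nat_lit 143))))))) (XT.nd (nat_lit 780) (nat_lit 76) (nat_lit 0) (XT.nd (nat_lit 390) (nat_lit 0) (nat_lit 0) (XT.nd (nat_lit 156) (nat_lit 76) (nat_lit 0) (XT.nd (nat_lit 78) (nat_lit 76) (nat_lit 0) (XT.lf (nat_lit 0) (nat_lit 104053032091) (nat_lit 76) (nat_lit 64012040119) (nat_lit 76) (nat_lit 7028998180) (nat_lit 7) (nat_lit 4) (nat_lit 8) (nat_lit 5) (nat_lit 8) (nat_lit 4) (nat_lit 361) (nat_lit 277) (nat_lit 142)) (XT.lf (nat_lit 0) (nat_lit 6124366688) (nat_lit 152) (nat_lit 44431836247) (nat_lit 76) (nat_lit 132492205763) (nat_lit 6) (nat_lit 5) (nat_lit 8) (nat_lit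 5) (nat_lit 7) (nat_lit 4) (nat_lit 362) (nat_lit 277) (nat_lit 141))) (XT.nd (nat_lit 78) (nat_lit 76) (nat_lit 0) (XT.lf (nat_lit 0) (nat_lit 19697130257) (nat_lit 152) (nat_lit 16611238569) (nat_lit 76) (nat_lit 155086436950) (nat_lit 6) (nat_lit 5) (nat_lit 8) (nat_lit 5) (nat_lit 7) (nat_lit 4) (nat_lit 363) (nat_lit 277) (nat_lit 140)) (XT.nd (nat_lit 78) (nat_lit 0) (nat_lit 0) (XT.lf (nat_lit 0) (nat_lit 13013241614) (nat_lit 76) (nat_lit 21136512025) (nat_lit 152) (nat_lit 165998708820) (nat_lit 5) (nat_lit 5) (nat_lit 6) (nat_lit 5) (nat_lit 7) (nat_lit 4) (nat_lit 364) (nat_lit 277) (nat_lit 139)) (XT.lf (nat_lit 0) (nat_lit 44692057030) (nat_lit 76) (nat_lit 4912355814) (nat_lit 152) (nat_lit 159721419693) (nat_lit 5) (nat_lit 5) (nat_lit 6) (nat_lit 5) (nat_lit 7) (nat_lit 4) (nat_lit 365) (nat_lit 277) (nat_lit 138))))) (XT.nd (nat_lit 156) (nat_lit 0) (nat_lit 0) (XT.nd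 (nat_lit 78) (nat_lit 0) (nat_lit 0) (XT.lf (nat_lit 0) (nat_lit 66019230646) (nat_lit 152) (nat_lit 141200021355) (nat_lit 0) (nat_lit 11733448588) (nat_lit 5) (nat_lit 5) (nat_lit 7) (nat_lit 4) (nat_lit 5) (nat_lit 4) (nat_lit 366) (nat_lit 277) (nat_lit 137)) (XT.lf (nat_lit 0) (nat_lit 83333559290) (nat_lit 152) (nat_lit 116678433083) (nat_lit 0) (nat_lit 29044981895) (nat_lit 5) (nat_lit 5) (nat_lit 7) (nat_lit 4) (nat_lit 5) (nat_lit 4) (nat_lit 367) (nat_lit 277) (nat_lit 136))) (XT.nd (nat_lit 78) (nat_lit 0) (nat_lit 0) (XT.lf (nat_lit 0) (nat_lit 101511927727) (nat_lit 152) (nat_lit 90933930315) (nat_lit 0) (nat_lit 47220688104) (nat_lit 5) (nat_lit 5) (nat_lit 7) (nat_lit 4) (nat_lit 5) (nat_lit 4) (nat_lit 368) (nat_lit 277) (nat_lit 135)) (XT.nd (nat_lit 78) (nat_lit 0) (nat_lit 0) (XT.lf (nat_lit 0) (nat_lit 120597617785) (nat_lit 152) (nat_lit 63905216616) (nat_lit 0)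 (nat_lit 66303842709) (nat_lit 5) (nat_lit 5) (nat_lit 7) (nat_lit 4) (nat_lit 5) (nat_lit 4) (nat_lit 369) (nat_lit 277) (nat_lit 134)) (XT.lf (nat_lit 0) (nat_lit 140636071585) (nat_lit 152) (nat_lit 35527937906) (nat_lit 0) (nat_lit 86339881791) (nat_lit 5) (nat_lit 5) (nat_lit 7) (nat_lit 4) (nat_lit 5) (nat_lit 4) (nat_lit 370) (nat_lit 277) (nat_lit 133)))))) (XT.nd (nat_lit 390) (nat_lit 0) (nat_lit 0) (XT.nd (nat_lit 156) (nat_lit 0) (nat_lit 0) (XT.nd (nat_lit 78) (nat_lit 76) (nat_lit 0) (XT.lf (nat_lit 0) (nat_lit 161674999730) (nat_lit 152) (nat_lit 5734529236) (nat_lit 0) (nat_lit 107376510205) (nat_lit 5) (nat_lit 5) (nat_lit 7) (nat_lit 4) (nat_lit 5) (nat_lit 4) (nat_lit 371) (nat_lit 277) (nat_lit 132)) (XT.lf (nat_lit 0) (nat_lit 26390610428) (nat_lit 76) (nat_lit 157785915867) (nat_lit 76) (nat_lit 103485236121) (nat_lit 4) (nat_lit 4) (nat_lit 5) (nat_lit 5) (nat_lit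 5) (nat_lit 4) (nat_lit 372) (nat_lit 277) (nat_lit 131))) (XT.nd (nat_lit 78) (nat_lit 0) (nat_lit 0) (XT.lf (nat_lit 0) (nat_lit 60318535192) (nat_lit 76) (nat_lit 147580357336) (nat_lit 76) (nat_lit 93277591666) (nat_lit 4) (nat_lit 4) (nat_lit 5) (nat_lit 5) (nat_lit 5) (nat_lit 4) (nat_lit 373) (nat_lit 277) (nat_lit 130)) (XT.nd (nat_lit 78) (nat_lit 0) (nat_lit 0) (XT.lf (nat_lit 0) (nat_lit 95940416396) (nat_lit 76) (nat_lit 136865671451) (nat_lit 76) (nat_lit 82560919186) (nat_lit 4) (nat_lit 4) (nat_lit 5) (nat_lit 5) (nat_lit 5) (nat_lit 4) (nat_lit 374) (nat_lit 277) (nat_lit 129)) (XT.lf (nat_lit 0) (nat_lit 133341068041) (nat_lit 76) (nat_lit 125616347055) (nat_lit 76) (nat_lit 71309702796) (nat_lit 4) (nat_lit 4) (nat_lit 5) (nat_lit 5) (nat_lit 5) (nat_lit 4) (nat_lit 375) (nat_lit 277) (nat_lit 128))))) (XT.nd (nat_lit 156) (nat_lit 0) (nat_lit 0) (XT.nd (nat_lit 78)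 (nat_lit 0) (nat_lit 0) (XT.lf (nat_lit 0) (nat_lit 172609539299) (nat_lit 76) (nat_lit 113805600042) (nat_lit 76) (nat_lit 59497153884) (nat_lit 4) (nat_lit 4) (nat_lit 5) (nat_lit 5) (nat_lit 5) (nat_lit 4) (nat_lit 376) (nat_lit 277) (nat_lit 127)) (XT.lf (nat_lit 0) (nat_lit 213839326529) (nat_lit 76) (nat_lit 101405309587) (nat_lit 76) (nat_lit 47095147334) (nat_lit 4) (nat_lit 4) (nat_lit 5) (nat_lit 5) (nat_lit 5) (nat_lit 4) (nat_lit 377) (nat_lit 277) (nat_lit 126))) (XT.nd (nat_lit 78) (nat_lit 0) (nat_lit 0) (XT.lf (nat_lit 0) (nat_lit 257128595892) (nat_lit 76) (nat_lit 88385951189) (nat_lit 76) (nat_lit 34074154559) (nat_lit 4) (nat_lit 4) (nat_lit 5) (nat_lit 5) (nat_lit 5) (nat_lit 4) (nat_lit 378) (nat_lit 277) (nat_lit 125)) (XT.nd (nat_lit 78) (nat_lit 0) (nat_lit 0) (XT.lf (nat_lit 0) (nat_lit 302580417076) (nat_lit 76) (nat_lit 74716526374) (nat_lit 76) (nat_lit 20403173196)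 (nat_lit 4) (nat_lit 4) (nat_lit 5) (nat_lit 5) (nat_lit 5) (nat_lit 4) (nat_lit 379) (nat_lit 277) (nat_lit 124)) (XT.lf (nat_lit 0) (nat_lit 350303008704) (nat_lit 76) (nat_lit 60364488894) (nat_lit 76) (nat_lit 6049653288) (nat_lit 4) (nat_lit 4) (nat_lit 5) (nat_lit 5) (nat_lit 5) (nat_lit 4) (nat_lit 380) (nat_lit 277) (nat_lit 123))))))))
noncomputable def xc158 : XT := (XT.nd (nat_lit 33774) (nat_lit 0) (nat_lit 2812) (XT.nd (nat_lit 32994) (nat_lit 0) (nat_lit 5700) (XT.nd (nat_lit 32604) (nat_lit 0) (nat_lit 6688) (XT.nd (nat_lit 156) (nat_lit 76) (nat_lit 0) (XT.nd (nat_lit 78) (nat_lit 0) (nat_lit 0) (XT.lf (nat_lit 0) (nat_lit 8731865309) (nat_lit 152) (nat_lit 36415923557) (nat_lit 76) (nat_lit 391530252321) (nat_lit 3) (nat_lit 5) (nat_lit 5) (nat_lit 5) (nat_lit 4) (nat_lit 4) (nat_lit 381) (nat_lit 277) (nat_lit 122)) (XT.lf (nat_lit 0) (nat_lit 24048264577) (nat_lit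 152) (nat_lit 5018649662) (nat_lit 76) (nat_lit 428565147721) (nat_lit 3) (nat_lit 5) (nat_lit 5) (nat_lit 5) (nat_lit 4) (nat_lit 4) (nat_lit 382) (nat_lit 277) (nat_lit 121))) (XT.nd (nat_lit 78) (nat_lit 0) (nat_lit 0) (XT.lf (nat_lit 0) (nat_lit 28870937252) (nat_lit 76) (nat_lit 11709457808) (nat_lit 152) (nat_lit 439030893464) (nat_lit 2) (nat_lit 5) (nat_lit 3) (nat_lit 5) (nat_lit 4) (nat_lit 4) (nat_lit 383) (nat_lit 277) (nat_lit 120)) (XT.nd (nat_lit 78) (nat_lit 0) (nat_lit 0) (XT.lf (nat_lit 0) (nat_lit 58126408687) (nat_lit 152) (nat_lit 438160716671) (nat_lit 0) (nat_lit 6392987525) (nat_lit 2) (nat_lit 5) (nat_lit 4) (nat_lit 4) (nat_lit 2) (nat_lit 4) (nat_lit 384) (nat_lit 277) (nat_lit 119)) (XT.lf (nat_lit 0) (nat_lit 76740880378) (nat_lit 152) (nat_lit 425145587492) (nat_lit 0) (nat_lit 25006353006) (nat_lit 2) (nat_lit 5) (nat_lit 4) (nat_lit 4) (nat_lit 2) (nat_lit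 4) (nat_lit 385) (nat_lit 277) (nat_lit 118))))) (XT.nd (nat_lit 156) (nat_lit 0) (nat_lit 0) (XT.nd (nat_lit 78) (nat_lit 684) (nat_lit 0) (XT.lf (nat_lit 0) (nat_lit 4895580858) (nat_lit 684) (nat_lit 124849550) (nat_lit 684) (nat_lit 124849550) (nat_lit 99) (nat_lit 3) (nat_lit 108) (nat_lit 3) (nat_lit 108) (nat_lit 5) (nat_lit 278) (nat_lit 278) (nat_lit 224)) (XT.lf (nat_lit 0) (nat_lit 199518246) (nat_lit 684) (nat_lit 5921475070) (nat_lit 760) (nat_lit 4391203597) (nat_lit 90) (nat_lit 5) (nat_lit 99) (nat_lit 3) (nat_lit 100) (nat_lit 5) (nat_lit 279) (nat_lit 278) (nat_lit 223))) (XT.nd (nat_lit 78) (nat_lit 0) (nat_lit 76) (XT.lf (nat_lit 0) (nat_lit 880735199) (nat_lit 684) (nat_lit 1093787295) (nat_lit 760) (nat_lit 8771858694) (nat_lit 90) (nat_lit 5) (nat_lit 99) (nat_lit 3) (nat_lit 100) (nat_lit 5) (nat_lit 280) (nat_lit 278) (nat_lit 222)) (XT.nd (nat_lit 78) (nat_lit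 0) (nat_lit 0) (XT.lf (nat_lit 0) (nat_lit 1659987185) (nat_lit 684) (nat_lit 6945097510) (nat_lit 760) (nat_lit 2384069045) (nat_lit 91) (nat_lit 5) (nat_lit 100) (nat_lit 5) (nat_lit 101) (nat_lit 5) (nat_lit 281) (nat_lit 278) (nat_lit 221)) (XT.lf (nat_lit 0) (nat_lit 2492882746) (nat_lit 684) (nat_lit 1822432752) (nat_lit 760) (nat_lit 6928089444) (nat_lit 91) (nat_lit 5) (nat_lit 100) (nat_lit 5) (nat_lit 101) (nat_lit 5) (nat_lit 282) (nat_lit 278) (nat_lit 220)))))) (XT.nd (nat_lit 390) (nat_lit 1140) (nat_lit 0) (XT.nd (nat_lit 156) (nat_lit 0) (nat_lit 0) (XT.nd (nat_lit 78) (nat_lit 0) (nat_lit 0) (XT.lf (nat_lit 0) (nat_lit 3393727264) (nat_lit 684) (nat_lit 7862462543) (nat_lit 760) (nat_lit 252934228) (nat_lit 92) (nat_lit 5) (nat_lit 101) (nat_lit 5) (nat_lit 102) (nat_lit 5) (nat_lit 283) (nat_lit 278) (nat_lit 219)) (XT.lf (nat_lit 0) (nat_lit 4408443957) (nat_lit 684)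 (nat_lit 2429188162) (nat_lit 760) (nat_lit 4947122649) (nat_lit 92) (nat_lit 5) (nat_lit 101) (nat_lit 5) (nat_lit 102) (nat_lit 5) (nat_lit 284) (nat_lit 278) (nat_lit 218))) (XT.nd (nat_lit 78) (nat_lit 0) (nat_lit 76) (XT.lf (nat_lit 76) (nat_lit 3360610825) (nat_lit 0) (nat_lit 2134056428) (nat_lit 760) (nat_lit 6578525230) (nat_lit 93) (nat_lit 5) (nat_lit 92) (nat_lit 5) (nat_lit 102) (nat_lit 5) (nat_lit 285) (nat_lit 278) (nat_lit 217)) (XT.nd (nat_lit 78) (nat_lit 0) (nat_lit 0) (XT.lf (nat_lit 0) (nat_lit 6690395832) (nat_lit 684) (nat_lit 2918272426) (nat_lit 760) (nat_lit 2764685056) (nat_lit 93) (nat_lit 5) (nat_lit 102) (nat_lit 5) (nat_lit 103) (nat_lit 5) (nat_lit 286) (nat_lit 278) (nat_lit 216)) (XT.lf (nat_lit 76) (nat_lit 3210623558) (nat_lit 0) (nat_lit 4791437717) (nat_lit 760) (nat_lit 4683711426) (nat_lit 94) (nat_lit 5) (nat_lit 93) (nat_lit 5) (nat_lit 103)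 (nat_lit 5) (nat_lit 287) (nat_lit 278) (nat_lit 215))))) (XT.nd (nat_lit 156) (nat_lit 608) (nat_lit 0) (XT.nd (nat_lit 78) (nat_lit 684) (nat_lit 0) (XT.lf (nat_lit 0) (nat_lit 9405856395) (nat_lit 684) (nat_lit 3293106199) (nat_lit 76) (nat_lit 313578413) (nat_lit 94) (nat_lit 5) (nat_lit 103) (nat_lit 5) (nat_lit 95) (nat_lit 5) (nat_lit 288) (nat_lit 278) (nat_lit 214)) (XT.lf (nat_lit 0) (nat_lit 3198952419) (nat_lit 684) (nat_lit 7782858409) (nat_lit 760) (nat_lit 2368791061) (nat_lit 85) (nat_lit 5) (nat_lit 94) (nat_lit 5) (nat_lit 95) (nat_lit 5) (nat_lit 289) (nat_lit 278) (nat_lit 213))) (XT.nd (nat_lit 78) (nat_lit 608) (nat_lit 0) (XT.lf (nat_lit 0) (nat_lit 10107388166) (nat_lit 684) (nat_lit 2559332814) (nat_lit 760) (nat_lit 1037387069) (nat_lit 85) (nat_lit 5) (nat_lit 94) (nat_lit 5) (nat_lit 95) (nat_lit 5) (nat_lit 290) (nat_lit 278) (nat_lit 212)) (XT.nd (nat_lit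 78) (nat_lit 0) (nat_lit 0) (XT.lf (nat_lit 0) (nat_lit 423421149) (nat_lit 608) (nat_lit 10754631703) (nat_lit 76) (nat_lit 2893281895) (nat_lit 77) (nat_lit 5) (nat_lit 85) (nat_lit 5) (nat_lit 78) (nat_lit 5) (nat_lit 291) (nat_lit 278) (nat_lit 211)) (XT.lf (nat_lit 0) (nat_lit 2002305917) (nat_lit 608) (nat_lit 3836433197) (nat_lit 76) (nat_lit 8613381697) (nat_lit 77) (nat_lit 5) (nat_lit 85) (nat_lit 5) (nat_lit 78) (nat_lit 5) (nat_lit 292) (nat_lit 278) (nat_lit 210))))))) (XT.nd (nat_lit 780) (nat_lit 1216) (nat_lit 0) (XT.nd (nat_lit 390) (nat_lit 684) (nat_lit 0) (XT.nd (nat_lit 156) (nat_lit 608) (nat_lit 0) (XT.nd (nat_lit 78) (nat_lit 0) (nat_lit 0) (XT.lf (nat_lit 0) (nat_lit 3518122891) (nat_lit 380) (nat_lit 174113236) (nat_lit 456) (nat_lit 11158146237) (nat_lit 72) (nat_lit 5) (nat_lit 77) (nat_lit 5) (nat_lit 78) (nat_lit 5) (nat_lit 293) (nat_lit 278) (nat_lit 209))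 (XT.lf (nat_lit 0) (nat_lit 5600768668) (nat_lit 456) (nat_lit 4005863368) (nat_lit 76) (nat_lit 5655258947) (nat_lit 72) (nat_lit 5) (nat_lit 78) (nat_lit 5) (nat_lit 73) (nat_lit 5) (nat_lit 294) (nat_lit 278) (nat_lit 208))) (XT.nd (nat_lit 78) (nat_lit 304) (nat_lit 0) (XT.lf (nat_lit 0) (nat_lit 3783233308) (nat_lit 304) (nat_lit 3862391461) (nat_lit 380) (nat_lit 8046342826) (nat_lit 68) (nat_lit 5) (nat_lit 72) (nat_lit 5) (nat_lit 73) (nat_lit 5) (nat_lit 295) (nat_lit 278) (nat_lit 207)) (XT.nd (nat_lit 78) (nat_lit 304) (nat_lit 0) (XT.lf (nat_lit 0) (nat_lit 9875165605) (nat_lit 380) (nat_lit 4096809219) (nat_lit 76) (nat_lit 2167486746) (nat_lit 68) (nat_lit 5) (nat_lit 73) (nat_lit 5) (nat_lit 69) (nat_lit 5) (nat_lit 296) (nat_lit 278) (nat_lit 206)) (XT.lf (nat_lit 0) (nat_lit 4153882176) (nat_lit 304) (nat_lit 8171066675) (nat_lit 380) (nat_lit 4278977057) (nat_lit 64)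 (nat_lit 5) (nat_lit 68) (nat_lit 5) (nat_lit 69) (nat_lit 5) (nat_lit 297) (nat_lit 278) (nat_lit 205))))) (XT.nd (nat_lit 156) (nat_lit 304) (nat_lit 0) (XT.nd (nat_lit 78) (nat_lit 380) (nat_lit 0) (XT.lf (nat_lit 0) (nat_lit 12938224066) (nat_lit 304) (nat_lit 2009566800) (nat_lit 380) (nat_lit 2141326432) (nat_lit 64) (nat_lit 5) (nat_lit 68) (nat_lit 5) (nat_lit 69) (nat_lit 5) (nat_lit 298) (nat_lit 278) (nat_lit 204)) (XT.lf (nat_lit 0) (nat_lit 225724822) (nat_lit 380) (nat_lit 12975586307) (nat_lit 76) (nat_lit 4390914805) (nat_lit 59) (nat_lit 5) (nat_lit 64) (nat_lit 5) (nat_lit 60) (nat_lit 5) (nat_lit 299) (nat_lit 278) (nat_lit 203))) (XT.nd (nat_lit 78) (nat_lit 304) (nat_lit 0) (XT.lf (nat_lit 0) (nat_lit 2725827485) (nat_lit 380) (nat_lit 4240794502) (nat_lit 76) (nat_lit 11147807671) (nat_lit 59) (nat_lit 5) (nat_lit 64) (nat_lit 5) (nat_lit 60) (nat_lit 5) (nat_lit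 300) (nat_lit 278) (nat_lit 202)) (XT.nd (nat_lit 78) (nat_lit 0) (nat_lit 0) (XT.lf (nat_lit 0) (nat_lit 5072834225) (nat_lit 304) (nat_lit 340414535) (nat_lit 380) (nat_lit 13246405723) (nat_lit 55) (nat_lit 5) (nat_lit 59) (nat_lit 5) (nat_lit 60) (nat_lit 5) (nat_lit 301) (nat_lit 278) (nat_lit 201)) (XT.lf (nat_lit 0) (nat_lit 8394899789) (nat_lit 380) (nat_lit 4354391181) (nat_lit 76) (nat_lit 6474881962) (nat_lit 55) (nat_lit 5) (nat_lit 60) (nat_lit 5) (nat_lit 56) (nat_lit 5) (nat_lit 302) (nat_lit 278) (nat_lit 200)))))) (XT.nd (nat_lit 390) (nat_lit 456) (nat_lit 0) (XT.nd (nat_lit 156) (nat_lit 532) (nat_lit 0) (XT.nd (nat_lit 78) (nat_lit 0) (nat_lit 0) (XT.lf (nat_lit 0) (nat_lit 5490053912) (nat_lit 228) (nat_lit 6111208372) (nat_lit 304) (nat_lit 8211897691) (nat_lit 52) (nat_lit 5) (nat_lit 55) (nat_lit 5) (nat_lit 56) (nat_lit 5) (nat_lit 303) (nat_lit 278) (nat_lit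 199)) (XT.lf (nat_lit 0) (nat_lit 15041013946) (nat_lit 304) (nat_lit 4484771238) (nat_lit 76) (nat_lit 902180601) (nat_lit 52) (nat_lit 5) (nat_lit 56) (nat_lit 5) (nat_lit 53) (nat_lit 5) (nat_lit 304) (nat_lit 278) (nat_lit 198))) (XT.nd (nat_lit 78) (nat_lit 304) (nat_lit 0) (XT.lf (nat_lit 0) (nat_lit 5915445798) (nat_lit 228) (nat_lit 12915286363) (nat_lit 304) (nat_lit 2233902647) (nat_lit 49) (nat_lit 5) (nat_lit 52) (nat_lit 5) (nat_lit 53) (nat_lit 5) (nat_lit 305) (nat_lit 278) (nat_lit 197)) (XT.nd (nat_lit 78) (nat_lit 228) (nat_lit 0) (XT.lf (nat_lit 0) (nat_lit 1105116543) (nat_lit 304) (nat_lit 4775390912) (nat_lit 76) (nat_lit 15848669982) (nat_lit 48) (nat_lit 5) (nat_lit 52) (nat_lit 5) (nat_lit 49) (nat_lit 5) (nat_lit 306) (nat_lit 278) (nat_lit 196)) (XT.lf (nat_lit 0) (nat_lit 4645701551) (nat_lit 304) (nat_lit 16184108263) (nat_lit 76) (nat_lit 1589840779) (nat_lit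 45) (nat_lit 5) (nat_lit 49) (nat_lit 5) (nat_lit 46) (nat_lit 5) (nat_lit 307) (nat_lit 278) (nat_lit 195))))) (XT.nd (nat_lit 156) (nat_lit 228) (nat_lit 0) (XT.nd (nat_lit 78) (nat_lit 228) (nat_lit 0) (XT.lf (nat_lit 0) (nat_lit 8528483886) (nat_lit 304) (nat_lit 5294278576) (nat_lit 76) (nat_lit 9313644535) (nat_lit 45) (nat_lit 5) (nat_lit 49) (nat_lit 5) (nat_lit 46) (nat_lit 5) (nat_lit 308) (nat_lit 278) (nat_lit 194)) (XT.lf (nat_lit 0) (nat_lit 6324602402) (nat_lit 228) (nat_lit 6366754337) (nat_lit 304) (nat_lit 11193364052) (nat_lit 42) (nat_lit 5) (nat_lit 45) (nat_lit 5) (nat_lit 46) (nat_lit 5) (nat_lit 309) (nat_lit 278) (nat_lit 193))) (XT.nd (nat_lit 78) (nat_lit 228) (nat_lit 0) (XT.lf (nat_lit 0) (nat_lit 17163792468) (nat_lit 304) (nat_lit 6000169108) (nat_lit 76) (nat_lit 1501434057) (nat_lit 42) (nat_lit 5) (nat_lit 46) (nat_lit 5) (nat_lit 43) (nat_lit 5) (nat_lit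 310) (nat_lit 278) (nat_lit 192)) (XT.nd (nat_lit 78) (nat_lit 76) (nat_lit 0) (XT.lf (nat_lit 0) (nat_lit 6215050667) (nat_lit 152) (nat_lit 15834265217) (nat_lit 228) (nat_lit 3426330584) (nat_lit 40) (nat_lit 5) (nat_lit 42) (nat_lit 5) (nat_lit 43) (nat_lit 5) (nat_lit 311) (nat_lit 278) (nat_lit 191)) (XT.lf (nat_lit 0) (nat_lit 916852010) (nat_lit 228) (nat_lit 7104365715) (nat_lit 76) (nat_lit 18299968647) (nat_lit 39) (nat_lit 5) (nat_lit 42) (nat_lit 5) (nat_lit 40) (nat_lit 5) (nat_lit 312) (nat_lit 278) (nat_lit 190))))))))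
noncomputable def xc159 : XT := (XT.nd (nat_lit 1560) (nat_lit 760) (nat_lit 0) (XT.nd (nat_lit 780) (nat_lit 608) (nat_lit 0) (XT.nd (nat_lit 390) (nat_lit 380) (nat_lit 0) (XT.nd (nat_lit 156) (nat_lit 304) (nat_lit 0) (XT.nd (nat_lit 78) (nat_lit 0) (nat_lit 0) (XT.lf (nat_lit 0) (nat_lit 5446043514) (nat_lit 304) (nat_lit 21435768107) (nat_lit 76) (nat_lit 320196764) (nat_lit 36) (nat_lit 5) (nat_lit 40) (nat_lit 5) (nat_lit 37) (nat_lit 5) (nat_lit 313) (nat_lit 278) (nat_lit 189)) (XT.lf (nat_lit 0) (nat_lit 10444398538) (nat_lit 304) (nat_lit 8744084618) (nat_lit 76) (nat_lit 8926265933) (nat_lit 36) (nat_lit 5) (nat_lit 40) (nat_lit 5) (nat_lit 37) (nat_lit 5) (nat_lit 314) (nat_lit 278) (nat_lit 188))) (XT.nd (nat_lit 78) (nat_lit 152) (nat_lit 0) (XT.lf (nat_lit 0) (nat_lit 4717176182) (nat_lit 152) (nat_lit 11038591385) (nat_lit 228) (nat_lit 13314216628) (nat_lit 34) (nat_lit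 5) (nat_lit 36) (nat_lit 5) (nat_lit 37) (nat_lit 5) (nat_lit 315) (nat_lit 278) (nat_lit 187)) (XT.nd (nat_lit 78) (nat_lit 152) (nat_lit 0) (XT.lf (nat_lit 0) (nat_lit 19139346776) (nat_lit 152) (nat_lit 2331148411) (nat_lit 228) (nat_lit 8595607962) (nat_lit 34) (nat_lit 5) (nat_lit 36) (nat_lit 5) (nat_lit 37) (nat_lit 5) (nat_lit 316) (nat_lit 278) (nat_lit 186)) (XT.lf (nat_lit 0) (nat_lit 3149657684) (nat_lit 152) (nat_lit 24466939990) (nat_lit 228) (nat_lit 3488159501) (nat_lit 32) (nat_lit 5) (nat_lit 34) (nat_lit 5) (nat_lit 35) (nat_lit 5) (nat_lit 317) (nat_lit 278) (nat_lit 185))))) (XT.nd (nat_lit 156) (nat_lit 152) (nat_lit 0) (XT.nd (nat_lit 78) (nat_lit 152) (nat_lit 0) (XT.lf (nat_lit 0) (nat_lit 2031139655) (nat_lit 228) (nat_lit 13962850524) (nat_lit 76) (nat_lit 16189076348) (nat_lit 31) (nat_lit 5) (nat_lit 34) (nat_lit 5) (nat_lit 32) (nat_lit 5) (nat_lit 318)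 (nat_lit 278) (nat_lit 184)) (XT.lf (nat_lit 0) (nat_lit 678805387) (nat_lit 152) (nat_lit 7031619102) (nat_lit 228) (nat_lit 25601954967) (nat_lit 29) (nat_lit 5) (nat_lit 31) (nat_lit 5) (nat_lit 32) (nat_lit 5) (nat_lit 319) (nat_lit 278) (nat_lit 183))) (XT.nd (nat_lit 78) (nat_lit 152) (nat_lit 0) (XT.lf (nat_lit 0) (nat_lit 13941941091) (nat_lit 228) (nat_lit 18004941772) (nat_lit 76) (nat_lit 2537870880) (nat_lit 29) (nat_lit 5) (nat_lit 32) (nat_lit 5) (nat_lit 30) (nat_lit 5) (nat_lit 320) (nat_lit 278) (nat_lit 182)) (XT.nd (nat_lit 78) (nat_lit 152) (nat_lit 0) (XT.lf (nat_lit 0) (nat_lit 20591527435) (nat_lit 228) (nat_lit 2774333640) (nat_lit 76) (nat_lit 12344569631) (nat_lit 29) (nat_lit 5) (nat_lit 32) (nat_lit 5) (nat_lit 30) (nat_lit 5) (nat_lit 321) (nat_lit 278) (nat_lit 181)) (XT.lf (nat_lit 0) (nat_lit 13640890648) (nat_lit 152) (nat_lit 14137314473) (nat_lit 228)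 (nat_lit 9208964039) (nat_lit 27) (nat_lit 5) (nat_lit 29) (nat_lit 5) (nat_lit 30) (nat_lit 5) (nat_lit 322) (nat_lit 278) (nat_lit 180)))))) (XT.nd (nat_lit 390) (nat_lit 304) (nat_lit 0) (XT.nd (nat_lit 156) (nat_lit 152) (nat_lit 0) (XT.nd (nat_lit 78) (nat_lit 152) (nat_lit 0) (XT.lf (nat_lit 0) (nat_lit 30959904681) (nat_lit 152) (nat_lit 4403126809) (nat_lit 228) (nat_lit 2962780156) (nat_lit 27) (nat_lit 5) (nat_lit 29) (nat_lit 5) (nat_lit 30) (nat_lit 5) (nat_lit 323) (nat_lit 278) (nat_lit 179)) (XT.lf (nat_lit 0) (nat_lit 3717572983) (nat_lit 152) (nat_lit 30162204323) (nat_lit 76) (nat_lit 5836961848) (nat_lit 25) (nat_lit 5) (nat_lit 27) (nat_lit 5) (nat_lit 26) (nat_lit 5) (nat_lit 324) (nat_lit 278) (nat_lit 178))) (XT.nd (nat_lit 78) (nat_lit 152) (nat_lit 0) (XT.lf (nat_lit 0) (nat_lit 10823532534) (nat_lit 152) (nat_lit 13730080438) (nat_lit 76) (nat_lit 16611620458)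 (nat_lit 25) (nat_lit 5) (nat_lit 27) (nat_lit 5) (nat_lit 26) (nat_lit 5) (nat_lit 325) (nat_lit 278) (nat_lit 177)) (XT.nd (nat_lit 78) (nat_lit 0) (nat_lit 0) (XT.lf (nat_lit 0) (nat_lit 3627334167) (nat_lit 152) (nat_lit 14706645878) (nat_lit 228) (nat_lit 24349719336) (nat_lit 23) (nat_lit 5) (nat_lit 25) (nat_lit 5) (nat_lit 26) (nat_lit 5) (nat_lit 326) (nat_lit 278) (nat_lit 176)) (XT.lf (nat_lit 0) (nat_lit 22317084281) (nat_lit 152) (nat_lit 4128112088) (nat_lit 228) (nat_lit 17821636090) (nat_lit 23) (nat_lit 5) (nat_lit 25) (nat_lit 5) (nat_lit 26) (nat_lit 5) (nat_lit 327) (nat_lit 278) (nat_lit 175))))) (XT.nd (nat_lit 156) (nat_lit 228) (nat_lit 0) (XT.nd (nat_lit 78) (nat_lit 76) (nat_lit 0) (XT.lf (nat_lit 0) (nat_lit 35063934845) (nat_lit 228) (nat_lit 4108677664) (nat_lit 76) (nat_lit 6751417474) (nat_lit 23) (nat_lit 5) (nat_lit 26) (nat_lit 5) (nat_lit 24) (nat_lit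 4) (nat_lit 328) (nat_lit 278) (nat_lit 174)) (XT.lf (nat_lit 0) (nat_lit 15026366959) (nat_lit 76) (nat_lit 29382848713) (nat_lit 152) (nat_lit 3240097019) (nat_lit 22) (nat_lit 5) (nat_lit 23) (nat_lit 5) (nat_lit 24) (nat_lit 4) (nat_lit 329) (nat_lit 278) (nat_lit 173))) (XT.nd (nat_lit 78) (nat_lit 152) (nat_lit 0) (XT.lf (nat_lit 0) (nat_lit 4672604653) (nat_lit 152) (nat_lit 14283429012) (nat_lit 76) (nat_lit 30497910268) (nat_lit 21) (nat_lit 5) (nat_lit 23) (nat_lit 5) (nat_lit 22) (nat_lit 5) (nat_lit 330) (nat_lit 278) (nat_lit 172)) (XT.nd (nat_lit 78) (nat_lit 0) (nat_lit 0) (XT.lf (nat_lit 0) (nat_lit 5071421776) (nat_lit 152) (nat_lit 7873485542) (nat_lit 228) (nat_lit 38397605704) (nat_lit 19) (nat_lit 5) (nat_lit 21) (nat_lit 5) (nat_lit 22) (nat_lit 5) (nat_lit 331) (nat_lit 278) (nat_lit 171)) (XT.lf (nat_lit 0) (nat_lit 21929181381) (nat_lit 228) (nat_lit 27497143577)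 (nat_lit 76) (nat_lit 3884272381) (nat_lit 19) (nat_lit 5) (nat_lit 22) (nat_lit 5) (nat_lit 20) (nat_lit 4) (nat_lit 332) (nat_lit 278) (nat_lit 170))))))) (XT.nd (nat_lit 780) (nat_lit 380) (nat_lit 0) (XT.nd (nat_lit 390) (nat_lit 76) (nat_lit 0) (XT.nd (nat_lit 156) (nat_lit 228) (nat_lit 0) (XT.nd (nat_lit 78) (nat_lit 76) (nat_lit 0) (XT.lf (nat_lit 0) (nat_lit 31485780798) (nat_lit 228) (nat_lit 7923964341) (nat_lit 76) (nat_lit 15961189526) (nat_lit 19) (nat_lit 5) (nat_lit 22) (nat_lit 5) (nat_lit 20) (nat_lit 4) (nat_lit 333) (nat_lit 278) (nat_lit 169)) (XT.lf (nat_lit 0) (nat_lit 13035183731) (nat_lit 76) (nat_lit 28682864217) (nat_lit 152) (nat_lit 15806353182) (nat_lit 18) (nat_lit 5) (nat_lit 19) (nat_lit 5) (nat_lit 20) (nat_lit 4) (nat_lit 334) (nat_lit 278) (nat_lit 168))) (XT.nd (nat_lit 78) (nat_lit 228) (nat_lit 0) (XT.lf (nat_lit 0) (nat_lit 35307653581) (nat_lit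 76) (nat_lit 17282911407) (nat_lit 152) (nat_lit 7188548069) (nat_lit 18) (nat_lit 5) (nat_lit 19) (nat_lit 5) (nat_lit 20) (nat_lit 4) (nat_lit 335) (nat_lit 278) (nat_lit 167)) (XT.nd (nat_lit 78) (nat_lit 152) (nat_lit 0) (XT.lf (nat_lit 0) (nat_lit 1795225617) (nat_lit 152) (nat_lit 3491311503) (nat_lit 76) (nat_lit 56858844220) (nat_lit 17) (nat_lit 5) (nat_lit 19) (nat_lit 5) (nat_lit 18) (nat_lit 5) (nat_lit 336) (nat_lit 278) (nat_lit 166)) (XT.lf (nat_lit 0) (nat_lit 11399291869) (nat_lit 228) (nat_lit 45710602769) (nat_lit 76) (nat_lit 7493545260) (nat_lit 15) (nat_lit 5) (nat_lit 18) (nat_lit 5) (nat_lit 16) (nat_lit 4) (nat_lit 337) (nat_lit 278) (nat_lit 165))))) (XT.nd (nat_lit 156) (nat_lit 76) (nat_lit 0) (XT.nd (nat_lit 78) (nat_lit 0) (nat_lit 0) (XT.lf (nat_lit 0) (nat_lit 21625239407) (nat_lit 228) (nat_lit 24760729938) (nat_lit 76) (nat_lit 20791351403) (nat_lit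 15) (nat_lit 5) (nat_lit 18) (nat_lit 5) (nat_lit 16) (nat_lit 4) (nat_lit 338) (nat_lit 278) (nat_lit 164)) (XT.lf (nat_lit 0) (nat_lit 32357643450) (nat_lit 228) (nat_lit 2771987001) (nat_lit 76) (nat_lit 34750510338) (nat_lit 15) (nat_lit 5) (nat_lit 18) (nat_lit 5) (nat_lit 16) (nat_lit 4) (nat_lit 339) (nat_lit 278) (nat_lit 163))) (XT.nd (nat_lit 78) (nat_lit 0) (nat_lit 0) (XT.lf (nat_lit 0) (nat_lit 20979453728) (nat_lit 76) (nat_lit 22970151683) (nat_lit 152) (nat_lit 28752352497) (nat_lit 14) (nat_lit 5) (nat_lit 15) (nat_lit 5) (nat_lit 16) (nat_lit 4) (nat_lit 340) (nat_lit 278) (nat_lit 162)) (XT.nd (nat_lit 78) (nat_lit 0) (nat_lit 0) (XT.lf (nat_lit 0) (nat_lit 46006623197) (nat_lit 76) (nat_lit 10156970242) (nat_lit 152) (nat_lit 19499153861) (nat_lit 14) (nat_lit 5) (nat_lit 15) (nat_lit 5) (nat_lit 16) (nat_lit 4) (nat_lit 341) (nat_lit 278) (nat_lit 161)) (XT.lf (nat_lit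 0) (nat_lit 69035399392) (nat_lit 152) (nat_lit 6545758843) (nat_lit 0) (nat_lit 3188064687) (nat_lit 14) (nat_lit 5) (nat_lit 16) (nat_lit 4) (nat_lit 14) (nat_lit 4) (nat_lit 342) (nat_lit 278) (nat_lit 160)))))) (XT.nd (nat_lit 390) (nat_lit 152) (nat_lit 0) (XT.nd (nat_lit 156) (nat_lit 76) (nat_lit 0) (XT.nd (nat_lit 78) (nat_lit 0) (nat_lit 0) (XT.lf (nat_lit 0) (nat_lit 955798202) (nat_lit 152) (nat_lit 63897887696) (nat_lit 76) (nat_lit 17154300060) (nat_lit 12) (nat_lit 5) (nat_lit 14) (nat_lit 5) (nat_lit 13) (nat_lit 4) (nat_lit 343) (nat_lit 278) (nat_lit 159)) (XT.lf (nat_lit 0) (nat_lit 11961319643) (nat_lit 152) (nat_lit 41346034749) (nat_lit 76) (nat_lit 32087929583) (nat_lit 12) (nat_lit 5) (nat_lit 14) (nat_lit 5) (nat_lit 13) (nat_lit 4) (nat_lit 344) (nat_lit 278) (nat_lit 158))) (XT.nd (nat_lit 78) (nat_lit 76) (nat_lit 0) (XT.lf (nat_lit 0) (nat_lit 23513180032)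 (nat_lit 152) (nat_lit 17673736194) (nat_lit 76) (nat_lit 47765229730) (nat_lit 12) (nat_lit 5) (nat_lit 14) (nat_lit 5) (nat_lit 13) (nat_lit 4) (nat_lit 345) (nat_lit 278) (nat_lit 157)) (XT.nd (nat_lit 78) (nat_lit 0) (nat_lit 0) (XT.lf (nat_lit 0) (nat_lit 7412620739) (nat_lit 76) (nat_lit 28341994844) (nat_lit 152) (nat_lit 56926638449) (nat_lit 11) (nat_lit 5) (nat_lit 12) (nat_lit 5) (nat_lit 13) (nat_lit 4) (nat_lit 346) (nat_lit 278) (nat_lit 156)) (XT.lf (nat_lit 0) (nat_lit 34360190814) (nat_lit 76) (nat_lit 14543569729) (nat_lit 152) (nat_lit 47678277091) (nat_lit 11) (nat_lit 5) (nat_lit 12) (nat_lit 5) (nat_lit 13) (nat_lit 4) (nat_lit 347) (nat_lit 278) (nat_lit 155))))) (XT.nd (nat_lit 234) (nat_lit 76) (nat_lit 0) (XT.nd (nat_lit 78) (nat_lit 76) (nat_lit 0) (XT.lf (nat_lit 0) (nat_lit 62648761375) (nat_lit 76) (nat_lit 58100762) (nat_lit 152) (nat_lit 37971175217) (nat_lit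 11) (nat_lit 5) (nat_lit 12) (nat_lit 5) (nat_lit 13) (nat_lit 4) (nat_lit 348) (nat_lit 278) (nat_lit 154)) (XT.nd (nat_lit 78) (nat_lit 76) (nat_lit 0) (XT.lf (nat_lit 0) (nat_lit 77433301697) (nat_lit 152) (nat_lit 12869836215) (nat_lit 0) (nat_lit 14664041820) (nat_lit 11) (nat_lit 5) (nat_lit 13) (nat_lit 4) (nat_lit 11) (nat_lit 4) (nat_lit 349) (nat_lit 278) (nat_lit 153)) (XT.lf (nat_lit 0) (nat_lit 13988435573) (nat_lit 76) (nat_lit 79123762907) (nat_lit 76) (nat_lit 16347775716) (nat_lit 10) (nat_lit 4) (nat_lit 11) (nat_lit 5) (nat_lit 11) (nat_lit 4) (nat_lit 350) (nat_lit 278) (nat_lit 152)))) (XT.nd (nat_lit 78) (nat_lit 76) (nat_lit 0) (XT.lf (nat_lit 0) (nat_lit 42630623052) (nat_lit 76) (nat_lit 67159220482) (nat_lit 76) (nat_lit 4376826326) (nat_lit 10) (nat_lit 4) (nat_lit 11) (nat_lit 5) (nat_lit 11) (nat_lit 4) (nat_lit 351) (nat_lit 278) (nat_lit 151)) (XT.nd (nat_lit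 78) (nat_lit 0) (nat_lit 0) (XT.lf (nat_lit 0) (nat_lit 7927399851) (nat_lit 152) (nat_lit 46537326332) (nat_lit 76) (nat_lit 64637732794) (nat_lit 9) (nat_lit 5) (nat_lit 11) (nat_lit 5) (nat_lit 10) (nat_lit 4) (nat_lit 352) (nat_lit 278) (nat_lit 150)) (XT.lf (nat_lit 0) (nat_lit 20696838644) (nat_lit 152) (nat_lit 20365788114) (nat_lit 76) (nat_lit 83218970085) (nat_lit 9) (nat_lit 5) (nat_lit 11) (nat_lit 5) (nat_lit 10) (nat_lit 4) (nat_lit 353) (nat_lit 278) (nat_lit 149))))))))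
noncomputable def xc160 : XT := (XT.nd (nat_lit 1560) (nat_lit 152) (nat_lit 0) (XT.nd (nat_lit 780) (nat_lit 152) (nat_lit 0) (XT.nd (nat_lit 390) (nat_lit 152) (nat_lit 0) (XT.nd (nat_lit 156) (nat_lit 0) (nat_lit 0) (XT.nd (nat_lit 78) (nat_lit 0) (nat_lit 0) (XT.lf (nat_lit 0) (nat_lit 7344278330) (nat_lit 76) (nat_lit 26872365690) (nat_lit 152) (nat_lit 95497454205) (nat_lit 8) (nat_lit 5) (nat_lit 9) (nat_lit 5) (nat_lit 10) (nat_lit 4) (nat_lit 354) (nat_lit 278) (nat_lit 148)) (XT.lf (nat_lit 0) (nat_lit 37141873258) (nat_lit 76) (nat_lit 11612754155) (nat_lit 152) (nat_lit 86646489167) (nat_lit 8) (nat_lit 5) (nat_lit 9) (nat_lit 5) (nat_lit 10) (nat_lit 4) (nat_lit 355) (nat_lit 278) (nat_lit 147))) (XT.nd (nat_lit 78) (nat_lit 0) (nat_lit 0) (XT.lf (nat_lit 0) (nat_lit 64085738160) (nat_lit 152) (nat_lit 73016873603) (nat_lit 0) (nat_lit 4266563909) (nat_lit 8) (nat_lit 5)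 (nat_lit 10) (nat_lit 4) (nat_lit 8) (nat_lit 4) (nat_lit 356) (nat_lit 278) (nat_lit 146)) (XT.nd (nat_lit 78) (nat_lit 0) (nat_lit 0) (XT.lf (nat_lit 0) (nat_lit 80371280566) (nat_lit 152) (nat_lit 46707411515) (nat_lit 0) (nat_lit 20547553004) (nat_lit 8) (nat_lit 5) (nat_lit 10) (nat_lit 4) (nat_lit 8) (nat_lit 4) (nat_lit 357) (nat_lit 278) (nat_lit 145)) (XT.lf (nat_lit 0) (nat_lit 97468722093) (nat_lit 152) (nat_lit 19086907845) (nat_lit 0) (nat_lit 37640658045) (nat_lit 8) (nat_lit 5) (nat_lit 10) (nat_lit 4) (nat_lit 8) (nat_lit 4) (nat_lit 358) (nat_lit 278) (nat_lit 144))))) (XT.nd (nat_lit 156) (nat_lit 76) (nat_lit 0) (XT.nd (nat_lit 78) (nat_lit 0) (nat_lit 0) (XT.lf (nat_lit 0) (nat_lit 10238083108) (nat_lit 76) (nat_lit 105340532997) (nat_lit 76) (nat_lit 45508338961) (nat_lit 7) (nat_lit 4) (nat_lit 8) (nat_lit 5) (nat_lit 8) (nat_lit 4) (nat_lit 359) (nat_lit 278) (nat_lit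 143)) (XT.lf (nat_lit 0) (nat_lit 41687825526) (nat_lit 76) (nat_lit 93227203567) (nat_lit 76) (nat_lit 33391076210) (nat_lit 7) (nat_lit 4) (nat_lit 8) (nat_lit 5) (nat_lit 8) (nat_lit 4) (nat_lit 360) (nat_lit 278) (nat_lit 142))) (XT.nd (nat_lit 78) (nat_lit 76) (nat_lit 0) (XT.lf (nat_lit 0) (nat_lit 74706100374) (nat_lit 76) (nat_lit 80510046408) (nat_lit 76) (nat_lit 20670173031) (nat_lit 7) (nat_lit 4) (nat_lit 8) (nat_lit 5) (nat_lit 8) (nat_lit 4) (nat_lit 361) (nat_lit 278) (nat_lit 141)) (XT.nd (nat_lit 78) (nat_lit 76) (nat_lit 0) (XT.lf (nat_lit 0) (nat_lit 109371522593) (nat_lit 76) (nat_lit 67158782573) (nat_lit 76) (nat_lit 7315341558) (nat_lit 7) (nat_lit 4) (nat_lit 8) (nat_lit 5) (nat_lit 8) (nat_lit 4) (nat_lit 362) (nat_lit 278) (nat_lit 140)) (XT.lf (nat_lit 0) (nat_lit 6490606656) (nat_lit 152) (nat_lit 46541095119) (nat_lit 76) (nat_lit 139166100681) (nat_lit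 6) (nat_lit 5) (nat_lit 8) (nat_lit 5) (nat_lit 7) (nat_lit 4) (nat_lit 363) (nat_lit 278) (nat_lit 139)))))) (XT.nd (nat_lit 390) (nat_lit 76) (nat_lit 0) (XT.nd (nat_lit 156) (nat_lit 0) (nat_lit 0) (XT.nd (nat_lit 78) (nat_lit 76) (nat_lit 0) (XT.lf (nat_lit 0) (nat_lit 20739150231) (nat_lit 152) (nat_lit 17334816745) (nat_lit 76) (nat_lit 162887696541) (nat_lit 6) (nat_lit 5) (nat_lit 8) (nat_lit 5) (nat_lit 7) (nat_lit 4) (nat_lit 364) (nat_lit 278) (nat_lit 138)) (XT.lf (nat_lit 0) (nat_lit 13769161903) (nat_lit 76) (nat_lit 22144164185) (nat_lit 152) (nat_lit 174239732041) (nat_lit 5) (nat_lit 5) (nat_lit 6) (nat_lit 5) (nat_lit 7) (nat_lit 4) (nat_lit 365) (nat_lit 278) (nat_lit 137))) (XT.nd (nat_lit 78) (nat_lit 0) (nat_lit 0) (XT.lf (nat_lit 0) (nat_lit 47026905794) (nat_lit 76) (nat_lit 5111141755) (nat_lit 152) (nat_lit 167651383801) (nat_lit 5) (nat_lit 5) (nat_lit 6) (nat_lit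 5) (nat_lit 7) (nat_lit 4) (nat_lit 366) (nat_lit 278) (nat_lit 136)) (XT.nd (nat_lit 78) (nat_lit 0) (nat_lit 0) (XT.lf (nat_lit 0) (nat_lit 69371759074) (nat_lit 152) (nat_lit 148162681900) (nat_lit 0) (nat_lit 12363295244) (nat_lit 5) (nat_lit 5) (nat_lit 7) (nat_lit 4) (nat_lit 5) (nat_lit 4) (nat_lit 367) (nat_lit 278) (nat_lit 135)) (XT.lf (nat_lit 0) (nat_lit 87549348584) (nat_lit 152) (nat_lit 122419649477) (nat_lit 0) (nat_lit 30538349300) (nat_lit 5) (nat_lit 5) (nat_lit 7) (nat_lit 4) (nat_lit 5) (nat_lit 4) (nat_lit 368) (nat_lit 278) (nat_lit 134))))) (XT.nd (nat_lit 156) (nat_lit 76) (nat_lit 0) (XT.nd (nat_lit 78) (nat_lit 0) (nat_lit 0) (XT.lf (nat_lit 0) (nat_lit 106634296807) (nat_lit 152) (nat_lit 95392336107) (nat_lit 0) (nat_lit 49620882805) (nat_lit 5) (nat_lit 5) (nat_lit 7) (nat_lit 4) (nat_lit 5) (nat_lit 4) (nat_lit 369) (nat_lit 278) (nat_lit 133)) (XT.lf (nat_lit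 0) (nat_lit 126672044097) (nat_lit 152) (nat_lit 67016391043) (nat_lit 0) (nat_lit 69656330364) (nat_lit 5) (nat_lit 5) (nat_lit 7) (nat_lit 4) (nat_lit 5) (nat_lit 4) (nat_lit 370) (nat_lit 278) (nat_lit 132))) (XT.nd (nat_lit 78) (nat_lit 76) (nat_lit 0) (XT.lf (nat_lit 0) (nat_lit 147710299376) (nat_lit 152) (nat_lit 37224252512) (nat_lit 0) (nat_lit 90692395423) (nat_lit 5) (nat_lit 5) (nat_lit 7) (nat_lit 4) (nat_lit 5) (nat_lit 4) (nat_lit 371) (nat_lit 278) (nat_lit 131)) (XT.nd (nat_lit 78) (nat_lit 76) (nat_lit 0) (XT.lf (nat_lit 0) (nat_lit 169799153728) (nat_lit 152) (nat_lit 5944986851) (nat_lit 0) (nat_lit 112779163851) (nat_lit 5) (nat_lit 5) (nat_lit 7) (nat_lit 4) (nat_lit 5) (nat_lit 4) (nat_lit 372) (nat_lit 278) (nat_lit 130)) (XT.lf (nat_lit 0) (nat_lit 27785179653) (nat_lit 76) (nat_lit 165639824532) (nat_lit 76) (nat_lit 108617848060) (nat_lit 4) (nat_lit 4) (nat_lit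 5) (nat_lit 5) (nat_lit 5) (nat_lit 4) (nat_lit 373) (nat_lit 278) (nat_lit 129))))))) (XT.nd (nat_lit 780) (nat_lit 76) (nat_lit 0) (XT.nd (nat_lit 390) (nat_lit 76) (nat_lit 0) (XT.nd (nat_lit 156) (nat_lit 0) (nat_lit 0) (XT.nd (nat_lit 78) (nat_lit 0) (nat_lit 0) (XT.lf (nat_lit 0) (nat_lit 63405927384) (nat_lit 76) (nat_lit 154925673175) (nat_lit 76) (nat_lit 97901804709) (nat_lit 4) (nat_lit 4) (nat_lit 5) (nat_lit 5) (nat_lit 5) (nat_lit 4) (nat_lit 374) (nat_lit 278) (nat_lit 128)) (XT.lf (nat_lit 0) (nat_lit 100805499532) (nat_lit 76) (nat_lit 143676857854) (nat_lit 76) (nat_lit 86651187488) (nat_lit 4) (nat_lit 4) (nat_lit 5) (nat_lit 5) (nat_lit 5) (nat_lit 4) (nat_lit 375) (nat_lit 278) (nat_lit 127))) (XT.nd (nat_lit 78) (nat_lit 0) (nat_lit 0) (XT.lf (nat_lit 0) (nat_lit 140072942697) (nat_lit 76) (nat_lit 131866595675) (nat_lit 76) (nat_lit 74839209214) (nat_lit 4) (nat_lit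 4) (nat_lit 5) (nat_lit 5) (nat_lit 5) (nat_lit 4) (nat_lit 376) (nat_lit 278) (nat_lit 126)) (XT.nd (nat_lit 78) (nat_lit 0) (nat_lit 0) (XT.lf (nat_lit 0) (nat_lit 181301750791) (nat_lit 76) (nat_lit 119466766966) (nat_lit 76) (nat_lit 62437746129) (nat_lit 4) (nat_lit 4) (nat_lit 5) (nat_lit 5) (nat_lit 5) (nat_lit 4) (nat_lit 377) (nat_lit 278) (nat_lit 125)) (XT.lf (nat_lit 0) (nat_lit 224590087644) (nat_lit 76) (nat_lit 106447848326) (nat_lit 76) (nat_lit 49417270939) (nat_lit 4) (nat_lit 4) (nat_lit 5) (nat_lit 5) (nat_lit 5) (nat_lit 4) (nat_lit 378) (nat_lit 278) (nat_lit 124))))) (XT.nd (nat_lit 156) (nat_lit 76) (nat_lit 0) (XT.nd (nat_lit 78) (nat_lit 0) (nat_lit 0) (XT.lf (nat_lit 0) (nat_lit 270041020723) (nat_lit 76) (nat_lit 92778842328) (nat_lit 76) (nat_lit 35746782515) (nat_lit 4) (nat_lit 4) (nat_lit 5) (nat_lit 5) (nat_lit 5) (nat_lit 4) (nat_lit 379) (nat_lit 278)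 (nat_lit 123)) (XT.lf (nat_lit 0) (nat_lit 317762766536) (nat_lit 76) (nat_lit 78427203721) (nat_lit 76) (nat_lit 21393732072) (nat_lit 4) (nat_lit 4) (nat_lit 5) (nat_lit 5) (nat_lit 5) (nat_lit 4) (nat_lit 380) (nat_lit 278) (nat_lit 122))) (XT.nd (nat_lit 78) (nat_lit 76) (nat_lit 0) (XT.lf (nat_lit 0) (nat_lit 367868948288) (nat_lit 76) (nat_lit 63358761937) (nat_lit 76) (nat_lit 6323945683) (nat_lit 4) (nat_lit 4) (nat_lit 5) (nat_lit 5) (nat_lit 5) (nat_lit 4) (nat_lit 381) (nat_lit 278) (nat_lit 121)) (XT.nd (nat_lit 78) (nat_lit 0) (nat_lit 0) (XT.lf (nat_lit 0) (nat_lit 9194447150) (nat_lit 152) (nat_lit 38187480171) (nat_lit 76) (nat_lit 411128706849) (nat_lit 3) (nat_lit 5) (nat_lit 5) (nat_lit 5) (nat_lit 4) (nat_lit 4) (nat_lit 382) (nat_lit 278) (nat_lit 120)) (XT.lf (nat_lit 0) (nat_lit 25275428831) (nat_lit 152) (nat_lit 5222687322) (nat_lit 76) (nat_lit 450014302167)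 (nat_lit 3) (nat_lit 5) (nat_lit 5) (nat_lit 5) (nat_lit 4) (nat_lit 4) (nat_lit 383) (nat_lit 278) (nat_lit 119)))))) (XT.nd (nat_lit 32760) (nat_lit 0) (nat_lit 6764) (XT.nd (nat_lit 32526) (nat_lit 0) (nat_lit 6688) (XT.nd (nat_lit 32448) (nat_lit 0) (nat_lit 6688) (XT.lf (nat_lit 0) (nat_lit 30360622570) (nat_lit 76) (nat_lit 12273084999) (nat_lit 152) (nat_lit 460956921994) (nat_lit 2) (nat_lit 5) (nat_lit 3) (nat_lit 5) (nat_lit 4) (nat_lit 4) (nat_lit 384) (nat_lit 278) (nat_lit 118)) (XT.lf (nat_lit 0) (nat_lit 182245900) (nat_lit 0) (nat_lit 182245900) (nat_lit 684) (nat_lit 5006086826) (nat_lit 90) (nat_lit 5) (nat_lit 90) (nat_lit 3) (nat_lit 99) (nat_lit 3) (nat_lit 279) (nat_lit 279) (nat_lit 222))) (XT.nd (nat_lit 78) (nat_lit 0) (nat_lit 0) (XT.lf (nat_lit 0) (nat_lit 1385852271) (nat_lit 684) (nat_lit 5553814059) (nat_lit 760) (nat_lit 4036930551) (nat_lit 90) (nat_lit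 5) (nat_lit 99) (nat_lit 3) (nat_lit 100) (nat_lit 5) (nat_lit 280) (nat_lit 279) (nat_lit 221)) (XT.nd (nat_lit 78) (nat_lit 0) (nat_lit 76) (XT.lf (nat_lit 0) (nat_lit 2045113019) (nat_lit 684) (nat_lit 516348313) (nat_lit 760) (nat_lit 8663943795) (nat_lit 90) (nat_lit 5) (nat_lit 99) (nat_lit 3) (nat_lit 100) (nat_lit 5) (nat_lit 281) (nat_lit 279) (nat_lit 220)) (XT.lf (nat_lit 0) (nat_lit 2812587927) (nat_lit 684) (nat_lit 6607314773) (nat_lit 760) (nat_lit 2063059071) (nat_lit 91) (nat_lit 5) (nat_lit 100) (nat_lit 5) (nat_lit 101) (nat_lit 5) (nat_lit 282) (nat_lit 279) (nat_lit 219))))) (XT.nd (nat_lit 156) (nat_lit 0) (nat_lit 76) (XT.nd (nat_lit 78) (nat_lit 0) (nat_lit 0) (XT.lf (nat_lit 0) (nat_lit 3636194866) (nat_lit 684) (nat_lit 1261137615) (nat_lit 760) (nat_lit 6855243033) (nat_lit 91) (nat_lit 5) (nat_lit 100) (nat_lit 5) (nat_lit 101) (nat_lit 5) (nat_lit 283) (nat_lit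 279) (nat_lit 218)) (XT.lf (nat_lit 76) (nat_lit 4475386232) (nat_lit 0) (nat_lit 63925578) (nat_lit 760) (nat_lit 7494505637) (nat_lit 92) (nat_lit 5) (nat_lit 91) (nat_lit 5) (nat_lit 101) (nat_lit 5) (nat_lit 284) (nat_lit 279) (nat_lit 217))) (XT.nd (nat_lit 78) (nat_lit 0) (nat_lit 0) (XT.lf (nat_lit 0) (nat_lit 5557342465) (nat_lit 684) (nat_lit 1885740416) (nat_lit 760) (nat_lit 4882611638) (nat_lit 92) (nat_lit 5) (nat_lit 101) (nat_lit 5) (nat_lit 102) (nat_lit 5) (nat_lit 285) (nat_lit 279) (nat_lit 216)) (XT.nd (nat_lit 78) (nat_lit 0) (nat_lit 76) (XT.lf (nat_lit 76) (nat_lit 4182824212) (nat_lit 0) (nat_lit 2481053184) (nat_lit 760) (nat_lit 5966465946) (nat_lit 93) (nat_lit 5) (nat_lit 92) (nat_lit 5) (nat_lit 102) (nat_lit 5) (nat_lit 286) (nat_lit 279) (nat_lit 215)) (XT.lf (nat_lit 0) (nat_lit 7873225260) (nat_lit 684) (nat_lit 2393287693) (nat_lit 760) (nat_lit 2681392616)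 (nat_lit 93) (nat_lit 5) (nat_lit 102) (nat_lit 5) (nat_lit 103) (nat_lit 5) (nat_lit 287) (nat_lit 279) (nat_lit 214))))))))
noncomputable def xc161 : XT := (XT.nd (nat_lit 1560) (nat_lit 1900) (nat_lit 0) (XT.nd (nat_lit 780) (nat_lit 1520) (nat_lit 0) (XT.nd (nat_lit 390) (nat_lit 684) (nat_lit 0) (XT.nd (nat_lit 156) (nat_lit 1216) (nat_lit 0) (XT.nd (nat_lit 78) (nat_lit 0) (nat_lit 76) (XT.lf (nat_lit 76) (nat_lit 4031232149) (nat_lit 0) (nat_lit 5189151787) (nat_lit 760) (nat_lit 4057147439) (nat_lit 94) (nat_lit 5) (nat_lit 93) (nat_lit 5) (nat_lit 103) (nat_lit 5) (nat_lit 288) (nat_lit 279) (nat_lit 213)) (XT.lf (nat_lit 0) (nat_lit 10653054506) (nat_lit 684) (nat_lit 2786260160) (nat_lit 76) (nat_lit 183466240) (nat_lit 94) (nat_lit 5) (nat_lit 103) (nat_lit 5) (nat_lit 95) (nat_lit 5) (nat_lit 289) (nat_lit 279) (nat_lit 212))) (XT.nd (nat_lit 78) (nat_lit 608) (nat_lit 0)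 (XT.lf (nat_lit 0) (nat_lit 4019570722) (nat_lit 684) (nat_lit 8261555370) (nat_lit 760) (nat_lit 1698026193) (nat_lit 85) (nat_lit 5) (nat_lit 94) (nat_lit 5) (nat_lit 95) (nat_lit 5) (nat_lit 290) (nat_lit 279) (nat_lit 211)) (XT.nd (nat_lit 78) (nat_lit 608) (nat_lit 0) (XT.lf (nat_lit 0) (nat_lit 11241967748) (nat_lit 684) (nat_lit 2772589017) (nat_lit 760) (nat_lit 337633165) (nat_lit 85) (nat_lit 5) (nat_lit 94) (nat_lit 5) (nat_lit 95) (nat_lit 5) (nat_lit 291) (nat_lit 279) (nat_lit 210)) (XT.lf (nat_lit 0) (nat_lit 1146647934) (nat_lit 608) (nat_lit 10610985132) (nat_lit 76) (nat_lit 2980897119) (nat_lit 77) (nat_lit 5) (nat_lit 85) (nat_lit 5) (nat_lit 78) (nat_lit 5) (nat_lit 292) (nat_lit 279) (nat_lit 209))))) (XT.nd (nat_lit 156) (nat_lit 304) (nat_lit 0) (XT.nd (nat_lit 78) (nat_lit 380) (nat_lit 0) (XT.lf (nat_lit 0) (nat_lit 2771045715) (nat_lit 608) (nat_lit 3379323280)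 (nat_lit 76) (nat_lit 8989718524) (nat_lit 77) (nat_lit 5) (nat_lit 85) (nat_lit 5) (nat_lit 78) (nat_lit 5) (nat_lit 293) (nat_lit 279) (nat_lit 208)) (XT.lf (nat_lit 0) (nat_lit 4332493974) (nat_lit 380) (nat_lit 191107426) (nat_lit 456) (nat_lit 11035811829) (nat_lit 72) (nat_lit 5) (nat_lit 77) (nat_lit 5) (nat_lit 78) (nat_lit 5) (nat_lit 294) (nat_lit 279) (nat_lit 207))) (XT.nd (nat_lit 78) (nat_lit 304) (nat_lit 0) (XT.lf (nat_lit 0) (nat_lit 6496639539) (nat_lit 456) (nat_lit 3566077871) (nat_lit 76) (nat_lit 5930380709) (nat_lit 72) (nat_lit 5) (nat_lit 78) (nat_lit 5) (nat_lit 73) (nat_lit 5) (nat_lit 295) (nat_lit 279) (nat_lit 206)) (XT.nd (nat_lit 78) (nat_lit 0) (nat_lit 0) (XT.lf (nat_lit 0) (nat_lit 4602149789) (nat_lit 304) (nat_lit 4022095540) (nat_lit 380) (nat_lit 7821460071) (nat_lit 68) (nat_lit 5) (nat_lit 72) (nat_lit 5) (nat_lit 73) (nat_lit 5) (nat_lit 296)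 (nat_lit 279) (nat_lit 205)) (XT.lf (nat_lit 0) (nat_lit 10937362963) (nat_lit 380) (nat_lit 3672989031) (nat_lit 76) (nat_lit 2306666788) (nat_lit 68) (nat_lit 5) (nat_lit 73) (nat_lit 5) (nat_lit 69) (nat_lit 5) (nat_lit 297) (nat_lit 279) (nat_lit 204)))))) (XT.nd (nat_lit 390) (nat_lit 532) (nat_lit 0) (XT.nd (nat_lit 156) (nat_lit 684) (nat_lit 0) (XT.nd (nat_lit 78) (nat_lit 0) (nat_lit 0) (XT.lf (nat_lit 0) (nat_lit 4980097246) (nat_lit 304) (nat_lit 8512126443) (nat_lit 380) (nat_lit 3913400561) (nat_lit 64) (nat_lit 5) (nat_lit 68) (nat_lit 5) (nat_lit 69) (nat_lit 5) (nat_lit 298) (nat_lit 279) (nat_lit 203)) (XT.lf (nat_lit 0) (nat_lit 14174202851) (nat_lit 304) (nat_lit 2045765554) (nat_lit 380) (nat_lit 1696463849) (nat_lit 64) (nat_lit 5) (nat_lit 68) (nat_lit 5) (nat_lit 69) (nat_lit 5) (nat_lit 299) (nat_lit 279) (nat_lit 202))) (XT.nd (nat_lit 78) (nat_lit 304) (nat_lit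 0) (XT.lf (nat_lit 0) (nat_lit 756410201) (nat_lit 380) (nat_lit 13001092000) (nat_lit 76) (nat_lit 4687547377) (nat_lit 59) (nat_lit 5) (nat_lit 64) (nat_lit 5) (nat_lit 60) (nat_lit 5) (nat_lit 300) (nat_lit 279) (nat_lit 201)) (XT.nd (nat_lit 78) (nat_lit 304) (nat_lit 0) (XT.lf (nat_lit 0) (nat_lit 3356784705) (nat_lit 380) (nat_lit 3859240301) (nat_lit 76) (nat_lit 11778614086) (nat_lit 59) (nat_lit 5) (nat_lit 64) (nat_lit 5) (nat_lit 60) (nat_lit 5) (nat_lit 301) (nat_lit 279) (nat_lit 200)) (XT.lf (nat_lit 0) (nat_lit 5910495766) (nat_lit 304) (nat_lit 253643947) (nat_lit 380) (nat_lit 13403744394) (nat_lit 55) (nat_lit 5) (nat_lit 59) (nat_lit 5) (nat_lit 60) (nat_lit 5) (nat_lit 302) (nat_lit 279) (nat_lit 199))))) (XT.nd (nat_lit 156) (nat_lit 304) (nat_lit 0) (XT.nd (nat_lit 78) (nat_lit 228) (nat_lit 0) (XT.lf (nat_lit 0) (nat_lit 9273548578) (nat_lit 380) (nat_lit 3993870306)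 (nat_lit 76) (nat_lit 6894311150) (nat_lit 55) (nat_lit 5) (nat_lit 60) (nat_lit 5) (nat_lit 56) (nat_lit 5) (nat_lit 303) (nat_lit 279) (nat_lit 198)) (XT.lf (nat_lit 0) (nat_lit 6333470584) (nat_lit 228) (nat_lit 6293788393) (nat_lit 304) (nat_lit 8153589598) (nat_lit 52) (nat_lit 5) (nat_lit 55) (nat_lit 5) (nat_lit 56) (nat_lit 5) (nat_lit 304) (nat_lit 279) (nat_lit 197))) (XT.nd (nat_lit 78) (nat_lit 304) (nat_lit 0) (XT.lf (nat_lit 0) (nat_lit 16219591926) (nat_lit 304) (nat_lit 4147139984) (nat_lit 76) (nat_lit 1060665113) (nat_lit 52) (nat_lit 5) (nat_lit 56) (nat_lit 5) (nat_lit 53) (nat_lit 5) (nat_lit 305) (nat_lit 279) (nat_lit 196)) (XT.nd (nat_lit 78) (nat_lit 76) (nat_lit 0) (XT.lf (nat_lit 0) (nat_lit 6764025487) (nat_lit 228) (nat_lit 13423090615) (nat_lit 304) (nat_lit 1909397903) (nat_lit 49) (nat_lit 5) (nat_lit 52) (nat_lit 5) (nat_lit 53) (nat_lit 5) (nat_lit 306)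 (nat_lit 279) (nat_lit 195)) (XT.lf (nat_lit 0) (nat_lit 1562504519) (nat_lit 304) (nat_lit 4473827468) (nat_lit 76) (nat_lit 16758644267) (nat_lit 48) (nat_lit 5) (nat_lit 52) (nat_lit 5) (nat_lit 49) (nat_lit 5) (nat_lit 307) (nat_lit 279) (nat_lit 194))))))) (XT.nd (nat_lit 780) (nat_lit 836) (nat_lit 0) (XT.nd (nat_lit 390) (nat_lit 456) (nat_lit 0) (XT.nd (nat_lit 156) (nat_lit 380) (nat_lit 0) (XT.nd (nat_lit 78) (nat_lit 0) (nat_lit 0) (XT.lf (nat_lit 0) (nat_lit 5271460694) (nat_lit 304) (nat_lit 16443795509) (nat_lit 76) (nat_lit 1805176122) (nat_lit 45) (nat_lit 5) (nat_lit 49) (nat_lit 5) (nat_lit 46) (nat_lit 5) (nat_lit 308) (nat_lit 279) (nat_lit 193)) (XT.lf (nat_lit 0) (nat_lit 9329645286) (nat_lit 304) (nat_lit 5035641870) (nat_lit 76) (nat_lit 9908701337) (nat_lit 45) (nat_lit 5) (nat_lit 49) (nat_lit 5) (nat_lit 46) (nat_lit 5) (nat_lit 309) (nat_lit 279) (nat_lit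 192))) (XT.nd (nat_lit 78) (nat_lit 152) (nat_lit 0) (XT.lf (nat_lit 0) (nat_lit 7155742018) (nat_lit 228) (nat_lit 6535114315) (nat_lit 304) (nat_lit 11369375821) (nat_lit 42) (nat_lit 5) (nat_lit 45) (nat_lit 5) (nat_lit 46) (nat_lit 5) (nat_lit 310) (nat_lit 279) (nat_lit 191)) (XT.nd (nat_lit 78) (nat_lit 152) (nat_lit 0) (XT.lf (nat_lit 0) (nat_lit 18371766215) (nat_lit 304) (nat_lit 5794184611) (nat_lit 76) (nat_lit 1714770059) (nat_lit 42) (nat_lit 5) (nat_lit 46) (nat_lit 5) (nat_lit 43) (nat_lit 5) (nat_lit 311) (nat_lit 279) (nat_lit 190)) (XT.lf (nat_lit 0) (nat_lit 7023634976) (nat_lit 152) (nat_lit 16469046988) (nat_lit 228) (nat_lit 3239268171) (nat_lit 40) (nat_lit 5) (nat_lit 42) (nat_lit 5) (nat_lit 43) (nat_lit 5) (nat_lit 312) (nat_lit 279) (nat_lit 189))))) (XT.nd (nat_lit 156) (nat_lit 152) (nat_lit 0) (XT.nd (nat_lit 78) (nat_lit 228) (nat_lit 0) (XT.lf (nat_lit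 0) (nat_lit 1293083732) (nat_lit 228) (nat_lit 6974141018) (nat_lit 76) (nat_lit 19353108160) (nat_lit 39) (nat_lit 5) (nat_lit 42) (nat_lit 5) (nat_lit 40) (nat_lit 5) (nat_lit 313) (nat_lit 279) (nat_lit 188)) (XT.lf (nat_lit 0) (nat_lit 6042886669) (nat_lit 304) (nat_lit 22015890792) (nat_lit 76) (nat_lit 486729698) (nat_lit 36) (nat_lit 5) (nat_lit 40) (nat_lit 5) (nat_lit 37) (nat_lit 5) (nat_lit 314) (nat_lit 279) (nat_lit 187))) (XT.nd (nat_lit 78) (nat_lit 152) (nat_lit 0) (XT.lf (nat_lit 0) (nat_lit 11275705112) (nat_lit 304) (nat_lit 8713035782) (nat_lit 76) (nat_lit 9515934559) (nat_lit 36) (nat_lit 5) (nat_lit 40) (nat_lit 5) (nat_lit 37) (nat_lit 5) (nat_lit 315) (nat_lit 279) (nat_lit 186)) (XT.nd (nat_lit 78) (nat_lit 0) (nat_lit 0) (XT.lf (nat_lit 0) (nat_lit 5413735589) (nat_lit 152) (nat_lit 11431381418) (nat_lit 228) (nat_lit 13662948574) (nat_lit 34) (nat_lit 5) (nat_lit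 36) (nat_lit 5) (nat_lit 37) (nat_lit 5) (nat_lit 316) (nat_lit 279) (nat_lit 185)) (XT.lf (nat_lit 0) (nat_lit 20535076589) (nat_lit 152) (nat_lit 2296144369) (nat_lit 228) (nat_lit 8723503708) (nat_lit 34) (nat_lit 5) (nat_lit 36) (nat_lit 5) (nat_lit 37) (nat_lit 5) (nat_lit 317) (nat_lit 279) (nat_lit 184)))))) (XT.nd (nat_lit 390) (nat_lit 456) (nat_lit 0) (XT.nd (nat_lit 156) (nat_lit 152) (nat_lit 0) (XT.nd (nat_lit 78) (nat_lit 76) (nat_lit 0) (XT.lf (nat_lit 0) (nat_lit 3750944902) (nat_lit 152) (nat_lit 25529190076) (nat_lit 228) (nat_lit 3365416503) (nat_lit 32) (nat_lit 5) (nat_lit 34) (nat_lit 5) (nat_lit 35) (nat_lit 5) (nat_lit 318) (nat_lit 279) (nat_lit 183)) (XT.lf (nat_lit 0) (nat_lit 2406639767) (nat_lit 228) (nat_lit 14228984929) (nat_lit 76) (nat_lit 17142618472) (nat_lit 31) (nat_lit 5) (nat_lit 34) (nat_lit 5) (nat_lit 32) (nat_lit 5) (nat_lit 319) (nat_lit 279)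 (nat_lit 182))) (XT.nd (nat_lit 78) (nat_lit 0) (nat_lit 0) (XT.lf (nat_lit 0) (nat_lit 1137785904) (nat_lit 152) (nat_lit 7225694097) (nat_lit 228) (nat_lit 26600875495) (nat_lit 29) (nat_lit 5) (nat_lit 31) (nat_lit 5) (nat_lit 32) (nat_lit 5) (nat_lit 320) (nat_lit 279) (nat_lit 181)) (XT.nd (nat_lit 78) (nat_lit 0) (nat_lit 0) (XT.lf (nat_lit 0) (nat_lit 14896174715) (nat_lit 228) (nat_lit 18489737365) (nat_lit 76) (nat_lit 2809968982) (nat_lit 29) (nat_lit 5) (nat_lit 32) (nat_lit 5) (nat_lit 30) (nat_lit 5) (nat_lit 321) (nat_lit 279) (nat_lit 180)) (XT.lf (nat_lit 0) (nat_lit 21865995777) (nat_lit 228) (nat_lit 2517382231) (nat_lit 76) (nat_lit 13100088167) (nat_lit 29) (nat_lit 5) (nat_lit 32) (nat_lit 5) (nat_lit 30) (nat_lit 5) (nat_lit 322) (nat_lit 279) (nat_lit 179))))) (XT.nd (nat_lit 156) (nat_lit 304) (nat_lit 0) (XT.nd (nat_lit 78) (nat_lit 0) (nat_lit 0) (XT.lf (nat_lit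 0) (nat_lit 14712221528) (nat_lit 152) (nat_lit 14694202147) (nat_lit 228) (nat_lit 9417908558) (nat_lit 27) (nat_lit 5) (nat_lit 29) (nat_lit 5) (nat_lit 30) (nat_lit 5) (nat_lit 323) (nat_lit 279) (nat_lit 178)) (XT.lf (nat_lit 0) (nat_lit 32878648818) (nat_lit 152) (nat_lit 4480446912) (nat_lit 228) (nat_lit 2871391846) (nat_lit 27) (nat_lit 5) (nat_lit 29) (nat_lit 5) (nat_lit 30) (nat_lit 5) (nat_lit 324) (nat_lit 279) (nat_lit 177))) (XT.nd (nat_lit 78) (nat_lit 152) (nat_lit 0) (XT.lf (nat_lit 0) (nat_lit 4132365228) (nat_lit 152) (nat_lit 31288544670) (nat_lit 76) (nat_lit 6270021877) (nat_lit 25) (nat_lit 5) (nat_lit 27) (nat_lit 5) (nat_lit 26) (nat_lit 5) (nat_lit 325) (nat_lit 279) (nat_lit 176)) (XT.nd (nat_lit 78) (nat_lit 152) (nat_lit 0) (XT.lf (nat_lit 0) (nat_lit 11582722109) (nat_lit 152) (nat_lit 14052994109) (nat_lit 76) (nat_lit 17576689040) (nat_lit 25) (nat_lit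 5) (nat_lit 27) (nat_lit 5) (nat_lit 26) (nat_lit 5) (nat_lit 326) (nat_lit 279) (nat_lit 175)) (XT.lf (nat_lit 0) (nat_lit 4166426866) (nat_lit 152) (nat_lit 15297468667) (nat_lit 228) (nat_lit 25343147806) (nat_lit 23) (nat_lit 5) (nat_lit 25) (nat_lit 5) (nat_lit 26) (nat_lit 5) (nat_lit 327) (nat_lit 279) (nat_lit 174))))))))
noncomputable def xc162 : XT := (XT.nd (nat_lit 1560) (nat_lit 456) (nat_lit 0) (XT.nd (nat_lit 780) (nat_lit 456) (nat_lit 0) (XT.nd (nat_lit 390) (nat_lit 152) (nat_lit 0) (XT.nd (nat_lit 156) (nat_lit 304) (nat_lit 0) (XT.nd (nat_lit 78) (nat_lit 0) (nat_lit 0) (XT.lf (nat_lit 0) (nat_lit 23773629914) (nat_lit 152) (nat_lit 4196889592) (nat_lit 228) (nat_lit 18499329803) (nat_lit 23) (nat_lit 5) (nat_lit 25) (nat_lit 5) (nat_lit 26) (nat_lit 5) (nat_lit 328) (nat_lit 279) (nat_lit 173)) (XT.lf (nat_lit 0) (nat_lit 37012571663) (nat_lit 228) (nat_lit 3981856850)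 (nat_lit 76) (nat_lit 7215867530) (nat_lit 23) (nat_lit 5) (nat_lit 26) (nat_lit 5) (nat_lit 24) (nat_lit 4) (nat_lit 329) (nat_lit 279) (nat_lit 172))) (XT.nd (nat_lit 78) (nat_lit 228) (nat_lit 0) (XT.lf (nat_lit 0) (nat_lit 16104581057) (nat_lit 76) (nat_lit 30716332563) (nat_lit 152) (nat_lit 3201147195) (nat_lit 22) (nat_lit 5) (nat_lit 23) (nat_lit 5) (nat_lit 24) (nat_lit 4) (nat_lit 330) (nat_lit 279) (nat_lit 171)) (XT.nd (nat_lit 78) (nat_lit 152) (nat_lit 0) (XT.lf (nat_lit 0) (nat_lit 5091494762) (nat_lit 152) (nat_lit 14680004468) (nat_lit 76) (nat_lit 32145737726) (nat_lit 21) (nat_lit 5) (nat_lit 23) (nat_lit 5) (nat_lit 22) (nat_lit 5) (nat_lit 331) (nat_lit 279) (nat_lit 170)) (XT.lf (nat_lit 0) (nat_lit 5637466343) (nat_lit 152) (nat_lit 8136002904) (nat_lit 228) (nat_lit 40126969139) (nat_lit 19) (nat_lit 5) (nat_lit 21) (nat_lit 5) (nat_lit 22) (nat_lit 5) (nat_lit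 332) (nat_lit 279) (nat_lit 169))))) (XT.nd (nat_lit 156) (nat_lit 152) (nat_lit 0) (XT.nd (nat_lit 78) (nat_lit 0) (nat_lit 0) (XT.lf (nat_lit 0) (nat_lit 23200273109) (nat_lit 228) (nat_lit 28567595006) (nat_lit 76) (nat_lit 4199399405) (nat_lit 19) (nat_lit 5) (nat_lit 22) (nat_lit 5) (nat_lit 20) (nat_lit 4) (nat_lit 333) (nat_lit 279) (nat_lit 168)) (XT.lf (nat_lit 0) (nat_lit 33226386655) (nat_lit 228) (nat_lit 8030252319) (nat_lit 76) (nat_lit 16874404626) (nat_lit 19) (nat_lit 5) (nat_lit 22) (nat_lit 5) (nat_lit 20) (nat_lit 4) (nat_lit 334) (nat_lit 279) (nat_lit 167))) (XT.nd (nat_lit 78) (nat_lit 76) (nat_lit 0) (XT.lf (nat_lit 0) (nat_lit 13972177185) (nat_lit 76) (nat_lit 29994623436) (nat_lit 152) (nat_lit 16425561902) (nat_lit 18) (nat_lit 5) (nat_lit 19) (nat_lit 5) (nat_lit 20) (nat_lit 4) (nat_lit 335) (nat_lit 279) (nat_lit 166)) (XT.nd (nat_lit 78) (nat_lit 76) (nat_lit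 0) (XT.lf (nat_lit 0) (nat_lit 37344687944) (nat_lit 76) (nat_lit 18030500795) (nat_lit 152) (nat_lit 7385014578) (nat_lit 18) (nat_lit 5) (nat_lit 19) (nat_lit 5) (nat_lit 20) (nat_lit 4) (nat_lit 336) (nat_lit 279) (nat_lit 165)) (XT.lf (nat_lit 0) (nat_lit 2035220353) (nat_lit 152) (nat_lit 3402093458) (nat_lit 76) (nat_lit 59807724588) (nat_lit 17) (nat_lit 5) (nat_lit 19) (nat_lit 5) (nat_lit 18) (nat_lit 5) (nat_lit 337) (nat_lit 279) (nat_lit 164)))))) (XT.nd (nat_lit 390) (nat_lit 228) (nat_lit 0) (XT.nd (nat_lit 156) (nat_lit 76) (nat_lit 0) (XT.nd (nat_lit 78) (nat_lit 0) (nat_lit 0) (XT.lf (nat_lit 0) (nat_lit 12118142760) (nat_lit 228) (nat_lit 47730906574) (nat_lit 76) (nat_lit 7977022687) (nat_lit 15) (nat_lit 5) (nat_lit 18) (nat_lit 5) (nat_lit 16) (nat_lit 4) (nat_lit 338) (nat_lit 279) (nat_lit 163)) (XT.lf (nat_lit 0) (nat_lit 22848297851) (nat_lit 228) (nat_lit 25746169926)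 (nat_lit 76) (nat_lit 21934538177) (nat_lit 15) (nat_lit 5) (nat_lit 18) (nat_lit 5) (nat_lit 16) (nat_lit 4) (nat_lit 339) (nat_lit 279) (nat_lit 162))) (XT.nd (nat_lit 78) (nat_lit 76) (nat_lit 0) (XT.lf (nat_lit 0) (nat_lit 34110569884) (nat_lit 228) (nat_lit 2670018248) (nat_lit 76) (nat_lit 36586720811) (nat_lit 15) (nat_lit 5) (nat_lit 18) (nat_lit 5) (nat_lit 16) (nat_lit 4) (nat_lit 340) (nat_lit 279) (nat_lit 161)) (XT.nd (nat_lit 78) (nat_lit 0) (nat_lit 0) (XT.lf (nat_lit 0) (nat_lit 22265114387) (nat_lit 76) (nat_lit 24014280239) (nat_lit 152) (nat_lit 30050963184) (nat_lit 14) (nat_lit 5) (nat_lit 15) (nat_lit 5) (nat_lit 16) (nat_lit 4) (nat_lit 341) (nat_lit 279) (nat_lit 160)) (XT.lf (nat_lit 0) (nat_lit 48532371474) (nat_lit 76) (nat_lit 10565410156) (nat_lit 152) (nat_lit 20341723995) (nat_lit 14) (nat_lit 5) (nat_lit 15) (nat_lit 5) (nat_lit 16) (nat_lit 4) (nat_lit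 342) (nat_lit 279) (nat_lit 159))))) (XT.nd (nat_lit 156) (nat_lit 76) (nat_lit 0) (XT.nd (nat_lit 78) (nat_lit 152) (nat_lit 0) (XT.lf (nat_lit 0) (nat_lit 72608655614) (nat_lit 152) (nat_lit 6653766680) (nat_lit 0) (nat_lit 3439112590) (nat_lit 14) (nat_lit 5) (nat_lit 16) (nat_lit 4) (nat_lit 14) (nat_lit 4) (nat_lit 343) (nat_lit 279) (nat_lit 158)) (XT.lf (nat_lit 0) (nat_lit 1124678647) (nat_lit 152) (nat_lit 66872967040) (nat_lit 76) (nat_lit 18104617131) (nat_lit 12) (nat_lit 5) (nat_lit 14) (nat_lit 5) (nat_lit 13) (nat_lit 4) (nat_lit 344) (nat_lit 279) (nat_lit 157))) (XT.nd (nat_lit 78) (nat_lit 76) (nat_lit 0) (XT.lf (nat_lit 0) (nat_lit 12674709944) (nat_lit 152) (nat_lit 43203988829) (nat_lit 76) (nat_lit 33780518508) (nat_lit 12) (nat_lit 5) (nat_lit 14) (nat_lit 5) (nat_lit 13) (nat_lit 4) (nat_lit 345) (nat_lit 279) (nat_lit 156)) (XT.nd (nat_lit 78) (nat_lit 76) (nat_lit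 0) (XT.lf (nat_lit 0) (nat_lit 24798671718) (nat_lit 152) (nat_lit 18358044283) (nat_lit 76) (nat_lit 50237484021) (nat_lit 12) (nat_lit 5) (nat_lit 14) (nat_lit 5) (nat_lit 13) (nat_lit 4) (nat_lit 346) (nat_lit 279) (nat_lit 155)) (XT.lf (nat_lit 0) (nat_lit 7979414711) (nat_lit 76) (nat_lit 29670596861) (nat_lit 152) (nat_lit 59659863237) (nat_lit 11) (nat_lit 5) (nat_lit 12) (nat_lit 5) (nat_lit 13) (nat_lit 4) (nat_lit 347) (nat_lit 279) (nat_lit 154))))))) (XT.nd (nat_lit 780) (nat_lit 228) (nat_lit 0) (XT.nd (nat_lit 390) (nat_lit 152) (nat_lit 0) (XT.nd (nat_lit 156) (nat_lit 76) (nat_lit 0) (XT.nd (nat_lit 78) (nat_lit 0) (nat_lit 0) (XT.lf (nat_lit 0) (nat_lit 36265022198) (nat_lit 76) (nat_lit 15186464667) (nat_lit 152) (nat_lit 49954469866) (nat_lit 11) (nat_lit 5) (nat_lit 12) (nat_lit 5) (nat_lit 13) (nat_lit 4) (nat_lit 348) (nat_lit 279) (nat_lit 153)) (XT.lf (nat_lit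 0) (nat_lit 65940161532) (nat_lit 152) (nat_lit 39748178997) (nat_lit 0) (nat_lit 18647668) (nat_lit 11) (nat_lit 5) (nat_lit 13) (nat_lit 4) (nat_lit 11) (nat_lit 4) (nat_lit 349) (nat_lit 279) (nat_lit 152))) (XT.nd (nat_lit 78) (nat_lit 76) (nat_lit 0) (XT.lf (nat_lit 0) (nat_lit 81399165600) (nat_lit 152) (nat_lit 13340367730) (nat_lit 0) (nat_lit 15471244771) (nat_lit 11) (nat_lit 5) (nat_lit 13) (nat_lit 4) (nat_lit 11) (nat_lit 4) (nat_lit 350) (nat_lit 279) (nat_lit 151)) (XT.nd (nat_lit 78) (nat_lit 0) (nat_lit 0) (XT.lf (nat_lit 0) (nat_lit 14858027965) (nat_lit 76) (nat_lit 83002150440) (nat_lit 76) (nat_lit 17068127739) (nat_lit 10) (nat_lit 4) (nat_lit 11) (nat_lit 5) (nat_lit 11) (nat_lit 4) (nat_lit 351) (nat_lit 279) (nat_lit 150)) (XT.lf (nat_lit 0) (nat_lit 44924221455) (nat_lit 76) (nat_lit 70443085685) (nat_lit 76) (nat_lit 4503251677) (nat_lit 10) (nat_lit 4) (nat_lit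 11) (nat_lit 5) (nat_lit 11) (nat_lit 4) (nat_lit 352) (nat_lit 279) (nat_lit 149))))) (XT.nd (nat_lit 156) (nat_lit 76) (nat_lit 0) (XT.nd (nat_lit 78) (nat_lit 0) (nat_lit 0) (XT.lf (nat_lit 0) (nat_lit 8408968012) (nat_lit 152) (nat_lit 48706984159) (nat_lit 76) (nat_lit 67937328155) (nat_lit 9) (nat_lit 5) (nat_lit 11) (nat_lit 5) (nat_lit 10) (nat_lit 4) (nat_lit 353) (nat_lit 279) (nat_lit 148)) (XT.lf (nat_lit 0) (nat_lit 21812821689) (nat_lit 152) (nat_lit 21234355148) (nat_lit 76) (nat_lit 87444403086) (nat_lit 9) (nat_lit 5) (nat_lit 11) (nat_lit 5) (nat_lit 10) (nat_lit 4) (nat_lit 354) (nat_lit 279) (nat_lit 147))) (XT.nd (nat_lit 78) (nat_lit 0) (nat_lit 0) (XT.lf (nat_lit 0) (nat_lit 7858799741) (nat_lit 76) (nat_lit 28148253614) (nat_lit 152) (nat_lit 100188733110) (nat_lit 8) (nat_lit 5) (nat_lit 9) (nat_lit 5) (nat_lit 10) (nat_lit 4) (nat_lit 355) (nat_lit 279) (nat_lit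 146)) (XT.nd (nat_lit 78) (nat_lit 0) (nat_lit 0) (XT.lf (nat_lit 0) (nat_lit 39139259772) (nat_lit 76) (nat_lit 12128886757) (nat_lit 152) (nat_lit 90899200478) (nat_lit 8) (nat_lit 5) (nat_lit 9) (nat_lit 5) (nat_lit 10) (nat_lit 4) (nat_lit 356) (nat_lit 279) (nat_lit 145)) (XT.lf (nat_lit 0) (nat_lit 67363163022) (nat_lit 152) (nat_lit 76531420952) (nat_lit 0) (nat_lit 4539359285) (nat_lit 8) (nat_lit 5) (nat_lit 10) (nat_lit 4) (nat_lit 8) (nat_lit 4) (nat_lit 357) (nat_lit 279) (nat_lit 144)))))) (XT.nd (nat_lit 390) (nat_lit 152) (nat_lit 0) (XT.nd (nat_lit 156) (nat_lit 76) (nat_lit 0) (XT.nd (nat_lit 78) (nat_lit 0) (nat_lit 0) (XT.lf (nat_lit 0) (nat_lit 84459499789) (nat_lit 152) (nat_lit 48912976061) (nat_lit 0) (nat_lit 21631566064) (nat_lit 8) (nat_lit 5) (nat_lit 10) (nat_lit 4) (nat_lit 8) (nat_lit 4) (nat_lit 358) (nat_lit 279) (nat_lit 143)) (XT.lf (nat_lit 0) (nat_lit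 102408496478) (nat_lit 152) (nat_lit 19917628446) (nat_lit 0) (nat_lit 39576629432) (nat_lit 8) (nat_lit 5) (nat_lit 10) (nat_lit 4) (nat_lit 8) (nat_lit 4) (nat_lit 359) (nat_lit 279) (nat_lit 142))) (XT.nd (nat_lit 78) (nat_lit 0) (nat_lit 0) (XT.lf (nat_lit 0) (nat_lit 10871618106) (nat_lit 76) (nat_lit 110551007118) (nat_lit 76) (nat_lit 47715394052) (nat_lit 7) (nat_lit 4) (nat_lit 8) (nat_lit 5) (nat_lit 8) (nat_lit 4) (nat_lit 360) (nat_lit 279) (nat_lit 141)) (XT.nd (nat_lit 78) (nat_lit 0) (nat_lit 0) (XT.lf (nat_lit 0) (nat_lit 43888055700) (nat_lit 76) (nat_lit 97834704194) (nat_lit 76) (nat_lit 34995523490) (nat_lit 7) (nat_lit 4) (nat_lit 8) (nat_lit 5) (nat_lit 8) (nat_lit 4) (nat_lit 361) (nat_lit 279) (nat_lit 140)) (XT.lf (nat_lit 0) (nat_lit 78551728152) (nat_lit 76) (nat_lit 84484253917) (nat_lit 76) (nat_lit 21641675462) (nat_lit 7) (nat_lit 4) (nat_lit 8) (nat_lit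 5) (nat_lit 8) (nat_lit 4) (nat_lit 362) (nat_lit 279) (nat_lit 139))))) (XT.nd (nat_lit 156) (nat_lit 76) (nat_lit 0) (XT.nd (nat_lit 78) (nat_lit 76) (nat_lit 0) (XT.lf (nat_lit 0) (nat_lit 114945168017) (nat_lit 76) (nat_lit 70467869501) (nat_lit 76) (nat_lit 7622055093) (nat_lit 7) (nat_lit 4) (nat_lit 8) (nat_lit 5) (nat_lit 8) (nat_lit 4) (nat_lit 363) (nat_lit 279) (nat_lit 138)) (XT.lf (nat_lit 0) (nat_lit 6869578380) (nat_lit 152) (nat_lit 48766260587) (nat_lit 76) (nat_lit 146169108327) (nat_lit 6) (nat_lit 5) (nat_lit 8) (nat_lit 5) (nat_lit 7) (nat_lit 4) (nat_lit 364) (nat_lit 279) (nat_lit 137))) (XT.nd (nat_lit 78) (nat_lit 76) (nat_lit 0) (XT.lf (nat_lit 0) (nat_lit 21827956686) (nat_lit 152) (nat_lit 18104520164) (nat_lit 76) (nat_lit 171074655285) (nat_lit 6) (nat_lit 5) (nat_lit 8) (nat_lit 5) (nat_lit 7) (nat_lit 4) (nat_lit 365) (nat_lit 279) (nat_lit 136)) (XT.nd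 (nat_lit 78) (nat_lit 0) (nat_lit 0) (XT.lf (nat_lit 0) (nat_lit 14553092296) (nat_lit 76) (nat_lit 23206770633) (nat_lit 152) (nat_lit 182898283522) (nat_lit 5) (nat_lit 5) (nat_lit 6) (nat_lit 5) (nat_lit 7) (nat_lit 4) (nat_lit 366) (nat_lit 279) (nat_lit 135)) (XT.lf (nat_lit 0) (nat_lit 49469177082) (nat_lit 76) (nat_lit 5324220975) (nat_lit 152) (nat_lit 175983062400) (nat_lit 5) (nat_lit 5) (nat_lit 6) (nat_lit 5) (nat_lit 7) (nat_lit 4) (nat_lit 367) (nat_lit 279) (nat_lit 134))))))))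
noncomputable def xc163 : XT := (XT.nd (nat_lit 34008) (nat_lit 0) (nat_lit 3952) (XT.nd (nat_lit 780) (nat_lit 76) (nat_lit 0) (XT.nd (nat_lit 390) (nat_lit 76) (nat_lit 0) (XT.nd (nat_lit 156) (nat_lit 0) (nat_lit 0) (XT.nd (nat_lit 78) (nat_lit 0) (nat_lit 0) (XT.lf (nat_lit 0) (nat_lit 72887119722) (nat_lit 152) (nat_lit 155482525271) (nat_lit 0) (nat_lit 13020620302) (nat_lit 5) (nat_lit 5) (nat_lit 7) (nat_lit 4) (nat_lit 5) (nat_lit 4) (nat_lit 368) (nat_lit 279) (nat_lit 133)) (XT.lf (nat_lit 0) (nat_lit 91971361436) (nat_lit 152) (nat_lit 128456545547) (nat_lit 0) (nat_lit 32102562285) (nat_lit 5) (nat_lit 5) (nat_lit 7) (nat_lit 4) (nat_lit 5) (nat_lit 4) (nat_lit 369) (nat_lit 279) (nat_lit 132))) (XT.nd (nat_lit 78) (nat_lit 0) (nat_lit 0) (XT.lf (nat_lit 0) (nat_lit 112008435860) (nat_lit 152) (nat_lit 100081870623) (nat_lit 0) (nat_lit 52137446488) (nat_lit 5) (nat_lit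 5) (nat_lit 7) (nat_lit 4) (nat_lit 5) (nat_lit 4) (nat_lit 370) (nat_lit 279) (nat_lit 131)) (XT.nd (nat_lit 78) (nat_lit 0) (nat_lit 0) (XT.lf (nat_lit 0) (nat_lit 133046050314) (nat_lit 152) (nat_lit 70290941748) (nat_lit 0) (nat_lit 73172975018) (nat_lit 5) (nat_lit 5) (nat_lit 7) (nat_lit 4) (nat_lit 5) (nat_lit 4) (nat_lit 371) (nat_lit 279) (nat_lit 130)) (XT.lf (nat_lit 0) (nat_lit 155134294357) (nat_lit 152) (nat_lit 39012828141) (nat_lit 0) (nat_lit 95259232466) (nat_lit 5) (nat_lit 5) (nat_lit 7) (nat_lit 4) (nat_lit 5) (nat_lit 4) (nat_lit 372) (nat_lit 279) (nat_lit 129))))) (XT.nd (nat_lit 156) (nat_lit 0) (nat_lit 0) (XT.nd (nat_lit 78) (nat_lit 76) (nat_lit 0) (XT.lf (nat_lit 0) (nat_lit 178325759045) (nat_lit 152) (nat_lit 6173058101) (nat_lit 0) (nat_lit 118448805160) (nat_lit 5) (nat_lit 5) (nat_lit 7) (nat_lit 4) (nat_lit 5) (nat_lit 4) (nat_lit 373) (nat_lit 279)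 (nat_lit 128)) (XT.lf (nat_lit 0) (nat_lit 29242500953) (nat_lit 76) (nat_lit 173889718590) (nat_lit 76) (nat_lit 114010962805) (nat_lit 4) (nat_lit 4) (nat_lit 5) (nat_lit 5) (nat_lit 5) (nat_lit 4) (nat_lit 374) (nat_lit 279) (nat_lit 127))) (XT.nd (nat_lit 78) (nat_lit 0) (nat_lit 0) (XT.lf (nat_lit 0) (nat_lit 66641045008) (nat_lit 76) (nat_lit 162641388102) (nat_lit 76) (nat_lit 102760916223) (nat_lit 4) (nat_lit 4) (nat_lit 5) (nat_lit 5) (nat_lit 5) (nat_lit 4) (nat_lit 375) (nat_lit 279) (nat_lit 126)) (XT.nd (nat_lit 78) (nat_lit 0) (nat_lit 0) (XT.lf (nat_lit 0) (nat_lit 105907509037) (nat_lit 76) (nat_lit 150831587669) (nat_lit 76) (nat_lit 90949481413) (nat_lit 4) (nat_lit 4) (nat_lit 5) (nat_lit 5) (nat_lit 5) (nat_lit 4) (nat_lit 376) (nat_lit 279) (nat_lit 125)) (XT.lf (nat_lit 0) (nat_lit 147135384620) (nat_lit 76) (nat_lit 138432198718) (nat_lit 76) (nat_lit 78548535914)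 (nat_lit 4) (nat_lit 4) (nat_lit 5) (nat_lit 5) (nat_lit 5) (nat_lit 4) (nat_lit 377) (nat_lit 279) (nat_lit 124)))))) (XT.nd (nat_lit 390) (nat_lit 76) (nat_lit 0) (XT.nd (nat_lit 156) (nat_lit 0) (nat_lit 0) (XT.nd (nat_lit 78) (nat_lit 0) (nat_lit 0) (XT.lf (nat_lit 0) (nat_lit 190422833367) (nat_lit 76) (nat_lit 125413698894) (nat_lit 76) (nat_lit 65528553663) (nat_lit 4) (nat_lit 4) (nat_lit 5) (nat_lit 5) (nat_lit 5) (nat_lit 4) (nat_lit 378) (nat_lit 279) (nat_lit 123)) (XT.lf (nat_lit 0) (nat_lit 235872920632) (nat_lit 76) (nat_lit 111745091770) (nat_lit 76) (nat_lit 51858534703) (nat_lit 4) (nat_lit 4) (nat_lit 5) (nat_lit 5) (nat_lit 5) (nat_lit 4) (nat_lit 379) (nat_lit 279) (nat_lit 122))) (XT.nd (nat_lit 78) (nat_lit 0) (nat_lit 0) (XT.lf (nat_lit 0) (nat_lit 283593860908) (nat_lit 76) (nat_lit 97393833043) (nat_lit 76) (nat_lit 37505931371) (nat_lit 4) (nat_lit 4) (nat_lit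 5) (nat_lit 5) (nat_lit 5) (nat_lit 4) (nat_lit 380) (nat_lit 279) (nat_lit 121)) (XT.nd (nat_lit 78) (nat_lit 0) (nat_lit 0) (XT.lf (nat_lit 0) (nat_lit 333699275481) (nat_lit 76) (nat_lit 82325753049) (nat_lit 76) (nat_lit 22436570800) (nat_lit 4) (nat_lit 4) (nat_lit 5) (nat_lit 5) (nat_lit 5) (nat_lit 4) (nat_lit 381) (nat_lit 279) (nat_lit 120)) (XT.lf (nat_lit 0) (nat_lit 386308462958) (nat_lit 76) (nat_lit 66504975407) (nat_lit 76) (nat_lit 6614573561) (nat_lit 4) (nat_lit 4) (nat_lit 5) (nat_lit 5) (nat_lit 5) (nat_lit 4) (nat_lit 382) (nat_lit 279) (nat_lit 119))))) (XT.nd (nat_lit 32604) (nat_lit 0) (nat_lit 6612) (XT.nd (nat_lit 78) (nat_lit 0) (nat_lit 0) (XT.lf (nat_lit 0) (nat_lit 9677741913) (nat_lit 152) (nat_lit 40052192444) (nat_lit 76) (nat_lit 431705044153) (nat_lit 3) (nat_lit 5) (nat_lit 5) (nat_lit 5) (nat_lit 4) (nat_lit 4) (nat_lit 383) (nat_lit 279) (nat_lit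 118)) (XT.lf (nat_lit 0) (nat_lit 26561650182) (nat_lit 152) (nat_lit 5441286702) (nat_lit 76) (nat_lit 472533971524) (nat_lit 3) (nat_lit 5) (nat_lit 5) (nat_lit 5) (nat_lit 4) (nat_lit 4) (nat_lit 384) (nat_lit 279) (nat_lit 117))) (XT.nd (nat_lit 78) (nat_lit 0) (nat_lit 0) (XT.lf (nat_lit 0) (nat_lit 473647120) (nat_lit 0) (nat_lit 473647120) (nat_lit 684) (nat_lit 4662445390) (nat_lit 90) (nat_lit 5) (nat_lit 90) (nat_lit 3) (nat_lit 99) (nat_lit 3) (nat_lit 280) (nat_lit 280) (nat_lit 220)) (XT.nd (nat_lit 78) (nat_lit 0) (nat_lit 0) (XT.lf (nat_lit 0) (nat_lit 2522136371) (nat_lit 684) (nat_lit 5229477765) (nat_lit 760) (nat_lit 3718293427) (nat_lit 90) (nat_lit 5) (nat_lit 99) (nat_lit 3) (nat_lit 100) (nat_lit 5) (nat_lit 281) (nat_lit 280) (nat_lit 219)) (XT.lf (nat_lit 76) (nat_lit 32224706) (nat_lit 0) (nat_lit 3131829448) (nat_lit 760) (nat_lit 8569720680) (nat_lit 91) (nat_lit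 5) (nat_lit 90) (nat_lit 5) (nat_lit 100) (nat_lit 5) (nat_lit 282) (nat_lit 280) (nat_lit 218))))))) (XT.nd (nat_lit 780) (nat_lit 2204) (nat_lit 0) (XT.nd (nat_lit 390) (nat_lit 532) (nat_lit 0) (XT.nd (nat_lit 156) (nat_lit 0) (nat_lit 0) (XT.nd (nat_lit 78) (nat_lit 0) (nat_lit 0) (XT.lf (nat_lit 0) (nat_lit 3923377307) (nat_lit 684) (nat_lit 6316331202) (nat_lit 760) (nat_lit 1766925470) (nat_lit 91) (nat_lit 5) (nat_lit 100) (nat_lit 5) (nat_lit 101) (nat_lit 5) (nat_lit 283) (nat_lit 280) (nat_lit 217)) (XT.lf (nat_lit 0) (nat_lit 4741966499) (nat_lit 684) (nat_lit 732433249) (nat_lit 760) (nat_lit 6817732276) (nat_lit 91) (nat_lit 5) (nat_lit 100) (nat_lit 5) (nat_lit 101) (nat_lit 5) (nat_lit 284) (nat_lit 280) (nat_lit 216))) (XT.nd (nat_lit 78) (nat_lit 0) (nat_lit 76) (XT.lf (nat_lit 76) (nat_lit 5281372255) (nat_lit 0) (nat_lit 373958885) (nat_lit 760) (nat_lit 6933939567)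 (nat_lit 92) (nat_lit 5) (nat_lit 91) (nat_lit 5) (nat_lit 101) (nat_lit 5) (nat_lit 285) (nat_lit 280) (nat_lit 215)) (XT.nd (nat_lit 78) (nat_lit 0) (nat_lit 0) (XT.lf (nat_lit 0) (nat_lit 6677364972) (nat_lit 684) (nat_lit 1376937047) (nat_lit 760) (nat_lit 4843869528) (nat_lit 92) (nat_lit 5) (nat_lit 101) (nat_lit 5) (nat_lit 102) (nat_lit 5) (nat_lit 286) (nat_lit 280) (nat_lit 214)) (XT.lf (nat_lit 76) (nat_lit 4985328548) (nat_lit 0) (nat_lit 2823059526) (nat_lit 760) (nat_lit 5411287616) (nat_lit 93) (nat_lit 5) (nat_lit 92) (nat_lit 5) (nat_lit 102) (nat_lit 5) (nat_lit 287) (nat_lit 280) (nat_lit 213))))) (XT.nd (nat_lit 156) (nat_lit 684) (nat_lit 0) (XT.nd (nat_lit 78) (nat_lit 0) (nat_lit 0) (XT.lf (nat_lit 0) (nat_lit 9036328371) (nat_lit 684) (nat_lit 1904427493) (nat_lit 760) (nat_lit 2614531005) (nat_lit 93) (nat_lit 5) (nat_lit 102) (nat_lit 5) (nat_lit 103) (nat_lit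 5) (nat_lit 288) (nat_lit 280) (nat_lit 212)) (XT.lf (nat_lit 76) (nat_lit 4831503428) (nat_lit 0) (nat_lit 5592049000) (nat_lit 760) (nat_lit 3479279588) (nat_lit 94) (nat_lit 5) (nat_lit 93) (nat_lit 5) (nat_lit 103) (nat_lit 5) (nat_lit 289) (nat_lit 280) (nat_lit 211))) (XT.nd (nat_lit 78) (nat_lit 760) (nat_lit 0) (XT.lf (nat_lit 0) (nat_lit 11890383232) (nat_lit 684) (nat_lit 2316501650) (nat_lit 76) (nat_lit 60402734) (nat_lit 94) (nat_lit 5) (nat_lit 103) (nat_lit 5) (nat_lit 95) (nat_lit 5) (nat_lit 290) (nat_lit 280) (nat_lit 210)) (XT.nd (nat_lit 78) (nat_lit 76) (nat_lit 0) (XT.lf (nat_lit 0) (nat_lit 4819797042) (nat_lit 684) (nat_lit 8755861293) (nat_lit 760) (nat_lit 1067095829) (nat_lit 85) (nat_lit 5) (nat_lit 94) (nat_lit 5) (nat_lit 95) (nat_lit 5) (nat_lit 291) (nat_lit 280) (nat_lit 209)) (XT.lf (nat_lit 0) (nat_lit 316756236) (nat_lit 760) (nat_lit 2666457958) (nat_lit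 76) (nat_lit 12052657654) (nat_lit 84) (nat_lit 5) (nat_lit 94) (nat_lit 5) (nat_lit 85) (nat_lit 5) (nat_lit 292) (nat_lit 280) (nat_lit 208)))))) (XT.nd (nat_lit 390) (nat_lit 988) (nat_lit 0) (XT.nd (nat_lit 156) (nat_lit 684) (nat_lit 0) (XT.nd (nat_lit 78) (nat_lit 0) (nat_lit 0) (XT.lf (nat_lit 0) (nat_lit 1840765571) (nat_lit 608) (nat_lit 10523504315) (nat_lit 76) (nat_lit 3078196967) (nat_lit 77) (nat_lit 5) (nat_lit 85) (nat_lit 5) (nat_lit 78) (nat_lit 5) (nat_lit 293) (nat_lit 280) (nat_lit 207)) (XT.lf (nat_lit 0) (nat_lit 3516060135) (nat_lit 608) (nat_lit 2959689374) (nat_lit 76) (nat_lit 9389923491) (nat_lit 77) (nat_lit 5) (nat_lit 85) (nat_lit 5) (nat_lit 78) (nat_lit 5) (nat_lit 294) (nat_lit 280) (nat_lit 206))) (XT.nd (nat_lit 78) (nat_lit 304) (nat_lit 0) (XT.lf (nat_lit 0) (nat_lit 5128225193) (nat_lit 380) (nat_lit 208180737) (nat_lit 456) (nat_lit 10970603129)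 (nat_lit 72) (nat_lit 5) (nat_lit 77) (nat_lit 5) (nat_lit 78) (nat_lit 5) (nat_lit 295) (nat_lit 280) (nat_lit 205)) (XT.nd (nat_lit 78) (nat_lit 304) (nat_lit 0) (XT.lf (nat_lit 0) (nat_lit 7380049691) (nat_lit 456) (nat_lit 3163811547) (nat_lit 76) (nat_lit 6219968965) (nat_lit 72) (nat_lit 5) (nat_lit 78) (nat_lit 5) (nat_lit 73) (nat_lit 5) (nat_lit 296) (nat_lit 280) (nat_lit 204)) (XT.lf (nat_lit 0) (nat_lit 5403463460) (nat_lit 304) (nat_lit 4192891479) (nat_lit 380) (nat_lit 7643644279) (nat_lit 68) (nat_lit 5) (nat_lit 72) (nat_lit 5) (nat_lit 73) (nat_lit 5) (nat_lit 297) (nat_lit 280) (nat_lit 203))))) (XT.nd (nat_lit 234) (nat_lit 684) (nat_lit 0) (XT.nd (nat_lit 78) (nat_lit 304) (nat_lit 0) (XT.lf (nat_lit 0) (nat_lit 11999822111) (nat_lit 380) (nat_lit 3286424742) (nat_lit 76) (nat_lit 2449941810) (nat_lit 68) (nat_lit 5) (nat_lit 73) (nat_lit 5) (nat_lit 69) (nat_lit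 5) (nat_lit 298) (nat_lit 280) (nat_lit 202)) (XT.nd (nat_lit 78) (nat_lit 0) (nat_lit 0) (XT.lf (nat_lit 0) (nat_lit 5790118853) (nat_lit 304) (nat_lit 8876514111) (nat_lit 380) (nat_lit 3583424013) (nat_lit 64) (nat_lit 5) (nat_lit 68) (nat_lit 5) (nat_lit 69) (nat_lit 5) (nat_lit 299) (nat_lit 280) (nat_lit 201)) (XT.lf (nat_lit 0) (nat_lit 15417214656) (nat_lit 304) (nat_lit 2089750352) (nat_lit 380) (nat_lit 1280671256) (nat_lit 64) (nat_lit 5) (nat_lit 68) (nat_lit 5) (nat_lit 69) (nat_lit 5) (nat_lit 300) (nat_lit 280) (nat_lit 200)))) (XT.nd (nat_lit 78) (nat_lit 304) (nat_lit 0) (XT.lf (nat_lit 0) (nat_lit 1265341041) (nat_lit 380) (nat_lit 13085819051) (nat_lit 76) (nat_lit 4991844775) (nat_lit 59) (nat_lit 5) (nat_lit 64) (nat_lit 5) (nat_lit 60) (nat_lit 5) (nat_lit 301) (nat_lit 280) (nat_lit 199)) (XT.nd (nat_lit 78) (nat_lit 304) (nat_lit 0) (XT.lf (nat_lit 0) (nat_lit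 3973300445) (nat_lit 380) (nat_lit 3513795127) (nat_lit 76) (nat_lit 12434135294) (nat_lit 59) (nat_lit 5) (nat_lit 64) (nat_lit 5) (nat_lit 60) (nat_lit 5) (nat_lit 302) (nat_lit 280) (nat_lit 198)) (XT.lf (nat_lit 0) (nat_lit 6735743757) (nat_lit 304) (nat_lit 172184362) (nat_lit 380) (nat_lit 13615898403) (nat_lit 55) (nat_lit 5) (nat_lit 59) (nat_lit 5) (nat_lit 60) (nat_lit 5) (nat_lit 303) (nat_lit 280) (nat_lit 197))))))))
noncomputable def xc164 : XT := (XT.nd (nat_lit 1560) (nat_lit 1140) (nat_lit 0) (XT.nd (nat_lit 780) (nat_lit 836) (nat_lit 0) (XT.nd (nat_lit 390) (nat_lit 608) (nat_lit 0) (XT.nd (nat_lit 156) (nat_lit 304) (nat_lit 0) (XT.nd (nat_lit 78) (nat_lit 228) (nat_lit 0) (XT.lf (nat_lit 0) (nat_lit 10153465281) (nat_lit 380) (nat_lit 3669082701) (nat_lit 76) (nat_lit 7325815905) (nat_lit 55) (nat_lit 5) (nat_lit 60) (nat_lit 5) (nat_lit 56) (nat_lit 5) (nat_lit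 304) (nat_lit 280) (nat_lit 196)) (XT.lf (nat_lit 0) (nat_lit 7166165861) (nat_lit 228) (nat_lit 6496930967) (nat_lit 304) (nat_lit 8135960255) (nat_lit 52) (nat_lit 5) (nat_lit 55) (nat_lit 5) (nat_lit 56) (nat_lit 5) (nat_lit 305) (nat_lit 280) (nat_lit 195))) (XT.nd (nat_lit 78) (nat_lit 304) (nat_lit 0) (XT.lf (nat_lit 0) (nat_lit 17417444342) (nat_lit 304) (nat_lit 3844864498) (nat_lit 76) (nat_lit 1216533274) (nat_lit 52) (nat_lit 5) (nat_lit 56) (nat_lit 5) (nat_lit 53) (nat_lit 5) (nat_lit 306) (nat_lit 280) (nat_lit 194)) (XT.nd (nat_lit 78) (nat_lit 76) (nat_lit 0) (XT.lf (nat_lit 0) (nat_lit 7603639368) (nat_lit 228) (nat_lit 13969111299) (nat_lit 304) (nat_lit 1609221651) (nat_lit 49) (nat_lit 5) (nat_lit 52) (nat_lit 5) (nat_lit 53) (nat_lit 5) (nat_lit 307) (nat_lit 280) (nat_lit 193)) (XT.lf (nat_lit 0) (nat_lit 2005375458) (nat_lit 304) (nat_lit 4207420890) (nat_lit 76)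 (nat_lit 17703189438) (nat_lit 48) (nat_lit 5) (nat_lit 52) (nat_lit 5) (nat_lit 49) (nat_lit 5) (nat_lit 308) (nat_lit 280) (nat_lit 192))))) (XT.nd (nat_lit 156) (nat_lit 380) (nat_lit 0) (XT.nd (nat_lit 78) (nat_lit 0) (nat_lit 0) (XT.lf (nat_lit 0) (nat_lit 5891926306) (nat_lit 304) (nat_lit 16767556109) (nat_lit 76) (nat_lit 2018648810) (nat_lit 45) (nat_lit 5) (nat_lit 49) (nat_lit 5) (nat_lit 46) (nat_lit 5) (nat_lit 309) (nat_lit 280) (nat_lit 191)) (XT.lf (nat_lit 0) (nat_lit 10136025243) (nat_lit 304) (nat_lit 4812729510) (nat_lit 76) (nat_lit 10521482958) (nat_lit 45) (nat_lit 5) (nat_lit 49) (nat_lit 5) (nat_lit 46) (nat_lit 5) (nat_lit 310) (nat_lit 280) (nat_lit 190))) (XT.nd (nat_lit 78) (nat_lit 152) (nat_lit 0) (XT.lf (nat_lit 0) (nat_lit 7980567210) (nat_lit 228) (nat_lit 6725835800) (nat_lit 304) (nat_lit 11589856916) (nat_lit 42) (nat_lit 5) (nat_lit 45) (nat_lit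 5) (nat_lit 46) (nat_lit 5) (nat_lit 311) (nat_lit 280) (nat_lit 189)) (XT.nd (nat_lit 78) (nat_lit 152) (nat_lit 0) (XT.lf (nat_lit 0) (nat_lit 19607619037) (nat_lit 304) (nat_lit 5624943318) (nat_lit 76) (nat_lit 1925918358) (nat_lit 42) (nat_lit 5) (nat_lit 46) (nat_lit 5) (nat_lit 43) (nat_lit 5) (nat_lit 312) (nat_lit 280) (nat_lit 188)) (XT.lf (nat_lit 0) (nat_lit 7826364821) (nat_lit 152) (nat_lit 17150157850) (nat_lit 228) (nat_lit 3076171316) (nat_lit 40) (nat_lit 5) (nat_lit 42) (nat_lit 5) (nat_lit 43) (nat_lit 5) (nat_lit 313) (nat_lit 280) (nat_lit 187)))))) (XT.nd (nat_lit 390) (nat_lit 380) (nat_lit 0) (XT.nd (nat_lit 156) (nat_lit 152) (nat_lit 0) (XT.nd (nat_lit 78) (nat_lit 228) (nat_lit 0) (XT.lf (nat_lit 0) (nat_lit 1657410591) (nat_lit 228) (nat_lit 6882536973) (nat_lit 76) (nat_lit 20446061599) (nat_lit 39) (nat_lit 5) (nat_lit 42) (nat_lit 5) (nat_lit 40) (nat_lit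 5) (nat_lit 314) (nat_lit 280) (nat_lit 186)) (XT.lf (nat_lit 0) (nat_lit 6639399237) (nat_lit 304) (nat_lit 22670730030) (nat_lit 76) (nat_lit 647595069) (nat_lit 36) (nat_lit 5) (nat_lit 40) (nat_lit 5) (nat_lit 37) (nat_lit 5) (nat_lit 315) (nat_lit 280) (nat_lit 185))) (XT.nd (nat_lit 78) (nat_lit 152) (nat_lit 0) (XT.lf (nat_lit 0) (nat_lit 12119841067) (nat_lit 304) (nat_lit 8723968236) (nat_lit 76) (nat_lit 10121758797) (nat_lit 36) (nat_lit 5) (nat_lit 40) (nat_lit 5) (nat_lit 37) (nat_lit 5) (nat_lit 316) (nat_lit 280) (nat_lit 184)) (XT.nd (nat_lit 78) (nat_lit 0) (nat_lit 0) (XT.lf (nat_lit 0) (nat_lit 6102291392) (nat_lit 152) (nat_lit 11858606240) (nat_lit 228) (nat_lit 14058586811) (nat_lit 34) (nat_lit 5) (nat_lit 36) (nat_lit 5) (nat_lit 37) (nat_lit 5) (nat_lit 317) (nat_lit 280) (nat_lit 183)) (XT.lf (nat_lit 0) (nat_lit 21959800916) (nat_lit 152) (nat_lit 2273480873)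 (nat_lit 228) (nat_lit 8885860615) (nat_lit 34) (nat_lit 5) (nat_lit 36) (nat_lit 5) (nat_lit 37) (nat_lit 5) (nat_lit 318) (nat_lit 280) (nat_lit 182))))) (XT.nd (nat_lit 156) (nat_lit 152) (nat_lit 0) (XT.nd (nat_lit 78) (nat_lit 76) (nat_lit 0) (XT.lf (nat_lit 0) (nat_lit 4341035761) (nat_lit 152) (nat_lit 26659529930) (nat_lit 228) (nat_lit 3264162636) (nat_lit 32) (nat_lit 5) (nat_lit 34) (nat_lit 5) (nat_lit 35) (nat_lit 5) (nat_lit 319) (nat_lit 280) (nat_lit 181)) (XT.lf (nat_lit 0) (nat_lit 2775446249) (nat_lit 228) (nat_lit 14548590076) (nat_lit 76) (nat_lit 18130441736) (nat_lit 31) (nat_lit 5) (nat_lit 34) (nat_lit 5) (nat_lit 32) (nat_lit 5) (nat_lit 320) (nat_lit 280) (nat_lit 180))) (XT.nd (nat_lit 78) (nat_lit 0) (nat_lit 0) (XT.lf (nat_lit 0) (nat_lit 1580199234) (nat_lit 152) (nat_lit 7444116254) (nat_lit 228) (nat_lit 27675883242) (nat_lit 29) (nat_lit 5) (nat_lit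 31) (nat_lit 5) (nat_lit 32) (nat_lit 5) (nat_lit 321) (nat_lit 280) (nat_lit 179)) (XT.nd (nat_lit 78) (nat_lit 0) (nat_lit 0) (XT.lf (nat_lit 0) (nat_lit 15874213898) (nat_lit 228) (nat_lit 19037397479) (nat_lit 76) (nat_lit 3082172245) (nat_lit 29) (nat_lit 5) (nat_lit 32) (nat_lit 5) (nat_lit 30) (nat_lit 5) (nat_lit 322) (nat_lit 280) (nat_lit 178)) (XT.lf (nat_lit 0) (nat_lit 23181419802) (nat_lit 228) (nat_lit 2284368720) (nat_lit 76) (nat_lit 13880525732) (nat_lit 29) (nat_lit 5) (nat_lit 32) (nat_lit 5) (nat_lit 30) (nat_lit 5) (nat_lit 323) (nat_lit 280) (nat_lit 177))))))) (XT.nd (nat_lit 780) (nat_lit 380) (nat_lit 0) (XT.nd (nat_lit 390) (nat_lit 304) (nat_lit 0) (XT.nd (nat_lit 156) (nat_lit 304) (nat_lit 0) (XT.nd (nat_lit 78) (nat_lit 0) (nat_lit 0) (XT.lf (nat_lit 0) (nat_lit 15800926798) (nat_lit 152) (nat_lit 15292877743) (nat_lit 228) (nat_lit 9660682731) (nat_lit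 27) (nat_lit 5) (nat_lit 29) (nat_lit 5) (nat_lit 30) (nat_lit 5) (nat_lit 324) (nat_lit 280) (nat_lit 176)) (XT.lf (nat_lit 0) (nat_lit 34858861443) (nat_lit 152) (nat_lit 4574912580) (nat_lit 228) (nat_lit 2797703101) (nat_lit 27) (nat_lit 5) (nat_lit 29) (nat_lit 5) (nat_lit 30) (nat_lit 5) (nat_lit 325) (nat_lit 280) (nat_lit 175))) (XT.nd (nat_lit 78) (nat_lit 152) (nat_lit 0) (XT.lf (nat_lit 0) (nat_lit 4546614869) (nat_lit 152) (nat_lit 32506695379) (nat_lit 76) (nat_lit 6711606360) (nat_lit 25) (nat_lit 5) (nat_lit 27) (nat_lit 5) (nat_lit 26) (nat_lit 5) (nat_lit 326) (nat_lit 280) (nat_lit 174)) (XT.nd (nat_lit 78) (nat_lit 152) (nat_lit 0) (XT.lf (nat_lit 0) (nat_lit 12359602386) (nat_lit 152) (nat_lit 14425856648) (nat_lit 76) (nat_lit 18577507672) (nat_lit 25) (nat_lit 5) (nat_lit 27) (nat_lit 5) (nat_lit 26) (nat_lit 5) (nat_lit 327) (nat_lit 280) (nat_lit 173)) (XT.lf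 (nat_lit 0) (nat_lit 4699216228) (nat_lit 152) (nat_lit 15931267719) (nat_lit 228) (nat_lit 26407078443) (nat_lit 23) (nat_lit 5) (nat_lit 25) (nat_lit 5) (nat_lit 26) (nat_lit 5) (nat_lit 328) (nat_lit 280) (nat_lit 172))))) (XT.nd (nat_lit 156) (nat_lit 304) (nat_lit 0) (XT.nd (nat_lit 78) (nat_lit 0) (nat_lit 0) (XT.lf (nat_lit 0) (nat_lit 25271328571) (nat_lit 152) (nat_lit 4281901328) (nat_lit 228) (nat_lit 19230747004) (nat_lit 23) (nat_lit 5) (nat_lit 25) (nat_lit 5) (nat_lit 26) (nat_lit 5) (nat_lit 329) (nat_lit 280) (nat_lit 171)) (XT.lf (nat_lit 0) (nat_lit 39040470156) (nat_lit 228) (nat_lit 3879584888) (nat_lit 76) (nat_lit 7691744065) (nat_lit 23) (nat_lit 5) (nat_lit 26) (nat_lit 5) (nat_lit 24) (nat_lit 4) (nat_lit 330) (nat_lit 280) (nat_lit 170))) (XT.nd (nat_lit 78) (nat_lit 228) (nat_lit 0) (XT.lf (nat_lit 0) (nat_lit 17206314191) (nat_lit 76) (nat_lit 32129102855)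 (nat_lit 152) (nat_lit 3178932741) (nat_lit 22) (nat_lit 5) (nat_lit 23) (nat_lit 5) (nat_lit 24) (nat_lit 4) (nat_lit 331) (nat_lit 280) (nat_lit 169)) (XT.nd (nat_lit 78) (nat_lit 152) (nat_lit 0) (XT.lf (nat_lit 0) (nat_lit 5514105669) (nat_lit 152) (nat_lit 15125935762) (nat_lit 76) (nat_lit 33864527509) (nat_lit 21) (nat_lit 5) (nat_lit 23) (nat_lit 5) (nat_lit 22) (nat_lit 5) (nat_lit 332) (nat_lit 280) (nat_lit 168)) (XT.lf (nat_lit 0) (nat_lit 6202762317) (nat_lit 152) (nat_lit 8423839861) (nat_lit 228) (nat_lit 41960513197) (nat_lit 19) (nat_lit 5) (nat_lit 21) (nat_lit 5) (nat_lit 22) (nat_lit 5) (nat_lit 333) (nat_lit 280) (nat_lit 167)))))) (XT.nd (nat_lit 390) (nat_lit 228) (nat_lit 0) (XT.nd (nat_lit 156) (nat_lit 152) (nat_lit 0) (XT.nd (nat_lit 78) (nat_lit 0) (nat_lit 0) (XT.lf (nat_lit 0) (nat_lit 24518683733) (nat_lit 228) (nat_lit 29719869766) (nat_lit 76) (nat_lit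 4519041397) (nat_lit 19) (nat_lit 5) (nat_lit 22) (nat_lit 5) (nat_lit 20) (nat_lit 4) (nat_lit 334) (nat_lit 280) (nat_lit 166)) (XT.lf (nat_lit 0) (nat_lit 35038560243) (nat_lit 228) (nat_lit 8168807802) (nat_lit 76) (nat_lit 17822574402) (nat_lit 19) (nat_lit 5) (nat_lit 22) (nat_lit 5) (nat_lit 20) (nat_lit 4) (nat_lit 335) (nat_lit 280) (nat_lit 165))) (XT.nd (nat_lit 78) (nat_lit 76) (nat_lit 0) (XT.lf (nat_lit 0) (nat_lit 14929501933) (nat_lit 76) (nat_lit 31383348719) (nat_lit 152) (nat_lit 17091639145) (nat_lit 18) (nat_lit 5) (nat_lit 19) (nat_lit 5) (nat_lit 20) (nat_lit 4) (nat_lit 336) (nat_lit 280) (nat_lit 164)) (XT.nd (nat_lit 78) (nat_lit 76) (nat_lit 0) (XT.lf (nat_lit 0) (nat_lit 39458318425) (nat_lit 76) (nat_lit 18826305940) (nat_lit 152) (nat_lit 7606454972) (nat_lit 18) (nat_lit 5) (nat_lit 19) (nat_lit 5) (nat_lit 20) (nat_lit 4) (nat_lit 337) (nat_lit 280) (nat_lit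 163)) (XT.lf (nat_lit 0) (nat_lit 2273247543) (nat_lit 152) (nat_lit 3332938612) (nat_lit 76) (nat_lit 62894199849) (nat_lit 17) (nat_lit 5) (nat_lit 19) (nat_lit 5) (nat_lit 18) (nat_lit 5) (nat_lit 338) (nat_lit 280) (nat_lit 162))))) (XT.nd (nat_lit 156) (nat_lit 76) (nat_lit 0) (XT.nd (nat_lit 78) (nat_lit 0) (nat_lit 0) (XT.lf (nat_lit 0) (nat_lit 12859094159) (nat_lit 228) (nat_lit 49876883799) (nat_lit 76) (nat_lit 8474558778) (nat_lit 15) (nat_lit 5) (nat_lit 18) (nat_lit 5) (nat_lit 16) (nat_lit 4) (nat_lit 339) (nat_lit 280) (nat_lit 161)) (XT.lf (nat_lit 0) (nat_lit 24119326326) (nat_lit 228) (nat_lit 26804365943) (nat_lit 76) (nat_lit 23125250759) (nat_lit 15) (nat_lit 5) (nat_lit 18) (nat_lit 5) (nat_lit 16) (nat_lit 4) (nat_lit 340) (nat_lit 280) (nat_lit 160))) (XT.nd (nat_lit 78) (nat_lit 76) (nat_lit 0) (XT.lf (nat_lit 0) (nat_lit 35938587504) (nat_lit 228) (nat_lit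 2585316799) (nat_lit 76) (nat_lit 38505567016) (nat_lit 15) (nat_lit 5) (nat_lit 18) (nat_lit 5) (nat_lit 16) (nat_lit 4) (nat_lit 341) (nat_lit 280) (nat_lit 159)) (XT.nd (nat_lit 78) (nat_lit 0) (nat_lit 0) (XT.lf (nat_lit 0) (nat_lit 23593053075) (nat_lit 76) (nat_lit 25120319396) (nat_lit 152) (nat_lit 31427427953) (nat_lit 14) (nat_lit 5) (nat_lit 15) (nat_lit 5) (nat_lit 16) (nat_lit 4) (nat_lit 342) (nat_lit 280) (nat_lit 158)) (XT.lf (nat_lit 0) (nat_lit 51163450018) (nat_lit 76) (nat_lit 11003514135) (nat_lit 152) (nat_lit 21238730775) (nat_lit 14) (nat_lit 5) (nat_lit 15) (nat_lit 5) (nat_lit 16) (nat_lit 4) (nat_lit 343) (nat_lit 280) (nat_lit 157))))))))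
noncomputable def xc165 : XT := (XT.nd (nat_lit 1560) (nat_lit 228) (nat_lit 0) (XT.nd (nat_lit 780) (nat_lit 228) (nat_lit 0) (XT.nd (nat_lit 390) (nat_lit 76) (nat_lit 0) (XT.nd (nat_lit 156) (nat_lit 76) (nat_lit 0) (XT.nd (nat_lit 78) (nat_lit 152) (nat_lit 0) (XT.lf (nat_lit 0) (nat_lit 76349280008) (nat_lit 152) (nat_lit 6787561494) (nat_lit 0) (nat_lit 3694192635) (nat_lit 14) (nat_lit 5) (nat_lit 16) (nat_lit 4) (nat_lit 14) (nat_lit 4) (nat_lit 344) (nat_lit 280) (nat_lit 156)) (XT.lf (nat_lit 0) (nat_lit 1290745264) (nat_lit 152) (nat_lit 70017236671) (nat_lit 76) (nat_lit 19093840793) (nat_lit 12) (nat_lit 5) (nat_lit 14) (nat_lit 5) (nat_lit 13) (nat_lit 4) (nat_lit 345) (nat_lit 280) (nat_lit 155))) (XT.nd (nat_lit 78) (nat_lit 76) (nat_lit 0) (XT.lf (nat_lit 0) (nat_lit 13413047998) (nat_lit 152) (nat_lit 45174303774) (nat_lit 76) (nat_lit 35549537581) (nat_lit 12) (nat_lit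 5) (nat_lit 14) (nat_lit 5) (nat_lit 13) (nat_lit 4) (nat_lit 346) (nat_lit 280) (nat_lit 154)) (XT.nd (nat_lit 78) (nat_lit 76) (nat_lit 0) (XT.lf (nat_lit 0) (nat_lit 26138226787) (nat_lit 152) (nat_lit 19095104120) (nat_lit 76) (nat_lit 52825542173) (nat_lit 12) (nat_lit 5) (nat_lit 14) (nat_lit 5) (nat_lit 13) (nat_lit 4) (nat_lit 347) (nat_lit 280) (nat_lit 153)) (XT.lf (nat_lit 0) (nat_lit 8556311012) (nat_lit 76) (nat_lit 31073856659) (nat_lit 152) (nat_lit 62540264894) (nat_lit 11) (nat_lit 5) (nat_lit 12) (nat_lit 5) (nat_lit 13) (nat_lit 4) (nat_lit 348) (nat_lit 280) (nat_lit 152))))) (XT.nd (nat_lit 156) (nat_lit 76) (nat_lit 0) (XT.nd (nat_lit 78) (nat_lit 0) (nat_lit 0) (XT.lf (nat_lit 0) (nat_lit 38247726227) (nat_lit 76) (nat_lit 15869340238) (nat_lit 152) (nat_lit 52354487164) (nat_lit 11) (nat_lit 5) (nat_lit 12) (nat_lit 5) (nat_lit 13) (nat_lit 4) (nat_lit 349) (nat_lit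 280) (nat_lit 151)) (XT.lf (nat_lit 0) (nat_lit 69326882770) (nat_lit 152) (nat_lit 41570863856) (nat_lit 0) (nat_lit 90057061) (nat_lit 11) (nat_lit 5) (nat_lit 13) (nat_lit 4) (nat_lit 11) (nat_lit 4) (nat_lit 350) (nat_lit 280) (nat_lit 150))) (XT.nd (nat_lit 78) (nat_lit 76) (nat_lit 0) (XT.lf (nat_lit 0) (nat_lit 85554564986) (nat_lit 152) (nat_lit 13850506030) (nat_lit 0) (nat_lit 16311927971) (nat_lit 11) (nat_lit 5) (nat_lit 13) (nat_lit 4) (nat_lit 11) (nat_lit 4) (nat_lit 351) (nat_lit 280) (nat_lit 149)) (XT.nd (nat_lit 78) (nat_lit 0) (nat_lit 0) (XT.lf (nat_lit 0) (nat_lit 15755279126) (nat_lit 76) (nat_lit 87081690513) (nat_lit 76) (nat_lit 17833518920) (nat_lit 10) (nat_lit 4) (nat_lit 11) (nat_lit 5) (nat_lit 11) (nat_lit 4) (nat_lit 352) (nat_lit 280) (nat_lit 148)) (XT.lf (nat_lit 0) (nat_lit 47317432302) (nat_lit 76) (nat_lit 73898032875) (nat_lit 76) (nat_lit 4644590256)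 (nat_lit 10) (nat_lit 4) (nat_lit 11) (nat_lit 5) (nat_lit 11) (nat_lit 4) (nat_lit 353) (nat_lit 280) (nat_lit 147)))))) (XT.nd (nat_lit 390) (nat_lit 76) (nat_lit 0) (XT.nd (nat_lit 156) (nat_lit 76) (nat_lit 0) (XT.nd (nat_lit 78) (nat_lit 0) (nat_lit 0) (XT.lf (nat_lit 0) (nat_lit 8906693664) (nat_lit 152) (nat_lit 50999740632) (nat_lit 76) (nat_lit 71395608370) (nat_lit 9) (nat_lit 5) (nat_lit 11) (nat_lit 5) (nat_lit 10) (nat_lit 4) (nat_lit 354) (nat_lit 280) (nat_lit 146)) (XT.lf (nat_lit 0) (nat_lit 22977060155) (nat_lit 152) (nat_lit 22160270301) (nat_lit 76) (nat_lit 91875112580) (nat_lit 9) (nat_lit 5) (nat_lit 11) (nat_lit 5) (nat_lit 10) (nat_lit 4) (nat_lit 355) (nat_lit 280) (nat_lit 145))) (XT.nd (nat_lit 78) (nat_lit 0) (nat_lit 0) (XT.lf (nat_lit 0) (nat_lit 8385351968) (nat_lit 76) (nat_lit 29494232861) (nat_lit 152) (nat_lit 105122347720) (nat_lit 8) (nat_lit 5)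 (nat_lit 9) (nat_lit 5) (nat_lit 10) (nat_lit 4) (nat_lit 356) (nat_lit 280) (nat_lit 144)) (XT.nd (nat_lit 78) (nat_lit 0) (nat_lit 0) (XT.lf (nat_lit 0) (nat_lit 41223472513) (nat_lit 76) (nat_lit 12676823062) (nat_lit 152) (nat_lit 95371949030) (nat_lit 8) (nat_lit 5) (nat_lit 9) (nat_lit 5) (nat_lit 10) (nat_lit 4) (nat_lit 357) (nat_lit 280) (nat_lit 143)) (XT.lf (nat_lit 0) (nat_lit 70797659454) (nat_lit 152) (nat_lit 80234367209) (nat_lit 0) (nat_lit 4820265735) (nat_lit 8) (nat_lit 5) (nat_lit 10) (nat_lit 4) (nat_lit 8) (nat_lit 4) (nat_lit 358) (nat_lit 280) (nat_lit 142))))) (XT.nd (nat_lit 156) (nat_lit 76) (nat_lit 0) (XT.nd (nat_lit 78) (nat_lit 0) (nat_lit 0) (XT.lf (nat_lit 0) (nat_lit 88745654093) (nat_lit 152) (nat_lit 51240886968) (nat_lit 0) (nat_lit 22764514353) (nat_lit 8) (nat_lit 5) (nat_lit 10) (nat_lit 4) (nat_lit 8) (nat_lit 4) (nat_lit 359) (nat_lit 280) (nat_lit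 141)) (XT.lf (nat_lit 0) (nat_lit 107589092078) (nat_lit 152) (nat_lit 20801378539) (nat_lit 0) (nat_lit 41604384700) (nat_lit 8) (nat_lit 5) (nat_lit 10) (nat_lit 4) (nat_lit 8) (nat_lit 4) (nat_lit 360) (nat_lit 280) (nat_lit 140))) (XT.nd (nat_lit 78) (nat_lit 0) (nat_lit 0) (XT.lf (nat_lit 0) (nat_lit 11525521771) (nat_lit 76) (nat_lit 116027262662) (nat_lit 76) (nat_lit 50039157534) (nat_lit 7) (nat_lit 4) (nat_lit 8) (nat_lit 5) (nat_lit 8) (nat_lit 4) (nat_lit 361) (nat_lit 280) (nat_lit 139)) (XT.nd (nat_lit 78) (nat_lit 0) (nat_lit 0) (XT.lf (nat_lit 0) (nat_lit 46187527780) (nat_lit 76) (nat_lit 102677587202) (nat_lit 76) (nat_lit 36686246121) (nat_lit 7) (nat_lit 4) (nat_lit 8) (nat_lit 5) (nat_lit 8) (nat_lit 4) (nat_lit 362) (nat_lit 280) (nat_lit 138)) (XT.lf (nat_lit 0) (nat_lit 82579380555) (nat_lit 76) (nat_lit 88661940707) (nat_lit 76) (nat_lit 22667517766) (nat_lit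 7) (nat_lit 4) (nat_lit 8) (nat_lit 5) (nat_lit 8) (nat_lit 4) (nat_lit 363) (nat_lit 280) (nat_lit 137))))))) (XT.nd (nat_lit 780) (nat_lit 76) (nat_lit 0) (XT.nd (nat_lit 390) (nat_lit 0) (nat_lit 0) (XT.nd (nat_lit 156) (nat_lit 76) (nat_lit 0) (XT.nd (nat_lit 78) (nat_lit 76) (nat_lit 0) (XT.lf (nat_lit 0) (nat_lit 120787727366) (nat_lit 76) (nat_lit 73946952589) (nat_lit 76) (nat_lit 7949594543) (nat_lit 7) (nat_lit 4) (nat_lit 8) (nat_lit 5) (nat_lit 8) (nat_lit 4) (nat_lit 364) (nat_lit 280) (nat_lit 136)) (XT.lf (nat_lit 0) (nat_lit 7262437246) (nat_lit 152) (nat_lit 51112157028) (nat_lit 76) (nat_lit 153518110331) (nat_lit 6) (nat_lit 5) (nat_lit 8) (nat_lit 5) (nat_lit 7) (nat_lit 4) (nat_lit 365) (nat_lit 280) (nat_lit 135))) (XT.nd (nat_lit 78) (nat_lit 76) (nat_lit 0) (XT.lf (nat_lit 0) (nat_lit 22966383041) (nat_lit 152) (nat_lit 18921730374) (nat_lit 76) (nat_lit 179667003846)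 (nat_lit 6) (nat_lit 5) (nat_lit 8) (nat_lit 5) (nat_lit 7) (nat_lit 4) (nat_lit 366) (nat_lit 280) (nat_lit 134)) (XT.nd (nat_lit 78) (nat_lit 0) (nat_lit 0) (XT.lf (nat_lit 0) (nat_lit 15367343099) (nat_lit 76) (nat_lit 24326654053) (nat_lit 152) (nat_lit 191994730469) (nat_lit 5) (nat_lit 5) (nat_lit 6) (nat_lit 5) (nat_lit 7) (nat_lit 4) (nat_lit 367) (nat_lit 280) (nat_lit 133)) (XT.lf (nat_lit 0) (nat_lit 52025108497) (nat_lit 76) (nat_lit 5551903346) (nat_lit 152) (nat_lit 184736056254) (nat_lit 5) (nat_lit 5) (nat_lit 6) (nat_lit 5) (nat_lit 7) (nat_lit 4) (nat_lit 368) (nat_lit 280) (nat_lit 132))))) (XT.nd (nat_lit 156) (nat_lit 0) (nat_lit 0) (XT.nd (nat_lit 78) (nat_lit 0) (nat_lit 0) (XT.lf (nat_lit 0) (nat_lit 76573899920) (nat_lit 152) (nat_lit 163176569245) (nat_lit 0) (nat_lit 13707170860) (nat_lit 5) (nat_lit 5) (nat_lit 7) (nat_lit 4) (nat_lit 5) (nat_lit 4) (nat_lit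 369) (nat_lit 280) (nat_lit 131)) (XT.lf (nat_lit 0) (nat_lit 96610333520) (nat_lit 152) (nat_lit 134803103978) (nat_lit 0) (nat_lit 33741518535) (nat_lit 5) (nat_lit 5) (nat_lit 7) (nat_lit 4) (nat_lit 5) (nat_lit 4) (nat_lit 370) (nat_lit 280) (nat_lit 130))) (XT.nd (nat_lit 78) (nat_lit 0) (nat_lit 0) (XT.lf (nat_lit 0) (nat_lit 117647337664) (nat_lit 152) (nat_lit 105013327157) (nat_lit 0) (nat_lit 54776536085) (nat_lit 5) (nat_lit 5) (nat_lit 7) (nat_lit 4) (nat_lit 5) (nat_lit 4) (nat_lit 371) (nat_lit 280) (nat_lit 129)) (XT.nd (nat_lit 78) (nat_lit 0) (nat_lit 0) (XT.lf (nat_lit 0) (nat_lit 139735000460) (nat_lit 152) (nat_lit 73736310743) (nat_lit 0) (nat_lit 76862306886) (nat_lit 5) (nat_lit 5) (nat_lit 7) (nat_lit 4) (nat_lit 5) (nat_lit 4) (nat_lit 372) (nat_lit 280) (nat_lit 128)) (XT.lf (nat_lit 0) (nat_lit 162925911579) (nat_lit 152) (nat_lit 40897585650) (nat_lit 0) (nat_lit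 100051416106) (nat_lit 5) (nat_lit 5) (nat_lit 7) (nat_lit 4) (nat_lit 5) (nat_lit 4) (nat_lit 373) (nat_lit 280) (nat_lit 127)))))) (XT.nd (nat_lit 390) (nat_lit 0) (nat_lit 0) (XT.nd (nat_lit 156) (nat_lit 0) (nat_lit 0) (XT.nd (nat_lit 78) (nat_lit 76) (nat_lit 0) (XT.lf (nat_lit 0) (nat_lit 187275287477) (nat_lit 152) (nat_lit 6418964437) (nat_lit 0) (nat_lit 124399075909) (nat_lit 5) (nat_lit 5) (nat_lit 7) (nat_lit 4) (nat_lit 5) (nat_lit 4) (nat_lit 374) (nat_lit 280) (nat_lit 126)) (XT.lf (nat_lit 0) (nat_lit 30766360528) (nat_lit 76) (nat_lit 182555091441) (nat_lit 76) (nat_lit 119677245497) (nat_lit 4) (nat_lit 4) (nat_lit 5) (nat_lit 5) (nat_lit 5) (nat_lit 4) (nat_lit 375) (nat_lit 280) (nat_lit 125))) (XT.nd (nat_lit 78) (nat_lit 0) (nat_lit 0) (XT.lf (nat_lit 0) (nat_lit 70031892046) (nat_lit 76) (nat_lit 170745730766) (nat_lit 76) (nat_lit 107866328273) (nat_lit 4) (nat_lit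 4) (nat_lit 5) (nat_lit 5) (nat_lit 5) (nat_lit 4) (nat_lit 376) (nat_lit 280) (nat_lit 124)) (XT.nd (nat_lit 78) (nat_lit 0) (nat_lit 0) (XT.lf (nat_lit 0) (nat_lit 111258879525) (nat_lit 76) (nat_lit 158346760632) (nat_lit 76) (nat_lit 95465875712) (nat_lit 4) (nat_lit 4) (nat_lit 5) (nat_lit 5) (nat_lit 5) (nat_lit 4) (nat_lit 377) (nat_lit 280) (nat_lit 123)) (XT.lf (nat_lit 0) (nat_lit 154545482457) (nat_lit 76) (nat_lit 145328659682) (nat_lit 76) (nat_lit 82446362926) (nat_lit 4) (nat_lit 4) (nat_lit 5) (nat_lit 5) (nat_lit 5) (nat_lit 4) (nat_lit 378) (nat_lit 280) (nat_lit 122))))) (XT.nd (nat_lit 156) (nat_lit 0) (nat_lit 0) (XT.nd (nat_lit 78) (nat_lit 0) (nat_lit 0) (XT.lf (nat_lit 0) (nat_lit 199994764185) (nat_lit 76) (nat_lit 131660432438) (nat_lit 76) (nat_lit 68776791076) (nat_lit 4) (nat_lit 4) (nat_lit 5) (nat_lit 5) (nat_lit 5) (nat_lit 4) (nat_lit 379) (nat_lit 280)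 (nat_lit 121)) (XT.lf (nat_lit 0) (nat_lit 247714937282) (nat_lit 76) (nat_lit 117309535500) (nat_lit 76) (nat_lit 54424613562) (nat_lit 4) (nat_lit 4) (nat_lit 5) (nat_lit 5) (nat_lit 5) (nat_lit 4) (nat_lit 380) (nat_lit 280) (nat_lit 120))) (XT.nd (nat_lit 78) (nat_lit 0) (nat_lit 0) (XT.lf (nat_lit 0) (nat_lit 297819621208) (nat_lit 76) (nat_lit 102241800068) (nat_lit 76) (nat_lit 39355658534) (nat_lit 4) (nat_lit 4) (nat_lit 5) (nat_lit 5) (nat_lit 5) (nat_lit 4) (nat_lit 381) (nat_lit 280) (nat_lit 119)) (XT.nd (nat_lit 78) (nat_lit 0) (nat_lit 0) (XT.lf (nat_lit 0) (nat_lit 350428112831) (nat_lit 76) (nat_lit 86421350580) (nat_lit 76) (nat_lit 23534047525) (nat_lit 4) (nat_lit 4) (nat_lit 5) (nat_lit 5) (nat_lit 5) (nat_lit 4) (nat_lit 382) (nat_lit 280) (nat_lit 118)) (XT.lf (nat_lit 0) (nat_lit 405665670464) (nat_lit 76) (nat_lit 69810519300) (nat_lit 76) (nat_lit 6922110035)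 (nat_lit 4) (nat_lit 4) (nat_lit 5) (nat_lit 5) (nat_lit 5) (nat_lit 4) (nat_lit 383) (nat_lit 280) (nat_lit 117))))))))
noncomputable def xc166 : XT := (XT.nd (nat_lit 34086) (nat_lit 0) (nat_lit 2356) (XT.nd (nat_lit 33306) (nat_lit 0) (nat_lit 4940) (XT.nd (nat_lit 32916) (nat_lit 0) (nat_lit 6688) (XT.nd (nat_lit 32682) (nat_lit 0) (nat_lit 6612) (XT.nd (nat_lit 32604) (nat_lit 0) (nat_lit 6612) (XT.lf (nat_lit 0) (nat_lit 10183009874) (nat_lit 152) (nat_lit 42014292555) (nat_lit 76) (nat_lit 453308348026) (nat_lit 3) (nat_lit 5) (nat_lit 5) (nat_lit 5) (nat_lit 4) (nat_lit 4) (nat_lit 384) (nat_lit 280) (nat_lit 116)) (XT.lf (nat_lit 0) (nat_lit 753373853) (nat_lit 0) (nat_lit 753373853) (nat_lit 684) (nat_lit 4356841330) (nat_lit 90) (nat_lit 5) (nat_lit 90) (nat_lit 3) (nat_lit 99) (nat_lit 3) (nat_lit 281) (nat_lit 281) (nat_lit 218))) (XT.nd (nat_lit 78) (nat_lit 0) (nat_lit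 0) (XT.lf (nat_lit 0) (nat_lit 3616035920) (nat_lit 684) (nat_lit 4944895420) (nat_lit 760) (nat_lit 3432114083) (nat_lit 90) (nat_lit 5) (nat_lit 99) (nat_lit 3) (nat_lit 100) (nat_lit 5) (nat_lit 282) (nat_lit 281) (nat_lit 217)) (XT.nd (nat_lit 78) (nat_lit 0) (nat_lit 76) (XT.lf (nat_lit 76) (nat_lit 571084816) (nat_lit 0) (nat_lit 3681267370) (nat_lit 760) (nat_lit 8019732452) (nat_lit 91) (nat_lit 5) (nat_lit 90) (nat_lit 5) (nat_lit 100) (nat_lit 5) (nat_lit 283) (nat_lit 281) (nat_lit 216)) (XT.lf (nat_lit 0) (nat_lit 4999509877) (nat_lit 684) (nat_lit 6068565623) (nat_lit 760) (nat_lit 1493107068) (nat_lit 91) (nat_lit 5) (nat_lit 100) (nat_lit 5) (nat_lit 101) (nat_lit 5) (nat_lit 284) (nat_lit 281) (nat_lit 215))))) (XT.nd (nat_lit 156) (nat_lit 0) (nat_lit 76) (XT.nd (nat_lit 78) (nat_lit 0) (nat_lit 0) (XT.lf (nat_lit 0) (nat_lit 5817125495) (nat_lit 684) (nat_lit 232310017)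 (nat_lit 760) (nat_lit 6813700151) (nat_lit 91) (nat_lit 5) (nat_lit 100) (nat_lit 5) (nat_lit 101) (nat_lit 5) (nat_lit 285) (nat_lit 281) (nat_lit 214)) (XT.lf (nat_lit 76) (nat_lit 6073528587) (nat_lit 0) (nat_lit 670967059) (nat_lit 760) (nat_lit 6432299719) (nat_lit 92) (nat_lit 5) (nat_lit 91) (nat_lit 5) (nat_lit 101) (nat_lit 5) (nat_lit 286) (nat_lit 281) (nat_lit 213))) (XT.nd (nat_lit 78) (nat_lit 0) (nat_lit 0) (XT.lf (nat_lit 0) (nat_lit 7775092979) (nat_lit 684) (nat_lit 898763138) (nat_lit 760) (nat_lit 4829489133) (nat_lit 92) (nat_lit 5) (nat_lit 101) (nat_lit 5) (nat_lit 102) (nat_lit 5) (nat_lit 287) (nat_lit 281) (nat_lit 212)) (XT.nd (nat_lit 78) (nat_lit 0) (nat_lit 76) (XT.lf (nat_lit 76) (nat_lit 5772792821) (nat_lit 0) (nat_lit 3161902917) (nat_lit 760) (nat_lit 4907700860) (nat_lit 93) (nat_lit 5) (nat_lit 92) (nat_lit 5) (nat_lit 102) (nat_lit 5) (nat_lit 288)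 (nat_lit 281) (nat_lit 211)) (XT.lf (nat_lit 0) (nat_lit 10186051227) (nat_lit 684) (nat_lit 1447699131) (nat_lit 760) (nat_lit 2563006996) (nat_lit 93) (nat_lit 5) (nat_lit 102) (nat_lit 5) (nat_lit 103) (nat_lit 5) (nat_lit 289) (nat_lit 281) (nat_lit 210)))))) (XT.nd (nat_lit 390) (nat_lit 684) (nat_lit 0) (XT.nd (nat_lit 156) (nat_lit 1216) (nat_lit 0) (XT.nd (nat_lit 78) (nat_lit 0) (nat_lit 0) (XT.lf (nat_lit 76) (nat_lit 5616125921) (nat_lit 0) (nat_lit 6001755417) (nat_lit 760) (nat_lit 2945102775) (nat_lit 94) (nat_lit 5) (nat_lit 93) (nat_lit 5) (nat_lit 103) (nat_lit 5) (nat_lit 290) (nat_lit 281) (nat_lit 209)) (XT.lf (nat_lit 76) (nat_lit 13066587287) (nat_lit 0) (nat_lit 58388622) (nat_lit 760) (nat_lit 1822403899) (nat_lit 94) (nat_lit 5) (nat_lit 93) (nat_lit 5) (nat_lit 103) (nat_lit 5) (nat_lit 291) (nat_lit 281) (nat_lit 208))) (XT.nd (nat_lit 78) (nat_lit 608) (nat_lit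 0) (XT.lf (nat_lit 0) (nat_lit 5604322299) (nat_lit 684) (nat_lit 9267330687) (nat_lit 760) (nat_lit 471170190) (nat_lit 85) (nat_lit 5) (nat_lit 94) (nat_lit 5) (nat_lit 95) (nat_lit 5) (nat_lit 292) (nat_lit 281) (nat_lit 207)) (XT.nd (nat_lit 78) (nat_lit 532) (nat_lit 0) (XT.lf (nat_lit 0) (nat_lit 931164906) (nat_lit 760) (nat_lit 2261240844) (nat_lit 76) (nat_lit 12564235357) (nat_lit 84) (nat_lit 5) (nat_lit 94) (nat_lit 5) (nat_lit 85) (nat_lit 5) (nat_lit 293) (nat_lit 281) (nat_lit 206)) (XT.lf (nat_lit 0) (nat_lit 2510386834) (nat_lit 608) (nat_lit 10489108036) (nat_lit 76) (nat_lit 3185172568) (nat_lit 77) (nat_lit 5) (nat_lit 85) (nat_lit 5) (nat_lit 78) (nat_lit 5) (nat_lit 294) (nat_lit 281) (nat_lit 205))))) (XT.nd (nat_lit 156) (nat_lit 304) (nat_lit 0) (XT.nd (nat_lit 78) (nat_lit 380) (nat_lit 0) (XT.lf (nat_lit 0) (nat_lit 4241942174) (nat_lit 608) (nat_lit 2573796228)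 (nat_lit 76) (nat_lit 9814720382) (nat_lit 77) (nat_lit 5) (nat_lit 85) (nat_lit 5) (nat_lit 78) (nat_lit 5) (nat_lit 295) (nat_lit 281) (nat_lit 204)) (XT.lf (nat_lit 0) (nat_lit 5909903138) (nat_lit 380) (nat_lit 225408767) (nat_lit 456) (nat_lit 10959496739) (nat_lit 72) (nat_lit 5) (nat_lit 77) (nat_lit 5) (nat_lit 78) (nat_lit 5) (nat_lit 296) (nat_lit 281) (nat_lit 203))) (XT.nd (nat_lit 78) (nat_lit 304) (nat_lit 0) (XT.lf (nat_lit 0) (nat_lit 8255699047) (nat_lit 456) (nat_lit 2795407823) (nat_lit 76) (nat_lit 6524680992) (nat_lit 72) (nat_lit 5) (nat_lit 78) (nat_lit 5) (nat_lit 73) (nat_lit 5) (nat_lit 297) (nat_lit 281) (nat_lit 202)) (XT.nd (nat_lit 78) (nat_lit 0) (nat_lit 0) (XT.lf (nat_lit 0) (nat_lit 6191737479) (nat_lit 304) (nat_lit 4375045043) (nat_lit 380) (nat_lit 7509827586) (nat_lit 68) (nat_lit 5) (nat_lit 72) (nat_lit 5) (nat_lit 73) (nat_lit 5) (nat_lit 298)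 (nat_lit 281) (nat_lit 201)) (XT.lf (nat_lit 0) (nat_lit 13067469452) (nat_lit 380) (nat_lit 2933545307) (nat_lit 76) (nat_lit 2597782830) (nat_lit 68) (nat_lit 5) (nat_lit 73) (nat_lit 5) (nat_lit 69) (nat_lit 5) (nat_lit 299) (nat_lit 281) (nat_lit 200))))))) (XT.nd (nat_lit 780) (nat_lit 1064) (nat_lit 0) (XT.nd (nat_lit 390) (nat_lit 532) (nat_lit 0) (XT.nd (nat_lit 156) (nat_lit 684) (nat_lit 0) (XT.nd (nat_lit 78) (nat_lit 0) (nat_lit 0) (XT.lf (nat_lit 0) (nat_lit 6588483521) (nat_lit 304) (nat_lit 9264812693) (nat_lit 380) (nat_lit 3285818275) (nat_lit 64) (nat_lit 5) (nat_lit 68) (nat_lit 5) (nat_lit 69) (nat_lit 5) (nat_lit 300) (nat_lit 281) (nat_lit 199)) (XT.lf (nat_lit 0) (nat_lit 16672702746) (nat_lit 304) (nat_lit 2141354894) (nat_lit 380) (nat_lit 890631543) (nat_lit 64) (nat_lit 5) (nat_lit 68) (nat_lit 5) (nat_lit 69) (nat_lit 5) (nat_lit 301) (nat_lit 281) (nat_lit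 198))) (XT.nd (nat_lit 78) (nat_lit 304) (nat_lit 0) (XT.lf (nat_lit 0) (nat_lit 1755919049) (nat_lit 380) (nat_lit 13227341252) (nat_lit 76) (nat_lit 5304856542) (nat_lit 59) (nat_lit 5) (nat_lit 64) (nat_lit 5) (nat_lit 60) (nat_lit 5) (nat_lit 302) (nat_lit 281) (nat_lit 197)) (XT.nd (nat_lit 78) (nat_lit 304) (nat_lit 0) (XT.lf (nat_lit 0) (nat_lit 4578928283) (nat_lit 380) (nat_lit 3201133691) (nat_lit 76) (nat_lit 13116241609) (nat_lit 59) (nat_lit 5) (nat_lit 64) (nat_lit 5) (nat_lit 60) (nat_lit 5) (nat_lit 303) (nat_lit 281) (nat_lit 196)) (XT.lf (nat_lit 0) (nat_lit 7553005505) (nat_lit 304) (nat_lit 95404208) (nat_lit 380) (nat_lit 13881243698) (nat_lit 55) (nat_lit 5) (nat_lit 59) (nat_lit 5) (nat_lit 60) (nat_lit 5) (nat_lit 304) (nat_lit 281) (nat_lit 195))))) (XT.nd (nat_lit 156) (nat_lit 304) (nat_lit 0) (XT.nd (nat_lit 78) (nat_lit 228) (nat_lit 0) (XT.lf (nat_lit 0)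 (nat_lit 11038679836) (nat_lit 380) (nat_lit 3376816999) (nat_lit 76) (nat_lit 7770827061) (nat_lit 55) (nat_lit 5) (nat_lit 60) (nat_lit 5) (nat_lit 56) (nat_lit 5) (nat_lit 305) (nat_lit 281) (nat_lit 194)) (XT.lf (nat_lit 0) (nat_lit 7992521090) (nat_lit 228) (nat_lit 6720601238) (nat_lit 304) (nat_lit 8156990627) (nat_lit 52) (nat_lit 5) (nat_lit 55) (nat_lit 5) (nat_lit 56) (nat_lit 5) (nat_lit 306) (nat_lit 281) (nat_lit 193))) (XT.nd (nat_lit 78) (nat_lit 304) (nat_lit 0) (XT.lf (nat_lit 0) (nat_lit 18639221611) (nat_lit 304) (nat_lit 3574856035) (nat_lit 76) (nat_lit 1370634227) (nat_lit 52) (nat_lit 5) (nat_lit 56) (nat_lit 5) (nat_lit 53) (nat_lit 5) (nat_lit 307) (nat_lit 281) (nat_lit 192)) (XT.nd (nat_lit 78) (nat_lit 76) (nat_lit 0) (XT.lf (nat_lit 0) (nat_lit 8438617352) (nat_lit 228) (nat_lit 14554066776) (nat_lit 304) (nat_lit 1330820016) (nat_lit 49) (nat_lit 5) (nat_lit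 52) (nat_lit 5) (nat_lit 53) (nat_lit 5) (nat_lit 308) (nat_lit 281) (nat_lit 191)) (XT.lf (nat_lit 0) (nat_lit 2436479345) (nat_lit 304) (nat_lit 3973258647) (nat_lit 76) (nat_lit 18685050005) (nat_lit 48) (nat_lit 5) (nat_lit 52) (nat_lit 5) (nat_lit 49) (nat_lit 5) (nat_lit 309) (nat_lit 281) (nat_lit 190)))))) (XT.nd (nat_lit 390) (nat_lit 456) (nat_lit 0) (XT.nd (nat_lit 156) (nat_lit 380) (nat_lit 0) (XT.nd (nat_lit 78) (nat_lit 0) (nat_lit 0) (XT.lf (nat_lit 0) (nat_lit 6510234709) (nat_lit 304) (nat_lit 17153843958) (nat_lit 76) (nat_lit 2231339873) (nat_lit 45) (nat_lit 5) (nat_lit 49) (nat_lit 5) (nat_lit 46) (nat_lit 5) (nat_lit 310) (nat_lit 281) (nat_lit 189)) (XT.lf (nat_lit 0) (nat_lit 10951123731) (nat_lit 304) (nat_lit 4622804123) (nat_lit 76) (nat_lit 11153993889) (nat_lit 45) (nat_lit 5) (nat_lit 49) (nat_lit 5) (nat_lit 46) (nat_lit 5) (nat_lit 311) (nat_lit 281)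 (nat_lit 188))) (XT.nd (nat_lit 78) (nat_lit 152) (nat_lit 0) (XT.lf (nat_lit 0) (nat_lit 8803212887) (nat_lit 228) (nat_lit 6938740533) (nat_lit 304) (nat_lit 11853714664) (nat_lit 42) (nat_lit 5) (nat_lit 45) (nat_lit 5) (nat_lit 46) (nat_lit 5) (nat_lit 312) (nat_lit 281) (nat_lit 187)) (XT.nd (nat_lit 78) (nat_lit 152) (nat_lit 0) (XT.lf (nat_lit 0) (nat_lit 20875768253) (nat_lit 304) (nat_lit 5489908829) (nat_lit 76) (nat_lit 2135964657) (nat_lit 42) (nat_lit 5) (nat_lit 46) (nat_lit 5) (nat_lit 43) (nat_lit 5) (nat_lit 313) (nat_lit 281) (nat_lit 186)) (XT.lf (nat_lit 0) (nat_lit 8627250496) (nat_lit 152) (nat_lit 17878557817) (nat_lit 228) (nat_lit 2935140640) (nat_lit 40) (nat_lit 5) (nat_lit 42) (nat_lit 5) (nat_lit 43) (nat_lit 5) (nat_lit 314) (nat_lit 281) (nat_lit 185))))) (XT.nd (nat_lit 156) (nat_lit 152) (nat_lit 0) (XT.nd (nat_lit 78) (nat_lit 228) (nat_lit 0) (XT.lf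 (nat_lit 0) (nat_lit 2012093068) (nat_lit 228) (nat_lit 6827288679) (nat_lit 76) (nat_lit 21582013688) (nat_lit 39) (nat_lit 5) (nat_lit 42) (nat_lit 5) (nat_lit 40) (nat_lit 5) (nat_lit 315) (nat_lit 281) (nat_lit 184)) (XT.lf (nat_lit 0) (nat_lit 7238369866) (nat_lit 304) (nat_lit 23399771927) (nat_lit 76) (nat_lit 803810546) (nat_lit 36) (nat_lit 5) (nat_lit 40) (nat_lit 5) (nat_lit 37) (nat_lit 5) (nat_lit 316) (nat_lit 281) (nat_lit 183))) (XT.nd (nat_lit 78) (nat_lit 152) (nat_lit 0) (XT.lf (nat_lit 0) (nat_lit 12980119470) (nat_lit 304) (nat_lit 8774933691) (nat_lit 76) (nat_lit 10745785522) (nat_lit 36) (nat_lit 5) (nat_lit 40) (nat_lit 5) (nat_lit 37) (nat_lit 5) (nat_lit 317) (nat_lit 281) (nat_lit 182)) (XT.nd (nat_lit 78) (nat_lit 0) (nat_lit 0) (XT.lf (nat_lit 0) (nat_lit 6786425484) (nat_lit 152) (nat_lit 12320612062) (nat_lit 228) (nat_lit 14500736838) (nat_lit 34) (nat_lit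 5) (nat_lit 36) (nat_lit 5) (nat_lit 37) (nat_lit 5) (nat_lit 318) (nat_lit 281) (nat_lit 181)) (XT.lf (nat_lit 0) (nat_lit 23418761936) (nat_lit 152) (nat_lit 2262464927) (nat_lit 228) (nat_lit 9081792396) (nat_lit 34) (nat_lit 5) (nat_lit 36) (nat_lit 5) (nat_lit 37) (nat_lit 5) (nat_lit 319) (nat_lit 281) (nat_lit 180))))))))
noncomputable def xc167 : XT := (XT.nd (nat_lit 1560) (nat_lit 684) (nat_lit 0) (XT.nd (nat_lit 780) (nat_lit 456) (nat_lit 0) (XT.nd (nat_lit 390) (nat_lit 456) (nat_lit 0) (XT.nd (nat_lit 156) (nat_lit 152) (nat_lit 0) (XT.nd (nat_lit 78) (nat_lit 76) (nat_lit 0) (XT.lf (nat_lit 0) (nat_lit 4923206474) (nat_lit 152) (nat_lit 27859971597) (nat_lit 228) (nat_lit 3182903928) (nat_lit 32) (nat_lit 5) (nat_lit 34) (nat_lit 5) (nat_lit 35) (nat_lit 5) (nat_lit 320) (nat_lit 281) (nat_lit 179)) (XT.lf (nat_lit 0) (nat_lit 3139592252) (nat_lit 228) (nat_lit 14920605429)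 (nat_lit 76) (nat_lit 19155505629) (nat_lit 31) (nat_lit 5) (nat_lit 34) (nat_lit 5) (nat_lit 32) (nat_lit 5) (nat_lit 321) (nat_lit 281) (nat_lit 178))) (XT.nd (nat_lit 78) (nat_lit 0) (nat_lit 0) (XT.lf (nat_lit 0) (nat_lit 2008890859) (nat_lit 152) (nat_lit 7686741523) (nat_lit 228) (nat_lit 28828352210) (nat_lit 29) (nat_lit 5) (nat_lit 31) (nat_lit 5) (nat_lit 32) (nat_lit 5) (nat_lit 322) (nat_lit 281) (nat_lit 177)) (XT.nd (nat_lit 78) (nat_lit 0) (nat_lit 0) (XT.lf (nat_lit 0) (nat_lit 16879471485) (nat_lit 228) (nat_lit 19647474379) (nat_lit 76) (nat_lit 3355741007) (nat_lit 29) (nat_lit 5) (nat_lit 32) (nat_lit 5) (nat_lit 30) (nat_lit 5) (nat_lit 323) (nat_lit 281) (nat_lit 176)) (XT.lf (nat_lit 0) (nat_lit 24541964022) (nat_lit 228) (nat_lit 2073070038) (nat_lit 76) (nat_lit 14688323589) (nat_lit 29) (nat_lit 5) (nat_lit 32) (nat_lit 5) (nat_lit 30) (nat_lit 5) (nat_lit 324)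 (nat_lit 281) (nat_lit 175))))) (XT.nd (nat_lit 156) (nat_lit 304) (nat_lit 0) (XT.nd (nat_lit 78) (nat_lit 0) (nat_lit 0) (XT.lf (nat_lit 0) (nat_lit 16911239979) (nat_lit 152) (nat_lit 15934134318) (nat_lit 228) (nat_lit 9936804166) (nat_lit 27) (nat_lit 5) (nat_lit 29) (nat_lit 5) (nat_lit 30) (nat_lit 5) (nat_lit 325) (nat_lit 281) (nat_lit 174)) (XT.lf (nat_lit 0) (nat_lit 36906820555) (nat_lit 152) (nat_lit 4686146483) (nat_lit 228) (nat_lit 2740528540) (nat_lit 27) (nat_lit 5) (nat_lit 29) (nat_lit 5) (nat_lit 30) (nat_lit 5) (nat_lit 326) (nat_lit 281) (nat_lit 173))) (XT.nd (nat_lit 78) (nat_lit 152) (nat_lit 0) (XT.lf (nat_lit 0) (nat_lit 4962273395) (nat_lit 152) (nat_lit 33817947133) (nat_lit 76) (nat_lit 7163362088) (nat_lit 25) (nat_lit 5) (nat_lit 27) (nat_lit 5) (nat_lit 26) (nat_lit 5) (nat_lit 327) (nat_lit 281) (nat_lit 172)) (XT.nd (nat_lit 78) (nat_lit 152) (nat_lit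 0) (XT.lf (nat_lit 0) (nat_lit 13156942298) (nat_lit 152) (nat_lit 14848022799) (nat_lit 76) (nat_lit 19617026303) (nat_lit 25) (nat_lit 5) (nat_lit 27) (nat_lit 5) (nat_lit 26) (nat_lit 5) (nat_lit 328) (nat_lit 281) (nat_lit 171)) (XT.lf (nat_lit 0) (nat_lit 5228479097) (nat_lit 152) (nat_lit 16608942777) (nat_lit 228) (nat_lit 27543099709) (nat_lit 23) (nat_lit 5) (nat_lit 25) (nat_lit 5) (nat_lit 26) (nat_lit 5) (nat_lit 329) (nat_lit 281) (nat_lit 170)))))) (XT.nd (nat_lit 390) (nat_lit 152) (nat_lit 0) (XT.nd (nat_lit 156) (nat_lit 304) (nat_lit 0) (XT.nd (nat_lit 78) (nat_lit 0) (nat_lit 0) (XT.lf (nat_lit 0) (nat_lit 26815182673) (nat_lit 152) (nat_lit 4382769415) (nat_lit 228) (nat_lit 20016729443) (nat_lit 23) (nat_lit 5) (nat_lit 25) (nat_lit 5) (nat_lit 26) (nat_lit 5) (nat_lit 330) (nat_lit 281) (nat_lit 169)) (XT.lf (nat_lit 0) (nat_lit 41153282698) (nat_lit 228) (nat_lit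 3800217371) (nat_lit 76) (nat_lit 8180715086) (nat_lit 23) (nat_lit 5) (nat_lit 26) (nat_lit 5) (nat_lit 24) (nat_lit 4) (nat_lit 331) (nat_lit 281) (nat_lit 168))) (XT.nd (nat_lit 78) (nat_lit 228) (nat_lit 0) (XT.lf (nat_lit 0) (nat_lit 18335567843) (nat_lit 76) (nat_lit 33623951343) (nat_lit 152) (nat_lit 3172553470) (nat_lit 22) (nat_lit 5) (nat_lit 23) (nat_lit 5) (nat_lit 24) (nat_lit 4) (nat_lit 332) (nat_lit 281) (nat_lit 167)) (XT.nd (nat_lit 78) (nat_lit 152) (nat_lit 0) (XT.lf (nat_lit 0) (nat_lit 5942224711) (nat_lit 152) (nat_lit 15620945539) (nat_lit 76) (nat_lit 35658890299) (nat_lit 21) (nat_lit 5) (nat_lit 23) (nat_lit 5) (nat_lit 22) (nat_lit 5) (nat_lit 333) (nat_lit 281) (nat_lit 166)) (XT.lf (nat_lit 0) (nat_lit 6769973138) (nat_lit 152) (nat_lit 8737128735) (nat_lit 228) (nat_lit 43901800172) (nat_lit 19) (nat_lit 5) (nat_lit 21) (nat_lit 5) (nat_lit 22) (nat_lit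 5) (nat_lit 334) (nat_lit 281) (nat_lit 165))))) (XT.nd (nat_lit 156) (nat_lit 152) (nat_lit 0) (XT.nd (nat_lit 78) (nat_lit 0) (nat_lit 0) (XT.lf (nat_lit 0) (nat_lit 25888288639) (nat_lit 228) (nat_lit 30955427890) (nat_lit 76) (nat_lit 4844469224) (nat_lit 19) (nat_lit 5) (nat_lit 22) (nat_lit 5) (nat_lit 20) (nat_lit 4) (nat_lit 335) (nat_lit 281) (nat_lit 164)) (XT.lf (nat_lit 0) (nat_lit 36927317513) (nat_lit 228) (nat_lit 8338738321) (nat_lit 76) (nat_lit 18808441938) (nat_lit 19) (nat_lit 5) (nat_lit 22) (nat_lit 5) (nat_lit 20) (nat_lit 4) (nat_lit 336) (nat_lit 281) (nat_lit 163))) (XT.nd (nat_lit 78) (nat_lit 76) (nat_lit 0) (XT.lf (nat_lit 0) (nat_lit 15910639968) (nat_lit 76) (nat_lit 32851830541) (nat_lit 152) (nat_lit 17805449355) (nat_lit 18) (nat_lit 5) (nat_lit 19) (nat_lit 5) (nat_lit 20) (nat_lit 4) (nat_lit 337) (nat_lit 281) (nat_lit 162)) (XT.nd (nat_lit 78) (nat_lit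 76) (nat_lit 0) (XT.lf (nat_lit 0) (nat_lit 41654722859) (nat_lit 76) (nat_lit 19671730177) (nat_lit 152) (nat_lit 7852709390) (nat_lit 18) (nat_lit 5) (nat_lit 19) (nat_lit 5) (nat_lit 20) (nat_lit 4) (nat_lit 338) (nat_lit 281) (nat_lit 161)) (XT.lf (nat_lit 0) (nat_lit 2510507356) (nat_lit 152) (nat_lit 3282570106) (nat_lit 76) (nat_lit 66126065426) (nat_lit 17) (nat_lit 5) (nat_lit 19) (nat_lit 5) (nat_lit 18) (nat_lit 5) (nat_lit 339) (nat_lit 281) (nat_lit 160))))))) (XT.nd (nat_lit 780) (nat_lit 228) (nat_lit 0) (XT.nd (nat_lit 390) (nat_lit 228) (nat_lit 0) (XT.nd (nat_lit 156) (nat_lit 76) (nat_lit 0) (XT.nd (nat_lit 78) (nat_lit 0) (nat_lit 0) (XT.lf (nat_lit 0) (nat_lit 13624537993) (nat_lit 228) (nat_lit 52152525628) (nat_lit 76) (nat_lit 8987796881) (nat_lit 15) (nat_lit 5) (nat_lit 18) (nat_lit 5) (nat_lit 16) (nat_lit 4) (nat_lit 340) (nat_lit 281) (nat_lit 159)) (XT.lf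 (nat_lit 0) (nat_lit 25441948953) (nat_lit 228) (nat_lit 27936772468) (nat_lit 76) (nat_lit 24366761072) (nat_lit 15) (nat_lit 5) (nat_lit 18) (nat_lit 5) (nat_lit 16) (nat_lit 4) (nat_lit 341) (nat_lit 281) (nat_lit 158))) (XT.nd (nat_lit 78) (nat_lit 76) (nat_lit 0) (XT.lf (nat_lit 0) (nat_lit 37846618128) (nat_lit 228) (nat_lit 2516666665) (nat_lit 76) (nat_lit 40512033724) (nat_lit 15) (nat_lit 5) (nat_lit 18) (nat_lit 5) (nat_lit 16) (nat_lit 4) (nat_lit 342) (nat_lit 281) (nat_lit 157)) (XT.nd (nat_lit 78) (nat_lit 0) (nat_lit 0) (XT.lf (nat_lit 0) (nat_lit 24967429509) (nat_lit 76) (nat_lit 26290462481) (nat_lit 152) (nat_lit 32884438000) (nat_lit 14) (nat_lit 5) (nat_lit 15) (nat_lit 5) (nat_lit 16) (nat_lit 4) (nat_lit 343) (nat_lit 281) (nat_lit 156)) (XT.lf (nat_lit 0) (nat_lit 53907073738) (nat_lit 76) (nat_lit 11471906142) (nat_lit 152) (nat_lit 22191751741) (nat_lit 14)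 (nat_lit 5) (nat_lit 15) (nat_lit 5) (nat_lit 16) (nat_lit 4) (nat_lit 344) (nat_lit 281) (nat_lit 155))))) (XT.nd (nat_lit 156) (nat_lit 76) (nat_lit 0) (XT.nd (nat_lit 78) (nat_lit 152) (nat_lit 0) (XT.lf (nat_lit 0) (nat_lit 80266691049) (nat_lit 152) (nat_lit 6946537283) (nat_lit 0) (nat_lit 3954298562) (nat_lit 14) (nat_lit 5) (nat_lit 16) (nat_lit 4) (nat_lit 14) (nat_lit 4) (nat_lit 345) (nat_lit 281) (nat_lit 154)) (XT.lf (nat_lit 0) (nat_lit 1454904011) (nat_lit 152) (nat_lit 73337256127) (nat_lit 76) (nat_lit 20124716783) (nat_lit 12) (nat_lit 5) (nat_lit 14) (nat_lit 5) (nat_lit 13) (nat_lit 4) (nat_lit 346) (nat_lit 281) (nat_lit 153))) (XT.nd (nat_lit 78) (nat_lit 76) (nat_lit 0) (XT.lf (nat_lit 0) (nat_lit 14178578000) (nat_lit 152) (nat_lit 47260788127) (nat_lit 76) (nat_lit 37399570603) (nat_lit 12) (nat_lit 5) (nat_lit 14) (nat_lit 5) (nat_lit 13) (nat_lit 4) (nat_lit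 347) (nat_lit 281) (nat_lit 152)) (XT.nd (nat_lit 78) (nat_lit 76) (nat_lit 0) (XT.lf (nat_lit 0) (nat_lit 27535497748) (nat_lit 152) (nat_lit 19885829958) (nat_lit 76) (nat_lit 55535920370) (nat_lit 12) (nat_lit 5) (nat_lit 14) (nat_lit 5) (nat_lit 13) (nat_lit 4) (nat_lit 348) (nat_lit 281) (nat_lit 151)) (XT.lf (nat_lit 0) (nat_lit 9145510295) (nat_lit 76) (nat_lit 32554742194) (nat_lit 152) (nat_lit 65574224620) (nat_lit 11) (nat_lit 5) (nat_lit 12) (nat_lit 5) (nat_lit 13) (nat_lit 4) (nat_lit 349) (nat_lit 281) (nat_lit 150)))))) (XT.nd (nat_lit 390) (nat_lit 152) (nat_lit 0) (XT.nd (nat_lit 156) (nat_lit 76) (nat_lit 0) (XT.nd (nat_lit 78) (nat_lit 0) (nat_lit 0) (XT.lf (nat_lit 0) (nat_lit 40313811331) (nat_lit 76) (nat_lit 16593466967) (nat_lit 152) (nat_lit 54883589123) (nat_lit 11) (nat_lit 5) (nat_lit 12) (nat_lit 5) (nat_lit 13) (nat_lit 4) (nat_lit 350) (nat_lit 281) (nat_lit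 149)) (XT.lf (nat_lit 0) (nat_lit 72874599390) (nat_lit 152) (nat_lit 43499997442) (nat_lit 0) (nat_lit 158484639) (nat_lit 11) (nat_lit 5) (nat_lit 13) (nat_lit 4) (nat_lit 11) (nat_lit 4) (nat_lit 351) (nat_lit 281) (nat_lit 148))) (XT.nd (nat_lit 78) (nat_lit 76) (nat_lit 0) (XT.lf (nat_lit 0) (nat_lit 89909790837) (nat_lit 152) (nat_lit 14400736468) (nat_lit 0) (nat_lit 17188405060) (nat_lit 11) (nat_lit 5) (nat_lit 13) (nat_lit 4) (nat_lit 11) (nat_lit 4) (nat_lit 352) (nat_lit 281) (nat_lit 147)) (XT.nd (nat_lit 78) (nat_lit 0) (nat_lit 0) (XT.lf (nat_lit 0) (nat_lit 16683042867) (nat_lit 76) (nat_lit 91371768283) (nat_lit 76) (nat_lit 18645362481) (nat_lit 10) (nat_lit 4) (nat_lit 11) (nat_lit 5) (nat_lit 11) (nat_lit 4) (nat_lit 353) (nat_lit 281) (nat_lit 146)) (XT.lf (nat_lit 0) (nat_lit 49816637045) (nat_lit 76) (nat_lit 77531975704) (nat_lit 76) (nat_lit 4800788925) (nat_lit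 10) (nat_lit 4) (nat_lit 11) (nat_lit 5) (nat_lit 11) (nat_lit 4) (nat_lit 354) (nat_lit 281) (nat_lit 145))))) (XT.nd (nat_lit 234) (nat_lit 0) (nat_lit 0) (XT.nd (nat_lit 78) (nat_lit 76) (nat_lit 0) (XT.lf (nat_lit 0) (nat_lit 9422121091) (nat_lit 152) (nat_lit 53420391850) (nat_lit 76) (nat_lit 75021092921) (nat_lit 9) (nat_lit 5) (nat_lit 11) (nat_lit 5) (nat_lit 10) (nat_lit 4) (nat_lit 355) (nat_lit 281) (nat_lit 144)) (XT.nd (nat_lit 78) (nat_lit 76) (nat_lit 0) (XT.lf (nat_lit 0) (nat_lit 24192668158) (nat_lit 152) (nat_lit 23145106851) (nat_lit 76) (nat_lit 96521919764) (nat_lit 9) (nat_lit 5) (nat_lit 11) (nat_lit 5) (nat_lit 10) (nat_lit 4) (nat_lit 356) (nat_lit 281) (nat_lit 143)) (XT.lf (nat_lit 0) (nat_lit 8925809806) (nat_lit 76) (nat_lit 30913222568) (nat_lit 152) (nat_lit 110309692275) (nat_lit 8) (nat_lit 5) (nat_lit 9) (nat_lit 5) (nat_lit 10) (nat_lit 4) (nat_lit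 357) (nat_lit 281) (nat_lit 142)))) (XT.nd (nat_lit 78) (nat_lit 0) (nat_lit 0) (XT.lf (nat_lit 0) (nat_lit 43400065415) (nat_lit 76) (nat_lit 13257595705) (nat_lit 152) (nat_lit 100075048547) (nat_lit 8) (nat_lit 5) (nat_lit 9) (nat_lit 5) (nat_lit 10) (nat_lit 4) (nat_lit 358) (nat_lit 281) (nat_lit 141)) (XT.nd (nat_lit 78) (nat_lit 0) (nat_lit 0) (XT.lf (nat_lit 0) (nat_lit 74397713202) (nat_lit 152) (nat_lit 84133954240) (nat_lit 0) (nat_lit 5110202818) (nat_lit 8) (nat_lit 5) (nat_lit 10) (nat_lit 4) (nat_lit 8) (nat_lit 4) (nat_lit 359) (nat_lit 281) (nat_lit 140)) (XT.lf (nat_lit 0) (nat_lit 93240242298) (nat_lit 152) (nat_lit 53696139574) (nat_lit 0) (nat_lit 23949334163) (nat_lit 8) (nat_lit 5) (nat_lit 10) (nat_lit 4) (nat_lit 8) (nat_lit 4) (nat_lit 360) (nat_lit 281) (nat_lit 139))))))))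
noncomputable def xc168 : XT := (XT.nd (nat_lit 1560) (nat_lit 0) (nat_lit 0) (XT.nd (nat_lit 780) (nat_lit 76) (nat_lit 0) (XT.nd (nat_lit 390) (nat_lit 152) (nat_lit 0) (XT.nd (nat_lit 156) (nat_lit 0) (nat_lit 0) (XT.nd (nat_lit 78) (nat_lit 76) (nat_lit 0) (XT.lf (nat_lit 0) (nat_lit 113023123349) (nat_lit 152) (nat_lit 21739741045) (nat_lit 0) (nat_lit 43728979261) (nat_lit 8) (nat_lit 5) (nat_lit 10) (nat_lit 4) (nat_lit 8) (nat_lit 4) (nat_lit 361) (nat_lit 281) (nat_lit 138)) (XT.lf (nat_lit 0) (nat_lit 12201863854) (nat_lit 76) (nat_lit 121782099890) (nat_lit 76) (nat_lit 52484873941) (nat_lit 7) (nat_lit 4) (nat_lit 8) (nat_lit 5) (nat_lit 8) (nat_lit 4) (nat_lit 362) (nat_lit 281) (nat_lit 137))) (XT.nd (nat_lit 78) (nat_lit 0) (nat_lit 0) (XT.lf (nat_lit 0) (nat_lit 48592205116) (nat_lit 76) (nat_lit 107767156176) (nat_lit 76) (nat_lit 38466995123) (nat_lit 7) (nat_lit 4)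 (nat_lit 8) (nat_lit 5) (nat_lit 8) (nat_lit 4) (nat_lit 363) (nat_lit 281) (nat_lit 136)) (XT.nd (nat_lit 78) (nat_lit 0) (nat_lit 0) (XT.lf (nat_lit 0) (nat_lit 86799112390) (nat_lit 76) (nat_lit 93052837374) (nat_lit 76) (nat_lit 23749880983) (nat_lit 7) (nat_lit 4) (nat_lit 8) (nat_lit 5) (nat_lit 8) (nat_lit 4) (nat_lit 364) (nat_lit 281) (nat_lit 135)) (XT.lf (nat_lit 0) (nat_lit 126913554503) (nat_lit 76) (nat_lit 77604109392) (nat_lit 76) (nat_lit 8298490775) (nat_lit 7) (nat_lit 4) (nat_lit 8) (nat_lit 5) (nat_lit 8) (nat_lit 4) (nat_lit 365) (nat_lit 281) (nat_lit 134))))) (XT.nd (nat_lit 156) (nat_lit 76) (nat_lit 0) (XT.nd (nat_lit 78) (nat_lit 0) (nat_lit 0) (XT.lf (nat_lit 0) (nat_lit 7670348176) (nat_lit 152) (nat_lit 53583940309) (nat_lit 76) (nat_lit 161230792798) (nat_lit 6) (nat_lit 5) (nat_lit 8) (nat_lit 5) (nat_lit 7) (nat_lit 4) (nat_lit 366) (nat_lit 281) (nat_lit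 133)) (XT.lf (nat_lit 0) (nat_lit 24157358448) (nat_lit 152) (nat_lit 19787983969) (nat_lit 76) (nat_lit 188685379705) (nat_lit 6) (nat_lit 5) (nat_lit 8) (nat_lit 5) (nat_lit 7) (nat_lit 4) (nat_lit 367) (nat_lit 281) (nat_lit 132))) (XT.nd (nat_lit 78) (nat_lit 0) (nat_lit 0) (XT.lf (nat_lit 0) (nat_lit 16214255550) (nat_lit 76) (nat_lit 25506292776) (nat_lit 152) (nat_lit 201550505787) (nat_lit 5) (nat_lit 5) (nat_lit 6) (nat_lit 5) (nat_lit 7) (nat_lit 4) (nat_lit 368) (nat_lit 281) (nat_lit 131)) (XT.nd (nat_lit 78) (nat_lit 0) (nat_lit 0) (XT.lf (nat_lit 0) (nat_lit 54701168965) (nat_lit 76) (nat_lit 5794551866) (nat_lit 152) (nat_lit 193930991251) (nat_lit 5) (nat_lit 5) (nat_lit 6) (nat_lit 5) (nat_lit 7) (nat_lit 4) (nat_lit 369) (nat_lit 281) (nat_lit 130)) (XT.lf (nat_lit 0) (nat_lit 80441074928) (nat_lit 152) (nat_lit 171262760710) (nat_lit 0) (nat_lit 14424746675) (nat_lit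 5) (nat_lit 5) (nat_lit 7) (nat_lit 4) (nat_lit 5) (nat_lit 4) (nat_lit 370) (nat_lit 281) (nat_lit 129)))))) (XT.nd (nat_lit 390) (nat_lit 76) (nat_lit 0) (XT.nd (nat_lit 156) (nat_lit 0) (nat_lit 0) (XT.nd (nat_lit 78) (nat_lit 0) (nat_lit 0) (XT.lf (nat_lit 0) (nat_lit 101477497825) (nat_lit 152) (nat_lit 141474081084) (nat_lit 0) (nat_lit 35459277578) (nat_lit 5) (nat_lit 5) (nat_lit 7) (nat_lit 4) (nat_lit 5) (nat_lit 4) (nat_lit 371) (nat_lit 281) (nat_lit 128)) (XT.lf (nat_lit 0) (nat_lit 123564607052) (nat_lit 152) (nat_lit 110198109617) (nat_lit 0) (nat_lit 57544584905) (nat_lit 5) (nat_lit 5) (nat_lit 7) (nat_lit 4) (nat_lit 5) (nat_lit 4) (nat_lit 372) (nat_lit 281) (nat_lit 127))) (XT.nd (nat_lit 78) (nat_lit 0) (nat_lit 0) (XT.lf (nat_lit 0) (nat_lit 146754990963) (nat_lit 152) (nat_lit 77360379712) (nat_lit 0) (nat_lit 80733252721) (nat_lit 5) (nat_lit 5) (nat_lit 7) (nat_lit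 4) (nat_lit 5) (nat_lit 4) (nat_lit 373) (nat_lit 281) (nat_lit 126)) (XT.nd (nat_lit 78) (nat_lit 0) (nat_lit 0) (XT.lf (nat_lit 0) (nat_lit 171103864758) (nat_lit 152) (nat_lit 42882706296) (nat_lit 0) (nat_lit 105080492141) (nat_lit 5) (nat_lit 5) (nat_lit 7) (nat_lit 4) (nat_lit 5) (nat_lit 4) (nat_lit 374) (nat_lit 281) (nat_lit 125)) (XT.lf (nat_lit 0) (nat_lit 196669201947) (nat_lit 152) (nat_lit 6682999671) (nat_lit 0) (nat_lit 130644272780) (nat_lit 5) (nat_lit 5) (nat_lit 7) (nat_lit 4) (nat_lit 5) (nat_lit 4) (nat_lit 375) (nat_lit 281) (nat_lit 124))))) (XT.nd (nat_lit 156) (nat_lit 0) (nat_lit 0) (XT.nd (nat_lit 78) (nat_lit 0) (nat_lit 0) (XT.lf (nat_lit 0) (nat_lit 32360673591) (nat_lit 76) (nat_lit 191656439593) (nat_lit 76) (nat_lit 125630027999) (nat_lit 4) (nat_lit 4) (nat_lit 5) (nat_lit 5) (nat_lit 5) (nat_lit 4) (nat_lit 376) (nat_lit 281) (nat_lit 123)) (XT.lf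 (nat_lit 0) (nat_lit 73586815255) (nat_lit 76) (nat_lit 179257868333) (nat_lit 76) (nat_lit 113230044903) (nat_lit 4) (nat_lit 4) (nat_lit 5) (nat_lit 5) (nat_lit 5) (nat_lit 4) (nat_lit 377) (nat_lit 281) (nat_lit 122))) (XT.nd (nat_lit 78) (nat_lit 0) (nat_lit 0) (XT.lf (nat_lit 0) (nat_lit 116872612650) (nat_lit 76) (nat_lit 166240147262) (nat_lit 76) (nat_lit 100210979227) (nat_lit 4) (nat_lit 4) (nat_lit 5) (nat_lit 5) (nat_lit 5) (nat_lit 4) (nat_lit 378) (nat_lit 281) (nat_lit 121)) (XT.nd (nat_lit 78) (nat_lit 0) (nat_lit 0) (XT.lf (nat_lit 0) (nat_lit 162321127198) (nat_lit 76) (nat_lit 152572281808) (nat_lit 76) (nat_lit 86541833196) (nat_lit 4) (nat_lit 4) (nat_lit 5) (nat_lit 5) (nat_lit 5) (nat_lit 4) (nat_lit 379) (nat_lit 281) (nat_lit 120)) (XT.lf (nat_lit 0) (nat_lit 210040569649) (nat_lit 76) (nat_lit 138221729432) (nat_lit 76) (nat_lit 72190061224) (nat_lit 4) (nat_lit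 4) (nat_lit 5) (nat_lit 5) (nat_lit 5) (nat_lit 4) (nat_lit 380) (nat_lit 281) (nat_lit 119))))))) (XT.nd (nat_lit 33384) (nat_lit 0) (nat_lit 5168) (XT.nd (nat_lit 32994) (nat_lit 0) (nat_lit 6536) (XT.nd (nat_lit 156) (nat_lit 0) (nat_lit 0) (XT.nd (nat_lit 78) (nat_lit 0) (nat_lit 0) (XT.lf (nat_lit 0) (nat_lit 260144557722) (nat_lit 76) (nat_lit 123154322154) (nat_lit 76) (nat_lit 57121492426) (nat_lit 4) (nat_lit 4) (nat_lit 5) (nat_lit 5) (nat_lit 5) (nat_lit 4) (nat_lit 381) (nat_lit 281) (nat_lit 118)) (XT.lf (nat_lit 0) (nat_lit 312752386627) (nat_lit 76) (nat_lit 107334185194) (nat_lit 76) (nat_lit 41300249256) (nat_lit 4) (nat_lit 4) (nat_lit 5) (nat_lit 5) (nat_lit 5) (nat_lit 4) (nat_lit 382) (nat_lit 281) (nat_lit 117))) (XT.nd (nat_lit 78) (nat_lit 0) (nat_lit 0) (XT.lf (nat_lit 0) (nat_lit 367989313100) (nat_lit 76) (nat_lit 90723651560) (nat_lit 76) (nat_lit 24688662087)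 (nat_lit 4) (nat_lit 4) (nat_lit 5) (nat_lit 5) (nat_lit 5) (nat_lit 4) (nat_lit 383) (nat_lit 281) (nat_lit 116)) (XT.nd (nat_lit 32682) (nat_lit 0) (nat_lit 6536) (XT.lf (nat_lit 0) (nat_lit 425986853632) (nat_lit 76) (nat_lit 73283172361) (nat_lit 76) (nat_lit 7247179523) (nat_lit 4) (nat_lit 4) (nat_lit 5) (nat_lit 5) (nat_lit 5) (nat_lit 4) (nat_lit 384) (nat_lit 281) (nat_lit 115)) (XT.lf (nat_lit 0) (nat_lit 1023282344) (nat_lit 0) (nat_lit 1023282344) (nat_lit 684) (nat_lit 4086042736) (nat_lit 90) (nat_lit 5) (nat_lit 90) (nat_lit 3) (nat_lit 99) (nat_lit 3) (nat_lit 282) (nat_lit 282) (nat_lit 216))))) (XT.nd (nat_lit 156) (nat_lit 0) (nat_lit 76) (XT.nd (nat_lit 78) (nat_lit 0) (nat_lit 0) (XT.lf (nat_lit 0) (nat_lit 4674654253) (nat_lit 684) (nat_lit 4696851091) (nat_lit 760) (nat_lit 3175516599) (nat_lit 90) (nat_lit 5) (nat_lit 99) (nat_lit 3) (nat_lit 100) (nat_lit 5)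 (nat_lit 283) (nat_lit 282) (nat_lit 215)) (XT.lf (nat_lit 76) (nat_lit 1086939624) (nat_lit 0) (nat_lit 4221654048) (nat_lit 760) (nat_lit 7533214075) (nat_lit 91) (nat_lit 5) (nat_lit 90) (nat_lit 5) (nat_lit 100) (nat_lit 5) (nat_lit 284) (nat_lit 282) (nat_lit 214))) (XT.nd (nat_lit 78) (nat_lit 0) (nat_lit 0) (XT.lf (nat_lit 0) (nat_lit 6047638391) (nat_lit 684) (nat_lit 5860808290) (nat_lit 760) (nat_lit 1239268385) (nat_lit 91) (nat_lit 5) (nat_lit 100) (nat_lit 5) (nat_lit 101) (nat_lit 5) (nat_lit 285) (nat_lit 282) (nat_lit 213)) (XT.nd (nat_lit 78) (nat_lit 0) (nat_lit 0) (XT.lf (nat_lit 76) (nat_lit 250949887) (nat_lit 0) (nat_lit 6621095646) (nat_lit 760) (nat_lit 6594501838) (nat_lit 92) (nat_lit 5) (nat_lit 91) (nat_lit 5) (nat_lit 101) (nat_lit 5) (nat_lit 286) (nat_lit 282) (nat_lit 212)) (XT.lf (nat_lit 76) (nat_lit 6856196144) (nat_lit 0) (nat_lit 956950995) (nat_lit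 760) (nat_lit 5984448195) (nat_lit 92) (nat_lit 5) (nat_lit 91) (nat_lit 5) (nat_lit 101) (nat_lit 5) (nat_lit 287) (nat_lit 282) (nat_lit 211)))))) (XT.nd (nat_lit 390) (nat_lit 1520) (nat_lit 0) (XT.nd (nat_lit 156) (nat_lit 0) (nat_lit 76) (XT.nd (nat_lit 78) (nat_lit 0) (nat_lit 0) (XT.lf (nat_lit 0) (nat_lit 8856690946) (nat_lit 684) (nat_lit 447537338) (nat_lit 760) (nat_lit 4838243526) (nat_lit 92) (nat_lit 5) (nat_lit 101) (nat_lit 5) (nat_lit 102) (nat_lit 5) (nat_lit 288) (nat_lit 282) (nat_lit 210)) (XT.lf (nat_lit 76) (nat_lit 6549593774) (nat_lit 0) (nat_lit 3499309096) (nat_lit 760) (nat_lit 4450908001) (nat_lit 93) (nat_lit 5) (nat_lit 92) (nat_lit 5) (nat_lit 102) (nat_lit 5) (nat_lit 289) (nat_lit 282) (nat_lit 209))) (XT.nd (nat_lit 78) (nat_lit 0) (nat_lit 0) (XT.lf (nat_lit 0) (nat_lit 11328375501) (nat_lit 684) (nat_lit 1019449406) (nat_lit 760) (nat_lit 2525850717)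 (nat_lit 93) (nat_lit 5) (nat_lit 102) (nat_lit 5) (nat_lit 103) (nat_lit 5) (nat_lit 290) (nat_lit 282) (nat_lit 208)) (XT.nd (nat_lit 78) (nat_lit 0) (nat_lit 0) (XT.lf (nat_lit 76) (nat_lit 6389492146) (nat_lit 0) (nat_lit 6419851321) (nat_lit 760) (nat_lit 2450053341) (nat_lit 94) (nat_lit 5) (nat_lit 93) (nat_lit 5) (nat_lit 103) (nat_lit 5) (nat_lit 291) (nat_lit 282) (nat_lit 207)) (XT.lf (nat_lit 76) (nat_lit 14189021345) (nat_lit 0) (nat_lit 173696751) (nat_lit 760) (nat_lit 1301805453) (nat_lit 94) (nat_lit 5) (nat_lit 93) (nat_lit 5) (nat_lit 103) (nat_lit 5) (nat_lit 292) (nat_lit 282) (nat_lit 206))))) (XT.nd (nat_lit 156) (nat_lit 912) (nat_lit 0) (XT.nd (nat_lit 78) (nat_lit 0) (nat_lit 0) (XT.lf (nat_lit 0) (nat_lit 91173191) (nat_lit 760) (nat_lit 9704806571) (nat_lit 76) (nat_lit 6284823795) (nat_lit 84) (nat_lit 5) (nat_lit 94) (nat_lit 5) (nat_lit 85) (nat_lit 5)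 (nat_lit 293) (nat_lit 282) (nat_lit 205)) (XT.lf (nat_lit 0) (nat_lit 1520644565) (nat_lit 760) (nat_lit 1885831220) (nat_lit 76) (nat_lit 13109857394) (nat_lit 84) (nat_lit 5) (nat_lit 94) (nat_lit 5) (nat_lit 85) (nat_lit 5) (nat_lit 294) (nat_lit 282) (nat_lit 204))) (XT.nd (nat_lit 78) (nat_lit 380) (nat_lit 0) (XT.lf (nat_lit 0) (nat_lit 3159790968) (nat_lit 608) (nat_lit 10505108566) (nat_lit 76) (nat_lit 3301860451) (nat_lit 77) (nat_lit 5) (nat_lit 85) (nat_lit 5) (nat_lit 78) (nat_lit 5) (nat_lit 295) (nat_lit 282) (nat_lit 203)) (XT.nd (nat_lit 78) (nat_lit 380) (nat_lit 0) (XT.lf (nat_lit 0) (nat_lit 4952977181) (nat_lit 608) (nat_lit 2218243305) (nat_lit 76) (nat_lit 10264912834) (nat_lit 77) (nat_lit 5) (nat_lit 85) (nat_lit 5) (nat_lit 78) (nat_lit 5) (nat_lit 296) (nat_lit 282) (nat_lit 202)) (XT.lf (nat_lit 0) (nat_lit 6681830662) (nat_lit 380) (nat_lit 242864233) (nat_lit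 456) (nat_lit 10999864731) (nat_lit 72) (nat_lit 5) (nat_lit 77) (nat_lit 5) (nat_lit 78) (nat_lit 5) (nat_lit 297) (nat_lit 282) (nat_lit 201))))))))
noncomputable def xc169 : XT := (XT.nd (nat_lit 1560) (nat_lit 1292) (nat_lit 0) (XT.nd (nat_lit 780) (nat_lit 1216) (nat_lit 0) (XT.nd (nat_lit 390) (nat_lit 912) (nat_lit 0) (XT.nd (nat_lit 156) (nat_lit 304) (nat_lit 0) (XT.nd (nat_lit 78) (nat_lit 304) (nat_lit 0) (XT.lf (nat_lit 0) (nat_lit 9128027646) (nat_lit 456) (nat_lit 2457541659) (nat_lit 76) (nat_lit 6845213073) (nat_lit 72) (nat_lit 5) (nat_lit 78) (nat_lit 5) (nat_lit 73) (nat_lit 5) (nat_lit 298) (nat_lit 282) (nat_lit 200)) (XT.lf (nat_lit 0) (nat_lit 6971257092) (nat_lit 304) (nat_lit 4568862139) (nat_lit 380) (nat_lit 7417292746) (nat_lit 68) (nat_lit 5) (nat_lit 72) (nat_lit 5) (nat_lit 73) (nat_lit 5) (nat_lit 299) (nat_lit 282) (nat_lit 199))) (XT.nd (nat_lit 78)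 (nat_lit 304) (nat_lit 0) (XT.lf (nat_lit 0) (nat_lit 14145020916) (nat_lit 380) (nat_lit 2611106317) (nat_lit 76) (nat_lit 2750659662) (nat_lit 68) (nat_lit 5) (nat_lit 73) (nat_lit 5) (nat_lit 69) (nat_lit 5) (nat_lit 300) (nat_lit 282) (nat_lit 198)) (XT.nd (nat_lit 78) (nat_lit 0) (nat_lit 0) (XT.lf (nat_lit 0) (nat_lit 7379457561) (nat_lit 304) (nat_lit 9677688590) (nat_lit 380) (nat_lit 3017658451) (nat_lit 64) (nat_lit 5) (nat_lit 68) (nat_lit 5) (nat_lit 69) (nat_lit 5) (nat_lit 301) (nat_lit 282) (nat_lit 197)) (XT.lf (nat_lit 0) (nat_lit 17945909182) (nat_lit 304) (nat_lit 2200456222) (nat_lit 380) (nat_lit 523305275) (nat_lit 64) (nat_lit 5) (nat_lit 68) (nat_lit 5) (nat_lit 69) (nat_lit 5) (nat_lit 302) (nat_lit 282) (nat_lit 196))))) (XT.nd (nat_lit 156) (nat_lit 532) (nat_lit 0) (XT.nd (nat_lit 78) (nat_lit 0) (nat_lit 0) (XT.lf (nat_lit 0) (nat_lit 2231298636) (nat_lit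 380) (nat_lit 13423611941) (nat_lit 76) (nat_lit 5627622750) (nat_lit 59) (nat_lit 5) (nat_lit 64) (nat_lit 5) (nat_lit 60) (nat_lit 5) (nat_lit 303) (nat_lit 282) (nat_lit 195)) (XT.lf (nat_lit 0) (nat_lit 5177001967) (nat_lit 380) (nat_lit 2918241449) (nat_lit 76) (nat_lit 13826837862) (nat_lit 59) (nat_lit 5) (nat_lit 64) (nat_lit 5) (nat_lit 60) (nat_lit 5) (nat_lit 304) (nat_lit 282) (nat_lit 194))) (XT.nd (nat_lit 78) (nat_lit 228) (nat_lit 0) (XT.lf (nat_lit 0) (nat_lit 8366460370) (nat_lit 304) (nat_lit 22723742) (nat_lit 380) (nat_lit 14198480827) (nat_lit 55) (nat_lit 5) (nat_lit 59) (nat_lit 5) (nat_lit 60) (nat_lit 5) (nat_lit 305) (nat_lit 282) (nat_lit 193)) (XT.nd (nat_lit 78) (nat_lit 228) (nat_lit 0) (XT.lf (nat_lit 0) (nat_lit 11933054908) (nat_lit 380) (nat_lit 3114165934) (nat_lit 76) (nat_lit 8230770101) (nat_lit 55) (nat_lit 5) (nat_lit 60) (nat_lit 5) (nat_lit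 56) (nat_lit 5) (nat_lit 306) (nat_lit 282) (nat_lit 192)) (XT.lf (nat_lit 0) (nat_lit 8816679513) (nat_lit 228) (nat_lit 6964861434) (nat_lit 304) (nat_lit 8214937537) (nat_lit 52) (nat_lit 5) (nat_lit 55) (nat_lit 5) (nat_lit 56) (nat_lit 5) (nat_lit 307) (nat_lit 282) (nat_lit 191)))))) (XT.nd (nat_lit 390) (nat_lit 684) (nat_lit 0) (XT.nd (nat_lit 156) (nat_lit 304) (nat_lit 0) (XT.nd (nat_lit 78) (nat_lit 228) (nat_lit 0) (XT.lf (nat_lit 0) (nat_lit 19889463917) (nat_lit 304) (nat_lit 3334322929) (nat_lit 76) (nat_lit 1523768470) (nat_lit 52) (nat_lit 5) (nat_lit 56) (nat_lit 5) (nat_lit 53) (nat_lit 5) (nat_lit 308) (nat_lit 282) (nat_lit 190)) (XT.lf (nat_lit 0) (nat_lit 9273061612) (nat_lit 228) (nat_lit 15178822190) (nat_lit 304) (nat_lit 1071861953) (nat_lit 49) (nat_lit 5) (nat_lit 52) (nat_lit 5) (nat_lit 53) (nat_lit 5) (nat_lit 309) (nat_lit 282) (nat_lit 189))) (XT.nd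 (nat_lit 78) (nat_lit 228) (nat_lit 0) (XT.lf (nat_lit 0) (nat_lit 2858380513) (nat_lit 304) (nat_lit 3768716782) (nat_lit 76) (nat_lit 19707013250) (nat_lit 48) (nat_lit 5) (nat_lit 52) (nat_lit 5) (nat_lit 49) (nat_lit 5) (nat_lit 310) (nat_lit 282) (nat_lit 188)) (XT.nd (nat_lit 78) (nat_lit 0) (nat_lit 0) (XT.lf (nat_lit 0) (nat_lit 7129362850) (nat_lit 304) (nat_lit 17601477239) (nat_lit 76) (nat_lit 2444275232) (nat_lit 45) (nat_lit 5) (nat_lit 49) (nat_lit 5) (nat_lit 46) (nat_lit 5) (nat_lit 311) (nat_lit 282) (nat_lit 187)) (XT.lf (nat_lit 0) (nat_lit 11778314590) (nat_lit 304) (nat_lit 4463412027) (nat_lit 76) (nat_lit 11808234884) (nat_lit 45) (nat_lit 5) (nat_lit 49) (nat_lit 5) (nat_lit 46) (nat_lit 5) (nat_lit 312) (nat_lit 282) (nat_lit 186))))) (XT.nd (nat_lit 156) (nat_lit 456) (nat_lit 0) (XT.nd (nat_lit 78) (nat_lit 0) (nat_lit 0) (XT.lf (nat_lit 0) (nat_lit 9627606925)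 (nat_lit 228) (nat_lit 7173761862) (nat_lit 304) (nat_lit 12160110059) (nat_lit 42) (nat_lit 5) (nat_lit 45) (nat_lit 5) (nat_lit 46) (nat_lit 5) (nat_lit 313) (nat_lit 282) (nat_lit 185)) (XT.lf (nat_lit 0) (nat_lit 22180570964) (nat_lit 304) (nat_lit 5386824539) (nat_lit 76) (nat_lit 2345937839) (nat_lit 42) (nat_lit 5) (nat_lit 46) (nat_lit 5) (nat_lit 43) (nat_lit 5) (nat_lit 314) (nat_lit 282) (nat_lit 184))) (XT.nd (nat_lit 78) (nat_lit 304) (nat_lit 0) (XT.lf (nat_lit 0) (nat_lit 9430102757) (nat_lit 152) (nat_lit 18655381014) (nat_lit 228) (nat_lit 2814469788) (nat_lit 40) (nat_lit 5) (nat_lit 42) (nat_lit 5) (nat_lit 43) (nat_lit 5) (nat_lit 315) (nat_lit 282) (nat_lit 183)) (XT.nd (nat_lit 78) (nat_lit 228) (nat_lit 0) (XT.lf (nat_lit 0) (nat_lit 2359239170) (nat_lit 228) (nat_lit 6806408085) (nat_lit 76) (nat_lit 22764197373) (nat_lit 39) (nat_lit 5) (nat_lit 42) (nat_lit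 5) (nat_lit 40) (nat_lit 5) (nat_lit 316) (nat_lit 282) (nat_lit 182)) (XT.lf (nat_lit 0) (nat_lit 7842465835) (nat_lit 304) (nat_lit 24202871993) (nat_lit 76) (nat_lit 956323726) (nat_lit 36) (nat_lit 5) (nat_lit 40) (nat_lit 5) (nat_lit 37) (nat_lit 5) (nat_lit 317) (nat_lit 282) (nat_lit 181))))))) (XT.nd (nat_lit 780) (nat_lit 608) (nat_lit 0) (XT.nd (nat_lit 390) (nat_lit 304) (nat_lit 0) (XT.nd (nat_lit 156) (nat_lit 228) (nat_lit 0) (XT.nd (nat_lit 78) (nat_lit 152) (nat_lit 0) (XT.lf (nat_lit 0) (nat_lit 13859770658) (nat_lit 304) (nat_lit 8864262728) (nat_lit 76) (nat_lit 11390048753) (nat_lit 36) (nat_lit 5) (nat_lit 40) (nat_lit 5) (nat_lit 37) (nat_lit 5) (nat_lit 318) (nat_lit 282) (nat_lit 180)) (XT.lf (nat_lit 0) (nat_lit 7469528637) (nat_lit 152) (nat_lit 12817890293) (nat_lit 228) (nat_lit 14989239156) (nat_lit 34) (nat_lit 5) (nat_lit 36) (nat_lit 5) (nat_lit 37) (nat_lit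 5) (nat_lit 319) (nat_lit 282) (nat_lit 179))) (XT.nd (nat_lit 78) (nat_lit 228) (nat_lit 0) (XT.lf (nat_lit 0) (nat_lit 24917111346) (nat_lit 152) (nat_lit 2262490676) (nat_lit 228) (nat_lit 9310611040) (nat_lit 34) (nat_lit 5) (nat_lit 36) (nat_lit 5) (nat_lit 37) (nat_lit 5) (nat_lit 320) (nat_lit 282) (nat_lit 178)) (XT.nd (nat_lit 78) (nat_lit 76) (nat_lit 0) (XT.lf (nat_lit 0) (nat_lit 5500540425) (nat_lit 152) (nat_lit 29132757180) (nat_lit 228) (nat_lit 3120310493) (nat_lit 32) (nat_lit 5) (nat_lit 34) (nat_lit 5) (nat_lit 35) (nat_lit 5) (nat_lit 321) (nat_lit 282) (nat_lit 177)) (XT.lf (nat_lit 0) (nat_lit 3500992445) (nat_lit 228) (nat_lit 15344264590) (nat_lit 76) (nat_lit 20220801823) (nat_lit 31) (nat_lit 5) (nat_lit 34) (nat_lit 5) (nat_lit 32) (nat_lit 5) (nat_lit 322) (nat_lit 282) (nat_lit 176))))) (XT.nd (nat_lit 156) (nat_lit 152) (nat_lit 0) (XT.nd (nat_lit 78) (nat_lit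 0) (nat_lit 0) (XT.lf (nat_lit 0) (nat_lit 2426506979) (nat_lit 152) (nat_lit 7953545227) (nat_lit 228) (nat_lit 30059951049) (nat_lit 29) (nat_lit 5) (nat_lit 31) (nat_lit 5) (nat_lit 32) (nat_lit 5) (nat_lit 323) (nat_lit 282) (nat_lit 175)) (XT.lf (nat_lit 0) (nat_lit 17915324326) (nat_lit 228) (nat_lit 20319831796) (nat_lit 76) (nat_lit 3631881934) (nat_lit 29) (nat_lit 5) (nat_lit 32) (nat_lit 5) (nat_lit 30) (nat_lit 5) (nat_lit 324) (nat_lit 282) (nat_lit 174))) (XT.nd (nat_lit 78) (nat_lit 152) (nat_lit 0) (XT.lf (nat_lit 0) (nat_lit 25951804382) (nat_lit 228) (nat_lit 1881469918) (nat_lit 76) (nat_lit 15525933937) (nat_lit 29) (nat_lit 5) (nat_lit 32) (nat_lit 5) (nat_lit 30) (nat_lit 5) (nat_lit 325) (nat_lit 282) (nat_lit 173)) (XT.nd (nat_lit 78) (nat_lit 0) (nat_lit 0) (XT.lf (nat_lit 0) (nat_lit 18047293445) (nat_lit 152) (nat_lit 16618925104) (nat_lit 228) (nat_lit 10245968454)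 (nat_lit 27) (nat_lit 5) (nat_lit 29) (nat_lit 5) (nat_lit 30) (nat_lit 5) (nat_lit 326) (nat_lit 282) (nat_lit 172)) (XT.lf (nat_lit 0) (nat_lit 39028820123) (nat_lit 152) (nat_lit 4813867207) (nat_lit 228) (nat_lit 2698815995) (nat_lit 27) (nat_lit 5) (nat_lit 29) (nat_lit 5) (nat_lit 30) (nat_lit 5) (nat_lit 327) (nat_lit 282) (nat_lit 171)))))) (XT.nd (nat_lit 390) (nat_lit 304) (nat_lit 0) (XT.nd (nat_lit 156) (nat_lit 152) (nat_lit 0) (XT.nd (nat_lit 78) (nat_lit 0) (nat_lit 0) (XT.lf (nat_lit 0) (nat_lit 5381205914) (nat_lit 152) (nat_lit 35223961935) (nat_lit 76) (nat_lit 7626904713) (nat_lit 25) (nat_lit 5) (nat_lit 27) (nat_lit 5) (nat_lit 26) (nat_lit 5) (nat_lit 328) (nat_lit 282) (nat_lit 170)) (XT.lf (nat_lit 0) (nat_lit 13977474031) (nat_lit 152) (nat_lit 15319107221) (nat_lit 76) (nat_lit 20698234305) (nat_lit 25) (nat_lit 5) (nat_lit 27) (nat_lit 5) (nat_lit 26) (nat_lit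 5) (nat_lit 329) (nat_lit 282) (nat_lit 169))) (XT.nd (nat_lit 78) (nat_lit 0) (nat_lit 0) (XT.lf (nat_lit 0) (nat_lit 5756843693) (nat_lit 152) (nat_lit 17331554698) (nat_lit 228) (nat_lit 28753059541) (nat_lit 23) (nat_lit 5) (nat_lit 25) (nat_lit 5) (nat_lit 26) (nat_lit 5) (nat_lit 330) (nat_lit 282) (nat_lit 168)) (XT.nd (nat_lit 78) (nat_lit 0) (nat_lit 0) (XT.lf (nat_lit 0) (nat_lit 28410170990) (nat_lit 152) (nat_lit 4499207678) (nat_lit 228) (nat_lit 20858332436) (nat_lit 23) (nat_lit 5) (nat_lit 25) (nat_lit 5) (nat_lit 26) (nat_lit 5) (nat_lit 331) (nat_lit 282) (nat_lit 167)) (XT.lf (nat_lit 0) (nat_lit 43356787226) (nat_lit 228) (nat_lit 3742294670) (nat_lit 76) (nat_lit 8684430040) (nat_lit 23) (nat_lit 5) (nat_lit 26) (nat_lit 5) (nat_lit 24) (nat_lit 4) (nat_lit 332) (nat_lit 282) (nat_lit 166))))) (XT.nd (nat_lit 156) (nat_lit 152) (nat_lit 0) (XT.nd (nat_lit 78) (nat_lit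 76) (nat_lit 0) (XT.lf (nat_lit 0) (nat_lit 19496280877) (nat_lit 76) (nat_lit 35203918385) (nat_lit 152) (nat_lit 3181225672) (nat_lit 22) (nat_lit 5) (nat_lit 23) (nat_lit 5) (nat_lit 24) (nat_lit 4) (nat_lit 333) (nat_lit 282) (nat_lit 165)) (XT.lf (nat_lit 0) (nat_lit 6377579719) (nat_lit 152) (nat_lit 16164997794) (nat_lit 76) (nat_lit 37533568523) (nat_lit 21) (nat_lit 5) (nat_lit 23) (nat_lit 5) (nat_lit 22) (nat_lit 5) (nat_lit 334) (nat_lit 282) (nat_lit 164))) (XT.nd (nat_lit 78) (nat_lit 0) (nat_lit 0) (XT.lf (nat_lit 0) (nat_lit 7341644316) (nat_lit 152) (nat_lit 9076113862) (nat_lit 228) (nat_lit 45954723574) (nat_lit 19) (nat_lit 5) (nat_lit 21) (nat_lit 5) (nat_lit 22) (nat_lit 5) (nat_lit 335) (nat_lit 282) (nat_lit 163)) (XT.nd (nat_lit 78) (nat_lit 0) (nat_lit 0) (XT.lf (nat_lit 0) (nat_lit 27313016650) (nat_lit 228) (nat_lit 32276047027) (nat_lit 76) (nat_lit 5176920130)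 (nat_lit 19) (nat_lit 5) (nat_lit 22) (nat_lit 5) (nat_lit 20) (nat_lit 4) (nat_lit 336) (nat_lit 282) (nat_lit 162)) (XT.lf (nat_lit 0) (nat_lit 38897791558) (nat_lit 228) (nat_lit 8539339753) (nat_lit 76) (nat_lit 19834794934) (nat_lit 19) (nat_lit 5) (nat_lit 22) (nat_lit 5) (nat_lit 20) (nat_lit 4) (nat_lit 337) (nat_lit 282) (nat_lit 161))))))))
noncomputable def xc170 : XT := (XT.nd (nat_lit 1560) (nat_lit 380) (nat_lit 0) (XT.nd (nat_lit 780) (nat_lit 228) (nat_lit 0) (XT.nd (nat_lit 390) (nat_lit 228) (nat_lit 0) (XT.nd (nat_lit 156) (nat_lit 228) (nat_lit 0) (XT.nd (nat_lit 78) (nat_lit 0) (nat_lit 0) (XT.lf (nat_lit 0) (nat_lit 16919018168) (nat_lit 76) (nat_lit 34403097249) (nat_lit 152) (nat_lit 18568037698) (nat_lit 18) (nat_lit 5) (nat_lit 19) (nat_lit 5) (nat_lit 20) (nat_lit 4) (nat_lit 338) (nat_lit 282) (nat_lit 160)) (XT.lf (nat_lit 0) (nat_lit 43940169670) (nat_lit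 76) (nat_lit 20568340668) (nat_lit 152) (nat_lit 8123740931) (nat_lit 18) (nat_lit 5) (nat_lit 19) (nat_lit 5) (nat_lit 20) (nat_lit 4) (nat_lit 339) (nat_lit 282) (nat_lit 159))) (XT.nd (nat_lit 78) (nat_lit 152) (nat_lit 0) (XT.lf (nat_lit 0) (nat_lit 2748139241) (nat_lit 152) (nat_lit 3249859213) (nat_lit 76) (nat_lit 69511421381) (nat_lit 17) (nat_lit 5) (nat_lit 19) (nat_lit 5) (nat_lit 18) (nat_lit 5) (nat_lit 340) (nat_lit 282) (nat_lit 158)) (XT.nd (nat_lit 78) (nat_lit 0) (nat_lit 0) (XT.lf (nat_lit 0) (nat_lit 14416866141) (nat_lit 228) (nat_lit 54562235935) (nat_lit 76) (nat_lit 9518375082) (nat_lit 15) (nat_lit 5) (nat_lit 18) (nat_lit 5) (nat_lit 16) (nat_lit 4) (nat_lit 341) (nat_lit 282) (nat_lit 157)) (XT.lf (nat_lit 0) (nat_lit 26819857113) (nat_lit 228) (nat_lit 29145119687) (nat_lit 76) (nat_lit 25662421371) (nat_lit 15) (nat_lit 5) (nat_lit 18) (nat_lit 5) (nat_lit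 16) (nat_lit 4) (nat_lit 342) (nat_lit 282) (nat_lit 156))))) (XT.nd (nat_lit 156) (nat_lit 152) (nat_lit 0) (XT.nd (nat_lit 78) (nat_lit 76) (nat_lit 0) (XT.lf (nat_lit 0) (nat_lit 39839721141) (nat_lit 228) (nat_lit 2462984376) (nat_lit 76) (nat_lit 42611275644) (nat_lit 15) (nat_lit 5) (nat_lit 18) (nat_lit 5) (nat_lit 16) (nat_lit 4) (nat_lit 343) (nat_lit 282) (nat_lit 155)) (XT.lf (nat_lit 0) (nat_lit 26392421194) (nat_lit 76) (nat_lit 27527096368) (nat_lit 152) (nat_lit 34424930782) (nat_lit 14) (nat_lit 5) (nat_lit 15) (nat_lit 5) (nat_lit 16) (nat_lit 4) (nat_lit 344) (nat_lit 282) (nat_lit 154))) (XT.nd (nat_lit 78) (nat_lit 152) (nat_lit 0) (XT.lf (nat_lit 0) (nat_lit 56770637149) (nat_lit 76) (nat_lit 11971321223) (nat_lit 152) (nat_lit 23202549693) (nat_lit 14) (nat_lit 5) (nat_lit 15) (nat_lit 5) (nat_lit 16) (nat_lit 4) (nat_lit 345) (nat_lit 282) (nat_lit 153)) (XT.nd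 (nat_lit 78) (nat_lit 152) (nat_lit 0) (XT.lf (nat_lit 0) (nat_lit 84370680514) (nat_lit 152) (nat_lit 7130233957) (nat_lit 0) (nat_lit 4220400153) (nat_lit 14) (nat_lit 5) (nat_lit 16) (nat_lit 4) (nat_lit 14) (nat_lit 4) (nat_lit 346) (nat_lit 282) (nat_lit 152)) (XT.lf (nat_lit 0) (nat_lit 1618008833) (nat_lit 152) (nat_lit 76840089566) (nat_lit 76) (nat_lit 21200053711) (nat_lit 12) (nat_lit 5) (nat_lit 14) (nat_lit 5) (nat_lit 13) (nat_lit 4) (nat_lit 347) (nat_lit 282) (nat_lit 151)))))) (XT.nd (nat_lit 390) (nat_lit 152) (nat_lit 0) (XT.nd (nat_lit 156) (nat_lit 76) (nat_lit 0) (XT.nd (nat_lit 78) (nat_lit 0) (nat_lit 0) (XT.lf (nat_lit 0) (nat_lit 14973563683) (nat_lit 152) (nat_lit 49467609089) (nat_lit 76) (nat_lit 39335359694) (nat_lit 12) (nat_lit 5) (nat_lit 14) (nat_lit 5) (nat_lit 13) (nat_lit 4) (nat_lit 348) (nat_lit 282) (nat_lit 150)) (XT.lf (nat_lit 0) (nat_lit 28994231476)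 (nat_lit 152) (nat_lit 20731341985) (nat_lit 76) (nat_lit 58375393113) (nat_lit 12) (nat_lit 5) (nat_lit 14) (nat_lit 5) (nat_lit 13) (nat_lit 4) (nat_lit 349) (nat_lit 282) (nat_lit 149))) (XT.nd (nat_lit 78) (nat_lit 0) (nat_lit 0) (XT.lf (nat_lit 0) (nat_lit 9749165612) (nat_lit 76) (nat_lit 34116440939) (nat_lit 152) (nat_lit 68768533566) (nat_lit 11) (nat_lit 5) (nat_lit 12) (nat_lit 5) (nat_lit 13) (nat_lit 4) (nat_lit 350) (nat_lit 282) (nat_lit 148)) (XT.nd (nat_lit 78) (nat_lit 0) (nat_lit 0) (XT.lf (nat_lit 0) (nat_lit 42468911233) (nat_lit 76) (nat_lit 17360246634) (nat_lit 152) (nat_lit 57547385450) (nat_lit 11) (nat_lit 5) (nat_lit 12) (nat_lit 5) (nat_lit 13) (nat_lit 4) (nat_lit 351) (nat_lit 282) (nat_lit 147)) (XT.lf (nat_lit 0) (nat_lit 76592136599) (nat_lit 152) (nat_lit 45539478397) (nat_lit 0) (nat_lit 224390481) (nat_lit 11) (nat_lit 5) (nat_lit 13) (nat_lit 4)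 (nat_lit 11) (nat_lit 4) (nat_lit 352) (nat_lit 282) (nat_lit 146))))) (XT.nd (nat_lit 156) (nat_lit 76) (nat_lit 0) (XT.nd (nat_lit 78) (nat_lit 76) (nat_lit 0) (XT.lf (nat_lit 0) (nat_lit 94475572987) (nat_lit 152) (nat_lit 14991707656) (nat_lit 0) (nat_lit 18103045894) (nat_lit 11) (nat_lit 5) (nat_lit 13) (nat_lit 4) (nat_lit 11) (nat_lit 4) (nat_lit 353) (nat_lit 282) (nat_lit 145)) (XT.lf (nat_lit 0) (nat_lit 17644178942) (nat_lit 76) (nat_lit 95882300682) (nat_lit 76) (nat_lit 19505220278) (nat_lit 10) (nat_lit 4) (nat_lit 11) (nat_lit 5) (nat_lit 11) (nat_lit 4) (nat_lit 354) (nat_lit 282) (nat_lit 144))) (XT.nd (nat_lit 78) (nat_lit 76) (nat_lit 0) (XT.lf (nat_lit 0) (nat_lit 52428405975) (nat_lit 76) (nat_lit 81353283046) (nat_lit 76) (nat_lit 4971866155) (nat_lit 10) (nat_lit 4) (nat_lit 11) (nat_lit 5) (nat_lit 11) (nat_lit 4) (nat_lit 355) (nat_lit 282) (nat_lit 143)) (XT.nd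 (nat_lit 78) (nat_lit 0) (nat_lit 0) (XT.lf (nat_lit 0) (nat_lit 9956803331) (nat_lit 152) (nat_lit 55974100047) (nat_lit 76) (nat_lit 78822672857) (nat_lit 9) (nat_lit 5) (nat_lit 11) (nat_lit 5) (nat_lit 10) (nat_lit 4) (nat_lit 356) (nat_lit 282) (nat_lit 142)) (XT.lf (nat_lit 0) (nat_lit 25462850314) (nat_lit 152) (nat_lit 24190637054) (nat_lit 76) (nat_lit 101396135076) (nat_lit 9) (nat_lit 5) (nat_lit 11) (nat_lit 5) (nat_lit 10) (nat_lit 4) (nat_lit 357) (nat_lit 282) (nat_lit 141))))))) (XT.nd (nat_lit 780) (nat_lit 152) (nat_lit 0) (XT.nd (nat_lit 390) (nat_lit 152) (nat_lit 0) (XT.nd (nat_lit 156) (nat_lit 0) (nat_lit 0) (XT.nd (nat_lit 78) (nat_lit 0) (nat_lit 0) (XT.lf (nat_lit 0) (nat_lit 9482023417) (nat_lit 76) (nat_lit 32408342258) (nat_lit 152) (nat_lit 115762797904) (nat_lit 8) (nat_lit 5) (nat_lit 9) (nat_lit 5) (nat_lit 10) (nat_lit 4) (nat_lit 358) (nat_lit 282)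 (nat_lit 140)) (XT.lf (nat_lit 0) (nat_lit 45674757372) (nat_lit 76) (nat_lit 13872340788) (nat_lit 152) (nat_lit 105019392418) (nat_lit 8) (nat_lit 5) (nat_lit 9) (nat_lit 5) (nat_lit 10) (nat_lit 4) (nat_lit 359) (nat_lit 282) (nat_lit 139))) (XT.nd (nat_lit 78) (nat_lit 0) (nat_lit 0) (XT.lf (nat_lit 0) (nat_lit 78172175530) (nat_lit 152) (nat_lit 88238945531) (nat_lit 0) (nat_lit 5410088284) (nat_lit 8) (nat_lit 5) (nat_lit 10) (nat_lit 4) (nat_lit 8) (nat_lit 4) (nat_lit 360) (nat_lit 282) (nat_lit 138)) (XT.nd (nat_lit 78) (nat_lit 0) (nat_lit 0) (XT.lf (nat_lit 0) (nat_lit 97954232191) (nat_lit 152) (nat_lit 56284083295) (nat_lit 0) (nat_lit 25189063086) (nat_lit 8) (nat_lit 5) (nat_lit 10) (nat_lit 4) (nat_lit 8) (nat_lit 4) (nat_lit 361) (nat_lit 282) (nat_lit 137)) (XT.lf (nat_lit 0) (nat_lit 118723782163) (nat_lit 152) (nat_lit 22734477375) (nat_lit 0) (nat_lit 45955677953)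 (nat_lit 8) (nat_lit 5) (nat_lit 10) (nat_lit 4) (nat_lit 8) (nat_lit 4) (nat_lit 362) (nat_lit 282) (nat_lit 136))))) (XT.nd (nat_lit 156) (nat_lit 76) (nat_lit 0) (XT.nd (nat_lit 78) (nat_lit 0) (nat_lit 0) (XT.lf (nat_lit 0) (nat_lit 12902719854) (nat_lit 76) (nat_lit 127829004516) (nat_lit 76) (nat_lit 55058104968) (nat_lit 7) (nat_lit 4) (nat_lit 8) (nat_lit 5) (nat_lit 8) (nat_lit 4) (nat_lit 363) (nat_lit 282) (nat_lit 135)) (XT.lf (nat_lit 0) (nat_lit 51108256141) (nat_lit 76) (nat_lit 113115323158) (nat_lit 76) (nat_lit 40341761383) (nat_lit 7) (nat_lit 4) (nat_lit 8) (nat_lit 5) (nat_lit 8) (nat_lit 4) (nat_lit 364) (nat_lit 282) (nat_lit 134))) (XT.nd (nat_lit 78) (nat_lit 76) (nat_lit 0) (XT.lf (nat_lit 0) (nat_lit 91221392551) (nat_lit 76) (nat_lit 97667202265) (nat_lit 76) (nat_lit 24891105036) (nat_lit 7) (nat_lit 4) (nat_lit 8) (nat_lit 5) (nat_lit 8) (nat_lit 4) (nat_lit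 365) (nat_lit 282) (nat_lit 133)) (XT.nd (nat_lit 78) (nat_lit 76) (nat_lit 0) (XT.lf (nat_lit 0) (nat_lit 133337636554) (nat_lit 76) (nat_lit 81447860597) (nat_lit 76) (nat_lit 8669348650) (nat_lit 7) (nat_lit 4) (nat_lit 8) (nat_lit 5) (nat_lit 8) (nat_lit 4) (nat_lit 366) (nat_lit 282) (nat_lit 132)) (XT.lf (nat_lit 0) (nat_lit 8094490589) (nat_lit 152) (nat_lit 56187105969) (nat_lit 76) (nat_lit 169325690215) (nat_lit 6) (nat_lit 5) (nat_lit 8) (nat_lit 5) (nat_lit 7) (nat_lit 4) (nat_lit 367) (nat_lit 282) (nat_lit 131)))))) (XT.nd (nat_lit 390) (nat_lit 76) (nat_lit 0) (XT.nd (nat_lit 156) (nat_lit 0) (nat_lit 0) (XT.nd (nat_lit 78) (nat_lit 76) (nat_lit 0) (XT.lf (nat_lit 0) (nat_lit 25403916851) (nat_lit 152) (nat_lit 20704972353) (nat_lit 76) (nat_lit 198151418003) (nat_lit 6) (nat_lit 5) (nat_lit 8) (nat_lit 5) (nat_lit 7) (nat_lit 4) (nat_lit 368) (nat_lit 282) (nat_lit 130))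 (XT.lf (nat_lit 0) (nat_lit 17096211226) (nat_lit 76) (nat_lit 26748324894) (nat_lit 152) (nat_lit 211588156966) (nat_lit 5) (nat_lit 5) (nat_lit 6) (nat_lit 5) (nat_lit 7) (nat_lit 4) (nat_lit 369) (nat_lit 282) (nat_lit 129))) (XT.nd (nat_lit 78) (nat_lit 0) (nat_lit 0) (XT.lf (nat_lit 0) (nat_lit 57504077793) (nat_lit 76) (nat_lit 6052581821) (nat_lit 152) (nat_lit 203589565471) (nat_lit 5) (nat_lit 5) (nat_lit 6) (nat_lit 5) (nat_lit 7) (nat_lit 4) (nat_lit 370) (nat_lit 282) (nat_lit 128)) (XT.nd (nat_lit 78) (nat_lit 0) (nat_lit 0) (XT.lf (nat_lit 0) (nat_lit 84498031179) (nat_lit 152) (nat_lit 179760014848) (nat_lit 0) (nat_lit 15175206025) (nat_lit 5) (nat_lit 5) (nat_lit 7) (nat_lit 4) (nat_lit 5) (nat_lit 4) (nat_lit 371) (nat_lit 282) (nat_lit 127)) (XT.lf (nat_lit 0) (nat_lit 106584613197) (nat_lit 152) (nat_lit 148485038569) (nat_lit 0) (nat_lit 37260071948) (nat_lit 5)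 (nat_lit 5) (nat_lit 7) (nat_lit 4) (nat_lit 5) (nat_lit 4) (nat_lit 372) (nat_lit 282) (nat_lit 126))))) (XT.nd (nat_lit 156) (nat_lit 76) (nat_lit 0) (XT.nd (nat_lit 78) (nat_lit 0) (nat_lit 0) (XT.lf (nat_lit 0) (nat_lit 129774495005) (nat_lit 152) (nat_lit 115648256461) (nat_lit 0) (nat_lit 60448319380) (nat_lit 5) (nat_lit 5) (nat_lit 7) (nat_lit 4) (nat_lit 5) (nat_lit 4) (nat_lit 373) (nat_lit 282) (nat_lit 125)) (XT.lf (nat_lit 0) (nat_lit 154122890607) (nat_lit 152) (nat_lit 81171485709) (nat_lit 0) (nat_lit 84795158433) (nat_lit 5) (nat_lit 5) (nat_lit 7) (nat_lit 4) (nat_lit 5) (nat_lit 4) (nat_lit 374) (nat_lit 282) (nat_lit 124))) (XT.nd (nat_lit 78) (nat_lit 76) (nat_lit 0) (XT.lf (nat_lit 0) (nat_lit 179687772373) (nat_lit 152) (nat_lit 44972638765) (nat_lit 0) (nat_lit 110358557772) (nat_lit 5) (nat_lit 5) (nat_lit 7) (nat_lit 4) (nat_lit 5) (nat_lit 4) (nat_lit 375)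 (nat_lit 282) (nat_lit 123)) (XT.nd (nat_lit 78) (nat_lit 76) (nat_lit 0) (XT.lf (nat_lit 0) (nat_lit 206530009070) (nat_lit 152) (nat_lit 6965527897) (nat_lit 0) (nat_lit 137199382633) (nat_lit 5) (nat_lit 5) (nat_lit 7) (nat_lit 4) (nat_lit 5) (nat_lit 4) (nat_lit 376) (nat_lit 282) (nat_lit 122)) (XT.lf (nat_lit 0) (nat_lit 34029496419) (nat_lit 76) (nat_lit 201215310171) (nat_lit 76) (nat_lit 131883339129) (nat_lit 4) (nat_lit 4) (nat_lit 5) (nat_lit 5) (nat_lit 5) (nat_lit 4) (nat_lit 377) (nat_lit 282) (nat_lit 121))))))))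
noncomputable def xc171 : XT := (XT.nd (nat_lit 34320) (nat_lit 0) (nat_lit 2660) (XT.nd (nat_lit 33540) (nat_lit 0) (nat_lit 5548) (XT.nd (nat_lit 390) (nat_lit 0) (nat_lit 0) (XT.nd (nat_lit 156) (nat_lit 0) (nat_lit 0) (XT.nd (nat_lit 78) (nat_lit 0) (nat_lit 0) (XT.lf (nat_lit 0) (nat_lit 77314526636) (nat_lit 76) (nat_lit 188197950891) (nat_lit 76) (nat_lit 118864699272) (nat_lit 4) (nat_lit 4) (nat_lit 5) (nat_lit 5) (nat_lit 5) (nat_lit 4) (nat_lit 378) (nat_lit 282) (nat_lit 120)) (XT.lf (nat_lit 0) (nat_lit 122762310537) (nat_lit 76) (nat_lit 174530429998) (nat_lit 76) (nat_lit 105195958783) (nat_lit 4) (nat_lit 4) (nat_lit 5) (nat_lit 5) (nat_lit 5) (nat_lit 4) (nat_lit 379) (nat_lit 282) (nat_lit 119))) (XT.nd (nat_lit 78) (nat_lit 0) (nat_lit 0) (XT.lf (nat_lit 0) (nat_lit 170481057134) (nat_lit 76) (nat_lit 160180205777) (nat_lit 76) (nat_lit 90844573041) (nat_lit 4) (nat_lit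 4) (nat_lit 5) (nat_lit 5) (nat_lit 5) (nat_lit 4) (nat_lit 380) (nat_lit 282) (nat_lit 118)) (XT.nd (nat_lit 78) (nat_lit 0) (nat_lit 0) (XT.lf (nat_lit 0) (nat_lit 220584382490) (nat_lit 76) (nat_lit 145113111027) (nat_lit 76) (nat_lit 75776372081) (nat_lit 4) (nat_lit 4) (nat_lit 5) (nat_lit 5) (nat_lit 5) (nat_lit 4) (nat_lit 381) (nat_lit 282) (nat_lit 117)) (XT.lf (nat_lit 0) (nat_lit 273191580235) (nat_lit 76) (nat_lit 129293271712) (nat_lit 76) (nat_lit 59955479233) (nat_lit 4) (nat_lit 4) (nat_lit 5) (nat_lit 5) (nat_lit 5) (nat_lit 4) (nat_lit 382) (nat_lit 282) (nat_lit 116))))) (XT.nd (nat_lit 32916) (nat_lit 0) (nat_lit 6536) (XT.nd (nat_lit 32838) (nat_lit 0) (nat_lit 6536) (XT.lf (nat_lit 0) (nat_lit 328427905603) (nat_lit 76) (nat_lit 112683021549) (nat_lit 76) (nat_lit 43344225705) (nat_lit 4) (nat_lit 4) (nat_lit 5) (nat_lit 5) (nat_lit 5) (nat_lit 4) (nat_lit 383)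 (nat_lit 282) (nat_lit 115)) (XT.lf (nat_lit 0) (nat_lit 1285094804) (nat_lit 0) (nat_lit 1285094804) (nat_lit 684) (nat_lit 3847133388) (nat_lit 90) (nat_lit 5) (nat_lit 90) (nat_lit 3) (nat_lit 99) (nat_lit 3) (nat_lit 283) (nat_lit 283) (nat_lit 214))) (XT.nd (nat_lit 78) (nat_lit 0) (nat_lit 0) (XT.lf (nat_lit 0) (nat_lit 5704592440) (nat_lit 684) (nat_lit 4482451831) (nat_lit 760) (nat_lit 2945899514) (nat_lit 90) (nat_lit 5) (nat_lit 99) (nat_lit 3) (nat_lit 100) (nat_lit 5) (nat_lit 284) (nat_lit 283) (nat_lit 213)) (XT.nd (nat_lit 78) (nat_lit 0) (nat_lit 76) (XT.lf (nat_lit 76) (nat_lit 1583282583) (nat_lit 0) (nat_lit 4755932496) (nat_lit 760) (nat_lit 7104881582) (nat_lit 91) (nat_lit 5) (nat_lit 90) (nat_lit 5) (nat_lit 100) (nat_lit 5) (nat_lit 285) (nat_lit 283) (nat_lit 212)) (XT.lf (nat_lit 0) (nat_lit 7073968627) (nat_lit 684) (nat_lit 5690188283) (nat_lit 760) (nat_lit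 1003278029) (nat_lit 91) (nat_lit 5) (nat_lit 100) (nat_lit 5) (nat_lit 101) (nat_lit 5) (nat_lit 286) (nat_lit 283) (nat_lit 211)))))) (XT.nd (nat_lit 390) (nat_lit 1064) (nat_lit 0) (XT.nd (nat_lit 156) (nat_lit 0) (nat_lit 76) (XT.nd (nat_lit 78) (nat_lit 0) (nat_lit 0) (XT.lf (nat_lit 76) (nat_lit 719679409) (nat_lit 0) (nat_lit 7192565269) (nat_lit 760) (nat_lit 6191401683) (nat_lit 92) (nat_lit 5) (nat_lit 91) (nat_lit 5) (nat_lit 101) (nat_lit 5) (nat_lit 287) (nat_lit 283) (nat_lit 210)) (XT.lf (nat_lit 76) (nat_lit 7633465025) (nat_lit 0) (nat_lit 1233765059) (nat_lit 760) (nat_lit 5585741798) (nat_lit 92) (nat_lit 5) (nat_lit 91) (nat_lit 5) (nat_lit 101) (nat_lit 5) (nat_lit 288) (nat_lit 283) (nat_lit 209))) (XT.nd (nat_lit 78) (nat_lit 0) (nat_lit 0) (XT.lf (nat_lit 0) (nat_lit 9927954807) (nat_lit 684) (nat_lit 19878871) (nat_lit 760) (nat_lit 4869071744) (nat_lit 92) (nat_lit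 5) (nat_lit 101) (nat_lit 5) (nat_lit 102) (nat_lit 5) (nat_lit 289) (nat_lit 283) (nat_lit 208)) (XT.nd (nat_lit 78) (nat_lit 0) (nat_lit 76) (XT.lf (nat_lit 76) (nat_lit 7319850163) (nat_lit 0) (nat_lit 3836914945) (nat_lit 760) (nat_lit 4036557345) (nat_lit 93) (nat_lit 5) (nat_lit 92) (nat_lit 5) (nat_lit 102) (nat_lit 5) (nat_lit 290) (nat_lit 283) (nat_lit 207)) (XT.lf (nat_lit 0) (nat_lit 12468963629) (nat_lit 684) (nat_lit 616331462) (nat_lit 760) (nat_lit 2502205267) (nat_lit 93) (nat_lit 5) (nat_lit 102) (nat_lit 5) (nat_lit 103) (nat_lit 5) (nat_lit 291) (nat_lit 283) (nat_lit 206))))) (XT.nd (nat_lit 156) (nat_lit 1216) (nat_lit 0) (XT.nd (nat_lit 78) (nat_lit 0) (nat_lit 0) (XT.lf (nat_lit 76) (nat_lit 7155733128) (nat_lit 0) (nat_lit 6847880743) (nat_lit 760) (nat_lit 1989966826) (nat_lit 94) (nat_lit 5) (nat_lit 93) (nat_lit 5) (nat_lit 103) (nat_lit 5) (nat_lit 292) (nat_lit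 283) (nat_lit 205)) (XT.lf (nat_lit 76) (nat_lit 15323964198) (nat_lit 0) (nat_lit 284321451) (nat_lit 760) (nat_lit 812048885) (nat_lit 94) (nat_lit 5) (nat_lit 93) (nat_lit 5) (nat_lit 103) (nat_lit 5) (nat_lit 293) (nat_lit 283) (nat_lit 204))) (XT.nd (nat_lit 78) (nat_lit 532) (nat_lit 0) (XT.lf (nat_lit 0) (nat_lit 612799864) (nat_lit 760) (nat_lit 9724835789) (nat_lit 76) (nat_lit 6520408097) (nat_lit 84) (nat_lit 5) (nat_lit 94) (nat_lit 5) (nat_lit 85) (nat_lit 5) (nat_lit 294) (nat_lit 283) (nat_lit 203)) (XT.nd (nat_lit 78) (nat_lit 532) (nat_lit 0) (XT.lf (nat_lit 0) (nat_lit 2089122520) (nat_lit 760) (nat_lit 1537064581) (nat_lit 76) (nat_lit 13690438942) (nat_lit 84) (nat_lit 5) (nat_lit 94) (nat_lit 5) (nat_lit 85) (nat_lit 5) (nat_lit 295) (nat_lit 283) (nat_lit 202)) (XT.lf (nat_lit 0) (nat_lit 3792959467) (nat_lit 608) (nat_lit 10569180438) (nat_lit 76) (nat_lit 3428340552)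 (nat_lit 77) (nat_lit 5) (nat_lit 85) (nat_lit 5) (nat_lit 78) (nat_lit 5) (nat_lit 296) (nat_lit 283) (nat_lit 201))))))) (XT.nd (nat_lit 780) (nat_lit 1216) (nat_lit 0) (XT.nd (nat_lit 390) (nat_lit 988) (nat_lit 0) (XT.nd (nat_lit 156) (nat_lit 304) (nat_lit 0) (XT.nd (nat_lit 78) (nat_lit 380) (nat_lit 0) (XT.lf (nat_lit 0) (nat_lit 5653177421) (nat_lit 608) (nat_lit 1889933036) (nat_lit 76) (nat_lit 10741384264) (nat_lit 77) (nat_lit 5) (nat_lit 85) (nat_lit 5) (nat_lit 78) (nat_lit 5) (nat_lit 297) (nat_lit 283) (nat_lit 200)) (XT.lf (nat_lit 0) (nat_lit 7448060397) (nat_lit 380) (nat_lit 260617447) (nat_lit 456) (nat_lit 11089443596) (nat_lit 72) (nat_lit 5) (nat_lit 77) (nat_lit 5) (nat_lit 78) (nat_lit 5) (nat_lit 298) (nat_lit 283) (nat_lit 199))) (XT.nd (nat_lit 78) (nat_lit 304) (nat_lit 0) (XT.lf (nat_lit 0) (nat_lit 10001248663) (nat_lit 456) (nat_lit 2147188306) (nat_lit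 76) (nat_lit 7182301872) (nat_lit 72) (nat_lit 5) (nat_lit 78) (nat_lit 5) (nat_lit 73) (nat_lit 5) (nat_lit 299) (nat_lit 283) (nat_lit 198)) (XT.nd (nat_lit 78) (nat_lit 0) (nat_lit 0) (XT.lf (nat_lit 0) (nat_lit 7746062795) (nat_lit 304) (nat_lit 4774688324) (nat_lit 380) (nat_lit 7363643805) (nat_lit 68) (nat_lit 5) (nat_lit 72) (nat_lit 5) (nat_lit 73) (nat_lit 5) (nat_lit 300) (nat_lit 283) (nat_lit 197)) (XT.lf (nat_lit 0) (nat_lit 15237013904) (nat_lit 380) (nat_lit 2316159360) (nat_lit 76) (nat_lit 2909043159) (nat_lit 68) (nat_lit 5) (nat_lit 73) (nat_lit 5) (nat_lit 69) (nat_lit 5) (nat_lit 301) (nat_lit 283) (nat_lit 196))))) (XT.nd (nat_lit 156) (nat_lit 684) (nat_lit 0) (XT.nd (nat_lit 78) (nat_lit 0) (nat_lit 0) (XT.lf (nat_lit 0) (nat_lit 8167069772) (nat_lit 304) (nat_lit 10115890717) (nat_lit 380) (nat_lit 2776295806) (nat_lit 64) (nat_lit 5) (nat_lit 68) (nat_lit 5)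 (nat_lit 69) (nat_lit 5) (nat_lit 302) (nat_lit 283) (nat_lit 195)) (XT.lf (nat_lit 0) (nat_lit 19241908768) (nat_lit 304) (nat_lit 2266972079) (nat_lit 380) (nat_lit 175903331) (nat_lit 64) (nat_lit 5) (nat_lit 68) (nat_lit 5) (nat_lit 69) (nat_lit 5) (nat_lit 303) (nat_lit 283) (nat_lit 194))) (XT.nd (nat_lit 78) (nat_lit 304) (nat_lit 0) (XT.lf (nat_lit 0) (nat_lit 2694413349) (nat_lit 380) (nat_lit 13672936417) (nat_lit 76) (nat_lit 5961179290) (nat_lit 59) (nat_lit 5) (nat_lit 64) (nat_lit 5) (nat_lit 60) (nat_lit 5) (nat_lit 304) (nat_lit 283) (nat_lit 193)) (XT.nd (nat_lit 78) (nat_lit 304) (nat_lit 0) (XT.lf (nat_lit 0) (nat_lit 5770661381) (nat_lit 380) (nat_lit 2662385787) (nat_lit 76) (nat_lit 14567870614) (nat_lit 59) (nat_lit 5) (nat_lit 64) (nat_lit 5) (nat_lit 60) (nat_lit 5) (nat_lit 305) (nat_lit 283) (nat_lit 192)) (XT.lf (nat_lit 0) (nat_lit 9134405160) (nat_lit 380)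 (nat_lit 14520947596) (nat_lit 76) (nat_lit 44905344) (nat_lit 55) (nat_lit 5) (nat_lit 60) (nat_lit 5) (nat_lit 56) (nat_lit 5) (nat_lit 306) (nat_lit 283) (nat_lit 191)))))) (XT.nd (nat_lit 390) (nat_lit 684) (nat_lit 0) (XT.nd (nat_lit 156) (nat_lit 304) (nat_lit 0) (XT.nd (nat_lit 78) (nat_lit 228) (nat_lit 0) (XT.lf (nat_lit 0) (nat_lit 12840311808) (nat_lit 380) (nat_lit 2878498343) (nat_lit 76) (nat_lit 8707072042) (nat_lit 55) (nat_lit 5) (nat_lit 60) (nat_lit 5) (nat_lit 56) (nat_lit 5) (nat_lit 307) (nat_lit 283) (nat_lit 190)) (XT.lf (nat_lit 0) (nat_lit 9642576861) (nat_lit 228) (nat_lit 7229866532) (nat_lit 304) (nat_lit 8308312422) (nat_lit 52) (nat_lit 5) (nat_lit 55) (nat_lit 5) (nat_lit 56) (nat_lit 5) (nat_lit 308) (nat_lit 283) (nat_lit 189))) (XT.nd (nat_lit 78) (nat_lit 304) (nat_lit 0) (XT.lf (nat_lit 0) (nat_lit 21172627567) (nat_lit 304) (nat_lit 3120743468) (nat_lit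 76) (nat_lit 1676693882) (nat_lit 52) (nat_lit 5) (nat_lit 56) (nat_lit 5) (nat_lit 53) (nat_lit 5) (nat_lit 309) (nat_lit 283) (nat_lit 188)) (XT.nd (nat_lit 78) (nat_lit 76) (nat_lit 0) (XT.lf (nat_lit 0) (nat_lit 10110876500) (nat_lit 228) (nat_lit 15844386496) (nat_lit 304) (nat_lit 830217805) (nat_lit 49) (nat_lit 5) (nat_lit 52) (nat_lit 5) (nat_lit 53) (nat_lit 5) (nat_lit 310) (nat_lit 283) (nat_lit 187)) (XT.lf (nat_lit 0) (nat_lit 3273478406) (nat_lit 304) (nat_lit 3591433985) (nat_lit 76) (nat_lit 20771920143) (nat_lit 48) (nat_lit 5) (nat_lit 52) (nat_lit 5) (nat_lit 49) (nat_lit 5) (nat_lit 311) (nat_lit 283) (nat_lit 186))))) (XT.nd (nat_lit 234) (nat_lit 228) (nat_lit 0) (XT.nd (nat_lit 78) (nat_lit 228) (nat_lit 0) (XT.lf (nat_lit 0) (nat_lit 7752149728) (nat_lit 304) (nat_lit 18109615576) (nat_lit 76) (nat_lit 2658433089) (nat_lit 45) (nat_lit 5) (nat_lit 49) (nat_lit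 5) (nat_lit 46) (nat_lit 5) (nat_lit 312) (nat_lit 283) (nat_lit 185)) (XT.nd (nat_lit 78) (nat_lit 228) (nat_lit 0) (XT.lf (nat_lit 0) (nat_lit 12620867211) (nat_lit 304) (nat_lit 4332358319) (nat_lit 76) (nat_lit 12486212433) (nat_lit 45) (nat_lit 5) (nat_lit 49) (nat_lit 5) (nat_lit 46) (nat_lit 5) (nat_lit 313) (nat_lit 283) (nat_lit 184)) (XT.lf (nat_lit 0) (nat_lit 10457498286) (nat_lit 228) (nat_lit 7430939118) (nat_lit 304) (nat_lit 12508441786) (nat_lit 42) (nat_lit 5) (nat_lit 45) (nat_lit 5) (nat_lit 46) (nat_lit 5) (nat_lit 314) (nat_lit 283) (nat_lit 183)))) (XT.nd (nat_lit 78) (nat_lit 228) (nat_lit 0) (XT.lf (nat_lit 0) (nat_lit 23526347176) (nat_lit 304) (nat_lit 5313689819) (nat_lit 76) (nat_lit 2556817452) (nat_lit 42) (nat_lit 5) (nat_lit 46) (nat_lit 5) (nat_lit 43) (nat_lit 5) (nat_lit 315) (nat_lit 283) (nat_lit 182)) (XT.nd (nat_lit 78) (nat_lit 76) (nat_lit 0)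 (XT.lf (nat_lit 0) (nat_lit 10238560036) (nat_lit 152) (nat_lit 19481932655) (nat_lit 228) (nat_lit 2712628303) (nat_lit 40) (nat_lit 5) (nat_lit 42) (nat_lit 5) (nat_lit 43) (nat_lit 5) (nat_lit 316) (nat_lit 283) (nat_lit 181)) (XT.lf (nat_lit 0) (nat_lit 2700821491) (nat_lit 228) (nat_lit 6818161571) (nat_lit 76) (nat_lit 23995906563) (nat_lit 39) (nat_lit 5) (nat_lit 42) (nat_lit 5) (nat_lit 40) (nat_lit 5) (nat_lit 317) (nat_lit 283) (nat_lit 180))))))))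
noncomputable def xc172 : XT := (XT.nd (nat_lit 1560) (nat_lit 760) (nat_lit 0) (XT.nd (nat_lit 780) (nat_lit 608) (nat_lit 0) (XT.nd (nat_lit 390) (nat_lit 380) (nat_lit 0) (XT.nd (nat_lit 156) (nat_lit 304) (nat_lit 0) (XT.nd (nat_lit 78) (nat_lit 0) (nat_lit 0) (XT.lf (nat_lit 0) (nat_lit 8454251236) (nat_lit 304) (nat_lit 25080236880) (nat_lit 76) (nat_lit 1106019869) (nat_lit 36) (nat_lit 5) (nat_lit 40) (nat_lit 5) (nat_lit 37) (nat_lit 5) (nat_lit 318) (nat_lit 283) (nat_lit 179)) (XT.lf (nat_lit 0) (nat_lit 14761961200) (nat_lit 304) (nat_lit 8990543757) (nat_lit 76) (nat_lit 12056579720) (nat_lit 36) (nat_lit 5) (nat_lit 40) (nat_lit 5) (nat_lit 37) (nat_lit 5) (nat_lit 319) (nat_lit 283) (nat_lit 178))) (XT.nd (nat_lit 78) (nat_lit 152) (nat_lit 0) (XT.lf (nat_lit 0) (nat_lit 8154825368) (nat_lit 152) (nat_lit 13351072906) (nat_lit 228) (nat_lit 15524157327) (nat_lit 34) (nat_lit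 5) (nat_lit 36) (nat_lit 5) (nat_lit 37) (nat_lit 5) (nat_lit 320) (nat_lit 283) (nat_lit 177)) (XT.nd (nat_lit 78) (nat_lit 152) (nat_lit 0) (XT.lf (nat_lit 0) (nat_lit 26459938627) (nat_lit 152) (nat_lit 2273032447) (nat_lit 228) (nat_lit 9571814177) (nat_lit 34) (nat_lit 5) (nat_lit 36) (nat_lit 5) (nat_lit 37) (nat_lit 5) (nat_lit 321) (nat_lit 283) (nat_lit 176)) (XT.lf (nat_lit 0) (nat_lit 6075951689) (nat_lit 152) (nat_lit 30480358307) (nat_lit 228) (nat_lit 3075202543) (nat_lit 32) (nat_lit 5) (nat_lit 34) (nat_lit 5) (nat_lit 35) (nat_lit 5) (nat_lit 322) (nat_lit 283) (nat_lit 175))))) (XT.nd (nat_lit 156) (nat_lit 152) (nat_lit 0) (XT.nd (nat_lit 78) (nat_lit 152) (nat_lit 0) (XT.lf (nat_lit 0) (nat_lit 3861457560) (nat_lit 228) (nat_lit 15819077719) (nat_lit 76) (nat_lit 21329366551) (nat_lit 31) (nat_lit 5) (nat_lit 34) (nat_lit 5) (nat_lit 32) (nat_lit 5) (nat_lit 323)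 (nat_lit 283) (nat_lit 174)) (XT.lf (nat_lit 0) (nat_lit 2835516298) (nat_lit 152) (nat_lit 8244616255) (nat_lit 228) (nat_lit 31372636791) (nat_lit 29) (nat_lit 5) (nat_lit 31) (nat_lit 5) (nat_lit 32) (nat_lit 5) (nat_lit 324) (nat_lit 283) (nat_lit 173))) (XT.nd (nat_lit 78) (nat_lit 152) (nat_lit 0) (XT.lf (nat_lit 0) (nat_lit 18985130693) (nat_lit 228) (nat_lit 21054629460) (nat_lit 76) (nat_lit 3911756191) (nat_lit 29) (nat_lit 5) (nat_lit 32) (nat_lit 5) (nat_lit 30) (nat_lit 5) (nat_lit 325) (nat_lit 283) (nat_lit 172)) (XT.nd (nat_lit 78) (nat_lit 152) (nat_lit 0) (XT.lf (nat_lit 0) (nat_lit 27415147126) (nat_lit 228) (nat_lit 1707739676) (nat_lit 76) (nat_lit 16395830786) (nat_lit 29) (nat_lit 5) (nat_lit 32) (nat_lit 5) (nat_lit 30) (nat_lit 5) (nat_lit 326) (nat_lit 283) (nat_lit 171)) (XT.lf (nat_lit 0) (nat_lit 19213142441) (nat_lit 152) (nat_lit 17348360312) (nat_lit 228)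 (nat_lit 10588039284) (nat_lit 27) (nat_lit 5) (nat_lit 29) (nat_lit 5) (nat_lit 30) (nat_lit 5) (nat_lit 327) (nat_lit 283) (nat_lit 170)))))) (XT.nd (nat_lit 390) (nat_lit 304) (nat_lit 0) (XT.nd (nat_lit 156) (nat_lit 152) (nat_lit 0) (XT.nd (nat_lit 78) (nat_lit 152) (nat_lit 0) (XT.lf (nat_lit 0) (nat_lit 41231198580) (nat_lit 152) (nat_lit 4957883380) (nat_lit 228) (nat_lit 2671635278) (nat_lit 27) (nat_lit 5) (nat_lit 29) (nat_lit 5) (nat_lit 30) (nat_lit 5) (nat_lit 328) (nat_lit 283) (nat_lit 169)) (XT.lf (nat_lit 0) (nat_lit 5805203942) (nat_lit 152) (nat_lit 36726763158) (nat_lit 76) (nat_lit 8103827746) (nat_lit 25) (nat_lit 5) (nat_lit 27) (nat_lit 5) (nat_lit 26) (nat_lit 5) (nat_lit 329) (nat_lit 283) (nat_lit 168))) (XT.nd (nat_lit 78) (nat_lit 152) (nat_lit 0) (XT.lf (nat_lit 0) (nat_lit 14823907478) (nat_lit 152) (nat_lit 15838970321) (nat_lit 76) (nat_lit 21824172494)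 (nat_lit 25) (nat_lit 5) (nat_lit 27) (nat_lit 5) (nat_lit 26) (nat_lit 5) (nat_lit 330) (nat_lit 283) (nat_lit 167)) (XT.nd (nat_lit 78) (nat_lit 0) (nat_lit 0) (XT.lf (nat_lit 0) (nat_lit 6286808909) (nat_lit 152) (nat_lit 18100322711) (nat_lit 228) (nat_lit 30039061585) (nat_lit 23) (nat_lit 5) (nat_lit 25) (nat_lit 5) (nat_lit 26) (nat_lit 5) (nat_lit 331) (nat_lit 283) (nat_lit 166)) (XT.lf (nat_lit 0) (nat_lit 30061272902) (nat_lit 152) (nat_lit 4631015947) (nat_lit 228) (nat_lit 21756819598) (nat_lit 23) (nat_lit 5) (nat_lit 25) (nat_lit 5) (nat_lit 26) (nat_lit 5) (nat_lit 332) (nat_lit 283) (nat_lit 165))))) (XT.nd (nat_lit 156) (nat_lit 228) (nat_lit 0) (XT.nd (nat_lit 78) (nat_lit 76) (nat_lit 0) (XT.lf (nat_lit 0) (nat_lit 45656908124) (nat_lit 228) (nat_lit 3704526346) (nat_lit 76) (nat_lit 9204528367) (nat_lit 23) (nat_lit 5) (nat_lit 26) (nat_lit 5) (nat_lit 24) (nat_lit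 4) (nat_lit 333) (nat_lit 283) (nat_lit 164)) (XT.lf (nat_lit 0) (nat_lit 20692350832) (nat_lit 76) (nat_lit 36872295233) (nat_lit 152) (nat_lit 3204272922) (nat_lit 22) (nat_lit 5) (nat_lit 23) (nat_lit 5) (nat_lit 24) (nat_lit 4) (nat_lit 334) (nat_lit 283) (nat_lit 163))) (XT.nd (nat_lit 78) (nat_lit 152) (nat_lit 0) (XT.lf (nat_lit 0) (nat_lit 6821849881) (nat_lit 152) (nat_lit 16758286213) (nat_lit 76) (nat_lit 39493452128) (nat_lit 21) (nat_lit 5) (nat_lit 23) (nat_lit 5) (nat_lit 22) (nat_lit 5) (nat_lit 335) (nat_lit 283) (nat_lit 162)) (XT.nd (nat_lit 78) (nat_lit 0) (nat_lit 0) (XT.lf (nat_lit 0) (nat_lit 7920220882) (nat_lit 152) (nat_lit 9441147393) (nat_lit 228) (nat_lit 48123510449) (nat_lit 19) (nat_lit 5) (nat_lit 21) (nat_lit 5) (nat_lit 22) (nat_lit 5) (nat_lit 336) (nat_lit 283) (nat_lit 161)) (XT.lf (nat_lit 0) (nat_lit 28796865739) (nat_lit 228) (nat_lit 33683815584)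 (nat_lit 76) (nat_lit 5517605088) (nat_lit 19) (nat_lit 5) (nat_lit 22) (nat_lit 5) (nat_lit 20) (nat_lit 4) (nat_lit 337) (nat_lit 283) (nat_lit 160))))))) (XT.nd (nat_lit 780) (nat_lit 380) (nat_lit 0) (XT.nd (nat_lit 390) (nat_lit 76) (nat_lit 0) (XT.nd (nat_lit 156) (nat_lit 228) (nat_lit 0) (XT.nd (nat_lit 78) (nat_lit 76) (nat_lit 0) (XT.lf (nat_lit 0) (nat_lit 40955250905) (nat_lit 228) (nat_lit 8770084080) (nat_lit 76) (nat_lit 20904476540) (nat_lit 19) (nat_lit 5) (nat_lit 22) (nat_lit 5) (nat_lit 20) (nat_lit 4) (nat_lit 338) (nat_lit 283) (nat_lit 159)) (XT.lf (nat_lit 0) (nat_lit 17958026856) (nat_lit 76) (nat_lit 36040417808) (nat_lit 152) (nat_lit 19380626318) (nat_lit 18) (nat_lit 5) (nat_lit 19) (nat_lit 5) (nat_lit 20) (nat_lit 4) (nat_lit 339) (nat_lit 283) (nat_lit 158))) (XT.nd (nat_lit 78) (nat_lit 228) (nat_lit 0) (XT.lf (nat_lit 0) (nat_lit 46321042706) (nat_lit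 76) (nat_lit 21517867888) (nat_lit 152) (nat_lit 8419629630) (nat_lit 18) (nat_lit 5) (nat_lit 19) (nat_lit 5) (nat_lit 20) (nat_lit 4) (nat_lit 340) (nat_lit 283) (nat_lit 157)) (XT.nd (nat_lit 78) (nat_lit 152) (nat_lit 0) (XT.lf (nat_lit 0) (nat_lit 2987230119) (nat_lit 152) (nat_lit 3233813036) (nat_lit 76) (nat_lit 73058695565) (nat_lit 17) (nat_lit 5) (nat_lit 19) (nat_lit 5) (nat_lit 18) (nat_lit 5) (nat_lit 341) (nat_lit 283) (nat_lit 156)) (XT.lf (nat_lit 0) (nat_lit 15238481555) (nat_lit 228) (nat_lit 57110832109) (nat_lit 76) (nat_lit 10067934070) (nat_lit 15) (nat_lit 5) (nat_lit 18) (nat_lit 5) (nat_lit 16) (nat_lit 4) (nat_lit 342) (nat_lit 283) (nat_lit 155))))) (XT.nd (nat_lit 156) (nat_lit 76) (nat_lit 0) (XT.nd (nat_lit 78) (nat_lit 0) (nat_lit 0) (XT.lf (nat_lit 0) (nat_lit 28256823404) (nat_lit 228) (nat_lit 30431408412) (nat_lit 76) (nat_lit 27015675995) (nat_lit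 15) (nat_lit 5) (nat_lit 18) (nat_lit 5) (nat_lit 16) (nat_lit 4) (nat_lit 343) (nat_lit 283) (nat_lit 154)) (XT.lf (nat_lit 0) (nat_lit 41923110470) (nat_lit 228) (nat_lit 2423307633) (nat_lit 76) (nat_lit 44808633289) (nat_lit 15) (nat_lit 5) (nat_lit 18) (nat_lit 5) (nat_lit 16) (nat_lit 4) (nat_lit 344) (nat_lit 283) (nat_lit 153))) (XT.nd (nat_lit 78) (nat_lit 0) (nat_lit 0) (XT.lf (nat_lit 0) (nat_lit 27872241990) (nat_lit 76) (nat_lit 28832803351) (nat_lit 152) (nat_lit 36052091955) (nat_lit 14) (nat_lit 5) (nat_lit 15) (nat_lit 5) (nat_lit 16) (nat_lit 4) (nat_lit 345) (nat_lit 283) (nat_lit 152)) (XT.nd (nat_lit 78) (nat_lit 0) (nat_lit 0) (XT.lf (nat_lit 0) (nat_lit 59761740184) (nat_lit 76) (nat_lit 12502603632) (nat_lit 152) (nat_lit 24273072066) (nat_lit 14) (nat_lit 5) (nat_lit 15) (nat_lit 5) (nat_lit 16) (nat_lit 4) (nat_lit 346) (nat_lit 283) (nat_lit 151)) (XT.lf (nat_lit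 0) (nat_lit 88671441218) (nat_lit 152) (nat_lit 7338328248) (nat_lit 0) (nat_lit 4493448880) (nat_lit 14) (nat_lit 5) (nat_lit 16) (nat_lit 4) (nat_lit 14) (nat_lit 4) (nat_lit 347) (nat_lit 283) (nat_lit 150)))))) (XT.nd (nat_lit 390) (nat_lit 152) (nat_lit 0) (XT.nd (nat_lit 156) (nat_lit 76) (nat_lit 0) (XT.nd (nat_lit 78) (nat_lit 0) (nat_lit 0) (XT.lf (nat_lit 0) (nat_lit 1780868115) (nat_lit 152) (nat_lit 80533314573) (nat_lit 76) (nat_lit 22322733121) (nat_lit 12) (nat_lit 5) (nat_lit 14) (nat_lit 5) (nat_lit 13) (nat_lit 4) (nat_lit 348) (nat_lit 283) (nat_lit 149)) (XT.lf (nat_lit 0) (nat_lit 15800297906) (nat_lit 152) (nat_lit 51799294808) (nat_lit 76) (nat_lit 41361819798) (nat_lit 12) (nat_lit 5) (nat_lit 14) (nat_lit 5) (nat_lit 13) (nat_lit 4) (nat_lit 349) (nat_lit 283) (nat_lit 148))) (XT.nd (nat_lit 78) (nat_lit 76) (nat_lit 0) (XT.lf (nat_lit 0) (nat_lit 30518282134)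 (nat_lit 152) (nat_lit 21632961717) (nat_lit 76) (nat_lit 61351012406) (nat_lit 12) (nat_lit 5) (nat_lit 14) (nat_lit 5) (nat_lit 13) (nat_lit 4) (nat_lit 350) (nat_lit 283) (nat_lit 147)) (XT.nd (nat_lit 78) (nat_lit 0) (nat_lit 0) (XT.lf (nat_lit 0) (nat_lit 10369394689) (nat_lit 76) (nat_lit 35762364242) (nat_lit 152) (nat_lit 72130404883) (nat_lit 11) (nat_lit 5) (nat_lit 12) (nat_lit 5) (nat_lit 13) (nat_lit 4) (nat_lit 351) (nat_lit 283) (nat_lit 146)) (XT.lf (nat_lit 0) (nat_lit 44718805172) (nat_lit 76) (nat_lit 18171212543) (nat_lit 152) (nat_lit 60351844855) (nat_lit 11) (nat_lit 5) (nat_lit 12) (nat_lit 5) (nat_lit 13) (nat_lit 4) (nat_lit 352) (nat_lit 283) (nat_lit 145))))) (XT.nd (nat_lit 156) (nat_lit 152) (nat_lit 0) (XT.nd (nat_lit 78) (nat_lit 0) (nat_lit 0) (XT.lf (nat_lit 0) (nat_lit 80488688770) (nat_lit 152) (nat_lit 47693532664) (nat_lit 0) (nat_lit 288201035)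 (nat_lit 11) (nat_lit 5) (nat_lit 13) (nat_lit 4) (nat_lit 11) (nat_lit 4) (nat_lit 353) (nat_lit 283) (nat_lit 144)) (XT.lf (nat_lit 0) (nat_lit 99263109105) (nat_lit 152) (nat_lit 15624226703) (nat_lit 0) (nat_lit 19058284883) (nat_lit 11) (nat_lit 5) (nat_lit 13) (nat_lit 4) (nat_lit 11) (nat_lit 4) (nat_lit 354) (nat_lit 283) (nat_lit 143))) (XT.nd (nat_lit 78) (nat_lit 76) (nat_lit 0) (XT.lf (nat_lit 0) (nat_lit 18641566058) (nat_lit 76) (nat_lit 100623757199) (nat_lit 76) (nat_lit 20414802990) (nat_lit 10) (nat_lit 4) (nat_lit 11) (nat_lit 5) (nat_lit 11) (nat_lit 4) (nat_lit 355) (nat_lit 283) (nat_lit 142)) (XT.nd (nat_lit 78) (nat_lit 76) (nat_lit 0) (XT.lf (nat_lit 0) (nat_lit 55159519769) (nat_lit 76) (nat_lit 85370796230) (nat_lit 76) (nat_lit 5157908700) (nat_lit 10) (nat_lit 4) (nat_lit 11) (nat_lit 5) (nat_lit 11) (nat_lit 4) (nat_lit 356) (nat_lit 283) (nat_lit 141))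 (XT.lf (nat_lit 0) (nat_lit 10512308972) (nat_lit 152) (nat_lit 58666400155) (nat_lit 76) (nat_lit 82809634428) (nat_lit 9) (nat_lit 5) (nat_lit 11) (nat_lit 5) (nat_lit 10) (nat_lit 4) (nat_lit 357) (nat_lit 283) (nat_lit 140))))))))
noncomputable def xc173 : XT := (XT.nd (nat_lit 1560) (nat_lit 76) (nat_lit 0) (XT.nd (nat_lit 780) (nat_lit 152) (nat_lit 0) (XT.nd (nat_lit 390) (nat_lit 76) (nat_lit 0) (XT.nd (nat_lit 156) (nat_lit 0) (nat_lit 0) (XT.nd (nat_lit 78) (nat_lit 76) (nat_lit 0) (XT.lf (nat_lit 0) (nat_lit 26790912329) (nat_lit 152) (nat_lit 25298830913) (nat_lit 76) (nat_lit 106509587476) (nat_lit 9) (nat_lit 5) (nat_lit 11) (nat_lit 5) (nat_lit 10) (nat_lit 4) (nat_lit 358) (nat_lit 283) (nat_lit 139)) (XT.lf (nat_lit 0) (nat_lit 10055828099) (nat_lit 76) (nat_lit 33982916797) (nat_lit 152) (nat_lit 121494358222) (nat_lit 8) (nat_lit 5) (nat_lit 9) (nat_lit 5) (nat_lit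 10) (nat_lit 4) (nat_lit 359) (nat_lit 283) (nat_lit 138))) (XT.nd (nat_lit 78) (nat_lit 0) (nat_lit 0) (XT.lf (nat_lit 0) (nat_lit 48053450965) (nat_lit 76) (nat_lit 14522298233) (nat_lit 152) (nat_lit 110216476726) (nat_lit 8) (nat_lit 5) (nat_lit 9) (nat_lit 5) (nat_lit 10) (nat_lit 4) (nat_lit 360) (nat_lit 283) (nat_lit 137)) (XT.nd (nat_lit 78) (nat_lit 0) (nat_lit 0) (XT.lf (nat_lit 0) (nat_lit 82130286953) (nat_lit 152) (nat_lit 92558642085) (nat_lit 0) (nat_lit 5720842427) (nat_lit 8) (nat_lit 5) (nat_lit 10) (nat_lit 4) (nat_lit 8) (nat_lit 4) (nat_lit 361) (nat_lit 283) (nat_lit 136)) (XT.lf (nat_lit 0) (nat_lit 102899089178) (nat_lit 152) (nat_lit 59010429629) (nat_lit 0) (nat_lit 26486849315) (nat_lit 8) (nat_lit 5) (nat_lit 10) (nat_lit 4) (nat_lit 8) (nat_lit 4) (nat_lit 362) (nat_lit 283) (nat_lit 135))))) (XT.nd (nat_lit 156) (nat_lit 0) (nat_lit 0) (XT.nd (nat_lit 78)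 (nat_lit 76) (nat_lit 0) (XT.lf (nat_lit 0) (nat_lit 124704871630) (nat_lit 152) (nat_lit 23787527120) (nat_lit 0) (nat_lit 48289969540) (nat_lit 8) (nat_lit 5) (nat_lit 10) (nat_lit 4) (nat_lit 8) (nat_lit 4) (nat_lit 363) (nat_lit 283) (nat_lit 134)) (XT.lf (nat_lit 0) (nat_lit 13630180389) (nat_lit 76) (nat_lit 134182177764) (nat_lit 76) (nat_lit 57764740220) (nat_lit 7) (nat_lit 4) (nat_lit 8) (nat_lit 5) (nat_lit 8) (nat_lit 4) (nat_lit 364) (nat_lit 283) (nat_lit 133))) (XT.nd (nat_lit 78) (nat_lit 0) (nat_lit 0) (XT.lf (nat_lit 0) (nat_lit 53742073273) (nat_lit 76) (nat_lit 118734635051) (nat_lit 76) (nat_lit 42314782789) (nat_lit 7) (nat_lit 4) (nat_lit 8) (nat_lit 5) (nat_lit 8) (nat_lit 4) (nat_lit 365) (nat_lit 283) (nat_lit 132)) (XT.nd (nat_lit 78) (nat_lit 0) (nat_lit 0) (XT.lf (nat_lit 0) (nat_lit 95857132965) (nat_lit 76) (nat_lit 102515844031) (nat_lit 76) (nat_lit 26093692038)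 (nat_lit 7) (nat_lit 4) (nat_lit 8) (nat_lit 5) (nat_lit 8) (nat_lit 4) (nat_lit 366) (nat_lit 283) (nat_lit 131)) (XT.lf (nat_lit 0) (nat_lit 140075633416) (nat_lit 76) (nat_lit 85487188534) (nat_lit 76) (nat_lit 9062846320) (nat_lit 7) (nat_lit 4) (nat_lit 8) (nat_lit 5) (nat_lit 8) (nat_lit 4) (nat_lit 367) (nat_lit 283) (nat_lit 130)))))) (XT.nd (nat_lit 390) (nat_lit 0) (nat_lit 0) (XT.nd (nat_lit 156) (nat_lit 76) (nat_lit 0) (XT.nd (nat_lit 78) (nat_lit 0) (nat_lit 0) (XT.lf (nat_lit 0) (nat_lit 8536063195) (nat_lit 152) (nat_lit 58927498587) (nat_lit 76) (nat_lit 177822231214) (nat_lit 6) (nat_lit 5) (nat_lit 8) (nat_lit 5) (nat_lit 7) (nat_lit 4) (nat_lit 368) (nat_lit 283) (nat_lit 129)) (XT.lf (nat_lit 0) (nat_lit 26709206099) (nat_lit 152) (nat_lit 21674542227) (nat_lit 76) (nat_lit 208087804605) (nat_lit 6) (nat_lit 5) (nat_lit 8) (nat_lit 5) (nat_lit 7) (nat_lit 4) (nat_lit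 369) (nat_lit 283) (nat_lit 128))) (XT.nd (nat_lit 78) (nat_lit 0) (nat_lit 0) (XT.lf (nat_lit 0) (nat_lit 18015641197) (nat_lit 76) (nat_lit 28055552912) (nat_lit 152) (nat_lit 222131397822) (nat_lit 5) (nat_lit 5) (nat_lit 6) (nat_lit 5) (nat_lit 7) (nat_lit 4) (nat_lit 370) (nat_lit 283) (nat_lit 127)) (XT.nd (nat_lit 78) (nat_lit 0) (nat_lit 0) (XT.lf (nat_lit 0) (nat_lit 60440823977) (nat_lit 76) (nat_lit 6326460219) (nat_lit 152) (nat_lit 213734598990) (nat_lit 5) (nat_lit 5) (nat_lit 6) (nat_lit 5) (nat_lit 7) (nat_lit 4) (nat_lit 371) (nat_lit 283) (nat_lit 126)) (XT.lf (nat_lit 0) (nat_lit 88754590338) (nat_lit 152) (nat_lit 188688256953) (nat_lit 0) (nat_lit 15960471556) (nat_lit 5) (nat_lit 5) (nat_lit 7) (nat_lit 4) (nat_lit 5) (nat_lit 4) (nat_lit 372) (nat_lit 283) (nat_lit 125))))) (XT.nd (nat_lit 156) (nat_lit 0) (nat_lit 0) (XT.nd (nat_lit 78) (nat_lit 0) (nat_lit 0)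 (XT.lf (nat_lit 0) (nat_lit 111943993953) (nat_lit 152) (nat_lit 155852377510) (nat_lit 0) (nat_lit 39148318622) (nat_lit 5) (nat_lit 5) (nat_lit 7) (nat_lit 4) (nat_lit 5) (nat_lit 4) (nat_lit 373) (nat_lit 283) (nat_lit 124)) (XT.lf (nat_lit 0) (nat_lit 136291934132) (nat_lit 152) (nat_lit 121376466438) (nat_lit 0) (nat_lit 63494776374) (nat_lit 5) (nat_lit 5) (nat_lit 7) (nat_lit 4) (nat_lit 5) (nat_lit 4) (nat_lit 374) (nat_lit 283) (nat_lit 123))) (XT.nd (nat_lit 78) (nat_lit 0) (nat_lit 0) (XT.lf (nat_lit 0) (nat_lit 161856382163) (nat_lit 152) (nat_lit 85178438237) (nat_lit 0) (nat_lit 89057812569) (nat_lit 5) (nat_lit 5) (nat_lit 7) (nat_lit 4) (nat_lit 5) (nat_lit 4) (nat_lit 375) (nat_lit 283) (nat_lit 122)) (XT.nd (nat_lit 78) (nat_lit 0) (nat_lit 0) (XT.lf (nat_lit 0) (nat_lit 188698205778) (nat_lit 152) (nat_lit 47172107124) (nat_lit 0) (nat_lit 115898291579) (nat_lit 5)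 (nat_lit 5) (nat_lit 7) (nat_lit 4) (nat_lit 5) (nat_lit 4) (nat_lit 376) (nat_lit 283) (nat_lit 121)) (XT.lf (nat_lit 0) (nat_lit 216881314082) (nat_lit 152) (nat_lit 7266981835) (nat_lit 0) (nat_lit 144080119306) (nat_lit 5) (nat_lit 5) (nat_lit 7) (nat_lit 4) (nat_lit 5) (nat_lit 4) (nat_lit 377) (nat_lit 283) (nat_lit 120))))))) (XT.nd (nat_lit 33618) (nat_lit 0) (nat_lit 5548) (XT.nd (nat_lit 390) (nat_lit 0) (nat_lit 0) (XT.nd (nat_lit 156) (nat_lit 0) (nat_lit 0) (XT.nd (nat_lit 78) (nat_lit 0) (nat_lit 0) (XT.lf (nat_lit 0) (nat_lit 35777038495) (nat_lit 76) (nat_lit 211254351053) (nat_lit 76) (nat_lit 138451936680) (nat_lit 4) (nat_lit 4) (nat_lit 5) (nat_lit 5) (nat_lit 5) (nat_lit 4) (nat_lit 378) (nat_lit 283) (nat_lit 119)) (XT.lf (nat_lit 0) (nat_lit 81224126544) (nat_lit 76) (nat_lit 197587158314) (nat_lit 76) (nat_lit 124783582421) (nat_lit 4) (nat_lit 4) (nat_lit 5)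 (nat_lit 5) (nat_lit 5) (nat_lit 4) (nat_lit 379) (nat_lit 283) (nat_lit 118))) (XT.nd (nat_lit 78) (nat_lit 0) (nat_lit 0) (XT.lf (nat_lit 0) (nat_lit 128942210423) (nat_lit 76) (nat_lit 183237246621) (nat_lit 76) (nat_lit 110432564518) (nat_lit 4) (nat_lit 4) (nat_lit 5) (nat_lit 5) (nat_lit 5) (nat_lit 4) (nat_lit 380) (nat_lit 283) (nat_lit 117)) (XT.nd (nat_lit 78) (nat_lit 0) (nat_lit 0) (XT.lf (nat_lit 0) (nat_lit 179044904618) (nat_lit 76) (nat_lit 168170449516) (nat_lit 76) (nat_lit 95364713880) (nat_lit 4) (nat_lit 4) (nat_lit 5) (nat_lit 5) (nat_lit 5) (nat_lit 4) (nat_lit 381) (nat_lit 283) (nat_lit 116)) (XT.lf (nat_lit 0) (nat_lit 231651501259) (nat_lit 76) (nat_lit 152350893674) (nat_lit 76) (nat_lit 79544154672) (nat_lit 4) (nat_lit 4) (nat_lit 5) (nat_lit 5) (nat_lit 5) (nat_lit 4) (nat_lit 382) (nat_lit 283) (nat_lit 115))))) (XT.nd (nat_lit 32994) (nat_lit 0) (nat_lit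 6536) (XT.nd (nat_lit 32916) (nat_lit 0) (nat_lit 6536) (XT.lf (nat_lit 0) (nat_lit 286887254147) (nat_lit 76) (nat_lit 135740913484) (nat_lit 76) (nat_lit 62933218896) (nat_lit 4) (nat_lit 4) (nat_lit 5) (nat_lit 5) (nat_lit 5) (nat_lit 4) (nat_lit 383) (nat_lit 283) (nat_lit 114)) (XT.lf (nat_lit 0) (nat_lit 1540413800) (nat_lit 0) (nat_lit 1540413800) (nat_lit 684) (nat_lit 3637484176) (nat_lit 90) (nat_lit 5) (nat_lit 90) (nat_lit 3) (nat_lit 99) (nat_lit 3) (nat_lit 284) (nat_lit 284) (nat_lit 212))) (XT.nd (nat_lit 78) (nat_lit 0) (nat_lit 0) (XT.lf (nat_lit 0) (nat_lit 6712003899) (nat_lit 684) (nat_lit 4299098854) (nat_lit 760) (nat_lit 2740910667) (nat_lit 90) (nat_lit 5) (nat_lit 99) (nat_lit 3) (nat_lit 100) (nat_lit 5) (nat_lit 285) (nat_lit 284) (nat_lit 211)) (XT.nd (nat_lit 78) (nat_lit 0) (nat_lit 76) (XT.lf (nat_lit 76) (nat_lit 2063350095) (nat_lit 0) (nat_lit 5286877190)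 (nat_lit 760) (nat_lit 6729973102) (nat_lit 91) (nat_lit 5) (nat_lit 90) (nat_lit 5) (nat_lit 100) (nat_lit 5) (nat_lit 286) (nat_lit 284) (nat_lit 210)) (XT.lf (nat_lit 0) (nat_lit 8084309523) (nat_lit 684) (nat_lit 5554144027) (nat_lit 760) (nat_lit 783189073) (nat_lit 91) (nat_lit 5) (nat_lit 100) (nat_lit 5) (nat_lit 101) (nat_lit 5) (nat_lit 287) (nat_lit 284) (nat_lit 209)))))) (XT.nd (nat_lit 390) (nat_lit 1064) (nat_lit 0) (XT.nd (nat_lit 156) (nat_lit 0) (nat_lit 76) (XT.nd (nat_lit 78) (nat_lit 0) (nat_lit 0) (XT.lf (nat_lit 76) (nat_lit 1169433925) (nat_lit 0) (nat_lit 7770256880) (nat_lit 760) (nat_lit 5836277666) (nat_lit 92) (nat_lit 5) (nat_lit 91) (nat_lit 5) (nat_lit 101) (nat_lit 5) (nat_lit 288) (nat_lit 284) (nat_lit 208)) (XT.lf (nat_lit 76) (nat_lit 8409205463) (nat_lit 0) (nat_lit 1503132691) (nat_lit 760) (nat_lit 5231986886) (nat_lit 92) (nat_lit 5) (nat_lit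 91) (nat_lit 5) (nat_lit 101) (nat_lit 5) (nat_lit 289) (nat_lit 284) (nat_lit 207))) (XT.nd (nat_lit 78) (nat_lit 0) (nat_lit 0) (XT.lf (nat_lit 76) (nat_lit 400129130) (nat_lit 0) (nat_lit 10600474467) (nat_lit 760) (nat_lit 4527183965) (nat_lit 93) (nat_lit 5) (nat_lit 92) (nat_lit 5) (nat_lit 102) (nat_lit 5) (nat_lit 290) (nat_lit 284) (nat_lit 206)) (XT.nd (nat_lit 78) (nat_lit 0) (nat_lit 76) (XT.lf (nat_lit 76) (nat_lit 8087454190) (nat_lit 0) (nat_lit 4176280323) (nat_lit 760) (nat_lit 3660701714) (nat_lit 93) (nat_lit 5) (nat_lit 92) (nat_lit 5) (nat_lit 102) (nat_lit 5) (nat_lit 291) (nat_lit 284) (nat_lit 205)) (XT.lf (nat_lit 0) (nat_lit 13613200340) (nat_lit 684) (nat_lit 235274644) (nat_lit 760) (nat_lit 2491317357) (nat_lit 93) (nat_lit 5) (nat_lit 102) (nat_lit 5) (nat_lit 103) (nat_lit 5) (nat_lit 292) (nat_lit 284) (nat_lit 204))))) (XT.nd (nat_lit 156) (nat_lit 1216)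 (nat_lit 0) (XT.nd (nat_lit 78) (nat_lit 0) (nat_lit 0) (XT.lf (nat_lit 76) (nat_lit 7918750057) (nat_lit 0) (nat_lit 7287360363) (nat_lit 760) (nat_lit 1561039606) (nat_lit 94) (nat_lit 5) (nat_lit 93) (nat_lit 5) (nat_lit 103) (nat_lit 5) (nat_lit 293) (nat_lit 284) (nat_lit 203)) (XT.lf (nat_lit 76) (nat_lit 16476096001) (nat_lit 0) (nat_lit 390999984) (nat_lit 760) (nat_lit 349388890) (nat_lit 94) (nat_lit 5) (nat_lit 93) (nat_lit 5) (nat_lit 103) (nat_lit 5) (nat_lit 294) (nat_lit 284) (nat_lit 202))) (XT.nd (nat_lit 78) (nat_lit 532) (nat_lit 0) (XT.lf (nat_lit 0) (nat_lit 1112435787) (nat_lit 760) (nat_lit 9789117388) (nat_lit 76) (nat_lit 6775084387) (nat_lit 84) (nat_lit 5) (nat_lit 94) (nat_lit 5) (nat_lit 85) (nat_lit 5) (nat_lit 295) (nat_lit 284) (nat_lit 201)) (XT.nd (nat_lit 78) (nat_lit 532) (nat_lit 0) (XT.lf (nat_lit 0) (nat_lit 2640241436) (nat_lit 760) (nat_lit 1212050961)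 (nat_lit 76) (nat_lit 14307014113) (nat_lit 84) (nat_lit 5) (nat_lit 94) (nat_lit 5) (nat_lit 85) (nat_lit 5) (nat_lit 296) (nat_lit 284) (nat_lit 200)) (XT.lf (nat_lit 0) (nat_lit 4413608757) (nat_lit 608) (nat_lit 10679332380) (nat_lit 76) (nat_lit 3564734521) (nat_lit 77) (nat_lit 5) (nat_lit 85) (nat_lit 5) (nat_lit 78) (nat_lit 5) (nat_lit 297) (nat_lit 284) (nat_lit 199))))))))
noncomputable def xc174 : XT := (XT.nd (nat_lit 1560) (nat_lit 1596) (nat_lit 0) (XT.nd (nat_lit 780) (nat_lit 1140) (nat_lit 0) (XT.nd (nat_lit 390) (nat_lit 988) (nat_lit 0) (XT.nd (nat_lit 156) (nat_lit 304) (nat_lit 0) (XT.nd (nat_lit 78) (nat_lit 380) (nat_lit 0) (XT.lf (nat_lit 0) (nat_lit 6346313736) (nat_lit 608) (nat_lit 1586041992) (nat_lit 76) (nat_lit 11245098184) (nat_lit 77) (nat_lit 5) (nat_lit 85) (nat_lit 5) (nat_lit 78) (nat_lit 5) (nat_lit 298) (nat_lit 284) (nat_lit 198)) (XT.lf (nat_lit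 0) (nat_lit 8212425505) (nat_lit 380) (nat_lit 278736756) (nat_lit 456) (nat_lit 11226306369) (nat_lit 72) (nat_lit 5) (nat_lit 77) (nat_lit 5) (nat_lit 78) (nat_lit 5) (nat_lit 299) (nat_lit 284) (nat_lit 197))) (XT.nd (nat_lit 78) (nat_lit 304) (nat_lit 0) (XT.lf (nat_lit 0) (nat_lit 10879378792) (nat_lit 456) (nat_lit 1861594946) (nat_lit 76) (nat_lit 7536725941) (nat_lit 72) (nat_lit 5) (nat_lit 78) (nat_lit 5) (nat_lit 73) (nat_lit 5) (nat_lit 300) (nat_lit 284) (nat_lit 196)) (XT.nd (nat_lit 78) (nat_lit 0) (nat_lit 0) (XT.lf (nat_lit 0) (nat_lit 8519980762) (nat_lit 304) (nat_lit 4992908526) (nat_lit 380) (nat_lit 7346779666) (nat_lit 68) (nat_lit 5) (nat_lit 72) (nat_lit 5) (nat_lit 73) (nat_lit 5) (nat_lit 301) (nat_lit 284) (nat_lit 195)) (XT.lf (nat_lit 0) (nat_lit 16347836882) (nat_lit 380) (nat_lit 2046024224) (nat_lit 76) (nat_lit 3073407347) (nat_lit 68) (nat_lit 5) (nat_lit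 73) (nat_lit 5) (nat_lit 69) (nat_lit 5) (nat_lit 302) (nat_lit 284) (nat_lit 194))))) (XT.nd (nat_lit 156) (nat_lit 608) (nat_lit 0) (XT.nd (nat_lit 78) (nat_lit 76) (nat_lit 0) (XT.lf (nat_lit 0) (nat_lit 8955141476) (nat_lit 304) (nat_lit 10580250058) (nat_lit 380) (nat_lit 2559332303) (nat_lit 64) (nat_lit 5) (nat_lit 68) (nat_lit 5) (nat_lit 69) (nat_lit 5) (nat_lit 303) (nat_lit 284) (nat_lit 193)) (XT.lf (nat_lit 0) (nat_lit 149204593) (nat_lit 380) (nat_lit 2189127147) (nat_lit 76) (nat_lit 20413909157) (nat_lit 63) (nat_lit 5) (nat_lit 68) (nat_lit 5) (nat_lit 64) (nat_lit 5) (nat_lit 304) (nat_lit 284) (nat_lit 192))) (XT.nd (nat_lit 78) (nat_lit 304) (nat_lit 0) (XT.lf (nat_lit 0) (nat_lit 3148000032) (nat_lit 380) (nat_lit 13973947301) (nat_lit 76) (nat_lit 6306562882) (nat_lit 59) (nat_lit 5) (nat_lit 64) (nat_lit 5) (nat_lit 60) (nat_lit 5) (nat_lit 305) (nat_lit 284) (nat_lit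 191)) (XT.nd (nat_lit 78) (nat_lit 304) (nat_lit 0) (XT.lf (nat_lit 0) (nat_lit 6362876370) (nat_lit 380) (nat_lit 2431089898) (nat_lit 76) (nat_lit 15341335219) (nat_lit 59) (nat_lit 5) (nat_lit 64) (nat_lit 5) (nat_lit 60) (nat_lit 5) (nat_lit 306) (nat_lit 284) (nat_lit 190)) (XT.lf (nat_lit 0) (nat_lit 9886938898) (nat_lit 380) (nat_lit 14874256036) (nat_lit 76) (nat_lit 108830073) (nat_lit 55) (nat_lit 5) (nat_lit 60) (nat_lit 5) (nat_lit 56) (nat_lit 5) (nat_lit 307) (nat_lit 284) (nat_lit 189)))))) (XT.nd (nat_lit 390) (nat_lit 608) (nat_lit 0) (XT.nd (nat_lit 156) (nat_lit 304) (nat_lit 0) (XT.nd (nat_lit 78) (nat_lit 228) (nat_lit 0) (XT.lf (nat_lit 0) (nat_lit 13764054523) (nat_lit 380) (nat_lit 2667433794) (nat_lit 76) (nat_lit 9201167989) (nat_lit 55) (nat_lit 5) (nat_lit 60) (nat_lit 5) (nat_lit 56) (nat_lit 5) (nat_lit 308) (nat_lit 284) (nat_lit 188)) (XT.lf (nat_lit 0)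 (nat_lit 10473969535) (nat_lit 228) (nat_lit 7515860563) (nat_lit 304) (nat_lit 8435862291) (nat_lit 52) (nat_lit 5) (nat_lit 55) (nat_lit 5) (nat_lit 56) (nat_lit 5) (nat_lit 309) (nat_lit 284) (nat_lit 187))) (XT.nd (nat_lit 78) (nat_lit 304) (nat_lit 0) (XT.lf (nat_lit 0) (nat_lit 22493109698) (nat_lit 304) (nat_lit 2931841315) (nat_lit 76) (nat_lit 1830131288) (nat_lit 52) (nat_lit 5) (nat_lit 56) (nat_lit 5) (nat_lit 53) (nat_lit 5) (nat_lit 310) (nat_lit 284) (nat_lit 186)) (XT.nd (nat_lit 78) (nat_lit 76) (nat_lit 0) (XT.lf (nat_lit 0) (nat_lit 10955796114) (nat_lit 228) (nat_lit 16551910308) (nat_lit 304) (nat_lit 603939810) (nat_lit 49) (nat_lit 5) (nat_lit 52) (nat_lit 5) (nat_lit 53) (nat_lit 5) (nat_lit 311) (nat_lit 284) (nat_lit 185)) (XT.lf (nat_lit 0) (nat_lit 3684026582) (nat_lit 304) (nat_lit 3439288100) (nat_lit 76) (nat_lit 21882675997) (nat_lit 48) (nat_lit 5) (nat_lit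 52) (nat_lit 5) (nat_lit 49) (nat_lit 5) (nat_lit 312) (nat_lit 284) (nat_lit 184))))) (XT.nd (nat_lit 156) (nat_lit 380) (nat_lit 0) (XT.nd (nat_lit 78) (nat_lit 0) (nat_lit 0) (XT.lf (nat_lit 0) (nat_lit 8381316159) (nat_lit 304) (nat_lit 18677739869) (nat_lit 76) (nat_lit 2874750748) (nat_lit 45) (nat_lit 5) (nat_lit 49) (nat_lit 5) (nat_lit 46) (nat_lit 5) (nat_lit 313) (nat_lit 284) (nat_lit 183)) (XT.lf (nat_lit 0) (nat_lit 13481966708) (nat_lit 304) (nat_lit 4227684344) (nat_lit 76) (nat_lit 13189947822) (nat_lit 45) (nat_lit 5) (nat_lit 49) (nat_lit 5) (nat_lit 46) (nat_lit 5) (nat_lit 314) (nat_lit 284) (nat_lit 182))) (XT.nd (nat_lit 78) (nat_lit 152) (nat_lit 0) (XT.lf (nat_lit 0) (nat_lit 11296482965) (nat_lit 228) (nat_lit 7710412752) (nat_lit 304) (nat_lit 12898332106) (nat_lit 42) (nat_lit 5) (nat_lit 45) (nat_lit 5) (nat_lit 46) (nat_lit 5) (nat_lit 315) (nat_lit 284)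 (nat_lit 181)) (XT.nd (nat_lit 78) (nat_lit 152) (nat_lit 0) (XT.lf (nat_lit 0) (nat_lit 24917401644) (nat_lit 304) (nat_lit 5268738530) (nat_lit 76) (nat_lit 2769540610) (nat_lit 42) (nat_lit 5) (nat_lit 46) (nat_lit 5) (nat_lit 43) (nat_lit 5) (nat_lit 316) (nat_lit 284) (nat_lit 180)) (XT.lf (nat_lit 0) (nat_lit 11056113564) (nat_lit 152) (nat_lit 20359686966) (nat_lit 228) (nat_lit 2628246136) (nat_lit 40) (nat_lit 5) (nat_lit 42) (nat_lit 5) (nat_lit 43) (nat_lit 5) (nat_lit 317) (nat_lit 284) (nat_lit 179))))))) (XT.nd (nat_lit 780) (nat_lit 760) (nat_lit 0) (XT.nd (nat_lit 390) (nat_lit 380) (nat_lit 0) (XT.nd (nat_lit 156) (nat_lit 152) (nat_lit 0) (XT.nd (nat_lit 78) (nat_lit 228) (nat_lit 0) (XT.lf (nat_lit 0) (nat_lit 3038692825) (nat_lit 228) (nat_lit 6861049769) (nat_lit 76) (nat_lit 25280508531) (nat_lit 39) (nat_lit 5) (nat_lit 42) (nat_lit 5) (nat_lit 40) (nat_lit 5)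 (nat_lit 318) (nat_lit 284) (nat_lit 178)) (XT.lf (nat_lit 0) (nat_lit 9076203806) (nat_lit 304) (nat_lit 26032408622) (nat_lit 76) (nat_lit 1253728986) (nat_lit 36) (nat_lit 5) (nat_lit 40) (nat_lit 5) (nat_lit 37) (nat_lit 5) (nat_lit 319) (nat_lit 284) (nat_lit 177))) (XT.nd (nat_lit 78) (nat_lit 152) (nat_lit 0) (XT.lf (nat_lit 0) (nat_lit 15689811649) (nat_lit 304) (nat_lit 9152604181) (nat_lit 76) (nat_lit 12747416443) (nat_lit 36) (nat_lit 5) (nat_lit 40) (nat_lit 5) (nat_lit 37) (nat_lit 5) (nat_lit 320) (nat_lit 284) (nat_lit 176)) (XT.nd (nat_lit 78) (nat_lit 0) (nat_lit 0) (XT.lf (nat_lit 0) (nat_lit 8845396839) (nat_lit 152) (nat_lit 13920928682) (nat_lit 228) (nat_lit 16105767655) (nat_lit 34) (nat_lit 5) (nat_lit 36) (nat_lit 5) (nat_lit 37) (nat_lit 5) (nat_lit 321) (nat_lit 284) (nat_lit 175)) (XT.lf (nat_lit 0) (nat_lit 28052297656) (nat_lit 152) (nat_lit 2293638479)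 (nat_lit 228) (nat_lit 9865073896) (nat_lit 34) (nat_lit 5) (nat_lit 36) (nat_lit 5) (nat_lit 37) (nat_lit 5) (nat_lit 322) (nat_lit 284) (nat_lit 174))))) (XT.nd (nat_lit 156) (nat_lit 152) (nat_lit 0) (XT.nd (nat_lit 78) (nat_lit 76) (nat_lit 0) (XT.lf (nat_lit 0) (nat_lit 6652206636) (nat_lit 152) (nat_lit 31905476692) (nat_lit 228) (nat_lit 3046537750) (nat_lit 32) (nat_lit 5) (nat_lit 34) (nat_lit 5) (nat_lit 35) (nat_lit 5) (nat_lit 323) (nat_lit 284) (nat_lit 173)) (XT.lf (nat_lit 0) (nat_lit 4222707756) (nat_lit 228) (nat_lit 16344816094) (nat_lit 76) (nat_lit 22484292600) (nat_lit 31) (nat_lit 5) (nat_lit 34) (nat_lit 5) (nat_lit 32) (nat_lit 5) (nat_lit 324) (nat_lit 284) (nat_lit 172))) (XT.nd (nat_lit 78) (nat_lit 0) (nat_lit 0) (XT.lf (nat_lit 0) (nat_lit 3238229954) (nat_lit 152) (nat_lit 8560152071) (nat_lit 228) (nat_lit 32768650209) (nat_lit 29) (nat_lit 5) (nat_lit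 31) (nat_lit 5) (nat_lit 32) (nat_lit 5) (nat_lit 325) (nat_lit 284) (nat_lit 171)) (XT.nd (nat_lit 78) (nat_lit 0) (nat_lit 0) (XT.lf (nat_lit 0) (nat_lit 20092246776) (nat_lit 228) (nat_lit 21852309753) (nat_lit 76) (nat_lit 4196487003) (nat_lit 29) (nat_lit 5) (nat_lit 32) (nat_lit 5) (nat_lit 30) (nat_lit 5) (nat_lit 326) (nat_lit 284) (nat_lit 170)) (XT.lf (nat_lit 0) (nat_lit 28936246909) (nat_lit 228) (nat_lit 1550220774) (nat_lit 76) (nat_lit 17300520423) (nat_lit 29) (nat_lit 5) (nat_lit 32) (nat_lit 5) (nat_lit 30) (nat_lit 5) (nat_lit 327) (nat_lit 284) (nat_lit 169)))))) (XT.nd (nat_lit 390) (nat_lit 304) (nat_lit 0) (XT.nd (nat_lit 156) (nat_lit 304) (nat_lit 0) (XT.nd (nat_lit 78) (nat_lit 0) (nat_lit 0) (XT.lf (nat_lit 0) (nat_lit 20412787611) (nat_lit 152) (nat_lit 18123704816) (nat_lit 228) (nat_lit 10963039804) (nat_lit 27) (nat_lit 5) (nat_lit 29) (nat_lit 5) (nat_lit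 30) (nat_lit 5) (nat_lit 328) (nat_lit 284) (nat_lit 168)) (XT.lf (nat_lit 0) (nat_lit 43520366174) (nat_lit 152) (nat_lit 5118088490) (nat_lit 228) (nat_lit 2658168048) (nat_lit 27) (nat_lit 5) (nat_lit 29) (nat_lit 5) (nat_lit 30) (nat_lit 5) (nat_lit 329) (nat_lit 284) (nat_lit 167))) (XT.nd (nat_lit 78) (nat_lit 152) (nat_lit 0) (XT.lf (nat_lit 0) (nat_lit 6235997230) (nat_lit 152) (nat_lit 38328727734) (nat_lit 76) (nat_lit 8595711013) (nat_lit 25) (nat_lit 5) (nat_lit 27) (nat_lit 5) (nat_lit 26) (nat_lit 5) (nat_lit 330) (nat_lit 284) (nat_lit 166)) (XT.nd (nat_lit 78) (nat_lit 152) (nat_lit 0) (XT.lf (nat_lit 0) (nat_lit 15698943891) (nat_lit 152) (nat_lit 16407705902) (nat_lit 76) (nat_lit 22997944813) (nat_lit 25) (nat_lit 5) (nat_lit 27) (nat_lit 5) (nat_lit 26) (nat_lit 5) (nat_lit 331) (nat_lit 284) (nat_lit 165)) (XT.lf (nat_lit 0) (nat_lit 6820762082) (nat_lit 152) (nat_lit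 18916622546) (nat_lit 228) (nat_lit 31403462798) (nat_lit 23) (nat_lit 5) (nat_lit 25) (nat_lit 5) (nat_lit 26) (nat_lit 5) (nat_lit 332) (nat_lit 284) (nat_lit 164))))) (XT.nd (nat_lit 156) (nat_lit 304) (nat_lit 0) (XT.nd (nat_lit 78) (nat_lit 0) (nat_lit 0) (XT.lf (nat_lit 0) (nat_lit 31773491525) (nat_lit 152) (nat_lit 4778075029) (nat_lit 228) (nat_lit 22713658800) (nat_lit 23) (nat_lit 5) (nat_lit 25) (nat_lit 5) (nat_lit 26) (nat_lit 5) (nat_lit 333) (nat_lit 284) (nat_lit 163)) (XT.lf (nat_lit 0) (nat_lit 48059736783) (nat_lit 228) (nat_lit 3685777102) (nat_lit 76) (nat_lit 9742647597) (nat_lit 23) (nat_lit 5) (nat_lit 26) (nat_lit 5) (nat_lit 24) (nat_lit 4) (nat_lit 334) (nat_lit 284) (nat_lit 162))) (XT.nd (nat_lit 78) (nat_lit 228) (nat_lit 0) (XT.lf (nat_lit 0) (nat_lit 21927654007) (nat_lit 76) (nat_lit 38632627391) (nat_lit 152) (nat_lit 3241117830) (nat_lit 22) (nat_lit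 5) (nat_lit 23) (nat_lit 5) (nat_lit 24) (nat_lit 4) (nat_lit 335) (nat_lit 284) (nat_lit 161)) (XT.nd (nat_lit 78) (nat_lit 152) (nat_lit 0) (XT.lf (nat_lit 0) (nat_lit 7276675868) (nat_lit 152) (nat_lit 17401224133) (nat_lit 76) (nat_lit 41543594284) (nat_lit 21) (nat_lit 5) (nat_lit 23) (nat_lit 5) (nat_lit 22) (nat_lit 5) (nat_lit 336) (nat_lit 284) (nat_lit 160)) (XT.lf (nat_lit 0) (nat_lit 8508063536) (nat_lit 152) (nat_lit 9832685794) (nat_lit 228) (nat_lit 50412725152) (nat_lit 19) (nat_lit 5) (nat_lit 21) (nat_lit 5) (nat_lit 22) (nat_lit 5) (nat_lit 337) (nat_lit 284) (nat_lit 159))))))))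
noncomputable def xc175 : XT := (XT.nd (nat_lit 1560) (nat_lit 380) (nat_lit 0) (XT.nd (nat_lit 780) (nat_lit 304) (nat_lit 0) (XT.nd (nat_lit 390) (nat_lit 228) (nat_lit 0) (XT.nd (nat_lit 156) (nat_lit 152) (nat_lit 0) (XT.nd (nat_lit 78) (nat_lit 0) (nat_lit 0) (XT.lf (nat_lit 0) (nat_lit 30343918329) (nat_lit 228) (nat_lit 35181127638) (nat_lit 76) (nat_lit 5867715684) (nat_lit 19) (nat_lit 5) (nat_lit 22) (nat_lit 5) (nat_lit 20) (nat_lit 4) (nat_lit 338) (nat_lit 284) (nat_lit 158)) (XT.lf (nat_lit 0) (nat_lit 43105117548) (nat_lit 228) (nat_lit 9030608546) (nat_lit 76) (nat_lit 22020395930) (nat_lit 19) (nat_lit 5) (nat_lit 22) (nat_lit 5) (nat_lit 20) (nat_lit 4) (nat_lit 339) (nat_lit 284) (nat_lit 157))) (XT.nd (nat_lit 78) (nat_lit 76) (nat_lit 0) (XT.lf (nat_lit 0) (nat_lit 19031037296) (nat_lit 76) (nat_lit 37767305544) (nat_lit 152) (nat_lit 20244611589) (nat_lit 18) (nat_lit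 5) (nat_lit 19) (nat_lit 5) (nat_lit 20) (nat_lit 4) (nat_lit 340) (nat_lit 284) (nat_lit 156)) (XT.nd (nat_lit 78) (nat_lit 76) (nat_lit 0) (XT.lf (nat_lit 0) (nat_lit 48803865410) (nat_lit 76) (nat_lit 22522205897) (nat_lit 152) (nat_lit 8740567259) (nat_lit 18) (nat_lit 5) (nat_lit 19) (nat_lit 5) (nat_lit 20) (nat_lit 4) (nat_lit 341) (nat_lit 284) (nat_lit 155)) (XT.lf (nat_lit 0) (nat_lit 3228821934) (nat_lit 152) (nat_lit 3233563428) (nat_lit 76) (nat_lit 76776667182) (nat_lit 17) (nat_lit 5) (nat_lit 19) (nat_lit 5) (nat_lit 18) (nat_lit 5) (nat_lit 342) (nat_lit 284) (nat_lit 154))))) (XT.nd (nat_lit 156) (nat_lit 76) (nat_lit 0) (XT.nd (nat_lit 78) (nat_lit 0) (nat_lit 0) (XT.lf (nat_lit 0) (nat_lit 16091808905) (nat_lit 228) (nat_lit 59803547753) (nat_lit 76) (nat_lit 10638124636) (nat_lit 15) (nat_lit 5) (nat_lit 18) (nat_lit 5) (nat_lit 16) (nat_lit 4) (nat_lit 343) (nat_lit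 284) (nat_lit 153)) (XT.lf (nat_lit 0) (nat_lit 29756715309) (nat_lit 228) (nat_lit 31797906488) (nat_lit 76) (nat_lit 28430072998) (nat_lit 15) (nat_lit 5) (nat_lit 18) (nat_lit 5) (nat_lit 16) (nat_lit 4) (nat_lit 344) (nat_lit 284) (nat_lit 152))) (XT.nd (nat_lit 78) (nat_lit 76) (nat_lit 0) (XT.lf (nat_lit 0) (nat_lit 44102171455) (nat_lit 228) (nat_lit 2396785068) (nat_lit 76) (nat_lit 47109648956) (nat_lit 15) (nat_lit 5) (nat_lit 18) (nat_lit 5) (nat_lit 16) (nat_lit 4) (nat_lit 345) (nat_lit 284) (nat_lit 151)) (XT.nd (nat_lit 78) (nat_lit 0) (nat_lit 0) (XT.lf (nat_lit 0) (nat_lit 29411159973) (nat_lit 76) (nat_lit 30210363850) (nat_lit 152) (nat_lit 37769358351) (nat_lit 14) (nat_lit 5) (nat_lit 15) (nat_lit 5) (nat_lit 16) (nat_lit 4) (nat_lit 346) (nat_lit 284) (nat_lit 150)) (XT.lf (nat_lit 0) (nat_lit 62888213748) (nat_lit 76) (nat_lit 13066705558) (nat_lit 152) (nat_lit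 25405451192) (nat_lit 14) (nat_lit 5) (nat_lit 15) (nat_lit 5) (nat_lit 16) (nat_lit 4) (nat_lit 347) (nat_lit 284) (nat_lit 149)))))) (XT.nd (nat_lit 390) (nat_lit 76) (nat_lit 0) (XT.nd (nat_lit 156) (nat_lit 76) (nat_lit 0) (XT.nd (nat_lit 78) (nat_lit 152) (nat_lit 0) (XT.lf (nat_lit 0) (nat_lit 93179595299) (nat_lit 152) (nat_lit 7570625697) (nat_lit 0) (nat_lit 4774383201) (nat_lit 14) (nat_lit 5) (nat_lit 16) (nat_lit 4) (nat_lit 14) (nat_lit 4) (nat_lit 348) (nat_lit 284) (nat_lit 148)) (XT.lf (nat_lit 0) (nat_lit 1944250605) (nat_lit 152) (nat_lit 84425032935) (nat_lit 76) (nat_lit 23495719414) (nat_lit 12) (nat_lit 5) (nat_lit 14) (nat_lit 5) (nat_lit 13) (nat_lit 4) (nat_lit 349) (nat_lit 284) (nat_lit 147))) (XT.nd (nat_lit 78) (nat_lit 76) (nat_lit 0) (XT.lf (nat_lit 0) (nat_lit 16661111929) (nat_lit 152) (nat_lit 54260738247) (nat_lit 76) (nat_lit 43484053299) (nat_lit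 12) (nat_lit 5) (nat_lit 14) (nat_lit 5) (nat_lit 13) (nat_lit 4) (nat_lit 350) (nat_lit 284) (nat_lit 146)) (XT.nd (nat_lit 78) (nat_lit 76) (nat_lit 0) (XT.lf (nat_lit 0) (nat_lit 32111623982) (nat_lit 152) (nat_lit 22592208564) (nat_lit 76) (nat_lit 64470127323) (nat_lit 12) (nat_lit 5) (nat_lit 14) (nat_lit 5) (nat_lit 13) (nat_lit 4) (nat_lit 351) (nat_lit 284) (nat_lit 145)) (XT.lf (nat_lit 0) (nat_lit 11008291449) (nat_lit 76) (nat_lit 37496152527) (nat_lit 152) (nat_lit 75667487159) (nat_lit 11) (nat_lit 5) (nat_lit 12) (nat_lit 5) (nat_lit 13) (nat_lit 4) (nat_lit 352) (nat_lit 284) (nat_lit 144))))) (XT.nd (nat_lit 156) (nat_lit 76) (nat_lit 0) (XT.nd (nat_lit 78) (nat_lit 0) (nat_lit 0) (XT.lf (nat_lit 0) (nat_lit 47069437836) (nat_lit 76) (nat_lit 19028030383) (nat_lit 152) (nat_lit 63303305699) (nat_lit 11) (nat_lit 5) (nat_lit 12) (nat_lit 5) (nat_lit 13) (nat_lit 4) (nat_lit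 353) (nat_lit 284) (nat_lit 143)) (XT.lf (nat_lit 0) (nat_lit 84573844607) (nat_lit 152) (nat_lit 49966717549) (nat_lit 0) (nat_lit 350312701) (nat_lit 11) (nat_lit 5) (nat_lit 13) (nat_lit 4) (nat_lit 11) (nat_lit 4) (nat_lit 354) (nat_lit 284) (nat_lit 142))) (XT.nd (nat_lit 78) (nat_lit 76) (nat_lit 0) (XT.lf (nat_lit 0) (nat_lit 104284094464) (nat_lit 152) (nat_lit 16299255421) (nat_lit 0) (nat_lit 20056629236) (nat_lit 11) (nat_lit 5) (nat_lit 13) (nat_lit 4) (nat_lit 11) (nat_lit 4) (nat_lit 355) (nat_lit 284) (nat_lit 141)) (XT.nd (nat_lit 78) (nat_lit 0) (nat_lit 0) (XT.lf (nat_lit 0) (nat_lit 19678114356) (nat_lit 76) (nat_lit 105607182232) (nat_lit 76) (nat_lit 21375970984) (nat_lit 10) (nat_lit 4) (nat_lit 11) (nat_lit 5) (nat_lit 11) (nat_lit 4) (nat_lit 356) (nat_lit 284) (nat_lit 140)) (XT.lf (nat_lit 0) (nat_lit 58016990990) (nat_lit 76) (nat_lit 89593847635) (nat_lit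 76) (nat_lit 5359068749) (nat_lit 10) (nat_lit 4) (nat_lit 11) (nat_lit 5) (nat_lit 11) (nat_lit 4) (nat_lit 357) (nat_lit 284) (nat_lit 139))))))) (XT.nd (nat_lit 780) (nat_lit 152) (nat_lit 0) (XT.nd (nat_lit 390) (nat_lit 76) (nat_lit 0) (XT.nd (nat_lit 156) (nat_lit 76) (nat_lit 0) (XT.nd (nat_lit 78) (nat_lit 0) (nat_lit 0) (XT.lf (nat_lit 0) (nat_lit 11090228706) (nat_lit 152) (nat_lit 61503207787) (nat_lit 76) (nat_lit 86991683431) (nat_lit 9) (nat_lit 5) (nat_lit 11) (nat_lit 5) (nat_lit 10) (nat_lit 4) (nat_lit 358) (nat_lit 284) (nat_lit 138)) (XT.lf (nat_lit 0) (nat_lit 28180271550) (nat_lit 152) (nat_lit 26471855910) (nat_lit 76) (nat_lit 111874654737) (nat_lit 9) (nat_lit 5) (nat_lit 11) (nat_lit 5) (nat_lit 10) (nat_lit 4) (nat_lit 359) (nat_lit 284) (nat_lit 137))) (XT.nd (nat_lit 78) (nat_lit 0) (nat_lit 0) (XT.lf (nat_lit 0) (nat_lit 10649053527) (nat_lit 76) (nat_lit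 35640482071) (nat_lit 152) (nat_lit 127517756788) (nat_lit 8) (nat_lit 5) (nat_lit 9) (nat_lit 5) (nat_lit 10) (nat_lit 4) (nat_lit 360) (nat_lit 284) (nat_lit 136)) (XT.nd (nat_lit 78) (nat_lit 0) (nat_lit 0) (XT.lf (nat_lit 0) (nat_lit 50542251155) (nat_lit 76) (nat_lit 15208812605) (nat_lit 152) (nat_lit 115678424996) (nat_lit 8) (nat_lit 5) (nat_lit 9) (nat_lit 5) (nat_lit 10) (nat_lit 4) (nat_lit 361) (nat_lit 284) (nat_lit 135)) (XT.lf (nat_lit 0) (nat_lit 86281701660) (nat_lit 152) (nat_lit 97102900065) (nat_lit 0) (nat_lit 6043392239) (nat_lit 8) (nat_lit 5) (nat_lit 10) (nat_lit 4) (nat_lit 8) (nat_lit 4) (nat_lit 362) (nat_lit 284) (nat_lit 134))))) (XT.nd (nat_lit 156) (nat_lit 76) (nat_lit 0) (XT.nd (nat_lit 78) (nat_lit 0) (nat_lit 0) (XT.lf (nat_lit 0) (nat_lit 108086805884) (nat_lit 152) (nat_lit 61881261468) (nat_lit 0) (nat_lit 27845961009) (nat_lit 8) (nat_lit 5) (nat_lit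 10) (nat_lit 4) (nat_lit 8) (nat_lit 4) (nat_lit 363) (nat_lit 284) (nat_lit 133)) (XT.lf (nat_lit 0) (nat_lit 130980841162) (nat_lit 152) (nat_lit 24901008578) (nat_lit 0) (nat_lit 50737581569) (nat_lit 8) (nat_lit 5) (nat_lit 10) (nat_lit 4) (nat_lit 8) (nat_lit 4) (nat_lit 364) (nat_lit 284) (nat_lit 132))) (XT.nd (nat_lit 78) (nat_lit 0) (nat_lit 0) (XT.lf (nat_lit 0) (nat_lit 14386360194) (nat_lit 76) (nat_lit 140856568305) (nat_lit 76) (nat_lit 60611008981) (nat_lit 7) (nat_lit 4) (nat_lit 8) (nat_lit 5) (nat_lit 8) (nat_lit 4) (nat_lit 365) (nat_lit 284) (nat_lit 131)) (XT.nd (nat_lit 78) (nat_lit 0) (nat_lit 0) (XT.lf (nat_lit 0) (nat_lit 56500291971) (nat_lit 76) (nat_lit 124638301711) (nat_lit 76) (nat_lit 44390552167) (nat_lit 7) (nat_lit 4) (nat_lit 8) (nat_lit 5) (nat_lit 8) (nat_lit 4) (nat_lit 366) (nat_lit 284) (nat_lit 130)) (XT.lf (nat_lit 0) (nat_lit 100717718217)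 (nat_lit 76) (nat_lit 107610145668) (nat_lit 76) (nat_lit 27360310199) (nat_lit 7) (nat_lit 4) (nat_lit 8) (nat_lit 5) (nat_lit 8) (nat_lit 4) (nat_lit 367) (nat_lit 284) (nat_lit 129)))))) (XT.nd (nat_lit 390) (nat_lit 0) (nat_lit 0) (XT.nd (nat_lit 156) (nat_lit 76) (nat_lit 0) (XT.nd (nat_lit 78) (nat_lit 76) (nat_lit 0) (XT.lf (nat_lit 0) (nat_lit 147143918519) (nat_lit 76) (nat_lit 89731556947) (nat_lit 76) (nat_lit 9479734884) (nat_lit 7) (nat_lit 4) (nat_lit 8) (nat_lit 5) (nat_lit 8) (nat_lit 4) (nat_lit 368) (nat_lit 284) (nat_lit 128)) (XT.lf (nat_lit 0) (nat_lit 8996288646) (nat_lit 152) (nat_lit 61811322331) (nat_lit 76) (nat_lit 186740786301) (nat_lit 6) (nat_lit 5) (nat_lit 8) (nat_lit 5) (nat_lit 7) (nat_lit 4) (nat_lit 369) (nat_lit 284) (nat_lit 127))) (XT.nd (nat_lit 78) (nat_lit 76) (nat_lit 0) (XT.lf (nat_lit 0) (nat_lit 28076497158) (nat_lit 152) (nat_lit 22698696781)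 (nat_lit 76) (nat_lit 218518331527) (nat_lit 6) (nat_lit 5) (nat_lit 8) (nat_lit 5) (nat_lit 7) (nat_lit 4) (nat_lit 370) (nat_lit 284) (nat_lit 126)) (XT.nd (nat_lit 78) (nat_lit 0) (nat_lit 0) (XT.lf (nat_lit 0) (nat_lit 18975034966) (nat_lit 76) (nat_lit 29430948945) (nat_lit 152) (nat_lit 233205163184) (nat_lit 5) (nat_lit 5) (nat_lit 6) (nat_lit 5) (nat_lit 7) (nat_lit 4) (nat_lit 371) (nat_lit 284) (nat_lit 125)) (XT.lf (nat_lit 0) (nat_lit 63518685852) (nat_lit 76) (nat_lit 6616705504) (nat_lit 152) (nat_lit 224390086531) (nat_lit 5) (nat_lit 5) (nat_lit 6) (nat_lit 5) (nat_lit 7) (nat_lit 4) (nat_lit 372) (nat_lit 284) (nat_lit 124))))) (XT.nd (nat_lit 234) (nat_lit 0) (nat_lit 0) (XT.nd (nat_lit 78) (nat_lit 0) (nat_lit 0) (XT.lf (nat_lit 0) (nat_lit 93221034232) (nat_lit 152) (nat_lit 198068466956) (nat_lit 0) (nat_lit 16782536158) (nat_lit 5) (nat_lit 5) (nat_lit 7) (nat_lit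 4) (nat_lit 5) (nat_lit 4) (nat_lit 373) (nat_lit 284) (nat_lit 123)) (XT.nd (nat_lit 78) (nat_lit 0) (nat_lit 0) (XT.lf (nat_lit 0) (nat_lit 117568540676) (nat_lit 152) (nat_lit 163593374627) (nat_lit 0) (nat_lit 41128630767) (nat_lit 5) (nat_lit 5) (nat_lit 7) (nat_lit 4) (nat_lit 5) (nat_lit 4) (nat_lit 374) (nat_lit 284) (nat_lit 122)) (XT.lf (nat_lit 0) (nat_lit 143132575625) (nat_lit 152) (nat_lit 127396126182) (nat_lit 0) (nat_lit 66691321111) (nat_lit 5) (nat_lit 5) (nat_lit 7) (nat_lit 4) (nat_lit 5) (nat_lit 4) (nat_lit 375) (nat_lit 284) (nat_lit 121)))) (XT.nd (nat_lit 78) (nat_lit 0) (nat_lit 0) (XT.lf (nat_lit 0) (nat_lit 169974005829) (nat_lit 152) (nat_lit 89390537693) (nat_lit 0) (nat_lit 93531470738) (nat_lit 5) (nat_lit 5) (nat_lit 7) (nat_lit 4) (nat_lit 5) (nat_lit 4) (nat_lit 376) (nat_lit 284) (nat_lit 120)) (XT.nd (nat_lit 78) (nat_lit 0) (nat_lit 0) (XT.lf (nat_lit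 0) (nat_lit 198156739456) (nat_lit 152) (nat_lit 49486119665) (nat_lit 0) (nat_lit 121712984768) (nat_lit 5) (nat_lit 5) (nat_lit 7) (nat_lit 4) (nat_lit 5) (nat_lit 4) (nat_lit 377) (nat_lit 284) (nat_lit 119)) (XT.lf (nat_lit 0) (nat_lit 227747878251) (nat_lit 152) (nat_lit 7587861579) (nat_lit 0) (nat_lit 151302962043) (nat_lit 5) (nat_lit 5) (nat_lit 7) (nat_lit 4) (nat_lit 5) (nat_lit 4) (nat_lit 378) (nat_lit 284) (nat_lit 118))))))))
noncomputable def xc176 : XT := (XT.nd (nat_lit 34476) (nat_lit 0) (nat_lit 2660) (XT.nd (nat_lit 33696) (nat_lit 0) (nat_lit 5548) (XT.nd (nat_lit 33306) (nat_lit 0) (nat_lit 6536) (XT.nd (nat_lit 156) (nat_lit 0) (nat_lit 0) (XT.nd (nat_lit 78) (nat_lit 0) (nat_lit 0) (XT.lf (nat_lit 0) (nat_lit 37607674778) (nat_lit 76) (nat_lit 221797363728) (nat_lit 76) (nat_lit 145351341310) (nat_lit 4) (nat_lit 4) (nat_lit 5) (nat_lit 5) (nat_lit 5) (nat_lit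 4) (nat_lit 379) (nat_lit 284) (nat_lit 117)) (XT.lf (nat_lit 0) (nat_lit 85325127498) (nat_lit 76) (nat_lit 207447749680) (nat_lit 76) (nat_lit 131000673728) (nat_lit 4) (nat_lit 4) (nat_lit 5) (nat_lit 5) (nat_lit 5) (nat_lit 4) (nat_lit 380) (nat_lit 284) (nat_lit 116))) (XT.nd (nat_lit 78) (nat_lit 0) (nat_lit 0) (XT.lf (nat_lit 0) (nat_lit 135427220589) (nat_lit 76) (nat_lit 192381236047) (nat_lit 76) (nat_lit 115933156730) (nat_lit 4) (nat_lit 4) (nat_lit 5) (nat_lit 5) (nat_lit 5) (nat_lit 4) (nat_lit 381) (nat_lit 284) (nat_lit 115)) (XT.nd (nat_lit 78) (nat_lit 0) (nat_lit 0) (XT.lf (nat_lit 0) (nat_lit 188033244749) (nat_lit 76) (nat_lit 176561950178) (nat_lit 76) (nat_lit 100112915275) (nat_lit 4) (nat_lit 4) (nat_lit 5) (nat_lit 5) (nat_lit 5) (nat_lit 4) (nat_lit 382) (nat_lit 284) (nat_lit 114)) (XT.lf (nat_lit 0) (nat_lit 243268452417) (nat_lit 76) (nat_lit 159952227106)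 (nat_lit 76) (nat_lit 83502282121) (nat_lit 4) (nat_lit 4) (nat_lit 5) (nat_lit 5) (nat_lit 5) (nat_lit 4) (nat_lit 383) (nat_lit 284) (nat_lit 113))))) (XT.nd (nat_lit 156) (nat_lit 0) (nat_lit 0) (XT.nd (nat_lit 78) (nat_lit 0) (nat_lit 0) (XT.lf (nat_lit 0) (nat_lit 1790735403) (nat_lit 0) (nat_lit 1790735403) (nat_lit 684) (nat_lit 3454727200) (nat_lit 90) (nat_lit 5) (nat_lit 90) (nat_lit 3) (nat_lit 99) (nat_lit 3) (nat_lit 285) (nat_lit 285) (nat_lit 210)) (XT.lf (nat_lit 0) (nat_lit 7702644309) (nat_lit 684) (nat_lit 4144461444) (nat_lit 760) (nat_lit 2558424389) (nat_lit 90) (nat_lit 5) (nat_lit 99) (nat_lit 3) (nat_lit 100) (nat_lit 5) (nat_lit 286) (nat_lit 285) (nat_lit 209))) (XT.nd (nat_lit 78) (nat_lit 0) (nat_lit 76) (XT.lf (nat_lit 76) (nat_lit 2530148785) (nat_lit 0) (nat_lit 5817114989) (nat_lit 760) (nat_lit 6404201862) (nat_lit 91) (nat_lit 5) (nat_lit 90) (nat_lit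 5) (nat_lit 100) (nat_lit 5) (nat_lit 287) (nat_lit 285) (nat_lit 208)) (XT.nd (nat_lit 78) (nat_lit 0) (nat_lit 0) (XT.lf (nat_lit 0) (nat_lit 9084119072) (nat_lit 684) (nat_lit 5450396653) (nat_lit 760) (nat_lit 577221219) (nat_lit 91) (nat_lit 5) (nat_lit 100) (nat_lit 5) (nat_lit 101) (nat_lit 5) (nat_lit 288) (nat_lit 285) (nat_lit 207)) (XT.lf (nat_lit 76) (nat_lit 1603207704) (nat_lit 0) (nat_lit 8356559608) (nat_lit 760) (nat_lit 5525194405) (nat_lit 92) (nat_lit 5) (nat_lit 91) (nat_lit 5) (nat_lit 101) (nat_lit 5) (nat_lit 289) (nat_lit 285) (nat_lit 206)))))) (XT.nd (nat_lit 390) (nat_lit 1064) (nat_lit 0) (XT.nd (nat_lit 156) (nat_lit 0) (nat_lit 76) (XT.nd (nat_lit 78) (nat_lit 0) (nat_lit 76) (XT.lf (nat_lit 76) (nat_lit 9187096292) (nat_lit 0) (nat_lit 1766660644) (nat_lit 760) (nat_lit 4919398474) (nat_lit 92) (nat_lit 5) (nat_lit 91) (nat_lit 5) (nat_lit 101) (nat_lit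 5) (nat_lit 290) (nat_lit 285) (nat_lit 205)) (XT.lf (nat_lit 76) (nat_lit 802622748) (nat_lit 0) (nat_lit 11270993077) (nat_lit 760) (nat_lit 4203368404) (nat_lit 93) (nat_lit 5) (nat_lit 92) (nat_lit 5) (nat_lit 102) (nat_lit 5) (nat_lit 291) (nat_lit 285) (nat_lit 204))) (XT.nd (nat_lit 78) (nat_lit 0) (nat_lit 76) (XT.lf (nat_lit 76) (nat_lit 8856100386) (nat_lit 0) (nat_lit 4518898994) (nat_lit 760) (nat_lit 3319760839) (nat_lit 93) (nat_lit 5) (nat_lit 92) (nat_lit 5) (nat_lit 102) (nat_lit 5) (nat_lit 292) (nat_lit 285) (nat_lit 203)) (XT.nd (nat_lit 78) (nat_lit 0) (nat_lit 0) (XT.lf (nat_lit 76) (nat_lit 130727011) (nat_lit 0) (nat_lit 14637544908) (nat_lit 760) (nat_lit 2363842876) (nat_lit 94) (nat_lit 5) (nat_lit 93) (nat_lit 5) (nat_lit 103) (nat_lit 5) (nat_lit 293) (nat_lit 285) (nat_lit 202)) (XT.lf (nat_lit 76) (nat_lit 8682243363) (nat_lit 0) (nat_lit 7739787868) (nat_lit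 760) (nat_lit 1159794025) (nat_lit 94) (nat_lit 5) (nat_lit 93) (nat_lit 5) (nat_lit 103) (nat_lit 5) (nat_lit 294) (nat_lit 285) (nat_lit 201))))) (XT.nd (nat_lit 156) (nat_lit 456) (nat_lit 0) (XT.nd (nat_lit 78) (nat_lit 0) (nat_lit 76) (XT.lf (nat_lit 0) (nat_lit 86747276) (nat_lit 760) (nat_lit 406199777) (nat_lit 836) (nat_lit 17561737562) (nat_lit 83) (nat_lit 5) (nat_lit 93) (nat_lit 5) (nat_lit 94) (nat_lit 5) (nat_lit 295) (nat_lit 285) (nat_lit 200)) (XT.lf (nat_lit 0) (nat_lit 1593450710) (nat_lit 760) (nat_lit 9895842925) (nat_lit 76) (nat_lit 7049127391) (nat_lit 84) (nat_lit 5) (nat_lit 94) (nat_lit 5) (nat_lit 85) (nat_lit 5) (nat_lit 296) (nat_lit 285) (nat_lit 199))) (XT.nd (nat_lit 78) (nat_lit 532) (nat_lit 0) (XT.lf (nat_lit 0) (nat_lit 3177389826) (nat_lit 760) (nat_lit 908148431) (nat_lit 76) (nat_lit 14960735089) (nat_lit 84) (nat_lit 5) (nat_lit 94) (nat_lit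 5) (nat_lit 85) (nat_lit 5) (nat_lit 297) (nat_lit 285) (nat_lit 198)) (XT.nd (nat_lit 78) (nat_lit 0) (nat_lit 0) (XT.lf (nat_lit 0) (nat_lit 5025220093) (nat_lit 608) (nat_lit 10833882145) (nat_lit 76) (nat_lit 3711204301) (nat_lit 77) (nat_lit 5) (nat_lit 85) (nat_lit 5) (nat_lit 78) (nat_lit 5) (nat_lit 298) (nat_lit 285) (nat_lit 197)) (XT.lf (nat_lit 0) (nat_lit 7035944564) (nat_lit 608) (nat_lit 1303994707) (nat_lit 76) (nat_lit 11777098859) (nat_lit 77) (nat_lit 5) (nat_lit 85) (nat_lit 5) (nat_lit 78) (nat_lit 5) (nat_lit 299) (nat_lit 285) (nat_lit 196))))))) (XT.nd (nat_lit 780) (nat_lit 1216) (nat_lit 0) (XT.nd (nat_lit 390) (nat_lit 684) (nat_lit 0) (XT.nd (nat_lit 156) (nat_lit 608) (nat_lit 0) (XT.nd (nat_lit 78) (nat_lit 0) (nat_lit 0) (XT.lf (nat_lit 0) (nat_lit 8978567949) (nat_lit 380) (nat_lit 297288957) (nat_lit 456) (nat_lit 11408837645) (nat_lit 72) (nat_lit 5)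 (nat_lit 77) (nat_lit 5) (nat_lit 78) (nat_lit 5) (nat_lit 300) (nat_lit 285) (nat_lit 195)) (XT.lf (nat_lit 0) (nat_lit 11766266277) (nat_lit 456) (nat_lit 1598254942) (nat_lit 76) (nat_lit 7909307341) (nat_lit 72) (nat_lit 5) (nat_lit 78) (nat_lit 5) (nat_lit 73) (nat_lit 5) (nat_lit 301) (nat_lit 285) (nat_lit 194))) (XT.nd (nat_lit 78) (nat_lit 304) (nat_lit 0) (XT.lf (nat_lit 0) (nat_lit 9296650846) (nat_lit 304) (nat_lit 5223946954) (nat_lit 380) (nat_lit 7364870278) (nat_lit 68) (nat_lit 5) (nat_lit 72) (nat_lit 5) (nat_lit 73) (nat_lit 5) (nat_lit 302) (nat_lit 285) (nat_lit 193)) (XT.nd (nat_lit 78) (nat_lit 304) (nat_lit 0) (XT.lf (nat_lit 0) (nat_lit 17481756875) (nat_lit 380) (nat_lit 1798263663) (nat_lit 76) (nat_lit 3244231483) (nat_lit 68) (nat_lit 5) (nat_lit 73) (nat_lit 5) (nat_lit 69) (nat_lit 5) (nat_lit 303) (nat_lit 285) (nat_lit 192)) (XT.lf (nat_lit 0) (nat_lit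 9747314165) (nat_lit 304) (nat_lit 11071679619) (nat_lit 380) (nat_lit 2364597519) (nat_lit 64) (nat_lit 5) (nat_lit 68) (nat_lit 5) (nat_lit 69) (nat_lit 5) (nat_lit 304) (nat_lit 285) (nat_lit 191))))) (XT.nd (nat_lit 156) (nat_lit 304) (nat_lit 0) (XT.nd (nat_lit 78) (nat_lit 304) (nat_lit 0) (XT.lf (nat_lit 0) (nat_lit 454162860) (nat_lit 380) (nat_lit 1960253915) (nat_lit 76) (nat_lit 21460083176) (nat_lit 63) (nat_lit 5) (nat_lit 68) (nat_lit 5) (nat_lit 64) (nat_lit 5) (nat_lit 305) (nat_lit 285) (nat_lit 190)) (XT.lf (nat_lit 0) (nat_lit 3594620908) (nat_lit 380) (nat_lit 14325582591) (nat_lit 76) (nat_lit 6664815859) (nat_lit 59) (nat_lit 5) (nat_lit 64) (nat_lit 5) (nat_lit 60) (nat_lit 5) (nat_lit 306) (nat_lit 285) (nat_lit 189))) (XT.nd (nat_lit 78) (nat_lit 304) (nat_lit 0) (XT.lf (nat_lit 0) (nat_lit 6956468641) (nat_lit 380) (nat_lit 2222109084) (nat_lit 76) (nat_lit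 16149282773) (nat_lit 59) (nat_lit 5) (nat_lit 64) (nat_lit 5) (nat_lit 60) (nat_lit 5) (nat_lit 307) (nat_lit 285) (nat_lit 188)) (XT.nd (nat_lit 78) (nat_lit 0) (nat_lit 0) (XT.lf (nat_lit 0) (nat_lit 10649597390) (nat_lit 380) (nat_lit 15279883632) (nat_lit 76) (nat_lit 170216667) (nat_lit 55) (nat_lit 5) (nat_lit 60) (nat_lit 5) (nat_lit 56) (nat_lit 5) (nat_lit 308) (nat_lit 285) (nat_lit 187)) (XT.lf (nat_lit 0) (nat_lit 14707792056) (nat_lit 380) (nat_lit 2478819573) (nat_lit 76) (nat_lit 9714507427) (nat_lit 55) (nat_lit 5) (nat_lit 60) (nat_lit 5) (nat_lit 56) (nat_lit 5) (nat_lit 309) (nat_lit 285) (nat_lit 186)))))) (XT.nd (nat_lit 390) (nat_lit 456) (nat_lit 0) (XT.nd (nat_lit 156) (nat_lit 532) (nat_lit 0) (XT.nd (nat_lit 78) (nat_lit 0) (nat_lit 0) (XT.lf (nat_lit 0) (nat_lit 11314460601) (nat_lit 228) (nat_lit 7823173504) (nat_lit 304) (nat_lit 8596552682) (nat_lit 52)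 (nat_lit 5) (nat_lit 55) (nat_lit 5) (nat_lit 56) (nat_lit 5) (nat_lit 310) (nat_lit 285) (nat_lit 185)) (XT.lf (nat_lit 0) (nat_lit 23855271534) (nat_lit 304) (nat_lit 2765563244) (nat_lit 76) (nat_lit 1984769563) (nat_lit 52) (nat_lit 5) (nat_lit 56) (nat_lit 5) (nat_lit 53) (nat_lit 5) (nat_lit 311) (nat_lit 285) (nat_lit 184))) (XT.nd (nat_lit 78) (nat_lit 304) (nat_lit 0) (XT.lf (nat_lit 0) (nat_lit 11811409765) (nat_lit 228) (nat_lit 17302684497) (nat_lit 304) (nat_lit 391244388) (nat_lit 49) (nat_lit 5) (nat_lit 52) (nat_lit 5) (nat_lit 53) (nat_lit 5) (nat_lit 312) (nat_lit 285) (nat_lit 183)) (XT.nd (nat_lit 78) (nat_lit 228) (nat_lit 0) (XT.lf (nat_lit 0) (nat_lit 4092150139) (nat_lit 304) (nat_lit 3310374878) (nat_lit 76) (nat_lit 23042260904) (nat_lit 48) (nat_lit 5) (nat_lit 52) (nat_lit 5) (nat_lit 49) (nat_lit 5) (nat_lit 313) (nat_lit 285) (nat_lit 182)) (XT.lf (nat_lit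 0) (nat_lit 9019483050) (nat_lit 304) (nat_lit 19305634585) (nat_lit 76) (nat_lit 3094130921) (nat_lit 45) (nat_lit 5) (nat_lit 49) (nat_lit 5) (nat_lit 46) (nat_lit 5) (nat_lit 314) (nat_lit 285) (nat_lit 181))))) (XT.nd (nat_lit 156) (nat_lit 228) (nat_lit 0) (XT.nd (nat_lit 78) (nat_lit 228) (nat_lit 0) (XT.lf (nat_lit 0) (nat_lit 14364732742) (nat_lit 304) (nat_lit 4147647344) (nat_lit 76) (nat_lit 13921485817) (nat_lit 45) (nat_lit 5) (nat_lit 49) (nat_lit 5) (nat_lit 46) (nat_lit 5) (nat_lit 315) (nat_lit 285) (nat_lit 180)) (XT.lf (nat_lit 0) (nat_lit 12148027987) (nat_lit 228) (nat_lit 8012420173) (nat_lit 304) (nat_lit 13329614453) (nat_lit 42) (nat_lit 5) (nat_lit 45) (nat_lit 5) (nat_lit 46) (nat_lit 5) (nat_lit 316) (nat_lit 285) (nat_lit 179))) (XT.nd (nat_lit 78) (nat_lit 228) (nat_lit 0) (XT.lf (nat_lit 0) (nat_lit 26358044614) (nat_lit 304) (nat_lit 5250419647) (nat_lit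 76) (nat_lit 2985008377) (nat_lit 42) (nat_lit 5) (nat_lit 46) (nat_lit 5) (nat_lit 43) (nat_lit 5) (nat_lit 317) (nat_lit 285) (nat_lit 178)) (XT.nd (nat_lit 78) (nat_lit 76) (nat_lit 0) (XT.lf (nat_lit 0) (nat_lit 11886130603) (nat_lit 152) (nat_lit 21290285989) (nat_lit 228) (nat_lit 2560099639) (nat_lit 40) (nat_lit 5) (nat_lit 42) (nat_lit 5) (nat_lit 43) (nat_lit 5) (nat_lit 318) (nat_lit 285) (nat_lit 177)) (XT.lf (nat_lit 0) (nat_lit 3374600492) (nat_lit 228) (nat_lit 6933789440) (nat_lit 76) (nat_lit 26621456080) (nat_lit 39) (nat_lit 5) (nat_lit 42) (nat_lit 5) (nat_lit 40) (nat_lit 5) (nat_lit 319) (nat_lit 285) (nat_lit 176))))))))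
noncomputable def xc177 : XT := (XT.nd (nat_lit 1560) (nat_lit 760) (nat_lit 0) (XT.nd (nat_lit 780) (nat_lit 608) (nat_lit 0) (XT.nd (nat_lit 390) (nat_lit 380) (nat_lit 0) (XT.nd (nat_lit 156) (nat_lit 304) (nat_lit 0) (XT.nd (nat_lit 78) (nat_lit 0) (nat_lit 0) (XT.lf (nat_lit 0) (nat_lit 9710730557) (nat_lit 304) (nat_lit 27060251183) (nat_lit 76) (nat_lit 1400232328) (nat_lit 36) (nat_lit 5) (nat_lit 40) (nat_lit 5) (nat_lit 37) (nat_lit 5) (nat_lit 320) (nat_lit 285) (nat_lit 175)) (XT.lf (nat_lit 0) (nat_lit 16646413242) (nat_lit 304) (nat_lit 9349493562) (nat_lit 76) (nat_lit 13464612878) (nat_lit 36) (nat_lit 5) (nat_lit 40) (nat_lit 5) (nat_lit 37) (nat_lit 5) (nat_lit 321) (nat_lit 285) (nat_lit 174))) (XT.nd (nat_lit 78) (nat_lit 152) (nat_lit 0) (XT.lf (nat_lit 0) (nat_lit 9544202013) (nat_lit 152) (nat_lit 14528360268) (nat_lit 228) (nat_lit 16734550334) (nat_lit 34) (nat_lit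 5) (nat_lit 36) (nat_lit 5) (nat_lit 37) (nat_lit 5) (nat_lit 322) (nat_lit 285) (nat_lit 173)) (XT.nd (nat_lit 78) (nat_lit 152) (nat_lit 0) (XT.lf (nat_lit 0) (nat_lit 29699231902) (nat_lit 152) (nat_lit 2323925309) (nat_lit 228) (nat_lit 10190226921) (nat_lit 34) (nat_lit 5) (nat_lit 36) (nat_lit 5) (nat_lit 37) (nat_lit 5) (nat_lit 323) (nat_lit 285) (nat_lit 172)) (XT.lf (nat_lit 0) (nat_lit 7231943828) (nat_lit 152) (nat_lit 33411045737) (nat_lit 228) (nat_lit 3033399857) (nat_lit 32) (nat_lit 5) (nat_lit 34) (nat_lit 5) (nat_lit 35) (nat_lit 5) (nat_lit 324) (nat_lit 285) (nat_lit 171))))) (XT.nd (nat_lit 156) (nat_lit 152) (nat_lit 0) (XT.nd (nat_lit 78) (nat_lit 152) (nat_lit 0) (XT.lf (nat_lit 0) (nat_lit 4586384929) (nat_lit 228) (nat_lit 16921498612) (nat_lit 76) (nat_lit 23688740990) (nat_lit 31) (nat_lit 5) (nat_lit 34) (nat_lit 5) (nat_lit 32) (nat_lit 5) (nat_lit 325)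 (nat_lit 285) (nat_lit 170)) (XT.lf (nat_lit 0) (nat_lit 3636819766) (nat_lit 152) (nat_lit 8900454463) (nat_lit 228) (nat_lit 34250512722) (nat_lit 29) (nat_lit 5) (nat_lit 31) (nat_lit 5) (nat_lit 32) (nat_lit 5) (nat_lit 326) (nat_lit 285) (nat_lit 169))) (XT.nd (nat_lit 78) (nat_lit 152) (nat_lit 0) (XT.lf (nat_lit 0) (nat_lit 21240042378) (nat_lit 228) (nat_lit 22713586303) (nat_lit 76) (nat_lit 4487166684) (nat_lit 29) (nat_lit 5) (nat_lit 32) (nat_lit 5) (nat_lit 30) (nat_lit 5) (nat_lit 327) (nat_lit 285) (nat_lit 168)) (XT.nd (nat_lit 78) (nat_lit 152) (nat_lit 0) (XT.lf (nat_lit 0) (nat_lit 30519424267) (nat_lit 228) (nat_lit 1407409014) (nat_lit 76) (nat_lit 18242551521) (nat_lit 29) (nat_lit 5) (nat_lit 32) (nat_lit 5) (nat_lit 30) (nat_lit 5) (nat_lit 328) (nat_lit 285) (nat_lit 167)) (XT.lf (nat_lit 0) (nat_lit 21650196197) (nat_lit 152) (nat_lit 18946376667) (nat_lit 228)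 (nat_lit 11371145133) (nat_lit 27) (nat_lit 5) (nat_lit 29) (nat_lit 5) (nat_lit 30) (nat_lit 5) (nat_lit 329) (nat_lit 285) (nat_lit 166)))))) (XT.nd (nat_lit 390) (nat_lit 304) (nat_lit 0) (XT.nd (nat_lit 156) (nat_lit 152) (nat_lit 0) (XT.nd (nat_lit 78) (nat_lit 152) (nat_lit 0) (XT.lf (nat_lit 0) (nat_lit 45902831344) (nat_lit 152) (nat_lit 5294456353) (nat_lit 228) (nat_lit 2657698677) (nat_lit 27) (nat_lit 5) (nat_lit 29) (nat_lit 5) (nat_lit 30) (nat_lit 5) (nat_lit 330) (nat_lit 285) (nat_lit 165)) (XT.lf (nat_lit 0) (nat_lit 6675264747) (nat_lit 152) (nat_lit 40032580373) (nat_lit 76) (nat_lit 9104128654) (nat_lit 25) (nat_lit 5) (nat_lit 27) (nat_lit 5) (nat_lit 26) (nat_lit 5) (nat_lit 331) (nat_lit 285) (nat_lit 164))) (XT.nd (nat_lit 78) (nat_lit 152) (nat_lit 0) (XT.lf (nat_lit 0) (nat_lit 16605288853) (nat_lit 152) (nat_lit 17025630485) (nat_lit 76) (nat_lit 24222729759)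 (nat_lit 25) (nat_lit 5) (nat_lit 27) (nat_lit 5) (nat_lit 26) (nat_lit 5) (nat_lit 332) (nat_lit 285) (nat_lit 163)) (XT.nd (nat_lit 78) (nat_lit 0) (nat_lit 0) (XT.lf (nat_lit 0) (nat_lit 7360995403) (nat_lit 152) (nat_lit 19781985373) (nat_lit 228) (nat_lit 32848872341) (nat_lit 23) (nat_lit 5) (nat_lit 25) (nat_lit 5) (nat_lit 26) (nat_lit 5) (nat_lit 333) (nat_lit 285) (nat_lit 162)) (XT.lf (nat_lit 0) (nat_lit 33551875832) (nat_lit 152) (nat_lit 4940342304) (nat_lit 228) (nat_lit 23730519266) (nat_lit 23) (nat_lit 5) (nat_lit 25) (nat_lit 5) (nat_lit 26) (nat_lit 5) (nat_lit 334) (nat_lit 285) (nat_lit 161))))) (XT.nd (nat_lit 156) (nat_lit 228) (nat_lit 0) (XT.nd (nat_lit 78) (nat_lit 76) (nat_lit 0) (XT.lf (nat_lit 0) (nat_lit 50571551969) (nat_lit 228) (nat_lit 3685054109) (nat_lit 76) (nat_lit 10300431054) (nat_lit 23) (nat_lit 5) (nat_lit 26) (nat_lit 5) (nat_lit 24) (nat_lit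 4) (nat_lit 335) (nat_lit 285) (nat_lit 160)) (XT.lf (nat_lit 0) (nat_lit 23206064493) (nat_lit 76) (nat_lit 40488718984) (nat_lit 152) (nat_lit 3291274639) (nat_lit 22) (nat_lit 5) (nat_lit 23) (nat_lit 5) (nat_lit 24) (nat_lit 4) (nat_lit 336) (nat_lit 285) (nat_lit 159))) (XT.nd (nat_lit 78) (nat_lit 152) (nat_lit 0) (XT.lf (nat_lit 0) (nat_lit 7743669293) (nat_lit 152) (nat_lit 18094436006) (nat_lit 76) (nat_lit 43689227105) (nat_lit 21) (nat_lit 5) (nat_lit 23) (nat_lit 5) (nat_lit 22) (nat_lit 5) (nat_lit 337) (nat_lit 285) (nat_lit 158)) (XT.nd (nat_lit 78) (nat_lit 0) (nat_lit 0) (XT.lf (nat_lit 0) (nat_lit 9107463638) (nat_lit 152) (nat_lit 10251287006) (nat_lit 228) (nat_lit 52827274499) (nat_lit 19) (nat_lit 5) (nat_lit 21) (nat_lit 5) (nat_lit 22) (nat_lit 5) (nat_lit 338) (nat_lit 285) (nat_lit 157)) (XT.lf (nat_lit 0) (nat_lit 31958356244) (nat_lit 228) (nat_lit 36770679508)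 (nat_lit 76) (nat_lit 6228430576) (nat_lit 19) (nat_lit 5) (nat_lit 22) (nat_lit 5) (nat_lit 20) (nat_lit 4) (nat_lit 339) (nat_lit 285) (nat_lit 156))))))) (XT.nd (nat_lit 780) (nat_lit 380) (nat_lit 0) (XT.nd (nat_lit 390) (nat_lit 76) (nat_lit 0) (XT.nd (nat_lit 156) (nat_lit 228) (nat_lit 0) (XT.nd (nat_lit 78) (nat_lit 76) (nat_lit 0) (XT.lf (nat_lit 0) (nat_lit 45352984853) (nat_lit 228) (nat_lit 9320706104) (nat_lit 76) (nat_lit 23185538687) (nat_lit 19) (nat_lit 5) (nat_lit 22) (nat_lit 5) (nat_lit 20) (nat_lit 4) (nat_lit 340) (nat_lit 285) (nat_lit 155)) (XT.lf (nat_lit 0) (nat_lit 20141418274) (nat_lit 76) (nat_lit 39587522835) (nat_lit 152) (nat_lit 21161562309) (nat_lit 18) (nat_lit 5) (nat_lit 19) (nat_lit 5) (nat_lit 20) (nat_lit 4) (nat_lit 341) (nat_lit 285) (nat_lit 154))) (XT.nd (nat_lit 78) (nat_lit 228) (nat_lit 0) (XT.lf (nat_lit 0) (nat_lit 51395324502) (nat_lit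 76) (nat_lit 23583413348) (nat_lit 152) (nat_lit 9086852898) (nat_lit 18) (nat_lit 5) (nat_lit 19) (nat_lit 5) (nat_lit 20) (nat_lit 4) (nat_lit 342) (nat_lit 285) (nat_lit 153)) (XT.nd (nat_lit 78) (nat_lit 152) (nat_lit 0) (XT.lf (nat_lit 0) (nat_lit 3473918640) (nat_lit 152) (nat_lit 3248357009) (nat_lit 76) (nat_lit 80674490872) (nat_lit 17) (nat_lit 5) (nat_lit 19) (nat_lit 5) (nat_lit 18) (nat_lit 5) (nat_lit 343) (nat_lit 285) (nat_lit 152)) (XT.lf (nat_lit 0) (nat_lit 16979304812) (nat_lit 228) (nat_lit 62646037194) (nat_lit 76) (nat_lit 11230614871) (nat_lit 15) (nat_lit 5) (nat_lit 18) (nat_lit 5) (nat_lit 16) (nat_lit 4) (nat_lit 344) (nat_lit 285) (nat_lit 151))))) (XT.nd (nat_lit 156) (nat_lit 76) (nat_lit 0) (XT.nd (nat_lit 78) (nat_lit 0) (nat_lit 0) (XT.lf (nat_lit 0) (nat_lit 31323508657) (nat_lit 228) (nat_lit 33247146625) (nat_lit 76) (nat_lit 29909275697) (nat_lit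 15) (nat_lit 5) (nat_lit 18) (nat_lit 5) (nat_lit 16) (nat_lit 4) (nat_lit 345) (nat_lit 285) (nat_lit 150)) (XT.lf (nat_lit 0) (nat_lit 46382477726) (nat_lit 228) (nat_lit 2382666999) (nat_lit 76) (nat_lit 49520082880) (nat_lit 15) (nat_lit 5) (nat_lit 18) (nat_lit 5) (nat_lit 16) (nat_lit 4) (nat_lit 346) (nat_lit 285) (nat_lit 149))) (XT.nd (nat_lit 78) (nat_lit 0) (nat_lit 0) (XT.lf (nat_lit 0) (nat_lit 31013514691) (nat_lit 76) (nat_lit 31662759895) (nat_lit 152) (nat_lit 39580422004) (nat_lit 14) (nat_lit 5) (nat_lit 15) (nat_lit 5) (nat_lit 16) (nat_lit 4) (nat_lit 347) (nat_lit 285) (nat_lit 148)) (XT.nd (nat_lit 78) (nat_lit 0) (nat_lit 0) (XT.lf (nat_lit 0) (nat_lit 66158145121) (nat_lit 76) (nat_lit 13664686409) (nat_lit 152) (nat_lit 26602005405) (nat_lit 14) (nat_lit 5) (nat_lit 15) (nat_lit 5) (nat_lit 16) (nat_lit 4) (nat_lit 348) (nat_lit 285) (nat_lit 147)) (XT.lf (nat_lit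 0) (nat_lit 97906223156) (nat_lit 152) (nat_lit 7827053614) (nat_lit 0) (nat_lit 5064133541) (nat_lit 14) (nat_lit 5) (nat_lit 16) (nat_lit 4) (nat_lit 14) (nat_lit 4) (nat_lit 349) (nat_lit 285) (nat_lit 146)))))) (XT.nd (nat_lit 390) (nat_lit 152) (nat_lit 0) (XT.nd (nat_lit 156) (nat_lit 76) (nat_lit 0) (XT.nd (nat_lit 78) (nat_lit 0) (nat_lit 0) (XT.lf (nat_lit 0) (nat_lit 2108890876) (nat_lit 152) (nat_lit 88523883342) (nat_lit 76) (nat_lit 24722069681) (nat_lit 12) (nat_lit 5) (nat_lit 14) (nat_lit 5) (nat_lit 13) (nat_lit 4) (nat_lit 350) (nat_lit 285) (nat_lit 145)) (XT.lf (nat_lit 0) (nat_lit 17558384421) (nat_lit 152) (nat_lit 56857202551) (nat_lit 76) (nat_lit 45707364817) (nat_lit 12) (nat_lit 5) (nat_lit 14) (nat_lit 5) (nat_lit 13) (nat_lit 4) (nat_lit 351) (nat_lit 285) (nat_lit 144))) (XT.nd (nat_lit 78) (nat_lit 76) (nat_lit 0) (XT.lf (nat_lit 0) (nat_lit 33778364130)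 (nat_lit 152) (nat_lit 23610797460) (nat_lit 76) (nat_lit 67740404026) (nat_lit 12) (nat_lit 5) (nat_lit 14) (nat_lit 5) (nat_lit 13) (nat_lit 4) (nat_lit 352) (nat_lit 285) (nat_lit 143)) (XT.nd (nat_lit 78) (nat_lit 0) (nat_lit 0) (XT.lf (nat_lit 0) (nat_lit 11667936884) (nat_lit 76) (nat_lit 39321681309) (nat_lit 152) (nat_lit 79387879232) (nat_lit 11) (nat_lit 5) (nat_lit 12) (nat_lit 5) (nat_lit 13) (nat_lit 4) (nat_lit 353) (nat_lit 285) (nat_lit 142)) (XT.lf (nat_lit 0) (nat_lit 49526939121) (nat_lit 76) (nat_lit 19932499669) (nat_lit 152) (nat_lit 66408487856) (nat_lit 11) (nat_lit 5) (nat_lit 12) (nat_lit 5) (nat_lit 13) (nat_lit 4) (nat_lit 354) (nat_lit 285) (nat_lit 141))))) (XT.nd (nat_lit 156) (nat_lit 152) (nat_lit 0) (XT.nd (nat_lit 78) (nat_lit 0) (nat_lit 0) (XT.lf (nat_lit 0) (nat_lit 88857612936) (nat_lit 152) (nat_lit 52363927124) (nat_lit 0) (nat_lit 411095106)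 (nat_lit 11) (nat_lit 5) (nat_lit 13) (nat_lit 4) (nat_lit 11) (nat_lit 4) (nat_lit 355) (nat_lit 285) (nat_lit 140)) (XT.lf (nat_lit 0) (nat_lit 109550752614) (nat_lit 152) (nat_lit 17017907427) (nat_lit 0) (nat_lit 21100667146) (nat_lit 11) (nat_lit 5) (nat_lit 13) (nat_lit 4) (nat_lit 11) (nat_lit 4) (nat_lit 356) (nat_lit 285) (nat_lit 139))) (XT.nd (nat_lit 78) (nat_lit 76) (nat_lit 0) (XT.lf (nat_lit 0) (nat_lit 20756777439) (nat_lit 76) (nat_lit 110844219052) (nat_lit 76) (nat_lit 22390735833) (nat_lit 10) (nat_lit 4) (nat_lit 11) (nat_lit 5) (nat_lit 11) (nat_lit 4) (nat_lit 357) (nat_lit 285) (nat_lit 138)) (XT.nd (nat_lit 78) (nat_lit 76) (nat_lit 0) (XT.lf (nat_lit 0) (nat_lit 61008085649) (nat_lit 76) (nat_lit 94032280691) (nat_lit 76) (nat_lit 5575561519) (nat_lit 10) (nat_lit 4) (nat_lit 11) (nat_lit 5) (nat_lit 11) (nat_lit 4) (nat_lit 358) (nat_lit 285) (nat_lit 137))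 (XT.lf (nat_lit 0) (nat_lit 11692181670) (nat_lit 152) (nat_lit 64490828607) (nat_lit 76) (nat_lit 91378970352) (nat_lit 9) (nat_lit 5) (nat_lit 11) (nat_lit 5) (nat_lit 10) (nat_lit 4) (nat_lit 359) (nat_lit 285) (nat_lit 136))))))))
noncomputable def xc178 : XT := (XT.nd (nat_lit 1560) (nat_lit 76) (nat_lit 0) (XT.nd (nat_lit 780) (nat_lit 152) (nat_lit 0) (XT.nd (nat_lit 390) (nat_lit 76) (nat_lit 0) (XT.nd (nat_lit 156) (nat_lit 0) (nat_lit 0) (XT.nd (nat_lit 78) (nat_lit 76) (nat_lit 0) (XT.lf (nat_lit 0) (nat_lit 29634467536) (nat_lit 152) (nat_lit 27712077687) (nat_lit 76) (nat_lit 117504294854) (nat_lit 9) (nat_lit 5) (nat_lit 11) (nat_lit 5) (nat_lit 10) (nat_lit 4) (nat_lit 360) (nat_lit 285) (nat_lit 135)) (XT.lf (nat_lit 0) (nat_lit 11263532528) (nat_lit 76) (nat_lit 37384791375) (nat_lit 152) (nat_lit 133847096468) (nat_lit 8) (nat_lit 5) (nat_lit 9) (nat_lit 5) (nat_lit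 10) (nat_lit 4) (nat_lit 361) (nat_lit 285) (nat_lit 134))) (XT.nd (nat_lit 78) (nat_lit 0) (nat_lit 0) (XT.lf (nat_lit 0) (nat_lit 53147484022) (nat_lit 76) (nat_lit 15933334379) (nat_lit 152) (nat_lit 121418014666) (nat_lit 8) (nat_lit 5) (nat_lit 9) (nat_lit 5) (nat_lit 10) (nat_lit 4) (nat_lit 362) (nat_lit 285) (nat_lit 133)) (XT.nd (nat_lit 78) (nat_lit 0) (nat_lit 0) (XT.lf (nat_lit 0) (nat_lit 90636512692) (nat_lit 152) (nat_lit 101882150171) (nat_lit 0) (nat_lit 6378675402) (nat_lit 8) (nat_lit 5) (nat_lit 10) (nat_lit 4) (nat_lit 8) (nat_lit 4) (nat_lit 363) (nat_lit 285) (nat_lit 132)) (XT.lf (nat_lit 0) (nat_lit 113529932797) (nat_lit 152) (nat_lit 64903043687) (nat_lit 0) (nat_lit 29269795775) (nat_lit 8) (nat_lit 5) (nat_lit 10) (nat_lit 4) (nat_lit 8) (nat_lit 4) (nat_lit 364) (nat_lit 285) (nat_lit 131))))) (XT.nd (nat_lit 156) (nat_lit 0) (nat_lit 0) (XT.nd (nat_lit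 78) (nat_lit 76) (nat_lit 0) (XT.lf (nat_lit 0) (nat_lit 137566822856) (nat_lit 152) (nat_lit 26077220098) (nat_lit 0) (nat_lit 53304495614) (nat_lit 8) (nat_lit 5) (nat_lit 10) (nat_lit 4) (nat_lit 8) (nat_lit 4) (nat_lit 365) (nat_lit 285) (nat_lit 130)) (XT.lf (nat_lit 0) (nat_lit 15173406808) (nat_lit 76) (nat_lit 147867906156) (nat_lit 76) (nat_lit 63603492989) (nat_lit 7) (nat_lit 4) (nat_lit 8) (nat_lit 5) (nat_lit 8) (nat_lit 4) (nat_lit 366) (nat_lit 285) (nat_lit 129))) (XT.nd (nat_lit 78) (nat_lit 0) (nat_lit 0) (XT.lf (nat_lit 0) (nat_lit 59389810002) (nat_lit 76) (nat_lit 130840225783) (nat_lit 76) (nat_lit 46573826022) (nat_lit 7) (nat_lit 4) (nat_lit 8) (nat_lit 5) (nat_lit 8) (nat_lit 4) (nat_lit 367) (nat_lit 285) (nat_lit 128)) (XT.nd (nat_lit 78) (nat_lit 0) (nat_lit 0) (XT.lf (nat_lit 0) (nat_lit 105815035969) (nat_lit 76) (nat_lit 112962090081) (nat_lit 76) (nat_lit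 28693798326) (nat_lit 7) (nat_lit 4) (nat_lit 8) (nat_lit 5) (nat_lit 8) (nat_lit 4) (nat_lit 368) (nat_lit 285) (nat_lit 127)) (XT.lf (nat_lit 0) (nat_lit 154559620960) (nat_lit 76) (nat_lit 94190932061) (nat_lit 76) (nat_lit 9920838406) (nat_lit 7) (nat_lit 4) (nat_lit 8) (nat_lit 5) (nat_lit 8) (nat_lit 4) (nat_lit 369) (nat_lit 285) (nat_lit 126)))))) (XT.nd (nat_lit 390) (nat_lit 0) (nat_lit 0) (XT.nd (nat_lit 156) (nat_lit 76) (nat_lit 0) (XT.nd (nat_lit 78) (nat_lit 0) (nat_lit 0) (XT.lf (nat_lit 0) (nat_lit 9476418082) (nat_lit 152) (nat_lit 64845152680) (nat_lit 76) (nat_lit 196102717703) (nat_lit 6) (nat_lit 5) (nat_lit 8) (nat_lit 5) (nat_lit 7) (nat_lit 4) (nat_lit 370) (nat_lit 285) (nat_lit 125)) (XT.lf (nat_lit 0) (nat_lit 29509193448) (nat_lit 152) (nat_lit 23779597555) (nat_lit 76) (nat_lit 229467954853) (nat_lit 6) (nat_lit 5) (nat_lit 8) (nat_lit 5) (nat_lit 7) (nat_lit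 4) (nat_lit 371) (nat_lit 285) (nat_lit 124))) (XT.nd (nat_lit 78) (nat_lit 0) (nat_lit 0) (XT.lf (nat_lit 0) (nat_lit 19976949262) (nat_lit 76) (nat_lit 30877660463) (nat_lit 152) (nat_lit 244835666669) (nat_lit 5) (nat_lit 5) (nat_lit 6) (nat_lit 5) (nat_lit 7) (nat_lit 4) (nat_lit 372) (nat_lit 285) (nat_lit 123)) (XT.nd (nat_lit 78) (nat_lit 0) (nat_lit 0) (XT.lf (nat_lit 0) (nat_lit 66745251142) (nat_lit 76) (nat_lit 6923887513) (nat_lit 152) (nat_lit 235581253072) (nat_lit 5) (nat_lit 5) (nat_lit 6) (nat_lit 5) (nat_lit 7) (nat_lit 4) (nat_lit 373) (nat_lit 285) (nat_lit 122)) (XT.lf (nat_lit 0) (nat_lit 97908130730) (nat_lit 152) (nat_lit 207922726725) (nat_lit 0) (nat_lit 17643468884) (nat_lit 5) (nat_lit 5) (nat_lit 7) (nat_lit 4) (nat_lit 5) (nat_lit 4) (nat_lit 374) (nat_lit 285) (nat_lit 121))))) (XT.nd (nat_lit 156) (nat_lit 0) (nat_lit 0) (XT.nd (nat_lit 78) (nat_lit 0)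 (nat_lit 0) (XT.lf (nat_lit 0) (nat_lit 123471772268) (nat_lit 152) (nat_lit 171726220903) (nat_lit 0) (nat_lit 43205829846) (nat_lit 5) (nat_lit 5) (nat_lit 7) (nat_lit 4) (nat_lit 5) (nat_lit 4) (nat_lit 375) (nat_lit 285) (nat_lit 120)) (XT.lf (nat_lit 0) (nat_lit 150312827795) (nat_lit 152) (nat_lit 133721339675) (nat_lit 0) (nat_lit 70045665777) (nat_lit 5) (nat_lit 5) (nat_lit 7) (nat_lit 4) (nat_lit 5) (nat_lit 4) (nat_lit 376) (nat_lit 285) (nat_lit 119))) (XT.nd (nat_lit 78) (nat_lit 0) (nat_lit 0) (XT.lf (nat_lit 0) (nat_lit 178495204587) (nat_lit 152) (nat_lit 93817595230) (nat_lit 0) (nat_lit 98226881047) (nat_lit 5) (nat_lit 5) (nat_lit 7) (nat_lit 4) (nat_lit 5) (nat_lit 4) (nat_lit 377) (nat_lit 285) (nat_lit 118)) (XT.nd (nat_lit 78) (nat_lit 0) (nat_lit 0) (XT.lf (nat_lit 0) (nat_lit 208086003539) (nat_lit 152) (nat_lit 51919978651) (nat_lit 0) (nat_lit 127816573790)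 (nat_lit 5) (nat_lit 5) (nat_lit 7) (nat_lit 4) (nat_lit 5) (nat_lit 4) (nat_lit 378) (nat_lit 285) (nat_lit 117)) (XT.lf (nat_lit 0) (nat_lit 239155678936) (nat_lit 152) (nat_lit 7928733708) (nat_lit 0) (nat_lit 158885195653) (nat_lit 5) (nat_lit 5) (nat_lit 7) (nat_lit 4) (nat_lit 5) (nat_lit 4) (nat_lit 379) (nat_lit 285) (nat_lit 116))))))) (XT.nd (nat_lit 33774) (nat_lit 0) (nat_lit 5168) (XT.nd (nat_lit 33384) (nat_lit 0) (nat_lit 6536) (XT.nd (nat_lit 156) (nat_lit 0) (nat_lit 0) (XT.nd (nat_lit 78) (nat_lit 0) (nat_lit 0) (XT.lf (nat_lit 0) (nat_lit 39525958162) (nat_lit 76) (nat_lit 232869359010) (nat_lit 76) (nat_lit 152597872362) (nat_lit 4) (nat_lit 4) (nat_lit 5) (nat_lit 5) (nat_lit 5) (nat_lit 4) (nat_lit 380) (nat_lit 285) (nat_lit 115)) (XT.lf (nat_lit 0) (nat_lit 89627478772) (nat_lit 76) (nat_lit 217803115350) (nat_lit 76) (nat_lit 137530673116) (nat_lit 4) (nat_lit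 4) (nat_lit 5) (nat_lit 5) (nat_lit 5) (nat_lit 4) (nat_lit 381) (nat_lit 285) (nat_lit 114))) (XT.nd (nat_lit 78) (nat_lit 0) (nat_lit 0) (XT.lf (nat_lit 0) (nat_lit 142232957713) (nat_lit 76) (nat_lit 201984086598) (nat_lit 76) (nat_lit 121710734283) (nat_lit 4) (nat_lit 4) (nat_lit 5) (nat_lit 5) (nat_lit 5) (nat_lit 4) (nat_lit 382) (nat_lit 285) (nat_lit 113)) (XT.nd (nat_lit 33072) (nat_lit 0) (nat_lit 6536) (XT.lf (nat_lit 0) (nat_lit 197467646124) (nat_lit 76) (nat_lit 185374608400) (nat_lit 76) (nat_lit 105100389340) (nat_lit 4) (nat_lit 4) (nat_lit 5) (nat_lit 5) (nat_lit 5) (nat_lit 4) (nat_lit 383) (nat_lit 285) (nat_lit 112)) (XT.lf (nat_lit 0) (nat_lit 2037461210) (nat_lit 0) (nat_lit 2037461210) (nat_lit 684) (nat_lit 3296732327) (nat_lit 90) (nat_lit 5) (nat_lit 90) (nat_lit 3) (nat_lit 99) (nat_lit 3) (nat_lit 286) (nat_lit 286) (nat_lit 208))))) (XT.nd (nat_lit 156)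 (nat_lit 0) (nat_lit 76) (XT.nd (nat_lit 78) (nat_lit 0) (nat_lit 0) (XT.lf (nat_lit 0) (nat_lit 8681917308) (nat_lit 684) (nat_lit 4016453358) (nat_lit 760) (nat_lit 2396520835) (nat_lit 90) (nat_lit 5) (nat_lit 99) (nat_lit 3) (nat_lit 100) (nat_lit 5) (nat_lit 287) (nat_lit 286) (nat_lit 207)) (XT.lf (nat_lit 76) (nat_lit 2986480429) (nat_lit 0) (nat_lit 6349144380) (nat_lit 760) (nat_lit 6123713638) (nat_lit 91) (nat_lit 5) (nat_lit 90) (nat_lit 5) (nat_lit 100) (nat_lit 5) (nat_lit 288) (nat_lit 286) (nat_lit 206))) (XT.nd (nat_lit 78) (nat_lit 0) (nat_lit 0) (XT.lf (nat_lit 0) (nat_lit 10078546406) (nat_lit 684) (nat_lit 5376925940) (nat_lit 760) (nat_lit 383744586) (nat_lit 91) (nat_lit 5) (nat_lit 100) (nat_lit 5) (nat_lit 101) (nat_lit 5) (nat_lit 289) (nat_lit 286) (nat_lit 205)) (XT.nd (nat_lit 78) (nat_lit 0) (nat_lit 0) (XT.lf (nat_lit 76) (nat_lit 2023778142) (nat_lit 0)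 (nat_lit 8953788844) (nat_lit 760) (nat_lit 5254608642) (nat_lit 92) (nat_lit 5) (nat_lit 91) (nat_lit 5) (nat_lit 101) (nat_lit 5) (nat_lit 290) (nat_lit 286) (nat_lit 204)) (XT.lf (nat_lit 76) (nat_lit 9970651156) (nat_lit 0) (nat_lit 2025852014) (nat_lit 760) (nat_lit 4644563176) (nat_lit 92) (nat_lit 5) (nat_lit 91) (nat_lit 5) (nat_lit 101) (nat_lit 5) (nat_lit 291) (nat_lit 286) (nat_lit 203)))))) (XT.nd (nat_lit 390) (nat_lit 836) (nat_lit 0) (XT.nd (nat_lit 156) (nat_lit 684) (nat_lit 0) (XT.nd (nat_lit 78) (nat_lit 0) (nat_lit 0) (XT.lf (nat_lit 76) (nat_lit 1189681015) (nat_lit 0) (nat_lit 11961975735) (nat_lit 760) (nat_lit 3914512099) (nat_lit 93) (nat_lit 5) (nat_lit 92) (nat_lit 5) (nat_lit 102) (nat_lit 5) (nat_lit 292) (nat_lit 286) (nat_lit 202)) (XT.lf (nat_lit 76) (nat_lit 9629312196) (nat_lit 0) (nat_lit 4866208709) (nat_lit 760) (nat_lit 3010487238) (nat_lit 93)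 (nat_lit 5) (nat_lit 92) (nat_lit 5) (nat_lit 102) (nat_lit 5) (nat_lit 293) (nat_lit 286) (nat_lit 201))) (XT.nd (nat_lit 78) (nat_lit 760) (nat_lit 0) (XT.lf (nat_lit 76) (nat_lit 487316507) (nat_lit 0) (nat_lit 15453288330) (nat_lit 760) (nat_lit 2025561152) (nat_lit 94) (nat_lit 5) (nat_lit 93) (nat_lit 5) (nat_lit 103) (nat_lit 5) (nat_lit 294) (nat_lit 286) (nat_lit 200)) (XT.nd (nat_lit 78) (nat_lit 760) (nat_lit 0) (XT.lf (nat_lit 76) (nat_lit 9449739479) (nat_lit 0) (nat_lit 8206649811) (nat_lit 760) (nat_lit 783046708) (nat_lit 94) (nat_lit 5) (nat_lit 93) (nat_lit 5) (nat_lit 103) (nat_lit 5) (nat_lit 295) (nat_lit 286) (nat_lit 199)) (XT.lf (nat_lit 0) (nat_lit 491868181) (nat_lit 760) (nat_lit 95007856) (nat_lit 836) (nat_lit 18349761958) (nat_lit 83) (nat_lit 5) (nat_lit 93) (nat_lit 5) (nat_lit 94) (nat_lit 5) (nat_lit 296) (nat_lit 286) (nat_lit 198))))) (XT.nd (nat_lit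 156) (nat_lit 912) (nat_lit 0) (XT.nd (nat_lit 78) (nat_lit 0) (nat_lit 0) (XT.lf (nat_lit 0) (nat_lit 2058967358) (nat_lit 760) (nat_lit 10043487378) (nat_lit 76) (nat_lit 7342888780) (nat_lit 84) (nat_lit 5) (nat_lit 94) (nat_lit 5) (nat_lit 85) (nat_lit 5) (nat_lit 297) (nat_lit 286) (nat_lit 197)) (XT.lf (nat_lit 0) (nat_lit 3703729901) (nat_lit 760) (nat_lit 622939002) (nat_lit 76) (nat_lit 15652871863) (nat_lit 84) (nat_lit 5) (nat_lit 94) (nat_lit 5) (nat_lit 85) (nat_lit 5) (nat_lit 298) (nat_lit 286) (nat_lit 196))) (XT.nd (nat_lit 78) (nat_lit 380) (nat_lit 0) (XT.lf (nat_lit 0) (nat_lit 5631066947) (nat_lit 608) (nat_lit 11031433982) (nat_lit 76) (nat_lit 3867950960) (nat_lit 77) (nat_lit 5) (nat_lit 85) (nat_lit 5) (nat_lit 78) (nat_lit 5) (nat_lit 299) (nat_lit 286) (nat_lit 195)) (XT.nd (nat_lit 78) (nat_lit 380) (nat_lit 0) (XT.lf (nat_lit 0) (nat_lit 7725442601) (nat_lit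 608) (nat_lit 1041439899) (nat_lit 76) (nat_lit 12338512320) (nat_lit 77) (nat_lit 5) (nat_lit 85) (nat_lit 5) (nat_lit 78) (nat_lit 5) (nat_lit 300) (nat_lit 286) (nat_lit 194)) (XT.lf (nat_lit 0) (nat_lit 9749964526) (nat_lit 380) (nat_lit 316339675) (nat_lit 456) (nat_lit 11635711234) (nat_lit 72) (nat_lit 5) (nat_lit 77) (nat_lit 5) (nat_lit 78) (nat_lit 5) (nat_lit 301) (nat_lit 286) (nat_lit 193))))))))
noncomputable def xc179 : XT := (XT.nd (nat_lit 1560) (nat_lit 1368) (nat_lit 0) (XT.nd (nat_lit 780) (nat_lit 1216) (nat_lit 0) (XT.nd (nat_lit 390) (nat_lit 836) (nat_lit 0) (XT.nd (nat_lit 156) (nat_lit 380) (nat_lit 0) (XT.nd (nat_lit 78) (nat_lit 304) (nat_lit 0) (XT.lf (nat_lit 0) (nat_lit 12665616819) (nat_lit 456) (nat_lit 1354884468) (nat_lit 76) (nat_lit 8300913390) (nat_lit 72) (nat_lit 5) (nat_lit 78) (nat_lit 5) (nat_lit 73) (nat_lit 5) (nat_lit 302) (nat_lit 286) (nat_lit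 192)) (XT.lf (nat_lit 0) (nat_lit 10079552364) (nat_lit 304) (nat_lit 5468267207) (nat_lit 380) (nat_lit 7416335224) (nat_lit 68) (nat_lit 5) (nat_lit 72) (nat_lit 5) (nat_lit 73) (nat_lit 5) (nat_lit 303) (nat_lit 286) (nat_lit 191))) (XT.nd (nat_lit 78) (nat_lit 380) (nat_lit 0) (XT.lf (nat_lit 0) (nat_lit 18642945079) (nat_lit 380) (nat_lit 1570660499) (nat_lit 76) (nat_lit 3422002031) (nat_lit 68) (nat_lit 5) (nat_lit 73) (nat_lit 5) (nat_lit 69) (nat_lit 5) (nat_lit 304) (nat_lit 286) (nat_lit 190)) (XT.nd (nat_lit 78) (nat_lit 76) (nat_lit 0) (XT.lf (nat_lit 0) (nat_lit 10547074989) (nat_lit 304) (nat_lit 11591174762) (nat_lit 380) (nat_lit 2190127713) (nat_lit 64) (nat_lit 5) (nat_lit 68) (nat_lit 5) (nat_lit 69) (nat_lit 5) (nat_lit 305) (nat_lit 286) (nat_lit 189)) (XT.lf (nat_lit 0) (nat_lit 746710493) (nat_lit 380) (nat_lit 1751391700) (nat_lit 76) (nat_lit 22556197140) (nat_lit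 63) (nat_lit 5) (nat_lit 68) (nat_lit 5) (nat_lit 64) (nat_lit 5) (nat_lit 306) (nat_lit 286) (nat_lit 188))))) (XT.nd (nat_lit 156) (nat_lit 532) (nat_lit 0) (XT.nd (nat_lit 78) (nat_lit 0) (nat_lit 0) (XT.lf (nat_lit 0) (nat_lit 4036683814) (nat_lit 380) (nat_lit 14727066188) (nat_lit 76) (nat_lit 7036990741) (nat_lit 59) (nat_lit 5) (nat_lit 64) (nat_lit 5) (nat_lit 60) (nat_lit 5) (nat_lit 307) (nat_lit 286) (nat_lit 187)) (XT.lf (nat_lit 0) (nat_lit 7554131939) (nat_lit 380) (nat_lit 2033409269) (nat_lit 76) (nat_lit 16993826996) (nat_lit 59) (nat_lit 5) (nat_lit 64) (nat_lit 5) (nat_lit 60) (nat_lit 5) (nat_lit 308) (nat_lit 286) (nat_lit 186))) (XT.nd (nat_lit 78) (nat_lit 228) (nat_lit 0) (XT.lf (nat_lit 0) (nat_lit 11425443743) (nat_lit 380) (nat_lit 15737224565) (nat_lit 76) (nat_lit 229471347) (nat_lit 55) (nat_lit 5) (nat_lit 60) (nat_lit 5) (nat_lit 56) (nat_lit 5) (nat_lit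 309) (nat_lit 286) (nat_lit 185)) (XT.nd (nat_lit 78) (nat_lit 228) (nat_lit 0) (XT.lf (nat_lit 0) (nat_lit 15674959262) (nat_lit 380) (nat_lit 2310709839) (nat_lit 76) (nat_lit 10248560270) (nat_lit 55) (nat_lit 5) (nat_lit 60) (nat_lit 5) (nat_lit 56) (nat_lit 5) (nat_lit 310) (nat_lit 286) (nat_lit 184)) (XT.lf (nat_lit 0) (nat_lit 12167523848) (nat_lit 228) (nat_lit 8152218722) (nat_lit 304) (nat_lit 8789552449) (nat_lit 52) (nat_lit 5) (nat_lit 55) (nat_lit 5) (nat_lit 56) (nat_lit 5) (nat_lit 311) (nat_lit 286) (nat_lit 183)))))) (XT.nd (nat_lit 390) (nat_lit 684) (nat_lit 0) (XT.nd (nat_lit 156) (nat_lit 304) (nat_lit 0) (XT.nd (nat_lit 78) (nat_lit 228) (nat_lit 0) (XT.lf (nat_lit 0) (nat_lit 25263460373) (nat_lit 304) (nat_lit 2620058968) (nat_lit 76) (nat_lit 2141270364) (nat_lit 52) (nat_lit 5) (nat_lit 56) (nat_lit 5) (nat_lit 53) (nat_lit 5) (nat_lit 312) (nat_lit 286) (nat_lit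 182)) (XT.lf (nat_lit 0) (nat_lit 12681185554) (nat_lit 228) (nat_lit 18098139513) (nat_lit 304) (nat_lit 190496028) (nat_lit 49) (nat_lit 5) (nat_lit 52) (nat_lit 5) (nat_lit 53) (nat_lit 5) (nat_lit 313) (nat_lit 286) (nat_lit 181))) (XT.nd (nat_lit 78) (nat_lit 228) (nat_lit 0) (XT.lf (nat_lit 0) (nat_lit 4499861707) (nat_lit 304) (nat_lit 3202988744) (nat_lit 76) (nat_lit 24253740034) (nat_lit 48) (nat_lit 5) (nat_lit 52) (nat_lit 5) (nat_lit 49) (nat_lit 5) (nat_lit 314) (nat_lit 286) (nat_lit 180)) (XT.nd (nat_lit 78) (nat_lit 0) (nat_lit 0) (XT.lf (nat_lit 0) (nat_lit 9669188343) (nat_lit 304) (nat_lit 19993372299) (nat_lit 76) (nat_lit 3317447566) (nat_lit 45) (nat_lit 5) (nat_lit 49) (nat_lit 5) (nat_lit 46) (nat_lit 5) (nat_lit 315) (nat_lit 286) (nat_lit 179)) (XT.lf (nat_lit 0) (nat_lit 15272237132) (nat_lit 304) (nat_lit 4090702078) (nat_lit 76) (nat_lit 14682903060) (nat_lit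 45) (nat_lit 5) (nat_lit 49) (nat_lit 5) (nat_lit 46) (nat_lit 5) (nat_lit 316) (nat_lit 286) (nat_lit 178))))) (XT.nd (nat_lit 156) (nat_lit 456) (nat_lit 0) (XT.nd (nat_lit 78) (nat_lit 0) (nat_lit 0) (XT.lf (nat_lit 0) (nat_lit 13015493671) (nat_lit 228) (nat_lit 8337292232) (nat_lit 304) (nat_lit 13802322606) (nat_lit 42) (nat_lit 5) (nat_lit 45) (nat_lit 5) (nat_lit 46) (nat_lit 5) (nat_lit 317) (nat_lit 286) (nat_lit 177)) (XT.lf (nat_lit 0) (nat_lit 27852611596) (nat_lit 304) (nat_lit 5257379804) (nat_lit 76) (nat_lit 3204091662) (nat_lit 42) (nat_lit 5) (nat_lit 46) (nat_lit 5) (nat_lit 43) (nat_lit 5) (nat_lit 318) (nat_lit 286) (nat_lit 176))) (XT.nd (nat_lit 78) (nat_lit 304) (nat_lit 0) (XT.lf (nat_lit 0) (nat_lit 12731876009) (nat_lit 152) (nat_lit 22275539222) (nat_lit 228) (nat_lit 2507098902) (nat_lit 40) (nat_lit 5) (nat_lit 42) (nat_lit 5) (nat_lit 43) (nat_lit 5) (nat_lit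 319) (nat_lit 286) (nat_lit 175)) (XT.nd (nat_lit 78) (nat_lit 228) (nat_lit 0) (XT.lf (nat_lit 0) (nat_lit 3710199474) (nat_lit 228) (nat_lit 7035297218) (nat_lit 76) (nat_lit 28022299516) (nat_lit 39) (nat_lit 5) (nat_lit 42) (nat_lit 5) (nat_lit 40) (nat_lit 5) (nat_lit 320) (nat_lit 286) (nat_lit 174)) (XT.lf (nat_lit 0) (nat_lit 10360182333) (nat_lit 304) (nat_lit 28164939143) (nat_lit 76) (nat_lit 1546268337) (nat_lit 36) (nat_lit 5) (nat_lit 40) (nat_lit 5) (nat_lit 37) (nat_lit 5) (nat_lit 321) (nat_lit 286) (nat_lit 173))))))) (XT.nd (nat_lit 780) (nat_lit 684) (nat_lit 0) (XT.nd (nat_lit 390) (nat_lit 304) (nat_lit 0) (XT.nd (nat_lit 156) (nat_lit 228) (nat_lit 0) (XT.nd (nat_lit 78) (nat_lit 152) (nat_lit 0) (XT.lf (nat_lit 0) (nat_lit 17634843664) (nat_lit 304) (nat_lit 9580468622) (nat_lit 76) (nat_lit 14210247704) (nat_lit 36) (nat_lit 5) (nat_lit 40) (nat_lit 5) (nat_lit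 37) (nat_lit 5) (nat_lit 322) (nat_lit 286) (nat_lit 172)) (XT.lf (nat_lit 0) (nat_lit 10254097222) (nat_lit 152) (nat_lit 15174402002) (nat_lit 228) (nat_lit 17411181975) (nat_lit 34) (nat_lit 5) (nat_lit 36) (nat_lit 5) (nat_lit 37) (nat_lit 5) (nat_lit 323) (nat_lit 286) (nat_lit 171))) (XT.nd (nat_lit 78) (nat_lit 228) (nat_lit 0) (XT.lf (nat_lit 0) (nat_lit 31405798362) (nat_lit 152) (nat_lit 2363572737) (nat_lit 228) (nat_lit 10547266004) (nat_lit 34) (nat_lit 5) (nat_lit 36) (nat_lit 5) (nat_lit 37) (nat_lit 5) (nat_lit 324) (nat_lit 286) (nat_lit 170)) (XT.nd (nat_lit 78) (nat_lit 76) (nat_lit 0) (XT.lf (nat_lit 0) (nat_lit 7817692366) (nat_lit 152) (nat_lit 35000233135) (nat_lit 228) (nat_lit 3034988417) (nat_lit 32) (nat_lit 5) (nat_lit 34) (nat_lit 5) (nat_lit 35) (nat_lit 5) (nat_lit 325) (nat_lit 286) (nat_lit 169)) (XT.lf (nat_lit 0) (nat_lit 4954064071) (nat_lit 228) (nat_lit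 17549380085) (nat_lit 76) (nat_lit 24945952425) (nat_lit 31) (nat_lit 5) (nat_lit 34) (nat_lit 5) (nat_lit 32) (nat_lit 5) (nat_lit 326) (nat_lit 286) (nat_lit 168))))) (XT.nd (nat_lit 156) (nat_lit 152) (nat_lit 0) (XT.nd (nat_lit 78) (nat_lit 0) (nat_lit 0) (XT.lf (nat_lit 0) (nat_lit 4033334963) (nat_lit 152) (nat_lit 9265925973) (nat_lit 228) (nat_lit 35821024755) (nat_lit 29) (nat_lit 5) (nat_lit 31) (nat_lit 5) (nat_lit 32) (nat_lit 5) (nat_lit 327) (nat_lit 286) (nat_lit 167)) (XT.lf (nat_lit 0) (nat_lit 22431915937) (nat_lit 228) (nat_lit 23639434381) (nat_lit 76) (nat_lit 4784863187) (nat_lit 29) (nat_lit 5) (nat_lit 32) (nat_lit 5) (nat_lit 30) (nat_lit 5) (nat_lit 328) (nat_lit 286) (nat_lit 166))) (XT.nd (nat_lit 78) (nat_lit 152) (nat_lit 0) (XT.lf (nat_lit 0) (nat_lit 32169082567) (nat_lit 228) (nat_lit 1277940192) (nat_lit 76) (nat_lit 19224524973) (nat_lit 29) (nat_lit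 5) (nat_lit 32) (nat_lit 5) (nat_lit 30) (nat_lit 5) (nat_lit 329) (nat_lit 286) (nat_lit 165)) (XT.nd (nat_lit 78) (nat_lit 0) (nat_lit 0) (XT.lf (nat_lit 0) (nat_lit 22929322066) (nat_lit 152) (nat_lit 19817946394) (nat_lit 228) (nat_lit 11812675939) (nat_lit 27) (nat_lit 5) (nat_lit 29) (nat_lit 5) (nat_lit 30) (nat_lit 5) (nat_lit 330) (nat_lit 286) (nat_lit 164)) (XT.lf (nat_lit 0) (nat_lit 48385226301) (nat_lit 152) (nat_lit 5487037164) (nat_lit 228) (nat_lit 2669606040) (nat_lit 27) (nat_lit 5) (nat_lit 29) (nat_lit 5) (nat_lit 30) (nat_lit 5) (nat_lit 331) (nat_lit 286) (nat_lit 163)))))) (XT.nd (nat_lit 390) (nat_lit 380) (nat_lit 0) (XT.nd (nat_lit 156) (nat_lit 152) (nat_lit 0) (XT.nd (nat_lit 78) (nat_lit 0) (nat_lit 0) (XT.lf (nat_lit 0) (nat_lit 7124644906) (nat_lit 152) (nat_lit 41841389665) (nat_lit 76) (nat_lit 9630656710) (nat_lit 25) (nat_lit 5) (nat_lit 27) (nat_lit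 5) (nat_lit 26) (nat_lit 5) (nat_lit 332) (nat_lit 286) (nat_lit 162)) (XT.lf (nat_lit 0) (nat_lit 17545664649) (nat_lit 152) (nat_lit 17693274175) (nat_lit 76) (nat_lit 25501791603) (nat_lit 25) (nat_lit 5) (nat_lit 27) (nat_lit 5) (nat_lit 26) (nat_lit 5) (nat_lit 333) (nat_lit 286) (nat_lit 161))) (XT.nd (nat_lit 78) (nat_lit 0) (nat_lit 0) (XT.lf (nat_lit 0) (nat_lit 7909721106) (nat_lit 152) (nat_lit 20698097522) (nat_lit 228) (nat_lit 34378151697) (nat_lit 23) (nat_lit 5) (nat_lit 25) (nat_lit 5) (nat_lit 26) (nat_lit 5) (nat_lit 334) (nat_lit 286) (nat_lit 160)) (XT.nd (nat_lit 78) (nat_lit 0) (nat_lit 0) (XT.lf (nat_lit 0) (nat_lit 35401541941) (nat_lit 152) (nat_lit 5117847877) (nat_lit 228) (nat_lit 24809269743) (nat_lit 23) (nat_lit 5) (nat_lit 25) (nat_lit 5) (nat_lit 26) (nat_lit 5) (nat_lit 335) (nat_lit 286) (nat_lit 159)) (XT.lf (nat_lit 0) (nat_lit 53198840086) (nat_lit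 228) (nat_lit 3701495615) (nat_lit 76) (nat_lit 10879535216) (nat_lit 23) (nat_lit 5) (nat_lit 26) (nat_lit 5) (nat_lit 24) (nat_lit 4) (nat_lit 336) (nat_lit 286) (nat_lit 158))))) (XT.nd (nat_lit 234) (nat_lit 76) (nat_lit 0) (XT.nd (nat_lit 78) (nat_lit 228) (nat_lit 0) (XT.lf (nat_lit 0) (nat_lit 24531472285) (nat_lit 76) (nat_lit 42444638129) (nat_lit 152) (nat_lit 3354342605) (nat_lit 22) (nat_lit 5) (nat_lit 23) (nat_lit 5) (nat_lit 24) (nat_lit 4) (nat_lit 337) (nat_lit 286) (nat_lit 157)) (XT.nd (nat_lit 78) (nat_lit 152) (nat_lit 0) (XT.lf (nat_lit 0) (nat_lit 8224421584) (nat_lit 152) (nat_lit 18838750247) (nat_lit 76) (nat_lit 45935777446) (nat_lit 21) (nat_lit 5) (nat_lit 23) (nat_lit 5) (nat_lit 22) (nat_lit 5) (nat_lit 338) (nat_lit 286) (nat_lit 156)) (XT.lf (nat_lit 0) (nat_lit 9720657160) (nat_lit 152) (nat_lit 10697608202) (nat_lit 228) (nat_lit 55372414268) (nat_lit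 19) (nat_lit 5) (nat_lit 21) (nat_lit 5) (nat_lit 22) (nat_lit 5) (nat_lit 339) (nat_lit 286) (nat_lit 155)))) (XT.nd (nat_lit 78) (nat_lit 76) (nat_lit 0) (XT.lf (nat_lit 0) (nat_lit 33644475416) (nat_lit 228) (nat_lit 38455467894) (nat_lit 76) (nat_lit 6600921590) (nat_lit 19) (nat_lit 5) (nat_lit 22) (nat_lit 5) (nat_lit 20) (nat_lit 4) (nat_lit 340) (nat_lit 286) (nat_lit 154)) (XT.nd (nat_lit 78) (nat_lit 76) (nat_lit 0) (XT.lf (nat_lit 0) (nat_lit 47704635390) (nat_lit 228) (nat_lit 9640317038) (nat_lit 76) (nat_lit 24402977036) (nat_lit 19) (nat_lit 5) (nat_lit 22) (nat_lit 5) (nat_lit 20) (nat_lit 4) (nat_lit 341) (nat_lit 286) (nat_lit 153)) (XT.lf (nat_lit 0) (nat_lit 21292551875) (nat_lit 76) (nat_lit 41505086744) (nat_lit 152) (nat_lit 22133218783) (nat_lit 18) (nat_lit 5) (nat_lit 19) (nat_lit 5) (nat_lit 20) (nat_lit 4) (nat_lit 342) (nat_lit 286) (nat_lit 152))))))))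
noncomputable def xc180 : XT := (XT.nd (nat_lit 1560) (nat_lit 304) (nat_lit 0) (XT.nd (nat_lit 780) (nat_lit 304) (nat_lit 0) (XT.nd (nat_lit 390) (nat_lit 228) (nat_lit 0) (XT.nd (nat_lit 156) (nat_lit 152) (nat_lit 0) (XT.nd (nat_lit 78) (nat_lit 76) (nat_lit 0) (XT.lf (nat_lit 0) (nat_lit 54102293287) (nat_lit 76) (nat_lit 24703715223) (nat_lit 152) (nat_lit 9458889218) (nat_lit 18) (nat_lit 5) (nat_lit 19) (nat_lit 5) (nat_lit 20) (nat_lit 4) (nat_lit 343) (nat_lit 286) (nat_lit 151)) (XT.lf (nat_lit 0) (nat_lit 3723492675) (nat_lit 152) (nat_lit 3277546207) (nat_lit 76) (nat_lit 84761721384) (nat_lit 17) (nat_lit 5) (nat_lit 19) (nat_lit 5) (nat_lit 18) (nat_lit 5) (nat_lit 344) (nat_lit 286) (nat_lit 150))) (XT.nd (nat_lit 78) (nat_lit 0) (nat_lit 0) (XT.lf (nat_lit 0) (nat_lit 17903467750) (nat_lit 228) (nat_lit 65644381732) (nat_lit 76) (nat_lit 11847097090) (nat_lit 15) (nat_lit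 5) (nat_lit 18) (nat_lit 5) (nat_lit 16) (nat_lit 4) (nat_lit 345) (nat_lit 286) (nat_lit 149)) (XT.nd (nat_lit 78) (nat_lit 0) (nat_lit 0) (XT.lf (nat_lit 0) (nat_lit 32961300945) (nat_lit 228) (nat_lit 34781925555) (nat_lit 76) (nat_lit 31457074221) (nat_lit 15) (nat_lit 5) (nat_lit 18) (nat_lit 5) (nat_lit 16) (nat_lit 4) (nat_lit 346) (nat_lit 286) (nat_lit 148)) (XT.lf (nat_lit 0) (nat_lit 48769808141) (nat_lit 228) (nat_lit 2380297110) (nat_lit 76) (nat_lit 52045929633) (nat_lit 15) (nat_lit 5) (nat_lit 18) (nat_lit 5) (nat_lit 16) (nat_lit 4) (nat_lit 347) (nat_lit 286) (nat_lit 147))))) (XT.nd (nat_lit 156) (nat_lit 152) (nat_lit 0) (XT.nd (nat_lit 78) (nat_lit 0) (nat_lit 0) (XT.lf (nat_lit 0) (nat_lit 32683733936) (nat_lit 76) (nat_lit 33193179387) (nat_lit 152) (nat_lit 41489235155) (nat_lit 14) (nat_lit 5) (nat_lit 15) (nat_lit 5) (nat_lit 16) (nat_lit 4) (nat_lit 348) (nat_lit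 286) (nat_lit 146)) (XT.lf (nat_lit 0) (nat_lit 69579903339) (nat_lit 76) (nat_lit 14297712633) (nat_lit 152) (nat_lit 27865240961) (nat_lit 14) (nat_lit 5) (nat_lit 15) (nat_lit 5) (nat_lit 16) (nat_lit 4) (nat_lit 349) (nat_lit 286) (nat_lit 145))) (XT.nd (nat_lit 78) (nat_lit 152) (nat_lit 0) (XT.lf (nat_lit 0) (nat_lit 102862893127) (nat_lit 152) (nat_lit 8107654941) (nat_lit 0) (nat_lit 5363627003) (nat_lit 14) (nat_lit 5) (nat_lit 16) (nat_lit 4) (nat_lit 14) (nat_lit 4) (nat_lit 350) (nat_lit 286) (nat_lit 144)) (XT.nd (nat_lit 78) (nat_lit 0) (nat_lit 0) (XT.lf (nat_lit 0) (nat_lit 2275494368) (nat_lit 152) (nat_lit 92839055977) (nat_lit 76) (nat_lit 26004943502) (nat_lit 12) (nat_lit 5) (nat_lit 14) (nat_lit 5) (nat_lit 13) (nat_lit 4) (nat_lit 351) (nat_lit 286) (nat_lit 143)) (XT.lf (nat_lit 0) (nat_lit 18494550260) (nat_lit 152) (nat_lit 59594327886) (nat_lit 76) (nat_lit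 48037276236) (nat_lit 12) (nat_lit 5) (nat_lit 14) (nat_lit 5) (nat_lit 13) (nat_lit 4) (nat_lit 352) (nat_lit 286) (nat_lit 142)))))) (XT.nd (nat_lit 390) (nat_lit 228) (nat_lit 0) (XT.nd (nat_lit 156) (nat_lit 0) (nat_lit 0) (XT.nd (nat_lit 78) (nat_lit 76) (nat_lit 0) (XT.lf (nat_lit 0) (nat_lit 35522755305) (nat_lit 152) (nat_lit 24690637530) (nat_lit 76) (nat_lit 71169846301) (nat_lit 12) (nat_lit 5) (nat_lit 14) (nat_lit 5) (nat_lit 13) (nat_lit 4) (nat_lit 353) (nat_lit 286) (nat_lit 141)) (XT.lf (nat_lit 0) (nat_lit 12350409341) (nat_lit 76) (nat_lit 41243068009) (nat_lit 152) (nat_lit 83300146405) (nat_lit 11) (nat_lit 5) (nat_lit 12) (nat_lit 5) (nat_lit 13) (nat_lit 4) (nat_lit 354) (nat_lit 286) (nat_lit 140))) (XT.nd (nat_lit 78) (nat_lit 0) (nat_lit 0) (XT.lf (nat_lit 0) (nat_lit 52097643803) (nat_lit 76) (nat_lit 20886555734) (nat_lit 152) (nat_lit 69674505783) (nat_lit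 11) (nat_lit 5) (nat_lit 12) (nat_lit 5) (nat_lit 13) (nat_lit 4) (nat_lit 355) (nat_lit 286) (nat_lit 139)) (XT.nd (nat_lit 78) (nat_lit 0) (nat_lit 0) (XT.lf (nat_lit 0) (nat_lit 93350449228) (nat_lit 152) (nat_lit 54890398942) (nat_lit 0) (nat_lit 470894097) (nat_lit 11) (nat_lit 5) (nat_lit 13) (nat_lit 4) (nat_lit 11) (nat_lit 4) (nat_lit 356) (nat_lit 286) (nat_lit 138)) (XT.lf (nat_lit 0) (nat_lit 115075867050) (nat_lit 152) (nat_lit 17781446096) (nat_lit 0) (nat_lit 22193075966) (nat_lit 11) (nat_lit 5) (nat_lit 13) (nat_lit 4) (nat_lit 11) (nat_lit 4) (nat_lit 357) (nat_lit 286) (nat_lit 137))))) (XT.nd (nat_lit 156) (nat_lit 152) (nat_lit 0) (XT.nd (nat_lit 78) (nat_lit 0) (nat_lit 0) (XT.lf (nat_lit 0) (nat_lit 21880564034) (nat_lit 76) (nat_lit 116347135408) (nat_lit 76) (nat_lit 23461262465) (nat_lit 10) (nat_lit 4) (nat_lit 11) (nat_lit 5) (nat_lit 11) (nat_lit 4) (nat_lit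 358) (nat_lit 286) (nat_lit 136)) (XT.lf (nat_lit 0) (nat_lit 64140344906) (nat_lit 76) (nat_lit 98696471301) (nat_lit 76) (nat_lit 5807663252) (nat_lit 10) (nat_lit 4) (nat_lit 11) (nat_lit 5) (nat_lit 11) (nat_lit 4) (nat_lit 359) (nat_lit 286) (nat_lit 135))) (XT.nd (nat_lit 78) (nat_lit 76) (nat_lit 0) (XT.lf (nat_lit 0) (nat_lit 12319821618) (nat_lit 152) (nat_lit 67635969067) (nat_lit 76) (nat_lit 95982116375) (nat_lit 9) (nat_lit 5) (nat_lit 11) (nat_lit 5) (nat_lit 10) (nat_lit 4) (nat_lit 360) (nat_lit 286) (nat_lit 134)) (XT.nd (nat_lit 78) (nat_lit 76) (nat_lit 0) (XT.lf (nat_lit 0) (nat_lit 31157172689) (nat_lit 152) (nat_lit 29022061600) (nat_lit 76) (nat_lit 123412078650) (nat_lit 9) (nat_lit 5) (nat_lit 11) (nat_lit 5) (nat_lit 10) (nat_lit 4) (nat_lit 361) (nat_lit 286) (nat_lit 133)) (XT.lf (nat_lit 0) (nat_lit 11901109449) (nat_lit 76) (nat_lit 39219822509) (nat_lit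 152) (nat_lit 140497230740) (nat_lit 8) (nat_lit 5) (nat_lit 9) (nat_lit 5) (nat_lit 10) (nat_lit 4) (nat_lit 362) (nat_lit 286) (nat_lit 132))))))) (XT.nd (nat_lit 780) (nat_lit 152) (nat_lit 0) (XT.nd (nat_lit 390) (nat_lit 76) (nat_lit 0) (XT.nd (nat_lit 156) (nat_lit 76) (nat_lit 0) (XT.nd (nat_lit 78) (nat_lit 0) (nat_lit 0) (XT.lf (nat_lit 0) (nat_lit 55875715647) (nat_lit 76) (nat_lit 16697421636) (nat_lit 152) (nat_lit 127448705350) (nat_lit 8) (nat_lit 5) (nat_lit 9) (nat_lit 5) (nat_lit 10) (nat_lit 4) (nat_lit 363) (nat_lit 286) (nat_lit 131)) (XT.lf (nat_lit 0) (nat_lit 95205277963) (nat_lit 152) (nat_lit 106907418770) (nat_lit 0) (nat_lit 6727644139) (nat_lit 8) (nat_lit 5) (nat_lit 10) (nat_lit 4) (nat_lit 8) (nat_lit 4) (nat_lit 364) (nat_lit 286) (nat_lit 130))) (XT.nd (nat_lit 78) (nat_lit 76) (nat_lit 0) (XT.lf (nat_lit 0) (nat_lit 119241610043) (nat_lit 152) (nat_lit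 68082635005) (nat_lit 0) (nat_lit 30761890295) (nat_lit 8) (nat_lit 5) (nat_lit 10) (nat_lit 4) (nat_lit 8) (nat_lit 4) (nat_lit 365) (nat_lit 286) (nat_lit 129)) (XT.nd (nat_lit 78) (nat_lit 76) (nat_lit 0) (XT.lf (nat_lit 0) (nat_lit 144478669339) (nat_lit 152) (nat_lit 27318642183) (nat_lit 0) (nat_lit 55996962996) (nat_lit 8) (nat_lit 5) (nat_lit 10) (nat_lit 4) (nat_lit 8) (nat_lit 4) (nat_lit 366) (nat_lit 286) (nat_lit 128)) (XT.lf (nat_lit 0) (nat_lit 15993508989) (nat_lit 76) (nat_lit 155232738593) (nat_lit 76) (nat_lit 66749140255) (nat_lit 7) (nat_lit 4) (nat_lit 8) (nat_lit 5) (nat_lit 8) (nat_lit 4) (nat_lit 367) (nat_lit 286) (nat_lit 127))))) (XT.nd (nat_lit 156) (nat_lit 76) (nat_lit 0) (XT.nd (nat_lit 78) (nat_lit 0) (nat_lit 0) (XT.lf (nat_lit 0) (nat_lit 62417807017) (nat_lit 76) (nat_lit 137355034338) (nat_lit 76) (nat_lit 48869634101) (nat_lit 7) (nat_lit 4) (nat_lit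 8) (nat_lit 5) (nat_lit 8) (nat_lit 4) (nat_lit 368) (nat_lit 286) (nat_lit 126)) (XT.lf (nat_lit 0) (nat_lit 111161508258) (nat_lit 76) (nat_lit 118584287220) (nat_lit 76) (nat_lit 30097170887) (nat_lit 7) (nat_lit 4) (nat_lit 8) (nat_lit 5) (nat_lit 8) (nat_lit 4) (nat_lit 369) (nat_lit 286) (nat_lit 125))) (XT.nd (nat_lit 78) (nat_lit 76) (nat_lit 0) (XT.lf (nat_lit 0) (nat_lit 162340669142) (nat_lit 76) (nat_lit 98875804983) (nat_lit 76) (nat_lit 10387054274) (nat_lit 7) (nat_lit 4) (nat_lit 8) (nat_lit 5) (nat_lit 8) (nat_lit 4) (nat_lit 370) (nat_lit 286) (nat_lit 124)) (XT.nd (nat_lit 78) (nat_lit 0) (nat_lit 0) (XT.lf (nat_lit 0) (nat_lit 9977735589) (nat_lit 152) (nat_lit 68035949299) (nat_lit 76) (nat_lit 205930431445) (nat_lit 6) (nat_lit 5) (nat_lit 8) (nat_lit 5) (nat_lit 7) (nat_lit 4) (nat_lit 371) (nat_lit 286) (nat_lit 123)) (XT.lf (nat_lit 0) (nat_lit 31010840361) (nat_lit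 152) (nat_lit 24919566943) (nat_lit 76) (nat_lit 240962855317) (nat_lit 6) (nat_lit 5) (nat_lit 8) (nat_lit 5) (nat_lit 7) (nat_lit 4) (nat_lit 372) (nat_lit 286) (nat_lit 122)))))) (XT.nd (nat_lit 390) (nat_lit 76) (nat_lit 0) (XT.nd (nat_lit 156) (nat_lit 0) (nat_lit 0) (XT.nd (nat_lit 78) (nat_lit 0) (nat_lit 0) (XT.lf (nat_lit 0) (nat_lit 21024016723) (nat_lit 76) (nat_lit 32399016566) (nat_lit 152) (nat_lit 257050461635) (nat_lit 5) (nat_lit 5) (nat_lit 6) (nat_lit 5) (nat_lit 7) (nat_lit 4) (nat_lit 373) (nat_lit 286) (nat_lit 121)) (XT.lf (nat_lit 0) (nat_lit 70128437507) (nat_lit 76) (nat_lit 7248627679) (nat_lit 152) (nat_lit 247334612519) (nat_lit 5) (nat_lit 5) (nat_lit 6) (nat_lit 5) (nat_lit 7) (nat_lit 4) (nat_lit 374) (nat_lit 286) (nat_lit 120))) (XT.nd (nat_lit 78) (nat_lit 0) (nat_lit 0) (XT.lf (nat_lit 0) (nat_lit 102827160655) (nat_lit 152) (nat_lit 218274270246)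 (nat_lit 0) (nat_lit 18545420939) (nat_lit 5) (nat_lit 5) (nat_lit 7) (nat_lit 4) (nat_lit 5) (nat_lit 4) (nat_lit 375) (nat_lit 286) (nat_lit 119)) (XT.nd (nat_lit 78) (nat_lit 0) (nat_lit 0) (XT.lf (nat_lit 0) (nat_lit 129667859347) (nat_lit 152) (nat_lit 180270062600) (nat_lit 0) (nat_lit 45384958110) (nat_lit 5) (nat_lit 5) (nat_lit 7) (nat_lit 4) (nat_lit 5) (nat_lit 4) (nat_lit 376) (nat_lit 286) (nat_lit 118)) (XT.lf (nat_lit 0) (nat_lit 157849896295) (nat_lit 152) (nat_lit 140366959661) (nat_lit 0) (nat_lit 73565888848) (nat_lit 5) (nat_lit 5) (nat_lit 7) (nat_lit 4) (nat_lit 5) (nat_lit 4) (nat_lit 377) (nat_lit 286) (nat_lit 117))))) (XT.nd (nat_lit 156) (nat_lit 76) (nat_lit 0) (XT.nd (nat_lit 78) (nat_lit 0) (nat_lit 0) (XT.lf (nat_lit 0) (nat_lit 187440371587) (nat_lit 152) (nat_lit 98469954041) (nat_lit 0) (nat_lit 103155310607) (nat_lit 5) (nat_lit 5) (nat_lit 7) (nat_lit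 4) (nat_lit 5) (nat_lit 4) (nat_lit 378) (nat_lit 286) (nat_lit 116)) (XT.lf (nat_lit 0) (nat_lit 218509738736) (nat_lit 152) (nat_lit 54479290964) (nat_lit 0) (nat_lit 134223674391) (nat_lit 5) (nat_lit 5) (nat_lit 7) (nat_lit 4) (nat_lit 5) (nat_lit 4) (nat_lit 379) (nat_lit 286) (nat_lit 115))) (XT.nd (nat_lit 78) (nat_lit 76) (nat_lit 0) (XT.lf (nat_lit 0) (nat_lit 251131972426) (nat_lit 152) (nat_lit 8290230756) (nat_lit 0) (nat_lit 166844952494) (nat_lit 5) (nat_lit 5) (nat_lit 7) (nat_lit 4) (nat_lit 5) (nat_lit 4) (nat_lit 380) (nat_lit 286) (nat_lit 114)) (XT.nd (nat_lit 78) (nat_lit 0) (nat_lit 0) (XT.lf (nat_lit 0) (nat_lit 41536632165) (nat_lit 76) (nat_lit 244496615709) (nat_lit 76) (nat_lit 160208685696) (nat_lit 4) (nat_lit 4) (nat_lit 5) (nat_lit 5) (nat_lit 5) (nat_lit 4) (nat_lit 381) (nat_lit 286) (nat_lit 113)) (XT.lf (nat_lit 0) (nat_lit 94141591849) (nat_lit 76)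 (nat_lit 228677831831) (nat_lit 76) (nat_lit 144389035073) (nat_lit 4) (nat_lit 4) (nat_lit 5) (nat_lit 5) (nat_lit 5) (nat_lit 4) (nat_lit 382) (nat_lit 286) (nat_lit 112))))))))
noncomputable def xc181 : XT := (XT.nd (nat_lit 1560) (nat_lit 2432) (nat_lit 0) (XT.nd (nat_lit 780) (nat_lit 1976) (nat_lit 0) (XT.nd (nat_lit 390) (nat_lit 0) (nat_lit 76) (XT.nd (nat_lit 156) (nat_lit 0) (nat_lit 0) (XT.nd (nat_lit 78) (nat_lit 0) (nat_lit 0) (XT.lf (nat_lit 0) (nat_lit 2281909360) (nat_lit 0) (nat_lit 2281909360) (nat_lit 684) (nat_lit 3161585965) (nat_lit 90) (nat_lit 5) (nat_lit 90) (nat_lit 3) (nat_lit 99) (nat_lit 3) (nat_lit 287) (nat_lit 287) (nat_lit 206)) (XT.lf (nat_lit 0) (nat_lit 9654916379) (nat_lit 684) (nat_lit 3913211483) (nat_lit 760) (nat_lit 2253467264) (nat_lit 90) (nat_lit 5) (nat_lit 99) (nat_lit 3) (nat_lit 100) (nat_lit 5) (nat_lit 288) (nat_lit 287) (nat_lit 205)))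 (XT.nd (nat_lit 78) (nat_lit 0) (nat_lit 76) (XT.lf (nat_lit 76) (nat_lit 3434964726) (nat_lit 0) (nat_lit 6885353202) (nat_lit 760) (nat_lit 5885048238) (nat_lit 91) (nat_lit 5) (nat_lit 90) (nat_lit 5) (nat_lit 100) (nat_lit 5) (nat_lit 289) (nat_lit 287) (nat_lit 204)) (XT.nd (nat_lit 78) (nat_lit 0) (nat_lit 0) (XT.lf (nat_lit 0) (nat_lit 11072470443) (nat_lit 684) (nat_lit 5331948614) (nat_lit 760) (nat_lit 201264973) (nat_lit 91) (nat_lit 5) (nat_lit 100) (nat_lit 5) (nat_lit 101) (nat_lit 5) (nat_lit 290) (nat_lit 287) (nat_lit 203)) (XT.lf (nat_lit 76) (nat_lit 2433729002) (nat_lit 0) (nat_lit 9564200514) (nat_lit 760) (nat_lit 5021334102) (nat_lit 92) (nat_lit 5) (nat_lit 91) (nat_lit 5) (nat_lit 101) (nat_lit 5) (nat_lit 291) (nat_lit 287) (nat_lit 202))))) (XT.nd (nat_lit 156) (nat_lit 0) (nat_lit 76) (XT.nd (nat_lit 78) (nat_lit 0) (nat_lit 76) (XT.lf (nat_lit 76) (nat_lit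 10763242716) (nat_lit 0) (nat_lit 2282118165) (nat_lit 760) (nat_lit 4404405647) (nat_lit 92) (nat_lit 5) (nat_lit 91) (nat_lit 5) (nat_lit 101) (nat_lit 5) (nat_lit 292) (nat_lit 287) (nat_lit 201)) (XT.lf (nat_lit 76) (nat_lit 1563838200) (nat_lit 0) (nat_lit 12675660013) (nat_lit 760) (nat_lit 3657607567) (nat_lit 93) (nat_lit 5) (nat_lit 92) (nat_lit 5) (nat_lit 102) (nat_lit 5) (nat_lit 293) (nat_lit 287) (nat_lit 200))) (XT.nd (nat_lit 78) (nat_lit 0) (nat_lit 76) (XT.lf (nat_lit 76) (nat_lit 10410466505) (nat_lit 0) (nat_lit 5219600565) (nat_lit 760) (nat_lit 2729935279) (nat_lit 93) (nat_lit 5) (nat_lit 92) (nat_lit 5) (nat_lit 102) (nat_lit 5) (nat_lit 294) (nat_lit 287) (nat_lit 199)) (XT.nd (nat_lit 78) (nat_lit 0) (nat_lit 0) (XT.lf (nat_lit 76) (nat_lit 829190854) (nat_lit 0) (nat_lit 16302021842) (nat_lit 760) (nat_lit 1712803954) (nat_lit 94) (nat_lit 5) (nat_lit 93) (nat_lit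 5) (nat_lit 103) (nat_lit 5) (nat_lit 295) (nat_lit 287) (nat_lit 198)) (XT.lf (nat_lit 76) (nat_lit 10224615521) (nat_lit 0) (nat_lit 8689429058) (nat_lit 760) (nat_lit 427879754) (nat_lit 94) (nat_lit 5) (nat_lit 93) (nat_lit 5) (nat_lit 103) (nat_lit 5) (nat_lit 296) (nat_lit 287) (nat_lit 197)))))) (XT.nd (nat_lit 390) (nat_lit 988) (nat_lit 0) (XT.nd (nat_lit 156) (nat_lit 456) (nat_lit 0) (XT.nd (nat_lit 78) (nat_lit 0) (nat_lit 76) (XT.lf (nat_lit 76) (nat_lit 207567200) (nat_lit 0) (nat_lit 675657581) (nat_lit 836) (nat_lit 18981234235) (nat_lit 84) (nat_lit 5) (nat_lit 83) (nat_lit 5) (nat_lit 94) (nat_lit 5) (nat_lit 297) (nat_lit 287) (nat_lit 196)) (XT.lf (nat_lit 0) (nat_lit 2511887710) (nat_lit 760) (nat_lit 10230788556) (nat_lit 76) (nat_lit 7656795142) (nat_lit 84) (nat_lit 5) (nat_lit 94) (nat_lit 5) (nat_lit 85) (nat_lit 5) (nat_lit 298) (nat_lit 287) (nat_lit 195)))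 (XT.nd (nat_lit 78) (nat_lit 532) (nat_lit 0) (XT.lf (nat_lit 0) (nat_lit 4222223047) (nat_lit 760) (nat_lit 354206722) (nat_lit 76) (nat_lit 16384812525) (nat_lit 84) (nat_lit 5) (nat_lit 94) (nat_lit 5) (nat_lit 85) (nat_lit 5) (nat_lit 299) (nat_lit 287) (nat_lit 194)) (XT.nd (nat_lit 78) (nat_lit 0) (nat_lit 0) (XT.lf (nat_lit 0) (nat_lit 6234240112) (nat_lit 608) (nat_lit 11270858497) (nat_lit 76) (nat_lit 4035213763) (nat_lit 77) (nat_lit 5) (nat_lit 85) (nat_lit 5) (nat_lit 78) (nat_lit 5) (nat_lit 300) (nat_lit 287) (nat_lit 193)) (XT.lf (nat_lit 0) (nat_lit 8418019319) (nat_lit 608) (nat_lit 796228862) (nat_lit 76) (nat_lit 12930547702) (nat_lit 77) (nat_lit 5) (nat_lit 85) (nat_lit 5) (nat_lit 78) (nat_lit 5) (nat_lit 301) (nat_lit 287) (nat_lit 192))))) (XT.nd (nat_lit 156) (nat_lit 608) (nat_lit 0) (XT.nd (nat_lit 78) (nat_lit 0) (nat_lit 0) (XT.lf (nat_lit 0) (nat_lit 10529950897)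 (nat_lit 380) (nat_lit 335953729) (nat_lit 456) (nat_lit 11905870226) (nat_lit 72) (nat_lit 5) (nat_lit 77) (nat_lit 5) (nat_lit 78) (nat_lit 5) (nat_lit 302) (nat_lit 287) (nat_lit 191)) (XT.lf (nat_lit 0) (nat_lit 13581017596) (nat_lit 456) (nat_lit 1129401280) (nat_lit 76) (nat_lit 8712458545) (nat_lit 72) (nat_lit 5) (nat_lit 78) (nat_lit 5) (nat_lit 73) (nat_lit 5) (nat_lit 303) (nat_lit 287) (nat_lit 190))) (XT.nd (nat_lit 78) (nat_lit 304) (nat_lit 0) (XT.lf (nat_lit 0) (nat_lit 10872027919) (nat_lit 304) (nat_lit 5726372544) (nat_lit 380) (nat_lit 7499824486) (nat_lit 68) (nat_lit 5) (nat_lit 72) (nat_lit 5) (nat_lit 73) (nat_lit 5) (nat_lit 304) (nat_lit 287) (nat_lit 189)) (XT.nd (nat_lit 78) (nat_lit 304) (nat_lit 0) (XT.lf (nat_lit 0) (nat_lit 19835500824) (nat_lit 380) (nat_lit 1361196837) (nat_lit 76) (nat_lit 3607214581) (nat_lit 68) (nat_lit 5) (nat_lit 73) (nat_lit 5)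 (nat_lit 69) (nat_lit 5) (nat_lit 305) (nat_lit 287) (nat_lit 188)) (XT.lf (nat_lit 0) (nat_lit 11357780317) (nat_lit 304) (nat_lit 12139813920) (nat_lit 380) (nat_lit 2034146859) (nat_lit 64) (nat_lit 5) (nat_lit 68) (nat_lit 5) (nat_lit 69) (nat_lit 5) (nat_lit 306) (nat_lit 287) (nat_lit 187))))))) (XT.nd (nat_lit 780) (nat_lit 988) (nat_lit 0) (XT.nd (nat_lit 390) (nat_lit 760) (nat_lit 0) (XT.nd (nat_lit 156) (nat_lit 304) (nat_lit 0) (XT.nd (nat_lit 78) (nat_lit 304) (nat_lit 0) (XT.lf (nat_lit 0) (nat_lit 1028798389) (nat_lit 380) (nat_lit 1560616694) (nat_lit 76) (nat_lit 23704968272) (nat_lit 63) (nat_lit 5) (nat_lit 68) (nat_lit 5) (nat_lit 64) (nat_lit 5) (nat_lit 307) (nat_lit 287) (nat_lit 186)) (XT.lf (nat_lit 0) (nat_lit 4476460734) (nat_lit 380) (nat_lit 15177890669) (nat_lit 76) (nat_lit 7424154644) (nat_lit 59) (nat_lit 5) (nat_lit 64) (nat_lit 5) (nat_lit 60) (nat_lit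 5) (nat_lit 308) (nat_lit 287) (nat_lit 185))) (XT.nd (nat_lit 78) (nat_lit 304) (nat_lit 0) (XT.lf (nat_lit 0) (nat_lit 8158450660) (nat_lit 380) (nat_lit 1863147515) (nat_lit 76) (nat_lit 17877151075) (nat_lit 59) (nat_lit 5) (nat_lit 64) (nat_lit 5) (nat_lit 60) (nat_lit 5) (nat_lit 309) (nat_lit 287) (nat_lit 184)) (XT.nd (nat_lit 78) (nat_lit 0) (nat_lit 0) (XT.lf (nat_lit 0) (nat_lit 12217456504) (nat_lit 380) (nat_lit 16245942257) (nat_lit 76) (nat_lit 286971079) (nat_lit 55) (nat_lit 5) (nat_lit 60) (nat_lit 5) (nat_lit 56) (nat_lit 5) (nat_lit 310) (nat_lit 287) (nat_lit 183)) (XT.lf (nat_lit 0) (nat_lit 16668936343) (nat_lit 380) (nat_lit 2161346725) (nat_lit 76) (nat_lit 10804822726) (nat_lit 55) (nat_lit 5) (nat_lit 60) (nat_lit 5) (nat_lit 56) (nat_lit 5) (nat_lit 311) (nat_lit 287) (nat_lit 182))))) (XT.nd (nat_lit 156) (nat_lit 532) (nat_lit 0) (XT.nd (nat_lit 78) (nat_lit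 0) (nat_lit 0) (XT.lf (nat_lit 0) (nat_lit 13036526088) (nat_lit 228) (nat_lit 8503490921) (nat_lit 304) (nat_lit 9014220215) (nat_lit 52) (nat_lit 5) (nat_lit 55) (nat_lit 5) (nat_lit 56) (nat_lit 5) (nat_lit 312) (nat_lit 287) (nat_lit 181)) (XT.lf (nat_lit 0) (nat_lit 26722030455) (nat_lit 304) (nat_lit 2493662881) (nat_lit 76) (nat_lit 2300272497) (nat_lit 52) (nat_lit 5) (nat_lit 56) (nat_lit 5) (nat_lit 53) (nat_lit 5) (nat_lit 313) (nat_lit 287) (nat_lit 180))) (XT.nd (nat_lit 78) (nat_lit 304) (nat_lit 0) (XT.lf (nat_lit 0) (nat_lit 13568492271) (nat_lit 228) (nat_lit 18939845393) (nat_lit 304) (nat_lit 192640) (nat_lit 49) (nat_lit 5) (nat_lit 52) (nat_lit 5) (nat_lit 53) (nat_lit 5) (nat_lit 314) (nat_lit 287) (nat_lit 179)) (XT.nd (nat_lit 78) (nat_lit 228) (nat_lit 0) (XT.lf (nat_lit 0) (nat_lit 4909076163) (nat_lit 304) (nat_lit 3115605413) (nat_lit 76) (nat_lit 25520273824)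 (nat_lit 48) (nat_lit 5) (nat_lit 52) (nat_lit 5) (nat_lit 49) (nat_lit 5) (nat_lit 315) (nat_lit 287) (nat_lit 178)) (XT.lf (nat_lit 0) (nat_lit 10332902763) (nat_lit 304) (nat_lit 20741300310) (nat_lit 76) (nat_lit 3545551327) (nat_lit 45) (nat_lit 5) (nat_lit 49) (nat_lit 5) (nat_lit 46) (nat_lit 5) (nat_lit 316) (nat_lit 287) (nat_lit 177)))))) (XT.nd (nat_lit 390) (nat_lit 532) (nat_lit 0) (XT.nd (nat_lit 156) (nat_lit 228) (nat_lit 0) (XT.nd (nat_lit 78) (nat_lit 228) (nat_lit 0) (XT.lf (nat_lit 0) (nat_lit 16207520420) (nat_lit 304) (nat_lit 4055484225) (nat_lit 76) (nat_lit 15476316197) (nat_lit 45) (nat_lit 5) (nat_lit 49) (nat_lit 5) (nat_lit 46) (nat_lit 5) (nat_lit 317) (nat_lit 287) (nat_lit 176)) (XT.lf (nat_lit 0) (nat_lit 13902154328) (nat_lit 228) (nat_lit 8685450313) (nat_lit 304) (nat_lit 14316681303) (nat_lit 42) (nat_lit 5) (nat_lit 45) (nat_lit 5) (nat_lit 46) (nat_lit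 5) (nat_lit 318) (nat_lit 287) (nat_lit 175))) (XT.nd (nat_lit 78) (nat_lit 228) (nat_lit 0) (XT.lf (nat_lit 0) (nat_lit 29405482314) (nat_lit 304) (nat_lit 5288447593) (nat_lit 76) (nat_lit 3427636714) (nat_lit 42) (nat_lit 5) (nat_lit 46) (nat_lit 5) (nat_lit 43) (nat_lit 5) (nat_lit 319) (nat_lit 287) (nat_lit 174)) (XT.nd (nat_lit 78) (nat_lit 76) (nat_lit 0) (XT.lf (nat_lit 0) (nat_lit 13596532282) (nat_lit 152) (nat_lit 23317424060) (nat_lit 228) (nat_lit 2468276325) (nat_lit 40) (nat_lit 5) (nat_lit 42) (nat_lit 5) (nat_lit 43) (nat_lit 5) (nat_lit 320) (nat_lit 287) (nat_lit 173)) (XT.lf (nat_lit 0) (nat_lit 4047064510) (nat_lit 228) (nat_lit 7164675056) (nat_lit 76) (nat_lit 29486698513) (nat_lit 39) (nat_lit 5) (nat_lit 42) (nat_lit 5) (nat_lit 40) (nat_lit 5) (nat_lit 321) (nat_lit 287) (nat_lit 172))))) (XT.nd (nat_lit 156) (nat_lit 304) (nat_lit 0) (XT.nd (nat_lit 78) (nat_lit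 0) (nat_lit 0) (XT.lf (nat_lit 0) (nat_lit 11026867412) (nat_lit 304) (nat_lit 29347948369) (nat_lit 76) (nat_lit 1692538118) (nat_lit 36) (nat_lit 5) (nat_lit 40) (nat_lit 5) (nat_lit 37) (nat_lit 5) (nat_lit 322) (nat_lit 287) (nat_lit 171)) (XT.lf (nat_lit 0) (nat_lit 18658182001) (nat_lit 304) (nat_lit 9844979928) (nat_lit 76) (nat_lit 14986432818) (nat_lit 36) (nat_lit 5) (nat_lit 40) (nat_lit 5) (nat_lit 37) (nat_lit 5) (nat_lit 323) (nat_lit 287) (nat_lit 170))) (XT.nd (nat_lit 78) (nat_lit 152) (nat_lit 0) (XT.lf (nat_lit 0) (nat_lit 10977854335) (nat_lit 152) (nat_lit 15860218447) (nat_lit 228) (nat_lit 18136529394) (nat_lit 34) (nat_lit 5) (nat_lit 36) (nat_lit 5) (nat_lit 37) (nat_lit 5) (nat_lit 324) (nat_lit 287) (nat_lit 169)) (XT.nd (nat_lit 78) (nat_lit 152) (nat_lit 0) (XT.lf (nat_lit 0) (nat_lit 33177090425) (nat_lit 152) (nat_lit 2412319322) (nat_lit 228) (nat_lit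 10936332467) (nat_lit 34) (nat_lit 5) (nat_lit 36) (nat_lit 5) (nat_lit 37) (nat_lit 5) (nat_lit 325) (nat_lit 287) (nat_lit 168)) (XT.lf (nat_lit 0) (nat_lit 8411888863) (nat_lit 152) (nat_lit 36676444440) (nat_lit 228) (nat_lit 3050609553) (nat_lit 32) (nat_lit 5) (nat_lit 34) (nat_lit 5) (nat_lit 35) (nat_lit 5) (nat_lit 326) (nat_lit 287) (nat_lit 167))))))))
noncomputable def xc182 : XT := (XT.nd (nat_lit 1560) (nat_lit 532) (nat_lit 0) (XT.nd (nat_lit 780) (nat_lit 608) (nat_lit 0) (XT.nd (nat_lit 390) (nat_lit 304) (nat_lit 0) (XT.nd (nat_lit 156) (nat_lit 152) (nat_lit 0) (XT.nd (nat_lit 78) (nat_lit 152) (nat_lit 0) (XT.lf (nat_lit 0) (nat_lit 5327263778) (nat_lit 228) (nat_lit 18228941192) (nat_lit 76) (nat_lit 26259258560) (nat_lit 31) (nat_lit 5) (nat_lit 34) (nat_lit 5) (nat_lit 32) (nat_lit 5) (nat_lit 327) (nat_lit 287) (nat_lit 166)) (XT.lf (nat_lit 0) (nat_lit 4429717546)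 (nat_lit 152) (nat_lit 9657066977) (nat_lit 228) (nat_lit 37483265468) (nat_lit 29) (nat_lit 5) (nat_lit 31) (nat_lit 5) (nat_lit 32) (nat_lit 5) (nat_lit 328) (nat_lit 287) (nat_lit 165))) (XT.nd (nat_lit 78) (nat_lit 152) (nat_lit 0) (XT.lf (nat_lit 0) (nat_lit 23671308959) (nat_lit 228) (nat_lit 24631082983) (nat_lit 76) (nat_lit 5090626227) (nat_lit 29) (nat_lit 5) (nat_lit 32) (nat_lit 5) (nat_lit 30) (nat_lit 5) (nat_lit 329) (nat_lit 287) (nat_lit 164)) (XT.nd (nat_lit 78) (nat_lit 152) (nat_lit 0) (XT.lf (nat_lit 0) (nat_lit 33889724528) (nat_lit 228) (nat_lit 1160577090) (nat_lit 76) (nat_lit 20249103489) (nat_lit 29) (nat_lit 5) (nat_lit 32) (nat_lit 5) (nat_lit 30) (nat_lit 5) (nat_lit 330) (nat_lit 287) (nat_lit 163)) (XT.lf (nat_lit 0) (nat_lit 24254124730) (nat_lit 152) (nat_lit 20740137041) (nat_lit 228) (nat_lit 12288093001) (nat_lit 27) (nat_lit 5) (nat_lit 29) (nat_lit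 5) (nat_lit 30) (nat_lit 5) (nat_lit 331) (nat_lit 287) (nat_lit 162))))) (XT.nd (nat_lit 156) (nat_lit 152) (nat_lit 0) (XT.nd (nat_lit 78) (nat_lit 152) (nat_lit 0) (XT.lf (nat_lit 0) (nat_lit 50974331960) (nat_lit 152) (nat_lit 5695954097) (nat_lit 228) (nat_lit 2693356118) (nat_lit 27) (nat_lit 5) (nat_lit 29) (nat_lit 5) (nat_lit 30) (nat_lit 5) (nat_lit 332) (nat_lit 287) (nat_lit 161)) (XT.lf (nat_lit 0) (nat_lit 7585745108) (nat_lit 152) (nat_lit 43758565973) (nat_lit 76) (nat_lit 10176880361) (nat_lit 25) (nat_lit 5) (nat_lit 27) (nat_lit 5) (nat_lit 26) (nat_lit 5) (nat_lit 333) (nat_lit 287) (nat_lit 160))) (XT.nd (nat_lit 78) (nat_lit 152) (nat_lit 0) (XT.lf (nat_lit 0) (nat_lit 18522822125) (nat_lit 152) (nat_lit 18411372954) (nat_lit 76) (nat_lit 26838491483) (nat_lit 25) (nat_lit 5) (nat_lit 27) (nat_lit 5) (nat_lit 26) (nat_lit 5) (nat_lit 334) (nat_lit 287) (nat_lit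 159)) (XT.nd (nat_lit 78) (nat_lit 0) (nat_lit 0) (XT.lf (nat_lit 0) (nat_lit 8469085560) (nat_lit 152) (nat_lit 21666800929) (nat_lit 228) (nat_lit 35994415961) (nat_lit 23) (nat_lit 5) (nat_lit 25) (nat_lit 5) (nat_lit 26) (nat_lit 5) (nat_lit 335) (nat_lit 287) (nat_lit 158)) (XT.lf (nat_lit 0) (nat_lit 37327693703) (nat_lit 152) (nat_lit 5310691252) (nat_lit 228) (nat_lit 25951977687) (nat_lit 23) (nat_lit 5) (nat_lit 25) (nat_lit 5) (nat_lit 26) (nat_lit 5) (nat_lit 336) (nat_lit 287) (nat_lit 157)))))) (XT.nd (nat_lit 390) (nat_lit 304) (nat_lit 0) (XT.nd (nat_lit 156) (nat_lit 228) (nat_lit 0) (XT.nd (nat_lit 78) (nat_lit 76) (nat_lit 0) (XT.lf (nat_lit 0) (nat_lit 55948315441) (nat_lit 228) (nat_lit 3734360691) (nat_lit 76) (nat_lit 11481636792) (nat_lit 23) (nat_lit 5) (nat_lit 26) (nat_lit 5) (nat_lit 24) (nat_lit 4) (nat_lit 337) (nat_lit 287) (nat_lit 156)) (XT.lf (nat_lit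 0) (nat_lit 25907800609) (nat_lit 76) (nat_lit 44504723274) (nat_lit 152) (nat_lit 3430000084) (nat_lit 22) (nat_lit 5) (nat_lit 23) (nat_lit 5) (nat_lit 24) (nat_lit 4) (nat_lit 338) (nat_lit 287) (nat_lit 155))) (XT.nd (nat_lit 78) (nat_lit 152) (nat_lit 0) (XT.lf (nat_lit 0) (nat_lit 8720512347) (nat_lit 152) (nat_lit 19635193375) (nat_lit 76) (nat_lit 48288882858) (nat_lit 21) (nat_lit 5) (nat_lit 23) (nat_lit 5) (nat_lit 22) (nat_lit 5) (nat_lit 339) (nat_lit 287) (nat_lit 154)) (XT.nd (nat_lit 78) (nat_lit 0) (nat_lit 0) (XT.lf (nat_lit 0) (nat_lit 10349837719) (nat_lit 152) (nat_lit 11172404118) (nat_lit 228) (nat_lit 58053757017) (nat_lit 19) (nat_lit 5) (nat_lit 21) (nat_lit 5) (nat_lit 22) (nat_lit 5) (nat_lit 340) (nat_lit 287) (nat_lit 153)) (XT.lf (nat_lit 0) (nat_lit 35406700419) (nat_lit 228) (nat_lit 40238789506) (nat_lit 76) (nat_lit 6986359494) (nat_lit 19) (nat_lit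 5) (nat_lit 22) (nat_lit 5) (nat_lit 20) (nat_lit 4) (nat_lit 341) (nat_lit 287) (nat_lit 152))))) (XT.nd (nat_lit 156) (nat_lit 228) (nat_lit 0) (XT.nd (nat_lit 78) (nat_lit 76) (nat_lit 0) (XT.lf (nat_lit 0) (nat_lit 50166058810) (nat_lit 228) (nat_lit 9989521670) (nat_lit 76) (nat_lit 25675880005) (nat_lit 19) (nat_lit 5) (nat_lit 22) (nat_lit 5) (nat_lit 20) (nat_lit 4) (nat_lit 342) (nat_lit 287) (nat_lit 151)) (XT.lf (nat_lit 0) (nat_lit 22487848573) (nat_lit 76) (nat_lit 43524275564) (nat_lit 152) (nat_lit 23161492745) (nat_lit 18) (nat_lit 5) (nat_lit 19) (nat_lit 5) (nat_lit 20) (nat_lit 4) (nat_lit 343) (nat_lit 287) (nat_lit 150))) (XT.nd (nat_lit 78) (nat_lit 228) (nat_lit 0) (XT.lf (nat_lit 0) (nat_lit 56931854717) (nat_lit 76) (nat_lit 25885505254) (nat_lit 152) (nat_lit 9857179416) (nat_lit 18) (nat_lit 5) (nat_lit 19) (nat_lit 5) (nat_lit 20) (nat_lit 4) (nat_lit 344)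 (nat_lit 287) (nat_lit 149)) (XT.nd (nat_lit 78) (nat_lit 152) (nat_lit 0) (XT.lf (nat_lit 0) (nat_lit 3978490986) (nat_lit 152) (nat_lit 3320581201) (nat_lit 76) (nat_lit 89048338943) (nat_lit 17) (nat_lit 5) (nat_lit 19) (nat_lit 5) (nat_lit 18) (nat_lit 5) (nat_lit 345) (nat_lit 287) (nat_lit 148)) (XT.lf (nat_lit 0) (nat_lit 18866847666) (nat_lit 228) (nat_lit 68805097579) (nat_lit 76) (nat_lit 12489294553) (nat_lit 15) (nat_lit 5) (nat_lit 18) (nat_lit 5) (nat_lit 16) (nat_lit 4) (nat_lit 346) (nat_lit 287) (nat_lit 147))))))) (XT.nd (nat_lit 780) (nat_lit 228) (nat_lit 0) (XT.nd (nat_lit 390) (nat_lit 228) (nat_lit 0) (XT.nd (nat_lit 156) (nat_lit 76) (nat_lit 0) (XT.nd (nat_lit 78) (nat_lit 0) (nat_lit 0) (XT.lf (nat_lit 0) (nat_lit 34674324591) (nat_lit 228) (nat_lit 36405304462) (nat_lit 76) (nat_lit 33077397084) (nat_lit 15) (nat_lit 5) (nat_lit 18) (nat_lit 5) (nat_lit 16)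 (nat_lit 4) (nat_lit 347) (nat_lit 287) (nat_lit 146)) (XT.lf (nat_lit 0) (nat_lit 51270163880) (nat_lit 228) (nat_lit 2389104946) (nat_lit 76) (nat_lit 54693434830) (nat_lit 15) (nat_lit 5) (nat_lit 18) (nat_lit 5) (nat_lit 16) (nat_lit 4) (nat_lit 348) (nat_lit 287) (nat_lit 145))) (XT.nd (nat_lit 78) (nat_lit 0) (nat_lit 0) (XT.lf (nat_lit 0) (nat_lit 34426350120) (nat_lit 76) (nat_lit 34805021121) (nat_lit 152) (nat_lit 43500016233) (nat_lit 14) (nat_lit 5) (nat_lit 15) (nat_lit 5) (nat_lit 16) (nat_lit 4) (nat_lit 349) (nat_lit 287) (nat_lit 144)) (XT.nd (nat_lit 78) (nat_lit 0) (nat_lit 0) (XT.lf (nat_lit 0) (nat_lit 73162164684) (nat_lit 76) (nat_lit 14967058040) (nat_lit 152) (nat_lit 29197854743) (nat_lit 14) (nat_lit 5) (nat_lit 15) (nat_lit 5) (nat_lit 16) (nat_lit 4) (nat_lit 350) (nat_lit 287) (nat_lit 143)) (XT.lf (nat_lit 0) (nat_lit 108061692035) (nat_lit 152) (nat_lit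 8412582945) (nat_lit 0) (nat_lit 5673791832) (nat_lit 14) (nat_lit 5) (nat_lit 16) (nat_lit 4) (nat_lit 14) (nat_lit 4) (nat_lit 351) (nat_lit 287) (nat_lit 142))))) (XT.nd (nat_lit 156) (nat_lit 76) (nat_lit 0) (XT.nd (nat_lit 78) (nat_lit 0) (nat_lit 0) (XT.lf (nat_lit 0) (nat_lit 2444742056) (nat_lit 152) (nat_lit 97380308974) (nat_lit 76) (nat_lit 27347612751) (nat_lit 12) (nat_lit 5) (nat_lit 14) (nat_lit 5) (nat_lit 13) (nat_lit 4) (nat_lit 352) (nat_lit 287) (nat_lit 141)) (XT.lf (nat_lit 0) (nat_lit 19472109173) (nat_lit 152) (nat_lit 62478139706) (nat_lit 76) (nat_lit 50479542024) (nat_lit 12) (nat_lit 5) (nat_lit 14) (nat_lit 5) (nat_lit 13) (nat_lit 4) (nat_lit 353) (nat_lit 287) (nat_lit 140))) (XT.nd (nat_lit 78) (nat_lit 76) (nat_lit 0) (XT.lf (nat_lit 0) (nat_lit 37349208689) (nat_lit 152) (nat_lit 25833831717) (nat_lit 76) (nat_lit 74766816688) (nat_lit 12) (nat_lit 5)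 (nat_lit 14) (nat_lit 5) (nat_lit 13) (nat_lit 4) (nat_lit 354) (nat_lit 287) (nat_lit 139)) (XT.nd (nat_lit 78) (nat_lit 0) (nat_lit 0) (XT.lf (nat_lit 0) (nat_lit 13057794309) (nat_lit 76) (nat_lit 43264679582) (nat_lit 152) (nat_lit 87413338044) (nat_lit 11) (nat_lit 5) (nat_lit 12) (nat_lit 5) (nat_lit 13) (nat_lit 4) (nat_lit 355) (nat_lit 287) (nat_lit 138)) (XT.lf (nat_lit 0) (nat_lit 54788111232) (nat_lit 76) (nat_lit 21892272256) (nat_lit 152) (nat_lit 73108882805) (nat_lit 11) (nat_lit 5) (nat_lit 12) (nat_lit 5) (nat_lit 13) (nat_lit 4) (nat_lit 356) (nat_lit 287) (nat_lit 137)))))) (XT.nd (nat_lit 390) (nat_lit 76) (nat_lit 0) (XT.nd (nat_lit 156) (nat_lit 152) (nat_lit 0) (XT.nd (nat_lit 78) (nat_lit 0) (nat_lit 0) (XT.lf (nat_lit 0) (nat_lit 98063282932) (nat_lit 152) (nat_lit 57551722030) (nat_lit 0) (nat_lit 530034481) (nat_lit 11) (nat_lit 5) (nat_lit 13) (nat_lit 4)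 (nat_lit 11) (nat_lit 4) (nat_lit 357) (nat_lit 287) (nat_lit 136)) (XT.lf (nat_lit 0) (nat_lit 120872813966) (nat_lit 152) (nat_lit 18591283297) (nat_lit 0) (nat_lit 23336630411) (nat_lit 11) (nat_lit 5) (nat_lit 13) (nat_lit 4) (nat_lit 11) (nat_lit 4) (nat_lit 358) (nat_lit 287) (nat_lit 135))) (XT.nd (nat_lit 78) (nat_lit 76) (nat_lit 0) (XT.lf (nat_lit 0) (nat_lit 23052549354) (nat_lit 76) (nat_lit 122128850822) (nat_lit 76) (nat_lit 24589871928) (nat_lit 10) (nat_lit 4) (nat_lit 11) (nat_lit 5) (nat_lit 11) (nat_lit 4) (nat_lit 359) (nat_lit 287) (nat_lit 134)) (XT.nd (nat_lit 78) (nat_lit 76) (nat_lit 0) (XT.lf (nat_lit 0) (nat_lit 67421607027) (nat_lit 76) (nat_lit 103597350716) (nat_lit 76) (nat_lit 6055709596) (nat_lit 10) (nat_lit 4) (nat_lit 11) (nat_lit 5) (nat_lit 11) (nat_lit 4) (nat_lit 360) (nat_lit 287) (nat_lit 133)) (XT.lf (nat_lit 0) (nat_lit 12974842962) (nat_lit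 152) (nat_lit 70945748500) (nat_lit 76) (nat_lit 100812240339) (nat_lit 9) (nat_lit 5) (nat_lit 11) (nat_lit 5) (nat_lit 10) (nat_lit 4) (nat_lit 361) (nat_lit 287) (nat_lit 132))))) (XT.nd (nat_lit 156) (nat_lit 0) (nat_lit 0) (XT.nd (nat_lit 78) (nat_lit 76) (nat_lit 0) (XT.lf (nat_lit 0) (nat_lit 32752203002) (nat_lit 152) (nat_lit 30404575136) (nat_lit 76) (nat_lit 129612223673) (nat_lit 9) (nat_lit 5) (nat_lit 11) (nat_lit 5) (nat_lit 10) (nat_lit 4) (nat_lit 362) (nat_lit 287) (nat_lit 131)) (XT.lf (nat_lit 0) (nat_lit 12563648182) (nat_lit 76) (nat_lit 41149785576) (nat_lit 152) (nat_lit 147483796991) (nat_lit 8) (nat_lit 5) (nat_lit 9) (nat_lit 5) (nat_lit 10) (nat_lit 4) (nat_lit 363) (nat_lit 287) (nat_lit 130))) (XT.nd (nat_lit 78) (nat_lit 0) (nat_lit 0) (XT.lf (nat_lit 0) (nat_lit 58733771201) (nat_lit 76) (nat_lit 17502742186) (nat_lit 152) (nat_lit 133784668917) (nat_lit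 8) (nat_lit 5) (nat_lit 9) (nat_lit 5) (nat_lit 10) (nat_lit 4) (nat_lit 364) (nat_lit 287) (nat_lit 129)) (XT.nd (nat_lit 78) (nat_lit 0) (nat_lit 0) (XT.lf (nat_lit 0) (nat_lit 99999047201) (nat_lit 152) (nat_lit 112190350789) (nat_lit 0) (nat_lit 7091268946) (nat_lit 8) (nat_lit 5) (nat_lit 10) (nat_lit 4) (nat_lit 8) (nat_lit 4) (nat_lit 365) (nat_lit 287) (nat_lit 128)) (XT.lf (nat_lit 0) (nat_lit 125235600393) (nat_lit 152) (nat_lit 71427301118) (nat_lit 0) (nat_lit 32325930143) (nat_lit 8) (nat_lit 5) (nat_lit 10) (nat_lit 4) (nat_lit 8) (nat_lit 4) (nat_lit 366) (nat_lit 287) (nat_lit 127))))))))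
noncomputable def xc183 : XT := (XT.nd (nat_lit 34788) (nat_lit 0) (nat_lit 3876) (XT.nd (nat_lit 780) (nat_lit 76) (nat_lit 0) (XT.nd (nat_lit 390) (nat_lit 152) (nat_lit 0) (XT.nd (nat_lit 156) (nat_lit 0) (nat_lit 0) (XT.nd (nat_lit 78) (nat_lit 76) (nat_lit 0) (XT.lf (nat_lit 0) (nat_lit 151732993136) (nat_lit 152) (nat_lit 28627940352) (nat_lit 0) (nat_lit 58821520987) (nat_lit 8) (nat_lit 5) (nat_lit 10) (nat_lit 4) (nat_lit 8) (nat_lit 4) (nat_lit 367) (nat_lit 287) (nat_lit 126)) (XT.lf (nat_lit 0) (nat_lit 16848904929) (nat_lit 76) (nat_lit 162968468158) (nat_lit 76) (nat_lit 70055279913) (nat_lit 7) (nat_lit 4) (nat_lit 8) (nat_lit 5) (nat_lit 8) (nat_lit 4) (nat_lit 368) (nat_lit 287) (nat_lit 125))) (XT.nd (nat_lit 78) (nat_lit 0) (nat_lit 0) (XT.lf (nat_lit 0) (nat_lit 65591764502) (nat_lit 76) (nat_lit 144198112374) (nat_lit 76) (nat_lit 51283289754) (nat_lit 7) (nat_lit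 4) (nat_lit 8) (nat_lit 5) (nat_lit 8) (nat_lit 4) (nat_lit 369) (nat_lit 287) (nat_lit 124)) (XT.nd (nat_lit 78) (nat_lit 0) (nat_lit 0) (XT.lf (nat_lit 0) (nat_lit 116770123798) (nat_lit 76) (nat_lit 124490002837) (nat_lit 76) (nat_lit 31573623668) (nat_lit 7) (nat_lit 4) (nat_lit 8) (nat_lit 5) (nat_lit 8) (nat_lit 4) (nat_lit 370) (nat_lit 287) (nat_lit 123)) (XT.lf (nat_lit 0) (nat_lit 170505836053) (nat_lit 76) (nat_lit 103797215475) (nat_lit 76) (nat_lit 10879353879) (nat_lit 7) (nat_lit 4) (nat_lit 8) (nat_lit 5) (nat_lit 8) (nat_lit 4) (nat_lit 371) (nat_lit 287) (nat_lit 122))))) (XT.nd (nat_lit 156) (nat_lit 76) (nat_lit 0) (XT.nd (nat_lit 78) (nat_lit 0) (nat_lit 0) (XT.lf (nat_lit 0) (nat_lit 10501562597) (nat_lit 152) (nat_lit 71391070107) (nat_lit 76) (nat_lit 216247431799) (nat_lit 6) (nat_lit 5) (nat_lit 8) (nat_lit 5) (nat_lit 7) (nat_lit 4) (nat_lit 372) (nat_lit 287)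 (nat_lit 121)) (XT.lf (nat_lit 0) (nat_lit 32585134978) (nat_lit 152) (nat_lit 26121091332) (nat_lit 76) (nat_lit 253030501685) (nat_lit 6) (nat_lit 5) (nat_lit 8) (nat_lit 5) (nat_lit 7) (nat_lit 4) (nat_lit 373) (nat_lit 287) (nat_lit 120))) (XT.nd (nat_lit 78) (nat_lit 0) (nat_lit 0) (XT.lf (nat_lit 0) (nat_lit 22118954519) (nat_lit 76) (nat_lit 33998534813) (nat_lit 152) (nat_lit 269878505473) (nat_lit 5) (nat_lit 5) (nat_lit 6) (nat_lit 5) (nat_lit 7) (nat_lit 4) (nat_lit 374) (nat_lit 287) (nat_lit 119)) (XT.nd (nat_lit 78) (nat_lit 0) (nat_lit 0) (XT.lf (nat_lit 0) (nat_lit 73676513630) (nat_lit 76) (nat_lit 7591599462) (nat_lit 152) (nat_lit 259678029579) (nat_lit 5) (nat_lit 5) (nat_lit 6) (nat_lit 5) (nat_lit 7) (nat_lit 4) (nat_lit 375) (nat_lit 287) (nat_lit 118)) (XT.lf (nat_lit 0) (nat_lit 107989945798) (nat_lit 152) (nat_lit 229147536760) (nat_lit 0) (nat_lit 19490631769)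 (nat_lit 5) (nat_lit 5) (nat_lit 7) (nat_lit 4) (nat_lit 5) (nat_lit 4) (nat_lit 376) (nat_lit 287) (nat_lit 117)))))) (XT.nd (nat_lit 390) (nat_lit 76) (nat_lit 0) (XT.nd (nat_lit 156) (nat_lit 0) (nat_lit 0) (XT.nd (nat_lit 78) (nat_lit 0) (nat_lit 0) (XT.lf (nat_lit 0) (nat_lit 136171659086) (nat_lit 152) (nat_lit 189245044780) (nat_lit 0) (nat_lit 47671291523) (nat_lit 5) (nat_lit 5) (nat_lit 7) (nat_lit 4) (nat_lit 5) (nat_lit 4) (nat_lit 377) (nat_lit 287) (nat_lit 116)) (XT.lf (nat_lit 0) (nat_lit 165761826131) (nat_lit 152) (nat_lit 147348621025) (nat_lit 0) (nat_lit 77260455202) (nat_lit 5) (nat_lit 5) (nat_lit 7) (nat_lit 4) (nat_lit 5) (nat_lit 4) (nat_lit 378) (nat_lit 287) (nat_lit 115))) (XT.nd (nat_lit 78) (nat_lit 0) (nat_lit 0) (XT.lf (nat_lit 0) (nat_lit 196830899710) (nat_lit 152) (nat_lit 103358512105) (nat_lit 0) (nat_lit 108328573196) (nat_lit 5) (nat_lit 5) (nat_lit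 7) (nat_lit 4) (nat_lit 5) (nat_lit 4) (nat_lit 379) (nat_lit 287) (nat_lit 114)) (XT.nd (nat_lit 78) (nat_lit 0) (nat_lit 0) (XT.lf (nat_lit 0) (nat_lit 229452853810) (nat_lit 152) (nat_lit 57169979667) (nat_lit 0) (nat_lit 140949617214) (nat_lit 5) (nat_lit 5) (nat_lit 7) (nat_lit 4) (nat_lit 5) (nat_lit 4) (nat_lit 380) (nat_lit 287) (nat_lit 113)) (XT.lf (nat_lit 0) (nat_lit 263705359749) (nat_lit 152) (nat_lit 8673051012) (nat_lit 0) (nat_lit 175201256408) (nat_lit 5) (nat_lit 5) (nat_lit 7) (nat_lit 4) (nat_lit 5) (nat_lit 4) (nat_lit 381) (nat_lit 287) (nat_lit 112))))) (XT.nd (nat_lit 33384) (nat_lit 0) (nat_lit 6536) (XT.nd (nat_lit 33306) (nat_lit 0) (nat_lit 6536) (XT.lf (nat_lit 0) (nat_lit 43644643905) (nat_lit 76) (nat_lit 256706742412) (nat_lit 76) (nat_lit 168201813600) (nat_lit 4) (nat_lit 4) (nat_lit 5) (nat_lit 5) (nat_lit 5) (nat_lit 4) (nat_lit 382) (nat_lit 287)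 (nat_lit 111)) (XT.lf (nat_lit 0) (nat_lit 2525324638) (nat_lit 0) (nat_lit 2525324638) (nat_lit 684) (nat_lit 3047571859) (nat_lit 90) (nat_lit 5) (nat_lit 90) (nat_lit 3) (nat_lit 99) (nat_lit 3) (nat_lit 288) (nat_lit 288) (nat_lit 204))) (XT.nd (nat_lit 78) (nat_lit 0) (nat_lit 0) (XT.lf (nat_lit 0) (nat_lit 10626463292) (nat_lit 684) (nat_lit 3833076553) (nat_lit 760) (nat_lit 2127701070) (nat_lit 90) (nat_lit 5) (nat_lit 99) (nat_lit 3) (nat_lit 100) (nat_lit 5) (nat_lit 289) (nat_lit 288) (nat_lit 203)) (XT.nd (nat_lit 78) (nat_lit 0) (nat_lit 76) (XT.lf (nat_lit 76) (nat_lit 3878060152) (nat_lit 0) (nat_lit 7428035014) (nat_lit 760) (nat_lit 5685104658) (nat_lit 91) (nat_lit 5) (nat_lit 90) (nat_lit 5) (nat_lit 100) (nat_lit 5) (nat_lit 290) (nat_lit 288) (nat_lit 202)) (XT.lf (nat_lit 0) (nat_lit 12070535433) (nat_lit 684) (nat_lit 5313898767) (nat_lit 760) (nat_lit 28410450)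 (nat_lit 91) (nat_lit 5) (nat_lit 100) (nat_lit 5) (nat_lit 101) (nat_lit 5) (nat_lit 291) (nat_lit 288) (nat_lit 201))))))) (XT.nd (nat_lit 780) (nat_lit 1672) (nat_lit 0) (XT.nd (nat_lit 390) (nat_lit 1064) (nat_lit 0) (XT.nd (nat_lit 156) (nat_lit 0) (nat_lit 76) (XT.nd (nat_lit 78) (nat_lit 0) (nat_lit 0) (XT.lf (nat_lit 76) (nat_lit 2835471644) (nat_lit 0) (nat_lit 10190004396) (nat_lit 760) (nat_lit 4822509675) (nat_lit 92) (nat_lit 5) (nat_lit 91) (nat_lit 5) (nat_lit 101) (nat_lit 5) (nat_lit 292) (nat_lit 288) (nat_lit 200)) (XT.lf (nat_lit 76) (nat_lit 11568125035) (nat_lit 0) (nat_lit 2536789651) (nat_lit 760) (nat_lit 4196158185) (nat_lit 92) (nat_lit 5) (nat_lit 91) (nat_lit 5) (nat_lit 101) (nat_lit 5) (nat_lit 293) (nat_lit 288) (nat_lit 199))) (XT.nd (nat_lit 78) (nat_lit 0) (nat_lit 0) (XT.lf (nat_lit 76) (nat_lit 1927447919) (nat_lit 0) (nat_lit 13414282462) (nat_lit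 760) (nat_lit 3429939069) (nat_lit 93) (nat_lit 5) (nat_lit 92) (nat_lit 5) (nat_lit 102) (nat_lit 5) (nat_lit 294) (nat_lit 288) (nat_lit 198)) (XT.nd (nat_lit 78) (nat_lit 0) (nat_lit 76) (XT.lf (nat_lit 76) (nat_lit 11202816315) (nat_lit 0) (nat_lit 5580427686) (nat_lit 760) (nat_lit 2475433113) (nat_lit 93) (nat_lit 5) (nat_lit 92) (nat_lit 5) (nat_lit 102) (nat_lit 5) (nat_lit 295) (nat_lit 288) (nat_lit 197)) (XT.lf (nat_lit 76) (nat_lit 1158639986) (nat_lit 0) (nat_lit 17186119845) (nat_lit 760) (nat_lit 1422901971) (nat_lit 94) (nat_lit 5) (nat_lit 93) (nat_lit 5) (nat_lit 103) (nat_lit 5) (nat_lit 296) (nat_lit 288) (nat_lit 196))))) (XT.nd (nat_lit 156) (nat_lit 456) (nat_lit 0) (XT.nd (nat_lit 78) (nat_lit 760) (nat_lit 0) (XT.lf (nat_lit 76) (nat_lit 11010122096) (nat_lit 0) (nat_lit 9189611855) (nat_lit 760) (nat_lit 91614521) (nat_lit 94) (nat_lit 5) (nat_lit 93) (nat_lit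 5) (nat_lit 103) (nat_lit 5) (nat_lit 297) (nat_lit 288) (nat_lit 195)) (XT.lf (nat_lit 76) (nat_lit 499690602) (nat_lit 0) (nat_lit 761819859) (nat_lit 836) (nat_lit 19578855108) (nat_lit 84) (nat_lit 5) (nat_lit 83) (nat_lit 5) (nat_lit 94) (nat_lit 5) (nat_lit 298) (nat_lit 288) (nat_lit 194))) (XT.nd (nat_lit 78) (nat_lit 532) (nat_lit 0) (XT.lf (nat_lit 0) (nat_lit 2954917002) (nat_lit 760) (nat_lit 10456728717) (nat_lit 76) (nat_lit 7991346393) (nat_lit 84) (nat_lit 5) (nat_lit 94) (nat_lit 5) (nat_lit 85) (nat_lit 5) (nat_lit 299) (nat_lit 288) (nat_lit 193)) (XT.nd (nat_lit 78) (nat_lit 532) (nat_lit 0) (XT.lf (nat_lit 0) (nat_lit 4735653158) (nat_lit 760) (nat_lit 99917757) (nat_lit 76) (nat_lit 17158064098) (nat_lit 84) (nat_lit 5) (nat_lit 94) (nat_lit 5) (nat_lit 85) (nat_lit 5) (nat_lit 300) (nat_lit 288) (nat_lit 192)) (XT.lf (nat_lit 0) (nat_lit 6837670773) (nat_lit 608)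 (nat_lit 11551274725) (nat_lit 76) (nat_lit 4213269467) (nat_lit 77) (nat_lit 5) (nat_lit 85) (nat_lit 5) (nat_lit 78) (nat_lit 5) (nat_lit 301) (nat_lit 288) (nat_lit 191)))))) (XT.nd (nat_lit 390) (nat_lit 988) (nat_lit 0) (XT.nd (nat_lit 156) (nat_lit 304) (nat_lit 0) (XT.nd (nat_lit 78) (nat_lit 380) (nat_lit 0) (XT.lf (nat_lit 0) (nat_lit 9116747576) (nat_lit 608) (nat_lit 566395831) (nat_lit 76) (nat_lit 13554498912) (nat_lit 77) (nat_lit 5) (nat_lit 85) (nat_lit 5) (nat_lit 78) (nat_lit 5) (nat_lit 302) (nat_lit 288) (nat_lit 190)) (XT.lf (nat_lit 0) (nat_lit 11321743811) (nat_lit 380) (nat_lit 356195470) (nat_lit 456) (nat_lit 12218509253) (nat_lit 72) (nat_lit 5) (nat_lit 77) (nat_lit 5) (nat_lit 78) (nat_lit 5) (nat_lit 303) (nat_lit 288) (nat_lit 189))) (XT.nd (nat_lit 78) (nat_lit 304) (nat_lit 0) (XT.lf (nat_lit 0) (nat_lit 14515959574) (nat_lit 456) (nat_lit 919905438)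 (nat_lit 76) (nat_lit 9144906403) (nat_lit 72) (nat_lit 5) (nat_lit 78) (nat_lit 5) (nat_lit 73) (nat_lit 5) (nat_lit 304) (nat_lit 288) (nat_lit 188)) (XT.nd (nat_lit 78) (nat_lit 0) (nat_lit 0) (XT.lf (nat_lit 0) (nat_lit 11677305449) (nat_lit 304) (nat_lit 5998806343) (nat_lit 380) (nat_lit 7614201199) (nat_lit 68) (nat_lit 5) (nat_lit 72) (nat_lit 5) (nat_lit 73) (nat_lit 5) (nat_lit 305) (nat_lit 288) (nat_lit 187)) (XT.lf (nat_lit 0) (nat_lit 21063474043) (nat_lit 380) (nat_lit 1168035194) (nat_lit 76) (nat_lit 3800375717) (nat_lit 68) (nat_lit 5) (nat_lit 73) (nat_lit 5) (nat_lit 69) (nat_lit 5) (nat_lit 306) (nat_lit 288) (nat_lit 186))))) (XT.nd (nat_lit 234) (nat_lit 304) (nat_lit 0) (XT.nd (nat_lit 78) (nat_lit 380) (nat_lit 0) (XT.lf (nat_lit 0) (nat_lit 12182677568) (nat_lit 304) (nat_lit 12718759646) (nat_lit 380) (nat_lit 1895049450) (nat_lit 64) (nat_lit 5) (nat_lit 68)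 (nat_lit 5) (nat_lit 69) (nat_lit 5) (nat_lit 307) (nat_lit 288) (nat_lit 185)) (XT.nd (nat_lit 78) (nat_lit 304) (nat_lit 0) (XT.lf (nat_lit 0) (nat_lit 1302235924) (nat_lit 380) (nat_lit 1386180780) (nat_lit 76) (nat_lit 24909229181) (nat_lit 63) (nat_lit 5) (nat_lit 68) (nat_lit 5) (nat_lit 64) (nat_lit 5) (nat_lit 308) (nat_lit 288) (nat_lit 184)) (XT.lf (nat_lit 0) (nat_lit 4916104841) (nat_lit 380) (nat_lit 15677802139) (nat_lit 76) (nat_lit 7827393547) (nat_lit 59) (nat_lit 5) (nat_lit 64) (nat_lit 5) (nat_lit 60) (nat_lit 5) (nat_lit 309) (nat_lit 288) (nat_lit 183)))) (XT.nd (nat_lit 78) (nat_lit 304) (nat_lit 0) (XT.lf (nat_lit 0) (nat_lit 8771917069) (nat_lit 380) (nat_lit 1709654354) (nat_lit 76) (nat_lit 18801514506) (nat_lit 59) (nat_lit 5) (nat_lit 64) (nat_lit 5) (nat_lit 60) (nat_lit 5) (nat_lit 310) (nat_lit 288) (nat_lit 182)) (XT.nd (nat_lit 78) (nat_lit 0) (nat_lit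 0) (XT.lf (nat_lit 0) (nat_lit 13028547536) (nat_lit 380) (nat_lit 16805954984) (nat_lit 76) (nat_lit 343066720) (nat_lit 55) (nat_lit 5) (nat_lit 60) (nat_lit 5) (nat_lit 56) (nat_lit 5) (nat_lit 311) (nat_lit 288) (nat_lit 181)) (XT.lf (nat_lit 0) (nat_lit 17693067167) (nat_lit 380) (nat_lit 2029143217) (nat_lit 76) (nat_lit 11384822994) (nat_lit 55) (nat_lit 5) (nat_lit 60) (nat_lit 5) (nat_lit 56) (nat_lit 5) (nat_lit 312) (nat_lit 288) (nat_lit 180))))))))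
noncomputable def xc184 : XT := (XT.nd (nat_lit 1560) (nat_lit 988) (nat_lit 0) (XT.nd (nat_lit 780) (nat_lit 912) (nat_lit 0) (XT.nd (nat_lit 390) (nat_lit 456) (nat_lit 0) (XT.nd (nat_lit 156) (nat_lit 532) (nat_lit 0) (XT.nd (nat_lit 78) (nat_lit 0) (nat_lit 0) (XT.lf (nat_lit 0) (nat_lit 13924747901) (nat_lit 228) (nat_lit 8877564572) (nat_lit 304) (nat_lit 9270092353) (nat_lit 52) (nat_lit 5) (nat_lit 55) (nat_lit 5) (nat_lit 56) (nat_lit 5) (nat_lit 313) (nat_lit 288) (nat_lit 179)) (XT.lf (nat_lit 0) (nat_lit 28235362873) (nat_lit 304) (nat_lit 2384877511) (nat_lit 76) (nat_lit 2462395977) (nat_lit 52) (nat_lit 5) (nat_lit 56) (nat_lit 5) (nat_lit 53) (nat_lit 5) (nat_lit 314) (nat_lit 288) (nat_lit 178))) (XT.nd (nat_lit 78) (nat_lit 228) (nat_lit 0) (XT.lf (nat_lit 0) (nat_lit 175253125) (nat_lit 304) (nat_lit 19651291284) (nat_lit 76) (nat_lit 14298398655) (nat_lit 48) (nat_lit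 5) (nat_lit 52) (nat_lit 5) (nat_lit 49) (nat_lit 5) (nat_lit 315) (nat_lit 288) (nat_lit 177)) (XT.nd (nat_lit 78) (nat_lit 228) (nat_lit 0) (XT.lf (nat_lit 0) (nat_lit 5321624185) (nat_lit 304) (nat_lit 3046866166) (nat_lit 76) (nat_lit 26845128139) (nat_lit 48) (nat_lit 5) (nat_lit 52) (nat_lit 5) (nat_lit 49) (nat_lit 5) (nat_lit 316) (nat_lit 288) (nat_lit 176)) (XT.lf (nat_lit 0) (nat_lit 11013044503) (nat_lit 304) (nat_lit 21550029177) (nat_lit 76) (nat_lit 3779274593) (nat_lit 45) (nat_lit 5) (nat_lit 49) (nat_lit 5) (nat_lit 46) (nat_lit 5) (nat_lit 317) (nat_lit 288) (nat_lit 175))))) (XT.nd (nat_lit 156) (nat_lit 228) (nat_lit 0) (XT.nd (nat_lit 78) (nat_lit 228) (nat_lit 0) (XT.lf (nat_lit 0) (nat_lit 17173607491) (nat_lit 304) (nat_lit 4040795438) (nat_lit 76) (nat_lit 16303889815) (nat_lit 45) (nat_lit 5) (nat_lit 49) (nat_lit 5) (nat_lit 46) (nat_lit 5) (nat_lit 318) (nat_lit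 288) (nat_lit 174)) (XT.lf (nat_lit 0) (nat_lit 14811217575) (nat_lit 228) (nat_lit 9057403981) (nat_lit 304) (nat_lit 14873098195) (nat_lit 42) (nat_lit 5) (nat_lit 45) (nat_lit 5) (nat_lit 46) (nat_lit 5) (nat_lit 319) (nat_lit 288) (nat_lit 173))) (XT.nd (nat_lit 78) (nat_lit 228) (nat_lit 0) (XT.lf (nat_lit 0) (nat_lit 31021098957) (nat_lit 304) (nat_lit 5342619450) (nat_lit 76) (nat_lit 3656470222) (nat_lit 42) (nat_lit 5) (nat_lit 46) (nat_lit 5) (nat_lit 43) (nat_lit 5) (nat_lit 320) (nat_lit 288) (nat_lit 172)) (XT.nd (nat_lit 78) (nat_lit 76) (nat_lit 0) (XT.lf (nat_lit 0) (nat_lit 14483218281) (nat_lit 152) (nat_lit 24418086987) (nat_lit 228) (nat_lit 2442776289) (nat_lit 40) (nat_lit 5) (nat_lit 42) (nat_lit 5) (nat_lit 43) (nat_lit 5) (nat_lit 321) (nat_lit 288) (nat_lit 171)) (XT.lf (nat_lit 0) (nat_lit 4386701240) (nat_lit 228) (nat_lit 7321197222) (nat_lit 76) (nat_lit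 31018433910) (nat_lit 39) (nat_lit 5) (nat_lit 42) (nat_lit 5) (nat_lit 40) (nat_lit 5) (nat_lit 322) (nat_lit 288) (nat_lit 170)))))) (XT.nd (nat_lit 390) (nat_lit 380) (nat_lit 0) (XT.nd (nat_lit 156) (nat_lit 304) (nat_lit 0) (XT.nd (nat_lit 78) (nat_lit 0) (nat_lit 0) (XT.lf (nat_lit 0) (nat_lit 11713064263) (nat_lit 304) (nat_lit 30611048526) (nat_lit 76) (nat_lit 1839710480) (nat_lit 36) (nat_lit 5) (nat_lit 40) (nat_lit 5) (nat_lit 37) (nat_lit 5) (nat_lit 323) (nat_lit 288) (nat_lit 169)) (XT.lf (nat_lit 0) (nat_lit 19719522987) (nat_lit 304) (nat_lit 10142660104) (nat_lit 76) (nat_lit 15795321560) (nat_lit 36) (nat_lit 5) (nat_lit 40) (nat_lit 5) (nat_lit 37) (nat_lit 5) (nat_lit 324) (nat_lit 288) (nat_lit 168))) (XT.nd (nat_lit 78) (nat_lit 152) (nat_lit 0) (XT.lf (nat_lit 0) (nat_lit 11718177666) (nat_lit 152) (nat_lit 16587103606) (nat_lit 228) (nat_lit 18911644590) (nat_lit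 34) (nat_lit 5) (nat_lit 36) (nat_lit 5) (nat_lit 37) (nat_lit 5) (nat_lit 325) (nat_lit 288) (nat_lit 167)) (XT.nd (nat_lit 78) (nat_lit 152) (nat_lit 0) (XT.lf (nat_lit 0) (nat_lit 35018259817) (nat_lit 152) (nat_lit 2469958370) (nat_lit 228) (nat_lit 11357709782) (nat_lit 34) (nat_lit 5) (nat_lit 36) (nat_lit 5) (nat_lit 37) (nat_lit 5) (nat_lit 326) (nat_lit 288) (nat_lit 166)) (XT.lf (nat_lit 0) (nat_lit 9016893174) (nat_lit 152) (nat_lit 38443327567) (nat_lit 228) (nat_lit 3079667664) (nat_lit 32) (nat_lit 5) (nat_lit 34) (nat_lit 5) (nat_lit 35) (nat_lit 5) (nat_lit 327) (nat_lit 288) (nat_lit 165))))) (XT.nd (nat_lit 156) (nat_lit 152) (nat_lit 0) (XT.nd (nat_lit 78) (nat_lit 152) (nat_lit 0) (XT.lf (nat_lit 0) (nat_lit 5707455996) (nat_lit 228) (nat_lit 18960879954) (nat_lit 76) (nat_lit 27632093155) (nat_lit 31) (nat_lit 5) (nat_lit 34) (nat_lit 5) (nat_lit 32) (nat_lit 5)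 (nat_lit 328) (nat_lit 288) (nat_lit 164)) (XT.lf (nat_lit 0) (nat_lit 4827816425) (nat_lit 152) (nat_lit 10074473346) (nat_lit 228) (nat_lit 39240593799) (nat_lit 29) (nat_lit 5) (nat_lit 31) (nat_lit 5) (nat_lit 32) (nat_lit 5) (nat_lit 329) (nat_lit 288) (nat_lit 163))) (XT.nd (nat_lit 78) (nat_lit 152) (nat_lit 0) (XT.lf (nat_lit 0) (nat_lit 24961719962) (nat_lit 228) (nat_lit 25690008455) (nat_lit 76) (nat_lit 5405493031) (nat_lit 29) (nat_lit 5) (nat_lit 32) (nat_lit 5) (nat_lit 30) (nat_lit 5) (nat_lit 330) (nat_lit 288) (nat_lit 162)) (XT.nd (nat_lit 78) (nat_lit 152) (nat_lit 0) (XT.lf (nat_lit 0) (nat_lit 35685968426) (nat_lit 228) (nat_lit 1054197680) (nat_lit 76) (nat_lit 21319021037) (nat_lit 29) (nat_lit 5) (nat_lit 32) (nat_lit 5) (nat_lit 30) (nat_lit 5) (nat_lit 331) (nat_lit 288) (nat_lit 161)) (XT.lf (nat_lit 0) (nat_lit 25628587485) (nat_lit 152) (nat_lit 21714824916)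 (nat_lit 228) (nat_lit 12797992676) (nat_lit 27) (nat_lit 5) (nat_lit 29) (nat_lit 5) (nat_lit 30) (nat_lit 5) (nat_lit 332) (nat_lit 288) (nat_lit 160))))))) (XT.nd (nat_lit 780) (nat_lit 380) (nat_lit 0) (XT.nd (nat_lit 390) (nat_lit 304) (nat_lit 0) (XT.nd (nat_lit 156) (nat_lit 152) (nat_lit 0) (XT.nd (nat_lit 78) (nat_lit 152) (nat_lit 0) (XT.lf (nat_lit 0) (nat_lit 53677102385) (nat_lit 152) (nat_lit 5921400394) (nat_lit 228) (nat_lit 2728495376) (nat_lit 27) (nat_lit 5) (nat_lit 29) (nat_lit 5) (nat_lit 30) (nat_lit 5) (nat_lit 333) (nat_lit 288) (nat_lit 159)) (XT.lf (nat_lit 0) (nat_lit 8060150690) (nat_lit 152) (nat_lit 45787861006) (nat_lit 76) (nat_lit 10744400855) (nat_lit 25) (nat_lit 5) (nat_lit 27) (nat_lit 5) (nat_lit 26) (nat_lit 5) (nat_lit 334) (nat_lit 288) (nat_lit 158))) (XT.nd (nat_lit 78) (nat_lit 152) (nat_lit 0) (XT.lf (nat_lit 0) (nat_lit 19539552115) (nat_lit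 152) (nat_lit 19180862301) (nat_lit 76) (nat_lit 28236298415) (nat_lit 25) (nat_lit 5) (nat_lit 27) (nat_lit 5) (nat_lit 26) (nat_lit 5) (nat_lit 335) (nat_lit 288) (nat_lit 157)) (XT.nd (nat_lit 78) (nat_lit 0) (nat_lit 0) (XT.lf (nat_lit 0) (nat_lit 9041182376) (nat_lit 152) (nat_lit 22690094291) (nat_lit 228) (nat_lit 37701036242) (nat_lit 23) (nat_lit 5) (nat_lit 25) (nat_lit 5) (nat_lit 26) (nat_lit 5) (nat_lit 336) (nat_lit 288) (nat_lit 156)) (XT.lf (nat_lit 0) (nat_lit 39335642710) (nat_lit 152) (nat_lit 5519038496) (nat_lit 228) (nat_lit 27160909412) (nat_lit 23) (nat_lit 5) (nat_lit 25) (nat_lit 5) (nat_lit 26) (nat_lit 5) (nat_lit 337) (nat_lit 288) (nat_lit 155))))) (XT.nd (nat_lit 156) (nat_lit 228) (nat_lit 0) (XT.nd (nat_lit 78) (nat_lit 76) (nat_lit 0) (XT.lf (nat_lit 0) (nat_lit 58826940601) (nat_lit 228) (nat_lit 3783020036) (nat_lit 76) (nat_lit 12108439553) (nat_lit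 23) (nat_lit 5) (nat_lit 26) (nat_lit 5) (nat_lit 24) (nat_lit 4) (nat_lit 338) (nat_lit 288) (nat_lit 154)) (XT.lf (nat_lit 0) (nat_lit 27339022576) (nat_lit 76) (nat_lit 46673590493) (nat_lit 152) (nat_lit 3517999270) (nat_lit 22) (nat_lit 5) (nat_lit 23) (nat_lit 5) (nat_lit 24) (nat_lit 4) (nat_lit 339) (nat_lit 288) (nat_lit 153))) (XT.nd (nat_lit 78) (nat_lit 152) (nat_lit 0) (XT.lf (nat_lit 0) (nat_lit 9233517270) (nat_lit 152) (nat_lit 20484985348) (nat_lit 76) (nat_lit 50754407763) (nat_lit 21) (nat_lit 5) (nat_lit 23) (nat_lit 5) (nat_lit 22) (nat_lit 5) (nat_lit 340) (nat_lit 288) (nat_lit 152)) (XT.nd (nat_lit 78) (nat_lit 0) (nat_lit 0) (XT.lf (nat_lit 0) (nat_lit 10997168790) (nat_lit 152) (nat_lit 11676525916) (nat_lit 228) (nat_lit 60877281182) (nat_lit 19) (nat_lit 5) (nat_lit 21) (nat_lit 5) (nat_lit 22) (nat_lit 5) (nat_lit 341) (nat_lit 288) (nat_lit 151)) (XT.lf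 (nat_lit 0) (nat_lit 37249598917) (nat_lit 228) (nat_lit 42124242105) (nat_lit 76) (nat_lit 7385919485) (nat_lit 19) (nat_lit 5) (nat_lit 22) (nat_lit 5) (nat_lit 20) (nat_lit 4) (nat_lit 342) (nat_lit 288) (nat_lit 150)))))) (XT.nd (nat_lit 390) (nat_lit 76) (nat_lit 0) (XT.nd (nat_lit 156) (nat_lit 228) (nat_lit 0) (XT.nd (nat_lit 78) (nat_lit 76) (nat_lit 0) (XT.lf (nat_lit 0) (nat_lit 52743469823) (nat_lit 228) (nat_lit 10368534061) (nat_lit 76) (nat_lit 27007523546) (nat_lit 19) (nat_lit 5) (nat_lit 22) (nat_lit 5) (nat_lit 20) (nat_lit 4) (nat_lit 343) (nat_lit 288) (nat_lit 149)) (XT.lf (nat_lit 0) (nat_lit 23730761731) (nat_lit 76) (nat_lit 45649636266) (nat_lit 152) (nat_lit 24248468084) (nat_lit 18) (nat_lit 5) (nat_lit 19) (nat_lit 5) (nat_lit 20) (nat_lit 4) (nat_lit 344) (nat_lit 288) (nat_lit 148))) (XT.nd (nat_lit 78) (nat_lit 228) (nat_lit 0) (XT.lf (nat_lit 0) (nat_lit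 59891324338) (nat_lit 76) (nat_lit 27131349015) (nat_lit 152) (nat_lit 10282324769) (nat_lit 18) (nat_lit 5) (nat_lit 19) (nat_lit 5) (nat_lit 20) (nat_lit 4) (nat_lit 345) (nat_lit 288) (nat_lit 147)) (XT.nd (nat_lit 78) (nat_lit 152) (nat_lit 0) (XT.lf (nat_lit 0) (nat_lit 4239840639) (nat_lit 152) (nat_lit 3377002719) (nat_lit 76) (nat_lit 93544775383) (nat_lit 17) (nat_lit 5) (nat_lit 19) (nat_lit 5) (nat_lit 18) (nat_lit 5) (nat_lit 346) (nat_lit 288) (nat_lit 146)) (XT.lf (nat_lit 0) (nat_lit 19872055382) (nat_lit 228) (nat_lit 72135145439) (nat_lit 76) (nat_lit 13158967997) (nat_lit 15) (nat_lit 5) (nat_lit 18) (nat_lit 5) (nat_lit 16) (nat_lit 4) (nat_lit 347) (nat_lit 288) (nat_lit 145))))) (XT.nd (nat_lit 156) (nat_lit 76) (nat_lit 0) (XT.nd (nat_lit 78) (nat_lit 0) (nat_lit 0) (XT.lf (nat_lit 0) (nat_lit 36466960184) (nat_lit 228) (nat_lit 38120610618) (nat_lit 76) (nat_lit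 34774322857) (nat_lit 15) (nat_lit 5) (nat_lit 18) (nat_lit 5) (nat_lit 16) (nat_lit 4) (nat_lit 348) (nat_lit 288) (nat_lit 144)) (XT.lf (nat_lit 0) (nat_lit 53889785754) (nat_lit 228) (nat_lit 2408599177) (nat_lit 76) (nat_lit 57469112209) (nat_lit 15) (nat_lit 5) (nat_lit 18) (nat_lit 5) (nat_lit 16) (nat_lit 4) (nat_lit 349) (nat_lit 288) (nat_lit 143))) (XT.nd (nat_lit 78) (nat_lit 0) (nat_lit 0) (XT.lf (nat_lit 0) (nat_lit 36246016367) (nat_lit 76) (nat_lit 36501900536) (nat_lit 152) (nat_lit 45617256791) (nat_lit 14) (nat_lit 5) (nat_lit 15) (nat_lit 5) (nat_lit 16) (nat_lit 4) (nat_lit 350) (nat_lit 288) (nat_lit 142)) (XT.nd (nat_lit 78) (nat_lit 0) (nat_lit 0) (XT.lf (nat_lit 0) (nat_lit 76913938387) (nat_lit 76) (nat_lit 15674104617) (nat_lit 152) (nat_lit 30602737714) (nat_lit 14) (nat_lit 5) (nat_lit 15) (nat_lit 5) (nat_lit 16) (nat_lit 4) (nat_lit 351) (nat_lit 288) (nat_lit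 141)) (XT.lf (nat_lit 0) (nat_lit 113515256685) (nat_lit 152) (nat_lit 8742096679) (nat_lit 0) (nat_lit 5995561677) (nat_lit 14) (nat_lit 5) (nat_lit 16) (nat_lit 4) (nat_lit 14) (nat_lit 4) (nat_lit 352) (nat_lit 288) (nat_lit 140))))))))
noncomputable def xc185 : XT := (XT.nd (nat_lit 1560) (nat_lit 152) (nat_lit 0) (XT.nd (nat_lit 780) (nat_lit 152) (nat_lit 0) (XT.nd (nat_lit 390) (nat_lit 152) (nat_lit 0) (XT.nd (nat_lit 156) (nat_lit 76) (nat_lit 0) (XT.nd (nat_lit 78) (nat_lit 0) (nat_lit 0) (XT.lf (nat_lit 0) (nat_lit 2617294777) (nat_lit 152) (nat_lit 102157986733) (nat_lit 76) (nat_lit 28753471461) (nat_lit 12) (nat_lit 5) (nat_lit 14) (nat_lit 5) (nat_lit 13) (nat_lit 4) (nat_lit 353) (nat_lit 288) (nat_lit 139)) (XT.lf (nat_lit 0) (nat_lit 20493634268) (nat_lit 152) (nat_lit 65515058416) (nat_lit 76) (nat_lit 53040164907) (nat_lit 12) (nat_lit 5) (nat_lit 14) (nat_lit 5)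 (nat_lit 13) (nat_lit 4) (nat_lit 354) (nat_lit 288) (nat_lit 138))) (XT.nd (nat_lit 78) (nat_lit 76) (nat_lit 0) (XT.lf (nat_lit 0) (nat_lit 39262306873) (nat_lit 152) (nat_lit 27042677326) (nat_lit 76) (nat_lit 78540058268) (nat_lit 12) (nat_lit 5) (nat_lit 14) (nat_lit 5) (nat_lit 13) (nat_lit 4) (nat_lit 355) (nat_lit 288) (nat_lit 137)) (XT.nd (nat_lit 78) (nat_lit 0) (nat_lit 0) (XT.lf (nat_lit 0) (nat_lit 13792193776) (nat_lit 76) (nat_lit 45391140929) (nat_lit 152) (nat_lit 91737006595) (nat_lit 11) (nat_lit 5) (nat_lit 12) (nat_lit 5) (nat_lit 13) (nat_lit 4) (nat_lit 356) (nat_lit 288) (nat_lit 136)) (XT.lf (nat_lit 0) (nat_lit 57605145129) (nat_lit 76) (nat_lit 22951864314) (nat_lit 152) (nat_lit 76719566611) (nat_lit 11) (nat_lit 5) (nat_lit 12) (nat_lit 5) (nat_lit 13) (nat_lit 4) (nat_lit 357) (nat_lit 288) (nat_lit 135))))) (XT.nd (nat_lit 156) (nat_lit 152) (nat_lit 0)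 (XT.nd (nat_lit 78) (nat_lit 0) (nat_lit 0) (XT.lf (nat_lit 0) (nat_lit 103007545711) (nat_lit 152) (nat_lit 60353846128) (nat_lit 0) (nat_lit 588822535) (nat_lit 11) (nat_lit 5) (nat_lit 13) (nat_lit 4) (nat_lit 11) (nat_lit 4) (nat_lit 358) (nat_lit 288) (nat_lit 134)) (XT.lf (nat_lit 0) (nat_lit 126955596219) (nat_lit 152) (nat_lit 19448978887) (nat_lit 0) (nat_lit 24534210817) (nat_lit 11) (nat_lit 5) (nat_lit 13) (nat_lit 4) (nat_lit 11) (nat_lit 4) (nat_lit 359) (nat_lit 288) (nat_lit 133))) (XT.nd (nat_lit 78) (nat_lit 76) (nat_lit 0) (XT.lf (nat_lit 0) (nat_lit 24275886227) (nat_lit 76) (nat_lit 128202965601) (nat_lit 76) (nat_lit 25779044745) (nat_lit 10) (nat_lit 4) (nat_lit 11) (nat_lit 5) (nat_lit 11) (nat_lit 4) (nat_lit 360) (nat_lit 288) (nat_lit 132)) (XT.nd (nat_lit 78) (nat_lit 76) (nat_lit 0) (XT.lf (nat_lit 0) (nat_lit 70860029668) (nat_lit 76) (nat_lit 108746429908)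 (nat_lit 76) (nat_lit 6320094334) (nat_lit 10) (nat_lit 4) (nat_lit 11) (nat_lit 5) (nat_lit 11) (nat_lit 4) (nat_lit 361) (nat_lit 288) (nat_lit 131)) (XT.lf (nat_lit 0) (nat_lit 13658986709) (nat_lit 152) (nat_lit 74427712550) (nat_lit 76) (nat_lit 105880986728) (nat_lit 9) (nat_lit 5) (nat_lit 11) (nat_lit 5) (nat_lit 10) (nat_lit 4) (nat_lit 362) (nat_lit 288) (nat_lit 130)))))) (XT.nd (nat_lit 390) (nat_lit 76) (nat_lit 0) (XT.nd (nat_lit 156) (nat_lit 0) (nat_lit 0) (XT.nd (nat_lit 78) (nat_lit 76) (nat_lit 0) (XT.lf (nat_lit 0) (nat_lit 34423528961) (nat_lit 152) (nat_lit 31862591155) (nat_lit 76) (nat_lit 136119629497) (nat_lit 9) (nat_lit 5) (nat_lit 11) (nat_lit 5) (nat_lit 10) (nat_lit 4) (nat_lit 363) (nat_lit 288) (nat_lit 129)) (XT.lf (nat_lit 0) (nat_lit 13253039898) (nat_lit 76) (nat_lit 43179131491) (nat_lit 152) (nat_lit 154823251888) (nat_lit 8) (nat_lit 5) (nat_lit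 9) (nat_lit 5) (nat_lit 10) (nat_lit 4) (nat_lit 364) (nat_lit 288) (nat_lit 128))) (XT.nd (nat_lit 78) (nat_lit 0) (nat_lit 0) (XT.lf (nat_lit 0) (nat_lit 61728754339) (nat_lit 76) (nat_lit 18351076091) (nat_lit 152) (nat_lit 140440821455) (nat_lit 8) (nat_lit 5) (nat_lit 9) (nat_lit 5) (nat_lit 10) (nat_lit 4) (nat_lit 365) (nat_lit 288) (nat_lit 127)) (XT.nd (nat_lit 78) (nat_lit 0) (nat_lit 0) (XT.lf (nat_lit 0) (nat_lit 105029389892) (nat_lit 152) (nat_lit 117743234388) (nat_lit 0) (nat_lit 7470542235) (nat_lit 8) (nat_lit 5) (nat_lit 10) (nat_lit 4) (nat_lit 8) (nat_lit 4) (nat_lit 366) (nat_lit 288) (nat_lit 126)) (XT.lf (nat_lit 0) (nat_lit 131526323584) (nat_lit 152) (nat_lit 74944729087) (nat_lit 0) (nat_lit 33965759833) (nat_lit 8) (nat_lit 5) (nat_lit 10) (nat_lit 4) (nat_lit 8) (nat_lit 4) (nat_lit 367) (nat_lit 288) (nat_lit 125))))) (XT.nd (nat_lit 156) (nat_lit 0) (nat_lit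 0) (XT.nd (nat_lit 78) (nat_lit 76) (nat_lit 0) (XT.lf (nat_lit 0) (nat_lit 159347207719) (nat_lit 152) (nat_lit 30007968715) (nat_lit 0) (nat_lit 61785009591) (nat_lit 8) (nat_lit 5) (nat_lit 10) (nat_lit 4) (nat_lit 8) (nat_lit 4) (nat_lit 368) (nat_lit 288) (nat_lit 124)) (XT.lf (nat_lit 0) (nat_lit 17741890303) (nat_lit 76) (nat_lit 171093392821) (nat_lit 76) (nat_lit 73529638145) (nat_lit 7) (nat_lit 4) (nat_lit 8) (nat_lit 5) (nat_lit 8) (nat_lit 4) (nat_lit 369) (nat_lit 288) (nat_lit 123))) (XT.nd (nat_lit 78) (nat_lit 0) (nat_lit 0) (XT.lf (nat_lit 0) (nat_lit 68919486182) (nat_lit 76) (nat_lit 151385638237) (nat_lit 76) (nat_lit 53820401133) (nat_lit 7) (nat_lit 4) (nat_lit 8) (nat_lit 5) (nat_lit 8) (nat_lit 4) (nat_lit 370) (nat_lit 288) (nat_lit 122)) (XT.nd (nat_lit 78) (nat_lit 0) (nat_lit 0) (XT.lf (nat_lit 0) (nat_lit 122654471373) (nat_lit 76) (nat_lit 130693188925)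 (nat_lit 76) (nat_lit 33126539986) (nat_lit 7) (nat_lit 4) (nat_lit 8) (nat_lit 5) (nat_lit 8) (nat_lit 4) (nat_lit 371) (nat_lit 288) (nat_lit 121)) (XT.lf (nat_lit 0) (nat_lit 179074786318) (nat_lit 76) (nat_lit 108966777151) (nat_lit 76) (nat_lit 11398783606) (nat_lit 7) (nat_lit 4) (nat_lit 8) (nat_lit 5) (nat_lit 8) (nat_lit 4) (nat_lit 372) (nat_lit 288) (nat_lit 120))))))) (XT.nd (nat_lit 34086) (nat_lit 0) (nat_lit 5928) (XT.nd (nat_lit 390) (nat_lit 0) (nat_lit 0) (XT.nd (nat_lit 156) (nat_lit 76) (nat_lit 0) (XT.nd (nat_lit 78) (nat_lit 0) (nat_lit 0) (XT.lf (nat_lit 0) (nat_lit 11049262249) (nat_lit 152) (nat_lit 74918286509) (nat_lit 76) (nat_lit 227078378248) (nat_lit 6) (nat_lit 5) (nat_lit 8) (nat_lit 5) (nat_lit 7) (nat_lit 4) (nat_lit 373) (nat_lit 288) (nat_lit 119)) (XT.lf (nat_lit 0) (nat_lit 34235936034) (nat_lit 152) (nat_lit 27386824847) (nat_lit 76) (nat_lit 265699717111)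 (nat_lit 6) (nat_lit 5) (nat_lit 8) (nat_lit 5) (nat_lit 7) (nat_lit 4) (nat_lit 374) (nat_lit 288) (nat_lit 118))) (XT.nd (nat_lit 78) (nat_lit 0) (nat_lit 0) (XT.lf (nat_lit 0) (nat_lit 23264572957) (nat_lit 76) (nat_lit 35679928601) (nat_lit 152) (nat_lit 283350227350) (nat_lit 5) (nat_lit 5) (nat_lit 6) (nat_lit 5) (nat_lit 7) (nat_lit 4) (nat_lit 375) (nat_lit 288) (nat_lit 117)) (XT.nd (nat_lit 78) (nat_lit 0) (nat_lit 0) (XT.lf (nat_lit 0) (nat_lit 77398120941) (nat_lit 76) (nat_lit 7953529004) (nat_lit 152) (nat_lit 272640784966) (nat_lit 5) (nat_lit 5) (nat_lit 6) (nat_lit 5) (nat_lit 7) (nat_lit 4) (nat_lit 376) (nat_lit 288) (nat_lit 116)) (XT.lf (nat_lit 0) (nat_lit 113408878109) (nat_lit 152) (nat_lit 240568226979) (nat_lit 0) (nat_lit 20481435269) (nat_lit 5) (nat_lit 5) (nat_lit 7) (nat_lit 4) (nat_lit 5) (nat_lit 4) (nat_lit 377) (nat_lit 288) (nat_lit 115))))) (XT.nd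 (nat_lit 156) (nat_lit 0) (nat_lit 0) (XT.nd (nat_lit 78) (nat_lit 0) (nat_lit 0) (XT.lf (nat_lit 0) (nat_lit 142998751584) (nat_lit 152) (nat_lit 198672357381) (nat_lit 0) (nat_lit 50070353158) (nat_lit 5) (nat_lit 5) (nat_lit 7) (nat_lit 4) (nat_lit 5) (nat_lit 4) (nat_lit 378) (nat_lit 288) (nat_lit 114)) (XT.lf (nat_lit 0) (nat_lit 174067545574) (nat_lit 152) (nat_lit 154682776231) (nat_lit 0) (nat_lit 81138237066) (nat_lit 5) (nat_lit 5) (nat_lit 7) (nat_lit 4) (nat_lit 5) (nat_lit 4) (nat_lit 379) (nat_lit 288) (nat_lit 113))) (XT.nd (nat_lit 78) (nat_lit 0) (nat_lit 0) (XT.lf (nat_lit 0) (nat_lit 206689233397) (nat_lit 152) (nat_lit 108494746429) (nat_lit 0) (nat_lit 113759058145) (nat_lit 5) (nat_lit 5) (nat_lit 7) (nat_lit 4) (nat_lit 5) (nat_lit 4) (nat_lit 380) (nat_lit 288) (nat_lit 112)) (XT.nd (nat_lit 78) (nat_lit 0) (nat_lit 0) (XT.lf (nat_lit 0) (nat_lit 240941485740)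 (nat_lit 152) (nat_lit 59998296477) (nat_lit 0) (nat_lit 148010485017) (nat_lit 5) (nat_lit 5) (nat_lit 7) (nat_lit 4) (nat_lit 5) (nat_lit 4) (nat_lit 381) (nat_lit 288) (nat_lit 111)) (XT.lf (nat_lit 0) (nat_lit 276905855583) (nat_lit 152) (nat_lit 9077958637) (nat_lit 0) (nat_lit 183974068697) (nat_lit 5) (nat_lit 5) (nat_lit 7) (nat_lit 4) (nat_lit 5) (nat_lit 4) (nat_lit 382) (nat_lit 288) (nat_lit 110)))))) (XT.nd (nat_lit 390) (nat_lit 532) (nat_lit 0) (XT.nd (nat_lit 156) (nat_lit 0) (nat_lit 0) (XT.nd (nat_lit 78) (nat_lit 0) (nat_lit 0) (XT.lf (nat_lit 0) (nat_lit 2768887749) (nat_lit 0) (nat_lit 2768887749) (nat_lit 684) (nat_lit 2953153713) (nat_lit 90) (nat_lit 5) (nat_lit 90) (nat_lit 3) (nat_lit 99) (nat_lit 3) (nat_lit 289) (nat_lit 289) (nat_lit 202)) (XT.lf (nat_lit 0) (nat_lit 11601143458) (nat_lit 684) (nat_lit 3774575729) (nat_lit 760) (nat_lit 2017814415) (nat_lit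 90) (nat_lit 5) (nat_lit 99) (nat_lit 3) (nat_lit 100) (nat_lit 5) (nat_lit 290) (nat_lit 289) (nat_lit 201))) (XT.nd (nat_lit 78) (nat_lit 0) (nat_lit 0) (XT.lf (nat_lit 76) (nat_lit 4318083059) (nat_lit 0) (nat_lit 7979404249) (nat_lit 760) (nat_lit 5521109557) (nat_lit 91) (nat_lit 5) (nat_lit 90) (nat_lit 5) (nat_lit 100) (nat_lit 5) (nat_lit 291) (nat_lit 289) (nat_lit 200)) (XT.nd (nat_lit 78) (nat_lit 0) (nat_lit 76) (XT.lf (nat_lit 76) (nat_lit 12938798283) (nat_lit 0) (nat_lit 140580284) (nat_lit 760) (nat_lit 5183024801) (nat_lit 91) (nat_lit 5) (nat_lit 90) (nat_lit 5) (nat_lit 100) (nat_lit 5) (nat_lit 292) (nat_lit 289) (nat_lit 199)) (XT.lf (nat_lit 76) (nat_lit 3231264449) (nat_lit 0) (nat_lit 10833376595) (nat_lit 760) (nat_lit 4655570640) (nat_lit 92) (nat_lit 5) (nat_lit 91) (nat_lit 5) (nat_lit 101) (nat_lit 5) (nat_lit 293) (nat_lit 289) (nat_lit 198))))) (XT.nd (nat_lit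 156) (nat_lit 608) (nat_lit 0) (XT.nd (nat_lit 78) (nat_lit 0) (nat_lit 76) (XT.lf (nat_lit 76) (nat_lit 12388454356) (nat_lit 0) (nat_lit 2791126257) (nat_lit 760) (nat_lit 4017333219) (nat_lit 92) (nat_lit 5) (nat_lit 91) (nat_lit 5) (nat_lit 101) (nat_lit 5) (nat_lit 294) (nat_lit 289) (nat_lit 197)) (XT.lf (nat_lit 76) (nat_lit 2282702681) (nat_lit 0) (nat_lit 14180089055) (nat_lit 760) (nat_lit 3229056089) (nat_lit 93) (nat_lit 5) (nat_lit 92) (nat_lit 5) (nat_lit 102) (nat_lit 5) (nat_lit 295) (nat_lit 289) (nat_lit 196))) (XT.nd (nat_lit 78) (nat_lit 684) (nat_lit 0) (XT.lf (nat_lit 76) (nat_lit 12009511765) (nat_lit 0) (nat_lit 5950013328) (nat_lit 760) (nat_lit 2244557213) (nat_lit 93) (nat_lit 5) (nat_lit 92) (nat_lit 5) (nat_lit 102) (nat_lit 5) (nat_lit 296) (nat_lit 289) (nat_lit 195)) (XT.nd (nat_lit 78) (nat_lit 760) (nat_lit 0) (XT.lf (nat_lit 76) (nat_lit 1477787032)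 (nat_lit 0) (nat_lit 18108008070) (nat_lit 760) (nat_lit 1153419241) (nat_lit 94) (nat_lit 5) (nat_lit 93) (nat_lit 5) (nat_lit 103) (nat_lit 5) (nat_lit 297) (nat_lit 289) (nat_lit 194)) (XT.lf (nat_lit 0) (nat_lit 220907992) (nat_lit 760) (nat_lit 9484045398) (nat_lit 836) (nat_lit 11584755260) (nat_lit 83) (nat_lit 5) (nat_lit 93) (nat_lit 5) (nat_lit 94) (nat_lit 5) (nat_lit 298) (nat_lit 289) (nat_lit 193))))))))
noncomputable def xc186 : XT := (XT.nd (nat_lit 1560) (nat_lit 1672) (nat_lit 0) (XT.nd (nat_lit 780) (nat_lit 1444) (nat_lit 0) (XT.nd (nat_lit 390) (nat_lit 988) (nat_lit 0) (XT.nd (nat_lit 156) (nat_lit 456) (nat_lit 0) (XT.nd (nat_lit 78) (nat_lit 0) (nat_lit 76) (XT.lf (nat_lit 76) (nat_lit 780226191) (nat_lit 0) (nat_lit 847420510) (nat_lit 836) (nat_lit 20239030662) (nat_lit 84) (nat_lit 5) (nat_lit 83) (nat_lit 5) (nat_lit 94) (nat_lit 5) (nat_lit 299) (nat_lit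 289) (nat_lit 192)) (XT.lf (nat_lit 0) (nat_lit 3390585669) (nat_lit 760) (nat_lit 10720518199) (nat_lit 76) (nat_lit 8347114615) (nat_lit 84) (nat_lit 5) (nat_lit 94) (nat_lit 5) (nat_lit 85) (nat_lit 5) (nat_lit 300) (nat_lit 289) (nat_lit 191))) (XT.nd (nat_lit 78) (nat_lit 0) (nat_lit 0) (XT.lf (nat_lit 0) (nat_lit 146486213) (nat_lit 532) (nat_lit 5102448870) (nat_lit 608) (nat_lit 17830054724) (nat_lit 77) (nat_lit 5) (nat_lit 84) (nat_lit 5) (nat_lit 85) (nat_lit 5) (nat_lit 301) (nat_lit 289) (nat_lit 190)) (XT.nd (nat_lit 78) (nat_lit 0) (nat_lit 0) (XT.lf (nat_lit 0) (nat_lit 7444151732) (nat_lit 608) (nat_lit 11872034200) (nat_lit 76) (nat_lit 4402431821) (nat_lit 77) (nat_lit 5) (nat_lit 85) (nat_lit 5) (nat_lit 78) (nat_lit 5) (nat_lit 302) (nat_lit 289) (nat_lit 189)) (XT.lf (nat_lit 0) (nat_lit 9824582498) (nat_lit 608) (nat_lit 350140136) (nat_lit 76) (nat_lit 14211746601)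 (nat_lit 77) (nat_lit 5) (nat_lit 85) (nat_lit 5) (nat_lit 78) (nat_lit 5) (nat_lit 303) (nat_lit 289) (nat_lit 188))))) (XT.nd (nat_lit 156) (nat_lit 608) (nat_lit 0) (XT.nd (nat_lit 78) (nat_lit 0) (nat_lit 0) (XT.lf (nat_lit 0) (nat_lit 12128461723) (nat_lit 380) (nat_lit 377129103) (nat_lit 456) (nat_lit 12573058766) (nat_lit 72) (nat_lit 5) (nat_lit 77) (nat_lit 5) (nat_lit 78) (nat_lit 5) (nat_lit 304) (nat_lit 289) (nat_lit 187)) (XT.lf (nat_lit 0) (nat_lit 15473858321) (nat_lit 456) (nat_lit 724661792) (nat_lit 76) (nat_lit 9599271841) (nat_lit 72) (nat_lit 5) (nat_lit 78) (nat_lit 5) (nat_lit 73) (nat_lit 5) (nat_lit 305) (nat_lit 289) (nat_lit 186))) (XT.nd (nat_lit 78) (nat_lit 304) (nat_lit 0) (XT.lf (nat_lit 0) (nat_lit 12498518688) (nat_lit 304) (nat_lit 6286152712) (nat_lit 380) (nat_lit 7758526214) (nat_lit 68) (nat_lit 5) (nat_lit 72) (nat_lit 5) (nat_lit 73) (nat_lit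 5) (nat_lit 306) (nat_lit 289) (nat_lit 185)) (XT.nd (nat_lit 78) (nat_lit 304) (nat_lit 0) (XT.lf (nat_lit 0) (nat_lit 22330886455) (nat_lit 380) (nat_lit 989501367) (nat_lit 76) (nat_lit 4002004849) (nat_lit 68) (nat_lit 5) (nat_lit 73) (nat_lit 5) (nat_lit 69) (nat_lit 5) (nat_lit 307) (nat_lit 289) (nat_lit 184)) (XT.lf (nat_lit 0) (nat_lit 13024925492) (nat_lit 304) (nat_lit 13329260013) (nat_lit 380) (nat_lit 1771384913) (nat_lit 64) (nat_lit 5) (nat_lit 68) (nat_lit 5) (nat_lit 69) (nat_lit 5) (nat_lit 308) (nat_lit 289) (nat_lit 183)))))) (XT.nd (nat_lit 390) (nat_lit 760) (nat_lit 0) (XT.nd (nat_lit 156) (nat_lit 304) (nat_lit 0) (XT.nd (nat_lit 78) (nat_lit 304) (nat_lit 0) (XT.lf (nat_lit 0) (nat_lit 1568706102) (nat_lit 380) (nat_lit 1226495036) (nat_lit 76) (nat_lit 26171935533) (nat_lit 63) (nat_lit 5) (nat_lit 68) (nat_lit 5) (nat_lit 64) (nat_lit 5) (nat_lit 309) (nat_lit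 289) (nat_lit 182)) (XT.lf (nat_lit 0) (nat_lit 5357666156) (nat_lit 380) (nat_lit 16226786973) (nat_lit 76) (nat_lit 8247816441) (nat_lit 59) (nat_lit 5) (nat_lit 64) (nat_lit 5) (nat_lit 60) (nat_lit 5) (nat_lit 310) (nat_lit 289) (nat_lit 181))) (XT.nd (nat_lit 78) (nat_lit 304) (nat_lit 0) (XT.lf (nat_lit 0) (nat_lit 9396947277) (nat_lit 380) (nat_lit 1571417764) (nat_lit 76) (nat_lit 19769259961) (nat_lit 59) (nat_lit 5) (nat_lit 64) (nat_lit 5) (nat_lit 60) (nat_lit 5) (nat_lit 311) (nat_lit 289) (nat_lit 180)) (XT.nd (nat_lit 78) (nat_lit 0) (nat_lit 0) (XT.lf (nat_lit 0) (nat_lit 13861578729) (nat_lit 380) (nat_lit 17417423357) (nat_lit 76) (nat_lit 398085896) (nat_lit 55) (nat_lit 5) (nat_lit 60) (nat_lit 5) (nat_lit 56) (nat_lit 5) (nat_lit 312) (nat_lit 289) (nat_lit 179)) (XT.lf (nat_lit 0) (nat_lit 18750676541) (nat_lit 380) (nat_lit 1912667639) (nat_lit 76) (nat_lit 11990126848)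 (nat_lit 55) (nat_lit 5) (nat_lit 60) (nat_lit 5) (nat_lit 56) (nat_lit 5) (nat_lit 313) (nat_lit 289) (nat_lit 178))))) (XT.nd (nat_lit 156) (nat_lit 532) (nat_lit 0) (XT.nd (nat_lit 78) (nat_lit 0) (nat_lit 0) (XT.lf (nat_lit 0) (nat_lit 14835402990) (nat_lit 228) (nat_lit 9275092782) (nat_lit 304) (nat_lit 9556872370) (nat_lit 52) (nat_lit 5) (nat_lit 55) (nat_lit 5) (nat_lit 56) (nat_lit 5) (nat_lit 314) (nat_lit 289) (nat_lit 177)) (XT.lf (nat_lit 0) (nat_lit 29807884664) (nat_lit 304) (nat_lit 2292358562) (nat_lit 76) (nat_lit 2628245803) (nat_lit 52) (nat_lit 5) (nat_lit 56) (nat_lit 5) (nat_lit 53) (nat_lit 5) (nat_lit 315) (nat_lit 289) (nat_lit 176))) (XT.nd (nat_lit 78) (nat_lit 228) (nat_lit 0) (XT.lf (nat_lit 0) (nat_lit 343153128) (nat_lit 304) (nat_lit 20420027736) (nat_lit 76) (nat_lit 15059833468) (nat_lit 48) (nat_lit 5) (nat_lit 52) (nat_lit 5) (nat_lit 49) (nat_lit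 5) (nat_lit 316) (nat_lit 289) (nat_lit 175)) (XT.nd (nat_lit 78) (nat_lit 228) (nat_lit 0) (XT.lf (nat_lit 0) (nat_lit 5739264772) (nat_lit 304) (nat_lit 2995563653) (nat_lit 76) (nat_lit 28231684432) (nat_lit 48) (nat_lit 5) (nat_lit 52) (nat_lit 5) (nat_lit 49) (nat_lit 5) (nat_lit 317) (nat_lit 289) (nat_lit 174)) (XT.lf (nat_lit 0) (nat_lit 11711992965) (nat_lit 304) (nat_lit 22420423018) (nat_lit 76) (nat_lit 4019436235) (nat_lit 45) (nat_lit 5) (nat_lit 49) (nat_lit 5) (nat_lit 46) (nat_lit 5) (nat_lit 318) (nat_lit 289) (nat_lit 173))))))) (XT.nd (nat_lit 780) (nat_lit 684) (nat_lit 0) (XT.nd (nat_lit 390) (nat_lit 532) (nat_lit 0) (XT.nd (nat_lit 156) (nat_lit 228) (nat_lit 0) (XT.nd (nat_lit 78) (nat_lit 228) (nat_lit 0) (XT.lf (nat_lit 0) (nat_lit 18173522377) (nat_lit 304) (nat_lit 4045589860) (nat_lit 76) (nat_lit 17167844223) (nat_lit 45) (nat_lit 5) (nat_lit 49) (nat_lit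 5) (nat_lit 46) (nat_lit 5) (nat_lit 319) (nat_lit 289) (nat_lit 172)) (XT.lf (nat_lit 0) (nat_lit 15745842428) (nat_lit 228) (nat_lit 9453749147) (nat_lit 304) (nat_lit 15472157030) (nat_lit 42) (nat_lit 5) (nat_lit 45) (nat_lit 5) (nat_lit 46) (nat_lit 5) (nat_lit 320) (nat_lit 289) (nat_lit 171))) (XT.nd (nat_lit 78) (nat_lit 228) (nat_lit 0) (XT.lf (nat_lit 0) (nat_lit 32703983863) (nat_lit 304) (nat_lit 5419047000) (nat_lit 76) (nat_lit 3891404094) (nat_lit 42) (nat_lit 5) (nat_lit 46) (nat_lit 5) (nat_lit 43) (nat_lit 5) (nat_lit 321) (nat_lit 289) (nat_lit 170)) (XT.nd (nat_lit 78) (nat_lit 76) (nat_lit 0) (XT.lf (nat_lit 0) (nat_lit 15395006756) (nat_lit 152) (nat_lit 25579845508) (nat_lit 228) (nat_lit 2429845850) (nat_lit 40) (nat_lit 5) (nat_lit 42) (nat_lit 5) (nat_lit 43) (nat_lit 5) (nat_lit 322) (nat_lit 289) (nat_lit 169)) (XT.lf (nat_lit 0) (nat_lit 4730556487) (nat_lit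 228) (nat_lit 7504298729) (nat_lit 76) (nat_lit 32621419526) (nat_lit 39) (nat_lit 5) (nat_lit 42) (nat_lit 5) (nat_lit 40) (nat_lit 5) (nat_lit 323) (nat_lit 289) (nat_lit 168))))) (XT.nd (nat_lit 156) (nat_lit 304) (nat_lit 0) (XT.nd (nat_lit 78) (nat_lit 0) (nat_lit 0) (XT.lf (nat_lit 0) (nat_lit 12421033558) (nat_lit 304) (nat_lit 31956297313) (nat_lit 76) (nat_lit 1988426576) (nat_lit 36) (nat_lit 5) (nat_lit 40) (nat_lit 5) (nat_lit 37) (nat_lit 5) (nat_lit 324) (nat_lit 289) (nat_lit 167)) (XT.lf (nat_lit 0) (nat_lit 20821990643) (nat_lit 304) (nat_lit 10473313453) (nat_lit 76) (nat_lit 16639116754) (nat_lit 36) (nat_lit 5) (nat_lit 40) (nat_lit 5) (nat_lit 37) (nat_lit 5) (nat_lit 325) (nat_lit 289) (nat_lit 166))) (XT.nd (nat_lit 78) (nat_lit 152) (nat_lit 0) (XT.lf (nat_lit 0) (nat_lit 12477719759) (nat_lit 152) (nat_lit 17356480769) (nat_lit 228) (nat_lit 19737760812) (nat_lit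 34) (nat_lit 5) (nat_lit 36) (nat_lit 5) (nat_lit 37) (nat_lit 5) (nat_lit 326) (nat_lit 289) (nat_lit 165)) (XT.nd (nat_lit 78) (nat_lit 152) (nat_lit 0) (XT.lf (nat_lit 0) (nat_lit 36934537770) (nat_lit 152) (nat_lit 2536334367) (nat_lit 228) (nat_lit 11811818120) (nat_lit 34) (nat_lit 5) (nat_lit 36) (nat_lit 5) (nat_lit 37) (nat_lit 5) (nat_lit 327) (nat_lit 289) (nat_lit 164)) (XT.lf (nat_lit 0) (nat_lit 9635003019) (nat_lit 152) (nat_lit 40304778213) (nat_lit 228) (nat_lit 3121657971) (nat_lit 32) (nat_lit 5) (nat_lit 34) (nat_lit 5) (nat_lit 35) (nat_lit 5) (nat_lit 328) (nat_lit 289) (nat_lit 163)))))) (XT.nd (nat_lit 390) (nat_lit 304) (nat_lit 0) (XT.nd (nat_lit 156) (nat_lit 152) (nat_lit 0) (XT.nd (nat_lit 78) (nat_lit 152) (nat_lit 0) (XT.lf (nat_lit 0) (nat_lit 6096075080) (nat_lit 228) (nat_lit 19746104635) (nat_lit 76) (nat_lit 29068003180) (nat_lit 31) (nat_lit 5) (nat_lit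 34) (nat_lit 5) (nat_lit 32) (nat_lit 5) (nat_lit 329) (nat_lit 289) (nat_lit 162)) (XT.lf (nat_lit 0) (nat_lit 5229400445) (nat_lit 152) (nat_lit 10518834674) (nat_lit 228) (nat_lit 41096650752) (nat_lit 29) (nat_lit 5) (nat_lit 31) (nat_lit 5) (nat_lit 32) (nat_lit 5) (nat_lit 330) (nat_lit 289) (nat_lit 161))) (XT.nd (nat_lit 78) (nat_lit 152) (nat_lit 0) (XT.lf (nat_lit 0) (nat_lit 26306718029) (nat_lit 228) (nat_lit 26817929578) (nat_lit 76) (nat_lit 5730493754) (nat_lit 29) (nat_lit 5) (nat_lit 32) (nat_lit 5) (nat_lit 30) (nat_lit 5) (nat_lit 331) (nat_lit 289) (nat_lit 160)) (XT.nd (nat_lit 78) (nat_lit 152) (nat_lit 0) (XT.lf (nat_lit 0) (nat_lit 37562564056) (nat_lit 228) (nat_lit 957784422) (nat_lit 76) (nat_lit 22437092157) (nat_lit 29) (nat_lit 5) (nat_lit 32) (nat_lit 5) (nat_lit 30) (nat_lit 5) (nat_lit 332) (nat_lit 289) (nat_lit 159)) (XT.lf (nat_lit 0) (nat_lit 27056734790)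 (nat_lit 152) (nat_lit 22744041012) (nat_lit 228) (nat_lit 13343103217) (nat_lit 27) (nat_lit 5) (nat_lit 29) (nat_lit 5) (nat_lit 30) (nat_lit 5) (nat_lit 333) (nat_lit 289) (nat_lit 158))))) (XT.nd (nat_lit 156) (nat_lit 152) (nat_lit 0) (XT.nd (nat_lit 78) (nat_lit 152) (nat_lit 0) (XT.lf (nat_lit 0) (nat_lit 56500688867) (nat_lit 152) (nat_lit 6163636939) (nat_lit 228) (nat_lit 2774644818) (nat_lit 27) (nat_lit 5) (nat_lit 29) (nat_lit 5) (nat_lit 30) (nat_lit 5) (nat_lit 334) (nat_lit 289) (nat_lit 157)) (XT.lf (nat_lit 0) (nat_lit 8549433352) (nat_lit 152) (nat_lit 47933369008) (nat_lit 76) (nat_lit 11334842192) (nat_lit 25) (nat_lit 5) (nat_lit 27) (nat_lit 5) (nat_lit 26) (nat_lit 5) (nat_lit 335) (nat_lit 289) (nat_lit 156))) (XT.nd (nat_lit 78) (nat_lit 152) (nat_lit 0) (XT.lf (nat_lit 0) (nat_lit 20598696508) (nat_lit 152) (nat_lit 20002872037) (nat_lit 76) (nat_lit 29698800283)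 (nat_lit 25) (nat_lit 5) (nat_lit 27) (nat_lit 5) (nat_lit 26) (nat_lit 5) (nat_lit 336) (nat_lit 289) (nat_lit 155)) (XT.nd (nat_lit 78) (nat_lit 0) (nat_lit 0) (XT.lf (nat_lit 0) (nat_lit 9628064658) (nat_lit 152) (nat_lit 23770134892) (nat_lit 228) (nat_lit 39501643140) (nat_lit 23) (nat_lit 5) (nat_lit 25) (nat_lit 5) (nat_lit 26) (nat_lit 5) (nat_lit 337) (nat_lit 289) (nat_lit 154)) (XT.lf (nat_lit 0) (nat_lit 41430827858) (nat_lit 152) (nat_lit 5743119837) (nat_lit 228) (nat_lit 28438531155) (nat_lit 23) (nat_lit 5) (nat_lit 25) (nat_lit 5) (nat_lit 26) (nat_lit 5) (nat_lit 338) (nat_lit 289) (nat_lit 153))))))))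
noncomputable def xc187 : XT := (XT.nd (nat_lit 1560) (nat_lit 456) (nat_lit 0) (XT.nd (nat_lit 780) (nat_lit 304) (nat_lit 0) (XT.nd (nat_lit 390) (nat_lit 304) (nat_lit 0) (XT.nd (nat_lit 156) (nat_lit 228) (nat_lit 0) (XT.nd (nat_lit 78) (nat_lit 76) (nat_lit 0) (XT.lf (nat_lit 0) (nat_lit 61841946940) (nat_lit 228) (nat_lit 3846947737) (nat_lit 76) (nat_lit 12761680960) (nat_lit 23) (nat_lit 5) (nat_lit 26) (nat_lit 5) (nat_lit 24) (nat_lit 4) (nat_lit 339) (nat_lit 289) (nat_lit 152)) (XT.lf (nat_lit 0) (nat_lit 28829177275) (nat_lit 76) (nat_lit 48956141724) (nat_lit 152) (nat_lit 3618161530) (nat_lit 22) (nat_lit 5) (nat_lit 23) (nat_lit 5) (nat_lit 24) (nat_lit 4) (nat_lit 340) (nat_lit 289) (nat_lit 151))) (XT.nd (nat_lit 78) (nat_lit 152) (nat_lit 0) (XT.lf (nat_lit 0) (nat_lit 9765015632) (nat_lit 152) (nat_lit 21389536025) (nat_lit 76) (nat_lit 53338459908) (nat_lit 21) (nat_lit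 5) (nat_lit 23) (nat_lit 5) (nat_lit 22) (nat_lit 5) (nat_lit 341) (nat_lit 289) (nat_lit 150)) (XT.nd (nat_lit 78) (nat_lit 0) (nat_lit 0) (XT.lf (nat_lit 0) (nat_lit 11664795197) (nat_lit 152) (nat_lit 12210920550) (nat_lit 228) (nat_lit 63849341444) (nat_lit 19) (nat_lit 5) (nat_lit 21) (nat_lit 5) (nat_lit 22) (nat_lit 5) (nat_lit 342) (nat_lit 289) (nat_lit 149)) (XT.lf (nat_lit 0) (nat_lit 39177896075) (nat_lit 228) (nat_lit 44115726884) (nat_lit 76) (nat_lit 7800786450) (nat_lit 19) (nat_lit 5) (nat_lit 22) (nat_lit 5) (nat_lit 20) (nat_lit 4) (nat_lit 343) (nat_lit 289) (nat_lit 148))))) (XT.nd (nat_lit 156) (nat_lit 228) (nat_lit 0) (XT.nd (nat_lit 78) (nat_lit 76) (nat_lit 0) (XT.lf (nat_lit 0) (nat_lit 55443326373) (nat_lit 228) (nat_lit 10777696644) (nat_lit 76) (nat_lit 28401300666) (nat_lit 19) (nat_lit 5) (nat_lit 22) (nat_lit 5) (nat_lit 20) (nat_lit 4) (nat_lit 344)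 (nat_lit 289) (nat_lit 147)) (XT.lf (nat_lit 0) (nat_lit 25024801613) (nat_lit 76) (nat_lit 47885992840) (nat_lit 152) (nat_lit 25396402329) (nat_lit 18) (nat_lit 5) (nat_lit 19) (nat_lit 5) (nat_lit 20) (nat_lit 4) (nat_lit 345) (nat_lit 289) (nat_lit 146))) (XT.nd (nat_lit 78) (nat_lit 228) (nat_lit 0) (XT.lf (nat_lit 0) (nat_lit 62988273217) (nat_lit 76) (nat_lit 28443987666) (nat_lit 152) (nat_lit 10735022760) (nat_lit 18) (nat_lit 5) (nat_lit 19) (nat_lit 5) (nat_lit 20) (nat_lit 4) (nat_lit 346) (nat_lit 289) (nat_lit 145)) (XT.nd (nat_lit 78) (nat_lit 152) (nat_lit 0) (XT.lf (nat_lit 0) (nat_lit 4508454080) (nat_lit 152) (nat_lit 3446435583) (nat_lit 76) (nat_lit 98261941130) (nat_lit 17) (nat_lit 5) (nat_lit 19) (nat_lit 5) (nat_lit 18) (nat_lit 5) (nat_lit 347) (nat_lit 289) (nat_lit 144)) (XT.lf (nat_lit 0) (nat_lit 20921771831) (nat_lit 228) (nat_lit 75641941695) (nat_lit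 76) (nat_lit 13857922034) (nat_lit 15) (nat_lit 5) (nat_lit 18) (nat_lit 5) (nat_lit 16) (nat_lit 4) (nat_lit 348) (nat_lit 289) (nat_lit 143)))))) (XT.nd (nat_lit 390) (nat_lit 228) (nat_lit 0) (XT.nd (nat_lit 156) (nat_lit 76) (nat_lit 0) (XT.nd (nat_lit 78) (nat_lit 0) (nat_lit 0) (XT.lf (nat_lit 0) (nat_lit 38343749794) (nat_lit 228) (nat_lit 39931440182) (nat_lit 76) (nat_lit 36552091988) (nat_lit 15) (nat_lit 5) (nat_lit 18) (nat_lit 5) (nat_lit 16) (nat_lit 4) (nat_lit 349) (nat_lit 289) (nat_lit 142)) (XT.lf (nat_lit 0) (nat_lit 56635171803) (nat_lit 228) (nat_lit 2438361548) (nat_lit 76) (nat_lit 60379761141) (nat_lit 15) (nat_lit 5) (nat_lit 18) (nat_lit 5) (nat_lit 16) (nat_lit 4) (nat_lit 350) (nat_lit 289) (nat_lit 141))) (XT.nd (nat_lit 78) (nat_lit 0) (nat_lit 0) (XT.lf (nat_lit 0) (nat_lit 38147522393) (nat_lit 76) (nat_lit 38287656204) (nat_lit 152) (nat_lit 47845729377)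 (nat_lit 14) (nat_lit 5) (nat_lit 15) (nat_lit 5) (nat_lit 16) (nat_lit 4) (nat_lit 351) (nat_lit 289) (nat_lit 140)) (XT.nd (nat_lit 78) (nat_lit 0) (nat_lit 0) (XT.lf (nat_lit 0) (nat_lit 80844592646) (nat_lit 76) (nat_lit 16420343792) (nat_lit 152) (nat_lit 32082979121) (nat_lit 14) (nat_lit 5) (nat_lit 15) (nat_lit 5) (nat_lit 16) (nat_lit 4) (nat_lit 352) (nat_lit 289) (nat_lit 139)) (XT.lf (nat_lit 0) (nat_lit 119236806410) (nat_lit 152) (nat_lit 9096557148) (nat_lit 0) (nat_lit 6329879672) (nat_lit 14) (nat_lit 5) (nat_lit 16) (nat_lit 4) (nat_lit 14) (nat_lit 4) (nat_lit 353) (nat_lit 289) (nat_lit 138))))) (XT.nd (nat_lit 156) (nat_lit 76) (nat_lit 0) (XT.nd (nat_lit 78) (nat_lit 0) (nat_lit 0) (XT.lf (nat_lit 0) (nat_lit 2793797265) (nat_lit 152) (nat_lit 107183040093) (nat_lit 76) (nat_lit 30226045779) (nat_lit 12) (nat_lit 5) (nat_lit 14) (nat_lit 5) (nat_lit 13) (nat_lit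 4) (nat_lit 354) (nat_lit 289) (nat_lit 137)) (XT.lf (nat_lit 0) (nat_lit 21561780504) (nat_lit 152) (nat_lit 68711910406) (nat_lit 76) (nat_lit 55725411958) (nat_lit 12) (nat_lit 5) (nat_lit 14) (nat_lit 5) (nat_lit 13) (nat_lit 4) (nat_lit 355) (nat_lit 289) (nat_lit 136))) (XT.nd (nat_lit 78) (nat_lit 76) (nat_lit 0) (XT.lf (nat_lit 0) (nat_lit 41266817000) (nat_lit 152) (nat_lit 28319667450) (nat_lit 76) (nat_lit 82498717186) (nat_lit 12) (nat_lit 5) (nat_lit 14) (nat_lit 5) (nat_lit 13) (nat_lit 4) (nat_lit 356) (nat_lit 289) (nat_lit 135)) (XT.nd (nat_lit 78) (nat_lit 0) (nat_lit 0) (XT.lf (nat_lit 0) (nat_lit 14555735212) (nat_lit 76) (nat_lit 47627344113) (nat_lit 152) (nat_lit 96281228036) (nat_lit 11) (nat_lit 5) (nat_lit 12) (nat_lit 5) (nat_lit 13) (nat_lit 4) (nat_lit 357) (nat_lit 289) (nat_lit 134)) (XT.lf (nat_lit 0) (nat_lit 60555813573) (nat_lit 76) (nat_lit 24067691947)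 (nat_lit 152) (nat_lit 80514945999) (nat_lit 11) (nat_lit 5) (nat_lit 12) (nat_lit 5) (nat_lit 13) (nat_lit 4) (nat_lit 358) (nat_lit 289) (nat_lit 133))))))) (XT.nd (nat_lit 780) (nat_lit 228) (nat_lit 0) (XT.nd (nat_lit 390) (nat_lit 76) (nat_lit 0) (XT.nd (nat_lit 156) (nat_lit 152) (nat_lit 0) (XT.nd (nat_lit 78) (nat_lit 0) (nat_lit 0) (XT.lf (nat_lit 0) (nat_lit 108195200668) (nat_lit 152) (nat_lit 63303092172) (nat_lit 0) (nat_lit 647548315) (nat_lit 11) (nat_lit 5) (nat_lit 13) (nat_lit 4) (nat_lit 11) (nat_lit 4) (nat_lit 359) (nat_lit 289) (nat_lit 132)) (XT.lf (nat_lit 0) (nat_lit 133338878575) (nat_lit 152) (nat_lit 20356240915) (nat_lit 0) (nat_lit 25788811504) (nat_lit 11) (nat_lit 5) (nat_lit 13) (nat_lit 4) (nat_lit 11) (nat_lit 4) (nat_lit 360) (nat_lit 289) (nat_lit 131))) (XT.nd (nat_lit 78) (nat_lit 76) (nat_lit 0) (XT.lf (nat_lit 0) (nat_lit 25553816053) (nat_lit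 76) (nat_lit 134583791649) (nat_lit 76) (nat_lit 27031424847) (nat_lit 10) (nat_lit 4) (nat_lit 11) (nat_lit 5) (nat_lit 11) (nat_lit 4) (nat_lit 361) (nat_lit 289) (nat_lit 130)) (XT.nd (nat_lit 78) (nat_lit 76) (nat_lit 0) (XT.lf (nat_lit 0) (nat_lit 74464112594) (nat_lit 76) (nat_lit 114155825468) (nat_lit 76) (nat_lit 6601268445) (nat_lit 10) (nat_lit 4) (nat_lit 11) (nat_lit 5) (nat_lit 11) (nat_lit 4) (nat_lit 362) (nat_lit 289) (nat_lit 129)) (XT.lf (nat_lit 0) (nat_lit 14374046338) (nat_lit 152) (nat_lit 78089847951) (nat_lit 76) (nat_lit 111200554770) (nat_lit 9) (nat_lit 5) (nat_lit 11) (nat_lit 5) (nat_lit 10) (nat_lit 4) (nat_lit 363) (nat_lit 289) (nat_lit 128))))) (XT.nd (nat_lit 156) (nat_lit 0) (nat_lit 0) (XT.nd (nat_lit 78) (nat_lit 76) (nat_lit 0) (XT.lf (nat_lit 0) (nat_lit 36175286641) (nat_lit 152) (nat_lit 33399291926) (nat_lit 76) (nat_lit 142949914500) (nat_lit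 9) (nat_lit 5) (nat_lit 11) (nat_lit 5) (nat_lit 10) (nat_lit 4) (nat_lit 364) (nat_lit 289) (nat_lit 127)) (XT.lf (nat_lit 0) (nat_lit 13971210538) (nat_lit 76) (nat_lit 45312561204) (nat_lit 152) (nat_lit 162532908856) (nat_lit 8) (nat_lit 5) (nat_lit 9) (nat_lit 5) (nat_lit 10) (nat_lit 4) (nat_lit 365) (nat_lit 289) (nat_lit 126))) (XT.nd (nat_lit 78) (nat_lit 0) (nat_lit 0) (XT.lf (nat_lit 0) (nat_lit 64868066956) (nat_lit 76) (nat_lit 19244318600) (nat_lit 152) (nat_lit 147432857170) (nat_lit 8) (nat_lit 5) (nat_lit 9) (nat_lit 5) (nat_lit 10) (nat_lit 4) (nat_lit 366) (nat_lit 289) (nat_lit 125)) (XT.nd (nat_lit 78) (nat_lit 0) (nat_lit 0) (XT.lf (nat_lit 0) (nat_lit 110308424312) (nat_lit 152) (nat_lit 123579027453) (nat_lit 0) (nat_lit 7866481902) (nat_lit 8) (nat_lit 5) (nat_lit 10) (nat_lit 4) (nat_lit 8) (nat_lit 4) (nat_lit 367) (nat_lit 289) (nat_lit 124)) (XT.lf (nat_lit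 0) (nat_lit 138128892074) (nat_lit 152) (nat_lit 78643043014) (nat_lit 0) (nat_lit 35685393115) (nat_lit 8) (nat_lit 5) (nat_lit 10) (nat_lit 4) (nat_lit 8) (nat_lit 4) (nat_lit 368) (nat_lit 289) (nat_lit 123)))))) (XT.nd (nat_lit 390) (nat_lit 152) (nat_lit 0) (XT.nd (nat_lit 156) (nat_lit 0) (nat_lit 0) (XT.nd (nat_lit 78) (nat_lit 76) (nat_lit 0) (XT.lf (nat_lit 0) (nat_lit 167339570305) (nat_lit 152) (nat_lit 31461774268) (nat_lit 0) (nat_lit 64894588919) (nat_lit 8) (nat_lit 5) (nat_lit 10) (nat_lit 4) (nat_lit 8) (nat_lit 4) (nat_lit 369) (nat_lit 289) (nat_lit 122)) (XT.lf (nat_lit 0) (nat_lit 18674826203) (nat_lit 76) (nat_lit 179626748409) (nat_lit 76) (nat_lit 77180355187) (nat_lit 7) (nat_lit 4) (nat_lit 8) (nat_lit 5) (nat_lit 8) (nat_lit 4) (nat_lit 370) (nat_lit 289) (nat_lit 121))) (XT.nd (nat_lit 78) (nat_lit 0) (nat_lit 0) (XT.lf (nat_lit 0) (nat_lit 72409118953) (nat_lit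 76) (nat_lit 158934621050) (nat_lit 76) (nat_lit 56486883223) (nat_lit 7) (nat_lit 4) (nat_lit 8) (nat_lit 5) (nat_lit 8) (nat_lit 4) (nat_lit 371) (nat_lit 289) (nat_lit 120)) (XT.nd (nat_lit 78) (nat_lit 0) (nat_lit 0) (XT.lf (nat_lit 0) (nat_lit 128828774429) (nat_lit 76) (nat_lit 137208515897) (nat_lit 76) (nat_lit 34759497493) (nat_lit 7) (nat_lit 4) (nat_lit 8) (nat_lit 5) (nat_lit 8) (nat_lit 4) (nat_lit 372) (nat_lit 289) (nat_lit 119)) (XT.lf (nat_lit 0) (nat_lit 188068125146) (nat_lit 76) (nat_lit 114396704127) (nat_lit 76) (nat_lit 11946466127) (nat_lit 7) (nat_lit 4) (nat_lit 8) (nat_lit 5) (nat_lit 8) (nat_lit 4) (nat_lit 373) (nat_lit 289) (nat_lit 118))))) (XT.nd (nat_lit 234) (nat_lit 0) (nat_lit 0) (XT.nd (nat_lit 78) (nat_lit 76) (nat_lit 0) (XT.lf (nat_lit 0) (nat_lit 11622243749) (nat_lit 152) (nat_lit 78625799833) (nat_lit 76) (nat_lit 238449145105) (nat_lit 6) (nat_lit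 5) (nat_lit 8) (nat_lit 5) (nat_lit 7) (nat_lit 4) (nat_lit 374) (nat_lit 289) (nat_lit 117)) (XT.nd (nat_lit 78) (nat_lit 76) (nat_lit 0) (XT.lf (nat_lit 0) (nat_lit 35967274157) (nat_lit 152) (nat_lit 28719593707) (nat_lit 76) (nat_lit 279000748628) (nat_lit 6) (nat_lit 5) (nat_lit 8) (nat_lit 5) (nat_lit 7) (nat_lit 4) (nat_lit 375) (nat_lit 289) (nat_lit 116)) (XT.lf (nat_lit 0) (nat_lit 24463784109) (nat_lit 76) (nat_lit 37447115096) (nat_lit 152) (nat_lit 297497599583) (nat_lit 5) (nat_lit 5) (nat_lit 6) (nat_lit 5) (nat_lit 7) (nat_lit 4) (nat_lit 376) (nat_lit 289) (nat_lit 115)))) (XT.nd (nat_lit 78) (nat_lit 0) (nat_lit 0) (XT.lf (nat_lit 0) (nat_lit 81302296041) (nat_lit 76) (nat_lit 8335195993) (nat_lit 152) (nat_lit 286253644086) (nat_lit 5) (nat_lit 5) (nat_lit 6) (nat_lit 5) (nat_lit 7) (nat_lit 4) (nat_lit 377) (nat_lit 289) (nat_lit 114)) (XT.nd (nat_lit 78) (nat_lit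 0) (nat_lit 0) (XT.lf (nat_lit 0) (nat_lit 119096950151) (nat_lit 152) (nat_lit 252563362482) (nat_lit 0) (nat_lit 21520266136) (nat_lit 5) (nat_lit 5) (nat_lit 7) (nat_lit 4) (nat_lit 5) (nat_lit 4) (nat_lit 378) (nat_lit 289) (nat_lit 113)) (XT.lf (nat_lit 0) (nat_lit 150165477864) (nat_lit 152) (nat_lit 208574283969) (nat_lit 0) (nat_lit 52587927105) (nat_lit 5) (nat_lit 5) (nat_lit 7) (nat_lit 4) (nat_lit 5) (nat_lit 4) (nat_lit 379) (nat_lit 289) (nat_lit 112))))))))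
noncomputable def xc188 : XT := (XT.nd (nat_lit 34944) (nat_lit 0) (nat_lit 2356) (XT.nd (nat_lit 34164) (nat_lit 0) (nat_lit 5092) (XT.nd (nat_lit 33774) (nat_lit 0) (nat_lit 6460) (XT.nd (nat_lit 156) (nat_lit 0) (nat_lit 0) (XT.nd (nat_lit 78) (nat_lit 0) (nat_lit 0) (XT.lf (nat_lit 0) (nat_lit 182786912092) (nat_lit 152) (nat_lit 162386732870) (nat_lit 0) (nat_lit 85208535862) (nat_lit 5) (nat_lit 5) (nat_lit 7) (nat_lit 4) (nat_lit 5) (nat_lit 4) (nat_lit 380) (nat_lit 289) (nat_lit 111)) (XT.lf (nat_lit 0) (nat_lit 217038922914) (nat_lit 152) (nat_lit 113890738825) (nat_lit 0) (nat_lit 119459760521) (nat_lit 5) (nat_lit 5) (nat_lit 7) (nat_lit 4) (nat_lit 5) (nat_lit 4) (nat_lit 381) (nat_lit 289) (nat_lit 110))) (XT.nd (nat_lit 33462) (nat_lit 0) (nat_lit 6460) (XT.lf (nat_lit 0) (nat_lit 253003062738) (nat_lit 152) (nat_lit 62970835181) (nat_lit 0) (nat_lit 155423151619) (nat_lit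 5) (nat_lit 5) (nat_lit 7) (nat_lit 4) (nat_lit 5) (nat_lit 4) (nat_lit 382) (nat_lit 289) (nat_lit 109)) (XT.nd (nat_lit 78) (nat_lit 0) (nat_lit 0) (XT.lf (nat_lit 0) (nat_lit 3013723864) (nat_lit 0) (nat_lit 3013723864) (nat_lit 684) (nat_lit 2876959482) (nat_lit 90) (nat_lit 5) (nat_lit 90) (nat_lit 3) (nat_lit 99) (nat_lit 3) (nat_lit 290) (nat_lit 290) (nat_lit 200)) (XT.lf (nat_lit 0) (nat_lit 12583338500) (nat_lit 684) (nat_lit 3736406871) (nat_lit 760) (nat_lit 1922540322) (nat_lit 90) (nat_lit 5) (nat_lit 99) (nat_lit 3) (nat_lit 100) (nat_lit 5) (nat_lit 291) (nat_lit 290) (nat_lit 199))))) (XT.nd (nat_lit 156) (nat_lit 0) (nat_lit 76) (XT.nd (nat_lit 78) (nat_lit 0) (nat_lit 0) (XT.lf (nat_lit 76) (nat_lit 4757225216) (nat_lit 0) (nat_lit 8541610275) (nat_lit 760) (nat_lit 5390588769) (nat_lit 91) (nat_lit 5) (nat_lit 90) (nat_lit 5) (nat_lit 100) (nat_lit 5) (nat_lit 292)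 (nat_lit 290) (nat_lit 198)) (XT.lf (nat_lit 76) (nat_lit 13798345821) (nat_lit 0) (nat_lit 303071978) (nat_lit 760) (nat_lit 5054960549) (nat_lit 91) (nat_lit 5) (nat_lit 90) (nat_lit 5) (nat_lit 100) (nat_lit 5) (nat_lit 293) (nat_lit 290) (nat_lit 197))) (XT.nd (nat_lit 78) (nat_lit 0) (nat_lit 0) (XT.lf (nat_lit 76) (nat_lit 3623230594) (nat_lit 0) (nat_lit 11496471256) (nat_lit 760) (nat_lit 4518222625) (nat_lit 92) (nat_lit 5) (nat_lit 91) (nat_lit 5) (nat_lit 101) (nat_lit 5) (nat_lit 294) (nat_lit 290) (nat_lit 196)) (XT.nd (nat_lit 78) (nat_lit 0) (nat_lit 76) (XT.lf (nat_lit 76) (nat_lit 13227308429) (nat_lit 0) (nat_lit 3046326218) (nat_lit 760) (nat_lit 3865698407) (nat_lit 92) (nat_lit 5) (nat_lit 91) (nat_lit 5) (nat_lit 101) (nat_lit 5) (nat_lit 295) (nat_lit 290) (nat_lit 195)) (XT.lf (nat_lit 76) (nat_lit 2631651752) (nat_lit 0) (nat_lit 14975345181) (nat_lit 760) (nat_lit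 3052749317) (nat_lit 93) (nat_lit 5) (nat_lit 92) (nat_lit 5) (nat_lit 102) (nat_lit 5) (nat_lit 296) (nat_lit 290) (nat_lit 194)))))) (XT.nd (nat_lit 390) (nat_lit 836) (nat_lit 0) (XT.nd (nat_lit 156) (nat_lit 684) (nat_lit 0) (XT.nd (nat_lit 78) (nat_lit 0) (nat_lit 76) (XT.lf (nat_lit 76) (nat_lit 12833619675) (nat_lit 0) (nat_lit 6329658445) (nat_lit 760) (nat_lit 2035109287) (nat_lit 93) (nat_lit 5) (nat_lit 92) (nat_lit 5) (nat_lit 102) (nat_lit 5) (nat_lit 297) (nat_lit 290) (nat_lit 193)) (XT.lf (nat_lit 76) (nat_lit 1788606131) (nat_lit 0) (nat_lit 19070172404) (nat_lit 760) (nat_lit 902130721) (nat_lit 94) (nat_lit 5) (nat_lit 93) (nat_lit 5) (nat_lit 103) (nat_lit 5) (nat_lit 298) (nat_lit 290) (nat_lit 192))) (XT.nd (nat_lit 78) (nat_lit 0) (nat_lit 0) (XT.lf (nat_lit 0) (nat_lit 516782771) (nat_lit 760) (nat_lit 9722655450) (nat_lit 836) (nat_lit 12099987298) (nat_lit 83)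 (nat_lit 5) (nat_lit 93) (nat_lit 5) (nat_lit 94) (nat_lit 5) (nat_lit 299) (nat_lit 290) (nat_lit 191)) (XT.nd (nat_lit 78) (nat_lit 0) (nat_lit 76) (XT.lf (nat_lit 76) (nat_lit 1051029844) (nat_lit 0) (nat_lit 932884197) (nat_lit 836) (nat_lit 20961850947) (nat_lit 84) (nat_lit 5) (nat_lit 83) (nat_lit 5) (nat_lit 94) (nat_lit 5) (nat_lit 300) (nat_lit 290) (nat_lit 190)) (XT.lf (nat_lit 0) (nat_lit 3821269436) (nat_lit 760) (nat_lit 11021580886) (nat_lit 76) (nat_lit 8724743273) (nat_lit 84) (nat_lit 5) (nat_lit 94) (nat_lit 5) (nat_lit 85) (nat_lit 5) (nat_lit 301) (nat_lit 290) (nat_lit 189))))) (XT.nd (nat_lit 156) (nat_lit 380) (nat_lit 0) (XT.nd (nat_lit 78) (nat_lit 0) (nat_lit 0) (XT.lf (nat_lit 0) (nat_lit 384984017) (nat_lit 532) (nat_lit 5378725641) (nat_lit 608) (nat_lit 18456157925) (nat_lit 77) (nat_lit 5) (nat_lit 84) (nat_lit 5) (nat_lit 85) (nat_lit 5) (nat_lit 302)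 (nat_lit 290) (nat_lit 188)) (XT.lf (nat_lit 0) (nat_lit 8056356978) (nat_lit 608) (nat_lit 12232706875) (nat_lit 76) (nat_lit 4603051262) (nat_lit 77) (nat_lit 5) (nat_lit 85) (nat_lit 5) (nat_lit 78) (nat_lit 5) (nat_lit 303) (nat_lit 290) (nat_lit 187))) (XT.nd (nat_lit 78) (nat_lit 380) (nat_lit 0) (XT.lf (nat_lit 0) (nat_lit 10544380823) (nat_lit 608) (nat_lit 145809967) (nat_lit 76) (nat_lit 14903760456) (nat_lit 77) (nat_lit 5) (nat_lit 85) (nat_lit 5) (nat_lit 78) (nat_lit 5) (nat_lit 304) (nat_lit 290) (nat_lit 186)) (XT.nd (nat_lit 78) (nat_lit 0) (nat_lit 0) (XT.lf (nat_lit 0) (nat_lit 12953143966) (nat_lit 380) (nat_lit 398818990) (nat_lit 456) (nat_lit 12969171160) (nat_lit 72) (nat_lit 5) (nat_lit 77) (nat_lit 5) (nat_lit 78) (nat_lit 5) (nat_lit 305) (nat_lit 290) (nat_lit 185)) (XT.lf (nat_lit 0) (nat_lit 16458073477) (nat_lit 456) (nat_lit 542084073) (nat_lit 76) (nat_lit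 10076623295) (nat_lit 72) (nat_lit 5) (nat_lit 78) (nat_lit 5) (nat_lit 73) (nat_lit 5) (nat_lit 306) (nat_lit 290) (nat_lit 184))))))) (XT.nd (nat_lit 780) (nat_lit 1216) (nat_lit 0) (XT.nd (nat_lit 390) (nat_lit 532) (nat_lit 0) (XT.nd (nat_lit 156) (nat_lit 684) (nat_lit 0) (XT.nd (nat_lit 78) (nat_lit 0) (nat_lit 0) (XT.lf (nat_lit 0) (nat_lit 13338726225) (nat_lit 304) (nat_lit 6589037266) (nat_lit 380) (nat_lit 7932044321) (nat_lit 68) (nat_lit 5) (nat_lit 72) (nat_lit 5) (nat_lit 73) (nat_lit 5) (nat_lit 307) (nat_lit 290) (nat_lit 183)) (XT.lf (nat_lit 0) (nat_lit 23641751603) (nat_lit 380) (nat_lit 824068874) (nat_lit 76) (nat_lit 4212636017) (nat_lit 68) (nat_lit 5) (nat_lit 73) (nat_lit 5) (nat_lit 69) (nat_lit 5) (nat_lit 308) (nat_lit 290) (nat_lit 182))) (XT.nd (nat_lit 78) (nat_lit 380) (nat_lit 0) (XT.lf (nat_lit 0) (nat_lit 13887613077) (nat_lit 304) (nat_lit 13972650347)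 (nat_lit 380) (nat_lit 1661843493) (nat_lit 64) (nat_lit 5) (nat_lit 68) (nat_lit 5) (nat_lit 69) (nat_lit 5) (nat_lit 309) (nat_lit 290) (nat_lit 181)) (XT.nd (nat_lit 78) (nat_lit 304) (nat_lit 0) (XT.lf (nat_lit 0) (nat_lit 1829779395) (nat_lit 380) (nat_lit 1080114768) (nat_lit 76) (nat_lit 27496173935) (nat_lit 63) (nat_lit 5) (nat_lit 68) (nat_lit 5) (nat_lit 64) (nat_lit 5) (nat_lit 310) (nat_lit 290) (nat_lit 180)) (XT.lf (nat_lit 0) (nat_lit 5803105992) (nat_lit 380) (nat_lit 16825060314) (nat_lit 76) (nat_lit 8686559386) (nat_lit 59) (nat_lit 5) (nat_lit 64) (nat_lit 5) (nat_lit 60) (nat_lit 5) (nat_lit 311) (nat_lit 290) (nat_lit 179))))) (XT.nd (nat_lit 156) (nat_lit 228) (nat_lit 0) (XT.nd (nat_lit 78) (nat_lit 304) (nat_lit 0) (XT.lf (nat_lit 0) (nat_lit 10035896097) (nat_lit 380) (nat_lit 1447068645) (nat_lit 76) (nat_lit 20782820220) (nat_lit 59) (nat_lit 5) (nat_lit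 64) (nat_lit 5) (nat_lit 60) (nat_lit 5) (nat_lit 312) (nat_lit 290) (nat_lit 178)) (XT.lf (nat_lit 0) (nat_lit 14719377681) (nat_lit 380) (nat_lit 18080739536) (nat_lit 76) (nat_lit 452335623) (nat_lit 55) (nat_lit 5) (nat_lit 60) (nat_lit 5) (nat_lit 56) (nat_lit 5) (nat_lit 313) (nat_lit 290) (nat_lit 177))) (XT.nd (nat_lit 78) (nat_lit 228) (nat_lit 0) (XT.lf (nat_lit 0) (nat_lit 19845086572) (nat_lit 380) (nat_lit 1810629603) (nat_lit 76) (nat_lit 12622343126) (nat_lit 55) (nat_lit 5) (nat_lit 60) (nat_lit 5) (nat_lit 56) (nat_lit 5) (nat_lit 314) (nat_lit 290) (nat_lit 176)) (XT.nd (nat_lit 78) (nat_lit 0) (nat_lit 0) (XT.lf (nat_lit 0) (nat_lit 15771656309) (nat_lit 228) (nat_lit 9696806589) (nat_lit 304) (nat_lit 9874421566) (nat_lit 52) (nat_lit 5) (nat_lit 55) (nat_lit 5) (nat_lit 56) (nat_lit 5) (nat_lit 315) (nat_lit 290) (nat_lit 175)) (XT.lf (nat_lit 0) (nat_lit 31444087194)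 (nat_lit 304) (nat_lit 2214901366) (nat_lit 76) (nat_lit 2798415487) (nat_lit 52) (nat_lit 5) (nat_lit 56) (nat_lit 5) (nat_lit 53) (nat_lit 5) (nat_lit 316) (nat_lit 290) (nat_lit 174)))))) (XT.nd (nat_lit 390) (nat_lit 456) (nat_lit 0) (XT.nd (nat_lit 156) (nat_lit 456) (nat_lit 0) (XT.nd (nat_lit 78) (nat_lit 0) (nat_lit 0) (XT.lf (nat_lit 0) (nat_lit 504653048) (nat_lit 304) (nat_lit 21247080721) (nat_lit 76) (nat_lit 15855015509) (nat_lit 48) (nat_lit 5) (nat_lit 52) (nat_lit 5) (nat_lit 49) (nat_lit 5) (nat_lit 317) (nat_lit 290) (nat_lit 173)) (XT.lf (nat_lit 0) (nat_lit 6163696833) (nat_lit 304) (nat_lit 2960629072) (nat_lit 76) (nat_lit 29683449956) (nat_lit 48) (nat_lit 5) (nat_lit 52) (nat_lit 5) (nat_lit 49) (nat_lit 5) (nat_lit 318) (nat_lit 290) (nat_lit 172))) (XT.nd (nat_lit 78) (nat_lit 228) (nat_lit 0) (XT.lf (nat_lit 0) (nat_lit 12432101672) (nat_lit 304) (nat_lit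 23353591455) (nat_lit 76) (nat_lit 4266846063) (nat_lit 45) (nat_lit 5) (nat_lit 49) (nat_lit 5) (nat_lit 46) (nat_lit 5) (nat_lit 319) (nat_lit 290) (nat_lit 171)) (XT.nd (nat_lit 78) (nat_lit 228) (nat_lit 0) (XT.lf (nat_lit 0) (nat_lit 19210302361) (nat_lit 304) (nat_lit 4068962006) (nat_lit 76) (nat_lit 18070463116) (nat_lit 45) (nat_lit 5) (nat_lit 49) (nat_lit 5) (nat_lit 46) (nat_lit 5) (nat_lit 320) (nat_lit 290) (nat_lit 170)) (XT.lf (nat_lit 0) (nat_lit 16709156294) (nat_lit 228) (nat_lit 9875166734) (nat_lit 304) (nat_lit 16114611979) (nat_lit 42) (nat_lit 5) (nat_lit 45) (nat_lit 5) (nat_lit 46) (nat_lit 5) (nat_lit 321) (nat_lit 290) (nat_lit 169))))) (XT.nd (nat_lit 156) (nat_lit 304) (nat_lit 0) (XT.nd (nat_lit 78) (nat_lit 152) (nat_lit 0) (XT.lf (nat_lit 0) (nat_lit 34458756713) (nat_lit 304) (nat_lit 5517025724) (nat_lit 76) (nat_lit 4133239931) (nat_lit 42) (nat_lit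 5) (nat_lit 46) (nat_lit 5) (nat_lit 43) (nat_lit 5) (nat_lit 322) (nat_lit 290) (nat_lit 168)) (XT.lf (nat_lit 0) (nat_lit 16334940822) (nat_lit 152) (nat_lit 26805190774) (nat_lit 228) (nat_lit 2428826347) (nat_lit 40) (nat_lit 5) (nat_lit 42) (nat_lit 5) (nat_lit 43) (nat_lit 5) (nat_lit 323) (nat_lit 290) (nat_lit 167))) (XT.nd (nat_lit 78) (nat_lit 228) (nat_lit 0) (XT.lf (nat_lit 0) (nat_lit 5080027790) (nat_lit 228) (nat_lit 7713565044) (nat_lit 76) (nat_lit 34299714013) (nat_lit 39) (nat_lit 5) (nat_lit 42) (nat_lit 5) (nat_lit 40) (nat_lit 5) (nat_lit 324) (nat_lit 290) (nat_lit 166)) (XT.nd (nat_lit 78) (nat_lit 0) (nat_lit 0) (XT.lf (nat_lit 0) (nat_lit 13153029527) (nat_lit 304) (nat_lit 33386036316) (nat_lit 76) (nat_lit 2139304206) (nat_lit 36) (nat_lit 5) (nat_lit 40) (nat_lit 5) (nat_lit 37) (nat_lit 5) (nat_lit 325) (nat_lit 290) (nat_lit 165)) (XT.lf (nat_lit 0) (nat_lit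 21968751406) (nat_lit 304) (nat_lit 10836906875) (nat_lit 76) (nat_lit 17520078593) (nat_lit 36) (nat_lit 5) (nat_lit 40) (nat_lit 5) (nat_lit 37) (nat_lit 5) (nat_lit 326) (nat_lit 290) (nat_lit 164))))))))
noncomputable def xc189 : XT := (XT.nd (nat_lit 1560) (nat_lit 760) (nat_lit 0) (XT.nd (nat_lit 780) (nat_lit 532) (nat_lit 0) (XT.nd (nat_lit 390) (nat_lit 304) (nat_lit 0) (XT.nd (nat_lit 156) (nat_lit 380) (nat_lit 0) (XT.nd (nat_lit 78) (nat_lit 0) (nat_lit 0) (XT.lf (nat_lit 0) (nat_lit 13259096187) (nat_lit 152) (nat_lit 18169902977) (nat_lit 228) (nat_lit 20616289661) (nat_lit 34) (nat_lit 5) (nat_lit 36) (nat_lit 5) (nat_lit 37) (nat_lit 5) (nat_lit 327) (nat_lit 290) (nat_lit 163)) (XT.lf (nat_lit 0) (nat_lit 38931255554) (nat_lit 152) (nat_lit 2611339819) (nat_lit 228) (nat_lit 12299209797) (nat_lit 34) (nat_lit 5) (nat_lit 36) (nat_lit 5) (nat_lit 37) (nat_lit 5) (nat_lit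 328) (nat_lit 290) (nat_lit 162))) (XT.nd (nat_lit 78) (nat_lit 228) (nat_lit 0) (XT.lf (nat_lit 0) (nat_lit 10268467624) (nat_lit 152) (nat_lit 42264946164) (nat_lit 228) (nat_lit 3176159848) (nat_lit 32) (nat_lit 5) (nat_lit 34) (nat_lit 5) (nat_lit 35) (nat_lit 5) (nat_lit 329) (nat_lit 290) (nat_lit 161)) (XT.nd (nat_lit 78) (nat_lit 152) (nat_lit 0) (XT.lf (nat_lit 0) (nat_lit 6494526257) (nat_lit 228) (nat_lit 20585727946) (nat_lit 76) (nat_lit 30570659908) (nat_lit 31) (nat_lit 5) (nat_lit 34) (nat_lit 5) (nat_lit 32) (nat_lit 5) (nat_lit 330) (nat_lit 290) (nat_lit 160)) (XT.lf (nat_lit 0) (nat_lit 5636170422) (nat_lit 152) (nat_lit 10990933015) (nat_lit 228) (nat_lit 43055362893) (nat_lit 29) (nat_lit 5) (nat_lit 31) (nat_lit 5) (nat_lit 32) (nat_lit 5) (nat_lit 331) (nat_lit 290) (nat_lit 159))))) (XT.nd (nat_lit 156) (nat_lit 304) (nat_lit 0) (XT.nd (nat_lit 78) (nat_lit 0)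 (nat_lit 0) (XT.lf (nat_lit 0) (nat_lit 27709956033) (nat_lit 228) (nat_lit 28016804017) (nat_lit 76) (nat_lit 6066656601) (nat_lit 29) (nat_lit 5) (nat_lit 32) (nat_lit 5) (nat_lit 30) (nat_lit 5) (nat_lit 332) (nat_lit 290) (nat_lit 158)) (XT.lf (nat_lit 0) (nat_lit 39524408547) (nat_lit 228) (nat_lit 870414557) (nat_lit 76) (nat_lit 23606221202) (nat_lit 29) (nat_lit 5) (nat_lit 32) (nat_lit 5) (nat_lit 30) (nat_lit 5) (nat_lit 333) (nat_lit 290) (nat_lit 157))) (XT.nd (nat_lit 78) (nat_lit 152) (nat_lit 0) (XT.lf (nat_lit 0) (nat_lit 28542649017) (nat_lit 152) (nat_lit 23829973086) (nat_lit 228) (nat_lit 13924281876) (nat_lit 27) (nat_lit 5) (nat_lit 29) (nat_lit 5) (nat_lit 30) (nat_lit 5) (nat_lit 334) (nat_lit 290) (nat_lit 156)) (XT.nd (nat_lit 78) (nat_lit 152) (nat_lit 0) (XT.lf (nat_lit 0) (nat_lit 59452463775) (nat_lit 152) (nat_lit 6422990236) (nat_lit 228) (nat_lit 2831494677)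 (nat_lit 27) (nat_lit 5) (nat_lit 29) (nat_lit 5) (nat_lit 30) (nat_lit 5) (nat_lit 335) (nat_lit 290) (nat_lit 155)) (XT.lf (nat_lit 0) (nat_lit 9055159103) (nat_lit 152) (nat_lit 50199529478) (nat_lit 76) (nat_lit 11949857584) (nat_lit 25) (nat_lit 5) (nat_lit 27) (nat_lit 5) (nat_lit 26) (nat_lit 5) (nat_lit 336) (nat_lit 290) (nat_lit 154)))))) (XT.nd (nat_lit 390) (nat_lit 304) (nat_lit 0) (XT.nd (nat_lit 156) (nat_lit 76) (nat_lit 0) (XT.nd (nat_lit 78) (nat_lit 152) (nat_lit 0) (XT.lf (nat_lit 0) (nat_lit 21703159032) (nat_lit 152) (nat_lit 20878722324) (nat_lit 76) (nat_lit 31229714851) (nat_lit 25) (nat_lit 5) (nat_lit 27) (nat_lit 5) (nat_lit 26) (nat_lit 5) (nat_lit 337) (nat_lit 290) (nat_lit 153)) (XT.lf (nat_lit 0) (nat_lit 10231756475) (nat_lit 152) (nat_lit 24909241081) (nat_lit 228) (nat_lit 41400131271) (nat_lit 23) (nat_lit 5) (nat_lit 25) (nat_lit 5) (nat_lit 26)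 (nat_lit 5) (nat_lit 338) (nat_lit 290) (nat_lit 152))) (XT.nd (nat_lit 78) (nat_lit 76) (nat_lit 0) (XT.lf (nat_lit 0) (nat_lit 43618834569) (nat_lit 152) (nat_lit 5983227681) (nat_lit 228) (nat_lit 29787511021) (nat_lit 23) (nat_lit 5) (nat_lit 25) (nat_lit 5) (nat_lit 26) (nat_lit 5) (nat_lit 339) (nat_lit 290) (nat_lit 151)) (XT.nd (nat_lit 78) (nat_lit 76) (nat_lit 0) (XT.lf (nat_lit 0) (nat_lit 65000855452) (nat_lit 228) (nat_lit 3925713899) (nat_lit 76) (nat_lit 13443138640) (nat_lit 23) (nat_lit 5) (nat_lit 26) (nat_lit 5) (nat_lit 24) (nat_lit 4) (nat_lit 340) (nat_lit 290) (nat_lit 150)) (XT.lf (nat_lit 0) (nat_lit 30382385408) (nat_lit 76) (nat_lit 51357573940) (nat_lit 152) (nat_lit 3730373277) (nat_lit 22) (nat_lit 5) (nat_lit 23) (nat_lit 5) (nat_lit 24) (nat_lit 4) (nat_lit 341) (nat_lit 290) (nat_lit 149))))) (XT.nd (nat_lit 156) (nat_lit 76) (nat_lit 0) (XT.nd (nat_lit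 78) (nat_lit 152) (nat_lit 0) (XT.lf (nat_lit 0) (nat_lit 10316597478) (nat_lit 152) (nat_lit 22350442676) (nat_lit 76) (nat_lit 56047407172) (nat_lit 21) (nat_lit 5) (nat_lit 23) (nat_lit 5) (nat_lit 22) (nat_lit 5) (nat_lit 342) (nat_lit 290) (nat_lit 148)) (XT.lf (nat_lit 0) (nat_lit 12354853976) (nat_lit 152) (nat_lit 12776630604) (nat_lit 228) (nat_lit 66976680355) (nat_lit 19) (nat_lit 5) (nat_lit 21) (nat_lit 5) (nat_lit 22) (nat_lit 5) (nat_lit 343) (nat_lit 290) (nat_lit 147))) (XT.nd (nat_lit 78) (nat_lit 76) (nat_lit 0) (XT.lf (nat_lit 0) (nat_lit 41196489030) (nat_lit 228) (nat_lit 46217452162) (nat_lit 76) (nat_lit 8232160004) (nat_lit 19) (nat_lit 5) (nat_lit 22) (nat_lit 5) (nat_lit 20) (nat_lit 4) (nat_lit 344) (nat_lit 290) (nat_lit 146)) (XT.nd (nat_lit 78) (nat_lit 76) (nat_lit 0) (XT.lf (nat_lit 0) (nat_lit 58272348074) (nat_lit 228) (nat_lit 11217475698) (nat_lit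 76) (nat_lit 29860731635) (nat_lit 19) (nat_lit 5) (nat_lit 22) (nat_lit 5) (nat_lit 20) (nat_lit 4) (nat_lit 345) (nat_lit 290) (nat_lit 145)) (XT.lf (nat_lit 0) (nat_lit 26373548991) (nat_lit 76) (nat_lit 50238455530) (nat_lit 152) (nat_lit 26607728877) (nat_lit 18) (nat_lit 5) (nat_lit 19) (nat_lit 5) (nat_lit 20) (nat_lit 4) (nat_lit 346) (nat_lit 290) (nat_lit 144))))))) (XT.nd (nat_lit 780) (nat_lit 304) (nat_lit 0) (XT.nd (nat_lit 390) (nat_lit 228) (nat_lit 0) (XT.nd (nat_lit 156) (nat_lit 152) (nat_lit 0) (XT.nd (nat_lit 78) (nat_lit 76) (nat_lit 0) (XT.lf (nat_lit 0) (nat_lit 66230550971) (nat_lit 76) (nat_lit 29826342333) (nat_lit 152) (nat_lit 11216065738) (nat_lit 18) (nat_lit 5) (nat_lit 19) (nat_lit 5) (nat_lit 20) (nat_lit 4) (nat_lit 347) (nat_lit 290) (nat_lit 143)) (XT.lf (nat_lit 0) (nat_lit 4785234071) (nat_lit 152) (nat_lit 3528582965) (nat_lit 76) (nat_lit 103211253132)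 (nat_lit 17) (nat_lit 5) (nat_lit 19) (nat_lit 5) (nat_lit 18) (nat_lit 5) (nat_lit 348) (nat_lit 290) (nat_lit 142))) (XT.nd (nat_lit 78) (nat_lit 0) (nat_lit 0) (XT.lf (nat_lit 0) (nat_lit 22018757184) (nat_lit 228) (nat_lit 79333371191) (nat_lit 76) (nat_lit 14588011458) (nat_lit 15) (nat_lit 5) (nat_lit 18) (nat_lit 5) (nat_lit 16) (nat_lit 4) (nat_lit 349) (nat_lit 290) (nat_lit 141)) (XT.nd (nat_lit 78) (nat_lit 0) (nat_lit 0) (XT.lf (nat_lit 0) (nat_lit 40309410390) (nat_lit 228) (nat_lit 41841662107) (nat_lit 76) (nat_lit 38415118799) (nat_lit 15) (nat_lit 5) (nat_lit 18) (nat_lit 5) (nat_lit 16) (nat_lit 4) (nat_lit 350) (nat_lit 290) (nat_lit 140)) (XT.lf (nat_lit 0) (nat_lit 59513095257) (nat_lit 228) (nat_lit 2478041450) (nat_lit 76) (nat_lit 63432484638) (nat_lit 15) (nat_lit 5) (nat_lit 18) (nat_lit 5) (nat_lit 16) (nat_lit 4) (nat_lit 351) (nat_lit 290) (nat_lit 139)))))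 (XT.nd (nat_lit 156) (nat_lit 152) (nat_lit 0) (XT.nd (nat_lit 78) (nat_lit 0) (nat_lit 0) (XT.lf (nat_lit 0) (nat_lit 40135810266) (nat_lit 76) (nat_lit 40166357058) (nat_lit 152) (nat_lit 50190496343) (nat_lit 14) (nat_lit 5) (nat_lit 15) (nat_lit 5) (nat_lit 16) (nat_lit 4) (nat_lit 352) (nat_lit 290) (nat_lit 138)) (XT.lf (nat_lit 0) (nat_lit 84963881091) (nat_lit 76) (nat_lit 17207378166) (nat_lit 152) (nat_lit 33641871407) (nat_lit 14) (nat_lit 5) (nat_lit 15) (nat_lit 5) (nat_lit 16) (nat_lit 4) (nat_lit 353) (nat_lit 290) (nat_lit 137))) (XT.nd (nat_lit 78) (nat_lit 152) (nat_lit 0) (XT.lf (nat_lit 0) (nat_lit 125240176790) (nat_lit 152) (nat_lit 9476424129) (nat_lit 0) (nat_lit 6677702374) (nat_lit 14) (nat_lit 5) (nat_lit 16) (nat_lit 4) (nat_lit 14) (nat_lit 4) (nat_lit 354) (nat_lit 290) (nat_lit 136)) (XT.nd (nat_lit 78) (nat_lit 0) (nat_lit 0) (XT.lf (nat_lit 0) (nat_lit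 2974881913) (nat_lit 152) (nat_lit 112467048354) (nat_lit 76) (nat_lit 31769004073) (nat_lit 12) (nat_lit 5) (nat_lit 14) (nat_lit 5) (nat_lit 13) (nat_lit 4) (nat_lit 355) (nat_lit 290) (nat_lit 135)) (XT.lf (nat_lit 0) (nat_lit 22679293133) (nat_lit 152) (nat_lit 72075940457) (nat_lit 76) (nat_lit 58541831132) (nat_lit 12) (nat_lit 5) (nat_lit 14) (nat_lit 5) (nat_lit 13) (nat_lit 4) (nat_lit 356) (nat_lit 290) (nat_lit 134)))))) (XT.nd (nat_lit 390) (nat_lit 228) (nat_lit 0) (XT.nd (nat_lit 156) (nat_lit 0) (nat_lit 0) (XT.nd (nat_lit 78) (nat_lit 76) (nat_lit 0) (XT.lf (nat_lit 0) (nat_lit 43367704139) (nat_lit 152) (nat_lit 29667493232) (nat_lit 76) (nat_lit 86652365975) (nat_lit 12) (nat_lit 5) (nat_lit 14) (nat_lit 5) (nat_lit 13) (nat_lit 4) (nat_lit 357) (nat_lit 290) (nat_lit 133)) (XT.lf (nat_lit 0) (nat_lit 15350580247) (nat_lit 76) (nat_lit 49978458383) (nat_lit 152) (nat_lit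 101056623778) (nat_lit 11) (nat_lit 5) (nat_lit 12) (nat_lit 5) (nat_lit 13) (nat_lit 4) (nat_lit 358) (nat_lit 290) (nat_lit 132))) (XT.nd (nat_lit 78) (nat_lit 0) (nat_lit 0) (XT.lf (nat_lit 0) (nat_lit 63647469275) (nat_lit 76) (nat_lit 25242264224) (nat_lit 152) (nat_lit 84503868862) (nat_lit 11) (nat_lit 5) (nat_lit 12) (nat_lit 5) (nat_lit 13) (nat_lit 4) (nat_lit 359) (nat_lit 290) (nat_lit 131)) (XT.nd (nat_lit 78) (nat_lit 0) (nat_lit 0) (XT.lf (nat_lit 0) (nat_lit 113638772648) (nat_lit 152) (nat_lit 66406164003) (nat_lit 0) (nat_lit 706487774) (nat_lit 11) (nat_lit 5) (nat_lit 13) (nat_lit 4) (nat_lit 11) (nat_lit 4) (nat_lit 360) (nat_lit 290) (nat_lit 130)) (XT.lf (nat_lit 0) (nat_lit 140038024357) (nat_lit 152) (nat_lit 21314926506) (nat_lit 0) (nat_lit 27103549263) (nat_lit 11) (nat_lit 5) (nat_lit 13) (nat_lit 4) (nat_lit 11) (nat_lit 4) (nat_lit 361) (nat_lit 290) (nat_lit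 129))))) (XT.nd (nat_lit 234) (nat_lit 76) (nat_lit 0) (XT.nd (nat_lit 78) (nat_lit 76) (nat_lit 0) (XT.lf (nat_lit 0) (nat_lit 26889679658) (nat_lit 76) (nat_lit 141286385102) (nat_lit 76) (nat_lit 28349824084) (nat_lit 10) (nat_lit 4) (nat_lit 11) (nat_lit 5) (nat_lit 11) (nat_lit 4) (nat_lit 362) (nat_lit 290) (nat_lit 128)) (XT.nd (nat_lit 78) (nat_lit 76) (nat_lit 0) (XT.lf (nat_lit 0) (nat_lit 78242720892) (nat_lit 76) (nat_lit 119838287094) (nat_lit 76) (nat_lit 6899739481) (nat_lit 10) (nat_lit 4) (nat_lit 11) (nat_lit 5) (nat_lit 11) (nat_lit 4) (nat_lit 363) (nat_lit 290) (nat_lit 127)) (XT.lf (nat_lit 0) (nat_lit 15121873638) (nat_lit 152) (nat_lit 81940598647) (nat_lit 76) (nat_lit 116783728726) (nat_lit 9) (nat_lit 5) (nat_lit 11) (nat_lit 5) (nat_lit 10) (nat_lit 4) (nat_lit 364) (nat_lit 290) (nat_lit 126)))) (XT.nd (nat_lit 78) (nat_lit 76) (nat_lit 0) (XT.lf (nat_lit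 0) (nat_lit 38011789052) (nat_lit 152) (nat_lit 35018073949) (nat_lit 76) (nat_lit 150119454242) (nat_lit 9) (nat_lit 5) (nat_lit 11) (nat_lit 5) (nat_lit 10) (nat_lit 4) (nat_lit 365) (nat_lit 290) (nat_lit 125)) (XT.nd (nat_lit 78) (nat_lit 0) (nat_lit 0) (XT.lf (nat_lit 0) (nat_lit 14720128113) (nat_lit 76) (nat_lit 47555035650) (nat_lit 152) (nat_lit 170630977768) (nat_lit 8) (nat_lit 5) (nat_lit 9) (nat_lit 5) (nat_lit 10) (nat_lit 4) (nat_lit 366) (nat_lit 290) (nat_lit 124)) (XT.lf (nat_lit 0) (nat_lit 68159429397) (nat_lit 76) (nat_lit 20184483468) (nat_lit 152) (nat_lit 154777284284) (nat_lit 8) (nat_lit 5) (nat_lit 9) (nat_lit 5) (nat_lit 10) (nat_lit 4) (nat_lit 367) (nat_lit 290) (nat_lit 123))))))))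
noncomputable def xc190 : XT := (XT.nd (nat_lit 35100) (nat_lit 0) (nat_lit 3572) (XT.nd (nat_lit 780) (nat_lit 0) (nat_lit 0) (XT.nd (nat_lit 390) (nat_lit 152) (nat_lit 0) (XT.nd (nat_lit 156) (nat_lit 76) (nat_lit 0) (XT.nd (nat_lit 78) (nat_lit 0) (nat_lit 0) (XT.lf (nat_lit 0) (nat_lit 115848847728) (nat_lit 152) (nat_lit 129711385942) (nat_lit 0) (nat_lit 8280134845) (nat_lit 8) (nat_lit 5) (nat_lit 10) (nat_lit 4) (nat_lit 8) (nat_lit 4) (nat_lit 368) (nat_lit 290) (nat_lit 122)) (XT.lf (nat_lit 0) (nat_lit 145059148297) (nat_lit 152) (nat_lit 82530820990) (nat_lit 0) (nat_lit 37489023578) (nat_lit 8) (nat_lit 5) (nat_lit 10) (nat_lit 4) (nat_lit 8) (nat_lit 4) (nat_lit 369) (nat_lit 290) (nat_lit 121))) (XT.nd (nat_lit 78) (nat_lit 76) (nat_lit 0) (XT.lf (nat_lit 0) (nat_lit 175729226553) (nat_lit 152) (nat_lit 32992601862) (nat_lit 0) (nat_lit 68157757229) (nat_lit 8) (nat_lit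 5) (nat_lit 10) (nat_lit 4) (nat_lit 8) (nat_lit 4) (nat_lit 370) (nat_lit 290) (nat_lit 120)) (XT.nd (nat_lit 78) (nat_lit 0) (nat_lit 0) (XT.lf (nat_lit 0) (nat_lit 19650147001) (nat_lit 76) (nat_lit 188588753354) (nat_lit 76) (nat_lit 81016003454) (nat_lit 7) (nat_lit 4) (nat_lit 8) (nat_lit 5) (nat_lit 8) (nat_lit 4) (nat_lit 371) (nat_lit 290) (nat_lit 119)) (XT.lf (nat_lit 0) (nat_lit 76069174413) (nat_lit 76) (nat_lit 166862940222) (nat_lit 76) (nat_lit 59288970725) (nat_lit 7) (nat_lit 4) (nat_lit 8) (nat_lit 5) (nat_lit 8) (nat_lit 4) (nat_lit 372) (nat_lit 290) (nat_lit 118))))) (XT.nd (nat_lit 156) (nat_lit 152) (nat_lit 0) (XT.nd (nat_lit 78) (nat_lit 0) (nat_lit 0) (XT.lf (nat_lit 0) (nat_lit 135307926972) (nat_lit 76) (nat_lit 144051406567) (nat_lit 76) (nat_lit 36476275550) (nat_lit 7) (nat_lit 4) (nat_lit 8) (nat_lit 5) (nat_lit 8) (nat_lit 4) (nat_lit 373) (nat_lit 290)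 (nat_lit 117)) (XT.lf (nat_lit 0) (nat_lit 197507449328) (nat_lit 76) (nat_lit 120099839215) (nat_lit 76) (nat_lit 12523601988) (nat_lit 7) (nat_lit 4) (nat_lit 8) (nat_lit 5) (nat_lit 8) (nat_lit 4) (nat_lit 374) (nat_lit 290) (nat_lit 116))) (XT.nd (nat_lit 78) (nat_lit 76) (nat_lit 0) (XT.lf (nat_lit 0) (nat_lit 12221966719) (nat_lit 152) (nat_lit 82522258985) (nat_lit 76) (nat_lit 250386883942) (nat_lit 6) (nat_lit 5) (nat_lit 8) (nat_lit 5) (nat_lit 7) (nat_lit 4) (nat_lit 375) (nat_lit 290) (nat_lit 115)) (XT.nd (nat_lit 78) (nat_lit 76) (nat_lit 0) (XT.lf (nat_lit 0) (nat_lit 37783362420) (nat_lit 152) (nat_lit 30122401164) (nat_lit 76) (nat_lit 292965339947) (nat_lit 6) (nat_lit 5) (nat_lit 8) (nat_lit 5) (nat_lit 7) (nat_lit 4) (nat_lit 376) (nat_lit 290) (nat_lit 114)) (XT.lf (nat_lit 0) (nat_lit 25719610508) (nat_lit 76) (nat_lit 39304223745) (nat_lit 152) (nat_lit 312354212773)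 (nat_lit 5) (nat_lit 5) (nat_lit 6) (nat_lit 5) (nat_lit 7) (nat_lit 4) (nat_lit 377) (nat_lit 290) (nat_lit 113)))))) (XT.nd (nat_lit 33930) (nat_lit 0) (nat_lit 6460) (XT.nd (nat_lit 156) (nat_lit 0) (nat_lit 0) (XT.nd (nat_lit 78) (nat_lit 0) (nat_lit 0) (XT.lf (nat_lit 0) (nat_lit 85398493884) (nat_lit 76) (nat_lit 8737434739) (nat_lit 152) (nat_lit 300548929348) (nat_lit 5) (nat_lit 5) (nat_lit 6) (nat_lit 5) (nat_lit 7) (nat_lit 4) (nat_lit 378) (nat_lit 290) (nat_lit 112)) (XT.lf (nat_lit 0) (nat_lit 125067786898) (nat_lit 152) (nat_lit 265161348434) (nat_lit 0) (nat_lit 22609666385) (nat_lit 5) (nat_lit 5) (nat_lit 7) (nat_lit 4) (nat_lit 5) (nat_lit 4) (nat_lit 379) (nat_lit 290) (nat_lit 111))) (XT.nd (nat_lit 78) (nat_lit 0) (nat_lit 0) (XT.lf (nat_lit 0) (nat_lit 157688979605) (nat_lit 152) (nat_lit 218974253241) (nat_lit 0) (nat_lit 55230072929) (nat_lit 5) (nat_lit 5) (nat_lit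 7) (nat_lit 4) (nat_lit 5) (nat_lit 4) (nat_lit 380) (nat_lit 290) (nat_lit 110)) (XT.nd (nat_lit 33618) (nat_lit 0) (nat_lit 6460) (XT.lf (nat_lit 0) (nat_lit 191940760408) (nat_lit 152) (nat_lit 170478693393) (nat_lit 0) (nat_lit 89481105006) (nat_lit 5) (nat_lit 5) (nat_lit 7) (nat_lit 4) (nat_lit 5) (nat_lit 4) (nat_lit 381) (nat_lit 290) (nat_lit 109)) (XT.lf (nat_lit 0) (nat_lit 3260910490) (nat_lit 0) (nat_lit 3260910490) (nat_lit 684) (nat_lit 2817767168) (nat_lit 90) (nat_lit 5) (nat_lit 90) (nat_lit 3) (nat_lit 99) (nat_lit 3) (nat_lit 291) (nat_lit 291) (nat_lit 198))))) (XT.nd (nat_lit 156) (nat_lit 0) (nat_lit 0) (XT.nd (nat_lit 78) (nat_lit 0) (nat_lit 0) (XT.lf (nat_lit 0) (nat_lit 13577256327) (nat_lit 684) (nat_lit 3717424364) (nat_lit 760) (nat_lit 1840740069) (nat_lit 90) (nat_lit 5) (nat_lit 99) (nat_lit 3) (nat_lit 100) (nat_lit 5) (nat_lit 292) (nat_lit 291) (nat_lit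 197)) (XT.lf (nat_lit 76) (nat_lit 5197569928) (nat_lit 0) (nat_lit 9116750484) (nat_lit 760) (nat_lit 5291341549) (nat_lit 91) (nat_lit 5) (nat_lit 90) (nat_lit 5) (nat_lit 100) (nat_lit 5) (nat_lit 293) (nat_lit 291) (nat_lit 196))) (XT.nd (nat_lit 78) (nat_lit 0) (nat_lit 76) (XT.lf (nat_lit 76) (nat_lit 14681104493) (nat_lit 0) (nat_lit 459234811) (nat_lit 760) (nat_lit 4956492712) (nat_lit 91) (nat_lit 5) (nat_lit 90) (nat_lit 5) (nat_lit 100) (nat_lit 5) (nat_lit 294) (nat_lit 291) (nat_lit 195)) (XT.nd (nat_lit 78) (nat_lit 0) (nat_lit 0) (XT.lf (nat_lit 76) (nat_lit 4013374366) (nat_lit 0) (nat_lit 12181431628) (nat_lit 760) (nat_lit 4408418067) (nat_lit 92) (nat_lit 5) (nat_lit 91) (nat_lit 5) (nat_lit 101) (nat_lit 5) (nat_lit 295) (nat_lit 291) (nat_lit 194)) (XT.lf (nat_lit 76) (nat_lit 14087704558) (nat_lit 0) (nat_lit 3303534728) (nat_lit 760) (nat_lit 3739254099) (nat_lit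 92) (nat_lit 5) (nat_lit 91) (nat_lit 5) (nat_lit 101) (nat_lit 5) (nat_lit 296) (nat_lit 291) (nat_lit 193))))))) (XT.nd (nat_lit 780) (nat_lit 1520) (nat_lit 0) (XT.nd (nat_lit 390) (nat_lit 836) (nat_lit 0) (XT.nd (nat_lit 156) (nat_lit 684) (nat_lit 0) (XT.nd (nat_lit 78) (nat_lit 0) (nat_lit 0) (XT.lf (nat_lit 76) (nat_lit 2976217503) (nat_lit 0) (nat_lit 15802345250) (nat_lit 760) (nat_lit 2899028891) (nat_lit 93) (nat_lit 5) (nat_lit 92) (nat_lit 5) (nat_lit 102) (nat_lit 5) (nat_lit 297) (nat_lit 291) (nat_lit 192)) (XT.lf (nat_lit 76) (nat_lit 13678141766) (nat_lit 0) (nat_lit 6720648805) (nat_lit 760) (nat_lit 1845095329) (nat_lit 93) (nat_lit 5) (nat_lit 92) (nat_lit 5) (nat_lit 102) (nat_lit 5) (nat_lit 298) (nat_lit 291) (nat_lit 191))) (XT.nd (nat_lit 78) (nat_lit 760) (nat_lit 0) (XT.lf (nat_lit 76) (nat_lit 2092938703) (nat_lit 0) (nat_lit 20075167581) (nat_lit 760) (nat_lit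 667001900) (nat_lit 94) (nat_lit 5) (nat_lit 93) (nat_lit 5) (nat_lit 103) (nat_lit 5) (nat_lit 299) (nat_lit 291) (nat_lit 190)) (XT.nd (nat_lit 78) (nat_lit 0) (nat_lit 0) (XT.lf (nat_lit 0) (nat_lit 800970554) (nat_lit 760) (nat_lit 9995099137) (nat_lit 836) (nat_lit 12646931584) (nat_lit 83) (nat_lit 5) (nat_lit 93) (nat_lit 5) (nat_lit 94) (nat_lit 5) (nat_lit 300) (nat_lit 291) (nat_lit 189)) (XT.lf (nat_lit 76) (nat_lit 1313823824) (nat_lit 0) (nat_lit 1018614720) (nat_lit 836) (nat_lit 21747692929) (nat_lit 84) (nat_lit 5) (nat_lit 83) (nat_lit 5) (nat_lit 94) (nat_lit 5) (nat_lit 301) (nat_lit 291) (nat_lit 188))))) (XT.nd (nat_lit 156) (nat_lit 380) (nat_lit 0) (XT.nd (nat_lit 78) (nat_lit 532) (nat_lit 0) (XT.lf (nat_lit 0) (nat_lit 4249207722) (nat_lit 760) (nat_lit 11359541360) (nat_lit 76) (nat_lit 9124946810) (nat_lit 84) (nat_lit 5) (nat_lit 94) (nat_lit 5) (nat_lit 85)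 (nat_lit 5) (nat_lit 302) (nat_lit 291) (nat_lit 187)) (XT.lf (nat_lit 0) (nat_lit 613914392) (nat_lit 532) (nat_lit 5666849521) (nat_lit 608) (nat_lit 19138240619) (nat_lit 77) (nat_lit 5) (nat_lit 84) (nat_lit 5) (nat_lit 85) (nat_lit 5) (nat_lit 303) (nat_lit 291) (nat_lit 186))) (XT.nd (nat_lit 78) (nat_lit 380) (nat_lit 0) (XT.lf (nat_lit 0) (nat_lit 8676859779) (nat_lit 608) (nat_lit 12633068718) (nat_lit 76) (nat_lit 4815514801) (nat_lit 77) (nat_lit 5) (nat_lit 85) (nat_lit 5) (nat_lit 78) (nat_lit 5) (nat_lit 304) (nat_lit 291) (nat_lit 185)) (XT.nd (nat_lit 78) (nat_lit 0) (nat_lit 0) (XT.lf (nat_lit 0) (nat_lit 49703205) (nat_lit 380) (nat_lit 11229991667) (nat_lit 456) (nat_lit 15583174590) (nat_lit 72) (nat_lit 5) (nat_lit 77) (nat_lit 5) (nat_lit 78) (nat_lit 5) (nat_lit 305) (nat_lit 291) (nat_lit 184)) (XT.lf (nat_lit 0) (nat_lit 13798768653) (nat_lit 380) (nat_lit 421329946)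 (nat_lit 456) (nat_lit 13406708589) (nat_lit 72) (nat_lit 5) (nat_lit 77) (nat_lit 5) (nat_lit 78) (nat_lit 5) (nat_lit 306) (nat_lit 291) (nat_lit 183)))))) (XT.nd (nat_lit 390) (nat_lit 836) (nat_lit 0) (XT.nd (nat_lit 156) (nat_lit 380) (nat_lit 0) (XT.nd (nat_lit 78) (nat_lit 304) (nat_lit 0) (XT.lf (nat_lit 0) (nat_lit 17471927028) (nat_lit 456) (nat_lit 370720422) (nat_lit 76) (nat_lit 10578085174) (nat_lit 72) (nat_lit 5) (nat_lit 78) (nat_lit 5) (nat_lit 73) (nat_lit 5) (nat_lit 307) (nat_lit 291) (nat_lit 182)) (XT.lf (nat_lit 0) (nat_lit 14200929296) (nat_lit 304) (nat_lit 6908128056) (nat_lit 380) (nat_lit 8134171976) (nat_lit 68) (nat_lit 5) (nat_lit 72) (nat_lit 5) (nat_lit 73) (nat_lit 5) (nat_lit 308) (nat_lit 291) (nat_lit 181))) (XT.nd (nat_lit 78) (nat_lit 380) (nat_lit 0) (XT.lf (nat_lit 0) (nat_lit 25000093900) (nat_lit 380) (nat_lit 670344824) (nat_lit 76) (nat_lit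 4432819679) (nat_lit 68) (nat_lit 5) (nat_lit 73) (nat_lit 5) (nat_lit 69) (nat_lit 5) (nat_lit 309) (nat_lit 291) (nat_lit 180)) (XT.nd (nat_lit 78) (nat_lit 76) (nat_lit 0) (XT.lf (nat_lit 0) (nat_lit 14773777233) (nat_lit 304) (nat_lit 14650355275) (nat_lit 380) (nat_lit 1565243453) (nat_lit 64) (nat_lit 5) (nat_lit 68) (nat_lit 5) (nat_lit 69) (nat_lit 5) (nat_lit 310) (nat_lit 291) (nat_lit 179)) (XT.lf (nat_lit 0) (nat_lit 2086926404) (nat_lit 380) (nat_lit 945725932) (nat_lit 76) (nat_lit 28885170048) (nat_lit 63) (nat_lit 5) (nat_lit 68) (nat_lit 5) (nat_lit 64) (nat_lit 5) (nat_lit 311) (nat_lit 291) (nat_lit 178))))) (XT.nd (nat_lit 156) (nat_lit 532) (nat_lit 0) (XT.nd (nat_lit 78) (nat_lit 0) (nat_lit 0) (XT.lf (nat_lit 0) (nat_lit 6254310297) (nat_lit 380) (nat_lit 17473056180) (nat_lit 76) (nat_lit 9144789509) (nat_lit 59) (nat_lit 5) (nat_lit 64) (nat_lit 5) (nat_lit 60)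 (nat_lit 5) (nat_lit 312) (nat_lit 291) (nat_lit 177)) (XT.lf (nat_lit 0) (nat_lit 10691070907) (nat_lit 380) (nat_lit 1335367649) (nat_lit 76) (nat_lit 21844725186) (nat_lit 59) (nat_lit 5) (nat_lit 64) (nat_lit 5) (nat_lit 60) (nat_lit 5) (nat_lit 313) (nat_lit 291) (nat_lit 176))) (XT.nd (nat_lit 78) (nat_lit 228) (nat_lit 0) (XT.lf (nat_lit 0) (nat_lit 15604752474) (nat_lit 380) (nat_lit 18796518020) (nat_lit 76) (nat_lit 506104724) (nat_lit 55) (nat_lit 5) (nat_lit 60) (nat_lit 5) (nat_lit 56) (nat_lit 5) (nat_lit 314) (nat_lit 291) (nat_lit 175)) (XT.nd (nat_lit 78) (nat_lit 228) (nat_lit 0) (XT.lf (nat_lit 0) (nat_lit 20979632243) (nat_lit 380) (nat_lit 1721867280) (nat_lit 76) (nat_lit 13283129158) (nat_lit 55) (nat_lit 5) (nat_lit 60) (nat_lit 5) (nat_lit 56) (nat_lit 5) (nat_lit 315) (nat_lit 291) (nat_lit 174)) (XT.lf (nat_lit 0) (nat_lit 16736641092) (nat_lit 228) (nat_lit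 10143514643) (nat_lit 304) (nat_lit 10222750878) (nat_lit 52) (nat_lit 5) (nat_lit 55) (nat_lit 5) (nat_lit 56) (nat_lit 5) (nat_lit 316) (nat_lit 291) (nat_lit 173))))))))
noncomputable def xc191 : XT := (XT.nd (nat_lit 1560) (nat_lit 1140) (nat_lit 0) (XT.nd (nat_lit 780) (nat_lit 684) (nat_lit 0) (XT.nd (nat_lit 390) (nat_lit 684) (nat_lit 0) (XT.nd (nat_lit 156) (nat_lit 228) (nat_lit 0) (XT.nd (nat_lit 78) (nat_lit 304) (nat_lit 0) (XT.lf (nat_lit 0) (nat_lit 33148543978) (nat_lit 304) (nat_lit 2151428635) (nat_lit 76) (nat_lit 2973490360) (nat_lit 52) (nat_lit 5) (nat_lit 56) (nat_lit 5) (nat_lit 53) (nat_lit 5) (nat_lit 317) (nat_lit 291) (nat_lit 172)) (XT.lf (nat_lit 0) (nat_lit 660808390) (nat_lit 304) (nat_lit 22133517840) (nat_lit 76) (nat_lit 16686034192) (nat_lit 48) (nat_lit 5) (nat_lit 52) (nat_lit 5) (nat_lit 49) (nat_lit 5) (nat_lit 318) (nat_lit 291) (nat_lit 171)))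 (XT.nd (nat_lit 78) (nat_lit 228) (nat_lit 0) (XT.lf (nat_lit 0) (nat_lit 6596569950) (nat_lit 304) (nat_lit 2941120605) (nat_lit 76) (nat_lit 31204068080) (nat_lit 48) (nat_lit 5) (nat_lit 52) (nat_lit 5) (nat_lit 49) (nat_lit 5) (nat_lit 319) (nat_lit 291) (nat_lit 170)) (XT.nd (nat_lit 78) (nat_lit 0) (nat_lit 0) (XT.lf (nat_lit 0) (nat_lit 13175710437) (nat_lit 304) (nat_lit 24350883078) (nat_lit 76) (nat_lit 4522309015) (nat_lit 45) (nat_lit 5) (nat_lit 49) (nat_lit 5) (nat_lit 46) (nat_lit 5) (nat_lit 320) (nat_lit 291) (nat_lit 169)) (XT.lf (nat_lit 0) (nat_lit 20287011461) (nat_lit 304) (nat_lit 4110135868) (nat_lit 76) (nat_lit 19014101176) (nat_lit 45) (nat_lit 5) (nat_lit 49) (nat_lit 5) (nat_lit 46) (nat_lit 5) (nat_lit 321) (nat_lit 291) (nat_lit 168))))) (XT.nd (nat_lit 156) (nat_lit 456) (nat_lit 0) (XT.nd (nat_lit 78) (nat_lit 0) (nat_lit 0) (XT.lf (nat_lit 0) (nat_lit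 17704271020) (nat_lit 228) (nat_lit 10322421787) (nat_lit 304) (nat_lit 16801383029) (nat_lit 42) (nat_lit 5) (nat_lit 45) (nat_lit 5) (nat_lit 46) (nat_lit 5) (nat_lit 322) (nat_lit 291) (nat_lit 167)) (XT.lf (nat_lit 0) (nat_lit 36290151381) (nat_lit 304) (nat_lit 5635984833) (nat_lit 76) (nat_lit 4382773250) (nat_lit 42) (nat_lit 5) (nat_lit 46) (nat_lit 5) (nat_lit 43) (nat_lit 5) (nat_lit 323) (nat_lit 291) (nat_lit 166))) (XT.nd (nat_lit 78) (nat_lit 304) (nat_lit 0) (XT.lf (nat_lit 0) (nat_lit 17306049522) (nat_lit 152) (nat_lit 28096790894) (nat_lit 228) (nat_lit 2439145855) (nat_lit 40) (nat_lit 5) (nat_lit 42) (nat_lit 5) (nat_lit 43) (nat_lit 5) (nat_lit 324) (nat_lit 291) (nat_lit 165)) (XT.nd (nat_lit 78) (nat_lit 228) (nat_lit 0) (XT.lf (nat_lit 0) (nat_lit 5436472244) (nat_lit 228) (nat_lit 7948723005) (nat_lit 76) (nat_lit 36057532830) (nat_lit 39) (nat_lit 5) (nat_lit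 42) (nat_lit 5) (nat_lit 40) (nat_lit 5) (nat_lit 325) (nat_lit 291) (nat_lit 164)) (XT.lf (nat_lit 0) (nat_lit 13911310747) (nat_lit 304) (nat_lit 34902888369) (nat_lit 76) (nat_lit 2292941798) (nat_lit 36) (nat_lit 5) (nat_lit 40) (nat_lit 5) (nat_lit 37) (nat_lit 5) (nat_lit 326) (nat_lit 291) (nat_lit 163)))))) (XT.nd (nat_lit 390) (nat_lit 304) (nat_lit 0) (XT.nd (nat_lit 156) (nat_lit 228) (nat_lit 0) (XT.nd (nat_lit 78) (nat_lit 152) (nat_lit 0) (XT.lf (nat_lit 0) (nat_lit 23163026827) (nat_lit 304) (nat_lit 11233561969) (nat_lit 76) (nat_lit 18440532410) (nat_lit 36) (nat_lit 5) (nat_lit 40) (nat_lit 5) (nat_lit 37) (nat_lit 5) (nat_lit 327) (nat_lit 291) (nat_lit 162)) (XT.lf (nat_lit 0) (nat_lit 14064899468) (nat_lit 152) (nat_lit 19029054063) (nat_lit 228) (nat_lit 21548819164) (nat_lit 34) (nat_lit 5) (nat_lit 36) (nat_lit 5) (nat_lit 37) (nat_lit 5) (nat_lit 328) (nat_lit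 291) (nat_lit 161))) (XT.nd (nat_lit 78) (nat_lit 228) (nat_lit 0) (XT.lf (nat_lit 0) (nat_lit 41013864495) (nat_lit 152) (nat_lit 2694912464) (nat_lit 228) (nat_lit 12820565543) (nat_lit 34) (nat_lit 5) (nat_lit 36) (nat_lit 5) (nat_lit 37) (nat_lit 5) (nat_lit 329) (nat_lit 291) (nat_lit 160)) (XT.nd (nat_lit 78) (nat_lit 76) (nat_lit 0) (XT.lf (nat_lit 0) (nat_lit 10919500488) (nat_lit 152) (nat_lit 44328242489) (nat_lit 228) (nat_lit 3242830859) (nat_lit 32) (nat_lit 5) (nat_lit 34) (nat_lit 5) (nat_lit 35) (nat_lit 5) (nat_lit 330) (nat_lit 291) (nat_lit 159)) (XT.lf (nat_lit 0) (nat_lit 6904193544) (nat_lit 228) (nat_lit 21481062488) (nat_lit 76) (nat_lit 32143870063) (nat_lit 31) (nat_lit 5) (nat_lit 34) (nat_lit 5) (nat_lit 32) (nat_lit 5) (nat_lit 331) (nat_lit 291) (nat_lit 158))))) (XT.nd (nat_lit 156) (nat_lit 152) (nat_lit 0) (XT.nd (nat_lit 78) (nat_lit 0) (nat_lit 0) (XT.lf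 (nat_lit 0) (nat_lit 6049770284) (nat_lit 152) (nat_lit 11491642122) (nat_lit 228) (nat_lit 45120947005) (nat_lit 29) (nat_lit 5) (nat_lit 31) (nat_lit 5) (nat_lit 32) (nat_lit 5) (nat_lit 332) (nat_lit 291) (nat_lit 157)) (XT.lf (nat_lit 0) (nat_lit 29175183633) (nat_lit 228) (nat_lit 29288826040) (nat_lit 76) (nat_lit 6415012704) (nat_lit 29) (nat_lit 5) (nat_lit 32) (nat_lit 5) (nat_lit 30) (nat_lit 5) (nat_lit 333) (nat_lit 291) (nat_lit 156))) (XT.nd (nat_lit 78) (nat_lit 152) (nat_lit 0) (XT.lf (nat_lit 0) (nat_lit 41576562116) (nat_lit 228) (nat_lit 791251307) (nat_lit 76) (nat_lit 24829411570) (nat_lit 29) (nat_lit 5) (nat_lit 32) (nat_lit 5) (nat_lit 30) (nat_lit 5) (nat_lit 334) (nat_lit 291) (nat_lit 155)) (XT.nd (nat_lit 78) (nat_lit 0) (nat_lit 0) (XT.lf (nat_lit 0) (nat_lit 30090486672) (nat_lit 152) (nat_lit 24974968360) (nat_lit 228) (nat_lit 14542512749) (nat_lit 27)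 (nat_lit 5) (nat_lit 29) (nat_lit 5) (nat_lit 30) (nat_lit 5) (nat_lit 335) (nat_lit 291) (nat_lit 154)) (XT.lf (nat_lit 0) (nat_lit 62540044301) (nat_lit 152) (nat_lit 6699850814) (nat_lit 228) (nat_lit 2898799676) (nat_lit 27) (nat_lit 5) (nat_lit 29) (nat_lit 5) (nat_lit 30) (nat_lit 5) (nat_lit 336) (nat_lit 291) (nat_lit 153))))))) (XT.nd (nat_lit 780) (nat_lit 532) (nat_lit 0) (XT.nd (nat_lit 390) (nat_lit 304) (nat_lit 0) (XT.nd (nat_lit 156) (nat_lit 152) (nat_lit 0) (XT.nd (nat_lit 78) (nat_lit 0) (nat_lit 0) (XT.lf (nat_lit 0) (nat_lit 9578895818) (nat_lit 152) (nat_lit 52591131366) (nat_lit 76) (nat_lit 12591135753) (nat_lit 25) (nat_lit 5) (nat_lit 27) (nat_lit 5) (nat_lit 26) (nat_lit 5) (nat_lit 337) (nat_lit 291) (nat_lit 152)) (XT.lf (nat_lit 0) (nat_lit 22855915803) (nat_lit 152) (nat_lit 21809920740) (nat_lit 76) (nat_lit 32832900870) (nat_lit 25) (nat_lit 5) (nat_lit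 27) (nat_lit 5) (nat_lit 26) (nat_lit 5) (nat_lit 338) (nat_lit 291) (nat_lit 151))) (XT.nd (nat_lit 78) (nat_lit 0) (nat_lit 0) (XT.lf (nat_lit 0) (nat_lit 10854263649) (nat_lit 152) (nat_lit 26109895375) (nat_lit 228) (nat_lit 43400664795) (nat_lit 23) (nat_lit 5) (nat_lit 25) (nat_lit 5) (nat_lit 26) (nat_lit 5) (nat_lit 339) (nat_lit 291) (nat_lit 150)) (XT.nd (nat_lit 78) (nat_lit 0) (nat_lit 0) (XT.lf (nat_lit 0) (nat_lit 45905413774) (nat_lit 152) (nat_lit 6239715007) (nat_lit 228) (nat_lit 31210721773) (nat_lit 23) (nat_lit 5) (nat_lit 25) (nat_lit 5) (nat_lit 26) (nat_lit 5) (nat_lit 340) (nat_lit 291) (nat_lit 149)) (XT.lf (nat_lit 0) (nat_lit 68311497921) (nat_lit 228) (nat_lit 4018978074) (nat_lit 76) (nat_lit 14154636735) (nat_lit 23) (nat_lit 5) (nat_lit 26) (nat_lit 5) (nat_lit 24) (nat_lit 4) (nat_lit 341) (nat_lit 291) (nat_lit 148))))) (XT.nd (nat_lit 156) (nat_lit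 152) (nat_lit 0) (XT.nd (nat_lit 78) (nat_lit 76) (nat_lit 0) (XT.lf (nat_lit 0) (nat_lit 32002864561) (nat_lit 76) (nat_lit 53883389263) (nat_lit 152) (nat_lit 3854582345) (nat_lit 22) (nat_lit 5) (nat_lit 23) (nat_lit 5) (nat_lit 24) (nat_lit 4) (nat_lit 342) (nat_lit 291) (nat_lit 147)) (XT.lf (nat_lit 0) (nat_lit 10889870495) (nat_lit 152) (nat_lit 23369488484) (nat_lit 76) (nat_lit 58887894782) (nat_lit 21) (nat_lit 5) (nat_lit 23) (nat_lit 5) (nat_lit 22) (nat_lit 5) (nat_lit 343) (nat_lit 291) (nat_lit 146))) (XT.nd (nat_lit 78) (nat_lit 0) (nat_lit 0) (XT.lf (nat_lit 0) (nat_lit 13069484673) (nat_lit 152) (nat_lit 13374794583) (nat_lit 228) (nat_lit 70266441211) (nat_lit 19) (nat_lit 5) (nat_lit 21) (nat_lit 5) (nat_lit 22) (nat_lit 5) (nat_lit 344) (nat_lit 291) (nat_lit 145)) (XT.nd (nat_lit 78) (nat_lit 0) (nat_lit 0) (XT.lf (nat_lit 0) (nat_lit 43310461465) (nat_lit 228)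 (nat_lit 48433938315) (nat_lit 76) (nat_lit 8681259371) (nat_lit 19) (nat_lit 5) (nat_lit 22) (nat_lit 5) (nat_lit 20) (nat_lit 4) (nat_lit 345) (nat_lit 291) (nat_lit 144)) (XT.lf (nat_lit 0) (nat_lit 61237534986) (nat_lit 228) (nat_lit 11688457621) (nat_lit 76) (nat_lit 31389474280) (nat_lit 19) (nat_lit 5) (nat_lit 22) (nat_lit 5) (nat_lit 20) (nat_lit 4) (nat_lit 346) (nat_lit 291) (nat_lit 143)))))) (XT.nd (nat_lit 390) (nat_lit 228) (nat_lit 0) (XT.nd (nat_lit 156) (nat_lit 228) (nat_lit 0) (XT.nd (nat_lit 78) (nat_lit 0) (nat_lit 0) (XT.lf (nat_lit 0) (nat_lit 27780668434) (nat_lit 76) (nat_lit 52712430958) (nat_lit 152) (nat_lit 27885059930) (nat_lit 18) (nat_lit 5) (nat_lit 19) (nat_lit 5) (nat_lit 20) (nat_lit 4) (nat_lit 347) (nat_lit 291) (nat_lit 142)) (XT.lf (nat_lit 0) (nat_lit 69626308989) (nat_lit 76) (nat_lit 31281519118) (nat_lit 152) (nat_lit 11726340081) (nat_lit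 18) (nat_lit 5) (nat_lit 19) (nat_lit 5) (nat_lit 20) (nat_lit 4) (nat_lit 348) (nat_lit 291) (nat_lit 141))) (XT.nd (nat_lit 78) (nat_lit 152) (nat_lit 0) (XT.lf (nat_lit 0) (nat_lit 5071078348) (nat_lit 152) (nat_lit 3623221278) (nat_lit 76) (nat_lit 108404663811) (nat_lit 17) (nat_lit 5) (nat_lit 19) (nat_lit 5) (nat_lit 18) (nat_lit 5) (nat_lit 349) (nat_lit 291) (nat_lit 140)) (XT.nd (nat_lit 78) (nat_lit 0) (nat_lit 0) (XT.lf (nat_lit 0) (nat_lit 23165859907) (nat_lit 228) (nat_lit 83217801576) (nat_lit 76) (nat_lit 15351147470) (nat_lit 15) (nat_lit 5) (nat_lit 18) (nat_lit 5) (nat_lit 16) (nat_lit 4) (nat_lit 350) (nat_lit 291) (nat_lit 139)) (XT.lf (nat_lit 0) (nat_lit 42368847446) (nat_lit 228) (nat_lit 43855423141) (nat_lit 76) (nat_lit 40368003729) (nat_lit 15) (nat_lit 5) (nat_lit 18) (nat_lit 5) (nat_lit 16) (nat_lit 4) (nat_lit 351) (nat_lit 291) (nat_lit 138))))) (XT.nd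 (nat_lit 234) (nat_lit 152) (nat_lit 0) (XT.nd (nat_lit 78) (nat_lit 76) (nat_lit 0) (XT.lf (nat_lit 0) (nat_lit 62530622912) (nat_lit 228) (nat_lit 2527351074) (nat_lit 76) (nat_lit 66634707908) (nat_lit 15) (nat_lit 5) (nat_lit 18) (nat_lit 5) (nat_lit 16) (nat_lit 4) (nat_lit 352) (nat_lit 291) (nat_lit 137)) (XT.nd (nat_lit 78) (nat_lit 0) (nat_lit 0) (XT.lf (nat_lit 0) (nat_lit 42215990124) (nat_lit 76) (nat_lit 42142310323) (nat_lit 152) (nat_lit 52656919569) (nat_lit 14) (nat_lit 5) (nat_lit 15) (nat_lit 5) (nat_lit 16) (nat_lit 4) (nat_lit 353) (nat_lit 291) (nat_lit 136)) (XT.lf (nat_lit 0) (nat_lit 89281969760) (nat_lit 76) (nat_lit 18036923658) (nat_lit 152) (nat_lit 35282915843) (nat_lit 14) (nat_lit 5) (nat_lit 15) (nat_lit 5) (nat_lit 16) (nat_lit 4) (nat_lit 354) (nat_lit 291) (nat_lit 135)))) (XT.nd (nat_lit 78) (nat_lit 152) (nat_lit 0) (XT.lf (nat_lit 0) (nat_lit 131539854618)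 (nat_lit 152) (nat_lit 9882253612) (nat_lit 0) (nat_lit 7040003563) (nat_lit 14) (nat_lit 5) (nat_lit 16) (nat_lit 4) (nat_lit 14) (nat_lit 4) (nat_lit 355) (nat_lit 291) (nat_lit 134)) (XT.nd (nat_lit 78) (nat_lit 0) (nat_lit 0) (XT.lf (nat_lit 0) (nat_lit 3161172297) (nat_lit 152) (nat_lit 118022243182) (nat_lit 76) (nat_lit 33386167206) (nat_lit 12) (nat_lit 5) (nat_lit 14) (nat_lit 5) (nat_lit 13) (nat_lit 4) (nat_lit 356) (nat_lit 291) (nat_lit 133)) (XT.lf (nat_lit 0) (nat_lit 23849016160) (nat_lit 152) (nat_lit 75614825489) (nat_lit 76) (nat_lit 61496268336) (nat_lit 12) (nat_lit 5) (nat_lit 14) (nat_lit 5) (nat_lit 13) (nat_lit 4) (nat_lit 357) (nat_lit 291) (nat_lit 132))))))))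
noncomputable def xc192 : XT := (XT.nd (nat_lit 1560) (nat_lit 76) (nat_lit 0) (XT.nd (nat_lit 780) (nat_lit 152) (nat_lit 0) (XT.nd (nat_lit 390) (nat_lit 228) (nat_lit 0) (XT.nd (nat_lit 156) (nat_lit 0) (nat_lit 0) (XT.nd (nat_lit 78) (nat_lit 76) (nat_lit 0) (XT.lf (nat_lit 0) (nat_lit 45570144937) (nat_lit 152) (nat_lit 31089046950) (nat_lit 76) (nat_lit 91011027748) (nat_lit 12) (nat_lit 5) (nat_lit 14) (nat_lit 5) (nat_lit 13) (nat_lit 4) (nat_lit 358) (nat_lit 291) (nat_lit 131)) (XT.lf (nat_lit 0) (nat_lit 16178933090) (nat_lit 76) (nat_lit 52449940997) (nat_lit 152) (nat_lit 106074384075) (nat_lit 11) (nat_lit 5) (nat_lit 12) (nat_lit 5) (nat_lit 13) (nat_lit 4) (nat_lit 359) (nat_lit 291) (nat_lit 130))) (XT.nd (nat_lit 78) (nat_lit 0) (nat_lit 0) (XT.lf (nat_lit 0) (nat_lit 66887770197) (nat_lit 76) (nat_lit 26478243812) (nat_lit 152) (nat_lit 88695661455) (nat_lit 11) (nat_lit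 5) (nat_lit 12) (nat_lit 5) (nat_lit 13) (nat_lit 4) (nat_lit 360) (nat_lit 291) (nat_lit 129)) (XT.nd (nat_lit 78) (nat_lit 0) (nat_lit 0) (XT.lf (nat_lit 0) (nat_lit 119351379713) (nat_lit 152) (nat_lit 69670161294) (nat_lit 0) (nat_lit 765904720) (nat_lit 11) (nat_lit 5) (nat_lit 13) (nat_lit 4) (nat_lit 11) (nat_lit 4) (nat_lit 361) (nat_lit 291) (nat_lit 128)) (XT.lf (nat_lit 0) (nat_lit 147069133606) (nat_lit 152) (nat_lit 22327043394) (nat_lit 0) (nat_lit 28481672019) (nat_lit 11) (nat_lit 5) (nat_lit 13) (nat_lit 4) (nat_lit 11) (nat_lit 4) (nat_lit 362) (nat_lit 291) (nat_lit 127))))) (XT.nd (nat_lit 156) (nat_lit 152) (nat_lit 0) (XT.nd (nat_lit 78) (nat_lit 0) (nat_lit 0) (XT.lf (nat_lit 0) (nat_lit 28286928087) (nat_lit 76) (nat_lit 148326580884) (nat_lit 76) (nat_lit 29737227302) (nat_lit 10) (nat_lit 4) (nat_lit 11) (nat_lit 5) (nat_lit 11) (nat_lit 4) (nat_lit 363) (nat_lit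 291) (nat_lit 126)) (XT.lf (nat_lit 0) (nat_lit 82205108791) (nat_lit 76) (nat_lit 125807226712) (nat_lit 76) (nat_lit 7216071230) (nat_lit 10) (nat_lit 4) (nat_lit 11) (nat_lit 5) (nat_lit 11) (nat_lit 4) (nat_lit 364) (nat_lit 291) (nat_lit 125))) (XT.nd (nat_lit 78) (nat_lit 76) (nat_lit 0) (XT.lf (nat_lit 0) (nat_lit 15904384539) (nat_lit 152) (nat_lit 85988883271) (nat_lit 76) (nat_lit 122643909464) (nat_lit 9) (nat_lit 5) (nat_lit 11) (nat_lit 5) (nat_lit 10) (nat_lit 4) (nat_lit 365) (nat_lit 291) (nat_lit 124)) (XT.nd (nat_lit 78) (nat_lit 76) (nat_lit 0) (XT.lf (nat_lit 0) (nat_lit 39937537760) (nat_lit 152) (nat_lit 36722553543) (nat_lit 76) (nat_lit 157645421528) (nat_lit 9) (nat_lit 5) (nat_lit 11) (nat_lit 5) (nat_lit 10) (nat_lit 4) (nat_lit 366) (nat_lit 291) (nat_lit 123)) (XT.lf (nat_lit 0) (nat_lit 15501809846) (nat_lit 76) (nat_lit 49911786421) (nat_lit 152) (nat_lit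 179136606899) (nat_lit 8) (nat_lit 5) (nat_lit 9) (nat_lit 5) (nat_lit 10) (nat_lit 4) (nat_lit 367) (nat_lit 291) (nat_lit 122)))))) (XT.nd (nat_lit 390) (nat_lit 76) (nat_lit 0) (XT.nd (nat_lit 156) (nat_lit 76) (nat_lit 0) (XT.nd (nat_lit 78) (nat_lit 0) (nat_lit 0) (XT.lf (nat_lit 0) (nat_lit 71610901179) (nat_lit 76) (nat_lit 21173706678) (nat_lit 152) (nat_lit 162491463016) (nat_lit 8) (nat_lit 5) (nat_lit 9) (nat_lit 5) (nat_lit 10) (nat_lit 4) (nat_lit 368) (nat_lit 291) (nat_lit 121)) (XT.lf (nat_lit 0) (nat_lit 121663967847) (nat_lit 152) (nat_lit 136154694121) (nat_lit 0) (nat_lit 8712580452) (nat_lit 8) (nat_lit 5) (nat_lit 10) (nat_lit 4) (nat_lit 8) (nat_lit 4) (nat_lit 369) (nat_lit 291) (nat_lit 120))) (XT.nd (nat_lit 78) (nat_lit 76) (nat_lit 0) (XT.lf (nat_lit 0) (nat_lit 152333703552) (nat_lit 152) (nat_lit 86617113355) (nat_lit 0) (nat_lit 39381035580) (nat_lit 8)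 (nat_lit 5) (nat_lit 10) (nat_lit 4) (nat_lit 8) (nat_lit 4) (nat_lit 370) (nat_lit 291) (nat_lit 119)) (XT.nd (nat_lit 78) (nat_lit 76) (nat_lit 0) (XT.lf (nat_lit 0) (nat_lit 184536257252) (nat_lit 152) (nat_lit 34603899875) (nat_lit 0) (nat_lit 71582369684) (nat_lit 8) (nat_lit 5) (nat_lit 10) (nat_lit 4) (nat_lit 8) (nat_lit 4) (nat_lit 371) (nat_lit 291) (nat_lit 118)) (XT.lf (nat_lit 0) (nat_lit 20670368172) (nat_lit 76) (nat_lit 198000655898) (nat_lit 76) (nat_lit 85045606809) (nat_lit 7) (nat_lit 4) (nat_lit 8) (nat_lit 5) (nat_lit 8) (nat_lit 4) (nat_lit 372) (nat_lit 291) (nat_lit 117))))) (XT.nd (nat_lit 156) (nat_lit 76) (nat_lit 0) (XT.nd (nat_lit 78) (nat_lit 0) (nat_lit 0) (XT.lf (nat_lit 0) (nat_lit 79908551058) (nat_lit 76) (nat_lit 175189387114) (nat_lit 76) (nat_lit 62233231815) (nat_lit 7) (nat_lit 4) (nat_lit 8) (nat_lit 5) (nat_lit 8) (nat_lit 4) (nat_lit 373) (nat_lit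 291) (nat_lit 116)) (XT.lf (nat_lit 0) (nat_lit 142107530868) (nat_lit 76) (nat_lit 151238072020) (nat_lit 76) (nat_lit 38280863188) (nat_lit 7) (nat_lit 4) (nat_lit 8) (nat_lit 5) (nat_lit 8) (nat_lit 4) (nat_lit 374) (nat_lit 291) (nat_lit 115))) (XT.nd (nat_lit 78) (nat_lit 76) (nat_lit 0) (XT.lf (nat_lit 0) (nat_lit 207415400411) (nat_lit 76) (nat_lit 126089683676) (nat_lit 76) (nat_lit 13131471478) (nat_lit 7) (nat_lit 4) (nat_lit 8) (nat_lit 5) (nat_lit 8) (nat_lit 4) (nat_lit 375) (nat_lit 291) (nat_lit 114)) (XT.nd (nat_lit 78) (nat_lit 0) (nat_lit 0) (XT.lf (nat_lit 0) (nat_lit 12849945584) (nat_lit 152) (nat_lit 86616779335) (nat_lit 76) (nat_lit 262920088985) (nat_lit 6) (nat_lit 5) (nat_lit 8) (nat_lit 5) (nat_lit 7) (nat_lit 4) (nat_lit 376) (nat_lit 291) (nat_lit 113)) (XT.lf (nat_lit 0) (nat_lit 39688607235) (nat_lit 152) (nat_lit 31598433033) (nat_lit 76) (nat_lit 307626807750)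 (nat_lit 6) (nat_lit 5) (nat_lit 8) (nat_lit 5) (nat_lit 7) (nat_lit 4) (nat_lit 377) (nat_lit 291) (nat_lit 112))))))) (XT.nd (nat_lit 34398) (nat_lit 0) (nat_lit 5092) (XT.nd (nat_lit 34008) (nat_lit 0) (nat_lit 6460) (XT.nd (nat_lit 156) (nat_lit 0) (nat_lit 0) (XT.nd (nat_lit 78) (nat_lit 0) (nat_lit 0) (XT.lf (nat_lit 0) (nat_lit 27035193929) (nat_lit 76) (nat_lit 41255605357) (nat_lit 152) (nat_lit 327955354895) (nat_lit 5) (nat_lit 5) (nat_lit 6) (nat_lit 5) (nat_lit 7) (nat_lit 4) (nat_lit 378) (nat_lit 291) (nat_lit 111)) (XT.lf (nat_lit 0) (nat_lit 89696611812) (nat_lit 76) (nat_lit 9161135452) (nat_lit 152) (nat_lit 315560596277) (nat_lit 5) (nat_lit 5) (nat_lit 6) (nat_lit 5) (nat_lit 7) (nat_lit 4) (nat_lit 379) (nat_lit 291) (nat_lit 110))) (XT.nd (nat_lit 78) (nat_lit 0) (nat_lit 0) (XT.lf (nat_lit 0) (nat_lit 131335678954) (nat_lit 152) (nat_lit 278392039735) (nat_lit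 0) (nat_lit 23752292055) (nat_lit 5) (nat_lit 5) (nat_lit 7) (nat_lit 4) (nat_lit 5) (nat_lit 4) (nat_lit 380) (nat_lit 291) (nat_lit 109)) (XT.nd (nat_lit 33696) (nat_lit 0) (nat_lit 6460) (XT.lf (nat_lit 0) (nat_lit 165587240691) (nat_lit 152) (nat_lit 229896893408) (nat_lit 0) (nat_lit 58003140720) (nat_lit 5) (nat_lit 5) (nat_lit 7) (nat_lit 4) (nat_lit 5) (nat_lit 4) (nat_lit 381) (nat_lit 291) (nat_lit 108)) (XT.lf (nat_lit 0) (nat_lit 3511484752) (nat_lit 0) (nat_lit 3511484752) (nat_lit 684) (nat_lit 2774492001) (nat_lit 90) (nat_lit 5) (nat_lit 90) (nat_lit 3) (nat_lit 99) (nat_lit 3) (nat_lit 292) (nat_lit 292) (nat_lit 196))))) (XT.nd (nat_lit 156) (nat_lit 0) (nat_lit 0) (XT.nd (nat_lit 78) (nat_lit 0) (nat_lit 0) (XT.lf (nat_lit 0) (nat_lit 14586958964) (nat_lit 684) (nat_lit 3716626329) (nat_lit 760) (nat_lit 1771391794) (nat_lit 90) (nat_lit 5) (nat_lit 99) (nat_lit 3)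 (nat_lit 100) (nat_lit 5) (nat_lit 293) (nat_lit 292) (nat_lit 195)) (XT.lf (nat_lit 76) (nat_lit 5641106882) (nat_lit 0) (nat_lit 9706882516) (nat_lit 760) (nat_lit 5221417327) (nat_lit 91) (nat_lit 5) (nat_lit 90) (nat_lit 5) (nat_lit 100) (nat_lit 5) (nat_lit 294) (nat_lit 292) (nat_lit 194))) (XT.nd (nat_lit 78) (nat_lit 0) (nat_lit 76) (XT.lf (nat_lit 76) (nat_lit 15590072535) (nat_lit 0) (nat_lit 610096083) (nat_lit 760) (nat_lit 4885754204) (nat_lit 91) (nat_lit 5) (nat_lit 90) (nat_lit 5) (nat_lit 100) (nat_lit 5) (nat_lit 295) (nat_lit 292) (nat_lit 193)) (XT.nd (nat_lit 78) (nat_lit 0) (nat_lit 0) (XT.lf (nat_lit 76) (nat_lit 4403596139) (nat_lit 0) (nat_lit 12890400541) (nat_lit 760) (nat_lit 4324334944) (nat_lit 92) (nat_lit 5) (nat_lit 91) (nat_lit 5) (nat_lit 101) (nat_lit 5) (nat_lit 296) (nat_lit 292) (nat_lit 192)) (XT.lf (nat_lit 76) (nat_lit 14972616504) (nat_lit 0)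 (nat_lit 3563851781) (nat_lit 760) (nat_lit 3636212969) (nat_lit 92) (nat_lit 5) (nat_lit 91) (nat_lit 5) (nat_lit 101) (nat_lit 5) (nat_lit 297) (nat_lit 292) (nat_lit 191)))))) (XT.nd (nat_lit 390) (nat_lit 836) (nat_lit 0) (XT.nd (nat_lit 156) (nat_lit 684) (nat_lit 0) (XT.nd (nat_lit 78) (nat_lit 0) (nat_lit 0) (XT.lf (nat_lit 76) (nat_lit 3318210386) (nat_lit 0) (nat_lit 16663421977) (nat_lit 760) (nat_lit 2766104695) (nat_lit 93) (nat_lit 5) (nat_lit 92) (nat_lit 5) (nat_lit 102) (nat_lit 5) (nat_lit 298) (nat_lit 292) (nat_lit 190)) (XT.lf (nat_lit 76) (nat_lit 14546031719) (nat_lit 0) (nat_lit 7124261688) (nat_lit 760) (nat_lit 1672706630) (nat_lit 93) (nat_lit 5) (nat_lit 92) (nat_lit 5) (nat_lit 102) (nat_lit 5) (nat_lit 299) (nat_lit 292) (nat_lit 189))) (XT.nd (nat_lit 78) (nat_lit 760) (nat_lit 0) (XT.lf (nat_lit 76) (nat_lit 2392508328) (nat_lit 0) (nat_lit 21125625786)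 (nat_lit 760) (nat_lit 446170264) (nat_lit 94) (nat_lit 5) (nat_lit 93) (nat_lit 5) (nat_lit 103) (nat_lit 5) (nat_lit 300) (nat_lit 292) (nat_lit 188)) (XT.nd (nat_lit 78) (nat_lit 0) (nat_lit 0) (XT.lf (nat_lit 0) (nat_lit 1075348917) (nat_lit 760) (nat_lit 10301031793) (nat_lit 836) (nat_lit 13226620495) (nat_lit 83) (nat_lit 5) (nat_lit 93) (nat_lit 5) (nat_lit 94) (nat_lit 5) (nat_lit 301) (nat_lit 292) (nat_lit 187)) (XT.lf (nat_lit 76) (nat_lit 1570211150) (nat_lit 0) (nat_lit 1104997895) (nat_lit 836) (nat_lit 22597208582) (nat_lit 84) (nat_lit 5) (nat_lit 83) (nat_lit 5) (nat_lit 94) (nat_lit 5) (nat_lit 302) (nat_lit 292) (nat_lit 186))))) (XT.nd (nat_lit 156) (nat_lit 380) (nat_lit 0) (XT.nd (nat_lit 78) (nat_lit 532) (nat_lit 0) (XT.lf (nat_lit 0) (nat_lit 4676520547) (nat_lit 760) (nat_lit 11734213603) (nat_lit 76) (nat_lit 9548510589) (nat_lit 84) (nat_lit 5) (nat_lit 94)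 (nat_lit 5) (nat_lit 85) (nat_lit 5) (nat_lit 303) (nat_lit 292) (nat_lit 185)) (XT.lf (nat_lit 0) (nat_lit 834797117) (nat_lit 532) (nat_lit 5967595715) (nat_lit 608) (nat_lit 19876807795) (nat_lit 77) (nat_lit 5) (nat_lit 84) (nat_lit 5) (nat_lit 85) (nat_lit 5) (nat_lit 304) (nat_lit 292) (nat_lit 184))) (XT.nd (nat_lit 78) (nat_lit 380) (nat_lit 0) (XT.lf (nat_lit 0) (nat_lit 9308149437) (nat_lit 608) (nat_lit 13073090861) (nat_lit 76) (nat_lit 5040246075) (nat_lit 77) (nat_lit 5) (nat_lit 85) (nat_lit 5) (nat_lit 78) (nat_lit 5) (nat_lit 305) (nat_lit 292) (nat_lit 183)) (XT.nd (nat_lit 78) (nat_lit 0) (nat_lit 0) (XT.lf (nat_lit 0) (nat_lit 240728831) (nat_lit 380) (nat_lit 11793938876) (nat_lit 456) (nat_lit 16161456054) (nat_lit 72) (nat_lit 5) (nat_lit 77) (nat_lit 5) (nat_lit 78) (nat_lit 5) (nat_lit 306) (nat_lit 292) (nat_lit 182)) (XT.lf (nat_lit 0) (nat_lit 14668269435)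 (nat_lit 380) (nat_lit 444727516) (nat_lit 456) (nat_lit 13885732338) (nat_lit 72) (nat_lit 5) (nat_lit 77) (nat_lit 5) (nat_lit 78) (nat_lit 5) (nat_lit 307) (nat_lit 292) (nat_lit 181))))))))
noncomputable def xc193 : XT := (XT.nd (nat_lit 1560) (nat_lit 1292) (nat_lit 0) (XT.nd (nat_lit 780) (nat_lit 1216) (nat_lit 0) (XT.nd (nat_lit 390) (nat_lit 836) (nat_lit 0) (XT.nd (nat_lit 156) (nat_lit 380) (nat_lit 0) (XT.nd (nat_lit 78) (nat_lit 304) (nat_lit 0) (XT.lf (nat_lit 0) (nat_lit 18518720547) (nat_lit 456) (nat_lit 209240249) (nat_lit 76) (nat_lit 11104840420) (nat_lit 72) (nat_lit 5) (nat_lit 78) (nat_lit 5) (nat_lit 73) (nat_lit 5) (nat_lit 308) (nat_lit 292) (nat_lit 180)) (XT.lf (nat_lit 0) (nat_lit 15088088468) (nat_lit 304) (nat_lit 7244136661) (nat_lit 380) (nat_lit 8364486415) (nat_lit 68) (nat_lit 5) (nat_lit 72) (nat_lit 5) (nat_lit 73) (nat_lit 5) (nat_lit 309) (nat_lit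 292) (nat_lit 179))) (XT.nd (nat_lit 78) (nat_lit 380) (nat_lit 0) (XT.lf (nat_lit 0) (nat_lit 26409966819) (nat_lit 380) (nat_lit 527057082) (nat_lit 76) (nat_lit 4663124482) (nat_lit 68) (nat_lit 5) (nat_lit 73) (nat_lit 5) (nat_lit 69) (nat_lit 5) (nat_lit 310) (nat_lit 292) (nat_lit 178)) (XT.nd (nat_lit 78) (nat_lit 76) (nat_lit 0) (XT.lf (nat_lit 0) (nat_lit 15686419384) (nat_lit 304) (nat_lit 15363891099) (nat_lit 380) (nat_lit 1480519491) (nat_lit 64) (nat_lit 5) (nat_lit 68) (nat_lit 5) (nat_lit 69) (nat_lit 5) (nat_lit 311) (nat_lit 292) (nat_lit 177)) (XT.lf (nat_lit 0) (nat_lit 2341529449) (nat_lit 380) (nat_lit 822132795) (nat_lit 76) (nat_lit 30342296955) (nat_lit 63) (nat_lit 5) (nat_lit 68) (nat_lit 5) (nat_lit 64) (nat_lit 5) (nat_lit 312) (nat_lit 292) (nat_lit 176))))) (XT.nd (nat_lit 156) (nat_lit 532) (nat_lit 0) (XT.nd (nat_lit 78) (nat_lit 0) (nat_lit 0) (XT.lf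 (nat_lit 0) (nat_lit 6713102007) (nat_lit 380) (nat_lit 18171419057) (nat_lit 76) (nat_lit 9623708941) (nat_lit 59) (nat_lit 5) (nat_lit 64) (nat_lit 5) (nat_lit 60) (nat_lit 5) (nat_lit 313) (nat_lit 292) (nat_lit 175)) (XT.lf (nat_lit 0) (nat_lit 11364744638) (nat_lit 380) (nat_lit 1235193239) (nat_lit 76) (nat_lit 22957609024) (nat_lit 59) (nat_lit 5) (nat_lit 64) (nat_lit 5) (nat_lit 60) (nat_lit 5) (nat_lit 314) (nat_lit 292) (nat_lit 174))) (XT.nd (nat_lit 78) (nat_lit 228) (nat_lit 0) (XT.lf (nat_lit 0) (nat_lit 16520505661) (nat_lit 380) (nat_lit 19565587917) (nat_lit 76) (nat_lit 559666032) (nat_lit 55) (nat_lit 5) (nat_lit 60) (nat_lit 5) (nat_lit 56) (nat_lit 5) (nat_lit 315) (nat_lit 292) (nat_lit 173)) (XT.nd (nat_lit 78) (nat_lit 228) (nat_lit 0) (XT.lf (nat_lit 0) (nat_lit 22157676297) (nat_lit 380) (nat_lit 1645335879) (nat_lit 76) (nat_lit 13974196161) (nat_lit 55) (nat_lit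 5) (nat_lit 60) (nat_lit 5) (nat_lit 56) (nat_lit 5) (nat_lit 316) (nat_lit 292) (nat_lit 172)) (XT.lf (nat_lit 0) (nat_lit 17733474932) (nat_lit 228) (nat_lit 10616103278) (nat_lit 304) (nat_lit 10602013804) (nat_lit 52) (nat_lit 5) (nat_lit 55) (nat_lit 5) (nat_lit 56) (nat_lit 5) (nat_lit 317) (nat_lit 292) (nat_lit 171)))))) (XT.nd (nat_lit 390) (nat_lit 684) (nat_lit 0) (XT.nd (nat_lit 156) (nat_lit 228) (nat_lit 0) (XT.nd (nat_lit 78) (nat_lit 304) (nat_lit 0) (XT.lf (nat_lit 0) (nat_lit 34925928023) (nat_lit 304) (nat_lit 2100979387) (nat_lit 76) (nat_lit 3154050682) (nat_lit 52) (nat_lit 5) (nat_lit 56) (nat_lit 5) (nat_lit 53) (nat_lit 5) (nat_lit 318) (nat_lit 292) (nat_lit 170)) (XT.lf (nat_lit 0) (nat_lit 812599547) (nat_lit 304) (nat_lit 23080631903) (nat_lit 76) (nat_lit 17555046022) (nat_lit 48) (nat_lit 5) (nat_lit 52) (nat_lit 5) (nat_lit 49) (nat_lit 5) (nat_lit 319)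 (nat_lit 292) (nat_lit 169))) (XT.nd (nat_lit 78) (nat_lit 228) (nat_lit 0) (XT.lf (nat_lit 0) (nat_lit 7039494389) (nat_lit 304) (nat_lit 2936212988) (nat_lit 76) (nat_lit 32797328741) (nat_lit 48) (nat_lit 5) (nat_lit 52) (nat_lit 5) (nat_lit 49) (nat_lit 5) (nat_lit 320) (nat_lit 292) (nat_lit 168)) (XT.nd (nat_lit 78) (nat_lit 0) (nat_lit 0) (XT.lf (nat_lit 0) (nat_lit 13945156895) (nat_lit 304) (nat_lit 25413880338) (nat_lit 76) (nat_lit 4786629137) (nat_lit 45) (nat_lit 5) (nat_lit 49) (nat_lit 5) (nat_lit 46) (nat_lit 5) (nat_lit 321) (nat_lit 292) (nat_lit 167)) (XT.lf (nat_lit 0) (nat_lit 21406753401) (nat_lit 304) (nat_lit 4168455144) (nat_lit 76) (nat_lit 20001191636) (nat_lit 45) (nat_lit 5) (nat_lit 49) (nat_lit 5) (nat_lit 46) (nat_lit 5) (nat_lit 322) (nat_lit 292) (nat_lit 166))))) (XT.nd (nat_lit 156) (nat_lit 456) (nat_lit 0) (XT.nd (nat_lit 78) (nat_lit 0) (nat_lit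 0) (XT.lf (nat_lit 0) (nat_lit 18734298096) (nat_lit 228) (nat_lit 10796363027) (nat_lit 304) (nat_lit 17533552363) (nat_lit 42) (nat_lit 5) (nat_lit 45) (nat_lit 5) (nat_lit 46) (nat_lit 5) (nat_lit 323) (nat_lit 292) (nat_lit 165)) (XT.lf (nat_lit 0) (nat_lit 38203032494) (nat_lit 304) (nat_lit 5775478245) (nat_lit 76) (nat_lit 4640797466) (nat_lit 42) (nat_lit 5) (nat_lit 46) (nat_lit 5) (nat_lit 43) (nat_lit 5) (nat_lit 324) (nat_lit 292) (nat_lit 164))) (XT.nd (nat_lit 78) (nat_lit 304) (nat_lit 0) (XT.lf (nat_lit 0) (nat_lit 18311362573) (nat_lit 152) (nat_lit 29457494911) (nat_lit 228) (nat_lit 2460312391) (nat_lit 40) (nat_lit 5) (nat_lit 42) (nat_lit 5) (nat_lit 43) (nat_lit 5) (nat_lit 325) (nat_lit 292) (nat_lit 163)) (XT.nd (nat_lit 78) (nat_lit 228) (nat_lit 0) (XT.lf (nat_lit 0) (nat_lit 5801214735) (nat_lit 228) (nat_lit 8209632815) (nat_lit 76) (nat_lit 37899260370) (nat_lit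 39) (nat_lit 5) (nat_lit 42) (nat_lit 5) (nat_lit 40) (nat_lit 5) (nat_lit 326) (nat_lit 292) (nat_lit 162)) (XT.lf (nat_lit 0) (nat_lit 14698150428) (nat_lit 304) (nat_lit 36509756359) (nat_lit 76) (nat_lit 2449922114) (nat_lit 36) (nat_lit 5) (nat_lit 40) (nat_lit 5) (nat_lit 37) (nat_lit 5) (nat_lit 327) (nat_lit 292) (nat_lit 161))))))) (XT.nd (nat_lit 780) (nat_lit 608) (nat_lit 0) (XT.nd (nat_lit 390) (nat_lit 304) (nat_lit 0) (XT.nd (nat_lit 156) (nat_lit 228) (nat_lit 0) (XT.nd (nat_lit 78) (nat_lit 152) (nat_lit 0) (XT.lf (nat_lit 0) (nat_lit 24408105924) (nat_lit 304) (nat_lit 11663548230) (nat_lit 76) (nat_lit 19402876389) (nat_lit 36) (nat_lit 5) (nat_lit 40) (nat_lit 5) (nat_lit 37) (nat_lit 5) (nat_lit 328) (nat_lit 292) (nat_lit 160)) (XT.lf (nat_lit 0) (nat_lit 14897712216) (nat_lit 152) (nat_lit 19935750246) (nat_lit 228) (nat_lit 22537112748) (nat_lit 34) (nat_lit 5)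 (nat_lit 36) (nat_lit 5) (nat_lit 37) (nat_lit 5) (nat_lit 329) (nat_lit 292) (nat_lit 159))) (XT.nd (nat_lit 78) (nat_lit 228) (nat_lit 0) (XT.lf (nat_lit 0) (nat_lit 43187955600) (nat_lit 152) (nat_lit 2787032831) (nat_lit 228) (nat_lit 13376691559) (nat_lit 34) (nat_lit 5) (nat_lit 36) (nat_lit 5) (nat_lit 37) (nat_lit 5) (nat_lit 330) (nat_lit 292) (nat_lit 158)) (XT.nd (nat_lit 78) (nat_lit 76) (nat_lit 0) (XT.lf (nat_lit 0) (nat_lit 11590291370) (nat_lit 152) (nat_lit 46499347599) (nat_lit 228) (nat_lit 3321401444) (nat_lit 32) (nat_lit 5) (nat_lit 34) (nat_lit 5) (nat_lit 35) (nat_lit 5) (nat_lit 331) (nat_lit 292) (nat_lit 157)) (XT.lf (nat_lit 0) (nat_lit 7326447188) (nat_lit 228) (nat_lit 22433617331) (nat_lit 76) (nat_lit 33791587067) (nat_lit 31) (nat_lit 5) (nat_lit 34) (nat_lit 5) (nat_lit 32) (nat_lit 5) (nat_lit 332) (nat_lit 292) (nat_lit 156))))) (XT.nd (nat_lit 156)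 (nat_lit 152) (nat_lit 0) (XT.nd (nat_lit 78) (nat_lit 0) (nat_lit 0) (XT.lf (nat_lit 0) (nat_lit 6471797430) (nat_lit 152) (nat_lit 12021927136) (nat_lit 228) (nat_lit 47297915867) (nat_lit 29) (nat_lit 5) (nat_lit 31) (nat_lit 5) (nat_lit 32) (nat_lit 5) (nat_lit 333) (nat_lit 292) (nat_lit 155)) (XT.lf (nat_lit 0) (nat_lit 30706260093) (nat_lit 228) (nat_lit 30636425458) (nat_lit 76) (nat_lit 6776600776) (nat_lit 29) (nat_lit 5) (nat_lit 32) (nat_lit 5) (nat_lit 30) (nat_lit 5) (nat_lit 334) (nat_lit 292) (nat_lit 154))) (XT.nd (nat_lit 78) (nat_lit 152) (nat_lit 0) (XT.lf (nat_lit 0) (nat_lit 43724263819) (nat_lit 228) (nat_lit 719535887) (nat_lit 76) (nat_lit 26109774946) (nat_lit 29) (nat_lit 5) (nat_lit 32) (nat_lit 5) (nat_lit 30) (nat_lit 5) (nat_lit 335) (nat_lit 292) (nat_lit 153)) (XT.nd (nat_lit 78) (nat_lit 0) (nat_lit 0) (XT.lf (nat_lit 0) (nat_lit 31704494185) (nat_lit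 152) (nat_lit 26181536842) (nat_lit 228) (nat_lit 15198905306) (nat_lit 27) (nat_lit 5) (nat_lit 29) (nat_lit 5) (nat_lit 30) (nat_lit 5) (nat_lit 336) (nat_lit 292) (nat_lit 152)) (XT.lf (nat_lit 0) (nat_lit 65771316210) (nat_lit 152) (nat_lit 6994671987) (nat_lit 228) (nat_lit 2976374821) (nat_lit 27) (nat_lit 5) (nat_lit 29) (nat_lit 5) (nat_lit 30) (nat_lit 5) (nat_lit 337) (nat_lit 292) (nat_lit 151)))))) (XT.nd (nat_lit 390) (nat_lit 304) (nat_lit 0) (XT.nd (nat_lit 156) (nat_lit 152) (nat_lit 0) (XT.nd (nat_lit 78) (nat_lit 0) (nat_lit 0) (XT.lf (nat_lit 0) (nat_lit 10122220437) (nat_lit 152) (nat_lit 55113318696) (nat_lit 76) (nat_lit 13260407090) (nat_lit 25) (nat_lit 5) (nat_lit 27) (nat_lit 5) (nat_lit 26) (nat_lit 5) (nat_lit 338) (nat_lit 292) (nat_lit 150)) (XT.lf (nat_lit 0) (nat_lit 24060025715) (nat_lit 152) (nat_lit 22798160360) (nat_lit 76) (nat_lit 34512369294) (nat_lit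 25) (nat_lit 5) (nat_lit 27) (nat_lit 5) (nat_lit 26) (nat_lit 5) (nat_lit 339) (nat_lit 292) (nat_lit 149))) (XT.nd (nat_lit 78) (nat_lit 0) (nat_lit 0) (XT.lf (nat_lit 0) (nat_lit 11497583952) (nat_lit 152) (nat_lit 27374748184) (nat_lit 228) (nat_lit 45507683940) (nat_lit 23) (nat_lit 5) (nat_lit 25) (nat_lit 5) (nat_lit 26) (nat_lit 5) (nat_lit 340) (nat_lit 292) (nat_lit 148)) (XT.nd (nat_lit 78) (nat_lit 0) (nat_lit 0) (XT.lf (nat_lit 0) (nat_lit 48296500768) (nat_lit 152) (nat_lit 6512994130) (nat_lit 228) (nat_lit 32711244438) (nat_lit 23) (nat_lit 5) (nat_lit 25) (nat_lit 5) (nat_lit 26) (nat_lit 5) (nat_lit 341) (nat_lit 292) (nat_lit 147)) (XT.lf (nat_lit 0) (nat_lit 71782038527) (nat_lit 228) (nat_lit 4126483423) (nat_lit 76) (nat_lit 14898052166) (nat_lit 23) (nat_lit 5) (nat_lit 26) (nat_lit 5) (nat_lit 24) (nat_lit 4) (nat_lit 342) (nat_lit 292) (nat_lit 146))))) (XT.nd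 (nat_lit 156) (nat_lit 152) (nat_lit 0) (XT.nd (nat_lit 78) (nat_lit 76) (nat_lit 0) (XT.lf (nat_lit 0) (nat_lit 33694944190) (nat_lit 76) (nat_lit 56539406005) (nat_lit 152) (nat_lit 3990794822) (nat_lit 22) (nat_lit 5) (nat_lit 23) (nat_lit 5) (nat_lit 24) (nat_lit 4) (nat_lit 343) (nat_lit 292) (nat_lit 145)) (XT.lf (nat_lit 0) (nat_lit 11486466643) (nat_lit 152) (nat_lit 24448641977) (nat_lit 76) (nat_lit 61866862991) (nat_lit 21) (nat_lit 5) (nat_lit 23) (nat_lit 5) (nat_lit 22) (nat_lit 5) (nat_lit 344) (nat_lit 292) (nat_lit 144))) (XT.nd (nat_lit 78) (nat_lit 0) (nat_lit 0) (XT.lf (nat_lit 0) (nat_lit 13810839178) (nat_lit 152) (nat_lit 14006647645) (nat_lit 228) (nat_lit 73726182173) (nat_lit 19) (nat_lit 5) (nat_lit 21) (nat_lit 5) (nat_lit 22) (nat_lit 5) (nat_lit 345) (nat_lit 292) (nat_lit 143)) (XT.nd (nat_lit 78) (nat_lit 0) (nat_lit 0) (XT.lf (nat_lit 0) (nat_lit 45525098355)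 (nat_lit 228) (nat_lit 50770023933) (nat_lit 76) (nat_lit 9149328114) (nat_lit 19) (nat_lit 5) (nat_lit 22) (nat_lit 5) (nat_lit 20) (nat_lit 4) (nat_lit 346) (nat_lit 292) (nat_lit 142)) (XT.lf (nat_lit 0) (nat_lit 64346186799) (nat_lit 228) (nat_lit 12191345934) (nat_lit 76) (nat_lit 32991334446) (nat_lit 19) (nat_lit 5) (nat_lit 22) (nat_lit 5) (nat_lit 20) (nat_lit 4) (nat_lit 347) (nat_lit 292) (nat_lit 141))))))))
noncomputable def xc194 : XT := (XT.nd (nat_lit 1560) (nat_lit 304) (nat_lit 0) (XT.nd (nat_lit 780) (nat_lit 228) (nat_lit 0) (XT.nd (nat_lit 390) (nat_lit 228) (nat_lit 0) (XT.nd (nat_lit 156) (nat_lit 228) (nat_lit 0) (XT.nd (nat_lit 78) (nat_lit 0) (nat_lit 0) (XT.lf (nat_lit 0) (nat_lit 29249921351) (nat_lit 76) (nat_lit 55313633142) (nat_lit 152) (nat_lit 29231190122) (nat_lit 18) (nat_lit 5) (nat_lit 19) (nat_lit 5) (nat_lit 20) (nat_lit 4) (nat_lit 348) (nat_lit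 292) (nat_lit 140)) (XT.lf (nat_lit 0) (nat_lit 73184023958) (nat_lit 76) (nat_lit 32812814727) (nat_lit 152) (nat_lit 12266825843) (nat_lit 18) (nat_lit 5) (nat_lit 19) (nat_lit 5) (nat_lit 20) (nat_lit 4) (nat_lit 349) (nat_lit 292) (nat_lit 139))) (XT.nd (nat_lit 78) (nat_lit 152) (nat_lit 0) (XT.lf (nat_lit 0) (nat_lit 5366884033) (nat_lit 152) (nat_lit 3730195643) (nat_lit 76) (nat_lit 113854691127) (nat_lit 17) (nat_lit 5) (nat_lit 19) (nat_lit 5) (nat_lit 18) (nat_lit 5) (nat_lit 350) (nat_lit 292) (nat_lit 138)) (XT.nd (nat_lit 78) (nat_lit 0) (nat_lit 0) (XT.lf (nat_lit 0) (nat_lit 24366025794) (nat_lit 228) (nat_lit 87304099206) (nat_lit 76) (nat_lit 16149303882) (nat_lit 15) (nat_lit 5) (nat_lit 18) (nat_lit 5) (nat_lit 16) (nat_lit 4) (nat_lit 351) (nat_lit 292) (nat_lit 137)) (XT.lf (nat_lit 0) (nat_lit 44527168763) (nat_lit 228) (nat_lit 45977153870) (nat_lit 76) (nat_lit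 42415545857) (nat_lit 15) (nat_lit 5) (nat_lit 18) (nat_lit 5) (nat_lit 16) (nat_lit 4) (nat_lit 352) (nat_lit 292) (nat_lit 136))))) (XT.nd (nat_lit 156) (nat_lit 152) (nat_lit 0) (XT.nd (nat_lit 78) (nat_lit 76) (nat_lit 0) (XT.lf (nat_lit 0) (nat_lit 65695134005) (nat_lit 228) (nat_lit 2586061077) (nat_lit 76) (nat_lit 69994197533) (nat_lit 15) (nat_lit 5) (nat_lit 18) (nat_lit 5) (nat_lit 16) (nat_lit 4) (nat_lit 353) (nat_lit 292) (nat_lit 135)) (XT.lf (nat_lit 0) (nat_lit 44393355930) (nat_lit 76) (nat_lit 44220070205) (nat_lit 152) (nat_lit 55250671134) (nat_lit 14) (nat_lit 5) (nat_lit 15) (nat_lit 5) (nat_lit 16) (nat_lit 4) (nat_lit 354) (nat_lit 292) (nat_lit 134))) (XT.nd (nat_lit 78) (nat_lit 152) (nat_lit 0) (XT.lf (nat_lit 0) (nat_lit 93809464724) (nat_lit 76) (nat_lit 18910812093) (nat_lit 152) (nat_lit 37009828861) (nat_lit 14) (nat_lit 5) (nat_lit 15) (nat_lit 5) (nat_lit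 16) (nat_lit 4) (nat_lit 355) (nat_lit 292) (nat_lit 133)) (XT.nd (nat_lit 78) (nat_lit 152) (nat_lit 0) (XT.lf (nat_lit 0) (nat_lit 138151014232) (nat_lit 152) (nat_lit 10314695794) (nat_lit 0) (nat_lit 7417777956) (nat_lit 14) (nat_lit 5) (nat_lit 16) (nat_lit 4) (nat_lit 14) (nat_lit 4) (nat_lit 356) (nat_lit 292) (nat_lit 132)) (XT.lf (nat_lit 0) (nat_lit 3353286503) (nat_lit 152) (nat_lit 123861534398) (nat_lit 76) (nat_lit 35081519040) (nat_lit 12) (nat_lit 5) (nat_lit 14) (nat_lit 5) (nat_lit 13) (nat_lit 4) (nat_lit 357) (nat_lit 292) (nat_lit 131)))))) (XT.nd (nat_lit 390) (nat_lit 152) (nat_lit 0) (XT.nd (nat_lit 156) (nat_lit 76) (nat_lit 0) (XT.nd (nat_lit 78) (nat_lit 0) (nat_lit 0) (XT.lf (nat_lit 0) (nat_lit 25073900865) (nat_lit 152) (nat_lit 79336689675) (nat_lit 76) (nat_lit 64595885061) (nat_lit 12) (nat_lit 5) (nat_lit 14) (nat_lit 5) (nat_lit 13) (nat_lit 4) (nat_lit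 358) (nat_lit 292) (nat_lit 130)) (XT.lf (nat_lit 0) (nat_lit 47879541609) (nat_lit 152) (nat_lit 32587425880) (nat_lit 76) (nat_lit 95585201334) (nat_lit 12) (nat_lit 5) (nat_lit 14) (nat_lit 5) (nat_lit 13) (nat_lit 4) (nat_lit 359) (nat_lit 292) (nat_lit 129))) (XT.nd (nat_lit 78) (nat_lit 0) (nat_lit 0) (XT.lf (nat_lit 0) (nat_lit 17043048753) (nat_lit 76) (nat_lit 55047548882) (nat_lit 152) (nat_lit 111346292945) (nat_lit 11) (nat_lit 5) (nat_lit 12) (nat_lit 5) (nat_lit 13) (nat_lit 4) (nat_lit 360) (nat_lit 292) (nat_lit 128)) (XT.nd (nat_lit 78) (nat_lit 0) (nat_lit 0) (XT.lf (nat_lit 0) (nat_lit 70284700619) (nat_lit 76) (nat_lit 27778452036) (nat_lit 152) (nat_lit 93100148972) (nat_lit 11) (nat_lit 5) (nat_lit 12) (nat_lit 5) (nat_lit 13) (nat_lit 4) (nat_lit 361) (nat_lit 292) (nat_lit 127)) (XT.lf (nat_lit 0) (nat_lit 125346765871) (nat_lit 152) (nat_lit 73102593704) (nat_lit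 0) (nat_lit 826052615) (nat_lit 11) (nat_lit 5) (nat_lit 13) (nat_lit 4) (nat_lit 11) (nat_lit 4) (nat_lit 362) (nat_lit 292) (nat_lit 126))))) (XT.nd (nat_lit 156) (nat_lit 76) (nat_lit 0) (XT.nd (nat_lit 78) (nat_lit 76) (nat_lit 0) (XT.lf (nat_lit 0) (nat_lit 154449082832) (nat_lit 152) (nat_lit 23394752083) (nat_lit 0) (nat_lit 29926567676) (nat_lit 11) (nat_lit 5) (nat_lit 13) (nat_lit 4) (nat_lit 11) (nat_lit 4) (nat_lit 363) (nat_lit 292) (nat_lit 125)) (XT.lf (nat_lit 0) (nat_lit 29749133400) (nat_lit 76) (nat_lit 155721029227) (nat_lit 76) (nat_lit 31196797976) (nat_lit 10) (nat_lit 4) (nat_lit 11) (nat_lit 5) (nat_lit 11) (nat_lit 4) (nat_lit 364) (nat_lit 292) (nat_lit 124))) (XT.nd (nat_lit 78) (nat_lit 76) (nat_lit 0) (XT.lf (nat_lit 0) (nat_lit 86360944143) (nat_lit 76) (nat_lit 132076749285) (nat_lit 76) (nat_lit 7550883658) (nat_lit 10) (nat_lit 4) (nat_lit 11) (nat_lit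 5) (nat_lit 11) (nat_lit 4) (nat_lit 365) (nat_lit 292) (nat_lit 123)) (XT.nd (nat_lit 78) (nat_lit 0) (nat_lit 0) (XT.lf (nat_lit 0) (nat_lit 16723564961) (nat_lit 152) (nat_lit 90244114004) (nat_lit 76) (nat_lit 128795147388) (nat_lit 9) (nat_lit 5) (nat_lit 11) (nat_lit 5) (nat_lit 10) (nat_lit 4) (nat_lit 366) (nat_lit 292) (nat_lit 122)) (XT.lf (nat_lit 0) (nat_lit 41957234835) (nat_lit 152) (nat_lit 38516573191) (nat_lit 76) (nat_lit 165545828271) (nat_lit 9) (nat_lit 5) (nat_lit 11) (nat_lit 5) (nat_lit 10) (nat_lit 4) (nat_lit 367) (nat_lit 292) (nat_lit 121))))))) (XT.nd (nat_lit 780) (nat_lit 76) (nat_lit 0) (XT.nd (nat_lit 390) (nat_lit 152) (nat_lit 0) (XT.nd (nat_lit 156) (nat_lit 0) (nat_lit 0) (XT.nd (nat_lit 78) (nat_lit 0) (nat_lit 0) (XT.lf (nat_lit 0) (nat_lit 16318329206) (nat_lit 76) (nat_lit 52388327205) (nat_lit 152) (nat_lit 188069927261) (nat_lit 8) (nat_lit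 5) (nat_lit 9) (nat_lit 5) (nat_lit 10) (nat_lit 4) (nat_lit 368) (nat_lit 292) (nat_lit 120)) (XT.lf (nat_lit 0) (nat_lit 75230902302) (nat_lit 76) (nat_lit 22214250549) (nat_lit 152) (nat_lit 170593645706) (nat_lit 8) (nat_lit 5) (nat_lit 9) (nat_lit 5) (nat_lit 10) (nat_lit 4) (nat_lit 369) (nat_lit 292) (nat_lit 119))) (XT.nd (nat_lit 78) (nat_lit 0) (nat_lit 0) (XT.lf (nat_lit 0) (nat_lit 127767735611) (nat_lit 152) (nat_lit 142924096746) (nat_lit 0) (nat_lit 9164934068) (nat_lit 8) (nat_lit 5) (nat_lit 10) (nat_lit 4) (nat_lit 8) (nat_lit 4) (nat_lit 370) (nat_lit 292) (nat_lit 118)) (XT.nd (nat_lit 78) (nat_lit 0) (nat_lit 0) (XT.lf (nat_lit 0) (nat_lit 159969978608) (nat_lit 152) (nat_lit 90911462279) (nat_lit 0) (nat_lit 41366015544) (nat_lit 8) (nat_lit 5) (nat_lit 10) (nat_lit 4) (nat_lit 8) (nat_lit 4) (nat_lit 371) (nat_lit 292) (nat_lit 117)) (XT.lf (nat_lit 0) (nat_lit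 193781727142) (nat_lit 152) (nat_lit 36299326542) (nat_lit 0) (nat_lit 75176657868) (nat_lit 8) (nat_lit 5) (nat_lit 10) (nat_lit 4) (nat_lit 8) (nat_lit 4) (nat_lit 372) (nat_lit 292) (nat_lit 116))))) (XT.nd (nat_lit 156) (nat_lit 76) (nat_lit 0) (XT.nd (nat_lit 78) (nat_lit 0) (nat_lit 0) (XT.lf (nat_lit 0) (nat_lit 21738094129) (nat_lit 76) (nat_lit 207884783818) (nat_lit 76) (nat_lit 89278661010) (nat_lit 7) (nat_lit 4) (nat_lit 8) (nat_lit 5) (nat_lit 8) (nat_lit 4) (nat_lit 373) (nat_lit 292) (nat_lit 115)) (XT.lf (nat_lit 0) (nat_lit 83936557228) (nat_lit 76) (nat_lit 183933708970) (nat_lit 76) (nat_lit 65326582797) (nat_lit 7) (nat_lit 4) (nat_lit 8) (nat_lit 5) (nat_lit 8) (nat_lit 4) (nat_lit 374) (nat_lit 292) (nat_lit 114))) (XT.nd (nat_lit 78) (nat_lit 76) (nat_lit 0) (XT.lf (nat_lit 0) (nat_lit 149243934665) (nat_lit 76) (nat_lit 158785549431) (nat_lit 76) (nat_lit 40177467672)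 (nat_lit 7) (nat_lit 4) (nat_lit 8) (nat_lit 5) (nat_lit 8) (nat_lit 4) (nat_lit 375) (nat_lit 292) (nat_lit 113)) (XT.nd (nat_lit 78) (nat_lit 76) (nat_lit 0) (XT.lf (nat_lit 0) (nat_lit 217815720198) (nat_lit 76) (nat_lit 132380428631) (nat_lit 76) (nat_lit 13771436790) (nat_lit 7) (nat_lit 4) (nat_lit 8) (nat_lit 5) (nat_lit 8) (nat_lit 4) (nat_lit 376) (nat_lit 292) (nat_lit 112)) (XT.lf (nat_lit 0) (nat_lit 13507754000) (nat_lit 152) (nat_lit 90918962884) (nat_lit 76) (nat_lit 276078665630) (nat_lit 6) (nat_lit 5) (nat_lit 8) (nat_lit 5) (nat_lit 7) (nat_lit 4) (nat_lit 377) (nat_lit 292) (nat_lit 111)))))) (XT.nd (nat_lit 34086) (nat_lit 0) (nat_lit 6460) (XT.nd (nat_lit 156) (nat_lit 0) (nat_lit 0) (XT.nd (nat_lit 78) (nat_lit 76) (nat_lit 0) (XT.lf (nat_lit 0) (nat_lit 41687619631) (nat_lit 152) (nat_lit 33151063810) (nat_lit 76) (nat_lit 323020121657) (nat_lit 6) (nat_lit 5)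 (nat_lit 8) (nat_lit 5) (nat_lit 7) (nat_lit 4) (nat_lit 378) (nat_lit 292) (nat_lit 110)) (XT.lf (nat_lit 0) (nat_lit 28413804325) (nat_lit 76) (nat_lit 43305841793) (nat_lit 152) (nat_lit 344338094507) (nat_lit 5) (nat_lit 5) (nat_lit 6) (nat_lit 5) (nat_lit 7) (nat_lit 4) (nat_lit 379) (nat_lit 292) (nat_lit 109))) (XT.nd (nat_lit 78) (nat_lit 0) (nat_lit 0) (XT.lf (nat_lit 0) (nat_lit 94207014497) (nat_lit 76) (nat_lit 9607245718) (nat_lit 152) (nat_lit 331324313583) (nat_lit 5) (nat_lit 5) (nat_lit 6) (nat_lit 5) (nat_lit 7) (nat_lit 4) (nat_lit 380) (nat_lit 292) (nat_lit 108)) (XT.nd (nat_lit 33774) (nat_lit 0) (nat_lit 6460) (XT.lf (nat_lit 0) (nat_lit 137915617289) (nat_lit 152) (nat_lit 292286810774) (nat_lit 0) (nat_lit 24950920129) (nat_lit 5) (nat_lit 5) (nat_lit 7) (nat_lit 4) (nat_lit 5) (nat_lit 4) (nat_lit 381) (nat_lit 292) (nat_lit 107)) (XT.lf (nat_lit 0) (nat_lit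 3766450134) (nat_lit 0) (nat_lit 3766450134) (nat_lit 684) (nat_lit 2746174853) (nat_lit 90) (nat_lit 5) (nat_lit 90) (nat_lit 3) (nat_lit 99) (nat_lit 3) (nat_lit 293) (nat_lit 293) (nat_lit 194))))) (XT.nd (nat_lit 156) (nat_lit 0) (nat_lit 0) (XT.nd (nat_lit 78) (nat_lit 0) (nat_lit 0) (XT.lf (nat_lit 0) (nat_lit 15616388382) (nat_lit 684) (nat_lit 3733143130) (nat_lit 760) (nat_lit 1713580179) (nat_lit 90) (nat_lit 5) (nat_lit 99) (nat_lit 3) (nat_lit 100) (nat_lit 5) (nat_lit 294) (nat_lit 293) (nat_lit 193)) (XT.lf (nat_lit 76) (nat_lit 6089745862) (nat_lit 0) (nat_lit 10314035720) (nat_lit 760) (nat_lit 5179094723) (nat_lit 91) (nat_lit 5) (nat_lit 90) (nat_lit 5) (nat_lit 100) (nat_lit 5) (nat_lit 295) (nat_lit 293) (nat_lit 192))) (XT.nd (nat_lit 78) (nat_lit 0) (nat_lit 76) (XT.lf (nat_lit 76) (nat_lit 16528227244) (nat_lit 0) (nat_lit 756609532) (nat_lit 760) (nat_lit 4841095753)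 (nat_lit 91) (nat_lit 5) (nat_lit 90) (nat_lit 5) (nat_lit 100) (nat_lit 5) (nat_lit 296) (nat_lit 293) (nat_lit 191)) (XT.nd (nat_lit 78) (nat_lit 0) (nat_lit 0) (XT.lf (nat_lit 76) (nat_lit 4795706155) (nat_lit 0) (nat_lit 13625530393) (nat_lit 760) (nat_lit 4264357563) (nat_lit 92) (nat_lit 5) (nat_lit 91) (nat_lit 5) (nat_lit 101) (nat_lit 5) (nat_lit 297) (nat_lit 293) (nat_lit 190)) (XT.lf (nat_lit 76) (nat_lit 15884990385) (nat_lit 0) (nat_lit 3828339441) (nat_lit 760) (nat_lit 3554981590) (nat_lit 92) (nat_lit 5) (nat_lit 91) (nat_lit 5) (nat_lit 101) (nat_lit 5) (nat_lit 298) (nat_lit 293) (nat_lit 189))))))))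
noncomputable def xc195 : XT := (XT.nd (nat_lit 1560) (nat_lit 2052) (nat_lit 0) (XT.nd (nat_lit 780) (nat_lit 1520) (nat_lit 0) (XT.nd (nat_lit 390) (nat_lit 836) (nat_lit 0) (XT.nd (nat_lit 156) (nat_lit 684) (nat_lit 0) (XT.nd (nat_lit 78) (nat_lit 0) (nat_lit 0) (XT.lf (nat_lit 76) (nat_lit 3659342681) (nat_lit 0) (nat_lit 17560955403) (nat_lit 760) (nat_lit 2652368534) (nat_lit 93) (nat_lit 5) (nat_lit 92) (nat_lit 5) (nat_lit 102) (nat_lit 5) (nat_lit 299) (nat_lit 293) (nat_lit 188)) (XT.lf (nat_lit 76) (nat_lit 15440211186) (nat_lit 0) (nat_lit 7541772227) (nat_lit 760) (nat_lit 1516302536) (nat_lit 93) (nat_lit 5) (nat_lit 92) (nat_lit 5) (nat_lit 102) (nat_lit 5) (nat_lit 300) (nat_lit 293) (nat_lit 187))) (XT.nd (nat_lit 78) (nat_lit 760) (nat_lit 0) (XT.lf (nat_lit 76) (nat_lit 2688934370) (nat_lit 0) (nat_lit 22224265194) (nat_lit 760) (nat_lit 237928455) (nat_lit 94) (nat_lit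 5) (nat_lit 93) (nat_lit 5) (nat_lit 103) (nat_lit 5) (nat_lit 301) (nat_lit 293) (nat_lit 186)) (XT.nd (nat_lit 78) (nat_lit 0) (nat_lit 0) (XT.lf (nat_lit 0) (nat_lit 1341660432) (nat_lit 760) (nat_lit 10640280842) (nat_lit 836) (nat_lit 13840189463) (nat_lit 83) (nat_lit 5) (nat_lit 93) (nat_lit 5) (nat_lit 94) (nat_lit 5) (nat_lit 302) (nat_lit 293) (nat_lit 185)) (XT.lf (nat_lit 76) (nat_lit 1821688723) (nat_lit 0) (nat_lit 1192404197) (nat_lit 836) (nat_lit 23511314822) (nat_lit 84) (nat_lit 5) (nat_lit 83) (nat_lit 5) (nat_lit 94) (nat_lit 5) (nat_lit 303) (nat_lit 293) (nat_lit 184))))) (XT.nd (nat_lit 156) (nat_lit 380) (nat_lit 0) (XT.nd (nat_lit 78) (nat_lit 532) (nat_lit 0) (XT.lf (nat_lit 0) (nat_lit 5105224071) (nat_lit 760) (nat_lit 12145591108) (nat_lit 76) (nat_lit 9996291165) (nat_lit 84) (nat_lit 5) (nat_lit 94) (nat_lit 5) (nat_lit 85) (nat_lit 5) (nat_lit 304) (nat_lit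 293) (nat_lit 183)) (XT.lf (nat_lit 0) (nat_lit 1049042193) (nat_lit 532) (nat_lit 6281761185) (nat_lit 608) (nat_lit 20672602965) (nat_lit 77) (nat_lit 5) (nat_lit 84) (nat_lit 5) (nat_lit 85) (nat_lit 5) (nat_lit 305) (nat_lit 293) (nat_lit 182))) (XT.nd (nat_lit 78) (nat_lit 380) (nat_lit 0) (XT.lf (nat_lit 0) (nat_lit 9952646858) (nat_lit 608) (nat_lit 13552930172) (nat_lit 76) (nat_lit 5277705575) (nat_lit 77) (nat_lit 5) (nat_lit 85) (nat_lit 5) (nat_lit 78) (nat_lit 5) (nat_lit 306) (nat_lit 293) (nat_lit 181)) (XT.nd (nat_lit 78) (nat_lit 0) (nat_lit 0) (XT.lf (nat_lit 0) (nat_lit 423777033) (nat_lit 380) (nat_lit 12385855888) (nat_lit 456) (nat_lit 16787327256) (nat_lit 72) (nat_lit 5) (nat_lit 77) (nat_lit 5) (nat_lit 78) (nat_lit 5) (nat_lit 307) (nat_lit 293) (nat_lit 180)) (XT.lf (nat_lit 0) (nat_lit 15564551250) (nat_lit 380) (nat_lit 469078242) (nat_lit 456) (nat_lit 14406493620)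 (nat_lit 72) (nat_lit 5) (nat_lit 77) (nat_lit 5) (nat_lit 78) (nat_lit 5) (nat_lit 308) (nat_lit 293) (nat_lit 179)))))) (XT.nd (nat_lit 390) (nat_lit 836) (nat_lit 0) (XT.nd (nat_lit 156) (nat_lit 380) (nat_lit 0) (XT.nd (nat_lit 78) (nat_lit 304) (nat_lit 0) (XT.lf (nat_lit 0) (nat_lit 19601751511) (nat_lit 456) (nat_lit 56422267) (nat_lit 76) (nat_lit 11658133223) (nat_lit 72) (nat_lit 5) (nat_lit 78) (nat_lit 5) (nat_lit 73) (nat_lit 5) (nat_lit 309) (nat_lit 293) (nat_lit 178)) (XT.lf (nat_lit 0) (nat_lit 16003139338) (nat_lit 304) (nat_lit 7597819414) (nat_lit 380) (nat_lit 8622716033) (nat_lit 68) (nat_lit 5) (nat_lit 72) (nat_lit 5) (nat_lit 73) (nat_lit 5) (nat_lit 310) (nat_lit 293) (nat_lit 177))) (XT.nd (nat_lit 78) (nat_lit 380) (nat_lit 0) (XT.lf (nat_lit 0) (nat_lit 27875470351) (nat_lit 380) (nat_lit 393042605) (nat_lit 76) (nat_lit 4904139045) (nat_lit 68) (nat_lit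 5) (nat_lit 73) (nat_lit 5) (nat_lit 69) (nat_lit 5) (nat_lit 311) (nat_lit 293) (nat_lit 176)) (XT.nd (nat_lit 78) (nat_lit 76) (nat_lit 0) (XT.lf (nat_lit 0) (nat_lit 16628521115) (nat_lit 304) (nat_lit 16114868475) (nat_lit 380) (nat_lit 1406712236) (nat_lit 64) (nat_lit 5) (nat_lit 68) (nat_lit 5) (nat_lit 69) (nat_lit 5) (nat_lit 312) (nat_lit 293) (nat_lit 175)) (XT.lf (nat_lit 0) (nat_lit 2594893200) (nat_lit 380) (nat_lit 708246752) (nat_lit 76) (nat_lit 31871083826) (nat_lit 63) (nat_lit 5) (nat_lit 68) (nat_lit 5) (nat_lit 64) (nat_lit 5) (nat_lit 313) (nat_lit 293) (nat_lit 174))))) (XT.nd (nat_lit 156) (nat_lit 532) (nat_lit 0) (XT.nd (nat_lit 78) (nat_lit 0) (nat_lit 0) (XT.lf (nat_lit 0) (nat_lit 7181252523) (nat_lit 380) (nat_lit 18920996875) (nat_lit 76) (nat_lit 10124558749) (nat_lit 59) (nat_lit 5) (nat_lit 64) (nat_lit 5) (nat_lit 60) (nat_lit 5) (nat_lit 314) (nat_lit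 293) (nat_lit 173)) (XT.lf (nat_lit 0) (nat_lit 12059167980) (nat_lit 380) (nat_lit 1145530868) (nat_lit 76) (nat_lit 24124217438) (nat_lit 59) (nat_lit 5) (nat_lit 64) (nat_lit 5) (nat_lit 60) (nat_lit 5) (nat_lit 315) (nat_lit 293) (nat_lit 172))) (XT.nd (nat_lit 78) (nat_lit 228) (nat_lit 0) (XT.lf (nat_lit 0) (nat_lit 17469447556) (nat_lit 380) (nat_lit 20388986585) (nat_lit 76) (nat_lit 613278424) (nat_lit 55) (nat_lit 5) (nat_lit 60) (nat_lit 5) (nat_lit 56) (nat_lit 5) (nat_lit 316) (nat_lit 293) (nat_lit 171)) (XT.nd (nat_lit 78) (nat_lit 228) (nat_lit 0) (XT.lf (nat_lit 0) (nat_lit 23382623551) (nat_lit 380) (nat_lit 1580097218) (nat_lit 76) (nat_lit 14697314627) (nat_lit 55) (nat_lit 5) (nat_lit 60) (nat_lit 5) (nat_lit 56) (nat_lit 5) (nat_lit 317) (nat_lit 293) (nat_lit 170)) (XT.lf (nat_lit 0) (nat_lit 18765275014) (nat_lit 228) (nat_lit 11115536925) (nat_lit 304) (nat_lit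 11012500328) (nat_lit 52) (nat_lit 5) (nat_lit 55) (nat_lit 5) (nat_lit 56) (nat_lit 5) (nat_lit 318) (nat_lit 293) (nat_lit 169))))))) (XT.nd (nat_lit 780) (nat_lit 836) (nat_lit 0) (XT.nd (nat_lit 390) (nat_lit 684) (nat_lit 0) (XT.nd (nat_lit 156) (nat_lit 228) (nat_lit 0) (XT.nd (nat_lit 78) (nat_lit 304) (nat_lit 0) (XT.lf (nat_lit 0) (nat_lit 36781028820) (nat_lit 304) (nat_lit 2062698942) (nat_lit 76) (nat_lit 3340674581) (nat_lit 52) (nat_lit 5) (nat_lit 56) (nat_lit 5) (nat_lit 53) (nat_lit 5) (nat_lit 319) (nat_lit 293) (nat_lit 168)) (XT.lf (nat_lit 0) (nat_lit 960939945) (nat_lit 304) (nat_lit 24089936215) (nat_lit 76) (nat_lit 18464281425) (nat_lit 48) (nat_lit 5) (nat_lit 52) (nat_lit 5) (nat_lit 49) (nat_lit 5) (nat_lit 320) (nat_lit 293) (nat_lit 167))) (XT.nd (nat_lit 78) (nat_lit 228) (nat_lit 0) (XT.lf (nat_lit 0) (nat_lit 7494050461) (nat_lit 304) (nat_lit 2945188129)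 (nat_lit 76) (nat_lit 34467179085) (nat_lit 48) (nat_lit 5) (nat_lit 52) (nat_lit 5) (nat_lit 49) (nat_lit 5) (nat_lit 321) (nat_lit 293) (nat_lit 166)) (XT.nd (nat_lit 78) (nat_lit 0) (nat_lit 0) (XT.lf (nat_lit 0) (nat_lit 14742787470) (nat_lit 304) (nat_lit 26544395768) (nat_lit 76) (nat_lit 5060613356) (nat_lit 45) (nat_lit 5) (nat_lit 49) (nat_lit 5) (nat_lit 46) (nat_lit 5) (nat_lit 322) (nat_lit 293) (nat_lit 165)) (XT.lf (nat_lit 0) (nat_lit 22572684148) (nat_lit 304) (nat_lit 4243374485) (nat_lit 76) (nat_lit 21034253848) (nat_lit 45) (nat_lit 5) (nat_lit 49) (nat_lit 5) (nat_lit 46) (nat_lit 5) (nat_lit 323) (nat_lit 293) (nat_lit 164))))) (XT.nd (nat_lit 156) (nat_lit 456) (nat_lit 0) (XT.nd (nat_lit 78) (nat_lit 0) (nat_lit 0) (XT.lf (nat_lit 0) (nat_lit 19802363137) (nat_lit 228) (nat_lit 11297922811) (nat_lit 304) (nat_lit 18312361666) (nat_lit 42) (nat_lit 5) (nat_lit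 45) (nat_lit 5) (nat_lit 46) (nat_lit 5) (nat_lit 324) (nat_lit 293) (nat_lit 163)) (XT.lf (nat_lit 0) (nat_lit 40202411823) (nat_lit 304) (nat_lit 5935176575) (nat_lit 76) (nat_lit 4908107683) (nat_lit 42) (nat_lit 5) (nat_lit 46) (nat_lit 5) (nat_lit 43) (nat_lit 5) (nat_lit 325) (nat_lit 293) (nat_lit 162))) (XT.nd (nat_lit 78) (nat_lit 304) (nat_lit 0) (XT.lf (nat_lit 0) (nat_lit 19353924420) (nat_lit 152) (nat_lit 30890337432) (nat_lit 228) (nat_lit 2491907823) (nat_lit 40) (nat_lit 5) (nat_lit 42) (nat_lit 5) (nat_lit 43) (nat_lit 5) (nat_lit 326) (nat_lit 293) (nat_lit 161)) (XT.nd (nat_lit 78) (nat_lit 228) (nat_lit 0) (XT.lf (nat_lit 0) (nat_lit 6175555634) (nat_lit 228) (nat_lit 8496281039) (nat_lit 76) (nat_lit 39829462299) (nat_lit 39) (nat_lit 5) (nat_lit 42) (nat_lit 5) (nat_lit 40) (nat_lit 5) (nat_lit 327) (nat_lit 293) (nat_lit 160)) (XT.lf (nat_lit 0) (nat_lit 15515846288)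 (nat_lit 304) (nat_lit 38209823380) (nat_lit 76) (nat_lit 2610815704) (nat_lit 36) (nat_lit 5) (nat_lit 40) (nat_lit 5) (nat_lit 37) (nat_lit 5) (nat_lit 328) (nat_lit 293) (nat_lit 159)))))) (XT.nd (nat_lit 390) (nat_lit 456) (nat_lit 0) (XT.nd (nat_lit 156) (nat_lit 228) (nat_lit 0) (XT.nd (nat_lit 78) (nat_lit 152) (nat_lit 0) (XT.lf (nat_lit 0) (nat_lit 25707357257) (nat_lit 304) (nat_lit 12127277264) (nat_lit 76) (nat_lit 20409589241) (nat_lit 36) (nat_lit 5) (nat_lit 40) (nat_lit 5) (nat_lit 37) (nat_lit 5) (nat_lit 329) (nat_lit 293) (nat_lit 158)) (XT.lf (nat_lit 0) (nat_lit 15760119618) (nat_lit 152) (nat_lit 20891942276) (nat_lit 228) (nat_lit 23583109088) (nat_lit 34) (nat_lit 5) (nat_lit 36) (nat_lit 5) (nat_lit 37) (nat_lit 5) (nat_lit 330) (nat_lit 293) (nat_lit 157))) (XT.nd (nat_lit 78) (nat_lit 228) (nat_lit 0) (XT.lf (nat_lit 0) (nat_lit 45459278896) (nat_lit 152) (nat_lit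 2887722107) (nat_lit 228) (nat_lit 13968517283) (nat_lit 34) (nat_lit 5) (nat_lit 36) (nat_lit 5) (nat_lit 37) (nat_lit 5) (nat_lit 331) (nat_lit 293) (nat_lit 156)) (XT.nd (nat_lit 78) (nat_lit 76) (nat_lit 0) (XT.lf (nat_lit 0) (nat_lit 12283017600) (nat_lit 152) (nat_lit 48783220182) (nat_lit 228) (nat_lit 3411670194) (nat_lit 32) (nat_lit 5) (nat_lit 34) (nat_lit 5) (nat_lit 35) (nat_lit 5) (nat_lit 332) (nat_lit 293) (nat_lit 155)) (XT.lf (nat_lit 0) (nat_lit 7762650697) (nat_lit 228) (nat_lit 23445095675) (nat_lit 76) (nat_lit 35517922431) (nat_lit 31) (nat_lit 5) (nat_lit 34) (nat_lit 5) (nat_lit 32) (nat_lit 5) (nat_lit 333) (nat_lit 293) (nat_lit 154))))) (XT.nd (nat_lit 234) (nat_lit 304) (nat_lit 0) (XT.nd (nat_lit 78) (nat_lit 0) (nat_lit 0) (XT.lf (nat_lit 0) (nat_lit 6903812364) (nat_lit 152) (nat_lit 12582844725) (nat_lit 228) (nat_lit 49591085140) (nat_lit 29) (nat_lit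 5) (nat_lit 31) (nat_lit 5) (nat_lit 32) (nat_lit 5) (nat_lit 334) (nat_lit 293) (nat_lit 153)) (XT.nd (nat_lit 78) (nat_lit 0) (nat_lit 0) (XT.lf (nat_lit 0) (nat_lit 32307167000) (nat_lit 228) (nat_lit 32062267698) (nat_lit 76) (nat_lit 7152471574) (nat_lit 29) (nat_lit 5) (nat_lit 32) (nat_lit 5) (nat_lit 30) (nat_lit 5) (nat_lit 335) (nat_lit 293) (nat_lit 152)) (XT.lf (nat_lit 0) (nat_lit 45972947394) (nat_lit 228) (nat_lit 654580269) (nat_lit 76) (nat_lit 27450540606) (nat_lit 29) (nat_lit 5) (nat_lit 32) (nat_lit 5) (nat_lit 30) (nat_lit 5) (nat_lit 336) (nat_lit 293) (nat_lit 151)))) (XT.nd (nat_lit 78) (nat_lit 152) (nat_lit 0) (XT.lf (nat_lit 0) (nat_lit 33389023364) (nat_lit 152) (nat_lit 27452355238) (nat_lit 228) (nat_lit 15894693582) (nat_lit 27) (nat_lit 5) (nat_lit 29) (nat_lit 5) (nat_lit 30) (nat_lit 5) (nat_lit 337) (nat_lit 293) (nat_lit 150)) (XT.nd (nat_lit 78)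 (nat_lit 152) (nat_lit 0) (XT.lf (nat_lit 0) (nat_lit 69154457707) (nat_lit 152) (nat_lit 7307968971) (nat_lit 228) (nat_lit 3064091668) (nat_lit 27) (nat_lit 5) (nat_lit 29) (nat_lit 5) (nat_lit 30) (nat_lit 5) (nat_lit 338) (nat_lit 293) (nat_lit 149)) (XT.lf (nat_lit 0) (nat_lit 10686725861) (nat_lit 152) (nat_lit 57771597567) (nat_lit 76) (nat_lit 13959449711) (nat_lit 25) (nat_lit 5) (nat_lit 27) (nat_lit 5) (nat_lit 26) (nat_lit 5) (nat_lit 339) (nat_lit 293) (nat_lit 148))))))))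
noncomputable def xc196 : XT := (XT.nd (nat_lit 1560) (nat_lit 456) (nat_lit 0) (XT.nd (nat_lit 780) (nat_lit 456) (nat_lit 0) (XT.nd (nat_lit 390) (nat_lit 304) (nat_lit 0) (XT.nd (nat_lit 156) (nat_lit 76) (nat_lit 0) (XT.nd (nat_lit 78) (nat_lit 152) (nat_lit 0) (XT.lf (nat_lit 0) (nat_lit 25318640717) (nat_lit 152) (nat_lit 23845318793) (nat_lit 76) (nat_lit 36272294679) (nat_lit 25) (nat_lit 5) (nat_lit 27) (nat_lit 5) (nat_lit 26) (nat_lit 5) (nat_lit 340) (nat_lit 293) (nat_lit 147)) (XT.lf (nat_lit 0) (nat_lit 12163716773) (nat_lit 152) (nat_lit 28706622138) (nat_lit 228) (nat_lit 47725912495) (nat_lit 23) (nat_lit 5) (nat_lit 25) (nat_lit 5) (nat_lit 26) (nat_lit 5) (nat_lit 341) (nat_lit 293) (nat_lit 146))) (XT.nd (nat_lit 78) (nat_lit 76) (nat_lit 0) (XT.lf (nat_lit 0) (nat_lit 50798234020) (nat_lit 152) (nat_lit 6803535783) (nat_lit 228) (nat_lit 34292372715) (nat_lit 23)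 (nat_lit 5) (nat_lit 25) (nat_lit 5) (nat_lit 26) (nat_lit 5) (nat_lit 342) (nat_lit 293) (nat_lit 145)) (XT.nd (nat_lit 78) (nat_lit 76) (nat_lit 0) (XT.lf (nat_lit 0) (nat_lit 75420995973) (nat_lit 228) (nat_lit 4248051535) (nat_lit 76) (nat_lit 15675320847) (nat_lit 23) (nat_lit 5) (nat_lit 26) (nat_lit 5) (nat_lit 24) (nat_lit 4) (nat_lit 343) (nat_lit 293) (nat_lit 144)) (XT.lf (nat_lit 0) (nat_lit 35463080425) (nat_lit 76) (nat_lit 59331770663) (nat_lit 152) (nat_lit 4139072304) (nat_lit 22) (nat_lit 5) (nat_lit 23) (nat_lit 5) (nat_lit 24) (nat_lit 4) (nat_lit 344) (nat_lit 293) (nat_lit 143))))) (XT.nd (nat_lit 156) (nat_lit 76) (nat_lit 0) (XT.nd (nat_lit 78) (nat_lit 152) (nat_lit 0) (XT.lf (nat_lit 0) (nat_lit 12108048591) (nat_lit 152) (nat_lit 25590057358) (nat_lit 76) (nat_lit 64991565297) (nat_lit 21) (nat_lit 5) (nat_lit 23) (nat_lit 5) (nat_lit 22) (nat_lit 5) (nat_lit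 345) (nat_lit 293) (nat_lit 142)) (XT.lf (nat_lit 0) (nat_lit 14581091133) (nat_lit 152) (nat_lit 14673522733) (nat_lit 228) (nat_lit 77363891645) (nat_lit 19) (nat_lit 5) (nat_lit 21) (nat_lit 5) (nat_lit 22) (nat_lit 5) (nat_lit 346) (nat_lit 293) (nat_lit 141))) (XT.nd (nat_lit 78) (nat_lit 76) (nat_lit 0) (XT.lf (nat_lit 0) (nat_lit 47845900953) (nat_lit 228) (nat_lit 53230873160) (nat_lit 76) (nat_lit 9637638760) (nat_lit 19) (nat_lit 5) (nat_lit 22) (nat_lit 5) (nat_lit 20) (nat_lit 4) (nat_lit 347) (nat_lit 293) (nat_lit 140)) (XT.nd (nat_lit 78) (nat_lit 76) (nat_lit 0) (XT.lf (nat_lit 0) (nat_lit 67605922501) (nat_lit 228) (nat_lit 12726958973) (nat_lit 76) (nat_lit 34670276635) (nat_lit 19) (nat_lit 5) (nat_lit 22) (nat_lit 5) (nat_lit 20) (nat_lit 4) (nat_lit 348) (nat_lit 293) (nat_lit 139)) (XT.lf (nat_lit 0) (nat_lit 30785178865) (nat_lit 76) (nat_lit 58048095421) (nat_lit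 152) (nat_lit 30649100827) (nat_lit 18) (nat_lit 5) (nat_lit 19) (nat_lit 5) (nat_lit 20) (nat_lit 4) (nat_lit 349) (nat_lit 293) (nat_lit 138)))))) (XT.nd (nat_lit 390) (nat_lit 228) (nat_lit 0) (XT.nd (nat_lit 156) (nat_lit 152) (nat_lit 0) (XT.nd (nat_lit 78) (nat_lit 76) (nat_lit 0) (XT.lf (nat_lit 0) (nat_lit 76912521772) (nat_lit 76) (nat_lit 34423722723) (nat_lit 152) (nat_lit 12838596848) (nat_lit 18) (nat_lit 5) (nat_lit 19) (nat_lit 5) (nat_lit 20) (nat_lit 4) (nat_lit 350) (nat_lit 293) (nat_lit 137)) (XT.lf (nat_lit 0) (nat_lit 5673551833) (nat_lit 152) (nat_lit 3849415902) (nat_lit 76) (nat_lit 119574449833) (nat_lit 17) (nat_lit 5) (nat_lit 19) (nat_lit 5) (nat_lit 18) (nat_lit 5) (nat_lit 351) (nat_lit 293) (nat_lit 136))) (XT.nd (nat_lit 78) (nat_lit 0) (nat_lit 0) (XT.lf (nat_lit 0) (nat_lit 25622307031) (nat_lit 228) (nat_lit 91601646616) (nat_lit 76) (nat_lit 16984523305)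 (nat_lit 15) (nat_lit 5) (nat_lit 18) (nat_lit 5) (nat_lit 16) (nat_lit 4) (nat_lit 352) (nat_lit 293) (nat_lit 135)) (XT.nd (nat_lit 78) (nat_lit 0) (nat_lit 0) (XT.lf (nat_lit 0) (nat_lit 46789698579) (nat_lit 228) (nat_lit 48211575802) (nat_lit 76) (nat_lit 44562755749) (nat_lit 15) (nat_lit 5) (nat_lit 18) (nat_lit 5) (nat_lit 16) (nat_lit 4) (nat_lit 353) (nat_lit 293) (nat_lit 134)) (XT.lf (nat_lit 0) (nat_lit 69014339637) (nat_lit 228) (nat_lit 2653996739) (nat_lit 76) (nat_lit 73519081314) (nat_lit 15) (nat_lit 5) (nat_lit 18) (nat_lit 5) (nat_lit 16) (nat_lit 4) (nat_lit 354) (nat_lit 293) (nat_lit 133))))) (XT.nd (nat_lit 156) (nat_lit 152) (nat_lit 0) (XT.nd (nat_lit 78) (nat_lit 0) (nat_lit 0) (XT.lf (nat_lit 0) (nat_lit 46673401322) (nat_lit 76) (nat_lit 46404447290) (nat_lit 152) (nat_lit 57977744906) (nat_lit 14) (nat_lit 5) (nat_lit 15) (nat_lit 5) (nat_lit 16) (nat_lit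 4) (nat_lit 355) (nat_lit 293) (nat_lit 132)) (XT.lf (nat_lit 0) (nat_lit 98557440432) (nat_lit 76) (nat_lit 19830994197) (nat_lit 152) (nat_lit 38826549080) (nat_lit 14) (nat_lit 5) (nat_lit 15) (nat_lit 5) (nat_lit 16) (nat_lit 4) (nat_lit 356) (nat_lit 293) (nat_lit 131))) (XT.nd (nat_lit 78) (nat_lit 152) (nat_lit 0) (XT.lf (nat_lit 0) (nat_lit 145089555314) (nat_lit 152) (nat_lit 10774493624) (nat_lit 0) (nat_lit 7812044825) (nat_lit 14) (nat_lit 5) (nat_lit 16) (nat_lit 4) (nat_lit 14) (nat_lit 4) (nat_lit 357) (nat_lit 293) (nat_lit 130)) (XT.nd (nat_lit 78) (nat_lit 0) (nat_lit 0) (XT.lf (nat_lit 0) (nat_lit 3551840253) (nat_lit 152) (nat_lit 129998537699) (nat_lit 76) (nat_lit 36859217191) (nat_lit 12) (nat_lit 5) (nat_lit 14) (nat_lit 5) (nat_lit 13) (nat_lit 4) (nat_lit 358) (nat_lit 293) (nat_lit 129)) (XT.lf (nat_lit 0) (nat_lit 26357014408) (nat_lit 152) (nat_lit 83250120903)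 (nat_lit 76) (nat_lit 67848176646) (nat_lit 12) (nat_lit 5) (nat_lit 14) (nat_lit 5) (nat_lit 13) (nat_lit 4) (nat_lit 359) (nat_lit 293) (nat_lit 128))))))) (XT.nd (nat_lit 780) (nat_lit 152) (nat_lit 0) (XT.nd (nat_lit 390) (nat_lit 228) (nat_lit 0) (XT.nd (nat_lit 156) (nat_lit 0) (nat_lit 0) (XT.nd (nat_lit 78) (nat_lit 76) (nat_lit 0) (XT.lf (nat_lit 0) (nat_lit 50301536309) (nat_lit 152) (nat_lit 34165936930) (nat_lit 76) (nat_lit 100385887431) (nat_lit 12) (nat_lit 5) (nat_lit 14) (nat_lit 5) (nat_lit 13) (nat_lit 4) (nat_lit 360) (nat_lit 293) (nat_lit 127)) (XT.lf (nat_lit 0) (nat_lit 17945241107) (nat_lit 76) (nat_lit 57777351119) (nat_lit 152) (nat_lit 116884754682) (nat_lit 11) (nat_lit 5) (nat_lit 12) (nat_lit 5) (nat_lit 13) (nat_lit 4) (nat_lit 361) (nat_lit 293) (nat_lit 126))) (XT.nd (nat_lit 78) (nat_lit 0) (nat_lit 0) (XT.lf (nat_lit 0) (nat_lit 73846592714) (nat_lit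 76) (nat_lit 29145874441) (nat_lit 152) (nat_lit 97727677458) (nat_lit 11) (nat_lit 5) (nat_lit 12) (nat_lit 5) (nat_lit 13) (nat_lit 4) (nat_lit 362) (nat_lit 293) (nat_lit 125)) (XT.nd (nat_lit 78) (nat_lit 0) (nat_lit 0) (XT.lf (nat_lit 0) (nat_lit 131639335160) (nat_lit 152) (nat_lit 76711396265) (nat_lit 0) (nat_lit 887176251) (nat_lit 11) (nat_lit 5) (nat_lit 13) (nat_lit 4) (nat_lit 11) (nat_lit 4) (nat_lit 363) (nat_lit 293) (nat_lit 124)) (XT.lf (nat_lit 0) (nat_lit 162195566492) (nat_lit 152) (nat_lit 24520368616) (nat_lit 0) (nat_lit 31441773208) (nat_lit 11) (nat_lit 5) (nat_lit 13) (nat_lit 4) (nat_lit 11) (nat_lit 4) (nat_lit 364) (nat_lit 293) (nat_lit 123))))) (XT.nd (nat_lit 156) (nat_lit 152) (nat_lit 0) (XT.nd (nat_lit 78) (nat_lit 0) (nat_lit 0) (XT.lf (nat_lit 0) (nat_lit 31279999510) (nat_lit 76) (nat_lit 163487234247) (nat_lit 76) (nat_lit 32731884414) (nat_lit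 10) (nat_lit 4) (nat_lit 11) (nat_lit 5) (nat_lit 11) (nat_lit 4) (nat_lit 365) (nat_lit 293) (nat_lit 122)) (XT.lf (nat_lit 0) (nat_lit 90720333675) (nat_lit 76) (nat_lit 138661685376) (nat_lit 76) (nat_lit 7904853116) (nat_lit 10) (nat_lit 4) (nat_lit 11) (nat_lit 5) (nat_lit 11) (nat_lit 4) (nat_lit 366) (nat_lit 293) (nat_lit 121))) (XT.nd (nat_lit 78) (nat_lit 76) (nat_lit 0) (XT.lf (nat_lit 0) (nat_lit 17581476720) (nat_lit 152) (nat_lit 94716216818) (nat_lit 76) (nat_lit 135252176821) (nat_lit 9) (nat_lit 5) (nat_lit 11) (nat_lit 5) (nat_lit 10) (nat_lit 4) (nat_lit 367) (nat_lit 293) (nat_lit 120)) (XT.nd (nat_lit 78) (nat_lit 76) (nat_lit 0) (XT.lf (nat_lit 0) (nat_lit 44075795158) (nat_lit 152) (nat_lit 40404208626) (nat_lit 76) (nat_lit 173839569270) (nat_lit 9) (nat_lit 5) (nat_lit 11) (nat_lit 5) (nat_lit 10) (nat_lit 4) (nat_lit 368) (nat_lit 293) (nat_lit 119)) (XT.lf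 (nat_lit 0) (nat_lit 17171822871) (nat_lit 76) (nat_lit 54990465981) (nat_lit 152) (nat_lit 197452099376) (nat_lit 8) (nat_lit 5) (nat_lit 9) (nat_lit 5) (nat_lit 10) (nat_lit 4) (nat_lit 369) (nat_lit 293) (nat_lit 118)))))) (XT.nd (nat_lit 390) (nat_lit 76) (nat_lit 0) (XT.nd (nat_lit 156) (nat_lit 76) (nat_lit 0) (XT.nd (nat_lit 78) (nat_lit 0) (nat_lit 0) (XT.lf (nat_lit 0) (nat_lit 79028235231) (nat_lit 76) (nat_lit 23308508234) (nat_lit 152) (nat_lit 179103019184) (nat_lit 8) (nat_lit 5) (nat_lit 9) (nat_lit 5) (nat_lit 10) (nat_lit 4) (nat_lit 370) (nat_lit 293) (nat_lit 117)) (XT.lf (nat_lit 0) (nat_lit 134174779418) (nat_lit 152) (nat_lit 150035533257) (nat_lit 0) (nat_lit 9638350471) (nat_lit 8) (nat_lit 5) (nat_lit 10) (nat_lit 4) (nat_lit 8) (nat_lit 4) (nat_lit 371) (nat_lit 293) (nat_lit 116))) (XT.nd (nat_lit 78) (nat_lit 76) (nat_lit 0) (XT.lf (nat_lit 0) (nat_lit 167986246135)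 (nat_lit 152) (nat_lit 95423922701) (nat_lit 0) (nat_lit 43448763654) (nat_lit 8) (nat_lit 5) (nat_lit 10) (nat_lit 4) (nat_lit 8) (nat_lit 4) (nat_lit 372) (nat_lit 293) (nat_lit 115)) (XT.nd (nat_lit 78) (nat_lit 76) (nat_lit 0) (XT.lf (nat_lit 0) (nat_lit 203487735972) (nat_lit 152) (nat_lit 38082756971) (nat_lit 0) (nat_lit 78949250126) (nat_lit 8) (nat_lit 5) (nat_lit 10) (nat_lit 4) (nat_lit 8) (nat_lit 4) (nat_lit 373) (nat_lit 293) (nat_lit 114)) (XT.lf (nat_lit 0) (nat_lit 22856026089) (nat_lit 76) (nat_lit 218264596818) (nat_lit 76) (nat_lit 93725155386) (nat_lit 7) (nat_lit 4) (nat_lit 8) (nat_lit 5) (nat_lit 8) (nat_lit 4) (nat_lit 374) (nat_lit 293) (nat_lit 113))))) (XT.nd (nat_lit 156) (nat_lit 76) (nat_lit 0) (XT.nd (nat_lit 78) (nat_lit 0) (nat_lit 0) (XT.lf (nat_lit 0) (nat_lit 88162934855) (nat_lit 76) (nat_lit 193116655189) (nat_lit 76) (nat_lit 68576303675) (nat_lit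 7) (nat_lit 4) (nat_lit 8) (nat_lit 5) (nat_lit 8) (nat_lit 4) (nat_lit 375) (nat_lit 293) (nat_lit 112)) (XT.lf (nat_lit 0) (nat_lit 156734274033) (nat_lit 76) (nat_lit 166711741923) (nat_lit 76) (nat_lit 42170523664) (nat_lit 7) (nat_lit 4) (nat_lit 8) (nat_lit 5) (nat_lit 8) (nat_lit 4) (nat_lit 376) (nat_lit 293) (nat_lit 111))) (XT.nd (nat_lit 78) (nat_lit 76) (nat_lit 0) (XT.lf (nat_lit 0) (nat_lit 228733308716) (nat_lit 76) (nat_lit 138986988177) (nat_lit 76) (nat_lit 14444944447) (nat_lit 7) (nat_lit 4) (nat_lit 8) (nat_lit 5) (nat_lit 8) (nat_lit 4) (nat_lit 377) (nat_lit 293) (nat_lit 110)) (XT.nd (nat_lit 78) (nat_lit 0) (nat_lit 0) (XT.lf (nat_lit 0) (nat_lit 14197029352) (nat_lit 152) (nat_lit 95438919719) (nat_lit 76) (nat_lit 289894002263) (nat_lit 6) (nat_lit 5) (nat_lit 8) (nat_lit 5) (nat_lit 7) (nat_lit 4) (nat_lit 378) (nat_lit 293) (nat_lit 109)) (XT.lf (nat_lit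 0) (nat_lit 43785226949) (nat_lit 152) (nat_lit 34783863372) (nat_lit 76) (nat_lit 339181988075) (nat_lit 6) (nat_lit 5) (nat_lit 8) (nat_lit 5) (nat_lit 7) (nat_lit 4) (nat_lit 379) (nat_lit 293) (nat_lit 108))))))))
noncomputable def xc197 : XT := (XT.nd (nat_lit 35412) (nat_lit 0) (nat_lit 2204) (XT.nd (nat_lit 34632) (nat_lit 0) (nat_lit 4788) (XT.nd (nat_lit 34242) (nat_lit 0) (nat_lit 6536) (XT.nd (nat_lit 34008) (nat_lit 0) (nat_lit 6460) (XT.nd (nat_lit 33930) (nat_lit 0) (nat_lit 6460) (XT.lf (nat_lit 0) (nat_lit 29858848917) (nat_lit 76) (nat_lit 45459756258) (nat_lit 152) (nat_lit 361541368274) (nat_lit 5) (nat_lit 5) (nat_lit 6) (nat_lit 5) (nat_lit 7) (nat_lit 4) (nat_lit 380) (nat_lit 293) (nat_lit 107)) (XT.lf (nat_lit 0) (nat_lit 4026782750) (nat_lit 0) (nat_lit 4026782750) (nat_lit 684) (nat_lit 2731971807) (nat_lit 90) (nat_lit 5) (nat_lit 90) (nat_lit 3) (nat_lit 99)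 (nat_lit 3) (nat_lit 294) (nat_lit 294) (nat_lit 192))) (XT.nd (nat_lit 78) (nat_lit 0) (nat_lit 0) (XT.lf (nat_lit 0) (nat_lit 16669390540) (nat_lit 684) (nat_lit 3766227031) (nat_lit 760) (nat_lit 1666487120) (nat_lit 90) (nat_lit 5) (nat_lit 99) (nat_lit 3) (nat_lit 100) (nat_lit 5) (nat_lit 295) (nat_lit 294) (nat_lit 191)) (XT.nd (nat_lit 78) (nat_lit 0) (nat_lit 0) (XT.lf (nat_lit 76) (nat_lit 6545329424) (nat_lit 0) (nat_lit 10940221930) (nat_lit 760) (nat_lit 5162862639) (nat_lit 91) (nat_lit 5) (nat_lit 90) (nat_lit 5) (nat_lit 100) (nat_lit 5) (nat_lit 296) (nat_lit 294) (nat_lit 190)) (XT.lf (nat_lit 76) (nat_lit 17498539814) (nat_lit 0) (nat_lit 899663270) (nat_lit 760) (nat_lit 4821067855) (nat_lit 91) (nat_lit 5) (nat_lit 90) (nat_lit 5) (nat_lit 100) (nat_lit 5) (nat_lit 297) (nat_lit 294) (nat_lit 189))))) (XT.nd (nat_lit 156) (nat_lit 0) (nat_lit 76) (XT.nd (nat_lit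 78) (nat_lit 0) (nat_lit 0) (XT.lf (nat_lit 76) (nat_lit 5191437230) (nat_lit 0) (nat_lit 14388992695) (nat_lit 760) (nat_lit 4227059224) (nat_lit 92) (nat_lit 5) (nat_lit 91) (nat_lit 5) (nat_lit 101) (nat_lit 5) (nat_lit 298) (nat_lit 294) (nat_lit 188)) (XT.lf (nat_lit 76) (nat_lit 16827759683) (nat_lit 0) (nat_lit 4098028587) (nat_lit 760) (nat_lit 3494143797) (nat_lit 92) (nat_lit 5) (nat_lit 91) (nat_lit 5) (nat_lit 101) (nat_lit 5) (nat_lit 299) (nat_lit 294) (nat_lit 187))) (XT.nd (nat_lit 78) (nat_lit 0) (nat_lit 0) (XT.lf (nat_lit 76) (nat_lit 4001241130) (nat_lit 0) (nat_lit 18497381700) (nat_lit 760) (nat_lit 2556377984) (nat_lit 93) (nat_lit 5) (nat_lit 92) (nat_lit 5) (nat_lit 102) (nat_lit 5) (nat_lit 300) (nat_lit 294) (nat_lit 186)) (XT.nd (nat_lit 78) (nat_lit 0) (nat_lit 76) (XT.lf (nat_lit 76) (nat_lit 16363584903) (nat_lit 0) (nat_lit 7974459435) (nat_lit 760) (nat_lit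 1374394828) (nat_lit 93) (nat_lit 5) (nat_lit 92) (nat_lit 5) (nat_lit 102) (nat_lit 5) (nat_lit 301) (nat_lit 294) (nat_lit 185)) (XT.lf (nat_lit 76) (nat_lit 2983744468) (nat_lit 0) (nat_lit 23373898515) (nat_lit 760) (nat_lit 40708939) (nat_lit 94) (nat_lit 5) (nat_lit 93) (nat_lit 5) (nat_lit 103) (nat_lit 5) (nat_lit 302) (nat_lit 294) (nat_lit 184)))))) (XT.nd (nat_lit 390) (nat_lit 684) (nat_lit 0) (XT.nd (nat_lit 156) (nat_lit 456) (nat_lit 0) (XT.nd (nat_lit 78) (nat_lit 0) (nat_lit 0) (XT.lf (nat_lit 0) (nat_lit 1601527189) (nat_lit 760) (nat_lit 11012836798) (nat_lit 836) (nat_lit 14488877342) (nat_lit 83) (nat_lit 5) (nat_lit 93) (nat_lit 5) (nat_lit 94) (nat_lit 5) (nat_lit 303) (nat_lit 294) (nat_lit 183)) (XT.lf (nat_lit 76) (nat_lit 2069659341) (nat_lit 0) (nat_lit 1281191216) (nat_lit 836) (nat_lit 24491185153) (nat_lit 84) (nat_lit 5) (nat_lit 83) (nat_lit 5) (nat_lit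 94) (nat_lit 5) (nat_lit 304) (nat_lit 294) (nat_lit 182))) (XT.nd (nat_lit 78) (nat_lit 532) (nat_lit 0) (XT.lf (nat_lit 0) (nat_lit 5537244908) (nat_lit 760) (nat_lit 12593838305) (nat_lit 76) (nat_lit 10469216877) (nat_lit 84) (nat_lit 5) (nat_lit 94) (nat_lit 5) (nat_lit 85) (nat_lit 5) (nat_lit 305) (nat_lit 294) (nat_lit 181)) (XT.nd (nat_lit 78) (nat_lit 0) (nat_lit 0) (XT.lf (nat_lit 0) (nat_lit 1257961623) (nat_lit 532) (nat_lit 6610167326) (nat_lit 608) (nat_lit 21526600261) (nat_lit 77) (nat_lit 5) (nat_lit 84) (nat_lit 5) (nat_lit 85) (nat_lit 5) (nat_lit 306) (nat_lit 294) (nat_lit 180)) (XT.lf (nat_lit 0) (nat_lit 10612719064) (nat_lit 608) (nat_lit 14072921141) (nat_lit 76) (nat_lit 5528391031) (nat_lit 77) (nat_lit 5) (nat_lit 85) (nat_lit 5) (nat_lit 78) (nat_lit 5) (nat_lit 307) (nat_lit 294) (nat_lit 179))))) (XT.nd (nat_lit 156) (nat_lit 304) (nat_lit 0) (XT.nd (nat_lit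 78) (nat_lit 0) (nat_lit 0) (XT.lf (nat_lit 0) (nat_lit 600078593) (nat_lit 380) (nat_lit 13007162350) (nat_lit 456) (nat_lit 17461431396) (nat_lit 72) (nat_lit 5) (nat_lit 77) (nat_lit 5) (nat_lit 78) (nat_lit 5) (nat_lit 308) (nat_lit 294) (nat_lit 178)) (XT.lf (nat_lit 0) (nat_lit 16490505201) (nat_lit 380) (nat_lit 494449933) (nat_lit 456) (nat_lit 14969425708) (nat_lit 72) (nat_lit 5) (nat_lit 77) (nat_lit 5) (nat_lit 78) (nat_lit 5) (nat_lit 309) (nat_lit 294) (nat_lit 177))) (XT.nd (nat_lit 78) (nat_lit 0) (nat_lit 0) (XT.lf (nat_lit 0) (nat_lit 91794380) (nat_lit 304) (nat_lit 20633967611) (nat_lit 380) (nat_lit 12148910673) (nat_lit 68) (nat_lit 5) (nat_lit 72) (nat_lit 5) (nat_lit 73) (nat_lit 5) (nat_lit 310) (nat_lit 294) (nat_lit 176)) (XT.nd (nat_lit 78) (nat_lit 0) (nat_lit 0) (XT.lf (nat_lit 0) (nat_lit 16949007367) (nat_lit 304) (nat_lit 7969978793) (nat_lit 380) (nat_lit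 8908731923) (nat_lit 68) (nat_lit 5) (nat_lit 72) (nat_lit 5) (nat_lit 73) (nat_lit 5) (nat_lit 311) (nat_lit 294) (nat_lit 175)) (XT.lf (nat_lit 0) (nat_lit 29400767852) (nat_lit 380) (nat_lit 267236838) (nat_lit 76) (nat_lit 5156473743) (nat_lit 68) (nat_lit 5) (nat_lit 73) (nat_lit 5) (nat_lit 69) (nat_lit 5) (nat_lit 312) (nat_lit 294) (nat_lit 174))))))) (XT.nd (nat_lit 780) (nat_lit 1064) (nat_lit 0) (XT.nd (nat_lit 390) (nat_lit 532) (nat_lit 0) (XT.nd (nat_lit 156) (nat_lit 608) (nat_lit 0) (XT.nd (nat_lit 78) (nat_lit 76) (nat_lit 0) (XT.lf (nat_lit 0) (nat_lit 17603058973) (nat_lit 304) (nat_lit 16904995409) (nat_lit 380) (nat_lit 1342958751) (nat_lit 64) (nat_lit 5) (nat_lit 68) (nat_lit 5) (nat_lit 69) (nat_lit 5) (nat_lit 313) (nat_lit 294) (nat_lit 173)) (XT.lf (nat_lit 0) (nat_lit 2848254439) (nat_lit 380) (nat_lit 603076157) (nat_lit 76) (nat_lit 33475224885) (nat_lit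 63) (nat_lit 5) (nat_lit 68) (nat_lit 5) (nat_lit 64) (nat_lit 5) (nat_lit 314) (nat_lit 294) (nat_lit 172))) (XT.nd (nat_lit 78) (nat_lit 304) (nat_lit 0) (XT.lf (nat_lit 0) (nat_lit 7660492396) (nat_lit 380) (nat_lit 19722835258) (nat_lit 76) (nat_lit 10648622841) (nat_lit 59) (nat_lit 5) (nat_lit 64) (nat_lit 5) (nat_lit 60) (nat_lit 5) (nat_lit 315) (nat_lit 294) (nat_lit 171)) (XT.nd (nat_lit 78) (nat_lit 304) (nat_lit 0) (XT.lf (nat_lit 0) (nat_lit 12776580900) (nat_lit 380) (nat_lit 1065463163) (nat_lit 76) (nat_lit 25347415123) (nat_lit 59) (nat_lit 5) (nat_lit 64) (nat_lit 5) (nat_lit 60) (nat_lit 5) (nat_lit 316) (nat_lit 294) (nat_lit 170)) (XT.lf (nat_lit 0) (nat_lit 18454408923) (nat_lit 380) (nat_lit 21267954528) (nat_lit 76) (nat_lit 667188686) (nat_lit 55) (nat_lit 5) (nat_lit 60) (nat_lit 5) (nat_lit 56) (nat_lit 5) (nat_lit 317) (nat_lit 294) (nat_lit 169))))) (XT.nd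 (nat_lit 156) (nat_lit 304) (nat_lit 0) (XT.nd (nat_lit 78) (nat_lit 228) (nat_lit 0) (XT.lf (nat_lit 0) (nat_lit 24657934719) (nat_lit 380) (nat_lit 1525310282) (nat_lit 76) (nat_lit 15454319730) (nat_lit 55) (nat_lit 5) (nat_lit 60) (nat_lit 5) (nat_lit 56) (nat_lit 5) (nat_lit 318) (nat_lit 294) (nat_lit 168)) (XT.lf (nat_lit 0) (nat_lit 19835172629) (nat_lit 228) (nat_lit 11642858881) (nat_lit 304) (nat_lit 11454631770) (nat_lit 52) (nat_lit 5) (nat_lit 55) (nat_lit 5) (nat_lit 56) (nat_lit 5) (nat_lit 319) (nat_lit 294) (nat_lit 167))) (XT.nd (nat_lit 78) (nat_lit 304) (nat_lit 0) (XT.lf (nat_lit 0) (nat_lit 38718769056) (nat_lit 304) (nat_lit 2035829884) (nat_lit 76) (nat_lit 3533940840) (nat_lit 52) (nat_lit 5) (nat_lit 56) (nat_lit 5) (nat_lit 53) (nat_lit 5) (nat_lit 320) (nat_lit 294) (nat_lit 166)) (XT.nd (nat_lit 78) (nat_lit 0) (nat_lit 0) (XT.lf (nat_lit 0) (nat_lit 1106683468)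 (nat_lit 304) (nat_lit 25163161113) (nat_lit 76) (nat_lit 19416051597) (nat_lit 48) (nat_lit 5) (nat_lit 52) (nat_lit 5) (nat_lit 49) (nat_lit 5) (nat_lit 321) (nat_lit 294) (nat_lit 165)) (XT.lf (nat_lit 0) (nat_lit 7961797294) (nat_lit 304) (nat_lit 2967426667) (nat_lit 76) (nat_lit 36217734326) (nat_lit 48) (nat_lit 5) (nat_lit 52) (nat_lit 5) (nat_lit 49) (nat_lit 5) (nat_lit 322) (nat_lit 294) (nat_lit 164)))))) (XT.nd (nat_lit 390) (nat_lit 456) (nat_lit 0) (XT.nd (nat_lit 156) (nat_lit 380) (nat_lit 0) (XT.nd (nat_lit 78) (nat_lit 0) (nat_lit 0) (XT.lf (nat_lit 0) (nat_lit 15570967869) (nat_lit 304) (nat_lit 27744469445) (nat_lit 76) (nat_lit 5345075101) (nat_lit 45) (nat_lit 5) (nat_lit 49) (nat_lit 5) (nat_lit 46) (nat_lit 5) (nat_lit 323) (nat_lit 294) (nat_lit 163)) (XT.lf (nat_lit 0) (nat_lit 23788024094) (nat_lit 304) (nat_lit 4334451674) (nat_lit 76) (nat_lit 22115900900)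 (nat_lit 45) (nat_lit 5) (nat_lit 49) (nat_lit 5) (nat_lit 46) (nat_lit 5) (nat_lit 324) (nat_lit 294) (nat_lit 162))) (XT.nd (nat_lit 78) (nat_lit 152) (nat_lit 0) (XT.lf (nat_lit 0) (nat_lit 20911619739) (nat_lit 228) (nat_lit 11828117485) (nat_lit 304) (nat_lit 19139210303) (nat_lit 42) (nat_lit 5) (nat_lit 45) (nat_lit 5) (nat_lit 46) (nat_lit 5) (nat_lit 325) (nat_lit 294) (nat_lit 161)) (XT.nd (nat_lit 78) (nat_lit 152) (nat_lit 0) (XT.lf (nat_lit 0) (nat_lit 42293464573) (nat_lit 304) (nat_lit 6114860045) (nat_lit 76) (nat_lit 5185504308) (nat_lit 42) (nat_lit 5) (nat_lit 46) (nat_lit 5) (nat_lit 43) (nat_lit 5) (nat_lit 326) (nat_lit 294) (nat_lit 160)) (XT.lf (nat_lit 0) (nat_lit 20436807687) (nat_lit 152) (nat_lit 32398543896) (nat_lit 228) (nat_lit 2533582409) (nat_lit 40) (nat_lit 5) (nat_lit 42) (nat_lit 5) (nat_lit 43) (nat_lit 5) (nat_lit 327) (nat_lit 294) (nat_lit 159)))))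 (XT.nd (nat_lit 156) (nat_lit 152) (nat_lit 0) (XT.nd (nat_lit 78) (nat_lit 228) (nat_lit 0) (XT.lf (nat_lit 0) (nat_lit 6560778008) (nat_lit 228) (nat_lit 8808774532) (nat_lit 76) (nat_lit 41852898145) (nat_lit 39) (nat_lit 5) (nat_lit 42) (nat_lit 5) (nat_lit 40) (nat_lit 5) (nat_lit 328) (nat_lit 294) (nat_lit 158)) (XT.lf (nat_lit 0) (nat_lit 16366730066) (nat_lit 304) (nat_lit 40006554189) (nat_lit 76) (nat_lit 2776184139) (nat_lit 36) (nat_lit 5) (nat_lit 40) (nat_lit 5) (nat_lit 37) (nat_lit 5) (nat_lit 329) (nat_lit 294) (nat_lit 157))) (XT.nd (nat_lit 78) (nat_lit 152) (nat_lit 0) (XT.lf (nat_lit 0) (nat_lit 27064240800) (nat_lit 304) (nat_lit 12625297927) (nat_lit 76) (nat_lit 21463237893) (nat_lit 36) (nat_lit 5) (nat_lit 40) (nat_lit 5) (nat_lit 37) (nat_lit 5) (nat_lit 330) (nat_lit 294) (nat_lit 156)) (XT.nd (nat_lit 78) (nat_lit 0) (nat_lit 0) (XT.lf (nat_lit 0) (nat_lit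 16654721328) (nat_lit 152) (nat_lit 21899718090) (nat_lit 228) (nat_lit 24688922777) (nat_lit 34) (nat_lit 5) (nat_lit 36) (nat_lit 5) (nat_lit 37) (nat_lit 5) (nat_lit 331) (nat_lit 294) (nat_lit 155)) (XT.lf (nat_lit 0) (nat_lit 47833762582) (nat_lit 152) (nat_lit 2997040308) (nat_lit 228) (nat_lit 14597093847) (nat_lit 34) (nat_lit 5) (nat_lit 36) (nat_lit 5) (nat_lit 37) (nat_lit 5) (nat_lit 332) (nat_lit 294) (nat_lit 154))))))))
noncomputable def xc198 : XT := (XT.nd (nat_lit 1560) (nat_lit 684) (nat_lit 0) (XT.nd (nat_lit 780) (nat_lit 456) (nat_lit 0) (XT.nd (nat_lit 390) (nat_lit 456) (nat_lit 0) (XT.nd (nat_lit 156) (nat_lit 152) (nat_lit 0) (XT.nd (nat_lit 78) (nat_lit 76) (nat_lit 0) (XT.lf (nat_lit 0) (nat_lit 12999854795) (nat_lit 152) (nat_lit 51185106998) (nat_lit 228) (nat_lit 3513499670) (nat_lit 32) (nat_lit 5) (nat_lit 34) (nat_lit 5) (nat_lit 35) (nat_lit 5) (nat_lit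 333) (nat_lit 294) (nat_lit 153)) (XT.lf (nat_lit 0) (nat_lit 8214167494) (nat_lit 228) (nat_lit 24517393522) (nat_lit 76) (nat_lit 37327157337) (nat_lit 31) (nat_lit 5) (nat_lit 34) (nat_lit 5) (nat_lit 32) (nat_lit 5) (nat_lit 334) (nat_lit 294) (nat_lit 152))) (XT.nd (nat_lit 78) (nat_lit 0) (nat_lit 0) (XT.lf (nat_lit 0) (nat_lit 7347347711) (nat_lit 152) (nat_lit 13175543634) (nat_lit 228) (nat_lit 52005581330) (nat_lit 29) (nat_lit 5) (nat_lit 31) (nat_lit 5) (nat_lit 32) (nat_lit 5) (nat_lit 335) (nat_lit 294) (nat_lit 151)) (XT.nd (nat_lit 78) (nat_lit 0) (nat_lit 0) (XT.lf (nat_lit 0) (nat_lit 33982020953) (nat_lit 228) (nat_lit 33569254976) (nat_lit 76) (nat_lit 7543692213) (nat_lit 29) (nat_lit 5) (nat_lit 32) (nat_lit 5) (nat_lit 30) (nat_lit 5) (nat_lit 336) (nat_lit 294) (nat_lit 150)) (XT.lf (nat_lit 0) (nat_lit 48328257243) (nat_lit 228) (nat_lit 595760609) (nat_lit 76)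 (nat_lit 28855064836) (nat_lit 29) (nat_lit 5) (nat_lit 32) (nat_lit 5) (nat_lit 30) (nat_lit 5) (nat_lit 337) (nat_lit 294) (nat_lit 149))))) (XT.nd (nat_lit 156) (nat_lit 304) (nat_lit 0) (XT.nd (nat_lit 78) (nat_lit 0) (nat_lit 0) (XT.lf (nat_lit 0) (nat_lit 35148546614) (nat_lit 152) (nat_lit 28790271461) (nat_lit 228) (nat_lit 16631235981) (nat_lit 27) (nat_lit 5) (nat_lit 29) (nat_lit 5) (nat_lit 30) (nat_lit 5) (nat_lit 338) (nat_lit 294) (nat_lit 148)) (XT.lf (nat_lit 0) (nat_lit 72697963527) (nat_lit 152) (nat_lit 7640318335) (nat_lit 228) (nat_lit 3161875032) (nat_lit 27) (nat_lit 5) (nat_lit 29) (nat_lit 5) (nat_lit 30) (nat_lit 5) (nat_lit 339) (nat_lit 294) (nat_lit 147))) (XT.nd (nat_lit 78) (nat_lit 152) (nat_lit 0) (XT.lf (nat_lit 0) (nat_lit 11274027598) (nat_lit 152) (nat_lit 60571844507) (nat_lit 76) (nat_lit 14690095454) (nat_lit 25) (nat_lit 5) (nat_lit 27) (nat_lit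 5) (nat_lit 26) (nat_lit 5) (nat_lit 340) (nat_lit 294) (nat_lit 146)) (XT.nd (nat_lit 78) (nat_lit 152) (nat_lit 0) (XT.lf (nat_lit 0) (nat_lit 26635016033) (nat_lit 152) (nat_lit 24953458125) (nat_lit 76) (nat_lit 38117026801) (nat_lit 25) (nat_lit 5) (nat_lit 27) (nat_lit 5) (nat_lit 26) (nat_lit 5) (nat_lit 341) (nat_lit 294) (nat_lit 145)) (XT.lf (nat_lit 0) (nat_lit 12854672339) (nat_lit 152) (nat_lit 30108517004) (nat_lit 228) (nat_lit 50060366268) (nat_lit 23) (nat_lit 5) (nat_lit 25) (nat_lit 5) (nat_lit 26) (nat_lit 5) (nat_lit 342) (nat_lit 294) (nat_lit 144)))))) (XT.nd (nat_lit 390) (nat_lit 152) (nat_lit 0) (XT.nd (nat_lit 156) (nat_lit 304) (nat_lit 0) (XT.nd (nat_lit 78) (nat_lit 0) (nat_lit 0) (XT.lf (nat_lit 0) (nat_lit 53416974032) (nat_lit 152) (nat_lit 7111868534) (nat_lit 228) (nat_lit 35957618159) (nat_lit 23) (nat_lit 5) (nat_lit 25) (nat_lit 5) (nat_lit 26) (nat_lit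 5) (nat_lit 343) (nat_lit 294) (nat_lit 143)) (XT.lf (nat_lit 0) (nat_lit 79237266198) (nat_lit 228) (nat_lit 4383577868) (nat_lit 76) (nat_lit 16488443871) (nat_lit 23) (nat_lit 5) (nat_lit 26) (nat_lit 5) (nat_lit 24) (nat_lit 4) (nat_lit 344) (nat_lit 294) (nat_lit 142))) (XT.nd (nat_lit 78) (nat_lit 228) (nat_lit 0) (XT.lf (nat_lit 0) (nat_lit 37311870751) (nat_lit 76) (nat_lit 62266970859) (nat_lit 152) (nat_lit 4299529540) (nat_lit 22) (nat_lit 5) (nat_lit 23) (nat_lit 5) (nat_lit 24) (nat_lit 4) (nat_lit 345) (nat_lit 294) (nat_lit 141)) (XT.nd (nat_lit 78) (nat_lit 152) (nat_lit 0) (XT.lf (nat_lit 0) (nat_lit 12756315978) (nat_lit 152) (nat_lit 26796075675) (nat_lit 76) (nat_lit 68269587242) (nat_lit 21) (nat_lit 5) (nat_lit 23) (nat_lit 5) (nat_lit 22) (nat_lit 5) (nat_lit 346) (nat_lit 294) (nat_lit 140)) (XT.lf (nat_lit 0) (nat_lit 15382445006) (nat_lit 152) (nat_lit 15376852117)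 (nat_lit 228) (nat_lit 81188004925) (nat_lit 19) (nat_lit 5) (nat_lit 21) (nat_lit 5) (nat_lit 22) (nat_lit 5) (nat_lit 347) (nat_lit 294) (nat_lit 139))))) (XT.nd (nat_lit 156) (nat_lit 152) (nat_lit 0) (XT.nd (nat_lit 78) (nat_lit 0) (nat_lit 0) (XT.lf (nat_lit 0) (nat_lit 50278602059) (nat_lit 228) (nat_lit 55821984192) (nat_lit 76) (nat_lit 10147497333) (nat_lit 19) (nat_lit 5) (nat_lit 22) (nat_lit 5) (nat_lit 20) (nat_lit 4) (nat_lit 348) (nat_lit 294) (nat_lit 138)) (XT.lf (nat_lit 0) (nat_lit 71024700587) (nat_lit 228) (nat_lit 13296228230) (nat_lit 76) (nat_lit 36430434881) (nat_lit 19) (nat_lit 5) (nat_lit 22) (nat_lit 5) (nat_lit 20) (nat_lit 4) (nat_lit 349) (nat_lit 294) (nat_lit 137))) (XT.nd (nat_lit 78) (nat_lit 76) (nat_lit 0) (XT.lf (nat_lit 0) (nat_lit 32390434585) (nat_lit 76) (nat_lit 60922183296) (nat_lit 152) (nat_lit 32141965119) (nat_lit 18) (nat_lit 5) (nat_lit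 19) (nat_lit 5) (nat_lit 20) (nat_lit 4) (nat_lit 350) (nat_lit 294) (nat_lit 136)) (XT.nd (nat_lit 78) (nat_lit 76) (nat_lit 0) (XT.lf (nat_lit 0) (nat_lit 80821001934) (nat_lit 76) (nat_lit 36117940386) (nat_lit 152) (nat_lit 13442821215) (nat_lit 18) (nat_lit 5) (nat_lit 19) (nat_lit 5) (nat_lit 20) (nat_lit 4) (nat_lit 351) (nat_lit 294) (nat_lit 135)) (XT.lf (nat_lit 0) (nat_lit 5991990059) (nat_lit 152) (nat_lit 3980853116) (nat_lit 76) (nat_lit 125577684026) (nat_lit 17) (nat_lit 5) (nat_lit 19) (nat_lit 5) (nat_lit 18) (nat_lit 5) (nat_lit 352) (nat_lit 294) (nat_lit 134))))))) (XT.nd (nat_lit 780) (nat_lit 228) (nat_lit 0) (XT.nd (nat_lit 390) (nat_lit 228) (nat_lit 0) (XT.nd (nat_lit 156) (nat_lit 76) (nat_lit 0) (XT.nd (nat_lit 78) (nat_lit 0) (nat_lit 0) (XT.lf (nat_lit 0) (nat_lit 26937871314) (nat_lit 228) (nat_lit 96120361554) (nat_lit 76) (nat_lit 17858923375) (nat_lit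 15) (nat_lit 5) (nat_lit 18) (nat_lit 5) (nat_lit 16) (nat_lit 4) (nat_lit 353) (nat_lit 294) (nat_lit 133)) (XT.lf (nat_lit 0) (nat_lit 49161992015) (nat_lit 228) (nat_lit 50563709456) (nat_lit 76) (nat_lit 46814868683) (nat_lit 15) (nat_lit 5) (nat_lit 18) (nat_lit 5) (nat_lit 16) (nat_lit 4) (nat_lit 354) (nat_lit 294) (nat_lit 132))) (XT.nd (nat_lit 78) (nat_lit 76) (nat_lit 0) (XT.lf (nat_lit 0) (nat_lit 72496302815) (nat_lit 228) (nat_lit 2731034542) (nat_lit 76) (nat_lit 77217868853) (nat_lit 15) (nat_lit 5) (nat_lit 18) (nat_lit 5) (nat_lit 16) (nat_lit 4) (nat_lit 355) (nat_lit 294) (nat_lit 131)) (XT.nd (nat_lit 78) (nat_lit 0) (nat_lit 0) (XT.lf (nat_lit 0) (nat_lit 49061835647) (nat_lit 76) (nat_lit 48700518701) (nat_lit 152) (nat_lit 60844469080) (nat_lit 14) (nat_lit 5) (nat_lit 15) (nat_lit 5) (nat_lit 16) (nat_lit 4) (nat_lit 356) (nat_lit 294) (nat_lit 130)) (XT.lf (nat_lit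 0) (nat_lit 103537468891) (nat_lit 76) (nat_lit 20799542999) (nat_lit 152) (nat_lit 40737245038) (nat_lit 14) (nat_lit 5) (nat_lit 15) (nat_lit 5) (nat_lit 16) (nat_lit 4) (nat_lit 357) (nat_lit 294) (nat_lit 129))))) (XT.nd (nat_lit 156) (nat_lit 76) (nat_lit 0) (XT.nd (nat_lit 78) (nat_lit 152) (nat_lit 0) (XT.lf (nat_lit 0) (nat_lit 152372142259) (nat_lit 152) (nat_lit 11262481834) (nat_lit 0) (nat_lit 8223851576) (nat_lit 14) (nat_lit 5) (nat_lit 16) (nat_lit 4) (nat_lit 14) (nat_lit 4) (nat_lit 358) (nat_lit 294) (nat_lit 128)) (XT.lf (nat_lit 0) (nat_lit 3757449885) (nat_lit 152) (nat_lit 136447604341) (nat_lit 76) (nat_lit 38723604081) (nat_lit 12) (nat_lit 5) (nat_lit 14) (nat_lit 5) (nat_lit 13) (nat_lit 4) (nat_lit 359) (nat_lit 294) (nat_lit 127))) (XT.nd (nat_lit 78) (nat_lit 76) (nat_lit 0) (XT.lf (nat_lit 0) (nat_lit 27701548575) (nat_lit 152) (nat_lit 87364188621) (nat_lit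 76) (nat_lit 71260991221) (nat_lit 12) (nat_lit 5) (nat_lit 14) (nat_lit 5) (nat_lit 13) (nat_lit 4) (nat_lit 360) (nat_lit 294) (nat_lit 126)) (XT.nd (nat_lit 78) (nat_lit 76) (nat_lit 0) (XT.lf (nat_lit 0) (nat_lit 52842025931) (nat_lit 152) (nat_lit 35828102037) (nat_lit 76) (nat_lit 105424615843) (nat_lit 12) (nat_lit 5) (nat_lit 14) (nat_lit 5) (nat_lit 13) (nat_lit 4) (nat_lit 361) (nat_lit 294) (nat_lit 125)) (XT.lf (nat_lit 0) (nat_lit 18887890842) (nat_lit 76) (nat_lit 60645742298) (nat_lit 152) (nat_lit 122702821976) (nat_lit 11) (nat_lit 5) (nat_lit 12) (nat_lit 5) (nat_lit 13) (nat_lit 4) (nat_lit 362) (nat_lit 294) (nat_lit 124)))))) (XT.nd (nat_lit 390) (nat_lit 152) (nat_lit 0) (XT.nd (nat_lit 156) (nat_lit 76) (nat_lit 0) (XT.nd (nat_lit 78) (nat_lit 0) (nat_lit 0) (XT.lf (nat_lit 0) (nat_lit 77582148711) (nat_lit 76) (nat_lit 30583666850) (nat_lit 152) (nat_lit 102589137102)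 (nat_lit 11) (nat_lit 5) (nat_lit 12) (nat_lit 5) (nat_lit 13) (nat_lit 4) (nat_lit 363) (nat_lit 294) (nat_lit 123)) (XT.lf (nat_lit 0) (nat_lit 138244187174) (nat_lit 152) (nat_lit 80504946011) (nat_lit 0) (nat_lit 949513301) (nat_lit 11) (nat_lit 5) (nat_lit 13) (nat_lit 4) (nat_lit 11) (nat_lit 4) (nat_lit 364) (nat_lit 294) (nat_lit 122))) (XT.nd (nat_lit 78) (nat_lit 76) (nat_lit 0) (XT.lf (nat_lit 0) (nat_lit 170327140300) (nat_lit 152) (nat_lit 25706367935) (nat_lit 0) (nat_lit 33030983999) (nat_lit 11) (nat_lit 5) (nat_lit 13) (nat_lit 4) (nat_lit 11) (nat_lit 4) (nat_lit 365) (nat_lit 294) (nat_lit 121)) (XT.nd (nat_lit 78) (nat_lit 0) (nat_lit 0) (XT.lf (nat_lit 0) (nat_lit 32883373128) (nat_lit 76) (nat_lit 171643594652) (nat_lit 76) (nat_lit 34346026516) (nat_lit 10) (nat_lit 4) (nat_lit 11) (nat_lit 5) (nat_lit 11) (nat_lit 4) (nat_lit 366) (nat_lit 294) (nat_lit 120))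 (XT.lf (nat_lit 0) (nat_lit 95293849065) (nat_lit 76) (nat_lit 145577625543) (nat_lit 76) (nat_lit 8278712801) (nat_lit 10) (nat_lit 4) (nat_lit 11) (nat_lit 5) (nat_lit 11) (nat_lit 4) (nat_lit 367) (nat_lit 294) (nat_lit 119))))) (XT.nd (nat_lit 156) (nat_lit 76) (nat_lit 0) (XT.nd (nat_lit 78) (nat_lit 0) (nat_lit 0) (XT.lf (nat_lit 0) (nat_lit 18480263491) (nat_lit 152) (nat_lit 99415653160) (nat_lit 76) (nat_lit 142030451934) (nat_lit 9) (nat_lit 5) (nat_lit 11) (nat_lit 5) (nat_lit 10) (nat_lit 4) (nat_lit 368) (nat_lit 294) (nat_lit 118)) (XT.lf (nat_lit 0) (nat_lit 46298359140) (nat_lit 152) (nat_lit 42389776677) (nat_lit 76) (nat_lit 182546467991) (nat_lit 9) (nat_lit 5) (nat_lit 11) (nat_lit 5) (nat_lit 10) (nat_lit 4) (nat_lit 369) (nat_lit 294) (nat_lit 117))) (XT.nd (nat_lit 78) (nat_lit 0) (nat_lit 0) (XT.lf (nat_lit 0) (nat_lit 18064497647) (nat_lit 76) (nat_lit 57724318002)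 (nat_lit 152) (nat_lit 207305362624) (nat_lit 8) (nat_lit 5) (nat_lit 9) (nat_lit 5) (nat_lit 10) (nat_lit 4) (nat_lit 370) (nat_lit 294) (nat_lit 116)) (XT.nd (nat_lit 78) (nat_lit 0) (nat_lit 0) (XT.lf (nat_lit 0) (nat_lit 83012107595) (nat_lit 76) (nat_lit 24459008619) (nat_lit 152) (nat_lit 188039749456) (nat_lit 8) (nat_lit 5) (nat_lit 9) (nat_lit 5) (nat_lit 10) (nat_lit 4) (nat_lit 371) (nat_lit 294) (nat_lit 115)) (XT.lf (nat_lit 0) (nat_lit 140900440863) (nat_lit 152) (nat_lit 157505774022) (nat_lit 0) (nat_lit 10134027359) (nat_lit 8) (nat_lit 5) (nat_lit 10) (nat_lit 4) (nat_lit 8) (nat_lit 4) (nat_lit 372) (nat_lit 294) (nat_lit 114))))))))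
noncomputable def xc199 : XT := (XT.nd (nat_lit 35490) (nat_lit 0) (nat_lit 2736) (XT.nd (nat_lit 34710) (nat_lit 0) (nat_lit 5852) (XT.nd (nat_lit 390) (nat_lit 76) (nat_lit 0) (XT.nd (nat_lit 156) (nat_lit 76) (nat_lit 0) (XT.nd (nat_lit 78) (nat_lit 0) (nat_lit 0) (XT.lf (nat_lit 0) (nat_lit 176401675083) (nat_lit 152) (nat_lit 100165084648) (nat_lit 0) (nat_lit 45634305993) (nat_lit 8) (nat_lit 5) (nat_lit 10) (nat_lit 4) (nat_lit 8) (nat_lit 4) (nat_lit 373) (nat_lit 294) (nat_lit 113)) (XT.lf (nat_lit 0) (nat_lit 213677471953) (nat_lit 152) (nat_lit 39958290831) (nat_lit 0) (nat_lit 82909192781) (nat_lit 8) (nat_lit 5) (nat_lit 10) (nat_lit 4) (nat_lit 8) (nat_lit 4) (nat_lit 374) (nat_lit 294) (nat_lit 112))) (XT.nd (nat_lit 78) (nat_lit 0) (nat_lit 0) (XT.lf (nat_lit 0) (nat_lit 24026970027) (nat_lit 76) (nat_lit 229164741679) (nat_lit 76) (nat_lit 98395595763) (nat_lit 7) (nat_lit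 4) (nat_lit 8) (nat_lit 5) (nat_lit 8) (nat_lit 4) (nat_lit 375) (nat_lit 294) (nat_lit 111)) (XT.nd (nat_lit 78) (nat_lit 0) (nat_lit 0) (XT.lf (nat_lit 0) (nat_lit 92597884106) (nat_lit 76) (nat_lit 202760026063) (nat_lit 76) (nat_lit 71990054676) (nat_lit 7) (nat_lit 4) (nat_lit 8) (nat_lit 5) (nat_lit 8) (nat_lit 4) (nat_lit 376) (nat_lit 294) (nat_lit 110)) (XT.lf (nat_lit 0) (nat_lit 164596513933) (nat_lit 76) (nat_lit 175035460556) (nat_lit 76) (nat_lit 44264703006) (nat_lit 7) (nat_lit 4) (nat_lit 8) (nat_lit 5) (nat_lit 8) (nat_lit 4) (nat_lit 377) (nat_lit 294) (nat_lit 109))))) (XT.nd (nat_lit 156) (nat_lit 0) (nat_lit 0) (XT.nd (nat_lit 78) (nat_lit 76) (nat_lit 0) (XT.lf (nat_lit 0) (nat_lit 240194284817) (nat_lit 76) (nat_lit 145925034288) (nat_lit 76) (nat_lit 15153528011) (nat_lit 7) (nat_lit 4) (nat_lit 8) (nat_lit 5) (nat_lit 8) (nat_lit 4) (nat_lit 378) (nat_lit 294)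 (nat_lit 108)) (XT.lf (nat_lit 0) (nat_lit 14919477330) (nat_lit 152) (nat_lit 100187290821) (nat_lit 76) (nat_lit 304399045553) (nat_lit 6) (nat_lit 5) (nat_lit 8) (nat_lit 5) (nat_lit 7) (nat_lit 4) (nat_lit 379) (nat_lit 294) (nat_lit 107))) (XT.nd (nat_lit 34008) (nat_lit 0) (nat_lit 6384) (XT.lf (nat_lit 0) (nat_lit 45986484973) (nat_lit 152) (nat_lit 36500604271) (nat_lit 76) (nat_lit 356150938123) (nat_lit 6) (nat_lit 5) (nat_lit 8) (nat_lit 5) (nat_lit 7) (nat_lit 4) (nat_lit 380) (nat_lit 294) (nat_lit 106)) (XT.nd (nat_lit 78) (nat_lit 0) (nat_lit 0) (XT.lf (nat_lit 0) (nat_lit 4293437179) (nat_lit 0) (nat_lit 4293437179) (nat_lit 684) (nat_lit 2731144739) (nat_lit 90) (nat_lit 5) (nat_lit 90) (nat_lit 3) (nat_lit 99) (nat_lit 3) (nat_lit 295) (nat_lit 295) (nat_lit 190)) (XT.lf (nat_lit 0) (nat_lit 17749737834) (nat_lit 684) (nat_lit 3815242912) (nat_lit 760) (nat_lit 1629383297)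 (nat_lit 90) (nat_lit 5) (nat_lit 99) (nat_lit 3) (nat_lit 100) (nat_lit 5) (nat_lit 296) (nat_lit 295) (nat_lit 189)))))) (XT.nd (nat_lit 390) (nat_lit 532) (nat_lit 0) (XT.nd (nat_lit 156) (nat_lit 0) (nat_lit 76) (XT.nd (nat_lit 78) (nat_lit 0) (nat_lit 0) (XT.lf (nat_lit 76) (nat_lit 7009644665) (nat_lit 0) (nat_lit 11587445656) (nat_lit 760) (nat_lit 5171403213) (nat_lit 91) (nat_lit 5) (nat_lit 90) (nat_lit 5) (nat_lit 100) (nat_lit 5) (nat_lit 297) (nat_lit 295) (nat_lit 188)) (XT.lf (nat_lit 76) (nat_lit 18503989442) (nat_lit 0) (nat_lit 1040087033) (nat_lit 760) (nat_lit 4824404525) (nat_lit 91) (nat_lit 5) (nat_lit 90) (nat_lit 5) (nat_lit 100) (nat_lit 5) (nat_lit 298) (nat_lit 295) (nat_lit 187))) (XT.nd (nat_lit 78) (nat_lit 0) (nat_lit 0) (XT.lf (nat_lit 76) (nat_lit 5592456499) (nat_lit 0) (nat_lit 15182987257) (nat_lit 760) (nat_lit 4211186593) (nat_lit 92) (nat_lit 5)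 (nat_lit 91) (nat_lit 5) (nat_lit 101) (nat_lit 5) (nat_lit 299) (nat_lit 295) (nat_lit 186)) (XT.nd (nat_lit 78) (nat_lit 0) (nat_lit 76) (XT.lf (nat_lit 76) (nat_lit 17803859484) (nat_lit 0) (nat_lit 4373925185) (nat_lit 760) (nat_lit 3452445661) (nat_lit 92) (nat_lit 5) (nat_lit 91) (nat_lit 5) (nat_lit 101) (nat_lit 5) (nat_lit 300) (nat_lit 295) (nat_lit 185)) (XT.lf (nat_lit 76) (nat_lit 4345458575) (nat_lit 0) (nat_lit 19475201830) (nat_lit 760) (nat_lit 2476841803) (nat_lit 93) (nat_lit 5) (nat_lit 92) (nat_lit 5) (nat_lit 102) (nat_lit 5) (nat_lit 301) (nat_lit 295) (nat_lit 184))))) (XT.nd (nat_lit 156) (nat_lit 0) (nat_lit 0) (XT.nd (nat_lit 78) (nat_lit 684) (nat_lit 0) (XT.lf (nat_lit 76) (nat_lit 17319054995) (nat_lit 0) (nat_lit 8423611974) (nat_lit 760) (nat_lit 1245633540) (nat_lit 93) (nat_lit 5) (nat_lit 92) (nat_lit 5) (nat_lit 102) (nat_lit 5) (nat_lit 302) (nat_lit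 295) (nat_lit 183)) (XT.lf (nat_lit 0) (nat_lit 142227258) (nat_lit 760) (nat_lit 24432805624) (nat_lit 836) (nat_lit 3133750057) (nat_lit 83) (nat_lit 5) (nat_lit 93) (nat_lit 5) (nat_lit 94) (nat_lit 5) (nat_lit 303) (nat_lit 295) (nat_lit 182))) (XT.nd (nat_lit 78) (nat_lit 0) (nat_lit 0) (XT.lf (nat_lit 0) (nat_lit 1856464080) (nat_lit 760) (nat_lit 11418845453) (nat_lit 836) (nat_lit 15174027246) (nat_lit 83) (nat_lit 5) (nat_lit 93) (nat_lit 5) (nat_lit 94) (nat_lit 5) (nat_lit 304) (nat_lit 295) (nat_lit 181)) (XT.nd (nat_lit 78) (nat_lit 0) (nat_lit 76) (XT.lf (nat_lit 76) (nat_lit 2315442699) (nat_lit 0) (nat_lit 1371705933) (nat_lit 836) (nat_lit 25538242906) (nat_lit 84) (nat_lit 5) (nat_lit 83) (nat_lit 5) (nat_lit 94) (nat_lit 5) (nat_lit 305) (nat_lit 295) (nat_lit 180)) (XT.lf (nat_lit 0) (nat_lit 5974433351) (nat_lit 760) (nat_lit 13079283184) (nat_lit 76) (nat_lit 10968288744)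 (nat_lit 84) (nat_lit 5) (nat_lit 94) (nat_lit 5) (nat_lit 85) (nat_lit 5) (nat_lit 306) (nat_lit 295) (nat_lit 179))))))) (XT.nd (nat_lit 780) (nat_lit 1292) (nat_lit 0) (XT.nd (nat_lit 390) (nat_lit 684) (nat_lit 0) (XT.nd (nat_lit 156) (nat_lit 684) (nat_lit 0) (XT.nd (nat_lit 78) (nat_lit 0) (nat_lit 0) (XT.lf (nat_lit 0) (nat_lit 1462780176) (nat_lit 532) (nat_lit 6953662614) (nat_lit 608) (nat_lit 22439997982) (nat_lit 77) (nat_lit 5) (nat_lit 84) (nat_lit 5) (nat_lit 85) (nat_lit 5) (nat_lit 307) (nat_lit 295) (nat_lit 178)) (XT.lf (nat_lit 0) (nat_lit 11290692761) (nat_lit 608) (nat_lit 14633568976) (nat_lit 76) (nat_lit 5792837955) (nat_lit 77) (nat_lit 5) (nat_lit 85) (nat_lit 5) (nat_lit 78) (nat_lit 5) (nat_lit 308) (nat_lit 295) (nat_lit 177))) (XT.nd (nat_lit 78) (nat_lit 304) (nat_lit 0) (XT.lf (nat_lit 0) (nat_lit 770774321) (nat_lit 380) (nat_lit 13659346924) (nat_lit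 456) (nat_lit 18184605257) (nat_lit 72) (nat_lit 5) (nat_lit 77) (nat_lit 5) (nat_lit 78) (nat_lit 5) (nat_lit 309) (nat_lit 295) (nat_lit 176)) (XT.nd (nat_lit 78) (nat_lit 304) (nat_lit 0) (XT.lf (nat_lit 0) (nat_lit 17449022650) (nat_lit 380) (nat_lit 520911911) (nat_lit 456) (nat_lit 15575137271) (nat_lit 72) (nat_lit 5) (nat_lit 77) (nat_lit 5) (nat_lit 78) (nat_lit 5) (nat_lit 310) (nat_lit 295) (nat_lit 175)) (XT.lf (nat_lit 0) (nat_lit 235156540) (nat_lit 304) (nat_lit 21658302571) (nat_lit 380) (nat_lit 12618146767) (nat_lit 68) (nat_lit 5) (nat_lit 72) (nat_lit 5) (nat_lit 73) (nat_lit 5) (nat_lit 311) (nat_lit 295) (nat_lit 174))))) (XT.nd (nat_lit 156) (nat_lit 684) (nat_lit 0) (XT.nd (nat_lit 78) (nat_lit 0) (nat_lit 0) (XT.lf (nat_lit 0) (nat_lit 17928621965) (nat_lit 304) (nat_lit 8361464951) (nat_lit 380) (nat_lit 9222540481) (nat_lit 68) (nat_lit 5) (nat_lit 72) (nat_lit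 5) (nat_lit 73) (nat_lit 5) (nat_lit 312) (nat_lit 295) (nat_lit 173)) (XT.lf (nat_lit 0) (nat_lit 30990102375) (nat_lit 380) (nat_lit 148664079) (nat_lit 76) (nat_lit 5420762505) (nat_lit 68) (nat_lit 5) (nat_lit 73) (nat_lit 5) (nat_lit 69) (nat_lit 5) (nat_lit 313) (nat_lit 295) (nat_lit 172))) (XT.nd (nat_lit 78) (nat_lit 380) (nat_lit 0) (XT.lf (nat_lit 0) (nat_lit 18613018544) (nat_lit 304) (nat_lit 17736080564) (nat_lit 380) (nat_lit 1288483925) (nat_lit 64) (nat_lit 5) (nat_lit 68) (nat_lit 5) (nat_lit 69) (nat_lit 5) (nat_lit 314) (nat_lit 295) (nat_lit 171)) (XT.nd (nat_lit 78) (nat_lit 304) (nat_lit 0) (XT.lf (nat_lit 0) (nat_lit 3102791043) (nat_lit 380) (nat_lit 505717101) (nat_lit 76) (nat_lit 35158588731) (nat_lit 63) (nat_lit 5) (nat_lit 68) (nat_lit 5) (nat_lit 64) (nat_lit 5) (nat_lit 315) (nat_lit 295) (nat_lit 170)) (XT.lf (nat_lit 0) (nat_lit 8152521322) (nat_lit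 380) (nat_lit 20578172975) (nat_lit 76) (nat_lit 11197231901) (nat_lit 59) (nat_lit 5) (nat_lit 64) (nat_lit 5) (nat_lit 60) (nat_lit 5) (nat_lit 316) (nat_lit 295) (nat_lit 169)))))) (XT.nd (nat_lit 390) (nat_lit 760) (nat_lit 0) (XT.nd (nat_lit 156) (nat_lit 228) (nat_lit 0) (XT.nd (nat_lit 78) (nat_lit 304) (nat_lit 0) (XT.lf (nat_lit 0) (nat_lit 13519223570) (nat_lit 380) (nat_lit 994161039) (nat_lit 76) (nat_lit 26630193421) (nat_lit 59) (nat_lit 5) (nat_lit 64) (nat_lit 5) (nat_lit 60) (nat_lit 5) (nat_lit 317) (nat_lit 295) (nat_lit 168)) (XT.lf (nat_lit 0) (nat_lit 19478253170) (nat_lit 380) (nat_lit 22203931496) (nat_lit 76) (nat_lit 721633237) (nat_lit 55) (nat_lit 5) (nat_lit 60) (nat_lit 5) (nat_lit 56) (nat_lit 5) (nat_lit 318) (nat_lit 295) (nat_lit 167))) (XT.nd (nat_lit 78) (nat_lit 228) (nat_lit 0) (XT.lf (nat_lit 0) (nat_lit 25987139836) (nat_lit 380) (nat_lit 1480222693)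 (nat_lit 76) (nat_lit 16247116779) (nat_lit 55) (nat_lit 5) (nat_lit 60) (nat_lit 5) (nat_lit 56) (nat_lit 5) (nat_lit 319) (nat_lit 295) (nat_lit 166)) (XT.nd (nat_lit 78) (nat_lit 0) (nat_lit 0) (XT.lf (nat_lit 0) (nat_lit 20946327056) (nat_lit 228) (nat_lit 12199192400) (nat_lit 304) (nat_lit 11928956488) (nat_lit 52) (nat_lit 5) (nat_lit 55) (nat_lit 5) (nat_lit 56) (nat_lit 5) (nat_lit 320) (nat_lit 295) (nat_lit 165)) (XT.lf (nat_lit 0) (nat_lit 40744221155) (nat_lit 304) (nat_lit 2019703914) (nat_lit 76) (nat_lit 3734431560) (nat_lit 52) (nat_lit 5) (nat_lit 56) (nat_lit 5) (nat_lit 53) (nat_lit 5) (nat_lit 321) (nat_lit 295) (nat_lit 164))))) (XT.nd (nat_lit 234) (nat_lit 228) (nat_lit 0) (XT.nd (nat_lit 78) (nat_lit 228) (nat_lit 0) (XT.lf (nat_lit 0) (nat_lit 1250631271) (nat_lit 304) (nat_lit 26302251675) (nat_lit 76) (nat_lit 20412755403) (nat_lit 48) (nat_lit 5) (nat_lit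 52) (nat_lit 5) (nat_lit 49) (nat_lit 5) (nat_lit 322) (nat_lit 295) (nat_lit 163)) (XT.nd (nat_lit 78) (nat_lit 228) (nat_lit 0) (XT.lf (nat_lit 0) (nat_lit 8444281092) (nat_lit 304) (nat_lit 3002400387) (nat_lit 76) (nat_lit 38053288877) (nat_lit 48) (nat_lit 5) (nat_lit 52) (nat_lit 5) (nat_lit 49) (nat_lit 5) (nat_lit 323) (nat_lit 295) (nat_lit 162)) (XT.lf (nat_lit 0) (nat_lit 16432093156) (nat_lit 304) (nat_lit 29016367646) (nat_lit 76) (nat_lit 5640837770) (nat_lit 45) (nat_lit 5) (nat_lit 49) (nat_lit 5) (nat_lit 46) (nat_lit 5) (nat_lit 324) (nat_lit 295) (nat_lit 161)))) (XT.nd (nat_lit 78) (nat_lit 228) (nat_lit 0) (XT.lf (nat_lit 0) (nat_lit 25056069960) (nat_lit 304) (nat_lit 4441340666) (nat_lit 76) (nat_lit 23248847291) (nat_lit 45) (nat_lit 5) (nat_lit 49) (nat_lit 5) (nat_lit 46) (nat_lit 5) (nat_lit 325) (nat_lit 295) (nat_lit 160)) (XT.nd (nat_lit 78) (nat_lit 0)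 (nat_lit 0) (XT.lf (nat_lit 0) (nat_lit 22065262808) (nat_lit 228) (nat_lit 12388048106) (nat_lit 304) (nat_lit 20015654313) (nat_lit 42) (nat_lit 5) (nat_lit 45) (nat_lit 5) (nat_lit 46) (nat_lit 5) (nat_lit 326) (nat_lit 295) (nat_lit 159)) (XT.lf (nat_lit 0) (nat_lit 44481545655) (nat_lit 304) (nat_lit 6314412246) (nat_lit 76) (nat_lit 5473796522) (nat_lit 42) (nat_lit 5) (nat_lit 46) (nat_lit 5) (nat_lit 43) (nat_lit 5) (nat_lit 327) (nat_lit 295) (nat_lit 158))))))))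
noncomputable def xc200 : XT := (XT.nd (nat_lit 1560) (nat_lit 836) (nat_lit 0) (XT.nd (nat_lit 780) (nat_lit 608) (nat_lit 0) (XT.nd (nat_lit 390) (nat_lit 380) (nat_lit 0) (XT.nd (nat_lit 156) (nat_lit 380) (nat_lit 0) (XT.nd (nat_lit 78) (nat_lit 76) (nat_lit 0) (XT.lf (nat_lit 0) (nat_lit 21563126118) (nat_lit 152) (nat_lit 33985536480) (nat_lit 228) (nat_lit 2585049915) (nat_lit 40) (nat_lit 5) (nat_lit 42) (nat_lit 5) (nat_lit 43) (nat_lit 5) (nat_lit 328) (nat_lit 295) (nat_lit 157)) (XT.lf (nat_lit 0) (nat_lit 6958154407) (nat_lit 228) (nat_lit 9147335201) (nat_lit 76) (nat_lit 43974534191) (nat_lit 39) (nat_lit 5) (nat_lit 42) (nat_lit 5) (nat_lit 40) (nat_lit 5) (nat_lit 329) (nat_lit 295) (nat_lit 156))) (XT.nd (nat_lit 78) (nat_lit 152) (nat_lit 0) (XT.lf (nat_lit 0) (nat_lit 17253176741) (nat_lit 304) (nat_lit 41903697899) (nat_lit 76) (nat_lit 2946583052) (nat_lit 36) (nat_lit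 5) (nat_lit 40) (nat_lit 5) (nat_lit 37) (nat_lit 5) (nat_lit 330) (nat_lit 295) (nat_lit 155)) (XT.nd (nat_lit 78) (nat_lit 152) (nat_lit 0) (XT.lf (nat_lit 0) (nat_lit 28482319669) (nat_lit 304) (nat_lit 13158292348) (nat_lit 76) (nat_lit 22566485222) (nat_lit 36) (nat_lit 5) (nat_lit 40) (nat_lit 5) (nat_lit 37) (nat_lit 5) (nat_lit 331) (nat_lit 295) (nat_lit 154)) (XT.lf (nat_lit 0) (nat_lit 17584142863) (nat_lit 152) (nat_lit 22961305990) (nat_lit 228) (nat_lit 25856845773) (nat_lit 34) (nat_lit 5) (nat_lit 36) (nat_lit 5) (nat_lit 37) (nat_lit 5) (nat_lit 332) (nat_lit 295) (nat_lit 153))))) (XT.nd (nat_lit 156) (nat_lit 228) (nat_lit 0) (XT.nd (nat_lit 78) (nat_lit 152) (nat_lit 0) (XT.lf (nat_lit 0) (nat_lit 50317532110) (nat_lit 152) (nat_lit 3115084701) (nat_lit 228) (nat_lit 15263593164) (nat_lit 34) (nat_lit 5) (nat_lit 36) (nat_lit 5) (nat_lit 37) (nat_lit 5) (nat_lit 333)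 (nat_lit 295) (nat_lit 152)) (XT.lf (nat_lit 0) (nat_lit 13742987049) (nat_lit 152) (nat_lit 53710553556) (nat_lit 228) (nat_lit 3626812718) (nat_lit 32) (nat_lit 5) (nat_lit 34) (nat_lit 5) (nat_lit 35) (nat_lit 5) (nat_lit 334) (nat_lit 295) (nat_lit 151))) (XT.nd (nat_lit 78) (nat_lit 152) (nat_lit 0) (XT.lf (nat_lit 0) (nat_lit 8682367263) (nat_lit 228) (nat_lit 25652599310) (nat_lit 76) (nat_lit 39223754464) (nat_lit 31) (nat_lit 5) (nat_lit 34) (nat_lit 5) (nat_lit 32) (nat_lit 5) (nat_lit 335) (nat_lit 295) (nat_lit 150)) (XT.nd (nat_lit 78) (nat_lit 0) (nat_lit 0) (XT.lf (nat_lit 0) (nat_lit 7803916664) (nat_lit 152) (nat_lit 13801265644) (nat_lit 228) (nat_lit 54546850811) (nat_lit 29) (nat_lit 5) (nat_lit 31) (nat_lit 5) (nat_lit 32) (nat_lit 5) (nat_lit 336) (nat_lit 295) (nat_lit 149)) (XT.lf (nat_lit 0) (nat_lit 35735086267) (nat_lit 228) (nat_lit 35160528512) (nat_lit 76)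 (nat_lit 7951350347) (nat_lit 29) (nat_lit 5) (nat_lit 32) (nat_lit 5) (nat_lit 30) (nat_lit 5) (nat_lit 337) (nat_lit 295) (nat_lit 148)))))) (XT.nd (nat_lit 390) (nat_lit 304) (nat_lit 0) (XT.nd (nat_lit 156) (nat_lit 152) (nat_lit 0) (XT.nd (nat_lit 78) (nat_lit 152) (nat_lit 0) (XT.lf (nat_lit 0) (nat_lit 50796064644) (nat_lit 228) (nat_lit 542511294) (nat_lit 76) (nat_lit 30326840482) (nat_lit 29) (nat_lit 5) (nat_lit 32) (nat_lit 5) (nat_lit 30) (nat_lit 5) (nat_lit 338) (nat_lit 295) (nat_lit 147)) (XT.lf (nat_lit 0) (nat_lit 36987671979) (nat_lit 152) (nat_lit 30198309716) (nat_lit 228) (nat_lit 17410015666) (nat_lit 27) (nat_lit 5) (nat_lit 29) (nat_lit 5) (nat_lit 30) (nat_lit 5) (nat_lit 339) (nat_lit 295) (nat_lit 146))) (XT.nd (nat_lit 78) (nat_lit 152) (nat_lit 0) (XT.lf (nat_lit 0) (nat_lit 76410669355) (nat_lit 152) (nat_lit 7992357759) (nat_lit 228) (nat_lit 3269700104)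 (nat_lit 27) (nat_lit 5) (nat_lit 29) (nat_lit 5) (nat_lit 30) (nat_lit 5) (nat_lit 340) (nat_lit 295) (nat_lit 145)) (XT.nd (nat_lit 78) (nat_lit 0) (nat_lit 0) (XT.lf (nat_lit 0) (nat_lit 11885770197) (nat_lit 152) (nat_lit 63520316154) (nat_lit 76) (nat_lit 15454235834) (nat_lit 25) (nat_lit 5) (nat_lit 27) (nat_lit 5) (nat_lit 26) (nat_lit 5) (nat_lit 341) (nat_lit 295) (nat_lit 144)) (XT.lf (nat_lit 0) (nat_lit 28012520376) (nat_lit 152) (nat_lit 26124825718) (nat_lit 76) (nat_lit 40051102530) (nat_lit 25) (nat_lit 5) (nat_lit 27) (nat_lit 5) (nat_lit 26) (nat_lit 5) (nat_lit 342) (nat_lit 295) (nat_lit 143))))) (XT.nd (nat_lit 156) (nat_lit 152) (nat_lit 0) (XT.nd (nat_lit 78) (nat_lit 0) (nat_lit 0) (XT.lf (nat_lit 0) (nat_lit 13572480538) (nat_lit 152) (nat_lit 31583615198) (nat_lit 228) (nat_lit 52516362494) (nat_lit 23) (nat_lit 5) (nat_lit 25) (nat_lit 5) (nat_lit 26) (nat_lit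 5) (nat_lit 343) (nat_lit 295) (nat_lit 142)) (XT.lf (nat_lit 0) (nat_lit 56159322336) (nat_lit 152) (nat_lit 7438578479) (nat_lit 228) (nat_lit 37710716126) (nat_lit 23) (nat_lit 5) (nat_lit 25) (nat_lit 5) (nat_lit 26) (nat_lit 5) (nat_lit 344) (nat_lit 295) (nat_lit 141))) (XT.nd (nat_lit 78) (nat_lit 152) (nat_lit 0) (XT.lf (nat_lit 0) (nat_lit 83240145767) (nat_lit 228) (nat_lit 4533027742) (nat_lit 76) (nat_lit 17339493712) (nat_lit 23) (nat_lit 5) (nat_lit 26) (nat_lit 5) (nat_lit 24) (nat_lit 4) (nat_lit 345) (nat_lit 295) (nat_lit 140)) (XT.nd (nat_lit 78) (nat_lit 76) (nat_lit 0) (XT.lf (nat_lit 0) (nat_lit 39246068647) (nat_lit 76) (nat_lit 65351849255) (nat_lit 152) (nat_lit 4472332429) (nat_lit 22) (nat_lit 5) (nat_lit 23) (nat_lit 5) (nat_lit 24) (nat_lit 4) (nat_lit 346) (nat_lit 295) (nat_lit 139)) (XT.lf (nat_lit 0) (nat_lit 13433011557) (nat_lit 152) (nat_lit 28069226805)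 (nat_lit 76) (nat_lit 71708865860) (nat_lit 21) (nat_lit 5) (nat_lit 23) (nat_lit 5) (nat_lit 22) (nat_lit 5) (nat_lit 347) (nat_lit 295) (nat_lit 138))))))) (XT.nd (nat_lit 780) (nat_lit 304) (nat_lit 0) (XT.nd (nat_lit 390) (nat_lit 304) (nat_lit 0) (XT.nd (nat_lit 156) (nat_lit 76) (nat_lit 0) (XT.nd (nat_lit 78) (nat_lit 0) (nat_lit 0) (XT.lf (nat_lit 0) (nat_lit 16217144867) (nat_lit 152) (nat_lit 16118169324) (nat_lit 228) (nat_lit 85207422130) (nat_lit 19) (nat_lit 5) (nat_lit 21) (nat_lit 5) (nat_lit 22) (nat_lit 5) (nat_lit 348) (nat_lit 295) (nat_lit 137)) (XT.lf (nat_lit 0) (nat_lit 52829181649) (nat_lit 228) (nat_lit 58549198934) (nat_lit 76) (nat_lit 10680247833) (nat_lit 19) (nat_lit 5) (nat_lit 22) (nat_lit 5) (nat_lit 20) (nat_lit 4) (nat_lit 349) (nat_lit 295) (nat_lit 136))) (XT.nd (nat_lit 78) (nat_lit 76) (nat_lit 0) (XT.lf (nat_lit 0) (nat_lit 74610839889) (nat_lit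 228) (nat_lit 13900197291) (nat_lit 76) (nat_lit 38276123895) (nat_lit 19) (nat_lit 5) (nat_lit 22) (nat_lit 5) (nat_lit 20) (nat_lit 4) (nat_lit 350) (nat_lit 295) (nat_lit 135)) (XT.nd (nat_lit 78) (nat_lit 0) (nat_lit 0) (XT.lf (nat_lit 0) (nat_lit 34069817337) (nat_lit 76) (nat_lit 63942608202) (nat_lit 152) (nat_lit 33713153397) (nat_lit 18) (nat_lit 5) (nat_lit 19) (nat_lit 5) (nat_lit 20) (nat_lit 4) (nat_lit 351) (nat_lit 295) (nat_lit 134)) (XT.lf (nat_lit 0) (nat_lit 84919062528) (nat_lit 76) (nat_lit 37899376206) (nat_lit 152) (nat_lit 14080762297) (nat_lit 18) (nat_lit 5) (nat_lit 19) (nat_lit 5) (nat_lit 20) (nat_lit 4) (nat_lit 352) (nat_lit 295) (nat_lit 133))))) (XT.nd (nat_lit 156) (nat_lit 76) (nat_lit 0) (XT.nd (nat_lit 78) (nat_lit 152) (nat_lit 0) (XT.lf (nat_lit 0) (nat_lit 6323118481) (nat_lit 152) (nat_lit 4124536514) (nat_lit 76) (nat_lit 131878801062) (nat_lit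 17) (nat_lit 5) (nat_lit 19) (nat_lit 5) (nat_lit 18) (nat_lit 5) (nat_lit 353) (nat_lit 295) (nat_lit 132)) (XT.lf (nat_lit 0) (nat_lit 28316011077) (nat_lit 228) (nat_lit 100870717598) (nat_lit 76) (nat_lit 18774703017) (nat_lit 15) (nat_lit 5) (nat_lit 18) (nat_lit 5) (nat_lit 16) (nat_lit 4) (nat_lit 354) (nat_lit 295) (nat_lit 131))) (XT.nd (nat_lit 78) (nat_lit 76) (nat_lit 0) (XT.lf (nat_lit 0) (nat_lit 51649849898) (nat_lit 228) (nat_lit 53038883468) (nat_lit 76) (nat_lit 49177358283) (nat_lit 15) (nat_lit 5) (nat_lit 18) (nat_lit 5) (nat_lit 16) (nat_lit 4) (nat_lit 355) (nat_lit 295) (nat_lit 130)) (XT.nd (nat_lit 78) (nat_lit 76) (nat_lit 0) (XT.lf (nat_lit 0) (nat_lit 76149459177) (nat_lit 228) (nat_lit 2817099163) (nat_lit 76) (nat_lit 81099472929) (nat_lit 15) (nat_lit 5) (nat_lit 18) (nat_lit 5) (nat_lit 16) (nat_lit 4) (nat_lit 356) (nat_lit 295) (nat_lit 129)) (XT.lf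 (nat_lit 0) (nat_lit 51564600227) (nat_lit 76) (nat_lit 51113639009) (nat_lit 152) (nat_lit 63857519681) (nat_lit 14) (nat_lit 5) (nat_lit 15) (nat_lit 5) (nat_lit 16) (nat_lit 4) (nat_lit 357) (nat_lit 295) (nat_lit 128)))))) (XT.nd (nat_lit 390) (nat_lit 152) (nat_lit 0) (XT.nd (nat_lit 156) (nat_lit 152) (nat_lit 0) (XT.nd (nat_lit 78) (nat_lit 0) (nat_lit 0) (XT.lf (nat_lit 0) (nat_lit 108761649762) (nat_lit 76) (nat_lit 21818657648) (nat_lit 152) (nat_lit 42746323621) (nat_lit 14) (nat_lit 5) (nat_lit 15) (nat_lit 5) (nat_lit 16) (nat_lit 4) (nat_lit 358) (nat_lit 295) (nat_lit 127)) (XT.lf (nat_lit 0) (nat_lit 160016245226) (nat_lit 152) (nat_lit 11779586451) (nat_lit 0) (nat_lit 8654277270) (nat_lit 14) (nat_lit 5) (nat_lit 16) (nat_lit 4) (nat_lit 14) (nat_lit 4) (nat_lit 359) (nat_lit 295) (nat_lit 126))) (XT.nd (nat_lit 78) (nat_lit 0) (nat_lit 0) (XT.lf (nat_lit 0) (nat_lit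 3970735186) (nat_lit 152) (nat_lit 143223852818) (nat_lit 76) (nat_lit 40679218326) (nat_lit 12) (nat_lit 5) (nat_lit 14) (nat_lit 5) (nat_lit 13) (nat_lit 4) (nat_lit 360) (nat_lit 295) (nat_lit 125)) (XT.nd (nat_lit 78) (nat_lit 0) (nat_lit 0) (XT.lf (nat_lit 0) (nat_lit 29110828677) (nat_lit 152) (nat_lit 91688463062) (nat_lit 76) (nat_lit 74842549393) (nat_lit 12) (nat_lit 5) (nat_lit 14) (nat_lit 5) (nat_lit 13) (nat_lit 4) (nat_lit 361) (nat_lit 295) (nat_lit 124)) (XT.lf (nat_lit 0) (nat_lit 55507177392) (nat_lit 152) (nat_lit 37577664291) (nat_lit 76) (nat_lit 110713473883) (nat_lit 12) (nat_lit 5) (nat_lit 14) (nat_lit 5) (nat_lit 13) (nat_lit 4) (nat_lit 362) (nat_lit 295) (nat_lit 123))))) (XT.nd (nat_lit 156) (nat_lit 76) (nat_lit 0) (XT.nd (nat_lit 78) (nat_lit 0) (nat_lit 0) (XT.lf (nat_lit 0) (nat_lit 19873453348) (nat_lit 76) (nat_lit 63659456734) (nat_lit 152) (nat_lit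 128814225714) (nat_lit 11) (nat_lit 5) (nat_lit 12) (nat_lit 5) (nat_lit 13) (nat_lit 4) (nat_lit 363) (nat_lit 295) (nat_lit 122)) (XT.lf (nat_lit 0) (nat_lit 81500463730) (nat_lit 76) (nat_lit 32095161928) (nat_lit 152) (nat_lit 107695986947) (nat_lit 11) (nat_lit 5) (nat_lit 12) (nat_lit 5) (nat_lit 13) (nat_lit 4) (nat_lit 364) (nat_lit 295) (nat_lit 121))) (XT.nd (nat_lit 78) (nat_lit 76) (nat_lit 0) (XT.lf (nat_lit 0) (nat_lit 145177154135) (nat_lit 152) (nat_lit 84492079871) (nat_lit 0) (nat_lit 1013295756) (nat_lit 11) (nat_lit 5) (nat_lit 13) (nat_lit 4) (nat_lit 11) (nat_lit 4) (nat_lit 365) (nat_lit 295) (nat_lit 120)) (XT.nd (nat_lit 78) (nat_lit 76) (nat_lit 0) (XT.lf (nat_lit 0) (nat_lit 178863266460) (nat_lit 152) (nat_lit 26955387818) (nat_lit 0) (nat_lit 34698063475) (nat_lit 11) (nat_lit 5) (nat_lit 13) (nat_lit 4) (nat_lit 11) (nat_lit 4) (nat_lit 366) (nat_lit 295)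 (nat_lit 119)) (XT.lf (nat_lit 0) (nat_lit 34563254839) (nat_lit 76) (nat_lit 180209446669) (nat_lit 76) (nat_lit 36042963108) (nat_lit 10) (nat_lit 4) (nat_lit 11) (nat_lit 5) (nat_lit 11) (nat_lit 4) (nat_lit 367) (nat_lit 295) (nat_lit 118))))))))
noncomputable def xc201 : XT := (XT.nd (nat_lit 35568) (nat_lit 0) (nat_lit 3496) (XT.nd (nat_lit 780) (nat_lit 76) (nat_lit 0) (XT.nd (nat_lit 390) (nat_lit 76) (nat_lit 0) (XT.nd (nat_lit 156) (nat_lit 76) (nat_lit 0) (XT.nd (nat_lit 78) (nat_lit 76) (nat_lit 0) (XT.lf (nat_lit 0) (nat_lit 100092553951) (nat_lit 76) (nat_lit 152840956614) (nat_lit 76) (nat_lit 8673253457) (nat_lit 10) (nat_lit 4) (nat_lit 11) (nat_lit 5) (nat_lit 11) (nat_lit 4) (nat_lit 368) (nat_lit 295) (nat_lit 117)) (XT.lf (nat_lit 0) (nat_lit 19422156879) (nat_lit 152) (nat_lit 104353443075) (nat_lit 76) (nat_lit 149146184300) (nat_lit 9) (nat_lit 5) (nat_lit 11)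 (nat_lit 5) (nat_lit 10) (nat_lit 4) (nat_lit 369) (nat_lit 295) (nat_lit 116))) (XT.nd (nat_lit 78) (nat_lit 76) (nat_lit 0) (XT.lf (nat_lit 0) (nat_lit 48630305871) (nat_lit 152) (nat_lit 44477843851) (nat_lit 76) (nat_lit 191687324505) (nat_lit 9) (nat_lit 5) (nat_lit 11) (nat_lit 5) (nat_lit 10) (nat_lit 4) (nat_lit 370) (nat_lit 295) (nat_lit 115)) (XT.nd (nat_lit 78) (nat_lit 0) (nat_lit 0) (XT.lf (nat_lit 0) (nat_lit 18998637388) (nat_lit 76) (nat_lit 60596319591) (nat_lit 152) (nat_lit 217653087244) (nat_lit 8) (nat_lit 5) (nat_lit 9) (nat_lit 5) (nat_lit 10) (nat_lit 4) (nat_lit 371) (nat_lit 295) (nat_lit 114)) (XT.lf (nat_lit 0) (nat_lit 87192155698) (nat_lit 76) (nat_lit 25668421611) (nat_lit 152) (nat_lit 197425028823) (nat_lit 8) (nat_lit 5) (nat_lit 9) (nat_lit 5) (nat_lit 10) (nat_lit 4) (nat_lit 372) (nat_lit 295) (nat_lit 113))))) (XT.nd (nat_lit 156) (nat_lit 76) (nat_lit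 0) (XT.nd (nat_lit 78) (nat_lit 0) (nat_lit 0) (XT.lf (nat_lit 0) (nat_lit 147960812088) (nat_lit 152) (nat_lit 165352458735) (nat_lit 0) (nat_lit 10653208876) (nat_lit 8) (nat_lit 5) (nat_lit 10) (nat_lit 4) (nat_lit 8) (nat_lit 4) (nat_lit 373) (nat_lit 295) (nat_lit 112)) (XT.lf (nat_lit 0) (nat_lit 185236377106) (nat_lit 152) (nat_lit 105146096986) (nat_lit 0) (nat_lit 47927907149) (nat_lit 8) (nat_lit 5) (nat_lit 10) (nat_lit 4) (nat_lit 8) (nat_lit 4) (nat_lit 374) (nat_lit 295) (nat_lit 111))) (XT.nd (nat_lit 78) (nat_lit 76) (nat_lit 0) (XT.lf (nat_lit 0) (nat_lit 224375267711) (nat_lit 152) (nat_lit 41930260712) (nat_lit 0) (nat_lit 87065972283) (nat_lit 8) (nat_lit 5) (nat_lit 10) (nat_lit 4) (nat_lit 8) (nat_lit 4) (nat_lit 375) (nat_lit 295) (nat_lit 110)) (XT.nd (nat_lit 78) (nat_lit 0) (nat_lit 0) (XT.lf (nat_lit 0) (nat_lit 25253844727) (nat_lit 76) (nat_lit 240611110300)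 (nat_lit 76) (nat_lit 103301028710) (nat_lit 7) (nat_lit 4) (nat_lit 8) (nat_lit 5) (nat_lit 8) (nat_lit 4) (nat_lit 376) (nat_lit 295) (nat_lit 109)) (XT.lf (nat_lit 0) (nat_lit 97252088977) (nat_lit 76) (nat_lit 212886724069) (nat_lit 76) (nat_lit 75575893752) (nat_lit 7) (nat_lit 4) (nat_lit 8) (nat_lit 5) (nat_lit 8) (nat_lit 4) (nat_lit 377) (nat_lit 295) (nat_lit 108)))))) (XT.nd (nat_lit 34398) (nat_lit 0) (nat_lit 6384) (XT.nd (nat_lit 156) (nat_lit 76) (nat_lit 0) (XT.nd (nat_lit 78) (nat_lit 0) (nat_lit 0) (XT.lf (nat_lit 0) (nat_lit 172849492644) (nat_lit 76) (nat_lit 183776468539) (nat_lit 76) (nat_lit 46464925149) (nat_lit 7) (nat_lit 4) (nat_lit 8) (nat_lit 5) (nat_lit 8) (nat_lit 4) (nat_lit 378) (nat_lit 295) (nat_lit 107)) (XT.lf (nat_lit 0) (nat_lit 252226049548) (nat_lit 76) (nat_lit 153211033578) (nat_lit 76) (nat_lit 15898811071) (nat_lit 7) (nat_lit 4) (nat_lit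 8) (nat_lit 5) (nat_lit 8) (nat_lit 4) (nat_lit 379) (nat_lit 295) (nat_lit 106))) (XT.nd (nat_lit 34086) (nat_lit 0) (nat_lit 6384) (XT.lf (nat_lit 0) (nat_lit 15676876603) (nat_lit 152) (nat_lit 105175272248) (nat_lit 76) (nat_lit 319628379397) (nat_lit 6) (nat_lit 5) (nat_lit 8) (nat_lit 5) (nat_lit 7) (nat_lit 4) (nat_lit 380) (nat_lit 295) (nat_lit 105)) (XT.nd (nat_lit 78) (nat_lit 0) (nat_lit 0) (XT.lf (nat_lit 0) (nat_lit 4567351932) (nat_lit 0) (nat_lit 4567351932) (nat_lit 684) (nat_lit 2743052853) (nat_lit 90) (nat_lit 5) (nat_lit 90) (nat_lit 3) (nat_lit 99) (nat_lit 3) (nat_lit 296) (nat_lit 296) (nat_lit 188)) (XT.lf (nat_lit 0) (nat_lit 18861150139) (nat_lit 684) (nat_lit 3879659959) (nat_lit 760) (nat_lit 1601620553) (nat_lit 90) (nat_lit 5) (nat_lit 99) (nat_lit 3) (nat_lit 100) (nat_lit 5) (nat_lit 297) (nat_lit 296) (nat_lit 187))))) (XT.nd (nat_lit 156) (nat_lit 0)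 (nat_lit 76) (XT.nd (nat_lit 78) (nat_lit 0) (nat_lit 0) (XT.lf (nat_lit 76) (nat_lit 7484434172) (nat_lit 0) (nat_lit 12257713748) (nat_lit 760) (nat_lit 5203576495) (nat_lit 91) (nat_lit 5) (nat_lit 90) (nat_lit 5) (nat_lit 100) (nat_lit 5) (nat_lit 298) (nat_lit 296) (nat_lit 186)) (XT.lf (nat_lit 76) (nat_lit 19547576794) (nat_lit 0) (nat_lit 1178658821) (nat_lit 760) (nat_lit 4850008677) (nat_lit 91) (nat_lit 5) (nat_lit 90) (nat_lit 5) (nat_lit 100) (nat_lit 5) (nat_lit 299) (nat_lit 296) (nat_lit 185))) (XT.nd (nat_lit 78) (nat_lit 0) (nat_lit 0) (XT.lf (nat_lit 76) (nat_lit 6000376293) (nat_lit 0) (nat_lit 16009751066) (nat_lit 760) (nat_lit 4215645611) (nat_lit 92) (nat_lit 5) (nat_lit 91) (nat_lit 5) (nat_lit 101) (nat_lit 5) (nat_lit 300) (nat_lit 296) (nat_lit 184)) (XT.nd (nat_lit 78) (nat_lit 0) (nat_lit 76) (XT.lf (nat_lit 76) (nat_lit 18816240047) (nat_lit 0) (nat_lit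 4657016155) (nat_lit 760) (nat_lit 3428781933) (nat_lit 92) (nat_lit 5) (nat_lit 91) (nat_lit 5) (nat_lit 101) (nat_lit 5) (nat_lit 301) (nat_lit 296) (nat_lit 183)) (XT.lf (nat_lit 76) (nat_lit 4693484691) (nat_lit 0) (nat_lit 20496990081) (nat_lit 760) (nat_lit 2412606722) (nat_lit 93) (nat_lit 5) (nat_lit 92) (nat_lit 5) (nat_lit 102) (nat_lit 5) (nat_lit 302) (nat_lit 296) (nat_lit 182))))))) (XT.nd (nat_lit 780) (nat_lit 1216) (nat_lit 0) (XT.nd (nat_lit 390) (nat_lit 1140) (nat_lit 0) (XT.nd (nat_lit 156) (nat_lit 0) (nat_lit 0) (XT.nd (nat_lit 78) (nat_lit 684) (nat_lit 0) (XT.lf (nat_lit 76) (nat_lit 18309534589) (nat_lit 0) (nat_lit 8890533677) (nat_lit 760) (nat_lit 1128794103) (nat_lit 93) (nat_lit 5) (nat_lit 92) (nat_lit 5) (nat_lit 102) (nat_lit 5) (nat_lit 303) (nat_lit 296) (nat_lit 181)) (XT.lf (nat_lit 0) (nat_lit 315872460) (nat_lit 760) (nat_lit 25516700015) (nat_lit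 836) (nat_lit 3253014739) (nat_lit 83) (nat_lit 5) (nat_lit 93) (nat_lit 5) (nat_lit 94) (nat_lit 5) (nat_lit 304) (nat_lit 296) (nat_lit 180))) (XT.nd (nat_lit 78) (nat_lit 0) (nat_lit 0) (XT.lf (nat_lit 0) (nat_lit 2107890941) (nat_lit 760) (nat_lit 11858601164) (nat_lit 836) (nat_lit 15897087826) (nat_lit 83) (nat_lit 5) (nat_lit 93) (nat_lit 5) (nat_lit 94) (nat_lit 5) (nat_lit 305) (nat_lit 296) (nat_lit 179)) (XT.nd (nat_lit 78) (nat_lit 0) (nat_lit 76) (XT.lf (nat_lit 76) (nat_lit 2560285484) (nat_lit 0) (nat_lit 1464286835) (nat_lit 836) (nat_lit 26654155953) (nat_lit 84) (nat_lit 5) (nat_lit 83) (nat_lit 5) (nat_lit 94) (nat_lit 5) (nat_lit 306) (nat_lit 296) (nat_lit 178)) (XT.lf (nat_lit 0) (nat_lit 6418575607) (nat_lit 760) (nat_lit 13602411028) (nat_lit 76) (nat_lit 11494581661) (nat_lit 84) (nat_lit 5) (nat_lit 94) (nat_lit 5) (nat_lit 85) (nat_lit 5) (nat_lit 307) (nat_lit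 296) (nat_lit 177))))) (XT.nd (nat_lit 156) (nat_lit 684) (nat_lit 0) (XT.nd (nat_lit 78) (nat_lit 0) (nat_lit 0) (XT.lf (nat_lit 0) (nat_lit 1664645236) (nat_lit 532) (nat_lit 7313125266) (nat_lit 608) (nat_lit 23414213489) (nat_lit 77) (nat_lit 5) (nat_lit 84) (nat_lit 5) (nat_lit 85) (nat_lit 5) (nat_lit 308) (nat_lit 296) (nat_lit 176)) (XT.lf (nat_lit 0) (nat_lit 11988867077) (nat_lit 608) (nat_lit 15235543823) (nat_lit 76) (nat_lit 6071620326) (nat_lit 77) (nat_lit 5) (nat_lit 85) (nat_lit 5) (nat_lit 78) (nat_lit 5) (nat_lit 309) (nat_lit 296) (nat_lit 175))) (XT.nd (nat_lit 78) (nat_lit 304) (nat_lit 0) (XT.lf (nat_lit 0) (nat_lit 936924646) (nat_lit 380) (nat_lit 14343970919) (nat_lit 456) (nat_lit 18957873880) (nat_lit 72) (nat_lit 5) (nat_lit 77) (nat_lit 5) (nat_lit 78) (nat_lit 5) (nat_lit 310) (nat_lit 296) (nat_lit 174)) (XT.nd (nat_lit 78) (nat_lit 304) (nat_lit 0) (XT.lf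 (nat_lit 0) (nat_lit 18443008648) (nat_lit 380) (nat_lit 548535268) (nat_lit 456) (nat_lit 16224406858) (nat_lit 72) (nat_lit 5) (nat_lit 77) (nat_lit 5) (nat_lit 78) (nat_lit 5) (nat_lit 311) (nat_lit 296) (nat_lit 173)) (XT.lf (nat_lit 0) (nat_lit 372785061) (nat_lit 304) (nat_lit 22734538860) (nat_lit 380) (nat_lit 13123694069) (nat_lit 68) (nat_lit 5) (nat_lit 72) (nat_lit 5) (nat_lit 73) (nat_lit 5) (nat_lit 312) (nat_lit 296) (nat_lit 172)))))) (XT.nd (nat_lit 390) (nat_lit 532) (nat_lit 0) (XT.nd (nat_lit 156) (nat_lit 684) (nat_lit 0) (XT.nd (nat_lit 78) (nat_lit 0) (nat_lit 0) (XT.lf (nat_lit 0) (nat_lit 18944929915) (nat_lit 304) (nat_lit 8773177399) (nat_lit 380) (nat_lit 9564276994) (nat_lit 68) (nat_lit 5) (nat_lit 72) (nat_lit 5) (nat_lit 73) (nat_lit 5) (nat_lit 313) (nat_lit 296) (nat_lit 171)) (XT.lf (nat_lit 0) (nat_lit 32647812600) (nat_lit 380) (nat_lit 36428711)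 (nat_lit 76) (nat_lit 5697664644) (nat_lit 68) (nat_lit 5) (nat_lit 73) (nat_lit 5) (nat_lit 69) (nat_lit 5) (nat_lit 314) (nat_lit 296) (nat_lit 170))) (XT.nd (nat_lit 78) (nat_lit 380) (nat_lit 0) (XT.lf (nat_lit 0) (nat_lit 19661407905) (nat_lit 304) (nat_lit 18610036868) (nat_lit 380) (nat_lit 1242592690) (nat_lit 64) (nat_lit 5) (nat_lit 68) (nat_lit 5) (nat_lit 69) (nat_lit 5) (nat_lit 315) (nat_lit 296) (nat_lit 169)) (XT.nd (nat_lit 78) (nat_lit 304) (nat_lit 0) (XT.lf (nat_lit 0) (nat_lit 3359630261) (nat_lit 380) (nat_lit 415345029) (nat_lit 76) (nat_lit 36925228011) (nat_lit 63) (nat_lit 5) (nat_lit 68) (nat_lit 5) (nat_lit 64) (nat_lit 5) (nat_lit 316) (nat_lit 296) (nat_lit 168)) (XT.lf (nat_lit 0) (nat_lit 8659017507) (nat_lit 380) (nat_lit 21488438499) (nat_lit 76) (nat_lit 11771767345) (nat_lit 59) (nat_lit 5) (nat_lit 64) (nat_lit 5) (nat_lit 60) (nat_lit 5) (nat_lit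 317) (nat_lit 296) (nat_lit 167))))) (XT.nd (nat_lit 156) (nat_lit 228) (nat_lit 0) (XT.nd (nat_lit 78) (nat_lit 304) (nat_lit 0) (XT.lf (nat_lit 0) (nat_lit 14289346767) (nat_lit 380) (nat_lit 930875638) (nat_lit 76) (nat_lit 27975678185) (nat_lit 59) (nat_lit 5) (nat_lit 64) (nat_lit 5) (nat_lit 60) (nat_lit 5) (nat_lit 318) (nat_lit 296) (nat_lit 166)) (XT.lf (nat_lit 0) (nat_lit 20543888096) (nat_lit 380) (nat_lit 23198553686) (nat_lit 76) (nat_lit 776839721) (nat_lit 55) (nat_lit 5) (nat_lit 60) (nat_lit 5) (nat_lit 56) (nat_lit 5) (nat_lit 319) (nat_lit 296) (nat_lit 165))) (XT.nd (nat_lit 78) (nat_lit 228) (nat_lit 0) (XT.lf (nat_lit 0) (nat_lit 27373851369) (nat_lit 380) (nat_lit 1444162985) (nat_lit 76) (nat_lit 17077686735) (nat_lit 55) (nat_lit 5) (nat_lit 60) (nat_lit 5) (nat_lit 56) (nat_lit 5) (nat_lit 320) (nat_lit 296) (nat_lit 164)) (XT.nd (nat_lit 78) (nat_lit 0) (nat_lit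 0) (XT.lf (nat_lit 0) (nat_lit 22101938915) (nat_lit 228) (nat_lit 12785742111) (nat_lit 304) (nat_lit 12436146380) (nat_lit 52) (nat_lit 5) (nat_lit 55) (nat_lit 5) (nat_lit 56) (nat_lit 5) (nat_lit 321) (nat_lit 296) (nat_lit 163)) (XT.lf (nat_lit 0) (nat_lit 42862623728) (nat_lit 304) (nat_lit 2013734494) (nat_lit 76) (nat_lit 3942734705) (nat_lit 52) (nat_lit 5) (nat_lit 56) (nat_lit 5) (nat_lit 53) (nat_lit 5) (nat_lit 322) (nat_lit 296) (nat_lit 162))))))))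
noncomputable def xc202 : XT := (XT.nd (nat_lit 1560) (nat_lit 988) (nat_lit 0) (XT.nd (nat_lit 780) (nat_lit 836) (nat_lit 0) (XT.nd (nat_lit 390) (nat_lit 456) (nat_lit 0) (XT.nd (nat_lit 156) (nat_lit 456) (nat_lit 0) (XT.nd (nat_lit 78) (nat_lit 0) (nat_lit 0) (XT.lf (nat_lit 0) (nat_lit 1393538008) (nat_lit 304) (nat_lit 27509366531) (nat_lit 76) (nat_lit 21456886349) (nat_lit 48) (nat_lit 5) (nat_lit 52) (nat_lit 5) (nat_lit 49) (nat_lit 5) (nat_lit 323) (nat_lit 296) (nat_lit 161)) (XT.lf (nat_lit 0) (nat_lit 8943042931) (nat_lit 304) (nat_lit 3049665428) (nat_lit 76) (nat_lit 39978327774) (nat_lit 48) (nat_lit 5) (nat_lit 52) (nat_lit 5) (nat_lit 49) (nat_lit 5) (nat_lit 324) (nat_lit 296) (nat_lit 160))) (XT.nd (nat_lit 78) (nat_lit 228) (nat_lit 0) (XT.lf (nat_lit 0) (nat_lit 17328597491) (nat_lit 304) (nat_lit 30362582607) (nat_lit 76) (nat_lit 5948738083) (nat_lit 45) (nat_lit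 5) (nat_lit 49) (nat_lit 5) (nat_lit 46) (nat_lit 5) (nat_lit 325) (nat_lit 296) (nat_lit 159)) (XT.nd (nat_lit 78) (nat_lit 228) (nat_lit 0) (XT.lf (nat_lit 0) (nat_lit 26380206483) (nat_lit 304) (nat_lit 4563785394) (nat_lit 76) (nat_lit 24435916727) (nat_lit 45) (nat_lit 5) (nat_lit 49) (nat_lit 5) (nat_lit 46) (nat_lit 5) (nat_lit 326) (nat_lit 296) (nat_lit 158)) (XT.lf (nat_lit 0) (nat_lit 23266541442) (nat_lit 228) (nat_lit 12978901529) (nat_lit 304) (nat_lit 20943406185) (nat_lit 42) (nat_lit 5) (nat_lit 45) (nat_lit 5) (nat_lit 46) (nat_lit 5) (nat_lit 327) (nat_lit 296) (nat_lit 157))))) (XT.nd (nat_lit 156) (nat_lit 304) (nat_lit 0) (XT.nd (nat_lit 78) (nat_lit 152) (nat_lit 0) (XT.lf (nat_lit 0) (nat_lit 46772206024) (nat_lit 304) (nat_lit 6533814671) (nat_lit 76) (nat_lit 5773805621) (nat_lit 42) (nat_lit 5) (nat_lit 46) (nat_lit 5) (nat_lit 43) (nat_lit 5) (nat_lit 328)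 (nat_lit 296) (nat_lit 156)) (XT.lf (nat_lit 0) (nat_lit 22736047091) (nat_lit 152) (nat_lit 35654940642) (nat_lit 228) (nat_lit 2646083259) (nat_lit 40) (nat_lit 5) (nat_lit 42) (nat_lit 5) (nat_lit 43) (nat_lit 5) (nat_lit 329) (nat_lit 296) (nat_lit 155))) (XT.nd (nat_lit 78) (nat_lit 228) (nat_lit 0) (XT.lf (nat_lit 0) (nat_lit 7368953282) (nat_lit 228) (nat_lit 9512295560) (nat_lit 76) (nat_lit 46199556718) (nat_lit 39) (nat_lit 5) (nat_lit 42) (nat_lit 5) (nat_lit 40) (nat_lit 5) (nat_lit 330) (nat_lit 296) (nat_lit 154)) (XT.nd (nat_lit 78) (nat_lit 0) (nat_lit 0) (XT.lf (nat_lit 0) (nat_lit 18177613511) (nat_lit 304) (nat_lit 43905291864) (nat_lit 76) (nat_lit 3122564998) (nat_lit 36) (nat_lit 5) (nat_lit 40) (nat_lit 5) (nat_lit 37) (nat_lit 5) (nat_lit 331) (nat_lit 296) (nat_lit 153)) (XT.lf (nat_lit 0) (nat_lit 29965271779) (nat_lit 304) (nat_lit 13727072746) (nat_lit 76)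 (nat_lit 23722097858) (nat_lit 36) (nat_lit 5) (nat_lit 40) (nat_lit 5) (nat_lit 37) (nat_lit 5) (nat_lit 332) (nat_lit 296) (nat_lit 152)))))) (XT.nd (nat_lit 390) (nat_lit 304) (nat_lit 0) (XT.nd (nat_lit 156) (nat_lit 380) (nat_lit 0) (XT.nd (nat_lit 78) (nat_lit 0) (nat_lit 0) (XT.lf (nat_lit 0) (nat_lit 18551046576) (nat_lit 152) (nat_lit 24079078315) (nat_lit 228) (nat_lit 27089349609) (nat_lit 34) (nat_lit 5) (nat_lit 36) (nat_lit 5) (nat_lit 37) (nat_lit 5) (nat_lit 333) (nat_lit 296) (nat_lit 151)) (XT.lf (nat_lit 0) (nat_lit 52916929259) (nat_lit 152) (nat_lit 3241988484) (nat_lit 228) (nat_lit 15969307630) (nat_lit 34) (nat_lit 5) (nat_lit 36) (nat_lit 5) (nat_lit 37) (nat_lit 5) (nat_lit 334) (nat_lit 296) (nat_lit 150))) (XT.nd (nat_lit 78) (nat_lit 228) (nat_lit 0) (XT.lf (nat_lit 0) (nat_lit 14514616687) (nat_lit 152) (nat_lit 56365415663) (nat_lit 228) (nat_lit 3751589240)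 (nat_lit 32) (nat_lit 5) (nat_lit 34) (nat_lit 5) (nat_lit 35) (nat_lit 5) (nat_lit 335) (nat_lit 296) (nat_lit 149)) (XT.nd (nat_lit 78) (nat_lit 152) (nat_lit 0) (XT.lf (nat_lit 0) (nat_lit 9168632016) (nat_lit 228) (nat_lit 26852994456) (nat_lit 76) (nat_lit 41212370088) (nat_lit 31) (nat_lit 5) (nat_lit 34) (nat_lit 5) (nat_lit 32) (nat_lit 5) (nat_lit 336) (nat_lit 296) (nat_lit 148)) (XT.lf (nat_lit 0) (nat_lit 8275020948) (nat_lit 152) (nat_lit 14461346911) (nat_lit 228) (nat_lit 57220669918) (nat_lit 29) (nat_lit 5) (nat_lit 31) (nat_lit 5) (nat_lit 32) (nat_lit 5) (nat_lit 337) (nat_lit 296) (nat_lit 147))))) (XT.nd (nat_lit 156) (nat_lit 304) (nat_lit 0) (XT.nd (nat_lit 78) (nat_lit 0) (nat_lit 0) (XT.lf (nat_lit 0) (nat_lit 37570787760) (nat_lit 228) (nat_lit 36839471751) (nat_lit 76) (nat_lit 8376558249) (nat_lit 29) (nat_lit 5) (nat_lit 32) (nat_lit 5) (nat_lit 30) (nat_lit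 5) (nat_lit 338) (nat_lit 296) (nat_lit 146)) (XT.lf (nat_lit 0) (nat_lit 53382484238) (nat_lit 228) (nat_lit 494319538) (nat_lit 76) (nat_lit 31869506682) (nat_lit 29) (nat_lit 5) (nat_lit 32) (nat_lit 5) (nat_lit 30) (nat_lit 5) (nat_lit 339) (nat_lit 296) (nat_lit 145))) (XT.nd (nat_lit 78) (nat_lit 152) (nat_lit 0) (XT.lf (nat_lit 0) (nat_lit 38911158102) (nat_lit 152) (nat_lit 31679676160) (nat_lit 228) (nat_lit 18232641516) (nat_lit 27) (nat_lit 5) (nat_lit 29) (nat_lit 5) (nat_lit 30) (nat_lit 5) (nat_lit 340) (nat_lit 296) (nat_lit 144)) (XT.nd (nat_lit 78) (nat_lit 152) (nat_lit 0) (XT.lf (nat_lit 0) (nat_lit 80301776656) (nat_lit 152) (nat_lit 8364786083) (nat_lit 228) (nat_lit 3387589934) (nat_lit 27) (nat_lit 5) (nat_lit 29) (nat_lit 5) (nat_lit 30) (nat_lit 5) (nat_lit 341) (nat_lit 296) (nat_lit 143)) (XT.lf (nat_lit 0) (nat_lit 12523633508) (nat_lit 152) (nat_lit 66623660235)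 (nat_lit 76) (nat_lit 16253827996) (nat_lit 25) (nat_lit 5) (nat_lit 27) (nat_lit 5) (nat_lit 26) (nat_lit 5) (nat_lit 342) (nat_lit 296) (nat_lit 142))))))) (XT.nd (nat_lit 780) (nat_lit 456) (nat_lit 0) (XT.nd (nat_lit 390) (nat_lit 304) (nat_lit 0) (XT.nd (nat_lit 156) (nat_lit 76) (nat_lit 0) (XT.nd (nat_lit 78) (nat_lit 152) (nat_lit 0) (XT.lf (nat_lit 0) (nat_lit 29454646206) (nat_lit 152) (nat_lit 27361855835) (nat_lit 76) (nat_lit 42079258008) (nat_lit 25) (nat_lit 5) (nat_lit 27) (nat_lit 5) (nat_lit 26) (nat_lit 5) (nat_lit 343) (nat_lit 296) (nat_lit 141)) (XT.lf (nat_lit 0) (nat_lit 14319199424) (nat_lit 152) (nat_lit 33135287880) (nat_lit 228) (nat_lit 55099530199) (nat_lit 23) (nat_lit 5) (nat_lit 25) (nat_lit 5) (nat_lit 26) (nat_lit 5) (nat_lit 344) (nat_lit 296) (nat_lit 140))) (XT.nd (nat_lit 78) (nat_lit 76) (nat_lit 0) (XT.lf (nat_lit 0) (nat_lit 59032140700) (nat_lit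 152) (nat_lit 7784309233) (nat_lit 228) (nat_lit 39555632485) (nat_lit 23) (nat_lit 5) (nat_lit 25) (nat_lit 5) (nat_lit 26) (nat_lit 5) (nat_lit 345) (nat_lit 296) (nat_lit 139)) (XT.nd (nat_lit 78) (nat_lit 76) (nat_lit 0) (XT.lf (nat_lit 0) (nat_lit 87439356012) (nat_lit 228) (nat_lit 4696432853) (nat_lit 76) (nat_lit 18230620459) (nat_lit 23) (nat_lit 5) (nat_lit 26) (nat_lit 5) (nat_lit 24) (nat_lit 4) (nat_lit 346) (nat_lit 296) (nat_lit 138)) (XT.lf (nat_lit 0) (nat_lit 41270598254) (nat_lit 76) (nat_lit 68593618455) (nat_lit 152) (nat_lit 4657696364) (nat_lit 22) (nat_lit 5) (nat_lit 23) (nat_lit 5) (nat_lit 24) (nat_lit 4) (nat_lit 347) (nat_lit 296) (nat_lit 137))))) (XT.nd (nat_lit 156) (nat_lit 76) (nat_lit 0) (XT.nd (nat_lit 78) (nat_lit 152) (nat_lit 0) (XT.lf (nat_lit 0) (nat_lit 14139927242) (nat_lit 152) (nat_lit 29412232223) (nat_lit 76) (nat_lit 75317709839) (nat_lit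 21) (nat_lit 5) (nat_lit 23) (nat_lit 5) (nat_lit 22) (nat_lit 5) (nat_lit 348) (nat_lit 296) (nat_lit 136)) (XT.lf (nat_lit 0) (nat_lit 17087482937) (nat_lit 152) (nat_lit 16899111442) (nat_lit 228) (nat_lit 89431527440) (nat_lit 19) (nat_lit 5) (nat_lit 21) (nat_lit 5) (nat_lit 22) (nat_lit 5) (nat_lit 349) (nat_lit 296) (nat_lit 135))) (XT.nd (nat_lit 78) (nat_lit 76) (nat_lit 0) (XT.lf (nat_lit 0) (nat_lit 55503882896) (nat_lit 228) (nat_lit 61418713785) (nat_lit 76) (nat_lit 11237276671) (nat_lit 19) (nat_lit 5) (nat_lit 22) (nat_lit 5) (nat_lit 20) (nat_lit 4) (nat_lit 350) (nat_lit 296) (nat_lit 134)) (XT.nd (nat_lit 78) (nat_lit 76) (nat_lit 0) (XT.lf (nat_lit 0) (nat_lit 78373041088) (nat_lit 228) (nat_lit 14540021351) (nat_lit 76) (nat_lit 40211850515) (nat_lit 19) (nat_lit 5) (nat_lit 22) (nat_lit 5) (nat_lit 20) (nat_lit 4) (nat_lit 351) (nat_lit 296) (nat_lit 133)) (XT.lf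 (nat_lit 0) (nat_lit 35827603916) (nat_lit 76) (nat_lit 67116442232) (nat_lit 152) (nat_lit 35366239660) (nat_lit 18) (nat_lit 5) (nat_lit 19) (nat_lit 5) (nat_lit 20) (nat_lit 4) (nat_lit 352) (nat_lit 296) (nat_lit 132)))))) (XT.nd (nat_lit 390) (nat_lit 228) (nat_lit 0) (XT.nd (nat_lit 156) (nat_lit 152) (nat_lit 0) (XT.nd (nat_lit 78) (nat_lit 76) (nat_lit 0) (XT.lf (nat_lit 0) (nat_lit 89216725856) (nat_lit 76) (nat_lit 39772157988) (nat_lit 152) (nat_lit 14753780024) (nat_lit 18) (nat_lit 5) (nat_lit 19) (nat_lit 5) (nat_lit 20) (nat_lit 4) (nat_lit 353) (nat_lit 296) (nat_lit 131)) (XT.lf (nat_lit 0) (nat_lit 6667872064) (nat_lit 152) (nat_lit 4280550862) (nat_lit 76) (nat_lit 138492906952) (nat_lit 17) (nat_lit 5) (nat_lit 19) (nat_lit 5) (nat_lit 18) (nat_lit 5) (nat_lit 354) (nat_lit 296) (nat_lit 130))) (XT.nd (nat_lit 78) (nat_lit 0) (nat_lit 0) (XT.lf (nat_lit 0) (nat_lit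 29760152852) (nat_lit 228) (nat_lit 105863766372) (nat_lit 76) (nat_lit 19734148801) (nat_lit 15) (nat_lit 5) (nat_lit 18) (nat_lit 5) (nat_lit 16) (nat_lit 4) (nat_lit 355) (nat_lit 296) (nat_lit 129)) (XT.nd (nat_lit 78) (nat_lit 0) (nat_lit 0) (XT.lf (nat_lit 0) (nat_lit 54259334032) (nat_lit 228) (nat_lit 55642744684) (nat_lit 76) (nat_lit 51655950610) (nat_lit 15) (nat_lit 5) (nat_lit 18) (nat_lit 5) (nat_lit 16) (nat_lit 4) (nat_lit 356) (nat_lit 296) (nat_lit 128)) (XT.lf (nat_lit 0) (nat_lit 79982638460) (nat_lit 228) (nat_lit 2912160828) (nat_lit 76) (nat_lit 85173231730) (nat_lit 15) (nat_lit 5) (nat_lit 18) (nat_lit 5) (nat_lit 16) (nat_lit 4) (nat_lit 357) (nat_lit 296) (nat_lit 127))))) (XT.nd (nat_lit 156) (nat_lit 152) (nat_lit 0) (XT.nd (nat_lit 78) (nat_lit 0) (nat_lit 0) (XT.lf (nat_lit 0) (nat_lit 54187884930) (nat_lit 76) (nat_lit 53649451911) (nat_lit 152) (nat_lit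 67023935028) (nat_lit 14) (nat_lit 5) (nat_lit 15) (nat_lit 5) (nat_lit 16) (nat_lit 4) (nat_lit 358) (nat_lit 296) (nat_lit 126)) (XT.lf (nat_lit 0) (nat_lit 114242641480) (nat_lit 76) (nat_lit 22890667627) (nat_lit 152) (nat_lit 44858439194) (nat_lit 14) (nat_lit 5) (nat_lit 15) (nat_lit 5) (nat_lit 16) (nat_lit 4) (nat_lit 359) (nat_lit 296) (nat_lit 125))) (XT.nd (nat_lit 78) (nat_lit 152) (nat_lit 0) (XT.lf (nat_lit 0) (nat_lit 168040182979) (nat_lit 152) (nat_lit 12326824753) (nat_lit 0) (nat_lit 9104436136) (nat_lit 14) (nat_lit 5) (nat_lit 16) (nat_lit 4) (nat_lit 14) (nat_lit 4) (nat_lit 360) (nat_lit 296) (nat_lit 124)) (XT.nd (nat_lit 78) (nat_lit 0) (nat_lit 0) (XT.lf (nat_lit 0) (nat_lit 4192322110) (nat_lit 152) (nat_lit 150343202611) (nat_lit 76) (nat_lit 42730806490) (nat_lit 12) (nat_lit 5) (nat_lit 14) (nat_lit 5) (nat_lit 13) (nat_lit 4) (nat_lit 361) (nat_lit 296)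 (nat_lit 123)) (XT.lf (nat_lit 0) (nat_lit 30588322648) (nat_lit 152) (nat_lit 96233035884) (nat_lit 76) (nat_lit 78601464718) (nat_lit 12) (nat_lit 5) (nat_lit 14) (nat_lit 5) (nat_lit 13) (nat_lit 4) (nat_lit 362) (nat_lit 296) (nat_lit 122))))))))
noncomputable def xc203 : XT := (XT.nd (nat_lit 35724) (nat_lit 0) (nat_lit 3648) (XT.nd (nat_lit 780) (nat_lit 76) (nat_lit 0) (XT.nd (nat_lit 390) (nat_lit 228) (nat_lit 0) (XT.nd (nat_lit 156) (nat_lit 0) (nat_lit 0) (XT.nd (nat_lit 78) (nat_lit 76) (nat_lit 0) (XT.lf (nat_lit 0) (nat_lit 58303443440) (nat_lit 152) (nat_lit 39418594809) (nat_lit 76) (nat_lit 116265136011) (nat_lit 12) (nat_lit 5) (nat_lit 14) (nat_lit 5) (nat_lit 13) (nat_lit 4) (nat_lit 363) (nat_lit 296) (nat_lit 121)) (XT.lf (nat_lit 0) (nat_lit 20904466571) (nat_lit 76) (nat_lit 66825583604) (nat_lit 152) (nat_lit 135233406514) (nat_lit 11) (nat_lit 5) (nat_lit 12)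 (nat_lit 5) (nat_lit 13) (nat_lit 4) (nat_lit 364) (nat_lit 296) (nat_lit 120))) (XT.nd (nat_lit 78) (nat_lit 0) (nat_lit 0) (XT.lf (nat_lit 0) (nat_lit 85611049352) (nat_lit 76) (nat_lit 33683876246) (nat_lit 152) (nat_lit 113060281070) (nat_lit 11) (nat_lit 5) (nat_lit 12) (nat_lit 5) (nat_lit 13) (nat_lit 4) (nat_lit 365) (nat_lit 296) (nat_lit 119)) (XT.nd (nat_lit 78) (nat_lit 0) (nat_lit 0) (XT.lf (nat_lit 0) (nat_lit 152454839599) (nat_lit 152) (nat_lit 88682113851) (nat_lit 0) (nat_lit 1078751284) (nat_lit 11) (nat_lit 5) (nat_lit 13) (nat_lit 4) (nat_lit 11) (nat_lit 4) (nat_lit 366) (nat_lit 296) (nat_lit 118)) (XT.lf (nat_lit 0) (nat_lit 187824360980) (nat_lit 152) (nat_lit 28270233386) (nat_lit 0) (nat_lit 36447053068) (nat_lit 11) (nat_lit 5) (nat_lit 13) (nat_lit 4) (nat_lit 11) (nat_lit 4) (nat_lit 367) (nat_lit 296) (nat_lit 117))))) (XT.nd (nat_lit 156) (nat_lit 152)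 (nat_lit 0) (XT.nd (nat_lit 78) (nat_lit 0) (nat_lit 0) (XT.lf (nat_lit 0) (nat_lit 36323810374) (nat_lit 76) (nat_lit 189205109282) (nat_lit 76) (nat_lit 37826639850) (nat_lit 10) (nat_lit 4) (nat_lit 11) (nat_lit 5) (nat_lit 11) (nat_lit 4) (nat_lit 368) (nat_lit 296) (nat_lit 116)) (XT.lf (nat_lit 0) (nat_lit 105128031928) (nat_lit 76) (nat_lit 160468899950) (nat_lit 76) (nat_lit 9089324307) (nat_lit 10) (nat_lit 4) (nat_lit 11) (nat_lit 5) (nat_lit 11) (nat_lit 4) (nat_lit 369) (nat_lit 296) (nat_lit 115))) (XT.nd (nat_lit 78) (nat_lit 76) (nat_lit 0) (XT.lf (nat_lit 0) (nat_lit 20409482603) (nat_lit 152) (nat_lit 109541189838) (nat_lit 76) (nat_lit 156616382195) (nat_lit 9) (nat_lit 5) (nat_lit 11) (nat_lit 5) (nat_lit 10) (nat_lit 4) (nat_lit 370) (nat_lit 296) (nat_lit 114)) (XT.nd (nat_lit 78) (nat_lit 76) (nat_lit 0) (XT.lf (nat_lit 0) (nat_lit 51077266765) (nat_lit 152) (nat_lit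 46673235671) (nat_lit 76) (nat_lit 201283965664) (nat_lit 9) (nat_lit 5) (nat_lit 11) (nat_lit 5) (nat_lit 10) (nat_lit 4) (nat_lit 371) (nat_lit 296) (nat_lit 113)) (XT.lf (nat_lit 0) (nat_lit 19976609946) (nat_lit 76) (nat_lit 63613242772) (nat_lit 152) (nat_lit 228519829124) (nat_lit 8) (nat_lit 5) (nat_lit 9) (nat_lit 5) (nat_lit 10) (nat_lit 4) (nat_lit 372) (nat_lit 296) (nat_lit 112)))))) (XT.nd (nat_lit 390) (nat_lit 0) (nat_lit 0) (XT.nd (nat_lit 156) (nat_lit 76) (nat_lit 0) (XT.nd (nat_lit 78) (nat_lit 0) (nat_lit 0) (XT.lf (nat_lit 0) (nat_lit 91578468900) (nat_lit 76) (nat_lit 26939563835) (nat_lit 152) (nat_lit 207281125520) (nat_lit 8) (nat_lit 5) (nat_lit 9) (nat_lit 5) (nat_lit 10) (nat_lit 4) (nat_lit 373) (nat_lit 296) (nat_lit 111)) (XT.lf (nat_lit 0) (nat_lit 155372774853) (nat_lit 152) (nat_lit 173594137011) (nat_lit 0) (nat_lit 11197189183) (nat_lit 8) (nat_lit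 5) (nat_lit 10) (nat_lit 4) (nat_lit 8) (nat_lit 4) (nat_lit 374) (nat_lit 296) (nat_lit 110))) (XT.nd (nat_lit 78) (nat_lit 76) (nat_lit 0) (XT.lf (nat_lit 0) (nat_lit 194511455161) (nat_lit 152) (nat_lit 110378692635) (nat_lit 0) (nat_lit 50335083329) (nat_lit 8) (nat_lit 5) (nat_lit 10) (nat_lit 4) (nat_lit 8) (nat_lit 4) (nat_lit 375) (nat_lit 296) (nat_lit 109)) (XT.nd (nat_lit 78) (nat_lit 76) (nat_lit 0) (XT.lf (nat_lit 0) (nat_lit 235606658906) (nat_lit 152) (nat_lit 44003241176) (nat_lit 0) (nat_lit 91429538347) (nat_lit 8) (nat_lit 5) (nat_lit 10) (nat_lit 4) (nat_lit 8) (nat_lit 4) (nat_lit 376) (nat_lit 296) (nat_lit 108)) (XT.lf (nat_lit 0) (nat_lit 26539689978) (nat_lit 76) (nat_lit 252630900770) (nat_lit 76) (nat_lit 108453067138) (nat_lit 7) (nat_lit 4) (nat_lit 8) (nat_lit 5) (nat_lit 8) (nat_lit 4) (nat_lit 377) (nat_lit 296) (nat_lit 107))))) (XT.nd (nat_lit 34320)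 (nat_lit 0) (nat_lit 6308) (XT.nd (nat_lit 78) (nat_lit 0) (nat_lit 0) (XT.lf (nat_lit 0) (nat_lit 102136743916) (nat_lit 76) (nat_lit 223520807848) (nat_lit 76) (nat_lit 79342295099) (nat_lit 7) (nat_lit 4) (nat_lit 8) (nat_lit 5) (nat_lit 8) (nat_lit 4) (nat_lit 378) (nat_lit 296) (nat_lit 106)) (XT.lf (nat_lit 0) (nat_lit 181512967743) (nat_lit 76) (nat_lit 192955527752) (nat_lit 76) (nat_lit 48776368225) (nat_lit 7) (nat_lit 4) (nat_lit 8) (nat_lit 5) (nat_lit 8) (nat_lit 4) (nat_lit 379) (nat_lit 296) (nat_lit 105))) (XT.nd (nat_lit 78) (nat_lit 0) (nat_lit 0) (XT.lf (nat_lit 0) (nat_lit 4849454581) (nat_lit 0) (nat_lit 4849454581) (nat_lit 684) (nat_lit 2767145066) (nat_lit 90) (nat_lit 5) (nat_lit 90) (nat_lit 3) (nat_lit 99) (nat_lit 3) (nat_lit 297) (nat_lit 297) (nat_lit 186)) (XT.nd (nat_lit 78) (nat_lit 0) (nat_lit 0) (XT.lf (nat_lit 0) (nat_lit 20007314597) (nat_lit 684)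 (nat_lit 3959044229) (nat_lit 760) (nat_lit 1582625019) (nat_lit 90) (nat_lit 5) (nat_lit 99) (nat_lit 3) (nat_lit 100) (nat_lit 5) (nat_lit 298) (nat_lit 297) (nat_lit 185)) (XT.lf (nat_lit 76) (nat_lit 7971406242) (nat_lit 0) (nat_lit 12953044613) (nat_lit 760) (nat_lit 5258406678) (nat_lit 91) (nat_lit 5) (nat_lit 90) (nat_lit 5) (nat_lit 100) (nat_lit 5) (nat_lit 299) (nat_lit 297) (nat_lit 184))))))) (XT.nd (nat_lit 780) (nat_lit 1672) (nat_lit 0) (XT.nd (nat_lit 390) (nat_lit 988) (nat_lit 0) (XT.nd (nat_lit 156) (nat_lit 0) (nat_lit 76) (XT.nd (nat_lit 78) (nat_lit 0) (nat_lit 76) (XT.lf (nat_lit 76) (nat_lit 20632336931) (nat_lit 0) (nat_lit 1316110980) (nat_lit 760) (nat_lit 4896938975) (nat_lit 91) (nat_lit 5) (nat_lit 90) (nat_lit 5) (nat_lit 100) (nat_lit 5) (nat_lit 300) (nat_lit 297) (nat_lit 183)) (XT.lf (nat_lit 76) (nat_lit 6416764240) (nat_lit 0) (nat_lit 16871566916)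 (nat_lit 760) (nat_lit 4239488834) (nat_lit 92) (nat_lit 5) (nat_lit 91) (nat_lit 5) (nat_lit 101) (nat_lit 5) (nat_lit 301) (nat_lit 297) (nat_lit 182))) (XT.nd (nat_lit 78) (nat_lit 0) (nat_lit 76) (XT.lf (nat_lit 76) (nat_lit 19867879795) (nat_lit 0) (nat_lit 4948274864) (nat_lit 760) (nat_lit 3422183832) (nat_lit 92) (nat_lit 5) (nat_lit 91) (nat_lit 5) (nat_lit 101) (nat_lit 5) (nat_lit 302) (nat_lit 297) (nat_lit 181)) (XT.nd (nat_lit 78) (nat_lit 0) (nat_lit 0) (XT.lf (nat_lit 76) (nat_lit 5046755920) (nat_lit 0) (nat_lit 21565402541) (nat_lit 760) (nat_lit 2362645520) (nat_lit 93) (nat_lit 5) (nat_lit 92) (nat_lit 5) (nat_lit 102) (nat_lit 5) (nat_lit 303) (nat_lit 297) (nat_lit 180)) (XT.lf (nat_lit 76) (nat_lit 19337960837) (nat_lit 0) (nat_lit 9376548890) (nat_lit 760) (nat_lit 1022765676) (nat_lit 93) (nat_lit 5) (nat_lit 92) (nat_lit 5) (nat_lit 102) (nat_lit 5) (nat_lit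 304) (nat_lit 297) (nat_lit 179))))) (XT.nd (nat_lit 156) (nat_lit 456) (nat_lit 0) (XT.nd (nat_lit 78) (nat_lit 0) (nat_lit 0) (XT.lf (nat_lit 0) (nat_lit 482717185) (nat_lit 760) (nat_lit 26667595433) (nat_lit 836) (nat_lit 3381721873) (nat_lit 83) (nat_lit 5) (nat_lit 93) (nat_lit 5) (nat_lit 94) (nat_lit 5) (nat_lit 305) (nat_lit 297) (nat_lit 178)) (XT.lf (nat_lit 0) (nat_lit 2357143680) (nat_lit 760) (nat_lit 12332541143) (nat_lit 836) (nat_lit 16659614977) (nat_lit 83) (nat_lit 5) (nat_lit 93) (nat_lit 5) (nat_lit 94) (nat_lit 5) (nat_lit 306) (nat_lit 297) (nat_lit 177))) (XT.nd (nat_lit 78) (nat_lit 456) (nat_lit 0) (XT.lf (nat_lit 76) (nat_lit 2805370643) (nat_lit 0) (nat_lit 1559265899) (nat_lit 836) (nat_lit 27840832823) (nat_lit 84) (nat_lit 5) (nat_lit 83) (nat_lit 5) (nat_lit 94) (nat_lit 5) (nat_lit 307) (nat_lit 297) (nat_lit 176)) (XT.nd (nat_lit 78) (nat_lit 532) (nat_lit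 0) (XT.lf (nat_lit 0) (nat_lit 6871405147) (nat_lit 760) (nat_lit 14163859185) (nat_lit 76) (nat_lit 12049245872) (nat_lit 84) (nat_lit 5) (nat_lit 94) (nat_lit 5) (nat_lit 85) (nat_lit 5) (nat_lit 308) (nat_lit 297) (nat_lit 175)) (XT.lf (nat_lit 0) (nat_lit 1864635822) (nat_lit 532) (nat_lit 7689465902) (nat_lit 608) (nat_lit 24450879363) (nat_lit 77) (nat_lit 5) (nat_lit 84) (nat_lit 5) (nat_lit 85) (nat_lit 5) (nat_lit 309) (nat_lit 297) (nat_lit 174)))))) (XT.nd (nat_lit 390) (nat_lit 988) (nat_lit 0) (XT.nd (nat_lit 156) (nat_lit 304) (nat_lit 0) (XT.nd (nat_lit 78) (nat_lit 380) (nat_lit 0) (XT.lf (nat_lit 0) (nat_lit 12709525557) (nat_lit 608) (nat_lit 15879676023) (nat_lit 76) (nat_lit 6365351432) (nat_lit 77) (nat_lit 5) (nat_lit 85) (nat_lit 5) (nat_lit 78) (nat_lit 5) (nat_lit 310) (nat_lit 297) (nat_lit 173)) (XT.lf (nat_lit 0) (nat_lit 1099518369) (nat_lit 380) (nat_lit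 15062672095) (nat_lit 456) (nat_lit 19782446359) (nat_lit 72) (nat_lit 5) (nat_lit 77) (nat_lit 5) (nat_lit 78) (nat_lit 5) (nat_lit 311) (nat_lit 297) (nat_lit 172))) (XT.nd (nat_lit 78) (nat_lit 304) (nat_lit 0) (XT.lf (nat_lit 0) (nat_lit 19475394787) (nat_lit 380) (nat_lit 577393107) (nat_lit 456) (nat_lit 16918178425) (nat_lit 72) (nat_lit 5) (nat_lit 77) (nat_lit 5) (nat_lit 78) (nat_lit 5) (nat_lit 312) (nat_lit 297) (nat_lit 171)) (XT.nd (nat_lit 78) (nat_lit 0) (nat_lit 0) (XT.lf (nat_lit 0) (nat_lit 505592745) (nat_lit 304) (nat_lit 23865207899) (nat_lit 380) (nat_lit 13666173525) (nat_lit 68) (nat_lit 5) (nat_lit 72) (nat_lit 5) (nat_lit 73) (nat_lit 5) (nat_lit 313) (nat_lit 297) (nat_lit 170)) (XT.lf (nat_lit 0) (nat_lit 20000908249) (nat_lit 304) (nat_lit 9206066836) (nat_lit 380) (nat_lit 9934200131) (nat_lit 68) (nat_lit 5) (nat_lit 72) (nat_lit 5) (nat_lit 73) (nat_lit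 5) (nat_lit 314) (nat_lit 297) (nat_lit 169))))) (XT.nd (nat_lit 234) (nat_lit 608) (nat_lit 0) (XT.nd (nat_lit 78) (nat_lit 76) (nat_lit 0) (XT.lf (nat_lit 0) (nat_lit 72616971) (nat_lit 304) (nat_lit 34306865235) (nat_lit 380) (nat_lit 5916383492) (nat_lit 64) (nat_lit 5) (nat_lit 68) (nat_lit 5) (nat_lit 69) (nat_lit 5) (nat_lit 315) (nat_lit 297) (nat_lit 168)) (XT.nd (nat_lit 78) (nat_lit 76) (nat_lit 0) (XT.lf (nat_lit 0) (nat_lit 20751270531) (nat_lit 304) (nat_lit 19528885447) (nat_lit 380) (nat_lit 1204662976) (nat_lit 64) (nat_lit 5) (nat_lit 68) (nat_lit 5) (nat_lit 69) (nat_lit 5) (nat_lit 316) (nat_lit 297) (nat_lit 167)) (XT.lf (nat_lit 0) (nat_lit 3619856368) (nat_lit 380) (nat_lit 331207132) (nat_lit 76) (nat_lit 38779389495) (nat_lit 63) (nat_lit 5) (nat_lit 68) (nat_lit 5) (nat_lit 64) (nat_lit 5) (nat_lit 317) (nat_lit 297) (nat_lit 166)))) (XT.nd (nat_lit 78) (nat_lit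 304) (nat_lit 0) (XT.lf (nat_lit 0) (nat_lit 9181646495) (nat_lit 380) (nat_lit 22455247611) (nat_lit 76) (nat_lit 12373665325) (nat_lit 59) (nat_lit 5) (nat_lit 64) (nat_lit 5) (nat_lit 60) (nat_lit 5) (nat_lit 318) (nat_lit 297) (nat_lit 165)) (XT.nd (nat_lit 78) (nat_lit 304) (nat_lit 0) (XT.lf (nat_lit 0) (nat_lit 15089221831) (nat_lit 380) (nat_lit 874931028) (nat_lit 76) (nat_lit 29387137917) (nat_lit 59) (nat_lit 5) (nat_lit 64) (nat_lit 5) (nat_lit 60) (nat_lit 5) (nat_lit 319) (nat_lit 297) (nat_lit 164)) (XT.lf (nat_lit 0) (nat_lit 21654277301) (nat_lit 380) (nat_lit 24253651997) (nat_lit 76) (nat_lit 833028484) (nat_lit 55) (nat_lit 5) (nat_lit 60) (nat_lit 5) (nat_lit 56) (nat_lit 5) (nat_lit 320) (nat_lit 297) (nat_lit 163))))))))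
noncomputable def xc204 : XT := (XT.nd (nat_lit 1560) (nat_lit 1140) (nat_lit 0) (XT.nd (nat_lit 780) (nat_lit 836) (nat_lit 0) (XT.nd (nat_lit 390) (nat_lit 608) (nat_lit 0) (XT.nd (nat_lit 156) (nat_lit 304) (nat_lit 0) (XT.nd (nat_lit 78) (nat_lit 228) (nat_lit 0) (XT.lf (nat_lit 0) (nat_lit 28821777081) (nat_lit 380) (nat_lit 1416533636) (nat_lit 76) (nat_lit 17948091812) (nat_lit 55) (nat_lit 5) (nat_lit 60) (nat_lit 5) (nat_lit 56) (nat_lit 5) (nat_lit 321) (nat_lit 297) (nat_lit 162)) (XT.lf (nat_lit 0) (nat_lit 23305263077) (nat_lit 228) (nat_lit 13403795739) (nat_lit 304) (nat_lit 12976994124) (nat_lit 52) (nat_lit 5) (nat_lit 55) (nat_lit 5) (nat_lit 56) (nat_lit 5) (nat_lit 322) (nat_lit 297) (nat_lit 161))) (XT.nd (nat_lit 78) (nat_lit 304) (nat_lit 0) (XT.lf (nat_lit 0) (nat_lit 45079398012) (nat_lit 304) (nat_lit 2017410229) (nat_lit 76) (nat_lit 4159446558) (nat_lit 52)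 (nat_lit 5) (nat_lit 56) (nat_lit 5) (nat_lit 53) (nat_lit 5) (nat_lit 323) (nat_lit 297) (nat_lit 160)) (XT.nd (nat_lit 78) (nat_lit 0) (nat_lit 0) (XT.lf (nat_lit 0) (nat_lit 1536117561) (nat_lit 304) (nat_lit 28786877736) (nat_lit 76) (nat_lit 22551039669) (nat_lit 48) (nat_lit 5) (nat_lit 52) (nat_lit 5) (nat_lit 49) (nat_lit 5) (nat_lit 324) (nat_lit 297) (nat_lit 159)) (XT.lf (nat_lit 0) (nat_lit 9459626174) (nat_lit 304) (nat_lit 3108856203) (nat_lit 76) (nat_lit 41997538450) (nat_lit 48) (nat_lit 5) (nat_lit 52) (nat_lit 5) (nat_lit 49) (nat_lit 5) (nat_lit 325) (nat_lit 297) (nat_lit 158))))) (XT.nd (nat_lit 156) (nat_lit 380) (nat_lit 0) (XT.nd (nat_lit 78) (nat_lit 0) (nat_lit 0) (XT.lf (nat_lit 0) (nat_lit 18262963581) (nat_lit 304) (nat_lit 31785833352) (nat_lit 76) (nat_lit 6269629341) (nat_lit 45) (nat_lit 5) (nat_lit 49) (nat_lit 5) (nat_lit 46) (nat_lit 5) (nat_lit 326)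 (nat_lit 297) (nat_lit 157)) (XT.lf (nat_lit 0) (nat_lit 27763917965) (nat_lit 304) (nat_lit 4701614297) (nat_lit 76) (nat_lit 25680050043) (nat_lit 45) (nat_lit 5) (nat_lit 49) (nat_lit 5) (nat_lit 46) (nat_lit 5) (nat_lit 327) (nat_lit 297) (nat_lit 156))) (XT.nd (nat_lit 78) (nat_lit 152) (nat_lit 0) (XT.lf (nat_lit 0) (nat_lit 24518771457) (nat_lit 228) (nat_lit 13601951837) (nat_lit 304) (nat_lit 21924335366) (nat_lit 42) (nat_lit 5) (nat_lit 45) (nat_lit 5) (nat_lit 46) (nat_lit 5) (nat_lit 328) (nat_lit 297) (nat_lit 155)) (XT.nd (nat_lit 78) (nat_lit 152) (nat_lit 0) (XT.lf (nat_lit 0) (nat_lit 49171209148) (nat_lit 304) (nat_lit 6773141970) (nat_lit 76) (nat_lit 6086368258) (nat_lit 42) (nat_lit 5) (nat_lit 46) (nat_lit 5) (nat_lit 43) (nat_lit 5) (nat_lit 329) (nat_lit 297) (nat_lit 154)) (XT.lf (nat_lit 0) (nat_lit 23958803793) (nat_lit 152) (nat_lit 37410592289) (nat_lit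 228) (nat_lit 2716510641) (nat_lit 40) (nat_lit 5) (nat_lit 42) (nat_lit 5) (nat_lit 43) (nat_lit 5) (nat_lit 330) (nat_lit 297) (nat_lit 153)))))) (XT.nd (nat_lit 390) (nat_lit 380) (nat_lit 0) (XT.nd (nat_lit 156) (nat_lit 152) (nat_lit 0) (XT.nd (nat_lit 78) (nat_lit 228) (nat_lit 0) (XT.lf (nat_lit 0) (nat_lit 7794445078) (nat_lit 228) (nat_lit 9904095007) (nat_lit 76) (nat_lit 48533385636) (nat_lit 39) (nat_lit 5) (nat_lit 42) (nat_lit 5) (nat_lit 40) (nat_lit 5) (nat_lit 331) (nat_lit 297) (nat_lit 152)) (XT.lf (nat_lit 0) (nat_lit 19142528593) (nat_lit 304) (nat_lit 46015666726) (nat_lit 76) (nat_lit 3304682177) (nat_lit 36) (nat_lit 5) (nat_lit 40) (nat_lit 5) (nat_lit 37) (nat_lit 5) (nat_lit 332) (nat_lit 297) (nat_lit 151))) (XT.nd (nat_lit 78) (nat_lit 152) (nat_lit 0) (XT.lf (nat_lit 0) (nat_lit 31516901470) (nat_lit 304) (nat_lit 14332579020) (nat_lit 76) (nat_lit 24932954111)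 (nat_lit 36) (nat_lit 5) (nat_lit 40) (nat_lit 5) (nat_lit 37) (nat_lit 5) (nat_lit 333) (nat_lit 297) (nat_lit 150)) (XT.nd (nat_lit 78) (nat_lit 0) (nat_lit 0) (XT.lf (nat_lit 0) (nat_lit 19558142279) (nat_lit 152) (nat_lit 25255555610) (nat_lit 228) (nat_lit 28389088335) (nat_lit 34) (nat_lit 5) (nat_lit 36) (nat_lit 5) (nat_lit 37) (nat_lit 5) (nat_lit 334) (nat_lit 297) (nat_lit 149)) (XT.lf (nat_lit 0) (nat_lit 55638531316) (nat_lit 152) (nat_lit 3377919698) (nat_lit 228) (nat_lit 16715650388) (nat_lit 34) (nat_lit 5) (nat_lit 36) (nat_lit 5) (nat_lit 37) (nat_lit 5) (nat_lit 335) (nat_lit 297) (nat_lit 148))))) (XT.nd (nat_lit 156) (nat_lit 152) (nat_lit 0) (XT.nd (nat_lit 78) (nat_lit 76) (nat_lit 0) (XT.lf (nat_lit 0) (nat_lit 15316973630) (nat_lit 152) (nat_lit 59155871870) (nat_lit 228) (nat_lit 3887863383) (nat_lit 32) (nat_lit 5) (nat_lit 34) (nat_lit 5) (nat_lit 35) (nat_lit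 5) (nat_lit 336) (nat_lit 297) (nat_lit 147)) (XT.lf (nat_lit 0) (nat_lit 9674361929) (nat_lit 228) (nat_lit 28121054774) (nat_lit 76) (nat_lit 43297866507) (nat_lit 31) (nat_lit 5) (nat_lit 34) (nat_lit 5) (nat_lit 32) (nat_lit 5) (nat_lit 337) (nat_lit 297) (nat_lit 146))) (XT.nd (nat_lit 78) (nat_lit 0) (nat_lit 0) (XT.lf (nat_lit 0) (nat_lit 8762158346) (nat_lit 152) (nat_lit 15157219684) (nat_lit 228) (nat_lit 60033156082) (nat_lit 29) (nat_lit 5) (nat_lit 31) (nat_lit 5) (nat_lit 32) (nat_lit 5) (nat_lit 338) (nat_lit 297) (nat_lit 145)) (XT.nd (nat_lit 78) (nat_lit 0) (nat_lit 0) (XT.lf (nat_lit 0) (nat_lit 39493723683) (nat_lit 228) (nat_lit 38609714558) (nat_lit 76) (nat_lit 8820456805) (nat_lit 29) (nat_lit 5) (nat_lit 32) (nat_lit 5) (nat_lit 30) (nat_lit 5) (nat_lit 339) (nat_lit 297) (nat_lit 144)) (XT.lf (nat_lit 0) (nat_lit 56093890865) (nat_lit 228) (nat_lit 450720486)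 (nat_lit 76) (nat_lit 33486858819) (nat_lit 29) (nat_lit 5) (nat_lit 32) (nat_lit 5) (nat_lit 30) (nat_lit 5) (nat_lit 340) (nat_lit 297) (nat_lit 143))))))) (XT.nd (nat_lit 780) (nat_lit 380) (nat_lit 0) (XT.nd (nat_lit 390) (nat_lit 304) (nat_lit 0) (XT.nd (nat_lit 156) (nat_lit 304) (nat_lit 0) (XT.nd (nat_lit 78) (nat_lit 0) (nat_lit 0) (XT.lf (nat_lit 0) (nat_lit 40923929182) (nat_lit 152) (nat_lit 33237765146) (nat_lit 228) (nat_lit 19100849616) (nat_lit 27) (nat_lit 5) (nat_lit 29) (nat_lit 5) (nat_lit 30) (nat_lit 5) (nat_lit 341) (nat_lit 297) (nat_lit 142)) (XT.lf (nat_lit 0) (nat_lit 84380878035) (nat_lit 152) (nat_lit 8758363652) (nat_lit 228) (nat_lit 3515613264) (nat_lit 27) (nat_lit 5) (nat_lit 29) (nat_lit 5) (nat_lit 30) (nat_lit 5) (nat_lit 342) (nat_lit 297) (nat_lit 141))) (XT.nd (nat_lit 78) (nat_lit 152) (nat_lit 0) (XT.lf (nat_lit 0) (nat_lit 13189338813) (nat_lit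 152) (nat_lit 69888927848) (nat_lit 76) (nat_lit 17090900684) (nat_lit 25) (nat_lit 5) (nat_lit 27) (nat_lit 5) (nat_lit 26) (nat_lit 5) (nat_lit 343) (nat_lit 297) (nat_lit 140)) (XT.nd (nat_lit 78) (nat_lit 152) (nat_lit 0) (XT.lf (nat_lit 0) (nat_lit 30965020069) (nat_lit 152) (nat_lit 28667172057) (nat_lit 76) (nat_lit 44206441183) (nat_lit 25) (nat_lit 5) (nat_lit 27) (nat_lit 5) (nat_lit 26) (nat_lit 5) (nat_lit 344) (nat_lit 297) (nat_lit 139)) (XT.lf (nat_lit 0) (nat_lit 15096923440) (nat_lit 152) (nat_lit 34767101637) (nat_lit 228) (nat_lit 57815821521) (nat_lit 23) (nat_lit 5) (nat_lit 25) (nat_lit 5) (nat_lit 26) (nat_lit 5) (nat_lit 345) (nat_lit 297) (nat_lit 138))))) (XT.nd (nat_lit 156) (nat_lit 304) (nat_lit 0) (XT.nd (nat_lit 78) (nat_lit 0) (nat_lit 0) (XT.lf (nat_lit 0) (nat_lit 62042570635) (nat_lit 152) (nat_lit 8149762183) (nat_lit 228) (nat_lit 41496571073) (nat_lit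 23) (nat_lit 5) (nat_lit 25) (nat_lit 5) (nat_lit 26) (nat_lit 5) (nat_lit 346) (nat_lit 297) (nat_lit 137)) (XT.lf (nat_lit 0) (nat_lit 91845067991) (nat_lit 228) (nat_lit 4873888258) (nat_lit 76) (nat_lit 19164058114) (nat_lit 23) (nat_lit 5) (nat_lit 26) (nat_lit 5) (nat_lit 24) (nat_lit 4) (nat_lit 347) (nat_lit 297) (nat_lit 136))) (XT.nd (nat_lit 78) (nat_lit 228) (nat_lit 0) (XT.lf (nat_lit 0) (nat_lit 43390569142) (nat_lit 76) (nat_lit 71999876917) (nat_lit 152) (nat_lit 4855884868) (nat_lit 22) (nat_lit 5) (nat_lit 23) (nat_lit 5) (nat_lit 24) (nat_lit 4) (nat_lit 348) (nat_lit 297) (nat_lit 135)) (XT.nd (nat_lit 78) (nat_lit 152) (nat_lit 0) (XT.lf (nat_lit 0) (nat_lit 14878910095) (nat_lit 152) (nat_lit 30828008531) (nat_lit 76) (nat_lit 79104820442) (nat_lit 21) (nat_lit 5) (nat_lit 23) (nat_lit 5) (nat_lit 22) (nat_lit 5) (nat_lit 349) (nat_lit 297) (nat_lit 134)) (XT.lf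 (nat_lit 0) (nat_lit 17995807947) (nat_lit 152) (nat_lit 17721421800) (nat_lit 228) (nat_lit 93870209665) (nat_lit 19) (nat_lit 5) (nat_lit 21) (nat_lit 5) (nat_lit 22) (nat_lit 5) (nat_lit 350) (nat_lit 297) (nat_lit 133)))))) (XT.nd (nat_lit 390) (nat_lit 228) (nat_lit 0) (XT.nd (nat_lit 156) (nat_lit 152) (nat_lit 0) (XT.nd (nat_lit 78) (nat_lit 0) (nat_lit 0) (XT.lf (nat_lit 0) (nat_lit 58309228664) (nat_lit 228) (nat_lit 64437091564) (nat_lit 76) (nat_lit 11820017101) (nat_lit 19) (nat_lit 5) (nat_lit 22) (nat_lit 5) (nat_lit 20) (nat_lit 4) (nat_lit 351) (nat_lit 297) (nat_lit 132)) (XT.lf (nat_lit 0) (nat_lit 82320408974) (nat_lit 228) (nat_lit 15216967266) (nat_lit 76) (nat_lit 42242325513) (nat_lit 19) (nat_lit 5) (nat_lit 22) (nat_lit 5) (nat_lit 20) (nat_lit 4) (nat_lit 352) (nat_lit 297) (nat_lit 131))) (XT.nd (nat_lit 78) (nat_lit 76) (nat_lit 0) (XT.lf (nat_lit 0) (nat_lit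 37668231923) (nat_lit 76) (nat_lit 70451133840) (nat_lit 152) (nat_lit 37105008416) (nat_lit 18) (nat_lit 5) (nat_lit 19) (nat_lit 5) (nat_lit 20) (nat_lit 4) (nat_lit 353) (nat_lit 297) (nat_lit 130)) (XT.nd (nat_lit 78) (nat_lit 76) (nat_lit 0) (XT.lf (nat_lit 0) (nat_lit 93724464826) (nat_lit 76) (nat_lit 41740641598) (nat_lit 152) (nat_lit 15463332618) (nat_lit 18) (nat_lit 5) (nat_lit 19) (nat_lit 5) (nat_lit 20) (nat_lit 4) (nat_lit 354) (nat_lit 297) (nat_lit 129)) (XT.lf (nat_lit 0) (nat_lit 7027204587) (nat_lit 152) (nat_lit 4449034207) (nat_lit 76) (nat_lit 145435843308) (nat_lit 17) (nat_lit 5) (nat_lit 19) (nat_lit 5) (nat_lit 18) (nat_lit 5) (nat_lit 355) (nat_lit 297) (nat_lit 128))))) (XT.nd (nat_lit 156) (nat_lit 76) (nat_lit 0) (XT.nd (nat_lit 78) (nat_lit 0) (nat_lit 0) (XT.lf (nat_lit 0) (nat_lit 31273866818) (nat_lit 228) (nat_lit 111111161398) (nat_lit 76) (nat_lit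 20739641396) (nat_lit 15) (nat_lit 5) (nat_lit 18) (nat_lit 5) (nat_lit 16) (nat_lit 4) (nat_lit 356) (nat_lit 297) (nat_lit 127)) (XT.lf (nat_lit 0) (nat_lit 56996782947) (nat_lit 228) (nat_lit 58381269258) (nat_lit 76) (nat_lit 54256638764) (nat_lit 15) (nat_lit 5) (nat_lit 18) (nat_lit 5) (nat_lit 16) (nat_lit 4) (nat_lit 357) (nat_lit 297) (nat_lit 126))) (XT.nd (nat_lit 78) (nat_lit 76) (nat_lit 0) (XT.lf (nat_lit 0) (nat_lit 84005086776) (nat_lit 228) (nat_lit 3016233003) (nat_lit 76) (nat_lit 89448932006) (nat_lit 15) (nat_lit 5) (nat_lit 18) (nat_lit 5) (nat_lit 16) (nat_lit 4) (nat_lit 358) (nat_lit 297) (nat_lit 125)) (XT.nd (nat_lit 78) (nat_lit 0) (nat_lit 0) (XT.lf (nat_lit 0) (nat_lit 56938145110) (nat_lit 76) (nat_lit 56313902694) (nat_lit 152) (nat_lit 70351131201) (nat_lit 14) (nat_lit 5) (nat_lit 15) (nat_lit 5) (nat_lit 16) (nat_lit 4) (nat_lit 359) (nat_lit 297) (nat_lit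 124)) (XT.lf (nat_lit 0) (nat_lit 119993693491) (nat_lit 76) (nat_lit 24018037377) (nat_lit 152) (nat_lit 47078503460) (nat_lit 14) (nat_lit 5) (nat_lit 15) (nat_lit 5) (nat_lit 16) (nat_lit 4) (nat_lit 360) (nat_lit 297) (nat_lit 123))))))))
noncomputable def xc205 : XT := (XT.nd (nat_lit 35802) (nat_lit 0) (nat_lit 4256) (XT.nd (nat_lit 780) (nat_lit 228) (nat_lit 0) (XT.nd (nat_lit 390) (nat_lit 76) (nat_lit 0) (XT.nd (nat_lit 156) (nat_lit 76) (nat_lit 0) (XT.nd (nat_lit 78) (nat_lit 152) (nat_lit 0) (XT.lf (nat_lit 0) (nat_lit 176463167630) (nat_lit 152) (nat_lit 12905305654) (nat_lit 0) (nat_lit 9575481075) (nat_lit 14) (nat_lit 5) (nat_lit 16) (nat_lit 4) (nat_lit 14) (nat_lit 4) (nat_lit 361) (nat_lit 297) (nat_lit 122)) (XT.lf (nat_lit 0) (nat_lit 4422845394) (nat_lit 152) (nat_lit 157822410046) (nat_lit 76) (nat_lit 44883335248) (nat_lit 12) (nat_lit 5) (nat_lit 14) (nat_lit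 5) (nat_lit 13) (nat_lit 4) (nat_lit 362) (nat_lit 297) (nat_lit 121))) (XT.nd (nat_lit 78) (nat_lit 76) (nat_lit 0) (XT.lf (nat_lit 0) (nat_lit 32137650379) (nat_lit 152) (nat_lit 101008542253) (nat_lit 76) (nat_lit 82546765033) (nat_lit 12) (nat_lit 5) (nat_lit 14) (nat_lit 5) (nat_lit 13) (nat_lit 4) (nat_lit 363) (nat_lit 297) (nat_lit 120)) (XT.nd (nat_lit 78) (nat_lit 76) (nat_lit 0) (XT.lf (nat_lit 0) (nat_lit 61237579039) (nat_lit 152) (nat_lit 41355100335) (nat_lit 76) (nat_lit 122092894792) (nat_lit 12) (nat_lit 5) (nat_lit 14) (nat_lit 5) (nat_lit 13) (nat_lit 4) (nat_lit 364) (nat_lit 297) (nat_lit 119)) (XT.lf (nat_lit 0) (nat_lit 21983558885) (nat_lit 76) (nat_lit 70151582996) (nat_lit 152) (nat_lit 141975548054) (nat_lit 11) (nat_lit 5) (nat_lit 12) (nat_lit 5) (nat_lit 13) (nat_lit 4) (nat_lit 365) (nat_lit 297) (nat_lit 118))))) (XT.nd (nat_lit 156) (nat_lit 76) (nat_lit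 0) (XT.nd (nat_lit 78) (nat_lit 0) (nat_lit 0) (XT.lf (nat_lit 0) (nat_lit 89923857996) (nat_lit 76) (nat_lit 35353517879) (nat_lit 152) (nat_lit 118694696280) (nat_lit 11) (nat_lit 5) (nat_lit 12) (nat_lit 5) (nat_lit 13) (nat_lit 4) (nat_lit 366) (nat_lit 297) (nat_lit 117)) (XT.lf (nat_lit 0) (nat_lit 160094658910) (nat_lit 152) (nat_lit 93084863523) (nat_lit 0) (nat_lit 1146104485) (nat_lit 11) (nat_lit 5) (nat_lit 13) (nat_lit 4) (nat_lit 11) (nat_lit 4) (nat_lit 367) (nat_lit 297) (nat_lit 116))) (XT.nd (nat_lit 78) (nat_lit 76) (nat_lit 0) (XT.lf (nat_lit 0) (nat_lit 197231843153) (nat_lit 152) (nat_lit 29653882178) (nat_lit 0) (nat_lit 38282182519) (nat_lit 11) (nat_lit 5) (nat_lit 13) (nat_lit 4) (nat_lit 11) (nat_lit 4) (nat_lit 368) (nat_lit 297) (nat_lit 115)) (XT.nd (nat_lit 78) (nat_lit 0) (nat_lit 0) (XT.lf (nat_lit 0) (nat_lit 38169382111) (nat_lit 76) (nat_lit 198651931894)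 (nat_lit 76) (nat_lit 39701217726) (nat_lit 10) (nat_lit 4) (nat_lit 11) (nat_lit 5) (nat_lit 11) (nat_lit 4) (nat_lit 369) (nat_lit 297) (nat_lit 114)) (XT.lf (nat_lit 0) (nat_lit 110412415637) (nat_lit 76) (nat_lit 168479551754) (nat_lit 76) (nat_lit 9527834221) (nat_lit 10) (nat_lit 4) (nat_lit 11) (nat_lit 5) (nat_lit 11) (nat_lit 4) (nat_lit 370) (nat_lit 297) (nat_lit 113)))))) (XT.nd (nat_lit 390) (nat_lit 76) (nat_lit 0) (XT.nd (nat_lit 156) (nat_lit 76) (nat_lit 0) (XT.nd (nat_lit 78) (nat_lit 0) (nat_lit 0) (XT.lf (nat_lit 0) (nat_lit 21444666829) (nat_lit 152) (nat_lit 114991106118) (nat_lit 76) (nat_lit 164458891718) (nat_lit 9) (nat_lit 5) (nat_lit 11) (nat_lit 5) (nat_lit 10) (nat_lit 4) (nat_lit 371) (nat_lit 297) (nat_lit 112)) (XT.lf (nat_lit 0) (nat_lit 53645139718) (nat_lit 152) (nat_lit 48981046777) (nat_lit 76) (nat_lit 211359297673) (nat_lit 9) (nat_lit 5) (nat_lit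 11) (nat_lit 5) (nat_lit 10) (nat_lit 4) (nat_lit 372) (nat_lit 297) (nat_lit 111))) (XT.nd (nat_lit 78) (nat_lit 0) (nat_lit 0) (XT.lf (nat_lit 0) (nat_lit 21000874175) (nat_lit 76) (nat_lit 66782210761) (nat_lit 152) (nat_lit 239931387490) (nat_lit 8) (nat_lit 5) (nat_lit 9) (nat_lit 5) (nat_lit 10) (nat_lit 4) (nat_lit 373) (nat_lit 297) (nat_lit 110)) (XT.nd (nat_lit 78) (nat_lit 0) (nat_lit 0) (XT.lf (nat_lit 0) (nat_lit 96181614947) (nat_lit 76) (nat_lit 28275404742) (nat_lit 152) (nat_lit 217631435995) (nat_lit 8) (nat_lit 5) (nat_lit 9) (nat_lit 5) (nat_lit 10) (nat_lit 4) (nat_lit 374) (nat_lit 297) (nat_lit 109)) (XT.lf (nat_lit 0) (nat_lit 163154041405) (nat_lit 152) (nat_lit 182250311289) (nat_lit 0) (nat_lit 11767316092) (nat_lit 8) (nat_lit 5) (nat_lit 10) (nat_lit 4) (nat_lit 8) (nat_lit 4) (nat_lit 375) (nat_lit 297) (nat_lit 108))))) (XT.nd (nat_lit 156) (nat_lit 76)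 (nat_lit 0) (XT.nd (nat_lit 78) (nat_lit 0) (nat_lit 0) (XT.lf (nat_lit 0) (nat_lit 204249054405) (nat_lit 152) (nat_lit 115875215293) (nat_lit 0) (nat_lit 52861616019) (nat_lit 8) (nat_lit 5) (nat_lit 10) (nat_lit 4) (nat_lit 8) (nat_lit 4) (nat_lit 376) (nat_lit 297) (nat_lit 107)) (XT.lf (nat_lit 0) (nat_lit 247398445648) (nat_lit 152) (nat_lit 46182058498) (nat_lit 0) (nat_lit 96010328144) (nat_lit 8) (nat_lit 5) (nat_lit 10) (nat_lit 4) (nat_lit 8) (nat_lit 4) (nat_lit 377) (nat_lit 297) (nat_lit 106))) (XT.nd (nat_lit 78) (nat_lit 0) (nat_lit 0) (XT.lf (nat_lit 0) (nat_lit 27887674944) (nat_lit 76) (nat_lit 265252681595) (nat_lit 76) (nat_lit 113863917313) (nat_lit 7) (nat_lit 4) (nat_lit 8) (nat_lit 5) (nat_lit 8) (nat_lit 4) (nat_lit 378) (nat_lit 297) (nat_lit 105)) (XT.nd (nat_lit 34320) (nat_lit 0) (nat_lit 6308) (XT.lf (nat_lit 0) (nat_lit 107263581556) (nat_lit 76) (nat_lit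 234687548989) (nat_lit 76) (nat_lit 83298168728) (nat_lit 7) (nat_lit 4) (nat_lit 8) (nat_lit 5) (nat_lit 8) (nat_lit 4) (nat_lit 379) (nat_lit 297) (nat_lit 104)) (XT.lf (nat_lit 0) (nat_lit 5140666586) (nat_lit 0) (nat_lit 5140666586) (nat_lit 684) (nat_lit 2802953177) (nat_lit 90) (nat_lit 5) (nat_lit 90) (nat_lit 3) (nat_lit 99) (nat_lit 3) (nat_lit 298) (nat_lit 298) (nat_lit 184))))))) (XT.nd (nat_lit 780) (nat_lit 1520) (nat_lit 0) (XT.nd (nat_lit 390) (nat_lit 532) (nat_lit 0) (XT.nd (nat_lit 156) (nat_lit 0) (nat_lit 0) (XT.nd (nat_lit 78) (nat_lit 0) (nat_lit 0) (XT.lf (nat_lit 0) (nat_lit 21191904318) (nat_lit 684) (nat_lit 4053052015) (nat_lit 760) (nat_lit 1571890909) (nat_lit 90) (nat_lit 5) (nat_lit 99) (nat_lit 3) (nat_lit 100) (nat_lit 5) (nat_lit 299) (nat_lit 298) (nat_lit 183)) (XT.lf (nat_lit 76) (nat_lit 8472244456) (nat_lit 0) (nat_lit 13675477051) (nat_lit 760)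 (nat_lit 5335069739) (nat_lit 91) (nat_lit 5) (nat_lit 90) (nat_lit 5) (nat_lit 100) (nat_lit 5) (nat_lit 300) (nat_lit 298) (nat_lit 182))) (XT.nd (nat_lit 78) (nat_lit 0) (nat_lit 76) (XT.lf (nat_lit 76) (nat_lit 21761351779) (nat_lit 0) (nat_lit 1453135774) (nat_lit 760) (nat_lit 4964398046) (nat_lit 91) (nat_lit 5) (nat_lit 90) (nat_lit 5) (nat_lit 100) (nat_lit 5) (nat_lit 301) (nat_lit 298) (nat_lit 181)) (XT.nd (nat_lit 78) (nat_lit 0) (nat_lit 0) (XT.lf (nat_lit 76) (nat_lit 6843152685) (nat_lit 0) (nat_lit 17770771834) (nat_lit 760) (nat_lit 4281904040) (nat_lit 92) (nat_lit 5) (nat_lit 91) (nat_lit 5) (nat_lit 101) (nat_lit 5) (nat_lit 302) (nat_lit 298) (nat_lit 180)) (XT.lf (nat_lit 76) (nat_lit 20961797817) (nat_lit 0) (nat_lit 5248666295) (nat_lit 760) (nat_lit 3431808037) (nat_lit 92) (nat_lit 5) (nat_lit 91) (nat_lit 5) (nat_lit 101) (nat_lit 5) (nat_lit 303) (nat_lit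 298) (nat_lit 179))))) (XT.nd (nat_lit 156) (nat_lit 684) (nat_lit 0) (XT.nd (nat_lit 78) (nat_lit 0) (nat_lit 0) (XT.lf (nat_lit 76) (nat_lit 5406664686) (nat_lit 0) (nat_lit 22683185553) (nat_lit 760) (nat_lit 2326046243) (nat_lit 93) (nat_lit 5) (nat_lit 92) (nat_lit 5) (nat_lit 102) (nat_lit 5) (nat_lit 304) (nat_lit 298) (nat_lit 178)) (XT.lf (nat_lit 76) (nat_lit 20407307422) (nat_lit 0) (nat_lit 9883007654) (nat_lit 760) (nat_lit 926540576) (nat_lit 93) (nat_lit 5) (nat_lit 92) (nat_lit 5) (nat_lit 102) (nat_lit 5) (nat_lit 305) (nat_lit 298) (nat_lit 177))) (XT.nd (nat_lit 78) (nat_lit 0) (nat_lit 0) (XT.lf (nat_lit 0) (nat_lit 643860846) (nat_lit 760) (nat_lit 27887651320) (nat_lit 836) (nat_lit 3520020119) (nat_lit 83) (nat_lit 5) (nat_lit 93) (nat_lit 5) (nat_lit 94) (nat_lit 5) (nat_lit 306) (nat_lit 298) (nat_lit 176)) (XT.nd (nat_lit 78) (nat_lit 0) (nat_lit 0) (XT.lf (nat_lit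 0) (nat_lit 2605484484) (nat_lit 760) (nat_lit 12841240690) (nat_lit 836) (nat_lit 17463273966) (nat_lit 83) (nat_lit 5) (nat_lit 93) (nat_lit 5) (nat_lit 94) (nat_lit 5) (nat_lit 307) (nat_lit 298) (nat_lit 175)) (XT.lf (nat_lit 76) (nat_lit 3051825918) (nat_lit 0) (nat_lit 1656970438) (nat_lit 836) (nat_lit 29100420108) (nat_lit 84) (nat_lit 5) (nat_lit 83) (nat_lit 5) (nat_lit 94) (nat_lit 5) (nat_lit 308) (nat_lit 298) (nat_lit 174)))))) (XT.nd (nat_lit 390) (nat_lit 684) (nat_lit 0) (XT.nd (nat_lit 156) (nat_lit 380) (nat_lit 0) (XT.nd (nat_lit 78) (nat_lit 532) (nat_lit 0) (XT.lf (nat_lit 0) (nat_lit 7334613282) (nat_lit 760) (nat_lit 14764412785) (nat_lit 76) (nat_lit 12633508736) (nat_lit 84) (nat_lit 5) (nat_lit 94) (nat_lit 5) (nat_lit 85) (nat_lit 5) (nat_lit 309) (nat_lit 298) (nat_lit 173)) (XT.lf (nat_lit 0) (nat_lit 2063770854) (nat_lit 532) (nat_lit 8083630238) (nat_lit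 608) (nat_lit 25551840747) (nat_lit 77) (nat_lit 5) (nat_lit 84) (nat_lit 5) (nat_lit 85) (nat_lit 5) (nat_lit 310) (nat_lit 298) (nat_lit 172))) (XT.nd (nat_lit 78) (nat_lit 380) (nat_lit 0) (XT.lf (nat_lit 0) (nat_lit 13454947528) (nat_lit 608) (nat_lit 16566952350) (nat_lit 76) (nat_lit 6674684845) (nat_lit 77) (nat_lit 5) (nat_lit 85) (nat_lit 5) (nat_lit 78) (nat_lit 5) (nat_lit 311) (nat_lit 298) (nat_lit 171)) (XT.nd (nat_lit 78) (nat_lit 0) (nat_lit 0) (XT.lf (nat_lit 0) (nat_lit 1259480674) (nat_lit 380) (nat_lit 15817168629) (nat_lit 456) (nat_lit 20659712699) (nat_lit 72) (nat_lit 5) (nat_lit 77) (nat_lit 5) (nat_lit 78) (nat_lit 5) (nat_lit 312) (nat_lit 298) (nat_lit 170)) (XT.lf (nat_lit 0) (nat_lit 20549151561) (nat_lit 380) (nat_lit 607560791) (nat_lit 456) (nat_lit 17657557843) (nat_lit 72) (nat_lit 5) (nat_lit 77) (nat_lit 5) (nat_lit 78) (nat_lit 5) (nat_lit 313) (nat_lit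 298) (nat_lit 169))))) (XT.nd (nat_lit 156) (nat_lit 380) (nat_lit 0) (XT.nd (nat_lit 78) (nat_lit 0) (nat_lit 0) (XT.lf (nat_lit 0) (nat_lit 634426514) (nat_lit 304) (nat_lit 25052973596) (nat_lit 380) (nat_lit 14246348189) (nat_lit 68) (nat_lit 5) (nat_lit 72) (nat_lit 5) (nat_lit 73) (nat_lit 5) (nat_lit 314) (nat_lit 298) (nat_lit 168)) (XT.lf (nat_lit 0) (nat_lit 21099576644) (nat_lit 304) (nat_lit 9661137132) (nat_lit 380) (nat_lit 10332687269) (nat_lit 68) (nat_lit 5) (nat_lit 72) (nat_lit 5) (nat_lit 73) (nat_lit 5) (nat_lit 315) (nat_lit 298) (nat_lit 167))) (XT.nd (nat_lit 78) (nat_lit 76) (nat_lit 0) (XT.lf (nat_lit 0) (nat_lit 177954705) (nat_lit 304) (nat_lit 36011110150) (nat_lit 380) (nat_lit 6116908049) (nat_lit 64) (nat_lit 5) (nat_lit 68) (nat_lit 5) (nat_lit 69) (nat_lit 5) (nat_lit 316) (nat_lit 298) (nat_lit 166)) (XT.nd (nat_lit 78) (nat_lit 76) (nat_lit 0) (XT.lf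 (nat_lit 0) (nat_lit 21885697758) (nat_lit 304) (nat_lit 20494759865) (nat_lit 380) (nat_lit 1174139346) (nat_lit 64) (nat_lit 5) (nat_lit 68) (nat_lit 5) (nat_lit 69) (nat_lit 5) (nat_lit 317) (nat_lit 298) (nat_lit 165)) (XT.lf (nat_lit 0) (nat_lit 3884517753) (nat_lit 380) (nat_lit 252615426) (nat_lit 76) (nat_lit 40725524579) (nat_lit 63) (nat_lit 5) (nat_lit 68) (nat_lit 5) (nat_lit 64) (nat_lit 5) (nat_lit 318) (nat_lit 298) (nat_lit 164))))))))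
noncomputable def xc206 : XT := (XT.nd (nat_lit 1560) (nat_lit 1216) (nat_lit 0) (XT.nd (nat_lit 780) (nat_lit 1064) (nat_lit 0) (XT.nd (nat_lit 390) (nat_lit 532) (nat_lit 0) (XT.nd (nat_lit 156) (nat_lit 532) (nat_lit 0) (XT.nd (nat_lit 78) (nat_lit 0) (nat_lit 0) (XT.lf (nat_lit 0) (nat_lit 9722069512) (nat_lit 380) (nat_lit 23480401999) (nat_lit 76) (nat_lit 13004420803) (nat_lit 59) (nat_lit 5) (nat_lit 64) (nat_lit 5) (nat_lit 60) (nat_lit 5) (nat_lit 319) (nat_lit 298) (nat_lit 163)) (XT.lf (nat_lit 0) (nat_lit 15921150248) (nat_lit 380) (nat_lit 825717586) (nat_lit 76) (nat_lit 30867992157) (nat_lit 59) (nat_lit 5) (nat_lit 64) (nat_lit 5) (nat_lit 60) (nat_lit 5) (nat_lit 320) (nat_lit 298) (nat_lit 162))) (XT.nd (nat_lit 78) (nat_lit 228) (nat_lit 0) (XT.lf (nat_lit 0) (nat_lit 22812451303) (nat_lit 380) (nat_lit 25371251265) (nat_lit 76) (nat_lit 890413947) (nat_lit 55) (nat_lit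 5) (nat_lit 60) (nat_lit 5) (nat_lit 56) (nat_lit 5) (nat_lit 321) (nat_lit 298) (nat_lit 161)) (XT.nd (nat_lit 78) (nat_lit 228) (nat_lit 0) (XT.lf (nat_lit 0) (nat_lit 30334732731) (nat_lit 380) (nat_lit 1396804764) (nat_lit 76) (nat_lit 18860481201) (nat_lit 55) (nat_lit 5) (nat_lit 60) (nat_lit 5) (nat_lit 56) (nat_lit 5) (nat_lit 322) (nat_lit 298) (nat_lit 160)) (XT.lf (nat_lit 0) (nat_lit 24559621211) (nat_lit 228) (nat_lit 14054726137) (nat_lit 304) (nat_lit 13552411108) (nat_lit 52) (nat_lit 5) (nat_lit 55) (nat_lit 5) (nat_lit 56) (nat_lit 5) (nat_lit 323) (nat_lit 298) (nat_lit 159))))) (XT.nd (nat_lit 156) (nat_lit 228) (nat_lit 0) (XT.nd (nat_lit 78) (nat_lit 304) (nat_lit 0) (XT.lf (nat_lit 0) (nat_lit 47400164374) (nat_lit 304) (nat_lit 2030288913) (nat_lit 76) (nat_lit 4385174094) (nat_lit 52) (nat_lit 5) (nat_lit 56) (nat_lit 5) (nat_lit 53) (nat_lit 5) (nat_lit 324)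 (nat_lit 298) (nat_lit 158)) (XT.lf (nat_lit 0) (nat_lit 1679048293) (nat_lit 304) (nat_lit 30137371626) (nat_lit 76) (nat_lit 23697919546) (nat_lit 48) (nat_lit 5) (nat_lit 52) (nat_lit 5) (nat_lit 49) (nat_lit 5) (nat_lit 325) (nat_lit 298) (nat_lit 157))) (XT.nd (nat_lit 78) (nat_lit 228) (nat_lit 0) (XT.lf (nat_lit 0) (nat_lit 9995583535) (nat_lit 304) (nat_lit 3179679968) (nat_lit 76) (nat_lit 44115822891) (nat_lit 48) (nat_lit 5) (nat_lit 52) (nat_lit 5) (nat_lit 49) (nat_lit 5) (nat_lit 326) (nat_lit 298) (nat_lit 156)) (XT.nd (nat_lit 78) (nat_lit 0) (nat_lit 0) (XT.lf (nat_lit 0) (nat_lit 19237731909) (nat_lit 304) (nat_lit 33289067526) (nat_lit 76) (nat_lit 6604384599) (nat_lit 45) (nat_lit 5) (nat_lit 49) (nat_lit 5) (nat_lit 46) (nat_lit 5) (nat_lit 327) (nat_lit 298) (nat_lit 155)) (XT.lf (nat_lit 0) (nat_lit 29210799720) (nat_lit 304) (nat_lit 4854735494) (nat_lit 76) (nat_lit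 26984313298) (nat_lit 45) (nat_lit 5) (nat_lit 49) (nat_lit 5) (nat_lit 46) (nat_lit 5) (nat_lit 328) (nat_lit 298) (nat_lit 154)))))) (XT.nd (nat_lit 390) (nat_lit 380) (nat_lit 0) (XT.nd (nat_lit 156) (nat_lit 456) (nat_lit 0) (XT.nd (nat_lit 78) (nat_lit 0) (nat_lit 0) (XT.lf (nat_lit 0) (nat_lit 25825347619) (nat_lit 228) (nat_lit 14258562110) (nat_lit 304) (nat_lit 22960469479) (nat_lit 42) (nat_lit 5) (nat_lit 45) (nat_lit 5) (nat_lit 46) (nat_lit 5) (nat_lit 329) (nat_lit 298) (nat_lit 153)) (XT.lf (nat_lit 0) (nat_lit 51684547675) (nat_lit 304) (nat_lit 7032557858) (nat_lit 76) (nat_lit 6412339602) (nat_lit 42) (nat_lit 5) (nat_lit 46) (nat_lit 5) (nat_lit 43) (nat_lit 5) (nat_lit 330) (nat_lit 298) (nat_lit 152))) (XT.nd (nat_lit 78) (nat_lit 304) (nat_lit 0) (XT.lf (nat_lit 0) (nat_lit 25234707110) (nat_lit 152) (nat_lit 39256545590) (nat_lit 228) (nat_lit 2796212108) (nat_lit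 40) (nat_lit 5) (nat_lit 42) (nat_lit 5) (nat_lit 43) (nat_lit 5) (nat_lit 331) (nat_lit 298) (nat_lit 151)) (XT.nd (nat_lit 78) (nat_lit 228) (nat_lit 0) (XT.lf (nat_lit 0) (nat_lit 8235908040) (nat_lit 228) (nat_lit 10323276782) (nat_lit 76) (nat_lit 50981688552) (nat_lit 39) (nat_lit 5) (nat_lit 42) (nat_lit 5) (nat_lit 40) (nat_lit 5) (nat_lit 332) (nat_lit 298) (nat_lit 150)) (XT.lf (nat_lit 0) (nat_lit 20150479881) (nat_lit 304) (nat_lit 48239452572) (nat_lit 76) (nat_lit 3493489010) (nat_lit 36) (nat_lit 5) (nat_lit 40) (nat_lit 5) (nat_lit 37) (nat_lit 5) (nat_lit 333) (nat_lit 298) (nat_lit 149))))) (XT.nd (nat_lit 156) (nat_lit 228) (nat_lit 0) (XT.nd (nat_lit 78) (nat_lit 152) (nat_lit 0) (XT.lf (nat_lit 0) (nat_lit 33141151170) (nat_lit 304) (nat_lit 14975877028) (nat_lit 76) (nat_lit 26202052031) (nat_lit 36) (nat_lit 5) (nat_lit 40) (nat_lit 5) (nat_lit 37) (nat_lit 5)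 (nat_lit 334) (nat_lit 298) (nat_lit 148)) (XT.lf (nat_lit 0) (nat_lit 20608197578) (nat_lit 152) (nat_lit 26493411286) (nat_lit 228) (nat_lit 29758902158) (nat_lit 34) (nat_lit 5) (nat_lit 36) (nat_lit 5) (nat_lit 37) (nat_lit 5) (nat_lit 335) (nat_lit 298) (nat_lit 147))) (XT.nd (nat_lit 78) (nat_lit 228) (nat_lit 0) (XT.lf (nat_lit 0) (nat_lit 58489170439) (nat_lit 152) (nat_lit 3523080345) (nat_lit 228) (nat_lit 17504156152) (nat_lit 34) (nat_lit 5) (nat_lit 36) (nat_lit 5) (nat_lit 37) (nat_lit 5) (nat_lit 336) (nat_lit 298) (nat_lit 146)) (XT.nd (nat_lit 78) (nat_lit 76) (nat_lit 0) (XT.lf (nat_lit 0) (nat_lit 16152324451) (nat_lit 152) (nat_lit 62088436823) (nat_lit 228) (nat_lit 4035721116) (nat_lit 32) (nat_lit 5) (nat_lit 34) (nat_lit 5) (nat_lit 35) (nat_lit 5) (nat_lit 337) (nat_lit 298) (nat_lit 145)) (XT.lf (nat_lit 0) (nat_lit 10200980989) (nat_lit 228) (nat_lit 29459452723)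 (nat_lit 76) (nat_lit 45485324834) (nat_lit 31) (nat_lit 5) (nat_lit 34) (nat_lit 5) (nat_lit 32) (nat_lit 5) (nat_lit 338) (nat_lit 298) (nat_lit 144))))))) (XT.nd (nat_lit 780) (nat_lit 608) (nat_lit 0) (XT.nd (nat_lit 390) (nat_lit 304) (nat_lit 0) (XT.nd (nat_lit 156) (nat_lit 152) (nat_lit 0) (XT.nd (nat_lit 78) (nat_lit 0) (nat_lit 0) (XT.lf (nat_lit 0) (nat_lit 9266829846) (nat_lit 152) (nat_lit 15890414390) (nat_lit 228) (nat_lit 62990780025) (nat_lit 29) (nat_lit 5) (nat_lit 31) (nat_lit 5) (nat_lit 32) (nat_lit 5) (nat_lit 339) (nat_lit 298) (nat_lit 143)) (XT.lf (nat_lit 0) (nat_lit 41508678834) (nat_lit 228) (nat_lit 40475138352) (nat_lit 76) (nat_lit 9284219458) (nat_lit 29) (nat_lit 5) (nat_lit 32) (nat_lit 5) (nat_lit 30) (nat_lit 5) (nat_lit 340) (nat_lit 298) (nat_lit 142))) (XT.nd (nat_lit 78) (nat_lit 152) (nat_lit 0) (XT.lf (nat_lit 0) (nat_lit 58936936804) (nat_lit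 228) (nat_lit 411292764) (nat_lit 76) (nat_lit 35182858725) (nat_lit 29) (nat_lit 5) (nat_lit 32) (nat_lit 5) (nat_lit 30) (nat_lit 5) (nat_lit 341) (nat_lit 298) (nat_lit 141)) (XT.nd (nat_lit 78) (nat_lit 0) (nat_lit 0) (XT.lf (nat_lit 0) (nat_lit 43031089972) (nat_lit 152) (nat_lit 34876166036) (nat_lit 228) (nat_lit 20016505271) (nat_lit 27) (nat_lit 5) (nat_lit 29) (nat_lit 5) (nat_lit 30) (nat_lit 5) (nat_lit 342) (nat_lit 298) (nat_lit 140)) (XT.lf (nat_lit 0) (nat_lit 88657983204) (nat_lit 152) (nat_lit 9173912913) (nat_lit 228) (nat_lit 3653882664) (nat_lit 27) (nat_lit 5) (nat_lit 29) (nat_lit 5) (nat_lit 30) (nat_lit 5) (nat_lit 343) (nat_lit 298) (nat_lit 139))))) (XT.nd (nat_lit 156) (nat_lit 152) (nat_lit 0) (XT.nd (nat_lit 78) (nat_lit 0) (nat_lit 0) (XT.lf (nat_lit 0) (nat_lit 13884654851) (nat_lit 152) (nat_lit 73323587031) (nat_lit 76) (nat_lit 17967560265) (nat_lit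 25) (nat_lit 5) (nat_lit 27) (nat_lit 5) (nat_lit 26) (nat_lit 5) (nat_lit 344) (nat_lit 298) (nat_lit 138)) (XT.lf (nat_lit 0) (nat_lit 32547413069) (nat_lit 152) (nat_lit 30043590461) (nat_lit 76) (nat_lit 46437824715) (nat_lit 25) (nat_lit 5) (nat_lit 27) (nat_lit 5) (nat_lit 26) (nat_lit 5) (nat_lit 345) (nat_lit 298) (nat_lit 137))) (XT.nd (nat_lit 78) (nat_lit 0) (nat_lit 0) (XT.lf (nat_lit 0) (nat_lit 15907791422) (nat_lit 152) (nat_lit 36482825755) (nat_lit 228) (nat_lit 60671523991) (nat_lit 23) (nat_lit 5) (nat_lit 25) (nat_lit 5) (nat_lit 26) (nat_lit 5) (nat_lit 346) (nat_lit 298) (nat_lit 136)) (XT.nd (nat_lit 78) (nat_lit 0) (nat_lit 0) (XT.lf (nat_lit 0) (nat_lit 65198053270) (nat_lit 152) (nat_lit 8535696993) (nat_lit 228) (nat_lit 43537981907) (nat_lit 23) (nat_lit 5) (nat_lit 25) (nat_lit 5) (nat_lit 26) (nat_lit 5) (nat_lit 347) (nat_lit 298) (nat_lit 135)) (XT.lf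 (nat_lit 0) (nat_lit 96467928355) (nat_lit 228) (nat_lit 5065549803) (nat_lit 76) (nat_lit 20142130980) (nat_lit 23) (nat_lit 5) (nat_lit 26) (nat_lit 5) (nat_lit 24) (nat_lit 4) (nat_lit 348) (nat_lit 298) (nat_lit 134)))))) (XT.nd (nat_lit 390) (nat_lit 304) (nat_lit 0) (XT.nd (nat_lit 156) (nat_lit 152) (nat_lit 0) (XT.nd (nat_lit 78) (nat_lit 76) (nat_lit 0) (XT.lf (nat_lit 0) (nat_lit 45611291227) (nat_lit 76) (nat_lit 75578625900) (nat_lit 152) (nat_lit 5067208531) (nat_lit 22) (nat_lit 5) (nat_lit 23) (nat_lit 5) (nat_lit 24) (nat_lit 4) (nat_lit 349) (nat_lit 298) (nat_lit 133)) (XT.lf (nat_lit 0) (nat_lit 15651868290) (nat_lit 152) (nat_lit 32319671721) (nat_lit 76) (nat_lit 83079313266) (nat_lit 21) (nat_lit 5) (nat_lit 23) (nat_lit 5) (nat_lit 22) (nat_lit 5) (nat_lit 350) (nat_lit 298) (nat_lit 132))) (XT.nd (nat_lit 78) (nat_lit 0) (nat_lit 0) (XT.lf (nat_lit 0) (nat_lit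 18944533368) (nat_lit 152) (nat_lit 18586953014) (nat_lit 228) (nat_lit 98533884187) (nat_lit 19) (nat_lit 5) (nat_lit 21) (nat_lit 5) (nat_lit 22) (nat_lit 5) (nat_lit 351) (nat_lit 298) (nat_lit 131)) (XT.nd (nat_lit 78) (nat_lit 0) (nat_lit 0) (XT.lf (nat_lit 0) (nat_lit 61252038508) (nat_lit 228) (nat_lit 67611274569) (nat_lit 76) (nat_lit 12429953644) (nat_lit 19) (nat_lit 5) (nat_lit 22) (nat_lit 5) (nat_lit 20) (nat_lit 4) (nat_lit 352) (nat_lit 298) (nat_lit 130)) (XT.lf (nat_lit 0) (nat_lit 86462475529) (nat_lit 228) (nat_lit 15932414131) (nat_lit 76) (nat_lit 44372475777) (nat_lit 19) (nat_lit 5) (nat_lit 22) (nat_lit 5) (nat_lit 20) (nat_lit 4) (nat_lit 353) (nat_lit 298) (nat_lit 129))))) (XT.nd (nat_lit 156) (nat_lit 228) (nat_lit 0) (XT.nd (nat_lit 78) (nat_lit 0) (nat_lit 0) (XT.lf (nat_lit 0) (nat_lit 39596312735) (nat_lit 76) (nat_lit 73954524542) (nat_lit 152) (nat_lit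 38933462259) (nat_lit 18) (nat_lit 5) (nat_lit 19) (nat_lit 5) (nat_lit 20) (nat_lit 4) (nat_lit 354) (nat_lit 298) (nat_lit 128)) (XT.lf (nat_lit 0) (nat_lit 98453230178) (nat_lit 76) (nat_lit 43809420354) (nat_lit 152) (nat_lit 16210978699) (nat_lit 18) (nat_lit 5) (nat_lit 19) (nat_lit 5) (nat_lit 20) (nat_lit 4) (nat_lit 355) (nat_lit 298) (nat_lit 127))) (XT.nd (nat_lit 78) (nat_lit 152) (nat_lit 0) (XT.lf (nat_lit 0) (nat_lit 7402092182) (nat_lit 152) (nat_lit 4630175988) (nat_lit 76) (nat_lit 152724225957) (nat_lit 17) (nat_lit 5) (nat_lit 19) (nat_lit 5) (nat_lit 18) (nat_lit 5) (nat_lit 356) (nat_lit 298) (nat_lit 126)) (XT.nd (nat_lit 78) (nat_lit 0) (nat_lit 0) (XT.lf (nat_lit 0) (nat_lit 32860876552) (nat_lit 228) (nat_lit 116625183601) (nat_lit 76) (nat_lit 21793662156) (nat_lit 15) (nat_lit 5) (nat_lit 18) (nat_lit 5) (nat_lit 16) (nat_lit 4) (nat_lit 357) (nat_lit 298)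 (nat_lit 125)) (XT.lf (nat_lit 0) (nat_lit 59868828183) (nat_lit 228) (nat_lit 61260774752) (nat_lit 76) (nat_lit 56985698025) (nat_lit 15) (nat_lit 5) (nat_lit 18) (nat_lit 5) (nat_lit 16) (nat_lit 4) (nat_lit 358) (nat_lit 298) (nat_lit 124))))))))
noncomputable def xc207 : XT := (XT.nd (nat_lit 35958) (nat_lit 0) (nat_lit 4180) (XT.nd (nat_lit 780) (nat_lit 228) (nat_lit 0) (XT.nd (nat_lit 390) (nat_lit 76) (nat_lit 0) (XT.nd (nat_lit 156) (nat_lit 152) (nat_lit 0) (XT.nd (nat_lit 78) (nat_lit 76) (nat_lit 0) (XT.lf (nat_lit 0) (nat_lit 88226489770) (nat_lit 228) (nat_lit 3129370397) (nat_lit 76) (nat_lit 93936833200) (nat_lit 15) (nat_lit 5) (nat_lit 18) (nat_lit 5) (nat_lit 16) (nat_lit 4) (nat_lit 359) (nat_lit 298) (nat_lit 123)) (XT.lf (nat_lit 0) (nat_lit 59822118972) (nat_lit 76) (nat_lit 59113251513) (nat_lit 152) (nat_lit 73846918528) (nat_lit 14) (nat_lit 5) (nat_lit 15)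 (nat_lit 5) (nat_lit 16) (nat_lit 4) (nat_lit 360) (nat_lit 298) (nat_lit 122))) (XT.nd (nat_lit 78) (nat_lit 152) (nat_lit 0) (XT.lf (nat_lit 0) (nat_lit 126028679695) (nat_lit 76) (nat_lit 25203371326) (nat_lit 152) (nat_lit 49411696031) (nat_lit 14) (nat_lit 5) (nat_lit 15) (nat_lit 5) (nat_lit 16) (nat_lit 4) (nat_lit 361) (nat_lit 298) (nat_lit 121)) (XT.nd (nat_lit 78) (nat_lit 152) (nat_lit 0) (XT.lf (nat_lit 0) (nat_lit 185305351411) (nat_lit 152) (nat_lit 13516230496) (nat_lit 0) (nat_lit 10068607175) (nat_lit 14) (nat_lit 5) (nat_lit 16) (nat_lit 4) (nat_lit 14) (nat_lit 4) (nat_lit 362) (nat_lit 298) (nat_lit 120)) (XT.lf (nat_lit 0) (nat_lit 4662951091) (nat_lit 152) (nat_lit 165679106333) (nat_lit 76) (nat_lit 47142003991) (nat_lit 12) (nat_lit 5) (nat_lit 14) (nat_lit 5) (nat_lit 13) (nat_lit 4) (nat_lit 363) (nat_lit 298) (nat_lit 119))))) (XT.nd (nat_lit 156) (nat_lit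 76) (nat_lit 0) (XT.nd (nat_lit 78) (nat_lit 0) (nat_lit 0) (XT.lf (nat_lit 0) (nat_lit 33762593305) (nat_lit 152) (nat_lit 106026184399) (nat_lit 76) (nat_lit 86687914695) (nat_lit 12) (nat_lit 5) (nat_lit 14) (nat_lit 5) (nat_lit 13) (nat_lit 4) (nat_lit 364) (nat_lit 298) (nat_lit 118)) (XT.lf (nat_lit 0) (nat_lit 64316658379) (nat_lit 152) (nat_lit 43391631575) (nat_lit 76) (nat_lit 128210693256) (nat_lit 12) (nat_lit 5) (nat_lit 14) (nat_lit 5) (nat_lit 13) (nat_lit 4) (nat_lit 365) (nat_lit 298) (nat_lit 117))) (XT.nd (nat_lit 78) (nat_lit 0) (nat_lit 0) (XT.lf (nat_lit 0) (nat_lit 23113456998) (nat_lit 76) (nat_lit 73645302927) (nat_lit 152) (nat_lit 149056612273) (nat_lit 11) (nat_lit 5) (nat_lit 12) (nat_lit 5) (nat_lit 13) (nat_lit 4) (nat_lit 366) (nat_lit 298) (nat_lit 116)) (XT.nd (nat_lit 78) (nat_lit 0) (nat_lit 0) (XT.lf (nat_lit 0) (nat_lit 94449308198) (nat_lit 76)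 (nat_lit 37107994517) (nat_lit 152) (nat_lit 124612561395) (nat_lit 11) (nat_lit 5) (nat_lit 12) (nat_lit 5) (nat_lit 13) (nat_lit 4) (nat_lit 367) (nat_lit 298) (nat_lit 115)) (XT.lf (nat_lit 0) (nat_lit 168114881498) (nat_lit 152) (nat_lit 97710665863) (nat_lit 0) (nat_lit 1215578088) (nat_lit 11) (nat_lit 5) (nat_lit 13) (nat_lit 4) (nat_lit 11) (nat_lit 4) (nat_lit 368) (nat_lit 298) (nat_lit 114)))))) (XT.nd (nat_lit 390) (nat_lit 76) (nat_lit 0) (XT.nd (nat_lit 156) (nat_lit 76) (nat_lit 0) (XT.nd (nat_lit 78) (nat_lit 76) (nat_lit 0) (XT.lf (nat_lit 0) (nat_lit 207108187351) (nat_lit 152) (nat_lit 31109489777) (nat_lit 0) (nat_lit 40207880576) (nat_lit 11) (nat_lit 5) (nat_lit 13) (nat_lit 4) (nat_lit 11) (nat_lit 4) (nat_lit 369) (nat_lit 298) (nat_lit 113)) (XT.lf (nat_lit 0) (nat_lit 40104500847) (nat_lit 76) (nat_lit 208572344495) (nat_lit 76) (nat_lit 41671082134) (nat_lit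 10) (nat_lit 4) (nat_lit 11) (nat_lit 5) (nat_lit 11) (nat_lit 4) (nat_lit 370) (nat_lit 298) (nat_lit 112))) (XT.nd (nat_lit 78) (nat_lit 76) (nat_lit 0) (XT.lf (nat_lit 0) (nat_lit 115958417020) (nat_lit 76) (nat_lit 176891925539) (nat_lit 76) (nat_lit 9989753096) (nat_lit 10) (nat_lit 4) (nat_lit 11) (nat_lit 5) (nat_lit 11) (nat_lit 4) (nat_lit 371) (nat_lit 298) (nat_lit 111)) (XT.nd (nat_lit 78) (nat_lit 0) (nat_lit 0) (XT.lf (nat_lit 0) (nat_lit 22530242661) (nat_lit 152) (nat_lit 120716041731) (nat_lit 76) (nat_lit 172692439853) (nat_lit 9) (nat_lit 5) (nat_lit 11) (nat_lit 5) (nat_lit 10) (nat_lit 4) (nat_lit 372) (nat_lit 298) (nat_lit 110)) (XT.lf (nat_lit 0) (nat_lit 56340103838) (nat_lit 152) (nat_lit 51406651790) (nat_lit 76) (nat_lit 221937361175) (nat_lit 9) (nat_lit 5) (nat_lit 11) (nat_lit 5) (nat_lit 10) (nat_lit 4) (nat_lit 373) (nat_lit 298) (nat_lit 109))))) (XT.nd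 (nat_lit 156) (nat_lit 0) (nat_lit 0) (XT.nd (nat_lit 78) (nat_lit 0) (nat_lit 0) (XT.lf (nat_lit 0) (nat_lit 22073987027) (nat_lit 76) (nat_lit 70110714361) (nat_lit 152) (nat_lit 251914865626) (nat_lit 8) (nat_lit 5) (nat_lit 9) (nat_lit 5) (nat_lit 10) (nat_lit 4) (nat_lit 374) (nat_lit 298) (nat_lit 108)) (XT.lf (nat_lit 0) (nat_lit 101012666307) (nat_lit 76) (nat_lit 29679073134) (nat_lit 152) (nat_lit 228500539949) (nat_lit 8) (nat_lit 5) (nat_lit 9) (nat_lit 5) (nat_lit 10) (nat_lit 4) (nat_lit 375) (nat_lit 298) (nat_lit 107))) (XT.nd (nat_lit 78) (nat_lit 0) (nat_lit 0) (XT.lf (nat_lit 0) (nat_lit 171323197272) (nat_lit 152) (nat_lit 191341482117) (nat_lit 0) (nat_lit 12364994776) (nat_lit 8) (nat_lit 5) (nat_lit 10) (nat_lit 4) (nat_lit 8) (nat_lit 4) (nat_lit 376) (nat_lit 298) (nat_lit 106)) (XT.nd (nat_lit 78) (nat_lit 0) (nat_lit 0) (XT.lf (nat_lit 0) (nat_lit 214472415503)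 (nat_lit 152) (nat_lit 121648647737) (nat_lit 0) (nat_lit 55513566229) (nat_lit 8) (nat_lit 5) (nat_lit 10) (nat_lit 4) (nat_lit 8) (nat_lit 4) (nat_lit 377) (nat_lit 298) (nat_lit 105)) (XT.lf (nat_lit 0) (nat_lit 259778756861) (nat_lit 152) (nat_lit 48471801117) (nat_lit 0) (nat_lit 100819291607) (nat_lit 8) (nat_lit 5) (nat_lit 10) (nat_lit 4) (nat_lit 8) (nat_lit 4) (nat_lit 378) (nat_lit 298) (nat_lit 104))))))) (XT.nd (nat_lit 780) (nat_lit 1520) (nat_lit 0) (XT.nd (nat_lit 390) (nat_lit 532) (nat_lit 0) (XT.nd (nat_lit 156) (nat_lit 0) (nat_lit 0) (XT.nd (nat_lit 78) (nat_lit 0) (nat_lit 0) (XT.lf (nat_lit 0) (nat_lit 5441907875) (nat_lit 0) (nat_lit 5441907875) (nat_lit 684) (nat_lit 2850085740) (nat_lit 90) (nat_lit 5) (nat_lit 90) (nat_lit 3) (nat_lit 99) (nat_lit 3) (nat_lit 299) (nat_lit 299) (nat_lit 182)) (XT.lf (nat_lit 0) (nat_lit 22418596125) (nat_lit 684) (nat_lit 4161423959)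 (nat_lit 760) (nat_lit 1568974922) (nat_lit 90) (nat_lit 5) (nat_lit 99) (nat_lit 3) (nat_lit 100) (nat_lit 5) (nat_lit 300) (nat_lit 299) (nat_lit 181))) (XT.nd (nat_lit 78) (nat_lit 0) (nat_lit 0) (XT.lf (nat_lit 76) (nat_lit 8988616681) (nat_lit 0) (nat_lit 14427078756) (nat_lit 760) (nat_lit 5432882390) (nat_lit 91) (nat_lit 5) (nat_lit 90) (nat_lit 5) (nat_lit 100) (nat_lit 5) (nat_lit 301) (nat_lit 299) (nat_lit 180)) (XT.nd (nat_lit 78) (nat_lit 0) (nat_lit 76) (XT.lf (nat_lit 76) (nat_lit 22937762227) (nat_lit 0) (nat_lit 1590390517) (nat_lit 760) (nat_lit 5051721914) (nat_lit 91) (nat_lit 5) (nat_lit 90) (nat_lit 5) (nat_lit 100) (nat_lit 5) (nat_lit 302) (nat_lit 299) (nat_lit 179)) (XT.lf (nat_lit 76) (nat_lit 7281047493) (nat_lit 0) (nat_lit 18709765366) (nat_lit 760) (nat_lit 4342204017) (nat_lit 92) (nat_lit 5) (nat_lit 91) (nat_lit 5) (nat_lit 101) (nat_lit 5) (nat_lit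 303) (nat_lit 299) (nat_lit 178))))) (XT.nd (nat_lit 156) (nat_lit 608) (nat_lit 0) (XT.nd (nat_lit 78) (nat_lit 0) (nat_lit 76) (XT.lf (nat_lit 76) (nat_lit 22101065968) (nat_lit 0) (nat_lit 5559151934) (nat_lit 760) (nat_lit 3456926796) (nat_lit 92) (nat_lit 5) (nat_lit 91) (nat_lit 5) (nat_lit 101) (nat_lit 5) (nat_lit 304) (nat_lit 299) (nat_lit 177)) (XT.lf (nat_lit 76) (nat_lit 5774567962) (nat_lit 0) (nat_lit 23853184183) (nat_lit 760) (nat_lit 2302002474) (nat_lit 93) (nat_lit 5) (nat_lit 92) (nat_lit 5) (nat_lit 102) (nat_lit 5) (nat_lit 305) (nat_lit 299) (nat_lit 176))) (XT.nd (nat_lit 78) (nat_lit 684) (nat_lit 0) (XT.lf (nat_lit 76) (nat_lit 21520596642) (nat_lit 0) (nat_lit 10411290753) (nat_lit 760) (nat_lit 839204671) (nat_lit 93) (nat_lit 5) (nat_lit 92) (nat_lit 5) (nat_lit 102) (nat_lit 5) (nat_lit 306) (nat_lit 299) (nat_lit 175)) (XT.nd (nat_lit 78) (nat_lit 0) (nat_lit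 0) (XT.lf (nat_lit 0) (nat_lit 800324003) (nat_lit 760) (nat_lit 29179245781) (nat_lit 836) (nat_lit 3668095639) (nat_lit 83) (nat_lit 5) (nat_lit 93) (nat_lit 5) (nat_lit 94) (nat_lit 5) (nat_lit 307) (nat_lit 299) (nat_lit 174)) (XT.lf (nat_lit 0) (nat_lit 2854111199) (nat_lit 760) (nat_lit 13385409292) (nat_lit 836) (nat_lit 18309841964) (nat_lit 83) (nat_lit 5) (nat_lit 93) (nat_lit 5) (nat_lit 94) (nat_lit 5) (nat_lit 308) (nat_lit 299) (nat_lit 173)))))) (XT.nd (nat_lit 390) (nat_lit 684) (nat_lit 0) (XT.nd (nat_lit 156) (nat_lit 836) (nat_lit 0) (XT.nd (nat_lit 78) (nat_lit 0) (nat_lit 76) (XT.lf (nat_lit 76) (nat_lit 3300731720) (nat_lit 0) (nat_lit 1757724851) (nat_lit 836) (nat_lit 30435301108) (nat_lit 84) (nat_lit 5) (nat_lit 83) (nat_lit 5) (nat_lit 94) (nat_lit 5) (nat_lit 309) (nat_lit 299) (nat_lit 172)) (XT.lf (nat_lit 0) (nat_lit 7809859028) (nat_lit 760) (nat_lit 15405001352)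 (nat_lit 76) (nat_lit 13248676753) (nat_lit 84) (nat_lit 5) (nat_lit 94) (nat_lit 5) (nat_lit 85) (nat_lit 5) (nat_lit 310) (nat_lit 299) (nat_lit 171))) (XT.nd (nat_lit 78) (nat_lit 380) (nat_lit 0) (XT.lf (nat_lit 0) (nat_lit 2263016758) (nat_lit 532) (nat_lit 8496601810) (nat_lit 608) (nat_lit 26719153795) (nat_lit 77) (nat_lit 5) (nat_lit 84) (nat_lit 5) (nat_lit 85) (nat_lit 5) (nat_lit 311) (nat_lit 299) (nat_lit 170)) (XT.nd (nat_lit 78) (nat_lit 380) (nat_lit 0) (XT.lf (nat_lit 0) (nat_lit 14227418890) (nat_lit 608) (nat_lit 17298513142) (nat_lit 76) (nat_lit 7000315541) (nat_lit 77) (nat_lit 5) (nat_lit 85) (nat_lit 5) (nat_lit 78) (nat_lit 5) (nat_lit 312) (nat_lit 299) (nat_lit 169)) (XT.lf (nat_lit 0) (nat_lit 1417680455) (nat_lit 380) (nat_lit 16609263277) (nat_lit 456) (nat_lit 21591241665) (nat_lit 72) (nat_lit 5) (nat_lit 77) (nat_lit 5) (nat_lit 78) (nat_lit 5) (nat_lit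 313) (nat_lit 299) (nat_lit 168))))) (XT.nd (nat_lit 234) (nat_lit 380) (nat_lit 0) (XT.nd (nat_lit 78) (nat_lit 304) (nat_lit 0) (XT.lf (nat_lit 0) (nat_lit 21667300326) (nat_lit 380) (nat_lit 639116180) (nat_lit 456) (nat_lit 18443810336) (nat_lit 72) (nat_lit 5) (nat_lit 77) (nat_lit 5) (nat_lit 78) (nat_lit 5) (nat_lit 314) (nat_lit 299) (nat_lit 167)) (XT.nd (nat_lit 78) (nat_lit 0) (nat_lit 0) (XT.lf (nat_lit 0) (nat_lit 760074490) (nat_lit 304) (nat_lit 26300638422) (nat_lit 380) (nat_lit 14865120009) (nat_lit 68) (nat_lit 5) (nat_lit 72) (nat_lit 5) (nat_lit 73) (nat_lit 5) (nat_lit 315) (nat_lit 299) (nat_lit 166)) (XT.lf (nat_lit 0) (nat_lit 22244009429) (nat_lit 304) (nat_lit 10139447462) (nat_lit 380) (nat_lit 10760230595) (nat_lit 68) (nat_lit 5) (nat_lit 72) (nat_lit 5) (nat_lit 73) (nat_lit 5) (nat_lit 316) (nat_lit 299) (nat_lit 165)))) (XT.nd (nat_lit 78) (nat_lit 76)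 (nat_lit 0) (XT.lf (nat_lit 0) (nat_lit 279103584) (nat_lit 304) (nat_lit 37801599129) (nat_lit 380) (nat_lit 6336318425) (nat_lit 64) (nat_lit 5) (nat_lit 68) (nat_lit 5) (nat_lit 69) (nat_lit 5) (nat_lit 317) (nat_lit 299) (nat_lit 164)) (XT.nd (nat_lit 78) (nat_lit 76) (nat_lit 0) (XT.lf (nat_lit 0) (nat_lit 23067840878) (nat_lit 304) (nat_lit 21509910688) (nat_lit 380) (nat_lit 1150527240) (nat_lit 64) (nat_lit 5) (nat_lit 68) (nat_lit 5) (nat_lit 69) (nat_lit 5) (nat_lit 318) (nat_lit 299) (nat_lit 163)) (XT.lf (nat_lit 0) (nat_lit 4154633497) (nat_lit 380) (nat_lit 178940472) (nat_lit 76) (nat_lit 42768300227) (nat_lit 63) (nat_lit 5) (nat_lit 68) (nat_lit 5) (nat_lit 64) (nat_lit 5) (nat_lit 319) (nat_lit 299) (nat_lit 162))))))))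
noncomputable def xc208 : XT := (XT.nd (nat_lit 1560) (nat_lit 1216) (nat_lit 0) (XT.nd (nat_lit 780) (nat_lit 1064) (nat_lit 0) (XT.nd (nat_lit 390) (nat_lit 532) (nat_lit 0) (XT.nd (nat_lit 156) (nat_lit 532) (nat_lit 0) (XT.nd (nat_lit 78) (nat_lit 0) (nat_lit 0) (XT.lf (nat_lit 0) (nat_lit 10281951392) (nat_lit 380) (nat_lit 24565888772) (nat_lit 76) (nat_lit 13665591694) (nat_lit 59) (nat_lit 5) (nat_lit 64) (nat_lit 5) (nat_lit 60) (nat_lit 5) (nat_lit 320) (nat_lit 299) (nat_lit 161)) (XT.lf (nat_lit 0) (nat_lit 16787472908) (nat_lit 380) (nat_lit 782686011) (nat_lit 76) (nat_lit 32421820195) (nat_lit 59) (nat_lit 5) (nat_lit 64) (nat_lit 5) (nat_lit 60) (nat_lit 5) (nat_lit 321) (nat_lit 299) (nat_lit 160))) (XT.nd (nat_lit 78) (nat_lit 228) (nat_lit 0) (XT.lf (nat_lit 0) (nat_lit 24021518437) (nat_lit 380) (nat_lit 26553570443) (nat_lit 76) (nat_lit 949205881) (nat_lit 55) (nat_lit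 5) (nat_lit 60) (nat_lit 5) (nat_lit 56) (nat_lit 5) (nat_lit 322) (nat_lit 299) (nat_lit 159)) (XT.nd (nat_lit 78) (nat_lit 228) (nat_lit 0) (XT.lf (nat_lit 0) (nat_lit 31916654671) (nat_lit 380) (nat_lit 1384508445) (nat_lit 76) (nat_lit 19817096915) (nat_lit 55) (nat_lit 5) (nat_lit 60) (nat_lit 5) (nat_lit 56) (nat_lit 5) (nat_lit 323) (nat_lit 299) (nat_lit 158)) (XT.lf (nat_lit 0) (nat_lit 25868414046) (nat_lit 228) (nat_lit 14739993609) (nat_lit 304) (nat_lit 14163426020) (nat_lit 52) (nat_lit 5) (nat_lit 55) (nat_lit 5) (nat_lit 56) (nat_lit 5) (nat_lit 324) (nat_lit 299) (nat_lit 157))))) (XT.nd (nat_lit 156) (nat_lit 228) (nat_lit 0) (XT.nd (nat_lit 78) (nat_lit 304) (nat_lit 0) (XT.lf (nat_lit 0) (nat_lit 49830758952) (nat_lit 304) (nat_lit 2051992178) (nat_lit 76) (nat_lit 4620537297) (nat_lit 52) (nat_lit 5) (nat_lit 56) (nat_lit 5) (nat_lit 53) (nat_lit 5) (nat_lit 325)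 (nat_lit 299) (nat_lit 156)) (XT.lf (nat_lit 0) (nat_lit 1822977900) (nat_lit 304) (nat_lit 31563650640) (nat_lit 76) (nat_lit 24900346492) (nat_lit 48) (nat_lit 5) (nat_lit 52) (nat_lit 5) (nat_lit 49) (nat_lit 5) (nat_lit 326) (nat_lit 299) (nat_lit 155))) (XT.nd (nat_lit 78) (nat_lit 228) (nat_lit 0) (XT.lf (nat_lit 0) (nat_lit 10552483847) (nat_lit 304) (nat_lit 3261911998) (nat_lit 76) (nat_lit 46338310196) (nat_lit 48) (nat_lit 5) (nat_lit 52) (nat_lit 5) (nat_lit 49) (nat_lit 5) (nat_lit 327) (nat_lit 299) (nat_lit 154)) (XT.nd (nat_lit 78) (nat_lit 0) (nat_lit 0) (XT.lf (nat_lit 0) (nat_lit 20255509797) (nat_lit 304) (nat_lit 34875464220) (nat_lit 76) (nat_lit 6953899783) (nat_lit 45) (nat_lit 5) (nat_lit 49) (nat_lit 5) (nat_lit 46) (nat_lit 5) (nat_lit 328) (nat_lit 299) (nat_lit 153)) (XT.lf (nat_lit 0) (nat_lit 30724569508) (nat_lit 304) (nat_lit 5023132571) (nat_lit 76)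 (nat_lit 28351906063) (nat_lit 45) (nat_lit 5) (nat_lit 49) (nat_lit 5) (nat_lit 46) (nat_lit 5) (nat_lit 329) (nat_lit 299) (nat_lit 152)))))) (XT.nd (nat_lit 390) (nat_lit 380) (nat_lit 0) (XT.nd (nat_lit 156) (nat_lit 456) (nat_lit 0) (XT.nd (nat_lit 78) (nat_lit 0) (nat_lit 0) (XT.lf (nat_lit 0) (nat_lit 27189755671) (nat_lit 228) (nat_lit 14950186526) (nat_lit 304) (nat_lit 24053996213) (nat_lit 42) (nat_lit 5) (nat_lit 45) (nat_lit 5) (nat_lit 46) (nat_lit 5) (nat_lit 330) (nat_lit 299) (nat_lit 151)) (XT.lf (nat_lit 0) (nat_lit 54318460384) (nat_lit 304) (nat_lit 7312311636) (nat_lit 76) (nat_lit 6752596429) (nat_lit 42) (nat_lit 5) (nat_lit 46) (nat_lit 5) (nat_lit 43) (nat_lit 5) (nat_lit 331) (nat_lit 299) (nat_lit 150))) (XT.nd (nat_lit 78) (nat_lit 304) (nat_lit 0) (XT.lf (nat_lit 0) (nat_lit 26567157320) (nat_lit 152) (nat_lit 41197081429) (nat_lit 228) (nat_lit 2885116532)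 (nat_lit 40) (nat_lit 5) (nat_lit 42) (nat_lit 5) (nat_lit 43) (nat_lit 5) (nat_lit 332) (nat_lit 299) (nat_lit 149)) (XT.nd (nat_lit 78) (nat_lit 228) (nat_lit 0) (XT.lf (nat_lit 0) (nat_lit 8694633791) (nat_lit 228) (nat_lit 10770485542) (nat_lit 76) (nat_lit 53550395324) (nat_lit 39) (nat_lit 5) (nat_lit 42) (nat_lit 5) (nat_lit 40) (nat_lit 5) (nat_lit 333) (nat_lit 299) (nat_lit 148)) (XT.lf (nat_lit 0) (nat_lit 21204103520) (nat_lit 304) (nat_lit 50581586208) (nat_lit 76) (nat_lit 3689544616) (nat_lit 36) (nat_lit 5) (nat_lit 40) (nat_lit 5) (nat_lit 37) (nat_lit 5) (nat_lit 334) (nat_lit 299) (nat_lit 147))))) (XT.nd (nat_lit 156) (nat_lit 228) (nat_lit 0) (XT.nd (nat_lit 78) (nat_lit 152) (nat_lit 0) (XT.lf (nat_lit 0) (nat_lit 34842113153) (nat_lit 304) (nat_lit 15658157554) (nat_lit 76) (nat_lit 27532517638) (nat_lit 36) (nat_lit 5) (nat_lit 40) (nat_lit 5) (nat_lit 37) (nat_lit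 5) (nat_lit 335) (nat_lit 299) (nat_lit 146)) (XT.lf (nat_lit 0) (nat_lit 21704047988) (nat_lit 152) (nat_lit 27795476766) (nat_lit 228) (nat_lit 31201821784) (nat_lit 34) (nat_lit 5) (nat_lit 36) (nat_lit 5) (nat_lit 37) (nat_lit 5) (nat_lit 336) (nat_lit 299) (nat_lit 145))) (XT.nd (nat_lit 78) (nat_lit 228) (nat_lit 0) (XT.lf (nat_lit 0) (nat_lit 61475953276) (nat_lit 152) (nat_lit 3677705711) (nat_lit 228) (nat_lit 18336482548) (nat_lit 34) (nat_lit 5) (nat_lit 36) (nat_lit 5) (nat_lit 37) (nat_lit 5) (nat_lit 337) (nat_lit 299) (nat_lit 144)) (XT.nd (nat_lit 78) (nat_lit 76) (nat_lit 0) (XT.lf (nat_lit 0) (nat_lit 17022981163) (nat_lit 152) (nat_lit 65169975543) (nat_lit 228) (nat_lit 4195298159) (nat_lit 32) (nat_lit 5) (nat_lit 34) (nat_lit 5) (nat_lit 35) (nat_lit 5) (nat_lit 338) (nat_lit 299) (nat_lit 143)) (XT.lf (nat_lit 0) (nat_lit 10749942477) (nat_lit 228) (nat_lit 30871060471)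 (nat_lit 76) (nat_lit 47780058197) (nat_lit 31) (nat_lit 5) (nat_lit 34) (nat_lit 5) (nat_lit 32) (nat_lit 5) (nat_lit 339) (nat_lit 299) (nat_lit 142))))))) (XT.nd (nat_lit 780) (nat_lit 608) (nat_lit 0) (XT.nd (nat_lit 390) (nat_lit 304) (nat_lit 0) (XT.nd (nat_lit 156) (nat_lit 152) (nat_lit 0) (XT.nd (nat_lit 78) (nat_lit 0) (nat_lit 0) (XT.lf (nat_lit 0) (nat_lit 9790546470) (nat_lit 152) (nat_lit 16662562068) (nat_lit 228) (nat_lit 66100379016) (nat_lit 29) (nat_lit 5) (nat_lit 31) (nat_lit 5) (nat_lit 32) (nat_lit 5) (nat_lit 340) (nat_lit 299) (nat_lit 141)) (XT.lf (nat_lit 0) (nat_lit 43620637915) (nat_lit 228) (nat_lit 42439882179) (nat_lit 76) (nat_lit 9769056111) (nat_lit 29) (nat_lit 5) (nat_lit 32) (nat_lit 5) (nat_lit 30) (nat_lit 5) (nat_lit 341) (nat_lit 299) (nat_lit 140))) (XT.nd (nat_lit 78) (nat_lit 152) (nat_lit 0) (XT.lf (nat_lit 0) (nat_lit 61918569491) (nat_lit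 228) (nat_lit 375654458) (nat_lit 76) (nat_lit 36961645166) (nat_lit 29) (nat_lit 5) (nat_lit 32) (nat_lit 5) (nat_lit 30) (nat_lit 5) (nat_lit 342) (nat_lit 299) (nat_lit 139)) (XT.nd (nat_lit 78) (nat_lit 0) (nat_lit 0) (XT.lf (nat_lit 0) (nat_lit 45237940915) (nat_lit 152) (nat_lit 36598670604) (nat_lit 228) (nat_lit 20981605522) (nat_lit 27) (nat_lit 5) (nat_lit 29) (nat_lit 5) (nat_lit 30) (nat_lit 5) (nat_lit 343) (nat_lit 299) (nat_lit 138)) (XT.lf (nat_lit 0) (nat_lit 93143545645) (nat_lit 152) (nat_lit 9612319288) (nat_lit 228) (nat_lit 3802552976) (nat_lit 27) (nat_lit 5) (nat_lit 29) (nat_lit 5) (nat_lit 30) (nat_lit 5) (nat_lit 344) (nat_lit 299) (nat_lit 137))))) (XT.nd (nat_lit 156) (nat_lit 152) (nat_lit 0) (XT.nd (nat_lit 78) (nat_lit 0) (nat_lit 0) (XT.lf (nat_lit 0) (nat_lit 14611403782) (nat_lit 152) (nat_lit 76935537621) (nat_lit 76) (nat_lit 18885996824) (nat_lit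 25) (nat_lit 5) (nat_lit 27) (nat_lit 5) (nat_lit 26) (nat_lit 5) (nat_lit 345) (nat_lit 299) (nat_lit 136)) (XT.lf (nat_lit 0) (nat_lit 34205751521) (nat_lit 152) (nat_lit 31494123544) (nat_lit 76) (nat_lit 48778819328) (nat_lit 25) (nat_lit 5) (nat_lit 27) (nat_lit 5) (nat_lit 26) (nat_lit 5) (nat_lit 346) (nat_lit 299) (nat_lit 135))) (XT.nd (nat_lit 78) (nat_lit 0) (nat_lit 0) (XT.lf (nat_lit 0) (nat_lit 16753994425) (nat_lit 152) (nat_lit 38286440091) (nat_lit 228) (nat_lit 63673273790) (nat_lit 23) (nat_lit 5) (nat_lit 25) (nat_lit 5) (nat_lit 26) (nat_lit 5) (nat_lit 347) (nat_lit 299) (nat_lit 134)) (XT.nd (nat_lit 78) (nat_lit 0) (nat_lit 0) (XT.lf (nat_lit 0) (nat_lit 68506349679) (nat_lit 152) (nat_lit 8942932365) (nat_lit 228) (nat_lit 45684570145) (nat_lit 23) (nat_lit 5) (nat_lit 25) (nat_lit 5) (nat_lit 26) (nat_lit 5) (nat_lit 348) (nat_lit 299) (nat_lit 133)) (XT.lf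 (nat_lit 0) (nat_lit 101319086192) (nat_lit 228) (nat_lit 5271631948) (nat_lit 76) (nat_lit 21167260169) (nat_lit 23) (nat_lit 5) (nat_lit 26) (nat_lit 5) (nat_lit 24) (nat_lit 4) (nat_lit 349) (nat_lit 299) (nat_lit 132)))))) (XT.nd (nat_lit 390) (nat_lit 304) (nat_lit 0) (XT.nd (nat_lit 156) (nat_lit 152) (nat_lit 0) (XT.nd (nat_lit 78) (nat_lit 76) (nat_lit 0) (XT.lf (nat_lit 0) (nat_lit 47938289919) (nat_lit 76) (nat_lit 79338287479) (nat_lit 152) (nat_lit 5292024214) (nat_lit 22) (nat_lit 5) (nat_lit 23) (nat_lit 5) (nat_lit 24) (nat_lit 4) (nat_lit 350) (nat_lit 299) (nat_lit 131)) (XT.lf (nat_lit 0) (nat_lit 16460777070) (nat_lit 152) (nat_lit 33890542167) (nat_lit 76) (nat_lit 87250740881) (nat_lit 21) (nat_lit 5) (nat_lit 23) (nat_lit 5) (nat_lit 22) (nat_lit 5) (nat_lit 351) (nat_lit 299) (nat_lit 130))) (XT.nd (nat_lit 78) (nat_lit 0) (nat_lit 0) (XT.lf (nat_lit 0) (nat_lit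 19936145545) (nat_lit 152) (nat_lit 19497670391) (nat_lit 228) (nat_lit 103433516301) (nat_lit 19) (nat_lit 5) (nat_lit 21) (nat_lit 5) (nat_lit 22) (nat_lit 5) (nat_lit 352) (nat_lit 299) (nat_lit 129)) (XT.nd (nat_lit 78) (nat_lit 0) (nat_lit 0) (XT.lf (nat_lit 0) (nat_lit 64339446249) (nat_lit 228) (nat_lit 70948598774) (nat_lit 76) (nat_lit 13068626553) (nat_lit 19) (nat_lit 5) (nat_lit 22) (nat_lit 5) (nat_lit 20) (nat_lit 4) (nat_lit 353) (nat_lit 299) (nat_lit 128)) (XT.lf (nat_lit 0) (nat_lit 90809223891) (nat_lit 228) (nat_lit 16687854339) (nat_lit 76) (nat_lit 46607456925) (nat_lit 19) (nat_lit 5) (nat_lit 22) (nat_lit 5) (nat_lit 20) (nat_lit 4) (nat_lit 354) (nat_lit 299) (nat_lit 127))))) (XT.nd (nat_lit 156) (nat_lit 228) (nat_lit 0) (XT.nd (nat_lit 78) (nat_lit 0) (nat_lit 0) (XT.lf (nat_lit 0) (nat_lit 41616644668) (nat_lit 76) (nat_lit 77634866651) (nat_lit 152) (nat_lit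 40855830086) (nat_lit 18) (nat_lit 5) (nat_lit 19) (nat_lit 5) (nat_lit 20) (nat_lit 4) (nat_lit 355) (nat_lit 299) (nat_lit 126)) (XT.lf (nat_lit 0) (nat_lit 103414478636) (nat_lit 76) (nat_lit 45983335070) (nat_lit 152) (nat_lit 16998379743) (nat_lit 18) (nat_lit 5) (nat_lit 19) (nat_lit 5) (nat_lit 20) (nat_lit 4) (nat_lit 356) (nat_lit 299) (nat_lit 125))) (XT.nd (nat_lit 78) (nat_lit 152) (nat_lit 0) (XT.lf (nat_lit 0) (nat_lit 7793536805) (nat_lit 152) (nat_lit 4824215463) (nat_lit 76) (nat_lit 160375485313) (nat_lit 17) (nat_lit 5) (nat_lit 19) (nat_lit 5) (nat_lit 18) (nat_lit 5) (nat_lit 357) (nat_lit 299) (nat_lit 124)) (XT.nd (nat_lit 78) (nat_lit 0) (nat_lit 0) (XT.lf (nat_lit 0) (nat_lit 34525069035) (nat_lit 228) (nat_lit 122418768525) (nat_lit 76) (nat_lit 22898799857) (nat_lit 15) (nat_lit 5) (nat_lit 18) (nat_lit 5) (nat_lit 16) (nat_lit 4) (nat_lit 358) (nat_lit 299)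 (nat_lit 123)) (XT.lf (nat_lit 0) (nat_lit 62882411169) (nat_lit 228) (nat_lit 64287933246) (nat_lit 76) (nat_lit 59849701587) (nat_lit 15) (nat_lit 5) (nat_lit 18) (nat_lit 5) (nat_lit 16) (nat_lit 4) (nat_lit 359) (nat_lit 299) (nat_lit 122))))))))
noncomputable def xc209 : XT := (XT.nd (nat_lit 36036) (nat_lit 0) (nat_lit 4180) (XT.nd (nat_lit 780) (nat_lit 228) (nat_lit 0) (XT.nd (nat_lit 390) (nat_lit 76) (nat_lit 0) (XT.nd (nat_lit 156) (nat_lit 152) (nat_lit 0) (XT.nd (nat_lit 78) (nat_lit 76) (nat_lit 0) (XT.lf (nat_lit 0) (nat_lit 92656996713) (nat_lit 228) (nat_lit 3251667257) (nat_lit 76) (nat_lit 98647692632) (nat_lit 15) (nat_lit 5) (nat_lit 18) (nat_lit 5) (nat_lit 16) (nat_lit 4) (nat_lit 360) (nat_lit 299) (nat_lit 121)) (XT.lf (nat_lit 0) (nat_lit 62846845425) (nat_lit 76) (nat_lit 62054087498) (nat_lit 152) (nat_lit 77519519120) (nat_lit 14) (nat_lit 5) (nat_lit 15)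 (nat_lit 5) (nat_lit 16) (nat_lit 4) (nat_lit 361) (nat_lit 299) (nat_lit 120))) (XT.nd (nat_lit 78) (nat_lit 152) (nat_lit 0) (XT.lf (nat_lit 0) (nat_lit 132362133208) (nat_lit 76) (nat_lit 26449419330) (nat_lit 152) (nat_lit 51863475751) (nat_lit 14) (nat_lit 5) (nat_lit 15) (nat_lit 5) (nat_lit 16) (nat_lit 4) (nat_lit 362) (nat_lit 299) (nat_lit 119)) (XT.nd (nat_lit 78) (nat_lit 152) (nat_lit 0) (XT.lf (nat_lit 0) (nat_lit 194587875579) (nat_lit 152) (nat_lit 14160894229) (nat_lit 0) (nat_lit 10585055263) (nat_lit 14) (nat_lit 5) (nat_lit 16) (nat_lit 4) (nat_lit 14) (nat_lit 4) (nat_lit 363) (nat_lit 299) (nat_lit 118)) (XT.lf (nat_lit 0) (nat_lit 4913299033) (nat_lit 152) (nat_lit 173931837873) (nat_lit 76) (nat_lit 49512257915) (nat_lit 12) (nat_lit 5) (nat_lit 14) (nat_lit 5) (nat_lit 13) (nat_lit 4) (nat_lit 364) (nat_lit 299) (nat_lit 117))))) (XT.nd (nat_lit 156) (nat_lit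 76) (nat_lit 0) (XT.nd (nat_lit 78) (nat_lit 0) (nat_lit 0) (XT.lf (nat_lit 0) (nat_lit 35467104292) (nat_lit 152) (nat_lit 111297756688) (nat_lit 76) (nat_lit 91034837786) (nat_lit 12) (nat_lit 5) (nat_lit 14) (nat_lit 5) (nat_lit 13) (nat_lit 4) (nat_lit 365) (nat_lit 299) (nat_lit 116)) (XT.lf (nat_lit 0) (nat_lit 67548092557) (nat_lit 152) (nat_lit 45532892267) (nat_lit 76) (nat_lit 134633158734) (nat_lit 12) (nat_lit 5) (nat_lit 14) (nat_lit 5) (nat_lit 13) (nat_lit 4) (nat_lit 366) (nat_lit 299) (nat_lit 115))) (XT.nd (nat_lit 78) (nat_lit 0) (nat_lit 0) (XT.lf (nat_lit 0) (nat_lit 24296993946) (nat_lit 76) (nat_lit 77314997354) (nat_lit 152) (nat_lit 156493376506) (nat_lit 11) (nat_lit 5) (nat_lit 12) (nat_lit 5) (nat_lit 13) (nat_lit 4) (nat_lit 367) (nat_lit 299) (nat_lit 114)) (XT.nd (nat_lit 78) (nat_lit 0) (nat_lit 0) (XT.lf (nat_lit 0) (nat_lit 99198310844) (nat_lit 76)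 (nat_lit 38951422129) (nat_lit 152) (nat_lit 130827888151) (nat_lit 11) (nat_lit 5) (nat_lit 12) (nat_lit 5) (nat_lit 13) (nat_lit 4) (nat_lit 368) (nat_lit 299) (nat_lit 113)) (XT.lf (nat_lit 0) (nat_lit 176534675135) (nat_lit 152) (nat_lit 102570402480) (nat_lit 0) (nat_lit 1287394070) (nat_lit 11) (nat_lit 5) (nat_lit 13) (nat_lit 4) (nat_lit 11) (nat_lit 4) (nat_lit 369) (nat_lit 299) (nat_lit 112)))))) (XT.nd (nat_lit 390) (nat_lit 76) (nat_lit 0) (XT.nd (nat_lit 156) (nat_lit 76) (nat_lit 0) (XT.nd (nat_lit 78) (nat_lit 76) (nat_lit 0) (XT.lf (nat_lit 0) (nat_lit 217476977254) (nat_lit 152) (nat_lit 32640396002) (nat_lit 0) (nat_lit 42228786108) (nat_lit 11) (nat_lit 5) (nat_lit 13) (nat_lit 4) (nat_lit 11) (nat_lit 4) (nat_lit 370) (nat_lit 299) (nat_lit 111)) (XT.lf (nat_lit 0) (nat_lit 42133897891) (nat_lit 76) (nat_lit 218989910479) (nat_lit 76) (nat_lit 43740852587) (nat_lit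 10) (nat_lit 4) (nat_lit 11) (nat_lit 5) (nat_lit 11) (nat_lit 4) (nat_lit 371) (nat_lit 299) (nat_lit 110))) (XT.nd (nat_lit 78) (nat_lit 76) (nat_lit 0) (XT.lf (nat_lit 0) (nat_lit 121779358824) (nat_lit 76) (nat_lit 185725996825) (nat_lit 76) (nat_lit 10476113462) (nat_lit 10) (nat_lit 4) (nat_lit 11) (nat_lit 5) (nat_lit 11) (nat_lit 4) (nat_lit 372) (nat_lit 299) (nat_lit 109)) (XT.nd (nat_lit 78) (nat_lit 0) (nat_lit 0) (XT.lf (nat_lit 0) (nat_lit 23668856826) (nat_lit 152) (nat_lit 126729513031) (nat_lit 76) (nat_lit 181336679577) (nat_lit 9) (nat_lit 5) (nat_lit 11) (nat_lit 5) (nat_lit 10) (nat_lit 4) (nat_lit 373) (nat_lit 299) (nat_lit 108)) (XT.lf (nat_lit 0) (nat_lit 59168634774) (nat_lit 152) (nat_lit 53955716963) (nat_lit 76) (nat_lit 233043388978) (nat_lit 9) (nat_lit 5) (nat_lit 11) (nat_lit 5) (nat_lit 10) (nat_lit 4) (nat_lit 374) (nat_lit 299) (nat_lit 107))))) (XT.nd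 (nat_lit 156) (nat_lit 0) (nat_lit 0) (XT.nd (nat_lit 78) (nat_lit 0) (nat_lit 0) (XT.lf (nat_lit 0) (nat_lit 23198610772) (nat_lit 76) (nat_lit 73606629274) (nat_lit 152) (nat_lit 264498734768) (nat_lit 8) (nat_lit 5) (nat_lit 9) (nat_lit 5) (nat_lit 10) (nat_lit 4) (nat_lit 375) (nat_lit 299) (nat_lit 106)) (XT.lf (nat_lit 0) (nat_lit 106083227616) (nat_lit 76) (nat_lit 31153864119) (nat_lit 152) (nat_lit 239914258242) (nat_lit 8) (nat_lit 5) (nat_lit 9) (nat_lit 5) (nat_lit 10) (nat_lit 4) (nat_lit 376) (nat_lit 299) (nat_lit 105))) (XT.nd (nat_lit 78) (nat_lit 0) (nat_lit 0) (XT.lf (nat_lit 0) (nat_lit 179899746066) (nat_lit 152) (nat_lit 200889195917) (nat_lit 0) (nat_lit 12991691571) (nat_lit 8) (nat_lit 5) (nat_lit 10) (nat_lit 4) (nat_lit 8) (nat_lit 4) (nat_lit 377) (nat_lit 299) (nat_lit 104)) (XT.nd (nat_lit 34554) (nat_lit 0) (nat_lit 6232) (XT.lf (nat_lit 0) (nat_lit 225205930497)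 (nat_lit 152) (nat_lit 127712641738) (nat_lit 0) (nat_lit 58297289355) (nat_lit 8) (nat_lit 5) (nat_lit 10) (nat_lit 4) (nat_lit 8) (nat_lit 4) (nat_lit 378) (nat_lit 299) (nat_lit 103)) (XT.lf (nat_lit 0) (nat_lit 5754101192) (nat_lit 0) (nat_lit 5754101192) (nat_lit 684) (nat_lit 2908222594) (nat_lit 90) (nat_lit 5) (nat_lit 90) (nat_lit 3) (nat_lit 99) (nat_lit 3) (nat_lit 300) (nat_lit 300) (nat_lit 180))))))) (XT.nd (nat_lit 780) (nat_lit 1520) (nat_lit 0) (XT.nd (nat_lit 390) (nat_lit 532) (nat_lit 0) (XT.nd (nat_lit 156) (nat_lit 0) (nat_lit 0) (XT.nd (nat_lit 78) (nat_lit 0) (nat_lit 0) (XT.lf (nat_lit 0) (nat_lit 23691087464) (nat_lit 684) (nat_lit 4283979821) (nat_lit 760) (nat_lit 1573491213) (nat_lit 90) (nat_lit 5) (nat_lit 99) (nat_lit 3) (nat_lit 100) (nat_lit 5) (nat_lit 301) (nat_lit 300) (nat_lit 179)) (XT.lf (nat_lit 76) (nat_lit 9522183571) (nat_lit 0) (nat_lit 15209954555)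 (nat_lit 760) (nat_lit 5551292191) (nat_lit 91) (nat_lit 5) (nat_lit 90) (nat_lit 5) (nat_lit 100) (nat_lit 5) (nat_lit 302) (nat_lit 300) (nat_lit 178))) (XT.nd (nat_lit 78) (nat_lit 0) (nat_lit 76) (XT.lf (nat_lit 76) (nat_lit 24164779916) (nat_lit 0) (nat_lit 1728502292) (nat_lit 760) (nat_lit 5158370563) (nat_lit 91) (nat_lit 5) (nat_lit 90) (nat_lit 5) (nat_lit 100) (nat_lit 5) (nat_lit 303) (nat_lit 300) (nat_lit 177)) (XT.nd (nat_lit 78) (nat_lit 0) (nat_lit 0) (XT.lf (nat_lit 76) (nat_lit 7731936306) (nat_lit 0) (nat_lit 19691017754) (nat_lit 760) (nat_lit 4419817414) (nat_lit 92) (nat_lit 5) (nat_lit 91) (nat_lit 5) (nat_lit 101) (nat_lit 5) (nat_lit 304) (nat_lit 300) (nat_lit 176)) (XT.lf (nat_lit 76) (nat_lit 23288820636) (nat_lit 0) (nat_lit 5880694406) (nat_lit 760) (nat_lit 3496919037) (nat_lit 92) (nat_lit 5) (nat_lit 91) (nat_lit 5) (nat_lit 101) (nat_lit 5) (nat_lit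 305) (nat_lit 300) (nat_lit 175))))) (XT.nd (nat_lit 156) (nat_lit 684) (nat_lit 0) (XT.nd (nat_lit 78) (nat_lit 0) (nat_lit 0) (XT.lf (nat_lit 76) (nat_lit 6151795263) (nat_lit 0) (nat_lit 25078350741) (nat_lit 760) (nat_lit 2289804566) (nat_lit 93) (nat_lit 5) (nat_lit 92) (nat_lit 5) (nat_lit 102) (nat_lit 5) (nat_lit 306) (nat_lit 300) (nat_lit 174)) (XT.lf (nat_lit 76) (nat_lit 22680911144) (nat_lit 0) (nat_lit 10962814670) (nat_lit 760) (nat_lit 759928683) (nat_lit 93) (nat_lit 5) (nat_lit 92) (nat_lit 5) (nat_lit 102) (nat_lit 5) (nat_lit 307) (nat_lit 300) (nat_lit 173))) (XT.nd (nat_lit 78) (nat_lit 0) (nat_lit 0) (XT.lf (nat_lit 0) (nat_lit 953056861) (nat_lit 760) (nat_lit 30544976230) (nat_lit 836) (nat_lit 3826171183) (nat_lit 83) (nat_lit 5) (nat_lit 93) (nat_lit 5) (nat_lit 94) (nat_lit 5) (nat_lit 308) (nat_lit 300) (nat_lit 172)) (XT.nd (nat_lit 78) (nat_lit 0) (nat_lit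 0) (XT.lf (nat_lit 0) (nat_lit 3104165957) (nat_lit 760) (nat_lit 13965887528) (nat_lit 836) (nat_lit 19201210978) (nat_lit 83) (nat_lit 5) (nat_lit 93) (nat_lit 5) (nat_lit 94) (nat_lit 5) (nat_lit 309) (nat_lit 300) (nat_lit 171)) (XT.lf (nat_lit 76) (nat_lit 3553128403) (nat_lit 0) (nat_lit 1861852264) (nat_lit 836) (nat_lit 31848095637) (nat_lit 84) (nat_lit 5) (nat_lit 83) (nat_lit 5) (nat_lit 94) (nat_lit 5) (nat_lit 310) (nat_lit 300) (nat_lit 170)))))) (XT.nd (nat_lit 390) (nat_lit 684) (nat_lit 0) (XT.nd (nat_lit 156) (nat_lit 380) (nat_lit 0) (XT.nd (nat_lit 78) (nat_lit 532) (nat_lit 0) (XT.lf (nat_lit 0) (nat_lit 8298778358) (nat_lit 760) (nat_lit 16086696251) (nat_lit 76) (nat_lit 13896137875) (nat_lit 84) (nat_lit 5) (nat_lit 94) (nat_lit 5) (nat_lit 85) (nat_lit 5) (nat_lit 311) (nat_lit 300) (nat_lit 169)) (XT.lf (nat_lit 0) (nat_lit 2463294455) (nat_lit 532) (nat_lit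 8929404744) (nat_lit 608) (nat_lit 27955085191) (nat_lit 77) (nat_lit 5) (nat_lit 84) (nat_lit 5) (nat_lit 85) (nat_lit 5) (nat_lit 312) (nat_lit 300) (nat_lit 168))) (XT.nd (nat_lit 78) (nat_lit 380) (nat_lit 0) (XT.lf (nat_lit 0) (nat_lit 15029242428) (nat_lit 608) (nat_lit 18075650296) (nat_lit 76) (nat_lit 7342981163) (nat_lit 77) (nat_lit 5) (nat_lit 85) (nat_lit 5) (nat_lit 78) (nat_lit 5) (nat_lit 313) (nat_lit 300) (nat_lit 167)) (XT.nd (nat_lit 78) (nat_lit 0) (nat_lit 0) (XT.lf (nat_lit 0) (nat_lit 1574937038) (nat_lit 380) (nat_lit 17440847727) (nat_lit 456) (nat_lit 22578779558) (nat_lit 72) (nat_lit 5) (nat_lit 77) (nat_lit 5) (nat_lit 78) (nat_lit 5) (nat_lit 314) (nat_lit 300) (nat_lit 166)) (XT.lf (nat_lit 0) (nat_lit 22832924924) (nat_lit 380) (nat_lit 672139880) (nat_lit 456) (nat_lit 19278358768) (nat_lit 72) (nat_lit 5) (nat_lit 77) (nat_lit 5) (nat_lit 78) (nat_lit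 5) (nat_lit 315) (nat_lit 300) (nat_lit 165))))) (XT.nd (nat_lit 156) (nat_lit 380) (nat_lit 0) (XT.nd (nat_lit 78) (nat_lit 0) (nat_lit 0) (XT.lf (nat_lit 0) (nat_lit 883272454) (nat_lit 304) (nat_lit 27611149842) (nat_lit 380) (nat_lit 15523527403) (nat_lit 68) (nat_lit 5) (nat_lit 72) (nat_lit 5) (nat_lit 73) (nat_lit 5) (nat_lit 316) (nat_lit 300) (nat_lit 164)) (XT.lf (nat_lit 0) (nat_lit 23437347272) (nat_lit 304) (nat_lit 10642114596) (nat_lit 380) (nat_lit 11217433928) (nat_lit 68) (nat_lit 5) (nat_lit 72) (nat_lit 5) (nat_lit 73) (nat_lit 5) (nat_lit 317) (nat_lit 300) (nat_lit 163))) (XT.nd (nat_lit 78) (nat_lit 76) (nat_lit 0) (XT.lf (nat_lit 0) (nat_lit 376733270) (nat_lit 304) (nat_lit 39682548448) (nat_lit 380) (nat_lit 6574735228) (nat_lit 64) (nat_lit 5) (nat_lit 68) (nat_lit 5) (nat_lit 69) (nat_lit 5) (nat_lit 318) (nat_lit 300) (nat_lit 162)) (XT.nd (nat_lit 78) (nat_lit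 76) (nat_lit 0) (XT.lf (nat_lit 0) (nat_lit 24300922928) (nat_lit 304) (nat_lit 22576710377) (nat_lit 380) (nat_lit 1133387775) (nat_lit 64) (nat_lit 5) (nat_lit 68) (nat_lit 5) (nat_lit 69) (nat_lit 5) (nat_lit 319) (nat_lit 300) (nat_lit 161)) (XT.lf (nat_lit 0) (nat_lit 4431199509) (nat_lit 380) (nat_lit 109605658) (nat_lit 76) (nat_lit 44912610403) (nat_lit 63) (nat_lit 5) (nat_lit 68) (nat_lit 5) (nat_lit 64) (nat_lit 5) (nat_lit 320) (nat_lit 300) (nat_lit 160))))))))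
noncomputable def xc210 : XT := (XT.nd (nat_lit 1560) (nat_lit 1216) (nat_lit 0) (XT.nd (nat_lit 780) (nat_lit 1064) (nat_lit 0) (XT.nd (nat_lit 390) (nat_lit 532) (nat_lit 0) (XT.nd (nat_lit 156) (nat_lit 532) (nat_lit 0) (XT.nd (nat_lit 78) (nat_lit 0) (nat_lit 0) (XT.lf (nat_lit 0) (nat_lit 10862968150) (nat_lit 380) (nat_lit 25713880873) (nat_lit 76) (nat_lit 14358803117) (nat_lit 59) (nat_lit 5) (nat_lit 64) (nat_lit 5) (nat_lit 60) (nat_lit 5) (nat_lit 321) (nat_lit 300) (nat_lit 159)) (XT.lf (nat_lit 0) (nat_lit 17690579114) (nat_lit 380) (nat_lit 745341895) (nat_lit 76) (nat_lit 34052370098) (nat_lit 59) (nat_lit 5) (nat_lit 64) (nat_lit 5) (nat_lit 60) (nat_lit 5) (nat_lit 322) (nat_lit 300) (nat_lit 158))) (XT.nd (nat_lit 78) (nat_lit 228) (nat_lit 0) (XT.lf (nat_lit 0) (nat_lit 25284675600) (nat_lit 380) (nat_lit 27803023673) (nat_lit 76) (nat_lit 1009610607) (nat_lit 55)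 (nat_lit 5) (nat_lit 60) (nat_lit 5) (nat_lit 56) (nat_lit 5) (nat_lit 323) (nat_lit 300) (nat_lit 157)) (XT.nd (nat_lit 78) (nat_lit 228) (nat_lit 0) (XT.lf (nat_lit 0) (nat_lit 33571612397) (nat_lit 380) (nat_lit 1379233589) (nat_lit 76) (nat_lit 20820279791) (nat_lit 55) (nat_lit 5) (nat_lit 60) (nat_lit 5) (nat_lit 56) (nat_lit 5) (nat_lit 324) (nat_lit 300) (nat_lit 156)) (XT.lf (nat_lit 0) (nat_lit 27235133409) (nat_lit 228) (nat_lit 15461148542) (nat_lit 304) (nat_lit 14811184039) (nat_lit 52) (nat_lit 5) (nat_lit 55) (nat_lit 5) (nat_lit 56) (nat_lit 5) (nat_lit 325) (nat_lit 300) (nat_lit 155))))) (XT.nd (nat_lit 156) (nat_lit 228) (nat_lit 0) (XT.nd (nat_lit 78) (nat_lit 304) (nat_lit 0) (XT.lf (nat_lit 0) (nat_lit 52377250513) (nat_lit 304) (nat_lit 2082200692) (nat_lit 76) (nat_lit 4866171416) (nat_lit 52) (nat_lit 5) (nat_lit 56) (nat_lit 5) (nat_lit 53) (nat_lit 5) (nat_lit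 326) (nat_lit 300) (nat_lit 154)) (XT.lf (nat_lit 0) (nat_lit 1968527876) (nat_lit 304) (nat_lit 33068736060) (nat_lit 76) (nat_lit 26161264923) (nat_lit 48) (nat_lit 5) (nat_lit 52) (nat_lit 5) (nat_lit 49) (nat_lit 5) (nat_lit 327) (nat_lit 300) (nat_lit 153))) (XT.nd (nat_lit 78) (nat_lit 228) (nat_lit 0) (XT.lf (nat_lit 0) (nat_lit 11131918593) (nat_lit 304) (nat_lit 3355391300) (nat_lit 76) (nat_lit 48670369617) (nat_lit 48) (nat_lit 5) (nat_lit 52) (nat_lit 5) (nat_lit 49) (nat_lit 5) (nat_lit 328) (nat_lit 300) (nat_lit 152)) (XT.nd (nat_lit 78) (nat_lit 0) (nat_lit 0) (XT.lf (nat_lit 0) (nat_lit 21318980336) (nat_lit 304) (nat_lit 36548437718) (nat_lit 76) (nat_lit 7319096772) (nat_lit 45) (nat_lit 5) (nat_lit 49) (nat_lit 5) (nat_lit 46) (nat_lit 5) (nat_lit 329) (nat_lit 300) (nat_lit 151)) (XT.lf (nat_lit 0) (nat_lit 32309078983) (nat_lit 304) (nat_lit 5206860902) (nat_lit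 76) (nat_lit 29786169937) (nat_lit 45) (nat_lit 5) (nat_lit 49) (nat_lit 5) (nat_lit 46) (nat_lit 5) (nat_lit 330) (nat_lit 300) (nat_lit 150)))))) (XT.nd (nat_lit 390) (nat_lit 380) (nat_lit 0) (XT.nd (nat_lit 156) (nat_lit 456) (nat_lit 0) (XT.nd (nat_lit 78) (nat_lit 0) (nat_lit 0) (XT.lf (nat_lit 0) (nat_lit 28615584199) (nat_lit 228) (nat_lit 15678372777) (nat_lit 304) (nat_lit 25207265874) (nat_lit 42) (nat_lit 5) (nat_lit 45) (nat_lit 5) (nat_lit 46) (nat_lit 5) (nat_lit 331) (nat_lit 300) (nat_lit 149)) (XT.lf (nat_lit 0) (nat_lit 57079449457) (nat_lit 304) (nat_lit 7612735278) (nat_lit 76) (nat_lit 7108040171) (nat_lit 42) (nat_lit 5) (nat_lit 46) (nat_lit 5) (nat_lit 43) (nat_lit 5) (nat_lit 332) (nat_lit 300) (nat_lit 148))) (XT.nd (nat_lit 78) (nat_lit 304) (nat_lit 0) (XT.lf (nat_lit 0) (nat_lit 27959655643) (nat_lit 152) (nat_lit 43236716507) (nat_lit 228) (nat_lit 2983198952)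 (nat_lit 40) (nat_lit 5) (nat_lit 42) (nat_lit 5) (nat_lit 43) (nat_lit 5) (nat_lit 333) (nat_lit 300) (nat_lit 147)) (XT.nd (nat_lit 78) (nat_lit 228) (nat_lit 0) (XT.lf (nat_lit 0) (nat_lit 9171932689) (nat_lit 228) (nat_lit 11246465529) (nat_lit 76) (nat_lit 56245713134) (nat_lit 39) (nat_lit 5) (nat_lit 42) (nat_lit 5) (nat_lit 40) (nat_lit 5) (nat_lit 334) (nat_lit 300) (nat_lit 146)) (XT.lf (nat_lit 0) (nat_lit 22306122432) (nat_lit 304) (nat_lit 53047319494) (nat_lit 76) (nat_lit 3893415186) (nat_lit 36) (nat_lit 5) (nat_lit 40) (nat_lit 5) (nat_lit 37) (nat_lit 5) (nat_lit 335) (nat_lit 300) (nat_lit 145))))) (XT.nd (nat_lit 156) (nat_lit 228) (nat_lit 0) (XT.nd (nat_lit 78) (nat_lit 152) (nat_lit 0) (XT.lf (nat_lit 0) (nat_lit 36624041417) (nat_lit 304) (nat_lit 16380735884) (nat_lit 76) (nat_lit 28927613366) (nat_lit 36) (nat_lit 5) (nat_lit 40) (nat_lit 5) (nat_lit 37) (nat_lit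 5) (nat_lit 336) (nat_lit 300) (nat_lit 144)) (XT.lf (nat_lit 0) (nat_lit 22848606878) (nat_lit 152) (nat_lit 29164747127) (nat_lit 228) (nat_lit 32721073434) (nat_lit 34) (nat_lit 5) (nat_lit 36) (nat_lit 5) (nat_lit 37) (nat_lit 5) (nat_lit 337) (nat_lit 300) (nat_lit 143))) (XT.nd (nat_lit 78) (nat_lit 228) (nat_lit 0) (XT.lf (nat_lit 0) (nat_lit 64606280931) (nat_lit 152) (nat_lit 3842063875) (nat_lit 228) (nat_lit 19214411971) (nat_lit 34) (nat_lit 5) (nat_lit 36) (nat_lit 5) (nat_lit 37) (nat_lit 5) (nat_lit 338) (nat_lit 300) (nat_lit 142)) (XT.nd (nat_lit 78) (nat_lit 76) (nat_lit 0) (XT.lf (nat_lit 0) (nat_lit 17931309804) (nat_lit 152) (nat_lit 68407718655) (nat_lit 228) (nat_lit 4366778248) (nat_lit 32) (nat_lit 5) (nat_lit 34) (nat_lit 5) (nat_lit 35) (nat_lit 5) (nat_lit 339) (nat_lit 300) (nat_lit 141)) (XT.lf (nat_lit 0) (nat_lit 11322734330) (nat_lit 228) (nat_lit 32358953732)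 (nat_lit 76) (nat_lit 50187625390) (nat_lit 31) (nat_lit 5) (nat_lit 34) (nat_lit 5) (nat_lit 32) (nat_lit 5) (nat_lit 340) (nat_lit 300) (nat_lit 140))))))) (XT.nd (nat_lit 780) (nat_lit 608) (nat_lit 0) (XT.nd (nat_lit 390) (nat_lit 304) (nat_lit 0) (XT.nd (nat_lit 156) (nat_lit 152) (nat_lit 0) (XT.nd (nat_lit 78) (nat_lit 0) (nat_lit 0) (XT.lf (nat_lit 0) (nat_lit 10334835818) (nat_lit 152) (nat_lit 17475397164) (nat_lit 228) (nat_lit 69369171200) (nat_lit 29) (nat_lit 5) (nat_lit 31) (nat_lit 5) (nat_lit 32) (nat_lit 5) (nat_lit 341) (nat_lit 300) (nat_lit 139)) (XT.lf (nat_lit 0) (nat_lit 45834799189) (nat_lit 228) (nat_lit 44508349675) (nat_lit 76) (nat_lit 10276217017) (nat_lit 29) (nat_lit 5) (nat_lit 32) (nat_lit 5) (nat_lit 30) (nat_lit 5) (nat_lit 342) (nat_lit 300) (nat_lit 138))) (XT.nd (nat_lit 78) (nat_lit 152) (nat_lit 0) (XT.lf (nat_lit 0) (nat_lit 65046049755) (nat_lit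 228) (nat_lit 343459454) (nat_lit 76) (nat_lit 38827544663) (nat_lit 29) (nat_lit 5) (nat_lit 32) (nat_lit 5) (nat_lit 30) (nat_lit 5) (nat_lit 343) (nat_lit 300) (nat_lit 137)) (XT.nd (nat_lit 78) (nat_lit 0) (nat_lit 0) (XT.lf (nat_lit 0) (nat_lit 47549993466) (nat_lit 152) (nat_lit 38409281019) (nat_lit 228) (nat_lit 21998282159) (nat_lit 27) (nat_lit 5) (nat_lit 29) (nat_lit 5) (nat_lit 30) (nat_lit 5) (nat_lit 344) (nat_lit 300) (nat_lit 136)) (XT.lf (nat_lit 0) (nat_lit 97848490076) (nat_lit 152) (nat_lit 10074532286) (nat_lit 228) (nat_lit 3961820016) (nat_lit 27) (nat_lit 5) (nat_lit 29) (nat_lit 5) (nat_lit 30) (nat_lit 5) (nat_lit 345) (nat_lit 300) (nat_lit 135))))) (XT.nd (nat_lit 156) (nat_lit 152) (nat_lit 0) (XT.nd (nat_lit 78) (nat_lit 0) (nat_lit 0) (XT.lf (nat_lit 0) (nat_lit 15371467112) (nat_lit 152) (nat_lit 80733127417) (nat_lit 76) (nat_lit 19848490358) (nat_lit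 25) (nat_lit 5) (nat_lit 27) (nat_lit 5) (nat_lit 26) (nat_lit 5) (nat_lit 346) (nat_lit 300) (nat_lit 134)) (XT.lf (nat_lit 0) (nat_lit 35944127803) (nat_lit 152) (nat_lit 33021984878) (nat_lit 76) (nat_lit 51235087621) (nat_lit 25) (nat_lit 5) (nat_lit 27) (nat_lit 5) (nat_lit 26) (nat_lit 5) (nat_lit 347) (nat_lit 300) (nat_lit 133))) (XT.nd (nat_lit 78) (nat_lit 0) (nat_lit 0) (XT.lf (nat_lit 0) (nat_lit 17637783427) (nat_lit 152) (nat_lit 40182143546) (nat_lit 228) (nat_lit 66828069997) (nat_lit 23) (nat_lit 5) (nat_lit 25) (nat_lit 5) (nat_lit 26) (nat_lit 5) (nat_lit 348) (nat_lit 300) (nat_lit 132)) (XT.nd (nat_lit 78) (nat_lit 0) (nat_lit 0) (XT.lf (nat_lit 0) (nat_lit 71975561716) (nat_lit 152) (nat_lit 9372347031) (nat_lit 228) (nat_lit 47941305812) (nat_lit 23) (nat_lit 5) (nat_lit 25) (nat_lit 5) (nat_lit 26) (nat_lit 5) (nat_lit 349) (nat_lit 300) (nat_lit 131)) (XT.lf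 (nat_lit 0) (nat_lit 106410220926) (nat_lit 228) (nat_lit 5492405977) (nat_lit 76) (nat_lit 22241970244) (nat_lit 23) (nat_lit 5) (nat_lit 26) (nat_lit 5) (nat_lit 24) (nat_lit 4) (nat_lit 350) (nat_lit 300) (nat_lit 130)))))) (XT.nd (nat_lit 390) (nat_lit 304) (nat_lit 0) (XT.nd (nat_lit 156) (nat_lit 152) (nat_lit 0) (XT.nd (nat_lit 78) (nat_lit 76) (nat_lit 0) (XT.lf (nat_lit 0) (nat_lit 50377321539) (nat_lit 76) (nat_lit 83287723652) (nat_lit 152) (nat_lit 5530734500) (nat_lit 22) (nat_lit 5) (nat_lit 23) (nat_lit 5) (nat_lit 24) (nat_lit 4) (nat_lit 351) (nat_lit 300) (nat_lit 129)) (XT.lf (nat_lit 0) (nat_lit 17307684736) (nat_lit 152) (nat_lit 35544150328) (nat_lit 76) (nat_lit 91629116431) (nat_lit 21) (nat_lit 5) (nat_lit 23) (nat_lit 5) (nat_lit 22) (nat_lit 5) (nat_lit 352) (nat_lit 300) (nat_lit 128))) (XT.nd (nat_lit 78) (nat_lit 0) (nat_lit 0) (XT.lf (nat_lit 0) (nat_lit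 20973211787) (nat_lit 152) (nat_lit 20455655703) (nat_lit 228) (nat_lit 108580645997) (nat_lit 19) (nat_lit 5) (nat_lit 21) (nat_lit 5) (nat_lit 22) (nat_lit 5) (nat_lit 353) (nat_lit 300) (nat_lit 127)) (XT.nd (nat_lit 78) (nat_lit 0) (nat_lit 0) (XT.lf (nat_lit 0) (nat_lit 67578918167) (nat_lit 228) (nat_lit 74456809192) (nat_lit 76) (nat_lit 13737636318) (nat_lit 19) (nat_lit 5) (nat_lit 22) (nat_lit 5) (nat_lit 20) (nat_lit 4) (nat_lit 354) (nat_lit 300) (nat_lit 126)) (XT.lf (nat_lit 0) (nat_lit 95371113281) (nat_lit 228) (nat_lit 17484895131) (nat_lit 76) (nat_lit 48952666378) (nat_lit 19) (nat_lit 5) (nat_lit 22) (nat_lit 5) (nat_lit 20) (nat_lit 4) (nat_lit 355) (nat_lit 300) (nat_lit 125))))) (XT.nd (nat_lit 156) (nat_lit 228) (nat_lit 0) (XT.nd (nat_lit 78) (nat_lit 0) (nat_lit 0) (XT.lf (nat_lit 0) (nat_lit 43734226376) (nat_lit 76) (nat_lit 81500842077) (nat_lit 152) (nat_lit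 42876575979) (nat_lit 18) (nat_lit 5) (nat_lit 19) (nat_lit 5) (nat_lit 20) (nat_lit 4) (nat_lit 356) (nat_lit 300) (nat_lit 124)) (XT.lf (nat_lit 0) (nat_lit 108620202068) (nat_lit 76) (nat_lit 48267484769) (nat_lit 152) (nat_lit 17827302910) (nat_lit 18) (nat_lit 5) (nat_lit 19) (nat_lit 5) (nat_lit 20) (nat_lit 4) (nat_lit 357) (nat_lit 300) (nat_lit 123))) (XT.nd (nat_lit 78) (nat_lit 152) (nat_lit 0) (XT.lf (nat_lit 0) (nat_lit 8202569666) (nat_lit 152) (nat_lit 5031440454) (nat_lit 76) (nat_lit 168407908610) (nat_lit 17) (nat_lit 5) (nat_lit 19) (nat_lit 5) (nat_lit 18) (nat_lit 5) (nat_lit 358) (nat_lit 300) (nat_lit 122)) (XT.nd (nat_lit 78) (nat_lit 0) (nat_lit 0) (XT.lf (nat_lit 0) (nat_lit 36270504941) (nat_lit 228) (nat_lit 128505535291) (nat_lit 76) (nat_lit 24057757622) (nat_lit 15) (nat_lit 5) (nat_lit 18) (nat_lit 5) (nat_lit 16) (nat_lit 4) (nat_lit 359) (nat_lit 300)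 (nat_lit 121)) (XT.lf (nat_lit 0) (nat_lit 66044800731) (nat_lit 228) (nat_lit 67469785470) (nat_lit 76) (nat_lit 62855536926) (nat_lit 15) (nat_lit 5) (nat_lit 18) (nat_lit 5) (nat_lit 16) (nat_lit 4) (nat_lit 360) (nat_lit 300) (nat_lit 120))))))))
noncomputable def xc211 : XT := (XT.nd (nat_lit 36114) (nat_lit 0) (nat_lit 3876) (XT.nd (nat_lit 780) (nat_lit 228) (nat_lit 0) (XT.nd (nat_lit 390) (nat_lit 76) (nat_lit 0) (XT.nd (nat_lit 156) (nat_lit 152) (nat_lit 0) (XT.nd (nat_lit 78) (nat_lit 76) (nat_lit 0) (XT.lf (nat_lit 0) (nat_lit 97307245600) (nat_lit 228) (nat_lit 3383255916) (nat_lit 76) (nat_lit 103592791796) (nat_lit 15) (nat_lit 5) (nat_lit 18) (nat_lit 5) (nat_lit 16) (nat_lit 4) (nat_lit 361) (nat_lit 300) (nat_lit 119)) (XT.lf (nat_lit 0) (nat_lit 66019682485) (nat_lit 76) (nat_lit 65143343718) (nat_lit 152) (nat_lit 81377585474) (nat_lit 14) (nat_lit 5) (nat_lit 15)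 (nat_lit 5) (nat_lit 16) (nat_lit 4) (nat_lit 362) (nat_lit 300) (nat_lit 118))) (XT.nd (nat_lit 78) (nat_lit 152) (nat_lit 0) (XT.lf (nat_lit 0) (nat_lit 139009282524) (nat_lit 76) (nat_lit 27759082530) (nat_lit 152) (nat_lit 54439592776) (nat_lit 14) (nat_lit 5) (nat_lit 15) (nat_lit 5) (nat_lit 16) (nat_lit 4) (nat_lit 363) (nat_lit 300) (nat_lit 117)) (XT.nd (nat_lit 78) (nat_lit 152) (nat_lit 0) (XT.lf (nat_lit 0) (nat_lit 204332921601) (nat_lit 152) (nat_lit 14840686975) (nat_lit 0) (nat_lit 11126115491) (nat_lit 14) (nat_lit 5) (nat_lit 16) (nat_lit 4) (nat_lit 14) (nat_lit 4) (nat_lit 364) (nat_lit 300) (nat_lit 116)) (XT.lf (nat_lit 0) (nat_lit 5174565244) (nat_lit 152) (nat_lit 182600108880) (nat_lit 76) (nat_lit 51999801626) (nat_lit 12) (nat_lit 5) (nat_lit 14) (nat_lit 5) (nat_lit 13) (nat_lit 4) (nat_lit 365) (nat_lit 300) (nat_lit 115))))) (XT.nd (nat_lit 156) (nat_lit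 76) (nat_lit 0) (XT.nd (nat_lit 78) (nat_lit 0) (nat_lit 0) (XT.lf (nat_lit 0) (nat_lit 37255317848) (nat_lit 152) (nat_lit 116835672250) (nat_lit 76) (nat_lit 95597942357) (nat_lit 12) (nat_lit 5) (nat_lit 14) (nat_lit 5) (nat_lit 13) (nat_lit 4) (nat_lit 366) (nat_lit 300) (nat_lit 114)) (XT.lf (nat_lit 0) (nat_lit 70939647986) (nat_lit 152) (nat_lit 47783849001) (nat_lit 76) (nat_lit 141375638272) (nat_lit 12) (nat_lit 5) (nat_lit 14) (nat_lit 5) (nat_lit 13) (nat_lit 4) (nat_lit 367) (nat_lit 300) (nat_lit 113))) (XT.nd (nat_lit 78) (nat_lit 0) (nat_lit 0) (XT.lf (nat_lit 0) (nat_lit 25537117201) (nat_lit 76) (nat_lit 81169345208) (nat_lit 152) (nat_lit 164303472651) (nat_lit 11) (nat_lit 5) (nat_lit 12) (nat_lit 5) (nat_lit 13) (nat_lit 4) (nat_lit 368) (nat_lit 300) (nat_lit 112)) (XT.nd (nat_lit 78) (nat_lit 0) (nat_lit 0) (XT.lf (nat_lit 0) (nat_lit 104182296442) (nat_lit 76)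 (nat_lit 40888134175) (nat_lit 152) (nat_lit 137355403815) (nat_lit 11) (nat_lit 5) (nat_lit 12) (nat_lit 5) (nat_lit 13) (nat_lit 4) (nat_lit 369) (nat_lit 300) (nat_lit 111)) (XT.lf (nat_lit 0) (nat_lit 185374152259) (nat_lit 152) (nat_lit 107675524258) (nat_lit 0) (nat_lit 1361774728) (nat_lit 11) (nat_lit 5) (nat_lit 13) (nat_lit 4) (nat_lit 11) (nat_lit 4) (nat_lit 370) (nat_lit 300) (nat_lit 110)))))) (XT.nd (nat_lit 390) (nat_lit 76) (nat_lit 0) (XT.nd (nat_lit 156) (nat_lit 76) (nat_lit 0) (XT.nd (nat_lit 78) (nat_lit 76) (nat_lit 0) (XT.lf (nat_lit 0) (nat_lit 228362962657) (nat_lit 152) (nat_lit 34250131664) (nat_lit 0) (nat_lit 44349759656) (nat_lit 11) (nat_lit 5) (nat_lit 13) (nat_lit 4) (nat_lit 11) (nat_lit 4) (nat_lit 371) (nat_lit 300) (nat_lit 109)) (XT.lf (nat_lit 0) (nat_lit 44262517502) (nat_lit 76) (nat_lit 229929382201) (nat_lit 76) (nat_lit 45915393037) (nat_lit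 10) (nat_lit 4) (nat_lit 11) (nat_lit 5) (nat_lit 11) (nat_lit 4) (nat_lit 372) (nat_lit 300) (nat_lit 108))) (XT.nd (nat_lit 78) (nat_lit 76) (nat_lit 0) (XT.lf (nat_lit 0) (nat_lit 127889207448) (nat_lit 76) (nat_lit 195002750188) (nat_lit 76) (nat_lit 10988012297) (nat_lit 10) (nat_lit 4) (nat_lit 11) (nat_lit 5) (nat_lit 11) (nat_lit 4) (nat_lit 373) (nat_lit 300) (nat_lit 107)) (XT.nd (nat_lit 78) (nat_lit 0) (nat_lit 0) (XT.lf (nat_lit 0) (nat_lit 24863276567) (nat_lit 152) (nat_lit 133045734000) (nat_lit 76) (nat_lit 190412237122) (nat_lit 9) (nat_lit 5) (nat_lit 11) (nat_lit 5) (nat_lit 10) (nat_lit 4) (nat_lit 374) (nat_lit 300) (nat_lit 106)) (XT.lf (nat_lit 0) (nat_lit 62137520704) (nat_lit 152) (nat_lit 56634212637) (nat_lit 76) (nat_lit 244703866585) (nat_lit 9) (nat_lit 5) (nat_lit 11) (nat_lit 5) (nat_lit 10) (nat_lit 4) (nat_lit 375) (nat_lit 300) (nat_lit 105))))) (XT.nd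 (nat_lit 156) (nat_lit 0) (nat_lit 0) (XT.nd (nat_lit 78) (nat_lit 0) (nat_lit 0) (XT.lf (nat_lit 0) (nat_lit 24377520353) (nat_lit 76) (nat_lit 77278234384) (nat_lit 152) (nat_lit 277712901312) (nat_lit 8) (nat_lit 5) (nat_lit 9) (nat_lit 5) (nat_lit 10) (nat_lit 4) (nat_lit 376) (nat_lit 300) (nat_lit 104)) (XT.lf (nat_lit 0) (nat_lit 111405464275) (nat_lit 76) (nat_lit 32703246511) (nat_lit 152) (nat_lit 251899713827) (nat_lit 8) (nat_lit 5) (nat_lit 9) (nat_lit 5) (nat_lit 10) (nat_lit 4) (nat_lit 377) (nat_lit 300) (nat_lit 103))) (XT.nd (nat_lit 34632) (nat_lit 0) (nat_lit 6232) (XT.lf (nat_lit 0) (nat_lit 188904156436) (nat_lit 152) (nat_lit 210916095345) (nat_lit 0) (nat_lit 13648937878) (nat_lit 8) (nat_lit 5) (nat_lit 10) (nat_lit 4) (nat_lit 8) (nat_lit 4) (nat_lit 378) (nat_lit 300) (nat_lit 102)) (XT.nd (nat_lit 78) (nat_lit 0) (nat_lit 0) (XT.lf (nat_lit 0) (nat_lit 6078176250)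 (nat_lit 0) (nat_lit 6078176250) (nat_lit 684) (nat_lit 2977109975) (nat_lit 90) (nat_lit 5) (nat_lit 90) (nat_lit 3) (nat_lit 99) (nat_lit 3) (nat_lit 301) (nat_lit 301) (nat_lit 178)) (XT.lf (nat_lit 0) (nat_lit 25013112616) (nat_lit 684) (nat_lit 4420613882) (nat_lit 760) (nat_lit 1585106857) (nat_lit 90) (nat_lit 5) (nat_lit 99) (nat_lit 3) (nat_lit 100) (nat_lit 5) (nat_lit 302) (nat_lit 301) (nat_lit 177))))))) (XT.nd (nat_lit 780) (nat_lit 1824) (nat_lit 0) (XT.nd (nat_lit 390) (nat_lit 532) (nat_lit 0) (XT.nd (nat_lit 156) (nat_lit 0) (nat_lit 76) (XT.nd (nat_lit 78) (nat_lit 0) (nat_lit 0) (XT.lf (nat_lit 76) (nat_lit 10074606632) (nat_lit 0) (nat_lit 16026254425) (nat_lit 760) (nat_lit 5689868757) (nat_lit 91) (nat_lit 5) (nat_lit 90) (nat_lit 5) (nat_lit 100) (nat_lit 5) (nat_lit 303) (nat_lit 301) (nat_lit 176)) (XT.lf (nat_lit 76) (nat_lit 25445698800) (nat_lit 0) (nat_lit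 1868072304) (nat_lit 760) (nat_lit 5283919525) (nat_lit 91) (nat_lit 5) (nat_lit 90) (nat_lit 5) (nat_lit 100) (nat_lit 5) (nat_lit 304) (nat_lit 301) (nat_lit 175))) (XT.nd (nat_lit 78) (nat_lit 0) (nat_lit 0) (XT.lf (nat_lit 76) (nat_lit 8197296331) (nat_lit 0) (nat_lit 20717078046) (nat_lit 760) (nat_lit 4514280573) (nat_lit 92) (nat_lit 5) (nat_lit 91) (nat_lit 5) (nat_lit 101) (nat_lit 5) (nat_lit 305) (nat_lit 301) (nat_lit 174)) (XT.nd (nat_lit 78) (nat_lit 0) (nat_lit 76) (XT.lf (nat_lit 76) (nat_lit 24528274248) (nat_lit 0) (nat_lit 6214261893) (nat_lit 760) (nat_lit 3551262406) (nat_lit 92) (nat_lit 5) (nat_lit 91) (nat_lit 5) (nat_lit 101) (nat_lit 5) (nat_lit 306) (nat_lit 301) (nat_lit 173)) (XT.lf (nat_lit 76) (nat_lit 6539656141) (nat_lit 0) (nat_lit 26361753401) (nat_lit 760) (nat_lit 2288831726) (nat_lit 93) (nat_lit 5) (nat_lit 92) (nat_lit 5) (nat_lit 102) (nat_lit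 5) (nat_lit 307) (nat_lit 301) (nat_lit 172))))) (XT.nd (nat_lit 156) (nat_lit 0) (nat_lit 0) (XT.nd (nat_lit 78) (nat_lit 684) (nat_lit 0) (XT.lf (nat_lit 76) (nat_lit 23891405382) (nat_lit 0) (nat_lit 11539036473) (nat_lit 760) (nat_lit 687960291) (nat_lit 93) (nat_lit 5) (nat_lit 92) (nat_lit 5) (nat_lit 102) (nat_lit 5) (nat_lit 308) (nat_lit 301) (nat_lit 171)) (XT.lf (nat_lit 0) (nat_lit 1102947035) (nat_lit 760) (nat_lit 31987661014) (nat_lit 836) (nat_lit 3994505376) (nat_lit 83) (nat_lit 5) (nat_lit 93) (nat_lit 5) (nat_lit 94) (nat_lit 5) (nat_lit 309) (nat_lit 301) (nat_lit 170))) (XT.nd (nat_lit 78) (nat_lit 0) (nat_lit 0) (XT.lf (nat_lit 0) (nat_lit 3356743141) (nat_lit 760) (nat_lit 14583644735) (nat_lit 836) (nat_lit 20139391178) (nat_lit 83) (nat_lit 5) (nat_lit 93) (nat_lit 5) (nat_lit 94) (nat_lit 5) (nat_lit 310) (nat_lit 301) (nat_lit 169)) (XT.nd (nat_lit 78) (nat_lit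 0) (nat_lit 76) (XT.lf (nat_lit 76) (nat_lit 3810023005) (nat_lit 0) (nat_lit 1969676098) (nat_lit 836) (nat_lit 33341660939) (nat_lit 84) (nat_lit 5) (nat_lit 83) (nat_lit 5) (nat_lit 94) (nat_lit 5) (nat_lit 311) (nat_lit 301) (nat_lit 168)) (XT.lf (nat_lit 0) (nat_lit 8802992902) (nat_lit 760) (nat_lit 16810708916) (nat_lit 76) (nat_lit 14577364074) (nat_lit 84) (nat_lit 5) (nat_lit 94) (nat_lit 5) (nat_lit 85) (nat_lit 5) (nat_lit 312) (nat_lit 301) (nat_lit 167)))))) (XT.nd (nat_lit 390) (nat_lit 684) (nat_lit 0) (XT.nd (nat_lit 156) (nat_lit 684) (nat_lit 0) (XT.nd (nat_lit 78) (nat_lit 0) (nat_lit 0) (XT.lf (nat_lit 0) (nat_lit 2665485806) (nat_lit 532) (nat_lit 9383106585) (nat_lit 608) (nat_lit 29262112654) (nat_lit 77) (nat_lit 5) (nat_lit 84) (nat_lit 5) (nat_lit 85) (nat_lit 5) (nat_lit 313) (nat_lit 301) (nat_lit 166)) (XT.lf (nat_lit 0) (nat_lit 15862747718) (nat_lit 608)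 (nat_lit 18899806050) (nat_lit 76) (nat_lit 7703463414) (nat_lit 77) (nat_lit 5) (nat_lit 85) (nat_lit 5) (nat_lit 78) (nat_lit 5) (nat_lit 314) (nat_lit 301) (nat_lit 165))) (XT.nd (nat_lit 78) (nat_lit 304) (nat_lit 0) (XT.lf (nat_lit 0) (nat_lit 1732026348) (nat_lit 380) (nat_lit 18313907152) (nat_lit 456) (nat_lit 23624249883) (nat_lit 72) (nat_lit 5) (nat_lit 77) (nat_lit 5) (nat_lit 78) (nat_lit 5) (nat_lit 315) (nat_lit 301) (nat_lit 164)) (XT.nd (nat_lit 78) (nat_lit 304) (nat_lit 0) (XT.lf (nat_lit 0) (nat_lit 24049183035) (nat_lit 380) (nat_lit 706715482) (nat_lit 456) (nat_lit 20162782751) (nat_lit 72) (nat_lit 5) (nat_lit 77) (nat_lit 5) (nat_lit 78) (nat_lit 5) (nat_lit 316) (nat_lit 301) (nat_lit 163)) (XT.lf (nat_lit 0) (nat_lit 1004709765) (nat_lit 304) (nat_lit 28987607106) (nat_lit 380) (nat_lit 16222743585) (nat_lit 68) (nat_lit 5) (nat_lit 72) (nat_lit 5) (nat_lit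 73) (nat_lit 5) (nat_lit 317) (nat_lit 301) (nat_lit 162))))) (XT.nd (nat_lit 234) (nat_lit 380) (nat_lit 0) (XT.nd (nat_lit 78) (nat_lit 304) (nat_lit 0) (XT.lf (nat_lit 0) (nat_lit 24682808624) (nat_lit 304) (nat_lit 11170315346) (nat_lit 380) (nat_lit 11705010208) (nat_lit 68) (nat_lit 5) (nat_lit 72) (nat_lit 5) (nat_lit 73) (nat_lit 5) (nat_lit 318) (nat_lit 301) (nat_lit 161)) (XT.nd (nat_lit 78) (nat_lit 0) (nat_lit 0) (XT.lf (nat_lit 0) (nat_lit 471465177) (nat_lit 304) (nat_lit 41658394113) (nat_lit 380) (nat_lit 6832361679) (nat_lit 64) (nat_lit 5) (nat_lit 68) (nat_lit 5) (nat_lit 69) (nat_lit 5) (nat_lit 319) (nat_lit 301) (nat_lit 160)) (XT.lf (nat_lit 0) (nat_lit 25588250259) (nat_lit 304) (nat_lit 23697658508) (nat_lit 380) (nat_lit 1122333059) (nat_lit 64) (nat_lit 5) (nat_lit 68) (nat_lit 5) (nat_lit 69) (nat_lit 5) (nat_lit 320) (nat_lit 301) (nat_lit 159)))) (XT.nd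 (nat_lit 78) (nat_lit 304) (nat_lit 0) (XT.lf (nat_lit 0) (nat_lit 4715194257) (nat_lit 380) (nat_lit 44082007) (nat_lit 76) (nat_lit 47163588011) (nat_lit 63) (nat_lit 5) (nat_lit 68) (nat_lit 5) (nat_lit 64) (nat_lit 5) (nat_lit 321) (nat_lit 301) (nat_lit 158)) (XT.nd (nat_lit 78) (nat_lit 0) (nat_lit 0) (XT.lf (nat_lit 0) (nat_lit 11466814234) (nat_lit 380) (nat_lit 26926738330) (nat_lit 76) (nat_lit 15085751743) (nat_lit 59) (nat_lit 5) (nat_lit 64) (nat_lit 5) (nat_lit 60) (nat_lit 5) (nat_lit 322) (nat_lit 301) (nat_lit 157)) (XT.lf (nat_lit 0) (nat_lit 18632915380) (nat_lit 380) (nat_lit 713240811) (nat_lit 76) (nat_lit 35763568098) (nat_lit 59) (nat_lit 5) (nat_lit 64) (nat_lit 5) (nat_lit 60) (nat_lit 5) (nat_lit 323) (nat_lit 301) (nat_lit 156))))))))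
noncomputable def xc212 : XT := (XT.nd (nat_lit 1560) (nat_lit 1140) (nat_lit 0) (XT.nd (nat_lit 780) (nat_lit 988) (nat_lit 0) (XT.nd (nat_lit 390) (nat_lit 456) (nat_lit 0) (XT.nd (nat_lit 156) (nat_lit 532) (nat_lit 0) (XT.nd (nat_lit 78) (nat_lit 0) (nat_lit 0) (XT.lf (nat_lit 0) (nat_lit 26605218896) (nat_lit 380) (nat_lit 29122222211) (nat_lit 76) (nat_lit 1071832119) (nat_lit 55) (nat_lit 5) (nat_lit 60) (nat_lit 5) (nat_lit 56) (nat_lit 5) (nat_lit 324) (nat_lit 301) (nat_lit 155)) (XT.lf (nat_lit 0) (nat_lit 35303821127) (nat_lit 380) (nat_lit 1380621319) (nat_lit 76) (nat_lit 21872475668) (nat_lit 55) (nat_lit 5) (nat_lit 60) (nat_lit 5) (nat_lit 56) (nat_lit 5) (nat_lit 325) (nat_lit 301) (nat_lit 154))) (XT.nd (nat_lit 78) (nat_lit 304) (nat_lit 0) (XT.lf (nat_lit 0) (nat_lit 28663374126) (nat_lit 228) (nat_lit 16219834315) (nat_lit 304) (nat_lit 15496946613) (nat_lit 52)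 (nat_lit 5) (nat_lit 55) (nat_lit 5) (nat_lit 56) (nat_lit 5) (nat_lit 326) (nat_lit 301) (nat_lit 153)) (XT.nd (nat_lit 78) (nat_lit 304) (nat_lit 0) (XT.lf (nat_lit 0) (nat_lit 55045957586) (nat_lit 304) (nat_lit 2120649871) (nat_lit 76) (nat_lit 5122729197) (nat_lit 52) (nat_lit 5) (nat_lit 56) (nat_lit 5) (nat_lit 53) (nat_lit 5) (nat_lit 327) (nat_lit 301) (nat_lit 152)) (XT.lf (nat_lit 0) (nat_lit 2116297655) (nat_lit 304) (nat_lit 34655871627) (nat_lit 76) (nat_lit 27483750941) (nat_lit 48) (nat_lit 5) (nat_lit 52) (nat_lit 5) (nat_lit 49) (nat_lit 5) (nat_lit 328) (nat_lit 301) (nat_lit 151))))) (XT.nd (nat_lit 156) (nat_lit 228) (nat_lit 0) (XT.nd (nat_lit 78) (nat_lit 228) (nat_lit 0) (XT.lf (nat_lit 0) (nat_lit 11735508223) (nat_lit 304) (nat_lit 3460016831) (nat_lit 76) (nat_lit 51117624070) (nat_lit 48) (nat_lit 5) (nat_lit 52) (nat_lit 5) (nat_lit 49) (nat_lit 5) (nat_lit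 329) (nat_lit 301) (nat_lit 150)) (XT.lf (nat_lit 0) (nat_lit 22430911257) (nat_lit 304) (nat_lit 38311642178) (nat_lit 76) (nat_lit 7700926441) (nat_lit 45) (nat_lit 5) (nat_lit 49) (nat_lit 5) (nat_lit 46) (nat_lit 5) (nat_lit 330) (nat_lit 301) (nat_lit 149))) (XT.nd (nat_lit 78) (nat_lit 228) (nat_lit 0) (XT.lf (nat_lit 0) (nat_lit 33968325222) (nat_lit 304) (nat_lit 5406044494) (nat_lit 76) (nat_lit 31290597320) (nat_lit 45) (nat_lit 5) (nat_lit 49) (nat_lit 5) (nat_lit 46) (nat_lit 5) (nat_lit 331) (nat_lit 301) (nat_lit 148)) (XT.nd (nat_lit 78) (nat_lit 0) (nat_lit 0) (XT.lf (nat_lit 0) (nat_lit 30106536419) (nat_lit 228) (nat_lit 16444764817) (nat_lit 304) (nat_lit 26422794564) (nat_lit 42) (nat_lit 5) (nat_lit 45) (nat_lit 5) (nat_lit 46) (nat_lit 5) (nat_lit 332) (nat_lit 301) (nat_lit 147)) (XT.lf (nat_lit 0) (nat_lit 59974298169) (nat_lit 304) (nat_lit 7934241030) (nat_lit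 76) (nat_lit 7479599930) (nat_lit 42) (nat_lit 5) (nat_lit 46) (nat_lit 5) (nat_lit 43) (nat_lit 5) (nat_lit 333) (nat_lit 301) (nat_lit 146)))))) (XT.nd (nat_lit 390) (nat_lit 380) (nat_lit 0) (XT.nd (nat_lit 156) (nat_lit 380) (nat_lit 0) (XT.nd (nat_lit 78) (nat_lit 76) (nat_lit 0) (XT.lf (nat_lit 0) (nat_lit 29415815711) (nat_lit 152) (nat_lit 45380213109) (nat_lit 228) (nat_lit 3090478258) (nat_lit 40) (nat_lit 5) (nat_lit 42) (nat_lit 5) (nat_lit 43) (nat_lit 5) (nat_lit 334) (nat_lit 301) (nat_lit 145)) (XT.lf (nat_lit 0) (nat_lit 9669139037) (nat_lit 228) (nat_lit 11752059291) (nat_lit 76) (nat_lit 59074142142) (nat_lit 39) (nat_lit 5) (nat_lit 42) (nat_lit 5) (nat_lit 40) (nat_lit 5) (nat_lit 335) (nat_lit 301) (nat_lit 144))) (XT.nd (nat_lit 78) (nat_lit 152) (nat_lit 0) (XT.lf (nat_lit 0) (nat_lit 23459354846) (nat_lit 304) (nat_lit 55642228756) (nat_lit 76) (nat_lit 4105676275)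 (nat_lit 36) (nat_lit 5) (nat_lit 40) (nat_lit 5) (nat_lit 37) (nat_lit 5) (nat_lit 336) (nat_lit 301) (nat_lit 143)) (XT.nd (nat_lit 78) (nat_lit 152) (nat_lit 0) (XT.lf (nat_lit 0) (nat_lit 38491363766) (nat_lit 304) (nat_lit 17145052000) (nat_lit 76) (nat_lit 30390746730) (nat_lit 36) (nat_lit 5) (nat_lit 40) (nat_lit 5) (nat_lit 37) (nat_lit 5) (nat_lit 337) (nat_lit 301) (nat_lit 142)) (XT.lf (nat_lit 0) (nat_lit 24044875309) (nat_lit 152) (nat_lit 30604387225) (nat_lit 228) (nat_lit 34320084530) (nat_lit 34) (nat_lit 5) (nat_lit 36) (nat_lit 5) (nat_lit 37) (nat_lit 5) (nat_lit 338) (nat_lit 301) (nat_lit 141))))) (XT.nd (nat_lit 156) (nat_lit 228) (nat_lit 0) (XT.nd (nat_lit 78) (nat_lit 152) (nat_lit 0) (XT.lf (nat_lit 0) (nat_lit 67887869346) (nat_lit 152) (nat_lit 4016455394) (nat_lit 228) (nat_lit 20139853926) (nat_lit 34) (nat_lit 5) (nat_lit 36) (nat_lit 5) (nat_lit 37)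 (nat_lit 5) (nat_lit 339) (nat_lit 301) (nat_lit 140)) (XT.lf (nat_lit 0) (nat_lit 18879738861) (nat_lit 152) (nat_lit 71809278587) (nat_lit 228) (nat_lit 4550391701) (nat_lit 32) (nat_lit 5) (nat_lit 34) (nat_lit 5) (nat_lit 35) (nat_lit 5) (nat_lit 340) (nat_lit 301) (nat_lit 139))) (XT.nd (nat_lit 78) (nat_lit 152) (nat_lit 0) (XT.lf (nat_lit 0) (nat_lit 11920884406) (nat_lit 228) (nat_lit 33926416373) (nat_lit 76) (nat_lit 52713845011) (nat_lit 31) (nat_lit 5) (nat_lit 34) (nat_lit 5) (nat_lit 32) (nat_lit 5) (nat_lit 341) (nat_lit 301) (nat_lit 138)) (XT.nd (nat_lit 78) (nat_lit 0) (nat_lit 0) (XT.lf (nat_lit 0) (nat_lit 10901248380) (nat_lit 152) (nat_lit 18330760665) (nat_lit 228) (nat_lit 72804771015) (nat_lit 29) (nat_lit 5) (nat_lit 31) (nat_lit 5) (nat_lit 32) (nat_lit 5) (nat_lit 342) (nat_lit 301) (nat_lit 137)) (XT.lf (nat_lit 0) (nat_lit 48156588471) (nat_lit 228) (nat_lit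 46685216942) (nat_lit 76) (nat_lit 10806996666) (nat_lit 29) (nat_lit 5) (nat_lit 32) (nat_lit 5) (nat_lit 30) (nat_lit 5) (nat_lit 343) (nat_lit 301) (nat_lit 136))))))) (XT.nd (nat_lit 780) (nat_lit 532) (nat_lit 0) (XT.nd (nat_lit 390) (nat_lit 304) (nat_lit 0) (XT.nd (nat_lit 156) (nat_lit 152) (nat_lit 0) (XT.nd (nat_lit 78) (nat_lit 152) (nat_lit 0) (XT.lf (nat_lit 0) (nat_lit 68326970645) (nat_lit 228) (nat_lit 314394126) (nat_lit 76) (nat_lit 40785082656) (nat_lit 29) (nat_lit 5) (nat_lit 32) (nat_lit 5) (nat_lit 30) (nat_lit 5) (nat_lit 344) (nat_lit 301) (nat_lit 135)) (XT.lf (nat_lit 0) (nat_lit 49972985662) (nat_lit 152) (nat_lit 40312218435) (nat_lit 228) (nat_lit 23068805211) (nat_lit 27) (nat_lit 5) (nat_lit 29) (nat_lit 5) (nat_lit 30) (nat_lit 5) (nat_lit 345) (nat_lit 301) (nat_lit 134))) (XT.nd (nat_lit 78) (nat_lit 152) (nat_lit 0) (XT.lf (nat_lit 0) (nat_lit 102784240791)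 (nat_lit 152) (nat_lit 10561566867) (nat_lit 228) (nat_lit 4131919535) (nat_lit 27) (nat_lit 5) (nat_lit 29) (nat_lit 5) (nat_lit 30) (nat_lit 5) (nat_lit 346) (nat_lit 301) (nat_lit 133)) (XT.nd (nat_lit 78) (nat_lit 0) (nat_lit 0) (XT.lf (nat_lit 0) (nat_lit 16166791616) (nat_lit 152) (nat_lit 84725169651) (nat_lit 76) (nat_lit 20857417091) (nat_lit 25) (nat_lit 5) (nat_lit 27) (nat_lit 5) (nat_lit 26) (nat_lit 5) (nat_lit 347) (nat_lit 301) (nat_lit 132)) (XT.lf (nat_lit 0) (nat_lit 37766811477) (nat_lit 152) (nat_lit 34630594469) (nat_lit 76) (nat_lit 53812558397) (nat_lit 25) (nat_lit 5) (nat_lit 27) (nat_lit 5) (nat_lit 26) (nat_lit 5) (nat_lit 348) (nat_lit 301) (nat_lit 131))))) (XT.nd (nat_lit 156) (nat_lit 152) (nat_lit 0) (XT.nd (nat_lit 78) (nat_lit 0) (nat_lit 0) (XT.lf (nat_lit 0) (nat_lit 18561476935) (nat_lit 152) (nat_lit 42174363150) (nat_lit 228) (nat_lit 70143289839)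 (nat_lit 23) (nat_lit 5) (nat_lit 25) (nat_lit 5) (nat_lit 26) (nat_lit 5) (nat_lit 349) (nat_lit 301) (nat_lit 130)) (XT.lf (nat_lit 0) (nat_lit 75614153456) (nat_lit 152) (nat_lit 9824880980) (nat_lit 228) (nat_lit 50313434285) (nat_lit 23) (nat_lit 5) (nat_lit 25) (nat_lit 5) (nat_lit 26) (nat_lit 5) (nat_lit 350) (nat_lit 301) (nat_lit 129))) (XT.nd (nat_lit 78) (nat_lit 152) (nat_lit 0) (XT.lf (nat_lit 0) (nat_lit 111753571361) (nat_lit 228) (nat_lit 5728198548) (nat_lit 76) (nat_lit 23368896026) (nat_lit 23) (nat_lit 5) (nat_lit 26) (nat_lit 5) (nat_lit 24) (nat_lit 4) (nat_lit 351) (nat_lit 301) (nat_lit 128)) (XT.nd (nat_lit 78) (nat_lit 76) (nat_lit 0) (XT.lf (nat_lit 0) (nat_lit 52934389090) (nat_lit 76) (nat_lit 87436256591) (nat_lit 152) (nat_lit 5783787394) (nat_lit 22) (nat_lit 5) (nat_lit 23) (nat_lit 5) (nat_lit 24) (nat_lit 4) (nat_lit 352) (nat_lit 301) (nat_lit 127))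 (XT.lf (nat_lit 0) (nat_lit 18194718689) (nat_lit 152) (nat_lit 37284243152) (nat_lit 76) (nat_lit 96224938243) (nat_lit 21) (nat_lit 5) (nat_lit 23) (nat_lit 5) (nat_lit 22) (nat_lit 5) (nat_lit 353) (nat_lit 301) (nat_lit 126)))))) (XT.nd (nat_lit 390) (nat_lit 304) (nat_lit 0) (XT.nd (nat_lit 156) (nat_lit 76) (nat_lit 0) (XT.nd (nat_lit 78) (nat_lit 0) (nat_lit 0) (XT.lf (nat_lit 0) (nat_lit 22058388444) (nat_lit 152) (nat_lit 21463111317) (nat_lit 228) (nat_lit 113987414243) (nat_lit 19) (nat_lit 5) (nat_lit 21) (nat_lit 5) (nat_lit 22) (nat_lit 5) (nat_lit 354) (nat_lit 301) (nat_lit 125)) (XT.lf (nat_lit 0) (nat_lit 70978271881) (nat_lit 228) (nat_lit 78144076389) (nat_lit 76) (nat_lit 14438648235) (nat_lit 19) (nat_lit 5) (nat_lit 22) (nat_lit 5) (nat_lit 20) (nat_lit 4) (nat_lit 355) (nat_lit 301) (nat_lit 124))) (XT.nd (nat_lit 78) (nat_lit 76) (nat_lit 0) (XT.lf (nat_lit 0)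 (nat_lit 100159104951) (nat_lit 228) (nat_lit 18325260590) (nat_lit 76) (nat_lit 51413756937) (nat_lit 19) (nat_lit 5) (nat_lit 22) (nat_lit 5) (nat_lit 20) (nat_lit 4) (nat_lit 356) (nat_lit 301) (nat_lit 123)) (XT.nd (nat_lit 78) (nat_lit 0) (nat_lit 0) (XT.lf (nat_lit 0) (nat_lit 45954270552) (nat_lit 76) (nat_lit 85561582224) (nat_lit 152) (nat_lit 45000408759) (nat_lit 18) (nat_lit 5) (nat_lit 19) (nat_lit 5) (nat_lit 20) (nat_lit 4) (nat_lit 357) (nat_lit 301) (nat_lit 122)) (XT.lf (nat_lit 0) (nat_lit 114082957749) (nat_lit 76) (nat_lit 50667238096) (nat_lit 152) (nat_lit 18699624228) (nat_lit 18) (nat_lit 5) (nat_lit 19) (nat_lit 5) (nat_lit 20) (nat_lit 4) (nat_lit 358) (nat_lit 301) (nat_lit 121))))) (XT.nd (nat_lit 156) (nat_lit 76) (nat_lit 0) (XT.nd (nat_lit 78) (nat_lit 152) (nat_lit 0) (XT.lf (nat_lit 0) (nat_lit 8630254632) (nat_lit 152) (nat_lit 5252186371) (nat_lit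 76) (nat_lit 176840684115) (nat_lit 17) (nat_lit 5) (nat_lit 19) (nat_lit 5) (nat_lit 18) (nat_lit 5) (nat_lit 359) (nat_lit 301) (nat_lit 120)) (XT.lf (nat_lit 0) (nat_lit 38101429240) (nat_lit 228) (nat_lit 134899817352) (nat_lit 76) (nat_lit 25273360035) (nat_lit 15) (nat_lit 5) (nat_lit 18) (nat_lit 5) (nat_lit 16) (nat_lit 4) (nat_lit 360) (nat_lit 301) (nat_lit 119))) (XT.nd (nat_lit 78) (nat_lit 76) (nat_lit 0) (XT.lf (nat_lit 0) (nat_lit 69363611293) (nat_lit 228) (nat_lit 70813755979) (nat_lit 76) (nat_lit 66010422850) (nat_lit 15) (nat_lit 5) (nat_lit 18) (nat_lit 5) (nat_lit 16) (nat_lit 4) (nat_lit 361) (nat_lit 301) (nat_lit 118)) (XT.nd (nat_lit 78) (nat_lit 76) (nat_lit 0) (XT.lf (nat_lit 0) (nat_lit 102188389333) (nat_lit 228) (nat_lit 3524305603) (nat_lit 76) (nat_lit 108783963841) (nat_lit 15) (nat_lit 5) (nat_lit 18) (nat_lit 5) (nat_lit 16) (nat_lit 4) (nat_lit 362)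 (nat_lit 301) (nat_lit 117)) (XT.lf (nat_lit 0) (nat_lit 69348326282) (nat_lit 76) (nat_lit 68388313032) (nat_lit 152) (nat_lit 85430220212) (nat_lit 14) (nat_lit 5) (nat_lit 15) (nat_lit 5) (nat_lit 16) (nat_lit 4) (nat_lit 363) (nat_lit 301) (nat_lit 116))))))))
noncomputable def xc213 : XT := (XT.nd (nat_lit 36270) (nat_lit 0) (nat_lit 3344) (XT.nd (nat_lit 780) (nat_lit 152) (nat_lit 0) (XT.nd (nat_lit 390) (nat_lit 152) (nat_lit 0) (XT.nd (nat_lit 156) (nat_lit 152) (nat_lit 0) (XT.nd (nat_lit 78) (nat_lit 0) (nat_lit 0) (XT.lf (nat_lit 0) (nat_lit 145986089195) (nat_lit 76) (nat_lit 29135419635) (nat_lit 152) (nat_lit 57146101428) (nat_lit 14) (nat_lit 5) (nat_lit 15) (nat_lit 5) (nat_lit 16) (nat_lit 4) (nat_lit 364) (nat_lit 301) (nat_lit 115)) (XT.lf (nat_lit 0) (nat_lit 214563764727) (nat_lit 152) (nat_lit 15557095958) (nat_lit 0) (nat_lit 11693130984) (nat_lit 14) (nat_lit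 5) (nat_lit 16) (nat_lit 4) (nat_lit 14) (nat_lit 4) (nat_lit 365) (nat_lit 301) (nat_lit 114))) (XT.nd (nat_lit 78) (nat_lit 0) (nat_lit 0) (XT.lf (nat_lit 0) (nat_lit 5447444307) (nat_lit 152) (nat_lit 191704426445) (nat_lit 76) (nat_lit 54610613308) (nat_lit 12) (nat_lit 5) (nat_lit 14) (nat_lit 5) (nat_lit 13) (nat_lit 4) (nat_lit 366) (nat_lit 301) (nat_lit 113)) (XT.nd (nat_lit 78) (nat_lit 0) (nat_lit 0) (XT.lf (nat_lit 0) (nat_lit 39131560695) (nat_lit 152) (nat_lit 122652991216) (nat_lit 76) (nat_lit 100388145761) (nat_lit 12) (nat_lit 5) (nat_lit 14) (nat_lit 5) (nat_lit 13) (nat_lit 4) (nat_lit 367) (nat_lit 301) (nat_lit 112)) (XT.lf (nat_lit 0) (nat_lit 74499465579) (nat_lit 152) (nat_lit 50149741788) (nat_lit 76) (nat_lit 148454235697) (nat_lit 12) (nat_lit 5) (nat_lit 14) (nat_lit 5) (nat_lit 13) (nat_lit 4) (nat_lit 368) (nat_lit 301) (nat_lit 111))))) (XT.nd (nat_lit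 156) (nat_lit 76) (nat_lit 0) (XT.nd (nat_lit 78) (nat_lit 0) (nat_lit 0) (XT.lf (nat_lit 0) (nat_lit 26836896924) (nat_lit 76) (nat_lit 85217470506) (nat_lit 152) (nat_lit 172505428433) (nat_lit 11) (nat_lit 5) (nat_lit 12) (nat_lit 5) (nat_lit 13) (nat_lit 4) (nat_lit 369) (nat_lit 301) (nat_lit 110)) (XT.lf (nat_lit 0) (nat_lit 109413243514) (nat_lit 76) (nat_lit 42922691396) (nat_lit 152) (nat_lit 144210585577) (nat_lit 11) (nat_lit 5) (nat_lit 12) (nat_lit 5) (nat_lit 13) (nat_lit 4) (nat_lit 370) (nat_lit 301) (nat_lit 109))) (XT.nd (nat_lit 78) (nat_lit 76) (nat_lit 0) (XT.lf (nat_lit 0) (nat_lit 194654418481) (nat_lit 152) (nat_lit 113038077481) (nat_lit 0) (nat_lit 1438943696) (nat_lit 11) (nat_lit 5) (nat_lit 13) (nat_lit 4) (nat_lit 11) (nat_lit 4) (nat_lit 371) (nat_lit 301) (nat_lit 108)) (XT.nd (nat_lit 78) (nat_lit 76) (nat_lit 0) (XT.lf (nat_lit 0) (nat_lit 239792118990)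 (nat_lit 152) (nat_lit 35942425876) (nat_lit 0) (nat_lit 46575895478) (nat_lit 11) (nat_lit 5) (nat_lit 13) (nat_lit 4) (nat_lit 11) (nat_lit 4) (nat_lit 372) (nat_lit 301) (nat_lit 107)) (XT.lf (nat_lit 0) (nat_lit 46495529743) (nat_lit 76) (nat_lit 241416759428) (nat_lit 76) (nat_lit 48199822843) (nat_lit 10) (nat_lit 4) (nat_lit 11) (nat_lit 5) (nat_lit 11) (nat_lit 4) (nat_lit 373) (nat_lit 301) (nat_lit 106)))))) (XT.nd (nat_lit 35100) (nat_lit 0) (nat_lit 6232) (XT.nd (nat_lit 156) (nat_lit 76) (nat_lit 0) (XT.nd (nat_lit 78) (nat_lit 76) (nat_lit 0) (XT.lf (nat_lit 0) (nat_lit 134302607216) (nat_lit 76) (nat_lit 204744228761) (nat_lit 76) (nat_lit 11526613059) (nat_lit 10) (nat_lit 4) (nat_lit 11) (nat_lit 5) (nat_lit 11) (nat_lit 4) (nat_lit 374) (nat_lit 301) (nat_lit 105)) (XT.lf (nat_lit 0) (nat_lit 26116396767) (nat_lit 152) (nat_lit 139679649106) (nat_lit 76) (nat_lit 199940761510)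 (nat_lit 9) (nat_lit 5) (nat_lit 11) (nat_lit 5) (nat_lit 10) (nat_lit 4) (nat_lit 375) (nat_lit 301) (nat_lit 104))) (XT.nd (nat_lit 78) (nat_lit 76) (nat_lit 0) (XT.lf (nat_lit 0) (nat_lit 65253878997) (nat_lit 152) (nat_lit 59448426513) (nat_lit 76) (nat_lit 256946595659) (nat_lit 9) (nat_lit 5) (nat_lit 11) (nat_lit 5) (nat_lit 10) (nat_lit 4) (nat_lit 376) (nat_lit 301) (nat_lit 103)) (XT.nd (nat_lit 34788) (nat_lit 0) (nat_lit 6232) (XT.lf (nat_lit 0) (nat_lit 25613610921) (nat_lit 76) (nat_lit 81134231043) (nat_lit 152) (nat_lit 291588777494) (nat_lit 8) (nat_lit 5) (nat_lit 9) (nat_lit 5) (nat_lit 10) (nat_lit 4) (nat_lit 377) (nat_lit 301) (nat_lit 102)) (XT.lf (nat_lit 0) (nat_lit 6415073723) (nat_lit 0) (nat_lit 6415073723) (nat_lit 684) (nat_lit 3056556177) (nat_lit 90) (nat_lit 5) (nat_lit 90) (nat_lit 3) (nat_lit 99) (nat_lit 3) (nat_lit 302) (nat_lit 302) (nat_lit 176)))))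 (XT.nd (nat_lit 156) (nat_lit 0) (nat_lit 0) (XT.nd (nat_lit 78) (nat_lit 0) (nat_lit 0) (XT.lf (nat_lit 0) (nat_lit 26388458296) (nat_lit 684) (nat_lit 4571290898) (nat_lit 760) (nat_lit 1603537786) (nat_lit 90) (nat_lit 5) (nat_lit 99) (nat_lit 3) (nat_lit 100) (nat_lit 5) (nat_lit 303) (nat_lit 302) (nat_lit 175)) (XT.lf (nat_lit 76) (nat_lit 10647555905) (nat_lit 0) (nat_lit 16878181334) (nat_lit 760) (nat_lit 5848295941) (nat_lit 91) (nat_lit 5) (nat_lit 90) (nat_lit 5) (nat_lit 100) (nat_lit 5) (nat_lit 304) (nat_lit 302) (nat_lit 174))) (XT.nd (nat_lit 78) (nat_lit 0) (nat_lit 76) (XT.lf (nat_lit 76) (nat_lit 26783906541) (nat_lit 0) (nat_lit 2009679907) (nat_lit 760) (nat_lit 5428052403) (nat_lit 91) (nat_lit 5) (nat_lit 90) (nat_lit 5) (nat_lit 100) (nat_lit 5) (nat_lit 305) (nat_lit 302) (nat_lit 173)) (XT.nd (nat_lit 78) (nat_lit 0) (nat_lit 0) (XT.lf (nat_lit 76) (nat_lit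 8678601700) (nat_lit 0) (nat_lit 21790582202) (nat_lit 760) (nat_lit 4625230236) (nat_lit 92) (nat_lit 5) (nat_lit 91) (nat_lit 5) (nat_lit 101) (nat_lit 5) (nat_lit 306) (nat_lit 302) (nat_lit 172)) (XT.lf (nat_lit 76) (nat_lit 25822726582) (nat_lit 0) (nat_lit 6560832372) (nat_lit 760) (nat_lit 3619526131) (nat_lit 92) (nat_lit 5) (nat_lit 91) (nat_lit 5) (nat_lit 101) (nat_lit 5) (nat_lit 307) (nat_lit 302) (nat_lit 171))))))) (XT.nd (nat_lit 780) (nat_lit 1520) (nat_lit 0) (XT.nd (nat_lit 390) (nat_lit 836) (nat_lit 0) (XT.nd (nat_lit 156) (nat_lit 684) (nat_lit 0) (XT.nd (nat_lit 78) (nat_lit 0) (nat_lit 0) (XT.lf (nat_lit 76) (nat_lit 6939447215) (nat_lit 0) (nat_lit 27706584947) (nat_lit 760) (nat_lit 2298544907) (nat_lit 93) (nat_lit 5) (nat_lit 92) (nat_lit 5) (nat_lit 102) (nat_lit 5) (nat_lit 308) (nat_lit 302) (nat_lit 170)) (XT.lf (nat_lit 76) (nat_lit 25155316857) (nat_lit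 0) (nat_lit 12141458655) (nat_lit 760) (nat_lit 622616966) (nat_lit 93) (nat_lit 5) (nat_lit 92) (nat_lit 5) (nat_lit 102) (nat_lit 5) (nat_lit 309) (nat_lit 302) (nat_lit 169))) (XT.nd (nat_lit 78) (nat_lit 0) (nat_lit 0) (XT.lf (nat_lit 0) (nat_lit 1250826660) (nat_lit 760) (nat_lit 33510341998) (nat_lit 836) (nat_lit 4173392217) (nat_lit 83) (nat_lit 5) (nat_lit 93) (nat_lit 5) (nat_lit 94) (nat_lit 5) (nat_lit 310) (nat_lit 302) (nat_lit 168)) (XT.nd (nat_lit 78) (nat_lit 0) (nat_lit 0) (XT.lf (nat_lit 0) (nat_lit 3612896749) (nat_lit 760) (nat_lit 15239777385) (nat_lit 836) (nat_lit 21126514615) (nat_lit 83) (nat_lit 5) (nat_lit 93) (nat_lit 5) (nat_lit 94) (nat_lit 5) (nat_lit 311) (nat_lit 302) (nat_lit 167)) (XT.lf (nat_lit 76) (nat_lit 4072395523) (nat_lit 0) (nat_lit 2081521554) (nat_lit 836) (nat_lit 34919093664) (nat_lit 84) (nat_lit 5) (nat_lit 83) (nat_lit 5) (nat_lit 94)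 (nat_lit 5) (nat_lit 312) (nat_lit 302) (nat_lit 166))))) (XT.nd (nat_lit 156) (nat_lit 380) (nat_lit 0) (XT.nd (nat_lit 78) (nat_lit 532) (nat_lit 0) (XT.lf (nat_lit 0) (nat_lit 9324118172) (nat_lit 760) (nat_lit 17578389807) (nat_lit 76) (nat_lit 15293914187) (nat_lit 84) (nat_lit 5) (nat_lit 94) (nat_lit 5) (nat_lit 85) (nat_lit 5) (nat_lit 313) (nat_lit 302) (nat_lit 165)) (XT.lf (nat_lit 0) (nat_lit 2870439579) (nat_lit 532) (nat_lit 9858821192) (nat_lit 608) (nat_lit 30642926407) (nat_lit 77) (nat_lit 5) (nat_lit 84) (nat_lit 5) (nat_lit 85) (nat_lit 5) (nat_lit 314) (nat_lit 302) (nat_lit 164))) (XT.nd (nat_lit 78) (nat_lit 380) (nat_lit 0) (XT.lf (nat_lit 0) (nat_lit 16730300677) (nat_lit 608) (nat_lit 19772572534) (nat_lit 76) (nat_lit 8082589594) (nat_lit 77) (nat_lit 5) (nat_lit 85) (nat_lit 5) (nat_lit 78) (nat_lit 5) (nat_lit 315) (nat_lit 302) (nat_lit 163)) (XT.nd (nat_lit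 78) (nat_lit 0) (nat_lit 0) (XT.lf (nat_lit 0) (nat_lit 1889686584) (nat_lit 380) (nat_lit 19230524994) (nat_lit 456) (nat_lit 24729753849) (nat_lit 72) (nat_lit 5) (nat_lit 77) (nat_lit 5) (nat_lit 78) (nat_lit 5) (nat_lit 316) (nat_lit 302) (nat_lit 162)) (XT.lf (nat_lit 0) (nat_lit 25319317347) (nat_lit 380) (nat_lit 742929813) (nat_lit 456) (nat_lit 21098818528) (nat_lit 72) (nat_lit 5) (nat_lit 77) (nat_lit 5) (nat_lit 78) (nat_lit 5) (nat_lit 317) (nat_lit 302) (nat_lit 161)))))) (XT.nd (nat_lit 390) (nat_lit 532) (nat_lit 0) (XT.nd (nat_lit 156) (nat_lit 684) (nat_lit 0) (XT.nd (nat_lit 78) (nat_lit 0) (nat_lit 0) (XT.lf (nat_lit 0) (nat_lit 1125034765) (nat_lit 304) (nat_lit 30433268433) (nat_lit 380) (nat_lit 16964075606) (nat_lit 68) (nat_lit 5) (nat_lit 72) (nat_lit 5) (nat_lit 73) (nat_lit 5) (nat_lit 318) (nat_lit 302) (nat_lit 160)) (XT.lf (nat_lit 0) (nat_lit 25983700971)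 (nat_lit 304) (nat_lit 11725289182) (nat_lit 380) (nat_lit 12223779615) (nat_lit 68) (nat_lit 5) (nat_lit 72) (nat_lit 5) (nat_lit 73) (nat_lit 5) (nat_lit 319) (nat_lit 302) (nat_lit 159))) (XT.nd (nat_lit 78) (nat_lit 380) (nat_lit 0) (XT.lf (nat_lit 0) (nat_lit 563877660) (nat_lit 304) (nat_lit 43733802020) (nat_lit 380) (nat_lit 7109480614) (nat_lit 64) (nat_lit 5) (nat_lit 68) (nat_lit 5) (nat_lit 69) (nat_lit 5) (nat_lit 320) (nat_lit 302) (nat_lit 158)) (XT.nd (nat_lit 78) (nat_lit 380) (nat_lit 0) (XT.lf (nat_lit 0) (nat_lit 26933223938) (nat_lit 304) (nat_lit 24875387340) (nat_lit 380) (nat_lit 1117021951) (nat_lit 64) (nat_lit 5) (nat_lit 68) (nat_lit 5) (nat_lit 69) (nat_lit 5) (nat_lit 321) (nat_lit 302) (nat_lit 157)) (XT.lf (nat_lit 0) (nat_lit 18715568) (nat_lit 304) (nat_lit 4989160784) (nat_lit 380) (nat_lit 49508194012) (nat_lit 59) (nat_lit 5) (nat_lit 63) (nat_lit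 5) (nat_lit 64) (nat_lit 5) (nat_lit 322) (nat_lit 302) (nat_lit 156))))) (XT.nd (nat_lit 156) (nat_lit 532) (nat_lit 0) (XT.nd (nat_lit 78) (nat_lit 0) (nat_lit 0) (XT.lf (nat_lit 0) (nat_lit 12095209527) (nat_lit 380) (nat_lit 28207010314) (nat_lit 76) (nat_lit 15848210279) (nat_lit 59) (nat_lit 5) (nat_lit 64) (nat_lit 5) (nat_lit 60) (nat_lit 5) (nat_lit 323) (nat_lit 302) (nat_lit 155)) (XT.lf (nat_lit 0) (nat_lit 19616994084) (nat_lit 380) (nat_lit 685983869) (nat_lit 76) (nat_lit 37559528359) (nat_lit 59) (nat_lit 5) (nat_lit 64) (nat_lit 5) (nat_lit 60) (nat_lit 5) (nat_lit 324) (nat_lit 302) (nat_lit 154))) (XT.nd (nat_lit 78) (nat_lit 228) (nat_lit 0) (XT.lf (nat_lit 0) (nat_lit 27986554231) (nat_lit 380) (nat_lit 30513977179) (nat_lit 76) (nat_lit 1136073141) (nat_lit 55) (nat_lit 5) (nat_lit 60) (nat_lit 5) (nat_lit 56) (nat_lit 5) (nat_lit 325) (nat_lit 302) (nat_lit 153))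 (XT.nd (nat_lit 78) (nat_lit 228) (nat_lit 0) (XT.lf (nat_lit 0) (nat_lit 37117654460) (nat_lit 380) (nat_lit 1388360822) (nat_lit 76) (nat_lit 22976241753) (nat_lit 55) (nat_lit 5) (nat_lit 60) (nat_lit 5) (nat_lit 56) (nat_lit 5) (nat_lit 326) (nat_lit 302) (nat_lit 152)) (XT.lf (nat_lit 0) (nat_lit 30156845822) (nat_lit 228) (nat_lit 17017790518) (nat_lit 304) (nat_lit 16222091787) (nat_lit 52) (nat_lit 5) (nat_lit 55) (nat_lit 5) (nat_lit 56) (nat_lit 5) (nat_lit 327) (nat_lit 302) (nat_lit 151))))))))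
noncomputable def xc214 : XT := (XT.nd (nat_lit 1560) (nat_lit 1140) (nat_lit 0) (XT.nd (nat_lit 780) (nat_lit 684) (nat_lit 0) (XT.nd (nat_lit 390) (nat_lit 684) (nat_lit 0) (XT.nd (nat_lit 156) (nat_lit 228) (nat_lit 0) (XT.nd (nat_lit 78) (nat_lit 304) (nat_lit 0) (XT.lf (nat_lit 0) (nat_lit 57843465939) (nat_lit 304) (nat_lit 2167126032) (nat_lit 76) (nat_lit 5390883081) (nat_lit 52) (nat_lit 5) (nat_lit 56) (nat_lit 5) (nat_lit 53) (nat_lit 5) (nat_lit 328) (nat_lit 302) (nat_lit 150)) (XT.lf (nat_lit 0) (nat_lit 2266868442) (nat_lit 304) (nat_lit 36328528033) (nat_lit 76) (nat_lit 28871020367) (nat_lit 48) (nat_lit 5) (nat_lit 52) (nat_lit 5) (nat_lit 49) (nat_lit 5) (nat_lit 329) (nat_lit 302) (nat_lit 149))) (XT.nd (nat_lit 78) (nat_lit 228) (nat_lit 0) (XT.lf (nat_lit 0) (nat_lit 12364908304) (nat_lit 304) (nat_lit 3575744172) (nat_lit 76) (nat_lit 53685964207) (nat_lit 48)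 (nat_lit 5) (nat_lit 52) (nat_lit 5) (nat_lit 49) (nat_lit 5) (nat_lit 330) (nat_lit 302) (nat_lit 148)) (XT.nd (nat_lit 78) (nat_lit 0) (nat_lit 0) (XT.lf (nat_lit 0) (nat_lit 23594163763) (nat_lit 304) (nat_lit 40168977188) (nat_lit 76) (nat_lit 8100371701) (nat_lit 45) (nat_lit 5) (nat_lit 49) (nat_lit 5) (nat_lit 46) (nat_lit 5) (nat_lit 331) (nat_lit 302) (nat_lit 147)) (XT.lf (nat_lit 0) (nat_lit 35706462381) (nat_lit 304) (nat_lit 5620873291) (nat_lit 76) (nat_lit 32868840461) (nat_lit 45) (nat_lit 5) (nat_lit 49) (nat_lit 5) (nat_lit 46) (nat_lit 5) (nat_lit 332) (nat_lit 302) (nat_lit 146))))) (XT.nd (nat_lit 156) (nat_lit 456) (nat_lit 0) (XT.nd (nat_lit 78) (nat_lit 0) (nat_lit 0) (XT.lf (nat_lit 0) (nat_lit 31666441935) (nat_lit 228) (nat_lit 17251105916) (nat_lit 304) (nat_lit 27703267986) (nat_lit 42) (nat_lit 5) (nat_lit 45) (nat_lit 5) (nat_lit 46) (nat_lit 5) (nat_lit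 333) (nat_lit 302) (nat_lit 145)) (XT.lf (nat_lit 0) (nat_lit 63010089032) (nat_lit 304) (nat_lit 8277319511) (nat_lit 76) (nat_lit 7868235482) (nat_lit 42) (nat_lit 5) (nat_lit 46) (nat_lit 5) (nat_lit 43) (nat_lit 5) (nat_lit 334) (nat_lit 302) (nat_lit 144))) (XT.nd (nat_lit 78) (nat_lit 304) (nat_lit 0) (XT.lf (nat_lit 0) (nat_lit 30939375010) (nat_lit 152) (nat_lit 47632589548) (nat_lit 228) (nat_lit 3207015195) (nat_lit 40) (nat_lit 5) (nat_lit 42) (nat_lit 5) (nat_lit 43) (nat_lit 5) (nat_lit 335) (nat_lit 302) (nat_lit 143)) (XT.nd (nat_lit 78) (nat_lit 228) (nat_lit 0) (XT.lf (nat_lit 0) (nat_lit 10187616138) (nat_lit 228) (nat_lit 12288206913) (nat_lit 76) (nat_lit 62042491744) (nat_lit 39) (nat_lit 5) (nat_lit 42) (nat_lit 5) (nat_lit 40) (nat_lit 5) (nat_lit 336) (nat_lit 302) (nat_lit 142)) (XT.lf (nat_lit 0) (nat_lit 24666722853) (nat_lit 304) (nat_lit 58372225263) (nat_lit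 76) (nat_lit 4326915037) (nat_lit 36) (nat_lit 5) (nat_lit 40) (nat_lit 5) (nat_lit 37) (nat_lit 5) (nat_lit 337) (nat_lit 302) (nat_lit 141)))))) (XT.nd (nat_lit 390) (nat_lit 304) (nat_lit 0) (XT.nd (nat_lit 156) (nat_lit 228) (nat_lit 0) (XT.nd (nat_lit 78) (nat_lit 152) (nat_lit 0) (XT.lf (nat_lit 0) (nat_lit 40448694111) (nat_lit 304) (nat_lit 17952671331) (nat_lit 76) (nat_lit 31925479255) (nat_lit 36) (nat_lit 5) (nat_lit 40) (nat_lit 5) (nat_lit 37) (nat_lit 5) (nat_lit 338) (nat_lit 302) (nat_lit 140)) (XT.lf (nat_lit 0) (nat_lit 25295951806) (nat_lit 152) (nat_lit 32117738325) (nat_lit 228) (nat_lit 36002490049) (nat_lit 34) (nat_lit 5) (nat_lit 36) (nat_lit 5) (nat_lit 37) (nat_lit 5) (nat_lit 339) (nat_lit 302) (nat_lit 139))) (XT.nd (nat_lit 78) (nat_lit 228) (nat_lit 0) (XT.lf (nat_lit 0) (nat_lit 71328770176) (nat_lit 152) (nat_lit 4201213153) (nat_lit 228) (nat_lit 21114847853)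 (nat_lit 34) (nat_lit 5) (nat_lit 36) (nat_lit 5) (nat_lit 37) (nat_lit 5) (nat_lit 340) (nat_lit 302) (nat_lit 138)) (XT.nd (nat_lit 78) (nat_lit 76) (nat_lit 0) (XT.lf (nat_lit 0) (nat_lit 19870767588) (nat_lit 152) (nat_lit 75382666779) (nat_lit 228) (nat_lit 4746414271) (nat_lit 32) (nat_lit 5) (nat_lit 34) (nat_lit 5) (nat_lit 35) (nat_lit 5) (nat_lit 341) (nat_lit 302) (nat_lit 137)) (XT.lf (nat_lit 0) (nat_lit 12545965687) (nat_lit 228) (nat_lit 35576945768) (nat_lit 76) (nat_lit 55364810143) (nat_lit 31) (nat_lit 5) (nat_lit 34) (nat_lit 5) (nat_lit 32) (nat_lit 5) (nat_lit 342) (nat_lit 302) (nat_lit 136))))) (XT.nd (nat_lit 156) (nat_lit 152) (nat_lit 0) (XT.nd (nat_lit 78) (nat_lit 0) (nat_lit 0) (XT.lf (nat_lit 0) (nat_lit 11491363652) (nat_lit 152) (nat_lit 19230603590) (nat_lit 228) (nat_lit 76415205716) (nat_lit 29) (nat_lit 5) (nat_lit 31) (nat_lit 5) (nat_lit 32) (nat_lit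 5) (nat_lit 343) (nat_lit 302) (nat_lit 135)) (XT.lf (nat_lit 0) (nat_lit 50591673515) (nat_lit 228) (nat_lit 48975441312) (nat_lit 76) (nat_lit 11362737700) (nat_lit 29) (nat_lit 5) (nat_lit 32) (nat_lit 5) (nat_lit 30) (nat_lit 5) (nat_lit 344) (nat_lit 302) (nat_lit 134))) (XT.nd (nat_lit 78) (nat_lit 152) (nat_lit 0) (XT.lf (nat_lit 0) (nat_lit 71769276912) (nat_lit 228) (nat_lit 288174330) (nat_lit 76) (nat_lit 42838995075) (nat_lit 29) (nat_lit 5) (nat_lit 32) (nat_lit 5) (nat_lit 30) (nat_lit 5) (nat_lit 345) (nat_lit 302) (nat_lit 133)) (XT.nd (nat_lit 78) (nat_lit 0) (nat_lit 0) (XT.lf (nat_lit 0) (nat_lit 52512898004) (nat_lit 152) (nat_lit 42311932182) (nat_lit 228) (nat_lit 24195586918) (nat_lit 27) (nat_lit 5) (nat_lit 29) (nat_lit 5) (nat_lit 30) (nat_lit 5) (nat_lit 346) (nat_lit 302) (nat_lit 132)) (XT.lf (nat_lit 0) (nat_lit 107962750982) (nat_lit 152) (nat_lit 11074505044)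 (nat_lit 228) (nat_lit 4313126413) (nat_lit 27) (nat_lit 5) (nat_lit 29) (nat_lit 5) (nat_lit 30) (nat_lit 5) (nat_lit 347) (nat_lit 302) (nat_lit 131))))))) (XT.nd (nat_lit 780) (nat_lit 532) (nat_lit 0) (XT.nd (nat_lit 390) (nat_lit 304) (nat_lit 0) (XT.nd (nat_lit 156) (nat_lit 152) (nat_lit 0) (XT.nd (nat_lit 78) (nat_lit 0) (nat_lit 0) (XT.lf (nat_lit 0) (nat_lit 16999395277) (nat_lit 152) (nat_lit 88920961797) (nat_lit 76) (nat_lit 21915255941) (nat_lit 25) (nat_lit 5) (nat_lit 27) (nat_lit 5) (nat_lit 26) (nat_lit 5) (nat_lit 348) (nat_lit 302) (nat_lit 130)) (XT.lf (nat_lit 0) (nat_lit 39678260699) (nat_lit 152) (nat_lit 36323584824) (nat_lit 76) (nat_lit 56517441551) (nat_lit 25) (nat_lit 5) (nat_lit 27) (nat_lit 5) (nat_lit 26) (nat_lit 5) (nat_lit 349) (nat_lit 302) (nat_lit 129))) (XT.nd (nat_lit 78) (nat_lit 0) (nat_lit 0) (XT.lf (nat_lit 0) (nat_lit 19527468548) (nat_lit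 152) (nat_lit 44267763780) (nat_lit 228) (nat_lit 73626704981) (nat_lit 23) (nat_lit 5) (nat_lit 25) (nat_lit 5) (nat_lit 26) (nat_lit 5) (nat_lit 350) (nat_lit 302) (nat_lit 128)) (XT.nd (nat_lit 78) (nat_lit 0) (nat_lit 0) (XT.lf (nat_lit 0) (nat_lit 79430973287) (nat_lit 152) (nat_lit 10301536907) (nat_lit 228) (nat_lit 52806487571) (nat_lit 23) (nat_lit 5) (nat_lit 25) (nat_lit 5) (nat_lit 26) (nat_lit 5) (nat_lit 351) (nat_lit 302) (nat_lit 127)) (XT.lf (nat_lit 0) (nat_lit 117361965927) (nat_lit 228) (nat_lit 5979390583) (nat_lit 76) (nat_lit 24550789599) (nat_lit 23) (nat_lit 5) (nat_lit 26) (nat_lit 5) (nat_lit 24) (nat_lit 4) (nat_lit 352) (nat_lit 302) (nat_lit 126))))) (XT.nd (nat_lit 156) (nat_lit 152) (nat_lit 0) (XT.nd (nat_lit 78) (nat_lit 76) (nat_lit 0) (XT.lf (nat_lit 0) (nat_lit 55615758407) (nat_lit 76) (nat_lit 91793690062) (nat_lit 152) (nat_lit 6051676237) (nat_lit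 22) (nat_lit 5) (nat_lit 23) (nat_lit 5) (nat_lit 24) (nat_lit 4) (nat_lit 353) (nat_lit 302) (nat_lit 125)) (XT.lf (nat_lit 0) (nat_lit 19124091555) (nat_lit 152) (nat_lit 39114791191) (nat_lit 76) (nat_lit 101049215533) (nat_lit 21) (nat_lit 5) (nat_lit 23) (nat_lit 5) (nat_lit 22) (nat_lit 5) (nat_lit 354) (nat_lit 302) (nat_lit 124))) (XT.nd (nat_lit 78) (nat_lit 0) (nat_lit 0) (XT.lf (nat_lit 0) (nat_lit 23194429016) (nat_lit 152) (nat_lit 22522364685) (nat_lit 228) (nat_lit 119666590803) (nat_lit 19) (nat_lit 5) (nat_lit 21) (nat_lit 5) (nat_lit 22) (nat_lit 5) (nat_lit 355) (nat_lit 302) (nat_lit 123)) (XT.nd (nat_lit 78) (nat_lit 0) (nat_lit 0) (XT.lf (nat_lit 0) (nat_lit 74545695956) (nat_lit 228) (nat_lit 82019014211) (nat_lit 76) (nat_lit 15173397066) (nat_lit 19) (nat_lit 5) (nat_lit 22) (nat_lit 5) (nat_lit 20) (nat_lit 4) (nat_lit 356) (nat_lit 302) (nat_lit 122)) (XT.lf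 (nat_lit 0) (nat_lit 105184689228) (nat_lit 228) (nat_lit 19210794098) (nat_lit 76) (nat_lit 53996650897) (nat_lit 19) (nat_lit 5) (nat_lit 22) (nat_lit 5) (nat_lit 20) (nat_lit 4) (nat_lit 357) (nat_lit 302) (nat_lit 121)))))) (XT.nd (nat_lit 390) (nat_lit 228) (nat_lit 0) (XT.nd (nat_lit 156) (nat_lit 228) (nat_lit 0) (XT.nd (nat_lit 78) (nat_lit 0) (nat_lit 0) (XT.lf (nat_lit 0) (nat_lit 48282217964) (nat_lit 76) (nat_lit 89826689039) (nat_lit 152) (nat_lit 47232292219) (nat_lit 18) (nat_lit 5) (nat_lit 19) (nat_lit 5) (nat_lit 20) (nat_lit 4) (nat_lit 358) (nat_lit 302) (nat_lit 120)) (XT.lf (nat_lit 0) (nat_lit 119815899812) (nat_lit 76) (nat_lit 53188245433) (nat_lit 152) (nat_lit 19617332127) (nat_lit 18) (nat_lit 5) (nat_lit 19) (nat_lit 5) (nat_lit 20) (nat_lit 4) (nat_lit 359) (nat_lit 302) (nat_lit 119))) (XT.nd (nat_lit 78) (nat_lit 152) (nat_lit 0) (XT.lf (nat_lit 0) (nat_lit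 9077691610) (nat_lit 152) (nat_lit 5486835503) (nat_lit 76) (nat_lit 185693947413) (nat_lit 17) (nat_lit 5) (nat_lit 19) (nat_lit 5) (nat_lit 18) (nat_lit 5) (nat_lit 360) (nat_lit 302) (nat_lit 118)) (XT.nd (nat_lit 78) (nat_lit 0) (nat_lit 0) (XT.lf (nat_lit 0) (nat_lit 40022282154) (nat_lit 228) (nat_lit 141616695111) (nat_lit 76) (nat_lit 26548560493) (nat_lit 15) (nat_lit 5) (nat_lit 18) (nat_lit 5) (nat_lit 16) (nat_lit 4) (nat_lit 361) (nat_lit 302) (nat_lit 117)) (XT.lf (nat_lit 0) (nat_lit 72846821812) (nat_lit 228) (nat_lit 74327669388) (nat_lit 76) (nat_lit 69321927284) (nat_lit 15) (nat_lit 5) (nat_lit 18) (nat_lit 5) (nat_lit 16) (nat_lit 4) (nat_lit 362) (nat_lit 302) (nat_lit 116))))) (XT.nd (nat_lit 156) (nat_lit 152) (nat_lit 0) (XT.nd (nat_lit 78) (nat_lit 76) (nat_lit 0) (XT.lf (nat_lit 0) (nat_lit 107312123042) (nat_lit 228) (nat_lit 3675021464) (nat_lit 76) (nat_lit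 114233622310) (nat_lit 15) (nat_lit 5) (nat_lit 18) (nat_lit 5) (nat_lit 16) (nat_lit 4) (nat_lit 363) (nat_lit 302) (nat_lit 115)) (XT.lf (nat_lit 0) (nat_lit 72840830734) (nat_lit 76) (nat_lit 71796664854) (nat_lit 152) (nat_lit 89686996949) (nat_lit 14) (nat_lit 5) (nat_lit 15) (nat_lit 5) (nat_lit 16) (nat_lit 4) (nat_lit 364) (nat_lit 302) (nat_lit 114))) (XT.nd (nat_lit 78) (nat_lit 152) (nat_lit 0) (XT.lf (nat_lit 0) (nat_lit 153309287120) (nat_lit 76) (nat_lit 30581653636) (nat_lit 152) (nat_lit 59989373858) (nat_lit 14) (nat_lit 5) (nat_lit 15) (nat_lit 5) (nat_lit 16) (nat_lit 4) (nat_lit 365) (nat_lit 302) (nat_lit 113)) (XT.nd (nat_lit 78) (nat_lit 152) (nat_lit 0) (XT.lf (nat_lit 0) (nat_lit 225304830102) (nat_lit 152) (nat_lit 16311707793) (nat_lit 0) (nat_lit 12287501563) (nat_lit 14) (nat_lit 5) (nat_lit 16) (nat_lit 4) (nat_lit 14) (nat_lit 4) (nat_lit 366) (nat_lit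 302) (nat_lit 112)) (XT.lf (nat_lit 0) (nat_lit 5732651717) (nat_lit 152) (nat_lit 201266348104) (nat_lit 76) (nat_lit 57350959485) (nat_lit 12) (nat_lit 5) (nat_lit 14) (nat_lit 5) (nat_lit 13) (nat_lit 4) (nat_lit 367) (nat_lit 302) (nat_lit 111))))))))
noncomputable def xc215 : XT := (XT.nd (nat_lit 36426) (nat_lit 0) (nat_lit 2508) (XT.nd (nat_lit 35646) (nat_lit 0) (nat_lit 5624) (XT.nd (nat_lit 390) (nat_lit 152) (nat_lit 0) (XT.nd (nat_lit 156) (nat_lit 76) (nat_lit 0) (XT.nd (nat_lit 78) (nat_lit 0) (nat_lit 0) (XT.lf (nat_lit 0) (nat_lit 41100362724) (nat_lit 152) (nat_lit 128763450621) (nat_lit 76) (nat_lit 105416901156) (nat_lit 12) (nat_lit 5) (nat_lit 14) (nat_lit 5) (nat_lit 13) (nat_lit 4) (nat_lit 368) (nat_lit 302) (nat_lit 110)) (XT.lf (nat_lit 0) (nat_lit 78236080758) (nat_lit 152) (nat_lit 52636095396) (nat_lit 76) (nat_lit 155885850440) (nat_lit 12) (nat_lit 5) (nat_lit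 14) (nat_lit 5) (nat_lit 13) (nat_lit 4) (nat_lit 369) (nat_lit 302) (nat_lit 109))) (XT.nd (nat_lit 78) (nat_lit 0) (nat_lit 0) (XT.lf (nat_lit 0) (nat_lit 28199534389) (nat_lit 76) (nat_lit 89468963567) (nat_lit 152) (nat_lit 181118710875) (nat_lit 11) (nat_lit 5) (nat_lit 12) (nat_lit 5) (nat_lit 13) (nat_lit 4) (nat_lit 370) (nat_lit 302) (nat_lit 108)) (XT.nd (nat_lit 78) (nat_lit 0) (nat_lit 0) (XT.lf (nat_lit 0) (nat_lit 114903708184) (nat_lit 76) (nat_lit 45059892190) (nat_lit 152) (nat_lit 151409696779) (nat_lit 11) (nat_lit 5) (nat_lit 12) (nat_lit 5) (nat_lit 13) (nat_lit 4) (nat_lit 371) (nat_lit 302) (nat_lit 107)) (XT.lf (nat_lit 0) (nat_lit 204397623405) (nat_lit 152) (nat_lit 118670731478) (nat_lit 0) (nat_lit 1519126918) (nat_lit 11) (nat_lit 5) (nat_lit 13) (nat_lit 4) (nat_lit 11) (nat_lit 4) (nat_lit 372) (nat_lit 302) (nat_lit 106))))) (XT.nd (nat_lit 234) (nat_lit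 76) (nat_lit 0) (XT.nd (nat_lit 78) (nat_lit 76) (nat_lit 0) (XT.lf (nat_lit 0) (nat_lit 251791709701) (nat_lit 152) (nat_lit 37721213954) (nat_lit 0) (nat_lit 48912534097) (nat_lit 11) (nat_lit 5) (nat_lit 13) (nat_lit 4) (nat_lit 11) (nat_lit 4) (nat_lit 373) (nat_lit 302) (nat_lit 105)) (XT.lf (nat_lit 0) (nat_lit 48838343749) (nat_lit 76) (nat_lit 253479350793) (nat_lit 76) (nat_lit 50599528411) (nat_lit 10) (nat_lit 4) (nat_lit 11) (nat_lit 5) (nat_lit 11) (nat_lit 4) (nat_lit 374) (nat_lit 302) (nat_lit 104))) (XT.nd (nat_lit 78) (nat_lit 0) (nat_lit 0) (XT.lf (nat_lit 0) (nat_lit 27431247328) (nat_lit 152) (nat_lit 146646967984) (nat_lit 76) (nat_lit 209944976485) (nat_lit 9) (nat_lit 5) (nat_lit 11) (nat_lit 5) (nat_lit 10) (nat_lit 4) (nat_lit 376) (nat_lit 302) (nat_lit 102)) (XT.nd (nat_lit 34866) (nat_lit 0) (nat_lit 6156) (XT.lf (nat_lit 0) (nat_lit 68525173636) (nat_lit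 152) (nat_lit 62404977765) (nat_lit 76) (nat_lit 269800760584) (nat_lit 9) (nat_lit 5) (nat_lit 11) (nat_lit 5) (nat_lit 10) (nat_lit 4) (nat_lit 377) (nat_lit 302) (nat_lit 101)) (XT.lf (nat_lit 0) (nat_lit 6765749097) (nat_lit 0) (nat_lit 6765749097) (nat_lit 684) (nat_lit 3146427708) (nat_lit 90) (nat_lit 5) (nat_lit 90) (nat_lit 3) (nat_lit 99) (nat_lit 3) (nat_lit 303) (nat_lit 303) (nat_lit 174)))))) (XT.nd (nat_lit 390) (nat_lit 532) (nat_lit 0) (XT.nd (nat_lit 156) (nat_lit 0) (nat_lit 0) (XT.nd (nat_lit 78) (nat_lit 0) (nat_lit 0) (XT.lf (nat_lit 0) (nat_lit 27820978761) (nat_lit 684) (nat_lit 4736042583) (nat_lit 760) (nat_lit 1628545139) (nat_lit 90) (nat_lit 5) (nat_lit 99) (nat_lit 3) (nat_lit 100) (nat_lit 5) (nat_lit 304) (nat_lit 303) (nat_lit 173)) (XT.lf (nat_lit 76) (nat_lit 11242717321) (nat_lit 0) (nat_lit 17767998961) (nat_lit 760) (nat_lit 6026364930) (nat_lit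 91) (nat_lit 5) (nat_lit 90) (nat_lit 5) (nat_lit 100) (nat_lit 5) (nat_lit 305) (nat_lit 303) (nat_lit 172))) (XT.nd (nat_lit 78) (nat_lit 0) (nat_lit 76) (XT.lf (nat_lit 76) (nat_lit 28182895793) (nat_lit 0) (nat_lit 2153886341) (nat_lit 760) (nat_lit 5590554254) (nat_lit 91) (nat_lit 5) (nat_lit 90) (nat_lit 5) (nat_lit 100) (nat_lit 5) (nat_lit 306) (nat_lit 303) (nat_lit 171)) (XT.nd (nat_lit 78) (nat_lit 0) (nat_lit 0) (XT.lf (nat_lit 76) (nat_lit 9177330472) (nat_lit 0) (nat_lit 22914261202) (nat_lit 760) (nat_lit 4752397086) (nat_lit 92) (nat_lit 5) (nat_lit 91) (nat_lit 5) (nat_lit 101) (nat_lit 5) (nat_lit 307) (nat_lit 303) (nat_lit 170)) (XT.lf (nat_lit 76) (nat_lit 27175575947) (nat_lit 0) (nat_lit 6921397696) (nat_lit 760) (nat_lit 3701364664) (nat_lit 92) (nat_lit 5) (nat_lit 91) (nat_lit 5) (nat_lit 101) (nat_lit 5) (nat_lit 308) (nat_lit 303) (nat_lit 169))))) (XT.nd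 (nat_lit 156) (nat_lit 684) (nat_lit 0) (XT.nd (nat_lit 78) (nat_lit 0) (nat_lit 0) (XT.lf (nat_lit 76) (nat_lit 7352458820) (nat_lit 0) (nat_lit 29116171678) (nat_lit 760) (nat_lit 2318480400) (nat_lit 93) (nat_lit 5) (nat_lit 92) (nat_lit 5) (nat_lit 102) (nat_lit 5) (nat_lit 309) (nat_lit 303) (nat_lit 168)) (XT.lf (nat_lit 76) (nat_lit 26475977219) (nat_lit 0) (nat_lit 12771633953) (nat_lit 760) (nat_lit 563279480) (nat_lit 93) (nat_lit 5) (nat_lit 92) (nat_lit 5) (nat_lit 102) (nat_lit 5) (nat_lit 310) (nat_lit 303) (nat_lit 167))) (XT.nd (nat_lit 78) (nat_lit 0) (nat_lit 0) (XT.lf (nat_lit 0) (nat_lit 1397478898) (nat_lit 760) (nat_lit 35116288063) (nat_lit 836) (nat_lit 4363160760) (nat_lit 83) (nat_lit 5) (nat_lit 93) (nat_lit 5) (nat_lit 94) (nat_lit 5) (nat_lit 311) (nat_lit 303) (nat_lit 166)) (XT.nd (nat_lit 78) (nat_lit 0) (nat_lit 0) (XT.lf (nat_lit 0) (nat_lit 3873647211)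 (nat_lit 760) (nat_lit 15935508126) (nat_lit 836) (nat_lit 22164839329) (nat_lit 83) (nat_lit 5) (nat_lit 93) (nat_lit 5) (nat_lit 94) (nat_lit 5) (nat_lit 312) (nat_lit 303) (nat_lit 165)) (XT.lf (nat_lit 76) (nat_lit 4341204748) (nat_lit 0) (nat_lit 2197717044) (nat_lit 836) (nat_lit 36583732862) (nat_lit 84) (nat_lit 5) (nat_lit 83) (nat_lit 5) (nat_lit 94) (nat_lit 5) (nat_lit 313) (nat_lit 303) (nat_lit 164))))))) (XT.nd (nat_lit 780) (nat_lit 1292) (nat_lit 0) (XT.nd (nat_lit 390) (nat_lit 988) (nat_lit 0) (XT.nd (nat_lit 156) (nat_lit 380) (nat_lit 0) (XT.nd (nat_lit 78) (nat_lit 532) (nat_lit 0) (XT.lf (nat_lit 0) (nat_lit 9863771359) (nat_lit 760) (nat_lit 18391228067) (nat_lit 76) (nat_lit 16047437025) (nat_lit 84) (nat_lit 5) (nat_lit 94) (nat_lit 5) (nat_lit 85) (nat_lit 5) (nat_lit 314) (nat_lit 303) (nat_lit 163)) (XT.lf (nat_lit 0) (nat_lit 3078976961) (nat_lit 532) (nat_lit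 10357711711) (nat_lit 608) (nat_lit 32100431567) (nat_lit 77) (nat_lit 5) (nat_lit 84) (nat_lit 5) (nat_lit 85) (nat_lit 5) (nat_lit 315) (nat_lit 303) (nat_lit 162))) (XT.nd (nat_lit 78) (nat_lit 380) (nat_lit 0) (XT.lf (nat_lit 0) (nat_lit 17634312829) (nat_lit 608) (nat_lit 20695692027) (nat_lit 76) (nat_lit 8481234275) (nat_lit 77) (nat_lit 5) (nat_lit 85) (nat_lit 5) (nat_lit 78) (nat_lit 5) (nat_lit 316) (nat_lit 303) (nat_lit 161)) (XT.nd (nat_lit 78) (nat_lit 0) (nat_lit 0) (XT.lf (nat_lit 0) (nat_lit 2048623447) (nat_lit 380) (nat_lit 20192887964) (nat_lit 456) (nat_lit 25897571674) (nat_lit 72) (nat_lit 5) (nat_lit 77) (nat_lit 5) (nat_lit 78) (nat_lit 5) (nat_lit 317) (nat_lit 303) (nat_lit 160)) (XT.lf (nat_lit 0) (nat_lit 26646666580) (nat_lit 380) (nat_lit 780873180) (nat_lit 456) (nat_lit 22088359581) (nat_lit 72) (nat_lit 5) (nat_lit 77) (nat_lit 5) (nat_lit 78) (nat_lit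 5) (nat_lit 318) (nat_lit 303) (nat_lit 159))))) (XT.nd (nat_lit 156) (nat_lit 684) (nat_lit 0) (XT.nd (nat_lit 78) (nat_lit 0) (nat_lit 0) (XT.lf (nat_lit 0) (nat_lit 1244859758) (nat_lit 304) (nat_lit 31951558587) (nat_lit 380) (nat_lit 17748964049) (nat_lit 68) (nat_lit 5) (nat_lit 72) (nat_lit 5) (nat_lit 73) (nat_lit 5) (nat_lit 319) (nat_lit 303) (nat_lit 158)) (XT.lf (nat_lit 0) (nat_lit 27343431976) (nat_lit 304) (nat_lit 12308341005) (nat_lit 380) (nat_lit 12774668274) (nat_lit 68) (nat_lit 5) (nat_lit 72) (nat_lit 5) (nat_lit 73) (nat_lit 5) (nat_lit 320) (nat_lit 303) (nat_lit 157))) (XT.nd (nat_lit 78) (nat_lit 380) (nat_lit 0) (XT.lf (nat_lit 0) (nat_lit 654510748) (nat_lit 304) (nat_lit 45913678699) (nat_lit 380) (nat_lit 7406452016) (nat_lit 64) (nat_lit 5) (nat_lit 68) (nat_lit 5) (nat_lit 69) (nat_lit 5) (nat_lit 321) (nat_lit 303) (nat_lit 156)) (XT.nd (nat_lit 78)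 (nat_lit 380) (nat_lit 0) (XT.lf (nat_lit 0) (nat_lit 28339351044) (nat_lit 304) (nat_lit 26112667733) (nat_lit 380) (nat_lit 1117156260) (nat_lit 64) (nat_lit 5) (nat_lit 68) (nat_lit 5) (nat_lit 69) (nat_lit 5) (nat_lit 322) (nat_lit 303) (nat_lit 155)) (XT.lf (nat_lit 0) (nat_lit 79997926) (nat_lit 304) (nat_lit 5230579665) (nat_lit 380) (nat_lit 51928598375) (nat_lit 59) (nat_lit 5) (nat_lit 63) (nat_lit 5) (nat_lit 64) (nat_lit 5) (nat_lit 323) (nat_lit 303) (nat_lit 154)))))) (XT.nd (nat_lit 390) (nat_lit 760) (nat_lit 0) (XT.nd (nat_lit 156) (nat_lit 532) (nat_lit 0) (XT.nd (nat_lit 78) (nat_lit 0) (nat_lit 0) (XT.lf (nat_lit 0) (nat_lit 12749906132) (nat_lit 380) (nat_lit 29557437990) (nat_lit 76) (nat_lit 16648032083) (nat_lit 59) (nat_lit 5) (nat_lit 64) (nat_lit 5) (nat_lit 60) (nat_lit 5) (nat_lit 324) (nat_lit 303) (nat_lit 153)) (XT.lf (nat_lit 0) (nat_lit 20645402006)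 (nat_lit 380) (nat_lit 663213691) (nat_lit 76) (nat_lit 39444563149) (nat_lit 59) (nat_lit 5) (nat_lit 64) (nat_lit 5) (nat_lit 60) (nat_lit 5) (nat_lit 325) (nat_lit 303) (nat_lit 152))) (XT.nd (nat_lit 78) (nat_lit 228) (nat_lit 0) (XT.lf (nat_lit 0) (nat_lit 29432207921) (nat_lit 380) (nat_lit 31981303121) (nat_lit 76) (nat_lit 1202536133) (nat_lit 55) (nat_lit 5) (nat_lit 60) (nat_lit 5) (nat_lit 56) (nat_lit 5) (nat_lit 326) (nat_lit 303) (nat_lit 151)) (XT.nd (nat_lit 78) (nat_lit 228) (nat_lit 0) (XT.lf (nat_lit 0) (nat_lit 39017657162) (nat_lit 380) (nat_lit 1402185608) (nat_lit 76) (nat_lit 24134253207) (nat_lit 55) (nat_lit 5) (nat_lit 60) (nat_lit 5) (nat_lit 56) (nat_lit 5) (nat_lit 327) (nat_lit 303) (nat_lit 150)) (XT.lf (nat_lit 0) (nat_lit 31719384703) (nat_lit 228) (nat_lit 17856856449) (nat_lit 304) (nat_lit 16988115056) (nat_lit 52) (nat_lit 5) (nat_lit 55) (nat_lit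 5) (nat_lit 56) (nat_lit 5) (nat_lit 328) (nat_lit 303) (nat_lit 149))))) (XT.nd (nat_lit 234) (nat_lit 456) (nat_lit 0) (XT.nd (nat_lit 78) (nat_lit 304) (nat_lit 0) (XT.lf (nat_lit 0) (nat_lit 60776646469) (nat_lit 304) (nat_lit 2221462984) (nat_lit 76) (nat_lit 5671327393) (nat_lit 52) (nat_lit 5) (nat_lit 56) (nat_lit 5) (nat_lit 53) (nat_lit 5) (nat_lit 329) (nat_lit 303) (nat_lit 148)) (XT.nd (nat_lit 78) (nat_lit 0) (nat_lit 0) (XT.lf (nat_lit 0) (nat_lit 2420806788) (nat_lit 304) (nat_lit 38090408243) (nat_lit 76) (nat_lit 30326437035) (nat_lit 48) (nat_lit 5) (nat_lit 52) (nat_lit 5) (nat_lit 49) (nat_lit 5) (nat_lit 330) (nat_lit 303) (nat_lit 147)) (XT.lf (nat_lit 0) (nat_lit 13021815553) (nat_lit 304) (nat_lit 3702582627) (nat_lit 76) (nat_lit 56381563036) (nat_lit 48) (nat_lit 5) (nat_lit 52) (nat_lit 5) (nat_lit 49) (nat_lit 5) (nat_lit 331) (nat_lit 303) (nat_lit 146))))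 (XT.nd (nat_lit 78) (nat_lit 228) (nat_lit 0) (XT.lf (nat_lit 0) (nat_lit 24811701378) (nat_lit 304) (nat_lit 42124594212) (nat_lit 76) (nat_lit 8518450548) (nat_lit 45) (nat_lit 5) (nat_lit 49) (nat_lit 5) (nat_lit 46) (nat_lit 5) (nat_lit 332) (nat_lit 303) (nat_lit 145)) (XT.nd (nat_lit 78) (nat_lit 228) (nat_lit 0) (XT.lf (nat_lit 0) (nat_lit 37527813525) (nat_lit 304) (nat_lit 5851600922) (nat_lit 76) (nat_lit 34524720828) (nat_lit 45) (nat_lit 5) (nat_lit 49) (nat_lit 5) (nat_lit 46) (nat_lit 5) (nat_lit 333) (nat_lit 303) (nat_lit 144)) (XT.lf (nat_lit 0) (nat_lit 33299268517) (nat_lit 228) (nat_lit 18099242036) (nat_lit 304) (nat_lit 29051545847) (nat_lit 42) (nat_lit 5) (nat_lit 45) (nat_lit 5) (nat_lit 46) (nat_lit 5) (nat_lit 334) (nat_lit 303) (nat_lit 143))))))))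
noncomputable def xc216 : XT := (XT.nd (nat_lit 1560) (nat_lit 836) (nat_lit 0) (XT.nd (nat_lit 780) (nat_lit 532) (nat_lit 0) (XT.nd (nat_lit 390) (nat_lit 532) (nat_lit 0) (XT.nd (nat_lit 156) (nat_lit 304) (nat_lit 0) (XT.nd (nat_lit 78) (nat_lit 152) (nat_lit 0) (XT.lf (nat_lit 0) (nat_lit 66194222467) (nat_lit 304) (nat_lit 8642538257) (nat_lit 76) (nat_lit 8274940278) (nat_lit 42) (nat_lit 5) (nat_lit 46) (nat_lit 5) (nat_lit 43) (nat_lit 5) (nat_lit 335) (nat_lit 303) (nat_lit 142)) (XT.lf (nat_lit 0) (nat_lit 32534206357) (nat_lit 152) (nat_lit 49999131301) (nat_lit 228) (nat_lit 3332910647) (nat_lit 40) (nat_lit 5) (nat_lit 42) (nat_lit 5) (nat_lit 43) (nat_lit 5) (nat_lit 336) (nat_lit 303) (nat_lit 141))) (XT.nd (nat_lit 78) (nat_lit 228) (nat_lit 0) (XT.lf (nat_lit 0) (nat_lit 10728761251) (nat_lit 228) (nat_lit 12855945747) (nat_lit 76) (nat_lit 65157897506) (nat_lit 39)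 (nat_lit 5) (nat_lit 42) (nat_lit 5) (nat_lit 40) (nat_lit 5) (nat_lit 337) (nat_lit 303) (nat_lit 140)) (XT.nd (nat_lit 78) (nat_lit 0) (nat_lit 0) (XT.lf (nat_lit 0) (nat_lit 25931261050) (nat_lit 304) (nat_lit 61243566746) (nat_lit 76) (nat_lit 4557732397) (nat_lit 36) (nat_lit 5) (nat_lit 40) (nat_lit 5) (nat_lit 37) (nat_lit 5) (nat_lit 338) (nat_lit 303) (nat_lit 139)) (XT.lf (nat_lit 0) (nat_lit 42500845058) (nat_lit 304) (nat_lit 18805286061) (nat_lit 76) (nat_lit 33535535701) (nat_lit 36) (nat_lit 5) (nat_lit 40) (nat_lit 5) (nat_lit 37) (nat_lit 5) (nat_lit 339) (nat_lit 303) (nat_lit 138))))) (XT.nd (nat_lit 156) (nat_lit 380) (nat_lit 0) (XT.nd (nat_lit 78) (nat_lit 0) (nat_lit 0) (XT.lf (nat_lit 0) (nat_lit 26605042123) (nat_lit 152) (nat_lit 33708325231) (nat_lit 228) (nat_lit 37772139533) (nat_lit 34) (nat_lit 5) (nat_lit 36) (nat_lit 5) (nat_lit 37) (nat_lit 5) (nat_lit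 340) (nat_lit 303) (nat_lit 137)) (XT.lf (nat_lit 0) (nat_lit 74937392235) (nat_lit 152) (nat_lit 4396702372) (nat_lit 228) (nat_lit 22141566419) (nat_lit 34) (nat_lit 5) (nat_lit 36) (nat_lit 5) (nat_lit 37) (nat_lit 5) (nat_lit 341) (nat_lit 303) (nat_lit 136))) (XT.nd (nat_lit 78) (nat_lit 228) (nat_lit 0) (XT.lf (nat_lit 0) (nat_lit 20906974252) (nat_lit 152) (nat_lit 79136311921) (nat_lit 228) (nat_lit 4955166264) (nat_lit 32) (nat_lit 5) (nat_lit 34) (nat_lit 5) (nat_lit 35) (nat_lit 5) (nat_lit 342) (nat_lit 303) (nat_lit 135)) (XT.nd (nat_lit 78) (nat_lit 152) (nat_lit 0) (XT.lf (nat_lit 0) (nat_lit 13199601442) (nat_lit 228) (nat_lit 37314258884) (nat_lit 76) (nat_lit 58146903604) (nat_lit 31) (nat_lit 5) (nat_lit 34) (nat_lit 5) (nat_lit 32) (nat_lit 5) (nat_lit 343) (nat_lit 303) (nat_lit 134)) (XT.lf (nat_lit 0) (nat_lit 12106796100) (nat_lit 152) (nat_lit 20176990815) (nat_lit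 228) (nat_lit 80208933031) (nat_lit 29) (nat_lit 5) (nat_lit 31) (nat_lit 5) (nat_lit 32) (nat_lit 5) (nat_lit 344) (nat_lit 303) (nat_lit 133)))))) (XT.nd (nat_lit 390) (nat_lit 228) (nat_lit 0) (XT.nd (nat_lit 156) (nat_lit 304) (nat_lit 0) (XT.nd (nat_lit 78) (nat_lit 0) (nat_lit 0) (XT.lf (nat_lit 0) (nat_lit 53145978843) (nat_lit 228) (nat_lit 51384270995) (nat_lit 76) (nat_lit 11944834857) (nat_lit 29) (nat_lit 5) (nat_lit 32) (nat_lit 5) (nat_lit 30) (nat_lit 5) (nat_lit 345) (nat_lit 303) (nat_lit 132)) (XT.lf (nat_lit 0) (nat_lit 75381285188) (nat_lit 228) (nat_lit 264542682) (nat_lit 76) (nat_lit 44994240327) (nat_lit 29) (nat_lit 5) (nat_lit 32) (nat_lit 5) (nat_lit 30) (nat_lit 5) (nat_lit 346) (nat_lit 303) (nat_lit 131))) (XT.nd (nat_lit 78) (nat_lit 152) (nat_lit 0) (XT.lf (nat_lit 0) (nat_lit 55175969714) (nat_lit 152) (nat_lit 44413109585) (nat_lit 228) (nat_lit 25381186169)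 (nat_lit 27) (nat_lit 5) (nat_lit 29) (nat_lit 5) (nat_lit 30) (nat_lit 5) (nat_lit 347) (nat_lit 303) (nat_lit 130)) (XT.nd (nat_lit 78) (nat_lit 152) (nat_lit 0) (XT.lf (nat_lit 0) (nat_lit 113396533112) (nat_lit 152) (nat_lit 11614497719) (nat_lit 228) (nat_lit 4505754072) (nat_lit 27) (nat_lit 5) (nat_lit 29) (nat_lit 5) (nat_lit 30) (nat_lit 5) (nat_lit 348) (nat_lit 303) (nat_lit 129)) (XT.lf (nat_lit 0) (nat_lit 17871373276) (nat_lit 152) (nat_lit 93330305727) (nat_lit 76) (nat_lit 23024595152) (nat_lit 25) (nat_lit 5) (nat_lit 27) (nat_lit 5) (nat_lit 26) (nat_lit 5) (nat_lit 349) (nat_lit 303) (nat_lit 128))))) (XT.nd (nat_lit 156) (nat_lit 76) (nat_lit 0) (XT.nd (nat_lit 78) (nat_lit 152) (nat_lit 0) (XT.lf (nat_lit 0) (nat_lit 41683133958) (nat_lit 152) (nat_lit 38104807722) (nat_lit 76) (nat_lit 59356243546) (nat_lit 25) (nat_lit 5) (nat_lit 27) (nat_lit 5) (nat_lit 26) (nat_lit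 5) (nat_lit 350) (nat_lit 303) (nat_lit 127)) (XT.lf (nat_lit 0) (nat_lit 20538234506) (nat_lit 152) (nat_lit 46467258521) (nat_lit 228) (nat_lit 77286498870) (nat_lit 23) (nat_lit 5) (nat_lit 25) (nat_lit 5) (nat_lit 26) (nat_lit 5) (nat_lit 351) (nat_lit 303) (nat_lit 126))) (XT.nd (nat_lit 78) (nat_lit 76) (nat_lit 0) (XT.lf (nat_lit 0) (nat_lit 83435276743) (nat_lit 152) (nat_lit 10803381897) (nat_lit 228) (nat_lit 55426296369) (nat_lit 23) (nat_lit 5) (nat_lit 25) (nat_lit 5) (nat_lit 26) (nat_lit 5) (nat_lit 352) (nat_lit 303) (nat_lit 125)) (XT.nd (nat_lit 78) (nat_lit 76) (nat_lit 0) (XT.lf (nat_lit 0) (nat_lit 123248854245) (nat_lit 228) (nat_lit 6246416444) (nat_lit 76) (nat_lit 25790527511) (nat_lit 23) (nat_lit 5) (nat_lit 26) (nat_lit 5) (nat_lit 24) (nat_lit 4) (nat_lit 353) (nat_lit 303) (nat_lit 124)) (XT.lf (nat_lit 0) (nat_lit 58427974774) (nat_lit 76) (nat_lit 96370332062)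 (nat_lit 152) (nat_lit 6334939842) (nat_lit 22) (nat_lit 5) (nat_lit 23) (nat_lit 5) (nat_lit 24) (nat_lit 4) (nat_lit 354) (nat_lit 303) (nat_lit 123))))))) (XT.nd (nat_lit 780) (nat_lit 304) (nat_lit 0) (XT.nd (nat_lit 390) (nat_lit 228) (nat_lit 0) (XT.nd (nat_lit 156) (nat_lit 76) (nat_lit 0) (XT.nd (nat_lit 78) (nat_lit 152) (nat_lit 0) (XT.lf (nat_lit 0) (nat_lit 20098107408) (nat_lit 152) (nat_lit 41039996401) (nat_lit 76) (nat_lit 106113495246) (nat_lit 21) (nat_lit 5) (nat_lit 23) (nat_lit 5) (nat_lit 22) (nat_lit 5) (nat_lit 355) (nat_lit 303) (nat_lit 122)) (XT.lf (nat_lit 0) (nat_lit 24384192326) (nat_lit 152) (nat_lit 23635873217) (nat_lit 228) (nat_lit 125631603651) (nat_lit 19) (nat_lit 5) (nat_lit 21) (nat_lit 5) (nat_lit 22) (nat_lit 5) (nat_lit 356) (nat_lit 303) (nat_lit 121))) (XT.nd (nat_lit 78) (nat_lit 76) (nat_lit 0) (XT.lf (nat_lit 0) (nat_lit 78289770306) (nat_lit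 228) (nat_lit 86090698711) (nat_lit 76) (nat_lit 15943691789) (nat_lit 19) (nat_lit 5) (nat_lit 22) (nat_lit 5) (nat_lit 20) (nat_lit 4) (nat_lit 357) (nat_lit 303) (nat_lit 120)) (XT.nd (nat_lit 78) (nat_lit 76) (nat_lit 0) (XT.lf (nat_lit 0) (nat_lit 110459913739) (nat_lit 228) (nat_lit 20143461222) (nat_lit 76) (nat_lit 56707554746) (nat_lit 19) (nat_lit 5) (nat_lit 22) (nat_lit 5) (nat_lit 20) (nat_lit 4) (nat_lit 358) (nat_lit 303) (nat_lit 119)) (XT.lf (nat_lit 0) (nat_lit 50723751886) (nat_lit 76) (nat_lit 94306257236) (nat_lit 152) (nat_lit 49577456055) (nat_lit 18) (nat_lit 5) (nat_lit 19) (nat_lit 5) (nat_lit 20) (nat_lit 4) (nat_lit 359) (nat_lit 303) (nat_lit 118))))) (XT.nd (nat_lit 156) (nat_lit 152) (nat_lit 0) (XT.nd (nat_lit 78) (nat_lit 76) (nat_lit 0) (XT.lf (nat_lit 0) (nat_lit 125832811968) (nat_lit 76) (nat_lit 55836451747) (nat_lit 152) (nat_lit 20582531329) (nat_lit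 18) (nat_lit 5) (nat_lit 19) (nat_lit 5) (nat_lit 20) (nat_lit 4) (nat_lit 360) (nat_lit 303) (nat_lit 117)) (XT.lf (nat_lit 0) (nat_lit 9546019952) (nat_lit 152) (nat_lit 5735816565) (nat_lit 76) (nat_lit 194988829902) (nat_lit 17) (nat_lit 5) (nat_lit 19) (nat_lit 5) (nat_lit 18) (nat_lit 5) (nat_lit 361) (nat_lit 303) (nat_lit 116))) (XT.nd (nat_lit 78) (nat_lit 0) (nat_lit 0) (XT.lf (nat_lit 0) (nat_lit 42037710505) (nat_lit 228) (nat_lit 148672030447) (nat_lit 76) (nat_lit 27886448794) (nat_lit 15) (nat_lit 5) (nat_lit 18) (nat_lit 5) (nat_lit 16) (nat_lit 4) (nat_lit 362) (nat_lit 303) (nat_lit 115)) (XT.nd (nat_lit 78) (nat_lit 0) (nat_lit 0) (XT.lf (nat_lit 0) (nat_lit 76502795515) (nat_lit 228) (nat_lit 78019767696) (nat_lit 76) (nat_lit 72797985817) (nat_lit 15) (nat_lit 5) (nat_lit 18) (nat_lit 5) (nat_lit 16) (nat_lit 4) (nat_lit 363) (nat_lit 303) (nat_lit 114)) (XT.lf (nat_lit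 0) (nat_lit 112690712634) (nat_lit 228) (nat_lit 3835643812) (nat_lit 76) (nat_lit 119954791206) (nat_lit 15) (nat_lit 5) (nat_lit 18) (nat_lit 5) (nat_lit 16) (nat_lit 4) (nat_lit 364) (nat_lit 303) (nat_lit 113)))))) (XT.nd (nat_lit 390) (nat_lit 76) (nat_lit 0) (XT.nd (nat_lit 156) (nat_lit 152) (nat_lit 0) (XT.nd (nat_lit 78) (nat_lit 0) (nat_lit 0) (XT.lf (nat_lit 0) (nat_lit 76505627951) (nat_lit 76) (nat_lit 75376462877) (nat_lit 152) (nat_lit 94157982377) (nat_lit 14) (nat_lit 5) (nat_lit 15) (nat_lit 5) (nat_lit 16) (nat_lit 4) (nat_lit 365) (nat_lit 303) (nat_lit 112)) (XT.lf (nat_lit 0) (nat_lit 160996423553) (nat_lit 76) (nat_lit 32101178966) (nat_lit 152) (nat_lit 62976114532) (nat_lit 14) (nat_lit 5) (nat_lit 15) (nat_lit 5) (nat_lit 16) (nat_lit 4) (nat_lit 366) (nat_lit 303) (nat_lit 111))) (XT.nd (nat_lit 78) (nat_lit 152) (nat_lit 0) (XT.lf (nat_lit 0) (nat_lit 236581751552)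 (nat_lit 152) (nat_lit 17106211131) (nat_lit 0) (nat_lit 12910687553) (nat_lit 14) (nat_lit 5) (nat_lit 16) (nat_lit 4) (nat_lit 14) (nat_lit 4) (nat_lit 367) (nat_lit 303) (nat_lit 110)) (XT.nd (nat_lit 78) (nat_lit 0) (nat_lit 0) (XT.lf (nat_lit 0) (nat_lit 6030926202) (nat_lit 152) (nat_lit 211308532027) (nat_lit 76) (nat_lit 60227410417) (nat_lit 12) (nat_lit 5) (nat_lit 14) (nat_lit 5) (nat_lit 13) (nat_lit 4) (nat_lit 368) (nat_lit 303) (nat_lit 109)) (XT.lf (nat_lit 0) (nat_lit 43166468383) (nat_lit 152) (nat_lit 135181496027) (nat_lit 76) (nat_lit 110696225221) (nat_lit 12) (nat_lit 5) (nat_lit 14) (nat_lit 5) (nat_lit 13) (nat_lit 4) (nat_lit 369) (nat_lit 303) (nat_lit 108))))) (XT.nd (nat_lit 156) (nat_lit 0) (nat_lit 0) (XT.nd (nat_lit 78) (nat_lit 76) (nat_lit 0) (XT.lf (nat_lit 0) (nat_lit 82158444342) (nat_lit 152) (nat_lit 55248731475) (nat_lit 76) (nat_lit 163688218207)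 (nat_lit 12) (nat_lit 5) (nat_lit 14) (nat_lit 5) (nat_lit 13) (nat_lit 4) (nat_lit 370) (nat_lit 303) (nat_lit 107)) (XT.lf (nat_lit 0) (nat_lit 29628370626) (nat_lit 76) (nat_lit 93933903387) (nat_lit 152) (nat_lit 190163772060) (nat_lit 11) (nat_lit 5) (nat_lit 12) (nat_lit 5) (nat_lit 13) (nat_lit 4) (nat_lit 371) (nat_lit 303) (nat_lit 106))) (XT.nd (nat_lit 78) (nat_lit 0) (nat_lit 0) (XT.lf (nat_lit 0) (nat_lit 120666855039) (nat_lit 76) (nat_lit 47304783602) (nat_lit 152) (nat_lit 158969825086) (nat_lit 11) (nat_lit 5) (nat_lit 12) (nat_lit 5) (nat_lit 13) (nat_lit 4) (nat_lit 372) (nat_lit 303) (nat_lit 105)) (XT.nd (nat_lit 78) (nat_lit 0) (nat_lit 0) (XT.lf (nat_lit 0) (nat_lit 214627013872) (nat_lit 152) (nat_lit 124586807846) (nat_lit 0) (nat_lit 1602553593) (nat_lit 11) (nat_lit 5) (nat_lit 13) (nat_lit 4) (nat_lit 11) (nat_lit 4) (nat_lit 373) (nat_lit 303) (nat_lit 104))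 (XT.lf (nat_lit 0) (nat_lit 264390351659) (nat_lit 152) (nat_lit 39590645884) (nat_lit 0) (nat_lit 51365275400) (nat_lit 11) (nat_lit 5) (nat_lit 13) (nat_lit 4) (nat_lit 11) (nat_lit 4) (nat_lit 374) (nat_lit 303) (nat_lit 103))))))))
noncomputable def xc217 : XT := (XT.nd (nat_lit 36504) (nat_lit 0) (nat_lit 1824) (XT.nd (nat_lit 35724) (nat_lit 0) (nat_lit 4104) (XT.nd (nat_lit 35334) (nat_lit 0) (nat_lit 5548) (XT.nd (nat_lit 35100) (nat_lit 0) (nat_lit 6080) (XT.nd (nat_lit 35022) (nat_lit 0) (nat_lit 6080) (XT.lf (nat_lit 0) (nat_lit 148102243462) (nat_lit 76) (nat_lit 225715141874) (nat_lit 76) (nat_lit 12688920258) (nat_lit 10) (nat_lit 4) (nat_lit 11) (nat_lit 5) (nat_lit 11) (nat_lit 4) (nat_lit 376) (nat_lit 303) (nat_lit 101)) (XT.lf (nat_lit 0) (nat_lit 7131176404) (nat_lit 0) (nat_lit 7131176404) (nat_lit 684) (nat_lit 3246645894) (nat_lit 90) (nat_lit 5) (nat_lit 90) (nat_lit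 3) (nat_lit 99) (nat_lit 3) (nat_lit 304) (nat_lit 304) (nat_lit 172))) (XT.nd (nat_lit 78) (nat_lit 0) (nat_lit 0) (XT.lf (nat_lit 0) (nat_lit 29314610511) (nat_lit 684) (nat_lit 4914964567) (nat_lit 760) (nat_lit 1659932000) (nat_lit 90) (nat_lit 5) (nat_lit 99) (nat_lit 3) (nat_lit 100) (nat_lit 5) (nat_lit 305) (nat_lit 304) (nat_lit 171)) (XT.nd (nat_lit 78) (nat_lit 0) (nat_lit 0) (XT.lf (nat_lit 76) (nat_lit 11861799781) (nat_lit 0) (nat_lit 18698039326) (nat_lit 760) (nat_lit 6223968159) (nat_lit 91) (nat_lit 5) (nat_lit 90) (nat_lit 5) (nat_lit 100) (nat_lit 5) (nat_lit 306) (nat_lit 304) (nat_lit 170)) (XT.lf (nat_lit 76) (nat_lit 29646275434) (nat_lit 0) (nat_lit 2301238198) (nat_lit 760) (nat_lit 5771305759) (nat_lit 91) (nat_lit 5) (nat_lit 90) (nat_lit 5) (nat_lit 100) (nat_lit 5) (nat_lit 307) (nat_lit 304) (nat_lit 169))))) (XT.nd (nat_lit 156) (nat_lit 608) (nat_lit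 0) (XT.nd (nat_lit 78) (nat_lit 0) (nat_lit 0) (XT.lf (nat_lit 76) (nat_lit 9694971316) (nat_lit 0) (nat_lit 24090949219) (nat_lit 760) (nat_lit 4895600013) (nat_lit 92) (nat_lit 5) (nat_lit 91) (nat_lit 5) (nat_lit 101) (nat_lit 5) (nat_lit 308) (nat_lit 304) (nat_lit 168)) (XT.lf (nat_lit 76) (nat_lit 28590330287) (nat_lit 0) (nat_lit 7296967539) (nat_lit 760) (nat_lit 3796512014) (nat_lit 92) (nat_lit 5) (nat_lit 91) (nat_lit 5) (nat_lit 101) (nat_lit 5) (nat_lit 309) (nat_lit 304) (nat_lit 167))) (XT.nd (nat_lit 78) (nat_lit 684) (nat_lit 0) (XT.lf (nat_lit 76) (nat_lit 7779981302) (nat_lit 0) (nat_lit 30593982515) (nat_lit 760) (nat_lit 2348244102) (nat_lit 93) (nat_lit 5) (nat_lit 92) (nat_lit 5) (nat_lit 102) (nat_lit 5) (nat_lit 310) (nat_lit 304) (nat_lit 166)) (XT.nd (nat_lit 78) (nat_lit 684) (nat_lit 0) (XT.lf (nat_lit 76) (nat_lit 27856823262) (nat_lit 0) (nat_lit 13431170178)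 (nat_lit 760) (nat_lit 509386007) (nat_lit 93) (nat_lit 5) (nat_lit 92) (nat_lit 5) (nat_lit 102) (nat_lit 5) (nat_lit 311) (nat_lit 304) (nat_lit 165)) (XT.lf (nat_lit 0) (nat_lit 1543643914) (nat_lit 760) (nat_lit 36808999487) (nat_lit 836) (nat_lit 4564174972) (nat_lit 83) (nat_lit 5) (nat_lit 93) (nat_lit 5) (nat_lit 94) (nat_lit 5) (nat_lit 312) (nat_lit 304) (nat_lit 164)))))) (XT.nd (nat_lit 390) (nat_lit 988) (nat_lit 0) (XT.nd (nat_lit 156) (nat_lit 456) (nat_lit 0) (XT.nd (nat_lit 78) (nat_lit 0) (nat_lit 0) (XT.lf (nat_lit 0) (nat_lit 4139987734) (nat_lit 760) (nat_lit 16672185456) (nat_lit 836) (nat_lit 23256753843) (nat_lit 83) (nat_lit 5) (nat_lit 93) (nat_lit 5) (nat_lit 94) (nat_lit 5) (nat_lit 313) (nat_lit 304) (nat_lit 163)) (XT.lf (nat_lit 76) (nat_lit 4617393738) (nat_lit 0) (nat_lit 2318595560) (nat_lit 836) (nat_lit 38339163964) (nat_lit 84) (nat_lit 5) (nat_lit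 83) (nat_lit 5) (nat_lit 94) (nat_lit 5) (nat_lit 314) (nat_lit 304) (nat_lit 162))) (XT.nd (nat_lit 78) (nat_lit 532) (nat_lit 0) (XT.lf (nat_lit 0) (nat_lit 10423578774) (nat_lit 760) (nat_lit 19250851847) (nat_lit 76) (nat_lit 16839674753) (nat_lit 84) (nat_lit 5) (nat_lit 94) (nat_lit 5) (nat_lit 85) (nat_lit 5) (nat_lit 315) (nat_lit 304) (nat_lit 161)) (XT.nd (nat_lit 78) (nat_lit 0) (nat_lit 0) (XT.lf (nat_lit 0) (nat_lit 3291896697) (nat_lit 532) (nat_lit 10880993630) (nat_lit 608) (nat_lit 33637751413) (nat_lit 77) (nat_lit 5) (nat_lit 84) (nat_lit 5) (nat_lit 85) (nat_lit 5) (nat_lit 316) (nat_lit 304) (nat_lit 160)) (XT.lf (nat_lit 0) (nat_lit 18577250347) (nat_lit 608) (nat_lit 21671057914) (nat_lit 76) (nat_lit 8900321115) (nat_lit 77) (nat_lit 5) (nat_lit 85) (nat_lit 5) (nat_lit 78) (nat_lit 5) (nat_lit 317) (nat_lit 304) (nat_lit 159))))) (XT.nd (nat_lit 156) (nat_lit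 608) (nat_lit 0) (XT.nd (nat_lit 78) (nat_lit 0) (nat_lit 0) (XT.lf (nat_lit 0) (nat_lit 2209514968) (nat_lit 380) (nat_lit 21203291292) (nat_lit 456) (nat_lit 27130164664) (nat_lit 72) (nat_lit 5) (nat_lit 77) (nat_lit 5) (nat_lit 78) (nat_lit 5) (nat_lit 318) (nat_lit 304) (nat_lit 158)) (XT.lf (nat_lit 0) (nat_lit 28034676431) (nat_lit 380) (nat_lit 820639630) (nat_lit 456) (nat_lit 23133457947) (nat_lit 72) (nat_lit 5) (nat_lit 77) (nat_lit 5) (nat_lit 78) (nat_lit 5) (nat_lit 319) (nat_lit 304) (nat_lit 157))) (XT.nd (nat_lit 78) (nat_lit 304) (nat_lit 0) (XT.lf (nat_lit 0) (nat_lit 1364765561) (nat_lit 304) (nat_lit 33546076863) (nat_lit 380) (nat_lit 18578983375) (nat_lit 68) (nat_lit 5) (nat_lit 72) (nat_lit 5) (nat_lit 73) (nat_lit 5) (nat_lit 320) (nat_lit 304) (nat_lit 156)) (XT.nd (nat_lit 78) (nat_lit 304) (nat_lit 0) (XT.lf (nat_lit 0) (nat_lit 28765520542) (nat_lit 304)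 (nat_lit 12920844100) (nat_lit 380) (nat_lit 13358707520) (nat_lit 68) (nat_lit 5) (nat_lit 72) (nat_lit 5) (nat_lit 73) (nat_lit 5) (nat_lit 321) (nat_lit 304) (nat_lit 155)) (XT.lf (nat_lit 0) (nat_lit 743870485) (nat_lit 304) (nat_lit 48203182659) (nat_lit 380) (nat_lit 7723711008) (nat_lit 64) (nat_lit 5) (nat_lit 68) (nat_lit 5) (nat_lit 69) (nat_lit 5) (nat_lit 322) (nat_lit 304) (nat_lit 154))))))) (XT.nd (nat_lit 780) (nat_lit 1064) (nat_lit 0) (XT.nd (nat_lit 390) (nat_lit 532) (nat_lit 0) (XT.nd (nat_lit 156) (nat_lit 304) (nat_lit 0) (XT.nd (nat_lit 78) (nat_lit 380) (nat_lit 0) (XT.lf (nat_lit 0) (nat_lit 29810255929) (nat_lit 304) (nat_lit 27412415430) (nat_lit 380) (nat_lit 1122477302) (nat_lit 64) (nat_lit 5) (nat_lit 68) (nat_lit 5) (nat_lit 69) (nat_lit 5) (nat_lit 323) (nat_lit 304) (nat_lit 153)) (XT.lf (nat_lit 0) (nat_lit 138733949) (nat_lit 304) (nat_lit 5484816894)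 (nat_lit 380) (nat_lit 54475136831) (nat_lit 59) (nat_lit 5) (nat_lit 63) (nat_lit 5) (nat_lit 64) (nat_lit 5) (nat_lit 324) (nat_lit 304) (nat_lit 152))) (XT.nd (nat_lit 78) (nat_lit 304) (nat_lit 0) (XT.lf (nat_lit 0) (nat_lit 13432694980) (nat_lit 380) (nat_lit 30980958106) (nat_lit 76) (nat_lit 17487155946) (nat_lit 59) (nat_lit 5) (nat_lit 64) (nat_lit 5) (nat_lit 60) (nat_lit 5) (nat_lit 325) (nat_lit 304) (nat_lit 151)) (XT.nd (nat_lit 78) (nat_lit 304) (nat_lit 0) (XT.lf (nat_lit 0) (nat_lit 21720808812) (nat_lit 380) (nat_lit 644610773) (nat_lit 76) (nat_lit 41423193457) (nat_lit 59) (nat_lit 5) (nat_lit 64) (nat_lit 5) (nat_lit 60) (nat_lit 5) (nat_lit 326) (nat_lit 304) (nat_lit 150)) (XT.lf (nat_lit 0) (nat_lit 30945837345) (nat_lit 380) (nat_lit 33527422320) (nat_lit 76) (nat_lit 1271424241) (nat_lit 55) (nat_lit 5) (nat_lit 60) (nat_lit 5) (nat_lit 56) (nat_lit 5) (nat_lit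 327) (nat_lit 304) (nat_lit 149))))) (XT.nd (nat_lit 156) (nat_lit 304) (nat_lit 0) (XT.nd (nat_lit 78) (nat_lit 228) (nat_lit 0) (XT.lf (nat_lit 0) (nat_lit 41008558142) (nat_lit 380) (nat_lit 1421870167) (nat_lit 76) (nat_lit 25349309964) (nat_lit 55) (nat_lit 5) (nat_lit 60) (nat_lit 5) (nat_lit 56) (nat_lit 5) (nat_lit 328) (nat_lit 304) (nat_lit 148)) (XT.lf (nat_lit 0) (nat_lit 33354965357) (nat_lit 228) (nat_lit 18738974923) (nat_lit 304) (nat_lit 17796630721) (nat_lit 52) (nat_lit 5) (nat_lit 55) (nat_lit 5) (nat_lit 56) (nat_lit 5) (nat_lit 329) (nat_lit 304) (nat_lit 147))) (XT.nd (nat_lit 78) (nat_lit 304) (nat_lit 0) (XT.lf (nat_lit 0) (nat_lit 63852673561) (nat_lit 304) (nat_lit 2283538992) (nat_lit 76) (nat_lit 5964780528) (nat_lit 52) (nat_lit 5) (nat_lit 56) (nat_lit 5) (nat_lit 53) (nat_lit 5) (nat_lit 330) (nat_lit 304) (nat_lit 146)) (XT.nd (nat_lit 78) (nat_lit 0)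 (nat_lit 0) (XT.lf (nat_lit 0) (nat_lit 2578667921) (nat_lit 304) (nat_lit 39945453652) (nat_lit 76) (nat_lit 31853521381) (nat_lit 48) (nat_lit 5) (nat_lit 52) (nat_lit 5) (nat_lit 49) (nat_lit 5) (nat_lit 331) (nat_lit 304) (nat_lit 145)) (XT.lf (nat_lit 0) (nat_lit 13707973752) (nat_lit 304) (nat_lit 3840592708) (nat_lit 76) (nat_lit 59210891182) (nat_lit 48) (nat_lit 5) (nat_lit 52) (nat_lit 5) (nat_lit 49) (nat_lit 5) (nat_lit 332) (nat_lit 304) (nat_lit 144)))))) (XT.nd (nat_lit 390) (nat_lit 456) (nat_lit 0) (XT.nd (nat_lit 156) (nat_lit 380) (nat_lit 0) (XT.nd (nat_lit 78) (nat_lit 0) (nat_lit 0) (XT.lf (nat_lit 0) (nat_lit 26086598852) (nat_lit 304) (nat_lit 44182903891) (nat_lit 76) (nat_lit 8956219118) (nat_lit 45) (nat_lit 5) (nat_lit 49) (nat_lit 5) (nat_lit 46) (nat_lit 5) (nat_lit 333) (nat_lit 304) (nat_lit 143)) (XT.lf (nat_lit 0) (nat_lit 39436882682) (nat_lit 304)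 (nat_lit 6098542842) (nat_lit 76) (nat_lit 36262238815) (nat_lit 45) (nat_lit 5) (nat_lit 49) (nat_lit 5) (nat_lit 46) (nat_lit 5) (nat_lit 334) (nat_lit 304) (nat_lit 142))) (XT.nd (nat_lit 78) (nat_lit 152) (nat_lit 0) (XT.lf (nat_lit 0) (nat_lit 35009133969) (nat_lit 228) (nat_lit 18991125520) (nat_lit 304) (nat_lit 30470666868) (nat_lit 42) (nat_lit 5) (nat_lit 45) (nat_lit 5) (nat_lit 46) (nat_lit 5) (nat_lit 335) (nat_lit 304) (nat_lit 141)) (XT.nd (nat_lit 78) (nat_lit 152) (nat_lit 0) (XT.lf (nat_lit 0) (nat_lit 69534436069) (nat_lit 304) (nat_lit 9030540699) (nat_lit 76) (nat_lit 8700744454) (nat_lit 42) (nat_lit 5) (nat_lit 46) (nat_lit 5) (nat_lit 43) (nat_lit 5) (nat_lit 336) (nat_lit 304) (nat_lit 140)) (XT.lf (nat_lit 0) (nat_lit 34204329461) (nat_lit 152) (nat_lit 52485402855) (nat_lit 228) (nat_lit 3468304200) (nat_lit 40) (nat_lit 5) (nat_lit 42) (nat_lit 5) (nat_lit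 43) (nat_lit 5) (nat_lit 337) (nat_lit 304) (nat_lit 139))))) (XT.nd (nat_lit 156) (nat_lit 152) (nat_lit 0) (XT.nd (nat_lit 78) (nat_lit 228) (nat_lit 0) (XT.lf (nat_lit 0) (nat_lit 11294010477) (nat_lit 228) (nat_lit 13456410597) (nat_lit 76) (nat_lit 68427838799) (nat_lit 39) (nat_lit 5) (nat_lit 42) (nat_lit 5) (nat_lit 40) (nat_lit 5) (nat_lit 338) (nat_lit 304) (nat_lit 138)) (XT.lf (nat_lit 0) (nat_lit 27256125285) (nat_lit 304) (nat_lit 64262870001) (nat_lit 76) (nat_lit 4798745192) (nat_lit 36) (nat_lit 5) (nat_lit 40) (nat_lit 5) (nat_lit 37) (nat_lit 5) (nat_lit 339) (nat_lit 304) (nat_lit 137))) (XT.nd (nat_lit 78) (nat_lit 152) (nat_lit 0) (XT.lf (nat_lit 0) (nat_lit 44652840819) (nat_lit 304) (nat_lit 19704716951) (nat_lit 76) (nat_lit 35224813605) (nat_lit 36) (nat_lit 5) (nat_lit 40) (nat_lit 5) (nat_lit 37) (nat_lit 5) (nat_lit 340) (nat_lit 304) (nat_lit 136)) (XT.nd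 (nat_lit 78) (nat_lit 0) (nat_lit 0) (XT.lf (nat_lit 0) (nat_lit 27975469038) (nat_lit 152) (nat_lit 35379863932) (nat_lit 228) (nat_lit 39633104769) (nat_lit 34) (nat_lit 5) (nat_lit 36) (nat_lit 5) (nat_lit 37) (nat_lit 5) (nat_lit 341) (nat_lit 304) (nat_lit 135)) (XT.lf (nat_lit 0) (nat_lit 78722523570) (nat_lit 152) (nat_lit 4603320766) (nat_lit 228) (nat_lit 23222319273) (nat_lit 34) (nat_lit 5) (nat_lit 36) (nat_lit 5) (nat_lit 37) (nat_lit 5) (nat_lit 342) (nat_lit 304) (nat_lit 134))))))))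
noncomputable def xc218 : XT := (XT.nd (nat_lit 1560) (nat_lit 532) (nat_lit 0) (XT.nd (nat_lit 780) (nat_lit 456) (nat_lit 0) (XT.nd (nat_lit 390) (nat_lit 456) (nat_lit 0) (XT.nd (nat_lit 156) (nat_lit 152) (nat_lit 0) (XT.nd (nat_lit 78) (nat_lit 76) (nat_lit 0) (XT.lf (nat_lit 0) (nat_lit 21991024356) (nat_lit 152) (nat_lit 83079079266) (nat_lit 228) (nat_lit 5177011905) (nat_lit 32) (nat_lit 5) (nat_lit 34) (nat_lit 5) (nat_lit 35) (nat_lit 5) (nat_lit 343) (nat_lit 304) (nat_lit 133)) (XT.lf (nat_lit 0) (nat_lit 13883470376) (nat_lit 228) (nat_lit 39142299110) (nat_lit 76) (nat_lit 61066813821) (nat_lit 31) (nat_lit 5) (nat_lit 34) (nat_lit 5) (nat_lit 32) (nat_lit 5) (nat_lit 344) (nat_lit 304) (nat_lit 132))) (XT.nd (nat_lit 78) (nat_lit 0) (nat_lit 0) (XT.lf (nat_lit 0) (nat_lit 12749200999) (nat_lit 152) (nat_lit 21172105249) (nat_lit 228) (nat_lit 84194859981) (nat_lit 29)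 (nat_lit 5) (nat_lit 31) (nat_lit 5) (nat_lit 32) (nat_lit 5) (nat_lit 345) (nat_lit 304) (nat_lit 131)) (XT.nd (nat_lit 78) (nat_lit 0) (nat_lit 0) (XT.lf (nat_lit 0) (nat_lit 55825701053) (nat_lit 228) (nat_lit 53917255626) (nat_lit 76) (nat_lit 12554738979) (nat_lit 29) (nat_lit 5) (nat_lit 32) (nat_lit 5) (nat_lit 30) (nat_lit 5) (nat_lit 346) (nat_lit 304) (nat_lit 130)) (XT.lf (nat_lit 0) (nat_lit 79171704940) (nat_lit 228) (nat_lit 243266084) (nat_lit 76) (nat_lit 47256011751) (nat_lit 29) (nat_lit 5) (nat_lit 32) (nat_lit 5) (nat_lit 30) (nat_lit 5) (nat_lit 347) (nat_lit 304) (nat_lit 129))))) (XT.nd (nat_lit 156) (nat_lit 304) (nat_lit 0) (XT.nd (nat_lit 78) (nat_lit 0) (nat_lit 0) (XT.lf (nat_lit 0) (nat_lit 57968715420) (nat_lit 152) (nat_lit 46620686420) (nat_lit 228) (nat_lit 26628313419) (nat_lit 27) (nat_lit 5) (nat_lit 29) (nat_lit 5) (nat_lit 30) (nat_lit 5) (nat_lit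 348) (nat_lit 304) (nat_lit 128)) (XT.lf (nat_lit 0) (nat_lit 119098690454) (nat_lit 152) (nat_lit 12182766753) (nat_lit 228) (nat_lit 4710154101) (nat_lit 27) (nat_lit 5) (nat_lit 29) (nat_lit 5) (nat_lit 30) (nat_lit 5) (nat_lit 349) (nat_lit 304) (nat_lit 127))) (XT.nd (nat_lit 78) (nat_lit 152) (nat_lit 0) (XT.lf (nat_lit 0) (nat_lit 18784904059) (nat_lit 152) (nat_lit 97963529258) (nat_lit 76) (nat_lit 24188139116) (nat_lit 25) (nat_lit 5) (nat_lit 27) (nat_lit 5) (nat_lit 26) (nat_lit 5) (nat_lit 350) (nat_lit 304) (nat_lit 126)) (XT.nd (nat_lit 78) (nat_lit 152) (nat_lit 0) (XT.lf (nat_lit 0) (nat_lit 43786302198) (nat_lit 152) (nat_lit 39978341674) (nat_lit 76) (nat_lit 62335783540) (nat_lit 25) (nat_lit 5) (nat_lit 27) (nat_lit 5) (nat_lit 26) (nat_lit 5) (nat_lit 351) (nat_lit 304) (nat_lit 125)) (XT.lf (nat_lit 0) (nat_lit 21596341271) (nat_lit 152) (nat_lit 48778019679) (nat_lit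 228) (nat_lit 81131285165) (nat_lit 23) (nat_lit 5) (nat_lit 25) (nat_lit 5) (nat_lit 26) (nat_lit 5) (nat_lit 352) (nat_lit 304) (nat_lit 124)))))) (XT.nd (nat_lit 390) (nat_lit 152) (nat_lit 0) (XT.nd (nat_lit 156) (nat_lit 304) (nat_lit 0) (XT.nd (nat_lit 78) (nat_lit 0) (nat_lit 0) (XT.lf (nat_lit 0) (nat_lit 87636750141) (nat_lit 152) (nat_lit 11331549309) (nat_lit 228) (nat_lit 58179002950) (nat_lit 23) (nat_lit 5) (nat_lit 25) (nat_lit 5) (nat_lit 26) (nat_lit 5) (nat_lit 353) (nat_lit 304) (nat_lit 123)) (XT.lf (nat_lit 0) (nat_lit 129428340060) (nat_lit 228) (nat_lit 6529763419) (nat_lit 76) (nat_lit 27091118225) (nat_lit 23) (nat_lit 5) (nat_lit 26) (nat_lit 5) (nat_lit 24) (nat_lit 4) (nat_lit 354) (nat_lit 304) (nat_lit 122))) (XT.nd (nat_lit 78) (nat_lit 228) (nat_lit 0) (XT.lf (nat_lit 0) (nat_lit 61377880040) (nat_lit 76) (nat_lit 101177018731) (nat_lit 152) (nat_lit 6634162838)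 (nat_lit 22) (nat_lit 5) (nat_lit 23) (nat_lit 5) (nat_lit 24) (nat_lit 4) (nat_lit 355) (nat_lit 304) (nat_lit 121)) (XT.nd (nat_lit 78) (nat_lit 152) (nat_lit 0) (XT.lf (nat_lit 0) (nat_lit 21119168130) (nat_lit 152) (nat_lit 43064300667) (nat_lit 76) (nat_lit 111429890132) (nat_lit 21) (nat_lit 5) (nat_lit 23) (nat_lit 5) (nat_lit 22) (nat_lit 5) (nat_lit 356) (nat_lit 304) (nat_lit 120)) (XT.lf (nat_lit 0) (nat_lit 25630650794) (nat_lit 152) (nat_lit 24806229506) (nat_lit 228) (nat_lit 131896570054) (nat_lit 19) (nat_lit 5) (nat_lit 21) (nat_lit 5) (nat_lit 22) (nat_lit 5) (nat_lit 357) (nat_lit 304) (nat_lit 119))))) (XT.nd (nat_lit 156) (nat_lit 152) (nat_lit 0) (XT.nd (nat_lit 78) (nat_lit 0) (nat_lit 0) (XT.lf (nat_lit 0) (nat_lit 82219487440) (nat_lit 228) (nat_lit 90368688330) (nat_lit 76) (nat_lit 16751420478) (nat_lit 19) (nat_lit 5) (nat_lit 22) (nat_lit 5) (nat_lit 20)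 (nat_lit 4) (nat_lit 358) (nat_lit 304) (nat_lit 118)) (XT.lf (nat_lit 0) (nat_lit 115997412872) (nat_lit 228) (nat_lit 21125353029) (nat_lit 76) (nat_lit 59552974483) (nat_lit 19) (nat_lit 5) (nat_lit 22) (nat_lit 5) (nat_lit 20) (nat_lit 4) (nat_lit 359) (nat_lit 304) (nat_lit 117))) (XT.nd (nat_lit 78) (nat_lit 76) (nat_lit 0) (XT.lf (nat_lit 0) (nat_lit 53284812972) (nat_lit 76) (nat_lit 99010897757) (nat_lit 152) (nat_lit 52041407521) (nat_lit 18) (nat_lit 5) (nat_lit 19) (nat_lit 5) (nat_lit 20) (nat_lit 4) (nat_lit 360) (nat_lit 304) (nat_lit 116)) (XT.nd (nat_lit 78) (nat_lit 76) (nat_lit 0) (XT.lf (nat_lit 0) (nat_lit 132148141606) (nat_lit 76) (nat_lit 58618110201) (nat_lit 152) (nat_lit 21597447098) (nat_lit 18) (nat_lit 5) (nat_lit 19) (nat_lit 5) (nat_lit 20) (nat_lit 4) (nat_lit 361) (nat_lit 304) (nat_lit 115)) (XT.lf (nat_lit 0) (nat_lit 10036421866) (nat_lit 152) (nat_lit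 5999604478) (nat_lit 76) (nat_lit 204747509599) (nat_lit 17) (nat_lit 5) (nat_lit 19) (nat_lit 5) (nat_lit 18) (nat_lit 5) (nat_lit 362) (nat_lit 304) (nat_lit 114))))))) (XT.nd (nat_lit 780) (nat_lit 76) (nat_lit 0) (XT.nd (nat_lit 390) (nat_lit 228) (nat_lit 0) (XT.nd (nat_lit 156) (nat_lit 76) (nat_lit 0) (XT.nd (nat_lit 78) (nat_lit 0) (nat_lit 0) (XT.lf (nat_lit 0) (nat_lit 44152579470) (nat_lit 228) (nat_lit 156082503245) (nat_lit 76) (nat_lit 29290259014) (nat_lit 15) (nat_lit 5) (nat_lit 18) (nat_lit 5) (nat_lit 16) (nat_lit 4) (nat_lit 363) (nat_lit 304) (nat_lit 113)) (XT.lf (nat_lit 0) (nat_lit 80340300472) (nat_lit 228) (nat_lit 81898728724) (nat_lit 76) (nat_lit 76446921088) (nat_lit 15) (nat_lit 5) (nat_lit 18) (nat_lit 5) (nat_lit 16) (nat_lit 4) (nat_lit 364) (nat_lit 304) (nat_lit 112))) (XT.nd (nat_lit 78) (nat_lit 76) (nat_lit 0) (XT.lf (nat_lit 0) (nat_lit 118337024629)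 (nat_lit 228) (nat_lit 4006447568) (nat_lit 76) (nat_lit 125961136462) (nat_lit 15) (nat_lit 5) (nat_lit 18) (nat_lit 5) (nat_lit 16) (nat_lit 4) (nat_lit 365) (nat_lit 304) (nat_lit 111)) (XT.nd (nat_lit 78) (nat_lit 0) (nat_lit 0) (XT.lf (nat_lit 0) (nat_lit 80351549422) (nat_lit 76) (nat_lit 79136183780) (nat_lit 152) (nat_lit 98853759573) (nat_lit 14) (nat_lit 5) (nat_lit 15) (nat_lit 5) (nat_lit 16) (nat_lit 4) (nat_lit 366) (nat_lit 304) (nat_lit 110)) (XT.lf (nat_lit 0) (nat_lit 169065901944) (nat_lit 76) (nat_lit 33697569114) (nat_lit 152) (nat_lit 66113375570) (nat_lit 14) (nat_lit 5) (nat_lit 15) (nat_lit 5) (nat_lit 16) (nat_lit 4) (nat_lit 367) (nat_lit 304) (nat_lit 109))))) (XT.nd (nat_lit 156) (nat_lit 76) (nat_lit 0) (XT.nd (nat_lit 78) (nat_lit 152) (nat_lit 0) (XT.lf (nat_lit 0) (nat_lit 248421433183) (nat_lit 152) (nat_lit 17942399645) (nat_lit 0) (nat_lit 13564213687)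 (nat_lit 14) (nat_lit 5) (nat_lit 16) (nat_lit 4) (nat_lit 14) (nat_lit 4) (nat_lit 368) (nat_lit 304) (nat_lit 108)) (XT.lf (nat_lit 0) (nat_lit 6343032058) (nat_lit 152) (nat_lit 221854789938) (nat_lit 76) (nat_lit 63246856184) (nat_lit 12) (nat_lit 5) (nat_lit 14) (nat_lit 5) (nat_lit 13) (nat_lit 4) (nat_lit 369) (nat_lit 304) (nat_lit 107))) (XT.nd (nat_lit 78) (nat_lit 76) (nat_lit 0) (XT.lf (nat_lit 0) (nat_lit 45334848513) (nat_lit 152) (nat_lit 141922314932) (nat_lit 76) (nat_lit 116238727192) (nat_lit 12) (nat_lit 5) (nat_lit 14) (nat_lit 5) (nat_lit 13) (nat_lit 4) (nat_lit 370) (nat_lit 304) (nat_lit 106)) (XT.nd (nat_lit 78) (nat_lit 76) (nat_lit 0) (XT.lf (nat_lit 0) (nat_lit 86275944378) (nat_lit 152) (nat_lit 57993781481) (nat_lit 76) (nat_lit 171879953603) (nat_lit 12) (nat_lit 5) (nat_lit 14) (nat_lit 5) (nat_lit 13) (nat_lit 4) (nat_lit 371) (nat_lit 304) (nat_lit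 105)) (XT.lf (nat_lit 0) (nat_lit 31126895297) (nat_lit 76) (nat_lit 98622881225) (nat_lit 152) (nat_lit 199662097299) (nat_lit 11) (nat_lit 5) (nat_lit 12) (nat_lit 5) (nat_lit 13) (nat_lit 4) (nat_lit 372) (nat_lit 304) (nat_lit 104)))))) (XT.nd (nat_lit 35490) (nat_lit 0) (nat_lit 6080) (XT.nd (nat_lit 234) (nat_lit 76) (nat_lit 0) (XT.nd (nat_lit 156) (nat_lit 0) (nat_lit 0) (XT.lf (nat_lit 0) (nat_lit 126716489352) (nat_lit 76) (nat_lit 49662672942) (nat_lit 152) (nat_lit 166908922661) (nat_lit 11) (nat_lit 5) (nat_lit 12) (nat_lit 5) (nat_lit 13) (nat_lit 4) (nat_lit 373) (nat_lit 304) (nat_lit 103)) (XT.lf (nat_lit 0) (nat_lit 277618083730) (nat_lit 152) (nat_lit 41555095396) (nat_lit 0) (nat_lit 53939992321) (nat_lit 11) (nat_lit 5) (nat_lit 13) (nat_lit 4) (nat_lit 11) (nat_lit 4) (nat_lit 375) (nat_lit 304) (nat_lit 101))) (XT.nd (nat_lit 35100) (nat_lit 0) (nat_lit 6080) (XT.lf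 (nat_lit 0) (nat_lit 53876292085) (nat_lit 76) (nat_lit 279446345836) (nat_lit 76) (nat_lit 55767722321) (nat_lit 10) (nat_lit 4) (nat_lit 11) (nat_lit 5) (nat_lit 11) (nat_lit 4) (nat_lit 376) (nat_lit 304) (nat_lit 100)) (XT.nd (nat_lit 78) (nat_lit 0) (nat_lit 0) (XT.lf (nat_lit 0) (nat_lit 7512351871) (nat_lit 0) (nat_lit 7512351871) (nat_lit 684) (nat_lit 3357183904) (nat_lit 90) (nat_lit 5) (nat_lit 90) (nat_lit 3) (nat_lit 99) (nat_lit 3) (nat_lit 305) (nat_lit 305) (nat_lit 170)) (XT.lf (nat_lit 0) (nat_lit 30873386670) (nat_lit 684) (nat_lit 5108213797) (nat_lit 760) (nat_lit 1697540485) (nat_lit 90) (nat_lit 5) (nat_lit 99) (nat_lit 3) (nat_lit 100) (nat_lit 5) (nat_lit 306) (nat_lit 305) (nat_lit 169))))) (XT.nd (nat_lit 156) (nat_lit 0) (nat_lit 76) (XT.nd (nat_lit 78) (nat_lit 0) (nat_lit 0) (XT.lf (nat_lit 76) (nat_lit 12506542010) (nat_lit 0) (nat_lit 19670710379) (nat_lit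 760) (nat_lit 6441093987) (nat_lit 91) (nat_lit 5) (nat_lit 90) (nat_lit 5) (nat_lit 100) (nat_lit 5) (nat_lit 307) (nat_lit 305) (nat_lit 168)) (XT.lf (nat_lit 76) (nat_lit 31177781815) (nat_lit 0) (nat_lit 2452270666) (nat_lit 760) (nat_lit 5970278114) (nat_lit 91) (nat_lit 5) (nat_lit 90) (nat_lit 5) (nat_lit 100) (nat_lit 5) (nat_lit 308) (nat_lit 305) (nat_lit 167))) (XT.nd (nat_lit 78) (nat_lit 0) (nat_lit 0) (XT.lf (nat_lit 76) (nat_lit 10233029922) (nat_lit 0) (nat_lit 25323591880) (nat_lit 760) (nat_lit 5054741077) (nat_lit 92) (nat_lit 5) (nat_lit 91) (nat_lit 5) (nat_lit 101) (nat_lit 5) (nat_lit 309) (nat_lit 305) (nat_lit 166)) (XT.nd (nat_lit 78) (nat_lit 0) (nat_lit 76) (XT.lf (nat_lit 76) (nat_lit 30070618268) (nat_lit 0) (nat_lit 7688573249) (nat_lit 760) (nat_lit 3904776723) (nat_lit 92) (nat_lit 5) (nat_lit 91) (nat_lit 5) (nat_lit 101) (nat_lit 5) (nat_lit 310) (nat_lit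 305) (nat_lit 165)) (XT.lf (nat_lit 76) (nat_lit 8223311017) (nat_lit 0) (nat_lit 32143638333) (nat_lit 760) (nat_lit 2387506358) (nat_lit 93) (nat_lit 5) (nat_lit 92) (nat_lit 5) (nat_lit 102) (nat_lit 5) (nat_lit 311) (nat_lit 305) (nat_lit 164))))))))
noncomputable def xc219 : XT := (XT.nd (nat_lit 1560) (nat_lit 2052) (nat_lit 0) (XT.nd (nat_lit 780) (nat_lit 1216) (nat_lit 0) (XT.nd (nat_lit 390) (nat_lit 1140) (nat_lit 0) (XT.nd (nat_lit 156) (nat_lit 0) (nat_lit 0) (XT.nd (nat_lit 78) (nat_lit 684) (nat_lit 0) (XT.lf (nat_lit 76) (nat_lit 29301407901) (nat_lit 0) (nat_lit 14121735060) (nat_lit 760) (nat_lit 460426785) (nat_lit 93) (nat_lit 5) (nat_lit 92) (nat_lit 5) (nat_lit 102) (nat_lit 5) (nat_lit 312) (nat_lit 305) (nat_lit 163)) (XT.lf (nat_lit 0) (nat_lit 1690024359) (nat_lit 760) (nat_lit 38592213199) (nat_lit 836) (nat_lit 4776833766) (nat_lit 83) (nat_lit 5) (nat_lit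 93) (nat_lit 5) (nat_lit 94) (nat_lit 5) (nat_lit 313) (nat_lit 305) (nat_lit 162))) (XT.nd (nat_lit 78) (nat_lit 0) (nat_lit 0) (XT.lf (nat_lit 0) (nat_lit 4412890216) (nat_lit 760) (nat_lit 17451284003) (nat_lit 836) (nat_lit 24404782053) (nat_lit 83) (nat_lit 5) (nat_lit 93) (nat_lit 5) (nat_lit 94) (nat_lit 5) (nat_lit 314) (nat_lit 305) (nat_lit 161)) (XT.nd (nat_lit 78) (nat_lit 0) (nat_lit 76) (XT.lf (nat_lit 76) (nat_lit 4901894946) (nat_lit 0) (nat_lit 2444496008) (nat_lit 836) (nat_lit 40189223711) (nat_lit 84) (nat_lit 5) (nat_lit 83) (nat_lit 5) (nat_lit 94) (nat_lit 5) (nat_lit 315) (nat_lit 305) (nat_lit 160)) (XT.lf (nat_lit 0) (nat_lit 11005182971) (nat_lit 760) (nat_lit 20159029249) (nat_lit 76) (nat_lit 17672466542) (nat_lit 84) (nat_lit 5) (nat_lit 94) (nat_lit 5) (nat_lit 85) (nat_lit 5) (nat_lit 316) (nat_lit 305) (nat_lit 159))))) (XT.nd (nat_lit 156) (nat_lit 684)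 (nat_lit 0) (XT.nd (nat_lit 78) (nat_lit 0) (nat_lit 0) (XT.lf (nat_lit 0) (nat_lit 3509979865) (nat_lit 532) (nat_lit 11429937946) (nat_lit 608) (nat_lit 35258231516) (nat_lit 77) (nat_lit 5) (nat_lit 84) (nat_lit 5) (nat_lit 85) (nat_lit 5) (nat_lit 317) (nat_lit 305) (nat_lit 158)) (XT.lf (nat_lit 0) (nat_lit 19561642910) (nat_lit 608) (nat_lit 22700716284) (nat_lit 76) (nat_lit 9340824813) (nat_lit 77) (nat_lit 5) (nat_lit 85) (nat_lit 5) (nat_lit 78) (nat_lit 5) (nat_lit 318) (nat_lit 305) (nat_lit 157))) (XT.nd (nat_lit 78) (nat_lit 304) (nat_lit 0) (XT.lf (nat_lit 0) (nat_lit 2373015975) (nat_lit 380) (nat_lit 22264144229) (nat_lit 456) (nat_lit 28430178028) (nat_lit 72) (nat_lit 5) (nat_lit 77) (nat_lit 5) (nat_lit 78) (nat_lit 5) (nat_lit 319) (nat_lit 305) (nat_lit 156)) (XT.nd (nat_lit 78) (nat_lit 304) (nat_lit 0) (XT.lf (nat_lit 0) (nat_lit 29486910500) (nat_lit 380) (nat_lit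 862327203) (nat_lit 456) (nat_lit 24236326206) (nat_lit 72) (nat_lit 5) (nat_lit 77) (nat_lit 5) (nat_lit 78) (nat_lit 5) (nat_lit 320) (nat_lit 305) (nat_lit 155)) (XT.lf (nat_lit 0) (nat_lit 1485305712) (nat_lit 304) (nat_lit 35220605511) (nat_lit 380) (nat_lit 19455842859) (nat_lit 68) (nat_lit 5) (nat_lit 72) (nat_lit 5) (nat_lit 73) (nat_lit 5) (nat_lit 321) (nat_lit 305) (nat_lit 154)))))) (XT.nd (nat_lit 390) (nat_lit 532) (nat_lit 0) (XT.nd (nat_lit 156) (nat_lit 380) (nat_lit 0) (XT.nd (nat_lit 78) (nat_lit 304) (nat_lit 0) (XT.lf (nat_lit 0) (nat_lit 30253607877) (nat_lit 304) (nat_lit 13564243261) (nat_lit 380) (nat_lit 13977033672) (nat_lit 68) (nat_lit 5) (nat_lit 72) (nat_lit 5) (nat_lit 73) (nat_lit 5) (nat_lit 322) (nat_lit 305) (nat_lit 153)) (XT.lf (nat_lit 0) (nat_lit 832432898) (nat_lit 304) (nat_lit 50607736372) (nat_lit 380) (nat_lit 8061766301) (nat_lit 64) (nat_lit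 5) (nat_lit 68) (nat_lit 5) (nat_lit 69) (nat_lit 5) (nat_lit 323) (nat_lit 305) (nat_lit 152))) (XT.nd (nat_lit 78) (nat_lit 380) (nat_lit 0) (XT.lf (nat_lit 0) (nat_lit 31349691477) (nat_lit 304) (nat_lit 28777697706) (nat_lit 380) (nat_lit 1132762827) (nat_lit 64) (nat_lit 5) (nat_lit 68) (nat_lit 5) (nat_lit 69) (nat_lit 5) (nat_lit 324) (nat_lit 305) (nat_lit 151)) (XT.nd (nat_lit 78) (nat_lit 0) (nat_lit 0) (XT.lf (nat_lit 0) (nat_lit 195317927) (nat_lit 304) (nat_lit 5752443903) (nat_lit 380) (nat_lit 57153640644) (nat_lit 59) (nat_lit 5) (nat_lit 63) (nat_lit 5) (nat_lit 64) (nat_lit 5) (nat_lit 325) (nat_lit 305) (nat_lit 150)) (XT.lf (nat_lit 0) (nat_lit 14145412305) (nat_lit 380) (nat_lit 32480707342) (nat_lit 76) (nat_lit 18367611031) (nat_lit 59) (nat_lit 5) (nat_lit 64) (nat_lit 5) (nat_lit 60) (nat_lit 5) (nat_lit 326) (nat_lit 305) (nat_lit 149))))) (XT.nd (nat_lit 156)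 (nat_lit 228) (nat_lit 0) (XT.nd (nat_lit 78) (nat_lit 304) (nat_lit 0) (XT.lf (nat_lit 0) (nat_lit 22845975516) (nat_lit 380) (nat_lit 629890198) (nat_lit 76) (nat_lit 43500160071) (nat_lit 59) (nat_lit 5) (nat_lit 64) (nat_lit 5) (nat_lit 60) (nat_lit 5) (nat_lit 327) (nat_lit 305) (nat_lit 148)) (XT.lf (nat_lit 0) (nat_lit 32531241709) (nat_lit 380) (nat_lit 35155769892) (nat_lit 76) (nat_lit 1342942212) (nat_lit 55) (nat_lit 5) (nat_lit 60) (nat_lit 5) (nat_lit 56) (nat_lit 5) (nat_lit 328) (nat_lit 305) (nat_lit 147))) (XT.nd (nat_lit 78) (nat_lit 228) (nat_lit 0) (XT.lf (nat_lit 0) (nat_lit 43095283665) (nat_lit 380) (nat_lit 1447226967) (nat_lit 76) (nat_lit 26624343803) (nat_lit 55) (nat_lit 5) (nat_lit 60) (nat_lit 5) (nat_lit 56) (nat_lit 5) (nat_lit 329) (nat_lit 305) (nat_lit 146)) (XT.nd (nat_lit 78) (nat_lit 0) (nat_lit 0) (XT.lf (nat_lit 0) (nat_lit 35067712645) (nat_lit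 228) (nat_lit 19666196368) (nat_lit 304) (nat_lit 18649373743) (nat_lit 52) (nat_lit 5) (nat_lit 55) (nat_lit 5) (nat_lit 56) (nat_lit 5) (nat_lit 330) (nat_lit 305) (nat_lit 145)) (XT.lf (nat_lit 0) (nat_lit 67079043991) (nat_lit 304) (nat_lit 2353274089) (nat_lit 76) (nat_lit 6271987141) (nat_lit 52) (nat_lit 5) (nat_lit 56) (nat_lit 5) (nat_lit 53) (nat_lit 5) (nat_lit 331) (nat_lit 305) (nat_lit 144))))))) (XT.nd (nat_lit 780) (nat_lit 836) (nat_lit 0) (XT.nd (nat_lit 390) (nat_lit 456) (nat_lit 0) (XT.nd (nat_lit 156) (nat_lit 456) (nat_lit 0) (XT.nd (nat_lit 78) (nat_lit 0) (nat_lit 0) (XT.lf (nat_lit 0) (nat_lit 2740998862) (nat_lit 304) (nat_lit 41897851049) (nat_lit 76) (nat_lit 33455959350) (nat_lit 48) (nat_lit 5) (nat_lit 52) (nat_lit 5) (nat_lit 49) (nat_lit 5) (nat_lit 332) (nat_lit 305) (nat_lit 143)) (XT.lf (nat_lit 0) (nat_lit 14425179626) (nat_lit 304) (nat_lit 3989883976)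 (nat_lit 76) (nat_lit 62180732789) (nat_lit 48) (nat_lit 5) (nat_lit 52) (nat_lit 5) (nat_lit 49) (nat_lit 5) (nat_lit 333) (nat_lit 305) (nat_lit 142))) (XT.nd (nat_lit 78) (nat_lit 228) (nat_lit 0) (XT.lf (nat_lit 0) (nat_lit 27422051157) (nat_lit 304) (nat_lit 46348584204) (nat_lit 76) (nat_lit 9414774784) (nat_lit 45) (nat_lit 5) (nat_lit 49) (nat_lit 5) (nat_lit 46) (nat_lit 5) (nat_lit 334) (nat_lit 305) (nat_lit 141)) (XT.nd (nat_lit 78) (nat_lit 228) (nat_lit 0) (XT.lf (nat_lit 0) (nat_lit 41438367162) (nat_lit 304) (nat_lit 6362074859) (nat_lit 76) (nat_lit 38085583812) (nat_lit 45) (nat_lit 5) (nat_lit 49) (nat_lit 5) (nat_lit 46) (nat_lit 5) (nat_lit 335) (nat_lit 305) (nat_lit 140)) (XT.lf (nat_lit 0) (nat_lit 36800318130) (nat_lit 228) (nat_lit 19928819104) (nat_lit 304) (nat_lit 31963854388) (nat_lit 42) (nat_lit 5) (nat_lit 45) (nat_lit 5) (nat_lit 46) (nat_lit 5) (nat_lit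 336) (nat_lit 305) (nat_lit 139))))) (XT.nd (nat_lit 156) (nat_lit 304) (nat_lit 0) (XT.nd (nat_lit 78) (nat_lit 152) (nat_lit 0) (XT.lf (nat_lit 0) (nat_lit 73038824521) (nat_lit 304) (nat_lit 9442045537) (nat_lit 76) (nat_lit 9146717878) (nat_lit 42) (nat_lit 5) (nat_lit 46) (nat_lit 5) (nat_lit 43) (nat_lit 5) (nat_lit 337) (nat_lit 305) (nat_lit 138)) (XT.lf (nat_lit 0) (nat_lit 35953922611) (nat_lit 152) (nat_lit 55097260290) (nat_lit 228) (nat_lit 3613372944) (nat_lit 40) (nat_lit 5) (nat_lit 42) (nat_lit 5) (nat_lit 43) (nat_lit 5) (nat_lit 338) (nat_lit 305) (nat_lit 137))) (XT.nd (nat_lit 78) (nat_lit 228) (nat_lit 0) (XT.lf (nat_lit 0) (nat_lit 11884843574) (nat_lit 228) (nat_lit 14090834358) (nat_lit 76) (nat_lit 71860157194) (nat_lit 39) (nat_lit 5) (nat_lit 42) (nat_lit 5) (nat_lit 40) (nat_lit 5) (nat_lit 339) (nat_lit 305) (nat_lit 136)) (XT.nd (nat_lit 78) (nat_lit 0)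 (nat_lit 0) (XT.lf (nat_lit 0) (nat_lit 28644601557) (nat_lit 304) (nat_lit 67437124536) (nat_lit 76) (nat_lit 5050588279) (nat_lit 36) (nat_lit 5) (nat_lit 40) (nat_lit 5) (nat_lit 37) (nat_lit 5) (nat_lit 340) (nat_lit 305) (nat_lit 135)) (XT.lf (nat_lit 0) (nat_lit 46909930486) (nat_lit 304) (nat_lit 20652915690) (nat_lit 76) (nat_lit 36997393169) (nat_lit 36) (nat_lit 5) (nat_lit 40) (nat_lit 5) (nat_lit 37) (nat_lit 5) (nat_lit 341) (nat_lit 305) (nat_lit 134)))))) (XT.nd (nat_lit 390) (nat_lit 304) (nat_lit 0) (XT.nd (nat_lit 156) (nat_lit 380) (nat_lit 0) (XT.nd (nat_lit 78) (nat_lit 0) (nat_lit 0) (XT.lf (nat_lit 0) (nat_lit 29410682227) (nat_lit 152) (nat_lit 37136269772) (nat_lit 228) (nat_lit 41589688134) (nat_lit 34) (nat_lit 5) (nat_lit 36) (nat_lit 5) (nat_lit 37) (nat_lit 5) (nat_lit 342) (nat_lit 305) (nat_lit 133)) (XT.lf (nat_lit 0) (nat_lit 82693354259) (nat_lit 152)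 (nat_lit 4821498845) (nat_lit 228) (nat_lit 24359557262) (nat_lit 34) (nat_lit 5) (nat_lit 36) (nat_lit 5) (nat_lit 37) (nat_lit 5) (nat_lit 343) (nat_lit 305) (nat_lit 132))) (XT.nd (nat_lit 78) (nat_lit 228) (nat_lit 0) (XT.lf (nat_lit 0) (nat_lit 23125678878) (nat_lit 152) (nat_lit 87220291051) (nat_lit 228) (nat_lit 5412358942) (nat_lit 32) (nat_lit 5) (nat_lit 34) (nat_lit 5) (nat_lit 35) (nat_lit 5) (nat_lit 344) (nat_lit 305) (nat_lit 131)) (XT.nd (nat_lit 78) (nat_lit 152) (nat_lit 0) (XT.lf (nat_lit 0) (nat_lit 14599311797) (nat_lit 228) (nat_lit 41065243800) (nat_lit 76) (nat_lit 64131551372) (nat_lit 31) (nat_lit 5) (nat_lit 34) (nat_lit 5) (nat_lit 32) (nat_lit 5) (nat_lit 345) (nat_lit 305) (nat_lit 130)) (XT.lf (nat_lit 0) (nat_lit 13420280182) (nat_lit 152) (nat_lit 22218252364) (nat_lit 228) (nat_lit 88382362887) (nat_lit 29) (nat_lit 5) (nat_lit 31) (nat_lit 5) (nat_lit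 32) (nat_lit 5) (nat_lit 346) (nat_lit 305) (nat_lit 129))))) (XT.nd (nat_lit 234) (nat_lit 152) (nat_lit 0) (XT.nd (nat_lit 78) (nat_lit 152) (nat_lit 0) (XT.lf (nat_lit 0) (nat_lit 58637324670) (nat_lit 228) (nat_lit 56580257709) (nat_lit 76) (nat_lit 13193961079) (nat_lit 29) (nat_lit 5) (nat_lit 32) (nat_lit 5) (nat_lit 30) (nat_lit 5) (nat_lit 347) (nat_lit 305) (nat_lit 128)) (XT.nd (nat_lit 78) (nat_lit 152) (nat_lit 0) (XT.lf (nat_lit 0) (nat_lit 83149660248) (nat_lit 228) (nat_lit 224133486) (nat_lit 76) (nat_lit 49629750577) (nat_lit 29) (nat_lit 5) (nat_lit 32) (nat_lit 5) (nat_lit 30) (nat_lit 5) (nat_lit 348) (nat_lit 305) (nat_lit 127)) (XT.lf (nat_lit 0) (nat_lit 60897942321) (nat_lit 152) (nat_lit 48939858024) (nat_lit 228) (nat_lit 27939836067) (nat_lit 27) (nat_lit 5) (nat_lit 29) (nat_lit 5) (nat_lit 30) (nat_lit 5) (nat_lit 349) (nat_lit 305) (nat_lit 126)))) (XT.nd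 (nat_lit 78) (nat_lit 152) (nat_lit 0) (XT.lf (nat_lit 0) (nat_lit 125082949862) (nat_lit 152) (nat_lit 12780607266) (nat_lit 228) (nat_lit 4926716069) (nat_lit 27) (nat_lit 5) (nat_lit 29) (nat_lit 5) (nat_lit 30) (nat_lit 5) (nat_lit 350) (nat_lit 305) (nat_lit 125)) (XT.nd (nat_lit 78) (nat_lit 0) (nat_lit 0) (XT.lf (nat_lit 0) (nat_lit 19742255492) (nat_lit 152) (nat_lit 102831509117) (nat_lit 76) (nat_lit 25408715421) (nat_lit 25) (nat_lit 5) (nat_lit 27) (nat_lit 5) (nat_lit 26) (nat_lit 5) (nat_lit 351) (nat_lit 305) (nat_lit 124)) (XT.lf (nat_lit 0) (nat_lit 45992861336) (nat_lit 152) (nat_lit 41948500088) (nat_lit 76) (nat_lit 65463210192) (nat_lit 25) (nat_lit 5) (nat_lit 27) (nat_lit 5) (nat_lit 26) (nat_lit 5) (nat_lit 352) (nat_lit 305) (nat_lit 123))))))))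
noncomputable def xc220 : XT := (XT.nd (nat_lit 1560) (nat_lit 76) (nat_lit 0) (XT.nd (nat_lit 780) (nat_lit 456) (nat_lit 0) (XT.nd (nat_lit 390) (nat_lit 228) (nat_lit 0) (XT.nd (nat_lit 156) (nat_lit 152) (nat_lit 0) (XT.nd (nat_lit 78) (nat_lit 0) (nat_lit 0) (XT.lf (nat_lit 0) (nat_lit 22704453155) (nat_lit 152) (nat_lit 51205490489) (nat_lit 228) (nat_lit 85170127293) (nat_lit 23) (nat_lit 5) (nat_lit 25) (nat_lit 5) (nat_lit 26) (nat_lit 5) (nat_lit 353) (nat_lit 305) (nat_lit 122)) (XT.lf (nat_lit 0) (nat_lit 92045535097) (nat_lit 152) (nat_lit 11887240894) (nat_lit 228) (nat_lit 61071074878) (nat_lit 23) (nat_lit 5) (nat_lit 25) (nat_lit 5) (nat_lit 26) (nat_lit 5) (nat_lit 354) (nat_lit 305) (nat_lit 121))) (XT.nd (nat_lit 78) (nat_lit 152) (nat_lit 0) (XT.lf (nat_lit 0) (nat_lit 135915215660) (nat_lit 228) (nat_lit 6829971456) (nat_lit 76) (nat_lit 28455709816) (nat_lit 23)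 (nat_lit 5) (nat_lit 26) (nat_lit 5) (nat_lit 24) (nat_lit 4) (nat_lit 355) (nat_lit 305) (nat_lit 120)) (XT.nd (nat_lit 78) (nat_lit 76) (nat_lit 0) (XT.lf (nat_lit 0) (nat_lit 64472630303) (nat_lit 76) (nat_lit 106225139568) (nat_lit 152) (nat_lit 6949976198) (nat_lit 22) (nat_lit 5) (nat_lit 23) (nat_lit 5) (nat_lit 24) (nat_lit 4) (nat_lit 356) (nat_lit 305) (nat_lit 119)) (XT.lf (nat_lit 0) (nat_lit 22189779916) (nat_lit 152) (nat_lit 45192395016) (nat_lit 76) (nat_lit 117011108106) (nat_lit 21) (nat_lit 5) (nat_lit 23) (nat_lit 5) (nat_lit 22) (nat_lit 5) (nat_lit 357) (nat_lit 305) (nat_lit 118))))) (XT.nd (nat_lit 156) (nat_lit 76) (nat_lit 0) (XT.nd (nat_lit 78) (nat_lit 0) (nat_lit 0) (XT.lf (nat_lit 0) (nat_lit 26936898846) (nat_lit 152) (nat_lit 26036166948) (nat_lit 228) (nat_lit 138476329369) (nat_lit 19) (nat_lit 5) (nat_lit 21) (nat_lit 5) (nat_lit 22) (nat_lit 5) (nat_lit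 358) (nat_lit 305) (nat_lit 117)) (XT.lf (nat_lit 0) (nat_lit 86344274618) (nat_lit 228) (nat_lit 94863045363) (nat_lit 76) (nat_lit 17598555311) (nat_lit 19) (nat_lit 5) (nat_lit 22) (nat_lit 5) (nat_lit 20) (nat_lit 4) (nat_lit 359) (nat_lit 305) (nat_lit 116))) (XT.nd (nat_lit 78) (nat_lit 76) (nat_lit 0) (XT.lf (nat_lit 0) (nat_lit 121810438569) (nat_lit 228) (nat_lit 22158689839) (nat_lit 76) (nat_lit 62539731597) (nat_lit 19) (nat_lit 5) (nat_lit 22) (nat_lit 5) (nat_lit 20) (nat_lit 4) (nat_lit 360) (nat_lit 305) (nat_lit 115)) (XT.nd (nat_lit 78) (nat_lit 0) (nat_lit 0) (XT.lf (nat_lit 0) (nat_lit 55971614610) (nat_lit 76) (nat_lit 103951762518) (nat_lit 152) (nat_lit 54629943804) (nat_lit 18) (nat_lit 5) (nat_lit 19) (nat_lit 5) (nat_lit 20) (nat_lit 4) (nat_lit 361) (nat_lit 305) (nat_lit 114)) (XT.lf (nat_lit 0) (nat_lit 138777035343) (nat_lit 76) (nat_lit 61539796543) (nat_lit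 152) (nat_lit 22664429841) (nat_lit 18) (nat_lit 5) (nat_lit 19) (nat_lit 5) (nat_lit 20) (nat_lit 4) (nat_lit 362) (nat_lit 305) (nat_lit 113)))))) (XT.nd (nat_lit 390) (nat_lit 152) (nat_lit 0) (XT.nd (nat_lit 156) (nat_lit 76) (nat_lit 0) (XT.nd (nat_lit 78) (nat_lit 152) (nat_lit 0) (XT.lf (nat_lit 0) (nat_lit 10550125878) (nat_lit 152) (nat_lit 6278720381) (nat_lit 76) (nat_lit 214993264401) (nat_lit 17) (nat_lit 5) (nat_lit 19) (nat_lit 5) (nat_lit 18) (nat_lit 5) (nat_lit 363) (nat_lit 305) (nat_lit 112)) (XT.lf (nat_lit 0) (nat_lit 46371984807) (nat_lit 228) (nat_lit 163865649972) (nat_lit 76) (nat_lit 30763377661) (nat_lit 15) (nat_lit 5) (nat_lit 18) (nat_lit 5) (nat_lit 16) (nat_lit 4) (nat_lit 364) (nat_lit 305) (nat_lit 111))) (XT.nd (nat_lit 78) (nat_lit 76) (nat_lit 0) (XT.lf (nat_lit 0) (nat_lit 84368531079) (nat_lit 228) (nat_lit 85973685698) (nat_lit 76) (nat_lit 80277463044)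 (nat_lit 15) (nat_lit 5) (nat_lit 18) (nat_lit 5) (nat_lit 16) (nat_lit 4) (nat_lit 365) (nat_lit 305) (nat_lit 110)) (XT.nd (nat_lit 78) (nat_lit 76) (nat_lit 0) (XT.lf (nat_lit 0) (nat_lit 124264557369) (nat_lit 228) (nat_lit 4187741887) (nat_lit 76) (nat_lit 132266998905) (nat_lit 15) (nat_lit 5) (nat_lit 18) (nat_lit 5) (nat_lit 16) (nat_lit 4) (nat_lit 366) (nat_lit 305) (nat_lit 109)) (XT.lf (nat_lit 0) (nat_lit 84387848049) (nat_lit 76) (nat_lit 83084736969) (nat_lit 152) (nat_lit 103785452610) (nat_lit 14) (nat_lit 5) (nat_lit 15) (nat_lit 5) (nat_lit 16) (nat_lit 4) (nat_lit 367) (nat_lit 305) (nat_lit 108))))) (XT.nd (nat_lit 156) (nat_lit 152) (nat_lit 0) (XT.nd (nat_lit 78) (nat_lit 0) (nat_lit 0) (XT.lf (nat_lit 0) (nat_lit 177537026712) (nat_lit 76) (nat_lit 35374584712) (nat_lit 152) (nat_lit 69408572976) (nat_lit 14) (nat_lit 5) (nat_lit 15) (nat_lit 5) (nat_lit 16) (nat_lit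 4) (nat_lit 368) (nat_lit 305) (nat_lit 107)) (XT.lf (nat_lit 0) (nat_lit 260852113962) (nat_lit 152) (nat_lit 18822175371) (nat_lit 0) (nat_lit 14249673131) (nat_lit 14) (nat_lit 5) (nat_lit 16) (nat_lit 4) (nat_lit 14) (nat_lit 4) (nat_lit 369) (nat_lit 305) (nat_lit 106))) (XT.nd (nat_lit 78) (nat_lit 0) (nat_lit 0) (XT.lf (nat_lit 0) (nat_lit 6669761481) (nat_lit 152) (nat_lit 232930142867) (nat_lit 76) (nat_lit 66416523479) (nat_lit 12) (nat_lit 5) (nat_lit 14) (nat_lit 5) (nat_lit 13) (nat_lit 4) (nat_lit 370) (nat_lit 305) (nat_lit 105)) (XT.nd (nat_lit 78) (nat_lit 0) (nat_lit 0) (XT.lf (nat_lit 0) (nat_lit 47610712671) (nat_lit 152) (nat_lit 149001872043) (nat_lit 76) (nat_lit 122057639252) (nat_lit 12) (nat_lit 5) (nat_lit 14) (nat_lit 5) (nat_lit 13) (nat_lit 4) (nat_lit 371) (nat_lit 305) (nat_lit 104)) (XT.lf (nat_lit 0) (nat_lit 90598428962) (nat_lit 152) (nat_lit 60877700426)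 (nat_lit 76) (nat_lit 180480594808) (nat_lit 12) (nat_lit 5) (nat_lit 14) (nat_lit 5) (nat_lit 13) (nat_lit 4) (nat_lit 372) (nat_lit 305) (nat_lit 103))))))) (XT.nd (nat_lit 36036) (nat_lit 0) (nat_lit 4332) (XT.nd (nat_lit 35646) (nat_lit 0) (nat_lit 6004) (XT.nd (nat_lit 35412) (nat_lit 0) (nat_lit 6004) (XT.nd (nat_lit 156) (nat_lit 0) (nat_lit 0) (XT.lf (nat_lit 0) (nat_lit 32698755834) (nat_lit 76) (nat_lit 103547025440) (nat_lit 152) (nat_lit 209636255803) (nat_lit 11) (nat_lit 5) (nat_lit 12) (nat_lit 5) (nat_lit 13) (nat_lit 4) (nat_lit 373) (nat_lit 305) (nat_lit 102)) (XT.lf (nat_lit 0) (nat_lit 236643162589) (nat_lit 152) (nat_lit 137325962329) (nat_lit 0) (nat_lit 1780075793) (nat_lit 11) (nat_lit 5) (nat_lit 13) (nat_lit 4) (nat_lit 11) (nat_lit 4) (nat_lit 375) (nat_lit 305) (nat_lit 100))) (XT.nd (nat_lit 78) (nat_lit 0) (nat_lit 0) (XT.lf (nat_lit 0) (nat_lit 7910297489)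 (nat_lit 0) (nat_lit 7910297489) (nat_lit 684) (nat_lit 3478064155) (nat_lit 90) (nat_lit 5) (nat_lit 90) (nat_lit 3) (nat_lit 99) (nat_lit 3) (nat_lit 306) (nat_lit 306) (nat_lit 168)) (XT.nd (nat_lit 78) (nat_lit 0) (nat_lit 0) (XT.lf (nat_lit 0) (nat_lit 32501451137) (nat_lit 684) (nat_lit 5316006349) (nat_lit 760) (nat_lit 1741249152) (nat_lit 90) (nat_lit 5) (nat_lit 99) (nat_lit 3) (nat_lit 100) (nat_lit 5) (nat_lit 307) (nat_lit 306) (nat_lit 167)) (XT.lf (nat_lit 76) (nat_lit 13178719215) (nat_lit 0) (nat_lit 20688503572) (nat_lit 760) (nat_lit 6677822084) (nat_lit 91) (nat_lit 5) (nat_lit 90) (nat_lit 5) (nat_lit 100) (nat_lit 5) (nat_lit 308) (nat_lit 306) (nat_lit 166))))) (XT.nd (nat_lit 156) (nat_lit 0) (nat_lit 76) (XT.nd (nat_lit 78) (nat_lit 0) (nat_lit 76) (XT.lf (nat_lit 76) (nat_lit 32781290053) (nat_lit 0) (nat_lit 2607510556) (nat_lit 760) (nat_lit 6187528589) (nat_lit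 91) (nat_lit 5) (nat_lit 90) (nat_lit 5) (nat_lit 100) (nat_lit 5) (nat_lit 309) (nat_lit 306) (nat_lit 165)) (XT.lf (nat_lit 76) (nat_lit 10793035196) (nat_lit 0) (nat_lit 26615254647) (nat_lit 760) (nat_lit 5229801091) (nat_lit 92) (nat_lit 5) (nat_lit 91) (nat_lit 5) (nat_lit 101) (nat_lit 5) (nat_lit 310) (nat_lit 306) (nat_lit 164))) (XT.nd (nat_lit 78) (nat_lit 0) (nat_lit 76) (XT.lf (nat_lit 76) (nat_lit 31620200399) (nat_lit 0) (nat_lit 8097271601) (nat_lit 760) (nat_lit 4026037426) (nat_lit 92) (nat_lit 5) (nat_lit 91) (nat_lit 5) (nat_lit 101) (nat_lit 5) (nat_lit 311) (nat_lit 306) (nat_lit 163)) (XT.nd (nat_lit 78) (nat_lit 0) (nat_lit 0) (XT.lf (nat_lit 76) (nat_lit 8683756069) (nat_lit 0) (nat_lit 33768921558) (nat_lit 760) (nat_lit 2435997368) (nat_lit 93) (nat_lit 5) (nat_lit 92) (nat_lit 5) (nat_lit 102) (nat_lit 5) (nat_lit 312) (nat_lit 306) (nat_lit 162)) (XT.lf (nat_lit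 76) (nat_lit 30813411154) (nat_lit 0) (nat_lit 14845061154) (nat_lit 760) (nat_lit 415939259) (nat_lit 93) (nat_lit 5) (nat_lit 92) (nat_lit 5) (nat_lit 102) (nat_lit 5) (nat_lit 313) (nat_lit 306) (nat_lit 161)))))) (XT.nd (nat_lit 390) (nat_lit 684) (nat_lit 0) (XT.nd (nat_lit 156) (nat_lit 456) (nat_lit 0) (XT.nd (nat_lit 78) (nat_lit 0) (nat_lit 0) (XT.lf (nat_lit 0) (nat_lit 1837290430) (nat_lit 760) (nat_lit 40469908882) (nat_lit 836) (nat_lit 5001571186) (nat_lit 83) (nat_lit 5) (nat_lit 93) (nat_lit 5) (nat_lit 94) (nat_lit 5) (nat_lit 314) (nat_lit 306) (nat_lit 160)) (XT.lf (nat_lit 0) (nat_lit 4693310777) (nat_lit 760) (nat_lit 18274405368) (nat_lit 836) (nat_lit 25611588520) (nat_lit 83) (nat_lit 5) (nat_lit 93) (nat_lit 5) (nat_lit 94) (nat_lit 5) (nat_lit 315) (nat_lit 306) (nat_lit 159))) (XT.nd (nat_lit 78) (nat_lit 456) (nat_lit 0) (XT.lf (nat_lit 76) (nat_lit 5195635064)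 (nat_lit 0) (nat_lit 2575764500) (nat_lit 836) (nat_lit 42138006030) (nat_lit 84) (nat_lit 5) (nat_lit 83) (nat_lit 5) (nat_lit 94) (nat_lit 5) (nat_lit 316) (nat_lit 306) (nat_lit 158)) (XT.nd (nat_lit 78) (nat_lit 532) (nat_lit 0) (XT.lf (nat_lit 0) (nat_lit 11610249609) (nat_lit 760) (nat_lit 21117669880) (nat_lit 76) (nat_lit 18547752501) (nat_lit 84) (nat_lit 5) (nat_lit 94) (nat_lit 5) (nat_lit 85) (nat_lit 5) (nat_lit 317) (nat_lit 306) (nat_lit 157)) (XT.lf (nat_lit 0) (nat_lit 3733994353) (nat_lit 532) (nat_lit 12005874421) (nat_lit 608) (nat_lit 36965444709) (nat_lit 77) (nat_lit 5) (nat_lit 84) (nat_lit 5) (nat_lit 85) (nat_lit 5) (nat_lit 318) (nat_lit 306) (nat_lit 156))))) (XT.nd (nat_lit 156) (nat_lit 304) (nat_lit 0) (XT.nd (nat_lit 78) (nat_lit 380) (nat_lit 0) (XT.lf (nat_lit 0) (nat_lit 20590092445) (nat_lit 608) (nat_lit 23786868175) (nat_lit 76) (nat_lit 9803773213)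 (nat_lit 77) (nat_lit 5) (nat_lit 85) (nat_lit 5) (nat_lit 78) (nat_lit 5) (nat_lit 319) (nat_lit 306) (nat_lit 155)) (XT.lf (nat_lit 0) (nat_lit 2539762248) (nat_lit 380) (nat_lit 23377975814) (nat_lit 456) (nat_lit 29800444417) (nat_lit 72) (nat_lit 5) (nat_lit 77) (nat_lit 5) (nat_lit 78) (nat_lit 5) (nat_lit 320) (nat_lit 306) (nat_lit 154))) (XT.nd (nat_lit 78) (nat_lit 304) (nat_lit 0) (XT.lf (nat_lit 0) (nat_lit 31007061237) (nat_lit 380) (nat_lit 906038205) (nat_lit 456) (nat_lit 25399340124) (nat_lit 72) (nat_lit 5) (nat_lit 77) (nat_lit 5) (nat_lit 78) (nat_lit 5) (nat_lit 321) (nat_lit 306) (nat_lit 153)) (XT.nd (nat_lit 78) (nat_lit 0) (nat_lit 0) (XT.lf (nat_lit 0) (nat_lit 1607010339) (nat_lit 304) (nat_lit 36979118602) (nat_lit 380) (nat_lit 20381388123) (nat_lit 68) (nat_lit 5) (nat_lit 72) (nat_lit 5) (nat_lit 73) (nat_lit 5) (nat_lit 322) (nat_lit 306) (nat_lit 152))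 (XT.lf (nat_lit 0) (nat_lit 31811468596) (nat_lit 304) (nat_lit 14240058106) (nat_lit 380) (nat_lit 14630888328) (nat_lit 68) (nat_lit 5) (nat_lit 72) (nat_lit 5) (nat_lit 73) (nat_lit 5) (nat_lit 323) (nat_lit 306) (nat_lit 151))))))))
noncomputable def xc221 : XT := (XT.nd (nat_lit 1560) (nat_lit 1292) (nat_lit 0) (XT.nd (nat_lit 780) (nat_lit 1064) (nat_lit 0) (XT.nd (nat_lit 390) (nat_lit 836) (nat_lit 0) (XT.nd (nat_lit 156) (nat_lit 380) (nat_lit 0) (XT.nd (nat_lit 78) (nat_lit 0) (nat_lit 0) (XT.lf (nat_lit 0) (nat_lit 920647639) (nat_lit 304) (nat_lit 53133038910) (nat_lit 380) (nat_lit 8421199054) (nat_lit 64) (nat_lit 5) (nat_lit 68) (nat_lit 5) (nat_lit 69) (nat_lit 5) (nat_lit 324) (nat_lit 306) (nat_lit 150)) (XT.lf (nat_lit 0) (nat_lit 32961550428) (nat_lit 304) (nat_lit 30211740420) (nat_lit 380) (nat_lit 1147824243) (nat_lit 64) (nat_lit 5) (nat_lit 68) (nat_lit 5) (nat_lit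 69) (nat_lit 5) (nat_lit 325) (nat_lit 306) (nat_lit 149))) (XT.nd (nat_lit 78) (nat_lit 0) (nat_lit 0) (XT.lf (nat_lit 0) (nat_lit 250115370) (nat_lit 304) (nat_lit 6034067155) (nat_lit 380) (nat_lit 59970276847) (nat_lit 59) (nat_lit 5) (nat_lit 63) (nat_lit 5) (nat_lit 64) (nat_lit 5) (nat_lit 326) (nat_lit 306) (nat_lit 148)) (XT.nd (nat_lit 78) (nat_lit 0) (nat_lit 0) (XT.lf (nat_lit 0) (nat_lit 14889946028) (nat_lit 380) (nat_lit 34060027363) (nat_lit 76) (nat_lit 19291522002) (nat_lit 59) (nat_lit 5) (nat_lit 64) (nat_lit 5) (nat_lit 60) (nat_lit 5) (nat_lit 327) (nat_lit 306) (nat_lit 147)) (XT.lf (nat_lit 0) (nat_lit 24023762966) (nat_lit 380) (nat_lit 618798664) (nat_lit 76) (nat_lit 45680435140) (nat_lit 59) (nat_lit 5) (nat_lit 64) (nat_lit 5) (nat_lit 60) (nat_lit 5) (nat_lit 328) (nat_lit 306) (nat_lit 146))))) (XT.nd (nat_lit 156) (nat_lit 532) (nat_lit 0) (XT.nd (nat_lit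 78) (nat_lit 0) (nat_lit 0) (XT.lf (nat_lit 0) (nat_lit 34192372952) (nat_lit 380) (nat_lit 36869999617) (nat_lit 76) (nat_lit 1417297267) (nat_lit 55) (nat_lit 5) (nat_lit 60) (nat_lit 5) (nat_lit 56) (nat_lit 5) (nat_lit 329) (nat_lit 306) (nat_lit 145)) (XT.lf (nat_lit 0) (nat_lit 45282970856) (nat_lit 380) (nat_lit 1478103773) (nat_lit 76) (nat_lit 27962425702) (nat_lit 55) (nat_lit 5) (nat_lit 60) (nat_lit 5) (nat_lit 56) (nat_lit 5) (nat_lit 330) (nat_lit 306) (nat_lit 144))) (XT.nd (nat_lit 78) (nat_lit 304) (nat_lit 0) (XT.lf (nat_lit 0) (nat_lit 36861913714) (nat_lit 228) (nat_lit 20640683238) (nat_lit 304) (nat_lit 19548202054) (nat_lit 52) (nat_lit 5) (nat_lit 55) (nat_lit 5) (nat_lit 56) (nat_lit 5) (nat_lit 331) (nat_lit 306) (nat_lit 143)) (XT.nd (nat_lit 78) (nat_lit 304) (nat_lit 0) (XT.lf (nat_lit 0) (nat_lit 70463596418) (nat_lit 304) (nat_lit 2430627724) (nat_lit 76)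 (nat_lit 6593720364) (nat_lit 52) (nat_lit 5) (nat_lit 56) (nat_lit 5) (nat_lit 53) (nat_lit 5) (nat_lit 332) (nat_lit 306) (nat_lit 142)) (XT.lf (nat_lit 0) (nat_lit 2908341363) (nat_lit 304) (nat_lit 43952040394) (nat_lit 76) (nat_lit 35137611648) (nat_lit 48) (nat_lit 5) (nat_lit 52) (nat_lit 5) (nat_lit 49) (nat_lit 5) (nat_lit 333) (nat_lit 306) (nat_lit 141)))))) (XT.nd (nat_lit 390) (nat_lit 608) (nat_lit 0) (XT.nd (nat_lit 156) (nat_lit 228) (nat_lit 0) (XT.nd (nat_lit 78) (nat_lit 228) (nat_lit 0) (XT.lf (nat_lit 0) (nat_lit 15175288662) (nat_lit 304) (nat_lit 4150613215) (nat_lit 76) (nat_lit 65298202124) (nat_lit 48) (nat_lit 5) (nat_lit 52) (nat_lit 5) (nat_lit 49) (nat_lit 5) (nat_lit 334) (nat_lit 306) (nat_lit 140)) (XT.lf (nat_lit 0) (nat_lit 28821382616) (nat_lit 304) (nat_lit 48626589485) (nat_lit 76) (nat_lit 9895259291) (nat_lit 45) (nat_lit 5) (nat_lit 49) (nat_lit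 5) (nat_lit 46) (nat_lit 5) (nat_lit 335) (nat_lit 306) (nat_lit 139))) (XT.nd (nat_lit 78) (nat_lit 228) (nat_lit 0) (XT.lf (nat_lit 0) (nat_lit 43537170187) (nat_lit 304) (nat_lit 6642632003) (nat_lit 76) (nat_lit 39999144687) (nat_lit 45) (nat_lit 5) (nat_lit 49) (nat_lit 5) (nat_lit 46) (nat_lit 5) (nat_lit 336) (nat_lit 306) (nat_lit 138)) (XT.nd (nat_lit 78) (nat_lit 0) (nat_lit 0) (XT.lf (nat_lit 0) (nat_lit 38677275046) (nat_lit 228) (nat_lit 20914500248) (nat_lit 304) (nat_lit 33534522550) (nat_lit 42) (nat_lit 5) (nat_lit 45) (nat_lit 5) (nat_lit 46) (nat_lit 5) (nat_lit 337) (nat_lit 306) (nat_lit 137)) (XT.lf (nat_lit 0) (nat_lit 76715860212) (nat_lit 304) (nat_lit 9877846502) (nat_lit 76) (nat_lit 9613973230) (nat_lit 42) (nat_lit 5) (nat_lit 46) (nat_lit 5) (nat_lit 43) (nat_lit 5) (nat_lit 338) (nat_lit 306) (nat_lit 136))))) (XT.nd (nat_lit 156) (nat_lit 380) (nat_lit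 0) (XT.nd (nat_lit 78) (nat_lit 76) (nat_lit 0) (XT.lf (nat_lit 0) (nat_lit 37787334548) (nat_lit 152) (nat_lit 57840864612) (nat_lit 228) (nat_lit 3768330510) (nat_lit 40) (nat_lit 5) (nat_lit 42) (nat_lit 5) (nat_lit 43) (nat_lit 5) (nat_lit 339) (nat_lit 306) (nat_lit 135)) (XT.lf (nat_lit 0) (nat_lit 12502788768) (nat_lit 228) (nat_lit 14760549075) (nat_lit 76) (nat_lit 75463075671) (nat_lit 39) (nat_lit 5) (nat_lit 42) (nat_lit 5) (nat_lit 40) (nat_lit 5) (nat_lit 340) (nat_lit 306) (nat_lit 134))) (XT.nd (nat_lit 78) (nat_lit 152) (nat_lit 0) (XT.lf (nat_lit 0) (nat_lit 30100115088) (nat_lit 304) (nat_lit 70773707326) (nat_lit 76) (nat_lit 5313916629) (nat_lit 36) (nat_lit 5) (nat_lit 40) (nat_lit 5) (nat_lit 37) (nat_lit 5) (nat_lit 341) (nat_lit 306) (nat_lit 133)) (XT.nd (nat_lit 78) (nat_lit 152) (nat_lit 0) (XT.lf (nat_lit 0) (nat_lit 49277601727) (nat_lit 304) (nat_lit 21651967725)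 (nat_lit 76) (nat_lit 38857547529) (nat_lit 36) (nat_lit 5) (nat_lit 40) (nat_lit 5) (nat_lit 37) (nat_lit 5) (nat_lit 342) (nat_lit 306) (nat_lit 132)) (XT.lf (nat_lit 0) (nat_lit 30914268253) (nat_lit 152) (nat_lit 38981666157) (nat_lit 228) (nat_lit 43646431613) (nat_lit 34) (nat_lit 5) (nat_lit 36) (nat_lit 5) (nat_lit 37) (nat_lit 5) (nat_lit 343) (nat_lit 306) (nat_lit 131))))))) (XT.nd (nat_lit 780) (nat_lit 608) (nat_lit 0) (XT.nd (nat_lit 390) (nat_lit 304) (nat_lit 0) (XT.nd (nat_lit 156) (nat_lit 228) (nat_lit 0) (XT.nd (nat_lit 78) (nat_lit 152) (nat_lit 0) (XT.lf (nat_lit 0) (nat_lit 86859499986) (nat_lit 152) (nat_lit 5051700356) (nat_lit 228) (nat_lit 25555877099) (nat_lit 34) (nat_lit 5) (nat_lit 36) (nat_lit 5) (nat_lit 37) (nat_lit 5) (nat_lit 344) (nat_lit 306) (nat_lit 130)) (XT.lf (nat_lit 0) (nat_lit 24313802552) (nat_lit 152) (nat_lit 91569748073) (nat_lit 228)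 (nat_lit 5661658470) (nat_lit 32) (nat_lit 5) (nat_lit 34) (nat_lit 5) (nat_lit 35) (nat_lit 5) (nat_lit 345) (nat_lit 306) (nat_lit 129))) (XT.nd (nat_lit 78) (nat_lit 152) (nat_lit 0) (XT.lf (nat_lit 0) (nat_lit 15348930812) (nat_lit 228) (nat_lit 43087512551) (nat_lit 76) (nat_lit 67348466228) (nat_lit 31) (nat_lit 5) (nat_lit 34) (nat_lit 5) (nat_lit 32) (nat_lit 5) (nat_lit 346) (nat_lit 306) (nat_lit 128)) (XT.nd (nat_lit 78) (nat_lit 0) (nat_lit 0) (XT.lf (nat_lit 0) (nat_lit 14121787735) (nat_lit 152) (nat_lit 23317865076) (nat_lit 228) (nat_lit 92781308613) (nat_lit 29) (nat_lit 5) (nat_lit 31) (nat_lit 5) (nat_lit 32) (nat_lit 5) (nat_lit 347) (nat_lit 306) (nat_lit 127)) (XT.lf (nat_lit 0) (nat_lit 61587638580) (nat_lit 228) (nat_lit 59379464974) (nat_lit 76) (nat_lit 13864076503) (nat_lit 29) (nat_lit 5) (nat_lit 32) (nat_lit 5) (nat_lit 30) (nat_lit 5) (nat_lit 348) (nat_lit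 306) (nat_lit 126))))) (XT.nd (nat_lit 156) (nat_lit 152) (nat_lit 0) (XT.nd (nat_lit 78) (nat_lit 152) (nat_lit 0) (XT.lf (nat_lit 0) (nat_lit 87324712477) (nat_lit 228) (nat_lit 206953854) (nat_lit 76) (nat_lit 52121159411) (nat_lit 29) (nat_lit 5) (nat_lit 32) (nat_lit 5) (nat_lit 30) (nat_lit 5) (nat_lit 349) (nat_lit 306) (nat_lit 125)) (XT.lf (nat_lit 0) (nat_lit 63970767899) (nat_lit 152) (nat_lit 51376091092) (nat_lit 228) (nat_lit 29318784311) (nat_lit 27) (nat_lit 5) (nat_lit 29) (nat_lit 5) (nat_lit 30) (nat_lit 5) (nat_lit 350) (nat_lit 306) (nat_lit 124))) (XT.nd (nat_lit 78) (nat_lit 152) (nat_lit 0) (XT.lf (nat_lit 0) (nat_lit 131363695891) (nat_lit 152) (nat_lit 13409390168) (nat_lit 228) (nat_lit 5155867531) (nat_lit 27) (nat_lit 5) (nat_lit 29) (nat_lit 5) (nat_lit 30) (nat_lit 5) (nat_lit 351) (nat_lit 306) (nat_lit 123)) (XT.nd (nat_lit 78) (nat_lit 0) (nat_lit 0)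 (XT.lf (nat_lit 0) (nat_lit 20745791151) (nat_lit 152) (nat_lit 107945695364) (nat_lit 76) (nat_lit 26689282121) (nat_lit 25) (nat_lit 5) (nat_lit 27) (nat_lit 5) (nat_lit 26) (nat_lit 5) (nat_lit 352) (nat_lit 306) (nat_lit 122)) (XT.lf (nat_lit 0) (nat_lit 48308145246) (nat_lit 152) (nat_lit 44019840131) (nat_lit 76) (nat_lit 68746019205) (nat_lit 25) (nat_lit 5) (nat_lit 27) (nat_lit 5) (nat_lit 26) (nat_lit 5) (nat_lit 353) (nat_lit 306) (nat_lit 121)))))) (XT.nd (nat_lit 390) (nat_lit 304) (nat_lit 0) (XT.nd (nat_lit 156) (nat_lit 152) (nat_lit 0) (XT.nd (nat_lit 78) (nat_lit 0) (nat_lit 0) (XT.lf (nat_lit 0) (nat_lit 23865340049) (nat_lit 152) (nat_lit 53755397508) (nat_lit 228) (nat_lit 89412559163) (nat_lit 23) (nat_lit 5) (nat_lit 25) (nat_lit 5) (nat_lit 26) (nat_lit 5) (nat_lit 354) (nat_lit 306) (nat_lit 120)) (XT.lf (nat_lit 0) (nat_lit 96672253981) (nat_lit 152) (nat_lit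 12471729124) (nat_lit 228) (nat_lit 64109319580) (nat_lit 23) (nat_lit 5) (nat_lit 25) (nat_lit 5) (nat_lit 26) (nat_lit 5) (nat_lit 355) (nat_lit 306) (nat_lit 119))) (XT.nd (nat_lit 78) (nat_lit 152) (nat_lit 0) (XT.lf (nat_lit 0) (nat_lit 142724997846) (nat_lit 228) (nat_lit 7147633172) (nat_lit 76) (nat_lit 29887597965) (nat_lit 23) (nat_lit 5) (nat_lit 26) (nat_lit 5) (nat_lit 24) (nat_lit 4) (nat_lit 356) (nat_lit 306) (nat_lit 118)) (XT.nd (nat_lit 78) (nat_lit 76) (nat_lit 0) (XT.lf (nat_lit 0) (nat_lit 67719714209) (nat_lit 76) (nat_lit 111526664031) (nat_lit 152) (nat_lit 7283057973) (nat_lit 22) (nat_lit 5) (nat_lit 23) (nat_lit 5) (nat_lit 24) (nat_lit 4) (nat_lit 357) (nat_lit 306) (nat_lit 117)) (XT.lf (nat_lit 0) (nat_lit 23312559960) (nat_lit 152) (nat_lit 47429229566) (nat_lit 76) (nat_lit 122870482984) (nat_lit 21) (nat_lit 5) (nat_lit 23) (nat_lit 5) (nat_lit 22) (nat_lit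 5) (nat_lit 358) (nat_lit 306) (nat_lit 116))))) (XT.nd (nat_lit 234) (nat_lit 152) (nat_lit 0) (XT.nd (nat_lit 78) (nat_lit 0) (nat_lit 0) (XT.lf (nat_lit 0) (nat_lit 28306161486) (nat_lit 152) (nat_lit 27328565742) (nat_lit 228) (nat_lit 145386477640) (nat_lit 19) (nat_lit 5) (nat_lit 21) (nat_lit 5) (nat_lit 22) (nat_lit 5) (nat_lit 359) (nat_lit 306) (nat_lit 115)) (XT.nd (nat_lit 78) (nat_lit 0) (nat_lit 0) (XT.lf (nat_lit 0) (nat_lit 90674016971) (nat_lit 228) (nat_lit 99584358734) (nat_lit 76) (nat_lit 18487157733) (nat_lit 19) (nat_lit 5) (nat_lit 22) (nat_lit 5) (nat_lit 20) (nat_lit 4) (nat_lit 360) (nat_lit 306) (nat_lit 114)) (XT.lf (nat_lit 0) (nat_lit 127912892519) (nat_lit 228) (nat_lit 23245825381) (nat_lit 76) (nat_lit 65674979755) (nat_lit 19) (nat_lit 5) (nat_lit 22) (nat_lit 5) (nat_lit 20) (nat_lit 4) (nat_lit 361) (nat_lit 306) (nat_lit 113)))) (XT.nd (nat_lit 78)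 (nat_lit 76) (nat_lit 0) (XT.lf (nat_lit 0) (nat_lit 58790658823) (nat_lit 76) (nat_lit 109140570483) (nat_lit 152) (nat_lit 57349165173) (nat_lit 18) (nat_lit 5) (nat_lit 19) (nat_lit 5) (nat_lit 20) (nat_lit 4) (nat_lit 362) (nat_lit 306) (nat_lit 112)) (XT.nd (nat_lit 78) (nat_lit 76) (nat_lit 0) (XT.lf (nat_lit 0) (nat_lit 145735376142) (nat_lit 76) (nat_lit 64608424312) (nat_lit 152) (nat_lit 23785960075) (nat_lit 18) (nat_lit 5) (nat_lit 19) (nat_lit 5) (nat_lit 20) (nat_lit 4) (nat_lit 363) (nat_lit 306) (nat_lit 111)) (XT.lf (nat_lit 0) (nat_lit 11088410329) (nat_lit 152) (nat_lit 6573731845) (nat_lit 76) (nat_lit 225750527913) (nat_lit 17) (nat_lit 5) (nat_lit 19) (nat_lit 5) (nat_lit 18) (nat_lit 5) (nat_lit 364) (nat_lit 306) (nat_lit 110))))))))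
noncomputable def xc222 : XT := (XT.nd (nat_lit 36894) (nat_lit 0) (nat_lit 2584) (XT.nd (nat_lit 36114) (nat_lit 0) (nat_lit 5472) (XT.nd (nat_lit 390) (nat_lit 228) (nat_lit 0) (XT.nd (nat_lit 156) (nat_lit 76) (nat_lit 0) (XT.nd (nat_lit 78) (nat_lit 0) (nat_lit 0) (XT.lf (nat_lit 0) (nat_lit 48701265555) (nat_lit 228) (nat_lit 172039904411) (nat_lit 76) (nat_lit 32309352164) (nat_lit 15) (nat_lit 5) (nat_lit 18) (nat_lit 5) (nat_lit 16) (nat_lit 4) (nat_lit 365) (nat_lit 306) (nat_lit 109)) (XT.lf (nat_lit 0) (nat_lit 88597130498) (nat_lit 228) (nat_lit 90254248022) (nat_lit 76) (nat_lit 84298770120) (nat_lit 15) (nat_lit 5) (nat_lit 18) (nat_lit 5) (nat_lit 16) (nat_lit 4) (nat_lit 366) (nat_lit 306) (nat_lit 108))) (XT.nd (nat_lit 78) (nat_lit 76) (nat_lit 0) (XT.lf (nat_lit 0) (nat_lit 130487473680) (nat_lit 228) (nat_lit 4379869971) (nat_lit 76) (nat_lit 138887428778) (nat_lit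 15) (nat_lit 5) (nat_lit 18) (nat_lit 5) (nat_lit 16) (nat_lit 4) (nat_lit 367) (nat_lit 306) (nat_lit 107)) (XT.nd (nat_lit 78) (nat_lit 0) (nat_lit 0) (XT.lf (nat_lit 0) (nat_lit 88624221090) (nat_lit 76) (nat_lit 87231485382) (nat_lit 152) (nat_lit 108964752504) (nat_lit 14) (nat_lit 5) (nat_lit 15) (nat_lit 5) (nat_lit 16) (nat_lit 4) (nat_lit 368) (nat_lit 306) (nat_lit 106)) (XT.lf (nat_lit 0) (nat_lit 186430050085) (nat_lit 76) (nat_lit 37136182105) (nat_lit 152) (nat_lit 72869503781) (nat_lit 14) (nat_lit 5) (nat_lit 15) (nat_lit 5) (nat_lit 16) (nat_lit 4) (nat_lit 369) (nat_lit 306) (nat_lit 105))))) (XT.nd (nat_lit 156) (nat_lit 76) (nat_lit 0) (XT.nd (nat_lit 78) (nat_lit 152) (nat_lit 0) (XT.lf (nat_lit 0) (nat_lit 273903435414) (nat_lit 152) (nat_lit 19747552388) (nat_lit 0) (nat_lit 14968731625) (nat_lit 14) (nat_lit 5) (nat_lit 16) (nat_lit 4) (nat_lit 14) (nat_lit 4)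 (nat_lit 370) (nat_lit 306) (nat_lit 104)) (XT.lf (nat_lit 0) (nat_lit 7011936919) (nat_lit 152) (nat_lit 244560879882) (nat_lit 76) (nat_lit 69743993177) (nat_lit 12) (nat_lit 5) (nat_lit 14) (nat_lit 5) (nat_lit 13) (nat_lit 4) (nat_lit 371) (nat_lit 306) (nat_lit 103))) (XT.nd (nat_lit 78) (nat_lit 76) (nat_lit 0) (XT.lf (nat_lit 0) (nat_lit 49999521986) (nat_lit 152) (nat_lit 156436946475) (nat_lit 76) (nat_lit 128166848381) (nat_lit 12) (nat_lit 5) (nat_lit 14) (nat_lit 5) (nat_lit 13) (nat_lit 4) (nat_lit 372) (nat_lit 306) (nat_lit 102)) (XT.nd (nat_lit 156) (nat_lit 76) (nat_lit 0) (XT.lf (nat_lit 0) (nat_lit 95136230106) (nat_lit 152) (nat_lit 63907281475) (nat_lit 76) (nat_lit 189510650421) (nat_lit 12) (nat_lit 5) (nat_lit 14) (nat_lit 5) (nat_lit 13) (nat_lit 4) (nat_lit 373) (nat_lit 306) (nat_lit 101)) (XT.lf (nat_lit 0) (nat_lit 139733848391) (nat_lit 76) (nat_lit 54740050341)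 (nat_lit 152) (nat_lit 184000412669) (nat_lit 11) (nat_lit 5) (nat_lit 12) (nat_lit 5) (nat_lit 13) (nat_lit 4) (nat_lit 375) (nat_lit 306) (nat_lit 99)))))) (XT.nd (nat_lit 390) (nat_lit 532) (nat_lit 0) (XT.nd (nat_lit 156) (nat_lit 0) (nat_lit 0) (XT.nd (nat_lit 78) (nat_lit 0) (nat_lit 0) (XT.lf (nat_lit 0) (nat_lit 8326064539) (nat_lit 0) (nat_lit 8326064539) (nat_lit 684) (nat_lit 3609356076) (nat_lit 90) (nat_lit 5) (nat_lit 90) (nat_lit 3) (nat_lit 99) (nat_lit 3) (nat_lit 307) (nat_lit 307) (nat_lit 166)) (XT.lf (nat_lit 0) (nat_lit 34203072568) (nat_lit 684) (nat_lit 5538615611) (nat_lit 760) (nat_lit 1790970696) (nat_lit 90) (nat_lit 5) (nat_lit 99) (nat_lit 3) (nat_lit 100) (nat_lit 5) (nat_lit 308) (nat_lit 307) (nat_lit 165))) (XT.nd (nat_lit 78) (nat_lit 0) (nat_lit 0) (XT.lf (nat_lit 76) (nat_lit 13880149601) (nat_lit 0) (nat_lit 21754001471) (nat_lit 760) (nat_lit 6934319445)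 (nat_lit 91) (nat_lit 5) (nat_lit 90) (nat_lit 5) (nat_lit 100) (nat_lit 5) (nat_lit 309) (nat_lit 307) (nat_lit 164)) (XT.nd (nat_lit 78) (nat_lit 0) (nat_lit 76) (XT.lf (nat_lit 76) (nat_lit 34460825437) (nat_lit 0) (nat_lit 2767479151) (nat_lit 760) (nat_lit 6423196691) (nat_lit 91) (nat_lit 5) (nat_lit 90) (nat_lit 5) (nat_lit 100) (nat_lit 5) (nat_lit 310) (nat_lit 307) (nat_lit 163)) (XT.lf (nat_lit 76) (nat_lit 11376545258) (nat_lit 0) (nat_lit 27969131369) (nat_lit 760) (nat_lit 5420835781) (nat_lit 92) (nat_lit 5) (nat_lit 91) (nat_lit 5) (nat_lit 101) (nat_lit 5) (nat_lit 311) (nat_lit 307) (nat_lit 162))))) (XT.nd (nat_lit 156) (nat_lit 608) (nat_lit 0) (XT.nd (nat_lit 78) (nat_lit 0) (nat_lit 76) (XT.lf (nat_lit 76) (nat_lit 33242980231) (nat_lit 0) (nat_lit 8524148504) (nat_lit 760) (nat_lit 4160238950) (nat_lit 92) (nat_lit 5) (nat_lit 91) (nat_lit 5) (nat_lit 101) (nat_lit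 5) (nat_lit 312) (nat_lit 307) (nat_lit 161)) (XT.lf (nat_lit 76) (nat_lit 9162641833) (nat_lit 0) (nat_lit 35473786056) (nat_lit 760) (nat_lit 2493503080) (nat_lit 93) (nat_lit 5) (nat_lit 92) (nat_lit 5) (nat_lit 102) (nat_lit 5) (nat_lit 313) (nat_lit 307) (nat_lit 160))) (XT.nd (nat_lit 78) (nat_lit 684) (nat_lit 0) (XT.lf (nat_lit 76) (nat_lit 32396651197) (nat_lit 0) (nat_lit 15602950802) (nat_lit 760) (nat_lit 375503692) (nat_lit 93) (nat_lit 5) (nat_lit 92) (nat_lit 5) (nat_lit 102) (nat_lit 5) (nat_lit 314) (nat_lit 307) (nat_lit 159)) (XT.nd (nat_lit 78) (nat_lit 0) (nat_lit 0) (XT.lf (nat_lit 0) (nat_lit 1986084523) (nat_lit 760) (nat_lit 42446315911) (nat_lit 836) (nat_lit 5238856759) (nat_lit 83) (nat_lit 5) (nat_lit 93) (nat_lit 5) (nat_lit 94) (nat_lit 5) (nat_lit 315) (nat_lit 307) (nat_lit 158)) (XT.lf (nat_lit 0) (nat_lit 4982194955) (nat_lit 760) (nat_lit 19143279527)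 (nat_lit 836) (nat_lit 26879984149) (nat_lit 83) (nat_lit 5) (nat_lit 93) (nat_lit 5) (nat_lit 94) (nat_lit 5) (nat_lit 316) (nat_lit 307) (nat_lit 157))))))) (XT.nd (nat_lit 780) (nat_lit 1444) (nat_lit 0) (XT.nd (nat_lit 390) (nat_lit 608) (nat_lit 0) (XT.nd (nat_lit 156) (nat_lit 836) (nat_lit 0) (XT.nd (nat_lit 78) (nat_lit 0) (nat_lit 76) (XT.lf (nat_lit 76) (nat_lit 5499539602) (nat_lit 0) (nat_lit 2712755619) (nat_lit 836) (nat_lit 44189868811) (nat_lit 84) (nat_lit 5) (nat_lit 83) (nat_lit 5) (nat_lit 94) (nat_lit 5) (nat_lit 317) (nat_lit 307) (nat_lit 156)) (XT.lf (nat_lit 0) (nat_lit 12240474099) (nat_lit 760) (nat_lit 22128826997) (nat_lit 76) (nat_lit 19467577887) (nat_lit 84) (nat_lit 5) (nat_lit 94) (nat_lit 5) (nat_lit 85) (nat_lit 5) (nat_lit 318) (nat_lit 307) (nat_lit 155))) (XT.nd (nat_lit 78) (nat_lit 380) (nat_lit 0) (XT.lf (nat_lit 0) (nat_lit 3964699055) (nat_lit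 532) (nat_lit 12610194970) (nat_lit 608) (nat_lit 38763196869) (nat_lit 77) (nat_lit 5) (nat_lit 84) (nat_lit 5) (nat_lit 85) (nat_lit 5) (nat_lit 319) (nat_lit 307) (nat_lit 154)) (XT.nd (nat_lit 78) (nat_lit 380) (nat_lit 0) (XT.lf (nat_lit 0) (nat_lit 21665281774) (nat_lit 608) (nat_lit 24931872424) (nat_lit 76) (nat_lit 10290249546) (nat_lit 77) (nat_lit 5) (nat_lit 85) (nat_lit 5) (nat_lit 78) (nat_lit 5) (nat_lit 320) (nat_lit 307) (nat_lit 153)) (XT.lf (nat_lit 0) (nat_lit 2710374372) (nat_lit 380) (nat_lit 24547440930) (nat_lit 456) (nat_lit 31243988169) (nat_lit 72) (nat_lit 5) (nat_lit 77) (nat_lit 5) (nat_lit 78) (nat_lit 5) (nat_lit 321) (nat_lit 307) (nat_lit 152))))) (XT.nd (nat_lit 156) (nat_lit 304) (nat_lit 0) (XT.nd (nat_lit 78) (nat_lit 304) (nat_lit 0) (XT.lf (nat_lit 0) (nat_lit 32598960977) (nat_lit 380) (nat_lit 951879473) (nat_lit 456) (nat_lit 26625041922) (nat_lit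 72) (nat_lit 5) (nat_lit 77) (nat_lit 5) (nat_lit 78) (nat_lit 5) (nat_lit 322) (nat_lit 307) (nat_lit 151)) (XT.lf (nat_lit 0) (nat_lit 1730389736) (nat_lit 304) (nat_lit 38825791371) (nat_lit 380) (nat_lit 21357603217) (nat_lit 68) (nat_lit 5) (nat_lit 72) (nat_lit 5) (nat_lit 73) (nat_lit 5) (nat_lit 323) (nat_lit 307) (nat_lit 150))) (XT.nd (nat_lit 78) (nat_lit 304) (nat_lit 0) (XT.lf (nat_lit 0) (nat_lit 33443021912) (nat_lit 304) (nat_lit 14949886573) (nat_lit 380) (nat_lit 15321619114) (nat_lit 68) (nat_lit 5) (nat_lit 72) (nat_lit 5) (nat_lit 73) (nat_lit 5) (nat_lit 324) (nat_lit 307) (nat_lit 149)) (XT.nd (nat_lit 78) (nat_lit 0) (nat_lit 0) (XT.lf (nat_lit 0) (nat_lit 1008941333) (nat_lit 304) (nat_lit 55785079263) (nat_lit 380) (nat_lit 8802662125) (nat_lit 64) (nat_lit 5) (nat_lit 68) (nat_lit 5) (nat_lit 69) (nat_lit 5) (nat_lit 325) (nat_lit 307) (nat_lit 148)) (XT.lf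 (nat_lit 0) (nat_lit 34649876818) (nat_lit 304) (nat_lit 31717935448) (nat_lit 380) (nat_lit 1167504139) (nat_lit 64) (nat_lit 5) (nat_lit 68) (nat_lit 5) (nat_lit 69) (nat_lit 5) (nat_lit 326) (nat_lit 307) (nat_lit 147)))))) (XT.nd (nat_lit 390) (nat_lit 760) (nat_lit 0) (XT.nd (nat_lit 156) (nat_lit 304) (nat_lit 0) (XT.nd (nat_lit 78) (nat_lit 0) (nat_lit 0) (XT.lf (nat_lit 0) (nat_lit 303466079) (nat_lit 304) (nat_lit 6330329294) (nat_lit 380) (nat_lit 62931560911) (nat_lit 59) (nat_lit 5) (nat_lit 63) (nat_lit 5) (nat_lit 64) (nat_lit 5) (nat_lit 327) (nat_lit 307) (nat_lit 146)) (XT.lf (nat_lit 0) (nat_lit 15668242067) (nat_lit 380) (nat_lit 35722470594) (nat_lit 76) (nat_lit 20261114355) (nat_lit 59) (nat_lit 5) (nat_lit 64) (nat_lit 5) (nat_lit 60) (nat_lit 5) (nat_lit 328) (nat_lit 307) (nat_lit 145))) (XT.nd (nat_lit 78) (nat_lit 304) (nat_lit 0) (XT.lf (nat_lit 0) (nat_lit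 25257140388) (nat_lit 380) (nat_lit 611111800) (nat_lit 76) (nat_lit 47969234281) (nat_lit 59) (nat_lit 5) (nat_lit 64) (nat_lit 5) (nat_lit 60) (nat_lit 5) (nat_lit 329) (nat_lit 307) (nat_lit 144)) (XT.nd (nat_lit 78) (nat_lit 0) (nat_lit 0) (XT.lf (nat_lit 0) (nat_lit 35933346845) (nat_lit 380) (nat_lit 38673990509) (nat_lit 76) (nat_lit 1494699948) (nat_lit 55) (nat_lit 5) (nat_lit 60) (nat_lit 5) (nat_lit 56) (nat_lit 5) (nat_lit 330) (nat_lit 307) (nat_lit 143)) (XT.lf (nat_lit 0) (nat_lit 47576981537) (nat_lit 380) (nat_lit 1514381259) (nat_lit 76) (nat_lit 29366773481) (nat_lit 55) (nat_lit 5) (nat_lit 60) (nat_lit 5) (nat_lit 56) (nat_lit 5) (nat_lit 331) (nat_lit 307) (nat_lit 142))))) (XT.nd (nat_lit 156) (nat_lit 532) (nat_lit 0) (XT.nd (nat_lit 78) (nat_lit 0) (nat_lit 0) (XT.lf (nat_lit 0) (nat_lit 38742030204) (nat_lit 228) (nat_lit 21664714726) (nat_lit 304) (nat_lit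 20495099344) (nat_lit 52) (nat_lit 5) (nat_lit 55) (nat_lit 5) (nat_lit 56) (nat_lit 5) (nat_lit 332) (nat_lit 307) (nat_lit 141)) (XT.lf (nat_lit 0) (nat_lit 74014531549) (nat_lit 304) (nat_lit 2515596688) (nat_lit 76) (nat_lit 6930784038) (nat_lit 52) (nat_lit 5) (nat_lit 56) (nat_lit 5) (nat_lit 53) (nat_lit 5) (nat_lit 333) (nat_lit 307) (nat_lit 140))) (XT.nd (nat_lit 78) (nat_lit 228) (nat_lit 0) (XT.lf (nat_lit 0) (nat_lit 3081234674) (nat_lit 304) (nat_lit 46112723404) (nat_lit 76) (nat_lit 36902523370) (nat_lit 48) (nat_lit 5) (nat_lit 52) (nat_lit 5) (nat_lit 49) (nat_lit 5) (nat_lit 334) (nat_lit 307) (nat_lit 139)) (XT.nd (nat_lit 78) (nat_lit 228) (nat_lit 0) (XT.lf (nat_lit 0) (nat_lit 15960220945) (nat_lit 304) (nat_lit 4322982915) (nat_lit 76) (nat_lit 68570760934) (nat_lit 48) (nat_lit 5) (nat_lit 52) (nat_lit 5) (nat_lit 49) (nat_lit 5) (nat_lit 335) (nat_lit 307) (nat_lit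 138)) (XT.lf (nat_lit 0) (nat_lit 30288056191) (nat_lit 304) (nat_lit 51022160293) (nat_lit 76) (nat_lit 10398861955) (nat_lit 45) (nat_lit 5) (nat_lit 49) (nat_lit 5) (nat_lit 46) (nat_lit 5) (nat_lit 336) (nat_lit 307) (nat_lit 137))))))))
noncomputable def xc223 : XT := (XT.nd (nat_lit 1560) (nat_lit 836) (nat_lit 0) (XT.nd (nat_lit 780) (nat_lit 684) (nat_lit 0) (XT.nd (nat_lit 390) (nat_lit 532) (nat_lit 0) (XT.nd (nat_lit 156) (nat_lit 228) (nat_lit 0) (XT.nd (nat_lit 78) (nat_lit 228) (nat_lit 0) (XT.lf (nat_lit 0) (nat_lit 45738413882) (nat_lit 304) (nat_lit 6940707731) (nat_lit 76) (nat_lit 42007520683) (nat_lit 45) (nat_lit 5) (nat_lit 49) (nat_lit 5) (nat_lit 46) (nat_lit 5) (nat_lit 337) (nat_lit 307) (nat_lit 136)) (XT.lf (nat_lit 0) (nat_lit 40644645382) (nat_lit 228) (nat_lit 21950465795) (nat_lit 304) (nat_lit 35186283093) (nat_lit 42) (nat_lit 5) (nat_lit 45) (nat_lit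 5) (nat_lit 46) (nat_lit 5) (nat_lit 338) (nat_lit 307) (nat_lit 135))) (XT.nd (nat_lit 78) (nat_lit 228) (nat_lit 0) (XT.lf (nat_lit 0) (nat_lit 80574414642) (nat_lit 304) (nat_lit 10338812468) (nat_lit 76) (nat_lit 10103669131) (nat_lit 42) (nat_lit 5) (nat_lit 46) (nat_lit 5) (nat_lit 43) (nat_lit 5) (nat_lit 339) (nat_lit 307) (nat_lit 134)) (XT.nd (nat_lit 78) (nat_lit 76) (nat_lit 0) (XT.lf (nat_lit 0) (nat_lit 39709096565) (nat_lit 152) (nat_lit 60722695877) (nat_lit 228) (nat_lit 3933426328) (nat_lit 40) (nat_lit 5) (nat_lit 42) (nat_lit 5) (nat_lit 43) (nat_lit 5) (nat_lit 340) (nat_lit 307) (nat_lit 133)) (XT.lf (nat_lit 0) (nat_lit 13149427540) (nat_lit 228) (nat_lit 15466987412) (nat_lit 76) (nat_lit 79245218677) (nat_lit 39) (nat_lit 5) (nat_lit 42) (nat_lit 5) (nat_lit 40) (nat_lit 5) (nat_lit 341) (nat_lit 307) (nat_lit 132))))) (XT.nd (nat_lit 156) (nat_lit 304) (nat_lit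 0) (XT.nd (nat_lit 78) (nat_lit 0) (nat_lit 0) (XT.lf (nat_lit 0) (nat_lit 31626239621) (nat_lit 304) (nat_lit 74280398645) (nat_lit 76) (nat_lit 5589407415) (nat_lit 36) (nat_lit 5) (nat_lit 40) (nat_lit 5) (nat_lit 37) (nat_lit 5) (nat_lit 342) (nat_lit 307) (nat_lit 131)) (XT.lf (nat_lit 0) (nat_lit 51761594936) (nat_lit 304) (nat_lit 22704095590) (nat_lit 76) (nat_lit 40809753433) (nat_lit 36) (nat_lit 5) (nat_lit 40) (nat_lit 5) (nat_lit 37) (nat_lit 5) (nat_lit 343) (nat_lit 307) (nat_lit 130))) (XT.nd (nat_lit 78) (nat_lit 152) (nat_lit 0) (XT.lf (nat_lit 0) (nat_lit 32489960727) (nat_lit 152) (nat_lit 40920393815) (nat_lit 228) (nat_lit 45808126502) (nat_lit 34) (nat_lit 5) (nat_lit 36) (nat_lit 5) (nat_lit 37) (nat_lit 5) (nat_lit 344) (nat_lit 307) (nat_lit 129)) (XT.nd (nat_lit 78) (nat_lit 152) (nat_lit 0) (XT.lf (nat_lit 0) (nat_lit 91231026472) (nat_lit 152) (nat_lit 5294422851)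 (nat_lit 228) (nat_lit 26814026485) (nat_lit 34) (nat_lit 5) (nat_lit 36) (nat_lit 5) (nat_lit 37) (nat_lit 5) (nat_lit 345) (nat_lit 307) (nat_lit 128)) (XT.lf (nat_lit 0) (nat_lit 25558372255) (nat_lit 152) (nat_lit 96137752455) (nat_lit 228) (nat_lit 5925404958) (nat_lit 32) (nat_lit 5) (nat_lit 34) (nat_lit 5) (nat_lit 35) (nat_lit 5) (nat_lit 346) (nat_lit 307) (nat_lit 127)))))) (XT.nd (nat_lit 390) (nat_lit 304) (nat_lit 0) (XT.nd (nat_lit 156) (nat_lit 152) (nat_lit 0) (XT.nd (nat_lit 78) (nat_lit 152) (nat_lit 0) (XT.lf (nat_lit 0) (nat_lit 16134203589) (nat_lit 228) (nat_lit 45213776217) (nat_lit 76) (nat_lit 70725265763) (nat_lit 31) (nat_lit 5) (nat_lit 34) (nat_lit 5) (nat_lit 32) (nat_lit 5) (nat_lit 347) (nat_lit 307) (nat_lit 126)) (XT.lf (nat_lit 0) (nat_lit 14855535666) (nat_lit 152) (nat_lit 24473508982) (nat_lit 228) (nat_lit 97402077065) (nat_lit 29) (nat_lit 5)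 (nat_lit 31) (nat_lit 5) (nat_lit 32) (nat_lit 5) (nat_lit 348) (nat_lit 307) (nat_lit 125))) (XT.nd (nat_lit 78) (nat_lit 152) (nat_lit 0) (XT.lf (nat_lit 0) (nat_lit 64683753097) (nat_lit 228) (nat_lit 62321403645) (nat_lit 76) (nat_lit 14566729190) (nat_lit 29) (nat_lit 5) (nat_lit 32) (nat_lit 5) (nat_lit 30) (nat_lit 5) (nat_lit 349) (nat_lit 307) (nat_lit 124)) (XT.nd (nat_lit 78) (nat_lit 152) (nat_lit 0) (XT.lf (nat_lit 0) (nat_lit 91706883898) (nat_lit 228) (nat_lit 191554331) (nat_lit 76) (nat_lit 54736216298) (nat_lit 29) (nat_lit 5) (nat_lit 32) (nat_lit 5) (nat_lit 30) (nat_lit 5) (nat_lit 350) (nat_lit 307) (nat_lit 123)) (XT.lf (nat_lit 0) (nat_lit 67194638233) (nat_lit 152) (nat_lit 53935136161) (nat_lit 228) (nat_lit 30768357487) (nat_lit 27) (nat_lit 5) (nat_lit 29) (nat_lit 5) (nat_lit 30) (nat_lit 5) (nat_lit 351) (nat_lit 307) (nat_lit 122))))) (XT.nd (nat_lit 156)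 (nat_lit 152) (nat_lit 0) (XT.nd (nat_lit 78) (nat_lit 152) (nat_lit 0) (XT.lf (nat_lit 0) (nat_lit 137956006341) (nat_lit 152) (nat_lit 14070564928) (nat_lit 228) (nat_lit 5398074203) (nat_lit 27) (nat_lit 5) (nat_lit 29) (nat_lit 5) (nat_lit 30) (nat_lit 5) (nat_lit 352) (nat_lit 307) (nat_lit 121)) (XT.lf (nat_lit 0) (nat_lit 21797976749) (nat_lit 152) (nat_lit 113318137311) (nat_lit 76) (nat_lit 28032935278) (nat_lit 25) (nat_lit 5) (nat_lit 27) (nat_lit 5) (nat_lit 26) (nat_lit 5) (nat_lit 353) (nat_lit 307) (nat_lit 120))) (XT.nd (nat_lit 78) (nat_lit 152) (nat_lit 0) (XT.lf (nat_lit 0) (nat_lit 50737739213) (nat_lit 152) (nat_lit 46197172308) (nat_lit 76) (nat_lit 72192071643) (nat_lit 25) (nat_lit 5) (nat_lit 27) (nat_lit 5) (nat_lit 26) (nat_lit 5) (nat_lit 354) (nat_lit 307) (nat_lit 119)) (XT.nd (nat_lit 78) (nat_lit 0) (nat_lit 0) (XT.lf (nat_lit 0) (nat_lit 25081885271)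 (nat_lit 152) (nat_lit 56433763750) (nat_lit 228) (nat_lit 93868607081) (nat_lit 23) (nat_lit 5) (nat_lit 25) (nat_lit 5) (nat_lit 26) (nat_lit 5) (nat_lit 355) (nat_lit 307) (nat_lit 118)) (XT.lf (nat_lit 0) (nat_lit 101528036413) (nat_lit 152) (nat_lit 13086359739) (nat_lit 228) (nat_lit 67300899806) (nat_lit 23) (nat_lit 5) (nat_lit 25) (nat_lit 5) (nat_lit 26) (nat_lit 5) (nat_lit 356) (nat_lit 307) (nat_lit 117))))))) (XT.nd (nat_lit 780) (nat_lit 228) (nat_lit 0) (XT.nd (nat_lit 390) (nat_lit 304) (nat_lit 0) (XT.nd (nat_lit 156) (nat_lit 228) (nat_lit 0) (XT.nd (nat_lit 78) (nat_lit 76) (nat_lit 0) (XT.lf (nat_lit 0) (nat_lit 149873965564) (nat_lit 228) (nat_lit 7483394099) (nat_lit 76) (nat_lit 31390234242) (nat_lit 23) (nat_lit 5) (nat_lit 26) (nat_lit 5) (nat_lit 24) (nat_lit 4) (nat_lit 357) (nat_lit 307) (nat_lit 116)) (XT.lf (nat_lit 0) (nat_lit 71126971930) (nat_lit 76)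 (nat_lit 117094169553) (nat_lit 152) (nat_lit 7634134195) (nat_lit 22) (nat_lit 5) (nat_lit 23) (nat_lit 5) (nat_lit 24) (nat_lit 4) (nat_lit 358) (nat_lit 307) (nat_lit 115))) (XT.nd (nat_lit 78) (nat_lit 152) (nat_lit 0) (XT.lf (nat_lit 0) (nat_lit 24490243330) (nat_lit 152) (nat_lit 49780024195) (nat_lit 76) (nat_lit 129022006655) (nat_lit 21) (nat_lit 5) (nat_lit 23) (nat_lit 5) (nat_lit 22) (nat_lit 5) (nat_lit 359) (nat_lit 307) (nat_lit 114)) (XT.nd (nat_lit 78) (nat_lit 0) (nat_lit 0) (XT.lf (nat_lit 0) (nat_lit 29741803073) (nat_lit 152) (nat_lit 28686459286) (nat_lit 228) (nat_lit 152643404064) (nat_lit 19) (nat_lit 5) (nat_lit 21) (nat_lit 5) (nat_lit 22) (nat_lit 5) (nat_lit 360) (nat_lit 307) (nat_lit 113)) (XT.lf (nat_lit 0) (nat_lit 95219081649) (nat_lit 228) (nat_lit 104543768147) (nat_lit 76) (nat_lit 19419383789) (nat_lit 19) (nat_lit 5) (nat_lit 22) (nat_lit 5) (nat_lit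 20) (nat_lit 4) (nat_lit 361) (nat_lit 307) (nat_lit 112))))) (XT.nd (nat_lit 156) (nat_lit 228) (nat_lit 0) (XT.nd (nat_lit 78) (nat_lit 76) (nat_lit 0) (XT.lf (nat_lit 0) (nat_lit 134319359840) (nat_lit 228) (nat_lit 24389251390) (nat_lit 76) (nat_lit 68966222237) (nat_lit 19) (nat_lit 5) (nat_lit 22) (nat_lit 5) (nat_lit 20) (nat_lit 4) (nat_lit 362) (nat_lit 307) (nat_lit 111)) (XT.lf (nat_lit 0) (nat_lit 61748752747) (nat_lit 76) (nat_lit 114589635143) (nat_lit 152) (nat_lit 60205488901) (nat_lit 18) (nat_lit 5) (nat_lit 19) (nat_lit 5) (nat_lit 20) (nat_lit 4) (nat_lit 363) (nat_lit 307) (nat_lit 110))) (XT.nd (nat_lit 78) (nat_lit 228) (nat_lit 0) (XT.lf (nat_lit 0) (nat_lit 153039822075) (nat_lit 76) (nat_lit 67831260895) (nat_lit 152) (nat_lit 24964653763) (nat_lit 18) (nat_lit 5) (nat_lit 19) (nat_lit 5) (nat_lit 20) (nat_lit 4) (nat_lit 364) (nat_lit 307) (nat_lit 109)) (XT.nd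 (nat_lit 78) (nat_lit 152) (nat_lit 0) (XT.lf (nat_lit 0) (nat_lit 11652606951) (nat_lit 152) (nat_lit 6885253308) (nat_lit 76) (nat_lit 237044947997) (nat_lit 17) (nat_lit 5) (nat_lit 19) (nat_lit 5) (nat_lit 18) (nat_lit 5) (nat_lit 365) (nat_lit 307) (nat_lit 108)) (XT.lf (nat_lit 0) (nat_lit 51146017276) (nat_lit 228) (nat_lit 180624640621) (nat_lit 76) (nat_lit 33931899699) (nat_lit 15) (nat_lit 5) (nat_lit 18) (nat_lit 5) (nat_lit 16) (nat_lit 4) (nat_lit 366) (nat_lit 307) (nat_lit 107)))))) (XT.nd (nat_lit 390) (nat_lit 152) (nat_lit 0) (XT.nd (nat_lit 156) (nat_lit 76) (nat_lit 0) (XT.nd (nat_lit 78) (nat_lit 0) (nat_lit 0) (XT.lf (nat_lit 0) (nat_lit 93036214112) (nat_lit 228) (nat_lit 94750523270) (nat_lit 76) (nat_lit 88520451414) (nat_lit 15) (nat_lit 5) (nat_lit 18) (nat_lit 5) (nat_lit 16) (nat_lit 4) (nat_lit 367) (nat_lit 307) (nat_lit 106)) (XT.lf (nat_lit 0) (nat_lit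 137020635067) (nat_lit 228) (nat_lit 4583209038) (nat_lit 76) (nat_lit 145838221920) (nat_lit 15) (nat_lit 5) (nat_lit 18) (nat_lit 5) (nat_lit 16) (nat_lit 4) (nat_lit 368) (nat_lit 307) (nat_lit 105))) (XT.nd (nat_lit 78) (nat_lit 0) (nat_lit 0) (XT.lf (nat_lit 0) (nat_lit 93070834085) (nat_lit 76) (nat_lit 91586267419) (nat_lit 152) (nat_lit 114403944564) (nat_lit 14) (nat_lit 5) (nat_lit 15) (nat_lit 5) (nat_lit 16) (nat_lit 4) (nat_lit 369) (nat_lit 307) (nat_lit 104)) (XT.nd (nat_lit 78) (nat_lit 0) (nat_lit 0) (XT.lf (nat_lit 0) (nat_lit 195766221104) (nat_lit 76) (nat_lit 38986522418) (nat_lit 152) (nat_lit 76504364145) (nat_lit 14) (nat_lit 5) (nat_lit 15) (nat_lit 5) (nat_lit 16) (nat_lit 4) (nat_lit 370) (nat_lit 307) (nat_lit 103)) (XT.lf (nat_lit 0) (nat_lit 287606512631) (nat_lit 152) (nat_lit 20720660845) (nat_lit 0) (nat_lit 15723131778) (nat_lit 14) (nat_lit 5) (nat_lit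 16) (nat_lit 4) (nat_lit 14) (nat_lit 4) (nat_lit 371) (nat_lit 307) (nat_lit 102))))) (XT.nd (nat_lit 35802) (nat_lit 0) (nat_lit 5928) (XT.nd (nat_lit 35646) (nat_lit 0) (nat_lit 5928) (XT.lf (nat_lit 0) (nat_lit 7370413461) (nat_lit 152) (nat_lit 256774619903) (nat_lit 76) (nat_lit 73237218708) (nat_lit 12) (nat_lit 5) (nat_lit 14) (nat_lit 5) (nat_lit 13) (nat_lit 4) (nat_lit 372) (nat_lit 307) (nat_lit 101)) (XT.nd (nat_lit 78) (nat_lit 0) (nat_lit 0) (XT.lf (nat_lit 0) (nat_lit 8760737087) (nat_lit 0) (nat_lit 8760737087) (nat_lit 684) (nat_lit 3751174187) (nat_lit 90) (nat_lit 5) (nat_lit 90) (nat_lit 3) (nat_lit 99) (nat_lit 3) (nat_lit 308) (nat_lit 308) (nat_lit 164)) (XT.lf (nat_lit 0) (nat_lit 35982658281) (nat_lit 684) (nat_lit 5776370831) (nat_lit 760) (nat_lit 1846649921) (nat_lit 90) (nat_lit 5) (nat_lit 99) (nat_lit 3) (nat_lit 100) (nat_lit 5) (nat_lit 309) (nat_lit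 308) (nat_lit 163)))) (XT.nd (nat_lit 78) (nat_lit 0) (nat_lit 0) (XT.lf (nat_lit 76) (nat_lit 14612700778) (nat_lit 0) (nat_lit 22869885419) (nat_lit 760) (nat_lit 7210837010) (nat_lit 91) (nat_lit 5) (nat_lit 90) (nat_lit 5) (nat_lit 100) (nat_lit 5) (nat_lit 310) (nat_lit 308) (nat_lit 162)) (XT.nd (nat_lit 78) (nat_lit 0) (nat_lit 76) (XT.lf (nat_lit 76) (nat_lit 36220574991) (nat_lit 0) (nat_lit 2932694893) (nat_lit 760) (nat_lit 6677500900) (nat_lit 91) (nat_lit 5) (nat_lit 90) (nat_lit 5) (nat_lit 100) (nat_lit 5) (nat_lit 311) (nat_lit 308) (nat_lit 161)) (XT.lf (nat_lit 76) (nat_lit 11985153294) (nat_lit 0) (nat_lit 29388553008) (nat_lit 760) (nat_lit 5627972478) (nat_lit 92) (nat_lit 5) (nat_lit 91) (nat_lit 5) (nat_lit 101) (nat_lit 5) (nat_lit 312) (nat_lit 308) (nat_lit 160))))))))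
noncomputable def xc224 : XT := (XT.nd (nat_lit 1560) (nat_lit 2128) (nat_lit 0) (XT.nd (nat_lit 780) (nat_lit 1292) (nat_lit 0) (XT.nd (nat_lit 390) (nat_lit 836) (nat_lit 0) (XT.nd (nat_lit 156) (nat_lit 608) (nat_lit 0) (XT.nd (nat_lit 78) (nat_lit 0) (nat_lit 76) (XT.lf (nat_lit 76) (nat_lit 34943015693) (nat_lit 0) (nat_lit 8970322663) (nat_lit 760) (nat_lit 4307388904) (nat_lit 92) (nat_lit 5) (nat_lit 91) (nat_lit 5) (nat_lit 101) (nat_lit 5) (nat_lit 313) (nat_lit 308) (nat_lit 159)) (XT.lf (nat_lit 76) (nat_lit 9661316292) (nat_lit 0) (nat_lit 37262367349) (nat_lit 760) (nat_lit 2559861539) (nat_lit 93) (nat_lit 5) (nat_lit 92) (nat_lit 5) (nat_lit 102) (nat_lit 5) (nat_lit 314) (nat_lit 308) (nat_lit 158))) (XT.nd (nat_lit 78) (nat_lit 684) (nat_lit 0) (XT.lf (nat_lit 76) (nat_lit 34055095536) (nat_lit 0) (nat_lit 16397281191) (nat_lit 760) (nat_lit 338739167) (nat_lit 93)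 (nat_lit 5) (nat_lit 92) (nat_lit 5) (nat_lit 102) (nat_lit 5) (nat_lit 315) (nat_lit 308) (nat_lit 157)) (XT.nd (nat_lit 78) (nat_lit 0) (nat_lit 0) (XT.lf (nat_lit 0) (nat_lit 2137025549) (nat_lit 760) (nat_lit 44525921126) (nat_lit 836) (nat_lit 5489195981) (nat_lit 83) (nat_lit 5) (nat_lit 93) (nat_lit 5) (nat_lit 94) (nat_lit 5) (nat_lit 316) (nat_lit 308) (nat_lit 156)) (XT.lf (nat_lit 0) (nat_lit 5280482607) (nat_lit 760) (nat_lit 20059766760) (nat_lit 836) (nat_lit 28212932294) (nat_lit 83) (nat_lit 5) (nat_lit 93) (nat_lit 5) (nat_lit 94) (nat_lit 5) (nat_lit 317) (nat_lit 308) (nat_lit 155))))) (XT.nd (nat_lit 156) (nat_lit 836) (nat_lit 0) (XT.nd (nat_lit 78) (nat_lit 0) (nat_lit 76) (XT.lf (nat_lit 76) (nat_lit 5814537249) (nat_lit 0) (nat_lit 2855833668) (nat_lit 836) (nat_lit 46349441598) (nat_lit 84) (nat_lit 5) (nat_lit 83) (nat_lit 5) (nat_lit 94) (nat_lit 5) (nat_lit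 318) (nat_lit 308) (nat_lit 154)) (XT.lf (nat_lit 0) (nat_lit 12897588062) (nat_lit 760) (nat_lit 23194700204) (nat_lit 76) (nat_lit 20434097607) (nat_lit 84) (nat_lit 5) (nat_lit 94) (nat_lit 5) (nat_lit 85) (nat_lit 5) (nat_lit 319) (nat_lit 308) (nat_lit 153))) (XT.nd (nat_lit 78) (nat_lit 380) (nat_lit 0) (XT.lf (nat_lit 0) (nat_lit 4202847826) (nat_lit 532) (nat_lit 13244357170) (nat_lit 608) (nat_lit 40655533515) (nat_lit 77) (nat_lit 5) (nat_lit 84) (nat_lit 5) (nat_lit 85) (nat_lit 5) (nat_lit 320) (nat_lit 308) (nat_lit 152)) (XT.nd (nat_lit 78) (nat_lit 380) (nat_lit 0) (XT.lf (nat_lit 0) (nat_lit 22789983238) (nat_lit 608) (nat_lit 26138249120) (nat_lit 76) (nat_lit 10801394832) (nat_lit 77) (nat_lit 5) (nat_lit 85) (nat_lit 5) (nat_lit 78) (nat_lit 5) (nat_lit 321) (nat_lit 308) (nat_lit 151)) (XT.lf (nat_lit 0) (nat_lit 2885461355) (nat_lit 380) (nat_lit 25775326650) (nat_lit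 456) (nat_lit 32764030236) (nat_lit 72) (nat_lit 5) (nat_lit 77) (nat_lit 5) (nat_lit 78) (nat_lit 5) (nat_lit 322) (nat_lit 308) (nat_lit 150)))))) (XT.nd (nat_lit 390) (nat_lit 684) (nat_lit 0) (XT.nd (nat_lit 156) (nat_lit 304) (nat_lit 0) (XT.nd (nat_lit 78) (nat_lit 304) (nat_lit 0) (XT.lf (nat_lit 0) (nat_lit 34266593088) (nat_lit 380) (nat_lit 999962660) (nat_lit 456) (nat_lit 27916144169) (nat_lit 72) (nat_lit 5) (nat_lit 77) (nat_lit 5) (nat_lit 78) (nat_lit 5) (nat_lit 323) (nat_lit 308) (nat_lit 149)) (XT.lf (nat_lit 0) (nat_lit 1855937686) (nat_lit 304) (nat_lit 40765010046) (nat_lit 380) (nat_lit 22386613253) (nat_lit 68) (nat_lit 5) (nat_lit 72) (nat_lit 5) (nat_lit 73) (nat_lit 5) (nat_lit 324) (nat_lit 308) (nat_lit 148))) (XT.nd (nat_lit 78) (nat_lit 304) (nat_lit 0) (XT.lf (nat_lit 0) (nat_lit 35152342972) (nat_lit 304) (nat_lit 15695408622) (nat_lit 380) (nat_lit 16050680904)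 (nat_lit 68) (nat_lit 5) (nat_lit 72) (nat_lit 5) (nat_lit 73) (nat_lit 5) (nat_lit 325) (nat_lit 308) (nat_lit 147)) (XT.nd (nat_lit 78) (nat_lit 0) (nat_lit 0) (XT.lf (nat_lit 0) (nat_lit 1097720655) (nat_lit 304) (nat_lit 58570150376) (nat_lit 380) (nat_lit 9206879692) (nat_lit 64) (nat_lit 5) (nat_lit 68) (nat_lit 5) (nat_lit 69) (nat_lit 5) (nat_lit 326) (nat_lit 308) (nat_lit 146)) (XT.lf (nat_lit 0) (nat_lit 36418877569) (nat_lit 304) (nat_lit 33299848553) (nat_lit 380) (nat_lit 1191674070) (nat_lit 64) (nat_lit 5) (nat_lit 68) (nat_lit 5) (nat_lit 69) (nat_lit 5) (nat_lit 327) (nat_lit 308) (nat_lit 145))))) (XT.nd (nat_lit 156) (nat_lit 304) (nat_lit 0) (XT.nd (nat_lit 78) (nat_lit 0) (nat_lit 0) (XT.lf (nat_lit 0) (nat_lit 355686948) (nat_lit 304) (nat_lit 6641910412) (nat_lit 380) (nat_lit 66044370451) (nat_lit 59) (nat_lit 5) (nat_lit 63) (nat_lit 5) (nat_lit 64) (nat_lit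 5) (nat_lit 328) (nat_lit 308) (nat_lit 144)) (XT.lf (nat_lit 0) (nat_lit 16482310622) (nat_lit 380) (nat_lit 37471806698) (nat_lit 76) (nat_lit 21278719962) (nat_lit 59) (nat_lit 5) (nat_lit 64) (nat_lit 5) (nat_lit 60) (nat_lit 5) (nat_lit 329) (nat_lit 308) (nat_lit 143))) (XT.nd (nat_lit 78) (nat_lit 304) (nat_lit 0) (XT.lf (nat_lit 0) (nat_lit 26549194028) (nat_lit 380) (nat_lit 606631746) (nat_lit 76) (nat_lit 50372029223) (nat_lit 59) (nat_lit 5) (nat_lit 64) (nat_lit 5) (nat_lit 60) (nat_lit 5) (nat_lit 330) (nat_lit 308) (nat_lit 142)) (XT.nd (nat_lit 78) (nat_lit 0) (nat_lit 0) (XT.lf (nat_lit 0) (nat_lit 37758454320) (nat_lit 380) (nat_lit 40571854127) (nat_lit 76) (nat_lit 1575364939) (nat_lit 55) (nat_lit 5) (nat_lit 60) (nat_lit 5) (nat_lit 56) (nat_lit 5) (nat_lit 331) (nat_lit 308) (nat_lit 141)) (XT.lf (nat_lit 0) (nat_lit 49982916454) (nat_lit 380) (nat_lit 1555970886)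 (nat_lit 76) (nat_lit 30840759768) (nat_lit 55) (nat_lit 5) (nat_lit 60) (nat_lit 5) (nat_lit 56) (nat_lit 5) (nat_lit 332) (nat_lit 308) (nat_lit 140))))))) (XT.nd (nat_lit 780) (nat_lit 912) (nat_lit 0) (XT.nd (nat_lit 390) (nat_lit 456) (nat_lit 0) (XT.nd (nat_lit 156) (nat_lit 532) (nat_lit 0) (XT.nd (nat_lit 78) (nat_lit 0) (nat_lit 0) (XT.lf (nat_lit 0) (nat_lit 40712710676) (nat_lit 228) (nat_lit 22740691800) (nat_lit 304) (nat_lit 21492178291) (nat_lit 52) (nat_lit 5) (nat_lit 55) (nat_lit 5) (nat_lit 56) (nat_lit 5) (nat_lit 333) (nat_lit 308) (nat_lit 139)) (XT.lf (nat_lit 0) (nat_lit 77740433010) (nat_lit 304) (nat_lit 2608213328) (nat_lit 76) (nat_lit 7284014991) (nat_lit 52) (nat_lit 5) (nat_lit 56) (nat_lit 5) (nat_lit 53) (nat_lit 5) (nat_lit 334) (nat_lit 308) (nat_lit 138))) (XT.nd (nat_lit 78) (nat_lit 228) (nat_lit 0) (XT.lf (nat_lit 0) (nat_lit 3260218170) (nat_lit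 304) (nat_lit 48384872945) (nat_lit 76) (nat_lit 38754934018) (nat_lit 48) (nat_lit 5) (nat_lit 52) (nat_lit 5) (nat_lit 49) (nat_lit 5) (nat_lit 335) (nat_lit 308) (nat_lit 137)) (XT.nd (nat_lit 78) (nat_lit 228) (nat_lit 0) (XT.lf (nat_lit 0) (nat_lit 16781967004) (nat_lit 304) (nat_lit 4507240032) (nat_lit 76) (nat_lit 72006236581) (nat_lit 48) (nat_lit 5) (nat_lit 52) (nat_lit 5) (nat_lit 49) (nat_lit 5) (nat_lit 336) (nat_lit 308) (nat_lit 136)) (XT.lf (nat_lit 0) (nat_lit 31825682987) (nat_lit 304) (nat_lit 53540834144) (nat_lit 76) (nat_lit 10926822921) (nat_lit 45) (nat_lit 5) (nat_lit 49) (nat_lit 5) (nat_lit 46) (nat_lit 5) (nat_lit 337) (nat_lit 308) (nat_lit 135))))) (XT.nd (nat_lit 156) (nat_lit 228) (nat_lit 0) (XT.nd (nat_lit 78) (nat_lit 228) (nat_lit 0) (XT.lf (nat_lit 0) (nat_lit 48047452659) (nat_lit 304) (nat_lit 7256853437) (nat_lit 76) (nat_lit 44115532781) (nat_lit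 45) (nat_lit 5) (nat_lit 49) (nat_lit 5) (nat_lit 46) (nat_lit 5) (nat_lit 338) (nat_lit 308) (nat_lit 134)) (XT.lf (nat_lit 0) (nat_lit 42707269110) (nat_lit 228) (nat_lit 23039136961) (nat_lit 304) (nat_lit 36922952727) (nat_lit 42) (nat_lit 5) (nat_lit 45) (nat_lit 5) (nat_lit 46) (nat_lit 5) (nat_lit 339) (nat_lit 308) (nat_lit 133))) (XT.nd (nat_lit 78) (nat_lit 228) (nat_lit 0) (XT.lf (nat_lit 0) (nat_lit 84623780653) (nat_lit 304) (nat_lit 10825887912) (nat_lit 76) (nat_lit 10617013350) (nat_lit 42) (nat_lit 5) (nat_lit 46) (nat_lit 5) (nat_lit 43) (nat_lit 5) (nat_lit 340) (nat_lit 308) (nat_lit 132)) (XT.nd (nat_lit 78) (nat_lit 76) (nat_lit 0) (XT.lf (nat_lit 0) (nat_lit 41723934876) (nat_lit 152) (nat_lit 63749568117) (nat_lit 228) (nat_lit 4108945074) (nat_lit 40) (nat_lit 5) (nat_lit 42) (nat_lit 5) (nat_lit 43) (nat_lit 5) (nat_lit 341) (nat_lit 308) (nat_lit 131)) (XT.lf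 (nat_lit 0) (nat_lit 13826399446) (nat_lit 228) (nat_lit 16211684523) (nat_lit 76) (nat_lit 83215633100) (nat_lit 39) (nat_lit 5) (nat_lit 42) (nat_lit 5) (nat_lit 40) (nat_lit 5) (nat_lit 342) (nat_lit 308) (nat_lit 130)))))) (XT.nd (nat_lit 390) (nat_lit 380) (nat_lit 0) (XT.nd (nat_lit 156) (nat_lit 304) (nat_lit 0) (XT.nd (nat_lit 78) (nat_lit 0) (nat_lit 0) (XT.lf (nat_lit 0) (nat_lit 33226706956) (nat_lit 304) (nat_lit 77965399034) (nat_lit 76) (nat_lit 5877762098) (nat_lit 36) (nat_lit 5) (nat_lit 40) (nat_lit 5) (nat_lit 37) (nat_lit 5) (nat_lit 343) (nat_lit 308) (nat_lit 129)) (XT.lf (nat_lit 0) (nat_lit 54367917878) (nat_lit 304) (nat_lit 23811662708) (nat_lit 76) (nat_lit 42858702354) (nat_lit 36) (nat_lit 5) (nat_lit 40) (nat_lit 5) (nat_lit 37) (nat_lit 5) (nat_lit 344) (nat_lit 308) (nat_lit 128))) (XT.nd (nat_lit 78) (nat_lit 152) (nat_lit 0) (XT.lf (nat_lit 0) (nat_lit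 34141650655) (nat_lit 152) (nat_lit 42957020627) (nat_lit 228) (nat_lit 48079823809) (nat_lit 34) (nat_lit 5) (nat_lit 36) (nat_lit 5) (nat_lit 37) (nat_lit 5) (nat_lit 345) (nat_lit 308) (nat_lit 127)) (XT.nd (nat_lit 78) (nat_lit 152) (nat_lit 0) (XT.lf (nat_lit 0) (nat_lit 95818474836) (nat_lit 152) (nat_lit 5550198394) (nat_lit 228) (nat_lit 28136909697) (nat_lit 34) (nat_lit 5) (nat_lit 36) (nat_lit 5) (nat_lit 37) (nat_lit 5) (nat_lit 346) (nat_lit 308) (nat_lit 126)) (XT.lf (nat_lit 0) (nat_lit 26862485493) (nat_lit 152) (nat_lit 100935131669) (nat_lit 228) (nat_lit 6204136490) (nat_lit 32) (nat_lit 5) (nat_lit 34) (nat_lit 5) (nat_lit 35) (nat_lit 5) (nat_lit 347) (nat_lit 308) (nat_lit 125))))) (XT.nd (nat_lit 156) (nat_lit 152) (nat_lit 0) (XT.nd (nat_lit 78) (nat_lit 152) (nat_lit 0) (XT.lf (nat_lit 0) (nat_lit 16957082691) (nat_lit 228) (nat_lit 47448966649) (nat_lit 76)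 (nat_lit 74270033563) (nat_lit 31) (nat_lit 5) (nat_lit 34) (nat_lit 5) (nat_lit 32) (nat_lit 5) (nat_lit 348) (nat_lit 308) (nat_lit 124)) (XT.lf (nat_lit 0) (nat_lit 15623399563) (nat_lit 152) (nat_lit 25687887970) (nat_lit 228) (nat_lit 102255585019) (nat_lit 29) (nat_lit 5) (nat_lit 31) (nat_lit 5) (nat_lit 32) (nat_lit 5) (nat_lit 349) (nat_lit 308) (nat_lit 123))) (XT.nd (nat_lit 78) (nat_lit 152) (nat_lit 0) (XT.lf (nat_lit 0) (nat_lit 67933117701) (nat_lit 228) (nat_lit 65412952669) (nat_lit 76) (nat_lit 15303636046) (nat_lit 29) (nat_lit 5) (nat_lit 32) (nat_lit 5) (nat_lit 30) (nat_lit 5) (nat_lit 350) (nat_lit 308) (nat_lit 122)) (XT.nd (nat_lit 78) (nat_lit 152) (nat_lit 0) (XT.lf (nat_lit 0) (nat_lit 96306682331) (nat_lit 228) (nat_lit 177778563) (nat_lit 76) (nat_lit 57481189395) (nat_lit 29) (nat_lit 5) (nat_lit 32) (nat_lit 5) (nat_lit 30) (nat_lit 5) (nat_lit 351) (nat_lit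 308) (nat_lit 121)) (XT.lf (nat_lit 0) (nat_lit 70577346960) (nat_lit 152) (nat_lit 56623040827) (nat_lit 228) (nat_lit 32291930881) (nat_lit 27) (nat_lit 5) (nat_lit 29) (nat_lit 5) (nat_lit 30) (nat_lit 5) (nat_lit 352) (nat_lit 308) (nat_lit 120))))))))
noncomputable def xc225 : XT := (XT.nd (nat_lit 37206) (nat_lit 0) (nat_lit 3800) (XT.nd (nat_lit 780) (nat_lit 380) (nat_lit 0) (XT.nd (nat_lit 390) (nat_lit 304) (nat_lit 0) (XT.nd (nat_lit 156) (nat_lit 152) (nat_lit 0) (XT.nd (nat_lit 78) (nat_lit 152) (nat_lit 0) (XT.lf (nat_lit 0) (nat_lit 144875689339) (nat_lit 152) (nat_lit 14765662564) (nat_lit 228) (nat_lit 5653840313) (nat_lit 27) (nat_lit 5) (nat_lit 29) (nat_lit 5) (nat_lit 30) (nat_lit 5) (nat_lit 353) (nat_lit 308) (nat_lit 119)) (XT.lf (nat_lit 0) (nat_lit 22901386734) (nat_lit 152) (nat_lit 118961511006) (nat_lit 76) (nat_lit 29442916782) (nat_lit 25) (nat_lit 5) (nat_lit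 27) (nat_lit 5) (nat_lit 26) (nat_lit 5) (nat_lit 354) (nat_lit 308) (nat_lit 118))) (XT.nd (nat_lit 78) (nat_lit 152) (nat_lit 0) (XT.lf (nat_lit 0) (nat_lit 53287493934) (nat_lit 152) (nat_lit 48485570762) (nat_lit 76) (nat_lit 75809613073) (nat_lit 25) (nat_lit 5) (nat_lit 27) (nat_lit 5) (nat_lit 26) (nat_lit 5) (nat_lit 355) (nat_lit 308) (nat_lit 117)) (XT.nd (nat_lit 78) (nat_lit 0) (nat_lit 0) (XT.lf (nat_lit 0) (nat_lit 26357093565) (nat_lit 152) (nat_lit 59246922566) (nat_lit 228) (nat_lit 98548812908) (nat_lit 23) (nat_lit 5) (nat_lit 25) (nat_lit 5) (nat_lit 26) (nat_lit 5) (nat_lit 356) (nat_lit 308) (nat_lit 116)) (XT.lf (nat_lit 0) (nat_lit 106624546834) (nat_lit 152) (nat_lit 13732554514) (nat_lit 228) (nat_lit 70653350009) (nat_lit 23) (nat_lit 5) (nat_lit 25) (nat_lit 5) (nat_lit 26) (nat_lit 5) (nat_lit 357) (nat_lit 308) (nat_lit 115))))) (XT.nd (nat_lit 156) (nat_lit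 228) (nat_lit 0) (XT.nd (nat_lit 78) (nat_lit 76) (nat_lit 0) (XT.lf (nat_lit 0) (nat_lit 157379199285) (nat_lit 228) (nat_lit 7837953164) (nat_lit 76) (nat_lit 32967234734) (nat_lit 23) (nat_lit 5) (nat_lit 26) (nat_lit 5) (nat_lit 24) (nat_lit 4) (nat_lit 358) (nat_lit 308) (nat_lit 114)) (XT.lf (nat_lit 0) (nat_lit 74702614866) (nat_lit 76) (nat_lit 122940871066) (nat_lit 152) (nat_lit 8003979974) (nat_lit 22) (nat_lit 5) (nat_lit 23) (nat_lit 5) (nat_lit 24) (nat_lit 4) (nat_lit 359) (nat_lit 308) (nat_lit 113))) (XT.nd (nat_lit 78) (nat_lit 152) (nat_lit 0) (XT.lf (nat_lit 0) (nat_lit 25725690075) (nat_lit 152) (nat_lit 52250279963) (nat_lit 76) (nat_lit 135480362789) (nat_lit 21) (nat_lit 5) (nat_lit 23) (nat_lit 5) (nat_lit 22) (nat_lit 5) (nat_lit 360) (nat_lit 308) (nat_lit 112)) (XT.nd (nat_lit 78) (nat_lit 0) (nat_lit 0) (XT.lf (nat_lit 0) (nat_lit 31247336323) (nat_lit 152)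 (nat_lit 30113040987) (nat_lit 228) (nat_lit 160264329408) (nat_lit 19) (nat_lit 5) (nat_lit 21) (nat_lit 5) (nat_lit 22) (nat_lit 5) (nat_lit 361) (nat_lit 308) (nat_lit 111)) (XT.lf (nat_lit 0) (nat_lit 99990343060) (nat_lit 228) (nat_lit 109752989639) (nat_lit 76) (nat_lit 20397489640) (nat_lit 19) (nat_lit 5) (nat_lit 22) (nat_lit 5) (nat_lit 20) (nat_lit 4) (nat_lit 362) (nat_lit 308) (nat_lit 110)))))) (XT.nd (nat_lit 390) (nat_lit 76) (nat_lit 0) (XT.nd (nat_lit 156) (nat_lit 228) (nat_lit 0) (XT.nd (nat_lit 78) (nat_lit 76) (nat_lit 0) (XT.lf (nat_lit 0) (nat_lit 141045144335) (nat_lit 228) (nat_lit 25591602612) (nat_lit 76) (nat_lit 72421330169) (nat_lit 19) (nat_lit 5) (nat_lit 22) (nat_lit 5) (nat_lit 20) (nat_lit 4) (nat_lit 363) (nat_lit 308) (nat_lit 109)) (XT.lf (nat_lit 0) (nat_lit 64853025742) (nat_lit 76) (nat_lit 120311893440) (nat_lit 152) (nat_lit 63205663997) (nat_lit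 18) (nat_lit 5) (nat_lit 19) (nat_lit 5) (nat_lit 20) (nat_lit 4) (nat_lit 364) (nat_lit 308) (nat_lit 108))) (XT.nd (nat_lit 78) (nat_lit 228) (nat_lit 0) (XT.lf (nat_lit 0) (nat_lit 160707846853) (nat_lit 76) (nat_lit 71215944454) (nat_lit 152) (nat_lit 26203268024) (nat_lit 18) (nat_lit 5) (nat_lit 19) (nat_lit 5) (nat_lit 20) (nat_lit 4) (nat_lit 365) (nat_lit 308) (nat_lit 107)) (XT.nd (nat_lit 78) (nat_lit 152) (nat_lit 0) (XT.lf (nat_lit 0) (nat_lit 12244104515) (nat_lit 152) (nat_lit 7213946695) (nat_lit 76) (nat_lit 248903448176) (nat_lit 17) (nat_lit 5) (nat_lit 19) (nat_lit 5) (nat_lit 18) (nat_lit 5) (nat_lit 366) (nat_lit 308) (nat_lit 106)) (XT.lf (nat_lit 0) (nat_lit 53712105843) (nat_lit 228) (nat_lit 189640218221) (nat_lit 76) (nat_lit 35634916387) (nat_lit 15) (nat_lit 5) (nat_lit 18) (nat_lit 5) (nat_lit 16) (nat_lit 4) (nat_lit 367) (nat_lit 308) (nat_lit 105)))))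 (XT.nd (nat_lit 156) (nat_lit 76) (nat_lit 0) (XT.nd (nat_lit 78) (nat_lit 0) (nat_lit 0) (XT.lf (nat_lit 0) (nat_lit 97696394059) (nat_lit 228) (nat_lit 99473140452) (nat_lit 76) (nat_lit 92952589892) (nat_lit 15) (nat_lit 5) (nat_lit 18) (nat_lit 5) (nat_lit 16) (nat_lit 4) (nat_lit 368) (nat_lit 308) (nat_lit 104)) (XT.lf (nat_lit 0) (nat_lit 143879637527) (nat_lit 228) (nat_lit 4798170459) (nat_lit 76) (nat_lit 153135957689) (nat_lit 15) (nat_lit 5) (nat_lit 18) (nat_lit 5) (nat_lit 16) (nat_lit 4) (nat_lit 369) (nat_lit 308) (nat_lit 103))) (XT.nd (nat_lit 78) (nat_lit 0) (nat_lit 0) (XT.lf (nat_lit 0) (nat_lit 97738345804) (nat_lit 76) (nat_lit 96159420036) (nat_lit 152) (nat_lit 120115937197) (nat_lit 14) (nat_lit 5) (nat_lit 15) (nat_lit 5) (nat_lit 16) (nat_lit 4) (nat_lit 370) (nat_lit 308) (nat_lit 102)) (XT.nd (nat_lit 78) (nat_lit 0) (nat_lit 0) (XT.lf (nat_lit 0) (nat_lit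 205567836935) (nat_lit 76) (nat_lit 40929981153) (nat_lit 152) (nat_lit 80321768453) (nat_lit 14) (nat_lit 5) (nat_lit 15) (nat_lit 5) (nat_lit 16) (nat_lit 4) (nat_lit 371) (nat_lit 308) (nat_lit 101)) (XT.lf (nat_lit 0) (nat_lit 301994008736) (nat_lit 152) (nat_lit 21743751337) (nat_lit 0) (nat_lit 16514697503) (nat_lit 14) (nat_lit 5) (nat_lit 16) (nat_lit 4) (nat_lit 14) (nat_lit 4) (nat_lit 372) (nat_lit 308) (nat_lit 100))))))) (XT.nd (nat_lit 780) (nat_lit 1444) (nat_lit 0) (XT.nd (nat_lit 390) (nat_lit 532) (nat_lit 0) (XT.nd (nat_lit 156) (nat_lit 0) (nat_lit 0) (XT.nd (nat_lit 78) (nat_lit 0) (nat_lit 0) (XT.lf (nat_lit 0) (nat_lit 9215435456) (nat_lit 0) (nat_lit 9215435456) (nat_lit 684) (nat_lit 3903676485) (nat_lit 90) (nat_lit 5) (nat_lit 90) (nat_lit 3) (nat_lit 99) (nat_lit 3) (nat_lit 309) (nat_lit 309) (nat_lit 162)) (XT.lf (nat_lit 0) (nat_lit 37844768143) (nat_lit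 684) (nat_lit 6029655984) (nat_lit 760) (nat_lit 1908261955) (nat_lit 90) (nat_lit 5) (nat_lit 99) (nat_lit 3) (nat_lit 100) (nat_lit 5) (nat_lit 310) (nat_lit 309) (nat_lit 161))) (XT.nd (nat_lit 78) (nat_lit 0) (nat_lit 0) (XT.lf (nat_lit 76) (nat_lit 15378296086) (nat_lit 0) (nat_lit 24038943294) (nat_lit 760) (nat_lit 7507706836) (nat_lit 91) (nat_lit 5) (nat_lit 90) (nat_lit 5) (nat_lit 100) (nat_lit 5) (nat_lit 311) (nat_lit 309) (nat_lit 160)) (XT.nd (nat_lit 78) (nat_lit 0) (nat_lit 76) (XT.lf (nat_lit 76) (nat_lit 38064899235) (nat_lit 0) (nat_lit 3103675928) (nat_lit 760) (nat_lit 6950735922) (nat_lit 91) (nat_lit 5) (nat_lit 90) (nat_lit 5) (nat_lit 100) (nat_lit 5) (nat_lit 312) (nat_lit 309) (nat_lit 159)) (XT.lf (nat_lit 76) (nat_lit 12620493293) (nat_lit 0) (nat_lit 30876996595) (nat_lit 760) (nat_lit 5851407299) (nat_lit 92) (nat_lit 5) (nat_lit 91) (nat_lit 5) (nat_lit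 101) (nat_lit 5) (nat_lit 313) (nat_lit 309) (nat_lit 158))))) (XT.nd (nat_lit 156) (nat_lit 608) (nat_lit 0) (XT.nd (nat_lit 78) (nat_lit 0) (nat_lit 76) (XT.lf (nat_lit 76) (nat_lit 36724530605) (nat_lit 0) (nat_lit 9436949212) (nat_lit 760) (nat_lit 4467554728) (nat_lit 92) (nat_lit 5) (nat_lit 91) (nat_lit 5) (nat_lit 101) (nat_lit 5) (nat_lit 314) (nat_lit 309) (nat_lit 157)) (XT.lf (nat_lit 76) (nat_lit 10181155229) (nat_lit 0) (nat_lit 39138993192) (nat_lit 760) (nat_lit 2634959654) (nat_lit 93) (nat_lit 5) (nat_lit 92) (nat_lit 5) (nat_lit 102) (nat_lit 5) (nat_lit 315) (nat_lit 309) (nat_lit 156))) (XT.nd (nat_lit 78) (nat_lit 684) (nat_lit 0) (XT.lf (nat_lit 76) (nat_lit 35792872334) (nat_lit 0) (nat_lit 17230009512) (nat_lit 760) (nat_lit 305299972) (nat_lit 93) (nat_lit 5) (nat_lit 92) (nat_lit 5) (nat_lit 102) (nat_lit 5) (nat_lit 316) (nat_lit 309) (nat_lit 155)) (XT.nd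 (nat_lit 78) (nat_lit 0) (nat_lit 0) (XT.lf (nat_lit 0) (nat_lit 2290712926) (nat_lit 760) (nat_lit 46713477427) (nat_lit 836) (nat_lit 5753130958) (nat_lit 83) (nat_lit 5) (nat_lit 93) (nat_lit 5) (nat_lit 94) (nat_lit 5) (nat_lit 317) (nat_lit 309) (nat_lit 154)) (XT.lf (nat_lit 0) (nat_lit 5589112546) (nat_lit 760) (nat_lit 21025860093) (nat_lit 836) (nat_lit 29613555269) (nat_lit 83) (nat_lit 5) (nat_lit 93) (nat_lit 5) (nat_lit 94) (nat_lit 5) (nat_lit 318) (nat_lit 309) (nat_lit 153)))))) (XT.nd (nat_lit 390) (nat_lit 608) (nat_lit 0) (XT.nd (nat_lit 156) (nat_lit 836) (nat_lit 0) (XT.nd (nat_lit 78) (nat_lit 0) (nat_lit 76) (XT.lf (nat_lit 76) (nat_lit 6141564036) (nat_lit 0) (nat_lit 3005373893) (nat_lit 836) (nat_lit 48621634173) (nat_lit 84) (nat_lit 5) (nat_lit 83) (nat_lit 5) (nat_lit 94) (nat_lit 5) (nat_lit 319) (nat_lit 309) (nat_lit 152)) (XT.lf (nat_lit 0) (nat_lit 13583365658)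 (nat_lit 760) (nat_lit 24317638713) (nat_lit 76) (nat_lit 21449581015) (nat_lit 84) (nat_lit 5) (nat_lit 94) (nat_lit 5) (nat_lit 85) (nat_lit 5) (nat_lit 320) (nat_lit 309) (nat_lit 151))) (XT.nd (nat_lit 78) (nat_lit 380) (nat_lit 0) (XT.lf (nat_lit 0) (nat_lit 4449193226) (nat_lit 532) (nat_lit 13909887909) (nat_lit 608) (nat_lit 42646747199) (nat_lit 77) (nat_lit 5) (nat_lit 84) (nat_lit 5) (nat_lit 85) (nat_lit 5) (nat_lit 321) (nat_lit 309) (nat_lit 150)) (XT.nd (nat_lit 78) (nat_lit 380) (nat_lit 0) (XT.lf (nat_lit 0) (nat_lit 23967067321) (nat_lit 608) (nat_lit 27408683640) (nat_lit 76) (nat_lit 11338410433) (nat_lit 77) (nat_lit 5) (nat_lit 85) (nat_lit 5) (nat_lit 78) (nat_lit 5) (nat_lit 322) (nat_lit 309) (nat_lit 149)) (XT.lf (nat_lit 0) (nat_lit 3065624006) (nat_lit 380) (nat_lit 27064558900) (nat_lit 456) (nat_lit 34363993796) (nat_lit 72) (nat_lit 5) (nat_lit 77) (nat_lit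 5) (nat_lit 78) (nat_lit 5) (nat_lit 323) (nat_lit 309) (nat_lit 148))))) (XT.nd (nat_lit 156) (nat_lit 304) (nat_lit 0) (XT.nd (nat_lit 78) (nat_lit 304) (nat_lit 0) (XT.lf (nat_lit 0) (nat_lit 36014103297) (nat_lit 380) (nat_lit 1050404523) (nat_lit 456) (nat_lit 29275534281) (nat_lit 72) (nat_lit 5) (nat_lit 77) (nat_lit 5) (nat_lit 78) (nat_lit 5) (nat_lit 324) (nat_lit 309) (nat_lit 147)) (XT.lf (nat_lit 0) (nat_lit 1984134537) (nat_lit 304) (nat_lit 42801382187) (nat_lit 380) (nat_lit 23470687567) (nat_lit 68) (nat_lit 5) (nat_lit 72) (nat_lit 5) (nat_lit 73) (nat_lit 5) (nat_lit 325) (nat_lit 309) (nat_lit 146))) (XT.nd (nat_lit 78) (nat_lit 304) (nat_lit 0) (XT.lf (nat_lit 0) (nat_lit 36943674375) (nat_lit 304) (nat_lit 16478390137) (nat_lit 380) (nat_lit 16819637474) (nat_lit 68) (nat_lit 5) (nat_lit 72) (nat_lit 5) (nat_lit 73) (nat_lit 5) (nat_lit 326) (nat_lit 309) (nat_lit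 145)) (XT.nd (nat_lit 78) (nat_lit 0) (nat_lit 0) (XT.lf (nat_lit 0) (nat_lit 1187375174) (nat_lit 304) (nat_lit 61494863926) (nat_lit 380) (nat_lit 9634647224) (nat_lit 64) (nat_lit 5) (nat_lit 68) (nat_lit 5) (nat_lit 69) (nat_lit 5) (nat_lit 327) (nat_lit 309) (nat_lit 144)) (XT.lf (nat_lit 0) (nat_lit 38272934291) (nat_lit 304) (nat_lit 34961227677) (nat_lit 380) (nat_lit 1220232581) (nat_lit 64) (nat_lit 5) (nat_lit 68) (nat_lit 5) (nat_lit 69) (nat_lit 5) (nat_lit 328) (nat_lit 309) (nat_lit 143))))))))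
noncomputable def xc226 : XT := (XT.nd (nat_lit 1560) (nat_lit 1292) (nat_lit 0) (XT.nd (nat_lit 780) (nat_lit 988) (nat_lit 0) (XT.nd (nat_lit 390) (nat_lit 760) (nat_lit 0) (XT.nd (nat_lit 156) (nat_lit 304) (nat_lit 0) (XT.nd (nat_lit 78) (nat_lit 0) (nat_lit 0) (XT.lf (nat_lit 0) (nat_lit 407074529) (nat_lit 304) (nat_lit 6969529429) (nat_lit 380) (nat_lit 69315959943) (nat_lit 59) (nat_lit 5) (nat_lit 63) (nat_lit 5) (nat_lit 64) (nat_lit 5) (nat_lit 329) (nat_lit 309) (nat_lit 142)) (XT.lf (nat_lit 0) (nat_lit 17334232458) (nat_lit 380) (nat_lit 39312029753) (nat_lit 76) (nat_lit 22346782844) (nat_lit 59) (nat_lit 5) (nat_lit 64) (nat_lit 5) (nat_lit 60) (nat_lit 5) (nat_lit 330) (nat_lit 309) (nat_lit 141))) (XT.nd (nat_lit 78) (nat_lit 304) (nat_lit 0) (XT.lf (nat_lit 0) (nat_lit 27903135924) (nat_lit 380) (nat_lit 605184972) (nat_lit 76) (nat_lit 52894561050) (nat_lit 59) (nat_lit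 5) (nat_lit 64) (nat_lit 5) (nat_lit 60) (nat_lit 5) (nat_lit 331) (nat_lit 309) (nat_lit 140)) (XT.nd (nat_lit 78) (nat_lit 0) (nat_lit 0) (XT.lf (nat_lit 0) (nat_lit 39672173074) (nat_lit 380) (nat_lit 42567942609) (nat_lit 76) (nat_lit 1659511865) (nat_lit 55) (nat_lit 5) (nat_lit 60) (nat_lit 5) (nat_lit 56) (nat_lit 5) (nat_lit 332) (nat_lit 309) (nat_lit 139)) (XT.lf (nat_lit 0) (nat_lit 52506629932) (nat_lit 380) (nat_lit 1602813025) (nat_lit 76) (nat_lit 32387920307) (nat_lit 55) (nat_lit 5) (nat_lit 60) (nat_lit 5) (nat_lit 56) (nat_lit 5) (nat_lit 333) (nat_lit 309) (nat_lit 138))))) (XT.nd (nat_lit 156) (nat_lit 532) (nat_lit 0) (XT.nd (nat_lit 78) (nat_lit 0) (nat_lit 0) (XT.lf (nat_lit 0) (nat_lit 42778803317) (nat_lit 228) (nat_lit 23871142570) (nat_lit 304) (nat_lit 22541684239) (nat_lit 52) (nat_lit 5) (nat_lit 55) (nat_lit 5) (nat_lit 56) (nat_lit 5) (nat_lit 334) (nat_lit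 309) (nat_lit 137)) (XT.lf (nat_lit 0) (nat_lit 81650289022) (nat_lit 304) (nat_lit 2708544000) (nat_lit 76) (nat_lit 7654285357) (nat_lit 52) (nat_lit 5) (nat_lit 56) (nat_lit 5) (nat_lit 53) (nat_lit 5) (nat_lit 335) (nat_lit 309) (nat_lit 136))) (XT.nd (nat_lit 78) (nat_lit 228) (nat_lit 0) (XT.lf (nat_lit 0) (nat_lit 3445833851) (nat_lit 304) (nat_lit 50773743232) (nat_lit 76) (nat_lit 40699287957) (nat_lit 48) (nat_lit 5) (nat_lit 52) (nat_lit 5) (nat_lit 49) (nat_lit 5) (nat_lit 336) (nat_lit 309) (nat_lit 135)) (XT.nd (nat_lit 78) (nat_lit 228) (nat_lit 0) (XT.lf (nat_lit 0) (nat_lit 17642593709) (nat_lit 304) (nat_lit 4703675024) (nat_lit 76) (nat_lit 75612841017) (nat_lit 48) (nat_lit 5) (nat_lit 52) (nat_lit 5) (nat_lit 49) (nat_lit 5) (nat_lit 337) (nat_lit 309) (nat_lit 134)) (XT.lf (nat_lit 0) (nat_lit 33438031977) (nat_lit 304) (nat_lit 56188457108) (nat_lit 76) (nat_lit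 11480436509) (nat_lit 45) (nat_lit 5) (nat_lit 49) (nat_lit 5) (nat_lit 46) (nat_lit 5) (nat_lit 338) (nat_lit 309) (nat_lit 133)))))) (XT.nd (nat_lit 390) (nat_lit 532) (nat_lit 0) (XT.nd (nat_lit 156) (nat_lit 228) (nat_lit 0) (XT.nd (nat_lit 78) (nat_lit 228) (nat_lit 0) (XT.lf (nat_lit 0) (nat_lit 50469887044) (nat_lit 304) (nat_lit 7591678259) (nat_lit 76) (nat_lit 46328235556) (nat_lit 45) (nat_lit 5) (nat_lit 49) (nat_lit 5) (nat_lit 46) (nat_lit 5) (nat_lit 339) (nat_lit 309) (nat_lit 132)) (XT.lf (nat_lit 0) (nat_lit 44870198515) (nat_lit 228) (nat_lit 24183064672) (nat_lit 304) (nat_lit 38748561115) (nat_lit 42) (nat_lit 5) (nat_lit 45) (nat_lit 5) (nat_lit 46) (nat_lit 5) (nat_lit 340) (nat_lit 309) (nat_lit 131))) (XT.nd (nat_lit 78) (nat_lit 228) (nat_lit 0) (XT.lf (nat_lit 0) (nat_lit 88873695562) (nat_lit 304) (nat_lit 11340093710) (nat_lit 76) (nat_lit 11155266069) (nat_lit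 42) (nat_lit 5) (nat_lit 46) (nat_lit 5) (nat_lit 43) (nat_lit 5) (nat_lit 341) (nat_lit 309) (nat_lit 130)) (XT.nd (nat_lit 78) (nat_lit 76) (nat_lit 0) (XT.lf (nat_lit 0) (nat_lit 43836783305) (nat_lit 152) (nat_lit 66928645113) (nat_lit 228) (nat_lit 4295206324) (nat_lit 40) (nat_lit 5) (nat_lit 42) (nat_lit 5) (nat_lit 43) (nat_lit 5) (nat_lit 342) (nat_lit 309) (nat_lit 129)) (XT.lf (nat_lit 0) (nat_lit 14535406973) (nat_lit 228) (nat_lit 16996280305) (nat_lit 76) (nat_lit 87383810210) (nat_lit 39) (nat_lit 5) (nat_lit 42) (nat_lit 5) (nat_lit 40) (nat_lit 5) (nat_lit 343) (nat_lit 309) (nat_lit 128))))) (XT.nd (nat_lit 156) (nat_lit 304) (nat_lit 0) (XT.nd (nat_lit 78) (nat_lit 0) (nat_lit 0) (XT.lf (nat_lit 0) (nat_lit 34905416776) (nat_lit 304) (nat_lit 81837347403) (nat_lit 76) (nat_lit 6179708535) (nat_lit 36) (nat_lit 5) (nat_lit 40) (nat_lit 5) (nat_lit 37) (nat_lit 5) (nat_lit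 344) (nat_lit 309) (nat_lit 127)) (XT.lf (nat_lit 0) (nat_lit 57102860887) (nat_lit 304) (nat_lit 24977177671) (nat_lit 76) (nat_lit 45009312075) (nat_lit 36) (nat_lit 5) (nat_lit 40) (nat_lit 5) (nat_lit 37) (nat_lit 5) (nat_lit 345) (nat_lit 309) (nat_lit 126))) (XT.nd (nat_lit 78) (nat_lit 152) (nat_lit 0) (XT.lf (nat_lit 0) (nat_lit 35873397036) (nat_lit 152) (nat_lit 45096352040) (nat_lit 228) (nat_lit 50466845369) (nat_lit 34) (nat_lit 5) (nat_lit 36) (nat_lit 5) (nat_lit 37) (nat_lit 5) (nat_lit 346) (nat_lit 309) (nat_lit 125)) (XT.nd (nat_lit 78) (nat_lit 152) (nat_lit 0) (XT.lf (nat_lit 0) (nat_lit 100632887957) (nat_lit 152) (nat_lit 5819594391) (nat_lit 228) (nat_lit 29527593629) (nat_lit 34) (nat_lit 5) (nat_lit 36) (nat_lit 5) (nat_lit 37) (nat_lit 5) (nat_lit 347) (nat_lit 309) (nat_lit 124)) (XT.lf (nat_lit 0) (nat_lit 28229369065) (nat_lit 152) (nat_lit 105973263844)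 (nat_lit 228) (nat_lit 6498435181) (nat_lit 32) (nat_lit 5) (nat_lit 34) (nat_lit 5) (nat_lit 35) (nat_lit 5) (nat_lit 348) (nat_lit 309) (nat_lit 123))))))) (XT.nd (nat_lit 780) (nat_lit 608) (nat_lit 0) (XT.nd (nat_lit 390) (nat_lit 304) (nat_lit 0) (XT.nd (nat_lit 156) (nat_lit 152) (nat_lit 0) (XT.nd (nat_lit 78) (nat_lit 152) (nat_lit 0) (XT.lf (nat_lit 0) (nat_lit 17819602514) (nat_lit 228) (nat_lit 49798287200) (nat_lit 76) (nat_lit 77991249084) (nat_lit 31) (nat_lit 5) (nat_lit 34) (nat_lit 5) (nat_lit 32) (nat_lit 5) (nat_lit 349) (nat_lit 309) (nat_lit 122)) (XT.lf (nat_lit 0) (nat_lit 16427324294) (nat_lit 152) (nat_lit 26963850205) (nat_lit 228) (nat_lit 107353311300) (nat_lit 29) (nat_lit 5) (nat_lit 31) (nat_lit 5) (nat_lit 32) (nat_lit 5) (nat_lit 350) (nat_lit 309) (nat_lit 121))) (XT.nd (nat_lit 78) (nat_lit 152) (nat_lit 0) (XT.lf (nat_lit 0) (nat_lit 71343539527) (nat_lit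 228) (nat_lit 68661358890) (nat_lit 76) (nat_lit 16076591450) (nat_lit 29) (nat_lit 5) (nat_lit 32) (nat_lit 5) (nat_lit 30) (nat_lit 5) (nat_lit 351) (nat_lit 309) (nat_lit 120)) (XT.nd (nat_lit 78) (nat_lit 152) (nat_lit 0) (XT.lf (nat_lit 0) (nat_lit 101135126868) (nat_lit 228) (nat_lit 165485193) (nat_lit 76) (nat_lit 60362652295) (nat_lit 29) (nat_lit 5) (nat_lit 32) (nat_lit 5) (nat_lit 30) (nat_lit 5) (nat_lit 352) (nat_lit 309) (nat_lit 119)) (XT.lf (nat_lit 0) (nat_lit 74127054956) (nat_lit 152) (nat_lit 59446163715) (nat_lit 228) (nat_lit 33893063043) (nat_lit 27) (nat_lit 5) (nat_lit 29) (nat_lit 5) (nat_lit 30) (nat_lit 5) (nat_lit 353) (nat_lit 309) (nat_lit 118))))) (XT.nd (nat_lit 156) (nat_lit 152) (nat_lit 0) (XT.nd (nat_lit 78) (nat_lit 152) (nat_lit 0) (XT.lf (nat_lit 0) (nat_lit 152139322043) (nat_lit 152) (nat_lit 15496298879) (nat_lit 228) (nat_lit 5923709108) (nat_lit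 27) (nat_lit 5) (nat_lit 29) (nat_lit 5) (nat_lit 30) (nat_lit 5) (nat_lit 354) (nat_lit 309) (nat_lit 117)) (XT.lf (nat_lit 0) (nat_lit 24058711080) (nat_lit 152) (nat_lit 124889148307) (nat_lit 76) (nat_lit 30922622476) (nat_lit 25) (nat_lit 5) (nat_lit 27) (nat_lit 5) (nat_lit 26) (nat_lit 5) (nat_lit 355) (nat_lit 309) (nat_lit 116))) (XT.nd (nat_lit 78) (nat_lit 152) (nat_lit 0) (XT.lf (nat_lit 0) (nat_lit 55963540068) (nat_lit 152) (nat_lit 50890384300) (nat_lit 76) (nat_lit 79607293588) (nat_lit 25) (nat_lit 5) (nat_lit 27) (nat_lit 5) (nat_lit 26) (nat_lit 5) (nat_lit 356) (nat_lit 309) (nat_lit 115)) (XT.nd (nat_lit 78) (nat_lit 0) (nat_lit 0) (XT.lf (nat_lit 0) (nat_lit 27694099292) (nat_lit 152) (nat_lit 62201532302) (nat_lit 228) (nat_lit 103464258518) (nat_lit 23) (nat_lit 5) (nat_lit 25) (nat_lit 5) (nat_lit 26) (nat_lit 5) (nat_lit 357) (nat_lit 309) (nat_lit 114)) (XT.lf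 (nat_lit 0) (nat_lit 111974013269) (nat_lit 152) (nat_lit 14411814248) (nat_lit 228) (nat_lit 74174593666) (nat_lit 23) (nat_lit 5) (nat_lit 25) (nat_lit 5) (nat_lit 26) (nat_lit 5) (nat_lit 358) (nat_lit 309) (nat_lit 113)))))) (XT.nd (nat_lit 390) (nat_lit 304) (nat_lit 0) (XT.nd (nat_lit 156) (nat_lit 228) (nat_lit 0) (XT.nd (nat_lit 78) (nat_lit 76) (nat_lit 0) (XT.lf (nat_lit 0) (nat_lit 165258622236) (nat_lit 228) (nat_lit 8212063393) (nat_lit 76) (nat_lit 34622389014) (nat_lit 23) (nat_lit 5) (nat_lit 26) (nat_lit 5) (nat_lit 24) (nat_lit 4) (nat_lit 359) (nat_lit 309) (nat_lit 112)) (XT.lf (nat_lit 0) (nat_lit 78455246145) (nat_lit 76) (nat_lit 129080652066) (nat_lit 152) (nat_lit 8393420759) (nat_lit 22) (nat_lit 5) (nat_lit 23) (nat_lit 5) (nat_lit 24) (nat_lit 4) (nat_lit 360) (nat_lit 309) (nat_lit 111))) (XT.nd (nat_lit 78) (nat_lit 152) (nat_lit 0) (XT.lf (nat_lit 0) (nat_lit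 27021892563) (nat_lit 152) (nat_lit 54845791293) (nat_lit 76) (nat_lit 142260962155) (nat_lit 21) (nat_lit 5) (nat_lit 23) (nat_lit 5) (nat_lit 22) (nat_lit 5) (nat_lit 361) (nat_lit 309) (nat_lit 110)) (XT.nd (nat_lit 78) (nat_lit 0) (nat_lit 0) (XT.lf (nat_lit 0) (nat_lit 32826431570) (nat_lit 152) (nat_lit 31611671482) (nat_lit 228) (nat_lit 168267346459) (nat_lit 19) (nat_lit 5) (nat_lit 21) (nat_lit 5) (nat_lit 22) (nat_lit 5) (nat_lit 362) (nat_lit 309) (nat_lit 109)) (XT.lf (nat_lit 0) (nat_lit 104999209264) (nat_lit 228) (nat_lit 115224342600) (nat_lit 76) (nat_lit 21423837285) (nat_lit 19) (nat_lit 5) (nat_lit 22) (nat_lit 5) (nat_lit 20) (nat_lit 4) (nat_lit 363) (nat_lit 309) (nat_lit 108))))) (XT.nd (nat_lit 156) (nat_lit 228) (nat_lit 0) (XT.nd (nat_lit 78) (nat_lit 76) (nat_lit 0) (XT.lf (nat_lit 0) (nat_lit 148106305410) (nat_lit 228) (nat_lit 26855662246) (nat_lit 76)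 (nat_lit 76048561595) (nat_lit 19) (nat_lit 5) (nat_lit 22) (nat_lit 5) (nat_lit 20) (nat_lit 4) (nat_lit 364) (nat_lit 309) (nat_lit 107)) (XT.lf (nat_lit 0) (nat_lit 68110947195) (nat_lit 76) (nat_lit 126320936221) (nat_lit 152) (nat_lit 66356786790) (nat_lit 18) (nat_lit 5) (nat_lit 19) (nat_lit 5) (nat_lit 20) (nat_lit 4) (nat_lit 365) (nat_lit 309) (nat_lit 106))) (XT.nd (nat_lit 78) (nat_lit 228) (nat_lit 0) (XT.lf (nat_lit 0) (nat_lit 168757782210) (nat_lit 76) (nat_lit 74770501780) (nat_lit 152) (nat_lit 27504707228) (nat_lit 18) (nat_lit 5) (nat_lit 19) (nat_lit 5) (nat_lit 20) (nat_lit 4) (nat_lit 366) (nat_lit 309) (nat_lit 105)) (XT.nd (nat_lit 78) (nat_lit 152) (nat_lit 0) (XT.lf (nat_lit 0) (nat_lit 12864352568) (nat_lit 152) (nat_lit 7560522236) (nat_lit 76) (nat_lit 261354292040) (nat_lit 17) (nat_lit 5) (nat_lit 19) (nat_lit 5) (nat_lit 18) (nat_lit 5) (nat_lit 367)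 (nat_lit 309) (nat_lit 104)) (XT.lf (nat_lit 0) (nat_lit 56405681841) (nat_lit 228) (nat_lit 199108030101) (nat_lit 76) (nat_lit 37422486880) (nat_lit 15) (nat_lit 5) (nat_lit 18) (nat_lit 5) (nat_lit 16) (nat_lit 4) (nat_lit 368) (nat_lit 309) (nat_lit 103))))))))
noncomputable def xc227 : XT := (XT.nd (nat_lit 37362) (nat_lit 0) (nat_lit 1520) (XT.nd (nat_lit 36582) (nat_lit 0) (nat_lit 4104) (XT.nd (nat_lit 36192) (nat_lit 0) (nat_lit 5776) (XT.nd (nat_lit 156) (nat_lit 76) (nat_lit 0) (XT.nd (nat_lit 78) (nat_lit 0) (nat_lit 0) (XT.lf (nat_lit 0) (nat_lit 102588804910) (nat_lit 228) (nat_lit 104433274588) (nat_lit 76) (nat_lit 97605766695) (nat_lit 15) (nat_lit 5) (nat_lit 18) (nat_lit 5) (nat_lit 16) (nat_lit 4) (nat_lit 369) (nat_lit 309) (nat_lit 102)) (XT.lf (nat_lit 0) (nat_lit 151080849068) (nat_lit 228) (nat_lit 5025200043) (nat_lit 76) (nat_lit 160798038725) (nat_lit 15)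 (nat_lit 5) (nat_lit 18) (nat_lit 5) (nat_lit 16) (nat_lit 4) (nat_lit 370) (nat_lit 309) (nat_lit 101))) (XT.nd (nat_lit 35880) (nat_lit 0) (nat_lit 5776) (XT.lf (nat_lit 0) (nat_lit 102637934309) (nat_lit 76) (nat_lit 100961803052) (nat_lit 152) (nat_lit 126114292248) (nat_lit 14) (nat_lit 5) (nat_lit 15) (nat_lit 5) (nat_lit 16) (nat_lit 4) (nat_lit 371) (nat_lit 309) (nat_lit 100)) (XT.nd (nat_lit 78) (nat_lit 0) (nat_lit 0) (XT.lf (nat_lit 0) (nat_lit 9691319715) (nat_lit 0) (nat_lit 9691319715) (nat_lit 684) (nat_lit 4067063111) (nat_lit 90) (nat_lit 5) (nat_lit 90) (nat_lit 3) (nat_lit 99) (nat_lit 3) (nat_lit 310) (nat_lit 310) (nat_lit 160)) (XT.lf (nat_lit 0) (nat_lit 39794128498) (nat_lit 684) (nat_lit 6298908953) (nat_lit 760) (nat_lit 1975810688) (nat_lit 90) (nat_lit 5) (nat_lit 99) (nat_lit 3) (nat_lit 100) (nat_lit 5) (nat_lit 311) (nat_lit 310) (nat_lit 159))))) (XT.nd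 (nat_lit 156) (nat_lit 0) (nat_lit 76) (XT.nd (nat_lit 78) (nat_lit 0) (nat_lit 0) (XT.lf (nat_lit 76) (nat_lit 16178920885) (nat_lit 0) (nat_lit 25264077401) (nat_lit 760) (nat_lit 7825339775) (nat_lit 91) (nat_lit 5) (nat_lit 90) (nat_lit 5) (nat_lit 100) (nat_lit 5) (nat_lit 312) (nat_lit 310) (nat_lit 158)) (XT.lf (nat_lit 76) (nat_lit 39998344192) (nat_lit 0) (nat_lit 3280942526) (nat_lit 760) (nat_lit 7243270430) (nat_lit 91) (nat_lit 5) (nat_lit 90) (nat_lit 5) (nat_lit 100) (nat_lit 5) (nat_lit 313) (nat_lit 310) (nat_lit 157))) (XT.nd (nat_lit 78) (nat_lit 0) (nat_lit 0) (XT.lf (nat_lit 76) (nat_lit 13284245698) (nat_lit 0) (nat_lit 32438094440) (nat_lit 760) (nat_lit 6091402786) (nat_lit 92) (nat_lit 5) (nat_lit 91) (nat_lit 5) (nat_lit 101) (nat_lit 5) (nat_lit 314) (nat_lit 310) (nat_lit 156)) (XT.nd (nat_lit 78) (nat_lit 0) (nat_lit 76) (XT.lf (nat_lit 76) (nat_lit 38591926411)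 (nat_lit 0) (nat_lit 9925223354) (nat_lit 760) (nat_lit 4640861152) (nat_lit 92) (nat_lit 5) (nat_lit 91) (nat_lit 5) (nat_lit 101) (nat_lit 5) (nat_lit 315) (nat_lit 310) (nat_lit 155)) (XT.lf (nat_lit 76) (nat_lit 10723567296) (nat_lit 0) (nat_lit 41108194529) (nat_lit 760) (nat_lit 2718730347) (nat_lit 93) (nat_lit 5) (nat_lit 92) (nat_lit 5) (nat_lit 102) (nat_lit 5) (nat_lit 316) (nat_lit 310) (nat_lit 154)))))) (XT.nd (nat_lit 390) (nat_lit 1140) (nat_lit 0) (XT.nd (nat_lit 156) (nat_lit 0) (nat_lit 0) (XT.nd (nat_lit 78) (nat_lit 684) (nat_lit 0) (XT.lf (nat_lit 76) (nat_lit 37614281956) (nat_lit 0) (nat_lit 18103178252) (nat_lit 760) (nat_lit 274872314) (nat_lit 93) (nat_lit 5) (nat_lit 92) (nat_lit 5) (nat_lit 102) (nat_lit 5) (nat_lit 317) (nat_lit 310) (nat_lit 153)) (XT.lf (nat_lit 0) (nat_lit 2447730295) (nat_lit 760) (nat_lit 49014013198) (nat_lit 836) (nat_lit 6031241182)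 (nat_lit 83) (nat_lit 5) (nat_lit 93) (nat_lit 5) (nat_lit 94) (nat_lit 5) (nat_lit 318) (nat_lit 310) (nat_lit 152))) (XT.nd (nat_lit 78) (nat_lit 0) (nat_lit 0) (XT.lf (nat_lit 0) (nat_lit 5909026957) (nat_lit 760) (nat_lit 22043688240) (nat_lit 836) (nat_lit 31085141295) (nat_lit 83) (nat_lit 5) (nat_lit 93) (nat_lit 5) (nat_lit 94) (nat_lit 5) (nat_lit 319) (nat_lit 310) (nat_lit 151)) (XT.nd (nat_lit 78) (nat_lit 0) (nat_lit 76) (XT.lf (nat_lit 76) (nat_lit 6481567339) (nat_lit 0) (nat_lit 3161763714) (nat_lit 836) (nat_lit 51011646036) (nat_lit 84) (nat_lit 5) (nat_lit 83) (nat_lit 5) (nat_lit 94) (nat_lit 5) (nat_lit 320) (nat_lit 310) (nat_lit 150)) (XT.lf (nat_lit 0) (nat_lit 14299629808) (nat_lit 760) (nat_lit 25500145137) (nat_lit 76) (nat_lit 22516417007) (nat_lit 84) (nat_lit 5) (nat_lit 94) (nat_lit 5) (nat_lit 85) (nat_lit 5) (nat_lit 321) (nat_lit 310) (nat_lit 149)))))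 (XT.nd (nat_lit 156) (nat_lit 684) (nat_lit 0) (XT.nd (nat_lit 78) (nat_lit 0) (nat_lit 0) (XT.lf (nat_lit 0) (nat_lit 4704490084) (nat_lit 532) (nat_lit 14608387186) (nat_lit 608) (nat_lit 44741385701) (nat_lit 77) (nat_lit 5) (nat_lit 84) (nat_lit 5) (nat_lit 85) (nat_lit 5) (nat_lit 322) (nat_lit 310) (nat_lit 148)) (XT.lf (nat_lit 0) (nat_lit 25199511318) (nat_lit 608) (nat_lit 28746031258) (nat_lit 76) (nat_lit 11902560758) (nat_lit 77) (nat_lit 5) (nat_lit 85) (nat_lit 5) (nat_lit 78) (nat_lit 5) (nat_lit 323) (nat_lit 310) (nat_lit 147))) (XT.nd (nat_lit 78) (nat_lit 304) (nat_lit 0) (XT.lf (nat_lit 0) (nat_lit 3251458116) (nat_lit 380) (nat_lit 28418209446) (nat_lit 456) (nat_lit 36047510536) (nat_lit 72) (nat_lit 5) (nat_lit 77) (nat_lit 5) (nat_lit 78) (nat_lit 5) (nat_lit 324) (nat_lit 310) (nat_lit 146)) (XT.nd (nat_lit 78) (nat_lit 304) (nat_lit 0) (XT.lf (nat_lit 0) (nat_lit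 37845811233) (nat_lit 380) (nat_lit 1103327226) (nat_lit 456) (nat_lit 30706279614) (nat_lit 72) (nat_lit 5) (nat_lit 77) (nat_lit 5) (nat_lit 78) (nat_lit 5) (nat_lit 325) (nat_lit 310) (nat_lit 145)) (XT.lf (nat_lit 0) (nat_lit 2115450078) (nat_lit 304) (nat_lit 44939747566) (nat_lit 380) (nat_lit 24612243398) (nat_lit 68) (nat_lit 5) (nat_lit 72) (nat_lit 5) (nat_lit 73) (nat_lit 5) (nat_lit 326) (nat_lit 310) (nat_lit 144))))))) (XT.nd (nat_lit 780) (nat_lit 1368) (nat_lit 0) (XT.nd (nat_lit 390) (nat_lit 532) (nat_lit 0) (XT.nd (nat_lit 156) (nat_lit 380) (nat_lit 0) (XT.nd (nat_lit 78) (nat_lit 304) (nat_lit 0) (XT.lf (nat_lit 0) (nat_lit 38821437916) (nat_lit 304) (nat_lit 17300687044) (nat_lit 380) (nat_lit 17630163588) (nat_lit 68) (nat_lit 5) (nat_lit 72) (nat_lit 5) (nat_lit 73) (nat_lit 5) (nat_lit 327) (nat_lit 310) (nat_lit 143)) (XT.lf (nat_lit 0) (nat_lit 1278279974)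 (nat_lit 304) (nat_lit 64566165881) (nat_lit 380) (nat_lit 10086831782) (nat_lit 64) (nat_lit 5) (nat_lit 68) (nat_lit 5) (nat_lit 69) (nat_lit 5) (nat_lit 328) (nat_lit 310) (nat_lit 142))) (XT.nd (nat_lit 78) (nat_lit 380) (nat_lit 0) (XT.lf (nat_lit 0) (nat_lit 40216615331) (nat_lit 304) (nat_lit 36706011689) (nat_lit 380) (nat_lit 1253103445) (nat_lit 64) (nat_lit 5) (nat_lit 68) (nat_lit 5) (nat_lit 69) (nat_lit 5) (nat_lit 329) (nat_lit 310) (nat_lit 141)) (XT.nd (nat_lit 78) (nat_lit 0) (nat_lit 0) (XT.lf (nat_lit 0) (nat_lit 457907379) (nat_lit 304) (nat_lit 7313945579) (nat_lit 380) (nat_lit 72753976507) (nat_lit 59) (nat_lit 5) (nat_lit 63) (nat_lit 5) (nat_lit 64) (nat_lit 5) (nat_lit 330) (nat_lit 310) (nat_lit 140)) (XT.lf (nat_lit 0) (nat_lit 18226165219) (nat_lit 380) (nat_lit 41247366134) (nat_lit 76) (nat_lit 23467865192) (nat_lit 59) (nat_lit 5) (nat_lit 64) (nat_lit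 5) (nat_lit 60) (nat_lit 5) (nat_lit 331) (nat_lit 310) (nat_lit 139))))) (XT.nd (nat_lit 156) (nat_lit 228) (nat_lit 0) (XT.nd (nat_lit 78) (nat_lit 304) (nat_lit 0) (XT.lf (nat_lit 0) (nat_lit 29322312852) (nat_lit 380) (nat_lit 606620309) (nat_lit 76) (nat_lit 55542854060) (nat_lit 59) (nat_lit 5) (nat_lit 64) (nat_lit 5) (nat_lit 60) (nat_lit 5) (nat_lit 332) (nat_lit 310) (nat_lit 138)) (XT.lf (nat_lit 0) (nat_lit 41679179494) (nat_lit 380) (nat_lit 44666857449) (nat_lit 76) (nat_lit 1747366078) (nat_lit 55) (nat_lit 5) (nat_lit 60) (nat_lit 5) (nat_lit 56) (nat_lit 5) (nat_lit 333) (nat_lit 310) (nat_lit 137))) (XT.nd (nat_lit 78) (nat_lit 228) (nat_lit 0) (XT.lf (nat_lit 0) (nat_lit 55154245016) (nat_lit 380) (nat_lit 1654875305) (nat_lit 76) (nat_lit 34011962628) (nat_lit 55) (nat_lit 5) (nat_lit 60) (nat_lit 5) (nat_lit 56) (nat_lit 5) (nat_lit 334) (nat_lit 310) (nat_lit 136))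 (XT.nd (nat_lit 78) (nat_lit 0) (nat_lit 0) (XT.lf (nat_lit 0) (nat_lit 44945368978) (nat_lit 228) (nat_lit 25058727980) (nat_lit 304) (nat_lit 23645999320) (nat_lit 52) (nat_lit 5) (nat_lit 55) (nat_lit 5) (nat_lit 56) (nat_lit 5) (nat_lit 335) (nat_lit 310) (nat_lit 135)) (XT.lf (nat_lit 0) (nat_lit 85753514912) (nat_lit 304) (nat_lit 2816687758) (nat_lit 76) (nat_lit 8042504945) (nat_lit 52) (nat_lit 5) (nat_lit 56) (nat_lit 5) (nat_lit 53) (nat_lit 5) (nat_lit 336) (nat_lit 310) (nat_lit 134)))))) (XT.nd (nat_lit 390) (nat_lit 608) (nat_lit 0) (XT.nd (nat_lit 156) (nat_lit 456) (nat_lit 0) (XT.nd (nat_lit 78) (nat_lit 0) (nat_lit 0) (XT.lf (nat_lit 0) (nat_lit 3638628739) (nat_lit 304) (nat_lit 53284880861) (nat_lit 76) (nat_lit 42740245314) (nat_lit 48) (nat_lit 5) (nat_lit 52) (nat_lit 5) (nat_lit 49) (nat_lit 5) (nat_lit 337) (nat_lit 310) (nat_lit 133)) (XT.lf (nat_lit 0) (nat_lit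 18544250248) (nat_lit 304) (nat_lit 4912621125) (nat_lit 76) (nat_lit 79399190649) (nat_lit 48) (nat_lit 5) (nat_lit 52) (nat_lit 5) (nat_lit 49) (nat_lit 5) (nat_lit 338) (nat_lit 310) (nat_lit 132))) (XT.nd (nat_lit 78) (nat_lit 228) (nat_lit 0) (XT.lf (nat_lit 0) (nat_lit 35129040007) (nat_lit 304) (nat_lit 58971196297) (nat_lit 76) (nat_lit 12061054654) (nat_lit 45) (nat_lit 5) (nat_lit 49) (nat_lit 5) (nat_lit 46) (nat_lit 5) (nat_lit 339) (nat_lit 310) (nat_lit 131)) (XT.nd (nat_lit 78) (nat_lit 228) (nat_lit 0) (XT.lf (nat_lit 0) (nat_lit 53011577997) (nat_lit 304) (nat_lit 7945849155) (nat_lit 76) (nat_lit 48650929543) (nat_lit 45) (nat_lit 5) (nat_lit 49) (nat_lit 5) (nat_lit 46) (nat_lit 5) (nat_lit 340) (nat_lit 310) (nat_lit 130)) (XT.lf (nat_lit 0) (nat_lit 47138711570) (nat_lit 228) (nat_lit 25384935242) (nat_lit 304) (nat_lit 40667359467) (nat_lit 42) (nat_lit 5) (nat_lit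 45) (nat_lit 5) (nat_lit 46) (nat_lit 5) (nat_lit 341) (nat_lit 310) (nat_lit 129))))) (XT.nd (nat_lit 234) (nat_lit 380) (nat_lit 0) (XT.nd (nat_lit 78) (nat_lit 228) (nat_lit 0) (XT.lf (nat_lit 0) (nat_lit 93334365261) (nat_lit 304) (nat_lit 11882528239) (nat_lit 76) (nat_lit 11719743251) (nat_lit 42) (nat_lit 5) (nat_lit 46) (nat_lit 5) (nat_lit 43) (nat_lit 5) (nat_lit 342) (nat_lit 310) (nat_lit 128)) (XT.nd (nat_lit 78) (nat_lit 76) (nat_lit 0) (XT.lf (nat_lit 0) (nat_lit 46052796334) (nat_lit 152) (nat_lit 70267457043) (nat_lit 228) (nat_lit 4492564368) (nat_lit 40) (nat_lit 5) (nat_lit 42) (nat_lit 5) (nat_lit 43) (nat_lit 5) (nat_lit 343) (nat_lit 310) (nat_lit 127)) (XT.lf (nat_lit 0) (nat_lit 15278220455) (nat_lit 228) (nat_lit 17822522035) (nat_lit 76) (nat_lit 91759708616) (nat_lit 39) (nat_lit 5) (nat_lit 42) (nat_lit 5) (nat_lit 40) (nat_lit 5) (nat_lit 344) (nat_lit 310)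 (nat_lit 126)))) (XT.nd (nat_lit 78) (nat_lit 152) (nat_lit 0) (XT.lf (nat_lit 0) (nat_lit 36666446772) (nat_lit 304) (nat_lit 85905340323) (nat_lit 76) (nat_lit 6496003107) (nat_lit 36) (nat_lit 5) (nat_lit 40) (nat_lit 5) (nat_lit 37) (nat_lit 5) (nat_lit 345) (nat_lit 310) (nat_lit 125)) (XT.nd (nat_lit 78) (nat_lit 152) (nat_lit 0) (XT.lf (nat_lit 0) (nat_lit 59973012653) (nat_lit 304) (nat_lit 26203298982) (nat_lit 76) (nat_lit 47266738769) (nat_lit 36) (nat_lit 5) (nat_lit 40) (nat_lit 5) (nat_lit 37) (nat_lit 5) (nat_lit 346) (nat_lit 310) (nat_lit 124)) (XT.lf (nat_lit 0) (nat_lit 37689437725) (nat_lit 152) (nat_lit 47343442097) (nat_lit 228) (nat_lit 52974795682) (nat_lit 34) (nat_lit 5) (nat_lit 36) (nat_lit 5) (nat_lit 37) (nat_lit 5) (nat_lit 347) (nat_lit 310) (nat_lit 123))))))))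
noncomputable def xc228 : XT := (XT.nd (nat_lit 1560) (nat_lit 228) (nat_lit 0) (XT.nd (nat_lit 780) (nat_lit 532) (nat_lit 0) (XT.nd (nat_lit 390) (nat_lit 304) (nat_lit 0) (XT.nd (nat_lit 156) (nat_lit 228) (nat_lit 0) (XT.nd (nat_lit 78) (nat_lit 152) (nat_lit 0) (XT.lf (nat_lit 0) (nat_lit 105685837913) (nat_lit 152) (nat_lit 6103214544) (nat_lit 228) (nat_lit 30989314306) (nat_lit 34) (nat_lit 5) (nat_lit 36) (nat_lit 5) (nat_lit 37) (nat_lit 5) (nat_lit 348) (nat_lit 310) (nat_lit 122)) (XT.lf (nat_lit 0) (nat_lit 29662387902) (nat_lit 152) (nat_lit 111264104445) (nat_lit 228) (nat_lit 6808927795) (nat_lit 32) (nat_lit 5) (nat_lit 34) (nat_lit 5) (nat_lit 35) (nat_lit 5) (nat_lit 349) (nat_lit 310) (nat_lit 121))) (XT.nd (nat_lit 78) (nat_lit 152) (nat_lit 0) (XT.lf (nat_lit 0) (nat_lit 18723884852) (nat_lit 228) (nat_lit 52267223981) (nat_lit 76) (nat_lit 81897808222) (nat_lit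 31) (nat_lit 5) (nat_lit 34) (nat_lit 5) (nat_lit 32) (nat_lit 5) (nat_lit 350) (nat_lit 310) (nat_lit 120)) (XT.nd (nat_lit 78) (nat_lit 0) (nat_lit 0) (XT.lf (nat_lit 0) (nat_lit 17269329739) (nat_lit 152) (nat_lit 28304394494) (nat_lit 228) (nat_lit 112707323378) (nat_lit 29) (nat_lit 5) (nat_lit 31) (nat_lit 5) (nat_lit 32) (nat_lit 5) (nat_lit 351) (nat_lit 310) (nat_lit 119)) (XT.lf (nat_lit 0) (nat_lit 74923202618) (nat_lit 228) (nat_lit 72074253216) (nat_lit 76) (nat_lit 16887471909) (nat_lit 29) (nat_lit 5) (nat_lit 32) (nat_lit 5) (nat_lit 30) (nat_lit 5) (nat_lit 352) (nat_lit 310) (nat_lit 118))))) (XT.nd (nat_lit 156) (nat_lit 152) (nat_lit 0) (XT.nd (nat_lit 78) (nat_lit 152) (nat_lit 0) (XT.lf (nat_lit 0) (nat_lit 106203774748) (nat_lit 228) (nat_lit 154546483) (nat_lit 76) (nat_lit 63387500040) (nat_lit 29) (nat_lit 5) (nat_lit 32) (nat_lit 5) (nat_lit 30) (nat_lit 5)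 (nat_lit 353) (nat_lit 310) (nat_lit 117)) (XT.lf (nat_lit 0) (nat_lit 77852310787) (nat_lit 152) (nat_lit 62411189222) (nat_lit 228) (nat_lit 35575503605) (nat_lit 27) (nat_lit 5) (nat_lit 29) (nat_lit 5) (nat_lit 30) (nat_lit 5) (nat_lit 354) (nat_lit 310) (nat_lit 116))) (XT.nd (nat_lit 78) (nat_lit 152) (nat_lit 0) (XT.lf (nat_lit 0) (nat_lit 159764291081) (nat_lit 152) (nat_lit 16264177938) (nat_lit 228) (nat_lit 6208263525) (nat_lit 27) (nat_lit 5) (nat_lit 29) (nat_lit 5) (nat_lit 30) (nat_lit 5) (nat_lit 355) (nat_lit 310) (nat_lit 115)) (XT.nd (nat_lit 78) (nat_lit 0) (nat_lit 0) (XT.lf (nat_lit 0) (nat_lit 25272762289) (nat_lit 152) (nat_lit 131115067627) (nat_lit 76) (nat_lit 32475610611) (nat_lit 25) (nat_lit 5) (nat_lit 27) (nat_lit 5) (nat_lit 26) (nat_lit 5) (nat_lit 356) (nat_lit 310) (nat_lit 114)) (XT.lf (nat_lit 0) (nat_lit 58772303409) (nat_lit 152) (nat_lit 53417248186)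 (nat_lit 76) (nat_lit 83594188755) (nat_lit 25) (nat_lit 5) (nat_lit 27) (nat_lit 5) (nat_lit 26) (nat_lit 5) (nat_lit 357) (nat_lit 310) (nat_lit 113)))))) (XT.nd (nat_lit 390) (nat_lit 228) (nat_lit 0) (XT.nd (nat_lit 156) (nat_lit 152) (nat_lit 0) (XT.nd (nat_lit 78) (nat_lit 0) (nat_lit 0) (XT.lf (nat_lit 0) (nat_lit 29096174822) (nat_lit 152) (nat_lit 65304591781) (nat_lit 228) (nat_lit 108626591593) (nat_lit 23) (nat_lit 5) (nat_lit 25) (nat_lit 5) (nat_lit 26) (nat_lit 5) (nat_lit 358) (nat_lit 310) (nat_lit 112)) (XT.lf (nat_lit 0) (nat_lit 117589257328) (nat_lit 152) (nat_lit 15125721974) (nat_lit 228) (nat_lit 77872961587) (nat_lit 23) (nat_lit 5) (nat_lit 25) (nat_lit 5) (nat_lit 26) (nat_lit 5) (nat_lit 359) (nat_lit 310) (nat_lit 111))) (XT.nd (nat_lit 78) (nat_lit 152) (nat_lit 0) (XT.lf (nat_lit 0) (nat_lit 173531043585) (nat_lit 228) (nat_lit 8606532840) (nat_lit 76)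 (nat_lit 36359669502) (nat_lit 23) (nat_lit 5) (nat_lit 26) (nat_lit 5) (nat_lit 24) (nat_lit 4) (nat_lit 360) (nat_lit 310) (nat_lit 110)) (XT.nd (nat_lit 78) (nat_lit 76) (nat_lit 0) (XT.lf (nat_lit 0) (nat_lit 82393881954) (nat_lit 76) (nat_lit 135528097319) (nat_lit 152) (nat_lit 8803333780) (nat_lit 22) (nat_lit 5) (nat_lit 23) (nat_lit 5) (nat_lit 24) (nat_lit 4) (nat_lit 361) (nat_lit 310) (nat_lit 109)) (XT.lf (nat_lit 0) (nat_lit 28381983095) (nat_lit 152) (nat_lit 57572658937) (nat_lit 76) (nat_lit 149379979628) (nat_lit 21) (nat_lit 5) (nat_lit 23) (nat_lit 5) (nat_lit 22) (nat_lit 5) (nat_lit 362) (nat_lit 310) (nat_lit 108))))) (XT.nd (nat_lit 156) (nat_lit 76) (nat_lit 0) (XT.nd (nat_lit 78) (nat_lit 0) (nat_lit 0) (XT.lf (nat_lit 0) (nat_lit 34482926329) (nat_lit 152) (nat_lit 33185886300) (nat_lit 228) (nat_lit 176671462608) (nat_lit 19) (nat_lit 5) (nat_lit 21) (nat_lit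 5) (nat_lit 22) (nat_lit 5) (nat_lit 363) (nat_lit 310) (nat_lit 107)) (XT.lf (nat_lit 0) (nat_lit 110257649592) (nat_lit 228) (nat_lit 120970778305) (nat_lit 76) (nat_lit 22500900498) (nat_lit 19) (nat_lit 5) (nat_lit 22) (nat_lit 5) (nat_lit 20) (nat_lit 4) (nat_lit 364) (nat_lit 310) (nat_lit 106))) (XT.nd (nat_lit 78) (nat_lit 76) (nat_lit 0) (XT.lf (nat_lit 0) (nat_lit 155519696742) (nat_lit 228) (nat_lit 28184367810) (nat_lit 76) (nat_lit 79856581435) (nat_lit 19) (nat_lit 5) (nat_lit 22) (nat_lit 5) (nat_lit 20) (nat_lit 4) (nat_lit 365) (nat_lit 310) (nat_lit 105)) (XT.nd (nat_lit 78) (nat_lit 0) (nat_lit 0) (XT.lf (nat_lit 0) (nat_lit 71530345045) (nat_lit 76) (nat_lit 132631040273) (nat_lit 152) (nat_lit 69666317371) (nat_lit 18) (nat_lit 5) (nat_lit 19) (nat_lit 5) (nat_lit 20) (nat_lit 4) (nat_lit 366) (nat_lit 310) (nat_lit 104)) (XT.lf (nat_lit 0) (nat_lit 177208862264)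 (nat_lit 76) (nat_lit 78503367099) (nat_lit 152) (nat_lit 28872029486) (nat_lit 18) (nat_lit 5) (nat_lit 19) (nat_lit 5) (nat_lit 20) (nat_lit 4) (nat_lit 367) (nat_lit 310) (nat_lit 103))))))) (XT.nd (nat_lit 36660) (nat_lit 0) (nat_lit 4332) (XT.nd (nat_lit 36270) (nat_lit 0) (nat_lit 5700) (XT.nd (nat_lit 156) (nat_lit 0) (nat_lit 0) (XT.nd (nat_lit 78) (nat_lit 152) (nat_lit 0) (XT.lf (nat_lit 0) (nat_lit 13514865277) (nat_lit 152) (nat_lit 7925739464) (nat_lit 76) (nat_lit 274427150818) (nat_lit 17) (nat_lit 5) (nat_lit 19) (nat_lit 5) (nat_lit 18) (nat_lit 5) (nat_lit 368) (nat_lit 310) (nat_lit 102)) (XT.lf (nat_lit 0) (nat_lit 59233195598) (nat_lit 228) (nat_lit 209050552667) (nat_lit 76) (nat_lit 39298894375) (nat_lit 15) (nat_lit 5) (nat_lit 18) (nat_lit 5) (nat_lit 16) (nat_lit 4) (nat_lit 369) (nat_lit 310) (nat_lit 101))) (XT.nd (nat_lit 78) (nat_lit 0) (nat_lit 0) (XT.lf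 (nat_lit 0) (nat_lit 107725130551) (nat_lit 228) (nat_lit 109642672661) (nat_lit 76) (nat_lit 102491086602) (nat_lit 15) (nat_lit 5) (nat_lit 18) (nat_lit 5) (nat_lit 16) (nat_lit 4) (nat_lit 370) (nat_lit 310) (nat_lit 100)) (XT.nd (nat_lit 35958) (nat_lit 0) (nat_lit 5700) (XT.lf (nat_lit 0) (nat_lit 158641449041) (nat_lit 228) (nat_lit 5264778467) (nat_lit 76) (nat_lit 168842732634) (nat_lit 15) (nat_lit 5) (nat_lit 18) (nat_lit 5) (nat_lit 16) (nat_lit 4) (nat_lit 371) (nat_lit 310) (nat_lit 99)) (XT.lf (nat_lit 0) (nat_lit 10189593170) (nat_lit 0) (nat_lit 10189593170) (nat_lit 684) (nat_lit 4241575270) (nat_lit 90) (nat_lit 5) (nat_lit 90) (nat_lit 3) (nat_lit 99) (nat_lit 3) (nat_lit 311) (nat_lit 311) (nat_lit 158))))) (XT.nd (nat_lit 156) (nat_lit 0) (nat_lit 0) (XT.nd (nat_lit 78) (nat_lit 0) (nat_lit 0) (XT.lf (nat_lit 0) (nat_lit 41835646213) (nat_lit 684) (nat_lit 6584620994)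 (nat_lit 760) (nat_lit 2049327422) (nat_lit 90) (nat_lit 5) (nat_lit 99) (nat_lit 3) (nat_lit 100) (nat_lit 5) (nat_lit 312) (nat_lit 311) (nat_lit 157)) (XT.lf (nat_lit 76) (nat_lit 17016628829) (nat_lit 0) (nat_lit 26548312511) (nat_lit 760) (nat_lit 8164223632) (nat_lit 91) (nat_lit 5) (nat_lit 90) (nat_lit 5) (nat_lit 100) (nat_lit 5) (nat_lit 313) (nat_lit 311) (nat_lit 156))) (XT.nd (nat_lit 78) (nat_lit 0) (nat_lit 76) (XT.lf (nat_lit 76) (nat_lit 42025653687) (nat_lit 0) (nat_lit 3465019406) (nat_lit 760) (nat_lit 7555545254) (nat_lit 91) (nat_lit 5) (nat_lit 90) (nat_lit 5) (nat_lit 100) (nat_lit 5) (nat_lit 314) (nat_lit 311) (nat_lit 155)) (XT.nd (nat_lit 78) (nat_lit 0) (nat_lit 0) (XT.lf (nat_lit 76) (nat_lit 13978143008) (nat_lit 0) (nat_lit 34075643620) (nat_lit 760) (nat_lit 6348285961) (nat_lit 92) (nat_lit 5) (nat_lit 91) (nat_lit 5) (nat_lit 101) (nat_lit 5) (nat_lit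 315) (nat_lit 311) (nat_lit 154)) (XT.lf (nat_lit 76) (nat_lit 40549794185) (nat_lit 0) (nat_lit 10436384005) (nat_lit 760) (nat_lit 4827488053) (nat_lit 92) (nat_lit 5) (nat_lit 91) (nat_lit 5) (nat_lit 101) (nat_lit 5) (nat_lit 316) (nat_lit 311) (nat_lit 153)))))) (XT.nd (nat_lit 390) (nat_lit 836) (nat_lit 0) (XT.nd (nat_lit 156) (nat_lit 684) (nat_lit 0) (XT.nd (nat_lit 78) (nat_lit 0) (nat_lit 0) (XT.lf (nat_lit 76) (nat_lit 11289999000) (nat_lit 0) (nat_lit 43174716888) (nat_lit 760) (nat_lit 2811150048) (nat_lit 93) (nat_lit 5) (nat_lit 92) (nat_lit 5) (nat_lit 102) (nat_lit 5) (nat_lit 317) (nat_lit 311) (nat_lit 152)) (XT.lf (nat_lit 76) (nat_lit 39523808758) (nat_lit 0) (nat_lit 19018920625) (nat_lit 760) (nat_lit 247171343) (nat_lit 93) (nat_lit 5) (nat_lit 92) (nat_lit 5) (nat_lit 102) (nat_lit 5) (nat_lit 318) (nat_lit 311) (nat_lit 151))) (XT.nd (nat_lit 78) (nat_lit 0)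 (nat_lit 0) (XT.lf (nat_lit 0) (nat_lit 2608648984) (nat_lit 760) (nat_lit 51432842565) (nat_lit 836) (nat_lit 6324144444) (nat_lit 83) (nat_lit 5) (nat_lit 93) (nat_lit 5) (nat_lit 94) (nat_lit 5) (nat_lit 319) (nat_lit 311) (nat_lit 150)) (XT.nd (nat_lit 78) (nat_lit 0) (nat_lit 0) (XT.lf (nat_lit 0) (nat_lit 6241175615) (nat_lit 760) (nat_lit 23115519040) (nat_lit 836) (nat_lit 32631151887) (nat_lit 83) (nat_lit 5) (nat_lit 93) (nat_lit 5) (nat_lit 94) (nat_lit 5) (nat_lit 320) (nat_lit 311) (nat_lit 149)) (XT.lf (nat_lit 76) (nat_lit 6835509744) (nat_lit 0) (nat_lit 3325403942) (nat_lit 836) (nat_lit 53524976778) (nat_lit 84) (nat_lit 5) (nat_lit 83) (nat_lit 5) (nat_lit 94) (nat_lit 5) (nat_lit 321) (nat_lit 311) (nat_lit 148))))) (XT.nd (nat_lit 156) (nat_lit 380) (nat_lit 0) (XT.nd (nat_lit 78) (nat_lit 532) (nat_lit 0) (XT.lf (nat_lit 0) (nat_lit 15048258343) (nat_lit 760) (nat_lit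 26744879822) (nat_lit 76) (nat_lit 23637119436) (nat_lit 84) (nat_lit 5) (nat_lit 94) (nat_lit 5) (nat_lit 85) (nat_lit 5) (nat_lit 322) (nat_lit 311) (nat_lit 147)) (XT.lf (nat_lit 0) (nat_lit 4969498894) (nat_lit 532) (nat_lit 15341532061) (nat_lit 608) (nat_lit 46944261011) (nat_lit 77) (nat_lit 5) (nat_lit 84) (nat_lit 5) (nat_lit 85) (nat_lit 5) (nat_lit 323) (nat_lit 311) (nat_lit 146))) (XT.nd (nat_lit 78) (nat_lit 380) (nat_lit 0) (XT.lf (nat_lit 0) (nat_lit 26490408092) (nat_lit 608) (nat_lit 30153322332) (nat_lit 76) (nat_lit 12495176147) (nat_lit 77) (nat_lit 5) (nat_lit 85) (nat_lit 5) (nat_lit 78) (nat_lit 5) (nat_lit 324) (nat_lit 311) (nat_lit 145)) (XT.nd (nat_lit 78) (nat_lit 0) (nat_lit 0) (XT.lf (nat_lit 0) (nat_lit 3443557470) (nat_lit 380) (nat_lit 29839503229) (nat_lit 456) (nat_lit 37818427606) (nat_lit 72) (nat_lit 5) (nat_lit 77) (nat_lit 5) (nat_lit 78) (nat_lit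 5) (nat_lit 325) (nat_lit 311) (nat_lit 144)) (XT.lf (nat_lit 0) (nat_lit 39766222222) (nat_lit 380) (nat_lit 1158858646) (nat_lit 456) (nat_lit 32211633159) (nat_lit 72) (nat_lit 5) (nat_lit 77) (nat_lit 5) (nat_lit 78) (nat_lit 5) (nat_lit 326) (nat_lit 311) (nat_lit 143))))))))
noncomputable def xc229 : XT := (XT.nd (nat_lit 1560) (nat_lit 1292) (nat_lit 0) (XT.nd (nat_lit 780) (nat_lit 1216) (nat_lit 0) (XT.nd (nat_lit 390) (nat_lit 532) (nat_lit 0) (XT.nd (nat_lit 156) (nat_lit 684) (nat_lit 0) (XT.nd (nat_lit 78) (nat_lit 0) (nat_lit 0) (XT.lf (nat_lit 0) (nat_lit 2250346222) (nat_lit 304) (nat_lit 47185189612) (nat_lit 380) (nat_lit 25813850083) (nat_lit 68) (nat_lit 5) (nat_lit 72) (nat_lit 5) (nat_lit 73) (nat_lit 5) (nat_lit 327) (nat_lit 311) (nat_lit 142)) (XT.lf (nat_lit 0) (nat_lit 40790246612) (nat_lit 304) (nat_lit 18164249651) (nat_lit 380) (nat_lit 18484047496) (nat_lit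 68) (nat_lit 5) (nat_lit 72) (nat_lit 5) (nat_lit 73) (nat_lit 5) (nat_lit 328) (nat_lit 311) (nat_lit 141))) (XT.nd (nat_lit 78) (nat_lit 380) (nat_lit 0) (XT.lf (nat_lit 0) (nat_lit 1370798092) (nat_lit 304) (nat_lit 67791352868) (nat_lit 380) (nat_lit 10564372643) (nat_lit 64) (nat_lit 5) (nat_lit 68) (nat_lit 5) (nat_lit 69) (nat_lit 5) (nat_lit 329) (nat_lit 311) (nat_lit 140)) (XT.nd (nat_lit 78) (nat_lit 380) (nat_lit 0) (XT.lf (nat_lit 0) (nat_lit 42254688116) (nat_lit 304) (nat_lit 38538339599) (nat_lit 380) (nat_lit 1290234114) (nat_lit 64) (nat_lit 5) (nat_lit 68) (nat_lit 5) (nat_lit 69) (nat_lit 5) (nat_lit 330) (nat_lit 311) (nat_lit 139)) (XT.lf (nat_lit 0) (nat_lit 508448211) (nat_lit 304) (nat_lit 7675960027) (nat_lit 380) (nat_lit 76366476753) (nat_lit 59) (nat_lit 5) (nat_lit 63) (nat_lit 5) (nat_lit 64) (nat_lit 5) (nat_lit 331) (nat_lit 311) (nat_lit 138))))) (XT.nd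 (nat_lit 156) (nat_lit 532) (nat_lit 0) (XT.nd (nat_lit 78) (nat_lit 0) (nat_lit 0) (XT.lf (nat_lit 0) (nat_lit 19160349796) (nat_lit 380) (nat_lit 43282283098) (nat_lit 76) (nat_lit 24644653649) (nat_lit 59) (nat_lit 5) (nat_lit 64) (nat_lit 5) (nat_lit 60) (nat_lit 5) (nat_lit 332) (nat_lit 311) (nat_lit 137)) (XT.lf (nat_lit 0) (nat_lit 30810215462) (nat_lit 380) (nat_lit 610807188) (nat_lit 76) (nat_lit 58323230285) (nat_lit 59) (nat_lit 5) (nat_lit 64) (nat_lit 5) (nat_lit 60) (nat_lit 5) (nat_lit 333) (nat_lit 311) (nat_lit 136))) (XT.nd (nat_lit 78) (nat_lit 228) (nat_lit 0) (XT.lf (nat_lit 0) (nat_lit 43784360933) (nat_lit 380) (nat_lit 46873459015) (nat_lit 76) (nat_lit 1839159435) (nat_lit 55) (nat_lit 5) (nat_lit 60) (nat_lit 5) (nat_lit 56) (nat_lit 5) (nat_lit 334) (nat_lit 311) (nat_lit 135)) (XT.nd (nat_lit 78) (nat_lit 228) (nat_lit 0) (XT.lf (nat_lit 0) (nat_lit 57932169138)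 (nat_lit 380) (nat_lit 1712151160) (nat_lit 76) (nat_lit 35716775095) (nat_lit 55) (nat_lit 5) (nat_lit 60) (nat_lit 5) (nat_lit 56) (nat_lit 5) (nat_lit 335) (nat_lit 311) (nat_lit 134)) (XT.lf (nat_lit 0) (nat_lit 47217694565) (nat_lit 228) (nat_lit 26306247854) (nat_lit 304) (nat_lit 24807647014) (nat_lit 52) (nat_lit 5) (nat_lit 55) (nat_lit 5) (nat_lit 56) (nat_lit 5) (nat_lit 336) (nat_lit 311) (nat_lit 133)))))) (XT.nd (nat_lit 390) (nat_lit 684) (nat_lit 0) (XT.nd (nat_lit 156) (nat_lit 228) (nat_lit 0) (XT.nd (nat_lit 78) (nat_lit 304) (nat_lit 0) (XT.lf (nat_lit 0) (nat_lit 90059976543) (nat_lit 304) (nat_lit 2932775259) (nat_lit 76) (nat_lit 8449623680) (nat_lit 52) (nat_lit 5) (nat_lit 56) (nat_lit 5) (nat_lit 53) (nat_lit 5) (nat_lit 337) (nat_lit 311) (nat_lit 132)) (XT.lf (nat_lit 0) (nat_lit 3839157179) (nat_lit 304) (nat_lit 55924136665) (nat_lit 76) (nat_lit 44882693371)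 (nat_lit 48) (nat_lit 5) (nat_lit 52) (nat_lit 5) (nat_lit 49) (nat_lit 5) (nat_lit 338) (nat_lit 311) (nat_lit 131))) (XT.nd (nat_lit 78) (nat_lit 228) (nat_lit 0) (XT.lf (nat_lit 0) (nat_lit 19489174191) (nat_lit 304) (nat_lit 5134453859) (nat_lit 76) (nat_lit 83374327125) (nat_lit 48) (nat_lit 5) (nat_lit 52) (nat_lit 5) (nat_lit 49) (nat_lit 5) (nat_lit 339) (nat_lit 311) (nat_lit 130)) (XT.nd (nat_lit 78) (nat_lit 0) (nat_lit 0) (XT.lf (nat_lit 0) (nat_lit 36902822103) (nat_lit 304) (nat_lit 61895553239) (nat_lit 76) (nat_lit 12670090444) (nat_lit 45) (nat_lit 5) (nat_lit 49) (nat_lit 5) (nat_lit 46) (nat_lit 5) (nat_lit 340) (nat_lit 311) (nat_lit 129)) (XT.lf (nat_lit 0) (nat_lit 55678661751) (nat_lit 304) (nat_lit 8320091258) (nat_lit 76) (nat_lit 51089174169) (nat_lit 45) (nat_lit 5) (nat_lit 49) (nat_lit 5) (nat_lit 46) (nat_lit 5) (nat_lit 341) (nat_lit 311) (nat_lit 128)))))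 (XT.nd (nat_lit 156) (nat_lit 456) (nat_lit 0) (XT.nd (nat_lit 78) (nat_lit 0) (nat_lit 0) (XT.lf (nat_lit 0) (nat_lit 49518325723) (nat_lit 228) (nat_lit 26647576414) (nat_lit 304) (nat_lit 42683829751) (nat_lit 42) (nat_lit 5) (nat_lit 45) (nat_lit 5) (nat_lit 46) (nat_lit 5) (nat_lit 342) (nat_lit 311) (nat_lit 127)) (XT.lf (nat_lit 0) (nat_lit 98016489349) (nat_lit 304) (nat_lit 12454368795) (nat_lit 76) (nat_lit 12311820100) (nat_lit 42) (nat_lit 5) (nat_lit 46) (nat_lit 5) (nat_lit 43) (nat_lit 5) (nat_lit 343) (nat_lit 311) (nat_lit 126))) (XT.nd (nat_lit 78) (nat_lit 304) (nat_lit 0) (XT.lf (nat_lit 0) (nat_lit 48377362558) (nat_lit 152) (nat_lit 73773918035) (nat_lit 228) (nat_lit 4701408214) (nat_lit 40) (nat_lit 5) (nat_lit 42) (nat_lit 5) (nat_lit 43) (nat_lit 5) (nat_lit 344) (nat_lit 311) (nat_lit 125)) (XT.nd (nat_lit 78) (nat_lit 228) (nat_lit 0) (XT.lf (nat_lit 0) (nat_lit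 16056683072) (nat_lit 228) (nat_lit 18692267379) (nat_lit 76) (nat_lit 96353778306) (nat_lit 39) (nat_lit 5) (nat_lit 42) (nat_lit 5) (nat_lit 40) (nat_lit 5) (nat_lit 345) (nat_lit 311) (nat_lit 124)) (XT.lf (nat_lit 0) (nat_lit 38514063131) (nat_lit 304) (nat_lit 90178952509) (nat_lit 76) (nat_lit 6827432873) (nat_lit 36) (nat_lit 5) (nat_lit 40) (nat_lit 5) (nat_lit 37) (nat_lit 5) (nat_lit 346) (nat_lit 311) (nat_lit 123))))))) (XT.nd (nat_lit 780) (nat_lit 608) (nat_lit 0) (XT.nd (nat_lit 390) (nat_lit 304) (nat_lit 0) (XT.nd (nat_lit 156) (nat_lit 228) (nat_lit 0) (XT.nd (nat_lit 78) (nat_lit 152) (nat_lit 0) (XT.lf (nat_lit 0) (nat_lit 62985276639) (nat_lit 304) (nat_lit 27492840283) (nat_lit 76) (nat_lit 49636389622) (nat_lit 36) (nat_lit 5) (nat_lit 40) (nat_lit 5) (nat_lit 37) (nat_lit 5) (nat_lit 347) (nat_lit 311) (nat_lit 122)) (XT.lf (nat_lit 0) (nat_lit 39594200620) (nat_lit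 152) (nat_lit 49703605090) (nat_lit 228) (nat_lit 55609574509) (nat_lit 34) (nat_lit 5) (nat_lit 36) (nat_lit 5) (nat_lit 37) (nat_lit 5) (nat_lit 348) (nat_lit 311) (nat_lit 121))) (XT.nd (nat_lit 78) (nat_lit 228) (nat_lit 0) (XT.lf (nat_lit 0) (nat_lit 110989454579) (nat_lit 152) (nat_lit 6401699927) (nat_lit 228) (nat_lit 32525483871) (nat_lit 34) (nat_lit 5) (nat_lit 36) (nat_lit 5) (nat_lit 37) (nat_lit 5) (nat_lit 349) (nat_lit 311) (nat_lit 120)) (XT.nd (nat_lit 78) (nat_lit 76) (nat_lit 0) (XT.lf (nat_lit 0) (nat_lit 31165054129) (nat_lit 152) (nat_lit 116820214345) (nat_lit 228) (nat_lit 7136286524) (nat_lit 32) (nat_lit 5) (nat_lit 34) (nat_lit 5) (nat_lit 35) (nat_lit 5) (nat_lit 350) (nat_lit 311) (nat_lit 119)) (XT.lf (nat_lit 0) (nat_lit 19672144593) (nat_lit 228) (nat_lit 54861557898) (nat_lit 76) (nat_lit 85999044830) (nat_lit 31) (nat_lit 5) (nat_lit 34) (nat_lit 5)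 (nat_lit 32) (nat_lit 5) (nat_lit 351) (nat_lit 311) (nat_lit 118))))) (XT.nd (nat_lit 156) (nat_lit 152) (nat_lit 0) (XT.nd (nat_lit 78) (nat_lit 0) (nat_lit 0) (XT.lf (nat_lit 0) (nat_lit 18151516617) (nat_lit 152) (nat_lit 29712677056) (nat_lit 228) (nat_lit 118330305431) (nat_lit 29) (nat_lit 5) (nat_lit 31) (nat_lit 5) (nat_lit 32) (nat_lit 5) (nat_lit 352) (nat_lit 311) (nat_lit 117)) (XT.lf (nat_lit 0) (nat_lit 78680688022) (nat_lit 228) (nat_lit 75659667811) (nat_lit 76) (nat_lit 17738240866) (nat_lit 29) (nat_lit 5) (nat_lit 32) (nat_lit 5) (nat_lit 30) (nat_lit 5) (nat_lit 353) (nat_lit 311) (nat_lit 116))) (XT.nd (nat_lit 78) (nat_lit 152) (nat_lit 0) (XT.lf (nat_lit 0) (nat_lit 111524749461) (nat_lit 228) (nat_lit 144847078) (nat_lit 76) (nat_lit 66562965862) (nat_lit 29) (nat_lit 5) (nat_lit 32) (nat_lit 5) (nat_lit 30) (nat_lit 5) (nat_lit 354) (nat_lit 311) (nat_lit 115))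 (XT.nd (nat_lit 78) (nat_lit 0) (nat_lit 0) (XT.lf (nat_lit 0) (nat_lit 81762071979) (nat_lit 152) (nat_lit 65525143079) (nat_lit 228) (nat_lit 37343201605) (nat_lit 27) (nat_lit 5) (nat_lit 29) (nat_lit 5) (nat_lit 30) (nat_lit 5) (nat_lit 355) (nat_lit 311) (nat_lit 114)) (XT.lf (nat_lit 0) (nat_lit 167768834828) (nat_lit 152) (nat_lit 17071095784) (nat_lit 228) (nat_lit 6508127006) (nat_lit 27) (nat_lit 5) (nat_lit 29) (nat_lit 5) (nat_lit 30) (nat_lit 5) (nat_lit 356) (nat_lit 311) (nat_lit 113)))))) (XT.nd (nat_lit 390) (nat_lit 304) (nat_lit 0) (XT.nd (nat_lit 156) (nat_lit 152) (nat_lit 0) (XT.nd (nat_lit 78) (nat_lit 0) (nat_lit 0) (XT.lf (nat_lit 0) (nat_lit 26546482630) (nat_lit 152) (nat_lit 137654006410) (nat_lit 76) (nat_lit 34105610653) (nat_lit 25) (nat_lit 5) (nat_lit 27) (nat_lit 5) (nat_lit 26) (nat_lit 5) (nat_lit 357) (nat_lit 311) (nat_lit 112)) (XT.lf (nat_lit 0)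 (nat_lit 61720520700) (nat_lit 152) (nat_lit 56072096692) (nat_lit 76) (nat_lit 87779821536) (nat_lit 25) (nat_lit 5) (nat_lit 27) (nat_lit 5) (nat_lit 26) (nat_lit 5) (nat_lit 358) (nat_lit 311) (nat_lit 111))) (XT.nd (nat_lit 78) (nat_lit 0) (nat_lit 0) (XT.lf (nat_lit 0) (nat_lit 30566739177) (nat_lit 152) (nat_lit 68563456621) (nat_lit 228) (nat_lit 114048052828) (nat_lit 23) (nat_lit 5) (nat_lit 25) (nat_lit 5) (nat_lit 26) (nat_lit 5) (nat_lit 359) (nat_lit 311) (nat_lit 110)) (XT.nd (nat_lit 78) (nat_lit 0) (nat_lit 0) (XT.lf (nat_lit 0) (nat_lit 123483725542) (nat_lit 152) (nat_lit 15875946407) (nat_lit 228) (nat_lit 81757211242) (nat_lit 23) (nat_lit 5) (nat_lit 25) (nat_lit 5) (nat_lit 26) (nat_lit 5) (nat_lit 360) (nat_lit 311) (nat_lit 109)) (XT.lf (nat_lit 0) (nat_lit 182216203690) (nat_lit 228) (nat_lit 9022225720) (nat_lit 76) (nat_lit 38183241219) (nat_lit 23) (nat_lit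 5) (nat_lit 26) (nat_lit 5) (nat_lit 24) (nat_lit 4) (nat_lit 361) (nat_lit 311) (nat_lit 108))))) (XT.nd (nat_lit 156) (nat_lit 152) (nat_lit 0) (XT.nd (nat_lit 78) (nat_lit 76) (nat_lit 0) (XT.lf (nat_lit 0) (nat_lit 86527973785) (nat_lit 76) (nat_lit 142298527264) (nat_lit 152) (nat_lit 9234649660) (nat_lit 22) (nat_lit 5) (nat_lit 23) (nat_lit 5) (nat_lit 24) (nat_lit 4) (nat_lit 362) (nat_lit 311) (nat_lit 107)) (XT.lf (nat_lit 0) (nat_lit 29809241801) (nat_lit 152) (nat_lit 60437303747) (nat_lit 76) (nat_lit 156854393001) (nat_lit 21) (nat_lit 5) (nat_lit 23) (nat_lit 5) (nat_lit 22) (nat_lit 5) (nat_lit 363) (nat_lit 311) (nat_lit 106))) (XT.nd (nat_lit 78) (nat_lit 0) (nat_lit 0) (XT.lf (nat_lit 0) (nat_lit 36220835167) (nat_lit 152) (nat_lit 34839403965) (nat_lit 228) (nat_lit 185496644651) (nat_lit 19) (nat_lit 5) (nat_lit 21) (nat_lit 5) (nat_lit 22) (nat_lit 5) (nat_lit 364)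 (nat_lit 311) (nat_lit 105)) (XT.nd (nat_lit 78) (nat_lit 0) (nat_lit 0) (XT.lf (nat_lit 0) (nat_lit 115778223559) (nat_lit 228) (nat_lit 127005910032) (nat_lit 76) (nat_lit 23631271010) (nat_lit 19) (nat_lit 5) (nat_lit 22) (nat_lit 5) (nat_lit 20) (nat_lit 4) (nat_lit 365) (nat_lit 311) (nat_lit 104)) (XT.lf (nat_lit 0) (nat_lit 163303006805) (nat_lit 228) (nat_lit 29580817450) (nat_lit 76) (nat_lit 83854482399) (nat_lit 19) (nat_lit 5) (nat_lit 22) (nat_lit 5) (nat_lit 20) (nat_lit 4) (nat_lit 366) (nat_lit 311) (nat_lit 103))))))))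
noncomputable def xc230 : XT := (XT.nd (nat_lit 37596) (nat_lit 0) (nat_lit 1596) (XT.nd (nat_lit 36816) (nat_lit 0) (nat_lit 4332) (XT.nd (nat_lit 36426) (nat_lit 0) (nat_lit 5700) (XT.nd (nat_lit 156) (nat_lit 228) (nat_lit 0) (XT.nd (nat_lit 78) (nat_lit 0) (nat_lit 0) (XT.lf (nat_lit 0) (nat_lit 75119425101) (nat_lit 76) (nat_lit 139257202030) (nat_lit 152) (nat_lit 73142096951) (nat_lit 18) (nat_lit 5) (nat_lit 19) (nat_lit 5) (nat_lit 20) (nat_lit 4) (nat_lit 367) (nat_lit 311) (nat_lit 102)) (XT.lf (nat_lit 0) (nat_lit 186081269952) (nat_lit 76) (nat_lit 82423401876) (nat_lit 152) (nat_lit 30308453542) (nat_lit 18) (nat_lit 5) (nat_lit 19) (nat_lit 5) (nat_lit 20) (nat_lit 4) (nat_lit 368) (nat_lit 311) (nat_lit 101))) (XT.nd (nat_lit 78) (nat_lit 152) (nat_lit 0) (XT.lf (nat_lit 0) (nat_lit 14197225395) (nat_lit 152) (nat_lit 8310408402) (nat_lit 76) (nat_lit 288153174279) (nat_lit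 17) (nat_lit 5) (nat_lit 19) (nat_lit 5) (nat_lit 18) (nat_lit 5) (nat_lit 369) (nat_lit 311) (nat_lit 100)) (XT.nd (nat_lit 36114) (nat_lit 0) (nat_lit 5700) (XT.lf (nat_lit 0) (nat_lit 62201412898) (nat_lit 228) (nat_lit 219491398723) (nat_lit 76) (nat_lit 41268631067) (nat_lit 15) (nat_lit 5) (nat_lit 18) (nat_lit 5) (nat_lit 16) (nat_lit 4) (nat_lit 370) (nat_lit 311) (nat_lit 99)) (XT.lf (nat_lit 0) (nat_lit 10711505908) (nat_lit 0) (nat_lit 10711505908) (nat_lit 684) (nat_lit 4427494400) (nat_lit 90) (nat_lit 5) (nat_lit 90) (nat_lit 3) (nat_lit 99) (nat_lit 3) (nat_lit 312) (nat_lit 312) (nat_lit 156))))) (XT.nd (nat_lit 156) (nat_lit 0) (nat_lit 0) (XT.nd (nat_lit 78) (nat_lit 0) (nat_lit 0) (XT.lf (nat_lit 0) (nat_lit 43974422892) (nat_lit 684) (nat_lit 6887336482) (nat_lit 760) (nat_lit 2128869711) (nat_lit 90) (nat_lit 5) (nat_lit 99) (nat_lit 3) (nat_lit 100) (nat_lit 5)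 (nat_lit 313) (nat_lit 312) (nat_lit 155)) (XT.lf (nat_lit 76) (nat_lit 17893548162) (nat_lit 0) (nat_lit 27894804092) (nat_lit 760) (nat_lit 8524921769) (nat_lit 91) (nat_lit 5) (nat_lit 90) (nat_lit 5) (nat_lit 100) (nat_lit 5) (nat_lit 314) (nat_lit 312) (nat_lit 154))) (XT.nd (nat_lit 78) (nat_lit 0) (nat_lit 76) (XT.lf (nat_lit 76) (nat_lit 44151781982) (nat_lit 0) (nat_lit 3656437952) (nat_lit 760) (nat_lit 7888071998) (nat_lit 91) (nat_lit 5) (nat_lit 90) (nat_lit 5) (nat_lit 100) (nat_lit 5) (nat_lit 315) (nat_lit 312) (nat_lit 153)) (XT.nd (nat_lit 78) (nat_lit 0) (nat_lit 0) (XT.lf (nat_lit 76) (nat_lit 14703975351) (nat_lit 0) (nat_lit 35793615786) (nat_lit 760) (nat_lit 6622446777) (nat_lit 92) (nat_lit 5) (nat_lit 91) (nat_lit 5) (nat_lit 101) (nat_lit 5) (nat_lit 316) (nat_lit 312) (nat_lit 152)) (XT.lf (nat_lit 76) (nat_lit 42602926935) (nat_lit 0) (nat_lit 10971717477)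 (nat_lit 760) (nat_lit 5027668663) (nat_lit 92) (nat_lit 5) (nat_lit 91) (nat_lit 5) (nat_lit 101) (nat_lit 5) (nat_lit 317) (nat_lit 312) (nat_lit 151)))))) (XT.nd (nat_lit 390) (nat_lit 836) (nat_lit 0) (XT.nd (nat_lit 156) (nat_lit 684) (nat_lit 0) (XT.nd (nat_lit 78) (nat_lit 0) (nat_lit 0) (XT.lf (nat_lit 76) (nat_lit 11881939620) (nat_lit 0) (nat_lit 45343532219) (nat_lit 760) (nat_lit 2912236516) (nat_lit 93) (nat_lit 5) (nat_lit 92) (nat_lit 5) (nat_lit 102) (nat_lit 5) (nat_lit 318) (nat_lit 312) (nat_lit 150)) (XT.lf (nat_lit 76) (nat_lit 41526133167) (nat_lit 0) (nat_lit 19979466166) (nat_lit 760) (nat_lit 221938448) (nat_lit 93) (nat_lit 5) (nat_lit 92) (nat_lit 5) (nat_lit 102) (nat_lit 5) (nat_lit 319) (nat_lit 312) (nat_lit 149))) (XT.nd (nat_lit 78) (nat_lit 0) (nat_lit 0) (XT.lf (nat_lit 0) (nat_lit 2774031252) (nat_lit 760) (nat_lit 53975576492) (nat_lit 836) (nat_lit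 6632497882) (nat_lit 83) (nat_lit 5) (nat_lit 93) (nat_lit 5) (nat_lit 94) (nat_lit 5) (nat_lit 320) (nat_lit 312) (nat_lit 148)) (XT.nd (nat_lit 78) (nat_lit 0) (nat_lit 0) (XT.lf (nat_lit 0) (nat_lit 6586519937) (nat_lit 760) (nat_lit 24243763371) (nat_lit 836) (nat_lit 34255229687) (nat_lit 83) (nat_lit 5) (nat_lit 93) (nat_lit 5) (nat_lit 94) (nat_lit 5) (nat_lit 321) (nat_lit 312) (nat_lit 147)) (XT.lf (nat_lit 76) (nat_lit 7204372793) (nat_lit 0) (nat_lit 3496710005) (nat_lit 836) (nat_lit 56167437353) (nat_lit 84) (nat_lit 5) (nat_lit 83) (nat_lit 5) (nat_lit 94) (nat_lit 5) (nat_lit 322) (nat_lit 312) (nat_lit 146))))) (XT.nd (nat_lit 156) (nat_lit 380) (nat_lit 0) (XT.nd (nat_lit 78) (nat_lit 532) (nat_lit 0) (XT.lf (nat_lit 0) (nat_lit 15831190121) (nat_lit 760) (nat_lit 28054665697) (nat_lit 76) (nat_lit 24814332849) (nat_lit 84) (nat_lit 5) (nat_lit 94) (nat_lit 5) (nat_lit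 85) (nat_lit 5) (nat_lit 323) (nat_lit 312) (nat_lit 145)) (XT.lf (nat_lit 0) (nat_lit 5244989081) (nat_lit 532) (nat_lit 16111080787) (nat_lit 608) (nat_lit 49260459118) (nat_lit 77) (nat_lit 5) (nat_lit 84) (nat_lit 5) (nat_lit 85) (nat_lit 5) (nat_lit 324) (nat_lit 312) (nat_lit 144))) (XT.nd (nat_lit 78) (nat_lit 380) (nat_lit 0) (XT.lf (nat_lit 0) (nat_lit 27842974943) (nat_lit 608) (nat_lit 31633768051) (nat_lit 76) (nat_lit 13117655907) (nat_lit 77) (nat_lit 5) (nat_lit 85) (nat_lit 5) (nat_lit 78) (nat_lit 5) (nat_lit 325) (nat_lit 312) (nat_lit 143)) (XT.nd (nat_lit 78) (nat_lit 0) (nat_lit 0) (XT.lf (nat_lit 0) (nat_lit 3642516702) (nat_lit 380) (nat_lit 31331826066) (nat_lit 456) (nat_lit 39680815238) (nat_lit 72) (nat_lit 5) (nat_lit 77) (nat_lit 5) (nat_lit 78) (nat_lit 5) (nat_lit 326) (nat_lit 312) (nat_lit 142)) (XT.lf (nat_lit 0) (nat_lit 41780039390) (nat_lit 380) (nat_lit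 1217132697) (nat_lit 456) (nat_lit 33795039819) (nat_lit 72) (nat_lit 5) (nat_lit 77) (nat_lit 5) (nat_lit 78) (nat_lit 5) (nat_lit 327) (nat_lit 312) (nat_lit 141))))))) (XT.nd (nat_lit 780) (nat_lit 1216) (nat_lit 0) (XT.nd (nat_lit 390) (nat_lit 532) (nat_lit 0) (XT.nd (nat_lit 156) (nat_lit 684) (nat_lit 0) (XT.nd (nat_lit 78) (nat_lit 0) (nat_lit 0) (XT.lf (nat_lit 0) (nat_lit 2389279533) (nat_lit 304) (nat_lit 49543047430) (nat_lit 380) (nat_lit 27078233757) (nat_lit 68) (nat_lit 5) (nat_lit 72) (nat_lit 5) (nat_lit 73) (nat_lit 5) (nat_lit 328) (nat_lit 312) (nat_lit 140)) (XT.lf (nat_lit 0) (nat_lit 42854917038) (nat_lit 304) (nat_lit 19071127217) (nat_lit 380) (nat_lit 19383193842) (nat_lit 68) (nat_lit 5) (nat_lit 72) (nat_lit 5) (nat_lit 73) (nat_lit 5) (nat_lit 329) (nat_lit 312) (nat_lit 139))) (XT.nd (nat_lit 78) (nat_lit 380) (nat_lit 0) (XT.lf (nat_lit 0) (nat_lit 1465282776)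 (nat_lit 304) (nat_lit 71178089393) (nat_lit 380) (nat_lit 11068282225) (nat_lit 64) (nat_lit 5) (nat_lit 68) (nat_lit 5) (nat_lit 69) (nat_lit 5) (nat_lit 330) (nat_lit 312) (nat_lit 138)) (XT.nd (nat_lit 78) (nat_lit 380) (nat_lit 0) (XT.lf (nat_lit 0) (nat_lit 44392131835) (nat_lit 304) (nat_lit 40462560277) (nat_lit 380) (nat_lit 1331594343) (nat_lit 64) (nat_lit 5) (nat_lit 68) (nat_lit 5) (nat_lit 69) (nat_lit 5) (nat_lit 331) (nat_lit 312) (nat_lit 137)) (XT.lf (nat_lit 0) (nat_lit 558945872) (nat_lit 304) (nat_lit 8056417592) (nat_lit 380) (nat_lit 80161944737) (nat_lit 59) (nat_lit 5) (nat_lit 63) (nat_lit 5) (nat_lit 64) (nat_lit 5) (nat_lit 332) (nat_lit 312) (nat_lit 136))))) (XT.nd (nat_lit 156) (nat_lit 532) (nat_lit 0) (XT.nd (nat_lit 78) (nat_lit 0) (nat_lit 0) (XT.lf (nat_lit 0) (nat_lit 20139116778) (nat_lit 380) (nat_lit 45421498074) (nat_lit 76) (nat_lit 25879965876)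 (nat_lit 59) (nat_lit 5) (nat_lit 64) (nat_lit 5) (nat_lit 60) (nat_lit 5) (nat_lit 333) (nat_lit 312) (nat_lit 135)) (XT.lf (nat_lit 0) (nat_lit 32370487657) (nat_lit 380) (nat_lit 617634045) (nat_lit 76) (nat_lit 61242324698) (nat_lit 59) (nat_lit 5) (nat_lit 64) (nat_lit 5) (nat_lit 60) (nat_lit 5) (nat_lit 334) (nat_lit 312) (nat_lit 134))) (XT.nd (nat_lit 78) (nat_lit 228) (nat_lit 0) (XT.lf (nat_lit 0) (nat_lit 45992828381) (nat_lit 380) (nat_lit 49192876813) (nat_lit 76) (nat_lit 1935131060) (nat_lit 55) (nat_lit 5) (nat_lit 60) (nat_lit 5) (nat_lit 56) (nat_lit 5) (nat_lit 335) (nat_lit 312) (nat_lit 133)) (XT.nd (nat_lit 78) (nat_lit 228) (nat_lit 0) (XT.lf (nat_lit 0) (nat_lit 60847110357) (nat_lit 380) (nat_lit 1774658572) (nat_lit 76) (nat_lit 37506436377) (nat_lit 55) (nat_lit 5) (nat_lit 60) (nat_lit 5) (nat_lit 56) (nat_lit 5) (nat_lit 336) (nat_lit 312) (nat_lit 132))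 (XT.lf (nat_lit 0) (nat_lit 49601306856) (nat_lit 228) (nat_lit 27616647299) (nat_lit 304) (nat_lit 26029297144) (nat_lit 52) (nat_lit 5) (nat_lit 55) (nat_lit 5) (nat_lit 56) (nat_lit 5) (nat_lit 337) (nat_lit 312) (nat_lit 131)))))) (XT.nd (nat_lit 390) (nat_lit 684) (nat_lit 0) (XT.nd (nat_lit 156) (nat_lit 228) (nat_lit 0) (XT.nd (nat_lit 78) (nat_lit 304) (nat_lit 0) (XT.lf (nat_lit 0) (nat_lit 94580014722) (nat_lit 304) (nat_lit 3056967867) (nat_lit 76) (nat_lit 8876634105) (nat_lit 52) (nat_lit 5) (nat_lit 56) (nat_lit 5) (nat_lit 53) (nat_lit 5) (nat_lit 338) (nat_lit 312) (nat_lit 130)) (XT.lf (nat_lit 0) (nat_lit 4047983067) (nat_lit 304) (nat_lit 58697678430) (nat_lit 76) (nat_lit 47131758462) (nat_lit 48) (nat_lit 5) (nat_lit 52) (nat_lit 5) (nat_lit 49) (nat_lit 5) (nat_lit 339) (nat_lit 312) (nat_lit 129))) (XT.nd (nat_lit 78) (nat_lit 228) (nat_lit 0) (XT.lf (nat_lit 0)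 (nat_lit 20479697691) (nat_lit 304) (nat_lit 5369590772) (nat_lit 76) (nat_lit 87547739122) (nat_lit 48) (nat_lit 5) (nat_lit 52) (nat_lit 5) (nat_lit 49) (nat_lit 5) (nat_lit 340) (nat_lit 312) (nat_lit 128)) (XT.nd (nat_lit 78) (nat_lit 0) (nat_lit 0) (XT.lf (nat_lit 0) (nat_lit 38763682116) (nat_lit 304) (nat_lit 64968378182) (nat_lit 76) (nat_lit 13309021774) (nat_lit 45) (nat_lit 5) (nat_lit 49) (nat_lit 5) (nat_lit 46) (nat_lit 5) (nat_lit 341) (nat_lit 312) (nat_lit 127)) (XT.lf (nat_lit 0) (nat_lit 58477565227) (nat_lit 304) (nat_lit 8715188470) (nat_lit 76) (nat_lit 53648801267) (nat_lit 45) (nat_lit 5) (nat_lit 49) (nat_lit 5) (nat_lit 46) (nat_lit 5) (nat_lit 342) (nat_lit 312) (nat_lit 126))))) (XT.nd (nat_lit 156) (nat_lit 456) (nat_lit 0) (XT.nd (nat_lit 78) (nat_lit 0) (nat_lit 0) (XT.lf (nat_lit 0) (nat_lit 52014812146) (nat_lit 228) (nat_lit 27973963769) (nat_lit 304)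 (nat_lit 44802694535) (nat_lit 42) (nat_lit 5) (nat_lit 45) (nat_lit 5) (nat_lit 46) (nat_lit 5) (nat_lit 343) (nat_lit 312) (nat_lit 125)) (XT.lf (nat_lit 0) (nat_lit 102931287354) (nat_lit 304) (nat_lit 13056873306) (nat_lit 76) (nat_lit 12932934630) (nat_lit 42) (nat_lit 5) (nat_lit 46) (nat_lit 5) (nat_lit 43) (nat_lit 5) (nat_lit 344) (nat_lit 312) (nat_lit 124))) (XT.nd (nat_lit 78) (nat_lit 304) (nat_lit 0) (XT.lf (nat_lit 0) (nat_lit 50816118583) (nat_lit 152) (nat_lit 77456344675) (nat_lit 228) (nat_lit 4922161732) (nat_lit 40) (nat_lit 5) (nat_lit 42) (nat_lit 5) (nat_lit 43) (nat_lit 5) (nat_lit 345) (nat_lit 312) (nat_lit 123)) (XT.nd (nat_lit 78) (nat_lit 228) (nat_lit 0) (XT.lf (nat_lit 0) (nat_lit 16872715952) (nat_lit 228) (nat_lit 19607487771) (nat_lit 76) (nat_lit 101176985824) (nat_lit 39) (nat_lit 5) (nat_lit 42) (nat_lit 5) (nat_lit 40) (nat_lit 5) (nat_lit 346)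 (nat_lit 312) (nat_lit 122)) (XT.lf (nat_lit 0) (nat_lit 40452731386) (nat_lit 304) (nat_lit 94668258564) (nat_lit 76) (nat_lit 7174817769) (nat_lit 36) (nat_lit 5) (nat_lit 40) (nat_lit 5) (nat_lit 37) (nat_lit 5) (nat_lit 347) (nat_lit 312) (nat_lit 121))))))))
noncomputable def xc231 : XT := (XT.nd (nat_lit 1560) (nat_lit 152) (nat_lit 0) (XT.nd (nat_lit 780) (nat_lit 608) (nat_lit 0) (XT.nd (nat_lit 390) (nat_lit 304) (nat_lit 0) (XT.nd (nat_lit 156) (nat_lit 228) (nat_lit 0) (XT.nd (nat_lit 78) (nat_lit 152) (nat_lit 0) (XT.lf (nat_lit 0) (nat_lit 66146888183) (nat_lit 304) (nat_lit 28848776040) (nat_lit 76) (nat_lit 52123936010) (nat_lit 36) (nat_lit 5) (nat_lit 40) (nat_lit 5) (nat_lit 37) (nat_lit 5) (nat_lit 348) (nat_lit 312) (nat_lit 120)) (XT.lf (nat_lit 0) (nat_lit 41592315194) (nat_lit 152) (nat_lit 52182427875) (nat_lit 228) (nat_lit 58377390235) (nat_lit 34) (nat_lit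 5) (nat_lit 36) (nat_lit 5) (nat_lit 37) (nat_lit 5) (nat_lit 349) (nat_lit 312) (nat_lit 119))) (XT.nd (nat_lit 78) (nat_lit 228) (nat_lit 0) (XT.lf (nat_lit 0) (nat_lit 116556455444) (nat_lit 152) (nat_lit 6715730190) (nat_lit 228) (nat_lit 34139698065) (nat_lit 34) (nat_lit 5) (nat_lit 36) (nat_lit 5) (nat_lit 37) (nat_lit 5) (nat_lit 350) (nat_lit 312) (nat_lit 118)) (XT.nd (nat_lit 78) (nat_lit 76) (nat_lit 0) (XT.lf (nat_lit 0) (nat_lit 32741036390) (nat_lit 152) (nat_lit 122654789397) (nat_lit 228) (nat_lit 7481229957) (nat_lit 32) (nat_lit 5) (nat_lit 34) (nat_lit 5) (nat_lit 35) (nat_lit 5) (nat_lit 351) (nat_lit 312) (nat_lit 117)) (XT.lf (nat_lit 0) (nat_lit 20666695586) (nat_lit 228) (nat_lit 57587377486) (nat_lit 76) (nat_lit 90304753260) (nat_lit 31) (nat_lit 5) (nat_lit 34) (nat_lit 5) (nat_lit 32) (nat_lit 5) (nat_lit 352) (nat_lit 312) (nat_lit 116))))) (XT.nd (nat_lit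 156) (nat_lit 152) (nat_lit 0) (XT.nd (nat_lit 78) (nat_lit 0) (nat_lit 0) (XT.lf (nat_lit 0) (nat_lit 19076072395) (nat_lit 152) (nat_lit 31192018699) (nat_lit 228) (nat_lit 124235587945) (nat_lit 29) (nat_lit 5) (nat_lit 31) (nat_lit 5) (nat_lit 32) (nat_lit 5) (nat_lit 353) (nat_lit 312) (nat_lit 115)) (XT.lf (nat_lit 0) (nat_lit 82624994781) (nat_lit 228) (nat_lit 79426054317) (nat_lit 76) (nat_lit 18630953691) (nat_lit 29) (nat_lit 5) (nat_lit 32) (nat_lit 5) (nat_lit 30) (nat_lit 5) (nat_lit 354) (nat_lit 312) (nat_lit 114))) (XT.nd (nat_lit 78) (nat_lit 152) (nat_lit 0) (XT.lf (nat_lit 0) (nat_lit 117110770131) (nat_lit 228) (nat_lit 136282875) (nat_lit 76) (nat_lit 69896638709) (nat_lit 29) (nat_lit 5) (nat_lit 32) (nat_lit 5) (nat_lit 30) (nat_lit 5) (nat_lit 355) (nat_lit 312) (nat_lit 113)) (XT.nd (nat_lit 78) (nat_lit 0) (nat_lit 0) (XT.lf (nat_lit 0) (nat_lit 85865727191)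 (nat_lit 152) (nat_lit 68795408755) (nat_lit 228) (nat_lit 39200314357) (nat_lit 27) (nat_lit 5) (nat_lit 29) (nat_lit 5) (nat_lit 30) (nat_lit 5) (nat_lit 356) (nat_lit 312) (nat_lit 112)) (XT.lf (nat_lit 0) (nat_lit 176172087629) (nat_lit 152) (nat_lit 17918944403) (nat_lit 228) (nat_lit 6823964472) (nat_lit 27) (nat_lit 5) (nat_lit 29) (nat_lit 5) (nat_lit 30) (nat_lit 5) (nat_lit 357) (nat_lit 312) (nat_lit 111)))))) (XT.nd (nat_lit 390) (nat_lit 304) (nat_lit 0) (XT.nd (nat_lit 156) (nat_lit 152) (nat_lit 0) (XT.nd (nat_lit 78) (nat_lit 0) (nat_lit 0) (XT.lf (nat_lit 0) (nat_lit 27882951638) (nat_lit 152) (nat_lit 144521455394) (nat_lit 76) (nat_lit 35816532466) (nat_lit 25) (nat_lit 5) (nat_lit 27) (nat_lit 5) (nat_lit 26) (nat_lit 5) (nat_lit 358) (nat_lit 312) (nat_lit 110)) (XT.lf (nat_lit 0) (nat_lit 64815256141) (nat_lit 152) (nat_lit 58861176444) (nat_lit 76) (nat_lit 92174185261)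 (nat_lit 25) (nat_lit 5) (nat_lit 27) (nat_lit 5) (nat_lit 26) (nat_lit 5) (nat_lit 359) (nat_lit 312) (nat_lit 109))) (XT.nd (nat_lit 78) (nat_lit 0) (nat_lit 0) (XT.lf (nat_lit 0) (nat_lit 32109366943) (nat_lit 152) (nat_lit 71985856438) (nat_lit 228) (nat_lit 119741504589) (nat_lit 23) (nat_lit 5) (nat_lit 25) (nat_lit 5) (nat_lit 26) (nat_lit 5) (nat_lit 360) (nat_lit 312) (nat_lit 108)) (XT.nd (nat_lit 78) (nat_lit 0) (nat_lit 0) (XT.lf (nat_lit 0) (nat_lit 129671522112) (nat_lit 152) (nat_lit 16664245618) (nat_lit 228) (nat_lit 85836547157) (nat_lit 23) (nat_lit 5) (nat_lit 25) (nat_lit 5) (nat_lit 26) (nat_lit 5) (nat_lit 361) (nat_lit 312) (nat_lit 107)) (XT.lf (nat_lit 0) (nat_lit 191334821516) (nat_lit 228) (nat_lit 9460063752) (nat_lit 76) (nat_lit 40097471981) (nat_lit 23) (nat_lit 5) (nat_lit 26) (nat_lit 5) (nat_lit 24) (nat_lit 4) (nat_lit 362) (nat_lit 312) (nat_lit 106)))))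 (XT.nd (nat_lit 156) (nat_lit 152) (nat_lit 0) (XT.nd (nat_lit 78) (nat_lit 76) (nat_lit 0) (XT.lf (nat_lit 0) (nat_lit 90867431643) (nat_lit 76) (nat_lit 149408034198) (nat_lit 152) (nat_lit 9688354199) (nat_lit 22) (nat_lit 5) (nat_lit 23) (nat_lit 5) (nat_lit 24) (nat_lit 4) (nat_lit 363) (nat_lit 312) (nat_lit 105)) (XT.lf (nat_lit 0) (nat_lit 31307104843) (nat_lit 152) (nat_lit 63446481282) (nat_lit 76) (nat_lit 164702023663) (nat_lit 21) (nat_lit 5) (nat_lit 23) (nat_lit 5) (nat_lit 22) (nat_lit 5) (nat_lit 364) (nat_lit 312) (nat_lit 104))) (XT.nd (nat_lit 78) (nat_lit 0) (nat_lit 0) (XT.lf (nat_lit 0) (nat_lit 38044359939) (nat_lit 152) (nat_lit 36576134571) (nat_lit 228) (nat_lit 194763865920) (nat_lit 19) (nat_lit 5) (nat_lit 21) (nat_lit 5) (nat_lit 22) (nat_lit 5) (nat_lit 365) (nat_lit 312) (nat_lit 103)) (XT.nd (nat_lit 78) (nat_lit 0) (nat_lit 0) (XT.lf (nat_lit 0) (nat_lit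 121574111142) (nat_lit 228) (nat_lit 133344044818) (nat_lit 76) (nat_lit 24817664934) (nat_lit 19) (nat_lit 5) (nat_lit 22) (nat_lit 5) (nat_lit 20) (nat_lit 4) (nat_lit 366) (nat_lit 312) (nat_lit 102)) (XT.lf (nat_lit 0) (nat_lit 171474801341) (nat_lit 228) (nat_lit 31048276689) (nat_lit 76) (nat_lit 88051806875) (nat_lit 19) (nat_lit 5) (nat_lit 22) (nat_lit 5) (nat_lit 20) (nat_lit 4) (nat_lit 367) (nat_lit 312) (nat_lit 101))))))) (XT.nd (nat_lit 36894) (nat_lit 0) (nat_lit 3876) (XT.nd (nat_lit 36504) (nat_lit 0) (nat_lit 5548) (XT.nd (nat_lit 156) (nat_lit 76) (nat_lit 0) (XT.nd (nat_lit 78) (nat_lit 0) (nat_lit 0) (XT.lf (nat_lit 0) (nat_lit 78886791189) (nat_lit 76) (nat_lit 146215173009) (nat_lit 152) (nat_lit 76792366162) (nat_lit 18) (nat_lit 5) (nat_lit 19) (nat_lit 5) (nat_lit 20) (nat_lit 4) (nat_lit 368) (nat_lit 312) (nat_lit 100)) (XT.lf (nat_lit 0) (nat_lit 195396185672)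 (nat_lit 76) (nat_lit 86539915663) (nat_lit 152) (nat_lit 31817366089) (nat_lit 18) (nat_lit 5) (nat_lit 19) (nat_lit 5) (nat_lit 20) (nat_lit 4) (nat_lit 369) (nat_lit 312) (nat_lit 99))) (XT.nd (nat_lit 36192) (nat_lit 0) (nat_lit 5548) (XT.lf (nat_lit 0) (nat_lit 14913088345) (nat_lit 152) (nat_lit 8715390922) (nat_lit 76) (nat_lit 302565065120) (nat_lit 17) (nat_lit 5) (nat_lit 19) (nat_lit 5) (nat_lit 18) (nat_lit 5) (nat_lit 370) (nat_lit 312) (nat_lit 98)) (XT.nd (nat_lit 78) (nat_lit 0) (nat_lit 0) (XT.lf (nat_lit 0) (nat_lit 11258358373) (nat_lit 0) (nat_lit 11258358373) (nat_lit 684) (nat_lit 4625141561) (nat_lit 90) (nat_lit 5) (nat_lit 90) (nat_lit 3) (nat_lit 99) (nat_lit 3) (nat_lit 313) (nat_lit 313) (nat_lit 154)) (XT.lf (nat_lit 0) (nat_lit 46215769314) (nat_lit 684) (nat_lit 7207652911) (nat_lit 760) (nat_lit 2214520378) (nat_lit 90) (nat_lit 5) (nat_lit 99) (nat_lit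 3) (nat_lit 100) (nat_lit 5) (nat_lit 314) (nat_lit 313) (nat_lit 153))))) (XT.nd (nat_lit 156) (nat_lit 0) (nat_lit 76) (XT.nd (nat_lit 78) (nat_lit 0) (nat_lit 0) (XT.lf (nat_lit 76) (nat_lit 18811888056) (nat_lit 0) (nat_lit 29306846750) (nat_lit 760) (nat_lit 8908072125) (nat_lit 91) (nat_lit 5) (nat_lit 90) (nat_lit 5) (nat_lit 100) (nat_lit 5) (nat_lit 315) (nat_lit 313) (nat_lit 152)) (XT.lf (nat_lit 76) (nat_lit 46381906782) (nat_lit 0) (nat_lit 3855738377) (nat_lit 760) (nat_lit 8241432043) (nat_lit 91) (nat_lit 5) (nat_lit 90) (nat_lit 5) (nat_lit 100) (nat_lit 5) (nat_lit 316) (nat_lit 313) (nat_lit 151))) (XT.nd (nat_lit 78) (nat_lit 0) (nat_lit 0) (XT.lf (nat_lit 76) (nat_lit 15463596062) (nat_lit 0) (nat_lit 37596167310) (nat_lit 760) (nat_lit 6914336932) (nat_lit 92) (nat_lit 5) (nat_lit 91) (nat_lit 5) (nat_lit 101) (nat_lit 5) (nat_lit 317) (nat_lit 313) (nat_lit 150))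 (XT.nd (nat_lit 78) (nat_lit 0) (nat_lit 76) (XT.lf (nat_lit 76) (nat_lit 44756332276) (nat_lit 0) (nat_lit 11532561193) (nat_lit 760) (nat_lit 5241688112) (nat_lit 92) (nat_lit 5) (nat_lit 91) (nat_lit 5) (nat_lit 101) (nat_lit 5) (nat_lit 318) (nat_lit 313) (nat_lit 149)) (XT.lf (nat_lit 76) (nat_lit 12500926097) (nat_lit 0) (nat_lit 47619851220) (nat_lit 760) (nat_lit 3022046950) (nat_lit 93) (nat_lit 5) (nat_lit 92) (nat_lit 5) (nat_lit 102) (nat_lit 5) (nat_lit 319) (nat_lit 313) (nat_lit 148)))))) (XT.nd (nat_lit 390) (nat_lit 1140) (nat_lit 0) (XT.nd (nat_lit 156) (nat_lit 0) (nat_lit 0) (XT.nd (nat_lit 78) (nat_lit 684) (nat_lit 0) (XT.lf (nat_lit 76) (nat_lit 43626144108) (nat_lit 0) (nat_lit 20987146513) (nat_lit 760) (nat_lit 198938807) (nat_lit 93) (nat_lit 5) (nat_lit 92) (nat_lit 5) (nat_lit 102) (nat_lit 5) (nat_lit 320) (nat_lit 313) (nat_lit 147)) (XT.lf (nat_lit 0)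 (nat_lit 2944433330) (nat_lit 760) (nat_lit 56648134725) (nat_lit 836) (nat_lit 6956999163) (nat_lit 83) (nat_lit 5) (nat_lit 93) (nat_lit 5) (nat_lit 94) (nat_lit 5) (nat_lit 321) (nat_lit 313) (nat_lit 146))) (XT.nd (nat_lit 78) (nat_lit 0) (nat_lit 0) (XT.lf (nat_lit 0) (nat_lit 6946036901) (nat_lit 760) (nat_lit 25430979548) (nat_lit 836) (nat_lit 35961206777) (nat_lit 83) (nat_lit 5) (nat_lit 93) (nat_lit 5) (nat_lit 94) (nat_lit 5) (nat_lit 322) (nat_lit 313) (nat_lit 145)) (XT.nd (nat_lit 78) (nat_lit 0) (nat_lit 76) (XT.lf (nat_lit 76) (nat_lit 7589160651) (nat_lit 0) (nat_lit 3676113184) (nat_lit 836) (nat_lit 58945162270) (nat_lit 84) (nat_lit 5) (nat_lit 83) (nat_lit 5) (nat_lit 94) (nat_lit 5) (nat_lit 323) (nat_lit 313) (nat_lit 144)) (XT.lf (nat_lit 0) (nat_lit 16650431134) (nat_lit 760) (nat_lit 29432493661) (nat_lit 76) (nat_lit 26050838554) (nat_lit 84) (nat_lit 5) (nat_lit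 94) (nat_lit 5) (nat_lit 85) (nat_lit 5) (nat_lit 324) (nat_lit 313) (nat_lit 143))))) (XT.nd (nat_lit 234) (nat_lit 304) (nat_lit 0) (XT.nd (nat_lit 78) (nat_lit 380) (nat_lit 0) (XT.lf (nat_lit 0) (nat_lit 5531742157) (nat_lit 532) (nat_lit 16918877114) (nat_lit 608) (nat_lit 51695350605) (nat_lit 77) (nat_lit 5) (nat_lit 84) (nat_lit 5) (nat_lit 85) (nat_lit 5) (nat_lit 325) (nat_lit 313) (nat_lit 142)) (XT.nd (nat_lit 78) (nat_lit 380) (nat_lit 0) (XT.lf (nat_lit 0) (nat_lit 29260562644) (nat_lit 608) (nat_lit 33190766750) (nat_lit 76) (nat_lit 13771471539) (nat_lit 77) (nat_lit 5) (nat_lit 85) (nat_lit 5) (nat_lit 78) (nat_lit 5) (nat_lit 326) (nat_lit 313) (nat_lit 141)) (XT.lf (nat_lit 0) (nat_lit 3848934020) (nat_lit 380) (nat_lit 32898732720) (nat_lit 456) (nat_lit 41638975049) (nat_lit 72) (nat_lit 5) (nat_lit 77) (nat_lit 5) (nat_lit 78) (nat_lit 5) (nat_lit 327) (nat_lit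 313) (nat_lit 140)))) (XT.nd (nat_lit 78) (nat_lit 304) (nat_lit 0) (XT.lf (nat_lit 0) (nat_lit 43892176104) (nat_lit 380) (nat_lit 1278289666) (nat_lit 456) (nat_lit 35460143286) (nat_lit 72) (nat_lit 5) (nat_lit 77) (nat_lit 5) (nat_lit 78) (nat_lit 5) (nat_lit 328) (nat_lit 313) (nat_lit 139)) (XT.nd (nat_lit 78) (nat_lit 0) (nat_lit 0) (XT.lf (nat_lit 0) (nat_lit 2532703600) (nat_lit 304) (nat_lit 52018928452) (nat_lit 380) (nat_lit 28408282560) (nat_lit 68) (nat_lit 5) (nat_lit 72) (nat_lit 5) (nat_lit 73) (nat_lit 5) (nat_lit 329) (nat_lit 313) (nat_lit 138)) (XT.lf (nat_lit 0) (nat_lit 45020482024) (nat_lit 304) (nat_lit 20023472769) (nat_lit 380) (nat_lit 20329626977) (nat_lit 68) (nat_lit 5) (nat_lit 72) (nat_lit 5) (nat_lit 73) (nat_lit 5) (nat_lit 330) (nat_lit 313) (nat_lit 137))))))))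
noncomputable def xc232 : XT := (XT.nd (nat_lit 1560) (nat_lit 1216) (nat_lit 0) (XT.nd (nat_lit 780) (nat_lit 1064) (nat_lit 0) (XT.nd (nat_lit 390) (nat_lit 836) (nat_lit 0) (XT.nd (nat_lit 156) (nat_lit 380) (nat_lit 0) (XT.nd (nat_lit 78) (nat_lit 0) (nat_lit 0) (XT.lf (nat_lit 0) (nat_lit 1562079594) (nat_lit 304) (nat_lit 74734425956) (nat_lit 380) (nat_lit 11599647310) (nat_lit 64) (nat_lit 5) (nat_lit 68) (nat_lit 5) (nat_lit 69) (nat_lit 5) (nat_lit 331) (nat_lit 313) (nat_lit 136)) (XT.lf (nat_lit 0) (nat_lit 46634150503) (nat_lit 304) (nat_lit 42483242665) (nat_lit 380) (nat_lit 1377174988) (nat_lit 64) (nat_lit 5) (nat_lit 68) (nat_lit 5) (nat_lit 69) (nat_lit 5) (nat_lit 332) (nat_lit 313) (nat_lit 135))) (XT.nd (nat_lit 78) (nat_lit 0) (nat_lit 0) (XT.lf (nat_lit 0) (nat_lit 609637157) (nat_lit 304) (nat_lit 8456208597) (nat_lit 380) (nat_lit 84149311040) (nat_lit 59) (nat_lit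 5) (nat_lit 63) (nat_lit 5) (nat_lit 64) (nat_lit 5) (nat_lit 333) (nat_lit 313) (nat_lit 134)) (XT.nd (nat_lit 78) (nat_lit 0) (nat_lit 0) (XT.lf (nat_lit 0) (nat_lit 21164893019) (nat_lit 380) (nat_lit 47669988690) (nat_lit 76) (nat_lit 27176757407) (nat_lit 59) (nat_lit 5) (nat_lit 64) (nat_lit 5) (nat_lit 60) (nat_lit 5) (nat_lit 334) (nat_lit 313) (nat_lit 133)) (XT.lf (nat_lit 0) (nat_lit 34006936232) (nat_lit 380) (nat_lit 627006901) (nat_lit 76) (nat_lit 64307101159) (nat_lit 59) (nat_lit 5) (nat_lit 64) (nat_lit 5) (nat_lit 60) (nat_lit 5) (nat_lit 335) (nat_lit 313) (nat_lit 132))))) (XT.nd (nat_lit 156) (nat_lit 532) (nat_lit 0) (XT.nd (nat_lit 78) (nat_lit 0) (nat_lit 0) (XT.lf (nat_lit 0) (nat_lit 48309929574) (nat_lit 380) (nat_lit 51630520515) (nat_lit 76) (nat_lit 2035528114) (nat_lit 55) (nat_lit 5) (nat_lit 60) (nat_lit 5) (nat_lit 56) (nat_lit 5) (nat_lit 336) (nat_lit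 313) (nat_lit 131)) (XT.lf (nat_lit 0) (nat_lit 63906094231) (nat_lit 380) (nat_lit 1842438988) (nat_lit 76) (nat_lit 39385225340) (nat_lit 55) (nat_lit 5) (nat_lit 60) (nat_lit 5) (nat_lit 56) (nat_lit 5) (nat_lit 337) (nat_lit 313) (nat_lit 130))) (XT.nd (nat_lit 78) (nat_lit 304) (nat_lit 0) (XT.lf (nat_lit 0) (nat_lit 52101986768) (nat_lit 228) (nat_lit 28993023475) (nat_lit 304) (nat_lit 27313771326) (nat_lit 52) (nat_lit 5) (nat_lit 55) (nat_lit 5) (nat_lit 56) (nat_lit 5) (nat_lit 338) (nat_lit 313) (nat_lit 129)) (XT.nd (nat_lit 78) (nat_lit 304) (nat_lit 0) (XT.lf (nat_lit 0) (nat_lit 99324470653) (nat_lit 304) (nat_lit 3189456936) (nat_lit 76) (nat_lit 9324573965) (nat_lit 52) (nat_lit 5) (nat_lit 56) (nat_lit 5) (nat_lit 53) (nat_lit 5) (nat_lit 339) (nat_lit 313) (nat_lit 128)) (XT.lf (nat_lit 0) (nat_lit 4265682021) (nat_lit 304) (nat_lit 61612004466) (nat_lit 76) (nat_lit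 49492818424) (nat_lit 48) (nat_lit 5) (nat_lit 52) (nat_lit 5) (nat_lit 49) (nat_lit 5) (nat_lit 340) (nat_lit 313) (nat_lit 127)))))) (XT.nd (nat_lit 390) (nat_lit 608) (nat_lit 0) (XT.nd (nat_lit 156) (nat_lit 228) (nat_lit 0) (XT.nd (nat_lit 78) (nat_lit 228) (nat_lit 0) (XT.lf (nat_lit 0) (nat_lit 21518253814) (nat_lit 304) (nat_lit 5618491372) (nat_lit 76) (nat_lit 91929385162) (nat_lit 48) (nat_lit 5) (nat_lit 52) (nat_lit 5) (nat_lit 49) (nat_lit 5) (nat_lit 341) (nat_lit 313) (nat_lit 126)) (XT.lf (nat_lit 0) (nat_lit 40716123735) (nat_lit 304) (nat_lit 68196885328) (nat_lit 76) (nat_lit 13979395138) (nat_lit 45) (nat_lit 5) (nat_lit 49) (nat_lit 5) (nat_lit 46) (nat_lit 5) (nat_lit 342) (nat_lit 313) (nat_lit 125))) (XT.nd (nat_lit 78) (nat_lit 228) (nat_lit 0) (XT.lf (nat_lit 0) (nat_lit 61415022072) (nat_lit 304) (nat_lit 9131984310) (nat_lit 76) (nat_lit 56335929212) (nat_lit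 45) (nat_lit 5) (nat_lit 49) (nat_lit 5) (nat_lit 46) (nat_lit 5) (nat_lit 343) (nat_lit 313) (nat_lit 124)) (XT.nd (nat_lit 78) (nat_lit 0) (nat_lit 0) (XT.lf (nat_lit 0) (nat_lit 54634210473) (nat_lit 228) (nat_lit 29367227522) (nat_lit 304) (nat_lit 47028927490) (nat_lit 42) (nat_lit 5) (nat_lit 45) (nat_lit 5) (nat_lit 46) (nat_lit 5) (nat_lit 344) (nat_lit 313) (nat_lit 123)) (XT.lf (nat_lit 0) (nat_lit 108090526132) (nat_lit 304) (nat_lit 13691382342) (nat_lit 76) (nat_lit 13584591362) (nat_lit 42) (nat_lit 5) (nat_lit 46) (nat_lit 5) (nat_lit 43) (nat_lit 5) (nat_lit 345) (nat_lit 313) (nat_lit 122))))) (XT.nd (nat_lit 156) (nat_lit 380) (nat_lit 0) (XT.nd (nat_lit 78) (nat_lit 76) (nat_lit 0) (XT.lf (nat_lit 0) (nat_lit 53374963422) (nat_lit 152) (nat_lit 81323475505) (nat_lit 228) (nat_lit 5155283976) (nat_lit 40) (nat_lit 5) (nat_lit 42) (nat_lit 5) (nat_lit 43) (nat_lit 5)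 (nat_lit 346) (nat_lit 313) (nat_lit 121)) (XT.lf (nat_lit 0) (nat_lit 17728323382) (nat_lit 228) (nat_lit 20570272158) (nat_lit 76) (nat_lit 106240840650) (nat_lit 39) (nat_lit 5) (nat_lit 42) (nat_lit 5) (nat_lit 40) (nat_lit 5) (nat_lit 347) (nat_lit 313) (nat_lit 120))) (XT.nd (nat_lit 78) (nat_lit 152) (nat_lit 0) (XT.lf (nat_lit 0) (nat_lit 42487127681) (nat_lit 304) (nat_lit 99383856010) (nat_lit 76) (nat_lit 7539012854) (nat_lit 36) (nat_lit 5) (nat_lit 40) (nat_lit 5) (nat_lit 37) (nat_lit 5) (nat_lit 348) (nat_lit 313) (nat_lit 119)) (XT.nd (nat_lit 78) (nat_lit 152) (nat_lit 0) (XT.lf (nat_lit 0) (nat_lit 69465432331) (nat_lit 304) (nat_lit 30274247716) (nat_lit 76) (nat_lit 54735327284) (nat_lit 36) (nat_lit 5) (nat_lit 40) (nat_lit 5) (nat_lit 37) (nat_lit 5) (nat_lit 349) (nat_lit 313) (nat_lit 118)) (XT.lf (nat_lit 0) (nat_lit 43688624416) (nat_lit 152) (nat_lit 54785782855)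 (nat_lit 228) (nat_lit 61284774033) (nat_lit 34) (nat_lit 5) (nat_lit 36) (nat_lit 5) (nat_lit 37) (nat_lit 5) (nat_lit 350) (nat_lit 313) (nat_lit 117))))))) (XT.nd (nat_lit 780) (nat_lit 532) (nat_lit 0) (XT.nd (nat_lit 390) (nat_lit 304) (nat_lit 0) (XT.nd (nat_lit 156) (nat_lit 228) (nat_lit 0) (XT.nd (nat_lit 78) (nat_lit 152) (nat_lit 0) (XT.lf (nat_lit 0) (nat_lit 122400176753) (nat_lit 152) (nat_lit 7046024878) (nat_lit 228) (nat_lit 35835744193) (nat_lit 34) (nat_lit 5) (nat_lit 36) (nat_lit 5) (nat_lit 37) (nat_lit 5) (nat_lit 351) (nat_lit 313) (nat_lit 116)) (XT.lf (nat_lit 0) (nat_lit 34394169437) (nat_lit 152) (nat_lit 128781691528) (nat_lit 228) (nat_lit 7844524204) (nat_lit 32) (nat_lit 5) (nat_lit 34) (nat_lit 5) (nat_lit 35) (nat_lit 5) (nat_lit 352) (nat_lit 313) (nat_lit 115))) (XT.nd (nat_lit 78) (nat_lit 152) (nat_lit 0) (XT.lf (nat_lit 0) (nat_lit 21709956681)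 (nat_lit 228) (nat_lit 60451092568) (nat_lit 76) (nat_lit 94825211956) (nat_lit 31) (nat_lit 5) (nat_lit 34) (nat_lit 5) (nat_lit 32) (nat_lit 5) (nat_lit 353) (nat_lit 313) (nat_lit 114)) (XT.nd (nat_lit 78) (nat_lit 0) (nat_lit 0) (XT.lf (nat_lit 0) (nat_lit 20045277327) (nat_lit 152) (nat_lit 32745912413) (nat_lit 228) (nat_lit 130437178900) (nat_lit 29) (nat_lit 5) (nat_lit 31) (nat_lit 5) (nat_lit 32) (nat_lit 5) (nat_lit 354) (nat_lit 313) (nat_lit 113)) (XT.lf (nat_lit 0) (nat_lit 86765561850) (nat_lit 228) (nat_lit 83382303169) (nat_lit 76) (nat_lit 19567762855) (nat_lit 29) (nat_lit 5) (nat_lit 32) (nat_lit 5) (nat_lit 30) (nat_lit 5) (nat_lit 355) (nat_lit 313) (nat_lit 112))))) (XT.nd (nat_lit 156) (nat_lit 152) (nat_lit 0) (XT.nd (nat_lit 78) (nat_lit 152) (nat_lit 0) (XT.lf (nat_lit 0) (nat_lit 122975182286) (nat_lit 228) (nat_lit 128760005) (nat_lit 76) (nat_lit 73396481578)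 (nat_lit 29) (nat_lit 5) (nat_lit 32) (nat_lit 5) (nat_lit 30) (nat_lit 5) (nat_lit 356) (nat_lit 313) (nat_lit 111)) (XT.lf (nat_lit 0) (nat_lit 90173119322) (nat_lit 152) (nat_lit 72229744746) (nat_lit 228) (nat_lit 41151216851) (nat_lit 27) (nat_lit 5) (nat_lit 29) (nat_lit 5) (nat_lit 30) (nat_lit 5) (nat_lit 357) (nat_lit 313) (nat_lit 110))) (XT.nd (nat_lit 78) (nat_lit 152) (nat_lit 0) (XT.lf (nat_lit 0) (nat_lit 184994126079) (nat_lit 152) (nat_lit 18809715960) (nat_lit 228) (nat_lit 7156483435) (nat_lit 27) (nat_lit 5) (nat_lit 29) (nat_lit 5) (nat_lit 30) (nat_lit 5) (nat_lit 358) (nat_lit 313) (nat_lit 109)) (XT.nd (nat_lit 78) (nat_lit 0) (nat_lit 0) (XT.lf (nat_lit 0) (nat_lit 29285393893) (nat_lit 152) (nat_lit 151733694751) (nat_lit 76) (nat_lit 37612475897) (nat_lit 25) (nat_lit 5) (nat_lit 27) (nat_lit 5) (nat_lit 26) (nat_lit 5) (nat_lit 359) (nat_lit 313) (nat_lit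 108)) (XT.lf (nat_lit 0) (nat_lit 68063918636) (nat_lit 152) (nat_lit 61791060588) (nat_lit 76) (nat_lit 96787767674) (nat_lit 25) (nat_lit 5) (nat_lit 27) (nat_lit 5) (nat_lit 26) (nat_lit 5) (nat_lit 360) (nat_lit 313) (nat_lit 107)))))) (XT.nd (nat_lit 390) (nat_lit 228) (nat_lit 0) (XT.nd (nat_lit 156) (nat_lit 152) (nat_lit 0) (XT.nd (nat_lit 78) (nat_lit 0) (nat_lit 0) (XT.lf (nat_lit 0) (nat_lit 33727797474) (nat_lit 152) (nat_lit 75579912965) (nat_lit 228) (nat_lit 125720461106) (nat_lit 23) (nat_lit 5) (nat_lit 25) (nat_lit 5) (nat_lit 26) (nat_lit 5) (nat_lit 361) (nat_lit 313) (nat_lit 106)) (XT.lf (nat_lit 0) (nat_lit 136167443154) (nat_lit 152) (nat_lit 17492470951) (nat_lit 228) (nat_lit 90120642408) (nat_lit 23) (nat_lit 5) (nat_lit 25) (nat_lit 5) (nat_lit 26) (nat_lit 5) (nat_lit 362) (nat_lit 313) (nat_lit 105))) (XT.nd (nat_lit 78) (nat_lit 152) (nat_lit 0) (XT.lf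 (nat_lit 0) (nat_lit 200908644353) (nat_lit 228) (nat_lit 9921027707) (nat_lit 76) (nat_lit 42106943041) (nat_lit 23) (nat_lit 5) (nat_lit 26) (nat_lit 5) (nat_lit 24) (nat_lit 4) (nat_lit 363) (nat_lit 313) (nat_lit 104)) (XT.nd (nat_lit 78) (nat_lit 76) (nat_lit 0) (XT.lf (nat_lit 0) (nat_lit 95422648276) (nat_lit 76) (nat_lit 156873520326) (nat_lit 152) (nat_lit 10165490326) (nat_lit 22) (nat_lit 5) (nat_lit 23) (nat_lit 5) (nat_lit 24) (nat_lit 4) (nat_lit 364) (nat_lit 313) (nat_lit 103)) (XT.lf (nat_lit 0) (nat_lit 32879172968) (nat_lit 152) (nat_lit 66607297271) (nat_lit 76) (nat_lit 172941579279) (nat_lit 21) (nat_lit 5) (nat_lit 23) (nat_lit 5) (nat_lit 22) (nat_lit 5) (nat_lit 365) (nat_lit 313) (nat_lit 102))))) (XT.nd (nat_lit 156) (nat_lit 76) (nat_lit 0) (XT.nd (nat_lit 78) (nat_lit 0) (nat_lit 0) (XT.lf (nat_lit 0) (nat_lit 39957900397) (nat_lit 152) (nat_lit 38400188835)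 (nat_lit 228) (nat_lit 204495155847) (nat_lit 19) (nat_lit 5) (nat_lit 21) (nat_lit 5) (nat_lit 22) (nat_lit 5) (nat_lit 366) (nat_lit 313) (nat_lit 101)) (XT.lf (nat_lit 0) (nat_lit 127659144505) (nat_lit 228) (nat_lit 140000216932) (nat_lit 76) (nat_lit 26062929472) (nat_lit 19) (nat_lit 5) (nat_lit 22) (nat_lit 5) (nat_lit 20) (nat_lit 4) (nat_lit 367) (nat_lit 313) (nat_lit 100))) (XT.nd (nat_lit 78) (nat_lit 76) (nat_lit 0) (XT.lf (nat_lit 0) (nat_lit 180054567890) (nat_lit 228) (nat_lit 32590185641) (nat_lit 76) (nat_lit 92458569877) (nat_lit 19) (nat_lit 5) (nat_lit 22) (nat_lit 5) (nat_lit 20) (nat_lit 4) (nat_lit 368) (nat_lit 313) (nat_lit 99)) (XT.nd (nat_lit 36348) (nat_lit 0) (nat_lit 5472) (XT.lf (nat_lit 0) (nat_lit 82841466198) (nat_lit 76) (nat_lit 153521497082) (nat_lit 152) (nat_lit 80625784346) (nat_lit 18) (nat_lit 5) (nat_lit 19) (nat_lit 5) (nat_lit 20) (nat_lit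 4) (nat_lit 369) (nat_lit 313) (nat_lit 98)) (XT.lf (nat_lit 0) (nat_lit 11831505016) (nat_lit 0) (nat_lit 11831505016) (nat_lit 684) (nat_lit 4834877044) (nat_lit 90) (nat_lit 5) (nat_lit 90) (nat_lit 3) (nat_lit 99) (nat_lit 3) (nat_lit 314) (nat_lit 314) (nat_lit 152))))))))
noncomputable def xc233 : XT := (XT.nd (nat_lit 1560) (nat_lit 2128) (nat_lit 0) (XT.nd (nat_lit 780) (nat_lit 1824) (nat_lit 0) (XT.nd (nat_lit 390) (nat_lit 532) (nat_lit 0) (XT.nd (nat_lit 156) (nat_lit 0) (nat_lit 0) (XT.nd (nat_lit 78) (nat_lit 0) (nat_lit 0) (XT.lf (nat_lit 0) (nat_lit 48565220162) (nat_lit 684) (nat_lit 7546221138) (nat_lit 760) (nat_lit 2306386698) (nat_lit 90) (nat_lit 5) (nat_lit 99) (nat_lit 3) (nat_lit 100) (nat_lit 5) (nat_lit 315) (nat_lit 314) (nat_lit 151)) (XT.lf (nat_lit 76) (nat_lit 19773945031) (nat_lit 0) (nat_lit 30787882923) (nat_lit 760) (nat_lit 9314386631) (nat_lit 91)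 (nat_lit 5) (nat_lit 90) (nat_lit 5) (nat_lit 100) (nat_lit 5) (nat_lit 316) (nat_lit 314) (nat_lit 150))) (XT.nd (nat_lit 78) (nat_lit 0) (nat_lit 76) (XT.lf (nat_lit 76) (nat_lit 48721442667) (nat_lit 0) (nat_lit 4063471806) (nat_lit 760) (nat_lit 8616275931) (nat_lit 91) (nat_lit 5) (nat_lit 90) (nat_lit 5) (nat_lit 100) (nat_lit 5) (nat_lit 317) (nat_lit 314) (nat_lit 149)) (XT.nd (nat_lit 78) (nat_lit 0) (nat_lit 0) (XT.lf (nat_lit 76) (nat_lit 16258927288) (nat_lit 0) (nat_lit 39487649811) (nat_lit 760) (nat_lit 7224469032) (nat_lit 92) (nat_lit 5) (nat_lit 91) (nat_lit 5) (nat_lit 101) (nat_lit 5) (nat_lit 318) (nat_lit 314) (nat_lit 148)) (XT.lf (nat_lit 76) (nat_lit 47015245483) (nat_lit 0) (nat_lit 12120307477) (nat_lit 760) (nat_lit 5469882283) (nat_lit 92) (nat_lit 5) (nat_lit 91) (nat_lit 5) (nat_lit 101) (nat_lit 5) (nat_lit 319) (nat_lit 314) (nat_lit 147))))) (XT.nd (nat_lit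 156) (nat_lit 684) (nat_lit 0) (XT.nd (nat_lit 78) (nat_lit 0) (nat_lit 0) (XT.lf (nat_lit 76) (nat_lit 13148547910) (nat_lit 0) (nat_lit 50009136199) (nat_lit 760) (nat_lit 3140676379) (nat_lit 93) (nat_lit 5) (nat_lit 92) (nat_lit 5) (nat_lit 102) (nat_lit 5) (nat_lit 320) (nat_lit 314) (nat_lit 146)) (XT.lf (nat_lit 76) (nat_lit 45828951796) (nat_lit 0) (nat_lit 22044401380) (nat_lit 760) (nat_lit 177959158) (nat_lit 93) (nat_lit 5) (nat_lit 92) (nat_lit 5) (nat_lit 102) (nat_lit 5) (nat_lit 321) (nat_lit 314) (nat_lit 145))) (XT.nd (nat_lit 78) (nat_lit 0) (nat_lit 0) (XT.lf (nat_lit 0) (nat_lit 3120408299) (nat_lit 760) (nat_lit 59456758612) (nat_lit 836) (nat_lit 7298387793) (nat_lit 83) (nat_lit 5) (nat_lit 93) (nat_lit 5) (nat_lit 94) (nat_lit 5) (nat_lit 322) (nat_lit 314) (nat_lit 144)) (XT.nd (nat_lit 78) (nat_lit 0) (nat_lit 0) (XT.lf (nat_lit 0) (nat_lit 7320722843) (nat_lit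 760) (nat_lit 26679878192) (nat_lit 836) (nat_lit 37753113471) (nat_lit 83) (nat_lit 5) (nat_lit 93) (nat_lit 5) (nat_lit 94) (nat_lit 5) (nat_lit 323) (nat_lit 314) (nat_lit 143)) (XT.lf (nat_lit 76) (nat_lit 7990903688) (nat_lit 0) (nat_lit 3864061863) (nat_lit 836) (nat_lit 61864622695) (nat_lit 84) (nat_lit 5) (nat_lit 83) (nat_lit 5) (nat_lit 94) (nat_lit 5) (nat_lit 324) (nat_lit 314) (nat_lit 142)))))) (XT.nd (nat_lit 390) (nat_lit 988) (nat_lit 0) (XT.nd (nat_lit 156) (nat_lit 380) (nat_lit 0) (XT.nd (nat_lit 78) (nat_lit 532) (nat_lit 0) (XT.lf (nat_lit 0) (nat_lit 17508060634) (nat_lit 760) (nat_lit 30881528484) (nat_lit 76) (nat_lit 27349561037) (nat_lit 84) (nat_lit 5) (nat_lit 94) (nat_lit 5) (nat_lit 85) (nat_lit 5) (nat_lit 325) (nat_lit 314) (nat_lit 141)) (XT.lf (nat_lit 0) (nat_lit 5830554772) (nat_lit 532) (nat_lit 17766854792) (nat_lit 608) (nat_lit 54254602064) (nat_lit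 77) (nat_lit 5) (nat_lit 84) (nat_lit 5) (nat_lit 85) (nat_lit 5) (nat_lit 326) (nat_lit 314) (nat_lit 140))) (XT.nd (nat_lit 78) (nat_lit 380) (nat_lit 0) (XT.lf (nat_lit 0) (nat_lit 30746664658) (nat_lit 608) (nat_lit 34827910799) (nat_lit 76) (nat_lit 14458170138) (nat_lit 77) (nat_lit 5) (nat_lit 85) (nat_lit 5) (nat_lit 78) (nat_lit 5) (nat_lit 327) (nat_lit 314) (nat_lit 139)) (XT.nd (nat_lit 78) (nat_lit 0) (nat_lit 0) (XT.lf (nat_lit 0) (nat_lit 4063413811) (nat_lit 380) (nat_lit 34543955389) (nat_lit 456) (nat_lit 43697449016) (nat_lit 72) (nat_lit 5) (nat_lit 77) (nat_lit 5) (nat_lit 78) (nat_lit 5) (nat_lit 328) (nat_lit 314) (nat_lit 138)) (XT.lf (nat_lit 0) (nat_lit 46107768805) (nat_lit 380) (nat_lit 1342476562) (nat_lit 456) (nat_lit 37210793512) (nat_lit 72) (nat_lit 5) (nat_lit 77) (nat_lit 5) (nat_lit 78) (nat_lit 5) (nat_lit 329) (nat_lit 314) (nat_lit 137))))) (XT.nd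 (nat_lit 156) (nat_lit 684) (nat_lit 0) (XT.nd (nat_lit 78) (nat_lit 0) (nat_lit 0) (XT.lf (nat_lit 0) (nat_lit 2681071289) (nat_lit 304) (nat_lit 54618721724) (nat_lit 380) (nat_lit 29807052348) (nat_lit 68) (nat_lit 5) (nat_lit 72) (nat_lit 5) (nat_lit 73) (nat_lit 5) (nat_lit 330) (nat_lit 314) (nat_lit 136)) (XT.lf (nat_lit 0) (nat_lit 47292203752) (nat_lit 304) (nat_lit 21023548168) (nat_lit 380) (nat_lit 21325494669) (nat_lit 68) (nat_lit 5) (nat_lit 72) (nat_lit 5) (nat_lit 73) (nat_lit 5) (nat_lit 331) (nat_lit 314) (nat_lit 135))) (XT.nd (nat_lit 78) (nat_lit 380) (nat_lit 0) (XT.lf (nat_lit 0) (nat_lit 1661528408) (nat_lit 304) (nat_lit 78468818086) (nat_lit 380) (nat_lit 12159630560) (nat_lit 64) (nat_lit 5) (nat_lit 68) (nat_lit 5) (nat_lit 69) (nat_lit 5) (nat_lit 332) (nat_lit 314) (nat_lit 134)) (XT.nd (nat_lit 78) (nat_lit 380) (nat_lit 0) (XT.lf (nat_lit 0) (nat_lit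 48986186442) (nat_lit 304) (nat_lit 44605186543) (nat_lit 380) (nat_lit 1426986960) (nat_lit 64) (nat_lit 5) (nat_lit 68) (nat_lit 5) (nat_lit 69) (nat_lit 5) (nat_lit 333) (nat_lit 314) (nat_lit 133)) (XT.lf (nat_lit 0) (nat_lit 660748485) (nat_lit 304) (nat_lit 8876270842) (nat_lit 380) (nat_lit 88337973024) (nat_lit 59) (nat_lit 5) (nat_lit 63) (nat_lit 5) (nat_lit 64) (nat_lit 5) (nat_lit 334) (nat_lit 314) (nat_lit 132))))))) (XT.nd (nat_lit 780) (nat_lit 1064) (nat_lit 0) (XT.nd (nat_lit 390) (nat_lit 532) (nat_lit 0) (XT.nd (nat_lit 156) (nat_lit 532) (nat_lit 0) (XT.nd (nat_lit 78) (nat_lit 0) (nat_lit 0) (XT.lf (nat_lit 0) (nat_lit 22240208329) (nat_lit 380) (nat_lit 50033003509) (nat_lit 76) (nat_lit 28538128826) (nat_lit 59) (nat_lit 5) (nat_lit 64) (nat_lit 5) (nat_lit 60) (nat_lit 5) (nat_lit 335) (nat_lit 314) (nat_lit 131)) (XT.lf (nat_lit 0) (nat_lit 35723540814) (nat_lit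 380) (nat_lit 638848088) (nat_lit 76) (nat_lit 67524869121) (nat_lit 59) (nat_lit 5) (nat_lit 64) (nat_lit 5) (nat_lit 60) (nat_lit 5) (nat_lit 336) (nat_lit 314) (nat_lit 130))) (XT.nd (nat_lit 78) (nat_lit 228) (nat_lit 0) (XT.lf (nat_lit 0) (nat_lit 50741262582) (nat_lit 380) (nat_lit 54192091766) (nat_lit 76) (nat_lit 2140606562) (nat_lit 55) (nat_lit 5) (nat_lit 60) (nat_lit 5) (nat_lit 56) (nat_lit 5) (nat_lit 337) (nat_lit 314) (nat_lit 129)) (XT.nd (nat_lit 78) (nat_lit 228) (nat_lit 0) (XT.lf (nat_lit 0) (nat_lit 67116481352) (nat_lit 380) (nat_lit 1915556390) (nat_lit 76) (nat_lit 41357631409) (nat_lit 55) (nat_lit 5) (nat_lit 60) (nat_lit 5) (nat_lit 56) (nat_lit 5) (nat_lit 338) (nat_lit 314) (nat_lit 128)) (XT.lf (nat_lit 0) (nat_lit 54725784128) (nat_lit 228) (nat_lit 30438632755) (nat_lit 304) (nat_lit 28664048848) (nat_lit 52) (nat_lit 5) (nat_lit 55) (nat_lit 5) (nat_lit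 56) (nat_lit 5) (nat_lit 339) (nat_lit 314) (nat_lit 127))))) (XT.nd (nat_lit 156) (nat_lit 228) (nat_lit 0) (XT.nd (nat_lit 78) (nat_lit 304) (nat_lit 0) (XT.lf (nat_lit 0) (nat_lit 104304712503) (nat_lit 304) (nat_lit 3330463275) (nat_lit 76) (nat_lit 9794528881) (nat_lit 52) (nat_lit 5) (nat_lit 56) (nat_lit 5) (nat_lit 53) (nat_lit 5) (nat_lit 340) (nat_lit 314) (nat_lit 126)) (XT.lf (nat_lit 0) (nat_lit 4492843492) (nat_lit 304) (nat_lit 64673958081) (nat_lit 76) (nat_lit 51971515616) (nat_lit 48) (nat_lit 5) (nat_lit 52) (nat_lit 5) (nat_lit 49) (nat_lit 5) (nat_lit 341) (nat_lit 314) (nat_lit 125))) (XT.nd (nat_lit 78) (nat_lit 228) (nat_lit 0) (XT.lf (nat_lit 0) (nat_lit 22607383047) (nat_lit 304) (nat_lit 5881657266) (nat_lit 76) (nat_lit 96529717536) (nat_lit 48) (nat_lit 5) (nat_lit 52) (nat_lit 5) (nat_lit 49) (nat_lit 5) (nat_lit 342) (nat_lit 314) (nat_lit 124)) (XT.nd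 (nat_lit 78) (nat_lit 0) (nat_lit 0) (XT.lf (nat_lit 0) (nat_lit 42764861907) (nat_lit 304) (nat_lit 71588669038) (nat_lit 76) (nat_lit 14682829544) (nat_lit 45) (nat_lit 5) (nat_lit 49) (nat_lit 5) (nat_lit 46) (nat_lit 5) (nat_lit 343) (nat_lit 314) (nat_lit 123)) (XT.lf (nat_lit 0) (nat_lit 64498089352) (nat_lit 304) (nat_lit 9571382995) (nat_lit 76) (nat_lit 59156977719) (nat_lit 45) (nat_lit 5) (nat_lit 49) (nat_lit 5) (nat_lit 46) (nat_lit 5) (nat_lit 344) (nat_lit 314) (nat_lit 122)))))) (XT.nd (nat_lit 390) (nat_lit 380) (nat_lit 0) (XT.nd (nat_lit 156) (nat_lit 456) (nat_lit 0) (XT.nd (nat_lit 78) (nat_lit 0) (nat_lit 0) (XT.lf (nat_lit 0) (nat_lit 57382844098) (nat_lit 228) (nat_lit 30830659704) (nat_lit 304) (nat_lit 49367764548) (nat_lit 42) (nat_lit 5) (nat_lit 45) (nat_lit 5) (nat_lit 46) (nat_lit 5) (nat_lit 345) (nat_lit 314) (nat_lit 121)) (XT.lf (nat_lit 0) (nat_lit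 113506548502) (nat_lit 304) (nat_lit 14359321410) (nat_lit 76) (nat_lit 14268365148) (nat_lit 42) (nat_lit 5) (nat_lit 46) (nat_lit 5) (nat_lit 43) (nat_lit 5) (nat_lit 346) (nat_lit 314) (nat_lit 120))) (XT.nd (nat_lit 78) (nat_lit 304) (nat_lit 0) (XT.lf (nat_lit 0) (nat_lit 56060073415) (nat_lit 152) (nat_lit 85384491543) (nat_lit 228) (nat_lit 5401269633) (nat_lit 40) (nat_lit 5) (nat_lit 42) (nat_lit 5) (nat_lit 43) (nat_lit 5) (nat_lit 347) (nat_lit 314) (nat_lit 119)) (XT.nd (nat_lit 78) (nat_lit 228) (nat_lit 0) (XT.lf (nat_lit 0) (nat_lit 18625598176) (nat_lit 228) (nat_lit 21582831115) (nat_lit 76) (nat_lit 111557422850) (nat_lit 39) (nat_lit 5) (nat_lit 42) (nat_lit 5) (nat_lit 40) (nat_lit 5) (nat_lit 348) (nat_lit 314) (nat_lit 118)) (XT.lf (nat_lit 0) (nat_lit 44622150483) (nat_lit 304) (nat_lit 104336889643) (nat_lit 76) (nat_lit 7920910614) (nat_lit 36) (nat_lit 5) (nat_lit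 40) (nat_lit 5) (nat_lit 37) (nat_lit 5) (nat_lit 349) (nat_lit 314) (nat_lit 117))))) (XT.nd (nat_lit 156) (nat_lit 228) (nat_lit 0) (XT.nd (nat_lit 78) (nat_lit 152) (nat_lit 0) (XT.lf (nat_lit 0) (nat_lit 72948862441) (nat_lit 304) (nat_lit 31772570418) (nat_lit 76) (nat_lit 57476805188) (nat_lit 36) (nat_lit 5) (nat_lit 40) (nat_lit 5) (nat_lit 37) (nat_lit 5) (nat_lit 350) (nat_lit 314) (nat_lit 116)) (XT.lf (nat_lit 0) (nat_lit 45888197100) (nat_lit 152) (nat_lit 57519841691) (nat_lit 228) (nat_lit 64338594853) (nat_lit 34) (nat_lit 5) (nat_lit 36) (nat_lit 5) (nat_lit 37) (nat_lit 5) (nat_lit 351) (nat_lit 314) (nat_lit 115))) (XT.nd (nat_lit 78) (nat_lit 228) (nat_lit 0) (XT.lf (nat_lit 0) (nat_lit 128534606031) (nat_lit 152) (nat_lit 7393344877) (nat_lit 228) (nat_lit 37617609611) (nat_lit 34) (nat_lit 5) (nat_lit 36) (nat_lit 5) (nat_lit 37) (nat_lit 5) (nat_lit 352) (nat_lit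 314) (nat_lit 114)) (XT.nd (nat_lit 78) (nat_lit 76) (nat_lit 0) (XT.lf (nat_lit 0) (nat_lit 36128464056) (nat_lit 152) (nat_lit 135215481467) (nat_lit 228) (nat_lit 8226984201) (nat_lit 32) (nat_lit 5) (nat_lit 34) (nat_lit 5) (nat_lit 35) (nat_lit 5) (nat_lit 353) (nat_lit 314) (nat_lit 113)) (XT.lf (nat_lit 0) (nat_lit 22804457976) (nat_lit 228) (nat_lit 63459448745) (nat_lit 76) (nat_lit 99571208184) (nat_lit 31) (nat_lit 5) (nat_lit 34) (nat_lit 5) (nat_lit 32) (nat_lit 5) (nat_lit 354) (nat_lit 314) (nat_lit 112))))))))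
noncomputable def xc234 : XT := (XT.nd (nat_lit 37908) (nat_lit 0) (nat_lit 2736) (XT.nd (nat_lit 780) (nat_lit 304) (nat_lit 0) (XT.nd (nat_lit 390) (nat_lit 304) (nat_lit 0) (XT.nd (nat_lit 156) (nat_lit 152) (nat_lit 0) (XT.nd (nat_lit 78) (nat_lit 0) (nat_lit 0) (XT.lf (nat_lit 0) (nat_lit 21061510637) (nat_lit 152) (nat_lit 34378031416) (nat_lit 228) (nat_lit 136949796627) (nat_lit 29) (nat_lit 5) (nat_lit 31) (nat_lit 5) (nat_lit 32) (nat_lit 5) (nat_lit 355) (nat_lit 314) (nat_lit 111)) (XT.lf (nat_lit 0) (nat_lit 91112291036) (nat_lit 228) (nat_lit 87537764029) (nat_lit 76) (nat_lit 20550923315) (nat_lit 29) (nat_lit 5) (nat_lit 32) (nat_lit 5) (nat_lit 30) (nat_lit 5) (nat_lit 356) (nat_lit 314) (nat_lit 110))) (XT.nd (nat_lit 78) (nat_lit 152) (nat_lit 0) (XT.lf (nat_lit 0) (nat_lit 129131990061) (nat_lit 228) (nat_lit 122193912) (nat_lit 76) (nat_lit 77070850721) (nat_lit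 29) (nat_lit 5) (nat_lit 32) (nat_lit 5) (nat_lit 30) (nat_lit 5) (nat_lit 357) (nat_lit 314) (nat_lit 109)) (XT.nd (nat_lit 78) (nat_lit 0) (nat_lit 0) (XT.lf (nat_lit 0) (nat_lit 94694569638) (nat_lit 152) (nat_lit 75836302779) (nat_lit 228) (nat_lit 43200511732) (nat_lit 27) (nat_lit 5) (nat_lit 29) (nat_lit 5) (nat_lit 30) (nat_lit 5) (nat_lit 358) (nat_lit 314) (nat_lit 108)) (XT.lf (nat_lit 0) (nat_lit 194256017478) (nat_lit 152) (nat_lit 19745507278) (nat_lit 228) (nat_lit 7506435262) (nat_lit 27) (nat_lit 5) (nat_lit 29) (nat_lit 5) (nat_lit 30) (nat_lit 5) (nat_lit 359) (nat_lit 314) (nat_lit 107))))) (XT.nd (nat_lit 156) (nat_lit 152) (nat_lit 0) (XT.nd (nat_lit 78) (nat_lit 0) (nat_lit 0) (XT.lf (nat_lit 0) (nat_lit 30757187100) (nat_lit 152) (nat_lit 159307832176) (nat_lit 76) (nat_lit 39497740787) (nat_lit 25) (nat_lit 5) (nat_lit 27) (nat_lit 5) (nat_lit 26) (nat_lit 5)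 (nat_lit 360) (nat_lit 314) (nat_lit 106)) (XT.lf (nat_lit 0) (nat_lit 71474279818) (nat_lit 152) (nat_lit 64868663796) (nat_lit 76) (nat_lit 101631576149) (nat_lit 25) (nat_lit 5) (nat_lit 27) (nat_lit 5) (nat_lit 26) (nat_lit 5) (nat_lit 361) (nat_lit 314) (nat_lit 105))) (XT.nd (nat_lit 78) (nat_lit 0) (nat_lit 0) (XT.lf (nat_lit 0) (nat_lit 35425944430) (nat_lit 152) (nat_lit 79354159139) (nat_lit 228) (nat_lit 131999120251) (nat_lit 23) (nat_lit 5) (nat_lit 25) (nat_lit 5) (nat_lit 26) (nat_lit 5) (nat_lit 362) (nat_lit 314) (nat_lit 104)) (XT.nd (nat_lit 78) (nat_lit 0) (nat_lit 0) (XT.lf (nat_lit 0) (nat_lit 142987012533) (nat_lit 152) (nat_lit 18362571191) (nat_lit 228) (nat_lit 94619661279) (nat_lit 23) (nat_lit 5) (nat_lit 25) (nat_lit 5) (nat_lit 26) (nat_lit 5) (nat_lit 363) (nat_lit 314) (nat_lit 103)) (XT.lf (nat_lit 0) (nat_lit 210960499937) (nat_lit 228) (nat_lit 10406159154)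 (nat_lit 76) (nat_lit 44216460225) (nat_lit 23) (nat_lit 5) (nat_lit 26) (nat_lit 5) (nat_lit 24) (nat_lit 4) (nat_lit 364) (nat_lit 314) (nat_lit 102)))))) (XT.nd (nat_lit 36738) (nat_lit 0) (nat_lit 5396) (XT.nd (nat_lit 156) (nat_lit 152) (nat_lit 0) (XT.nd (nat_lit 78) (nat_lit 76) (nat_lit 0) (XT.lf (nat_lit 0) (nat_lit 100204524501) (nat_lit 76) (nat_lit 164712737764) (nat_lit 152) (nat_lit 10667160233) (nat_lit 22) (nat_lit 5) (nat_lit 23) (nat_lit 5) (nat_lit 24) (nat_lit 4) (nat_lit 365) (nat_lit 314) (nat_lit 101)) (XT.lf (nat_lit 0) (nat_lit 34529220398) (nat_lit 152) (nat_lit 69927223971) (nat_lit 76) (nat_lit 181592698545) (nat_lit 21) (nat_lit 5) (nat_lit 23) (nat_lit 5) (nat_lit 22) (nat_lit 5) (nat_lit 366) (nat_lit 314) (nat_lit 100))) (XT.nd (nat_lit 78) (nat_lit 0) (nat_lit 0) (XT.lf (nat_lit 0) (nat_lit 41966065222) (nat_lit 152) (nat_lit 40315887652) (nat_lit 228)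 (nat_lit 214713652081) (nat_lit 19) (nat_lit 5) (nat_lit 21) (nat_lit 5) (nat_lit 22) (nat_lit 5) (nat_lit 367) (nat_lit 314) (nat_lit 99)) (XT.nd (nat_lit 78) (nat_lit 0) (nat_lit 0) (XT.lf (nat_lit 0) (nat_lit 134047841237) (nat_lit 228) (nat_lit 146990223128) (nat_lit 76) (nat_lit 27370049906) (nat_lit 19) (nat_lit 5) (nat_lit 22) (nat_lit 5) (nat_lit 20) (nat_lit 4) (nat_lit 368) (nat_lit 314) (nat_lit 98)) (XT.lf (nat_lit 0) (nat_lit 189062762481) (nat_lit 228) (nat_lit 34210166684) (nat_lit 76) (nat_lit 97085283095) (nat_lit 19) (nat_lit 5) (nat_lit 22) (nat_lit 5) (nat_lit 20) (nat_lit 4) (nat_lit 369) (nat_lit 314) (nat_lit 97))))) (XT.nd (nat_lit 156) (nat_lit 0) (nat_lit 0) (XT.nd (nat_lit 78) (nat_lit 0) (nat_lit 0) (XT.lf (nat_lit 0) (nat_lit 12432358022) (nat_lit 0) (nat_lit 12432358022) (nat_lit 684) (nat_lit 5057100174) (nat_lit 90) (nat_lit 5) (nat_lit 90) (nat_lit 3)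 (nat_lit 99) (nat_lit 3) (nat_lit 315) (nat_lit 315) (nat_lit 150)) (XT.lf (nat_lit 0) (nat_lit 51028549092) (nat_lit 684) (nat_lit 7903745875) (nat_lit 760) (nat_lit 2404599730) (nat_lit 90) (nat_lit 5) (nat_lit 99) (nat_lit 3) (nat_lit 100) (nat_lit 5) (nat_lit 316) (nat_lit 315) (nat_lit 149))) (XT.nd (nat_lit 78) (nat_lit 0) (nat_lit 0) (XT.lf (nat_lit 76) (nat_lit 20782109469) (nat_lit 0) (nat_lit 32341511841) (nat_lit 760) (nat_lit 9744650997) (nat_lit 91) (nat_lit 5) (nat_lit 90) (nat_lit 5) (nat_lit 100) (nat_lit 5) (nat_lit 317) (nat_lit 315) (nat_lit 148)) (XT.nd (nat_lit 78) (nat_lit 0) (nat_lit 76) (XT.lf (nat_lit 76) (nat_lit 51176054977) (nat_lit 0) (nat_lit 4280202321) (nat_lit 760) (nat_lit 9013323094) (nat_lit 91) (nat_lit 5) (nat_lit 90) (nat_lit 5) (nat_lit 100) (nat_lit 5) (nat_lit 318) (nat_lit 315) (nat_lit 147)) (XT.lf (nat_lit 76) (nat_lit 17091965646) (nat_lit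 0) (nat_lit 41472621086) (nat_lit 760) (nat_lit 7553416069) (nat_lit 92) (nat_lit 5) (nat_lit 91) (nat_lit 5) (nat_lit 101) (nat_lit 5) (nat_lit 319) (nat_lit 315) (nat_lit 146))))))) (XT.nd (nat_lit 780) (nat_lit 1292) (nat_lit 0) (XT.nd (nat_lit 390) (nat_lit 836) (nat_lit 0) (XT.nd (nat_lit 156) (nat_lit 608) (nat_lit 0) (XT.nd (nat_lit 78) (nat_lit 0) (nat_lit 76) (XT.lf (nat_lit 76) (nat_lit 49385142989) (nat_lit 0) (nat_lit 12736407408) (nat_lit 760) (nat_lit 5712636955) (nat_lit 92) (nat_lit 5) (nat_lit 91) (nat_lit 5) (nat_lit 101) (nat_lit 5) (nat_lit 320) (nat_lit 315) (nat_lit 145)) (XT.lf (nat_lit 76) (nat_lit 13826451956) (nat_lit 0) (nat_lit 52517114476) (nat_lit 760) (nat_lit 3268256304) (nat_lit 93) (nat_lit 5) (nat_lit 92) (nat_lit 5) (nat_lit 102) (nat_lit 5) (nat_lit 321) (nat_lit 315) (nat_lit 144))) (XT.nd (nat_lit 78) (nat_lit 684) (nat_lit 0) (XT.lf (nat_lit 76)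 (nat_lit 48139900958) (nat_lit 0) (nat_lit 23153784751) (nat_lit 760) (nat_lit 158805789) (nat_lit 93) (nat_lit 5) (nat_lit 92) (nat_lit 5) (nat_lit 102) (nat_lit 5) (nat_lit 322) (nat_lit 315) (nat_lit 143)) (XT.nd (nat_lit 78) (nat_lit 0) (nat_lit 0) (XT.lf (nat_lit 0) (nat_lit 3302508806) (nat_lit 760) (nat_lit 62408024797) (nat_lit 836) (nat_lit 7657446568) (nat_lit 83) (nat_lit 5) (nat_lit 93) (nat_lit 5) (nat_lit 94) (nat_lit 5) (nat_lit 323) (nat_lit 315) (nat_lit 142)) (XT.lf (nat_lit 0) (nat_lit 7711597169) (nat_lit 760) (nat_lit 27993327583) (nat_lit 836) (nat_lit 39635187606) (nat_lit 83) (nat_lit 5) (nat_lit 93) (nat_lit 5) (nat_lit 94) (nat_lit 5) (nat_lit 324) (nat_lit 315) (nat_lit 141))))) (XT.nd (nat_lit 156) (nat_lit 836) (nat_lit 0) (XT.nd (nat_lit 78) (nat_lit 0) (nat_lit 76) (XT.lf (nat_lit 76) (nat_lit 8410662029) (nat_lit 0) (nat_lit 4061022796) (nat_lit 836) (nat_lit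 64932640508) (nat_lit 84) (nat_lit 5) (nat_lit 83) (nat_lit 5) (nat_lit 94) (nat_lit 5) (nat_lit 325) (nat_lit 315) (nat_lit 140)) (XT.lf (nat_lit 0) (nat_lit 18406237310) (nat_lit 760) (nat_lit 32405115240) (nat_lit 76) (nat_lit 28713574740) (nat_lit 84) (nat_lit 5) (nat_lit 94) (nat_lit 5) (nat_lit 85) (nat_lit 5) (nat_lit 326) (nat_lit 315) (nat_lit 139))) (XT.nd (nat_lit 78) (nat_lit 380) (nat_lit 0) (XT.lf (nat_lit 0) (nat_lit 6142241701) (nat_lit 532) (nat_lit 18657042268) (nat_lit 608) (nat_lit 56944188339) (nat_lit 77) (nat_lit 5) (nat_lit 84) (nat_lit 5) (nat_lit 85) (nat_lit 5) (nat_lit 327) (nat_lit 315) (nat_lit 138)) (XT.nd (nat_lit 78) (nat_lit 380) (nat_lit 0) (XT.lf (nat_lit 0) (nat_lit 32304926581) (nat_lit 608) (nat_lit 36548994059) (nat_lit 76) (nat_lit 15179377985) (nat_lit 77) (nat_lit 5) (nat_lit 85) (nat_lit 5) (nat_lit 78) (nat_lit 5) (nat_lit 328) (nat_lit 315)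 (nat_lit 137)) (XT.lf (nat_lit 0) (nat_lit 4286569164) (nat_lit 380) (nat_lit 36271412598) (nat_lit 456) (nat_lit 45861029145) (nat_lit 72) (nat_lit 5) (nat_lit 77) (nat_lit 5) (nat_lit 78) (nat_lit 5) (nat_lit 329) (nat_lit 315) (nat_lit 136)))))) (XT.nd (nat_lit 390) (nat_lit 684) (nat_lit 0) (XT.nd (nat_lit 156) (nat_lit 304) (nat_lit 0) (XT.nd (nat_lit 78) (nat_lit 304) (nat_lit 0) (XT.lf (nat_lit 0) (nat_lit 48432190257) (nat_lit 380) (nat_lit 1409847476) (nat_lit 456) (nat_lit 39051054785) (nat_lit 72) (nat_lit 5) (nat_lit 77) (nat_lit 5) (nat_lit 78) (nat_lit 5) (nat_lit 330) (nat_lit 315) (nat_lit 135)) (XT.lf (nat_lit 0) (nat_lit 2834836879) (nat_lit 304) (nat_lit 57348611868) (nat_lit 380) (nat_lit 31277772912) (nat_lit 68) (nat_lit 5) (nat_lit 72) (nat_lit 5) (nat_lit 73) (nat_lit 5) (nat_lit 331) (nat_lit 315) (nat_lit 134))) (XT.nd (nat_lit 78) (nat_lit 304) (nat_lit 0)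 (XT.lf (nat_lit 0) (nat_lit 49675587298) (nat_lit 304) (nat_lit 22073729441) (nat_lit 380) (nat_lit 22373072208) (nat_lit 68) (nat_lit 5) (nat_lit 72) (nat_lit 5) (nat_lit 73) (nat_lit 5) (nat_lit 332) (nat_lit 315) (nat_lit 133)) (XT.nd (nat_lit 78) (nat_lit 0) (nat_lit 0) (XT.lf (nat_lit 0) (nat_lit 1763965223) (nat_lit 304) (nat_lit 82390146367) (nat_lit 380) (nat_lit 12749472300) (nat_lit 64) (nat_lit 5) (nat_lit 68) (nat_lit 5) (nat_lit 69) (nat_lit 5) (nat_lit 333) (nat_lit 315) (nat_lit 132)) (XT.lf (nat_lit 0) (nat_lit 51453934234) (nat_lit 304) (nat_lit 46833433848) (nat_lit 380) (nat_lit 1481060320) (nat_lit 64) (nat_lit 5) (nat_lit 68) (nat_lit 5) (nat_lit 69) (nat_lit 5) (nat_lit 334) (nat_lit 315) (nat_lit 131))))) (XT.nd (nat_lit 156) (nat_lit 304) (nat_lit 0) (XT.nd (nat_lit 78) (nat_lit 0) (nat_lit 0) (XT.lf (nat_lit 0) (nat_lit 712497447) (nat_lit 304) (nat_lit 9317591699)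 (nat_lit 380) (nat_lit 92737816286) (nat_lit 59) (nat_lit 5) (nat_lit 63) (nat_lit 5) (nat_lit 64) (nat_lit 5) (nat_lit 335) (nat_lit 315) (nat_lit 130)) (XT.lf (nat_lit 0) (nat_lit 23367702337) (nat_lit 380) (nat_lit 52516073535) (nat_lit 76) (nat_lit 29967333271) (nat_lit 59) (nat_lit 5) (nat_lit 64) (nat_lit 5) (nat_lit 60) (nat_lit 5) (nat_lit 336) (nat_lit 315) (nat_lit 129))) (XT.nd (nat_lit 78) (nat_lit 304) (nat_lit 0) (XT.lf (nat_lit 0) (nat_lit 37524464132) (nat_lit 380) (nat_lit 653095112) (nat_lit 76) (nat_lit 70903301152) (nat_lit 59) (nat_lit 5) (nat_lit 64) (nat_lit 5) (nat_lit 60) (nat_lit 5) (nat_lit 337) (nat_lit 315) (nat_lit 128)) (XT.nd (nat_lit 78) (nat_lit 0) (nat_lit 0) (XT.lf (nat_lit 0) (nat_lit 53292689910) (nat_lit 380) (nat_lit 56883596786) (nat_lit 76) (nat_lit 2250631940) (nat_lit 55) (nat_lit 5) (nat_lit 60) (nat_lit 5) (nat_lit 56) (nat_lit 5) (nat_lit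 338) (nat_lit 315) (nat_lit 127)) (XT.lf (nat_lit 0) (nat_lit 70485985609) (nat_lit 380) (nat_lit 1994096525) (nat_lit 76) (nat_lit 43428365408) (nat_lit 55) (nat_lit 5) (nat_lit 60) (nat_lit 5) (nat_lit 56) (nat_lit 5) (nat_lit 339) (nat_lit 315) (nat_lit 126))))))))
noncomputable def xc235 : XT := (XT.nd (nat_lit 1560) (nat_lit 608) (nat_lit 0) (XT.nd (nat_lit 780) (nat_lit 912) (nat_lit 0) (XT.nd (nat_lit 390) (nat_lit 456) (nat_lit 0) (XT.nd (nat_lit 156) (nat_lit 532) (nat_lit 0) (XT.nd (nat_lit 78) (nat_lit 0) (nat_lit 0) (XT.lf (nat_lit 0) (nat_lit 57479032992) (nat_lit 228) (nat_lit 31956898275) (nat_lit 304) (nat_lit 30083273019) (nat_lit 52) (nat_lit 5) (nat_lit 55) (nat_lit 5) (nat_lit 56) (nat_lit 5) (nat_lit 340) (nat_lit 315) (nat_lit 125)) (XT.lf (nat_lit 0) (nat_lit 109532663155) (nat_lit 304) (nat_lit 3480236772) (nat_lit 76) (nat_lit 10287635114) (nat_lit 52) (nat_lit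 5) (nat_lit 56) (nat_lit 5) (nat_lit 53) (nat_lit 5) (nat_lit 341) (nat_lit 315) (nat_lit 124))) (XT.nd (nat_lit 78) (nat_lit 228) (nat_lit 0) (XT.lf (nat_lit 0) (nat_lit 4730072850) (nat_lit 304) (nat_lit 67890742961) (nat_lit 76) (nat_lit 54573770554) (nat_lit 48) (nat_lit 5) (nat_lit 52) (nat_lit 5) (nat_lit 49) (nat_lit 5) (nat_lit 342) (nat_lit 315) (nat_lit 123)) (XT.nd (nat_lit 78) (nat_lit 228) (nat_lit 0) (XT.lf (nat_lit 0) (nat_lit 23749739993) (nat_lit 304) (nat_lit 6159632488) (nat_lit 76) (nat_lit 101359707372) (nat_lit 48) (nat_lit 5) (nat_lit 52) (nat_lit 5) (nat_lit 49) (nat_lit 5) (nat_lit 343) (nat_lit 315) (nat_lit 122)) (XT.lf (nat_lit 0) (nat_lit 44914834693) (nat_lit 304) (nat_lit 75151721033) (nat_lit 76) (nat_lit 15421020589) (nat_lit 45) (nat_lit 5) (nat_lit 49) (nat_lit 5) (nat_lit 46) (nat_lit 5) (nat_lit 344) (nat_lit 315) (nat_lit 121))))) (XT.nd (nat_lit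 156) (nat_lit 228) (nat_lit 0) (XT.nd (nat_lit 78) (nat_lit 228) (nat_lit 0) (XT.lf (nat_lit 0) (nat_lit 67734164954) (nat_lit 304) (nat_lit 10034350758) (nat_lit 76) (nat_lit 62118683336) (nat_lit 45) (nat_lit 5) (nat_lit 49) (nat_lit 5) (nat_lit 46) (nat_lit 5) (nat_lit 345) (nat_lit 315) (nat_lit 120)) (XT.lf (nat_lit 0) (nat_lit 60267336055) (nat_lit 228) (nat_lit 32367721766) (nat_lit 304) (nat_lit 51824715753) (nat_lit 42) (nat_lit 5) (nat_lit 45) (nat_lit 5) (nat_lit 46) (nat_lit 5) (nat_lit 346) (nat_lit 315) (nat_lit 119))) (XT.nd (nat_lit 78) (nat_lit 228) (nat_lit 0) (XT.lf (nat_lit 0) (nat_lit 119192303196) (nat_lit 304) (nat_lit 15062203535) (nat_lit 76) (nat_lit 14985905144) (nat_lit 42) (nat_lit 5) (nat_lit 46) (nat_lit 5) (nat_lit 43) (nat_lit 5) (nat_lit 347) (nat_lit 315) (nat_lit 118)) (XT.nd (nat_lit 78) (nat_lit 76) (nat_lit 0) (XT.lf (nat_lit 0) (nat_lit 58877917742)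 (nat_lit 152) (nat_lit 89649037901) (nat_lit 228) (nat_lit 5660649629) (nat_lit 40) (nat_lit 5) (nat_lit 42) (nat_lit 5) (nat_lit 43) (nat_lit 5) (nat_lit 348) (nat_lit 315) (nat_lit 117)) (XT.lf (nat_lit 0) (nat_lit 19566727177) (nat_lit 228) (nat_lit 22647501333) (nat_lit 76) (nat_lit 117139412059) (nat_lit 39) (nat_lit 5) (nat_lit 42) (nat_lit 5) (nat_lit 40) (nat_lit 5) (nat_lit 349) (nat_lit 315) (nat_lit 116)))))) (XT.nd (nat_lit 390) (nat_lit 380) (nat_lit 0) (XT.nd (nat_lit 156) (nat_lit 304) (nat_lit 0) (XT.nd (nat_lit 78) (nat_lit 0) (nat_lit 0) (XT.lf (nat_lit 0) (nat_lit 46862932763) (nat_lit 304) (nat_lit 109539077283) (nat_lit 76) (nat_lit 8321443326) (nat_lit 36) (nat_lit 5) (nat_lit 40) (nat_lit 5) (nat_lit 37) (nat_lit 5) (nat_lit 350) (nat_lit 315) (nat_lit 115)) (XT.lf (nat_lit 0) (nat_lit 76605519617) (nat_lit 304) (nat_lit 33347240042) (nat_lit 76) (nat_lit 60354918954)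 (nat_lit 36) (nat_lit 5) (nat_lit 40) (nat_lit 5) (nat_lit 37) (nat_lit 5) (nat_lit 351) (nat_lit 315) (nat_lit 114))) (XT.nd (nat_lit 78) (nat_lit 152) (nat_lit 0) (XT.lf (nat_lit 0) (nat_lit 48196340709) (nat_lit 152) (nat_lit 60391089734) (nat_lit 228) (nat_lit 67546075271) (nat_lit 34) (nat_lit 5) (nat_lit 36) (nat_lit 5) (nat_lit 37) (nat_lit 5) (nat_lit 352) (nat_lit 315) (nat_lit 113)) (XT.nd (nat_lit 78) (nat_lit 152) (nat_lit 0) (XT.lf (nat_lit 0) (nat_lit 134974416098) (nat_lit 152) (nat_lit 7758493985) (nat_lit 228) (nat_lit 39489490735) (nat_lit 34) (nat_lit 5) (nat_lit 36) (nat_lit 5) (nat_lit 37) (nat_lit 5) (nat_lit 353) (nat_lit 315) (nat_lit 112)) (XT.lf (nat_lit 0) (nat_lit 37948117325) (nat_lit 152) (nat_lit 141971453147) (nat_lit 228) (nat_lit 8629475167) (nat_lit 32) (nat_lit 5) (nat_lit 34) (nat_lit 5) (nat_lit 35) (nat_lit 5) (nat_lit 354) (nat_lit 315) (nat_lit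 111))))) (XT.nd (nat_lit 156) (nat_lit 152) (nat_lit 0) (XT.nd (nat_lit 78) (nat_lit 152) (nat_lit 0) (XT.lf (nat_lit 0) (nat_lit 23952847279) (nat_lit 228) (nat_lit 66619542769) (nat_lit 76) (nat_lit 104554063950) (nat_lit 31) (nat_lit 5) (nat_lit 34) (nat_lit 5) (nat_lit 32) (nat_lit 5) (nat_lit 355) (nat_lit 315) (nat_lit 110)) (XT.lf (nat_lit 0) (nat_lit 22127256866) (nat_lit 152) (nat_lit 36092237643) (nat_lit 228) (nat_lit 143788904402) (nat_lit 29) (nat_lit 5) (nat_lit 31) (nat_lit 5) (nat_lit 32) (nat_lit 5) (nat_lit 356) (nat_lit 315) (nat_lit 109))) (XT.nd (nat_lit 78) (nat_lit 152) (nat_lit 0) (XT.lf (nat_lit 0) (nat_lit 95675570979) (nat_lit 228) (nat_lit 91902267379) (nat_lit 76) (nat_lit 21582798113) (nat_lit 29) (nat_lit 5) (nat_lit 32) (nat_lit 5) (nat_lit 30) (nat_lit 5) (nat_lit 357) (nat_lit 315) (nat_lit 108)) (XT.nd (nat_lit 78) (nat_lit 152) (nat_lit 0) (XT.lf (nat_lit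 0) (nat_lit 135595889936) (nat_lit 228) (nat_lit 116508511) (nat_lit 76) (nat_lit 80928515764) (nat_lit 29) (nat_lit 5) (nat_lit 32) (nat_lit 5) (nat_lit 30) (nat_lit 5) (nat_lit 358) (nat_lit 315) (nat_lit 107)) (XT.lf (nat_lit 0) (nat_lit 99440902973) (nat_lit 152) (nat_lit 79623646985) (nat_lit 228) (nat_lit 45353039847) (nat_lit 27) (nat_lit 5) (nat_lit 29) (nat_lit 5) (nat_lit 30) (nat_lit 5) (nat_lit 359) (nat_lit 315) (nat_lit 106))))))) (XT.nd (nat_lit 37284) (nat_lit 0) (nat_lit 4864) (XT.nd (nat_lit 390) (nat_lit 304) (nat_lit 0) (XT.nd (nat_lit 156) (nat_lit 152) (nat_lit 0) (XT.nd (nat_lit 78) (nat_lit 152) (nat_lit 0) (XT.lf (nat_lit 0) (nat_lit 203979870593) (nat_lit 152) (nat_lit 20728524610) (nat_lit 228) (nat_lit 7874616576) (nat_lit 27) (nat_lit 5) (nat_lit 29) (nat_lit 5) (nat_lit 30) (nat_lit 5) (nat_lit 360) (nat_lit 315) (nat_lit 105)) (XT.lf (nat_lit 0) (nat_lit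 32301870503) (nat_lit 152) (nat_lit 167261843003) (nat_lit 76) (nat_lit 41476837436) (nat_lit 25) (nat_lit 5) (nat_lit 27) (nat_lit 5) (nat_lit 26) (nat_lit 5) (nat_lit 361) (nat_lit 315) (nat_lit 104))) (XT.nd (nat_lit 78) (nat_lit 152) (nat_lit 0) (XT.lf (nat_lit 0) (nat_lit 75054492902) (nat_lit 152) (nat_lit 68101258146) (nat_lit 76) (nat_lit 106717164108) (nat_lit 25) (nat_lit 5) (nat_lit 27) (nat_lit 5) (nat_lit 26) (nat_lit 5) (nat_lit 362) (nat_lit 315) (nat_lit 103)) (XT.nd (nat_lit 78) (nat_lit 0) (nat_lit 0) (XT.lf (nat_lit 0) (nat_lit 37207905672) (nat_lit 152) (nat_lit 83317559184) (nat_lit 228) (nat_lit 138592396979) (nat_lit 23) (nat_lit 5) (nat_lit 25) (nat_lit 5) (nat_lit 26) (nat_lit 5) (nat_lit 363) (nat_lit 315) (nat_lit 102)) (XT.lf (nat_lit 0) (nat_lit 150146519369) (nat_lit 152) (nat_lit 19276596976) (nat_lit 228) (nat_lit 99344283120) (nat_lit 23) (nat_lit 5)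 (nat_lit 25) (nat_lit 5) (nat_lit 26) (nat_lit 5) (nat_lit 364) (nat_lit 315) (nat_lit 101))))) (XT.nd (nat_lit 156) (nat_lit 228) (nat_lit 0) (XT.nd (nat_lit 78) (nat_lit 76) (nat_lit 0) (XT.lf (nat_lit 0) (nat_lit 221514351117) (nat_lit 228) (nat_lit 10916562406) (nat_lit 76) (nat_lit 46431065579) (nat_lit 23) (nat_lit 5) (nat_lit 26) (nat_lit 5) (nat_lit 24) (nat_lit 4) (nat_lit 365) (nat_lit 315) (nat_lit 100)) (XT.lf (nat_lit 0) (nat_lit 105224495678) (nat_lit 76) (nat_lit 172944330591) (nat_lit 152) (nat_lit 11194527668) (nat_lit 22) (nat_lit 5) (nat_lit 23) (nat_lit 5) (nat_lit 24) (nat_lit 4) (nat_lit 366) (nat_lit 315) (nat_lit 99))) (XT.nd (nat_lit 78) (nat_lit 152) (nat_lit 0) (XT.lf (nat_lit 0) (nat_lit 36261204123) (nat_lit 152) (nat_lit 73414117448) (nat_lit 76) (nat_lit 190675998145) (nat_lit 21) (nat_lit 5) (nat_lit 23) (nat_lit 5) (nat_lit 22) (nat_lit 5) (nat_lit 367)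 (nat_lit 315) (nat_lit 98)) (XT.nd (nat_lit 36582) (nat_lit 0) (nat_lit 5396) (XT.lf (nat_lit 0) (nat_lit 44073683500) (nat_lit 152) (nat_lit 42327772171) (nat_lit 228) (nat_lit 225443655266) (nat_lit 19) (nat_lit 5) (nat_lit 21) (nat_lit 5) (nat_lit 22) (nat_lit 5) (nat_lit 368) (nat_lit 315) (nat_lit 97)) (XT.lf (nat_lit 0) (nat_lit 13062391121) (nat_lit 0) (nat_lit 13062391121) (nat_lit 684) (nat_lit 5292249313) (nat_lit 90) (nat_lit 5) (nat_lit 90) (nat_lit 3) (nat_lit 99) (nat_lit 3) (nat_lit 316) (nat_lit 316) (nat_lit 148)))))) (XT.nd (nat_lit 390) (nat_lit 532) (nat_lit 0) (XT.nd (nat_lit 156) (nat_lit 0) (nat_lit 0) (XT.nd (nat_lit 78) (nat_lit 0) (nat_lit 0) (XT.lf (nat_lit 0) (nat_lit 53611784184) (nat_lit 684) (nat_lit 8280986393) (nat_lit 760) (nat_lit 2509313796) (nat_lit 90) (nat_lit 5) (nat_lit 99) (nat_lit 3) (nat_lit 100) (nat_lit 5) (nat_lit 317) (nat_lit 316) (nat_lit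 147)) (XT.lf (nat_lit 76) (nat_lit 21838872254) (nat_lit 0) (nat_lit 33971498790) (nat_lit 760) (nat_lit 10199724848) (nat_lit 91) (nat_lit 5) (nat_lit 90) (nat_lit 5) (nat_lit 100) (nat_lit 5) (nat_lit 318) (nat_lit 316) (nat_lit 146))) (XT.nd (nat_lit 78) (nat_lit 0) (nat_lit 76) (XT.lf (nat_lit 76) (nat_lit 53751674213) (nat_lit 0) (nat_lit 4506508968) (nat_lit 760) (nat_lit 9433361916) (nat_lit 91) (nat_lit 5) (nat_lit 90) (nat_lit 5) (nat_lit 100) (nat_lit 5) (nat_lit 319) (nat_lit 316) (nat_lit 145)) (XT.nd (nat_lit 78) (nat_lit 0) (nat_lit 0) (XT.lf (nat_lit 76) (nat_lit 17964787959) (nat_lit 0) (nat_lit 43555856481) (nat_lit 760) (nat_lit 7901811213) (nat_lit 92) (nat_lit 5) (nat_lit 91) (nat_lit 5) (nat_lit 101) (nat_lit 5) (nat_lit 320) (nat_lit 316) (nat_lit 144)) (XT.lf (nat_lit 76) (nat_lit 51871756358) (nat_lit 0) (nat_lit 13382374769) (nat_lit 760) (nat_lit 5970387222)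 (nat_lit 92) (nat_lit 5) (nat_lit 91) (nat_lit 5) (nat_lit 101) (nat_lit 5) (nat_lit 321) (nat_lit 316) (nat_lit 143))))) (XT.nd (nat_lit 234) (nat_lit 0) (nat_lit 0) (XT.nd (nat_lit 78) (nat_lit 684) (nat_lit 0) (XT.lf (nat_lit 76) (nat_lit 14536347479) (nat_lit 0) (nat_lit 55149792393) (nat_lit 760) (nat_lit 3404953570) (nat_lit 93) (nat_lit 5) (nat_lit 92) (nat_lit 5) (nat_lit 102) (nat_lit 5) (nat_lit 322) (nat_lit 316) (nat_lit 142)) (XT.nd (nat_lit 78) (nat_lit 684) (nat_lit 0) (XT.lf (nat_lit 76) (nat_lit 50564584507) (nat_lit 0) (nat_lit 24317971315) (nat_lit 760) (nat_lit 141302697) (nat_lit 93) (nat_lit 5) (nat_lit 92) (nat_lit 5) (nat_lit 102) (nat_lit 5) (nat_lit 323) (nat_lit 316) (nat_lit 141)) (XT.lf (nat_lit 0) (nat_lit 3491289660) (nat_lit 760) (nat_lit 65508859828) (nat_lit 836) (nat_lit 8035003147) (nat_lit 83) (nat_lit 5) (nat_lit 93) (nat_lit 5) (nat_lit 94) (nat_lit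 5) (nat_lit 324) (nat_lit 316) (nat_lit 140)))) (XT.nd (nat_lit 78) (nat_lit 0) (nat_lit 0) (XT.lf (nat_lit 0) (nat_lit 8119705992) (nat_lit 760) (nat_lit 29374359477) (nat_lit 836) (nat_lit 41611884367) (nat_lit 83) (nat_lit 5) (nat_lit 93) (nat_lit 5) (nat_lit 94) (nat_lit 5) (nat_lit 325) (nat_lit 316) (nat_lit 139)) (XT.nd (nat_lit 78) (nat_lit 0) (nat_lit 76) (XT.lf (nat_lit 76) (nat_lit 8849529059) (nat_lit 0) (nat_lit 4267482408) (nat_lit 836) (nat_lit 68156403306) (nat_lit 84) (nat_lit 5) (nat_lit 83) (nat_lit 5) (nat_lit 94) (nat_lit 5) (nat_lit 326) (nat_lit 316) (nat_lit 138)) (XT.lf (nat_lit 0) (nat_lit 19347205542) (nat_lit 760) (nat_lit 34006786268) (nat_lit 76) (nat_lit 30146111210) (nat_lit 84) (nat_lit 5) (nat_lit 94) (nat_lit 5) (nat_lit 85) (nat_lit 5) (nat_lit 327) (nat_lit 316) (nat_lit 137))))))))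
noncomputable def xc236 : XT := (XT.nd (nat_lit 1560) (nat_lit 1520) (nat_lit 0) (XT.nd (nat_lit 780) (nat_lit 1292) (nat_lit 0) (XT.nd (nat_lit 390) (nat_lit 684) (nat_lit 0) (XT.nd (nat_lit 156) (nat_lit 684) (nat_lit 0) (XT.nd (nat_lit 78) (nat_lit 0) (nat_lit 0) (XT.lf (nat_lit 0) (nat_lit 6467638766) (nat_lit 532) (nat_lit 19591567611) (nat_lit 608) (nat_lit 59770405621) (nat_lit 77) (nat_lit 5) (nat_lit 84) (nat_lit 5) (nat_lit 85) (nat_lit 5) (nat_lit 328) (nat_lit 316) (nat_lit 136)) (XT.lf (nat_lit 0) (nat_lit 33939155849) (nat_lit 608) (nat_lit 38358019926) (nat_lit 76) (nat_lit 15936804336) (nat_lit 77) (nat_lit 5) (nat_lit 85) (nat_lit 5) (nat_lit 78) (nat_lit 5) (nat_lit 329) (nat_lit 316) (nat_lit 135))) (XT.nd (nat_lit 78) (nat_lit 304) (nat_lit 0) (XT.lf (nat_lit 0) (nat_lit 4519024301) (nat_lit 380) (nat_lit 38085218548) (nat_lit 456) (nat_lit 48134767838) (nat_lit 72)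 (nat_lit 5) (nat_lit 77) (nat_lit 5) (nat_lit 78) (nat_lit 5) (nat_lit 330) (nat_lit 316) (nat_lit 134)) (XT.nd (nat_lit 78) (nat_lit 304) (nat_lit 0) (XT.lf (nat_lit 0) (nat_lit 50871063273) (nat_lit 380) (nat_lit 1480563964) (nat_lit 456) (nat_lit 40985214416) (nat_lit 72) (nat_lit 5) (nat_lit 77) (nat_lit 5) (nat_lit 78) (nat_lit 5) (nat_lit 331) (nat_lit 316) (nat_lit 133)) (XT.lf (nat_lit 0) (nat_lit 2994458112) (nat_lit 304) (nat_lit 60215093761) (nat_lit 380) (nat_lit 32823854705) (nat_lit 68) (nat_lit 5) (nat_lit 72) (nat_lit 5) (nat_lit 73) (nat_lit 5) (nat_lit 332) (nat_lit 316) (nat_lit 132))))) (XT.nd (nat_lit 156) (nat_lit 380) (nat_lit 0) (XT.nd (nat_lit 78) (nat_lit 304) (nat_lit 0) (XT.lf (nat_lit 0) (nat_lit 52176394652) (nat_lit 304) (nat_lit 23176512389) (nat_lit 380) (nat_lit 23474766912) (nat_lit 68) (nat_lit 5) (nat_lit 72) (nat_lit 5) (nat_lit 73) (nat_lit 5) (nat_lit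 333) (nat_lit 316) (nat_lit 131)) (XT.lf (nat_lit 0) (nat_lit 1869723932) (nat_lit 304) (nat_lit 86507737473) (nat_lit 380) (nat_lit 13370492593) (nat_lit 64) (nat_lit 5) (nat_lit 68) (nat_lit 5) (nat_lit 69) (nat_lit 5) (nat_lit 334) (nat_lit 316) (nat_lit 130))) (XT.nd (nat_lit 78) (nat_lit 380) (nat_lit 0) (XT.lf (nat_lit 0) (nat_lit 54043355182) (nat_lit 304) (nat_lit 49173280576) (nat_lit 380) (nat_lit 1539443505) (nat_lit 64) (nat_lit 5) (nat_lit 68) (nat_lit 5) (nat_lit 69) (nat_lit 5) (nat_lit 335) (nat_lit 316) (nat_lit 129)) (XT.nd (nat_lit 78) (nat_lit 0) (nat_lit 0) (XT.lf (nat_lit 0) (nat_lit 765094236) (nat_lit 304) (nat_lit 9781210345) (nat_lit 380) (nat_lit 97359237358) (nat_lit 59) (nat_lit 5) (nat_lit 63) (nat_lit 5) (nat_lit 64) (nat_lit 5) (nat_lit 336) (nat_lit 316) (nat_lit 128)) (XT.lf (nat_lit 0) (nat_lit 24550131527) (nat_lit 380) (nat_lit 55125024468) (nat_lit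 76) (nat_lit 31467784292) (nat_lit 59) (nat_lit 5) (nat_lit 64) (nat_lit 5) (nat_lit 60) (nat_lit 5) (nat_lit 337) (nat_lit 316) (nat_lit 127)))))) (XT.nd (nat_lit 390) (nat_lit 760) (nat_lit 0) (XT.nd (nat_lit 156) (nat_lit 228) (nat_lit 0) (XT.nd (nat_lit 78) (nat_lit 304) (nat_lit 0) (XT.lf (nat_lit 0) (nat_lit 39414062647) (nat_lit 380) (nat_lit 669699636) (nat_lit 76) (nat_lit 74450451311) (nat_lit 59) (nat_lit 5) (nat_lit 64) (nat_lit 5) (nat_lit 60) (nat_lit 5) (nat_lit 338) (nat_lit 316) (nat_lit 126)) (XT.lf (nat_lit 0) (nat_lit 55970353158) (nat_lit 380) (nat_lit 59711359783) (nat_lit 76) (nat_lit 2365880136) (nat_lit 55) (nat_lit 5) (nat_lit 60) (nat_lit 5) (nat_lit 56) (nat_lit 5) (nat_lit 339) (nat_lit 316) (nat_lit 125))) (XT.nd (nat_lit 78) (nat_lit 228) (nat_lit 0) (XT.lf (nat_lit 0) (nat_lit 74022693225) (nat_lit 380) (nat_lit 2078166264) (nat_lit 76) (nat_lit 45602370915)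 (nat_lit 55) (nat_lit 5) (nat_lit 60) (nat_lit 5) (nat_lit 56) (nat_lit 5) (nat_lit 340) (nat_lit 316) (nat_lit 124)) (XT.nd (nat_lit 78) (nat_lit 0) (nat_lit 0) (XT.lf (nat_lit 0) (nat_lit 60368367551) (nat_lit 228) (nat_lit 33551417913) (nat_lit 304) (nat_lit 31574757967) (nat_lit 52) (nat_lit 5) (nat_lit 55) (nat_lit 5) (nat_lit 56) (nat_lit 5) (nat_lit 341) (nat_lit 316) (nat_lit 123)) (XT.lf (nat_lit 0) (nat_lit 115020829217) (nat_lit 304) (nat_lit 3639056170) (nat_lit 76) (nat_lit 10805082439) (nat_lit 52) (nat_lit 5) (nat_lit 56) (nat_lit 5) (nat_lit 53) (nat_lit 5) (nat_lit 342) (nat_lit 316) (nat_lit 122))))) (XT.nd (nat_lit 156) (nat_lit 456) (nat_lit 0) (XT.nd (nat_lit 78) (nat_lit 0) (nat_lit 0) (XT.lf (nat_lit 0) (nat_lit 4977993438) (nat_lit 304) (nat_lit 71269939498) (nat_lit 76) (nat_lit 57305796186) (nat_lit 48) (nat_lit 5) (nat_lit 52) (nat_lit 5) (nat_lit 49) (nat_lit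 5) (nat_lit 343) (nat_lit 316) (nat_lit 121)) (XT.lf (nat_lit 0) (nat_lit 24948100275) (nat_lit 304) (nat_lit 6453004007) (nat_lit 76) (nat_lit 106430870935) (nat_lit 48) (nat_lit 5) (nat_lit 52) (nat_lit 5) (nat_lit 49) (nat_lit 5) (nat_lit 344) (nat_lit 316) (nat_lit 120))) (XT.nd (nat_lit 78) (nat_lit 228) (nat_lit 0) (XT.lf (nat_lit 0) (nat_lit 47171215603) (nat_lit 304) (nat_lit 78894448621) (nat_lit 76) (nat_lit 16195744697) (nat_lit 45) (nat_lit 5) (nat_lit 49) (nat_lit 5) (nat_lit 46) (nat_lit 5) (nat_lit 345) (nat_lit 316) (nat_lit 119)) (XT.nd (nat_lit 78) (nat_lit 228) (nat_lit 0) (XT.lf (nat_lit 0) (nat_lit 71131005750) (nat_lit 304) (nat_lit 10521917377) (nat_lit 76) (nat_lit 65228115672) (nat_lit 45) (nat_lit 5) (nat_lit 49) (nat_lit 5) (nat_lit 46) (nat_lit 5) (nat_lit 346) (nat_lit 316) (nat_lit 118)) (XT.lf (nat_lit 0) (nat_lit 63294625536) (nat_lit 228) (nat_lit 33982052594)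 (nat_lit 304) (nat_lit 54405577825) (nat_lit 42) (nat_lit 5) (nat_lit 45) (nat_lit 5) (nat_lit 46) (nat_lit 5) (nat_lit 347) (nat_lit 316) (nat_lit 117))))))) (XT.nd (nat_lit 780) (nat_lit 532) (nat_lit 0) (XT.nd (nat_lit 390) (nat_lit 532) (nat_lit 0) (XT.nd (nat_lit 156) (nat_lit 304) (nat_lit 0) (XT.nd (nat_lit 78) (nat_lit 152) (nat_lit 0) (XT.lf (nat_lit 0) (nat_lit 125161376196) (nat_lit 304) (nat_lit 15801632130) (nat_lit 76) (nat_lit 15738938941) (nat_lit 42) (nat_lit 5) (nat_lit 46) (nat_lit 5) (nat_lit 43) (nat_lit 5) (nat_lit 348) (nat_lit 316) (nat_lit 116)) (XT.lf (nat_lit 0) (nat_lit 61835274541) (nat_lit 152) (nat_lit 94127246514) (nat_lit 228) (nat_lit 5933991875) (nat_lit 40) (nat_lit 5) (nat_lit 42) (nat_lit 5) (nat_lit 43) (nat_lit 5) (nat_lit 349) (nat_lit 316) (nat_lit 115))) (XT.nd (nat_lit 78) (nat_lit 228) (nat_lit 0) (XT.lf (nat_lit 0) (nat_lit 20553996953) (nat_lit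 228) (nat_lit 23766750469) (nat_lit 76) (nat_lit 123000117869) (nat_lit 39) (nat_lit 5) (nat_lit 42) (nat_lit 5) (nat_lit 40) (nat_lit 5) (nat_lit 350) (nat_lit 316) (nat_lit 114)) (XT.nd (nat_lit 78) (nat_lit 0) (nat_lit 0) (XT.lf (nat_lit 0) (nat_lit 49214854690) (nat_lit 304) (nat_lit 115002736960) (nat_lit 76) (nat_lit 8741585498) (nat_lit 36) (nat_lit 5) (nat_lit 40) (nat_lit 5) (nat_lit 37) (nat_lit 5) (nat_lit 351) (nat_lit 316) (nat_lit 113)) (XT.lf (nat_lit 0) (nat_lit 80444153015) (nat_lit 304) (nat_lit 35001940914) (nat_lit 76) (nat_lit 63376541097) (nat_lit 36) (nat_lit 5) (nat_lit 40) (nat_lit 5) (nat_lit 37) (nat_lit 5) (nat_lit 352) (nat_lit 316) (nat_lit 112))))) (XT.nd (nat_lit 156) (nat_lit 380) (nat_lit 0) (XT.nd (nat_lit 78) (nat_lit 0) (nat_lit 0) (XT.lf (nat_lit 0) (nat_lit 50618614663) (nat_lit 152) (nat_lit 63406341234) (nat_lit 228) (nat_lit 70914808218) (nat_lit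 34) (nat_lit 5) (nat_lit 36) (nat_lit 5) (nat_lit 37) (nat_lit 5) (nat_lit 353) (nat_lit 316) (nat_lit 111)) (XT.lf (nat_lit 0) (nat_lit 141735000636) (nat_lit 152) (nat_lit 8142320603) (nat_lit 228) (nat_lit 41455802589) (nat_lit 34) (nat_lit 5) (nat_lit 36) (nat_lit 5) (nat_lit 37) (nat_lit 5) (nat_lit 354) (nat_lit 316) (nat_lit 110))) (XT.nd (nat_lit 78) (nat_lit 228) (nat_lit 0) (XT.lf (nat_lit 0) (nat_lit 39857523251) (nat_lit 152) (nat_lit 149065669892) (nat_lit 228) (nat_lit 9052914237) (nat_lit 32) (nat_lit 5) (nat_lit 34) (nat_lit 5) (nat_lit 35) (nat_lit 5) (nat_lit 355) (nat_lit 316) (nat_lit 109)) (XT.nd (nat_lit 78) (nat_lit 152) (nat_lit 0) (XT.lf (nat_lit 0) (nat_lit 25157896812) (nat_lit 228) (nat_lit 69938838806) (nat_lit 76) (nat_lit 109785663162) (nat_lit 31) (nat_lit 5) (nat_lit 34) (nat_lit 5) (nat_lit 32) (nat_lit 5) (nat_lit 356) (nat_lit 316) (nat_lit 108)) (XT.lf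 (nat_lit 0) (nat_lit 23245112406) (nat_lit 152) (nat_lit 37892590709) (nat_lit 228) (nat_lit 150970746849) (nat_lit 29) (nat_lit 5) (nat_lit 31) (nat_lit 5) (nat_lit 32) (nat_lit 5) (nat_lit 357) (nat_lit 316) (nat_lit 107)))))) (XT.nd (nat_lit 390) (nat_lit 228) (nat_lit 0) (XT.nd (nat_lit 156) (nat_lit 304) (nat_lit 0) (XT.nd (nat_lit 78) (nat_lit 0) (nat_lit 0) (XT.lf (nat_lit 0) (nat_lit 100466302264) (nat_lit 228) (nat_lit 96486147323) (nat_lit 76) (nat_lit 22665864216) (nat_lit 29) (nat_lit 5) (nat_lit 32) (nat_lit 5) (nat_lit 30) (nat_lit 5) (nat_lit 358) (nat_lit 316) (nat_lit 106)) (XT.lf (nat_lit 0) (nat_lit 142382306086) (nat_lit 228) (nat_lit 111635436) (nat_lit 76) (nat_lit 84978680788) (nat_lit 29) (nat_lit 5) (nat_lit 32) (nat_lit 5) (nat_lit 30) (nat_lit 5) (nat_lit 359) (nat_lit 316) (nat_lit 105))) (XT.nd (nat_lit 78) (nat_lit 152) (nat_lit 0) (XT.lf (nat_lit 0) (nat_lit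 104423474065) (nat_lit 152) (nat_lit 83600774066) (nat_lit 228) (nat_lit 47613891412) (nat_lit 27) (nat_lit 5) (nat_lit 29) (nat_lit 5) (nat_lit 30) (nat_lit 5) (nat_lit 360) (nat_lit 316) (nat_lit 104)) (XT.nd (nat_lit 78) (nat_lit 152) (nat_lit 0) (XT.lf (nat_lit 0) (nat_lit 214188888831) (nat_lit 152) (nat_lit 21761088681) (nat_lit 228) (nat_lit 8261870807) (nat_lit 27) (nat_lit 5) (nat_lit 29) (nat_lit 5) (nat_lit 30) (nat_lit 5) (nat_lit 361) (nat_lit 316) (nat_lit 103)) (XT.lf (nat_lit 0) (nat_lit 33923153640) (nat_lit 152) (nat_lit 175614612448) (nat_lit 76) (nat_lit 43554497549) (nat_lit 25) (nat_lit 5) (nat_lit 27) (nat_lit 5) (nat_lit 26) (nat_lit 5) (nat_lit 362) (nat_lit 316) (nat_lit 102))))) (XT.nd (nat_lit 156) (nat_lit 76) (nat_lit 0) (XT.nd (nat_lit 78) (nat_lit 152) (nat_lit 0) (XT.lf (nat_lit 0) (nat_lit 78813112416) (nat_lit 152) (nat_lit 71496489905) (nat_lit 76)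 (nat_lit 112056658733) (nat_lit 25) (nat_lit 5) (nat_lit 27) (nat_lit 5) (nat_lit 26) (nat_lit 5) (nat_lit 363) (nat_lit 316) (nat_lit 101)) (XT.lf (nat_lit 0) (nat_lit 39077973536) (nat_lit 152) (nat_lit 87479529739) (nat_lit 228) (nat_lit 145515958520) (nat_lit 23) (nat_lit 5) (nat_lit 25) (nat_lit 5) (nat_lit 26) (nat_lit 5) (nat_lit 364) (nat_lit 316) (nat_lit 100))) (XT.nd (nat_lit 78) (nat_lit 76) (nat_lit 0) (XT.lf (nat_lit 0) (nat_lit 157663057319) (nat_lit 152) (nat_lit 20236705488) (nat_lit 228) (nat_lit 104305727459) (nat_lit 23) (nat_lit 5) (nat_lit 25) (nat_lit 5) (nat_lit 26) (nat_lit 5) (nat_lit 365) (nat_lit 316) (nat_lit 99)) (XT.nd (nat_lit 78) (nat_lit 76) (nat_lit 0) (XT.lf (nat_lit 0) (nat_lit 232595353192) (nat_lit 228) (nat_lit 11453406666) (nat_lit 76) (nat_lit 48756049554) (nat_lit 23) (nat_lit 5) (nat_lit 26) (nat_lit 5) (nat_lit 24) (nat_lit 4) (nat_lit 366)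 (nat_lit 316) (nat_lit 98)) (XT.lf (nat_lit 0) (nat_lit 110494559422) (nat_lit 76) (nat_lit 181587879038) (nat_lit 152) (nat_lit 11748820423) (nat_lit 22) (nat_lit 5) (nat_lit 23) (nat_lit 5) (nat_lit 24) (nat_lit 4) (nat_lit 367) (nat_lit 316) (nat_lit 97))))))))
noncomputable def xc237 : XT := (XT.nd (nat_lit 1560) (nat_lit 2432) (nat_lit 0) (XT.nd (nat_lit 780) (nat_lit 1444) (nat_lit 0) (XT.nd (nat_lit 390) (nat_lit 532) (nat_lit 0) (XT.nd (nat_lit 156) (nat_lit 0) (nat_lit 0) (XT.nd (nat_lit 78) (nat_lit 0) (nat_lit 0) (XT.lf (nat_lit 0) (nat_lit 13723143509) (nat_lit 0) (nat_lit 13723143509) (nat_lit 684) (nat_lit 5540802033) (nat_lit 90) (nat_lit 5) (nat_lit 90) (nat_lit 3) (nat_lit 99) (nat_lit 3) (nat_lit 317) (nat_lit 317) (nat_lit 146)) (XT.lf (nat_lit 0) (nat_lit 56321223859) (nat_lit 684) (nat_lit 8678757458) (nat_lit 760) (nat_lit 2620706088) (nat_lit 90) (nat_lit 5) (nat_lit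 99) (nat_lit 3) (nat_lit 100) (nat_lit 5) (nat_lit 318) (nat_lit 317) (nat_lit 145))) (XT.nd (nat_lit 78) (nat_lit 0) (nat_lit 0) (XT.lf (nat_lit 76) (nat_lit 22946831568) (nat_lit 0) (nat_lit 35681784711) (nat_lit 760) (nat_lit 10680542202) (nat_lit 91) (nat_lit 5) (nat_lit 90) (nat_lit 5) (nat_lit 100) (nat_lit 5) (nat_lit 319) (nat_lit 317) (nat_lit 144)) (XT.nd (nat_lit 78) (nat_lit 0) (nat_lit 76) (XT.lf (nat_lit 76) (nat_lit 56454510973) (nat_lit 0) (nat_lit 4742987732) (nat_lit 760) (nat_lit 9877250118) (nat_lit 91) (nat_lit 5) (nat_lit 90) (nat_lit 5) (nat_lit 100) (nat_lit 5) (nat_lit 320) (nat_lit 317) (nat_lit 143)) (XT.lf (nat_lit 76) (nat_lit 18879557090) (nat_lit 0) (nat_lit 45742360724) (nat_lit 760) (nat_lit 8270347888) (nat_lit 92) (nat_lit 5) (nat_lit 91) (nat_lit 5) (nat_lit 101) (nat_lit 5) (nat_lit 321) (nat_lit 317) (nat_lit 142))))) (XT.nd (nat_lit 156) (nat_lit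 608) (nat_lit 0) (XT.nd (nat_lit 78) (nat_lit 0) (nat_lit 76) (XT.lf (nat_lit 76) (nat_lit 54481086778) (nat_lit 0) (nat_lit 14059790098) (nat_lit 760) (nat_lit 6243617168) (nat_lit 92) (nat_lit 5) (nat_lit 91) (nat_lit 5) (nat_lit 101) (nat_lit 5) (nat_lit 322) (nat_lit 317) (nat_lit 141)) (XT.lf (nat_lit 76) (nat_lit 15280011044) (nat_lit 0) (nat_lit 57913469942) (nat_lit 760) (nat_lit 3550969457) (nat_lit 93) (nat_lit 5) (nat_lit 92) (nat_lit 5) (nat_lit 102) (nat_lit 5) (nat_lit 323) (nat_lit 317) (nat_lit 140))) (XT.nd (nat_lit 78) (nat_lit 684) (nat_lit 0) (XT.lf (nat_lit 76) (nat_lit 53108857724) (nat_lit 0) (nat_lit 25539763147) (nat_lit 760) (nat_lit 125289936) (nat_lit 93) (nat_lit 5) (nat_lit 92) (nat_lit 5) (nat_lit 102) (nat_lit 5) (nat_lit 324) (nat_lit 317) (nat_lit 139)) (XT.nd (nat_lit 78) (nat_lit 0) (nat_lit 0) (XT.lf (nat_lit 0) (nat_lit 3687310299) (nat_lit 760)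 (nat_lit 68766555691) (nat_lit 836) (nat_lit 8431931762) (nat_lit 83) (nat_lit 5) (nat_lit 93) (nat_lit 5) (nat_lit 94) (nat_lit 5) (nat_lit 325) (nat_lit 317) (nat_lit 138)) (XT.lf (nat_lit 0) (nat_lit 8546125727) (nat_lit 760) (nat_lit 30826175424) (nat_lit 836) (nat_lit 43687886641) (nat_lit 83) (nat_lit 5) (nat_lit 93) (nat_lit 5) (nat_lit 94) (nat_lit 5) (nat_lit 326) (nat_lit 317) (nat_lit 137)))))) (XT.nd (nat_lit 390) (nat_lit 608) (nat_lit 0) (XT.nd (nat_lit 156) (nat_lit 836) (nat_lit 0) (XT.nd (nat_lit 78) (nat_lit 0) (nat_lit 76) (XT.lf (nat_lit 76) (nat_lit 9308634925) (nat_lit 0) (nat_lit 4483948114) (nat_lit 836) (nat_lit 71543480409) (nat_lit 84) (nat_lit 5) (nat_lit 83) (nat_lit 5) (nat_lit 94) (nat_lit 5) (nat_lit 327) (nat_lit 317) (nat_lit 136)) (XT.lf (nat_lit 0) (nat_lit 20333301752) (nat_lit 760) (nat_lit 35690268681) (nat_lit 76) (nat_lit 31650566643) (nat_lit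 84) (nat_lit 5) (nat_lit 94) (nat_lit 5) (nat_lit 85) (nat_lit 5) (nat_lit 328) (nat_lit 317) (nat_lit 135))) (XT.nd (nat_lit 78) (nat_lit 380) (nat_lit 0) (XT.lf (nat_lit 0) (nat_lit 6807605720) (nat_lit 532) (nat_lit 20572663661) (nat_lit 608) (nat_lit 62739885417) (nat_lit 77) (nat_lit 5) (nat_lit 84) (nat_lit 5) (nat_lit 85) (nat_lit 5) (nat_lit 329) (nat_lit 317) (nat_lit 134)) (XT.nd (nat_lit 78) (nat_lit 380) (nat_lit 0) (XT.lf (nat_lit 0) (nat_lit 35653331727) (nat_lit 608) (nat_lit 40259209959) (nat_lit 76) (nat_lit 16732245415) (nat_lit 77) (nat_lit 5) (nat_lit 85) (nat_lit 5) (nat_lit 78) (nat_lit 5) (nat_lit 330) (nat_lit 317) (nat_lit 133)) (XT.lf (nat_lit 0) (nat_lit 4761416947) (nat_lit 380) (nat_lit 39989692918) (nat_lit 456) (nat_lit 50523988984) (nat_lit 72) (nat_lit 5) (nat_lit 77) (nat_lit 5) (nat_lit 78) (nat_lit 5) (nat_lit 331) (nat_lit 317) (nat_lit 132))))) (XT.nd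 (nat_lit 156) (nat_lit 304) (nat_lit 0) (XT.nd (nat_lit 78) (nat_lit 304) (nat_lit 0) (XT.lf (nat_lit 0) (nat_lit 53430274943) (nat_lit 380) (nat_lit 1554795440) (nat_lit 456) (nat_lit 43017792045) (nat_lit 72) (nat_lit 5) (nat_lit 77) (nat_lit 5) (nat_lit 78) (nat_lit 5) (nat_lit 332) (nat_lit 317) (nat_lit 131)) (XT.lf (nat_lit 0) (nat_lit 3160398150) (nat_lit 304) (nat_lit 63224987950) (nat_lit 380) (nat_lit 34448896101) (nat_lit 68) (nat_lit 5) (nat_lit 72) (nat_lit 5) (nat_lit 73) (nat_lit 5) (nat_lit 333) (nat_lit 317) (nat_lit 130))) (XT.nd (nat_lit 78) (nat_lit 304) (nat_lit 0) (XT.lf (nat_lit 0) (nat_lit 54800659273) (nat_lit 304) (nat_lit 24334518485) (nat_lit 380) (nat_lit 24633123029) (nat_lit 68) (nat_lit 5) (nat_lit 72) (nat_lit 5) (nat_lit 73) (nat_lit 5) (nat_lit 334) (nat_lit 317) (nat_lit 129)) (XT.nd (nat_lit 78) (nat_lit 0) (nat_lit 0) (XT.lf (nat_lit 0) (nat_lit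 1979137972) (nat_lit 304) (nat_lit 90831386286) (nat_lit 380) (nat_lit 14024093574) (nat_lit 64) (nat_lit 5) (nat_lit 68) (nat_lit 5) (nat_lit 69) (nat_lit 5) (nat_lit 335) (nat_lit 317) (nat_lit 128)) (XT.lf (nat_lit 0) (nat_lit 56760692316) (nat_lit 304) (nat_lit 51630289309) (nat_lit 380) (nat_lit 1602202682) (nat_lit 64) (nat_lit 5) (nat_lit 68) (nat_lit 5) (nat_lit 69) (nat_lit 5) (nat_lit 336) (nat_lit 317) (nat_lit 127))))))) (XT.nd (nat_lit 780) (nat_lit 988) (nat_lit 0) (XT.nd (nat_lit 390) (nat_lit 760) (nat_lit 0) (XT.nd (nat_lit 156) (nat_lit 304) (nat_lit 0) (XT.nd (nat_lit 78) (nat_lit 0) (nat_lit 0) (XT.lf (nat_lit 0) (nat_lit 818742976) (nat_lit 304) (nat_lit 10268220124) (nat_lit 380) (nat_lit 102213167714) (nat_lit 59) (nat_lit 5) (nat_lit 63) (nat_lit 5) (nat_lit 64) (nat_lit 5) (nat_lit 337) (nat_lit 317) (nat_lit 126)) (XT.lf (nat_lit 0) (nat_lit 25790376492) (nat_lit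 380) (nat_lit 57865989756) (nat_lit 76) (nat_lit 33043064079) (nat_lit 59) (nat_lit 5) (nat_lit 64) (nat_lit 5) (nat_lit 60) (nat_lit 5) (nat_lit 338) (nat_lit 317) (nat_lit 125))) (XT.nd (nat_lit 78) (nat_lit 304) (nat_lit 0) (XT.lf (nat_lit 0) (nat_lit 41396897578) (nat_lit 380) (nat_lit 688626584) (nat_lit 76) (nat_lit 78174774422) (nat_lit 59) (nat_lit 5) (nat_lit 64) (nat_lit 5) (nat_lit 60) (nat_lit 5) (nat_lit 339) (nat_lit 317) (nat_lit 124)) (XT.nd (nat_lit 78) (nat_lit 0) (nat_lit 0) (XT.lf (nat_lit 0) (nat_lit 58780688278) (nat_lit 380) (nat_lit 62682037213) (nat_lit 76) (nat_lit 2486638177) (nat_lit 55) (nat_lit 5) (nat_lit 60) (nat_lit 5) (nat_lit 56) (nat_lit 5) (nat_lit 340) (nat_lit 317) (nat_lit 123)) (XT.lf (nat_lit 0) (nat_lit 77735082612) (nat_lit 380) (nat_lit 2167893091) (nat_lit 76) (nat_lit 47884836161) (nat_lit 55) (nat_lit 5) (nat_lit 60) (nat_lit 5) (nat_lit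 56) (nat_lit 5) (nat_lit 341) (nat_lit 317) (nat_lit 122))))) (XT.nd (nat_lit 156) (nat_lit 532) (nat_lit 0) (XT.nd (nat_lit 78) (nat_lit 0) (nat_lit 0) (XT.lf (nat_lit 0) (nat_lit 63400738680) (nat_lit 228) (nat_lit 35225972685) (nat_lit 304) (nat_lit 33141995907) (nat_lit 52) (nat_lit 5) (nat_lit 55) (nat_lit 5) (nat_lit 56) (nat_lit 5) (nat_lit 342) (nat_lit 317) (nat_lit 121)) (XT.lf (nat_lit 0) (nat_lit 120782331362) (nat_lit 304) (nat_lit 3807228986) (nat_lit 76) (nat_lit 11348117122) (nat_lit 52) (nat_lit 5) (nat_lit 56) (nat_lit 5) (nat_lit 53) (nat_lit 5) (nat_lit 343) (nat_lit 317) (nat_lit 120))) (XT.nd (nat_lit 78) (nat_lit 228) (nat_lit 0) (XT.lf (nat_lit 0) (nat_lit 5237248617) (nat_lit 304) (nat_lit 74819522087) (nat_lit 76) (nat_lit 60174112847) (nat_lit 48) (nat_lit 5) (nat_lit 52) (nat_lit 5) (nat_lit 49) (nat_lit 5) (nat_lit 344) (nat_lit 317) (nat_lit 119)) (XT.nd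 (nat_lit 78) (nat_lit 228) (nat_lit 0) (XT.lf (nat_lit 0) (nat_lit 26205367677) (nat_lit 304) (nat_lit 6762402411) (nat_lit 76) (nat_lit 111755297198) (nat_lit 48) (nat_lit 5) (nat_lit 52) (nat_lit 5) (nat_lit 49) (nat_lit 5) (nat_lit 345) (nat_lit 317) (nat_lit 118)) (XT.lf (nat_lit 0) (nat_lit 49539426430) (nat_lit 304) (nat_lit 82825693987) (nat_lit 76) (nat_lit 17008863521) (nat_lit 45) (nat_lit 5) (nat_lit 49) (nat_lit 5) (nat_lit 46) (nat_lit 5) (nat_lit 346) (nat_lit 317) (nat_lit 117)))))) (XT.nd (nat_lit 390) (nat_lit 532) (nat_lit 0) (XT.nd (nat_lit 156) (nat_lit 228) (nat_lit 0) (XT.nd (nat_lit 78) (nat_lit 228) (nat_lit 0) (XT.lf (nat_lit 0) (nat_lit 74696746557) (nat_lit 304) (nat_lit 11035177946) (nat_lit 76) (nat_lit 68492694398) (nat_lit 45) (nat_lit 5) (nat_lit 49) (nat_lit 5) (nat_lit 46) (nat_lit 5) (nat_lit 347) (nat_lit 317) (nat_lit 116)) (XT.lf (nat_lit 0) (nat_lit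 66471985091) (nat_lit 228) (nat_lit 35677476984) (nat_lit 304) (nat_lit 57116447450) (nat_lit 42) (nat_lit 5) (nat_lit 45) (nat_lit 5) (nat_lit 46) (nat_lit 5) (nat_lit 348) (nat_lit 317) (nat_lit 115))) (XT.nd (nat_lit 78) (nat_lit 228) (nat_lit 0) (XT.lf (nat_lit 0) (nat_lit 131428023545) (nat_lit 304) (nat_lit 16579304137) (nat_lit 76) (nat_lit 16529276853) (nat_lit 42) (nat_lit 5) (nat_lit 46) (nat_lit 5) (nat_lit 43) (nat_lit 5) (nat_lit 349) (nat_lit 317) (nat_lit 114)) (XT.nd (nat_lit 78) (nat_lit 76) (nat_lit 0) (XT.lf (nat_lit 0) (nat_lit 64939247712) (nat_lit 152) (nat_lit 98829760057) (nat_lit 228) (nat_lit 6221902139) (nat_lit 40) (nat_lit 5) (nat_lit 42) (nat_lit 5) (nat_lit 43) (nat_lit 5) (nat_lit 350) (nat_lit 317) (nat_lit 113)) (XT.lf (nat_lit 0) (nat_lit 21589799673) (nat_lit 228) (nat_lit 24943182387) (nat_lit 76) (nat_lit 129153511706) (nat_lit 39) (nat_lit 5) (nat_lit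 42) (nat_lit 5) (nat_lit 40) (nat_lit 5) (nat_lit 351) (nat_lit 317) (nat_lit 112))))) (XT.nd (nat_lit 156) (nat_lit 304) (nat_lit 0) (XT.nd (nat_lit 78) (nat_lit 0) (nat_lit 0) (XT.lf (nat_lit 0) (nat_lit 51683556870) (nat_lit 304) (nat_lit 120740815588) (nat_lit 76) (nat_lit 9182356388) (nat_lit 36) (nat_lit 5) (nat_lit 40) (nat_lit 5) (nat_lit 37) (nat_lit 5) (nat_lit 352) (nat_lit 317) (nat_lit 111)) (XT.lf (nat_lit 0) (nat_lit 84473941090) (nat_lit 304) (nat_lit 36740553940) (nat_lit 76) (nat_lit 66548883976) (nat_lit 36) (nat_lit 5) (nat_lit 40) (nat_lit 5) (nat_lit 37) (nat_lit 5) (nat_lit 353) (nat_lit 317) (nat_lit 110))) (XT.nd (nat_lit 78) (nat_lit 152) (nat_lit 0) (XT.lf (nat_lit 0) (nat_lit 53160844189) (nat_lit 152) (nat_lit 66572755361) (nat_lit 228) (nat_lit 74452774645) (nat_lit 34) (nat_lit 5) (nat_lit 36) (nat_lit 5) (nat_lit 37) (nat_lit 5) (nat_lit 354) (nat_lit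 317) (nat_lit 109)) (XT.nd (nat_lit 78) (nat_lit 152) (nat_lit 0) (XT.lf (nat_lit 0) (nat_lit 148832511422) (nat_lit 152) (nat_lit 8545719552) (nat_lit 228) (nat_lit 43521188925) (nat_lit 34) (nat_lit 5) (nat_lit 36) (nat_lit 5) (nat_lit 37) (nat_lit 5) (nat_lit 355) (nat_lit 317) (nat_lit 108)) (XT.lf (nat_lit 0) (nat_lit 41861283822) (nat_lit 152) (nat_lit 156515002447) (nat_lit 228) (nat_lit 9498272250) (nat_lit 32) (nat_lit 5) (nat_lit 34) (nat_lit 5) (nat_lit 35) (nat_lit 5) (nat_lit 356) (nat_lit 317) (nat_lit 107))))))))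
noncomputable def xc238 : XT := (XT.nd (nat_lit 38298) (nat_lit 0) (nat_lit 1900) (XT.nd (nat_lit 780) (nat_lit 0) (nat_lit 0) (XT.nd (nat_lit 390) (nat_lit 304) (nat_lit 0) (XT.nd (nat_lit 156) (nat_lit 152) (nat_lit 0) (XT.nd (nat_lit 78) (nat_lit 152) (nat_lit 0) (XT.lf (nat_lit 0) (nat_lit 26422510174) (nat_lit 228) (nat_lit 73425185644) (nat_lit 76) (nat_lit 115278480120) (nat_lit 31) (nat_lit 5) (nat_lit 34) (nat_lit 5) (nat_lit 32) (nat_lit 5) (nat_lit 357) (nat_lit 317) (nat_lit 106)) (XT.lf (nat_lit 0) (nat_lit 24417792240) (nat_lit 152) (nat_lit 39783357373) (nat_lit 228) (nat_lit 158512388253) (nat_lit 29) (nat_lit 5) (nat_lit 31) (nat_lit 5) (nat_lit 32) (nat_lit 5) (nat_lit 358) (nat_lit 317) (nat_lit 105))) (XT.nd (nat_lit 78) (nat_lit 152) (nat_lit 0) (XT.lf (nat_lit 0) (nat_lit 105495923713) (nat_lit 228) (nat_lit 101300265641) (nat_lit 76) (nat_lit 23802718604) (nat_lit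 29) (nat_lit 5) (nat_lit 32) (nat_lit 5) (nat_lit 30) (nat_lit 5) (nat_lit 359) (nat_lit 317) (nat_lit 104)) (XT.nd (nat_lit 78) (nat_lit 152) (nat_lit 0) (XT.lf (nat_lit 0) (nat_lit 149507427424) (nat_lit 228) (nat_lit 107513353) (nat_lit 76) (nat_lit 89231006424) (nat_lit 29) (nat_lit 5) (nat_lit 32) (nat_lit 5) (nat_lit 30) (nat_lit 5) (nat_lit 360) (nat_lit 317) (nat_lit 103)) (XT.lf (nat_lit 0) (nat_lit 109654195110) (nat_lit 152) (nat_lit 87777134522) (nat_lit 228) (nat_lit 49988417794) (nat_lit 27) (nat_lit 5) (nat_lit 29) (nat_lit 5) (nat_lit 30) (nat_lit 5) (nat_lit 361) (nat_lit 317) (nat_lit 102))))) (XT.nd (nat_lit 156) (nat_lit 152) (nat_lit 0) (XT.nd (nat_lit 78) (nat_lit 152) (nat_lit 0) (XT.lf (nat_lit 0) (nat_lit 224907425979) (nat_lit 152) (nat_lit 22845640022) (nat_lit 228) (nat_lit 8669089883) (nat_lit 27) (nat_lit 5) (nat_lit 29) (nat_lit 5) (nat_lit 30) (nat_lit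 5) (nat_lit 362) (nat_lit 317) (nat_lit 101)) (XT.lf (nat_lit 0) (nat_lit 35624925483) (nat_lit 152) (nat_lit 184385980073) (nat_lit 76) (nat_lit 45735685683) (nat_lit 25) (nat_lit 5) (nat_lit 27) (nat_lit 5) (nat_lit 26) (nat_lit 5) (nat_lit 363) (nat_lit 317) (nat_lit 100))) (XT.nd (nat_lit 78) (nat_lit 152) (nat_lit 0) (XT.lf (nat_lit 0) (nat_lit 82759114857) (nat_lit 152) (nat_lit 75062397260) (nat_lit 76) (nat_lit 117662790010) (nat_lit 25) (nat_lit 5) (nat_lit 27) (nat_lit 5) (nat_lit 26) (nat_lit 5) (nat_lit 364) (nat_lit 317) (nat_lit 99)) (XT.nd (nat_lit 78) (nat_lit 0) (nat_lit 0) (XT.lf (nat_lit 0) (nat_lit 41040645529) (nat_lit 152) (nat_lit 91849962096) (nat_lit 228) (nat_lit 152786261382) (nat_lit 23) (nat_lit 5) (nat_lit 25) (nat_lit 5) (nat_lit 26) (nat_lit 5) (nat_lit 365) (nat_lit 317) (nat_lit 98)) (XT.lf (nat_lit 0) (nat_lit 165554565724) (nat_lit 152) (nat_lit 21245165401)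 (nat_lit 228) (nat_lit 109515780438) (nat_lit 23) (nat_lit 5) (nat_lit 25) (nat_lit 5) (nat_lit 26) (nat_lit 5) (nat_lit 366) (nat_lit 317) (nat_lit 97)))))) (XT.nd (nat_lit 37128) (nat_lit 0) (nat_lit 4560) (XT.nd (nat_lit 36894) (nat_lit 0) (nat_lit 5092) (XT.nd (nat_lit 36816) (nat_lit 0) (nat_lit 5092) (XT.lf (nat_lit 0) (nat_lit 244229914066) (nat_lit 228) (nat_lit 12017928373) (nat_lit 76) (nat_lit 51196963774) (nat_lit 23) (nat_lit 5) (nat_lit 26) (nat_lit 5) (nat_lit 24) (nat_lit 4) (nat_lit 367) (nat_lit 317) (nat_lit 96)) (XT.lf (nat_lit 0) (nat_lit 14416223888) (nat_lit 0) (nat_lit 14416223888) (nat_lit 684) (nat_lit 5803275472) (nat_lit 90) (nat_lit 5) (nat_lit 90) (nat_lit 3) (nat_lit 99) (nat_lit 3) (nat_lit 318) (nat_lit 318) (nat_lit 144))) (XT.nd (nat_lit 78) (nat_lit 0) (nat_lit 0) (XT.lf (nat_lit 0) (nat_lit 59163453274) (nat_lit 684) (nat_lit 9097930474) (nat_lit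 760) (nat_lit 2738976406) (nat_lit 90) (nat_lit 5) (nat_lit 99) (nat_lit 3) (nat_lit 100) (nat_lit 5) (nat_lit 319) (nat_lit 318) (nat_lit 143)) (XT.nd (nat_lit 78) (nat_lit 0) (nat_lit 0) (XT.lf (nat_lit 76) (nat_lit 24108699861) (nat_lit 0) (nat_lit 37476496152) (nat_lit 760) (nat_lit 11188112271) (nat_lit 91) (nat_lit 5) (nat_lit 90) (nat_lit 5) (nat_lit 100) (nat_lit 5) (nat_lit 320) (nat_lit 318) (nat_lit 142)) (XT.lf (nat_lit 76) (nat_lit 59291071488) (nat_lit 0) (nat_lit 4990253505) (nat_lit 760) (nat_lit 10345915442) (nat_lit 91) (nat_lit 5) (nat_lit 90) (nat_lit 5) (nat_lit 100) (nat_lit 5) (nat_lit 321) (nat_lit 318) (nat_lit 141))))) (XT.nd (nat_lit 156) (nat_lit 608) (nat_lit 0) (XT.nd (nat_lit 78) (nat_lit 0) (nat_lit 0) (XT.lf (nat_lit 76) (nat_lit 19838527900) (nat_lit 0) (nat_lit 48037380275) (nat_lit 760) (nat_lit 8659780125) (nat_lit 92) (nat_lit 5) (nat_lit 91) (nat_lit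 5) (nat_lit 101) (nat_lit 5) (nat_lit 322) (nat_lit 318) (nat_lit 140)) (XT.lf (nat_lit 76) (nat_lit 57219420122) (nat_lit 0) (nat_lit 14770304854) (nat_lit 760) (nat_lit 6532859781) (nat_lit 92) (nat_lit 5) (nat_lit 91) (nat_lit 5) (nat_lit 101) (nat_lit 5) (nat_lit 323) (nat_lit 318) (nat_lit 139))) (XT.nd (nat_lit 78) (nat_lit 684) (nat_lit 0) (XT.lf (nat_lit 76) (nat_lit 16059291588) (nat_lit 0) (nat_lit 60814756074) (nat_lit 760) (nat_lit 3706538980) (nat_lit 93) (nat_lit 5) (nat_lit 92) (nat_lit 5) (nat_lit 102) (nat_lit 5) (nat_lit 324) (nat_lit 318) (nat_lit 138)) (XT.nd (nat_lit 78) (nat_lit 684) (nat_lit 0) (XT.lf (nat_lit 76) (nat_lit 55778852983) (nat_lit 0) (nat_lit 26822096671) (nat_lit 760) (nat_lit 110622100) (nat_lit 93) (nat_lit 5) (nat_lit 92) (nat_lit 5) (nat_lit 102) (nat_lit 5) (nat_lit 325) (nat_lit 318) (nat_lit 137)) (XT.lf (nat_lit 0) (nat_lit 3891137181) (nat_lit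 760) (nat_lit 72188786307) (nat_lit 836) (nat_lit 8849155069) (nat_lit 83) (nat_lit 5) (nat_lit 93) (nat_lit 5) (nat_lit 94) (nat_lit 5) (nat_lit 326) (nat_lit 318) (nat_lit 136))))))) (XT.nd (nat_lit 780) (nat_lit 1216) (nat_lit 0) (XT.nd (nat_lit 390) (nat_lit 988) (nat_lit 0) (XT.nd (nat_lit 156) (nat_lit 456) (nat_lit 0) (XT.nd (nat_lit 78) (nat_lit 0) (nat_lit 0) (XT.lf (nat_lit 0) (nat_lit 8991966648) (nat_lit 760) (nat_lit 32352153558) (nat_lit 836) (nat_lit 45868115944) (nat_lit 83) (nat_lit 5) (nat_lit 93) (nat_lit 5) (nat_lit 94) (nat_lit 5) (nat_lit 327) (nat_lit 318) (nat_lit 135)) (XT.lf (nat_lit 76) (nat_lit 9789150040) (nat_lit 0) (nat_lit 4710949678) (nat_lit 836) (nat_lit 75101839860) (nat_lit 84) (nat_lit 5) (nat_lit 83) (nat_lit 5) (nat_lit 94) (nat_lit 5) (nat_lit 328) (nat_lit 318) (nat_lit 134))) (XT.nd (nat_lit 78) (nat_lit 532) (nat_lit 0) (XT.lf (nat_lit 0) (nat_lit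 21366960884) (nat_lit 760) (nat_lit 37459492408) (nat_lit 76) (nat_lit 33230509824) (nat_lit 84) (nat_lit 5) (nat_lit 94) (nat_lit 5) (nat_lit 85) (nat_lit 5) (nat_lit 329) (nat_lit 318) (nat_lit 133)) (XT.nd (nat_lit 78) (nat_lit 0) (nat_lit 0) (XT.lf (nat_lit 0) (nat_lit 7163029104) (nat_lit 532) (nat_lit 21602673414) (nat_lit 608) (nat_lit 65859609407) (nat_lit 77) (nat_lit 5) (nat_lit 84) (nat_lit 5) (nat_lit 85) (nat_lit 5) (nat_lit 330) (nat_lit 318) (nat_lit 132)) (XT.lf (nat_lit 0) (nat_lit 37451615624) (nat_lit 608) (nat_lit 42257013121) (nat_lit 76) (nat_lit 17567588627) (nat_lit 77) (nat_lit 5) (nat_lit 85) (nat_lit 5) (nat_lit 78) (nat_lit 5) (nat_lit 331) (nat_lit 318) (nat_lit 131))))) (XT.nd (nat_lit 156) (nat_lit 608) (nat_lit 0) (XT.nd (nat_lit 78) (nat_lit 0) (nat_lit 0) (XT.lf (nat_lit 0) (nat_lit 5014400657) (nat_lit 380) (nat_lit 41989371162) (nat_lit 456) (nat_lit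 53034299775) (nat_lit 72) (nat_lit 5) (nat_lit 77) (nat_lit 5) (nat_lit 78) (nat_lit 5) (nat_lit 332) (nat_lit 318) (nat_lit 130)) (XT.lf (nat_lit 0) (nat_lit 56115991416) (nat_lit 380) (nat_lit 1632719592) (nat_lit 456) (nat_lit 45153549591) (nat_lit 72) (nat_lit 5) (nat_lit 77) (nat_lit 5) (nat_lit 78) (nat_lit 5) (nat_lit 333) (nat_lit 318) (nat_lit 129))) (XT.nd (nat_lit 78) (nat_lit 304) (nat_lit 0) (XT.lf (nat_lit 0) (nat_lit 3333127475) (nat_lit 304) (nat_lit 66385456849) (nat_lit 380) (nat_lit 36156691165) (nat_lit 68) (nat_lit 5) (nat_lit 72) (nat_lit 5) (nat_lit 73) (nat_lit 5) (nat_lit 334) (nat_lit 318) (nat_lit 128)) (XT.nd (nat_lit 78) (nat_lit 304) (nat_lit 0) (XT.lf (nat_lit 0) (nat_lit 57554701205) (nat_lit 304) (nat_lit 25550501078) (nat_lit 380) (nat_lit 25850827047) (nat_lit 68) (nat_lit 5) (nat_lit 72) (nat_lit 5) (nat_lit 73) (nat_lit 5) (nat_lit 335) (nat_lit 318)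 (nat_lit 127)) (XT.lf (nat_lit 0) (nat_lit 2092541895) (nat_lit 304) (nat_lit 95371379128) (nat_lit 380) (nat_lit 14711762064) (nat_lit 64) (nat_lit 5) (nat_lit 68) (nat_lit 5) (nat_lit 69) (nat_lit 5) (nat_lit 336) (nat_lit 318) (nat_lit 126)))))) (XT.nd (nat_lit 390) (nat_lit 532) (nat_lit 0) (XT.nd (nat_lit 156) (nat_lit 304) (nat_lit 0) (XT.nd (nat_lit 78) (nat_lit 380) (nat_lit 0) (XT.lf (nat_lit 0) (nat_lit 59612486003) (nat_lit 304) (nat_lit 54210302373) (nat_lit 380) (nat_lit 1669421208) (nat_lit 64) (nat_lit 5) (nat_lit 68) (nat_lit 5) (nat_lit 69) (nat_lit 5) (nat_lit 337) (nat_lit 318) (nat_lit 125)) (XT.lf (nat_lit 0) (nat_lit 873642963) (nat_lit 304) (nat_lit 10779771050) (nat_lit 380) (nat_lit 107311099105) (nat_lit 59) (nat_lit 5) (nat_lit 63) (nat_lit 5) (nat_lit 64) (nat_lit 5) (nat_lit 338) (nat_lit 318) (nat_lit 124))) (XT.nd (nat_lit 78) (nat_lit 304) (nat_lit 0)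 (XT.lf (nat_lit 0) (nat_lit 27091449411) (nat_lit 380) (nat_lit 60745424450) (nat_lit 76) (nat_lit 34696932089) (nat_lit 59) (nat_lit 5) (nat_lit 64) (nat_lit 5) (nat_lit 60) (nat_lit 5) (nat_lit 339) (nat_lit 318) (nat_lit 123)) (XT.nd (nat_lit 78) (nat_lit 304) (nat_lit 0) (XT.lf (nat_lit 0) (nat_lit 43477746356) (nat_lit 380) (nat_lit 709853347) (nat_lit 76) (nat_lit 82085146292) (nat_lit 59) (nat_lit 5) (nat_lit 64) (nat_lit 5) (nat_lit 60) (nat_lit 5) (nat_lit 340) (nat_lit 318) (nat_lit 122)) (XT.lf (nat_lit 0) (nat_lit 61730441479) (nat_lit 380) (nat_lit 65802632896) (nat_lit 76) (nat_lit 2613205038) (nat_lit 55) (nat_lit 5) (nat_lit 60) (nat_lit 5) (nat_lit 56) (nat_lit 5) (nat_lit 341) (nat_lit 318) (nat_lit 121))))) (XT.nd (nat_lit 156) (nat_lit 304) (nat_lit 0) (XT.nd (nat_lit 78) (nat_lit 228) (nat_lit 0) (XT.lf (nat_lit 0) (nat_lit 81632045111) (nat_lit 380) (nat_lit 2263424720)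 (nat_lit 76) (nat_lit 50281206494) (nat_lit 55) (nat_lit 5) (nat_lit 60) (nat_lit 5) (nat_lit 56) (nat_lit 5) (nat_lit 342) (nat_lit 318) (nat_lit 120)) (XT.lf (nat_lit 0) (nat_lit 66583431171) (nat_lit 228) (nat_lit 36984535606) (nat_lit 304) (nat_lit 34788664901) (nat_lit 52) (nat_lit 5) (nat_lit 55) (nat_lit 5) (nat_lit 56) (nat_lit 5) (nat_lit 343) (nat_lit 318) (nat_lit 119))) (XT.nd (nat_lit 78) (nat_lit 304) (nat_lit 0) (XT.lf (nat_lit 0) (nat_lit 126830936079) (nat_lit 304) (nat_lit 3985091576) (nat_lit 76) (nat_lit 11918045028) (nat_lit 52) (nat_lit 5) (nat_lit 56) (nat_lit 5) (nat_lit 53) (nat_lit 5) (nat_lit 344) (nat_lit 318) (nat_lit 118)) (XT.nd (nat_lit 78) (nat_lit 0) (nat_lit 0) (XT.lf (nat_lit 0) (nat_lit 5508503798) (nat_lit 304) (nat_lit 78547877433) (nat_lit 76) (nat_lit 63185563934) (nat_lit 48) (nat_lit 5) (nat_lit 52) (nat_lit 5) (nat_lit 49) (nat_lit 5) (nat_lit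 345) (nat_lit 318) (nat_lit 117)) (XT.lf (nat_lit 0) (nat_lit 27524581537) (nat_lit 304) (nat_lit 7088502761) (nat_lit 76) (nat_lit 117345676766) (nat_lit 48) (nat_lit 5) (nat_lit 52) (nat_lit 5) (nat_lit 49) (nat_lit 5) (nat_lit 346) (nat_lit 318) (nat_lit 116))))))))
noncomputable def xc239 : XT := (XT.nd (nat_lit 38454) (nat_lit 0) (nat_lit 2736) (XT.nd (nat_lit 780) (nat_lit 836) (nat_lit 0) (XT.nd (nat_lit 390) (nat_lit 456) (nat_lit 0) (XT.nd (nat_lit 156) (nat_lit 380) (nat_lit 0) (XT.nd (nat_lit 78) (nat_lit 0) (nat_lit 0) (XT.lf (nat_lit 0) (nat_lit 52025150627) (nat_lit 304) (nat_lit 86954754591) (nat_lit 76) (nat_lit 17862328547) (nat_lit 45) (nat_lit 5) (nat_lit 49) (nat_lit 5) (nat_lit 46) (nat_lit 5) (nat_lit 347) (nat_lit 318) (nat_lit 115)) (XT.lf (nat_lit 0) (nat_lit 78439919958) (nat_lit 304) (nat_lit 11575294848) (nat_lit 76) (nat_lit 71920207071) (nat_lit 45) (nat_lit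 5) (nat_lit 49) (nat_lit 5) (nat_lit 46) (nat_lit 5) (nat_lit 348) (nat_lit 318) (nat_lit 114))) (XT.nd (nat_lit 78) (nat_lit 152) (nat_lit 0) (XT.lf (nat_lit 0) (nat_lit 69807038568) (nat_lit 228) (nat_lit 37458014561) (nat_lit 304) (nat_lit 59963735341) (nat_lit 42) (nat_lit 5) (nat_lit 45) (nat_lit 5) (nat_lit 46) (nat_lit 5) (nat_lit 349) (nat_lit 318) (nat_lit 113)) (XT.nd (nat_lit 78) (nat_lit 152) (nat_lit 0) (XT.lf (nat_lit 0) (nat_lit 138007205711) (nat_lit 304) (nat_lit 17397013472) (nat_lit 76) (nat_lit 17358816401) (nat_lit 42) (nat_lit 5) (nat_lit 46) (nat_lit 5) (nat_lit 43) (nat_lit 5) (nat_lit 350) (nat_lit 318) (nat_lit 112)) (XT.lf (nat_lit 0) (nat_lit 68197284423) (nat_lit 152) (nat_lit 103767757100) (nat_lit 228) (nat_lit 6525025065) (nat_lit 40) (nat_lit 5) (nat_lit 42) (nat_lit 5) (nat_lit 43) (nat_lit 5) (nat_lit 351) (nat_lit 318) (nat_lit 111))))) (XT.nd (nat_lit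 156) (nat_lit 152) (nat_lit 0) (XT.nd (nat_lit 78) (nat_lit 228) (nat_lit 0) (XT.lf (nat_lit 0) (nat_lit 22676639201) (nat_lit 228) (nat_lit 26179542771) (nat_lit 76) (nat_lit 135614260256) (nat_lit 39) (nat_lit 5) (nat_lit 42) (nat_lit 5) (nat_lit 40) (nat_lit 5) (nat_lit 352) (nat_lit 318) (nat_lit 110)) (XT.lf (nat_lit 0) (nat_lit 54274954165) (nat_lit 304) (nat_lit 126766919206) (nat_lit 76) (nat_lit 9644822611) (nat_lit 36) (nat_lit 5) (nat_lit 40) (nat_lit 5) (nat_lit 37) (nat_lit 5) (nat_lit 353) (nat_lit 318) (nat_lit 109))) (XT.nd (nat_lit 78) (nat_lit 152) (nat_lit 0) (XT.lf (nat_lit 0) (nat_lit 88704513813) (nat_lit 304) (nat_lit 38567165294) (nat_lit 76) (nat_lit 69879517131) (nat_lit 36) (nat_lit 5) (nat_lit 40) (nat_lit 5) (nat_lit 37) (nat_lit 5) (nat_lit 354) (nat_lit 318) (nat_lit 108)) (XT.nd (nat_lit 78) (nat_lit 0) (nat_lit 0) (XT.lf (nat_lit 0) (nat_lit 55829134737)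 (nat_lit 152) (nat_lit 69897853051) (nat_lit 228) (nat_lit 78168362146) (nat_lit 34) (nat_lit 5) (nat_lit 36) (nat_lit 5) (nat_lit 37) (nat_lit 5) (nat_lit 355) (nat_lit 318) (nat_lit 107)) (XT.lf (nat_lit 0) (nat_lit 156283897316) (nat_lit 152) (nat_lit 8969634027) (nat_lit 228) (nat_lit 45690532912) (nat_lit 34) (nat_lit 5) (nat_lit 36) (nat_lit 5) (nat_lit 37) (nat_lit 5) (nat_lit 356) (nat_lit 318) (nat_lit 106)))))) (XT.nd (nat_lit 390) (nat_lit 456) (nat_lit 0) (XT.nd (nat_lit 156) (nat_lit 152) (nat_lit 0) (XT.nd (nat_lit 78) (nat_lit 76) (nat_lit 0) (XT.lf (nat_lit 0) (nat_lit 43964220492) (nat_lit 152) (nat_lit 164337168949) (nat_lit 228) (nat_lit 9966575705) (nat_lit 32) (nat_lit 5) (nat_lit 34) (nat_lit 5) (nat_lit 35) (nat_lit 5) (nat_lit 357) (nat_lit 318) (nat_lit 105)) (XT.lf (nat_lit 0) (nat_lit 27749729579) (nat_lit 228) (nat_lit 77086834855) (nat_lit 76) (nat_lit 121045609388)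 (nat_lit 31) (nat_lit 5) (nat_lit 34) (nat_lit 5) (nat_lit 32) (nat_lit 5) (nat_lit 358) (nat_lit 318) (nat_lit 104))) (XT.nd (nat_lit 78) (nat_lit 0) (nat_lit 0) (XT.lf (nat_lit 0) (nat_lit 25648136922) (nat_lit 152) (nat_lit 41769021503) (nat_lit 228) (nat_lit 166431752845) (nat_lit 29) (nat_lit 5) (nat_lit 31) (nat_lit 5) (nat_lit 32) (nat_lit 5) (nat_lit 359) (nat_lit 318) (nat_lit 103)) (XT.nd (nat_lit 78) (nat_lit 0) (nat_lit 0) (XT.lf (nat_lit 0) (nat_lit 110776439932) (nat_lit 228) (nat_lit 106356037156) (nat_lit 76) (nat_lit 24996084626) (nat_lit 29) (nat_lit 5) (nat_lit 32) (nat_lit 5) (nat_lit 30) (nat_lit 5) (nat_lit 360) (nat_lit 318) (nat_lit 102)) (XT.lf (nat_lit 0) (nat_lit 156988246446) (nat_lit 228) (nat_lit 104087338) (nat_lit 76) (nat_lit 93695633024) (nat_lit 29) (nat_lit 5) (nat_lit 32) (nat_lit 5) (nat_lit 30) (nat_lit 5) (nat_lit 361) (nat_lit 318) (nat_lit 101)))))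 (XT.nd (nat_lit 156) (nat_lit 304) (nat_lit 0) (XT.nd (nat_lit 78) (nat_lit 0) (nat_lit 0) (XT.lf (nat_lit 0) (nat_lit 115145564585) (nat_lit 152) (nat_lit 92162654969) (nat_lit 228) (nat_lit 52482243955) (nat_lit 27) (nat_lit 5) (nat_lit 29) (nat_lit 5) (nat_lit 30) (nat_lit 5) (nat_lit 362) (nat_lit 318) (nat_lit 100)) (XT.lf (nat_lit 0) (nat_lit 236161044630) (nat_lit 152) (nat_lit 23984744614) (nat_lit 228) (nat_lit 9097216064) (nat_lit 27) (nat_lit 5) (nat_lit 29) (nat_lit 5) (nat_lit 30) (nat_lit 5) (nat_lit 363) (nat_lit 318) (nat_lit 99))) (XT.nd (nat_lit 78) (nat_lit 152) (nat_lit 0) (XT.lf (nat_lit 0) (nat_lit 37411263967) (nat_lit 152) (nat_lit 193596786562) (nat_lit 76) (nat_lit 48025611243) (nat_lit 25) (nat_lit 5) (nat_lit 27) (nat_lit 5) (nat_lit 26) (nat_lit 5) (nat_lit 364) (nat_lit 318) (nat_lit 98)) (XT.nd (nat_lit 78) (nat_lit 152) (nat_lit 0) (XT.lf (nat_lit 0) (nat_lit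 86901920323) (nat_lit 152) (nat_lit 78807429013) (nat_lit 76) (nat_lit 123548921202) (nat_lit 25) (nat_lit 5) (nat_lit 27) (nat_lit 5) (nat_lit 26) (nat_lit 5) (nat_lit 365) (nat_lit 318) (nat_lit 97)) (XT.lf (nat_lit 0) (nat_lit 43100635461) (nat_lit 152) (nat_lit 96439245570) (nat_lit 228) (nat_lit 160420590266) (nat_lit 23) (nat_lit 5) (nat_lit 25) (nat_lit 5) (nat_lit 26) (nat_lit 5) (nat_lit 366) (nat_lit 318) (nat_lit 96))))))) (XT.nd (nat_lit 780) (nat_lit 1824) (nat_lit 0) (XT.nd (nat_lit 390) (nat_lit 532) (nat_lit 0) (XT.nd (nat_lit 156) (nat_lit 0) (nat_lit 0) (XT.nd (nat_lit 78) (nat_lit 0) (nat_lit 0) (XT.lf (nat_lit 0) (nat_lit 15143314632) (nat_lit 0) (nat_lit 15143314632) (nat_lit 684) (nat_lit 6080226853) (nat_lit 90) (nat_lit 5) (nat_lit 90) (nat_lit 3) (nat_lit 99) (nat_lit 3) (nat_lit 319) (nat_lit 319) (nat_lit 142)) (XT.lf (nat_lit 0) (nat_lit 62145361287) (nat_lit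 684) (nat_lit 9539434838) (nat_lit 760) (nat_lit 2864347007) (nat_lit 90) (nat_lit 5) (nat_lit 99) (nat_lit 3) (nat_lit 100) (nat_lit 5) (nat_lit 320) (nat_lit 319) (nat_lit 141))) (XT.nd (nat_lit 78) (nat_lit 0) (nat_lit 0) (XT.lf (nat_lit 76) (nat_lit 25327311012) (nat_lit 0) (nat_lit 39359955613) (nat_lit 760) (nat_lit 11723520568) (nat_lit 91) (nat_lit 5) (nat_lit 90) (nat_lit 5) (nat_lit 100) (nat_lit 5) (nat_lit 321) (nat_lit 319) (nat_lit 140)) (XT.nd (nat_lit 78) (nat_lit 0) (nat_lit 76) (XT.lf (nat_lit 76) (nat_lit 62268173784) (nat_lit 0) (nat_lit 5248942041) (nat_lit 760) (nat_lit 10840356627) (nat_lit 91) (nat_lit 5) (nat_lit 90) (nat_lit 5) (nat_lit 100) (nat_lit 5) (nat_lit 322) (nat_lit 319) (nat_lit 139)) (XT.lf (nat_lit 76) (nat_lit 20844053347) (nat_lit 0) (nat_lit 50446416195) (nat_lit 760) (nat_lit 9070923183) (nat_lit 92) (nat_lit 5) (nat_lit 91) (nat_lit 5) (nat_lit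 101) (nat_lit 5) (nat_lit 323) (nat_lit 319) (nat_lit 138))))) (XT.nd (nat_lit 156) (nat_lit 608) (nat_lit 0) (XT.nd (nat_lit 78) (nat_lit 0) (nat_lit 76) (XT.lf (nat_lit 76) (nat_lit 60093342606) (nat_lit 0) (nat_lit 15515645722) (nat_lit 760) (nat_lit 6838697106) (nat_lit 92) (nat_lit 5) (nat_lit 91) (nat_lit 5) (nat_lit 101) (nat_lit 5) (nat_lit 324) (nat_lit 319) (nat_lit 137)) (XT.lf (nat_lit 76) (nat_lit 16876115571) (nat_lit 0) (nat_lit 63860584703) (nat_lit 760) (nat_lit 3871930375) (nat_lit 93) (nat_lit 5) (nat_lit 92) (nat_lit 5) (nat_lit 102) (nat_lit 5) (nat_lit 325) (nat_lit 319) (nat_lit 136))) (XT.nd (nat_lit 78) (nat_lit 684) (nat_lit 0) (XT.lf (nat_lit 76) (nat_lit 58580995064) (nat_lit 0) (nat_lit 28168049909) (nat_lit 760) (nat_lit 97166962) (nat_lit 93) (nat_lit 5) (nat_lit 92) (nat_lit 5) (nat_lit 102) (nat_lit 5) (nat_lit 326) (nat_lit 319) (nat_lit 135)) (XT.nd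 (nat_lit 78) (nat_lit 0) (nat_lit 0) (XT.lf (nat_lit 0) (nat_lit 4103346073) (nat_lit 760) (nat_lit 75783625016) (nat_lit 836) (nat_lit 9287646128) (nat_lit 83) (nat_lit 5) (nat_lit 93) (nat_lit 5) (nat_lit 94) (nat_lit 5) (nat_lit 327) (nat_lit 319) (nat_lit 134)) (XT.lf (nat_lit 0) (nat_lit 9458376441) (nat_lit 760) (nat_lit 33955855897) (nat_lit 836) (nat_lit 48157743936) (nat_lit 83) (nat_lit 5) (nat_lit 93) (nat_lit 5) (nat_lit 94) (nat_lit 5) (nat_lit 328) (nat_lit 319) (nat_lit 133)))))) (XT.nd (nat_lit 390) (nat_lit 988) (nat_lit 0) (XT.nd (nat_lit 156) (nat_lit 836) (nat_lit 0) (XT.nd (nat_lit 78) (nat_lit 0) (nat_lit 76) (XT.lf (nat_lit 76) (nat_lit 10292288602) (nat_lit 0) (nat_lit 4949040616) (nat_lit 836) (nat_lit 78839866484) (nat_lit 84) (nat_lit 5) (nat_lit 83) (nat_lit 5) (nat_lit 94) (nat_lit 5) (nat_lit 329) (nat_lit 319) (nat_lit 132)) (XT.lf (nat_lit 0) (nat_lit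 22450723027) (nat_lit 760) (nat_lit 39318598814) (nat_lit 76) (nat_lit 34889690508) (nat_lit 84) (nat_lit 5) (nat_lit 94) (nat_lit 5) (nat_lit 85) (nat_lit 5) (nat_lit 330) (nat_lit 319) (nat_lit 131))) (XT.nd (nat_lit 78) (nat_lit 380) (nat_lit 0) (XT.lf (nat_lit 0) (nat_lit 7534825093) (nat_lit 532) (nat_lit 22684055675) (nat_lit 608) (nat_lit 69136925223) (nat_lit 77) (nat_lit 5) (nat_lit 84) (nat_lit 5) (nat_lit 85) (nat_lit 5) (nat_lit 331) (nat_lit 319) (nat_lit 130)) (XT.nd (nat_lit 78) (nat_lit 380) (nat_lit 0) (XT.lf (nat_lit 0) (nat_lit 39338361767) (nat_lit 608) (nat_lit 44356115626) (nat_lit 76) (nat_lit 18444816985) (nat_lit 77) (nat_lit 5) (nat_lit 85) (nat_lit 5) (nat_lit 78) (nat_lit 5) (nat_lit 332) (nat_lit 319) (nat_lit 129)) (XT.lf (nat_lit 0) (nat_lit 5278647097) (nat_lit 380) (nat_lit 44089015319) (nat_lit 456) (nat_lit 55671603282) (nat_lit 72) (nat_lit 5) (nat_lit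 77) (nat_lit 5) (nat_lit 78) (nat_lit 5) (nat_lit 333) (nat_lit 319) (nat_lit 128))))) (XT.nd (nat_lit 234) (nat_lit 684) (nat_lit 0) (XT.nd (nat_lit 78) (nat_lit 304) (nat_lit 0) (XT.lf (nat_lit 0) (nat_lit 58934673279) (nat_lit 380) (nat_lit 1714522809) (nat_lit 456) (nat_lit 47397501850) (nat_lit 72) (nat_lit 5) (nat_lit 77) (nat_lit 5) (nat_lit 78) (nat_lit 5) (nat_lit 334) (nat_lit 319) (nat_lit 127)) (XT.nd (nat_lit 78) (nat_lit 0) (nat_lit 0) (XT.lf (nat_lit 0) (nat_lit 3513125724) (nat_lit 304) (nat_lit 69704021757) (nat_lit 380) (nat_lit 37951237976) (nat_lit 68) (nat_lit 5) (nat_lit 72) (nat_lit 5) (nat_lit 73) (nat_lit 5) (nat_lit 335) (nat_lit 319) (nat_lit 126)) (XT.lf (nat_lit 0) (nat_lit 60445142813) (nat_lit 304) (nat_lit 26827351908) (nat_lit 380) (nat_lit 27130713402) (nat_lit 68) (nat_lit 5) (nat_lit 72) (nat_lit 5) (nat_lit 73) (nat_lit 5) (nat_lit 336) (nat_lit 319)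 (nat_lit 125)))) (XT.nd (nat_lit 78) (nat_lit 380) (nat_lit 0) (XT.lf (nat_lit 0) (nat_lit 2210272866) (nat_lit 304) (nat_lit 100138518178) (nat_lit 380) (nat_lit 15435072445) (nat_lit 64) (nat_lit 5) (nat_lit 68) (nat_lit 5) (nat_lit 69) (nat_lit 5) (nat_lit 337) (nat_lit 319) (nat_lit 124)) (XT.nd (nat_lit 78) (nat_lit 380) (nat_lit 0) (XT.lf (nat_lit 0) (nat_lit 62605590185) (nat_lit 304) (nat_lit 56919455675) (nat_lit 380) (nat_lit 1741199199) (nat_lit 64) (nat_lit 5) (nat_lit 68) (nat_lit 5) (nat_lit 69) (nat_lit 5) (nat_lit 338) (nat_lit 319) (nat_lit 123)) (XT.lf (nat_lit 0) (nat_lit 929989816) (nat_lit 304) (nat_lit 11317072456) (nat_lit 380) (nat_lit 112665110301) (nat_lit 59) (nat_lit 5) (nat_lit 63) (nat_lit 5) (nat_lit 64) (nat_lit 5) (nat_lit 339) (nat_lit 319) (nat_lit 122))))))))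
noncomputable def xc240 : XT := (XT.nd (nat_lit 1560) (nat_lit 456) (nat_lit 0) (XT.nd (nat_lit 780) (nat_lit 1064) (nat_lit 0) (XT.nd (nat_lit 390) (nat_lit 532) (nat_lit 0) (XT.nd (nat_lit 156) (nat_lit 532) (nat_lit 0) (XT.nd (nat_lit 78) (nat_lit 0) (nat_lit 0) (XT.lf (nat_lit 0) (nat_lit 28456501785) (nat_lit 380) (nat_lit 63770119895) (nat_lit 76) (nat_lit 36433334072) (nat_lit 59) (nat_lit 5) (nat_lit 64) (nat_lit 5) (nat_lit 60) (nat_lit 5) (nat_lit 340) (nat_lit 319) (nat_lit 121)) (XT.lf (nat_lit 0) (nat_lit 45661614535) (nat_lit 380) (nat_lit 733369084) (nat_lit 76) (nat_lit 86190884920) (nat_lit 59) (nat_lit 5) (nat_lit 64) (nat_lit 5) (nat_lit 60) (nat_lit 5) (nat_lit 341) (nat_lit 319) (nat_lit 120))) (XT.nd (nat_lit 78) (nat_lit 228) (nat_lit 0) (XT.lf (nat_lit 0) (nat_lit 64826685808) (nat_lit 380) (nat_lit 69080514041) (nat_lit 76) (nat_lit 2745892458) (nat_lit 55) (nat_lit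 5) (nat_lit 60) (nat_lit 5) (nat_lit 56) (nat_lit 5) (nat_lit 342) (nat_lit 319) (nat_lit 119)) (XT.nd (nat_lit 78) (nat_lit 228) (nat_lit 0) (XT.lf (nat_lit 0) (nat_lit 85722906658) (nat_lit 380) (nat_lit 2364928813) (nat_lit 76) (nat_lit 52797197455) (nat_lit 55) (nat_lit 5) (nat_lit 60) (nat_lit 5) (nat_lit 56) (nat_lit 5) (nat_lit 343) (nat_lit 319) (nat_lit 118)) (XT.lf (nat_lit 0) (nat_lit 69924081694) (nat_lit 228) (nat_lit 38831281013) (nat_lit 304) (nat_lit 36518637102) (nat_lit 52) (nat_lit 5) (nat_lit 55) (nat_lit 5) (nat_lit 56) (nat_lit 5) (nat_lit 344) (nat_lit 319) (nat_lit 117))))) (XT.nd (nat_lit 156) (nat_lit 228) (nat_lit 0) (XT.nd (nat_lit 78) (nat_lit 304) (nat_lit 0) (XT.lf (nat_lit 0) (nat_lit 133181088914) (nat_lit 304) (nat_lit 4173009321) (nat_lit 76) (nat_lit 12516234854) (nat_lit 52) (nat_lit 5) (nat_lit 56) (nat_lit 5) (nat_lit 53) (nat_lit 5) (nat_lit 345)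 (nat_lit 319) (nat_lit 116)) (XT.lf (nat_lit 0) (nat_lit 5792448489) (nat_lit 304) (nat_lit 82463823905) (nat_lit 76) (nat_lit 66347332329) (nat_lit 48) (nat_lit 5) (nat_lit 52) (nat_lit 5) (nat_lit 49) (nat_lit 5) (nat_lit 346) (nat_lit 319) (nat_lit 115))) (XT.nd (nat_lit 78) (nat_lit 228) (nat_lit 0) (XT.lf (nat_lit 0) (nat_lit 28908924424) (nat_lit 304) (nat_lit 7432025614) (nat_lit 76) (nat_lit 123215332222) (nat_lit 48) (nat_lit 5) (nat_lit 52) (nat_lit 5) (nat_lit 49) (nat_lit 5) (nat_lit 347) (nat_lit 319) (nat_lit 114)) (XT.nd (nat_lit 78) (nat_lit 0) (nat_lit 0) (XT.lf (nat_lit 0) (nat_lit 54634347276) (nat_lit 304) (nat_lit 91291404706) (nat_lit 76) (nat_lit 18758185882) (nat_lit 45) (nat_lit 5) (nat_lit 49) (nat_lit 5) (nat_lit 46) (nat_lit 5) (nat_lit 348) (nat_lit 319) (nat_lit 113)) (XT.lf (nat_lit 0) (nat_lit 82369477019) (nat_lit 304) (nat_lit 12143499957) (nat_lit 76)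 (nat_lit 75518827812) (nat_lit 45) (nat_lit 5) (nat_lit 49) (nat_lit 5) (nat_lit 46) (nat_lit 5) (nat_lit 349) (nat_lit 319) (nat_lit 112)))))) (XT.nd (nat_lit 390) (nat_lit 380) (nat_lit 0) (XT.nd (nat_lit 156) (nat_lit 456) (nat_lit 0) (XT.nd (nat_lit 78) (nat_lit 0) (nat_lit 0) (XT.lf (nat_lit 0) (nat_lit 73307779812) (nat_lit 228) (nat_lit 39327889192) (nat_lit 304) (nat_lit 62954181081) (nat_lit 42) (nat_lit 5) (nat_lit 45) (nat_lit 5) (nat_lit 46) (nat_lit 5) (nat_lit 350) (nat_lit 319) (nat_lit 111)) (XT.lf (nat_lit 0) (nat_lit 144914623582) (nat_lit 304) (nat_lit 18256654738) (nat_lit 76) (nat_lit 18229546976) (nat_lit 42) (nat_lit 5) (nat_lit 46) (nat_lit 5) (nat_lit 43) (nat_lit 5) (nat_lit 351) (nat_lit 319) (nat_lit 110))) (XT.nd (nat_lit 78) (nat_lit 304) (nat_lit 0) (XT.lf (nat_lit 0) (nat_lit 71617193384) (nat_lit 152) (nat_lit 108952978553) (nat_lit 228) (nat_lit 6844045315)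 (nat_lit 40) (nat_lit 5) (nat_lit 42) (nat_lit 5) (nat_lit 43) (nat_lit 5) (nat_lit 352) (nat_lit 319) (nat_lit 109)) (XT.nd (nat_lit 78) (nat_lit 228) (nat_lit 0) (XT.lf (nat_lit 0) (nat_lit 23817137414) (nat_lit 228) (nat_lit 27478725138) (nat_lit 76) (nat_lit 142397760538) (nat_lit 39) (nat_lit 5) (nat_lit 42) (nat_lit 5) (nat_lit 40) (nat_lit 5) (nat_lit 353) (nat_lit 319) (nat_lit 108)) (XT.lf (nat_lit 0) (nat_lit 56995250129) (nat_lit 304) (nat_lit 133095344839) (nat_lit 76) (nat_lit 10130100843) (nat_lit 36) (nat_lit 5) (nat_lit 40) (nat_lit 5) (nat_lit 37) (nat_lit 5) (nat_lit 354) (nat_lit 319) (nat_lit 107))))) (XT.nd (nat_lit 156) (nat_lit 228) (nat_lit 0) (XT.nd (nat_lit 78) (nat_lit 152) (nat_lit 0) (XT.lf (nat_lit 0) (nat_lit 93145975938) (nat_lit 304) (nat_lit 40486075627) (nat_lit 76) (nat_lit 73376385465) (nat_lit 36) (nat_lit 5) (nat_lit 40) (nat_lit 5) (nat_lit 37)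 (nat_lit 5) (nat_lit 355) (nat_lit 319) (nat_lit 106)) (XT.lf (nat_lit 0) (nat_lit 58629887019) (nat_lit 152) (nat_lit 73389534749) (nat_lit 228) (nat_lit 82070384578) (nat_lit 34) (nat_lit 5) (nat_lit 36) (nat_lit 5) (nat_lit 37) (nat_lit 5) (nat_lit 356) (nat_lit 319) (nat_lit 105))) (XT.nd (nat_lit 78) (nat_lit 228) (nat_lit 0) (XT.lf (nat_lit 0) (nat_lit 164106945081) (nat_lit 152) (nat_lit 9415057676) (nat_lit 228) (nat_lit 47968968438) (nat_lit 34) (nat_lit 5) (nat_lit 36) (nat_lit 5) (nat_lit 37) (nat_lit 5) (nat_lit 357) (nat_lit 319) (nat_lit 104)) (XT.nd (nat_lit 78) (nat_lit 76) (nat_lit 0) (XT.lf (nat_lit 0) (nat_lit 46171386145) (nat_lit 152) (nat_lit 172550776948) (nat_lit 228) (nat_lit 10458908882) (nat_lit 32) (nat_lit 5) (nat_lit 34) (nat_lit 5) (nat_lit 35) (nat_lit 5) (nat_lit 358) (nat_lit 319) (nat_lit 103)) (XT.lf (nat_lit 0) (nat_lit 29142743402) (nat_lit 228)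 (nat_lit 80932459981) (nat_lit 76) (nat_lit 127100797123) (nat_lit 31) (nat_lit 5) (nat_lit 34) (nat_lit 5) (nat_lit 32) (nat_lit 5) (nat_lit 359) (nat_lit 319) (nat_lit 102))))))) (XT.nd (nat_lit 37752) (nat_lit 0) (nat_lit 3952) (XT.nd (nat_lit 390) (nat_lit 152) (nat_lit 0) (XT.nd (nat_lit 156) (nat_lit 152) (nat_lit 0) (XT.nd (nat_lit 78) (nat_lit 0) (nat_lit 0) (XT.lf (nat_lit 0) (nat_lit 26939119795) (nat_lit 152) (nat_lit 43854294585) (nat_lit 228) (nat_lit 174747667182) (nat_lit 29) (nat_lit 5) (nat_lit 31) (nat_lit 5) (nat_lit 32) (nat_lit 5) (nat_lit 360) (nat_lit 319) (nat_lit 101)) (XT.lf (nat_lit 0) (nat_lit 116320450167) (nat_lit 228) (nat_lit 111665456460) (nat_lit 76) (nat_lit 26248818646) (nat_lit 29) (nat_lit 5) (nat_lit 32) (nat_lit 5) (nat_lit 30) (nat_lit 5) (nat_lit 361) (nat_lit 319) (nat_lit 100))) (XT.nd (nat_lit 78) (nat_lit 152) (nat_lit 0) (XT.lf (nat_lit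 0) (nat_lit 164842599948) (nat_lit 228) (nat_lit 101308320) (nat_lit 76) (nat_lit 98383204950) (nat_lit 29) (nat_lit 5) (nat_lit 32) (nat_lit 5) (nat_lit 30) (nat_lit 5) (nat_lit 362) (nat_lit 319) (nat_lit 99)) (XT.nd (nat_lit 78) (nat_lit 0) (nat_lit 0) (XT.lf (nat_lit 0) (nat_lit 120910697436) (nat_lit 152) (nat_lit 96767761614) (nat_lit 228) (nat_lit 55101281569) (nat_lit 27) (nat_lit 5) (nat_lit 29) (nat_lit 5) (nat_lit 30) (nat_lit 5) (nat_lit 363) (nat_lit 319) (nat_lit 98)) (XT.lf (nat_lit 0) (nat_lit 247976577453) (nat_lit 152) (nat_lit 25181099842) (nat_lit 228) (nat_lit 9547243930) (nat_lit 27) (nat_lit 5) (nat_lit 29) (nat_lit 5) (nat_lit 30) (nat_lit 5) (nat_lit 364) (nat_lit 319) (nat_lit 97))))) (XT.nd (nat_lit 37128) (nat_lit 0) (nat_lit 4940) (XT.nd (nat_lit 78) (nat_lit 0) (nat_lit 0) (XT.lf (nat_lit 0) (nat_lit 39286445949) (nat_lit 152) (nat_lit 203268922928) (nat_lit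 76) (nat_lit 50429741035) (nat_lit 25) (nat_lit 5) (nat_lit 27) (nat_lit 5) (nat_lit 26) (nat_lit 5) (nat_lit 365) (nat_lit 319) (nat_lit 96)) (XT.lf (nat_lit 0) (nat_lit 91251415182) (nat_lit 152) (nat_lit 82740464310) (nat_lit 76) (nat_lit 129729080814) (nat_lit 25) (nat_lit 5) (nat_lit 27) (nat_lit 5) (nat_lit 26) (nat_lit 5) (nat_lit 366) (nat_lit 319) (nat_lit 95))) (XT.nd (nat_lit 78) (nat_lit 0) (nat_lit 0) (XT.lf (nat_lit 0) (nat_lit 15906176101) (nat_lit 0) (nat_lit 15906176101) (nat_lit 684) (nat_lit 6372254166) (nat_lit 90) (nat_lit 5) (nat_lit 90) (nat_lit 3) (nat_lit 99) (nat_lit 3) (nat_lit 320) (nat_lit 320) (nat_lit 140)) (XT.nd (nat_lit 78) (nat_lit 0) (nat_lit 0) (XT.lf (nat_lit 0) (nat_lit 65274158013) (nat_lit 684) (nat_lit 10004259495) (nat_lit 760) (nat_lit 2997062571) (nat_lit 90) (nat_lit 5) (nat_lit 99) (nat_lit 3) (nat_lit 100) (nat_lit 5) (nat_lit 321) (nat_lit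 320) (nat_lit 139)) (XT.lf (nat_lit 76) (nat_lit 26605627726) (nat_lit 0) (nat_lit 41336692309) (nat_lit 760) (nat_lit 12287930323) (nat_lit 91) (nat_lit 5) (nat_lit 90) (nat_lit 5) (nat_lit 100) (nat_lit 5) (nat_lit 322) (nat_lit 320) (nat_lit 138)))))) (XT.nd (nat_lit 390) (nat_lit 988) (nat_lit 0) (XT.nd (nat_lit 156) (nat_lit 0) (nat_lit 76) (XT.nd (nat_lit 78) (nat_lit 0) (nat_lit 76) (XT.lf (nat_lit 76) (nat_lit 65392964534) (nat_lit 0) (nat_lit 5519711919) (nat_lit 760) (nat_lit 11361644674) (nat_lit 91) (nat_lit 5) (nat_lit 90) (nat_lit 5) (nat_lit 100) (nat_lit 5) (nat_lit 323) (nat_lit 320) (nat_lit 137)) (XT.lf (nat_lit 76) (nat_lit 21898590755) (nat_lit 0) (nat_lit 52975237601) (nat_lit 760) (nat_lit 9504654424) (nat_lit 92) (nat_lit 5) (nat_lit 91) (nat_lit 5) (nat_lit 101) (nat_lit 5) (nat_lit 324) (nat_lit 320) (nat_lit 136))) (XT.nd (nat_lit 78) (nat_lit 0) (nat_lit 76)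 (XT.lf (nat_lit 76) (nat_lit 63109757109) (nat_lit 0) (nat_lit 16297619052) (nat_lit 760) (nat_lit 7161760610) (nat_lit 92) (nat_lit 5) (nat_lit 91) (nat_lit 5) (nat_lit 101) (nat_lit 5) (nat_lit 325) (nat_lit 320) (nat_lit 135)) (XT.nd (nat_lit 78) (nat_lit 0) (nat_lit 0) (XT.lf (nat_lit 76) (nat_lit 17732492236) (nat_lit 0) (nat_lit 67058231467) (nat_lit 760) (nat_lit 4047444758) (nat_lit 93) (nat_lit 5) (nat_lit 92) (nat_lit 5) (nat_lit 102) (nat_lit 5) (nat_lit 326) (nat_lit 320) (nat_lit 134)) (XT.lf (nat_lit 76) (nat_lit 61522017090) (nat_lit 0) (nat_lit 29580850051) (nat_lit 760) (nat_lit 84804229) (nat_lit 93) (nat_lit 5) (nat_lit 92) (nat_lit 5) (nat_lit 102) (nat_lit 5) (nat_lit 327) (nat_lit 320) (nat_lit 133))))) (XT.nd (nat_lit 156) (nat_lit 456) (nat_lit 0) (XT.nd (nat_lit 78) (nat_lit 0) (nat_lit 0) (XT.lf (nat_lit 0) (nat_lit 4324524292) (nat_lit 760) (nat_lit 79559563086)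 (nat_lit 836) (nat_lit 9748430525) (nat_lit 83) (nat_lit 5) (nat_lit 93) (nat_lit 5) (nat_lit 94) (nat_lit 5) (nat_lit 328) (nat_lit 320) (nat_lit 132)) (XT.lf (nat_lit 0) (nat_lit 9946543753) (nat_lit 760) (nat_lit 35641036139) (nat_lit 836) (nat_lit 50562204553) (nat_lit 83) (nat_lit 5) (nat_lit 93) (nat_lit 5) (nat_lit 94) (nat_lit 5) (nat_lit 329) (nat_lit 320) (nat_lit 131))) (XT.nd (nat_lit 78) (nat_lit 456) (nat_lit 0) (XT.lf (nat_lit 76) (nat_lit 10819312156) (nat_lit 0) (nat_lit 5198799635) (nat_lit 836) (nat_lit 82766381015) (nat_lit 84) (nat_lit 5) (nat_lit 83) (nat_lit 5) (nat_lit 94) (nat_lit 5) (nat_lit 330) (nat_lit 320) (nat_lit 130)) (XT.nd (nat_lit 78) (nat_lit 532) (nat_lit 0) (XT.lf (nat_lit 0) (nat_lit 23587240220) (nat_lit 760) (nat_lit 41271949876) (nat_lit 76) (nat_lit 36632048224) (nat_lit 84) (nat_lit 5) (nat_lit 94) (nat_lit 5) (nat_lit 85) (nat_lit 5) (nat_lit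 331) (nat_lit 320) (nat_lit 129)) (XT.lf (nat_lit 0) (nat_lit 7923942342) (nat_lit 532) (nat_lit 23819390967) (nat_lit 608) (nat_lit 72579563181) (nat_lit 77) (nat_lit 5) (nat_lit 84) (nat_lit 5) (nat_lit 85) (nat_lit 5) (nat_lit 332) (nat_lit 320) (nat_lit 128))))))))
noncomputable def xc241 : XT := (XT.nd (nat_lit 1560) (nat_lit 1140) (nat_lit 0) (XT.nd (nat_lit 780) (nat_lit 1292) (nat_lit 0) (XT.nd (nat_lit 390) (nat_lit 684) (nat_lit 0) (XT.nd (nat_lit 156) (nat_lit 304) (nat_lit 0) (XT.nd (nat_lit 78) (nat_lit 380) (nat_lit 0) (XT.lf (nat_lit 0) (nat_lit 41318128256) (nat_lit 608) (nat_lit 46561451430) (nat_lit 76) (nat_lit 19366013776) (nat_lit 77) (nat_lit 5) (nat_lit 85) (nat_lit 5) (nat_lit 78) (nat_lit 5) (nat_lit 333) (nat_lit 320) (nat_lit 127)) (XT.lf (nat_lit 0) (nat_lit 5554848301) (nat_lit 380) (nat_lit 46293625359) (nat_lit 456) (nat_lit 58442111807) (nat_lit 72) (nat_lit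 5) (nat_lit 77) (nat_lit 5) (nat_lit 78) (nat_lit 5) (nat_lit 334) (nat_lit 320) (nat_lit 126))) (XT.nd (nat_lit 78) (nat_lit 304) (nat_lit 0) (XT.lf (nat_lit 0) (nat_lit 61893091561) (nat_lit 380) (nat_lit 1800400638) (nat_lit 456) (nat_lit 49754927763) (nat_lit 72) (nat_lit 5) (nat_lit 77) (nat_lit 5) (nat_lit 78) (nat_lit 5) (nat_lit 335) (nat_lit 320) (nat_lit 125)) (XT.nd (nat_lit 78) (nat_lit 0) (nat_lit 0) (XT.lf (nat_lit 0) (nat_lit 3700883484) (nat_lit 304) (nat_lit 73188580727) (nat_lit 380) (nat_lit 39836747497) (nat_lit 68) (nat_lit 5) (nat_lit 72) (nat_lit 5) (nat_lit 73) (nat_lit 5) (nat_lit 336) (nat_lit 320) (nat_lit 124)) (XT.lf (nat_lit 0) (nat_lit 63478925167) (nat_lit 304) (nat_lit 28168107963) (nat_lit 380) (nat_lit 28475770616) (nat_lit 68) (nat_lit 5) (nat_lit 72) (nat_lit 5) (nat_lit 73) (nat_lit 5) (nat_lit 337) (nat_lit 320) (nat_lit 123))))) (XT.nd (nat_lit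 156) (nat_lit 380) (nat_lit 0) (XT.nd (nat_lit 78) (nat_lit 0) (nat_lit 0) (XT.lf (nat_lit 0) (nat_lit 2332672112) (nat_lit 304) (nat_lit 105144147119) (nat_lit 380) (nat_lit 16195689811) (nat_lit 64) (nat_lit 5) (nat_lit 68) (nat_lit 5) (nat_lit 69) (nat_lit 5) (nat_lit 338) (nat_lit 320) (nat_lit 122)) (XT.lf (nat_lit 0) (nat_lit 65747189316) (nat_lit 304) (nat_lit 59764193252) (nat_lit 380) (nat_lit 1817653201) (nat_lit 64) (nat_lit 5) (nat_lit 68) (nat_lit 5) (nat_lit 69) (nat_lit 5) (nat_lit 339) (nat_lit 320) (nat_lit 121))) (XT.nd (nat_lit 78) (nat_lit 0) (nat_lit 0) (XT.lf (nat_lit 0) (nat_lit 987976568) (nat_lit 304) (nat_lit 11881395786) (nat_lit 380) (nat_lit 118287895286) (nat_lit 59) (nat_lit 5) (nat_lit 63) (nat_lit 5) (nat_lit 64) (nat_lit 5) (nat_lit 340) (nat_lit 320) (nat_lit 120)) (XT.nd (nat_lit 78) (nat_lit 0) (nat_lit 0) (XT.lf (nat_lit 0) (nat_lit 29888832456)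 (nat_lit 380) (nat_lit 66947219290) (nat_lit 76) (nat_lit 38256411551) (nat_lit 59) (nat_lit 5) (nat_lit 64) (nat_lit 5) (nat_lit 60) (nat_lit 5) (nat_lit 341) (nat_lit 320) (nat_lit 119)) (XT.lf (nat_lit 0) (nat_lit 47953748197) (nat_lit 380) (nat_lit 759174110) (nat_lit 76) (nat_lit 90501772761) (nat_lit 59) (nat_lit 5) (nat_lit 64) (nat_lit 5) (nat_lit 60) (nat_lit 5) (nat_lit 342) (nat_lit 320) (nat_lit 118)))))) (XT.nd (nat_lit 390) (nat_lit 456) (nat_lit 0) (XT.nd (nat_lit 156) (nat_lit 532) (nat_lit 0) (XT.nd (nat_lit 78) (nat_lit 0) (nat_lit 0) (XT.lf (nat_lit 0) (nat_lit 68076838471) (nat_lit 380) (nat_lit 72523428178) (nat_lit 76) (nat_lit 2885025781) (nat_lit 55) (nat_lit 5) (nat_lit 60) (nat_lit 5) (nat_lit 56) (nat_lit 5) (nat_lit 343) (nat_lit 320) (nat_lit 117)) (XT.lf (nat_lit 0) (nat_lit 90017450440) (nat_lit 380) (nat_lit 2472592811) (nat_lit 76) (nat_lit 55438808471)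 (nat_lit 55) (nat_lit 5) (nat_lit 60) (nat_lit 5) (nat_lit 56) (nat_lit 5) (nat_lit 344) (nat_lit 320) (nat_lit 116))) (XT.nd (nat_lit 78) (nat_lit 304) (nat_lit 0) (XT.lf (nat_lit 0) (nat_lit 73430697537) (nat_lit 228) (nat_lit 40770594386) (nat_lit 304) (nat_lit 38335987511) (nat_lit 52) (nat_lit 5) (nat_lit 55) (nat_lit 5) (nat_lit 56) (nat_lit 5) (nat_lit 345) (nat_lit 320) (nat_lit 115)) (XT.nd (nat_lit 78) (nat_lit 304) (nat_lit 0) (XT.lf (nat_lit 0) (nat_lit 139847949283) (nat_lit 304) (nat_lit 4371376945) (nat_lit 76) (nat_lit 13144121494) (nat_lit 52) (nat_lit 5) (nat_lit 56) (nat_lit 5) (nat_lit 53) (nat_lit 5) (nat_lit 346) (nat_lit 320) (nat_lit 114)) (XT.lf (nat_lit 0) (nat_lit 6089798353) (nat_lit 304) (nat_lit 86576631971) (nat_lit 76) (nat_lit 69666957629) (nat_lit 48) (nat_lit 5) (nat_lit 52) (nat_lit 5) (nat_lit 49) (nat_lit 5) (nat_lit 347) (nat_lit 320) (nat_lit 113)))))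 (XT.nd (nat_lit 156) (nat_lit 228) (nat_lit 0) (XT.nd (nat_lit 78) (nat_lit 228) (nat_lit 0) (XT.lf (nat_lit 0) (nat_lit 30361730111) (nat_lit 304) (nat_lit 7793738200) (nat_lit 76) (nat_lit 129378249960) (nat_lit 48) (nat_lit 5) (nat_lit 52) (nat_lit 5) (nat_lit 49) (nat_lit 5) (nat_lit 348) (nat_lit 320) (nat_lit 112)) (XT.lf (nat_lit 0) (nat_lit 57373265652) (nat_lit 304) (nat_lit 95845918148) (nat_lit 76) (nat_lit 19698581259) (nat_lit 45) (nat_lit 5) (nat_lit 49) (nat_lit 5) (nat_lit 46) (nat_lit 5) (nat_lit 349) (nat_lit 320) (nat_lit 111))) (XT.nd (nat_lit 78) (nat_lit 228) (nat_lit 0) (XT.lf (nat_lit 0) (nat_lit 86494808978) (nat_lit 304) (nat_lit 12741097057) (nat_lit 76) (nat_lit 79297136901) (nat_lit 45) (nat_lit 5) (nat_lit 49) (nat_lit 5) (nat_lit 46) (nat_lit 5) (nat_lit 350) (nat_lit 320) (nat_lit 110)) (XT.nd (nat_lit 78) (nat_lit 0) (nat_lit 0) (XT.lf (nat_lit 0) (nat_lit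 76982592219) (nat_lit 228) (nat_lit 41291538892) (nat_lit 304) (nat_lit 66094868796) (nat_lit 42) (nat_lit 5) (nat_lit 45) (nat_lit 5) (nat_lit 46) (nat_lit 5) (nat_lit 351) (nat_lit 320) (nat_lit 109)) (XT.lf (nat_lit 0) (nat_lit 152166756200) (nat_lit 304) (nat_lit 19160227242) (nat_lit 76) (nat_lit 19143554716) (nat_lit 42) (nat_lit 5) (nat_lit 46) (nat_lit 5) (nat_lit 43) (nat_lit 5) (nat_lit 352) (nat_lit 320) (nat_lit 108))))))) (XT.nd (nat_lit 780) (nat_lit 152) (nat_lit 0) (XT.nd (nat_lit 390) (nat_lit 380) (nat_lit 0) (XT.nd (nat_lit 156) (nat_lit 380) (nat_lit 0) (XT.nd (nat_lit 78) (nat_lit 76) (nat_lit 0) (XT.lf (nat_lit 0) (nat_lit 75207163928) (nat_lit 152) (nat_lit 114397755459) (nat_lit 228) (nat_lit 7179688847) (nat_lit 40) (nat_lit 5) (nat_lit 42) (nat_lit 5) (nat_lit 43) (nat_lit 5) (nat_lit 353) (nat_lit 320) (nat_lit 107)) (XT.lf (nat_lit 0) (nat_lit 25014040773)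 (nat_lit 228) (nat_lit 28843777248) (nat_lit 76) (nat_lit 149520176700) (nat_lit 39) (nat_lit 5) (nat_lit 42) (nat_lit 5) (nat_lit 40) (nat_lit 5) (nat_lit 354) (nat_lit 320) (nat_lit 106))) (XT.nd (nat_lit 78) (nat_lit 152) (nat_lit 0) (XT.lf (nat_lit 0) (nat_lit 59850952096) (nat_lit 304) (nat_lit 139741114052) (nat_lit 76) (nat_lit 10639360625) (nat_lit 36) (nat_lit 5) (nat_lit 40) (nat_lit 5) (nat_lit 37) (nat_lit 5) (nat_lit 355) (nat_lit 320) (nat_lit 105)) (XT.nd (nat_lit 78) (nat_lit 152) (nat_lit 0) (XT.lf (nat_lit 0) (nat_lit 97808931364) (nat_lit 304) (nat_lit 42501809857) (nat_lit 76) (nat_lit 77047828300) (nat_lit 36) (nat_lit 5) (nat_lit 40) (nat_lit 5) (nat_lit 37) (nat_lit 5) (nat_lit 356) (nat_lit 320) (nat_lit 104)) (XT.lf (nat_lit 0) (nat_lit 61569812703) (nat_lit 152) (nat_lit 77056099056) (nat_lit 228) (nat_lit 86168102741) (nat_lit 34) (nat_lit 5) (nat_lit 36) (nat_lit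 5) (nat_lit 37) (nat_lit 5) (nat_lit 357) (nat_lit 320) (nat_lit 103))))) (XT.nd (nat_lit 156) (nat_lit 228) (nat_lit 0) (XT.nd (nat_lit 78) (nat_lit 152) (nat_lit 0) (XT.lf (nat_lit 0) (nat_lit 172320322177) (nat_lit 152) (nat_lit 9883036817) (nat_lit 228) (nat_lit 50361892035) (nat_lit 34) (nat_lit 5) (nat_lit 36) (nat_lit 5) (nat_lit 37) (nat_lit 5) (nat_lit 358) (nat_lit 320) (nat_lit 102)) (XT.lf (nat_lit 0) (nat_lit 48488077566) (nat_lit 152) (nat_lit 181175367543) (nat_lit 228) (nat_lit 10976416133) (nat_lit 32) (nat_lit 5) (nat_lit 34) (nat_lit 5) (nat_lit 35) (nat_lit 5) (nat_lit 359) (nat_lit 320) (nat_lit 101))) (XT.nd (nat_lit 78) (nat_lit 152) (nat_lit 0) (XT.lf (nat_lit 0) (nat_lit 30604894036) (nat_lit 228) (nat_lit 84971176751) (nat_lit 76) (nat_lit 133458473956) (nat_lit 31) (nat_lit 5) (nat_lit 34) (nat_lit 5) (nat_lit 32) (nat_lit 5) (nat_lit 360) (nat_lit 320) (nat_lit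 100)) (XT.nd (nat_lit 78) (nat_lit 0) (nat_lit 0) (XT.lf (nat_lit 0) (nat_lit 28293854494) (nat_lit 152) (nat_lit 46044126780) (nat_lit 228) (nat_lit 183479904685) (nat_lit 29) (nat_lit 5) (nat_lit 31) (nat_lit 5) (nat_lit 32) (nat_lit 5) (nat_lit 361) (nat_lit 320) (nat_lit 99)) (XT.lf (nat_lit 0) (nat_lit 122141178560) (nat_lit 228) (nat_lit 117241126058) (nat_lit 76) (nat_lit 27563916984) (nat_lit 29) (nat_lit 5) (nat_lit 32) (nat_lit 5) (nat_lit 30) (nat_lit 5) (nat_lit 362) (nat_lit 320) (nat_lit 98)))))) (XT.nd (nat_lit 37518) (nat_lit 0) (nat_lit 4788) (XT.nd (nat_lit 156) (nat_lit 0) (nat_lit 0) (XT.nd (nat_lit 78) (nat_lit 152) (nat_lit 0) (XT.lf (nat_lit 0) (nat_lit 173089211740) (nat_lit 228) (nat_lit 99132570) (nat_lit 76) (nat_lit 103304896060) (nat_lit 29) (nat_lit 5) (nat_lit 32) (nat_lit 5) (nat_lit 30) (nat_lit 5) (nat_lit 363) (nat_lit 320) (nat_lit 97)) (XT.lf (nat_lit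 0) (nat_lit 126963356681) (nat_lit 152) (nat_lit 101603404930) (nat_lit 228) (nat_lit 57851742851) (nat_lit 27) (nat_lit 5) (nat_lit 29) (nat_lit 5) (nat_lit 30) (nat_lit 5) (nat_lit 364) (nat_lit 320) (nat_lit 96))) (XT.nd (nat_lit 37206) (nat_lit 0) (nat_lit 4788) (XT.lf (nat_lit 0) (nat_lit 260382191443) (nat_lit 152) (nat_lit 26437540772) (nat_lit 228) (nat_lit 10020222511) (nat_lit 27) (nat_lit 5) (nat_lit 29) (nat_lit 5) (nat_lit 30) (nat_lit 5) (nat_lit 365) (nat_lit 320) (nat_lit 95)) (XT.nd (nat_lit 78) (nat_lit 0) (nat_lit 0) (XT.lf (nat_lit 0) (nat_lit 16706651107) (nat_lit 0) (nat_lit 16706651107) (nat_lit 684) (nat_lit 6679997006) (nat_lit 90) (nat_lit 5) (nat_lit 90) (nat_lit 3) (nat_lit 99) (nat_lit 3) (nat_lit 321) (nat_lit 321) (nat_lit 138)) (XT.lf (nat_lit 0) (nat_lit 68557393044) (nat_lit 684) (nat_lit 10493454707) (nat_lit 760) (nat_lit 3137390270) (nat_lit 90) (nat_lit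 5) (nat_lit 99) (nat_lit 3) (nat_lit 100) (nat_lit 5) (nat_lit 322) (nat_lit 321) (nat_lit 137))))) (XT.nd (nat_lit 156) (nat_lit 0) (nat_lit 76) (XT.nd (nat_lit 78) (nat_lit 0) (nat_lit 0) (XT.lf (nat_lit 76) (nat_lit 27946749170) (nat_lit 0) (nat_lit 43411453378) (nat_lit 760) (nat_lit 12882584188) (nat_lit 91) (nat_lit 5) (nat_lit 90) (nat_lit 5) (nat_lit 100) (nat_lit 5) (nat_lit 323) (nat_lit 321) (nat_lit 136)) (XT.lf (nat_lit 76) (nat_lit 68672936625) (nat_lit 0) (nat_lit 5803246518) (nat_lit 760) (nat_lit 11910924383) (nat_lit 91) (nat_lit 5) (nat_lit 90) (nat_lit 5) (nat_lit 100) (nat_lit 5) (nat_lit 324) (nat_lit 321) (nat_lit 135))) (XT.nd (nat_lit 78) (nat_lit 0) (nat_lit 0) (XT.lf (nat_lit 76) (nat_lit 23004708267) (nat_lit 0) (nat_lit 55629895712) (nat_lit 760) (nat_lit 9961914430) (nat_lit 92) (nat_lit 5) (nat_lit 91) (nat_lit 5) (nat_lit 101) (nat_lit 5) (nat_lit 325)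 (nat_lit 321) (nat_lit 134)) (XT.nd (nat_lit 78) (nat_lit 0) (nat_lit 76) (XT.lf (nat_lit 76) (nat_lit 66275900178) (nat_lit 0) (nat_lit 17118115463) (nat_lit 760) (nat_lit 7502731769) (nat_lit 92) (nat_lit 5) (nat_lit 91) (nat_lit 5) (nat_lit 101) (nat_lit 5) (nat_lit 326) (nat_lit 321) (nat_lit 133)) (XT.lf (nat_lit 76) (nat_lit 18630519013) (nat_lit 0) (nat_lit 70415331274) (nat_lit 760) (nat_lit 4233415965) (nat_lit 93) (nat_lit 5) (nat_lit 92) (nat_lit 5) (nat_lit 102) (nat_lit 5) (nat_lit 327) (nat_lit 321) (nat_lit 132))))))))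
noncomputable def xc242 : XT := (XT.nd (nat_lit 1560) (nat_lit 1748) (nat_lit 0) (XT.nd (nat_lit 780) (nat_lit 1216) (nat_lit 0) (XT.nd (nat_lit 390) (nat_lit 1140) (nat_lit 0) (XT.nd (nat_lit 156) (nat_lit 0) (nat_lit 0) (XT.nd (nat_lit 78) (nat_lit 684) (nat_lit 0) (XT.lf (nat_lit 76) (nat_lit 64608977150) (nat_lit 0) (nat_lit 31063881348) (nat_lit 760) (nat_lit 73424411) (nat_lit 93) (nat_lit 5) (nat_lit 92) (nat_lit 5) (nat_lit 102) (nat_lit 5) (nat_lit 328) (nat_lit 321) (nat_lit 131)) (XT.lf (nat_lit 0) (nat_lit 4555272878) (nat_lit 760) (nat_lit 83525529286) (nat_lit 836) (nat_lit 10232588642) (nat_lit 83) (nat_lit 5) (nat_lit 93) (nat_lit 5) (nat_lit 94) (nat_lit 5) (nat_lit 329) (nat_lit 321) (nat_lit 130))) (XT.nd (nat_lit 78) (nat_lit 0) (nat_lit 0) (XT.lf (nat_lit 0) (nat_lit 10457701770) (nat_lit 760) (nat_lit 37411647989) (nat_lit 836) (nat_lit 53087206772) (nat_lit 83)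 (nat_lit 5) (nat_lit 93) (nat_lit 5) (nat_lit 94) (nat_lit 5) (nat_lit 330) (nat_lit 321) (nat_lit 129)) (XT.nd (nat_lit 78) (nat_lit 0) (nat_lit 76) (XT.lf (nat_lit 76) (nat_lit 11371533206) (nat_lit 0) (nat_lit 5460832123) (nat_lit 836) (nat_lit 86890660345) (nat_lit 84) (nat_lit 5) (nat_lit 83) (nat_lit 5) (nat_lit 94) (nat_lit 5) (nat_lit 331) (nat_lit 321) (nat_lit 128)) (XT.lf (nat_lit 0) (nat_lit 24779283449) (nat_lit 760) (nat_lit 43324137956) (nat_lit 76) (nat_lit 38461721556) (nat_lit 84) (nat_lit 5) (nat_lit 94) (nat_lit 5) (nat_lit 85) (nat_lit 5) (nat_lit 332) (nat_lit 321) (nat_lit 127))))) (XT.nd (nat_lit 156) (nat_lit 684) (nat_lit 0) (XT.nd (nat_lit 78) (nat_lit 0) (nat_lit 0) (XT.lf (nat_lit 0) (nat_lit 8331364851) (nat_lit 532) (nat_lit 25011387733) (nat_lit 608) (nat_lit 76195653990) (nat_lit 77) (nat_lit 5) (nat_lit 84) (nat_lit 5) (nat_lit 85) (nat_lit 5) (nat_lit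 333) (nat_lit 321) (nat_lit 126)) (XT.lf (nat_lit 0) (nat_lit 43395688547) (nat_lit 608) (nat_lit 48878213364) (nat_lit 76) (nat_lit 20333367474) (nat_lit 77) (nat_lit 5) (nat_lit 85) (nat_lit 5) (nat_lit 78) (nat_lit 5) (nat_lit 334) (nat_lit 321) (nat_lit 125))) (XT.nd (nat_lit 78) (nat_lit 304) (nat_lit 0) (XT.lf (nat_lit 0) (nat_lit 5843718923) (nat_lit 380) (nat_lit 48608451093) (nat_lit 456) (nat_lit 61352361035) (nat_lit 72) (nat_lit 5) (nat_lit 77) (nat_lit 5) (nat_lit 78) (nat_lit 5) (nat_lit 335) (nat_lit 321) (nat_lit 124)) (XT.nd (nat_lit 78) (nat_lit 304) (nat_lit 0) (XT.lf (nat_lit 0) (nat_lit 64998344432) (nat_lit 380) (nat_lit 1890558257) (nat_lit 456) (nat_lit 52231382378) (nat_lit 72) (nat_lit 5) (nat_lit 77) (nat_lit 5) (nat_lit 78) (nat_lit 5) (nat_lit 336) (nat_lit 321) (nat_lit 123)) (XT.lf (nat_lit 0) (nat_lit 3896904052) (nat_lit 304) (nat_lit 76847427344) (nat_lit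 380) (nat_lit 41817653009) (nat_lit 68) (nat_lit 5) (nat_lit 72) (nat_lit 5) (nat_lit 73) (nat_lit 5) (nat_lit 337) (nat_lit 321) (nat_lit 122)))))) (XT.nd (nat_lit 390) (nat_lit 532) (nat_lit 0) (XT.nd (nat_lit 156) (nat_lit 380) (nat_lit 0) (XT.nd (nat_lit 78) (nat_lit 304) (nat_lit 0) (XT.lf (nat_lit 0) (nat_lit 66663325134) (nat_lit 304) (nat_lit 29575958676) (nat_lit 380) (nat_lit 29889147850) (nat_lit 68) (nat_lit 5) (nat_lit 72) (nat_lit 5) (nat_lit 73) (nat_lit 5) (nat_lit 338) (nat_lit 321) (nat_lit 121)) (XT.lf (nat_lit 0) (nat_lit 2460086310) (nat_lit 304) (nat_lit 110400178087) (nat_lit 380) (nat_lit 16995373389) (nat_lit 64) (nat_lit 5) (nat_lit 68) (nat_lit 5) (nat_lit 69) (nat_lit 5) (nat_lit 339) (nat_lit 321) (nat_lit 120))) (XT.nd (nat_lit 78) (nat_lit 380) (nat_lit 0) (XT.lf (nat_lit 0) (nat_lit 69044816012) (nat_lit 304) (nat_lit 62751282545) (nat_lit 380) (nat_lit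 1898915944) (nat_lit 64) (nat_lit 5) (nat_lit 68) (nat_lit 5) (nat_lit 69) (nat_lit 5) (nat_lit 340) (nat_lit 321) (nat_lit 119)) (XT.nd (nat_lit 78) (nat_lit 0) (nat_lit 0) (XT.lf (nat_lit 0) (nat_lit 1047794681) (nat_lit 304) (nat_lit 12474077555) (nat_lit 380) (nat_lit 124192792971) (nat_lit 59) (nat_lit 5) (nat_lit 63) (nat_lit 5) (nat_lit 64) (nat_lit 5) (nat_lit 341) (nat_lit 321) (nat_lit 118)) (XT.lf (nat_lit 0) (nat_lit 31391895922) (nat_lit 380) (nat_lit 70284234131) (nat_lit 76) (nat_lit 40170511743) (nat_lit 59) (nat_lit 5) (nat_lit 64) (nat_lit 5) (nat_lit 60) (nat_lit 5) (nat_lit 342) (nat_lit 321) (nat_lit 117))))) (XT.nd (nat_lit 156) (nat_lit 228) (nat_lit 0) (XT.nd (nat_lit 78) (nat_lit 304) (nat_lit 0) (XT.lf (nat_lit 0) (nat_lit 50359646885) (nat_lit 380) (nat_lit 787279365) (nat_lit 76) (nat_lit 95028080079) (nat_lit 59) (nat_lit 5) (nat_lit 64) (nat_lit 5) (nat_lit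 60) (nat_lit 5) (nat_lit 343) (nat_lit 321) (nat_lit 116)) (XT.lf (nat_lit 0) (nat_lit 71488678918) (nat_lit 380) (nat_lit 76139521070) (nat_lit 76) (nat_lit 3030944826) (nat_lit 55) (nat_lit 5) (nat_lit 60) (nat_lit 5) (nat_lit 56) (nat_lit 5) (nat_lit 344) (nat_lit 321) (nat_lit 115))) (XT.nd (nat_lit 78) (nat_lit 228) (nat_lit 0) (XT.lf (nat_lit 0) (nat_lit 94525940604) (nat_lit 380) (nat_lit 2586623864) (nat_lit 76) (nat_lit 58212337234) (nat_lit 55) (nat_lit 5) (nat_lit 60) (nat_lit 5) (nat_lit 56) (nat_lit 5) (nat_lit 345) (nat_lit 321) (nat_lit 114)) (XT.nd (nat_lit 78) (nat_lit 0) (nat_lit 0) (XT.lf (nat_lit 0) (nat_lit 77111676185) (nat_lit 228) (nat_lit 42807082674) (nat_lit 304) (nat_lit 40245003262) (nat_lit 52) (nat_lit 5) (nat_lit 55) (nat_lit 5) (nat_lit 56) (nat_lit 5) (nat_lit 346) (nat_lit 321) (nat_lit 113)) (XT.lf (nat_lit 0) (nat_lit 146847426950) (nat_lit 304) (nat_lit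 4580618951) (nat_lit 76) (nat_lit 13803209562) (nat_lit 52) (nat_lit 5) (nat_lit 56) (nat_lit 5) (nat_lit 53) (nat_lit 5) (nat_lit 347) (nat_lit 321) (nat_lit 112))))))) (XT.nd (nat_lit 780) (nat_lit 532) (nat_lit 0) (XT.nd (nat_lit 390) (nat_lit 456) (nat_lit 0) (XT.nd (nat_lit 156) (nat_lit 456) (nat_lit 0) (XT.nd (nat_lit 78) (nat_lit 0) (nat_lit 0) (XT.lf (nat_lit 0) (nat_lit 6401297285) (nat_lit 304) (nat_lit 90896045765) (nat_lit 76) (nat_lit 73152354203) (nat_lit 48) (nat_lit 5) (nat_lit 52) (nat_lit 5) (nat_lit 49) (nat_lit 5) (nat_lit 348) (nat_lit 321) (nat_lit 111)) (XT.lf (nat_lit 0) (nat_lit 31886491868) (nat_lit 304) (nat_lit 8174455772) (nat_lit 76) (nat_lit 135849113594) (nat_lit 48) (nat_lit 5) (nat_lit 52) (nat_lit 5) (nat_lit 49) (nat_lit 5) (nat_lit 349) (nat_lit 321) (nat_lit 110))) (XT.nd (nat_lit 78) (nat_lit 228) (nat_lit 0) (XT.lf (nat_lit 0) (nat_lit 60248460466)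 (nat_lit 304) (nat_lit 100629092247) (nat_lit 76) (nat_lit 20685765273) (nat_lit 45) (nat_lit 5) (nat_lit 49) (nat_lit 5) (nat_lit 46) (nat_lit 5) (nat_lit 350) (nat_lit 321) (nat_lit 109)) (XT.nd (nat_lit 78) (nat_lit 228) (nat_lit 0) (XT.lf (nat_lit 0) (nat_lit 90825769932) (nat_lit 304) (nat_lit 13369464473) (nat_lit 76) (nat_lit 83264141319) (nat_lit 45) (nat_lit 5) (nat_lit 49) (nat_lit 5) (nat_lit 46) (nat_lit 5) (nat_lit 351) (nat_lit 321) (nat_lit 108)) (XT.lf (nat_lit 0) (nat_lit 80840269147) (nat_lit 228) (nat_lit 43353626259) (nat_lit 304) (nat_lit 69393243674) (nat_lit 42) (nat_lit 5) (nat_lit 45) (nat_lit 5) (nat_lit 46) (nat_lit 5) (nat_lit 352) (nat_lit 321) (nat_lit 107))))) (XT.nd (nat_lit 156) (nat_lit 304) (nat_lit 0) (XT.nd (nat_lit 78) (nat_lit 152) (nat_lit 0) (XT.lf (nat_lit 0) (nat_lit 159780900303) (nat_lit 304) (nat_lit 20109839299) (nat_lit 76) (nat_lit 20103027590)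 (nat_lit 42) (nat_lit 5) (nat_lit 46) (nat_lit 5) (nat_lit 43) (nat_lit 5) (nat_lit 353) (nat_lit 321) (nat_lit 106)) (XT.lf (nat_lit 0) (nat_lit 78975785957) (nat_lit 152) (nat_lit 120115038225) (nat_lit 228) (nat_lit 7532724325) (nat_lit 40) (nat_lit 5) (nat_lit 42) (nat_lit 5) (nat_lit 43) (nat_lit 5) (nat_lit 354) (nat_lit 321) (nat_lit 105))) (XT.nd (nat_lit 78) (nat_lit 228) (nat_lit 0) (XT.lf (nat_lit 0) (nat_lit 26270227155) (nat_lit 228) (nat_lit 30277907928) (nat_lit 76) (nat_lit 156998478628) (nat_lit 39) (nat_lit 5) (nat_lit 42) (nat_lit 5) (nat_lit 40) (nat_lit 5) (nat_lit 355) (nat_lit 321) (nat_lit 104)) (XT.nd (nat_lit 78) (nat_lit 0) (nat_lit 0) (XT.lf (nat_lit 0) (nat_lit 62848886967) (nat_lit 304) (nat_lit 146720008277) (nat_lit 76) (nat_lit 11173827287) (nat_lit 36) (nat_lit 5) (nat_lit 40) (nat_lit 5) (nat_lit 37) (nat_lit 5) (nat_lit 356) (nat_lit 321) (nat_lit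 103)) (XT.lf (nat_lit 0) (nat_lit 102704508662) (nat_lit 304) (nat_lit 44619127514) (nat_lit 76) (nat_lit 80902599363) (nat_lit 36) (nat_lit 5) (nat_lit 40) (nat_lit 5) (nat_lit 37) (nat_lit 5) (nat_lit 357) (nat_lit 321) (nat_lit 102)))))) (XT.nd (nat_lit 390) (nat_lit 0) (nat_lit 0) (XT.nd (nat_lit 156) (nat_lit 380) (nat_lit 0) (XT.nd (nat_lit 78) (nat_lit 0) (nat_lit 0) (XT.lf (nat_lit 0) (nat_lit 64655950806) (nat_lit 152) (nat_lit 80906262349) (nat_lit 228) (nat_lit 90471246140) (nat_lit 34) (nat_lit 5) (nat_lit 36) (nat_lit 5) (nat_lit 37) (nat_lit 5) (nat_lit 358) (nat_lit 321) (nat_lit 101)) (XT.lf (nat_lit 0) (nat_lit 180943621588) (nat_lit 152) (nat_lit 10374672791) (nat_lit 228) (nat_lit 52874975458) (nat_lit 34) (nat_lit 5) (nat_lit 36) (nat_lit 5) (nat_lit 37) (nat_lit 5) (nat_lit 359) (nat_lit 321) (nat_lit 100))) (XT.nd (nat_lit 78) (nat_lit 228) (nat_lit 0) (XT.lf (nat_lit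 0) (nat_lit 50919848440) (nat_lit 152) (nat_lit 190231461768) (nat_lit 228) (nat_lit 11520304338) (nat_lit 32) (nat_lit 5) (nat_lit 34) (nat_lit 5) (nat_lit 35) (nat_lit 5) (nat_lit 360) (nat_lit 321) (nat_lit 99)) (XT.nd (nat_lit 78) (nat_lit 152) (nat_lit 0) (XT.lf (nat_lit 0) (nat_lit 32139686098) (nat_lit 228) (nat_lit 89212564406) (nat_lit 76) (nat_lit 140133789469) (nat_lit 31) (nat_lit 5) (nat_lit 34) (nat_lit 5) (nat_lit 32) (nat_lit 5) (nat_lit 361) (nat_lit 321) (nat_lit 98)) (XT.lf (nat_lit 0) (nat_lit 29715602737) (nat_lit 152) (nat_lit 48343718575) (nat_lit 228) (nat_lit 192649232477) (nat_lit 29) (nat_lit 5) (nat_lit 31) (nat_lit 5) (nat_lit 32) (nat_lit 5) (nat_lit 362) (nat_lit 321) (nat_lit 97))))) (XT.nd (nat_lit 37440) (nat_lit 0) (nat_lit 4636) (XT.nd (nat_lit 78) (nat_lit 0) (nat_lit 0) (XT.lf (nat_lit 0) (nat_lit 128252505865) (nat_lit 228) (nat_lit 123096286013)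 (nat_lit 76) (nat_lit 28944523177) (nat_lit 29) (nat_lit 5) (nat_lit 32) (nat_lit 5) (nat_lit 30) (nat_lit 5) (nat_lit 363) (nat_lit 321) (nat_lit 96)) (XT.lf (nat_lit 0) (nat_lit 181747737448) (nat_lit 228) (nat_lit 97521247) (nat_lit 76) (nat_lit 108472436429) (nat_lit 29) (nat_lit 5) (nat_lit 32) (nat_lit 5) (nat_lit 30) (nat_lit 5) (nat_lit 364) (nat_lit 321) (nat_lit 95))) (XT.nd (nat_lit 78) (nat_lit 0) (nat_lit 0) (XT.lf (nat_lit 0) (nat_lit 17546669559) (nat_lit 0) (nat_lit 17546669559) (nat_lit 684) (nat_lit 7004137566) (nat_lit 90) (nat_lit 5) (nat_lit 90) (nat_lit 3) (nat_lit 99) (nat_lit 3) (nat_lit 322) (nat_lit 322) (nat_lit 136)) (XT.nd (nat_lit 78) (nat_lit 0) (nat_lit 0) (XT.lf (nat_lit 0) (nat_lit 72002974380) (nat_lit 684) (nat_lit 11008134006) (nat_lit 760) (nat_lit 3285619938) (nat_lit 90) (nat_lit 5) (nat_lit 99) (nat_lit 3) (nat_lit 100) (nat_lit 5) (nat_lit 323)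 (nat_lit 322) (nat_lit 135)) (XT.lf (nat_lit 76) (nat_lit 29353918880) (nat_lit 0) (nat_lit 45589215573) (nat_lit 760) (nat_lit 13508806231) (nat_lit 91) (nat_lit 5) (nat_lit 90) (nat_lit 5) (nat_lit 100) (nat_lit 5) (nat_lit 324) (nat_lit 322) (nat_lit 134))))))))
noncomputable def xc243 : XT := (XT.nd (nat_lit 1560) (nat_lit 2280) (nat_lit 0) (XT.nd (nat_lit 780) (nat_lit 1368) (nat_lit 0) (XT.nd (nat_lit 390) (nat_lit 988) (nat_lit 0) (XT.nd (nat_lit 156) (nat_lit 0) (nat_lit 76) (XT.nd (nat_lit 78) (nat_lit 0) (nat_lit 76) (XT.lf (nat_lit 76) (nat_lit 72115947505) (nat_lit 0) (nat_lit 6100256012) (nat_lit 760) (nat_lit 12489416157) (nat_lit 91) (nat_lit 5) (nat_lit 90) (nat_lit 5) (nat_lit 100) (nat_lit 5) (nat_lit 325) (nat_lit 322) (nat_lit 133)) (XT.lf (nat_lit 76) (nat_lit 24165091502) (nat_lit 0) (nat_lit 58416738554) (nat_lit 760) (nat_lit 10443708369) (nat_lit 92) (nat_lit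 5) (nat_lit 91) (nat_lit 5) (nat_lit 101) (nat_lit 5) (nat_lit 326) (nat_lit 322) (nat_lit 132))) (XT.nd (nat_lit 78) (nat_lit 0) (nat_lit 76) (XT.lf (nat_lit 76) (nat_lit 69599359779) (nat_lit 0) (nat_lit 17979114623) (nat_lit 760) (nat_lit 7862342850) (nat_lit 92) (nat_lit 5) (nat_lit 91) (nat_lit 5) (nat_lit 101) (nat_lit 5) (nat_lit 327) (nat_lit 322) (nat_lit 131)) (XT.nd (nat_lit 78) (nat_lit 0) (nat_lit 0) (XT.lf (nat_lit 76) (nat_lit 19572387064) (nat_lit 0) (nat_lit 73939896690) (nat_lit 760) (nat_lit 4430210546) (nat_lit 93) (nat_lit 5) (nat_lit 92) (nat_lit 5) (nat_lit 102) (nat_lit 5) (nat_lit 328) (nat_lit 322) (nat_lit 130)) (XT.lf (nat_lit 76) (nat_lit 67849275626) (nat_lit 0) (nat_lit 32620693370) (nat_lit 760) (nat_lit 62927805) (nat_lit 93) (nat_lit 5) (nat_lit 92) (nat_lit 5) (nat_lit 102) (nat_lit 5) (nat_lit 329) (nat_lit 322) (nat_lit 129))))) (XT.nd (nat_lit 156)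 (nat_lit 456) (nat_lit 0) (XT.nd (nat_lit 78) (nat_lit 0) (nat_lit 0) (XT.lf (nat_lit 0) (nat_lit 4796208741) (nat_lit 760) (nat_lit 87690910553) (nat_lit 836) (nat_lit 10741258066) (nat_lit 83) (nat_lit 5) (nat_lit 93) (nat_lit 5) (nat_lit 94) (nat_lit 5) (nat_lit 330) (nat_lit 322) (nat_lit 128)) (XT.lf (nat_lit 0) (nat_lit 10993131829) (nat_lit 760) (nat_lit 39271854010) (nat_lit 836) (nat_lit 55738748055) (nat_lit 83) (nat_lit 5) (nat_lit 93) (nat_lit 5) (nat_lit 94) (nat_lit 5) (nat_lit 331) (nat_lit 322) (nat_lit 127))) (XT.nd (nat_lit 78) (nat_lit 456) (nat_lit 0) (XT.lf (nat_lit 76) (nat_lit 11950318884) (nat_lit 0) (nat_lit 5735771694) (nat_lit 836) (nat_lit 91222458921) (nat_lit 84) (nat_lit 5) (nat_lit 83) (nat_lit 5) (nat_lit 94) (nat_lit 5) (nat_lit 332) (nat_lit 322) (nat_lit 126)) (XT.nd (nat_lit 78) (nat_lit 532) (nat_lit 0) (XT.lf (nat_lit 0) (nat_lit 26029749859) (nat_lit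 760) (nat_lit 45479996178) (nat_lit 76) (nat_lit 40383057902) (nat_lit 84) (nat_lit 5) (nat_lit 94) (nat_lit 5) (nat_lit 85) (nat_lit 5) (nat_lit 333) (nat_lit 322) (nat_lit 125)) (XT.lf (nat_lit 0) (nat_lit 8758114854) (nat_lit 532) (nat_lit 26262888837) (nat_lit 608) (nat_lit 79993747484) (nat_lit 77) (nat_lit 5) (nat_lit 84) (nat_lit 5) (nat_lit 85) (nat_lit 5) (nat_lit 334) (nat_lit 322) (nat_lit 124)))))) (XT.nd (nat_lit 390) (nat_lit 684) (nat_lit 0) (XT.nd (nat_lit 156) (nat_lit 304) (nat_lit 0) (XT.nd (nat_lit 78) (nat_lit 380) (nat_lit 0) (XT.lf (nat_lit 0) (nat_lit 45576043385) (nat_lit 608) (nat_lit 51311864950) (nat_lit 76) (nat_lit 21349176899) (nat_lit 77) (nat_lit 5) (nat_lit 85) (nat_lit 5) (nat_lit 78) (nat_lit 5) (nat_lit 335) (nat_lit 322) (nat_lit 123)) (XT.lf (nat_lit 0) (nat_lit 6145998482) (nat_lit 380) (nat_lit 51039004683) (nat_lit 456) (nat_lit 64409225018)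 (nat_lit 72) (nat_lit 5) (nat_lit 77) (nat_lit 5) (nat_lit 78) (nat_lit 5) (nat_lit 336) (nat_lit 322) (nat_lit 122))) (XT.nd (nat_lit 78) (nat_lit 304) (nat_lit 0) (XT.lf (nat_lit 0) (nat_lit 68257874618) (nat_lit 380) (nat_lit 1985210965) (nat_lit 456) (nat_lit 54832709526) (nat_lit 72) (nat_lit 5) (nat_lit 77) (nat_lit 5) (nat_lit 78) (nat_lit 5) (nat_lit 337) (nat_lit 322) (nat_lit 121)) (XT.nd (nat_lit 78) (nat_lit 0) (nat_lit 0) (XT.lf (nat_lit 0) (nat_lit 4101705167) (nat_lit 304) (nat_lit 80689270439) (nat_lit 380) (nat_lit 43898620138) (nat_lit 68) (nat_lit 5) (nat_lit 72) (nat_lit 5) (nat_lit 73) (nat_lit 5) (nat_lit 338) (nat_lit 322) (nat_lit 120)) (XT.lf (nat_lit 0) (nat_lit 70005973212) (nat_lit 304) (nat_lit 31054253494) (nat_lit 380) (nat_lit 31374161888) (nat_lit 68) (nat_lit 5) (nat_lit 72) (nat_lit 5) (nat_lit 73) (nat_lit 5) (nat_lit 339) (nat_lit 322) (nat_lit 119)))))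 (XT.nd (nat_lit 156) (nat_lit 380) (nat_lit 0) (XT.nd (nat_lit 78) (nat_lit 0) (nat_lit 0) (XT.lf (nat_lit 0) (nat_lit 2592868940) (nat_lit 304) (nat_lit 115919119973) (nat_lit 380) (nat_lit 17835980233) (nat_lit 64) (nat_lit 5) (nat_lit 68) (nat_lit 5) (nat_lit 69) (nat_lit 5) (nat_lit 340) (nat_lit 322) (nat_lit 118)) (XT.lf (nat_lit 0) (nat_lit 72506369493) (nat_lit 304) (nat_lit 65887830464) (nat_lit 380) (nat_lit 1985136193) (nat_lit 64) (nat_lit 5) (nat_lit 68) (nat_lit 5) (nat_lit 69) (nat_lit 5) (nat_lit 341) (nat_lit 322) (nat_lit 117))) (XT.nd (nat_lit 78) (nat_lit 0) (nat_lit 0) (XT.lf (nat_lit 0) (nat_lit 1109635013) (nat_lit 304) (nat_lit 13096522458) (nat_lit 380) (nat_lit 130393818489) (nat_lit 59) (nat_lit 5) (nat_lit 63) (nat_lit 5) (nat_lit 64) (nat_lit 5) (nat_lit 342) (nat_lit 322) (nat_lit 116)) (XT.nd (nat_lit 78) (nat_lit 0) (nat_lit 0) (XT.lf (nat_lit 0) (nat_lit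 32969310984) (nat_lit 380) (nat_lit 73789061600) (nat_lit 76) (nat_lit 42180197978) (nat_lit 59) (nat_lit 5) (nat_lit 64) (nat_lit 5) (nat_lit 60) (nat_lit 5) (nat_lit 343) (nat_lit 322) (nat_lit 115)) (XT.lf (nat_lit 0) (nat_lit 52885077102) (nat_lit 380) (nat_lit 817705963) (nat_lit 76) (nat_lit 99780589462) (nat_lit 59) (nat_lit 5) (nat_lit 64) (nat_lit 5) (nat_lit 60) (nat_lit 5) (nat_lit 344) (nat_lit 322) (nat_lit 114))))))) (XT.nd (nat_lit 780) (nat_lit 988) (nat_lit 0) (XT.nd (nat_lit 390) (nat_lit 456) (nat_lit 0) (XT.nd (nat_lit 156) (nat_lit 532) (nat_lit 0) (XT.nd (nat_lit 78) (nat_lit 0) (nat_lit 0) (XT.lf (nat_lit 0) (nat_lit 75070367760) (nat_lit 380) (nat_lit 79937355611) (nat_lit 76) (nat_lit 3184004771) (nat_lit 55) (nat_lit 5) (nat_lit 60) (nat_lit 5) (nat_lit 56) (nat_lit 5) (nat_lit 345) (nat_lit 322) (nat_lit 113)) (XT.lf (nat_lit 0) (nat_lit 99259147059) (nat_lit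 380) (nat_lit 2707248855) (nat_lit 76) (nat_lit 61124394766) (nat_lit 55) (nat_lit 5) (nat_lit 60) (nat_lit 5) (nat_lit 56) (nat_lit 5) (nat_lit 346) (nat_lit 322) (nat_lit 112))) (XT.nd (nat_lit 78) (nat_lit 304) (nat_lit 0) (XT.lf (nat_lit 0) (nat_lit 80975825774) (nat_lit 228) (nat_lit 44945585170) (nat_lit 304) (nat_lit 42250193449) (nat_lit 52) (nat_lit 5) (nat_lit 55) (nat_lit 5) (nat_lit 56) (nat_lit 5) (nat_lit 347) (nat_lit 322) (nat_lit 111)) (XT.nd (nat_lit 78) (nat_lit 304) (nat_lit 0) (XT.lf (nat_lit 0) (nat_lit 154196220250) (nat_lit 304) (nat_lit 4801190179) (nat_lit 76) (nat_lit 14495077064) (nat_lit 52) (nat_lit 5) (nat_lit 56) (nat_lit 5) (nat_lit 53) (nat_lit 5) (nat_lit 348) (nat_lit 322) (nat_lit 110)) (XT.lf (nat_lit 0) (nat_lit 6727719532) (nat_lit 304) (nat_lit 95432305827) (nat_lit 76) (nat_lit 76811830137) (nat_lit 48) (nat_lit 5) (nat_lit 52) (nat_lit 5) (nat_lit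 49) (nat_lit 5) (nat_lit 349) (nat_lit 322) (nat_lit 109))))) (XT.nd (nat_lit 156) (nat_lit 228) (nat_lit 0) (XT.nd (nat_lit 78) (nat_lit 228) (nat_lit 0) (XT.lf (nat_lit 0) (nat_lit 33486871112) (nat_lit 304) (nat_lit 8575043108) (nat_lit 76) (nat_lit 142643339011) (nat_lit 48) (nat_lit 5) (nat_lit 52) (nat_lit 5) (nat_lit 49) (nat_lit 5) (nat_lit 350) (nat_lit 322) (nat_lit 108)) (XT.lf (nat_lit 0) (nat_lit 63266807780) (nat_lit 304) (nat_lit 105652273110) (nat_lit 76) (nat_lit 21722098844) (nat_lit 45) (nat_lit 5) (nat_lit 49) (nat_lit 5) (nat_lit 46) (nat_lit 5) (nat_lit 351) (nat_lit 322) (nat_lit 107))) (XT.nd (nat_lit 78) (nat_lit 228) (nat_lit 0) (XT.lf (nat_lit 0) (nat_lit 95372700611) (nat_lit 304) (nat_lit 14030057936) (nat_lit 76) (nat_lit 87429296296) (nat_lit 45) (nat_lit 5) (nat_lit 49) (nat_lit 5) (nat_lit 46) (nat_lit 5) (nat_lit 352) (nat_lit 322) (nat_lit 106)) (XT.nd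 (nat_lit 78) (nat_lit 0) (nat_lit 0) (XT.lf (nat_lit 0) (nat_lit 84890035272) (nat_lit 228) (nat_lit 45519049452) (nat_lit 304) (nat_lit 72857129385) (nat_lit 42) (nat_lit 5) (nat_lit 45) (nat_lit 5) (nat_lit 46) (nat_lit 5) (nat_lit 353) (nat_lit 322) (nat_lit 105)) (XT.lf (nat_lit 0) (nat_lit 167775211797) (nat_lit 304) (nat_lit 21107712847) (nat_lit 76) (nat_lit 21110260728) (nat_lit 42) (nat_lit 5) (nat_lit 46) (nat_lit 5) (nat_lit 43) (nat_lit 5) (nat_lit 354) (nat_lit 322) (nat_lit 104)))))) (XT.nd (nat_lit 390) (nat_lit 380) (nat_lit 0) (XT.nd (nat_lit 156) (nat_lit 380) (nat_lit 0) (XT.nd (nat_lit 78) (nat_lit 76) (nat_lit 0) (XT.lf (nat_lit 0) (nat_lit 82932070794) (nat_lit 152) (nat_lit 126118427318) (nat_lit 228) (nat_lit 7903964656) (nat_lit 40) (nat_lit 5) (nat_lit 42) (nat_lit 5) (nat_lit 43) (nat_lit 5) (nat_lit 355) (nat_lit 322) (nat_lit 103)) (XT.lf (nat_lit 0) (nat_lit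 27588712974) (nat_lit 228) (nat_lit 31784494316) (nat_lit 76) (nat_lit 164850482463) (nat_lit 39) (nat_lit 5) (nat_lit 42) (nat_lit 5) (nat_lit 40) (nat_lit 5) (nat_lit 356) (nat_lit 322) (nat_lit 102))) (XT.nd (nat_lit 78) (nat_lit 152) (nat_lit 0) (XT.lf (nat_lit 0) (nat_lit 65996217725) (nat_lit 304) (nat_lit 154048605990) (nat_lit 76) (nat_lit 11734784983) (nat_lit 36) (nat_lit 5) (nat_lit 40) (nat_lit 5) (nat_lit 37) (nat_lit 5) (nat_lit 357) (nat_lit 322) (nat_lit 101)) (XT.nd (nat_lit 78) (nat_lit 152) (nat_lit 0) (XT.lf (nat_lit 0) (nat_lit 107844387818) (nat_lit 304) (nat_lit 46843033698) (nat_lit 76) (nat_lit 84949887742) (nat_lit 36) (nat_lit 5) (nat_lit 40) (nat_lit 5) (nat_lit 37) (nat_lit 5) (nat_lit 358) (nat_lit 322) (nat_lit 100)) (XT.lf (nat_lit 0) (nat_lit 67895684825) (nat_lit 152) (nat_lit 84949179403) (nat_lit 228) (nat_lit 94990035895) (nat_lit 34) (nat_lit 5)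 (nat_lit 36) (nat_lit 5) (nat_lit 37) (nat_lit 5) (nat_lit 359) (nat_lit 322) (nat_lit 99))))) (XT.nd (nat_lit 234) (nat_lit 152) (nat_lit 0) (XT.nd (nat_lit 78) (nat_lit 228) (nat_lit 0) (XT.lf (nat_lit 0) (nat_lit 189997408838) (nat_lit 152) (nat_lit 10891124465) (nat_lit 228) (nat_lit 55514178944) (nat_lit 34) (nat_lit 5) (nat_lit 36) (nat_lit 5) (nat_lit 37) (nat_lit 5) (nat_lit 360) (nat_lit 322) (nat_lit 98)) (XT.nd (nat_lit 78) (nat_lit 76) (nat_lit 0) (XT.lf (nat_lit 0) (nat_lit 53472522944) (nat_lit 152) (nat_lit 199740609322) (nat_lit 228) (nat_lit 12091845540) (nat_lit 32) (nat_lit 5) (nat_lit 34) (nat_lit 5) (nat_lit 35) (nat_lit 5) (nat_lit 361) (nat_lit 322) (nat_lit 97)) (XT.lf (nat_lit 0) (nat_lit 33750794992) (nat_lit 228) (nat_lit 93666688152) (nat_lit 76) (nat_lit 147142648389) (nat_lit 31) (nat_lit 5) (nat_lit 34) (nat_lit 5) (nat_lit 32) (nat_lit 5) (nat_lit 362)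 (nat_lit 322) (nat_lit 96)))) (XT.nd (nat_lit 78) (nat_lit 0) (nat_lit 0) (XT.lf (nat_lit 0) (nat_lit 31207782437) (nat_lit 152) (nat_lit 50758533036) (nat_lit 228) (nat_lit 202277460592) (nat_lit 29) (nat_lit 5) (nat_lit 31) (nat_lit 5) (nat_lit 32) (nat_lit 5) (nat_lit 363) (nat_lit 322) (nat_lit 95)) (XT.nd (nat_lit 37440) (nat_lit 0) (nat_lit 4636) (XT.lf (nat_lit 0) (nat_lit 134669002701) (nat_lit 228) (nat_lit 129244845122) (nat_lit 76) (nat_lit 30393935590) (nat_lit 29) (nat_lit 5) (nat_lit 32) (nat_lit 5) (nat_lit 30) (nat_lit 5) (nat_lit 364) (nat_lit 322) (nat_lit 94)) (XT.lf (nat_lit 0) (nat_lit 18428253284) (nat_lit 0) (nat_lit 18428253284) (nat_lit 684) (nat_lit 7345401777) (nat_lit 90) (nat_lit 5) (nat_lit 90) (nat_lit 3) (nat_lit 99) (nat_lit 3) (nat_lit 323) (nat_lit 323) (nat_lit 134))))))))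
noncomputable def xc244 : XT := (XT.nd (nat_lit 1560) (nat_lit 2128) (nat_lit 0) (XT.nd (nat_lit 780) (nat_lit 1824) (nat_lit 0) (XT.nd (nat_lit 390) (nat_lit 532) (nat_lit 0) (XT.nd (nat_lit 156) (nat_lit 0) (nat_lit 0) (XT.nd (nat_lit 78) (nat_lit 0) (nat_lit 0) (XT.lf (nat_lit 0) (nat_lit 75619188117) (nat_lit 684) (nat_lit 11549476365) (nat_lit 760) (nat_lit 3442064341) (nat_lit 90) (nat_lit 5) (nat_lit 99) (nat_lit 3) (nat_lit 100) (nat_lit 5) (nat_lit 324) (nat_lit 323) (nat_lit 133)) (XT.lf (nat_lit 76) (nat_lit 30830532966) (nat_lit 0) (nat_lit 47875197465) (nat_lit 760) (nat_lit 14168004214) (nat_lit 91) (nat_lit 5) (nat_lit 90) (nat_lit 5) (nat_lit 100) (nat_lit 5) (nat_lit 325) (nat_lit 323) (nat_lit 132))) (XT.nd (nat_lit 78) (nat_lit 0) (nat_lit 76) (XT.lf (nat_lit 76) (nat_lit 75730238349) (nat_lit 0) (nat_lit 6411479396) (nat_lit 760) (nat_lit 13098418081) (nat_lit 91)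 (nat_lit 5) (nat_lit 90) (nat_lit 5) (nat_lit 100) (nat_lit 5) (nat_lit 326) (nat_lit 323) (nat_lit 131)) (XT.nd (nat_lit 78) (nat_lit 0) (nat_lit 0) (XT.lf (nat_lit 76) (nat_lit 25382550451) (nat_lit 0) (nat_lit 61342426326) (nat_lit 760) (nat_lit 10951107590) (nat_lit 92) (nat_lit 5) (nat_lit 91) (nat_lit 5) (nat_lit 101) (nat_lit 5) (nat_lit 327) (nat_lit 323) (nat_lit 130)) (XT.lf (nat_lit 76) (nat_lit 73088093839) (nat_lit 0) (nat_lit 18882690206) (nat_lit 760) (nat_lit 8241377900) (nat_lit 92) (nat_lit 5) (nat_lit 91) (nat_lit 5) (nat_lit 101) (nat_lit 5) (nat_lit 328) (nat_lit 323) (nat_lit 129))))) (XT.nd (nat_lit 156) (nat_lit 684) (nat_lit 0) (XT.nd (nat_lit 78) (nat_lit 0) (nat_lit 0) (XT.lf (nat_lit 76) (nat_lit 20560387007) (nat_lit 0) (nat_lit 77640337196) (nat_lit 760) (nat_lit 4638227905) (nat_lit 93) (nat_lit 5) (nat_lit 92) (nat_lit 5) (nat_lit 102) (nat_lit 5) (nat_lit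 329) (nat_lit 323) (nat_lit 128)) (XT.lf (nat_lit 76) (nat_lit 71250673302) (nat_lit 0) (nat_lit 34255009630) (nat_lit 760) (nat_lit 53223559) (nat_lit 93) (nat_lit 5) (nat_lit 92) (nat_lit 5) (nat_lit 102) (nat_lit 5) (nat_lit 330) (nat_lit 323) (nat_lit 127))) (XT.nd (nat_lit 78) (nat_lit 0) (nat_lit 0) (XT.lf (nat_lit 0) (nat_lit 5047966769) (nat_lit 760) (nat_lit 92065573815) (nat_lit 836) (nat_lit 11275636154) (nat_lit 83) (nat_lit 5) (nat_lit 93) (nat_lit 5) (nat_lit 94) (nat_lit 5) (nat_lit 331) (nat_lit 323) (nat_lit 126)) (XT.nd (nat_lit 78) (nat_lit 0) (nat_lit 0) (XT.lf (nat_lit 0) (nat_lit 11554167079) (nat_lit 760) (nat_lit 41226035029) (nat_lit 836) (nat_lit 58523128491) (nat_lit 83) (nat_lit 5) (nat_lit 93) (nat_lit 5) (nat_lit 94) (nat_lit 5) (nat_lit 332) (nat_lit 323) (nat_lit 125)) (XT.lf (nat_lit 76) (nat_lit 12557094708) (nat_lit 0) (nat_lit 6024281789) (nat_lit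 836) (nat_lit 95772031354) (nat_lit 84) (nat_lit 5) (nat_lit 83) (nat_lit 5) (nat_lit 94) (nat_lit 5) (nat_lit 333) (nat_lit 323) (nat_lit 124)))))) (XT.nd (nat_lit 390) (nat_lit 988) (nat_lit 0) (XT.nd (nat_lit 156) (nat_lit 380) (nat_lit 0) (XT.nd (nat_lit 78) (nat_lit 532) (nat_lit 0) (XT.lf (nat_lit 0) (nat_lit 27341670221) (nat_lit 760) (nat_lit 47744609434) (nat_lit 76) (nat_lit 42400623739) (nat_lit 84) (nat_lit 5) (nat_lit 94) (nat_lit 5) (nat_lit 85) (nat_lit 5) (nat_lit 334) (nat_lit 323) (nat_lit 123)) (XT.lf (nat_lit 0) (nat_lit 9205255754) (nat_lit 532) (nat_lit 27576878374) (nat_lit 608) (nat_lit 83982832403) (nat_lit 77) (nat_lit 5) (nat_lit 84) (nat_lit 5) (nat_lit 85) (nat_lit 5) (nat_lit 335) (nat_lit 323) (nat_lit 122))) (XT.nd (nat_lit 78) (nat_lit 380) (nat_lit 0) (XT.lf (nat_lit 0) (nat_lit 47864433228) (nat_lit 608) (nat_lit 53868152908) (nat_lit 76) (nat_lit 22415856652)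 (nat_lit 77) (nat_lit 5) (nat_lit 85) (nat_lit 5) (nat_lit 78) (nat_lit 5) (nat_lit 336) (nat_lit 323) (nat_lit 121)) (XT.nd (nat_lit 78) (nat_lit 0) (nat_lit 0) (XT.lf (nat_lit 0) (nat_lit 6462453611) (nat_lit 380) (nat_lit 53591073769) (nat_lit 456) (nat_lit 67619932010) (nat_lit 72) (nat_lit 5) (nat_lit 77) (nat_lit 5) (nat_lit 78) (nat_lit 5) (nat_lit 337) (nat_lit 323) (nat_lit 120)) (XT.lf (nat_lit 0) (nat_lit 71679487591) (nat_lit 380) (nat_lit 2084584706) (nat_lit 456) (nat_lit 57565055233) (nat_lit 72) (nat_lit 5) (nat_lit 77) (nat_lit 5) (nat_lit 78) (nat_lit 5) (nat_lit 338) (nat_lit 323) (nat_lit 119))))) (XT.nd (nat_lit 156) (nat_lit 684) (nat_lit 0) (XT.nd (nat_lit 78) (nat_lit 0) (nat_lit 0) (XT.lf (nat_lit 0) (nat_lit 4315820732) (nat_lit 304) (nat_lit 84723254803) (nat_lit 380) (nat_lit 46084557475) (nat_lit 68) (nat_lit 5) (nat_lit 72) (nat_lit 5) (nat_lit 73) (nat_lit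 5) (nat_lit 339) (nat_lit 323) (nat_lit 118)) (XT.lf (nat_lit 0) (nat_lit 73514872164) (nat_lit 304) (nat_lit 32606509827) (nat_lit 380) (nat_lit 32934304583) (nat_lit 68) (nat_lit 5) (nat_lit 72) (nat_lit 5) (nat_lit 73) (nat_lit 5) (nat_lit 340) (nat_lit 323) (nat_lit 117))) (XT.nd (nat_lit 78) (nat_lit 380) (nat_lit 0) (XT.lf (nat_lit 0) (nat_lit 2731381606) (nat_lit 304) (nat_lit 121714108154) (nat_lit 380) (nat_lit 18719469198) (nat_lit 64) (nat_lit 5) (nat_lit 68) (nat_lit 5) (nat_lit 69) (nat_lit 5) (nat_lit 341) (nat_lit 323) (nat_lit 116)) (XT.nd (nat_lit 78) (nat_lit 380) (nat_lit 0) (XT.lf (nat_lit 0) (nat_lit 76140134843) (nat_lit 304) (nat_lit 69181300256) (nat_lit 380) (nat_lit 2076478674) (nat_lit 64) (nat_lit 5) (nat_lit 68) (nat_lit 5) (nat_lit 69) (nat_lit 5) (nat_lit 342) (nat_lit 323) (nat_lit 115)) (XT.lf (nat_lit 0) (nat_lit 1173688735) (nat_lit 304) (nat_lit 13750206653)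 (nat_lit 380) (nat_lit 136905696142) (nat_lit 59) (nat_lit 5) (nat_lit 63) (nat_lit 5) (nat_lit 64) (nat_lit 5) (nat_lit 343) (nat_lit 323) (nat_lit 114))))))) (XT.nd (nat_lit 780) (nat_lit 1064) (nat_lit 0) (XT.nd (nat_lit 390) (nat_lit 532) (nat_lit 0) (XT.nd (nat_lit 156) (nat_lit 532) (nat_lit 0) (XT.nd (nat_lit 78) (nat_lit 0) (nat_lit 0) (XT.lf (nat_lit 0) (nat_lit 34624869744) (nat_lit 380) (nat_lit 77470002899) (nat_lit 76) (nat_lit 44290260618) (nat_lit 59) (nat_lit 5) (nat_lit 64) (nat_lit 5) (nat_lit 60) (nat_lit 5) (nat_lit 344) (nat_lit 323) (nat_lit 113)) (XT.lf (nat_lit 0) (nat_lit 55536086396) (nat_lit 380) (nat_lit 850484804) (nat_lit 76) (nat_lit 104770621546) (nat_lit 59) (nat_lit 5) (nat_lit 64) (nat_lit 5) (nat_lit 60) (nat_lit 5) (nat_lit 345) (nat_lit 323) (nat_lit 112))) (XT.nd (nat_lit 78) (nat_lit 228) (nat_lit 0) (XT.lf (nat_lit 0) (nat_lit 78830466554) (nat_lit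 380) (nat_lit 83925931771) (nat_lit 76) (nat_lit 3344577077) (nat_lit 55) (nat_lit 5) (nat_lit 60) (nat_lit 5) (nat_lit 56) (nat_lit 5) (nat_lit 346) (nat_lit 323) (nat_lit 111)) (XT.nd (nat_lit 78) (nat_lit 228) (nat_lit 0) (XT.lf (nat_lit 0) (nat_lit 104228371465) (nat_lit 380) (nat_lit 2834714516) (nat_lit 76) (nat_lit 64181921234) (nat_lit 55) (nat_lit 5) (nat_lit 60) (nat_lit 5) (nat_lit 56) (nat_lit 5) (nat_lit 347) (nat_lit 323) (nat_lit 110)) (XT.lf (nat_lit 0) (nat_lit 85032386477) (nat_lit 228) (nat_lit 47191184937) (nat_lit 304) (nat_lit 44356299514) (nat_lit 52) (nat_lit 5) (nat_lit 55) (nat_lit 5) (nat_lit 56) (nat_lit 5) (nat_lit 348) (nat_lit 323) (nat_lit 109))))) (XT.nd (nat_lit 156) (nat_lit 228) (nat_lit 0) (XT.nd (nat_lit 78) (nat_lit 304) (nat_lit 0) (XT.lf (nat_lit 0) (nat_lit 161911856163) (nat_lit 304) (nat_lit 5033576473) (nat_lit 76) (nat_lit 15221379237) (nat_lit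 52) (nat_lit 5) (nat_lit 56) (nat_lit 5) (nat_lit 53) (nat_lit 5) (nat_lit 349) (nat_lit 323) (nat_lit 108)) (XT.lf (nat_lit 0) (nat_lit 7069871843) (nat_lit 304) (nat_lit 100196173068) (nat_lit 76) (nat_lit 80654107109) (nat_lit 48) (nat_lit 5) (nat_lit 52) (nat_lit 5) (nat_lit 49) (nat_lit 5) (nat_lit 350) (nat_lit 323) (nat_lit 107))) (XT.nd (nat_lit 78) (nat_lit 228) (nat_lit 0) (XT.lf (nat_lit 0) (nat_lit 35166706414) (nat_lit 304) (nat_lit 8996416167) (nat_lit 76) (nat_lit 149777111166) (nat_lit 48) (nat_lit 5) (nat_lit 52) (nat_lit 5) (nat_lit 49) (nat_lit 5) (nat_lit 351) (nat_lit 323) (nat_lit 106)) (XT.nd (nat_lit 78) (nat_lit 0) (nat_lit 0) (XT.lf (nat_lit 0) (nat_lit 66435521676) (nat_lit 304) (nat_lit 110927382232) (nat_lit 76) (nat_lit 22810058940) (nat_lit 45) (nat_lit 5) (nat_lit 49) (nat_lit 5) (nat_lit 46) (nat_lit 5) (nat_lit 352) (nat_lit 323) (nat_lit 105)) (XT.lf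 (nat_lit 0) (nat_lit 100146453267) (nat_lit 304) (nat_lit 14724413657) (nat_lit 76) (nat_lit 91802527924) (nat_lit 45) (nat_lit 5) (nat_lit 49) (nat_lit 5) (nat_lit 46) (nat_lit 5) (nat_lit 353) (nat_lit 323) (nat_lit 104)))))) (XT.nd (nat_lit 390) (nat_lit 380) (nat_lit 0) (XT.nd (nat_lit 156) (nat_lit 456) (nat_lit 0) (XT.nd (nat_lit 78) (nat_lit 0) (nat_lit 0) (XT.lf (nat_lit 0) (nat_lit 89141568934) (nat_lit 228) (nat_lit 47792953743) (nat_lit 304) (nat_lit 76494746422) (nat_lit 42) (nat_lit 5) (nat_lit 45) (nat_lit 5) (nat_lit 46) (nat_lit 5) (nat_lit 354) (nat_lit 323) (nat_lit 103)) (XT.lf (nat_lit 0) (nat_lit 176168749239) (nat_lit 304) (nat_lit 22156188360) (nat_lit 76) (nat_lit 22167661981) (nat_lit 42) (nat_lit 5) (nat_lit 46) (nat_lit 5) (nat_lit 43) (nat_lit 5) (nat_lit 355) (nat_lit 323) (nat_lit 102))) (XT.nd (nat_lit 78) (nat_lit 304) (nat_lit 0) (XT.lf (nat_lit 0) (nat_lit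 87085473009) (nat_lit 152) (nat_lit 132422205537) (nat_lit 228) (nat_lit 8294268661) (nat_lit 40) (nat_lit 5) (nat_lit 42) (nat_lit 5) (nat_lit 43) (nat_lit 5) (nat_lit 356) (nat_lit 323) (nat_lit 101)) (XT.nd (nat_lit 78) (nat_lit 228) (nat_lit 0) (XT.lf (nat_lit 0) (nat_lit 28972660605) (nat_lit 228) (nat_lit 33367089545) (nat_lit 76) (nat_lit 173094893120) (nat_lit 39) (nat_lit 5) (nat_lit 42) (nat_lit 5) (nat_lit 40) (nat_lit 5) (nat_lit 357) (nat_lit 323) (nat_lit 100)) (XT.lf (nat_lit 0) (nat_lit 69300460728) (nat_lit 304) (nat_lit 161744321821) (nat_lit 76) (nat_lit 12323579861) (nat_lit 36) (nat_lit 5) (nat_lit 40) (nat_lit 5) (nat_lit 37) (nat_lit 5) (nat_lit 358) (nat_lit 323) (nat_lit 99))))) (XT.nd (nat_lit 156) (nat_lit 228) (nat_lit 0) (XT.nd (nat_lit 78) (nat_lit 152) (nat_lit 0) (XT.lf (nat_lit 0) (nat_lit 113240828272) (nat_lit 304) (nat_lit 49178790652) (nat_lit 76)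 (nat_lit 89199339871) (nat_lit 36) (nat_lit 5) (nat_lit 40) (nat_lit 5) (nat_lit 37) (nat_lit 5) (nat_lit 359) (nat_lit 323) (nat_lit 98)) (XT.lf (nat_lit 0) (nat_lit 71296760656) (nat_lit 152) (nat_lit 89194465072) (nat_lit 228) (nat_lit 99735208845) (nat_lit 34) (nat_lit 5) (nat_lit 36) (nat_lit 5) (nat_lit 37) (nat_lit 5) (nat_lit 360) (nat_lit 323) (nat_lit 97))) (XT.nd (nat_lit 78) (nat_lit 228) (nat_lit 0) (XT.lf (nat_lit 0) (nat_lit 199503271271) (nat_lit 152) (nat_lit 11433610878) (nat_lit 228) (nat_lit 58285765182) (nat_lit 34) (nat_lit 5) (nat_lit 36) (nat_lit 5) (nat_lit 37) (nat_lit 5) (nat_lit 361) (nat_lit 323) (nat_lit 96)) (XT.nd (nat_lit 78) (nat_lit 76) (nat_lit 0) (XT.lf (nat_lit 0) (nat_lit 56152209937) (nat_lit 152) (nat_lit 209725439757) (nat_lit 228) (nat_lit 12692379754) (nat_lit 32) (nat_lit 5) (nat_lit 34) (nat_lit 5) (nat_lit 35) (nat_lit 5) (nat_lit 362) (nat_lit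 323) (nat_lit 95)) (XT.lf (nat_lit 0) (nat_lit 35442075865) (nat_lit 228) (nat_lit 98344122810) (nat_lit 76) (nat_lit 154501748561) (nat_lit 31) (nat_lit 5) (nat_lit 34) (nat_lit 5) (nat_lit 32) (nat_lit 5) (nat_lit 363) (nat_lit 323) (nat_lit 94))))))))
noncomputable def xc245 : XT := (XT.nd (nat_lit 1560) (nat_lit 2280) (nat_lit 0) (XT.nd (nat_lit 780) (nat_lit 1444) (nat_lit 0) (XT.nd (nat_lit 390) (nat_lit 532) (nat_lit 0) (XT.nd (nat_lit 156) (nat_lit 0) (nat_lit 0) (XT.nd (nat_lit 78) (nat_lit 0) (nat_lit 0) (XT.lf (nat_lit 0) (nat_lit 19353521047) (nat_lit 0) (nat_lit 19353521047) (nat_lit 684) (nat_lit 7704560602) (nat_lit 90) (nat_lit 5) (nat_lit 90) (nat_lit 3) (nat_lit 99) (nat_lit 3) (nat_lit 324) (nat_lit 324) (nat_lit 132)) (XT.lf (nat_lit 0) (nat_lit 79414718969) (nat_lit 684) (nat_lit 12118728559) (nat_lit 760) (nat_lit 3607059536) (nat_lit 90) (nat_lit 5) (nat_lit 99)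 (nat_lit 3) (nat_lit 100) (nat_lit 5) (nat_lit 325) (nat_lit 324) (nat_lit 131))) (XT.nd (nat_lit 78) (nat_lit 0) (nat_lit 0) (XT.lf (nat_lit 76) (nat_lit 32380148632) (nat_lit 0) (nat_lit 50274872180) (nat_lit 760) (nat_lit 14861672154) (nat_lit 91) (nat_lit 5) (nat_lit 90) (nat_lit 5) (nat_lit 100) (nat_lit 5) (nat_lit 326) (nat_lit 324) (nat_lit 130)) (XT.nd (nat_lit 78) (nat_lit 0) (nat_lit 76) (XT.lf (nat_lit 76) (nat_lit 79524454093) (nat_lit 0) (nat_lit 6737686549) (nat_lit 760) (nat_lit 13739308251) (nat_lit 91) (nat_lit 5) (nat_lit 90) (nat_lit 5) (nat_lit 100) (nat_lit 5) (nat_lit 327) (nat_lit 324) (nat_lit 129)) (XT.lf (nat_lit 76) (nat_lit 26660026612) (nat_lit 0) (nat_lit 64413947501) (nat_lit 760) (nat_lit 11485251453) (nat_lit 92) (nat_lit 5) (nat_lit 91) (nat_lit 5) (nat_lit 101) (nat_lit 5) (nat_lit 328) (nat_lit 324) (nat_lit 128))))) (XT.nd (nat_lit 156) (nat_lit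 608) (nat_lit 0) (XT.nd (nat_lit 78) (nat_lit 0) (nat_lit 76) (XT.lf (nat_lit 76) (nat_lit 76750449615) (nat_lit 0) (nat_lit 19831015058) (nat_lit 760) (nat_lit 8640673922) (nat_lit 92) (nat_lit 5) (nat_lit 91) (nat_lit 5) (nat_lit 101) (nat_lit 5) (nat_lit 329) (nat_lit 324) (nat_lit 127)) (XT.lf (nat_lit 76) (nat_lit 21596914828) (nat_lit 0) (nat_lit 81525479380) (nat_lit 760) (nat_lit 4857900599) (nat_lit 93) (nat_lit 5) (nat_lit 92) (nat_lit 5) (nat_lit 102) (nat_lit 5) (nat_lit 330) (nat_lit 324) (nat_lit 126))) (XT.nd (nat_lit 78) (nat_lit 684) (nat_lit 0) (XT.lf (nat_lit 76) (nat_lit 74821310274) (nat_lit 0) (nat_lit 35970736611) (nat_lit 760) (nat_lit 44228831) (nat_lit 93) (nat_lit 5) (nat_lit 92) (nat_lit 5) (nat_lit 102) (nat_lit 5) (nat_lit 331) (nat_lit 324) (nat_lit 125)) (XT.nd (nat_lit 78) (nat_lit 0) (nat_lit 0) (XT.lf (nat_lit 0) (nat_lit 5311201924) (nat_lit 760) (nat_lit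 96659889000) (nat_lit 836) (nat_lit 11836982755) (nat_lit 83) (nat_lit 5) (nat_lit 93) (nat_lit 5) (nat_lit 94) (nat_lit 5) (nat_lit 332) (nat_lit 324) (nat_lit 124)) (XT.lf (nat_lit 0) (nat_lit 12142196211) (nat_lit 760) (nat_lit 43278800109) (nat_lit 836) (nat_lit 61446965671) (nat_lit 83) (nat_lit 5) (nat_lit 93) (nat_lit 5) (nat_lit 94) (nat_lit 5) (nat_lit 333) (nat_lit 324) (nat_lit 123)))))) (XT.nd (nat_lit 390) (nat_lit 608) (nat_lit 0) (XT.nd (nat_lit 156) (nat_lit 836) (nat_lit 0) (XT.nd (nat_lit 78) (nat_lit 0) (nat_lit 76) (XT.lf (nat_lit 76) (nat_lit 13193348427) (nat_lit 0) (nat_lit 6327057339) (nat_lit 836) (nat_lit 100550156265) (nat_lit 84) (nat_lit 5) (nat_lit 83) (nat_lit 5) (nat_lit 94) (nat_lit 5) (nat_lit 334) (nat_lit 324) (nat_lit 122)) (XT.lf (nat_lit 0) (nat_lit 28718216652) (nat_lit 760) (nat_lit 50123326025) (nat_lit 76) (nat_lit 44519215418) (nat_lit 84)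 (nat_lit 5) (nat_lit 94) (nat_lit 5) (nat_lit 85) (nat_lit 5) (nat_lit 335) (nat_lit 324) (nat_lit 121))) (XT.nd (nat_lit 78) (nat_lit 380) (nat_lit 0) (XT.lf (nat_lit 0) (nat_lit 9673895102) (nat_lit 532) (nat_lit 28956488819) (nat_lit 608) (nat_lit 88172357285) (nat_lit 77) (nat_lit 5) (nat_lit 84) (nat_lit 5) (nat_lit 85) (nat_lit 5) (nat_lit 336) (nat_lit 324) (nat_lit 120)) (XT.nd (nat_lit 78) (nat_lit 380) (nat_lit 0) (XT.lf (nat_lit 0) (nat_lit 50266351193) (nat_lit 608) (nat_lit 56553120382) (nat_lit 76) (nat_lit 23535942825) (nat_lit 77) (nat_lit 5) (nat_lit 85) (nat_lit 5) (nat_lit 78) (nat_lit 5) (nat_lit 337) (nat_lit 324) (nat_lit 119)) (XT.lf (nat_lit 0) (nat_lit 6793880331) (nat_lit 380) (nat_lit 56270735260) (nat_lit 456) (nat_lit 70992081211) (nat_lit 72) (nat_lit 5) (nat_lit 77) (nat_lit 5) (nat_lit 78) (nat_lit 5) (nat_lit 338) (nat_lit 324) (nat_lit 118))))) (XT.nd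 (nat_lit 156) (nat_lit 304) (nat_lit 0) (XT.nd (nat_lit 78) (nat_lit 304) (nat_lit 0) (XT.lf (nat_lit 0) (nat_lit 75271370580) (nat_lit 380) (nat_lit 2188916611) (nat_lit 456) (nat_lit 60434881899) (nat_lit 72) (nat_lit 5) (nat_lit 77) (nat_lit 5) (nat_lit 78) (nat_lit 5) (nat_lit 339) (nat_lit 324) (nat_lit 117)) (XT.lf (nat_lit 0) (nat_lit 4539802523) (nat_lit 304) (nat_lit 88958982932) (nat_lit 380) (nat_lit 48380627825) (nat_lit 68) (nat_lit 5) (nat_lit 72) (nat_lit 5) (nat_lit 73) (nat_lit 5) (nat_lit 340) (nat_lit 324) (nat_lit 116))) (XT.nd (nat_lit 78) (nat_lit 304) (nat_lit 0) (XT.lf (nat_lit 0) (nat_lit 77198416491) (nat_lit 304) (nat_lit 34236421404) (nat_lit 380) (nat_lit 34573250741) (nat_lit 68) (nat_lit 5) (nat_lit 72) (nat_lit 5) (nat_lit 73) (nat_lit 5) (nat_lit 341) (nat_lit 324) (nat_lit 115)) (XT.nd (nat_lit 78) (nat_lit 0) (nat_lit 0) (XT.lf (nat_lit 0) (nat_lit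 2875995330) (nat_lit 304) (nat_lit 127798935723) (nat_lit 380) (nat_lit 19647905202) (nat_lit 64) (nat_lit 5) (nat_lit 68) (nat_lit 5) (nat_lit 69) (nat_lit 5) (nat_lit 342) (nat_lit 324) (nat_lit 114)) (XT.lf (nat_lit 0) (nat_lit 79954803151) (nat_lit 304) (nat_lit 72639529232) (nat_lit 380) (nat_lit 2173124077) (nat_lit 64) (nat_lit 5) (nat_lit 68) (nat_lit 5) (nat_lit 69) (nat_lit 5) (nat_lit 343) (nat_lit 324) (nat_lit 113))))))) (XT.nd (nat_lit 780) (nat_lit 836) (nat_lit 0) (XT.nd (nat_lit 390) (nat_lit 760) (nat_lit 0) (XT.nd (nat_lit 156) (nat_lit 304) (nat_lit 0) (XT.nd (nat_lit 78) (nat_lit 0) (nat_lit 0) (XT.lf (nat_lit 0) (nat_lit 1240148202) (nat_lit 304) (nat_lit 14436681223) (nat_lit 380) (nat_lit 143743894083) (nat_lit 59) (nat_lit 5) (nat_lit 63) (nat_lit 5) (nat_lit 64) (nat_lit 5) (nat_lit 344) (nat_lit 324) (nat_lit 112)) (XT.lf (nat_lit 0) (nat_lit 36362546983) (nat_lit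 380) (nat_lit 81335782608) (nat_lit 76) (nat_lit 46505728517) (nat_lit 59) (nat_lit 5) (nat_lit 64) (nat_lit 5) (nat_lit 60) (nat_lit 5) (nat_lit 345) (nat_lit 324) (nat_lit 111))) (XT.nd (nat_lit 78) (nat_lit 304) (nat_lit 0) (XT.lf (nat_lit 0) (nat_lit 58319018099) (nat_lit 380) (nat_lit 885656248) (nat_lit 76) (nat_lit 110010062022) (nat_lit 59) (nat_lit 5) (nat_lit 64) (nat_lit 5) (nat_lit 60) (nat_lit 5) (nat_lit 346) (nat_lit 324) (nat_lit 110)) (XT.nd (nat_lit 78) (nat_lit 0) (nat_lit 0) (XT.lf (nat_lit 0) (nat_lit 82777958503) (nat_lit 380) (nat_lit 88114707615) (nat_lit 76) (nat_lit 3513050436) (nat_lit 55) (nat_lit 5) (nat_lit 60) (nat_lit 5) (nat_lit 56) (nat_lit 5) (nat_lit 347) (nat_lit 324) (nat_lit 109)) (XT.lf (nat_lit 0) (nat_lit 109445474440) (nat_lit 380) (nat_lit 2969287628) (nat_lit 76) (nat_lit 67392202539) (nat_lit 55) (nat_lit 5) (nat_lit 60) (nat_lit 5) (nat_lit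 56) (nat_lit 5) (nat_lit 348) (nat_lit 324) (nat_lit 108))))) (XT.nd (nat_lit 156) (nat_lit 532) (nat_lit 0) (XT.nd (nat_lit 78) (nat_lit 0) (nat_lit 0) (XT.lf (nat_lit 0) (nat_lit 89291052889) (nat_lit 228) (nat_lit 49549220837) (nat_lit 304) (nat_lit 46568306230) (nat_lit 52) (nat_lit 5) (nat_lit 55) (nat_lit 5) (nat_lit 56) (nat_lit 5) (nat_lit 349) (nat_lit 324) (nat_lit 107)) (XT.lf (nat_lit 0) (nat_lit 170012732327) (nat_lit 304) (nat_lit 5278295464) (nat_lit 76) (nat_lit 15983852571) (nat_lit 52) (nat_lit 5) (nat_lit 56) (nat_lit 5) (nat_lit 53) (nat_lit 5) (nat_lit 350) (nat_lit 324) (nat_lit 106))) (XT.nd (nat_lit 78) (nat_lit 228) (nat_lit 0) (XT.lf (nat_lit 0) (nat_lit 7428595670) (nat_lit 304) (nat_lit 105198954011) (nat_lit 76) (nat_lit 84688341230) (nat_lit 48) (nat_lit 5) (nat_lit 52) (nat_lit 5) (nat_lit 49) (nat_lit 5) (nat_lit 351) (nat_lit 324) (nat_lit 105)) (XT.nd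 (nat_lit 78) (nat_lit 228) (nat_lit 0) (XT.lf (nat_lit 0) (nat_lit 36930022911) (nat_lit 304) (nat_lit 9439543918) (nat_lit 76) (nat_lit 157267422692) (nat_lit 48) (nat_lit 5) (nat_lit 52) (nat_lit 5) (nat_lit 49) (nat_lit 5) (nat_lit 352) (nat_lit 324) (nat_lit 104)) (XT.lf (nat_lit 0) (nat_lit 69762171689) (nat_lit 304) (nat_lit 116466944510) (nat_lit 76) (nat_lit 23952244566) (nat_lit 45) (nat_lit 5) (nat_lit 49) (nat_lit 5) (nat_lit 46) (nat_lit 5) (nat_lit 353) (nat_lit 324) (nat_lit 103)))))) (XT.nd (nat_lit 390) (nat_lit 380) (nat_lit 0) (XT.nd (nat_lit 156) (nat_lit 228) (nat_lit 0) (XT.nd (nat_lit 78) (nat_lit 228) (nat_lit 0) (XT.lf (nat_lit 0) (nat_lit 105158417767) (nat_lit 304) (nat_lit 15454151642) (nat_lit 76) (nat_lit 96394256872) (nat_lit 45) (nat_lit 5) (nat_lit 49) (nat_lit 5) (nat_lit 46) (nat_lit 5) (nat_lit 354) (nat_lit 324) (nat_lit 102)) (XT.lf (nat_lit 0) (nat_lit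 93605025520) (nat_lit 228) (nat_lit 50180743669) (nat_lit 304) (nat_lit 80314731425) (nat_lit 42) (nat_lit 5) (nat_lit 45) (nat_lit 5) (nat_lit 46) (nat_lit 5) (nat_lit 355) (nat_lit 324) (nat_lit 101))) (XT.nd (nat_lit 78) (nat_lit 228) (nat_lit 0) (XT.lf (nat_lit 0) (nat_lit 184981519447) (nat_lit 304) (nat_lit 23257730088) (nat_lit 76) (nat_lit 23277757748) (nat_lit 42) (nat_lit 5) (nat_lit 46) (nat_lit 5) (nat_lit 43) (nat_lit 5) (nat_lit 356) (nat_lit 324) (nat_lit 100)) (XT.nd (nat_lit 78) (nat_lit 76) (nat_lit 0) (XT.lf (nat_lit 0) (nat_lit 91445913258) (nat_lit 152) (nat_lit 139041371918) (nat_lit 228) (nat_lit 8704542885) (nat_lit 40) (nat_lit 5) (nat_lit 42) (nat_lit 5) (nat_lit 43) (nat_lit 5) (nat_lit 357) (nat_lit 324) (nat_lit 99)) (XT.lf (nat_lit 0) (nat_lit 30425386137) (nat_lit 228) (nat_lit 35029430882) (nat_lit 76) (nat_lit 181751348917) (nat_lit 39) (nat_lit 5) (nat_lit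 42) (nat_lit 5) (nat_lit 40) (nat_lit 5) (nat_lit 358) (nat_lit 324) (nat_lit 98))))) (XT.nd (nat_lit 156) (nat_lit 152) (nat_lit 0) (XT.nd (nat_lit 78) (nat_lit 0) (nat_lit 0) (XT.lf (nat_lit 0) (nat_lit 72769503825) (nat_lit 304) (nat_lit 169825447692) (nat_lit 76) (nat_lit 12941623371) (nat_lit 36) (nat_lit 5) (nat_lit 40) (nat_lit 5) (nat_lit 37) (nat_lit 5) (nat_lit 359) (nat_lit 324) (nat_lit 97)) (XT.lf (nat_lit 0) (nat_lit 118906698315) (nat_lit 304) (nat_lit 51631929974) (nat_lit 76) (nat_lit 93661082595) (nat_lit 36) (nat_lit 5) (nat_lit 40) (nat_lit 5) (nat_lit 37) (nat_lit 5) (nat_lit 360) (nat_lit 324) (nat_lit 96))) (XT.nd (nat_lit 78) (nat_lit 0) (nat_lit 0) (XT.lf (nat_lit 0) (nat_lit 74867305347) (nat_lit 152) (nat_lit 93652217078) (nat_lit 228) (nat_lit 104718042898) (nat_lit 34) (nat_lit 5) (nat_lit 36) (nat_lit 5) (nat_lit 37) (nat_lit 5) (nat_lit 361) (nat_lit 324)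 (nat_lit 95)) (XT.nd (nat_lit 37752) (nat_lit 0) (nat_lit 4256) (XT.lf (nat_lit 0) (nat_lit 209483869747) (nat_lit 152) (nat_lit 12003414044) (nat_lit 228) (nat_lit 61196314022) (nat_lit 34) (nat_lit 5) (nat_lit 36) (nat_lit 5) (nat_lit 37) (nat_lit 5) (nat_lit 362) (nat_lit 324) (nat_lit 94)) (XT.lf (nat_lit 0) (nat_lit 20324693788) (nat_lit 0) (nat_lit 20324693788) (nat_lit 684) (nat_lit 8082431478) (nat_lit 90) (nat_lit 5) (nat_lit 90) (nat_lit 3) (nat_lit 99) (nat_lit 3) (nat_lit 325) (nat_lit 325) (nat_lit 130))))))))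
noncomputable def xc246 : XT := (XT.nd (nat_lit 1560) (nat_lit 1900) (nat_lit 0) (XT.nd (nat_lit 780) (nat_lit 1824) (nat_lit 0) (XT.nd (nat_lit 390) (nat_lit 532) (nat_lit 0) (XT.nd (nat_lit 156) (nat_lit 0) (nat_lit 0) (XT.nd (nat_lit 78) (nat_lit 0) (nat_lit 0) (XT.lf (nat_lit 0) (nat_lit 83398671648) (nat_lit 684) (nat_lit 12717207731) (nat_lit 760) (nat_lit 3780965327) (nat_lit 90) (nat_lit 5) (nat_lit 99) (nat_lit 3) (nat_lit 100) (nat_lit 5) (nat_lit 326) (nat_lit 325) (nat_lit 129)) (XT.lf (nat_lit 76) (nat_lit 34006493042) (nat_lit 0) (nat_lit 52793980724) (nat_lit 760) (nat_lit 15591393158) (nat_lit 91) (nat_lit 5) (nat_lit 90) (nat_lit 5) (nat_lit 100) (nat_lit 5) (nat_lit 327) (nat_lit 325) (nat_lit 128))) (XT.nd (nat_lit 78) (nat_lit 0) (nat_lit 76) (XT.lf (nat_lit 76) (nat_lit 83507664396) (nat_lit 0) (nat_lit 7079680338) (nat_lit 760) (nat_lit 14413547375) (nat_lit 91)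 (nat_lit 5) (nat_lit 90) (nat_lit 5) (nat_lit 100) (nat_lit 5) (nat_lit 328) (nat_lit 325) (nat_lit 127)) (XT.nd (nat_lit 78) (nat_lit 0) (nat_lit 0) (XT.lf (nat_lit 76) (nat_lit 28000600404) (nat_lit 0) (nat_lit 67638635678) (nat_lit 760) (nat_lit 12047349384) (nat_lit 92) (nat_lit 5) (nat_lit 91) (nat_lit 5) (nat_lit 101) (nat_lit 5) (nat_lit 329) (nat_lit 325) (nat_lit 126)) (XT.lf (nat_lit 76) (nat_lit 80595183963) (nat_lit 0) (nat_lit 20826366575) (nat_lit 760) (nat_lit 9061122246) (nat_lit 92) (nat_lit 5) (nat_lit 91) (nat_lit 5) (nat_lit 101) (nat_lit 5) (nat_lit 330) (nat_lit 325) (nat_lit 125))))) (XT.nd (nat_lit 156) (nat_lit 684) (nat_lit 0) (XT.nd (nat_lit 78) (nat_lit 0) (nat_lit 0) (XT.lf (nat_lit 76) (nat_lit 22684478004) (nat_lit 0) (nat_lit 85604588111) (nat_lit 760) (nat_lit 5089694766) (nat_lit 93) (nat_lit 5) (nat_lit 92) (nat_lit 5) (nat_lit 102) (nat_lit 5) (nat_lit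 331) (nat_lit 325) (nat_lit 124)) (XT.lf (nat_lit 76) (nat_lit 78569725725) (nat_lit 0) (nat_lit 37771973215) (nat_lit 760) (nat_lit 35868022) (nat_lit 93) (nat_lit 5) (nat_lit 92) (nat_lit 5) (nat_lit 102) (nat_lit 5) (nat_lit 332) (nat_lit 325) (nat_lit 123))) (XT.nd (nat_lit 78) (nat_lit 0) (nat_lit 0) (XT.lf (nat_lit 0) (nat_lit 5586591333) (nat_lit 760) (nat_lit 101484753286) (nat_lit 836) (nat_lit 12426623089) (nat_lit 83) (nat_lit 5) (nat_lit 93) (nat_lit 5) (nat_lit 94) (nat_lit 5) (nat_lit 333) (nat_lit 325) (nat_lit 122)) (XT.nd (nat_lit 78) (nat_lit 0) (nat_lit 0) (XT.lf (nat_lit 0) (nat_lit 12758667272) (nat_lit 760) (nat_lit 45434997101) (nat_lit 836) (nat_lit 64517210332) (nat_lit 83) (nat_lit 5) (nat_lit 93) (nat_lit 5) (nat_lit 94) (nat_lit 5) (nat_lit 334) (nat_lit 325) (nat_lit 121)) (XT.lf (nat_lit 76) (nat_lit 13860633974) (nat_lit 0) (nat_lit 6644826497) (nat_lit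 836) (nat_lit 105568161442) (nat_lit 84) (nat_lit 5) (nat_lit 83) (nat_lit 5) (nat_lit 94) (nat_lit 5) (nat_lit 335) (nat_lit 325) (nat_lit 120)))))) (XT.nd (nat_lit 390) (nat_lit 988) (nat_lit 0) (XT.nd (nat_lit 156) (nat_lit 380) (nat_lit 0) (XT.nd (nat_lit 78) (nat_lit 532) (nat_lit 0) (XT.lf (nat_lit 0) (nat_lit 30162710631) (nat_lit 760) (nat_lit 52621769986) (nat_lit 76) (nat_lit 46743870512) (nat_lit 84) (nat_lit 5) (nat_lit 94) (nat_lit 5) (nat_lit 85) (nat_lit 5) (nat_lit 336) (nat_lit 325) (nat_lit 119)) (XT.lf (nat_lit 0) (nat_lit 10165187644) (nat_lit 532) (nat_lit 30405008521) (nat_lit 608) (nat_lit 92572252483) (nat_lit 77) (nat_lit 5) (nat_lit 84) (nat_lit 5) (nat_lit 85) (nat_lit 5) (nat_lit 337) (nat_lit 325) (nat_lit 118))) (XT.nd (nat_lit 78) (nat_lit 380) (nat_lit 0) (XT.lf (nat_lit 0) (nat_lit 52787556556) (nat_lit 608) (nat_lit 59373120916) (nat_lit 76) (nat_lit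 24712099006) (nat_lit 77) (nat_lit 5) (nat_lit 85) (nat_lit 5) (nat_lit 78) (nat_lit 5) (nat_lit 338) (nat_lit 325) (nat_lit 117)) (XT.nd (nat_lit 78) (nat_lit 0) (nat_lit 0) (XT.lf (nat_lit 0) (nat_lit 7141106357) (nat_lit 380) (nat_lit 59084369804) (nat_lit 456) (nat_lit 74533660420) (nat_lit 72) (nat_lit 5) (nat_lit 77) (nat_lit 5) (nat_lit 78) (nat_lit 5) (nat_lit 339) (nat_lit 325) (nat_lit 116)) (XT.lf (nat_lit 0) (nat_lit 79042112452) (nat_lit 380) (nat_lit 2298455565) (nat_lit 456) (nat_lit 63448983278) (nat_lit 72) (nat_lit 5) (nat_lit 77) (nat_lit 5) (nat_lit 78) (nat_lit 5) (nat_lit 340) (nat_lit 325) (nat_lit 115))))) (XT.nd (nat_lit 156) (nat_lit 684) (nat_lit 0) (XT.nd (nat_lit 78) (nat_lit 0) (nat_lit 0) (XT.lf (nat_lit 0) (nat_lit 4774221904) (nat_lit 304) (nat_lit 93406537875) (nat_lit 380) (nat_lit 50792260102) (nat_lit 68) (nat_lit 5) (nat_lit 72) (nat_lit 5) (nat_lit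 73) (nat_lit 5) (nat_lit 341) (nat_lit 325) (nat_lit 114)) (XT.lf (nat_lit 0) (nat_lit 81065412796) (nat_lit 304) (nat_lit 35947867041) (nat_lit 380) (nat_lit 36294866503) (nat_lit 68) (nat_lit 5) (nat_lit 72) (nat_lit 5) (nat_lit 73) (nat_lit 5) (nat_lit 342) (nat_lit 325) (nat_lit 113))) (XT.nd (nat_lit 78) (nat_lit 380) (nat_lit 0) (XT.lf (nat_lit 0) (nat_lit 3027091825) (nat_lit 304) (nat_lit 134188086284) (nat_lit 380) (nat_lit 20623463767) (nat_lit 64) (nat_lit 5) (nat_lit 68) (nat_lit 5) (nat_lit 69) (nat_lit 5) (nat_lit 343) (nat_lit 325) (nat_lit 112)) (XT.nd (nat_lit 78) (nat_lit 380) (nat_lit 0) (XT.lf (nat_lit 0) (nat_lit 83959492574) (nat_lit 304) (nat_lit 76270747384) (nat_lit 380) (nat_lit 2275269143) (nat_lit 64) (nat_lit 5) (nat_lit 68) (nat_lit 5) (nat_lit 69) (nat_lit 5) (nat_lit 344) (nat_lit 325) (nat_lit 111)) (XT.lf (nat_lit 0) (nat_lit 1309207794) (nat_lit 304)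 (nat_lit 15157575818) (nat_lit 380) (nat_lit 150924660790) (nat_lit 59) (nat_lit 5) (nat_lit 63) (nat_lit 5) (nat_lit 64) (nat_lit 5) (nat_lit 345) (nat_lit 325) (nat_lit 110))))))) (XT.nd (nat_lit 780) (nat_lit 836) (nat_lit 0) (XT.nd (nat_lit 390) (nat_lit 532) (nat_lit 0) (XT.nd (nat_lit 156) (nat_lit 532) (nat_lit 0) (XT.nd (nat_lit 78) (nat_lit 0) (nat_lit 0) (XT.lf (nat_lit 0) (nat_lit 38186509935) (nat_lit 380) (nat_lit 85395569075) (nat_lit 76) (nat_lit 48831881036) (nat_lit 59) (nat_lit 5) (nat_lit 64) (nat_lit 5) (nat_lit 60) (nat_lit 5) (nat_lit 346) (nat_lit 325) (nat_lit 109)) (XT.lf (nat_lit 0) (nat_lit 61240526721) (nat_lit 380) (nat_lit 923269857) (nat_lit 76) (nat_lit 115511389974) (nat_lit 59) (nat_lit 5) (nat_lit 64) (nat_lit 5) (nat_lit 60) (nat_lit 5) (nat_lit 347) (nat_lit 325) (nat_lit 108))) (XT.nd (nat_lit 78) (nat_lit 228) (nat_lit 0) (XT.lf (nat_lit 0) (nat_lit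 86922270144) (nat_lit 380) (nat_lit 92513621459) (nat_lit 76) (nat_lit 3689831760) (nat_lit 55) (nat_lit 5) (nat_lit 60) (nat_lit 5) (nat_lit 56) (nat_lit 5) (nat_lit 348) (nat_lit 325) (nat_lit 107)) (XT.nd (nat_lit 78) (nat_lit 228) (nat_lit 0) (XT.lf (nat_lit 0) (nat_lit 114922904081) (nat_lit 380) (nat_lit 3111255307) (nat_lit 76) (nat_lit 70762887716) (nat_lit 55) (nat_lit 5) (nat_lit 60) (nat_lit 5) (nat_lit 56) (nat_lit 5) (nat_lit 349) (nat_lit 325) (nat_lit 106)) (XT.lf (nat_lit 0) (nat_lit 93761997450) (nat_lit 228) (nat_lit 52025300158) (nat_lit 304) (nat_lit 48891453278) (nat_lit 52) (nat_lit 5) (nat_lit 55) (nat_lit 5) (nat_lit 56) (nat_lit 5) (nat_lit 350) (nat_lit 325) (nat_lit 105))))) (XT.nd (nat_lit 156) (nat_lit 228) (nat_lit 0) (XT.nd (nat_lit 78) (nat_lit 304) (nat_lit 0) (XT.lf (nat_lit 0) (nat_lit 178518161104) (nat_lit 304) (nat_lit 5535897464) (nat_lit 76) (nat_lit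 16784319007) (nat_lit 52) (nat_lit 5) (nat_lit 56) (nat_lit 5) (nat_lit 53) (nat_lit 5) (nat_lit 351) (nat_lit 325) (nat_lit 104)) (XT.lf (nat_lit 0) (nat_lit 7804769430) (nat_lit 304) (nat_lit 110452527370) (nat_lit 76) (nat_lit 88924144927) (nat_lit 48) (nat_lit 5) (nat_lit 52) (nat_lit 5) (nat_lit 49) (nat_lit 5) (nat_lit 352) (nat_lit 325) (nat_lit 103))) (XT.nd (nat_lit 78) (nat_lit 228) (nat_lit 0) (XT.lf (nat_lit 0) (nat_lit 38781042130) (nat_lit 304) (nat_lit 9905450313) (nat_lit 76) (nat_lit 165132114432) (nat_lit 48) (nat_lit 5) (nat_lit 52) (nat_lit 5) (nat_lit 49) (nat_lit 5) (nat_lit 353) (nat_lit 325) (nat_lit 102)) (XT.nd (nat_lit 78) (nat_lit 0) (nat_lit 0) (XT.lf (nat_lit 0) (nat_lit 73254701071) (nat_lit 304) (nat_lit 122284117737) (nat_lit 76) (nat_lit 25151383034) (nat_lit 45) (nat_lit 5) (nat_lit 49) (nat_lit 5) (nat_lit 46) (nat_lit 5) (nat_lit 354) (nat_lit 325)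 (nat_lit 101)) (XT.lf (nat_lit 0) (nat_lit 110420548939) (nat_lit 304) (nat_lit 16220979225) (nat_lit 76) (nat_lit 101215423277) (nat_lit 45) (nat_lit 5) (nat_lit 49) (nat_lit 5) (nat_lit 46) (nat_lit 5) (nat_lit 355) (nat_lit 325) (nat_lit 100)))))) (XT.nd (nat_lit 390) (nat_lit 152) (nat_lit 0) (XT.nd (nat_lit 156) (nat_lit 456) (nat_lit 0) (XT.nd (nat_lit 78) (nat_lit 0) (nat_lit 0) (XT.lf (nat_lit 0) (nat_lit 98291061956) (nat_lit 228) (nat_lit 52688095808) (nat_lit 304) (nat_lit 84326157503) (nat_lit 42) (nat_lit 5) (nat_lit 45) (nat_lit 5) (nat_lit 46) (nat_lit 5) (nat_lit 356) (nat_lit 325) (nat_lit 99)) (XT.lf (nat_lit 0) (nat_lit 194234525347) (nat_lit 304) (nat_lit 24414931612) (nat_lit 76) (nat_lit 24443199075) (nat_lit 42) (nat_lit 5) (nat_lit 46) (nat_lit 5) (nat_lit 43) (nat_lit 5) (nat_lit 357) (nat_lit 325) (nat_lit 98))) (XT.nd (nat_lit 78) (nat_lit 304) (nat_lit 0)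 (XT.lf (nat_lit 0) (nat_lit 96023802208) (nat_lit 152) (nat_lit 145991677342) (nat_lit 228) (nat_lit 9135743536) (nat_lit 40) (nat_lit 5) (nat_lit 42) (nat_lit 5) (nat_lit 43) (nat_lit 5) (nat_lit 358) (nat_lit 325) (nat_lit 97)) (XT.nd (nat_lit 78) (nat_lit 228) (nat_lit 0) (XT.lf (nat_lit 0) (nat_lit 31950367463) (nat_lit 228) (nat_lit 36775448331) (nat_lit 76) (nat_lit 190840468419) (nat_lit 39) (nat_lit 5) (nat_lit 42) (nat_lit 5) (nat_lit 40) (nat_lit 5) (nat_lit 359) (nat_lit 325) (nat_lit 96)) (XT.lf (nat_lit 0) (nat_lit 76411625330) (nat_lit 304) (nat_lit 178311196067) (nat_lit 76) (nat_lit 13590395711) (nat_lit 36) (nat_lit 5) (nat_lit 40) (nat_lit 5) (nat_lit 37) (nat_lit 5) (nat_lit 360) (nat_lit 325) (nat_lit 95))))) (XT.nd (nat_lit 37908) (nat_lit 0) (nat_lit 4256) (XT.nd (nat_lit 78) (nat_lit 152) (nat_lit 0) (XT.lf (nat_lit 0) (nat_lit 124855505911) (nat_lit 304) (nat_lit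 54208265512) (nat_lit 76) (nat_lit 98345747364) (nat_lit 36) (nat_lit 5) (nat_lit 40) (nat_lit 5) (nat_lit 37) (nat_lit 5) (nat_lit 361) (nat_lit 325) (nat_lit 94)) (XT.lf (nat_lit 0) (nat_lit 78615846722) (nat_lit 152) (nat_lit 98333039953) (nat_lit 228) (nat_lit 109950383691) (nat_lit 34) (nat_lit 5) (nat_lit 36) (nat_lit 5) (nat_lit 37) (nat_lit 5) (nat_lit 362) (nat_lit 325) (nat_lit 93))) (XT.nd (nat_lit 78) (nat_lit 0) (nat_lit 0) (XT.lf (nat_lit 0) (nat_lit 21344100077) (nat_lit 0) (nat_lit 21344100077) (nat_lit 684) (nat_lit 8479879896) (nat_lit 90) (nat_lit 5) (nat_lit 90) (nat_lit 3) (nat_lit 99) (nat_lit 3) (nat_lit 326) (nat_lit 326) (nat_lit 128)) (XT.nd (nat_lit 78) (nat_lit 0) (nat_lit 0) (XT.lf (nat_lit 0) (nat_lit 87580593194) (nat_lit 684) (nat_lit 13346304166) (nat_lit 760) (nat_lit 3964165806) (nat_lit 90) (nat_lit 5) (nat_lit 99) (nat_lit 3) (nat_lit 100) (nat_lit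 5) (nat_lit 327) (nat_lit 326) (nat_lit 127)) (XT.lf (nat_lit 76) (nat_lit 35713472549) (nat_lit 0) (nat_lit 55438545915) (nat_lit 760) (nat_lit 16358842541) (nat_lit 91) (nat_lit 5) (nat_lit 90) (nat_lit 5) (nat_lit 100) (nat_lit 5) (nat_lit 328) (nat_lit 326) (nat_lit 126))))))))
noncomputable def xc247 : XT := (XT.nd (nat_lit 1560) (nat_lit 1748) (nat_lit 0) (XT.nd (nat_lit 780) (nat_lit 1368) (nat_lit 0) (XT.nd (nat_lit 390) (nat_lit 988) (nat_lit 0) (XT.nd (nat_lit 156) (nat_lit 0) (nat_lit 76) (XT.nd (nat_lit 78) (nat_lit 0) (nat_lit 76) (XT.lf (nat_lit 76) (nat_lit 87689385573) (nat_lit 0) (nat_lit 7438298789) (nat_lit 760) (nat_lit 15122681624) (nat_lit 91) (nat_lit 5) (nat_lit 90) (nat_lit 5) (nat_lit 100) (nat_lit 5) (nat_lit 329) (nat_lit 326) (nat_lit 125)) (XT.lf (nat_lit 76) (nat_lit 29407498869) (nat_lit 0) (nat_lit 71024187237) (nat_lit 760) (nat_lit 12638683165) (nat_lit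 92) (nat_lit 5) (nat_lit 91) (nat_lit 5) (nat_lit 101) (nat_lit 5) (nat_lit 330) (nat_lit 326) (nat_lit 124))) (XT.nd (nat_lit 78) (nat_lit 0) (nat_lit 76) (XT.lf (nat_lit 76) (nat_lit 84631484538) (nat_lit 0) (nat_lit 21871132308) (nat_lit 760) (nat_lit 9503670084) (nat_lit 92) (nat_lit 5) (nat_lit 91) (nat_lit 5) (nat_lit 101) (nat_lit 5) (nat_lit 331) (nat_lit 326) (nat_lit 123)) (XT.nd (nat_lit 78) (nat_lit 0) (nat_lit 0) (XT.lf (nat_lit 76) (nat_lit 23825701844) (nat_lit 0) (nat_lit 89887388730) (nat_lit 760) (nat_lit 5334110694) (nat_lit 93) (nat_lit 5) (nat_lit 92) (nat_lit 5) (nat_lit 102) (nat_lit 5) (nat_lit 332) (nat_lit 326) (nat_lit 122)) (XT.lf (nat_lit 76) (nat_lit 82504878621) (nat_lit 0) (nat_lit 39663020650) (nat_lit 760) (nat_lit 28072081) (nat_lit 93) (nat_lit 5) (nat_lit 92) (nat_lit 5) (nat_lit 102) (nat_lit 5) (nat_lit 333) (nat_lit 326) (nat_lit 121))))) (XT.nd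 (nat_lit 156) (nat_lit 456) (nat_lit 0) (XT.nd (nat_lit 78) (nat_lit 0) (nat_lit 0) (XT.lf (nat_lit 0) (nat_lit 5874836376) (nat_lit 760) (nat_lit 106551616652) (nat_lit 836) (nat_lit 13045950793) (nat_lit 83) (nat_lit 5) (nat_lit 93) (nat_lit 5) (nat_lit 94) (nat_lit 5) (nat_lit 334) (nat_lit 326) (nat_lit 120)) (XT.lf (nat_lit 0) (nat_lit 13405091565) (nat_lit 760) (nat_lit 47699723815) (nat_lit 836) (nat_lit 67741162800) (nat_lit 83) (nat_lit 5) (nat_lit 93) (nat_lit 5) (nat_lit 94) (nat_lit 5) (nat_lit 335) (nat_lit 326) (nat_lit 119))) (XT.nd (nat_lit 78) (nat_lit 456) (nat_lit 0) (XT.lf (nat_lit 76) (nat_lit 14560575538) (nat_lit 0) (nat_lit 6978352439) (nat_lit 836) (nat_lit 110837950343) (nat_lit 84) (nat_lit 5) (nat_lit 83) (nat_lit 5) (nat_lit 94) (nat_lit 5) (nat_lit 336) (nat_lit 326) (nat_lit 118)) (XT.nd (nat_lit 78) (nat_lit 532) (nat_lit 0) (XT.lf (nat_lit 0) (nat_lit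 31678631330) (nat_lit 760) (nat_lit 55245854094) (nat_lit 76) (nat_lit 49079879750) (nat_lit 84) (nat_lit 5) (nat_lit 94) (nat_lit 5) (nat_lit 85) (nat_lit 5) (nat_lit 337) (nat_lit 326) (nat_lit 117)) (XT.lf (nat_lit 0) (nat_lit 10680338442) (nat_lit 532) (nat_lit 31925889570) (nat_lit 608) (nat_lit 97192953393) (nat_lit 77) (nat_lit 5) (nat_lit 84) (nat_lit 5) (nat_lit 85) (nat_lit 5) (nat_lit 338) (nat_lit 326) (nat_lit 116)))))) (XT.nd (nat_lit 390) (nat_lit 684) (nat_lit 0) (XT.nd (nat_lit 156) (nat_lit 304) (nat_lit 0) (XT.nd (nat_lit 78) (nat_lit 380) (nat_lit 0) (XT.lf (nat_lit 0) (nat_lit 55434088854) (nat_lit 608) (nat_lit 62334833212) (nat_lit 76) (nat_lit 25947122585) (nat_lit 77) (nat_lit 5) (nat_lit 85) (nat_lit 5) (nat_lit 78) (nat_lit 5) (nat_lit 339) (nat_lit 326) (nat_lit 115)) (XT.lf (nat_lit 0) (nat_lit 7504993429) (nat_lit 380) (nat_lit 62038676984) (nat_lit 456)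 (nat_lit 78253064663) (nat_lit 72) (nat_lit 5) (nat_lit 77) (nat_lit 5) (nat_lit 78) (nat_lit 5) (nat_lit 340) (nat_lit 326) (nat_lit 114))) (XT.nd (nat_lit 78) (nat_lit 304) (nat_lit 0) (XT.lf (nat_lit 0) (nat_lit 83000724507) (nat_lit 380) (nat_lit 2413462810) (nat_lit 456) (nat_lit 66614500273) (nat_lit 72) (nat_lit 5) (nat_lit 77) (nat_lit 5) (nat_lit 78) (nat_lit 5) (nat_lit 341) (nat_lit 326) (nat_lit 113)) (XT.nd (nat_lit 78) (nat_lit 0) (nat_lit 0) (XT.lf (nat_lit 0) (nat_lit 5019671553) (nat_lit 304) (nat_lit 98076507213) (nat_lit 380) (nat_lit 53325161891) (nat_lit 68) (nat_lit 5) (nat_lit 72) (nat_lit 5) (nat_lit 73) (nat_lit 5) (nat_lit 342) (nat_lit 326) (nat_lit 112)) (XT.lf (nat_lit 0) (nat_lit 85125101106) (nat_lit 304) (nat_lit 37744919864) (nat_lit 380) (nat_lit 38103218194) (nat_lit 68) (nat_lit 5) (nat_lit 72) (nat_lit 5) (nat_lit 73) (nat_lit 5) (nat_lit 343) (nat_lit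 326) (nat_lit 111))))) (XT.nd (nat_lit 156) (nat_lit 380) (nat_lit 0) (XT.nd (nat_lit 78) (nat_lit 0) (nat_lit 0) (XT.lf (nat_lit 0) (nat_lit 3185064765) (nat_lit 304) (nat_lit 140896768398) (nat_lit 380) (nat_lit 21648435871) (nat_lit 64) (nat_lit 5) (nat_lit 68) (nat_lit 5) (nat_lit 69) (nat_lit 5) (nat_lit 344) (nat_lit 326) (nat_lit 110)) (XT.lf (nat_lit 0) (nat_lit 88163770391) (nat_lit 304) (nat_lit 80083596944) (nat_lit 380) (nat_lit 2383126806) (nat_lit 64) (nat_lit 5) (nat_lit 68) (nat_lit 5) (nat_lit 69) (nat_lit 5) (nat_lit 345) (nat_lit 326) (nat_lit 109))) (XT.nd (nat_lit 78) (nat_lit 0) (nat_lit 0) (XT.lf (nat_lit 0) (nat_lit 1381064721) (nat_lit 304) (nat_lit 15914602484) (nat_lit 380) (nat_lit 158465063446) (nat_lit 59) (nat_lit 5) (nat_lit 63) (nat_lit 5) (nat_lit 64) (nat_lit 5) (nat_lit 346) (nat_lit 326) (nat_lit 108)) (XT.nd (nat_lit 78) (nat_lit 0) (nat_lit 0) (XT.lf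 (nat_lit 0) (nat_lit 40101128495) (nat_lit 380) (nat_lit 89658995907) (nat_lit 76) (nat_lit 51274260660) (nat_lit 59) (nat_lit 5) (nat_lit 64) (nat_lit 5) (nat_lit 60) (nat_lit 5) (nat_lit 347) (nat_lit 326) (nat_lit 107)) (XT.lf (nat_lit 0) (nat_lit 64307594070) (nat_lit 380) (nat_lit 963384186) (nat_lit 76) (nat_lit 121287707636) (nat_lit 59) (nat_lit 5) (nat_lit 64) (nat_lit 5) (nat_lit 60) (nat_lit 5) (nat_lit 348) (nat_lit 326) (nat_lit 106))))))) (XT.nd (nat_lit 780) (nat_lit 456) (nat_lit 0) (XT.nd (nat_lit 390) (nat_lit 456) (nat_lit 0) (XT.nd (nat_lit 156) (nat_lit 532) (nat_lit 0) (XT.nd (nat_lit 78) (nat_lit 0) (nat_lit 0) (XT.lf (nat_lit 0) (nat_lit 91273294050) (nat_lit 380) (nat_lit 97133115196) (nat_lit 76) (nat_lit 3875347205) (nat_lit 55) (nat_lit 5) (nat_lit 60) (nat_lit 5) (nat_lit 56) (nat_lit 5) (nat_lit 349) (nat_lit 326) (nat_lit 105)) (XT.lf (nat_lit 0) (nat_lit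 120673725856) (nat_lit 380) (nat_lit 3260925373) (nat_lit 76) (nat_lit 74302007204) (nat_lit 55) (nat_lit 5) (nat_lit 60) (nat_lit 5) (nat_lit 56) (nat_lit 5) (nat_lit 350) (nat_lit 326) (nat_lit 104))) (XT.nd (nat_lit 78) (nat_lit 304) (nat_lit 0) (XT.lf (nat_lit 0) (nat_lit 98455894979) (nat_lit 228) (nat_lit 54625311904) (nat_lit 304) (nat_lit 51331247472) (nat_lit 52) (nat_lit 5) (nat_lit 55) (nat_lit 5) (nat_lit 56) (nat_lit 5) (nat_lit 351) (nat_lit 326) (nat_lit 103)) (XT.nd (nat_lit 78) (nat_lit 304) (nat_lit 0) (XT.lf (nat_lit 0) (nat_lit 187448415789) (nat_lit 304) (nat_lit 5806966466) (nat_lit 76) (nat_lit 17624690338) (nat_lit 52) (nat_lit 5) (nat_lit 56) (nat_lit 5) (nat_lit 53) (nat_lit 5) (nat_lit 352) (nat_lit 326) (nat_lit 102)) (XT.lf (nat_lit 0) (nat_lit 8199310829) (nat_lit 304) (nat_lit 115969372024) (nat_lit 76) (nat_lit 93371609893) (nat_lit 48) (nat_lit 5) (nat_lit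 52) (nat_lit 5) (nat_lit 49) (nat_lit 5) (nat_lit 353) (nat_lit 326) (nat_lit 101))))) (XT.nd (nat_lit 156) (nat_lit 228) (nat_lit 0) (XT.nd (nat_lit 78) (nat_lit 228) (nat_lit 0) (XT.lf (nat_lit 0) (nat_lit 40724192262) (nat_lit 304) (nat_lit 10395216433) (nat_lit 76) (nat_lit 173389917981) (nat_lit 48) (nat_lit 5) (nat_lit 52) (nat_lit 5) (nat_lit 49) (nat_lit 5) (nat_lit 354) (nat_lit 326) (nat_lit 100)) (XT.lf (nat_lit 0) (nat_lit 76921445918) (nat_lit 304) (nat_lit 128392723624) (nat_lit 76) (nat_lit 26410336530) (nat_lit 45) (nat_lit 5) (nat_lit 49) (nat_lit 5) (nat_lit 46) (nat_lit 5) (nat_lit 355) (nat_lit 326) (nat_lit 99))) (XT.nd (nat_lit 78) (nat_lit 228) (nat_lit 0) (XT.lf (nat_lit 0) (nat_lit 115945395237) (nat_lit 304) (nat_lit 17026694854) (nat_lit 76) (nat_lit 106277512864) (nat_lit 45) (nat_lit 5) (nat_lit 49) (nat_lit 5) (nat_lit 46) (nat_lit 5) (nat_lit 356) (nat_lit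 326) (nat_lit 98)) (XT.nd (nat_lit 78) (nat_lit 0) (nat_lit 0) (XT.lf (nat_lit 0) (nat_lit 103210862364) (nat_lit 228) (nat_lit 55320972214) (nat_lit 304) (nat_lit 88538555633) (nat_lit 42) (nat_lit 5) (nat_lit 45) (nat_lit 5) (nat_lit 46) (nat_lit 5) (nat_lit 357) (nat_lit 326) (nat_lit 97)) (XT.lf (nat_lit 0) (nat_lit 203949816175) (nat_lit 304) (nat_lit 25630521748) (nat_lit 76) (nat_lit 25666768045) (nat_lit 42) (nat_lit 5) (nat_lit 46) (nat_lit 5) (nat_lit 43) (nat_lit 5) (nat_lit 358) (nat_lit 326) (nat_lit 96)))))) (XT.nd (nat_lit 38298) (nat_lit 0) (nat_lit 4104) (XT.nd (nat_lit 156) (nat_lit 228) (nat_lit 0) (XT.nd (nat_lit 78) (nat_lit 76) (nat_lit 0) (XT.lf (nat_lit 0) (nat_lit 100830065594) (nat_lit 152) (nat_lit 153289661960) (nat_lit 228) (nat_lit 9588878565) (nat_lit 40) (nat_lit 5) (nat_lit 42) (nat_lit 5) (nat_lit 43) (nat_lit 5) (nat_lit 359) (nat_lit 326) (nat_lit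 95)) (XT.lf (nat_lit 0) (nat_lit 33551252747) (nat_lit 228) (nat_lit 38609273722) (nat_lit 76) (nat_lit 200383899600) (nat_lit 39) (nat_lit 5) (nat_lit 42) (nat_lit 5) (nat_lit 40) (nat_lit 5) (nat_lit 360) (nat_lit 326) (nat_lit 94))) (XT.nd (nat_lit 37986) (nat_lit 0) (nat_lit 4104) (XT.lf (nat_lit 0) (nat_lit 80235513911) (nat_lit 304) (nat_lit 187221745431) (nat_lit 76) (nat_lit 14271449439) (nat_lit 36) (nat_lit 5) (nat_lit 40) (nat_lit 5) (nat_lit 37) (nat_lit 5) (nat_lit 361) (nat_lit 326) (nat_lit 93)) (XT.nd (nat_lit 78) (nat_lit 0) (nat_lit 0) (XT.lf (nat_lit 0) (nat_lit 22414181815) (nat_lit 0) (nat_lit 22414181815) (nat_lit 684) (nat_lit 8897821141) (nat_lit 90) (nat_lit 5) (nat_lit 90) (nat_lit 3) (nat_lit 99) (nat_lit 3) (nat_lit 327) (nat_lit 327) (nat_lit 126)) (XT.lf (nat_lit 0) (nat_lit 91970496291) (nat_lit 684) (nat_lit 14007484272) (nat_lit 760) (nat_lit 4157069980)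 (nat_lit 90) (nat_lit 5) (nat_lit 99) (nat_lit 3) (nat_lit 100) (nat_lit 5) (nat_lit 328) (nat_lit 327) (nat_lit 125))))) (XT.nd (nat_lit 234) (nat_lit 0) (nat_lit 76) (XT.nd (nat_lit 78) (nat_lit 0) (nat_lit 0) (XT.lf (nat_lit 76) (nat_lit 37505182326) (nat_lit 0) (nat_lit 58214886957) (nat_lit 760) (nat_lit 17165791220) (nat_lit 91) (nat_lit 5) (nat_lit 90) (nat_lit 5) (nat_lit 100) (nat_lit 5) (nat_lit 329) (nat_lit 327) (nat_lit 124)) (XT.nd (nat_lit 78) (nat_lit 0) (nat_lit 76) (XT.lf (nat_lit 76) (nat_lit 92079603565) (nat_lit 0) (nat_lit 7814417295) (nat_lit 760) (nat_lit 15868345756) (nat_lit 91) (nat_lit 5) (nat_lit 90) (nat_lit 5) (nat_lit 100) (nat_lit 5) (nat_lit 330) (nat_lit 327) (nat_lit 123)) (XT.lf (nat_lit 76) (nat_lit 30884103695) (nat_lit 0) (nat_lit 74578679841) (nat_lit 760) (nat_lit 13260609443) (nat_lit 92) (nat_lit 5) (nat_lit 91) (nat_lit 5) (nat_lit 101) (nat_lit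 5) (nat_lit 331) (nat_lit 327) (nat_lit 122)))) (XT.nd (nat_lit 78) (nat_lit 0) (nat_lit 76) (XT.lf (nat_lit 76) (nat_lit 88868991986) (nat_lit 0) (nat_lit 22967815821) (nat_lit 760) (nat_lit 9969322273) (nat_lit 92) (nat_lit 5) (nat_lit 91) (nat_lit 5) (nat_lit 101) (nat_lit 5) (nat_lit 332) (nat_lit 327) (nat_lit 121)) (XT.nd (nat_lit 78) (nat_lit 0) (nat_lit 0) (XT.lf (nat_lit 76) (nat_lit 25023336089) (nat_lit 0) (nat_lit 94384090332) (nat_lit 760) (nat_lit 5591683522) (nat_lit 93) (nat_lit 5) (nat_lit 92) (nat_lit 5) (nat_lit 102) (nat_lit 5) (nat_lit 333) (nat_lit 327) (nat_lit 120)) (XT.lf (nat_lit 76) (nat_lit 86636169363) (nat_lit 0) (nat_lit 41648392793) (nat_lit 760) (nat_lit 20777868) (nat_lit 93) (nat_lit 5) (nat_lit 92) (nat_lit 5) (nat_lit 102) (nat_lit 5) (nat_lit 334) (nat_lit 327) (nat_lit 119))))))))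
noncomputable def xc248 : XT := (XT.nd (nat_lit 1560) (nat_lit 608) (nat_lit 0) (XT.nd (nat_lit 780) (nat_lit 1520) (nat_lit 0) (XT.nd (nat_lit 390) (nat_lit 684) (nat_lit 0) (XT.nd (nat_lit 156) (nat_lit 456) (nat_lit 0) (XT.nd (nat_lit 78) (nat_lit 0) (nat_lit 0) (XT.lf (nat_lit 0) (nat_lit 6176664795) (nat_lit 760) (nat_lit 111872508779) (nat_lit 836) (nat_lit 13696431144) (nat_lit 83) (nat_lit 5) (nat_lit 93) (nat_lit 5) (nat_lit 94) (nat_lit 5) (nat_lit 335) (nat_lit 327) (nat_lit 118)) (XT.lf (nat_lit 0) (nat_lit 14083047667) (nat_lit 760) (nat_lit 50078339809) (nat_lit 836) (nat_lit 71126490285) (nat_lit 83) (nat_lit 5) (nat_lit 93) (nat_lit 5) (nat_lit 94) (nat_lit 5) (nat_lit 336) (nat_lit 327) (nat_lit 117))) (XT.nd (nat_lit 78) (nat_lit 456) (nat_lit 0) (XT.lf (nat_lit 76) (nat_lit 15294871766) (nat_lit 0) (nat_lit 7328435247) (nat_lit 836) (nat_lit 116372030018) (nat_lit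 84) (nat_lit 5) (nat_lit 83) (nat_lit 5) (nat_lit 94) (nat_lit 5) (nat_lit 337) (nat_lit 327) (nat_lit 116)) (XT.nd (nat_lit 78) (nat_lit 532) (nat_lit 0) (XT.lf (nat_lit 0) (nat_lit 33269624273) (nat_lit 760) (nat_lit 58001793610) (nat_lit 76) (nat_lit 51532799555) (nat_lit 84) (nat_lit 5) (nat_lit 94) (nat_lit 5) (nat_lit 85) (nat_lit 5) (nat_lit 338) (nat_lit 327) (nat_lit 115)) (XT.lf (nat_lit 0) (nat_lit 11220606083) (nat_lit 532) (nat_lit 33522756042) (nat_lit 608) (nat_lit 102045424904) (nat_lit 77) (nat_lit 5) (nat_lit 84) (nat_lit 5) (nat_lit 85) (nat_lit 5) (nat_lit 339) (nat_lit 327) (nat_lit 114))))) (XT.nd (nat_lit 156) (nat_lit 304) (nat_lit 0) (XT.nd (nat_lit 78) (nat_lit 380) (nat_lit 0) (XT.lf (nat_lit 0) (nat_lit 58212282612) (nat_lit 608) (nat_lit 65445276686) (nat_lit 76) (nat_lit 27243951395) (nat_lit 77) (nat_lit 5) (nat_lit 85) (nat_lit 5) (nat_lit 78) (nat_lit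 5) (nat_lit 340) (nat_lit 327) (nat_lit 113)) (XT.lf (nat_lit 0) (nat_lit 7886439703) (nat_lit 380) (nat_lit 65140691277) (nat_lit 456) (nat_lit 82159115830) (nat_lit 72) (nat_lit 5) (nat_lit 77) (nat_lit 5) (nat_lit 78) (nat_lit 5) (nat_lit 341) (nat_lit 327) (nat_lit 112))) (XT.nd (nat_lit 78) (nat_lit 304) (nat_lit 0) (XT.lf (nat_lit 0) (nat_lit 87156662258) (nat_lit 380) (nat_lit 2534212564) (nat_lit 456) (nat_lit 69938937605) (nat_lit 72) (nat_lit 5) (nat_lit 77) (nat_lit 5) (nat_lit 78) (nat_lit 5) (nat_lit 342) (nat_lit 327) (nat_lit 111)) (XT.nd (nat_lit 78) (nat_lit 0) (nat_lit 0) (XT.lf (nat_lit 0) (nat_lit 5276767197) (nat_lit 304) (nat_lit 102980008261) (nat_lit 380) (nat_lit 55985332716) (nat_lit 68) (nat_lit 5) (nat_lit 72) (nat_lit 5) (nat_lit 73) (nat_lit 5) (nat_lit 343) (nat_lit 327) (nat_lit 110)) (XT.lf (nat_lit 0) (nat_lit 89387177178) (nat_lit 304) (nat_lit 39631856988)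 (nat_lit 380) (nat_lit 40002581704) (nat_lit 68) (nat_lit 5) (nat_lit 72) (nat_lit 5) (nat_lit 73) (nat_lit 5) (nat_lit 344) (nat_lit 327) (nat_lit 109)))))) (XT.nd (nat_lit 390) (nat_lit 836) (nat_lit 0) (XT.nd (nat_lit 156) (nat_lit 380) (nat_lit 0) (XT.nd (nat_lit 78) (nat_lit 0) (nat_lit 0) (XT.lf (nat_lit 0) (nat_lit 3350321040) (nat_lit 304) (nat_lit 147940951761) (nat_lit 380) (nat_lit 22725233098) (nat_lit 64) (nat_lit 5) (nat_lit 68) (nat_lit 5) (nat_lit 69) (nat_lit 5) (nat_lit 345) (nat_lit 327) (nat_lit 108)) (XT.lf (nat_lit 0) (nat_lit 92577676089) (nat_lit 304) (nat_lit 84087152927) (nat_lit 380) (nat_lit 2496926416) (nat_lit 64) (nat_lit 5) (nat_lit 68) (nat_lit 5) (nat_lit 69) (nat_lit 5) (nat_lit 346) (nat_lit 327) (nat_lit 107))) (XT.nd (nat_lit 78) (nat_lit 0) (nat_lit 0) (XT.lf (nat_lit 0) (nat_lit 1455919804) (nat_lit 304) (nat_lit 16709559707) (nat_lit 380) (nat_lit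 166383028289) (nat_lit 59) (nat_lit 5) (nat_lit 63) (nat_lit 5) (nat_lit 64) (nat_lit 5) (nat_lit 347) (nat_lit 327) (nat_lit 106)) (XT.nd (nat_lit 78) (nat_lit 0) (nat_lit 0) (XT.lf (nat_lit 0) (nat_lit 42110985885) (nat_lit 380) (nat_lit 94136184594) (nat_lit 76) (nat_lit 53838686230) (nat_lit 59) (nat_lit 5) (nat_lit 64) (nat_lit 5) (nat_lit 60) (nat_lit 5) (nat_lit 348) (nat_lit 327) (nat_lit 105)) (XT.lf (nat_lit 0) (nat_lit 67527546120) (nat_lit 380) (nat_lit 1006066626) (nat_lit 76) (nat_lit 127352771625) (nat_lit 59) (nat_lit 5) (nat_lit 64) (nat_lit 5) (nat_lit 60) (nat_lit 5) (nat_lit 349) (nat_lit 327) (nat_lit 104))))) (XT.nd (nat_lit 156) (nat_lit 532) (nat_lit 0) (XT.nd (nat_lit 78) (nat_lit 0) (nat_lit 0) (XT.lf (nat_lit 0) (nat_lit 95841412630) (nat_lit 380) (nat_lit 101984158861) (nat_lit 76) (nat_lit 4070043235) (nat_lit 55) (nat_lit 5) (nat_lit 60) (nat_lit 5) (nat_lit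 56) (nat_lit 5) (nat_lit 350) (nat_lit 327) (nat_lit 103)) (XT.lf (nat_lit 0) (nat_lit 126711653937) (nat_lit 380) (nat_lit 3418626788) (nat_lit 76) (nat_lit 78017992011) (nat_lit 55) (nat_lit 5) (nat_lit 60) (nat_lit 5) (nat_lit 56) (nat_lit 5) (nat_lit 351) (nat_lit 327) (nat_lit 102))) (XT.nd (nat_lit 78) (nat_lit 304) (nat_lit 0) (XT.lf (nat_lit 0) (nat_lit 103383948373) (nat_lit 228) (nat_lit 57355440754) (nat_lit 304) (nat_lit 53893475632) (nat_lit 52) (nat_lit 5) (nat_lit 55) (nat_lit 5) (nat_lit 56) (nat_lit 5) (nat_lit 352) (nat_lit 327) (nat_lit 101)) (XT.nd (nat_lit 78) (nat_lit 304) (nat_lit 0) (XT.lf (nat_lit 0) (nat_lit 196824779100) (nat_lit 304) (nat_lit 6092121255) (nat_lit 76) (nat_lit 18506972819) (nat_lit 52) (nat_lit 5) (nat_lit 56) (nat_lit 5) (nat_lit 53) (nat_lit 5) (nat_lit 353) (nat_lit 327) (nat_lit 100)) (XT.lf (nat_lit 0) (nat_lit 8613179252) (nat_lit 304)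 (nat_lit 121762596439) (nat_lit 76) (nat_lit 98041331176) (nat_lit 48) (nat_lit 5) (nat_lit 52) (nat_lit 5) (nat_lit 49) (nat_lit 5) (nat_lit 354) (nat_lit 327) (nat_lit 99))))))) (XT.nd (nat_lit 38844) (nat_lit 0) (nat_lit 2812) (XT.nd (nat_lit 390) (nat_lit 152) (nat_lit 0) (XT.nd (nat_lit 156) (nat_lit 228) (nat_lit 0) (XT.nd (nat_lit 78) (nat_lit 228) (nat_lit 0) (XT.lf (nat_lit 0) (nat_lit 42764118906) (nat_lit 304) (nat_lit 10909982792) (nat_lit 76) (nat_lit 182060500346) (nat_lit 48) (nat_lit 5) (nat_lit 52) (nat_lit 5) (nat_lit 49) (nat_lit 5) (nat_lit 355) (nat_lit 327) (nat_lit 98)) (XT.lf (nat_lit 0) (nat_lit 80771155214) (nat_lit 304) (nat_lit 134807280442) (nat_lit 76) (nat_lit 27732108998) (nat_lit 45) (nat_lit 5) (nat_lit 49) (nat_lit 5) (nat_lit 46) (nat_lit 5) (nat_lit 356) (nat_lit 327) (nat_lit 97))) (XT.nd (nat_lit 78) (nat_lit 228) (nat_lit 0) (XT.lf (nat_lit 0)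 (nat_lit 121746128809) (nat_lit 304) (nat_lit 17873192107) (nat_lit 76) (nat_lit 111592584356) (nat_lit 45) (nat_lit 5) (nat_lit 49) (nat_lit 5) (nat_lit 46) (nat_lit 5) (nat_lit 357) (nat_lit 327) (nat_lit 96)) (XT.nd (nat_lit 78) (nat_lit 0) (nat_lit 0) (XT.lf (nat_lit 0) (nat_lit 108376164948) (nat_lit 228) (nat_lit 58085634534) (nat_lit 304) (nat_lit 92961937162) (nat_lit 42) (nat_lit 5) (nat_lit 45) (nat_lit 5) (nat_lit 46) (nat_lit 5) (nat_lit 358) (nat_lit 327) (nat_lit 95)) (XT.lf (nat_lit 0) (nat_lit 214150540145) (nat_lit 304) (nat_lit 26907370788) (nat_lit 76) (nat_lit 26951384467) (nat_lit 42) (nat_lit 5) (nat_lit 46) (nat_lit 5) (nat_lit 43) (nat_lit 5) (nat_lit 359) (nat_lit 327) (nat_lit 94))))) (XT.nd (nat_lit 38220) (nat_lit 0) (nat_lit 3800) (XT.nd (nat_lit 38142) (nat_lit 0) (nat_lit 3800) (XT.lf (nat_lit 0) (nat_lit 105876170485) (nat_lit 152) (nat_lit 160952694493)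 (nat_lit 228) (nat_lit 10065009888) (nat_lit 40) (nat_lit 5) (nat_lit 42) (nat_lit 5) (nat_lit 43) (nat_lit 5) (nat_lit 360) (nat_lit 327) (nat_lit 93)) (XT.lf (nat_lit 0) (nat_lit 23537500188) (nat_lit 0) (nat_lit 23537500188) (nat_lit 684) (nat_lit 9337222176) (nat_lit 90) (nat_lit 5) (nat_lit 90) (nat_lit 3) (nat_lit 99) (nat_lit 3) (nat_lit 328) (nat_lit 328) (nat_lit 124))) (XT.nd (nat_lit 78) (nat_lit 0) (nat_lit 0) (XT.lf (nat_lit 0) (nat_lit 96578883634) (nat_lit 684) (nat_lit 14702293766) (nat_lit 760) (nat_lit 4360112490) (nat_lit 90) (nat_lit 5) (nat_lit 99) (nat_lit 3) (nat_lit 100) (nat_lit 5) (nat_lit 329) (nat_lit 328) (nat_lit 123)) (XT.nd (nat_lit 78) (nat_lit 0) (nat_lit 0) (XT.lf (nat_lit 76) (nat_lit 39385916408) (nat_lit 0) (nat_lit 61129634702) (nat_lit 760) (nat_lit 18014109401) (nat_lit 91) (nat_lit 5) (nat_lit 90) (nat_lit 5) (nat_lit 100) (nat_lit 5) (nat_lit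 330) (nat_lit 328) (nat_lit 122)) (XT.lf (nat_lit 76) (nat_lit 96688797997) (nat_lit 0) (nat_lit 8208950920) (nat_lit 760) (nat_lit 16652266490) (nat_lit 91) (nat_lit 5) (nat_lit 90) (nat_lit 5) (nat_lit 100) (nat_lit 5) (nat_lit 331) (nat_lit 328) (nat_lit 121)))))) (XT.nd (nat_lit 390) (nat_lit 456) (nat_lit 0) (XT.nd (nat_lit 156) (nat_lit 608) (nat_lit 0) (XT.nd (nat_lit 78) (nat_lit 0) (nat_lit 0) (XT.lf (nat_lit 76) (nat_lit 32433959567) (nat_lit 0) (nat_lit 78310591831) (nat_lit 760) (nat_lit 13914562473) (nat_lit 92) (nat_lit 5) (nat_lit 91) (nat_lit 5) (nat_lit 101) (nat_lit 5) (nat_lit 332) (nat_lit 328) (nat_lit 120)) (XT.lf (nat_lit 76) (nat_lit 93317823192) (nat_lit 0) (nat_lit 24119042800) (nat_lit 760) (nat_lit 10459143204) (nat_lit 92) (nat_lit 5) (nat_lit 91) (nat_lit 5) (nat_lit 101) (nat_lit 5) (nat_lit 333) (nat_lit 328) (nat_lit 119))) (XT.nd (nat_lit 78) (nat_lit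 684) (nat_lit 0) (XT.lf (nat_lit 76) (nat_lit 26280261762) (nat_lit 0) (nat_lit 99105410191) (nat_lit 760) (nat_lit 5862984063) (nat_lit 93) (nat_lit 5) (nat_lit 92) (nat_lit 5) (nat_lit 102) (nat_lit 5) (nat_lit 334) (nat_lit 328) (nat_lit 118)) (XT.nd (nat_lit 78) (nat_lit 684) (nat_lit 0) (XT.lf (nat_lit 76) (nat_lit 90973462468) (nat_lit 0) (nat_lit 43732827045) (nat_lit 760) (nat_lit 13927586) (nat_lit 93) (nat_lit 5) (nat_lit 92) (nat_lit 5) (nat_lit 102) (nat_lit 5) (nat_lit 335) (nat_lit 328) (nat_lit 117)) (XT.lf (nat_lit 0) (nat_lit 6492832819) (nat_lit 760) (nat_lit 117460067364) (nat_lit 836) (nat_lit 14379604458) (nat_lit 83) (nat_lit 5) (nat_lit 93) (nat_lit 5) (nat_lit 94) (nat_lit 5) (nat_lit 336) (nat_lit 328) (nat_lit 116))))) (XT.nd (nat_lit 156) (nat_lit 456) (nat_lit 0) (XT.nd (nat_lit 78) (nat_lit 0) (nat_lit 0) (XT.lf (nat_lit 0) (nat_lit 14794185560) (nat_lit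 760) (nat_lit 52576478844) (nat_lit 836) (nat_lit 74681245043) (nat_lit 83) (nat_lit 5) (nat_lit 93) (nat_lit 5) (nat_lit 94) (nat_lit 5) (nat_lit 337) (nat_lit 328) (nat_lit 115)) (XT.lf (nat_lit 76) (nat_lit 16065300117) (nat_lit 0) (nat_lit 7695913867) (nat_lit 836) (nat_lit 122183540506) (nat_lit 84) (nat_lit 5) (nat_lit 83) (nat_lit 5) (nat_lit 94) (nat_lit 5) (nat_lit 338) (nat_lit 328) (nat_lit 114))) (XT.nd (nat_lit 78) (nat_lit 532) (nat_lit 0) (XT.lf (nat_lit 0) (nat_lit 34939510363) (nat_lit 760) (nat_lit 60896120761) (nat_lit 76) (nat_lit 54108465216) (nat_lit 84) (nat_lit 5) (nat_lit 94) (nat_lit 5) (nat_lit 85) (nat_lit 5) (nat_lit 339) (nat_lit 328) (nat_lit 113)) (XT.nd (nat_lit 78) (nat_lit 0) (nat_lit 0) (XT.lf (nat_lit 0) (nat_lit 11787305972) (nat_lit 532) (nat_lit 35199412659) (nat_lit 608) (nat_lit 107141187161) (nat_lit 77) (nat_lit 5) (nat_lit 84) (nat_lit 5)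 (nat_lit 85) (nat_lit 5) (nat_lit 340) (nat_lit 328) (nat_lit 112)) (XT.lf (nat_lit 0) (nat_lit 61128782743) (nat_lit 608) (nat_lit 68711827880) (nat_lit 76) (nat_lit 28605670669) (nat_lit 77) (nat_lit 5) (nat_lit 85) (nat_lit 5) (nat_lit 78) (nat_lit 5) (nat_lit 341) (nat_lit 328) (nat_lit 111))))))))
noncomputable def xc249 : XT := (XT.nd (nat_lit 39780) (nat_lit 0) (nat_lit 1292) (XT.nd (nat_lit 780) (nat_lit 988) (nat_lit 0) (XT.nd (nat_lit 390) (nat_lit 684) (nat_lit 0) (XT.nd (nat_lit 156) (nat_lit 608) (nat_lit 0) (XT.nd (nat_lit 78) (nat_lit 0) (nat_lit 0) (XT.lf (nat_lit 0) (nat_lit 8286382190) (nat_lit 380) (nat_lit 68397798806) (nat_lit 456) (nat_lit 86261083353) (nat_lit 72) (nat_lit 5) (nat_lit 77) (nat_lit 5) (nat_lit 78) (nat_lit 5) (nat_lit 342) (nat_lit 328) (nat_lit 110)) (XT.lf (nat_lit 0) (nat_lit 91519848230) (nat_lit 380) (nat_lit 2660992683) (nat_lit 456) (nat_lit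 73430181372) (nat_lit 72) (nat_lit 5) (nat_lit 77) (nat_lit 5) (nat_lit 78) (nat_lit 5) (nat_lit 343) (nat_lit 328) (nat_lit 109))) (XT.nd (nat_lit 78) (nat_lit 304) (nat_lit 0) (XT.lf (nat_lit 0) (nat_lit 5546149382) (nat_lit 304) (nat_lit 108128714512) (nat_lit 380) (nat_lit 58779078018) (nat_lit 68) (nat_lit 5) (nat_lit 72) (nat_lit 5) (nat_lit 73) (nat_lit 5) (nat_lit 344) (nat_lit 328) (nat_lit 108)) (XT.nd (nat_lit 78) (nat_lit 304) (nat_lit 0) (XT.lf (nat_lit 0) (nat_lit 93861815870) (nat_lit 304) (nat_lit 41613169684) (nat_lit 380) (nat_lit 41997452376) (nat_lit 68) (nat_lit 5) (nat_lit 72) (nat_lit 5) (nat_lit 73) (nat_lit 5) (nat_lit 345) (nat_lit 328) (nat_lit 107)) (XT.lf (nat_lit 0) (nat_lit 3523282023) (nat_lit 304) (nat_lit 155337405193) (nat_lit 380) (nat_lit 23856393106) (nat_lit 64) (nat_lit 5) (nat_lit 68) (nat_lit 5) (nat_lit 69) (nat_lit 5) (nat_lit 346) (nat_lit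 328) (nat_lit 106))))) (XT.nd (nat_lit 156) (nat_lit 304) (nat_lit 0) (XT.nd (nat_lit 78) (nat_lit 380) (nat_lit 0) (XT.lf (nat_lit 0) (nat_lit 97211745542) (nat_lit 304) (nat_lit 88290944711) (nat_lit 380) (nat_lit 2616914025) (nat_lit 64) (nat_lit 5) (nat_lit 68) (nat_lit 5) (nat_lit 69) (nat_lit 5) (nat_lit 347) (nat_lit 328) (nat_lit 105)) (XT.lf (nat_lit 0) (nat_lit 1533978241) (nat_lit 304) (nat_lit 17544336648) (nat_lit 380) (nat_lit 174697383033) (nat_lit 59) (nat_lit 5) (nat_lit 63) (nat_lit 5) (nat_lit 64) (nat_lit 5) (nat_lit 348) (nat_lit 328) (nat_lit 104))) (XT.nd (nat_lit 78) (nat_lit 304) (nat_lit 0) (XT.lf (nat_lit 0) (nat_lit 44220889796) (nat_lit 380) (nat_lit 98837768329) (nat_lit 76) (nat_lit 56531266834) (nat_lit 59) (nat_lit 5) (nat_lit 64) (nat_lit 5) (nat_lit 60) (nat_lit 5) (nat_lit 349) (nat_lit 328) (nat_lit 103)) (XT.nd (nat_lit 78) (nat_lit 304) (nat_lit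 0) (XT.lf (nat_lit 0) (nat_lit 70908070680) (nat_lit 380) (nat_lit 1051393295) (nat_lit 76) (nat_lit 133721025722) (nat_lit 59) (nat_lit 5) (nat_lit 64) (nat_lit 5) (nat_lit 60) (nat_lit 5) (nat_lit 350) (nat_lit 328) (nat_lit 102)) (XT.lf (nat_lit 0) (nat_lit 100637523060) (nat_lit 380) (nat_lit 107078276468) (nat_lit 76) (nat_lit 4274387726) (nat_lit 55) (nat_lit 5) (nat_lit 60) (nat_lit 5) (nat_lit 56) (nat_lit 5) (nat_lit 351) (nat_lit 328) (nat_lit 101)))))) (XT.nd (nat_lit 390) (nat_lit 456) (nat_lit 0) (XT.nd (nat_lit 156) (nat_lit 304) (nat_lit 0) (XT.nd (nat_lit 78) (nat_lit 228) (nat_lit 0) (XT.lf (nat_lit 0) (nat_lit 133051084061) (nat_lit 380) (nat_lit 3584710189) (nat_lit 76) (nat_lit 81919693830) (nat_lit 55) (nat_lit 5) (nat_lit 60) (nat_lit 5) (nat_lit 56) (nat_lit 5) (nat_lit 352) (nat_lit 328) (nat_lit 100)) (XT.lf (nat_lit 0) (nat_lit 108557915538) (nat_lit 228) (nat_lit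 60222181730) (nat_lit 304) (nat_lit 56584218154) (nat_lit 52) (nat_lit 5) (nat_lit 55) (nat_lit 5) (nat_lit 56) (nat_lit 5) (nat_lit 353) (nat_lit 328) (nat_lit 99))) (XT.nd (nat_lit 78) (nat_lit 304) (nat_lit 0) (XT.lf (nat_lit 0) (nat_lit 206669594039) (nat_lit 304) (nat_lit 6392016629) (nat_lit 76) (nat_lit 19433271994) (nat_lit 52) (nat_lit 5) (nat_lit 56) (nat_lit 5) (nat_lit 53) (nat_lit 5) (nat_lit 354) (nat_lit 328) (nat_lit 98)) (XT.nd (nat_lit 78) (nat_lit 0) (nat_lit 0) (XT.lf (nat_lit 0) (nat_lit 9047378243) (nat_lit 304) (nat_lit 127845969630) (nat_lit 76) (nat_lit 102944432464) (nat_lit 48) (nat_lit 5) (nat_lit 52) (nat_lit 5) (nat_lit 49) (nat_lit 5) (nat_lit 355) (nat_lit 328) (nat_lit 97)) (XT.lf (nat_lit 0) (nat_lit 44905696307) (nat_lit 304) (nat_lit 11450951807) (nat_lit 76) (nat_lit 191164510819) (nat_lit 48) (nat_lit 5) (nat_lit 52) (nat_lit 5) (nat_lit 49) (nat_lit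 5) (nat_lit 356) (nat_lit 328) (nat_lit 96))))) (XT.nd (nat_lit 156) (nat_lit 228) (nat_lit 0) (XT.nd (nat_lit 78) (nat_lit 0) (nat_lit 0) (XT.lf (nat_lit 0) (nat_lit 84813011842) (nat_lit 304) (nat_lit 141543037331) (nat_lit 76) (nat_lit 29119853351) (nat_lit 45) (nat_lit 5) (nat_lit 49) (nat_lit 5) (nat_lit 46) (nat_lit 5) (nat_lit 357) (nat_lit 328) (nat_lit 95)) (XT.lf (nat_lit 0) (nat_lit 127836577027) (nat_lit 304) (nat_lit 18762463967) (nat_lit 76) (nat_lit 117173298244) (nat_lit 45) (nat_lit 5) (nat_lit 49) (nat_lit 5) (nat_lit 46) (nat_lit 5) (nat_lit 358) (nat_lit 328) (nat_lit 94))) (XT.nd (nat_lit 38298) (nat_lit 0) (nat_lit 3648) (XT.lf (nat_lit 0) (nat_lit 113799290171) (nat_lit 228) (nat_lit 60988658855) (nat_lit 304) (nat_lit 97606817463) (nat_lit 42) (nat_lit 5) (nat_lit 45) (nat_lit 5) (nat_lit 46) (nat_lit 5) (nat_lit 359) (nat_lit 328) (nat_lit 93)) (XT.nd (nat_lit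 78) (nat_lit 0) (nat_lit 0) (XT.lf (nat_lit 0) (nat_lit 24716741894) (nat_lit 0) (nat_lit 24716741894) (nat_lit 684) (nat_lit 9799103673) (nat_lit 90) (nat_lit 5) (nat_lit 90) (nat_lit 3) (nat_lit 99) (nat_lit 3) (nat_lit 329) (nat_lit 329) (nat_lit 122)) (XT.lf (nat_lit 0) (nat_lit 101416773419) (nat_lit 684) (nat_lit 15432361090) (nat_lit 760) (nat_lit 4573754406) (nat_lit 90) (nat_lit 5) (nat_lit 99) (nat_lit 3) (nat_lit 100) (nat_lit 5) (nat_lit 330) (nat_lit 329) (nat_lit 121))))))) (XT.nd (nat_lit 780) (nat_lit 1824) (nat_lit 0) (XT.nd (nat_lit 390) (nat_lit 532) (nat_lit 0) (XT.nd (nat_lit 156) (nat_lit 0) (nat_lit 76) (XT.nd (nat_lit 78) (nat_lit 0) (nat_lit 0) (XT.lf (nat_lit 76) (nat_lit 41360178183) (nat_lit 0) (nat_lit 64189747637) (nat_lit 760) (nat_lit 18905770535) (nat_lit 91) (nat_lit 5) (nat_lit 90) (nat_lit 5) (nat_lit 100) (nat_lit 5) (nat_lit 331) (nat_lit 329) (nat_lit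 120)) (XT.lf (nat_lit 76) (nat_lit 101527967378) (nat_lit 0) (nat_lit 8622856751) (nat_lit 760) (nat_lit 17476266161) (nat_lit 91) (nat_lit 5) (nat_lit 90) (nat_lit 5) (nat_lit 100) (nat_lit 5) (nat_lit 332) (nat_lit 329) (nat_lit 119))) (XT.nd (nat_lit 78) (nat_lit 0) (nat_lit 0) (XT.lf (nat_lit 76) (nat_lit 34060782885) (nat_lit 0) (nat_lit 82228822554) (nat_lit 760) (nat_lit 14602057089) (nat_lit 92) (nat_lit 5) (nat_lit 91) (nat_lit 5) (nat_lit 101) (nat_lit 5) (nat_lit 333) (nat_lit 329) (nat_lit 118)) (XT.nd (nat_lit 78) (nat_lit 0) (nat_lit 76) (XT.lf (nat_lit 76) (nat_lit 97988595628) (nat_lit 0) (nat_lit 25327567447) (nat_lit 760) (nat_lit 10974258928) (nat_lit 92) (nat_lit 5) (nat_lit 91) (nat_lit 5) (nat_lit 101) (nat_lit 5) (nat_lit 334) (nat_lit 329) (nat_lit 117)) (XT.lf (nat_lit 76) (nat_lit 27599498313) (nat_lit 0) (nat_lit 104062599380) (nat_lit 760) (nat_lit 6148619765)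 (nat_lit 93) (nat_lit 5) (nat_lit 92) (nat_lit 5) (nat_lit 102) (nat_lit 5) (nat_lit 335) (nat_lit 329) (nat_lit 116))))) (XT.nd (nat_lit 156) (nat_lit 0) (nat_lit 0) (XT.nd (nat_lit 78) (nat_lit 684) (nat_lit 0) (XT.lf (nat_lit 76) (nat_lit 95527110318) (nat_lit 0) (nat_lit 45921295710) (nat_lit 760) (nat_lit 7468250) (nat_lit 93) (nat_lit 5) (nat_lit 92) (nat_lit 5) (nat_lit 102) (nat_lit 5) (nat_lit 336) (nat_lit 329) (nat_lit 115)) (XT.lf (nat_lit 0) (nat_lit 6824127326) (nat_lit 760) (nat_lit 123327567918) (nat_lit 836) (nat_lit 15097089675) (nat_lit 83) (nat_lit 5) (nat_lit 93) (nat_lit 5) (nat_lit 94) (nat_lit 5) (nat_lit 337) (nat_lit 329) (nat_lit 114))) (XT.nd (nat_lit 78) (nat_lit 0) (nat_lit 0) (XT.lf (nat_lit 0) (nat_lit 15540230900) (nat_lit 760) (nat_lit 55200062010) (nat_lit 836) (nat_lit 78413883480) (nat_lit 83) (nat_lit 5) (nat_lit 93) (nat_lit 5) (nat_lit 94) (nat_lit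 5) (nat_lit 338) (nat_lit 329) (nat_lit 113)) (XT.nd (nat_lit 78) (nat_lit 0) (nat_lit 76) (XT.lf (nat_lit 76) (nat_lit 16873721371) (nat_lit 0) (nat_lit 8081668162) (nat_lit 836) (nat_lit 128286285773) (nat_lit 84) (nat_lit 5) (nat_lit 83) (nat_lit 5) (nat_lit 94) (nat_lit 5) (nat_lit 339) (nat_lit 329) (nat_lit 112)) (XT.lf (nat_lit 0) (nat_lit 36692295293) (nat_lit 760) (nat_lit 63935700015) (nat_lit 76) (nat_lit 56813004744) (nat_lit 84) (nat_lit 5) (nat_lit 94) (nat_lit 5) (nat_lit 85) (nat_lit 5) (nat_lit 340) (nat_lit 329) (nat_lit 111)))))) (XT.nd (nat_lit 390) (nat_lit 684) (nat_lit 0) (XT.nd (nat_lit 156) (nat_lit 684) (nat_lit 0) (XT.nd (nat_lit 78) (nat_lit 0) (nat_lit 0) (XT.lf (nat_lit 0) (nat_lit 12381813752) (nat_lit 532) (nat_lit 36959853873) (nat_lit 608) (nat_lit 112492342676) (nat_lit 77) (nat_lit 5) (nat_lit 84) (nat_lit 5) (nat_lit 85) (nat_lit 5) (nat_lit 341)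 (nat_lit 329) (nat_lit 110)) (XT.lf (nat_lit 0) (nat_lit 64190560656) (nat_lit 608) (nat_lit 72142237741) (nat_lit 76) (nat_lit 30035520375) (nat_lit 77) (nat_lit 5) (nat_lit 85) (nat_lit 5) (nat_lit 78) (nat_lit 5) (nat_lit 342) (nat_lit 329) (nat_lit 109))) (XT.nd (nat_lit 78) (nat_lit 304) (nat_lit 0) (XT.lf (nat_lit 0) (nat_lit 8705799259) (nat_lit 380) (nat_lit 71817754928) (nat_lit 456) (nat_lit 90568705985) (nat_lit 72) (nat_lit 5) (nat_lit 77) (nat_lit 5) (nat_lit 78) (nat_lit 5) (nat_lit 343) (nat_lit 329) (nat_lit 108)) (XT.nd (nat_lit 78) (nat_lit 304) (nat_lit 0) (XT.lf (nat_lit 0) (nat_lit 96100695841) (nat_lit 380) (nat_lit 2794105347) (nat_lit 456) (nat_lit 77096517549) (nat_lit 72) (nat_lit 5) (nat_lit 77) (nat_lit 5) (nat_lit 78) (nat_lit 5) (nat_lit 344) (nat_lit 329) (nat_lit 107)) (XT.lf (nat_lit 0) (nat_lit 5828485263) (nat_lit 304) (nat_lit 113534883425) (nat_lit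 380) (nat_lit 61713023907) (nat_lit 68) (nat_lit 5) (nat_lit 72) (nat_lit 5) (nat_lit 73) (nat_lit 5) (nat_lit 345) (nat_lit 329) (nat_lit 106))))) (XT.nd (nat_lit 156) (nat_lit 380) (nat_lit 0) (XT.nd (nat_lit 78) (nat_lit 304) (nat_lit 0) (XT.lf (nat_lit 0) (nat_lit 98559695627) (nat_lit 304) (nat_lit 43693574060) (nat_lit 380) (nat_lit 44092555460) (nat_lit 68) (nat_lit 5) (nat_lit 72) (nat_lit 5) (nat_lit 73) (nat_lit 5) (nat_lit 346) (nat_lit 329) (nat_lit 105)) (XT.lf (nat_lit 0) (nat_lit 3704384838) (nat_lit 304) (nat_lit 163103736536) (nat_lit 380) (nat_lit 25044585417) (nat_lit 64) (nat_lit 5) (nat_lit 68) (nat_lit 5) (nat_lit 69) (nat_lit 5) (nat_lit 347) (nat_lit 329) (nat_lit 104))) (XT.nd (nat_lit 78) (nat_lit 380) (nat_lit 0) (XT.lf (nat_lit 0) (nat_lit 102077036356) (nat_lit 304) (nat_lit 92704978692) (nat_lit 380) (nat_lit 2743352732) (nat_lit 64) (nat_lit 5) (nat_lit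 68) (nat_lit 5) (nat_lit 69) (nat_lit 5) (nat_lit 348) (nat_lit 329) (nat_lit 103)) (XT.nd (nat_lit 78) (nat_lit 0) (nat_lit 0) (XT.lf (nat_lit 0) (nat_lit 1615450347) (nat_lit 304) (nat_lit 18420917612) (nat_lit 380) (nat_lit 183427901464) (nat_lit 59) (nat_lit 5) (nat_lit 63) (nat_lit 5) (nat_lit 64) (nat_lit 5) (nat_lit 349) (nat_lit 329) (nat_lit 102)) (XT.lf (nat_lit 0) (nat_lit 46435884051) (nat_lit 380) (nat_lit 103774917067) (nat_lit 76) (nat_lit 59358416382) (nat_lit 59) (nat_lit 5) (nat_lit 64) (nat_lit 5) (nat_lit 60) (nat_lit 5) (nat_lit 350) (nat_lit 329) (nat_lit 101))))))))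
noncomputable def xc250 : XT := (XT.nd (nat_lit 39858) (nat_lit 0) (nat_lit 228) (XT.nd (nat_lit 39078) (nat_lit 0) (nat_lit 2888) (XT.nd (nat_lit 390) (nat_lit 532) (nat_lit 0) (XT.nd (nat_lit 156) (nat_lit 228) (nat_lit 0) (XT.nd (nat_lit 78) (nat_lit 304) (nat_lit 0) (XT.lf (nat_lit 0) (nat_lit 74457235896) (nat_lit 380) (nat_lit 1099448981) (nat_lit 76) (nat_lit 140407635300) (nat_lit 59) (nat_lit 5) (nat_lit 64) (nat_lit 5) (nat_lit 60) (nat_lit 5) (nat_lit 351) (nat_lit 329) (nat_lit 100)) (XT.lf (nat_lit 0) (nat_lit 105673063429) (nat_lit 380) (nat_lit 112427573206) (nat_lit 76) (nat_lit 4488871131) (nat_lit 55) (nat_lit 5) (nat_lit 60) (nat_lit 5) (nat_lit 56) (nat_lit 5) (nat_lit 352) (nat_lit 329) (nat_lit 99))) (XT.nd (nat_lit 78) (nat_lit 228) (nat_lit 0) (XT.lf (nat_lit 0) (nat_lit 139707127993) (nat_lit 380) (nat_lit 3759548475) (nat_lit 76) (nat_lit 86016406158) (nat_lit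 55) (nat_lit 5) (nat_lit 60) (nat_lit 5) (nat_lit 56) (nat_lit 5) (nat_lit 353) (nat_lit 329) (nat_lit 98)) (XT.nd (nat_lit 78) (nat_lit 0) (nat_lit 0) (XT.lf (nat_lit 0) (nat_lit 113990137616) (nat_lit 228) (nat_lit 63232355613) (nat_lit 304) (nat_lit 59409863294) (nat_lit 52) (nat_lit 5) (nat_lit 55) (nat_lit 5) (nat_lit 56) (nat_lit 5) (nat_lit 354) (nat_lit 329) (nat_lit 97)) (XT.lf (nat_lit 0) (nat_lit 217006317263) (nat_lit 304) (nat_lit 6707344727) (nat_lit 76) (nat_lit 20405797757) (nat_lit 52) (nat_lit 5) (nat_lit 56) (nat_lit 5) (nat_lit 53) (nat_lit 5) (nat_lit 355) (nat_lit 329) (nat_lit 96))))) (XT.nd (nat_lit 156) (nat_lit 228) (nat_lit 0) (XT.nd (nat_lit 78) (nat_lit 0) (nat_lit 0) (XT.lf (nat_lit 0) (nat_lit 9502958066) (nat_lit 304) (nat_lit 134233953707) (nat_lit 76) (nat_lit 108092592617) (nat_lit 48) (nat_lit 5) (nat_lit 52) (nat_lit 5) (nat_lit 49) (nat_lit 5) (nat_lit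 356) (nat_lit 329) (nat_lit 95)) (XT.lf (nat_lit 0) (nat_lit 47154039132) (nat_lit 304) (nat_lit 12019390441) (nat_lit 76) (nat_lit 200723630198) (nat_lit 48) (nat_lit 5) (nat_lit 52) (nat_lit 5) (nat_lit 49) (nat_lit 5) (nat_lit 357) (nat_lit 329) (nat_lit 94))) (XT.nd (nat_lit 78) (nat_lit 0) (nat_lit 0) (XT.lf (nat_lit 0) (nat_lit 89056654604) (nat_lit 304) (nat_lit 148616010392) (nat_lit 76) (nat_lit 30576879038) (nat_lit 45) (nat_lit 5) (nat_lit 49) (nat_lit 5) (nat_lit 46) (nat_lit 5) (nat_lit 358) (nat_lit 329) (nat_lit 93)) (XT.nd (nat_lit 38376) (nat_lit 0) (nat_lit 3420) (XT.lf (nat_lit 0) (nat_lit 134231255564) (nat_lit 304) (nat_lit 19696607350) (nat_lit 76) (nat_lit 123032946984) (nat_lit 45) (nat_lit 5) (nat_lit 49) (nat_lit 5) (nat_lit 46) (nat_lit 5) (nat_lit 359) (nat_lit 329) (nat_lit 92)) (XT.lf (nat_lit 0) (nat_lit 25954725652) (nat_lit 0) (nat_lit 25954725652) (nat_lit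 684) (nat_lit 10284542202) (nat_lit 90) (nat_lit 5) (nat_lit 90) (nat_lit 3) (nat_lit 99) (nat_lit 3) (nat_lit 330) (nat_lit 330) (nat_lit 120)))))) (XT.nd (nat_lit 390) (nat_lit 532) (nat_lit 0) (XT.nd (nat_lit 156) (nat_lit 0) (nat_lit 0) (XT.nd (nat_lit 78) (nat_lit 0) (nat_lit 0) (XT.lf (nat_lit 0) (nat_lit 106495726016) (nat_lit 684) (nat_lit 16199401036) (nat_lit 760) (nat_lit 4798484113) (nat_lit 90) (nat_lit 5) (nat_lit 99) (nat_lit 3) (nat_lit 100) (nat_lit 5) (nat_lit 331) (nat_lit 330) (nat_lit 119)) (XT.lf (nat_lit 76) (nat_lit 43432691360) (nat_lit 0) (nat_lit 67402528624) (nat_lit 760) (nat_lit 19842855582) (nat_lit 91) (nat_lit 5) (nat_lit 90) (nat_lit 5) (nat_lit 100) (nat_lit 5) (nat_lit 332) (nat_lit 330) (nat_lit 118))) (XT.nd (nat_lit 78) (nat_lit 0) (nat_lit 76) (XT.lf (nat_lit 76) (nat_lit 106608655525) (nat_lit 0) (nat_lit 9057136355) (nat_lit 760) (nat_lit 18342266632)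 (nat_lit 91) (nat_lit 5) (nat_lit 90) (nat_lit 5) (nat_lit 100) (nat_lit 5) (nat_lit 333) (nat_lit 330) (nat_lit 117)) (XT.nd (nat_lit 78) (nat_lit 0) (nat_lit 0) (XT.lf (nat_lit 76) (nat_lit 35768470864) (nat_lit 0) (nat_lit 86342713688) (nat_lit 760) (nat_lit 15324691909) (nat_lit 92) (nat_lit 5) (nat_lit 91) (nat_lit 5) (nat_lit 101) (nat_lit 5) (nat_lit 334) (nat_lit 330) (nat_lit 116)) (XT.lf (nat_lit 76) (nat_lit 102892452870) (nat_lit 0) (nat_lit 26596279158) (nat_lit 760) (nat_lit 11515859460) (nat_lit 92) (nat_lit 5) (nat_lit 91) (nat_lit 5) (nat_lit 101) (nat_lit 5) (nat_lit 335) (nat_lit 330) (nat_lit 115))))) (XT.nd (nat_lit 156) (nat_lit 684) (nat_lit 0) (XT.nd (nat_lit 78) (nat_lit 0) (nat_lit 0) (XT.lf (nat_lit 76) (nat_lit 28984211064) (nat_lit 0) (nat_lit 109267469646) (nat_lit 760) (nat_lit 6449235787) (nat_lit 93) (nat_lit 5) (nat_lit 92) (nat_lit 5) (nat_lit 102)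 (nat_lit 5) (nat_lit 336) (nat_lit 330) (nat_lit 114)) (XT.lf (nat_lit 76) (nat_lit 100307978058) (nat_lit 0) (nat_lit 48219017922) (nat_lit 760) (nat_lit 1351218) (nat_lit 93) (nat_lit 5) (nat_lit 92) (nat_lit 5) (nat_lit 102) (nat_lit 5) (nat_lit 337) (nat_lit 330) (nat_lit 113))) (XT.nd (nat_lit 78) (nat_lit 0) (nat_lit 0) (XT.lf (nat_lit 0) (nat_lit 7171368037) (nat_lit 760) (nat_lit 129488955098) (nat_lit 836) (nat_lit 15850588145) (nat_lit 83) (nat_lit 5) (nat_lit 93) (nat_lit 5) (nat_lit 94) (nat_lit 5) (nat_lit 338) (nat_lit 330) (nat_lit 112)) (XT.nd (nat_lit 78) (nat_lit 0) (nat_lit 0) (XT.lf (nat_lit 0) (nat_lit 16322989441) (nat_lit 760) (nat_lit 57955311572) (nat_lit 836) (nat_lit 82333286213) (nat_lit 83) (nat_lit 5) (nat_lit 93) (nat_lit 5) (nat_lit 94) (nat_lit 5) (nat_lit 339) (nat_lit 330) (nat_lit 111)) (XT.lf (nat_lit 76) (nat_lit 17722084308) (nat_lit 0) (nat_lit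 8486621049) (nat_lit 836) (nat_lit 134694766268) (nat_lit 84) (nat_lit 5) (nat_lit 83) (nat_lit 5) (nat_lit 94) (nat_lit 5) (nat_lit 340) (nat_lit 330) (nat_lit 110))))))) (XT.nd (nat_lit 780) (nat_lit 836) (nat_lit 0) (XT.nd (nat_lit 390) (nat_lit 988) (nat_lit 0) (XT.nd (nat_lit 156) (nat_lit 380) (nat_lit 0) (XT.nd (nat_lit 78) (nat_lit 532) (nat_lit 0) (XT.lf (nat_lit 0) (nat_lit 38532179365) (nat_lit 760) (nat_lit 67127744169) (nat_lit 76) (nat_lit 59652853409) (nat_lit 84) (nat_lit 5) (nat_lit 94) (nat_lit 5) (nat_lit 85) (nat_lit 5) (nat_lit 341) (nat_lit 330) (nat_lit 109)) (XT.lf (nat_lit 0) (nat_lit 13005568822) (nat_lit 532) (nat_lit 38808273397) (nat_lit 608) (nat_lit 118111604850) (nat_lit 77) (nat_lit 5) (nat_lit 84) (nat_lit 5) (nat_lit 85) (nat_lit 5) (nat_lit 342) (nat_lit 330) (nat_lit 108))) (XT.nd (nat_lit 78) (nat_lit 380) (nat_lit 0) (XT.lf (nat_lit 0) (nat_lit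 67404931115) (nat_lit 608) (nat_lit 75744649824) (nat_lit 76) (nat_lit 31536902900) (nat_lit 77) (nat_lit 5) (nat_lit 85) (nat_lit 5) (nat_lit 78) (nat_lit 5) (nat_lit 343) (nat_lit 330) (nat_lit 107)) (XT.nd (nat_lit 78) (nat_lit 0) (nat_lit 0) (XT.lf (nat_lit 0) (nat_lit 9145713222) (nat_lit 380) (nat_lit 75408702703) (nat_lit 456) (nat_lit 95092214721) (nat_lit 72) (nat_lit 5) (nat_lit 77) (nat_lit 5) (nat_lit 78) (nat_lit 5) (nat_lit 344) (nat_lit 330) (nat_lit 106)) (XT.lf (nat_lit 0) (nat_lit 100910134443) (nat_lit 380) (nat_lit 2933867784) (nat_lit 456) (nat_lit 80946651462) (nat_lit 72) (nat_lit 5) (nat_lit 77) (nat_lit 5) (nat_lit 78) (nat_lit 5) (nat_lit 345) (nat_lit 330) (nat_lit 105))))) (XT.nd (nat_lit 156) (nat_lit 684) (nat_lit 0) (XT.nd (nat_lit 78) (nat_lit 0) (nat_lit 0) (XT.lf (nat_lit 0) (nat_lit 6124470445) (nat_lit 304) (nat_lit 119211385589) (nat_lit 380) (nat_lit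 64794132688) (nat_lit 68) (nat_lit 5) (nat_lit 72) (nat_lit 5) (nat_lit 73) (nat_lit 5) (nat_lit 346) (nat_lit 330) (nat_lit 104)) (XT.lf (nat_lit 0) (nat_lit 103492024140) (nat_lit 304) (nat_lit 45878022280) (nat_lit 380) (nat_lit 46292857124) (nat_lit 68) (nat_lit 5) (nat_lit 72) (nat_lit 5) (nat_lit 73) (nat_lit 5) (nat_lit 347) (nat_lit 330) (nat_lit 103))) (XT.nd (nat_lit 78) (nat_lit 380) (nat_lit 0) (XT.lf (nat_lit 0) (nat_lit 3894083638) (nat_lit 304) (nat_lit 171258434549) (nat_lit 380) (nat_lit 26292617550) (nat_lit 64) (nat_lit 5) (nat_lit 68) (nat_lit 5) (nat_lit 69) (nat_lit 5) (nat_lit 348) (nat_lit 330) (nat_lit 102)) (XT.nd (nat_lit 78) (nat_lit 380) (nat_lit 0) (XT.lf (nat_lit 0) (nat_lit 107185154420) (nat_lit 304) (nat_lit 97339762090) (nat_lit 380) (nat_lit 2876523095) (nat_lit 64) (nat_lit 5) (nat_lit 68) (nat_lit 5) (nat_lit 69) (nat_lit 5) (nat_lit 349) (nat_lit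 330) (nat_lit 101)) (XT.lf (nat_lit 0) (nat_lit 1700552293) (nat_lit 304) (nat_lit 19341386742) (nat_lit 380) (nat_lit 192595350304) (nat_lit 59) (nat_lit 5) (nat_lit 63) (nat_lit 5) (nat_lit 64) (nat_lit 5) (nat_lit 350) (nat_lit 330) (nat_lit 100)))))) (XT.nd (nat_lit 390) (nat_lit 304) (nat_lit 0) (XT.nd (nat_lit 156) (nat_lit 532) (nat_lit 0) (XT.nd (nat_lit 78) (nat_lit 0) (nat_lit 0) (XT.lf (nat_lit 0) (nat_lit 48761260808) (nat_lit 380) (nat_lit 108959363893) (nat_lit 76) (nat_lit 62326868907) (nat_lit 59) (nat_lit 5) (nat_lit 64) (nat_lit 5) (nat_lit 60) (nat_lit 5) (nat_lit 351) (nat_lit 330) (nat_lit 99)) (XT.lf (nat_lit 0) (nat_lit 78183509647) (nat_lit 380) (nat_lit 1150327118) (nat_lit 76) (nat_lit 147428523452) (nat_lit 59) (nat_lit 5) (nat_lit 64) (nat_lit 5) (nat_lit 60) (nat_lit 5) (nat_lit 352) (nat_lit 330) (nat_lit 98))) (XT.nd (nat_lit 78) (nat_lit 228) (nat_lit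 0) (XT.lf (nat_lit 0) (nat_lit 110960040152) (nat_lit 380) (nat_lit 118044764035) (nat_lit 76) (nat_lit 4714007674) (nat_lit 55) (nat_lit 5) (nat_lit 60) (nat_lit 5) (nat_lit 56) (nat_lit 5) (nat_lit 353) (nat_lit 330) (nat_lit 97)) (XT.nd (nat_lit 78) (nat_lit 228) (nat_lit 0) (XT.lf (nat_lit 0) (nat_lit 146695649680) (nat_lit 380) (nat_lit 3943537487) (nat_lit 76) (nat_lit 90317886454) (nat_lit 55) (nat_lit 5) (nat_lit 60) (nat_lit 5) (nat_lit 56) (nat_lit 5) (nat_lit 354) (nat_lit 330) (nat_lit 96)) (XT.lf (nat_lit 0) (nat_lit 119693568579) (nat_lit 228) (nat_lit 66393125137) (nat_lit 304) (nat_lit 62377122202) (nat_lit 52) (nat_lit 5) (nat_lit 55) (nat_lit 5) (nat_lit 56) (nat_lit 5) (nat_lit 355) (nat_lit 330) (nat_lit 95))))) (XT.nd (nat_lit 156) (nat_lit 0) (nat_lit 0) (XT.nd (nat_lit 78) (nat_lit 304) (nat_lit 0) (XT.lf (nat_lit 0) (nat_lit 227859575097) (nat_lit 304) (nat_lit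 7038836468) (nat_lit 76) (nat_lit 21426869651) (nat_lit 52) (nat_lit 5) (nat_lit 56) (nat_lit 5) (nat_lit 53) (nat_lit 5) (nat_lit 356) (nat_lit 330) (nat_lit 94)) (XT.lf (nat_lit 0) (nat_lit 9981018359) (nat_lit 304) (nat_lit 140941738100) (nat_lit 76) (nat_lit 113498073522) (nat_lit 48) (nat_lit 5) (nat_lit 52) (nat_lit 5) (nat_lit 49) (nat_lit 5) (nat_lit 357) (nat_lit 330) (nat_lit 93))) (XT.nd (nat_lit 38532) (nat_lit 0) (nat_lit 3192) (XT.lf (nat_lit 0) (nat_lit 49514514794) (nat_lit 304) (nat_lit 12616633018) (nat_lit 76) (nat_lit 210760622445) (nat_lit 48) (nat_lit 5) (nat_lit 52) (nat_lit 5) (nat_lit 49) (nat_lit 5) (nat_lit 358) (nat_lit 330) (nat_lit 92)) (XT.nd (nat_lit 78) (nat_lit 0) (nat_lit 0) (XT.lf (nat_lit 0) (nat_lit 27254409021) (nat_lit 0) (nat_lit 27254409021) (nat_lit 684) (nat_lit 10794672573) (nat_lit 90) (nat_lit 5) (nat_lit 90) (nat_lit 3) (nat_lit 99) (nat_lit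 3) (nat_lit 331) (nat_lit 331) (nat_lit 118)) (XT.lf (nat_lit 0) (nat_lit 111827871887) (nat_lit 684) (nat_lit 17005218609) (nat_lit 760) (nat_lit 5034818285) (nat_lit 90) (nat_lit 5) (nat_lit 99) (nat_lit 3) (nat_lit 100) (nat_lit 5) (nat_lit 332) (nat_lit 331) (nat_lit 117))))))))
noncomputable def xc251 : XT := (XT.nd (nat_lit 1560) (nat_lit 532) (nat_lit 0) (XT.nd (nat_lit 780) (nat_lit 1748) (nat_lit 0) (XT.nd (nat_lit 390) (nat_lit 608) (nat_lit 0) (XT.nd (nat_lit 156) (nat_lit 0) (nat_lit 76) (XT.nd (nat_lit 78) (nat_lit 0) (nat_lit 0) (XT.lf (nat_lit 76) (nat_lit 45608411432) (nat_lit 0) (nat_lit 70775642452) (nat_lit 760) (nat_lit 20827557564) (nat_lit 91) (nat_lit 5) (nat_lit 90) (nat_lit 5) (nat_lit 100) (nat_lit 5) (nat_lit 333) (nat_lit 331) (nat_lit 116)) (XT.lf (nat_lit 76) (nat_lit 111942979258) (nat_lit 0) (nat_lit 9512838313) (nat_lit 760) (nat_lit 19252293489) (nat_lit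 91) (nat_lit 5) (nat_lit 90) (nat_lit 5) (nat_lit 100) (nat_lit 5) (nat_lit 334) (nat_lit 331) (nat_lit 115))) (XT.nd (nat_lit 78) (nat_lit 0) (nat_lit 0) (XT.lf (nat_lit 76) (nat_lit 37561111037) (nat_lit 0) (nat_lit 90662071600) (nat_lit 760) (nat_lit 16084152777) (nat_lit 92) (nat_lit 5) (nat_lit 91) (nat_lit 5) (nat_lit 101) (nat_lit 5) (nat_lit 335) (nat_lit 331) (nat_lit 114)) (XT.nd (nat_lit 78) (nat_lit 0) (nat_lit 76) (XT.lf (nat_lit 76) (nat_lit 108041091352) (nat_lit 0) (nat_lit 27928209523) (nat_lit 760) (nat_lit 12085201265) (nat_lit 92) (nat_lit 5) (nat_lit 91) (nat_lit 5) (nat_lit 101) (nat_lit 5) (nat_lit 336) (nat_lit 331) (nat_lit 113)) (XT.lf (nat_lit 76) (nat_lit 30437718973) (nat_lit 0) (nat_lit 114732421630) (nat_lit 760) (nat_lit 6765516200) (nat_lit 93) (nat_lit 5) (nat_lit 92) (nat_lit 5) (nat_lit 102) (nat_lit 5) (nat_lit 337) (nat_lit 331) (nat_lit 112)))))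 (XT.nd (nat_lit 156) (nat_lit 0) (nat_lit 76) (XT.nd (nat_lit 78) (nat_lit 0) (nat_lit 76) (XT.lf (nat_lit 0) (nat_lit 4325233) (nat_lit 760) (nat_lit 50627073670) (nat_lit 836) (nat_lit 105323071198) (nat_lit 82) (nat_lit 5) (nat_lit 92) (nat_lit 5) (nat_lit 93) (nat_lit 5) (nat_lit 338) (nat_lit 331) (nat_lit 111)) (XT.lf (nat_lit 0) (nat_lit 7535409768) (nat_lit 760) (nat_lit 135958875673) (nat_lit 836) (nat_lit 16641887608) (nat_lit 83) (nat_lit 5) (nat_lit 93) (nat_lit 5) (nat_lit 94) (nat_lit 5) (nat_lit 339) (nat_lit 331) (nat_lit 110))) (XT.nd (nat_lit 78) (nat_lit 0) (nat_lit 0) (XT.lf (nat_lit 0) (nat_lit 17144351607) (nat_lit 760) (nat_lit 60848765551) (nat_lit 836) (nat_lit 86448779147) (nat_lit 83) (nat_lit 5) (nat_lit 93) (nat_lit 5) (nat_lit 94) (nat_lit 5) (nat_lit 340) (nat_lit 331) (nat_lit 109)) (XT.nd (nat_lit 78) (nat_lit 0) (nat_lit 76) (XT.lf (nat_lit 76) (nat_lit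 18612430581) (nat_lit 0) (nat_lit 8911740745) (nat_lit 836) (nat_lit 141424213158) (nat_lit 84) (nat_lit 5) (nat_lit 83) (nat_lit 5) (nat_lit 94) (nat_lit 5) (nat_lit 341) (nat_lit 331) (nat_lit 108)) (XT.lf (nat_lit 0) (nat_lit 40463567751) (nat_lit 760) (nat_lit 70479831289) (nat_lit 76) (nat_lit 62634769030) (nat_lit 84) (nat_lit 5) (nat_lit 94) (nat_lit 5) (nat_lit 85) (nat_lit 5) (nat_lit 342) (nat_lit 331) (nat_lit 107)))))) (XT.nd (nat_lit 390) (nat_lit 684) (nat_lit 0) (XT.nd (nat_lit 156) (nat_lit 684) (nat_lit 0) (XT.nd (nat_lit 78) (nat_lit 0) (nat_lit 0) (XT.lf (nat_lit 0) (nat_lit 13660077995) (nat_lit 532) (nat_lit 40749074214) (nat_lit 608) (nat_lit 124012327986) (nat_lit 77) (nat_lit 5) (nat_lit 84) (nat_lit 5) (nat_lit 85) (nat_lit 5) (nat_lit 343) (nat_lit 331) (nat_lit 106)) (XT.lf (nat_lit 0) (nat_lit 70779569895) (nat_lit 608) (nat_lit 79527619455) (nat_lit 76) (nat_lit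 33113391134) (nat_lit 77) (nat_lit 5) (nat_lit 85) (nat_lit 5) (nat_lit 78) (nat_lit 5) (nat_lit 344) (nat_lit 331) (nat_lit 105))) (XT.nd (nat_lit 78) (nat_lit 304) (nat_lit 0) (XT.lf (nat_lit 0) (nat_lit 9607192988) (nat_lit 380) (nat_lit 79179192286) (nat_lit 456) (nat_lit 99842356919) (nat_lit 72) (nat_lit 5) (nat_lit 77) (nat_lit 5) (nat_lit 78) (nat_lit 5) (nat_lit 345) (nat_lit 331) (nat_lit 104)) (XT.nd (nat_lit 78) (nat_lit 304) (nat_lit 0) (XT.lf (nat_lit 0) (nat_lit 105959635551) (nat_lit 380) (nat_lit 3080613029) (nat_lit 456) (nat_lit 84989728285) (nat_lit 72) (nat_lit 5) (nat_lit 77) (nat_lit 5) (nat_lit 78) (nat_lit 5) (nat_lit 346) (nat_lit 331) (nat_lit 103)) (XT.lf (nat_lit 0) (nat_lit 6434830854) (nat_lit 304) (nat_lit 125171735360) (nat_lit 380) (nat_lit 68029719219) (nat_lit 68) (nat_lit 5) (nat_lit 72) (nat_lit 5) (nat_lit 73) (nat_lit 5) (nat_lit 347) (nat_lit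 331) (nat_lit 102))))) (XT.nd (nat_lit 156) (nat_lit 380) (nat_lit 0) (XT.nd (nat_lit 78) (nat_lit 304) (nat_lit 0) (XT.lf (nat_lit 0) (nat_lit 108670565240) (nat_lit 304) (nat_lit 48171714339) (nat_lit 380) (nat_lit 48603576071) (nat_lit 68) (nat_lit 5) (nat_lit 72) (nat_lit 5) (nat_lit 73) (nat_lit 5) (nat_lit 348) (nat_lit 331) (nat_lit 101)) (XT.lf (nat_lit 0) (nat_lit 4092850912) (nat_lit 304) (nat_lit 179820912909) (nat_lit 380) (nat_lit 27603441500) (nat_lit 64) (nat_lit 5) (nat_lit 68) (nat_lit 5) (nat_lit 69) (nat_lit 5) (nat_lit 349) (nat_lit 331) (nat_lit 100))) (XT.nd (nat_lit 78) (nat_lit 380) (nat_lit 0) (XT.lf (nat_lit 0) (nat_lit 112548281752) (nat_lit 304) (nat_lit 102206327939) (nat_lit 380) (nat_lit 3016723604) (nat_lit 64) (nat_lit 5) (nat_lit 68) (nat_lit 5) (nat_lit 69) (nat_lit 5) (nat_lit 350) (nat_lit 331) (nat_lit 99)) (XT.nd (nat_lit 78) (nat_lit 0) (nat_lit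 0) (XT.lf (nat_lit 0) (nat_lit 1789506826) (nat_lit 304) (nat_lit 20307932949) (nat_lit 380) (nat_lit 202221538470) (nat_lit 59) (nat_lit 5) (nat_lit 63) (nat_lit 5) (nat_lit 64) (nat_lit 5) (nat_lit 351) (nat_lit 331) (nat_lit 98)) (XT.lf (nat_lit 0) (nat_lit 51202573330) (nat_lit 380) (nat_lit 114403432743) (nat_lit 76) (nat_lit 65443694626) (nat_lit 59) (nat_lit 5) (nat_lit 64) (nat_lit 5) (nat_lit 60) (nat_lit 5) (nat_lit 352) (nat_lit 331) (nat_lit 97))))))) (XT.nd (nat_lit 39390) (nat_lit 0) (nat_lit 1520) (XT.nd (nat_lit 39000) (nat_lit 0) (nat_lit 2888) (XT.nd (nat_lit 156) (nat_lit 228) (nat_lit 0) (XT.nd (nat_lit 78) (nat_lit 304) (nat_lit 0) (XT.lf (nat_lit 0) (nat_lit 82095779874) (nat_lit 380) (nat_lit 1204129812) (nat_lit 76) (nat_lit 154800408932) (nat_lit 59) (nat_lit 5) (nat_lit 64) (nat_lit 5) (nat_lit 60) (nat_lit 5) (nat_lit 353) (nat_lit 331) (nat_lit 96)) (XT.lf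 (nat_lit 0) (nat_lit 116511056719) (nat_lit 380) (nat_lit 123943203749) (nat_lit 76) (nat_lit 4950336618) (nat_lit 55) (nat_lit 5) (nat_lit 60) (nat_lit 5) (nat_lit 56) (nat_lit 5) (nat_lit 354) (nat_lit 331) (nat_lit 95))) (XT.nd (nat_lit 78) (nat_lit 228) (nat_lit 0) (XT.lf (nat_lit 0) (nat_lit 154033303173) (nat_lit 380) (nat_lit 4137096755) (nat_lit 76) (nat_lit 94834379405) (nat_lit 55) (nat_lit 5) (nat_lit 60) (nat_lit 5) (nat_lit 56) (nat_lit 5) (nat_lit 355) (nat_lit 331) (nat_lit 94)) (XT.nd (nat_lit 78) (nat_lit 0) (nat_lit 0) (XT.lf (nat_lit 0) (nat_lit 125681806266) (nat_lit 228) (nat_lit 69712012000) (nat_lit 304) (nat_lit 65493044746) (nat_lit 52) (nat_lit 5) (nat_lit 55) (nat_lit 5) (nat_lit 56) (nat_lit 5) (nat_lit 356) (nat_lit 331) (nat_lit 93)) (XT.lf (nat_lit 0) (nat_lit 239255222306) (nat_lit 304) (nat_lit 7387263103) (nat_lit 76) (nat_lit 22498922437) (nat_lit 52)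 (nat_lit 5) (nat_lit 56) (nat_lit 5) (nat_lit 53) (nat_lit 5) (nat_lit 357) (nat_lit 331) (nat_lit 92))))) (XT.nd (nat_lit 156) (nat_lit 0) (nat_lit 0) (XT.nd (nat_lit 78) (nat_lit 0) (nat_lit 0) (XT.lf (nat_lit 0) (nat_lit 28618895538) (nat_lit 0) (nat_lit 28618895538) (nat_lit 684) (nat_lit 11330690339) (nat_lit 90) (nat_lit 5) (nat_lit 90) (nat_lit 3) (nat_lit 99) (nat_lit 3) (nat_lit 332) (nat_lit 332) (nat_lit 116)) (XT.lf (nat_lit 0) (nat_lit 117425940828) (nat_lit 684) (nat_lit 17851713118) (nat_lit 760) (nat_lit 5283302932) (nat_lit 90) (nat_lit 5) (nat_lit 99) (nat_lit 3) (nat_lit 100) (nat_lit 5) (nat_lit 333) (nat_lit 332) (nat_lit 115))) (XT.nd (nat_lit 78) (nat_lit 0) (nat_lit 0) (XT.lf (nat_lit 76) (nat_lit 47892537676) (nat_lit 0) (nat_lit 74317134232) (nat_lit 760) (nat_lit 21862186419) (nat_lit 91) (nat_lit 5) (nat_lit 90) (nat_lit 5) (nat_lit 100) (nat_lit 5) (nat_lit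 334) (nat_lit 332) (nat_lit 114)) (XT.nd (nat_lit 78) (nat_lit 0) (nat_lit 76) (XT.lf (nat_lit 76) (nat_lit 117543657432) (nat_lit 0) (nat_lit 9991060855) (nat_lit 760) (nat_lit 20208480523) (nat_lit 91) (nat_lit 5) (nat_lit 90) (nat_lit 5) (nat_lit 100) (nat_lit 5) (nat_lit 335) (nat_lit 332) (nat_lit 113)) (XT.lf (nat_lit 76) (nat_lit 39442991196) (nat_lit 0) (nat_lit 95197190806) (nat_lit 760) (nat_lit 16882216445) (nat_lit 92) (nat_lit 5) (nat_lit 91) (nat_lit 5) (nat_lit 101) (nat_lit 5) (nat_lit 336) (nat_lit 332) (nat_lit 112)))))) (XT.nd (nat_lit 390) (nat_lit 760) (nat_lit 0) (XT.nd (nat_lit 156) (nat_lit 684) (nat_lit 0) (XT.nd (nat_lit 78) (nat_lit 0) (nat_lit 76) (XT.lf (nat_lit 76) (nat_lit 113446788402) (nat_lit 0) (nat_lit 29326539643) (nat_lit 760) (nat_lit 12683609927) (nat_lit 92) (nat_lit 5) (nat_lit 91) (nat_lit 5) (nat_lit 101) (nat_lit 5) (nat_lit 337) (nat_lit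 332) (nat_lit 111)) (XT.lf (nat_lit 76) (nat_lit 31963502750) (nat_lit 0) (nat_lit 120470474459) (nat_lit 760) (nat_lit 7098185320) (nat_lit 93) (nat_lit 5) (nat_lit 92) (nat_lit 5) (nat_lit 102) (nat_lit 5) (nat_lit 338) (nat_lit 332) (nat_lit 110))) (XT.nd (nat_lit 78) (nat_lit 0) (nat_lit 76) (XT.lf (nat_lit 0) (nat_lit 9710295) (nat_lit 760) (nat_lit 53154534585) (nat_lit 836) (nat_lit 110587680639) (nat_lit 82) (nat_lit 5) (nat_lit 92) (nat_lit 5) (nat_lit 93) (nat_lit 5) (nat_lit 339) (nat_lit 332) (nat_lit 109)) (XT.nd (nat_lit 78) (nat_lit 0) (nat_lit 0) (XT.lf (nat_lit 0) (nat_lit 7917144728) (nat_lit 760) (nat_lit 142752713172) (nat_lit 836) (nat_lit 17472866392) (nat_lit 83) (nat_lit 5) (nat_lit 93) (nat_lit 5) (nat_lit 94) (nat_lit 5) (nat_lit 340) (nat_lit 332) (nat_lit 108)) (XT.lf (nat_lit 0) (nat_lit 18006297255) (nat_lit 760) (nat_lit 63887293081) (nat_lit 836) (nat_lit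 90770155632) (nat_lit 83) (nat_lit 5) (nat_lit 93) (nat_lit 5) (nat_lit 94) (nat_lit 5) (nat_lit 341) (nat_lit 332) (nat_lit 107))))) (XT.nd (nat_lit 234) (nat_lit 380) (nat_lit 0) (XT.nd (nat_lit 78) (nat_lit 456) (nat_lit 0) (XT.lf (nat_lit 76) (nat_lit 19546899781) (nat_lit 0) (nat_lit 9358043106) (nat_lit 836) (nat_lit 148490624339) (nat_lit 84) (nat_lit 5) (nat_lit 83) (nat_lit 5) (nat_lit 94) (nat_lit 5) (nat_lit 342) (nat_lit 332) (nat_lit 106)) (XT.nd (nat_lit 78) (nat_lit 532) (nat_lit 0) (XT.lf (nat_lit 0) (nat_lit 42491081211) (nat_lit 760) (nat_lit 73999922547) (nat_lit 76) (nat_lit 65765848026) (nat_lit 84) (nat_lit 5) (nat_lit 94) (nat_lit 5) (nat_lit 85) (nat_lit 5) (nat_lit 343) (nat_lit 332) (nat_lit 105)) (XT.lf (nat_lit 0) (nat_lit 14346919293) (nat_lit 532) (nat_lit 42786879079) (nat_lit 608) (nat_lit 130208538846) (nat_lit 77) (nat_lit 5) (nat_lit 84) (nat_lit 5)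 (nat_lit 85) (nat_lit 5) (nat_lit 344) (nat_lit 332) (nat_lit 104)))) (XT.nd (nat_lit 78) (nat_lit 380) (nat_lit 0) (XT.lf (nat_lit 0) (nat_lit 74322532267) (nat_lit 608) (nat_lit 83500133888) (nat_lit 76) (nat_lit 34768736962) (nat_lit 77) (nat_lit 5) (nat_lit 85) (nat_lit 5) (nat_lit 78) (nat_lit 5) (nat_lit 345) (nat_lit 332) (nat_lit 103)) (XT.nd (nat_lit 78) (nat_lit 0) (nat_lit 0) (XT.lf (nat_lit 0) (nat_lit 10091356814) (nat_lit 380) (nat_lit 83138201286) (nat_lit 456) (nat_lit 104830421670) (nat_lit 72) (nat_lit 5) (nat_lit 77) (nat_lit 5) (nat_lit 78) (nat_lit 5) (nat_lit 346) (nat_lit 332) (nat_lit 102)) (XT.lf (nat_lit 0) (nat_lit 111261240353) (nat_lit 380) (nat_lit 3234690714) (nat_lit 456) (nat_lit 89235354608) (nat_lit 72) (nat_lit 5) (nat_lit 77) (nat_lit 5) (nat_lit 78) (nat_lit 5) (nat_lit 347) (nat_lit 332) (nat_lit 101))))))))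
noncomputable def xc252 : XT := (XT.nd (nat_lit 40326) (nat_lit 0) (nat_lit 0) (XT.nd (nat_lit 39546) (nat_lit 0) (nat_lit 2052) (XT.nd (nat_lit 390) (nat_lit 304) (nat_lit 0) (XT.nd (nat_lit 156) (nat_lit 684) (nat_lit 0) (XT.nd (nat_lit 78) (nat_lit 0) (nat_lit 0) (XT.lf (nat_lit 0) (nat_lit 6760324676) (nat_lit 304) (nat_lit 131430123028) (nat_lit 380) (nat_lit 71427468124) (nat_lit 68) (nat_lit 5) (nat_lit 72) (nat_lit 5) (nat_lit 73) (nat_lit 5) (nat_lit 348) (nat_lit 332) (nat_lit 100)) (XT.lf (nat_lit 0) (nat_lit 114107667101) (nat_lit 304) (nat_lit 50580110436) (nat_lit 380) (nat_lit 51030195774) (nat_lit 68) (nat_lit 5) (nat_lit 72) (nat_lit 5) (nat_lit 73) (nat_lit 5) (nat_lit 349) (nat_lit 332) (nat_lit 99))) (XT.nd (nat_lit 78) (nat_lit 380) (nat_lit 0) (XT.lf (nat_lit 0) (nat_lit 4301178801) (nat_lit 304) (nat_lit 188811556406) (nat_lit 380) (nat_lit 28980160579) (nat_lit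 64) (nat_lit 5) (nat_lit 68) (nat_lit 5) (nat_lit 69) (nat_lit 5) (nat_lit 350) (nat_lit 332) (nat_lit 98)) (XT.nd (nat_lit 78) (nat_lit 380) (nat_lit 0) (XT.lf (nat_lit 0) (nat_lit 118179205691) (nat_lit 304) (nat_lit 107316261338) (nat_lit 380) (nat_lit 3164271217) (nat_lit 64) (nat_lit 5) (nat_lit 68) (nat_lit 5) (nat_lit 69) (nat_lit 5) (nat_lit 351) (nat_lit 332) (nat_lit 97)) (XT.lf (nat_lit 0) (nat_lit 1882543998) (nat_lit 304) (nat_lit 21322855102) (nat_lit 380) (nat_lit 212329368818) (nat_lit 59) (nat_lit 5) (nat_lit 63) (nat_lit 5) (nat_lit 64) (nat_lit 5) (nat_lit 352) (nat_lit 332) (nat_lit 96))))) (XT.nd (nat_lit 156) (nat_lit 304) (nat_lit 0) (XT.nd (nat_lit 78) (nat_lit 0) (nat_lit 0) (XT.lf (nat_lit 0) (nat_lit 53765649372) (nat_lit 380) (nat_lit 120120067559) (nat_lit 76) (nat_lit 68716316793) (nat_lit 59) (nat_lit 5) (nat_lit 64) (nat_lit 5) (nat_lit 60) (nat_lit 5)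 (nat_lit 353) (nat_lit 332) (nat_lit 95)) (XT.lf (nat_lit 0) (nat_lit 86203375892) (nat_lit 380) (nat_lit 1260967902) (nat_lit 76) (nat_lit 162540845985) (nat_lit 59) (nat_lit 5) (nat_lit 64) (nat_lit 5) (nat_lit 60) (nat_lit 5) (nat_lit 354) (nat_lit 332) (nat_lit 94))) (XT.nd (nat_lit 78) (nat_lit 0) (nat_lit 0) (XT.lf (nat_lit 0) (nat_lit 122339343849) (nat_lit 380) (nat_lit 130136918597) (nat_lit 76) (nat_lit 5198423571) (nat_lit 55) (nat_lit 5) (nat_lit 60) (nat_lit 5) (nat_lit 56) (nat_lit 5) (nat_lit 355) (nat_lit 332) (nat_lit 93)) (XT.nd (nat_lit 38844) (nat_lit 0) (nat_lit 2660) (XT.lf (nat_lit 0) (nat_lit 161737572422) (nat_lit 380) (nat_lit 4340670316) (nat_lit 76) (nat_lit 99576641348) (nat_lit 55) (nat_lit 5) (nat_lit 60) (nat_lit 5) (nat_lit 56) (nat_lit 5) (nat_lit 356) (nat_lit 332) (nat_lit 92)) (XT.lf (nat_lit 0) (nat_lit 30051442188) (nat_lit 0) (nat_lit 30051442188)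 (nat_lit 684) (nat_lit 11893854459) (nat_lit 90) (nat_lit 5) (nat_lit 90) (nat_lit 3) (nat_lit 99) (nat_lit 3) (nat_lit 333) (nat_lit 333) (nat_lit 114)))))) (XT.nd (nat_lit 390) (nat_lit 608) (nat_lit 0) (XT.nd (nat_lit 156) (nat_lit 0) (nat_lit 0) (XT.nd (nat_lit 78) (nat_lit 0) (nat_lit 0) (XT.lf (nat_lit 0) (nat_lit 123303292606) (nat_lit 684) (nat_lit 18740882519) (nat_lit 760) (nat_lit 5544514549) (nat_lit 90) (nat_lit 5) (nat_lit 99) (nat_lit 3) (nat_lit 100) (nat_lit 5) (nat_lit 334) (nat_lit 333) (nat_lit 113)) (XT.lf (nat_lit 76) (nat_lit 50290525714) (nat_lit 0) (nat_lit 78035448682) (nat_lit 760) (nat_lit 22949174177) (nat_lit 91) (nat_lit 5) (nat_lit 90) (nat_lit 5) (nat_lit 100) (nat_lit 5) (nat_lit 335) (nat_lit 333) (nat_lit 112))) (XT.nd (nat_lit 78) (nat_lit 0) (nat_lit 76) (XT.lf (nat_lit 76) (nat_lit 123424041403) (nat_lit 0) (nat_lit 10492954601) (nat_lit 760) (nat_lit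 21213074490) (nat_lit 91) (nat_lit 5) (nat_lit 90) (nat_lit 5) (nat_lit 100) (nat_lit 5) (nat_lit 336) (nat_lit 333) (nat_lit 111)) (XT.nd (nat_lit 78) (nat_lit 0) (nat_lit 0) (XT.lf (nat_lit 76) (nat_lit 41418609787) (nat_lit 0) (nat_lit 99958878579) (nat_lit 760) (nat_lit 17720754505) (nat_lit 92) (nat_lit 5) (nat_lit 91) (nat_lit 5) (nat_lit 101) (nat_lit 5) (nat_lit 337) (nat_lit 333) (nat_lit 110)) (XT.lf (nat_lit 76) (nat_lit 119122431662) (nat_lit 0) (nat_lit 30794607799) (nat_lit 760) (nat_lit 13312483031) (nat_lit 92) (nat_lit 5) (nat_lit 91) (nat_lit 5) (nat_lit 101) (nat_lit 5) (nat_lit 338) (nat_lit 333) (nat_lit 109))))) (XT.nd (nat_lit 156) (nat_lit 0) (nat_lit 76) (XT.nd (nat_lit 78) (nat_lit 760) (nat_lit 0) (XT.lf (nat_lit 76) (nat_lit 33565213334) (nat_lit 0) (nat_lit 126495296819) (nat_lit 760) (nat_lit 7448009153) (nat_lit 93) (nat_lit 5) (nat_lit 92) (nat_lit 5)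 (nat_lit 102) (nat_lit 5) (nat_lit 339) (nat_lit 333) (nat_lit 108)) (XT.lf (nat_lit 0) (nat_lit 14884065) (nat_lit 760) (nat_lit 55808730459) (nat_lit 836) (nat_lit 116115664109) (nat_lit 82) (nat_lit 5) (nat_lit 92) (nat_lit 5) (nat_lit 93) (nat_lit 5) (nat_lit 340) (nat_lit 333) (nat_lit 107))) (XT.nd (nat_lit 78) (nat_lit 0) (nat_lit 0) (XT.lf (nat_lit 0) (nat_lit 8317504885) (nat_lit 760) (nat_lit 149886624309) (nat_lit 836) (nat_lit 18345497833) (nat_lit 83) (nat_lit 5) (nat_lit 93) (nat_lit 5) (nat_lit 94) (nat_lit 5) (nat_lit 341) (nat_lit 333) (nat_lit 106)) (XT.nd (nat_lit 78) (nat_lit 0) (nat_lit 0) (XT.lf (nat_lit 0) (nat_lit 18910900614) (nat_lit 760) (nat_lit 67078110571) (nat_lit 836) (nat_lit 95307699720) (nat_lit 83) (nat_lit 5) (nat_lit 93) (nat_lit 5) (nat_lit 94) (nat_lit 5) (nat_lit 342) (nat_lit 333) (nat_lit 105)) (XT.lf (nat_lit 76) (nat_lit 20527734721) (nat_lit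 0) (nat_lit 9826594080) (nat_lit 836) (nat_lit 155910802289) (nat_lit 84) (nat_lit 5) (nat_lit 83) (nat_lit 5) (nat_lit 94) (nat_lit 5) (nat_lit 343) (nat_lit 333) (nat_lit 104))))))) (XT.nd (nat_lit 780) (nat_lit 304) (nat_lit 0) (XT.nd (nat_lit 390) (nat_lit 988) (nat_lit 0) (XT.nd (nat_lit 156) (nat_lit 380) (nat_lit 0) (XT.nd (nat_lit 78) (nat_lit 532) (nat_lit 0) (XT.lf (nat_lit 0) (nat_lit 44619567310) (nat_lit 760) (nat_lit 77696380981) (nat_lit 76) (nat_lit 69053542282) (nat_lit 84) (nat_lit 5) (nat_lit 94) (nat_lit 5) (nat_lit 85) (nat_lit 5) (nat_lit 344) (nat_lit 333) (nat_lit 103)) (XT.lf (nat_lit 0) (nat_lit 15067745891) (nat_lit 532) (nat_lit 44926541541) (nat_lit 608) (nat_lit 136714969835) (nat_lit 77) (nat_lit 5) (nat_lit 84) (nat_lit 5) (nat_lit 85) (nat_lit 5) (nat_lit 345) (nat_lit 333) (nat_lit 102))) (XT.nd (nat_lit 78) (nat_lit 380) (nat_lit 0) (XT.lf (nat_lit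 0) (nat_lit 78042272374) (nat_lit 608) (nat_lit 87671633517) (nat_lit 76) (nat_lit 36506880178) (nat_lit 77) (nat_lit 5) (nat_lit 85) (nat_lit 5) (nat_lit 78) (nat_lit 5) (nat_lit 346) (nat_lit 333) (nat_lit 101)) (XT.nd (nat_lit 78) (nat_lit 0) (nat_lit 0) (XT.lf (nat_lit 0) (nat_lit 10599375155) (nat_lit 380) (nat_lit 87295156144) (nat_lit 456) (nat_lit 110068266476) (nat_lit 72) (nat_lit 5) (nat_lit 77) (nat_lit 5) (nat_lit 78) (nat_lit 5) (nat_lit 347) (nat_lit 333) (nat_lit 100)) (XT.lf (nat_lit 0) (nat_lit 116827588562) (nat_lit 380) (nat_lit 3396467911) (nat_lit 456) (nat_lit 93693621122) (nat_lit 72) (nat_lit 5) (nat_lit 77) (nat_lit 5) (nat_lit 78) (nat_lit 5) (nat_lit 348) (nat_lit 333) (nat_lit 99))))) (XT.nd (nat_lit 156) (nat_lit 684) (nat_lit 0) (XT.nd (nat_lit 78) (nat_lit 0) (nat_lit 0) (XT.lf (nat_lit 0) (nat_lit 7101744337) (nat_lit 304) (nat_lit 138001448590) (nat_lit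 380) (nat_lit 74995451910) (nat_lit 68) (nat_lit 5) (nat_lit 72) (nat_lit 5) (nat_lit 73) (nat_lit 5) (nat_lit 349) (nat_lit 333) (nat_lit 98)) (XT.lf (nat_lit 0) (nat_lit 119816291815) (nat_lit 304) (nat_lit 53108943968) (nat_lit 380) (nat_lit 53578477354) (nat_lit 68) (nat_lit 5) (nat_lit 72) (nat_lit 5) (nat_lit 73) (nat_lit 5) (nat_lit 350) (nat_lit 333) (nat_lit 97))) (XT.nd (nat_lit 78) (nat_lit 380) (nat_lit 0) (XT.lf (nat_lit 0) (nat_lit 4519580457) (nat_lit 304) (nat_lit 198251769466) (nat_lit 380) (nat_lit 30426036639) (nat_lit 64) (nat_lit 5) (nat_lit 68) (nat_lit 5) (nat_lit 69) (nat_lit 5) (nat_lit 351) (nat_lit 333) (nat_lit 96)) (XT.nd (nat_lit 78) (nat_lit 380) (nat_lit 0) (XT.lf (nat_lit 0) (nat_lit 124091349514) (nat_lit 304) (nat_lit 112681727014) (nat_lit 380) (nat_lit 3319501950) (nat_lit 64) (nat_lit 5) (nat_lit 68) (nat_lit 5) (nat_lit 69) (nat_lit 5) (nat_lit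 352) (nat_lit 333) (nat_lit 95)) (XT.lf (nat_lit 0) (nat_lit 1979901884) (nat_lit 304) (nat_lit 22388567476) (nat_lit 380) (nat_lit 222942892520) (nat_lit 59) (nat_lit 5) (nat_lit 63) (nat_lit 5) (nat_lit 64) (nat_lit 5) (nat_lit 353) (nat_lit 333) (nat_lit 94)))))) (XT.nd (nat_lit 39234) (nat_lit 0) (nat_lit 2660) (XT.nd (nat_lit 156) (nat_lit 304) (nat_lit 0) (XT.nd (nat_lit 78) (nat_lit 0) (nat_lit 0) (XT.lf (nat_lit 0) (nat_lit 56456605198) (nat_lit 380) (nat_lit 126122862937) (nat_lit 76) (nat_lit 72152529400) (nat_lit 59) (nat_lit 5) (nat_lit 64) (nat_lit 5) (nat_lit 60) (nat_lit 5) (nat_lit 354) (nat_lit 333) (nat_lit 93)) (XT.lf (nat_lit 0) (nat_lit 90516090741) (nat_lit 380) (nat_lit 1320961059) (nat_lit 76) (nat_lit 170668266158) (nat_lit 59) (nat_lit 5) (nat_lit 64) (nat_lit 5) (nat_lit 60) (nat_lit 5) (nat_lit 355) (nat_lit 333) (nat_lit 92))) (XT.nd (nat_lit 38922) (nat_lit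 0) (nat_lit 2660) (XT.lf (nat_lit 0) (nat_lit 128458791127) (nat_lit 380) (nat_lit 136640639502) (nat_lit 76) (nat_lit 5458861867) (nat_lit 55) (nat_lit 5) (nat_lit 60) (nat_lit 5) (nat_lit 56) (nat_lit 5) (nat_lit 356) (nat_lit 333) (nat_lit 91)) (XT.nd (nat_lit 78) (nat_lit 0) (nat_lit 0) (XT.lf (nat_lit 0) (nat_lit 31555467243) (nat_lit 0) (nat_lit 31555467243) (nat_lit 684) (nat_lit 12485490132) (nat_lit 90) (nat_lit 5) (nat_lit 90) (nat_lit 3) (nat_lit 99) (nat_lit 3) (nat_lit 334) (nat_lit 334) (nat_lit 112)) (XT.lf (nat_lit 0) (nat_lit 129473949061) (nat_lit 684) (nat_lit 19674828001) (nat_lit 760) (nat_lit 5819061337) (nat_lit 90) (nat_lit 5) (nat_lit 99) (nat_lit 3) (nat_lit 100) (nat_lit 5) (nat_lit 335) (nat_lit 334) (nat_lit 111))))) (XT.nd (nat_lit 156) (nat_lit 0) (nat_lit 76) (XT.nd (nat_lit 78) (nat_lit 0) (nat_lit 0) (XT.lf (nat_lit 76) (nat_lit 52808100665) (nat_lit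 0) (nat_lit 81939450358) (nat_lit 760) (nat_lit 24091080448) (nat_lit 91) (nat_lit 5) (nat_lit 90) (nat_lit 5) (nat_lit 100) (nat_lit 5) (nat_lit 336) (nat_lit 334) (nat_lit 110)) (XT.lf (nat_lit 76) (nat_lit 129598146964) (nat_lit 0) (nat_lit 11019725418) (nat_lit 760) (nat_lit 22268440178) (nat_lit 91) (nat_lit 5) (nat_lit 90) (nat_lit 5) (nat_lit 100) (nat_lit 5) (nat_lit 337) (nat_lit 334) (nat_lit 109))) (XT.nd (nat_lit 78) (nat_lit 0) (nat_lit 0) (XT.lf (nat_lit 76) (nat_lit 43492686791) (nat_lit 0) (nat_lit 104958480768) (nat_lit 760) (nat_lit 18601737571) (nat_lit 92) (nat_lit 5) (nat_lit 91) (nat_lit 5) (nat_lit 101) (nat_lit 5) (nat_lit 338) (nat_lit 334) (nat_lit 108)) (XT.nd (nat_lit 78) (nat_lit 0) (nat_lit 76) (XT.lf (nat_lit 76) (nat_lit 125081549925) (nat_lit 0) (nat_lit 32335917485) (nat_lit 760) (nat_lit 13973293221) (nat_lit 92) (nat_lit 5) (nat_lit 91) (nat_lit 5)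 (nat_lit 101) (nat_lit 5) (nat_lit 339) (nat_lit 334) (nat_lit 107)) (XT.lf (nat_lit 76) (nat_lit 35246680754) (nat_lit 0) (nat_lit 132821239563) (nat_lit 760) (nat_lit 7815796973) (nat_lit 93) (nat_lit 5) (nat_lit 92) (nat_lit 5) (nat_lit 102) (nat_lit 5) (nat_lit 340) (nat_lit 334) (nat_lit 106))))))))
noncomputable def xc253 : XT := (XT.nd (nat_lit 40638) (nat_lit 0) (nat_lit 380) (XT.nd (nat_lit 780) (nat_lit 684) (nat_lit 0) (XT.nd (nat_lit 390) (nat_lit 1064) (nat_lit 0) (XT.nd (nat_lit 156) (nat_lit 0) (nat_lit 76) (XT.nd (nat_lit 78) (nat_lit 0) (nat_lit 76) (XT.lf (nat_lit 0) (nat_lit 19880654) (nat_lit 760) (nat_lit 58595964392) (nat_lit 836) (nat_lit 121920176964) (nat_lit 82) (nat_lit 5) (nat_lit 92) (nat_lit 5) (nat_lit 93) (nat_lit 5) (nat_lit 341) (nat_lit 334) (nat_lit 105)) (XT.lf (nat_lit 0) (nat_lit 8737464412) (nat_lit 760) (nat_lit 157377577273) (nat_lit 836) (nat_lit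 19261854921) (nat_lit 83) (nat_lit 5) (nat_lit 93) (nat_lit 5) (nat_lit 94) (nat_lit 5) (nat_lit 342) (nat_lit 334) (nat_lit 104))) (XT.nd (nat_lit 78) (nat_lit 0) (nat_lit 0) (XT.lf (nat_lit 0) (nat_lit 19860335438) (nat_lit 760) (nat_lit 70428798718) (nat_lit 836) (nat_lit 100072210607) (nat_lit 83) (nat_lit 5) (nat_lit 93) (nat_lit 5) (nat_lit 94) (nat_lit 5) (nat_lit 343) (nat_lit 334) (nat_lit 103)) (XT.nd (nat_lit 78) (nat_lit 0) (nat_lit 76) (XT.lf (nat_lit 76) (nat_lit 21557286946) (nat_lit 0) (nat_lit 10318512282) (nat_lit 836) (nat_lit 163702393862) (nat_lit 84) (nat_lit 5) (nat_lit 83) (nat_lit 5) (nat_lit 94) (nat_lit 5) (nat_lit 344) (nat_lit 334) (nat_lit 102)) (XT.lf (nat_lit 0) (nat_lit 46854112150) (nat_lit 760) (nat_lit 81577991238) (nat_lit 76) (nat_lit 72505676860) (nat_lit 84) (nat_lit 5) (nat_lit 94) (nat_lit 5) (nat_lit 85) (nat_lit 5) (nat_lit 345) (nat_lit 334)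 (nat_lit 101))))) (XT.nd (nat_lit 156) (nat_lit 684) (nat_lit 0) (XT.nd (nat_lit 78) (nat_lit 0) (nat_lit 0) (XT.lf (nat_lit 0) (nat_lit 15824290223) (nat_lit 532) (nat_lit 47173157513) (nat_lit 608) (nat_lit 143547093879) (nat_lit 77) (nat_lit 5) (nat_lit 84) (nat_lit 5) (nat_lit 85) (nat_lit 5) (nat_lit 346) (nat_lit 334) (nat_lit 100)) (XT.lf (nat_lit 0) (nat_lit 81947663538) (nat_lit 608) (nat_lit 92052034180) (nat_lit 76) (nat_lit 38331957855) (nat_lit 77) (nat_lit 5) (nat_lit 85) (nat_lit 5) (nat_lit 78) (nat_lit 5) (nat_lit 347) (nat_lit 334) (nat_lit 99))) (XT.nd (nat_lit 78) (nat_lit 304) (nat_lit 0) (XT.lf (nat_lit 0) (nat_lit 11132473618) (nat_lit 380) (nat_lit 91659954581) (nat_lit 456) (nat_lit 115568345308) (nat_lit 72) (nat_lit 5) (nat_lit 77) (nat_lit 5) (nat_lit 78) (nat_lit 5) (nat_lit 348) (nat_lit 334) (nat_lit 98)) (XT.nd (nat_lit 78) (nat_lit 304) (nat_lit 0) (XT.lf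 (nat_lit 0) (nat_lit 122671948662) (nat_lit 380) (nat_lit 3566330002) (nat_lit 456) (nat_lit 98375126471) (nat_lit 72) (nat_lit 5) (nat_lit 77) (nat_lit 5) (nat_lit 78) (nat_lit 5) (nat_lit 349) (nat_lit 334) (nat_lit 97)) (XT.lf (nat_lit 0) (nat_lit 7459918563) (nat_lit 304) (nat_lit 144901357219) (nat_lit 380) (nat_lit 78742150021) (nat_lit 68) (nat_lit 5) (nat_lit 72) (nat_lit 5) (nat_lit 73) (nat_lit 5) (nat_lit 350) (nat_lit 334) (nat_lit 96)))))) (XT.nd (nat_lit 39468) (nat_lit 0) (nat_lit 2356) (XT.nd (nat_lit 156) (nat_lit 380) (nat_lit 0) (XT.nd (nat_lit 78) (nat_lit 304) (nat_lit 0) (XT.lf (nat_lit 0) (nat_lit 125810046415) (nat_lit 304) (nat_lit 55764235166) (nat_lit 380) (nat_lit 56254473141) (nat_lit 68) (nat_lit 5) (nat_lit 72) (nat_lit 5) (nat_lit 73) (nat_lit 5) (nat_lit 351) (nat_lit 334) (nat_lit 95)) (XT.lf (nat_lit 0) (nat_lit 4748591421) (nat_lit 304) (nat_lit 208164027091)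 (nat_lit 380) (nat_lit 31944497683) (nat_lit 64) (nat_lit 5) (nat_lit 68) (nat_lit 5) (nat_lit 69) (nat_lit 5) (nat_lit 352) (nat_lit 334) (nat_lit 94))) (XT.nd (nat_lit 78) (nat_lit 380) (nat_lit 0) (XT.lf (nat_lit 0) (nat_lit 130298804553) (nat_lit 304) (nat_lit 118315498272) (nat_lit 380) (nat_lit 3482771535) (nat_lit 64) (nat_lit 5) (nat_lit 68) (nat_lit 5) (nat_lit 69) (nat_lit 5) (nat_lit 353) (nat_lit 334) (nat_lit 93)) (XT.nd (nat_lit 39156) (nat_lit 0) (nat_lit 2356) (XT.lf (nat_lit 0) (nat_lit 2081827305) (nat_lit 304) (nat_lit 23507605482) (nat_lit 380) (nat_lit 234087366180) (nat_lit 59) (nat_lit 5) (nat_lit 63) (nat_lit 5) (nat_lit 64) (nat_lit 5) (nat_lit 354) (nat_lit 334) (nat_lit 92)) (XT.lf (nat_lit 0) (nat_lit 33134558471) (nat_lit 0) (nat_lit 33134558471) (nat_lit 684) (nat_lit 13106991804) (nat_lit 90) (nat_lit 5) (nat_lit 90) (nat_lit 3) (nat_lit 99) (nat_lit 3)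 (nat_lit 335) (nat_lit 335) (nat_lit 110))))) (XT.nd (nat_lit 156) (nat_lit 0) (nat_lit 0) (XT.nd (nat_lit 78) (nat_lit 0) (nat_lit 0) (XT.lf (nat_lit 0) (nat_lit 135952627761) (nat_lit 684) (nat_lit 20655758840) (nat_lit 760) (nat_lit 6107584528) (nat_lit 90) (nat_lit 5) (nat_lit 99) (nat_lit 3) (nat_lit 100) (nat_lit 5) (nat_lit 336) (nat_lit 335) (nat_lit 109)) (XT.lf (nat_lit 76) (nat_lit 55451270928) (nat_lit 0) (nat_lit 86038444863) (nat_lit 760) (nat_lit 25290598246) (nat_lit 91) (nat_lit 5) (nat_lit 90) (nat_lit 5) (nat_lit 100) (nat_lit 5) (nat_lit 337) (nat_lit 335) (nat_lit 108))) (XT.nd (nat_lit 78) (nat_lit 0) (nat_lit 76) (XT.lf (nat_lit 76) (nat_lit 136080687865) (nat_lit 0) (nat_lit 11572637392) (nat_lit 760) (nat_lit 23377065782) (nat_lit 91) (nat_lit 5) (nat_lit 90) (nat_lit 5) (nat_lit 100) (nat_lit 5) (nat_lit 338) (nat_lit 335) (nat_lit 107)) (XT.nd (nat_lit 78)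 (nat_lit 0) (nat_lit 0) (XT.lf (nat_lit 76) (nat_lit 45670175111) (nat_lit 0) (nat_lit 110207908898) (nat_lit 760) (nat_lit 19527239724) (nat_lit 92) (nat_lit 5) (nat_lit 91) (nat_lit 5) (nat_lit 101) (nat_lit 5) (nat_lit 339) (nat_lit 335) (nat_lit 106)) (XT.lf (nat_lit 76) (nat_lit 131338345499) (nat_lit 0) (nat_lit 33954145827) (nat_lit 760) (nat_lit 14667591477) (nat_lit 92) (nat_lit 5) (nat_lit 91) (nat_lit 5) (nat_lit 101) (nat_lit 5) (nat_lit 340) (nat_lit 335) (nat_lit 105))))))) (XT.nd (nat_lit 780) (nat_lit 608) (nat_lit 0) (XT.nd (nat_lit 390) (nat_lit 760) (nat_lit 0) (XT.nd (nat_lit 156) (nat_lit 0) (nat_lit 76) (XT.nd (nat_lit 78) (nat_lit 760) (nat_lit 0) (XT.lf (nat_lit 76) (nat_lit 37011923411) (nat_lit 0) (nat_lit 139463369933) (nat_lit 760) (nat_lit 8202403023) (nat_lit 93) (nat_lit 5) (nat_lit 92) (nat_lit 5) (nat_lit 102) (nat_lit 5) (nat_lit 341) (nat_lit 335) (nat_lit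 104)) (XT.lf (nat_lit 0) (nat_lit 24731725) (nat_lit 760) (nat_lit 61522857768) (nat_lit 836) (nat_lit 128015033566) (nat_lit 82) (nat_lit 5) (nat_lit 92) (nat_lit 5) (nat_lit 93) (nat_lit 5) (nat_lit 342) (nat_lit 335) (nat_lit 103))) (XT.nd (nat_lit 78) (nat_lit 0) (nat_lit 0) (XT.lf (nat_lit 0) (nat_lit 9178042197) (nat_lit 760) (nat_lit 165243391964) (nat_lit 836) (nat_lit 20224115192) (nat_lit 83) (nat_lit 5) (nat_lit 93) (nat_lit 5) (nat_lit 94) (nat_lit 5) (nat_lit 343) (nat_lit 335) (nat_lit 102)) (XT.nd (nat_lit 78) (nat_lit 0) (nat_lit 0) (XT.lf (nat_lit 0) (nat_lit 20856880367) (nat_lit 760) (nat_lit 73947320394) (nat_lit 836) (nat_lit 105075028304) (nat_lit 83) (nat_lit 5) (nat_lit 93) (nat_lit 5) (nat_lit 94) (nat_lit 5) (nat_lit 344) (nat_lit 335) (nat_lit 101)) (XT.lf (nat_lit 76) (nat_lit 22638022485) (nat_lit 0) (nat_lit 10834971681) (nat_lit 836) (nat_lit 171883932111)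 (nat_lit 84) (nat_lit 5) (nat_lit 83) (nat_lit 5) (nat_lit 94) (nat_lit 5) (nat_lit 345) (nat_lit 335) (nat_lit 100))))) (XT.nd (nat_lit 156) (nat_lit 380) (nat_lit 0) (XT.nd (nat_lit 78) (nat_lit 532) (nat_lit 0) (XT.lf (nat_lit 0) (nat_lit 49200052656) (nat_lit 760) (nat_lit 85653980331) (nat_lit 76) (nat_lit 76130468607) (nat_lit 84) (nat_lit 5) (nat_lit 94) (nat_lit 5) (nat_lit 85) (nat_lit 5) (nat_lit 346) (nat_lit 335) (nat_lit 99)) (XT.lf (nat_lit 0) (nat_lit 16618368261) (nat_lit 532) (nat_lit 49532077426) (nat_lit 608) (nat_lit 150721161092) (nat_lit 77) (nat_lit 5) (nat_lit 84) (nat_lit 5) (nat_lit 85) (nat_lit 5) (nat_lit 347) (nat_lit 335) (nat_lit 98))) (XT.nd (nat_lit 78) (nat_lit 380) (nat_lit 0) (XT.lf (nat_lit 0) (nat_lit 86048019545) (nat_lit 608) (nat_lit 96651750618) (nat_lit 76) (nat_lit 40248314176) (nat_lit 77) (nat_lit 5) (nat_lit 85) (nat_lit 5) (nat_lit 78)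 (nat_lit 5) (nat_lit 348) (nat_lit 335) (nat_lit 97)) (XT.nd (nat_lit 78) (nat_lit 0) (nat_lit 0) (XT.lf (nat_lit 0) (nat_lit 11691936034) (nat_lit 380) (nat_lit 96242989163) (nat_lit 456) (nat_lit 121343738091) (nat_lit 72) (nat_lit 5) (nat_lit 77) (nat_lit 5) (nat_lit 78) (nat_lit 5) (nat_lit 349) (nat_lit 335) (nat_lit 96)) (XT.lf (nat_lit 0) (nat_lit 128808249652) (nat_lit 380) (nat_lit 3744681599) (nat_lit 456) (nat_lit 103291002335) (nat_lit 72) (nat_lit 5) (nat_lit 77) (nat_lit 5) (nat_lit 78) (nat_lit 5) (nat_lit 350) (nat_lit 335) (nat_lit 95)))))) (XT.nd (nat_lit 39624) (nat_lit 0) (nat_lit 1368) (XT.nd (nat_lit 156) (nat_lit 304) (nat_lit 0) (XT.nd (nat_lit 78) (nat_lit 0) (nat_lit 0) (XT.lf (nat_lit 0) (nat_lit 7835714499) (nat_lit 304) (nat_lit 152146276509) (nat_lit 380) (nat_lit 82676468873) (nat_lit 68) (nat_lit 5) (nat_lit 72) (nat_lit 5) (nat_lit 73) (nat_lit 5) (nat_lit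 351) (nat_lit 335) (nat_lit 94)) (XT.lf (nat_lit 0) (nat_lit 132103215410) (nat_lit 304) (nat_lit 58552305428) (nat_lit 380) (nat_lit 59064540942) (nat_lit 68) (nat_lit 5) (nat_lit 72) (nat_lit 5) (nat_lit 73) (nat_lit 5) (nat_lit 352) (nat_lit 335) (nat_lit 93))) (XT.nd (nat_lit 39312) (nat_lit 0) (nat_lit 1976) (XT.lf (nat_lit 0) (nat_lit 4988771053) (nat_lit 304) (nat_lit 218571928357) (nat_lit 380) (nat_lit 33539145889) (nat_lit 64) (nat_lit 5) (nat_lit 68) (nat_lit 5) (nat_lit 69) (nat_lit 5) (nat_lit 353) (nat_lit 335) (nat_lit 92)) (XT.nd (nat_lit 78) (nat_lit 0) (nat_lit 0) (XT.lf (nat_lit 0) (nat_lit 34792481737) (nat_lit 0) (nat_lit 34792481737) (nat_lit 684) (nat_lit 13759826352) (nat_lit 90) (nat_lit 5) (nat_lit 90) (nat_lit 3) (nat_lit 99) (nat_lit 3) (nat_lit 336) (nat_lit 336) (nat_lit 108)) (XT.lf (nat_lit 0) (nat_lit 142754777287) (nat_lit 684) (nat_lit 21685997520)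 (nat_lit 760) (nat_lit 6410759785) (nat_lit 90) (nat_lit 5) (nat_lit 99) (nat_lit 3) (nat_lit 100) (nat_lit 5) (nat_lit 337) (nat_lit 336) (nat_lit 107))))) (XT.nd (nat_lit 234) (nat_lit 608) (nat_lit 0) (XT.nd (nat_lit 78) (nat_lit 0) (nat_lit 0) (XT.lf (nat_lit 76) (nat_lit 58226342620) (nat_lit 0) (nat_lit 90342201109) (nat_lit 760) (nat_lit 26550560154) (nat_lit 91) (nat_lit 5) (nat_lit 90) (nat_lit 5) (nat_lit 100) (nat_lit 5) (nat_lit 338) (nat_lit 336) (nat_lit 106)) (XT.nd (nat_lit 78) (nat_lit 0) (nat_lit 76) (XT.lf (nat_lit 76) (nat_lit 142887110967) (nat_lit 0) (nat_lit 12153015931) (nat_lit 760) (nat_lit 24541568591) (nat_lit 91) (nat_lit 5) (nat_lit 90) (nat_lit 5) (nat_lit 100) (nat_lit 5) (nat_lit 339) (nat_lit 336) (nat_lit 105)) (XT.lf (nat_lit 76) (nat_lit 47956272512) (nat_lit 0) (nat_lit 115719668598) (nat_lit 760) (nat_lit 20499443230) (nat_lit 92) (nat_lit 5) (nat_lit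 91) (nat_lit 5) (nat_lit 101) (nat_lit 5) (nat_lit 340) (nat_lit 336) (nat_lit 104)))) (XT.nd (nat_lit 78) (nat_lit 684) (nat_lit 0) (XT.lf (nat_lit 76) (nat_lit 137907728150) (nat_lit 0) (nat_lit 35653152409) (nat_lit 760) (nat_lit 15397010593) (nat_lit 92) (nat_lit 5) (nat_lit 91) (nat_lit 5) (nat_lit 101) (nat_lit 5) (nat_lit 341) (nat_lit 336) (nat_lit 103)) (XT.nd (nat_lit 78) (nat_lit 760) (nat_lit 0) (XT.lf (nat_lit 76) (nat_lit 38865157786) (nat_lit 0) (nat_lit 146437507492) (nat_lit 760) (nat_lit 8608728346) (nat_lit 93) (nat_lit 5) (nat_lit 92) (nat_lit 5) (nat_lit 102) (nat_lit 5) (nat_lit 342) (nat_lit 336) (nat_lit 102)) (XT.lf (nat_lit 0) (nat_lit 29466759) (nat_lit 760) (nat_lit 64596365878) (nat_lit 836) (nat_lit 134414740124) (nat_lit 82) (nat_lit 5) (nat_lit 92) (nat_lit 5) (nat_lit 93) (nat_lit 5) (nat_lit 343) (nat_lit 336) (nat_lit 101))))))))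
noncomputable def xc254 : XT := (XT.nd (nat_lit 40950) (nat_lit 0) (nat_lit 304) (XT.nd (nat_lit 40170) (nat_lit 0) (nat_lit 1064) (XT.nd (nat_lit 390) (nat_lit 684) (nat_lit 0) (XT.nd (nat_lit 156) (nat_lit 456) (nat_lit 0) (XT.nd (nat_lit 78) (nat_lit 0) (nat_lit 0) (XT.lf (nat_lit 0) (nat_lit 9640304456) (nat_lit 760) (nat_lit 173502782266) (nat_lit 836) (nat_lit 21234565872) (nat_lit 83) (nat_lit 5) (nat_lit 93) (nat_lit 5) (nat_lit 94) (nat_lit 5) (nat_lit 344) (nat_lit 336) (nat_lit 100)) (XT.lf (nat_lit 0) (nat_lit 21902924527) (nat_lit 760) (nat_lit 77642039465) (nat_lit 836) (nat_lit 110328060596) (nat_lit 83) (nat_lit 5) (nat_lit 93) (nat_lit 5) (nat_lit 94) (nat_lit 5) (nat_lit 345) (nat_lit 336) (nat_lit 99))) (XT.nd (nat_lit 78) (nat_lit 456) (nat_lit 0) (XT.lf (nat_lit 76) (nat_lit 23772527865) (nat_lit 0) (nat_lit 11377204424) (nat_lit 836) (nat_lit 180474880242) (nat_lit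 84) (nat_lit 5) (nat_lit 83) (nat_lit 5) (nat_lit 94) (nat_lit 5) (nat_lit 346) (nat_lit 336) (nat_lit 98)) (XT.nd (nat_lit 78) (nat_lit 532) (nat_lit 0) (XT.lf (nat_lit 0) (nat_lit 51662989436) (nat_lit 760) (nat_lit 89934039466) (nat_lit 76) (nat_lit 79936545692) (nat_lit 84) (nat_lit 5) (nat_lit 94) (nat_lit 5) (nat_lit 85) (nat_lit 5) (nat_lit 347) (nat_lit 336) (nat_lit 97)) (XT.lf (nat_lit 0) (nat_lit 17451883976) (nat_lit 532) (nat_lit 52008918972) (nat_lit 608) (nat_lit 158254237305) (nat_lit 77) (nat_lit 5) (nat_lit 84) (nat_lit 5) (nat_lit 85) (nat_lit 5) (nat_lit 348) (nat_lit 336) (nat_lit 96))))) (XT.nd (nat_lit 156) (nat_lit 304) (nat_lit 0) (XT.nd (nat_lit 78) (nat_lit 380) (nat_lit 0) (XT.lf (nat_lit 0) (nat_lit 90353116966) (nat_lit 608) (nat_lit 101481721122) (nat_lit 76) (nat_lit 42260510772) (nat_lit 77) (nat_lit 5) (nat_lit 85) (nat_lit 5) (nat_lit 78) (nat_lit 5)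 (nat_lit 349) (nat_lit 336) (nat_lit 95)) (XT.lf (nat_lit 0) (nat_lit 12279107652) (nat_lit 380) (nat_lit 101055172047) (nat_lit 456) (nat_lit 127408181701) (nat_lit 72) (nat_lit 5) (nat_lit 77) (nat_lit 5) (nat_lit 78) (nat_lit 5) (nat_lit 350) (nat_lit 336) (nat_lit 94))) (XT.nd (nat_lit 78) (nat_lit 304) (nat_lit 0) (XT.lf (nat_lit 0) (nat_lit 135251114341) (nat_lit 380) (nat_lit 3931947514) (nat_lit 456) (nat_lit 108452939790) (nat_lit 72) (nat_lit 5) (nat_lit 77) (nat_lit 5) (nat_lit 78) (nat_lit 5) (nat_lit 351) (nat_lit 336) (nat_lit 93)) (XT.nd (nat_lit 39468) (nat_lit 0) (nat_lit 1672) (XT.lf (nat_lit 0) (nat_lit 8230039914) (nat_lit 304) (nat_lit 159753455575) (nat_lit 380) (nat_lit 86807762931) (nat_lit 68) (nat_lit 5) (nat_lit 72) (nat_lit 5) (nat_lit 73) (nat_lit 5) (nat_lit 352) (nat_lit 336) (nat_lit 92)) (XT.lf (nat_lit 0) (nat_lit 36533190034) (nat_lit 0) (nat_lit 36533190034)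 (nat_lit 684) (nat_lit 14445536452) (nat_lit 90) (nat_lit 5) (nat_lit 90) (nat_lit 3) (nat_lit 99) (nat_lit 3) (nat_lit 337) (nat_lit 337) (nat_lit 106)))))) (XT.nd (nat_lit 390) (nat_lit 608) (nat_lit 0) (XT.nd (nat_lit 156) (nat_lit 0) (nat_lit 0) (XT.nd (nat_lit 78) (nat_lit 0) (nat_lit 0) (XT.lf (nat_lit 0) (nat_lit 149896614235) (nat_lit 684) (nat_lit 22767985141) (nat_lit 760) (nat_lit 6729298708) (nat_lit 90) (nat_lit 5) (nat_lit 99) (nat_lit 3) (nat_lit 100) (nat_lit 5) (nat_lit 338) (nat_lit 337) (nat_lit 105)) (XT.lf (nat_lit 76) (nat_lit 61139934712) (nat_lit 0) (nat_lit 94860974659) (nat_lit 760) (nat_lit 27873944847) (nat_lit 91) (nat_lit 5) (nat_lit 90) (nat_lit 5) (nat_lit 100) (nat_lit 5) (nat_lit 339) (nat_lit 337) (nat_lit 104))) (XT.nd (nat_lit 78) (nat_lit 0) (nat_lit 76) (XT.lf (nat_lit 76) (nat_lit 150033633145) (nat_lit 0) (nat_lit 12762251007) (nat_lit 760) (nat_lit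 25764701007) (nat_lit 91) (nat_lit 5) (nat_lit 90) (nat_lit 5) (nat_lit 100) (nat_lit 5) (nat_lit 340) (nat_lit 337) (nat_lit 103)) (XT.nd (nat_lit 78) (nat_lit 0) (nat_lit 0) (XT.lf (nat_lit 76) (nat_lit 50356434114) (nat_lit 0) (nat_lit 121506889448) (nat_lit 760) (nat_lit 21520643526) (nat_lit 92) (nat_lit 5) (nat_lit 91) (nat_lit 5) (nat_lit 101) (nat_lit 5) (nat_lit 341) (nat_lit 337) (nat_lit 102)) (XT.lf (nat_lit 76) (nat_lit 144805350726) (nat_lit 0) (nat_lit 37436988524) (nat_lit 760) (nat_lit 16163268870) (nat_lit 92) (nat_lit 5) (nat_lit 91) (nat_lit 5) (nat_lit 101) (nat_lit 5) (nat_lit 342) (nat_lit 337) (nat_lit 101))))) (XT.nd (nat_lit 156) (nat_lit 0) (nat_lit 76) (XT.nd (nat_lit 78) (nat_lit 760) (nat_lit 0) (XT.lf (nat_lit 76) (nat_lit 40810808604) (nat_lit 0) (nat_lit 153760261836) (nat_lit 760) (nat_lit 9035722742) (nat_lit 93) (nat_lit 5) (nat_lit 92) (nat_lit 5)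 (nat_lit 102) (nat_lit 5) (nat_lit 343) (nat_lit 337) (nat_lit 100)) (XT.lf (nat_lit 0) (nat_lit 34113293) (nat_lit 760) (nat_lit 67823794350) (nat_lit 836) (nat_lit 141134529175) (nat_lit 82) (nat_lit 5) (nat_lit 92) (nat_lit 5) (nat_lit 93) (nat_lit 5) (nat_lit 344) (nat_lit 337) (nat_lit 99))) (XT.nd (nat_lit 78) (nat_lit 0) (nat_lit 0) (XT.lf (nat_lit 0) (nat_lit 10125367434) (nat_lit 760) (nat_lit 182175400477) (nat_lit 836) (nat_lit 22295609287) (nat_lit 83) (nat_lit 5) (nat_lit 93) (nat_lit 5) (nat_lit 94) (nat_lit 5) (nat_lit 345) (nat_lit 337) (nat_lit 98)) (XT.nd (nat_lit 78) (nat_lit 0) (nat_lit 0) (XT.lf (nat_lit 0) (nat_lit 23000973377) (nat_lit 760) (nat_lit 81521740578) (nat_lit 836) (nat_lit 115843811360) (nat_lit 83) (nat_lit 5) (nat_lit 93) (nat_lit 5) (nat_lit 94) (nat_lit 5) (nat_lit 346) (nat_lit 337) (nat_lit 97)) (XT.lf (nat_lit 76) (nat_lit 24963516394) (nat_lit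 0) (nat_lit 11946503792) (nat_lit 836) (nat_lit 189495677791) (nat_lit 84) (nat_lit 5) (nat_lit 83) (nat_lit 5) (nat_lit 94) (nat_lit 5) (nat_lit 347) (nat_lit 337) (nat_lit 96))))))) (XT.nd (nat_lit 40248) (nat_lit 0) (nat_lit 380) (XT.nd (nat_lit 39858) (nat_lit 0) (nat_lit 1368) (XT.nd (nat_lit 156) (nat_lit 380) (nat_lit 0) (XT.nd (nat_lit 78) (nat_lit 532) (nat_lit 0) (XT.lf (nat_lit 0) (nat_lit 54248800267) (nat_lit 760) (nat_lit 94428346989) (nat_lit 76) (nat_lit 83932968128) (nat_lit 84) (nat_lit 5) (nat_lit 94) (nat_lit 5) (nat_lit 85) (nat_lit 5) (nat_lit 348) (nat_lit 337) (nat_lit 95)) (XT.lf (nat_lit 0) (nat_lit 18326834005) (nat_lit 532) (nat_lit 54609580499) (nat_lit 608) (nat_lit 166164244551) (nat_lit 77) (nat_lit 5) (nat_lit 84) (nat_lit 5) (nat_lit 85) (nat_lit 5) (nat_lit 349) (nat_lit 337) (nat_lit 94))) (XT.nd (nat_lit 78) (nat_lit 380) (nat_lit 0) (XT.lf (nat_lit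 0) (nat_lit 94873218569) (nat_lit 608) (nat_lit 106553433458) (nat_lit 76) (nat_lit 44373337570) (nat_lit 77) (nat_lit 5) (nat_lit 85) (nat_lit 5) (nat_lit 78) (nat_lit 5) (nat_lit 350) (nat_lit 337) (nat_lit 93)) (XT.nd (nat_lit 78) (nat_lit 0) (nat_lit 0) (XT.lf (nat_lit 0) (nat_lit 12895398469) (nat_lit 380) (nat_lit 106107960968) (nat_lit 456) (nat_lit 133776102537) (nat_lit 72) (nat_lit 5) (nat_lit 77) (nat_lit 5) (nat_lit 78) (nat_lit 5) (nat_lit 351) (nat_lit 337) (nat_lit 92)) (XT.lf (nat_lit 0) (nat_lit 142015894281) (nat_lit 380) (nat_lit 4128573764) (nat_lit 456) (nat_lit 113873217019) (nat_lit 72) (nat_lit 5) (nat_lit 77) (nat_lit 5) (nat_lit 78) (nat_lit 5) (nat_lit 352) (nat_lit 337) (nat_lit 91))))) (XT.nd (nat_lit 156) (nat_lit 0) (nat_lit 0) (XT.nd (nat_lit 78) (nat_lit 0) (nat_lit 0) (XT.lf (nat_lit 0) (nat_lit 38360832947) (nat_lit 0) (nat_lit 38360832947) (nat_lit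 684) (nat_lit 15165744144) (nat_lit 90) (nat_lit 5) (nat_lit 90) (nat_lit 3) (nat_lit 99) (nat_lit 3) (nat_lit 338) (nat_lit 338) (nat_lit 104)) (XT.lf (nat_lit 0) (nat_lit 157395162030) (nat_lit 684) (nat_lit 23904287113) (nat_lit 760) (nat_lit 7063950433) (nat_lit 90) (nat_lit 5) (nat_lit 99) (nat_lit 3) (nat_lit 100) (nat_lit 5) (nat_lit 339) (nat_lit 338) (nat_lit 103))) (XT.nd (nat_lit 78) (nat_lit 0) (nat_lit 0) (XT.lf (nat_lit 76) (nat_lit 64198994905) (nat_lit 0) (nat_lit 99605532230) (nat_lit 760) (nat_lit 29263883981) (nat_lit 91) (nat_lit 5) (nat_lit 90) (nat_lit 5) (nat_lit 100) (nat_lit 5) (nat_lit 340) (nat_lit 338) (nat_lit 102)) (XT.nd (nat_lit 78) (nat_lit 0) (nat_lit 76) (XT.lf (nat_lit 76) (nat_lit 157537280000) (nat_lit 0) (nat_lit 13401800547) (nat_lit 760) (nat_lit 27049356906) (nat_lit 91) (nat_lit 5) (nat_lit 90) (nat_lit 5) (nat_lit 100) (nat_lit 5) (nat_lit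 341) (nat_lit 338) (nat_lit 101)) (XT.lf (nat_lit 76) (nat_lit 52876385505) (nat_lit 0) (nat_lit 127583356296) (nat_lit 760) (nat_lit 22593254510) (nat_lit 92) (nat_lit 5) (nat_lit 91) (nat_lit 5) (nat_lit 101) (nat_lit 5) (nat_lit 342) (nat_lit 338) (nat_lit 100)))))) (XT.nd (nat_lit 390) (nat_lit 380) (nat_lit 0) (XT.nd (nat_lit 156) (nat_lit 684) (nat_lit 0) (XT.nd (nat_lit 78) (nat_lit 0) (nat_lit 76) (XT.lf (nat_lit 76) (nat_lit 152047646533) (nat_lit 0) (nat_lit 39309906880) (nat_lit 760) (nat_lit 16968174035) (nat_lit 92) (nat_lit 5) (nat_lit 91) (nat_lit 5) (nat_lit 101) (nat_lit 5) (nat_lit 343) (nat_lit 338) (nat_lit 99)) (XT.lf (nat_lit 76) (nat_lit 42853519491) (nat_lit 0) (nat_lit 161449072178) (nat_lit 760) (nat_lit 9484386864) (nat_lit 93) (nat_lit 5) (nat_lit 92) (nat_lit 5) (nat_lit 102) (nat_lit 5) (nat_lit 344) (nat_lit 338) (nat_lit 98))) (XT.nd (nat_lit 78) (nat_lit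 0) (nat_lit 76) (XT.lf (nat_lit 0) (nat_lit 38697139) (nat_lit 760) (nat_lit 71212816428) (nat_lit 836) (nat_lit 148190395810) (nat_lit 82) (nat_lit 5) (nat_lit 92) (nat_lit 5) (nat_lit 93) (nat_lit 5) (nat_lit 345) (nat_lit 338) (nat_lit 97)) (XT.nd (nat_lit 78) (nat_lit 0) (nat_lit 0) (XT.lf (nat_lit 0) (nat_lit 10634400208) (nat_lit 760) (nat_lit 191281883967) (nat_lit 836) (nat_lit 23409768545) (nat_lit 83) (nat_lit 5) (nat_lit 93) (nat_lit 5) (nat_lit 94) (nat_lit 5) (nat_lit 346) (nat_lit 338) (nat_lit 96)) (XT.lf (nat_lit 0) (nat_lit 24153654810) (nat_lit 760) (nat_lit 85595649957) (nat_lit 836) (nat_lit 121635410304) (nat_lit 83) (nat_lit 5) (nat_lit 93) (nat_lit 5) (nat_lit 94) (nat_lit 5) (nat_lit 347) (nat_lit 338) (nat_lit 95))))) (XT.nd (nat_lit 156) (nat_lit 456) (nat_lit 0) (XT.nd (nat_lit 78) (nat_lit 0) (nat_lit 76) (XT.lf (nat_lit 76) (nat_lit 26213834742) (nat_lit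 0) (nat_lit 12544227300) (nat_lit 836) (nat_lit 198967789153) (nat_lit 84) (nat_lit 5) (nat_lit 83) (nat_lit 5) (nat_lit 94) (nat_lit 5) (nat_lit 348) (nat_lit 338) (nat_lit 94)) (XT.lf (nat_lit 0) (nat_lit 56963654211) (nat_lit 760) (nat_lit 99147592502) (nat_lit 76) (nat_lit 88129249325) (nat_lit 84) (nat_lit 5) (nat_lit 94) (nat_lit 5) (nat_lit 85) (nat_lit 5) (nat_lit 349) (nat_lit 338) (nat_lit 93))) (XT.nd (nat_lit 78) (nat_lit 0) (nat_lit 0) (XT.lf (nat_lit 0) (nat_lit 19245312512) (nat_lit 532) (nat_lit 57340255060) (nat_lit 608) (nat_lit 174470003610) (nat_lit 77) (nat_lit 5) (nat_lit 84) (nat_lit 5) (nat_lit 85) (nat_lit 5) (nat_lit 350) (nat_lit 338) (nat_lit 92)) (XT.nd (nat_lit 39702) (nat_lit 0) (nat_lit 988) (XT.lf (nat_lit 0) (nat_lit 99619097869) (nat_lit 608) (nat_lit 111878952097) (nat_lit 76) (nat_lit 46591824184) (nat_lit 77) (nat_lit 5) (nat_lit 85) (nat_lit 5)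 (nat_lit 78) (nat_lit 5) (nat_lit 351) (nat_lit 338) (nat_lit 91)) (XT.lf (nat_lit 0) (nat_lit 40279766578) (nat_lit 0) (nat_lit 40279766578) (nat_lit 684) (nat_lit 15922154587) (nat_lit 90) (nat_lit 5) (nat_lit 90) (nat_lit 3) (nat_lit 99) (nat_lit 3) (nat_lit 339) (nat_lit 339) (nat_lit 102))))))))
noncomputable def xc255 : XT := (XT.nd (nat_lit 41340) (nat_lit 0) (nat_lit 0) (XT.nd (nat_lit 780) (nat_lit 0) (nat_lit 0) (XT.nd (nat_lit 390) (nat_lit 608) (nat_lit 0) (XT.nd (nat_lit 156) (nat_lit 0) (nat_lit 0) (XT.nd (nat_lit 78) (nat_lit 0) (nat_lit 0) (XT.lf (nat_lit 0) (nat_lit 165268291635) (nat_lit 684) (nat_lit 25097599171) (nat_lit 760) (nat_lit 7415503318) (nat_lit 90) (nat_lit 5) (nat_lit 99) (nat_lit 3) (nat_lit 100) (nat_lit 5) (nat_lit 340) (nat_lit 339) (nat_lit 101)) (XT.lf (nat_lit 76) (nat_lit 67410816266) (nat_lit 0) (nat_lit 104587177403) (nat_lit 760) (nat_lit 30723669465)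 (nat_lit 91) (nat_lit 5) (nat_lit 90) (nat_lit 5) (nat_lit 100) (nat_lit 5) (nat_lit 341) (nat_lit 339) (nat_lit 100))) (XT.nd (nat_lit 78) (nat_lit 0) (nat_lit 76) (XT.lf (nat_lit 76) (nat_lit 165415926492) (nat_lit 0) (nat_lit 14073193966) (nat_lit 760) (nat_lit 28398578356) (nat_lit 91) (nat_lit 5) (nat_lit 90) (nat_lit 5) (nat_lit 100) (nat_lit 5) (nat_lit 342) (nat_lit 339) (nat_lit 99)) (XT.nd (nat_lit 78) (nat_lit 0) (nat_lit 0) (XT.lf (nat_lit 76) (nat_lit 55522136467) (nat_lit 0) (nat_lit 133963542139) (nat_lit 760) (nat_lit 23719814113) (nat_lit 92) (nat_lit 5) (nat_lit 91) (nat_lit 5) (nat_lit 101) (nat_lit 5) (nat_lit 343) (nat_lit 339) (nat_lit 98)) (XT.lf (nat_lit 76) (nat_lit 159651868562) (nat_lit 0) (nat_lit 41276371775) (nat_lit 760) (nat_lit 17813627382) (nat_lit 92) (nat_lit 5) (nat_lit 91) (nat_lit 5) (nat_lit 101) (nat_lit 5) (nat_lit 344) (nat_lit 339) (nat_lit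 97))))) (XT.nd (nat_lit 156) (nat_lit 0) (nat_lit 76) (XT.nd (nat_lit 78) (nat_lit 760) (nat_lit 0) (XT.lf (nat_lit 76) (nat_lit 44998164134) (nat_lit 0) (nat_lit 169522248917) (nat_lit 760) (nat_lit 9955774448) (nat_lit 93) (nat_lit 5) (nat_lit 92) (nat_lit 5) (nat_lit 102) (nat_lit 5) (nat_lit 345) (nat_lit 339) (nat_lit 96)) (XT.lf (nat_lit 0) (nat_lit 43242592) (nat_lit 760) (nat_lit 74771491137) (nat_lit 836) (nat_lit 155599135716) (nat_lit 82) (nat_lit 5) (nat_lit 92) (nat_lit 5) (nat_lit 93) (nat_lit 5) (nat_lit 346) (nat_lit 339) (nat_lit 95))) (XT.nd (nat_lit 78) (nat_lit 0) (nat_lit 0) (XT.lf (nat_lit 0) (nat_lit 11168627614) (nat_lit 760) (nat_lit 200843904212) (nat_lit 836) (nat_lit 24579693521) (nat_lit 83) (nat_lit 5) (nat_lit 93) (nat_lit 5) (nat_lit 94) (nat_lit 5) (nat_lit 347) (nat_lit 339) (nat_lit 94)) (XT.nd (nat_lit 78) (nat_lit 0) (nat_lit 0) (XT.lf (nat_lit 0)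 (nat_lit 25363725546) (nat_lit 760) (nat_lit 89873457261) (nat_lit 836) (nat_lit 127716644198) (nat_lit 83) (nat_lit 5) (nat_lit 93) (nat_lit 5) (nat_lit 94) (nat_lit 5) (nat_lit 348) (nat_lit 339) (nat_lit 93)) (XT.lf (nat_lit 76) (nat_lit 27526469814) (nat_lit 0) (nat_lit 13171799952) (nat_lit 836) (nat_lit 208913754548) (nat_lit 84) (nat_lit 5) (nat_lit 83) (nat_lit 5) (nat_lit 94) (nat_lit 5) (nat_lit 349) (nat_lit 339) (nat_lit 92)))))) (XT.nd (nat_lit 40170) (nat_lit 152) (nat_lit 0) (XT.nd (nat_lit 39936) (nat_lit 0) (nat_lit 456) (XT.nd (nat_lit 39858) (nat_lit 0) (nat_lit 456) (XT.lf (nat_lit 0) (nat_lit 59814026427) (nat_lit 760) (nat_lit 104103002207) (nat_lit 76) (nat_lit 92535378722) (nat_lit 84) (nat_lit 5) (nat_lit 94) (nat_lit 5) (nat_lit 85) (nat_lit 5) (nat_lit 350) (nat_lit 339) (nat_lit 91)) (XT.lf (nat_lit 0) (nat_lit 42294563961) (nat_lit 0) (nat_lit 42294563961)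 (nat_lit 684) (nat_lit 16716560037) (nat_lit 90) (nat_lit 5) (nat_lit 90) (nat_lit 3) (nat_lit 99) (nat_lit 3) (nat_lit 340) (nat_lit 340) (nat_lit 100))) (XT.nd (nat_lit 78) (nat_lit 0) (nat_lit 0) (XT.lf (nat_lit 0) (nat_lit 173534764271) (nat_lit 684) (nat_lit 26350753688) (nat_lit 760) (nat_lit 7784786751) (nat_lit 90) (nat_lit 5) (nat_lit 99) (nat_lit 3) (nat_lit 100) (nat_lit 5) (nat_lit 341) (nat_lit 340) (nat_lit 99)) (XT.nd (nat_lit 78) (nat_lit 0) (nat_lit 0) (XT.lf (nat_lit 76) (nat_lit 70783054691) (nat_lit 0) (nat_lit 109817777598) (nat_lit 760) (nat_lit 32256761133) (nat_lit 91) (nat_lit 5) (nat_lit 90) (nat_lit 5) (nat_lit 100) (nat_lit 5) (nat_lit 342) (nat_lit 340) (nat_lit 98)) (XT.lf (nat_lit 76) (nat_lit 173688339589) (nat_lit 0) (nat_lit 14778035878) (nat_lit 760) (nat_lit 29815562698) (nat_lit 91) (nat_lit 5) (nat_lit 90) (nat_lit 5) (nat_lit 100) (nat_lit 5) (nat_lit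 343) (nat_lit 340) (nat_lit 97))))) (XT.nd (nat_lit 156) (nat_lit 684) (nat_lit 0) (XT.nd (nat_lit 78) (nat_lit 0) (nat_lit 0) (XT.lf (nat_lit 76) (nat_lit 58299995387) (nat_lit 0) (nat_lit 140662642627) (nat_lit 760) (nat_lit 24902990195) (nat_lit 92) (nat_lit 5) (nat_lit 91) (nat_lit 5) (nat_lit 101) (nat_lit 5) (nat_lit 344) (nat_lit 340) (nat_lit 96)) (XT.lf (nat_lit 76) (nat_lit 167636130653) (nat_lit 0) (nat_lit 43341069774) (nat_lit 760) (nat_lit 18701628158) (nat_lit 92) (nat_lit 5) (nat_lit 91) (nat_lit 5) (nat_lit 101) (nat_lit 5) (nat_lit 345) (nat_lit 340) (nat_lit 95))) (XT.nd (nat_lit 78) (nat_lit 760) (nat_lit 0) (XT.lf (nat_lit 76) (nat_lit 47249857980) (nat_lit 0) (nat_lit 177999017263) (nat_lit 760) (nat_lit 10450994681) (nat_lit 93) (nat_lit 5) (nat_lit 92) (nat_lit 5) (nat_lit 102) (nat_lit 5) (nat_lit 346) (nat_lit 340) (nat_lit 94)) (XT.nd (nat_lit 78) (nat_lit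 0) (nat_lit 76) (XT.lf (nat_lit 0) (nat_lit 47772609) (nat_lit 760) (nat_lit 78508282372) (nat_lit 836) (nat_lit 163378385123) (nat_lit 82) (nat_lit 5) (nat_lit 92) (nat_lit 5) (nat_lit 93) (nat_lit 5) (nat_lit 347) (nat_lit 340) (nat_lit 93)) (XT.lf (nat_lit 0) (nat_lit 11729333276) (nat_lit 760) (nat_lit 210884218287) (nat_lit 836) (nat_lit 25808167129) (nat_lit 83) (nat_lit 5) (nat_lit 93) (nat_lit 5) (nat_lit 94) (nat_lit 5) (nat_lit 348) (nat_lit 340) (nat_lit 92))))))) (XT.nd (nat_lit 80808) (nat_lit 0) (nat_lit 608) (XT.nd (nat_lit 40326) (nat_lit 76) (nat_lit 0) (XT.nd (nat_lit 40092) (nat_lit 0) (nat_lit 532) (XT.nd (nat_lit 40014) (nat_lit 0) (nat_lit 532) (XT.lf (nat_lit 0) (nat_lit 26634077806) (nat_lit 760) (nat_lit 94365338565) (nat_lit 836) (nat_lit 134101989677) (nat_lit 83) (nat_lit 5) (nat_lit 93) (nat_lit 5) (nat_lit 94) (nat_lit 5) (nat_lit 349) (nat_lit 340) (nat_lit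 91)) (XT.lf (nat_lit 0) (nat_lit 44410025996) (nat_lit 0) (nat_lit 44410025996) (nat_lit 684) (nat_lit 17550844021) (nat_lit 90) (nat_lit 5) (nat_lit 90) (nat_lit 3) (nat_lit 99) (nat_lit 3) (nat_lit 341) (nat_lit 341) (nat_lit 98))) (XT.nd (nat_lit 78) (nat_lit 0) (nat_lit 0) (XT.lf (nat_lit 0) (nat_lit 182214276229) (nat_lit 684) (nat_lit 27666726347) (nat_lit 760) (nat_lit 8172673042) (nat_lit 90) (nat_lit 5) (nat_lit 99) (nat_lit 3) (nat_lit 100) (nat_lit 5) (nat_lit 342) (nat_lit 341) (nat_lit 97)) (XT.nd (nat_lit 78) (nat_lit 0) (nat_lit 0) (XT.lf (nat_lit 76) (nat_lit 74323747209) (nat_lit 0) (nat_lit 115309792397) (nat_lit 760) (nat_lit 33866794831) (nat_lit 91) (nat_lit 5) (nat_lit 90) (nat_lit 5) (nat_lit 100) (nat_lit 5) (nat_lit 343) (nat_lit 341) (nat_lit 96)) (XT.lf (nat_lit 76) (nat_lit 182374223029) (nat_lit 0) (nat_lit 15518009975) (nat_lit 760) (nat_lit 31303670015)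 (nat_lit 91) (nat_lit 5) (nat_lit 90) (nat_lit 5) (nat_lit 100) (nat_lit 5) (nat_lit 344) (nat_lit 341) (nat_lit 95))))) (XT.nd (nat_lit 156) (nat_lit 684) (nat_lit 0) (XT.nd (nat_lit 78) (nat_lit 0) (nat_lit 0) (XT.lf (nat_lit 76) (nat_lit 61216584359) (nat_lit 0) (nat_lit 147696612293) (nat_lit 760) (nat_lit 26145586758) (nat_lit 92) (nat_lit 5) (nat_lit 91) (nat_lit 5) (nat_lit 101) (nat_lit 5) (nat_lit 345) (nat_lit 341) (nat_lit 94)) (XT.lf (nat_lit 76) (nat_lit 176019450713) (nat_lit 0) (nat_lit 45508920915) (nat_lit 760) (nat_lit 19634278188) (nat_lit 92) (nat_lit 5) (nat_lit 91) (nat_lit 5) (nat_lit 101) (nat_lit 5) (nat_lit 346) (nat_lit 341) (nat_lit 93))) (XT.nd (nat_lit 78) (nat_lit 760) (nat_lit 0) (XT.lf (nat_lit 76) (nat_lit 49613970508) (nat_lit 0) (nat_lit 186899563046) (nat_lit 760) (nat_lit 10971214720) (nat_lit 93) (nat_lit 5) (nat_lit 92) (nat_lit 5) (nat_lit 102)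 (nat_lit 5) (nat_lit 347) (nat_lit 341) (nat_lit 92)) (XT.nd (nat_lit 40170) (nat_lit 0) (nat_lit 608) (XT.lf (nat_lit 0) (nat_lit 52308983) (nat_lit 760) (nat_lit 82432078965) (nat_lit 836) (nat_lit 171546662765) (nat_lit 82) (nat_lit 5) (nat_lit 92) (nat_lit 5) (nat_lit 93) (nat_lit 5) (nat_lit 348) (nat_lit 341) (nat_lit 91)) (XT.lf (nat_lit 0) (nat_lit 46631192907) (nat_lit 0) (nat_lit 46631192907) (nat_lit 684) (nat_lit 18426985753) (nat_lit 90) (nat_lit 5) (nat_lit 90) (nat_lit 3) (nat_lit 99) (nat_lit 3) (nat_lit 342) (nat_lit 342) (nat_lit 96)))))) (XT.nd (nat_lit 40638) (nat_lit 0) (nat_lit 0) (XT.nd (nat_lit 156) (nat_lit 0) (nat_lit 0) (XT.nd (nat_lit 78) (nat_lit 0) (nat_lit 0) (XT.lf (nat_lit 0) (nat_lit 191327505908) (nat_lit 684) (nat_lit 29048643140) (nat_lit 760) (nat_lit 8580079442) (nat_lit 90) (nat_lit 5) (nat_lit 99) (nat_lit 3) (nat_lit 100) (nat_lit 5) (nat_lit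 343) (nat_lit 342) (nat_lit 95)) (XT.lf (nat_lit 76) (nat_lit 78041331198) (nat_lit 0) (nat_lit 121076303258) (nat_lit 760) (nat_lit 35557590937) (nat_lit 91) (nat_lit 5) (nat_lit 90) (nat_lit 5) (nat_lit 100) (nat_lit 5) (nat_lit 344) (nat_lit 342) (nat_lit 94))) (XT.nd (nat_lit 78) (nat_lit 0) (nat_lit 76) (XT.lf (nat_lit 76) (nat_lit 191494264303) (nat_lit 0) (nat_lit 16294883085) (nat_lit 760) (nat_lit 32866431006) (nat_lit 91) (nat_lit 5) (nat_lit 90) (nat_lit 5) (nat_lit 100) (nat_lit 5) (nat_lit 345) (nat_lit 342) (nat_lit 93)) (XT.nd (nat_lit 78) (nat_lit 0) (nat_lit 0) (XT.lf (nat_lit 76) (nat_lit 64278855032) (nat_lit 0) (nat_lit 155082202576) (nat_lit 760) (nat_lit 27450550498) (nat_lit 92) (nat_lit 5) (nat_lit 91) (nat_lit 5) (nat_lit 101) (nat_lit 5) (nat_lit 346) (nat_lit 342) (nat_lit 92)) (XT.lf (nat_lit 76) (nat_lit 184821796062) (nat_lit 0) (nat_lit 47785090454) (nat_lit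 760) (nat_lit 20613786766) (nat_lit 92) (nat_lit 5) (nat_lit 91) (nat_lit 5) (nat_lit 101) (nat_lit 5) (nat_lit 347) (nat_lit 342) (nat_lit 91))))) (XT.nd (nat_lit 234) (nat_lit 0) (nat_lit 0) (XT.nd (nat_lit 78) (nat_lit 0) (nat_lit 0) (XT.lf (nat_lit 0) (nat_lit 48963356282) (nat_lit 0) (nat_lit 48963356282) (nat_lit 684) (nat_lit 19347064773) (nat_lit 90) (nat_lit 5) (nat_lit 90) (nat_lit 3) (nat_lit 99) (nat_lit 3) (nat_lit 343) (nat_lit 343) (nat_lit 94)) (XT.nd (nat_lit 78) (nat_lit 0) (nat_lit 0) (XT.lf (nat_lit 0) (nat_lit 200896163170) (nat_lit 684) (nat_lit 30499787746) (nat_lit 760) (nat_lit 9007970259) (nat_lit 90) (nat_lit 5) (nat_lit 99) (nat_lit 3) (nat_lit 100) (nat_lit 5) (nat_lit 344) (nat_lit 343) (nat_lit 93)) (XT.lf (nat_lit 76) (nat_lit 81944664542) (nat_lit 0) (nat_lit 127131044716) (nat_lit 760) (nat_lit 37333163331) (nat_lit 91) (nat_lit 5) (nat_lit 90) (nat_lit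 5) (nat_lit 100) (nat_lit 5) (nat_lit 345) (nat_lit 343) (nat_lit 92)))) (XT.nd (nat_lit 40482) (nat_lit 0) (nat_lit 0) (XT.lf (nat_lit 76) (nat_lit 201070183979) (nat_lit 0) (nat_lit 17110509426) (nat_lit 760) (nat_lit 34507555268) (nat_lit 91) (nat_lit 5) (nat_lit 90) (nat_lit 5) (nat_lit 100) (nat_lit 5) (nat_lit 346) (nat_lit 343) (nat_lit 91)) (XT.nd (nat_lit 78) (nat_lit 0) (nat_lit 0) (XT.lf (nat_lit 0) (nat_lit 51412071696) (nat_lit 0) (nat_lit 51412071696) (nat_lit 684) (nat_lit 20313265842) (nat_lit 90) (nat_lit 5) (nat_lit 90) (nat_lit 3) (nat_lit 99) (nat_lit 3) (nat_lit 344) (nat_lit 344) (nat_lit 92)) (XT.lf (nat_lit 0) (nat_lit 210943041140) (nat_lit 684) (nat_lit 32023609287) (nat_lit 760) (nat_lit 9457359109) (nat_lit 90) (nat_lit 5) (nat_lit 99) (nat_lit 3) (nat_lit 100) (nat_lit 5) (nat_lit 345) (nat_lit 344) (nat_lit 91))))))))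

set_option maxRecDepth 10000000 in
noncomputable def Tp : PT := (PT.nd (nat_lit 5415462) (PT.nd (nat_lit 5008926) (PT.nd (nat_lit 4603092) (PT.nd (nat_lit 4277988) pc0 pc1) (PT.nd (nat_lit 243438) pc2 pc3)) (PT.nd (nat_lit 243672) (PT.nd (nat_lit 122304) pc4 pc5) (PT.nd (nat_lit 81588) pc6 pc7))) (PT.nd (nat_lit 243906) (PT.nd (nat_lit 160758) (PT.nd (nat_lit 80652) pc8 pc9) (PT.nd (nat_lit 41652) pc10 pc11)) (PT.nd (nat_lit 162630) (PT.nd (nat_lit 79248) pc12 pc13) (PT.nd (nat_lit 122616) pc14 pc15))))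

set_option maxRecDepth 10000000 in
noncomputable def Tx : XT := (XT.nd (nat_lit 7954830) (nat_lit 0) (nat_lit 76) XT.nil (XT.nd (nat_lit 6051630) (nat_lit 0) (nat_lit 0) (XT.nd (nat_lit 2920008) (nat_lit 0) (nat_lit 76) (XT.nd (nat_lit 2027454) (nat_lit 0) (nat_lit 0) (XT.nd (nat_lit 1419054) (nat_lit 0) (nat_lit 0) (XT.nd (nat_lit 975000) (nat_lit 0) (nat_lit 0) (XT.nd (nat_lit 689442) (nat_lit 0) (nat_lit 0) (XT.nd (nat_lit 486174) (nat_lit 0) (nat_lit 0) (XT.nd (nat_lit 324480) (nat_lit 0) (nat_lit 0) (XT.nd (nat_lit 203190) (nat_lit 0) (nat_lit 0) xc0 xc1) (XT.nd (nat_lit 81120) (nat_lit 0) (nat_lit 0) xc2 xc3)) (XT.nd (nat_lit 121134) (nat_lit 0) (nat_lit 0) (XT.nd (nat_lit 41574) (nat_lit 0) (nat_lit 0) xc4 xc5) (XT.nd (nat_lit 41106) (nat_lit 0) (nat_lit 0) xc6 xc7))) (XT.nd (nat_lit 162318) (nat_lit 0) (nat_lit 0) (XT.nd (nat_lit 81432) (nat_lit 0) (nat_lit 0) (XT.nd (nat_lit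 40794) (nat_lit 0) (nat_lit 0) xc8 xc9) (XT.nd (nat_lit 40482) (nat_lit 0) (nat_lit 0) xc10 xc11)) (XT.nd (nat_lit 80184) (nat_lit 0) (nat_lit 0) (XT.nd (nat_lit 40170) (nat_lit 0) (nat_lit 0) xc12 xc13) (XT.nd (nat_lit 39858) (nat_lit 0) (nat_lit 0) xc14 xc15)))) (XT.nd (nat_lit 242268) (nat_lit 0) (nat_lit 0) (XT.nd (nat_lit 121836) (nat_lit 0) (nat_lit 0) (XT.nd (nat_lit 79248) (nat_lit 0) (nat_lit 0) (XT.nd (nat_lit 39702) (nat_lit 0) (nat_lit 0) xc16 xc17) (XT.nd (nat_lit 39390) (nat_lit 0) (nat_lit 0) xc18 xc19)) (XT.nd (nat_lit 78312) (nat_lit 0) (nat_lit 0) (XT.nd (nat_lit 39234) (nat_lit 0) (nat_lit 0) xc20 xc21) (XT.nd (nat_lit 3120) (nat_lit 0) (nat_lit 0) xc22 xc23))) (XT.nd (nat_lit 119028) (nat_lit 0) (nat_lit 0) (XT.nd (nat_lit 41886) (nat_lit 0) (nat_lit 0) (XT.nd (nat_lit 38766) (nat_lit 0) (nat_lit 0) xc24 xc25) (XT.nd (nat_lit 38610) (nat_lit 0) (nat_lit 0) xc26 xc27))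 (XT.nd (nat_lit 41418) (nat_lit 0) (nat_lit 0) (XT.nd (nat_lit 3120) (nat_lit 0) (nat_lit 0) xc28 xc29) (XT.nd (nat_lit 3120) (nat_lit 0) (nat_lit 0) xc30 xc31))))) (XT.nd (nat_lit 325338) (nat_lit 0) (nat_lit 0) (XT.nd (nat_lit 163878) (nat_lit 0) (nat_lit 0) (XT.nd (nat_lit 82212) (nat_lit 0) (nat_lit 0) (XT.nd (nat_lit 41106) (nat_lit 0) (nat_lit 0) (XT.nd (nat_lit 3120) (nat_lit 0) (nat_lit 0) xc32 xc33) (XT.nd (nat_lit 37908) (nat_lit 0) (nat_lit 76) xc34 xc35)) (XT.nd (nat_lit 40872) (nat_lit 0) (nat_lit 0) (XT.nd (nat_lit 37752) (nat_lit 0) (nat_lit 76) xc36 xc37) (XT.nd (nat_lit 37596) (nat_lit 0) (nat_lit 0) xc38 xc39))) (XT.nd (nat_lit 81042) (nat_lit 0) (nat_lit 0) (XT.nd (nat_lit 40560) (nat_lit 0) (nat_lit 0) (XT.nd (nat_lit 37440) (nat_lit 0) (nat_lit 76) xc40 xc41) (XT.nd (nat_lit 37284) (nat_lit 0) (nat_lit 76) xc42 xc43)) (XT.nd (nat_lit 40248) (nat_lit 0) (nat_lit 0)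 (XT.nd (nat_lit 37128) (nat_lit 0) (nat_lit 76) xc44 xc45) (XT.nd (nat_lit 36972) (nat_lit 0) (nat_lit 76) xc46 xc47)))) (XT.nd (nat_lit 158964) (nat_lit 0) (nat_lit 0) (XT.nd (nat_lit 79794) (nat_lit 0) (nat_lit 0) (XT.nd (nat_lit 39936) (nat_lit 0) (nat_lit 0) (XT.nd (nat_lit 36816) (nat_lit 0) (nat_lit 228) xc48 xc49) (XT.nd (nat_lit 3120) (nat_lit 0) (nat_lit 0) xc50 xc51)) (XT.nd (nat_lit 39624) (nat_lit 0) (nat_lit 0) (XT.nd (nat_lit 3120) (nat_lit 0) (nat_lit 0) xc52 xc53) (XT.nd (nat_lit 3120) (nat_lit 76) (nat_lit 0) xc54 xc55))) (XT.nd (nat_lit 45630) (nat_lit 0) (nat_lit 0) (XT.nd (nat_lit 6240) (nat_lit 0) (nat_lit 0) (XT.nd (nat_lit 3120) (nat_lit 228) (nat_lit 0) xc56 xc57) (XT.nd (nat_lit 36192) (nat_lit 0) (nat_lit 76) xc58 xc59)) (XT.nd (nat_lit 39312) (nat_lit 0) (nat_lit 0) (XT.nd (nat_lit 36114) (nat_lit 0) (nat_lit 76) xc60 xc61) (XT.nd (nat_lit 35958) (nat_lit 0)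 (nat_lit 456) xc62 xc63)))))) (XT.nd (nat_lit 482898) (nat_lit 0) (nat_lit 0) (XT.nd (nat_lit 243984) (nat_lit 0) (nat_lit 0) (XT.nd (nat_lit 122694) (nat_lit 0) (nat_lit 0) (XT.nd (nat_lit 77766) (nat_lit 0) (nat_lit 0) (XT.nd (nat_lit 38922) (nat_lit 0) (nat_lit 0) (XT.nd (nat_lit 3120) (nat_lit 76) (nat_lit 0) xc64 xc65) (XT.nd (nat_lit 3120) (nat_lit 228) (nat_lit 0) xc66 xc67)) (XT.nd (nat_lit 6240) (nat_lit 76) (nat_lit 0) (XT.nd (nat_lit 3120) (nat_lit 456) (nat_lit 0) xc68 xc69) (XT.nd (nat_lit 35490) (nat_lit 0) (nat_lit 304) xc70 xc71))) (XT.nd (nat_lit 76830) (nat_lit 0) (nat_lit 0) (XT.nd (nat_lit 38454) (nat_lit 0) (nat_lit 0) (XT.nd (nat_lit 3120) (nat_lit 0) (nat_lit 0) xc72 xc73) (XT.nd (nat_lit 3120) (nat_lit 152) (nat_lit 0) xc74 xc75)) (XT.nd (nat_lit 6240) (nat_lit 76) (nat_lit 0) (XT.nd (nat_lit 3120) (nat_lit 608) (nat_lit 0) xc76 xc77) (XT.nd (nat_lit 35022) (nat_lit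 0) (nat_lit 456) xc78 xc79)))) (XT.nd (nat_lit 120120) (nat_lit 0) (nat_lit 0) (XT.nd (nat_lit 44382) (nat_lit 0) (nat_lit 0) (XT.nd (nat_lit 38064) (nat_lit 0) (nat_lit 0) (XT.nd (nat_lit 3120) (nat_lit 76) (nat_lit 0) xc80 xc81) (XT.nd (nat_lit 3120) (nat_lit 304) (nat_lit 0) xc82 xc83)) (XT.nd (nat_lit 37908) (nat_lit 0) (nat_lit 0) (XT.nd (nat_lit 34788) (nat_lit 0) (nat_lit 304) xc84 xc85) (XT.nd (nat_lit 3120) (nat_lit 0) (nat_lit 0) xc86 xc87))) (XT.nd (nat_lit 43914) (nat_lit 0) (nat_lit 0) (XT.nd (nat_lit 37596) (nat_lit 0) (nat_lit 228) (XT.nd (nat_lit 3120) (nat_lit 228) (nat_lit 0) xc88 xc89) (XT.nd (nat_lit 3120) (nat_lit 1140) (nat_lit 0) xc90 xc91)) (XT.nd (nat_lit 37518) (nat_lit 0) (nat_lit 0) (XT.nd (nat_lit 34320) (nat_lit 0) (nat_lit 1368) xc92 xc93) (XT.nd (nat_lit 3120) (nat_lit 228) (nat_lit 0) xc94 xc95))))) (XT.nd (nat_lit 204048) (nat_lit 0) (nat_lit 76) (XT.nd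 (nat_lit 86736) (nat_lit 0) (nat_lit 0) (XT.nd (nat_lit 43446) (nat_lit 0) (nat_lit 0) (XT.nd (nat_lit 6240) (nat_lit 304) (nat_lit 0) (XT.nd (nat_lit 3120) (nat_lit 1292) (nat_lit 0) xc96 xc97) (XT.nd (nat_lit 34008) (nat_lit 0) (nat_lit 1824) xc98 xc99)) (XT.nd (nat_lit 6240) (nat_lit 0) (nat_lit 0) (XT.nd (nat_lit 3120) (nat_lit 304) (nat_lit 0) xc100 xc101) (XT.nd (nat_lit 33852) (nat_lit 0) (nat_lit 456) xc102 xc103))) (XT.nd (nat_lit 43212) (nat_lit 0) (nat_lit 76) (XT.nd (nat_lit 36894) (nat_lit 0) (nat_lit 76) (XT.nd (nat_lit 3120) (nat_lit 76) (nat_lit 0) xc104 xc105) (XT.nd (nat_lit 3120) (nat_lit 608) (nat_lit 0) xc106 xc107)) (XT.nd (nat_lit 36972) (nat_lit 0) (nat_lit 0) (XT.nd (nat_lit 33852) (nat_lit 0) (nat_lit 760) xc108 xc109) (XT.nd (nat_lit 3120) (nat_lit 0) (nat_lit 0) xc110 xc111)))) (XT.nd (nat_lit 86970) (nat_lit 0) (nat_lit 0) (XT.nd (nat_lit 43446) (nat_lit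 0) (nat_lit 0) (XT.nd (nat_lit 6240) (nat_lit 152) (nat_lit 0) (XT.nd (nat_lit 3120) (nat_lit 836) (nat_lit 0) xc112 xc113) (XT.nd (nat_lit 34008) (nat_lit 0) (nat_lit 1292) xc114 xc115)) (XT.nd (nat_lit 37206) (nat_lit 0) (nat_lit 228) (XT.nd (nat_lit 3120) (nat_lit 152) (nat_lit 0) xc116 xc117) (XT.nd (nat_lit 3120) (nat_lit 1368) (nat_lit 0) xc118 xc119))) (XT.nd (nat_lit 74724) (nat_lit 0) (nat_lit 0) (XT.nd (nat_lit 37284) (nat_lit 0) (nat_lit 0) (XT.nd (nat_lit 34164) (nat_lit 0) (nat_lit 1748) xc120 xc121) (XT.nd (nat_lit 3120) (nat_lit 228) (nat_lit 0) xc122 xc123)) (XT.nd (nat_lit 6318) (nat_lit 304) (nat_lit 0) (XT.nd (nat_lit 3120) (nat_lit 1596) (nat_lit 0) xc124 xc125) (XT.nd (nat_lit 34398) (nat_lit 0) (nat_lit 1900) xc126 xc127))))))) (XT.nd (nat_lit 978744) (nat_lit 0) (nat_lit 228) (XT.nd (nat_lit 450138) (nat_lit 0) (nat_lit 0) (XT.nd (nat_lit 207792) (nat_lit 0) (nat_lit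 0) (XT.nd (nat_lit 119418) (nat_lit 0) (nat_lit 0) (XT.nd (nat_lit 43914) (nat_lit 0) (nat_lit 0) (XT.nd (nat_lit 37596) (nat_lit 0) (nat_lit 228) (XT.nd (nat_lit 3120) (nat_lit 304) (nat_lit 0) xc128 xc129) (XT.nd (nat_lit 3120) (nat_lit 1596) (nat_lit 0) xc130 xc131)) (XT.nd (nat_lit 37674) (nat_lit 0) (nat_lit 0) (XT.nd (nat_lit 34554) (nat_lit 0) (nat_lit 1748) xc132 xc133) (XT.nd (nat_lit 3120) (nat_lit 228) (nat_lit 0) xc134 xc135))) (XT.nd (nat_lit 44148) (nat_lit 0) (nat_lit 0) (XT.nd (nat_lit 6240) (nat_lit 228) (nat_lit 0) (XT.nd (nat_lit 3120) (nat_lit 1292) (nat_lit 0) xc136 xc137) (XT.nd (nat_lit 34710) (nat_lit 0) (nat_lit 1292) xc138 xc139)) (XT.nd (nat_lit 37908) (nat_lit 0) (nat_lit 152) (XT.nd (nat_lit 3120) (nat_lit 152) (nat_lit 0) xc140 xc141) (XT.nd (nat_lit 3120) (nat_lit 836) (nat_lit 0) xc142 xc143)))) (XT.nd (nat_lit 120822) (nat_lit 0) (nat_lit 0) (XT.nd (nat_lit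 76284) (nat_lit 0) (nat_lit 0) (XT.nd (nat_lit 38064) (nat_lit 0) (nat_lit 0) (XT.nd (nat_lit 34944) (nat_lit 0) (nat_lit 760) xc144 xc145) (XT.nd (nat_lit 3120) (nat_lit 0) (nat_lit 0) xc146 xc147)) (XT.nd (nat_lit 38220) (nat_lit 0) (nat_lit 380) (XT.nd (nat_lit 3120) (nat_lit 532) (nat_lit 0) xc148 xc149) (XT.nd (nat_lit 3120) (nat_lit 1672) (nat_lit 0) xc150 xc151))) (XT.nd (nat_lit 76752) (nat_lit 0) (nat_lit 0) (XT.nd (nat_lit 38298) (nat_lit 0) (nat_lit 0) (XT.nd (nat_lit 35178) (nat_lit 0) (nat_lit 1444) xc152 xc153) (XT.nd (nat_lit 3120) (nat_lit 228) (nat_lit 0) xc154 xc155)) (XT.nd (nat_lit 6240) (nat_lit 152) (nat_lit 0) (XT.nd (nat_lit 3120) (nat_lit 760) (nat_lit 0) xc156 xc157) (XT.nd (nat_lit 35334) (nat_lit 0) (nat_lit 532) xc158 xc159))))) (XT.nd (nat_lit 245778) (nat_lit 0) (nat_lit 152) (XT.nd (nat_lit 122460) (nat_lit 0) (nat_lit 152) (XT.nd (nat_lit 77376) (nat_lit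 0) (nat_lit 76) (XT.nd (nat_lit 38610) (nat_lit 0) (nat_lit 76) (XT.nd (nat_lit 35490) (nat_lit 0) (nat_lit 1596) xc160 xc161) (XT.nd (nat_lit 3120) (nat_lit 152) (nat_lit 0) xc162 xc163)) (XT.nd (nat_lit 6240) (nat_lit 76) (nat_lit 0) (XT.nd (nat_lit 3120) (nat_lit 760) (nat_lit 0) xc164 xc165) (XT.nd (nat_lit 35646) (nat_lit 0) (nat_lit 380) xc166 xc167))) (XT.nd (nat_lit 77922) (nat_lit 0) (nat_lit 0) (XT.nd (nat_lit 38844) (nat_lit 0) (nat_lit 0) (XT.nd (nat_lit 35724) (nat_lit 0) (nat_lit 1140) xc168 xc169) (XT.nd (nat_lit 3120) (nat_lit 0) (nat_lit 0) xc170 xc171)) (XT.nd (nat_lit 39078) (nat_lit 0) (nat_lit 76) (XT.nd (nat_lit 3120) (nat_lit 380) (nat_lit 0) xc172 xc173) (XT.nd (nat_lit 3120) (nat_lit 1064) (nat_lit 0) xc174 xc175)))) (XT.nd (nat_lit 157404) (nat_lit 0) (nat_lit 76) (XT.nd (nat_lit 78468) (nat_lit 0) (nat_lit 0) (XT.nd (nat_lit 39156) (nat_lit 0) (nat_lit 0) (XT.nd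 (nat_lit 36036) (nat_lit 0) (nat_lit 380) xc176 xc177) (XT.nd (nat_lit 36114) (nat_lit 0) (nat_lit 1064) xc178 xc179)) (XT.nd (nat_lit 39390) (nat_lit 0) (nat_lit 0) (XT.nd (nat_lit 36270) (nat_lit 0) (nat_lit 2128) xc180 xc181) (XT.nd (nat_lit 3120) (nat_lit 304) (nat_lit 0) xc182 xc183))) (XT.nd (nat_lit 45864) (nat_lit 0) (nat_lit 0) (XT.nd (nat_lit 39546) (nat_lit 0) (nat_lit 0) (XT.nd (nat_lit 3120) (nat_lit 684) (nat_lit 0) xc184 xc185) (XT.nd (nat_lit 3120) (nat_lit 1368) (nat_lit 0) xc186 xc187)) (XT.nd (nat_lit 39702) (nat_lit 0) (nat_lit 0) (XT.nd (nat_lit 36504) (nat_lit 0) (nat_lit 228) xc188 xc189) (XT.nd (nat_lit 36660) (nat_lit 0) (nat_lit 532) xc190 xc191)))))) (XT.nd (nat_lit 687336) (nat_lit 0) (nat_lit 684) (XT.nd (nat_lit 322140) (nat_lit 0) (nat_lit 228) (XT.nd (nat_lit 160212) (nat_lit 0) (nat_lit 76) (XT.nd (nat_lit 79872) (nat_lit 0) (nat_lit 0) (XT.nd (nat_lit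 39858) (nat_lit 0) (nat_lit 0) (XT.nd (nat_lit 36738) (nat_lit 0) (nat_lit 1064) xc192 xc193) (XT.nd (nat_lit 36816) (nat_lit 0) (nat_lit 1520) xc194 xc195)) (XT.nd (nat_lit 40092) (nat_lit 0) (nat_lit 76) (XT.nd (nat_lit 3120) (nat_lit 76) (nat_lit 0) xc196 xc197) (XT.nd (nat_lit 3120) (nat_lit 152) (nat_lit 0) xc198 xc199))) (XT.nd (nat_lit 80730) (nat_lit 0) (nat_lit 76) (XT.nd (nat_lit 40248) (nat_lit 0) (nat_lit 76) (XT.nd (nat_lit 3120) (nat_lit 304) (nat_lit 0) xc200 xc201) (XT.nd (nat_lit 3120) (nat_lit 380) (nat_lit 0) xc202 xc203)) (XT.nd (nat_lit 40482) (nat_lit 0) (nat_lit 76) (XT.nd (nat_lit 3120) (nat_lit 532) (nat_lit 0) xc204 xc205) (XT.nd (nat_lit 3120) (nat_lit 532) (nat_lit 0) xc206 xc207)))) (XT.nd (nat_lit 163722) (nat_lit 0) (nat_lit 152) (XT.nd (nat_lit 81588) (nat_lit 0) (nat_lit 0) (XT.nd (nat_lit 40716) (nat_lit 0) (nat_lit 0) (XT.nd (nat_lit 3120) (nat_lit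 532) (nat_lit 0) xc208 xc209) (XT.nd (nat_lit 3120) (nat_lit 532) (nat_lit 0) xc210 xc211)) (XT.nd (nat_lit 40950) (nat_lit 0) (nat_lit 76) (XT.nd (nat_lit 3120) (nat_lit 456) (nat_lit 0) xc212 xc213) (XT.nd (nat_lit 3120) (nat_lit 228) (nat_lit 0) xc214 xc215))) (XT.nd (nat_lit 82680) (nat_lit 0) (nat_lit 76) (XT.nd (nat_lit 41262) (nat_lit 0) (nat_lit 0) (XT.nd (nat_lit 3198) (nat_lit 76) (nat_lit 0) xc216 xc217) (XT.nd (nat_lit 38220) (nat_lit 0) (nat_lit 1140) xc218 xc219)) (XT.nd (nat_lit 41574) (nat_lit 0) (nat_lit 0) (XT.nd (nat_lit 38376) (nat_lit 0) (nat_lit 456) xc220 xc221) (XT.nd (nat_lit 38454) (nat_lit 0) (nat_lit 76) xc222 xc223))))) (XT.nd (nat_lit 449124) (nat_lit 0) (nat_lit 836) (XT.nd (nat_lit 204594) (nat_lit 0) (nat_lit 304) (XT.nd (nat_lit 84006) (nat_lit 0) (nat_lit 76) (XT.nd (nat_lit 41886) (nat_lit 0) (nat_lit 0) (XT.nd (nat_lit 3120) (nat_lit 988) (nat_lit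 0) xc224 xc225) (XT.nd (nat_lit 3120) (nat_lit 76) (nat_lit 0) xc226 xc227)) (XT.nd (nat_lit 42120) (nat_lit 0) (nat_lit 0) (XT.nd (nat_lit 39000) (nat_lit 0) (nat_lit 304) xc228 xc229) (XT.nd (nat_lit 39156) (nat_lit 0) (nat_lit 152) xc230 xc231))) (XT.nd (nat_lit 121680) (nat_lit 0) (nat_lit 304) (XT.nd (nat_lit 42510) (nat_lit 0) (nat_lit 76) (XT.nd (nat_lit 39390) (nat_lit 0) (nat_lit 988) xc232 xc233) (XT.nd (nat_lit 39468) (nat_lit 0) (nat_lit 0) xc234 xc235)) (XT.nd (nat_lit 42900) (nat_lit 0) (nat_lit 76) (XT.nd (nat_lit 39780) (nat_lit 0) (nat_lit 760) xc236 xc237) (XT.nd (nat_lit 39858) (nat_lit 0) (nat_lit 0) xc238 xc239)))) (XT.nd (nat_lit 324714) (nat_lit 0) (nat_lit 1140) (XT.nd (nat_lit 161304) (nat_lit 0) (nat_lit 456) (XT.nd (nat_lit 80340) (nat_lit 0) (nat_lit 304) (XT.nd (nat_lit 40092) (nat_lit 0) (nat_lit 152) xc240 xc241) (XT.nd (nat_lit 40404) (nat_lit 0) (nat_lit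 0) xc242 xc243)) (XT.nd (nat_lit 81432) (nat_lit 0) (nat_lit 228) (XT.nd (nat_lit 40638) (nat_lit 0) (nat_lit 228) xc244 xc245) (XT.nd (nat_lit 40872) (nat_lit 0) (nat_lit 152) xc246 xc247))) (XT.nd (nat_lit 204204) (nat_lit 0) (nat_lit 1140) (XT.nd (nat_lit 82524) (nat_lit 0) (nat_lit 380) (XT.nd (nat_lit 41184) (nat_lit 0) (nat_lit 152) xc248 xc249) (XT.nd (nat_lit 79872) (nat_lit 0) (nat_lit 532) xc250 xc251)) (XT.nd (nat_lit 162240) (nat_lit 0) (nat_lit 988) (XT.nd (nat_lit 80730) (nat_lit 0) (nat_lit 304) xc252 xc253) (XT.nd (nat_lit 121602) (nat_lit 0) (nat_lit 1064) xc254 xc255)))))))) XT.nil))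

set_option maxRecDepth 10000000 in
noncomputable def Te : XT := XT.nil

set_option maxRecDepth 10000000 in
noncomputable def Tz : ZL := (ZL.cons (nat_lit 76) (nat_lit 3) (nat_lit 105160549325749285341) (ZL.cons (nat_lit 152) (nat_lit 6) (nat_lit 205664295431443903746) (ZL.cons (nat_lit 228) (nat_lit 6) (nat_lit 201252445586682827128) (ZL.cons (nat_lit 304) (nat_lit 3) (nat_lit 100509687784488651695) (ZL.cons (nat_lit 380) (nat_lit 6) (nat_lit 196620003249683696682) (ZL.cons (nat_lit 456) (nat_lit 6) (nat_lit 192455703777564765512) (ZL.cons (nat_lit 532) (nat_lit 3) (nat_lit 96116866166065466689) (ZL.cons (nat_lit 608) (nat_lit 6) (nat_lit 188083189331839887782) (ZL.cons (nat_lit 684) (nat_lit 6) (nat_lit 184158492003571771692) (ZL.cons (nat_lit 760) (nat_lit 3) (nat_lit 91973545313484061020) (ZL.cons (nat_lit 836) (nat_lit 6) (nat_lit 180037559808890249798) (ZL.cons (nat_lit 912) (nat_lit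 6) (nat_lit 176345288470896561830) (ZL.cons (nat_lit 988) (nat_lit 3) (nat_lit 88071976913256066796) (ZL.cons (nat_lit 1064) (nat_lit 6) (nat_lit 172468403566003189466) (ZL.cons (nat_lit 1140) (nat_lit 6) (nat_lit 169002157717219348504) (ZL.cons (nat_lit 1216) (nat_lit 3) (nat_lit 84405205218426613186) (ZL.cons (nat_lit 1292) (nat_lit 6) (nat_lit 165736963313853982514) (ZL.cons (nat_lit 1368) (nat_lit 6) (nat_lit 165362599575996315494) (ZL.cons (nat_lit 1444) (nat_lit 6) (nat_lit 162116761909954226092) (ZL.cons (nat_lit 1520) (nat_lit 3) (nat_lit 80967072726231340602) (ZL.cons (nat_lit 1596) (nat_lit 6) (nat_lit 159065169253807810334) (ZL.cons (nat_lit 1672) (nat_lit 6) (nat_lit 158708632360610032220) (ZL.cons (nat_lit 1748) (nat_lit 6) (nat_lit 155678380507362528902) (ZL.cons (nat_lit 1824) (nat_lit 3) (nat_lit 77752230035828147838) (ZL.cons (nat_lit 1900) (nat_lit 6) (nat_lit 152836175007355296240)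 (ZL.cons (nat_lit 1976) (nat_lit 6) (nat_lit 152496616061452650416) (ZL.cons (nat_lit 2052) (nat_lit 6) (nat_lit 149677938796641468720) (ZL.cons (nat_lit 2128) (nat_lit 3) (nat_lit 74756150143222528061) (ZL.cons (nat_lit 2204) (nat_lit 6) (nat_lit 147041717140877962052) (ZL.cons (nat_lit 2280) (nat_lit 6) (nat_lit 146718327668589727936) (ZL.cons (nat_lit 2356) (nat_lit 6) (nat_lit 144581674375934122070) (ZL.cons (nat_lit 2432) (nat_lit 6) (nat_lit 144108045892129867456) (ZL.cons (nat_lit 2508) (nat_lit 3) (nat_lit 71975147465019022969) (ZL.cons (nat_lit 2584) (nat_lit 6) (nat_lit 141675240000454855970) (ZL.cons (nat_lit 2660) (nat_lit 6) (nat_lit 141367250026847013954) (ZL.cons (nat_lit 2736) (nat_lit 6) (nat_lit 139414117598584514880) (ZL.cons (nat_lit 2812) (nat_lit 6) (nat_lit 138963042852104272392) (ZL.cons (nat_lit 2888) (nat_lit 3) (nat_lit 69406401920294125947) (ZL.cons (nat_lit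 2964) (nat_lit 6) (nat_lit 137319295061752486226) (ZL.cons (nat_lit 3040) (nat_lit 6) (nat_lit 136731949103012814718) (ZL.cons (nat_lit 3116) (nat_lit 6) (nat_lit 136438625318624393748) (ZL.cons (nat_lit 3192) (nat_lit 6) (nat_lit 134668656651598613652) (ZL.cons (nat_lit 3268) (nat_lit 6) (nat_lit 134239061654950763662) (ZL.cons (nat_lit 3344) (nat_lit 3) (nat_lit 67047988441039181595) (ZL.cons (nat_lit 3420) (nat_lit 6) (nat_lit 132768252896786873480) (ZL.cons (nat_lit 3496) (nat_lit 6) (nat_lit 132208875793225281564) (ZL.cons (nat_lit 3572) (nat_lit 6) (nat_lit 131929519808093452072) (ZL.cons (nat_lit 3648) (nat_lit 6) (nat_lit 131026213067732804344) (ZL.cons (nat_lit 3724) (nat_lit 6) (nat_lit 130343233957586696308) (ZL.cons (nat_lit 3800) (nat_lit 6) (nat_lit 129934095865541124890) (ZL.cons (nat_lit 3876) (nat_lit 3) (nat_lit 64898912326640847935) (ZL.cons (nat_lit 3952) (nat_lit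 6) (nat_lit 128637694143664439834) (ZL.cons (nat_lit 4028) (nat_lit 6) (nat_lit 128104954045034352296) (ZL.cons (nat_lit 4104) (nat_lit 6) (nat_lit 127838900725861181350) (ZL.cons (nat_lit 4180) (nat_lit 6) (nat_lit 127088195542377744862) (ZL.cons (nat_lit 4256) (nat_lit 6) (nat_lit 126437739247000499118) (ZL.cons (nat_lit 4332) (nat_lit 6) (nat_lit 126048083921242812052) (ZL.cons (nat_lit 4408) (nat_lit 3) (nat_lit 62959150907164535063) (ZL.cons (nat_lit 4484) (nat_lit 6) (nat_lit 125691048871342595454) (ZL.cons (nat_lit 4560) (nat_lit 6) (nat_lit 124928481912396627606) (ZL.cons (nat_lit 4636) (nat_lit 6) (nat_lit 124421110389891782334) (ZL.cons (nat_lit 4712) (nat_lit 6) (nat_lit 124167726276393524288) (ZL.cons (nat_lit 4788) (nat_lit 6) (nat_lit 124442927590866050780) (ZL.cons (nat_lit 4864) (nat_lit 6) (nat_lit 123573588571378442832) (ZL.cons (nat_lit 4940) (nat_lit 6) (nat_lit 122954106385304875456)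 (ZL.cons (nat_lit 5016) (nat_lit 6) (nat_lit 122583006075059459204) (ZL.cons (nat_lit 5092) (nat_lit 3) (nat_lit 61229702034237471542) (ZL.cons (nat_lit 5168) (nat_lit 6) (nat_lit 122369833287419711020) (ZL.cons (nat_lit 5244) (nat_lit 6) (nat_lit 121643579040804503544) (ZL.cons (nat_lit 5320) (nat_lit 6) (nat_lit 121160368066990365188) (ZL.cons (nat_lit 5396) (nat_lit 6) (nat_lit 120919049863658690862) (ZL.cons (nat_lit 5472) (nat_lit 6) (nat_lit 121314349976511006620) (ZL.cons (nat_lit 5548) (nat_lit 6) (nat_lit 120486408053189475242) (ZL.cons (nat_lit 5624) (nat_lit 6) (nat_lit 119896425018833696786) (ZL.cons (nat_lit 5700) (nat_lit 6) (nat_lit 119542996151933300356) (ZL.cons (nat_lit 5776) (nat_lit 3) (nat_lit 59712639977593071075) (ZL.cons (nat_lit 5852) (nat_lit 6) (nat_lit 120404625583150166048) (ZL.cons (nat_lit 5928) (nat_lit 6) (nat_lit 119479838253441659524) (ZL.cons (nat_lit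 6004) (nat_lit 6) (nat_lit 118788167542379557166) (ZL.cons (nat_lit 6080) (nat_lit 6) (nat_lit 118327966614937520636) (ZL.cons (nat_lit 6156) (nat_lit 6) (nat_lit 118098139754621640326) (ZL.cons (nat_lit 6232) (nat_lit 6) (nat_lit 118530050899972071678) (ZL.cons (nat_lit 6308) (nat_lit 6) (nat_lit 119014131395104562392) (ZL.cons (nat_lit 6384) (nat_lit 6) (nat_lit 119638494096876806356) (ZL.cons (nat_lit 6460) (nat_lit 6) (nat_lit 118621473046799752072) (ZL.cons (nat_lit 6536) (nat_lit 6) (nat_lit 117832956929350674568) (ZL.cons (nat_lit 6612) (nat_lit 6) (nat_lit 117271068325202314136) (ZL.cons (nat_lit 6688) (nat_lit 6) (nat_lit 116934469404344793726) (ZL.cons (nat_lit 6764) (nat_lit 3) (nat_lit 58411179370388035811) (ZL.cons (nat_lit 6840) (nat_lit 6) (nat_lit 116493286487343670884) (ZL.cons (nat_lit 6916) (nat_lit 6) (nat_lit 116634380242911250604) (ZL.cons (nat_lit 6992) (nat_lit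 6) (nat_lit 116916903691559666186) (ZL.cons (nat_lit 7068) (nat_lit 6) (nat_lit 117341529508166651950) (ZL.cons (nat_lit 7144) (nat_lit 6) (nat_lit 117909268706581272150) (ZL.cons (nat_lit 7220) (nat_lit 6) (nat_lit 117028518868763646886) (ZL.cons (nat_lit 7296) (nat_lit 6) (nat_lit 116369784858228311308) (ZL.cons (nat_lit 7372) (nat_lit 6) (nat_lit 115931498260664466996) (ZL.cons (nat_lit 7448) (nat_lit 6) (nat_lit 115712615536554104792) (ZL.cons (nat_lit 7524) (nat_lit 3) (nat_lit 57606606454472465742) (ZL.cons (nat_lit 7600) (nat_lit 6) (nat_lit 115285480442284423536) (ZL.cons (nat_lit 7676) (nat_lit 6) (nat_lit 115502455107858469910) (ZL.cons (nat_lit 7752) (nat_lit 6) (nat_lit 115864653512013675478) (ZL.cons (nat_lit 7828) (nat_lit 6) (nat_lit 116372938031902790728) (ZL.cons (nat_lit 7904) (nat_lit 6) (nat_lit 115621970300998907390) (ZL.cons (nat_lit 7980) (nat_lit 6) (nat_lit 115086838297048087932)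 (ZL.cons (nat_lit 8056) (nat_lit 6) (nat_lit 114766267896231401826) (ZL.cons (nat_lit 8132) (nat_lit 3) (nat_lit 57329747917844880863) (ZL.cons (nat_lit 8208) (nat_lit 6) (nat_lit 114135188970799426062) (ZL.cons (nat_lit 8284) (nat_lit 6) (nat_lit 114283337414145384768) (ZL.cons (nat_lit 8360) (nat_lit 6) (nat_lit 114579987035226221128) (ZL.cons (nat_lit 8436) (nat_lit 6) (nat_lit 115025844142663556182) (ZL.cons (nat_lit 8512) (nat_lit 6) (nat_lit 114398478418344188964) (ZL.cons (nat_lit 8588) (nat_lit 6) (nat_lit 113981062611140527712) (ZL.cons (nat_lit 8664) (nat_lit 6) (nat_lit 113772602873892563710) (ZL.cons (nat_lit 8740) (nat_lit 3) (nat_lit 56590383519619218380) (ZL.cons (nat_lit 8816) (nat_lit 6) (nat_lit 113256647949244903414) (ZL.cons (nat_lit 8892) (nat_lit 6) (nat_lit 113484471348097652106) (ZL.cons (nat_lit 8968) (nat_lit 6) (nat_lit 113864779672460617952) (ZL.cons (nat_lit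 9044) (nat_lit 6) (nat_lit 113355130144888408940) (ZL.cons (nat_lit 9120) (nat_lit 6) (nat_lit 113049825001253469792) (ZL.cons (nat_lit 9196) (nat_lit 3) (nat_lit 56474068662273572945) (ZL.cons (nat_lit 9272) (nat_lit 6) (nat_lit 112419942214431072318) (ZL.cons (nat_lit 9348) (nat_lit 6) (nat_lit 112575498079944328958) (ZL.cons (nat_lit 9424) (nat_lit 6) (nat_lit 112886980182079207136) (ZL.cons (nat_lit 9500) (nat_lit 6) (nat_lit 112489441318075720228) (ZL.cons (nat_lit 9576) (nat_lit 6) (nat_lit 112290908234982421180) (ZL.cons (nat_lit 9652) (nat_lit 3) (nat_lit 55885614026596214990) (ZL.cons (nat_lit 9728) (nat_lit 6) (nat_lit 111850903008699219966) (ZL.cons (nat_lit 9804) (nat_lit 6) (nat_lit 112090117577494606092) (ZL.cons (nat_lit 9880) (nat_lit 6) (nat_lit 111799350774032759284) (ZL.cons (nat_lit 9956) (nat_lit 3) (nat_lit 55851252683822892069) (ZL.cons (nat_lit 10032) (nat_lit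 6) (nat_lit 111308960908002217728) (ZL.cons (nat_lit 10108) (nat_lit 6) (nat_lit 111472294566791137200) (ZL.cons (nat_lit 10184) (nat_lit 6) (nat_lit 111283215440035614294) (ZL.cons (nat_lit 10260) (nat_lit 3) (nat_lit 55474190719759164689) (ZL.cons (nat_lit 10336) (nat_lit 6) (nat_lit 111032040142800458864) (ZL.cons (nat_lit 10412) (nat_lit 3) (nat_lit 55469903211215955552) (ZL.cons (nat_lit 10488) (nat_lit 6) (nat_lit 110768306080703545660) (ZL.cons (nat_lit 10564) (nat_lit 1) (nat_lit 18446744073709551617) ZL.nil)))))))))))))))))))))))))))))))))))))))))))))))))))))))))))))))))))))))))))))))))))))))))))))))))))))))))))))))))))))))))))))))))))))))))))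

noncomputable def vl : XL := ⟨(nat_lit 0), (nat_lit 76), (nat_lit 316668492), (nat_lit 152), (nat_lit 127003519), (nat_lit 152), (nat_lit 127003519), (nat_lit 1), (nat_lit 4), (nat_lit 2), (nat_lit 5), (nat_lit 2), (nat_lit 4), (nat_lit 0), (nat_lit 0), (nat_lit 0)⟩

noncomputable def cp0 : Nat := (nat_lit 4107455013775160341909454905392451157458170436184446964084703972478589199449297011499323292216362839598244112902762584395164672446895278349311130607062684571745804916616423537861707184656383754648148008099819286402140694161853188350202952889590089117093620546724989595088059656938943192064549764037946888267949115911828652118990094034035189587550471408565150471841665438105324678949252151742841596587211301952769001249844958335694109731982511236621774496414441854517398722729241538835966516917549793827855469017787062116696387334583019384403318041270083633513004783801483430802029956686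93526005583241451260788002141814035578782988897063406633039123286679773564277165835420600859874160018072807618300102074266474216931059528912961158311235189297362897666980701844682552557308438733655197156219540903115082060274674762260192434675230031185217168723156413921149593579055429545653251812366081855140829143241370230953530896547468211282832062750842091045536547181448181639644283651718266499250879462771638297117992981004336865512558677843573609096971055329366054832670165695573412311509451044205181040924919919507346575489290952788193021145448490127852419161790444371884664182814245007009117802964367802729976265502387897419266606577249702276593407586836501813116078303317276132379721995892905884166765678223959128290680999477562140515496492399295636394399530496616625931016662064722032486680077438040675659358851703012905260863817031590444618614649464508973311473082831504123741632361360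13070658271301672572161718839874402070766274445422941969623283983626703264470127492122714503738427746286058983274189791428865980658929887693969428779140028581477700897551785831327377998383182320791065066233679651109969796535670903508043856754580265274944880364795191922303379962546778058008121482813378155678710295291379848195078034847122629000984380223098373164226007264984523130198711414364565441981806271704445719515287957217749332353105139799249069087098931022073131142878953870673838634318369174960793305984473301190183486404239463065513821058040085023390465316078162487184128230371810525282795236675505138941394464915120564234201263624333298097108952920853772712332149838699608841417043220937471372355929342654257109164184456416665662970098287692187143538139666879382212068880143531049958960999221451883812908574055220241347666371796511905268407584298721045584366404821855463987603128416887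18867118733081355559446018335377496285728085173134892142797731003801325940441646406263283900392911927218023625480907883371261895861088903093152855312833498766885544054571091103117647050477609009375536623730534298993735194485917938200091654797452478698604767672437874830418742566659383313345580348431393796912099301119913475987643403228439122017842169555924482459464641903546344434093733377389515951715758071594606857729973747232527891576567794376947328702937535131938001781499842459752118933687820448942976271854462326193902925119438610759380367943272048229219441127461454748626015160361178274685392540816394418789774375407841823070811500039575843181119584439569394931644630445728171574556478330505115482499588147466650315062516306357600495759360301990418234052079124131162242526086128716557091646964477615844394618847232)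

noncomputable def cp1 : Nat := (nat_lit 46526020004401975583546882491867444877322524434824867362206843409841621222860874717314471998114910722229488290109351117736618585502800118378394293295753990018845022783939346020827690028963737809575474826764897540251742507126802121421738141309992051132141474356768272907208607057603559912125098751445058058830565783241540351594756533535372313163369363578717126626860845388390710724151829961488733201176334946665777644925655524856475721153854492603669455356692384271958469875875597125535420147440646544412787663820273051331627061935175869775747061779268685185240994035344293278476746041880472617100733873634096317089603594001679718386703592317768743349574319099496297679784061791793158974377609988389191676113115598605261277627020032057871407355268919428918047632268987074544505066604479844556330325161083193045493708401575010895009883024595193858182003822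29224025707948758521662195295777390272886444349561402736380228283287319243856207080166950251395234562886890033802120831597727892268452212024283623282560702884853121980291892527103483633303112319224309802649078027863881472125081929069450429345720702247519102651104387052631753680227322181603944770930619111865816769485127300463816603599180978514719249148900999329761900523365574368172927876149556495643151232970003862514049449886926081334623664007010585213201461092202012537237700197821732611403354003034086045129305864892641840510668838992038596869016356692199015669994996952974641705962555803049663567503469491714820633824464336906345333612413727889239401942728531764267636725368832988303086690013349805876017682151575719759433446250578360718509778828786522806615513363494497947669089980034723040735323507109339067980690154923266158977959631430664410802127447521679111507862484921004074429034035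16675702764860386778059723679149225221451322844882232918279786765273640265369481474824150820126102004013866210948753723322398464491171675764793701457176023341737544032093870582693342694887336849226255241475549426425732224420027195633519894664094158199887158243630287069248594420375064313430556036537391439419385250090151334964662412689112768507031525913588417255360707967833188662901818705576144155836309322475273824863518315022167632798369594867768393907105265789570523256022630656440759065567822792109002131768678857412778821901456869620856062364163258352556673271834137515476969986889433104828008516328456764870286528368559957422088929997454262449037553292061922514300355593387423200642798189594416121048142775058888218323319419011331815070472151352309657050083015294877971616301613997415643997228800004696335949954140407713447553597019262780734416705109278336973049785128547628259105684914475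4048362511439721369434617457147426734591991633605674112856658608665854140206392644426959071527429352313073184277449672558828547902891792396318230382128902932998324278276396674247750564445578172554256486545763050154004855294382225766728909575257972475453606893141113756165236292326062918812028746094801251957277396065487760530303479459930703830849448702250470310207336090826551971332273951680215619231982097678733742766709531895740073289782234867576673404415240698923958215173935358005104728724905382826692877010856114302525564638057868224950279023362048)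

noncomputable def rc0 : Nat := (nat_lit 42922154794078101347742464621534746013335455231044878458422292926702564940275524230440695437068134865062629845985022314405240665241116016037497263756067078898564372617255289022399065031796030859263414808147256191093894422013793161366073818817199581268244056260101484480949382105869342847028497037377461763721098419678002115853162284378905397366641788843081363196220294217529207796046333845293913609194998447153501655930630597620977709545245924433062257933621272253080698645139922800176339532162713879046690014643088079765419786863990746239576439673158085630934322673906133684249779660455025847624457308523184942747643925187408847833753616204312002130551288367939007532061840357654165524654401657891971046821498725301106040879632361597770453108438624856360981357927661437031278227007177211608046732365085241838094331838368270905781495635485799967517149373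59556872170619899543015454299145936079605921915285332687260351659840726072548831973290258757628441443836735562092703021617245324570695985905802226015424683385015937575779519023985737589647514777626359599132275473885353037186363938860973439579267309729184598591283006653060278707620658948105765122253870368973647565864264835435385117647846411455759608224356336663686454039814088691898511662581173796628235352881806286985849994767916730343054888007130983717881030680033605130048191235650475876517169379184297973310914335743049484113867717301607397817018982813041954085755001829238334153691628364577874936325886729958905322846235976986527878271314769303206937130211606011773149460528964176056994925546871045688134206330583109151776458058192264390234774732255523075776314554974193070997237682809537380164762520391348250712292799544656787133669005895072472547242379735861290589490913975335258324549524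77446738689262416839786217040057704566655107001301011446645081244052204223602650363566128215503022976705863485405071611234562703888397093018053855920891412200030249361862374318102046722826455615204327429639360098875738641215379450285062239488332877987128771874862792009392119803631684420790150715592472166653333169352352811255917154385257744018469227627953375210413933310936464596474721475941596382484309660148435309047515407971399892677062441131166696296114044798999797521010416237121997081519875441473863234475210766311128576579995936304863032692043738940363729892661081121819835616131539398645784104105513791438307795364679701632472798246920010625669039542297805439161113154966259306158800319464032572860583719209586436705145846434768744510353580781598024482706657693741013628704159181811800577058758460836377358459614166106119113747625970271160530841186716938762278944703985004319886488096720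9379266018026484904872842653077005518344066407291790088599009114472222986161919212052121634248552609293448288883913091876548065195377730466992922693729281328723162240372343951882160468827732339057726500665222850923602566065629122103177530591103206263397064607453104806926240090881243006360809723016184018591420758554121480633114703858347091396820824754480372478340172683425842277497484952397122608209996587863979396211859553128663105802058591742609399692516137775658001787360304145714299759419675875909512495601046951384778740360894746563852563277414400)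

noncomputable def rc1 : Nat := (nat_lit 46526020004401975583546882491867444877322524434824867362206843409841621222860874717314471998114910722229488290109351117736618585502800118378394293295753990018845022783939346020827690028963737809575474826764897540251742507126802121421738141309992051132141474356768272907208607057603559912125098751445058058830565783241540351594756533535372313163369363578717126626860845388390710724151829961488733201176334946665777644925655524856475721153854492603669455356692384271958469875875597125535420147440646544412787663820273051331627061935175869775747061779268685185240994035344293278476746041880472617100733873634096317089603594001679718386703592317768743349574319099496297679784061791793158974377609988389191676113115598605261277627020032057871407355268919428918047632268987074544505066604479844556330325161083193045493708401575010895009883024595193858182003822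29224025707948758521662195295777390272886444349561402736380228283287319243856207080166950251395234562886890033802120831597727892268452212024283623282560702884853121980291892527103483633303112319224309802649078027863881472125081929069450429345720702247519102651104387052631753680227322181603944770930619111865816769485127300463816603599180978514719249148900999329761900523365574368172927876149556495643151232970003862514049449886926081334623664007010585213201461092202012537237700197821732611403354003034086045129305864892641840510668838992038596869016356692199015669994996952974641705962555803049663567503469491714820633824464336906345333612413727889239401942728531764267636725368832988303086690013349805876017682151575719759433446250578360718509778828786522806615513363494497947669089980034723040735323507109339067980690154923266158977959631430664410802127447521679111507862484921004074429034035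16675702764860386778059723679149225221451322844882232918279786765273640265369481474824150820126102004013866210948753723322398464491171675764793701457176023341737544032093870582693342694887336849226255241475549426425732224420027195633519894664094158199887158243630287069248594420375064313430556036537391439419385250090151334964662412689112768507031525913588417255360707967833188662901818705576144155836309322475273824863518315022167632798369594867768393907105265789570523256022630656440759065567822792109002131768678857412778821901456869620856062364163258352556673271834137515476969986889433104828008516328456764870286528368559957422088929997454262449037553292061922514300355593387423200642798189594416121048142775058888218323319419011331815070472151352309657050083015294877971616301613997415643997228800004696335949954140407713447553597019262780734416705109278336973049785128547628259105684914475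4048362511439721369434617457147426734591991633605674112856658608665854140206392644426959071527429352313073184277449672558828547902891792396318230382128902932998324278276396674247750564445578172554256486545763050154004855294382225766728909575257972475453606893141113756165236292326062918812028746094801251957277396065487760530303479459930703830849448702250470310207336090826551971332273951680215619231982097678733742766709531895740073289782234867576673404415240698923958215173935358005104728724905382826692877010856114302525564638057868224950279023362048)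

end Vale.Agent.Lib.P154.PChain.BN.S4
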